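import Vale.Agent.Lib.P154.PChain.BM.L

set_option linter.all false

namespace Vale.Agent.Lib.P154.PChain.BM.S0

open Vale.Agent.Lib.P154.Chain

noncomputable def pc0 : PT := (PT.nd (nat_lit 3517488) (PT.nd (nat_lit 3380052) (PT.nd (nat_lit 3311334) (PT.nd (nat_lit 3277014) (PT.nd (nat_lit 3276936) (PT.nd (nat_lit 3242616) PT.nil (PT.lf (nat_lit 76) (nat_lit 3) (nat_lit 1) (nat_lit 1) (nat_lit 118) (nat_lit 94) (nat_lit 118))) (PT.lf (nat_lit 152) (nat_lit 6) (nat_lit 2) (nat_lit 3) (nat_lit 117) (nat_lit 95) (nat_lit 118))) (PT.nd (nat_lit 34242) (PT.lf (nat_lit 152) (nat_lit 6) (nat_lit 2) (nat_lit 1) (nat_lit 118) (nat_lit 95) (nat_lit 117)) (PT.lf (nat_lit 228) (nat_lit 6) (nat_lit 3) (nat_lit 3) (nat_lit 116) (nat_lit 96) (nat_lit 118)))) (PT.nd (nat_lit 34320) (PT.nd (nat_lit 78) (PT.lf (nat_lit 304) (nat_lit 3) (nat_lit 4) (nat_lit 1) (nat_lit 117) (nat_lit 96) (nat_lit 117)) (PT.lf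 (nat_lit 228) (nat_lit 6) (nat_lit 3) (nat_lit 1) (nat_lit 118) (nat_lit 96) (nat_lit 116))) (PT.nd (nat_lit 78) (PT.lf (nat_lit 380) (nat_lit 6) (nat_lit 5) (nat_lit 3) (nat_lit 116) (nat_lit 97) (nat_lit 117)) (PT.nd (nat_lit 34242) (PT.lf (nat_lit 380) (nat_lit 6) (nat_lit 5) (nat_lit 1) (nat_lit 117) (nat_lit 97) (nat_lit 116)) (PT.lf (nat_lit 456) (nat_lit 6) (nat_lit 6) (nat_lit 3) (nat_lit 115) (nat_lit 98) (nat_lit 117)))))) (PT.nd (nat_lit 68718) (PT.nd (nat_lit 34320) (PT.nd (nat_lit 78) (PT.lf (nat_lit 532) (nat_lit 3) (nat_lit 7) (nat_lit 1) (nat_lit 116) (nat_lit 98) (nat_lit 116)) (PT.lf (nat_lit 456) (nat_lit 6) (nat_lit 6) (nat_lit 1) (nat_lit 117) (nat_lit 98) (nat_lit 115))) (PT.nd (nat_lit 78) (PT.lf (nat_lit 608) (nat_lit 6) (nat_lit 8) (nat_lit 3) (nat_lit 115) (nat_lit 99) (nat_lit 116)) (PT.nd (nat_lit 34242) (PT.lf (nat_lit 608) (nat_lit 6) (nat_lit 8) (nat_lit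 1) (nat_lit 116) (nat_lit 99) (nat_lit 115)) (PT.lf (nat_lit 684) (nat_lit 6) (nat_lit 9) (nat_lit 3) (nat_lit 114) (nat_lit 100) (nat_lit 116))))) (PT.nd (nat_lit 34320) (PT.nd (nat_lit 78) (PT.lf (nat_lit 760) (nat_lit 3) (nat_lit 10) (nat_lit 1) (nat_lit 115) (nat_lit 100) (nat_lit 115)) (PT.lf (nat_lit 684) (nat_lit 6) (nat_lit 9) (nat_lit 1) (nat_lit 116) (nat_lit 100) (nat_lit 114))) (PT.nd (nat_lit 78) (PT.lf (nat_lit 836) (nat_lit 6) (nat_lit 11) (nat_lit 3) (nat_lit 114) (nat_lit 101) (nat_lit 115)) (PT.nd (nat_lit 34242) (PT.lf (nat_lit 836) (nat_lit 6) (nat_lit 11) (nat_lit 1) (nat_lit 115) (nat_lit 101) (nat_lit 114)) (PT.lf (nat_lit 912) (nat_lit 6) (nat_lit 12) (nat_lit 3) (nat_lit 113) (nat_lit 102) (nat_lit 115))))))) (PT.nd (nat_lit 103038) (PT.nd (nat_lit 34476) (PT.nd (nat_lit 34242) (PT.nd (nat_lit 78) (PT.lf (nat_lit 988) (nat_lit 3) (nat_lit 13) (nat_lit 1) (nat_lit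 114) (nat_lit 102) (nat_lit 114)) (PT.lf (nat_lit 912) (nat_lit 6) (nat_lit 12) (nat_lit 1) (nat_lit 115) (nat_lit 102) (nat_lit 113))) (PT.nd (nat_lit 78) (PT.lf (nat_lit 1064) (nat_lit 6) (nat_lit 14) (nat_lit 3) (nat_lit 112) (nat_lit 103) (nat_lit 115)) (PT.nd (nat_lit 78) (PT.lf (nat_lit 1140) (nat_lit 6) (nat_lit 15) (nat_lit 3) (nat_lit 113) (nat_lit 103) (nat_lit 114)) (PT.lf (nat_lit 1140) (nat_lit 6) (nat_lit 15) (nat_lit 1) (nat_lit 114) (nat_lit 103) (nat_lit 113))))) (PT.nd (nat_lit 34242) (PT.nd (nat_lit 34164) (PT.lf (nat_lit 1064) (nat_lit 6) (nat_lit 14) (nat_lit 1) (nat_lit 115) (nat_lit 103) (nat_lit 112)) (PT.lf (nat_lit 1216) (nat_lit 6) (nat_lit 16) (nat_lit 3) (nat_lit 112) (nat_lit 104) (nat_lit 114))) (PT.nd (nat_lit 78) (PT.lf (nat_lit 1292) (nat_lit 3) (nat_lit 17) (nat_lit 1) (nat_lit 113) (nat_lit 104) (nat_lit 113)) (PT.nd (nat_lit 34164) (PT.lf (nat_lit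 1216) (nat_lit 6) (nat_lit 16) (nat_lit 1) (nat_lit 114) (nat_lit 104) (nat_lit 112)) (PT.lf (nat_lit 1368) (nat_lit 6) (nat_lit 18) (nat_lit 3) (nat_lit 111) (nat_lit 105) (nat_lit 114)))))) (PT.nd (nat_lit 34398) (PT.nd (nat_lit 156) (PT.nd (nat_lit 78) (PT.lf (nat_lit 1444) (nat_lit 6) (nat_lit 19) (nat_lit 3) (nat_lit 112) (nat_lit 105) (nat_lit 113)) (PT.lf (nat_lit 1444) (nat_lit 6) (nat_lit 19) (nat_lit 1) (nat_lit 113) (nat_lit 105) (nat_lit 112))) (PT.nd (nat_lit 34086) (PT.lf (nat_lit 1368) (nat_lit 6) (nat_lit 18) (nat_lit 1) (nat_lit 114) (nat_lit 105) (nat_lit 111)) (PT.nd (nat_lit 78) (PT.lf (nat_lit 1672) (nat_lit 6) (nat_lit 22) (nat_lit 3) (nat_lit 110) (nat_lit 106) (nat_lit 114)) (PT.lf (nat_lit 1748) (nat_lit 6) (nat_lit 23) (nat_lit 3) (nat_lit 111) (nat_lit 106) (nat_lit 113))))) (PT.nd (nat_lit 156) (PT.nd (nat_lit 78) (PT.lf (nat_lit 1824) (nat_lit 3) (nat_lit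 24) (nat_lit 1) (nat_lit 112) (nat_lit 106) (nat_lit 112)) (PT.lf (nat_lit 1748) (nat_lit 6) (nat_lit 23) (nat_lit 1) (nat_lit 113) (nat_lit 106) (nat_lit 111))) (PT.nd (nat_lit 34008) (PT.lf (nat_lit 1672) (nat_lit 6) (nat_lit 22) (nat_lit 1) (nat_lit 114) (nat_lit 106) (nat_lit 110)) (PT.nd (nat_lit 78) (PT.lf (nat_lit 1596) (nat_lit 6) (nat_lit 21) (nat_lit 3) (nat_lit 109) (nat_lit 107) (nat_lit 114)) (PT.lf (nat_lit 1976) (nat_lit 6) (nat_lit 26) (nat_lit 3) (nat_lit 110) (nat_lit 107) (nat_lit 113))))))))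
noncomputable def pc1 : PT := (PT.nd (nat_lit 102804) (PT.nd (nat_lit 34554) (PT.nd (nat_lit 34164) (PT.nd (nat_lit 156) (PT.nd (nat_lit 78) (PT.lf (nat_lit 2052) (nat_lit 6) (nat_lit 27) (nat_lit 3) (nat_lit 111) (nat_lit 107) (nat_lit 112)) (PT.lf (nat_lit 2052) (nat_lit 6) (nat_lit 27) (nat_lit 1) (nat_lit 112) (nat_lit 107) (nat_lit 111))) (PT.nd (nat_lit 78) (PT.lf (nat_lit 1976) (nat_lit 6) (nat_lit 26) (nat_lit 1) (nat_lit 113) (nat_lit 107) (nat_lit 110)) (PT.lf (nat_lit 1596) (nat_lit 6) (nat_lit 21) (nat_lit 1) (nat_lit 114) (nat_lit 107) (nat_lit 109)))) (PT.nd (nat_lit 156) (PT.nd (nat_lit 78) (PT.lf (nat_lit 1520) (nat_lit 3) (nat_lit 20) (nat_lit 3) (nat_lit 108) (nat_lit 108) (nat_lit 114)) (PT.lf (nat_lit 1900) (nat_lit 6) (nat_lit 25) (nat_lit 3) (nat_lit 109) (nat_lit 108) (nat_lit 113))) (PT.nd (nat_lit 78) (PT.lf (nat_lit 2204) (nat_lit 6) (nat_lit 29) (nat_lit 3)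 (nat_lit 110) (nat_lit 108) (nat_lit 112)) (PT.nd (nat_lit 78) (PT.lf (nat_lit 2280) (nat_lit 3) (nat_lit 30) (nat_lit 1) (nat_lit 111) (nat_lit 108) (nat_lit 111)) (PT.lf (nat_lit 2204) (nat_lit 6) (nat_lit 29) (nat_lit 1) (nat_lit 112) (nat_lit 108) (nat_lit 110)))))) (PT.nd (nat_lit 34164) (PT.nd (nat_lit 33930) (PT.nd (nat_lit 78) (PT.lf (nat_lit 1900) (nat_lit 6) (nat_lit 25) (nat_lit 1) (nat_lit 113) (nat_lit 108) (nat_lit 109)) (PT.lf (nat_lit 1520) (nat_lit 3) (nat_lit 20) (nat_lit 0) (nat_lit 114) (nat_lit 108) (nat_lit 108))) (PT.nd (nat_lit 78) (PT.lf (nat_lit 1596) (nat_lit 6) (nat_lit 21) (nat_lit 5) (nat_lit 107) (nat_lit 109) (nat_lit 114)) (PT.nd (nat_lit 78) (PT.lf (nat_lit 1900) (nat_lit 6) (nat_lit 25) (nat_lit 5) (nat_lit 108) (nat_lit 109) (nat_lit 113)) (PT.lf (nat_lit 2128) (nat_lit 3) (nat_lit 28) (nat_lit 3) (nat_lit 109) (nat_lit 109) (nat_lit 112))))) (PT.nd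 (nat_lit 156) (PT.nd (nat_lit 78) (PT.lf (nat_lit 2356) (nat_lit 6) (nat_lit 31) (nat_lit 3) (nat_lit 110) (nat_lit 109) (nat_lit 111)) (PT.lf (nat_lit 2356) (nat_lit 6) (nat_lit 31) (nat_lit 1) (nat_lit 111) (nat_lit 109) (nat_lit 110))) (PT.nd (nat_lit 78) (PT.lf (nat_lit 2128) (nat_lit 3) (nat_lit 28) (nat_lit 0) (nat_lit 112) (nat_lit 109) (nat_lit 109)) (PT.nd (nat_lit 78) (PT.lf (nat_lit 1900) (nat_lit 6) (nat_lit 25) (nat_lit 0) (nat_lit 113) (nat_lit 109) (nat_lit 108)) (PT.lf (nat_lit 1596) (nat_lit 6) (nat_lit 21) (nat_lit 0) (nat_lit 114) (nat_lit 109) (nat_lit 107))))))) (PT.nd (nat_lit 34398) (PT.nd (nat_lit 390) (PT.nd (nat_lit 156) (PT.nd (nat_lit 78) (PT.lf (nat_lit 1672) (nat_lit 6) (nat_lit 22) (nat_lit 5) (nat_lit 106) (nat_lit 110) (nat_lit 114)) (PT.lf (nat_lit 1976) (nat_lit 6) (nat_lit 26) (nat_lit 5) (nat_lit 107) (nat_lit 110) (nat_lit 113))) (PT.nd (nat_lit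 78) (PT.lf (nat_lit 2204) (nat_lit 6) (nat_lit 29) (nat_lit 5) (nat_lit 108) (nat_lit 110) (nat_lit 112)) (PT.nd (nat_lit 78) (PT.lf (nat_lit 2356) (nat_lit 6) (nat_lit 31) (nat_lit 5) (nat_lit 109) (nat_lit 110) (nat_lit 111)) (PT.lf (nat_lit 2432) (nat_lit 1) (nat_lit 32) (nat_lit 0) (nat_lit 110) (nat_lit 110) (nat_lit 110))))) (PT.nd (nat_lit 156) (PT.nd (nat_lit 78) (PT.lf (nat_lit 2356) (nat_lit 6) (nat_lit 31) (nat_lit 0) (nat_lit 111) (nat_lit 110) (nat_lit 109)) (PT.lf (nat_lit 2204) (nat_lit 6) (nat_lit 29) (nat_lit 0) (nat_lit 112) (nat_lit 110) (nat_lit 108))) (PT.nd (nat_lit 78) (PT.lf (nat_lit 1976) (nat_lit 6) (nat_lit 26) (nat_lit 0) (nat_lit 113) (nat_lit 110) (nat_lit 107)) (PT.nd (nat_lit 33696) (PT.lf (nat_lit 1672) (nat_lit 6) (nat_lit 22) (nat_lit 0) (nat_lit 114) (nat_lit 110) (nat_lit 106)) (PT.lf (nat_lit 1368) (nat_lit 6) (nat_lit 18) (nat_lit 5) (nat_lit 105)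 (nat_lit 111) (nat_lit 114)))))) (PT.nd (nat_lit 390) (PT.nd (nat_lit 156) (PT.nd (nat_lit 78) (PT.lf (nat_lit 1748) (nat_lit 6) (nat_lit 23) (nat_lit 5) (nat_lit 106) (nat_lit 111) (nat_lit 113)) (PT.lf (nat_lit 2052) (nat_lit 6) (nat_lit 27) (nat_lit 5) (nat_lit 107) (nat_lit 111) (nat_lit 112))) (PT.nd (nat_lit 78) (PT.lf (nat_lit 2280) (nat_lit 3) (nat_lit 30) (nat_lit 4) (nat_lit 108) (nat_lit 111) (nat_lit 111)) (PT.nd (nat_lit 78) (PT.lf (nat_lit 2356) (nat_lit 6) (nat_lit 31) (nat_lit 4) (nat_lit 109) (nat_lit 111) (nat_lit 110)) (PT.lf (nat_lit 2356) (nat_lit 6) (nat_lit 31) (nat_lit 2) (nat_lit 110) (nat_lit 111) (nat_lit 109))))) (PT.nd (nat_lit 156) (PT.nd (nat_lit 78) (PT.lf (nat_lit 2280) (nat_lit 3) (nat_lit 30) (nat_lit 0) (nat_lit 111) (nat_lit 111) (nat_lit 108)) (PT.lf (nat_lit 2052) (nat_lit 6) (nat_lit 27) (nat_lit 0) (nat_lit 112) (nat_lit 111) (nat_lit 107))) (PT.nd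 (nat_lit 78) (PT.lf (nat_lit 1748) (nat_lit 6) (nat_lit 23) (nat_lit 0) (nat_lit 113) (nat_lit 111) (nat_lit 106)) (PT.nd (nat_lit 33540) (PT.lf (nat_lit 1368) (nat_lit 6) (nat_lit 18) (nat_lit 0) (nat_lit 114) (nat_lit 111) (nat_lit 105)) (PT.lf (nat_lit 1064) (nat_lit 6) (nat_lit 14) (nat_lit 5) (nat_lit 103) (nat_lit 112) (nat_lit 115))))))))
noncomputable def pc2 : PT := (PT.nd (nat_lit 34788) (PT.nd (nat_lit 702) (PT.nd (nat_lit 312) (PT.nd (nat_lit 156) (PT.nd (nat_lit 78) (PT.lf (nat_lit 1216) (nat_lit 6) (nat_lit 16) (nat_lit 5) (nat_lit 104) (nat_lit 112) (nat_lit 114)) (PT.lf (nat_lit 1444) (nat_lit 6) (nat_lit 19) (nat_lit 5) (nat_lit 105) (nat_lit 112) (nat_lit 113))) (PT.nd (nat_lit 78) (PT.lf (nat_lit 1824) (nat_lit 3) (nat_lit 24) (nat_lit 4) (nat_lit 106) (nat_lit 112) (nat_lit 112)) (PT.lf (nat_lit 2052) (nat_lit 6) (nat_lit 27) (nat_lit 4) (nat_lit 107) (nat_lit 112)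 (nat_lit 111)))) (PT.nd (nat_lit 156) (PT.nd (nat_lit 78) (PT.lf (nat_lit 2204) (nat_lit 6) (nat_lit 29) (nat_lit 4) (nat_lit 108) (nat_lit 112) (nat_lit 110)) (PT.lf (nat_lit 2128) (nat_lit 3) (nat_lit 28) (nat_lit 2) (nat_lit 109) (nat_lit 112) (nat_lit 109))) (PT.nd (nat_lit 78) (PT.lf (nat_lit 2204) (nat_lit 6) (nat_lit 29) (nat_lit 2) (nat_lit 110) (nat_lit 112) (nat_lit 108)) (PT.nd (nat_lit 78) (PT.lf (nat_lit 2052) (nat_lit 6) (nat_lit 27) (nat_lit 2) (nat_lit 111) (nat_lit 112) (nat_lit 107)) (PT.lf (nat_lit 1824) (nat_lit 3) (nat_lit 24) (nat_lit 0) (nat_lit 112) (nat_lit 112) (nat_lit 106)))))) (PT.nd (nat_lit 33696) (PT.nd (nat_lit 156) (PT.nd (nat_lit 78) (PT.lf (nat_lit 1444) (nat_lit 6) (nat_lit 19) (nat_lit 0) (nat_lit 113) (nat_lit 112) (nat_lit 105)) (PT.lf (nat_lit 1216) (nat_lit 6) (nat_lit 16) (nat_lit 0) (nat_lit 114) (nat_lit 112) (nat_lit 104))) (PT.nd (nat_lit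 33384) (PT.lf (nat_lit 1064) (nat_lit 6) (nat_lit 14) (nat_lit 0) (nat_lit 115) (nat_lit 112) (nat_lit 103)) (PT.nd (nat_lit 78) (PT.lf (nat_lit 912) (nat_lit 6) (nat_lit 12) (nat_lit 5) (nat_lit 102) (nat_lit 113) (nat_lit 115)) (PT.lf (nat_lit 1140) (nat_lit 6) (nat_lit 15) (nat_lit 5) (nat_lit 103) (nat_lit 113) (nat_lit 114))))) (PT.nd (nat_lit 156) (PT.nd (nat_lit 78) (PT.lf (nat_lit 1292) (nat_lit 3) (nat_lit 17) (nat_lit 4) (nat_lit 104) (nat_lit 113) (nat_lit 113)) (PT.lf (nat_lit 1444) (nat_lit 6) (nat_lit 19) (nat_lit 4) (nat_lit 105) (nat_lit 113) (nat_lit 112))) (PT.nd (nat_lit 78) (PT.lf (nat_lit 1748) (nat_lit 6) (nat_lit 23) (nat_lit 4) (nat_lit 106) (nat_lit 113) (nat_lit 111)) (PT.nd (nat_lit 78) (PT.lf (nat_lit 1976) (nat_lit 6) (nat_lit 26) (nat_lit 4) (nat_lit 107) (nat_lit 113) (nat_lit 110)) (PT.lf (nat_lit 1900) (nat_lit 6) (nat_lit 25) (nat_lit 4) (nat_lit 108)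 (nat_lit 113) (nat_lit 109))))))) (PT.nd (nat_lit 33930) (PT.nd (nat_lit 390) (PT.nd (nat_lit 156) (PT.nd (nat_lit 78) (PT.lf (nat_lit 1900) (nat_lit 6) (nat_lit 25) (nat_lit 2) (nat_lit 109) (nat_lit 113) (nat_lit 108)) (PT.lf (nat_lit 1976) (nat_lit 6) (nat_lit 26) (nat_lit 2) (nat_lit 110) (nat_lit 113) (nat_lit 107))) (PT.nd (nat_lit 78) (PT.lf (nat_lit 1748) (nat_lit 6) (nat_lit 23) (nat_lit 2) (nat_lit 111) (nat_lit 113) (nat_lit 106)) (PT.nd (nat_lit 78) (PT.lf (nat_lit 1444) (nat_lit 6) (nat_lit 19) (nat_lit 2) (nat_lit 112) (nat_lit 113) (nat_lit 105)) (PT.lf (nat_lit 1292) (nat_lit 3) (nat_lit 17) (nat_lit 0) (nat_lit 113) (nat_lit 113) (nat_lit 104))))) (PT.nd (nat_lit 33306) (PT.nd (nat_lit 78) (PT.lf (nat_lit 1140) (nat_lit 6) (nat_lit 15) (nat_lit 0) (nat_lit 114) (nat_lit 113) (nat_lit 103)) (PT.lf (nat_lit 912) (nat_lit 6) (nat_lit 12) (nat_lit 0) (nat_lit 115) (nat_lit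 113) (nat_lit 102))) (PT.nd (nat_lit 78) (PT.lf (nat_lit 684) (nat_lit 6) (nat_lit 9) (nat_lit 5) (nat_lit 100) (nat_lit 114) (nat_lit 116)) (PT.nd (nat_lit 78) (PT.lf (nat_lit 836) (nat_lit 6) (nat_lit 11) (nat_lit 5) (nat_lit 101) (nat_lit 114) (nat_lit 115)) (PT.lf (nat_lit 988) (nat_lit 3) (nat_lit 13) (nat_lit 4) (nat_lit 102) (nat_lit 114) (nat_lit 114)))))) (PT.nd (nat_lit 390) (PT.nd (nat_lit 156) (PT.nd (nat_lit 78) (PT.lf (nat_lit 1140) (nat_lit 6) (nat_lit 15) (nat_lit 4) (nat_lit 103) (nat_lit 114) (nat_lit 113)) (PT.lf (nat_lit 1216) (nat_lit 6) (nat_lit 16) (nat_lit 4) (nat_lit 104) (nat_lit 114) (nat_lit 112))) (PT.nd (nat_lit 78) (PT.lf (nat_lit 1368) (nat_lit 6) (nat_lit 18) (nat_lit 4) (nat_lit 105) (nat_lit 114) (nat_lit 111)) (PT.nd (nat_lit 78) (PT.lf (nat_lit 1672) (nat_lit 6) (nat_lit 22) (nat_lit 4) (nat_lit 106) (nat_lit 114) (nat_lit 110)) (PT.lf (nat_lit 1596)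 (nat_lit 6) (nat_lit 21) (nat_lit 4) (nat_lit 107) (nat_lit 114) (nat_lit 109))))) (PT.nd (nat_lit 156) (PT.nd (nat_lit 78) (PT.lf (nat_lit 1520) (nat_lit 3) (nat_lit 20) (nat_lit 2) (nat_lit 108) (nat_lit 114) (nat_lit 108)) (PT.lf (nat_lit 1596) (nat_lit 6) (nat_lit 21) (nat_lit 2) (nat_lit 109) (nat_lit 114) (nat_lit 107))) (PT.nd (nat_lit 78) (PT.lf (nat_lit 1672) (nat_lit 6) (nat_lit 22) (nat_lit 2) (nat_lit 110) (nat_lit 114) (nat_lit 106)) (PT.nd (nat_lit 78) (PT.lf (nat_lit 1368) (nat_lit 6) (nat_lit 18) (nat_lit 2) (nat_lit 111) (nat_lit 114) (nat_lit 105)) (PT.lf (nat_lit 1216) (nat_lit 6) (nat_lit 16) (nat_lit 2) (nat_lit 112) (nat_lit 114) (nat_lit 104))))))))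
noncomputable def pc3 : PT := (PT.nd (nat_lit 67782) (PT.nd (nat_lit 34320) (PT.nd (nat_lit 33306) (PT.nd (nat_lit 156) (PT.nd (nat_lit 78) (PT.lf (nat_lit 1140) (nat_lit 6) (nat_lit 15) (nat_lit 2) (nat_lit 113) (nat_lit 114) (nat_lit 103)) (PT.lf (nat_lit 988) (nat_lit 3) (nat_lit 13) (nat_lit 0) (nat_lit 114) (nat_lit 114) (nat_lit 102))) (PT.nd (nat_lit 78) (PT.lf (nat_lit 836) (nat_lit 6) (nat_lit 11) (nat_lit 0) (nat_lit 115) (nat_lit 114) (nat_lit 101)) (PT.nd (nat_lit 32994) (PT.lf (nat_lit 684) (nat_lit 6) (nat_lit 9) (nat_lit 0) (nat_lit 116) (nat_lit 114) (nat_lit 100)) (PT.lf (nat_lit 456) (nat_lit 6) (nat_lit 6) (nat_lit 5) (nat_lit 98) (nat_lit 115) (nat_lit 117))))) (PT.nd (nat_lit 156) (PT.nd (nat_lit 78) (PT.lf (nat_lit 608) (nat_lit 6) (nat_lit 8) (nat_lit 5) (nat_lit 99) (nat_lit 115) (nat_lit 116)) (PT.lf (nat_lit 760) (nat_lit 3) (nat_lit 10) (nat_lit 4) (nat_lit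 100) (nat_lit 115) (nat_lit 115))) (PT.nd (nat_lit 78) (PT.lf (nat_lit 836) (nat_lit 6) (nat_lit 11) (nat_lit 4) (nat_lit 101) (nat_lit 115) (nat_lit 114)) (PT.nd (nat_lit 78) (PT.lf (nat_lit 912) (nat_lit 6) (nat_lit 12) (nat_lit 4) (nat_lit 102) (nat_lit 115) (nat_lit 113)) (PT.lf (nat_lit 1064) (nat_lit 6) (nat_lit 14) (nat_lit 4) (nat_lit 103) (nat_lit 115) (nat_lit 112)))))) (PT.nd (nat_lit 390) (PT.nd (nat_lit 156) (PT.nd (nat_lit 78) (PT.lf (nat_lit 1064) (nat_lit 6) (nat_lit 14) (nat_lit 2) (nat_lit 112) (nat_lit 115) (nat_lit 103)) (PT.lf (nat_lit 912) (nat_lit 6) (nat_lit 12) (nat_lit 2) (nat_lit 113) (nat_lit 115) (nat_lit 102))) (PT.nd (nat_lit 78) (PT.lf (nat_lit 836) (nat_lit 6) (nat_lit 11) (nat_lit 2) (nat_lit 114) (nat_lit 115) (nat_lit 101)) (PT.nd (nat_lit 78) (PT.lf (nat_lit 760) (nat_lit 3) (nat_lit 10) (nat_lit 0) (nat_lit 115) (nat_lit 115) (nat_lit 100)) (PT.lf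 (nat_lit 608) (nat_lit 6) (nat_lit 8) (nat_lit 0) (nat_lit 116) (nat_lit 115) (nat_lit 99))))) (PT.nd (nat_lit 32838) (PT.nd (nat_lit 32760) (PT.lf (nat_lit 456) (nat_lit 6) (nat_lit 6) (nat_lit 0) (nat_lit 117) (nat_lit 115) (nat_lit 98)) (PT.lf (nat_lit 228) (nat_lit 6) (nat_lit 3) (nat_lit 5) (nat_lit 96) (nat_lit 116) (nat_lit 118))) (PT.nd (nat_lit 78) (PT.lf (nat_lit 380) (nat_lit 6) (nat_lit 5) (nat_lit 5) (nat_lit 97) (nat_lit 116) (nat_lit 117)) (PT.nd (nat_lit 78) (PT.lf (nat_lit 532) (nat_lit 3) (nat_lit 7) (nat_lit 4) (nat_lit 98) (nat_lit 116) (nat_lit 116)) (PT.lf (nat_lit 608) (nat_lit 6) (nat_lit 8) (nat_lit 4) (nat_lit 99) (nat_lit 116) (nat_lit 115))))))) (PT.nd (nat_lit 35568) (PT.nd (nat_lit 1404) (PT.nd (nat_lit 1170) (PT.nd (nat_lit 1092) (PT.lf (nat_lit 684) (nat_lit 6) (nat_lit 9) (nat_lit 4) (nat_lit 100) (nat_lit 116) (nat_lit 114)) (PT.lf (nat_lit 684) (nat_lit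 6) (nat_lit 9) (nat_lit 2) (nat_lit 114) (nat_lit 116) (nat_lit 100))) (PT.nd (nat_lit 78) (PT.lf (nat_lit 608) (nat_lit 6) (nat_lit 8) (nat_lit 2) (nat_lit 115) (nat_lit 116) (nat_lit 99)) (PT.nd (nat_lit 78) (PT.lf (nat_lit 532) (nat_lit 3) (nat_lit 7) (nat_lit 0) (nat_lit 116) (nat_lit 116) (nat_lit 98)) (PT.lf (nat_lit 380) (nat_lit 6) (nat_lit 5) (nat_lit 0) (nat_lit 117) (nat_lit 116) (nat_lit 97))))) (PT.nd (nat_lit 32682) (PT.nd (nat_lit 32604) (PT.lf (nat_lit 228) (nat_lit 6) (nat_lit 3) (nat_lit 0) (nat_lit 118) (nat_lit 116) (nat_lit 96)) (PT.lf (nat_lit 152) (nat_lit 6) (nat_lit 2) (nat_lit 5) (nat_lit 95) (nat_lit 117) (nat_lit 118))) (PT.nd (nat_lit 78) (PT.lf (nat_lit 304) (nat_lit 3) (nat_lit 4) (nat_lit 4) (nat_lit 96) (nat_lit 117) (nat_lit 117)) (PT.nd (nat_lit 78) (PT.lf (nat_lit 380) (nat_lit 6) (nat_lit 5) (nat_lit 4) (nat_lit 97) (nat_lit 117) (nat_lit 116)) (PT.lf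 (nat_lit 456) (nat_lit 6) (nat_lit 6) (nat_lit 4) (nat_lit 98) (nat_lit 117) (nat_lit 115)))))) (PT.nd (nat_lit 32838) (PT.nd (nat_lit 156) (PT.nd (nat_lit 78) (PT.lf (nat_lit 456) (nat_lit 6) (nat_lit 6) (nat_lit 2) (nat_lit 115) (nat_lit 117) (nat_lit 98)) (PT.lf (nat_lit 380) (nat_lit 6) (nat_lit 5) (nat_lit 2) (nat_lit 116) (nat_lit 117) (nat_lit 97))) (PT.nd (nat_lit 78) (PT.lf (nat_lit 304) (nat_lit 3) (nat_lit 4) (nat_lit 0) (nat_lit 117) (nat_lit 117) (nat_lit 96)) (PT.nd (nat_lit 32526) (PT.lf (nat_lit 152) (nat_lit 6) (nat_lit 2) (nat_lit 0) (nat_lit 118) (nat_lit 117) (nat_lit 95)) (PT.lf (nat_lit 76) (nat_lit 3) (nat_lit 1) (nat_lit 4) (nat_lit 94) (nat_lit 118) (nat_lit 118))))) (PT.nd (nat_lit 1638) (PT.nd (nat_lit 78) (PT.lf (nat_lit 152) (nat_lit 6) (nat_lit 2) (nat_lit 4) (nat_lit 95) (nat_lit 118) (nat_lit 117)) (PT.lf (nat_lit 228) (nat_lit 6) (nat_lit 3) (nat_lit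 4) (nat_lit 96) (nat_lit 118) (nat_lit 116))) (PT.nd (nat_lit 78) (PT.lf (nat_lit 228) (nat_lit 6) (nat_lit 3) (nat_lit 2) (nat_lit 116) (nat_lit 118) (nat_lit 96)) (PT.nd (nat_lit 78) (PT.lf (nat_lit 152) (nat_lit 6) (nat_lit 2) (nat_lit 2) (nat_lit 117) (nat_lit 118) (nat_lit 95)) (PT.lf (nat_lit 76) (nat_lit 3) (nat_lit 1) (nat_lit 0) (nat_lit 118) (nat_lit 118) (nat_lit 94))))))))
noncomputable def xc0 : XT := (XT.nd (nat_lit 137358) (nat_lit 0) (nat_lit 0) (XT.nd (nat_lit 102726) (nat_lit 0) (nat_lit 0) (XT.nd (nat_lit 68484) (nat_lit 0) (nat_lit 0) (XT.nd (nat_lit 34320) (nat_lit 0) (nat_lit 0) (XT.nd (nat_lit 34242) (nat_lit 0) (nat_lit 0) (XT.lf (nat_lit 0) (nat_lit 25117041508293) (nat_lit 76) (nat_lit 126586994254607) (nat_lit 76) (nat_lit 126586994254607) (nat_lit 1) (nat_lit 4) (nat_lit 2) (nat_lit 5) (nat_lit 2) (nat_lit 4) (nat_lit 314) (nat_lit 173) (nat_lit 173)) (XT.lf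 (nat_lit 0) (nat_lit 18992022590551) (nat_lit 76) (nat_lit 95717991287226) (nat_lit 76) (nat_lit 95717991287226) (nat_lit 1) (nat_lit 4) (nat_lit 2) (nat_lit 5) (nat_lit 2) (nat_lit 4) (nat_lit 312) (nat_lit 174) (nat_lit 174))) (XT.nd (nat_lit 78) (nat_lit 0) (nat_lit 0) (XT.lf (nat_lit 0) (nat_lit 43681739038629) (nat_lit 76) (nat_lit 220151333980158) (nat_lit 76) (nat_lit 220151332385966) (nat_lit 1) (nat_lit 4) (nat_lit 2) (nat_lit 5) (nat_lit 2) (nat_lit 4) (nat_lit 313) (nat_lit 174) (nat_lit 173)) (XT.lf (nat_lit 0) (nat_lit 50234079574675) (nat_lit 76) (nat_lit 253173991848353) (nat_lit 76) (nat_lit 253173988867907) (nat_lit 1) (nat_lit 4) (nat_lit 2) (nat_lit 5) (nat_lit 2) (nat_lit 4) (nat_lit 314) (nat_lit 174) (nat_lit 172)))) (XT.nd (nat_lit 156) (nat_lit 0) (nat_lit 0) (XT.nd (nat_lit 78) (nat_lit 0) (nat_lit 0) (XT.lf (nat_lit 0) (nat_lit 14360617930751) (nat_lit 76) (nat_lit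 72376595760596) (nat_lit 76) (nat_lit 72376595760596) (nat_lit 1) (nat_lit 4) (nat_lit 2) (nat_lit 5) (nat_lit 2) (nat_lit 4) (nat_lit 310) (nat_lit 175) (nat_lit 175)) (XT.lf (nat_lit 0) (nat_lit 33029521383143) (nat_lit 76) (nat_lit 166466117371838) (nat_lit 76) (nat_lit 166466115538517) (nat_lit 1) (nat_lit 4) (nat_lit 2) (nat_lit 5) (nat_lit 2) (nat_lit 4) (nat_lit 311) (nat_lit 175) (nat_lit 174))) (XT.nd (nat_lit 78) (nat_lit 0) (nat_lit 0) (XT.lf (nat_lit 0) (nat_lit 37984041222904) (nat_lit 76) (nat_lit 191435986414462) (nat_lit 76) (nat_lit 191435982986948) (nat_lit 1) (nat_lit 4) (nat_lit 2) (nat_lit 5) (nat_lit 2) (nat_lit 4) (nat_lit 312) (nat_lit 175) (nat_lit 173)) (XT.lf (nat_lit 0) (nat_lit 43681731638519) (nat_lit 76) (nat_lit 220151339565113) (nat_lit 76) (nat_lit 220151334751346) (nat_lit 1) (nat_lit 4) (nat_lit 2) (nat_lit 5) (nat_lit 2) (nat_lit 4) (nat_lit 313)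 (nat_lit 175) (nat_lit 172))))) (XT.nd (nat_lit 312) (nat_lit 0) (nat_lit 0) (XT.nd (nat_lit 156) (nat_lit 0) (nat_lit 0) (XT.nd (nat_lit 78) (nat_lit 0) (nat_lit 0) (XT.lf (nat_lit 0) (nat_lit 10858598674516) (nat_lit 76) (nat_lit 54727153767623) (nat_lit 76) (nat_lit 54727153767623) (nat_lit 1) (nat_lit 4) (nat_lit 2) (nat_lit 5) (nat_lit 2) (nat_lit 4) (nat_lit 308) (nat_lit 176) (nat_lit 176)) (XT.lf (nat_lit 0) (nat_lit 24974892115166) (nat_lit 76) (nat_lit 125872392856371) (nat_lit 76) (nat_lit 125872390748053) (nat_lit 1) (nat_lit 4) (nat_lit 2) (nat_lit 5) (nat_lit 2) (nat_lit 4) (nat_lit 309) (nat_lit 176) (nat_lit 175))) (XT.nd (nat_lit 78) (nat_lit 0) (nat_lit 0) (XT.lf (nat_lit 0) (nat_lit 28721231309574) (nat_lit 76) (nat_lit 144753195937202) (nat_lit 76) (nat_lit 144753191995562) (nat_lit 1) (nat_lit 4) (nat_lit 2) (nat_lit 5) (nat_lit 2) (nat_lit 4) (nat_lit 310) (nat_lit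 176) (nat_lit 174)) (XT.lf (nat_lit 0) (nat_lit 33029512873017) (nat_lit 76) (nat_lit 166466123794537) (nat_lit 76) (nat_lit 166466118258705) (nat_lit 1) (nat_lit 4) (nat_lit 2) (nat_lit 5) (nat_lit 2) (nat_lit 4) (nat_lit 311) (nat_lit 176) (nat_lit 173)))) (XT.nd (nat_lit 34086) (nat_lit 0) (nat_lit 0) (XT.nd (nat_lit 34008) (nat_lit 0) (nat_lit 0) (XT.lf (nat_lit 0) (nat_lit 37984029270866) (nat_lit 76) (nat_lit 191435994582106) (nat_lit 76) (nat_lit 191435987660021) (nat_lit 1) (nat_lit 4) (nat_lit 2) (nat_lit 5) (nat_lit 2) (nat_lit 4) (nat_lit 312) (nat_lit 176) (nat_lit 172)) (XT.lf (nat_lit 0) (nat_lit 18884409504880) (nat_lit 76) (nat_lit 95177718989937) (nat_lit 76) (nat_lit 95177716565370) (nat_lit 1) (nat_lit 4) (nat_lit 2) (nat_lit 5) (nat_lit 2) (nat_lit 4) (nat_lit 307) (nat_lit 177) (nat_lit 176))) (XT.nd (nat_lit 78) (nat_lit 0) (nat_lit 0) (XT.lf (nat_lit 0) (nat_lit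 21717192114315) (nat_lit 76) (nat_lit 109454312613658) (nat_lit 76) (nat_lit 109454308080773) (nat_lit 1) (nat_lit 4) (nat_lit 2) (nat_lit 5) (nat_lit 2) (nat_lit 4) (nat_lit 308) (nat_lit 177) (nat_lit 175)) (XT.nd (nat_lit 78) (nat_lit 0) (nat_lit 0) (XT.lf (nat_lit 0) (nat_lit 24974882328520) (nat_lit 76) (nat_lit 125872400242475) (nat_lit 76) (nat_lit 125872393876269) (nat_lit 1) (nat_lit 4) (nat_lit 2) (nat_lit 5) (nat_lit 2) (nat_lit 4) (nat_lit 309) (nat_lit 177) (nat_lit 174)) (XT.lf (nat_lit 0) (nat_lit 28721217564730) (nat_lit 76) (nat_lit 144753205329993) (nat_lit 76) (nat_lit 144753197369596) (nat_lit 1) (nat_lit 4) (nat_lit 2) (nat_lit 5) (nat_lit 2) (nat_lit 4) (nat_lit 310) (nat_lit 177) (nat_lit 173))))))) (XT.nd (nat_lit 170976) (nat_lit 0) (nat_lit 0) (XT.nd (nat_lit 136734) (nat_lit 0) (nat_lit 0) (XT.nd (nat_lit 136578) (nat_lit 0) (nat_lit 0) (XT.nd (nat_lit 102336)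 (nat_lit 0) (nat_lit 0) (XT.lf (nat_lit 0) (nat_lit 33029495686261) (nat_lit 76) (nat_lit 166466134932274) (nat_lit 76) (nat_lit 166466125585623) (nat_lit 1) (nat_lit 4) (nat_lit 2) (nat_lit 5) (nat_lit 2) (nat_lit 4) (nat_lit 311) (nat_lit 177) (nat_lit 172)) (XT.lf (nat_lit 0) (nat_lit 3549314680984) (nat_lit 76) (nat_lit 17890608033122) (nat_lit 76) (nat_lit 17890608033122) (nat_lit 1) (nat_lit 4) (nat_lit 2) (nat_lit 5) (nat_lit 2) (nat_lit 4) (nat_lit 300) (nat_lit 180) (nat_lit 180))) (XT.nd (nat_lit 78) (nat_lit 0) (nat_lit 0) (XT.lf (nat_lit 0) (nat_lit 2683607514005) (nat_lit 76) (nat_lit 13527968972865) (nat_lit 76) (nat_lit 13527968972865) (nat_lit 1) (nat_lit 4) (nat_lit 2) (nat_lit 5) (nat_lit 2) (nat_lit 4) (nat_lit 298) (nat_lit 181) (nat_lit 181)) (XT.lf (nat_lit 0) (nat_lit 6172528917706) (nat_lit 76) (nat_lit 31114206328644) (nat_lit 76) (nat_lit 31114202088062) (nat_lit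 1) (nat_lit 4) (nat_lit 2) (nat_lit 5) (nat_lit 2) (nat_lit 4) (nat_lit 299) (nat_lit 181) (nat_lit 180)))) (XT.nd (nat_lit 1560) (nat_lit 0) (nat_lit 0) (XT.nd (nat_lit 1482) (nat_lit 0) (nat_lit 0) (XT.lf (nat_lit 0) (nat_lit 7098620206416) (nat_lit 76) (nat_lit 35781224948418) (nat_lit 76) (nat_lit 35781217020373) (nat_lit 1) (nat_lit 4) (nat_lit 2) (nat_lit 5) (nat_lit 2) (nat_lit 4) (nat_lit 300) (nat_lit 181) (nat_lit 179)) (XT.lf (nat_lit 0) (nat_lit 101038824873515) (nat_lit 76) (nat_lit 509223261157895) (nat_lit 76) (nat_lit 509223230374104) (nat_lit 1) (nat_lit 4) (nat_lit 2) (nat_lit 5) (nat_lit 2) (nat_lit 4) (nat_lit 319) (nat_lit 181) (nat_lit 160))) (XT.nd (nat_lit 32526) (nat_lit 0) (nat_lit 0) (XT.lf (nat_lit 0) (nat_lit 116194737344166) (nat_lit 76) (nat_lit 585606700466570) (nat_lit 76) (nat_lit 585606669457477) (nat_lit 1) (nat_lit 4) (nat_lit 2) (nat_lit 5) (nat_lit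 2) (nat_lit 4) (nat_lit 320) (nat_lit 181) (nat_lit 159)) (XT.nd (nat_lit 78) (nat_lit 0) (nat_lit 0) (XT.lf (nat_lit 0) (nat_lit 2028980876171) (nat_lit 76) (nat_lit 10229201925429) (nat_lit 76) (nat_lit 10229201925429) (nat_lit 1) (nat_lit 4) (nat_lit 2) (nat_lit 5) (nat_lit 2) (nat_lit 4) (nat_lit 296) (nat_lit 182) (nat_lit 182)) (XT.lf (nat_lit 0) (nat_lit 4666922396011) (nat_lit 76) (nat_lit 23527023773201) (nat_lit 76) (nat_lit 23527018896531) (nat_lit 1) (nat_lit 4) (nat_lit 2) (nat_lit 5) (nat_lit 2) (nat_lit 4) (nat_lit 297) (nat_lit 182) (nat_lit 181)))))) (XT.nd (nat_lit 1560) (nat_lit 0) (nat_lit 0) (XT.nd (nat_lit 156) (nat_lit 0) (nat_lit 0) (XT.nd (nat_lit 78) (nat_lit 0) (nat_lit 0) (XT.lf (nat_lit 0) (nat_lit 5367204499125) (nat_lit 76) (nat_lit 27055948160230) (nat_lit 76) (nat_lit 27055939042978) (nat_lit 1) (nat_lit 4) (nat_lit 2) (nat_lit 5) (nat_lit 2) (nat_lit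 4) (nat_lit 298) (nat_lit 182) (nat_lit 180)) (XT.lf (nat_lit 0) (nat_lit 6172509233267) (nat_lit 76) (nat_lit 31114221184736) (nat_lit 76) (nat_lit 31114208380022) (nat_lit 1) (nat_lit 4) (nat_lit 2) (nat_lit 5) (nat_lit 2) (nat_lit 4) (nat_lit 299) (nat_lit 182) (nat_lit 179))) (XT.nd (nat_lit 1326) (nat_lit 0) (nat_lit 0) (XT.lf (nat_lit 0) (nat_lit 7098592560626) (nat_lit 76) (nat_lit 35781243840677) (nat_lit 76) (nat_lit 35781227829474) (nat_lit 1) (nat_lit 4) (nat_lit 2) (nat_lit 5) (nat_lit 2) (nat_lit 4) (nat_lit 300) (nat_lit 182) (nat_lit 178)) (XT.lf (nat_lit 0) (nat_lit 76399644367060) (nat_lit 76) (nat_lit 385046070131371) (nat_lit 76) (nat_lit 385046034730011) (nat_lit 1) (nat_lit 4) (nat_lit 2) (nat_lit 5) (nat_lit 2) (nat_lit 4) (nat_lit 317) (nat_lit 182) (nat_lit 161)))) (XT.nd (nat_lit 32526) (nat_lit 0) (nat_lit 0) (XT.nd (nat_lit 78) (nat_lit 0) (nat_lit 0) (XT.lf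 (nat_lit 0) (nat_lit 87859693072687) (nat_lit 76) (nat_lit 442802923306317) (nat_lit 76) (nat_lit 442802887645857) (nat_lit 1) (nat_lit 4) (nat_lit 2) (nat_lit 5) (nat_lit 2) (nat_lit 4) (nat_lit 318) (nat_lit 182) (nat_lit 160)) (XT.lf (nat_lit 0) (nat_lit 101038747881434) (nat_lit 76) (nat_lit 509223305067249) (nat_lit 76) (nat_lit 509223269181485) (nat_lit 1) (nat_lit 4) (nat_lit 2) (nat_lit 5) (nat_lit 2) (nat_lit 4) (nat_lit 319) (nat_lit 182) (nat_lit 159))) (XT.nd (nat_lit 78) (nat_lit 0) (nat_lit 0) (XT.lf (nat_lit 0) (nat_lit 1533957296871) (nat_lit 76) (nat_lit 7734877190905) (nat_lit 76) (nat_lit 7734877190905) (nat_lit 1) (nat_lit 4) (nat_lit 2) (nat_lit 5) (nat_lit 2) (nat_lit 4) (nat_lit 294) (nat_lit 183) (nat_lit 183)) (XT.nd (nat_lit 78) (nat_lit 0) (nat_lit 0) (XT.lf (nat_lit 0) (nat_lit 3528408120744) (nat_lit 76) (nat_lit 17790055785502) (nat_lit 76) (nat_lit 17790050177333)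 (nat_lit 1) (nat_lit 4) (nat_lit 2) (nat_lit 5) (nat_lit 2) (nat_lit 4) (nat_lit 295) (nat_lit 183) (nat_lit 182)) (XT.lf (nat_lit 0) (nat_lit 4057949644124) (nat_lit 76) (nat_lit 20458415597534) (nat_lit 76) (nat_lit 20458405112695) (nat_lit 1) (nat_lit 4) (nat_lit 2) (nat_lit 5) (nat_lit 2) (nat_lit 4) (nat_lit 296) (nat_lit 183) (nat_lit 181))))))))
noncomputable def xc1 : XT := (XT.nd (nat_lit 68484) (nat_lit 0) (nat_lit 0) (XT.nd (nat_lit 34242) (nat_lit 0) (nat_lit 0) (XT.nd (nat_lit 1560) (nat_lit 0) (nat_lit 0) (XT.nd (nat_lit 156) (nat_lit 0) (nat_lit 0) (XT.nd (nat_lit 78) (nat_lit 0) (nat_lit 0) (XT.lf (nat_lit 0) (nat_lit 4666899758906) (nat_lit 76) (nat_lit 23527040857706) (nat_lit 76) (nat_lit 23527026132285) (nat_lit 1) (nat_lit 4) (nat_lit 2) (nat_lit 5) (nat_lit 2) (nat_lit 4) (nat_lit 297) (nat_lit 183) (nat_lit 180)) (XT.lf (nat_lit 0) (nat_lit 5367172706467) (nat_lit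 76) (nat_lit 27055969886327) (nat_lit 76) (nat_lit 27055951473444) (nat_lit 1) (nat_lit 4) (nat_lit 2) (nat_lit 5) (nat_lit 2) (nat_lit 4) (nat_lit 298) (nat_lit 183) (nat_lit 179))) (XT.nd (nat_lit 78) (nat_lit 0) (nat_lit 0) (XT.lf (nat_lit 0) (nat_lit 6172469479258) (nat_lit 76) (nat_lit 31114246947000) (nat_lit 76) (nat_lit 31114225327628) (nat_lit 1) (nat_lit 4) (nat_lit 2) (nat_lit 5) (nat_lit 2) (nat_lit 4) (nat_lit 299) (nat_lit 183) (nat_lit 178)) (XT.lf (nat_lit 0) (nat_lit 7098545883704) (nat_lit 76) (nat_lit 35781273112652) (nat_lit 76) (nat_lit 35781248705027) (nat_lit 1) (nat_lit 4) (nat_lit 2) (nat_lit 5) (nat_lit 2) (nat_lit 4) (nat_lit 300) (nat_lit 183) (nat_lit 177)))) (XT.nd (nat_lit 32448) (nat_lit 0) (nat_lit 0) (XT.nd (nat_lit 78) (nat_lit 0) (nat_lit 0) (XT.lf (nat_lit 0) (nat_lit 76399555826166) (nat_lit 76) (nat_lit 385046120627129) (nat_lit 76) (nat_lit 385046079358498)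 (nat_lit 1) (nat_lit 4) (nat_lit 2) (nat_lit 5) (nat_lit 2) (nat_lit 4) (nat_lit 317) (nat_lit 183) (nat_lit 160)) (XT.lf (nat_lit 0) (nat_lit 87859603972387) (nat_lit 76) (nat_lit 442802974085677) (nat_lit 76) (nat_lit 442802932591743) (nat_lit 1) (nat_lit 4) (nat_lit 2) (nat_lit 5) (nat_lit 2) (nat_lit 4) (nat_lit 318) (nat_lit 183) (nat_lit 159))) (XT.nd (nat_lit 78) (nat_lit 0) (nat_lit 0) (XT.lf (nat_lit 0) (nat_lit 1159611790664) (nat_lit 76) (nat_lit 5848828978737) (nat_lit 76) (nat_lit 5848828978737) (nat_lit 1) (nat_lit 4) (nat_lit 2) (nat_lit 5) (nat_lit 2) (nat_lit 4) (nat_lit 292) (nat_lit 184) (nat_lit 184)) (XT.nd (nat_lit 78) (nat_lit 0) (nat_lit 0) (XT.lf (nat_lit 0) (nat_lit 2667459407158) (nat_lit 76) (nat_lit 13452120634478) (nat_lit 76) (nat_lit 13452114185083) (nat_lit 1) (nat_lit 4) (nat_lit 2) (nat_lit 5) (nat_lit 2) (nat_lit 4) (nat_lit 293) (nat_lit 184) (nat_lit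 183)) (XT.lf (nat_lit 0) (nat_lit 3067900669291) (nat_lit 76) (nat_lit 15469767890487) (nat_lit 76) (nat_lit 15469755832922) (nat_lit 1) (nat_lit 4) (nat_lit 2) (nat_lit 5) (nat_lit 2) (nat_lit 4) (nat_lit 294) (nat_lit 184) (nat_lit 182)))))) (XT.nd (nat_lit 312) (nat_lit 0) (nat_lit 0) (XT.nd (nat_lit 156) (nat_lit 0) (nat_lit 0) (XT.nd (nat_lit 78) (nat_lit 0) (nat_lit 0) (XT.lf (nat_lit 0) (nat_lit 3528382088073) (nat_lit 76) (nat_lit 17790075432684) (nat_lit 76) (nat_lit 17790058498450) (nat_lit 1) (nat_lit 4) (nat_lit 2) (nat_lit 5) (nat_lit 2) (nat_lit 4) (nat_lit 295) (nat_lit 184) (nat_lit 181)) (XT.lf (nat_lit 0) (nat_lit 4057913082567) (nat_lit 76) (nat_lit 20458440582546) (nat_lit 76) (nat_lit 20458419407730) (nat_lit 1) (nat_lit 4) (nat_lit 2) (nat_lit 5) (nat_lit 2) (nat_lit 4) (nat_lit 296) (nat_lit 184) (nat_lit 180))) (XT.nd (nat_lit 78) (nat_lit 0) (nat_lit 0) (XT.lf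 (nat_lit 0) (nat_lit 4666854041797) (nat_lit 76) (nat_lit 23527070484311) (nat_lit 76) (nat_lit 23527045622032) (nat_lit 1) (nat_lit 4) (nat_lit 2) (nat_lit 5) (nat_lit 2) (nat_lit 4) (nat_lit 297) (nat_lit 184) (nat_lit 179)) (XT.lf (nat_lit 0) (nat_lit 5367119028007) (nat_lit 76) (nat_lit 27056003549099) (nat_lit 76) (nat_lit 27055975480331) (nat_lit 1) (nat_lit 4) (nat_lit 2) (nat_lit 5) (nat_lit 2) (nat_lit 4) (nat_lit 298) (nat_lit 184) (nat_lit 178)))) (XT.nd (nat_lit 33696) (nat_lit 0) (nat_lit 0) (XT.nd (nat_lit 78) (nat_lit 0) (nat_lit 0) (XT.lf (nat_lit 0) (nat_lit 6172408877884) (nat_lit 76) (nat_lit 31114284119482) (nat_lit 76) (nat_lit 31114253262463) (nat_lit 1) (nat_lit 4) (nat_lit 2) (nat_lit 5) (nat_lit 2) (nat_lit 4) (nat_lit 299) (nat_lit 184) (nat_lit 177)) (XT.lf (nat_lit 0) (nat_lit 7098479262406) (nat_lit 76) (nat_lit 35781313337055) (nat_lit 76) (nat_lit 35781280055469)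 (nat_lit 1) (nat_lit 4) (nat_lit 2) (nat_lit 5) (nat_lit 2) (nat_lit 4) (nat_lit 300) (nat_lit 184) (nat_lit 176))) (XT.nd (nat_lit 78) (nat_lit 0) (nat_lit 0) (XT.lf (nat_lit 0) (nat_lit 876510760974) (nat_lit 76) (nat_lit 4422728152917) (nat_lit 76) (nat_lit 4422728152917) (nat_lit 1) (nat_lit 4) (nat_lit 2) (nat_lit 5) (nat_lit 2) (nat_lit 4) (nat_lit 290) (nat_lit 185) (nat_lit 185)) (XT.nd (nat_lit 78) (nat_lit 0) (nat_lit 0) (XT.lf (nat_lit 0) (nat_lit 2016379882166) (nat_lit 76) (nat_lit 10172060832599) (nat_lit 76) (nat_lit 10172053415795) (nat_lit 1) (nat_lit 4) (nat_lit 2) (nat_lit 5) (nat_lit 2) (nat_lit 4) (nat_lit 291) (nat_lit 185) (nat_lit 184)) (XT.lf (nat_lit 0) (nat_lit 2319207568209) (nat_lit 76) (nat_lit 11697673492452) (nat_lit 76) (nat_lit 11697659626252) (nat_lit 1) (nat_lit 4) (nat_lit 2) (nat_lit 5) (nat_lit 2) (nat_lit 4) (nat_lit 292) (nat_lit 185) (nat_lit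 183))))))) (XT.nd (nat_lit 34086) (nat_lit 0) (nat_lit 0) (XT.nd (nat_lit 312) (nat_lit 0) (nat_lit 0) (XT.nd (nat_lit 156) (nat_lit 0) (nat_lit 0) (XT.nd (nat_lit 78) (nat_lit 0) (nat_lit 0) (XT.lf (nat_lit 0) (nat_lit 2667429469587) (nat_lit 76) (nat_lit 13452143228737) (nat_lit 76) (nat_lit 13452123754368) (nat_lit 1) (nat_lit 4) (nat_lit 2) (nat_lit 5) (nat_lit 2) (nat_lit 4) (nat_lit 293) (nat_lit 185) (nat_lit 182)) (XT.lf (nat_lit 0) (nat_lit 3067858623501) (nat_lit 76) (nat_lit 15469796623251) (nat_lit 76) (nat_lit 15469772272213) (nat_lit 1) (nat_lit 4) (nat_lit 2) (nat_lit 5) (nat_lit 2) (nat_lit 4) (nat_lit 294) (nat_lit 185) (nat_lit 181))) (XT.nd (nat_lit 78) (nat_lit 0) (nat_lit 0) (XT.lf (nat_lit 0) (nat_lit 3528329513397) (nat_lit 76) (nat_lit 17790109503279) (nat_lit 76) (nat_lit 17790080911658) (nat_lit 1) (nat_lit 4) (nat_lit 2) (nat_lit 5) (nat_lit 2) (nat_lit 4)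 (nat_lit 295) (nat_lit 185) (nat_lit 180)) (XT.lf (nat_lit 0) (nat_lit 4057851352338) (nat_lit 76) (nat_lit 20458479294733) (nat_lit 76) (nat_lit 20458447015650) (nat_lit 1) (nat_lit 4) (nat_lit 2) (nat_lit 5) (nat_lit 2) (nat_lit 4) (nat_lit 296) (nat_lit 185) (nat_lit 179)))) (XT.nd (nat_lit 156) (nat_lit 0) (nat_lit 0) (XT.nd (nat_lit 78) (nat_lit 0) (nat_lit 0) (XT.lf (nat_lit 0) (nat_lit 4666784350217) (nat_lit 76) (nat_lit 23527113232665) (nat_lit 76) (nat_lit 23527077747092) (nat_lit 1) (nat_lit 4) (nat_lit 2) (nat_lit 5) (nat_lit 2) (nat_lit 4) (nat_lit 297) (nat_lit 185) (nat_lit 178)) (XT.lf (nat_lit 0) (nat_lit 5367042413513) (nat_lit 76) (nat_lit 27056049807163) (nat_lit 76) (nat_lit 27056011533339) (nat_lit 1) (nat_lit 4) (nat_lit 2) (nat_lit 5) (nat_lit 2) (nat_lit 4) (nat_lit 298) (nat_lit 185) (nat_lit 177))) (XT.nd (nat_lit 78) (nat_lit 0) (nat_lit 0) (XT.lf (nat_lit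 0) (nat_lit 6172326243466) (nat_lit 76) (nat_lit 31114333429468) (nat_lit 76) (nat_lit 31114292731078) (nat_lit 1) (nat_lit 4) (nat_lit 2) (nat_lit 5) (nat_lit 2) (nat_lit 4) (nat_lit 299) (nat_lit 185) (nat_lit 176)) (XT.nd (nat_lit 33462) (nat_lit 0) (nat_lit 0) (XT.lf (nat_lit 0) (nat_lit 7098391393270) (nat_lit 76) (nat_lit 35781365300887) (nat_lit 76) (nat_lit 35781322494177) (nat_lit 1) (nat_lit 4) (nat_lit 2) (nat_lit 5) (nat_lit 2) (nat_lit 4) (nat_lit 300) (nat_lit 185) (nat_lit 175)) (XT.lf (nat_lit 0) (nat_lit 662397357510) (nat_lit 76) (nat_lit 3344417018478) (nat_lit 76) (nat_lit 3344417018478) (nat_lit 1) (nat_lit 4) (nat_lit 2) (nat_lit 5) (nat_lit 2) (nat_lit 4) (nat_lit 288) (nat_lit 186) (nat_lit 186)))))) (XT.nd (nat_lit 312) (nat_lit 0) (nat_lit 0) (XT.nd (nat_lit 156) (nat_lit 0) (nat_lit 0) (XT.nd (nat_lit 78) (nat_lit 0) (nat_lit 0) (XT.lf (nat_lit 0) (nat_lit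 1523979823987) (nat_lit 76) (nat_lit 7691913135523) (nat_lit 76) (nat_lit 7691904606198) (nat_lit 1) (nat_lit 4) (nat_lit 2) (nat_lit 5) (nat_lit 2) (nat_lit 4) (nat_lit 289) (nat_lit 186) (nat_lit 185)) (XT.lf (nat_lit 0) (nat_lit 1753003106861) (nat_lit 76) (nat_lit 8845474171058) (nat_lit 76) (nat_lit 8845458224929) (nat_lit 1) (nat_lit 4) (nat_lit 2) (nat_lit 5) (nat_lit 2) (nat_lit 4) (nat_lit 290) (nat_lit 186) (nat_lit 184))) (XT.nd (nat_lit 78) (nat_lit 0) (nat_lit 0) (XT.lf (nat_lit 0) (nat_lit 2016345453959) (nat_lit 76) (nat_lit 10172086815997) (nat_lit 76) (nat_lit 10172064420472) (nat_lit 1) (nat_lit 4) (nat_lit 2) (nat_lit 5) (nat_lit 2) (nat_lit 4) (nat_lit 291) (nat_lit 186) (nat_lit 183)) (XT.lf (nat_lit 0) (nat_lit 2319159215550) (nat_lit 76) (nat_lit 11697706535131) (nat_lit 76) (nat_lit 11697678531436) (nat_lit 1) (nat_lit 4) (nat_lit 2) (nat_lit 5) (nat_lit 2) (nat_lit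 4) (nat_lit 292) (nat_lit 186) (nat_lit 182)))) (XT.nd (nat_lit 156) (nat_lit 0) (nat_lit 0) (XT.nd (nat_lit 78) (nat_lit 0) (nat_lit 0) (XT.lf (nat_lit 0) (nat_lit 2667369008709) (nat_lit 76) (nat_lit 13452182409921) (nat_lit 76) (nat_lit 13452149529558) (nat_lit 1) (nat_lit 4) (nat_lit 2) (nat_lit 5) (nat_lit 2) (nat_lit 4) (nat_lit 293) (nat_lit 186) (nat_lit 181)) (XT.lf (nat_lit 0) (nat_lit 3067787633737) (nat_lit 76) (nat_lit 15469841142266) (nat_lit 76) (nat_lit 15469804021321) (nat_lit 1) (nat_lit 4) (nat_lit 2) (nat_lit 5) (nat_lit 2) (nat_lit 4) (nat_lit 294) (nat_lit 186) (nat_lit 180))) (XT.nd (nat_lit 78) (nat_lit 0) (nat_lit 0) (XT.lf (nat_lit 0) (nat_lit 3528249368080) (nat_lit 76) (nat_lit 17790158663886) (nat_lit 76) (nat_lit 17790117855477) (nat_lit 1) (nat_lit 4) (nat_lit 2) (nat_lit 5) (nat_lit 2) (nat_lit 4) (nat_lit 295) (nat_lit 186) (nat_lit 179)) (XT.nd (nat_lit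 78) (nat_lit 0) (nat_lit 0) (XT.lf (nat_lit 0) (nat_lit 4057763245670) (nat_lit 76) (nat_lit 20458532491507) (nat_lit 76) (nat_lit 20458488476609) (nat_lit 1) (nat_lit 4) (nat_lit 2) (nat_lit 5) (nat_lit 2) (nat_lit 4) (nat_lit 296) (nat_lit 186) (nat_lit 178)) (XT.lf (nat_lit 0) (nat_lit 4666689320636) (nat_lit 76) (nat_lit 23527169939149) (nat_lit 76) (nat_lit 23527123136000) (nat_lit 1) (nat_lit 4) (nat_lit 2) (nat_lit 5) (nat_lit 2) (nat_lit 4) (nat_lit 297) (nat_lit 186) (nat_lit 177))))))))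
noncomputable def xc2 : XT := (XT.nd (nat_lit 34320) (nat_lit 0) (nat_lit 0) (XT.nd (nat_lit 33618) (nat_lit 0) (nat_lit 0) (XT.nd (nat_lit 546) (nat_lit 0) (nat_lit 0) (XT.nd (nat_lit 156) (nat_lit 0) (nat_lit 0) (XT.nd (nat_lit 78) (nat_lit 0) (nat_lit 0) (XT.lf (nat_lit 0) (nat_lit 5366941364008) (nat_lit 76) (nat_lit 27056109565569) (nat_lit 76) (nat_lit 27056060337853) (nat_lit 1) (nat_lit 4) (nat_lit 2) (nat_lit 5) (nat_lit 2) (nat_lit 4) (nat_lit 298) (nat_lit 186) (nat_lit 176)) (XT.lf (nat_lit 0) (nat_lit 6172219959243) (nat_lit 76) (nat_lit 31114395841720) (nat_lit 76) (nat_lit 31114344505685) (nat_lit 1) (nat_lit 4) (nat_lit 2) (nat_lit 5) (nat_lit 2) (nat_lit 4) (nat_lit 299) (nat_lit 186) (nat_lit 175))) (XT.nd (nat_lit 312) (nat_lit 0) (nat_lit 0) (XT.lf (nat_lit 0) (nat_lit 7098280557119) (nat_lit 76) (nat_lit 35781430020830) (nat_lit 76) (nat_lit 35781376851475) (nat_lit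 1) (nat_lit 4) (nat_lit 2) (nat_lit 5) (nat_lit 2) (nat_lit 4) (nat_lit 300) (nat_lit 186) (nat_lit 174)) (XT.lf (nat_lit 0) (nat_lit 12415985949059) (nat_lit 76) (nat_lit 62581364005628) (nat_lit 76) (nat_lit 62581305602183) (nat_lit 1) (nat_lit 4) (nat_lit 2) (nat_lit 5) (nat_lit 2) (nat_lit 4) (nat_lit 304) (nat_lit 186) (nat_lit 170)))) (XT.nd (nat_lit 156) (nat_lit 0) (nat_lit 0) (XT.nd (nat_lit 78) (nat_lit 0) (nat_lit 0) (XT.lf (nat_lit 0) (nat_lit 14278578639055) (nat_lit 76) (nat_lit 71968460041165) (nat_lit 76) (nat_lit 71968400726235) (nat_lit 1) (nat_lit 4) (nat_lit 2) (nat_lit 5) (nat_lit 2) (nat_lit 4) (nat_lit 305) (nat_lit 186) (nat_lit 169)) (XT.lf (nat_lit 0) (nat_lit 16420556001513) (nat_lit 76) (nat_lit 82763622627042) (nat_lit 76) (nat_lit 82763562519517) (nat_lit 1) (nat_lit 4) (nat_lit 2) (nat_lit 5) (nat_lit 2) (nat_lit 4) (nat_lit 306) (nat_lit 186) (nat_lit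 168))) (XT.nd (nat_lit 32760) (nat_lit 0) (nat_lit 0) (XT.lf (nat_lit 0) (nat_lit 18883826289178) (nat_lit 76) (nat_lit 95178061466026) (nat_lit 76) (nat_lit 95178000669288) (nat_lit 1) (nat_lit 4) (nat_lit 2) (nat_lit 5) (nat_lit 2) (nat_lit 4) (nat_lit 307) (nat_lit 186) (nat_lit 167)) (XT.nd (nat_lit 78) (nat_lit 0) (nat_lit 0) (XT.lf (nat_lit 0) (nat_lit 500441257839) (nat_lit 76) (nat_lit 2529088752817) (nat_lit 76) (nat_lit 2529088752817) (nat_lit 1) (nat_lit 4) (nat_lit 2) (nat_lit 5) (nat_lit 2) (nat_lit 4) (nat_lit 286) (nat_lit 187) (nat_lit 187)) (XT.lf (nat_lit 0) (nat_lit 1151550680002) (nat_lit 76) (nat_lit 5816621223457) (nat_lit 76) (nat_lit 5816611414733) (nat_lit 1) (nat_lit 4) (nat_lit 2) (nat_lit 5) (nat_lit 2) (nat_lit 4) (nat_lit 287) (nat_lit 187) (nat_lit 186)))))) (XT.nd (nat_lit 312) (nat_lit 0) (nat_lit 0) (XT.nd (nat_lit 156) (nat_lit 0) (nat_lit 0) (XT.nd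 (nat_lit 78) (nat_lit 0) (nat_lit 0) (XT.lf (nat_lit 0) (nat_lit 1324773537670) (nat_lit 76) (nat_lit 6688854581964) (nat_lit 76) (nat_lit 6688836243915) (nat_lit 1) (nat_lit 4) (nat_lit 2) (nat_lit 5) (nat_lit 2) (nat_lit 4) (nat_lit 288) (nat_lit 187) (nat_lit 185)) (XT.lf (nat_lit 0) (nat_lit 1523940231549) (nat_lit 76) (nat_lit 7691943016430) (nat_lit 76) (nat_lit 7691917261577) (nat_lit 1) (nat_lit 4) (nat_lit 2) (nat_lit 5) (nat_lit 2) (nat_lit 4) (nat_lit 289) (nat_lit 187) (nat_lit 184))) (XT.nd (nat_lit 78) (nat_lit 0) (nat_lit 0) (XT.lf (nat_lit 0) (nat_lit 1752947501303) (nat_lit 76) (nat_lit 8845512170139) (nat_lit 76) (nat_lit 8845479965890) (nat_lit 1) (nat_lit 4) (nat_lit 2) (nat_lit 5) (nat_lit 2) (nat_lit 4) (nat_lit 290) (nat_lit 187) (nat_lit 183)) (XT.lf (nat_lit 0) (nat_lit 2016275923949) (nat_lit 76) (nat_lit 10172131874359) (nat_lit 76) (nat_lit 10172094061940)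 (nat_lit 1) (nat_lit 4) (nat_lit 2) (nat_lit 5) (nat_lit 2) (nat_lit 4) (nat_lit 291) (nat_lit 187) (nat_lit 182)))) (XT.nd (nat_lit 156) (nat_lit 0) (nat_lit 0) (XT.nd (nat_lit 78) (nat_lit 0) (nat_lit 0) (XT.lf (nat_lit 0) (nat_lit 2319077577321) (nat_lit 76) (nat_lit 11697757731998) (nat_lit 76) (nat_lit 11697715042910) (nat_lit 1) (nat_lit 4) (nat_lit 2) (nat_lit 5) (nat_lit 2) (nat_lit 4) (nat_lit 292) (nat_lit 187) (nat_lit 181)) (XT.lf (nat_lit 0) (nat_lit 2667276841594) (nat_lit 76) (nat_lit 13452238944619) (nat_lit 76) (nat_lit 13452192014950) (nat_lit 1) (nat_lit 4) (nat_lit 2) (nat_lit 5) (nat_lit 2) (nat_lit 4) (nat_lit 293) (nat_lit 187) (nat_lit 180))) (XT.nd (nat_lit 78) (nat_lit 0) (nat_lit 0) (XT.lf (nat_lit 0) (nat_lit 3067686311069) (nat_lit 76) (nat_lit 15469902318556) (nat_lit 76) (nat_lit 15469851701424) (nat_lit 1) (nat_lit 4) (nat_lit 2) (nat_lit 5) (nat_lit 2)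 (nat_lit 4) (nat_lit 294) (nat_lit 187) (nat_lit 179)) (XT.nd (nat_lit 78) (nat_lit 0) (nat_lit 0) (XT.lf (nat_lit 0) (nat_lit 3528140084061) (nat_lit 76) (nat_lit 17790223876342) (nat_lit 76) (nat_lit 17790170052721) (nat_lit 1) (nat_lit 4) (nat_lit 2) (nat_lit 5) (nat_lit 2) (nat_lit 4) (nat_lit 295) (nat_lit 187) (nat_lit 178)) (XT.lf (nat_lit 0) (nat_lit 4057647038739) (nat_lit 76) (nat_lit 20458601213674) (nat_lit 76) (nat_lit 20458544601801) (nat_lit 1) (nat_lit 4) (nat_lit 2) (nat_lit 5) (nat_lit 2) (nat_lit 4) (nat_lit 296) (nat_lit 187) (nat_lit 177))))))) (XT.nd (nat_lit 33384) (nat_lit 0) (nat_lit 0) (XT.nd (nat_lit 468) (nat_lit 0) (nat_lit 0) (XT.nd (nat_lit 156) (nat_lit 0) (nat_lit 0) (XT.nd (nat_lit 78) (nat_lit 0) (nat_lit 0) (XT.lf (nat_lit 0) (nat_lit 4666567093779) (nat_lit 76) (nat_lit 23527241713238) (nat_lit 76) (nat_lit 23527182676798) (nat_lit 1) (nat_lit 4)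 (nat_lit 2) (nat_lit 5) (nat_lit 2) (nat_lit 4) (nat_lit 297) (nat_lit 187) (nat_lit 176)) (XT.lf (nat_lit 0) (nat_lit 5366813902434) (nat_lit 76) (nat_lit 27056183993503) (nat_lit 76) (nat_lit 27056122848745) (nat_lit 1) (nat_lit 4) (nat_lit 2) (nat_lit 5) (nat_lit 2) (nat_lit 4) (nat_lit 298) (nat_lit 187) (nat_lit 175))) (XT.nd (nat_lit 78) (nat_lit 0) (nat_lit 0) (XT.lf (nat_lit 0) (nat_lit 6172087945742) (nat_lit 76) (nat_lit 31114472577346) (nat_lit 76) (nat_lit 31114409599267) (nat_lit 1) (nat_lit 4) (nat_lit 2) (nat_lit 5) (nat_lit 2) (nat_lit 4) (nat_lit 299) (nat_lit 187) (nat_lit 174)) (XT.lf (nat_lit 0) (nat_lit 7098144585420) (nat_lit 76) (nat_lit 35781508763144) (nat_lit 76) (nat_lit 35781444190873) (nat_lit 1) (nat_lit 4) (nat_lit 2) (nat_lit 5) (nat_lit 2) (nat_lit 4) (nat_lit 300) (nat_lit 187) (nat_lit 173)))) (XT.nd (nat_lit 156) (nat_lit 0) (nat_lit 0) (XT.nd (nat_lit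 78) (nat_lit 0) (nat_lit 0) (XT.lf (nat_lit 0) (nat_lit 10796190891477) (nat_lit 76) (nat_lit 54418757269858) (nat_lit 76) (nat_lit 54418689057688) (nat_lit 1) (nat_lit 4) (nat_lit 2) (nat_lit 5) (nat_lit 2) (nat_lit 4) (nat_lit 303) (nat_lit 187) (nat_lit 170)) (XT.lf (nat_lit 0) (nat_lit 12415838676789) (nat_lit 76) (nat_lit 62581448476994) (nat_lit 76) (nat_lit 62581379353340) (nat_lit 1) (nat_lit 4) (nat_lit 2) (nat_lit 5) (nat_lit 2) (nat_lit 4) (nat_lit 304) (nat_lit 187) (nat_lit 169))) (XT.nd (nat_lit 78) (nat_lit 0) (nat_lit 0) (XT.lf (nat_lit 0) (nat_lit 14278429398861) (nat_lit 76) (nat_lit 71968545510210) (nat_lit 76) (nat_lit 71968475593961) (nat_lit 1) (nat_lit 4) (nat_lit 2) (nat_lit 5) (nat_lit 2) (nat_lit 4) (nat_lit 305) (nat_lit 187) (nat_lit 168)) (XT.nd (nat_lit 78) (nat_lit 0) (nat_lit 0) (XT.lf (nat_lit 0) (nat_lit 16420405050081) (nat_lit 76) (nat_lit 82763708963634)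 (nat_lit 76) (nat_lit 82763638358171) (nat_lit 1) (nat_lit 4) (nat_lit 2) (nat_lit 5) (nat_lit 2) (nat_lit 4) (nat_lit 306) (nat_lit 187) (nat_lit 167)) (XT.lf (nat_lit 0) (nat_lit 18883673849712) (nat_lit 76) (nat_lit 95178148557006) (nat_lit 76) (nat_lit 95178077352228) (nat_lit 1) (nat_lit 4) (nat_lit 2) (nat_lit 5) (nat_lit 2) (nat_lit 4) (nat_lit 307) (nat_lit 187) (nat_lit 166)))))) (XT.nd (nat_lit 312) (nat_lit 0) (nat_lit 0) (XT.nd (nat_lit 156) (nat_lit 0) (nat_lit 0) (XT.nd (nat_lit 78) (nat_lit 0) (nat_lit 0) (XT.lf (nat_lit 0) (nat_lit 377915232302) (nat_lit 76) (nat_lit 1912617798494) (nat_lit 76) (nat_lit 1912617798494) (nat_lit 1) (nat_lit 4) (nat_lit 2) (nat_lit 5) (nat_lit 2) (nat_lit 4) (nat_lit 284) (nat_lit 188) (nat_lit 188)) (XT.lf (nat_lit 0) (nat_lit 869821189312) (nat_lit 76) (nat_lit 4398695592310) (nat_lit 76) (nat_lit 4398684312278) (nat_lit 1) (nat_lit 4)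 (nat_lit 2) (nat_lit 5) (nat_lit 2) (nat_lit 4) (nat_lit 285) (nat_lit 188) (nat_lit 187))) (XT.nd (nat_lit 78) (nat_lit 0) (nat_lit 0) (XT.lf (nat_lit 0) (nat_lit 1000858161726) (nat_lit 76) (nat_lit 5058201132394) (nat_lit 76) (nat_lit 5058180043637) (nat_lit 1) (nat_lit 4) (nat_lit 2) (nat_lit 5) (nat_lit 2) (nat_lit 4) (nat_lit 286) (nat_lit 188) (nat_lit 186)) (XT.lf (nat_lit 0) (nat_lit 1151505148698) (nat_lit 76) (nat_lit 5816655586500) (nat_lit 76) (nat_lit 5816625968419) (nat_lit 1) (nat_lit 4) (nat_lit 2) (nat_lit 5) (nat_lit 2) (nat_lit 4) (nat_lit 287) (nat_lit 188) (nat_lit 185)))) (XT.nd (nat_lit 156) (nat_lit 0) (nat_lit 0) (XT.nd (nat_lit 78) (nat_lit 0) (nat_lit 0) (XT.lf (nat_lit 0) (nat_lit 1324709591278) (nat_lit 76) (nat_lit 6688898280906) (nat_lit 76) (nat_lit 6688861246021) (nat_lit 1) (nat_lit 4) (nat_lit 2) (nat_lit 5) (nat_lit 2) (nat_lit 4) (nat_lit 288) (nat_lit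 188) (nat_lit 184)) (XT.lf (nat_lit 0) (nat_lit 1523860272038) (nat_lit 76) (nat_lit 7691994833546) (nat_lit 76) (nat_lit 7691951349265) (nat_lit 1) (nat_lit 4) (nat_lit 2) (nat_lit 5) (nat_lit 2) (nat_lit 4) (nat_lit 289) (nat_lit 188) (nat_lit 183))) (XT.nd (nat_lit 78) (nat_lit 0) (nat_lit 0) (XT.lf (nat_lit 0) (nat_lit 1752853617340) (nat_lit 76) (nat_lit 8845571046536) (nat_lit 76) (nat_lit 8845521954086) (nat_lit 1) (nat_lit 4) (nat_lit 2) (nat_lit 5) (nat_lit 2) (nat_lit 4) (nat_lit 290) (nat_lit 188) (nat_lit 182)) (XT.nd (nat_lit 78) (nat_lit 0) (nat_lit 0) (XT.lf (nat_lit 0) (nat_lit 2016169931767) (nat_lit 76) (nat_lit 10172196889261) (nat_lit 76) (nat_lit 10172142920141) (nat_lit 1) (nat_lit 4) (nat_lit 2) (nat_lit 5) (nat_lit 2) (nat_lit 4) (nat_lit 291) (nat_lit 188) (nat_lit 181)) (XT.lf (nat_lit 0) (nat_lit 2318961056254) (nat_lit 76) (nat_lit 11697828084731) (nat_lit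 76) (nat_lit 11697769875029) (nat_lit 1) (nat_lit 4) (nat_lit 2) (nat_lit 5) (nat_lit 2) (nat_lit 4) (nat_lit 292) (nat_lit 188) (nat_lit 180))))))))
noncomputable def xc3 : XT := (XT.nd (nat_lit 33852) (nat_lit 0) (nat_lit 0) (XT.nd (nat_lit 780) (nat_lit 0) (nat_lit 0) (XT.nd (nat_lit 312) (nat_lit 0) (nat_lit 0) (XT.nd (nat_lit 156) (nat_lit 0) (nat_lit 0) (XT.nd (nat_lit 78) (nat_lit 0) (nat_lit 0) (XT.lf (nat_lit 0) (nat_lit 2667151164973) (nat_lit 76) (nat_lit 13452313938944) (nat_lit 76) (nat_lit 13452252041780) (nat_lit 1) (nat_lit 4) (nat_lit 2) (nat_lit 5) (nat_lit 2) (nat_lit 4) (nat_lit 293) (nat_lit 188) (nat_lit 179)) (XT.lf (nat_lit 0) (nat_lit 3067552673098) (nat_lit 76) (nat_lit 15469981349048) (nat_lit 76) (nat_lit 15469916245394) (nat_lit 1) (nat_lit 4) (nat_lit 2) (nat_lit 5) (nat_lit 2) (nat_lit 4) (nat_lit 294) (nat_lit 188) (nat_lit 178))) (XT.nd (nat_lit 78) (nat_lit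 0) (nat_lit 0) (XT.lf (nat_lit 0) (nat_lit 3527999523177) (nat_lit 76) (nat_lit 17790306416545) (nat_lit 76) (nat_lit 17790238524640) (nat_lit 1) (nat_lit 4) (nat_lit 2) (nat_lit 5) (nat_lit 2) (nat_lit 4) (nat_lit 295) (nat_lit 188) (nat_lit 177)) (XT.lf (nat_lit 0) (nat_lit 4057500457929) (nat_lit 76) (nat_lit 20458686805799) (nat_lit 76) (nat_lit 20458616489327) (nat_lit 1) (nat_lit 4) (nat_lit 2) (nat_lit 5) (nat_lit 2) (nat_lit 4) (nat_lit 296) (nat_lit 188) (nat_lit 176)))) (XT.nd (nat_lit 156) (nat_lit 0) (nat_lit 0) (XT.nd (nat_lit 78) (nat_lit 0) (nat_lit 0) (XT.lf (nat_lit 0) (nat_lit 4666415278253) (nat_lit 76) (nat_lit 23527329959208) (nat_lit 76) (nat_lit 23527257534417) (nat_lit 1) (nat_lit 4) (nat_lit 2) (nat_lit 5) (nat_lit 2) (nat_lit 4) (nat_lit 297) (nat_lit 188) (nat_lit 175)) (XT.lf (nat_lit 0) (nat_lit 5366657534979) (nat_lit 76) (nat_lit 27056274547165) (nat_lit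 76) (nat_lit 27056200289053) (nat_lit 1) (nat_lit 4) (nat_lit 2) (nat_lit 5) (nat_lit 2) (nat_lit 4) (nat_lit 298) (nat_lit 188) (nat_lit 174))) (XT.nd (nat_lit 78) (nat_lit 0) (nat_lit 0) (XT.lf (nat_lit 0) (nat_lit 6171927620089) (nat_lit 76) (nat_lit 31114565137695) (nat_lit 76) (nat_lit 31114489285392) (nat_lit 1) (nat_lit 4) (nat_lit 2) (nat_lit 5) (nat_lit 2) (nat_lit 4) (nat_lit 299) (nat_lit 188) (nat_lit 173)) (XT.nd (nat_lit 156) (nat_lit 0) (nat_lit 0) (XT.lf (nat_lit 0) (nat_lit 7097980817855) (nat_lit 76) (nat_lit 35781603068440) (nat_lit 76) (nat_lit 35781525829883) (nat_lit 1) (nat_lit 4) (nat_lit 2) (nat_lit 5) (nat_lit 2) (nat_lit 4) (nat_lit 300) (nat_lit 188) (nat_lit 172)) (XT.lf (nat_lit 0) (nat_lit 9387627918798) (nat_lit 76) (nat_lit 47320864202906) (nat_lit 76) (nat_lit 47320784710704) (nat_lit 1) (nat_lit 4) (nat_lit 2) (nat_lit 5) (nat_lit 2) (nat_lit 4) (nat_lit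 302) (nat_lit 188) (nat_lit 170)))))) (XT.nd (nat_lit 312) (nat_lit 0) (nat_lit 0) (XT.nd (nat_lit 156) (nat_lit 0) (nat_lit 0) (XT.nd (nat_lit 78) (nat_lit 0) (nat_lit 0) (XT.lf (nat_lit 0) (nat_lit 10796019265254) (nat_lit 76) (nat_lit 54418855559259) (nat_lit 76) (nat_lit 54418775155573) (nat_lit 1) (nat_lit 4) (nat_lit 2) (nat_lit 5) (nat_lit 2) (nat_lit 4) (nat_lit 303) (nat_lit 188) (nat_lit 169)) (XT.lf (nat_lit 0) (nat_lit 12415665082641) (nat_lit 76) (nat_lit 62581547764074) (nat_lit 76) (nat_lit 62581466567793) (nat_lit 1) (nat_lit 4) (nat_lit 2) (nat_lit 5) (nat_lit 2) (nat_lit 4) (nat_lit 304) (nat_lit 188) (nat_lit 168))) (XT.nd (nat_lit 78) (nat_lit 0) (nat_lit 0) (XT.lf (nat_lit 0) (nat_lit 14278254093475) (nat_lit 76) (nat_lit 71968645664837) (nat_lit 76) (nat_lit 71968563779342) (nat_lit 1) (nat_lit 4) (nat_lit 2) (nat_lit 5) (nat_lit 2) (nat_lit 4) (nat_lit 305) (nat_lit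 188) (nat_lit 167)) (XT.lf (nat_lit 0) (nat_lit 16420228256662) (nat_lit 76) (nat_lit 82763809872649) (nat_lit 76) (nat_lit 82763727387838) (nat_lit 1) (nat_lit 4) (nat_lit 2) (nat_lit 5) (nat_lit 2) (nat_lit 4) (nat_lit 306) (nat_lit 188) (nat_lit 166)))) (XT.nd (nat_lit 32526) (nat_lit 0) (nat_lit 0) (XT.nd (nat_lit 32448) (nat_lit 0) (nat_lit 0) (XT.lf (nat_lit 0) (nat_lit 18883495762351) (nat_lit 76) (nat_lit 95178250122011) (nat_lit 76) (nat_lit 95178167116057) (nat_lit 1) (nat_lit 4) (nat_lit 2) (nat_lit 5) (nat_lit 2) (nat_lit 4) (nat_lit 307) (nat_lit 188) (nat_lit 165)) (XT.lf (nat_lit 0) (nat_lit 285194415663) (nat_lit 76) (nat_lit 1446516693413) (nat_lit 76) (nat_lit 1446516693413) (nat_lit 1) (nat_lit 4) (nat_lit 2) (nat_lit 5) (nat_lit 2) (nat_lit 4) (nat_lit 282) (nat_lit 189) (nat_lit 189))) (XT.nd (nat_lit 78) (nat_lit 0) (nat_lit 0) (XT.lf (nat_lit 0) (nat_lit 656655734295)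 (nat_lit 76) (nat_lit 3326614248991) (nat_lit 76) (nat_lit 3326601276954) (nat_lit 1) (nat_lit 4) (nat_lit 2) (nat_lit 5) (nat_lit 2) (nat_lit 4) (nat_lit 283) (nat_lit 189) (nat_lit 188)) (XT.nd (nat_lit 78) (nat_lit 0) (nat_lit 0) (XT.lf (nat_lit 0) (nat_lit 755802457559) (nat_lit 76) (nat_lit 3825262767762) (nat_lit 76) (nat_lit 3825238515692) (nat_lit 1) (nat_lit 4) (nat_lit 2) (nat_lit 5) (nat_lit 2) (nat_lit 4) (nat_lit 284) (nat_lit 189) (nat_lit 187)) (XT.lf (nat_lit 0) (nat_lit 869768828313) (nat_lit 76) (nat_lit 4398735109811) (nat_lit 76) (nat_lit 4398701049017) (nat_lit 1) (nat_lit 4) (nat_lit 2) (nat_lit 5) (nat_lit 2) (nat_lit 4) (nat_lit 285) (nat_lit 189) (nat_lit 186))))))) (XT.nd (nat_lit 702) (nat_lit 0) (nat_lit 0) (XT.nd (nat_lit 312) (nat_lit 0) (nat_lit 0) (XT.nd (nat_lit 156) (nat_lit 0) (nat_lit 0) (XT.nd (nat_lit 78) (nat_lit 0) (nat_lit 0) (XT.lf (nat_lit 0)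 (nat_lit 1000784623376) (nat_lit 76) (nat_lit 5058251386178) (nat_lit 76) (nat_lit 5058208796059) (nat_lit 1) (nat_lit 4) (nat_lit 2) (nat_lit 5) (nat_lit 2) (nat_lit 4) (nat_lit 286) (nat_lit 189) (nat_lit 185)) (XT.lf (nat_lit 0) (nat_lit 1151413195261) (nat_lit 76) (nat_lit 5816715176184) (nat_lit 76) (nat_lit 5816665169261) (nat_lit 1) (nat_lit 4) (nat_lit 2) (nat_lit 5) (nat_lit 2) (nat_lit 4) (nat_lit 287) (nat_lit 189) (nat_lit 184))) (XT.nd (nat_lit 78) (nat_lit 0) (nat_lit 0) (XT.lf (nat_lit 0) (nat_lit 1324601624721) (nat_lit 76) (nat_lit 6688965988763) (nat_lit 76) (nat_lit 6688909532445) (nat_lit 1) (nat_lit 4) (nat_lit 2) (nat_lit 5) (nat_lit 2) (nat_lit 4) (nat_lit 288) (nat_lit 189) (nat_lit 183)) (XT.lf (nat_lit 0) (nat_lit 1523738381029) (nat_lit 76) (nat_lit 7692069600684) (nat_lit 76) (nat_lit 7692007536196) (nat_lit 1) (nat_lit 4) (nat_lit 2) (nat_lit 5) (nat_lit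 2) (nat_lit 4) (nat_lit 289) (nat_lit 189) (nat_lit 182)))) (XT.nd (nat_lit 156) (nat_lit 0) (nat_lit 0) (XT.nd (nat_lit 78) (nat_lit 0) (nat_lit 0) (XT.lf (nat_lit 0) (nat_lit 1752719618113) (nat_lit 76) (nat_lit 8845651952180) (nat_lit 76) (nat_lit 8845585011022) (nat_lit 1) (nat_lit 4) (nat_lit 2) (nat_lit 5) (nat_lit 2) (nat_lit 4) (nat_lit 290) (nat_lit 189) (nat_lit 181)) (XT.lf (nat_lit 0) (nat_lit 2016025403654) (nat_lit 76) (nat_lit 10172283132735) (nat_lit 76) (nat_lit 10172211950996) (nat_lit 1) (nat_lit 4) (nat_lit 2) (nat_lit 5) (nat_lit 2) (nat_lit 4) (nat_lit 291) (nat_lit 189) (nat_lit 180))) (XT.nd (nat_lit 78) (nat_lit 0) (nat_lit 0) (XT.lf (nat_lit 0) (nat_lit 2318807372587) (nat_lit 76) (nat_lit 11697918969797) (nat_lit 76) (nat_lit 11697844100595) (nat_lit 1) (nat_lit 4) (nat_lit 2) (nat_lit 5) (nat_lit 2) (nat_lit 4) (nat_lit 292) (nat_lit 189) (nat_lit 179)) (XT.nd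 (nat_lit 78) (nat_lit 0) (nat_lit 0) (XT.lf (nat_lit 0) (nat_lit 2666989519956) (nat_lit 76) (nat_lit 13452408860177) (nat_lit 76) (nat_lit 13452330784486) (nat_lit 1) (nat_lit 4) (nat_lit 2) (nat_lit 5) (nat_lit 2) (nat_lit 4) (nat_lit 293) (nat_lit 189) (nat_lit 178)) (XT.lf (nat_lit 0) (nat_lit 3067384105167) (nat_lit 76) (nat_lit 15470079779991) (nat_lit 76) (nat_lit 15469998916049) (nat_lit 1) (nat_lit 4) (nat_lit 2) (nat_lit 5) (nat_lit 2) (nat_lit 4) (nat_lit 294) (nat_lit 189) (nat_lit 177)))))) (XT.nd (nat_lit 312) (nat_lit 0) (nat_lit 0) (XT.nd (nat_lit 156) (nat_lit 0) (nat_lit 0) (XT.nd (nat_lit 78) (nat_lit 0) (nat_lit 0) (XT.lf (nat_lit 0) (nat_lit 3527824935321) (nat_lit 76) (nat_lit 17790407899410) (nat_lit 76) (nat_lit 17790324610901) (nat_lit 1) (nat_lit 4) (nat_lit 2) (nat_lit 5) (nat_lit 2) (nat_lit 4) (nat_lit 295) (nat_lit 189) (nat_lit 176)) (XT.lf (nat_lit 0)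 (nat_lit 4057320635356) (nat_lit 76) (nat_lit 20458790942509) (nat_lit 76) (nat_lit 20458705545681) (nat_lit 1) (nat_lit 4) (nat_lit 2) (nat_lit 5) (nat_lit 2) (nat_lit 4) (nat_lit 296) (nat_lit 189) (nat_lit 175))) (XT.nd (nat_lit 78) (nat_lit 0) (nat_lit 0) (XT.lf (nat_lit 0) (nat_lit 4666230903752) (nat_lit 76) (nat_lit 23527436403610) (nat_lit 76) (nat_lit 23527349173461) (nat_lit 1) (nat_lit 4) (nat_lit 2) (nat_lit 5) (nat_lit 2) (nat_lit 4) (nat_lit 297) (nat_lit 189) (nat_lit 174)) (XT.lf (nat_lit 0) (nat_lit 5366469202280) (nat_lit 76) (nat_lit 27056382998255) (nat_lit 76) (nat_lit 27056294173915) (nat_lit 1) (nat_lit 4) (nat_lit 2) (nat_lit 5) (nat_lit 2) (nat_lit 4) (nat_lit 298) (nat_lit 189) (nat_lit 173)))) (XT.nd (nat_lit 156) (nat_lit 0) (nat_lit 0) (XT.nd (nat_lit 78) (nat_lit 0) (nat_lit 0) (XT.lf (nat_lit 0) (nat_lit 6171735845478) (nat_lit 76) (nat_lit 31114675333732)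 (nat_lit 76) (nat_lit 31114585123138) (nat_lit 1) (nat_lit 4) (nat_lit 2) (nat_lit 5) (nat_lit 2) (nat_lit 4) (nat_lit 299) (nat_lit 189) (nat_lit 172)) (XT.lf (nat_lit 0) (nat_lit 7097786050278) (nat_lit 76) (nat_lit 35781714781821) (nat_lit 76) (nat_lit 35781623365789) (nat_lit 1) (nat_lit 4) (nat_lit 2) (nat_lit 5) (nat_lit 2) (nat_lit 4) (nat_lit 300) (nat_lit 189) (nat_lit 171))) (XT.nd (nat_lit 78) (nat_lit 0) (nat_lit 0) (XT.lf (nat_lit 0) (nat_lit 8162738190251) (nat_lit 76) (nat_lit 41148812983899) (nat_lit 76) (nat_lit 41148720519659) (nat_lit 1) (nat_lit 4) (nat_lit 2) (nat_lit 5) (nat_lit 2) (nat_lit 4) (nat_lit 301) (nat_lit 189) (nat_lit 170)) (XT.nd (nat_lit 78) (nat_lit 0) (nat_lit 0) (XT.lf (nat_lit 0) (nat_lit 9387428285528) (nat_lit 76) (nat_lit 47320978383048) (nat_lit 76) (nat_lit 47320885007325) (nat_lit 1) (nat_lit 4) (nat_lit 2) (nat_lit 5) (nat_lit 2) (nat_lit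 4) (nat_lit 302) (nat_lit 189) (nat_lit 169)) (XT.lf (nat_lit 0) (nat_lit 10795817664060) (nat_lit 76) (nat_lit 54418970737080) (nat_lit 76) (nat_lit 54418876568761) (nat_lit 1) (nat_lit 4) (nat_lit 2) (nat_lit 5) (nat_lit 2) (nat_lit 4) (nat_lit 303) (nat_lit 189) (nat_lit 168))))))))
noncomputable def xc4 : XT := (XT.nd (nat_lit 33618) (nat_lit 0) (nat_lit 0) (XT.nd (nat_lit 32916) (nat_lit 0) (nat_lit 0) (XT.nd (nat_lit 32526) (nat_lit 0) (nat_lit 0) (XT.nd (nat_lit 156) (nat_lit 0) (nat_lit 0) (XT.nd (nat_lit 78) (nat_lit 0) (nat_lit 0) (XT.lf (nat_lit 0) (nat_lit 12415461770209) (nat_lit 76) (nat_lit 62581663809441) (nat_lit 76) (nat_lit 62581568951910) (nat_lit 1) (nat_lit 4) (nat_lit 2) (nat_lit 5) (nat_lit 2) (nat_lit 4) (nat_lit 304) (nat_lit 189) (nat_lit 167)) (XT.lf (nat_lit 0) (nat_lit 14278049293010) (nat_lit 76) (nat_lit 71968762464592) (nat_lit 76) (nat_lit 71968667007745)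 (nat_lit 1) (nat_lit 4) (nat_lit 2) (nat_lit 5) (nat_lit 2) (nat_lit 4) (nat_lit 305) (nat_lit 189) (nat_lit 166))) (XT.nd (nat_lit 78) (nat_lit 0) (nat_lit 0) (XT.lf (nat_lit 0) (nat_lit 16420022162254) (nat_lit 76) (nat_lit 82763927328395) (nat_lit 76) (nat_lit 82763831350403) (nat_lit 1) (nat_lit 4) (nat_lit 2) (nat_lit 5) (nat_lit 2) (nat_lit 4) (nat_lit 306) (nat_lit 189) (nat_lit 165)) (XT.lf (nat_lit 0) (nat_lit 18883288542777) (nat_lit 76) (nat_lit 95178368148183) (nat_lit 76) (nat_lit 95178271717022) (nat_lit 1) (nat_lit 4) (nat_lit 2) (nat_lit 5) (nat_lit 2) (nat_lit 4) (nat_lit 307) (nat_lit 189) (nat_lit 164)))) (XT.nd (nat_lit 156) (nat_lit 0) (nat_lit 0) (XT.nd (nat_lit 78) (nat_lit 0) (nat_lit 0) (XT.lf (nat_lit 0) (nat_lit 214999588232) (nat_lit 76) (nat_lit 1094122723055) (nat_lit 76) (nat_lit 1094122723055) (nat_lit 1) (nat_lit 4) (nat_lit 2) (nat_lit 5) (nat_lit 2)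 (nat_lit 4) (nat_lit 280) (nat_lit 190) (nat_lit 190)) (XT.lf (nat_lit 0) (nat_lit 495313917944) (nat_lit 76) (nat_lit 2516051995288) (nat_lit 76) (nat_lit 2516037077445) (nat_lit 1) (nat_lit 4) (nat_lit 2) (nat_lit 5) (nat_lit 2) (nat_lit 4) (nat_lit 281) (nat_lit 190) (nat_lit 189))) (XT.nd (nat_lit 78) (nat_lit 0) (nat_lit 0) (XT.lf (nat_lit 0) (nat_lit 570356623224) (nat_lit 76) (nat_lit 2893064633216) (nat_lit 76) (nat_lit 2893036743336) (nat_lit 1) (nat_lit 4) (nat_lit 2) (nat_lit 5) (nat_lit 2) (nat_lit 4) (nat_lit 282) (nat_lit 190) (nat_lit 188)) (XT.nd (nat_lit 78) (nat_lit 0) (nat_lit 0) (XT.lf (nat_lit 0) (nat_lit 656595519145) (nat_lit 76) (nat_lit 3326659694116) (nat_lit 76) (nat_lit 3326620524203) (nat_lit 1) (nat_lit 4) (nat_lit 2) (nat_lit 5) (nat_lit 2) (nat_lit 4) (nat_lit 283) (nat_lit 190) (nat_lit 187)) (XT.lf (nat_lit 0) (nat_lit 755717888456) (nat_lit 76) (nat_lit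 3825320559613) (nat_lit 76) (nat_lit 3825271580977) (nat_lit 1) (nat_lit 4) (nat_lit 2) (nat_lit 5) (nat_lit 2) (nat_lit 4) (nat_lit 284) (nat_lit 190) (nat_lit 186)))))) (XT.nd (nat_lit 312) (nat_lit 0) (nat_lit 0) (XT.nd (nat_lit 156) (nat_lit 0) (nat_lit 0) (XT.nd (nat_lit 78) (nat_lit 0) (nat_lit 0) (XT.lf (nat_lit 0) (nat_lit 869663081859) (nat_lit 76) (nat_lit 4398803637947) (nat_lit 76) (nat_lit 4398746129985) (nat_lit 1) (nat_lit 4) (nat_lit 2) (nat_lit 5) (nat_lit 2) (nat_lit 4) (nat_lit 285) (nat_lit 190) (nat_lit 185)) (XT.lf (nat_lit 0) (nat_lit 1000660461835) (nat_lit 76) (nat_lit 5058329250213) (nat_lit 76) (nat_lit 5058264325447) (nat_lit 1) (nat_lit 4) (nat_lit 2) (nat_lit 5) (nat_lit 2) (nat_lit 4) (nat_lit 286) (nat_lit 190) (nat_lit 184))) (XT.nd (nat_lit 78) (nat_lit 0) (nat_lit 0) (XT.lf (nat_lit 0) (nat_lit 1151273020600) (nat_lit 76) (nat_lit 5816801158392) (nat_lit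 76) (nat_lit 5816729784231) (nat_lit 1) (nat_lit 4) (nat_lit 2) (nat_lit 5) (nat_lit 2) (nat_lit 4) (nat_lit 287) (nat_lit 190) (nat_lit 183)) (XT.lf (nat_lit 0) (nat_lit 1324447525609) (nat_lit 76) (nat_lit 6689059030253) (nat_lit 76) (nat_lit 6688982047922) (nat_lit 1) (nat_lit 4) (nat_lit 2) (nat_lit 5) (nat_lit 2) (nat_lit 4) (nat_lit 288) (nat_lit 190) (nat_lit 182)))) (XT.nd (nat_lit 156) (nat_lit 0) (nat_lit 0) (XT.nd (nat_lit 78) (nat_lit 0) (nat_lit 0) (XT.lf (nat_lit 0) (nat_lit 1523572173698) (nat_lit 76) (nat_lit 7692168780679) (nat_lit 76) (nat_lit 7692086921679) (nat_lit 1) (nat_lit 4) (nat_lit 2) (nat_lit 5) (nat_lit 2) (nat_lit 4) (nat_lit 289) (nat_lit 190) (nat_lit 181)) (XT.lf (nat_lit 0) (nat_lit 1752542881896) (nat_lit 76) (nat_lit 8845756470005) (nat_lit 76) (nat_lit 8845670370423) (nat_lit 1) (nat_lit 4) (nat_lit 2) (nat_lit 5) (nat_lit 2) (nat_lit 4) (nat_lit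 290) (nat_lit 190) (nat_lit 180))) (XT.nd (nat_lit 78) (nat_lit 0) (nat_lit 0) (XT.lf (nat_lit 0) (nat_lit 2015839511883) (nat_lit 76) (nat_lit 10172392292153) (nat_lit 76) (nat_lit 10172302505108) (nat_lit 1) (nat_lit 4) (nat_lit 2) (nat_lit 5) (nat_lit 2) (nat_lit 4) (nat_lit 291) (nat_lit 190) (nat_lit 179)) (XT.nd (nat_lit 78) (nat_lit 0) (nat_lit 0) (XT.lf (nat_lit 0) (nat_lit 2318613519466) (nat_lit 76) (nat_lit 11698032165382) (nat_lit 76) (nat_lit 11697939171848) (nat_lit 1) (nat_lit 4) (nat_lit 2) (nat_lit 5) (nat_lit 2) (nat_lit 4) (nat_lit 292) (nat_lit 190) (nat_lit 178)) (XT.lf (nat_lit 0) (nat_lit 2666788743922) (nat_lit 76) (nat_lit 13452525565472) (nat_lit 76) (nat_lit 13452429783687) (nat_lit 1) (nat_lit 4) (nat_lit 2) (nat_lit 5) (nat_lit 2) (nat_lit 4) (nat_lit 293) (nat_lit 190) (nat_lit 177))))))) (XT.nd (nat_lit 702) (nat_lit 0) (nat_lit 0) (XT.nd (nat_lit 312)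 (nat_lit 0) (nat_lit 0) (XT.nd (nat_lit 156) (nat_lit 0) (nat_lit 0) (XT.nd (nat_lit 78) (nat_lit 0) (nat_lit 0) (XT.lf (nat_lit 0) (nat_lit 3067177309208) (nat_lit 76) (nat_lit 15470199537209) (nat_lit 76) (nat_lit 15470101330856) (nat_lit 1) (nat_lit 4) (nat_lit 2) (nat_lit 5) (nat_lit 2) (nat_lit 4) (nat_lit 294) (nat_lit 190) (nat_lit 176)) (XT.lf (nat_lit 0) (nat_lit 3527612904645) (nat_lit 76) (nat_lit 17790530310473) (nat_lit 76) (nat_lit 17790429995802) (nat_lit 1) (nat_lit 4) (nat_lit 2) (nat_lit 5) (nat_lit 2) (nat_lit 4) (nat_lit 295) (nat_lit 190) (nat_lit 175))) (XT.nd (nat_lit 78) (nat_lit 0) (nat_lit 0) (XT.lf (nat_lit 0) (nat_lit 4057104052752) (nat_lit 76) (nat_lit 20458915661263) (nat_lit 76) (nat_lit 20458813513272) (nat_lit 1) (nat_lit 4) (nat_lit 2) (nat_lit 5) (nat_lit 2) (nat_lit 4) (nat_lit 296) (nat_lit 190) (nat_lit 174)) (XT.lf (nat_lit 0) (nat_lit 4666010362949)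 (nat_lit 76) (nat_lit 23527563129052) (nat_lit 76) (nat_lit 23527459386868) (nat_lit 1) (nat_lit 4) (nat_lit 2) (nat_lit 5) (nat_lit 2) (nat_lit 4) (nat_lit 297) (nat_lit 190) (nat_lit 173)))) (XT.nd (nat_lit 156) (nat_lit 0) (nat_lit 0) (XT.nd (nat_lit 78) (nat_lit 0) (nat_lit 0) (XT.lf (nat_lit 0) (nat_lit 5366245219566) (nat_lit 76) (nat_lit 27056511468644) (nat_lit 76) (nat_lit 27056406340206) (nat_lit 1) (nat_lit 4) (nat_lit 2) (nat_lit 5) (nat_lit 2) (nat_lit 4) (nat_lit 298) (nat_lit 190) (nat_lit 172)) (XT.lf (nat_lit 0) (nat_lit 6171508869798) (nat_lit 76) (nat_lit 31114805321465) (nat_lit 76) (nat_lit 31114698987590) (nat_lit 1) (nat_lit 4) (nat_lit 2) (nat_lit 5) (nat_lit 2) (nat_lit 4) (nat_lit 299) (nat_lit 190) (nat_lit 171))) (XT.nd (nat_lit 78) (nat_lit 0) (nat_lit 0) (XT.lf (nat_lit 0) (nat_lit 7097556472018) (nat_lit 76) (nat_lit 35781846088984) (nat_lit 76) (nat_lit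 35781738706902) (nat_lit 1) (nat_lit 4) (nat_lit 2) (nat_lit 5) (nat_lit 2) (nat_lit 4) (nat_lit 300) (nat_lit 190) (nat_lit 170)) (XT.nd (nat_lit 78) (nat_lit 0) (nat_lit 0) (XT.lf (nat_lit 0) (nat_lit 8162506348879) (nat_lit 76) (nat_lit 41148945438392) (nat_lit 76) (nat_lit 41148837144826) (nat_lit 1) (nat_lit 4) (nat_lit 2) (nat_lit 5) (nat_lit 2) (nat_lit 4) (nat_lit 301) (nat_lit 190) (nat_lit 169)) (XT.lf (nat_lit 0) (nat_lit 9387194476232) (nat_lit 76) (nat_lit 47321111835221) (nat_lit 76) (nat_lit 47321002749059) (nat_lit 1) (nat_lit 4) (nat_lit 2) (nat_lit 5) (nat_lit 2) (nat_lit 4) (nat_lit 302) (nat_lit 190) (nat_lit 168)))))) (XT.nd (nat_lit 312) (nat_lit 0) (nat_lit 0) (XT.nd (nat_lit 156) (nat_lit 0) (nat_lit 0) (XT.nd (nat_lit 78) (nat_lit 0) (nat_lit 0) (XT.lf (nat_lit 0) (nat_lit 10795582143525) (nat_lit 76) (nat_lit 54419105056799) (nat_lit 76) (nat_lit 54418995281424)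 (nat_lit 1) (nat_lit 4) (nat_lit 2) (nat_lit 5) (nat_lit 2) (nat_lit 4) (nat_lit 303) (nat_lit 190) (nat_lit 167)) (XT.lf (nat_lit 0) (nat_lit 12415224761641) (nat_lit 76) (nat_lit 62581798883549) (nat_lit 76) (nat_lit 62581688508859) (nat_lit 1) (nat_lit 4) (nat_lit 2) (nat_lit 5) (nat_lit 2) (nat_lit 4) (nat_lit 304) (nat_lit 190) (nat_lit 166))) (XT.nd (nat_lit 78) (nat_lit 0) (nat_lit 0) (XT.lf (nat_lit 0) (nat_lit 14277810990499) (nat_lit 76) (nat_lit 71968898194690) (nat_lit 76) (nat_lit 71968787298855) (nat_lit 1) (nat_lit 4) (nat_lit 2) (nat_lit 5) (nat_lit 2) (nat_lit 4) (nat_lit 305) (nat_lit 190) (nat_lit 165)) (XT.lf (nat_lit 0) (nat_lit 16419782734577) (nat_lit 76) (nat_lit 82764063628918) (nat_lit 76) (nat_lit 82763952279915) (nat_lit 1) (nat_lit 4) (nat_lit 2) (nat_lit 5) (nat_lit 2) (nat_lit 4) (nat_lit 306) (nat_lit 190) (nat_lit 164)))) (XT.nd (nat_lit 32214) (nat_lit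 0) (nat_lit 0) (XT.nd (nat_lit 32136) (nat_lit 0) (nat_lit 0) (XT.lf (nat_lit 0) (nat_lit 18883048136693) (nat_lit 76) (nat_lit 95178504944729) (nat_lit 76) (nat_lit 95178393201666) (nat_lit 1) (nat_lit 4) (nat_lit 2) (nat_lit 5) (nat_lit 2) (nat_lit 4) (nat_lit 307) (nat_lit 190) (nat_lit 163)) (XT.lf (nat_lit 0) (nat_lit 161824959526) (nat_lit 76) (nat_lit 827714496828) (nat_lit 76) (nat_lit 827714496828) (nat_lit 1) (nat_lit 4) (nat_lit 2) (nat_lit 5) (nat_lit 2) (nat_lit 4) (nat_lit 278) (nat_lit 191) (nat_lit 191))) (XT.nd (nat_lit 78) (nat_lit 0) (nat_lit 0) (XT.lf (nat_lit 0) (nat_lit 373134501670) (nat_lit 76) (nat_lit 1903248534806) (nat_lit 76) (nat_lit 1903231379287) (nat_lit 1) (nat_lit 4) (nat_lit 2) (nat_lit 5) (nat_lit 2) (nat_lit 4) (nat_lit 279) (nat_lit 191) (nat_lit 190)) (XT.nd (nat_lit 78) (nat_lit 0) (nat_lit 0) (XT.lf (nat_lit 0) (nat_lit 429962137146) (nat_lit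 76) (nat_lit 2188281379458) (nat_lit 76) (nat_lit 2188249306095) (nat_lit 1) (nat_lit 4) (nat_lit 2) (nat_lit 5) (nat_lit 2) (nat_lit 4) (nat_lit 280) (nat_lit 191) (nat_lit 189)) (XT.lf (nat_lit 0) (nat_lit 495244670523) (nat_lit 76) (nat_lit 2516104257181) (nat_lit 76) (nat_lit 2516059211782) (nat_lit 1) (nat_lit 4) (nat_lit 2) (nat_lit 5) (nat_lit 2) (nat_lit 4) (nat_lit 281) (nat_lit 191) (nat_lit 188))))))))
noncomputable def xc5 : XT := (XT.nd (nat_lit 1404) (nat_lit 0) (nat_lit 0) (XT.nd (nat_lit 702) (nat_lit 0) (nat_lit 0) (XT.nd (nat_lit 312) (nat_lit 0) (nat_lit 0) (XT.nd (nat_lit 156) (nat_lit 0) (nat_lit 0) (XT.nd (nat_lit 78) (nat_lit 0) (nat_lit 0) (XT.lf (nat_lit 0) (nat_lit 570259368756) (nat_lit 76) (nat_lit 2893131093846) (nat_lit 76) (nat_lit 2893074768414) (nat_lit 1) (nat_lit 4) (nat_lit 2) (nat_lit 5) (nat_lit 2) (nat_lit 4) (nat_lit 282) (nat_lit 191) (nat_lit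 187)) (XT.lf (nat_lit 0) (nat_lit 656473910724) (nat_lit 76) (nat_lit 3326738501472) (nat_lit 76) (nat_lit 3326672367316) (nat_lit 1) (nat_lit 4) (nat_lit 2) (nat_lit 5) (nat_lit 2) (nat_lit 4) (nat_lit 283) (nat_lit 191) (nat_lit 186))) (XT.nd (nat_lit 78) (nat_lit 0) (nat_lit 0) (XT.lf (nat_lit 0) (nat_lit 755575102684) (nat_lit 76) (nat_lit 3825410103254) (nat_lit 76) (nat_lit 3825335439773) (nat_lit 1) (nat_lit 4) (nat_lit 2) (nat_lit 5) (nat_lit 2) (nat_lit 4) (nat_lit 284) (nat_lit 191) (nat_lit 185)) (XT.lf (nat_lit 0) (nat_lit 869501881000) (nat_lit 76) (nat_lit 4398902517486) (nat_lit 76) (nat_lit 4398820437201) (nat_lit 1) (nat_lit 4) (nat_lit 2) (nat_lit 5) (nat_lit 2) (nat_lit 4) (nat_lit 285) (nat_lit 191) (nat_lit 184)))) (XT.nd (nat_lit 156) (nat_lit 0) (nat_lit 0) (XT.nd (nat_lit 78) (nat_lit 0) (nat_lit 0) (XT.lf (nat_lit 0) (nat_lit 1000483247856) (nat_lit 76) (nat_lit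 5058436247926) (nat_lit 76) (nat_lit 5058347718246) (nat_lit 1) (nat_lit 4) (nat_lit 2) (nat_lit 5) (nat_lit 2) (nat_lit 4) (nat_lit 286) (nat_lit 191) (nat_lit 183)) (XT.lf (nat_lit 0) (nat_lit 1151081882170) (nat_lit 76) (nat_lit 5816915215387) (nat_lit 76) (nat_lit 5816821077537) (nat_lit 1) (nat_lit 4) (nat_lit 2) (nat_lit 5) (nat_lit 2) (nat_lit 4) (nat_lit 287) (nat_lit 191) (nat_lit 182))) (XT.nd (nat_lit 78) (nat_lit 0) (nat_lit 0) (XT.lf (nat_lit 0) (nat_lit 1324244278959) (nat_lit 76) (nat_lit 6689179225753) (nat_lit 76) (nat_lit 6689080211233) (nat_lit 1) (nat_lit 4) (nat_lit 2) (nat_lit 5) (nat_lit 2) (nat_lit 4) (nat_lit 288) (nat_lit 191) (nat_lit 181)) (XT.nd (nat_lit 78) (nat_lit 0) (nat_lit 0) (XT.lf (nat_lit 0) (nat_lit 1523358398162) (nat_lit 76) (nat_lit 7692294314010) (nat_lit 76) (nat_lit 7692191058908) (nat_lit 1) (nat_lit 4) (nat_lit 2) (nat_lit 5) (nat_lit 2)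 (nat_lit 4) (nat_lit 289) (nat_lit 191) (nat_lit 180)) (XT.lf (nat_lit 0) (nat_lit 1752319950807) (nat_lit 76) (nat_lit 8845886644928) (nat_lit 76) (nat_lit 8845779702364) (nat_lit 1) (nat_lit 4) (nat_lit 2) (nat_lit 5) (nat_lit 2) (nat_lit 4) (nat_lit 290) (nat_lit 191) (nat_lit 179)))))) (XT.nd (nat_lit 312) (nat_lit 0) (nat_lit 0) (XT.nd (nat_lit 156) (nat_lit 0) (nat_lit 0) (XT.nd (nat_lit 78) (nat_lit 0) (nat_lit 0) (XT.lf (nat_lit 0) (nat_lit 2015608619444) (nat_lit 76) (nat_lit 10172526503242) (nat_lit 76) (nat_lit 10172416354189) (nat_lit 1) (nat_lit 4) (nat_lit 2) (nat_lit 5) (nat_lit 2) (nat_lit 4) (nat_lit 291) (nat_lit 191) (nat_lit 178)) (XT.lf (nat_lit 0) (nat_lit 2318375704113) (nat_lit 76) (nat_lit 11698169886182) (nat_lit 76) (nat_lit 11698056948877) (nat_lit 1) (nat_lit 4) (nat_lit 2) (nat_lit 5) (nat_lit 2) (nat_lit 4) (nat_lit 292) (nat_lit 191) (nat_lit 177))) (XT.nd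 (nat_lit 78) (nat_lit 0) (nat_lit 0) (XT.lf (nat_lit 0) (nat_lit 2666544908644) (nat_lit 76) (nat_lit 13452666338194) (nat_lit 76) (nat_lit 13452550976323) (nat_lit 1) (nat_lit 4) (nat_lit 2) (nat_lit 5) (nat_lit 2) (nat_lit 4) (nat_lit 293) (nat_lit 191) (nat_lit 176)) (XT.lf (nat_lit 0) (nat_lit 3066928239213) (nat_lit 76) (nat_lit 15470342963776) (nat_lit 76) (nat_lit 15470225493585) (nat_lit 1) (nat_lit 4) (nat_lit 2) (nat_lit 5) (nat_lit 2) (nat_lit 4) (nat_lit 294) (nat_lit 191) (nat_lit 175)))) (XT.nd (nat_lit 156) (nat_lit 0) (nat_lit 0) (XT.nd (nat_lit 78) (nat_lit 0) (nat_lit 0) (XT.lf (nat_lit 0) (nat_lit 3527359282722) (nat_lit 76) (nat_lit 17790676044731) (nat_lit 76) (nat_lit 17790556741220) (nat_lit 1) (nat_lit 4) (nat_lit 2) (nat_lit 5) (nat_lit 2) (nat_lit 4) (nat_lit 295) (nat_lit 191) (nat_lit 174)) (XT.lf (nat_lit 0) (nat_lit 4056846472631) (nat_lit 76) (nat_lit 20459063402210)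 (nat_lit 76) (nat_lit 20458942504507) (nat_lit 1) (nat_lit 4) (nat_lit 2) (nat_lit 5) (nat_lit 2) (nat_lit 4) (nat_lit 296) (nat_lit 191) (nat_lit 173))) (XT.nd (nat_lit 78) (nat_lit 0) (nat_lit 0) (XT.lf (nat_lit 0) (nat_lit 4665749340917) (nat_lit 76) (nat_lit 23527712614945) (nat_lit 76) (nat_lit 23527590330988) (nat_lit 1) (nat_lit 4) (nat_lit 2) (nat_lit 5) (nat_lit 2) (nat_lit 4) (nat_lit 297) (nat_lit 191) (nat_lit 172)) (XT.nd (nat_lit 78) (nat_lit 0) (nat_lit 0) (XT.lf (nat_lit 0) (nat_lit 5365981204567) (nat_lit 76) (nat_lit 27056662471881) (nat_lit 76) (nat_lit 27056538982487) (nat_lit 1) (nat_lit 4) (nat_lit 2) (nat_lit 5) (nat_lit 2) (nat_lit 4) (nat_lit 298) (nat_lit 191) (nat_lit 171)) (XT.lf (nat_lit 0) (nat_lit 6171242252219) (nat_lit 76) (nat_lit 31114957644133) (nat_lit 76) (nat_lit 31114833106531) (nat_lit 1) (nat_lit 4) (nat_lit 2) (nat_lit 5) (nat_lit 2) (nat_lit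 4) (nat_lit 299) (nat_lit 191) (nat_lit 170))))))) (XT.nd (nat_lit 32682) (nat_lit 0) (nat_lit 0) (XT.nd (nat_lit 312) (nat_lit 0) (nat_lit 0) (XT.nd (nat_lit 156) (nat_lit 0) (nat_lit 0) (XT.nd (nat_lit 78) (nat_lit 0) (nat_lit 0) (XT.lf (nat_lit 0) (nat_lit 7097287591326) (nat_lit 76) (nat_lit 35781999558983) (nat_lit 76) (nat_lit 35781874109897) (nat_lit 1) (nat_lit 4) (nat_lit 2) (nat_lit 5) (nat_lit 2) (nat_lit 4) (nat_lit 300) (nat_lit 191) (nat_lit 169)) (XT.lf (nat_lit 0) (nat_lit 8162235500263) (nat_lit 76) (nat_lit 41149099906070) (nat_lit 76) (nat_lit 41148973664389) (nat_lit 1) (nat_lit 4) (nat_lit 2) (nat_lit 5) (nat_lit 2) (nat_lit 4) (nat_lit 301) (nat_lit 191) (nat_lit 168))) (XT.nd (nat_lit 78) (nat_lit 0) (nat_lit 0) (XT.lf (nat_lit 0) (nat_lit 9386921916378) (nat_lit 76) (nat_lit 47321267170445) (nat_lit 76) (nat_lit 47321140239551) (nat_lit 1) (nat_lit 4) (nat_lit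 2) (nat_lit 5) (nat_lit 2) (nat_lit 4) (nat_lit 302) (nat_lit 191) (nat_lit 167)) (XT.lf (nat_lit 0) (nat_lit 10795308095638) (nat_lit 76) (nat_lit 54419261146411) (nat_lit 76) (nat_lit 54419133616201) (nat_lit 1) (nat_lit 4) (nat_lit 2) (nat_lit 5) (nat_lit 2) (nat_lit 4) (nat_lit 303) (nat_lit 191) (nat_lit 166)))) (XT.nd (nat_lit 156) (nat_lit 0) (nat_lit 0) (XT.nd (nat_lit 78) (nat_lit 0) (nat_lit 0) (XT.lf (nat_lit 0) (nat_lit 12414949419812) (nat_lit 76) (nat_lit 62581955629151) (nat_lit 76) (nat_lit 62581827577797) (nat_lit 1) (nat_lit 4) (nat_lit 2) (nat_lit 5) (nat_lit 2) (nat_lit 4) (nat_lit 304) (nat_lit 191) (nat_lit 165)) (XT.lf (nat_lit 0) (nat_lit 14277534523503) (nat_lit 76) (nat_lit 71969055510718) (nat_lit 76) (nat_lit 71968927006196) (nat_lit 1) (nat_lit 4) (nat_lit 2) (nat_lit 5) (nat_lit 2) (nat_lit 4) (nat_lit 305) (nat_lit 191) (nat_lit 164))) (XT.nd (nat_lit 32058)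 (nat_lit 0) (nat_lit 0) (XT.lf (nat_lit 0) (nat_lit 16419505289175) (nat_lit 76) (nat_lit 82764221440969) (nat_lit 76) (nat_lit 82764092542387) (nat_lit 1) (nat_lit 4) (nat_lit 2) (nat_lit 5) (nat_lit 2) (nat_lit 4) (nat_lit 306) (nat_lit 191) (nat_lit 163)) (XT.nd (nat_lit 78) (nat_lit 0) (nat_lit 0) (XT.lf (nat_lit 0) (nat_lit 121505458130) (nat_lit 76) (nat_lit 626331682933) (nat_lit 76) (nat_lit 626331682933) (nat_lit 1) (nat_lit 4) (nat_lit 2) (nat_lit 5) (nat_lit 2) (nat_lit 4) (nat_lit 276) (nat_lit 192) (nat_lit 192)) (XT.lf (nat_lit 0) (nat_lit 280540212674) (nat_lit 76) (nat_lit 1439993841662) (nat_lit 76) (nat_lit 1439974112815) (nat_lit 1) (nat_lit 4) (nat_lit 2) (nat_lit 5) (nat_lit 2) (nat_lit 4) (nat_lit 277) (nat_lit 192) (nat_lit 191)))))) (XT.nd (nat_lit 312) (nat_lit 0) (nat_lit 0) (XT.nd (nat_lit 156) (nat_lit 0) (nat_lit 0) (XT.nd (nat_lit 78) (nat_lit 0) (nat_lit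 0) (XT.lf (nat_lit 0) (nat_lit 323607323835) (nat_lit 76) (nat_lit 1655470317007) (nat_lit 76) (nat_lit 1655433432640) (nat_lit 1) (nat_lit 4) (nat_lit 2) (nat_lit 5) (nat_lit 2) (nat_lit 4) (nat_lit 278) (nat_lit 192) (nat_lit 190)) (XT.lf (nat_lit 0) (nat_lit 373054867135) (nat_lit 76) (nat_lit 1903308635984) (nat_lit 76) (nat_lit 1903256833774) (nat_lit 1) (nat_lit 4) (nat_lit 2) (nat_lit 5) (nat_lit 2) (nat_lit 4) (nat_lit 279) (nat_lit 192) (nat_lit 189))) (XT.nd (nat_lit 78) (nat_lit 0) (nat_lit 0) (XT.lf (nat_lit 0) (nat_lit 429850294508) (nat_lit 76) (nat_lit 2188357809182) (nat_lit 76) (nat_lit 2188293034935) (nat_lit 1) (nat_lit 4) (nat_lit 2) (nat_lit 5) (nat_lit 2) (nat_lit 4) (nat_lit 280) (nat_lit 192) (nat_lit 188)) (XT.lf (nat_lit 0) (nat_lit 495104820838) (nat_lit 76) (nat_lit 2516194885641) (nat_lit 76) (nat_lit 2516118831362) (nat_lit 1) (nat_lit 4) (nat_lit 2) (nat_lit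 5) (nat_lit 2) (nat_lit 4) (nat_lit 281) (nat_lit 192) (nat_lit 187)))) (XT.nd (nat_lit 156) (nat_lit 0) (nat_lit 0) (XT.nd (nat_lit 78) (nat_lit 0) (nat_lit 0) (XT.lf (nat_lit 0) (nat_lit 570095165118) (nat_lit 76) (nat_lit 2893234069032) (nat_lit 76) (nat_lit 2893148206029) (nat_lit 1) (nat_lit 4) (nat_lit 2) (nat_lit 5) (nat_lit 2) (nat_lit 4) (nat_lit 282) (nat_lit 192) (nat_lit 186)) (XT.lf (nat_lit 0) (nat_lit 656288529736) (nat_lit 76) (nat_lit 3326852212943) (nat_lit 76) (nat_lit 3326757820615) (nat_lit 1) (nat_lit 4) (nat_lit 2) (nat_lit 5) (nat_lit 2) (nat_lit 4) (nat_lit 283) (nat_lit 192) (nat_lit 185))) (XT.nd (nat_lit 78) (nat_lit 0) (nat_lit 0) (XT.lf (nat_lit 0) (nat_lit 755371306609) (nat_lit 76) (nat_lit 3825533150624) (nat_lit 76) (nat_lit 3825431341492) (nat_lit 1) (nat_lit 4) (nat_lit 2) (nat_lit 5) (nat_lit 2) (nat_lit 4) (nat_lit 284) (nat_lit 192) (nat_lit 184))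 (XT.nd (nat_lit 78) (nat_lit 0) (nat_lit 0) (XT.lf (nat_lit 0) (nat_lit 869282071805) (nat_lit 76) (nat_lit 4399033683030) (nat_lit 76) (nat_lit 4398925424502) (nat_lit 1) (nat_lit 4) (nat_lit 2) (nat_lit 5) (nat_lit 2) (nat_lit 4) (nat_lit 285) (nat_lit 192) (nat_lit 183)) (XT.lf (nat_lit 0) (nat_lit 1000249514209) (nat_lit 76) (nat_lit 5058574472751) (nat_lit 76) (nat_lit 5058460606054) (nat_lit 1) (nat_lit 4) (nat_lit 2) (nat_lit 5) (nat_lit 2) (nat_lit 4) (nat_lit 286) (nat_lit 192) (nat_lit 182))))))))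
noncomputable def xc6 : XT := (XT.nd (nat_lit 1404) (nat_lit 0) (nat_lit 0) (XT.nd (nat_lit 702) (nat_lit 0) (nat_lit 0) (XT.nd (nat_lit 312) (nat_lit 0) (nat_lit 0) (XT.nd (nat_lit 156) (nat_lit 0) (nat_lit 0) (XT.nd (nat_lit 78) (nat_lit 0) (nat_lit 0) (XT.lf (nat_lit 0) (nat_lit 1150836040304) (nat_lit 76) (nat_lit 5817059578717) (nat_lit 76) (nat_lit 5816940835350) (nat_lit 1) (nat_lit 4) (nat_lit 2) (nat_lit 5) (nat_lit 2) (nat_lit 4) (nat_lit 287) (nat_lit 192) (nat_lit 181)) (XT.lf (nat_lit 0) (nat_lit 1323987908207) (nat_lit 76) (nat_lit 6689328926914) (nat_lit 76) (nat_lit 6689205942965) (nat_lit 1) (nat_lit 4) (nat_lit 2) (nat_lit 5) (nat_lit 2) (nat_lit 4) (nat_lit 288) (nat_lit 192) (nat_lit 180))) (XT.nd (nat_lit 78) (nat_lit 0) (nat_lit 0) (XT.lf (nat_lit 0) (nat_lit 1523092871857) (nat_lit 76) (nat_lit 7692448656762) (nat_lit 76) (nat_lit 7692321985351) (nat_lit 1) (nat_lit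 4) (nat_lit 2) (nat_lit 5) (nat_lit 2) (nat_lit 4) (nat_lit 289) (nat_lit 192) (nat_lit 179)) (XT.lf (nat_lit 0) (nat_lit 1752046463151) (nat_lit 76) (nat_lit 8846045023847) (nat_lit 76) (nat_lit 8845915145947) (nat_lit 1) (nat_lit 4) (nat_lit 2) (nat_lit 5) (nat_lit 2) (nat_lit 4) (nat_lit 290) (nat_lit 192) (nat_lit 178)))) (XT.nd (nat_lit 156) (nat_lit 0) (nat_lit 0) (XT.nd (nat_lit 78) (nat_lit 0) (nat_lit 0) (XT.lf (nat_lit 0) (nat_lit 2015328208875) (nat_lit 76) (nat_lit 10172688391872) (nat_lit 76) (nat_lit 10172555725720) (nat_lit 1) (nat_lit 4) (nat_lit 2) (nat_lit 5) (nat_lit 2) (nat_lit 4) (nat_lit 291) (nat_lit 192) (nat_lit 177)) (XT.lf (nat_lit 0) (nat_lit 2318089273619) (nat_lit 76) (nat_lit 11698334826734) (nat_lit 76) (nat_lit 11698199736015) (nat_lit 1) (nat_lit 4) (nat_lit 2) (nat_lit 5) (nat_lit 2) (nat_lit 4) (nat_lit 292) (nat_lit 192) (nat_lit 176))) (XT.nd (nat_lit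 78) (nat_lit 0) (nat_lit 0) (XT.lf (nat_lit 0) (nat_lit 2666253243433) (nat_lit 76) (nat_lit 13452833932591) (nat_lit 76) (nat_lit 13452696733554) (nat_lit 1) (nat_lit 4) (nat_lit 2) (nat_lit 5) (nat_lit 2) (nat_lit 4) (nat_lit 293) (nat_lit 192) (nat_lit 175)) (XT.nd (nat_lit 78) (nat_lit 0) (nat_lit 0) (XT.lf (nat_lit 0) (nat_lit 3066632022074) (nat_lit 76) (nat_lit 15470512865864) (nat_lit 76) (nat_lit 15470373833506) (nat_lit 1) (nat_lit 4) (nat_lit 2) (nat_lit 5) (nat_lit 2) (nat_lit 4) (nat_lit 294) (nat_lit 192) (nat_lit 174)) (XT.lf (nat_lit 0) (nat_lit 3527059107385) (nat_lit 76) (nat_lit 17790847953508) (nat_lit 76) (nat_lit 17790707326958) (nat_lit 1) (nat_lit 4) (nat_lit 2) (nat_lit 5) (nat_lit 2) (nat_lit 4) (nat_lit 295) (nat_lit 192) (nat_lit 173)))))) (XT.nd (nat_lit 312) (nat_lit 0) (nat_lit 0) (XT.nd (nat_lit 156) (nat_lit 0) (nat_lit 0) (XT.nd (nat_lit 78) (nat_lit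 0) (nat_lit 0) (XT.lf (nat_lit 0) (nat_lit 4056542855382) (nat_lit 76) (nat_lit 20459237055933) (nat_lit 76) (nat_lit 20459095043130) (nat_lit 1) (nat_lit 4) (nat_lit 2) (nat_lit 5) (nat_lit 2) (nat_lit 4) (nat_lit 296) (nat_lit 192) (nat_lit 172)) (XT.lf (nat_lit 0) (nat_lit 4665442730701) (nat_lit 76) (nat_lit 23527887786013) (nat_lit 76) (nat_lit 23527744567771) (nat_lit 1) (nat_lit 4) (nat_lit 2) (nat_lit 5) (nat_lit 2) (nat_lit 4) (nat_lit 297) (nat_lit 192) (nat_lit 171))) (XT.nd (nat_lit 78) (nat_lit 0) (nat_lit 0) (XT.lf (nat_lit 0) (nat_lit 5365671991772) (nat_lit 76) (nat_lit 27056838962379) (nat_lit 76) (nat_lit 27056694695931) (nat_lit 1) (nat_lit 4) (nat_lit 2) (nat_lit 5) (nat_lit 2) (nat_lit 4) (nat_lit 298) (nat_lit 192) (nat_lit 170)) (XT.lf (nat_lit 0) (nat_lit 6170930776311) (nat_lit 76) (nat_lit 31115135281962) (nat_lit 76) (nat_lit 31114990104028) (nat_lit 1) (nat_lit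 4) (nat_lit 2) (nat_lit 5) (nat_lit 2) (nat_lit 4) (nat_lit 299) (nat_lit 192) (nat_lit 169)))) (XT.nd (nat_lit 156) (nat_lit 0) (nat_lit 0) (XT.nd (nat_lit 78) (nat_lit 0) (nat_lit 0) (XT.lf (nat_lit 0) (nat_lit 7096974147495) (nat_lit 76) (nat_lit 35782178194490) (nat_lit 76) (nat_lit 35782032223962) (nat_lit 1) (nat_lit 4) (nat_lit 2) (nat_lit 5) (nat_lit 2) (nat_lit 4) (nat_lit 300) (nat_lit 192) (nat_lit 168)) (XT.lf (nat_lit 0) (nat_lit 8161920345193) (nat_lit 76) (nat_lit 41149279409124) (nat_lit 76) (nat_lit 41149132749382) (nat_lit 1) (nat_lit 4) (nat_lit 2) (nat_lit 5) (nat_lit 2) (nat_lit 4) (nat_lit 301) (nat_lit 192) (nat_lit 167))) (XT.nd (nat_lit 78) (nat_lit 0) (nat_lit 0) (XT.lf (nat_lit 0) (nat_lit 9386605273274) (nat_lit 76) (nat_lit 47321447427887) (nat_lit 76) (nat_lit 47321300168830) (nat_lit 1) (nat_lit 4) (nat_lit 2) (nat_lit 5) (nat_lit 2) (nat_lit 4) (nat_lit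 302) (nat_lit 192) (nat_lit 166)) (XT.nd (nat_lit 78) (nat_lit 0) (nat_lit 0) (XT.lf (nat_lit 0) (nat_lit 10794990158592) (nat_lit 76) (nat_lit 54419442059844) (nat_lit 76) (nat_lit 54419294279643) (nat_lit 1) (nat_lit 4) (nat_lit 2) (nat_lit 5) (nat_lit 2) (nat_lit 4) (nat_lit 303) (nat_lit 192) (nat_lit 165)) (XT.lf (nat_lit 0) (nat_lit 12414630357599) (nat_lit 76) (nat_lit 62582137113010) (nat_lit 76) (nat_lit 62581988879640) (nat_lit 1) (nat_lit 4) (nat_lit 2) (nat_lit 5) (nat_lit 2) (nat_lit 4) (nat_lit 304) (nat_lit 192) (nat_lit 164))))))) (XT.nd (nat_lit 32604) (nat_lit 0) (nat_lit 0) (XT.nd (nat_lit 32214) (nat_lit 0) (nat_lit 0) (XT.nd (nat_lit 32058) (nat_lit 0) (nat_lit 0) (XT.nd (nat_lit 31980) (nat_lit 0) (nat_lit 0) (XT.lf (nat_lit 0) (nat_lit 14277214482884) (nat_lit 76) (nat_lit 71969237490600) (nat_lit 76) (nat_lit 71969088863170) (nat_lit 1) (nat_lit 4) (nat_lit 2)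 (nat_lit 5) (nat_lit 2) (nat_lit 4) (nat_lit 305) (nat_lit 192) (nat_lit 163)) (XT.lf (nat_lit 0) (nat_lit 90889503447) (nat_lit 76) (nat_lit 474126434678) (nat_lit 76) (nat_lit 474126434678) (nat_lit 1) (nat_lit 4) (nat_lit 2) (nat_lit 5) (nat_lit 2) (nat_lit 4) (nat_lit 274) (nat_lit 193) (nat_lit 193))) (XT.nd (nat_lit 78) (nat_lit 0) (nat_lit 0) (XT.lf (nat_lit 0) (nat_lit 210285165750) (nat_lit 76) (nat_lit 1089836416313) (nat_lit 76) (nat_lit 1089813728139) (nat_lit 1) (nat_lit 4) (nat_lit 2) (nat_lit 5) (nat_lit 2) (nat_lit 4) (nat_lit 275) (nat_lit 193) (nat_lit 192)) (XT.lf (nat_lit 0) (nat_lit 242961931762) (nat_lit 76) (nat_lit 1252710887719) (nat_lit 76) (nat_lit 1252668470698) (nat_lit 1) (nat_lit 4) (nat_lit 2) (nat_lit 5) (nat_lit 2) (nat_lit 4) (nat_lit 276) (nat_lit 193) (nat_lit 191)))) (XT.nd (nat_lit 156) (nat_lit 0) (nat_lit 0) (XT.nd (nat_lit 78) (nat_lit 0) (nat_lit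 0) (XT.lf (nat_lit 0) (nat_lit 280448632959) (nat_lit 76) (nat_lit 1440062958017) (nat_lit 76) (nat_lit 1440003385476) (nat_lit 1) (nat_lit 4) (nat_lit 2) (nat_lit 5) (nat_lit 2) (nat_lit 4) (nat_lit 277) (nat_lit 193) (nat_lit 190)) (XT.lf (nat_lit 0) (nat_lit 323478704801) (nat_lit 76) (nat_lit 1655558211190) (nat_lit 76) (nat_lit 1655483720806) (nat_lit 1) (nat_lit 4) (nat_lit 2) (nat_lit 5) (nat_lit 2) (nat_lit 4) (nat_lit 278) (nat_lit 193) (nat_lit 189))) (XT.nd (nat_lit 78) (nat_lit 0) (nat_lit 0) (XT.lf (nat_lit 0) (nat_lit 372894039998) (nat_lit 76) (nat_lit 1903412858713) (nat_lit 76) (nat_lit 1903325396292) (nat_lit 1) (nat_lit 4) (nat_lit 2) (nat_lit 5) (nat_lit 2) (nat_lit 4) (nat_lit 279) (nat_lit 193) (nat_lit 188)) (XT.nd (nat_lit 78) (nat_lit 0) (nat_lit 0) (XT.lf (nat_lit 0) (nat_lit 429661460325) (nat_lit 76) (nat_lit 2188476230646) (nat_lit 76) (nat_lit 2188377488193)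 (nat_lit 1) (nat_lit 4) (nat_lit 2) (nat_lit 5) (nat_lit 2) (nat_lit 4) (nat_lit 280) (nat_lit 193) (nat_lit 187)) (XT.lf (nat_lit 0) (nat_lit 494891632702) (nat_lit 76) (nat_lit 2516325653833) (nat_lit 76) (nat_lit 2516217102655) (nat_lit 1) (nat_lit 4) (nat_lit 2) (nat_lit 5) (nat_lit 2) (nat_lit 4) (nat_lit 281) (nat_lit 193) (nat_lit 186)))))) (XT.nd (nat_lit 312) (nat_lit 0) (nat_lit 0) (XT.nd (nat_lit 156) (nat_lit 0) (nat_lit 0) (XT.nd (nat_lit 78) (nat_lit 0) (nat_lit 0) (XT.lf (nat_lit 0) (nat_lit 569860799631) (nat_lit 76) (nat_lit 2893375573508) (nat_lit 76) (nat_lit 2893258493006) (nat_lit 1) (nat_lit 4) (nat_lit 2) (nat_lit 5) (nat_lit 2) (nat_lit 4) (nat_lit 282) (nat_lit 193) (nat_lit 185)) (XT.lf (nat_lit 0) (nat_lit 656035749161) (nat_lit 76) (nat_lit 3327003053318) (nat_lit 76) (nat_lit 3326878556011) (nat_lit 1) (nat_lit 4) (nat_lit 2) (nat_lit 5) (nat_lit 2) (nat_lit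 4) (nat_lit 283) (nat_lit 193) (nat_lit 184))) (XT.nd (nat_lit 78) (nat_lit 0) (nat_lit 0) (XT.lf (nat_lit 0) (nat_lit 755102512914) (nat_lit 76) (nat_lit 3825692109173) (nat_lit 76) (nat_lit 3825561162471) (nat_lit 1) (nat_lit 4) (nat_lit 2) (nat_lit 5) (nat_lit 2) (nat_lit 4) (nat_lit 284) (nat_lit 193) (nat_lit 183)) (XT.lf (nat_lit 0) (nat_lit 868999353659) (nat_lit 76) (nat_lit 4399199700860) (nat_lit 76) (nat_lit 4399063145988) (nat_lit 1) (nat_lit 4) (nat_lit 2) (nat_lit 5) (nat_lit 2) (nat_lit 4) (nat_lit 285) (nat_lit 193) (nat_lit 182)))) (XT.nd (nat_lit 156) (nat_lit 0) (nat_lit 0) (XT.nd (nat_lit 78) (nat_lit 0) (nat_lit 0) (XT.lf (nat_lit 0) (nat_lit 999954687845) (nat_lit 76) (nat_lit 5058746629086) (nat_lit 76) (nat_lit 5058605197545) (nat_lit 1) (nat_lit 4) (nat_lit 2) (nat_lit 5) (nat_lit 2) (nat_lit 4) (nat_lit 286) (nat_lit 193) (nat_lit 181)) (XT.lf (nat_lit 0) (nat_lit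 1150530685053) (nat_lit 76) (nat_lit 5817237072883) (nat_lit 76) (nat_lit 5817091400759) (nat_lit 1) (nat_lit 4) (nat_lit 2) (nat_lit 5) (nat_lit 2) (nat_lit 4) (nat_lit 287) (nat_lit 193) (nat_lit 180))) (XT.nd (nat_lit 78) (nat_lit 0) (nat_lit 0) (XT.lf (nat_lit 0) (nat_lit 1323673397403) (nat_lit 76) (nat_lit 6689511062671) (nat_lit 76) (nat_lit 6689361703085) (nat_lit 1) (nat_lit 4) (nat_lit 2) (nat_lit 5) (nat_lit 2) (nat_lit 4) (nat_lit 288) (nat_lit 193) (nat_lit 179)) (XT.nd (nat_lit 78) (nat_lit 0) (nat_lit 0) (XT.lf (nat_lit 0) (nat_lit 1522770399703) (nat_lit 76) (nat_lit 7692634828687) (nat_lit 76) (nat_lit 7692482262612) (nat_lit 1) (nat_lit 4) (nat_lit 2) (nat_lit 5) (nat_lit 2) (nat_lit 4) (nat_lit 289) (nat_lit 193) (nat_lit 178)) (XT.lf (nat_lit 0) (nat_lit 1751717068083) (nat_lit 76) (nat_lit 8846234705482) (nat_lit 76) (nat_lit 8846079351156) (nat_lit 1) (nat_lit 4)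 (nat_lit 2) (nat_lit 5) (nat_lit 2) (nat_lit 4) (nat_lit 290) (nat_lit 193) (nat_lit 177))))))))
noncomputable def xc7 : XT := (XT.nd (nat_lit 33306) (nat_lit 0) (nat_lit 0) (XT.nd (nat_lit 702) (nat_lit 0) (nat_lit 0) (XT.nd (nat_lit 312) (nat_lit 0) (nat_lit 0) (XT.nd (nat_lit 156) (nat_lit 0) (nat_lit 0) (XT.nd (nat_lit 78) (nat_lit 0) (nat_lit 0) (XT.lf (nat_lit 0) (nat_lit 2014992793882) (nat_lit 76) (nat_lit 10172881125429) (nat_lit 76) (nat_lit 10172723346536) (nat_lit 1) (nat_lit 4) (nat_lit 2) (nat_lit 5) (nat_lit 2) (nat_lit 4) (nat_lit 291) (nat_lit 193) (nat_lit 176)) (XT.lf (nat_lit 0) (nat_lit 2317748623909) (nat_lit 76) (nat_lit 11698530214136) (nat_lit 76) (nat_lit 11698370326924) (nat_lit 1) (nat_lit 4) (nat_lit 2) (nat_lit 5) (nat_lit 2) (nat_lit 4) (nat_lit 292) (nat_lit 193) (nat_lit 175))) (XT.nd (nat_lit 78) (nat_lit 0) (nat_lit 0) (XT.lf (nat_lit 0) (nat_lit 2665908041795)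 (nat_lit 76) (nat_lit 13453031627685) (nat_lit 76) (nat_lit 13452869907152) (nat_lit 1) (nat_lit 4) (nat_lit 2) (nat_lit 5) (nat_lit 2) (nat_lit 4) (nat_lit 293) (nat_lit 193) (nat_lit 174)) (XT.lf (nat_lit 0) (nat_lit 3066282862238) (nat_lit 76) (nat_lit 15470712567646) (nat_lit 76) (nat_lit 15470549252922) (nat_lit 1) (nat_lit 4) (nat_lit 2) (nat_lit 5) (nat_lit 2) (nat_lit 4) (nat_lit 294) (nat_lit 193) (nat_lit 173)))) (XT.nd (nat_lit 156) (nat_lit 0) (nat_lit 0) (XT.nd (nat_lit 78) (nat_lit 0) (nat_lit 0) (XT.lf (nat_lit 0) (nat_lit 3526706505637) (nat_lit 76) (nat_lit 17791049400236) (nat_lit 76) (nat_lit 17790884699258) (nat_lit 1) (nat_lit 4) (nat_lit 2) (nat_lit 5) (nat_lit 2) (nat_lit 4) (nat_lit 295) (nat_lit 193) (nat_lit 172)) (XT.lf (nat_lit 0) (nat_lit 4056187260668) (nat_lit 76) (nat_lit 20459440020006) (nat_lit 76) (nat_lit 20459274113590) (nat_lit 1) (nat_lit 4) (nat_lit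 2) (nat_lit 5) (nat_lit 2) (nat_lit 4) (nat_lit 296) (nat_lit 193) (nat_lit 171))) (XT.nd (nat_lit 78) (nat_lit 0) (nat_lit 0) (XT.lf (nat_lit 0) (nat_lit 4665084533408) (nat_lit 76) (nat_lit 23528092069516) (nat_lit 76) (nat_lit 23527925114893) (nat_lit 1) (nat_lit 4) (nat_lit 2) (nat_lit 5) (nat_lit 2) (nat_lit 4) (nat_lit 297) (nat_lit 193) (nat_lit 170)) (XT.nd (nat_lit 78) (nat_lit 0) (nat_lit 0) (XT.lf (nat_lit 0) (nat_lit 5365311531366) (nat_lit 76) (nat_lit 27057044393213) (nat_lit 76) (nat_lit 27056876527105) (nat_lit 1) (nat_lit 4) (nat_lit 2) (nat_lit 5) (nat_lit 2) (nat_lit 4) (nat_lit 298) (nat_lit 193) (nat_lit 169)) (XT.lf (nat_lit 0) (nat_lit 6170568347981) (nat_lit 76) (nat_lit 31115341710474) (nat_lit 76) (nat_lit 31115173051771) (nat_lit 1) (nat_lit 4) (nat_lit 2) (nat_lit 5) (nat_lit 2) (nat_lit 4) (nat_lit 299) (nat_lit 193) (nat_lit 168)))))) (XT.nd (nat_lit 32214)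 (nat_lit 0) (nat_lit 0) (XT.nd (nat_lit 156) (nat_lit 0) (nat_lit 0) (XT.nd (nat_lit 78) (nat_lit 0) (nat_lit 0) (XT.lf (nat_lit 0) (nat_lit 7096610007926) (nat_lit 76) (nat_lit 35782385490549) (nat_lit 76) (nat_lit 35782216142633) (nat_lit 1) (nat_lit 4) (nat_lit 2) (nat_lit 5) (nat_lit 2) (nat_lit 4) (nat_lit 300) (nat_lit 193) (nat_lit 167)) (XT.lf (nat_lit 0) (nat_lit 8161554717591) (nat_lit 76) (nat_lit 41149487459571) (nat_lit 76) (nat_lit 41149317512340) (nat_lit 1) (nat_lit 4) (nat_lit 2) (nat_lit 5) (nat_lit 2) (nat_lit 4) (nat_lit 301) (nat_lit 193) (nat_lit 166))) (XT.nd (nat_lit 78) (nat_lit 0) (nat_lit 0) (XT.lf (nat_lit 0) (nat_lit 9386238351730) (nat_lit 76) (nat_lit 47321656134325) (nat_lit 76) (nat_lit 47321485665949) (nat_lit 1) (nat_lit 4) (nat_lit 2) (nat_lit 5) (nat_lit 2) (nat_lit 4) (nat_lit 302) (nat_lit 193) (nat_lit 165)) (XT.lf (nat_lit 0) (nat_lit 10794622111881)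 (nat_lit 76) (nat_lit 54419651336707) (nat_lit 76) (nat_lit 54419480415163) (nat_lit 1) (nat_lit 4) (nat_lit 2) (nat_lit 5) (nat_lit 2) (nat_lit 4) (nat_lit 303) (nat_lit 193) (nat_lit 164)))) (XT.nd (nat_lit 156) (nat_lit 0) (nat_lit 0) (XT.nd (nat_lit 78) (nat_lit 0) (nat_lit 0) (XT.lf (nat_lit 0) (nat_lit 67591531307) (nat_lit 76) (nat_lit 359116854931) (nat_lit 76) (nat_lit 359116854931) (nat_lit 1) (nat_lit 4) (nat_lit 2) (nat_lit 5) (nat_lit 2) (nat_lit 4) (nat_lit 272) (nat_lit 194) (nat_lit 194)) (XT.lf (nat_lit 0) (nat_lit 156885726000) (nat_lit 76) (nat_lit 825216225377) (nat_lit 76) (nat_lit 825190133977) (nat_lit 1) (nat_lit 4) (nat_lit 2) (nat_lit 5) (nat_lit 2) (nat_lit 4) (nat_lit 273) (nat_lit 194) (nat_lit 193))) (XT.nd (nat_lit 78) (nat_lit 0) (nat_lit 0) (XT.lf (nat_lit 0) (nat_lit 181722674721) (nat_lit 76) (nat_lit 948307519487) (nat_lit 76) (nat_lit 948258739912)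 (nat_lit 1) (nat_lit 4) (nat_lit 2) (nat_lit 5) (nat_lit 2) (nat_lit 4) (nat_lit 274) (nat_lit 194) (nat_lit 192)) (XT.nd (nat_lit 78) (nat_lit 0) (nat_lit 0) (XT.lf (nat_lit 0) (nat_lit 210179849078) (nat_lit 76) (nat_lit 1089915900121) (nat_lit 76) (nat_lit 1089847391699) (nat_lit 1) (nat_lit 4) (nat_lit 2) (nat_lit 5) (nat_lit 2) (nat_lit 4) (nat_lit 275) (nat_lit 194) (nat_lit 191)) (XT.lf (nat_lit 0) (nat_lit 242814019873) (nat_lit 76) (nat_lit 1252811966029) (nat_lit 76) (nat_lit 1252726302088) (nat_lit 1) (nat_lit 4) (nat_lit 2) (nat_lit 5) (nat_lit 2) (nat_lit 4) (nat_lit 276) (nat_lit 194) (nat_lit 190))))))) (XT.nd (nat_lit 702) (nat_lit 0) (nat_lit 0) (XT.nd (nat_lit 312) (nat_lit 0) (nat_lit 0) (XT.nd (nat_lit 156) (nat_lit 0) (nat_lit 0) (XT.nd (nat_lit 78) (nat_lit 0) (nat_lit 0) (XT.lf (nat_lit 0) (nat_lit 280263681752) (nat_lit 76) (nat_lit 1440182814155) (nat_lit 76)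 (nat_lit 1440082232371) (nat_lit 1) (nat_lit 4) (nat_lit 2) (nat_lit 5) (nat_lit 2) (nat_lit 4) (nat_lit 277) (nat_lit 194) (nat_lit 189)) (XT.lf (nat_lit 0) (nat_lit 323261545491) (nat_lit 76) (nat_lit 1655694395874) (nat_lit 76) (nat_lit 1655580842053) (nat_lit 1) (nat_lit 4) (nat_lit 2) (nat_lit 5) (nat_lit 2) (nat_lit 4) (nat_lit 278) (nat_lit 194) (nat_lit 188))) (XT.nd (nat_lit 78) (nat_lit 0) (nat_lit 0) (XT.lf (nat_lit 0) (nat_lit 372648873641) (nat_lit 76) (nat_lit 1903563242133) (nat_lit 76) (nat_lit 1903438408279) (nat_lit 1) (nat_lit 4) (nat_lit 2) (nat_lit 5) (nat_lit 2) (nat_lit 4) (nat_lit 279) (nat_lit 194) (nat_lit 187)) (XT.lf (nat_lit 0) (nat_lit 429391940015) (nat_lit 76) (nat_lit 2188638960794) (nat_lit 76) (nat_lit 2188504318216) (nat_lit 1) (nat_lit 4) (nat_lit 2) (nat_lit 5) (nat_lit 2) (nat_lit 4) (nat_lit 280) (nat_lit 194) (nat_lit 186)))) (XT.nd (nat_lit 156)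 (nat_lit 0) (nat_lit 0) (XT.nd (nat_lit 78) (nat_lit 0) (nat_lit 0) (XT.lf (nat_lit 0) (nat_lit 494600935041) (nat_lit 76) (nat_lit 2516499120264) (nat_lit 76) (nat_lit 2516355948361) (nat_lit 1) (nat_lit 4) (nat_lit 2) (nat_lit 5) (nat_lit 2) (nat_lit 4) (nat_lit 281) (nat_lit 194) (nat_lit 185)) (XT.lf (nat_lit 0) (nat_lit 569551686883) (nat_lit 76) (nat_lit 2893558375839) (nat_lit 76) (nat_lit 2893407787131) (nat_lit 1) (nat_lit 4) (nat_lit 2) (nat_lit 5) (nat_lit 2) (nat_lit 4) (nat_lit 282) (nat_lit 194) (nat_lit 184))) (XT.nd (nat_lit 78) (nat_lit 0) (nat_lit 0) (XT.lf (nat_lit 0) (nat_lit 655710623294) (nat_lit 76) (nat_lit 3327193973822) (nat_lit 76) (nat_lit 3327036935720) (nat_lit 1) (nat_lit 4) (nat_lit 2) (nat_lit 5) (nat_lit 2) (nat_lit 4) (nat_lit 283) (nat_lit 194) (nat_lit 183)) (XT.nd (nat_lit 78) (nat_lit 0) (nat_lit 0) (XT.lf (nat_lit 0) (nat_lit 754763462595) (nat_lit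 76) (nat_lit 3825890088958) (nat_lit 76) (nat_lit 3825727442685) (nat_lit 1) (nat_lit 4) (nat_lit 2) (nat_lit 5) (nat_lit 2) (nat_lit 4) (nat_lit 284) (nat_lit 194) (nat_lit 182)) (XT.lf (nat_lit 0) (nat_lit 868648195120) (nat_lit 76) (nat_lit 4399403819150) (nat_lit 76) (nat_lit 4399236296208) (nat_lit 1) (nat_lit 4) (nat_lit 2) (nat_lit 5) (nat_lit 2) (nat_lit 4) (nat_lit 285) (nat_lit 194) (nat_lit 181)))))) (XT.nd (nat_lit 312) (nat_lit 0) (nat_lit 0) (XT.nd (nat_lit 156) (nat_lit 0) (nat_lit 0) (XT.nd (nat_lit 78) (nat_lit 0) (nat_lit 0) (XT.lf (nat_lit 0) (nat_lit 999593000420) (nat_lit 76) (nat_lit 5058956085207) (nat_lit 76) (nat_lit 5058784321684) (nat_lit 1) (nat_lit 4) (nat_lit 2) (nat_lit 5) (nat_lit 2) (nat_lit 4) (nat_lit 286) (nat_lit 194) (nat_lit 180)) (XT.lf (nat_lit 0) (nat_lit 1150159842075) (nat_lit 76) (nat_lit 5817451170596) (nat_lit 76) (nat_lit 5817275719609)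 (nat_lit 1) (nat_lit 4) (nat_lit 2) (nat_lit 5) (nat_lit 2) (nat_lit 4) (nat_lit 287) (nat_lit 194) (nat_lit 179))) (XT.nd (nat_lit 78) (nat_lit 0) (nat_lit 0) (XT.lf (nat_lit 0) (nat_lit 1323294593075) (nat_lit 76) (nat_lit 6689729196551) (nat_lit 76) (nat_lit 6689550539076) (nat_lit 1) (nat_lit 4) (nat_lit 2) (nat_lit 5) (nat_lit 2) (nat_lit 4) (nat_lit 288) (nat_lit 194) (nat_lit 178)) (XT.lf (nat_lit 0) (nat_lit 1522384672461) (nat_lit 76) (nat_lit 7692856472277) (nat_lit 76) (nat_lit 7692675026550) (nat_lit 1) (nat_lit 4) (nat_lit 2) (nat_lit 5) (nat_lit 2) (nat_lit 4) (nat_lit 289) (nat_lit 194) (nat_lit 177)))) (XT.nd (nat_lit 156) (nat_lit 0) (nat_lit 0) (XT.nd (nat_lit 78) (nat_lit 0) (nat_lit 0) (XT.lf (nat_lit 0) (nat_lit 1751325320917) (nat_lit 76) (nat_lit 8846459400995) (nat_lit 76) (nat_lit 8846275530701) (nat_lit 1) (nat_lit 4) (nat_lit 2) (nat_lit 5) (nat_lit 2) (nat_lit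 4) (nat_lit 290) (nat_lit 194) (nat_lit 176)) (XT.lf (nat_lit 0) (nat_lit 2014595811999) (nat_lit 76) (nat_lit 10173108474787) (nat_lit 76) (nat_lit 10172922496175) (nat_lit 1) (nat_lit 4) (nat_lit 2) (nat_lit 5) (nat_lit 2) (nat_lit 4) (nat_lit 291) (nat_lit 194) (nat_lit 175))) (XT.nd (nat_lit 78) (nat_lit 0) (nat_lit 0) (XT.lf (nat_lit 0) (nat_lit 2317347090098) (nat_lit 76) (nat_lit 11698759871185) (nat_lit 76) (nat_lit 11698572059252) (nat_lit 1) (nat_lit 4) (nat_lit 2) (nat_lit 5) (nat_lit 2) (nat_lit 4) (nat_lit 292) (nat_lit 194) (nat_lit 174)) (XT.nd (nat_lit 78) (nat_lit 0) (nat_lit 0) (XT.lf (nat_lit 0) (nat_lit 2665502549785) (nat_lit 76) (nat_lit 13453263291422) (nat_lit 76) (nat_lit 13453073885298) (nat_lit 1) (nat_lit 4) (nat_lit 2) (nat_lit 5) (nat_lit 2) (nat_lit 4) (nat_lit 293) (nat_lit 194) (nat_lit 173)) (XT.lf (nat_lit 0) (nat_lit 3065873928316) (nat_lit 76) (nat_lit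 15470945976330) (nat_lit 76) (nat_lit 15470755183952) (nat_lit 1) (nat_lit 4) (nat_lit 2) (nat_lit 5) (nat_lit 2) (nat_lit 4) (nat_lit 294) (nat_lit 194) (nat_lit 172))))))))
noncomputable def xc8 : XT := (XT.nd (nat_lit 33228) (nat_lit 0) (nat_lit 0) (XT.nd (nat_lit 32526) (nat_lit 0) (nat_lit 0) (XT.nd (nat_lit 312) (nat_lit 0) (nat_lit 0) (XT.nd (nat_lit 156) (nat_lit 0) (nat_lit 0) (XT.nd (nat_lit 78) (nat_lit 0) (nat_lit 0) (XT.lf (nat_lit 0) (nat_lit 3526294578749) (nat_lit 76) (nat_lit 17791284326265) (nat_lit 76) (nat_lit 17791092328448) (nat_lit 1) (nat_lit 4) (nat_lit 2) (nat_lit 5) (nat_lit 2) (nat_lit 4) (nat_lit 295) (nat_lit 194) (nat_lit 171)) (XT.lf (nat_lit 0) (nat_lit 4055772731200) (nat_lit 76) (nat_lit 20459676265465) (nat_lit 76) (nat_lit 20459483219441) (nat_lit 1) (nat_lit 4) (nat_lit 2) (nat_lit 5) (nat_lit 2) (nat_lit 4) (nat_lit 296) (nat_lit 194) (nat_lit 170)))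 (XT.nd (nat_lit 78) (nat_lit 0) (nat_lit 0) (XT.lf (nat_lit 0) (nat_lit 4664667740827) (nat_lit 76) (nat_lit 23528329462305) (nat_lit 76) (nat_lit 23528135504797) (nat_lit 1) (nat_lit 4) (nat_lit 2) (nat_lit 5) (nat_lit 2) (nat_lit 4) (nat_lit 297) (nat_lit 194) (nat_lit 169)) (XT.lf (nat_lit 0) (nat_lit 5364892770861) (nat_lit 76) (nat_lit 27057282783681) (nat_lit 76) (nat_lit 27057088033578) (nat_lit 1) (nat_lit 4) (nat_lit 2) (nat_lit 5) (nat_lit 2) (nat_lit 4) (nat_lit 298) (nat_lit 194) (nat_lit 168)))) (XT.nd (nat_lit 1014) (nat_lit 0) (nat_lit 0) (XT.nd (nat_lit 78) (nat_lit 0) (nat_lit 0) (XT.lf (nat_lit 0) (nat_lit 6170147876238) (nat_lit 76) (nat_lit 31115580968488) (nat_lit 76) (nat_lit 31115385529172) (nat_lit 1) (nat_lit 4) (nat_lit 2) (nat_lit 5) (nat_lit 2) (nat_lit 4) (nat_lit 299) (nat_lit 194) (nat_lit 167)) (XT.lf (nat_lit 0) (nat_lit 7096188048150) (nat_lit 76) (nat_lit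 35782625502952) (nat_lit 76) (nat_lit 35782429464320) (nat_lit 1) (nat_lit 4) (nat_lit 2) (nat_lit 5) (nat_lit 2) (nat_lit 4) (nat_lit 300) (nat_lit 194) (nat_lit 166))) (XT.nd (nat_lit 78) (nat_lit 0) (nat_lit 0) (XT.lf (nat_lit 0) (nat_lit 37981126355867) (nat_lit 76) (nat_lit 191437650143594) (nat_lit 76) (nat_lit 191437450856300) (nat_lit 1) (nat_lit 4) (nat_lit 2) (nat_lit 5) (nat_lit 2) (nat_lit 4) (nat_lit 312) (nat_lit 194) (nat_lit 154)) (XT.nd (nat_lit 31044) (nat_lit 0) (nat_lit 0) (XT.lf (nat_lit 0) (nat_lit 43678795437720) (nat_lit 76) (nat_lit 220153014109826) (nat_lit 76) (nat_lit 220152814725127) (nat_lit 1) (nat_lit 4) (nat_lit 2) (nat_lit 5) (nat_lit 2) (nat_lit 4) (nat_lit 313) (nat_lit 194) (nat_lit 153)) (XT.lf (nat_lit 0) (nat_lit 49804818540) (nat_lit 76) (nat_lit 272244462604) (nat_lit 76) (nat_lit 272244462604) (nat_lit 1) (nat_lit 4) (nat_lit 2) (nat_lit 5)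 (nat_lit 2) (nat_lit 4) (nat_lit 270) (nat_lit 195) (nat_lit 195)))))) (XT.nd (nat_lit 312) (nat_lit 0) (nat_lit 0) (XT.nd (nat_lit 156) (nat_lit 0) (nat_lit 0) (XT.nd (nat_lit 78) (nat_lit 0) (nat_lit 0) (XT.lf (nat_lit 0) (nat_lit 116190067235) (nat_lit 76) (nat_lit 625296841881) (nat_lit 76) (nat_lit 625266836770) (nat_lit 1) (nat_lit 4) (nat_lit 2) (nat_lit 5) (nat_lit 2) (nat_lit 4) (nat_lit 271) (nat_lit 195) (nat_lit 194)) (XT.lf (nat_lit 0) (nat_lit 135118280614) (nat_lit 76) (nat_lit 718296557512) (nat_lit 76) (nat_lit 718240461001) (nat_lit 1) (nat_lit 4) (nat_lit 2) (nat_lit 5) (nat_lit 2) (nat_lit 4) (nat_lit 272) (nat_lit 195) (nat_lit 193))) (XT.nd (nat_lit 78) (nat_lit 0) (nat_lit 0) (XT.lf (nat_lit 0) (nat_lit 156764611827) (nat_lit 76) (nat_lit 825307631756) (nat_lit 76) (nat_lit 825228847071) (nat_lit 1) (nat_lit 4) (nat_lit 2) (nat_lit 5) (nat_lit 2) (nat_lit 4) (nat_lit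 273) (nat_lit 195) (nat_lit 192)) (XT.lf (nat_lit 0) (nat_lit 181552576049) (nat_lit 76) (nat_lit 948423759544) (nat_lit 76) (nat_lit 948325246011) (nat_lit 1) (nat_lit 4) (nat_lit 2) (nat_lit 5) (nat_lit 2) (nat_lit 4) (nat_lit 274) (nat_lit 195) (nat_lit 191)))) (XT.nd (nat_lit 156) (nat_lit 0) (nat_lit 0) (XT.nd (nat_lit 78) (nat_lit 0) (nat_lit 0) (XT.lf (nat_lit 0) (nat_lit 209967155189) (nat_lit 76) (nat_lit 1090053734680) (nat_lit 76) (nat_lit 1089938065628) (nat_lit 1) (nat_lit 4) (nat_lit 2) (nat_lit 5) (nat_lit 2) (nat_lit 4) (nat_lit 275) (nat_lit 195) (nat_lit 190)) (XT.lf (nat_lit 0) (nat_lit 242564286665) (nat_lit 76) (nat_lit 1252968578417) (nat_lit 76) (nat_lit 1252837991522) (nat_lit 1) (nat_lit 4) (nat_lit 2) (nat_lit 5) (nat_lit 2) (nat_lit 4) (nat_lit 276) (nat_lit 195) (nat_lit 189))) (XT.nd (nat_lit 78) (nat_lit 0) (nat_lit 0) (XT.lf (nat_lit 0) (nat_lit 279981740441)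 (nat_lit 76) (nat_lit 1440355755089) (nat_lit 76) (nat_lit 1440212196156) (nat_lit 1) (nat_lit 4) (nat_lit 2) (nat_lit 5) (nat_lit 2) (nat_lit 4) (nat_lit 277) (nat_lit 195) (nat_lit 188)) (XT.nd (nat_lit 78) (nat_lit 0) (nat_lit 0) (XT.lf (nat_lit 0) (nat_lit 322951597134) (nat_lit 76) (nat_lit 1655881535543) (nat_lit 76) (nat_lit 1655726696579) (nat_lit 1) (nat_lit 4) (nat_lit 2) (nat_lit 5) (nat_lit 2) (nat_lit 4) (nat_lit 278) (nat_lit 195) (nat_lit 187)) (XT.lf (nat_lit 0) (nat_lit 372314571331) (nat_lit 76) (nat_lit 1903762728529) (nat_lit 76) (nat_lit 1903598080841) (nat_lit 1) (nat_lit 4) (nat_lit 2) (nat_lit 5) (nat_lit 2) (nat_lit 4) (nat_lit 279) (nat_lit 195) (nat_lit 186))))))) (XT.nd (nat_lit 702) (nat_lit 0) (nat_lit 0) (XT.nd (nat_lit 312) (nat_lit 0) (nat_lit 0) (XT.nd (nat_lit 156) (nat_lit 0) (nat_lit 0) (XT.nd (nat_lit 78) (nat_lit 0) (nat_lit 0) (XT.lf (nat_lit 0)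 (nat_lit 429036460355) (nat_lit 76) (nat_lit 2188849183474) (nat_lit 76) (nat_lit 2188676006460) (nat_lit 1) (nat_lit 4) (nat_lit 2) (nat_lit 5) (nat_lit 2) (nat_lit 4) (nat_lit 280) (nat_lit 195) (nat_lit 185)) (XT.lf (nat_lit 0) (nat_lit 494227040293) (nat_lit 76) (nat_lit 2516718678844) (nat_lit 76) (nat_lit 2516538085026) (nat_lit 1) (nat_lit 4) (nat_lit 2) (nat_lit 5) (nat_lit 2) (nat_lit 4) (nat_lit 281) (nat_lit 195) (nat_lit 184))) (XT.nd (nat_lit 78) (nat_lit 0) (nat_lit 0) (XT.lf (nat_lit 0) (nat_lit 569161779015) (nat_lit 76) (nat_lit 2893786052592) (nat_lit 76) (nat_lit 2893599009379) (nat_lit 1) (nat_lit 4) (nat_lit 2) (nat_lit 5) (nat_lit 2) (nat_lit 4) (nat_lit 282) (nat_lit 195) (nat_lit 183)) (XT.lf (nat_lit 0) (nat_lit 655306790974) (nat_lit 76) (nat_lit 3327428709856) (nat_lit 76) (nat_lit 3327236058473) (nat_lit 1) (nat_lit 4) (nat_lit 2) (nat_lit 5) (nat_lit 2) (nat_lit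 4) (nat_lit 283) (nat_lit 195) (nat_lit 182)))) (XT.nd (nat_lit 156) (nat_lit 0) (nat_lit 0) (XT.nd (nat_lit 78) (nat_lit 0) (nat_lit 0) (XT.lf (nat_lit 0) (nat_lit 754347522057) (nat_lit 76) (nat_lit 3826130963497) (nat_lit 76) (nat_lit 3825933435445) (nat_lit 1) (nat_lit 4) (nat_lit 2) (nat_lit 5) (nat_lit 2) (nat_lit 4) (nat_lit 284) (nat_lit 195) (nat_lit 181)) (XT.lf (nat_lit 0) (nat_lit 868221725696) (nat_lit 76) (nat_lit 4399650031520) (nat_lit 76) (nat_lit 4399448262886) (nat_lit 1) (nat_lit 4) (nat_lit 2) (nat_lit 5) (nat_lit 2) (nat_lit 4) (nat_lit 285) (nat_lit 195) (nat_lit 180))) (XT.nd (nat_lit 78) (nat_lit 0) (nat_lit 0) (XT.lf (nat_lit 0) (nat_lit 999157375443) (nat_lit 76) (nat_lit 5059206939169) (nat_lit 76) (nat_lit 5059001483072) (nat_lit 1) (nat_lit 4) (nat_lit 2) (nat_lit 5) (nat_lit 2) (nat_lit 4) (nat_lit 286) (nat_lit 195) (nat_lit 179)) (XT.nd (nat_lit 78) (nat_lit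 0) (nat_lit 0) (XT.lf (nat_lit 0) (nat_lit 1149716255747) (nat_lit 76) (nat_lit 5817706060725) (nat_lit 76) (nat_lit 5817497398139) (nat_lit 1) (nat_lit 4) (nat_lit 2) (nat_lit 5) (nat_lit 2) (nat_lit 4) (nat_lit 287) (nat_lit 195) (nat_lit 178)) (XT.lf (nat_lit 0) (nat_lit 1322844083834) (nat_lit 76) (nat_lit 6689987596390) (nat_lit 76) (nat_lit 6689776145553) (nat_lit 1) (nat_lit 4) (nat_lit 2) (nat_lit 5) (nat_lit 2) (nat_lit 4) (nat_lit 288) (nat_lit 195) (nat_lit 177)))))) (XT.nd (nat_lit 312) (nat_lit 0) (nat_lit 0) (XT.nd (nat_lit 156) (nat_lit 0) (nat_lit 0) (XT.nd (nat_lit 78) (nat_lit 0) (nat_lit 0) (XT.lf (nat_lit 0) (nat_lit 1521928143295) (nat_lit 76) (nat_lit 7693117924039) (nat_lit 76) (nat_lit 7692904048635) (nat_lit 1) (nat_lit 4) (nat_lit 2) (nat_lit 5) (nat_lit 2) (nat_lit 4) (nat_lit 289) (nat_lit 195) (nat_lit 176)) (XT.lf (nat_lit 0) (nat_lit 1750863557033) (nat_lit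 76) (nat_lit 8846723506601) (nat_lit 76) (nat_lit 8846507522878) (nat_lit 1) (nat_lit 4) (nat_lit 2) (nat_lit 5) (nat_lit 2) (nat_lit 4) (nat_lit 290) (nat_lit 195) (nat_lit 175))) (XT.nd (nat_lit 78) (nat_lit 0) (nat_lit 0) (XT.lf (nat_lit 0) (nat_lit 2014129496187) (nat_lit 76) (nat_lit 10173374888085) (nat_lit 76) (nat_lit 10173157071042) (nat_lit 1) (nat_lit 4) (nat_lit 2) (nat_lit 5) (nat_lit 2) (nat_lit 4) (nat_lit 291) (nat_lit 195) (nat_lit 174)) (XT.lf (nat_lit 0) (nat_lit 2316876816088) (nat_lit 76) (nat_lit 11699028291171) (nat_lit 76) (nat_lit 11698808879936) (nat_lit 1) (nat_lit 4) (nat_lit 2) (nat_lit 5) (nat_lit 2) (nat_lit 4) (nat_lit 292) (nat_lit 195) (nat_lit 173)))) (XT.nd (nat_lit 156) (nat_lit 0) (nat_lit 0) (XT.nd (nat_lit 78) (nat_lit 0) (nat_lit 0) (XT.lf (nat_lit 0) (nat_lit 2665028833864) (nat_lit 76) (nat_lit 13453533456355) (nat_lit 76) (nat_lit 13453312658866)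 (nat_lit 1) (nat_lit 4) (nat_lit 2) (nat_lit 5) (nat_lit 2) (nat_lit 4) (nat_lit 293) (nat_lit 195) (nat_lit 172)) (XT.lf (nat_lit 0) (nat_lit 3065397219429) (nat_lit 76) (nat_lit 15471217658607) (nat_lit 76) (nat_lit 15470995655680) (nat_lit 1) (nat_lit 4) (nat_lit 2) (nat_lit 5) (nat_lit 2) (nat_lit 4) (nat_lit 294) (nat_lit 195) (nat_lit 171))) (XT.nd (nat_lit 78) (nat_lit 0) (nat_lit 0) (XT.lf (nat_lit 0) (nat_lit 3525815267282) (nat_lit 76) (nat_lit 17791557327972) (nat_lit 76) (nat_lit 17791334276838) (nat_lit 1) (nat_lit 4) (nat_lit 2) (nat_lit 5) (nat_lit 2) (nat_lit 4) (nat_lit 295) (nat_lit 195) (nat_lit 170)) (XT.nd (nat_lit 78) (nat_lit 0) (nat_lit 0) (XT.lf (nat_lit 0) (nat_lit 4055291156620) (nat_lit 76) (nat_lit 20459950414503) (nat_lit 76) (nat_lit 20459726451884) (nat_lit 1) (nat_lit 4) (nat_lit 2) (nat_lit 5) (nat_lit 2) (nat_lit 4) (nat_lit 296) (nat_lit 195) (nat_lit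 169)) (XT.lf (nat_lit 0) (nat_lit 4664184198323) (nat_lit 76) (nat_lit 23528604609022) (nat_lit 76) (nat_lit 23528379853808) (nat_lit 1) (nat_lit 4) (nat_lit 2) (nat_lit 5) (nat_lit 2) (nat_lit 4) (nat_lit 297) (nat_lit 195) (nat_lit 168))))))))
noncomputable def xc9 : XT := (XT.nd (nat_lit 32916) (nat_lit 0) (nat_lit 0) (XT.nd (nat_lit 32214) (nat_lit 0) (nat_lit 0) (XT.nd (nat_lit 1092) (nat_lit 0) (nat_lit 0) (XT.nd (nat_lit 156) (nat_lit 0) (nat_lit 0) (XT.nd (nat_lit 78) (nat_lit 0) (nat_lit 0) (XT.lf (nat_lit 0) (nat_lit 5364407517119) (nat_lit 76) (nat_lit 27057558797944) (nat_lit 76) (nat_lit 27057333353518) (nat_lit 1) (nat_lit 4) (nat_lit 2) (nat_lit 5) (nat_lit 2) (nat_lit 4) (nat_lit 298) (nat_lit 195) (nat_lit 167)) (XT.lf (nat_lit 0) (nat_lit 6169661134462) (nat_lit 76) (nat_lit 31115857737140) (nat_lit 76) (nat_lit 31115631693398) (nat_lit 1) (nat_lit 4) (nat_lit 2) (nat_lit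 5) (nat_lit 2) (nat_lit 4) (nat_lit 299) (nat_lit 195) (nat_lit 166))) (XT.nd (nat_lit 858) (nat_lit 0) (nat_lit 0) (XT.lf (nat_lit 0) (nat_lit 7095700012432) (nat_lit 76) (nat_lit 35782902927594) (nat_lit 76) (nat_lit 35782676362707) (nat_lit 1) (nat_lit 4) (nat_lit 2) (nat_lit 5) (nat_lit 2) (nat_lit 4) (nat_lit 300) (nat_lit 195) (nat_lit 165)) (XT.lf (nat_lit 0) (nat_lit 33026136242097) (nat_lit 76) (nat_lit 166468049520957) (nat_lit 76) (nat_lit 166467820228552) (nat_lit 1) (nat_lit 4) (nat_lit 2) (nat_lit 5) (nat_lit 2) (nat_lit 4) (nat_lit 311) (nat_lit 195) (nat_lit 154)))) (XT.nd (nat_lit 156) (nat_lit 0) (nat_lit 0) (XT.nd (nat_lit 78) (nat_lit 0) (nat_lit 0) (XT.lf (nat_lit 0) (nat_lit 37980631306183) (nat_lit 76) (nat_lit 191437931124107) (nat_lit 76) (nat_lit 191437701734298) (nat_lit 1) (nat_lit 4) (nat_lit 2) (nat_lit 5) (nat_lit 2) (nat_lit 4) (nat_lit 312) (nat_lit 195)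 (nat_lit 153)) (XT.lf (nat_lit 0) (nat_lit 43678300177733) (nat_lit 76) (nat_lit 220153295196957) (nat_lit 76) (nat_lit 220153065722446) (nat_lit 1) (nat_lit 4) (nat_lit 2) (nat_lit 5) (nat_lit 2) (nat_lit 4) (nat_lit 313) (nat_lit 195) (nat_lit 152))) (XT.nd (nat_lit 30810) (nat_lit 0) (nat_lit 0) (XT.lf (nat_lit 0) (nat_lit 50230618986843) (nat_lit 76) (nat_lit 253175964080060) (nat_lit 76) (nat_lit 253175734531896) (nat_lit 1) (nat_lit 4) (nat_lit 2) (nat_lit 5) (nat_lit 2) (nat_lit 4) (nat_lit 314) (nat_lit 195) (nat_lit 151)) (XT.nd (nat_lit 78) (nat_lit 0) (nat_lit 0) (XT.lf (nat_lit 0) (nat_lit 36159894846) (nat_lit 76) (nat_lit 206661532323) (nat_lit 76) (nat_lit 206661532323) (nat_lit 1) (nat_lit 4) (nat_lit 2) (nat_lit 5) (nat_lit 2) (nat_lit 4) (nat_lit 268) (nat_lit 196) (nat_lit 196)) (XT.lf (nat_lit 0) (nat_lit 85052590428) (nat_lit 76) (nat_lit 474326288917) (nat_lit 76)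 (nat_lit 474291783040) (nat_lit 1) (nat_lit 4) (nat_lit 2) (nat_lit 5) (nat_lit 2) (nat_lit 4) (nat_lit 269) (nat_lit 196) (nat_lit 195)))))) (XT.nd (nat_lit 312) (nat_lit 0) (nat_lit 0) (XT.nd (nat_lit 156) (nat_lit 0) (nat_lit 0) (XT.nd (nat_lit 78) (nat_lit 0) (nat_lit 0) (XT.lf (nat_lit 0) (nat_lit 99535137780) (nat_lit 76) (nat_lit 544561200006) (nat_lit 76) (nat_lit 544496689018) (nat_lit 1) (nat_lit 4) (nat_lit 2) (nat_lit 5) (nat_lit 2) (nat_lit 4) (nat_lit 270) (nat_lit 196) (nat_lit 194)) (XT.lf (nat_lit 0) (nat_lit 116050785936) (nat_lit 76) (nat_lit 625401959217) (nat_lit 76) (nat_lit 625311356828) (nat_lit 1) (nat_lit 4) (nat_lit 2) (nat_lit 5) (nat_lit 2) (nat_lit 4) (nat_lit 271) (nat_lit 196) (nat_lit 193))) (XT.nd (nat_lit 78) (nat_lit 0) (nat_lit 0) (XT.lf (nat_lit 0) (nat_lit 134922667141) (nat_lit 76) (nat_lit 718430233577) (nat_lit 76) (nat_lit 718316943014) (nat_lit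 1) (nat_lit 4) (nat_lit 2) (nat_lit 5) (nat_lit 2) (nat_lit 4) (nat_lit 272) (nat_lit 196) (nat_lit 192)) (XT.lf (nat_lit 0) (nat_lit 156520013855) (nat_lit 76) (nat_lit 825466141499) (nat_lit 76) (nat_lit 825333122089) (nat_lit 1) (nat_lit 4) (nat_lit 2) (nat_lit 5) (nat_lit 2) (nat_lit 4) (nat_lit 273) (nat_lit 196) (nat_lit 191)))) (XT.nd (nat_lit 156) (nat_lit 0) (nat_lit 0) (XT.nd (nat_lit 78) (nat_lit 0) (nat_lit 0) (XT.lf (nat_lit 0) (nat_lit 181265382861) (nat_lit 76) (nat_lit 948603863789) (nat_lit 76) (nat_lit 948453688860) (nat_lit 1) (nat_lit 4) (nat_lit 2) (nat_lit 5) (nat_lit 2) (nat_lit 4) (nat_lit 274) (nat_lit 196) (nat_lit 190)) (XT.lf (nat_lit 0) (nat_lit 209642922682) (nat_lit 76) (nat_lit 1090252616753) (nat_lit 76) (nat_lit 1090087523981) (nat_lit 1) (nat_lit 4) (nat_lit 2) (nat_lit 5) (nat_lit 2) (nat_lit 4) (nat_lit 275) (nat_lit 196) (nat_lit 189))) (XT.nd (nat_lit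 78) (nat_lit 0) (nat_lit 0) (XT.lf (nat_lit 0) (nat_lit 242207846055) (nat_lit 76) (nat_lit 1253183789036) (nat_lit 76) (nat_lit 1253005724227) (nat_lit 1) (nat_lit 4) (nat_lit 2) (nat_lit 5) (nat_lit 2) (nat_lit 4) (nat_lit 276) (nat_lit 196) (nat_lit 188)) (XT.nd (nat_lit 78) (nat_lit 0) (nat_lit 0) (XT.lf (nat_lit 0) (nat_lit 279597292785) (nat_lit 76) (nat_lit 1440585164444) (nat_lit 76) (nat_lit 1440395819602) (nat_lit 1) (nat_lit 4) (nat_lit 2) (nat_lit 5) (nat_lit 2) (nat_lit 4) (nat_lit 277) (nat_lit 196) (nat_lit 187)) (XT.lf (nat_lit 0) (nat_lit 322542795525) (nat_lit 76) (nat_lit 1656123291626) (nat_lit 76) (nat_lit 1655924138060) (nat_lit 1) (nat_lit 4) (nat_lit 2) (nat_lit 5) (nat_lit 2) (nat_lit 4) (nat_lit 278) (nat_lit 196) (nat_lit 186))))))) (XT.nd (nat_lit 702) (nat_lit 0) (nat_lit 0) (XT.nd (nat_lit 312) (nat_lit 0) (nat_lit 0) (XT.nd (nat_lit 156) (nat_lit 0) (nat_lit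 0) (XT.nd (nat_lit 78) (nat_lit 0) (nat_lit 0) (XT.lf (nat_lit 0) (nat_lit 371884592371) (nat_lit 76) (nat_lit 1904015220896) (nat_lit 76) (nat_lit 1903807538005) (nat_lit 1) (nat_lit 4) (nat_lit 2) (nat_lit 5) (nat_lit 2) (nat_lit 4) (nat_lit 279) (nat_lit 196) (nat_lit 185)) (XT.lf (nat_lit 0) (nat_lit 428588066307) (nat_lit 76) (nat_lit 2189111011740) (nat_lit 76) (nat_lit 2188895912045) (nat_lit 1) (nat_lit 4) (nat_lit 2) (nat_lit 5) (nat_lit 2) (nat_lit 4) (nat_lit 280) (nat_lit 196) (nat_lit 184))) (XT.nd (nat_lit 78) (nat_lit 0) (nat_lit 0) (XT.lf (nat_lit 0) (nat_lit 493762633126) (nat_lit 76) (nat_lit 2516988625283) (nat_lit 76) (nat_lit 2516767076193) (nat_lit 1) (nat_lit 4) (nat_lit 2) (nat_lit 5) (nat_lit 2) (nat_lit 4) (nat_lit 281) (nat_lit 196) (nat_lit 183)) (XT.lf (nat_lit 0) (nat_lit 568683447396) (nat_lit 76) (nat_lit 2894063058312) (nat_lit 76) (nat_lit 2893835901052)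 (nat_lit 1) (nat_lit 4) (nat_lit 2) (nat_lit 5) (nat_lit 2) (nat_lit 4) (nat_lit 282) (nat_lit 196) (nat_lit 182)))) (XT.nd (nat_lit 156) (nat_lit 0) (nat_lit 0) (XT.nd (nat_lit 78) (nat_lit 0) (nat_lit 0) (XT.lf (nat_lit 0) (nat_lit 654816351136) (nat_lit 76) (nat_lit 3327711854082) (nat_lit 76) (nat_lit 3327479820153) (nat_lit 1) (nat_lit 4) (nat_lit 2) (nat_lit 5) (nat_lit 2) (nat_lit 4) (nat_lit 283) (nat_lit 196) (nat_lit 181)) (XT.lf (nat_lit 0) (nat_lit 753846553333) (nat_lit 76) (nat_lit 3826419445554) (nat_lit 76) (nat_lit 3826183171042) (nat_lit 1) (nat_lit 4) (nat_lit 2) (nat_lit 5) (nat_lit 2) (nat_lit 4) (nat_lit 284) (nat_lit 196) (nat_lit 180))) (XT.nd (nat_lit 78) (nat_lit 0) (nat_lit 0) (XT.lf (nat_lit 0) (nat_lit 867711601419) (nat_lit 76) (nat_lit 4399943155168) (nat_lit 76) (nat_lit 4399703193194) (nat_lit 1) (nat_lit 4) (nat_lit 2) (nat_lit 5) (nat_lit 2) (nat_lit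 4) (nat_lit 285) (nat_lit 196) (nat_lit 179)) (XT.nd (nat_lit 78) (nat_lit 0) (nat_lit 0) (XT.lf (nat_lit 0) (nat_lit 998639289815) (nat_lit 76) (nat_lit 5059504098984) (nat_lit 76) (nat_lit 5059260930521) (nat_lit 1) (nat_lit 4) (nat_lit 2) (nat_lit 5) (nat_lit 2) (nat_lit 4) (nat_lit 286) (nat_lit 196) (nat_lit 178)) (XT.lf (nat_lit 0) (nat_lit 1149191247206) (nat_lit 76) (nat_lit 5818006730250) (nat_lit 76) (nat_lit 5817760773535) (nat_lit 1) (nat_lit 4) (nat_lit 2) (nat_lit 5) (nat_lit 2) (nat_lit 4) (nat_lit 287) (nat_lit 196) (nat_lit 177)))))) (XT.nd (nat_lit 312) (nat_lit 0) (nat_lit 0) (XT.nd (nat_lit 156) (nat_lit 0) (nat_lit 0) (XT.nd (nat_lit 78) (nat_lit 0) (nat_lit 0) (XT.lf (nat_lit 0) (nat_lit 1322313055368) (nat_lit 76) (nat_lit 6690291317838) (nat_lit 76) (nat_lit 6690042936557) (nat_lit 1) (nat_lit 4) (nat_lit 2) (nat_lit 5) (nat_lit 2) (nat_lit 4) (nat_lit 288) (nat_lit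 196) (nat_lit 176)) (XT.lf (nat_lit 0) (nat_lit 1521391880112) (nat_lit 76) (nat_lit 7693424299331) (nat_lit 76) (nat_lit 7693173809731) (nat_lit 1) (nat_lit 4) (nat_lit 2) (nat_lit 5) (nat_lit 2) (nat_lit 4) (nat_lit 289) (nat_lit 196) (nat_lit 175))) (XT.nd (nat_lit 78) (nat_lit 0) (nat_lit 0) (XT.lf (nat_lit 0) (nat_lit 1750322741922) (nat_lit 76) (nat_lit 8847032189586) (nat_lit 76) (nat_lit 8846779866665) (nat_lit 1) (nat_lit 4) (nat_lit 2) (nat_lit 5) (nat_lit 2) (nat_lit 4) (nat_lit 290) (nat_lit 196) (nat_lit 174)) (XT.lf (nat_lit 0) (nat_lit 2013584722878) (nat_lit 76) (nat_lit 10173685577758) (nat_lit 76) (nat_lit 10173431660645) (nat_lit 1) (nat_lit 4) (nat_lit 2) (nat_lit 5) (nat_lit 2) (nat_lit 4) (nat_lit 291) (nat_lit 196) (nat_lit 173)))) (XT.nd (nat_lit 156) (nat_lit 0) (nat_lit 0) (XT.nd (nat_lit 78) (nat_lit 0) (nat_lit 0) (XT.lf (nat_lit 0) (nat_lit 2316328600867)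 (nat_lit 76) (nat_lit 11699340725790) (nat_lit 76) (nat_lit 11699085422424) (nat_lit 1) (nat_lit 4) (nat_lit 2) (nat_lit 5) (nat_lit 2) (nat_lit 4) (nat_lit 292) (nat_lit 196) (nat_lit 172)) (XT.lf (nat_lit 0) (nat_lit 2664477625677) (nat_lit 76) (nat_lit 13453847408319) (nat_lit 76) (nat_lit 13453590899514) (nat_lit 1) (nat_lit 4) (nat_lit 2) (nat_lit 5) (nat_lit 2) (nat_lit 4) (nat_lit 293) (nat_lit 196) (nat_lit 171))) (XT.nd (nat_lit 78) (nat_lit 0) (nat_lit 0) (XT.lf (nat_lit 0) (nat_lit 3064843408662) (nat_lit 76) (nat_lit 15471532930001) (nat_lit 76) (nat_lit 15471275372990) (nat_lit 1) (nat_lit 4) (nat_lit 2) (nat_lit 5) (nat_lit 2) (nat_lit 4) (nat_lit 294) (nat_lit 196) (nat_lit 170)) (XT.nd (nat_lit 78) (nat_lit 0) (nat_lit 0) (XT.lf (nat_lit 0) (nat_lit 3525259193402) (nat_lit 76) (nat_lit 17791873746697) (nat_lit 76) (nat_lit 17791615278201) (nat_lit 1) (nat_lit 4) (nat_lit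 2) (nat_lit 5) (nat_lit 2) (nat_lit 4) (nat_lit 295) (nat_lit 196) (nat_lit 169)) (XT.lf (nat_lit 0) (nat_lit 4054733114817) (nat_lit 76) (nat_lit 20460267830906) (nat_lit 76) (nat_lit 20460008569815) (nat_lit 1) (nat_lit 4) (nat_lit 2) (nat_lit 5) (nat_lit 2) (nat_lit 4) (nat_lit 296) (nat_lit 196) (nat_lit 168))))))))
noncomputable def xc10 : XT := (XT.nd (nat_lit 32604) (nat_lit 0) (nat_lit 0) (XT.nd (nat_lit 1326) (nat_lit 0) (nat_lit 0) (XT.nd (nat_lit 936) (nat_lit 0) (nat_lit 0) (XT.nd (nat_lit 156) (nat_lit 0) (nat_lit 0) (XT.nd (nat_lit 78) (nat_lit 0) (nat_lit 0) (XT.lf (nat_lit 0) (nat_lit 4663624445281) (nat_lit 76) (nat_lit 23528922892972) (nat_lit 76) (nat_lit 23528662942668) (nat_lit 1) (nat_lit 4) (nat_lit 2) (nat_lit 5) (nat_lit 2) (nat_lit 4) (nat_lit 297) (nat_lit 196) (nat_lit 167)) (XT.lf (nat_lit 0) (nat_lit 5363846276044) (nat_lit 76) (nat_lit 27057877836283) (nat_lit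 76) (nat_lit 27057617286663) (nat_lit 1) (nat_lit 4) (nat_lit 2) (nat_lit 5) (nat_lit 2) (nat_lit 4) (nat_lit 298) (nat_lit 196) (nat_lit 166))) (XT.nd (nat_lit 78) (nat_lit 0) (nat_lit 0) (XT.lf (nat_lit 0) (nat_lit 6169098599445) (nat_lit 76) (nat_lit 31116177431469) (nat_lit 76) (nat_lit 31115916360705) (nat_lit 1) (nat_lit 4) (nat_lit 2) (nat_lit 5) (nat_lit 2) (nat_lit 4) (nat_lit 299) (nat_lit 196) (nat_lit 165)) (XT.lf (nat_lit 0) (nat_lit 7095136352247) (nat_lit 76) (nat_lit 35783223192348) (nat_lit 76) (nat_lit 35782961668416) (nat_lit 1) (nat_lit 4) (nat_lit 2) (nat_lit 5) (nat_lit 2) (nat_lit 4) (nat_lit 300) (nat_lit 196) (nat_lit 164)))) (XT.nd (nat_lit 156) (nat_lit 0) (nat_lit 0) (XT.nd (nat_lit 78) (nat_lit 0) (nat_lit 0) (XT.lf (nat_lit 0) (nat_lit 24970999202963) (nat_lit 76) (nat_lit 125874614827859) (nat_lit 76) (nat_lit 125874351141593) (nat_lit 1) (nat_lit 4) (nat_lit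 2) (nat_lit 5) (nat_lit 2) (nat_lit 4) (nat_lit 309) (nat_lit 196) (nat_lit 155)) (XT.lf (nat_lit 0) (nat_lit 28717309905344) (nat_lit 76) (nat_lit 144755432353296) (nat_lit 76) (nat_lit 144755168555013) (nat_lit 1) (nat_lit 4) (nat_lit 2) (nat_lit 5) (nat_lit 2) (nat_lit 4) (nat_lit 310) (nat_lit 196) (nat_lit 154))) (XT.nd (nat_lit 78) (nat_lit 0) (nat_lit 0) (XT.lf (nat_lit 0) (nat_lit 33025566693112) (nat_lit 76) (nat_lit 166468372771157) (nat_lit 76) (nat_lit 166468108875469) (nat_lit 1) (nat_lit 4) (nat_lit 2) (nat_lit 5) (nat_lit 2) (nat_lit 4) (nat_lit 311) (nat_lit 196) (nat_lit 153)) (XT.nd (nat_lit 78) (nat_lit 0) (nat_lit 0) (XT.lf (nat_lit 0) (nat_lit 37980061546896) (nat_lit 76) (nat_lit 191438254480924) (nat_lit 76) (nat_lit 191437990500536) (nat_lit 1) (nat_lit 4) (nat_lit 2) (nat_lit 5) (nat_lit 2) (nat_lit 4) (nat_lit 312) (nat_lit 196) (nat_lit 152)) (XT.lf (nat_lit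 0) (nat_lit 43677730235576) (nat_lit 76) (nat_lit 220153618646483) (nat_lit 76) (nat_lit 220153354592443) (nat_lit 1) (nat_lit 4) (nat_lit 2) (nat_lit 5) (nat_lit 2) (nat_lit 4) (nat_lit 313) (nat_lit 196) (nat_lit 151)))))) (XT.nd (nat_lit 30888) (nat_lit 0) (nat_lit 0) (XT.nd (nat_lit 30732) (nat_lit 0) (nat_lit 0) (XT.nd (nat_lit 30654) (nat_lit 0) (nat_lit 0) (XT.lf (nat_lit 0) (nat_lit 50230048885667) (nat_lit 76) (nat_lit 253176287610204) (nat_lit 76) (nat_lit 253176023492117) (nat_lit 1) (nat_lit 4) (nat_lit 2) (nat_lit 5) (nat_lit 2) (nat_lit 4) (nat_lit 314) (nat_lit 196) (nat_lit 150)) (XT.lf (nat_lit 0) (nat_lit 25617416710) (nat_lit 76) (nat_lit 157192255803) (nat_lit 76) (nat_lit 157192255803) (nat_lit 1) (nat_lit 4) (nat_lit 2) (nat_lit 5) (nat_lit 2) (nat_lit 4) (nat_lit 266) (nat_lit 197) (nat_lit 197))) (XT.nd (nat_lit 78) (nat_lit 0) (nat_lit 0) (XT.lf (nat_lit 0) (nat_lit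 61087615557) (nat_lit 76) (nat_lit 360397667608) (nat_lit 76) (nat_lit 360357985849) (nat_lit 1) (nat_lit 4) (nat_lit 2) (nat_lit 5) (nat_lit 2) (nat_lit 4) (nat_lit 267) (nat_lit 197) (nat_lit 196)) (XT.lf (nat_lit 0) (nat_lit 72234115497) (nat_lit 76) (nat_lit 413406180663) (nat_lit 76) (nat_lit 413331993027) (nat_lit 1) (nat_lit 4) (nat_lit 2) (nat_lit 5) (nat_lit 2) (nat_lit 4) (nat_lit 268) (nat_lit 197) (nat_lit 195)))) (XT.nd (nat_lit 156) (nat_lit 0) (nat_lit 0) (XT.nd (nat_lit 78) (nat_lit 0) (nat_lit 0) (XT.lf (nat_lit 0) (nat_lit 84892416934) (nat_lit 76) (nat_lit 474447173853) (nat_lit 76) (nat_lit 474342981107) (nat_lit 1) (nat_lit 4) (nat_lit 2) (nat_lit 5) (nat_lit 2) (nat_lit 4) (nat_lit 269) (nat_lit 197) (nat_lit 194)) (XT.lf (nat_lit 0) (nat_lit 99310182286) (nat_lit 76) (nat_lit 544714927481) (nat_lit 76) (nat_lit 544584643334) (nat_lit 1) (nat_lit 4) (nat_lit 2)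 (nat_lit 5) (nat_lit 2) (nat_lit 4) (nat_lit 270) (nat_lit 197) (nat_lit 193))) (XT.nd (nat_lit 78) (nat_lit 0) (nat_lit 0) (XT.lf (nat_lit 0) (nat_lit 115769498268) (nat_lit 76) (nat_lit 625584245421) (nat_lit 76) (nat_lit 625431273100) (nat_lit 1) (nat_lit 4) (nat_lit 2) (nat_lit 5) (nat_lit 2) (nat_lit 4) (nat_lit 271) (nat_lit 197) (nat_lit 192)) (XT.nd (nat_lit 78) (nat_lit 0) (nat_lit 0) (XT.lf (nat_lit 0) (nat_lit 134592394975) (nat_lit 76) (nat_lit 718637353459) (nat_lit 76) (nat_lit 718464652291) (nat_lit 1) (nat_lit 4) (nat_lit 2) (nat_lit 5) (nat_lit 2) (nat_lit 4) (nat_lit 272) (nat_lit 197) (nat_lit 191)) (XT.lf (nat_lit 0) (nat_lit 156147146472) (nat_lit 76) (nat_lit 825694855883) (nat_lit 76) (nat_lit 825504999195) (nat_lit 1) (nat_lit 4) (nat_lit 2) (nat_lit 5) (nat_lit 2) (nat_lit 4) (nat_lit 273) (nat_lit 197) (nat_lit 190))))))) (XT.nd (nat_lit 702) (nat_lit 0) (nat_lit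 0) (XT.nd (nat_lit 312) (nat_lit 0) (nat_lit 0) (XT.nd (nat_lit 156) (nat_lit 0) (nat_lit 0) (XT.nd (nat_lit 78) (nat_lit 0) (nat_lit 0) (XT.lf (nat_lit 0) (nat_lit 180855476159) (nat_lit 76) (nat_lit 948851356001) (nat_lit 76) (nat_lit 948646581471) (nat_lit 1) (nat_lit 4) (nat_lit 2) (nat_lit 5) (nat_lit 2) (nat_lit 4) (nat_lit 274) (nat_lit 197) (nat_lit 189)) (XT.lf (nat_lit 0) (nat_lit 209200807878) (nat_lit 76) (nat_lit 1090516437512) (nat_lit 76) (nat_lit 1090298690944) (nat_lit 1) (nat_lit 4) (nat_lit 2) (nat_lit 5) (nat_lit 2) (nat_lit 4) (nat_lit 275) (nat_lit 197) (nat_lit 188))) (XT.nd (nat_lit 78) (nat_lit 0) (nat_lit 0) (XT.lf (nat_lit 0) (nat_lit 241737724204) (nat_lit 76) (nat_lit 1253461808531) (nat_lit 76) (nat_lit 1253232781930) (nat_lit 1) (nat_lit 4) (nat_lit 2) (nat_lit 5) (nat_lit 2) (nat_lit 4) (nat_lit 276) (nat_lit 197) (nat_lit 187)) (XT.lf (nat_lit 0) (nat_lit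 279102816981) (nat_lit 76) (nat_lit 1440875530666) (nat_lit 76) (nat_lit 1440636695341) (nat_lit 1) (nat_lit 4) (nat_lit 2) (nat_lit 5) (nat_lit 2) (nat_lit 4) (nat_lit 277) (nat_lit 197) (nat_lit 186)))) (XT.nd (nat_lit 156) (nat_lit 0) (nat_lit 0) (XT.nd (nat_lit 78) (nat_lit 0) (nat_lit 0) (XT.lf (nat_lit 0) (nat_lit 322027142370) (nat_lit 76) (nat_lit 1656424394131) (nat_lit 76) (nat_lit 1656177029482) (nat_lit 1) (nat_lit 4) (nat_lit 2) (nat_lit 5) (nat_lit 2) (nat_lit 4) (nat_lit 278) (nat_lit 197) (nat_lit 185)) (XT.lf (nat_lit 0) (nat_lit 371350524129) (nat_lit 76) (nat_lit 1904325659301) (nat_lit 76) (nat_lit 1904070877847) (nat_lit 1) (nat_lit 4) (nat_lit 2) (nat_lit 5) (nat_lit 2) (nat_lit 4) (nat_lit 279) (nat_lit 197) (nat_lit 184))) (XT.nd (nat_lit 78) (nat_lit 0) (nat_lit 0) (XT.lf (nat_lit 0) (nat_lit 428037984945) (nat_lit 76) (nat_lit 2189429568318) (nat_lit 76) (nat_lit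 2189168337469) (nat_lit 1) (nat_lit 4) (nat_lit 2) (nat_lit 5) (nat_lit 2) (nat_lit 4) (nat_lit 280) (nat_lit 197) (nat_lit 183)) (XT.nd (nat_lit 78) (nat_lit 0) (nat_lit 0) (XT.lf (nat_lit 0) (nat_lit 493198627312) (nat_lit 76) (nat_lit 2517314241142) (nat_lit 76) (nat_lit 2517047402124) (nat_lit 1) (nat_lit 4) (nat_lit 2) (nat_lit 5) (nat_lit 2) (nat_lit 4) (nat_lit 281) (nat_lit 197) (nat_lit 182)) (XT.lf (nat_lit 0) (nat_lit 568107333364) (nat_lit 76) (nat_lit 2894394812677) (nat_lit 76) (nat_lit 2894123096989) (nat_lit 1) (nat_lit 4) (nat_lit 2) (nat_lit 5) (nat_lit 2) (nat_lit 4) (nat_lit 282) (nat_lit 197) (nat_lit 181)))))) (XT.nd (nat_lit 312) (nat_lit 0) (nat_lit 0) (XT.nd (nat_lit 156) (nat_lit 0) (nat_lit 0) (XT.nd (nat_lit 78) (nat_lit 0) (nat_lit 0) (XT.lf (nat_lit 0) (nat_lit 654229708218) (nat_lit 76) (nat_lit 3328048946278) (nat_lit 76) (nat_lit 3327772990007) (nat_lit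 1) (nat_lit 4) (nat_lit 2) (nat_lit 5) (nat_lit 2) (nat_lit 4) (nat_lit 283) (nat_lit 197) (nat_lit 180)) (XT.lf (nat_lit 0) (nat_lit 753250754861) (nat_lit 76) (nat_lit 3826761179341) (nat_lit 76) (nat_lit 3826481535608) (nat_lit 1) (nat_lit 4) (nat_lit 2) (nat_lit 5) (nat_lit 2) (nat_lit 4) (nat_lit 284) (nat_lit 197) (nat_lit 179))) (XT.nd (nat_lit 78) (nat_lit 0) (nat_lit 0) (XT.lf (nat_lit 0) (nat_lit 867107841597) (nat_lit 76) (nat_lit 4400288925123) (nat_lit 76) (nat_lit 4400006074901) (nat_lit 1) (nat_lit 4) (nat_lit 2) (nat_lit 5) (nat_lit 2) (nat_lit 4) (nat_lit 285) (nat_lit 197) (nat_lit 178)) (XT.lf (nat_lit 0) (nat_lit 998028607079) (nat_lit 76) (nat_lit 5059853378649) (nat_lit 76) (nat_lit 5059567740176) (nat_lit 1) (nat_lit 4) (nat_lit 2) (nat_lit 5) (nat_lit 2) (nat_lit 4) (nat_lit 286) (nat_lit 197) (nat_lit 177)))) (XT.nd (nat_lit 156) (nat_lit 0) (nat_lit 0) (XT.nd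 (nat_lit 78) (nat_lit 0) (nat_lit 0) (XT.lf (nat_lit 0) (nat_lit 1148574544546) (nat_lit 76) (nat_lit 5818359061837) (nat_lit 76) (nat_lit 5818070998797) (nat_lit 1) (nat_lit 4) (nat_lit 2) (nat_lit 5) (nat_lit 2) (nat_lit 4) (nat_lit 287) (nat_lit 197) (nat_lit 176)) (XT.lf (nat_lit 0) (nat_lit 1321691117990) (nat_lit 76) (nat_lit 6690646303270) (nat_lit 76) (nat_lit 6690356131911) (nat_lit 1) (nat_lit 4) (nat_lit 2) (nat_lit 5) (nat_lit 2) (nat_lit 4) (nat_lit 288) (nat_lit 197) (nat_lit 175))) (XT.nd (nat_lit 78) (nat_lit 0) (nat_lit 0) (XT.lf (nat_lit 0) (nat_lit 1520765390806) (nat_lit 76) (nat_lit 7693781592455) (nat_lit 76) (nat_lit 7693489587776) (nat_lit 1) (nat_lit 4) (nat_lit 2) (nat_lit 5) (nat_lit 2) (nat_lit 4) (nat_lit 289) (nat_lit 197) (nat_lit 174)) (XT.nd (nat_lit 78) (nat_lit 0) (nat_lit 0) (XT.lf (nat_lit 0) (nat_lit 1749692294418) (nat_lit 76) (nat_lit 8847391489397)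 (nat_lit 76) (nat_lit 8847097890526) (nat_lit 1) (nat_lit 4) (nat_lit 2) (nat_lit 5) (nat_lit 2) (nat_lit 4) (nat_lit 290) (nat_lit 197) (nat_lit 173)) (XT.lf (nat_lit 0) (nat_lit 2012950833462) (nat_lit 76) (nat_lit 10174046622516) (nat_lit 76) (nat_lit 10173751637391) (nat_lit 1) (nat_lit 4) (nat_lit 2) (nat_lit 5) (nat_lit 2) (nat_lit 4) (nat_lit 291) (nat_lit 197) (nat_lit 172))))))))
noncomputable def xc11 : XT := (XT.nd (nat_lit 32448) (nat_lit 0) (nat_lit 0) (XT.nd (nat_lit 1248) (nat_lit 0) (nat_lit 0) (XT.nd (nat_lit 312) (nat_lit 0) (nat_lit 0) (XT.nd (nat_lit 156) (nat_lit 0) (nat_lit 0) (XT.nd (nat_lit 78) (nat_lit 0) (nat_lit 0) (XT.lf (nat_lit 0) (nat_lit 2315691718485) (nat_lit 76) (nat_lit 11699703287893) (nat_lit 76) (nat_lit 11699407097330) (nat_lit 1) (nat_lit 4) (nat_lit 2) (nat_lit 5) (nat_lit 2) (nat_lit 4) (nat_lit 292) (nat_lit 197) (nat_lit 171)) (XT.lf (nat_lit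 0) (nat_lit 2663838140715) (nat_lit 76) (nat_lit 13454211289852) (nat_lit 76) (nat_lit 13453914051082) (nat_lit 1) (nat_lit 4) (nat_lit 2) (nat_lit 5) (nat_lit 2) (nat_lit 4) (nat_lit 293) (nat_lit 197) (nat_lit 170))) (XT.nd (nat_lit 78) (nat_lit 0) (nat_lit 0) (XT.lf (nat_lit 0) (nat_lit 3064201660587) (nat_lit 76) (nat_lit 15471897958865) (nat_lit 76) (nat_lit 15471599808610) (nat_lit 1) (nat_lit 4) (nat_lit 2) (nat_lit 5) (nat_lit 2) (nat_lit 4) (nat_lit 294) (nat_lit 197) (nat_lit 169)) (XT.lf (nat_lit 0) (nat_lit 3524615477404) (nat_lit 76) (nat_lit 17792239773239) (nat_lit 76) (nat_lit 17791940830389) (nat_lit 1) (nat_lit 4) (nat_lit 2) (nat_lit 5) (nat_lit 2) (nat_lit 4) (nat_lit 295) (nat_lit 197) (nat_lit 168)))) (XT.nd (nat_lit 156) (nat_lit 0) (nat_lit 0) (XT.nd (nat_lit 78) (nat_lit 0) (nat_lit 0) (XT.lf (nat_lit 0) (nat_lit 4054087687580) (nat_lit 76) (nat_lit 20460634724995)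 (nat_lit 76) (nat_lit 20460335092932) (nat_lit 1) (nat_lit 4) (nat_lit 2) (nat_lit 5) (nat_lit 2) (nat_lit 4) (nat_lit 296) (nat_lit 197) (nat_lit 167)) (XT.lf (nat_lit 0) (nat_lit 4662977530011) (nat_lit 76) (nat_lit 23529290541449) (nat_lit 76) (nat_lit 23528990310071) (nat_lit 1) (nat_lit 4) (nat_lit 2) (nat_lit 5) (nat_lit 2) (nat_lit 4) (nat_lit 297) (nat_lit 197) (nat_lit 166))) (XT.nd (nat_lit 78) (nat_lit 0) (nat_lit 0) (XT.lf (nat_lit 0) (nat_lit 5363198066831) (nat_lit 76) (nat_lit 27058246140750) (nat_lit 76) (nat_lit 27057945388227) (nat_lit 1) (nat_lit 4) (nat_lit 2) (nat_lit 5) (nat_lit 2) (nat_lit 4) (nat_lit 298) (nat_lit 197) (nat_lit 165)) (XT.nd (nat_lit 78) (nat_lit 0) (nat_lit 0) (XT.lf (nat_lit 0) (nat_lit 6168449265066) (nat_lit 76) (nat_lit 31116546306362) (nat_lit 76) (nat_lit 31116245100671) (nat_lit 1) (nat_lit 4) (nat_lit 2) (nat_lit 5) (nat_lit 2) (nat_lit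 4) (nat_lit 299) (nat_lit 197) (nat_lit 164)) (XT.lf (nat_lit 0) (nat_lit 7094486039462) (nat_lit 76) (nat_lit 35783592563264) (nat_lit 76) (nat_lit 35783290963513) (nat_lit 1) (nat_lit 4) (nat_lit 2) (nat_lit 5) (nat_lit 2) (nat_lit 4) (nat_lit 300) (nat_lit 197) (nat_lit 163)))))) (XT.nd (nat_lit 312) (nat_lit 0) (nat_lit 0) (XT.nd (nat_lit 156) (nat_lit 0) (nat_lit 0) (XT.nd (nat_lit 78) (nat_lit 0) (nat_lit 0) (XT.lf (nat_lit 0) (nat_lit 21712682499452) (nat_lit 76) (nat_lit 109456884492166) (nat_lit 76) (nat_lit 109456581124141) (nat_lit 1) (nat_lit 4) (nat_lit 2) (nat_lit 5) (nat_lit 2) (nat_lit 4) (nat_lit 308) (nat_lit 197) (nat_lit 155)) (XT.lf (nat_lit 0) (nat_lit 24970344221631) (nat_lit 76) (nat_lit 125874986565588) (nat_lit 76) (nat_lit 125874683085548) (nat_lit 1) (nat_lit 4) (nat_lit 2) (nat_lit 5) (nat_lit 2) (nat_lit 4) (nat_lit 309) (nat_lit 197) (nat_lit 154))) (XT.nd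 (nat_lit 78) (nat_lit 0) (nat_lit 0) (XT.lf (nat_lit 0) (nat_lit 28716654682166) (nat_lit 76) (nat_lit 144755804213634) (nat_lit 76) (nat_lit 144755500636188) (nat_lit 1) (nat_lit 4) (nat_lit 2) (nat_lit 5) (nat_lit 2) (nat_lit 4) (nat_lit 310) (nat_lit 197) (nat_lit 153)) (XT.lf (nat_lit 0) (nat_lit 33024911259632) (nat_lit 76) (nat_lit 166468744738113) (nat_lit 76) (nat_lit 166468441075966) (nat_lit 1) (nat_lit 4) (nat_lit 2) (nat_lit 5) (nat_lit 2) (nat_lit 4) (nat_lit 311) (nat_lit 197) (nat_lit 152)))) (XT.nd (nat_lit 30654) (nat_lit 0) (nat_lit 0) (XT.nd (nat_lit 78) (nat_lit 0) (nat_lit 0) (XT.lf (nat_lit 0) (nat_lit 37979405930545) (nat_lit 76) (nat_lit 191438626540590) (nat_lit 76) (nat_lit 191438322804790) (nat_lit 1) (nat_lit 4) (nat_lit 2) (nat_lit 5) (nat_lit 2) (nat_lit 4) (nat_lit 312) (nat_lit 197) (nat_lit 151)) (XT.lf (nat_lit 0) (nat_lit 43677074460206) (nat_lit 76)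 (nat_lit 220153990786767) (nat_lit 76) (nat_lit 220153686986922) (nat_lit 1) (nat_lit 4) (nat_lit 2) (nat_lit 5) (nat_lit 2) (nat_lit 4) (nat_lit 313) (nat_lit 197) (nat_lit 150))) (XT.nd (nat_lit 78) (nat_lit 0) (nat_lit 0) (XT.lf (nat_lit 0) (nat_lit 17387089811) (nat_lit 76) (nat_lit 119925342666) (nat_lit 76) (nat_lit 119925342666) (nat_lit 1) (nat_lit 4) (nat_lit 2) (nat_lit 5) (nat_lit 2) (nat_lit 4) (nat_lit 264) (nat_lit 198) (nat_lit 198)) (XT.nd (nat_lit 78) (nat_lit 0) (nat_lit 0) (XT.lf (nat_lit 0) (nat_lit 42482997260) (nat_lit 76) (nat_lit 274512089282) (nat_lit 76) (nat_lit 274466455260) (nat_lit 1) (nat_lit 4) (nat_lit 2) (nat_lit 5) (nat_lit 2) (nat_lit 4) (nat_lit 265) (nat_lit 198) (nat_lit 197)) (XT.lf (nat_lit 0) (nat_lit 51136308096) (nat_lit 76) (nat_lit 314480095025) (nat_lit 76) (nat_lit 314394779244) (nat_lit 1) (nat_lit 4) (nat_lit 2) (nat_lit 5) (nat_lit 2)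 (nat_lit 4) (nat_lit 266) (nat_lit 198) (nat_lit 196))))))) (XT.nd (nat_lit 702) (nat_lit 0) (nat_lit 0) (XT.nd (nat_lit 312) (nat_lit 0) (nat_lit 0) (XT.nd (nat_lit 156) (nat_lit 0) (nat_lit 0) (XT.nd (nat_lit 78) (nat_lit 0) (nat_lit 0) (XT.lf (nat_lit 0) (nat_lit 60903416039) (nat_lit 76) (nat_lit 360536685284) (nat_lit 76) (nat_lit 360416863626) (nat_lit 1) (nat_lit 4) (nat_lit 2) (nat_lit 5) (nat_lit 2) (nat_lit 4) (nat_lit 267) (nat_lit 198) (nat_lit 195)) (XT.lf (nat_lit 0) (nat_lit 71975416679) (nat_lit 76) (nat_lit 413582967259) (nat_lit 76) (nat_lit 413433140490) (nat_lit 1) (nat_lit 4) (nat_lit 2) (nat_lit 5) (nat_lit 2) (nat_lit 4) (nat_lit 268) (nat_lit 198) (nat_lit 194))) (XT.nd (nat_lit 78) (nat_lit 0) (nat_lit 0) (XT.lf (nat_lit 0) (nat_lit 84568936116) (nat_lit 76) (nat_lit 474656802988) (nat_lit 76) (nat_lit 474480884819) (nat_lit 1) (nat_lit 4) (nat_lit 2) (nat_lit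 5) (nat_lit 2) (nat_lit 4) (nat_lit 269) (nat_lit 198) (nat_lit 193)) (XT.lf (nat_lit 0) (nat_lit 98930369294) (nat_lit 76) (nat_lit 544953115345) (nat_lit 76) (nat_lit 544754509001) (nat_lit 1) (nat_lit 4) (nat_lit 2) (nat_lit 5) (nat_lit 2) (nat_lit 4) (nat_lit 270) (nat_lit 198) (nat_lit 192)))) (XT.nd (nat_lit 156) (nat_lit 0) (nat_lit 0) (XT.nd (nat_lit 78) (nat_lit 0) (nat_lit 0) (XT.lf (nat_lit 0) (nat_lit 115340700777) (nat_lit 76) (nat_lit 625847266963) (nat_lit 76) (nat_lit 625628931772) (nat_lit 1) (nat_lit 4) (nat_lit 2) (nat_lit 5) (nat_lit 2) (nat_lit 4) (nat_lit 271) (nat_lit 198) (nat_lit 191)) (XT.lf (nat_lit 0) (nat_lit 134121002268) (nat_lit 76) (nat_lit 718921969503) (nat_lit 76) (nat_lit 718686478793) (nat_lit 1) (nat_lit 4) (nat_lit 2) (nat_lit 5) (nat_lit 2) (nat_lit 4) (nat_lit 272) (nat_lit 198) (nat_lit 190))) (XT.nd (nat_lit 78) (nat_lit 0) (nat_lit 0) (XT.lf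 (nat_lit 0) (nat_lit 155638714447) (nat_lit 76) (nat_lit 825998249756) (nat_lit 76) (nat_lit 825747841202) (nat_lit 1) (nat_lit 4) (nat_lit 2) (nat_lit 5) (nat_lit 2) (nat_lit 4) (nat_lit 273) (nat_lit 198) (nat_lit 189)) (XT.nd (nat_lit 78) (nat_lit 0) (nat_lit 0) (XT.lf (nat_lit 0) (nat_lit 180314836031) (nat_lit 76) (nat_lit 949171078420) (nat_lit 76) (nat_lit 948907697830) (nat_lit 1) (nat_lit 4) (nat_lit 2) (nat_lit 5) (nat_lit 2) (nat_lit 4) (nat_lit 274) (nat_lit 198) (nat_lit 188)) (XT.lf (nat_lit 0) (nat_lit 208632160703) (nat_lit 76) (nat_lit 1090850358667) (nat_lit 76) (nat_lit 1090575698044) (nat_lit 1) (nat_lit 4) (nat_lit 2) (nat_lit 5) (nat_lit 2) (nat_lit 4) (nat_lit 275) (nat_lit 198) (nat_lit 187)))))) (XT.nd (nat_lit 312) (nat_lit 0) (nat_lit 0) (XT.nd (nat_lit 156) (nat_lit 0) (nat_lit 0) (XT.nd (nat_lit 78) (nat_lit 0) (nat_lit 0) (XT.lf (nat_lit 0) (nat_lit 241144723076)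 (nat_lit 76) (nat_lit 1253808076412) (nat_lit 76) (nat_lit 1253523607066) (nat_lit 1) (nat_lit 4) (nat_lit 2) (nat_lit 5) (nat_lit 2) (nat_lit 4) (nat_lit 276) (nat_lit 198) (nat_lit 186)) (XT.lf (nat_lit 0) (nat_lit 278488638502) (nat_lit 76) (nat_lit 1441232534831) (nat_lit 76) (nat_lit 1440939536159) (nat_lit 1) (nat_lit 4) (nat_lit 2) (nat_lit 5) (nat_lit 2) (nat_lit 4) (nat_lit 277) (nat_lit 198) (nat_lit 185))) (XT.nd (nat_lit 78) (nat_lit 0) (nat_lit 0) (XT.lf (nat_lit 0) (nat_lit 321394548804) (nat_lit 76) (nat_lit 1656790734197) (nat_lit 76) (nat_lit 1656490318720) (nat_lit 1) (nat_lit 4) (nat_lit 2) (nat_lit 5) (nat_lit 2) (nat_lit 4) (nat_lit 278) (nat_lit 198) (nat_lit 184)) (XT.lf (nat_lit 0) (nat_lit 370701917443) (nat_lit 76) (nat_lit 1904700117539) (nat_lit 76) (nat_lit 1904393252668) (nat_lit 1) (nat_lit 4) (nat_lit 2) (nat_lit 5) (nat_lit 2) (nat_lit 4) (nat_lit 279)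 (nat_lit 198) (nat_lit 183)))) (XT.nd (nat_lit 156) (nat_lit 0) (nat_lit 0) (XT.nd (nat_lit 78) (nat_lit 0) (nat_lit 0) (XT.lf (nat_lit 0) (nat_lit 427375453808) (nat_lit 76) (nat_lit 2189811085838) (nat_lit 76) (nat_lit 2189498612796) (nat_lit 1) (nat_lit 4) (nat_lit 2) (nat_lit 5) (nat_lit 2) (nat_lit 4) (nat_lit 280) (nat_lit 198) (nat_lit 182)) (XT.lf (nat_lit 0) (nat_lit 492523987956) (nat_lit 76) (nat_lit 2517701897167) (nat_lit 76) (nat_lit 2517384547457) (nat_lit 1) (nat_lit 4) (nat_lit 2) (nat_lit 5) (nat_lit 2) (nat_lit 4) (nat_lit 281) (nat_lit 198) (nat_lit 181))) (XT.nd (nat_lit 78) (nat_lit 0) (nat_lit 0) (XT.lf (nat_lit 0) (nat_lit 567422165121) (nat_lit 76) (nat_lit 2894787806532) (nat_lit 76) (nat_lit 2894466216240) (nat_lit 1) (nat_lit 4) (nat_lit 2) (nat_lit 5) (nat_lit 2) (nat_lit 4) (nat_lit 282) (nat_lit 198) (nat_lit 180)) (XT.nd (nat_lit 78) (nat_lit 0) (nat_lit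 0) (XT.lf (nat_lit 0) (nat_lit 653535384422) (nat_lit 76) (nat_lit 3328446581725) (nat_lit 76) (nat_lit 3328121303970) (nat_lit 1) (nat_lit 4) (nat_lit 2) (nat_lit 5) (nat_lit 2) (nat_lit 4) (nat_lit 283) (nat_lit 198) (nat_lit 179)) (XT.lf (nat_lit 0) (nat_lit 752548469715) (nat_lit 76) (nat_lit 3827162850955) (nat_lit 76) (nat_lit 3826834366711) (nat_lit 1) (nat_lit 4) (nat_lit 2) (nat_lit 5) (nat_lit 2) (nat_lit 4) (nat_lit 284) (nat_lit 198) (nat_lit 178))))))))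
noncomputable def xc12 : XT := (XT.nd (nat_lit 1950) (nat_lit 0) (nat_lit 0) (XT.nd (nat_lit 702) (nat_lit 0) (nat_lit 0) (XT.nd (nat_lit 312) (nat_lit 0) (nat_lit 0) (XT.nd (nat_lit 156) (nat_lit 0) (nat_lit 0) (XT.nd (nat_lit 78) (nat_lit 0) (nat_lit 0) (XT.lf (nat_lit 0) (nat_lit 866398633537) (nat_lit 76) (nat_lit 4400694106448) (nat_lit 76) (nat_lit 4400362833952) (nat_lit 1) (nat_lit 4) (nat_lit 2) (nat_lit 5) (nat_lit 2) (nat_lit 4) (nat_lit 285) (nat_lit 198) (nat_lit 177)) (XT.lf (nat_lit 0) (nat_lit 997313379095) (nat_lit 76) (nat_lit 5060261611896) (nat_lit 76) (nat_lit 5059927914834) (nat_lit 1) (nat_lit 4) (nat_lit 2) (nat_lit 5) (nat_lit 2) (nat_lit 4) (nat_lit 286) (nat_lit 198) (nat_lit 176))) (XT.nd (nat_lit 78) (nat_lit 0) (nat_lit 0) (XT.lf (nat_lit 0) (nat_lit 1147854081844) (nat_lit 76) (nat_lit 5818769948929) (nat_lit 76) (nat_lit 5818434143548) (nat_lit 1) (nat_lit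 4) (nat_lit 2) (nat_lit 5) (nat_lit 2) (nat_lit 4) (nat_lit 287) (nat_lit 198) (nat_lit 175)) (XT.lf (nat_lit 0) (nat_lit 1320966103361) (nat_lit 76) (nat_lit 6691059498054) (nat_lit 76) (nat_lit 6690721859352) (nat_lit 1) (nat_lit 4) (nat_lit 2) (nat_lit 5) (nat_lit 2) (nat_lit 4) (nat_lit 288) (nat_lit 198) (nat_lit 174)))) (XT.nd (nat_lit 156) (nat_lit 0) (nat_lit 0) (XT.nd (nat_lit 78) (nat_lit 0) (nat_lit 0) (XT.lf (nat_lit 0) (nat_lit 1520036417978) (nat_lit 76) (nat_lit 7694196793927) (nat_lit 76) (nat_lit 7693857561033) (nat_lit 1) (nat_lit 4) (nat_lit 2) (nat_lit 5) (nat_lit 2) (nat_lit 4) (nat_lit 289) (nat_lit 198) (nat_lit 173)) (XT.lf (nat_lit 0) (nat_lit 1748959879679) (nat_lit 76) (nat_lit 8847808435816) (nat_lit 76) (nat_lit 8847467816668) (nat_lit 1) (nat_lit 4) (nat_lit 2) (nat_lit 5) (nat_lit 2) (nat_lit 4) (nat_lit 290) (nat_lit 198) (nat_lit 172))) (XT.nd (nat_lit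 78) (nat_lit 0) (nat_lit 0) (XT.lf (nat_lit 0) (nat_lit 2012215425757) (nat_lit 76) (nat_lit 10174465086279) (nat_lit 76) (nat_lit 10174123261693) (nat_lit 1) (nat_lit 4) (nat_lit 2) (nat_lit 5) (nat_lit 2) (nat_lit 4) (nat_lit 291) (nat_lit 198) (nat_lit 171)) (XT.nd (nat_lit 78) (nat_lit 0) (nat_lit 0) (XT.lf (nat_lit 0) (nat_lit 2314953708200) (nat_lit 76) (nat_lit 11700123071086) (nat_lit 76) (nat_lit 11699780198294) (nat_lit 1) (nat_lit 4) (nat_lit 2) (nat_lit 5) (nat_lit 2) (nat_lit 4) (nat_lit 292) (nat_lit 198) (nat_lit 170)) (XT.lf (nat_lit 0) (nat_lit 2663097867317) (nat_lit 76) (nat_lit 13454632220375) (nat_lit 76) (nat_lit 13454288436098) (nat_lit 1) (nat_lit 4) (nat_lit 2) (nat_lit 5) (nat_lit 2) (nat_lit 4) (nat_lit 293) (nat_lit 198) (nat_lit 169)))))) (XT.nd (nat_lit 312) (nat_lit 0) (nat_lit 0) (XT.nd (nat_lit 156) (nat_lit 0) (nat_lit 0) (XT.nd (nat_lit 78) (nat_lit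 0) (nat_lit 0) (XT.lf (nat_lit 0) (nat_lit 3063459419265) (nat_lit 76) (nat_lit 15472319887067) (nat_lit 76) (nat_lit 15471975310195) (nat_lit 1) (nat_lit 4) (nat_lit 2) (nat_lit 5) (nat_lit 2) (nat_lit 4) (nat_lit 294) (nat_lit 198) (nat_lit 168)) (XT.lf (nat_lit 0) (nat_lit 3523871524843) (nat_lit 76) (nat_lit 17792662568988) (nat_lit 76) (nat_lit 17792317302903) (nat_lit 1) (nat_lit 4) (nat_lit 2) (nat_lit 5) (nat_lit 2) (nat_lit 4) (nat_lit 295) (nat_lit 198) (nat_lit 167))) (XT.nd (nat_lit 78) (nat_lit 0) (nat_lit 0) (XT.lf (nat_lit 0) (nat_lit 4053342246986) (nat_lit 76) (nat_lit 20461058275132) (nat_lit 76) (nat_lit 20460712409731) (nat_lit 1) (nat_lit 4) (nat_lit 2) (nat_lit 5) (nat_lit 2) (nat_lit 4) (nat_lit 296) (nat_lit 198) (nat_lit 166)) (XT.lf (nat_lit 0) (nat_lit 4662230795475) (nat_lit 76) (nat_lit 23529714747576) (nat_lit 76) (nat_lit 23529368361031) (nat_lit 1) (nat_lit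 4) (nat_lit 2) (nat_lit 5) (nat_lit 2) (nat_lit 4) (nat_lit 297) (nat_lit 198) (nat_lit 165)))) (XT.nd (nat_lit 156) (nat_lit 0) (nat_lit 0) (XT.nd (nat_lit 78) (nat_lit 0) (nat_lit 0) (XT.lf (nat_lit 0) (nat_lit 5362450207128) (nat_lit 76) (nat_lit 27058670917303) (nat_lit 76) (nat_lit 27058324077589) (nat_lit 1) (nat_lit 4) (nat_lit 2) (nat_lit 5) (nat_lit 2) (nat_lit 4) (nat_lit 298) (nat_lit 198) (nat_lit 164)) (XT.lf (nat_lit 0) (nat_lit 6167700426957) (nat_lit 76) (nat_lit 31116971578938) (nat_lit 76) (nat_lit 31116624345164) (nat_lit 1) (nat_lit 4) (nat_lit 2) (nat_lit 5) (nat_lit 2) (nat_lit 4) (nat_lit 299) (nat_lit 198) (nat_lit 163))) (XT.nd (nat_lit 624) (nat_lit 0) (nat_lit 0) (XT.lf (nat_lit 0) (nat_lit 7093736350565) (nat_lit 76) (nat_lit 35784018267165) (nat_lit 76) (nat_lit 35783670690730) (nat_lit 1) (nat_lit 4) (nat_lit 2) (nat_lit 5) (nat_lit 2) (nat_lit 4) (nat_lit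 300) (nat_lit 198) (nat_lit 162)) (XT.nd (nat_lit 78) (nat_lit 0) (nat_lit 0) (XT.lf (nat_lit 0) (nat_lit 21711928992796) (nat_lit 76) (nat_lit 109457312131556) (nat_lit 76) (nat_lit 109456963017492) (nat_lit 1) (nat_lit 4) (nat_lit 2) (nat_lit 5) (nat_lit 2) (nat_lit 4) (nat_lit 308) (nat_lit 198) (nat_lit 154)) (XT.lf (nat_lit 0) (nat_lit 24969590473128) (nat_lit 76) (nat_lit 125875414327587) (nat_lit 76) (nat_lit 125875065116119) (nat_lit 1) (nat_lit 4) (nat_lit 2) (nat_lit 5) (nat_lit 2) (nat_lit 4) (nat_lit 309) (nat_lit 198) (nat_lit 153))))))) (XT.nd (nat_lit 31044) (nat_lit 0) (nat_lit 0) (XT.nd (nat_lit 30654) (nat_lit 0) (nat_lit 0) (XT.nd (nat_lit 156) (nat_lit 0) (nat_lit 0) (XT.nd (nat_lit 78) (nat_lit 0) (nat_lit 0) (XT.lf (nat_lit 0) (nat_lit 28715900723361) (nat_lit 76) (nat_lit 144756232082250) (nat_lit 76) (nat_lit 144755882786081) (nat_lit 1) (nat_lit 4) (nat_lit 2)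 (nat_lit 5) (nat_lit 2) (nat_lit 4) (nat_lit 310) (nat_lit 198) (nat_lit 152)) (XT.lf (nat_lit 0) (nat_lit 33024157117956) (nat_lit 76) (nat_lit 166469172699438) (nat_lit 76) (nat_lit 166468823329617) (nat_lit 1) (nat_lit 4) (nat_lit 2) (nat_lit 5) (nat_lit 2) (nat_lit 4) (nat_lit 311) (nat_lit 198) (nat_lit 151))) (XT.nd (nat_lit 78) (nat_lit 0) (nat_lit 0) (XT.lf (nat_lit 0) (nat_lit 37978651629851) (nat_lit 76) (nat_lit 191439054582534) (nat_lit 76) (nat_lit 191438705148666) (nat_lit 1) (nat_lit 4) (nat_lit 2) (nat_lit 5) (nat_lit 2) (nat_lit 4) (nat_lit 312) (nat_lit 198) (nat_lit 150)) (XT.lf (nat_lit 0) (nat_lit 43676320021235) (nat_lit 76) (nat_lit 220154418898813) (nat_lit 76) (nat_lit 220154069409253) (nat_lit 1) (nat_lit 4) (nat_lit 2) (nat_lit 5) (nat_lit 2) (nat_lit 4) (nat_lit 313) (nat_lit 198) (nat_lit 149)))) (XT.nd (nat_lit 156) (nat_lit 0) (nat_lit 0) (XT.nd (nat_lit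 78) (nat_lit 0) (nat_lit 0) (XT.lf (nat_lit 0) (nat_lit 10866276606) (nat_lit 76) (nat_lit 91906014382) (nat_lit 76) (nat_lit 91906014382) (nat_lit 1) (nat_lit 4) (nat_lit 2) (nat_lit 5) (nat_lit 2) (nat_lit 4) (nat_lit 262) (nat_lit 199) (nat_lit 199)) (XT.lf (nat_lit 0) (nat_lit 27859030492) (nat_lit 76) (nat_lit 209870204401) (nat_lit 76) (nat_lit 209817725275) (nat_lit 1) (nat_lit 4) (nat_lit 2) (nat_lit 5) (nat_lit 2) (nat_lit 4) (nat_lit 263) (nat_lit 199) (nat_lit 198))) (XT.nd (nat_lit 78) (nat_lit 0) (nat_lit 0) (XT.lf (nat_lit 0) (nat_lit 34660875500) (nat_lit 76) (nat_lit 239960606265) (nat_lit 76) (nat_lit 239862493116) (nat_lit 1) (nat_lit 4) (nat_lit 2) (nat_lit 5) (nat_lit 2) (nat_lit 4) (nat_lit 264) (nat_lit 199) (nat_lit 197)) (XT.nd (nat_lit 78) (nat_lit 0) (nat_lit 0) (XT.lf (nat_lit 0) (nat_lit 42271167813) (nat_lit 76) (nat_lit 274671959610) (nat_lit 76) (nat_lit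 274534164703) (nat_lit 1) (nat_lit 4) (nat_lit 2) (nat_lit 5) (nat_lit 2) (nat_lit 4) (nat_lit 265) (nat_lit 199) (nat_lit 196)) (XT.lf (nat_lit 0) (nat_lit 50838804455) (nat_lit 76) (nat_lit 314683399611) (nat_lit 76) (nat_lit 314511098827) (nat_lit 1) (nat_lit 4) (nat_lit 2) (nat_lit 5) (nat_lit 2) (nat_lit 4) (nat_lit 266) (nat_lit 199) (nat_lit 195)))))) (XT.nd (nat_lit 312) (nat_lit 0) (nat_lit 0) (XT.nd (nat_lit 156) (nat_lit 0) (nat_lit 0) (XT.nd (nat_lit 78) (nat_lit 0) (nat_lit 0) (XT.lf (nat_lit 0) (nat_lit 60531413098) (nat_lit 76) (nat_lit 360777758789) (nat_lit 76) (nat_lit 360575452894) (nat_lit 1) (nat_lit 4) (nat_lit 2) (nat_lit 5) (nat_lit 2) (nat_lit 4) (nat_lit 267) (nat_lit 199) (nat_lit 194)) (XT.lf (nat_lit 0) (nat_lit 71538631738) (nat_lit 76) (nat_lit 413856883303) (nat_lit 76) (nat_lit 413628486007) (nat_lit 1) (nat_lit 4) (nat_lit 2) (nat_lit 5) (nat_lit 2)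 (nat_lit 4) (nat_lit 268) (nat_lit 199) (nat_lit 193))) (XT.nd (nat_lit 78) (nat_lit 0) (nat_lit 0) (XT.lf (nat_lit 0) (nat_lit 84075819002) (nat_lit 76) (nat_lit 474959277761) (nat_lit 76) (nat_lit 474708192292) (nat_lit 1) (nat_lit 4) (nat_lit 2) (nat_lit 5) (nat_lit 2) (nat_lit 4) (nat_lit 269) (nat_lit 199) (nat_lit 192)) (XT.lf (nat_lit 0) (nat_lit 98388267681) (nat_lit 76) (nat_lit 545280423796) (nat_lit 76) (nat_lit 545009609479) (nat_lit 1) (nat_lit 4) (nat_lit 2) (nat_lit 5) (nat_lit 2) (nat_lit 4) (nat_lit 270) (nat_lit 199) (nat_lit 191)))) (XT.nd (nat_lit 156) (nat_lit 0) (nat_lit 0) (XT.nd (nat_lit 78) (nat_lit 0) (nat_lit 0) (XT.lf (nat_lit 0) (nat_lit 114756003948) (nat_lit 76) (nat_lit 626196169916) (nat_lit 76) (nat_lit 625908200080) (nat_lit 1) (nat_lit 4) (nat_lit 2) (nat_lit 5) (nat_lit 2) (nat_lit 4) (nat_lit 271) (nat_lit 199) (nat_lit 190)) (XT.lf (nat_lit 0) (nat_lit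 133499266120) (nat_lit 76) (nat_lit 719289650285) (nat_lit 76) (nat_lit 718986762606) (nat_lit 1) (nat_lit 4) (nat_lit 2) (nat_lit 5) (nat_lit 2) (nat_lit 4) (nat_lit 272) (nat_lit 199) (nat_lit 189))) (XT.nd (nat_lit 78) (nat_lit 0) (nat_lit 0) (XT.lf (nat_lit 0) (nat_lit 154984770196) (nat_lit 76) (nat_lit 826382259084) (nat_lit 76) (nat_lit 826066399367) (nat_lit 1) (nat_lit 4) (nat_lit 2) (nat_lit 5) (nat_lit 2) (nat_lit 4) (nat_lit 273) (nat_lit 199) (nat_lit 188)) (XT.nd (nat_lit 78) (nat_lit 0) (nat_lit 0) (XT.lf (nat_lit 0) (nat_lit 179632884733) (nat_lit 76) (nat_lit 949569286484) (nat_lit 76) (nat_lit 949242146735) (nat_lit 1) (nat_lit 4) (nat_lit 2) (nat_lit 5) (nat_lit 2) (nat_lit 4) (nat_lit 274) (nat_lit 199) (nat_lit 187)) (XT.lf (nat_lit 0) (nat_lit 207925855452) (nat_lit 76) (nat_lit 1091260913457) (nat_lit 76) (nat_lit 1090923964984) (nat_lit 1) (nat_lit 4) (nat_lit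 2) (nat_lit 5) (nat_lit 2) (nat_lit 4) (nat_lit 275) (nat_lit 199) (nat_lit 186))))))))
noncomputable def xc13 : XT := (XT.nd (nat_lit 1404) (nat_lit 0) (nat_lit 0) (XT.nd (nat_lit 702) (nat_lit 0) (nat_lit 0) (XT.nd (nat_lit 312) (nat_lit 0) (nat_lit 0) (XT.nd (nat_lit 156) (nat_lit 0) (nat_lit 0) (XT.nd (nat_lit 78) (nat_lit 0) (nat_lit 0) (XT.lf (nat_lit 0) (nat_lit 240417240475) (nat_lit 76) (nat_lit 1254229367487) (nat_lit 76) (nat_lit 1253883889689) (nat_lit 1) (nat_lit 4) (nat_lit 2) (nat_lit 5) (nat_lit 2) (nat_lit 4) (nat_lit 276) (nat_lit 199) (nat_lit 185)) (XT.lf (nat_lit 0) (nat_lit 277742740813) (nat_lit 76) (nat_lit 1441663161805) (nat_lit 76) (nat_lit 1441310267203) (nat_lit 1) (nat_lit 4) (nat_lit 2) (nat_lit 5) (nat_lit 2) (nat_lit 4) (nat_lit 277) (nat_lit 199) (nat_lit 184))) (XT.nd (nat_lit 78) (nat_lit 0) (nat_lit 0) (XT.lf (nat_lit 0) (nat_lit 320632637995) (nat_lit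 76) (nat_lit 1657229479344) (nat_lit 76) (nat_lit 1656870135346) (nat_lit 1) (nat_lit 4) (nat_lit 2) (nat_lit 5) (nat_lit 2) (nat_lit 4) (nat_lit 278) (nat_lit 199) (nat_lit 183)) (XT.lf (nat_lit 0) (nat_lit 369926082183) (nat_lit 76) (nat_lit 1905145921968) (nat_lit 76) (nat_lit 1904780969801) (nat_lit 1) (nat_lit 4) (nat_lit 2) (nat_lit 5) (nat_lit 2) (nat_lit 4) (nat_lit 279) (nat_lit 199) (nat_lit 182)))) (XT.nd (nat_lit 156) (nat_lit 0) (nat_lit 0) (XT.nd (nat_lit 78) (nat_lit 0) (nat_lit 0) (XT.lf (nat_lit 0) (nat_lit 426587510329) (nat_lit 76) (nat_lit 2190263028771) (nat_lit 76) (nat_lit 2189893199935) (nat_lit 1) (nat_lit 4) (nat_lit 2) (nat_lit 5) (nat_lit 2) (nat_lit 4) (nat_lit 280) (nat_lit 199) (nat_lit 181)) (XT.lf (nat_lit 0) (nat_lit 491725515591) (nat_lit 76) (nat_lit 2518159177932) (nat_lit 76) (nat_lit 2517785108513) (nat_lit 1) (nat_lit 4) (nat_lit 2) (nat_lit 5)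 (nat_lit 2) (nat_lit 4) (nat_lit 281) (nat_lit 199) (nat_lit 180))) (XT.nd (nat_lit 78) (nat_lit 0) (nat_lit 0) (XT.lf (nat_lit 0) (nat_lit 566614537203) (nat_lit 76) (nat_lit 2895249728889) (nat_lit 76) (nat_lit 2894871972008) (nat_lit 1) (nat_lit 4) (nat_lit 2) (nat_lit 5) (nat_lit 2) (nat_lit 4) (nat_lit 282) (nat_lit 199) (nat_lit 179)) (XT.nd (nat_lit 78) (nat_lit 0) (nat_lit 0) (XT.lf (nat_lit 0) (nat_lit 652719795154) (nat_lit 76) (nat_lit 3328912540249) (nat_lit 76) (nat_lit 3328531576878) (nat_lit 1) (nat_lit 4) (nat_lit 2) (nat_lit 5) (nat_lit 2) (nat_lit 4) (nat_lit 283) (nat_lit 199) (nat_lit 178)) (XT.lf (nat_lit 0) (nat_lit 751725957533) (nat_lit 76) (nat_lit 3827632319189) (nat_lit 76) (nat_lit 3827248567567) (nat_lit 1) (nat_lit 4) (nat_lit 2) (nat_lit 5) (nat_lit 2) (nat_lit 4) (nat_lit 284) (nat_lit 199) (nat_lit 177)))))) (XT.nd (nat_lit 312) (nat_lit 0) (nat_lit 0)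 (XT.nd (nat_lit 156) (nat_lit 0) (nat_lit 0) (XT.nd (nat_lit 78) (nat_lit 0) (nat_lit 0) (XT.lf (nat_lit 0) (nat_lit 865570101430) (nat_lit 76) (nat_lit 4401166626604) (nat_lit 76) (nat_lit 4400780450415) (nat_lit 1) (nat_lit 4) (nat_lit 2) (nat_lit 5) (nat_lit 2) (nat_lit 4) (nat_lit 285) (nat_lit 199) (nat_lit 176)) (XT.lf (nat_lit 0) (nat_lit 996479612271) (nat_lit 76) (nat_lit 5060736785897) (nat_lit 76) (nat_lit 5060348501390) (nat_lit 1) (nat_lit 4) (nat_lit 2) (nat_lit 5) (nat_lit 2) (nat_lit 4) (nat_lit 286) (nat_lit 199) (nat_lit 175))) (XT.nd (nat_lit 78) (nat_lit 0) (nat_lit 0) (XT.lf (nat_lit 0) (nat_lit 1147015763092) (nat_lit 76) (nat_lit 5819247430622) (nat_lit 76) (nat_lit 5818857312794) (nat_lit 1) (nat_lit 4) (nat_lit 2) (nat_lit 5) (nat_lit 2) (nat_lit 4) (nat_lit 287) (nat_lit 199) (nat_lit 174)) (XT.lf (nat_lit 0) (nat_lit 1320123826410) (nat_lit 76) (nat_lit 6691538986435)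 (nat_lit 76) (nat_lit 6691147274415) (nat_lit 1) (nat_lit 4) (nat_lit 2) (nat_lit 5) (nat_lit 2) (nat_lit 4) (nat_lit 288) (nat_lit 199) (nat_lit 173)))) (XT.nd (nat_lit 156) (nat_lit 0) (nat_lit 0) (XT.nd (nat_lit 78) (nat_lit 0) (nat_lit 0) (XT.lf (nat_lit 0) (nat_lit 1519190699117) (nat_lit 76) (nat_lit 7694678027254) (nat_lit 76) (nat_lit 7694284928981) (nat_lit 1) (nat_lit 4) (nat_lit 2) (nat_lit 5) (nat_lit 2) (nat_lit 4) (nat_lit 289) (nat_lit 199) (nat_lit 172)) (XT.lf (nat_lit 0) (nat_lit 1748111167851) (nat_lit 76) (nat_lit 8848291186488) (nat_lit 76) (nat_lit 8847896882776) (nat_lit 1) (nat_lit 4) (nat_lit 2) (nat_lit 5) (nat_lit 2) (nat_lit 4) (nat_lit 290) (nat_lit 199) (nat_lit 171))) (XT.nd (nat_lit 78) (nat_lit 0) (nat_lit 0) (XT.lf (nat_lit 0) (nat_lit 2011364111349) (nat_lit 76) (nat_lit 10174949156381) (nat_lit 76) (nat_lit 10174553804462) (nat_lit 1) (nat_lit 4) (nat_lit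 2) (nat_lit 5) (nat_lit 2) (nat_lit 4) (nat_lit 291) (nat_lit 199) (nat_lit 170)) (XT.nd (nat_lit 78) (nat_lit 0) (nat_lit 0) (XT.lf (nat_lit 0) (nat_lit 2314100130679) (nat_lit 76) (nat_lit 11700608288519) (nat_lit 76) (nat_lit 11700212025116) (nat_lit 1) (nat_lit 4) (nat_lit 2) (nat_lit 5) (nat_lit 2) (nat_lit 4) (nat_lit 292) (nat_lit 199) (nat_lit 169)) (XT.lf (nat_lit 0) (nat_lit 2662242321872) (nat_lit 76) (nat_lit 13455118435487) (nat_lit 76) (nat_lit 13454721379489) (nat_lit 1) (nat_lit 4) (nat_lit 2) (nat_lit 5) (nat_lit 2) (nat_lit 4) (nat_lit 293) (nat_lit 199) (nat_lit 168))))))) (XT.nd (nat_lit 1248) (nat_lit 0) (nat_lit 0) (XT.nd (nat_lit 312) (nat_lit 0) (nat_lit 0) (XT.nd (nat_lit 156) (nat_lit 0) (nat_lit 0) (XT.nd (nat_lit 78) (nat_lit 0) (nat_lit 0) (XT.lf (nat_lit 0) (nat_lit 3062602162582) (nat_lit 76) (nat_lit 15472806969725) (nat_lit 76) (nat_lit 15472409224514)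 (nat_lit 1) (nat_lit 4) (nat_lit 2) (nat_lit 5) (nat_lit 2) (nat_lit 4) (nat_lit 294) (nat_lit 199) (nat_lit 167)) (XT.lf (nat_lit 0) (nat_lit 3523012780127) (nat_lit 76) (nat_lit 17793150406034) (nat_lit 76) (nat_lit 17792752061508) (nat_lit 1) (nat_lit 4) (nat_lit 2) (nat_lit 5) (nat_lit 2) (nat_lit 4) (nat_lit 295) (nat_lit 199) (nat_lit 166))) (XT.nd (nat_lit 78) (nat_lit 0) (nat_lit 0) (XT.lf (nat_lit 0) (nat_lit 4052482208328) (nat_lit 76) (nat_lit 20461546768169) (nat_lit 76) (nat_lit 20461147902498) (nat_lit 1) (nat_lit 4) (nat_lit 2) (nat_lit 5) (nat_lit 2) (nat_lit 4) (nat_lit 296) (nat_lit 199) (nat_lit 165)) (XT.lf (nat_lit 0) (nat_lit 4661369631650) (nat_lit 76) (nat_lit 23530203811039) (nat_lit 76) (nat_lit 23529804492199) (nat_lit 1) (nat_lit 4) (nat_lit 2) (nat_lit 5) (nat_lit 2) (nat_lit 4) (nat_lit 297) (nat_lit 199) (nat_lit 164)))) (XT.nd (nat_lit 702) (nat_lit 0)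 (nat_lit 0) (XT.nd (nat_lit 78) (nat_lit 0) (nat_lit 0) (XT.lf (nat_lit 0) (nat_lit 5361588064897) (nat_lit 76) (nat_lit 27059160476788) (nat_lit 76) (nat_lit 27058760763889) (nat_lit 1) (nat_lit 4) (nat_lit 2) (nat_lit 5) (nat_lit 2) (nat_lit 4) (nat_lit 298) (nat_lit 199) (nat_lit 163)) (XT.lf (nat_lit 0) (nat_lit 6166837433937) (nat_lit 76) (nat_lit 31117461569747) (nat_lit 76) (nat_lit 31117061514187) (nat_lit 1) (nat_lit 4) (nat_lit 2) (nat_lit 5) (nat_lit 2) (nat_lit 4) (nat_lit 299) (nat_lit 199) (nat_lit 162))) (XT.nd (nat_lit 78) (nat_lit 0) (nat_lit 0) (XT.lf (nat_lit 0) (nat_lit 18878312616537) (nat_lit 76) (nat_lit 95181193681836) (nat_lit 76) (nat_lit 95180792088646) (nat_lit 1) (nat_lit 4) (nat_lit 2) (nat_lit 5) (nat_lit 2) (nat_lit 4) (nat_lit 307) (nat_lit 199) (nat_lit 154)) (XT.nd (nat_lit 78) (nat_lit 0) (nat_lit 0) (XT.lf (nat_lit 0) (nat_lit 21711061940171) (nat_lit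 76) (nat_lit 109457804180464) (nat_lit 76) (nat_lit 109457402489869) (nat_lit 1) (nat_lit 4) (nat_lit 2) (nat_lit 5) (nat_lit 2) (nat_lit 4) (nat_lit 308) (nat_lit 199) (nat_lit 153)) (XT.lf (nat_lit 0) (nat_lit 24968723210201) (nat_lit 76) (nat_lit 125875906483112) (nat_lit 76) (nat_lit 125875504707817) (nat_lit 1) (nat_lit 4) (nat_lit 2) (nat_lit 5) (nat_lit 2) (nat_lit 4) (nat_lit 309) (nat_lit 199) (nat_lit 152)))))) (XT.nd (nat_lit 30576) (nat_lit 0) (nat_lit 0) (XT.nd (nat_lit 156) (nat_lit 0) (nat_lit 0) (XT.nd (nat_lit 78) (nat_lit 0) (nat_lit 0) (XT.lf (nat_lit 0) (nat_lit 28715033277563) (nat_lit 76) (nat_lit 144756724330485) (nat_lit 76) (nat_lit 144756322481537) (nat_lit 1) (nat_lit 4) (nat_lit 2) (nat_lit 5) (nat_lit 2) (nat_lit 4) (nat_lit 310) (nat_lit 199) (nat_lit 151)) (XT.lf (nat_lit 0) (nat_lit 33023289513140) (nat_lit 76) (nat_lit 166469665028291) (nat_lit 76) (nat_lit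 166469263115297) (nat_lit 1) (nat_lit 4) (nat_lit 2) (nat_lit 5) (nat_lit 2) (nat_lit 4) (nat_lit 311) (nat_lit 199) (nat_lit 150))) (XT.nd (nat_lit 30342) (nat_lit 0) (nat_lit 0) (XT.lf (nat_lit 0) (nat_lit 37977783886758) (nat_lit 76) (nat_lit 191439546981488) (nat_lit 76) (nat_lit 191439145012803) (nat_lit 1) (nat_lit 4) (nat_lit 2) (nat_lit 5) (nat_lit 2) (nat_lit 4) (nat_lit 312) (nat_lit 199) (nat_lit 149)) (XT.lf (nat_lit 0) (nat_lit 5593475809) (nat_lit 76) (nat_lit 70903160635) (nat_lit 76) (nat_lit 70903160635) (nat_lit 1) (nat_lit 4) (nat_lit 2) (nat_lit 5) (nat_lit 2) (nat_lit 4) (nat_lit 260) (nat_lit 200) (nat_lit 200)))) (XT.nd (nat_lit 156) (nat_lit 0) (nat_lit 0) (XT.nd (nat_lit 78) (nat_lit 0) (nat_lit 0) (XT.lf (nat_lit 0) (nat_lit 16161577802) (nat_lit 76) (nat_lit 161336596480) (nat_lit 76) (nat_lit 161276245485) (nat_lit 1) (nat_lit 4) (nat_lit 2) (nat_lit 5) (nat_lit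 2) (nat_lit 4) (nat_lit 261) (nat_lit 200) (nat_lit 199)) (XT.lf (nat_lit 0) (nat_lit 21602253472) (nat_lit 76) (nat_lit 183938437836) (nat_lit 76) (nat_lit 183825607716) (nat_lit 1) (nat_lit 4) (nat_lit 2) (nat_lit 5) (nat_lit 2) (nat_lit 4) (nat_lit 262) (nat_lit 200) (nat_lit 198))) (XT.nd (nat_lit 78) (nat_lit 0) (nat_lit 0) (XT.lf (nat_lit 0) (nat_lit 27615426629) (nat_lit 76) (nat_lit 210054055278) (nat_lit 76) (nat_lit 209895591135) (nat_lit 1) (nat_lit 4) (nat_lit 2) (nat_lit 5) (nat_lit 2) (nat_lit 4) (nat_lit 263) (nat_lit 200) (nat_lit 197)) (XT.nd (nat_lit 78) (nat_lit 0) (nat_lit 0) (XT.lf (nat_lit 0) (nat_lit 34318746313) (nat_lit 76) (nat_lit 240194406538) (nat_lit 76) (nat_lit 239996260636) (nat_lit 1) (nat_lit 4) (nat_lit 2) (nat_lit 5) (nat_lit 2) (nat_lit 4) (nat_lit 264) (nat_lit 200) (nat_lit 196)) (XT.lf (nat_lit 0) (nat_lit 41843364432) (nat_lit 76) (nat_lit 274949194141)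 (nat_lit 76) (nat_lit 274716542362) (nat_lit 1) (nat_lit 4) (nat_lit 2) (nat_lit 5) (nat_lit 2) (nat_lit 4) (nat_lit 265) (nat_lit 200) (nat_lit 195))))))))
noncomputable def xc14 : XT := (XT.nd (nat_lit 1404) (nat_lit 0) (nat_lit 0) (XT.nd (nat_lit 702) (nat_lit 0) (nat_lit 0) (XT.nd (nat_lit 312) (nat_lit 0) (nat_lit 0) (XT.nd (nat_lit 156) (nat_lit 0) (nat_lit 0) (XT.nd (nat_lit 78) (nat_lit 0) (nat_lit 0) (XT.lf (nat_lit 0) (nat_lit 50336501773) (nat_lit 76) (nat_lit 314998403061) (nat_lit 76) (nat_lit 314735746172) (nat_lit 1) (nat_lit 4) (nat_lit 2) (nat_lit 5) (nat_lit 2) (nat_lit 4) (nat_lit 266) (nat_lit 200) (nat_lit 194)) (XT.lf (nat_lit 0) (nat_lit 59964328417) (nat_lit 76) (nat_lit 361125604778) (nat_lit 76) (nat_lit 360836856488) (nat_lit 1) (nat_lit 4) (nat_lit 2) (nat_lit 5) (nat_lit 2) (nat_lit 4) (nat_lit 267) (nat_lit 200) (nat_lit 193))) (XT.nd (nat_lit 78) (nat_lit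 0) (nat_lit 0) (XT.lf (nat_lit 0) (nat_lit 70915214884) (nat_lit 76) (nat_lit 414233288021) (nat_lit 76) (nat_lit 413921851557) (nat_lit 1) (nat_lit 4) (nat_lit 2) (nat_lit 5) (nat_lit 2) (nat_lit 4) (nat_lit 268) (nat_lit 200) (nat_lit 192)) (XT.lf (nat_lit 0) (nat_lit 83403417648) (nat_lit 76) (nat_lit 475360516158) (nat_lit 76) (nat_lit 475029350846) (nat_lit 1) (nat_lit 4) (nat_lit 2) (nat_lit 5) (nat_lit 2) (nat_lit 4) (nat_lit 269) (nat_lit 200) (nat_lit 191)))) (XT.nd (nat_lit 156) (nat_lit 0) (nat_lit 0) (XT.nd (nat_lit 78) (nat_lit 0) (nat_lit 0) (XT.lf (nat_lit 0) (nat_lit 97673271111) (nat_lit 76) (nat_lit 545703256695) (nat_lit 76) (nat_lit 545354935864) (nat_lit 1) (nat_lit 4) (nat_lit 2) (nat_lit 5) (nat_lit 2) (nat_lit 4) (nat_lit 270) (nat_lit 200) (nat_lit 190)) (XT.lf (nat_lit 0) (nat_lit 114003968059) (nat_lit 76) (nat_lit 626637780644) (nat_lit 76) (nat_lit 626274541970)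 (nat_lit 1) (nat_lit 4) (nat_lit 2) (nat_lit 5) (nat_lit 2) (nat_lit 4) (nat_lit 271) (nat_lit 200) (nat_lit 189))) (XT.nd (nat_lit 78) (nat_lit 0) (nat_lit 0) (XT.lf (nat_lit 0) (nat_lit 132715022128) (nat_lit 76) (nat_lit 719747589559) (nat_lit 76) (nat_lit 719371378847) (nat_lit 1) (nat_lit 4) (nat_lit 2) (nat_lit 5) (nat_lit 2) (nat_lit 4) (nat_lit 272) (nat_lit 200) (nat_lit 188)) (XT.nd (nat_lit 78) (nat_lit 0) (nat_lit 0) (XT.lf (nat_lit 0) (nat_lit 154172519158) (nat_lit 76) (nat_lit 826854397093) (nat_lit 76) (nat_lit 826466906349) (nat_lit 1) (nat_lit 4) (nat_lit 2) (nat_lit 5) (nat_lit 2) (nat_lit 4) (nat_lit 273) (nat_lit 200) (nat_lit 187)) (XT.lf (nat_lit 0) (nat_lit 178796279742) (nat_lit 76) (nat_lit 950053771220) (nat_lit 76) (nat_lit 949656471753) (nat_lit 1) (nat_lit 4) (nat_lit 2) (nat_lit 5) (nat_lit 2) (nat_lit 4) (nat_lit 274) (nat_lit 200) (nat_lit 186)))))) (XT.nd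 (nat_lit 312) (nat_lit 0) (nat_lit 0) (XT.nd (nat_lit 156) (nat_lit 0) (nat_lit 0) (XT.nd (nat_lit 78) (nat_lit 0) (nat_lit 0) (XT.lf (nat_lit 0) (nat_lit 207068073110) (nat_lit 76) (nat_lit 1091756134477) (nat_lit 76) (nat_lit 1091350305685) (nat_lit 1) (nat_lit 4) (nat_lit 2) (nat_lit 5) (nat_lit 2) (nat_lit 4) (nat_lit 275) (nat_lit 200) (nat_lit 185)) (XT.lf (nat_lit 0) (nat_lit 239541043046) (nat_lit 76) (nat_lit 1254733924407) (nat_lit 76) (nat_lit 1254320678810) (nat_lit 1) (nat_lit 4) (nat_lit 2) (nat_lit 5) (nat_lit 2) (nat_lit 4) (nat_lit 276) (nat_lit 200) (nat_lit 184))) (XT.nd (nat_lit 78) (nat_lit 0) (nat_lit 0) (XT.lf (nat_lit 0) (nat_lit 276850530265) (nat_lit 76) (nat_lit 1442175836898) (nat_lit 76) (nat_lit 1441756141906) (nat_lit 1) (nat_lit 4) (nat_lit 2) (nat_lit 5) (nat_lit 2) (nat_lit 4) (nat_lit 277) (nat_lit 200) (nat_lit 183)) (XT.lf (nat_lit 0) (nat_lit 319726502995)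 (nat_lit 76) (nat_lit 1657749213718) (nat_lit 76) (nat_lit 1657323910556) (nat_lit 1) (nat_lit 4) (nat_lit 2) (nat_lit 5) (nat_lit 2) (nat_lit 4) (nat_lit 278) (nat_lit 200) (nat_lit 182)))) (XT.nd (nat_lit 156) (nat_lit 0) (nat_lit 0) (XT.nd (nat_lit 78) (nat_lit 0) (nat_lit 0) (XT.lf (nat_lit 0) (nat_lit 369007838964) (nat_lit 76) (nat_lit 1905671794847) (nat_lit 76) (nat_lit 1905241615016) (nat_lit 1) (nat_lit 4) (nat_lit 2) (nat_lit 5) (nat_lit 2) (nat_lit 4) (nat_lit 279) (nat_lit 200) (nat_lit 181)) (XT.lf (nat_lit 0) (nat_lit 425658738223) (nat_lit 76) (nat_lit 2190794239482) (nat_lit 76) (nat_lit 2190359819068) (nat_lit 1) (nat_lit 4) (nat_lit 2) (nat_lit 5) (nat_lit 2) (nat_lit 4) (nat_lit 280) (nat_lit 200) (nat_lit 180))) (XT.nd (nat_lit 78) (nat_lit 0) (nat_lit 0) (XT.lf (nat_lit 0) (nat_lit 490787587932) (nat_lit 76) (nat_lit 2518695030234) (nat_lit 76) (nat_lit 2518256922358)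 (nat_lit 1) (nat_lit 4) (nat_lit 2) (nat_lit 5) (nat_lit 2) (nat_lit 4) (nat_lit 281) (nat_lit 200) (nat_lit 179)) (XT.nd (nat_lit 78) (nat_lit 0) (nat_lit 0) (XT.lf (nat_lit 0) (nat_lit 565668648194) (nat_lit 76) (nat_lit 2895789617358) (nat_lit 76) (nat_lit 2895348302993) (nat_lit 1) (nat_lit 4) (nat_lit 2) (nat_lit 5) (nat_lit 2) (nat_lit 4) (nat_lit 282) (nat_lit 200) (nat_lit 178)) (XT.lf (nat_lit 0) (nat_lit 651766983231) (nat_lit 76) (nat_lit 3329455938428) (nat_lit 76) (nat_lit 3329011835811) (nat_lit 1) (nat_lit 4) (nat_lit 2) (nat_lit 5) (nat_lit 2) (nat_lit 4) (nat_lit 283) (nat_lit 200) (nat_lit 177))))))) (XT.nd (nat_lit 702) (nat_lit 0) (nat_lit 0) (XT.nd (nat_lit 312) (nat_lit 0) (nat_lit 0) (XT.nd (nat_lit 156) (nat_lit 0) (nat_lit 0) (XT.nd (nat_lit 78) (nat_lit 0) (nat_lit 0) (XT.lf (nat_lit 0) (nat_lit 750767125685) (nat_lit 76) (nat_lit 3828178769291) (nat_lit 76)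 (nat_lit 3827732242107) (nat_lit 1) (nat_lit 4) (nat_lit 2) (nat_lit 5) (nat_lit 2) (nat_lit 4) (nat_lit 284) (nat_lit 200) (nat_lit 176)) (XT.lf (nat_lit 0) (nat_lit 864606034866) (nat_lit 76) (nat_lit 4401715730550) (nat_lit 76) (nat_lit 4401267095048) (nat_lit 1) (nat_lit 4) (nat_lit 2) (nat_lit 5) (nat_lit 2) (nat_lit 4) (nat_lit 285) (nat_lit 200) (nat_lit 175))) (XT.nd (nat_lit 78) (nat_lit 0) (nat_lit 0) (XT.lf (nat_lit 0) (nat_lit 995510993778) (nat_lit 76) (nat_lit 5061288197535) (nat_lit 76) (nat_lit 5060837728713) (nat_lit 1) (nat_lit 4) (nat_lit 2) (nat_lit 5) (nat_lit 2) (nat_lit 4) (nat_lit 286) (nat_lit 200) (nat_lit 174)) (XT.lf (nat_lit 0) (nat_lit 1146043186401) (nat_lit 76) (nat_lit 5819800848948) (nat_lit 76) (nat_lit 5819348785934) (nat_lit 1) (nat_lit 4) (nat_lit 2) (nat_lit 5) (nat_lit 2) (nat_lit 4) (nat_lit 287) (nat_lit 200) (nat_lit 173)))) (XT.nd (nat_lit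 156) (nat_lit 0) (nat_lit 0) (XT.nd (nat_lit 78) (nat_lit 0) (nat_lit 0) (XT.lf (nat_lit 0) (nat_lit 1319147807808) (nat_lit 76) (nat_lit 6692094149707) (nat_lit 76) (nat_lit 6691640700439) (nat_lit 1) (nat_lit 4) (nat_lit 2) (nat_lit 5) (nat_lit 2) (nat_lit 4) (nat_lit 288) (nat_lit 200) (nat_lit 172)) (XT.lf (nat_lit 0) (nat_lit 1518211687547) (nat_lit 76) (nat_lit 7695234707872) (nat_lit 76) (nat_lit 7694780053165) (nat_lit 1) (nat_lit 4) (nat_lit 2) (nat_lit 5) (nat_lit 2) (nat_lit 4) (nat_lit 289) (nat_lit 200) (nat_lit 171))) (XT.nd (nat_lit 78) (nat_lit 0) (nat_lit 0) (XT.lf (nat_lit 0) (nat_lit 1747129553702) (nat_lit 76) (nat_lit 8848849186535) (nat_lit 76) (nat_lit 8848393483622) (nat_lit 1) (nat_lit 4) (nat_lit 2) (nat_lit 5) (nat_lit 2) (nat_lit 4) (nat_lit 290) (nat_lit 200) (nat_lit 170)) (XT.nd (nat_lit 78) (nat_lit 0) (nat_lit 0) (XT.lf (nat_lit 0) (nat_lit 2010380234087)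 (nat_lit 76) (nat_lit 10175508303759) (nat_lit 76) (nat_lit 10175051689361) (nat_lit 1) (nat_lit 4) (nat_lit 2) (nat_lit 5) (nat_lit 2) (nat_lit 4) (nat_lit 291) (nat_lit 200) (nat_lit 169)) (XT.lf (nat_lit 0) (nat_lit 2313114285494) (nat_lit 76) (nat_lit 11701168433575) (nat_lit 76) (nat_lit 11700711026583) (nat_lit 1) (nat_lit 4) (nat_lit 2) (nat_lit 5) (nat_lit 2) (nat_lit 4) (nat_lit 292) (nat_lit 200) (nat_lit 168)))))) (XT.nd (nat_lit 312) (nat_lit 0) (nat_lit 0) (XT.nd (nat_lit 156) (nat_lit 0) (nat_lit 0) (XT.nd (nat_lit 78) (nat_lit 0) (nat_lit 0) (XT.lf (nat_lit 0) (nat_lit 2661254765449) (nat_lit 76) (nat_lit 13455679448090) (nat_lit 76) (nat_lit 13455221351884) (nat_lit 1) (nat_lit 4) (nat_lit 2) (nat_lit 5) (nat_lit 2) (nat_lit 4) (nat_lit 293) (nat_lit 200) (nat_lit 167)) (XT.lf (nat_lit 0) (nat_lit 3061613118125) (nat_lit 76) (nat_lit 15473368736717) (nat_lit 76) (nat_lit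 15472910041195) (nat_lit 1) (nat_lit 4) (nat_lit 2) (nat_lit 5) (nat_lit 2) (nat_lit 4) (nat_lit 294) (nat_lit 200) (nat_lit 166))) (XT.nd (nat_lit 78) (nat_lit 0) (nat_lit 0) (XT.lf (nat_lit 0) (nat_lit 3522022441728) (nat_lit 76) (nat_lit 17793712829016) (nat_lit 76) (nat_lit 17793253612350) (nat_lit 1) (nat_lit 4) (nat_lit 2) (nat_lit 5) (nat_lit 2) (nat_lit 4) (nat_lit 295) (nat_lit 200) (nat_lit 165)) (XT.lf (nat_lit 0) (nat_lit 4051490744761) (nat_lit 76) (nat_lit 20462109761576) (nat_lit 76) (nat_lit 20461650091742) (nat_lit 1) (nat_lit 4) (nat_lit 2) (nat_lit 5) (nat_lit 2) (nat_lit 4) (nat_lit 296) (nat_lit 200) (nat_lit 164)))) (XT.nd (nat_lit 156) (nat_lit 0) (nat_lit 0) (XT.nd (nat_lit 78) (nat_lit 0) (nat_lit 0) (XT.lf (nat_lit 0) (nat_lit 4660377189677) (nat_lit 76) (nat_lit 23530767300469) (nat_lit 76) (nat_lit 23530307236575) (nat_lit 1) (nat_lit 4) (nat_lit 2) (nat_lit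 5) (nat_lit 2) (nat_lit 4) (nat_lit 297) (nat_lit 200) (nat_lit 163)) (XT.lf (nat_lit 0) (nat_lit 5360594772137) (nat_lit 76) (nat_lit 27059724397543) (nat_lit 76) (nat_lit 27059263990988) (nat_lit 1) (nat_lit 4) (nat_lit 2) (nat_lit 5) (nat_lit 2) (nat_lit 4) (nat_lit 298) (nat_lit 200) (nat_lit 162))) (XT.nd (nat_lit 78) (nat_lit 0) (nat_lit 0) (XT.lf (nat_lit 0) (nat_lit 6165843401362) (nat_lit 76) (nat_lit 31118025865566) (nat_lit 76) (nat_lit 31117565161045) (nat_lit 1) (nat_lit 4) (nat_lit 2) (nat_lit 5) (nat_lit 2) (nat_lit 4) (nat_lit 299) (nat_lit 200) (nat_lit 161)) (XT.nd (nat_lit 546) (nat_lit 0) (nat_lit 0) (XT.lf (nat_lit 0) (nat_lit 7091877941837) (nat_lit 76) (nat_lit 35785073255000) (nat_lit 76) (nat_lit 35784612291378) (nat_lit 1) (nat_lit 4) (nat_lit 2) (nat_lit 5) (nat_lit 2) (nat_lit 4) (nat_lit 300) (nat_lit 200) (nat_lit 160)) (XT.lf (nat_lit 0) (nat_lit 18877315264171)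 (nat_lit 76) (nat_lit 95181759660689) (nat_lit 76) (nat_lit 95181297619099) (nat_lit 1) (nat_lit 4) (nat_lit 2) (nat_lit 5) (nat_lit 2) (nat_lit 4) (nat_lit 307) (nat_lit 200) (nat_lit 153))))))))
noncomputable def xc15 : XT := (XT.nd (nat_lit 31668) (nat_lit 0) (nat_lit 0) (XT.nd (nat_lit 30966) (nat_lit 0) (nat_lit 0) (XT.nd (nat_lit 30576) (nat_lit 0) (nat_lit 0) (XT.nd (nat_lit 156) (nat_lit 0) (nat_lit 0) (XT.nd (nat_lit 78) (nat_lit 0) (nat_lit 0) (XT.lf (nat_lit 0) (nat_lit 21710064377503) (nat_lit 76) (nat_lit 109458370265934) (nat_lit 76) (nat_lit 109457908139644) (nat_lit 1) (nat_lit 4) (nat_lit 2) (nat_lit 5) (nat_lit 2) (nat_lit 4) (nat_lit 308) (nat_lit 200) (nat_lit 152)) (XT.lf (nat_lit 0) (nat_lit 24967725464662) (nat_lit 76) (nat_lit 125876472661293) (nat_lit 76) (nat_lit 125876010461350) (nat_lit 1) (nat_lit 4) (nat_lit 2) (nat_lit 5) (nat_lit 2) (nat_lit 4) (nat_lit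 309) (nat_lit 200) (nat_lit 151))) (XT.nd (nat_lit 30342) (nat_lit 0) (nat_lit 0) (XT.lf (nat_lit 0) (nat_lit 28714035373006) (nat_lit 76) (nat_lit 144757290589283) (nat_lit 76) (nat_lit 144756828325294) (nat_lit 1) (nat_lit 4) (nat_lit 2) (nat_lit 5) (nat_lit 2) (nat_lit 4) (nat_lit 310) (nat_lit 200) (nat_lit 150)) (XT.lf (nat_lit 0) (nat_lit 1213032311) (nat_lit 76) (nat_lit 55233337259) (nat_lit 76) (nat_lit 55233337259) (nat_lit 1) (nat_lit 4) (nat_lit 2) (nat_lit 5) (nat_lit 2) (nat_lit 4) (nat_lit 258) (nat_lit 201) (nat_lit 201)))) (XT.nd (nat_lit 156) (nat_lit 0) (nat_lit 0) (XT.nd (nat_lit 78) (nat_lit 0) (nat_lit 0) (XT.lf (nat_lit 0) (nat_lit 6581045275) (nat_lit 76) (nat_lit 125034901770) (nat_lit 76) (nat_lit 124965498126) (nat_lit 1) (nat_lit 4) (nat_lit 2) (nat_lit 5) (nat_lit 2) (nat_lit 4) (nat_lit 259) (nat_lit 201) (nat_lit 200)) (XT.lf (nat_lit 0) (nat_lit 11037106916)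 (nat_lit 76) (nat_lit 141951691702) (nat_lit 76) (nat_lit 141821937063) (nat_lit 1) (nat_lit 4) (nat_lit 2) (nat_lit 5) (nat_lit 2) (nat_lit 4) (nat_lit 260) (nat_lit 201) (nat_lit 199))) (XT.nd (nat_lit 78) (nat_lit 0) (nat_lit 0) (XT.lf (nat_lit 0) (nat_lit 15881433360) (nat_lit 76) (nat_lit 161548024989) (nat_lit 76) (nat_lit 161365791224) (nat_lit 1) (nat_lit 4) (nat_lit 2) (nat_lit 5) (nat_lit 2) (nat_lit 4) (nat_lit 261) (nat_lit 201) (nat_lit 198)) (XT.nd (nat_lit 78) (nat_lit 0) (nat_lit 0) (XT.lf (nat_lit 0) (nat_lit 21208804907) (nat_lit 76) (nat_lit 184207308150) (nat_lit 76) (nat_lit 183979440363) (nat_lit 1) (nat_lit 4) (nat_lit 2) (nat_lit 5) (nat_lit 2) (nat_lit 4) (nat_lit 262) (nat_lit 201) (nat_lit 197)) (XT.lf (nat_lit 0) (nat_lit 27123452740) (nat_lit 76) (nat_lit 210372874988) (nat_lit 76) (nat_lit 210105325443) (nat_lit 1) (nat_lit 4) (nat_lit 2) (nat_lit 5) (nat_lit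 2) (nat_lit 4) (nat_lit 263) (nat_lit 201) (nat_lit 196)))))) (XT.nd (nat_lit 312) (nat_lit 0) (nat_lit 0) (XT.nd (nat_lit 156) (nat_lit 0) (nat_lit 0) (XT.nd (nat_lit 78) (nat_lit 0) (nat_lit 0) (XT.lf (nat_lit 0) (nat_lit 33741098230) (nat_lit 76) (nat_lit 240556660506) (nat_lit 76) (nat_lit 240254605083) (nat_lit 1) (nat_lit 4) (nat_lit 2) (nat_lit 5) (nat_lit 2) (nat_lit 4) (nat_lit 264) (nat_lit 201) (nat_lit 195)) (XT.lf (nat_lit 0) (nat_lit 41191217048) (nat_lit 76) (nat_lit 275349217029) (nat_lit 76) (nat_lit 275017156495) (nat_lit 1) (nat_lit 4) (nat_lit 2) (nat_lit 5) (nat_lit 2) (nat_lit 4) (nat_lit 265) (nat_lit 201) (nat_lit 194))) (XT.nd (nat_lit 78) (nat_lit 0) (nat_lit 0) (XT.lf (nat_lit 0) (nat_lit 49619572390) (nat_lit 76) (nat_lit 315431268488) (nat_lit 76) (nat_lit 315073116554) (nat_lit 1) (nat_lit 4) (nat_lit 2) (nat_lit 5) (nat_lit 2) (nat_lit 4) (nat_lit 266)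 (nat_lit 201) (nat_lit 193)) (XT.lf (nat_lit 0) (nat_lit 59191066860) (nat_lit 76) (nat_lit 361587028934) (nat_lit 76) (nat_lit 361206188826) (nat_lit 1) (nat_lit 4) (nat_lit 2) (nat_lit 5) (nat_lit 2) (nat_lit 4) (nat_lit 267) (nat_lit 201) (nat_lit 192)))) (XT.nd (nat_lit 156) (nat_lit 0) (nat_lit 0) (XT.nd (nat_lit 78) (nat_lit 0) (nat_lit 0) (XT.lf (nat_lit 0) (nat_lit 70092968828) (nat_lit 76) (nat_lit 414719545855) (nat_lit 76) (nat_lit 414318976899) (nat_lit 1) (nat_lit 4) (nat_lit 2) (nat_lit 5) (nat_lit 2) (nat_lit 4) (nat_lit 268) (nat_lit 201) (nat_lit 191)) (XT.lf (nat_lit 0) (nat_lit 82538576376) (nat_lit 76) (nat_lit 475868368494) (nat_lit 76) (nat_lit 475450644019) (nat_lit 1) (nat_lit 4) (nat_lit 2) (nat_lit 5) (nat_lit 2) (nat_lit 4) (nat_lit 269) (nat_lit 201) (nat_lit 190))) (XT.nd (nat_lit 78) (nat_lit 0) (nat_lit 0) (XT.lf (nat_lit 0) (nat_lit 96771390521) (nat_lit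 76) (nat_lit 546229886860) (nat_lit 76) (nat_lit 545797244542) (nat_lit 1) (nat_lit 4) (nat_lit 2) (nat_lit 5) (nat_lit 2) (nat_lit 4) (nat_lit 270) (nat_lit 201) (nat_lit 189)) (XT.nd (nat_lit 78) (nat_lit 0) (nat_lit 0) (XT.lf (nat_lit 0) (nat_lit 113069879366) (nat_lit 76) (nat_lit 627180739354) (nat_lit 76) (nat_lit 626735124999) (nat_lit 1) (nat_lit 4) (nat_lit 2) (nat_lit 5) (nat_lit 2) (nat_lit 4) (nat_lit 271) (nat_lit 201) (nat_lit 188)) (XT.lf (nat_lit 0) (nat_lit 131752926388) (nat_lit 76) (nat_lit 720304747005) (nat_lit 76) (nat_lit 719847852617) (nat_lit 1) (nat_lit 4) (nat_lit 2) (nat_lit 5) (nat_lit 2) (nat_lit 4) (nat_lit 272) (nat_lit 201) (nat_lit 187))))))) (XT.nd (nat_lit 702) (nat_lit 0) (nat_lit 0) (XT.nd (nat_lit 312) (nat_lit 0) (nat_lit 0) (XT.nd (nat_lit 156) (nat_lit 0) (nat_lit 0) (XT.nd (nat_lit 78) (nat_lit 0) (nat_lit 0) (XT.lf (nat_lit 0) (nat_lit 153186069464)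 (nat_lit 76) (nat_lit 827423901266) (nat_lit 76) (nat_lit 826957198155) (nat_lit 1) (nat_lit 4) (nat_lit 2) (nat_lit 5) (nat_lit 2) (nat_lit 4) (nat_lit 273) (nat_lit 201) (nat_lit 186)) (XT.lf (nat_lit 0) (nat_lit 177788652698) (nat_lit 76) (nat_lit 950634011678) (nat_lit 76) (nat_lit 950158779241) (nat_lit 1) (nat_lit 4) (nat_lit 2) (nat_lit 5) (nat_lit 2) (nat_lit 4) (nat_lit 274) (nat_lit 201) (nat_lit 185))) (XT.nd (nat_lit 78) (nat_lit 0) (nat_lit 0) (XT.lf (nat_lit 0) (nat_lit 206042030979) (nat_lit 76) (nat_lit 1092345710834) (nat_lit 76) (nat_lit 1091863061593) (nat_lit 1) (nat_lit 4) (nat_lit 2) (nat_lit 5) (nat_lit 2) (nat_lit 4) (nat_lit 275) (nat_lit 201) (nat_lit 184)) (XT.lf (nat_lit 0) (nat_lit 238498987795) (nat_lit 76) (nat_lit 1255331618937) (nat_lit 76) (nat_lit 1254842520301) (nat_lit 1) (nat_lit 4) (nat_lit 2) (nat_lit 5) (nat_lit 2) (nat_lit 4) (nat_lit 276) (nat_lit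 201) (nat_lit 183)))) (XT.nd (nat_lit 156) (nat_lit 0) (nat_lit 0) (XT.nd (nat_lit 78) (nat_lit 0) (nat_lit 0) (XT.lf (nat_lit 0) (nat_lit 275794550562) (nat_lit 76) (nat_lit 1442780590710) (nat_lit 76) (nat_lit 1442285883904) (nat_lit 1) (nat_lit 4) (nat_lit 2) (nat_lit 5) (nat_lit 2) (nat_lit 4) (nat_lit 277) (nat_lit 201) (nat_lit 182)) (XT.lf (nat_lit 0) (nat_lit 318658415073) (nat_lit 76) (nat_lit 1658360106035) (nat_lit 76) (nat_lit 1657860522559) (nat_lit 1) (nat_lit 4) (nat_lit 2) (nat_lit 5) (nat_lit 2) (nat_lit 4) (nat_lit 278) (nat_lit 201) (nat_lit 181))) (XT.nd (nat_lit 78) (nat_lit 0) (nat_lit 0) (XT.lf (nat_lit 0) (nat_lit 367929222156) (nat_lit 76) (nat_lit 1906288024994) (nat_lit 76) (nat_lit 1905784200937) (nat_lit 1) (nat_lit 4) (nat_lit 2) (nat_lit 5) (nat_lit 2) (nat_lit 4) (nat_lit 279) (nat_lit 201) (nat_lit 180)) (XT.nd (nat_lit 78) (nat_lit 0) (nat_lit 0) (XT.lf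 (nat_lit 0) (nat_lit 424570965862) (nat_lit 76) (nat_lit 2191415111221) (nat_lit 76) (nat_lit 2190907599701) (nat_lit 1) (nat_lit 4) (nat_lit 2) (nat_lit 5) (nat_lit 2) (nat_lit 4) (nat_lit 280) (nat_lit 201) (nat_lit 179)) (XT.lf (nat_lit 0) (nat_lit 489691854221) (nat_lit 76) (nat_lit 2519319938140) (nat_lit 76) (nat_lit 2518809220131) (nat_lit 1) (nat_lit 4) (nat_lit 2) (nat_lit 5) (nat_lit 2) (nat_lit 4) (nat_lit 281) (nat_lit 201) (nat_lit 178)))))) (XT.nd (nat_lit 312) (nat_lit 0) (nat_lit 0) (XT.nd (nat_lit 156) (nat_lit 0) (nat_lit 0) (XT.nd (nat_lit 78) (nat_lit 0) (nat_lit 0) (XT.lf (nat_lit 0) (nat_lit 564565991569) (nat_lit 76) (nat_lit 2896418034974) (nat_lit 76) (nat_lit 2895904528714) (nat_lit 1) (nat_lit 4) (nat_lit 2) (nat_lit 5) (nat_lit 2) (nat_lit 4) (nat_lit 282) (nat_lit 201) (nat_lit 177)) (XT.lf (nat_lit 0) (nat_lit 650658306681) (nat_lit 76) (nat_lit 3330087407966)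 (nat_lit 76) (nat_lit 3329571477139) (nat_lit 1) (nat_lit 4) (nat_lit 2) (nat_lit 5) (nat_lit 2) (nat_lit 4) (nat_lit 283) (nat_lit 201) (nat_lit 176))) (XT.nd (nat_lit 78) (nat_lit 0) (nat_lit 0) (XT.lf (nat_lit 0) (nat_lit 749653214418) (nat_lit 76) (nat_lit 3828812892674) (nat_lit 76) (nat_lit 3828294853529) (nat_lit 1) (nat_lit 4) (nat_lit 2) (nat_lit 5) (nat_lit 2) (nat_lit 4) (nat_lit 284) (nat_lit 201) (nat_lit 175)) (XT.lf (nat_lit 0) (nat_lit 863487571671) (nat_lit 76) (nat_lit 4402352161625) (nat_lit 76) (nat_lit 4401832289159) (nat_lit 1) (nat_lit 4) (nat_lit 2) (nat_lit 5) (nat_lit 2) (nat_lit 4) (nat_lit 285) (nat_lit 201) (nat_lit 174)))) (XT.nd (nat_lit 156) (nat_lit 0) (nat_lit 0) (XT.nd (nat_lit 78) (nat_lit 0) (nat_lit 0) (XT.lf (nat_lit 0) (nat_lit 994388572385) (nat_lit 76) (nat_lit 5061926635299) (nat_lit 76) (nat_lit 5061405168641) (nat_lit 1) (nat_lit 4) (nat_lit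 2) (nat_lit 5) (nat_lit 2) (nat_lit 4) (nat_lit 286) (nat_lit 201) (nat_lit 173)) (XT.lf (nat_lit 0) (nat_lit 1144917323097) (nat_lit 76) (nat_lit 5820441031658) (nat_lit 76) (nat_lit 5819918178746) (nat_lit 1) (nat_lit 4) (nat_lit 2) (nat_lit 5) (nat_lit 2) (nat_lit 4) (nat_lit 287) (nat_lit 201) (nat_lit 172))) (XT.nd (nat_lit 78) (nat_lit 0) (nat_lit 0) (XT.lf (nat_lit 0) (nat_lit 1318018951537) (nat_lit 76) (nat_lit 6692735849762) (nat_lit 76) (nat_lit 6692211791412) (nat_lit 1) (nat_lit 4) (nat_lit 2) (nat_lit 5) (nat_lit 2) (nat_lit 4) (nat_lit 288) (nat_lit 201) (nat_lit 171)) (XT.nd (nat_lit 78) (nat_lit 0) (nat_lit 0) (XT.lf (nat_lit 0) (nat_lit 1517080228697) (nat_lit 76) (nat_lit 7695877727356) (nat_lit 76) (nat_lit 7695352620799) (nat_lit 1) (nat_lit 4) (nat_lit 2) (nat_lit 5) (nat_lit 2) (nat_lit 4) (nat_lit 289) (nat_lit 201) (nat_lit 170)) (XT.lf (nat_lit 0) (nat_lit 1745995831739)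 (nat_lit 76) (nat_lit 8849493353350) (nat_lit 76) (nat_lit 8848967335309) (nat_lit 1) (nat_lit 4) (nat_lit 2) (nat_lit 5) (nat_lit 2) (nat_lit 4) (nat_lit 290) (nat_lit 201) (nat_lit 169))))))))
noncomputable def xc16 : XT := (XT.nd (nat_lit 32292) (nat_lit 0) (nat_lit 0) (XT.nd (nat_lit 702) (nat_lit 0) (nat_lit 0) (XT.nd (nat_lit 312) (nat_lit 0) (nat_lit 0) (XT.nd (nat_lit 156) (nat_lit 0) (nat_lit 0) (XT.nd (nat_lit 78) (nat_lit 0) (nat_lit 0) (XT.lf (nat_lit 0) (nat_lit 2009244544200) (nat_lit 76) (nat_lit 10176153468253) (nat_lit 76) (nat_lit 10175626657616) (nat_lit 1) (nat_lit 4) (nat_lit 2) (nat_lit 5) (nat_lit 2) (nat_lit 4) (nat_lit 291) (nat_lit 201) (nat_lit 168)) (XT.lf (nat_lit 0) (nat_lit 2311976884368) (nat_lit 76) (nat_lit 11701814465616) (nat_lit 76) (nat_lit 11701286965766) (nat_lit 1) (nat_lit 4) (nat_lit 2) (nat_lit 5) (nat_lit 2) (nat_lit 4) (nat_lit 292) (nat_lit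 201) (nat_lit 167))) (XT.nd (nat_lit 78) (nat_lit 0) (nat_lit 0) (XT.lf (nat_lit 0) (nat_lit 2660115876289) (nat_lit 76) (nat_lit 13456326234519) (nat_lit 76) (nat_lit 13455798135354) (nat_lit 1) (nat_lit 4) (nat_lit 2) (nat_lit 5) (nat_lit 2) (nat_lit 4) (nat_lit 293) (nat_lit 201) (nat_lit 166)) (XT.lf (nat_lit 0) (nat_lit 3060472935024) (nat_lit 76) (nat_lit 15474016179136) (nat_lit 76) (nat_lit 15473487558826) (nat_lit 1) (nat_lit 4) (nat_lit 2) (nat_lit 5) (nat_lit 2) (nat_lit 4) (nat_lit 294) (nat_lit 201) (nat_lit 165)))) (XT.nd (nat_lit 156) (nat_lit 0) (nat_lit 0) (XT.nd (nat_lit 78) (nat_lit 0) (nat_lit 0) (XT.lf (nat_lit 0) (nat_lit 3520881133459) (nat_lit 76) (nat_lit 17794360841861) (nat_lit 76) (nat_lit 17793831768383) (nat_lit 1) (nat_lit 4) (nat_lit 2) (nat_lit 5) (nat_lit 2) (nat_lit 4) (nat_lit 295) (nat_lit 201) (nat_lit 164)) (XT.lf (nat_lit 0) (nat_lit 4050348458087)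 (nat_lit 76) (nat_lit 20462758270444) (nat_lit 76) (nat_lit 20462228802906) (nat_lit 1) (nat_lit 4) (nat_lit 2) (nat_lit 5) (nat_lit 2) (nat_lit 4) (nat_lit 296) (nat_lit 201) (nat_lit 163))) (XT.nd (nat_lit 78) (nat_lit 0) (nat_lit 0) (XT.lf (nat_lit 0) (nat_lit 4659234052215) (nat_lit 76) (nat_lit 23531416240661) (nat_lit 76) (nat_lit 23530886430462) (nat_lit 1) (nat_lit 4) (nat_lit 2) (nat_lit 5) (nat_lit 2) (nat_lit 4) (nat_lit 297) (nat_lit 201) (nat_lit 162)) (XT.nd (nat_lit 78) (nat_lit 0) (nat_lit 0) (XT.lf (nat_lit 0) (nat_lit 5359450894859) (nat_lit 76) (nat_lit 27060373712799) (nat_lit 76) (nat_lit 27059843604634) (nat_lit 1) (nat_lit 4) (nat_lit 2) (nat_lit 5) (nat_lit 2) (nat_lit 4) (nat_lit 298) (nat_lit 201) (nat_lit 161)) (XT.lf (nat_lit 0) (nat_lit 6164698880766) (nat_lit 76) (nat_lit 31118675506965) (nat_lit 76) (nat_lit 31118145139700) (nat_lit 1) (nat_lit 4) (nat_lit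 2) (nat_lit 5) (nat_lit 2) (nat_lit 4) (nat_lit 299) (nat_lit 201) (nat_lit 160)))))) (XT.nd (nat_lit 31200) (nat_lit 0) (nat_lit 0) (XT.nd (nat_lit 31044) (nat_lit 0) (nat_lit 0) (XT.nd (nat_lit 30966) (nat_lit 0) (nat_lit 76) (XT.lf (nat_lit 0) (nat_lit 7090732861835) (nat_lit 76) (nat_lit 35785723180002) (nat_lit 76) (nat_lit 35785192587431) (nat_lit 1) (nat_lit 4) (nat_lit 2) (nat_lit 5) (nat_lit 2) (nat_lit 4) (nat_lit 300) (nat_lit 201) (nat_lit 159)) (XT.lf (nat_lit 0) (nat_lit 41181735152) (nat_lit 152) (nat_lit 2324510114) (nat_lit 0) (nat_lit 41181735152) (nat_lit 2) (nat_lit 5) (nat_lit 4) (nat_lit 4) (nat_lit 2) (nat_lit 4) (nat_lit 256) (nat_lit 202) (nat_lit 202))) (XT.nd (nat_lit 78) (nat_lit 76) (nat_lit 0) (XT.lf (nat_lit 0) (nat_lit 96595155247) (nat_lit 152) (nat_lit 1374775116) (nat_lit 0) (nat_lit 96515341057) (nat_lit 2) (nat_lit 5) (nat_lit 4) (nat_lit 4) (nat_lit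 2) (nat_lit 4) (nat_lit 257) (nat_lit 202) (nat_lit 201)) (XT.lf (nat_lit 0) (nat_lit 2253743216) (nat_lit 76) (nat_lit 110633850516) (nat_lit 76) (nat_lit 110484632682) (nat_lit 1) (nat_lit 4) (nat_lit 2) (nat_lit 5) (nat_lit 2) (nat_lit 4) (nat_lit 258) (nat_lit 202) (nat_lit 200)))) (XT.nd (nat_lit 156) (nat_lit 0) (nat_lit 0) (XT.nd (nat_lit 78) (nat_lit 0) (nat_lit 0) (XT.lf (nat_lit 0) (nat_lit 6258879166) (nat_lit 76) (nat_lit 125278044555) (nat_lit 76) (nat_lit 125068475725) (nat_lit 1) (nat_lit 4) (nat_lit 2) (nat_lit 5) (nat_lit 2) (nat_lit 4) (nat_lit 259) (nat_lit 202) (nat_lit 199)) (XT.lf (nat_lit 0) (nat_lit 10584641066) (nat_lit 76) (nat_lit 142260892563) (nat_lit 76) (nat_lit 141998844608) (nat_lit 1) (nat_lit 4) (nat_lit 2) (nat_lit 5) (nat_lit 2) (nat_lit 4) (nat_lit 260) (nat_lit 202) (nat_lit 198))) (XT.nd (nat_lit 78) (nat_lit 0) (nat_lit 0) (XT.lf (nat_lit 0) (nat_lit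 15315663387) (nat_lit 76) (nat_lit 161914667656) (nat_lit 76) (nat_lit 161606985678) (nat_lit 1) (nat_lit 4) (nat_lit 2) (nat_lit 5) (nat_lit 2) (nat_lit 4) (nat_lit 261) (nat_lit 202) (nat_lit 197)) (XT.nd (nat_lit 78) (nat_lit 0) (nat_lit 0) (XT.lf (nat_lit 0) (nat_lit 20544509611) (nat_lit 76) (nat_lit 184623900214) (nat_lit 76) (nat_lit 184276536477) (nat_lit 1) (nat_lit 4) (nat_lit 2) (nat_lit 5) (nat_lit 2) (nat_lit 4) (nat_lit 262) (nat_lit 202) (nat_lit 196)) (XT.lf (nat_lit 0) (nat_lit 26373483249) (nat_lit 76) (nat_lit 210832901309) (nat_lit 76) (nat_lit 210451031696) (nat_lit 1) (nat_lit 4) (nat_lit 2) (nat_lit 5) (nat_lit 2) (nat_lit 4) (nat_lit 263) (nat_lit 202) (nat_lit 195))))))) (XT.nd (nat_lit 702) (nat_lit 0) (nat_lit 0) (XT.nd (nat_lit 312) (nat_lit 0) (nat_lit 0) (XT.nd (nat_lit 156) (nat_lit 0) (nat_lit 0) (XT.nd (nat_lit 78) (nat_lit 0) (nat_lit 0) (XT.lf (nat_lit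 0) (nat_lit 32916629439) (nat_lit 76) (nat_lit 241054455747) (nat_lit 76) (nat_lit 240642581022) (nat_lit 1) (nat_lit 4) (nat_lit 2) (nat_lit 5) (nat_lit 2) (nat_lit 4) (nat_lit 264) (nat_lit 202) (nat_lit 194)) (XT.lf (nat_lit 0) (nat_lit 40301966258) (nat_lit 76) (nat_lit 275879854808) (nat_lit 76) (nat_lit 275441888683) (nat_lit 1) (nat_lit 4) (nat_lit 2) (nat_lit 5) (nat_lit 2) (nat_lit 4) (nat_lit 265) (nat_lit 202) (nat_lit 193))) (XT.nd (nat_lit 78) (nat_lit 0) (nat_lit 0) (XT.lf (nat_lit 0) (nat_lit 48673989426) (nat_lit 76) (nat_lit 315990464997) (nat_lit 76) (nat_lit 315529810698) (nat_lit 1) (nat_lit 4) (nat_lit 2) (nat_lit 5) (nat_lit 2) (nat_lit 4) (nat_lit 266) (nat_lit 202) (nat_lit 192)) (XT.lf (nat_lit 0) (nat_lit 58196499397) (nat_lit 76) (nat_lit 362171059121) (nat_lit 76) (nat_lit 361690675975) (nat_lit 1) (nat_lit 4) (nat_lit 2) (nat_lit 5) (nat_lit 2) (nat_lit 4)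 (nat_lit 267) (nat_lit 202) (nat_lit 191)))) (XT.nd (nat_lit 156) (nat_lit 0) (nat_lit 0) (XT.nd (nat_lit 78) (nat_lit 0) (nat_lit 0) (XT.lf (nat_lit 0) (nat_lit 69055806149) (nat_lit 76) (nat_lit 415325170544) (nat_lit 76) (nat_lit 414827631879) (nat_lit 1) (nat_lit 4) (nat_lit 2) (nat_lit 5) (nat_lit 2) (nat_lit 4) (nat_lit 268) (nat_lit 202) (nat_lit 190)) (XT.lf (nat_lit 0) (nat_lit 81464374378) (nat_lit 76) (nat_lit 476492771011) (nat_lit 76) (nat_lit 475980314503) (nat_lit 1) (nat_lit 4) (nat_lit 2) (nat_lit 5) (nat_lit 2) (nat_lit 4) (nat_lit 269) (nat_lit 202) (nat_lit 189))) (XT.nd (nat_lit 78) (nat_lit 0) (nat_lit 0) (XT.lf (nat_lit 0) (nat_lit 95664980420) (nat_lit 76) (nat_lit 546870617923) (nat_lit 76) (nat_lit 546345189377) (nat_lit 1) (nat_lit 4) (nat_lit 2) (nat_lit 5) (nat_lit 2) (nat_lit 4) (nat_lit 270) (nat_lit 202) (nat_lit 188)) (XT.nd (nat_lit 78) (nat_lit 0) (nat_lit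 0) (XT.lf (nat_lit 0) (nat_lit 111935462219) (nat_lit 76) (nat_lit 627835669153) (nat_lit 76) (nat_lit 627298960575) (nat_lit 1) (nat_lit 4) (nat_lit 2) (nat_lit 5) (nat_lit 2) (nat_lit 4) (nat_lit 271) (nat_lit 202) (nat_lit 187)) (XT.lf (nat_lit 0) (nat_lit 130594155288) (nat_lit 76) (nat_lit 720972023531) (nat_lit 76) (nat_lit 720425506229) (nat_lit 1) (nat_lit 4) (nat_lit 2) (nat_lit 5) (nat_lit 2) (nat_lit 4) (nat_lit 272) (nat_lit 202) (nat_lit 186)))))) (XT.nd (nat_lit 312) (nat_lit 0) (nat_lit 0) (XT.nd (nat_lit 156) (nat_lit 0) (nat_lit 0) (XT.nd (nat_lit 78) (nat_lit 0) (nat_lit 0) (XT.lf (nat_lit 0) (nat_lit 152006121013) (nat_lit 76) (nat_lit 828101914077) (nat_lit 76) (nat_lit 827546867449) (nat_lit 1) (nat_lit 4) (nat_lit 2) (nat_lit 5) (nat_lit 2) (nat_lit 4) (nat_lit 273) (nat_lit 202) (nat_lit 185)) (XT.lf (nat_lit 0) (nat_lit 176590289160) (nat_lit 76) (nat_lit 951321360387)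 (nat_lit 76) (nat_lit 950758896956) (nat_lit 1) (nat_lit 4) (nat_lit 2) (nat_lit 5) (nat_lit 2) (nat_lit 4) (nat_lit 274) (nat_lit 202) (nat_lit 184))) (XT.nd (nat_lit 78) (nat_lit 0) (nat_lit 0) (XT.lf (nat_lit 0) (nat_lit 204827654321) (nat_lit 76) (nat_lit 1093041177717) (nat_lit 76) (nat_lit 1092472264890) (nat_lit 1) (nat_lit 4) (nat_lit 2) (nat_lit 5) (nat_lit 2) (nat_lit 4) (nat_lit 275) (nat_lit 202) (nat_lit 183)) (XT.lf (nat_lit 0) (nat_lit 237270686685) (nat_lit 76) (nat_lit 1256034145101) (nat_lit 76) (nat_lit 1255459624104) (nat_lit 1) (nat_lit 4) (nat_lit 2) (nat_lit 5) (nat_lit 2) (nat_lit 4) (nat_lit 276) (nat_lit 202) (nat_lit 182)))) (XT.nd (nat_lit 156) (nat_lit 0) (nat_lit 0) (XT.nd (nat_lit 78) (nat_lit 0) (nat_lit 0) (XT.lf (nat_lit 0) (nat_lit 274554141233) (nat_lit 76) (nat_lit 1443489255379) (nat_lit 76) (nat_lit 1442909857713) (nat_lit 1) (nat_lit 4) (nat_lit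 2) (nat_lit 5) (nat_lit 2) (nat_lit 4) (nat_lit 277) (nat_lit 202) (nat_lit 181)) (XT.lf (nat_lit 0) (nat_lit 317407476858) (nat_lit 76) (nat_lit 1659074108535) (nat_lit 76) (nat_lit 1658490470287) (nat_lit 1) (nat_lit 4) (nat_lit 2) (nat_lit 5) (nat_lit 2) (nat_lit 4) (nat_lit 278) (nat_lit 202) (nat_lit 180))) (XT.nd (nat_lit 78) (nat_lit 0) (nat_lit 0) (XT.lf (nat_lit 0) (nat_lit 366669128388) (nat_lit 76) (nat_lit 1907006669086) (nat_lit 76) (nat_lit 1906419343376) (nat_lit 1) (nat_lit 4) (nat_lit 2) (nat_lit 5) (nat_lit 2) (nat_lit 4) (nat_lit 279) (nat_lit 202) (nat_lit 179)) (XT.nd (nat_lit 78) (nat_lit 0) (nat_lit 0) (XT.lf (nat_lit 0) (nat_lit 423302910744) (nat_lit 76) (nat_lit 2192137791480) (nat_lit 76) (nat_lit 2191547259280) (nat_lit 1) (nat_lit 4) (nat_lit 2) (nat_lit 5) (nat_lit 2) (nat_lit 4) (nat_lit 280) (nat_lit 202) (nat_lit 178)) (XT.lf (nat_lit 0) (nat_lit 488416876189)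 (nat_lit 76) (nat_lit 2520046128109) (nat_lit 76) (nat_lit 2519452807658) (nat_lit 1) (nat_lit 4) (nat_lit 2) (nat_lit 5) (nat_lit 2) (nat_lit 4) (nat_lit 281) (nat_lit 202) (nat_lit 177))))))))
noncomputable def xc17 : XT := (XT.nd (nat_lit 1404) (nat_lit 0) (nat_lit 0) (XT.nd (nat_lit 702) (nat_lit 0) (nat_lit 0) (XT.nd (nat_lit 312) (nat_lit 0) (nat_lit 0) (XT.nd (nat_lit 156) (nat_lit 0) (nat_lit 0) (XT.nd (nat_lit 78) (nat_lit 0) (nat_lit 0) (XT.lf (nat_lit 0) (nat_lit 563284993612) (nat_lit 76) (nat_lit 2897147276866) (nat_lit 76) (nat_lit 2896551531848) (nat_lit 1) (nat_lit 4) (nat_lit 2) (nat_lit 5) (nat_lit 2) (nat_lit 4) (nat_lit 282) (nat_lit 202) (nat_lit 176)) (XT.lf (nat_lit 0) (nat_lit 649372074007) (nat_lit 76) (nat_lit 3330819303703) (nat_lit 76) (nat_lit 3330221450367) (nat_lit 1) (nat_lit 4) (nat_lit 2) (nat_lit 5) (nat_lit 2) (nat_lit 4) (nat_lit 283) (nat_lit 202)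 (nat_lit 175))) (XT.nd (nat_lit 78) (nat_lit 0) (nat_lit 0) (XT.lf (nat_lit 0) (nat_lit 748362429816) (nat_lit 76) (nat_lit 3829547096103) (nat_lit 76) (nat_lit 3828947409445) (nat_lit 1) (nat_lit 4) (nat_lit 2) (nat_lit 5) (nat_lit 2) (nat_lit 4) (nat_lit 284) (nat_lit 202) (nat_lit 174)) (XT.lf (nat_lit 0) (nat_lit 862192828871) (nat_lit 76) (nat_lit 4403088371742) (nat_lit 76) (nat_lit 4402487090893) (nat_lit 1) (nat_lit 4) (nat_lit 2) (nat_lit 5) (nat_lit 2) (nat_lit 4) (nat_lit 285) (nat_lit 202) (nat_lit 173)))) (XT.nd (nat_lit 156) (nat_lit 0) (nat_lit 0) (XT.nd (nat_lit 78) (nat_lit 0) (nat_lit 0) (XT.lf (nat_lit 0) (nat_lit 993090387673) (nat_lit 76) (nat_lit 5062664590362) (nat_lit 76) (nat_lit 5062061923259) (nat_lit 1) (nat_lit 4) (nat_lit 2) (nat_lit 5) (nat_lit 2) (nat_lit 4) (nat_lit 286) (nat_lit 202) (nat_lit 172)) (XT.lf (nat_lit 0) (nat_lit 1143616145418) (nat_lit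 76) (nat_lit 5821180504065) (nat_lit 76) (nat_lit 5820576631525) (nat_lit 1) (nat_lit 4) (nat_lit 2) (nat_lit 5) (nat_lit 2) (nat_lit 4) (nat_lit 287) (nat_lit 202) (nat_lit 171))) (XT.nd (nat_lit 78) (nat_lit 0) (nat_lit 0) (XT.lf (nat_lit 0) (nat_lit 1316715171279) (nat_lit 76) (nat_lit 6693476641600) (nat_lit 76) (nat_lit 6692871720852) (nat_lit 1) (nat_lit 4) (nat_lit 2) (nat_lit 5) (nat_lit 2) (nat_lit 4) (nat_lit 288) (nat_lit 202) (nat_lit 170)) (XT.nd (nat_lit 78) (nat_lit 0) (nat_lit 0) (XT.lf (nat_lit 0) (nat_lit 1515774185326) (nat_lit 76) (nat_lit 7696619666524) (nat_lit 76) (nat_lit 7696013834292) (nat_lit 1) (nat_lit 4) (nat_lit 2) (nat_lit 5) (nat_lit 2) (nat_lit 4) (nat_lit 289) (nat_lit 202) (nat_lit 169)) (XT.lf (nat_lit 0) (nat_lit 1744687820444) (nat_lit 76) (nat_lit 8850236290197) (nat_lit 76) (nat_lit 8849629665370) (nat_lit 1) (nat_lit 4) (nat_lit 2) (nat_lit 5)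 (nat_lit 2) (nat_lit 4) (nat_lit 290) (nat_lit 202) (nat_lit 168)))))) (XT.nd (nat_lit 312) (nat_lit 0) (nat_lit 0) (XT.nd (nat_lit 156) (nat_lit 0) (nat_lit 0) (XT.nd (nat_lit 78) (nat_lit 0) (nat_lit 0) (XT.lf (nat_lit 0) (nat_lit 2007934821667) (nat_lit 76) (nat_lit 10176897272646) (nat_lit 76) (nat_lit 10176289958606) (nat_lit 1) (nat_lit 4) (nat_lit 2) (nat_lit 5) (nat_lit 2) (nat_lit 4) (nat_lit 291) (nat_lit 202) (nat_lit 167)) (XT.lf (nat_lit 0) (nat_lit 2310665673802) (nat_lit 76) (nat_lit 11702559024398) (nat_lit 76) (nat_lit 11701951111042) (nat_lit 1) (nat_lit 4) (nat_lit 2) (nat_lit 5) (nat_lit 2) (nat_lit 4) (nat_lit 292) (nat_lit 202) (nat_lit 166))) (XT.nd (nat_lit 78) (nat_lit 0) (nat_lit 0) (XT.lf (nat_lit 0) (nat_lit 2658803371781) (nat_lit 76) (nat_lit 13457071449291) (nat_lit 76) (nat_lit 13456463014791) (nat_lit 1) (nat_lit 4) (nat_lit 2) (nat_lit 5) (nat_lit 2)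 (nat_lit 4) (nat_lit 293) (nat_lit 202) (nat_lit 165)) (XT.lf (nat_lit 0) (nat_lit 3059159305349) (nat_lit 76) (nat_lit 15474761964334) (nat_lit 76) (nat_lit 15474153076665) (nat_lit 1) (nat_lit 4) (nat_lit 2) (nat_lit 5) (nat_lit 2) (nat_lit 4) (nat_lit 294) (nat_lit 202) (nat_lit 164)))) (XT.nd (nat_lit 156) (nat_lit 0) (nat_lit 0) (XT.nd (nat_lit 78) (nat_lit 0) (nat_lit 0) (XT.lf (nat_lit 0) (nat_lit 3519566525378) (nat_lit 76) (nat_lit 17795107123082) (nat_lit 76) (nat_lit 17794497841353) (nat_lit 1) (nat_lit 4) (nat_lit 2) (nat_lit 5) (nat_lit 2) (nat_lit 4) (nat_lit 295) (nat_lit 202) (nat_lit 163)) (XT.lf (nat_lit 0) (nat_lit 4049032999218) (nat_lit 76) (nat_lit 20463504982989) (nat_lit 76) (nat_lit 20462895358599) (nat_lit 1) (nat_lit 4) (nat_lit 2) (nat_lit 5) (nat_lit 2) (nat_lit 4) (nat_lit 296) (nat_lit 202) (nat_lit 162))) (XT.nd (nat_lit 78) (nat_lit 0) (nat_lit 0) (XT.lf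 (nat_lit 0) (nat_lit 4657917853531) (nat_lit 76) (nat_lit 23532163328270) (nat_lit 76) (nat_lit 23531553405915) (nat_lit 1) (nat_lit 4) (nat_lit 2) (nat_lit 5) (nat_lit 2) (nat_lit 4) (nat_lit 297) (nat_lit 202) (nat_lit 161)) (XT.nd (nat_lit 78) (nat_lit 0) (nat_lit 0) (XT.lf (nat_lit 0) (nat_lit 5358134052857) (nat_lit 76) (nat_lit 27061121126551) (nat_lit 76) (nat_lit 27060510945095) (nat_lit 1) (nat_lit 4) (nat_lit 2) (nat_lit 5) (nat_lit 2) (nat_lit 4) (nat_lit 298) (nat_lit 202) (nat_lit 160)) (XT.lf (nat_lit 0) (nat_lit 6163381479357) (nat_lit 76) (nat_lit 31119423204320) (nat_lit 76) (nat_lit 31118812797559) (nat_lit 1) (nat_lit 4) (nat_lit 2) (nat_lit 5) (nat_lit 2) (nat_lit 4) (nat_lit 299) (nat_lit 202) (nat_lit 159))))))) (XT.nd (nat_lit 31434) (nat_lit 0) (nat_lit 0) (XT.nd (nat_lit 31044) (nat_lit 0) (nat_lit 0) (XT.nd (nat_lit 30888) (nat_lit 0) (nat_lit 76) (XT.nd (nat_lit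 30810) (nat_lit 0) (nat_lit 76) (XT.lf (nat_lit 0) (nat_lit 7089414973984) (nat_lit 76) (nat_lit 35786471123967) (nat_lit 76) (nat_lit 35785860521289) (nat_lit 1) (nat_lit 4) (nat_lit 2) (nat_lit 5) (nat_lit 2) (nat_lit 4) (nat_lit 300) (nat_lit 202) (nat_lit 158)) (XT.lf (nat_lit 0) (nat_lit 29458181503) (nat_lit 152) (nat_lit 5391754396) (nat_lit 0) (nat_lit 29458181503) (nat_lit 2) (nat_lit 5) (nat_lit 4) (nat_lit 4) (nat_lit 2) (nat_lit 4) (nat_lit 254) (nat_lit 203) (nat_lit 203))) (XT.nd (nat_lit 78) (nat_lit 0) (nat_lit 0) (XT.lf (nat_lit 0) (nat_lit 69912556514) (nat_lit 152) (nat_lit 7833697244) (nat_lit 0) (nat_lit 69820770195) (nat_lit 2) (nat_lit 5) (nat_lit 4) (nat_lit 4) (nat_lit 2) (nat_lit 4) (nat_lit 255) (nat_lit 203) (nat_lit 202)) (XT.lf (nat_lit 0) (nat_lit 82365758864) (nat_lit 152) (nat_lit 4829547417) (nat_lit 0) (nat_lit 82194158354) (nat_lit 2) (nat_lit 5) (nat_lit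 4) (nat_lit 4) (nat_lit 2) (nat_lit 4) (nat_lit 256) (nat_lit 203) (nat_lit 201)))) (XT.nd (nat_lit 156) (nat_lit 0) (nat_lit 0) (XT.nd (nat_lit 78) (nat_lit 76) (nat_lit 0) (XT.lf (nat_lit 0) (nat_lit 96519619668) (nat_lit 152) (nat_lit 1712282468) (nat_lit 0) (nat_lit 96278615514) (nat_lit 2) (nat_lit 5) (nat_lit 4) (nat_lit 4) (nat_lit 2) (nat_lit 4) (nat_lit 257) (nat_lit 203) (nat_lit 200)) (XT.lf (nat_lit 0) (nat_lit 1733407489) (nat_lit 76) (nat_lit 110989431507) (nat_lit 76) (nat_lit 110688076358) (nat_lit 1) (nat_lit 4) (nat_lit 2) (nat_lit 5) (nat_lit 2) (nat_lit 4) (nat_lit 258) (nat_lit 203) (nat_lit 199))) (XT.nd (nat_lit 78) (nat_lit 0) (nat_lit 0) (XT.lf (nat_lit 0) (nat_lit 5608243698) (nat_lit 76) (nat_lit 125699683622) (nat_lit 76) (nat_lit 125345849347) (nat_lit 1) (nat_lit 4) (nat_lit 2) (nat_lit 5) (nat_lit 2) (nat_lit 4) (nat_lit 259) (nat_lit 203) (nat_lit 198))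 (XT.nd (nat_lit 78) (nat_lit 0) (nat_lit 0) (XT.lf (nat_lit 0) (nat_lit 9820701475) (nat_lit 76) (nat_lit 142739973436) (nat_lit 76) (nat_lit 142340505139) (nat_lit 1) (nat_lit 4) (nat_lit 2) (nat_lit 5) (nat_lit 2) (nat_lit 4) (nat_lit 260) (nat_lit 203) (nat_lit 197)) (XT.lf (nat_lit 0) (nat_lit 14453198473) (nat_lit 76) (nat_lit 162443697925) (nat_lit 76) (nat_lit 162004547869) (nat_lit 1) (nat_lit 4) (nat_lit 2) (nat_lit 5) (nat_lit 2) (nat_lit 4) (nat_lit 261) (nat_lit 203) (nat_lit 196)))))) (XT.nd (nat_lit 312) (nat_lit 0) (nat_lit 0) (XT.nd (nat_lit 156) (nat_lit 0) (nat_lit 0) (XT.nd (nat_lit 78) (nat_lit 0) (nat_lit 0) (XT.lf (nat_lit 0) (nat_lit 19596370502) (nat_lit 76) (nat_lit 185196364740) (nat_lit 76) (nat_lit 184722708808) (nat_lit 1) (nat_lit 4) (nat_lit 2) (nat_lit 5) (nat_lit 2) (nat_lit 4) (nat_lit 262) (nat_lit 203) (nat_lit 195)) (XT.lf (nat_lit 0) (nat_lit 25350844840)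 (nat_lit 76) (nat_lit 211443134756) (nat_lit 76) (nat_lit 210939473712) (nat_lit 1) (nat_lit 4) (nat_lit 2) (nat_lit 5) (nat_lit 2) (nat_lit 4) (nat_lit 263) (nat_lit 203) (nat_lit 194))) (XT.nd (nat_lit 78) (nat_lit 0) (nat_lit 0) (XT.lf (nat_lit 0) (nat_lit 31829209031) (nat_lit 76) (nat_lit 241697531732) (nat_lit 76) (nat_lit 241167779288) (nat_lit 1) (nat_lit 4) (nat_lit 2) (nat_lit 5) (nat_lit 2) (nat_lit 4) (nat_lit 264) (nat_lit 203) (nat_lit 193)) (XT.lf (nat_lit 0) (nat_lit 39158213676) (nat_lit 76) (nat_lit 276551489523) (nat_lit 76) (nat_lit 275999048904) (nat_lit 1) (nat_lit 4) (nat_lit 2) (nat_lit 5) (nat_lit 2) (nat_lit 4) (nat_lit 265) (nat_lit 203) (nat_lit 192)))) (XT.nd (nat_lit 156) (nat_lit 0) (nat_lit 0) (XT.nd (nat_lit 78) (nat_lit 0) (nat_lit 0) (XT.lf (nat_lit 0) (nat_lit 47481252345) (nat_lit 76) (nat_lit 316686933389) (nat_lit 76) (nat_lit 316114763924) (nat_lit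 1) (nat_lit 4) (nat_lit 2) (nat_lit 5) (nat_lit 2) (nat_lit 4) (nat_lit 266) (nat_lit 203) (nat_lit 191)) (XT.lf (nat_lit 0) (nat_lit 56961167100) (nat_lit 76) (nat_lit 362889122016) (nat_lit 76) (nat_lit 362299797031) (nat_lit 1) (nat_lit 4) (nat_lit 2) (nat_lit 5) (nat_lit 2) (nat_lit 4) (nat_lit 267) (nat_lit 203) (nat_lit 190))) (XT.nd (nat_lit 78) (nat_lit 0) (nat_lit 0) (XT.lf (nat_lit 0) (nat_lit 67783434533) (nat_lit 76) (nat_lit 416062011267) (nat_lit 76) (nat_lit 415457768439) (nat_lit 1) (nat_lit 4) (nat_lit 2) (nat_lit 5) (nat_lit 2) (nat_lit 4) (nat_lit 268) (nat_lit 203) (nat_lit 189)) (XT.nd (nat_lit 78) (nat_lit 0) (nat_lit 0) (XT.lf (nat_lit 0) (nat_lit 80159794659) (nat_lit 76) (nat_lit 477245940281) (nat_lit 76) (nat_lit 476628725415) (nat_lit 1) (nat_lit 4) (nat_lit 2) (nat_lit 5) (nat_lit 2) (nat_lit 4) (nat_lit 269) (nat_lit 203) (nat_lit 188)) (XT.lf (nat_lit 0)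 (nat_lit 94332393654) (nat_lit 76) (nat_lit 547637985928) (nat_lit 76) (nat_lit 547009491030) (nat_lit 1) (nat_lit 4) (nat_lit 2) (nat_lit 5) (nat_lit 2) (nat_lit 4) (nat_lit 270) (nat_lit 203) (nat_lit 187))))))))
noncomputable def xc18 : XT := (XT.nd (nat_lit 1404) (nat_lit 0) (nat_lit 0) (XT.nd (nat_lit 702) (nat_lit 0) (nat_lit 0) (XT.nd (nat_lit 312) (nat_lit 0) (nat_lit 0) (XT.nd (nat_lit 156) (nat_lit 0) (nat_lit 0) (XT.nd (nat_lit 78) (nat_lit 0) (nat_lit 0) (XT.lf (nat_lit 0) (nat_lit 110578521500) (nat_lit 76) (nat_lit 628615383885) (nat_lit 76) (nat_lit 627977080264) (nat_lit 1) (nat_lit 4) (nat_lit 2) (nat_lit 5) (nat_lit 2) (nat_lit 4) (nat_lit 271) (nat_lit 203) (nat_lit 186)) (XT.lf (nat_lit 0) (nat_lit 129216037219) (nat_lit 76) (nat_lit 721762474547) (nat_lit 76) (nat_lit 721115641601) (nat_lit 1) (nat_lit 4) (nat_lit 2) (nat_lit 5) (nat_lit 2) (nat_lit 4) (nat_lit 272)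 (nat_lit 203) (nat_lit 185))) (XT.nd (nat_lit 78) (nat_lit 0) (nat_lit 0) (XT.lf (nat_lit 0) (nat_lit 150609587857) (nat_lit 76) (nat_lit 828901700992) (nat_lit 76) (nat_lit 828247451241) (nat_lit 1) (nat_lit 4) (nat_lit 2) (nat_lit 5) (nat_lit 2) (nat_lit 4) (nat_lit 273) (nat_lit 203) (nat_lit 184)) (XT.lf (nat_lit 0) (nat_lit 175177742883) (nat_lit 76) (nat_lit 952129265476) (nat_lit 76) (nat_lit 951468566330) (nat_lit 1) (nat_lit 4) (nat_lit 2) (nat_lit 5) (nat_lit 2) (nat_lit 4) (nat_lit 274) (nat_lit 203) (nat_lit 183)))) (XT.nd (nat_lit 156) (nat_lit 0) (nat_lit 0) (XT.nd (nat_lit 78) (nat_lit 0) (nat_lit 0) (XT.lf (nat_lit 0) (nat_lit 203401183593) (nat_lit 76) (nat_lit 1093856142087) (nat_lit 76) (nat_lit 1093189834771) (nat_lit 1) (nat_lit 4) (nat_lit 2) (nat_lit 5) (nat_lit 2) (nat_lit 4) (nat_lit 275) (nat_lit 203) (nat_lit 182)) (XT.lf (nat_lit 0) (nat_lit 235832107738)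 (nat_lit 76) (nat_lit 1256855247976) (nat_lit 76) (nat_lit 1256184063991) (nat_lit 1) (nat_lit 4) (nat_lit 2) (nat_lit 5) (nat_lit 2) (nat_lit 4) (nat_lit 276) (nat_lit 203) (nat_lit 181))) (XT.nd (nat_lit 78) (nat_lit 0) (nat_lit 0) (XT.lf (nat_lit 0) (nat_lit 273105033400) (nat_lit 76) (nat_lit 1444315696085) (nat_lit 76) (nat_lit 1443640271518) (nat_lit 1) (nat_lit 4) (nat_lit 2) (nat_lit 5) (nat_lit 2) (nat_lit 4) (nat_lit 277) (nat_lit 203) (nat_lit 180)) (XT.nd (nat_lit 78) (nat_lit 0) (nat_lit 0) (XT.lf (nat_lit 0) (nat_lit 315949213472) (nat_lit 76) (nat_lit 1659905190833) (nat_lit 76) (nat_lit 1659226078803) (nat_lit 1) (nat_lit 4) (nat_lit 2) (nat_lit 5) (nat_lit 2) (nat_lit 4) (nat_lit 278) (nat_lit 203) (nat_lit 179)) (XT.lf (nat_lit 0) (nat_lit 365202903651) (nat_lit 76) (nat_lit 1907841787551) (nat_lit 76) (nat_lit 1907159469032) (nat_lit 1) (nat_lit 4) (nat_lit 2) (nat_lit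 5) (nat_lit 2) (nat_lit 4) (nat_lit 279) (nat_lit 203) (nat_lit 178)))))) (XT.nd (nat_lit 312) (nat_lit 0) (nat_lit 0) (XT.nd (nat_lit 156) (nat_lit 0) (nat_lit 0) (XT.nd (nat_lit 78) (nat_lit 0) (nat_lit 0) (XT.lf (nat_lit 0) (nat_lit 421829763094) (nat_lit 76) (nat_lit 2192976419655) (nat_lit 76) (nat_lit 2192291312884) (nat_lit 1) (nat_lit 4) (nat_lit 2) (nat_lit 5) (nat_lit 2) (nat_lit 4) (nat_lit 280) (nat_lit 203) (nat_lit 177)) (XT.lf (nat_lit 0) (nat_lit 486937708614) (nat_lit 76) (nat_lit 2520887808207) (nat_lit 76) (nat_lit 2520200276870) (nat_lit 1) (nat_lit 4) (nat_lit 2) (nat_lit 5) (nat_lit 2) (nat_lit 4) (nat_lit 281) (nat_lit 203) (nat_lit 176))) (XT.nd (nat_lit 78) (nat_lit 0) (nat_lit 0) (XT.lf (nat_lit 0) (nat_lit 561800591320) (nat_lit 76) (nat_lit 2897991610808) (nat_lit 76) (nat_lit 2897301971153) (nat_lit 1) (nat_lit 4) (nat_lit 2) (nat_lit 5) (nat_lit 2) (nat_lit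 4) (nat_lit 282) (nat_lit 203) (nat_lit 175)) (XT.lf (nat_lit 0) (nat_lit 647883119787) (nat_lit 76) (nat_lit 3331665945337) (nat_lit 76) (nat_lit 3330974472361) (nat_lit 1) (nat_lit 4) (nat_lit 2) (nat_lit 5) (nat_lit 2) (nat_lit 4) (nat_lit 283) (nat_lit 203) (nat_lit 174)))) (XT.nd (nat_lit 156) (nat_lit 0) (nat_lit 0) (XT.nd (nat_lit 78) (nat_lit 0) (nat_lit 0) (XT.lf (nat_lit 0) (nat_lit 746869517398) (nat_lit 76) (nat_lit 3830395744425) (nat_lit 76) (nat_lit 3829702677257) (nat_lit 1) (nat_lit 4) (nat_lit 2) (nat_lit 5) (nat_lit 2) (nat_lit 4) (nat_lit 284) (nat_lit 203) (nat_lit 173)) (XT.lf (nat_lit 0) (nat_lit 860696474541) (nat_lit 76) (nat_lit 4403938765010) (nat_lit 76) (nat_lit 4403244311588) (nat_lit 1) (nat_lit 4) (nat_lit 2) (nat_lit 5) (nat_lit 2) (nat_lit 4) (nat_lit 285) (nat_lit 203) (nat_lit 172))) (XT.nd (nat_lit 78) (nat_lit 0) (nat_lit 0) (XT.lf (nat_lit 0) (nat_lit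 991591040377) (nat_lit 76) (nat_lit 5063516500975) (nat_lit 76) (nat_lit 5062820842115) (nat_lit 1) (nat_lit 4) (nat_lit 2) (nat_lit 5) (nat_lit 2) (nat_lit 4) (nat_lit 286) (nat_lit 203) (nat_lit 171)) (XT.nd (nat_lit 78) (nat_lit 0) (nat_lit 0) (XT.lf (nat_lit 0) (nat_lit 1142114195542) (nat_lit 76) (nat_lit 5822033734109) (nat_lit 76) (nat_lit 5821337027042) (nat_lit 1) (nat_lit 4) (nat_lit 2) (nat_lit 5) (nat_lit 2) (nat_lit 4) (nat_lit 287) (nat_lit 203) (nat_lit 170)) (XT.lf (nat_lit 0) (nat_lit 1315210958290) (nat_lit 76) (nat_lit 6694331018973) (nat_lit 76) (nat_lit 6693633400422) (nat_lit 1) (nat_lit 4) (nat_lit 2) (nat_lit 5) (nat_lit 2) (nat_lit 4) (nat_lit 288) (nat_lit 203) (nat_lit 169))))))) (XT.nd (nat_lit 702) (nat_lit 0) (nat_lit 0) (XT.nd (nat_lit 312) (nat_lit 0) (nat_lit 0) (XT.nd (nat_lit 156) (nat_lit 0) (nat_lit 0) (XT.nd (nat_lit 78) (nat_lit 0) (nat_lit 0) (XT.lf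 (nat_lit 0) (nat_lit 1514268004414) (nat_lit 76) (nat_lit 7697475041577) (nat_lit 76) (nat_lit 7696776630430) (nat_lit 1) (nat_lit 4) (nat_lit 2) (nat_lit 5) (nat_lit 2) (nat_lit 4) (nat_lit 289) (nat_lit 203) (nat_lit 168)) (XT.lf (nat_lit 0) (nat_lit 1743179928293) (nat_lit 76) (nat_lit 8851092532796) (nat_lit 76) (nat_lit 8850393432437) (nat_lit 1) (nat_lit 4) (nat_lit 2) (nat_lit 5) (nat_lit 2) (nat_lit 4) (nat_lit 290) (nat_lit 203) (nat_lit 167))) (XT.nd (nat_lit 78) (nat_lit 0) (nat_lit 0) (XT.lf (nat_lit 0) (nat_lit 2006425441482) (nat_lit 76) (nat_lit 10177754269634) (nat_lit 76) (nat_lit 10177054569959) (nat_lit 1) (nat_lit 4) (nat_lit 2) (nat_lit 5) (nat_lit 2) (nat_lit 4) (nat_lit 291) (nat_lit 203) (nat_lit 166)) (XT.lf (nat_lit 0) (nat_lit 2309154999675) (nat_lit 76) (nat_lit 11703416677376) (nat_lit 76) (nat_lit 11702716456556) (nat_lit 1) (nat_lit 4) (nat_lit 2) (nat_lit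 5) (nat_lit 2) (nat_lit 4) (nat_lit 292) (nat_lit 203) (nat_lit 165)))) (XT.nd (nat_lit 156) (nat_lit 0) (nat_lit 0) (XT.nd (nat_lit 78) (nat_lit 0) (nat_lit 0) (XT.lf (nat_lit 0) (nat_lit 2657291572488) (nat_lit 76) (nat_lit 13457929672695) (nat_lit 76) (nat_lit 13457228998707) (nat_lit 1) (nat_lit 4) (nat_lit 2) (nat_lit 5) (nat_lit 2) (nat_lit 4) (nat_lit 293) (nat_lit 203) (nat_lit 164)) (XT.lf (nat_lit 0) (nat_lit 3057646527649) (nat_lit 76) (nat_lit 15475620683760) (nat_lit 76) (nat_lit 15474919615712) (nat_lit 1) (nat_lit 4) (nat_lit 2) (nat_lit 5) (nat_lit 2) (nat_lit 4) (nat_lit 294) (nat_lit 203) (nat_lit 163))) (XT.nd (nat_lit 78) (nat_lit 0) (nat_lit 0) (XT.lf (nat_lit 0) (nat_lit 3518052896891) (nat_lit 76) (nat_lit 17795966273832) (nat_lit 76) (nat_lit 17795264863124) (nat_lit 1) (nat_lit 4) (nat_lit 2) (nat_lit 5) (nat_lit 2) (nat_lit 4) (nat_lit 295) (nat_lit 203) (nat_lit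 162)) (XT.nd (nat_lit 78) (nat_lit 0) (nat_lit 0) (XT.lf (nat_lit 0) (nat_lit 4047518630915) (nat_lit 76) (nat_lit 20464364508804) (nat_lit 76) (nat_lit 20463662800129) (nat_lit 1) (nat_lit 4) (nat_lit 2) (nat_lit 5) (nat_lit 2) (nat_lit 4) (nat_lit 296) (nat_lit 203) (nat_lit 161)) (XT.lf (nat_lit 0) (nat_lit 4656402841910) (nat_lit 76) (nat_lit 23533023180228) (nat_lit 76) (nat_lit 23532321212453) (nat_lit 1) (nat_lit 4) (nat_lit 2) (nat_lit 5) (nat_lit 2) (nat_lit 4) (nat_lit 297) (nat_lit 203) (nat_lit 160)))))) (XT.nd (nat_lit 30888) (nat_lit 0) (nat_lit 76) (XT.nd (nat_lit 156) (nat_lit 0) (nat_lit 0) (XT.nd (nat_lit 78) (nat_lit 0) (nat_lit 0) (XT.lf (nat_lit 0) (nat_lit 5356618481829) (nat_lit 76) (nat_lit 27061981262112) (nat_lit 76) (nat_lit 27061279069031) (nat_lit 1) (nat_lit 4) (nat_lit 2) (nat_lit 5) (nat_lit 2) (nat_lit 4) (nat_lit 298) (nat_lit 203) (nat_lit 159)) (XT.lf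 (nat_lit 0) (nat_lit 6161865421888) (nat_lit 76) (nat_lit 31120283586491) (nat_lit 76) (nat_lit 31119581197493) (nat_lit 1) (nat_lit 4) (nat_lit 2) (nat_lit 5) (nat_lit 2) (nat_lit 4) (nat_lit 299) (nat_lit 203) (nat_lit 158))) (XT.nd (nat_lit 30654) (nat_lit 0) (nat_lit 76) (XT.lf (nat_lit 0) (nat_lit 7087898493524) (nat_lit 76) (nat_lit 35787331720583) (nat_lit 76) (nat_lit 35786629161222) (nat_lit 1) (nat_lit 4) (nat_lit 2) (nat_lit 5) (nat_lit 2) (nat_lit 4) (nat_lit 300) (nat_lit 203) (nat_lit 157)) (XT.lf (nat_lit 0) (nat_lit 20341321642) (nat_lit 152) (nat_lit 8256145356) (nat_lit 0) (nat_lit 20341321642) (nat_lit 2) (nat_lit 5) (nat_lit 4) (nat_lit 4) (nat_lit 2) (nat_lit 4) (nat_lit 252) (nat_lit 204) (nat_lit 204)))) (XT.nd (nat_lit 156) (nat_lit 0) (nat_lit 0) (XT.nd (nat_lit 78) (nat_lit 0) (nat_lit 0) (XT.lf (nat_lit 0) (nat_lit 49267589693) (nat_lit 152) (nat_lit 13736695770)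 (nat_lit 0) (nat_lit 49162035425) (nat_lit 2) (nat_lit 5) (nat_lit 4) (nat_lit 4) (nat_lit 2) (nat_lit 4) (nat_lit 253) (nat_lit 204) (nat_lit 203)) (XT.lf (nat_lit 0) (nat_lit 58918994850) (nat_lit 152) (nat_lit 10991115060) (nat_lit 0) (nat_lit 58721654264) (nat_lit 2) (nat_lit 5) (nat_lit 4) (nat_lit 4) (nat_lit 2) (nat_lit 4) (nat_lit 254) (nat_lit 204) (nat_lit 202))) (XT.nd (nat_lit 78) (nat_lit 0) (nat_lit 0) (XT.lf (nat_lit 0) (nat_lit 69825690598) (nat_lit 152) (nat_lit 8221830699) (nat_lit 0) (nat_lit 69548535821) (nat_lit 2) (nat_lit 5) (nat_lit 4) (nat_lit 4) (nat_lit 2) (nat_lit 4) (nat_lit 255) (nat_lit 204) (nat_lit 201)) (XT.nd (nat_lit 78) (nat_lit 0) (nat_lit 0) (XT.lf (nat_lit 0) (nat_lit 82201068809) (nat_lit 152) (nat_lit 5374661036) (nat_lit 0) (nat_lit 81854510388) (nat_lit 2) (nat_lit 5) (nat_lit 4) (nat_lit 4) (nat_lit 2) (nat_lit 4) (nat_lit 256) (nat_lit 204)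 (nat_lit 200)) (XT.lf (nat_lit 0) (nat_lit 96287256448) (nat_lit 152) (nat_lit 2393900578) (nat_lit 0) (nat_lit 95880347032) (nat_lit 2) (nat_lit 5) (nat_lit 4) (nat_lit 4) (nat_lit 2) (nat_lit 4) (nat_lit 257) (nat_lit 204) (nat_lit 199))))))))
noncomputable def xc19 : XT := (XT.nd (nat_lit 1404) (nat_lit 0) (nat_lit 0) (XT.nd (nat_lit 702) (nat_lit 0) (nat_lit 0) (XT.nd (nat_lit 312) (nat_lit 0) (nat_lit 0) (XT.nd (nat_lit 156) (nat_lit 0) (nat_lit 0) (XT.nd (nat_lit 78) (nat_lit 0) (nat_lit 0) (XT.lf (nat_lit 0) (nat_lit 854876960) (nat_lit 76) (nat_lit 111540374511) (nat_lit 76) (nat_lit 111080985969) (nat_lit 1) (nat_lit 4) (nat_lit 2) (nat_lit 5) (nat_lit 2) (nat_lit 4) (nat_lit 258) (nat_lit 204) (nat_lit 198)) (XT.lf (nat_lit 0) (nat_lit 4616409046) (nat_lit 76) (nat_lit 126308068431) (nat_lit 76) (nat_lit 125803045867) (nat_lit 1) (nat_lit 4) (nat_lit 2) (nat_lit 5) (nat_lit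 2) (nat_lit 4) (nat_lit 259) (nat_lit 204) (nat_lit 197))) (XT.nd (nat_lit 78) (nat_lit 0) (nat_lit 0) (XT.lf (nat_lit 0) (nat_lit 8730341500) (nat_lit 76) (nat_lit 143398307642) (nat_lit 76) (nat_lit 142853603319) (nat_lit 1) (nat_lit 4) (nat_lit 2) (nat_lit 5) (nat_lit 2) (nat_lit 4) (nat_lit 260) (nat_lit 204) (nat_lit 196)) (XT.lf (nat_lit 0) (nat_lit 13277164303) (nat_lit 76) (nat_lit 163145466388) (nat_lit 76) (nat_lit 162566256188) (nat_lit 1) (nat_lit 4) (nat_lit 2) (nat_lit 5) (nat_lit 2) (nat_lit 4) (nat_lit 261) (nat_lit 204) (nat_lit 195)))) (XT.nd (nat_lit 156) (nat_lit 0) (nat_lit 0) (XT.nd (nat_lit 78) (nat_lit 0) (nat_lit 0) (XT.lf (nat_lit 0) (nat_lit 18345837032) (nat_lit 76) (nat_lit 185935902123) (nat_lit 76) (nat_lit 185326686813) (nat_lit 1) (nat_lit 4) (nat_lit 2) (nat_lit 5) (nat_lit 2) (nat_lit 4) (nat_lit 262) (nat_lit 204) (nat_lit 194)) (XT.lf (nat_lit 0)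 (nat_lit 24035529371) (nat_lit 76) (nat_lit 212215514678) (nat_lit 76) (nat_lit 211580207967) (nat_lit 1) (nat_lit 4) (nat_lit 2) (nat_lit 5) (nat_lit 2) (nat_lit 4) (nat_lit 263) (nat_lit 204) (nat_lit 193))) (XT.nd (nat_lit 78) (nat_lit 0) (nat_lit 0) (XT.lf (nat_lit 0) (nat_lit 30457561387) (nat_lit 76) (nat_lit 242498470383) (nat_lit 76) (nat_lit 241840475498) (nat_lit 1) (nat_lit 4) (nat_lit 2) (nat_lit 5) (nat_lit 2) (nat_lit 4) (nat_lit 264) (nat_lit 204) (nat_lit 192)) (XT.nd (nat_lit 78) (nat_lit 0) (nat_lit 0) (XT.lf (nat_lit 0) (nat_lit 37737581534) (nat_lit 76) (nat_lit 277377261852) (nat_lit 76) (nat_lit 276699538119) (nat_lit 1) (nat_lit 4) (nat_lit 2) (nat_lit 5) (nat_lit 2) (nat_lit 4) (nat_lit 265) (nat_lit 204) (nat_lit 191)) (XT.lf (nat_lit 0) (nat_lit 46018024987) (nat_lit 76) (nat_lit 317534300221) (nat_lit 76) (nat_lit 316839420969) (nat_lit 1) (nat_lit 4) (nat_lit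 2) (nat_lit 5) (nat_lit 2) (nat_lit 4) (nat_lit 266) (nat_lit 204) (nat_lit 190)))))) (XT.nd (nat_lit 312) (nat_lit 0) (nat_lit 0) (XT.nd (nat_lit 156) (nat_lit 0) (nat_lit 0) (XT.nd (nat_lit 78) (nat_lit 0) (nat_lit 0) (XT.lf (nat_lit 0) (nat_lit 55460900423) (nat_lit 76) (nat_lit 363755266675) (nat_lit 76) (nat_lit 363045469581) (nat_lit 1) (nat_lit 4) (nat_lit 2) (nat_lit 5) (nat_lit 2) (nat_lit 4) (nat_lit 267) (nat_lit 204) (nat_lit 189)) (XT.lf (nat_lit 0) (nat_lit 66250959753) (nat_lit 76) (nat_lit 416944484473) (nat_lit 76) (nat_lit 416221715341) (nat_lit 1) (nat_lit 4) (nat_lit 2) (nat_lit 5) (nat_lit 2) (nat_lit 4) (nat_lit 268) (nat_lit 204) (nat_lit 188))) (XT.nd (nat_lit 78) (nat_lit 0) (nat_lit 0) (XT.lf (nat_lit 0) (nat_lit 78599312832) (nat_lit 76) (nat_lit 478142612222) (nat_lit 76) (nat_lit 477408563058) (nat_lit 1) (nat_lit 4) (nat_lit 2) (nat_lit 5) (nat_lit 2) (nat_lit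 4) (nat_lit 269) (nat_lit 204) (nat_lit 187)) (XT.lf (nat_lit 0) (nat_lit 92747557875) (nat_lit 76) (nat_lit 548547004596) (nat_lit 76) (nat_lit 547803146708) (nat_lit 1) (nat_lit 4) (nat_lit 2) (nat_lit 5) (nat_lit 2) (nat_lit 4) (nat_lit 270) (nat_lit 204) (nat_lit 186)))) (XT.nd (nat_lit 156) (nat_lit 0) (nat_lit 0) (XT.nd (nat_lit 78) (nat_lit 0) (nat_lit 0) (XT.lf (nat_lit 0) (nat_lit 108972508370) (nat_lit 76) (nat_lit 629535138838) (nat_lit 76) (nat_lit 628782751624) (nat_lit 1) (nat_lit 4) (nat_lit 2) (nat_lit 5) (nat_lit 2) (nat_lit 4) (nat_lit 271) (nat_lit 204) (nat_lit 185)) (XT.lf (nat_lit 0) (nat_lit 127591609001) (nat_lit 76) (nat_lit 722691565399) (nat_lit 76) (nat_lit 721931761381) (nat_lit 1) (nat_lit 4) (nat_lit 2) (nat_lit 5) (nat_lit 2) (nat_lit 4) (nat_lit 272) (nat_lit 204) (nat_lit 184))) (XT.nd (nat_lit 78) (nat_lit 0) (nat_lit 0) (XT.lf (nat_lit 0) (nat_lit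 148969146519) (nat_lit 76) (nat_lit 829838910017) (nat_lit 76) (nat_lit 829072656604) (nat_lit 1) (nat_lit 4) (nat_lit 2) (nat_lit 5) (nat_lit 2) (nat_lit 4) (nat_lit 273) (nat_lit 204) (nat_lit 183)) (XT.nd (nat_lit 78) (nat_lit 0) (nat_lit 0) (XT.lf (nat_lit 0) (nat_lit 173523377094) (nat_lit 76) (nat_lit 953073533782) (nat_lit 76) (nat_lit 952301672200) (nat_lit 1) (nat_lit 4) (nat_lit 2) (nat_lit 5) (nat_lit 2) (nat_lit 4) (nat_lit 274) (nat_lit 204) (nat_lit 182)) (XT.lf (nat_lit 0) (nat_lit 201734709585) (nat_lit 76) (nat_lit 1094806548899) (nat_lit 76) (nat_lit 1094029810647) (nat_lit 1) (nat_lit 4) (nat_lit 2) (nat_lit 5) (nat_lit 2) (nat_lit 4) (nat_lit 275) (nat_lit 204) (nat_lit 181))))))) (XT.nd (nat_lit 702) (nat_lit 0) (nat_lit 0) (XT.nd (nat_lit 312) (nat_lit 0) (nat_lit 0) (XT.nd (nat_lit 156) (nat_lit 0) (nat_lit 0) (XT.nd (nat_lit 78) (nat_lit 0) (nat_lit 0) (XT.lf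 (nat_lit 0) (nat_lit 234155104844) (nat_lit 76) (nat_lit 1257810992619) (nat_lit 76) (nat_lit 1257030013785) (nat_lit 1) (nat_lit 4) (nat_lit 2) (nat_lit 5) (nat_lit 2) (nat_lit 4) (nat_lit 276) (nat_lit 204) (nat_lit 180)) (XT.lf (nat_lit 0) (nat_lit 271418874953) (nat_lit 76) (nat_lit 1445276082319) (nat_lit 76) (nat_lit 1444491416023) (nat_lit 1) (nat_lit 4) (nat_lit 2) (nat_lit 5) (nat_lit 2) (nat_lit 4) (nat_lit 277) (nat_lit 204) (nat_lit 179))) (XT.nd (nat_lit 78) (nat_lit 0) (nat_lit 0) (XT.lf (nat_lit 0) (nat_lit 314255093674) (nat_lit 76) (nat_lit 1660869613234) (nat_lit 76) (nat_lit 1660081740448) (nat_lit 1) (nat_lit 4) (nat_lit 2) (nat_lit 5) (nat_lit 2) (nat_lit 4) (nat_lit 278) (nat_lit 204) (nat_lit 178)) (XT.lf (nat_lit 0) (nat_lit 363501860940) (nat_lit 76) (nat_lit 1908809719663) (nat_lit 76) (nat_lit 1908019058625) (nat_lit 1) (nat_lit 4) (nat_lit 2) (nat_lit 5) (nat_lit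 2) (nat_lit 4) (nat_lit 279) (nat_lit 204) (nat_lit 177)))) (XT.nd (nat_lit 156) (nat_lit 0) (nat_lit 0) (XT.nd (nat_lit 78) (nat_lit 0) (nat_lit 0) (XT.lf (nat_lit 0) (nat_lit 420122700458) (nat_lit 76) (nat_lit 2193947403689) (nat_lit 76) (nat_lit 2193154318085) (nat_lit 1) (nat_lit 4) (nat_lit 2) (nat_lit 5) (nat_lit 2) (nat_lit 4) (nat_lit 280) (nat_lit 204) (nat_lit 176)) (XT.lf (nat_lit 0) (nat_lit 485225411261) (nat_lit 76) (nat_lit 2521861446086) (nat_lit 76) (nat_lit 2521066252163) (nat_lit 1) (nat_lit 4) (nat_lit 2) (nat_lit 5) (nat_lit 2) (nat_lit 4) (nat_lit 281) (nat_lit 204) (nat_lit 175))) (XT.nd (nat_lit 78) (nat_lit 0) (nat_lit 0) (XT.lf (nat_lit 0) (nat_lit 560083742039) (nat_lit 76) (nat_lit 2898967556379) (nat_lit 76) (nat_lit 2898170529135) (nat_lit 1) (nat_lit 4) (nat_lit 2) (nat_lit 5) (nat_lit 2) (nat_lit 4) (nat_lit 282) (nat_lit 204) (nat_lit 174)) (XT.nd (nat_lit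 78) (nat_lit 0) (nat_lit 0) (XT.lf (nat_lit 0) (nat_lit 646162312308) (nat_lit 76) (nat_lit 3332643897596) (nat_lit 76) (nat_lit 3331845276161) (nat_lit 1) (nat_lit 4) (nat_lit 2) (nat_lit 5) (nat_lit 2) (nat_lit 4) (nat_lit 283) (nat_lit 204) (nat_lit 173)) (XT.lf (nat_lit 0) (nat_lit 745145268007) (nat_lit 76) (nat_lit 3831375441630) (nat_lit 76) (nat_lit 3830575433941) (nat_lit 1) (nat_lit 4) (nat_lit 2) (nat_lit 5) (nat_lit 2) (nat_lit 4) (nat_lit 284) (nat_lit 204) (nat_lit 172)))))) (XT.nd (nat_lit 312) (nat_lit 0) (nat_lit 0) (XT.nd (nat_lit 156) (nat_lit 0) (nat_lit 0) (XT.nd (nat_lit 78) (nat_lit 0) (nat_lit 0) (XT.lf (nat_lit 0) (nat_lit 858969232183) (nat_lit 76) (nat_lit 4404919979560) (nat_lit 76) (nat_lit 4404118766433) (nat_lit 1) (nat_lit 4) (nat_lit 2) (nat_lit 5) (nat_lit 2) (nat_lit 4) (nat_lit 285) (nat_lit 204) (nat_lit 171)) (XT.lf (nat_lit 0) (nat_lit 989861195440)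 (nat_lit 76) (nat_lit 5064499034955) (nat_lit 76) (nat_lit 5063696773621) (nat_lit 1) (nat_lit 4) (nat_lit 2) (nat_lit 5) (nat_lit 2) (nat_lit 4) (nat_lit 286) (nat_lit 204) (nat_lit 170))) (XT.nd (nat_lit 78) (nat_lit 0) (nat_lit 0) (XT.lf (nat_lit 0) (nat_lit 1140382087493) (nat_lit 76) (nat_lit 5823017415419) (nat_lit 76) (nat_lit 5822214242601) (nat_lit 1) (nat_lit 4) (nat_lit 2) (nat_lit 5) (nat_lit 2) (nat_lit 4) (nat_lit 287) (nat_lit 204) (nat_lit 169)) (XT.lf (nat_lit 0) (nat_lit 1313476882316) (nat_lit 76) (nat_lit 6695315697963) (nat_lit 76) (nat_lit 6694511732549) (nat_lit 1) (nat_lit 4) (nat_lit 2) (nat_lit 5) (nat_lit 2) (nat_lit 4) (nat_lit 288) (nat_lit 204) (nat_lit 168)))) (XT.nd (nat_lit 156) (nat_lit 0) (nat_lit 0) (XT.nd (nat_lit 78) (nat_lit 0) (nat_lit 0) (XT.lf (nat_lit 0) (nat_lit 1512532217201) (nat_lit 76) (nat_lit 7698460588113) (nat_lit 76) (nat_lit 7697655933486)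 (nat_lit 1) (nat_lit 4) (nat_lit 2) (nat_lit 5) (nat_lit 2) (nat_lit 4) (nat_lit 289) (nat_lit 204) (nat_lit 167)) (XT.lf (nat_lit 0) (nat_lit 1741442653047) (nat_lit 76) (nat_lit 8852078833721) (nat_lit 76) (nat_lit 8851273579778) (nat_lit 1) (nat_lit 4) (nat_lit 2) (nat_lit 5) (nat_lit 2) (nat_lit 4) (nat_lit 290) (nat_lit 204) (nat_lit 166))) (XT.nd (nat_lit 78) (nat_lit 0) (nat_lit 0) (XT.lf (nat_lit 0) (nat_lit 2004686872295) (nat_lit 76) (nat_lit 10178741226548) (nat_lit 76) (nat_lit 10177935451462) (nat_lit 1) (nat_lit 4) (nat_lit 2) (nat_lit 5) (nat_lit 2) (nat_lit 4) (nat_lit 291) (nat_lit 204) (nat_lit 165)) (XT.nd (nat_lit 78) (nat_lit 0) (nat_lit 0) (XT.lf (nat_lit 0) (nat_lit 2307415305321) (nat_lit 76) (nat_lit 11704404204716) (nat_lit 76) (nat_lit 11703597976461) (nat_lit 1) (nat_lit 4) (nat_lit 2) (nat_lit 5) (nat_lit 2) (nat_lit 4) (nat_lit 292) (nat_lit 204) (nat_lit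 164)) (XT.lf (nat_lit 0) (nat_lit 2655550899727) (nat_lit 76) (nat_lit 13458917696058) (nat_lit 76) (nat_lit 13458111073743) (nat_lit 1) (nat_lit 4) (nat_lit 2) (nat_lit 5) (nat_lit 2) (nat_lit 4) (nat_lit 293) (nat_lit 204) (nat_lit 163))))))))
noncomputable def xc20 : XT := (XT.nd (nat_lit 31746) (nat_lit 0) (nat_lit 0) (XT.nd (nat_lit 31044) (nat_lit 0) (nat_lit 0) (XT.nd (nat_lit 312) (nat_lit 0) (nat_lit 0) (XT.nd (nat_lit 156) (nat_lit 0) (nat_lit 0) (XT.nd (nat_lit 78) (nat_lit 0) (nat_lit 0) (XT.lf (nat_lit 0) (nat_lit 3055905004101) (nat_lit 76) (nat_lit 15476609138447) (nat_lit 76) (nat_lit 15475802173471) (nat_lit 1) (nat_lit 4) (nat_lit 2) (nat_lit 5) (nat_lit 2) (nat_lit 4) (nat_lit 294) (nat_lit 204) (nat_lit 162)) (XT.lf (nat_lit 0) (nat_lit 3516310633527) (nat_lit 76) (nat_lit 17796955103584) (nat_lit 76) (nat_lit 17796147840642) (nat_lit 1) (nat_lit 4) (nat_lit 2) (nat_lit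 5) (nat_lit 2) (nat_lit 4) (nat_lit 295) (nat_lit 204) (nat_lit 161))) (XT.nd (nat_lit 78) (nat_lit 0) (nat_lit 0) (XT.lf (nat_lit 0) (nat_lit 4045775724233) (nat_lit 76) (nat_lit 20465353664698) (nat_lit 76) (nat_lit 20464546142656) (nat_lit 1) (nat_lit 4) (nat_lit 2) (nat_lit 5) (nat_lit 2) (nat_lit 4) (nat_lit 296) (nat_lit 204) (nat_lit 160)) (XT.lf (nat_lit 0) (nat_lit 4654659375821) (nat_lit 76) (nat_lit 23534012619725) (nat_lit 76) (nat_lit 23533204872378) (nat_lit 1) (nat_lit 4) (nat_lit 2) (nat_lit 5) (nat_lit 2) (nat_lit 4) (nat_lit 297) (nat_lit 204) (nat_lit 159)))) (XT.nd (nat_lit 156) (nat_lit 0) (nat_lit 0) (XT.nd (nat_lit 78) (nat_lit 0) (nat_lit 0) (XT.lf (nat_lit 0) (nat_lit 5354874529299) (nat_lit 76) (nat_lit 27062970948220) (nat_lit 76) (nat_lit 27062163004955) (nat_lit 1) (nat_lit 4) (nat_lit 2) (nat_lit 5) (nat_lit 2) (nat_lit 4) (nat_lit 298) (nat_lit 204) (nat_lit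 158)) (XT.lf (nat_lit 0) (nat_lit 6160121046367) (nat_lit 76) (nat_lit 31121273487043) (nat_lit 76) (nat_lit 31120465373416) (nat_lit 1) (nat_lit 4) (nat_lit 2) (nat_lit 5) (nat_lit 2) (nat_lit 4) (nat_lit 299) (nat_lit 204) (nat_lit 157))) (XT.nd (nat_lit 1482) (nat_lit 0) (nat_lit 0) (XT.lf (nat_lit 0) (nat_lit 7086153750183) (nat_lit 76) (nat_lit 35788321807608) (nat_lit 76) (nat_lit 35787513545839) (nat_lit 1) (nat_lit 4) (nat_lit 2) (nat_lit 5) (nat_lit 2) (nat_lit 4) (nat_lit 300) (nat_lit 204) (nat_lit 156)) (XT.nd (nat_lit 29016) (nat_lit 0) (nat_lit 76) (XT.lf (nat_lit 0) (nat_lit 101025995294568) (nat_lit 76) (nat_lit 509230542109455) (nat_lit 76) (nat_lit 509229732929469) (nat_lit 1) (nat_lit 4) (nat_lit 2) (nat_lit 5) (nat_lit 2) (nat_lit 4) (nat_lit 319) (nat_lit 204) (nat_lit 137)) (XT.lf (nat_lit 0) (nat_lit 13157671430) (nat_lit 152) (nat_lit 11048917103) (nat_lit 0)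 (nat_lit 13157671430) (nat_lit 2) (nat_lit 5) (nat_lit 4) (nat_lit 4) (nat_lit 2) (nat_lit 4) (nat_lit 250) (nat_lit 205) (nat_lit 205)))))) (XT.nd (nat_lit 312) (nat_lit 76) (nat_lit 0) (XT.nd (nat_lit 156) (nat_lit 0) (nat_lit 0) (XT.nd (nat_lit 78) (nat_lit 0) (nat_lit 0) (XT.lf (nat_lit 0) (nat_lit 33117576692) (nat_lit 152) (nat_lit 19372205005) (nat_lit 0) (nat_lit 32996189285) (nat_lit 2) (nat_lit 5) (nat_lit 4) (nat_lit 4) (nat_lit 2) (nat_lit 4) (nat_lit 251) (nat_lit 205) (nat_lit 204)) (XT.lf (nat_lit 0) (nat_lit 40685669905) (nat_lit 152) (nat_lit 16751037919) (nat_lit 0) (nat_lit 40458728231) (nat_lit 2) (nat_lit 5) (nat_lit 4) (nat_lit 4) (nat_lit 2) (nat_lit 4) (nat_lit 252) (nat_lit 205) (nat_lit 203))) (XT.nd (nat_lit 78) (nat_lit 0) (nat_lit 0) (XT.lf (nat_lit 0) (nat_lit 49167693888) (nat_lit 152) (nat_lit 14183049244) (nat_lit 0) (nat_lit 48848965895) (nat_lit 2)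 (nat_lit 5) (nat_lit 4) (nat_lit 4) (nat_lit 2) (nat_lit 4) (nat_lit 253) (nat_lit 205) (nat_lit 202)) (XT.lf (nat_lit 0) (nat_lit 58729601286) (nat_lit 152) (nat_lit 11617995722) (nat_lit 0) (nat_lit 58331059102) (nat_lit 2) (nat_lit 5) (nat_lit 4) (nat_lit 4) (nat_lit 2) (nat_lit 4) (nat_lit 254) (nat_lit 205) (nat_lit 201)))) (XT.nd (nat_lit 156) (nat_lit 76) (nat_lit 0) (XT.nd (nat_lit 78) (nat_lit 0) (nat_lit 0) (XT.lf (nat_lit 0) (nat_lit 69558472895) (nat_lit 152) (nat_lit 9005691525) (nat_lit 0) (nat_lit 69090527067) (nat_lit 2) (nat_lit 5) (nat_lit 4) (nat_lit 4) (nat_lit 2) (nat_lit 4) (nat_lit 255) (nat_lit 205) (nat_lit 200)) (XT.lf (nat_lit 0) (nat_lit 81866177941) (nat_lit 152) (nat_lit 6295026352) (nat_lit 0) (nat_lit 81337881119) (nat_lit 2) (nat_lit 5) (nat_lit 4) (nat_lit 4) (nat_lit 2) (nat_lit 4) (nat_lit 256) (nat_lit 205) (nat_lit 199))) (XT.nd (nat_lit 78) (nat_lit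 76) (nat_lit 0) (XT.lf (nat_lit 0) (nat_lit 95893519351) (nat_lit 152) (nat_lit 3432965451) (nat_lit 0) (nat_lit 95312743402) (nat_lit 2) (nat_lit 5) (nat_lit 4) (nat_lit 4) (nat_lit 2) (nat_lit 4) (nat_lit 257) (nat_lit 205) (nat_lit 198)) (XT.nd (nat_lit 78) (nat_lit 76) (nat_lit 0) (XT.lf (nat_lit 0) (nat_lit 111914945107) (nat_lit 152) (nat_lit 363511977) (nat_lit 0) (nat_lit 111288535136) (nat_lit 2) (nat_lit 5) (nat_lit 4) (nat_lit 4) (nat_lit 2) (nat_lit 4) (nat_lit 258) (nat_lit 205) (nat_lit 197)) (XT.lf (nat_lit 0) (nat_lit 3263969751) (nat_lit 76) (nat_lit 127115102164) (nat_lit 76) (nat_lit 126449010434) (nat_lit 1) (nat_lit 4) (nat_lit 2) (nat_lit 5) (nat_lit 2) (nat_lit 4) (nat_lit 259) (nat_lit 205) (nat_lit 196))))))) (XT.nd (nat_lit 702) (nat_lit 0) (nat_lit 0) (XT.nd (nat_lit 312) (nat_lit 0) (nat_lit 0) (XT.nd (nat_lit 156) (nat_lit 0) (nat_lit 0) (XT.nd (nat_lit 78)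 (nat_lit 0) (nat_lit 0) (XT.lf (nat_lit 0) (nat_lit 7292228010) (nat_lit 76) (nat_lit 144248775632) (nat_lit 76) (nat_lit 143548178025) (nat_lit 1) (nat_lit 4) (nat_lit 2) (nat_lit 5) (nat_lit 2) (nat_lit 4) (nat_lit 260) (nat_lit 205) (nat_lit 195)) (XT.lf (nat_lit 0) (nat_lit 11764551513) (nat_lit 76) (nat_lit 164033703298) (nat_lit 76) (nat_lit 163303100581) (nat_lit 1) (nat_lit 4) (nat_lit 2) (nat_lit 5) (nat_lit 2) (nat_lit 4) (nat_lit 261) (nat_lit 205) (nat_lit 194))) (XT.nd (nat_lit 78) (nat_lit 0) (nat_lit 0) (XT.lf (nat_lit 0) (nat_lit 16768442242) (nat_lit 76) (nat_lit 186856981572) (nat_lit 76) (nat_lit 186100287454) (nat_lit 1) (nat_lit 4) (nat_lit 2) (nat_lit 5) (nat_lit 2) (nat_lit 4) (nat_lit 262) (nat_lit 205) (nat_lit 193)) (XT.lf (nat_lit 0) (nat_lit 22401802408) (nat_lit 76) (nat_lit 213165152856) (nat_lit 76) (nat_lit 212385770563) (nat_lit 1) (nat_lit 4) (nat_lit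 2) (nat_lit 5) (nat_lit 2) (nat_lit 4) (nat_lit 263) (nat_lit 205) (nat_lit 192)))) (XT.nd (nat_lit 156) (nat_lit 0) (nat_lit 0) (XT.nd (nat_lit 78) (nat_lit 0) (nat_lit 0) (XT.lf (nat_lit 0) (nat_lit 28774849925) (nat_lit 76) (nat_lit 243472942239) (nat_lit 76) (nat_lit 242673831099) (nat_lit 1) (nat_lit 4) (nat_lit 2) (nat_lit 5) (nat_lit 2) (nat_lit 4) (nat_lit 264) (nat_lit 205) (nat_lit 191)) (XT.lf (nat_lit 0) (nat_lit 36012274855) (nat_lit 76) (nat_lit 278373328210) (nat_lit 76) (nat_lit 277557061551) (nat_lit 1) (nat_lit 4) (nat_lit 2) (nat_lit 5) (nat_lit 2) (nat_lit 4) (nat_lit 265) (nat_lit 205) (nat_lit 190))) (XT.nd (nat_lit 78) (nat_lit 0) (nat_lit 0) (XT.lf (nat_lit 0) (nat_lit 44255678990) (nat_lit 76) (nat_lit 318549144407) (nat_lit 76) (nat_lit 317717959905) (nat_lit 1) (nat_lit 4) (nat_lit 2) (nat_lit 5) (nat_lit 2) (nat_lit 4) (nat_lit 266) (nat_lit 205) (nat_lit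 189)) (XT.nd (nat_lit 78) (nat_lit 0) (nat_lit 0) (XT.lf (nat_lit 0) (nat_lit 53666346323) (nat_lit 76) (nat_lit 364786439408) (nat_lit 76) (nat_lit 363942282869) (nat_lit 1) (nat_lit 4) (nat_lit 2) (nat_lit 5) (nat_lit 2) (nat_lit 4) (nat_lit 267) (nat_lit 205) (nat_lit 188)) (XT.lf (nat_lit 0) (nat_lit 64428398606) (nat_lit 76) (nat_lit 417989855942) (nat_lit 76) (nat_lit 417134419370) (nat_lit 1) (nat_lit 4) (nat_lit 2) (nat_lit 5) (nat_lit 2) (nat_lit 4) (nat_lit 268) (nat_lit 205) (nat_lit 187)))))) (XT.nd (nat_lit 312) (nat_lit 0) (nat_lit 0) (XT.nd (nat_lit 156) (nat_lit 0) (nat_lit 0) (XT.nd (nat_lit 78) (nat_lit 0) (nat_lit 0) (XT.lf (nat_lit 0) (nat_lit 76752397733) (nat_lit 76) (nat_lit 479200330418) (nat_lit 76) (nat_lit 478335085122) (nat_lit 1) (nat_lit 4) (nat_lit 2) (nat_lit 5) (nat_lit 2) (nat_lit 4) (nat_lit 269) (nat_lit 205) (nat_lit 186)) (XT.lf (nat_lit 0) (nat_lit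 90879465424) (nat_lit 76) (nat_lit 549615459076) (nat_lit 76) (nat_lit 548741684456) (nat_lit 1) (nat_lit 4) (nat_lit 2) (nat_lit 5) (nat_lit 2) (nat_lit 4) (nat_lit 270) (nat_lit 205) (nat_lit 185))) (XT.nd (nat_lit 78) (nat_lit 0) (nat_lit 0) (XT.lf (nat_lit 0) (nat_lit 107086000832) (nat_lit 76) (nat_lit 630612929217) (nat_lit 76) (nat_lit 629731737792) (nat_lit 1) (nat_lit 4) (nat_lit 2) (nat_lit 5) (nat_lit 2) (nat_lit 4) (nat_lit 271) (nat_lit 205) (nat_lit 184)) (XT.lf (nat_lit 0) (nat_lit 125689088343) (nat_lit 76) (nat_lit 723777473952) (nat_lit 76) (nat_lit 722889833131) (nat_lit 1) (nat_lit 4) (nat_lit 2) (nat_lit 5) (nat_lit 2) (nat_lit 4) (nat_lit 272) (nat_lit 205) (nat_lit 183)))) (XT.nd (nat_lit 156) (nat_lit 0) (nat_lit 0) (XT.nd (nat_lit 78) (nat_lit 0) (nat_lit 0) (XT.lf (nat_lit 0) (nat_lit 147052701410) (nat_lit 76) (nat_lit 830931877851) (nat_lit 76) (nat_lit 830038628861)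 (nat_lit 1) (nat_lit 4) (nat_lit 2) (nat_lit 5) (nat_lit 2) (nat_lit 4) (nat_lit 273) (nat_lit 205) (nat_lit 182)) (XT.lf (nat_lit 0) (nat_lit 171594823766) (nat_lit 76) (nat_lit 954172640121) (nat_lit 76) (nat_lit 953274514462) (nat_lit 1) (nat_lit 4) (nat_lit 2) (nat_lit 5) (nat_lit 2) (nat_lit 4) (nat_lit 274) (nat_lit 205) (nat_lit 181))) (XT.nd (nat_lit 78) (nat_lit 0) (nat_lit 0) (XT.lf (nat_lit 0) (nat_lit 199795627371) (nat_lit 76) (nat_lit 1095910993068) (nat_lit 76) (nat_lit 1095008626827) (nat_lit 1) (nat_lit 4) (nat_lit 2) (nat_lit 5) (nat_lit 2) (nat_lit 4) (nat_lit 275) (nat_lit 205) (nat_lit 180)) (XT.nd (nat_lit 78) (nat_lit 0) (nat_lit 0) (XT.lf (nat_lit 0) (nat_lit 232206867077) (nat_lit 76) (nat_lit 1258920078380) (nat_lit 76) (nat_lit 1258014024676) (nat_lit 1) (nat_lit 4) (nat_lit 2) (nat_lit 5) (nat_lit 2) (nat_lit 4) (nat_lit 276) (nat_lit 205) (nat_lit 179)) (XT.lf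 (nat_lit 0) (nat_lit 269462675835) (nat_lit 76) (nat_lit 1446389204248) (nat_lit 76) (nat_lit 1445479944055) (nat_lit 1) (nat_lit 4) (nat_lit 2) (nat_lit 5) (nat_lit 2) (nat_lit 4) (nat_lit 277) (nat_lit 205) (nat_lit 178))))))))
noncomputable def xc21 : XT := (XT.nd (nat_lit 1404) (nat_lit 0) (nat_lit 0) (XT.nd (nat_lit 702) (nat_lit 0) (nat_lit 0) (XT.nd (nat_lit 312) (nat_lit 0) (nat_lit 0) (XT.nd (nat_lit 156) (nat_lit 0) (nat_lit 0) (XT.nd (nat_lit 78) (nat_lit 0) (nat_lit 0) (XT.lf (nat_lit 0) (nat_lit 312291971643) (nat_lit 76) (nat_lit 1661986244873) (nat_lit 76) (nat_lit 1661074196428) (nat_lit 1) (nat_lit 4) (nat_lit 2) (nat_lit 5) (nat_lit 2) (nat_lit 4) (nat_lit 278) (nat_lit 205) (nat_lit 177)) (XT.lf (nat_lit 0) (nat_lit 361532718984) (nat_lit 76) (nat_lit 1909929403224) (nat_lit 76) (nat_lit 1909014930213) (nat_lit 1) (nat_lit 4) (nat_lit 2) (nat_lit 5) (nat_lit 2) (nat_lit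 4) (nat_lit 279) (nat_lit 205) (nat_lit 176))) (XT.nd (nat_lit 78) (nat_lit 0) (nat_lit 0) (XT.lf (nat_lit 0) (nat_lit 418148323784) (nat_lit 76) (nat_lit 2195069741095) (nat_lit 76) (nat_lit 2194153159765) (nat_lit 1) (nat_lit 4) (nat_lit 2) (nat_lit 5) (nat_lit 2) (nat_lit 4) (nat_lit 280) (nat_lit 205) (nat_lit 175)) (XT.lf (nat_lit 0) (nat_lit 483246482659) (nat_lit 76) (nat_lit 2522986091183) (nat_lit 76) (nat_lit 2522067676533) (nat_lit 1) (nat_lit 4) (nat_lit 2) (nat_lit 5) (nat_lit 2) (nat_lit 4) (nat_lit 281) (nat_lit 205) (nat_lit 174)))) (XT.nd (nat_lit 156) (nat_lit 0) (nat_lit 0) (XT.nd (nat_lit 78) (nat_lit 0) (nat_lit 0) (XT.lf (nat_lit 0) (nat_lit 558100855239) (nat_lit 76) (nat_lit 2900094208165) (nat_lit 76) (nat_lit 2899174199322) (nat_lit 1) (nat_lit 4) (nat_lit 2) (nat_lit 5) (nat_lit 2) (nat_lit 4) (nat_lit 282) (nat_lit 205) (nat_lit 173)) (XT.lf (nat_lit 0) (nat_lit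 644175983597) (nat_lit 76) (nat_lit 3333772294328) (nat_lit 76) (nat_lit 3332850899232) (nat_lit 1) (nat_lit 4) (nat_lit 2) (nat_lit 5) (nat_lit 2) (nat_lit 4) (nat_lit 283) (nat_lit 205) (nat_lit 172))) (XT.nd (nat_lit 78) (nat_lit 0) (nat_lit 0) (XT.lf (nat_lit 0) (nat_lit 743155946329) (nat_lit 76) (nat_lit 3832505355707) (nat_lit 76) (nat_lit 3831582755173) (nat_lit 1) (nat_lit 4) (nat_lit 2) (nat_lit 5) (nat_lit 2) (nat_lit 4) (nat_lit 284) (nat_lit 205) (nat_lit 171)) (XT.nd (nat_lit 78) (nat_lit 0) (nat_lit 0) (XT.lf (nat_lit 0) (nat_lit 856977307926) (nat_lit 76) (nat_lit 4406051213067) (nat_lit 76) (nat_lit 4405127564326) (nat_lit 1) (nat_lit 4) (nat_lit 2) (nat_lit 5) (nat_lit 2) (nat_lit 4) (nat_lit 285) (nat_lit 205) (nat_lit 170)) (XT.lf (nat_lit 0) (nat_lit 987867008070) (nat_lit 76) (nat_lit 5065631415792) (nat_lit 76) (nat_lit 5064706855567) (nat_lit 1) (nat_lit 4) (nat_lit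 2) (nat_lit 5) (nat_lit 2) (nat_lit 4) (nat_lit 286) (nat_lit 205) (nat_lit 169)))))) (XT.nd (nat_lit 312) (nat_lit 0) (nat_lit 0) (XT.nd (nat_lit 156) (nat_lit 0) (nat_lit 0) (XT.nd (nat_lit 78) (nat_lit 0) (nat_lit 0) (XT.lf (nat_lit 0) (nat_lit 1138385932199) (nat_lit 76) (nat_lit 5824150793935) (nat_lit 76) (nat_lit 5823225441115) (nat_lit 1) (nat_lit 4) (nat_lit 2) (nat_lit 5) (nat_lit 2) (nat_lit 4) (nat_lit 287) (nat_lit 205) (nat_lit 168)) (XT.lf (nat_lit 0) (nat_lit 1311479015784) (nat_lit 76) (nat_lit 6696449944026) (nat_lit 76) (nat_lit 6695523901992) (nat_lit 1) (nat_lit 4) (nat_lit 2) (nat_lit 5) (nat_lit 2) (nat_lit 4) (nat_lit 288) (nat_lit 205) (nat_lit 167))) (XT.nd (nat_lit 78) (nat_lit 0) (nat_lit 0) (XT.lf (nat_lit 0) (nat_lit 1510532862636) (nat_lit 76) (nat_lit 7699595588564) (nat_lit 76) (nat_lit 7698668947215) (nat_lit 1) (nat_lit 4) (nat_lit 2) (nat_lit 5) (nat_lit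 2) (nat_lit 4) (nat_lit 289) (nat_lit 205) (nat_lit 166)) (XT.lf (nat_lit 0) (nat_lit 1739442004540) (nat_lit 76) (nat_lit 8853214490162) (nat_lit 76) (nat_lit 8852287327668) (nat_lit 1) (nat_lit 4) (nat_lit 2) (nat_lit 5) (nat_lit 2) (nat_lit 4) (nat_lit 290) (nat_lit 205) (nat_lit 165)))) (XT.nd (nat_lit 156) (nat_lit 0) (nat_lit 0) (XT.nd (nat_lit 78) (nat_lit 0) (nat_lit 0) (XT.lf (nat_lit 0) (nat_lit 2002685098620) (nat_lit 76) (nat_lit 10179877453416) (nat_lit 76) (nat_lit 10178949837753) (nat_lit 1) (nat_lit 4) (nat_lit 2) (nat_lit 5) (nat_lit 2) (nat_lit 4) (nat_lit 291) (nat_lit 205) (nat_lit 164)) (XT.lf (nat_lit 0) (nat_lit 2305412553240) (nat_lit 76) (nat_lit 11705540927606) (nat_lit 76) (nat_lit 11704612917884) (nat_lit 1) (nat_lit 4) (nat_lit 2) (nat_lit 5) (nat_lit 2) (nat_lit 4) (nat_lit 292) (nat_lit 205) (nat_lit 163))) (XT.nd (nat_lit 78) (nat_lit 0) (nat_lit 0) (XT.lf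 (nat_lit 0) (nat_lit 2653547296858) (nat_lit 76) (nat_lit 13460054850272) (nat_lit 76) (nat_lit 13459126497889) (nat_lit 1) (nat_lit 4) (nat_lit 2) (nat_lit 5) (nat_lit 2) (nat_lit 4) (nat_lit 293) (nat_lit 205) (nat_lit 162)) (XT.nd (nat_lit 78) (nat_lit 0) (nat_lit 0) (XT.lf (nat_lit 0) (nat_lit 3053900661416) (nat_lit 76) (nat_lit 15477746667726) (nat_lit 76) (nat_lit 15476818017377) (nat_lit 1) (nat_lit 4) (nat_lit 2) (nat_lit 5) (nat_lit 2) (nat_lit 4) (nat_lit 294) (nat_lit 205) (nat_lit 161)) (XT.lf (nat_lit 0) (nat_lit 3514305647524) (nat_lit 76) (nat_lit 17798092959005) (nat_lit 76) (nat_lit 17797164049556) (nat_lit 1) (nat_lit 4) (nat_lit 2) (nat_lit 5) (nat_lit 2) (nat_lit 4) (nat_lit 295) (nat_lit 205) (nat_lit 160))))))) (XT.nd (nat_lit 30810) (nat_lit 0) (nat_lit 76) (XT.nd (nat_lit 1638) (nat_lit 0) (nat_lit 0) (XT.nd (nat_lit 156) (nat_lit 0) (nat_lit 0) (XT.nd (nat_lit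 78) (nat_lit 0) (nat_lit 0) (XT.lf (nat_lit 0) (nat_lit 4043770178824) (nat_lit 76) (nat_lit 20466491803722) (nat_lit 76) (nat_lit 20465562668968) (nat_lit 1) (nat_lit 4) (nat_lit 2) (nat_lit 5) (nat_lit 2) (nat_lit 4) (nat_lit 296) (nat_lit 205) (nat_lit 159)) (XT.lf (nat_lit 0) (nat_lit 4652653343971) (nat_lit 76) (nat_lit 23535151005360) (nat_lit 76) (nat_lit 23534221674688) (nat_lit 1) (nat_lit 4) (nat_lit 2) (nat_lit 5) (nat_lit 2) (nat_lit 4) (nat_lit 297) (nat_lit 205) (nat_lit 158))) (XT.nd (nat_lit 78) (nat_lit 0) (nat_lit 0) (XT.lf (nat_lit 0) (nat_lit 5352868074458) (nat_lit 76) (nat_lit 27064109548299) (nat_lit 76) (nat_lit 27063180047264) (nat_lit 1) (nat_lit 4) (nat_lit 2) (nat_lit 5) (nat_lit 2) (nat_lit 4) (nat_lit 298) (nat_lit 205) (nat_lit 157)) (XT.lf (nat_lit 0) (nat_lit 6158114223706) (nat_lit 76) (nat_lit 31122412273596) (nat_lit 76) (nat_lit 31121482624419) (nat_lit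 1) (nat_lit 4) (nat_lit 2) (nat_lit 5) (nat_lit 2) (nat_lit 4) (nat_lit 299) (nat_lit 205) (nat_lit 156)))) (XT.nd (nat_lit 156) (nat_lit 0) (nat_lit 0) (XT.nd (nat_lit 78) (nat_lit 0) (nat_lit 0) (XT.lf (nat_lit 0) (nat_lit 76384890351272) (nat_lit 76) (nat_lit 385054443225664) (nat_lit 76) (nat_lit 385053512668679) (nat_lit 1) (nat_lit 4) (nat_lit 2) (nat_lit 5) (nat_lit 2) (nat_lit 4) (nat_lit 317) (nat_lit 205) (nat_lit 138)) (XT.lf (nat_lit 0) (nat_lit 87844934940412) (nat_lit 76) (nat_lit 442811298487546) (nat_lit 76) (nat_lit 442810367920153) (nat_lit 1) (nat_lit 4) (nat_lit 2) (nat_lit 5) (nat_lit 2) (nat_lit 4) (nat_lit 318) (nat_lit 205) (nat_lit 137))) (XT.nd (nat_lit 28860) (nat_lit 0) (nat_lit 76) (XT.lf (nat_lit 0) (nat_lit 101023986169606) (nat_lit 76) (nat_lit 509231682063205) (nat_lit 76) (nat_lit 509230751486761) (nat_lit 1) (nat_lit 4) (nat_lit 2) (nat_lit 5) (nat_lit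 2) (nat_lit 4) (nat_lit 319) (nat_lit 205) (nat_lit 136)) (XT.nd (nat_lit 78) (nat_lit 0) (nat_lit 0) (XT.lf (nat_lit 0) (nat_lit 7392306297) (nat_lit 152) (nat_lit 13881566534) (nat_lit 0) (nat_lit 7392306297) (nat_lit 2) (nat_lit 5) (nat_lit 4) (nat_lit 4) (nat_lit 2) (nat_lit 4) (nat_lit 248) (nat_lit 206) (nat_lit 206)) (XT.lf (nat_lit 0) (nat_lit 20285476746) (nat_lit 152) (nat_lit 24981253049) (nat_lit 0) (nat_lit 20145881228) (nat_lit 2) (nat_lit 5) (nat_lit 4) (nat_lit 4) (nat_lit 2) (nat_lit 4) (nat_lit 249) (nat_lit 206) (nat_lit 205)))))) (XT.nd (nat_lit 312) (nat_lit 0) (nat_lit 0) (XT.nd (nat_lit 156) (nat_lit 0) (nat_lit 0) (XT.nd (nat_lit 78) (nat_lit 0) (nat_lit 0) (XT.lf (nat_lit 0) (nat_lit 26318823473) (nat_lit 152) (nat_lit 22372393493) (nat_lit 0) (nat_lit 26057840548) (nat_lit 2) (nat_lit 5) (nat_lit 4) (nat_lit 4) (nat_lit 2) (nat_lit 4) (nat_lit 250) (nat_lit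 206) (nat_lit 204)) (XT.lf (nat_lit 0) (nat_lit 33002696517) (nat_lit 152) (nat_lit 19885511500) (nat_lit 0) (nat_lit 32636159325) (nat_lit 2) (nat_lit 5) (nat_lit 4) (nat_lit 4) (nat_lit 2) (nat_lit 4) (nat_lit 251) (nat_lit 206) (nat_lit 203))) (XT.nd (nat_lit 78) (nat_lit 0) (nat_lit 0) (XT.lf (nat_lit 0) (nat_lit 40467867306) (nat_lit 152) (nat_lit 17471950680) (nat_lit 0) (nat_lit 40009543795) (nat_lit 2) (nat_lit 5) (nat_lit 4) (nat_lit 4) (nat_lit 2) (nat_lit 4) (nat_lit 252) (nat_lit 206) (nat_lit 202)) (XT.lf (nat_lit 0) (nat_lit 48860393530) (nat_lit 152) (nat_lit 15084489193) (nat_lit 0) (nat_lit 48322255828) (nat_lit 2) (nat_lit 5) (nat_lit 4) (nat_lit 4) (nat_lit 2) (nat_lit 4) (nat_lit 253) (nat_lit 206) (nat_lit 201)))) (XT.nd (nat_lit 156) (nat_lit 0) (nat_lit 0) (XT.nd (nat_lit 78) (nat_lit 0) (nat_lit 0) (XT.lf (nat_lit 0) (nat_lit 58344476789) (nat_lit 152) (nat_lit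 12676415836) (nat_lit 0) (nat_lit 57736935443) (nat_lit 2) (nat_lit 5) (nat_lit 4) (nat_lit 4) (nat_lit 2) (nat_lit 4) (nat_lit 254) (nat_lit 206) (nat_lit 200)) (XT.lf (nat_lit 0) (nat_lit 69105675233) (nat_lit 152) (nat_lit 10200616129) (nat_lit 0) (nat_lit 68437782892) (nat_lit 2) (nat_lit 5) (nat_lit 4) (nat_lit 4) (nat_lit 2) (nat_lit 4) (nat_lit 255) (nat_lit 206) (nat_lit 199))) (XT.nd (nat_lit 78) (nat_lit 0) (nat_lit 0) (XT.lf (nat_lit 0) (nat_lit 81354534050) (nat_lit 152) (nat_lit 7608650513) (nat_lit 0) (nat_lit 80634162583) (nat_lit 2) (nat_lit 5) (nat_lit 4) (nat_lit 4) (nat_lit 2) (nat_lit 4) (nat_lit 256) (nat_lit 206) (nat_lit 198)) (XT.nd (nat_lit 78) (nat_lit 0) (nat_lit 0) (XT.lf (nat_lit 0) (nat_lit 95330704825) (nat_lit 152) (nat_lit 4849806618) (nat_lit 0) (nat_lit 94564699335) (nat_lit 2) (nat_lit 5) (nat_lit 4) (nat_lit 4) (nat_lit 2) (nat_lit 4) (nat_lit 257)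 (nat_lit 206) (nat_lit 197)) (XT.lf (nat_lit 0) (nat_lit 111307634377) (nat_lit 152) (nat_lit 1870107062) (nat_lit 0) (nat_lit 110501947129) (nat_lit 2) (nat_lit 5) (nat_lit 4) (nat_lit 4) (nat_lit 2) (nat_lit 4) (nat_lit 258) (nat_lit 206) (nat_lit 196))))))))
noncomputable def xc22 : XT := (XT.nd (nat_lit 1404) (nat_lit 0) (nat_lit 0) (XT.nd (nat_lit 702) (nat_lit 0) (nat_lit 0) (XT.nd (nat_lit 312) (nat_lit 0) (nat_lit 0) (XT.nd (nat_lit 156) (nat_lit 0) (nat_lit 0) (XT.nd (nat_lit 78) (nat_lit 0) (nat_lit 0) (XT.lf (nat_lit 0) (nat_lit 1524465042) (nat_lit 76) (nat_lit 128136574611) (nat_lit 76) (nat_lit 127296381485) (nat_lit 1) (nat_lit 4) (nat_lit 2) (nat_lit 5) (nat_lit 2) (nat_lit 4) (nat_lit 259) (nat_lit 206) (nat_lit 195)) (XT.lf (nat_lit 0) (nat_lit 5478224001) (nat_lit 76) (nat_lit 145308016999) (nat_lit 76) (nat_lit 144437818763) (nat_lit 1) (nat_lit 4) (nat_lit 2) (nat_lit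 5) (nat_lit 2) (nat_lit 4) (nat_lit 260) (nat_lit 206) (nat_lit 194))) (XT.nd (nat_lit 78) (nat_lit 0) (nat_lit 0) (XT.lf (nat_lit 0) (nat_lit 9885765505) (nat_lit 76) (nat_lit 165125787203) (nat_lit 76) (nat_lit 164229497567) (nat_lit 1) (nat_lit 4) (nat_lit 2) (nat_lit 5) (nat_lit 2) (nat_lit 4) (nat_lit 261) (nat_lit 206) (nat_lit 193)) (XT.lf (nat_lit 0) (nat_lit 14833324061) (nat_lit 76) (nat_lit 187977624207) (nat_lit 76) (nat_lit 187058646396) (nat_lit 1) (nat_lit 4) (nat_lit 2) (nat_lit 5) (nat_lit 2) (nat_lit 4) (nat_lit 262) (nat_lit 206) (nat_lit 192)))) (XT.nd (nat_lit 156) (nat_lit 0) (nat_lit 0) (XT.nd (nat_lit 78) (nat_lit 0) (nat_lit 0) (XT.lf (nat_lit 0) (nat_lit 20417699727) (nat_lit 76) (nat_lit 214310629168) (nat_lit 76) (nat_lit 213371922510) (nat_lit 1) (nat_lit 4) (nat_lit 2) (nat_lit 5) (nat_lit 2) (nat_lit 4) (nat_lit 263) (nat_lit 206) (nat_lit 191)) (XT.lf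 (nat_lit 0) (nat_lit 26748152028) (nat_lit 76) (nat_lit 244640013054) (nat_lit 76) (nat_lit 243684150877) (nat_lit 1) (nat_lit 4) (nat_lit 2) (nat_lit 5) (nat_lit 2) (nat_lit 4) (nat_lit 264) (nat_lit 206) (nat_lit 190))) (XT.nd (nat_lit 78) (nat_lit 0) (nat_lit 0) (XT.lf (nat_lit 0) (nat_lit 33948537640) (nat_lit 76) (nat_lit 279559176853) (nat_lit 76) (nat_lit 278588396833) (nat_lit 1) (nat_lit 4) (nat_lit 2) (nat_lit 5) (nat_lit 2) (nat_lit 4) (nat_lit 265) (nat_lit 206) (nat_lit 189)) (XT.nd (nat_lit 78) (nat_lit 0) (nat_lit 0) (XT.lf (nat_lit 0) (nat_lit 42159733671) (nat_lit 76) (nat_lit 319751321596) (nat_lit 76) (nat_lit 318767569539) (nat_lit 1) (nat_lit 4) (nat_lit 2) (nat_lit 5) (nat_lit 2) (nat_lit 4) (nat_lit 266) (nat_lit 206) (nat_lit 188)) (XT.lf (nat_lit 0) (nat_lit 51542393958) (nat_lit 76) (nat_lit 366002815333) (nat_lit 76) (nat_lit 365007783243) (nat_lit 1) (nat_lit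 4) (nat_lit 2) (nat_lit 5) (nat_lit 2) (nat_lit 4) (nat_lit 267) (nat_lit 206) (nat_lit 187)))))) (XT.nd (nat_lit 312) (nat_lit 0) (nat_lit 0) (XT.nd (nat_lit 156) (nat_lit 0) (nat_lit 0) (XT.nd (nat_lit 78) (nat_lit 0) (nat_lit 0) (XT.lf (nat_lit 0) (nat_lit 62280092288) (nat_lit 76) (nat_lit 419218578593) (nat_lit 76) (nat_lit 418213737780) (nat_lit 1) (nat_lit 4) (nat_lit 2) (nat_lit 5) (nat_lit 2) (nat_lit 4) (nat_lit 268) (nat_lit 206) (nat_lit 186)) (XT.lf (nat_lit 0) (nat_lit 74582914064) (nat_lit 76) (nat_lit 480439789354) (nat_lit 76) (nat_lit 479426419215) (nat_lit 1) (nat_lit 4) (nat_lit 2) (nat_lit 5) (nat_lit 2) (nat_lit 4) (nat_lit 269) (nat_lit 206) (nat_lit 185))) (XT.nd (nat_lit 78) (nat_lit 0) (nat_lit 0) (XT.lf (nat_lit 0) (nat_lit 88691566668) (nat_lit 76) (nat_lit 550864253912) (nat_lit 76) (nat_lit 549843466968) (nat_lit 1) (nat_lit 4) (nat_lit 2) (nat_lit 5) (nat_lit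 2) (nat_lit 4) (nat_lit 270) (nat_lit 206) (nat_lit 184)) (XT.lf (nat_lit 0) (nat_lit 104882088956) (nat_lit 76) (nat_lit 631869842226) (nat_lit 76) (nat_lit 630842605887) (nat_lit 1) (nat_lit 4) (nat_lit 2) (nat_lit 5) (nat_lit 2) (nat_lit 4) (nat_lit 271) (nat_lit 206) (nat_lit 183)))) (XT.nd (nat_lit 156) (nat_lit 0) (nat_lit 0) (XT.nd (nat_lit 78) (nat_lit 0) (nat_lit 0) (XT.lf (nat_lit 0) (nat_lit 123471252016) (nat_lit 76) (nat_lit 725041446241) (nat_lit 76) (nat_lit 724008601733) (nat_lit 1) (nat_lit 4) (nat_lit 2) (nat_lit 5) (nat_lit 2) (nat_lit 4) (nat_lit 272) (nat_lit 206) (nat_lit 182)) (XT.lf (nat_lit 0) (nat_lit 144822756864) (nat_lit 76) (nat_lit 832201988646) (nat_lit 76) (nat_lit 831164267468) (nat_lit 1) (nat_lit 4) (nat_lit 2) (nat_lit 5) (nat_lit 2) (nat_lit 4) (nat_lit 273) (nat_lit 206) (nat_lit 181))) (XT.nd (nat_lit 78) (nat_lit 0) (nat_lit 0) (XT.lf (nat_lit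 0) (nat_lit 169354350334) (nat_lit 76) (nat_lit 955448088747) (nat_lit 76) (nat_lit 954406126988) (nat_lit 1) (nat_lit 4) (nat_lit 2) (nat_lit 5) (nat_lit 2) (nat_lit 4) (nat_lit 274) (nat_lit 206) (nat_lit 180)) (XT.nd (nat_lit 78) (nat_lit 0) (nat_lit 0) (XT.lf (nat_lit 0) (nat_lit 197545998385) (nat_lit 76) (nat_lit 1097191083286) (nat_lit 76) (nat_lit 1096145434064) (nat_lit 1) (nat_lit 4) (nat_lit 2) (nat_lit 5) (nat_lit 2) (nat_lit 4) (nat_lit 275) (nat_lit 206) (nat_lit 179)) (XT.lf (nat_lit 0) (nat_lit 229949276740) (nat_lit 76) (nat_lit 1260204204765) (nat_lit 76) (nat_lit 1259155349054) (nat_lit 1) (nat_lit 4) (nat_lit 2) (nat_lit 5) (nat_lit 2) (nat_lit 4) (nat_lit 276) (nat_lit 206) (nat_lit 178))))))) (XT.nd (nat_lit 702) (nat_lit 0) (nat_lit 0) (XT.nd (nat_lit 312) (nat_lit 0) (nat_lit 0) (XT.nd (nat_lit 156) (nat_lit 0) (nat_lit 0) (XT.nd (nat_lit 78) (nat_lit 0) (nat_lit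 0) (XT.lf (nat_lit 0) (nat_lit 267198162585) (nat_lit 76) (nat_lit 1447676840343) (nat_lit 76) (nat_lit 1446625196380) (nat_lit 1) (nat_lit 4) (nat_lit 2) (nat_lit 5) (nat_lit 2) (nat_lit 4) (nat_lit 277) (nat_lit 206) (nat_lit 177)) (XT.lf (nat_lit 0) (nat_lit 310021438469) (nat_lit 76) (nat_lit 1663276932890) (nat_lit 76) (nat_lit 1662222864360) (nat_lit 1) (nat_lit 4) (nat_lit 2) (nat_lit 5) (nat_lit 2) (nat_lit 4) (nat_lit 278) (nat_lit 206) (nat_lit 176))) (XT.nd (nat_lit 78) (nat_lit 0) (nat_lit 0) (XT.lf (nat_lit 0) (nat_lit 359256951092) (nat_lit 76) (nat_lit 1911222745086) (nat_lit 76) (nat_lit 1910166568238) (nat_lit 1) (nat_lit 4) (nat_lit 2) (nat_lit 5) (nat_lit 2) (nat_lit 4) (nat_lit 279) (nat_lit 206) (nat_lit 175)) (XT.lf (nat_lit 0) (nat_lit 415868003965) (nat_lit 76) (nat_lit 2196365390649) (nat_lit 76) (nat_lit 2195307380480) (nat_lit 1) (nat_lit 4) (nat_lit 2) (nat_lit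 5) (nat_lit 2) (nat_lit 4) (nat_lit 280) (nat_lit 206) (nat_lit 174)))) (XT.nd (nat_lit 156) (nat_lit 0) (nat_lit 0) (XT.nd (nat_lit 78) (nat_lit 0) (nat_lit 0) (XT.lf (nat_lit 0) (nat_lit 480962204641) (nat_lit 76) (nat_lit 2524283747425) (nat_lit 76) (nat_lit 2523224143065) (nat_lit 1) (nat_lit 4) (nat_lit 2) (nat_lit 5) (nat_lit 2) (nat_lit 4) (nat_lit 281) (nat_lit 206) (nat_lit 173)) (XT.lf (nat_lit 0) (nat_lit 555813135310) (nat_lit 76) (nat_lit 2901393609353) (nat_lit 76) (nat_lit 2900332618739) (nat_lit 1) (nat_lit 4) (nat_lit 2) (nat_lit 5) (nat_lit 2) (nat_lit 4) (nat_lit 282) (nat_lit 206) (nat_lit 172))) (XT.nd (nat_lit 78) (nat_lit 0) (nat_lit 0) (XT.lf (nat_lit 0) (nat_lit 641885270701) (nat_lit 76) (nat_lit 3335073212861) (nat_lit 76) (nat_lit 3334011016809) (nat_lit 1) (nat_lit 4) (nat_lit 2) (nat_lit 5) (nat_lit 2) (nat_lit 4) (nat_lit 283) (nat_lit 206) (nat_lit 171))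 (XT.nd (nat_lit 78) (nat_lit 0) (nat_lit 0) (XT.lf (nat_lit 0) (nat_lit 740862630854) (nat_lit 76) (nat_lit 3833807593670) (nat_lit 76) (nat_lit 3832744349411) (nat_lit 1) (nat_lit 4) (nat_lit 2) (nat_lit 5) (nat_lit 2) (nat_lit 4) (nat_lit 284) (nat_lit 206) (nat_lit 170)) (XT.lf (nat_lit 0) (nat_lit 854681729338) (nat_lit 76) (nat_lit 4407354598361) (nat_lit 76) (nat_lit 4406290442617) (nat_lit 1) (nat_lit 4) (nat_lit 2) (nat_lit 5) (nat_lit 2) (nat_lit 4) (nat_lit 285) (nat_lit 206) (nat_lit 169)))))) (XT.nd (nat_lit 312) (nat_lit 0) (nat_lit 0) (XT.nd (nat_lit 156) (nat_lit 0) (nat_lit 0) (XT.nd (nat_lit 78) (nat_lit 0) (nat_lit 0) (XT.lf (nat_lit 0) (nat_lit 985569461558) (nat_lit 76) (nat_lit 5066935798765) (nat_lit 76) (nat_lit 5065870850426) (nat_lit 1) (nat_lit 4) (nat_lit 2) (nat_lit 5) (nat_lit 2) (nat_lit 4) (nat_lit 286) (nat_lit 206) (nat_lit 168)) (XT.lf (nat_lit 0) (nat_lit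 1136086674448) (nat_lit 76) (nat_lit 5825456044455) (nat_lit 76) (nat_lit 5824390406903) (nat_lit 1) (nat_lit 4) (nat_lit 2) (nat_lit 5) (nat_lit 2) (nat_lit 4) (nat_lit 287) (nat_lit 206) (nat_lit 167))) (XT.nd (nat_lit 78) (nat_lit 0) (nat_lit 0) (XT.lf (nat_lit 0) (nat_lit 1309178270000) (nat_lit 76) (nat_lit 6697755948933) (nat_lit 76) (nat_lit 6696689712065) (nat_lit 1) (nat_lit 4) (nat_lit 2) (nat_lit 5) (nat_lit 2) (nat_lit 4) (nat_lit 288) (nat_lit 206) (nat_lit 166)) (XT.lf (nat_lit 0) (nat_lit 1508230822910) (nat_lit 76) (nat_lit 7700902249462) (nat_lit 76) (nat_lit 7699835491450) (nat_lit 1) (nat_lit 4) (nat_lit 2) (nat_lit 5) (nat_lit 2) (nat_lit 4) (nat_lit 289) (nat_lit 206) (nat_lit 165)))) (XT.nd (nat_lit 156) (nat_lit 0) (nat_lit 0) (XT.nd (nat_lit 78) (nat_lit 0) (nat_lit 0) (XT.lf (nat_lit 0) (nat_lit 1737138839647) (nat_lit 76) (nat_lit 8854521721486) (nat_lit 76)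 (nat_lit 8853454510305) (nat_lit 1) (nat_lit 4) (nat_lit 2) (nat_lit 5) (nat_lit 2) (nat_lit 4) (nat_lit 290) (nat_lit 206) (nat_lit 164)) (XT.lf (nat_lit 0) (nat_lit 2000380955321) (nat_lit 76) (nat_lit 10181185180762) (nat_lit 76) (nat_lit 10180117575522) (nat_lit 1) (nat_lit 4) (nat_lit 2) (nat_lit 5) (nat_lit 2) (nat_lit 4) (nat_lit 291) (nat_lit 206) (nat_lit 163))) (XT.nd (nat_lit 78) (nat_lit 0) (nat_lit 0) (XT.lf (nat_lit 0) (nat_lit 2303107559153) (nat_lit 76) (nat_lit 11706849086277) (nat_lit 76) (nat_lit 11705781138375) (nat_lit 1) (nat_lit 4) (nat_lit 2) (nat_lit 5) (nat_lit 2) (nat_lit 4) (nat_lit 292) (nat_lit 206) (nat_lit 162)) (XT.nd (nat_lit 78) (nat_lit 0) (nat_lit 0) (XT.lf (nat_lit 0) (nat_lit 2651241562956) (nat_lit 76) (nat_lit 13461363384007) (nat_lit 76) (nat_lit 13460295138140) (nat_lit 1) (nat_lit 4) (nat_lit 2) (nat_lit 5) (nat_lit 2) (nat_lit 4) (nat_lit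 293) (nat_lit 206) (nat_lit 161)) (XT.lf (nat_lit 0) (nat_lit 3051594284196) (nat_lit 76) (nat_lit 15479055527604) (nat_lit 76) (nat_lit 15477987022636) (nat_lit 1) (nat_lit 4) (nat_lit 2) (nat_lit 5) (nat_lit 2) (nat_lit 4) (nat_lit 294) (nat_lit 206) (nat_lit 160))))))))
noncomputable def xc23 : XT := (XT.nd (nat_lit 31512) (nat_lit 0) (nat_lit 0) (XT.nd (nat_lit 30810) (nat_lit 0) (nat_lit 76) (XT.nd (nat_lit 312) (nat_lit 0) (nat_lit 0) (XT.nd (nat_lit 156) (nat_lit 0) (nat_lit 0) (XT.nd (nat_lit 78) (nat_lit 0) (nat_lit 0) (XT.lf (nat_lit 0) (nat_lit 3511998710897) (nat_lit 76) (nat_lit 17799402102486) (nat_lit 76) (nat_lit 17798333372213) (nat_lit 1) (nat_lit 4) (nat_lit 2) (nat_lit 5) (nat_lit 2) (nat_lit 4) (nat_lit 295) (nat_lit 206) (nat_lit 159)) (XT.lf (nat_lit 0) (nat_lit 4041462755756) (nat_lit 76) (nat_lit 20467801193813) (nat_lit 76) (nat_lit 20466732267623) (nat_lit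 1) (nat_lit 4) (nat_lit 2) (nat_lit 5) (nat_lit 2) (nat_lit 4) (nat_lit 296) (nat_lit 206) (nat_lit 158))) (XT.nd (nat_lit 78) (nat_lit 0) (nat_lit 0) (XT.lf (nat_lit 0) (nat_lit 4650345497911) (nat_lit 76) (nat_lit 23536460609896) (nat_lit 76) (nat_lit 23535391513342) (nat_lit 1) (nat_lit 4) (nat_lit 2) (nat_lit 5) (nat_lit 2) (nat_lit 4) (nat_lit 297) (nat_lit 206) (nat_lit 157)) (XT.lf (nat_lit 0) (nat_lit 5350559860579) (nat_lit 76) (nat_lit 27065419339308) (nat_lit 76) (nat_lit 27064350094613) (nat_lit 1) (nat_lit 4) (nat_lit 2) (nat_lit 5) (nat_lit 2) (nat_lit 4) (nat_lit 298) (nat_lit 206) (nat_lit 156)))) (XT.nd (nat_lit 30264) (nat_lit 0) (nat_lit 76) (XT.nd (nat_lit 1404) (nat_lit 0) (nat_lit 0) (XT.lf (nat_lit 0) (nat_lit 6155805689984) (nat_lit 76) (nat_lit 31123722226755) (nat_lit 76) (nat_lit 31122652853242) (nat_lit 1) (nat_lit 4) (nat_lit 2) (nat_lit 5) (nat_lit 2) (nat_lit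 4) (nat_lit 299) (nat_lit 206) (nat_lit 155)) (XT.lf (nat_lit 0) (nat_lit 76382579857565) (nat_lit 76) (nat_lit 385055754172477) (nat_lit 76) (nat_lit 385054684009566) (nat_lit 1) (nat_lit 4) (nat_lit 2) (nat_lit 5) (nat_lit 2) (nat_lit 4) (nat_lit 317) (nat_lit 206) (nat_lit 137))) (XT.nd (nat_lit 78) (nat_lit 0) (nat_lit 0) (XT.lf (nat_lit 0) (nat_lit 2649344417) (nat_lit 152) (nat_lit 16852506139) (nat_lit 0) (nat_lit 2649344417) (nat_lit 2) (nat_lit 5) (nat_lit 4) (nat_lit 4) (nat_lit 2) (nat_lit 4) (nat_lit 246) (nat_lit 207) (nat_lit 207)) (XT.nd (nat_lit 78) (nat_lit 0) (nat_lit 0) (XT.lf (nat_lit 0) (nat_lit 9869140262) (nat_lit 152) (nat_lit 30772461643) (nat_lit 0) (nat_lit 9708605416) (nat_lit 2) (nat_lit 5) (nat_lit 4) (nat_lit 4) (nat_lit 2) (nat_lit 4) (nat_lit 247) (nat_lit 207) (nat_lit 206)) (XT.lf (nat_lit 0) (nat_lit 14788615299) (nat_lit 152) (nat_lit 28078876250)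 (nat_lit 0) (nat_lit 14488484935) (nat_lit 2) (nat_lit 5) (nat_lit 4) (nat_lit 4) (nat_lit 2) (nat_lit 4) (nat_lit 248) (nat_lit 207) (nat_lit 205)))))) (XT.nd (nat_lit 312) (nat_lit 0) (nat_lit 0) (XT.nd (nat_lit 156) (nat_lit 0) (nat_lit 0) (XT.nd (nat_lit 78) (nat_lit 0) (nat_lit 0) (XT.lf (nat_lit 0) (nat_lit 20153364545) (nat_lit 152) (nat_lit 25571555517) (nat_lit 0) (nat_lit 19731846774) (nat_lit 2) (nat_lit 5) (nat_lit 4) (nat_lit 4) (nat_lit 2) (nat_lit 4) (nat_lit 249) (nat_lit 207) (nat_lit 204)) (XT.lf (nat_lit 0) (nat_lit 26068350485) (nat_lit 152) (nat_lit 23201443169) (nat_lit 0) (nat_lit 25541278447) (nat_lit 2) (nat_lit 5) (nat_lit 4) (nat_lit 4) (nat_lit 2) (nat_lit 4) (nat_lit 250) (nat_lit 207) (nat_lit 203))) (XT.nd (nat_lit 78) (nat_lit 0) (nat_lit 0) (XT.lf (nat_lit 0) (nat_lit 32649301105) (nat_lit 152) (nat_lit 20922167442) (nat_lit 0) (nat_lit 32030442748) (nat_lit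 2) (nat_lit 5) (nat_lit 4) (nat_lit 4) (nat_lit 2) (nat_lit 4) (nat_lit 251) (nat_lit 207) (nat_lit 202)) (XT.lf (nat_lit 0) (nat_lit 40024974135) (nat_lit 152) (nat_lit 18689133811) (nat_lit 0) (nat_lit 39326301586) (nat_lit 2) (nat_lit 5) (nat_lit 4) (nat_lit 4) (nat_lit 2) (nat_lit 4) (nat_lit 252) (nat_lit 207) (nat_lit 201)))) (XT.nd (nat_lit 156) (nat_lit 0) (nat_lit 0) (XT.nd (nat_lit 78) (nat_lit 0) (nat_lit 0) (XT.lf (nat_lit 0) (nat_lit 48339676220) (nat_lit 152) (nat_lit 16458652488) (nat_lit 0) (nat_lit 47571600027) (nat_lit 2) (nat_lit 5) (nat_lit 4) (nat_lit 4) (nat_lit 2) (nat_lit 4) (nat_lit 253) (nat_lit 207) (nat_lit 200)) (XT.lf (nat_lit 0) (nat_lit 57756086314) (nat_lit 152) (nat_lit 14187083621) (nat_lit 0) (nat_lit 56927659127) (nat_lit 2) (nat_lit 5) (nat_lit 4) (nat_lit 4) (nat_lit 2) (nat_lit 4) (nat_lit 254) (nat_lit 207) (nat_lit 199))) (XT.nd (nat_lit 78)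 (nat_lit 0) (nat_lit 0) (XT.lf (nat_lit 0) (nat_lit 68458438528) (nat_lit 152) (nat_lit 11829983471) (nat_lit 0) (nat_lit 67577532216) (nat_lit 2) (nat_lit 5) (nat_lit 4) (nat_lit 4) (nat_lit 2) (nat_lit 4) (nat_lit 255) (nat_lit 207) (nat_lit 198)) (XT.nd (nat_lit 78) (nat_lit 0) (nat_lit 0) (XT.lf (nat_lit 0) (nat_lit 80656126711) (nat_lit 152) (nat_lit 9341234861) (nat_lit 0) (nat_lit 79729586375) (nat_lit 2) (nat_lit 5) (nat_lit 4) (nat_lit 4) (nat_lit 2) (nat_lit 4) (nat_lit 256) (nat_lit 207) (nat_lit 197)) (XT.lf (nat_lit 0) (nat_lit 94587801281) (nat_lit 152) (nat_lit 6672144884) (nat_lit 0) (nat_lit 93621579187) (nat_lit 2) (nat_lit 5) (nat_lit 4) (nat_lit 4) (nat_lit 2) (nat_lit 4) (nat_lit 257) (nat_lit 207) (nat_lit 196))))))) (XT.nd (nat_lit 702) (nat_lit 0) (nat_lit 0) (XT.nd (nat_lit 312) (nat_lit 0) (nat_lit 0) (XT.nd (nat_lit 156) (nat_lit 76) (nat_lit 0) (XT.nd (nat_lit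 78) (nat_lit 0) (nat_lit 0) (XT.lf (nat_lit 0) (nat_lit 110526038482) (nat_lit 152) (nat_lit 3770492213) (nat_lit 0) (nat_lit 109525310511) (nat_lit 2) (nat_lit 5) (nat_lit 4) (nat_lit 4) (nat_lit 2) (nat_lit 4) (nat_lit 258) (nat_lit 207) (nat_lit 195)) (XT.lf (nat_lit 0) (nat_lit 128782673389) (nat_lit 152) (nat_lit 579505385) (nat_lit 0) (nat_lit 127751940307) (nat_lit 2) (nat_lit 5) (nat_lit 4) (nat_lit 4) (nat_lit 2) (nat_lit 4) (nat_lit 259) (nat_lit 207) (nat_lit 194))) (XT.nd (nat_lit 78) (nat_lit 0) (nat_lit 0) (XT.lf (nat_lit 0) (nat_lit 3252838093) (nat_lit 76) (nat_lit 146596756028) (nat_lit 76) (nat_lit 145539931546) (nat_lit 1) (nat_lit 4) (nat_lit 2) (nat_lit 5) (nat_lit 2) (nat_lit 4) (nat_lit 260) (nat_lit 207) (nat_lit 193)) (XT.lf (nat_lit 0) (nat_lit 7604047422) (nat_lit 76) (nat_lit 166443084962) (nat_lit 76) (nat_lit 165363572306) (nat_lit 1) (nat_lit 4) (nat_lit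 2) (nat_lit 5) (nat_lit 2) (nat_lit 4) (nat_lit 261) (nat_lit 207) (nat_lit 192)))) (XT.nd (nat_lit 156) (nat_lit 0) (nat_lit 0) (XT.nd (nat_lit 78) (nat_lit 0) (nat_lit 0) (XT.lf (nat_lit 0) (nat_lit 12502621479) (nat_lit 76) (nat_lit 189319755644) (nat_lit 76) (nat_lit 188220514140) (nat_lit 1) (nat_lit 4) (nat_lit 2) (nat_lit 5) (nat_lit 2) (nat_lit 4) (nat_lit 262) (nat_lit 207) (nat_lit 191)) (XT.lf (nat_lit 0) (nat_lit 18044401929) (nat_lit 76) (nat_lit 215674355107) (nat_lit 76) (nat_lit 214557958084) (nat_lit 1) (nat_lit 4) (nat_lit 2) (nat_lit 5) (nat_lit 2) (nat_lit 4) (nat_lit 263) (nat_lit 207) (nat_lit 190))) (XT.nd (nat_lit 78) (nat_lit 0) (nat_lit 0) (XT.lf (nat_lit 0) (nat_lit 24337814912) (nat_lit 76) (nat_lit 246022516821) (nat_lit 76) (nat_lit 244891201955) (nat_lit 1) (nat_lit 4) (nat_lit 2) (nat_lit 5) (nat_lit 2) (nat_lit 4) (nat_lit 264) (nat_lit 207) (nat_lit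 189)) (XT.nd (nat_lit 78) (nat_lit 0) (nat_lit 0) (XT.lf (nat_lit 0) (nat_lit 31505992420) (nat_lit 76) (nat_lit 280958009167) (nat_lit 76) (nat_lit 279813722263) (nat_lit 1) (nat_lit 4) (nat_lit 2) (nat_lit 5) (nat_lit 2) (nat_lit 4) (nat_lit 265) (nat_lit 207) (nat_lit 188)) (XT.lf (nat_lit 0) (nat_lit 39689181405) (nat_lit 76) (nat_lit 321164352646) (nat_lit 76) (nat_lit 320008785710) (nat_lit 1) (nat_lit 4) (nat_lit 2) (nat_lit 5) (nat_lit 2) (nat_lit 4) (nat_lit 266) (nat_lit 207) (nat_lit 187)))))) (XT.nd (nat_lit 312) (nat_lit 0) (nat_lit 0) (XT.nd (nat_lit 156) (nat_lit 0) (nat_lit 0) (XT.nd (nat_lit 78) (nat_lit 0) (nat_lit 0) (XT.lf (nat_lit 0) (nat_lit 49047487739) (nat_lit 76) (nat_lit 367428193110) (nat_lit 76) (nat_lit 366262817450) (nat_lit 1) (nat_lit 4) (nat_lit 2) (nat_lit 5) (nat_lit 2) (nat_lit 4) (nat_lit 267) (nat_lit 207) (nat_lit 186)) (XT.lf (nat_lit 0) (nat_lit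 59764008718) (nat_lit 76) (nat_lit 420654692654) (nat_lit 76) (nat_lit 419480787669) (nat_lit 1) (nat_lit 4) (nat_lit 2) (nat_lit 5) (nat_lit 2) (nat_lit 4) (nat_lit 268) (nat_lit 207) (nat_lit 185))) (XT.nd (nat_lit 78) (nat_lit 0) (nat_lit 0) (XT.lf (nat_lit 0) (nat_lit 72048415407) (nat_lit 76) (nat_lit 481885239314) (nat_lit 76) (nat_lit 480703917524) (nat_lit 1) (nat_lit 4) (nat_lit 2) (nat_lit 5) (nat_lit 2) (nat_lit 4) (nat_lit 269) (nat_lit 207) (nat_lit 184)) (XT.lf (nat_lit 0) (nat_lit 86141054892) (nat_lit 76) (nat_lit 552317822045) (nat_lit 76) (nat_lit 551130050860) (nat_lit 1) (nat_lit 4) (nat_lit 2) (nat_lit 5) (nat_lit 2) (nat_lit 4) (nat_lit 270) (nat_lit 207) (nat_lit 183)))) (XT.nd (nat_lit 156) (nat_lit 0) (nat_lit 0) (XT.nd (nat_lit 78) (nat_lit 0) (nat_lit 0) (XT.lf (nat_lit 0) (nat_lit 102317652728) (nat_lit 76) (nat_lit 633330469640) (nat_lit 76) (nat_lit 632137090286)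 (nat_lit 1) (nat_lit 4) (nat_lit 2) (nat_lit 5) (nat_lit 2) (nat_lit 4) (nat_lit 271) (nat_lit 207) (nat_lit 182)) (XT.lf (nat_lit 0) (nat_lit 120894707568) (nat_lit 76) (nat_lit 726508212161) (nat_lit 76) (nat_lit 725309956138) (nat_lit 1) (nat_lit 4) (nat_lit 2) (nat_lit 5) (nat_lit 2) (nat_lit 4) (nat_lit 272) (nat_lit 207) (nat_lit 181))) (XT.nd (nat_lit 78) (nat_lit 0) (nat_lit 0) (XT.lf (nat_lit 0) (nat_lit 142235683530) (nat_lit 76) (nat_lit 833674092396) (nat_lit 76) (nat_lit 832471595791) (nat_lit 1) (nat_lit 4) (nat_lit 2) (nat_lit 5) (nat_lit 2) (nat_lit 4) (nat_lit 273) (nat_lit 207) (nat_lit 180)) (XT.nd (nat_lit 78) (nat_lit 0) (nat_lit 0) (XT.lf (nat_lit 0) (nat_lit 166758121447) (nat_lit 76) (nat_lit 956924834089) (nat_lit 76) (nat_lit 955718650021) (nat_lit 1) (nat_lit 4) (nat_lit 2) (nat_lit 5) (nat_lit 2) (nat_lit 4) (nat_lit 274) (nat_lit 207) (nat_lit 179)) (XT.lf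 (nat_lit 0) (nat_lit 194941808148) (nat_lit 76) (nat_lit 1098671864795) (nat_lit 76) (nat_lit 1097462474238) (nat_lit 1) (nat_lit 4) (nat_lit 2) (nat_lit 5) (nat_lit 2) (nat_lit 4) (nat_lit 275) (nat_lit 207) (nat_lit 178))))))))
noncomputable def xc24 : XT := (XT.nd (nat_lit 1404) (nat_lit 0) (nat_lit 0) (XT.nd (nat_lit 702) (nat_lit 0) (nat_lit 0) (XT.nd (nat_lit 312) (nat_lit 0) (nat_lit 0) (XT.nd (nat_lit 156) (nat_lit 0) (nat_lit 0) (XT.nd (nat_lit 78) (nat_lit 0) (nat_lit 0) (XT.lf (nat_lit 0) (nat_lit 227338163590) (nat_lit 76) (nat_lit 1261688495985) (nat_lit 76) (nat_lit 1260476317176) (nat_lit 1) (nat_lit 4) (nat_lit 2) (nat_lit 5) (nat_lit 2) (nat_lit 4) (nat_lit 276) (nat_lit 207) (nat_lit 177)) (XT.lf (nat_lit 0) (nat_lit 264581029510) (nat_lit 76) (nat_lit 1449164183484) (nat_lit 76) (nat_lit 1447949580109) (nat_lit 1) (nat_lit 4) (nat_lit 2) (nat_lit 5) (nat_lit 2) (nat_lit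 4) (nat_lit 277) (nat_lit 207) (nat_lit 176))) (XT.nd (nat_lit 78) (nat_lit 0) (nat_lit 0) (XT.lf (nat_lit 0) (nat_lit 307399070676) (nat_lit 76) (nat_lit 1664766929877) (nat_lit 76) (nat_lit 1663550218183) (nat_lit 1) (nat_lit 4) (nat_lit 2) (nat_lit 5) (nat_lit 2) (nat_lit 4) (nat_lit 278) (nat_lit 207) (nat_lit 175)) (XT.lf (nat_lit 0) (nat_lit 356630031372) (nat_lit 76) (nat_lit 1912715049764) (nat_lit 76) (nat_lit 1911496504750) (nat_lit 1) (nat_lit 4) (nat_lit 2) (nat_lit 5) (nat_lit 2) (nat_lit 4) (nat_lit 279) (nat_lit 207) (nat_lit 174)))) (XT.nd (nat_lit 156) (nat_lit 0) (nat_lit 0) (XT.nd (nat_lit 78) (nat_lit 0) (nat_lit 0) (XT.lf (nat_lit 0) (nat_lit 413237126046) (nat_lit 76) (nat_lit 2197859702015) (nat_lit 76) (nat_lit 2196639562809) (nat_lit 1) (nat_lit 4) (nat_lit 2) (nat_lit 5) (nat_lit 2) (nat_lit 4) (nat_lit 280) (nat_lit 207) (nat_lit 173)) (XT.lf (nat_lit 0) (nat_lit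 478327884811) (nat_lit 76) (nat_lit 2525779803738) (nat_lit 76) (nat_lit 2524558278278) (nat_lit 1) (nat_lit 4) (nat_lit 2) (nat_lit 5) (nat_lit 2) (nat_lit 4) (nat_lit 281) (nat_lit 207) (nat_lit 172))) (XT.nd (nat_lit 78) (nat_lit 0) (nat_lit 0) (XT.lf (nat_lit 0) (nat_lit 553175822513) (nat_lit 76) (nat_lit 2902891183011) (nat_lit 76) (nat_lit 2901668452112) (nat_lit 1) (nat_lit 4) (nat_lit 2) (nat_lit 5) (nat_lit 2) (nat_lit 4) (nat_lit 282) (nat_lit 207) (nat_lit 171)) (XT.nd (nat_lit 78) (nat_lit 0) (nat_lit 0) (XT.lf (nat_lit 0) (nat_lit 639245355324) (nat_lit 76) (nat_lit 3336572105949) (nat_lit 76) (nat_lit 3335348326843) (nat_lit 1) (nat_lit 4) (nat_lit 2) (nat_lit 5) (nat_lit 2) (nat_lit 4) (nat_lit 283) (nat_lit 207) (nat_lit 170)) (XT.lf (nat_lit 0) (nat_lit 738220452365) (nat_lit 76) (nat_lit 3835307634088) (nat_lit 76) (nat_lit 3834082943499) (nat_lit 1) (nat_lit 4) (nat_lit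 2) (nat_lit 5) (nat_lit 2) (nat_lit 4) (nat_lit 284) (nat_lit 207) (nat_lit 169)))))) (XT.nd (nat_lit 312) (nat_lit 0) (nat_lit 0) (XT.nd (nat_lit 156) (nat_lit 0) (nat_lit 0) (XT.nd (nat_lit 78) (nat_lit 0) (nat_lit 0) (XT.lf (nat_lit 0) (nat_lit 852037582925) (nat_lit 76) (nat_lit 4408855636458) (nat_lit 76) (nat_lit 4407630153273) (nat_lit 1) (nat_lit 4) (nat_lit 2) (nat_lit 5) (nat_lit 2) (nat_lit 4) (nat_lit 285) (nat_lit 207) (nat_lit 168)) (XT.lf (nat_lit 0) (nat_lit 982923603906) (nat_lit 76) (nat_lit 5068437704409) (nat_lit 76) (nat_lit 5067211532011) (nat_lit 1) (nat_lit 4) (nat_lit 2) (nat_lit 5) (nat_lit 2) (nat_lit 4) (nat_lit 286) (nat_lit 207) (nat_lit 167))) (XT.nd (nat_lit 78) (nat_lit 0) (nat_lit 0) (XT.lf (nat_lit 0) (nat_lit 1133439328763) (nat_lit 76) (nat_lit 5826958704487) (nat_lit 76) (nat_lit 5825731932773) (nat_lit 1) (nat_lit 4) (nat_lit 2) (nat_lit 5) (nat_lit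 2) (nat_lit 4) (nat_lit 287) (nat_lit 207) (nat_lit 166)) (XT.lf (nat_lit 0) (nat_lit 1306529630373) (nat_lit 76) (nat_lit 6699259264955) (nat_lit 76) (nat_lit 6698031972097) (nat_lit 1) (nat_lit 4) (nat_lit 2) (nat_lit 5) (nat_lit 2) (nat_lit 4) (nat_lit 288) (nat_lit 207) (nat_lit 165)))) (XT.nd (nat_lit 156) (nat_lit 0) (nat_lit 0) (XT.nd (nat_lit 78) (nat_lit 0) (nat_lit 0) (XT.lf (nat_lit 0) (nat_lit 1505581058116) (nat_lit 76) (nat_lit 7702406135910) (nat_lit 76) (nat_lit 7701178389883) (nat_lit 1) (nat_lit 4) (nat_lit 2) (nat_lit 5) (nat_lit 2) (nat_lit 4) (nat_lit 289) (nat_lit 207) (nat_lit 164)) (XT.lf (nat_lit 0) (nat_lit 1734488096447) (nat_lit 76) (nat_lit 8856026103957) (nat_lit 76) (nat_lit 8854797963870) (nat_lit 1) (nat_lit 4) (nat_lit 2) (nat_lit 5) (nat_lit 2) (nat_lit 4) (nat_lit 290) (nat_lit 207) (nat_lit 163))) (XT.nd (nat_lit 78) (nat_lit 0) (nat_lit 0) (XT.lf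 (nat_lit 0) (nat_lit 1997729361333) (nat_lit 76) (nat_lit 10182689994557) (nat_lit 76) (nat_lit 10181461511810) (nat_lit 1) (nat_lit 4) (nat_lit 2) (nat_lit 5) (nat_lit 2) (nat_lit 4) (nat_lit 291) (nat_lit 207) (nat_lit 162)) (XT.nd (nat_lit 78) (nat_lit 0) (nat_lit 0) (XT.lf (nat_lit 0) (nat_lit 2300455225350) (nat_lit 76) (nat_lit 11708354275136) (nat_lit 76) (nat_lit 11707125494423) (nat_lit 1) (nat_lit 4) (nat_lit 2) (nat_lit 5) (nat_lit 2) (nat_lit 4) (nat_lit 292) (nat_lit 207) (nat_lit 161)) (XT.lf (nat_lit 0) (nat_lit 2648588585835) (nat_lit 76) (nat_lit 13462868899009) (nat_lit 76) (nat_lit 13461639859195) (nat_lit 1) (nat_lit 4) (nat_lit 2) (nat_lit 5) (nat_lit 2) (nat_lit 4) (nat_lit 293) (nat_lit 207) (nat_lit 160))))))) (XT.nd (nat_lit 30732) (nat_lit 0) (nat_lit 76) (XT.nd (nat_lit 312) (nat_lit 0) (nat_lit 0) (XT.nd (nat_lit 156) (nat_lit 0) (nat_lit 0) (XT.nd (nat_lit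 78) (nat_lit 0) (nat_lit 0) (XT.lf (nat_lit 0) (nat_lit 3048940747668) (nat_lit 76) (nat_lit 15480561326209) (nat_lit 76) (nat_lit 15479332061090) (nat_lit 1) (nat_lit 4) (nat_lit 2) (nat_lit 5) (nat_lit 2) (nat_lit 4) (nat_lit 294) (nat_lit 207) (nat_lit 159)) (XT.lf (nat_lit 0) (nat_lit 3509344687928) (nat_lit 76) (nat_lit 17800908147701) (nat_lit 76) (nat_lit 17799678686665) (nat_lit 1) (nat_lit 4) (nat_lit 2) (nat_lit 5) (nat_lit 2) (nat_lit 4) (nat_lit 295) (nat_lit 207) (nat_lit 158))) (XT.nd (nat_lit 78) (nat_lit 0) (nat_lit 0) (XT.lf (nat_lit 0) (nat_lit 4038808309795) (nat_lit 76) (nat_lit 20469307453474) (nat_lit 76) (nat_lit 20468077822074) (nat_lit 1) (nat_lit 4) (nat_lit 2) (nat_lit 5) (nat_lit 2) (nat_lit 4) (nat_lit 296) (nat_lit 207) (nat_lit 157)) (XT.lf (nat_lit 0) (nat_lit 4647690684132) (nat_lit 76) (nat_lit 23537967056029) (nat_lit 76) (nat_lit 23536737276488) (nat_lit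 1) (nat_lit 4) (nat_lit 2) (nat_lit 5) (nat_lit 2) (nat_lit 4) (nat_lit 297) (nat_lit 207) (nat_lit 156)))) (XT.nd (nat_lit 30186) (nat_lit 0) (nat_lit 76) (XT.nd (nat_lit 78) (nat_lit 0) (nat_lit 0) (XT.lf (nat_lit 0) (nat_lit 5347904726956) (nat_lit 76) (nat_lit 27066925947592) (nat_lit 76) (nat_lit 27065696039232) (nat_lit 1) (nat_lit 4) (nat_lit 2) (nat_lit 5) (nat_lit 2) (nat_lit 4) (nat_lit 298) (nat_lit 207) (nat_lit 155)) (XT.lf (nat_lit 0) (nat_lit 6153150278238) (nat_lit 76) (nat_lit 31125228976040) (nat_lit 76) (nat_lit 31123998955664) (nat_lit 1) (nat_lit 4) (nat_lit 2) (nat_lit 5) (nat_lit 2) (nat_lit 4) (nat_lit 299) (nat_lit 207) (nat_lit 154))) (XT.nd (nat_lit 78) (nat_lit 152) (nat_lit 0) (XT.lf (nat_lit 0) (nat_lit 14630270952) (nat_lit 76) (nat_lit 1315422196) (nat_lit 76) (nat_lit 1315422196) (nat_lit 4) (nat_lit 4) (nat_lit 5) (nat_lit 5) (nat_lit 5) (nat_lit 4)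 (nat_lit 244) (nat_lit 208) (nat_lit 208)) (XT.nd (nat_lit 78) (nat_lit 0) (nat_lit 0) (XT.lf (nat_lit 0) (nat_lit 1172454215) (nat_lit 152) (nat_lit 36933904150) (nat_lit 0) (nat_lit 987839143) (nat_lit 2) (nat_lit 5) (nat_lit 4) (nat_lit 4) (nat_lit 2) (nat_lit 4) (nat_lit 245) (nat_lit 208) (nat_lit 207)) (XT.lf (nat_lit 0) (nat_lit 5303291945) (nat_lit 152) (nat_lit 34068116937) (nat_lit 0) (nat_lit 4958142027) (nat_lit 2) (nat_lit 5) (nat_lit 4) (nat_lit 4) (nat_lit 2) (nat_lit 4) (nat_lit 246) (nat_lit 208) (nat_lit 206)))))) (XT.nd (nat_lit 312) (nat_lit 0) (nat_lit 0) (XT.nd (nat_lit 156) (nat_lit 0) (nat_lit 0) (XT.nd (nat_lit 78) (nat_lit 0) (nat_lit 0) (XT.lf (nat_lit 0) (nat_lit 9717211231) (nat_lit 152) (nat_lit 31451309482) (nat_lit 0) (nat_lit 9232465794) (nat_lit 2) (nat_lit 5) (nat_lit 4) (nat_lit 4) (nat_lit 2) (nat_lit 4) (nat_lit 247) (nat_lit 208) (nat_lit 205))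 (XT.lf (nat_lit 0) (nat_lit 14500571363) (nat_lit 152) (nat_lit 29032283377) (nat_lit 0) (nat_lit 13894438519) (nat_lit 2) (nat_lit 5) (nat_lit 4) (nat_lit 4) (nat_lit 2) (nat_lit 4) (nat_lit 248) (nat_lit 208) (nat_lit 204))) (XT.nd (nat_lit 78) (nat_lit 0) (nat_lit 0) (XT.lf (nat_lit 0) (nat_lit 19746959821) (nat_lit 152) (nat_lit 26763709851) (nat_lit 0) (nat_lit 19035272710) (nat_lit 2) (nat_lit 5) (nat_lit 4) (nat_lit 4) (nat_lit 2) (nat_lit 4) (nat_lit 249) (nat_lit 208) (nat_lit 203)) (XT.lf (nat_lit 0) (nat_lit 25559023338) (nat_lit 152) (nat_lit 24601203769) (nat_lit 0) (nat_lit 24755549907) (nat_lit 2) (nat_lit 5) (nat_lit 4) (nat_lit 4) (nat_lit 2) (nat_lit 4) (nat_lit 250) (nat_lit 208) (nat_lit 202)))) (XT.nd (nat_lit 156) (nat_lit 0) (nat_lit 0) (XT.nd (nat_lit 78) (nat_lit 0) (nat_lit 0) (XT.lf (nat_lit 0) (nat_lit 32050476198) (nat_lit 152) (nat_lit 22502455231) (nat_lit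 0) (nat_lit 31167188577) (nat_lit 2) (nat_lit 5) (nat_lit 4) (nat_lit 4) (nat_lit 2) (nat_lit 4) (nat_lit 251) (nat_lit 208) (nat_lit 201)) (XT.lf (nat_lit 0) (nat_lit 39348325088) (nat_lit 152) (nat_lit 20426401764) (nat_lit 0) (nat_lit 38395633823) (nat_lit 2) (nat_lit 5) (nat_lit 4) (nat_lit 4) (nat_lit 2) (nat_lit 4) (nat_lit 252) (nat_lit 208) (nat_lit 200))) (XT.nd (nat_lit 78) (nat_lit 0) (nat_lit 0) (XT.lf (nat_lit 0) (nat_lit 47595354009) (nat_lit 152) (nat_lit 18332424931) (nat_lit 0) (nat_lit 46582311749) (nat_lit 2) (nat_lit 5) (nat_lit 4) (nat_lit 4) (nat_lit 2) (nat_lit 4) (nat_lit 253) (nat_lit 208) (nat_lit 199)) (XT.nd (nat_lit 78) (nat_lit 0) (nat_lit 0) (XT.lf (nat_lit 0) (nat_lit 56952917873) (nat_lit 152) (nat_lit 16179555621) (nat_lit 0) (nat_lit 55887396488) (nat_lit 2) (nat_lit 5) (nat_lit 4) (nat_lit 4) (nat_lit 2) (nat_lit 4) (nat_lit 254) (nat_lit 208) (nat_lit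 198)) (XT.lf (nat_lit 0) (nat_lit 67604099453) (nat_lit 152) (nat_lit 13925672477) (nat_lit 0) (nat_lit 66492944045) (nat_lit 2) (nat_lit 5) (nat_lit 4) (nat_lit 4) (nat_lit 2) (nat_lit 4) (nat_lit 255) (nat_lit 208) (nat_lit 197))))))))
noncomputable def xc25 : XT := (XT.nd (nat_lit 1404) (nat_lit 0) (nat_lit 0) (XT.nd (nat_lit 702) (nat_lit 0) (nat_lit 0) (XT.nd (nat_lit 312) (nat_lit 76) (nat_lit 0) (XT.nd (nat_lit 156) (nat_lit 0) (nat_lit 0) (XT.nd (nat_lit 78) (nat_lit 0) (nat_lit 0) (XT.lf (nat_lit 0) (nat_lit 79757291431) (nat_lit 152) (nat_lit 11526677785) (nat_lit 0) (nat_lit 78606454264) (nat_lit 2) (nat_lit 5) (nat_lit 4) (nat_lit 4) (nat_lit 2) (nat_lit 4) (nat_lit 256) (nat_lit 208) (nat_lit 196)) (XT.lf (nat_lit 0) (nat_lit 93650273651) (nat_lit 152) (nat_lit 8935634693) (nat_lit 0) (nat_lit 92464930607) (nat_lit 2) (nat_lit 5) (nat_lit 4) (nat_lit 4) (nat_lit 2) (nat_lit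 4) (nat_lit 257) (nat_lit 208) (nat_lit 195))) (XT.nd (nat_lit 78) (nat_lit 0) (nat_lit 0) (XT.lf (nat_lit 0) (nat_lit 109554865329) (nat_lit 152) (nat_lit 6101848880) (nat_lit 0) (nat_lit 108339517174) (nat_lit 2) (nat_lit 5) (nat_lit 4) (nat_lit 4) (nat_lit 2) (nat_lit 4) (nat_lit 258) (nat_lit 208) (nat_lit 194)) (XT.lf (nat_lit 0) (nat_lit 127782243259) (nat_lit 152) (nat_lit 2969876710) (nat_lit 0) (nat_lit 126540803704) (nat_lit 2) (nat_lit 5) (nat_lit 4) (nat_lit 4) (nat_lit 2) (nat_lit 4) (nat_lit 259) (nat_lit 208) (nat_lit 193)))) (XT.nd (nat_lit 156) (nat_lit 0) (nat_lit 0) (XT.nd (nat_lit 78) (nat_lit 0) (nat_lit 0) (XT.lf (nat_lit 0) (nat_lit 572530124) (nat_lit 76) (nat_lit 148140207181) (nat_lit 76) (nat_lit 146876079451) (nat_lit 1) (nat_lit 4) (nat_lit 2) (nat_lit 5) (nat_lit 2) (nat_lit 4) (nat_lit 260) (nat_lit 208) (nat_lit 192)) (XT.lf (nat_lit 0) (nat_lit 4874754955)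 (nat_lit 76) (nat_lit 168011369793) (nat_lit 76) (nat_lit 166727513216) (nat_lit 1) (nat_lit 4) (nat_lit 2) (nat_lit 5) (nat_lit 2) (nat_lit 4) (nat_lit 261) (nat_lit 208) (nat_lit 191))) (XT.nd (nat_lit 78) (nat_lit 0) (nat_lit 0) (XT.lf (nat_lit 0) (nat_lit 9730733795) (nat_lit 76) (nat_lit 190909634976) (nat_lit 76) (nat_lit 189608622880) (nat_lit 1) (nat_lit 4) (nat_lit 2) (nat_lit 5) (nat_lit 2) (nat_lit 4) (nat_lit 262) (nat_lit 208) (nat_lit 190)) (XT.nd (nat_lit 78) (nat_lit 0) (nat_lit 0) (XT.lf (nat_lit 0) (nat_lit 15235474927) (nat_lit 76) (nat_lit 217283012268) (nat_lit 76) (nat_lit 215967082329) (nat_lit 1) (nat_lit 4) (nat_lit 2) (nat_lit 5) (nat_lit 2) (nat_lit 4) (nat_lit 263) (nat_lit 208) (nat_lit 189)) (XT.lf (nat_lit 0) (nat_lit 21496679806) (nat_lit 76) (nat_lit 247647502528) (nat_lit 76) (nat_lit 246318600552) (nat_lit 1) (nat_lit 4) (nat_lit 2) (nat_lit 5) (nat_lit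 2) (nat_lit 4) (nat_lit 264) (nat_lit 208) (nat_lit 188)))))) (XT.nd (nat_lit 312) (nat_lit 0) (nat_lit 0) (XT.nd (nat_lit 156) (nat_lit 0) (nat_lit 0) (XT.nd (nat_lit 78) (nat_lit 0) (nat_lit 0) (XT.lf (nat_lit 0) (nat_lit 28636850268) (nat_lit 76) (nat_lit 282597193609) (nat_lit 76) (nat_lit 281257011601) (nat_lit 1) (nat_lit 4) (nat_lit 2) (nat_lit 5) (nat_lit 2) (nat_lit 4) (nat_lit 265) (nat_lit 208) (nat_lit 187)) (XT.lf (nat_lit 0) (nat_lit 36795685300) (nat_lit 76) (nat_lit 322815883816) (nat_lit 76) (nat_lit 321465893083) (nat_lit 1) (nat_lit 4) (nat_lit 2) (nat_lit 5) (nat_lit 2) (nat_lit 4) (nat_lit 266) (nat_lit 208) (nat_lit 186))) (XT.nd (nat_lit 78) (nat_lit 0) (nat_lit 0) (XT.lf (nat_lit 0) (nat_lit 46132814283) (nat_lit 76) (nat_lit 369090460564) (nat_lit 76) (nat_lit 367731940506) (nat_lit 1) (nat_lit 4) (nat_lit 2) (nat_lit 5) (nat_lit 2) (nat_lit 4) (nat_lit 267)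 (nat_lit 208) (nat_lit 185)) (XT.lf (nat_lit 0) (nat_lit 56830920175) (nat_lit 76) (nat_lit 422326296007) (nat_lit 76) (nat_lit 420960359145) (nat_lit 1) (nat_lit 4) (nat_lit 2) (nat_lit 5) (nat_lit 2) (nat_lit 4) (nat_lit 268) (nat_lit 208) (nat_lit 184)))) (XT.nd (nat_lit 156) (nat_lit 0) (nat_lit 0) (XT.nd (nat_lit 78) (nat_lit 0) (nat_lit 0) (XT.lf (nat_lit 0) (nat_lit 69099313744) (nat_lit 76) (nat_lit 483564960840) (nat_lit 76) (nat_lit 482192574583) (nat_lit 1) (nat_lit 4) (nat_lit 2) (nat_lit 5) (nat_lit 2) (nat_lit 4) (nat_lit 269) (nat_lit 208) (nat_lit 183)) (XT.lf (nat_lit 0) (nat_lit 83178028777) (nat_lit 76) (nat_lit 554004602852) (nat_lit 76) (nat_lit 552626608425) (nat_lit 1) (nat_lit 4) (nat_lit 2) (nat_lit 5) (nat_lit 2) (nat_lit 4) (nat_lit 270) (nat_lit 208) (nat_lit 182))) (XT.nd (nat_lit 78) (nat_lit 0) (nat_lit 0) (XT.lf (nat_lit 0) (nat_lit 99342518394) (nat_lit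 76) (nat_lit 635023388953) (nat_lit 76) (nat_lit 633640517857) (nat_lit 1) (nat_lit 4) (nat_lit 2) (nat_lit 5) (nat_lit 2) (nat_lit 4) (nat_lit 271) (nat_lit 208) (nat_lit 181)) (XT.nd (nat_lit 78) (nat_lit 0) (nat_lit 0) (XT.lf (nat_lit 0) (nat_lit 117909044349) (nat_lit 76) (nat_lit 728206469305) (nat_lit 76) (nat_lit 726819357626) (nat_lit 1) (nat_lit 4) (nat_lit 2) (nat_lit 5) (nat_lit 2) (nat_lit 4) (nat_lit 272) (nat_lit 208) (nat_lit 180)) (XT.lf (nat_lit 0) (nat_lit 139240864758) (nat_lit 76) (nat_lit 835376991132) (nat_lit 76) (nat_lit 833986191991) (nat_lit 1) (nat_lit 4) (nat_lit 2) (nat_lit 5) (nat_lit 2) (nat_lit 4) (nat_lit 273) (nat_lit 208) (nat_lit 179))))))) (XT.nd (nat_lit 702) (nat_lit 0) (nat_lit 0) (XT.nd (nat_lit 312) (nat_lit 0) (nat_lit 0) (XT.nd (nat_lit 156) (nat_lit 0) (nat_lit 0) (XT.nd (nat_lit 78) (nat_lit 0) (nat_lit 0) (XT.lf (nat_lit 0) (nat_lit 163755341324)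 (nat_lit 76) (nat_lit 958631768992) (nat_lit 76) (nat_lit 957237763362) (nat_lit 1) (nat_lit 4) (nat_lit 2) (nat_lit 5) (nat_lit 2) (nat_lit 4) (nat_lit 274) (nat_lit 208) (nat_lit 178)) (XT.lf (nat_lit 0) (nat_lit 191932105111) (nat_lit 76) (nat_lit 1100382309408) (nat_lit 76) (nat_lit 1098985515527) (nat_lit 1) (nat_lit 4) (nat_lit 2) (nat_lit 5) (nat_lit 2) (nat_lit 4) (nat_lit 275) (nat_lit 208) (nat_lit 177))) (XT.nd (nat_lit 78) (nat_lit 0) (nat_lit 0) (XT.lf (nat_lit 0) (nat_lit 224322440629) (nat_lit 76) (nat_lit 1263401992519) (nat_lit 76) (nat_lit 1262002774071) (nat_lit 1) (nat_lit 4) (nat_lit 2) (nat_lit 5) (nat_lit 2) (nat_lit 4) (nat_lit 276) (nat_lit 208) (nat_lit 176)) (XT.lf (nat_lit 0) (nat_lit 261560071832) (nat_lit 76) (nat_lit 1450880333865) (nat_lit 76) (nat_lit 1449479007098) (nat_lit 1) (nat_lit 4) (nat_lit 2) (nat_lit 5) (nat_lit 2) (nat_lit 4) (nat_lit 277)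 (nat_lit 208) (nat_lit 175)))) (XT.nd (nat_lit 156) (nat_lit 0) (nat_lit 0) (XT.nd (nat_lit 78) (nat_lit 0) (nat_lit 0) (XT.lf (nat_lit 0) (nat_lit 304373561070) (nat_lit 76) (nat_lit 1666485387948) (nat_lit 76) (nat_lit 1665082227861) (nat_lit 1) (nat_lit 4) (nat_lit 2) (nat_lit 5) (nat_lit 2) (nat_lit 4) (nat_lit 278) (nat_lit 208) (nat_lit 174)) (XT.lf (nat_lit 0) (nat_lit 353600563567) (nat_lit 76) (nat_lit 1914435514524) (nat_lit 76) (nat_lit 1913030760245) (nat_lit 1) (nat_lit 4) (nat_lit 2) (nat_lit 5) (nat_lit 2) (nat_lit 4) (nat_lit 279) (nat_lit 208) (nat_lit 173))) (XT.nd (nat_lit 78) (nat_lit 0) (nat_lit 0) (XT.lf (nat_lit 0) (nat_lit 410204216330) (nat_lit 76) (nat_lit 2199581911722) (nat_lit 76) (nat_lit 2198175771188) (nat_lit 1) (nat_lit 4) (nat_lit 2) (nat_lit 5) (nat_lit 2) (nat_lit 4) (nat_lit 280) (nat_lit 208) (nat_lit 172)) (XT.nd (nat_lit 78) (nat_lit 0) (nat_lit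 0) (XT.lf (nat_lit 0) (nat_lit 475291982128) (nat_lit 76) (nat_lit 2527503530789) (nat_lit 76) (nat_lit 2526096184818) (nat_lit 1) (nat_lit 4) (nat_lit 2) (nat_lit 5) (nat_lit 2) (nat_lit 4) (nat_lit 281) (nat_lit 208) (nat_lit 171)) (XT.lf (nat_lit 0) (nat_lit 550137317251) (nat_lit 76) (nat_lit 2904616229492) (nat_lit 76) (nat_lit 2903207835314) (nat_lit 1) (nat_lit 4) (nat_lit 2) (nat_lit 5) (nat_lit 2) (nat_lit 4) (nat_lit 282) (nat_lit 208) (nat_lit 170)))))) (XT.nd (nat_lit 312) (nat_lit 0) (nat_lit 0) (XT.nd (nat_lit 156) (nat_lit 0) (nat_lit 0) (XT.nd (nat_lit 78) (nat_lit 0) (nat_lit 0) (XT.lf (nat_lit 0) (nat_lit 636204586949) (nat_lit 76) (nat_lit 3338298299761) (nat_lit 76) (nat_lit 3336888994098) (nat_lit 1) (nat_lit 4) (nat_lit 2) (nat_lit 5) (nat_lit 2) (nat_lit 4) (nat_lit 283) (nat_lit 208) (nat_lit 169)) (XT.lf (nat_lit 0) (nat_lit 735177716066) (nat_lit 76) (nat_lit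 3837034825579) (nat_lit 76) (nat_lit 3835624727321) (nat_lit 1) (nat_lit 4) (nat_lit 2) (nat_lit 5) (nat_lit 2) (nat_lit 4) (nat_lit 284) (nat_lit 208) (nat_lit 168))) (XT.nd (nat_lit 78) (nat_lit 0) (nat_lit 0) (XT.lf (nat_lit 0) (nat_lit 848993135387) (nat_lit 76) (nat_lit 4410583695495) (nat_lit 76) (nat_lit 4409172908024) (nat_lit 1) (nat_lit 4) (nat_lit 2) (nat_lit 5) (nat_lit 2) (nat_lit 4) (nat_lit 285) (nat_lit 208) (nat_lit 167)) (XT.lf (nat_lit 0) (nat_lit 979877668335) (nat_lit 76) (nat_lit 5070166517834) (nat_lit 76) (nat_lit 5068755131048) (nat_lit 1) (nat_lit 4) (nat_lit 2) (nat_lit 5) (nat_lit 2) (nat_lit 4) (nat_lit 286) (nat_lit 208) (nat_lit 166)))) (XT.nd (nat_lit 156) (nat_lit 0) (nat_lit 0) (XT.nd (nat_lit 78) (nat_lit 0) (nat_lit 0) (XT.lf (nat_lit 0) (nat_lit 1130392099250) (nat_lit 76) (nat_lit 5828688173902) (nat_lit 76) (nat_lit 5827276265972) (nat_lit 1) (nat_lit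 4) (nat_lit 2) (nat_lit 5) (nat_lit 2) (nat_lit 4) (nat_lit 287) (nat_lit 208) (nat_lit 165)) (XT.lf (nat_lit 0) (nat_lit 1303481275693) (nat_lit 76) (nat_lit 6700989304797) (nat_lit 76) (nat_lit 6699576943697) (nat_lit 1) (nat_lit 4) (nat_lit 2) (nat_lit 5) (nat_lit 2) (nat_lit 4) (nat_lit 288) (nat_lit 208) (nat_lit 164))) (XT.nd (nat_lit 78) (nat_lit 0) (nat_lit 0) (XT.lf (nat_lit 0) (nat_lit 1502531725030) (nat_lit 76) (nat_lit 7704136671774) (nat_lit 76) (nat_lit 7702723916615) (nat_lit 1) (nat_lit 4) (nat_lit 2) (nat_lit 5) (nat_lit 2) (nat_lit 4) (nat_lit 289) (nat_lit 208) (nat_lit 163)) (XT.nd (nat_lit 78) (nat_lit 0) (nat_lit 0) (XT.lf (nat_lit 0) (nat_lit 1731437912573) (nat_lit 76) (nat_lit 8857757071145) (nat_lit 76) (nat_lit 8856343973325) (nat_lit 1) (nat_lit 4) (nat_lit 2) (nat_lit 5) (nat_lit 2) (nat_lit 4) (nat_lit 290) (nat_lit 208) (nat_lit 162)) (XT.lf (nat_lit 0)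 (nat_lit 1994678437644) (nat_lit 76) (nat_lit 10184421336810) (nat_lit 76) (nat_lit 10183007941024) (nat_lit 1) (nat_lit 4) (nat_lit 2) (nat_lit 5) (nat_lit 2) (nat_lit 4) (nat_lit 291) (nat_lit 208) (nat_lit 161))))))))
noncomputable def xc26 : XT := (XT.nd (nat_lit 31122) (nat_lit 0) (nat_lit 0) (XT.nd (nat_lit 1170) (nat_lit 0) (nat_lit 0) (XT.nd (nat_lit 312) (nat_lit 0) (nat_lit 0) (XT.nd (nat_lit 156) (nat_lit 0) (nat_lit 0) (XT.nd (nat_lit 78) (nat_lit 0) (nat_lit 0) (XT.lf (nat_lit 0) (nat_lit 2297403658342) (nat_lit 76) (nat_lit 11710085943532) (nat_lit 76) (nat_lit 11708672288645) (nat_lit 1) (nat_lit 4) (nat_lit 2) (nat_lit 5) (nat_lit 2) (nat_lit 4) (nat_lit 292) (nat_lit 208) (nat_lit 160)) (XT.lf (nat_lit 0) (nat_lit 2645536459421) (nat_lit 76) (nat_lit 13464600851007) (nat_lit 76) (nat_lit 13463186970815) (nat_lit 1) (nat_lit 4) (nat_lit 2) (nat_lit 5) (nat_lit 2) (nat_lit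 4) (nat_lit 293) (nat_lit 208) (nat_lit 159))) (XT.nd (nat_lit 78) (nat_lit 0) (nat_lit 0) (XT.lf (nat_lit 0) (nat_lit 3045888134813) (nat_lit 76) (nat_lit 15482293524818) (nat_lit 76) (nat_lit 15480879448709) (nat_lit 1) (nat_lit 4) (nat_lit 2) (nat_lit 5) (nat_lit 2) (nat_lit 4) (nat_lit 294) (nat_lit 208) (nat_lit 158)) (XT.lf (nat_lit 0) (nat_lit 3506291652082) (nat_lit 76) (nat_lit 17802640560755) (nat_lit 76) (nat_lit 17801226314283) (nat_lit 1) (nat_lit 4) (nat_lit 2) (nat_lit 5) (nat_lit 2) (nat_lit 4) (nat_lit 295) (nat_lit 208) (nat_lit 157)))) (XT.nd (nat_lit 156) (nat_lit 0) (nat_lit 0) (XT.nd (nat_lit 78) (nat_lit 0) (nat_lit 0) (XT.lf (nat_lit 0) (nat_lit 4035754906130) (nat_lit 76) (nat_lit 20471040053000) (nat_lit 76) (nat_lit 20469625658386) (nat_lit 1) (nat_lit 4) (nat_lit 2) (nat_lit 5) (nat_lit 2) (nat_lit 4) (nat_lit 296) (nat_lit 208) (nat_lit 156)) (XT.lf (nat_lit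 0) (nat_lit 4644636960623) (nat_lit 76) (nat_lit 23539699817706) (nat_lit 76) (nat_lit 23538285294274) (nat_lit 1) (nat_lit 4) (nat_lit 2) (nat_lit 5) (nat_lit 2) (nat_lit 4) (nat_lit 297) (nat_lit 208) (nat_lit 155))) (XT.nd (nat_lit 78) (nat_lit 0) (nat_lit 0) (XT.lf (nat_lit 0) (nat_lit 5344850725323) (nat_lit 76) (nat_lit 27068658850270) (nat_lit 76) (nat_lit 27067244214821) (nat_lit 1) (nat_lit 4) (nat_lit 2) (nat_lit 5) (nat_lit 2) (nat_lit 4) (nat_lit 298) (nat_lit 208) (nat_lit 154)) (XT.nd (nat_lit 546) (nat_lit 0) (nat_lit 0) (XT.lf (nat_lit 0) (nat_lit 6150096034758) (nat_lit 76) (nat_lit 31126962001327) (nat_lit 76) (nat_lit 31125547268473) (nat_lit 1) (nat_lit 4) (nat_lit 2) (nat_lit 5) (nat_lit 2) (nat_lit 4) (nat_lit 299) (nat_lit 208) (nat_lit 153)) (XT.lf (nat_lit 0) (nat_lit 16398293594124) (nat_lit 76) (nat_lit 82776258993346) (nat_lit 76) (nat_lit 82774843855243)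 (nat_lit 1) (nat_lit 4) (nat_lit 2) (nat_lit 5) (nat_lit 2) (nat_lit 4) (nat_lit 306) (nat_lit 208) (nat_lit 146)))))) (XT.nd (nat_lit 29562) (nat_lit 0) (nat_lit 76) (XT.nd (nat_lit 29406) (nat_lit 0) (nat_lit 228) (XT.nd (nat_lit 29328) (nat_lit 0) (nat_lit 228) (XT.lf (nat_lit 0) (nat_lit 18861553000601) (nat_lit 76) (nat_lit 95190703348767) (nat_lit 76) (nat_lit 95189288178822) (nat_lit 1) (nat_lit 4) (nat_lit 2) (nat_lit 5) (nat_lit 2) (nat_lit 4) (nat_lit 307) (nat_lit 208) (nat_lit 145)) (XT.lf (nat_lit 0) (nat_lit 4168635810) (nat_lit 76) (nat_lit 4706444272) (nat_lit 76) (nat_lit 4706444272) (nat_lit 4) (nat_lit 4) (nat_lit 5) (nat_lit 5) (nat_lit 5) (nat_lit 4) (nat_lit 242) (nat_lit 209) (nat_lit 209))) (XT.nd (nat_lit 78) (nat_lit 0) (nat_lit 0) (XT.lf (nat_lit 0) (nat_lit 18252203705) (nat_lit 76) (nat_lit 6281900366) (nat_lit 76) (nat_lit 6037746933) (nat_lit 4) (nat_lit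 4) (nat_lit 5) (nat_lit 5) (nat_lit 5) (nat_lit 4) (nat_lit 243) (nat_lit 209) (nat_lit 208)) (XT.lf (nat_lit 0) (nat_lit 28918077820) (nat_lit 76) (nat_lit 3043462055) (nat_lit 76) (nat_lit 2587001288) (nat_lit 4) (nat_lit 4) (nat_lit 5) (nat_lit 5) (nat_lit 5) (nat_lit 4) (nat_lit 244) (nat_lit 209) (nat_lit 207)))) (XT.nd (nat_lit 156) (nat_lit 0) (nat_lit 0) (XT.nd (nat_lit 78) (nat_lit 0) (nat_lit 0) (XT.lf (nat_lit 0) (nat_lit 997735830) (nat_lit 152) (nat_lit 37714579165) (nat_lit 0) (nat_lit 440278577) (nat_lit 2) (nat_lit 5) (nat_lit 4) (nat_lit 4) (nat_lit 2) (nat_lit 4) (nat_lit 245) (nat_lit 209) (nat_lit 206)) (XT.lf (nat_lit 0) (nat_lit 4972041418) (nat_lit 152) (nat_lit 35164535133) (nat_lit 0) (nat_lit 4274988648) (nat_lit 2) (nat_lit 5) (nat_lit 4) (nat_lit 4) (nat_lit 2) (nat_lit 4) (nat_lit 246) (nat_lit 209) (nat_lit 205))) (XT.nd (nat_lit 78) (nat_lit 0) (nat_lit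 0) (XT.lf (nat_lit 0) (nat_lit 9249845799) (nat_lit 152) (nat_lit 32822286966) (nat_lit 0) (nat_lit 8431405621) (nat_lit 2) (nat_lit 5) (nat_lit 4) (nat_lit 4) (nat_lit 2) (nat_lit 4) (nat_lit 247) (nat_lit 209) (nat_lit 204)) (XT.nd (nat_lit 78) (nat_lit 0) (nat_lit 0) (XT.lf (nat_lit 0) (nat_lit 13914845143) (nat_lit 152) (nat_lit 30642008068) (nat_lit 0) (nat_lit 12990850698) (nat_lit 2) (nat_lit 5) (nat_lit 4) (nat_lit 4) (nat_lit 2) (nat_lit 4) (nat_lit 248) (nat_lit 209) (nat_lit 203)) (XT.lf (nat_lit 0) (nat_lit 19058311178) (nat_lit 152) (nat_lit 28581040808) (nat_lit 0) (nat_lit 18042530414) (nat_lit 2) (nat_lit 5) (nat_lit 4) (nat_lit 4) (nat_lit 2) (nat_lit 4) (nat_lit 249) (nat_lit 209) (nat_lit 202))))))) (XT.nd (nat_lit 702) (nat_lit 76) (nat_lit 0) (XT.nd (nat_lit 312) (nat_lit 0) (nat_lit 0) (XT.nd (nat_lit 156) (nat_lit 0) (nat_lit 0) (XT.nd (nat_lit 78) (nat_lit 0)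 (nat_lit 0) (XT.lf (nat_lit 0) (nat_lit 24780876934) (nat_lit 152) (nat_lit 26599061915) (nat_lit 0) (nat_lit 23685281980) (nat_lit 2) (nat_lit 5) (nat_lit 4) (nat_lit 4) (nat_lit 2) (nat_lit 4) (nat_lit 250) (nat_lit 209) (nat_lit 201)) (XT.lf (nat_lit 0) (nat_lit 31194505656) (nat_lit 152) (nat_lit 24657293541) (nat_lit 0) (nat_lit 30029507057) (nat_lit 2) (nat_lit 5) (nat_lit 4) (nat_lit 4) (nat_lit 2) (nat_lit 4) (nat_lit 251) (nat_lit 209) (nat_lit 200))) (XT.nd (nat_lit 78) (nat_lit 0) (nat_lit 0) (XT.lf (nat_lit 0) (nat_lit 38424681382) (nat_lit 152) (nat_lit 22717744564) (nat_lit 0) (nat_lit 37199331788) (nat_lit 2) (nat_lit 5) (nat_lit 4) (nat_lit 4) (nat_lit 2) (nat_lit 4) (nat_lit 252) (nat_lit 209) (nat_lit 199)) (XT.lf (nat_lit 0) (nat_lit 46612864072) (nat_lit 152) (nat_lit 20742467288) (nat_lit 0) (nat_lit 45335035353) (nat_lit 2) (nat_lit 5) (nat_lit 4) (nat_lit 4) (nat_lit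 2) (nat_lit 4) (nat_lit 253) (nat_lit 209) (nat_lit 198)))) (XT.nd (nat_lit 156) (nat_lit 0) (nat_lit 0) (XT.nd (nat_lit 78) (nat_lit 0) (nat_lit 0) (XT.lf (nat_lit 0) (nat_lit 55919257302) (nat_lit 152) (nat_lit 18692814984) (nat_lit 0) (nat_lit 54595794560) (nat_lit 2) (nat_lit 5) (nat_lit 4) (nat_lit 4) (nat_lit 2) (nat_lit 4) (nat_lit 254) (nat_lit 209) (nat_lit 197)) (XT.lf (nat_lit 0) (nat_lit 66525942678) (nat_lit 152) (nat_lit 16528685758) (nat_lit 0) (nat_lit 65162798178) (nat_lit 2) (nat_lit 5) (nat_lit 4) (nat_lit 4) (nat_lit 2) (nat_lit 4) (nat_lit 255) (nat_lit 209) (nat_lit 196))) (XT.nd (nat_lit 78) (nat_lit 0) (nat_lit 0) (XT.lf (nat_lit 0) (nat_lit 78640442305) (nat_lit 152) (nat_lit 14207737951) (nat_lit 0) (nat_lit 77242791927) (nat_lit 2) (nat_lit 5) (nat_lit 4) (nat_lit 4) (nat_lit 2) (nat_lit 4) (nat_lit 256) (nat_lit 209) (nat_lit 195)) (XT.nd (nat_lit 78) (nat_lit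 0) (nat_lit 0) (XT.lf (nat_lit 0) (nat_lit 92499779001) (nat_lit 152) (nat_lit 11684561716) (nat_lit 0) (nat_lit 91072123513) (nat_lit 2) (nat_lit 5) (nat_lit 4) (nat_lit 4) (nat_lit 2) (nat_lit 4) (nat_lit 257) (nat_lit 209) (nat_lit 194)) (XT.lf (nat_lit 0) (nat_lit 108375113703) (nat_lit 152) (nat_lit 8909790561) (nat_lit 0) (nat_lit 106921366814) (nat_lit 2) (nat_lit 5) (nat_lit 4) (nat_lit 4) (nat_lit 2) (nat_lit 4) (nat_lit 258) (nat_lit 209) (nat_lit 193)))))) (XT.nd (nat_lit 312) (nat_lit 0) (nat_lit 0) (XT.nd (nat_lit 156) (nat_lit 76) (nat_lit 0) (XT.nd (nat_lit 78) (nat_lit 0) (nat_lit 0) (XT.lf (nat_lit 0) (nat_lit 126577050784) (nat_lit 152) (nat_lit 5829135485) (nat_lit 0) (nat_lit 125100615721) (nat_lit 2) (nat_lit 5) (nat_lit 4) (nat_lit 4) (nat_lit 2) (nat_lit 4) (nat_lit 259) (nat_lit 209) (nat_lit 192)) (XT.lf (nat_lit 0) (nat_lit 147461715101) (nat_lit 152) (nat_lit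 2382322801) (nat_lit 0) (nat_lit 145965551191) (nat_lit 2) (nat_lit 5) (nat_lit 4) (nat_lit 4) (nat_lit 2) (nat_lit 4) (nat_lit 260) (nat_lit 209) (nat_lit 191))) (XT.nd (nat_lit 78) (nat_lit 0) (nat_lit 0) (XT.lf (nat_lit 0) (nat_lit 1644488902) (nat_lit 76) (nat_lit 169861325527) (nat_lit 76) (nat_lit 168348006098) (nat_lit 1) (nat_lit 4) (nat_lit 2) (nat_lit 5) (nat_lit 2) (nat_lit 4) (nat_lit 261) (nat_lit 209) (nat_lit 190)) (XT.lf (nat_lit 0) (nat_lit 6463428424) (nat_lit 76) (nat_lit 192778368539) (nat_lit 76) (nat_lit 191250131267) (nat_lit 1) (nat_lit 4) (nat_lit 2) (nat_lit 5) (nat_lit 2) (nat_lit 4) (nat_lit 262) (nat_lit 209) (nat_lit 189)))) (XT.nd (nat_lit 156) (nat_lit 0) (nat_lit 0) (XT.nd (nat_lit 78) (nat_lit 0) (nat_lit 0) (XT.lf (nat_lit 0) (nat_lit 11935961452) (nat_lit 76) (nat_lit 219168074377) (nat_lit 76) (nat_lit 217626865067) (nat_lit 1) (nat_lit 4) (nat_lit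 2) (nat_lit 5) (nat_lit 2) (nat_lit 4) (nat_lit 263) (nat_lit 209) (nat_lit 188)) (XT.lf (nat_lit 0) (nat_lit 18169159286) (nat_lit 76) (nat_lit 249546763373) (nat_lit 76) (nat_lit 247994274031) (nat_lit 1) (nat_lit 4) (nat_lit 2) (nat_lit 5) (nat_lit 2) (nat_lit 4) (nat_lit 264) (nat_lit 209) (nat_lit 187))) (XT.nd (nat_lit 78) (nat_lit 0) (nat_lit 0) (XT.lf (nat_lit 0) (nat_lit 25284975794) (nat_lit 76) (nat_lit 284508801181) (nat_lit 76) (nat_lit 282946503115) (nat_lit 1) (nat_lit 4) (nat_lit 2) (nat_lit 5) (nat_lit 2) (nat_lit 4) (nat_lit 265) (nat_lit 209) (nat_lit 186)) (XT.nd (nat_lit 78) (nat_lit 0) (nat_lit 0) (XT.lf (nat_lit 0) (nat_lit 33422633476) (nat_lit 76) (nat_lit 324738227672) (nat_lit 76) (nat_lit 323167400280) (nat_lit 1) (nat_lit 4) (nat_lit 2) (nat_lit 5) (nat_lit 2) (nat_lit 4) (nat_lit 266) (nat_lit 209) (nat_lit 185)) (XT.lf (nat_lit 0) (nat_lit 42741347371)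 (nat_lit 76) (nat_lit 371022140319) (nat_lit 76) (nat_lit 369443896123) (nat_lit 1) (nat_lit 4) (nat_lit 2) (nat_lit 5) (nat_lit 2) (nat_lit 4) (nat_lit 267) (nat_lit 209) (nat_lit 184))))))))
noncomputable def xc27 : XT := (XT.nd (nat_lit 1404) (nat_lit 0) (nat_lit 0) (XT.nd (nat_lit 702) (nat_lit 0) (nat_lit 0) (XT.nd (nat_lit 312) (nat_lit 0) (nat_lit 0) (XT.nd (nat_lit 156) (nat_lit 0) (nat_lit 0) (XT.nd (nat_lit 78) (nat_lit 0) (nat_lit 0) (XT.lf (nat_lit 0) (nat_lit 53423440144) (nat_lit 76) (nat_lit 424266093936) (nat_lit 76) (nat_lit 422681400345) (nat_lit 1) (nat_lit 4) (nat_lit 2) (nat_lit 5) (nat_lit 2) (nat_lit 4) (nat_lit 268) (nat_lit 209) (nat_lit 183)) (XT.lf (nat_lit 0) (nat_lit 65677909261) (nat_lit 76) (nat_lit 485511818050) (nat_lit 76) (nat_lit 483921516289) (nat_lit 1) (nat_lit 4) (nat_lit 2) (nat_lit 5) (nat_lit 2) (nat_lit 4) (nat_lit 269) (nat_lit 209) (nat_lit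 182))) (XT.nd (nat_lit 78) (nat_lit 0) (nat_lit 0) (XT.lf (nat_lit 0) (nat_lit 79744516075) (nat_lit 76) (nat_lit 555957598568) (nat_lit 76) (nat_lit 554362420138) (nat_lit 1) (nat_lit 4) (nat_lit 2) (nat_lit 5) (nat_lit 2) (nat_lit 4) (nat_lit 270) (nat_lit 209) (nat_lit 181)) (XT.lf (nat_lit 0) (nat_lit 95898476806) (nat_lit 76) (nat_lit 636981722499) (nat_lit 76) (nat_lit 635382303487) (nat_lit 1) (nat_lit 4) (nat_lit 2) (nat_lit 5) (nat_lit 2) (nat_lit 4) (nat_lit 271) (nat_lit 209) (nat_lit 180)))) (XT.nd (nat_lit 156) (nat_lit 0) (nat_lit 0) (XT.nd (nat_lit 78) (nat_lit 0) (nat_lit 0) (XT.lf (nat_lit 0) (nat_lit 114455847207) (nat_lit 76) (nat_lit 730169444443) (nat_lit 76) (nat_lit 728566337968) (nat_lit 1) (nat_lit 4) (nat_lit 2) (nat_lit 5) (nat_lit 2) (nat_lit 4) (nat_lit 272) (nat_lit 209) (nat_lit 179)) (XT.lf (nat_lit 0) (nat_lit 135779706266) (nat_lit 76) (nat_lit 837344002437)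 (nat_lit 76) (nat_lit 835737689473) (nat_lit 1) (nat_lit 4) (nat_lit 2) (nat_lit 5) (nat_lit 2) (nat_lit 4) (nat_lit 273) (nat_lit 209) (nat_lit 178))) (XT.nd (nat_lit 78) (nat_lit 0) (nat_lit 0) (XT.lf (nat_lit 0) (nat_lit 160287259919) (nat_lit 76) (nat_lit 960602290007) (nat_lit 76) (nat_lit 958993188792) (nat_lit 1) (nat_lit 4) (nat_lit 2) (nat_lit 5) (nat_lit 2) (nat_lit 4) (nat_lit 274) (nat_lit 209) (nat_lit 177)) (XT.nd (nat_lit 78) (nat_lit 0) (nat_lit 0) (XT.lf (nat_lit 0) (nat_lit 188458003781) (nat_lit 76) (nat_lit 1102355882345) (nat_lit 76) (nat_lit 1100744356564) (nat_lit 1) (nat_lit 4) (nat_lit 2) (nat_lit 5) (nat_lit 2) (nat_lit 4) (nat_lit 275) (nat_lit 209) (nat_lit 176)) (XT.lf (nat_lit 0) (nat_lit 220843104581) (nat_lit 76) (nat_lit 1265378219302) (nat_lit 76) (nat_lit 1263764585201) (nat_lit 1) (nat_lit 4) (nat_lit 2) (nat_lit 5) (nat_lit 2) (nat_lit 4) (nat_lit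 276) (nat_lit 209) (nat_lit 175)))))) (XT.nd (nat_lit 312) (nat_lit 0) (nat_lit 0) (XT.nd (nat_lit 156) (nat_lit 0) (nat_lit 0) (XT.nd (nat_lit 78) (nat_lit 0) (nat_lit 0) (XT.lf (nat_lit 0) (nat_lit 258076183856) (nat_lit 76) (nat_lit 1452858868339) (nat_lit 76) (nat_lit 1451243400917) (nat_lit 1) (nat_lit 4) (nat_lit 2) (nat_lit 5) (nat_lit 2) (nat_lit 4) (nat_lit 277) (nat_lit 209) (nat_lit 174)) (XT.lf (nat_lit 0) (nat_lit 300885714896) (nat_lit 76) (nat_lit 1668465929111) (nat_lit 76) (nat_lit 1666848867498) (nat_lit 1) (nat_lit 4) (nat_lit 2) (nat_lit 5) (nat_lit 2) (nat_lit 4) (nat_lit 278) (nat_lit 209) (nat_lit 173))) (XT.nd (nat_lit 78) (nat_lit 0) (nat_lit 0) (XT.lf (nat_lit 0) (nat_lit 350109275482) (nat_lit 76) (nat_lit 1916417800633) (nat_lit 76) (nat_lit 1914799352766) (nat_lit 1) (nat_lit 4) (nat_lit 2) (nat_lit 5) (nat_lit 2) (nat_lit 4) (nat_lit 279) (nat_lit 209) (nat_lit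 172)) (XT.lf (nat_lit 0) (nat_lit 406709935278) (nat_lit 76) (nat_lit 2201565715175) (nat_lit 76) (nat_lit 2199946061870) (nat_lit 1) (nat_lit 4) (nat_lit 2) (nat_lit 5) (nat_lit 2) (nat_lit 4) (nat_lit 280) (nat_lit 209) (nat_lit 171)))) (XT.nd (nat_lit 156) (nat_lit 0) (nat_lit 0) (XT.nd (nat_lit 78) (nat_lit 0) (nat_lit 0) (XT.lf (nat_lit 0) (nat_lit 471795098497) (nat_lit 76) (nat_lit 2529488653673) (nat_lit 76) (nat_lit 2527867952161) (nat_lit 1) (nat_lit 4) (nat_lit 2) (nat_lit 5) (nat_lit 2) (nat_lit 4) (nat_lit 281) (nat_lit 209) (nat_lit 170)) (XT.lf (nat_lit 0) (nat_lit 546638170507) (nat_lit 76) (nat_lit 2906602499706) (nat_lit 76) (nat_lit 2904980886709) (nat_lit 1) (nat_lit 4) (nat_lit 2) (nat_lit 5) (nat_lit 2) (nat_lit 4) (nat_lit 282) (nat_lit 209) (nat_lit 169))) (XT.nd (nat_lit 78) (nat_lit 0) (nat_lit 0) (XT.lf (nat_lit 0) (nat_lit 632703472281) (nat_lit 76) (nat_lit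 3340285567653) (nat_lit 76) (nat_lit 3338663162062) (nat_lit 1) (nat_lit 4) (nat_lit 2) (nat_lit 5) (nat_lit 2) (nat_lit 4) (nat_lit 283) (nat_lit 209) (nat_lit 168)) (XT.nd (nat_lit 78) (nat_lit 0) (nat_lit 0) (XT.lf (nat_lit 0) (nat_lit 731674890159) (nat_lit 76) (nat_lit 3839022961018) (nat_lit 76) (nat_lit 3837399866213) (nat_lit 1) (nat_lit 4) (nat_lit 2) (nat_lit 5) (nat_lit 2) (nat_lit 4) (nat_lit 284) (nat_lit 209) (nat_lit 167)) (XT.lf (nat_lit 0) (nat_lit 845488821447) (nat_lit 76) (nat_lit 4412572585323) (nat_lit 76) (nat_lit 4410948891203) (nat_lit 1) (nat_lit 4) (nat_lit 2) (nat_lit 5) (nat_lit 2) (nat_lit 4) (nat_lit 285) (nat_lit 209) (nat_lit 166))))))) (XT.nd (nat_lit 702) (nat_lit 0) (nat_lit 0) (XT.nd (nat_lit 312) (nat_lit 0) (nat_lit 0) (XT.nd (nat_lit 156) (nat_lit 0) (nat_lit 0) (XT.nd (nat_lit 78) (nat_lit 0) (nat_lit 0) (XT.lf (nat_lit 0) (nat_lit 976372060453)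 (nat_lit 76) (nat_lit 5072156063652) (nat_lit 76) (nat_lit 5070531848387) (nat_lit 1) (nat_lit 4) (nat_lit 2) (nat_lit 5) (nat_lit 2) (nat_lit 4) (nat_lit 286) (nat_lit 209) (nat_lit 165)) (XT.lf (nat_lit 0) (nat_lit 1126885366201) (nat_lit 76) (nat_lit 5830678290146) (nat_lit 76) (nat_lit 5829053621713) (nat_lit 1) (nat_lit 4) (nat_lit 2) (nat_lit 5) (nat_lit 2) (nat_lit 4) (nat_lit 287) (nat_lit 209) (nat_lit 164))) (XT.nd (nat_lit 78) (nat_lit 0) (nat_lit 0) (XT.lf (nat_lit 0) (nat_lit 1299973564238) (nat_lit 76) (nat_lit 6702979917063) (nat_lit 76) (nat_lit 6701354854570) (nat_lit 1) (nat_lit 4) (nat_lit 2) (nat_lit 5) (nat_lit 2) (nat_lit 4) (nat_lit 288) (nat_lit 209) (nat_lit 163)) (XT.lf (nat_lit 0) (nat_lit 1499023162787) (nat_lit 76) (nat_lit 7706127715365) (nat_lit 76) (nat_lit 7704502310211) (nat_lit 1) (nat_lit 4) (nat_lit 2) (nat_lit 5) (nat_lit 2) (nat_lit 4) (nat_lit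 289) (nat_lit 209) (nat_lit 162)))) (XT.nd (nat_lit 156) (nat_lit 0) (nat_lit 0) (XT.nd (nat_lit 78) (nat_lit 0) (nat_lit 0) (XT.lf (nat_lit 0) (nat_lit 1727928610514) (nat_lit 76) (nat_lit 8859748489800) (nat_lit 76) (nat_lit 8858122786680) (nat_lit 1) (nat_lit 4) (nat_lit 2) (nat_lit 5) (nat_lit 2) (nat_lit 4) (nat_lit 290) (nat_lit 209) (nat_lit 161)) (XT.lf (nat_lit 0) (nat_lit 1991168492268) (nat_lit 76) (nat_lit 10186413081608) (nat_lit 76) (nat_lit 10184787119387) (nat_lit 1) (nat_lit 4) (nat_lit 2) (nat_lit 5) (nat_lit 2) (nat_lit 4) (nat_lit 291) (nat_lit 209) (nat_lit 160))) (XT.nd (nat_lit 78) (nat_lit 0) (nat_lit 0) (XT.lf (nat_lit 0) (nat_lit 2293893153559) (nat_lit 76) (nat_lit 11712077971932) (nat_lit 76) (nat_lit 11710451784407) (nat_lit 1) (nat_lit 4) (nat_lit 2) (nat_lit 5) (nat_lit 2) (nat_lit 4) (nat_lit 292) (nat_lit 209) (nat_lit 159)) (XT.nd (nat_lit 78) (nat_lit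 0) (nat_lit 0) (XT.lf (nat_lit 0) (nat_lit 2642025468197) (nat_lit 76) (nat_lit 13466593126019) (nat_lit 76) (nat_lit 13464966742576) (nat_lit 1) (nat_lit 4) (nat_lit 2) (nat_lit 5) (nat_lit 2) (nat_lit 4) (nat_lit 293) (nat_lit 209) (nat_lit 158)) (XT.lf (nat_lit 0) (nat_lit 3042376720597) (nat_lit 76) (nat_lit 15484286014273) (nat_lit 76) (nat_lit 15482659460467) (nat_lit 1) (nat_lit 4) (nat_lit 2) (nat_lit 5) (nat_lit 2) (nat_lit 4) (nat_lit 294) (nat_lit 209) (nat_lit 157)))))) (XT.nd (nat_lit 312) (nat_lit 0) (nat_lit 0) (XT.nd (nat_lit 156) (nat_lit 0) (nat_lit 0) (XT.nd (nat_lit 78) (nat_lit 0) (nat_lit 0) (XT.lf (nat_lit 0) (nat_lit 3502779870047) (nat_lit 76) (nat_lit 17804633236684) (nat_lit 76) (nat_lit 17803006534736) (nat_lit 1) (nat_lit 4) (nat_lit 2) (nat_lit 5) (nat_lit 2) (nat_lit 4) (nat_lit 295) (nat_lit 209) (nat_lit 156)) (XT.lf (nat_lit 0) (nat_lit 4032242804252)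 (nat_lit 76) (nat_lit 20473032891080) (nat_lit 76) (nat_lit 20471406060313) (nat_lit 1) (nat_lit 4) (nat_lit 2) (nat_lit 5) (nat_lit 2) (nat_lit 4) (nat_lit 296) (nat_lit 209) (nat_lit 155))) (XT.nd (nat_lit 78) (nat_lit 0) (nat_lit 0) (XT.lf (nat_lit 0) (nat_lit 4641124580621) (nat_lit 76) (nat_lit 23541692796786) (nat_lit 76) (nat_lit 23540065854004) (nat_lit 1) (nat_lit 4) (nat_lit 2) (nat_lit 5) (nat_lit 2) (nat_lit 4) (nat_lit 297) (nat_lit 209) (nat_lit 154)) (XT.lf (nat_lit 0) (nat_lit 5341338103475) (nat_lit 76) (nat_lit 27070651951959) (nat_lit 76) (nat_lit 27069024911771) (nat_lit 1) (nat_lit 4) (nat_lit 2) (nat_lit 5) (nat_lit 2) (nat_lit 4) (nat_lit 298) (nat_lit 209) (nat_lit 153)))) (XT.nd (nat_lit 390) (nat_lit 0) (nat_lit 0) (XT.nd (nat_lit 78) (nat_lit 0) (nat_lit 0) (XT.lf (nat_lit 0) (nat_lit 6146583202608) (nat_lit 76) (nat_lit 31128955209633) (nat_lit 76) (nat_lit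 31127328084744) (nat_lit 1) (nat_lit 4) (nat_lit 2) (nat_lit 5) (nat_lit 2) (nat_lit 4) (nat_lit 299) (nat_lit 209) (nat_lit 152)) (XT.lf (nat_lit 0) (nat_lit 7072614673438) (nat_lit 76) (nat_lit 35796004155286) (nat_lit 76) (nat_lit 35794376956744) (nat_lit 1) (nat_lit 4) (nat_lit 2) (nat_lit 5) (nat_lit 2) (nat_lit 4) (nat_lit 300) (nat_lit 209) (nat_lit 151))) (XT.nd (nat_lit 78) (nat_lit 0) (nat_lit 0) (XT.lf (nat_lit 0) (nat_lit 12390236908291) (nat_lit 76) (nat_lit 62595980298243) (nat_lit 76) (nat_lit 62594352889425) (nat_lit 1) (nat_lit 4) (nat_lit 2) (nat_lit 5) (nat_lit 2) (nat_lit 4) (nat_lit 304) (nat_lit 209) (nat_lit 147)) (XT.nd (nat_lit 78) (nat_lit 0) (nat_lit 0) (XT.lf (nat_lit 0) (nat_lit 14252815116997) (nat_lit 76) (nat_lit 71983083675361) (nat_lit 76) (nat_lit 71981456229925) (nat_lit 1) (nat_lit 4) (nat_lit 2) (nat_lit 5) (nat_lit 2) (nat_lit 4) (nat_lit 305) (nat_lit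 209) (nat_lit 146)) (XT.lf (nat_lit 0) (nat_lit 16394779887030) (nat_lit 76) (nat_lit 82778252645222) (nat_lit 76) (nat_lit 82776625167944) (nat_lit 1) (nat_lit 4) (nat_lit 2) (nat_lit 5) (nat_lit 2) (nat_lit 4) (nat_lit 306) (nat_lit 209) (nat_lit 145))))))))
noncomputable def xc28 : XT := (XT.nd (nat_lit 30498) (nat_lit 0) (nat_lit 0) (XT.nd (nat_lit 29796) (nat_lit 0) (nat_lit 76) (XT.nd (nat_lit 29406) (nat_lit 0) (nat_lit 76) (XT.nd (nat_lit 29250) (nat_lit 0) (nat_lit 228) (XT.nd (nat_lit 29172) (nat_lit 0) (nat_lit 304) (XT.lf (nat_lit 0) (nat_lit 18858039224759) (nat_lit 76) (nat_lit 95192697035496) (nat_lit 76) (nat_lit 95191069530529) (nat_lit 1) (nat_lit 4) (nat_lit 2) (nat_lit 5) (nat_lit 2) (nat_lit 4) (nat_lit 307) (nat_lit 209) (nat_lit 144)) (XT.lf (nat_lit 0) (nat_lit 3249119721) (nat_lit 152) (nat_lit 4350767360) (nat_lit 0) (nat_lit 3249119721) (nat_lit 5) (nat_lit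 5) (nat_lit 7) (nat_lit 4) (nat_lit 5) (nat_lit 4) (nat_lit 240) (nat_lit 210) (nat_lit 210))) (XT.nd (nat_lit 78) (nat_lit 76) (nat_lit 0) (XT.lf (nat_lit 0) (nat_lit 11800020539) (nat_lit 152) (nat_lit 929835906) (nat_lit 0) (nat_lit 11519244090) (nat_lit 5) (nat_lit 5) (nat_lit 7) (nat_lit 4) (nat_lit 5) (nat_lit 4) (nat_lit 241) (nat_lit 210) (nat_lit 209)) (XT.lf (nat_lit 0) (nat_lit 7943437924) (nat_lit 76) (nat_lit 9887398858) (nat_lit 76) (nat_lit 9362468975) (nat_lit 4) (nat_lit 4) (nat_lit 5) (nat_lit 5) (nat_lit 5) (nat_lit 4) (nat_lit 242) (nat_lit 210) (nat_lit 208)))) (XT.nd (nat_lit 156) (nat_lit 152) (nat_lit 0) (XT.nd (nat_lit 78) (nat_lit 0) (nat_lit 0) (XT.lf (nat_lit 0) (nat_lit 17515905923) (nat_lit 76) (nat_lit 6924874909) (nat_lit 76) (nat_lit 6187637693) (nat_lit 4) (nat_lit 4) (nat_lit 5) (nat_lit 5) (nat_lit 5) (nat_lit 4) (nat_lit 243) (nat_lit 210) (nat_lit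 207)) (XT.lf (nat_lit 0) (nat_lit 27883985182) (nat_lit 76) (nat_lit 3832927232) (nat_lit 76) (nat_lit 2911074943) (nat_lit 4) (nat_lit 4) (nat_lit 5) (nat_lit 5) (nat_lit 5) (nat_lit 4) (nat_lit 244) (nat_lit 210) (nat_lit 206))) (XT.nd (nat_lit 78) (nat_lit 76) (nat_lit 0) (XT.lf (nat_lit 0) (nat_lit 484023626) (nat_lit 152) (nat_lit 41736337) (nat_lit 76) (nat_lit 38741204562) (nat_lit 3) (nat_lit 5) (nat_lit 5) (nat_lit 5) (nat_lit 4) (nat_lit 4) (nat_lit 245) (nat_lit 210) (nat_lit 205)) (XT.nd (nat_lit 78) (nat_lit 0) (nat_lit 0) (XT.lf (nat_lit 0) (nat_lit 4298456266) (nat_lit 152) (nat_lit 37015718527) (nat_lit 0) (nat_lit 3235862654) (nat_lit 2) (nat_lit 5) (nat_lit 4) (nat_lit 4) (nat_lit 2) (nat_lit 4) (nat_lit 246) (nat_lit 210) (nat_lit 204)) (XT.lf (nat_lit 0) (nat_lit 8457899859) (nat_lit 152) (nat_lit 34912217567) (nat_lit 0) (nat_lit 7289751980) (nat_lit 2) (nat_lit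 5) (nat_lit 4) (nat_lit 4) (nat_lit 2) (nat_lit 4) (nat_lit 247) (nat_lit 210) (nat_lit 203)))))) (XT.nd (nat_lit 312) (nat_lit 0) (nat_lit 0) (XT.nd (nat_lit 156) (nat_lit 0) (nat_lit 0) (XT.nd (nat_lit 78) (nat_lit 0) (nat_lit 0) (XT.lf (nat_lit 0) (nat_lit 13019976779) (nat_lit 152) (nat_lit 32939544935) (nat_lit 0) (nat_lit 11760042581) (nat_lit 2) (nat_lit 5) (nat_lit 4) (nat_lit 4) (nat_lit 2) (nat_lit 4) (nat_lit 248) (nat_lit 210) (nat_lit 202)) (XT.lf (nat_lit 0) (nat_lit 18073945054) (nat_lit 152) (nat_lit 31059104864) (nat_lit 0) (nat_lit 16734196666) (nat_lit 2) (nat_lit 5) (nat_lit 4) (nat_lit 4) (nat_lit 2) (nat_lit 4) (nat_lit 249) (nat_lit 210) (nat_lit 201))) (XT.nd (nat_lit 78) (nat_lit 0) (nat_lit 0) (XT.lf (nat_lit 0) (nat_lit 23718686672) (nat_lit 152) (nat_lit 29234106135) (nat_lit 0) (nat_lit 22309534639) (nat_lit 2) (nat_lit 5) (nat_lit 4) (nat_lit 4) (nat_lit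 2) (nat_lit 4) (nat_lit 250) (nat_lit 210) (nat_lit 200)) (XT.lf (nat_lit 0) (nat_lit 30064642229) (nat_lit 152) (nat_lit 27428842251) (nat_lit 0) (nat_lit 28595139201) (nat_lit 2) (nat_lit 5) (nat_lit 4) (nat_lit 4) (nat_lit 2) (nat_lit 4) (nat_lit 251) (nat_lit 210) (nat_lit 199)))) (XT.nd (nat_lit 156) (nat_lit 0) (nat_lit 0) (XT.nd (nat_lit 78) (nat_lit 0) (nat_lit 0) (XT.lf (nat_lit 0) (nat_lit 37235971725) (nat_lit 152) (nat_lit 25607992831) (nat_lit 0) (nat_lit 35713989572) (nat_lit 2) (nat_lit 5) (nat_lit 4) (nat_lit 4) (nat_lit 2) (nat_lit 4) (nat_lit 252) (nat_lit 210) (nat_lit 198)) (XT.lf (nat_lit 0) (nat_lit 45372983781) (nat_lit 152) (nat_lit 23735932561) (nat_lit 0) (nat_lit 43805367605) (nat_lit 2) (nat_lit 5) (nat_lit 4) (nat_lit 4) (nat_lit 2) (nat_lit 4) (nat_lit 253) (nat_lit 210) (nat_lit 197))) (XT.nd (nat_lit 78) (nat_lit 0) (nat_lit 0) (XT.lf (nat_lit 0) (nat_lit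 54634880807) (nat_lit 152) (nat_lit 21776034175) (nat_lit 0) (nat_lit 53027582873) (nat_lit 2) (nat_lit 5) (nat_lit 4) (nat_lit 4) (nat_lit 2) (nat_lit 4) (nat_lit 254) (nat_lit 210) (nat_lit 196)) (XT.nd (nat_lit 78) (nat_lit 0) (nat_lit 0) (XT.lf (nat_lit 0) (nat_lit 65202873831) (nat_lit 152) (nat_lit 19689951834) (nat_lit 0) (nat_lit 63561070020) (nat_lit 2) (nat_lit 5) (nat_lit 4) (nat_lit 4) (nat_lit 2) (nat_lit 4) (nat_lit 255) (nat_lit 210) (nat_lit 195)) (XT.lf (nat_lit 0) (nat_lit 77283727935) (nat_lit 152) (nat_lit 17436870885) (nat_lit 0) (nat_lit 75611919013) (nat_lit 2) (nat_lit 5) (nat_lit 4) (nat_lit 4) (nat_lit 2) (nat_lit 4) (nat_lit 256) (nat_lit 210) (nat_lit 194))))))) (XT.nd (nat_lit 702) (nat_lit 0) (nat_lit 0) (XT.nd (nat_lit 312) (nat_lit 76) (nat_lit 0) (XT.nd (nat_lit 156) (nat_lit 0) (nat_lit 0) (XT.nd (nat_lit 78) (nat_lit 0) (nat_lit 0) (XT.lf (nat_lit 0)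 (nat_lit 91113807655) (nat_lit 152) (nat_lit 14972709308) (nat_lit 0) (nat_lit 89415907333) (nat_lit 2) (nat_lit 5) (nat_lit 4) (nat_lit 4) (nat_lit 2) (nat_lit 4) (nat_lit 257) (nat_lit 210) (nat_lit 193)) (XT.lf (nat_lit 0) (nat_lit 106963701508) (nat_lit 152) (nat_lit 12249255247) (nat_lit 0) (nat_lit 105243113011) (nat_lit 2) (nat_lit 5) (nat_lit 4) (nat_lit 4) (nat_lit 2) (nat_lit 4) (nat_lit 258) (nat_lit 210) (nat_lit 192))) (XT.nd (nat_lit 78) (nat_lit 0) (nat_lit 0) (XT.lf (nat_lit 0) (nat_lit 125143516112) (nat_lit 152) (nat_lit 9213223731) (nat_lit 0) (nat_lit 123403198767) (nat_lit 2) (nat_lit 5) (nat_lit 4) (nat_lit 4) (nat_lit 2) (nat_lit 4) (nat_lit 259) (nat_lit 210) (nat_lit 191)) (XT.lf (nat_lit 0) (nat_lit 146008943492) (nat_lit 152) (nat_lit 5805214143) (nat_lit 0) (nat_lit 144251470628) (nat_lit 2) (nat_lit 5) (nat_lit 4) (nat_lit 4) (nat_lit 2) (nat_lit 4) (nat_lit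 260) (nat_lit 210) (nat_lit 190)))) (XT.nd (nat_lit 156) (nat_lit 0) (nat_lit 0) (XT.nd (nat_lit 78) (nat_lit 76) (nat_lit 0) (XT.lf (nat_lit 0) (nat_lit 169968220271) (nat_lit 152) (nat_lit 1958548035) (nat_lit 0) (nat_lit 168195829564) (nat_lit 2) (nat_lit 5) (nat_lit 4) (nat_lit 4) (nat_lit 2) (nat_lit 4) (nat_lit 261) (nat_lit 210) (nat_lit 189)) (XT.lf (nat_lit 0) (nat_lit 2636779825) (nat_lit 76) (nat_lit 194962518511) (nat_lit 76) (nat_lit 193177155767) (nat_lit 1) (nat_lit 4) (nat_lit 2) (nat_lit 5) (nat_lit 2) (nat_lit 4) (nat_lit 262) (nat_lit 210) (nat_lit 188))) (XT.nd (nat_lit 78) (nat_lit 0) (nat_lit 0) (XT.lf (nat_lit 0) (nat_lit 8081305807) (nat_lit 76) (nat_lit 221366423085) (nat_lit 76) (nat_lit 219569780309) (nat_lit 1) (nat_lit 4) (nat_lit 2) (nat_lit 5) (nat_lit 2) (nat_lit 4) (nat_lit 263) (nat_lit 210) (nat_lit 187)) (XT.nd (nat_lit 78) (nat_lit 0) (nat_lit 0)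 (XT.lf (nat_lit 0) (nat_lit 14290149687) (nat_lit 76) (nat_lit 251757458808) (nat_lit 76) (nat_lit 249951007308) (nat_lit 1) (nat_lit 4) (nat_lit 2) (nat_lit 5) (nat_lit 2) (nat_lit 4) (nat_lit 264) (nat_lit 210) (nat_lit 186)) (XT.lf (nat_lit 0) (nat_lit 21384788846) (nat_lit 76) (nat_lit 286730232900) (nat_lit 76) (nat_lit 284915252075) (nat_lit 1) (nat_lit 4) (nat_lit 2) (nat_lit 5) (nat_lit 2) (nat_lit 4) (nat_lit 265) (nat_lit 210) (nat_lit 185)))))) (XT.nd (nat_lit 312) (nat_lit 0) (nat_lit 0) (XT.nd (nat_lit 156) (nat_lit 0) (nat_lit 0) (XT.nd (nat_lit 78) (nat_lit 0) (nat_lit 0) (XT.lf (nat_lit 0) (nat_lit 29504031439) (nat_lit 76) (nat_lit 326968995290) (nat_lit 76) (nat_lit 325146597660) (nat_lit 1) (nat_lit 4) (nat_lit 2) (nat_lit 5) (nat_lit 2) (nat_lit 4) (nat_lit 266) (nat_lit 210) (nat_lit 184)) (XT.lf (nat_lit 0) (nat_lit 38806732215) (nat_lit 76) (nat_lit 373261026110)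 (nat_lit 76) (nat_lit 371432179086) (nat_lit 1) (nat_lit 4) (nat_lit 2) (nat_lit 5) (nat_lit 2) (nat_lit 4) (nat_lit 267) (nat_lit 210) (nat_lit 183))) (XT.nd (nat_lit 78) (nat_lit 0) (nat_lit 0) (XT.lf (nat_lit 0) (nat_lit 49474900536) (nat_lit 76) (nat_lit 426512039009) (nat_lit 76) (nat_lit 424677583814) (nat_lit 1) (nat_lit 4) (nat_lit 2) (nat_lit 5) (nat_lit 2) (nat_lit 4) (nat_lit 268) (nat_lit 210) (nat_lit 182)) (XT.lf (nat_lit 0) (nat_lit 61717261434) (nat_lit 76) (nat_lit 487763901628) (nat_lit 76) (nat_lit 485924569764) (nat_lit 1) (nat_lit 4) (nat_lit 2) (nat_lit 5) (nat_lit 2) (nat_lit 4) (nat_lit 269) (nat_lit 210) (nat_lit 181)))) (XT.nd (nat_lit 156) (nat_lit 0) (nat_lit 0) (XT.nd (nat_lit 78) (nat_lit 0) (nat_lit 0) (XT.lf (nat_lit 0) (nat_lit 75773339362) (nat_lit 76) (nat_lit 558215019976) (nat_lit 76) (nat_lit 556371447530) (nat_lit 1) (nat_lit 4) (nat_lit 2) (nat_lit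 5) (nat_lit 2) (nat_lit 4) (nat_lit 270) (nat_lit 210) (nat_lit 180)) (XT.lf (nat_lit 0) (nat_lit 91918144540) (nat_lit 76) (nat_lit 639243785499) (nat_lit 76) (nat_lit 637396525591) (nat_lit 1) (nat_lit 4) (nat_lit 2) (nat_lit 5) (nat_lit 2) (nat_lit 4) (nat_lit 271) (nat_lit 210) (nat_lit 179))) (XT.nd (nat_lit 78) (nat_lit 0) (nat_lit 0) (XT.lf (nat_lit 0) (nat_lit 110467553591) (nat_lit 76) (nat_lit 732435543610) (nat_lit 76) (nat_lit 730585077212) (nat_lit 1) (nat_lit 4) (nat_lit 2) (nat_lit 5) (nat_lit 2) (nat_lit 4) (nat_lit 272) (nat_lit 210) (nat_lit 178)) (XT.nd (nat_lit 78) (nat_lit 0) (nat_lit 0) (XT.lf (nat_lit 0) (nat_lit 131784489736) (nat_lit 76) (nat_lit 839613611314) (nat_lit 76) (nat_lit 837760356665) (nat_lit 1) (nat_lit 4) (nat_lit 2) (nat_lit 5) (nat_lit 2) (nat_lit 4) (nat_lit 273) (nat_lit 210) (nat_lit 177)) (XT.lf (nat_lit 0) (nat_lit 156286023464) (nat_lit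 76) (nat_lit 962874950807) (nat_lit 76) (nat_lit 961019271591) (nat_lit 1) (nat_lit 4) (nat_lit 2) (nat_lit 5) (nat_lit 2) (nat_lit 4) (nat_lit 274) (nat_lit 210) (nat_lit 176))))))))
noncomputable def xc29 : XT := (XT.nd (nat_lit 1404) (nat_lit 0) (nat_lit 0) (XT.nd (nat_lit 702) (nat_lit 0) (nat_lit 0) (XT.nd (nat_lit 312) (nat_lit 0) (nat_lit 0) (XT.nd (nat_lit 156) (nat_lit 0) (nat_lit 0) (XT.nd (nat_lit 78) (nat_lit 0) (nat_lit 0) (XT.lf (nat_lit 0) (nat_lit 184451532609) (nat_lit 76) (nat_lit 1104631196991) (nat_lit 76) (nat_lit 1102773409456) (nat_lit 1) (nat_lit 4) (nat_lit 2) (nat_lit 5) (nat_lit 2) (nat_lit 4) (nat_lit 275) (nat_lit 210) (nat_lit 175)) (XT.lf (nat_lit 0) (nat_lit 216832081481) (nat_lit 76) (nat_lit 1267655841639) (nat_lit 76) (nat_lit 1265796220783) (nat_lit 1) (nat_lit 4) (nat_lit 2) (nat_lit 5) (nat_lit 2) (nat_lit 4) (nat_lit 276) (nat_lit 210) (nat_lit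 174))) (XT.nd (nat_lit 78) (nat_lit 0) (nat_lit 0) (XT.lf (nat_lit 0) (nat_lit 254061202558) (nat_lit 76) (nat_lit 1455138497364) (nat_lit 76) (nat_lit 1453277282317) (nat_lit 1) (nat_lit 4) (nat_lit 2) (nat_lit 5) (nat_lit 2) (nat_lit 4) (nat_lit 277) (nat_lit 210) (nat_lit 173)) (XT.lf (nat_lit 0) (nat_lit 296867291686) (nat_lit 76) (nat_lit 1670747303082) (nat_lit 76) (nat_lit 1668884701781) (nat_lit 1) (nat_lit 4) (nat_lit 2) (nat_lit 5) (nat_lit 2) (nat_lit 4) (nat_lit 278) (nat_lit 210) (nat_lit 172)))) (XT.nd (nat_lit 156) (nat_lit 0) (nat_lit 0) (XT.nd (nat_lit 78) (nat_lit 0) (nat_lit 0) (XT.lf (nat_lit 0) (nat_lit 346087859306) (nat_lit 76) (nat_lit 1918700691949) (nat_lit 76) (nat_lit 1916836885210) (nat_lit 1) (nat_lit 4) (nat_lit 2) (nat_lit 5) (nat_lit 2) (nat_lit 4) (nat_lit 279) (nat_lit 210) (nat_lit 171)) (XT.lf (nat_lit 0) (nat_lit 402685916522) (nat_lit 76) (nat_lit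 2203849925921) (nat_lit 76) (nat_lit 2201985070975) (nat_lit 1) (nat_lit 4) (nat_lit 2) (nat_lit 5) (nat_lit 2) (nat_lit 4) (nat_lit 280) (nat_lit 210) (nat_lit 170))) (XT.nd (nat_lit 78) (nat_lit 0) (nat_lit 0) (XT.lf (nat_lit 0) (nat_lit 467768816629) (nat_lit 76) (nat_lit 2531774011749) (nat_lit 76) (nat_lit 2529908245319) (nat_lit 1) (nat_lit 4) (nat_lit 2) (nat_lit 5) (nat_lit 2) (nat_lit 4) (nat_lit 281) (nat_lit 210) (nat_lit 169)) (XT.nd (nat_lit 78) (nat_lit 0) (nat_lit 0) (XT.lf (nat_lit 0) (nat_lit 542609920714) (nat_lit 76) (nat_lit 2908888855461) (nat_lit 76) (nat_lit 2907022296436) (nat_lit 1) (nat_lit 4) (nat_lit 2) (nat_lit 5) (nat_lit 2) (nat_lit 4) (nat_lit 282) (nat_lit 210) (nat_lit 168)) (XT.lf (nat_lit 0) (nat_lit 628673511250) (nat_lit 76) (nat_lit 3342572790955) (nat_lit 76) (nat_lit 3340705542717) (nat_lit 1) (nat_lit 4) (nat_lit 2) (nat_lit 5) (nat_lit 2) (nat_lit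 4) (nat_lit 283) (nat_lit 210) (nat_lit 167)))))) (XT.nd (nat_lit 312) (nat_lit 0) (nat_lit 0) (XT.nd (nat_lit 156) (nat_lit 0) (nat_lit 0) (XT.nd (nat_lit 78) (nat_lit 0) (nat_lit 0) (XT.lf (nat_lit 0) (nat_lit 727643441095) (nat_lit 76) (nat_lit 3841310938708) (nat_lit 76) (nat_lit 3839443091154) (nat_lit 1) (nat_lit 4) (nat_lit 2) (nat_lit 5) (nat_lit 2) (nat_lit 4) (nat_lit 284) (nat_lit 210) (nat_lit 166)) (XT.lf (nat_lit 0) (nat_lit 841456078441) (nat_lit 76) (nat_lit 4414861219003) (nat_lit 76) (nat_lit 4412992850305) (nat_lit 1) (nat_lit 4) (nat_lit 2) (nat_lit 5) (nat_lit 2) (nat_lit 4) (nat_lit 285) (nat_lit 210) (nat_lit 165))) (XT.nd (nat_lit 78) (nat_lit 0) (nat_lit 0) (XT.lf (nat_lit 0) (nat_lit 972338192280) (nat_lit 76) (nat_lit 5074445267758) (nat_lit 76) (nat_lit 5072576445891) (nat_lit 1) (nat_lit 4) (nat_lit 2) (nat_lit 5) (nat_lit 2) (nat_lit 4) (nat_lit 286) (nat_lit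 210) (nat_lit 164)) (XT.lf (nat_lit 0) (nat_lit 1122850519622) (nat_lit 76) (nat_lit 5832967990275) (nat_lit 76) (nat_lit 5831098774348) (nat_lit 1) (nat_lit 4) (nat_lit 2) (nat_lit 5) (nat_lit 2) (nat_lit 4) (nat_lit 287) (nat_lit 210) (nat_lit 163)))) (XT.nd (nat_lit 156) (nat_lit 0) (nat_lit 0) (XT.nd (nat_lit 78) (nat_lit 0) (nat_lit 0) (XT.lf (nat_lit 0) (nat_lit 1295937866871) (nat_lit 76) (nat_lit 6705270048517) (nat_lit 76) (nat_lit 6703400489929) (nat_lit 1) (nat_lit 4) (nat_lit 2) (nat_lit 5) (nat_lit 2) (nat_lit 4) (nat_lit 288) (nat_lit 210) (nat_lit 162)) (XT.lf (nat_lit 0) (nat_lit 1494986725604) (nat_lit 76) (nat_lit 7708418221882) (nat_lit 76) (nat_lit 7706548365329) (nat_lit 1) (nat_lit 4) (nat_lit 2) (nat_lit 5) (nat_lit 2) (nat_lit 4) (nat_lit 289) (nat_lit 210) (nat_lit 161))) (XT.nd (nat_lit 78) (nat_lit 0) (nat_lit 0) (XT.lf (nat_lit 0) (nat_lit 1723891530014) (nat_lit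 76) (nat_lit 8862039322460) (nat_lit 76) (nat_lit 8860169206806) (nat_lit 1) (nat_lit 4) (nat_lit 2) (nat_lit 5) (nat_lit 2) (nat_lit 4) (nat_lit 290) (nat_lit 210) (nat_lit 160)) (XT.nd (nat_lit 78) (nat_lit 0) (nat_lit 0) (XT.lf (nat_lit 0) (nat_lit 1987130852360) (nat_lit 76) (nat_lit 10188704197871) (nat_lit 76) (nat_lit 10186833856911) (nat_lit 1) (nat_lit 4) (nat_lit 2) (nat_lit 5) (nat_lit 2) (nat_lit 4) (nat_lit 291) (nat_lit 210) (nat_lit 159)) (XT.lf (nat_lit 0) (nat_lit 2289855027211) (nat_lit 76) (nat_lit 11714369334806) (nat_lit 76) (nat_lit 11712498797929) (nat_lit 1) (nat_lit 4) (nat_lit 2) (nat_lit 5) (nat_lit 2) (nat_lit 4) (nat_lit 292) (nat_lit 210) (nat_lit 158))))))) (XT.nd (nat_lit 858) (nat_lit 0) (nat_lit 0) (XT.nd (nat_lit 312) (nat_lit 0) (nat_lit 0) (XT.nd (nat_lit 156) (nat_lit 0) (nat_lit 0) (XT.nd (nat_lit 78) (nat_lit 0) (nat_lit 0) (XT.lf (nat_lit 0) (nat_lit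 2637986918857) (nat_lit 76) (nat_lit 13468884703337) (nat_lit 76) (nat_lit 13467013996097) (nat_lit 1) (nat_lit 4) (nat_lit 2) (nat_lit 5) (nat_lit 2) (nat_lit 4) (nat_lit 293) (nat_lit 210) (nat_lit 157)) (XT.lf (nat_lit 0) (nat_lit 3038337803438) (nat_lit 76) (nat_lit 15486577778065) (nat_lit 76) (nat_lit 15484706922683) (nat_lit 1) (nat_lit 4) (nat_lit 2) (nat_lit 5) (nat_lit 2) (nat_lit 4) (nat_lit 294) (nat_lit 210) (nat_lit 156))) (XT.nd (nat_lit 78) (nat_lit 0) (nat_lit 0) (XT.lf (nat_lit 0) (nat_lit 3498740633045) (nat_lit 76) (nat_lit 17806925162626) (nat_lit 76) (nat_lit 17805054178426) (nat_lit 1) (nat_lit 4) (nat_lit 2) (nat_lit 5) (nat_lit 2) (nat_lit 4) (nat_lit 295) (nat_lit 210) (nat_lit 155)) (XT.lf (nat_lit 0) (nat_lit 4028203289126) (nat_lit 76) (nat_lit 20475324958023) (nat_lit 76) (nat_lit 20473453861806) (nat_lit 1) (nat_lit 4) (nat_lit 2) (nat_lit 5) (nat_lit 2)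 (nat_lit 4) (nat_lit 296) (nat_lit 210) (nat_lit 154)))) (XT.nd (nat_lit 156) (nat_lit 0) (nat_lit 0) (XT.nd (nat_lit 78) (nat_lit 0) (nat_lit 0) (XT.lf (nat_lit 0) (nat_lit 4637084823648) (nat_lit 76) (nat_lit 23543984986338) (nat_lit 76) (nat_lit 23542113792716) (nat_lit 1) (nat_lit 4) (nat_lit 2) (nat_lit 5) (nat_lit 2) (nat_lit 4) (nat_lit 297) (nat_lit 210) (nat_lit 153)) (XT.lf (nat_lit 0) (nat_lit 5337298136200) (nat_lit 76) (nat_lit 27072944248128) (nat_lit 76) (nat_lit 27071072969805) (nat_lit 1) (nat_lit 4) (nat_lit 2) (nat_lit 5) (nat_lit 2) (nat_lit 4) (nat_lit 298) (nat_lit 210) (nat_lit 152))) (XT.nd (nat_lit 78) (nat_lit 0) (nat_lit 0) (XT.lf (nat_lit 0) (nat_lit 6142543052462) (nat_lit 76) (nat_lit 31131247598512) (nat_lit 76) (nat_lit 31129376246537) (nat_lit 1) (nat_lit 4) (nat_lit 2) (nat_lit 5) (nat_lit 2) (nat_lit 4) (nat_lit 299) (nat_lit 210) (nat_lit 151)) (XT.nd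 (nat_lit 234) (nat_lit 0) (nat_lit 0) (XT.lf (nat_lit 0) (nat_lit 7068574364274) (nat_lit 76) (nat_lit 35798296624782) (nat_lit 76) (nat_lit 35796425208761) (nat_lit 1) (nat_lit 4) (nat_lit 2) (nat_lit 5) (nat_lit 2) (nat_lit 4) (nat_lit 300) (nat_lit 210) (nat_lit 150)) (XT.lf (nat_lit 0) (nat_lit 10766562841111) (nat_lit 76) (nat_lit 54435574449183) (nat_lit 76) (nat_lit 54433702886931) (nat_lit 1) (nat_lit 4) (nat_lit 2) (nat_lit 5) (nat_lit 2) (nat_lit 4) (nat_lit 303) (nat_lit 210) (nat_lit 147)))))) (XT.nd (nat_lit 29250) (nat_lit 0) (nat_lit 228) (XT.nd (nat_lit 156) (nat_lit 0) (nat_lit 0) (XT.nd (nat_lit 78) (nat_lit 0) (nat_lit 0) (XT.lf (nat_lit 0) (nat_lit 12386196145133) (nat_lit 76) (nat_lit 62598272997901) (nat_lit 76) (nat_lit 62596401399031) (nat_lit 1) (nat_lit 4) (nat_lit 2) (nat_lit 5) (nat_lit 2) (nat_lit 4) (nat_lit 304) (nat_lit 210) (nat_lit 146)) (XT.lf (nat_lit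 0) (nat_lit 14248774274779) (nat_lit 76) (nat_lit 71985376415100) (nat_lit 76) (nat_lit 71983504784388) (nat_lit 1) (nat_lit 4) (nat_lit 2) (nat_lit 5) (nat_lit 2) (nat_lit 4) (nat_lit 305) (nat_lit 210) (nat_lit 145))) (XT.nd (nat_lit 78) (nat_lit 0) (nat_lit 0) (XT.lf (nat_lit 0) (nat_lit 16390738976064) (nat_lit 76) (nat_lit 82780545419814) (nat_lit 76) (nat_lit 82778673761413) (nat_lit 1) (nat_lit 4) (nat_lit 2) (nat_lit 5) (nat_lit 2) (nat_lit 4) (nat_lit 306) (nat_lit 210) (nat_lit 144)) (XT.lf (nat_lit 0) (nat_lit 18853998254012) (nat_lit 76) (nat_lit 95194989840396) (nat_lit 76) (nat_lit 95193118157917) (nat_lit 1) (nat_lit 4) (nat_lit 2) (nat_lit 5) (nat_lit 2) (nat_lit 4) (nat_lit 307) (nat_lit 210) (nat_lit 143)))) (XT.nd (nat_lit 156) (nat_lit 76) (nat_lit 0) (XT.nd (nat_lit 78) (nat_lit 152) (nat_lit 0) (XT.lf (nat_lit 0) (nat_lit 6188969403) (nat_lit 76) (nat_lit 1311614709)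 (nat_lit 76) (nat_lit 1311614709) (nat_lit 7) (nat_lit 4) (nat_lit 8) (nat_lit 5) (nat_lit 8) (nat_lit 4) (nat_lit 238) (nat_lit 211) (nat_lit 211)) (XT.lf (nat_lit 0) (nat_lit 1815735086) (nat_lit 152) (nat_lit 16230893272) (nat_lit 0) (nat_lit 1492842169) (nat_lit 5) (nat_lit 5) (nat_lit 7) (nat_lit 4) (nat_lit 5) (nat_lit 4) (nat_lit 239) (nat_lit 211) (nat_lit 210))) (XT.nd (nat_lit 78) (nat_lit 76) (nat_lit 0) (XT.lf (nat_lit 0) (nat_lit 6609771537) (nat_lit 152) (nat_lit 9114122404) (nat_lit 0) (nat_lit 6006102171) (nat_lit 5) (nat_lit 5) (nat_lit 7) (nat_lit 4) (nat_lit 5) (nat_lit 4) (nat_lit 240) (nat_lit 211) (nat_lit 209)) (XT.nd (nat_lit 78) (nat_lit 76) (nat_lit 0) (XT.lf (nat_lit 0) (nat_lit 11727760613) (nat_lit 152) (nat_lit 1701195487) (nat_lit 0) (nat_lit 10879937814) (nat_lit 5) (nat_lit 5) (nat_lit 7) (nat_lit 4) (nat_lit 5) (nat_lit 4) (nat_lit 241) (nat_lit 211)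 (nat_lit 208)) (XT.lf (nat_lit 0) (nat_lit 6754231390) (nat_lit 76) (nat_lit 10795283812) (nat_lit 76) (nat_lit 9735153679) (nat_lit 4) (nat_lit 4) (nat_lit 5) (nat_lit 5) (nat_lit 5) (nat_lit 4) (nat_lit 242) (nat_lit 211) (nat_lit 207))))))))
noncomputable def xc30 : XT := (XT.nd (nat_lit 1404) (nat_lit 76) (nat_lit 0) (XT.nd (nat_lit 702) (nat_lit 0) (nat_lit 0) (XT.nd (nat_lit 312) (nat_lit 0) (nat_lit 0) (XT.nd (nat_lit 156) (nat_lit 152) (nat_lit 0) (XT.nd (nat_lit 78) (nat_lit 0) (nat_lit 0) (XT.lf (nat_lit 0) (nat_lit 16028904533) (nat_lit 76) (nat_lit 7979250498) (nat_lit 76) (nat_lit 6734505292) (nat_lit 4) (nat_lit 4) (nat_lit 5) (nat_lit 5) (nat_lit 5) (nat_lit 4) (nat_lit 243) (nat_lit 211) (nat_lit 206)) (XT.lf (nat_lit 0) (nat_lit 26138031743) (nat_lit 76) (nat_lit 5014685981) (nat_lit 76) (nat_lit 3609405930) (nat_lit 4) (nat_lit 4) (nat_lit 5) (nat_lit 5) (nat_lit 5)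 (nat_lit 4) (nat_lit 244) (nat_lit 211) (nat_lit 205))) (XT.nd (nat_lit 78) (nat_lit 152) (nat_lit 0) (XT.lf (nat_lit 0) (nat_lit 37279400290) (nat_lit 76) (nat_lit 1843587913) (nat_lit 76) (nat_lit 298712344) (nat_lit 4) (nat_lit 4) (nat_lit 5) (nat_lit 5) (nat_lit 5) (nat_lit 4) (nat_lit 245) (nat_lit 211) (nat_lit 204)) (XT.lf (nat_lit 0) (nat_lit 3269357647) (nat_lit 152) (nat_lit 39657885925) (nat_lit 0) (nat_lit 1820433320) (nat_lit 2) (nat_lit 5) (nat_lit 4) (nat_lit 4) (nat_lit 2) (nat_lit 4) (nat_lit 246) (nat_lit 211) (nat_lit 203)))) (XT.nd (nat_lit 156) (nat_lit 0) (nat_lit 0) (XT.nd (nat_lit 78) (nat_lit 0) (nat_lit 0) (XT.lf (nat_lit 0) (nat_lit 7325878816) (nat_lit 152) (nat_lit 37761991231) (nat_lit 0) (nat_lit 5785168170) (nat_lit 2) (nat_lit 5) (nat_lit 4) (nat_lit 4) (nat_lit 2) (nat_lit 4) (nat_lit 247) (nat_lit 211) (nat_lit 202)) (XT.lf (nat_lit 0) (nat_lit 11798457977)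 (nat_lit 152) (nat_lit 35969845788) (nat_lit 0) (nat_lit 10177933140) (nat_lit 2) (nat_lit 5) (nat_lit 4) (nat_lit 4) (nat_lit 2) (nat_lit 4) (nat_lit 248) (nat_lit 211) (nat_lit 201))) (XT.nd (nat_lit 78) (nat_lit 0) (nat_lit 0) (XT.lf (nat_lit 0) (nat_lit 16774602113) (nat_lit 152) (nat_lit 34246385881) (nat_lit 0) (nat_lit 15084673632) (nat_lit 2) (nat_lit 5) (nat_lit 4) (nat_lit 4) (nat_lit 2) (nat_lit 4) (nat_lit 249) (nat_lit 211) (nat_lit 200)) (XT.nd (nat_lit 78) (nat_lit 0) (nat_lit 0) (XT.lf (nat_lit 0) (nat_lit 22351670567) (nat_lit 152) (nat_lit 32557891642) (nat_lit 0) (nat_lit 20601391090) (nat_lit 2) (nat_lit 5) (nat_lit 4) (nat_lit 4) (nat_lit 2) (nat_lit 4) (nat_lit 250) (nat_lit 211) (nat_lit 199)) (XT.lf (nat_lit 0) (nat_lit 28638779894) (nat_lit 152) (nat_lit 30871327315) (nat_lit 0) (nat_lit 26836021291) (nat_lit 2) (nat_lit 5) (nat_lit 4) (nat_lit 4) (nat_lit 2)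 (nat_lit 4) (nat_lit 251) (nat_lit 211) (nat_lit 198)))))) (XT.nd (nat_lit 312) (nat_lit 0) (nat_lit 0) (XT.nd (nat_lit 156) (nat_lit 0) (nat_lit 0) (XT.nd (nat_lit 78) (nat_lit 0) (nat_lit 0) (XT.lf (nat_lit 0) (nat_lit 35758938755) (nat_lit 152) (nat_lit 29153694901) (nat_lit 0) (nat_lit 33910546131) (nat_lit 2) (nat_lit 5) (nat_lit 4) (nat_lit 4) (nat_lit 2) (nat_lit 4) (nat_lit 252) (nat_lit 211) (nat_lit 197)) (XT.lf (nat_lit 0) (nat_lit 43851454607) (nat_lit 152) (nat_lit 27371388549) (nat_lit 0) (nat_lit 41963380224) (nat_lit 2) (nat_lit 5) (nat_lit 4) (nat_lit 4) (nat_lit 2) (nat_lit 4) (nat_lit 253) (nat_lit 211) (nat_lit 196))) (XT.nd (nat_lit 78) (nat_lit 0) (nat_lit 0) (XT.lf (nat_lit 0) (nat_lit 53074659282) (nat_lit 152) (nat_lit 25489537049) (nat_lit 0) (nat_lit 51152079021) (nat_lit 2) (nat_lit 5) (nat_lit 4) (nat_lit 4) (nat_lit 2) (nat_lit 4) (nat_lit 254) (nat_lit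 211) (nat_lit 195)) (XT.lf (nat_lit 0) (nat_lit 63609006783) (nat_lit 152) (nat_lit 23471321565) (nat_lit 0) (nat_lit 61656421412) (nat_lit 2) (nat_lit 5) (nat_lit 4) (nat_lit 4) (nat_lit 2) (nat_lit 4) (nat_lit 255) (nat_lit 211) (nat_lit 194)))) (XT.nd (nat_lit 156) (nat_lit 0) (nat_lit 0) (XT.nd (nat_lit 78) (nat_lit 0) (nat_lit 0) (XT.lf (nat_lit 0) (nat_lit 75660603911) (nat_lit 152) (nat_lit 21277255274) (nat_lit 0) (nat_lit 73681927139) (nat_lit 2) (nat_lit 5) (nat_lit 4) (nat_lit 4) (nat_lit 2) (nat_lit 4) (nat_lit 256) (nat_lit 211) (nat_lit 193)) (XT.lf (nat_lit 0) (nat_lit 89465242782) (nat_lit 152) (nat_lit 18864410791) (nat_lit 0) (nat_lit 87463877836) (nat_lit 2) (nat_lit 5) (nat_lit 4) (nat_lit 4) (nat_lit 2) (nat_lit 4) (nat_lit 257) (nat_lit 211) (nat_lit 192))) (XT.nd (nat_lit 78) (nat_lit 0) (nat_lit 0) (XT.lf (nat_lit 0) (nat_lit 105293014157) (nat_lit 152) (nat_lit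 16185580290) (nat_lit 0) (nat_lit 103271920364) (nat_lit 2) (nat_lit 5) (nat_lit 4) (nat_lit 4) (nat_lit 2) (nat_lit 4) (nat_lit 258) (nat_lit 211) (nat_lit 191)) (XT.nd (nat_lit 78) (nat_lit 0) (nat_lit 0) (XT.lf (nat_lit 0) (nat_lit 123453591824) (nat_lit 152) (nat_lit 13188351869) (nat_lit 0) (nat_lit 121415342511) (nat_lit 2) (nat_lit 5) (nat_lit 4) (nat_lit 4) (nat_lit 2) (nat_lit 4) (nat_lit 259) (nat_lit 211) (nat_lit 190)) (XT.lf (nat_lit 0) (nat_lit 144302291433) (nat_lit 152) (nat_lit 9814084103) (nat_lit 0) (nat_lit 142249124277) (nat_lit 2) (nat_lit 5) (nat_lit 4) (nat_lit 4) (nat_lit 2) (nat_lit 4) (nat_lit 260) (nat_lit 211) (nat_lit 189))))))) (XT.nd (nat_lit 702) (nat_lit 0) (nat_lit 0) (XT.nd (nat_lit 312) (nat_lit 0) (nat_lit 0) (XT.nd (nat_lit 156) (nat_lit 76) (nat_lit 0) (XT.nd (nat_lit 78) (nat_lit 0) (nat_lit 0) (XT.lf (nat_lit 0) (nat_lit 168247022324) (nat_lit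 152) (nat_lit 5996758710) (nat_lit 0) (nat_lit 166180883131) (nat_lit 2) (nat_lit 5) (nat_lit 4) (nat_lit 4) (nat_lit 2) (nat_lit 4) (nat_lit 261) (nat_lit 211) (nat_lit 188)) (XT.lf (nat_lit 0) (nat_lit 195756268362) (nat_lit 152) (nat_lit 1661688889) (nat_lit 0) (nat_lit 193678849137) (nat_lit 2) (nat_lit 5) (nat_lit 4) (nat_lit 4) (nat_lit 2) (nat_lit 4) (nat_lit 262) (nat_lit 211) (nat_lit 187))) (XT.nd (nat_lit 78) (nat_lit 0) (nat_lit 0) (XT.lf (nat_lit 0) (nat_lit 3596090816) (nat_lit 76) (nat_lit 223921069562) (nat_lit 76) (nat_lit 221833841613) (nat_lit 1) (nat_lit 4) (nat_lit 2) (nat_lit 5) (nat_lit 2) (nat_lit 4) (nat_lit 263) (nat_lit 211) (nat_lit 186)) (XT.lf (nat_lit 0) (nat_lit 9783757346) (nat_lit 76) (nat_lit 254322841569) (nat_lit 76) (nat_lit 252227084295) (nat_lit 1) (nat_lit 4) (nat_lit 2) (nat_lit 5) (nat_lit 2) (nat_lit 4) (nat_lit 264) (nat_lit 211) (nat_lit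 185)))) (XT.nd (nat_lit 156) (nat_lit 0) (nat_lit 0) (XT.nd (nat_lit 78) (nat_lit 0) (nat_lit 0) (XT.lf (nat_lit 0) (nat_lit 16859981416) (nat_lit 76) (nat_lit 289304951560) (nat_lit 76) (nat_lit 287201777482) (nat_lit 1) (nat_lit 4) (nat_lit 2) (nat_lit 5) (nat_lit 2) (nat_lit 4) (nat_lit 265) (nat_lit 211) (nat_lit 184)) (XT.lf (nat_lit 0) (nat_lit 24963210890) (nat_lit 76) (nat_lit 329551832123) (nat_lit 76) (nat_lit 327442208649) (nat_lit 1) (nat_lit 4) (nat_lit 2) (nat_lit 5) (nat_lit 2) (nat_lit 4) (nat_lit 266) (nat_lit 211) (nat_lit 183))) (XT.nd (nat_lit 78) (nat_lit 0) (nat_lit 0) (XT.lf (nat_lit 0) (nat_lit 34251987214) (nat_lit 76) (nat_lit 375850922225) (nat_lit 76) (nat_lit 373735690581) (nat_lit 1) (nat_lit 4) (nat_lit 2) (nat_lit 5) (nat_lit 2) (nat_lit 4) (nat_lit 267) (nat_lit 211) (nat_lit 182)) (XT.nd (nat_lit 78) (nat_lit 0) (nat_lit 0) (XT.lf (nat_lit 0) (nat_lit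 44908047316) (nat_lit 76) (nat_lit 429108073628) (nat_lit 76) (nat_lit 426987965316) (nat_lit 1) (nat_lit 4) (nat_lit 2) (nat_lit 5) (nat_lit 2) (nat_lit 4) (nat_lit 268) (nat_lit 211) (nat_lit 181)) (XT.lf (nat_lit 0) (nat_lit 57139879328) (nat_lit 76) (nat_lit 490365274078) (nat_lit 76) (nat_lit 488240925184) (nat_lit 1) (nat_lit 4) (nat_lit 2) (nat_lit 5) (nat_lit 2) (nat_lit 4) (nat_lit 269) (nat_lit 211) (nat_lit 180)))))) (XT.nd (nat_lit 312) (nat_lit 0) (nat_lit 0) (XT.nd (nat_lit 156) (nat_lit 0) (nat_lit 0) (XT.nd (nat_lit 78) (nat_lit 0) (nat_lit 0) (XT.lf (nat_lit 0) (nat_lit 71186801703) (nat_lit 76) (nat_lit 560821034019) (nat_lit 76) (nat_lit 558692997661) (nat_lit 1) (nat_lit 4) (nat_lit 2) (nat_lit 5) (nat_lit 2) (nat_lit 4) (nat_lit 270) (nat_lit 211) (nat_lit 179)) (XT.lf (nat_lit 0) (nat_lit 87323645531) (nat_lit 76) (nat_lit 641853835709) (nat_lit 76) (nat_lit 639722592862)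 (nat_lit 1) (nat_lit 4) (nat_lit 2) (nat_lit 5) (nat_lit 2) (nat_lit 4) (nat_lit 271) (nat_lit 211) (nat_lit 178))) (XT.nd (nat_lit 78) (nat_lit 0) (nat_lit 0) (XT.lf (nat_lit 0) (nat_lit 105866131668) (nat_lit 76) (nat_lit 735049103530) (nat_lit 76) (nat_lit 732915072432) (nat_lit 1) (nat_lit 4) (nat_lit 2) (nat_lit 5) (nat_lit 2) (nat_lit 4) (nat_lit 272) (nat_lit 211) (nat_lit 177)) (XT.lf (nat_lit 0) (nat_lit 127177047888) (nat_lit 76) (nat_lit 842230223156) (nat_lit 76) (nat_lit 840093767492) (nat_lit 1) (nat_lit 4) (nat_lit 2) (nat_lit 5) (nat_lit 2) (nat_lit 4) (nat_lit 273) (nat_lit 211) (nat_lit 176)))) (XT.nd (nat_lit 156) (nat_lit 0) (nat_lit 0) (XT.nd (nat_lit 78) (nat_lit 0) (nat_lit 0) (XT.lf (nat_lit 0) (nat_lit 151673346899) (nat_lit 76) (nat_lit 965494216494) (nat_lit 76) (nat_lit 963355652511) (nat_lit 1) (nat_lit 4) (nat_lit 2) (nat_lit 5) (nat_lit 2) (nat_lit 4) (nat_lit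 274) (nat_lit 211) (nat_lit 175)) (XT.lf (nat_lit 0) (nat_lit 179834304117) (nat_lit 76) (nat_lit 1107252770369) (nat_lit 76) (nat_lit 1105112373065) (nat_lit 1) (nat_lit 4) (nat_lit 2) (nat_lit 5) (nat_lit 2) (nat_lit 4) (nat_lit 275) (nat_lit 211) (nat_lit 174))) (XT.nd (nat_lit 78) (nat_lit 0) (nat_lit 0) (XT.lf (nat_lit 0) (nat_lit 212210894790) (nat_lit 76) (nat_lit 1270279421705) (nat_lit 76) (nat_lit 1268137430210) (nat_lit 1) (nat_lit 4) (nat_lit 2) (nat_lit 5) (nat_lit 2) (nat_lit 4) (nat_lit 276) (nat_lit 211) (nat_lit 173)) (XT.nd (nat_lit 78) (nat_lit 0) (nat_lit 0) (XT.lf (nat_lit 0) (nat_lit 249436573956) (nat_lit 76) (nat_lit 1457763822377) (nat_lit 76) (nat_lit 1455620444627) (nat_lit 1) (nat_lit 4) (nat_lit 2) (nat_lit 5) (nat_lit 2) (nat_lit 4) (nat_lit 277) (nat_lit 211) (nat_lit 172)) (XT.lf (nat_lit 0) (nat_lit 292239670117) (nat_lit 76) (nat_lit 1673374145440) (nat_lit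 76) (nat_lit 1671229562252) (nat_lit 1) (nat_lit 4) (nat_lit 2) (nat_lit 5) (nat_lit 2) (nat_lit 4) (nat_lit 278) (nat_lit 211) (nat_lit 171))))))))
noncomputable def xc31 : XT := (XT.nd (nat_lit 1404) (nat_lit 0) (nat_lit 0) (XT.nd (nat_lit 702) (nat_lit 0) (nat_lit 0) (XT.nd (nat_lit 312) (nat_lit 0) (nat_lit 0) (XT.nd (nat_lit 156) (nat_lit 0) (nat_lit 0) (XT.nd (nat_lit 78) (nat_lit 0) (nat_lit 0) (XT.lf (nat_lit 0) (nat_lit 341457635157) (nat_lit 76) (nat_lit 1921328853737) (nat_lit 76) (nat_lit 1919183222342) (nat_lit 1) (nat_lit 4) (nat_lit 2) (nat_lit 5) (nat_lit 2) (nat_lit 4) (nat_lit 279) (nat_lit 211) (nat_lit 170)) (XT.lf (nat_lit 0) (nat_lit 398053429261) (nat_lit 76) (nat_lit 2206479235039) (nat_lit 76) (nat_lit 2204332692160) (nat_lit 1) (nat_lit 4) (nat_lit 2) (nat_lit 5) (nat_lit 2) (nat_lit 4) (nat_lit 280) (nat_lit 211) (nat_lit 169))) (XT.nd (nat_lit 78) (nat_lit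 0) (nat_lit 0) (XT.lf (nat_lit 0) (nat_lit 463134361443) (nat_lit 76) (nat_lit 2534404318546) (nat_lit 76) (nat_lit 2532256983072) (nat_lit 1) (nat_lit 4) (nat_lit 2) (nat_lit 5) (nat_lit 2) (nat_lit 4) (nat_lit 281) (nat_lit 211) (nat_lit 168)) (XT.lf (nat_lit 0) (nat_lit 537973754290) (nat_lit 76) (nat_lit 2911520029805) (nat_lit 76) (nat_lit 2909372005118) (nat_lit 1) (nat_lit 4) (nat_lit 2) (nat_lit 5) (nat_lit 2) (nat_lit 4) (nat_lit 282) (nat_lit 211) (nat_lit 167)))) (XT.nd (nat_lit 156) (nat_lit 0) (nat_lit 0) (XT.nd (nat_lit 78) (nat_lit 0) (nat_lit 0) (XT.lf (nat_lit 0) (nat_lit 624035856793) (nat_lit 76) (nat_lit 3345204719688) (nat_lit 76) (nat_lit 3343056095685) (nat_lit 1) (nat_lit 4) (nat_lit 2) (nat_lit 5) (nat_lit 2) (nat_lit 4) (nat_lit 283) (nat_lit 211) (nat_lit 166)) (XT.lf (nat_lit 0) (nat_lit 723004492696) (nat_lit 76) (nat_lit 3843943523431) (nat_lit 76) (nat_lit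 3841794378284) (nat_lit 1) (nat_lit 4) (nat_lit 2) (nat_lit 5) (nat_lit 2) (nat_lit 4) (nat_lit 284) (nat_lit 211) (nat_lit 165))) (XT.nd (nat_lit 78) (nat_lit 0) (nat_lit 0) (XT.lf (nat_lit 0) (nat_lit 836816004875) (nat_lit 76) (nat_lit 4417494374152) (nat_lit 76) (nat_lit 4415344775836) (nat_lit 1) (nat_lit 4) (nat_lit 2) (nat_lit 5) (nat_lit 2) (nat_lit 4) (nat_lit 285) (nat_lit 211) (nat_lit 164)) (XT.nd (nat_lit 78) (nat_lit 0) (nat_lit 0) (XT.lf (nat_lit 0) (nat_lit 967697140308) (nat_lit 76) (nat_lit 5077078918929) (nat_lit 76) (nat_lit 5074928926554) (nat_lit 1) (nat_lit 4) (nat_lit 2) (nat_lit 5) (nat_lit 2) (nat_lit 4) (nat_lit 286) (nat_lit 211) (nat_lit 163)) (XT.lf (nat_lit 0) (nat_lit 1118208616862) (nat_lit 76) (nat_lit 5835602072770) (nat_lit 76) (nat_lit 5833451737734) (nat_lit 1) (nat_lit 4) (nat_lit 2) (nat_lit 5) (nat_lit 2) (nat_lit 4) (nat_lit 287) (nat_lit 211)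 (nat_lit 162)))))) (XT.nd (nat_lit 312) (nat_lit 0) (nat_lit 0) (XT.nd (nat_lit 156) (nat_lit 0) (nat_lit 0) (XT.nd (nat_lit 78) (nat_lit 0) (nat_lit 0) (XT.lf (nat_lit 0) (nat_lit 1291295224296) (nat_lit 76) (nat_lit 6707904506076) (nat_lit 76) (nat_lit 6705753873074) (nat_lit 1) (nat_lit 4) (nat_lit 2) (nat_lit 5) (nat_lit 2) (nat_lit 4) (nat_lit 288) (nat_lit 211) (nat_lit 161)) (XT.lf (nat_lit 0) (nat_lit 1490343439711) (nat_lit 76) (nat_lit 7711053005585) (nat_lit 76) (nat_lit 7708902113482) (nat_lit 1) (nat_lit 4) (nat_lit 2) (nat_lit 5) (nat_lit 2) (nat_lit 4) (nat_lit 289) (nat_lit 211) (nat_lit 160))) (XT.nd (nat_lit 78) (nat_lit 0) (nat_lit 0) (XT.lf (nat_lit 0) (nat_lit 1719247684714) (nat_lit 76) (nat_lit 8864674389765) (nat_lit 76) (nat_lit 8862523272357) (nat_lit 1) (nat_lit 4) (nat_lit 2) (nat_lit 5) (nat_lit 2) (nat_lit 4) (nat_lit 290) (nat_lit 211) (nat_lit 159)) (XT.lf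 (nat_lit 0) (nat_lit 1982486520619) (nat_lit 76) (nat_lit 10191339511787) (nat_lit 76) (nat_lit 10189188198461) (nat_lit 1) (nat_lit 4) (nat_lit 2) (nat_lit 5) (nat_lit 2) (nat_lit 4) (nat_lit 291) (nat_lit 211) (nat_lit 158)))) (XT.nd (nat_lit 156) (nat_lit 0) (nat_lit 0) (XT.nd (nat_lit 78) (nat_lit 0) (nat_lit 0) (XT.lf (nat_lit 0) (nat_lit 2285210272478) (nat_lit 76) (nat_lit 11717004863166) (nat_lit 76) (nat_lit 11714853379478) (nat_lit 1) (nat_lit 4) (nat_lit 2) (nat_lit 5) (nat_lit 2) (nat_lit 4) (nat_lit 292) (nat_lit 211) (nat_lit 157)) (XT.lf (nat_lit 0) (nat_lit 2633341796304) (nat_lit 76) (nat_lit 13471520418170) (nat_lit 76) (nat_lit 13469368786340) (nat_lit 1) (nat_lit 4) (nat_lit 2) (nat_lit 5) (nat_lit 2) (nat_lit 4) (nat_lit 293) (nat_lit 211) (nat_lit 156))) (XT.nd (nat_lit 78) (nat_lit 0) (nat_lit 0) (XT.lf (nat_lit 0) (nat_lit 3033692361043) (nat_lit 76) (nat_lit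 15489213655049) (nat_lit 76) (nat_lit 15487061894400) (nat_lit 1) (nat_lit 4) (nat_lit 2) (nat_lit 5) (nat_lit 2) (nat_lit 4) (nat_lit 294) (nat_lit 211) (nat_lit 155)) (XT.nd (nat_lit 78) (nat_lit 0) (nat_lit 0) (XT.lf (nat_lit 0) (nat_lit 3494094912526) (nat_lit 76) (nat_lit 17809561180611) (nat_lit 76) (nat_lit 17807409307945) (nat_lit 1) (nat_lit 4) (nat_lit 2) (nat_lit 5) (nat_lit 2) (nat_lit 4) (nat_lit 295) (nat_lit 211) (nat_lit 154)) (XT.lf (nat_lit 0) (nat_lit 4023557326760) (nat_lit 76) (nat_lit 20477961098617) (nat_lit 76) (nat_lit 20475809128546) (nat_lit 1) (nat_lit 4) (nat_lit 2) (nat_lit 5) (nat_lit 2) (nat_lit 4) (nat_lit 296) (nat_lit 211) (nat_lit 153))))))) (XT.nd (nat_lit 780) (nat_lit 0) (nat_lit 0) (XT.nd (nat_lit 390) (nat_lit 0) (nat_lit 0) (XT.nd (nat_lit 156) (nat_lit 0) (nat_lit 0) (XT.nd (nat_lit 78) (nat_lit 0) (nat_lit 0) (XT.lf (nat_lit 0) (nat_lit 4632438650981)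 (nat_lit 76) (nat_lit 23546621233549) (nat_lit 76) (nat_lit 23544469178778) (nat_lit 1) (nat_lit 4) (nat_lit 2) (nat_lit 5) (nat_lit 2) (nat_lit 4) (nat_lit 297) (nat_lit 211) (nat_lit 152)) (XT.lf (nat_lit 0) (nat_lit 5332651780661) (nat_lit 76) (nat_lit 27075580588049) (nat_lit 76) (nat_lit 27073428459625) (nat_lit 1) (nat_lit 4) (nat_lit 2) (nat_lit 5) (nat_lit 2) (nat_lit 4) (nat_lit 298) (nat_lit 211) (nat_lit 151))) (XT.nd (nat_lit 78) (nat_lit 0) (nat_lit 0) (XT.lf (nat_lit 0) (nat_lit 6137896537905) (nat_lit 76) (nat_lit 31133884019051) (nat_lit 76) (nat_lit 31131731826581) (nat_lit 1) (nat_lit 4) (nat_lit 2) (nat_lit 5) (nat_lit 2) (nat_lit 4) (nat_lit 299) (nat_lit 211) (nat_lit 150)) (XT.lf (nat_lit 0) (nat_lit 7063927711440) (nat_lit 76) (nat_lit 35800933115423) (nat_lit 76) (nat_lit 35798780867261) (nat_lit 1) (nat_lit 4) (nat_lit 2) (nat_lit 5) (nat_lit 2) (nat_lit 4) (nat_lit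 300) (nat_lit 211) (nat_lit 149)))) (XT.nd (nat_lit 156) (nat_lit 0) (nat_lit 0) (XT.nd (nat_lit 78) (nat_lit 0) (nat_lit 0) (XT.lf (nat_lit 0) (nat_lit 9353539007394) (nat_lit 76) (nat_lit 47340212401949) (nat_lit 76) (nat_lit 47338060063248) (nat_lit 1) (nat_lit 4) (nat_lit 2) (nat_lit 5) (nat_lit 2) (nat_lit 4) (nat_lit 302) (nat_lit 211) (nat_lit 147)) (XT.lf (nat_lit 0) (nat_lit 10761915872560) (nat_lit 76) (nat_lit 54438211099883) (nat_lit 76) (nat_lit 54436058724564) (nat_lit 1) (nat_lit 4) (nat_lit 2) (nat_lit 5) (nat_lit 2) (nat_lit 4) (nat_lit 303) (nat_lit 211) (nat_lit 146))) (XT.nd (nat_lit 78) (nat_lit 0) (nat_lit 0) (XT.lf (nat_lit 0) (nat_lit 12381549097522) (nat_lit 76) (nat_lit 62600909688682) (nat_lit 76) (nat_lit 62598757281521) (nat_lit 1) (nat_lit 4) (nat_lit 2) (nat_lit 5) (nat_lit 2) (nat_lit 4) (nat_lit 304) (nat_lit 211) (nat_lit 145)) (XT.nd (nat_lit 78) (nat_lit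 0) (nat_lit 0) (XT.lf (nat_lit 0) (nat_lit 14244127158420) (nat_lit 76) (nat_lit 71988013140735) (nat_lit 76) (nat_lit 71985860705885) (nat_lit 1) (nat_lit 4) (nat_lit 2) (nat_lit 5) (nat_lit 2) (nat_lit 4) (nat_lit 305) (nat_lit 211) (nat_lit 144)) (XT.lf (nat_lit 0) (nat_lit 16386091799924) (nat_lit 76) (nat_lit 82783182175756) (nat_lit 76) (nat_lit 82781029716828) (nat_lit 1) (nat_lit 4) (nat_lit 2) (nat_lit 5) (nat_lit 2) (nat_lit 4) (nat_lit 306) (nat_lit 211) (nat_lit 143)))))) (XT.nd (nat_lit 29094) (nat_lit 0) (nat_lit 228) (XT.nd (nat_lit 28938) (nat_lit 0) (nat_lit 456) (XT.nd (nat_lit 28860) (nat_lit 0) (nat_lit 532) (XT.lf (nat_lit 0) (nat_lit 18849351025889) (nat_lit 76) (nat_lit 95197626622691) (nat_lit 76) (nat_lit 95195474142827) (nat_lit 1) (nat_lit 4) (nat_lit 2) (nat_lit 5) (nat_lit 2) (nat_lit 4) (nat_lit 307) (nat_lit 211) (nat_lit 142)) (XT.lf (nat_lit 0) (nat_lit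 2222820514) (nat_lit 152) (nat_lit 2826456747) (nat_lit 0) (nat_lit 2222820514) (nat_lit 8) (nat_lit 5) (nat_lit 10) (nat_lit 4) (nat_lit 8) (nat_lit 4) (nat_lit 236) (nat_lit 212) (nat_lit 212))) (XT.nd (nat_lit 78) (nat_lit 0) (nat_lit 0) (XT.lf (nat_lit 0) (nat_lit 2644822346) (nat_lit 76) (nat_lit 6881489179) (nat_lit 76) (nat_lit 6454463297) (nat_lit 7) (nat_lit 4) (nat_lit 8) (nat_lit 5) (nat_lit 8) (nat_lit 4) (nat_lit 237) (nat_lit 212) (nat_lit 211)) (XT.lf (nat_lit 0) (nat_lit 11991338678) (nat_lit 76) (nat_lit 3231306127) (nat_lit 76) (nat_lit 2432953392) (nat_lit 7) (nat_lit 4) (nat_lit 8) (nat_lit 5) (nat_lit 8) (nat_lit 4) (nat_lit 238) (nat_lit 212) (nat_lit 210)))) (XT.nd (nat_lit 156) (nat_lit 76) (nat_lit 0) (XT.nd (nat_lit 78) (nat_lit 0) (nat_lit 0) (XT.lf (nat_lit 0) (nat_lit 1732636171) (nat_lit 152) (nat_lit 17117956790) (nat_lit 0) (nat_lit 757639952) (nat_lit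 5) (nat_lit 5) (nat_lit 7) (nat_lit 4) (nat_lit 5) (nat_lit 4) (nat_lit 239) (nat_lit 212) (nat_lit 209)) (XT.lf (nat_lit 0) (nat_lit 6342880602) (nat_lit 152) (nat_lit 10359957820) (nat_lit 0) (nat_lit 5123730950) (nat_lit 5) (nat_lit 5) (nat_lit 7) (nat_lit 4) (nat_lit 5) (nat_lit 4) (nat_lit 240) (nat_lit 212) (nat_lit 208))) (XT.nd (nat_lit 78) (nat_lit 76) (nat_lit 0) (XT.lf (nat_lit 0) (nat_lit 11301050531) (nat_lit 152) (nat_lit 3259006467) (nat_lit 0) (nat_lit 9869593545) (nat_lit 5) (nat_lit 5) (nat_lit 7) (nat_lit 4) (nat_lit 5) (nat_lit 4) (nat_lit 241) (nat_lit 212) (nat_lit 207)) (XT.nd (nat_lit 78) (nat_lit 0) (nat_lit 0) (XT.lf (nat_lit 0) (nat_lit 4746384935) (nat_lit 76) (nat_lit 12154306373) (nat_lit 76) (nat_lit 10538234314) (nat_lit 4) (nat_lit 4) (nat_lit 5) (nat_lit 5) (nat_lit 5) (nat_lit 4) (nat_lit 242) (nat_lit 212) (nat_lit 206)) (XT.lf (nat_lit 0) (nat_lit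 13762106030) (nat_lit 76) (nat_lit 9465656219) (nat_lit 76) (nat_lit 7689049314) (nat_lit 4) (nat_lit 4) (nat_lit 5) (nat_lit 5) (nat_lit 5) (nat_lit 4) (nat_lit 243) (nat_lit 212) (nat_lit 205))))))))
noncomputable def xc32 : XT := (XT.nd (nat_lit 1326) (nat_lit 76) (nat_lit 0) (XT.nd (nat_lit 624) (nat_lit 0) (nat_lit 0) (XT.nd (nat_lit 312) (nat_lit 0) (nat_lit 0) (XT.nd (nat_lit 156) (nat_lit 152) (nat_lit 0) (XT.nd (nat_lit 78) (nat_lit 0) (nat_lit 0) (XT.lf (nat_lit 0) (nat_lit 23646057545) (nat_lit 76) (nat_lit 6611859668) (nat_lit 76) (nat_lit 4695657245) (nat_lit 4) (nat_lit 4) (nat_lit 5) (nat_lit 5) (nat_lit 5) (nat_lit 4) (nat_lit 244) (nat_lit 212) (nat_lit 204)) (XT.lf (nat_lit 0) (nat_lit 34591621140) (nat_lit 76) (nat_lit 3537081571) (nat_lit 76) (nat_lit 1499491740) (nat_lit 4) (nat_lit 4) (nat_lit 5) (nat_lit 5) (nat_lit 5) (nat_lit 4) (nat_lit 245) (nat_lit 212) (nat_lit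 203))) (XT.nd (nat_lit 78) (nat_lit 0) (nat_lit 0) (XT.lf (nat_lit 0) (nat_lit 1864611025) (nat_lit 152) (nat_lit 43142731906) (nat_lit 0) (nat_lit 1007462) (nat_lit 2) (nat_lit 5) (nat_lit 4) (nat_lit 4) (nat_lit 2) (nat_lit 4) (nat_lit 246) (nat_lit 212) (nat_lit 202)) (XT.lf (nat_lit 0) (nat_lit 5831634434) (nat_lit 152) (nat_lit 41427364400) (nat_lit 0) (nat_lit 3888216681) (nat_lit 2) (nat_lit 5) (nat_lit 4) (nat_lit 4) (nat_lit 2) (nat_lit 4) (nat_lit 247) (nat_lit 212) (nat_lit 201)))) (XT.nd (nat_lit 156) (nat_lit 0) (nat_lit 0) (XT.nd (nat_lit 78) (nat_lit 0) (nat_lit 0) (XT.lf (nat_lit 0) (nat_lit 10226389456) (nat_lit 152) (nat_lit 39792199121) (nat_lit 0) (nat_lit 8213568059) (nat_lit 2) (nat_lit 5) (nat_lit 4) (nat_lit 4) (nat_lit 2) (nat_lit 4) (nat_lit 248) (nat_lit 212) (nat_lit 200)) (XT.lf (nat_lit 0) (nat_lit 15134860428) (nat_lit 152) (nat_lit 38205243705) (nat_lit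 0) (nat_lit 13061688036) (nat_lit 2) (nat_lit 5) (nat_lit 4) (nat_lit 4) (nat_lit 2) (nat_lit 4) (nat_lit 249) (nat_lit 212) (nat_lit 199))) (XT.nd (nat_lit 78) (nat_lit 0) (nat_lit 0) (XT.lf (nat_lit 0) (nat_lit 20653082651) (nat_lit 152) (nat_lit 36635449023) (nat_lit 0) (nat_lit 18527431133) (nat_lit 2) (nat_lit 5) (nat_lit 4) (nat_lit 4) (nat_lit 2) (nat_lit 4) (nat_lit 250) (nat_lit 212) (nat_lit 198)) (XT.lf (nat_lit 0) (nat_lit 26889021344) (nat_lit 152) (nat_lit 35052101701) (nat_lit 0) (nat_lit 24717735803) (nat_lit 2) (nat_lit 5) (nat_lit 4) (nat_lit 4) (nat_lit 2) (nat_lit 4) (nat_lit 251) (nat_lit 212) (nat_lit 197))))) (XT.nd (nat_lit 312) (nat_lit 0) (nat_lit 0) (XT.nd (nat_lit 156) (nat_lit 0) (nat_lit 0) (XT.nd (nat_lit 78) (nat_lit 0) (nat_lit 0) (XT.lf (nat_lit 0) (nat_lit 33964684001) (nat_lit 152) (nat_lit 33424223206) (nat_lit 0) (nat_lit 31753716702) (nat_lit 2)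 (nat_lit 5) (nat_lit 4) (nat_lit 4) (nat_lit 2) (nat_lit 4) (nat_lit 252) (nat_lit 212) (nat_lit 196)) (XT.lf (nat_lit 0) (nat_lit 42018507502) (nat_lit 152) (nat_lit 31719963739) (nat_lit 0) (nat_lit 39773034325) (nat_lit 2) (nat_lit 5) (nat_lit 4) (nat_lit 4) (nat_lit 2) (nat_lit 4) (nat_lit 253) (nat_lit 212) (nat_lit 195))) (XT.nd (nat_lit 78) (nat_lit 0) (nat_lit 0) (XT.lf (nat_lit 0) (nat_lit 51208066654) (nat_lit 152) (nat_lit 29905979095) (nat_lit 0) (nat_lit 48932588366) (nat_lit 2) (nat_lit 5) (nat_lit 4) (nat_lit 4) (nat_lit 2) (nat_lit 4) (nat_lit 254) (nat_lit 212) (nat_lit 194)) (XT.lf (nat_lit 0) (nat_lit 61713157179) (nat_lit 152) (nat_lit 27946778270) (nat_lit 0) (nat_lit 59411587491) (nat_lit 2) (nat_lit 5) (nat_lit 4) (nat_lit 4) (nat_lit 2) (nat_lit 4) (nat_lit 255) (nat_lit 212) (nat_lit 193)))) (XT.nd (nat_lit 156) (nat_lit 0) (nat_lit 0) (XT.nd (nat_lit 78) (nat_lit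 0) (nat_lit 0) (XT.lf (nat_lit 0) (nat_lit 73739313457) (nat_lit 152) (nat_lit 25804029073) (nat_lit 0) (nat_lit 71415055595) (nat_lit 2) (nat_lit 5) (nat_lit 4) (nat_lit 4) (nat_lit 2) (nat_lit 4) (nat_lit 256) (nat_lit 212) (nat_lit 192)) (XT.lf (nat_lit 0) (nat_lit 87521829851) (nat_lit 152) (nat_lit 23435808150) (nat_lit 0) (nat_lit 85177843141) (nat_lit 2) (nat_lit 5) (nat_lit 4) (nat_lit 4) (nat_lit 2) (nat_lit 4) (nat_lit 257) (nat_lit 212) (nat_lit 191))) (XT.nd (nat_lit 78) (nat_lit 0) (nat_lit 0) (XT.lf (nat_lit 0) (nat_lit 103330364289) (nat_lit 152) (nat_lit 20795780744) (nat_lit 0) (nat_lit 100969222060) (nat_lit 2) (nat_lit 5) (nat_lit 4) (nat_lit 4) (nat_lit 2) (nat_lit 4) (nat_lit 258) (nat_lit 212) (nat_lit 190)) (XT.nd (nat_lit 78) (nat_lit 0) (nat_lit 0) (XT.lf (nat_lit 0) (nat_lit 121474214185) (nat_lit 152) (nat_lit 17832294146) (nat_lit 0) (nat_lit 119098154113)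 (nat_lit 2) (nat_lit 5) (nat_lit 4) (nat_lit 4) (nat_lit 2) (nat_lit 4) (nat_lit 259) (nat_lit 212) (nat_lit 189)) (XT.lf (nat_lit 0) (nat_lit 142308367905) (nat_lit 152) (nat_lit 14487367096) (nat_lit 0) (nat_lit 139919335796) (nat_lit 2) (nat_lit 5) (nat_lit 4) (nat_lit 4) (nat_lit 2) (nat_lit 4) (nat_lit 260) (nat_lit 212) (nat_lit 188))))))) (XT.nd (nat_lit 702) (nat_lit 0) (nat_lit 0) (XT.nd (nat_lit 312) (nat_lit 0) (nat_lit 0) (XT.nd (nat_lit 156) (nat_lit 76) (nat_lit 0) (XT.nd (nat_lit 78) (nat_lit 0) (nat_lit 0) (XT.lf (nat_lit 0) (nat_lit 166240450198) (nat_lit 152) (nat_lit 10695555368) (nat_lit 0) (nat_lit 163840138057) (nat_lit 2) (nat_lit 5) (nat_lit 4) (nat_lit 4) (nat_lit 2) (nat_lit 4) (nat_lit 261) (nat_lit 212) (nat_lit 187)) (XT.lf (nat_lit 0) (nat_lit 193738697455) (nat_lit 152) (nat_lit 6382671342) (nat_lit 0) (nat_lit 191328576590) (nat_lit 2) (nat_lit 5) (nat_lit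 4) (nat_lit 4) (nat_lit 2) (nat_lit 4) (nat_lit 262) (nat_lit 212) (nat_lit 186))) (XT.nd (nat_lit 78) (nat_lit 76) (nat_lit 0) (XT.lf (nat_lit 0) (nat_lit 225341118862) (nat_lit 152) (nat_lit 1464332505) (nat_lit 0) (nat_lit 222922468672) (nat_lit 2) (nat_lit 5) (nat_lit 4) (nat_lit 4) (nat_lit 2) (nat_lit 4) (nat_lit 263) (nat_lit 212) (nat_lit 185)) (XT.lf (nat_lit 0) (nat_lit 4561813714) (nat_lit 76) (nat_lit 257293103927) (nat_lit 76) (nat_lit 254867036932) (nat_lit 1) (nat_lit 4) (nat_lit 2) (nat_lit 5) (nat_lit 2) (nat_lit 4) (nat_lit 264) (nat_lit 212) (nat_lit 184)))) (XT.nd (nat_lit 156) (nat_lit 0) (nat_lit 0) (XT.nd (nat_lit 78) (nat_lit 0) (nat_lit 0) (XT.lf (nat_lit 0) (nat_lit 11622024665) (nat_lit 76) (nat_lit 292283332092) (nat_lit 76) (nat_lit 289850815702) (nat_lit 1) (nat_lit 4) (nat_lit 2) (nat_lit 5) (nat_lit 2) (nat_lit 4) (nat_lit 265) (nat_lit 212) (nat_lit 183))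 (XT.lf (nat_lit 0) (nat_lit 19711329688) (nat_lit 76) (nat_lit 332537271936) (nat_lit 76) (nat_lit 330099147376) (nat_lit 1) (nat_lit 4) (nat_lit 2) (nat_lit 5) (nat_lit 2) (nat_lit 4) (nat_lit 266) (nat_lit 212) (nat_lit 182))) (XT.nd (nat_lit 78) (nat_lit 0) (nat_lit 0) (XT.lf (nat_lit 0) (nat_lit 28987997793) (nat_lit 76) (nat_lit 378842500543) (nat_lit 76) (nat_lit 376399499314) (nat_lit 1) (nat_lit 4) (nat_lit 2) (nat_lit 5) (nat_lit 2) (nat_lit 4) (nat_lit 267) (nat_lit 212) (nat_lit 181)) (XT.nd (nat_lit 78) (nat_lit 0) (nat_lit 0) (XT.lf (nat_lit 0) (nat_lit 39633529009) (nat_lit 76) (nat_lit 432104989777) (nat_lit 76) (nat_lit 429657747966) (nat_lit 1) (nat_lit 4) (nat_lit 2) (nat_lit 5) (nat_lit 2) (nat_lit 4) (nat_lit 268) (nat_lit 212) (nat_lit 180)) (XT.lf (nat_lit 0) (nat_lit 51856205468) (nat_lit 76) (nat_lit 493366831819) (nat_lit 76) (nat_lit 490915902546) (nat_lit 1)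 (nat_lit 4) (nat_lit 2) (nat_lit 5) (nat_lit 2) (nat_lit 4) (nat_lit 269) (nat_lit 212) (nat_lit 179)))))) (XT.nd (nat_lit 312) (nat_lit 0) (nat_lit 0) (XT.nd (nat_lit 156) (nat_lit 0) (nat_lit 0) (XT.nd (nat_lit 78) (nat_lit 0) (nat_lit 0) (XT.lf (nat_lit 0) (nat_lit 65895166492) (nat_lit 76) (nat_lit 563826627927) (nat_lit 76) (nat_lit 561372492164) (nat_lit 1) (nat_lit 4) (nat_lit 2) (nat_lit 5) (nat_lit 2) (nat_lit 4) (nat_lit 270) (nat_lit 212) (nat_lit 178)) (XT.lf (nat_lit 0) (nat_lit 82025087406) (nat_lit 76) (nat_lit 644862939327) (nat_lit 76) (nat_lit 642406015313) (nat_lit 1) (nat_lit 4) (nat_lit 2) (nat_lit 5) (nat_lit 2) (nat_lit 4) (nat_lit 271) (nat_lit 212) (nat_lit 177))) (XT.nd (nat_lit 78) (nat_lit 0) (nat_lit 0) (XT.lf (nat_lit 0) (nat_lit 100561553619) (nat_lit 76) (nat_lit 738061259070) (nat_lit 76) (nat_lit 735601910489) (nat_lit 1) (nat_lit 4) (nat_lit 2) (nat_lit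 5) (nat_lit 2) (nat_lit 4) (nat_lit 272) (nat_lit 212) (nat_lit 176)) (XT.lf (nat_lit 0) (nat_lit 121867235122) (nat_lit 76) (nat_lit 845245032542) (nat_lit 76) (nat_lit 842783575642) (nat_lit 1) (nat_lit 4) (nat_lit 2) (nat_lit 5) (nat_lit 2) (nat_lit 4) (nat_lit 273) (nat_lit 212) (nat_lit 175)))) (XT.nd (nat_lit 156) (nat_lit 0) (nat_lit 0) (XT.nd (nat_lit 78) (nat_lit 0) (nat_lit 0) (XT.lf (nat_lit 0) (nat_lit 146358982205) (nat_lit 76) (nat_lit 968511333571) (nat_lit 76) (nat_lit 966048043351) (nat_lit 1) (nat_lit 4) (nat_lit 2) (nat_lit 5) (nat_lit 2) (nat_lit 4) (nat_lit 274) (nat_lit 212) (nat_lit 174)) (XT.lf (nat_lit 0) (nat_lit 174515981224) (nat_lit 76) (nat_lit 1110271894134) (nat_lit 76) (nat_lit 1107807009722) (nat_lit 1) (nat_lit 4) (nat_lit 2) (nat_lit 5) (nat_lit 2) (nat_lit 4) (nat_lit 275) (nat_lit 212) (nat_lit 173))) (XT.nd (nat_lit 78) (nat_lit 0) (nat_lit 0) (XT.lf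 (nat_lit 0) (nat_lit 206889129986) (nat_lit 76) (nat_lit 1273300290417) (nat_lit 76) (nat_lit 1270834019751) (nat_lit 1) (nat_lit 4) (nat_lit 2) (nat_lit 5) (nat_lit 2) (nat_lit 4) (nat_lit 276) (nat_lit 212) (nat_lit 172)) (XT.nd (nat_lit 78) (nat_lit 0) (nat_lit 0) (XT.lf (nat_lit 0) (nat_lit 244111816185) (nat_lit 76) (nat_lit 1460786208433) (nat_lit 76) (nat_lit 1458318732329) (nat_lit 1) (nat_lit 4) (nat_lit 2) (nat_lit 5) (nat_lit 2) (nat_lit 4) (nat_lit 277) (nat_lit 212) (nat_lit 171)) (XT.lf (nat_lit 0) (nat_lit 286912309767) (nat_lit 76) (nat_lit 1676397850926) (nat_lit 76) (nat_lit 1673929326615) (nat_lit 1) (nat_lit 4) (nat_lit 2) (nat_lit 5) (nat_lit 2) (nat_lit 4) (nat_lit 278) (nat_lit 212) (nat_lit 170))))))))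
noncomputable def xc33 : XT := (XT.nd (nat_lit 1404) (nat_lit 0) (nat_lit 0) (XT.nd (nat_lit 702) (nat_lit 0) (nat_lit 0) (XT.nd (nat_lit 312) (nat_lit 0) (nat_lit 0) (XT.nd (nat_lit 156) (nat_lit 0) (nat_lit 0) (XT.nd (nat_lit 78) (nat_lit 0) (nat_lit 0) (XT.lf (nat_lit 0) (nat_lit 336128011694) (nat_lit 76) (nat_lit 1924353706554) (nat_lit 76) (nat_lit 1921884270759) (nat_lit 1) (nat_lit 4) (nat_lit 2) (nat_lit 5) (nat_lit 2) (nat_lit 4) (nat_lit 279) (nat_lit 212) (nat_lit 169)) (XT.lf (nat_lit 0) (nat_lit 392721837873) (nat_lit 76) (nat_lit 2209505085535) (nat_lit 76) (nat_lit 2207034857145) (nat_lit 1) (nat_lit 4) (nat_lit 2) (nat_lit 5) (nat_lit 2) (nat_lit 4) (nat_lit 280) (nat_lit 212) (nat_lit 168))) (XT.nd (nat_lit 78) (nat_lit 0) (nat_lit 0) (XT.lf (nat_lit 0) (nat_lit 457801058817) (nat_lit 76) (nat_lit 2537431036589) (nat_lit 76) (nat_lit 2534960118985) (nat_lit 1) (nat_lit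 4) (nat_lit 2) (nat_lit 5) (nat_lit 2) (nat_lit 4) (nat_lit 281) (nat_lit 212) (nat_lit 167)) (XT.lf (nat_lit 0) (nat_lit 532638963631) (nat_lit 76) (nat_lit 2914547502236) (nat_lit 76) (nat_lit 2912075985317) (nat_lit 1) (nat_lit 4) (nat_lit 2) (nat_lit 5) (nat_lit 2) (nat_lit 4) (nat_lit 282) (nat_lit 212) (nat_lit 166)))) (XT.nd (nat_lit 156) (nat_lit 0) (nat_lit 0) (XT.nd (nat_lit 78) (nat_lit 0) (nat_lit 0) (XT.lf (nat_lit 0) (nat_lit 618699772192) (nat_lit 76) (nat_lit 3348232848108) (nat_lit 76) (nat_lit 3345760810045) (nat_lit 1) (nat_lit 4) (nat_lit 2) (nat_lit 5) (nat_lit 2) (nat_lit 4) (nat_lit 283) (nat_lit 212) (nat_lit 165)) (XT.lf (nat_lit 0) (nat_lit 717667282928) (nat_lit 76) (nat_lit 3846972222278) (nat_lit 76) (nat_lit 3844499731045) (nat_lit 1) (nat_lit 4) (nat_lit 2) (nat_lit 5) (nat_lit 2) (nat_lit 4) (nat_lit 284) (nat_lit 212) (nat_lit 164))) (XT.nd (nat_lit 78)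 (nat_lit 0) (nat_lit 0) (XT.lf (nat_lit 0) (nat_lit 831477816701) (nat_lit 76) (nat_lit 4420523569021) (nat_lit 76) (nat_lit 4418050683729) (nat_lit 1) (nat_lit 4) (nat_lit 2) (nat_lit 5) (nat_lit 2) (nat_lit 4) (nat_lit 285) (nat_lit 212) (nat_lit 163)) (XT.nd (nat_lit 78) (nat_lit 0) (nat_lit 0) (XT.lf (nat_lit 0) (nat_lit 962358101346) (nat_lit 76) (nat_lit 5080108545123) (nat_lit 76) (nat_lit 5077635317170) (nat_lit 1) (nat_lit 4) (nat_lit 2) (nat_lit 5) (nat_lit 2) (nat_lit 4) (nat_lit 286) (nat_lit 212) (nat_lit 162)) (XT.lf (nat_lit 0) (nat_lit 1112868838084) (nat_lit 76) (nat_lit 5838632074028) (nat_lit 76) (nat_lit 5836158548110) (nat_lit 1) (nat_lit 4) (nat_lit 2) (nat_lit 5) (nat_lit 2) (nat_lit 4) (nat_lit 287) (nat_lit 212) (nat_lit 161)))))) (XT.nd (nat_lit 312) (nat_lit 0) (nat_lit 0) (XT.nd (nat_lit 156) (nat_lit 0) (nat_lit 0) (XT.nd (nat_lit 78) (nat_lit 0) (nat_lit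 0) (XT.lf (nat_lit 0) (nat_lit 1285954802200) (nat_lit 76) (nat_lit 6710934833477) (nat_lit 76) (nat_lit 6708461048457) (nat_lit 1) (nat_lit 4) (nat_lit 2) (nat_lit 5) (nat_lit 2) (nat_lit 4) (nat_lit 288) (nat_lit 212) (nat_lit 160)) (XT.lf (nat_lit 0) (nat_lit 1485002458209) (nat_lit 76) (nat_lit 7714083616588) (nat_lit 76) (nat_lit 7711609606264) (nat_lit 1) (nat_lit 4) (nat_lit 2) (nat_lit 5) (nat_lit 2) (nat_lit 4) (nat_lit 289) (nat_lit 212) (nat_lit 159))) (XT.nd (nat_lit 78) (nat_lit 0) (nat_lit 0) (XT.lf (nat_lit 0) (nat_lit 1713906216771) (nat_lit 76) (nat_lit 8867705247380) (nat_lit 76) (nat_lit 8865231041138) (nat_lit 1) (nat_lit 4) (nat_lit 2) (nat_lit 5) (nat_lit 2) (nat_lit 4) (nat_lit 290) (nat_lit 212) (nat_lit 158)) (XT.lf (nat_lit 0) (nat_lit 1977144629684) (nat_lit 76) (nat_lit 10194370583845) (nat_lit 76) (nat_lit 10191896207241) (nat_lit 1) (nat_lit 4) (nat_lit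 2) (nat_lit 5) (nat_lit 2) (nat_lit 4) (nat_lit 291) (nat_lit 212) (nat_lit 157)))) (XT.nd (nat_lit 156) (nat_lit 0) (nat_lit 0) (XT.nd (nat_lit 78) (nat_lit 0) (nat_lit 0) (XT.lf (nat_lit 0) (nat_lit 2279868013724) (nat_lit 76) (nat_lit 11720036121698) (nat_lit 76) (nat_lit 11717561596952) (nat_lit 1) (nat_lit 4) (nat_lit 2) (nat_lit 5) (nat_lit 2) (nat_lit 4) (nat_lit 292) (nat_lit 212) (nat_lit 156)) (XT.lf (nat_lit 0) (nat_lit 2627999217708) (nat_lit 76) (nat_lit 13474551838853) (nat_lit 76) (nat_lit 13472077185288) (nat_lit 1) (nat_lit 4) (nat_lit 2) (nat_lit 5) (nat_lit 2) (nat_lit 4) (nat_lit 293) (nat_lit 212) (nat_lit 155))) (XT.nd (nat_lit 78) (nat_lit 0) (nat_lit 0) (XT.lf (nat_lit 0) (nat_lit 3028349504322) (nat_lit 76) (nat_lit 15492245216732) (nat_lit 76) (nat_lit 15489770451150) (nat_lit 1) (nat_lit 4) (nat_lit 2) (nat_lit 5) (nat_lit 2) (nat_lit 4) (nat_lit 294) (nat_lit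 212) (nat_lit 154)) (XT.nd (nat_lit 78) (nat_lit 0) (nat_lit 0) (XT.lf (nat_lit 0) (nat_lit 3488751813958) (nat_lit 76) (nat_lit 17812592864903) (nat_lit 76) (nat_lit 17810118001916) (nat_lit 1) (nat_lit 4) (nat_lit 2) (nat_lit 5) (nat_lit 2) (nat_lit 4) (nat_lit 295) (nat_lit 212) (nat_lit 153)) (XT.lf (nat_lit 0) (nat_lit 4018214017891) (nat_lit 76) (nat_lit 20480992889526) (nat_lit 76) (nat_lit 20478517941838) (nat_lit 1) (nat_lit 4) (nat_lit 2) (nat_lit 5) (nat_lit 2) (nat_lit 4) (nat_lit 296) (nat_lit 212) (nat_lit 152))))))) (XT.nd (nat_lit 702) (nat_lit 0) (nat_lit 0) (XT.nd (nat_lit 312) (nat_lit 0) (nat_lit 0) (XT.nd (nat_lit 156) (nat_lit 0) (nat_lit 0) (XT.nd (nat_lit 78) (nat_lit 0) (nat_lit 0) (XT.lf (nat_lit 0) (nat_lit 4627095159240) (nat_lit 76) (nat_lit 23549653117168) (nat_lit 76) (nat_lit 23547178095828) (nat_lit 1) (nat_lit 4) (nat_lit 2) (nat_lit 5) (nat_lit 2) (nat_lit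 4) (nat_lit 297) (nat_lit 212) (nat_lit 151)) (XT.lf (nat_lit 0) (nat_lit 5327308129902) (nat_lit 76) (nat_lit 27078612552285) (nat_lit 76) (nat_lit 27076137466899) (nat_lit 1) (nat_lit 4) (nat_lit 2) (nat_lit 5) (nat_lit 2) (nat_lit 4) (nat_lit 298) (nat_lit 212) (nat_lit 150))) (XT.nd (nat_lit 78) (nat_lit 0) (nat_lit 0) (XT.lf (nat_lit 0) (nat_lit 6132552748869) (nat_lit 76) (nat_lit 31136916053390) (nat_lit 76) (nat_lit 31134440912312) (nat_lit 1) (nat_lit 4) (nat_lit 2) (nat_lit 5) (nat_lit 2) (nat_lit 4) (nat_lit 299) (nat_lit 212) (nat_lit 149)) (XT.lf (nat_lit 0) (nat_lit 7058583802163) (nat_lit 76) (nat_lit 35803965210720) (nat_lit 76) (nat_lit 35801490021214) (nat_lit 1) (nat_lit 4) (nat_lit 2) (nat_lit 5) (nat_lit 2) (nat_lit 4) (nat_lit 300) (nat_lit 212) (nat_lit 148)))) (XT.nd (nat_lit 156) (nat_lit 0) (nat_lit 0) (XT.nd (nat_lit 78) (nat_lit 0) (nat_lit 0) (XT.lf (nat_lit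 0) (nat_lit 8123519288654) (nat_lit 76) (nat_lit 41171071855616) (nat_lit 76) (nat_lit 41168596623999) (nat_lit 1) (nat_lit 4) (nat_lit 2) (nat_lit 5) (nat_lit 2) (nat_lit 4) (nat_lit 301) (nat_lit 212) (nat_lit 147)) (XT.lf (nat_lit 0) (nat_lit 9348194902641) (nat_lit 76) (nat_lit 47343244596347) (nat_lit 76) (nat_lit 47340769328112) (nat_lit 1) (nat_lit 4) (nat_lit 2) (nat_lit 5) (nat_lit 2) (nat_lit 4) (nat_lit 302) (nat_lit 212) (nat_lit 146))) (XT.nd (nat_lit 78) (nat_lit 0) (nat_lit 0) (XT.lf (nat_lit 0) (nat_lit 10756571688747) (nat_lit 76) (nat_lit 54441243334363) (nat_lit 76) (nat_lit 54438768034285) (nat_lit 1) (nat_lit 4) (nat_lit 2) (nat_lit 5) (nat_lit 2) (nat_lit 4) (nat_lit 303) (nat_lit 212) (nat_lit 145)) (XT.nd (nat_lit 78) (nat_lit 0) (nat_lit 0) (XT.lf (nat_lit 0) (nat_lit 12376204844961) (nat_lit 76) (nat_lit 62603941958014) (nat_lit 76) (nat_lit 62601466630248)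 (nat_lit 1) (nat_lit 4) (nat_lit 2) (nat_lit 5) (nat_lit 2) (nat_lit 4) (nat_lit 304) (nat_lit 212) (nat_lit 144)) (XT.lf (nat_lit 0) (nat_lit 14238782846078) (nat_lit 76) (nat_lit 71991045440374) (nat_lit 76) (nat_lit 71988570088531) (nat_lit 1) (nat_lit 4) (nat_lit 2) (nat_lit 5) (nat_lit 2) (nat_lit 4) (nat_lit 305) (nat_lit 212) (nat_lit 143)))))) (XT.nd (nat_lit 28938) (nat_lit 0) (nat_lit 304) (XT.nd (nat_lit 28782) (nat_lit 0) (nat_lit 608) (XT.nd (nat_lit 78) (nat_lit 0) (nat_lit 0) (XT.lf (nat_lit 0) (nat_lit 16380747435598) (nat_lit 76) (nat_lit 82786214501749) (nat_lit 76) (nat_lit 82783739128969) (nat_lit 1) (nat_lit 4) (nat_lit 2) (nat_lit 5) (nat_lit 2) (nat_lit 4) (nat_lit 306) (nat_lit 212) (nat_lit 142)) (XT.lf (nat_lit 0) (nat_lit 18844006616360) (nat_lit 76) (nat_lit 95200658971601) (nat_lit 76) (nat_lit 95198183580616) (nat_lit 1) (nat_lit 4) (nat_lit 2) (nat_lit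 5) (nat_lit 2) (nat_lit 4) (nat_lit 307) (nat_lit 212) (nat_lit 141))) (XT.nd (nat_lit 78) (nat_lit 76) (nat_lit 0) (XT.lf (nat_lit 0) (nat_lit 2175592675) (nat_lit 76) (nat_lit 1968641724) (nat_lit 76) (nat_lit 1968641724) (nat_lit 10) (nat_lit 4) (nat_lit 11) (nat_lit 5) (nat_lit 11) (nat_lit 4) (nat_lit 234) (nat_lit 213) (nat_lit 213)) (XT.lf (nat_lit 0) (nat_lit 223254069) (nat_lit 152) (nat_lit 84745479) (nat_lit 76) (nat_lit 13032112037) (nat_lit 9) (nat_lit 5) (nat_lit 11) (nat_lit 5) (nat_lit 10) (nat_lit 4) (nat_lit 235) (nat_lit 213) (nat_lit 212)))) (XT.nd (nat_lit 156) (nat_lit 152) (nat_lit 0) (XT.nd (nat_lit 78) (nat_lit 76) (nat_lit 0) (XT.lf (nat_lit 0) (nat_lit 4718748626) (nat_lit 152) (nat_lit 6057923153) (nat_lit 0) (nat_lit 3800642981) (nat_lit 8) (nat_lit 5) (nat_lit 10) (nat_lit 4) (nat_lit 8) (nat_lit 4) (nat_lit 236) (nat_lit 213) (nat_lit 211)) (XT.lf (nat_lit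 0) (nat_lit 1813632069) (nat_lit 76) (nat_lit 7761828223) (nat_lit 76) (nat_lit 6472395724) (nat_lit 7) (nat_lit 4) (nat_lit 8) (nat_lit 5) (nat_lit 8) (nat_lit 4) (nat_lit 237) (nat_lit 213) (nat_lit 210))) (XT.nd (nat_lit 78) (nat_lit 152) (nat_lit 0) (XT.lf (nat_lit 0) (nat_lit 10823974377) (nat_lit 76) (nat_lit 4269080674) (nat_lit 76) (nat_lit 2656755258) (nat_lit 7) (nat_lit 4) (nat_lit 8) (nat_lit 5) (nat_lit 8) (nat_lit 4) (nat_lit 238) (nat_lit 213) (nat_lit 209)) (XT.nd (nat_lit 78) (nat_lit 0) (nat_lit 0) (XT.lf (nat_lit 0) (nat_lit 816532058) (nat_lit 76) (nat_lit 443762789) (nat_lit 152) (nat_lit 18484051898) (nat_lit 5) (nat_lit 5) (nat_lit 6) (nat_lit 5) (nat_lit 7) (nat_lit 4) (nat_lit 239) (nat_lit 213) (nat_lit 208)) (XT.lf (nat_lit 0) (nat_lit 5692344860) (nat_lit 152) (nat_lit 12463416011) (nat_lit 0) (nat_lit 3833861992) (nat_lit 5) (nat_lit 5) (nat_lit 7) (nat_lit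 4) (nat_lit 5) (nat_lit 4) (nat_lit 240) (nat_lit 213) (nat_lit 207))))))))
noncomputable def xc34 : XT := (XT.nd (nat_lit 1404) (nat_lit 76) (nat_lit 0) (XT.nd (nat_lit 702) (nat_lit 0) (nat_lit 0) (XT.nd (nat_lit 312) (nat_lit 152) (nat_lit 0) (XT.nd (nat_lit 156) (nat_lit 0) (nat_lit 0) (XT.nd (nat_lit 78) (nat_lit 76) (nat_lit 0) (XT.lf (nat_lit 0) (nat_lit 10511541618) (nat_lit 152) (nat_lit 5633747756) (nat_lit 0) (nat_lit 8468443677) (nat_lit 5) (nat_lit 5) (nat_lit 7) (nat_lit 4) (nat_lit 5) (nat_lit 4) (nat_lit 241) (nat_lit 213) (nat_lit 206)) (XT.lf (nat_lit 0) (nat_lit 1880614607) (nat_lit 76) (nat_lit 13991056113) (nat_lit 76) (nat_lit 11787423326) (nat_lit 4) (nat_lit 4) (nat_lit 5) (nat_lit 5) (nat_lit 5) (nat_lit 4) (nat_lit 242) (nat_lit 213) (nat_lit 205))) (XT.nd (nat_lit 78) (nat_lit 0) (nat_lit 0) (XT.lf (nat_lit 0) (nat_lit 10671160007) (nat_lit 76) (nat_lit 11413173925)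 (nat_lit 76) (nat_lit 9069945620) (nat_lit 4) (nat_lit 4) (nat_lit 5) (nat_lit 5) (nat_lit 5) (nat_lit 4) (nat_lit 243) (nat_lit 213) (nat_lit 204)) (XT.lf (nat_lit 0) (nat_lit 20359306570) (nat_lit 76) (nat_lit 8655697344) (nat_lit 76) (nat_lit 6191081632) (nat_lit 4) (nat_lit 4) (nat_lit 5) (nat_lit 5) (nat_lit 5) (nat_lit 4) (nat_lit 244) (nat_lit 213) (nat_lit 203)))) (XT.nd (nat_lit 156) (nat_lit 76) (nat_lit 0) (XT.nd (nat_lit 78) (nat_lit 76) (nat_lit 0) (XT.lf (nat_lit 0) (nat_lit 31134604990) (nat_lit 76) (nat_lit 5664675742) (nat_lit 76) (nat_lit 3094505763) (nat_lit 4) (nat_lit 4) (nat_lit 5) (nat_lit 5) (nat_lit 5) (nat_lit 4) (nat_lit 245) (nat_lit 213) (nat_lit 202)) (XT.lf (nat_lit 0) (nat_lit 255406942) (nat_lit 152) (nat_lit 2112831371) (nat_lit 76) (nat_lit 42939118563) (nat_lit 3) (nat_lit 5) (nat_lit 5) (nat_lit 5) (nat_lit 4) (nat_lit 4) (nat_lit 246) (nat_lit 213)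 (nat_lit 201))) (XT.nd (nat_lit 78) (nat_lit 0) (nat_lit 0) (XT.lf (nat_lit 0) (nat_lit 3945931496) (nat_lit 152) (nat_lit 45980050898) (nat_lit 0) (nat_lit 1561783245) (nat_lit 2) (nat_lit 5) (nat_lit 4) (nat_lit 4) (nat_lit 2) (nat_lit 4) (nat_lit 247) (nat_lit 213) (nat_lit 200)) (XT.nd (nat_lit 78) (nat_lit 0) (nat_lit 0) (XT.lf (nat_lit 0) (nat_lit 8273013354) (nat_lit 152) (nat_lit 44481390109) (nat_lit 0) (nat_lit 5828514108) (nat_lit 2) (nat_lit 5) (nat_lit 4) (nat_lit 4) (nat_lit 2) (nat_lit 4) (nat_lit 248) (nat_lit 213) (nat_lit 199)) (XT.lf (nat_lit 0) (nat_lit 13122638096) (nat_lit 152) (nat_lit 43013134249) (nat_lit 0) (nat_lit 10625659724) (nat_lit 2) (nat_lit 5) (nat_lit 4) (nat_lit 4) (nat_lit 2) (nat_lit 4) (nat_lit 249) (nat_lit 213) (nat_lit 198)))))) (XT.nd (nat_lit 312) (nat_lit 0) (nat_lit 0) (XT.nd (nat_lit 156) (nat_lit 0) (nat_lit 0) (XT.nd (nat_lit 78) (nat_lit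 0) (nat_lit 0) (XT.lf (nat_lit 0) (nat_lit 18589689684) (nat_lit 152) (nat_lit 41546556573) (nat_lit 0) (nat_lit 16047077290) (nat_lit 2) (nat_lit 5) (nat_lit 4) (nat_lit 4) (nat_lit 2) (nat_lit 4) (nat_lit 250) (nat_lit 213) (nat_lit 197)) (XT.lf (nat_lit 0) (nat_lit 24781132173) (nat_lit 152) (nat_lit 40052963170) (nat_lit 0) (nat_lit 22198838020) (nat_lit 2) (nat_lit 5) (nat_lit 4) (nat_lit 4) (nat_lit 2) (nat_lit 4) (nat_lit 251) (nat_lit 213) (nat_lit 196))) (XT.nd (nat_lit 78) (nat_lit 0) (nat_lit 0) (XT.lf (nat_lit 0) (nat_lit 31818102479) (nat_lit 152) (nat_lit 38503131560) (nat_lit 0) (nat_lit 29201302449) (nat_lit 2) (nat_lit 5) (nat_lit 4) (nat_lit 4) (nat_lit 2) (nat_lit 4) (nat_lit 252) (nat_lit 213) (nat_lit 195)) (XT.lf (nat_lit 0) (nat_lit 39838280457) (nat_lit 152) (nat_lit 36866738950) (nat_lit 0) (nat_lit 37191475316) (nat_lit 2) (nat_lit 5) (nat_lit 4) (nat_lit 4)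 (nat_lit 2) (nat_lit 4) (nat_lit 253) (nat_lit 213) (nat_lit 194)))) (XT.nd (nat_lit 156) (nat_lit 0) (nat_lit 0) (XT.nd (nat_lit 78) (nat_lit 0) (nat_lit 0) (XT.lf (nat_lit 0) (nat_lit 48998582632) (nat_lit 152) (nat_lit 35111768964) (nat_lit 0) (nat_lit 46325686091) (nat_lit 2) (nat_lit 5) (nat_lit 4) (nat_lit 4) (nat_lit 2) (nat_lit 4) (nat_lit 254) (nat_lit 213) (nat_lit 193)) (XT.lf (nat_lit 0) (nat_lit 59478232308) (nat_lit 152) (nat_lit 33203885233) (nat_lit 0) (nat_lit 56782647592) (nat_lit 2) (nat_lit 5) (nat_lit 4) (nat_lit 4) (nat_lit 2) (nat_lit 4) (nat_lit 255) (nat_lit 213) (nat_lit 192))) (XT.nd (nat_lit 78) (nat_lit 0) (nat_lit 0) (XT.lf (nat_lit 0) (nat_lit 71482266109) (nat_lit 152) (nat_lit 31105759596) (nat_lit 0) (nat_lit 68766952546) (nat_lit 2) (nat_lit 5) (nat_lit 4) (nat_lit 4) (nat_lit 2) (nat_lit 4) (nat_lit 256) (nat_lit 213) (nat_lit 191)) (XT.nd (nat_lit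 78) (nat_lit 0) (nat_lit 0) (XT.lf (nat_lit 0) (nat_lit 85245545565) (nat_lit 152) (nat_lit 28776341769) (nat_lit 0) (nat_lit 82513076483) (nat_lit 2) (nat_lit 5) (nat_lit 4) (nat_lit 4) (nat_lit 2) (nat_lit 4) (nat_lit 257) (nat_lit 213) (nat_lit 190)) (XT.lf (nat_lit 0) (nat_lit 101037352232) (nat_lit 152) (nat_lit 26170056185) (nat_lit 0) (nat_lit 98289965307) (nat_lit 2) (nat_lit 5) (nat_lit 4) (nat_lit 4) (nat_lit 2) (nat_lit 4) (nat_lit 258) (nat_lit 213) (nat_lit 189))))))) (XT.nd (nat_lit 702) (nat_lit 0) (nat_lit 0) (XT.nd (nat_lit 312) (nat_lit 76) (nat_lit 0) (XT.nd (nat_lit 156) (nat_lit 0) (nat_lit 0) (XT.nd (nat_lit 78) (nat_lit 0) (nat_lit 0) (XT.lf (nat_lit 0) (nat_lit 119166656240) (nat_lit 152) (nat_lit 23235910302) (nat_lit 0) (nat_lit 116406297278) (nat_lit 2) (nat_lit 5) (nat_lit 4) (nat_lit 4) (nat_lit 2) (nat_lit 4) (nat_lit 259) (nat_lit 213) (nat_lit 188)) (XT.lf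 (nat_lit 0) (nat_lit 139988161363) (nat_lit 152) (nat_lit 19916496917) (nat_lit 0) (nat_lit 137216522368) (nat_lit 2) (nat_lit 5) (nat_lit 4) (nat_lit 4) (nat_lit 2) (nat_lit 4) (nat_lit 260) (nat_lit 213) (nat_lit 187))) (XT.nd (nat_lit 78) (nat_lit 0) (nat_lit 0) (XT.lf (nat_lit 0) (nat_lit 163909244874) (nat_lit 152) (nat_lit 16146870985) (nat_lit 0) (nat_lit 161127797155) (nat_lit 2) (nat_lit 5) (nat_lit 4) (nat_lit 4) (nat_lit 2) (nat_lit 4) (nat_lit 261) (nat_lit 213) (nat_lit 186)) (XT.lf (nat_lit 0) (nat_lit 191397927974) (nat_lit 152) (nat_lit 11853278956) (nat_lit 0) (nat_lit 188607950930) (nat_lit 2) (nat_lit 5) (nat_lit 4) (nat_lit 4) (nat_lit 2) (nat_lit 4) (nat_lit 262) (nat_lit 213) (nat_lit 185)))) (XT.nd (nat_lit 156) (nat_lit 76) (nat_lit 0) (XT.nd (nat_lit 78) (nat_lit 0) (nat_lit 0) (XT.lf (nat_lit 0) (nat_lit 222992032722) (nat_lit 152) (nat_lit 6951715767) (nat_lit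 0) (nat_lit 220194638874) (nat_lit 2) (nat_lit 5) (nat_lit 4) (nat_lit 4) (nat_lit 2) (nat_lit 4) (nat_lit 263) (nat_lit 213) (nat_lit 184)) (XT.lf (nat_lit 0) (nat_lit 259309704647) (nat_lit 152) (nat_lit 1346281271) (nat_lit 0) (nat_lit 256505861403) (nat_lit 2) (nat_lit 5) (nat_lit 4) (nat_lit 4) (nat_lit 2) (nat_lit 4) (nat_lit 264) (nat_lit 213) (nat_lit 183))) (XT.nd (nat_lit 78) (nat_lit 0) (nat_lit 0) (XT.lf (nat_lit 0) (nat_lit 5568436831) (nat_lit 76) (nat_lit 295723647158) (nat_lit 76) (nat_lit 292914195745) (nat_lit 1) (nat_lit 4) (nat_lit 2) (nat_lit 5) (nat_lit 2) (nat_lit 4) (nat_lit 265) (nat_lit 213) (nat_lit 182)) (XT.nd (nat_lit 78) (nat_lit 0) (nat_lit 0) (XT.lf (nat_lit 0) (nat_lit 13645633634) (nat_lit 76) (nat_lit 335983725507) (nat_lit 76) (nat_lit 333169397425) (nat_lit 1) (nat_lit 4) (nat_lit 2) (nat_lit 5) (nat_lit 2) (nat_lit 4) (nat_lit 266) (nat_lit 213)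 (nat_lit 181)) (XT.lf (nat_lit 0) (nat_lit 22911772853) (nat_lit 76) (nat_lit 382294291945) (nat_lit 76) (nat_lit 379475723280) (nat_lit 1) (nat_lit 4) (nat_lit 2) (nat_lit 5) (nat_lit 2) (nat_lit 4) (nat_lit 267) (nat_lit 213) (nat_lit 180)))))) (XT.nd (nat_lit 312) (nat_lit 0) (nat_lit 0) (XT.nd (nat_lit 156) (nat_lit 0) (nat_lit 0) (XT.nd (nat_lit 78) (nat_lit 0) (nat_lit 0) (XT.lf (nat_lit 0) (nat_lit 33548148516) (nat_lit 76) (nat_lit 435561422771) (nat_lit 76) (nat_lit 432739166644) (nat_lit 1) (nat_lit 4) (nat_lit 2) (nat_lit 5) (nat_lit 2) (nat_lit 4) (nat_lit 268) (nat_lit 213) (nat_lit 179)) (XT.lf (nat_lit 0) (nat_lit 45762863624) (nat_lit 76) (nat_lit 496827300980) (nat_lit 76) (nat_lit 494001838364) (nat_lit 1) (nat_lit 4) (nat_lit 2) (nat_lit 5) (nat_lit 2) (nat_lit 4) (nat_lit 269) (nat_lit 213) (nat_lit 178))) (XT.nd (nat_lit 78) (nat_lit 0) (nat_lit 0) (XT.lf (nat_lit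 0) (nat_lit 59794901735) (nat_lit 76) (nat_lit 567290606798) (nat_lit 76) (nat_lit 564462355930) (nat_lit 1) (nat_lit 4) (nat_lit 2) (nat_lit 5) (nat_lit 2) (nat_lit 4) (nat_lit 270) (nat_lit 213) (nat_lit 177)) (XT.lf (nat_lit 0) (nat_lit 75918802724) (nat_lit 76) (nat_lit 648329970120) (nat_lit 76) (nat_lit 645499294686) (nat_lit 1) (nat_lit 4) (nat_lit 2) (nat_lit 5) (nat_lit 2) (nat_lit 4) (nat_lit 271) (nat_lit 213) (nat_lit 176)))) (XT.nd (nat_lit 156) (nat_lit 0) (nat_lit 0) (XT.nd (nat_lit 78) (nat_lit 0) (nat_lit 0) (XT.lf (nat_lit 0) (nat_lit 94450034220) (nat_lit 76) (nat_lit 741530943708) (nat_lit 76) (nat_lit 738698159955) (nat_lit 1) (nat_lit 4) (nat_lit 2) (nat_lit 5) (nat_lit 2) (nat_lit 4) (nat_lit 272) (nat_lit 213) (nat_lit 175)) (XT.lf (nat_lit 0) (nat_lit 115751163795) (nat_lit 76) (nat_lit 848717024872) (nat_lit 76) (nat_lit 845882407798) (nat_lit 1) (nat_lit 4)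 (nat_lit 2) (nat_lit 5) (nat_lit 2) (nat_lit 4) (nat_lit 273) (nat_lit 213) (nat_lit 174))) (XT.nd (nat_lit 78) (nat_lit 0) (nat_lit 0) (XT.lf (nat_lit 0) (nat_lit 140238952679) (nat_lit 76) (nat_lit 971985332589) (nat_lit 76) (nat_lit 969149121324) (nat_lit 1) (nat_lit 4) (nat_lit 2) (nat_lit 5) (nat_lit 2) (nat_lit 4) (nat_lit 274) (nat_lit 213) (nat_lit 173)) (XT.nd (nat_lit 78) (nat_lit 0) (nat_lit 0) (XT.lf (nat_lit 0) (nat_lit 168392509787) (nat_lit 76) (nat_lit 1113747638099) (nat_lit 76) (nat_lit 1110910040580) (nat_lit 1) (nat_lit 4) (nat_lit 2) (nat_lit 5) (nat_lit 2) (nat_lit 4) (nat_lit 275) (nat_lit 213) (nat_lit 172)) (XT.lf (nat_lit 0) (nat_lit 200762665583) (nat_lit 76) (nat_lit 1276777551726) (nat_lit 76) (nat_lit 1273938748769) (nat_lit 1) (nat_lit 4) (nat_lit 2) (nat_lit 5) (nat_lit 2) (nat_lit 4) (nat_lit 276) (nat_lit 213) (nat_lit 171))))))))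
noncomputable def xc35 : XT := (XT.nd (nat_lit 1404) (nat_lit 0) (nat_lit 0) (XT.nd (nat_lit 702) (nat_lit 0) (nat_lit 0) (XT.nd (nat_lit 312) (nat_lit 0) (nat_lit 0) (XT.nd (nat_lit 156) (nat_lit 0) (nat_lit 0) (XT.nd (nat_lit 78) (nat_lit 0) (nat_lit 0) (XT.lf (nat_lit 0) (nat_lit 237982749202) (nat_lit 76) (nat_lit 1464264789172) (nat_lit 76) (nat_lit 1461424938008) (nat_lit 1) (nat_lit 4) (nat_lit 2) (nat_lit 5) (nat_lit 2) (nat_lit 4) (nat_lit 277) (nat_lit 213) (nat_lit 170)) (XT.lf (nat_lit 0) (nat_lit 280780979671) (nat_lit 76) (nat_lit 1679877578996) (nat_lit 76) (nat_lit 1677036816347) (nat_lit 1) (nat_lit 4) (nat_lit 2) (nat_lit 5) (nat_lit 2) (nat_lit 4) (nat_lit 278) (nat_lit 213) (nat_lit 169))) (XT.nd (nat_lit 78) (nat_lit 0) (nat_lit 0) (XT.lf (nat_lit 0) (nat_lit 329994713674) (nat_lit 76) (nat_lit 1927834432302) (nat_lit 76) (nat_lit 1924992877058) (nat_lit 1) (nat_lit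 4) (nat_lit 2) (nat_lit 5) (nat_lit 2) (nat_lit 4) (nat_lit 279) (nat_lit 213) (nat_lit 168)) (XT.lf (nat_lit 0) (nat_lit 386586828616) (nat_lit 76) (nat_lit 2212986678830) (nat_lit 76) (nat_lit 2210144434373) (nat_lit 1) (nat_lit 4) (nat_lit 2) (nat_lit 5) (nat_lit 2) (nat_lit 4) (nat_lit 280) (nat_lit 213) (nat_lit 167)))) (XT.nd (nat_lit 156) (nat_lit 0) (nat_lit 0) (XT.nd (nat_lit 78) (nat_lit 0) (nat_lit 0) (XT.lf (nat_lit 0) (nat_lit 451664561526) (nat_lit 76) (nat_lit 2540913384273) (nat_lit 76) (nat_lit 2538070540500) (nat_lit 1) (nat_lit 4) (nat_lit 2) (nat_lit 5) (nat_lit 2) (nat_lit 4) (nat_lit 281) (nat_lit 213) (nat_lit 166)) (XT.lf (nat_lit 0) (nat_lit 526501172398) (nat_lit 76) (nat_lit 2918030505910) (nat_lit 76) (nat_lit 2915187140993) (nat_lit 1) (nat_lit 4) (nat_lit 2) (nat_lit 5) (nat_lit 2) (nat_lit 4) (nat_lit 282) (nat_lit 213) (nat_lit 165))) (XT.nd (nat_lit 78)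 (nat_lit 0) (nat_lit 0) (XT.lf (nat_lit 0) (nat_lit 612560855792) (nat_lit 76) (nat_lit 3351716422208) (nat_lit 76) (nat_lit 3348872604122) (nat_lit 1) (nat_lit 4) (nat_lit 2) (nat_lit 5) (nat_lit 2) (nat_lit 4) (nat_lit 283) (nat_lit 213) (nat_lit 164)) (XT.nd (nat_lit 78) (nat_lit 0) (nat_lit 0) (XT.lf (nat_lit 0) (nat_lit 711527388122) (nat_lit 76) (nat_lit 3850456292400) (nat_lit 76) (nat_lit 3847612080254) (nat_lit 1) (nat_lit 4) (nat_lit 2) (nat_lit 5) (nat_lit 2) (nat_lit 4) (nat_lit 284) (nat_lit 213) (nat_lit 163)) (XT.lf (nat_lit 0) (nat_lit 825337071107) (nat_lit 76) (nat_lit 4424008070468) (nat_lit 76) (nat_lit 4421163515661) (nat_lit 1) (nat_lit 4) (nat_lit 2) (nat_lit 5) (nat_lit 2) (nat_lit 4) (nat_lit 285) (nat_lit 213) (nat_lit 162)))))) (XT.nd (nat_lit 312) (nat_lit 0) (nat_lit 0) (XT.nd (nat_lit 156) (nat_lit 0) (nat_lit 0) (XT.nd (nat_lit 78) (nat_lit 0) (nat_lit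 0) (XT.lf (nat_lit 0) (nat_lit 956216615936) (nat_lit 76) (nat_lit 5083593421634) (nat_lit 76) (nat_lit 5080748568862) (nat_lit 1) (nat_lit 4) (nat_lit 2) (nat_lit 5) (nat_lit 2) (nat_lit 4) (nat_lit 286) (nat_lit 213) (nat_lit 161)) (XT.lf (nat_lit 0) (nat_lit 1106726709357) (nat_lit 76) (nat_lit 5842117276682) (nat_lit 76) (nat_lit 5839272164809) (nat_lit 1) (nat_lit 4) (nat_lit 2) (nat_lit 5) (nat_lit 2) (nat_lit 4) (nat_lit 287) (nat_lit 213) (nat_lit 160))) (XT.nd (nat_lit 78) (nat_lit 0) (nat_lit 0) (XT.lf (nat_lit 0) (nat_lit 1279812114066) (nat_lit 76) (nat_lit 6714420319733) (nat_lit 76) (nat_lit 6711574982555) (nat_lit 1) (nat_lit 4) (nat_lit 2) (nat_lit 5) (nat_lit 2) (nat_lit 4) (nat_lit 288) (nat_lit 213) (nat_lit 159)) (XT.lf (nat_lit 0) (nat_lit 1478859283633) (nat_lit 76) (nat_lit 7717569349456) (nat_lit 76) (nat_lit 7714723816360) (nat_lit 1) (nat_lit 4) (nat_lit 2)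 (nat_lit 5) (nat_lit 2) (nat_lit 4) (nat_lit 289) (nat_lit 213) (nat_lit 158)))) (XT.nd (nat_lit 156) (nat_lit 0) (nat_lit 0) (XT.nd (nat_lit 78) (nat_lit 0) (nat_lit 0) (XT.lf (nat_lit 0) (nat_lit 1707762619203) (nat_lit 76) (nat_lit 8871191194691) (nat_lit 76) (nat_lit 8868345491233) (nat_lit 1) (nat_lit 4) (nat_lit 2) (nat_lit 5) (nat_lit 2) (nat_lit 4) (nat_lit 290) (nat_lit 213) (nat_lit 157)) (XT.lf (nat_lit 0) (nat_lit 1971000664298) (nat_lit 76) (nat_lit 10197856717630) (nat_lit 76) (nat_lit 10195010866030) (nat_lit 1) (nat_lit 4) (nat_lit 2) (nat_lit 5) (nat_lit 2) (nat_lit 4) (nat_lit 291) (nat_lit 213) (nat_lit 156))) (XT.nd (nat_lit 78) (nat_lit 0) (nat_lit 0) (XT.lf (nat_lit 0) (nat_lit 2273723728495) (nat_lit 76) (nat_lit 11723522417634) (nat_lit 76) (nat_lit 11720676437215) (nat_lit 1) (nat_lit 4) (nat_lit 2) (nat_lit 5) (nat_lit 2) (nat_lit 4) (nat_lit 292) (nat_lit 213)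 (nat_lit 155)) (XT.nd (nat_lit 78) (nat_lit 0) (nat_lit 0) (XT.lf (nat_lit 0) (nat_lit 2621854654355) (nat_lit 76) (nat_lit 13478038275789) (nat_lit 76) (nat_lit 13475192183354) (nat_lit 1) (nat_lit 4) (nat_lit 2) (nat_lit 5) (nat_lit 2) (nat_lit 4) (nat_lit 293) (nat_lit 213) (nat_lit 154)) (XT.lf (nat_lit 0) (nat_lit 3022204699122) (nat_lit 76) (nat_lit 15495731776278) (nat_lit 76) (nat_lit 15492885586437) (nat_lit 1) (nat_lit 4) (nat_lit 2) (nat_lit 5) (nat_lit 2) (nat_lit 4) (nat_lit 294) (nat_lit 213) (nat_lit 153))))))) (XT.nd (nat_lit 702) (nat_lit 0) (nat_lit 0) (XT.nd (nat_lit 312) (nat_lit 0) (nat_lit 0) (XT.nd (nat_lit 156) (nat_lit 0) (nat_lit 0) (XT.nd (nat_lit 78) (nat_lit 0) (nat_lit 0) (XT.lf (nat_lit 0) (nat_lit 3482606798456) (nat_lit 76) (nat_lit 17816079531065) (nat_lit 76) (nat_lit 17813233256524) (nat_lit 1) (nat_lit 4) (nat_lit 2) (nat_lit 5) (nat_lit 2) (nat_lit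 4) (nat_lit 295) (nat_lit 213) (nat_lit 152)) (XT.lf (nat_lit 0) (nat_lit 4012068819518) (nat_lit 76) (nat_lit 20484479648398) (nat_lit 76) (nat_lit 20481633300204) (nat_lit 1) (nat_lit 4) (nat_lit 2) (nat_lit 5) (nat_lit 2) (nat_lit 4) (nat_lit 296) (nat_lit 213) (nat_lit 151))) (XT.nd (nat_lit 78) (nat_lit 0) (nat_lit 0) (XT.lf (nat_lit 0) (nat_lit 4620949801849) (nat_lit 76) (nat_lit 23553139956658) (nat_lit 76) (nat_lit 23550293544419) (nat_lit 1) (nat_lit 4) (nat_lit 2) (nat_lit 5) (nat_lit 2) (nat_lit 4) (nat_lit 297) (nat_lit 213) (nat_lit 150)) (XT.lf (nat_lit 0) (nat_lit 5321162634234) (nat_lit 76) (nat_lit 27082099461877) (nat_lit 76) (nat_lit 27079252993946) (nat_lit 1) (nat_lit 4) (nat_lit 2) (nat_lit 5) (nat_lit 2) (nat_lit 4) (nat_lit 298) (nat_lit 213) (nat_lit 149)))) (XT.nd (nat_lit 156) (nat_lit 0) (nat_lit 0) (XT.nd (nat_lit 78) (nat_lit 0) (nat_lit 0) (XT.lf (nat_lit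 0) (nat_lit 6126407132960) (nat_lit 76) (nat_lit 31140403023940) (nat_lit 76) (nat_lit 31137556507581) (nat_lit 1) (nat_lit 4) (nat_lit 2) (nat_lit 5) (nat_lit 2) (nat_lit 4) (nat_lit 299) (nat_lit 213) (nat_lit 148)) (XT.lf (nat_lit 0) (nat_lit 7052438081697) (nat_lit 76) (nat_lit 35807452234278) (nat_lit 76) (nat_lit 35804605675808) (nat_lit 1) (nat_lit 4) (nat_lit 2) (nat_lit 5) (nat_lit 2) (nat_lit 4) (nat_lit 300) (nat_lit 213) (nat_lit 147))) (XT.nd (nat_lit 78) (nat_lit 0) (nat_lit 0) (XT.lf (nat_lit 0) (nat_lit 8117373477268) (nat_lit 76) (nat_lit 41174558925267) (nat_lit 76) (nat_lit 41171712330179) (nat_lit 1) (nat_lit 4) (nat_lit 2) (nat_lit 5) (nat_lit 2) (nat_lit 4) (nat_lit 301) (nat_lit 213) (nat_lit 146)) (XT.nd (nat_lit 78) (nat_lit 0) (nat_lit 0) (XT.lf (nat_lit 0) (nat_lit 9342049012196) (nat_lit 76) (nat_lit 47346731706080) (nat_lit 76) (nat_lit 47343885079149) (nat_lit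 1) (nat_lit 4) (nat_lit 2) (nat_lit 5) (nat_lit 2) (nat_lit 4) (nat_lit 302) (nat_lit 213) (nat_lit 145)) (XT.lf (nat_lit 0) (nat_lit 10750425729554) (nat_lit 76) (nat_lit 54444730478948) (nat_lit 76) (nat_lit 54441883824328) (nat_lit 1) (nat_lit 4) (nat_lit 2) (nat_lit 5) (nat_lit 2) (nat_lit 4) (nat_lit 303) (nat_lit 213) (nat_lit 144)))))) (XT.nd (nat_lit 28860) (nat_lit 0) (nat_lit 456) (XT.nd (nat_lit 156) (nat_lit 0) (nat_lit 0) (XT.nd (nat_lit 78) (nat_lit 0) (nat_lit 0) (XT.lf (nat_lit 0) (nat_lit 12370058825987) (nat_lit 76) (nat_lit 62607429132907) (nat_lit 76) (nat_lit 62604582454210) (nat_lit 1) (nat_lit 4) (nat_lit 2) (nat_lit 5) (nat_lit 2) (nat_lit 4) (nat_lit 304) (nat_lit 213) (nat_lit 143)) (XT.lf (nat_lit 0) (nat_lit 14232636775120) (nat_lit 76) (nat_lit 71994532641621) (nat_lit 76) (nat_lit 71991685941987) (nat_lit 1) (nat_lit 4) (nat_lit 2) (nat_lit 5) (nat_lit 2)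 (nat_lit 4) (nat_lit 305) (nat_lit 213) (nat_lit 142))) (XT.nd (nat_lit 28626) (nat_lit 0) (nat_lit 912) (XT.lf (nat_lit 0) (nat_lit 16374601319438) (nat_lit 76) (nat_lit 82789701725913) (nat_lit 76) (nat_lit 82786855008073) (nat_lit 1) (nat_lit 4) (nat_lit 2) (nat_lit 5) (nat_lit 2) (nat_lit 4) (nat_lit 306) (nat_lit 213) (nat_lit 141)) (XT.lf (nat_lit 0) (nat_lit 5100439984) (nat_lit 152) (nat_lit 70061850) (nat_lit 152) (nat_lit 70061850) (nat_lit 13) (nat_lit 4) (nat_lit 15) (nat_lit 5) (nat_lit 15) (nat_lit 4) (nat_lit 232) (nat_lit 214) (nat_lit 214)))) (XT.nd (nat_lit 156) (nat_lit 228) (nat_lit 0) (XT.nd (nat_lit 78) (nat_lit 76) (nat_lit 0) (XT.lf (nat_lit 0) (nat_lit 4100911617) (nat_lit 152) (nat_lit 3738574183) (nat_lit 0) (nat_lit 3451458629) (nat_lit 11) (nat_lit 5) (nat_lit 13) (nat_lit 4) (nat_lit 11) (nat_lit 4) (nat_lit 233) (nat_lit 214) (nat_lit 213)) (XT.lf (nat_lit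 0) (nat_lit 3975586575) (nat_lit 76) (nat_lit 4748497951) (nat_lit 76) (nat_lit 3534303235) (nat_lit 10) (nat_lit 4) (nat_lit 11) (nat_lit 5) (nat_lit 11) (nat_lit 4) (nat_lit 234) (nat_lit 214) (nat_lit 212))) (XT.nd (nat_lit 78) (nat_lit 152) (nat_lit 0) (XT.lf (nat_lit 0) (nat_lit 395114664) (nat_lit 152) (nat_lit 855777952) (nat_lit 76) (nat_lit 12149061415) (nat_lit 9) (nat_lit 5) (nat_lit 11) (nat_lit 5) (nat_lit 10) (nat_lit 4) (nat_lit 235) (nat_lit 214) (nat_lit 211)) (XT.nd (nat_lit 78) (nat_lit 76) (nat_lit 0) (XT.lf (nat_lit 0) (nat_lit 4625309184) (nat_lit 152) (nat_lit 7280876231) (nat_lit 0) (nat_lit 2771134956) (nat_lit 8) (nat_lit 5) (nat_lit 10) (nat_lit 4) (nat_lit 8) (nat_lit 4) (nat_lit 236) (nat_lit 214) (nat_lit 210)) (XT.lf (nat_lit 0) (nat_lit 134989097) (nat_lit 76) (nat_lit 9112704454) (nat_lit 76) (nat_lit 6935637310) (nat_lit 7) (nat_lit 4) (nat_lit 8) (nat_lit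 5) (nat_lit 8) (nat_lit 4) (nat_lit 237) (nat_lit 214) (nat_lit 209))))))))
noncomputable def xc36 : XT := (XT.nd (nat_lit 1404) (nat_lit 76) (nat_lit 0) (XT.nd (nat_lit 702) (nat_lit 152) (nat_lit 0) (XT.nd (nat_lit 312) (nat_lit 76) (nat_lit 0) (XT.nd (nat_lit 156) (nat_lit 76) (nat_lit 0) (XT.nd (nat_lit 78) (nat_lit 76) (nat_lit 0) (XT.lf (nat_lit 0) (nat_lit 8853006165) (nat_lit 76) (nat_lit 5756857341) (nat_lit 76) (nat_lit 3299013748) (nat_lit 7) (nat_lit 4) (nat_lit 8) (nat_lit 5) (nat_lit 8) (nat_lit 4) (nat_lit 238) (nat_lit 214) (nat_lit 208)) (XT.lf (nat_lit 0) (nat_lit 499595466) (nat_lit 152) (nat_lit 1627866773) (nat_lit 76) (nat_lit 17806494010) (nat_lit 6) (nat_lit 5) (nat_lit 8) (nat_lit 5) (nat_lit 7) (nat_lit 4) (nat_lit 239) (nat_lit 214) (nat_lit 207))) (XT.nd (nat_lit 78) (nat_lit 0) (nat_lit 0) (XT.lf (nat_lit 0) (nat_lit 4645436438) (nat_lit 152) (nat_lit 15465651592)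 (nat_lit 0) (nat_lit 2111258734) (nat_lit 5) (nat_lit 5) (nat_lit 7) (nat_lit 4) (nat_lit 5) (nat_lit 4) (nat_lit 240) (nat_lit 214) (nat_lit 206)) (XT.lf (nat_lit 0) (nat_lit 9343786959) (nat_lit 152) (nat_lit 8871881684) (nat_lit 0) (nat_lit 6649074409) (nat_lit 5) (nat_lit 5) (nat_lit 7) (nat_lit 4) (nat_lit 5) (nat_lit 4) (nat_lit 241) (nat_lit 214) (nat_lit 205)))) (XT.nd (nat_lit 156) (nat_lit 0) (nat_lit 0) (XT.nd (nat_lit 78) (nat_lit 76) (nat_lit 0) (XT.lf (nat_lit 0) (nat_lit 14520960139) (nat_lit 152) (nat_lit 1730073634) (nat_lit 0) (nat_lit 11686652070) (nat_lit 5) (nat_lit 5) (nat_lit 7) (nat_lit 4) (nat_lit 5) (nat_lit 4) (nat_lit 242) (nat_lit 214) (nat_lit 204)) (XT.lf (nat_lit 0) (nat_lit 6695591435) (nat_lit 76) (nat_lit 13859907223) (nat_lit 76) (nat_lit 10904211746) (nat_lit 4) (nat_lit 4) (nat_lit 5) (nat_lit 5) (nat_lit 5) (nat_lit 4) (nat_lit 243) (nat_lit 214)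 (nat_lit 203))) (XT.nd (nat_lit 78) (nat_lit 0) (nat_lit 0) (XT.lf (nat_lit 0) (nat_lit 16213472822) (nat_lit 76) (nat_lit 11186187138) (nat_lit 76) (nat_lit 8124937394) (nat_lit 4) (nat_lit 4) (nat_lit 5) (nat_lit 5) (nat_lit 5) (nat_lit 4) (nat_lit 244) (nat_lit 214) (nat_lit 202)) (XT.nd (nat_lit 78) (nat_lit 0) (nat_lit 0) (XT.lf (nat_lit 0) (nat_lit 26840714568) (nat_lit 76) (nat_lit 8267997271) (nat_lit 76) (nat_lit 5114961209) (nat_lit 4) (nat_lit 4) (nat_lit 5) (nat_lit 5) (nat_lit 5) (nat_lit 4) (nat_lit 245) (nat_lit 214) (nat_lit 201)) (XT.lf (nat_lit 0) (nat_lit 38785240967) (nat_lit 76) (nat_lit 5048242604) (nat_lit 76) (nat_lit 1815392351) (nat_lit 4) (nat_lit 4) (nat_lit 5) (nat_lit 5) (nat_lit 5) (nat_lit 4) (nat_lit 246) (nat_lit 214) (nat_lit 200)))))) (XT.nd (nat_lit 312) (nat_lit 0) (nat_lit 0) (XT.nd (nat_lit 156) (nat_lit 0) (nat_lit 0) (XT.nd (nat_lit 78) (nat_lit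 0) (nat_lit 0) (XT.lf (nat_lit 0) (nat_lit 327426650) (nat_lit 76) (nat_lit 1360796859) (nat_lit 152) (nat_lit 50204675860) (nat_lit 2) (nat_lit 5) (nat_lit 3) (nat_lit 5) (nat_lit 4) (nat_lit 4) (nat_lit 247) (nat_lit 214) (nat_lit 199)) (XT.lf (nat_lit 0) (nat_lit 5900111442) (nat_lit 152) (nat_lit 50129163792) (nat_lit 0) (nat_lit 2976107188) (nat_lit 2) (nat_lit 5) (nat_lit 4) (nat_lit 4) (nat_lit 2) (nat_lit 4) (nat_lit 248) (nat_lit 214) (nat_lit 198))) (XT.nd (nat_lit 78) (nat_lit 0) (nat_lit 0) (XT.lf (nat_lit 0) (nat_lit 10698565549) (nat_lit 152) (nat_lit 48764124938) (nat_lit 0) (nat_lit 7728927273) (nat_lit 2) (nat_lit 5) (nat_lit 4) (nat_lit 4) (nat_lit 2) (nat_lit 4) (nat_lit 249) (nat_lit 214) (nat_lit 197)) (XT.lf (nat_lit 0) (nat_lit 16121120934) (nat_lit 152) (nat_lit 47387301180) (nat_lit 0) (nat_lit 13111800899) (nat_lit 2) (nat_lit 5) (nat_lit 4) (nat_lit 4) (nat_lit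 2) (nat_lit 4) (nat_lit 250) (nat_lit 214) (nat_lit 196)))) (XT.nd (nat_lit 156) (nat_lit 0) (nat_lit 0) (XT.nd (nat_lit 78) (nat_lit 0) (nat_lit 0) (XT.lf (nat_lit 0) (nat_lit 22273871071) (nat_lit 152) (nat_lit 45971754662) (nat_lit 0) (nat_lit 19230045159) (nat_lit 2) (nat_lit 5) (nat_lit 4) (nat_lit 4) (nat_lit 2) (nat_lit 4) (nat_lit 251) (nat_lit 214) (nat_lit 195)) (XT.lf (nat_lit 0) (nat_lit 29277195854) (nat_lit 152) (nat_lit 44489789909) (nat_lit 0) (nat_lit 26203364831) (nat_lit 2) (nat_lit 5) (nat_lit 4) (nat_lit 4) (nat_lit 2) (nat_lit 4) (nat_lit 252) (nat_lit 214) (nat_lit 194))) (XT.nd (nat_lit 78) (nat_lit 0) (nat_lit 0) (XT.lf (nat_lit 0) (nat_lit 37268116855) (nat_lit 152) (nat_lit 42912411958) (nat_lit 0) (nat_lit 34168194432) (nat_lit 2) (nat_lit 5) (nat_lit 4) (nat_lit 4) (nat_lit 2) (nat_lit 4) (nat_lit 253) (nat_lit 214) (nat_lit 193)) (XT.nd (nat_lit 78) (nat_lit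 0) (nat_lit 0) (XT.lf (nat_lit 0) (nat_lit 46402978182) (nat_lit 152) (nat_lit 41208759066) (nat_lit 0) (nat_lit 43280367584) (nat_lit 2) (nat_lit 5) (nat_lit 4) (nat_lit 4) (nat_lit 2) (nat_lit 4) (nat_lit 254) (nat_lit 214) (nat_lit 192)) (XT.lf (nat_lit 0) (nat_lit 56860505380) (nat_lit 152) (nat_lit 39345498894) (nat_lit 0) (nat_lit 53718165935) (nat_lit 2) (nat_lit 5) (nat_lit 4) (nat_lit 4) (nat_lit 2) (nat_lit 4) (nat_lit 255) (nat_lit 214) (nat_lit 191))))))) (XT.nd (nat_lit 702) (nat_lit 76) (nat_lit 0) (XT.nd (nat_lit 312) (nat_lit 0) (nat_lit 0) (XT.nd (nat_lit 156) (nat_lit 0) (nat_lit 0) (XT.nd (nat_lit 78) (nat_lit 0) (nat_lit 0) (XT.lf (nat_lit 0) (nat_lit 68845302244) (nat_lit 152) (nat_lit 37286176353) (nat_lit 0) (nat_lit 65685807280) (nat_lit 2) (nat_lit 5) (nat_lit 4) (nat_lit 4) (nat_lit 2) (nat_lit 4) (nat_lit 256) (nat_lit 214) (nat_lit 190)) (XT.lf (nat_lit 0)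 (nat_lit 82591853929) (nat_lit 152) (nat_lit 34990500348) (nat_lit 0) (nat_lit 79417441122) (nat_lit 2) (nat_lit 5) (nat_lit 4) (nat_lit 4) (nat_lit 2) (nat_lit 4) (nat_lit 257) (nat_lit 214) (nat_lit 189))) (XT.nd (nat_lit 78) (nat_lit 0) (nat_lit 0) (XT.lf (nat_lit 0) (nat_lit 98369114708) (nat_lit 152) (nat_lit 32413555480) (nat_lit 0) (nat_lit 95181729864) (nat_lit 2) (nat_lit 5) (nat_lit 4) (nat_lit 4) (nat_lit 2) (nat_lit 4) (nat_lit 258) (nat_lit 214) (nat_lit 188)) (XT.lf (nat_lit 0) (nat_lit 116485770118) (nat_lit 152) (nat_lit 29504923262) (nat_lit 0) (nat_lit 113287105241) (nat_lit 2) (nat_lit 5) (nat_lit 4) (nat_lit 4) (nat_lit 2) (nat_lit 4) (nat_lit 259) (nat_lit 214) (nat_lit 187)))) (XT.nd (nat_lit 156) (nat_lit 0) (nat_lit 0) (XT.nd (nat_lit 78) (nat_lit 0) (nat_lit 0) (XT.lf (nat_lit 0) (nat_lit 137296276459) (nat_lit 152) (nat_lit 26207695673) (nat_lit 0) (nat_lit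 134087802859) (nat_lit 2) (nat_lit 5) (nat_lit 4) (nat_lit 4) (nat_lit 2) (nat_lit 4) (nat_lit 260) (nat_lit 214) (nat_lit 186)) (XT.lf (nat_lit 0) (nat_lit 161207795813) (nat_lit 152) (nat_lit 22457361737) (nat_lit 0) (nat_lit 157990792887) (nat_lit 2) (nat_lit 5) (nat_lit 4) (nat_lit 4) (nat_lit 2) (nat_lit 4) (nat_lit 261) (nat_lit 214) (nat_lit 185))) (XT.nd (nat_lit 78) (nat_lit 0) (nat_lit 0) (XT.lf (nat_lit 0) (nat_lit 188688162254) (nat_lit 152) (nat_lit 18180545357) (nat_lit 0) (nat_lit 185463742524) (nat_lit 2) (nat_lit 5) (nat_lit 4) (nat_lit 4) (nat_lit 2) (nat_lit 4) (nat_lit 262) (nat_lit 214) (nat_lit 184)) (XT.nd (nat_lit 78) (nat_lit 0) (nat_lit 0) (XT.lf (nat_lit 0) (nat_lit 220275035125) (nat_lit 152) (nat_lit 13293569689) (nat_lit 0) (nat_lit 217044166000) (nat_lit 2) (nat_lit 5) (nat_lit 4) (nat_lit 4) (nat_lit 2) (nat_lit 4) (nat_lit 263) (nat_lit 214) (nat_lit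 183)) (XT.lf (nat_lit 0) (nat_lit 256586418461) (nat_lit 152) (nat_lit 7700819994) (nat_lit 0) (nat_lit 253349941166) (nat_lit 2) (nat_lit 5) (nat_lit 4) (nat_lit 4) (nat_lit 2) (nat_lit 4) (nat_lit 264) (nat_lit 214) (nat_lit 182)))))) (XT.nd (nat_lit 312) (nat_lit 0) (nat_lit 0) (XT.nd (nat_lit 156) (nat_lit 0) (nat_lit 0) (XT.nd (nat_lit 78) (nat_lit 76) (nat_lit 0) (XT.lf (nat_lit 0) (nat_lit 298332752371) (nat_lit 152) (nat_lit 1292872906) (nat_lit 0) (nat_lit 295091398407) (nat_lit 2) (nat_lit 5) (nat_lit 4) (nat_lit 4) (nat_lit 2) (nat_lit 4) (nat_lit 265) (nat_lit 214) (nat_lit 181)) (XT.lf (nat_lit 0) (nat_lit 6647446067) (nat_lit 76) (nat_lit 339958623450) (nat_lit 76) (nat_lit 336713028904) (nat_lit 1) (nat_lit 4) (nat_lit 2) (nat_lit 5) (nat_lit 2) (nat_lit 4) (nat_lit 266) (nat_lit 214) (nat_lit 180))) (XT.nd (nat_lit 78) (nat_lit 0) (nat_lit 0) (XT.lf (nat_lit 0) (nat_lit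 15904429733) (nat_lit 76) (nat_lit 386273831480) (nat_lit 76) (nat_lit 383024549471) (nat_lit 1) (nat_lit 4) (nat_lit 2) (nat_lit 5) (nat_lit 2) (nat_lit 4) (nat_lit 267) (nat_lit 214) (nat_lit 179)) (XT.lf (nat_lit 0) (nat_lit 26532844045) (nat_lit 76) (nat_lit 439544998473) (nat_lit 76) (nat_lit 436292509975) (nat_lit 1) (nat_lit 4) (nat_lit 2) (nat_lit 5) (nat_lit 2) (nat_lit 4) (nat_lit 268) (nat_lit 214) (nat_lit 178)))) (XT.nd (nat_lit 156) (nat_lit 0) (nat_lit 0) (XT.nd (nat_lit 78) (nat_lit 0) (nat_lit 0) (XT.lf (nat_lit 0) (nat_lit 38740636240) (nat_lit 76) (nat_lit 500814386392) (nat_lit 76) (nat_lit 497559109643) (nat_lit 1) (nat_lit 4) (nat_lit 2) (nat_lit 5) (nat_lit 2) (nat_lit 4) (nat_lit 269) (nat_lit 214) (nat_lit 177)) (XT.lf (nat_lit 0) (nat_lit 52766654426) (nat_lit 76) (nat_lit 571280744132) (nat_lit 76) (nat_lit 568023042816) (nat_lit 1) (nat_lit 4) (nat_lit 2)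 (nat_lit 5) (nat_lit 2) (nat_lit 4) (nat_lit 270) (nat_lit 214) (nat_lit 176))) (XT.nd (nat_lit 78) (nat_lit 0) (nat_lit 0) (XT.lf (nat_lit 0) (nat_lit 68885320698) (nat_lit 76) (nat_lit 652322761300) (nat_lit 76) (nat_lit 649062951665) (nat_lit 1) (nat_lit 4) (nat_lit 2) (nat_lit 5) (nat_lit 2) (nat_lit 4) (nat_lit 271) (nat_lit 214) (nat_lit 175)) (XT.nd (nat_lit 78) (nat_lit 0) (nat_lit 0) (XT.lf (nat_lit 0) (nat_lit 87412000266) (nat_lit 76) (nat_lit 745526042580) (nat_lit 76) (nat_lit 742264399624) (nat_lit 1) (nat_lit 4) (nat_lit 2) (nat_lit 5) (nat_lit 2) (nat_lit 4) (nat_lit 272) (nat_lit 214) (nat_lit 174)) (XT.lf (nat_lit 0) (nat_lit 108709171643) (nat_lit 76) (nat_lit 852714130431) (nat_lit 76) (nat_lit 849450893284) (nat_lit 1) (nat_lit 4) (nat_lit 2) (nat_lit 5) (nat_lit 2) (nat_lit 4) (nat_lit 273) (nat_lit 214) (nat_lit 173))))))))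
noncomputable def xc37 : XT := (XT.nd (nat_lit 1404) (nat_lit 0) (nat_lit 0) (XT.nd (nat_lit 702) (nat_lit 0) (nat_lit 0) (XT.nd (nat_lit 312) (nat_lit 0) (nat_lit 0) (XT.nd (nat_lit 156) (nat_lit 0) (nat_lit 0) (XT.nd (nat_lit 78) (nat_lit 0) (nat_lit 0) (XT.lf (nat_lit 0) (nat_lit 133193518616) (nat_lit 76) (nat_lit 975984183095) (nat_lit 76) (nat_lit 972719559694) (nat_lit 1) (nat_lit 4) (nat_lit 2) (nat_lit 5) (nat_lit 2) (nat_lit 4) (nat_lit 274) (nat_lit 214) (nat_lit 172)) (XT.lf (nat_lit 0) (nat_lit 161344082757) (nat_lit 76) (nat_lit 1117748005949) (nat_lit 76) (nat_lit 1114482177110) (nat_lit 1) (nat_lit 4) (nat_lit 2) (nat_lit 5) (nat_lit 2) (nat_lit 4) (nat_lit 275) (nat_lit 214) (nat_lit 171))) (XT.nd (nat_lit 78) (nat_lit 0) (nat_lit 0) (XT.lf (nat_lit 0) (nat_lit 193711635973) (nat_lit 76) (nat_lit 1280779239007) (nat_lit 76) (nat_lit 1277512361960) (nat_lit 1) (nat_lit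 4) (nat_lit 2) (nat_lit 5) (nat_lit 2) (nat_lit 4) (nat_lit 276) (nat_lit 214) (nat_lit 170)) (XT.lf (nat_lit 0) (nat_lit 230929456479) (nat_lit 76) (nat_lit 1468267623783) (nat_lit 76) (nat_lit 1464999835253) (nat_lit 1) (nat_lit 4) (nat_lit 2) (nat_lit 5) (nat_lit 2) (nat_lit 4) (nat_lit 277) (nat_lit 214) (nat_lit 169)))) (XT.nd (nat_lit 156) (nat_lit 0) (nat_lit 0) (XT.nd (nat_lit 78) (nat_lit 0) (nat_lit 0) (XT.lf (nat_lit 0) (nat_lit 273725719025) (nat_lit 76) (nat_lit 1683881411286) (nat_lit 76) (nat_lit 1680612830160) (nat_lit 1) (nat_lit 4) (nat_lit 2) (nat_lit 5) (nat_lit 2) (nat_lit 4) (nat_lit 278) (nat_lit 214) (nat_lit 168)) (XT.lf (nat_lit 0) (nat_lit 322937741789) (nat_lit 76) (nat_lit 1931839132139) (nat_lit 76) (nat_lit 1928569861800) (nat_lit 1) (nat_lit 4) (nat_lit 2) (nat_lit 5) (nat_lit 2) (nat_lit 4) (nat_lit 279) (nat_lit 214) (nat_lit 167))) (XT.nd (nat_lit 78)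 (nat_lit 0) (nat_lit 0) (XT.lf (nat_lit 0) (nat_lit 379528368697) (nat_lit 76) (nat_lit 2216992133055) (nat_lit 76) (nat_lit 2213722263401) (nat_lit 1) (nat_lit 4) (nat_lit 2) (nat_lit 5) (nat_lit 2) (nat_lit 4) (nat_lit 280) (nat_lit 214) (nat_lit 166)) (XT.nd (nat_lit 78) (nat_lit 0) (nat_lit 0) (XT.lf (nat_lit 0) (nat_lit 444604807666) (nat_lit 76) (nat_lit 2544919494487) (nat_lit 76) (nat_lit 2541649103689) (nat_lit 1) (nat_lit 4) (nat_lit 2) (nat_lit 5) (nat_lit 2) (nat_lit 4) (nat_lit 281) (nat_lit 214) (nat_lit 165)) (XT.lf (nat_lit 0) (nat_lit 519440293371) (nat_lit 76) (nat_lit 2922037186550) (nat_lit 76) (nat_lit 2918766342583) (nat_lit 1) (nat_lit 4) (nat_lit 2) (nat_lit 5) (nat_lit 2) (nat_lit 4) (nat_lit 282) (nat_lit 214) (nat_lit 164)))))) (XT.nd (nat_lit 312) (nat_lit 0) (nat_lit 0) (XT.nd (nat_lit 156) (nat_lit 0) (nat_lit 0) (XT.nd (nat_lit 78) (nat_lit 0) (nat_lit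 0) (XT.lf (nat_lit 0) (nat_lit 605498998359) (nat_lit 76) (nat_lit 3355723598872) (nat_lit 76) (nat_lit 3352452360844) (nat_lit 1) (nat_lit 4) (nat_lit 2) (nat_lit 5) (nat_lit 2) (nat_lit 4) (nat_lit 283) (nat_lit 214) (nat_lit 163)) (XT.lf (nat_lit 0) (nat_lit 704464679900) (nat_lit 76) (nat_lit 3854463900388) (nat_lit 76) (nat_lit 3851192319700) (nat_lit 1) (nat_lit 4) (nat_lit 2) (nat_lit 5) (nat_lit 2) (nat_lit 4) (nat_lit 284) (nat_lit 214) (nat_lit 162))) (XT.nd (nat_lit 78) (nat_lit 0) (nat_lit 0) (XT.lf (nat_lit 0) (nat_lit 818273623070) (nat_lit 76) (nat_lit 4428016053520) (nat_lit 76) (nat_lit 4424744174866) (nat_lit 1) (nat_lit 4) (nat_lit 2) (nat_lit 5) (nat_lit 2) (nat_lit 4) (nat_lit 285) (nat_lit 214) (nat_lit 161)) (XT.lf (nat_lit 0) (nat_lit 949152524582) (nat_lit 76) (nat_lit 5087601730829) (nat_lit 76) (nat_lit 5084329593074) (nat_lit 1) (nat_lit 4) (nat_lit 2) (nat_lit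 5) (nat_lit 2) (nat_lit 4) (nat_lit 286) (nat_lit 214) (nat_lit 160)))) (XT.nd (nat_lit 156) (nat_lit 0) (nat_lit 0) (XT.nd (nat_lit 78) (nat_lit 0) (nat_lit 0) (XT.lf (nat_lit 0) (nat_lit 1099662058595) (nat_lit 76) (nat_lit 5846125869480) (nat_lit 76) (nat_lit 5842853506420) (nat_lit 1) (nat_lit 4) (nat_lit 2) (nat_lit 5) (nat_lit 2) (nat_lit 4) (nat_lit 287) (nat_lit 214) (nat_lit 159)) (XT.lf (nat_lit 0) (nat_lit 1272746976863) (nat_lit 76) (nat_lit 6718429159142) (nat_lit 76) (nat_lit 6715156600165) (nat_lit 1) (nat_lit 4) (nat_lit 2) (nat_lit 5) (nat_lit 2) (nat_lit 4) (nat_lit 288) (nat_lit 214) (nat_lit 158))) (XT.nd (nat_lit 78) (nat_lit 0) (nat_lit 0) (XT.lf (nat_lit 0) (nat_lit 1471793723439) (nat_lit 76) (nat_lit 7721578403308) (nat_lit 76) (nat_lit 7718305673968) (nat_lit 1) (nat_lit 4) (nat_lit 2) (nat_lit 5) (nat_lit 2) (nat_lit 4) (nat_lit 289) (nat_lit 214) (nat_lit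 157)) (XT.nd (nat_lit 78) (nat_lit 0) (nat_lit 0) (XT.lf (nat_lit 0) (nat_lit 1700696691190) (nat_lit 76) (nat_lit 8875200435017) (nat_lit 76) (nat_lit 8871927557536) (nat_lit 1) (nat_lit 4) (nat_lit 2) (nat_lit 5) (nat_lit 2) (nat_lit 4) (nat_lit 290) (nat_lit 214) (nat_lit 156)) (XT.lf (nat_lit 0) (nat_lit 1963934416442) (nat_lit 76) (nat_lit 10201866120107) (nat_lit 76) (nat_lit 10198593113806) (nat_lit 1) (nat_lit 4) (nat_lit 2) (nat_lit 5) (nat_lit 2) (nat_lit 4) (nat_lit 291) (nat_lit 214) (nat_lit 155))))))) (XT.nd (nat_lit 702) (nat_lit 0) (nat_lit 0) (XT.nd (nat_lit 312) (nat_lit 0) (nat_lit 0) (XT.nd (nat_lit 156) (nat_lit 0) (nat_lit 0) (XT.nd (nat_lit 78) (nat_lit 0) (nat_lit 0) (XT.lf (nat_lit 0) (nat_lit 2266657202515) (nat_lit 76) (nat_lit 11727531961111) (nat_lit 76) (nat_lit 11724258842794) (nat_lit 1) (nat_lit 4) (nat_lit 2) (nat_lit 5) (nat_lit 2) (nat_lit 4) (nat_lit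 292) (nat_lit 214) (nat_lit 154)) (XT.lf (nat_lit 0) (nat_lit 2614787886528) (nat_lit 76) (nat_lit 13482047941876) (nat_lit 76) (nat_lit 13478774726153) (nat_lit 1) (nat_lit 4) (nat_lit 2) (nat_lit 5) (nat_lit 2) (nat_lit 4) (nat_lit 293) (nat_lit 214) (nat_lit 153))) (XT.nd (nat_lit 78) (nat_lit 0) (nat_lit 0) (XT.lf (nat_lit 0) (nat_lit 3015137720994) (nat_lit 76) (nat_lit 15499741548981) (nat_lit 76) (nat_lit 15496468248558) (nat_lit 1) (nat_lit 4) (nat_lit 2) (nat_lit 5) (nat_lit 2) (nat_lit 4) (nat_lit 294) (nat_lit 214) (nat_lit 152)) (XT.lf (nat_lit 0) (nat_lit 3475539637457) (nat_lit 76) (nat_lit 17820089396479) (nat_lit 76) (nat_lit 17816816022403) (nat_lit 1) (nat_lit 4) (nat_lit 2) (nat_lit 5) (nat_lit 2) (nat_lit 4) (nat_lit 295) (nat_lit 214) (nat_lit 151)))) (XT.nd (nat_lit 156) (nat_lit 0) (nat_lit 0) (XT.nd (nat_lit 78) (nat_lit 0) (nat_lit 0) (XT.lf (nat_lit 0) (nat_lit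 4005001499500) (nat_lit 76) (nat_lit 20488489594429) (nat_lit 76) (nat_lit 20485216156307) (nat_lit 1) (nat_lit 4) (nat_lit 2) (nat_lit 5) (nat_lit 2) (nat_lit 4) (nat_lit 296) (nat_lit 214) (nat_lit 150)) (XT.lf (nat_lit 0) (nat_lit 4613882343554) (nat_lit 76) (nat_lit 23557149972791) (nat_lit 76) (nat_lit 23553876478978) (nat_lit 1) (nat_lit 4) (nat_lit 2) (nat_lit 5) (nat_lit 2) (nat_lit 4) (nat_lit 297) (nat_lit 214) (nat_lit 149))) (XT.nd (nat_lit 78) (nat_lit 0) (nat_lit 0) (XT.lf (nat_lit 0) (nat_lit 5314095055699) (nat_lit 76) (nat_lit 27086109538969) (nat_lit 76) (nat_lit 27082835996728) (nat_lit 1) (nat_lit 4) (nat_lit 2) (nat_lit 5) (nat_lit 2) (nat_lit 4) (nat_lit 298) (nat_lit 214) (nat_lit 148)) (XT.nd (nat_lit 78) (nat_lit 0) (nat_lit 0) (XT.lf (nat_lit 0) (nat_lit 6119339449867) (nat_lit 76) (nat_lit 31144413154039) (nat_lit 76) (nat_lit 31141139569687) (nat_lit 1) (nat_lit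 4) (nat_lit 2) (nat_lit 5) (nat_lit 2) (nat_lit 4) (nat_lit 299) (nat_lit 214) (nat_lit 147)) (XT.lf (nat_lit 0) (nat_lit 7045370307685) (nat_lit 76) (nat_lit 35811462410470) (nat_lit 76) (nat_lit 35808188789500) (nat_lit 1) (nat_lit 4) (nat_lit 2) (nat_lit 5) (nat_lit 2) (nat_lit 4) (nat_lit 300) (nat_lit 214) (nat_lit 146)))))) (XT.nd (nat_lit 312) (nat_lit 0) (nat_lit 0) (XT.nd (nat_lit 156) (nat_lit 0) (nat_lit 0) (XT.nd (nat_lit 78) (nat_lit 0) (nat_lit 0) (XT.lf (nat_lit 0) (nat_lit 8110305624196) (nat_lit 76) (nat_lit 41178569141541) (nat_lit 76) (nat_lit 41175295488728) (nat_lit 1) (nat_lit 4) (nat_lit 2) (nat_lit 5) (nat_lit 2) (nat_lit 4) (nat_lit 301) (nat_lit 214) (nat_lit 145)) (XT.lf (nat_lit 0) (nat_lit 9334981090375) (nat_lit 76) (nat_lit 47350741957206) (nat_lit 76) (nat_lit 47347468276705) (nat_lit 1) (nat_lit 4) (nat_lit 2) (nat_lit 5) (nat_lit 2) (nat_lit 4) (nat_lit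 302) (nat_lit 214) (nat_lit 144))) (XT.nd (nat_lit 78) (nat_lit 0) (nat_lit 0) (XT.lf (nat_lit 0) (nat_lit 10743357747953) (nat_lit 76) (nat_lit 54448740760382) (nat_lit 76) (nat_lit 54445467055803) (nat_lit 1) (nat_lit 4) (nat_lit 2) (nat_lit 5) (nat_lit 2) (nat_lit 4) (nat_lit 303) (nat_lit 214) (nat_lit 143)) (XT.lf (nat_lit 0) (nat_lit 12362990792402) (nat_lit 76) (nat_lit 62611439440695) (nat_lit 76) (nat_lit 62608165715179) (nat_lit 1) (nat_lit 4) (nat_lit 2) (nat_lit 5) (nat_lit 2) (nat_lit 4) (nat_lit 304) (nat_lit 214) (nat_lit 142)))) (XT.nd (nat_lit 28626) (nat_lit 0) (nat_lit 760) (XT.nd (nat_lit 28548) (nat_lit 0) (nat_lit 1064) (XT.lf (nat_lit 0) (nat_lit 14225568696333) (nat_lit 76) (nat_lit 71998542972325) (nat_lit 76) (nat_lit 71995269228604) (nat_lit 1) (nat_lit 4) (nat_lit 2) (nat_lit 5) (nat_lit 2) (nat_lit 4) (nat_lit 305) (nat_lit 214) (nat_lit 141)) (XT.lf (nat_lit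 0) (nat_lit 1173868703) (nat_lit 152) (nat_lit 2209296184) (nat_lit 0) (nat_lit 1173868703) (nat_lit 15) (nat_lit 5) (nat_lit 17) (nat_lit 4) (nat_lit 15) (nat_lit 4) (nat_lit 230) (nat_lit 215) (nat_lit 215))) (XT.nd (nat_lit 78) (nat_lit 152) (nat_lit 0) (XT.lf (nat_lit 0) (nat_lit 2317105259) (nat_lit 152) (nat_lit 4145812694) (nat_lit 152) (nat_lit 3286911117) (nat_lit 13) (nat_lit 4) (nat_lit 15) (nat_lit 5) (nat_lit 15) (nat_lit 4) (nat_lit 231) (nat_lit 215) (nat_lit 214)) (XT.nd (nat_lit 78) (nat_lit 76) (nat_lit 0) (XT.lf (nat_lit 0) (nat_lit 447829963) (nat_lit 228) (nat_lit 642938090) (nat_lit 76) (nat_lit 9417582371) (nat_lit 12) (nat_lit 5) (nat_lit 15) (nat_lit 5) (nat_lit 13) (nat_lit 4) (nat_lit 232) (nat_lit 215) (nat_lit 213)) (XT.lf (nat_lit 0) (nat_lit 4421470844) (nat_lit 152) (nat_lit 4474218989) (nat_lit 0) (nat_lit 2460405192) (nat_lit 11) (nat_lit 5) (nat_lit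 13) (nat_lit 4) (nat_lit 11) (nat_lit 4) (nat_lit 233) (nat_lit 215) (nat_lit 212))))))))
noncomputable def xc38 : XT := (XT.nd (nat_lit 1404) (nat_lit 76) (nat_lit 0) (XT.nd (nat_lit 702) (nat_lit 228) (nat_lit 0) (XT.nd (nat_lit 312) (nat_lit 228) (nat_lit 0) (XT.nd (nat_lit 156) (nat_lit 76) (nat_lit 0) (XT.nd (nat_lit 78) (nat_lit 76) (nat_lit 0) (XT.lf (nat_lit 0) (nat_lit 2841441578) (nat_lit 76) (nat_lit 5983818331) (nat_lit 76) (nat_lit 3531672915) (nat_lit 10) (nat_lit 4) (nat_lit 11) (nat_lit 5) (nat_lit 11) (nat_lit 4) (nat_lit 234) (nat_lit 215) (nat_lit 211)) (XT.lf (nat_lit 0) (nat_lit 227733829) (nat_lit 152) (nat_lit 2389543565) (nat_lit 76) (nat_lit 10907040070) (nat_lit 9) (nat_lit 5) (nat_lit 11) (nat_lit 5) (nat_lit 10) (nat_lit 4) (nat_lit 235) (nat_lit 215) (nat_lit 210))) (XT.nd (nat_lit 78) (nat_lit 0) (nat_lit 0) (XT.lf (nat_lit 0) (nat_lit 4163494538) (nat_lit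 152) (nat_lit 9345700071) (nat_lit 0) (nat_lit 1336974406) (nat_lit 8) (nat_lit 5) (nat_lit 10) (nat_lit 4) (nat_lit 8) (nat_lit 4) (nat_lit 236) (nat_lit 215) (nat_lit 209)) (XT.lf (nat_lit 0) (nat_lit 8636969058) (nat_lit 152) (nat_lit 2208152830) (nat_lit 0) (nat_lit 5529672477) (nat_lit 8) (nat_lit 5) (nat_lit 10) (nat_lit 4) (nat_lit 8) (nat_lit 4) (nat_lit 237) (nat_lit 215) (nat_lit 208)))) (XT.nd (nat_lit 156) (nat_lit 152) (nat_lit 0) (XT.nd (nat_lit 78) (nat_lit 0) (nat_lit 0) (XT.lf (nat_lit 0) (nat_lit 6039871623) (nat_lit 76) (nat_lit 7723744804) (nat_lit 76) (nat_lit 4372294790) (nat_lit 7) (nat_lit 4) (nat_lit 8) (nat_lit 5) (nat_lit 8) (nat_lit 4) (nat_lit 238) (nat_lit 215) (nat_lit 207)) (XT.lf (nat_lit 0) (nat_lit 15298030274) (nat_lit 76) (nat_lit 4223981319) (nat_lit 76) (nat_lit 660223970) (nat_lit 7) (nat_lit 4) (nat_lit 8) (nat_lit 5) (nat_lit 8) (nat_lit 4) (nat_lit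 239) (nat_lit 215) (nat_lit 206))) (XT.nd (nat_lit 78) (nat_lit 0) (nat_lit 0) (XT.lf (nat_lit 0) (nat_lit 3099824537) (nat_lit 76) (nat_lit 85383349) (nat_lit 152) (nat_lit 19343556149) (nat_lit 5) (nat_lit 5) (nat_lit 6) (nat_lit 5) (nat_lit 7) (nat_lit 4) (nat_lit 240) (nat_lit 215) (nat_lit 205)) (XT.nd (nat_lit 78) (nat_lit 0) (nat_lit 0) (XT.lf (nat_lit 0) (nat_lit 7774939182) (nat_lit 152) (nat_lit 13036763046) (nat_lit 0) (nat_lit 4375889385) (nat_lit 5) (nat_lit 5) (nat_lit 7) (nat_lit 4) (nat_lit 5) (nat_lit 4) (nat_lit 241) (nat_lit 215) (nat_lit 204)) (XT.lf (nat_lit 0) (nat_lit 12860735245) (nat_lit 152) (nat_lit 6073328037) (nat_lit 0) (nat_lit 9340298041) (nat_lit 5) (nat_lit 5) (nat_lit 7) (nat_lit 4) (nat_lit 5) (nat_lit 4) (nat_lit 242) (nat_lit 215) (nat_lit 203)))))) (XT.nd (nat_lit 312) (nat_lit 152) (nat_lit 0) (XT.nd (nat_lit 156) (nat_lit 0) (nat_lit 0) (XT.nd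 (nat_lit 78) (nat_lit 0) (nat_lit 0) (XT.lf (nat_lit 0) (nat_lit 1757617449) (nat_lit 76) (nat_lit 16853726980) (nat_lit 76) (nat_lit 13227735509) (nat_lit 4) (nat_lit 4) (nat_lit 5) (nat_lit 5) (nat_lit 5) (nat_lit 4) (nat_lit 243) (nat_lit 215) (nat_lit 202)) (XT.lf (nat_lit 0) (nat_lit 11127442162) (nat_lit 76) (nat_lit 14252838631) (nat_lit 76) (nat_lit 10535060840) (nat_lit 4) (nat_lit 4) (nat_lit 5) (nat_lit 5) (nat_lit 5) (nat_lit 4) (nat_lit 244) (nat_lit 215) (nat_lit 201))) (XT.nd (nat_lit 78) (nat_lit 0) (nat_lit 0) (XT.lf (nat_lit 0) (nat_lit 21625938973) (nat_lit 76) (nat_lit 11397980708) (nat_lit 76) (nat_lit 7600388727) (nat_lit 4) (nat_lit 4) (nat_lit 5) (nat_lit 5) (nat_lit 5) (nat_lit 4) (nat_lit 245) (nat_lit 215) (nat_lit 200)) (XT.lf (nat_lit 0) (nat_lit 33458513255) (nat_lit 76) (nat_lit 8233297297) (nat_lit 76) (nat_lit 4366301671) (nat_lit 4) (nat_lit 4) (nat_lit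 5) (nat_lit 5) (nat_lit 5) (nat_lit 4) (nat_lit 246) (nat_lit 215) (nat_lit 199)))) (XT.nd (nat_lit 156) (nat_lit 0) (nat_lit 0) (XT.nd (nat_lit 78) (nat_lit 152) (nat_lit 0) (XT.lf (nat_lit 0) (nat_lit 46856671897) (nat_lit 76) (nat_lit 4696870677) (nat_lit 76) (nat_lit 769524057) (nat_lit 4) (nat_lit 4) (nat_lit 5) (nat_lit 5) (nat_lit 5) (nat_lit 4) (nat_lit 247) (nat_lit 215) (nat_lit 198)) (XT.lf (nat_lit 0) (nat_lit 2640915819) (nat_lit 76) (nat_lit 438498862) (nat_lit 152) (nat_lit 56425678530) (nat_lit 2) (nat_lit 5) (nat_lit 3) (nat_lit 5) (nat_lit 4) (nat_lit 4) (nat_lit 248) (nat_lit 215) (nat_lit 197))) (XT.nd (nat_lit 78) (nat_lit 0) (nat_lit 0) (XT.lf (nat_lit 0) (nat_lit 7815215282) (nat_lit 152) (nat_lit 55570735154) (nat_lit 0) (nat_lit 4314815483) (nat_lit 2) (nat_lit 5) (nat_lit 4) (nat_lit 4) (nat_lit 2) (nat_lit 4) (nat_lit 249) (nat_lit 215) (nat_lit 196)) (XT.nd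 (nat_lit 78) (nat_lit 0) (nat_lit 0) (XT.lf (nat_lit 0) (nat_lit 13199078315) (nat_lit 152) (nat_lit 54271958282) (nat_lit 0) (nat_lit 9664172639) (nat_lit 2) (nat_lit 5) (nat_lit 4) (nat_lit 4) (nat_lit 2) (nat_lit 4) (nat_lit 250) (nat_lit 215) (nat_lit 195)) (XT.lf (nat_lit 0) (nat_lit 19318182929) (nat_lit 152) (nat_lit 52924278621) (nat_lit 0) (nat_lit 15753272143) (nat_lit 2) (nat_lit 5) (nat_lit 4) (nat_lit 4) (nat_lit 2) (nat_lit 4) (nat_lit 251) (nat_lit 215) (nat_lit 194))))))) (XT.nd (nat_lit 702) (nat_lit 76) (nat_lit 0) (XT.nd (nat_lit 312) (nat_lit 0) (nat_lit 0) (XT.nd (nat_lit 156) (nat_lit 0) (nat_lit 0) (XT.nd (nat_lit 78) (nat_lit 0) (nat_lit 0) (XT.lf (nat_lit 0) (nat_lit 26292250736) (nat_lit 152) (nat_lit 51501328526) (nat_lit 0) (nat_lit 22701248549) (nat_lit 2) (nat_lit 5) (nat_lit 4) (nat_lit 4) (nat_lit 2) (nat_lit 4) (nat_lit 252) (nat_lit 215) (nat_lit 193))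 (XT.lf (nat_lit 0) (nat_lit 34257730888) (nat_lit 152) (nat_lit 49975267668) (nat_lit 0) (nat_lit 30644040527) (nat_lit 2) (nat_lit 5) (nat_lit 4) (nat_lit 4) (nat_lit 2) (nat_lit 4) (nat_lit 253) (nat_lit 215) (nat_lit 192))) (XT.nd (nat_lit 78) (nat_lit 0) (nat_lit 0) (XT.lf (nat_lit 0) (nat_lit 43370469737) (nat_lit 152) (nat_lit 48316238337) (nat_lit 0) (nat_lit 39737050528) (nat_lit 2) (nat_lit 5) (nat_lit 4) (nat_lit 4) (nat_lit 2) (nat_lit 4) (nat_lit 254) (nat_lit 215) (nat_lit 191)) (XT.lf (nat_lit 0) (nat_lit 53808759999) (nat_lit 152) (nat_lit 46491781261) (nat_lit 0) (nat_lit 50158185271) (nat_lit 2) (nat_lit 5) (nat_lit 4) (nat_lit 4) (nat_lit 2) (nat_lit 4) (nat_lit 255) (nat_lit 215) (nat_lit 190)))) (XT.nd (nat_lit 156) (nat_lit 0) (nat_lit 0) (XT.nd (nat_lit 78) (nat_lit 0) (nat_lit 0) (XT.lf (nat_lit 0) (nat_lit 65776829091) (nat_lit 152) (nat_lit 44466200542) (nat_lit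 0) (nat_lit 62111336520) (nat_lit 2) (nat_lit 5) (nat_lit 4) (nat_lit 4) (nat_lit 2) (nat_lit 4) (nat_lit 256) (nat_lit 215) (nat_lit 189)) (XT.lf (nat_lit 0) (nat_lit 79508834889) (nat_lit 152) (nat_lit 42199865252) (nat_lit 0) (nat_lit 75830370280) (nat_lit 2) (nat_lit 5) (nat_lit 4) (nat_lit 4) (nat_lit 2) (nat_lit 4) (nat_lit 257) (nat_lit 215) (nat_lit 188))) (XT.nd (nat_lit 78) (nat_lit 0) (nat_lit 0) (XT.lf (nat_lit 0) (nat_lit 95273447069) (nat_lit 152) (nat_lit 39648434049) (nat_lit 0) (nat_lit 91583702429) (nat_lit 2) (nat_lit 5) (nat_lit 4) (nat_lit 4) (nat_lit 2) (nat_lit 4) (nat_lit 258) (nat_lit 215) (nat_lit 187)) (XT.nd (nat_lit 78) (nat_lit 0) (nat_lit 0) (XT.lf (nat_lit 0) (nat_lit 113379103698) (nat_lit 152) (nat_lit 36761987627) (nat_lit 0) (nat_lit 109679550333) (nat_lit 2) (nat_lit 5) (nat_lit 4) (nat_lit 4) (nat_lit 2) (nat_lit 4) (nat_lit 259) (nat_lit 215) (nat_lit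 186)) (XT.lf (nat_lit 0) (nat_lit 134180045881) (nat_lit 152) (nat_lit 33484052034) (nat_lit 0) (nat_lit 130471963192) (nat_lit 2) (nat_lit 5) (nat_lit 4) (nat_lit 4) (nat_lit 2) (nat_lit 4) (nat_lit 260) (nat_lit 215) (nat_lit 185)))))) (XT.nd (nat_lit 312) (nat_lit 76) (nat_lit 0) (XT.nd (nat_lit 156) (nat_lit 0) (nat_lit 0) (XT.nd (nat_lit 78) (nat_lit 0) (nat_lit 0) (XT.lf (nat_lit 0) (nat_lit 158083248577) (nat_lit 152) (nat_lit 29750493748) (nat_lit 0) (nat_lit 154367749083) (nat_lit 2) (nat_lit 5) (nat_lit 4) (nat_lit 4) (nat_lit 2) (nat_lit 4) (nat_lit 261) (nat_lit 215) (nat_lit 184)) (XT.lf (nat_lit 0) (nat_lit 185556383141) (nat_lit 152) (nat_lit 25488264888) (nat_lit 0) (nat_lit 181834434251) (nat_lit 2) (nat_lit 5) (nat_lit 4) (nat_lit 4) (nat_lit 2) (nat_lit 4) (nat_lit 262) (nat_lit 215) (nat_lit 183))) (XT.nd (nat_lit 78) (nat_lit 0) (nat_lit 0) (XT.lf (nat_lit 0) (nat_lit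 217136967423) (nat_lit 152) (nat_lit 20613974022) (nat_lit 0) (nat_lit 213409410364) (nat_lit 2) (nat_lit 5) (nat_lit 4) (nat_lit 4) (nat_lit 2) (nat_lit 4) (nat_lit 263) (nat_lit 215) (nat_lit 182)) (XT.lf (nat_lit 0) (nat_lit 253442882421) (nat_lit 152) (nat_lit 15032254588) (nat_lit 0) (nat_lit 249710448693) (nat_lit 2) (nat_lit 5) (nat_lit 4) (nat_lit 4) (nat_lit 2) (nat_lit 4) (nat_lit 264) (nat_lit 215) (nat_lit 181)))) (XT.nd (nat_lit 156) (nat_lit 76) (nat_lit 0) (XT.nd (nat_lit 78) (nat_lit 0) (nat_lit 0) (XT.lf (nat_lit 0) (nat_lit 295184461254) (nat_lit 152) (nat_lit 8633899032) (nat_lit 0) (nat_lit 291447786944) (nat_lit 2) (nat_lit 5) (nat_lit 4) (nat_lit 4) (nat_lit 2) (nat_lit 4) (nat_lit 265) (nat_lit 215) (nat_lit 180)) (XT.lf (nat_lit 0) (nat_lit 343178386986) (nat_lit 152) (nat_lit 1293722137) (nat_lit 0) (nat_lit 339438025213) (nat_lit 2) (nat_lit 5) (nat_lit 4) (nat_lit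 4) (nat_lit 2) (nat_lit 4) (nat_lit 266) (nat_lit 215) (nat_lit 179))) (XT.nd (nat_lit 78) (nat_lit 0) (nat_lit 0) (XT.lf (nat_lit 0) (nat_lit 7828868242) (nat_lit 76) (nat_lit 390858979704) (nat_lit 76) (nat_lit 387115411442) (nat_lit 1) (nat_lit 4) (nat_lit 2) (nat_lit 5) (nat_lit 2) (nat_lit 4) (nat_lit 267) (nat_lit 215) (nat_lit 178)) (XT.nd (nat_lit 78) (nat_lit 0) (nat_lit 0) (XT.lf (nat_lit 0) (nat_lit 18450359640) (nat_lit 76) (nat_lit 444133656408) (nat_lit 76) (nat_lit 440387299894) (nat_lit 1) (nat_lit 4) (nat_lit 2) (nat_lit 5) (nat_lit 2) (nat_lit 4) (nat_lit 268) (nat_lit 215) (nat_lit 177)) (XT.lf (nat_lit 0) (nat_lit 30652131911) (nat_lit 76) (nat_lit 505406096249) (nat_lit 76) (nat_lit 501657315169) (nat_lit 1) (nat_lit 4) (nat_lit 2) (nat_lit 5) (nat_lit 2) (nat_lit 4) (nat_lit 269) (nat_lit 215) (nat_lit 176))))))))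
noncomputable def xc39 : XT := (XT.nd (nat_lit 1404) (nat_lit 0) (nat_lit 0) (XT.nd (nat_lit 702) (nat_lit 0) (nat_lit 0) (XT.nd (nat_lit 312) (nat_lit 0) (nat_lit 0) (XT.nd (nat_lit 156) (nat_lit 0) (nat_lit 0) (XT.nd (nat_lit 78) (nat_lit 0) (nat_lit 0) (XT.lf (nat_lit 0) (nat_lit 44672915380) (nat_lit 76) (nat_lit 575875107834) (nat_lit 76) (nat_lit 572124218435) (nat_lit 1) (nat_lit 4) (nat_lit 2) (nat_lit 5) (nat_lit 2) (nat_lit 4) (nat_lit 270) (nat_lit 215) (nat_lit 175)) (XT.lf (nat_lit 0) (nat_lit 60787029724) (nat_lit 76) (nat_lit 656919432693) (nat_lit 76) (nat_lit 653166709974) (nat_lit 1) (nat_lit 4) (nat_lit 2) (nat_lit 5) (nat_lit 2) (nat_lit 4) (nat_lit 271) (nat_lit 215) (nat_lit 174))) (XT.nd (nat_lit 78) (nat_lit 0) (nat_lit 0) (XT.lf (nat_lit 0) (nat_lit 79309751093) (nat_lit 76) (nat_lit 750124720661) (nat_lit 76) (nat_lit 746370403750) (nat_lit 1) (nat_lit 4) (nat_lit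 2) (nat_lit 5) (nat_lit 2) (nat_lit 4) (nat_lit 272) (nat_lit 215) (nat_lit 173)) (XT.lf (nat_lit 0) (nat_lit 100603480558) (nat_lit 76) (nat_lit 857314553459) (nat_lit 76) (nat_lit 853558850294) (nat_lit 1) (nat_lit 4) (nat_lit 2) (nat_lit 5) (nat_lit 2) (nat_lit 4) (nat_lit 273) (nat_lit 215) (nat_lit 172)))) (XT.nd (nat_lit 156) (nat_lit 0) (nat_lit 0) (XT.nd (nat_lit 78) (nat_lit 0) (nat_lit 0) (XT.lf (nat_lit 0) (nat_lit 125084834565) (nat_lit 76) (nat_lit 980586123467) (nat_lit 76) (nat_lit 976829214864) (nat_lit 1) (nat_lit 4) (nat_lit 2) (nat_lit 5) (nat_lit 2) (nat_lit 4) (nat_lit 274) (nat_lit 215) (nat_lit 171)) (XT.lf (nat_lit 0) (nat_lit 153232796126) (nat_lit 76) (nat_lit 1122351265752) (nat_lit 76) (nat_lit 1118593308942) (nat_lit 1) (nat_lit 4) (nat_lit 2) (nat_lit 5) (nat_lit 2) (nat_lit 4) (nat_lit 275) (nat_lit 215) (nat_lit 170))) (XT.nd (nat_lit 78) (nat_lit 0) (nat_lit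 0) (XT.lf (nat_lit 0) (nat_lit 185598086229) (nat_lit 76) (nat_lit 1285383646140) (nat_lit 76) (nat_lit 1281624777845) (nat_lit 1) (nat_lit 4) (nat_lit 2) (nat_lit 5) (nat_lit 2) (nat_lit 4) (nat_lit 276) (nat_lit 215) (nat_lit 169)) (XT.nd (nat_lit 78) (nat_lit 0) (nat_lit 0) (XT.lf (nat_lit 0) (nat_lit 222813938812) (nat_lit 76) (nat_lit 1472873028595) (nat_lit 76) (nat_lit 1469113367706) (nat_lit 1) (nat_lit 4) (nat_lit 2) (nat_lit 5) (nat_lit 2) (nat_lit 4) (nat_lit 277) (nat_lit 215) (nat_lit 168)) (XT.lf (nat_lit 0) (nat_lit 265608490119) (nat_lit 76) (nat_lit 1688487683644) (nat_lit 76) (nat_lit 1684727333542) (nat_lit 1) (nat_lit 4) (nat_lit 2) (nat_lit 5) (nat_lit 2) (nat_lit 4) (nat_lit 278) (nat_lit 215) (nat_lit 167)))))) (XT.nd (nat_lit 312) (nat_lit 0) (nat_lit 0) (XT.nd (nat_lit 156) (nat_lit 0) (nat_lit 0) (XT.nd (nat_lit 78) (nat_lit 0) (nat_lit 0) (XT.lf (nat_lit 0)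 (nat_lit 314819024850) (nat_lit 76) (nat_lit 1936446158886) (nat_lit 76) (nat_lit 1932685209467) (nat_lit 1) (nat_lit 4) (nat_lit 2) (nat_lit 5) (nat_lit 2) (nat_lit 4) (nat_lit 279) (nat_lit 215) (nat_lit 166)) (XT.lf (nat_lit 0) (nat_lit 371408357816) (nat_lit 76) (nat_lit 2221599815792) (nat_lit 76) (nat_lit 2217838345230) (nat_lit 1) (nat_lit 4) (nat_lit 2) (nat_lit 5) (nat_lit 2) (nat_lit 4) (nat_lit 280) (nat_lit 215) (nat_lit 165))) (XT.nd (nat_lit 78) (nat_lit 0) (nat_lit 0) (XT.lf (nat_lit 0) (nat_lit 436483671618) (nat_lit 76) (nat_lit 2549527747650) (nat_lit 76) (nat_lit 2545765823919) (nat_lit 1) (nat_lit 4) (nat_lit 2) (nat_lit 5) (nat_lit 2) (nat_lit 4) (nat_lit 281) (nat_lit 215) (nat_lit 164)) (XT.lf (nat_lit 0) (nat_lit 511318178917) (nat_lit 76) (nat_lit 2926645935736) (nat_lit 76) (nat_lit 2922883617945) (nat_lit 1) (nat_lit 4) (nat_lit 2) (nat_lit 5) (nat_lit 2) (nat_lit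 4) (nat_lit 282) (nat_lit 215) (nat_lit 163)))) (XT.nd (nat_lit 156) (nat_lit 0) (nat_lit 0) (XT.nd (nat_lit 78) (nat_lit 0) (nat_lit 0) (XT.lf (nat_lit 0) (nat_lit 597376033116) (nat_lit 76) (nat_lit 3360332779381) (nat_lit 76) (nat_lit 3356570118929) (nat_lit 1) (nat_lit 4) (nat_lit 2) (nat_lit 5) (nat_lit 2) (nat_lit 4) (nat_lit 283) (nat_lit 215) (nat_lit 162)) (XT.lf (nat_lit 0) (nat_lit 696340974843) (nat_lit 76) (nat_lit 3859073455962) (nat_lit 76) (nat_lit 3855310497544) (nat_lit 1) (nat_lit 4) (nat_lit 2) (nat_lit 5) (nat_lit 2) (nat_lit 4) (nat_lit 284) (nat_lit 215) (nat_lit 161))) (XT.nd (nat_lit 78) (nat_lit 0) (nat_lit 0) (XT.lf (nat_lit 0) (nat_lit 810149274694) (nat_lit 76) (nat_lit 4432625935237) (nat_lit 76) (nat_lit 4428862717718) (nat_lit 1) (nat_lit 4) (nat_lit 2) (nat_lit 5) (nat_lit 2) (nat_lit 4) (nat_lit 285) (nat_lit 215) (nat_lit 160)) (XT.nd (nat_lit 78) (nat_lit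 0) (nat_lit 0) (XT.lf (nat_lit 0) (nat_lit 941027616799) (nat_lit 76) (nat_lit 5092211896148) (nat_lit 76) (nat_lit 5088448453325) (nat_lit 1) (nat_lit 4) (nat_lit 2) (nat_lit 5) (nat_lit 2) (nat_lit 4) (nat_lit 286) (nat_lit 215) (nat_lit 159)) (XT.lf (nat_lit 0) (nat_lit 1091536664372) (nat_lit 76) (nat_lit 5850736281410) (nat_lit 76) (nat_lit 5846972642669) (nat_lit 1) (nat_lit 4) (nat_lit 2) (nat_lit 5) (nat_lit 2) (nat_lit 4) (nat_lit 287) (nat_lit 215) (nat_lit 158))))))) (XT.nd (nat_lit 702) (nat_lit 0) (nat_lit 0) (XT.nd (nat_lit 312) (nat_lit 0) (nat_lit 0) (XT.nd (nat_lit 156) (nat_lit 0) (nat_lit 0) (XT.nd (nat_lit 78) (nat_lit 0) (nat_lit 0) (XT.lf (nat_lit 0) (nat_lit 1264621159648) (nat_lit 76) (nat_lit 6723039785517) (nat_lit 76) (nat_lit 6719275976413) (nat_lit 1) (nat_lit 4) (nat_lit 2) (nat_lit 5) (nat_lit 2) (nat_lit 4) (nat_lit 288) (nat_lit 215) (nat_lit 157)) (XT.lf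 (nat_lit 0) (nat_lit 1463667538405) (nat_lit 76) (nat_lit 7726189216156) (nat_lit 76) (nat_lit 7722425258911) (nat_lit 1) (nat_lit 4) (nat_lit 2) (nat_lit 5) (nat_lit 2) (nat_lit 4) (nat_lit 289) (nat_lit 215) (nat_lit 156))) (XT.nd (nat_lit 78) (nat_lit 0) (nat_lit 0) (XT.lf (nat_lit 0) (nat_lit 1692570186313) (nat_lit 76) (nat_lit 8879811410016) (nat_lit 76) (nat_lit 8876047323952) (nat_lit 1) (nat_lit 4) (nat_lit 2) (nat_lit 5) (nat_lit 2) (nat_lit 4) (nat_lit 290) (nat_lit 215) (nat_lit 155)) (XT.lf (nat_lit 0) (nat_lit 1955807633441) (nat_lit 76) (nat_lit 10206477236106) (nat_lit 76) (nat_lit 10202713038025) (nat_lit 1) (nat_lit 4) (nat_lit 2) (nat_lit 5) (nat_lit 2) (nat_lit 4) (nat_lit 291) (nat_lit 215) (nat_lit 154)))) (XT.nd (nat_lit 156) (nat_lit 0) (nat_lit 0) (XT.nd (nat_lit 78) (nat_lit 0) (nat_lit 0) (XT.lf (nat_lit 0) (nat_lit 2258530177667) (nat_lit 76) (nat_lit 11732143199720)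 (nat_lit 76) (nat_lit 11728378904233) (nat_lit 1) (nat_lit 4) (nat_lit 2) (nat_lit 5) (nat_lit 2) (nat_lit 4) (nat_lit 292) (nat_lit 215) (nat_lit 153)) (XT.lf (nat_lit 0) (nat_lit 2606660651378) (nat_lit 76) (nat_lit 13486659287101) (nat_lit 76) (nat_lit 13482894906914) (nat_lit 1) (nat_lit 4) (nat_lit 2) (nat_lit 5) (nat_lit 2) (nat_lit 4) (nat_lit 293) (nat_lit 215) (nat_lit 152))) (XT.nd (nat_lit 78) (nat_lit 0) (nat_lit 0) (XT.lf (nat_lit 0) (nat_lit 3007010302973) (nat_lit 76) (nat_lit 15504352986916) (nat_lit 76) (nat_lit 15500588533077) (nat_lit 1) (nat_lit 4) (nat_lit 2) (nat_lit 5) (nat_lit 2) (nat_lit 4) (nat_lit 294) (nat_lit 215) (nat_lit 151)) (XT.nd (nat_lit 78) (nat_lit 0) (nat_lit 0) (XT.lf (nat_lit 0) (nat_lit 3467412060417) (nat_lit 76) (nat_lit 17824700915032) (nat_lit 76) (nat_lit 17820936397146) (nat_lit 1) (nat_lit 4) (nat_lit 2) (nat_lit 5) (nat_lit 2) (nat_lit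 4) (nat_lit 295) (nat_lit 215) (nat_lit 150)) (XT.lf (nat_lit 0) (nat_lit 3996873784184) (nat_lit 76) (nat_lit 20493101183084) (nat_lit 76) (nat_lit 20489336609507) (nat_lit 1) (nat_lit 4) (nat_lit 2) (nat_lit 5) (nat_lit 2) (nat_lit 4) (nat_lit 296) (nat_lit 215) (nat_lit 149)))))) (XT.nd (nat_lit 312) (nat_lit 0) (nat_lit 0) (XT.nd (nat_lit 156) (nat_lit 0) (nat_lit 0) (XT.nd (nat_lit 78) (nat_lit 0) (nat_lit 0) (XT.lf (nat_lit 0) (nat_lit 4605754507997) (nat_lit 76) (nat_lit 23561761622405) (nat_lit 76) (nat_lit 23557997000400) (nat_lit 1) (nat_lit 4) (nat_lit 2) (nat_lit 5) (nat_lit 2) (nat_lit 4) (nat_lit 297) (nat_lit 215) (nat_lit 148)) (XT.lf (nat_lit 0) (nat_lit 5305967115585) (nat_lit 76) (nat_lit 27090721241590) (nat_lit 76) (nat_lit 27086956577474) (nat_lit 1) (nat_lit 4) (nat_lit 2) (nat_lit 5) (nat_lit 2) (nat_lit 4) (nat_lit 298) (nat_lit 215) (nat_lit 147))) (XT.nd (nat_lit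 78) (nat_lit 0) (nat_lit 0) (XT.lf (nat_lit 0) (nat_lit 6111211418834) (nat_lit 76) (nat_lit 31149024902754) (nat_lit 76) (nat_lit 31145260202019) (nat_lit 1) (nat_lit 4) (nat_lit 2) (nat_lit 5) (nat_lit 2) (nat_lit 4) (nat_lit 299) (nat_lit 215) (nat_lit 146)) (XT.lf (nat_lit 0) (nat_lit 7037242197592) (nat_lit 76) (nat_lit 35816074199266) (nat_lit 76) (nat_lit 35812309466689) (nat_lit 1) (nat_lit 4) (nat_lit 2) (nat_lit 5) (nat_lit 2) (nat_lit 4) (nat_lit 300) (nat_lit 215) (nat_lit 145)))) (XT.nd (nat_lit 156) (nat_lit 0) (nat_lit 0) (XT.nd (nat_lit 78) (nat_lit 0) (nat_lit 0) (XT.lf (nat_lit 0) (nat_lit 8102177445355) (nat_lit 76) (nat_lit 41183180965190) (nat_lit 76) (nat_lit 41179416204924) (nat_lit 1) (nat_lit 4) (nat_lit 2) (nat_lit 5) (nat_lit 2) (nat_lit 4) (nat_lit 301) (nat_lit 215) (nat_lit 144)) (XT.lf (nat_lit 0) (nat_lit 9326852851753) (nat_lit 76) (nat_lit 47355353811162)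 (nat_lit 76) (nat_lit 47351589026820) (nat_lit 1) (nat_lit 4) (nat_lit 2) (nat_lit 5) (nat_lit 2) (nat_lit 4) (nat_lit 302) (nat_lit 215) (nat_lit 143))) (XT.nd (nat_lit 78) (nat_lit 0) (nat_lit 0) (XT.lf (nat_lit 0) (nat_lit 10735229457347) (nat_lit 76) (nat_lit 54453352640692) (nat_lit 76) (nat_lit 54449587835412) (nat_lit 1) (nat_lit 4) (nat_lit 2) (nat_lit 5) (nat_lit 2) (nat_lit 4) (nat_lit 303) (nat_lit 215) (nat_lit 142)) (XT.nd (nat_lit 28470) (nat_lit 0) (nat_lit 1216) (XT.lf (nat_lit 0) (nat_lit 12354862456593) (nat_lit 76) (nat_lit 62616051343921) (nat_lit 76) (nat_lit 62612286520436) (nat_lit 1) (nat_lit 4) (nat_lit 2) (nat_lit 5) (nat_lit 2) (nat_lit 4) (nat_lit 304) (nat_lit 215) (nat_lit 141)) (XT.lf (nat_lit 0) (nat_lit 87778380) (nat_lit 152) (nat_lit 1980562904) (nat_lit 152) (nat_lit 1980562904) (nat_lit 17) (nat_lit 4) (nat_lit 19) (nat_lit 5) (nat_lit 19) (nat_lit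 4) (nat_lit 228) (nat_lit 216) (nat_lit 216))))))))
noncomputable def xc40 : XT := (XT.nd (nat_lit 1404) (nat_lit 152) (nat_lit 0) (XT.nd (nat_lit 702) (nat_lit 304) (nat_lit 0) (XT.nd (nat_lit 312) (nat_lit 304) (nat_lit 0) (XT.nd (nat_lit 156) (nat_lit 228) (nat_lit 0) (XT.nd (nat_lit 78) (nat_lit 152) (nat_lit 0) (XT.lf (nat_lit 0) (nat_lit 6580365428) (nat_lit 152) (nat_lit 1569216545) (nat_lit 152) (nat_lit 433319210) (nat_lit 17) (nat_lit 4) (nat_lit 19) (nat_lit 5) (nat_lit 19) (nat_lit 4) (nat_lit 229) (nat_lit 216) (nat_lit 215)) (XT.lf (nat_lit 0) (nat_lit 3123891930) (nat_lit 152) (nat_lit 4745510630) (nat_lit 0) (nat_lit 1277253541) (nat_lit 15) (nat_lit 5) (nat_lit 17) (nat_lit 4) (nat_lit 15) (nat_lit 4) (nat_lit 230) (nat_lit 216) (nat_lit 214))) (XT.nd (nat_lit 78) (nat_lit 76) (nat_lit 0) (XT.lf (nat_lit 0) (nat_lit 1646179827) (nat_lit 152) (nat_lit 5381126458) (nat_lit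 152) (nat_lit 2787617133) (nat_lit 13) (nat_lit 4) (nat_lit 15) (nat_lit 5) (nat_lit 15) (nat_lit 4) (nat_lit 231) (nat_lit 216) (nat_lit 213)) (XT.lf (nat_lit 0) (nat_lit 722710444) (nat_lit 228) (nat_lit 1689134857) (nat_lit 76) (nat_lit 8186052627) (nat_lit 12) (nat_lit 5) (nat_lit 15) (nat_lit 5) (nat_lit 13) (nat_lit 4) (nat_lit 232) (nat_lit 216) (nat_lit 212)))) (XT.nd (nat_lit 156) (nat_lit 152) (nat_lit 0) (XT.nd (nat_lit 78) (nat_lit 76) (nat_lit 0) (XT.lf (nat_lit 0) (nat_lit 4419408121) (nat_lit 152) (nat_lit 5959901651) (nat_lit 0) (nat_lit 1108361128) (nat_lit 11) (nat_lit 5) (nat_lit 13) (nat_lit 4) (nat_lit 11) (nat_lit 4) (nat_lit 233) (nat_lit 216) (nat_lit 211)) (XT.lf (nat_lit 0) (nat_lit 926560566) (nat_lit 76) (nat_lit 7667413901) (nat_lit 76) (nat_lit 3929341026) (nat_lit 10) (nat_lit 4) (nat_lit 11) (nat_lit 5) (nat_lit 11) (nat_lit 4) (nat_lit 234) (nat_lit 216)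 (nat_lit 210))) (XT.nd (nat_lit 78) (nat_lit 152) (nat_lit 0) (XT.lf (nat_lit 0) (nat_lit 8984834864) (nat_lit 76) (nat_lit 4419138054) (nat_lit 76) (nat_lit 309738326) (nat_lit 10) (nat_lit 4) (nat_lit 11) (nat_lit 5) (nat_lit 11) (nat_lit 4) (nat_lit 235) (nat_lit 216) (nat_lit 209)) (XT.nd (nat_lit 78) (nat_lit 0) (nat_lit 0) (XT.lf (nat_lit 0) (nat_lit 2766671622) (nat_lit 76) (nat_lit 581683850) (nat_lit 152) (nat_lit 11735195838) (nat_lit 8) (nat_lit 5) (nat_lit 9) (nat_lit 5) (nat_lit 10) (nat_lit 4) (nat_lit 236) (nat_lit 216) (nat_lit 208)) (XT.lf (nat_lit 0) (nat_lit 7673117411) (nat_lit 152) (nat_lit 5386811746) (nat_lit 0) (nat_lit 3574796460) (nat_lit 8) (nat_lit 5) (nat_lit 10) (nat_lit 4) (nat_lit 8) (nat_lit 4) (nat_lit 237) (nat_lit 216) (nat_lit 207)))))) (XT.nd (nat_lit 312) (nat_lit 76) (nat_lit 0) (XT.nd (nat_lit 156) (nat_lit 152) (nat_lit 0) (XT.nd (nat_lit 78)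 (nat_lit 0) (nat_lit 0) (XT.lf (nat_lit 0) (nat_lit 2329531162) (nat_lit 76) (nat_lit 10208225643) (nat_lit 76) (nat_lit 5897597359) (nat_lit 7) (nat_lit 4) (nat_lit 8) (nat_lit 5) (nat_lit 8) (nat_lit 4) (nat_lit 238) (nat_lit 216) (nat_lit 206)) (XT.lf (nat_lit 0) (nat_lit 11395481222) (nat_lit 76) (nat_lit 6798476417) (nat_lit 76) (nat_lit 2303233060) (nat_lit 7) (nat_lit 4) (nat_lit 8) (nat_lit 5) (nat_lit 8) (nat_lit 4) (nat_lit 239) (nat_lit 216) (nat_lit 205))) (XT.nd (nat_lit 78) (nat_lit 76) (nat_lit 0) (XT.lf (nat_lit 0) (nat_lit 1466872425) (nat_lit 152) (nat_lit 1502002488) (nat_lit 76) (nat_lit 19918427451) (nat_lit 6) (nat_lit 5) (nat_lit 8) (nat_lit 5) (nat_lit 7) (nat_lit 4) (nat_lit 240) (nat_lit 216) (nat_lit 204)) (XT.lf (nat_lit 0) (nat_lit 5774303439) (nat_lit 152) (nat_lit 18209878650) (nat_lit 0) (nat_lit 1604413246) (nat_lit 5) (nat_lit 5) (nat_lit 7) (nat_lit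 4) (nat_lit 5) (nat_lit 4) (nat_lit 241) (nat_lit 216) (nat_lit 203)))) (XT.nd (nat_lit 156) (nat_lit 76) (nat_lit 0) (XT.nd (nat_lit 78) (nat_lit 0) (nat_lit 0) (XT.lf (nat_lit 0) (nat_lit 10780641140) (nat_lit 152) (nat_lit 11401550633) (nat_lit 0) (nat_lit 6505196680) (nat_lit 5) (nat_lit 5) (nat_lit 7) (nat_lit 4) (nat_lit 5) (nat_lit 4) (nat_lit 242) (nat_lit 216) (nat_lit 202)) (XT.lf (nat_lit 0) (nat_lit 16389376906) (nat_lit 152) (nat_lit 3861956051) (nat_lit 0) (nat_lit 12022146127) (nat_lit 5) (nat_lit 5) (nat_lit 7) (nat_lit 4) (nat_lit 5) (nat_lit 4) (nat_lit 243) (nat_lit 216) (nat_lit 201))) (XT.nd (nat_lit 78) (nat_lit 0) (nat_lit 0) (XT.lf (nat_lit 0) (nat_lit 5001705294) (nat_lit 76) (nat_lit 17915651528) (nat_lit 76) (nat_lit 13468606558) (nat_lit 4) (nat_lit 4) (nat_lit 5) (nat_lit 5) (nat_lit 5) (nat_lit 4) (nat_lit 244) (nat_lit 216) (nat_lit 200)) (XT.nd (nat_lit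 78) (nat_lit 0) (nat_lit 0) (XT.lf (nat_lit 0) (nat_lit 15388249989) (nat_lit 76) (nat_lit 15115864860) (nat_lit 76) (nat_lit 10599416247) (nat_lit 4) (nat_lit 4) (nat_lit 5) (nat_lit 5) (nat_lit 5) (nat_lit 4) (nat_lit 245) (nat_lit 216) (nat_lit 199)) (XT.lf (nat_lit 0) (nat_lit 27123474604) (nat_lit 76) (nat_lit 11999069497) (nat_lit 76) (nat_lit 7422269889) (nat_lit 4) (nat_lit 4) (nat_lit 5) (nat_lit 5) (nat_lit 5) (nat_lit 4) (nat_lit 246) (nat_lit 216) (nat_lit 198))))))) (XT.nd (nat_lit 702) (nat_lit 0) (nat_lit 0) (XT.nd (nat_lit 312) (nat_lit 0) (nat_lit 0) (XT.nd (nat_lit 156) (nat_lit 76) (nat_lit 0) (XT.nd (nat_lit 78) (nat_lit 76) (nat_lit 0) (XT.lf (nat_lit 0) (nat_lit 40436981361) (nat_lit 76) (nat_lit 8504284658) (nat_lit 76) (nat_lit 3875005924) (nat_lit 4) (nat_lit 4) (nat_lit 5) (nat_lit 5) (nat_lit 5) (nat_lit 4) (nat_lit 247) (nat_lit 216) (nat_lit 197)) (XT.lf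 (nat_lit 0) (nat_lit 101827329) (nat_lit 152) (nat_lit 4455983998) (nat_lit 76) (nat_lit 55482101792) (nat_lit 3) (nat_lit 5) (nat_lit 5) (nat_lit 5) (nat_lit 4) (nat_lit 4) (nat_lit 248) (nat_lit 216) (nat_lit 196))) (XT.nd (nat_lit 78) (nat_lit 0) (nat_lit 0) (XT.lf (nat_lit 0) (nat_lit 4416173919) (nat_lit 152) (nat_lit 63566137706) (nat_lit 0) (nat_lit 316526514) (nat_lit 2) (nat_lit 5) (nat_lit 4) (nat_lit 4) (nat_lit 2) (nat_lit 4) (nat_lit 249) (nat_lit 216) (nat_lit 195)) (XT.lf (nat_lit 0) (nat_lit 9766391429) (nat_lit 152) (nat_lit 62335227691) (nat_lit 0) (nat_lit 5636738914) (nat_lit 2) (nat_lit 5) (nat_lit 4) (nat_lit 4) (nat_lit 2) (nat_lit 4) (nat_lit 250) (nat_lit 216) (nat_lit 194)))) (XT.nd (nat_lit 156) (nat_lit 0) (nat_lit 0) (XT.nd (nat_lit 78) (nat_lit 0) (nat_lit 0) (XT.lf (nat_lit 0) (nat_lit 15856239067) (nat_lit 152) (nat_lit 61046562688) (nat_lit 0) (nat_lit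 11700495151) (nat_lit 2) (nat_lit 5) (nat_lit 4) (nat_lit 4) (nat_lit 2) (nat_lit 4) (nat_lit 251) (nat_lit 216) (nat_lit 193)) (XT.lf (nat_lit 0) (nat_lit 22804866025) (nat_lit 152) (nat_lit 59674929687) (nat_lit 0) (nat_lit 18626433935) (nat_lit 2) (nat_lit 5) (nat_lit 4) (nat_lit 4) (nat_lit 2) (nat_lit 4) (nat_lit 252) (nat_lit 216) (nat_lit 192))) (XT.nd (nat_lit 78) (nat_lit 0) (nat_lit 0) (XT.lf (nat_lit 0) (nat_lit 30748223700) (nat_lit 152) (nat_lit 58193492390) (nat_lit 0) (nat_lit 26550062762) (nat_lit 2) (nat_lit 5) (nat_lit 4) (nat_lit 4) (nat_lit 2) (nat_lit 4) (nat_lit 253) (nat_lit 216) (nat_lit 191)) (XT.nd (nat_lit 78) (nat_lit 0) (nat_lit 0) (XT.lf (nat_lit 0) (nat_lit 39841725611) (nat_lit 152) (nat_lit 56573266154) (nat_lit 0) (nat_lit 35626409155) (nat_lit 2) (nat_lit 5) (nat_lit 4) (nat_lit 4) (nat_lit 2) (nat_lit 4) (nat_lit 254) (nat_lit 216) (nat_lit 190)) (XT.lf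 (nat_lit 0) (nat_lit 50263288102) (nat_lit 152) (nat_lit 54782550900) (nat_lit 0) (nat_lit 46033053802) (nat_lit 2) (nat_lit 5) (nat_lit 4) (nat_lit 4) (nat_lit 2) (nat_lit 4) (nat_lit 255) (nat_lit 216) (nat_lit 189)))))) (XT.nd (nat_lit 312) (nat_lit 0) (nat_lit 0) (XT.nd (nat_lit 156) (nat_lit 0) (nat_lit 0) (XT.nd (nat_lit 78) (nat_lit 0) (nat_lit 0) (XT.lf (nat_lit 0) (nat_lit 62216811306) (nat_lit 152) (nat_lit 52786310896) (nat_lit 0) (nat_lit 57973604970) (nat_lit 2) (nat_lit 5) (nat_lit 4) (nat_lit 4) (nat_lit 2) (nat_lit 4) (nat_lit 256) (nat_lit 216) (nat_lit 188)) (XT.lf (nat_lit 0) (nat_lit 75936168505) (nat_lit 152) (nat_lit 50545489272) (nat_lit 0) (nat_lit 71681682136) (nat_lit 2) (nat_lit 5) (nat_lit 4) (nat_lit 4) (nat_lit 2) (nat_lit 4) (nat_lit 257) (nat_lit 216) (nat_lit 187))) (XT.nd (nat_lit 78) (nat_lit 0) (nat_lit 0) (XT.lf (nat_lit 0) (nat_lit 91689781905) (nat_lit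 152) (nat_lit 48016243865) (nat_lit 0) (nat_lit 87425486812) (nat_lit 2) (nat_lit 5) (nat_lit 4) (nat_lit 4) (nat_lit 2) (nat_lit 4) (nat_lit 258) (nat_lit 216) (nat_lit 186)) (XT.lf (nat_lit 0) (nat_lit 109785874376) (nat_lit 152) (nat_lit 45149089439) (nat_lit 0) (nat_lit 105513049958) (nat_lit 2) (nat_lit 5) (nat_lit 4) (nat_lit 4) (nat_lit 2) (nat_lit 4) (nat_lit 259) (nat_lit 216) (nat_lit 185)))) (XT.nd (nat_lit 156) (nat_lit 0) (nat_lit 0) (XT.nd (nat_lit 78) (nat_lit 0) (nat_lit 0) (XT.lf (nat_lit 0) (nat_lit 130578499901) (nat_lit 152) (nat_lit 41887929495) (nat_lit 0) (nat_lit 126298258678) (nat_lit 2) (nat_lit 5) (nat_lit 4) (nat_lit 4) (nat_lit 2) (nat_lit 4) (nat_lit 260) (nat_lit 216) (nat_lit 184)) (XT.lf (nat_lit 0) (nat_lit 154474470719) (nat_lit 152) (nat_lit 38168958730) (nat_lit 0) (nat_lit 150187780101) (nat_lit 2) (nat_lit 5) (nat_lit 4) (nat_lit 4) (nat_lit 2)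 (nat_lit 4) (nat_lit 261) (nat_lit 216) (nat_lit 183))) (XT.nd (nat_lit 78) (nat_lit 0) (nat_lit 0) (XT.lf (nat_lit 0) (nat_lit 181941316694) (nat_lit 152) (nat_lit 33919414671) (nat_lit 0) (nat_lit 177649017907) (nat_lit 2) (nat_lit 5) (nat_lit 4) (nat_lit 4) (nat_lit 2) (nat_lit 4) (nat_lit 262) (nat_lit 216) (nat_lit 182)) (XT.nd (nat_lit 78) (nat_lit 0) (nat_lit 0) (XT.lf (nat_lit 0) (nat_lit 213516432638) (nat_lit 152) (nat_lit 29056154066) (nat_lit 0) (nat_lit 209219257182) (nat_lit 2) (nat_lit 5) (nat_lit 4) (nat_lit 4) (nat_lit 2) (nat_lit 4) (nat_lit 263) (nat_lit 216) (nat_lit 181)) (XT.lf (nat_lit 0) (nat_lit 249817592560) (nat_lit 152) (nat_lit 23484026164) (nat_lit 0) (nat_lit 245516176521) (nat_lit 2) (nat_lit 5) (nat_lit 4) (nat_lit 4) (nat_lit 2) (nat_lit 4) (nat_lit 264) (nat_lit 216) (nat_lit 180))))))))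
noncomputable def xc41 : XT := (XT.nd (nat_lit 1404) (nat_lit 0) (nat_lit 0) (XT.nd (nat_lit 702) (nat_lit 0) (nat_lit 0) (XT.nd (nat_lit 312) (nat_lit 0) (nat_lit 0) (XT.nd (nat_lit 156) (nat_lit 76) (nat_lit 0) (XT.nd (nat_lit 78) (nat_lit 0) (nat_lit 0) (XT.lf (nat_lit 0) (nat_lit 291555036544) (nat_lit 152) (nat_lit 17094011070) (nat_lit 0) (nat_lit 287249933042) (nat_lit 2) (nat_lit 5) (nat_lit 4) (nat_lit 4) (nat_lit 2) (nat_lit 4) (nat_lit 265) (nat_lit 216) (nat_lit 179)) (XT.lf (nat_lit 0) (nat_lit 339545366755) (nat_lit 152) (nat_lit 9761086751) (nat_lit 0) (nat_lit 335237056764) (nat_lit 2) (nat_lit 5) (nat_lit 4) (nat_lit 4) (nat_lit 2) (nat_lit 4) (nat_lit 266) (nat_lit 216) (nat_lit 178))) (XT.nd (nat_lit 78) (nat_lit 76) (nat_lit 0) (XT.lf (nat_lit 0) (nat_lit 394727524436) (nat_lit 152) (nat_lit 1341782948) (nat_lit 0) (nat_lit 390416426194) (nat_lit 2) (nat_lit 5) (nat_lit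 4) (nat_lit 4) (nat_lit 2) (nat_lit 4) (nat_lit 267) (nat_lit 216) (nat_lit 177)) (XT.lf (nat_lit 0) (nat_lit 9142559736) (nat_lit 76) (nat_lit 449417174664) (nat_lit 76) (nat_lit 445103651856) (nat_lit 1) (nat_lit 4) (nat_lit 2) (nat_lit 5) (nat_lit 2) (nat_lit 4) (nat_lit 268) (nat_lit 216) (nat_lit 176)))) (XT.nd (nat_lit 156) (nat_lit 0) (nat_lit 0) (XT.nd (nat_lit 78) (nat_lit 0) (nat_lit 0) (XT.lf (nat_lit 0) (nat_lit 21339097290) (nat_lit 76) (nat_lit 510692268351) (nat_lit 76) (nat_lit 506376637224) (nat_lit 1) (nat_lit 4) (nat_lit 2) (nat_lit 5) (nat_lit 2) (nat_lit 4) (nat_lit 269) (nat_lit 216) (nat_lit 175)) (XT.lf (nat_lit 0) (nat_lit 35355328830) (nat_lit 76) (nat_lit 581163587627) (nat_lit 76) (nat_lit 576846123179) (nat_lit 1) (nat_lit 4) (nat_lit 2) (nat_lit 5) (nat_lit 2) (nat_lit 4) (nat_lit 270) (nat_lit 216) (nat_lit 174))) (XT.nd (nat_lit 78) (nat_lit 0) (nat_lit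 0) (XT.lf (nat_lit 0) (nat_lit 51465484976) (nat_lit 76) (nat_lit 662209919175) (nat_lit 76) (nat_lit 657890860535) (nat_lit 1) (nat_lit 4) (nat_lit 2) (nat_lit 5) (nat_lit 2) (nat_lit 4) (nat_lit 271) (nat_lit 216) (nat_lit 173)) (XT.nd (nat_lit 78) (nat_lit 0) (nat_lit 0) (XT.lf (nat_lit 0) (nat_lit 69984764434) (nat_lit 76) (nat_lit 755416952089) (nat_lit 76) (nat_lit 751096507196) (nat_lit 1) (nat_lit 4) (nat_lit 2) (nat_lit 5) (nat_lit 2) (nat_lit 4) (nat_lit 272) (nat_lit 216) (nat_lit 172)) (XT.lf (nat_lit 0) (nat_lit 91275500932) (nat_lit 76) (nat_lit 862608302232) (nat_lit 76) (nat_lit 858286651900) (nat_lit 1) (nat_lit 4) (nat_lit 2) (nat_lit 5) (nat_lit 2) (nat_lit 4) (nat_lit 273) (nat_lit 216) (nat_lit 171)))))) (XT.nd (nat_lit 312) (nat_lit 0) (nat_lit 0) (XT.nd (nat_lit 156) (nat_lit 0) (nat_lit 0) (XT.nd (nat_lit 78) (nat_lit 0) (nat_lit 0) (XT.lf (nat_lit 0) (nat_lit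 115754252359) (nat_lit 76) (nat_lit 985881191671) (nat_lit 76) (nat_lit 981558493132) (nat_lit 1) (nat_lit 4) (nat_lit 2) (nat_lit 5) (nat_lit 2) (nat_lit 4) (nat_lit 274) (nat_lit 216) (nat_lit 170)) (XT.lf (nat_lit 0) (nat_lit 143899950808) (nat_lit 76) (nat_lit 1127647481286) (nat_lit 76) (nat_lit 1123323871263) (nat_lit 1) (nat_lit 4) (nat_lit 2) (nat_lit 5) (nat_lit 2) (nat_lit 4) (nat_lit 275) (nat_lit 216) (nat_lit 169))) (XT.nd (nat_lit 78) (nat_lit 0) (nat_lit 0) (XT.lf (nat_lit 0) (nat_lit 176263272988) (nat_lit 76) (nat_lit 1290680859352) (nat_lit 76) (nat_lit 1286356456734) (nat_lit 1) (nat_lit 4) (nat_lit 2) (nat_lit 5) (nat_lit 2) (nat_lit 4) (nat_lit 276) (nat_lit 216) (nat_lit 168)) (XT.lf (nat_lit 0) (nat_lit 213477414331) (nat_lit 76) (nat_lit 1478171109354) (nat_lit 76) (nat_lit 1473846017523) (nat_lit 1) (nat_lit 4) (nat_lit 2) (nat_lit 5) (nat_lit 2) (nat_lit 4)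 (nat_lit 277) (nat_lit 216) (nat_lit 167)))) (XT.nd (nat_lit 156) (nat_lit 0) (nat_lit 0) (XT.nd (nat_lit 78) (nat_lit 0) (nat_lit 0) (XT.lf (nat_lit 0) (nat_lit 256270477605) (nat_lit 76) (nat_lit 1693786518792) (nat_lit 76) (nat_lit 1689460827645) (nat_lit 1) (nat_lit 4) (nat_lit 2) (nat_lit 5) (nat_lit 2) (nat_lit 4) (nat_lit 278) (nat_lit 216) (nat_lit 166)) (XT.lf (nat_lit 0) (nat_lit 305479718395) (nat_lit 76) (nat_lit 1941745650023) (nat_lit 76) (nat_lit 1937419437732) (nat_lit 1) (nat_lit 4) (nat_lit 2) (nat_lit 5) (nat_lit 2) (nat_lit 4) (nat_lit 279) (nat_lit 216) (nat_lit 165))) (XT.nd (nat_lit 78) (nat_lit 0) (nat_lit 0) (XT.lf (nat_lit 0) (nat_lit 362067926193) (nat_lit 76) (nat_lit 2226899877356) (nat_lit 76) (nat_lit 2222573211896) (nat_lit 1) (nat_lit 4) (nat_lit 2) (nat_lit 5) (nat_lit 2) (nat_lit 4) (nat_lit 280) (nat_lit 216) (nat_lit 164)) (XT.nd (nat_lit 78) (nat_lit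 0) (nat_lit 0) (XT.lf (nat_lit 0) (nat_lit 427142261589) (nat_lit 76) (nat_lit 2554828305237) (nat_lit 76) (nat_lit 2550501245717) (nat_lit 1) (nat_lit 4) (nat_lit 2) (nat_lit 5) (nat_lit 2) (nat_lit 4) (nat_lit 281) (nat_lit 216) (nat_lit 163)) (XT.lf (nat_lit 0) (nat_lit 501975918100) (nat_lit 76) (nat_lit 2931946924646) (nat_lit 76) (nat_lit 2927619522466) (nat_lit 1) (nat_lit 4) (nat_lit 2) (nat_lit 5) (nat_lit 2) (nat_lit 4) (nat_lit 282) (nat_lit 216) (nat_lit 162))))))) (XT.nd (nat_lit 702) (nat_lit 0) (nat_lit 0) (XT.nd (nat_lit 312) (nat_lit 0) (nat_lit 0) (XT.nd (nat_lit 156) (nat_lit 0) (nat_lit 0) (XT.nd (nat_lit 78) (nat_lit 0) (nat_lit 0) (XT.lf (nat_lit 0) (nat_lit 588033032484) (nat_lit 76) (nat_lit 3365634143356) (nat_lit 76) (nat_lit 3361306443210) (nat_lit 1) (nat_lit 4) (nat_lit 2) (nat_lit 5) (nat_lit 2) (nat_lit 4) (nat_lit 283) (nat_lit 216) (nat_lit 161)) (XT.lf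 (nat_lit 0) (nat_lit 686997330893) (nat_lit 76) (nat_lit 3864375146079) (nat_lit 76) (nat_lit 3860047186832) (nat_lit 1) (nat_lit 4) (nat_lit 2) (nat_lit 5) (nat_lit 2) (nat_lit 4) (nat_lit 284) (nat_lit 216) (nat_lit 160))) (XT.nd (nat_lit 78) (nat_lit 0) (nat_lit 0) (XT.lf (nat_lit 0) (nat_lit 800805071337) (nat_lit 76) (nat_lit 4437927908957) (nat_lit 76) (nat_lit 4433599724405) (nat_lit 1) (nat_lit 4) (nat_lit 2) (nat_lit 5) (nat_lit 2) (nat_lit 4) (nat_lit 285) (nat_lit 216) (nat_lit 159)) (XT.lf (nat_lit 0) (nat_lit 931682927002) (nat_lit 76) (nat_lit 5097514116479) (nat_lit 76) (nat_lit 5093185736010) (nat_lit 1) (nat_lit 4) (nat_lit 2) (nat_lit 5) (nat_lit 2) (nat_lit 4) (nat_lit 286) (nat_lit 216) (nat_lit 158)))) (XT.nd (nat_lit 156) (nat_lit 0) (nat_lit 0) (XT.nd (nat_lit 78) (nat_lit 0) (nat_lit 0) (XT.lf (nat_lit 0) (nat_lit 1082191551583) (nat_lit 76) (nat_lit 5856038716186)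 (nat_lit 76) (nat_lit 5851710165353) (nat_lit 1) (nat_lit 4) (nat_lit 2) (nat_lit 5) (nat_lit 2) (nat_lit 4) (nat_lit 287) (nat_lit 216) (nat_lit 157)) (XT.lf (nat_lit 0) (nat_lit 1255275679040) (nat_lit 76) (nat_lit 6728342406765) (nat_lit 76) (nat_lit 6724013707791) (nat_lit 1) (nat_lit 4) (nat_lit 2) (nat_lit 5) (nat_lit 2) (nat_lit 4) (nat_lit 288) (nat_lit 216) (nat_lit 156))) (XT.nd (nat_lit 78) (nat_lit 0) (nat_lit 0) (XT.lf (nat_lit 0) (nat_lit 1454321737954) (nat_lit 76) (nat_lit 7731491999556) (nat_lit 76) (nat_lit 7727163171763) (nat_lit 1) (nat_lit 4) (nat_lit 2) (nat_lit 5) (nat_lit 2) (nat_lit 4) (nat_lit 289) (nat_lit 216) (nat_lit 155)) (XT.nd (nat_lit 78) (nat_lit 0) (nat_lit 0) (XT.lf (nat_lit 0) (nat_lit 1683224107738) (nat_lit 76) (nat_lit 8885114334416) (nat_lit 76) (nat_lit 8880785394607) (nat_lit 1) (nat_lit 4) (nat_lit 2) (nat_lit 5) (nat_lit 2) (nat_lit 4) (nat_lit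 290) (nat_lit 216) (nat_lit 154)) (XT.lf (nat_lit 0) (nat_lit 1946461313019) (nat_lit 76) (nat_lit 10211780283115) (nat_lit 76) (nat_lit 10207451245900) (nat_lit 1) (nat_lit 4) (nat_lit 2) (nat_lit 5) (nat_lit 2) (nat_lit 4) (nat_lit 291) (nat_lit 216) (nat_lit 153)))))) (XT.nd (nat_lit 312) (nat_lit 0) (nat_lit 0) (XT.nd (nat_lit 156) (nat_lit 0) (nat_lit 0) (XT.nd (nat_lit 78) (nat_lit 0) (nat_lit 0) (XT.lf (nat_lit 0) (nat_lit 2249183646943) (nat_lit 76) (nat_lit 11737446353345) (nat_lit 76) (nat_lit 11733117231430) (nat_lit 1) (nat_lit 4) (nat_lit 2) (nat_lit 5) (nat_lit 2) (nat_lit 4) (nat_lit 292) (nat_lit 216) (nat_lit 152)) (XT.lf (nat_lit 0) (nat_lit 2597313937783) (nat_lit 76) (nat_lit 13491962533437) (nat_lit 76) (nat_lit 13487633337869) (nat_lit 1) (nat_lit 4) (nat_lit 2) (nat_lit 5) (nat_lit 2) (nat_lit 4) (nat_lit 293) (nat_lit 216) (nat_lit 151))) (XT.nd (nat_lit 78) (nat_lit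 0) (nat_lit 0) (XT.lf (nat_lit 0) (nat_lit 2997663430359) (nat_lit 76) (nat_lit 15509656313870) (nat_lit 76) (nat_lit 15505327054256) (nat_lit 1) (nat_lit 4) (nat_lit 2) (nat_lit 5) (nat_lit 2) (nat_lit 4) (nat_lit 294) (nat_lit 216) (nat_lit 150)) (XT.lf (nat_lit 0) (nat_lit 3458065049527) (nat_lit 76) (nat_lit 17830004312087) (nat_lit 76) (nat_lit 17825674996782) (nat_lit 1) (nat_lit 4) (nat_lit 2) (nat_lit 5) (nat_lit 2) (nat_lit 4) (nat_lit 295) (nat_lit 216) (nat_lit 149)))) (XT.nd (nat_lit 156) (nat_lit 0) (nat_lit 0) (XT.nd (nat_lit 78) (nat_lit 0) (nat_lit 0) (XT.lf (nat_lit 0) (nat_lit 3987526653052) (nat_lit 76) (nat_lit 20498404641098) (nat_lit 76) (nat_lit 20494075277365) (nat_lit 1) (nat_lit 4) (nat_lit 2) (nat_lit 5) (nat_lit 2) (nat_lit 4) (nat_lit 296) (nat_lit 216) (nat_lit 148)) (XT.lf (nat_lit 0) (nat_lit 4596407272309) (nat_lit 76) (nat_lit 23567065133427) (nat_lit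 76) (nat_lit 23562735727582) (nat_lit 1) (nat_lit 4) (nat_lit 2) (nat_lit 5) (nat_lit 2) (nat_lit 4) (nat_lit 297) (nat_lit 216) (nat_lit 147))) (XT.nd (nat_lit 78) (nat_lit 0) (nat_lit 0) (XT.lf (nat_lit 0) (nat_lit 5296619788977) (nat_lit 76) (nat_lit 27096024798705) (nat_lit 76) (nat_lit 27091695356242) (nat_lit 1) (nat_lit 4) (nat_lit 2) (nat_lit 5) (nat_lit 2) (nat_lit 4) (nat_lit 298) (nat_lit 216) (nat_lit 146)) (XT.nd (nat_lit 78) (nat_lit 0) (nat_lit 0) (XT.lf (nat_lit 0) (nat_lit 6101864013167) (nat_lit 76) (nat_lit 31154328499950) (nat_lit 76) (nat_lit 31149999025645) (nat_lit 1) (nat_lit 4) (nat_lit 2) (nat_lit 5) (nat_lit 2) (nat_lit 4) (nat_lit 299) (nat_lit 216) (nat_lit 145)) (XT.lf (nat_lit 0) (nat_lit 7027894723176) (nat_lit 76) (nat_lit 35821377831315) (nat_lit 76) (nat_lit 35817048329321) (nat_lit 1) (nat_lit 4) (nat_lit 2) (nat_lit 5) (nat_lit 2) (nat_lit 4) (nat_lit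 300) (nat_lit 216) (nat_lit 144))))))))
noncomputable def xc42 : XT := (XT.nd (nat_lit 29796) (nat_lit 0) (nat_lit 76) (XT.nd (nat_lit 29094) (nat_lit 0) (nat_lit 304) (XT.nd (nat_lit 28704) (nat_lit 0) (nat_lit 836) (XT.nd (nat_lit 28548) (nat_lit 0) (nat_lit 1368) (XT.nd (nat_lit 78) (nat_lit 0) (nat_lit 0) (XT.lf (nat_lit 0) (nat_lit 8092829911158) (nat_lit 76) (nat_lit 41188484627546) (nat_lit 76) (nat_lit 41184155101475) (nat_lit 1) (nat_lit 4) (nat_lit 2) (nat_lit 5) (nat_lit 2) (nat_lit 4) (nat_lit 301) (nat_lit 216) (nat_lit 143)) (XT.lf (nat_lit 0) (nat_lit 9317505265573) (nat_lit 76) (nat_lit 47360657499873) (nat_lit 76) (nat_lit 47356327952865) (nat_lit 1) (nat_lit 4) (nat_lit 2) (nat_lit 5) (nat_lit 2) (nat_lit 4) (nat_lit 302) (nat_lit 216) (nat_lit 142))) (XT.nd (nat_lit 78) (nat_lit 380) (nat_lit 0) (XT.lf (nat_lit 0) (nat_lit 2181343146) (nat_lit 228) (nat_lit 746012693)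 (nat_lit 228) (nat_lit 746012693) (nat_lit 24) (nat_lit 4) (nat_lit 27) (nat_lit 5) (nat_lit 27) (nat_lit 4) (nat_lit 226) (nat_lit 217) (nat_lit 217)) (XT.lf (nat_lit 0) (nat_lit 1799984309) (nat_lit 380) (nat_lit 5407432754) (nat_lit 0) (nat_lit 493702374) (nat_lit 19) (nat_lit 5) (nat_lit 24) (nat_lit 4) (nat_lit 19) (nat_lit 4) (nat_lit 227) (nat_lit 217) (nat_lit 216)))) (XT.nd (nat_lit 156) (nat_lit 304) (nat_lit 0) (XT.nd (nat_lit 78) (nat_lit 228) (nat_lit 0) (XT.lf (nat_lit 0) (nat_lit 5234124169) (nat_lit 380) (nat_lit 104191569) (nat_lit 0) (nat_lit 2791944900) (nat_lit 19) (nat_lit 5) (nat_lit 24) (nat_lit 4) (nat_lit 19) (nat_lit 4) (nat_lit 228) (nat_lit 217) (nat_lit 215)) (XT.lf (nat_lit 0) (nat_lit 375018579) (nat_lit 228) (nat_lit 2623626135) (nat_lit 76) (nat_lit 5643699273) (nat_lit 16) (nat_lit 5) (nat_lit 19) (nat_lit 5) (nat_lit 17) (nat_lit 4) (nat_lit 229) (nat_lit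 217) (nat_lit 214))) (XT.nd (nat_lit 78) (nat_lit 228) (nat_lit 0) (XT.lf (nat_lit 0) (nat_lit 3506727033) (nat_lit 76) (nat_lit 119107707) (nat_lit 152) (nat_lit 5618485929) (nat_lit 15) (nat_lit 5) (nat_lit 16) (nat_lit 5) (nat_lit 17) (nat_lit 4) (nat_lit 230) (nat_lit 217) (nat_lit 213)) (XT.nd (nat_lit 78) (nat_lit 76) (nat_lit 0) (XT.lf (nat_lit 0) (nat_lit 291202161) (nat_lit 152) (nat_lit 7017021594) (nat_lit 152) (nat_lit 2638161946) (nat_lit 13) (nat_lit 4) (nat_lit 15) (nat_lit 5) (nat_lit 15) (nat_lit 4) (nat_lit 231) (nat_lit 217) (nat_lit 212)) (XT.lf (nat_lit 0) (nat_lit 702370618) (nat_lit 228) (nat_lit 3433504546) (nat_lit 76) (nat_lit 6616517068) (nat_lit 12) (nat_lit 5) (nat_lit 15) (nat_lit 5) (nat_lit 13) (nat_lit 4) (nat_lit 232) (nat_lit 217) (nat_lit 211)))))) (XT.nd (nat_lit 312) (nat_lit 304) (nat_lit 0) (XT.nd (nat_lit 156) (nat_lit 152) (nat_lit 0) (XT.nd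 (nat_lit 78) (nat_lit 0) (nat_lit 0) (XT.lf (nat_lit 0) (nat_lit 3430565787) (nat_lit 76) (nat_lit 692804876) (nat_lit 152) (nat_lit 7560572570) (nat_lit 11) (nat_lit 5) (nat_lit 12) (nat_lit 5) (nat_lit 13) (nat_lit 4) (nat_lit 233) (nat_lit 217) (nat_lit 210)) (XT.lf (nat_lit 0) (nat_lit 8100507252) (nat_lit 152) (nat_lit 1645692486) (nat_lit 0) (nat_lit 3003370711) (nat_lit 11) (nat_lit 5) (nat_lit 13) (nat_lit 4) (nat_lit 11) (nat_lit 4) (nat_lit 234) (nat_lit 217) (nat_lit 209))) (XT.nd (nat_lit 78) (nat_lit 76) (nat_lit 0) (XT.lf (nat_lit 0) (nat_lit 6037002954) (nat_lit 76) (nat_lit 6676436397) (nat_lit 76) (nat_lit 1256406940) (nat_lit 10) (nat_lit 4) (nat_lit 11) (nat_lit 5) (nat_lit 11) (nat_lit 4) (nat_lit 235) (nat_lit 217) (nat_lit 208)) (XT.lf (nat_lit 0) (nat_lit 2259772749) (nat_lit 152) (nat_lit 842294494) (nat_lit 76) (nat_lit 12277670079) (nat_lit 9) (nat_lit 5) (nat_lit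 11) (nat_lit 5) (nat_lit 10) (nat_lit 4) (nat_lit 236) (nat_lit 217) (nat_lit 207)))) (XT.nd (nat_lit 156) (nat_lit 228) (nat_lit 0) (XT.nd (nat_lit 78) (nat_lit 0) (nat_lit 0) (XT.lf (nat_lit 0) (nat_lit 6331691034) (nat_lit 152) (nat_lit 9475196467) (nat_lit 0) (nat_lit 1162161173) (nat_lit 8) (nat_lit 5) (nat_lit 10) (nat_lit 4) (nat_lit 8) (nat_lit 4) (nat_lit 237) (nat_lit 217) (nat_lit 206)) (XT.lf (nat_lit 0) (nat_lit 11005634128) (nat_lit 152) (nat_lit 2141341383) (nat_lit 0) (nat_lit 5651489195) (nat_lit 8) (nat_lit 5) (nat_lit 10) (nat_lit 4) (nat_lit 8) (nat_lit 4) (nat_lit 238) (nat_lit 217) (nat_lit 205))) (XT.nd (nat_lit 78) (nat_lit 152) (nat_lit 0) (XT.lf (nat_lit 0) (nat_lit 6548203319) (nat_lit 76) (nat_lit 9927433309) (nat_lit 76) (nat_lit 4412753530) (nat_lit 7) (nat_lit 4) (nat_lit 8) (nat_lit 5) (nat_lit 8) (nat_lit 4) (nat_lit 239) (nat_lit 217) (nat_lit 204))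 (XT.nd (nat_lit 78) (nat_lit 152) (nat_lit 0) (XT.lf (nat_lit 0) (nat_lit 16469362087) (nat_lit 76) (nat_lit 6242572940) (nat_lit 76) (nat_lit 588297642) (nat_lit 7) (nat_lit 4) (nat_lit 8) (nat_lit 5) (nat_lit 8) (nat_lit 4) (nat_lit 240) (nat_lit 217) (nat_lit 203)) (XT.lf (nat_lit 0) (nat_lit 1493271255) (nat_lit 76) (nat_lit 1887628260) (nat_lit 152) (nat_lit 22682976028) (nat_lit 5) (nat_lit 5) (nat_lit 6) (nat_lit 5) (nat_lit 7) (nat_lit 4) (nat_lit 241) (nat_lit 217) (nat_lit 202))))))) (XT.nd (nat_lit 702) (nat_lit 0) (nat_lit 0) (XT.nd (nat_lit 312) (nat_lit 152) (nat_lit 0) (XT.nd (nat_lit 156) (nat_lit 76) (nat_lit 0) (XT.nd (nat_lit 78) (nat_lit 0) (nat_lit 0) (XT.lf (nat_lit 0) (nat_lit 8239980328) (nat_lit 152) (nat_lit 17818989257) (nat_lit 0) (nat_lit 3125878614) (nat_lit 5) (nat_lit 5) (nat_lit 7) (nat_lit 4) (nat_lit 5) (nat_lit 4) (nat_lit 242) (nat_lit 217) (nat_lit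 201)) (XT.lf (nat_lit 0) (nat_lit 13788634157) (nat_lit 152) (nat_lit 10396677845) (nat_lit 0) (nat_lit 8594718252) (nat_lit 5) (nat_lit 5) (nat_lit 7) (nat_lit 4) (nat_lit 5) (nat_lit 4) (nat_lit 243) (nat_lit 217) (nat_lit 200))) (XT.nd (nat_lit 78) (nat_lit 76) (nat_lit 0) (XT.lf (nat_lit 0) (nat_lit 20057258961) (nat_lit 152) (nat_lit 2080288256) (nat_lit 0) (nat_lit 14793939411) (nat_lit 5) (nat_lit 5) (nat_lit 7) (nat_lit 4) (nat_lit 5) (nat_lit 4) (nat_lit 244) (nat_lit 217) (nat_lit 199)) (XT.lf (nat_lit 0) (nat_lit 8005605873) (nat_lit 76) (nat_lit 19494390939) (nat_lit 76) (nat_lit 14170720395) (nat_lit 4) (nat_lit 4) (nat_lit 5) (nat_lit 5) (nat_lit 5) (nat_lit 4) (nat_lit 245) (nat_lit 217) (nat_lit 198)))) (XT.nd (nat_lit 156) (nat_lit 152) (nat_lit 0) (XT.nd (nat_lit 78) (nat_lit 0) (nat_lit 0) (XT.lf (nat_lit 0) (nat_lit 19656178604) (nat_lit 76) (nat_lit 16419237357)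 (nat_lit 76) (nat_lit 11043087687) (nat_lit 4) (nat_lit 4) (nat_lit 5) (nat_lit 5) (nat_lit 5) (nat_lit 4) (nat_lit 246) (nat_lit 217) (nat_lit 197)) (XT.lf (nat_lit 0) (nat_lit 32896075027) (nat_lit 76) (nat_lit 12960662763) (nat_lit 76) (nat_lit 7538879070) (nat_lit 4) (nat_lit 4) (nat_lit 5) (nat_lit 5) (nat_lit 5) (nat_lit 4) (nat_lit 247) (nat_lit 217) (nat_lit 196))) (XT.nd (nat_lit 78) (nat_lit 152) (nat_lit 0) (XT.lf (nat_lit 0) (nat_lit 47984336593) (nat_lit 76) (nat_lit 9050999393) (nat_lit 76) (nat_lit 3589533942) (nat_lit 4) (nat_lit 4) (nat_lit 5) (nat_lit 5) (nat_lit 5) (nat_lit 4) (nat_lit 248) (nat_lit 217) (nat_lit 195)) (XT.nd (nat_lit 78) (nat_lit 76) (nat_lit 0) (XT.lf (nat_lit 0) (nat_lit 803676391) (nat_lit 152) (nat_lit 3768067085) (nat_lit 76) (nat_lit 64370481672) (nat_lit 3) (nat_lit 5) (nat_lit 5) (nat_lit 5) (nat_lit 4) (nat_lit 4) (nat_lit 249) (nat_lit 217)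 (nat_lit 194)) (XT.lf (nat_lit 0) (nat_lit 5755899011) (nat_lit 152) (nat_lit 71734869026) (nat_lit 0) (nat_lit 950702108) (nat_lit 2) (nat_lit 5) (nat_lit 4) (nat_lit 4) (nat_lit 2) (nat_lit 4) (nat_lit 250) (nat_lit 217) (nat_lit 193)))))) (XT.nd (nat_lit 312) (nat_lit 0) (nat_lit 0) (XT.nd (nat_lit 156) (nat_lit 0) (nat_lit 0) (XT.nd (nat_lit 78) (nat_lit 0) (nat_lit 0) (XT.lf (nat_lit 0) (nat_lit 11820305800) (nat_lit 152) (nat_lit 70497521118) (nat_lit 0) (nat_lit 6992420722) (nat_lit 2) (nat_lit 5) (nat_lit 4) (nat_lit 4) (nat_lit 2) (nat_lit 4) (nat_lit 251) (nat_lit 217) (nat_lit 192)) (XT.lf (nat_lit 0) (nat_lit 18746810280) (nat_lit 152) (nat_lit 69170511677) (nat_lit 0) (nat_lit 13899196355) (nat_lit 2) (nat_lit 5) (nat_lit 4) (nat_lit 4) (nat_lit 2) (nat_lit 4) (nat_lit 252) (nat_lit 217) (nat_lit 191))) (XT.nd (nat_lit 78) (nat_lit 0) (nat_lit 0) (XT.lf (nat_lit 0) (nat_lit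 26670931018) (nat_lit 152) (nat_lit 67727877475) (nat_lit 0) (nat_lit 21806161574) (nat_lit 2) (nat_lit 5) (nat_lit 4) (nat_lit 4) (nat_lit 2) (nat_lit 4) (nat_lit 253) (nat_lit 217) (nat_lit 190)) (XT.lf (nat_lit 0) (nat_lit 35747705159) (nat_lit 152) (nat_lit 66141393061) (nat_lit 0) (nat_lit 30868017871) (nat_lit 2) (nat_lit 5) (nat_lit 4) (nat_lit 4) (nat_lit 2) (nat_lit 4) (nat_lit 254) (nat_lit 217) (nat_lit 189)))) (XT.nd (nat_lit 156) (nat_lit 0) (nat_lit 0) (XT.nd (nat_lit 78) (nat_lit 0) (nat_lit 0) (XT.lf (nat_lit 0) (nat_lit 46154721761) (nat_lit 152) (nat_lit 64380018523) (nat_lit 0) (nat_lit 41262062436) (nat_lit 2) (nat_lit 5) (nat_lit 4) (nat_lit 4) (nat_lit 2) (nat_lit 4) (nat_lit 255) (nat_lit 217) (nat_lit 188)) (XT.lf (nat_lit 0) (nat_lit 58095596367) (nat_lit 152) (nat_lit 62409292184) (nat_lit 0) (nat_lit 53191657010) (nat_lit 2) (nat_lit 5) (nat_lit 4) (nat_lit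 4) (nat_lit 2) (nat_lit 4) (nat_lit 256) (nat_lit 217) (nat_lit 187))) (XT.nd (nat_lit 78) (nat_lit 0) (nat_lit 0) (XT.lf (nat_lit 0) (nat_lit 71803954785) (nat_lit 152) (nat_lit 60190656355) (nat_lit 0) (nat_lit 66890206704) (nat_lit 2) (nat_lit 5) (nat_lit 4) (nat_lit 4) (nat_lit 2) (nat_lit 4) (nat_lit 257) (nat_lit 217) (nat_lit 186)) (XT.nd (nat_lit 78) (nat_lit 0) (nat_lit 0) (XT.lf (nat_lit 0) (nat_lit 87548004027) (nat_lit 152) (nat_lit 57680702945) (nat_lit 0) (nat_lit 82625726621) (nat_lit 2) (nat_lit 5) (nat_lit 4) (nat_lit 4) (nat_lit 2) (nat_lit 4) (nat_lit 258) (nat_lit 217) (nat_lit 185)) (XT.lf (nat_lit 0) (nat_lit 105635779839) (nat_lit 152) (nat_lit 54830324169) (nat_lit 0) (nat_lit 100706085629) (nat_lit 2) (nat_lit 5) (nat_lit 4) (nat_lit 4) (nat_lit 2) (nat_lit 4) (nat_lit 259) (nat_lit 217) (nat_lit 184))))))))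
noncomputable def xc43 : XT := (XT.nd (nat_lit 1404) (nat_lit 0) (nat_lit 0) (XT.nd (nat_lit 702) (nat_lit 76) (nat_lit 0) (XT.nd (nat_lit 312) (nat_lit 0) (nat_lit 0) (XT.nd (nat_lit 156) (nat_lit 0) (nat_lit 0) (XT.nd (nat_lit 78) (nat_lit 0) (nat_lit 0) (XT.lf (nat_lit 0) (nat_lit 126421173488) (nat_lit 152) (nat_lit 51583751746) (nat_lit 0) (nat_lit 121485029882) (nat_lit 2) (nat_lit 5) (nat_lit 4) (nat_lit 4) (nat_lit 2) (nat_lit 4) (nat_lit 260) (nat_lit 217) (nat_lit 183)) (XT.lf (nat_lit 0) (nat_lit 150310855717) (nat_lit 152) (nat_lit 47877465781) (nat_lit 0) (nat_lit 145369103942) (nat_lit 2) (nat_lit 5) (nat_lit 4) (nat_lit 4) (nat_lit 2) (nat_lit 4) (nat_lit 261) (nat_lit 217) (nat_lit 182))) (XT.nd (nat_lit 78) (nat_lit 0) (nat_lit 0) (XT.lf (nat_lit 0) (nat_lit 177772233354) (nat_lit 152) (nat_lit 43638951984) (nat_lit 0) (nat_lit 172825604909) (nat_lit 2) (nat_lit 5) (nat_lit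 4) (nat_lit 4) (nat_lit 2) (nat_lit 4) (nat_lit 262) (nat_lit 217) (nat_lit 181)) (XT.lf (nat_lit 0) (nat_lit 209342594222) (nat_lit 152) (nat_lit 38785282911) (nat_lit 0) (nat_lit 204391725195) (nat_lit 2) (nat_lit 5) (nat_lit 4) (nat_lit 4) (nat_lit 2) (nat_lit 4) (nat_lit 263) (nat_lit 217) (nat_lit 180)))) (XT.nd (nat_lit 156) (nat_lit 0) (nat_lit 0) (XT.nd (nat_lit 78) (nat_lit 0) (nat_lit 0) (XT.lf (nat_lit 0) (nat_lit 245639619294) (nat_lit 152) (nat_lit 33221495471) (nat_lit 0) (nat_lit 240685062804) (nat_lit 2) (nat_lit 5) (nat_lit 4) (nat_lit 4) (nat_lit 2) (nat_lit 4) (nat_lit 264) (nat_lit 217) (nat_lit 179)) (XT.lf (nat_lit 0) (nat_lit 287373467756) (nat_lit 152) (nat_lit 26838732953) (nat_lit 0) (nat_lit 282415704778) (nat_lit 2) (nat_lit 5) (nat_lit 4) (nat_lit 4) (nat_lit 2) (nat_lit 4) (nat_lit 265) (nat_lit 217) (nat_lit 178))) (XT.nd (nat_lit 78) (nat_lit 0) (nat_lit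 0) (XT.lf (nat_lit 0) (nat_lit 335360671427) (nat_lit 152) (nat_lit 19512115222) (nat_lit 0) (nat_lit 330400120197) (nat_lit 2) (nat_lit 5) (nat_lit 4) (nat_lit 4) (nat_lit 2) (nat_lit 4) (nat_lit 266) (nat_lit 217) (nat_lit 177)) (XT.nd (nat_lit 78) (nat_lit 0) (nat_lit 0) (XT.lf (nat_lit 0) (nat_lit 390540110378) (nat_lit 152) (nat_lit 11098295409) (nat_lit 0) (nat_lit 385577134582) (nat_lit 2) (nat_lit 5) (nat_lit 4) (nat_lit 4) (nat_lit 2) (nat_lit 4) (nat_lit 267) (nat_lit 217) (nat_lit 176)) (XT.lf (nat_lit 0) (nat_lit 453991382328) (nat_lit 152) (nat_lit 1432655299) (nat_lit 0) (nat_lit 449026298213) (nat_lit 2) (nat_lit 5) (nat_lit 4) (nat_lit 4) (nat_lit 2) (nat_lit 4) (nat_lit 268) (nat_lit 217) (nat_lit 175)))))) (XT.nd (nat_lit 312) (nat_lit 0) (nat_lit 0) (XT.nd (nat_lit 156) (nat_lit 0) (nat_lit 0) (XT.nd (nat_lit 78) (nat_lit 0) (nat_lit 0) (XT.lf (nat_lit 0) (nat_lit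 10619320830) (nat_lit 76) (nat_lit 516776327805) (nat_lit 76) (nat_lit 511809410370) (nat_lit 1) (nat_lit 4) (nat_lit 2) (nat_lit 5) (nat_lit 2) (nat_lit 4) (nat_lit 269) (nat_lit 217) (nat_lit 174)) (XT.lf (nat_lit 0) (nat_lit 24631594173) (nat_lit 76) (nat_lit 587249653770) (nat_lit 76) (nat_lit 582281142142) (nat_lit 1) (nat_lit 4) (nat_lit 2) (nat_lit 5) (nat_lit 2) (nat_lit 4) (nat_lit 270) (nat_lit 217) (nat_lit 173))) (XT.nd (nat_lit 78) (nat_lit 0) (nat_lit 0) (XT.lf (nat_lit 0) (nat_lit 40738308407) (nat_lit 76) (nat_lit 668297730264) (nat_lit 76) (nat_lit 663327832382) (nat_lit 1) (nat_lit 4) (nat_lit 2) (nat_lit 5) (nat_lit 2) (nat_lit 4) (nat_lit 271) (nat_lit 217) (nat_lit 172)) (XT.lf (nat_lit 0) (nat_lit 59254594898) (nat_lit 76) (nat_lit 761506280523) (nat_lit 76) (nat_lit 756535177203) (nat_lit 1) (nat_lit 4) (nat_lit 2) (nat_lit 5) (nat_lit 2) (nat_lit 4) (nat_lit 272)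 (nat_lit 217) (nat_lit 171)))) (XT.nd (nat_lit 156) (nat_lit 0) (nat_lit 0) (XT.nd (nat_lit 78) (nat_lit 0) (nat_lit 0) (XT.lf (nat_lit 0) (nat_lit 80542728817) (nat_lit 76) (nat_lit 868698950096) (nat_lit 76) (nat_lit 863726798569) (nat_lit 1) (nat_lit 4) (nat_lit 2) (nat_lit 5) (nat_lit 2) (nat_lit 4) (nat_lit 273) (nat_lit 217) (nat_lit 170)) (XT.lf (nat_lit 0) (nat_lit 105019217131) (nat_lit 76) (nat_lit 991972986865) (nat_lit 76) (nat_lit 986999923854) (nat_lit 1) (nat_lit 4) (nat_lit 2) (nat_lit 5) (nat_lit 2) (nat_lit 4) (nat_lit 274) (nat_lit 217) (nat_lit 169))) (XT.nd (nat_lit 78) (nat_lit 0) (nat_lit 0) (XT.lf (nat_lit 0) (nat_lit 133162947656) (nat_lit 76) (nat_lit 1133740274159) (nat_lit 76) (nat_lit 1128766418553) (nat_lit 1) (nat_lit 4) (nat_lit 2) (nat_lit 5) (nat_lit 2) (nat_lit 4) (nat_lit 275) (nat_lit 217) (nat_lit 168)) (XT.nd (nat_lit 78) (nat_lit 0) (nat_lit 0)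 (XT.lf (nat_lit 0) (nat_lit 165524558597) (nat_lit 76) (nat_lit 1296774519772) (nat_lit 76) (nat_lit 1291799974953) (nat_lit 1) (nat_lit 4) (nat_lit 2) (nat_lit 5) (nat_lit 2) (nat_lit 4) (nat_lit 276) (nat_lit 217) (nat_lit 167)) (XT.lf (nat_lit 0) (nat_lit 202737211908) (nat_lit 76) (nat_lit 1484265524162) (nat_lit 76) (nat_lit 1479290380028) (nat_lit 1) (nat_lit 4) (nat_lit 2) (nat_lit 5) (nat_lit 2) (nat_lit 4) (nat_lit 277) (nat_lit 217) (nat_lit 166))))))) (XT.nd (nat_lit 702) (nat_lit 0) (nat_lit 0) (XT.nd (nat_lit 312) (nat_lit 0) (nat_lit 0) (XT.nd (nat_lit 156) (nat_lit 0) (nat_lit 0) (XT.nd (nat_lit 78) (nat_lit 0) (nat_lit 0) (XT.lf (nat_lit 0) (nat_lit 245528981239) (nat_lit 76) (nat_lit 1699881589590) (nat_lit 76) (nat_lit 1694905924311) (nat_lit 1) (nat_lit 4) (nat_lit 2) (nat_lit 5) (nat_lit 2) (nat_lit 4) (nat_lit 278) (nat_lit 217) (nat_lit 165)) (XT.lf (nat_lit 0)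 (nat_lit 294737096862) (nat_lit 76) (nat_lit 1947841291248) (nat_lit 76) (nat_lit 1942865172800) (nat_lit 1) (nat_lit 4) (nat_lit 2) (nat_lit 5) (nat_lit 2) (nat_lit 4) (nat_lit 279) (nat_lit 217) (nat_lit 164))) (XT.nd (nat_lit 78) (nat_lit 0) (nat_lit 0) (XT.lf (nat_lit 0) (nat_lit 351324326254) (nat_lit 76) (nat_lit 2232996014603) (nat_lit 76) (nat_lit 2228019502095) (nat_lit 1) (nat_lit 4) (nat_lit 2) (nat_lit 5) (nat_lit 2) (nat_lit 4) (nat_lit 280) (nat_lit 217) (nat_lit 163)) (XT.lf (nat_lit 0) (nat_lit 416397810862) (nat_lit 76) (nat_lit 2560924873808) (nat_lit 76) (nat_lit 2555948018639) (nat_lit 1) (nat_lit 4) (nat_lit 2) (nat_lit 5) (nat_lit 2) (nat_lit 4) (nat_lit 281) (nat_lit 217) (nat_lit 162)))) (XT.nd (nat_lit 156) (nat_lit 0) (nat_lit 0) (XT.nd (nat_lit 78) (nat_lit 0) (nat_lit 0) (XT.lf (nat_lit 0) (nat_lit 491230727558) (nat_lit 76) (nat_lit 2938043868282) (nat_lit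 76) (nat_lit 2933066715147) (nat_lit 1) (nat_lit 4) (nat_lit 2) (nat_lit 5) (nat_lit 2) (nat_lit 4) (nat_lit 282) (nat_lit 217) (nat_lit 161)) (XT.lf (nat_lit 0) (nat_lit 577287198624) (nat_lit 76) (nat_lit 3371731413134) (nat_lit 76) (nat_lit 3366754000899) (nat_lit 1) (nat_lit 4) (nat_lit 2) (nat_lit 5) (nat_lit 2) (nat_lit 4) (nat_lit 283) (nat_lit 217) (nat_lit 160))) (XT.nd (nat_lit 78) (nat_lit 0) (nat_lit 0) (XT.lf (nat_lit 0) (nat_lit 676250937625) (nat_lit 76) (nat_lit 3870472699460) (nat_lit 76) (nat_lit 3865495061920) (nat_lit 1) (nat_lit 4) (nat_lit 2) (nat_lit 5) (nat_lit 2) (nat_lit 4) (nat_lit 284) (nat_lit 217) (nat_lit 159)) (XT.nd (nat_lit 78) (nat_lit 0) (nat_lit 0) (XT.lf (nat_lit 0) (nat_lit 790058191630) (nat_lit 76) (nat_lit 4444025708949) (nat_lit 76) (nat_lit 4439047875491) (nat_lit 1) (nat_lit 4) (nat_lit 2) (nat_lit 5) (nat_lit 2) (nat_lit 4) (nat_lit 285)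 (nat_lit 217) (nat_lit 158)) (XT.lf (nat_lit 0) (nat_lit 920935624302) (nat_lit 76) (nat_lit 5103612130915) (nat_lit 76) (nat_lit 5098634127095) (nat_lit 1) (nat_lit 4) (nat_lit 2) (nat_lit 5) (nat_lit 2) (nat_lit 4) (nat_lit 286) (nat_lit 217) (nat_lit 157)))))) (XT.nd (nat_lit 312) (nat_lit 0) (nat_lit 0) (XT.nd (nat_lit 156) (nat_lit 0) (nat_lit 0) (XT.nd (nat_lit 78) (nat_lit 0) (nat_lit 0) (XT.lf (nat_lit 0) (nat_lit 1071443881064) (nat_lit 76) (nat_lit 5862136917095) (nat_lit 76) (nat_lit 5857158765133) (nat_lit 1) (nat_lit 4) (nat_lit 2) (nat_lit 5) (nat_lit 2) (nat_lit 4) (nat_lit 287) (nat_lit 217) (nat_lit 156)) (XT.lf (nat_lit 0) (nat_lit 1244527688678) (nat_lit 76) (nat_lit 6734440769825) (nat_lit 76) (nat_lit 6729462489044) (nat_lit 1) (nat_lit 4) (nat_lit 2) (nat_lit 5) (nat_lit 2) (nat_lit 4) (nat_lit 288) (nat_lit 217) (nat_lit 155))) (XT.nd (nat_lit 78) (nat_lit 0) (nat_lit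 0) (XT.lf (nat_lit 0) (nat_lit 1443573469468) (nat_lit 76) (nat_lit 7737590503616) (nat_lit 76) (nat_lit 7732612110819) (nat_lit 1) (nat_lit 4) (nat_lit 2) (nat_lit 5) (nat_lit 2) (nat_lit 4) (nat_lit 289) (nat_lit 217) (nat_lit 154)) (XT.lf (nat_lit 0) (nat_lit 1672475597405) (nat_lit 76) (nat_lit 8891212961086) (nat_lit 76) (nat_lit 8886234470883) (nat_lit 1) (nat_lit 4) (nat_lit 2) (nat_lit 5) (nat_lit 2) (nat_lit 4) (nat_lit 290) (nat_lit 217) (nat_lit 153)))) (XT.nd (nat_lit 156) (nat_lit 0) (nat_lit 0) (XT.nd (nat_lit 78) (nat_lit 0) (nat_lit 0) (XT.lf (nat_lit 0) (nat_lit 1935712592384) (nat_lit 76) (nat_lit 10217879016402) (nat_lit 76) (nat_lit 10212900441498) (nat_lit 1) (nat_lit 4) (nat_lit 2) (nat_lit 5) (nat_lit 2) (nat_lit 4) (nat_lit 291) (nat_lit 217) (nat_lit 152)) (XT.lf (nat_lit 0) (nat_lit 2238434743437) (nat_lit 76) (nat_lit 11743545179342) (nat_lit 76) (nat_lit 11738566530786)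 (nat_lit 1) (nat_lit 4) (nat_lit 2) (nat_lit 5) (nat_lit 2) (nat_lit 4) (nat_lit 292) (nat_lit 217) (nat_lit 151))) (XT.nd (nat_lit 78) (nat_lit 0) (nat_lit 0) (XT.lf (nat_lit 0) (nat_lit 2586564875259) (nat_lit 76) (nat_lit 13498061440051) (nat_lit 76) (nat_lit 13493082727449) (nat_lit 1) (nat_lit 4) (nat_lit 2) (nat_lit 5) (nat_lit 2) (nat_lit 4) (nat_lit 293) (nat_lit 217) (nat_lit 150)) (XT.nd (nat_lit 78) (nat_lit 0) (nat_lit 0) (XT.lf (nat_lit 0) (nat_lit 2986914229559) (nat_lit 76) (nat_lit 15515755290586) (nat_lit 76) (nat_lit 15510776522293) (nat_lit 1) (nat_lit 4) (nat_lit 2) (nat_lit 5) (nat_lit 2) (nat_lit 4) (nat_lit 294) (nat_lit 217) (nat_lit 149)) (XT.lf (nat_lit 0) (nat_lit 3447315728486) (nat_lit 76) (nat_lit 17836103349762) (nat_lit 76) (nat_lit 17831124533041) (nat_lit 1) (nat_lit 4) (nat_lit 2) (nat_lit 5) (nat_lit 2) (nat_lit 4) (nat_lit 295) (nat_lit 217) (nat_lit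 148))))))))
noncomputable def xc44 : XT := (XT.nd (nat_lit 29718) (nat_lit 0) (nat_lit 76) (XT.nd (nat_lit 29016) (nat_lit 0) (nat_lit 684) (XT.nd (nat_lit 1248) (nat_lit 0) (nat_lit 0) (XT.nd (nat_lit 156) (nat_lit 0) (nat_lit 0) (XT.nd (nat_lit 78) (nat_lit 0) (nat_lit 0) (XT.lf (nat_lit 0) (nat_lit 3976777227454) (nat_lit 76) (nat_lit 20504503731781) (nat_lit 76) (nat_lit 20499524872948) (nat_lit 1) (nat_lit 4) (nat_lit 2) (nat_lit 5) (nat_lit 2) (nat_lit 4) (nat_lit 296) (nat_lit 217) (nat_lit 147)) (XT.lf (nat_lit 0) (nat_lit 4585657755791) (nat_lit 76) (nat_lit 23573164270202) (nat_lit 76) (nat_lit 23568185374751) (nat_lit 1) (nat_lit 4) (nat_lit 2) (nat_lit 5) (nat_lit 2) (nat_lit 4) (nat_lit 297) (nat_lit 217) (nat_lit 146))) (XT.nd (nat_lit 78) (nat_lit 0) (nat_lit 0) (XT.lf (nat_lit 0) (nat_lit 5285870193399) (nat_lit 76) (nat_lit 27102123975562) (nat_lit 76) (nat_lit 27097145048269)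 (nat_lit 1) (nat_lit 4) (nat_lit 2) (nat_lit 5) (nat_lit 2) (nat_lit 4) (nat_lit 298) (nat_lit 217) (nat_lit 145)) (XT.lf (nat_lit 0) (nat_lit 6091114348841) (nat_lit 76) (nat_lit 31160427711660) (nat_lit 76) (nat_lit 31155448756678) (nat_lit 1) (nat_lit 4) (nat_lit 2) (nat_lit 5) (nat_lit 2) (nat_lit 4) (nat_lit 299) (nat_lit 217) (nat_lit 144)))) (XT.nd (nat_lit 27534) (nat_lit 0) (nat_lit 1748) (XT.nd (nat_lit 78) (nat_lit 0) (nat_lit 0) (XT.lf (nat_lit 0) (nat_lit 37902031693371) (nat_lit 76) (nat_lit 191482527880435) (nat_lit 76) (nat_lit 191477548770862) (nat_lit 1) (nat_lit 4) (nat_lit 2) (nat_lit 5) (nat_lit 2) (nat_lit 4) (nat_lit 312) (nat_lit 217) (nat_lit 131)) (XT.lf (nat_lit 0) (nat_lit 43599699227683) (nat_lit 76) (nat_lit 220197892631223) (nat_lit 76) (nat_lit 220192913517738) (nat_lit 1) (nat_lit 4) (nat_lit 2) (nat_lit 5) (nat_lit 2) (nat_lit 4) (nat_lit 313) (nat_lit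 217) (nat_lit 130))) (XT.nd (nat_lit 78) (nat_lit 228) (nat_lit 0) (XT.lf (nat_lit 0) (nat_lit 416600245) (nat_lit 228) (nat_lit 2584116377) (nat_lit 0) (nat_lit 416600245) (nat_lit 27) (nat_lit 5) (nat_lit 30) (nat_lit 4) (nat_lit 27) (nat_lit 4) (nat_lit 224) (nat_lit 218) (nat_lit 218)) (XT.nd (nat_lit 78) (nat_lit 228) (nat_lit 0) (XT.lf (nat_lit 0) (nat_lit 3994473509) (nat_lit 228) (nat_lit 807309841) (nat_lit 0) (nat_lit 2266915650) (nat_lit 27) (nat_lit 5) (nat_lit 30) (nat_lit 4) (nat_lit 27) (nat_lit 4) (nat_lit 225) (nat_lit 218) (nat_lit 217)) (XT.lf (nat_lit 0) (nat_lit 4139836469) (nat_lit 228) (nat_lit 3234668398) (nat_lit 228) (nat_lit 4886313) (nat_lit 24) (nat_lit 4) (nat_lit 27) (nat_lit 5) (nat_lit 27) (nat_lit 4) (nat_lit 226) (nat_lit 218) (nat_lit 216)))))) (XT.nd (nat_lit 312) (nat_lit 380) (nat_lit 0) (XT.nd (nat_lit 156) (nat_lit 304) (nat_lit 0) (XT.nd (nat_lit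 78) (nat_lit 0) (nat_lit 0) (XT.lf (nat_lit 0) (nat_lit 1737035583) (nat_lit 304) (nat_lit 1180685162) (nat_lit 380) (nat_lit 4843493213) (nat_lit 19) (nat_lit 5) (nat_lit 23) (nat_lit 5) (nat_lit 24) (nat_lit 4) (nat_lit 227) (nat_lit 218) (nat_lit 215)) (XT.lf (nat_lit 0) (nat_lit 6127691903) (nat_lit 380) (nat_lit 901716277) (nat_lit 0) (nat_lit 1195551595) (nat_lit 19) (nat_lit 5) (nat_lit 24) (nat_lit 4) (nat_lit 19) (nat_lit 4) (nat_lit 228) (nat_lit 218) (nat_lit 214))) (XT.nd (nat_lit 78) (nat_lit 76) (nat_lit 0) (XT.lf (nat_lit 0) (nat_lit 894828652) (nat_lit 228) (nat_lit 3867160282) (nat_lit 76) (nat_lit 4002023433) (nat_lit 16) (nat_lit 5) (nat_lit 19) (nat_lit 5) (nat_lit 17) (nat_lit 4) (nat_lit 229) (nat_lit 218) (nat_lit 213)) (XT.lf (nat_lit 0) (nat_lit 1915839783) (nat_lit 76) (nat_lit 2016138171) (nat_lit 152) (nat_lit 5466705036) (nat_lit 15) (nat_lit 5) (nat_lit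 16) (nat_lit 5) (nat_lit 17) (nat_lit 4) (nat_lit 230) (nat_lit 218) (nat_lit 212)))) (XT.nd (nat_lit 156) (nat_lit 152) (nat_lit 0) (XT.nd (nat_lit 78) (nat_lit 228) (nat_lit 0) (XT.lf (nat_lit 0) (nat_lit 7384638135) (nat_lit 152) (nat_lit 1616374316) (nat_lit 0) (nat_lit 1134754823) (nat_lit 15) (nat_lit 5) (nat_lit 17) (nat_lit 4) (nat_lit 15) (nat_lit 4) (nat_lit 231) (nat_lit 218) (nat_lit 211)) (XT.lf (nat_lit 0) (nat_lit 386412533) (nat_lit 228) (nat_lit 5910176129) (nat_lit 76) (nat_lit 4678267388) (nat_lit 12) (nat_lit 5) (nat_lit 15) (nat_lit 5) (nat_lit 13) (nat_lit 4) (nat_lit 232) (nat_lit 218) (nat_lit 210))) (XT.nd (nat_lit 78) (nat_lit 76) (nat_lit 0) (XT.lf (nat_lit 0) (nat_lit 502900765) (nat_lit 76) (nat_lit 3064954919) (nat_lit 152) (nat_lit 8374853060) (nat_lit 11) (nat_lit 5) (nat_lit 12) (nat_lit 5) (nat_lit 13) (nat_lit 4) (nat_lit 233) (nat_lit 218) (nat_lit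 209)) (XT.nd (nat_lit 78) (nat_lit 76) (nat_lit 0) (XT.lf (nat_lit 0) (nat_lit 7333396783) (nat_lit 152) (nat_lit 4929528649) (nat_lit 0) (nat_lit 777469991) (nat_lit 11) (nat_lit 5) (nat_lit 13) (nat_lit 4) (nat_lit 11) (nat_lit 4) (nat_lit 234) (nat_lit 218) (nat_lit 208)) (XT.lf (nat_lit 0) (nat_lit 2245507466) (nat_lit 76) (nat_lit 9445241225) (nat_lit 76) (nat_lit 2608537984) (nat_lit 10) (nat_lit 4) (nat_lit 11) (nat_lit 5) (nat_lit 11) (nat_lit 4) (nat_lit 235) (nat_lit 218) (nat_lit 207))))))) (XT.nd (nat_lit 702) (nat_lit 228) (nat_lit 0) (XT.nd (nat_lit 312) (nat_lit 152) (nat_lit 0) (XT.nd (nat_lit 156) (nat_lit 76) (nat_lit 0) (XT.nd (nat_lit 78) (nat_lit 76) (nat_lit 0) (XT.lf (nat_lit 0) (nat_lit 930947218) (nat_lit 152) (nat_lit 5079320154) (nat_lit 76) (nat_lit 9722079742) (nat_lit 9) (nat_lit 5) (nat_lit 11) (nat_lit 5) (nat_lit 10) (nat_lit 4) (nat_lit 236) (nat_lit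 218) (nat_lit 206)) (XT.lf (nat_lit 0) (nat_lit 2739246025) (nat_lit 76) (nat_lit 1926991199) (nat_lit 152) (nat_lit 12706098524) (nat_lit 8) (nat_lit 5) (nat_lit 9) (nat_lit 5) (nat_lit 10) (nat_lit 4) (nat_lit 237) (nat_lit 218) (nat_lit 205))) (XT.nd (nat_lit 78) (nat_lit 76) (nat_lit 0) (XT.lf (nat_lit 0) (nat_lit 9178443912) (nat_lit 152) (nat_lit 7371700176) (nat_lit 0) (nat_lit 2676027319) (nat_lit 8) (nat_lit 5) (nat_lit 10) (nat_lit 4) (nat_lit 8) (nat_lit 4) (nat_lit 238) (nat_lit 218) (nat_lit 204)) (XT.lf (nat_lit 0) (nat_lit 661358518) (nat_lit 76) (nat_lit 13672070716) (nat_lit 76) (nat_lit 7030058606) (nat_lit 7) (nat_lit 4) (nat_lit 8) (nat_lit 5) (nat_lit 8) (nat_lit 4) (nat_lit 239) (nat_lit 218) (nat_lit 203)))) (XT.nd (nat_lit 156) (nat_lit 76) (nat_lit 0) (XT.nd (nat_lit 78) (nat_lit 76) (nat_lit 0) (XT.lf (nat_lit 0) (nat_lit 10456137018) (nat_lit 76) (nat_lit 10046396184)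 (nat_lit 76) (nat_lit 3282996666) (nat_lit 7) (nat_lit 4) (nat_lit 8) (nat_lit 5) (nat_lit 8) (nat_lit 4) (nat_lit 240) (nat_lit 218) (nat_lit 202)) (XT.lf (nat_lit 0) (nat_lit 802960400) (nat_lit 152) (nat_lit 5142588923) (nat_lit 76) (nat_lit 20638922809) (nat_lit 6) (nat_lit 5) (nat_lit 8) (nat_lit 5) (nat_lit 7) (nat_lit 4) (nat_lit 241) (nat_lit 218) (nat_lit 201))) (XT.nd (nat_lit 78) (nat_lit 0) (nat_lit 0) (XT.lf (nat_lit 0) (nat_lit 4280119196) (nat_lit 76) (nat_lit 948187454) (nat_lit 152) (nat_lit 24542277455) (nat_lit 5) (nat_lit 5) (nat_lit 6) (nat_lit 5) (nat_lit 7) (nat_lit 4) (nat_lit 242) (nat_lit 218) (nat_lit 200)) (XT.nd (nat_lit 78) (nat_lit 0) (nat_lit 0) (XT.lf (nat_lit 0) (nat_lit 10685452897) (nat_lit 152) (nat_lit 18130876442) (nat_lit 0) (nat_lit 4563231771) (nat_lit 5) (nat_lit 5) (nat_lit 7) (nat_lit 4) (nat_lit 5) (nat_lit 4) (nat_lit 243) (nat_lit 218)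 (nat_lit 199)) (XT.lf (nat_lit 0) (nat_lit 16908647124) (nat_lit 152) (nat_lit 9903169780) (nat_lit 0) (nat_lit 10726075003) (nat_lit 5) (nat_lit 5) (nat_lit 7) (nat_lit 4) (nat_lit 5) (nat_lit 4) (nat_lit 244) (nat_lit 218) (nat_lit 198)))))) (XT.nd (nat_lit 312) (nat_lit 152) (nat_lit 0) (XT.nd (nat_lit 156) (nat_lit 0) (nat_lit 0) (XT.nd (nat_lit 78) (nat_lit 76) (nat_lit 0) (XT.lf (nat_lit 0) (nat_lit 23980385059) (nat_lit 152) (nat_lit 607105632) (nat_lit 0) (nat_lit 17745333813) (nat_lit 5) (nat_lit 5) (nat_lit 7) (nat_lit 4) (nat_lit 5) (nat_lit 4) (nat_lit 245) (nat_lit 218) (nat_lit 197)) (XT.lf (nat_lit 0) (nat_lit 10910525986) (nat_lit 76) (nat_lit 21580282421) (nat_lit 76) (nat_lit 15299597152) (nat_lit 4) (nat_lit 4) (nat_lit 5) (nat_lit 5) (nat_lit 5) (nat_lit 4) (nat_lit 246) (nat_lit 218) (nat_lit 196))) (XT.nd (nat_lit 78) (nat_lit 0) (nat_lit 0) (XT.lf (nat_lit 0) (nat_lit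 24086413423) (nat_lit 76) (nat_lit 18153194996) (nat_lit 76) (nat_lit 11832827969) (nat_lit 4) (nat_lit 4) (nat_lit 5) (nat_lit 5) (nat_lit 5) (nat_lit 4) (nat_lit 247) (nat_lit 218) (nat_lit 195)) (XT.lf (nat_lit 0) (nat_lit 39119015001) (nat_lit 76) (nat_lit 14270911774) (nat_lit 76) (nat_lit 7916038869) (nat_lit 4) (nat_lit 4) (nat_lit 5) (nat_lit 5) (nat_lit 5) (nat_lit 4) (nat_lit 248) (nat_lit 218) (nat_lit 194)))) (XT.nd (nat_lit 156) (nat_lit 76) (nat_lit 0) (XT.nd (nat_lit 78) (nat_lit 76) (nat_lit 0) (XT.lf (nat_lit 0) (nat_lit 56302446839) (nat_lit 76) (nat_lit 9857475038) (nat_lit 76) (nat_lit 3472597023) (nat_lit 4) (nat_lit 4) (nat_lit 5) (nat_lit 5) (nat_lit 5) (nat_lit 4) (nat_lit 249) (nat_lit 218) (nat_lit 193)) (XT.lf (nat_lit 0) (nat_lit 1443377161) (nat_lit 152) (nat_lit 3307708518) (nat_lit 76) (nat_lit 74454080093) (nat_lit 3) (nat_lit 5) (nat_lit 5) (nat_lit 5)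 (nat_lit 4) (nat_lit 4) (nat_lit 250) (nat_lit 218) (nat_lit 192))) (XT.nd (nat_lit 78) (nat_lit 0) (nat_lit 0) (XT.lf (nat_lit 0) (nat_lit 7131419216) (nat_lit 152) (nat_lit 81462063966) (nat_lit 0) (nat_lit 1536934355) (nat_lit 2) (nat_lit 5) (nat_lit 4) (nat_lit 4) (nat_lit 2) (nat_lit 4) (nat_lit 251) (nat_lit 218) (nat_lit 191)) (XT.nd (nat_lit 78) (nat_lit 0) (nat_lit 0) (XT.lf (nat_lit 0) (nat_lit 14038686760) (nat_lit 152) (nat_lit 80173857620) (nat_lit 0) (nat_lit 8427046379) (nat_lit 2) (nat_lit 5) (nat_lit 4) (nat_lit 4) (nat_lit 2) (nat_lit 4) (nat_lit 252) (nat_lit 218) (nat_lit 190)) (XT.lf (nat_lit 0) (nat_lit 21946079726) (nat_lit 152) (nat_lit 78764965241) (nat_lit 0) (nat_lit 16319521503) (nat_lit 2) (nat_lit 5) (nat_lit 4) (nat_lit 4) (nat_lit 2) (nat_lit 4) (nat_lit 253) (nat_lit 218) (nat_lit 189))))))))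
noncomputable def xc45 : XT := (XT.nd (nat_lit 1404) (nat_lit 0) (nat_lit 0) (XT.nd (nat_lit 702) (nat_lit 76) (nat_lit 0) (XT.nd (nat_lit 312) (nat_lit 0) (nat_lit 0) (XT.nd (nat_lit 156) (nat_lit 0) (nat_lit 0) (XT.nd (nat_lit 78) (nat_lit 0) (nat_lit 0) (XT.lf (nat_lit 0) (nat_lit 31008307979) (nat_lit 152) (nat_lit 77207821542) (nat_lit 0) (nat_lit 25368777718) (nat_lit 2) (nat_lit 5) (nat_lit 4) (nat_lit 4) (nat_lit 2) (nat_lit 4) (nat_lit 254) (nat_lit 218) (nat_lit 188)) (XT.lf (nat_lit 0) (nat_lit 41402675983) (nat_lit 152) (nat_lit 75471960669) (nat_lit 0) (nat_lit 35751865690) (nat_lit 2) (nat_lit 5) (nat_lit 4) (nat_lit 4) (nat_lit 2) (nat_lit 4) (nat_lit 255) (nat_lit 218) (nat_lit 187))) (XT.nd (nat_lit 78) (nat_lit 0) (nat_lit 0) (XT.lf (nat_lit 0) (nat_lit 53332551808) (nat_lit 152) (nat_lit 73523420126) (nat_lit 0) (nat_lit 47671932791) (nat_lit 2) (nat_lit 5) (nat_lit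 4) (nat_lit 4) (nat_lit 2) (nat_lit 4) (nat_lit 256) (nat_lit 218) (nat_lit 186)) (XT.lf (nat_lit 0) (nat_lit 67031346069) (nat_lit 152) (nat_lit 71324076294) (nat_lit 0) (nat_lit 61362197727) (nat_lit 2) (nat_lit 5) (nat_lit 4) (nat_lit 4) (nat_lit 2) (nat_lit 4) (nat_lit 257) (nat_lit 218) (nat_lit 185)))) (XT.nd (nat_lit 156) (nat_lit 0) (nat_lit 0) (XT.nd (nat_lit 78) (nat_lit 0) (nat_lit 0) (XT.lf (nat_lit 0) (nat_lit 82767078652) (nat_lit 152) (nat_lit 68830898533) (nat_lit 0) (nat_lit 77090513505) (nat_lit 2) (nat_lit 5) (nat_lit 4) (nat_lit 4) (nat_lit 2) (nat_lit 4) (nat_lit 258) (nat_lit 218) (nat_lit 184)) (XT.lf (nat_lit 0) (nat_lit 100847622587) (nat_lit 152) (nat_lit 65995107277) (nat_lit 0) (nat_lit 95164608045) (nat_lit 2) (nat_lit 5) (nat_lit 4) (nat_lit 4) (nat_lit 2) (nat_lit 4) (nat_lit 259) (nat_lit 218) (nat_lit 183))) (XT.nd (nat_lit 78) (nat_lit 0) (nat_lit 0)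 (XT.lf (nat_lit 0) (nat_lit 121626727646) (nat_lit 152) (nat_lit 62761219655) (nat_lit 0) (nat_lit 115938104935) (nat_lit 2) (nat_lit 5) (nat_lit 4) (nat_lit 4) (nat_lit 2) (nat_lit 4) (nat_lit 260) (nat_lit 218) (nat_lit 182)) (XT.nd (nat_lit 78) (nat_lit 0) (nat_lit 0) (XT.lf (nat_lit 0) (nat_lit 145510941537) (nat_lit 152) (nat_lit 59065963952) (nat_lit 0) (nat_lit 139817442157) (nat_lit 2) (nat_lit 5) (nat_lit 4) (nat_lit 4) (nat_lit 2) (nat_lit 4) (nat_lit 261) (nat_lit 218) (nat_lit 181)) (XT.lf (nat_lit 0) (nat_lit 172967564098) (nat_lit 152) (nat_lit 54837041687) (nat_lit 0) (nat_lit 167269824135) (nat_lit 2) (nat_lit 5) (nat_lit 4) (nat_lit 4) (nat_lit 2) (nat_lit 4) (nat_lit 262) (nat_lit 218) (nat_lit 180)))))) (XT.nd (nat_lit 312) (nat_lit 76) (nat_lit 0) (XT.nd (nat_lit 156) (nat_lit 0) (nat_lit 0) (XT.nd (nat_lit 78) (nat_lit 0) (nat_lit 0) (XT.lf (nat_lit 0) (nat_lit 204533790116)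 (nat_lit 152) (nat_lit 49991713076) (nat_lit 0) (nat_lit 198832362691) (nat_lit 2) (nat_lit 5) (nat_lit 4) (nat_lit 4) (nat_lit 2) (nat_lit 4) (nat_lit 263) (nat_lit 218) (nat_lit 179)) (XT.lf (nat_lit 0) (nat_lit 240827219667) (nat_lit 152) (nat_lit 44435178212) (nat_lit 0) (nat_lit 235122585753) (nat_lit 2) (nat_lit 5) (nat_lit 4) (nat_lit 4) (nat_lit 2) (nat_lit 4) (nat_lit 264) (nat_lit 218) (nat_lit 178))) (XT.nd (nat_lit 78) (nat_lit 0) (nat_lit 0) (XT.lf (nat_lit 0) (nat_lit 282557941590) (nat_lit 152) (nat_lit 38058722283) (nat_lit 0) (nat_lit 276850519424) (nat_lit 2) (nat_lit 5) (nat_lit 4) (nat_lit 4) (nat_lit 2) (nat_lit 4) (nat_lit 265) (nat_lit 218) (nat_lit 177)) (XT.lf (nat_lit 0) (nat_lit 330542426530) (nat_lit 152) (nat_lit 30737588541) (nat_lit 0) (nat_lit 324832579798) (nat_lit 2) (nat_lit 5) (nat_lit 4) (nat_lit 4) (nat_lit 2) (nat_lit 4) (nat_lit 266) (nat_lit 218)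 (nat_lit 176)))) (XT.nd (nat_lit 156) (nat_lit 76) (nat_lit 0) (XT.nd (nat_lit 78) (nat_lit 0) (nat_lit 0) (XT.lf (nat_lit 0) (nat_lit 385719501368) (nat_lit 152) (nat_lit 22328537414) (nat_lit 0) (nat_lit 380007546317) (nat_lit 2) (nat_lit 5) (nat_lit 4) (nat_lit 4) (nat_lit 2) (nat_lit 4) (nat_lit 267) (nat_lit 218) (nat_lit 175)) (XT.lf (nat_lit 0) (nat_lit 449168717567) (nat_lit 152) (nat_lit 12667043988) (nat_lit 0) (nat_lit 443454929195) (nat_lit 2) (nat_lit 5) (nat_lit 4) (nat_lit 4) (nat_lit 2) (nat_lit 4) (nat_lit 268) (nat_lit 218) (nat_lit 174))) (XT.nd (nat_lit 78) (nat_lit 76) (nat_lit 0) (XT.lf (nat_lit 0) (nat_lit 522131472836) (nat_lit 152) (nat_lit 1564079044) (nat_lit 0) (nat_lit 516416090272) (nat_lit 2) (nat_lit 5) (nat_lit 4) (nat_lit 4) (nat_lit 2) (nat_lit 4) (nat_lit 269) (nat_lit 218) (nat_lit 173)) (XT.nd (nat_lit 78) (nat_lit 0) (nat_lit 0) (XT.lf (nat_lit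 0) (nat_lit 12291899206) (nat_lit 76) (nat_lit 594252381469) (nat_lit 76) (nat_lit 588535612651) (nat_lit 1) (nat_lit 4) (nat_lit 2) (nat_lit 5) (nat_lit 2) (nat_lit 4) (nat_lit 270) (nat_lit 218) (nat_lit 172)) (XT.lf (nat_lit 0) (nat_lit 28395620474) (nat_lit 76) (nat_lit 675301975307) (nat_lit 76) (nat_lit 669584001052) (nat_lit 1) (nat_lit 4) (nat_lit 2) (nat_lit 5) (nat_lit 2) (nat_lit 4) (nat_lit 271) (nat_lit 218) (nat_lit 171))))))) (XT.nd (nat_lit 702) (nat_lit 0) (nat_lit 0) (XT.nd (nat_lit 312) (nat_lit 0) (nat_lit 0) (XT.nd (nat_lit 156) (nat_lit 0) (nat_lit 0) (XT.nd (nat_lit 78) (nat_lit 0) (nat_lit 0) (XT.lf (nat_lit 0) (nat_lit 46909304386) (nat_lit 76) (nat_lit 768511844996) (nat_lit 76) (nat_lit 762792822534) (nat_lit 1) (nat_lit 4) (nat_lit 2) (nat_lit 5) (nat_lit 2) (nat_lit 4) (nat_lit 272) (nat_lit 218) (nat_lit 170)) (XT.lf (nat_lit 0) (nat_lit 68195175192) (nat_lit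 76) (nat_lit 875705661900) (nat_lit 76) (nat_lit 869985727953) (nat_lit 1) (nat_lit 4) (nat_lit 2) (nat_lit 5) (nat_lit 2) (nat_lit 4) (nat_lit 273) (nat_lit 218) (nat_lit 169))) (XT.nd (nat_lit 78) (nat_lit 0) (nat_lit 0) (XT.lf (nat_lit 0) (nat_lit 92669695582) (nat_lit 76) (nat_lit 998980696347) (nat_lit 76) (nat_lit 993259969805) (nat_lit 1) (nat_lit 4) (nat_lit 2) (nat_lit 5) (nat_lit 2) (nat_lit 4) (nat_lit 274) (nat_lit 218) (nat_lit 168)) (XT.lf (nat_lit 0) (nat_lit 120811714869) (nat_lit 76) (nat_lit 1140748851188) (nat_lit 76) (nat_lit 1135027435433) (nat_lit 1) (nat_lit 4) (nat_lit 2) (nat_lit 5) (nat_lit 2) (nat_lit 4) (nat_lit 275) (nat_lit 218) (nat_lit 167)))) (XT.nd (nat_lit 156) (nat_lit 0) (nat_lit 0) (XT.nd (nat_lit 78) (nat_lit 0) (nat_lit 0) (XT.lf (nat_lit 0) (nat_lit 153171837776) (nat_lit 76) (nat_lit 1303783851190) (nat_lit 76) (nat_lit 1298061836119) (nat_lit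 1) (nat_lit 4) (nat_lit 2) (nat_lit 5) (nat_lit 2) (nat_lit 4) (nat_lit 276) (nat_lit 218) (nat_lit 166)) (XT.lf (nat_lit 0) (nat_lit 190383197145) (nat_lit 76) (nat_lit 1491275511570) (nat_lit 76) (nat_lit 1485552975355) (nat_lit 1) (nat_lit 4) (nat_lit 2) (nat_lit 5) (nat_lit 2) (nat_lit 4) (nat_lit 277) (nat_lit 218) (nat_lit 165))) (XT.nd (nat_lit 78) (nat_lit 0) (nat_lit 0) (XT.lf (nat_lit 0) (nat_lit 233173841309) (nat_lit 76) (nat_lit 1706892147424) (nat_lit 76) (nat_lit 1701169158040) (nat_lit 1) (nat_lit 4) (nat_lit 2) (nat_lit 5) (nat_lit 2) (nat_lit 4) (nat_lit 278) (nat_lit 218) (nat_lit 164)) (XT.nd (nat_lit 78) (nat_lit 0) (nat_lit 0) (XT.lf (nat_lit 0) (nat_lit 282380978526) (nat_lit 76) (nat_lit 1954852345104) (nat_lit 76) (nat_lit 1949128961660) (nat_lit 1) (nat_lit 4) (nat_lit 2) (nat_lit 5) (nat_lit 2) (nat_lit 4) (nat_lit 279) (nat_lit 218) (nat_lit 163)) (XT.lf (nat_lit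 0) (nat_lit 338967357131) (nat_lit 76) (nat_lit 2240007499783) (nat_lit 76) (nat_lit 2234283773679) (nat_lit 1) (nat_lit 4) (nat_lit 2) (nat_lit 5) (nat_lit 2) (nat_lit 4) (nat_lit 280) (nat_lit 218) (nat_lit 162)))))) (XT.nd (nat_lit 312) (nat_lit 0) (nat_lit 0) (XT.nd (nat_lit 156) (nat_lit 0) (nat_lit 0) (XT.nd (nat_lit 78) (nat_lit 0) (nat_lit 0) (XT.lf (nat_lit 0) (nat_lit 404040101923) (nat_lit 76) (nat_lit 2567936734052) (nat_lit 76) (nat_lit 2562212709982) (nat_lit 1) (nat_lit 4) (nat_lit 2) (nat_lit 5) (nat_lit 2) (nat_lit 4) (nat_lit 281) (nat_lit 218) (nat_lit 161)) (XT.lf (nat_lit 0) (nat_lit 478872375300) (nat_lit 76) (nat_lit 2945056054670) (nat_lit 76) (nat_lit 2939331771499) (nat_lit 1) (nat_lit 4) (nat_lit 2) (nat_lit 5) (nat_lit 2) (nat_lit 4) (nat_lit 282) (nat_lit 218) (nat_lit 160))) (XT.nd (nat_lit 78) (nat_lit 0) (nat_lit 0) (XT.lf (nat_lit 0) (nat_lit 564928286960)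 (nat_lit 76) (nat_lit 3378743883125) (nat_lit 76) (nat_lit 3373019374649) (nat_lit 1) (nat_lit 4) (nat_lit 2) (nat_lit 5) (nat_lit 2) (nat_lit 4) (nat_lit 283) (nat_lit 218) (nat_lit 159)) (XT.lf (nat_lit 0) (nat_lit 663891539521) (nat_lit 76) (nat_lit 3877485416062) (nat_lit 76) (nat_lit 3871760711668) (nat_lit 1) (nat_lit 4) (nat_lit 2) (nat_lit 5) (nat_lit 2) (nat_lit 4) (nat_lit 284) (nat_lit 218) (nat_lit 158)))) (XT.nd (nat_lit 156) (nat_lit 0) (nat_lit 0) (XT.nd (nat_lit 78) (nat_lit 0) (nat_lit 0) (XT.lf (nat_lit 0) (nat_lit 777698370533) (nat_lit 76) (nat_lit 4451038639994) (nat_lit 76) (nat_lit 4445313765238) (nat_lit 1) (nat_lit 4) (nat_lit 2) (nat_lit 5) (nat_lit 2) (nat_lit 4) (nat_lit 285) (nat_lit 218) (nat_lit 157)) (XT.lf (nat_lit 0) (nat_lit 908575435386) (nat_lit 76) (nat_lit 5110625248434) (nat_lit 76) (nat_lit 5104900225536) (nat_lit 1) (nat_lit 4) (nat_lit 2) (nat_lit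 5) (nat_lit 2) (nat_lit 4) (nat_lit 286) (nat_lit 218) (nat_lit 156))) (XT.nd (nat_lit 78) (nat_lit 0) (nat_lit 0) (XT.lf (nat_lit 0) (nat_lit 1059083372305) (nat_lit 76) (nat_lit 5869150196764) (nat_lit 76) (nat_lit 5863425045048) (nat_lit 1) (nat_lit 4) (nat_lit 2) (nat_lit 5) (nat_lit 2) (nat_lit 4) (nat_lit 287) (nat_lit 218) (nat_lit 155)) (XT.nd (nat_lit 78) (nat_lit 0) (nat_lit 0) (XT.lf (nat_lit 0) (nat_lit 1232166901795) (nat_lit 76) (nat_lit 6741454190495) (nat_lit 76) (nat_lit 6735728926762) (nat_lit 1) (nat_lit 4) (nat_lit 2) (nat_lit 5) (nat_lit 2) (nat_lit 4) (nat_lit 288) (nat_lit 218) (nat_lit 154)) (XT.lf (nat_lit 0) (nat_lit 1431212440738) (nat_lit 76) (nat_lit 7744604046896) (nat_lit 76) (nat_lit 7738878685757) (nat_lit 1) (nat_lit 4) (nat_lit 2) (nat_lit 5) (nat_lit 2) (nat_lit 4) (nat_lit 289) (nat_lit 218) (nat_lit 153))))))))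
noncomputable def xc46 : XT := (XT.nd (nat_lit 29484) (nat_lit 0) (nat_lit 304) (XT.nd (nat_lit 1638) (nat_lit 0) (nat_lit 0) (XT.nd (nat_lit 312) (nat_lit 0) (nat_lit 0) (XT.nd (nat_lit 156) (nat_lit 0) (nat_lit 0) (XT.nd (nat_lit 78) (nat_lit 0) (nat_lit 0) (XT.lf (nat_lit 0) (nat_lit 1660114358374) (nat_lit 76) (nat_lit 8898226610982) (nat_lit 76) (nat_lit 8892501165143) (nat_lit 1) (nat_lit 4) (nat_lit 2) (nat_lit 5) (nat_lit 2) (nat_lit 4) (nat_lit 290) (nat_lit 218) (nat_lit 152)) (XT.lf (nat_lit 0) (nat_lit 1923351170482) (nat_lit 76) (nat_lit 10224892759008) (nat_lit 76) (nat_lit 10219167239516) (nat_lit 1) (nat_lit 4) (nat_lit 2) (nat_lit 5) (nat_lit 2) (nat_lit 4) (nat_lit 291) (nat_lit 218) (nat_lit 151))) (XT.nd (nat_lit 78) (nat_lit 0) (nat_lit 0) (XT.lf (nat_lit 0) (nat_lit 2226073162516) (nat_lit 76) (nat_lit 11750559002566) (nat_lit 76) (nat_lit 11744833419028) (nat_lit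 1) (nat_lit 4) (nat_lit 2) (nat_lit 5) (nat_lit 2) (nat_lit 4) (nat_lit 292) (nat_lit 218) (nat_lit 150)) (XT.lf (nat_lit 0) (nat_lit 2574203156061) (nat_lit 76) (nat_lit 13505075333377) (nat_lit 76) (nat_lit 13499349694148) (nat_lit 1) (nat_lit 4) (nat_lit 2) (nat_lit 5) (nat_lit 2) (nat_lit 4) (nat_lit 293) (nat_lit 218) (nat_lit 149)))) (XT.nd (nat_lit 156) (nat_lit 0) (nat_lit 0) (XT.nd (nat_lit 78) (nat_lit 0) (nat_lit 0) (XT.lf (nat_lit 0) (nat_lit 2974552390120) (nat_lit 76) (nat_lit 15522769244871) (nat_lit 76) (nat_lit 15517043557213) (nat_lit 1) (nat_lit 4) (nat_lit 2) (nat_lit 5) (nat_lit 2) (nat_lit 4) (nat_lit 294) (nat_lit 218) (nat_lit 148)) (XT.lf (nat_lit 0) (nat_lit 3434953784490) (nat_lit 76) (nat_lit 17843117357054) (nat_lit 76) (nat_lit 17837391627286) (nat_lit 1) (nat_lit 4) (nat_lit 2) (nat_lit 5) (nat_lit 2) (nat_lit 4) (nat_lit 295) (nat_lit 218) (nat_lit 147)))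 (XT.nd (nat_lit 78) (nat_lit 0) (nat_lit 0) (XT.lf (nat_lit 0) (nat_lit 3964415192539) (nat_lit 76) (nat_lit 20511517785166) (nat_lit 76) (nat_lit 20505792018779) (nat_lit 1) (nat_lit 4) (nat_lit 2) (nat_lit 5) (nat_lit 2) (nat_lit 4) (nat_lit 296) (nat_lit 218) (nat_lit 146)) (XT.nd (nat_lit 78) (nat_lit 0) (nat_lit 0) (XT.lf (nat_lit 0) (nat_lit 4573295641816) (nat_lit 76) (nat_lit 23580178363669) (nat_lit 76) (nat_lit 23574452565440) (nat_lit 1) (nat_lit 4) (nat_lit 2) (nat_lit 5) (nat_lit 2) (nat_lit 4) (nat_lit 297) (nat_lit 218) (nat_lit 145)) (XT.lf (nat_lit 0) (nat_lit 5273508010676) (nat_lit 76) (nat_lit 27109138103881) (nat_lit 76) (nat_lit 27103412277964) (nat_lit 1) (nat_lit 4) (nat_lit 2) (nat_lit 5) (nat_lit 2) (nat_lit 4) (nat_lit 298) (nat_lit 218) (nat_lit 144)))))) (XT.nd (nat_lit 27456) (nat_lit 0) (nat_lit 1672) (XT.nd (nat_lit 156) (nat_lit 0) (nat_lit 0) (XT.nd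 (nat_lit 78) (nat_lit 0) (nat_lit 0) (XT.lf (nat_lit 0) (nat_lit 32935175600555) (nat_lit 76) (nat_lit 166519659820563) (nat_lit 76) (nat_lit 166513933840056) (nat_lit 1) (nat_lit 4) (nat_lit 2) (nat_lit 5) (nat_lit 2) (nat_lit 4) (nat_lit 311) (nat_lit 218) (nat_lit 131)) (XT.lf (nat_lit 0) (nat_lit 37889669117101) (nat_lit 76) (nat_lit 191489542208270) (nat_lit 76) (nat_lit 191483816223849) (nat_lit 1) (nat_lit 4) (nat_lit 2) (nat_lit 5) (nat_lit 2) (nat_lit 4) (nat_lit 312) (nat_lit 218) (nat_lit 130))) (XT.nd (nat_lit 78) (nat_lit 0) (nat_lit 0) (XT.lf (nat_lit 0) (nat_lit 43587336642965) (nat_lit 76) (nat_lit 220204906963342) (nat_lit 76) (nat_lit 220199180975518) (nat_lit 1) (nat_lit 4) (nat_lit 2) (nat_lit 5) (nat_lit 2) (nat_lit 4) (nat_lit 313) (nat_lit 218) (nat_lit 129)) (XT.lf (nat_lit 0) (nat_lit 50139654281913) (nat_lit 76) (nat_lit 253227576439682) (nat_lit 76) (nat_lit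 253221850448900) (nat_lit 1) (nat_lit 4) (nat_lit 2) (nat_lit 5) (nat_lit 2) (nat_lit 4) (nat_lit 314) (nat_lit 218) (nat_lit 128)))) (XT.nd (nat_lit 156) (nat_lit 532) (nat_lit 0) (XT.nd (nat_lit 78) (nat_lit 0) (nat_lit 0) (XT.lf (nat_lit 0) (nat_lit 71546382) (nat_lit 76) (nat_lit 1596843456) (nat_lit 76) (nat_lit 1596843456) (nat_lit 30) (nat_lit 4) (nat_lit 31) (nat_lit 5) (nat_lit 31) (nat_lit 4) (nat_lit 222) (nat_lit 219) (nat_lit 219)) (XT.lf (nat_lit 0) (nat_lit 4088107342) (nat_lit 76) (nat_lit 2430259699) (nat_lit 76) (nat_lit 145564431) (nat_lit 30) (nat_lit 4) (nat_lit 31) (nat_lit 5) (nat_lit 31) (nat_lit 4) (nat_lit 223) (nat_lit 219) (nat_lit 218))) (XT.nd (nat_lit 78) (nat_lit 304) (nat_lit 0) (XT.lf (nat_lit 0) (nat_lit 1410214432) (nat_lit 152) (nat_lit 1232390795) (nat_lit 228) (nat_lit 4220334355) (nat_lit 27) (nat_lit 5) (nat_lit 29) (nat_lit 5) (nat_lit 30) (nat_lit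 4) (nat_lit 224) (nat_lit 219) (nat_lit 217)) (XT.nd (nat_lit 78) (nat_lit 304) (nat_lit 0) (XT.lf (nat_lit 0) (nat_lit 5554310634) (nat_lit 228) (nat_lit 1243781751) (nat_lit 0) (nat_lit 337837012) (nat_lit 27) (nat_lit 5) (nat_lit 30) (nat_lit 4) (nat_lit 27) (nat_lit 4) (nat_lit 225) (nat_lit 219) (nat_lit 216)) (XT.lf (nat_lit 0) (nat_lit 1144041015) (nat_lit 304) (nat_lit 4063067374) (nat_lit 76) (nat_lit 2263083735) (nat_lit 23) (nat_lit 5) (nat_lit 27) (nat_lit 5) (nat_lit 24) (nat_lit 4) (nat_lit 226) (nat_lit 219) (nat_lit 215))))))) (XT.nd (nat_lit 702) (nat_lit 456) (nat_lit 0) (XT.nd (nat_lit 312) (nat_lit 380) (nat_lit 0) (XT.nd (nat_lit 156) (nat_lit 228) (nat_lit 0) (XT.nd (nat_lit 78) (nat_lit 0) (nat_lit 0) (XT.lf (nat_lit 0) (nat_lit 629006036) (nat_lit 304) (nat_lit 3225719046) (nat_lit 380) (nat_lit 4029961978) (nat_lit 19) (nat_lit 5) (nat_lit 23) (nat_lit 5) (nat_lit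 24) (nat_lit 4) (nat_lit 227) (nat_lit 219) (nat_lit 214)) (XT.lf (nat_lit 0) (nat_lit 6100478145) (nat_lit 304) (nat_lit 758530157) (nat_lit 380) (nat_lit 1521129344) (nat_lit 19) (nat_lit 5) (nat_lit 23) (nat_lit 5) (nat_lit 24) (nat_lit 4) (nat_lit 228) (nat_lit 219) (nat_lit 213))) (XT.nd (nat_lit 78) (nat_lit 0) (nat_lit 0) (XT.lf (nat_lit 0) (nat_lit 1174858275) (nat_lit 228) (nat_lit 5739525386) (nat_lit 76) (nat_lit 2038594550) (nat_lit 16) (nat_lit 5) (nat_lit 19) (nat_lit 5) (nat_lit 17) (nat_lit 4) (nat_lit 229) (nat_lit 219) (nat_lit 212)) (XT.lf (nat_lit 0) (nat_lit 4004162296) (nat_lit 228) (nat_lit 305974729) (nat_lit 76) (nat_lit 5309248527) (nat_lit 16) (nat_lit 5) (nat_lit 19) (nat_lit 5) (nat_lit 17) (nat_lit 4) (nat_lit 230) (nat_lit 219) (nat_lit 211)))) (XT.nd (nat_lit 156) (nat_lit 152) (nat_lit 0) (XT.nd (nat_lit 78) (nat_lit 152) (nat_lit 0) (XT.lf (nat_lit 0)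 (nat_lit 6156236273) (nat_lit 76) (nat_lit 1116276130) (nat_lit 152) (nat_lit 3112090835) (nat_lit 15) (nat_lit 5) (nat_lit 16) (nat_lit 5) (nat_lit 17) (nat_lit 4) (nat_lit 231) (nat_lit 219) (nat_lit 210)) (XT.lf (nat_lit 0) (nat_lit 2089942645) (nat_lit 152) (nat_lit 8924167557) (nat_lit 152) (nat_lit 253954375) (nat_lit 13) (nat_lit 4) (nat_lit 15) (nat_lit 5) (nat_lit 15) (nat_lit 4) (nat_lit 232) (nat_lit 219) (nat_lit 209))) (XT.nd (nat_lit 78) (nat_lit 76) (nat_lit 0) (XT.lf (nat_lit 0) (nat_lit 2826379130) (nat_lit 228) (nat_lit 2964824904) (nat_lit 76) (nat_lit 6465168496) (nat_lit 12) (nat_lit 5) (nat_lit 15) (nat_lit 5) (nat_lit 13) (nat_lit 4) (nat_lit 233) (nat_lit 219) (nat_lit 208)) (XT.nd (nat_lit 78) (nat_lit 0) (nat_lit 0) (XT.lf (nat_lit 0) (nat_lit 4236037268) (nat_lit 76) (nat_lit 2089762834) (nat_lit 152) (nat_lit 7068455507) (nat_lit 11) (nat_lit 5) (nat_lit 12)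 (nat_lit 5) (nat_lit 13) (nat_lit 4) (nat_lit 234) (nat_lit 219) (nat_lit 207)) (XT.lf (nat_lit 0) (nat_lit 10417913845) (nat_lit 152) (nat_lit 2244485578) (nat_lit 0) (nat_lit 2030775235) (nat_lit 11) (nat_lit 5) (nat_lit 13) (nat_lit 4) (nat_lit 11) (nat_lit 4) (nat_lit 235) (nat_lit 219) (nat_lit 206)))))) (XT.nd (nat_lit 312) (nat_lit 228) (nat_lit 0) (XT.nd (nat_lit 156) (nat_lit 76) (nat_lit 0) (XT.nd (nat_lit 78) (nat_lit 76) (nat_lit 0) (XT.lf (nat_lit 0) (nat_lit 5851148119) (nat_lit 76) (nat_lit 9454226249) (nat_lit 76) (nat_lit 854780306) (nat_lit 10) (nat_lit 4) (nat_lit 11) (nat_lit 5) (nat_lit 11) (nat_lit 4) (nat_lit 236) (nat_lit 219) (nat_lit 205)) (XT.lf (nat_lit 0) (nat_lit 2769782541) (nat_lit 152) (nat_lit 2829028551) (nat_lit 76) (nat_lit 12234824418) (nat_lit 9) (nat_lit 5) (nat_lit 11) (nat_lit 5) (nat_lit 10) (nat_lit 4) (nat_lit 237) (nat_lit 219) (nat_lit 204)))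 (XT.nd (nat_lit 78) (nat_lit 0) (nat_lit 0) (XT.lf (nat_lit 0) (nat_lit 6025404845) (nat_lit 76) (nat_lit 937386181) (nat_lit 152) (nat_lit 12772698278) (nat_lit 8) (nat_lit 5) (nat_lit 9) (nat_lit 5) (nat_lit 10) (nat_lit 4) (nat_lit 238) (nat_lit 219) (nat_lit 203)) (XT.lf (nat_lit 0) (nat_lit 11989614447) (nat_lit 152) (nat_lit 5812218332) (nat_lit 0) (nat_lit 4090317595) (nat_lit 8) (nat_lit 5) (nat_lit 10) (nat_lit 4) (nat_lit 8) (nat_lit 4) (nat_lit 239) (nat_lit 219) (nat_lit 202)))) (XT.nd (nat_lit 156) (nat_lit 152) (nat_lit 0) (XT.nd (nat_lit 78) (nat_lit 0) (nat_lit 0) (XT.lf (nat_lit 0) (nat_lit 3304652035) (nat_lit 76) (nat_lit 14531444697) (nat_lit 76) (nat_lit 6526593577) (nat_lit 7) (nat_lit 4) (nat_lit 8) (nat_lit 5) (nat_lit 8) (nat_lit 4) (nat_lit 240) (nat_lit 219) (nat_lit 201)) (XT.lf (nat_lit 0) (nat_lit 14236809518) (nat_lit 76) (nat_lit 10517323762) (nat_lit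 76) (nat_lit 2420686323) (nat_lit 7) (nat_lit 4) (nat_lit 8) (nat_lit 5) (nat_lit 8) (nat_lit 4) (nat_lit 241) (nat_lit 219) (nat_lit 200))) (XT.nd (nat_lit 78) (nat_lit 76) (nat_lit 0) (XT.lf (nat_lit 0) (nat_lit 1996578159) (nat_lit 152) (nat_lit 3883808586) (nat_lit 76) (nat_lit 24529187162) (nat_lit 6) (nat_lit 5) (nat_lit 8) (nat_lit 5) (nat_lit 7) (nat_lit 4) (nat_lit 242) (nat_lit 219) (nat_lit 199)) (XT.nd (nat_lit 78) (nat_lit 0) (nat_lit 0) (XT.lf (nat_lit 0) (nat_lit 6860025357) (nat_lit 76) (nat_lit 165965633) (nat_lit 152) (nat_lit 27056779770) (nat_lit 5) (nat_lit 5) (nat_lit 6) (nat_lit 5) (nat_lit 7) (nat_lit 4) (nat_lit 243) (nat_lit 219) (nat_lit 198)) (XT.lf (nat_lit 0) (nat_lit 13202808086) (nat_lit 152) (nat_lit 19065282046) (nat_lit 0) (nat_lit 5980020026) (nat_lit 5) (nat_lit 5) (nat_lit 7) (nat_lit 4) (nat_lit 5) (nat_lit 4) (nat_lit 244) (nat_lit 219) (nat_lit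 197))))))))
noncomputable def xc47 : XT := (XT.nd (nat_lit 1404) (nat_lit 76) (nat_lit 0) (XT.nd (nat_lit 702) (nat_lit 0) (nat_lit 0) (XT.nd (nat_lit 312) (nat_lit 152) (nat_lit 0) (XT.nd (nat_lit 156) (nat_lit 0) (nat_lit 0) (XT.nd (nat_lit 78) (nat_lit 76) (nat_lit 0) (XT.lf (nat_lit 0) (nat_lit 20240193979) (nat_lit 152) (nat_lit 9836274932) (nat_lit 0) (nat_lit 12971771897) (nat_lit 5) (nat_lit 5) (nat_lit 7) (nat_lit 4) (nat_lit 5) (nat_lit 4) (nat_lit 245) (nat_lit 219) (nat_lit 196)) (XT.lf (nat_lit 0) (nat_lit 715406156) (nat_lit 76) (nat_lit 27583181659) (nat_lit 76) (nat_lit 20275077818) (nat_lit 4) (nat_lit 4) (nat_lit 5) (nat_lit 5) (nat_lit 5) (nat_lit 4) (nat_lit 246) (nat_lit 219) (nat_lit 195))) (XT.nd (nat_lit 78) (nat_lit 0) (nat_lit 0) (XT.lf (nat_lit 0) (nat_lit 13835633605) (nat_lit 76) (nat_lit 24183474381) (nat_lit 76) (nat_lit 16840864663) (nat_lit 4) (nat_lit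 4) (nat_lit 5) (nat_lit 5) (nat_lit 5) (nat_lit 4) (nat_lit 247) (nat_lit 219) (nat_lit 194)) (XT.lf (nat_lit 0) (nat_lit 28819835193) (nat_lit 76) (nat_lit 20324999982) (nat_lit 76) (nat_lit 12952385154) (nat_lit 4) (nat_lit 4) (nat_lit 5) (nat_lit 5) (nat_lit 5) (nat_lit 4) (nat_lit 248) (nat_lit 219) (nat_lit 193)))) (XT.nd (nat_lit 156) (nat_lit 152) (nat_lit 0) (XT.nd (nat_lit 78) (nat_lit 0) (nat_lit 0) (XT.lf (nat_lit 0) (nat_lit 45961180084) (nat_lit 76) (nat_lit 15932266571) (nat_lit 76) (nat_lit 8533560342) (nat_lit 4) (nat_lit 4) (nat_lit 5) (nat_lit 5) (nat_lit 5) (nat_lit 4) (nat_lit 249) (nat_lit 219) (nat_lit 192)) (XT.lf (nat_lit 0) (nat_lit 65595042415) (nat_lit 76) (nat_lit 10919329364) (nat_lit 76) (nat_lit 3497934961) (nat_lit 4) (nat_lit 4) (nat_lit 5) (nat_lit 5) (nat_lit 5) (nat_lit 4) (nat_lit 250) (nat_lit 219) (nat_lit 191))) (XT.nd (nat_lit 78) (nat_lit 76)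 (nat_lit 0) (XT.lf (nat_lit 0) (nat_lit 2052435199) (nat_lit 152) (nat_lit 3028387571) (nat_lit 76) (nat_lit 85945841386) (nat_lit 3) (nat_lit 5) (nat_lit 5) (nat_lit 5) (nat_lit 4) (nat_lit 4) (nat_lit 251) (nat_lit 219) (nat_lit 190)) (XT.nd (nat_lit 78) (nat_lit 0) (nat_lit 0) (XT.lf (nat_lit 0) (nat_lit 8588380003) (nat_lit 152) (nat_lit 92900250374) (nat_lit 0) (nat_lit 2102920203) (nat_lit 2) (nat_lit 5) (nat_lit 4) (nat_lit 4) (nat_lit 2) (nat_lit 4) (nat_lit 252) (nat_lit 219) (nat_lit 189)) (XT.lf (nat_lit 0) (nat_lit 16481227082) (nat_lit 152) (nat_lit 91520698710) (nat_lit 0) (nat_lit 9982795245) (nat_lit 2) (nat_lit 5) (nat_lit 4) (nat_lit 4) (nat_lit 2) (nat_lit 4) (nat_lit 253) (nat_lit 219) (nat_lit 188)))))) (XT.nd (nat_lit 312) (nat_lit 0) (nat_lit 0) (XT.nd (nat_lit 156) (nat_lit 0) (nat_lit 0) (XT.nd (nat_lit 78) (nat_lit 0) (nat_lit 0) (XT.lf (nat_lit 0) (nat_lit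 25530806736) (nat_lit 152) (nat_lit 89989068676) (nat_lit 0) (nat_lit 19021094866) (nat_lit 2) (nat_lit 5) (nat_lit 4) (nat_lit 4) (nat_lit 2) (nat_lit 4) (nat_lit 254) (nat_lit 219) (nat_lit 187)) (XT.lf (nat_lit 0) (nat_lit 35914175959) (nat_lit 152) (nat_lit 88275393599) (nat_lit 0) (nat_lit 29394655365) (nat_lit 2) (nat_lit 5) (nat_lit 4) (nat_lit 4) (nat_lit 2) (nat_lit 4) (nat_lit 255) (nat_lit 219) (nat_lit 186))) (XT.nd (nat_lit 78) (nat_lit 0) (nat_lit 0) (XT.lf (nat_lit 0) (nat_lit 47834487626) (nat_lit 152) (nat_lit 86346145052) (nat_lit 0) (nat_lit 41306437708) (nat_lit 2) (nat_lit 5) (nat_lit 4) (nat_lit 4) (nat_lit 2) (nat_lit 4) (nat_lit 256) (nat_lit 219) (nat_lit 185)) (XT.lf (nat_lit 0) (nat_lit 61524965228) (nat_lit 152) (nat_lit 84163576869) (nat_lit 0) (nat_lit 54989498505) (nat_lit 2) (nat_lit 5) (nat_lit 4) (nat_lit 4) (nat_lit 2) (nat_lit 4) (nat_lit 257) (nat_lit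 219) (nat_lit 184)))) (XT.nd (nat_lit 156) (nat_lit 0) (nat_lit 0) (XT.nd (nat_lit 78) (nat_lit 0) (nat_lit 0) (XT.lf (nat_lit 0) (nat_lit 77253465934) (nat_lit 152) (nat_lit 81684986629) (nat_lit 0) (nat_lit 70711549816) (nat_lit 2) (nat_lit 5) (nat_lit 4) (nat_lit 4) (nat_lit 2) (nat_lit 4) (nat_lit 258) (nat_lit 219) (nat_lit 183)) (XT.lf (nat_lit 0) (nat_lit 95327721281) (nat_lit 152) (nat_lit 78861880174) (nat_lit 0) (nat_lit 88780196993) (nat_lit 2) (nat_lit 5) (nat_lit 4) (nat_lit 4) (nat_lit 2) (nat_lit 4) (nat_lit 259) (nat_lit 219) (nat_lit 182))) (XT.nd (nat_lit 78) (nat_lit 0) (nat_lit 0) (XT.lf (nat_lit 0) (nat_lit 116101358002) (nat_lit 152) (nat_lit 75639022814) (nat_lit 0) (nat_lit 109548957045) (nat_lit 2) (nat_lit 5) (nat_lit 4) (nat_lit 4) (nat_lit 2) (nat_lit 4) (nat_lit 260) (nat_lit 219) (nat_lit 181)) (XT.nd (nat_lit 78) (nat_lit 0) (nat_lit 0) (XT.lf (nat_lit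 0) (nat_lit 139980816816) (nat_lit 152) (nat_lit 71953358642) (nat_lit 0) (nat_lit 133424175277) (nat_lit 2) (nat_lit 5) (nat_lit 4) (nat_lit 4) (nat_lit 2) (nat_lit 4) (nat_lit 261) (nat_lit 219) (nat_lit 180)) (XT.lf (nat_lit 0) (nat_lit 167433304528) (nat_lit 152) (nat_lit 67732776840) (nat_lit 0) (nat_lit 160872975526) (nat_lit 2) (nat_lit 5) (nat_lit 4) (nat_lit 4) (nat_lit 2) (nat_lit 4) (nat_lit 262) (nat_lit 219) (nat_lit 179))))))) (XT.nd (nat_lit 702) (nat_lit 0) (nat_lit 0) (XT.nd (nat_lit 312) (nat_lit 76) (nat_lit 0) (XT.nd (nat_lit 156) (nat_lit 0) (nat_lit 0) (XT.nd (nat_lit 78) (nat_lit 0) (nat_lit 0) (XT.lf (nat_lit 0) (nat_lit 198995935025) (nat_lit 152) (nat_lit 62894700805) (nat_lit 0) (nat_lit 192432399534) (nat_lit 2) (nat_lit 5) (nat_lit 4) (nat_lit 4) (nat_lit 2) (nat_lit 4) (nat_lit 263) (nat_lit 219) (nat_lit 178)) (XT.lf (nat_lit 0) (nat_lit 235286238036) (nat_lit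 152) (nat_lit 57344472529) (nat_lit 0) (nat_lit 228719914294) (nat_lit 2) (nat_lit 5) (nat_lit 4) (nat_lit 4) (nat_lit 2) (nat_lit 4) (nat_lit 264) (nat_lit 219) (nat_lit 177))) (XT.nd (nat_lit 78) (nat_lit 0) (nat_lit 0) (XT.lf (nat_lit 0) (nat_lit 277014241228) (nat_lit 152) (nat_lit 50973500589) (nat_lit 0) (nat_lit 270445492919) (nat_lit 2) (nat_lit 5) (nat_lit 4) (nat_lit 4) (nat_lit 2) (nat_lit 4) (nat_lit 265) (nat_lit 219) (nat_lit 176)) (XT.lf (nat_lit 0) (nat_lit 324996362055) (nat_lit 152) (nat_lit 43657135533) (nat_lit 0) (nat_lit 318425505428) (nat_lit 2) (nat_lit 5) (nat_lit 4) (nat_lit 4) (nat_lit 2) (nat_lit 4) (nat_lit 266) (nat_lit 219) (nat_lit 175)))) (XT.nd (nat_lit 156) (nat_lit 76) (nat_lit 0) (XT.nd (nat_lit 78) (nat_lit 0) (nat_lit 0) (XT.lf (nat_lit 0) (nat_lit 380171381142) (nat_lit 152) (nat_lit 35252231090) (nat_lit 0) (nat_lit 373598691194) (nat_lit 2) (nat_lit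 5) (nat_lit 4) (nat_lit 4) (nat_lit 2) (nat_lit 4) (nat_lit 267) (nat_lit 219) (nat_lit 174)) (XT.lf (nat_lit 0) (nat_lit 443618809731) (nat_lit 152) (nat_lit 25594343476) (nat_lit 0) (nat_lit 437044525591) (nat_lit 2) (nat_lit 5) (nat_lit 4) (nat_lit 4) (nat_lit 2) (nat_lit 4) (nat_lit 268) (nat_lit 219) (nat_lit 173))) (XT.nd (nat_lit 78) (nat_lit 76) (nat_lit 0) (XT.lf (nat_lit 0) (nat_lit 516580010557) (nat_lit 152) (nat_lit 14494514021) (nat_lit 0) (nat_lit 510004340163) (nat_lit 2) (nat_lit 5) (nat_lit 4) (nat_lit 4) (nat_lit 2) (nat_lit 4) (nat_lit 269) (nat_lit 219) (nat_lit 172)) (XT.nd (nat_lit 78) (nat_lit 76) (nat_lit 0) (XT.lf (nat_lit 0) (nat_lit 600482485374) (nat_lit 152) (nat_lit 1735572149) (nat_lit 0) (nat_lit 593905609542) (nat_lit 2) (nat_lit 5) (nat_lit 4) (nat_lit 4) (nat_lit 2) (nat_lit 4) (nat_lit 270) (nat_lit 219) (nat_lit 171)) (XT.lf (nat_lit 0) (nat_lit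 14195933805) (nat_lit 76) (nat_lit 683359693882) (nat_lit 76) (nat_lit 676781769843) (nat_lit 1) (nat_lit 4) (nat_lit 2) (nat_lit 5) (nat_lit 2) (nat_lit 4) (nat_lit 271) (nat_lit 219) (nat_lit 170)))))) (XT.nd (nat_lit 312) (nat_lit 0) (nat_lit 0) (XT.nd (nat_lit 156) (nat_lit 0) (nat_lit 0) (XT.nd (nat_lit 78) (nat_lit 0) (nat_lit 0) (XT.lf (nat_lit 0) (nat_lit 32707354604) (nat_lit 76) (nat_lit 776570710901) (nat_lit 76) (nat_lit 769991875378) (nat_lit 1) (nat_lit 4) (nat_lit 2) (nat_lit 5) (nat_lit 2) (nat_lit 4) (nat_lit 272) (nat_lit 219) (nat_lit 169)) (XT.lf (nat_lit 0) (nat_lit 53991257486) (nat_lit 76) (nat_lit 883765525483) (nat_lit 76) (nat_lit 877185897365) (nat_lit 1) (nat_lit 4) (nat_lit 2) (nat_lit 5) (nat_lit 2) (nat_lit 4) (nat_lit 273) (nat_lit 219) (nat_lit 168))) (XT.nd (nat_lit 78) (nat_lit 0) (nat_lit 0) (XT.lf (nat_lit 0) (nat_lit 78464066638) (nat_lit 76) (nat_lit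 1007041427478) (nat_lit 76) (nat_lit 1000461110146) (nat_lit 1) (nat_lit 4) (nat_lit 2) (nat_lit 5) (nat_lit 2) (nat_lit 4) (nat_lit 274) (nat_lit 219) (nat_lit 167)) (XT.lf (nat_lit 0) (nat_lit 106604597891) (nat_lit 76) (nat_lit 1148810336707) (nat_lit 76) (nat_lit 1142229420060) (nat_lit 1) (nat_lit 4) (nat_lit 2) (nat_lit 5) (nat_lit 2) (nat_lit 4) (nat_lit 275) (nat_lit 219) (nat_lit 166)))) (XT.nd (nat_lit 156) (nat_lit 0) (nat_lit 0) (XT.nd (nat_lit 78) (nat_lit 0) (nat_lit 0) (XT.lf (nat_lit 0) (nat_lit 138963426857) (nat_lit 76) (nat_lit 1311845992699) (nat_lit 76) (nat_lit 1305264554907) (nat_lit 1) (nat_lit 4) (nat_lit 2) (nat_lit 5) (nat_lit 2) (nat_lit 4) (nat_lit 276) (nat_lit 219) (nat_lit 165)) (XT.lf (nat_lit 0) (nat_lit 176173661058) (nat_lit 76) (nat_lit 1499338223505) (nat_lit 76) (nat_lit 1492756332545) (nat_lit 1) (nat_lit 4) (nat_lit 2) (nat_lit 5) (nat_lit 2)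 (nat_lit 4) (nat_lit 277) (nat_lit 219) (nat_lit 164))) (XT.nd (nat_lit 78) (nat_lit 0) (nat_lit 0) (XT.lf (nat_lit 0) (nat_lit 218963326817) (nat_lit 76) (nat_lit 1714955355381) (nat_lit 76) (nat_lit 1708373070361) (nat_lit 1) (nat_lit 4) (nat_lit 2) (nat_lit 5) (nat_lit 2) (nat_lit 4) (nat_lit 278) (nat_lit 219) (nat_lit 163)) (XT.nd (nat_lit 78) (nat_lit 0) (nat_lit 0) (XT.lf (nat_lit 0) (nat_lit 268169613246) (nat_lit 76) (nat_lit 1962915984386) (nat_lit 76) (nat_lit 1956333356705) (nat_lit 1) (nat_lit 4) (nat_lit 2) (nat_lit 5) (nat_lit 2) (nat_lit 4) (nat_lit 279) (nat_lit 219) (nat_lit 162)) (XT.lf (nat_lit 0) (nat_lit 324755252035) (nat_lit 76) (nat_lit 2248071514129) (nat_lit 76) (nat_lit 2241488588482) (nat_lit 1) (nat_lit 4) (nat_lit 2) (nat_lit 5) (nat_lit 2) (nat_lit 4) (nat_lit 280) (nat_lit 219) (nat_lit 161))))))))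
noncomputable def xc48 : XT := (XT.nd (nat_lit 2184) (nat_lit 0) (nat_lit 0) (XT.nd (nat_lit 702) (nat_lit 0) (nat_lit 0) (XT.nd (nat_lit 312) (nat_lit 0) (nat_lit 0) (XT.nd (nat_lit 156) (nat_lit 0) (nat_lit 0) (XT.nd (nat_lit 78) (nat_lit 0) (nat_lit 0) (XT.lf (nat_lit 0) (nat_lit 389827353509) (nat_lit 76) (nat_lit 2576001074541) (nat_lit 76) (nat_lit 2569417889794) (nat_lit 1) (nat_lit 4) (nat_lit 2) (nat_lit 5) (nat_lit 2) (nat_lit 4) (nat_lit 281) (nat_lit 219) (nat_lit 160)) (XT.lf (nat_lit 0) (nat_lit 464659067480) (nat_lit 76) (nat_lit 2953120678761) (nat_lit 76) (nat_lit 2946537268709) (nat_lit 1) (nat_lit 4) (nat_lit 2) (nat_lit 5) (nat_lit 2) (nat_lit 4) (nat_lit 282) (nat_lit 219) (nat_lit 159))) (XT.nd (nat_lit 78) (nat_lit 0) (nat_lit 0) (XT.lf (nat_lit 0) (nat_lit 550714492699) (nat_lit 76) (nat_lit 3386808753827) (nat_lit 76) (nat_lit 3380225147857) (nat_lit 1) (nat_lit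 4) (nat_lit 2) (nat_lit 5) (nat_lit 2) (nat_lit 4) (nat_lit 283) (nat_lit 219) (nat_lit 158)) (XT.lf (nat_lit 0) (nat_lit 649677322267) (nat_lit 76) (nat_lit 3885550501208) (nat_lit 76) (nat_lit 3878966724876) (nat_lit 1) (nat_lit 4) (nat_lit 2) (nat_lit 5) (nat_lit 2) (nat_lit 4) (nat_lit 284) (nat_lit 219) (nat_lit 157)))) (XT.nd (nat_lit 156) (nat_lit 0) (nat_lit 0) (XT.nd (nat_lit 78) (nat_lit 0) (nat_lit 0) (XT.lf (nat_lit 0) (nat_lit 763483785461) (nat_lit 76) (nat_lit 4459103911614) (nat_lit 76) (nat_lit 4452519987140) (nat_lit 1) (nat_lit 4) (nat_lit 2) (nat_lit 5) (nat_lit 2) (nat_lit 4) (nat_lit 285) (nat_lit 219) (nat_lit 156)) (XT.lf (nat_lit 0) (nat_lit 894360530471) (nat_lit 76) (nat_lit 5118690682205) (nat_lit 76) (nat_lit 5112106628912) (nat_lit 1) (nat_lit 4) (nat_lit 2) (nat_lit 5) (nat_lit 2) (nat_lit 4) (nat_lit 286) (nat_lit 219) (nat_lit 155))) (XT.nd (nat_lit 78)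 (nat_lit 0) (nat_lit 0) (XT.lf (nat_lit 0) (nat_lit 1044868189266) (nat_lit 76) (nat_lit 5877215771536) (nat_lit 76) (nat_lit 5870631606226) (nat_lit 1) (nat_lit 4) (nat_lit 2) (nat_lit 5) (nat_lit 2) (nat_lit 4) (nat_lit 287) (nat_lit 219) (nat_lit 154)) (XT.nd (nat_lit 78) (nat_lit 0) (nat_lit 0) (XT.lf (nat_lit 0) (nat_lit 1217951476909) (nat_lit 76) (nat_lit 6749519887876) (nat_lit 76) (nat_lit 6742935625161) (nat_lit 1) (nat_lit 4) (nat_lit 2) (nat_lit 5) (nat_lit 2) (nat_lit 4) (nat_lit 288) (nat_lit 219) (nat_lit 153)) (XT.lf (nat_lit 0) (nat_lit 1416996805550) (nat_lit 76) (nat_lit 7752669850893) (nat_lit 76) (nat_lit 7746085503477) (nat_lit 1) (nat_lit 4) (nat_lit 2) (nat_lit 5) (nat_lit 2) (nat_lit 4) (nat_lit 289) (nat_lit 219) (nat_lit 152)))))) (XT.nd (nat_lit 312) (nat_lit 0) (nat_lit 0) (XT.nd (nat_lit 156) (nat_lit 0) (nat_lit 0) (XT.nd (nat_lit 78) (nat_lit 0) (nat_lit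 0) (XT.lf (nat_lit 0) (nat_lit 1645898540315) (nat_lit 76) (nat_lit 8906292507689) (nat_lit 76) (nat_lit 8899708086621) (nat_lit 1) (nat_lit 4) (nat_lit 2) (nat_lit 5) (nat_lit 2) (nat_lit 4) (nat_lit 290) (nat_lit 219) (nat_lit 151)) (XT.lf (nat_lit 0) (nat_lit 1909135193404) (nat_lit 76) (nat_lit 10232958736333) (nat_lit 76) (nat_lit 10226374251219) (nat_lit 1) (nat_lit 4) (nat_lit 2) (nat_lit 5) (nat_lit 2) (nat_lit 4) (nat_lit 291) (nat_lit 219) (nat_lit 150))) (XT.nd (nat_lit 78) (nat_lit 0) (nat_lit 0) (XT.lf (nat_lit 0) (nat_lit 2211857047162) (nat_lit 76) (nat_lit 11758625049993) (nat_lit 76) (nat_lit 11752040509187) (nat_lit 1) (nat_lit 4) (nat_lit 2) (nat_lit 5) (nat_lit 2) (nat_lit 4) (nat_lit 292) (nat_lit 219) (nat_lit 149)) (XT.lf (nat_lit 0) (nat_lit 2559986920466) (nat_lit 76) (nat_lit 13513141441763) (nat_lit 76) (nat_lit 13506556852529) (nat_lit 1) (nat_lit 4) (nat_lit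 2) (nat_lit 5) (nat_lit 2) (nat_lit 4) (nat_lit 293) (nat_lit 219) (nat_lit 148)))) (XT.nd (nat_lit 156) (nat_lit 0) (nat_lit 0) (XT.nd (nat_lit 78) (nat_lit 0) (nat_lit 0) (XT.lf (nat_lit 0) (nat_lit 2960336049968) (nat_lit 76) (nat_lit 15530835406264) (nat_lit 76) (nat_lit 15524250774919) (nat_lit 1) (nat_lit 4) (nat_lit 2) (nat_lit 5) (nat_lit 2) (nat_lit 4) (nat_lit 294) (nat_lit 219) (nat_lit 147)) (XT.lf (nat_lit 0) (nat_lit 3420737353419) (nat_lit 76) (nat_lit 17851183564541) (nat_lit 76) (nat_lit 17844598896577) (nat_lit 1) (nat_lit 4) (nat_lit 2) (nat_lit 5) (nat_lit 2) (nat_lit 4) (nat_lit 295) (nat_lit 219) (nat_lit 146))) (XT.nd (nat_lit 78) (nat_lit 0) (nat_lit 0) (XT.lf (nat_lit 0) (nat_lit 3950198682408) (nat_lit 76) (nat_lit 20519584032733) (nat_lit 76) (nat_lit 20512999332928) (nat_lit 1) (nat_lit 4) (nat_lit 2) (nat_lit 5) (nat_lit 2) (nat_lit 4) (nat_lit 296) (nat_lit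 219) (nat_lit 145)) (XT.nd (nat_lit 78) (nat_lit 0) (nat_lit 0) (XT.lf (nat_lit 0) (nat_lit 4559079062937) (nat_lit 76) (nat_lit 23588244646089) (nat_lit 76) (nat_lit 23581659918595) (nat_lit 1) (nat_lit 4) (nat_lit 2) (nat_lit 5) (nat_lit 2) (nat_lit 4) (nat_lit 297) (nat_lit 219) (nat_lit 144)) (XT.lf (nat_lit 0) (nat_lit 5259291372016) (nat_lit 76) (nat_lit 27117204416609) (nat_lit 76) (nat_lit 27110619665038) (nat_lit 1) (nat_lit 4) (nat_lit 2) (nat_lit 5) (nat_lit 2) (nat_lit 4) (nat_lit 298) (nat_lit 219) (nat_lit 143))))))) (XT.nd (nat_lit 27768) (nat_lit 0) (nat_lit 1064) (XT.nd (nat_lit 312) (nat_lit 0) (nat_lit 0) (XT.nd (nat_lit 156) (nat_lit 0) (nat_lit 0) (XT.nd (nat_lit 78) (nat_lit 0) (nat_lit 0) (XT.lf (nat_lit 0) (nat_lit 24866394465190) (nat_lit 76) (nat_lit 125933966672406) (nat_lit 76) (nat_lit 125927381794822) (nat_lit 1) (nat_lit 4) (nat_lit 2) (nat_lit 5) (nat_lit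 2) (nat_lit 4) (nat_lit 309) (nat_lit 219) (nat_lit 132)) (XT.lf (nat_lit 0) (nat_lit 28612703387901) (nat_lit 76) (nat_lit 144814785100082) (nat_lit 76) (nat_lit 144808200217998) (nat_lit 1) (nat_lit 4) (nat_lit 2) (nat_lit 5) (nat_lit 2) (nat_lit 4) (nat_lit 310) (nat_lit 219) (nat_lit 131))) (XT.nd (nat_lit 78) (nat_lit 0) (nat_lit 0) (XT.lf (nat_lit 0) (nat_lit 32920958628129) (nat_lit 76) (nat_lit 166527726302500) (nat_lit 76) (nat_lit 166521141416503) (nat_lit 1) (nat_lit 4) (nat_lit 2) (nat_lit 5) (nat_lit 2) (nat_lit 4) (nat_lit 311) (nat_lit 219) (nat_lit 130)) (XT.lf (nat_lit 0) (nat_lit 37875452136227) (nat_lit 76) (nat_lit 191497608694490) (nat_lit 76) (nat_lit 191491023805090) (nat_lit 1) (nat_lit 4) (nat_lit 2) (nat_lit 5) (nat_lit 2) (nat_lit 4) (nat_lit 312) (nat_lit 219) (nat_lit 129)))) (XT.nd (nat_lit 27222) (nat_lit 0) (nat_lit 2128) (XT.nd (nat_lit 27144) (nat_lit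 0) (nat_lit 2356) (XT.lf (nat_lit 0) (nat_lit 43573119654744) (nat_lit 76) (nat_lit 220212973453287) (nat_lit 76) (nat_lit 220206388560928) (nat_lit 1) (nat_lit 4) (nat_lit 2) (nat_lit 5) (nat_lit 2) (nat_lit 4) (nat_lit 313) (nat_lit 219) (nat_lit 128)) (XT.lf (nat_lit 0) (nat_lit 1073741823) (nat_lit 0) (nat_lit 0) (nat_lit 0) (nat_lit 0) (nat_lit 32) (nat_lit 0) (nat_lit 1) (nat_lit 0) (nat_lit 1) (nat_lit 0) (nat_lit 220) (nat_lit 220) (nat_lit 220))) (XT.nd (nat_lit 78) (nat_lit 152) (nat_lit 0) (XT.lf (nat_lit 0) (nat_lit 2896395227) (nat_lit 76) (nat_lit 3298432177) (nat_lit 0) (nat_lit 268995669) (nat_lit 31) (nat_lit 5) (nat_lit 32) (nat_lit 0) (nat_lit 31) (nat_lit 4) (nat_lit 221) (nat_lit 220) (nat_lit 219)) (XT.nd (nat_lit 78) (nat_lit 152) (nat_lit 0) (XT.lf (nat_lit 0) (nat_lit 5724344793) (nat_lit 76) (nat_lit 32112207) (nat_lit 0) (nat_lit 812249966) (nat_lit 31) (nat_lit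 5) (nat_lit 32) (nat_lit 0) (nat_lit 31) (nat_lit 4) (nat_lit 222) (nat_lit 220) (nat_lit 218)) (XT.lf (nat_lit 0) (nat_lit 1784430365) (nat_lit 152) (nat_lit 3062261080) (nat_lit 76) (nat_lit 1876975669) (nat_lit 29) (nat_lit 5) (nat_lit 31) (nat_lit 5) (nat_lit 30) (nat_lit 4) (nat_lit 223) (nat_lit 220) (nat_lit 217)))))) (XT.nd (nat_lit 312) (nat_lit 608) (nat_lit 0) (XT.nd (nat_lit 156) (nat_lit 304) (nat_lit 0) (XT.nd (nat_lit 78) (nat_lit 0) (nat_lit 0) (XT.lf (nat_lit 0) (nat_lit 699283259) (nat_lit 152) (nat_lit 3638217895) (nat_lit 228) (nat_lit 2619080311) (nat_lit 27) (nat_lit 5) (nat_lit 29) (nat_lit 5) (nat_lit 30) (nat_lit 4) (nat_lit 224) (nat_lit 220) (nat_lit 216)) (XT.lf (nat_lit 0) (nat_lit 5050754830) (nat_lit 152) (nat_lit 2009395532) (nat_lit 228) (nat_lit 199074491) (nat_lit 27) (nat_lit 5) (nat_lit 29) (nat_lit 5) (nat_lit 30) (nat_lit 4) (nat_lit 225) (nat_lit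 220) (nat_lit 215))) (XT.nd (nat_lit 78) (nat_lit 0) (nat_lit 0) (XT.lf (nat_lit 0) (nat_lit 2108752478) (nat_lit 304) (nat_lit 5409530331) (nat_lit 76) (nat_lit 111809224) (nat_lit 23) (nat_lit 5) (nat_lit 27) (nat_lit 5) (nat_lit 24) (nat_lit 4) (nat_lit 226) (nat_lit 220) (nat_lit 214)) (XT.lf (nat_lit 0) (nat_lit 4649384802) (nat_lit 304) (nat_lit 934907648) (nat_lit 76) (nat_lit 2486653859) (nat_lit 23) (nat_lit 5) (nat_lit 27) (nat_lit 5) (nat_lit 24) (nat_lit 4) (nat_lit 227) (nat_lit 220) (nat_lit 213)))) (XT.nd (nat_lit 156) (nat_lit 76) (nat_lit 0) (XT.nd (nat_lit 78) (nat_lit 228) (nat_lit 0) (XT.lf (nat_lit 0) (nat_lit 4291084963) (nat_lit 304) (nat_lit 3188483182) (nat_lit 380) (nat_lit 1113684230) (nat_lit 19) (nat_lit 5) (nat_lit 23) (nat_lit 5) (nat_lit 24) (nat_lit 4) (nat_lit 228) (nat_lit 220) (nat_lit 212)) (XT.lf (nat_lit 0) (nat_lit 920686155) (nat_lit 152) (nat_lit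 312854785) (nat_lit 228) (nat_lit 7977454542) (nat_lit 16) (nat_lit 5) (nat_lit 18) (nat_lit 5) (nat_lit 19) (nat_lit 5) (nat_lit 229) (nat_lit 220) (nat_lit 211))) (XT.nd (nat_lit 78) (nat_lit 76) (nat_lit 0) (XT.lf (nat_lit 0) (nat_lit 3938138622) (nat_lit 228) (nat_lit 2999358894) (nat_lit 76) (nat_lit 2959098149) (nat_lit 16) (nat_lit 5) (nat_lit 19) (nat_lit 5) (nat_lit 17) (nat_lit 4) (nat_lit 230) (nat_lit 220) (nat_lit 210)) (XT.nd (nat_lit 78) (nat_lit 0) (nat_lit 0) (XT.lf (nat_lit 0) (nat_lit 3051150823) (nat_lit 76) (nat_lit 3929587558) (nat_lit 152) (nat_lit 3715360907) (nat_lit 15) (nat_lit 5) (nat_lit 16) (nat_lit 5) (nat_lit 17) (nat_lit 4) (nat_lit 231) (nat_lit 220) (nat_lit 209)) (XT.lf (nat_lit 0) (nat_lit 10068723148) (nat_lit 76) (nat_lit 374619050) (nat_lit 152) (nat_lit 1178435685) (nat_lit 15) (nat_lit 5) (nat_lit 16) (nat_lit 5) (nat_lit 17) (nat_lit 4) (nat_lit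 232) (nat_lit 220) (nat_lit 208))))))))
noncomputable def xc49 : XT := (XT.nd (nat_lit 1404) (nat_lit 152) (nat_lit 0) (XT.nd (nat_lit 702) (nat_lit 228) (nat_lit 0) (XT.nd (nat_lit 312) (nat_lit 228) (nat_lit 0) (XT.nd (nat_lit 156) (nat_lit 152) (nat_lit 0) (XT.nd (nat_lit 78) (nat_lit 0) (nat_lit 0) (XT.lf (nat_lit 0) (nat_lit 1805261009) (nat_lit 228) (nat_lit 7210679640) (nat_lit 76) (nat_lit 3627006769) (nat_lit 12) (nat_lit 5) (nat_lit 15) (nat_lit 5) (nat_lit 13) (nat_lit 4) (nat_lit 233) (nat_lit 220) (nat_lit 207)) (XT.lf (nat_lit 0) (nat_lit 5051473783) (nat_lit 228) (nat_lit 512098625) (nat_lit 76) (nat_lit 8255481389) (nat_lit 12) (nat_lit 5) (nat_lit 15) (nat_lit 5) (nat_lit 13) (nat_lit 4) (nat_lit 234) (nat_lit 220) (nat_lit 206))) (XT.nd (nat_lit 78) (nat_lit 76) (nat_lit 0) (XT.lf (nat_lit 0) (nat_lit 7637190599) (nat_lit 76) (nat_lit 1318210002) (nat_lit 152) (nat_lit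 6191010780) (nat_lit 11) (nat_lit 5) (nat_lit 12) (nat_lit 5) (nat_lit 13) (nat_lit 4) (nat_lit 235) (nat_lit 220) (nat_lit 205)) (XT.lf (nat_lit 0) (nat_lit 9039432) (nat_lit 76) (nat_lit 13472508605) (nat_lit 76) (nat_lit 3186223364) (nat_lit 10) (nat_lit 4) (nat_lit 11) (nat_lit 5) (nat_lit 11) (nat_lit 4) (nat_lit 236) (nat_lit 220) (nat_lit 204)))) (XT.nd (nat_lit 156) (nat_lit 152) (nat_lit 0) (XT.nd (nat_lit 78) (nat_lit 0) (nat_lit 0) (XT.lf (nat_lit 0) (nat_lit 582075209) (nat_lit 152) (nat_lit 9195358386) (nat_lit 76) (nat_lit 8588011878) (nat_lit 9) (nat_lit 5) (nat_lit 11) (nat_lit 5) (nat_lit 10) (nat_lit 4) (nat_lit 237) (nat_lit 220) (nat_lit 203)) (XT.lf (nat_lit 0) (nat_lit 4470084131) (nat_lit 152) (nat_lit 975734722) (nat_lit 76) (nat_lit 14867350700) (nat_lit 9) (nat_lit 5) (nat_lit 11) (nat_lit 5) (nat_lit 10) (nat_lit 4) (nat_lit 238) (nat_lit 220) (nat_lit 202)))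 (XT.nd (nat_lit 78) (nat_lit 76) (nat_lit 0) (XT.lf (nat_lit 0) (nat_lit 9103334224) (nat_lit 76) (nat_lit 111148211) (nat_lit 152) (nat_lit 13297816611) (nat_lit 8) (nat_lit 5) (nat_lit 9) (nat_lit 5) (nat_lit 10) (nat_lit 4) (nat_lit 239) (nat_lit 220) (nat_lit 201)) (XT.nd (nat_lit 78) (nat_lit 76) (nat_lit 0) (XT.lf (nat_lit 0) (nat_lit 14872672077) (nat_lit 152) (nat_lit 4668749101) (nat_lit 0) (nat_lit 5469752703) (nat_lit 8) (nat_lit 5) (nat_lit 10) (nat_lit 4) (nat_lit 8) (nat_lit 4) (nat_lit 240) (nat_lit 220) (nat_lit 200)) (XT.lf (nat_lit 0) (nat_lit 5724047186) (nat_lit 76) (nat_lit 15810264140) (nat_lit 76) (nat_lit 6327530576) (nat_lit 7) (nat_lit 4) (nat_lit 8) (nat_lit 5) (nat_lit 8) (nat_lit 4) (nat_lit 241) (nat_lit 220) (nat_lit 199)))))) (XT.nd (nat_lit 312) (nat_lit 76) (nat_lit 0) (XT.nd (nat_lit 156) (nat_lit 76) (nat_lit 0) (XT.nd (nat_lit 78) (nat_lit 76) (nat_lit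 0) (XT.lf (nat_lit 0) (nat_lit 18045111247) (nat_lit 76) (nat_lit 11311533404) (nat_lit 76) (nat_lit 1759396196) (nat_lit 7) (nat_lit 4) (nat_lit 8) (nat_lit 5) (nat_lit 8) (nat_lit 4) (nat_lit 242) (nat_lit 220) (nat_lit 198)) (XT.lf (nat_lit 0) (nat_lit 3107538379) (nat_lit 152) (nat_lit 2931280687) (nat_lit 76) (nat_lit 28809265373) (nat_lit 6) (nat_lit 5) (nat_lit 8) (nat_lit 5) (nat_lit 7) (nat_lit 4) (nat_lit 243) (nat_lit 220) (nat_lit 197))) (XT.nd (nat_lit 78) (nat_lit 0) (nat_lit 0) (XT.lf (nat_lit 0) (nat_lit 8867236300) (nat_lit 152) (nat_lit 29745883774) (nat_lit 0) (nat_lit 462916884) (nat_lit 5) (nat_lit 5) (nat_lit 7) (nat_lit 4) (nat_lit 5) (nat_lit 4) (nat_lit 244) (nat_lit 220) (nat_lit 196)) (XT.lf (nat_lit 0) (nat_lit 15874750852) (nat_lit 152) (nat_lit 20575187123) (nat_lit 0) (nat_lit 7430749677) (nat_lit 5) (nat_lit 5) (nat_lit 7) (nat_lit 4) (nat_lit 5) (nat_lit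 4) (nat_lit 245) (nat_lit 220) (nat_lit 195)))) (XT.nd (nat_lit 156) (nat_lit 0) (nat_lit 0) (XT.nd (nat_lit 78) (nat_lit 76) (nat_lit 0) (XT.lf (nat_lit 0) (nat_lit 23877546165) (nat_lit 152) (nat_lit 10137901188) (nat_lit 0) (nat_lit 15399039113) (nat_lit 5) (nat_lit 5) (nat_lit 7) (nat_lit 4) (nat_lit 5) (nat_lit 4) (nat_lit 246) (nat_lit 220) (nat_lit 194)) (XT.lf (nat_lit 0) (nat_lit 1943176836) (nat_lit 76) (nat_lit 31169484644) (nat_lit 76) (nat_lit 22660972481) (nat_lit 4) (nat_lit 4) (nat_lit 5) (nat_lit 5) (nat_lit 5) (nat_lit 4) (nat_lit 247) (nat_lit 220) (nat_lit 193))) (XT.nd (nat_lit 78) (nat_lit 0) (nat_lit 0) (XT.lf (nat_lit 0) (nat_lit 16885291477) (nat_lit 76) (nat_lit 27331713569) (nat_lit 76) (nat_lit 18797110006) (nat_lit 4) (nat_lit 4) (nat_lit 5) (nat_lit 5) (nat_lit 5) (nat_lit 4) (nat_lit 248) (nat_lit 220) (nat_lit 192)) (XT.nd (nat_lit 78) (nat_lit 0) (nat_lit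 0) (XT.lf (nat_lit 0) (nat_lit 33990039022) (nat_lit 76) (nat_lit 22956983050) (nat_lit 76) (nat_lit 14399691312) (nat_lit 4) (nat_lit 4) (nat_lit 5) (nat_lit 5) (nat_lit 5) (nat_lit 4) (nat_lit 249) (nat_lit 220) (nat_lit 191)) (XT.lf (nat_lit 0) (nat_lit 53592077574) (nat_lit 76) (nat_lit 17959700531) (nat_lit 76) (nat_lit 9382679946) (nat_lit 4) (nat_lit 4) (nat_lit 5) (nat_lit 5) (nat_lit 5) (nat_lit 4) (nat_lit 250) (nat_lit 220) (nat_lit 190))))))) (XT.nd (nat_lit 702) (nat_lit 0) (nat_lit 0) (XT.nd (nat_lit 312) (nat_lit 0) (nat_lit 0) (XT.nd (nat_lit 156) (nat_lit 76) (nat_lit 0) (XT.nd (nat_lit 78) (nat_lit 76) (nat_lit 0) (XT.lf (nat_lit 0) (nat_lit 76074925279) (nat_lit 76) (nat_lit 12242093095) (nat_lit 76) (nat_lit 3647916990) (nat_lit 4) (nat_lit 4) (nat_lit 5) (nat_lit 5) (nat_lit 5) (nat_lit 4) (nat_lit 251) (nat_lit 220) (nat_lit 189)) (XT.lf (nat_lit 0) (nat_lit 2657125782)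 (nat_lit 152) (nat_lit 2896273515) (nat_lit 76) (nat_lit 99082442946) (nat_lit 3) (nat_lit 5) (nat_lit 5) (nat_lit 5) (nat_lit 4) (nat_lit 4) (nat_lit 252) (nat_lit 220) (nat_lit 188))) (XT.nd (nat_lit 78) (nat_lit 0) (nat_lit 0) (XT.lf (nat_lit 0) (nat_lit 10169452054) (nat_lit 152) (nat_lit 106244646579) (nat_lit 0) (nat_lit 2672003371) (nat_lit 2) (nat_lit 5) (nat_lit 4) (nat_lit 4) (nat_lit 2) (nat_lit 4) (nat_lit 253) (nat_lit 220) (nat_lit 187)) (XT.lf (nat_lit 0) (nat_lit 19208032927) (nat_lit 152) (nat_lit 104735202341) (nat_lit 0) (nat_lit 11700775521) (nat_lit 2) (nat_lit 5) (nat_lit 4) (nat_lit 4) (nat_lit 2) (nat_lit 4) (nat_lit 254) (nat_lit 220) (nat_lit 186)))) (XT.nd (nat_lit 156) (nat_lit 0) (nat_lit 0) (XT.nd (nat_lit 78) (nat_lit 0) (nat_lit 0) (XT.lf (nat_lit 0) (nat_lit 29581837992) (nat_lit 152) (nat_lit 103040819260) (nat_lit 0) (nat_lit 22066051261) (nat_lit 2)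 (nat_lit 5) (nat_lit 4) (nat_lit 4) (nat_lit 2) (nat_lit 4) (nat_lit 255) (nat_lit 220) (nat_lit 185)) (XT.lf (nat_lit 0) (nat_lit 41493833001) (nat_lit 152) (nat_lit 101128346363) (nat_lit 0) (nat_lit 33970629466) (nat_lit 2) (nat_lit 5) (nat_lit 4) (nat_lit 4) (nat_lit 2) (nat_lit 4) (nat_lit 256) (nat_lit 220) (nat_lit 184))) (XT.nd (nat_lit 78) (nat_lit 0) (nat_lit 0) (XT.lf (nat_lit 0) (nat_lit 55177078726) (nat_lit 152) (nat_lit 98960365701) (nat_lit 0) (nat_lit 47647425795) (nat_lit 2) (nat_lit 5) (nat_lit 4) (nat_lit 4) (nat_lit 2) (nat_lit 4) (nat_lit 257) (nat_lit 220) (nat_lit 183)) (XT.nd (nat_lit 78) (nat_lit 0) (nat_lit 0) (XT.lf (nat_lit 0) (nat_lit 70899290843) (nat_lit 152) (nat_lit 96494460261) (nat_lit 0) (nat_lit 63364029743) (nat_lit 2) (nat_lit 5) (nat_lit 4) (nat_lit 4) (nat_lit 2) (nat_lit 4) (nat_lit 258) (nat_lit 220) (nat_lit 182)) (XT.lf (nat_lit 0) (nat_lit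 88968077851) (nat_lit 152) (nat_lit 93682384068) (nat_lit 0) (nat_lit 81427940082) (nat_lit 2) (nat_lit 5) (nat_lit 4) (nat_lit 4) (nat_lit 2) (nat_lit 4) (nat_lit 259) (nat_lit 220) (nat_lit 181)))))) (XT.nd (nat_lit 312) (nat_lit 0) (nat_lit 0) (XT.nd (nat_lit 156) (nat_lit 0) (nat_lit 0) (XT.nd (nat_lit 78) (nat_lit 0) (nat_lit 0) (XT.lf (nat_lit 0) (nat_lit 109736959496) (nat_lit 152) (nat_lit 90469118239) (nat_lit 0) (nat_lit 102192581144) (nat_lit 2) (nat_lit 5) (nat_lit 4) (nat_lit 4) (nat_lit 2) (nat_lit 4) (nat_lit 260) (nat_lit 220) (nat_lit 180)) (XT.lf (nat_lit 0) (nat_lit 133612283461) (nat_lit 152) (nat_lit 86791794530) (nat_lit 0) (nat_lit 126064217647) (nat_lit 2) (nat_lit 5) (nat_lit 4) (nat_lit 4) (nat_lit 2) (nat_lit 4) (nat_lit 261) (nat_lit 220) (nat_lit 179))) (XT.nd (nat_lit 78) (nat_lit 0) (nat_lit 0) (XT.lf (nat_lit 0) (nat_lit 161061175652) (nat_lit 152) (nat_lit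 82578465304) (nat_lit 0) (nat_lit 153509903348) (nat_lit 2) (nat_lit 5) (nat_lit 4) (nat_lit 4) (nat_lit 2) (nat_lit 4) (nat_lit 262) (nat_lit 220) (nat_lit 178)) (XT.lf (nat_lit 0) (nat_lit 192620679609) (nat_lit 152) (nat_lit 77746695857) (nat_lit 0) (nat_lit 185066619054) (nat_lit 2) (nat_lit 5) (nat_lit 4) (nat_lit 4) (nat_lit 2) (nat_lit 4) (nat_lit 263) (nat_lit 220) (nat_lit 177)))) (XT.nd (nat_lit 156) (nat_lit 0) (nat_lit 0) (XT.nd (nat_lit 78) (nat_lit 0) (nat_lit 0) (XT.lf (nat_lit 0) (nat_lit 228908263889) (nat_lit 152) (nat_lit 72201951570) (nat_lit 0) (nat_lit 221351778768) (nat_lit 2) (nat_lit 5) (nat_lit 4) (nat_lit 4) (nat_lit 2) (nat_lit 4) (nat_lit 264) (nat_lit 220) (nat_lit 176)) (XT.lf (nat_lit 0) (nat_lit 270633902968) (nat_lit 152) (nat_lit 65835748316) (nat_lit 0) (nat_lit 263075309528) (nat_lit 2) (nat_lit 5) (nat_lit 4) (nat_lit 4) (nat_lit 2) (nat_lit 4) (nat_lit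 265) (nat_lit 220) (nat_lit 175))) (XT.nd (nat_lit 78) (nat_lit 0) (nat_lit 0) (XT.lf (nat_lit 0) (nat_lit 318613968044) (nat_lit 152) (nat_lit 58523529945) (nat_lit 0) (nat_lit 311053541283) (nat_lit 2) (nat_lit 5) (nat_lit 4) (nat_lit 4) (nat_lit 2) (nat_lit 4) (nat_lit 266) (nat_lit 220) (nat_lit 174)) (XT.nd (nat_lit 78) (nat_lit 0) (nat_lit 0) (XT.lf (nat_lit 0) (nat_lit 373787199522) (nat_lit 152) (nat_lit 50122231314) (nat_lit 0) (nat_lit 366225178569) (nat_lit 2) (nat_lit 5) (nat_lit 4) (nat_lit 4) (nat_lit 2) (nat_lit 4) (nat_lit 267) (nat_lit 220) (nat_lit 173)) (XT.lf (nat_lit 0) (nat_lit 437233073668) (nat_lit 152) (nat_lit 40467479189) (nat_lit 0) (nat_lit 429669666461) (nat_lit 2) (nat_lit 5) (nat_lit 4) (nat_lit 4) (nat_lit 2) (nat_lit 4) (nat_lit 268) (nat_lit 220) (nat_lit 172))))))))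
noncomputable def xc50 : XT := (XT.nd (nat_lit 1404) (nat_lit 0) (nat_lit 0) (XT.nd (nat_lit 702) (nat_lit 0) (nat_lit 0) (XT.nd (nat_lit 312) (nat_lit 0) (nat_lit 0) (XT.nd (nat_lit 156) (nat_lit 76) (nat_lit 0) (XT.nd (nat_lit 78) (nat_lit 0) (nat_lit 0) (XT.lf (nat_lit 0) (nat_lit 510192922804) (nat_lit 152) (nat_lit 29370376246) (nat_lit 0) (nat_lit 502628310159) (nat_lit 2) (nat_lit 5) (nat_lit 4) (nat_lit 4) (nat_lit 2) (nat_lit 4) (nat_lit 269) (nat_lit 220) (nat_lit 171)) (XT.lf (nat_lit 0) (nat_lit 594094222239) (nat_lit 152) (nat_lit 16613805253) (nat_lit 0) (nat_lit 586528561387) (nat_lit 2) (nat_lit 5) (nat_lit 4) (nat_lit 4) (nat_lit 2) (nat_lit 4) (nat_lit 270) (nat_lit 220) (nat_lit 170))) (XT.nd (nat_lit 78) (nat_lit 76) (nat_lit 0) (XT.lf (nat_lit 0) (nat_lit 690578519135) (nat_lit 152) (nat_lit 1948181127) (nat_lit 0) (nat_lit 683011946799) (nat_lit 2) (nat_lit 5) (nat_lit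 4) (nat_lit 4) (nat_lit 2) (nat_lit 4) (nat_lit 271) (nat_lit 220) (nat_lit 169)) (XT.lf (nat_lit 0) (nat_lit 16370881319) (nat_lit 76) (nat_lit 785840551701) (nat_lit 76) (nat_lit 778273186770) (nat_lit 1) (nat_lit 4) (nat_lit 2) (nat_lit 5) (nat_lit 2) (nat_lit 4) (nat_lit 272) (nat_lit 220) (nat_lit 168)))) (XT.nd (nat_lit 156) (nat_lit 0) (nat_lit 0) (XT.nd (nat_lit 78) (nat_lit 0) (nat_lit 0) (XT.lf (nat_lit 0) (nat_lit 37653072962) (nat_lit 76) (nat_lit 893036233830) (nat_lit 76) (nat_lit 885468179686) (nat_lit 1) (nat_lit 4) (nat_lit 2) (nat_lit 5) (nat_lit 2) (nat_lit 4) (nat_lit 273) (nat_lit 220) (nat_lit 167)) (XT.lf (nat_lit 0) (nat_lit 62124394081) (nat_lit 76) (nat_lit 1016312890213) (nat_lit 76) (nat_lit 1008744236753) (nat_lit 1) (nat_lit 4) (nat_lit 2) (nat_lit 5) (nat_lit 2) (nat_lit 4) (nat_lit 274) (nat_lit 220) (nat_lit 166))) (XT.nd (nat_lit 78) (nat_lit 0) (nat_lit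 0) (XT.lf (nat_lit 0) (nat_lit 90263631392) (nat_lit 76) (nat_lit 1158082455432) (nat_lit 76) (nat_lit 1150513280828) (nat_lit 1) (nat_lit 4) (nat_lit 2) (nat_lit 5) (nat_lit 2) (nat_lit 4) (nat_lit 275) (nat_lit 220) (nat_lit 165)) (XT.nd (nat_lit 78) (nat_lit 0) (nat_lit 0) (XT.lf (nat_lit 0) (nat_lit 122621335191) (nat_lit 76) (nat_lit 1321118681850) (nat_lit 76) (nat_lit 1313549054077) (nat_lit 1) (nat_lit 4) (nat_lit 2) (nat_lit 5) (nat_lit 2) (nat_lit 4) (nat_lit 276) (nat_lit 220) (nat_lit 164)) (XT.lf (nat_lit 0) (nat_lit 159830590986) (nat_lit 76) (nat_lit 1508611408679) (nat_lit 76) (nat_lit 1501041386846) (nat_lit 1) (nat_lit 4) (nat_lit 2) (nat_lit 5) (nat_lit 2) (nat_lit 4) (nat_lit 277) (nat_lit 220) (nat_lit 163)))))) (XT.nd (nat_lit 312) (nat_lit 0) (nat_lit 0) (XT.nd (nat_lit 156) (nat_lit 0) (nat_lit 0) (XT.nd (nat_lit 78) (nat_lit 0) (nat_lit 0) (XT.lf (nat_lit 0)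 (nat_lit 202619405957) (nat_lit 76) (nat_lit 1724228971879) (nat_lit 76) (nat_lit 1716658607386) (nat_lit 1) (nat_lit 4) (nat_lit 2) (nat_lit 5) (nat_lit 2) (nat_lit 4) (nat_lit 278) (nat_lit 220) (nat_lit 162)) (XT.lf (nat_lit 0) (nat_lit 251824952570) (nat_lit 76) (nat_lit 1972189975948) (nat_lit 76) (nat_lit 1964619313489) (nat_lit 1) (nat_lit 4) (nat_lit 2) (nat_lit 5) (nat_lit 2) (nat_lit 4) (nat_lit 279) (nat_lit 220) (nat_lit 161))) (XT.nd (nat_lit 78) (nat_lit 0) (nat_lit 0) (XT.lf (nat_lit 0) (nat_lit 308409948041) (nat_lit 76) (nat_lit 2257345831834) (nat_lit 76) (nat_lit 2249774910274) (nat_lit 1) (nat_lit 4) (nat_lit 2) (nat_lit 5) (nat_lit 2) (nat_lit 4) (nat_lit 280) (nat_lit 220) (nat_lit 160)) (XT.lf (nat_lit 0) (nat_lit 373481490109) (nat_lit 76) (nat_lit 2585275675849) (nat_lit 76) (nat_lit 2577704528984) (nat_lit 1) (nat_lit 4) (nat_lit 2) (nat_lit 5) (nat_lit 2) (nat_lit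 4) (nat_lit 281) (nat_lit 220) (nat_lit 159)))) (XT.nd (nat_lit 156) (nat_lit 0) (nat_lit 0) (XT.nd (nat_lit 78) (nat_lit 0) (nat_lit 0) (XT.lf (nat_lit 0) (nat_lit 448312717639) (nat_lit 76) (nat_lit 2962395526680) (nat_lit 76) (nat_lit 2954824183897) (nat_lit 1) (nat_lit 4) (nat_lit 2) (nat_lit 5) (nat_lit 2) (nat_lit 4) (nat_lit 282) (nat_lit 220) (nat_lit 158)) (XT.lf (nat_lit 0) (nat_lit 534367719865) (nat_lit 76) (nat_lit 3396083816190) (nat_lit 76) (nat_lit 3388512303045) (nat_lit 1) (nat_lit 4) (nat_lit 2) (nat_lit 5) (nat_lit 2) (nat_lit 4) (nat_lit 283) (nat_lit 220) (nat_lit 157))) (XT.nd (nat_lit 78) (nat_lit 0) (nat_lit 0) (XT.lf (nat_lit 0) (nat_lit 633330181615) (nat_lit 76) (nat_lit 3894825750045) (nat_lit 76) (nat_lit 3887254088757) (nat_lit 1) (nat_lit 4) (nat_lit 2) (nat_lit 5) (nat_lit 2) (nat_lit 4) (nat_lit 284) (nat_lit 220) (nat_lit 156)) (XT.nd (nat_lit 78) (nat_lit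 0) (nat_lit 0) (XT.lf (nat_lit 0) (nat_lit 747136324966) (nat_lit 76) (nat_lit 4468379322601) (nat_lit 76) (nat_lit 4460807532495) (nat_lit 1) (nat_lit 4) (nat_lit 2) (nat_lit 5) (nat_lit 2) (nat_lit 4) (nat_lit 285) (nat_lit 220) (nat_lit 155)) (XT.lf (nat_lit 0) (nat_lit 878012791852) (nat_lit 76) (nat_lit 5127966234193) (nat_lit 76) (nat_lit 5120394332070) (nat_lit 1) (nat_lit 4) (nat_lit 2) (nat_lit 5) (nat_lit 2) (nat_lit 4) (nat_lit 286) (nat_lit 220) (nat_lit 154))))))) (XT.nd (nat_lit 702) (nat_lit 0) (nat_lit 0) (XT.nd (nat_lit 312) (nat_lit 0) (nat_lit 0) (XT.nd (nat_lit 156) (nat_lit 0) (nat_lit 0) (XT.nd (nat_lit 78) (nat_lit 0) (nat_lit 0) (XT.lf (nat_lit 0) (nat_lit 1028520208800) (nat_lit 76) (nat_lit 5886491446133) (nat_lit 76) (nat_lit 5878919446604) (nat_lit 1) (nat_lit 4) (nat_lit 2) (nat_lit 5) (nat_lit 2) (nat_lit 4) (nat_lit 287) (nat_lit 220) (nat_lit 153)) (XT.lf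 (nat_lit 0) (nat_lit 1201603286142) (nat_lit 76) (nat_lit 6758795669089) (nat_lit 76) (nat_lit 6751223584861) (nat_lit 1) (nat_lit 4) (nat_lit 2) (nat_lit 5) (nat_lit 2) (nat_lit 4) (nat_lit 288) (nat_lit 220) (nat_lit 152))) (XT.nd (nat_lit 78) (nat_lit 0) (nat_lit 0) (XT.lf (nat_lit 0) (nat_lit 1400648431912) (nat_lit 76) (nat_lit 7761945724817) (nat_lit 76) (nat_lit 7754373566935) (nat_lit 1) (nat_lit 4) (nat_lit 2) (nat_lit 5) (nat_lit 2) (nat_lit 4) (nat_lit 289) (nat_lit 220) (nat_lit 151)) (XT.lf (nat_lit 0) (nat_lit 1629550007658) (nat_lit 76) (nat_lit 8915568462231) (nat_lit 76) (nat_lit 8907996240304) (nat_lit 1) (nat_lit 4) (nat_lit 2) (nat_lit 5) (nat_lit 2) (nat_lit 4) (nat_lit 290) (nat_lit 220) (nat_lit 150)))) (XT.nd (nat_lit 156) (nat_lit 0) (nat_lit 0) (XT.nd (nat_lit 78) (nat_lit 0) (nat_lit 0) (XT.lf (nat_lit 0) (nat_lit 1892786522470) (nat_lit 76) (nat_lit 10242234760977)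 (nat_lit 76) (nat_lit 10234662483358) (nat_lit 1) (nat_lit 4) (nat_lit 2) (nat_lit 5) (nat_lit 2) (nat_lit 4) (nat_lit 291) (nat_lit 220) (nat_lit 149)) (XT.lf (nat_lit 0) (nat_lit 2195508255988) (nat_lit 76) (nat_lit 11767901135595) (nat_lit 76) (nat_lit 11760328809548) (nat_lit 1) (nat_lit 4) (nat_lit 2) (nat_lit 5) (nat_lit 2) (nat_lit 4) (nat_lit 292) (nat_lit 220) (nat_lit 148))) (XT.nd (nat_lit 78) (nat_lit 0) (nat_lit 0) (XT.lf (nat_lit 0) (nat_lit 2543638024735) (nat_lit 76) (nat_lit 13522417580372) (nat_lit 76) (nat_lit 13514845212214) (nat_lit 1) (nat_lit 4) (nat_lit 2) (nat_lit 5) (nat_lit 2) (nat_lit 4) (nat_lit 293) (nat_lit 220) (nat_lit 147)) (XT.nd (nat_lit 78) (nat_lit 0) (nat_lit 0) (XT.lf (nat_lit 0) (nat_lit 2943987063317) (nat_lit 76) (nat_lit 15540111590966) (nat_lit 76) (nat_lit 15532539186190) (nat_lit 1) (nat_lit 4) (nat_lit 2) (nat_lit 5) (nat_lit 2) (nat_lit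 4) (nat_lit 294) (nat_lit 220) (nat_lit 146)) (XT.lf (nat_lit 0) (nat_lit 3404388287708) (nat_lit 76) (nat_lit 17860459789324) (nat_lit 76) (nat_lit 17852887352706) (nat_lit 1) (nat_lit 4) (nat_lit 2) (nat_lit 5) (nat_lit 2) (nat_lit 4) (nat_lit 295) (nat_lit 220) (nat_lit 145)))))) (XT.nd (nat_lit 1014) (nat_lit 0) (nat_lit 0) (XT.nd (nat_lit 156) (nat_lit 0) (nat_lit 0) (XT.nd (nat_lit 78) (nat_lit 0) (nat_lit 0) (XT.lf (nat_lit 0) (nat_lit 3933849547948) (nat_lit 76) (nat_lit 20528860292370) (nat_lit 76) (nat_lit 20521287828063) (nat_lit 1) (nat_lit 4) (nat_lit 2) (nat_lit 5) (nat_lit 2) (nat_lit 4) (nat_lit 296) (nat_lit 220) (nat_lit 144)) (XT.lf (nat_lit 0) (nat_lit 4542729868696) (nat_lit 76) (nat_lit 23597520936034) (nat_lit 76) (nat_lit 23589948447649) (nat_lit 1) (nat_lit 4) (nat_lit 2) (nat_lit 5) (nat_lit 2) (nat_lit 4) (nat_lit 297) (nat_lit 220) (nat_lit 143))) (XT.nd (nat_lit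 780) (nat_lit 0) (nat_lit 0) (XT.lf (nat_lit 0) (nat_lit 5242942125793) (nat_lit 76) (nat_lit 27126480732907) (nat_lit 76) (nat_lit 27118908223586) (nat_lit 1) (nat_lit 4) (nat_lit 2) (nat_lit 5) (nat_lit 2) (nat_lit 4) (nat_lit 298) (nat_lit 220) (nat_lit 142)) (XT.lf (nat_lit 0) (nat_lit 21592385004392) (nat_lit 76) (nat_lit 109525140150971) (nat_lit 76) (nat_lit 109517567536573) (nat_lit 1) (nat_lit 4) (nat_lit 2) (nat_lit 5) (nat_lit 2) (nat_lit 4) (nat_lit 308) (nat_lit 220) (nat_lit 132)))) (XT.nd (nat_lit 156) (nat_lit 0) (nat_lit 0) (XT.nd (nat_lit 78) (nat_lit 0) (nat_lit 0) (XT.lf (nat_lit 0) (nat_lit 24850044946901) (nat_lit 76) (nat_lit 125943243126633) (nat_lit 76) (nat_lit 125935670507736) (nat_lit 1) (nat_lit 4) (nat_lit 2) (nat_lit 5) (nat_lit 2) (nat_lit 4) (nat_lit 309) (nat_lit 220) (nat_lit 131)) (XT.lf (nat_lit 0) (nat_lit 28596353859895) (nat_lit 76) (nat_lit 144824061559236)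 (nat_lit 76) (nat_lit 144816488936425) (nat_lit 1) (nat_lit 4) (nat_lit 2) (nat_lit 5) (nat_lit 2) (nat_lit 4) (nat_lit 310) (nat_lit 220) (nat_lit 130))) (XT.nd (nat_lit 78) (nat_lit 0) (nat_lit 0) (XT.lf (nat_lit 0) (nat_lit 32904609091675) (nat_lit 76) (nat_lit 166537002765937) (nat_lit 76) (nat_lit 166529430139723) (nat_lit 1) (nat_lit 4) (nat_lit 2) (nat_lit 5) (nat_lit 2) (nat_lit 4) (nat_lit 311) (nat_lit 220) (nat_lit 129)) (XT.nd (nat_lit 78) (nat_lit 0) (nat_lit 0) (XT.lf (nat_lit 0) (nat_lit 37859102592426) (nat_lit 76) (nat_lit 191506885161651) (nat_lit 76) (nat_lit 191499312532479) (nat_lit 1) (nat_lit 4) (nat_lit 2) (nat_lit 5) (nat_lit 2) (nat_lit 4) (nat_lit 312) (nat_lit 220) (nat_lit 128)) (XT.lf (nat_lit 0) (nat_lit 43556770104555) (nat_lit 76) (nat_lit 220222249923687) (nat_lit 76) (nat_lit 220214677291941) (nat_lit 1) (nat_lit 4) (nat_lit 2) (nat_lit 5) (nat_lit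 2) (nat_lit 4) (nat_lit 313) (nat_lit 220) (nat_lit 127))))))))
noncomputable def xc51 : XT := (XT.nd (nat_lit 1404) (nat_lit 532) (nat_lit 0) (XT.nd (nat_lit 702) (nat_lit 684) (nat_lit 0) (XT.nd (nat_lit 312) (nat_lit 760) (nat_lit 0) (XT.nd (nat_lit 156) (nat_lit 0) (nat_lit 0) (XT.nd (nat_lit 78) (nat_lit 228) (nat_lit 0) (XT.lf (nat_lit 0) (nat_lit 1382370449) (nat_lit 0) (nat_lit 1382370449) (nat_lit 76) (nat_lit 498737457) (nat_lit 31) (nat_lit 5) (nat_lit 31) (nat_lit 3) (nat_lit 32) (nat_lit 0) (nat_lit 221) (nat_lit 221) (nat_lit 218)) (XT.lf (nat_lit 0) (nat_lit 1326713071) (nat_lit 228) (nat_lit 668482074) (nat_lit 228) (nat_lit 4664428378) (nat_lit 28) (nat_lit 3) (nat_lit 31) (nat_lit 3) (nat_lit 31) (nat_lit 5) (nat_lit 222) (nat_lit 221) (nat_lit 217))) (XT.nd (nat_lit 78) (nat_lit 0) (nat_lit 76) (XT.lf (nat_lit 76) (nat_lit 2858891883) (nat_lit 0) (nat_lit 746742089)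 (nat_lit 228) (nat_lit 3246399728) (nat_lit 29) (nat_lit 5) (nat_lit 28) (nat_lit 3) (nat_lit 31) (nat_lit 5) (nat_lit 223) (nat_lit 221) (nat_lit 216)) (XT.lf (nat_lit 0) (nat_lit 5931261352) (nat_lit 152) (nat_lit 397866034) (nat_lit 76) (nat_lit 791232318) (nat_lit 29) (nat_lit 5) (nat_lit 31) (nat_lit 5) (nat_lit 30) (nat_lit 4) (nat_lit 224) (nat_lit 221) (nat_lit 215)))) (XT.nd (nat_lit 156) (nat_lit 380) (nat_lit 0) (XT.nd (nat_lit 78) (nat_lit 228) (nat_lit 0) (XT.lf (nat_lit 0) (nat_lit 943115625) (nat_lit 228) (nat_lit 3706445397) (nat_lit 76) (nat_lit 2793507186) (nat_lit 26) (nat_lit 5) (nat_lit 29) (nat_lit 5) (nat_lit 27) (nat_lit 5) (nat_lit 225) (nat_lit 221) (nat_lit 214)) (XT.lf (nat_lit 0) (nat_lit 434250907) (nat_lit 228) (nat_lit 2581188481) (nat_lit 304) (nat_lit 4830778122) (nat_lit 23) (nat_lit 5) (nat_lit 26) (nat_lit 5) (nat_lit 27) (nat_lit 5) (nat_lit 226)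 (nat_lit 221) (nat_lit 213))) (XT.nd (nat_lit 78) (nat_lit 380) (nat_lit 0) (XT.lf (nat_lit 0) (nat_lit 5323967641) (nat_lit 304) (nat_lit 2970855679) (nat_lit 76) (nat_lit 27804576) (nat_lit 23) (nat_lit 5) (nat_lit 27) (nat_lit 5) (nat_lit 24) (nat_lit 4) (nat_lit 227) (nat_lit 221) (nat_lit 212)) (XT.nd (nat_lit 78) (nat_lit 76) (nat_lit 0) (XT.lf (nat_lit 0) (nat_lit 1922157526) (nat_lit 304) (nat_lit 6025012041) (nat_lit 380) (nat_lit 929455523) (nat_lit 19) (nat_lit 5) (nat_lit 23) (nat_lit 5) (nat_lit 24) (nat_lit 4) (nat_lit 228) (nat_lit 221) (nat_lit 211)) (XT.lf (nat_lit 0) (nat_lit 1258484373) (nat_lit 380) (nat_lit 1948465157) (nat_lit 76) (nat_lit 6308193874) (nat_lit 18) (nat_lit 5) (nat_lit 23) (nat_lit 5) (nat_lit 19) (nat_lit 5) (nat_lit 229) (nat_lit 221) (nat_lit 210)))))) (XT.nd (nat_lit 312) (nat_lit 228) (nat_lit 0) (XT.nd (nat_lit 156) (nat_lit 304) (nat_lit 0)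 (XT.nd (nat_lit 78) (nat_lit 0) (nat_lit 0) (XT.lf (nat_lit 0) (nat_lit 3653284327) (nat_lit 228) (nat_lit 6387570662) (nat_lit 76) (nat_lit 206781642) (nat_lit 16) (nat_lit 5) (nat_lit 19) (nat_lit 5) (nat_lit 17) (nat_lit 4) (nat_lit 230) (nat_lit 221) (nat_lit 209)) (XT.lf (nat_lit 0) (nat_lit 6485042104) (nat_lit 228) (nat_lit 726317322) (nat_lit 76) (nat_lit 3867775284) (nat_lit 16) (nat_lit 5) (nat_lit 19) (nat_lit 5) (nat_lit 17) (nat_lit 4) (nat_lit 231) (nat_lit 221) (nat_lit 208))) (XT.nd (nat_lit 78) (nat_lit 228) (nat_lit 0) (XT.lf (nat_lit 0) (nat_lit 6107998607) (nat_lit 76) (nat_lit 3728505257) (nat_lit 152) (nat_lit 2185300890) (nat_lit 15) (nat_lit 5) (nat_lit 16) (nat_lit 5) (nat_lit 17) (nat_lit 4) (nat_lit 232) (nat_lit 221) (nat_lit 207)) (XT.lf (nat_lit 0) (nat_lit 463698874) (nat_lit 228) (nat_lit 12362506217) (nat_lit 76) (nat_lit 286915344) (nat_lit 12) (nat_lit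 5) (nat_lit 15) (nat_lit 5) (nat_lit 13) (nat_lit 4) (nat_lit 233) (nat_lit 221) (nat_lit 206)))) (XT.nd (nat_lit 156) (nat_lit 152) (nat_lit 0) (XT.nd (nat_lit 78) (nat_lit 76) (nat_lit 0) (XT.lf (nat_lit 0) (nat_lit 3642256928) (nat_lit 228) (nat_lit 5772759835) (nat_lit 76) (nat_lit 4884568756) (nat_lit 12) (nat_lit 5) (nat_lit 15) (nat_lit 5) (nat_lit 13) (nat_lit 4) (nat_lit 234) (nat_lit 221) (nat_lit 205)) (XT.lf (nat_lit 0) (nat_lit 1758531713) (nat_lit 76) (nat_lit 5485399114) (nat_lit 152) (nat_lit 8428533255) (nat_lit 11) (nat_lit 5) (nat_lit 12) (nat_lit 5) (nat_lit 13) (nat_lit 4) (nat_lit 235) (nat_lit 221) (nat_lit 204))) (XT.nd (nat_lit 78) (nat_lit 152) (nat_lit 0) (XT.lf (nat_lit 0) (nat_lit 10874071829) (nat_lit 76) (nat_lit 695512574) (nat_lit 152) (nat_lit 5654472944) (nat_lit 11) (nat_lit 5) (nat_lit 12) (nat_lit 5) (nat_lit 13) (nat_lit 4) (nat_lit 236) (nat_lit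 221) (nat_lit 203)) (XT.nd (nat_lit 78) (nat_lit 76) (nat_lit 0) (XT.lf (nat_lit 0) (nat_lit 2159693964) (nat_lit 76) (nat_lit 14567732781) (nat_lit 76) (nat_lit 2253759317) (nat_lit 10) (nat_lit 4) (nat_lit 11) (nat_lit 5) (nat_lit 11) (nat_lit 4) (nat_lit 237) (nat_lit 221) (nat_lit 202)) (XT.lf (nat_lit 0) (nat_lit 1786633628) (nat_lit 152) (nat_lit 8594098569) (nat_lit 76) (nat_lit 10569520286) (nat_lit 9) (nat_lit 5) (nat_lit 11) (nat_lit 5) (nat_lit 10) (nat_lit 4) (nat_lit 238) (nat_lit 221) (nat_lit 201))))))) (XT.nd (nat_lit 702) (nat_lit 228) (nat_lit 0) (XT.nd (nat_lit 312) (nat_lit 152) (nat_lit 0) (XT.nd (nat_lit 156) (nat_lit 76) (nat_lit 0) (XT.nd (nat_lit 78) (nat_lit 0) (nat_lit 0) (XT.lf (nat_lit 0) (nat_lit 658783749) (nat_lit 76) (nat_lit 5480611082) (nat_lit 152) (nat_lit 17068823714) (nat_lit 8) (nat_lit 5) (nat_lit 9) (nat_lit 5) (nat_lit 10) (nat_lit 4) (nat_lit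 239) (nat_lit 221) (nat_lit 200)) (XT.lf (nat_lit 0) (nat_lit 11534505909) (nat_lit 152) (nat_lit 13662580268) (nat_lit 0) (nat_lit 549548119) (nat_lit 8) (nat_lit 5) (nat_lit 10) (nat_lit 4) (nat_lit 8) (nat_lit 4) (nat_lit 240) (nat_lit 221) (nat_lit 199))) (XT.nd (nat_lit 78) (nat_lit 76) (nat_lit 0) (XT.lf (nat_lit 0) (nat_lit 17923698001) (nat_lit 152) (nat_lit 3845203635) (nat_lit 0) (nat_lit 6869336568) (nat_lit 8) (nat_lit 5) (nat_lit 10) (nat_lit 4) (nat_lit 8) (nat_lit 4) (nat_lit 241) (nat_lit 221) (nat_lit 198)) (XT.lf (nat_lit 0) (nat_lit 8037245830) (nat_lit 76) (nat_lit 17500596003) (nat_lit 76) (nat_lit 6385883575) (nat_lit 7) (nat_lit 4) (nat_lit 8) (nat_lit 5) (nat_lit 8) (nat_lit 4) (nat_lit 242) (nat_lit 221) (nat_lit 197)))) (XT.nd (nat_lit 156) (nat_lit 76) (nat_lit 0) (XT.nd (nat_lit 78) (nat_lit 76) (nat_lit 0) (XT.lf (nat_lit 0) (nat_lit 22016740165) (nat_lit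 76) (nat_lit 12415908842) (nat_lit 76) (nat_lit 1248717288) (nat_lit 7) (nat_lit 4) (nat_lit 8) (nat_lit 5) (nat_lit 8) (nat_lit 4) (nat_lit 243) (nat_lit 221) (nat_lit 196)) (XT.lf (nat_lit 0) (nat_lit 4187259681) (nat_lit 152) (nat_lit 2210217260) (nat_lit 76) (nat_lit 33584870783) (nat_lit 6) (nat_lit 5) (nat_lit 8) (nat_lit 5) (nat_lit 7) (nat_lit 4) (nat_lit 244) (nat_lit 221) (nat_lit 195))) (XT.nd (nat_lit 78) (nat_lit 0) (nat_lit 0) (XT.lf (nat_lit 0) (nat_lit 10798644835) (nat_lit 152) (nat_lit 33033951357) (nat_lit 0) (nat_lit 1013855848) (nat_lit 5) (nat_lit 5) (nat_lit 7) (nat_lit 4) (nat_lit 5) (nat_lit 4) (nat_lit 245) (nat_lit 221) (nat_lit 194)) (XT.nd (nat_lit 78) (nat_lit 0) (nat_lit 0) (XT.lf (nat_lit 0) (nat_lit 18778853123) (nat_lit 152) (nat_lit 22640756510) (nat_lit 0) (nat_lit 8964059025) (nat_lit 5) (nat_lit 5) (nat_lit 7) (nat_lit 4) (nat_lit 5) (nat_lit 4)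 (nat_lit 246) (nat_lit 221) (nat_lit 193)) (XT.lf (nat_lit 0) (nat_lit 27913864737) (nat_lit 152) (nat_lit 10771013601) (nat_lit 0) (nat_lit 18072979238) (nat_lit 5) (nat_lit 5) (nat_lit 7) (nat_lit 4) (nat_lit 5) (nat_lit 4) (nat_lit 247) (nat_lit 221) (nat_lit 192)))))) (XT.nd (nat_lit 312) (nat_lit 152) (nat_lit 0) (XT.nd (nat_lit 156) (nat_lit 0) (nat_lit 0) (XT.nd (nat_lit 78) (nat_lit 0) (nat_lit 0) (XT.lf (nat_lit 0) (nat_lit 3081881911) (nat_lit 76) (nat_lit 35428140411) (nat_lit 76) (nat_lit 25564566738) (nat_lit 4) (nat_lit 4) (nat_lit 5) (nat_lit 5) (nat_lit 5) (nat_lit 4) (nat_lit 248) (nat_lit 221) (nat_lit 191)) (XT.lf (nat_lit 0) (nat_lit 20154805677) (nat_lit 76) (nat_lit 31069064579) (nat_lit 76) (nat_lit 21185762059) (nat_lit 4) (nat_lit 4) (nat_lit 5) (nat_lit 5) (nat_lit 5) (nat_lit 4) (nat_lit 249) (nat_lit 221) (nat_lit 190))) (XT.nd (nat_lit 78) (nat_lit 0) (nat_lit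 0) (XT.lf (nat_lit 0) (nat_lit 39729171378) (nat_lit 76) (nat_lit 26085394833) (nat_lit 76) (nat_lit 16184936793) (nat_lit 4) (nat_lit 4) (nat_lit 5) (nat_lit 5) (nat_lit 5) (nat_lit 4) (nat_lit 250) (nat_lit 221) (nat_lit 189)) (XT.lf (nat_lit 0) (nat_lit 62187955734) (nat_lit 76) (nat_lit 20379624590) (nat_lit 76) (nat_lit 10464248707) (nat_lit 4) (nat_lit 4) (nat_lit 5) (nat_lit 5) (nat_lit 5) (nat_lit 4) (nat_lit 251) (nat_lit 221) (nat_lit 188)))) (XT.nd (nat_lit 156) (nat_lit 76) (nat_lit 0) (XT.nd (nat_lit 78) (nat_lit 76) (nat_lit 0) (XT.lf (nat_lit 0) (nat_lit 87970569744) (nat_lit 76) (nat_lit 13840119215) (nat_lit 76) (nat_lit 3911771295) (nat_lit 4) (nat_lit 4) (nat_lit 5) (nat_lit 5) (nat_lit 5) (nat_lit 4) (nat_lit 252) (nat_lit 221) (nat_lit 187)) (XT.lf (nat_lit 0) (nat_lit 3280137223) (nat_lit 152) (nat_lit 2887332922) (nat_lit 76) (nat_lit 114129856914) (nat_lit 3)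 (nat_lit 5) (nat_lit 5) (nat_lit 5) (nat_lit 4) (nat_lit 4) (nat_lit 253) (nat_lit 221) (nat_lit 186))) (XT.nd (nat_lit 78) (nat_lit 0) (nat_lit 0) (XT.lf (nat_lit 0) (nat_lit 11916280108) (nat_lit 152) (nat_lit 121734733848) (nat_lit 0) (nat_lit 3264596042) (nat_lit 2) (nat_lit 5) (nat_lit 4) (nat_lit 4) (nat_lit 2) (nat_lit 4) (nat_lit 254) (nat_lit 221) (nat_lit 185)) (XT.nd (nat_lit 78) (nat_lit 0) (nat_lit 0) (XT.lf (nat_lit 0) (nat_lit 22281768515) (nat_lit 152) (nat_lit 120057126416) (nat_lit 0) (nat_lit 13622667644) (nat_lit 2) (nat_lit 5) (nat_lit 4) (nat_lit 4) (nat_lit 2) (nat_lit 4) (nat_lit 255) (nat_lit 221) (nat_lit 184)) (XT.lf (nat_lit 0) (nat_lit 34186531647) (nat_lit 152) (nat_lit 118159241040) (nat_lit 0) (nat_lit 25520981381) (nat_lit 2) (nat_lit 5) (nat_lit 4) (nat_lit 4) (nat_lit 2) (nat_lit 4) (nat_lit 256) (nat_lit 221) (nat_lit 183))))))))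
noncomputable def xc52 : XT := (XT.nd (nat_lit 1404) (nat_lit 0) (nat_lit 0) (XT.nd (nat_lit 702) (nat_lit 76) (nat_lit 0) (XT.nd (nat_lit 312) (nat_lit 0) (nat_lit 0) (XT.nd (nat_lit 156) (nat_lit 0) (nat_lit 0) (XT.nd (nat_lit 78) (nat_lit 0) (nat_lit 0) (XT.lf (nat_lit 0) (nat_lit 47863488782) (nat_lit 152) (nat_lit 116003945179) (nat_lit 0) (nat_lit 39192330347) (nat_lit 2) (nat_lit 5) (nat_lit 4) (nat_lit 4) (nat_lit 2) (nat_lit 4) (nat_lit 257) (nat_lit 221) (nat_lit 182)) (XT.lf (nat_lit 0) (nat_lit 63580232562) (nat_lit 152) (nat_lit 113549070001) (nat_lit 0) (nat_lit 54904197457) (nat_lit 2) (nat_lit 5) (nat_lit 4) (nat_lit 4) (nat_lit 2) (nat_lit 4) (nat_lit 258) (nat_lit 221) (nat_lit 181))) (XT.nd (nat_lit 78) (nat_lit 0) (nat_lit 0) (XT.lf (nat_lit 0) (nat_lit 81644264493) (nat_lit 152) (nat_lit 110746585339) (nat_lit 0) (nat_lit 72963988806) (nat_lit 2) (nat_lit 5) (nat_lit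 4) (nat_lit 4) (nat_lit 2) (nat_lit 4) (nat_lit 259) (nat_lit 221) (nat_lit 180)) (XT.lf (nat_lit 0) (nat_lit 102409011289) (nat_lit 152) (nat_lit 107541659973) (nat_lit 0) (nat_lit 93725048139) (nat_lit 2) (nat_lit 5) (nat_lit 4) (nat_lit 4) (nat_lit 2) (nat_lit 4) (nat_lit 260) (nat_lit 221) (nat_lit 179)))) (XT.nd (nat_lit 156) (nat_lit 0) (nat_lit 0) (XT.nd (nat_lit 78) (nat_lit 0) (nat_lit 0) (XT.lf (nat_lit 0) (nat_lit 126280739733) (nat_lit 152) (nat_lit 103871588840) (nat_lit 0) (nat_lit 117593570094) (nat_lit 2) (nat_lit 5) (nat_lit 4) (nat_lit 4) (nat_lit 2) (nat_lit 4) (nat_lit 261) (nat_lit 221) (nat_lit 178)) (XT.lf (nat_lit 0) (nat_lit 153726505383) (nat_lit 152) (nat_lit 99664566201) (nat_lit 0) (nat_lit 145036547493) (nat_lit 2) (nat_lit 5) (nat_lit 4) (nat_lit 4) (nat_lit 2) (nat_lit 4) (nat_lit 262) (nat_lit 221) (nat_lit 177))) (XT.nd (nat_lit 78) (nat_lit 0) (nat_lit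 0) (XT.lf (nat_lit 0) (nat_lit 185283290610) (nat_lit 152) (nat_lit 94838280744) (nat_lit 0) (nat_lit 176590908153) (nat_lit 2) (nat_lit 5) (nat_lit 4) (nat_lit 4) (nat_lit 2) (nat_lit 4) (nat_lit 263) (nat_lit 221) (nat_lit 176)) (XT.nd (nat_lit 78) (nat_lit 0) (nat_lit 0) (XT.lf (nat_lit 0) (nat_lit 221568510777) (nat_lit 152) (nat_lit 89298305144) (nat_lit 0) (nat_lit 212874020002) (nat_lit 2) (nat_lit 5) (nat_lit 4) (nat_lit 4) (nat_lit 2) (nat_lit 4) (nat_lit 264) (nat_lit 221) (nat_lit 175)) (XT.lf (nat_lit 0) (nat_lit 263292094105) (nat_lit 152) (nat_lit 82936248574) (nat_lit 0) (nat_lit 254595770009) (nat_lit 2) (nat_lit 5) (nat_lit 4) (nat_lit 4) (nat_lit 2) (nat_lit 4) (nat_lit 265) (nat_lit 221) (nat_lit 174)))))) (XT.nd (nat_lit 312) (nat_lit 76) (nat_lit 0) (XT.nd (nat_lit 156) (nat_lit 0) (nat_lit 0) (XT.nd (nat_lit 78) (nat_lit 0) (nat_lit 0) (XT.lf (nat_lit 0) (nat_lit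 311270371572) (nat_lit 152) (nat_lit 75627636014) (nat_lit 0) (nat_lit 302572453284) (nat_lit 2) (nat_lit 5) (nat_lit 4) (nat_lit 4) (nat_lit 2) (nat_lit 4) (nat_lit 266) (nat_lit 221) (nat_lit 173)) (XT.lf (nat_lit 0) (nat_lit 366442048606) (nat_lit 152) (nat_lit 67229472872) (nat_lit 0) (nat_lit 357742744064) (nat_lit 2) (nat_lit 5) (nat_lit 4) (nat_lit 4) (nat_lit 2) (nat_lit 4) (nat_lit 267) (nat_lit 221) (nat_lit 172))) (XT.nd (nat_lit 78) (nat_lit 0) (nat_lit 0) (XT.lf (nat_lit 0) (nat_lit 429886571063) (nat_lit 152) (nat_lit 57577447259) (nat_lit 0) (nat_lit 421186061083) (nat_lit 2) (nat_lit 5) (nat_lit 4) (nat_lit 4) (nat_lit 2) (nat_lit 4) (nat_lit 268) (nat_lit 221) (nat_lit 171)) (XT.lf (nat_lit 0) (nat_lit 502845244817) (nat_lit 152) (nat_lit 46482715196) (nat_lit 0) (nat_lit 494143686630) (nat_lit 2) (nat_lit 5) (nat_lit 4) (nat_lit 4) (nat_lit 2) (nat_lit 4) (nat_lit 269)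 (nat_lit 221) (nat_lit 170)))) (XT.nd (nat_lit 156) (nat_lit 76) (nat_lit 0) (XT.nd (nat_lit 78) (nat_lit 0) (nat_lit 0) (XT.lf (nat_lit 0) (nat_lit 586745522180) (nat_lit 152) (nat_lit 33728205838) (nat_lit 0) (nat_lit 578043052509) (nat_lit 2) (nat_lit 5) (nat_lit 4) (nat_lit 4) (nat_lit 2) (nat_lit 4) (nat_lit 270) (nat_lit 221) (nat_lit 169)) (XT.lf (nat_lit 0) (nat_lit 683228930318) (nat_lit 152) (nat_lit 19064374438) (nat_lit 0) (nat_lit 674525668052) (nat_lit 2) (nat_lit 5) (nat_lit 4) (nat_lit 4) (nat_lit 2) (nat_lit 4) (nat_lit 271) (nat_lit 221) (nat_lit 168))) (XT.nd (nat_lit 78) (nat_lit 76) (nat_lit 0) (XT.lf (nat_lit 0) (nat_lit 794183188087) (nat_lit 152) (nat_lit 2204319945) (nat_lit 0) (nat_lit 785479236607) (nat_lit 2) (nat_lit 5) (nat_lit 4) (nat_lit 4) (nat_lit 2) (nat_lit 4) (nat_lit 272) (nat_lit 221) (nat_lit 167)) (XT.nd (nat_lit 78) (nat_lit 0) (nat_lit 0) (XT.lf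 (nat_lit 0) (nat_lit 18860961488) (nat_lit 76) (nat_lit 903699170364) (nat_lit 76) (nat_lit 894994619569) (nat_lit 1) (nat_lit 4) (nat_lit 2) (nat_lit 5) (nat_lit 2) (nat_lit 4) (nat_lit 273) (nat_lit 221) (nat_lit 166)) (XT.lf (nat_lit 0) (nat_lit 43330988665) (nat_lit 76) (nat_lit 1026976482737) (nat_lit 76) (nat_lit 1018271410798) (nat_lit 1) (nat_lit 4) (nat_lit 2) (nat_lit 5) (nat_lit 2) (nat_lit 4) (nat_lit 274) (nat_lit 221) (nat_lit 165))))))) (XT.nd (nat_lit 702) (nat_lit 0) (nat_lit 0) (XT.nd (nat_lit 312) (nat_lit 0) (nat_lit 0) (XT.nd (nat_lit 156) (nat_lit 0) (nat_lit 0) (XT.nd (nat_lit 78) (nat_lit 0) (nat_lit 0) (XT.lf (nat_lit 0) (nat_lit 71469100809) (nat_lit 76) (nat_lit 1168746618382) (nat_lit 76) (nat_lit 1160041093274) (nat_lit 1) (nat_lit 4) (nat_lit 2) (nat_lit 5) (nat_lit 2) (nat_lit 4) (nat_lit 275) (nat_lit 221) (nat_lit 164)) (XT.lf (nat_lit 0) (nat_lit 103825826201)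 (nat_lit 76) (nat_lit 1331783340823) (nat_lit 76) (nat_lit 1323077421655) (nat_lit 1) (nat_lit 4) (nat_lit 2) (nat_lit 5) (nat_lit 2) (nat_lit 4) (nat_lit 276) (nat_lit 221) (nat_lit 163))) (XT.nd (nat_lit 78) (nat_lit 0) (nat_lit 0) (XT.lf (nat_lit 0) (nat_lit 141034231209) (nat_lit 76) (nat_lit 1519276498976) (nat_lit 76) (nat_lit 1510570237147) (nat_lit 1) (nat_lit 4) (nat_lit 2) (nat_lit 5) (nat_lit 2) (nat_lit 4) (nat_lit 277) (nat_lit 221) (nat_lit 162)) (XT.lf (nat_lit 0) (nat_lit 183822306364) (nat_lit 76) (nat_lit 1734894437240) (nat_lit 76) (nat_lit 1726187877446) (nat_lit 1) (nat_lit 4) (nat_lit 2) (nat_lit 5) (nat_lit 2) (nat_lit 4) (nat_lit 278) (nat_lit 221) (nat_lit 161)))) (XT.nd (nat_lit 156) (nat_lit 0) (nat_lit 0) (XT.nd (nat_lit 78) (nat_lit 0) (nat_lit 0) (XT.lf (nat_lit 0) (nat_lit 233027209659) (nat_lit 76) (nat_lit 1982855767452) (nat_lit 76) (nat_lit 1974148948557)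 (nat_lit 1) (nat_lit 4) (nat_lit 2) (nat_lit 5) (nat_lit 2) (nat_lit 4) (nat_lit 279) (nat_lit 221) (nat_lit 160)) (XT.lf (nat_lit 0) (nat_lit 289611645724) (nat_lit 76) (nat_lit 2268011906941) (nat_lit 76) (nat_lit 2259304862741) (nat_lit 1) (nat_lit 4) (nat_lit 2) (nat_lit 5) (nat_lit 2) (nat_lit 4) (nat_lit 280) (nat_lit 221) (nat_lit 159))) (XT.nd (nat_lit 78) (nat_lit 0) (nat_lit 0) (XT.lf (nat_lit 0) (nat_lit 354682701351) (nat_lit 76) (nat_lit 2595941997567) (nat_lit 76) (nat_lit 2587234757449) (nat_lit 1) (nat_lit 4) (nat_lit 2) (nat_lit 5) (nat_lit 2) (nat_lit 4) (nat_lit 281) (nat_lit 221) (nat_lit 158)) (XT.nd (nat_lit 78) (nat_lit 0) (nat_lit 0) (XT.lf (nat_lit 0) (nat_lit 429513505889) (nat_lit 76) (nat_lit 2973062062842) (nat_lit 76) (nat_lit 2964354652361) (nat_lit 1) (nat_lit 4) (nat_lit 2) (nat_lit 5) (nat_lit 2) (nat_lit 4) (nat_lit 282) (nat_lit 221) (nat_lit 157))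 (XT.lf (nat_lit 0) (nat_lit 515568140296) (nat_lit 76) (nat_lit 3406750538825) (nat_lit 76) (nat_lit 3398042980203) (nat_lit 1) (nat_lit 4) (nat_lit 2) (nat_lit 5) (nat_lit 2) (nat_lit 4) (nat_lit 283) (nat_lit 221) (nat_lit 156)))))) (XT.nd (nat_lit 312) (nat_lit 0) (nat_lit 0) (XT.nd (nat_lit 156) (nat_lit 0) (nat_lit 0) (XT.nd (nat_lit 78) (nat_lit 0) (nat_lit 0) (XT.lf (nat_lit 0) (nat_lit 614530282203) (nat_lit 76) (nat_lit 3905492634830) (nat_lit 76) (nat_lit 3896784947390) (nat_lit 1) (nat_lit 4) (nat_lit 2) (nat_lit 5) (nat_lit 2) (nat_lit 4) (nat_lit 284) (nat_lit 221) (nat_lit 155)) (XT.lf (nat_lit 0) (nat_lit 728336147430) (nat_lit 76) (nat_lit 4479046348388) (nat_lit 76) (nat_lit 4470338548930) (nat_lit 1) (nat_lit 4) (nat_lit 2) (nat_lit 5) (nat_lit 2) (nat_lit 4) (nat_lit 285) (nat_lit 221) (nat_lit 154))) (XT.nd (nat_lit 78) (nat_lit 0) (nat_lit 0) (XT.lf (nat_lit 0) (nat_lit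 859212372469) (nat_lit 76) (nat_lit 5138633382588) (nat_lit 76) (nat_lit 5129925485725) (nat_lit 1) (nat_lit 4) (nat_lit 2) (nat_lit 5) (nat_lit 2) (nat_lit 4) (nat_lit 286) (nat_lit 221) (nat_lit 153)) (XT.lf (nat_lit 0) (nat_lit 1009719579115) (nat_lit 76) (nat_lit 5897158701145) (nat_lit 76) (nat_lit 5888450719582) (nat_lit 1) (nat_lit 4) (nat_lit 2) (nat_lit 5) (nat_lit 2) (nat_lit 4) (nat_lit 287) (nat_lit 221) (nat_lit 152)))) (XT.nd (nat_lit 156) (nat_lit 0) (nat_lit 0) (XT.nd (nat_lit 78) (nat_lit 0) (nat_lit 0) (XT.lf (nat_lit 0) (nat_lit 1182802473586) (nat_lit 76) (nat_lit 6769463016812) (nat_lit 76) (nat_lit 6760754961596) (nat_lit 1) (nat_lit 4) (nat_lit 2) (nat_lit 5) (nat_lit 2) (nat_lit 4) (nat_lit 288) (nat_lit 221) (nat_lit 151)) (XT.lf (nat_lit 0) (nat_lit 1381847460338) (nat_lit 76) (nat_lit 7772613153157) (nat_lit 76) (nat_lit 7763905033895) (nat_lit 1) (nat_lit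 4) (nat_lit 2) (nat_lit 5) (nat_lit 2) (nat_lit 4) (nat_lit 289) (nat_lit 221) (nat_lit 150))) (XT.nd (nat_lit 78) (nat_lit 0) (nat_lit 0) (XT.lf (nat_lit 0) (nat_lit 1610748897807) (nat_lit 76) (nat_lit 8926235960673) (nat_lit 76) (nat_lit 8917527785719) (nat_lit 1) (nat_lit 4) (nat_lit 2) (nat_lit 5) (nat_lit 2) (nat_lit 4) (nat_lit 290) (nat_lit 221) (nat_lit 149)) (XT.nd (nat_lit 78) (nat_lit 0) (nat_lit 0) (XT.lf (nat_lit 0) (nat_lit 1873985292379) (nat_lit 76) (nat_lit 10252902320377) (nat_lit 76) (nat_lit 10244194096996) (nat_lit 1) (nat_lit 4) (nat_lit 2) (nat_lit 5) (nat_lit 2) (nat_lit 4) (nat_lit 291) (nat_lit 221) (nat_lit 148)) (XT.lf (nat_lit 0) (nat_lit 2176706921339) (nat_lit 76) (nat_lit 11778568748003) (nat_lit 76) (nat_lit 11769860482511) (nat_lit 1) (nat_lit 4) (nat_lit 2) (nat_lit 5) (nat_lit 2) (nat_lit 4) (nat_lit 292) (nat_lit 221) (nat_lit 147))))))))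
noncomputable def xc53 : XT := (XT.nd (nat_lit 29406) (nat_lit 0) (nat_lit 304) (XT.nd (nat_lit 1404) (nat_lit 0) (nat_lit 0) (XT.nd (nat_lit 312) (nat_lit 0) (nat_lit 0) (XT.nd (nat_lit 156) (nat_lit 0) (nat_lit 0) (XT.nd (nat_lit 78) (nat_lit 0) (nat_lit 0) (XT.lf (nat_lit 0) (nat_lit 2524836599167) (nat_lit 76) (nat_lit 13533085238874) (nat_lit 76) (nat_lit 13524376936763) (nat_lit 1) (nat_lit 4) (nat_lit 2) (nat_lit 5) (nat_lit 2) (nat_lit 4) (nat_lit 293) (nat_lit 221) (nat_lit 146)) (XT.lf (nat_lit 0) (nat_lit 2925185558689) (nat_lit 76) (nat_lit 15550779289549) (nat_lit 76) (nat_lit 15542070955596) (nat_lit 1) (nat_lit 4) (nat_lit 2) (nat_lit 5) (nat_lit 2) (nat_lit 4) (nat_lit 294) (nat_lit 221) (nat_lit 145))) (XT.nd (nat_lit 78) (nat_lit 0) (nat_lit 0) (XT.lf (nat_lit 0) (nat_lit 3385586714331) (nat_lit 76) (nat_lit 17871127522760) (nat_lit 76) (nat_lit 17862419161118) (nat_lit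 1) (nat_lit 4) (nat_lit 2) (nat_lit 5) (nat_lit 2) (nat_lit 4) (nat_lit 295) (nat_lit 221) (nat_lit 144)) (XT.lf (nat_lit 0) (nat_lit 3915047914791) (nat_lit 76) (nat_lit 20539528056113) (nat_lit 76) (nat_lit 20530819670394) (nat_lit 1) (nat_lit 4) (nat_lit 2) (nat_lit 5) (nat_lit 2) (nat_lit 4) (nat_lit 296) (nat_lit 221) (nat_lit 143)))) (XT.nd (nat_lit 858) (nat_lit 0) (nat_lit 0) (XT.nd (nat_lit 78) (nat_lit 0) (nat_lit 0) (XT.lf (nat_lit 0) (nat_lit 4523928183556) (nat_lit 76) (nat_lit 23608188726130) (nat_lit 76) (nat_lit 23599480319475) (nat_lit 1) (nat_lit 4) (nat_lit 2) (nat_lit 5) (nat_lit 2) (nat_lit 4) (nat_lit 297) (nat_lit 221) (nat_lit 142)) (XT.lf (nat_lit 0) (nat_lit 5224140395449) (nat_lit 76) (nat_lit 27137148545921) (nat_lit 76) (nat_lit 27128440121059) (nat_lit 1) (nat_lit 4) (nat_lit 2) (nat_lit 5) (nat_lit 2) (nat_lit 4) (nat_lit 298) (nat_lit 221) (nat_lit 141)))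 (XT.nd (nat_lit 78) (nat_lit 0) (nat_lit 0) (XT.lf (nat_lit 0) (nat_lit 21573583047185) (nat_lit 76) (nat_lit 109535808078997) (nat_lit 76) (nat_lit 109527099562765) (nat_lit 1) (nat_lit 4) (nat_lit 2) (nat_lit 5) (nat_lit 2) (nat_lit 4) (nat_lit 308) (nat_lit 221) (nat_lit 131)) (XT.nd (nat_lit 78) (nat_lit 0) (nat_lit 0) (XT.lf (nat_lit 0) (nat_lit 24831242979978) (nat_lit 76) (nat_lit 125953911059585) (nat_lit 76) (nat_lit 125945202539440) (nat_lit 1) (nat_lit 4) (nat_lit 2) (nat_lit 5) (nat_lit 2) (nat_lit 4) (nat_lit 309) (nat_lit 221) (nat_lit 130)) (XT.lf (nat_lit 0) (nat_lit 28577551884524) (nat_lit 76) (nat_lit 144834729496471) (nat_lit 76) (nat_lit 144826020972923) (nat_lit 1) (nat_lit 4) (nat_lit 2) (nat_lit 5) (nat_lit 2) (nat_lit 4) (nat_lit 310) (nat_lit 221) (nat_lit 129)))))) (XT.nd (nat_lit 27612) (nat_lit 0) (nat_lit 1672) (XT.nd (nat_lit 27456) (nat_lit 0) (nat_lit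 2052) (XT.nd (nat_lit 78) (nat_lit 0) (nat_lit 0) (XT.lf (nat_lit 0) (nat_lit 32885807108957) (nat_lit 76) (nat_lit 166547670706896) (nat_lit 76) (nat_lit 166538962180389) (nat_lit 1) (nat_lit 4) (nat_lit 2) (nat_lit 5) (nat_lit 2) (nat_lit 4) (nat_lit 311) (nat_lit 221) (nat_lit 128)) (XT.lf (nat_lit 0) (nat_lit 37840300603319) (nat_lit 76) (nat_lit 191517553105850) (nat_lit 76) (nat_lit 191508844576770) (nat_lit 1) (nat_lit 4) (nat_lit 2) (nat_lit 5) (nat_lit 2) (nat_lit 4) (nat_lit 312) (nat_lit 221) (nat_lit 127))) (XT.nd (nat_lit 78) (nat_lit 0) (nat_lit 0) (XT.lf (nat_lit 0) (nat_lit 1685664944) (nat_lit 228) (nat_lit 861217430) (nat_lit 228) (nat_lit 861217430) (nat_lit 28) (nat_lit 3) (nat_lit 31) (nat_lit 3) (nat_lit 31) (nat_lit 5) (nat_lit 222) (nat_lit 222) (nat_lit 216)) (XT.lf (nat_lit 76) (nat_lit 1596522113) (nat_lit 0) (nat_lit 3835570502) (nat_lit 228) (nat_lit 1610536038)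 (nat_lit 29) (nat_lit 5) (nat_lit 28) (nat_lit 3) (nat_lit 31) (nat_lit 5) (nat_lit 223) (nat_lit 222) (nat_lit 215)))) (XT.nd (nat_lit 156) (nat_lit 152) (nat_lit 0) (XT.nd (nat_lit 78) (nat_lit 0) (nat_lit 76) (XT.lf (nat_lit 0) (nat_lit 213193233) (nat_lit 228) (nat_lit 1939556147) (nat_lit 304) (nat_lit 5185479343) (nat_lit 25) (nat_lit 5) (nat_lit 28) (nat_lit 3) (nat_lit 29) (nat_lit 5) (nat_lit 224) (nat_lit 222) (nat_lit 214)) (XT.lf (nat_lit 0) (nat_lit 1938502228) (nat_lit 228) (nat_lit 5710328179) (nat_lit 76) (nat_lit 50729176) (nat_lit 26) (nat_lit 5) (nat_lit 29) (nat_lit 5) (nat_lit 27) (nat_lit 5) (nat_lit 225) (nat_lit 222) (nat_lit 213))) (XT.nd (nat_lit 78) (nat_lit 228) (nat_lit 0) (XT.lf (nat_lit 0) (nat_lit 3872419677) (nat_lit 228) (nat_lit 1718193355) (nat_lit 76) (nat_lit 2533597302) (nat_lit 26) (nat_lit 5) (nat_lit 29) (nat_lit 5) (nat_lit 27) (nat_lit 5) (nat_lit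 226) (nat_lit 222) (nat_lit 212)) (XT.nd (nat_lit 78) (nat_lit 0) (nat_lit 0) (XT.lf (nat_lit 0) (nat_lit 2927961084) (nat_lit 228) (nat_lit 3064562056) (nat_lit 304) (nat_lit 2637005212) (nat_lit 23) (nat_lit 5) (nat_lit 26) (nat_lit 5) (nat_lit 27) (nat_lit 5) (nat_lit 227) (nat_lit 222) (nat_lit 211)) (XT.lf (nat_lit 0) (nat_lit 8268011693) (nat_lit 228) (nat_lit 48547971) (nat_lit 304) (nat_lit 912400618) (nat_lit 23) (nat_lit 5) (nat_lit 26) (nat_lit 5) (nat_lit 27) (nat_lit 5) (nat_lit 228) (nat_lit 222) (nat_lit 210))))))) (XT.nd (nat_lit 702) (nat_lit 456) (nat_lit 0) (XT.nd (nat_lit 312) (nat_lit 304) (nat_lit 0) (XT.nd (nat_lit 156) (nat_lit 228) (nat_lit 0) (XT.nd (nat_lit 78) (nat_lit 0) (nat_lit 0) (XT.lf (nat_lit 0) (nat_lit 1135155287) (nat_lit 380) (nat_lit 5391643317) (nat_lit 76) (nat_lit 3361827292) (nat_lit 18) (nat_lit 5) (nat_lit 23) (nat_lit 5) (nat_lit 19) (nat_lit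 5) (nat_lit 229) (nat_lit 222) (nat_lit 209)) (XT.lf (nat_lit 0) (nat_lit 3281057549) (nat_lit 380) (nat_lit 13139630) (nat_lit 76) (nat_lit 7364624756) (nat_lit 18) (nat_lit 5) (nat_lit 23) (nat_lit 5) (nat_lit 19) (nat_lit 5) (nat_lit 230) (nat_lit 222) (nat_lit 208))) (XT.nd (nat_lit 78) (nat_lit 76) (nat_lit 0) (XT.lf (nat_lit 0) (nat_lit 5902305400) (nat_lit 228) (nat_lit 4977927648) (nat_lit 76) (nat_lit 641983595) (nat_lit 16) (nat_lit 5) (nat_lit 19) (nat_lit 5) (nat_lit 17) (nat_lit 4) (nat_lit 231) (nat_lit 222) (nat_lit 207)) (XT.lf (nat_lit 0) (nat_lit 1343259230) (nat_lit 76) (nat_lit 7649315842) (nat_lit 152) (nat_lit 3511768809) (nat_lit 15) (nat_lit 5) (nat_lit 16) (nat_lit 5) (nat_lit 17) (nat_lit 4) (nat_lit 232) (nat_lit 222) (nat_lit 206)))) (XT.nd (nat_lit 156) (nat_lit 76) (nat_lit 0) (XT.nd (nat_lit 78) (nat_lit 228) (nat_lit 0) (XT.lf (nat_lit 0) (nat_lit 8989548236)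 (nat_lit 76) (nat_lit 3690034025) (nat_lit 152) (nat_lit 934748838) (nat_lit 15) (nat_lit 5) (nat_lit 16) (nat_lit 5) (nat_lit 17) (nat_lit 4) (nat_lit 233) (nat_lit 222) (nat_lit 205)) (XT.lf (nat_lit 0) (nat_lit 1895172634) (nat_lit 228) (nat_lit 12025993670) (nat_lit 76) (nat_lit 950396970) (nat_lit 12) (nat_lit 5) (nat_lit 15) (nat_lit 5) (nat_lit 13) (nat_lit 4) (nat_lit 234) (nat_lit 222) (nat_lit 204))) (XT.nd (nat_lit 78) (nat_lit 76) (nat_lit 0) (XT.lf (nat_lit 0) (nat_lit 5372872796) (nat_lit 228) (nat_lit 4733553393) (nat_lit 76) (nat_lit 6156770873) (nat_lit 12) (nat_lit 5) (nat_lit 15) (nat_lit 5) (nat_lit 13) (nat_lit 4) (nat_lit 235) (nat_lit 222) (nat_lit 203)) (XT.nd (nat_lit 78) (nat_lit 0) (nat_lit 0) (XT.lf (nat_lit 0) (nat_lit 3840835505) (nat_lit 76) (nat_lit 5594792521) (nat_lit 152) (nat_lit 8418735458) (nat_lit 11) (nat_lit 5) (nat_lit 12) (nat_lit 5) (nat_lit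 13) (nat_lit 4) (nat_lit 236) (nat_lit 222) (nat_lit 202)) (XT.lf (nat_lit 0) (nat_lit 14086507851) (nat_lit 76) (nat_lit 179477321) (nat_lit 152) (nat_lit 5394750158) (nat_lit 11) (nat_lit 5) (nat_lit 12) (nat_lit 5) (nat_lit 13) (nat_lit 4) (nat_lit 237) (nat_lit 222) (nat_lit 201)))))) (XT.nd (nat_lit 312) (nat_lit 228) (nat_lit 0) (XT.nd (nat_lit 156) (nat_lit 76) (nat_lit 0) (XT.nd (nat_lit 78) (nat_lit 76) (nat_lit 0) (XT.lf (nat_lit 0) (nat_lit 4108826596) (nat_lit 76) (nat_lit 16052966714) (nat_lit 76) (nat_lit 1525360037) (nat_lit 10) (nat_lit 4) (nat_lit 11) (nat_lit 5) (nat_lit 11) (nat_lit 4) (nat_lit 238) (nat_lit 222) (nat_lit 200)) (XT.lf (nat_lit 0) (nat_lit 2899428021) (nat_lit 152) (nat_lit 8385622750) (nat_lit 76) (nat_lit 12679187743) (nat_lit 9) (nat_lit 5) (nat_lit 11) (nat_lit 5) (nat_lit 10) (nat_lit 4) (nat_lit 239) (nat_lit 222) (nat_lit 199))) (XT.nd (nat_lit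 78) (nat_lit 0) (nat_lit 0) (XT.lf (nat_lit 0) (nat_lit 2187119616) (nat_lit 76) (nat_lit 5666985873) (nat_lit 152) (nat_lit 18714682631) (nat_lit 8) (nat_lit 5) (nat_lit 9) (nat_lit 5) (nat_lit 10) (nat_lit 4) (nat_lit 240) (nat_lit 222) (nat_lit 198)) (XT.lf (nat_lit 0) (nat_lit 13977834068) (nat_lit 152) (nat_lit 14386873543) (nat_lit 0) (nat_lit 1135563780) (nat_lit 8) (nat_lit 5) (nat_lit 10) (nat_lit 4) (nat_lit 8) (nat_lit 4) (nat_lit 241) (nat_lit 222) (nat_lit 197)))) (XT.nd (nat_lit 156) (nat_lit 152) (nat_lit 0) (XT.nd (nat_lit 78) (nat_lit 76) (nat_lit 0) (XT.lf (nat_lit 0) (nat_lit 21232385113) (nat_lit 152) (nat_lit 3269728732) (nat_lit 0) (nat_lit 8337635699) (nat_lit 8) (nat_lit 5) (nat_lit 10) (nat_lit 4) (nat_lit 8) (nat_lit 4) (nat_lit 242) (nat_lit 222) (nat_lit 196)) (XT.lf (nat_lit 0) (nat_lit 10342712906) (nat_lit 76) (nat_lit 19610594471) (nat_lit 76) (nat_lit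 6670211035) (nat_lit 7) (nat_lit 4) (nat_lit 8) (nat_lit 5) (nat_lit 8) (nat_lit 4) (nat_lit 243) (nat_lit 222) (nat_lit 195))) (XT.nd (nat_lit 78) (nat_lit 152) (nat_lit 0) (XT.lf (nat_lit 0) (nat_lit 26275668756) (nat_lit 76) (nat_lit 13830390009) (nat_lit 76) (nat_lit 850324815) (nat_lit 7) (nat_lit 4) (nat_lit 8) (nat_lit 5) (nat_lit 8) (nat_lit 4) (nat_lit 244) (nat_lit 222) (nat_lit 194)) (XT.nd (nat_lit 78) (nat_lit 76) (nat_lit 0) (XT.lf (nat_lit 0) (nat_lit 5279311239) (nat_lit 152) (nat_lit 1664051906) (nat_lit 76) (nat_lit 38966053653) (nat_lit 6) (nat_lit 5) (nat_lit 8) (nat_lit 5) (nat_lit 7) (nat_lit 4) (nat_lit 245) (nat_lit 222) (nat_lit 193)) (XT.lf (nat_lit 0) (nat_lit 12873128207) (nat_lit 152) (nat_lit 37101471294) (nat_lit 0) (nat_lit 1530018483) (nat_lit 5) (nat_lit 5) (nat_lit 7) (nat_lit 4) (nat_lit 5) (nat_lit 4) (nat_lit 246) (nat_lit 222) (nat_lit 192))))))))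
noncomputable def xc54 : XT := (XT.nd (nat_lit 1404) (nat_lit 76) (nat_lit 0) (XT.nd (nat_lit 702) (nat_lit 0) (nat_lit 0) (XT.nd (nat_lit 312) (nat_lit 152) (nat_lit 0) (XT.nd (nat_lit 156) (nat_lit 76) (nat_lit 0) (XT.nd (nat_lit 78) (nat_lit 0) (nat_lit 0) (XT.lf (nat_lit 0) (nat_lit 21991060784) (nat_lit 152) (nat_lit 25265067581) (nat_lit 0) (nat_lit 10625262886) (nat_lit 5) (nat_lit 5) (nat_lit 7) (nat_lit 4) (nat_lit 5) (nat_lit 4) (nat_lit 247) (nat_lit 222) (nat_lit 191)) (XT.lf (nat_lit 0) (nat_lit 32444752876) (nat_lit 152) (nat_lit 11715533114) (nat_lit 0) (nat_lit 21059226130) (nat_lit 5) (nat_lit 5) (nat_lit 7) (nat_lit 4) (nat_lit 5) (nat_lit 4) (nat_lit 248) (nat_lit 222) (nat_lit 190))) (XT.nd (nat_lit 78) (nat_lit 0) (nat_lit 0) (XT.lf (nat_lit 0) (nat_lit 4184790700) (nat_lit 76) (nat_lit 40427225798) (nat_lit 76) (nat_lit 29024543534) (nat_lit 4) (nat_lit 4) (nat_lit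 5) (nat_lit 5) (nat_lit 5) (nat_lit 4) (nat_lit 249) (nat_lit 222) (nat_lit 189)) (XT.lf (nat_lit 0) (nat_lit 23735093052) (nat_lit 76) (nat_lit 35455393245) (nat_lit 76) (nat_lit 24037793138) (nat_lit 4) (nat_lit 4) (nat_lit 5) (nat_lit 5) (nat_lit 5) (nat_lit 4) (nat_lit 250) (nat_lit 222) (nat_lit 188)))) (XT.nd (nat_lit 156) (nat_lit 152) (nat_lit 0) (XT.nd (nat_lit 78) (nat_lit 0) (nat_lit 0) (XT.lf (nat_lit 0) (nat_lit 46172952757) (nat_lit 76) (nat_lit 29759916213) (nat_lit 76) (nat_lit 18329344068) (nat_lit 4) (nat_lit 4) (nat_lit 5) (nat_lit 5) (nat_lit 5) (nat_lit 4) (nat_lit 251) (nat_lit 222) (nat_lit 187)) (XT.lf (nat_lit 0) (nat_lit 71937371418) (nat_lit 76) (nat_lit 23229361457) (nat_lit 76) (nat_lit 11787509280) (nat_lit 4) (nat_lit 4) (nat_lit 5) (nat_lit 5) (nat_lit 5) (nat_lit 4) (nat_lit 252) (nat_lit 222) (nat_lit 186))) (XT.nd (nat_lit 78) (nat_lit 152) (nat_lit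 0) (XT.lf (nat_lit 0) (nat_lit 101532435488) (nat_lit 76) (nat_lit 15735957252) (nat_lit 76) (nat_lit 4284296351) (nat_lit 4) (nat_lit 4) (nat_lit 5) (nat_lit 5) (nat_lit 5) (nat_lit 4) (nat_lit 253) (nat_lit 222) (nat_lit 185)) (XT.nd (nat_lit 78) (nat_lit 76) (nat_lit 0) (XT.lf (nat_lit 0) (nat_lit 3941868637) (nat_lit 152) (nat_lit 2985172656) (nat_lit 76) (nat_lit 131389257966) (nat_lit 3) (nat_lit 5) (nat_lit 5) (nat_lit 5) (nat_lit 4) (nat_lit 4) (nat_lit 254) (nat_lit 222) (nat_lit 184)) (XT.lf (nat_lit 0) (nat_lit 13871140080) (nat_lit 152) (nat_lit 139657242816) (nat_lit 0) (nat_lit 3899307879) (nat_lit 2) (nat_lit 5) (nat_lit 4) (nat_lit 4) (nat_lit 2) (nat_lit 4) (nat_lit 255) (nat_lit 222) (nat_lit 183)))))) (XT.nd (nat_lit 312) (nat_lit 0) (nat_lit 0) (XT.nd (nat_lit 156) (nat_lit 0) (nat_lit 0) (XT.nd (nat_lit 78) (nat_lit 0) (nat_lit 0) (XT.lf (nat_lit 0) (nat_lit 25769614623)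 (nat_lit 152) (nat_lit 137772042240) (nat_lit 0) (nat_lit 15792174252) (nat_lit 2) (nat_lit 5) (nat_lit 4) (nat_lit 4) (nat_lit 2) (nat_lit 4) (nat_lit 256) (nat_lit 222) (nat_lit 182)) (XT.lf (nat_lit 0) (nat_lit 39441103420) (nat_lit 152) (nat_lit 135627776641) (nat_lit 0) (nat_lit 29458786381) (nat_lit 2) (nat_lit 5) (nat_lit 4) (nat_lit 4) (nat_lit 2) (nat_lit 4) (nat_lit 257) (nat_lit 222) (nat_lit 181))) (XT.nd (nat_lit 78) (nat_lit 0) (nat_lit 0) (XT.lf (nat_lit 0) (nat_lit 55153092123) (nat_lit 152) (nat_lit 133182492994) (nat_lit 0) (nat_lit 45166534501) (nat_lit 2) (nat_lit 5) (nat_lit 4) (nat_lit 4) (nat_lit 2) (nat_lit 4) (nat_lit 258) (nat_lit 222) (nat_lit 180)) (XT.lf (nat_lit 0) (nat_lit 73212989205) (nat_lit 152) (nat_lit 130388348795) (nat_lit 0) (nat_lit 63222744121) (nat_lit 2) (nat_lit 5) (nat_lit 4) (nat_lit 4) (nat_lit 2) (nat_lit 4) (nat_lit 259) (nat_lit 222)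 (nat_lit 179)))) (XT.nd (nat_lit 156) (nat_lit 0) (nat_lit 0) (XT.nd (nat_lit 78) (nat_lit 0) (nat_lit 0) (XT.lf (nat_lit 0) (nat_lit 93974140480) (nat_lit 152) (nat_lit 127190676005) (nat_lit 0) (nat_lit 83980688906) (nat_lit 2) (nat_lit 5) (nat_lit 4) (nat_lit 4) (nat_lit 2) (nat_lit 4) (nat_lit 260) (nat_lit 222) (nat_lit 178)) (XT.lf (nat_lit 0) (nat_lit 117842742384) (nat_lit 152) (nat_lit 123526911460) (nat_lit 0) (nat_lit 107846502559) (nat_lit 2) (nat_lit 5) (nat_lit 4) (nat_lit 4) (nat_lit 2) (nat_lit 4) (nat_lit 261) (nat_lit 222) (nat_lit 177))) (XT.nd (nat_lit 78) (nat_lit 0) (nat_lit 0) (XT.lf (nat_lit 0) (nat_lit 145285789304) (nat_lit 152) (nat_lit 119325372811) (nat_lit 0) (nat_lit 135287124912) (nat_lit 2) (nat_lit 5) (nat_lit 4) (nat_lit 4) (nat_lit 2) (nat_lit 4) (nat_lit 262) (nat_lit 222) (nat_lit 176)) (XT.nd (nat_lit 78) (nat_lit 0) (nat_lit 0) (XT.lf (nat_lit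 0) (nat_lit 176840210417) (nat_lit 152) (nat_lit 114503856040) (nat_lit 0) (nat_lit 166839437707) (nat_lit 2) (nat_lit 5) (nat_lit 4) (nat_lit 4) (nat_lit 2) (nat_lit 4) (nat_lit 263) (nat_lit 222) (nat_lit 175)) (XT.lf (nat_lit 0) (nat_lit 213123374833) (nat_lit 152) (nat_lit 108968027123) (nat_lit 0) (nat_lit 203120768802) (nat_lit 2) (nat_lit 5) (nat_lit 4) (nat_lit 4) (nat_lit 2) (nat_lit 4) (nat_lit 264) (nat_lit 222) (nat_lit 174))))))) (XT.nd (nat_lit 702) (nat_lit 76) (nat_lit 0) (XT.nd (nat_lit 312) (nat_lit 0) (nat_lit 0) (XT.nd (nat_lit 156) (nat_lit 0) (nat_lit 0) (XT.nd (nat_lit 78) (nat_lit 0) (nat_lit 0) (XT.lf (nat_lit 0) (nat_lit 254845170552) (nat_lit 152) (nat_lit 102609576366) (nat_lit 0) (nat_lit 244840970329) (nat_lit 2) (nat_lit 5) (nat_lit 4) (nat_lit 4) (nat_lit 2) (nat_lit 4) (nat_lit 265) (nat_lit 222) (nat_lit 173)) (XT.lf (nat_lit 0) (nat_lit 302821893575)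 (nat_lit 152) (nat_lit 95304099295) (nat_lit 0) (nat_lit 292816307099) (nat_lit 2) (nat_lit 5) (nat_lit 4) (nat_lit 4) (nat_lit 2) (nat_lit 4) (nat_lit 266) (nat_lit 222) (nat_lit 172))) (XT.nd (nat_lit 78) (nat_lit 0) (nat_lit 0) (XT.lf (nat_lit 0) (nat_lit 357992218920) (nat_lit 152) (nat_lit 86908662665) (nat_lit 0) (nat_lit 347985427006) (nat_lit 2) (nat_lit 5) (nat_lit 4) (nat_lit 4) (nat_lit 2) (nat_lit 4) (nat_lit 267) (nat_lit 222) (nat_lit 171)) (XT.lf (nat_lit 0) (nat_lit 421435565995) (nat_lit 152) (nat_lit 77259007932) (nat_lit 0) (nat_lit 411427725873) (nat_lit 2) (nat_lit 5) (nat_lit 4) (nat_lit 4) (nat_lit 2) (nat_lit 4) (nat_lit 268) (nat_lit 222) (nat_lit 170)))) (XT.nd (nat_lit 156) (nat_lit 0) (nat_lit 0) (XT.nd (nat_lit 78) (nat_lit 0) (nat_lit 0) (XT.lf (nat_lit 0) (nat_lit 494393217677) (nat_lit 152) (nat_lit 66166337503) (nat_lit 0) (nat_lit 484384466071) (nat_lit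 2) (nat_lit 5) (nat_lit 4) (nat_lit 4) (nat_lit 2) (nat_lit 4) (nat_lit 269) (nat_lit 222) (nat_lit 169)) (XT.lf (nat_lit 0) (nat_lit 578292606283) (nat_lit 152) (nat_lit 53413620872) (nat_lit 0) (nat_lit 568283062082) (nat_lit 2) (nat_lit 5) (nat_lit 4) (nat_lit 4) (nat_lit 2) (nat_lit 4) (nat_lit 270) (nat_lit 222) (nat_lit 168))) (XT.nd (nat_lit 78) (nat_lit 0) (nat_lit 0) (XT.lf (nat_lit 0) (nat_lit 674775241588) (nat_lit 152) (nat_lit 38751348363) (nat_lit 0) (nat_lit 664765008174) (nat_lit 2) (nat_lit 5) (nat_lit 4) (nat_lit 4) (nat_lit 2) (nat_lit 4) (nat_lit 271) (nat_lit 222) (nat_lit 167)) (XT.nd (nat_lit 78) (nat_lit 0) (nat_lit 0) (XT.lf (nat_lit 0) (nat_lit 785728827328) (nat_lit 152) (nat_lit 21892649428) (nat_lit 0) (nat_lit 775717994598) (nat_lit 2) (nat_lit 5) (nat_lit 4) (nat_lit 4) (nat_lit 2) (nat_lit 4) (nat_lit 272) (nat_lit 222) (nat_lit 166)) (XT.lf (nat_lit 0)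 (nat_lit 913324194527) (nat_lit 152) (nat_lit 2507679958) (nat_lit 0) (nat_lit 903312840653) (nat_lit 2) (nat_lit 5) (nat_lit 4) (nat_lit 4) (nat_lit 2) (nat_lit 4) (nat_lit 273) (nat_lit 222) (nat_lit 165)))))) (XT.nd (nat_lit 312) (nat_lit 0) (nat_lit 0) (XT.nd (nat_lit 156) (nat_lit 0) (nat_lit 0) (XT.nd (nat_lit 78) (nat_lit 0) (nat_lit 0) (XT.lf (nat_lit 0) (nat_lit 21716153327) (nat_lit 76) (nat_lit 1039240840556) (nat_lit 76) (nat_lit 1029229033513) (nat_lit 1) (nat_lit 4) (nat_lit 2) (nat_lit 5) (nat_lit 2) (nat_lit 4) (nat_lit 274) (nat_lit 222) (nat_lit 164)) (XT.lf (nat_lit 0) (nat_lit 49853287065) (nat_lit 76) (nat_lit 1181011472223) (nat_lit 76) (nat_lit 1170999271121) (nat_lit 1) (nat_lit 4) (nat_lit 2) (nat_lit 5) (nat_lit 2) (nat_lit 4) (nat_lit 275) (nat_lit 222) (nat_lit 163))) (XT.nd (nat_lit 78) (nat_lit 0) (nat_lit 0) (XT.lf (nat_lit 0) (nat_lit 82209161670) (nat_lit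 76) (nat_lit 1344048625988) (nat_lit 76) (nat_lit 1334036082224) (nat_lit 1) (nat_lit 4) (nat_lit 2) (nat_lit 5) (nat_lit 2) (nat_lit 4) (nat_lit 276) (nat_lit 222) (nat_lit 162)) (XT.lf (nat_lit 0) (nat_lit 119416826862) (nat_lit 76) (nat_lit 1531542159205) (nat_lit 76) (nat_lit 1521529317476) (nat_lit 1) (nat_lit 4) (nat_lit 2) (nat_lit 5) (nat_lit 2) (nat_lit 4) (nat_lit 277) (nat_lit 222) (nat_lit 161)))) (XT.nd (nat_lit 156) (nat_lit 0) (nat_lit 0) (XT.nd (nat_lit 78) (nat_lit 0) (nat_lit 0) (XT.lf (nat_lit 0) (nat_lit 162204258699) (nat_lit 76) (nat_lit 1747160423613) (nat_lit 76) (nat_lit 1737147322783) (nat_lit 1) (nat_lit 4) (nat_lit 2) (nat_lit 5) (nat_lit 2) (nat_lit 4) (nat_lit 278) (nat_lit 222) (nat_lit 160)) (XT.lf (nat_lit 0) (nat_lit 211408602587) (nat_lit 76) (nat_lit 1995122037427) (nat_lit 76) (nat_lit 1985108711292) (nat_lit 1) (nat_lit 4) (nat_lit 2) (nat_lit 5)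 (nat_lit 2) (nat_lit 4) (nat_lit 279) (nat_lit 222) (nat_lit 159))) (XT.nd (nat_lit 78) (nat_lit 0) (nat_lit 0) (XT.lf (nat_lit 0) (nat_lit 267992552211) (nat_lit 76) (nat_lit 2280278423527) (nat_lit 76) (nat_lit 2270264901475) (nat_lit 1) (nat_lit 4) (nat_lit 2) (nat_lit 5) (nat_lit 2) (nat_lit 4) (nat_lit 280) (nat_lit 222) (nat_lit 158)) (XT.nd (nat_lit 78) (nat_lit 0) (nat_lit 0) (XT.lf (nat_lit 0) (nat_lit 333063184846) (nat_lit 76) (nat_lit 2608208728597) (nat_lit 76) (nat_lit 2598195036182) (nat_lit 1) (nat_lit 4) (nat_lit 2) (nat_lit 5) (nat_lit 2) (nat_lit 4) (nat_lit 281) (nat_lit 222) (nat_lit 157)) (XT.lf (nat_lit 0) (nat_lit 407893621565) (nat_lit 76) (nat_lit 2985328980345) (nat_lit 76) (nat_lit 2975315139788) (nat_lit 1) (nat_lit 4) (nat_lit 2) (nat_lit 5) (nat_lit 2) (nat_lit 4) (nat_lit 282) (nat_lit 222) (nat_lit 156))))))))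
noncomputable def xc55 : XT := (XT.nd (nat_lit 2106) (nat_lit 0) (nat_lit 0) (XT.nd (nat_lit 702) (nat_lit 0) (nat_lit 0) (XT.nd (nat_lit 312) (nat_lit 0) (nat_lit 0) (XT.nd (nat_lit 156) (nat_lit 0) (nat_lit 0) (XT.nd (nat_lit 78) (nat_lit 0) (nat_lit 0) (XT.lf (nat_lit 0) (nat_lit 493947936130) (nat_lit 76) (nat_lit 3419017618480) (nat_lit 76) (nat_lit 3409003649104) (nat_lit 1) (nat_lit 4) (nat_lit 2) (nat_lit 5) (nat_lit 2) (nat_lit 4) (nat_lit 283) (nat_lit 222) (nat_lit 155)) (XT.lf (nat_lit 0) (nat_lit 592909799913) (nat_lit 76) (nat_lit 3917759855485) (nat_lit 76) (nat_lit 3907745774093) (nat_lit 1) (nat_lit 4) (nat_lit 2) (nat_lit 5) (nat_lit 2) (nat_lit 4) (nat_lit 284) (nat_lit 222) (nat_lit 154))) (XT.nd (nat_lit 78) (nat_lit 0) (nat_lit 0) (XT.lf (nat_lit 0) (nat_lit 706715423292) (nat_lit 76) (nat_lit 4491313691652) (nat_lit 76) (nat_lit 4481299512854) (nat_lit 1) (nat_lit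 4) (nat_lit 2) (nat_lit 5) (nat_lit 2) (nat_lit 4) (nat_lit 285) (nat_lit 222) (nat_lit 153)) (XT.lf (nat_lit 0) (nat_lit 837591438030) (nat_lit 76) (nat_lit 5150900832469) (nat_lit 76) (nat_lit 5140886568971) (nat_lit 1) (nat_lit 4) (nat_lit 2) (nat_lit 5) (nat_lit 2) (nat_lit 4) (nat_lit 286) (nat_lit 222) (nat_lit 152)))) (XT.nd (nat_lit 156) (nat_lit 0) (nat_lit 0) (XT.nd (nat_lit 78) (nat_lit 0) (nat_lit 0) (XT.lf (nat_lit 0) (nat_lit 988098461805) (nat_lit 76) (nat_lit 5909426243736) (nat_lit 76) (nat_lit 5899411906585) (nat_lit 1) (nat_lit 4) (nat_lit 2) (nat_lit 5) (nat_lit 2) (nat_lit 4) (nat_lit 287) (nat_lit 222) (nat_lit 151)) (XT.lf (nat_lit 0) (nat_lit 1161181197257) (nat_lit 76) (nat_lit 6781730640020) (nat_lit 76) (nat_lit 6771716238824) (nat_lit 1) (nat_lit 4) (nat_lit 2) (nat_lit 5) (nat_lit 2) (nat_lit 4) (nat_lit 288) (nat_lit 222) (nat_lit 150))) (XT.nd (nat_lit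 78) (nat_lit 0) (nat_lit 0) (XT.lf (nat_lit 0) (nat_lit 1360226045732) (nat_lit 76) (nat_lit 7784880846467) (nat_lit 76) (nat_lit 7774866389579) (nat_lit 1) (nat_lit 4) (nat_lit 2) (nat_lit 5) (nat_lit 2) (nat_lit 4) (nat_lit 289) (nat_lit 222) (nat_lit 149)) (XT.nd (nat_lit 78) (nat_lit 0) (nat_lit 0) (XT.lf (nat_lit 0) (nat_lit 1589127362961) (nat_lit 76) (nat_lit 8938503714942) (nat_lit 76) (nat_lit 8928489209626) (nat_lit 1) (nat_lit 4) (nat_lit 2) (nat_lit 5) (nat_lit 2) (nat_lit 4) (nat_lit 290) (nat_lit 222) (nat_lit 148)) (XT.lf (nat_lit 0) (nat_lit 1852363652976) (nat_lit 76) (nat_lit 10265170127654) (nat_lit 76) (nat_lit 10255155580226) (nat_lit 1) (nat_lit 4) (nat_lit 2) (nat_lit 5) (nat_lit 2) (nat_lit 4) (nat_lit 291) (nat_lit 222) (nat_lit 147)))))) (XT.nd (nat_lit 312) (nat_lit 0) (nat_lit 0) (XT.nd (nat_lit 156) (nat_lit 0) (nat_lit 0) (XT.nd (nat_lit 78) (nat_lit 0)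 (nat_lit 0) (XT.lf (nat_lit 0) (nat_lit 2155085191016) (nat_lit 76) (nat_lit 11790836601373) (nat_lit 76) (nat_lit 11780822017327) (nat_lit 1) (nat_lit 4) (nat_lit 2) (nat_lit 5) (nat_lit 2) (nat_lit 4) (nat_lit 292) (nat_lit 222) (nat_lit 146)) (XT.lf (nat_lit 0) (nat_lit 2503214789784) (nat_lit 76) (nat_lit 13545353132325) (nat_lit 76) (nat_lit 13535338516437) (nat_lit 1) (nat_lit 4) (nat_lit 2) (nat_lit 5) (nat_lit 2) (nat_lit 4) (nat_lit 293) (nat_lit 222) (nat_lit 145))) (XT.nd (nat_lit 78) (nat_lit 0) (nat_lit 0) (XT.lf (nat_lit 0) (nat_lit 2903563680558) (nat_lit 76) (nat_lit 15563047217853) (nat_lit 76) (nat_lit 15553032574276) (nat_lit 1) (nat_lit 4) (nat_lit 2) (nat_lit 5) (nat_lit 2) (nat_lit 4) (nat_lit 294) (nat_lit 222) (nat_lit 144)) (XT.lf (nat_lit 0) (nat_lit 3363964776420) (nat_lit 76) (nat_lit 17883395481371) (nat_lit 76) (nat_lit 17873380813718) (nat_lit 1) (nat_lit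 4) (nat_lit 2) (nat_lit 5) (nat_lit 2) (nat_lit 4) (nat_lit 295) (nat_lit 222) (nat_lit 143)))) (XT.nd (nat_lit 858) (nat_lit 0) (nat_lit 0) (XT.nd (nat_lit 78) (nat_lit 0) (nat_lit 0) (XT.lf (nat_lit 0) (nat_lit 3893425924896) (nat_lit 76) (nat_lit 20551796041079) (nat_lit 76) (nat_lit 20541781352488) (nat_lit 1) (nat_lit 4) (nat_lit 2) (nat_lit 5) (nat_lit 2) (nat_lit 4) (nat_lit 296) (nat_lit 222) (nat_lit 142)) (XT.lf (nat_lit 0) (nat_lit 4502306148458) (nat_lit 76) (nat_lit 23620456734012) (nat_lit 76) (nat_lit 23610442027216) (nat_lit 1) (nat_lit 4) (nat_lit 2) (nat_lit 5) (nat_lit 2) (nat_lit 4) (nat_lit 297) (nat_lit 222) (nat_lit 141))) (XT.nd (nat_lit 78) (nat_lit 0) (nat_lit 0) (XT.lf (nat_lit 0) (nat_lit 18719212999414) (nat_lit 76) (nat_lit 95271464923633) (nat_lit 76) (nat_lit 95261450125466) (nat_lit 1) (nat_lit 4) (nat_lit 2) (nat_lit 5) (nat_lit 2) (nat_lit 4) (nat_lit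 307) (nat_lit 222) (nat_lit 131)) (XT.nd (nat_lit 78) (nat_lit 0) (nat_lit 0) (XT.lf (nat_lit 0) (nat_lit 21551960775508) (nat_lit 76) (nat_lit 109548076206817) (nat_lit 76) (nat_lit 109538061404737) (nat_lit 1) (nat_lit 4) (nat_lit 2) (nat_lit 5) (nat_lit 2) (nat_lit 4) (nat_lit 308) (nat_lit 222) (nat_lit 130)) (XT.lf (nat_lit 0) (nat_lit 24809620699852) (nat_lit 76) (nat_lit 125966179191689) (nat_lit 76) (nat_lit 125956164386206) (nat_lit 1) (nat_lit 4) (nat_lit 2) (nat_lit 5) (nat_lit 2) (nat_lit 4) (nat_lit 309) (nat_lit 222) (nat_lit 129))))))) (XT.nd (nat_lit 28158) (nat_lit 0) (nat_lit 760) (XT.nd (nat_lit 27768) (nat_lit 0) (nat_lit 1292) (XT.nd (nat_lit 27612) (nat_lit 0) (nat_lit 1824) (XT.nd (nat_lit 78) (nat_lit 0) (nat_lit 0) (XT.lf (nat_lit 0) (nat_lit 28555929597052) (nat_lit 76) (nat_lit 144846997632299) (nat_lit 76) (nat_lit 144836982823857) (nat_lit 1) (nat_lit 4)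 (nat_lit 2) (nat_lit 5) (nat_lit 2) (nat_lit 4) (nat_lit 310) (nat_lit 222) (nat_lit 128)) (XT.lf (nat_lit 0) (nat_lit 32864184815096) (nat_lit 76) (nat_lit 166559938845964) (nat_lit 76) (nat_lit 166549924034949) (nat_lit 1) (nat_lit 4) (nat_lit 2) (nat_lit 5) (nat_lit 2) (nat_lit 4) (nat_lit 311) (nat_lit 222) (nat_lit 127))) (XT.nd (nat_lit 78) (nat_lit 228) (nat_lit 0) (XT.lf (nat_lit 0) (nat_lit 3608194688) (nat_lit 228) (nat_lit 23816105) (nat_lit 228) (nat_lit 23816105) (nat_lit 28) (nat_lit 3) (nat_lit 31) (nat_lit 3) (nat_lit 31) (nat_lit 5) (nat_lit 223) (nat_lit 223) (nat_lit 214)) (XT.lf (nat_lit 0) (nat_lit 1455539965) (nat_lit 228) (nat_lit 4014185564) (nat_lit 304) (nat_lit 2149672032) (nat_lit 25) (nat_lit 5) (nat_lit 28) (nat_lit 3) (nat_lit 29) (nat_lit 5) (nat_lit 224) (nat_lit 223) (nat_lit 213)))) (XT.nd (nat_lit 156) (nat_lit 532) (nat_lit 0) (XT.nd (nat_lit 78)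 (nat_lit 0) (nat_lit 0) (XT.lf (nat_lit 0) (nat_lit 2978014128) (nat_lit 228) (nat_lit 341668034) (nat_lit 304) (nat_lit 4692211984) (nat_lit 25) (nat_lit 5) (nat_lit 28) (nat_lit 3) (nat_lit 29) (nat_lit 5) (nat_lit 225) (nat_lit 223) (nat_lit 212)) (XT.lf (nat_lit 76) (nat_lit 4093631641) (nat_lit 0) (nat_lit 584035415) (nat_lit 304) (nat_lit 3794661432) (nat_lit 26) (nat_lit 5) (nat_lit 25) (nat_lit 5) (nat_lit 29) (nat_lit 5) (nat_lit 226) (nat_lit 223) (nat_lit 211))) (XT.nd (nat_lit 78) (nat_lit 608) (nat_lit 0) (XT.lf (nat_lit 0) (nat_lit 6561287701) (nat_lit 228) (nat_lit 52127385) (nat_lit 76) (nat_lit 2400263770) (nat_lit 26) (nat_lit 5) (nat_lit 29) (nat_lit 5) (nat_lit 27) (nat_lit 5) (nat_lit 227) (nat_lit 223) (nat_lit 210)) (XT.nd (nat_lit 78) (nat_lit 380) (nat_lit 0) (XT.lf (nat_lit 0) (nat_lit 5203504993) (nat_lit 228) (nat_lit 3596983834) (nat_lit 304) (nat_lit 825834159)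 (nat_lit 23) (nat_lit 5) (nat_lit 26) (nat_lit 5) (nat_lit 27) (nat_lit 5) (nat_lit 228) (nat_lit 223) (nat_lit 209)) (XT.lf (nat_lit 0) (nat_lit 784368143) (nat_lit 304) (nat_lit 40318426) (nat_lit 380) (nat_lit 9519531776) (nat_lit 18) (nat_lit 5) (nat_lit 22) (nat_lit 5) (nat_lit 23) (nat_lit 5) (nat_lit 229) (nat_lit 223) (nat_lit 208)))))) (XT.nd (nat_lit 312) (nat_lit 304) (nat_lit 0) (XT.nd (nat_lit 156) (nat_lit 76) (nat_lit 0) (XT.nd (nat_lit 78) (nat_lit 152) (nat_lit 0) (XT.lf (nat_lit 0) (nat_lit 2900037727) (nat_lit 380) (nat_lit 4263350423) (nat_lit 76) (nat_lit 3961929039) (nat_lit 18) (nat_lit 5) (nat_lit 23) (nat_lit 5) (nat_lit 19) (nat_lit 5) (nat_lit 230) (nat_lit 223) (nat_lit 207)) (XT.lf (nat_lit 0) (nat_lit 1832404856) (nat_lit 152) (nat_lit 3403303953) (nat_lit 228) (nat_lit 6796117985) (nat_lit 16) (nat_lit 5) (nat_lit 18) (nat_lit 5) (nat_lit 19) (nat_lit 5)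 (nat_lit 231) (nat_lit 223) (nat_lit 206))) (XT.nd (nat_lit 78) (nat_lit 76) (nat_lit 0) (XT.lf (nat_lit 0) (nat_lit 8073873082) (nat_lit 228) (nat_lit 3934235990) (nat_lit 76) (nat_lit 1043902841) (nat_lit 16) (nat_lit 5) (nat_lit 19) (nat_lit 5) (nat_lit 17) (nat_lit 4) (nat_lit 232) (nat_lit 223) (nat_lit 205)) (XT.lf (nat_lit 0) (nat_lit 3253747973) (nat_lit 76) (nat_lit 8276933201) (nat_lit 152) (nat_lit 2666058317) (nat_lit 15) (nat_lit 5) (nat_lit 16) (nat_lit 5) (nat_lit 17) (nat_lit 4) (nat_lit 233) (nat_lit 223) (nat_lit 204)))) (XT.nd (nat_lit 156) (nat_lit 76) (nat_lit 0) (XT.nd (nat_lit 78) (nat_lit 152) (nat_lit 0) (XT.lf (nat_lit 0) (nat_lit 107946725) (nat_lit 152) (nat_lit 3677967108) (nat_lit 76) (nat_lit 11710477909) (nat_lit 14) (nat_lit 5) (nat_lit 16) (nat_lit 5) (nat_lit 15) (nat_lit 5) (nat_lit 234) (nat_lit 223) (nat_lit 203)) (XT.lf (nat_lit 0) (nat_lit 3209254902)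 (nat_lit 228) (nat_lit 12173266271) (nat_lit 76) (nat_lit 1562101562) (nat_lit 12) (nat_lit 5) (nat_lit 15) (nat_lit 5) (nat_lit 13) (nat_lit 4) (nat_lit 235) (nat_lit 223) (nat_lit 202))) (XT.nd (nat_lit 78) (nat_lit 76) (nat_lit 0) (XT.lf (nat_lit 0) (nat_lit 7074287519) (nat_lit 228) (nat_lit 4003041663) (nat_lit 76) (nat_lit 7488238718) (nat_lit 12) (nat_lit 5) (nat_lit 15) (nat_lit 5) (nat_lit 13) (nat_lit 4) (nat_lit 236) (nat_lit 223) (nat_lit 201)) (XT.nd (nat_lit 78) (nat_lit 0) (nat_lit 0) (XT.lf (nat_lit 0) (nat_lit 5792026263) (nat_lit 76) (nat_lit 5894566062) (nat_lit 152) (nat_lit 8718159927) (nat_lit 11) (nat_lit 5) (nat_lit 12) (nat_lit 5) (nat_lit 13) (nat_lit 4) (nat_lit 237) (nat_lit 223) (nat_lit 200)) (XT.lf (nat_lit 0) (nat_lit 17143386302) (nat_lit 152) (nat_lit 5114429058) (nat_lit 0) (nat_lit 239298037) (nat_lit 11) (nat_lit 5) (nat_lit 13) (nat_lit 4) (nat_lit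 11) (nat_lit 4) (nat_lit 238) (nat_lit 223) (nat_lit 199))))))))
noncomputable def xc56 : XT := (XT.nd (nat_lit 1404) (nat_lit 0) (nat_lit 0) (XT.nd (nat_lit 702) (nat_lit 228) (nat_lit 0) (XT.nd (nat_lit 312) (nat_lit 228) (nat_lit 0) (XT.nd (nat_lit 156) (nat_lit 76) (nat_lit 0) (XT.nd (nat_lit 78) (nat_lit 76) (nat_lit 0) (XT.lf (nat_lit 0) (nat_lit 5954019045) (nat_lit 76) (nat_lit 17931667120) (nat_lit 76) (nat_lit 947764665) (nat_lit 10) (nat_lit 4) (nat_lit 11) (nat_lit 5) (nat_lit 11) (nat_lit 4) (nat_lit 239) (nat_lit 223) (nat_lit 198)) (XT.lf (nat_lit 0) (nat_lit 3973131901) (nat_lit 152) (nat_lit 8511072511) (nat_lit 76) (nat_lit 14977466219) (nat_lit 9) (nat_lit 5) (nat_lit 11) (nat_lit 5) (nat_lit 10) (nat_lit 4) (nat_lit 240) (nat_lit 223) (nat_lit 197))) (XT.nd (nat_lit 78) (nat_lit 0) (nat_lit 0) (XT.lf (nat_lit 0) (nat_lit 3596108771) (nat_lit 76) (nat_lit 6036340467)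 (nat_lit 152) (nat_lit 20830418380) (nat_lit 8) (nat_lit 5) (nat_lit 9) (nat_lit 5) (nat_lit 10) (nat_lit 4) (nat_lit 241) (nat_lit 223) (nat_lit 196)) (XT.lf (nat_lit 0) (nat_lit 16613754753) (nat_lit 152) (nat_lit 15542943315) (nat_lit 0) (nat_lit 1686679779) (nat_lit 8) (nat_lit 5) (nat_lit 10) (nat_lit 4) (nat_lit 8) (nat_lit 4) (nat_lit 242) (nat_lit 223) (nat_lit 195)))) (XT.nd (nat_lit 156) (nat_lit 152) (nat_lit 0) (XT.nd (nat_lit 78) (nat_lit 76) (nat_lit 0) (XT.lf (nat_lit 0) (nat_lit 24886152075) (nat_lit 152) (nat_lit 2888917381) (nat_lit 0) (nat_lit 9919395342) (nat_lit 8) (nat_lit 5) (nat_lit 10) (nat_lit 4) (nat_lit 8) (nat_lit 4) (nat_lit 243) (nat_lit 223) (nat_lit 194)) (XT.lf (nat_lit 0) (nat_lit 12725787291) (nat_lit 76) (nat_lit 22162700894) (nat_lit 76) (nat_lit 7161438285) (nat_lit 7) (nat_lit 4) (nat_lit 8) (nat_lit 5) (nat_lit 8) (nat_lit 4) (nat_lit 244) (nat_lit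 223) (nat_lit 193))) (XT.nd (nat_lit 78) (nat_lit 152) (nat_lit 0) (XT.lf (nat_lit 0) (nat_lit 30940208155) (nat_lit 76) (nat_lit 15566267861) (nat_lit 76) (nat_lit 535000141) (nat_lit 7) (nat_lit 4) (nat_lit 8) (nat_lit 5) (nat_lit 8) (nat_lit 4) (nat_lit 245) (nat_lit 223) (nat_lit 192)) (XT.nd (nat_lit 78) (nat_lit 76) (nat_lit 0) (XT.lf (nat_lit 0) (nat_lit 6422030311) (nat_lit 152) (nat_lit 1249993951) (nat_lit 76) (nat_lit 45070660947) (nat_lit 6) (nat_lit 5) (nat_lit 8) (nat_lit 5) (nat_lit 7) (nat_lit 4) (nat_lit 246) (nat_lit 223) (nat_lit 191)) (XT.lf (nat_lit 0) (nat_lit 15147905866) (nat_lit 152) (nat_lit 41995559462) (nat_lit 0) (nat_lit 2034821262) (nat_lit 5) (nat_lit 5) (nat_lit 7) (nat_lit 4) (nat_lit 5) (nat_lit 4) (nat_lit 247) (nat_lit 223) (nat_lit 190)))))) (XT.nd (nat_lit 312) (nat_lit 152) (nat_lit 0) (XT.nd (nat_lit 156) (nat_lit 76) (nat_lit 0) (XT.nd (nat_lit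 78) (nat_lit 0) (nat_lit 0) (XT.lf (nat_lit 0) (nat_lit 25588683753) (nat_lit 152) (nat_lit 28471234218) (nat_lit 0) (nat_lit 12458443629) (nat_lit 5) (nat_lit 5) (nat_lit 7) (nat_lit 4) (nat_lit 5) (nat_lit 4) (nat_lit 248) (nat_lit 223) (nat_lit 189)) (XT.lf (nat_lit 0) (nat_lit 37571434373) (nat_lit 152) (nat_lit 12965390472) (nat_lit 0) (nat_lit 24426276406) (nat_lit 5) (nat_lit 5) (nat_lit 7) (nat_lit 4) (nat_lit 5) (nat_lit 4) (nat_lit 249) (nat_lit 223) (nat_lit 188))) (XT.nd (nat_lit 78) (nat_lit 0) (nat_lit 0) (XT.lf (nat_lit 0) (nat_lit 5296914978) (nat_lit 76) (nat_lit 46253021824) (nat_lit 76) (nat_lit 33094891820) (nat_lit 4) (nat_lit 4) (nat_lit 5) (nat_lit 5) (nat_lit 5) (nat_lit 4) (nat_lit 250) (nat_lit 223) (nat_lit 187)) (XT.lf (nat_lit 0) (nat_lit 27716579334) (nat_lit 76) (nat_lit 40566495411) (nat_lit 76) (nat_lit 27397085374) (nat_lit 4) (nat_lit 4) (nat_lit 5)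 (nat_lit 5) (nat_lit 5) (nat_lit 4) (nat_lit 251) (nat_lit 223) (nat_lit 186)))) (XT.nd (nat_lit 156) (nat_lit 152) (nat_lit 0) (XT.nd (nat_lit 78) (nat_lit 0) (nat_lit 0) (XT.lf (nat_lit 0) (nat_lit 53465175953) (nat_lit 76) (nat_lit 34043723801) (nat_lit 76) (nat_lit 20864505041) (nat_lit 4) (nat_lit 4) (nat_lit 5) (nat_lit 5) (nat_lit 5) (nat_lit 4) (nat_lit 252) (nat_lit 223) (nat_lit 185)) (XT.lf (nat_lit 0) (nat_lit 83046481724) (nat_lit 76) (nat_lit 26557087550) (nat_lit 76) (nat_lit 13369339464) (nat_lit 4) (nat_lit 4) (nat_lit 5) (nat_lit 5) (nat_lit 5) (nat_lit 4) (nat_lit 253) (nat_lit 223) (nat_lit 184))) (XT.nd (nat_lit 78) (nat_lit 152) (nat_lit 0) (XT.lf (nat_lit 0) (nat_lit 117039261327) (nat_lit 76) (nat_lit 17960108992) (nat_lit 76) (nat_lit 4764944102) (nat_lit 4) (nat_lit 4) (nat_lit 5) (nat_lit 5) (nat_lit 5) (nat_lit 4) (nat_lit 254) (nat_lit 223) (nat_lit 183))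 (XT.nd (nat_lit 78) (nat_lit 76) (nat_lit 0) (XT.lf (nat_lit 0) (nat_lit 4661474702) (nat_lit 152) (nat_lit 3179443674) (nat_lit 76) (nat_lit 151203448184) (nat_lit 3) (nat_lit 5) (nat_lit 5) (nat_lit 5) (nat_lit 4) (nat_lit 4) (nat_lit 255) (nat_lit 223) (nat_lit 182)) (XT.lf (nat_lit 0) (nat_lit 16078403118) (nat_lit 152) (nat_lit 160350478683) (nat_lit 0) (nat_lit 4593861853) (nat_lit 2) (nat_lit 5) (nat_lit 4) (nat_lit 4) (nat_lit 2) (nat_lit 4) (nat_lit 256) (nat_lit 223) (nat_lit 181))))))) (XT.nd (nat_lit 702) (nat_lit 0) (nat_lit 0) (XT.nd (nat_lit 312) (nat_lit 0) (nat_lit 0) (XT.nd (nat_lit 156) (nat_lit 0) (nat_lit 0) (XT.nd (nat_lit 78) (nat_lit 0) (nat_lit 0) (XT.lf (nat_lit 0) (nat_lit 29745136839) (nat_lit 152) (nat_lit 158215804615) (nat_lit 0) (nat_lit 18256354993) (nat_lit 2) (nat_lit 5) (nat_lit 4) (nat_lit 4) (nat_lit 2) (nat_lit 4) (nat_lit 257) (nat_lit 223) (nat_lit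 180)) (XT.lf (nat_lit 0) (nat_lit 45452990693) (nat_lit 152) (nat_lit 155778861431) (nat_lit 0) (nat_lit 33960521383) (nat_lit 2) (nat_lit 5) (nat_lit 4) (nat_lit 4) (nat_lit 2) (nat_lit 4) (nat_lit 258) (nat_lit 223) (nat_lit 179))) (XT.nd (nat_lit 78) (nat_lit 0) (nat_lit 0) (XT.lf (nat_lit 0) (nat_lit 63509292254) (nat_lit 152) (nat_lit 152991969808) (nat_lit 0) (nat_lit 52013616455) (nat_lit 2) (nat_lit 5) (nat_lit 4) (nat_lit 4) (nat_lit 2) (nat_lit 4) (nat_lit 259) (nat_lit 223) (nat_lit 178)) (XT.lf (nat_lit 0) (nat_lit 84267316988) (nat_lit 152) (nat_lit 149800603606) (nat_lit 0) (nat_lit 72768852938) (nat_lit 2) (nat_lit 5) (nat_lit 4) (nat_lit 4) (nat_lit 2) (nat_lit 4) (nat_lit 260) (nat_lit 223) (nat_lit 177)))) (XT.nd (nat_lit 156) (nat_lit 0) (nat_lit 0) (XT.nd (nat_lit 78) (nat_lit 0) (nat_lit 0) (XT.lf (nat_lit 0) (nat_lit 108133200162) (nat_lit 152) (nat_lit 146142323050)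 (nat_lit 0) (nat_lit 96632311545) (nat_lit 2) (nat_lit 5) (nat_lit 4) (nat_lit 4) (nat_lit 2) (nat_lit 4) (nat_lit 261) (nat_lit 223) (nat_lit 176)) (XT.lf (nat_lit 0) (nat_lit 135573882968) (nat_lit 152) (nat_lit 141945553087) (nat_lit 0) (nat_lit 124070886033) (nat_lit 2) (nat_lit 5) (nat_lit 4) (nat_lit 4) (nat_lit 2) (nat_lit 4) (nat_lit 262) (nat_lit 223) (nat_lit 175))) (XT.nd (nat_lit 78) (nat_lit 0) (nat_lit 0) (XT.lf (nat_lit 0) (nat_lit 167126248331) (nat_lit 152) (nat_lit 137128183000) (nat_lit 0) (nat_lit 155621418075) (nat_lit 2) (nat_lit 5) (nat_lit 4) (nat_lit 4) (nat_lit 2) (nat_lit 4) (nat_lit 263) (nat_lit 223) (nat_lit 174)) (XT.nd (nat_lit 78) (nat_lit 0) (nat_lit 0) (XT.lf (nat_lit 0) (nat_lit 203407625138) (nat_lit 152) (nat_lit 131595959896) (nat_lit 0) (nat_lit 191901200690) (nat_lit 2) (nat_lit 5) (nat_lit 4) (nat_lit 4) (nat_lit 2) (nat_lit 4) (nat_lit 264)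 (nat_lit 223) (nat_lit 173)) (XT.lf (nat_lit 0) (nat_lit 245127866413) (nat_lit 152) (nat_lit 125240644627) (nat_lit 0) (nat_lit 233620055711) (nat_lit 2) (nat_lit 5) (nat_lit 4) (nat_lit 4) (nat_lit 2) (nat_lit 4) (nat_lit 265) (nat_lit 223) (nat_lit 172)))))) (XT.nd (nat_lit 312) (nat_lit 0) (nat_lit 0) (XT.nd (nat_lit 156) (nat_lit 0) (nat_lit 0) (XT.nd (nat_lit 78) (nat_lit 0) (nat_lit 0) (XT.lf (nat_lit 0) (nat_lit 293103237747) (nat_lit 152) (nat_lit 117937894069) (nat_lit 0) (nat_lit 281594221608) (nat_lit 2) (nat_lit 5) (nat_lit 4) (nat_lit 4) (nat_lit 2) (nat_lit 4) (nat_lit 266) (nat_lit 223) (nat_lit 171)) (XT.lf (nat_lit 0) (nat_lit 348272387710) (nat_lit 152) (nat_lit 109544828318) (nat_lit 0) (nat_lit 336762323363) (nat_lit 2) (nat_lit 5) (nat_lit 4) (nat_lit 4) (nat_lit 2) (nat_lit 4) (nat_lit 267) (nat_lit 223) (nat_lit 170))) (XT.nd (nat_lit 78) (nat_lit 0) (nat_lit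 0) (XT.lf (nat_lit 0) (nat_lit 411714712713) (nat_lit 152) (nat_lit 99897235220) (nat_lit 0) (nat_lit 400203736882) (nat_lit 2) (nat_lit 5) (nat_lit 4) (nat_lit 4) (nat_lit 2) (nat_lit 4) (nat_lit 268) (nat_lit 223) (nat_lit 169)) (XT.lf (nat_lit 0) (nat_lit 484671475638) (nat_lit 152) (nat_lit 88806357517) (nat_lit 0) (nat_lit 473159707212) (nat_lit 2) (nat_lit 5) (nat_lit 4) (nat_lit 4) (nat_lit 2) (nat_lit 4) (nat_lit 269) (nat_lit 223) (nat_lit 168)))) (XT.nd (nat_lit 156) (nat_lit 0) (nat_lit 0) (XT.nd (nat_lit 78) (nat_lit 0) (nat_lit 0) (XT.lf (nat_lit 0) (nat_lit 568570091410) (nat_lit 152) (nat_lit 76055199778) (nat_lit 0) (nat_lit 557057633771) (nat_lit 2) (nat_lit 5) (nat_lit 4) (nat_lit 4) (nat_lit 2) (nat_lit 4) (nat_lit 270) (nat_lit 223) (nat_lit 167)) (XT.lf (nat_lit 0) (nat_lit 665052054687) (nat_lit 152) (nat_lit 61394282827) (nat_lit 0) (nat_lit 653538997732) (nat_lit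 2) (nat_lit 5) (nat_lit 4) (nat_lit 4) (nat_lit 2) (nat_lit 4) (nat_lit 271) (nat_lit 223) (nat_lit 166))) (XT.nd (nat_lit 78) (nat_lit 0) (nat_lit 0) (XT.lf (nat_lit 0) (nat_lit 776005056054) (nat_lit 152) (nat_lit 44536762639) (nat_lit 0) (nat_lit 764491477955) (nat_lit 2) (nat_lit 5) (nat_lit 4) (nat_lit 4) (nat_lit 2) (nat_lit 4) (nat_lit 272) (nat_lit 223) (nat_lit 165)) (XT.nd (nat_lit 78) (nat_lit 0) (nat_lit 0) (XT.lf (nat_lit 0) (nat_lit 903599915104) (nat_lit 152) (nat_lit 25152818166) (nat_lit 0) (nat_lit 892085883835) (nat_lit 2) (nat_lit 5) (nat_lit 4) (nat_lit 4) (nat_lit 2) (nat_lit 4) (nat_lit 273) (nat_lit 223) (nat_lit 164)) (XT.lf (nat_lit 0) (nat_lit 1050333052990) (nat_lit 152) (nat_lit 2863198320) (nat_lit 0) (nat_lit 1038818627662) (nat_lit 2) (nat_lit 5) (nat_lit 4) (nat_lit 4) (nat_lit 2) (nat_lit 4) (nat_lit 274) (nat_lit 223) (nat_lit 163))))))))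
noncomputable def xc57 : XT := (XT.nd (nat_lit 1404) (nat_lit 0) (nat_lit 0) (XT.nd (nat_lit 702) (nat_lit 0) (nat_lit 0) (XT.nd (nat_lit 312) (nat_lit 0) (nat_lit 0) (XT.nd (nat_lit 156) (nat_lit 0) (nat_lit 0) (XT.nd (nat_lit 78) (nat_lit 0) (nat_lit 0) (XT.lf (nat_lit 0) (nat_lit 24993272066) (nat_lit 76) (nat_lit 1195116981487) (nat_lit 76) (nat_lit 1183602213499) (nat_lit 1) (nat_lit 4) (nat_lit 2) (nat_lit 5) (nat_lit 2) (nat_lit 4) (nat_lit 275) (nat_lit 223) (nat_lit 162)) (XT.lf (nat_lit 0) (nat_lit 57348406855) (nat_lit 76) (nat_lit 1358154510316) (nat_lit 76) (nat_lit 1346639444362) (nat_lit 1) (nat_lit 4) (nat_lit 2) (nat_lit 5) (nat_lit 2) (nat_lit 4) (nat_lit 276) (nat_lit 223) (nat_lit 161))) (XT.nd (nat_lit 78) (nat_lit 0) (nat_lit 0) (XT.lf (nat_lit 0) (nat_lit 94555428729) (nat_lit 76) (nat_lit 1545648369677) (nat_lit 76) (nat_lit 1534133044621) (nat_lit 1) (nat_lit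 4) (nat_lit 2) (nat_lit 5) (nat_lit 2) (nat_lit 4) (nat_lit 277) (nat_lit 223) (nat_lit 160)) (XT.lf (nat_lit 0) (nat_lit 137342301160) (nat_lit 76) (nat_lit 1761266917687) (nat_lit 76) (nat_lit 1749751367327) (nat_lit 1) (nat_lit 4) (nat_lit 2) (nat_lit 5) (nat_lit 2) (nat_lit 4) (nat_lit 278) (nat_lit 223) (nat_lit 159)))) (XT.nd (nat_lit 156) (nat_lit 0) (nat_lit 0) (XT.nd (nat_lit 78) (nat_lit 0) (nat_lit 0) (XT.lf (nat_lit 0) (nat_lit 186546158607) (nat_lit 76) (nat_lit 2009228778112) (nat_lit 76) (nat_lit 1997713031834) (nat_lit 1) (nat_lit 4) (nat_lit 2) (nat_lit 5) (nat_lit 2) (nat_lit 4) (nat_lit 279) (nat_lit 223) (nat_lit 158)) (XT.lf (nat_lit 0) (nat_lit 243129685239) (nat_lit 76) (nat_lit 2294385378656) (nat_lit 76) (nat_lit 2282869462016) (nat_lit 1) (nat_lit 4) (nat_lit 2) (nat_lit 5) (nat_lit 2) (nat_lit 4) (nat_lit 280) (nat_lit 223) (nat_lit 157))) (XT.nd (nat_lit 78)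 (nat_lit 0) (nat_lit 0) (XT.lf (nat_lit 0) (nat_lit 308199950055) (nat_lit 76) (nat_lit 2622315870200) (nat_lit 76) (nat_lit 2610799805417) (nat_lit 1) (nat_lit 4) (nat_lit 2) (nat_lit 5) (nat_lit 2) (nat_lit 4) (nat_lit 281) (nat_lit 223) (nat_lit 156)) (XT.nd (nat_lit 78) (nat_lit 0) (nat_lit 0) (XT.lf (nat_lit 0) (nat_lit 383030066931) (nat_lit 76) (nat_lit 2999436284098) (nat_lit 76) (nat_lit 2987920090497) (nat_lit 1) (nat_lit 4) (nat_lit 2) (nat_lit 5) (nat_lit 2) (nat_lit 4) (nat_lit 282) (nat_lit 223) (nat_lit 155)) (XT.lf (nat_lit 0) (nat_lit 469084103372) (nat_lit 76) (nat_lit 3433125063233) (nat_lit 76) (nat_lit 3421608757616) (nat_lit 1) (nat_lit 4) (nat_lit 2) (nat_lit 5) (nat_lit 2) (nat_lit 4) (nat_lit 283) (nat_lit 223) (nat_lit 154)))))) (XT.nd (nat_lit 312) (nat_lit 0) (nat_lit 0) (XT.nd (nat_lit 156) (nat_lit 0) (nat_lit 0) (XT.nd (nat_lit 78) (nat_lit 0) (nat_lit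 0) (XT.lf (nat_lit 0) (nat_lit 568045725308) (nat_lit 76) (nat_lit 3931867422848) (nat_lit 76) (nat_lit 3920351019825) (nat_lit 1) (nat_lit 4) (nat_lit 2) (nat_lit 5) (nat_lit 2) (nat_lit 4) (nat_lit 284) (nat_lit 223) (nat_lit 153)) (XT.lf (nat_lit 0) (nat_lit 681851138386) (nat_lit 76) (nat_lit 4505421365632) (nat_lit 76) (nat_lit 4493904877908) (nat_lit 1) (nat_lit 4) (nat_lit 2) (nat_lit 5) (nat_lit 2) (nat_lit 4) (nat_lit 285) (nat_lit 223) (nat_lit 152))) (XT.nd (nat_lit 78) (nat_lit 0) (nat_lit 0) (XT.lf (nat_lit 0) (nat_lit 812726970252) (nat_lit 76) (nat_lit 5165008599159) (nat_lit 76) (nat_lit 5153492037783) (nat_lit 1) (nat_lit 4) (nat_lit 2) (nat_lit 5) (nat_lit 2) (nat_lit 4) (nat_lit 286) (nat_lit 223) (nat_lit 151)) (XT.lf (nat_lit 0) (nat_lit 963233835009) (nat_lit 76) (nat_lit 5923534091043) (nat_lit 76) (nat_lit 5912017465621) (nat_lit 1) (nat_lit 4) (nat_lit 2) (nat_lit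 5) (nat_lit 2) (nat_lit 4) (nat_lit 287) (nat_lit 223) (nat_lit 150)))) (XT.nd (nat_lit 156) (nat_lit 0) (nat_lit 0) (XT.nd (nat_lit 78) (nat_lit 0) (nat_lit 0) (XT.lf (nat_lit 0) (nat_lit 1136316432184) (nat_lit 76) (nat_lit 6795838557430) (nat_lit 76) (nat_lit 6784321876316) (nat_lit 1) (nat_lit 4) (nat_lit 2) (nat_lit 5) (nat_lit 2) (nat_lit 4) (nat_lit 288) (nat_lit 223) (nat_lit 149)) (XT.lf (nat_lit 0) (nat_lit 1335361160418) (nat_lit 76) (nat_lit 7798988824836) (nat_lit 76) (nat_lit 7787472095294) (nat_lit 1) (nat_lit 4) (nat_lit 2) (nat_lit 5) (nat_lit 2) (nat_lit 4) (nat_lit 289) (nat_lit 223) (nat_lit 148))) (XT.nd (nat_lit 78) (nat_lit 0) (nat_lit 0) (XT.lf (nat_lit 0) (nat_lit 1564262373090) (nat_lit 76) (nat_lit 8952611746318) (nat_lit 76) (nat_lit 8941094974665) (nat_lit 1) (nat_lit 4) (nat_lit 2) (nat_lit 5) (nat_lit 2) (nat_lit 4) (nat_lit 290) (nat_lit 223) (nat_lit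 147)) (XT.nd (nat_lit 78) (nat_lit 0) (nat_lit 0) (XT.lf (nat_lit 0) (nat_lit 1827498572186) (nat_lit 76) (nat_lit 10279278205123) (nat_lit 76) (nat_lit 10267761396851) (nat_lit 1) (nat_lit 4) (nat_lit 2) (nat_lit 5) (nat_lit 2) (nat_lit 4) (nat_lit 291) (nat_lit 223) (nat_lit 146)) (XT.lf (nat_lit 0) (nat_lit 2130220031166) (nat_lit 76) (nat_lit 11804944718923) (nat_lit 76) (nat_lit 11793427878810) (nat_lit 1) (nat_lit 4) (nat_lit 2) (nat_lit 5) (nat_lit 2) (nat_lit 4) (nat_lit 292) (nat_lit 223) (nat_lit 145))))))) (XT.nd (nat_lit 1248) (nat_lit 0) (nat_lit 0) (XT.nd (nat_lit 312) (nat_lit 0) (nat_lit 0) (XT.nd (nat_lit 156) (nat_lit 0) (nat_lit 0) (XT.nd (nat_lit 78) (nat_lit 0) (nat_lit 0) (XT.lf (nat_lit 0) (nat_lit 2478349561186) (nat_lit 76) (nat_lit 13559461284728) (nat_lit 76) (nat_lit 13547944416926) (nat_lit 1) (nat_lit 4) (nat_lit 2) (nat_lit 5) (nat_lit 2) (nat_lit 4) (nat_lit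 293) (nat_lit 223) (nat_lit 144)) (XT.lf (nat_lit 0) (nat_lit 2878698392179) (nat_lit 76) (nat_lit 15577155400563) (nat_lit 76) (nat_lit 15565638508684) (nat_lit 1) (nat_lit 4) (nat_lit 2) (nat_lit 5) (nat_lit 2) (nat_lit 4) (nat_lit 294) (nat_lit 223) (nat_lit 143))) (XT.nd (nat_lit 78) (nat_lit 0) (nat_lit 0) (XT.lf (nat_lit 0) (nat_lit 3339099436057) (nat_lit 76) (nat_lit 17897503690436) (nat_lit 76) (nat_lit 17885986777620) (nat_lit 1) (nat_lit 4) (nat_lit 2) (nat_lit 5) (nat_lit 2) (nat_lit 4) (nat_lit 295) (nat_lit 223) (nat_lit 142)) (XT.lf (nat_lit 0) (nat_lit 3868560539331) (nat_lit 76) (nat_lit 20565904273059) (nat_lit 76) (nat_lit 20554387342038) (nat_lit 1) (nat_lit 4) (nat_lit 2) (nat_lit 5) (nat_lit 2) (nat_lit 4) (nat_lit 296) (nat_lit 223) (nat_lit 141)))) (XT.nd (nat_lit 156) (nat_lit 0) (nat_lit 0) (XT.nd (nat_lit 78) (nat_lit 0) (nat_lit 0) (XT.lf (nat_lit 0) (nat_lit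 4477440723586) (nat_lit 76) (nat_lit 23634564985921) (nat_lit 76) (nat_lit 23623048039068) (nat_lit 1) (nat_lit 4) (nat_lit 2) (nat_lit 5) (nat_lit 2) (nat_lit 4) (nat_lit 297) (nat_lit 223) (nat_lit 140)) (XT.lf (nat_lit 0) (nat_lit 5177652861992) (nat_lit 76) (nat_lit 27163524842967) (nat_lit 76) (nat_lit 27152007882348) (nat_lit 1) (nat_lit 4) (nat_lit 2) (nat_lit 5) (nat_lit 2) (nat_lit 4) (nat_lit 298) (nat_lit 223) (nat_lit 139))) (XT.nd (nat_lit 78) (nat_lit 0) (nat_lit 0) (XT.lf (nat_lit 0) (nat_lit 5982896757258) (nat_lit 76) (nat_lit 31221828710966) (nat_lit 76) (nat_lit 31210311738376) (nat_lit 1) (nat_lit 4) (nat_lit 2) (nat_lit 5) (nat_lit 2) (nat_lit 4) (nat_lit 299) (nat_lit 223) (nat_lit 138)) (XT.nd (nat_lit 624) (nat_lit 0) (nat_lit 0) (XT.lf (nat_lit 0) (nat_lit 6908927181246) (nat_lit 76) (nat_lit 35888878187335) (nat_lit 76) (nat_lit 35877361204336) (nat_lit 1) (nat_lit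 4) (nat_lit 2) (nat_lit 5) (nat_lit 2) (nat_lit 4) (nat_lit 300) (nat_lit 223) (nat_lit 137)) (XT.lf (nat_lit 0) (nat_lit 21527095144915) (nat_lit 76) (nat_lit 109562184563020) (nat_lit 76) (nat_lit 109550667533312) (nat_lit 1) (nat_lit 4) (nat_lit 2) (nat_lit 5) (nat_lit 2) (nat_lit 4) (nat_lit 308) (nat_lit 223) (nat_lit 129)))))) (XT.nd (nat_lit 28002) (nat_lit 0) (nat_lit 1292) (XT.nd (nat_lit 27846) (nat_lit 0) (nat_lit 1824) (XT.nd (nat_lit 27768) (nat_lit 0) (nat_lit 1824) (XT.lf (nat_lit 0) (nat_lit 24784755061912) (nat_lit 76) (nat_lit 125980287551616) (nat_lit 76) (nat_lit 125968770518949) (nat_lit 1) (nat_lit 4) (nat_lit 2) (nat_lit 5) (nat_lit 2) (nat_lit 4) (nat_lit 309) (nat_lit 223) (nat_lit 128)) (XT.lf (nat_lit 0) (nat_lit 671511084) (nat_lit 0) (nat_lit 671511084) (nat_lit 228) (nat_lit 2644009309) (nat_lit 25) (nat_lit 5) (nat_lit 25) (nat_lit 3) (nat_lit 28) (nat_lit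 3) (nat_lit 224) (nat_lit 224) (nat_lit 212))) (XT.nd (nat_lit 78) (nat_lit 0) (nat_lit 0) (XT.lf (nat_lit 0) (nat_lit 4050255229) (nat_lit 228) (nat_lit 2973859890) (nat_lit 304) (nat_lit 1366827828) (nat_lit 25) (nat_lit 5) (nat_lit 28) (nat_lit 3) (nat_lit 29) (nat_lit 5) (nat_lit 225) (nat_lit 224) (nat_lit 211)) (XT.lf (nat_lit 76) (nat_lit 1136479462) (nat_lit 0) (nat_lit 4401717079) (nat_lit 304) (nat_lit 3345497416) (nat_lit 26) (nat_lit 5) (nat_lit 25) (nat_lit 5) (nat_lit 29) (nat_lit 5) (nat_lit 226) (nat_lit 224) (nat_lit 210)))) (XT.nd (nat_lit 156) (nat_lit 380) (nat_lit 0) (XT.nd (nat_lit 78) (nat_lit 152) (nat_lit 0) (XT.lf (nat_lit 76) (nat_lit 6070977719) (nat_lit 0) (nat_lit 1161678714) (nat_lit 304) (nat_lit 2221248896) (nat_lit 26) (nat_lit 5) (nat_lit 25) (nat_lit 5) (nat_lit 29) (nat_lit 5) (nat_lit 227) (nat_lit 224) (nat_lit 209)) (XT.lf (nat_lit 0) (nat_lit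 1531020965) (nat_lit 228) (nat_lit 7671810890) (nat_lit 304) (nat_lit 904494843) (nat_lit 23) (nat_lit 5) (nat_lit 26) (nat_lit 5) (nat_lit 27) (nat_lit 5) (nat_lit 228) (nat_lit 224) (nat_lit 208))) (XT.nd (nat_lit 78) (nat_lit 304) (nat_lit 0) (XT.lf (nat_lit 0) (nat_lit 654888947) (nat_lit 304) (nat_lit 3502409607) (nat_lit 76) (nat_lit 6683453195) (nat_lit 22) (nat_lit 5) (nat_lit 26) (nat_lit 5) (nat_lit 23) (nat_lit 5) (nat_lit 229) (nat_lit 224) (nat_lit 207)) (XT.nd (nat_lit 78) (nat_lit 0) (nat_lit 0) (XT.lf (nat_lit 0) (nat_lit 2333086280) (nat_lit 380) (nat_lit 9307525728) (nat_lit 76) (nat_lit 41090042) (nat_lit 18) (nat_lit 5) (nat_lit 23) (nat_lit 5) (nat_lit 19) (nat_lit 5) (nat_lit 230) (nat_lit 224) (nat_lit 206)) (XT.lf (nat_lit 0) (nat_lit 4540796995) (nat_lit 380) (nat_lit 3438172917) (nat_lit 76) (nat_lit 4628677868) (nat_lit 18) (nat_lit 5) (nat_lit 23) (nat_lit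 5) (nat_lit 19) (nat_lit 5) (nat_lit 231) (nat_lit 224) (nat_lit 205))))))))
noncomputable def xc58 : XT := (XT.nd (nat_lit 1404) (nat_lit 228) (nat_lit 0) (XT.nd (nat_lit 702) (nat_lit 380) (nat_lit 0) (XT.nd (nat_lit 312) (nat_lit 304) (nat_lit 0) (XT.nd (nat_lit 156) (nat_lit 152) (nat_lit 0) (XT.nd (nat_lit 78) (nat_lit 0) (nat_lit 0) (XT.lf (nat_lit 0) (nat_lit 3505369287) (nat_lit 152) (nat_lit 3622069735) (nat_lit 228) (nat_lit 6538332711) (nat_lit 16) (nat_lit 5) (nat_lit 18) (nat_lit 5) (nat_lit 19) (nat_lit 5) (nat_lit 232) (nat_lit 224) (nat_lit 204)) (XT.lf (nat_lit 0) (nat_lit 10257522567) (nat_lit 228) (nat_lit 3170586282) (nat_lit 76) (nat_lit 1431582185) (nat_lit 16) (nat_lit 5) (nat_lit 19) (nat_lit 5) (nat_lit 17) (nat_lit 4) (nat_lit 233) (nat_lit 224) (nat_lit 203))) (XT.nd (nat_lit 78) (nat_lit 76) (nat_lit 0) (XT.lf (nat_lit 0) (nat_lit 5034059590) (nat_lit 76)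 (nat_lit 9125444812) (nat_lit 152) (nat_lit 2028178170) (nat_lit 15) (nat_lit 5) (nat_lit 16) (nat_lit 5) (nat_lit 17) (nat_lit 4) (nat_lit 234) (nat_lit 224) (nat_lit 202)) (XT.lf (nat_lit 0) (nat_lit 946223735) (nat_lit 152) (nat_lit 3022840749) (nat_lit 76) (nat_lit 13725687118) (nat_lit 14) (nat_lit 5) (nat_lit 16) (nat_lit 5) (nat_lit 15) (nat_lit 5) (nat_lit 235) (nat_lit 224) (nat_lit 201)))) (XT.nd (nat_lit 156) (nat_lit 152) (nat_lit 0) (XT.nd (nat_lit 78) (nat_lit 0) (nat_lit 0) (XT.lf (nat_lit 0) (nat_lit 4469324705) (nat_lit 228) (nat_lit 12746608612) (nat_lit 76) (nat_lit 2151157852) (nat_lit 12) (nat_lit 5) (nat_lit 15) (nat_lit 5) (nat_lit 13) (nat_lit 4) (nat_lit 236) (nat_lit 224) (nat_lit 200)) (XT.lf (nat_lit 0) (nat_lit 8812545053) (nat_lit 228) (nat_lit 3514239131) (nat_lit 76) (nat_lit 8919945009) (nat_lit 12) (nat_lit 5) (nat_lit 15) (nat_lit 5) (nat_lit 13) (nat_lit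 4) (nat_lit 237) (nat_lit 224) (nat_lit 199))) (XT.nd (nat_lit 78) (nat_lit 76) (nat_lit 0) (XT.lf (nat_lit 0) (nat_lit 7700577221) (nat_lit 76) (nat_lit 6370852795) (nat_lit 152) (nat_lit 9297425807) (nat_lit 11) (nat_lit 5) (nat_lit 12) (nat_lit 5) (nat_lit 13) (nat_lit 4) (nat_lit 238) (nat_lit 224) (nat_lit 198)) (XT.nd (nat_lit 78) (nat_lit 76) (nat_lit 0) (XT.lf (nat_lit 0) (nat_lit 20279015148) (nat_lit 152) (nat_lit 4908144641) (nat_lit 0) (nat_lit 598309490) (nat_lit 11) (nat_lit 5) (nat_lit 13) (nat_lit 4) (nat_lit 11) (nat_lit 4) (nat_lit 239) (nat_lit 224) (nat_lit 197)) (XT.lf (nat_lit 0) (nat_lit 7776323006) (nat_lit 76) (nat_lit 20221232235) (nat_lit 76) (nat_lit 480175583) (nat_lit 10) (nat_lit 4) (nat_lit 11) (nat_lit 5) (nat_lit 11) (nat_lit 4) (nat_lit 240) (nat_lit 224) (nat_lit 196)))))) (XT.nd (nat_lit 312) (nat_lit 228) (nat_lit 0) (XT.nd (nat_lit 156) (nat_lit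 0) (nat_lit 0) (XT.nd (nat_lit 78) (nat_lit 76) (nat_lit 0) (XT.lf (nat_lit 0) (nat_lit 5052118455) (nat_lit 152) (nat_lit 8931481099) (nat_lit 76) (nat_lit 17523821738) (nat_lit 9) (nat_lit 5) (nat_lit 11) (nat_lit 5) (nat_lit 10) (nat_lit 4) (nat_lit 241) (nat_lit 224) (nat_lit 195)) (XT.lf (nat_lit 0) (nat_lit 4952856818) (nat_lit 76) (nat_lit 6578318353) (nat_lit 152) (nat_lit 23432133011) (nat_lit 8) (nat_lit 5) (nat_lit 9) (nat_lit 5) (nat_lit 10) (nat_lit 4) (nat_lit 242) (nat_lit 224) (nat_lit 194))) (XT.nd (nat_lit 78) (nat_lit 0) (nat_lit 0) (XT.lf (nat_lit 0) (nat_lit 19513565092) (nat_lit 152) (nat_lit 17116758151) (nat_lit 0) (nat_lit 2227607214) (nat_lit 8) (nat_lit 5) (nat_lit 10) (nat_lit 4) (nat_lit 8) (nat_lit 4) (nat_lit 243) (nat_lit 224) (nat_lit 193)) (XT.lf (nat_lit 0) (nat_lit 28973637605) (nat_lit 152) (nat_lit 2663449196) (nat_lit 0) (nat_lit 11657674616) (nat_lit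 8) (nat_lit 5) (nat_lit 10) (nat_lit 4) (nat_lit 8) (nat_lit 4) (nat_lit 244) (nat_lit 224) (nat_lit 192)))) (XT.nd (nat_lit 156) (nat_lit 152) (nat_lit 0) (XT.nd (nat_lit 78) (nat_lit 0) (nat_lit 0) (XT.lf (nat_lit 0) (nat_lit 15263515459) (nat_lit 76) (nat_lit 25192601116) (nat_lit 76) (nat_lit 7850546727) (nat_lit 7) (nat_lit 4) (nat_lit 8) (nat_lit 5) (nat_lit 8) (nat_lit 4) (nat_lit 245) (nat_lit 224) (nat_lit 191)) (XT.lf (nat_lit 0) (nat_lit 36128074226) (nat_lit 76) (nat_lit 17645116812) (nat_lit 76) (nat_lit 280374249) (nat_lit 7) (nat_lit 4) (nat_lit 8) (nat_lit 5) (nat_lit 8) (nat_lit 4) (nat_lit 246) (nat_lit 224) (nat_lit 190))) (XT.nd (nat_lit 78) (nat_lit 76) (nat_lit 0) (XT.lf (nat_lit 0) (nat_lit 7650606983) (nat_lit 152) (nat_lit 935666397) (nat_lit 76) (nat_lit 52027630029) (nat_lit 6) (nat_lit 5) (nat_lit 8) (nat_lit 5) (nat_lit 7) (nat_lit 4) (nat_lit 247) (nat_lit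 224) (nat_lit 189)) (XT.nd (nat_lit 78) (nat_lit 0) (nat_lit 0) (XT.lf (nat_lit 0) (nat_lit 17680060312) (nat_lit 152) (nat_lit 47787420772) (nat_lit 0) (nat_lit 2548210808) (nat_lit 5) (nat_lit 5) (nat_lit 7) (nat_lit 4) (nat_lit 5) (nat_lit 4) (nat_lit 248) (nat_lit 224) (nat_lit 188)) (XT.lf (nat_lit 0) (nat_lit 29653045938) (nat_lit 152) (nat_lit 32300638820) (nat_lit 0) (nat_lit 14508224396) (nat_lit 5) (nat_lit 5) (nat_lit 7) (nat_lit 4) (nat_lit 5) (nat_lit 4) (nat_lit 249) (nat_lit 224) (nat_lit 187))))))) (XT.nd (nat_lit 702) (nat_lit 0) (nat_lit 0) (XT.nd (nat_lit 312) (nat_lit 152) (nat_lit 0) (XT.nd (nat_lit 156) (nat_lit 0) (nat_lit 0) (XT.nd (nat_lit 78) (nat_lit 76) (nat_lit 0) (XT.lf (nat_lit 0) (nat_lit 43403723114) (nat_lit 152) (nat_lit 14526476843) (nat_lit 0) (nat_lit 28247621539) (nat_lit 5) (nat_lit 5) (nat_lit 7) (nat_lit 4) (nat_lit 5) (nat_lit 4) (nat_lit 250)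 (nat_lit 224) (nat_lit 186)) (XT.lf (nat_lit 0) (nat_lit 6457732506) (nat_lit 76) (nat_lit 53010795253) (nat_lit 76) (nat_lit 37844884955) (nat_lit 4) (nat_lit 4) (nat_lit 5) (nat_lit 5) (nat_lit 5) (nat_lit 4) (nat_lit 251) (nat_lit 224) (nat_lit 185))) (XT.nd (nat_lit 78) (nat_lit 0) (nat_lit 0) (XT.lf (nat_lit 0) (nat_lit 32192570827) (nat_lit 76) (nat_lit 46494791596) (nat_lit 76) (nat_lit 31320351973) (nat_lit 4) (nat_lit 4) (nat_lit 5) (nat_lit 5) (nat_lit 5) (nat_lit 4) (nat_lit 252) (nat_lit 224) (nat_lit 184)) (XT.lf (nat_lit 0) (nat_lit 61761912862) (nat_lit 76) (nat_lit 39014040522) (nat_lit 76) (nat_lit 23832184095) (nat_lit 4) (nat_lit 4) (nat_lit 5) (nat_lit 5) (nat_lit 5) (nat_lit 4) (nat_lit 253) (nat_lit 224) (nat_lit 183)))) (XT.nd (nat_lit 156) (nat_lit 152) (nat_lit 0) (XT.nd (nat_lit 78) (nat_lit 0) (nat_lit 0) (XT.lf (nat_lit 0) (nat_lit 95744289214) (nat_lit 76)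 (nat_lit 30422179510) (nat_lit 76) (nat_lit 15233873687) (nat_lit 4) (nat_lit 4) (nat_lit 5) (nat_lit 5) (nat_lit 5) (nat_lit 4) (nat_lit 254) (nat_lit 224) (nat_lit 182)) (XT.lf (nat_lit 0) (nat_lit 134804572466) (nat_lit 76) (nat_lit 20551106930) (nat_lit 76) (nat_lit 5357192937) (nat_lit 4) (nat_lit 4) (nat_lit 5) (nat_lit 5) (nat_lit 5) (nat_lit 4) (nat_lit 255) (nat_lit 224) (nat_lit 181))) (XT.nd (nat_lit 78) (nat_lit 76) (nat_lit 0) (XT.lf (nat_lit 0) (nat_lit 5457728626) (nat_lit 152) (nat_lit 3464674115) (nat_lit 76) (nat_lit 173963966563) (nat_lit 3) (nat_lit 5) (nat_lit 5) (nat_lit 5) (nat_lit 4) (nat_lit 4) (nat_lit 256) (nat_lit 224) (nat_lit 180)) (XT.nd (nat_lit 78) (nat_lit 0) (nat_lit 0) (XT.lf (nat_lit 0) (nat_lit 18585885345) (nat_lit 152) (nat_lit 184209968780) (nat_lit 0) (nat_lit 5365858177) (nat_lit 2) (nat_lit 5) (nat_lit 4) (nat_lit 4) (nat_lit 2) (nat_lit 4)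 (nat_lit 257) (nat_lit 224) (nat_lit 179)) (XT.lf (nat_lit 0) (nat_lit 34290143678) (nat_lit 152) (nat_lit 181780278172) (nat_lit 0) (nat_lit 21066910020) (nat_lit 2) (nat_lit 5) (nat_lit 4) (nat_lit 4) (nat_lit 2) (nat_lit 4) (nat_lit 258) (nat_lit 224) (nat_lit 178)))))) (XT.nd (nat_lit 312) (nat_lit 0) (nat_lit 0) (XT.nd (nat_lit 156) (nat_lit 0) (nat_lit 0) (XT.nd (nat_lit 78) (nat_lit 0) (nat_lit 0) (XT.lf (nat_lit 0) (nat_lit 52343318699) (nat_lit 152) (nat_lit 178999693137) (nat_lit 0) (nat_lit 39117296790) (nat_lit 2) (nat_lit 5) (nat_lit 4) (nat_lit 4) (nat_lit 2) (nat_lit 4) (nat_lit 259) (nat_lit 224) (nat_lit 177)) (XT.lf (nat_lit 0) (nat_lit 73098624703) (nat_lit 152) (nat_lit 175813810924) (nat_lit 0) (nat_lit 59870178227) (nat_lit 2) (nat_lit 5) (nat_lit 4) (nat_lit 4) (nat_lit 2) (nat_lit 4) (nat_lit 260) (nat_lit 224) (nat_lit 176))) (XT.nd (nat_lit 78) (nat_lit 0) (nat_lit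 0) (XT.lf (nat_lit 0) (nat_lit 96962143763) (nat_lit 152) (nat_lit 172160299055) (nat_lit 0) (nat_lit 83731588969) (nat_lit 2) (nat_lit 5) (nat_lit 4) (nat_lit 4) (nat_lit 2) (nat_lit 4) (nat_lit 261) (nat_lit 224) (nat_lit 175)) (XT.lf (nat_lit 0) (nat_lit 124400770819) (nat_lit 152) (nat_lit 167967675776) (nat_lit 0) (nat_lit 111168382703) (nat_lit 2) (nat_lit 5) (nat_lit 4) (nat_lit 4) (nat_lit 2) (nat_lit 4) (nat_lit 262) (nat_lit 224) (nat_lit 174)))) (XT.nd (nat_lit 156) (nat_lit 0) (nat_lit 0) (XT.nd (nat_lit 78) (nat_lit 0) (nat_lit 0) (XT.lf (nat_lit 0) (nat_lit 155951348572) (nat_lit 152) (nat_lit 163153911501) (nat_lit 0) (nat_lit 142717366265) (nat_lit 2) (nat_lit 5) (nat_lit 4) (nat_lit 4) (nat_lit 2) (nat_lit 4) (nat_lit 263) (nat_lit 224) (nat_lit 173)) (XT.lf (nat_lit 0) (nat_lit 192231170936) (nat_lit 152) (nat_lit 157624823886) (nat_lit 0) (nat_lit 178995802375) (nat_lit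 2) (nat_lit 5) (nat_lit 4) (nat_lit 4) (nat_lit 2) (nat_lit 4) (nat_lit 264) (nat_lit 224) (nat_lit 172))) (XT.nd (nat_lit 78) (nat_lit 0) (nat_lit 0) (XT.lf (nat_lit 0) (nat_lit 233950060521) (nat_lit 152) (nat_lit 151272235129) (nat_lit 0) (nat_lit 220713486523) (nat_lit 2) (nat_lit 5) (nat_lit 4) (nat_lit 4) (nat_lit 2) (nat_lit 4) (nat_lit 265) (nat_lit 224) (nat_lit 171)) (XT.nd (nat_lit 78) (nat_lit 0) (nat_lit 0) (XT.lf (nat_lit 0) (nat_lit 281924256473) (nat_lit 152) (nat_lit 143971855450) (nat_lit 0) (nat_lit 268686634268) (nat_lit 2) (nat_lit 5) (nat_lit 4) (nat_lit 4) (nat_lit 2) (nat_lit 4) (nat_lit 266) (nat_lit 224) (nat_lit 170)) (XT.lf (nat_lit 0) (nat_lit 337092384365) (nat_lit 152) (nat_lit 135580851334) (nat_lit 0) (nat_lit 323853850674) (nat_lit 2) (nat_lit 5) (nat_lit 4) (nat_lit 4) (nat_lit 2) (nat_lit 4) (nat_lit 267) (nat_lit 224) (nat_lit 169))))))))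
noncomputable def xc59 : XT := (XT.nd (nat_lit 1404) (nat_lit 0) (nat_lit 0) (XT.nd (nat_lit 702) (nat_lit 0) (nat_lit 0) (XT.nd (nat_lit 312) (nat_lit 76) (nat_lit 0) (XT.nd (nat_lit 156) (nat_lit 0) (nat_lit 0) (XT.nd (nat_lit 78) (nat_lit 0) (nat_lit 0) (XT.lf (nat_lit 0) (nat_lit 400533820610) (nat_lit 152) (nat_lit 125935050962) (nat_lit 0) (nat_lit 387294494325) (nat_lit 2) (nat_lit 5) (nat_lit 4) (nat_lit 4) (nat_lit 2) (nat_lit 4) (nat_lit 268) (nat_lit 224) (nat_lit 168)) (XT.lf (nat_lit 0) (nat_lit 473489810702) (nat_lit 152) (nat_lit 114845732152) (nat_lit 0) (nat_lit 460249795203) (nat_lit 2) (nat_lit 5) (nat_lit 4) (nat_lit 4) (nat_lit 2) (nat_lit 4) (nat_lit 269) (nat_lit 224) (nat_lit 167))) (XT.nd (nat_lit 78) (nat_lit 0) (nat_lit 0) (XT.lf (nat_lit 0) (nat_lit 557387754446) (nat_lit 152) (nat_lit 102095929970) (nat_lit 0) (nat_lit 544147139631) (nat_lit 2) (nat_lit 5)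 (nat_lit 4) (nat_lit 4) (nat_lit 2) (nat_lit 4) (nat_lit 270) (nat_lit 224) (nat_lit 166)) (XT.lf (nat_lit 0) (nat_lit 653869133350) (nat_lit 152) (nat_lit 87436191766) (nat_lit 0) (nat_lit 640627997391) (nat_lit 2) (nat_lit 5) (nat_lit 4) (nat_lit 4) (nat_lit 2) (nat_lit 4) (nat_lit 271) (nat_lit 224) (nat_lit 165)))) (XT.nd (nat_lit 156) (nat_lit 76) (nat_lit 0) (XT.nd (nat_lit 78) (nat_lit 0) (nat_lit 0) (XT.lf (nat_lit 0) (nat_lit 764821626567) (nat_lit 152) (nat_lit 70579696575) (nat_lit 0) (nat_lit 751580037439) (nat_lit 2) (nat_lit 5) (nat_lit 4) (nat_lit 4) (nat_lit 2) (nat_lit 4) (nat_lit 272) (nat_lit 224) (nat_lit 164)) (XT.lf (nat_lit 0) (nat_lit 892416043746) (nat_lit 152) (nat_lit 51196643403) (nat_lit 0) (nat_lit 879174060559) (nat_lit 2) (nat_lit 5) (nat_lit 4) (nat_lit 4) (nat_lit 2) (nat_lit 4) (nat_lit 273) (nat_lit 224) (nat_lit 163))) (XT.nd (nat_lit 78) (nat_lit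 76) (nat_lit 0) (XT.lf (nat_lit 0) (nat_lit 1039148797398) (nat_lit 152) (nat_lit 28907798602) (nat_lit 0) (nat_lit 1025906471551) (nat_lit 2) (nat_lit 5) (nat_lit 4) (nat_lit 4) (nat_lit 2) (nat_lit 4) (nat_lit 274) (nat_lit 224) (nat_lit 162)) (XT.nd (nat_lit 78) (nat_lit 76) (nat_lit 0) (XT.lf (nat_lit 0) (nat_lit 1207890745747) (nat_lit 152) (nat_lit 3277076078) (nat_lit 0) (nat_lit 1194648121933) (nat_lit 2) (nat_lit 5) (nat_lit 4) (nat_lit 4) (nat_lit 2) (nat_lit 4) (nat_lit 275) (nat_lit 224) (nat_lit 161)) (XT.lf (nat_lit 0) (nat_lit 28757155685) (nat_lit 76) (nat_lit 1374376978501) (nat_lit 76) (nat_lit 1361134095587) (nat_lit 1) (nat_lit 4) (nat_lit 2) (nat_lit 5) (nat_lit 2) (nat_lit 4) (nat_lit 276) (nat_lit 224) (nat_lit 160)))))) (XT.nd (nat_lit 312) (nat_lit 0) (nat_lit 0) (XT.nd (nat_lit 156) (nat_lit 0) (nat_lit 0) (XT.nd (nat_lit 78) (nat_lit 0) (nat_lit 0) (XT.lf (nat_lit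 0) (nat_lit 65963618152) (nat_lit 76) (nat_lit 1561871121464) (nat_lit 76) (nat_lit 1548628013245) (nat_lit 1) (nat_lit 4) (nat_lit 2) (nat_lit 5) (nat_lit 2) (nat_lit 4) (nat_lit 277) (nat_lit 224) (nat_lit 159)) (XT.lf (nat_lit 0) (nat_lit 108750004142) (nat_lit 76) (nat_lit 1777489916086) (nat_lit 76) (nat_lit 1764246611949) (nat_lit 1) (nat_lit 4) (nat_lit 2) (nat_lit 5) (nat_lit 2) (nat_lit 4) (nat_lit 278) (nat_lit 224) (nat_lit 158))) (XT.nd (nat_lit 78) (nat_lit 0) (nat_lit 0) (XT.lf (nat_lit 0) (nat_lit 157953438597) (nat_lit 76) (nat_lit 2025451990955) (nat_lit 76) (nat_lit 2012208516455) (nat_lit 1) (nat_lit 4) (nat_lit 2) (nat_lit 5) (nat_lit 2) (nat_lit 4) (nat_lit 279) (nat_lit 224) (nat_lit 157)) (XT.lf (nat_lit 0) (nat_lit 214536597410) (nat_lit 76) (nat_lit 2310608777972) (nat_lit 76) (nat_lit 2297365155331) (nat_lit 1) (nat_lit 4) (nat_lit 2) (nat_lit 5) (nat_lit 2)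 (nat_lit 4) (nat_lit 280) (nat_lit 224) (nat_lit 156)))) (XT.nd (nat_lit 156) (nat_lit 0) (nat_lit 0) (XT.nd (nat_lit 78) (nat_lit 0) (nat_lit 0) (XT.lf (nat_lit 0) (nat_lit 279606542383) (nat_lit 76) (nat_lit 2638539431666) (nat_lit 76) (nat_lit 2625295680206) (nat_lit 1) (nat_lit 4) (nat_lit 2) (nat_lit 5) (nat_lit 2) (nat_lit 4) (nat_lit 281) (nat_lit 224) (nat_lit 155)) (XT.lf (nat_lit 0) (nat_lit 354436381135) (nat_lit 76) (nat_lit 3015659986566) (nat_lit 76) (nat_lit 3002416123089) (nat_lit 1) (nat_lit 4) (nat_lit 2) (nat_lit 5) (nat_lit 2) (nat_lit 4) (nat_lit 282) (nat_lit 224) (nat_lit 154))) (XT.nd (nat_lit 78) (nat_lit 0) (nat_lit 0) (XT.lf (nat_lit 0) (nat_lit 440490175729) (nat_lit 76) (nat_lit 3449348888310) (nat_lit 76) (nat_lit 3436104927428) (nat_lit 1) (nat_lit 4) (nat_lit 2) (nat_lit 5) (nat_lit 2) (nat_lit 4) (nat_lit 283) (nat_lit 224) (nat_lit 153)) (XT.nd (nat_lit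 78) (nat_lit 0) (nat_lit 0) (XT.lf (nat_lit 0) (nat_lit 539451587363) (nat_lit 76) (nat_lit 3948091354542) (nat_lit 76) (nat_lit 3934847308959) (nat_lit 1) (nat_lit 4) (nat_lit 2) (nat_lit 5) (nat_lit 2) (nat_lit 4) (nat_lit 284) (nat_lit 224) (nat_lit 152)) (XT.lf (nat_lit 0) (nat_lit 653256817570) (nat_lit 76) (nat_lit 4521645390035) (nat_lit 76) (nat_lit 4508401270800) (nat_lit 1) (nat_lit 4) (nat_lit 2) (nat_lit 5) (nat_lit 2) (nat_lit 4) (nat_lit 285) (nat_lit 224) (nat_lit 151))))))) (XT.nd (nat_lit 702) (nat_lit 0) (nat_lit 0) (XT.nd (nat_lit 312) (nat_lit 0) (nat_lit 0) (XT.nd (nat_lit 156) (nat_lit 0) (nat_lit 0) (XT.nd (nat_lit 78) (nat_lit 0) (nat_lit 0) (XT.lf (nat_lit 0) (nat_lit 784132490418) (nat_lit 76) (nat_lit 5181232704180) (nat_lit 76) (nat_lit 5167988520899) (nat_lit 1) (nat_lit 4) (nat_lit 2) (nat_lit 5) (nat_lit 2) (nat_lit 4) (nat_lit 286) (nat_lit 224) (nat_lit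 150)) (XT.lf (nat_lit 0) (nat_lit 934639216898) (nat_lit 76) (nat_lit 5939758266167) (nat_lit 76) (nat_lit 5926514027194) (nat_lit 1) (nat_lit 4) (nat_lit 2) (nat_lit 5) (nat_lit 2) (nat_lit 4) (nat_lit 287) (nat_lit 224) (nat_lit 149))) (XT.nd (nat_lit 78) (nat_lit 0) (nat_lit 0) (XT.lf (nat_lit 0) (nat_lit 1107721693833) (nat_lit 76) (nat_lit 6812062793512) (nat_lit 76) (nat_lit 6798818506111) (nat_lit 1) (nat_lit 4) (nat_lit 2) (nat_lit 5) (nat_lit 2) (nat_lit 4) (nat_lit 288) (nat_lit 224) (nat_lit 148)) (XT.lf (nat_lit 0) (nat_lit 1306766317510) (nat_lit 76) (nat_lit 7815213113925) (nat_lit 76) (nat_lit 7801968784413) (nat_lit 1) (nat_lit 4) (nat_lit 2) (nat_lit 5) (nat_lit 2) (nat_lit 4) (nat_lit 289) (nat_lit 224) (nat_lit 147)))) (XT.nd (nat_lit 156) (nat_lit 0) (nat_lit 0) (XT.nd (nat_lit 78) (nat_lit 0) (nat_lit 0) (XT.lf (nat_lit 0) (nat_lit 1535667439262) (nat_lit 76) (nat_lit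 8968836081500) (nat_lit 76) (nat_lit 8955591715370) (nat_lit 1) (nat_lit 4) (nat_lit 2) (nat_lit 5) (nat_lit 2) (nat_lit 4) (nat_lit 290) (nat_lit 224) (nat_lit 146)) (XT.lf (nat_lit 0) (nat_lit 1798903559297) (nat_lit 76) (nat_lit 10295502580386) (nat_lit 76) (nat_lit 10282258182414) (nat_lit 1) (nat_lit 4) (nat_lit 2) (nat_lit 5) (nat_lit 2) (nat_lit 4) (nat_lit 291) (nat_lit 224) (nat_lit 145))) (XT.nd (nat_lit 78) (nat_lit 0) (nat_lit 0) (XT.lf (nat_lit 0) (nat_lit 2101624949530) (nat_lit 76) (nat_lit 11821169129040) (nat_lit 76) (nat_lit 11807924703379) (nat_lit 1) (nat_lit 4) (nat_lit 2) (nat_lit 5) (nat_lit 2) (nat_lit 4) (nat_lit 292) (nat_lit 224) (nat_lit 144)) (XT.nd (nat_lit 78) (nat_lit 0) (nat_lit 0) (XT.lf (nat_lit 0) (nat_lit 2449754419769) (nat_lit 76) (nat_lit 13575685725152) (nat_lit 76) (nat_lit 13562441275413) (nat_lit 1) (nat_lit 4) (nat_lit 2) (nat_lit 5) (nat_lit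 2) (nat_lit 4) (nat_lit 293) (nat_lit 224) (nat_lit 143)) (XT.lf (nat_lit 0) (nat_lit 2850103198779) (nat_lit 76) (nat_lit 15593379867341) (nat_lit 76) (nat_lit 15580135396666) (nat_lit 1) (nat_lit 4) (nat_lit 2) (nat_lit 5) (nat_lit 2) (nat_lit 4) (nat_lit 294) (nat_lit 224) (nat_lit 142)))))) (XT.nd (nat_lit 312) (nat_lit 0) (nat_lit 0) (XT.nd (nat_lit 156) (nat_lit 0) (nat_lit 0) (XT.nd (nat_lit 78) (nat_lit 0) (nat_lit 0) (XT.lf (nat_lit 0) (nat_lit 3310504197454) (nat_lit 76) (nat_lit 17913728180130) (nat_lit 76) (nat_lit 17900483691249) (nat_lit 1) (nat_lit 4) (nat_lit 2) (nat_lit 5) (nat_lit 2) (nat_lit 4) (nat_lit 295) (nat_lit 224) (nat_lit 141)) (XT.lf (nat_lit 0) (nat_lit 3839965261421) (nat_lit 76) (nat_lit 20582128782681) (nat_lit 76) (nat_lit 20568884277969) (nat_lit 1) (nat_lit 4) (nat_lit 2) (nat_lit 5) (nat_lit 2) (nat_lit 4) (nat_lit 296) (nat_lit 224) (nat_lit 140)))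 (XT.nd (nat_lit 78) (nat_lit 0) (nat_lit 0) (XT.lf (nat_lit 0) (nat_lit 4448845411496) (nat_lit 76) (nat_lit 23650789512871) (nat_lit 76) (nat_lit 23637544994393) (nat_lit 1) (nat_lit 4) (nat_lit 2) (nat_lit 5) (nat_lit 2) (nat_lit 4) (nat_lit 297) (nat_lit 224) (nat_lit 139)) (XT.lf (nat_lit 0) (nat_lit 5149057520180) (nat_lit 76) (nat_lit 27179749384985) (nat_lit 76) (nat_lit 27166504854536) (nat_lit 1) (nat_lit 4) (nat_lit 2) (nat_lit 5) (nat_lit 2) (nat_lit 4) (nat_lit 298) (nat_lit 224) (nat_lit 138)))) (XT.nd (nat_lit 28626) (nat_lit 0) (nat_lit 1824) (XT.nd (nat_lit 78) (nat_lit 0) (nat_lit 0) (XT.lf (nat_lit 0) (nat_lit 5954301389601) (nat_lit 76) (nat_lit 31238053266086) (nat_lit 76) (nat_lit 31224808725228) (nat_lit 1) (nat_lit 4) (nat_lit 2) (nat_lit 5) (nat_lit 2) (nat_lit 4) (nat_lit 299) (nat_lit 224) (nat_lit 137)) (XT.lf (nat_lit 0) (nat_lit 6880331791116) (nat_lit 76)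 (nat_lit 35905102753849) (nat_lit 76) (nat_lit 35891858203940) (nat_lit 1) (nat_lit 4) (nat_lit 2) (nat_lit 5) (nat_lit 2) (nat_lit 4) (nat_lit 300) (nat_lit 224) (nat_lit 136))) (XT.nd (nat_lit 78) (nat_lit 0) (nat_lit 0) (XT.lf (nat_lit 0) (nat_lit 1299764910) (nat_lit 0) (nat_lit 1299764910) (nat_lit 228) (nat_lit 1820817096) (nat_lit 25) (nat_lit 5) (nat_lit 25) (nat_lit 3) (nat_lit 28) (nat_lit 3) (nat_lit 225) (nat_lit 225) (nat_lit 210)) (XT.nd (nat_lit 78) (nat_lit 0) (nat_lit 0) (XT.lf (nat_lit 0) (nat_lit 6454681430) (nat_lit 228) (nat_lit 2178008055) (nat_lit 304) (nat_lit 736090181) (nat_lit 25) (nat_lit 5) (nat_lit 28) (nat_lit 3) (nat_lit 29) (nat_lit 5) (nat_lit 226) (nat_lit 225) (nat_lit 209)) (XT.lf (nat_lit 76) (nat_lit 2492430800) (nat_lit 0) (nat_lit 5488094629) (nat_lit 304) (nat_lit 1984181374) (nat_lit 26) (nat_lit 5) (nat_lit 25) (nat_lit 5) (nat_lit 29) (nat_lit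 5) (nat_lit 227) (nat_lit 225) (nat_lit 208))))))))
noncomputable def xc60 : XT := (XT.nd (nat_lit 1404) (nat_lit 456) (nat_lit 0) (XT.nd (nat_lit 702) (nat_lit 456) (nat_lit 0) (XT.nd (nat_lit 312) (nat_lit 304) (nat_lit 0) (XT.nd (nat_lit 156) (nat_lit 304) (nat_lit 0) (XT.nd (nat_lit 78) (nat_lit 228) (nat_lit 0) (XT.lf (nat_lit 76) (nat_lit 8012476045) (nat_lit 0) (nat_lit 1706469641) (nat_lit 304) (nat_lit 934313922) (nat_lit 26) (nat_lit 5) (nat_lit 25) (nat_lit 5) (nat_lit 29) (nat_lit 5) (nat_lit 228) (nat_lit 225) (nat_lit 207)) (XT.lf (nat_lit 0) (nat_lit 374215315) (nat_lit 304) (nat_lit 8476632020) (nat_lit 76) (nat_lit 2574327307) (nat_lit 22) (nat_lit 5) (nat_lit 26) (nat_lit 5) (nat_lit 23) (nat_lit 5) (nat_lit 229) (nat_lit 225) (nat_lit 206))) (XT.nd (nat_lit 78) (nat_lit 304) (nat_lit 0) (XT.lf (nat_lit 0) (nat_lit 1902497369) (nat_lit 304) (nat_lit 2859902883) (nat_lit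 76) (nat_lit 7526454053) (nat_lit 22) (nat_lit 5) (nat_lit 26) (nat_lit 5) (nat_lit 23) (nat_lit 5) (nat_lit 230) (nat_lit 225) (nat_lit 205)) (XT.lf (nat_lit 0) (nat_lit 3731530621) (nat_lit 380) (nat_lit 9430019744) (nat_lit 76) (nat_lit 110261786) (nat_lit 18) (nat_lit 5) (nat_lit 23) (nat_lit 5) (nat_lit 19) (nat_lit 5) (nat_lit 231) (nat_lit 225) (nat_lit 204)))) (XT.nd (nat_lit 156) (nat_lit 152) (nat_lit 0) (XT.nd (nat_lit 78) (nat_lit 152) (nat_lit 0) (XT.lf (nat_lit 0) (nat_lit 6133639500) (nat_lit 380) (nat_lit 2846390296) (nat_lit 76) (nat_lit 5377769321) (nat_lit 18) (nat_lit 5) (nat_lit 23) (nat_lit 5) (nat_lit 19) (nat_lit 5) (nat_lit 232) (nat_lit 225) (nat_lit 203)) (XT.lf (nat_lit 0) (nat_lit 5088341941) (nat_lit 152) (nat_lit 3944790547) (nat_lit 228) (nat_lit 6553333678) (nat_lit 16) (nat_lit 5) (nat_lit 18) (nat_lit 5) (nat_lit 19) (nat_lit 5) (nat_lit 233) (nat_lit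 225) (nat_lit 202))) (XT.nd (nat_lit 78) (nat_lit 152) (nat_lit 0) (XT.lf (nat_lit 0) (nat_lit 12531552482) (nat_lit 228) (nat_lit 2622518188) (nat_lit 76) (nat_lit 1821059716) (nat_lit 16) (nat_lit 5) (nat_lit 19) (nat_lit 5) (nat_lit 17) (nat_lit 4) (nat_lit 234) (nat_lit 225) (nat_lit 201)) (XT.nd (nat_lit 78) (nat_lit 76) (nat_lit 0) (XT.lf (nat_lit 0) (nat_lit 6766294744) (nat_lit 76) (nat_lit 10197075621) (nat_lit 152) (nat_lit 1547687395) (nat_lit 15) (nat_lit 5) (nat_lit 16) (nat_lit 5) (nat_lit 17) (nat_lit 4) (nat_lit 235) (nat_lit 225) (nat_lit 200)) (XT.lf (nat_lit 0) (nat_lit 1709771663) (nat_lit 152) (nat_lit 2563736484) (nat_lit 76) (nat_lit 15980107311) (nat_lit 14) (nat_lit 5) (nat_lit 16) (nat_lit 5) (nat_lit 15) (nat_lit 5) (nat_lit 236) (nat_lit 225) (nat_lit 199)))))) (XT.nd (nat_lit 312) (nat_lit 228) (nat_lit 0) (XT.nd (nat_lit 156) (nat_lit 76) (nat_lit 0) (XT.nd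 (nat_lit 78) (nat_lit 0) (nat_lit 0) (XT.lf (nat_lit 0) (nat_lit 5728518547) (nat_lit 228) (nat_lit 13711418355) (nat_lit 76) (nat_lit 2742066733) (nat_lit 12) (nat_lit 5) (nat_lit 15) (nat_lit 5) (nat_lit 13) (nat_lit 4) (nat_lit 237) (nat_lit 225) (nat_lit 198)) (XT.lf (nat_lit 0) (nat_lit 10646422582) (nat_lit 228) (nat_lit 3217738871) (nat_lit 76) (nat_lit 10491184763) (nat_lit 12) (nat_lit 5) (nat_lit 15) (nat_lit 5) (nat_lit 13) (nat_lit 4) (nat_lit 238) (nat_lit 225) (nat_lit 197))) (XT.nd (nat_lit 78) (nat_lit 0) (nat_lit 0) (XT.lf (nat_lit 0) (nat_lit 9641861928) (nat_lit 76) (nat_lit 7018051092) (nat_lit 152) (nat_lit 10141220692) (nat_lit 11) (nat_lit 5) (nat_lit 12) (nat_lit 5) (nat_lit 13) (nat_lit 4) (nat_lit 239) (nat_lit 225) (nat_lit 196)) (XT.lf (nat_lit 0) (nat_lit 23747423868) (nat_lit 152) (nat_lit 4908299211) (nat_lit 0) (nat_lit 932378596) (nat_lit 11) (nat_lit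 5) (nat_lit 13) (nat_lit 4) (nat_lit 11) (nat_lit 4) (nat_lit 240) (nat_lit 225) (nat_lit 195)))) (XT.nd (nat_lit 156) (nat_lit 76) (nat_lit 0) (XT.nd (nat_lit 78) (nat_lit 76) (nat_lit 0) (XT.lf (nat_lit 0) (nat_lit 9645380987) (nat_lit 76) (nat_lit 22951819752) (nat_lit 76) (nat_lit 91140459) (nat_lit 10) (nat_lit 4) (nat_lit 11) (nat_lit 5) (nat_lit 11) (nat_lit 4) (nat_lit 241) (nat_lit 225) (nat_lit 194)) (XT.lf (nat_lit 0) (nat_lit 6175166295) (nat_lit 152) (nat_lit 9623753518) (nat_lit 76) (nat_lit 20379038165) (nat_lit 9) (nat_lit 5) (nat_lit 11) (nat_lit 5) (nat_lit 10) (nat_lit 4) (nat_lit 242) (nat_lit 225) (nat_lit 193))) (XT.nd (nat_lit 78) (nat_lit 0) (nat_lit 0) (XT.lf (nat_lit 0) (nat_lit 6313805552) (nat_lit 76) (nat_lit 7290228160) (nat_lit 152) (nat_lit 26551604664) (nat_lit 8) (nat_lit 5) (nat_lit 9) (nat_lit 5) (nat_lit 10) (nat_lit 4) (nat_lit 243) (nat_lit 225)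 (nat_lit 192)) (XT.nd (nat_lit 78) (nat_lit 0) (nat_lit 0) (XT.lf (nat_lit 0) (nat_lit 22748915263) (nat_lit 152) (nat_lit 19111397271) (nat_lit 0) (nat_lit 2779461315) (nat_lit 8) (nat_lit 5) (nat_lit 10) (nat_lit 4) (nat_lit 8) (nat_lit 4) (nat_lit 244) (nat_lit 225) (nat_lit 191)) (XT.lf (nat_lit 0) (nat_lit 33587783600) (nat_lit 152) (nat_lit 2564814748) (nat_lit 0) (nat_lit 13595641477) (nat_lit 8) (nat_lit 5) (nat_lit 10) (nat_lit 4) (nat_lit 8) (nat_lit 4) (nat_lit 245) (nat_lit 225) (nat_lit 190))))))) (XT.nd (nat_lit 702) (nat_lit 152) (nat_lit 0) (XT.nd (nat_lit 312) (nat_lit 76) (nat_lit 0) (XT.nd (nat_lit 156) (nat_lit 152) (nat_lit 0) (XT.nd (nat_lit 78) (nat_lit 0) (nat_lit 0) (XT.lf (nat_lit 0) (nat_lit 18028551341) (nat_lit 76) (nat_lit 28748803259) (nat_lit 76) (nat_lit 8736932289) (nat_lit 7) (nat_lit 4) (nat_lit 8) (nat_lit 5) (nat_lit 8) (nat_lit 4) (nat_lit 246)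 (nat_lit 225) (nat_lit 189)) (XT.lf (nat_lit 0) (nat_lit 41960771067) (nat_lit 76) (nat_lit 20098242574) (nat_lit 76) (nat_lit 69216084) (nat_lit 7) (nat_lit 4) (nat_lit 8) (nat_lit 5) (nat_lit 8) (nat_lit 4) (nat_lit 247) (nat_lit 225) (nat_lit 188))) (XT.nd (nat_lit 78) (nat_lit 76) (nat_lit 0) (XT.lf (nat_lit 0) (nat_lit 8998781868) (nat_lit 152) (nat_lit 696563314) (nat_lit 76) (nat_lit 59980258421) (nat_lit 6) (nat_lit 5) (nat_lit 8) (nat_lit 5) (nat_lit 7) (nat_lit 4) (nat_lit 248) (nat_lit 225) (nat_lit 187)) (XT.lf (nat_lit 0) (nat_lit 20528642944) (nat_lit 152) (nat_lit 54571811687) (nat_lit 0) (nat_lit 3087846101) (nat_lit 5) (nat_lit 5) (nat_lit 7) (nat_lit 4) (nat_lit 5) (nat_lit 4) (nat_lit 249) (nat_lit 225) (nat_lit 186)))) (XT.nd (nat_lit 156) (nat_lit 76) (nat_lit 0) (XT.nd (nat_lit 78) (nat_lit 0) (nat_lit 0) (XT.lf (nat_lit 0) (nat_lit 34271936381) (nat_lit 152) (nat_lit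 36812063165) (nat_lit 0) (nat_lit 16821330814) (nat_lit 5) (nat_lit 5) (nat_lit 7) (nat_lit 4) (nat_lit 5) (nat_lit 4) (nat_lit 250) (nat_lit 225) (nat_lit 185)) (XT.lf (nat_lit 0) (nat_lit 50062919452) (nat_lit 152) (nat_lit 16415299258) (nat_lit 0) (nat_lit 32603784560) (nat_lit 5) (nat_lit 5) (nat_lit 7) (nat_lit 4) (nat_lit 5) (nat_lit 4) (nat_lit 251) (nat_lit 225) (nat_lit 184))) (XT.nd (nat_lit 78) (nat_lit 0) (nat_lit 0) (XT.lf (nat_lit 0) (nat_lit 7703352898) (nat_lit 76) (nat_lit 60826172692) (nat_lit 76) (nat_lit 43359620996) (nat_lit 4) (nat_lit 4) (nat_lit 5) (nat_lit 5) (nat_lit 5) (nat_lit 4) (nat_lit 252) (nat_lit 225) (nat_lit 183)) (XT.nd (nat_lit 78) (nat_lit 0) (nat_lit 0) (XT.lf (nat_lit 0) (nat_lit 37262291682) (nat_lit 76) (nat_lit 53350539163) (nat_lit 76) (nat_lit 35877538072) (nat_lit 4) (nat_lit 4) (nat_lit 5) (nat_lit 5) (nat_lit 5) (nat_lit 4) (nat_lit 253)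 (nat_lit 225) (nat_lit 182)) (XT.lf (nat_lit 0) (nat_lit 71235621731) (nat_lit 76) (nat_lit 44763128190) (nat_lit 76) (nat_lit 27284518929) (nat_lit 4) (nat_lit 4) (nat_lit 5) (nat_lit 5) (nat_lit 5) (nat_lit 4) (nat_lit 254) (nat_lit 225) (nat_lit 181)))))) (XT.nd (nat_lit 312) (nat_lit 0) (nat_lit 0) (XT.nd (nat_lit 156) (nat_lit 152) (nat_lit 0) (XT.nd (nat_lit 78) (nat_lit 0) (nat_lit 0) (XT.lf (nat_lit 0) (nat_lit 110288038631) (nat_lit 76) (nat_lit 34895925209) (nat_lit 76) (nat_lit 17412439279) (nat_lit 4) (nat_lit 4) (nat_lit 5) (nat_lit 5) (nat_lit 5) (nat_lit 4) (nat_lit 255) (nat_lit 225) (nat_lit 180)) (XT.lf (nat_lit 0) (nat_lit 155183611409) (nat_lit 76) (nat_lit 23555876250) (nat_lit 76) (nat_lit 6068149738) (nat_lit 4) (nat_lit 4) (nat_lit 5) (nat_lit 5) (nat_lit 5) (nat_lit 4) (nat_lit 256) (nat_lit 225) (nat_lit 179))) (XT.nd (nat_lit 78) (nat_lit 76) (nat_lit 0) (XT.lf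 (nat_lit 0) (nat_lit 6349758595) (nat_lit 152) (nat_lit 3839432994) (nat_lit 76) (nat_lit 200119053912) (nat_lit 3) (nat_lit 5) (nat_lit 5) (nat_lit 5) (nat_lit 4) (nat_lit 4) (nat_lit 257) (nat_lit 225) (nat_lit 178)) (XT.lf (nat_lit 0) (nat_lit 21446147550) (nat_lit 152) (nat_lit 211695466588) (nat_lit 0) (nat_lit 6233434102) (nat_lit 2) (nat_lit 5) (nat_lit 4) (nat_lit 4) (nat_lit 2) (nat_lit 4) (nat_lit 258) (nat_lit 225) (nat_lit 177)))) (XT.nd (nat_lit 156) (nat_lit 0) (nat_lit 0) (XT.nd (nat_lit 78) (nat_lit 0) (nat_lit 0) (XT.lf (nat_lit 0) (nat_lit 39496603840) (nat_lit 152) (nat_lit 208920365543) (nat_lit 0) (nat_lit 24281465827) (nat_lit 2) (nat_lit 5) (nat_lit 4) (nat_lit 4) (nat_lit 2) (nat_lit 4) (nat_lit 259) (nat_lit 225) (nat_lit 176)) (XT.lf (nat_lit 0) (nat_lit 60249545731) (nat_lit 152) (nat_lit 205739252016) (nat_lit 0) (nat_lit 45032299398) (nat_lit 2) (nat_lit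 5) (nat_lit 4) (nat_lit 4) (nat_lit 2) (nat_lit 4) (nat_lit 260) (nat_lit 225) (nat_lit 175))) (XT.nd (nat_lit 78) (nat_lit 0) (nat_lit 0) (XT.lf (nat_lit 0) (nat_lit 84111009040) (nat_lit 152) (nat_lit 202089886831) (nat_lit 0) (nat_lit 68891929387) (nat_lit 2) (nat_lit 5) (nat_lit 4) (nat_lit 4) (nat_lit 2) (nat_lit 4) (nat_lit 261) (nat_lit 225) (nat_lit 174)) (XT.nd (nat_lit 78) (nat_lit 0) (nat_lit 0) (XT.lf (nat_lit 0) (nat_lit 111547848486) (nat_lit 152) (nat_lit 197900869364) (nat_lit 0) (nat_lit 96327174641) (nat_lit 2) (nat_lit 5) (nat_lit 4) (nat_lit 4) (nat_lit 2) (nat_lit 4) (nat_lit 262) (nat_lit 225) (nat_lit 173)) (XT.lf (nat_lit 0) (nat_lit 143096871796) (nat_lit 152) (nat_lit 193090240578) (nat_lit 0) (nat_lit 127874811698) (nat_lit 2) (nat_lit 5) (nat_lit 4) (nat_lit 4) (nat_lit 2) (nat_lit 4) (nat_lit 263) (nat_lit 225) (nat_lit 172))))))))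
noncomputable def xc61 : XT := (XT.nd (nat_lit 1404) (nat_lit 0) (nat_lit 0) (XT.nd (nat_lit 702) (nat_lit 76) (nat_lit 0) (XT.nd (nat_lit 312) (nat_lit 0) (nat_lit 0) (XT.nd (nat_lit 156) (nat_lit 0) (nat_lit 0) (XT.nd (nat_lit 78) (nat_lit 0) (nat_lit 0) (XT.lf (nat_lit 0) (nat_lit 179375342471) (nat_lit 152) (nat_lit 187563879474) (nat_lit 0) (nat_lit 164152076934) (nat_lit 2) (nat_lit 5) (nat_lit 4) (nat_lit 4) (nat_lit 2) (nat_lit 4) (nat_lit 264) (nat_lit 225) (nat_lit 171)) (XT.lf (nat_lit 0) (nat_lit 221093056674) (nat_lit 152) (nat_lit 181213661597) (nat_lit 0) (nat_lit 205868742930) (nat_lit 2) (nat_lit 5) (nat_lit 4) (nat_lit 4) (nat_lit 2) (nat_lit 4) (nat_lit 265) (nat_lit 225) (nat_lit 170))) (XT.nd (nat_lit 78) (nat_lit 0) (nat_lit 0) (XT.lf (nat_lit 0) (nat_lit 269066230555) (nat_lit 152) (nat_lit 173915343553) (nat_lit 0) (nat_lit 253841005327) (nat_lit 2) (nat_lit 5)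 (nat_lit 4) (nat_lit 4) (nat_lit 2) (nat_lit 4) (nat_lit 266) (nat_lit 225) (nat_lit 169)) (XT.lf (nat_lit 0) (nat_lit 324233469688) (nat_lit 152) (nat_lit 165526132164) (nat_lit 0) (nat_lit 309007451865) (nat_lit 2) (nat_lit 5) (nat_lit 4) (nat_lit 4) (nat_lit 2) (nat_lit 4) (nat_lit 267) (nat_lit 225) (nat_lit 168)))) (XT.nd (nat_lit 156) (nat_lit 0) (nat_lit 0) (XT.nd (nat_lit 78) (nat_lit 0) (nat_lit 0) (XT.lf (nat_lit 0) (nat_lit 387674133101) (nat_lit 152) (nat_lit 155881890683) (nat_lit 0) (nat_lit 372447426064) (nat_lit 2) (nat_lit 5) (nat_lit 4) (nat_lit 4) (nat_lit 2) (nat_lit 4) (nat_lit 268) (nat_lit 225) (nat_lit 167)) (XT.lf (nat_lit 0) (nat_lit 460629451164) (nat_lit 152) (nat_lit 144793927431) (nat_lit 0) (nat_lit 445402144811) (nat_lit 2) (nat_lit 5) (nat_lit 4) (nat_lit 4) (nat_lit 2) (nat_lit 4) (nat_lit 269) (nat_lit 225) (nat_lit 166))) (XT.nd (nat_lit 78) (nat_lit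 0) (nat_lit 0) (XT.lf (nat_lit 0) (nat_lit 544526810535) (nat_lit 152) (nat_lit 132045303996) (nat_lit 0) (nat_lit 529298983039) (nat_lit 2) (nat_lit 5) (nat_lit 4) (nat_lit 4) (nat_lit 2) (nat_lit 4) (nat_lit 270) (nat_lit 225) (nat_lit 165)) (XT.nd (nat_lit 78) (nat_lit 0) (nat_lit 0) (XT.lf (nat_lit 0) (nat_lit 641007681289) (nat_lit 152) (nat_lit 117386590789) (nat_lit 0) (nat_lit 625779400624) (nat_lit 2) (nat_lit 5) (nat_lit 4) (nat_lit 4) (nat_lit 2) (nat_lit 4) (nat_lit 271) (nat_lit 225) (nat_lit 164)) (XT.lf (nat_lit 0) (nat_lit 751959732636) (nat_lit 152) (nat_lit 100530986899) (nat_lit 0) (nat_lit 736731057911) (nat_lit 2) (nat_lit 5) (nat_lit 4) (nat_lit 4) (nat_lit 2) (nat_lit 4) (nat_lit 272) (nat_lit 225) (nat_lit 163)))))) (XT.nd (nat_lit 312) (nat_lit 76) (nat_lit 0) (XT.nd (nat_lit 156) (nat_lit 0) (nat_lit 0) (XT.nd (nat_lit 78) (nat_lit 0) (nat_lit 0) (XT.lf (nat_lit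 0) (nat_lit 879553765581) (nat_lit 152) (nat_lit 81148708772) (nat_lit 0) (nat_lit 864324748195) (nat_lit 2) (nat_lit 5) (nat_lit 4) (nat_lit 4) (nat_lit 2) (nat_lit 4) (nat_lit 273) (nat_lit 225) (nat_lit 162)) (XT.lf (nat_lit 0) (nat_lit 1026286185116) (nat_lit 152) (nat_lit 58860537923) (nat_lit 0) (nat_lit 1011056869765) (nat_lit 2) (nat_lit 5) (nat_lit 4) (nat_lit 4) (nat_lit 2) (nat_lit 4) (nat_lit 274) (nat_lit 225) (nat_lit 161))) (XT.nd (nat_lit 78) (nat_lit 0) (nat_lit 0) (XT.lf (nat_lit 0) (nat_lit 1195027842928) (nat_lit 152) (nat_lit 33230401444) (nat_lit 0) (nat_lit 1179798268476) (nat_lit 2) (nat_lit 5) (nat_lit 4) (nat_lit 4) (nat_lit 2) (nat_lit 4) (nat_lit 275) (nat_lit 225) (nat_lit 160)) (XT.lf (nat_lit 0) (nat_lit 1389080206235) (nat_lit 152) (nat_lit 3756840143) (nat_lit 0) (nat_lit 1373850406478) (nat_lit 2) (nat_lit 5) (nat_lit 4) (nat_lit 4) (nat_lit 2) (nat_lit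 4) (nat_lit 276) (nat_lit 225) (nat_lit 159)))) (XT.nd (nat_lit 156) (nat_lit 0) (nat_lit 0) (XT.nd (nat_lit 78) (nat_lit 0) (nat_lit 0) (XT.lf (nat_lit 0) (nat_lit 33081990141) (nat_lit 76) (nat_lit 1580527816234) (nat_lit 76) (nat_lit 1565297820559) (nat_lit 1) (nat_lit 4) (nat_lit 2) (nat_lit 5) (nat_lit 2) (nat_lit 4) (nat_lit 277) (nat_lit 225) (nat_lit 158)) (XT.lf (nat_lit 0) (nat_lit 75867953138) (nat_lit 76) (nat_lit 1796146825299) (nat_lit 76) (nat_lit 1780916659261) (nat_lit 1) (nat_lit 4) (nat_lit 2) (nat_lit 5) (nat_lit 2) (nat_lit 4) (nat_lit 278) (nat_lit 225) (nat_lit 157))) (XT.nd (nat_lit 78) (nat_lit 0) (nat_lit 0) (XT.lf (nat_lit 0) (nat_lit 125071019775) (nat_lit 76) (nat_lit 2044109086642) (nat_lit 76) (nat_lit 2028878772463) (nat_lit 1) (nat_lit 4) (nat_lit 2) (nat_lit 5) (nat_lit 2) (nat_lit 4) (nat_lit 279) (nat_lit 225) (nat_lit 156)) (XT.nd (nat_lit 78) (nat_lit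 0) (nat_lit 0) (XT.lf (nat_lit 0) (nat_lit 181653858745) (nat_lit 76) (nat_lit 2329266035810) (nat_lit 76) (nat_lit 2314035592812) (nat_lit 1) (nat_lit 4) (nat_lit 2) (nat_lit 5) (nat_lit 2) (nat_lit 4) (nat_lit 280) (nat_lit 225) (nat_lit 155)) (XT.lf (nat_lit 0) (nat_lit 246723525594) (nat_lit 76) (nat_lit 2657196830505) (nat_lit 76) (nat_lit 2641966275490) (nat_lit 1) (nat_lit 4) (nat_lit 2) (nat_lit 5) (nat_lit 2) (nat_lit 4) (nat_lit 281) (nat_lit 225) (nat_lit 154))))))) (XT.nd (nat_lit 702) (nat_lit 0) (nat_lit 0) (XT.nd (nat_lit 312) (nat_lit 0) (nat_lit 0) (XT.nd (nat_lit 156) (nat_lit 0) (nat_lit 0) (XT.nd (nat_lit 78) (nat_lit 0) (nat_lit 0) (XT.lf (nat_lit 0) (nat_lit 321553122499) (nat_lit 76) (nat_lit 3034317508013) (nat_lit 76) (nat_lit 3019086855593) (nat_lit 1) (nat_lit 4) (nat_lit 2) (nat_lit 5) (nat_lit 2) (nat_lit 4) (nat_lit 282) (nat_lit 225) (nat_lit 153)) (XT.lf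 (nat_lit 0) (nat_lit 407606706791) (nat_lit 76) (nat_lit 3468006516374) (nat_lit 76) (nat_lit 3452775779253) (nat_lit 1) (nat_lit 4) (nat_lit 2) (nat_lit 5) (nat_lit 2) (nat_lit 4) (nat_lit 283) (nat_lit 225) (nat_lit 152))) (XT.nd (nat_lit 78) (nat_lit 0) (nat_lit 0) (XT.lf (nat_lit 0) (nat_lit 506567935554) (nat_lit 76) (nat_lit 3966749075316) (nat_lit 76) (nat_lit 3951518264543) (nat_lit 1) (nat_lit 4) (nat_lit 2) (nat_lit 5) (nat_lit 2) (nat_lit 4) (nat_lit 284) (nat_lit 225) (nat_lit 151)) (XT.lf (nat_lit 0) (nat_lit 620373006743) (nat_lit 76) (nat_lit 4540303191427) (nat_lit 76) (nat_lit 4525072316608) (nat_lit 1) (nat_lit 4) (nat_lit 2) (nat_lit 5) (nat_lit 2) (nat_lit 4) (nat_lit 285) (nat_lit 225) (nat_lit 150)))) (XT.nd (nat_lit 156) (nat_lit 0) (nat_lit 0) (XT.nd (nat_lit 78) (nat_lit 0) (nat_lit 0) (XT.lf (nat_lit 0) (nat_lit 751248541314) (nat_lit 76) (nat_lit 5199890575674)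 (nat_lit 76) (nat_lit 5184659645163) (nat_lit 1) (nat_lit 4) (nat_lit 2) (nat_lit 5) (nat_lit 2) (nat_lit 4) (nat_lit 286) (nat_lit 225) (nat_lit 149)) (XT.lf (nat_lit 0) (nat_lit 901755147553) (nat_lit 76) (nat_lit 5958416198619) (nat_lit 76) (nat_lit 5943185219680) (nat_lit 1) (nat_lit 4) (nat_lit 2) (nat_lit 5) (nat_lit 2) (nat_lit 4) (nat_lit 287) (nat_lit 225) (nat_lit 148))) (XT.nd (nat_lit 78) (nat_lit 0) (nat_lit 0) (XT.lf (nat_lit 0) (nat_lit 1074837519931) (nat_lit 76) (nat_lit 6830720778972) (nat_lit 76) (nat_lit 6815489757922) (nat_lit 1) (nat_lit 4) (nat_lit 2) (nat_lit 5) (nat_lit 2) (nat_lit 4) (nat_lit 288) (nat_lit 225) (nat_lit 147)) (XT.nd (nat_lit 78) (nat_lit 0) (nat_lit 0) (XT.lf (nat_lit 0) (nat_lit 1273882052689) (nat_lit 76) (nat_lit 7833871145478) (nat_lit 76) (nat_lit 7818640087810) (nat_lit 1) (nat_lit 4) (nat_lit 2) (nat_lit 5) (nat_lit 2) (nat_lit 4) (nat_lit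 289) (nat_lit 225) (nat_lit 146)) (XT.lf (nat_lit 0) (nat_lit 1502783095380) (nat_lit 76) (nat_lit 8987494153134) (nat_lit 76) (nat_lit 8972263063624) (nat_lit 1) (nat_lit 4) (nat_lit 2) (nat_lit 5) (nat_lit 2) (nat_lit 4) (nat_lit 290) (nat_lit 225) (nat_lit 145)))))) (XT.nd (nat_lit 312) (nat_lit 0) (nat_lit 0) (XT.nd (nat_lit 156) (nat_lit 0) (nat_lit 0) (XT.nd (nat_lit 78) (nat_lit 0) (nat_lit 0) (XT.lf (nat_lit 0) (nat_lit 1766019146668) (nat_lit 76) (nat_lit 10314160686874) (nat_lit 76) (nat_lit 10298929569675) (nat_lit 1) (nat_lit 4) (nat_lit 2) (nat_lit 5) (nat_lit 2) (nat_lit 4) (nat_lit 291) (nat_lit 225) (nat_lit 144)) (XT.lf (nat_lit 0) (nat_lit 2068740477120) (nat_lit 76) (nat_lit 11839827265834) (nat_lit 76) (nat_lit 11824596124558) (nat_lit 1) (nat_lit 4) (nat_lit 2) (nat_lit 5) (nat_lit 2) (nat_lit 4) (nat_lit 292) (nat_lit 225) (nat_lit 143))) (XT.nd (nat_lit 78) (nat_lit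 0) (nat_lit 0) (XT.lf (nat_lit 0) (nat_lit 2416869895375) (nat_lit 76) (nat_lit 13594343888300) (nat_lit 76) (nat_lit 13579112726087) (nat_lit 1) (nat_lit 4) (nat_lit 2) (nat_lit 5) (nat_lit 2) (nat_lit 4) (nat_lit 293) (nat_lit 225) (nat_lit 142)) (XT.lf (nat_lit 0) (nat_lit 2817218629182) (nat_lit 76) (nat_lit 15612038053407) (nat_lit 76) (nat_lit 15596806872988) (nat_lit 1) (nat_lit 4) (nat_lit 2) (nat_lit 5) (nat_lit 2) (nat_lit 4) (nat_lit 294) (nat_lit 225) (nat_lit 141)))) (XT.nd (nat_lit 156) (nat_lit 0) (nat_lit 0) (XT.nd (nat_lit 78) (nat_lit 0) (nat_lit 0) (XT.lf (nat_lit 0) (nat_lit 3277619588550) (nat_lit 76) (nat_lit 17932386386123) (nat_lit 76) (nat_lit 17917155189873) (nat_lit 1) (nat_lit 4) (nat_lit 2) (nat_lit 5) (nat_lit 2) (nat_lit 4) (nat_lit 295) (nat_lit 225) (nat_lit 140)) (XT.lf (nat_lit 0) (nat_lit 3807080618337) (nat_lit 76) (nat_lit 20600787006002) (nat_lit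 76) (nat_lit 20585555795986) (nat_lit 1) (nat_lit 4) (nat_lit 2) (nat_lit 5) (nat_lit 2) (nat_lit 4) (nat_lit 296) (nat_lit 225) (nat_lit 139))) (XT.nd (nat_lit 78) (nat_lit 0) (nat_lit 0) (XT.lf (nat_lit 0) (nat_lit 4415960738690) (nat_lit 76) (nat_lit 23669447751259) (nat_lit 76) (nat_lit 23654216529273) (nat_lit 1) (nat_lit 4) (nat_lit 2) (nat_lit 5) (nat_lit 2) (nat_lit 4) (nat_lit 297) (nat_lit 225) (nat_lit 138)) (XT.nd (nat_lit 78) (nat_lit 0) (nat_lit 0) (XT.lf (nat_lit 0) (nat_lit 5116172821530) (nat_lit 76) (nat_lit 27198407636476) (nat_lit 76) (nat_lit 27183176404080) (nat_lit 1) (nat_lit 4) (nat_lit 2) (nat_lit 5) (nat_lit 2) (nat_lit 4) (nat_lit 298) (nat_lit 225) (nat_lit 137)) (XT.lf (nat_lit 0) (nat_lit 5921416668477) (nat_lit 76) (nat_lit 31256711528971) (nat_lit 76) (nat_lit 31241480287524) (nat_lit 1) (nat_lit 4) (nat_lit 2) (nat_lit 5) (nat_lit 2) (nat_lit 4) (nat_lit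 299) (nat_lit 225) (nat_lit 136))))))))
noncomputable def xc62 : XT := (XT.nd (nat_lit 29952) (nat_lit 0) (nat_lit 76) (XT.nd (nat_lit 29250) (nat_lit 0) (nat_lit 608) (XT.nd (nat_lit 28860) (nat_lit 0) (nat_lit 1292) (XT.nd (nat_lit 28704) (nat_lit 0) (nat_lit 1824) (XT.nd (nat_lit 28626) (nat_lit 0) (nat_lit 1824) (XT.lf (nat_lit 0) (nat_lit 6847447050449) (nat_lit 76) (nat_lit 35923761026642) (nat_lit 76) (nat_lit 35908529777324) (nat_lit 1) (nat_lit 4) (nat_lit 2) (nat_lit 5) (nat_lit 2) (nat_lit 4) (nat_lit 300) (nat_lit 225) (nat_lit 135)) (XT.lf (nat_lit 0) (nat_lit 1893615971) (nat_lit 0) (nat_lit 1893615971) (nat_lit 228) (nat_lit 1171600447) (nat_lit 25) (nat_lit 5) (nat_lit 25) (nat_lit 3) (nat_lit 28) (nat_lit 3) (nat_lit 226) (nat_lit 226) (nat_lit 208))) (XT.nd (nat_lit 78) (nat_lit 0) (nat_lit 0) (XT.lf (nat_lit 0) (nat_lit 8781589063) (nat_lit 228) (nat_lit 1565631139)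 (nat_lit 304) (nat_lit 214547699) (nat_lit 25) (nat_lit 5) (nat_lit 28) (nat_lit 3) (nat_lit 29) (nat_lit 5) (nat_lit 227) (nat_lit 226) (nat_lit 207)) (XT.lf (nat_lit 76) (nat_lit 3762688175) (nat_lit 0) (nat_lit 6633516754) (nat_lit 304) (nat_lit 873006574) (nat_lit 26) (nat_lit 5) (nat_lit 25) (nat_lit 5) (nat_lit 29) (nat_lit 5) (nat_lit 228) (nat_lit 226) (nat_lit 206)))) (XT.nd (nat_lit 156) (nat_lit 228) (nat_lit 0) (XT.nd (nat_lit 78) (nat_lit 0) (nat_lit 76) (XT.lf (nat_lit 0) (nat_lit 137178163) (nat_lit 304) (nat_lit 2098272055) (nat_lit 380) (nat_lit 9849470572) (nat_lit 21) (nat_lit 5) (nat_lit 25) (nat_lit 5) (nat_lit 26) (nat_lit 5) (nat_lit 229) (nat_lit 226) (nat_lit 205)) (XT.lf (nat_lit 0) (nat_lit 1429804203) (nat_lit 304) (nat_lit 8732589287) (nat_lit 76) (nat_lit 2821765862) (nat_lit 22) (nat_lit 5) (nat_lit 26) (nat_lit 5) (nat_lit 23) (nat_lit 5) (nat_lit 230)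 (nat_lit 226) (nat_lit 204))) (XT.nd (nat_lit 78) (nat_lit 304) (nat_lit 0) (XT.lf (nat_lit 0) (nat_lit 3056964662) (nat_lit 304) (nat_lit 2405812198) (nat_lit 76) (nat_lit 8534804299) (nat_lit 22) (nat_lit 5) (nat_lit 26) (nat_lit 5) (nat_lit 23) (nat_lit 5) (nat_lit 231) (nat_lit 226) (nat_lit 203)) (XT.nd (nat_lit 78) (nat_lit 0) (nat_lit 0) (XT.lf (nat_lit 0) (nat_lit 5084062784) (nat_lit 380) (nat_lit 9881471785) (nat_lit 76) (nat_lit 174444334) (nat_lit 18) (nat_lit 5) (nat_lit 23) (nat_lit 5) (nat_lit 19) (nat_lit 5) (nat_lit 232) (nat_lit 226) (nat_lit 202)) (XT.lf (nat_lit 0) (nat_lit 7743078965) (nat_lit 380) (nat_lit 2435913257) (nat_lit 76) (nat_lit 6225863658) (nat_lit 18) (nat_lit 5) (nat_lit 23) (nat_lit 5) (nat_lit 19) (nat_lit 5) (nat_lit 233) (nat_lit 226) (nat_lit 201)))))) (XT.nd (nat_lit 312) (nat_lit 380) (nat_lit 0) (XT.nd (nat_lit 156) (nat_lit 152) (nat_lit 0)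 (XT.nd (nat_lit 78) (nat_lit 0) (nat_lit 0) (XT.lf (nat_lit 0) (nat_lit 6650963562) (nat_lit 152) (nat_lit 4369711662) (nat_lit 228) (nat_lit 6806088786) (nat_lit 16) (nat_lit 5) (nat_lit 18) (nat_lit 5) (nat_lit 19) (nat_lit 5) (nat_lit 234) (nat_lit 226) (nat_lit 200)) (XT.lf (nat_lit 0) (nat_lit 14967354563) (nat_lit 228) (nat_lit 2241864887) (nat_lit 76) (nat_lit 2226347371) (nat_lit 16) (nat_lit 5) (nat_lit 19) (nat_lit 5) (nat_lit 17) (nat_lit 4) (nat_lit 235) (nat_lit 226) (nat_lit 199))) (XT.nd (nat_lit 78) (nat_lit 76) (nat_lit 0) (XT.lf (nat_lit 0) (nat_lit 8520086757) (nat_lit 76) (nat_lit 11501921719) (nat_lit 152) (nat_lit 1186481335) (nat_lit 15) (nat_lit 5) (nat_lit 16) (nat_lit 5) (nat_lit 17) (nat_lit 4) (nat_lit 236) (nat_lit 226) (nat_lit 198)) (XT.lf (nat_lit 0) (nat_lit 2436267180) (nat_lit 152) (nat_lit 2258292889) (nat_lit 76) (nat_lit 18525000251) (nat_lit 14)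 (nat_lit 5) (nat_lit 16) (nat_lit 5) (nat_lit 15) (nat_lit 5) (nat_lit 237) (nat_lit 226) (nat_lit 197)))) (XT.nd (nat_lit 156) (nat_lit 228) (nat_lit 0) (XT.nd (nat_lit 78) (nat_lit 0) (nat_lit 0) (XT.lf (nat_lit 0) (nat_lit 7033010043) (nat_lit 228) (nat_lit 15051925778) (nat_lit 76) (nat_lit 3356201093) (nat_lit 12) (nat_lit 5) (nat_lit 15) (nat_lit 5) (nat_lit 13) (nat_lit 4) (nat_lit 238) (nat_lit 226) (nat_lit 196)) (XT.lf (nat_lit 0) (nat_lit 12630528329) (nat_lit 228) (nat_lit 3077612458) (nat_lit 76) (nat_lit 12241231478) (nat_lit 12) (nat_lit 5) (nat_lit 15) (nat_lit 5) (nat_lit 13) (nat_lit 4) (nat_lit 239) (nat_lit 226) (nat_lit 195))) (XT.nd (nat_lit 78) (nat_lit 152) (nat_lit 0) (XT.lf (nat_lit 0) (nat_lit 11682619951) (nat_lit 76) (nat_lit 7837541650) (nat_lit 152) (nat_lit 11245905507) (nat_lit 11) (nat_lit 5) (nat_lit 12) (nat_lit 5) (nat_lit 13) (nat_lit 4) (nat_lit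 240) (nat_lit 226) (nat_lit 194)) (XT.nd (nat_lit 78) (nat_lit 152) (nat_lit 0) (XT.lf (nat_lit 0) (nat_lit 27632075404) (nat_lit 152) (nat_lit 5087971596) (nat_lit 0) (nat_lit 1256978435) (nat_lit 11) (nat_lit 5) (nat_lit 13) (nat_lit 4) (nat_lit 11) (nat_lit 4) (nat_lit 241) (nat_lit 226) (nat_lit 193)) (XT.lf (nat_lit 0) (nat_lit 222110885) (nat_lit 152) (nat_lit 25932064442) (nat_lit 76) (nat_lit 11389740655) (nat_lit 9) (nat_lit 5) (nat_lit 11) (nat_lit 5) (nat_lit 10) (nat_lit 4) (nat_lit 242) (nat_lit 226) (nat_lit 192))))))) (XT.nd (nat_lit 702) (nat_lit 228) (nat_lit 0) (XT.nd (nat_lit 312) (nat_lit 228) (nat_lit 0) (XT.nd (nat_lit 156) (nat_lit 0) (nat_lit 0) (XT.nd (nat_lit 78) (nat_lit 76) (nat_lit 0) (XT.lf (nat_lit 0) (nat_lit 7377607644) (nat_lit 152) (nat_lit 10577751520) (nat_lit 76) (nat_lit 23607268684) (nat_lit 9) (nat_lit 5) (nat_lit 11) (nat_lit 5) (nat_lit 10)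 (nat_lit 4) (nat_lit 243) (nat_lit 226) (nat_lit 191)) (XT.lf (nat_lit 0) (nat_lit 7728188455) (nat_lit 76) (nat_lit 8175945411) (nat_lit 152) (nat_lit 30235405251) (nat_lit 8) (nat_lit 5) (nat_lit 9) (nat_lit 5) (nat_lit 10) (nat_lit 4) (nat_lit 244) (nat_lit 226) (nat_lit 190))) (XT.nd (nat_lit 78) (nat_lit 0) (nat_lit 0) (XT.lf (nat_lit 0) (nat_lit 26394383296) (nat_lit 152) (nat_lit 21544931359) (nat_lit 0) (nat_lit 3361002833) (nat_lit 8) (nat_lit 5) (nat_lit 10) (nat_lit 4) (nat_lit 8) (nat_lit 4) (nat_lit 245) (nat_lit 226) (nat_lit 189)) (XT.lf (nat_lit 0) (nat_lit 38828673525) (nat_lit 152) (nat_lit 2572862610) (nat_lit 0) (nat_lit 15778137543) (nat_lit 8) (nat_lit 5) (nat_lit 10) (nat_lit 4) (nat_lit 8) (nat_lit 4) (nat_lit 246) (nat_lit 226) (nat_lit 188)))) (XT.nd (nat_lit 156) (nat_lit 76) (nat_lit 0) (XT.nd (nat_lit 78) (nat_lit 76) (nat_lit 0) (XT.lf (nat_lit 0) (nat_lit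 21092386831) (nat_lit 76) (nat_lit 32892739608) (nat_lit 76) (nat_lit 9827285783) (nat_lit 7) (nat_lit 4) (nat_lit 8) (nat_lit 5) (nat_lit 8) (nat_lit 4) (nat_lit 247) (nat_lit 226) (nat_lit 187)) (XT.lf (nat_lit 0) (nat_lit 101908639) (nat_lit 152) (nat_lit 22859322287) (nat_lit 76) (nat_lit 48460305644) (nat_lit 6) (nat_lit 5) (nat_lit 8) (nat_lit 5) (nat_lit 7) (nat_lit 4) (nat_lit 248) (nat_lit 226) (nat_lit 186))) (XT.nd (nat_lit 78) (nat_lit 76) (nat_lit 0) (XT.lf (nat_lit 0) (nat_lit 10500269347) (nat_lit 152) (nat_lit 514126797) (nat_lit 76) (nat_lit 69089572335) (nat_lit 6) (nat_lit 5) (nat_lit 8) (nat_lit 5) (nat_lit 7) (nat_lit 4) (nat_lit 249) (nat_lit 226) (nat_lit 185)) (XT.nd (nat_lit 78) (nat_lit 0) (nat_lit 0) (XT.lf (nat_lit 0) (nat_lit 23756577257) (nat_lit 152) (nat_lit 62467434329) (nat_lit 0) (nat_lit 3670042806) (nat_lit 5) (nat_lit 5) (nat_lit 7) (nat_lit 4) (nat_lit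 5) (nat_lit 4) (nat_lit 250) (nat_lit 226) (nat_lit 184)) (XT.lf (nat_lit 0) (nat_lit 39541977161) (nat_lit 152) (nat_lit 42081569064) (nat_lit 0) (nat_lit 19448025906) (nat_lit 5) (nat_lit 5) (nat_lit 7) (nat_lit 4) (nat_lit 5) (nat_lit 4) (nat_lit 251) (nat_lit 226) (nat_lit 183)))))) (XT.nd (nat_lit 312) (nat_lit 152) (nat_lit 0) (XT.nd (nat_lit 156) (nat_lit 0) (nat_lit 0) (XT.nd (nat_lit 78) (nat_lit 76) (nat_lit 0) (XT.lf (nat_lit 0) (nat_lit 57684748955) (nat_lit 152) (nat_lit 18658199733) (nat_lit 0) (nat_lit 37584348305) (nat_lit 5) (nat_lit 5) (nat_lit 7) (nat_lit 4) (nat_lit 5) (nat_lit 4) (nat_lit 252) (nat_lit 226) (nat_lit 182)) (XT.lf (nat_lit 0) (nat_lit 9068277773) (nat_lit 76) (nat_lit 69847080185) (nat_lit 76) (nat_lit 49741071365) (nat_lit 4) (nat_lit 4) (nat_lit 5) (nat_lit 5) (nat_lit 5) (nat_lit 4) (nat_lit 253) (nat_lit 226) (nat_lit 181))) (XT.nd (nat_lit 78)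 (nat_lit 0) (nat_lit 0) (XT.lf (nat_lit 0) (nat_lit 43033741470) (nat_lit 76) (nat_lit 61263538811) (nat_lit 76) (nat_lit 41152653322) (nat_lit 4) (nat_lit 4) (nat_lit 5) (nat_lit 5) (nat_lit 5) (nat_lit 4) (nat_lit 254) (nat_lit 226) (nat_lit 180)) (XT.lf (nat_lit 0) (nat_lit 82079318064) (nat_lit 76) (nat_lit 51399700699) (nat_lit 76) (nat_lit 31284574628) (nat_lit 4) (nat_lit 4) (nat_lit 5) (nat_lit 5) (nat_lit 5) (nat_lit 4) (nat_lit 255) (nat_lit 226) (nat_lit 179)))) (XT.nd (nat_lit 156) (nat_lit 152) (nat_lit 0) (XT.nd (nat_lit 78) (nat_lit 0) (nat_lit 0) (XT.lf (nat_lit 0) (nat_lit 126968942751) (nat_lit 76) (nat_lit 40062577713) (nat_lit 76) (nat_lit 19943764179) (nat_lit 4) (nat_lit 4) (nat_lit 5) (nat_lit 5) (nat_lit 5) (nat_lit 4) (nat_lit 256) (nat_lit 226) (nat_lit 178)) (XT.lf (nat_lit 0) (nat_lit 178580890795) (nat_lit 76) (nat_lit 27030356577) (nat_lit 76) (nat_lit 6908336554)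 (nat_lit 4) (nat_lit 4) (nat_lit 5) (nat_lit 5) (nat_lit 5) (nat_lit 4) (nat_lit 257) (nat_lit 226) (nat_lit 177))) (XT.nd (nat_lit 78) (nat_lit 76) (nat_lit 0) (XT.lf (nat_lit 0) (nat_lit 7357701156) (nat_lit 152) (nat_lit 4305750788) (nat_lit 76) (nat_lit 230182652917) (nat_lit 3) (nat_lit 5) (nat_lit 5) (nat_lit 5) (nat_lit 4) (nat_lit 4) (nat_lit 258) (nat_lit 226) (nat_lit 176)) (XT.nd (nat_lit 78) (nat_lit 0) (nat_lit 0) (XT.lf (nat_lit 0) (nat_lit 24717798909) (nat_lit 152) (nat_lit 243339391485) (nat_lit 0) (nat_lit 7215857308) (nat_lit 2) (nat_lit 5) (nat_lit 4) (nat_lit 4) (nat_lit 2) (nat_lit 4) (nat_lit 259) (nat_lit 226) (nat_lit 175)) (XT.lf (nat_lit 0) (nat_lit 45468685048) (nat_lit 152) (nat_lit 240162424642) (nat_lit 0) (nat_lit 27964910127) (nat_lit 2) (nat_lit 5) (nat_lit 4) (nat_lit 4) (nat_lit 2) (nat_lit 4) (nat_lit 260) (nat_lit 226) (nat_lit 174))))))))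
noncomputable def xc63 : XT := (XT.nd (nat_lit 1404) (nat_lit 0) (nat_lit 0) (XT.nd (nat_lit 702) (nat_lit 76) (nat_lit 0) (XT.nd (nat_lit 312) (nat_lit 0) (nat_lit 0) (XT.nd (nat_lit 156) (nat_lit 0) (nat_lit 0) (XT.nd (nat_lit 78) (nat_lit 0) (nat_lit 0) (XT.lf (nat_lit 0) (nat_lit 69328360748) (nat_lit 152) (nat_lit 236516665269) (nat_lit 0) (nat_lit 51822991635) (nat_lit 2) (nat_lit 5) (nat_lit 4) (nat_lit 4) (nat_lit 2) (nat_lit 4) (nat_lit 261) (nat_lit 226) (nat_lit 173)) (XT.lf (nat_lit 0) (nat_lit 96763645751) (nat_lit 152) (nat_lit 232330783291) (nat_lit 0) (nat_lit 79256890384) (nat_lit 2) (nat_lit 5) (nat_lit 4) (nat_lit 4) (nat_lit 2) (nat_lit 4) (nat_lit 262) (nat_lit 226) (nat_lit 172))) (XT.nd (nat_lit 78) (nat_lit 0) (nat_lit 0) (XT.lf (nat_lit 0) (nat_lit 128311317372) (nat_lit 152) (nat_lit 227522881017) (nat_lit 0) (nat_lit 110803356567) (nat_lit 2) (nat_lit 5) (nat_lit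 4) (nat_lit 4) (nat_lit 2) (nat_lit 4) (nat_lit 263) (nat_lit 226) (nat_lit 171)) (XT.lf (nat_lit 0) (nat_lit 164588612664) (nat_lit 152) (nat_lit 221998890793) (nat_lit 0) (nat_lit 147079603652) (nat_lit 2) (nat_lit 5) (nat_lit 4) (nat_lit 4) (nat_lit 2) (nat_lit 4) (nat_lit 264) (nat_lit 226) (nat_lit 170)))) (XT.nd (nat_lit 156) (nat_lit 0) (nat_lit 0) (XT.nd (nat_lit 78) (nat_lit 0) (nat_lit 0) (XT.lf (nat_lit 0) (nat_lit 206305304796) (nat_lit 152) (nat_lit 215650734551) (nat_lit 0) (nat_lit 188795384299) (nat_lit 2) (nat_lit 5) (nat_lit 4) (nat_lit 4) (nat_lit 2) (nat_lit 4) (nat_lit 265) (nat_lit 226) (nat_lit 169)) (XT.lf (nat_lit 0) (nat_lit 254277589919) (nat_lit 152) (nat_lit 208354209233) (nat_lit 0) (nat_lit 236766876827) (nat_lit 2) (nat_lit 5) (nat_lit 4) (nat_lit 4) (nat_lit 2) (nat_lit 4) (nat_lit 266) (nat_lit 226) (nat_lit 168))) (XT.nd (nat_lit 78) (nat_lit 0) (nat_lit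 0) (XT.lf (nat_lit 0) (nat_lit 309444056219) (nat_lit 152) (nat_lit 199966556735) (nat_lit 0) (nat_lit 291932653914) (nat_lit 2) (nat_lit 5) (nat_lit 4) (nat_lit 4) (nat_lit 2) (nat_lit 4) (nat_lit 267) (nat_lit 226) (nat_lit 167)) (XT.nd (nat_lit 78) (nat_lit 0) (nat_lit 0) (XT.lf (nat_lit 0) (nat_lit 372884047603) (nat_lit 152) (nat_lit 190323670813) (nat_lit 0) (nat_lit 355372045983) (nat_lit 2) (nat_lit 5) (nat_lit 4) (nat_lit 4) (nat_lit 2) (nat_lit 4) (nat_lit 268) (nat_lit 226) (nat_lit 166)) (XT.lf (nat_lit 0) (nat_lit 445838781294) (nat_lit 152) (nat_lit 179236886307) (nat_lit 0) (nat_lit 428326258529) (nat_lit 2) (nat_lit 5) (nat_lit 4) (nat_lit 4) (nat_lit 2) (nat_lit 4) (nat_lit 269) (nat_lit 226) (nat_lit 165)))))) (XT.nd (nat_lit 312) (nat_lit 76) (nat_lit 0) (XT.nd (nat_lit 156) (nat_lit 0) (nat_lit 0) (XT.nd (nat_lit 78) (nat_lit 0) (nat_lit 0) (XT.lf (nat_lit 0) (nat_lit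 529735632515) (nat_lit 152) (nat_lit 166489287869) (nat_lit 0) (nat_lit 512222656581) (nat_lit 2) (nat_lit 5) (nat_lit 4) (nat_lit 4) (nat_lit 2) (nat_lit 4) (nat_lit 270) (nat_lit 226) (nat_lit 164)) (XT.lf (nat_lit 0) (nat_lit 626216061399) (nat_lit 152) (nat_lit 151831465964) (nat_lit 0) (nat_lit 608702691405) (nat_lit 2) (nat_lit 5) (nat_lit 4) (nat_lit 4) (nat_lit 2) (nat_lit 4) (nat_lit 271) (nat_lit 226) (nat_lit 163))) (XT.nd (nat_lit 78) (nat_lit 0) (nat_lit 0) (XT.lf (nat_lit 0) (nat_lit 737167728512) (nat_lit 152) (nat_lit 134976637119) (nat_lit 0) (nat_lit 719654015857) (nat_lit 2) (nat_lit 5) (nat_lit 4) (nat_lit 4) (nat_lit 2) (nat_lit 4) (nat_lit 272) (nat_lit 226) (nat_lit 162)) (XT.lf (nat_lit 0) (nat_lit 864761427340) (nat_lit 152) (nat_lit 115595032944) (nat_lit 0) (nat_lit 847247416719) (nat_lit 2) (nat_lit 5) (nat_lit 4) (nat_lit 4) (nat_lit 2) (nat_lit 4) (nat_lit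 273) (nat_lit 226) (nat_lit 161)))) (XT.nd (nat_lit 156) (nat_lit 76) (nat_lit 0) (XT.nd (nat_lit 78) (nat_lit 0) (nat_lit 0) (XT.lf (nat_lit 0) (nat_lit 1011493556338) (nat_lit 152) (nat_lit 93307448140) (nat_lit 0) (nat_lit 993979286618) (nat_lit 2) (nat_lit 5) (nat_lit 4) (nat_lit 4) (nat_lit 2) (nat_lit 4) (nat_lit 274) (nat_lit 226) (nat_lit 160)) (XT.lf (nat_lit 0) (nat_lit 1180234961510) (nat_lit 152) (nat_lit 67677821266) (nat_lit 0) (nat_lit 1162720466484) (nat_lit 2) (nat_lit 5) (nat_lit 4) (nat_lit 4) (nat_lit 2) (nat_lit 4) (nat_lit 275) (nat_lit 226) (nat_lit 159))) (XT.nd (nat_lit 78) (nat_lit 76) (nat_lit 0) (XT.lf (nat_lit 0) (nat_lit 1374287105130) (nat_lit 152) (nat_lit 38204703099) (nat_lit 0) (nat_lit 1356772414186) (nat_lit 2) (nat_lit 5) (nat_lit 4) (nat_lit 4) (nat_lit 2) (nat_lit 4) (nat_lit 276) (nat_lit 226) (nat_lit 158)) (XT.nd (nat_lit 78) (nat_lit 76) (nat_lit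 0) (XT.lf (nat_lit 0) (nat_lit 1597446659572) (nat_lit 152) (nat_lit 4311445677) (nat_lit 0) (nat_lit 1579931798266) (nat_lit 2) (nat_lit 5) (nat_lit 4) (nat_lit 4) (nat_lit 2) (nat_lit 4) (nat_lit 277) (nat_lit 226) (nat_lit 157)) (XT.lf (nat_lit 0) (nat_lit 38052803674) (nat_lit 76) (nat_lit 1817602671812) (nat_lit 76) (nat_lit 1800087662364) (nat_lit 1) (nat_lit 4) (nat_lit 2) (nat_lit 5) (nat_lit 2) (nat_lit 4) (nat_lit 278) (nat_lit 226) (nat_lit 156))))))) (XT.nd (nat_lit 702) (nat_lit 0) (nat_lit 0) (XT.nd (nat_lit 312) (nat_lit 0) (nat_lit 0) (XT.nd (nat_lit 156) (nat_lit 0) (nat_lit 0) (XT.nd (nat_lit 78) (nat_lit 0) (nat_lit 0) (XT.lf (nat_lit 0) (nat_lit 87255550467) (nat_lit 76) (nat_lit 2065565095306) (nat_lit 76) (nat_lit 2048049957039) (nat_lit 1) (nat_lit 4) (nat_lit 2) (nat_lit 5) (nat_lit 2) (nat_lit 4) (nat_lit 279) (nat_lit 226) (nat_lit 155)) (XT.lf (nat_lit 0) (nat_lit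 143838111313) (nat_lit 76) (nat_lit 2350722185474) (nat_lit 76) (nat_lit 2333206935191) (nat_lit 1) (nat_lit 4) (nat_lit 2) (nat_lit 5) (nat_lit 2) (nat_lit 4) (nat_lit 280) (nat_lit 226) (nat_lit 154))) (XT.nd (nat_lit 78) (nat_lit 0) (nat_lit 0) (XT.lf (nat_lit 0) (nat_lit 208907536315) (nat_lit 76) (nat_lit 2678653102778) (nat_lit 76) (nat_lit 2661137755090) (nat_lit 1) (nat_lit 4) (nat_lit 2) (nat_lit 5) (nat_lit 2) (nat_lit 4) (nat_lit 281) (nat_lit 226) (nat_lit 153)) (XT.lf (nat_lit 0) (nat_lit 283736922919) (nat_lit 76) (nat_lit 3055773886904) (nat_lit 76) (nat_lit 3038258454514) (nat_lit 1) (nat_lit 4) (nat_lit 2) (nat_lit 5) (nat_lit 2) (nat_lit 4) (nat_lit 282) (nat_lit 226) (nat_lit 152)))) (XT.nd (nat_lit 156) (nat_lit 0) (nat_lit 0) (XT.nd (nat_lit 78) (nat_lit 0) (nat_lit 0) (XT.lf (nat_lit 0) (nat_lit 369790324340) (nat_lit 76) (nat_lit 3489462987975) (nat_lit 76) (nat_lit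 3471947481933) (nat_lit 1) (nat_lit 4) (nat_lit 2) (nat_lit 5) (nat_lit 2) (nat_lit 4) (nat_lit 283) (nat_lit 226) (nat_lit 151)) (XT.lf (nat_lit 0) (nat_lit 468751394085) (nat_lit 76) (nat_lit 3988205627534) (nat_lit 76) (nat_lit 3970690057446) (nat_lit 1) (nat_lit 4) (nat_lit 2) (nat_lit 5) (nat_lit 2) (nat_lit 4) (nat_lit 284) (nat_lit 226) (nat_lit 150))) (XT.nd (nat_lit 78) (nat_lit 0) (nat_lit 0) (XT.lf (nat_lit 0) (nat_lit 582556326996) (nat_lit 76) (nat_lit 4561759813747) (nat_lit 76) (nat_lit 4544244187968) (nat_lit 1) (nat_lit 4) (nat_lit 2) (nat_lit 5) (nat_lit 2) (nat_lit 4) (nat_lit 285) (nat_lit 226) (nat_lit 149)) (XT.nd (nat_lit 78) (nat_lit 0) (nat_lit 0) (XT.lf (nat_lit 0) (nat_lit 713431741327) (nat_lit 76) (nat_lit 5221347258953) (nat_lit 76) (nat_lit 5203831584745) (nat_lit 1) (nat_lit 4) (nat_lit 2) (nat_lit 5) (nat_lit 2) (nat_lit 4) (nat_lit 286) (nat_lit 226)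 (nat_lit 148)) (XT.lf (nat_lit 0) (nat_lit 863938243009) (nat_lit 76) (nat_lit 5979872934905) (nat_lit 76) (nat_lit 5962357218587) (nat_lit 1) (nat_lit 4) (nat_lit 2) (nat_lit 5) (nat_lit 2) (nat_lit 4) (nat_lit 287) (nat_lit 226) (nat_lit 147)))))) (XT.nd (nat_lit 312) (nat_lit 0) (nat_lit 0) (XT.nd (nat_lit 156) (nat_lit 0) (nat_lit 0) (XT.nd (nat_lit 78) (nat_lit 0) (nat_lit 0) (XT.lf (nat_lit 0) (nat_lit 1037020524467) (nat_lit 76) (nat_lit 6852177561351) (nat_lit 76) (nat_lit 6834661808414) (nat_lit 1) (nat_lit 4) (nat_lit 2) (nat_lit 5) (nat_lit 2) (nat_lit 4) (nat_lit 288) (nat_lit 226) (nat_lit 146)) (XT.lf (nat_lit 0) (nat_lit 1236064978165) (nat_lit 76) (nat_lit 7855327967938) (nat_lit 76) (nat_lit 7837812183160) (nat_lit 1) (nat_lit 4) (nat_lit 2) (nat_lit 5) (nat_lit 2) (nat_lit 4) (nat_lit 289) (nat_lit 226) (nat_lit 145))) (XT.nd (nat_lit 78) (nat_lit 0) (nat_lit 0) (XT.lf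 (nat_lit 0) (nat_lit 1464965952108) (nat_lit 76) (nat_lit 9008951010448) (nat_lit 76) (nat_lit 8991435197981) (nat_lit 1) (nat_lit 4) (nat_lit 2) (nat_lit 5) (nat_lit 2) (nat_lit 4) (nat_lit 290) (nat_lit 226) (nat_lit 144)) (XT.lf (nat_lit 0) (nat_lit 1728201943615) (nat_lit 76) (nat_lit 10335617574495) (nat_lit 76) (nat_lit 10318101737950) (nat_lit 1) (nat_lit 4) (nat_lit 2) (nat_lit 5) (nat_lit 2) (nat_lit 4) (nat_lit 291) (nat_lit 226) (nat_lit 143)))) (XT.nd (nat_lit 156) (nat_lit 0) (nat_lit 0) (XT.nd (nat_lit 78) (nat_lit 0) (nat_lit 0) (XT.lf (nat_lit 0) (nat_lit 2030923222083) (nat_lit 76) (nat_lit 11861284179809) (nat_lit 76) (nat_lit 11843768322328) (nat_lit 1) (nat_lit 4) (nat_lit 2) (nat_lit 5) (nat_lit 2) (nat_lit 4) (nat_lit 292) (nat_lit 226) (nat_lit 142)) (XT.lf (nat_lit 0) (nat_lit 2379052595136) (nat_lit 76) (nat_lit 13615800825192) (nat_lit 76) (nat_lit 13598284949505)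 (nat_lit 1) (nat_lit 4) (nat_lit 2) (nat_lit 5) (nat_lit 2) (nat_lit 4) (nat_lit 293) (nat_lit 226) (nat_lit 141))) (XT.nd (nat_lit 78) (nat_lit 0) (nat_lit 0) (XT.lf (nat_lit 0) (nat_lit 2779401289636) (nat_lit 76) (nat_lit 15633495010225) (nat_lit 76) (nat_lit 15615979118707) (nat_lit 1) (nat_lit 4) (nat_lit 2) (nat_lit 5) (nat_lit 2) (nat_lit 4) (nat_lit 294) (nat_lit 226) (nat_lit 140)) (XT.nd (nat_lit 78) (nat_lit 0) (nat_lit 0) (XT.lf (nat_lit 0) (nat_lit 3239802214824) (nat_lit 76) (nat_lit 17953843360270) (nat_lit 76) (nat_lit 17936327454985) (nat_lit 1) (nat_lit 4) (nat_lit 2) (nat_lit 5) (nat_lit 2) (nat_lit 4) (nat_lit 295) (nat_lit 226) (nat_lit 139)) (XT.lf (nat_lit 0) (nat_lit 3769263214889) (nat_lit 76) (nat_lit 20622243995217) (nat_lit 76) (nat_lit 20604728077962) (nat_lit 1) (nat_lit 4) (nat_lit 2) (nat_lit 5) (nat_lit 2) (nat_lit 4) (nat_lit 296) (nat_lit 226) (nat_lit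 138))))))))
noncomputable def xc64 : XT := (XT.nd (nat_lit 29952) (nat_lit 0) (nat_lit 228) (XT.nd (nat_lit 29250) (nat_lit 0) (nat_lit 836) (XT.nd (nat_lit 28938) (nat_lit 0) (nat_lit 1520) (XT.nd (nat_lit 156) (nat_lit 0) (nat_lit 0) (XT.nd (nat_lit 78) (nat_lit 0) (nat_lit 0) (XT.lf (nat_lit 0) (nat_lit 4378143309398) (nat_lit 76) (nat_lit 23690904753577) (nat_lit 76) (nat_lit 23673388825913) (nat_lit 1) (nat_lit 4) (nat_lit 2) (nat_lit 5) (nat_lit 2) (nat_lit 4) (nat_lit 297) (nat_lit 226) (nat_lit 137)) (XT.lf (nat_lit 0) (nat_lit 5078355369764) (nat_lit 76) (nat_lit 27219864650187) (nat_lit 76) (nat_lit 27202348713471) (nat_lit 1) (nat_lit 4) (nat_lit 2) (nat_lit 5) (nat_lit 2) (nat_lit 4) (nat_lit 298) (nat_lit 226) (nat_lit 136))) (XT.nd (nat_lit 78) (nat_lit 0) (nat_lit 0) (XT.lf (nat_lit 0) (nat_lit 5883599197168) (nat_lit 76) (nat_lit 31278168552590) (nat_lit 76) (nat_lit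 31260652608003) (nat_lit 1) (nat_lit 4) (nat_lit 2) (nat_lit 5) (nat_lit 2) (nat_lit 4) (nat_lit 299) (nat_lit 226) (nat_lit 135)) (XT.lf (nat_lit 0) (nat_lit 6809629562147) (nat_lit 76) (nat_lit 35945218058876) (nat_lit 76) (nat_lit 35927702107445) (nat_lit 1) (nat_lit 4) (nat_lit 2) (nat_lit 5) (nat_lit 2) (nat_lit 4) (nat_lit 300) (nat_lit 226) (nat_lit 134)))) (XT.nd (nat_lit 156) (nat_lit 304) (nat_lit 0) (XT.nd (nat_lit 78) (nat_lit 0) (nat_lit 0) (XT.lf (nat_lit 0) (nat_lit 2479273734) (nat_lit 0) (nat_lit 2479273734) (nat_lit 228) (nat_lit 649919559) (nat_lit 25) (nat_lit 5) (nat_lit 25) (nat_lit 3) (nat_lit 28) (nat_lit 3) (nat_lit 227) (nat_lit 227) (nat_lit 206)) (XT.lf (nat_lit 0) (nat_lit 10883002985) (nat_lit 0) (nat_lit 253706375) (nat_lit 228) (nat_lit 847196897) (nat_lit 25) (nat_lit 5) (nat_lit 25) (nat_lit 3) (nat_lit 28) (nat_lit 3) (nat_lit 228) (nat_lit 227) (nat_lit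 205))) (XT.nd (nat_lit 78) (nat_lit 0) (nat_lit 0) (XT.lf (nat_lit 0) (nat_lit 55841880) (nat_lit 304) (nat_lit 7813418865) (nat_lit 380) (nat_lit 4946132218) (nat_lit 21) (nat_lit 5) (nat_lit 25) (nat_lit 5) (nat_lit 26) (nat_lit 5) (nat_lit 229) (nat_lit 227) (nat_lit 204)) (XT.lf (nat_lit 0) (nat_lit 1001598537) (nat_lit 304) (nat_lit 1736916150) (nat_lit 380) (nat_lit 11028330287) (nat_lit 21) (nat_lit 5) (nat_lit 25) (nat_lit 5) (nat_lit 26) (nat_lit 5) (nat_lit 230) (nat_lit 227) (nat_lit 203))))) (XT.nd (nat_lit 312) (nat_lit 456) (nat_lit 0) (XT.nd (nat_lit 156) (nat_lit 304) (nat_lit 0) (XT.nd (nat_lit 78) (nat_lit 0) (nat_lit 0) (XT.lf (nat_lit 0) (nat_lit 2400007606) (nat_lit 304) (nat_lit 9274585404) (nat_lit 76) (nat_lit 3140145644) (nat_lit 22) (nat_lit 5) (nat_lit 26) (nat_lit 5) (nat_lit 23) (nat_lit 5) (nat_lit 231) (nat_lit 227) (nat_lit 202)) (XT.lf (nat_lit 0) (nat_lit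 4172668294) (nat_lit 304) (nat_lit 2098951613) (nat_lit 76) (nat_lit 9723820512) (nat_lit 22) (nat_lit 5) (nat_lit 26) (nat_lit 5) (nat_lit 23) (nat_lit 5) (nat_lit 232) (nat_lit 227) (nat_lit 201))) (XT.nd (nat_lit 78) (nat_lit 0) (nat_lit 0) (XT.lf (nat_lit 0) (nat_lit 6446144845) (nat_lit 380) (nat_lit 10635487697) (nat_lit 76) (nat_lit 236636149) (nat_lit 18) (nat_lit 5) (nat_lit 23) (nat_lit 5) (nat_lit 19) (nat_lit 5) (nat_lit 233) (nat_lit 227) (nat_lit 200)) (XT.lf (nat_lit 0) (nat_lit 9425821368) (nat_lit 380) (nat_lit 2168078632) (nat_lit 76) (nat_lit 7191069436) (nat_lit 18) (nat_lit 5) (nat_lit 23) (nat_lit 5) (nat_lit 19) (nat_lit 5) (nat_lit 234) (nat_lit 227) (nat_lit 199)))) (XT.nd (nat_lit 156) (nat_lit 304) (nat_lit 0) (XT.nd (nat_lit 78) (nat_lit 0) (nat_lit 0) (XT.lf (nat_lit 0) (nat_lit 8253046909) (nat_lit 152) (nat_lit 4899045564) (nat_lit 228) (nat_lit 7274832013)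 (nat_lit 16) (nat_lit 5) (nat_lit 18) (nat_lit 5) (nat_lit 19) (nat_lit 5) (nat_lit 235) (nat_lit 227) (nat_lit 198)) (XT.lf (nat_lit 0) (nat_lit 17632925959) (nat_lit 228) (nat_lit 1992865959) (nat_lit 76) (nat_lit 2660207754) (nat_lit 16) (nat_lit 5) (nat_lit 19) (nat_lit 5) (nat_lit 17) (nat_lit 4) (nat_lit 236) (nat_lit 227) (nat_lit 197))) (XT.nd (nat_lit 78) (nat_lit 228) (nat_lit 0) (XT.lf (nat_lit 0) (nat_lit 10356774856) (nat_lit 76) (nat_lit 13057292967) (nat_lit 152) (nat_lit 915788758) (nat_lit 15) (nat_lit 5) (nat_lit 16) (nat_lit 5) (nat_lit 17) (nat_lit 4) (nat_lit 237) (nat_lit 227) (nat_lit 196)) (XT.nd (nat_lit 78) (nat_lit 152) (nat_lit 0) (XT.lf (nat_lit 0) (nat_lit 3157117289) (nat_lit 152) (nat_lit 2075294617) (nat_lit 76) (nat_lit 21415566426) (nat_lit 14) (nat_lit 5) (nat_lit 16) (nat_lit 5) (nat_lit 15) (nat_lit 5) (nat_lit 238) (nat_lit 227) (nat_lit 195)) (XT.lf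 (nat_lit 0) (nat_lit 8424607079) (nat_lit 228) (nat_lit 16768160519) (nat_lit 76) (nat_lit 4012995604) (nat_lit 12) (nat_lit 5) (nat_lit 15) (nat_lit 5) (nat_lit 13) (nat_lit 4) (nat_lit 239) (nat_lit 227) (nat_lit 194))))))) (XT.nd (nat_lit 702) (nat_lit 228) (nat_lit 0) (XT.nd (nat_lit 312) (nat_lit 152) (nat_lit 0) (XT.nd (nat_lit 156) (nat_lit 152) (nat_lit 0) (XT.nd (nat_lit 78) (nat_lit 76) (nat_lit 0) (XT.lf (nat_lit 0) (nat_lit 14817842822) (nat_lit 228) (nat_lit 3068337696) (nat_lit 76) (nat_lit 14210776502) (nat_lit 12) (nat_lit 5) (nat_lit 15) (nat_lit 5) (nat_lit 13) (nat_lit 4) (nat_lit 240) (nat_lit 227) (nat_lit 193)) (XT.lf (nat_lit 0) (nat_lit 13884524272) (nat_lit 76) (nat_lit 8836827260) (nat_lit 152) (nat_lit 12617858790) (nat_lit 11) (nat_lit 5) (nat_lit 12) (nat_lit 5) (nat_lit 13) (nat_lit 4) (nat_lit 241) (nat_lit 227) (nat_lit 192))) (XT.nd (nat_lit 78) (nat_lit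 152) (nat_lit 0) (XT.lf (nat_lit 0) (nat_lit 32020771748) (nat_lit 152) (nat_lit 5430318566) (nat_lit 0) (nat_lit 1585217487) (nat_lit 11) (nat_lit 5) (nat_lit 13) (nat_lit 4) (nat_lit 11) (nat_lit 4) (nat_lit 242) (nat_lit 227) (nat_lit 191)) (XT.lf (nat_lit 0) (nat_lit 495572218) (nat_lit 152) (nat_lit 29396165391) (nat_lit 76) (nat_lit 13247223314) (nat_lit 9) (nat_lit 5) (nat_lit 11) (nat_lit 5) (nat_lit 10) (nat_lit 4) (nat_lit 243) (nat_lit 227) (nat_lit 190)))) (XT.nd (nat_lit 156) (nat_lit 76) (nat_lit 0) (XT.nd (nat_lit 78) (nat_lit 76) (nat_lit 0) (XT.lf (nat_lit 0) (nat_lit 8693070270) (nat_lit 152) (nat_lit 11794232755) (nat_lit 76) (nat_lit 27277942953) (nat_lit 9) (nat_lit 5) (nat_lit 11) (nat_lit 5) (nat_lit 10) (nat_lit 4) (nat_lit 244) (nat_lit 227) (nat_lit 189)) (XT.lf (nat_lit 0) (nat_lit 9240771785) (nat_lit 76) (nat_lit 9245197734) (nat_lit 152) (nat_lit 34544674366)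 (nat_lit 8) (nat_lit 5) (nat_lit 9) (nat_lit 5) (nat_lit 10) (nat_lit 4) (nat_lit 245) (nat_lit 227) (nat_lit 188))) (XT.nd (nat_lit 78) (nat_lit 76) (nat_lit 0) (XT.lf (nat_lit 0) (nat_lit 30529821125) (nat_lit 152) (nat_lit 24449128150) (nat_lit 0) (nat_lit 3989631384) (nat_lit 8) (nat_lit 5) (nat_lit 10) (nat_lit 4) (nat_lit 8) (nat_lit 4) (nat_lit 246) (nat_lit 227) (nat_lit 187)) (XT.nd (nat_lit 78) (nat_lit 76) (nat_lit 0) (XT.lf (nat_lit 0) (nat_lit 44806261801) (nat_lit 152) (nat_lit 2673972077) (nat_lit 0) (nat_lit 18253100023) (nat_lit 8) (nat_lit 5) (nat_lit 10) (nat_lit 4) (nat_lit 8) (nat_lit 4) (nat_lit 247) (nat_lit 227) (nat_lit 186)) (XT.lf (nat_lit 0) (nat_lit 24528118420) (nat_lit 76) (nat_lit 37699327949) (nat_lit 76) (nat_lit 11134886138) (nat_lit 7) (nat_lit 4) (nat_lit 8) (nat_lit 5) (nat_lit 8) (nat_lit 4) (nat_lit 248) (nat_lit 227) (nat_lit 185)))))) (XT.nd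 (nat_lit 312) (nat_lit 76) (nat_lit 0) (XT.nd (nat_lit 156) (nat_lit 76) (nat_lit 0) (XT.nd (nat_lit 78) (nat_lit 0) (nat_lit 0) (XT.lf (nat_lit 0) (nat_lit 249082064) (nat_lit 152) (nat_lit 26038724096) (nat_lit 76) (nat_lit 55826982056) (nat_lit 6) (nat_lit 5) (nat_lit 8) (nat_lit 5) (nat_lit 7) (nat_lit 4) (nat_lit 249) (nat_lit 227) (nat_lit 184)) (XT.lf (nat_lit 0) (nat_lit 12189994209) (nat_lit 152) (nat_lit 374292309) (nat_lit 76) (nat_lit 79537904329) (nat_lit 6) (nat_lit 5) (nat_lit 8) (nat_lit 5) (nat_lit 7) (nat_lit 4) (nat_lit 250) (nat_lit 227) (nat_lit 183))) (XT.nd (nat_lit 78) (nat_lit 0) (nat_lit 0) (XT.lf (nat_lit 0) (nat_lit 27432455430) (nat_lit 152) (nat_lit 71618155065) (nat_lit 0) (nat_lit 4310545287) (nat_lit 5) (nat_lit 5) (nat_lit 7) (nat_lit 4) (nat_lit 5) (nat_lit 4) (nat_lit 251) (nat_lit 227) (nat_lit 182)) (XT.lf (nat_lit 0) (nat_lit 45571005548) (nat_lit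 152) (nat_lit 48203026673) (nat_lit 0) (nat_lit 22443487235) (nat_lit 5) (nat_lit 5) (nat_lit 7) (nat_lit 4) (nat_lit 5) (nat_lit 4) (nat_lit 252) (nat_lit 227) (nat_lit 181)))) (XT.nd (nat_lit 156) (nat_lit 0) (nat_lit 0) (XT.nd (nat_lit 78) (nat_lit 76) (nat_lit 0) (XT.lf (nat_lit 0) (nat_lit 66422445484) (nat_lit 152) (nat_lit 21291035997) (nat_lit 0) (nat_lit 43290050502) (nat_lit 5) (nat_lit 5) (nat_lit 7) (nat_lit 4) (nat_lit 5) (nat_lit 4) (nat_lit 253) (nat_lit 227) (nat_lit 180)) (XT.lf (nat_lit 0) (nat_lit 10586872512) (nat_lit 76) (nat_lit 80246245494) (nat_lit 76) (nat_lit 57109609930) (nat_lit 4) (nat_lit 4) (nat_lit 5) (nat_lit 5) (nat_lit 5) (nat_lit 4) (nat_lit 254) (nat_lit 227) (nat_lit 179))) (XT.nd (nat_lit 78) (nat_lit 0) (nat_lit 0) (XT.lf (nat_lit 0) (nat_lit 49626501015) (nat_lit 76) (nat_lit 70385333355) (nat_lit 76) (nat_lit 47245010329) (nat_lit 4) (nat_lit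 4) (nat_lit 5) (nat_lit 5) (nat_lit 5) (nat_lit 4) (nat_lit 255) (nat_lit 227) (nat_lit 178)) (XT.nd (nat_lit 78) (nat_lit 0) (nat_lit 0) (XT.lf (nat_lit 0) (nat_lit 94510953448) (nat_lit 76) (nat_lit 59050754694) (nat_lit 76) (nat_lit 35907225178) (nat_lit 4) (nat_lit 4) (nat_lit 5) (nat_lit 5) (nat_lit 5) (nat_lit 4) (nat_lit 256) (nat_lit 227) (nat_lit 177)) (XT.lf (nat_lit 0) (nat_lit 146118403880) (nat_lit 76) (nat_lit 46020746013) (nat_lit 76) (nat_lit 22874428246) (nat_lit 4) (nat_lit 4) (nat_lit 5) (nat_lit 5) (nat_lit 5) (nat_lit 4) (nat_lit 257) (nat_lit 227) (nat_lit 176))))))))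
noncomputable def xc65 : XT := (XT.nd (nat_lit 1404) (nat_lit 76) (nat_lit 0) (XT.nd (nat_lit 702) (nat_lit 0) (nat_lit 0) (XT.nd (nat_lit 312) (nat_lit 0) (nat_lit 0) (XT.nd (nat_lit 156) (nat_lit 76) (nat_lit 0) (XT.nd (nat_lit 78) (nat_lit 76) (nat_lit 0) (XT.lf (nat_lit 0) (nat_lit 205458563298) (nat_lit 76) (nat_lit 31040372361) (nat_lit 76) (nat_lit 7891630028) (nat_lit 4) (nat_lit 4) (nat_lit 5) (nat_lit 5) (nat_lit 5) (nat_lit 4) (nat_lit 258) (nat_lit 227) (nat_lit 175)) (XT.lf (nat_lit 0) (nat_lit 8503306251) (nat_lit 152) (nat_lit 4868742211) (nat_lit 76) (nat_lit 264744637560) (nat_lit 3) (nat_lit 5) (nat_lit 5) (nat_lit 5) (nat_lit 4) (nat_lit 4) (nat_lit 259) (nat_lit 227) (nat_lit 174))) (XT.nd (nat_lit 78) (nat_lit 0) (nat_lit 0) (XT.lf (nat_lit 0) (nat_lit 28466851903) (nat_lit 152) (nat_lit 279756825658) (nat_lit 0) (nat_lit 8334083231) (nat_lit 2) (nat_lit 5) (nat_lit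 4) (nat_lit 4) (nat_lit 2) (nat_lit 4) (nat_lit 260) (nat_lit 227) (nat_lit 173)) (XT.lf (nat_lit 0) (nat_lit 52324973160) (nat_lit 152) (nat_lit 276114201774) (nat_lit 0) (nat_lit 32190818234) (nat_lit 2) (nat_lit 5) (nat_lit 4) (nat_lit 4) (nat_lit 2) (nat_lit 4) (nat_lit 261) (nat_lit 227) (nat_lit 172)))) (XT.nd (nat_lit 156) (nat_lit 0) (nat_lit 0) (XT.nd (nat_lit 78) (nat_lit 0) (nat_lit 0) (XT.lf (nat_lit 0) (nat_lit 79758906474) (nat_lit 152) (nat_lit 271931046308) (nat_lit 0) (nat_lit 59623546109) (nat_lit 2) (nat_lit 5) (nat_lit 4) (nat_lit 4) (nat_lit 2) (nat_lit 4) (nat_lit 262) (nat_lit 227) (nat_lit 171)) (XT.lf (nat_lit 0) (nat_lit 111305402712) (nat_lit 152) (nat_lit 267125514913) (nat_lit 0) (nat_lit 91168994141) (nat_lit 2) (nat_lit 5) (nat_lit 4) (nat_lit 4) (nat_lit 2) (nat_lit 4) (nat_lit 263) (nat_lit 227) (nat_lit 170))) (XT.nd (nat_lit 78) (nat_lit 0) (nat_lit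 0) (XT.lf (nat_lit 0) (nat_lit 147581675933) (nat_lit 152) (nat_lit 261603586325) (nat_lit 0) (nat_lit 127444355877) (nat_lit 2) (nat_lit 5) (nat_lit 4) (nat_lit 4) (nat_lit 2) (nat_lit 4) (nat_lit 264) (nat_lit 227) (nat_lit 169)) (XT.nd (nat_lit 78) (nat_lit 0) (nat_lit 0) (XT.lf (nat_lit 0) (nat_lit 189297479307) (nat_lit 152) (nat_lit 255257222808) (nat_lit 0) (nat_lit 169159366656) (nat_lit 2) (nat_lit 5) (nat_lit 4) (nat_lit 4) (nat_lit 2) (nat_lit 4) (nat_lit 265) (nat_lit 227) (nat_lit 168)) (XT.lf (nat_lit 0) (nat_lit 237268991597) (nat_lit 152) (nat_lit 247962256382) (nat_lit 0) (nat_lit 217130189733) (nat_lit 2) (nat_lit 5) (nat_lit 4) (nat_lit 4) (nat_lit 2) (nat_lit 4) (nat_lit 266) (nat_lit 227) (nat_lit 167)))))) (XT.nd (nat_lit 312) (nat_lit 0) (nat_lit 0) (XT.nd (nat_lit 156) (nat_lit 0) (nat_lit 0) (XT.nd (nat_lit 78) (nat_lit 0) (nat_lit 0) (XT.lf (nat_lit 0) (nat_lit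 292434785869) (nat_lit 152) (nat_lit 239575959443) (nat_lit 0) (nat_lit 272295384689) (nat_lit 2) (nat_lit 5) (nat_lit 4) (nat_lit 4) (nat_lit 2) (nat_lit 4) (nat_lit 267) (nat_lit 227) (nat_lit 166)) (XT.lf (nat_lit 0) (nat_lit 355874192880) (nat_lit 152) (nat_lit 229934252267) (nat_lit 0) (nat_lit 335734270556) (nat_lit 2) (nat_lit 5) (nat_lit 4) (nat_lit 4) (nat_lit 2) (nat_lit 4) (nat_lit 268) (nat_lit 227) (nat_lit 165))) (XT.nd (nat_lit 78) (nat_lit 0) (nat_lit 0) (XT.lf (nat_lit 0) (nat_lit 428828418420) (nat_lit 152) (nat_lit 218848492758) (nat_lit 0) (nat_lit 408688042928) (nat_lit 2) (nat_lit 5) (nat_lit 4) (nat_lit 4) (nat_lit 2) (nat_lit 4) (nat_lit 269) (nat_lit 227) (nat_lit 164)) (XT.lf (nat_lit 0) (nat_lit 512724827771) (nat_lit 152) (nat_lit 206101785622) (nat_lit 0) (nat_lit 492584058219) (nat_lit 2) (nat_lit 5) (nat_lit 4) (nat_lit 4) (nat_lit 2) (nat_lit 4) (nat_lit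 270) (nat_lit 227) (nat_lit 163)))) (XT.nd (nat_lit 156) (nat_lit 0) (nat_lit 0) (XT.nd (nat_lit 78) (nat_lit 0) (nat_lit 0) (XT.lf (nat_lit 0) (nat_lit 609204872421) (nat_lit 152) (nat_lit 191444738761) (nat_lit 0) (nat_lit 589063760208) (nat_lit 2) (nat_lit 5) (nat_lit 4) (nat_lit 4) (nat_lit 2) (nat_lit 4) (nat_lit 271) (nat_lit 227) (nat_lit 162)) (XT.lf (nat_lit 0) (nat_lit 720156205417) (nat_lit 152) (nat_lit 174590583868) (nat_lit 0) (nat_lit 700014795238) (nat_lit 2) (nat_lit 5) (nat_lit 4) (nat_lit 4) (nat_lit 2) (nat_lit 4) (nat_lit 272) (nat_lit 227) (nat_lit 161))) (XT.nd (nat_lit 78) (nat_lit 0) (nat_lit 0) (XT.lf (nat_lit 0) (nat_lit 847749613708) (nat_lit 152) (nat_lit 155209565739) (nat_lit 0) (nat_lit 827607944429) (nat_lit 2) (nat_lit 5) (nat_lit 4) (nat_lit 4) (nat_lit 2) (nat_lit 4) (nat_lit 273) (nat_lit 227) (nat_lit 160)) (XT.nd (nat_lit 78) (nat_lit 0) (nat_lit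 0) (XT.lf (nat_lit 0) (nat_lit 994481490067) (nat_lit 152) (nat_lit 132922490539) (nat_lit 0) (nat_lit 974339595482) (nat_lit 2) (nat_lit 5) (nat_lit 4) (nat_lit 4) (nat_lit 2) (nat_lit 4) (nat_lit 274) (nat_lit 227) (nat_lit 159)) (XT.lf (nat_lit 0) (nat_lit 1163222675551) (nat_lit 152) (nat_lit 107293306800) (nat_lit 0) (nat_lit 1143080585049) (nat_lit 2) (nat_lit 5) (nat_lit 4) (nat_lit 4) (nat_lit 2) (nat_lit 4) (nat_lit 275) (nat_lit 227) (nat_lit 158))))))) (XT.nd (nat_lit 702) (nat_lit 0) (nat_lit 0) (XT.nd (nat_lit 312) (nat_lit 0) (nat_lit 0) (XT.nd (nat_lit 156) (nat_lit 76) (nat_lit 0) (XT.nd (nat_lit 78) (nat_lit 0) (nat_lit 0) (XT.lf (nat_lit 0) (nat_lit 1357274628138) (nat_lit 152) (nat_lit 77820573967) (nat_lit 0) (nat_lit 1337132367273) (nat_lit 2) (nat_lit 5) (nat_lit 4) (nat_lit 4) (nat_lit 2) (nat_lit 4) (nat_lit 276) (nat_lit 227) (nat_lit 157)) (XT.lf (nat_lit 0)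 (nat_lit 1580434016466) (nat_lit 152) (nat_lit 43927651618) (nat_lit 0) (nat_lit 1560291607459) (nat_lit 2) (nat_lit 5) (nat_lit 4) (nat_lit 4) (nat_lit 2) (nat_lit 4) (nat_lit 277) (nat_lit 227) (nat_lit 156))) (XT.nd (nat_lit 78) (nat_lit 76) (nat_lit 0) (XT.lf (nat_lit 0) (nat_lit 1837067002479) (nat_lit 152) (nat_lit 4951417357) (nat_lit 0) (nat_lit 1816924464654) (nat_lit 2) (nat_lit 5) (nat_lit 4) (nat_lit 4) (nat_lit 2) (nat_lit 4) (nat_lit 278) (nat_lit 227) (nat_lit 155)) (XT.lf (nat_lit 0) (nat_lit 43767162797) (nat_lit 76) (nat_lit 2090239808420) (nat_lit 76) (nat_lit 2070097158578) (nat_lit 1) (nat_lit 4) (nat_lit 2) (nat_lit 5) (nat_lit 2) (nat_lit 4) (nat_lit 279) (nat_lit 227) (nat_lit 154)))) (XT.nd (nat_lit 156) (nat_lit 0) (nat_lit 0) (XT.nd (nat_lit 78) (nat_lit 0) (nat_lit 0) (XT.lf (nat_lit 0) (nat_lit 100349481796) (nat_lit 76) (nat_lit 2375397021198) (nat_lit 76)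 (nat_lit 2355254273951) (nat_lit 1) (nat_lit 4) (nat_lit 2) (nat_lit 5) (nat_lit 2) (nat_lit 4) (nat_lit 280) (nat_lit 227) (nat_lit 153)) (XT.lf (nat_lit 0) (nat_lit 165418696496) (nat_lit 76) (nat_lit 2703328045119) (nat_lit 76) (nat_lit 2683185213171) (nat_lit 1) (nat_lit 4) (nat_lit 2) (nat_lit 5) (nat_lit 2) (nat_lit 4) (nat_lit 281) (nat_lit 227) (nat_lit 152))) (XT.nd (nat_lit 78) (nat_lit 0) (nat_lit 0) (XT.lf (nat_lit 0) (nat_lit 240247900228) (nat_lit 76) (nat_lit 3080448921954) (nat_lit 76) (nat_lit 3060306016354) (nat_lit 1) (nat_lit 4) (nat_lit 2) (nat_lit 5) (nat_lit 2) (nat_lit 4) (nat_lit 282) (nat_lit 227) (nat_lit 151)) (XT.nd (nat_lit 78) (nat_lit 0) (nat_lit 0) (XT.lf (nat_lit 0) (nat_lit 326301142631) (nat_lit 76) (nat_lit 3514138103643) (nat_lit 76) (nat_lit 3493995133996) (nat_lit 1) (nat_lit 4) (nat_lit 2) (nat_lit 5) (nat_lit 2) (nat_lit 4) (nat_lit 283) (nat_lit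 227) (nat_lit 150)) (XT.lf (nat_lit 0) (nat_lit 425262074099) (nat_lit 76) (nat_lit 4012880813305) (nat_lit 76) (nat_lit 3992737787966) (nat_lit 1) (nat_lit 4) (nat_lit 2) (nat_lit 5) (nat_lit 2) (nat_lit 4) (nat_lit 284) (nat_lit 227) (nat_lit 149)))))) (XT.nd (nat_lit 312) (nat_lit 0) (nat_lit 0) (XT.nd (nat_lit 156) (nat_lit 0) (nat_lit 0) (XT.nd (nat_lit 78) (nat_lit 0) (nat_lit 0) (XT.lf (nat_lit 0) (nat_lit 539066886770) (nat_lit 76) (nat_lit 4586435060476) (nat_lit 76) (nat_lit 4566291986710) (nat_lit 1) (nat_lit 4) (nat_lit 2) (nat_lit 5) (nat_lit 2) (nat_lit 4) (nat_lit 285) (nat_lit 227) (nat_lit 148)) (XT.lf (nat_lit 0) (nat_lit 669942196543) (nat_lit 76) (nat_lit 5246022558689) (nat_lit 76) (nat_lit 5225879442812) (nat_lit 1) (nat_lit 4) (nat_lit 2) (nat_lit 5) (nat_lit 2) (nat_lit 4) (nat_lit 286) (nat_lit 227) (nat_lit 147))) (XT.nd (nat_lit 78) (nat_lit 0) (nat_lit 0)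 (XT.lf (nat_lit 0) (nat_lit 820448607306) (nat_lit 76) (nat_lit 6004548280735) (nat_lit 76) (nat_lit 5984405128239) (nat_lit 1) (nat_lit 4) (nat_lit 2) (nat_lit 5) (nat_lit 2) (nat_lit 4) (nat_lit 287) (nat_lit 227) (nat_lit 146)) (XT.lf (nat_lit 0) (nat_lit 993530809704) (nat_lit 76) (nat_lit 6876852947262) (nat_lit 76) (nat_lit 6856709762924) (nat_lit 1) (nat_lit 4) (nat_lit 2) (nat_lit 5) (nat_lit 2) (nat_lit 4) (nat_lit 288) (nat_lit 227) (nat_lit 145)))) (XT.nd (nat_lit 156) (nat_lit 0) (nat_lit 0) (XT.nd (nat_lit 78) (nat_lit 0) (nat_lit 0) (XT.lf (nat_lit 0) (nat_lit 1192575194654) (nat_lit 76) (nat_lit 7880003388702) (nat_lit 76) (nat_lit 7859860176676) (nat_lit 1) (nat_lit 4) (nat_lit 2) (nat_lit 5) (nat_lit 2) (nat_lit 4) (nat_lit 289) (nat_lit 227) (nat_lit 144)) (XT.lf (nat_lit 0) (nat_lit 1421476108817) (nat_lit 76) (nat_lit 9033626461519) (nat_lit 76) (nat_lit 9013483225416)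 (nat_lit 1) (nat_lit 4) (nat_lit 2) (nat_lit 5) (nat_lit 2) (nat_lit 4) (nat_lit 290) (nat_lit 227) (nat_lit 143))) (XT.nd (nat_lit 78) (nat_lit 0) (nat_lit 0) (XT.lf (nat_lit 0) (nat_lit 1684712048340) (nat_lit 76) (nat_lit 10360293051920) (nat_lit 76) (nat_lit 10340149794880) (nat_lit 1) (nat_lit 4) (nat_lit 2) (nat_lit 5) (nat_lit 2) (nat_lit 4) (nat_lit 291) (nat_lit 227) (nat_lit 142)) (XT.nd (nat_lit 78) (nat_lit 0) (nat_lit 0) (XT.lf (nat_lit 0) (nat_lit 1987433281605) (nat_lit 76) (nat_lit 11885959680151) (nat_lit 76) (nat_lit 11865816404905) (nat_lit 1) (nat_lit 4) (nat_lit 2) (nat_lit 5) (nat_lit 2) (nat_lit 4) (nat_lit 292) (nat_lit 227) (nat_lit 141)) (XT.lf (nat_lit 0) (nat_lit 2335562615351) (nat_lit 76) (nat_lit 13640476345461) (nat_lit 76) (nat_lit 13620333054384) (nat_lit 1) (nat_lit 4) (nat_lit 2) (nat_lit 5) (nat_lit 2) (nat_lit 4) (nat_lit 293) (nat_lit 227) (nat_lit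 140))))))))
noncomputable def xc66 : XT := (XT.nd (nat_lit 30186) (nat_lit 0) (nat_lit 228) (XT.nd (nat_lit 29484) (nat_lit 0) (nat_lit 988) (XT.nd (nat_lit 312) (nat_lit 0) (nat_lit 0) (XT.nd (nat_lit 156) (nat_lit 0) (nat_lit 0) (XT.nd (nat_lit 78) (nat_lit 0) (nat_lit 0) (XT.lf (nat_lit 0) (nat_lit 2735911275671) (nat_lit 76) (nat_lit 15658170547823) (nat_lit 76) (nat_lit 15638027242979) (nat_lit 1) (nat_lit 4) (nat_lit 2) (nat_lit 5) (nat_lit 2) (nat_lit 4) (nat_lit 294) (nat_lit 227) (nat_lit 139)) (XT.lf (nat_lit 0) (nat_lit 3196312171138) (nat_lit 76) (nat_lit 17978518912935) (nat_lit 76) (nat_lit 17958375596121) (nat_lit 1) (nat_lit 4) (nat_lit 2) (nat_lit 5) (nat_lit 2) (nat_lit 4) (nat_lit 295) (nat_lit 227) (nat_lit 138))) (XT.nd (nat_lit 78) (nat_lit 0) (nat_lit 0) (XT.lf (nat_lit 0) (nat_lit 3725773145358) (nat_lit 76) (nat_lit 20646919560985) (nat_lit 76) (nat_lit 20626776233762)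 (nat_lit 1) (nat_lit 4) (nat_lit 2) (nat_lit 5) (nat_lit 2) (nat_lit 4) (nat_lit 296) (nat_lit 227) (nat_lit 137)) (XT.lf (nat_lit 0) (nat_lit 4334653217393) (nat_lit 76) (nat_lit 23715580330739) (nat_lit 76) (nat_lit 23695436994464) (nat_lit 1) (nat_lit 4) (nat_lit 2) (nat_lit 5) (nat_lit 2) (nat_lit 4) (nat_lit 297) (nat_lit 227) (nat_lit 136)))) (XT.nd (nat_lit 28938) (nat_lit 0) (nat_lit 1520) (XT.nd (nat_lit 78) (nat_lit 0) (nat_lit 0) (XT.lf (nat_lit 0) (nat_lit 5034865258216) (nat_lit 76) (nat_lit 27244540237256) (nat_lit 76) (nat_lit 27224396893111) (nat_lit 1) (nat_lit 4) (nat_lit 2) (nat_lit 5) (nat_lit 2) (nat_lit 4) (nat_lit 298) (nat_lit 227) (nat_lit 135)) (XT.lf (nat_lit 0) (nat_lit 5840109068627) (nat_lit 76) (nat_lit 31302844148274) (nat_lit 76) (nat_lit 31282700797284) (nat_lit 1) (nat_lit 4) (nat_lit 2) (nat_lit 5) (nat_lit 2) (nat_lit 4) (nat_lit 299) (nat_lit 227)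 (nat_lit 134))) (XT.nd (nat_lit 78) (nat_lit 304) (nat_lit 0) (XT.lf (nat_lit 0) (nat_lit 3079229345) (nat_lit 0) (nat_lit 3079229345) (nat_lit 228) (nat_lit 220057054) (nat_lit 25) (nat_lit 5) (nat_lit 25) (nat_lit 3) (nat_lit 28) (nat_lit 3) (nat_lit 228) (nat_lit 228) (nat_lit 204)) (XT.nd (nat_lit 78) (nat_lit 304) (nat_lit 0) (XT.lf (nat_lit 0) (nat_lit 12912087433) (nat_lit 0) (nat_lit 688396332) (nat_lit 228) (nat_lit 57145234) (nat_lit 25) (nat_lit 5) (nat_lit 25) (nat_lit 3) (nat_lit 28) (nat_lit 3) (nat_lit 229) (nat_lit 228) (nat_lit 203)) (XT.lf (nat_lit 0) (nat_lit 797995248) (nat_lit 304) (nat_lit 8397521509) (nat_lit 380) (nat_lit 5428433902) (nat_lit 21) (nat_lit 5) (nat_lit 25) (nat_lit 5) (nat_lit 26) (nat_lit 5) (nat_lit 230) (nat_lit 228) (nat_lit 202)))))) (XT.nd (nat_lit 312) (nat_lit 304) (nat_lit 0) (XT.nd (nat_lit 156) (nat_lit 228) (nat_lit 0) (XT.nd (nat_lit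 78) (nat_lit 0) (nat_lit 76) (XT.lf (nat_lit 0) (nat_lit 1789905349) (nat_lit 304) (nat_lit 1486227324) (nat_lit 380) (nat_lit 12456824918) (nat_lit 21) (nat_lit 5) (nat_lit 25) (nat_lit 5) (nat_lit 26) (nat_lit 5) (nat_lit 231) (nat_lit 228) (nat_lit 201)) (XT.lf (nat_lit 0) (nat_lit 3331451297) (nat_lit 304) (nat_lit 10085136333) (nat_lit 76) (nat_lit 3531859289) (nat_lit 22) (nat_lit 5) (nat_lit 26) (nat_lit 5) (nat_lit 23) (nat_lit 5) (nat_lit 232) (nat_lit 228) (nat_lit 200))) (XT.nd (nat_lit 78) (nat_lit 304) (nat_lit 0) (XT.lf (nat_lit 0) (nat_lit 5295475103) (nat_lit 304) (nat_lit 1908892719) (nat_lit 76) (nat_lit 11113429934) (nat_lit 22) (nat_lit 5) (nat_lit 26) (nat_lit 5) (nat_lit 23) (nat_lit 5) (nat_lit 233) (nat_lit 228) (nat_lit 199)) (XT.lf (nat_lit 0) (nat_lit 7866354014) (nat_lit 380) (nat_lit 11680183362) (nat_lit 76) (nat_lit 299371771) (nat_lit 18) (nat_lit 5) (nat_lit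 23) (nat_lit 5) (nat_lit 19) (nat_lit 5) (nat_lit 234) (nat_lit 228) (nat_lit 198)))) (XT.nd (nat_lit 156) (nat_lit 152) (nat_lit 0) (XT.nd (nat_lit 78) (nat_lit 152) (nat_lit 0) (XT.lf (nat_lit 0) (nat_lit 11233857567) (nat_lit 380) (nat_lit 2014483914) (nat_lit 76) (nat_lit 8293416982) (nat_lit 18) (nat_lit 5) (nat_lit 23) (nat_lit 5) (nat_lit 19) (nat_lit 5) (nat_lit 235) (nat_lit 228) (nat_lit 197)) (XT.lf (nat_lit 0) (nat_lit 9948046526) (nat_lit 152) (nat_lit 5538535406) (nat_lit 228) (nat_lit 7948536898) (nat_lit 16) (nat_lit 5) (nat_lit 18) (nat_lit 5) (nat_lit 19) (nat_lit 5) (nat_lit 236) (nat_lit 228) (nat_lit 196))) (XT.nd (nat_lit 78) (nat_lit 152) (nat_lit 0) (XT.lf (nat_lit 0) (nat_lit 20595799229) (nat_lit 228) (nat_lit 1849241100) (nat_lit 76) (nat_lit 3134783929) (nat_lit 16) (nat_lit 5) (nat_lit 19) (nat_lit 5) (nat_lit 17) (nat_lit 4) (nat_lit 237) (nat_lit 228) (nat_lit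 195)) (XT.nd (nat_lit 78) (nat_lit 76) (nat_lit 0) (XT.lf (nat_lit 0) (nat_lit 12332729712) (nat_lit 76) (nat_lit 14887405241) (nat_lit 152) (nat_lit 713902041) (nat_lit 15) (nat_lit 5) (nat_lit 16) (nat_lit 5) (nat_lit 17) (nat_lit 4) (nat_lit 238) (nat_lit 228) (nat_lit 194)) (XT.lf (nat_lit 0) (nat_lit 3899425928) (nat_lit 152) (nat_lit 1992076746) (nat_lit 76) (nat_lit 24712450455) (nat_lit 14) (nat_lit 5) (nat_lit 16) (nat_lit 5) (nat_lit 15) (nat_lit 5) (nat_lit 239) (nat_lit 228) (nat_lit 193))))))) (XT.nd (nat_lit 702) (nat_lit 304) (nat_lit 0) (XT.nd (nat_lit 312) (nat_lit 228) (nat_lit 0) (XT.nd (nat_lit 156) (nat_lit 76) (nat_lit 0) (XT.nd (nat_lit 78) (nat_lit 0) (nat_lit 0) (XT.lf (nat_lit 0) (nat_lit 9942850527) (nat_lit 228) (nat_lit 18873891875) (nat_lit 76) (nat_lit 4730910426) (nat_lit 12) (nat_lit 5) (nat_lit 15) (nat_lit 5) (nat_lit 13) (nat_lit 4) (nat_lit 240) (nat_lit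 228) (nat_lit 192)) (XT.lf (nat_lit 0) (nat_lit 17261869146) (nat_lit 228) (nat_lit 3172507723) (nat_lit 76) (nat_lit 16443232525) (nat_lit 12) (nat_lit 5) (nat_lit 15) (nat_lit 5) (nat_lit 13) (nat_lit 4) (nat_lit 241) (nat_lit 228) (nat_lit 191))) (XT.nd (nat_lit 78) (nat_lit 0) (nat_lit 0) (XT.lf (nat_lit 0) (nat_lit 16307098058) (nat_lit 76) (nat_lit 10029008711) (nat_lit 152) (nat_lit 14272403361) (nat_lit 11) (nat_lit 5) (nat_lit 12) (nat_lit 5) (nat_lit 13) (nat_lit 4) (nat_lit 242) (nat_lit 228) (nat_lit 190)) (XT.lf (nat_lit 0) (nat_lit 37008299634) (nat_lit 152) (nat_lit 5926644220) (nat_lit 0) (nat_lit 1928627548) (nat_lit 11) (nat_lit 5) (nat_lit 13) (nat_lit 4) (nat_lit 11) (nat_lit 4) (nat_lit 243) (nat_lit 228) (nat_lit 189)))) (XT.nd (nat_lit 156) (nat_lit 76) (nat_lit 0) (XT.nd (nat_lit 78) (nat_lit 0) (nat_lit 0) (XT.lf (nat_lit 0) (nat_lit 751491945) (nat_lit 152)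 (nat_lit 33483693249) (nat_lit 76) (nat_lit 15346988520) (nat_lit 9) (nat_lit 5) (nat_lit 11) (nat_lit 5) (nat_lit 10) (nat_lit 4) (nat_lit 244) (nat_lit 228) (nat_lit 188)) (XT.lf (nat_lit 0) (nat_lit 10154929849) (nat_lit 152) (nat_lit 13283457276) (nat_lit 76) (nat_lit 31467618491) (nat_lit 9) (nat_lit 5) (nat_lit 11) (nat_lit 5) (nat_lit 10) (nat_lit 4) (nat_lit 245) (nat_lit 228) (nat_lit 187))) (XT.nd (nat_lit 78) (nat_lit 0) (nat_lit 0) (XT.lf (nat_lit 0) (nat_lit 10894074745) (nat_lit 76) (nat_lit 10513157366) (nat_lit 152) (nat_lit 39555455541) (nat_lit 8) (nat_lit 5) (nat_lit 9) (nat_lit 5) (nat_lit 10) (nat_lit 4) (nat_lit 246) (nat_lit 228) (nat_lit 186)) (XT.nd (nat_lit 78) (nat_lit 0) (nat_lit 0) (XT.lf (nat_lit 0) (nat_lit 35242587553) (nat_lit 152) (nat_lit 27868827873) (nat_lit 0) (nat_lit 4682199437) (nat_lit 8) (nat_lit 5) (nat_lit 10) (nat_lit 4) (nat_lit 8) (nat_lit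 4) (nat_lit 247) (nat_lit 228) (nat_lit 185)) (XT.lf (nat_lit 0) (nat_lit 51643108253) (nat_lit 152) (nat_lit 2859703106) (nat_lit 0) (nat_lit 21072911414) (nat_lit 8) (nat_lit 5) (nat_lit 10) (nat_lit 4) (nat_lit 8) (nat_lit 4) (nat_lit 248) (nat_lit 228) (nat_lit 184)))))) (XT.nd (nat_lit 312) (nat_lit 76) (nat_lit 0) (XT.nd (nat_lit 156) (nat_lit 76) (nat_lit 0) (XT.nd (nat_lit 78) (nat_lit 76) (nat_lit 0) (XT.lf (nat_lit 0) (nat_lit 28412911657) (nat_lit 76) (nat_lit 43257952963) (nat_lit 76) (nat_lit 12679226799) (nat_lit 7) (nat_lit 4) (nat_lit 8) (nat_lit 5) (nat_lit 8) (nat_lit 4) (nat_lit 249) (nat_lit 228) (nat_lit 183)) (XT.lf (nat_lit 0) (nat_lit 386169991) (nat_lit 152) (nat_lit 29755877486) (nat_lit 76) (nat_lit 64274852099) (nat_lit 6) (nat_lit 5) (nat_lit 8) (nat_lit 5) (nat_lit 7) (nat_lit 4) (nat_lit 250) (nat_lit 228) (nat_lit 182))) (XT.nd (nat_lit 78) (nat_lit 76)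 (nat_lit 0) (XT.lf (nat_lit 0) (nat_lit 14105211269) (nat_lit 152) (nat_lit 266388134) (nat_lit 76) (nat_lit 91532783660) (nat_lit 6) (nat_lit 5) (nat_lit 8) (nat_lit 5) (nat_lit 7) (nat_lit 4) (nat_lit 251) (nat_lit 228) (nat_lit 181)) (XT.lf (nat_lit 0) (nat_lit 31632307930) (nat_lit 152) (nat_lit 82194984629) (nat_lit 0) (nat_lit 5025177032) (nat_lit 5) (nat_lit 5) (nat_lit 7) (nat_lit 4) (nat_lit 5) (nat_lit 4) (nat_lit 252) (nat_lit 228) (nat_lit 180)))) (XT.nd (nat_lit 156) (nat_lit 76) (nat_lit 0) (XT.nd (nat_lit 78) (nat_lit 0) (nat_lit 0) (XT.lf (nat_lit 0) (nat_lit 52480555672) (nat_lit 152) (nat_lit 55289225286) (nat_lit 0) (nat_lit 25869184191) (nat_lit 5) (nat_lit 5) (nat_lit 7) (nat_lit 4) (nat_lit 5) (nat_lit 4) (nat_lit 253) (nat_lit 228) (nat_lit 179)) (XT.lf (nat_lit 0) (nat_lit 76450072560) (nat_lit 152) (nat_lit 24359251928) (nat_lit 0) (nat_lit 49835013617) (nat_lit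 5) (nat_lit 5) (nat_lit 7) (nat_lit 4) (nat_lit 5) (nat_lit 4) (nat_lit 254) (nat_lit 228) (nat_lit 178))) (XT.nd (nat_lit 78) (nat_lit 0) (nat_lit 0) (XT.lf (nat_lit 0) (nat_lit 12294641063) (nat_lit 76) (nat_lit 92224281207) (nat_lit 76) (nat_lit 65606015775) (nat_lit 4) (nat_lit 4) (nat_lit 5) (nat_lit 5) (nat_lit 5) (nat_lit 4) (nat_lit 255) (nat_lit 228) (nat_lit 177)) (XT.nd (nat_lit 78) (nat_lit 0) (nat_lit 0) (XT.lf (nat_lit 0) (nat_lit 57174595884) (nat_lit 76) (nat_lit 80891915002) (nat_lit 76) (nat_lit 54270861318) (nat_lit 4) (nat_lit 4) (nat_lit 5) (nat_lit 5) (nat_lit 5) (nat_lit 4) (nat_lit 256) (nat_lit 228) (nat_lit 176)) (XT.lf (nat_lit 0) (nat_lit 108778135349) (nat_lit 76) (nat_lit 67863830196) (nat_lit 76) (nat_lit 41240351945) (nat_lit 4) (nat_lit 4) (nat_lit 5) (nat_lit 5) (nat_lit 5) (nat_lit 4) (nat_lit 257) (nat_lit 228) (nat_lit 175))))))))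
noncomputable def xc67 : XT := (XT.nd (nat_lit 1404) (nat_lit 76) (nat_lit 0) (XT.nd (nat_lit 702) (nat_lit 0) (nat_lit 0) (XT.nd (nat_lit 312) (nat_lit 0) (nat_lit 0) (XT.nd (nat_lit 156) (nat_lit 152) (nat_lit 0) (XT.nd (nat_lit 78) (nat_lit 0) (nat_lit 0) (XT.lf (nat_lit 0) (nat_lit 168114893926) (nat_lit 76) (nat_lit 52885129479) (nat_lit 76) (nat_lit 26259542909) (nat_lit 4) (nat_lit 4) (nat_lit 5) (nat_lit 5) (nat_lit 5) (nat_lit 4) (nat_lit 258) (nat_lit 228) (nat_lit 174)) (XT.lf (nat_lit 0) (nat_lit 236345808196) (nat_lit 76) (nat_lit 35662751314) (nat_lit 76) (nat_lit 9035331425) (nat_lit 4) (nat_lit 4) (nat_lit 5) (nat_lit 5) (nat_lit 5) (nat_lit 4) (nat_lit 259) (nat_lit 228) (nat_lit 173))) (XT.nd (nat_lit 78) (nat_lit 76) (nat_lit 0) (XT.lf (nat_lit 0) (nat_lit 9810522357) (nat_lit 152) (nat_lit 5536391013) (nat_lit 76) (nat_lit 304482485713) (nat_lit 3) (nat_lit 5) (nat_lit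 5) (nat_lit 5) (nat_lit 4) (nat_lit 4) (nat_lit 260) (nat_lit 228) (nat_lit 172)) (XT.lf (nat_lit 0) (nat_lit 32768171302) (nat_lit 152) (nat_lit 321657230755) (nat_lit 0) (nat_lit 9611301445) (nat_lit 2) (nat_lit 5) (nat_lit 4) (nat_lit 4) (nat_lit 2) (nat_lit 4) (nat_lit 261) (nat_lit 228) (nat_lit 171)))) (XT.nd (nat_lit 156) (nat_lit 0) (nat_lit 0) (XT.nd (nat_lit 78) (nat_lit 0) (nat_lit 0) (XT.lf (nat_lit 0) (nat_lit 60200929233) (nat_lit 152) (nat_lit 317476446169) (nat_lit 0) (nat_lit 37043011169) (nat_lit 2) (nat_lit 5) (nat_lit 4) (nat_lit 4) (nat_lit 2) (nat_lit 4) (nat_lit 262) (nat_lit 228) (nat_lit 170)) (XT.lf (nat_lit 0) (nat_lit 91746403400) (nat_lit 152) (nat_lit 312672976409) (nat_lit 0) (nat_lit 68587573851) (nat_lit 2) (nat_lit 5) (nat_lit 4) (nat_lit 4) (nat_lit 2) (nat_lit 4) (nat_lit 263) (nat_lit 228) (nat_lit 169))) (XT.nd (nat_lit 78) (nat_lit 0) (nat_lit 0)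 (XT.lf (nat_lit 0) (nat_lit 128021787862) (nat_lit 152) (nat_lit 307152840546) (nat_lit 0) (nat_lit 104862165719) (nat_lit 2) (nat_lit 5) (nat_lit 4) (nat_lit 4) (nat_lit 2) (nat_lit 4) (nat_lit 264) (nat_lit 228) (nat_lit 168)) (XT.nd (nat_lit 78) (nat_lit 0) (nat_lit 0) (XT.lf (nat_lit 0) (nat_lit 169736818404) (nat_lit 152) (nat_lit 300808035922) (nat_lit 0) (nat_lit 146576507047) (nat_lit 2) (nat_lit 5) (nat_lit 4) (nat_lit 4) (nat_lit 2) (nat_lit 4) (nat_lit 265) (nat_lit 228) (nat_lit 167)) (XT.lf (nat_lit 0) (nat_lit 217707658665) (nat_lit 152) (nat_lit 293514425054) (nat_lit 0) (nat_lit 194546747993) (nat_lit 2) (nat_lit 5) (nat_lit 4) (nat_lit 4) (nat_lit 2) (nat_lit 4) (nat_lit 266) (nat_lit 228) (nat_lit 166)))))) (XT.nd (nat_lit 312) (nat_lit 0) (nat_lit 0) (XT.nd (nat_lit 156) (nat_lit 0) (nat_lit 0) (XT.nd (nat_lit 78) (nat_lit 0) (nat_lit 0) (XT.lf (nat_lit 0) (nat_lit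 272872868564) (nat_lit 152) (nat_lit 285129306861) (nat_lit 0) (nat_lit 249711436748) (nat_lit 2) (nat_lit 5) (nat_lit 4) (nat_lit 4) (nat_lit 2) (nat_lit 4) (nat_lit 267) (nat_lit 228) (nat_lit 165)) (XT.lf (nat_lit 0) (nat_lit 336311767425) (nat_lit 152) (nat_lit 275488624682) (nat_lit 0) (nat_lit 313149882440) (nat_lit 2) (nat_lit 5) (nat_lit 4) (nat_lit 4) (nat_lit 2) (nat_lit 4) (nat_lit 268) (nat_lit 228) (nat_lit 164))) (XT.nd (nat_lit 78) (nat_lit 0) (nat_lit 0) (XT.lf (nat_lit 0) (nat_lit 409265551096) (nat_lit 152) (nat_lit 264403756475) (nat_lit 0) (nat_lit 386103272051) (nat_lit 2) (nat_lit 5) (nat_lit 4) (nat_lit 4) (nat_lit 2) (nat_lit 4) (nat_lit 269) (nat_lit 228) (nat_lit 163)) (XT.lf (nat_lit 0) (nat_lit 493161576213) (nat_lit 152) (nat_lit 251657824383) (nat_lit 0) (nat_lit 469998954507) (nat_lit 2) (nat_lit 5) (nat_lit 4) (nat_lit 4) (nat_lit 2) (nat_lit 4) (nat_lit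 270) (nat_lit 228) (nat_lit 162)))) (XT.nd (nat_lit 156) (nat_lit 0) (nat_lit 0) (XT.nd (nat_lit 78) (nat_lit 0) (nat_lit 0) (XT.lf (nat_lit 0) (nat_lit 589641286745) (nat_lit 152) (nat_lit 237001451475) (nat_lit 0) (nat_lit 566478367074) (nat_lit 2) (nat_lit 5) (nat_lit 4) (nat_lit 4) (nat_lit 2) (nat_lit 4) (nat_lit 271) (nat_lit 228) (nat_lit 161)) (XT.lf (nat_lit 0) (nat_lit 700592329205) (nat_lit 152) (nat_lit 220147882627) (nat_lit 0) (nat_lit 677429150432) (nat_lit 2) (nat_lit 5) (nat_lit 4) (nat_lit 4) (nat_lit 2) (nat_lit 4) (nat_lit 272) (nat_lit 228) (nat_lit 160))) (XT.nd (nat_lit 78) (nat_lit 0) (nat_lit 0) (XT.lf (nat_lit 0) (nat_lit 828185484856) (nat_lit 152) (nat_lit 200767374102) (nat_lit 0) (nat_lit 805022080778) (nat_lit 2) (nat_lit 5) (nat_lit 4) (nat_lit 4) (nat_lit 2) (nat_lit 4) (nat_lit 273) (nat_lit 228) (nat_lit 159)) (XT.nd (nat_lit 78) (nat_lit 0) (nat_lit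 0) (XT.lf (nat_lit 0) (nat_lit 974917141527) (nat_lit 152) (nat_lit 178480742038) (nat_lit 0) (nat_lit 951753541532) (nat_lit 2) (nat_lit 5) (nat_lit 4) (nat_lit 4) (nat_lit 2) (nat_lit 4) (nat_lit 274) (nat_lit 228) (nat_lit 158)) (XT.lf (nat_lit 0) (nat_lit 1143658135979) (nat_lit 152) (nat_lit 152851943632) (nat_lit 0) (nat_lit 1120494365621) (nat_lit 2) (nat_lit 5) (nat_lit 4) (nat_lit 4) (nat_lit 2) (nat_lit 4) (nat_lit 275) (nat_lit 228) (nat_lit 157))))))) (XT.nd (nat_lit 702) (nat_lit 0) (nat_lit 0) (XT.nd (nat_lit 312) (nat_lit 76) (nat_lit 0) (XT.nd (nat_lit 156) (nat_lit 0) (nat_lit 0) (XT.nd (nat_lit 78) (nat_lit 0) (nat_lit 0) (XT.lf (nat_lit 0) (nat_lit 1337709922451) (nat_lit 152) (nat_lit 123379545873) (nat_lit 0) (nat_lit 1314546003951) (nat_lit 2) (nat_lit 5) (nat_lit 4) (nat_lit 4) (nat_lit 2) (nat_lit 4) (nat_lit 276) (nat_lit 228) (nat_lit 156)) (XT.lf (nat_lit 0)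 (nat_lit 1560869166330) (nat_lit 152) (nat_lit 89486914892) (nat_lit 0) (nat_lit 1537705119012) (nat_lit 2) (nat_lit 5) (nat_lit 4) (nat_lit 4) (nat_lit 2) (nat_lit 4) (nat_lit 277) (nat_lit 228) (nat_lit 155))) (XT.nd (nat_lit 78) (nat_lit 0) (nat_lit 0) (XT.lf (nat_lit 0) (nat_lit 1817502026737) (nat_lit 152) (nat_lit 50510933995) (nat_lit 0) (nat_lit 1794337867402) (nat_lit 2) (nat_lit 5) (nat_lit 4) (nat_lit 4) (nat_lit 2) (nat_lit 4) (nat_lit 278) (nat_lit 228) (nat_lit 154)) (XT.lf (nat_lit 0) (nat_lit 2112629581374) (nat_lit 152) (nat_lit 5689029643) (nat_lit 0) (nat_lit 2089465324634) (nat_lit 2) (nat_lit 5) (nat_lit 4) (nat_lit 4) (nat_lit 2) (nat_lit 4) (nat_lit 279) (nat_lit 228) (nat_lit 153)))) (XT.nd (nat_lit 156) (nat_lit 0) (nat_lit 0) (XT.nd (nat_lit 78) (nat_lit 0) (nat_lit 0) (XT.lf (nat_lit 0) (nat_lit 50337105702) (nat_lit 76) (nat_lit 2403773311507) (nat_lit 76)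 (nat_lit 2380608970066) (nat_lit 1) (nat_lit 4) (nat_lit 2) (nat_lit 5) (nat_lit 2) (nat_lit 4) (nat_lit 280) (nat_lit 228) (nat_lit 152)) (XT.lf (nat_lit 0) (nat_lit 115406137531) (nat_lit 76) (nat_lit 2731704428137) (nat_lit 76) (nat_lit 2708540013044) (nat_lit 1) (nat_lit 4) (nat_lit 2) (nat_lit 5) (nat_lit 2) (nat_lit 4) (nat_lit 281) (nat_lit 228) (nat_lit 151))) (XT.nd (nat_lit 78) (nat_lit 0) (nat_lit 0) (XT.lf (nat_lit 0) (nat_lit 190235182245) (nat_lit 76) (nat_lit 3108825385590) (nat_lit 76) (nat_lit 3085660906451) (nat_lit 1) (nat_lit 4) (nat_lit 2) (nat_lit 5) (nat_lit 2) (nat_lit 4) (nat_lit 282) (nat_lit 228) (nat_lit 150)) (XT.nd (nat_lit 78) (nat_lit 0) (nat_lit 0) (XT.lf (nat_lit 0) (nat_lit 276288286371) (nat_lit 76) (nat_lit 3542514637381) (nat_lit 76) (nat_lit 3519350102550) (nat_lit 1) (nat_lit 4) (nat_lit 2) (nat_lit 5) (nat_lit 2) (nat_lit 4) (nat_lit 283) (nat_lit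 228) (nat_lit 149)) (XT.lf (nat_lit 0) (nat_lit 375249097598) (nat_lit 76) (nat_lit 4041257408001) (nat_lit 76) (nat_lit 4018092824742) (nat_lit 1) (nat_lit 4) (nat_lit 2) (nat_lit 5) (nat_lit 2) (nat_lit 4) (nat_lit 284) (nat_lit 228) (nat_lit 148)))))) (XT.nd (nat_lit 312) (nat_lit 0) (nat_lit 0) (XT.nd (nat_lit 156) (nat_lit 0) (nat_lit 0) (XT.nd (nat_lit 78) (nat_lit 0) (nat_lit 0) (XT.lf (nat_lit 0) (nat_lit 489053805712) (nat_lit 76) (nat_lit 4614811708180) (nat_lit 76) (nat_lit 4591647082810) (nat_lit 1) (nat_lit 4) (nat_lit 2) (nat_lit 5) (nat_lit 2) (nat_lit 4) (nat_lit 285) (nat_lit 228) (nat_lit 147)) (XT.lf (nat_lit 0) (nat_lit 619929024566) (nat_lit 76) (nat_lit 5274399252487) (nat_lit 76) (nat_lit 5251234590498) (nat_lit 1) (nat_lit 4) (nat_lit 2) (nat_lit 5) (nat_lit 2) (nat_lit 4) (nat_lit 286) (nat_lit 228) (nat_lit 146))) (XT.nd (nat_lit 78) (nat_lit 0) (nat_lit 0)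 (XT.lf (nat_lit 0) (nat_lit 770435356269) (nat_lit 76) (nat_lit 6032925014613) (nat_lit 76) (nat_lit 6009760320783) (nat_lit 1) (nat_lit 4) (nat_lit 2) (nat_lit 5) (nat_lit 2) (nat_lit 4) (nat_lit 287) (nat_lit 228) (nat_lit 145)) (XT.lf (nat_lit 0) (nat_lit 943517489919) (nat_lit 76) (nat_lit 6905229715994) (nat_lit 76) (nat_lit 6882064994475) (nat_lit 1) (nat_lit 4) (nat_lit 2) (nat_lit 5) (nat_lit 2) (nat_lit 4) (nat_lit 288) (nat_lit 228) (nat_lit 144)))) (XT.nd (nat_lit 156) (nat_lit 0) (nat_lit 0) (XT.nd (nat_lit 78) (nat_lit 0) (nat_lit 0) (XT.lf (nat_lit 0) (nat_lit 1142561815088) (nat_lit 76) (nat_lit 7908380187741) (nat_lit 76) (nat_lit 7885215442145) (nat_lit 1) (nat_lit 4) (nat_lit 2) (nat_lit 5) (nat_lit 2) (nat_lit 4) (nat_lit 289) (nat_lit 228) (nat_lit 143)) (XT.lf (nat_lit 0) (nat_lit 1371462677267) (nat_lit 76) (nat_lit 9062003286912) (nat_lit 76) (nat_lit 9038838520379)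 (nat_lit 1) (nat_lit 4) (nat_lit 2) (nat_lit 5) (nat_lit 2) (nat_lit 4) (nat_lit 290) (nat_lit 228) (nat_lit 142))) (XT.nd (nat_lit 78) (nat_lit 0) (nat_lit 0) (XT.lf (nat_lit 0) (nat_lit 1634698571587) (nat_lit 76) (nat_lit 10388669900229) (nat_lit 76) (nat_lit 10365505115491) (nat_lit 1) (nat_lit 4) (nat_lit 2) (nat_lit 5) (nat_lit 2) (nat_lit 4) (nat_lit 291) (nat_lit 228) (nat_lit 141)) (XT.nd (nat_lit 78) (nat_lit 0) (nat_lit 0) (XT.lf (nat_lit 0) (nat_lit 1937419765546) (nat_lit 76) (nat_lit 11914336548388) (nat_lit 76) (nat_lit 11891171747818) (nat_lit 1) (nat_lit 4) (nat_lit 2) (nat_lit 5) (nat_lit 2) (nat_lit 4) (nat_lit 292) (nat_lit 228) (nat_lit 140)) (XT.lf (nat_lit 0) (nat_lit 2285549065111) (nat_lit 76) (nat_lit 13668853231026) (nat_lit 76) (nat_lit 13645688416690) (nat_lit 1) (nat_lit 4) (nat_lit 2) (nat_lit 5) (nat_lit 2) (nat_lit 4) (nat_lit 293) (nat_lit 228) (nat_lit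 139))))))))
noncomputable def xc68 : XT := (XT.nd (nat_lit 30264) (nat_lit 0) (nat_lit 228) (XT.nd (nat_lit 29562) (nat_lit 0) (nat_lit 988) (XT.nd (nat_lit 312) (nat_lit 0) (nat_lit 0) (XT.nd (nat_lit 156) (nat_lit 0) (nat_lit 0) (XT.nd (nat_lit 78) (nat_lit 0) (nat_lit 0) (XT.lf (nat_lit 0) (nat_lit 2685897695710) (nat_lit 76) (nat_lit 15686547448456) (nat_lit 76) (nat_lit 15663382622149) (nat_lit 1) (nat_lit 4) (nat_lit 2) (nat_lit 5) (nat_lit 2) (nat_lit 4) (nat_lit 294) (nat_lit 228) (nat_lit 138)) (XT.lf (nat_lit 0) (nat_lit 3146298565332) (nat_lit 76) (nat_lit 18006895826671) (nat_lit 76) (nat_lit 17983730989955) (nat_lit 1) (nat_lit 4) (nat_lit 2) (nat_lit 5) (nat_lit 2) (nat_lit 4) (nat_lit 295) (nat_lit 228) (nat_lit 137))) (XT.nd (nat_lit 78) (nat_lit 0) (nat_lit 0) (XT.lf (nat_lit 0) (nat_lit 3675759517078) (nat_lit 76) (nat_lit 20675296486114) (nat_lit 76) (nat_lit 20652131640347)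 (nat_lit 1) (nat_lit 4) (nat_lit 2) (nat_lit 5) (nat_lit 2) (nat_lit 4) (nat_lit 296) (nat_lit 228) (nat_lit 136)) (XT.lf (nat_lit 0) (nat_lit 4284639569570) (nat_lit 76) (nat_lit 23743957265775) (nat_lit 76) (nat_lit 23720792412137) (nat_lit 1) (nat_lit 4) (nat_lit 2) (nat_lit 5) (nat_lit 2) (nat_lit 4) (nat_lit 297) (nat_lit 228) (nat_lit 135)))) (XT.nd (nat_lit 29016) (nat_lit 0) (nat_lit 1444) (XT.nd (nat_lit 78) (nat_lit 0) (nat_lit 0) (XT.lf (nat_lit 0) (nat_lit 4984851593400) (nat_lit 76) (nat_lit 27272917180908) (nat_lit 76) (nat_lit 27249752320426) (nat_lit 1) (nat_lit 4) (nat_lit 2) (nat_lit 5) (nat_lit 2) (nat_lit 4) (nat_lit 298) (nat_lit 228) (nat_lit 134)) (XT.lf (nat_lit 0) (nat_lit 5790095389034) (nat_lit 76) (nat_lit 31331221099418) (nat_lit 76) (nat_lit 31308056232984) (nat_lit 1) (nat_lit 4) (nat_lit 2) (nat_lit 5) (nat_lit 2) (nat_lit 4) (nat_lit 299) (nat_lit 228)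 (nat_lit 133))) (XT.nd (nat_lit 78) (nat_lit 0) (nat_lit 0) (XT.lf (nat_lit 0) (nat_lit 132717010) (nat_lit 380) (nat_lit 3573908822) (nat_lit 380) (nat_lit 3573908822) (nat_lit 20) (nat_lit 3) (nat_lit 25) (nat_lit 3) (nat_lit 25) (nat_lit 5) (nat_lit 229) (nat_lit 229) (nat_lit 202)) (XT.nd (nat_lit 78) (nat_lit 0) (nat_lit 76) (XT.lf (nat_lit 0) (nat_lit 571877863) (nat_lit 380) (nat_lit 489796590) (nat_lit 380) (nat_lit 14547041357) (nat_lit 20) (nat_lit 3) (nat_lit 25) (nat_lit 3) (nat_lit 25) (nat_lit 5) (nat_lit 230) (nat_lit 229) (nat_lit 201)) (XT.lf (nat_lit 0) (nat_lit 1472535432) (nat_lit 304) (nat_lit 9212605172) (nat_lit 380) (nat_lit 6046390369) (nat_lit 21) (nat_lit 5) (nat_lit 25) (nat_lit 5) (nat_lit 26) (nat_lit 5) (nat_lit 231) (nat_lit 229) (nat_lit 200)))))) (XT.nd (nat_lit 312) (nat_lit 304) (nat_lit 0) (XT.nd (nat_lit 156) (nat_lit 228) (nat_lit 0) (XT.nd (nat_lit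 78) (nat_lit 0) (nat_lit 76) (XT.lf (nat_lit 0) (nat_lit 2540861497) (nat_lit 304) (nat_lit 1322600932) (nat_lit 380) (nat_lit 14154645508) (nat_lit 21) (nat_lit 5) (nat_lit 25) (nat_lit 5) (nat_lit 26) (nat_lit 5) (nat_lit 232) (nat_lit 229) (nat_lit 199)) (XT.lf (nat_lit 0) (nat_lit 4263261656) (nat_lit 304) (nat_lit 11158861882) (nat_lit 76) (nat_lit 4001669788) (nat_lit 22) (nat_lit 5) (nat_lit 26) (nat_lit 5) (nat_lit 23) (nat_lit 5) (nat_lit 233) (nat_lit 229) (nat_lit 198))) (XT.nd (nat_lit 78) (nat_lit 304) (nat_lit 0) (XT.lf (nat_lit 0) (nat_lit 6465529121) (nat_lit 304) (nat_lit 1813448452) (nat_lit 76) (nat_lit 12728297995) (nat_lit 22) (nat_lit 5) (nat_lit 26) (nat_lit 5) (nat_lit 23) (nat_lit 5) (nat_lit 234) (nat_lit 229) (nat_lit 197)) (XT.lf (nat_lit 0) (nat_lit 9389057545) (nat_lit 380) (nat_lit 13015857377) (nat_lit 76) (nat_lit 364875041) (nat_lit 18) (nat_lit 5) (nat_lit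 23) (nat_lit 5) (nat_lit 19) (nat_lit 5) (nat_lit 235) (nat_lit 229) (nat_lit 196)))) (XT.nd (nat_lit 156) (nat_lit 152) (nat_lit 0) (XT.nd (nat_lit 78) (nat_lit 152) (nat_lit 0) (XT.lf (nat_lit 0) (nat_lit 13216980054) (nat_lit 380) (nat_lit 1954609989) (nat_lit 76) (nat_lit 9555340403) (nat_lit 18) (nat_lit 5) (nat_lit 23) (nat_lit 5) (nat_lit 19) (nat_lit 5) (nat_lit 236) (nat_lit 229) (nat_lit 195)) (XT.lf (nat_lit 0) (nat_lit 11785843358) (nat_lit 152) (nat_lit 6297204570) (nat_lit 228) (nat_lit 8825112392) (nat_lit 16) (nat_lit 5) (nat_lit 18) (nat_lit 5) (nat_lit 19) (nat_lit 5) (nat_lit 237) (nat_lit 229) (nat_lit 194))) (XT.nd (nat_lit 78) (nat_lit 152) (nat_lit 0) (XT.lf (nat_lit 0) (nat_lit 23925573177) (nat_lit 228) (nat_lit 1791992292) (nat_lit 76) (nat_lit 3662124401) (nat_lit 16) (nat_lit 5) (nat_lit 19) (nat_lit 5) (nat_lit 17) (nat_lit 4) (nat_lit 238) (nat_lit 229)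 (nat_lit 193)) (XT.nd (nat_lit 78) (nat_lit 76) (nat_lit 0) (XT.lf (nat_lit 0) (nat_lit 14502063462) (nat_lit 76) (nat_lit 17023365425) (nat_lit 152) (nat_lit 564461804) (nat_lit 15) (nat_lit 5) (nat_lit 16) (nat_lit 5) (nat_lit 17) (nat_lit 4) (nat_lit 239) (nat_lit 229) (nat_lit 192)) (XT.lf (nat_lit 0) (nat_lit 4687546656) (nat_lit 152) (nat_lit 1992580458) (nat_lit 76) (nat_lit 28483249264) (nat_lit 14) (nat_lit 5) (nat_lit 16) (nat_lit 5) (nat_lit 15) (nat_lit 5) (nat_lit 240) (nat_lit 229) (nat_lit 191))))))) (XT.nd (nat_lit 702) (nat_lit 304) (nat_lit 0) (XT.nd (nat_lit 312) (nat_lit 228) (nat_lit 0) (XT.nd (nat_lit 156) (nat_lit 76) (nat_lit 0) (XT.nd (nat_lit 78) (nat_lit 0) (nat_lit 0) (XT.lf (nat_lit 0) (nat_lit 11626756281) (nat_lit 228) (nat_lit 21395340328) (nat_lit 76) (nat_lit 5528233553) (nat_lit 12) (nat_lit 5) (nat_lit 15) (nat_lit 5) (nat_lit 13) (nat_lit 4) (nat_lit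 241) (nat_lit 229) (nat_lit 190)) (XT.lf (nat_lit 0) (nat_lit 20018521843) (nat_lit 228) (nat_lit 3379135769) (nat_lit 76) (nat_lit 18985966590) (nat_lit 12) (nat_lit 5) (nat_lit 15) (nat_lit 5) (nat_lit 13) (nat_lit 4) (nat_lit 242) (nat_lit 229) (nat_lit 189))) (XT.nd (nat_lit 78) (nat_lit 0) (nat_lit 0) (XT.lf (nat_lit 0) (nat_lit 19010172328) (nat_lit 76) (nat_lit 11432533827) (nat_lit 152) (nat_lit 16233200161) (nat_lit 11) (nat_lit 5) (nat_lit 12) (nat_lit 5) (nat_lit 13) (nat_lit 4) (nat_lit 243) (nat_lit 229) (nat_lit 188)) (XT.lf (nat_lit 0) (nat_lit 42698986638) (nat_lit 152) (nat_lit 6575019203) (nat_lit 0) (nat_lit 2297791199) (nat_lit 11) (nat_lit 5) (nat_lit 13) (nat_lit 4) (nat_lit 11) (nat_lit 4) (nat_lit 244) (nat_lit 229) (nat_lit 187)))) (XT.nd (nat_lit 156) (nat_lit 76) (nat_lit 0) (XT.nd (nat_lit 78) (nat_lit 0) (nat_lit 0) (XT.lf (nat_lit 0) (nat_lit 1001519249)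 (nat_lit 152) (nat_lit 38262846896) (nat_lit 76) (nat_lit 17734240359) (nat_lit 9) (nat_lit 5) (nat_lit 11) (nat_lit 5) (nat_lit 10) (nat_lit 4) (nat_lit 245) (nat_lit 229) (nat_lit 186)) (XT.lf (nat_lit 0) (nat_lit 11797563684) (nat_lit 152) (nat_lit 15064323397) (nat_lit 76) (nat_lit 36261851317) (nat_lit 9) (nat_lit 5) (nat_lit 11) (nat_lit 5) (nat_lit 10) (nat_lit 4) (nat_lit 246) (nat_lit 229) (nat_lit 185))) (XT.nd (nat_lit 78) (nat_lit 0) (nat_lit 0) (XT.lf (nat_lit 0) (nat_lit 12730217861) (nat_lit 76) (nat_lit 12000285958) (nat_lit 152) (nat_lit 45359533812) (nat_lit 8) (nat_lit 5) (nat_lit 9) (nat_lit 5) (nat_lit 10) (nat_lit 4) (nat_lit 247) (nat_lit 229) (nat_lit 184)) (XT.nd (nat_lit 78) (nat_lit 0) (nat_lit 0) (XT.lf (nat_lit 0) (nat_lit 40629764539) (nat_lit 152) (nat_lit 31861878331) (nat_lit 0) (nat_lit 5455700125) (nat_lit 8) (nat_lit 5) (nat_lit 10) (nat_lit 4) (nat_lit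 8) (nat_lit 4) (nat_lit 248) (nat_lit 229) (nat_lit 183)) (XT.lf (nat_lit 0) (nat_lit 59477216973) (nat_lit 152) (nat_lit 3125811856) (nat_lit 0) (nat_lit 24295735754) (nat_lit 8) (nat_lit 5) (nat_lit 10) (nat_lit 4) (nat_lit 8) (nat_lit 4) (nat_lit 249) (nat_lit 229) (nat_lit 182)))))) (XT.nd (nat_lit 312) (nat_lit 76) (nat_lit 0) (XT.nd (nat_lit 156) (nat_lit 76) (nat_lit 0) (XT.nd (nat_lit 78) (nat_lit 76) (nat_lit 0) (XT.lf (nat_lit 0) (nat_lit 32830292998) (nat_lit 76) (nat_lit 49673848797) (nat_lit 76) (nat_lit 14485918183) (nat_lit 7) (nat_lit 4) (nat_lit 8) (nat_lit 5) (nat_lit 8) (nat_lit 4) (nat_lit 250) (nat_lit 229) (nat_lit 181)) (XT.lf (nat_lit 0) (nat_lit 519502384) (nat_lit 152) (nat_lit 34076608655) (nat_lit 76) (nat_lit 73971900506) (nat_lit 6) (nat_lit 5) (nat_lit 8) (nat_lit 5) (nat_lit 7) (nat_lit 4) (nat_lit 251) (nat_lit 229) (nat_lit 180))) (XT.nd (nat_lit 78)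 (nat_lit 76) (nat_lit 0) (XT.lf (nat_lit 0) (nat_lit 16286564172) (nat_lit 152) (nat_lit 182302482) (nat_lit 76) (nat_lit 105311240855) (nat_lit 6) (nat_lit 5) (nat_lit 8) (nat_lit 5) (nat_lit 7) (nat_lit 4) (nat_lit 252) (nat_lit 229) (nat_lit 179)) (XT.lf (nat_lit 0) (nat_lit 36441414374) (nat_lit 152) (nat_lit 94398792855) (nat_lit 0) (nat_lit 5830409126) (nat_lit 5) (nat_lit 5) (nat_lit 7) (nat_lit 4) (nat_lit 5) (nat_lit 4) (nat_lit 253) (nat_lit 229) (nat_lit 178)))) (XT.nd (nat_lit 156) (nat_lit 76) (nat_lit 0) (XT.nd (nat_lit 78) (nat_lit 0) (nat_lit 0) (XT.lf (nat_lit 0) (nat_lit 60408517504) (nat_lit 152) (nat_lit 63473531281) (nat_lit 0) (nat_lit 29794305768) (nat_lit 5) (nat_lit 5) (nat_lit 7) (nat_lit 4) (nat_lit 5) (nat_lit 4) (nat_lit 254) (nat_lit 229) (nat_lit 177)) (XT.lf (nat_lit 0) (nat_lit 87966173428) (nat_lit 152) (nat_lit 27918289458) (nat_lit 0) (nat_lit 57349173440)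 (nat_lit 5) (nat_lit 5) (nat_lit 7) (nat_lit 4) (nat_lit 5) (nat_lit 4) (nat_lit 255) (nat_lit 229) (nat_lit 176))) (XT.nd (nat_lit 78) (nat_lit 0) (nat_lit 0) (XT.lf (nat_lit 0) (nat_lit 14229376106) (nat_lit 76) (nat_lit 106013385686) (nat_lit 76) (nat_lit 75393961132) (nat_lit 4) (nat_lit 4) (nat_lit 5) (nat_lit 5) (nat_lit 5) (nat_lit 4) (nat_lit 256) (nat_lit 229) (nat_lit 175)) (XT.nd (nat_lit 78) (nat_lit 0) (nat_lit 0) (XT.lf (nat_lit 0) (nat_lit 65829514731) (nat_lit 76) (nat_lit 92986973815) (nat_lit 76) (nat_lit 62365440942) (nat_lit 4) (nat_lit 4) (nat_lit 5) (nat_lit 5) (nat_lit 5) (nat_lit 4) (nat_lit 257) (nat_lit 229) (nat_lit 174)) (XT.lf (nat_lit 0) (nat_lit 125163316055) (nat_lit 76) (nat_lit 78009727824) (nat_lit 76) (nat_lit 47386361630) (nat_lit 4) (nat_lit 4) (nat_lit 5) (nat_lit 5) (nat_lit 5) (nat_lit 4) (nat_lit 258) (nat_lit 229) (nat_lit 173))))))))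
noncomputable def xc69 : XT := (XT.nd (nat_lit 1404) (nat_lit 76) (nat_lit 0) (XT.nd (nat_lit 702) (nat_lit 0) (nat_lit 0) (XT.nd (nat_lit 312) (nat_lit 0) (nat_lit 0) (XT.nd (nat_lit 156) (nat_lit 152) (nat_lit 0) (XT.nd (nat_lit 78) (nat_lit 0) (nat_lit 0) (XT.lf (nat_lit 0) (nat_lit 193391658801) (nat_lit 76) (nat_lit 60788614639) (nat_lit 76) (nat_lit 30163654253) (nat_lit 4) (nat_lit 4) (nat_lit 5) (nat_lit 5) (nat_lit 5) (nat_lit 4) (nat_lit 259) (nat_lit 229) (nat_lit 172)) (XT.lf (nat_lit 0) (nat_lit 271849445326) (nat_lit 76) (nat_lit 40986699436) (nat_lit 76) (nat_lit 10360352796) (nat_lit 4) (nat_lit 4) (nat_lit 5) (nat_lit 5) (nat_lit 5) (nat_lit 4) (nat_lit 260) (nat_lit 229) (nat_lit 171))) (XT.nd (nat_lit 78) (nat_lit 76) (nat_lit 0) (XT.lf (nat_lit 0) (nat_lit 11306085714) (nat_lit 152) (nat_lit 6319467791) (nat_lit 76) (nat_lit 350174633631) (nat_lit 3) (nat_lit 5) (nat_lit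 5) (nat_lit 5) (nat_lit 4) (nat_lit 4) (nat_lit 261) (nat_lit 229) (nat_lit 170)) (XT.lf (nat_lit 0) (nat_lit 37707057952) (nat_lit 152) (nat_lit 369858088524) (nat_lit 0) (nat_lit 11073492487) (nat_lit 2) (nat_lit 5) (nat_lit 4) (nat_lit 4) (nat_lit 2) (nat_lit 4) (nat_lit 262) (nat_lit 229) (nat_lit 169)))) (XT.nd (nat_lit 156) (nat_lit 0) (nat_lit 0) (XT.nd (nat_lit 78) (nat_lit 0) (nat_lit 0) (XT.lf (nat_lit 0) (nat_lit 69251643361) (nat_lit 152) (nat_lit 365056411490) (nat_lit 0) (nat_lit 42617285301) (nat_lit 2) (nat_lit 5) (nat_lit 4) (nat_lit 4) (nat_lit 2) (nat_lit 4) (nat_lit 263) (nat_lit 229) (nat_lit 168)) (XT.lf (nat_lit 0) (nat_lit 105526254991) (nat_lit 152) (nat_lit 359537834519) (nat_lit 0) (nat_lit 78891207718) (nat_lit 2) (nat_lit 5) (nat_lit 4) (nat_lit 4) (nat_lit 2) (nat_lit 4) (nat_lit 264) (nat_lit 229) (nat_lit 167))) (XT.nd (nat_lit 78) (nat_lit 0) (nat_lit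 0) (XT.lf (nat_lit 0) (nat_lit 147240613504) (nat_lit 152) (nat_lit 353194385453) (nat_lit 0) (nat_lit 120604966915) (nat_lit 2) (nat_lit 5) (nat_lit 4) (nat_lit 4) (nat_lit 2) (nat_lit 4) (nat_lit 265) (nat_lit 229) (nat_lit 166)) (XT.nd (nat_lit 78) (nat_lit 0) (nat_lit 0) (XT.lf (nat_lit 0) (nat_lit 195210869392) (nat_lit 152) (nat_lit 345901953332) (nat_lit 0) (nat_lit 168574701659) (nat_lit 2) (nat_lit 5) (nat_lit 4) (nat_lit 4) (nat_lit 2) (nat_lit 4) (nat_lit 266) (nat_lit 229) (nat_lit 165)) (XT.lf (nat_lit 0) (nat_lit 250375571141) (nat_lit 152) (nat_lit 337517860136) (nat_lit 0) (nat_lit 223738950239) (nat_lit 2) (nat_lit 5) (nat_lit 4) (nat_lit 4) (nat_lit 2) (nat_lit 4) (nat_lit 267) (nat_lit 229) (nat_lit 164)))))) (XT.nd (nat_lit 312) (nat_lit 0) (nat_lit 0) (XT.nd (nat_lit 156) (nat_lit 0) (nat_lit 0) (XT.nd (nat_lit 78) (nat_lit 0) (nat_lit 0) (XT.lf (nat_lit 0) (nat_lit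 313814028133) (nat_lit 152) (nat_lit 327878069259) (nat_lit 0) (nat_lit 287177013171) (nat_lit 2) (nat_lit 5) (nat_lit 4) (nat_lit 4) (nat_lit 2) (nat_lit 4) (nat_lit 268) (nat_lit 229) (nat_lit 163)) (XT.lf (nat_lit 0) (nat_lit 386767427569) (nat_lit 152) (nat_lit 316793976096) (nat_lit 0) (nat_lit 360130069946) (nat_lit 2) (nat_lit 5) (nat_lit 4) (nat_lit 4) (nat_lit 2) (nat_lit 4) (nat_lit 269) (nat_lit 229) (nat_lit 162))) (XT.nd (nat_lit 78) (nat_lit 0) (nat_lit 0) (XT.lf (nat_lit 0) (nat_lit 470663118568) (nat_lit 152) (nat_lit 304048717957) (nat_lit 0) (nat_lit 444025462980) (nat_lit 2) (nat_lit 5) (nat_lit 4) (nat_lit 4) (nat_lit 2) (nat_lit 4) (nat_lit 270) (nat_lit 229) (nat_lit 161)) (XT.lf (nat_lit 0) (nat_lit 567142538565) (nat_lit 152) (nat_lit 289392931093) (nat_lit 0) (nat_lit 540504623876) (nat_lit 2) (nat_lit 5) (nat_lit 4) (nat_lit 4) (nat_lit 2) (nat_lit 4) (nat_lit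 271) (nat_lit 229) (nat_lit 160)))) (XT.nd (nat_lit 156) (nat_lit 0) (nat_lit 0) (XT.nd (nat_lit 78) (nat_lit 0) (nat_lit 0) (XT.lf (nat_lit 0) (nat_lit 678093328384) (nat_lit 152) (nat_lit 272539871850) (nat_lit 0) (nat_lit 651455188389) (nat_lit 2) (nat_lit 5) (nat_lit 4) (nat_lit 4) (nat_lit 2) (nat_lit 4) (nat_lit 272) (nat_lit 229) (nat_lit 159)) (XT.lf (nat_lit 0) (nat_lit 805686264347) (nat_lit 152) (nat_lit 253159806460) (nat_lit 0) (nat_lit 779047928436) (nat_lit 2) (nat_lit 5) (nat_lit 4) (nat_lit 4) (nat_lit 2) (nat_lit 4) (nat_lit 273) (nat_lit 229) (nat_lit 158))) (XT.nd (nat_lit 78) (nat_lit 0) (nat_lit 0) (XT.lf (nat_lit 0) (nat_lit 952417729986) (nat_lit 152) (nat_lit 230873559729) (nat_lit 0) (nat_lit 925779223711) (nat_lit 2) (nat_lit 5) (nat_lit 4) (nat_lit 4) (nat_lit 2) (nat_lit 4) (nat_lit 274) (nat_lit 229) (nat_lit 157)) (XT.nd (nat_lit 78) (nat_lit 0) (nat_lit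 0) (XT.lf (nat_lit 0) (nat_lit 1121158558322) (nat_lit 152) (nat_lit 205245096397) (nat_lit 0) (nat_lit 1094519903906) (nat_lit 2) (nat_lit 5) (nat_lit 4) (nat_lit 4) (nat_lit 2) (nat_lit 4) (nat_lit 275) (nat_lit 229) (nat_lit 156)) (XT.lf (nat_lit 0) (nat_lit 1315210200346) (nat_lit 152) (nat_lit 175772990006) (nat_lit 0) (nat_lit 1288571417112) (nat_lit 2) (nat_lit 5) (nat_lit 4) (nat_lit 4) (nat_lit 2) (nat_lit 4) (nat_lit 276) (nat_lit 229) (nat_lit 155))))))) (XT.nd (nat_lit 702) (nat_lit 0) (nat_lit 0) (XT.nd (nat_lit 312) (nat_lit 76) (nat_lit 0) (XT.nd (nat_lit 156) (nat_lit 0) (nat_lit 0) (XT.nd (nat_lit 78) (nat_lit 0) (nat_lit 0) (XT.lf (nat_lit 0) (nat_lit 1538369318619) (nat_lit 152) (nat_lit 141880612388) (nat_lit 0) (nat_lit 1511730423368) (nat_lit 2) (nat_lit 5) (nat_lit 4) (nat_lit 4) (nat_lit 2) (nat_lit 4) (nat_lit 277) (nat_lit 229) (nat_lit 154)) (XT.lf (nat_lit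 0) (nat_lit 1795002069802) (nat_lit 152) (nat_lit 102904851807) (nat_lit 0) (nat_lit 1768363077145) (nat_lit 2) (nat_lit 5) (nat_lit 4) (nat_lit 4) (nat_lit 2) (nat_lit 4) (nat_lit 278) (nat_lit 229) (nat_lit 153))) (XT.nd (nat_lit 78) (nat_lit 0) (nat_lit 0) (XT.lf (nat_lit 0) (nat_lit 2090129529463) (nat_lit 152) (nat_lit 58083139034) (nat_lit 0) (nat_lit 2063490452105) (nat_lit 2) (nat_lit 5) (nat_lit 4) (nat_lit 4) (nat_lit 2) (nat_lit 4) (nat_lit 279) (nat_lit 229) (nat_lit 152)) (XT.lf (nat_lit 0) (nat_lit 2429525930506) (nat_lit 152) (nat_lit 6538527516) (nat_lit 0) (nat_lit 2402886779496) (nat_lit 2) (nat_lit 5) (nat_lit 4) (nat_lit 4) (nat_lit 2) (nat_lit 4) (nat_lit 280) (nat_lit 229) (nat_lit 151)))) (XT.nd (nat_lit 156) (nat_lit 0) (nat_lit 0) (XT.nd (nat_lit 78) (nat_lit 0) (nat_lit 0) (XT.lf (nat_lit 0) (nat_lit 57891352832) (nat_lit 76) (nat_lit 2764337441937) (nat_lit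 76) (nat_lit 2737698226881) (nat_lit 1) (nat_lit 4) (nat_lit 2) (nat_lit 5) (nat_lit 2) (nat_lit 4) (nat_lit 281) (nat_lit 229) (nat_lit 150)) (XT.lf (nat_lit 0) (nat_lit 132720259269) (nat_lit 76) (nat_lit 3141458469492) (nat_lit 76) (nat_lit 3114819198744) (nat_lit 1) (nat_lit 4) (nat_lit 2) (nat_lit 5) (nat_lit 2) (nat_lit 4) (nat_lit 282) (nat_lit 229) (nat_lit 149))) (XT.nd (nat_lit 78) (nat_lit 0) (nat_lit 0) (XT.lf (nat_lit 0) (nat_lit 218773243155) (nat_lit 76) (nat_lit 3575147782241) (nat_lit 76) (nat_lit 3548508463066) (nat_lit 1) (nat_lit 4) (nat_lit 2) (nat_lit 5) (nat_lit 2) (nat_lit 4) (nat_lit 283) (nat_lit 229) (nat_lit 148)) (XT.nd (nat_lit 78) (nat_lit 0) (nat_lit 0) (XT.lf (nat_lit 0) (nat_lit 317733949825) (nat_lit 76) (nat_lit 4073890605868) (nat_lit 76) (nat_lit 4047251244582) (nat_lit 1) (nat_lit 4) (nat_lit 2) (nat_lit 5) (nat_lit 2) (nat_lit 4) (nat_lit 284)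 (nat_lit 229) (nat_lit 147)) (XT.lf (nat_lit 0) (nat_lit 431538567019) (nat_lit 76) (nat_lit 4647444952141) (nat_lit 76) (nat_lit 4620805554236) (nat_lit 1) (nat_lit 4) (nat_lit 2) (nat_lit 5) (nat_lit 2) (nat_lit 4) (nat_lit 285) (nat_lit 229) (nat_lit 146)))))) (XT.nd (nat_lit 312) (nat_lit 0) (nat_lit 0) (XT.nd (nat_lit 156) (nat_lit 0) (nat_lit 0) (XT.nd (nat_lit 78) (nat_lit 0) (nat_lit 0) (XT.lf (nat_lit 0) (nat_lit 562413706813) (nat_lit 76) (nat_lit 5307032536528) (nat_lit 76) (nat_lit 5280393106781) (nat_lit 1) (nat_lit 4) (nat_lit 2) (nat_lit 5) (nat_lit 2) (nat_lit 4) (nat_lit 286) (nat_lit 229) (nat_lit 145)) (XT.lf (nat_lit 0) (nat_lit 712919969768) (nat_lit 76) (nat_lit 6065558333508) (nat_lit 76) (nat_lit 6038918876073) (nat_lit 1) (nat_lit 4) (nat_lit 2) (nat_lit 5) (nat_lit 2) (nat_lit 4) (nat_lit 287) (nat_lit 229) (nat_lit 144))) (XT.nd (nat_lit 78) (nat_lit 0) (nat_lit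 0) (XT.lf (nat_lit 0) (nat_lit 886002043637) (nat_lit 76) (nat_lit 6937863065196) (nat_lit 76) (nat_lit 6911223583683) (nat_lit 1) (nat_lit 4) (nat_lit 2) (nat_lit 5) (nat_lit 2) (nat_lit 4) (nat_lit 288) (nat_lit 229) (nat_lit 143)) (XT.lf (nat_lit 0) (nat_lit 1085046316822) (nat_lit 76) (nat_lit 7941013563297) (nat_lit 76) (nat_lit 7914374060848) (nat_lit 1) (nat_lit 4) (nat_lit 2) (nat_lit 5) (nat_lit 2) (nat_lit 4) (nat_lit 289) (nat_lit 229) (nat_lit 142)))) (XT.nd (nat_lit 156) (nat_lit 0) (nat_lit 0) (XT.nd (nat_lit 78) (nat_lit 0) (nat_lit 0) (XT.lf (nat_lit 0) (nat_lit 1313947133799) (nat_lit 76) (nat_lit 9094636685385) (nat_lit 76) (nat_lit 9067997164729) (nat_lit 1) (nat_lit 4) (nat_lit 2) (nat_lit 5) (nat_lit 2) (nat_lit 4) (nat_lit 290) (nat_lit 229) (nat_lit 141)) (XT.lf (nat_lit 0) (nat_lit 1577182988812) (nat_lit 76) (nat_lit 10421303318629) (nat_lit 76) (nat_lit 10394663782143)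 (nat_lit 1) (nat_lit 4) (nat_lit 2) (nat_lit 5) (nat_lit 2) (nat_lit 4) (nat_lit 291) (nat_lit 229) (nat_lit 140))) (XT.nd (nat_lit 78) (nat_lit 0) (nat_lit 0) (XT.lf (nat_lit 0) (nat_lit 1879904148591) (nat_lit 76) (nat_lit 11946969984116) (nat_lit 76) (nat_lit 11920330433863) (nat_lit 1) (nat_lit 4) (nat_lit 2) (nat_lit 5) (nat_lit 2) (nat_lit 4) (nat_lit 292) (nat_lit 229) (nat_lit 139)) (XT.nd (nat_lit 78) (nat_lit 0) (nat_lit 0) (XT.lf (nat_lit 0) (nat_lit 2228033418434) (nat_lit 76) (nat_lit 13701486681822) (nat_lit 76) (nat_lit 13674847119599) (nat_lit 1) (nat_lit 4) (nat_lit 2) (nat_lit 5) (nat_lit 2) (nat_lit 4) (nat_lit 293) (nat_lit 229) (nat_lit 138)) (XT.lf (nat_lit 0) (nat_lit 2628382023188) (nat_lit 76) (nat_lit 15719180912355) (nat_lit 76) (nat_lit 15692541339722) (nat_lit 1) (nat_lit 4) (nat_lit 2) (nat_lit 5) (nat_lit 2) (nat_lit 4) (nat_lit 294) (nat_lit 229) (nat_lit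 137))))))))
noncomputable def xc70 : XT := (XT.nd (nat_lit 30420) (nat_lit 0) (nat_lit 228) (XT.nd (nat_lit 29718) (nat_lit 0) (nat_lit 836) (XT.nd (nat_lit 29328) (nat_lit 0) (nat_lit 1444) (XT.nd (nat_lit 156) (nat_lit 0) (nat_lit 0) (XT.nd (nat_lit 78) (nat_lit 0) (nat_lit 0) (XT.lf (nat_lit 0) (nat_lit 3088782870336) (nat_lit 76) (nat_lit 18039529301963) (nat_lit 76) (nat_lit 18012889720279) (nat_lit 1) (nat_lit 4) (nat_lit 2) (nat_lit 5) (nat_lit 2) (nat_lit 4) (nat_lit 295) (nat_lit 229) (nat_lit 136)) (XT.lf (nat_lit 0) (nat_lit 3618243802540) (nat_lit 76) (nat_lit 20707929971314) (nat_lit 76) (nat_lit 20681290381759) (nat_lit 1) (nat_lit 4) (nat_lit 2) (nat_lit 5) (nat_lit 2) (nat_lit 4) (nat_lit 296) (nat_lit 229) (nat_lit 135))) (XT.nd (nat_lit 78) (nat_lit 0) (nat_lit 0) (XT.lf (nat_lit 0) (nat_lit 4227123838039) (nat_lit 76) (nat_lit 23776590759590) (nat_lit 76) (nat_lit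 23749951163191) (nat_lit 1) (nat_lit 4) (nat_lit 2) (nat_lit 5) (nat_lit 2) (nat_lit 4) (nat_lit 297) (nat_lit 229) (nat_lit 134)) (XT.lf (nat_lit 0) (nat_lit 4927335847092) (nat_lit 76) (nat_lit 27305550682215) (nat_lit 76) (nat_lit 27278911079864) (nat_lit 1) (nat_lit 4) (nat_lit 2) (nat_lit 5) (nat_lit 2) (nat_lit 4) (nat_lit 298) (nat_lit 229) (nat_lit 133)))) (XT.nd (nat_lit 156) (nat_lit 0) (nat_lit 76) (XT.nd (nat_lit 78) (nat_lit 0) (nat_lit 0) (XT.lf (nat_lit 0) (nat_lit 427295996) (nat_lit 380) (nat_lit 3951362532) (nat_lit 380) (nat_lit 3951362532) (nat_lit 20) (nat_lit 3) (nat_lit 25) (nat_lit 3) (nat_lit 25) (nat_lit 5) (nat_lit 230) (nat_lit 230) (nat_lit 200)) (XT.lf (nat_lit 0) (nat_lit 1135348994) (nat_lit 380) (nat_lit 287383274) (nat_lit 380) (nat_lit 16453214756) (nat_lit 20) (nat_lit 3) (nat_lit 25) (nat_lit 3) (nat_lit 25) (nat_lit 5) (nat_lit 231) (nat_lit 230)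 (nat_lit 199))) (XT.nd (nat_lit 78) (nat_lit 0) (nat_lit 0) (XT.lf (nat_lit 0) (nat_lit 2112955178) (nat_lit 304) (nat_lit 10258356391) (nat_lit 380) (nat_lit 6804911405) (nat_lit 21) (nat_lit 5) (nat_lit 25) (nat_lit 5) (nat_lit 26) (nat_lit 5) (nat_lit 232) (nat_lit 230) (nat_lit 198)) (XT.nd (nat_lit 78) (nat_lit 0) (nat_lit 76) (XT.lf (nat_lit 0) (nat_lit 3286807618) (nat_lit 304) (nat_lit 1228695805) (nat_lit 380) (nat_lit 16148766231) (nat_lit 21) (nat_lit 5) (nat_lit 25) (nat_lit 5) (nat_lit 26) (nat_lit 5) (nat_lit 233) (nat_lit 230) (nat_lit 197)) (XT.lf (nat_lit 0) (nat_lit 5229475037) (nat_lit 304) (nat_lit 12500710142) (nat_lit 76) (nat_lit 4556575534) (nat_lit 22) (nat_lit 5) (nat_lit 26) (nat_lit 5) (nat_lit 23) (nat_lit 5) (nat_lit 234) (nat_lit 230) (nat_lit 196)))))) (XT.nd (nat_lit 312) (nat_lit 304) (nat_lit 0) (XT.nd (nat_lit 156) (nat_lit 152) (nat_lit 0) (XT.nd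 (nat_lit 78) (nat_lit 304) (nat_lit 0) (XT.lf (nat_lit 0) (nat_lit 7719466431) (nat_lit 304) (nat_lit 1796786570) (nat_lit 76) (nat_lit 14598112501) (nat_lit 22) (nat_lit 5) (nat_lit 26) (nat_lit 5) (nat_lit 23) (nat_lit 5) (nat_lit 235) (nat_lit 230) (nat_lit 195)) (XT.lf (nat_lit 0) (nat_lit 11056584744) (nat_lit 380) (nat_lit 14653412930) (nat_lit 76) (nat_lit 435180970) (nat_lit 18) (nat_lit 5) (nat_lit 23) (nat_lit 5) (nat_lit 19) (nat_lit 5) (nat_lit 236) (nat_lit 230) (nat_lit 194))) (XT.nd (nat_lit 78) (nat_lit 152) (nat_lit 0) (XT.lf (nat_lit 0) (nat_lit 15424891033) (nat_lit 380) (nat_lit 1974042309) (nat_lit 76) (nat_lit 11002184658) (nat_lit 18) (nat_lit 5) (nat_lit 23) (nat_lit 5) (nat_lit 19) (nat_lit 5) (nat_lit 237) (nat_lit 230) (nat_lit 193)) (XT.lf (nat_lit 0) (nat_lit 13815035440) (nat_lit 152) (nat_lit 7187258868) (nat_lit 228) (nat_lit 9910160883) (nat_lit 16) (nat_lit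 5) (nat_lit 18) (nat_lit 5) (nat_lit 19) (nat_lit 5) (nat_lit 238) (nat_lit 230) (nat_lit 192)))) (XT.nd (nat_lit 156) (nat_lit 228) (nat_lit 0) (XT.nd (nat_lit 78) (nat_lit 76) (nat_lit 0) (XT.lf (nat_lit 0) (nat_lit 27696189165) (nat_lit 228) (nat_lit 1807759019) (nat_lit 76) (nat_lit 4254636167) (nat_lit 16) (nat_lit 5) (nat_lit 19) (nat_lit 5) (nat_lit 17) (nat_lit 4) (nat_lit 239) (nat_lit 230) (nat_lit 191)) (XT.lf (nat_lit 0) (nat_lit 16918903638) (nat_lit 76) (nat_lit 19503410427) (nat_lit 152) (nat_lit 455160910) (nat_lit 15) (nat_lit 5) (nat_lit 16) (nat_lit 5) (nat_lit 17) (nat_lit 4) (nat_lit 240) (nat_lit 230) (nat_lit 190))) (XT.nd (nat_lit 78) (nat_lit 152) (nat_lit 0) (XT.lf (nat_lit 0) (nat_lit 5544332220) (nat_lit 152) (nat_lit 2065903974) (nat_lit 76) (nat_lit 32804077856) (nat_lit 14) (nat_lit 5) (nat_lit 16) (nat_lit 5) (nat_lit 15) (nat_lit 5) (nat_lit 241) (nat_lit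 230) (nat_lit 189)) (XT.nd (nat_lit 78) (nat_lit 0) (nat_lit 0) (XT.lf (nat_lit 0) (nat_lit 13516310876) (nat_lit 228) (nat_lit 24370512584) (nat_lit 76) (nat_lit 6423772226) (nat_lit 12) (nat_lit 5) (nat_lit 15) (nat_lit 5) (nat_lit 13) (nat_lit 4) (nat_lit 242) (nat_lit 230) (nat_lit 188)) (XT.lf (nat_lit 0) (nat_lit 23147857644) (nat_lit 228) (nat_lit 3682415880) (nat_lit 76) (nat_lit 21891516918) (nat_lit 12) (nat_lit 5) (nat_lit 15) (nat_lit 5) (nat_lit 13) (nat_lit 4) (nat_lit 243) (nat_lit 230) (nat_lit 187))))))) (XT.nd (nat_lit 702) (nat_lit 152) (nat_lit 0) (XT.nd (nat_lit 312) (nat_lit 228) (nat_lit 0) (XT.nd (nat_lit 156) (nat_lit 152) (nat_lit 0) (XT.nd (nat_lit 78) (nat_lit 0) (nat_lit 0) (XT.lf (nat_lit 0) (nat_lit 22056034330) (nat_lit 76) (nat_lit 13071174816) (nat_lit 152) (nat_lit 18532026156) (nat_lit 11) (nat_lit 5) (nat_lit 12) (nat_lit 5) (nat_lit 13) (nat_lit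 4) (nat_lit 244) (nat_lit 230) (nat_lit 186)) (XT.lf (nat_lit 0) (nat_lit 49209272864) (nat_lit 152) (nat_lit 7379327548) (nat_lit 0) (nat_lit 2702852709) (nat_lit 11) (nat_lit 5) (nat_lit 13) (nat_lit 4) (nat_lit 11) (nat_lit 4) (nat_lit 245) (nat_lit 230) (nat_lit 185))) (XT.nd (nat_lit 78) (nat_lit 0) (nat_lit 0) (XT.lf (nat_lit 0) (nat_lit 1255568317) (nat_lit 152) (nat_lit 43818228304) (nat_lit 76) (nat_lit 20458802546) (nat_lit 9) (nat_lit 5) (nat_lit 11) (nat_lit 5) (nat_lit 10) (nat_lit 4) (nat_lit 246) (nat_lit 230) (nat_lit 184)) (XT.lf (nat_lit 0) (nat_lit 13657477525) (nat_lit 152) (nat_lit 17163932231) (nat_lit 76) (nat_lit 41757151739) (nat_lit 9) (nat_lit 5) (nat_lit 11) (nat_lit 5) (nat_lit 10) (nat_lit 4) (nat_lit 247) (nat_lit 230) (nat_lit 183)))) (XT.nd (nat_lit 156) (nat_lit 152) (nat_lit 0) (XT.nd (nat_lit 78) (nat_lit 0) (nat_lit 0) (XT.lf (nat_lit 0) (nat_lit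 14792515684) (nat_lit 76) (nat_lit 13732393115) (nat_lit 152) (nat_lit 52065739830) (nat_lit 8) (nat_lit 5) (nat_lit 9) (nat_lit 5) (nat_lit 10) (nat_lit 4) (nat_lit 248) (nat_lit 230) (nat_lit 182)) (XT.lf (nat_lit 0) (nat_lit 46800440073) (nat_lit 152) (nat_lit 36499554240) (nat_lit 0) (nat_lit 6327870473) (nat_lit 8) (nat_lit 5) (nat_lit 10) (nat_lit 4) (nat_lit 8) (nat_lit 4) (nat_lit 249) (nat_lit 230) (nat_lit 181))) (XT.nd (nat_lit 78) (nat_lit 152) (nat_lit 0) (XT.lf (nat_lit 0) (nat_lit 68465069826) (nat_lit 152) (nat_lit 3471548121) (nat_lit 0) (nat_lit 27986892056) (nat_lit 8) (nat_lit 5) (nat_lit 10) (nat_lit 4) (nat_lit 8) (nat_lit 4) (nat_lit 250) (nat_lit 230) (nat_lit 180)) (XT.nd (nat_lit 78) (nat_lit 76) (nat_lit 0) (XT.lf (nat_lit 0) (nat_lit 37872375392) (nat_lit 76) (nat_lit 57069881043) (nat_lit 76) (nat_lit 16586826603) (nat_lit 7) (nat_lit 4) (nat_lit 8) (nat_lit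 5) (nat_lit 8) (nat_lit 4) (nat_lit 251) (nat_lit 230) (nat_lit 179)) (XT.lf (nat_lit 0) (nat_lit 654446188) (nat_lit 152) (nat_lit 39080235717) (nat_lit 76) (nat_lit 85109893970) (nat_lit 6) (nat_lit 5) (nat_lit 8) (nat_lit 5) (nat_lit 7) (nat_lit 4) (nat_lit 252) (nat_lit 230) (nat_lit 178)))))) (XT.nd (nat_lit 312) (nat_lit 76) (nat_lit 0) (XT.nd (nat_lit 156) (nat_lit 0) (nat_lit 0) (XT.nd (nat_lit 78) (nat_lit 76) (nat_lit 0) (XT.lf (nat_lit 0) (nat_lit 18779130054) (nat_lit 152) (nat_lit 115852866) (nat_lit 76) (nat_lit 121144629930) (nat_lit 6) (nat_lit 5) (nat_lit 8) (nat_lit 5) (nat_lit 7) (nat_lit 4) (nat_lit 253) (nat_lit 230) (nat_lit 177)) (XT.lf (nat_lit 0) (nat_lit 41956216513) (nat_lit 152) (nat_lit 108463761524) (nat_lit 0) (nat_lit 6743878276) (nat_lit 5) (nat_lit 5) (nat_lit 7) (nat_lit 4) (nat_lit 5) (nat_lit 4) (nat_lit 254) (nat_lit 230) (nat_lit 176))) (XT.nd (nat_lit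 78) (nat_lit 0) (nat_lit 0) (XT.lf (nat_lit 0) (nat_lit 69512047290) (nat_lit 152) (nat_lit 72912082487) (nat_lit 0) (nat_lit 34297284485) (nat_lit 5) (nat_lit 5) (nat_lit 7) (nat_lit 4) (nat_lit 5) (nat_lit 4) (nat_lit 255) (nat_lit 230) (nat_lit 175)) (XT.lf (nat_lit 0) (nat_lit 101197840450) (nat_lit 152) (nat_lit 32034312454) (nat_lit 0) (nat_lit 65980969327) (nat_lit 5) (nat_lit 5) (nat_lit 7) (nat_lit 4) (nat_lit 5) (nat_lit 4) (nat_lit 256) (nat_lit 230) (nat_lit 174)))) (XT.nd (nat_lit 156) (nat_lit 0) (nat_lit 0) (XT.nd (nat_lit 78) (nat_lit 0) (nat_lit 0) (XT.lf (nat_lit 0) (nat_lit 16432242926) (nat_lit 76) (nat_lit 121881716638) (nat_lit 76) (nat_lit 86663012195) (nat_lit 4) (nat_lit 4) (nat_lit 5) (nat_lit 5) (nat_lit 5) (nat_lit 4) (nat_lit 257) (nat_lit 230) (nat_lit 173)) (XT.lf (nat_lit 0) (nat_lit 75763472726) (nat_lit 76) (nat_lit 106905735626) (nat_lit 76) (nat_lit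 71685436990) (nat_lit 4) (nat_lit 4) (nat_lit 5) (nat_lit 5) (nat_lit 5) (nat_lit 4) (nat_lit 258) (nat_lit 230) (nat_lit 172))) (XT.nd (nat_lit 78) (nat_lit 0) (nat_lit 0) (XT.lf (nat_lit 0) (nat_lit 143989579364) (nat_lit 76) (nat_lit 89685722422) (nat_lit 76) (nat_lit 54464037533) (nat_lit 4) (nat_lit 4) (nat_lit 5) (nat_lit 5) (nat_lit 5) (nat_lit 4) (nat_lit 259) (nat_lit 230) (nat_lit 171)) (XT.nd (nat_lit 78) (nat_lit 0) (nat_lit 0) (XT.lf (nat_lit 0) (nat_lit 222445421448) (nat_lit 76) (nat_lit 69884763725) (nat_lit 76) (nat_lit 34661873398) (nat_lit 4) (nat_lit 4) (nat_lit 5) (nat_lit 5) (nat_lit 5) (nat_lit 4) (nat_lit 260) (nat_lit 230) (nat_lit 170)) (XT.lf (nat_lit 0) (nat_lit 312666004583) (nat_lit 76) (nat_lit 47115449474) (nat_lit 76) (nat_lit 11891510939) (nat_lit 4) (nat_lit 4) (nat_lit 5) (nat_lit 5) (nat_lit 5) (nat_lit 4) (nat_lit 261) (nat_lit 230) (nat_lit 169))))))))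
noncomputable def xc71 : XT := (XT.nd (nat_lit 1404) (nat_lit 76) (nat_lit 0) (XT.nd (nat_lit 702) (nat_lit 0) (nat_lit 0) (XT.nd (nat_lit 312) (nat_lit 0) (nat_lit 0) (XT.nd (nat_lit 156) (nat_lit 0) (nat_lit 0) (XT.nd (nat_lit 78) (nat_lit 76) (nat_lit 0) (XT.lf (nat_lit 0) (nat_lit 13020134680) (nat_lit 152) (nat_lit 7231560455) (nat_lit 76) (nat_lit 402715781463) (nat_lit 3) (nat_lit 5) (nat_lit 5) (nat_lit 5) (nat_lit 4) (nat_lit 4) (nat_lit 262) (nat_lit 230) (nat_lit 168)) (XT.lf (nat_lit 0) (nat_lit 43381007726) (nat_lit 152) (nat_lit 425300713451) (nat_lit 0) (nat_lit 12750014149) (nat_lit 2) (nat_lit 5) (nat_lit 4) (nat_lit 4) (nat_lit 2) (nat_lit 4) (nat_lit 263) (nat_lit 230) (nat_lit 167))) (XT.nd (nat_lit 78) (nat_lit 0) (nat_lit 0) (XT.lf (nat_lit 0) (nat_lit 79654947327) (nat_lit 152) (nat_lit 419783492039) (nat_lit 0) (nat_lit 49023354434) (nat_lit 2) (nat_lit 5) (nat_lit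 4) (nat_lit 4) (nat_lit 2) (nat_lit 4) (nat_lit 264) (nat_lit 230) (nat_lit 166)) (XT.lf (nat_lit 0) (nat_lit 121368721467) (nat_lit 152) (nat_lit 413441221719) (nat_lit 0) (nat_lit 90736607430) (nat_lit 2) (nat_lit 5) (nat_lit 4) (nat_lit 4) (nat_lit 2) (nat_lit 4) (nat_lit 265) (nat_lit 230) (nat_lit 165)))) (XT.nd (nat_lit 156) (nat_lit 0) (nat_lit 0) (XT.nd (nat_lit 78) (nat_lit 0) (nat_lit 0) (XT.lf (nat_lit 0) (nat_lit 169338469206) (nat_lit 152) (nat_lit 406149814595) (nat_lit 0) (nat_lit 138705902000) (nat_lit 2) (nat_lit 5) (nat_lit 4) (nat_lit 4) (nat_lit 2) (nat_lit 4) (nat_lit 266) (nat_lit 230) (nat_lit 164)) (XT.lf (nat_lit 0) (nat_lit 224502729085) (nat_lit 152) (nat_lit 397766612700) (nat_lit 0) (nat_lit 193869767819) (nat_lit 2) (nat_lit 5) (nat_lit 4) (nat_lit 4) (nat_lit 2) (nat_lit 4) (nat_lit 267) (nat_lit 230) (nat_lit 163))) (XT.nd (nat_lit 78) (nat_lit 0) (nat_lit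 0) (XT.lf (nat_lit 0) (nat_lit 287940801842) (nat_lit 152) (nat_lit 388127596868) (nat_lit 0) (nat_lit 257307497915) (nat_lit 2) (nat_lit 5) (nat_lit 4) (nat_lit 4) (nat_lit 2) (nat_lit 4) (nat_lit 268) (nat_lit 230) (nat_lit 162)) (XT.nd (nat_lit 78) (nat_lit 0) (nat_lit 0) (XT.lf (nat_lit 0) (nat_lit 360893867161) (nat_lit 152) (nat_lit 377044177657) (nat_lit 0) (nat_lit 330260265269) (nat_lit 2) (nat_lit 5) (nat_lit 4) (nat_lit 4) (nat_lit 2) (nat_lit 4) (nat_lit 269) (nat_lit 230) (nat_lit 161)) (XT.lf (nat_lit 0) (nat_lit 444789267624) (nat_lit 152) (nat_lit 364299505563) (nat_lit 0) (nat_lit 414155406631) (nat_lit 2) (nat_lit 5) (nat_lit 4) (nat_lit 4) (nat_lit 2) (nat_lit 4) (nat_lit 270) (nat_lit 230) (nat_lit 160)))))) (XT.nd (nat_lit 312) (nat_lit 0) (nat_lit 0) (XT.nd (nat_lit 156) (nat_lit 0) (nat_lit 0) (XT.nd (nat_lit 78) (nat_lit 0) (nat_lit 0) (XT.lf (nat_lit 0) (nat_lit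 541268434980) (nat_lit 152) (nat_lit 349644228304) (nat_lit 0) (nat_lit 510634348682) (nat_lit 2) (nat_lit 5) (nat_lit 4) (nat_lit 4) (nat_lit 2) (nat_lit 4) (nat_lit 271) (nat_lit 230) (nat_lit 159)) (XT.lf (nat_lit 0) (nat_lit 652219005111) (nat_lit 152) (nat_lit 332791612195) (nat_lit 0) (nat_lit 621584722896) (nat_lit 2) (nat_lit 5) (nat_lit 4) (nat_lit 4) (nat_lit 2) (nat_lit 4) (nat_lit 272) (nat_lit 230) (nat_lit 158))) (XT.nd (nat_lit 78) (nat_lit 0) (nat_lit 0) (XT.lf (nat_lit 0) (nat_lit 779811750043) (nat_lit 152) (nat_lit 313411932139) (nat_lit 0) (nat_lit 749177297464) (nat_lit 2) (nat_lit 5) (nat_lit 4) (nat_lit 4) (nat_lit 2) (nat_lit 4) (nat_lit 273) (nat_lit 230) (nat_lit 157)) (XT.lf (nat_lit 0) (nat_lit 926543049566) (nat_lit 152) (nat_lit 291126020482) (nat_lit 0) (nat_lit 895908448846) (nat_lit 2) (nat_lit 5) (nat_lit 4) (nat_lit 4) (nat_lit 2) (nat_lit 4) (nat_lit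 274) (nat_lit 230) (nat_lit 156)))) (XT.nd (nat_lit 156) (nat_lit 0) (nat_lit 0) (XT.nd (nat_lit 78) (nat_lit 0) (nat_lit 0) (XT.lf (nat_lit 0) (nat_lit 1095283733455) (nat_lit 152) (nat_lit 265497848518) (nat_lit 0) (nat_lit 1064649003916) (nat_lit 2) (nat_lit 5) (nat_lit 4) (nat_lit 4) (nat_lit 2) (nat_lit 4) (nat_lit 275) (nat_lit 230) (nat_lit 155)) (XT.lf (nat_lit 0) (nat_lit 1289335249872) (nat_lit 152) (nat_lit 236025995490) (nat_lit 0) (nat_lit 1258700408316) (nat_lit 2) (nat_lit 5) (nat_lit 4) (nat_lit 4) (nat_lit 2) (nat_lit 4) (nat_lit 276) (nat_lit 230) (nat_lit 154))) (XT.nd (nat_lit 78) (nat_lit 0) (nat_lit 0) (XT.lf (nat_lit 0) (nat_lit 1512494258921) (nat_lit 152) (nat_lit 202133838189) (nat_lit 0) (nat_lit 1481859319960) (nat_lit 2) (nat_lit 5) (nat_lit 4) (nat_lit 4) (nat_lit 2) (nat_lit 4) (nat_lit 277) (nat_lit 230) (nat_lit 153)) (XT.nd (nat_lit 78) (nat_lit 0) (nat_lit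 0) (XT.lf (nat_lit 0) (nat_lit 1769126915127) (nat_lit 152) (nat_lit 163158269187) (nat_lit 0) (nat_lit 1738491891466) (nat_lit 2) (nat_lit 5) (nat_lit 4) (nat_lit 4) (nat_lit 2) (nat_lit 4) (nat_lit 278) (nat_lit 230) (nat_lit 152)) (XT.lf (nat_lit 0) (nat_lit 2064254292199) (nat_lit 152) (nat_lit 118336723005) (nat_lit 0) (nat_lit 2033619194885) (nat_lit 2) (nat_lit 5) (nat_lit 4) (nat_lit 4) (nat_lit 2) (nat_lit 4) (nat_lit 279) (nat_lit 230) (nat_lit 151))))))) (XT.nd (nat_lit 702) (nat_lit 0) (nat_lit 0) (XT.nd (nat_lit 312) (nat_lit 0) (nat_lit 0) (XT.nd (nat_lit 156) (nat_lit 76) (nat_lit 0) (XT.nd (nat_lit 78) (nat_lit 0) (nat_lit 0) (XT.lf (nat_lit 0) (nat_lit 2403650621427) (nat_lit 152) (nat_lit 66792256348) (nat_lit 0) (nat_lit 2373015460067) (nat_lit 2) (nat_lit 5) (nat_lit 4) (nat_lit 4) (nat_lit 2) (nat_lit 4) (nat_lit 280) (nat_lit 230) (nat_lit 150)) (XT.lf (nat_lit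 0) (nat_lit 2793956265773) (nat_lit 152) (nat_lit 7516390520) (nat_lit 0) (nat_lit 2763321048722) (nat_lit 2) (nat_lit 5) (nat_lit 4) (nat_lit 4) (nat_lit 2) (nat_lit 4) (nat_lit 281) (nat_lit 230) (nat_lit 149))) (XT.nd (nat_lit 78) (nat_lit 0) (nat_lit 0) (XT.lf (nat_lit 0) (nat_lit 66577839329) (nat_lit 76) (nat_lit 3178986647039) (nat_lit 76) (nat_lit 3148351381559) (nat_lit 1) (nat_lit 4) (nat_lit 2) (nat_lit 5) (nat_lit 2) (nat_lit 4) (nat_lit 282) (nat_lit 230) (nat_lit 148)) (XT.lf (nat_lit 0) (nat_lit 152630718658) (nat_lit 76) (nat_lit 3612676012796) (nat_lit 76) (nat_lit 3582040705205) (nat_lit 1) (nat_lit 4) (nat_lit 2) (nat_lit 5) (nat_lit 2) (nat_lit 4) (nat_lit 283) (nat_lit 230) (nat_lit 147)))) (XT.nd (nat_lit 156) (nat_lit 0) (nat_lit 0) (XT.nd (nat_lit 78) (nat_lit 0) (nat_lit 0) (XT.lf (nat_lit 0) (nat_lit 251591334408) (nat_lit 76) (nat_lit 4111418882516) (nat_lit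 76) (nat_lit 4080783538307) (nat_lit 1) (nat_lit 4) (nat_lit 2) (nat_lit 5) (nat_lit 2) (nat_lit 4) (nat_lit 284) (nat_lit 230) (nat_lit 146)) (XT.lf (nat_lit 0) (nat_lit 365395872542) (nat_lit 76) (nat_lit 4684973268870) (nat_lit 76) (nat_lit 4654337892819) (nat_lit 1) (nat_lit 4) (nat_lit 2) (nat_lit 5) (nat_lit 2) (nat_lit 4) (nat_lit 285) (nat_lit 230) (nat_lit 145))) (XT.nd (nat_lit 78) (nat_lit 0) (nat_lit 0) (XT.lf (nat_lit 0) (nat_lit 496270943588) (nat_lit 76) (nat_lit 5344560888110) (nat_lit 76) (nat_lit 5313925484371) (nat_lit 1) (nat_lit 4) (nat_lit 2) (nat_lit 5) (nat_lit 2) (nat_lit 4) (nat_lit 286) (nat_lit 230) (nat_lit 144)) (XT.nd (nat_lit 78) (nat_lit 0) (nat_lit 0) (XT.lf (nat_lit 0) (nat_lit 646777146762) (nat_lit 76) (nat_lit 6103086715398) (nat_lit 76) (nat_lit 6072451287581) (nat_lit 1) (nat_lit 4) (nat_lit 2) (nat_lit 5) (nat_lit 2) (nat_lit 4) (nat_lit 287)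 (nat_lit 230) (nat_lit 143)) (XT.lf (nat_lit 0) (nat_lit 819859168648) (nat_lit 76) (nat_lit 6975391473439) (nat_lit 76) (nat_lit 6944756024685) (nat_lit 1) (nat_lit 4) (nat_lit 2) (nat_lit 5) (nat_lit 2) (nat_lit 4) (nat_lit 288) (nat_lit 230) (nat_lit 142)))))) (XT.nd (nat_lit 312) (nat_lit 0) (nat_lit 0) (XT.nd (nat_lit 156) (nat_lit 0) (nat_lit 0) (XT.nd (nat_lit 78) (nat_lit 0) (nat_lit 0) (XT.lf (nat_lit 0) (nat_lit 1018903396630) (nat_lit 76) (nat_lit 7978541994457) (nat_lit 76) (nat_lit 7947906527498) (nat_lit 1) (nat_lit 4) (nat_lit 2) (nat_lit 5) (nat_lit 2) (nat_lit 4) (nat_lit 289) (nat_lit 230) (nat_lit 141)) (XT.lf (nat_lit 0) (nat_lit 1247804174300) (nat_lit 76) (nat_lit 9132165136472) (nat_lit 76) (nat_lit 9101529653682) (nat_lit 1) (nat_lit 4) (nat_lit 2) (nat_lit 5) (nat_lit 2) (nat_lit 4) (nat_lit 290) (nat_lit 230) (nat_lit 140))) (XT.nd (nat_lit 78) (nat_lit 0) (nat_lit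 0) (XT.lf (nat_lit 0) (nat_lit 1511039995134) (nat_lit 76) (nat_lit 10458831787045) (nat_lit 76) (nat_lit 10428196290488) (nat_lit 1) (nat_lit 4) (nat_lit 2) (nat_lit 5) (nat_lit 2) (nat_lit 4) (nat_lit 291) (nat_lit 230) (nat_lit 139)) (XT.lf (nat_lit 0) (nat_lit 1813761125190) (nat_lit 76) (nat_lit 11984498467600) (nat_lit 76) (nat_lit 11953862959072) (nat_lit 1) (nat_lit 4) (nat_lit 2) (nat_lit 5) (nat_lit 2) (nat_lit 4) (nat_lit 292) (nat_lit 230) (nat_lit 138)))) (XT.nd (nat_lit 156) (nat_lit 0) (nat_lit 0) (XT.nd (nat_lit 78) (nat_lit 0) (nat_lit 0) (XT.lf (nat_lit 0) (nat_lit 2161890369189) (nat_lit 76) (nat_lit 13739015178408) (nat_lit 76) (nat_lit 13708379659472) (nat_lit 1) (nat_lit 4) (nat_lit 2) (nat_lit 5) (nat_lit 2) (nat_lit 4) (nat_lit 293) (nat_lit 230) (nat_lit 137)) (XT.lf (nat_lit 0) (nat_lit 2562238951469) (nat_lit 76) (nat_lit 15756709420334) (nat_lit 76) (nat_lit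 15726073892346) (nat_lit 1) (nat_lit 4) (nat_lit 2) (nat_lit 5) (nat_lit 2) (nat_lit 4) (nat_lit 294) (nat_lit 230) (nat_lit 136))) (XT.nd (nat_lit 78) (nat_lit 0) (nat_lit 0) (XT.lf (nat_lit 0) (nat_lit 3022639779075) (nat_lit 76) (nat_lit 18077057819850) (nat_lit 76) (nat_lit 18046422283991) (nat_lit 1) (nat_lit 4) (nat_lit 2) (nat_lit 5) (nat_lit 2) (nat_lit 4) (nat_lit 295) (nat_lit 230) (nat_lit 135)) (XT.nd (nat_lit 78) (nat_lit 0) (nat_lit 0) (XT.lf (nat_lit 0) (nat_lit 3552100694285) (nat_lit 76) (nat_lit 20745458497817) (nat_lit 76) (nat_lit 20714822955113) (nat_lit 1) (nat_lit 4) (nat_lit 2) (nat_lit 5) (nat_lit 2) (nat_lit 4) (nat_lit 296) (nat_lit 230) (nat_lit 134)) (XT.lf (nat_lit 0) (nat_lit 4160980715007) (nat_lit 76) (nat_lit 23814119293584) (nat_lit 76) (nat_lit 23783483744929) (nat_lit 1) (nat_lit 4) (nat_lit 2) (nat_lit 5) (nat_lit 2) (nat_lit 4) (nat_lit 297) (nat_lit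 230) (nat_lit 133))))))))
noncomputable def xc72 : XT := (XT.nd (nat_lit 30498) (nat_lit 0) (nat_lit 76) (XT.nd (nat_lit 29796) (nat_lit 0) (nat_lit 608) (XT.nd (nat_lit 29406) (nat_lit 0) (nat_lit 1292) (XT.nd (nat_lit 29250) (nat_lit 0) (nat_lit 1444) (XT.nd (nat_lit 29172) (nat_lit 0) (nat_lit 1444) (XT.lf (nat_lit 0) (nat_lit 4861192711210) (nat_lit 76) (nat_lit 27343079222723) (nat_lit 76) (nat_lit 27312443668893) (nat_lit 1) (nat_lit 4) (nat_lit 2) (nat_lit 5) (nat_lit 2) (nat_lit 4) (nat_lit 298) (nat_lit 230) (nat_lit 132)) (XT.lf (nat_lit 0) (nat_lit 699081461) (nat_lit 380) (nat_lit 4424117867) (nat_lit 380) (nat_lit 4424117867) (nat_lit 20) (nat_lit 3) (nat_lit 25) (nat_lit 3) (nat_lit 25) (nat_lit 5) (nat_lit 231) (nat_lit 231) (nat_lit 198))) (XT.nd (nat_lit 78) (nat_lit 0) (nat_lit 76) (XT.lf (nat_lit 0) (nat_lit 1666853197) (nat_lit 380) (nat_lit 121883729) (nat_lit 380)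 (nat_lit 18712589934) (nat_lit 20) (nat_lit 3) (nat_lit 25) (nat_lit 3) (nat_lit 25) (nat_lit 5) (nat_lit 232) (nat_lit 231) (nat_lit 197)) (XT.lf (nat_lit 0) (nat_lit 2747130538) (nat_lit 304) (nat_lit 11542940052) (nat_lit 380) (nat_lit 7713408026) (nat_lit 21) (nat_lit 5) (nat_lit 25) (nat_lit 5) (nat_lit 26) (nat_lit 5) (nat_lit 233) (nat_lit 231) (nat_lit 196)))) (XT.nd (nat_lit 156) (nat_lit 228) (nat_lit 0) (XT.nd (nat_lit 78) (nat_lit 0) (nat_lit 76) (XT.lf (nat_lit 0) (nat_lit 4055682746) (nat_lit 304) (nat_lit 1191982961) (nat_lit 380) (nat_lit 18473481087) (nat_lit 21) (nat_lit 5) (nat_lit 25) (nat_lit 5) (nat_lit 26) (nat_lit 5) (nat_lit 234) (nat_lit 231) (nat_lit 195)) (XT.lf (nat_lit 0) (nat_lit 6260946677) (nat_lit 304) (nat_lit 14124791317) (nat_lit 76) (nat_lit 5205774740) (nat_lit 22) (nat_lit 5) (nat_lit 26) (nat_lit 5) (nat_lit 23) (nat_lit 5) (nat_lit 235) (nat_lit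 231) (nat_lit 194))) (XT.nd (nat_lit 78) (nat_lit 304) (nat_lit 0) (XT.lf (nat_lit 0) (nat_lit 9092212816) (nat_lit 304) (nat_lit 1848021645) (nat_lit 76) (nat_lit 16758014485) (nat_lit 22) (nat_lit 5) (nat_lit 26) (nat_lit 5) (nat_lit 23) (nat_lit 5) (nat_lit 236) (nat_lit 231) (nat_lit 193)) (XT.nd (nat_lit 78) (nat_lit 0) (nat_lit 0) (XT.lf (nat_lit 0) (nat_lit 12911041126) (nat_lit 380) (nat_lit 16613373410) (nat_lit 76) (nat_lit 512234806) (nat_lit 18) (nat_lit 5) (nat_lit 23) (nat_lit 5) (nat_lit 19) (nat_lit 5) (nat_lit 237) (nat_lit 231) (nat_lit 192)) (XT.lf (nat_lit 0) (nat_lit 17909032227) (nat_lit 380) (nat_lit 2063147387) (nat_lit 76) (nat_lit 12662752956) (nat_lit 18) (nat_lit 5) (nat_lit 23) (nat_lit 5) (nat_lit 19) (nat_lit 5) (nat_lit 238) (nat_lit 231) (nat_lit 191)))))) (XT.nd (nat_lit 312) (nat_lit 380) (nat_lit 0) (XT.nd (nat_lit 156) (nat_lit 152) (nat_lit 0) (XT.nd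 (nat_lit 78) (nat_lit 0) (nat_lit 0) (XT.lf (nat_lit 0) (nat_lit 16084882876) (nat_lit 152) (nat_lit 8224117915) (nat_lit 228) (nat_lit 11216179633) (nat_lit 16) (nat_lit 5) (nat_lit 18) (nat_lit 5) (nat_lit 19) (nat_lit 5) (nat_lit 239) (nat_lit 231) (nat_lit 190)) (XT.lf (nat_lit 0) (nat_lit 31988069344) (nat_lit 228) (nat_lit 1887594240) (nat_lit 76) (nat_lit 4925491785) (nat_lit 16) (nat_lit 5) (nat_lit 19) (nat_lit 5) (nat_lit 17) (nat_lit 4) (nat_lit 240) (nat_lit 231) (nat_lit 189))) (XT.nd (nat_lit 78) (nat_lit 76) (nat_lit 0) (XT.lf (nat_lit 0) (nat_lit 19639371060) (nat_lit 76) (nat_lit 22373375819) (nat_lit 152) (nat_lit 376765734) (nat_lit 15) (nat_lit 5) (nat_lit 16) (nat_lit 5) (nat_lit 17) (nat_lit 4) (nat_lit 241) (nat_lit 231) (nat_lit 188)) (XT.lf (nat_lit 0) (nat_lit 6492166223) (nat_lit 152) (nat_lit 2205231117) (nat_lit 76) (nat_lit 37761242428) (nat_lit 14) (nat_lit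 5) (nat_lit 16) (nat_lit 5) (nat_lit 15) (nat_lit 5) (nat_lit 242) (nat_lit 231) (nat_lit 187)))) (XT.nd (nat_lit 156) (nat_lit 228) (nat_lit 0) (XT.nd (nat_lit 78) (nat_lit 0) (nat_lit 0) (XT.lf (nat_lit 0) (nat_lit 15653807528) (nat_lit 228) (nat_lit 27849054468) (nat_lit 76) (nat_lit 7437473137) (nat_lit 12) (nat_lit 5) (nat_lit 15) (nat_lit 5) (nat_lit 13) (nat_lit 4) (nat_lit 243) (nat_lit 231) (nat_lit 186)) (XT.lf (nat_lit 0) (nat_lit 26715731961) (nat_lit 228) (nat_lit 4080834780) (nat_lit 76) (nat_lit 25218840175) (nat_lit 12) (nat_lit 5) (nat_lit 15) (nat_lit 5) (nat_lit 13) (nat_lit 4) (nat_lit 244) (nat_lit 231) (nat_lit 185))) (XT.nd (nat_lit 78) (nat_lit 152) (nat_lit 0) (XT.lf (nat_lit 0) (nat_lit 25511385530) (nat_lit 76) (nat_lit 14974203337) (nat_lit 152) (nat_lit 21208878073) (nat_lit 11) (nat_lit 5) (nat_lit 12) (nat_lit 5) (nat_lit 13) (nat_lit 4) (nat_lit 245) (nat_lit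 231) (nat_lit 184)) (XT.nd (nat_lit 78) (nat_lit 152) (nat_lit 0) (XT.lf (nat_lit 0) (nat_lit 56670390243) (nat_lit 152) (nat_lit 8348650471) (nat_lit 0) (nat_lit 3153946272) (nat_lit 11) (nat_lit 5) (nat_lit 13) (nat_lit 4) (nat_lit 11) (nat_lit 4) (nat_lit 246) (nat_lit 231) (nat_lit 183)) (XT.lf (nat_lit 0) (nat_lit 1522407293) (nat_lit 152) (nat_lit 50251797614) (nat_lit 76) (nat_lit 23576338341) (nat_lit 9) (nat_lit 5) (nat_lit 11) (nat_lit 5) (nat_lit 10) (nat_lit 4) (nat_lit 247) (nat_lit 231) (nat_lit 182))))))) (XT.nd (nat_lit 702) (nat_lit 228) (nat_lit 0) (XT.nd (nat_lit 312) (nat_lit 228) (nat_lit 0) (XT.nd (nat_lit 156) (nat_lit 0) (nat_lit 0) (XT.nd (nat_lit 78) (nat_lit 76) (nat_lit 0) (XT.lf (nat_lit 0) (nat_lit 15774363265) (nat_lit 152) (nat_lit 19617509079) (nat_lit 76) (nat_lit 48063085729) (nat_lit 9) (nat_lit 5) (nat_lit 11) (nat_lit 5) (nat_lit 10) (nat_lit 4)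 (nat_lit 248) (nat_lit 231) (nat_lit 181)) (XT.lf (nat_lit 0) (nat_lit 17126905434) (nat_lit 76) (nat_lit 15740882905) (nat_lit 152) (nat_lit 59801707381) (nat_lit 8) (nat_lit 5) (nat_lit 9) (nat_lit 5) (nat_lit 10) (nat_lit 4) (nat_lit 249) (nat_lit 231) (nat_lit 180))) (XT.nd (nat_lit 78) (nat_lit 0) (nat_lit 0) (XT.lf (nat_lit 0) (nat_lit 53878132439) (nat_lit 152) (nat_lit 41867413017) (nat_lit 0) (nat_lit 7317743164) (nat_lit 8) (nat_lit 5) (nat_lit 10) (nat_lit 4) (nat_lit 8) (nat_lit 4) (nat_lit 250) (nat_lit 231) (nat_lit 179)) (XT.lf (nat_lit 0) (nat_lit 78784940173) (nat_lit 152) (nat_lit 3899172201) (nat_lit 0) (nat_lit 32220310316) (nat_lit 8) (nat_lit 5) (nat_lit 10) (nat_lit 4) (nat_lit 8) (nat_lit 4) (nat_lit 251) (nat_lit 231) (nat_lit 178)))) (XT.nd (nat_lit 156) (nat_lit 76) (nat_lit 0) (XT.nd (nat_lit 78) (nat_lit 76) (nat_lit 0) (XT.lf (nat_lit 0) (nat_lit 43642107652)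 (nat_lit 76) (nat_lit 65588741215) (nat_lit 76) (nat_lit 19020423895) (nat_lit 7) (nat_lit 4) (nat_lit 8) (nat_lit 5) (nat_lit 8) (nat_lit 4) (nat_lit 252) (nat_lit 231) (nat_lit 177)) (XT.lf (nat_lit 0) (nat_lit 795727252) (nat_lit 152) (nat_lit 44860710215) (nat_lit 76) (nat_lit 97908293671) (nat_lit 6) (nat_lit 5) (nat_lit 8) (nat_lit 5) (nat_lit 7) (nat_lit 4) (nat_lit 253) (nat_lit 231) (nat_lit 176))) (XT.nd (nat_lit 78) (nat_lit 76) (nat_lit 0) (XT.lf (nat_lit 0) (nat_lit 21633490116) (nat_lit 152) (nat_lit 62308309) (nat_lit 76) (nat_lit 139344077119) (nat_lit 6) (nat_lit 5) (nat_lit 8) (nat_lit 5) (nat_lit 7) (nat_lit 4) (nat_lit 254) (nat_lit 231) (nat_lit 175)) (XT.nd (nat_lit 78) (nat_lit 0) (nat_lit 0) (XT.lf (nat_lit 0) (nat_lit 48286389999) (nat_lit 152) (nat_lit 124661605330) (nat_lit 0) (nat_lit 7784879889) (nat_lit 5) (nat_lit 5) (nat_lit 7) (nat_lit 4) (nat_lit 5)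 (nat_lit 4) (nat_lit 255) (nat_lit 231) (nat_lit 174)) (XT.lf (nat_lit 0) (nat_lit 79970803086) (nat_lit 152) (nat_lit 83786529275) (nat_lit 0) (nat_lit 39467459655) (nat_lit 5) (nat_lit 5) (nat_lit 7) (nat_lit 4) (nat_lit 5) (nat_lit 4) (nat_lit 256) (nat_lit 231) (nat_lit 173)))))) (XT.nd (nat_lit 312) (nat_lit 152) (nat_lit 0) (XT.nd (nat_lit 156) (nat_lit 0) (nat_lit 0) (XT.nd (nat_lit 78) (nat_lit 76) (nat_lit 0) (XT.lf (nat_lit 0) (nat_lit 116405297999) (nat_lit 152) (nat_lit 36785228379) (nat_lit 0) (nat_lit 75900360376) (nat_lit 5) (nat_lit 5) (nat_lit 7) (nat_lit 4) (nat_lit 5) (nat_lit 4) (nat_lit 257) (nat_lit 231) (nat_lit 172)) (XT.lf (nat_lit 0) (nat_lit 18948845266) (nat_lit 76) (nat_lit 140138509558) (nat_lit 76) (nat_lit 99632185682) (nat_lit 4) (nat_lit 4) (nat_lit 5) (nat_lit 5) (nat_lit 5) (nat_lit 4) (nat_lit 258) (nat_lit 231) (nat_lit 171))) (XT.nd (nat_lit 78)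 (nat_lit 0) (nat_lit 0) (XT.lf (nat_lit 0) (nat_lit 87173007462) (nat_lit 76) (nat_lit 122919452861) (nat_lit 76) (nat_lit 82411923546) (nat_lit 4) (nat_lit 4) (nat_lit 5) (nat_lit 5) (nat_lit 5) (nat_lit 4) (nat_lit 259) (nat_lit 231) (nat_lit 170)) (XT.lf (nat_lit 0) (nat_lit 165627158727) (nat_lit 76) (nat_lit 103119325908) (nat_lit 76) (nat_lit 62610748386) (nat_lit 4) (nat_lit 4) (nat_lit 5) (nat_lit 5) (nat_lit 5) (nat_lit 4) (nat_lit 260) (nat_lit 231) (nat_lit 169)))) (XT.nd (nat_lit 156) (nat_lit 152) (nat_lit 0) (XT.nd (nat_lit 78) (nat_lit 0) (nat_lit 0) (XT.lf (nat_lit 0) (nat_lit 255846271585) (nat_lit 76) (nat_lit 80350734912) (nat_lit 76) (nat_lit 39841245906) (nat_lit 4) (nat_lit 4) (nat_lit 5) (nat_lit 5) (nat_lit 5) (nat_lit 4) (nat_lit 261) (nat_lit 231) (nat_lit 168)) (XT.lf (nat_lit 0) (nat_lit 359595502593) (nat_lit 76) (nat_lit 54168207441) (nat_lit 76) (nat_lit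 13657925840) (nat_lit 4) (nat_lit 4) (nat_lit 5) (nat_lit 5) (nat_lit 5) (nat_lit 4) (nat_lit 262) (nat_lit 231) (nat_lit 167))) (XT.nd (nat_lit 78) (nat_lit 76) (nat_lit 0) (XT.lf (nat_lit 0) (nat_lit 14986868386) (nat_lit 152) (nat_lit 8289203783) (nat_lit 76) (nat_lit 463134455138) (nat_lit 3) (nat_lit 5) (nat_lit 5) (nat_lit 5) (nat_lit 4) (nat_lit 4) (nat_lit 263) (nat_lit 231) (nat_lit 166)) (XT.nd (nat_lit 78) (nat_lit 0) (nat_lit 0) (XT.lf (nat_lit 0) (nat_lit 49901687113) (nat_lit 152) (nat_lit 489068532490) (nat_lit 0) (nat_lit 14674234826) (nat_lit 2) (nat_lit 5) (nat_lit 4) (nat_lit 4) (nat_lit 2) (nat_lit 4) (nat_lit 264) (nat_lit 231) (nat_lit 165)) (XT.lf (nat_lit 0) (nat_lit 91614953103) (nat_lit 152) (nat_lit 482727287168) (nat_lit 0) (nat_lit 56387047647) (nat_lit 2) (nat_lit 5) (nat_lit 4) (nat_lit 4) (nat_lit 2) (nat_lit 4) (nat_lit 265) (nat_lit 231) (nat_lit 164))))))))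
noncomputable def xc73 : XT := (XT.nd (nat_lit 1404) (nat_lit 0) (nat_lit 0) (XT.nd (nat_lit 702) (nat_lit 76) (nat_lit 0) (XT.nd (nat_lit 312) (nat_lit 0) (nat_lit 0) (XT.nd (nat_lit 156) (nat_lit 0) (nat_lit 0) (XT.nd (nat_lit 78) (nat_lit 0) (nat_lit 0) (XT.lf (nat_lit 0) (nat_lit 139584258971) (nat_lit 152) (nat_lit 475436771345) (nat_lit 0) (nat_lit 104355959456) (nat_lit 2) (nat_lit 5) (nat_lit 4) (nat_lit 4) (nat_lit 2) (nat_lit 4) (nat_lit 266) (nat_lit 231) (nat_lit 163)) (XT.lf (nat_lit 0) (nat_lit 194748134616) (nat_lit 152) (nat_lit 467054344495) (nat_lit 0) (nat_lit 159519492440) (nat_lit 2) (nat_lit 5) (nat_lit 4) (nat_lit 4) (nat_lit 2) (nat_lit 4) (nat_lit 267) (nat_lit 231) (nat_lit 162))) (XT.nd (nat_lit 78) (nat_lit 0) (nat_lit 0) (XT.lf (nat_lit 0) (nat_lit 258185873256) (nat_lit 152) (nat_lit 457416002615) (nat_lit 0) (nat_lit 222956933114) (nat_lit 2) (nat_lit 5)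 (nat_lit 4) (nat_lit 4) (nat_lit 2) (nat_lit 4) (nat_lit 268) (nat_lit 231) (nat_lit 161)) (XT.lf (nat_lit 0) (nat_lit 331138648039) (nat_lit 152) (nat_lit 446333169450) (nat_lit 0) (nat_lit 295909448796) (nat_lit 2) (nat_lit 5) (nat_lit 4) (nat_lit 4) (nat_lit 2) (nat_lit 4) (nat_lit 269) (nat_lit 231) (nat_lit 160)))) (XT.nd (nat_lit 156) (nat_lit 0) (nat_lit 0) (XT.nd (nat_lit 78) (nat_lit 0) (nat_lit 0) (XT.lf (nat_lit 0) (nat_lit 415033795861) (nat_lit 152) (nat_lit 433589006960) (nat_lit 0) (nat_lit 379804371313) (nat_lit 2) (nat_lit 5) (nat_lit 4) (nat_lit 4) (nat_lit 2) (nat_lit 4) (nat_lit 270) (nat_lit 231) (nat_lit 159)) (XT.lf (nat_lit 0) (nat_lit 511512743530) (nat_lit 152) (nat_lit 418934172836) (nat_lit 0) (nat_lit 476283123065) (nat_lit 2) (nat_lit 5) (nat_lit 4) (nat_lit 4) (nat_lit 2) (nat_lit 4) (nat_lit 271) (nat_lit 231) (nat_lit 158))) (XT.nd (nat_lit 78) (nat_lit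 0) (nat_lit 0) (XT.lf (nat_lit 0) (nat_lit 622463122629) (nat_lit 152) (nat_lit 402081942061) (nat_lit 0) (nat_lit 587233331801) (nat_lit 2) (nat_lit 5) (nat_lit 4) (nat_lit 4) (nat_lit 2) (nat_lit 4) (nat_lit 272) (nat_lit 231) (nat_lit 157)) (XT.nd (nat_lit 78) (nat_lit 0) (nat_lit 0) (XT.lf (nat_lit 0) (nat_lit 750055701445) (nat_lit 152) (nat_lit 382702597078) (nat_lit 0) (nat_lit 714825762475) (nat_lit 2) (nat_lit 5) (nat_lit 4) (nat_lit 4) (nat_lit 2) (nat_lit 4) (nat_lit 273) (nat_lit 231) (nat_lit 156)) (XT.lf (nat_lit 0) (nat_lit 896786856520) (nat_lit 152) (nat_lit 360416976789) (nat_lit 0) (nat_lit 861556788732) (nat_lit 2) (nat_lit 5) (nat_lit 4) (nat_lit 4) (nat_lit 2) (nat_lit 4) (nat_lit 274) (nat_lit 231) (nat_lit 155)))))) (XT.nd (nat_lit 312) (nat_lit 76) (nat_lit 0) (XT.nd (nat_lit 156) (nat_lit 0) (nat_lit 0) (XT.nd (nat_lit 78) (nat_lit 0) (nat_lit 0) (XT.lf (nat_lit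 0) (nat_lit 1065527414802) (nat_lit 152) (nat_lit 334789058188) (nat_lit 0) (nat_lit 1030297234997) (nat_lit 2) (nat_lit 5) (nat_lit 4) (nat_lit 4) (nat_lit 2) (nat_lit 4) (nat_lit 275) (nat_lit 231) (nat_lit 154)) (XT.lf (nat_lit 0) (nat_lit 1259578821996) (nat_lit 152) (nat_lit 305317425477) (nat_lit 0) (nat_lit 1224348544785) (nat_lit 2) (nat_lit 5) (nat_lit 4) (nat_lit 4) (nat_lit 2) (nat_lit 4) (nat_lit 276) (nat_lit 231) (nat_lit 153))) (XT.nd (nat_lit 78) (nat_lit 0) (nat_lit 0) (XT.lf (nat_lit 0) (nat_lit 1482737736068) (nat_lit 152) (nat_lit 271425459755) (nat_lit 0) (nat_lit 1447507374157) (nat_lit 2) (nat_lit 5) (nat_lit 4) (nat_lit 4) (nat_lit 2) (nat_lit 4) (nat_lit 277) (nat_lit 231) (nat_lit 152)) (XT.lf (nat_lit 0) (nat_lit 1739370309686) (nat_lit 152) (nat_lit 232450057344) (nat_lit 0) (nat_lit 1704139874122) (nat_lit 2) (nat_lit 5) (nat_lit 4) (nat_lit 4) (nat_lit 2)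 (nat_lit 4) (nat_lit 278) (nat_lit 231) (nat_lit 151)))) (XT.nd (nat_lit 156) (nat_lit 76) (nat_lit 0) (XT.nd (nat_lit 78) (nat_lit 0) (nat_lit 0) (XT.lf (nat_lit 0) (nat_lit 2034497614941) (nat_lit 152) (nat_lit 187628656023) (nat_lit 0) (nat_lit 1999267115331) (nat_lit 2) (nat_lit 5) (nat_lit 4) (nat_lit 4) (nat_lit 2) (nat_lit 4) (nat_lit 279) (nat_lit 231) (nat_lit 150)) (XT.lf (nat_lit 0) (nat_lit 2373893881720) (nat_lit 152) (nat_lit 136084315332) (nat_lit 0) (nat_lit 2338663326418) (nat_lit 2) (nat_lit 5) (nat_lit 4) (nat_lit 4) (nat_lit 2) (nat_lit 4) (nat_lit 280) (nat_lit 231) (nat_lit 149))) (XT.nd (nat_lit 78) (nat_lit 76) (nat_lit 0) (XT.lf (nat_lit 0) (nat_lit 2764199471763) (nat_lit 152) (nat_lit 76808559040) (nat_lit 0) (nat_lit 2728968868034) (nat_lit 2) (nat_lit 5) (nat_lit 4) (nat_lit 4) (nat_lit 2) (nat_lit 4) (nat_lit 281) (nat_lit 231) (nat_lit 148)) (XT.nd (nat_lit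 78) (nat_lit 76) (nat_lit 0) (XT.lf (nat_lit 0) (nat_lit 3213050798789) (nat_lit 152) (nat_lit 8641644089) (nat_lit 0) (nat_lit 3177820152949) (nat_lit 2) (nat_lit 5) (nat_lit 4) (nat_lit 4) (nat_lit 2) (nat_lit 4) (nat_lit 282) (nat_lit 231) (nat_lit 147)) (XT.lf (nat_lit 0) (nat_lit 76566620010) (nat_lit 76) (nat_lit 3655833577034) (nat_lit 76) (nat_lit 3620602894575) (nat_lit 1) (nat_lit 4) (nat_lit 2) (nat_lit 5) (nat_lit 2) (nat_lit 4) (nat_lit 283) (nat_lit 231) (nat_lit 146))))))) (XT.nd (nat_lit 702) (nat_lit 0) (nat_lit 0) (XT.nd (nat_lit 312) (nat_lit 0) (nat_lit 0) (XT.nd (nat_lit 156) (nat_lit 0) (nat_lit 0) (XT.nd (nat_lit 78) (nat_lit 0) (nat_lit 0) (XT.lf (nat_lit 0) (nat_lit 175527156700) (nat_lit 76) (nat_lit 4154576486836) (nat_lit 76) (nat_lit 4119345772535) (nat_lit 1) (nat_lit 4) (nat_lit 2) (nat_lit 5) (nat_lit 2) (nat_lit 4) (nat_lit 284) (nat_lit 231) (nat_lit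 145)) (XT.lf (nat_lit 0) (nat_lit 289331626086) (nat_lit 76) (nat_lit 4728130908043) (nat_lit 76) (nat_lit 4692900166053) (nat_lit 1) (nat_lit 4) (nat_lit 2) (nat_lit 5) (nat_lit 2) (nat_lit 4) (nat_lit 285) (nat_lit 231) (nat_lit 144))) (XT.nd (nat_lit 78) (nat_lit 0) (nat_lit 0) (XT.lf (nat_lit 0) (nat_lit 420206637351) (nat_lit 76) (nat_lit 5387718557590) (nat_lit 76) (nat_lit 5352487791524) (nat_lit 1) (nat_lit 4) (nat_lit 2) (nat_lit 5) (nat_lit 2) (nat_lit 4) (nat_lit 286) (nat_lit 231) (nat_lit 143)) (XT.lf (nat_lit 0) (nat_lit 570712788542) (nat_lit 76) (nat_lit 6146244411232) (nat_lit 76) (nat_lit 6111013624228) (nat_lit 1) (nat_lit 4) (nat_lit 2) (nat_lit 5) (nat_lit 2) (nat_lit 4) (nat_lit 287) (nat_lit 231) (nat_lit 142)))) (XT.nd (nat_lit 156) (nat_lit 0) (nat_lit 0) (XT.nd (nat_lit 78) (nat_lit 0) (nat_lit 0) (XT.lf (nat_lit 0) (nat_lit 743794765225) (nat_lit 76) (nat_lit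 7018549192190) (nat_lit 76) (nat_lit 6983318386980) (nat_lit 1) (nat_lit 4) (nat_lit 2) (nat_lit 5) (nat_lit 2) (nat_lit 4) (nat_lit 288) (nat_lit 231) (nat_lit 141)) (XT.lf (nat_lit 0) (nat_lit 942838953900) (nat_lit 76) (nat_lit 8021699733135) (nat_lit 76) (nat_lit 7986468912095) (nat_lit 1) (nat_lit 4) (nat_lit 2) (nat_lit 5) (nat_lit 2) (nat_lit 4) (nat_lit 289) (nat_lit 231) (nat_lit 140))) (XT.nd (nat_lit 78) (nat_lit 0) (nat_lit 0) (XT.lf (nat_lit 0) (nat_lit 1171739697390) (nat_lit 76) (nat_lit 9175322892478) (nat_lit 76) (nat_lit 9140092057672) (nat_lit 1) (nat_lit 4) (nat_lit 2) (nat_lit 5) (nat_lit 2) (nat_lit 4) (nat_lit 290) (nat_lit 231) (nat_lit 139)) (XT.nd (nat_lit 78) (nat_lit 0) (nat_lit 0) (XT.lf (nat_lit 0) (nat_lit 1434975488502) (nat_lit 76) (nat_lit 10501989558119) (nat_lit 76) (nat_lit 10466758711342) (nat_lit 1) (nat_lit 4) (nat_lit 2) (nat_lit 5) (nat_lit 2)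 (nat_lit 4) (nat_lit 291) (nat_lit 231) (nat_lit 138)) (XT.lf (nat_lit 0) (nat_lit 1737696592714) (nat_lit 76) (nat_lit 12027656251776) (nat_lit 76) (nat_lit 11992425394590) (nat_lit 1) (nat_lit 4) (nat_lit 2) (nat_lit 5) (nat_lit 2) (nat_lit 4) (nat_lit 292) (nat_lit 231) (nat_lit 137)))))) (XT.nd (nat_lit 312) (nat_lit 0) (nat_lit 0) (XT.nd (nat_lit 156) (nat_lit 0) (nat_lit 0) (XT.nd (nat_lit 78) (nat_lit 0) (nat_lit 0) (XT.lf (nat_lit 0) (nat_lit 2085825814239) (nat_lit 76) (nat_lit 13782172973979) (nat_lit 76) (nat_lit 13746942107741) (nat_lit 1) (nat_lit 4) (nat_lit 2) (nat_lit 5) (nat_lit 2) (nat_lit 4) (nat_lit 293) (nat_lit 231) (nat_lit 136)) (XT.lf (nat_lit 0) (nat_lit 2486174376976) (nat_lit 76) (nat_lit 15799867225812) (nat_lit 76) (nat_lit 15764636351703) (nat_lit 1) (nat_lit 4) (nat_lit 2) (nat_lit 5) (nat_lit 2) (nat_lit 4) (nat_lit 294) (nat_lit 231) (nat_lit 135)))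 (XT.nd (nat_lit 78) (nat_lit 0) (nat_lit 0) (XT.lf (nat_lit 0) (nat_lit 2946575187588) (nat_lit 76) (nat_lit 18120215633943) (nat_lit 76) (nat_lit 18084984752990) (nat_lit 1) (nat_lit 4) (nat_lit 2) (nat_lit 5) (nat_lit 2) (nat_lit 4) (nat_lit 295) (nat_lit 231) (nat_lit 134)) (XT.lf (nat_lit 0) (nat_lit 3476036088022) (nat_lit 76) (nat_lit 20788616319401) (nat_lit 76) (nat_lit 20753385432496) (nat_lit 1) (nat_lit 4) (nat_lit 2) (nat_lit 5) (nat_lit 2) (nat_lit 4) (nat_lit 296) (nat_lit 231) (nat_lit 133)))) (XT.nd (nat_lit 702) (nat_lit 0) (nat_lit 0) (XT.nd (nat_lit 78) (nat_lit 0) (nat_lit 0) (XT.lf (nat_lit 0) (nat_lit 4084916095894) (nat_lit 76) (nat_lit 23857277121683) (nat_lit 76) (nat_lit 23822046229603) (nat_lit 1) (nat_lit 4) (nat_lit 2) (nat_lit 5) (nat_lit 2) (nat_lit 4) (nat_lit 297) (nat_lit 231) (nat_lit 132)) (XT.lf (nat_lit 0) (nat_lit 4785128080924) (nat_lit 76) (nat_lit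 27386237056486) (nat_lit 76) (nat_lit 27351006159906) (nat_lit 1) (nat_lit 4) (nat_lit 2) (nat_lit 5) (nat_lit 2) (nat_lit 4) (nat_lit 298) (nat_lit 231) (nat_lit 131))) (XT.nd (nat_lit 78) (nat_lit 0) (nat_lit 0) (XT.lf (nat_lit 0) (nat_lit 15838562963770) (nat_lit 76) (nat_lit 83093841248202) (nat_lit 76) (nat_lit 83058610331429) (nat_lit 1) (nat_lit 4) (nat_lit 2) (nat_lit 5) (nat_lit 2) (nat_lit 4) (nat_lit 306) (nat_lit 231) (nat_lit 123)) (XT.nd (nat_lit 28548) (nat_lit 0) (nat_lit 1444) (XT.lf (nat_lit 0) (nat_lit 18301821864354) (nat_lit 76) (nat_lit 95508285860096) (nat_lit 76) (nat_lit 95473054942044) (nat_lit 1) (nat_lit 4) (nat_lit 2) (nat_lit 5) (nat_lit 2) (nat_lit 4) (nat_lit 307) (nat_lit 231) (nat_lit 122)) (XT.lf (nat_lit 0) (nat_lit 960987965) (nat_lit 380) (nat_lit 4997036835) (nat_lit 380) (nat_lit 4997036835) (nat_lit 20) (nat_lit 3) (nat_lit 25) (nat_lit 3) (nat_lit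 25) (nat_lit 5) (nat_lit 232) (nat_lit 232) (nat_lit 196))))))))
noncomputable def xc74 : XT := (XT.nd (nat_lit 1404) (nat_lit 456) (nat_lit 0) (XT.nd (nat_lit 702) (nat_lit 608) (nat_lit 0) (XT.nd (nat_lit 312) (nat_lit 304) (nat_lit 0) (XT.nd (nat_lit 156) (nat_lit 0) (nat_lit 76) (XT.nd (nat_lit 78) (nat_lit 0) (nat_lit 76) (XT.lf (nat_lit 76) (nat_lit 19287726) (nat_lit 0) (nat_lit 2171512608) (nat_lit 380) (nat_lit 21343252472) (nat_lit 21) (nat_lit 5) (nat_lit 20) (nat_lit 3) (nat_lit 25) (nat_lit 5) (nat_lit 233) (nat_lit 232) (nat_lit 195)) (XT.lf (nat_lit 0) (nat_lit 3399073150) (nat_lit 304) (nat_lit 13082192178) (nat_lit 380) (nat_lit 8785549596) (nat_lit 21) (nat_lit 5) (nat_lit 25) (nat_lit 5) (nat_lit 26) (nat_lit 5) (nat_lit 234) (nat_lit 232) (nat_lit 194))) (XT.nd (nat_lit 78) (nat_lit 0) (nat_lit 76) (XT.lf (nat_lit 0) (nat_lit 4872620403) (nat_lit 304) (nat_lit 1203659637)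 (nat_lit 380) (nat_lit 21170703569) (nat_lit 21) (nat_lit 5) (nat_lit 25) (nat_lit 5) (nat_lit 26) (nat_lit 5) (nat_lit 235) (nat_lit 232) (nat_lit 193)) (XT.lf (nat_lit 0) (nat_lit 7386894262) (nat_lit 304) (nat_lit 16053698788) (nat_lit 76) (nat_lit 5960714959) (nat_lit 22) (nat_lit 5) (nat_lit 26) (nat_lit 5) (nat_lit 23) (nat_lit 5) (nat_lit 236) (nat_lit 232) (nat_lit 192)))) (XT.nd (nat_lit 156) (nat_lit 152) (nat_lit 0) (XT.nd (nat_lit 78) (nat_lit 304) (nat_lit 0) (XT.lf (nat_lit 0) (nat_lit 10618484376) (nat_lit 304) (nat_lit 1960171652) (nat_lit 76) (nat_lit 19249172317) (nat_lit 22) (nat_lit 5) (nat_lit 26) (nat_lit 5) (nat_lit 23) (nat_lit 5) (nat_lit 237) (nat_lit 232) (nat_lit 191)) (XT.lf (nat_lit 0) (nat_lit 14995877764) (nat_lit 380) (nat_lit 18925378319) (nat_lit 76) (nat_lit 597974897) (nat_lit 18) (nat_lit 5) (nat_lit 23) (nat_lit 5) (nat_lit 19) (nat_lit 5) (nat_lit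 238) (nat_lit 232) (nat_lit 190))) (XT.nd (nat_lit 78) (nat_lit 152) (nat_lit 0) (XT.lf (nat_lit 0) (nat_lit 20724239643) (nat_lit 380) (nat_lit 2216096797) (nat_lit 76) (nat_lit 14569909265) (nat_lit 18) (nat_lit 5) (nat_lit 23) (nat_lit 5) (nat_lit 19) (nat_lit 5) (nat_lit 239) (nat_lit 232) (nat_lit 189)) (XT.nd (nat_lit 78) (nat_lit 0) (nat_lit 0) (XT.lf (nat_lit 0) (nat_lit 18647023338) (nat_lit 152) (nat_lit 9426559963) (nat_lit 228) (nat_lit 12762118577) (nat_lit 16) (nat_lit 5) (nat_lit 18) (nat_lit 5) (nat_lit 19) (nat_lit 5) (nat_lit 240) (nat_lit 232) (nat_lit 188)) (XT.lf (nat_lit 0) (nat_lit 36890213057) (nat_lit 228) (nat_lit 2026061442) (nat_lit 76) (nat_lit 5689011351) (nat_lit 16) (nat_lit 5) (nat_lit 19) (nat_lit 5) (nat_lit 17) (nat_lit 4) (nat_lit 241) (nat_lit 232) (nat_lit 187)))))) (XT.nd (nat_lit 312) (nat_lit 304) (nat_lit 0) (XT.nd (nat_lit 156) (nat_lit 152)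 (nat_lit 0) (XT.nd (nat_lit 78) (nat_lit 76) (nat_lit 0) (XT.lf (nat_lit 0) (nat_lit 22723372656) (nat_lit 76) (nat_lit 25687381306) (nat_lit 152) (nat_lit 322377523) (nat_lit 15) (nat_lit 5) (nat_lit 16) (nat_lit 5) (nat_lit 17) (nat_lit 4) (nat_lit 242) (nat_lit 232) (nat_lit 186)) (XT.lf (nat_lit 0) (nat_lit 7553843080) (nat_lit 152) (nat_lit 2407049091) (nat_lit 76) (nat_lit 43453068032) (nat_lit 14) (nat_lit 5) (nat_lit 16) (nat_lit 5) (nat_lit 15) (nat_lit 5) (nat_lit 243) (nat_lit 232) (nat_lit 185))) (XT.nd (nat_lit 78) (nat_lit 0) (nat_lit 0) (XT.lf (nat_lit 0) (nat_lit 18085092284) (nat_lit 228) (nat_lit 31892548741) (nat_lit 76) (nat_lit 8591003429) (nat_lit 12) (nat_lit 5) (nat_lit 15) (nat_lit 5) (nat_lit 13) (nat_lit 4) (nat_lit 244) (nat_lit 232) (nat_lit 184)) (XT.lf (nat_lit 0) (nat_lit 30795451430) (nat_lit 228) (nat_lit 4576556608) (nat_lit 76) (nat_lit 29034630828)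 (nat_lit 12) (nat_lit 5) (nat_lit 15) (nat_lit 5) (nat_lit 13) (nat_lit 4) (nat_lit 245) (nat_lit 232) (nat_lit 183)))) (XT.nd (nat_lit 156) (nat_lit 228) (nat_lit 0) (XT.nd (nat_lit 78) (nat_lit 0) (nat_lit 0) (XT.lf (nat_lit 0) (nat_lit 29449205685) (nat_lit 76) (nat_lit 17176743893) (nat_lit 152) (nat_lit 24312363276) (nat_lit 11) (nat_lit 5) (nat_lit 12) (nat_lit 5) (nat_lit 13) (nat_lit 4) (nat_lit 246) (nat_lit 232) (nat_lit 182)) (XT.lf (nat_lit 0) (nat_lit 65231233430) (nat_lit 152) (nat_lit 9496920662) (nat_lit 0) (nat_lit 3661568009) (nat_lit 11) (nat_lit 5) (nat_lit 13) (nat_lit 4) (nat_lit 11) (nat_lit 4) (nat_lit 247) (nat_lit 232) (nat_lit 181))) (XT.nd (nat_lit 78) (nat_lit 76) (nat_lit 0) (XT.lf (nat_lit 0) (nat_lit 1810128485) (nat_lit 152) (nat_lit 57684338572) (nat_lit 76) (nat_lit 27149624943) (nat_lit 9) (nat_lit 5) (nat_lit 11) (nat_lit 5) (nat_lit 10) (nat_lit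 4) (nat_lit 248) (nat_lit 232) (nat_lit 180)) (XT.nd (nat_lit 78) (nat_lit 76) (nat_lit 0) (XT.lf (nat_lit 0) (nat_lit 18192135231) (nat_lit 152) (nat_lit 22468632237) (nat_lit 76) (nat_lit 55304579762) (nat_lit 9) (nat_lit 5) (nat_lit 11) (nat_lit 5) (nat_lit 10) (nat_lit 4) (nat_lit 249) (nat_lit 232) (nat_lit 179)) (XT.lf (nat_lit 0) (nat_lit 19783285216) (nat_lit 76) (nat_lit 18063172863) (nat_lit 152) (nat_lit 68716089444) (nat_lit 8) (nat_lit 5) (nat_lit 9) (nat_lit 5) (nat_lit 10) (nat_lit 4) (nat_lit 250) (nat_lit 232) (nat_lit 178))))))) (XT.nd (nat_lit 702) (nat_lit 152) (nat_lit 0) (XT.nd (nat_lit 312) (nat_lit 152) (nat_lit 0) (XT.nd (nat_lit 156) (nat_lit 152) (nat_lit 0) (XT.nd (nat_lit 78) (nat_lit 0) (nat_lit 0) (XT.lf (nat_lit 0) (nat_lit 62003426107) (nat_lit 152) (nat_lit 48066561371) (nat_lit 0) (nat_lit 8446173727) (nat_lit 8) (nat_lit 5) (nat_lit 10) (nat_lit 4)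 (nat_lit 8) (nat_lit 4) (nat_lit 251) (nat_lit 232) (nat_lit 177)) (XT.lf (nat_lit 0) (nat_lit 90640571462) (nat_lit 152) (nat_lit 4413644902) (nat_lit 0) (nat_lit 37080112593) (nat_lit 8) (nat_lit 5) (nat_lit 10) (nat_lit 4) (nat_lit 8) (nat_lit 4) (nat_lit 252) (nat_lit 232) (nat_lit 176))) (XT.nd (nat_lit 78) (nat_lit 76) (nat_lit 0) (XT.lf (nat_lit 0) (nat_lit 50255626787) (nat_lit 76) (nat_lit 75395580198) (nat_lit 76) (nat_lit 21832333077) (nat_lit 7) (nat_lit 4) (nat_lit 8) (nat_lit 5) (nat_lit 8) (nat_lit 4) (nat_lit 253) (nat_lit 232) (nat_lit 175)) (XT.lf (nat_lit 0) (nat_lit 947686822) (nat_lit 152) (nat_lit 51528145019) (nat_lit 76) (nat_lit 112618670504) (nat_lit 6) (nat_lit 5) (nat_lit 8) (nat_lit 5) (nat_lit 7) (nat_lit 4) (nat_lit 254) (nat_lit 232) (nat_lit 174)))) (XT.nd (nat_lit 156) (nat_lit 76) (nat_lit 0) (XT.nd (nat_lit 78) (nat_lit 76) (nat_lit 0) (XT.lf (nat_lit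 0) (nat_lit 24906861878) (nat_lit 152) (nat_lit 18026966) (nat_lit 76) (nat_lit 160266673716) (nat_lit 6) (nat_lit 5) (nat_lit 8) (nat_lit 5) (nat_lit 7) (nat_lit 4) (nat_lit 255) (nat_lit 232) (nat_lit 173)) (XT.lf (nat_lit 0) (nat_lit 55557129980) (nat_lit 152) (nat_lit 143306615186) (nat_lit 0) (nat_lit 8974857522) (nat_lit 5) (nat_lit 5) (nat_lit 7) (nat_lit 4) (nat_lit 5) (nat_lit 4) (nat_lit 256) (nat_lit 232) (nat_lit 172))) (XT.nd (nat_lit 78) (nat_lit 76) (nat_lit 0) (XT.lf (nat_lit 0) (nat_lit 91990581359) (nat_lit 152) (nat_lit 96307351324) (nat_lit 0) (nat_lit 45406922647) (nat_lit 5) (nat_lit 5) (nat_lit 7) (nat_lit 4) (nat_lit 5) (nat_lit 4) (nat_lit 257) (nat_lit 232) (nat_lit 171)) (XT.nd (nat_lit 78) (nat_lit 76) (nat_lit 0) (XT.lf (nat_lit 0) (nat_lit 133887099490) (nat_lit 152) (nat_lit 42262006251) (nat_lit 0) (nat_lit 87302235340) (nat_lit 5) (nat_lit 5) (nat_lit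 7) (nat_lit 4) (nat_lit 5) (nat_lit 4) (nat_lit 258) (nat_lit 232) (nat_lit 170)) (XT.lf (nat_lit 0) (nat_lit 21830314514) (nat_lit 76) (nat_lit 161140031115) (nat_lit 76) (nat_lit 114554118758) (nat_lit 4) (nat_lit 4) (nat_lit 5) (nat_lit 5) (nat_lit 5) (nat_lit 4) (nat_lit 259) (nat_lit 232) (nat_lit 169)))))) (XT.nd (nat_lit 312) (nat_lit 152) (nat_lit 0) (XT.nd (nat_lit 156) (nat_lit 0) (nat_lit 0) (XT.nd (nat_lit 78) (nat_lit 0) (nat_lit 0) (XT.lf (nat_lit 0) (nat_lit 100282995501) (nat_lit 76) (nat_lit 141340627418) (nat_lit 76) (nat_lit 94753803577) (nat_lit 4) (nat_lit 4) (nat_lit 5) (nat_lit 5) (nat_lit 5) (nat_lit 4) (nat_lit 260) (nat_lit 232) (nat_lit 168)) (XT.lf (nat_lit 0) (nat_lit 190500829858) (nat_lit 76) (nat_lit 118572665340) (nat_lit 76) (nat_lit 71985048904) (nat_lit 4) (nat_lit 4) (nat_lit 5) (nat_lit 5) (nat_lit 5) (nat_lit 4) (nat_lit 261) (nat_lit 232) (nat_lit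 167))) (XT.nd (nat_lit 78) (nat_lit 0) (nat_lit 0) (XT.lf (nat_lit 0) (nat_lit 294248949124) (nat_lit 76) (nat_lit 92390684755) (nat_lit 76) (nat_lit 45802379105) (nat_lit 4) (nat_lit 4) (nat_lit 5) (nat_lit 5) (nat_lit 5) (nat_lit 4) (nat_lit 262) (nat_lit 232) (nat_lit 166)) (XT.lf (nat_lit 0) (nat_lit 413557207809) (nat_lit 76) (nat_lit 62282429519) (nat_lit 76) (nat_lit 15693524554) (nat_lit 4) (nat_lit 4) (nat_lit 5) (nat_lit 5) (nat_lit 5) (nat_lit 4) (nat_lit 263) (nat_lit 232) (nat_lit 165)))) (XT.nd (nat_lit 156) (nat_lit 0) (nat_lit 0) (XT.nd (nat_lit 78) (nat_lit 76) (nat_lit 0) (XT.lf (nat_lit 0) (nat_lit 17245268023) (nat_lit 152) (nat_lit 9512099858) (nat_lit 76) (nat_lit 532613172714) (nat_lit 3) (nat_lit 5) (nat_lit 5) (nat_lit 5) (nat_lit 4) (nat_lit 4) (nat_lit 264) (nat_lit 232) (nat_lit 164)) (XT.lf (nat_lit 0) (nat_lit 57397169464) (nat_lit 152) (nat_lit 562408178732)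 (nat_lit 0) (nat_lit 16884230961) (nat_lit 2) (nat_lit 5) (nat_lit 4) (nat_lit 4) (nat_lit 2) (nat_lit 4) (nat_lit 265) (nat_lit 232) (nat_lit 163))) (XT.nd (nat_lit 78) (nat_lit 0) (nat_lit 0) (XT.lf (nat_lit 0) (nat_lit 105366091098) (nat_lit 152) (nat_lit 555118437954) (nat_lit 0) (nat_lit 64852809934) (nat_lit 2) (nat_lit 5) (nat_lit 4) (nat_lit 4) (nat_lit 2) (nat_lit 4) (nat_lit 266) (nat_lit 232) (nat_lit 162)) (XT.nd (nat_lit 78) (nat_lit 0) (nat_lit 0) (XT.lf (nat_lit 0) (nat_lit 160529632625) (nat_lit 152) (nat_lit 546736685056) (nat_lit 0) (nat_lit 120016053496) (nat_lit 2) (nat_lit 5) (nat_lit 4) (nat_lit 4) (nat_lit 2) (nat_lit 4) (nat_lit 267) (nat_lit 232) (nat_lit 161)) (XT.lf (nat_lit 0) (nat_lit 223967080729) (nat_lit 152) (nat_lit 537098929221) (nat_lit 0) (nat_lit 183453242499) (nat_lit 2) (nat_lit 5) (nat_lit 4) (nat_lit 4) (nat_lit 2) (nat_lit 4) (nat_lit 268) (nat_lit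 232) (nat_lit 160))))))))
noncomputable def xc75 : XT := (XT.nd (nat_lit 1404) (nat_lit 0) (nat_lit 0) (XT.nd (nat_lit 702) (nat_lit 76) (nat_lit 0) (XT.nd (nat_lit 312) (nat_lit 0) (nat_lit 0) (XT.nd (nat_lit 156) (nat_lit 0) (nat_lit 0) (XT.nd (nat_lit 78) (nat_lit 0) (nat_lit 0) (XT.lf (nat_lit 0) (nat_lit 296919602871) (nat_lit 152) (nat_lit 526016605661) (nat_lit 0) (nat_lit 256405539336) (nat_lit 2) (nat_lit 5) (nat_lit 4) (nat_lit 4) (nat_lit 2) (nat_lit 4) (nat_lit 269) (nat_lit 232) (nat_lit 159)) (XT.lf (nat_lit 0) (nat_lit 380814531006) (nat_lit 152) (nat_lit 513272886306) (nat_lit 0) (nat_lit 340300271554) (nat_lit 2) (nat_lit 5) (nat_lit 4) (nat_lit 4) (nat_lit 2) (nat_lit 4) (nat_lit 270) (nat_lit 232) (nat_lit 158))) (XT.nd (nat_lit 78) (nat_lit 0) (nat_lit 0) (XT.lf (nat_lit 0) (nat_lit 477293287642) (nat_lit 152) (nat_lit 498618437515) (nat_lit 0) (nat_lit 436778857827)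 (nat_lit 2) (nat_lit 5) (nat_lit 4) (nat_lit 4) (nat_lit 2) (nat_lit 4) (nat_lit 271) (nat_lit 232) (nat_lit 157)) (XT.lf (nat_lit 0) (nat_lit 588243500626) (nat_lit 152) (nat_lit 481766541814) (nat_lit 0) (nat_lit 547728922669) (nat_lit 2) (nat_lit 5) (nat_lit 4) (nat_lit 4) (nat_lit 2) (nat_lit 4) (nat_lit 272) (nat_lit 232) (nat_lit 156)))) (XT.nd (nat_lit 156) (nat_lit 0) (nat_lit 0) (XT.nd (nat_lit 78) (nat_lit 0) (nat_lit 0) (XT.lf (nat_lit 0) (nat_lit 715835934994) (nat_lit 152) (nat_lit 462387488200) (nat_lit 0) (nat_lit 675321228218) (nat_lit 2) (nat_lit 5) (nat_lit 4) (nat_lit 4) (nat_lit 2) (nat_lit 4) (nat_lit 273) (nat_lit 232) (nat_lit 155)) (XT.lf (nat_lit 0) (nat_lit 862566964463) (nat_lit 152) (nat_lit 440102121274) (nat_lit 0) (nat_lit 822052145670) (nat_lit 2) (nat_lit 5) (nat_lit 4) (nat_lit 4) (nat_lit 2) (nat_lit 4) (nat_lit 274) (nat_lit 232) (nat_lit 154))) (XT.nd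 (nat_lit 78) (nat_lit 0) (nat_lit 0) (XT.lf (nat_lit 0) (nat_lit 1031307413521) (nat_lit 152) (nat_lit 414474422989) (nat_lit 0) (nat_lit 990792497323) (nat_lit 2) (nat_lit 5) (nat_lit 4) (nat_lit 4) (nat_lit 2) (nat_lit 4) (nat_lit 275) (nat_lit 232) (nat_lit 153)) (XT.nd (nat_lit 78) (nat_lit 0) (nat_lit 0) (XT.lf (nat_lit 0) (nat_lit 1225358725738) (nat_lit 152) (nat_lit 385002981857) (nat_lit 0) (nat_lit 1184843724839) (nat_lit 2) (nat_lit 5) (nat_lit 4) (nat_lit 4) (nat_lit 2) (nat_lit 4) (nat_lit 276) (nat_lit 232) (nat_lit 152)) (XT.lf (nat_lit 0) (nat_lit 1448517557221) (nat_lit 152) (nat_lit 351111182726) (nat_lit 0) (nat_lit 1408002482670) (nat_lit 2) (nat_lit 5) (nat_lit 4) (nat_lit 4) (nat_lit 2) (nat_lit 4) (nat_lit 277) (nat_lit 232) (nat_lit 151)))))) (XT.nd (nat_lit 312) (nat_lit 76) (nat_lit 0) (XT.nd (nat_lit 156) (nat_lit 0) (nat_lit 0) (XT.nd (nat_lit 78) (nat_lit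 0) (nat_lit 0) (XT.lf (nat_lit 0) (nat_lit 1705150059023) (nat_lit 152) (nat_lit 312135925176) (nat_lit 0) (nat_lit 1664634920426) (nat_lit 2) (nat_lit 5) (nat_lit 4) (nat_lit 4) (nat_lit 2) (nat_lit 4) (nat_lit 278) (nat_lit 232) (nat_lit 150)) (XT.lf (nat_lit 0) (nat_lit 2000277301829) (nat_lit 152) (nat_lit 267314649822) (nat_lit 0) (nat_lit 1959762107541) (nat_lit 2) (nat_lit 5) (nat_lit 4) (nat_lit 4) (nat_lit 2) (nat_lit 4) (nat_lit 279) (nat_lit 232) (nat_lit 149))) (XT.nd (nat_lit 78) (nat_lit 0) (nat_lit 0) (XT.lf (nat_lit 0) (nat_lit 2339673514305) (nat_lit 152) (nat_lit 215770418667) (nat_lit 0) (nat_lit 2299158271588) (nat_lit 2) (nat_lit 5) (nat_lit 4) (nat_lit 4) (nat_lit 2) (nat_lit 4) (nat_lit 280) (nat_lit 232) (nat_lit 148)) (XT.lf (nat_lit 0) (nat_lit 2729979057128) (nat_lit 152) (nat_lit 156494757624) (nat_lit 0) (nat_lit 2689463772300) (nat_lit 2) (nat_lit 5) (nat_lit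 4) (nat_lit 4) (nat_lit 2) (nat_lit 4) (nat_lit 281) (nat_lit 232) (nat_lit 147)))) (XT.nd (nat_lit 156) (nat_lit 76) (nat_lit 0) (XT.nd (nat_lit 78) (nat_lit 0) (nat_lit 0) (XT.lf (nat_lit 0) (nat_lit 3178830343093) (nat_lit 152) (nat_lit 88327925498) (nat_lit 0) (nat_lit 3138315021647) (nat_lit 2) (nat_lit 5) (nat_lit 4) (nat_lit 4) (nat_lit 2) (nat_lit 4) (nat_lit 282) (nat_lit 232) (nat_lit 146)) (XT.lf (nat_lit 0) (nat_lit 3695009245186) (nat_lit 152) (nat_lit 9936223400) (nat_lit 0) (nat_lit 3654493891898) (nat_lit 2) (nat_lit 5) (nat_lit 4) (nat_lit 4) (nat_lit 2) (nat_lit 4) (nat_lit 283) (nat_lit 232) (nat_lit 145))) (XT.nd (nat_lit 78) (nat_lit 0) (nat_lit 0) (XT.lf (nat_lit 0) (nat_lit 88053204528) (nat_lit 76) (nat_lit 4204207806738) (nat_lit 76) (nat_lit 4163692425761) (nat_lit 1) (nat_lit 4) (nat_lit 2) (nat_lit 5) (nat_lit 2) (nat_lit 4) (nat_lit 284) (nat_lit 232) (nat_lit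 144)) (XT.nd (nat_lit 78) (nat_lit 0) (nat_lit 0) (XT.lf (nat_lit 0) (nat_lit 201857614133) (nat_lit 76) (nat_lit 4777762258251) (nat_lit 76) (nat_lit 4737246853198) (nat_lit 1) (nat_lit 4) (nat_lit 2) (nat_lit 5) (nat_lit 2) (nat_lit 4) (nat_lit 285) (nat_lit 232) (nat_lit 143)) (XT.lf (nat_lit 0) (nat_lit 332732573415) (nat_lit 76) (nat_lit 5437349934153) (nat_lit 76) (nat_lit 5396834508163) (nat_lit 1) (nat_lit 4) (nat_lit 2) (nat_lit 5) (nat_lit 2) (nat_lit 4) (nat_lit 286) (nat_lit 232) (nat_lit 142))))))) (XT.nd (nat_lit 702) (nat_lit 0) (nat_lit 0) (XT.nd (nat_lit 312) (nat_lit 0) (nat_lit 0) (XT.nd (nat_lit 156) (nat_lit 0) (nat_lit 0) (XT.nd (nat_lit 78) (nat_lit 0) (nat_lit 0) (XT.lf (nat_lit 0) (nat_lit 483238679402) (nat_lit 76) (nat_lit 6195875810711) (nat_lit 76) (nat_lit 6155360366515) (nat_lit 1) (nat_lit 4) (nat_lit 2) (nat_lit 5) (nat_lit 2) (nat_lit 4) (nat_lit 287)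 (nat_lit 232) (nat_lit 141)) (XT.lf (nat_lit 0) (nat_lit 656320616778) (nat_lit 76) (nat_lit 7068180611597) (nat_lit 76) (nat_lit 7027665151569) (nat_lit 1) (nat_lit 4) (nat_lit 2) (nat_lit 5) (nat_lit 2) (nat_lit 4) (nat_lit 288) (nat_lit 232) (nat_lit 140))) (XT.nd (nat_lit 78) (nat_lit 0) (nat_lit 0) (XT.lf (nat_lit 0) (nat_lit 855364771274) (nat_lit 76) (nat_lit 8071331169870) (nat_lit 76) (nat_lit 8030815696077) (nat_lit 1) (nat_lit 4) (nat_lit 2) (nat_lit 5) (nat_lit 2) (nat_lit 4) (nat_lit 289) (nat_lit 232) (nat_lit 139)) (XT.lf (nat_lit 0) (nat_lit 1084265485042) (nat_lit 76) (nat_lit 9224954344281) (nat_lit 76) (nat_lit 9184438858517) (nat_lit 1) (nat_lit 4) (nat_lit 2) (nat_lit 5) (nat_lit 2) (nat_lit 4) (nat_lit 290) (nat_lit 232) (nat_lit 138)))) (XT.nd (nat_lit 156) (nat_lit 0) (nat_lit 0) (XT.nd (nat_lit 78) (nat_lit 0) (nat_lit 0) (XT.lf (nat_lit 0) (nat_lit 1347501250309)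 (nat_lit 76) (nat_lit 10551621023025) (nat_lit 76) (nat_lit 10511105526851) (nat_lit 1) (nat_lit 4) (nat_lit 2) (nat_lit 5) (nat_lit 2) (nat_lit 4) (nat_lit 291) (nat_lit 232) (nat_lit 137)) (XT.lf (nat_lit 0) (nat_lit 1650222332047) (nat_lit 76) (nat_lit 12077287728076) (nat_lit 76) (nat_lit 12036772222851) (nat_lit 1) (nat_lit 4) (nat_lit 2) (nat_lit 5) (nat_lit 2) (nat_lit 4) (nat_lit 292) (nat_lit 232) (nat_lit 136))) (XT.nd (nat_lit 78) (nat_lit 0) (nat_lit 0) (XT.lf (nat_lit 0) (nat_lit 1998351534029) (nat_lit 76) (nat_lit 13831804460185) (nat_lit 76) (nat_lit 13791288947089) (nat_lit 1) (nat_lit 4) (nat_lit 2) (nat_lit 5) (nat_lit 2) (nat_lit 4) (nat_lit 293) (nat_lit 232) (nat_lit 135)) (XT.nd (nat_lit 78) (nat_lit 0) (nat_lit 0) (XT.lf (nat_lit 0) (nat_lit 2398700079773) (nat_lit 76) (nat_lit 15849498720634) (nat_lit 76) (nat_lit 15808983200694) (nat_lit 1) (nat_lit 4) (nat_lit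 2) (nat_lit 5) (nat_lit 2) (nat_lit 4) (nat_lit 294) (nat_lit 232) (nat_lit 134)) (XT.lf (nat_lit 0) (nat_lit 2859100875608) (nat_lit 76) (nat_lit 18169847136257) (nat_lit 76) (nat_lit 18129331610365) (nat_lit 1) (nat_lit 4) (nat_lit 2) (nat_lit 5) (nat_lit 2) (nat_lit 4) (nat_lit 295) (nat_lit 232) (nat_lit 133)))))) (XT.nd (nat_lit 702) (nat_lit 0) (nat_lit 0) (XT.nd (nat_lit 156) (nat_lit 0) (nat_lit 0) (XT.nd (nat_lit 78) (nat_lit 0) (nat_lit 0) (XT.lf (nat_lit 0) (nat_lit 3388561763192) (nat_lit 76) (nat_lit 20838247828229) (nat_lit 76) (nat_lit 20797732297162) (nat_lit 1) (nat_lit 4) (nat_lit 2) (nat_lit 5) (nat_lit 2) (nat_lit 4) (nat_lit 296) (nat_lit 232) (nat_lit 132)) (XT.lf (nat_lit 0) (nat_lit 3997441759891) (nat_lit 76) (nat_lit 23906908636175) (nat_lit 76) (nat_lit 23866393100608) (nat_lit 1) (nat_lit 4) (nat_lit 2) (nat_lit 5) (nat_lit 2) (nat_lit 4) (nat_lit 297) (nat_lit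 232) (nat_lit 131))) (XT.nd (nat_lit 468) (nat_lit 0) (nat_lit 0) (XT.lf (nat_lit 0) (nat_lit 4697653735205) (nat_lit 76) (nat_lit 27435868575904) (nat_lit 76) (nat_lit 27395353036424) (nat_lit 1) (nat_lit 4) (nat_lit 2) (nat_lit 5) (nat_lit 2) (nat_lit 4) (nat_lit 298) (nat_lit 232) (nat_lit 130)) (XT.lf (nat_lit 0) (nat_lit 11746546683384) (nat_lit 76) (nat_lit 62961199891328) (nat_lit 76) (nat_lit 62920684337038) (nat_lit 1) (nat_lit 4) (nat_lit 2) (nat_lit 5) (nat_lit 2) (nat_lit 4) (nat_lit 304) (nat_lit 232) (nat_lit 124)))) (XT.nd (nat_lit 156) (nat_lit 0) (nat_lit 0) (XT.nd (nat_lit 78) (nat_lit 0) (nat_lit 0) (XT.lf (nat_lit 0) (nat_lit 13609124310313) (nat_lit 76) (nat_lit 72348303563390) (nat_lit 76) (nat_lit 72307788007630) (nat_lit 1) (nat_lit 4) (nat_lit 2) (nat_lit 5) (nat_lit 2) (nat_lit 4) (nat_lit 305) (nat_lit 232) (nat_lit 123)) (XT.lf (nat_lit 0) (nat_lit 15751088574452)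 (nat_lit 76) (nat_lit 83143472789724) (nat_lit 76) (nat_lit 83102957232684) (nat_lit 1) (nat_lit 4) (nat_lit 2) (nat_lit 5) (nat_lit 2) (nat_lit 4) (nat_lit 306) (nat_lit 232) (nat_lit 122))) (XT.nd (nat_lit 28626) (nat_lit 0) (nat_lit 1444) (XT.lf (nat_lit 0) (nat_lit 18214347472274) (nat_lit 76) (nat_lit 95557917403018) (nat_lit 76) (nat_lit 95517401844866) (nat_lit 1) (nat_lit 4) (nat_lit 2) (nat_lit 5) (nat_lit 2) (nat_lit 4) (nat_lit 307) (nat_lit 232) (nat_lit 121)) (XT.nd (nat_lit 78) (nat_lit 0) (nat_lit 0) (XT.lf (nat_lit 0) (nat_lit 1223884201) (nat_lit 380) (nat_lit 5678011105) (nat_lit 380) (nat_lit 5678011105) (nat_lit 20) (nat_lit 3) (nat_lit 25) (nat_lit 3) (nat_lit 25) (nat_lit 5) (nat_lit 233) (nat_lit 233) (nat_lit 194)) (XT.lf (nat_lit 76) (nat_lit 153108738) (nat_lit 0) (nat_lit 2578251422) (nat_lit 380) (nat_lit 24299962183) (nat_lit 21) (nat_lit 5) (nat_lit 20)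 (nat_lit 3) (nat_lit 25) (nat_lit 5) (nat_lit 234) (nat_lit 233) (nat_lit 193))))))))
noncomputable def xc76 : XT := (XT.nd (nat_lit 1404) (nat_lit 456) (nat_lit 0) (XT.nd (nat_lit 702) (nat_lit 532) (nat_lit 0) (XT.nd (nat_lit 312) (nat_lit 456) (nat_lit 0) (XT.nd (nat_lit 156) (nat_lit 0) (nat_lit 76) (XT.nd (nat_lit 78) (nat_lit 0) (nat_lit 0) (XT.lf (nat_lit 0) (nat_lit 4090312596) (nat_lit 304) (nat_lit 14899198598) (nat_lit 380) (nat_lit 10039208400) (nat_lit 21) (nat_lit 5) (nat_lit 25) (nat_lit 5) (nat_lit 26) (nat_lit 5) (nat_lit 235) (nat_lit 233) (nat_lit 192)) (XT.lf (nat_lit 0) (nat_lit 5761233875) (nat_lit 304) (nat_lit 1257841273) (nat_lit 380) (nat_lit 24290505943) (nat_lit 21) (nat_lit 5) (nat_lit 25) (nat_lit 5) (nat_lit 26) (nat_lit 5) (nat_lit 236) (nat_lit 233) (nat_lit 191))) (XT.nd (nat_lit 78) (nat_lit 0) (nat_lit 0) (XT.lf (nat_lit 0) (nat_lit 8636180260) (nat_lit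 304) (nat_lit 18318229049) (nat_lit 76) (nat_lit 6835218428) (nat_lit 22) (nat_lit 5) (nat_lit 26) (nat_lit 5) (nat_lit 23) (nat_lit 5) (nat_lit 237) (nat_lit 233) (nat_lit 190)) (XT.lf (nat_lit 0) (nat_lit 12334084736) (nat_lit 304) (nat_lit 2129393437) (nat_lit 76) (nat_lit 22119501405) (nat_lit 22) (nat_lit 5) (nat_lit 26) (nat_lit 5) (nat_lit 23) (nat_lit 5) (nat_lit 238) (nat_lit 233) (nat_lit 189)))) (XT.nd (nat_lit 156) (nat_lit 228) (nat_lit 0) (XT.nd (nat_lit 78) (nat_lit 0) (nat_lit 0) (XT.lf (nat_lit 0) (nat_lit 17357305152) (nat_lit 380) (nat_lit 21628078373) (nat_lit 76) (nat_lit 694404492) (nat_lit 18) (nat_lit 5) (nat_lit 23) (nat_lit 5) (nat_lit 19) (nat_lit 5) (nat_lit 239) (nat_lit 233) (nat_lit 188)) (XT.lf (nat_lit 0) (nat_lit 23930306654) (nat_lit 380) (nat_lit 2430157669) (nat_lit 76) (nat_lit 16761250751) (nat_lit 18) (nat_lit 5) (nat_lit 23) (nat_lit 5) (nat_lit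 19) (nat_lit 5) (nat_lit 240) (nat_lit 233) (nat_lit 187))) (XT.nd (nat_lit 78) (nat_lit 76) (nat_lit 0) (XT.lf (nat_lit 0) (nat_lit 21557050775) (nat_lit 152) (nat_lit 10816970696) (nat_lit 228) (nat_lit 14573231825) (nat_lit 16) (nat_lit 5) (nat_lit 18) (nat_lit 5) (nat_lit 19) (nat_lit 5) (nat_lit 241) (nat_lit 233) (nat_lit 186)) (XT.nd (nat_lit 78) (nat_lit 76) (nat_lit 0) (XT.lf (nat_lit 0) (nat_lit 42502333531) (nat_lit 228) (nat_lit 2220577892) (nat_lit 76) (nat_lit 6561036626) (nat_lit 16) (nat_lit 5) (nat_lit 19) (nat_lit 5) (nat_lit 17) (nat_lit 4) (nat_lit 242) (nat_lit 233) (nat_lit 185)) (XT.lf (nat_lit 0) (nat_lit 26236298923) (nat_lit 76) (nat_lit 29508729797) (nat_lit 152) (nat_lit 286875497) (nat_lit 15) (nat_lit 5) (nat_lit 16) (nat_lit 5) (nat_lit 17) (nat_lit 4) (nat_lit 243) (nat_lit 233) (nat_lit 184)))))) (XT.nd (nat_lit 312) (nat_lit 228) (nat_lit 0) (XT.nd (nat_lit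 156) (nat_lit 76) (nat_lit 0) (XT.nd (nat_lit 78) (nat_lit 152) (nat_lit 0) (XT.lf (nat_lit 0) (nat_lit 8753348219) (nat_lit 152) (nat_lit 2670589106) (nat_lit 76) (nat_lit 49991927472) (nat_lit 14) (nat_lit 5) (nat_lit 16) (nat_lit 5) (nat_lit 15) (nat_lit 5) (nat_lit 244) (nat_lit 233) (nat_lit 183)) (XT.lf (nat_lit 0) (nat_lit 20860777583) (nat_lit 228) (nat_lit 36575210714) (nat_lit 76) (nat_lit 9908318837) (nat_lit 12) (nat_lit 5) (nat_lit 15) (nat_lit 5) (nat_lit 13) (nat_lit 4) (nat_lit 245) (nat_lit 233) (nat_lit 182))) (XT.nd (nat_lit 78) (nat_lit 76) (nat_lit 0) (XT.lf (nat_lit 0) (nat_lit 35469483455) (nat_lit 228) (nat_lit 5175022414) (nat_lit 76) (nat_lit 33414751447) (nat_lit 12) (nat_lit 5) (nat_lit 15) (nat_lit 5) (nat_lit 13) (nat_lit 4) (nat_lit 246) (nat_lit 233) (nat_lit 181)) (XT.lf (nat_lit 0) (nat_lit 33950603420) (nat_lit 76) (nat_lit 19720295216) (nat_lit 152)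 (nat_lit 27900354623) (nat_lit 11) (nat_lit 5) (nat_lit 12) (nat_lit 5) (nat_lit 13) (nat_lit 4) (nat_lit 247) (nat_lit 233) (nat_lit 180)))) (XT.nd (nat_lit 156) (nat_lit 76) (nat_lit 0) (XT.nd (nat_lit 78) (nat_lit 152) (nat_lit 0) (XT.lf (nat_lit 0) (nat_lit 75061502301) (nat_lit 152) (nat_lit 10842799118) (nat_lit 0) (nat_lit 4236912698) (nat_lit 11) (nat_lit 5) (nat_lit 13) (nat_lit 4) (nat_lit 11) (nat_lit 4) (nat_lit 248) (nat_lit 233) (nat_lit 179)) (XT.lf (nat_lit 0) (nat_lit 2126532519) (nat_lit 152) (nat_lit 66257421355) (nat_lit 76) (nat_lit 31249921879) (nat_lit 9) (nat_lit 5) (nat_lit 11) (nat_lit 5) (nat_lit 10) (nat_lit 4) (nat_lit 249) (nat_lit 233) (nat_lit 178))) (XT.nd (nat_lit 78) (nat_lit 76) (nat_lit 0) (XT.lf (nat_lit 0) (nat_lit 20959985743) (nat_lit 152) (nat_lit 25769737505) (nat_lit 76) (nat_lit 63624486897) (nat_lit 9) (nat_lit 5) (nat_lit 11) (nat_lit 5)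 (nat_lit 10) (nat_lit 4) (nat_lit 250) (nat_lit 233) (nat_lit 177)) (XT.nd (nat_lit 78) (nat_lit 0) (nat_lit 0) (XT.lf (nat_lit 0) (nat_lit 22816822586) (nat_lit 76) (nat_lit 20743278299) (nat_lit 152) (nat_lit 78981254055) (nat_lit 8) (nat_lit 5) (nat_lit 9) (nat_lit 5) (nat_lit 10) (nat_lit 4) (nat_lit 251) (nat_lit 233) (nat_lit 176)) (XT.lf (nat_lit 0) (nat_lit 71336888079) (nat_lit 152) (nat_lit 55215325464) (nat_lit 0) (nat_lit 9736365638) (nat_lit 8) (nat_lit 5) (nat_lit 10) (nat_lit 4) (nat_lit 8) (nat_lit 4) (nat_lit 252) (nat_lit 233) (nat_lit 175))))))) (XT.nd (nat_lit 702) (nat_lit 152) (nat_lit 0) (XT.nd (nat_lit 312) (nat_lit 76) (nat_lit 0) (XT.nd (nat_lit 156) (nat_lit 152) (nat_lit 0) (XT.nd (nat_lit 78) (nat_lit 76) (nat_lit 0) (XT.lf (nat_lit 0) (nat_lit 104265307664) (nat_lit 152) (nat_lit 5022456757) (nat_lit 0) (nat_lit 42662360657) (nat_lit 8) (nat_lit 5) (nat_lit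 10) (nat_lit 4) (nat_lit 8) (nat_lit 4) (nat_lit 253) (nat_lit 233) (nat_lit 174)) (XT.lf (nat_lit 0) (nat_lit 57844785918) (nat_lit 76) (nat_lit 86681119723) (nat_lit 76) (nat_lit 25076064397) (nat_lit 7) (nat_lit 4) (nat_lit 8) (nat_lit 5) (nat_lit 8) (nat_lit 4) (nat_lit 254) (nat_lit 233) (nat_lit 173))) (XT.nd (nat_lit 78) (nat_lit 76) (nat_lit 0) (XT.lf (nat_lit 0) (nat_lit 1114490492) (nat_lit 152) (nat_lit 59210734086) (nat_lit 76) (nat_lit 129529718931) (nat_lit 6) (nat_lit 5) (nat_lit 8) (nat_lit 5) (nat_lit 7) (nat_lit 4) (nat_lit 255) (nat_lit 233) (nat_lit 172)) (XT.lf (nat_lit 0) (nat_lit 21756021) (nat_lit 76) (nat_lit 28643471354) (nat_lit 152) (nat_lit 184301687318) (nat_lit 5) (nat_lit 5) (nat_lit 6) (nat_lit 5) (nat_lit 7) (nat_lit 4) (nat_lit 256) (nat_lit 233) (nat_lit 171)))) (XT.nd (nat_lit 156) (nat_lit 76) (nat_lit 0) (XT.nd (nat_lit 78) (nat_lit 0) (nat_lit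 0) (XT.lf (nat_lit 0) (nat_lit 63911706268) (nat_lit 152) (nat_lit 164761601079) (nat_lit 0) (nat_lit 10337907057) (nat_lit 5) (nat_lit 5) (nat_lit 7) (nat_lit 4) (nat_lit 5) (nat_lit 4) (nat_lit 257) (nat_lit 233) (nat_lit 170)) (XT.lf (nat_lit 0) (nat_lit 105807435337) (nat_lit 152) (nat_lit 110717796297) (nat_lit 0) (nat_lit 52232587920) (nat_lit 5) (nat_lit 5) (nat_lit 7) (nat_lit 4) (nat_lit 5) (nat_lit 4) (nat_lit 258) (nat_lit 233) (nat_lit 169))) (XT.nd (nat_lit 78) (nat_lit 76) (nat_lit 0) (XT.lf (nat_lit 0) (nat_lit 153986048565) (nat_lit 152) (nat_lit 48570300471) (nat_lit 0) (nat_lit 100410289664) (nat_lit 5) (nat_lit 5) (nat_lit 7) (nat_lit 4) (nat_lit 5) (nat_lit 4) (nat_lit 259) (nat_lit 233) (nat_lit 168)) (XT.nd (nat_lit 78) (nat_lit 0) (nat_lit 0) (XT.lf (nat_lit 0) (nat_lit 25134459013) (nat_lit 76) (nat_lit 185296476328) (nat_lit 76) (nat_lit 131719924831) (nat_lit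 4) (nat_lit 4) (nat_lit 5) (nat_lit 5) (nat_lit 5) (nat_lit 4) (nat_lit 260) (nat_lit 233) (nat_lit 167)) (XT.lf (nat_lit 0) (nat_lit 115351181628) (nat_lit 76) (nat_lit 162529061136) (nat_lit 76) (nat_lit 108951820426) (nat_lit 4) (nat_lit 4) (nat_lit 5) (nat_lit 5) (nat_lit 5) (nat_lit 4) (nat_lit 261) (nat_lit 233) (nat_lit 166)))))) (XT.nd (nat_lit 312) (nat_lit 76) (nat_lit 0) (XT.nd (nat_lit 156) (nat_lit 76) (nat_lit 0) (XT.nd (nat_lit 78) (nat_lit 0) (nat_lit 0) (XT.lf (nat_lit 0) (nat_lit 219098334164) (nat_lit 76) (nat_lit 136347556103) (nat_lit 76) (nat_lit 82769716077) (nat_lit 4) (nat_lit 4) (nat_lit 5) (nat_lit 5) (nat_lit 5) (nat_lit 4) (nat_lit 262) (nat_lit 233) (nat_lit 165)) (XT.lf (nat_lit 0) (nat_lit 338405752213) (nat_lit 76) (nat_lit 106239714391) (nat_lit 76) (nat_lit 52661353221) (nat_lit 4) (nat_lit 4) (nat_lit 5) (nat_lit 5) (nat_lit 5) (nat_lit 4) (nat_lit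 263) (nat_lit 233) (nat_lit 164))) (XT.nd (nat_lit 78) (nat_lit 76) (nat_lit 0) (XT.lf (nat_lit 0) (nat_lit 475607711345) (nat_lit 76) (nat_lit 71616469532) (nat_lit 76) (nat_lit 18037655193) (nat_lit 4) (nat_lit 4) (nat_lit 5) (nat_lit 5) (nat_lit 5) (nat_lit 4) (nat_lit 264) (nat_lit 233) (nat_lit 163)) (XT.lf (nat_lit 0) (nat_lit 19839898967) (nat_lit 152) (nat_lit 10923425618) (nat_lit 76) (nat_lit 612511613123) (nat_lit 3) (nat_lit 5) (nat_lit 5) (nat_lit 5) (nat_lit 4) (nat_lit 4) (nat_lit 265) (nat_lit 233) (nat_lit 162)))) (XT.nd (nat_lit 156) (nat_lit 0) (nat_lit 0) (XT.nd (nat_lit 78) (nat_lit 0) (nat_lit 0) (XT.lf (nat_lit 0) (nat_lit 66014479691) (nat_lit 152) (nat_lit 646753803552) (nat_lit 0) (nat_lit 19423565727) (nat_lit 2) (nat_lit 5) (nat_lit 4) (nat_lit 4) (nat_lit 2) (nat_lit 4) (nat_lit 266) (nat_lit 233) (nat_lit 161)) (XT.lf (nat_lit 0) (nat_lit 121177730683) (nat_lit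 152) (nat_lit 638372636699) (nat_lit 0) (nat_lit 74586557617) (nat_lit 2) (nat_lit 5) (nat_lit 4) (nat_lit 4) (nat_lit 2) (nat_lit 4) (nat_lit 267) (nat_lit 233) (nat_lit 160))) (XT.nd (nat_lit 78) (nat_lit 0) (nat_lit 0) (XT.lf (nat_lit 0) (nat_lit 184614926146) (nat_lit 152) (nat_lit 628735390469) (nat_lit 0) (nat_lit 138023527775) (nat_lit 2) (nat_lit 5) (nat_lit 4) (nat_lit 4) (nat_lit 2) (nat_lit 4) (nat_lit 268) (nat_lit 233) (nat_lit 159)) (XT.nd (nat_lit 78) (nat_lit 0) (nat_lit 0) (XT.lf (nat_lit 0) (nat_lit 257567228600) (nat_lit 152) (nat_lit 617653510043) (nat_lit 0) (nat_lit 210975634312) (nat_lit 2) (nat_lit 5) (nat_lit 4) (nat_lit 4) (nat_lit 2) (nat_lit 4) (nat_lit 269) (nat_lit 233) (nat_lit 158)) (XT.lf (nat_lit 0) (nat_lit 341461965703) (nat_lit 152) (nat_lit 604910176022) (nat_lit 0) (nat_lit 294870201053) (nat_lit 2) (nat_lit 5) (nat_lit 4) (nat_lit 4) (nat_lit 2)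 (nat_lit 4) (nat_lit 270) (nat_lit 233) (nat_lit 157))))))))
noncomputable def xc77 : XT := (XT.nd (nat_lit 1404) (nat_lit 0) (nat_lit 0) (XT.nd (nat_lit 702) (nat_lit 76) (nat_lit 0) (XT.nd (nat_lit 312) (nat_lit 0) (nat_lit 0) (XT.nd (nat_lit 156) (nat_lit 0) (nat_lit 0) (XT.nd (nat_lit 78) (nat_lit 0) (nat_lit 0) (XT.lf (nat_lit 0) (nat_lit 437940556224) (nat_lit 152) (nat_lit 590256062305) (nat_lit 0) (nat_lit 391348643432) (nat_lit 2) (nat_lit 5) (nat_lit 4) (nat_lit 4) (nat_lit 2) (nat_lit 4) (nat_lit 271) (nat_lit 233) (nat_lit 156)) (XT.lf (nat_lit 0) (nat_lit 548890624760) (nat_lit 152) (nat_lit 573404457972) (nat_lit 0) (nat_lit 502298583149) (nat_lit 2) (nat_lit 5) (nat_lit 4) (nat_lit 4) (nat_lit 2) (nat_lit 4) (nat_lit 272) (nat_lit 233) (nat_lit 155))) (XT.nd (nat_lit 78) (nat_lit 0) (nat_lit 0) (XT.lf (nat_lit 0) (nat_lit 676482933521) (nat_lit 152) (nat_lit 554025657721)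 (nat_lit 0) (nat_lit 629890779893) (nat_lit 2) (nat_lit 5) (nat_lit 4) (nat_lit 4) (nat_lit 2) (nat_lit 4) (nat_lit 273) (nat_lit 233) (nat_lit 154)) (XT.lf (nat_lit 0) (nat_lit 823213853766) (nat_lit 152) (nat_lit 531740511111) (nat_lit 0) (nat_lit 776621602733) (nat_lit 2) (nat_lit 5) (nat_lit 4) (nat_lit 4) (nat_lit 2) (nat_lit 4) (nat_lit 274) (nat_lit 233) (nat_lit 153)))) (XT.nd (nat_lit 156) (nat_lit 0) (nat_lit 0) (XT.nd (nat_lit 78) (nat_lit 0) (nat_lit 0) (XT.lf (nat_lit 0) (nat_lit 991954207847) (nat_lit 152) (nat_lit 506113004406) (nat_lit 0) (nat_lit 945361872114) (nat_lit 2) (nat_lit 5) (nat_lit 4) (nat_lit 4) (nat_lit 2) (nat_lit 4) (nat_lit 275) (nat_lit 233) (nat_lit 152)) (XT.lf (nat_lit 0) (nat_lit 1186005437475) (nat_lit 152) (nat_lit 476641729865) (nat_lit 0) (nat_lit 1139413028089) (nat_lit 2) (nat_lit 5) (nat_lit 4) (nat_lit 4) (nat_lit 2) (nat_lit 4) (nat_lit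 276) (nat_lit 233) (nat_lit 151))) (XT.nd (nat_lit 78) (nat_lit 0) (nat_lit 0) (XT.lf (nat_lit 0) (nat_lit 1409164197143) (nat_lit 152) (nat_lit 442750075594) (nat_lit 0) (nat_lit 1362571723711) (nat_lit 2) (nat_lit 5) (nat_lit 4) (nat_lit 4) (nat_lit 2) (nat_lit 4) (nat_lit 277) (nat_lit 233) (nat_lit 150)) (XT.nd (nat_lit 78) (nat_lit 0) (nat_lit 0) (XT.lf (nat_lit 0) (nat_lit 1665796636495) (nat_lit 152) (nat_lit 403774944011) (nat_lit 0) (nat_lit 1619204107372) (nat_lit 2) (nat_lit 5) (nat_lit 4) (nat_lit 4) (nat_lit 2) (nat_lit 4) (nat_lit 278) (nat_lit 233) (nat_lit 149)) (XT.lf (nat_lit 0) (nat_lit 1960923824999) (nat_lit 152) (nat_lit 358953778193) (nat_lit 0) (nat_lit 1914331247447) (nat_lit 2) (nat_lit 5) (nat_lit 4) (nat_lit 4) (nat_lit 2) (nat_lit 4) (nat_lit 279) (nat_lit 233) (nat_lit 148)))))) (XT.nd (nat_lit 312) (nat_lit 76) (nat_lit 0) (XT.nd (nat_lit 156) (nat_lit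 0) (nat_lit 0) (XT.nd (nat_lit 78) (nat_lit 0) (nat_lit 0) (XT.lf (nat_lit 0) (nat_lit 2300319990254) (nat_lit 152) (nat_lit 307409642287) (nat_lit 0) (nat_lit 2253727370591) (nat_lit 2) (nat_lit 5) (nat_lit 4) (nat_lit 4) (nat_lit 2) (nat_lit 4) (nat_lit 280) (nat_lit 233) (nat_lit 147)) (XT.lf (nat_lit 0) (nat_lit 2690625492016) (nat_lit 152) (nat_lit 248134064069) (nat_lit 0) (nat_lit 2644032835735) (nat_lit 2) (nat_lit 5) (nat_lit 4) (nat_lit 4) (nat_lit 2) (nat_lit 4) (nat_lit 281) (nat_lit 233) (nat_lit 146))) (XT.nd (nat_lit 78) (nat_lit 0) (nat_lit 0) (XT.lf (nat_lit 0) (nat_lit 3139476742276) (nat_lit 152) (nat_lit 179967303964) (nat_lit 0) (nat_lit 3092884054152) (nat_lit 2) (nat_lit 5) (nat_lit 4) (nat_lit 4) (nat_lit 2) (nat_lit 4) (nat_lit 282) (nat_lit 233) (nat_lit 145)) (XT.lf (nat_lit 0) (nat_lit 3655655613321) (nat_lit 152) (nat_lit 101575664494) (nat_lit 0) (nat_lit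 3609062897509) (nat_lit 2) (nat_lit 5) (nat_lit 4) (nat_lit 4) (nat_lit 2) (nat_lit 4) (nat_lit 283) (nat_lit 233) (nat_lit 144)))) (XT.nd (nat_lit 156) (nat_lit 0) (nat_lit 0) (XT.nd (nat_lit 78) (nat_lit 76) (nat_lit 0) (XT.lf (nat_lit 0) (nat_lit 4249261256977) (nat_lit 152) (nat_lit 11425396189) (nat_lit 0) (nat_lit 4202668517087) (nat_lit 2) (nat_lit 5) (nat_lit 4) (nat_lit 4) (nat_lit 2) (nat_lit 4) (nat_lit 284) (nat_lit 233) (nat_lit 143)) (XT.lf (nat_lit 0) (nat_lit 101262388622) (nat_lit 76) (nat_lit 4834838367653) (nat_lit 76) (nat_lit 4788245606827) (nat_lit 1) (nat_lit 4) (nat_lit 2) (nat_lit 5) (nat_lit 2) (nat_lit 4) (nat_lit 285) (nat_lit 233) (nat_lit 142))) (XT.nd (nat_lit 78) (nat_lit 0) (nat_lit 0) (XT.lf (nat_lit 0) (nat_lit 232137302701) (nat_lit 76) (nat_lit 5494426066471) (nat_lit 76) (nat_lit 5447833287440) (nat_lit 1) (nat_lit 4) (nat_lit 2) (nat_lit 5) (nat_lit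 2) (nat_lit 4) (nat_lit 286) (nat_lit 233) (nat_lit 141)) (XT.nd (nat_lit 78) (nat_lit 0) (nat_lit 0) (XT.lf (nat_lit 0) (nat_lit 382643369382) (nat_lit 76) (nat_lit 6252951962957) (nat_lit 76) (nat_lit 6206359168094) (nat_lit 1) (nat_lit 4) (nat_lit 2) (nat_lit 5) (nat_lit 2) (nat_lit 4) (nat_lit 287) (nat_lit 233) (nat_lit 140)) (XT.lf (nat_lit 0) (nat_lit 555725272578) (nat_lit 76) (nat_lit 7125256781170) (nat_lit 76) (nat_lit 7078663972541) (nat_lit 1) (nat_lit 4) (nat_lit 2) (nat_lit 5) (nat_lit 2) (nat_lit 4) (nat_lit 288) (nat_lit 233) (nat_lit 139))))))) (XT.nd (nat_lit 702) (nat_lit 0) (nat_lit 0) (XT.nd (nat_lit 312) (nat_lit 0) (nat_lit 0) (XT.nd (nat_lit 156) (nat_lit 0) (nat_lit 0) (XT.nd (nat_lit 78) (nat_lit 0) (nat_lit 0) (XT.lf (nat_lit 0) (nat_lit 754769397351) (nat_lit 76) (nat_lit 8128407354512) (nat_lit 76) (nat_lit 8081814533912) (nat_lit 1) (nat_lit 4) (nat_lit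 2) (nat_lit 5) (nat_lit 2) (nat_lit 4) (nat_lit 289) (nat_lit 233) (nat_lit 138)) (XT.lf (nat_lit 0) (nat_lit 983670085275) (nat_lit 76) (nat_lit 9282030542026) (nat_lit 76) (nat_lit 9235437711017) (nat_lit 1) (nat_lit 4) (nat_lit 2) (nat_lit 5) (nat_lit 2) (nat_lit 4) (nat_lit 290) (nat_lit 233) (nat_lit 137))) (XT.nd (nat_lit 78) (nat_lit 0) (nat_lit 0) (XT.lf (nat_lit 0) (nat_lit 1246905828068) (nat_lit 76) (nat_lit 10608697232162) (nat_lit 76) (nat_lit 10562104392102) (nat_lit 1) (nat_lit 4) (nat_lit 2) (nat_lit 5) (nat_lit 2) (nat_lit 4) (nat_lit 291) (nat_lit 233) (nat_lit 136)) (XT.lf (nat_lit 0) (nat_lit 1549626890263) (nat_lit 76) (nat_lit 12134363947121) (nat_lit 76) (nat_lit 12087771099190) (nat_lit 1) (nat_lit 4) (nat_lit 2) (nat_lit 5) (nat_lit 2) (nat_lit 4) (nat_lit 292) (nat_lit 233) (nat_lit 135)))) (XT.nd (nat_lit 156) (nat_lit 0) (nat_lit 0) (XT.nd (nat_lit 78) (nat_lit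 0) (nat_lit 0) (XT.lf (nat_lit 0) (nat_lit 1897756075252) (nat_lit 76) (nat_lit 13888880687846) (nat_lit 76) (nat_lit 13842287833070) (nat_lit 1) (nat_lit 4) (nat_lit 2) (nat_lit 5) (nat_lit 2) (nat_lit 4) (nat_lit 293) (nat_lit 233) (nat_lit 134)) (XT.lf (nat_lit 0) (nat_lit 2298104606219) (nat_lit 76) (nat_lit 15906574955786) (nat_lit 76) (nat_lit 15859982095059) (nat_lit 1) (nat_lit 4) (nat_lit 2) (nat_lit 5) (nat_lit 2) (nat_lit 4) (nat_lit 294) (nat_lit 233) (nat_lit 133))) (XT.nd (nat_lit 78) (nat_lit 0) (nat_lit 0) (XT.lf (nat_lit 0) (nat_lit 2758505389205) (nat_lit 76) (nat_lit 18226923377923) (nat_lit 76) (nat_lit 18180330512021) (nat_lit 1) (nat_lit 4) (nat_lit 2) (nat_lit 5) (nat_lit 2) (nat_lit 4) (nat_lit 295) (nat_lit 233) (nat_lit 132)) (XT.nd (nat_lit 78) (nat_lit 0) (nat_lit 0) (XT.lf (nat_lit 0) (nat_lit 3287966265616) (nat_lit 76) (nat_lit 20895324075559) (nat_lit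 76) (nat_lit 20848731205157) (nat_lit 1) (nat_lit 4) (nat_lit 2) (nat_lit 5) (nat_lit 2) (nat_lit 4) (nat_lit 296) (nat_lit 233) (nat_lit 131)) (XT.lf (nat_lit 0) (nat_lit 3896846252598) (nat_lit 76) (nat_lit 23963984888432) (nat_lit 76) (nat_lit 23917392014116) (nat_lit 1) (nat_lit 4) (nat_lit 2) (nat_lit 5) (nat_lit 2) (nat_lit 4) (nat_lit 297) (nat_lit 233) (nat_lit 130)))))) (XT.nd (nat_lit 624) (nat_lit 0) (nat_lit 0) (XT.nd (nat_lit 468) (nat_lit 0) (nat_lit 0) (XT.nd (nat_lit 390) (nat_lit 0) (nat_lit 0) (XT.lf (nat_lit 0) (nat_lit 4597058219463) (nat_lit 76) (nat_lit 27492944832444) (nat_lit 76) (nat_lit 27446351954726) (nat_lit 1) (nat_lit 4) (nat_lit 2) (nat_lit 5) (nat_lit 2) (nat_lit 4) (nat_lit 298) (nat_lit 233) (nat_lit 129)) (XT.lf (nat_lit 0) (nat_lit 10026318413424) (nat_lit 76) (nat_lit 54855577320417) (nat_lit 76) (nat_lit 54808984431292) (nat_lit 1) (nat_lit 4) (nat_lit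 2) (nat_lit 5) (nat_lit 2) (nat_lit 4) (nat_lit 303) (nat_lit 233) (nat_lit 124))) (XT.nd (nat_lit 78) (nat_lit 0) (nat_lit 0) (XT.lf (nat_lit 0) (nat_lit 11645951135669) (nat_lit 76) (nat_lit 63018276164078) (nat_lit 76) (nat_lit 62971683273482) (nat_lit 1) (nat_lit 4) (nat_lit 2) (nat_lit 5) (nat_lit 2) (nat_lit 4) (nat_lit 304) (nat_lit 233) (nat_lit 123)) (XT.lf (nat_lit 0) (nat_lit 13508528759421) (nat_lit 76) (nat_lit 72405379837750) (nat_lit 76) (nat_lit 72358786945875) (nat_lit 1) (nat_lit 4) (nat_lit 2) (nat_lit 5) (nat_lit 2) (nat_lit 4) (nat_lit 305) (nat_lit 233) (nat_lit 122)))) (XT.nd (nat_lit 28782) (nat_lit 0) (nat_lit 1444) (XT.nd (nat_lit 78) (nat_lit 0) (nat_lit 0) (XT.lf (nat_lit 0) (nat_lit 15650493020798) (nat_lit 76) (nat_lit 83200549065484) (nat_lit 76) (nat_lit 83153956172496) (nat_lit 1) (nat_lit 4) (nat_lit 2) (nat_lit 5) (nat_lit 2) (nat_lit 4) (nat_lit 306)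 (nat_lit 233) (nat_lit 121)) (XT.lf (nat_lit 0) (nat_lit 18113751916218) (nat_lit 76) (nat_lit 95614993679996) (nat_lit 76) (nat_lit 95568400786041) (nat_lit 1) (nat_lit 4) (nat_lit 2) (nat_lit 5) (nat_lit 2) (nat_lit 4) (nat_lit 307) (nat_lit 233) (nat_lit 120))) (XT.nd (nat_lit 78) (nat_lit 0) (nat_lit 0) (XT.lf (nat_lit 0) (nat_lit 1497257410) (nat_lit 380) (nat_lit 6477855488) (nat_lit 380) (nat_lit 6477855488) (nat_lit 20) (nat_lit 3) (nat_lit 25) (nat_lit 3) (nat_lit 25) (nat_lit 5) (nat_lit 234) (nat_lit 234) (nat_lit 192)) (XT.nd (nat_lit 78) (nat_lit 0) (nat_lit 76) (XT.lf (nat_lit 76) (nat_lit 275075315) (nat_lit 0) (nat_lit 3026245788) (nat_lit 380) (nat_lit 27759869056) (nat_lit 21) (nat_lit 5) (nat_lit 20) (nat_lit 3) (nat_lit 25) (nat_lit 5) (nat_lit 235) (nat_lit 234) (nat_lit 191)) (XT.lf (nat_lit 0) (nat_lit 4841007670) (nat_lit 304) (nat_lit 17024193770) (nat_lit 380)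 (nat_lit 11496565172) (nat_lit 21) (nat_lit 5) (nat_lit 25) (nat_lit 5) (nat_lit 26) (nat_lit 5) (nat_lit 236) (nat_lit 234) (nat_lit 190))))))))
noncomputable def xc78 : XT := (XT.nd (nat_lit 1404) (nat_lit 456) (nat_lit 0) (XT.nd (nat_lit 702) (nat_lit 456) (nat_lit 0) (XT.nd (nat_lit 312) (nat_lit 304) (nat_lit 0) (XT.nd (nat_lit 156) (nat_lit 228) (nat_lit 0) (XT.nd (nat_lit 78) (nat_lit 0) (nat_lit 76) (XT.lf (nat_lit 0) (nat_lit 6744678247) (nat_lit 304) (nat_lit 1350965623) (nat_lit 380) (nat_lit 27891886628) (nat_lit 21) (nat_lit 5) (nat_lit 25) (nat_lit 5) (nat_lit 26) (nat_lit 5) (nat_lit 237) (nat_lit 234) (nat_lit 189)) (XT.lf (nat_lit 0) (nat_lit 10038413997) (nat_lit 304) (nat_lit 20957438221) (nat_lit 76) (nat_lit 7845677923) (nat_lit 22) (nat_lit 5) (nat_lit 26) (nat_lit 5) (nat_lit 23) (nat_lit 5) (nat_lit 238) (nat_lit 234) (nat_lit 188))) (XT.nd (nat_lit 78) (nat_lit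 304) (nat_lit 0) (XT.lf (nat_lit 0) (nat_lit 14277072836) (nat_lit 304) (nat_lit 2354432727) (nat_lit 76) (nat_lit 25424536815) (nat_lit 22) (nat_lit 5) (nat_lit 26) (nat_lit 5) (nat_lit 23) (nat_lit 5) (nat_lit 239) (nat_lit 234) (nat_lit 187)) (XT.lf (nat_lit 0) (nat_lit 20045623589) (nat_lit 380) (nat_lit 24769373914) (nat_lit 76) (nat_lit 803656554) (nat_lit 18) (nat_lit 5) (nat_lit 23) (nat_lit 5) (nat_lit 19) (nat_lit 5) (nat_lit 240) (nat_lit 234) (nat_lit 186)))) (XT.nd (nat_lit 156) (nat_lit 152) (nat_lit 0) (XT.nd (nat_lit 78) (nat_lit 152) (nat_lit 0) (XT.lf (nat_lit 0) (nat_lit 27593524533) (nat_lit 380) (nat_lit 2705188959) (nat_lit 76) (nat_lit 19279865658) (nat_lit 18) (nat_lit 5) (nat_lit 23) (nat_lit 5) (nat_lit 19) (nat_lit 5) (nat_lit 241) (nat_lit 234) (nat_lit 185)) (XT.lf (nat_lit 0) (nat_lit 24876032917) (nat_lit 152) (nat_lit 12421691528) (nat_lit 228) (nat_lit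 16681179141) (nat_lit 16) (nat_lit 5) (nat_lit 18) (nat_lit 5) (nat_lit 19) (nat_lit 5) (nat_lit 242) (nat_lit 234) (nat_lit 184))) (XT.nd (nat_lit 78) (nat_lit 152) (nat_lit 0) (XT.lf (nat_lit 0) (nat_lit 48937107769) (nat_lit 228) (nat_lit 2470947928) (nat_lit 76) (nat_lit 7559312023) (nat_lit 16) (nat_lit 5) (nat_lit 19) (nat_lit 5) (nat_lit 17) (nat_lit 4) (nat_lit 243) (nat_lit 234) (nat_lit 183)) (XT.nd (nat_lit 78) (nat_lit 76) (nat_lit 0) (XT.lf (nat_lit 0) (nat_lit 30250700561) (nat_lit 76) (nat_lit 33911025124) (nat_lit 152) (nat_lit 266497631) (nat_lit 15) (nat_lit 5) (nat_lit 16) (nat_lit 5) (nat_lit 17) (nat_lit 4) (nat_lit 244) (nat_lit 234) (nat_lit 182)) (XT.lf (nat_lit 0) (nat_lit 10116580074) (nat_lit 152) (nat_lit 2997440347) (nat_lit 76) (nat_lit 57506519418) (nat_lit 14) (nat_lit 5) (nat_lit 16) (nat_lit 5) (nat_lit 15) (nat_lit 5) (nat_lit 245) (nat_lit 234) (nat_lit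 181)))))) (XT.nd (nat_lit 312) (nat_lit 228) (nat_lit 0) (XT.nd (nat_lit 156) (nat_lit 76) (nat_lit 0) (XT.nd (nat_lit 78) (nat_lit 0) (nat_lit 0) (XT.lf (nat_lit 0) (nat_lit 24037471881) (nat_lit 228) (nat_lit 41984955204) (nat_lit 76) (nat_lit 11416241440) (nat_lit 12) (nat_lit 5) (nat_lit 15) (nat_lit 5) (nat_lit 13) (nat_lit 4) (nat_lit 246) (nat_lit 234) (nat_lit 180)) (XT.lf (nat_lit 0) (nat_lit 40831277853) (nat_lit 228) (nat_lit 5884721761) (nat_lit 76) (nat_lit 38445811796) (nat_lit 12) (nat_lit 5) (nat_lit 15) (nat_lit 5) (nat_lit 13) (nat_lit 4) (nat_lit 247) (nat_lit 234) (nat_lit 179))) (XT.nd (nat_lit 78) (nat_lit 0) (nat_lit 0) (XT.lf (nat_lit 0) (nat_lit 39106722765) (nat_lit 76) (nat_lit 22653416806) (nat_lit 152) (nat_lit 32040898823) (nat_lit 11) (nat_lit 5) (nat_lit 12) (nat_lit 5) (nat_lit 13) (nat_lit 4) (nat_lit 248) (nat_lit 234) (nat_lit 178)) (XT.lf (nat_lit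 0) (nat_lit 86355195591) (nat_lit 152) (nat_lit 12409740994) (nat_lit 0) (nat_lit 4892192126) (nat_lit 11) (nat_lit 5) (nat_lit 13) (nat_lit 4) (nat_lit 11) (nat_lit 4) (nat_lit 249) (nat_lit 234) (nat_lit 177)))) (XT.nd (nat_lit 156) (nat_lit 76) (nat_lit 0) (XT.nd (nat_lit 78) (nat_lit 0) (nat_lit 0) (XT.lf (nat_lit 0) (nat_lit 2479451725) (nat_lit 152) (nat_lit 76135869717) (nat_lit 76) (nat_lit 35958471179) (nat_lit 9) (nat_lit 5) (nat_lit 11) (nat_lit 5) (nat_lit 10) (nat_lit 4) (nat_lit 250) (nat_lit 234) (nat_lit 176)) (XT.lf (nat_lit 0) (nat_lit 24133496064) (nat_lit 152) (nat_lit 29582880877) (nat_lit 76) (nat_lit 73186473859) (nat_lit 9) (nat_lit 5) (nat_lit 11) (nat_lit 5) (nat_lit 10) (nat_lit 4) (nat_lit 251) (nat_lit 234) (nat_lit 175))) (XT.nd (nat_lit 78) (nat_lit 0) (nat_lit 0) (XT.lf (nat_lit 0) (nat_lit 26289285171) (nat_lit 76) (nat_lit 23832561730) (nat_lit 152)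 (nat_lit 90796495997) (nat_lit 8) (nat_lit 5) (nat_lit 9) (nat_lit 5) (nat_lit 10) (nat_lit 4) (nat_lit 252) (nat_lit 234) (nat_lit 174)) (XT.nd (nat_lit 78) (nat_lit 0) (nat_lit 0) (XT.lf (nat_lit 0) (nat_lit 82062334754) (nat_lit 152) (nat_lit 63451333083) (nat_lit 0) (nat_lit 11214412810) (nat_lit 8) (nat_lit 5) (nat_lit 10) (nat_lit 4) (nat_lit 8) (nat_lit 4) (nat_lit 253) (nat_lit 234) (nat_lit 173)) (XT.lf (nat_lit 0) (nat_lit 119926767695) (nat_lit 152) (nat_lit 5735572053) (nat_lit 0) (nat_lit 49077012431) (nat_lit 8) (nat_lit 5) (nat_lit 10) (nat_lit 4) (nat_lit 8) (nat_lit 4) (nat_lit 254) (nat_lit 234) (nat_lit 172))))))) (XT.nd (nat_lit 702) (nat_lit 152) (nat_lit 0) (XT.nd (nat_lit 312) (nat_lit 76) (nat_lit 0) (XT.nd (nat_lit 156) (nat_lit 76) (nat_lit 0) (XT.nd (nat_lit 78) (nat_lit 76) (nat_lit 0) (XT.lf (nat_lit 0) (nat_lit 66559927332) (nat_lit 76) (nat_lit 99665293349)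 (nat_lit 76) (nat_lit 28813943893) (nat_lit 7) (nat_lit 4) (nat_lit 8) (nat_lit 5) (nat_lit 8) (nat_lit 4) (nat_lit 255) (nat_lit 234) (nat_lit 171)) (XT.lf (nat_lit 0) (nat_lit 1300303497) (nat_lit 152) (nat_lit 68057083189) (nat_lit 76) (nat_lit 148972974767) (nat_lit 6) (nat_lit 5) (nat_lit 8) (nat_lit 5) (nat_lit 7) (nat_lit 4) (nat_lit 256) (nat_lit 234) (nat_lit 170))) (XT.nd (nat_lit 78) (nat_lit 0) (nat_lit 0) (XT.lf (nat_lit 0) (nat_lit 58677662) (nat_lit 76) (nat_lit 32923935737) (nat_lit 152) (nat_lit 211926674153) (nat_lit 5) (nat_lit 5) (nat_lit 6) (nat_lit 5) (nat_lit 7) (nat_lit 4) (nat_lit 257) (nat_lit 234) (nat_lit 169)) (XT.lf (nat_lit 0) (nat_lit 73514346360) (nat_lit 152) (nat_lit 189444834523) (nat_lit 0) (nat_lit 11901312139) (nat_lit 5) (nat_lit 5) (nat_lit 7) (nat_lit 4) (nat_lit 5) (nat_lit 4) (nat_lit 258) (nat_lit 234) (nat_lit 168)))) (XT.nd (nat_lit 156)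 (nat_lit 76) (nat_lit 0) (XT.nd (nat_lit 78) (nat_lit 0) (nat_lit 0) (XT.lf (nat_lit 0) (nat_lit 121692362944) (nat_lit 152) (nat_lit 127298503378) (nat_lit 0) (nat_lit 60078536128) (nat_lit 5) (nat_lit 5) (nat_lit 7) (nat_lit 4) (nat_lit 5) (nat_lit 4) (nat_lit 259) (nat_lit 234) (nat_lit 167)) (XT.lf (nat_lit 0) (nat_lit 177095966551) (nat_lit 152) (nat_lit 55832400008) (nat_lit 0) (nat_lit 115481450521) (nat_lit 5) (nat_lit 5) (nat_lit 7) (nat_lit 4) (nat_lit 5) (nat_lit 4) (nat_lit 260) (nat_lit 234) (nat_lit 166))) (XT.nd (nat_lit 78) (nat_lit 0) (nat_lit 0) (XT.lf (nat_lit 0) (nat_lit 28927007692) (nat_lit 76) (nat_lit 213079938739) (nat_lit 76) (nat_lit 151464823393) (nat_lit 4) (nat_lit 4) (nat_lit 5) (nat_lit 5) (nat_lit 5) (nat_lit 4) (nat_lit 261) (nat_lit 234) (nat_lit 165)) (XT.nd (nat_lit 78) (nat_lit 0) (nat_lit 0) (XT.lf (nat_lit 0) (nat_lit 132673319592) (nat_lit 76)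 (nat_lit 186898847229) (nat_lit 76) (nat_lit 125283210740) (nat_lit 4) (nat_lit 4) (nat_lit 5) (nat_lit 5) (nat_lit 5) (nat_lit 4) (nat_lit 262) (nat_lit 234) (nat_lit 164)) (XT.lf (nat_lit 0) (nat_lit 251980006653) (nat_lit 76) (nat_lit 156791365103) (nat_lit 76) (nat_lit 95175275445) (nat_lit 4) (nat_lit 4) (nat_lit 5) (nat_lit 5) (nat_lit 5) (nat_lit 4) (nat_lit 263) (nat_lit 234) (nat_lit 163)))))) (XT.nd (nat_lit 312) (nat_lit 0) (nat_lit 0) (XT.nd (nat_lit 156) (nat_lit 152) (nat_lit 0) (XT.nd (nat_lit 78) (nat_lit 0) (nat_lit 0) (XT.lf (nat_lit 0) (nat_lit 389181330144) (nat_lit 76) (nat_lit 122168432928) (nat_lit 76) (nat_lit 60551949210) (nat_lit 4) (nat_lit 4) (nat_lit 5) (nat_lit 5) (nat_lit 5) (nat_lit 4) (nat_lit 264) (nat_lit 234) (nat_lit 162)) (XT.lf (nat_lit 0) (nat_lit 546961663786) (nat_lit 76) (nat_lit 82352645508) (nat_lit 76) (nat_lit 20735819129) (nat_lit 4) (nat_lit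 4) (nat_lit 5) (nat_lit 5) (nat_lit 5) (nat_lit 4) (nat_lit 265) (nat_lit 234) (nat_lit 161))) (XT.nd (nat_lit 78) (nat_lit 76) (nat_lit 0) (XT.lf (nat_lit 0) (nat_lit 22821812538) (nat_lit 152) (nat_lit 12550227386) (nat_lit 76) (nat_lit 704393243185) (nat_lit 3) (nat_lit 5) (nat_lit 5) (nat_lit 5) (nat_lit 4) (nat_lit 4) (nat_lit 266) (nat_lit 234) (nat_lit 160)) (XT.lf (nat_lit 0) (nat_lit 75922500271) (nat_lit 152) (nat_lit 743755076739) (nat_lit 0) (nat_lit 22342166840) (nat_lit 2) (nat_lit 5) (nat_lit 4) (nat_lit 4) (nat_lit 2) (nat_lit 4) (nat_lit 267) (nat_lit 234) (nat_lit 159)))) (XT.nd (nat_lit 156) (nat_lit 0) (nat_lit 0) (XT.nd (nat_lit 78) (nat_lit 0) (nat_lit 0) (XT.lf (nat_lit 0) (nat_lit 139359476047) (nat_lit 152) (nat_lit 734118273643) (nat_lit 0) (nat_lit 85778946699) (nat_lit 2) (nat_lit 5) (nat_lit 4) (nat_lit 4) (nat_lit 2) (nat_lit 4) (nat_lit 268) (nat_lit 234)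 (nat_lit 158)) (XT.lf (nat_lit 0) (nat_lit 212311587469) (nat_lit 152) (nat_lit 723036778551) (nat_lit 0) (nat_lit 158730887758) (nat_lit 2) (nat_lit 5) (nat_lit 4) (nat_lit 4) (nat_lit 2) (nat_lit 4) (nat_lit 269) (nat_lit 234) (nat_lit 157))) (XT.nd (nat_lit 78) (nat_lit 0) (nat_lit 0) (XT.lf (nat_lit 0) (nat_lit 296206158457) (nat_lit 152) (nat_lit 710293779603) (nat_lit 0) (nat_lit 242625310604) (nat_lit 2) (nat_lit 5) (nat_lit 4) (nat_lit 4) (nat_lit 2) (nat_lit 4) (nat_lit 270) (nat_lit 234) (nat_lit 156)) (XT.nd (nat_lit 78) (nat_lit 0) (nat_lit 0) (XT.lf (nat_lit 0) (nat_lit 392684604530) (nat_lit 152) (nat_lit 695639957254) (nat_lit 0) (nat_lit 339103627858) (nat_lit 2) (nat_lit 5) (nat_lit 4) (nat_lit 4) (nat_lit 2) (nat_lit 4) (nat_lit 271) (nat_lit 234) (nat_lit 155)) (XT.lf (nat_lit 0) (nat_lit 503634547459) (nat_lit 152) (nat_lit 678788606285) (nat_lit 0) (nat_lit 450053458770)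 (nat_lit 2) (nat_lit 5) (nat_lit 4) (nat_lit 4) (nat_lit 2) (nat_lit 4) (nat_lit 272) (nat_lit 234) (nat_lit 154))))))))
noncomputable def xc79 : XT := (XT.nd (nat_lit 1404) (nat_lit 0) (nat_lit 0) (XT.nd (nat_lit 702) (nat_lit 76) (nat_lit 0) (XT.nd (nat_lit 312) (nat_lit 0) (nat_lit 0) (XT.nd (nat_lit 156) (nat_lit 0) (nat_lit 0) (XT.nd (nat_lit 78) (nat_lit 0) (nat_lit 0) (XT.lf (nat_lit 0) (nat_lit 631226746996) (nat_lit 152) (nat_lit 659410026350) (nat_lit 0) (nat_lit 577645560903) (nat_lit 2) (nat_lit 5) (nat_lit 4) (nat_lit 4) (nat_lit 2) (nat_lit 4) (nat_lit 273) (nat_lit 234) (nat_lit 153)) (XT.lf (nat_lit 0) (nat_lit 777957572264) (nat_lit 152) (nat_lit 637125071319) (nat_lit 0) (nat_lit 724376301470) (nat_lit 2) (nat_lit 5) (nat_lit 4) (nat_lit 4) (nat_lit 2) (nat_lit 4) (nat_lit 274) (nat_lit 234) (nat_lit 152))) (XT.nd (nat_lit 78) (nat_lit 0) (nat_lit 0) (XT.lf (nat_lit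 0) (nat_lit 946697843757) (nat_lit 152) (nat_lit 611497731205) (nat_lit 0) (nat_lit 893116499310) (nat_lit 2) (nat_lit 5) (nat_lit 4) (nat_lit 4) (nat_lit 2) (nat_lit 4) (nat_lit 275) (nat_lit 234) (nat_lit 151)) (XT.lf (nat_lit 0) (nat_lit 1140749001569) (nat_lit 152) (nat_lit 582026601525) (nat_lit 0) (nat_lit 1087167593077) (nat_lit 2) (nat_lit 5) (nat_lit 4) (nat_lit 4) (nat_lit 2) (nat_lit 4) (nat_lit 276) (nat_lit 234) (nat_lit 150)))) (XT.nd (nat_lit 156) (nat_lit 0) (nat_lit 0) (XT.nd (nat_lit 78) (nat_lit 0) (nat_lit 0) (XT.lf (nat_lit 0) (nat_lit 1363907698788) (nat_lit 152) (nat_lit 548135073221) (nat_lit 0) (nat_lit 1310326234603) (nat_lit 2) (nat_lit 5) (nat_lit 4) (nat_lit 4) (nat_lit 2) (nat_lit 4) (nat_lit 277) (nat_lit 234) (nat_lit 149)) (XT.lf (nat_lit 0) (nat_lit 1620540083837) (nat_lit 152) (nat_lit 509160051174) (nat_lit 0) (nat_lit 1566958571225) (nat_lit 2) (nat_lit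 5) (nat_lit 4) (nat_lit 4) (nat_lit 2) (nat_lit 4) (nat_lit 278) (nat_lit 234) (nat_lit 148))) (XT.nd (nat_lit 78) (nat_lit 0) (nat_lit 0) (XT.lf (nat_lit 0) (nat_lit 1915667225120) (nat_lit 152) (nat_lit 464338980604) (nat_lit 0) (nat_lit 1862085670397) (nat_lit 2) (nat_lit 5) (nat_lit 4) (nat_lit 4) (nat_lit 2) (nat_lit 4) (nat_lit 279) (nat_lit 234) (nat_lit 147)) (XT.nd (nat_lit 78) (nat_lit 0) (nat_lit 0) (XT.lf (nat_lit 0) (nat_lit 2255063349314) (nat_lit 152) (nat_lit 412794927523) (nat_lit 0) (nat_lit 2201481757972) (nat_lit 2) (nat_lit 5) (nat_lit 4) (nat_lit 4) (nat_lit 2) (nat_lit 4) (nat_lit 280) (nat_lit 234) (nat_lit 146)) (XT.lf (nat_lit 0) (nat_lit 2645368815371) (nat_lit 152) (nat_lit 353519421327) (nat_lit 0) (nat_lit 2591787192187) (nat_lit 2) (nat_lit 5) (nat_lit 4) (nat_lit 4) (nat_lit 2) (nat_lit 4) (nat_lit 281) (nat_lit 234) (nat_lit 145)))))) (XT.nd (nat_lit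 312) (nat_lit 76) (nat_lit 0) (XT.nd (nat_lit 156) (nat_lit 0) (nat_lit 0) (XT.nd (nat_lit 78) (nat_lit 0) (nat_lit 0) (XT.lf (nat_lit 0) (nat_lit 3094220034582) (nat_lit 152) (nat_lit 285352723850) (nat_lit 0) (nat_lit 3040638383710) (nat_lit 2) (nat_lit 5) (nat_lit 4) (nat_lit 4) (nat_lit 2) (nat_lit 4) (nat_lit 282) (nat_lit 234) (nat_lit 144)) (XT.lf (nat_lit 0) (nat_lit 3610398878629) (nat_lit 152) (nat_lit 206961138838) (nat_lit 0) (nat_lit 3556817203679) (nat_lit 2) (nat_lit 5) (nat_lit 4) (nat_lit 4) (nat_lit 2) (nat_lit 4) (nat_lit 283) (nat_lit 234) (nat_lit 143))) (XT.nd (nat_lit 78) (nat_lit 0) (nat_lit 0) (XT.lf (nat_lit 0) (nat_lit 4204004498808) (nat_lit 152) (nat_lit 116810917889) (nat_lit 0) (nat_lit 4150422802922) (nat_lit 2) (nat_lit 5) (nat_lit 4) (nat_lit 4) (nat_lit 2) (nat_lit 4) (nat_lit 284) (nat_lit 234) (nat_lit 142)) (XT.lf (nat_lit 0) (nat_lit 4886650918122)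 (nat_lit 152) (nat_lit 13138252332) (nat_lit 0) (nat_lit 4833069204030) (nat_lit 2) (nat_lit 5) (nat_lit 4) (nat_lit 4) (nat_lit 2) (nat_lit 4) (nat_lit 285) (nat_lit 234) (nat_lit 141)))) (XT.nd (nat_lit 156) (nat_lit 0) (nat_lit 0) (XT.nd (nat_lit 78) (nat_lit 0) (nat_lit 0) (XT.lf (nat_lit 0) (nat_lit 116452656870) (nat_lit 76) (nat_lit 5560063661481) (nat_lit 76) (nat_lit 5506481931558) (nat_lit 1) (nat_lit 4) (nat_lit 2) (nat_lit 5) (nat_lit 2) (nat_lit 4) (nat_lit 286) (nat_lit 234) (nat_lit 140)) (XT.lf (nat_lit 0) (nat_lit 266958689371) (nat_lit 76) (nat_lit 6318589575294) (nat_lit 76) (nat_lit 6265007831605) (nat_lit 1) (nat_lit 4) (nat_lit 2) (nat_lit 5) (nat_lit 2) (nat_lit 4) (nat_lit 287) (nat_lit 234) (nat_lit 139))) (XT.nd (nat_lit 78) (nat_lit 0) (nat_lit 0) (XT.lf (nat_lit 0) (nat_lit 440040562845) (nat_lit 76) (nat_lit 7190894408576) (nat_lit 76) (nat_lit 7137312652916)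 (nat_lit 1) (nat_lit 4) (nat_lit 2) (nat_lit 5) (nat_lit 2) (nat_lit 4) (nat_lit 288) (nat_lit 234) (nat_lit 138)) (XT.nd (nat_lit 78) (nat_lit 0) (nat_lit 0) (XT.lf (nat_lit 0) (nat_lit 639084661774) (nat_lit 76) (nat_lit 8194044995020) (nat_lit 76) (nat_lit 8140463228951) (nat_lit 1) (nat_lit 4) (nat_lit 2) (nat_lit 5) (nat_lit 2) (nat_lit 4) (nat_lit 289) (nat_lit 234) (nat_lit 137)) (XT.lf (nat_lit 0) (nat_lit 867985327224) (nat_lit 76) (nat_lit 9347668193928) (nat_lit 76) (nat_lit 9294086418807) (nat_lit 1) (nat_lit 4) (nat_lit 2) (nat_lit 5) (nat_lit 2) (nat_lit 4) (nat_lit 290) (nat_lit 234) (nat_lit 136))))))) (XT.nd (nat_lit 936) (nat_lit 0) (nat_lit 0) (XT.nd (nat_lit 312) (nat_lit 0) (nat_lit 0) (XT.nd (nat_lit 156) (nat_lit 0) (nat_lit 0) (XT.nd (nat_lit 78) (nat_lit 0) (nat_lit 0) (XT.lf (nat_lit 0) (nat_lit 1131221050474) (nat_lit 76) (nat_lit 10674334893972) (nat_lit 76)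 (nat_lit 10620753110980) (nat_lit 1) (nat_lit 4) (nat_lit 2) (nat_lit 5) (nat_lit 2) (nat_lit 4) (nat_lit 291) (nat_lit 234) (nat_lit 135)) (XT.lf (nat_lit 0) (nat_lit 1433942095676) (nat_lit 76) (nat_lit 12200001617546) (nat_lit 76) (nat_lit 12146419827710) (nat_lit 1) (nat_lit 4) (nat_lit 2) (nat_lit 5) (nat_lit 2) (nat_lit 4) (nat_lit 292) (nat_lit 234) (nat_lit 134))) (XT.nd (nat_lit 78) (nat_lit 0) (nat_lit 0) (XT.lf (nat_lit 0) (nat_lit 1782071265889) (nat_lit 76) (nat_lit 13954518365762) (nat_lit 76) (nat_lit 13900936569974) (nat_lit 1) (nat_lit 4) (nat_lit 2) (nat_lit 5) (nat_lit 2) (nat_lit 4) (nat_lit 293) (nat_lit 234) (nat_lit 133)) (XT.lf (nat_lit 0) (nat_lit 2182419784006) (nat_lit 76) (nat_lit 15972212640216) (nat_lit 76) (nat_lit 15918630839254) (nat_lit 1) (nat_lit 4) (nat_lit 2) (nat_lit 5) (nat_lit 2) (nat_lit 4) (nat_lit 294) (nat_lit 234) (nat_lit 132)))) (XT.nd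 (nat_lit 156) (nat_lit 0) (nat_lit 0) (XT.nd (nat_lit 78) (nat_lit 0) (nat_lit 0) (XT.lf (nat_lit 0) (nat_lit 2642820555818) (nat_lit 76) (nat_lit 18292561068018) (nat_lit 76) (nat_lit 18238979262555) (nat_lit 1) (nat_lit 4) (nat_lit 2) (nat_lit 5) (nat_lit 2) (nat_lit 4) (nat_lit 295) (nat_lit 234) (nat_lit 131)) (XT.lf (nat_lit 0) (nat_lit 3172281422513) (nat_lit 76) (nat_lit 20960961770580) (nat_lit 76) (nat_lit 20907379961204) (nat_lit 1) (nat_lit 4) (nat_lit 2) (nat_lit 5) (nat_lit 2) (nat_lit 4) (nat_lit 296) (nat_lit 234) (nat_lit 130))) (XT.nd (nat_lit 78) (nat_lit 0) (nat_lit 0) (XT.lf (nat_lit 0) (nat_lit 3781161401047) (nat_lit 76) (nat_lit 24029622587736) (nat_lit 76) (nat_lit 23976040774957) (nat_lit 1) (nat_lit 4) (nat_lit 2) (nat_lit 5) (nat_lit 2) (nat_lit 4) (nat_lit 297) (nat_lit 234) (nat_lit 129)) (XT.nd (nat_lit 312) (nat_lit 0) (nat_lit 0) (XT.lf (nat_lit 0) (nat_lit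 4481373360565) (nat_lit 76) (nat_lit 27558582535473) (nat_lit 76) (nat_lit 27505000719735) (nat_lit 1) (nat_lit 4) (nat_lit 2) (nat_lit 5) (nat_lit 2) (nat_lit 4) (nat_lit 298) (nat_lit 234) (nat_lit 128)) (XT.lf (nat_lit 0) (nat_lit 8502257246509) (nat_lit 76) (nat_lit 47823216043053) (nat_lit 76) (nat_lit 47769634218867) (nat_lit 1) (nat_lit 4) (nat_lit 2) (nat_lit 5) (nat_lit 2) (nat_lit 4) (nat_lit 302) (nat_lit 234) (nat_lit 124)))))) (XT.nd (nat_lit 312) (nat_lit 0) (nat_lit 0) (XT.nd (nat_lit 156) (nat_lit 0) (nat_lit 0) (XT.nd (nat_lit 78) (nat_lit 0) (nat_lit 0) (XT.lf (nat_lit 0) (nat_lit 9910633529898) (nat_lit 76) (nat_lit 54921215035931) (nat_lit 76) (nat_lit 54867633210274) (nat_lit 1) (nat_lit 4) (nat_lit 2) (nat_lit 5) (nat_lit 2) (nat_lit 4) (nat_lit 303) (nat_lit 234) (nat_lit 123)) (XT.lf (nat_lit 0) (nat_lit 11530266248967) (nat_lit 76) (nat_lit 63083913881202) (nat_lit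 76) (nat_lit 63030332054266) (nat_lit 1) (nat_lit 4) (nat_lit 2) (nat_lit 5) (nat_lit 2) (nat_lit 4) (nat_lit 304) (nat_lit 234) (nat_lit 122))) (XT.nd (nat_lit 78) (nat_lit 0) (nat_lit 0) (XT.lf (nat_lit 0) (nat_lit 13392843869957) (nat_lit 76) (nat_lit 72471017556275) (nat_lit 76) (nat_lit 72417435728226) (nat_lit 1) (nat_lit 4) (nat_lit 2) (nat_lit 5) (nat_lit 2) (nat_lit 4) (nat_lit 305) (nat_lit 234) (nat_lit 121)) (XT.lf (nat_lit 0) (nat_lit 15534808128933) (nat_lit 76) (nat_lit 83266186785226) (nat_lit 76) (nat_lit 83212604956211) (nat_lit 1) (nat_lit 4) (nat_lit 2) (nat_lit 5) (nat_lit 2) (nat_lit 4) (nat_lit 306) (nat_lit 234) (nat_lit 120)))) (XT.nd (nat_lit 28860) (nat_lit 0) (nat_lit 1444) (XT.nd (nat_lit 28782) (nat_lit 0) (nat_lit 1444) (XT.lf (nat_lit 0) (nat_lit 17998067022265) (nat_lit 76) (nat_lit 95680631400797) (nat_lit 76) (nat_lit 95627049570940) (nat_lit 1) (nat_lit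 4) (nat_lit 2) (nat_lit 5) (nat_lit 2) (nat_lit 4) (nat_lit 307) (nat_lit 234) (nat_lit 119)) (XT.lf (nat_lit 0) (nat_lit 1789740600) (nat_lit 380) (nat_lit 7410322255) (nat_lit 380) (nat_lit 7410322255) (nat_lit 20) (nat_lit 3) (nat_lit 25) (nat_lit 3) (nat_lit 25) (nat_lit 5) (nat_lit 235) (nat_lit 235) (nat_lit 190))) (XT.nd (nat_lit 78) (nat_lit 0) (nat_lit 76) (XT.lf (nat_lit 76) (nat_lit 391195037) (nat_lit 0) (nat_lit 3526501486) (nat_lit 380) (nat_lit 31783896707) (nat_lit 21) (nat_lit 5) (nat_lit 20) (nat_lit 3) (nat_lit 25) (nat_lit 5) (nat_lit 236) (nat_lit 235) (nat_lit 189)) (XT.nd (nat_lit 78) (nat_lit 0) (nat_lit 0) (XT.lf (nat_lit 0) (nat_lit 5670862551) (nat_lit 304) (nat_lit 19494734278) (nat_lit 380) (nat_lit 13184358463) (nat_lit 21) (nat_lit 5) (nat_lit 25) (nat_lit 5) (nat_lit 26) (nat_lit 5) (nat_lit 237) (nat_lit 235) (nat_lit 188)) (XT.lf (nat_lit 0) (nat_lit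 7846557141) (nat_lit 304) (nat_lit 1481359547) (nat_lit 380) (nat_lit 32043763983) (nat_lit 21) (nat_lit 5) (nat_lit 25) (nat_lit 5) (nat_lit 26) (nat_lit 5) (nat_lit 238) (nat_lit 235) (nat_lit 187))))))))
noncomputable def xc80 : XT := (XT.nd (nat_lit 1404) (nat_lit 380) (nat_lit 0) (XT.nd (nat_lit 702) (nat_lit 380) (nat_lit 0) (XT.nd (nat_lit 312) (nat_lit 456) (nat_lit 0) (XT.nd (nat_lit 156) (nat_lit 304) (nat_lit 0) (XT.nd (nat_lit 78) (nat_lit 0) (nat_lit 0) (XT.lf (nat_lit 0) (nat_lit 11624937306) (nat_lit 304) (nat_lit 24018993323) (nat_lit 76) (nat_lit 9011321089) (nat_lit 22) (nat_lit 5) (nat_lit 26) (nat_lit 5) (nat_lit 23) (nat_lit 5) (nat_lit 239) (nat_lit 235) (nat_lit 186)) (XT.lf (nat_lit 0) (nat_lit 16488860899) (nat_lit 304) (nat_lit 2636240565) (nat_lit 76) (nat_lit 29228470797) (nat_lit 22) (nat_lit 5) (nat_lit 26) (nat_lit 5) (nat_lit 23) (nat_lit 5) (nat_lit 240)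 (nat_lit 235) (nat_lit 185))) (XT.nd (nat_lit 78) (nat_lit 0) (nat_lit 0) (XT.lf (nat_lit 0) (nat_lit 23116529633) (nat_lit 380) (nat_lit 28406960557) (nat_lit 76) (nat_lit 928054858) (nat_lit 18) (nat_lit 5) (nat_lit 23) (nat_lit 5) (nat_lit 19) (nat_lit 5) (nat_lit 241) (nat_lit 235) (nat_lit 184)) (XT.lf (nat_lit 0) (nat_lit 31788259740) (nat_lit 380) (nat_lit 3043298221) (nat_lit 76) (nat_lit 22175193177) (nat_lit 18) (nat_lit 5) (nat_lit 23) (nat_lit 5) (nat_lit 19) (nat_lit 5) (nat_lit 242) (nat_lit 235) (nat_lit 183)))) (XT.nd (nat_lit 156) (nat_lit 304) (nat_lit 0) (XT.nd (nat_lit 78) (nat_lit 0) (nat_lit 0) (XT.lf (nat_lit 0) (nat_lit 28672031069) (nat_lit 152) (nat_lit 14271467168) (nat_lit 228) (nat_lit 19124348483) (nat_lit 16) (nat_lit 5) (nat_lit 18) (nat_lit 5) (nat_lit 19) (nat_lit 5) (nat_lit 243) (nat_lit 235) (nat_lit 182)) (XT.lf (nat_lit 0) (nat_lit 56322607172)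 (nat_lit 228) (nat_lit 2779044448) (nat_lit 76) (nat_lit 8703885501) (nat_lit 16) (nat_lit 5) (nat_lit 19) (nat_lit 5) (nat_lit 17) (nat_lit 4) (nat_lit 244) (nat_lit 235) (nat_lit 181))) (XT.nd (nat_lit 78) (nat_lit 228) (nat_lit 0) (XT.lf (nat_lit 0) (nat_lit 34848008330) (nat_lit 76) (nat_lit 38979520751) (nat_lit 152) (nat_lit 258525817) (nat_lit 15) (nat_lit 5) (nat_lit 16) (nat_lit 5) (nat_lit 17) (nat_lit 4) (nat_lit 245) (nat_lit 235) (nat_lit 180)) (XT.nd (nat_lit 78) (nat_lit 152) (nat_lit 0) (XT.lf (nat_lit 0) (nat_lit 11672047897) (nat_lit 152) (nat_lit 3391300538) (nat_lit 76) (nat_lit 66144446537) (nat_lit 14) (nat_lit 5) (nat_lit 16) (nat_lit 5) (nat_lit 15) (nat_lit 5) (nat_lit 246) (nat_lit 235) (nat_lit 179)) (XT.lf (nat_lit 0) (nat_lit 27679068211) (nat_lit 228) (nat_lit 48224825427) (nat_lit 76) (nat_lit 13145066902) (nat_lit 12) (nat_lit 5) (nat_lit 15) (nat_lit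 5) (nat_lit 13) (nat_lit 4) (nat_lit 247) (nat_lit 235) (nat_lit 178)))))) (XT.nd (nat_lit 312) (nat_lit 152) (nat_lit 0) (XT.nd (nat_lit 156) (nat_lit 152) (nat_lit 0) (XT.nd (nat_lit 78) (nat_lit 76) (nat_lit 0) (XT.lf (nat_lit 0) (nat_lit 46987252615) (nat_lit 228) (nat_lit 6717105628) (nat_lit 76) (nat_lit 44226935084) (nat_lit 12) (nat_lit 5) (nat_lit 15) (nat_lit 5) (nat_lit 13) (nat_lit 4) (nat_lit 248) (nat_lit 235) (nat_lit 177)) (XT.lf (nat_lit 0) (nat_lit 45020768105) (nat_lit 76) (nat_lit 26032584191) (nat_lit 152) (nat_lit 36813378453) (nat_lit 11) (nat_lit 5) (nat_lit 12) (nat_lit 5) (nat_lit 13) (nat_lit 4) (nat_lit 249) (nat_lit 235) (nat_lit 176))) (XT.nd (nat_lit 78) (nat_lit 152) (nat_lit 0) (XT.lf (nat_lit 0) (nat_lit 99334537648) (nat_lit 152) (nat_lit 14226228236) (nat_lit 0) (nat_lit 5640949129) (nat_lit 11) (nat_lit 5) (nat_lit 13) (nat_lit 4) (nat_lit 11) (nat_lit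 4) (nat_lit 250) (nat_lit 235) (nat_lit 175)) (XT.lf (nat_lit 0) (nat_lit 2877032492) (nat_lit 152) (nat_lit 87510756910) (nat_lit 76) (nat_lit 41368167010) (nat_lit 9) (nat_lit 5) (nat_lit 11) (nat_lit 5) (nat_lit 10) (nat_lit 4) (nat_lit 251) (nat_lit 235) (nat_lit 174)))) (XT.nd (nat_lit 156) (nat_lit 76) (nat_lit 0) (XT.nd (nat_lit 78) (nat_lit 76) (nat_lit 0) (XT.lf (nat_lit 0) (nat_lit 27775836133) (nat_lit 152) (nat_lit 33980753649) (nat_lit 76) (nat_lit 84178292899) (nat_lit 9) (nat_lit 5) (nat_lit 11) (nat_lit 5) (nat_lit 10) (nat_lit 4) (nat_lit 252) (nat_lit 235) (nat_lit 173)) (XT.lf (nat_lit 0) (nat_lit 30270439154) (nat_lit 76) (nat_lit 27390653315) (nat_lit 152) (nat_lit 104391814506) (nat_lit 8) (nat_lit 5) (nat_lit 9) (nat_lit 5) (nat_lit 10) (nat_lit 4) (nat_lit 253) (nat_lit 235) (nat_lit 172))) (XT.nd (nat_lit 78) (nat_lit 76) (nat_lit 0) (XT.lf (nat_lit 0) (nat_lit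 94390523124) (nat_lit 152) (nat_lit 72934030248) (nat_lit 0) (nat_lit 12909877058) (nat_lit 8) (nat_lit 5) (nat_lit 10) (nat_lit 4) (nat_lit 8) (nat_lit 4) (nat_lit 254) (nat_lit 235) (nat_lit 171)) (XT.nd (nat_lit 78) (nat_lit 76) (nat_lit 0) (XT.lf (nat_lit 0) (nat_lit 137932163856) (nat_lit 152) (nat_lit 6565470645) (nat_lit 0) (nat_lit 56450131536) (nat_lit 8) (nat_lit 5) (nat_lit 10) (nat_lit 4) (nat_lit 8) (nat_lit 4) (nat_lit 255) (nat_lit 235) (nat_lit 170)) (XT.lf (nat_lit 0) (nat_lit 76572970137) (nat_lit 76) (nat_lit 114601481051) (nat_lit 76) (nat_lit 33118243293) (nat_lit 7) (nat_lit 4) (nat_lit 8) (nat_lit 5) (nat_lit 8) (nat_lit 4) (nat_lit 256) (nat_lit 235) (nat_lit 169))))))) (XT.nd (nat_lit 702) (nat_lit 152) (nat_lit 0) (XT.nd (nat_lit 312) (nat_lit 76) (nat_lit 0) (XT.nd (nat_lit 156) (nat_lit 0) (nat_lit 0) (XT.nd (nat_lit 78) (nat_lit 76) (nat_lit 0) (XT.lf (nat_lit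 0) (nat_lit 1509443110) (nat_lit 152) (nat_lit 78238983278) (nat_lit 76) (nat_lit 171329354251) (nat_lit 6) (nat_lit 5) (nat_lit 8) (nat_lit 5) (nat_lit 7) (nat_lit 4) (nat_lit 257) (nat_lit 235) (nat_lit 168)) (XT.lf (nat_lit 0) (nat_lit 92929774) (nat_lit 76) (nat_lit 37850385213) (nat_lit 152) (nat_lit 243700351069) (nat_lit 5) (nat_lit 5) (nat_lit 6) (nat_lit 5) (nat_lit 7) (nat_lit 4) (nat_lit 258) (nat_lit 235) (nat_lit 167))) (XT.nd (nat_lit 78) (nat_lit 0) (nat_lit 0) (XT.lf (nat_lit 0) (nat_lit 84553509015) (nat_lit 152) (nat_lit 217838114168) (nat_lit 0) (nat_lit 13696126368) (nat_lit 5) (nat_lit 5) (nat_lit 7) (nat_lit 4) (nat_lit 5) (nat_lit 4) (nat_lit 259) (nat_lit 235) (nat_lit 166)) (XT.lf (nat_lit 0) (nat_lit 139956661473) (nat_lit 152) (nat_lit 146372891464) (nat_lit 0) (nat_lit 69098679510) (nat_lit 5) (nat_lit 5) (nat_lit 7) (nat_lit 4) (nat_lit 5) (nat_lit 4) (nat_lit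 260) (nat_lit 235) (nat_lit 165)))) (XT.nd (nat_lit 156) (nat_lit 0) (nat_lit 0) (XT.nd (nat_lit 78) (nat_lit 76) (nat_lit 0) (XT.lf (nat_lit 0) (nat_lit 203669443349) (nat_lit 152) (nat_lit 64189531818) (nat_lit 0) (nat_lit 132810940242) (nat_lit 5) (nat_lit 5) (nat_lit 7) (nat_lit 4) (nat_lit 5) (nat_lit 4) (nat_lit 261) (nat_lit 235) (nat_lit 164)) (XT.lf (nat_lit 0) (nat_lit 33282981211) (nat_lit 76) (nat_lit 245033605135) (nat_lit 76) (nat_lit 174174648859) (nat_lit 4) (nat_lit 4) (nat_lit 5) (nat_lit 5) (nat_lit 5) (nat_lit 4) (nat_lit 262) (nat_lit 235) (nat_lit 163))) (XT.nd (nat_lit 78) (nat_lit 0) (nat_lit 0) (XT.lf (nat_lit 0) (nat_lit 152589032631) (nat_lit 76) (nat_lit 214926435692) (nat_lit 76) (nat_lit 144067085356) (nat_lit 4) (nat_lit 4) (nat_lit 5) (nat_lit 5) (nat_lit 5) (nat_lit 4) (nat_lit 263) (nat_lit 235) (nat_lit 162)) (XT.nd (nat_lit 78) (nat_lit 0) (nat_lit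 0) (XT.lf (nat_lit 0) (nat_lit 289789803390) (nat_lit 76) (nat_lit 180303775415) (nat_lit 76) (nat_lit 109444082419) (nat_lit 4) (nat_lit 4) (nat_lit 5) (nat_lit 5) (nat_lit 5) (nat_lit 4) (nat_lit 264) (nat_lit 235) (nat_lit 161)) (XT.lf (nat_lit 0) (nat_lit 447569656396) (nat_lit 76) (nat_lit 140488224429) (nat_lit 76) (nat_lit 69628233467) (nat_lit 4) (nat_lit 4) (nat_lit 5) (nat_lit 5) (nat_lit 5) (nat_lit 4) (nat_lit 265) (nat_lit 235) (nat_lit 160)))))) (XT.nd (nat_lit 312) (nat_lit 0) (nat_lit 0) (XT.nd (nat_lit 156) (nat_lit 76) (nat_lit 0) (XT.nd (nat_lit 78) (nat_lit 76) (nat_lit 0) (XT.lf (nat_lit 0) (nat_lit 629015588771) (nat_lit 76) (nat_lit 94700782823) (nat_lit 76) (nat_lit 23840532760) (nat_lit 4) (nat_lit 4) (nat_lit 5) (nat_lit 5) (nat_lit 5) (nat_lit 4) (nat_lit 266) (nat_lit 235) (nat_lit 159)) (XT.lf (nat_lit 0) (nat_lit 26249567388) (nat_lit 152) (nat_lit 14423905483)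 (nat_lit 76) (nat_lit 810055925763) (nat_lit 3) (nat_lit 5) (nat_lit 5) (nat_lit 5) (nat_lit 4) (nat_lit 4) (nat_lit 267) (nat_lit 235) (nat_lit 158))) (XT.nd (nat_lit 78) (nat_lit 0) (nat_lit 0) (XT.lf (nat_lit 0) (nat_lit 87315297714) (nat_lit 152) (nat_lit 855309417761) (nat_lit 0) (nat_lit 25697322683) (nat_lit 2) (nat_lit 5) (nat_lit 4) (nat_lit 4) (nat_lit 2) (nat_lit 4) (nat_lit 268) (nat_lit 235) (nat_lit 157)) (XT.lf (nat_lit 0) (nat_lit 160267243021) (nat_lit 152) (nat_lit 844228257743) (nat_lit 0) (nat_lit 98649119848) (nat_lit 2) (nat_lit 5) (nat_lit 4) (nat_lit 4) (nat_lit 2) (nat_lit 4) (nat_lit 269) (nat_lit 235) (nat_lit 156)))) (XT.nd (nat_lit 156) (nat_lit 0) (nat_lit 0) (XT.nd (nat_lit 78) (nat_lit 0) (nat_lit 0) (XT.lf (nat_lit 0) (nat_lit 244161669561) (nat_lit 152) (nat_lit 831485550163) (nat_lit 0) (nat_lit 182543417569) (nat_lit 2) (nat_lit 5) (nat_lit 4) (nat_lit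 4) (nat_lit 2) (nat_lit 4) (nat_lit 270) (nat_lit 235) (nat_lit 155)) (XT.lf (nat_lit 0) (nat_lit 340639990026) (nat_lit 152) (nat_lit 816831981177) (nat_lit 0) (nat_lit 279021626019) (nat_lit 2) (nat_lit 5) (nat_lit 4) (nat_lit 4) (nat_lit 2) (nat_lit 4) (nat_lit 271) (nat_lit 235) (nat_lit 154))) (XT.nd (nat_lit 78) (nat_lit 0) (nat_lit 0) (XT.lf (nat_lit 0) (nat_lit 451589823732) (nat_lit 152) (nat_lit 799980850524) (nat_lit 0) (nat_lit 389971362318) (nat_lit 2) (nat_lit 5) (nat_lit 4) (nat_lit 4) (nat_lit 2) (nat_lit 4) (nat_lit 272) (nat_lit 235) (nat_lit 153)) (XT.nd (nat_lit 78) (nat_lit 0) (nat_lit 0) (XT.lf (nat_lit 0) (nat_lit 579181928293) (nat_lit 152) (nat_lit 780602462168) (nat_lit 0) (nat_lit 517563382179) (nat_lit 2) (nat_lit 5) (nat_lit 4) (nat_lit 4) (nat_lit 2) (nat_lit 4) (nat_lit 273) (nat_lit 235) (nat_lit 152)) (XT.lf (nat_lit 0) (nat_lit 725912670972) (nat_lit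 152) (nat_lit 758317673729) (nat_lit 0) (nat_lit 664294051206) (nat_lit 2) (nat_lit 5) (nat_lit 4) (nat_lit 4) (nat_lit 2) (nat_lit 4) (nat_lit 274) (nat_lit 235) (nat_lit 151))))))))
noncomputable def xc81 : XT := (XT.nd (nat_lit 1404) (nat_lit 0) (nat_lit 0) (XT.nd (nat_lit 702) (nat_lit 76) (nat_lit 0) (XT.nd (nat_lit 312) (nat_lit 0) (nat_lit 0) (XT.nd (nat_lit 156) (nat_lit 0) (nat_lit 0) (XT.nd (nat_lit 78) (nat_lit 0) (nat_lit 0) (XT.lf (nat_lit 0) (nat_lit 894652870649) (nat_lit 152) (nat_lit 732690478475) (nat_lit 0) (nat_lit 833034186837) (nat_lit 2) (nat_lit 5) (nat_lit 4) (nat_lit 4) (nat_lit 2) (nat_lit 4) (nat_lit 275) (nat_lit 235) (nat_lit 150)) (XT.lf (nat_lit 0) (nat_lit 1088703966012) (nat_lit 152) (nat_lit 703219474762) (nat_lit 0) (nat_lit 1027085226508) (nat_lit 2) (nat_lit 5) (nat_lit 4) (nat_lit 4) (nat_lit 2) (nat_lit 4) (nat_lit 276) (nat_lit 235) (nat_lit 149)))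 (XT.nd (nat_lit 78) (nat_lit 0) (nat_lit 0) (XT.lf (nat_lit 0) (nat_lit 1311862608927) (nat_lit 152) (nat_lit 669328055994) (nat_lit 0) (nat_lit 1250243820995) (nat_lit 2) (nat_lit 5) (nat_lit 4) (nat_lit 4) (nat_lit 2) (nat_lit 4) (nat_lit 277) (nat_lit 235) (nat_lit 148)) (XT.lf (nat_lit 0) (nat_lit 1568494946756) (nat_lit 152) (nat_lit 630353129196) (nat_lit 0) (nat_lit 1506876116713) (nat_lit 2) (nat_lit 5) (nat_lit 4) (nat_lit 4) (nat_lit 2) (nat_lit 4) (nat_lit 278) (nat_lit 235) (nat_lit 147)))) (XT.nd (nat_lit 156) (nat_lit 0) (nat_lit 0) (XT.nd (nat_lit 78) (nat_lit 0) (nat_lit 0) (XT.lf (nat_lit 0) (nat_lit 1863622046978) (nat_lit 152) (nat_lit 585532141451) (nat_lit 0) (nat_lit 1802003180316) (nat_lit 2) (nat_lit 5) (nat_lit 4) (nat_lit 4) (nat_lit 2) (nat_lit 4) (nat_lit 279) (nat_lit 235) (nat_lit 146)) (XT.lf (nat_lit 0) (nat_lit 2203018135467) (nat_lit 152) (nat_lit 533988160392)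 (nat_lit 0) (nat_lit 2141399236963) (nat_lit 2) (nat_lit 5) (nat_lit 4) (nat_lit 4) (nat_lit 2) (nat_lit 4) (nat_lit 280) (nat_lit 235) (nat_lit 145))) (XT.nd (nat_lit 78) (nat_lit 0) (nat_lit 0) (XT.lf (nat_lit 0) (nat_lit 2593323570475) (nat_lit 152) (nat_lit 474712716823) (nat_lit 0) (nat_lit 2531704644283) (nat_lit 2) (nat_lit 5) (nat_lit 4) (nat_lit 4) (nat_lit 2) (nat_lit 4) (nat_lit 281) (nat_lit 235) (nat_lit 144)) (XT.nd (nat_lit 78) (nat_lit 0) (nat_lit 0) (XT.lf (nat_lit 0) (nat_lit 3042174762688) (nat_lit 152) (nat_lit 406546073805) (nat_lit 0) (nat_lit 2980555812419) (nat_lit 2) (nat_lit 5) (nat_lit 4) (nat_lit 4) (nat_lit 2) (nat_lit 4) (nat_lit 282) (nat_lit 235) (nat_lit 143)) (XT.lf (nat_lit 0) (nat_lit 3558353583258) (nat_lit 152) (nat_lit 328154536149) (nat_lit 0) (nat_lit 3496734612052) (nat_lit 2) (nat_lit 5) (nat_lit 4) (nat_lit 4) (nat_lit 2) (nat_lit 4) (nat_lit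 283) (nat_lit 235) (nat_lit 142)))))) (XT.nd (nat_lit 312) (nat_lit 0) (nat_lit 0) (XT.nd (nat_lit 156) (nat_lit 76) (nat_lit 0) (XT.nd (nat_lit 78) (nat_lit 0) (nat_lit 0) (XT.lf (nat_lit 0) (nat_lit 4151959183023) (nat_lit 152) (nat_lit 238004356378) (nat_lit 0) (nat_lit 4090340193611) (nat_lit 2) (nat_lit 5) (nat_lit 4) (nat_lit 4) (nat_lit 2) (nat_lit 4) (nat_lit 284) (nat_lit 235) (nat_lit 141)) (XT.lf (nat_lit 0) (nat_lit 4834605584585) (nat_lit 152) (nat_lit 134331726628) (nat_lit 0) (nat_lit 4772986579342) (nat_lit 2) (nat_lit 5) (nat_lit 4) (nat_lit 4) (nat_lit 2) (nat_lit 4) (nat_lit 285) (nat_lit 235) (nat_lit 140))) (XT.nd (nat_lit 78) (nat_lit 76) (nat_lit 0) (XT.lf (nat_lit 0) (nat_lit 5619648913193) (nat_lit 152) (nat_lit 15108269360) (nat_lit 0) (nat_lit 5558029894184) (nat_lit 2) (nat_lit 5) (nat_lit 4) (nat_lit 4) (nat_lit 2) (nat_lit 4) (nat_lit 286) (nat_lit 235)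 (nat_lit 139)) (XT.lf (nat_lit 0) (nat_lit 133921243458) (nat_lit 76) (nat_lit 6394072861879) (nat_lit 76) (nat_lit 6332453830900) (nat_lit 1) (nat_lit 4) (nat_lit 2) (nat_lit 5) (nat_lit 2) (nat_lit 4) (nat_lit 287) (nat_lit 235) (nat_lit 138)))) (XT.nd (nat_lit 156) (nat_lit 0) (nat_lit 0) (XT.nd (nat_lit 78) (nat_lit 0) (nat_lit 0) (XT.lf (nat_lit 0) (nat_lit 307003091087) (nat_lit 76) (nat_lit 7266377708263) (nat_lit 76) (nat_lit 7204758666874) (nat_lit 1) (nat_lit 4) (nat_lit 2) (nat_lit 5) (nat_lit 2) (nat_lit 4) (nat_lit 288) (nat_lit 235) (nat_lit 137)) (XT.lf (nat_lit 0) (nat_lit 506047167542) (nat_lit 76) (nat_lit 8269528306101) (nat_lit 76) (nat_lit 8207909255661) (nat_lit 1) (nat_lit 4) (nat_lit 2) (nat_lit 5) (nat_lit 2) (nat_lit 4) (nat_lit 289) (nat_lit 235) (nat_lit 136))) (XT.nd (nat_lit 78) (nat_lit 0) (nat_lit 0) (XT.lf (nat_lit 0) (nat_lit 734947813449) (nat_lit 76)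 (nat_lit 9423151514916) (nat_lit 76) (nat_lit 9361532456605) (nat_lit 1) (nat_lit 4) (nat_lit 2) (nat_lit 5) (nat_lit 2) (nat_lit 4) (nat_lit 290) (nat_lit 235) (nat_lit 135)) (XT.nd (nat_lit 78) (nat_lit 0) (nat_lit 0) (XT.lf (nat_lit 0) (nat_lit 998183519706) (nat_lit 76) (nat_lit 10749818223576) (nat_lit 76) (nat_lit 10688199158420) (nat_lit 1) (nat_lit 4) (nat_lit 2) (nat_lit 5) (nat_lit 2) (nat_lit 4) (nat_lit 291) (nat_lit 235) (nat_lit 134)) (XT.lf (nat_lit 0) (nat_lit 1300904550131) (nat_lit 76) (nat_lit 12275484954641) (nat_lit 76) (nat_lit 12213865883534) (nat_lit 1) (nat_lit 4) (nat_lit 2) (nat_lit 5) (nat_lit 2) (nat_lit 4) (nat_lit 292) (nat_lit 235) (nat_lit 133))))))) (XT.nd (nat_lit 858) (nat_lit 0) (nat_lit 0) (XT.nd (nat_lit 312) (nat_lit 0) (nat_lit 0) (XT.nd (nat_lit 156) (nat_lit 0) (nat_lit 0) (XT.nd (nat_lit 78) (nat_lit 0) (nat_lit 0) (XT.lf (nat_lit 0) (nat_lit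 1649033707494) (nat_lit 76) (nat_lit 14030001709371) (nat_lit 76) (nat_lit 13968382633089) (nat_lit 1) (nat_lit 4) (nat_lit 2) (nat_lit 5) (nat_lit 2) (nat_lit 4) (nat_lit 293) (nat_lit 235) (nat_lit 132)) (XT.lf (nat_lit 0) (nat_lit 2049382214438) (nat_lit 76) (nat_lit 16047695989490) (nat_lit 76) (nat_lit 15986076908708) (nat_lit 1) (nat_lit 4) (nat_lit 2) (nat_lit 5) (nat_lit 2) (nat_lit 4) (nat_lit 294) (nat_lit 235) (nat_lit 131))) (XT.nd (nat_lit 78) (nat_lit 0) (nat_lit 0) (XT.lf (nat_lit 0) (nat_lit 2509782976534) (nat_lit 76) (nat_lit 18368044422218) (nat_lit 76) (nat_lit 18306425337522) (nat_lit 1) (nat_lit 4) (nat_lit 2) (nat_lit 5) (nat_lit 2) (nat_lit 4) (nat_lit 295) (nat_lit 235) (nat_lit 130)) (XT.lf (nat_lit 0) (nat_lit 3039243834780) (nat_lit 76) (nat_lit 21036445129063) (nat_lit 76) (nat_lit 20974826040965) (nat_lit 1) (nat_lit 4) (nat_lit 2) (nat_lit 5) (nat_lit 2)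 (nat_lit 4) (nat_lit 296) (nat_lit 235) (nat_lit 129)))) (XT.nd (nat_lit 312) (nat_lit 0) (nat_lit 0) (XT.nd (nat_lit 78) (nat_lit 0) (nat_lit 0) (XT.lf (nat_lit 0) (nat_lit 3648123805967) (nat_lit 76) (nat_lit 24105105949943) (nat_lit 76) (nat_lit 24043486858886) (nat_lit 1) (nat_lit 4) (nat_lit 2) (nat_lit 5) (nat_lit 2) (nat_lit 4) (nat_lit 297) (nat_lit 235) (nat_lit 128)) (XT.lf (nat_lit 0) (nat_lit 4348335759097) (nat_lit 76) (nat_lit 27634065900919) (nat_lit 76) (nat_lit 27572446807289) (nat_lit 1) (nat_lit 4) (nat_lit 2) (nat_lit 5) (nat_lit 2) (nat_lit 4) (nat_lit 298) (nat_lit 235) (nat_lit 127))) (XT.nd (nat_lit 78) (nat_lit 0) (nat_lit 0) (XT.lf (nat_lit 0) (nat_lit 7144544594592) (nat_lit 76) (nat_lit 41726526382071) (nat_lit 76) (nat_lit 41664907282566) (nat_lit 1) (nat_lit 4) (nat_lit 2) (nat_lit 5) (nat_lit 2) (nat_lit 4) (nat_lit 301) (nat_lit 235) (nat_lit 124)) (XT.nd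 (nat_lit 78) (nat_lit 0) (nat_lit 0) (XT.lf (nat_lit 0) (nat_lit 8369219626802) (nat_lit 76) (nat_lit 47898699417746) (nat_lit 76) (nat_lit 47837080316769) (nat_lit 1) (nat_lit 4) (nat_lit 2) (nat_lit 5) (nat_lit 2) (nat_lit 4) (nat_lit 302) (nat_lit 235) (nat_lit 123)) (XT.lf (nat_lit 0) (nat_lit 9777595907015) (nat_lit 76) (nat_lit 54996698412234) (nat_lit 76) (nat_lit 54935079309978) (nat_lit 1) (nat_lit 4) (nat_lit 2) (nat_lit 5) (nat_lit 2) (nat_lit 4) (nat_lit 303) (nat_lit 235) (nat_lit 122)))))) (XT.nd (nat_lit 29172) (nat_lit 0) (nat_lit 1444) (XT.nd (nat_lit 156) (nat_lit 0) (nat_lit 0) (XT.nd (nat_lit 78) (nat_lit 0) (nat_lit 0) (XT.lf (nat_lit 0) (nat_lit 11397228623321) (nat_lit 76) (nat_lit 63159397258906) (nat_lit 76) (nat_lit 63097778155538) (nat_lit 1) (nat_lit 4) (nat_lit 2) (nat_lit 5) (nat_lit 2) (nat_lit 4) (nat_lit 304) (nat_lit 235) (nat_lit 121)) (XT.lf (nat_lit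 0) (nat_lit 13259806241910) (nat_lit 76) (nat_lit 72546500935196) (nat_lit 76) (nat_lit 72484881830861) (nat_lit 1) (nat_lit 4) (nat_lit 2) (nat_lit 5) (nat_lit 2) (nat_lit 4) (nat_lit 305) (nat_lit 235) (nat_lit 120))) (XT.nd (nat_lit 28938) (nat_lit 0) (nat_lit 1444) (XT.lf (nat_lit 0) (nat_lit 15401770498797) (nat_lit 76) (nat_lit 83341670165206) (nat_lit 76) (nat_lit 83280051060030) (nat_lit 1) (nat_lit 4) (nat_lit 2) (nat_lit 5) (nat_lit 2) (nat_lit 4) (nat_lit 306) (nat_lit 235) (nat_lit 119)) (XT.lf (nat_lit 0) (nat_lit 2109539745) (nat_lit 380) (nat_lit 8492221024) (nat_lit 380) (nat_lit 8492221024) (nat_lit 20) (nat_lit 3) (nat_lit 25) (nat_lit 3) (nat_lit 25) (nat_lit 5) (nat_lit 236) (nat_lit 236) (nat_lit 188)))) (XT.nd (nat_lit 156) (nat_lit 0) (nat_lit 76) (XT.nd (nat_lit 78) (nat_lit 0) (nat_lit 76) (XT.lf (nat_lit 76) (nat_lit 506478017) (nat_lit 0) (nat_lit 4090500399)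 (nat_lit 380) (nat_lit 36445656860) (nat_lit 21) (nat_lit 5) (nat_lit 20) (nat_lit 3) (nat_lit 25) (nat_lit 5) (nat_lit 237) (nat_lit 236) (nat_lit 187)) (XT.lf (nat_lit 0) (nat_lit 6599906853) (nat_lit 304) (nat_lit 22356117533) (nat_lit 380) (nat_lit 15134268199) (nat_lit 21) (nat_lit 5) (nat_lit 25) (nat_lit 5) (nat_lit 26) (nat_lit 5) (nat_lit 238) (nat_lit 236) (nat_lit 186))) (XT.nd (nat_lit 78) (nat_lit 0) (nat_lit 76) (XT.lf (nat_lit 0) (nat_lit 9091727599) (nat_lit 304) (nat_lit 1648931404) (nat_lit 380) (nat_lit 36826203334) (nat_lit 21) (nat_lit 5) (nat_lit 25) (nat_lit 5) (nat_lit 26) (nat_lit 5) (nat_lit 239) (nat_lit 236) (nat_lit 185)) (XT.nd (nat_lit 78) (nat_lit 0) (nat_lit 0) (XT.lf (nat_lit 0) (nat_lit 13429744978) (nat_lit 304) (nat_lit 27559792695) (nat_lit 76) (nat_lit 10354544000) (nat_lit 22) (nat_lit 5) (nat_lit 26) (nat_lit 5) (nat_lit 23) (nat_lit 5) (nat_lit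 240) (nat_lit 236) (nat_lit 184)) (XT.lf (nat_lit 0) (nat_lit 19015291840) (nat_lit 304) (nat_lit 2977720453) (nat_lit 76) (nat_lit 33605371632) (nat_lit 22) (nat_lit 5) (nat_lit 26) (nat_lit 5) (nat_lit 23) (nat_lit 5) (nat_lit 241) (nat_lit 236) (nat_lit 183))))))))
noncomputable def xc82 : XT := (XT.nd (nat_lit 1404) (nat_lit 228) (nat_lit 0) (XT.nd (nat_lit 702) (nat_lit 456) (nat_lit 0) (XT.nd (nat_lit 312) (nat_lit 380) (nat_lit 0) (XT.nd (nat_lit 156) (nat_lit 152) (nat_lit 0) (XT.nd (nat_lit 78) (nat_lit 0) (nat_lit 0) (XT.lf (nat_lit 0) (nat_lit 26632449536) (nat_lit 380) (nat_lit 32609161960) (nat_lit 76) (nat_lit 1070174105) (nat_lit 18) (nat_lit 5) (nat_lit 23) (nat_lit 5) (nat_lit 19) (nat_lit 5) (nat_lit 242) (nat_lit 236) (nat_lit 182)) (XT.lf (nat_lit 0) (nat_lit 36598620839) (nat_lit 380) (nat_lit 3448625406) (nat_lit 76) (nat_lit 25504003473) (nat_lit 18) (nat_lit 5)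 (nat_lit 23) (nat_lit 5) (nat_lit 19) (nat_lit 5) (nat_lit 243) (nat_lit 236) (nat_lit 181))) (XT.nd (nat_lit 78) (nat_lit 0) (nat_lit 0) (XT.lf (nat_lit 0) (nat_lit 33021677480) (nat_lit 152) (nat_lit 16401995871) (nat_lit 228) (nat_lit 21948382586) (nat_lit 16) (nat_lit 5) (nat_lit 18) (nat_lit 5) (nat_lit 19) (nat_lit 5) (nat_lit 244) (nat_lit 236) (nat_lit 180)) (XT.lf (nat_lit 0) (nat_lit 64804974232) (nat_lit 228) (nat_lit 3148607603) (nat_lit 76) (nat_lit 10017541427) (nat_lit 16) (nat_lit 5) (nat_lit 19) (nat_lit 5) (nat_lit 17) (nat_lit 4) (nat_lit 245) (nat_lit 236) (nat_lit 179)))) (XT.nd (nat_lit 156) (nat_lit 228) (nat_lit 0) (XT.nd (nat_lit 78) (nat_lit 76) (nat_lit 0) (XT.lf (nat_lit 0) (nat_lit 40120353386) (nat_lit 76) (nat_lit 44812718699) (nat_lit 152) (nat_lit 261050279) (nat_lit 15) (nat_lit 5) (nat_lit 16) (nat_lit 5) (nat_lit 17) (nat_lit 4) (nat_lit 246) (nat_lit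 236) (nat_lit 178)) (XT.lf (nat_lit 0) (nat_lit 13451574032) (nat_lit 152) (nat_lit 3857836178) (nat_lit 76) (nat_lit 76075148834) (nat_lit 14) (nat_lit 5) (nat_lit 16) (nat_lit 5) (nat_lit 15) (nat_lit 5) (nat_lit 247) (nat_lit 236) (nat_lit 177))) (XT.nd (nat_lit 78) (nat_lit 76) (nat_lit 0) (XT.lf (nat_lit 0) (nat_lit 31858131125) (nat_lit 228) (nat_lit 55414788896) (nat_lit 76) (nat_lit 15129219562) (nat_lit 12) (nat_lit 5) (nat_lit 15) (nat_lit 5) (nat_lit 13) (nat_lit 4) (nat_lit 248) (nat_lit 236) (nat_lit 176)) (XT.nd (nat_lit 78) (nat_lit 76) (nat_lit 0) (XT.lf (nat_lit 0) (nat_lit 54058995013) (nat_lit 228) (nat_lit 7686618998) (nat_lit 76) (nat_lit 50871751542) (nat_lit 12) (nat_lit 5) (nat_lit 15) (nat_lit 5) (nat_lit 13) (nat_lit 4) (nat_lit 249) (nat_lit 236) (nat_lit 175)) (XT.lf (nat_lit 0) (nat_lit 51810206137) (nat_lit 76) (nat_lit 29923222190) (nat_lit 152) (nat_lit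 42309937059) (nat_lit 11) (nat_lit 5) (nat_lit 12) (nat_lit 5) (nat_lit 13) (nat_lit 4) (nat_lit 250) (nat_lit 236) (nat_lit 174)))))) (XT.nd (nat_lit 312) (nat_lit 228) (nat_lit 0) (XT.nd (nat_lit 156) (nat_lit 76) (nat_lit 0) (XT.nd (nat_lit 78) (nat_lit 152) (nat_lit 0) (XT.lf (nat_lit 0) (nat_lit 114254425454) (nat_lit 152) (nat_lit 16326155737) (nat_lit 0) (nat_lit 6498379350) (nat_lit 11) (nat_lit 5) (nat_lit 13) (nat_lit 4) (nat_lit 11) (nat_lit 4) (nat_lit 251) (nat_lit 236) (nat_lit 173)) (XT.lf (nat_lit 0) (nat_lit 3327992287) (nat_lit 152) (nat_lit 100602971003) (nat_lit 76) (nat_lit 47585433767) (nat_lit 9) (nat_lit 5) (nat_lit 11) (nat_lit 5) (nat_lit 10) (nat_lit 4) (nat_lit 252) (nat_lit 236) (nat_lit 172))) (XT.nd (nat_lit 78) (nat_lit 76) (nat_lit 0) (XT.lf (nat_lit 0) (nat_lit 31959085398) (nat_lit 152) (nat_lit 39047954136) (nat_lit 76) (nat_lit 96815507881) (nat_lit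 9) (nat_lit 5) (nat_lit 11) (nat_lit 5) (nat_lit 10) (nat_lit 4) (nat_lit 253) (nat_lit 236) (nat_lit 171)) (XT.lf (nat_lit 0) (nat_lit 34839557924) (nat_lit 76) (nat_lit 31486553637) (nat_lit 152) (nat_lit 120032321357) (nat_lit 8) (nat_lit 5) (nat_lit 9) (nat_lit 5) (nat_lit 10) (nat_lit 4) (nat_lit 254) (nat_lit 236) (nat_lit 170)))) (XT.nd (nat_lit 156) (nat_lit 228) (nat_lit 0) (XT.nd (nat_lit 78) (nat_lit 0) (nat_lit 0) (XT.lf (nat_lit 0) (nat_lit 108563345946) (nat_lit 152) (nat_lit 83847667641) (nat_lit 0) (nat_lit 14856417087) (nat_lit 8) (nat_lit 5) (nat_lit 10) (nat_lit 4) (nat_lit 8) (nat_lit 4) (nat_lit 255) (nat_lit 236) (nat_lit 169)) (XT.lf (nat_lit 0) (nat_lit 158634374828) (nat_lit 152) (nat_lit 7527276334) (nat_lit 0) (nat_lit 64926397762) (nat_lit 8) (nat_lit 5) (nat_lit 10) (nat_lit 4) (nat_lit 8) (nat_lit 4) (nat_lit 256) (nat_lit 236) (nat_lit 168))) (XT.nd (nat_lit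 78) (nat_lit 152) (nat_lit 0) (XT.lf (nat_lit 0) (nat_lit 88080884434) (nat_lit 76) (nat_lit 131781414891) (nat_lit 76) (nat_lit 38072526340) (nat_lit 7) (nat_lit 4) (nat_lit 8) (nat_lit 5) (nat_lit 8) (nat_lit 4) (nat_lit 257) (nat_lit 236) (nat_lit 167)) (XT.nd (nat_lit 78) (nat_lit 76) (nat_lit 0) (XT.lf (nat_lit 0) (nat_lit 1746516731) (nat_lit 152) (nat_lit 89954670172) (nat_lit 76) (nat_lit 197036646438) (nat_lit 6) (nat_lit 5) (nat_lit 8) (nat_lit 5) (nat_lit 7) (nat_lit 4) (nat_lit 258) (nat_lit 236) (nat_lit 166)) (XT.lf (nat_lit 0) (nat_lit 126113446) (nat_lit 76) (nat_lit 43518762742) (nat_lit 152) (nat_lit 280243816428) (nat_lit 5) (nat_lit 5) (nat_lit 6) (nat_lit 5) (nat_lit 7) (nat_lit 4) (nat_lit 259) (nat_lit 236) (nat_lit 165))))))) (XT.nd (nat_lit 702) (nat_lit 76) (nat_lit 0) (XT.nd (nat_lit 312) (nat_lit 76) (nat_lit 0) (XT.nd (nat_lit 156) (nat_lit 76) (nat_lit 0)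 (XT.nd (nat_lit 78) (nat_lit 0) (nat_lit 0) (XT.lf (nat_lit 0) (nat_lit 97245617183) (nat_lit 152) (nat_lit 250496103102) (nat_lit 0) (nat_lit 15757817465) (nat_lit 5) (nat_lit 5) (nat_lit 7) (nat_lit 4) (nat_lit 5) (nat_lit 4) (nat_lit 260) (nat_lit 236) (nat_lit 164)) (XT.lf (nat_lit 0) (nat_lit 160958057925) (nat_lit 152) (nat_lit 168313409365) (nat_lit 0) (nat_lit 79469805039) (nat_lit 5) (nat_lit 5) (nat_lit 7) (nat_lit 4) (nat_lit 5) (nat_lit 4) (nat_lit 261) (nat_lit 236) (nat_lit 163))) (XT.nd (nat_lit 78) (nat_lit 76) (nat_lit 0) (XT.lf (nat_lit 0) (nat_lit 234226727009) (nat_lit 152) (nat_lit 73804556531) (nat_lit 0) (nat_lit 152738080063) (nat_lit 5) (nat_lit 5) (nat_lit 7) (nat_lit 4) (nat_lit 5) (nat_lit 4) (nat_lit 262) (nat_lit 236) (nat_lit 162)) (XT.lf (nat_lit 0) (nat_lit 38288224131) (nat_lit 76) (nat_lit 281782351451) (nat_lit 76) (nat_lit 200293361845) (nat_lit 4)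 (nat_lit 4) (nat_lit 5) (nat_lit 5) (nat_lit 5) (nat_lit 4) (nat_lit 263) (nat_lit 236) (nat_lit 161)))) (XT.nd (nat_lit 156) (nat_lit 76) (nat_lit 0) (XT.nd (nat_lit 78) (nat_lit 0) (nat_lit 0) (XT.lf (nat_lit 0) (nat_lit 175488514255) (nat_lit 76) (nat_lit 247159927608) (nat_lit 76) (nat_lit 165670640035) (nat_lit 4) (nat_lit 4) (nat_lit 5) (nat_lit 5) (nat_lit 5) (nat_lit 4) (nat_lit 264) (nat_lit 236) (nat_lit 160)) (XT.lf (nat_lit 0) (nat_lit 333267949316) (nat_lit 76) (nat_lit 207344582216) (nat_lit 76) (nat_lit 125855035543) (nat_lit 4) (nat_lit 4) (nat_lit 5) (nat_lit 5) (nat_lit 5) (nat_lit 4) (nat_lit 265) (nat_lit 236) (nat_lit 159))) (XT.nd (nat_lit 78) (nat_lit 76) (nat_lit 0) (XT.lf (nat_lit 0) (nat_lit 514713518261) (nat_lit 76) (nat_lit 161557319388) (nat_lit 76) (nat_lit 80067547410) (nat_lit 4) (nat_lit 4) (nat_lit 5) (nat_lit 5) (nat_lit 5) (nat_lit 4) (nat_lit 266)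 (nat_lit 236) (nat_lit 158)) (XT.nd (nat_lit 78) (nat_lit 76) (nat_lit 0) (XT.lf (nat_lit 0) (nat_lit 723375243092) (nat_lit 76) (nat_lit 108902301372) (nat_lit 76) (nat_lit 27412333476) (nat_lit 4) (nat_lit 4) (nat_lit 5) (nat_lit 5) (nat_lit 5) (nat_lit 4) (nat_lit 267) (nat_lit 236) (nat_lit 157)) (XT.lf (nat_lit 0) (nat_lit 30190392264) (nat_lit 152) (nat_lit 16580794888) (nat_lit 76) (nat_lit 931567109410) (nat_lit 3) (nat_lit 5) (nat_lit 5) (nat_lit 5) (nat_lit 4) (nat_lit 4) (nat_lit 268) (nat_lit 236) (nat_lit 156)))))) (XT.nd (nat_lit 312) (nat_lit 0) (nat_lit 0) (XT.nd (nat_lit 156) (nat_lit 0) (nat_lit 0) (XT.nd (nat_lit 78) (nat_lit 0) (nat_lit 0) (XT.lf (nat_lit 0) (nat_lit 100415936342) (nat_lit 152) (nat_lit 983599085254) (nat_lit 0) (nat_lit 29554817733) (nat_lit 2) (nat_lit 5) (nat_lit 4) (nat_lit 4) (nat_lit 2) (nat_lit 4) (nat_lit 269) (nat_lit 236) (nat_lit 155))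 (XT.lf (nat_lit 0) (nat_lit 184310237275) (nat_lit 152) (nat_lit 970856631038) (nat_lit 0) (nat_lit 113449006649) (nat_lit 2) (nat_lit 5) (nat_lit 4) (nat_lit 4) (nat_lit 2) (nat_lit 4) (nat_lit 270) (nat_lit 236) (nat_lit 154))) (XT.nd (nat_lit 78) (nat_lit 0) (nat_lit 0) (XT.lf (nat_lit 0) (nat_lit 280788448517) (nat_lit 152) (nat_lit 956203282369) (nat_lit 0) (nat_lit 209927120486) (nat_lit 2) (nat_lit 5) (nat_lit 4) (nat_lit 4) (nat_lit 2) (nat_lit 4) (nat_lit 271) (nat_lit 236) (nat_lit 153)) (XT.lf (nat_lit 0) (nat_lit 391738187246) (nat_lit 152) (nat_lit 939352343295) (nat_lit 0) (nat_lit 320876774514) (nat_lit 2) (nat_lit 5) (nat_lit 4) (nat_lit 4) (nat_lit 2) (nat_lit 4) (nat_lit 272) (nat_lit 236) (nat_lit 152)))) (XT.nd (nat_lit 156) (nat_lit 0) (nat_lit 0) (XT.nd (nat_lit 78) (nat_lit 0) (nat_lit 0) (XT.lf (nat_lit 0) (nat_lit 519330209218) (nat_lit 152) (nat_lit 919974121529)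 (nat_lit 0) (nat_lit 448468722834) (nat_lit 2) (nat_lit 5) (nat_lit 4) (nat_lit 4) (nat_lit 2) (nat_lit 4) (nat_lit 273) (nat_lit 236) (nat_lit 151)) (XT.lf (nat_lit 0) (nat_lit 666060880081) (nat_lit 152) (nat_lit 897689477951) (nat_lit 0) (nat_lit 595199329651) (nat_lit 2) (nat_lit 5) (nat_lit 4) (nat_lit 4) (nat_lit 2) (nat_lit 4) (nat_lit 274) (nat_lit 236) (nat_lit 150))) (XT.nd (nat_lit 78) (nat_lit 0) (nat_lit 0) (XT.lf (nat_lit 0) (nat_lit 834801017309) (nat_lit 152) (nat_lit 872062408665) (nat_lit 0) (nat_lit 763939411187) (nat_lit 2) (nat_lit 5) (nat_lit 4) (nat_lit 4) (nat_lit 2) (nat_lit 4) (nat_lit 275) (nat_lit 236) (nat_lit 149)) (XT.nd (nat_lit 78) (nat_lit 0) (nat_lit 0) (XT.lf (nat_lit 0) (nat_lit 1028852058369) (nat_lit 152) (nat_lit 842591514487) (nat_lit 0) (nat_lit 957990403819) (nat_lit 2) (nat_lit 5) (nat_lit 4) (nat_lit 4) (nat_lit 2) (nat_lit 4) (nat_lit 276)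 (nat_lit 236) (nat_lit 148)) (XT.lf (nat_lit 0) (nat_lit 1252010654064) (nat_lit 152) (nat_lit 808700190968) (nat_lit 0) (nat_lit 1181148957403) (nat_lit 2) (nat_lit 5) (nat_lit 4) (nat_lit 4) (nat_lit 2) (nat_lit 4) (nat_lit 277) (nat_lit 236) (nat_lit 147))))))))
noncomputable def xc83 : XT := (XT.nd (nat_lit 1404) (nat_lit 0) (nat_lit 0) (XT.nd (nat_lit 702) (nat_lit 76) (nat_lit 0) (XT.nd (nat_lit 312) (nat_lit 0) (nat_lit 0) (XT.nd (nat_lit 156) (nat_lit 0) (nat_lit 0) (XT.nd (nat_lit 78) (nat_lit 0) (nat_lit 0) (XT.lf (nat_lit 0) (nat_lit 1508642950831) (nat_lit 152) (nat_lit 769725346995) (nat_lit 0) (nat_lit 1437781217553) (nat_lit 2) (nat_lit 5) (nat_lit 4) (nat_lit 4) (nat_lit 2) (nat_lit 4) (nat_lit 278) (nat_lit 236) (nat_lit 146)) (XT.lf (nat_lit 0) (nat_lit 1803770015348) (nat_lit 152) (nat_lit 724904431272) (nat_lit 0) (nat_lit 1732908250227) (nat_lit 2) (nat_lit 5) (nat_lit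 4) (nat_lit 4) (nat_lit 2) (nat_lit 4) (nat_lit 279) (nat_lit 236) (nat_lit 145))) (XT.nd (nat_lit 78) (nat_lit 0) (nat_lit 0) (XT.lf (nat_lit 0) (nat_lit 2143166072789) (nat_lit 152) (nat_lit 673360512840) (nat_lit 0) (nat_lit 2072304279979) (nat_lit 2) (nat_lit 5) (nat_lit 4) (nat_lit 4) (nat_lit 2) (nat_lit 4) (nat_lit 280) (nat_lit 236) (nat_lit 144)) (XT.lf (nat_lit 0) (nat_lit 2533471480799) (nat_lit 152) (nat_lit 614085123730) (nat_lit 0) (nat_lit 2462609663912) (nat_lit 2) (nat_lit 5) (nat_lit 4) (nat_lit 4) (nat_lit 2) (nat_lit 4) (nat_lit 281) (nat_lit 236) (nat_lit 143)))) (XT.nd (nat_lit 156) (nat_lit 0) (nat_lit 0) (XT.nd (nat_lit 78) (nat_lit 0) (nat_lit 0) (XT.lf (nat_lit 0) (nat_lit 2982322649535) (nat_lit 152) (nat_lit 545918528068) (nat_lit 0) (nat_lit 2911460811712) (nat_lit 2) (nat_lit 5) (nat_lit 4) (nat_lit 4) (nat_lit 2) (nat_lit 4) (nat_lit 282) (nat_lit 236)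 (nat_lit 142)) (XT.lf (nat_lit 0) (nat_lit 3498501449691) (nat_lit 152) (nat_lit 467527031590) (nat_lit 0) (nat_lit 3427639593661) (nat_lit 2) (nat_lit 5) (nat_lit 4) (nat_lit 4) (nat_lit 2) (nat_lit 4) (nat_lit 283) (nat_lit 236) (nat_lit 141))) (XT.nd (nat_lit 78) (nat_lit 0) (nat_lit 0) (XT.lf (nat_lit 0) (nat_lit 4092107031703) (nat_lit 152) (nat_lit 377376887627) (nat_lit 0) (nat_lit 4021245159842) (nat_lit 2) (nat_lit 5) (nat_lit 4) (nat_lit 4) (nat_lit 2) (nat_lit 4) (nat_lit 284) (nat_lit 236) (nat_lit 140)) (XT.nd (nat_lit 78) (nat_lit 0) (nat_lit 0) (XT.lf (nat_lit 0) (nat_lit 4774753417829) (nat_lit 152) (nat_lit 273704289014) (nat_lit 0) (nat_lit 4703891532202) (nat_lit 2) (nat_lit 5) (nat_lit 4) (nat_lit 4) (nat_lit 2) (nat_lit 4) (nat_lit 285) (nat_lit 236) (nat_lit 139)) (XT.lf (nat_lit 0) (nat_lit 5559796733014) (nat_lit 152) (nat_lit 154480858822) (nat_lit 0) (nat_lit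 5488934835417) (nat_lit 2) (nat_lit 5) (nat_lit 4) (nat_lit 4) (nat_lit 2) (nat_lit 4) (nat_lit 286) (nat_lit 236) (nat_lit 138)))))) (XT.nd (nat_lit 312) (nat_lit 0) (nat_lit 0) (XT.nd (nat_lit 156) (nat_lit 0) (nat_lit 0) (XT.nd (nat_lit 78) (nat_lit 76) (nat_lit 0) (XT.lf (nat_lit 0) (nat_lit 6462596520382) (nat_lit 152) (nat_lit 17373964720) (nat_lit 0) (nat_lit 6391734612376) (nat_lit 2) (nat_lit 5) (nat_lit 4) (nat_lit 4) (nat_lit 2) (nat_lit 4) (nat_lit 287) (nat_lit 236) (nat_lit 137)) (XT.lf (nat_lit 0) (nat_lit 154009950246) (nat_lit 76) (nat_lit 7353183527400) (nat_lit 76) (nat_lit 7282321610342) (nat_lit 1) (nat_lit 4) (nat_lit 2) (nat_lit 5) (nat_lit 2) (nat_lit 4) (nat_lit 288) (nat_lit 236) (nat_lit 136))) (XT.nd (nat_lit 78) (nat_lit 0) (nat_lit 0) (XT.lf (nat_lit 0) (nat_lit 353054007158) (nat_lit 76) (nat_lit 8356334135145) (nat_lit 76) (nat_lit 8285472210217) (nat_lit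 1) (nat_lit 4) (nat_lit 2) (nat_lit 5) (nat_lit 2) (nat_lit 4) (nat_lit 289) (nat_lit 236) (nat_lit 135)) (XT.lf (nat_lit 0) (nat_lit 581954636072) (nat_lit 76) (nat_lit 9509957352575) (nat_lit 76) (nat_lit 9439095420802) (nat_lit 1) (nat_lit 4) (nat_lit 2) (nat_lit 5) (nat_lit 2) (nat_lit 4) (nat_lit 290) (nat_lit 236) (nat_lit 134)))) (XT.nd (nat_lit 156) (nat_lit 0) (nat_lit 0) (XT.nd (nat_lit 78) (nat_lit 0) (nat_lit 0) (XT.lf (nat_lit 0) (nat_lit 845190327552) (nat_lit 76) (nat_lit 10836624068726) (nat_lit 76) (nat_lit 10765762131002) (nat_lit 1) (nat_lit 4) (nat_lit 2) (nat_lit 5) (nat_lit 2) (nat_lit 4) (nat_lit 291) (nat_lit 236) (nat_lit 133)) (XT.lf (nat_lit 0) (nat_lit 1147911345128) (nat_lit 76) (nat_lit 12362290806306) (nat_lit 76) (nat_lit 12291428863406) (nat_lit 1) (nat_lit 4) (nat_lit 2) (nat_lit 5) (nat_lit 2) (nat_lit 4) (nat_lit 292) (nat_lit 236) (nat_lit 132)))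 (XT.nd (nat_lit 78) (nat_lit 0) (nat_lit 0) (XT.lf (nat_lit 0) (nat_lit 1496040491317) (nat_lit 76) (nat_lit 14116807566701) (nat_lit 76) (nat_lit 14045945619301) (nat_lit 1) (nat_lit 4) (nat_lit 2) (nat_lit 5) (nat_lit 2) (nat_lit 4) (nat_lit 293) (nat_lit 236) (nat_lit 131)) (XT.nd (nat_lit 78) (nat_lit 0) (nat_lit 0) (XT.lf (nat_lit 0) (nat_lit 1896388988545) (nat_lit 76) (nat_lit 16134501851746) (nat_lit 76) (nat_lit 16063639900433) (nat_lit 1) (nat_lit 4) (nat_lit 2) (nat_lit 5) (nat_lit 2) (nat_lit 4) (nat_lit 294) (nat_lit 236) (nat_lit 130)) (XT.lf (nat_lit 0) (nat_lit 2356789742192) (nat_lit 76) (nat_lit 18454850288756) (nat_lit 76) (nat_lit 18383988334040) (nat_lit 1) (nat_lit 4) (nat_lit 2) (nat_lit 5) (nat_lit 2) (nat_lit 4) (nat_lit 295) (nat_lit 236) (nat_lit 129))))))) (XT.nd (nat_lit 29874) (nat_lit 0) (nat_lit 1140) (XT.nd (nat_lit 468) (nat_lit 0) (nat_lit 0) (XT.nd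 (nat_lit 312) (nat_lit 0) (nat_lit 0) (XT.nd (nat_lit 78) (nat_lit 0) (nat_lit 0) (XT.lf (nat_lit 0) (nat_lit 2886250593091) (nat_lit 76) (nat_lit 21123250999327) (nat_lit 76) (nat_lit 21052389041651) (nat_lit 1) (nat_lit 4) (nat_lit 2) (nat_lit 5) (nat_lit 2) (nat_lit 4) (nat_lit 296) (nat_lit 236) (nat_lit 128)) (XT.lf (nat_lit 0) (nat_lit 3495130557890) (nat_lit 76) (nat_lit 24191911823445) (nat_lit 76) (nat_lit 24121049863197) (nat_lit 1) (nat_lit 4) (nat_lit 2) (nat_lit 5) (nat_lit 2) (nat_lit 4) (nat_lit 297) (nat_lit 236) (nat_lit 127))) (XT.nd (nat_lit 78) (nat_lit 0) (nat_lit 0) (XT.lf (nat_lit 0) (nat_lit 5926616514483) (nat_lit 76) (nat_lit 36446225278886) (nat_lit 76) (nat_lit 36375363312764) (nat_lit 1) (nat_lit 4) (nat_lit 2) (nat_lit 5) (nat_lit 2) (nat_lit 4) (nat_lit 300) (nat_lit 236) (nat_lit 124)) (XT.lf (nat_lit 0) (nat_lit 6991551328276) (nat_lit 76) (nat_lit 41813332264820)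 (nat_lit 76) (nat_lit 41742470297226) (nat_lit 1) (nat_lit 4) (nat_lit 2) (nat_lit 5) (nat_lit 2) (nat_lit 4) (nat_lit 301) (nat_lit 236) (nat_lit 123)))) (XT.nd (nat_lit 156) (nat_lit 0) (nat_lit 0) (XT.nd (nat_lit 78) (nat_lit 0) (nat_lit 0) (XT.lf (nat_lit 0) (nat_lit 8216226357310) (nat_lit 76) (nat_lit 47985505302105) (nat_lit 76) (nat_lit 47914643333232) (nat_lit 1) (nat_lit 4) (nat_lit 2) (nat_lit 5) (nat_lit 2) (nat_lit 4) (nat_lit 302) (nat_lit 236) (nat_lit 122)) (XT.lf (nat_lit 0) (nat_lit 9624602634761) (nat_lit 76) (nat_lit 55083504297993) (nat_lit 76) (nat_lit 55012642328007) (nat_lit 1) (nat_lit 4) (nat_lit 2) (nat_lit 5) (nat_lit 2) (nat_lit 4) (nat_lit 303) (nat_lit 236) (nat_lit 121))) (XT.nd (nat_lit 78) (nat_lit 0) (nat_lit 0) (XT.lf (nat_lit 0) (nat_lit 11244235348666) (nat_lit 76) (nat_lit 63246203145882) (nat_lit 76) (nat_lit 63175341174930) (nat_lit 1) (nat_lit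 4) (nat_lit 2) (nat_lit 5) (nat_lit 2) (nat_lit 4) (nat_lit 304) (nat_lit 236) (nat_lit 120)) (XT.nd (nat_lit 29094) (nat_lit 0) (nat_lit 1444) (XT.lf (nat_lit 0) (nat_lit 13106812965166) (nat_lit 76) (nat_lit 72633306823231) (nat_lit 76) (nat_lit 72562444851437) (nat_lit 1) (nat_lit 4) (nat_lit 2) (nat_lit 5) (nat_lit 2) (nat_lit 4) (nat_lit 305) (nat_lit 236) (nat_lit 119)) (XT.lf (nat_lit 0) (nat_lit 2464789652) (nat_lit 380) (nat_lit 9743634843) (nat_lit 380) (nat_lit 9743634843) (nat_lit 20) (nat_lit 3) (nat_lit 25) (nat_lit 3) (nat_lit 25) (nat_lit 5) (nat_lit 237) (nat_lit 237) (nat_lit 186)))))) (XT.nd (nat_lit 312) (nat_lit 304) (nat_lit 0) (XT.nd (nat_lit 156) (nat_lit 0) (nat_lit 76) (XT.nd (nat_lit 78) (nat_lit 0) (nat_lit 76) (XT.lf (nat_lit 76) (nat_lit 625250267) (nat_lit 0) (nat_lit 4730558400) (nat_lit 380) (nat_lit 41832486975) (nat_lit 21) (nat_lit 5) (nat_lit 20)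 (nat_lit 3) (nat_lit 25) (nat_lit 5) (nat_lit 238) (nat_lit 237) (nat_lit 185)) (XT.lf (nat_lit 0) (nat_lit 7649185826) (nat_lit 304) (nat_lit 25662029011) (nat_lit 380) (nat_lit 17383429953) (nat_lit 21) (nat_lit 5) (nat_lit 25) (nat_lit 5) (nat_lit 26) (nat_lit 5) (nat_lit 239) (nat_lit 237) (nat_lit 184))) (XT.nd (nat_lit 78) (nat_lit 0) (nat_lit 76) (XT.lf (nat_lit 0) (nat_lit 10507045821) (nat_lit 304) (nat_lit 1854961416) (nat_lit 380) (nat_lit 42331891682) (nat_lit 21) (nat_lit 5) (nat_lit 25) (nat_lit 5) (nat_lit 26) (nat_lit 5) (nat_lit 240) (nat_lit 237) (nat_lit 183)) (XT.lf (nat_lit 0) (nat_lit 15490382208) (nat_lit 304) (nat_lit 31646843167) (nat_lit 76) (nat_lit 11901317091) (nat_lit 22) (nat_lit 5) (nat_lit 26) (nat_lit 5) (nat_lit 23) (nat_lit 5) (nat_lit 241) (nat_lit 237) (nat_lit 182)))) (XT.nd (nat_lit 156) (nat_lit 152) (nat_lit 0) (XT.nd (nat_lit 78) (nat_lit 304)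 (nat_lit 0) (XT.lf (nat_lit 0) (nat_lit 21907738210) (nat_lit 304) (nat_lit 3383579884) (nat_lit 76) (nat_lit 38640604760) (nat_lit 22) (nat_lit 5) (nat_lit 26) (nat_lit 5) (nat_lit 23) (nat_lit 5) (nat_lit 242) (nat_lit 237) (nat_lit 181)) (XT.lf (nat_lit 0) (nat_lit 30663944912) (nat_lit 380) (nat_lit 37456042735) (nat_lit 76) (nat_lit 1232901368) (nat_lit 18) (nat_lit 5) (nat_lit 23) (nat_lit 5) (nat_lit 19) (nat_lit 5) (nat_lit 243) (nat_lit 237) (nat_lit 180))) (XT.nd (nat_lit 78) (nat_lit 152) (nat_lit 0) (XT.lf (nat_lit 0) (nat_lit 42120264353) (nat_lit 380) (nat_lit 3927229200) (nat_lit 76) (nat_lit 29331518036) (nat_lit 18) (nat_lit 5) (nat_lit 23) (nat_lit 5) (nat_lit 19) (nat_lit 5) (nat_lit 244) (nat_lit 237) (nat_lit 179)) (XT.nd (nat_lit 78) (nat_lit 0) (nat_lit 0) (XT.lf (nat_lit 0) (nat_lit 38011860482) (nat_lit 152) (nat_lit 18854589111) (nat_lit 228) (nat_lit 25206902227)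 (nat_lit 16) (nat_lit 5) (nat_lit 18) (nat_lit 5) (nat_lit 19) (nat_lit 5) (nat_lit 245) (nat_lit 237) (nat_lit 178)) (XT.lf (nat_lit 0) (nat_lit 74551411092) (nat_lit 228) (nat_lit 3585138054) (nat_lit 76) (nat_lit 11526277064) (nat_lit 16) (nat_lit 5) (nat_lit 19) (nat_lit 5) (nat_lit 17) (nat_lit 4) (nat_lit 246) (nat_lit 237) (nat_lit 177))))))))
noncomputable def xc84 : XT := (XT.nd (nat_lit 1404) (nat_lit 152) (nat_lit 0) (XT.nd (nat_lit 702) (nat_lit 304) (nat_lit 0) (XT.nd (nat_lit 312) (nat_lit 304) (nat_lit 0) (XT.nd (nat_lit 156) (nat_lit 152) (nat_lit 0) (XT.nd (nat_lit 78) (nat_lit 76) (nat_lit 0) (XT.lf (nat_lit 0) (nat_lit 46172541598) (nat_lit 76) (nat_lit 51524244527) (nat_lit 152) (nat_lit 272794278) (nat_lit 15) (nat_lit 5) (nat_lit 16) (nat_lit 5) (nat_lit 17) (nat_lit 4) (nat_lit 247) (nat_lit 237) (nat_lit 176)) (XT.lf (nat_lit 0) (nat_lit 15491025788) (nat_lit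 152) (nat_lit 4404633010) (nat_lit 76) (nat_lit 87493253156) (nat_lit 14) (nat_lit 5) (nat_lit 16) (nat_lit 5) (nat_lit 15) (nat_lit 5) (nat_lit 248) (nat_lit 237) (nat_lit 175))) (XT.nd (nat_lit 78) (nat_lit 0) (nat_lit 0) (XT.lf (nat_lit 0) (nat_lit 36657419929) (nat_lit 228) (nat_lit 63693918122) (nat_lit 76) (nat_lit 17407973100) (nat_lit 12) (nat_lit 5) (nat_lit 15) (nat_lit 5) (nat_lit 13) (nat_lit 4) (nat_lit 249) (nat_lit 237) (nat_lit 174)) (XT.lf (nat_lit 0) (nat_lit 62185730470) (nat_lit 228) (nat_lit 8810838710) (nat_lit 76) (nat_lit 58510662625) (nat_lit 12) (nat_lit 5) (nat_lit 15) (nat_lit 5) (nat_lit 13) (nat_lit 4) (nat_lit 250) (nat_lit 237) (nat_lit 173)))) (XT.nd (nat_lit 156) (nat_lit 228) (nat_lit 0) (XT.nd (nat_lit 78) (nat_lit 0) (nat_lit 0) (XT.lf (nat_lit 0) (nat_lit 59609202326) (nat_lit 76) (nat_lit 34400930751) (nat_lit 152) (nat_lit 48637185152) (nat_lit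 11) (nat_lit 5) (nat_lit 12) (nat_lit 5) (nat_lit 13) (nat_lit 4) (nat_lit 251) (nat_lit 237) (nat_lit 172)) (XT.lf (nat_lit 0) (nat_lit 131407490716) (nat_lit 152) (nat_lit 18749365120) (nat_lit 0) (nat_lit 7481671491) (nat_lit 11) (nat_lit 5) (nat_lit 13) (nat_lit 4) (nat_lit 11) (nat_lit 4) (nat_lit 252) (nat_lit 237) (nat_lit 171))) (XT.nd (nat_lit 78) (nat_lit 76) (nat_lit 0) (XT.lf (nat_lit 0) (nat_lit 3841864038) (nat_lit 152) (nat_lit 115667405732) (nat_lit 76) (nat_lit 54732354091) (nat_lit 9) (nat_lit 5) (nat_lit 11) (nat_lit 5) (nat_lit 10) (nat_lit 4) (nat_lit 253) (nat_lit 237) (nat_lit 170)) (XT.nd (nat_lit 78) (nat_lit 76) (nat_lit 0) (XT.lf (nat_lit 0) (nat_lit 36765707258) (nat_lit 152) (nat_lit 44882529064) (nat_lit 76) (nat_lit 111345751680) (nat_lit 9) (nat_lit 5) (nat_lit 11) (nat_lit 5) (nat_lit 10) (nat_lit 4) (nat_lit 254) (nat_lit 237) (nat_lit 169)) (XT.lf (nat_lit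 0) (nat_lit 40087081706) (nat_lit 76) (nat_lit 36199935416) (nat_lit 152) (nat_lit 138023358352) (nat_lit 8) (nat_lit 5) (nat_lit 9) (nat_lit 5) (nat_lit 10) (nat_lit 4) (nat_lit 255) (nat_lit 237) (nat_lit 168)))))) (XT.nd (nat_lit 312) (nat_lit 152) (nat_lit 0) (XT.nd (nat_lit 156) (nat_lit 152) (nat_lit 0) (XT.nd (nat_lit 78) (nat_lit 0) (nat_lit 0) (XT.lf (nat_lit 0) (nat_lit 124858618616) (nat_lit 152) (nat_lit 96404804824) (nat_lit 0) (nat_lit 17092485298) (nat_lit 8) (nat_lit 5) (nat_lit 10) (nat_lit 4) (nat_lit 8) (nat_lit 4) (nat_lit 256) (nat_lit 237) (nat_lit 167)) (XT.lf (nat_lit 0) (nat_lit 182438896946) (nat_lit 152) (nat_lit 8638965208) (nat_lit 0) (nat_lit 74671971033) (nat_lit 8) (nat_lit 5) (nat_lit 10) (nat_lit 4) (nat_lit 8) (nat_lit 4) (nat_lit 257) (nat_lit 237) (nat_lit 166))) (XT.nd (nat_lit 78) (nat_lit 76) (nat_lit 0) (XT.lf (nat_lit 0) (nat_lit 101309628649)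 (nat_lit 76) (nat_lit 151540847678) (nat_lit 76) (nat_lit 43773232552) (nat_lit 7) (nat_lit 4) (nat_lit 8) (nat_lit 5) (nat_lit 8) (nat_lit 4) (nat_lit 258) (nat_lit 237) (nat_lit 165)) (XT.lf (nat_lit 0) (nat_lit 2016552581) (nat_lit 152) (nat_lit 103432626390) (nat_lit 76) (nat_lit 226598108658) (nat_lit 6) (nat_lit 5) (nat_lit 8) (nat_lit 5) (nat_lit 7) (nat_lit 4) (nat_lit 259) (nat_lit 237) (nat_lit 164)))) (XT.nd (nat_lit 156) (nat_lit 76) (nat_lit 0) (XT.nd (nat_lit 78) (nat_lit 0) (nat_lit 0) (XT.lf (nat_lit 0) (nat_lit 159581848) (nat_lit 76) (nat_lit 50039635562) (nat_lit 152) (nat_lit 322271627227) (nat_lit 5) (nat_lit 5) (nat_lit 6) (nat_lit 5) (nat_lit 7) (nat_lit 4) (nat_lit 260) (nat_lit 237) (nat_lit 163)) (XT.lf (nat_lit 0) (nat_lit 111839326917) (nat_lit 152) (nat_lit 288057113507) (nat_lit 0) (nat_lit 18126988870) (nat_lit 5) (nat_lit 5) (nat_lit 7) (nat_lit 4) (nat_lit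 5) (nat_lit 4) (nat_lit 261) (nat_lit 237) (nat_lit 162))) (XT.nd (nat_lit 78) (nat_lit 76) (nat_lit 0) (XT.lf (nat_lit 0) (nat_lit 185107738055) (nat_lit 152) (nat_lit 193548764197) (nat_lit 0) (nat_lit 91395057347) (nat_lit 5) (nat_lit 5) (nat_lit 7) (nat_lit 4) (nat_lit 5) (nat_lit 4) (nat_lit 262) (nat_lit 237) (nat_lit 161)) (XT.nd (nat_lit 78) (nat_lit 76) (nat_lit 0) (XT.lf (nat_lit 0) (nat_lit 269365928618) (nat_lit 152) (nat_lit 84865103860) (nat_lit 0) (nat_lit 175652949943) (nat_lit 5) (nat_lit 5) (nat_lit 7) (nat_lit 4) (nat_lit 5) (nat_lit 4) (nat_lit 263) (nat_lit 237) (nat_lit 160)) (XT.lf (nat_lit 0) (nat_lit 44041133168) (nat_lit 76) (nat_lit 324044944658) (nat_lit 76) (nat_lit 230331706883) (nat_lit 4) (nat_lit 4) (nat_lit 5) (nat_lit 5) (nat_lit 5) (nat_lit 4) (nat_lit 264) (nat_lit 237) (nat_lit 159))))))) (XT.nd (nat_lit 702) (nat_lit 0) (nat_lit 0) (XT.nd (nat_lit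 312) (nat_lit 152) (nat_lit 0) (XT.nd (nat_lit 156) (nat_lit 0) (nat_lit 0) (XT.nd (nat_lit 78) (nat_lit 0) (nat_lit 0) (XT.lf (nat_lit 0) (nat_lit 201820204799) (nat_lit 76) (nat_lit 284229778044) (nat_lit 76) (nat_lit 190516314964) (nat_lit 4) (nat_lit 4) (nat_lit 5) (nat_lit 5) (nat_lit 5) (nat_lit 4) (nat_lit 265) (nat_lit 237) (nat_lit 158)) (XT.lf (nat_lit 0) (nat_lit 383265457718) (nat_lit 76) (nat_lit 238442670674) (nat_lit 76) (nat_lit 144729011677) (nat_lit 4) (nat_lit 4) (nat_lit 5) (nat_lit 5) (nat_lit 5) (nat_lit 4) (nat_lit 266) (nat_lit 237) (nat_lit 157))) (XT.nd (nat_lit 78) (nat_lit 0) (nat_lit 0) (XT.lf (nat_lit 0) (nat_lit 591926907744) (nat_lit 76) (nat_lit 185787787840) (nat_lit 76) (nat_lit 92073958480) (nat_lit 4) (nat_lit 4) (nat_lit 5) (nat_lit 5) (nat_lit 5) (nat_lit 4) (nat_lit 267) (nat_lit 237) (nat_lit 156)) (XT.lf (nat_lit 0) (nat_lit 831887061507) (nat_lit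 76) (nat_lit 125234925312) (nat_lit 76) (nat_lit 31520947810) (nat_lit 4) (nat_lit 4) (nat_lit 5) (nat_lit 5) (nat_lit 5) (nat_lit 4) (nat_lit 268) (nat_lit 237) (nat_lit 155)))) (XT.nd (nat_lit 156) (nat_lit 0) (nat_lit 0) (XT.nd (nat_lit 78) (nat_lit 76) (nat_lit 0) (XT.lf (nat_lit 0) (nat_lit 34721514256) (nat_lit 152) (nat_lit 19062850669) (nat_lit 76) (nat_lit 1071304289079) (nat_lit 3) (nat_lit 5) (nat_lit 5) (nat_lit 5) (nat_lit 4) (nat_lit 4) (nat_lit 269) (nat_lit 237) (nat_lit 154)) (XT.lf (nat_lit 0) (nat_lit 115480855316) (nat_lit 152) (nat_lit 1131133847724) (nat_lit 0) (nat_lit 33990230675) (nat_lit 2) (nat_lit 5) (nat_lit 4) (nat_lit 4) (nat_lit 2) (nat_lit 4) (nat_lit 270) (nat_lit 237) (nat_lit 153))) (XT.nd (nat_lit 78) (nat_lit 0) (nat_lit 0) (XT.lf (nat_lit 0) (nat_lit 211958971581) (nat_lit 152) (nat_lit 1116480690634) (nat_lit 0) (nat_lit 130468262240) (nat_lit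 2) (nat_lit 5) (nat_lit 4) (nat_lit 4) (nat_lit 2) (nat_lit 4) (nat_lit 271) (nat_lit 237) (nat_lit 152)) (XT.nd (nat_lit 78) (nat_lit 0) (nat_lit 0) (XT.lf (nat_lit 0) (nat_lit 322908627721) (nat_lit 152) (nat_lit 1099629918151) (nat_lit 0) (nat_lit 241417844727) (nat_lit 2) (nat_lit 5) (nat_lit 4) (nat_lit 4) (nat_lit 2) (nat_lit 4) (nat_lit 272) (nat_lit 237) (nat_lit 151)) (XT.lf (nat_lit 0) (nat_lit 450500577877) (nat_lit 152) (nat_lit 1080251841247) (nat_lit 0) (nat_lit 369009730837) (nat_lit 2) (nat_lit 5) (nat_lit 4) (nat_lit 4) (nat_lit 2) (nat_lit 4) (nat_lit 273) (nat_lit 237) (nat_lit 150)))))) (XT.nd (nat_lit 312) (nat_lit 0) (nat_lit 0) (XT.nd (nat_lit 156) (nat_lit 0) (nat_lit 0) (XT.nd (nat_lit 78) (nat_lit 0) (nat_lit 0) (XT.lf (nat_lit 0) (nat_lit 597231186292) (nat_lit 152) (nat_lit 1057967323635) (nat_lit 0) (nat_lit 515740283560) (nat_lit 2) (nat_lit 5) (nat_lit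 4) (nat_lit 4) (nat_lit 2) (nat_lit 4) (nat_lit 274) (nat_lit 237) (nat_lit 149)) (XT.lf (nat_lit 0) (nat_lit 765971269216) (nat_lit 152) (nat_lit 1032340363885) (nat_lit 0) (nat_lit 684480318056) (nat_lit 2) (nat_lit 5) (nat_lit 4) (nat_lit 4) (nat_lit 2) (nat_lit 4) (nat_lit 275) (nat_lit 237) (nat_lit 148))) (XT.nd (nat_lit 78) (nat_lit 0) (nat_lit 0) (XT.lf (nat_lit 0) (nat_lit 960022263055) (nat_lit 152) (nat_lit 1002869564956) (nat_lit 0) (nat_lit 878531269785) (nat_lit 2) (nat_lit 5) (nat_lit 4) (nat_lit 4) (nat_lit 2) (nat_lit 4) (nat_lit 276) (nat_lit 237) (nat_lit 147)) (XT.lf (nat_lit 0) (nat_lit 1183180817689) (nat_lit 152) (nat_lit 968978324262) (nat_lit 0) (nat_lit 1101689787800) (nat_lit 2) (nat_lit 5) (nat_lit 4) (nat_lit 4) (nat_lit 2) (nat_lit 4) (nat_lit 277) (nat_lit 237) (nat_lit 146)))) (XT.nd (nat_lit 156) (nat_lit 0) (nat_lit 0) (XT.nd (nat_lit 78) (nat_lit 0)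 (nat_lit 0) (XT.lf (nat_lit 0) (nat_lit 1439813078752) (nat_lit 152) (nat_lit 930003552310) (nat_lit 0) (nat_lit 1358322017021) (nat_lit 2) (nat_lit 5) (nat_lit 4) (nat_lit 4) (nat_lit 2) (nat_lit 4) (nat_lit 278) (nat_lit 237) (nat_lit 145)) (XT.lf (nat_lit 0) (nat_lit 1734940112220) (nat_lit 152) (nat_lit 885182699215) (nat_lit 0) (nat_lit 1653449022800) (nat_lit 2) (nat_lit 5) (nat_lit 4) (nat_lit 4) (nat_lit 2) (nat_lit 4) (nat_lit 279) (nat_lit 237) (nat_lit 144))) (XT.nd (nat_lit 78) (nat_lit 0) (nat_lit 0) (XT.lf (nat_lit 0) (nat_lit 2074336142662) (nat_lit 152) (nat_lit 833638835242) (nat_lit 0) (nat_lit 1992845029165) (nat_lit 2) (nat_lit 5) (nat_lit 4) (nat_lit 4) (nat_lit 2) (nat_lit 4) (nat_lit 280) (nat_lit 237) (nat_lit 143)) (XT.nd (nat_lit 78) (nat_lit 0) (nat_lit 0) (XT.lf (nat_lit 0) (nat_lit 2464641527196) (nat_lit 152) (nat_lit 774363493487) (nat_lit 0) (nat_lit 2383150392762)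 (nat_lit 2) (nat_lit 5) (nat_lit 4) (nat_lit 4) (nat_lit 2) (nat_lit 4) (nat_lit 281) (nat_lit 237) (nat_lit 142)) (XT.lf (nat_lit 0) (nat_lit 2913492675517) (nat_lit 152) (nat_lit 706196939004) (nat_lit 0) (nat_lit 2832001522878) (nat_lit 2) (nat_lit 5) (nat_lit 4) (nat_lit 4) (nat_lit 2) (nat_lit 4) (nat_lit 282) (nat_lit 237) (nat_lit 141))))))))
noncomputable def xc85 : XT := (XT.nd (nat_lit 1482) (nat_lit 0) (nat_lit 0) (XT.nd (nat_lit 702) (nat_lit 0) (nat_lit 0) (XT.nd (nat_lit 312) (nat_lit 76) (nat_lit 0) (XT.nd (nat_lit 156) (nat_lit 0) (nat_lit 0) (XT.nd (nat_lit 78) (nat_lit 0) (nat_lit 0) (XT.lf (nat_lit 0) (nat_lit 3429671457921) (nat_lit 152) (nat_lit 627805478334) (nat_lit 0) (nat_lit 3348180289450) (nat_lit 2) (nat_lit 5) (nat_lit 4) (nat_lit 4) (nat_lit 2) (nat_lit 4) (nat_lit 283) (nat_lit 237) (nat_lit 140)) (XT.lf (nat_lit 0) (nat_lit 4023277024497) (nat_lit 152)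 (nat_lit 537655365508) (nat_lit 0) (nat_lit 3941785842260) (nat_lit 2) (nat_lit 5) (nat_lit 4) (nat_lit 4) (nat_lit 2) (nat_lit 4) (nat_lit 284) (nat_lit 237) (nat_lit 139))) (XT.nd (nat_lit 78) (nat_lit 0) (nat_lit 0) (XT.lf (nat_lit 0) (nat_lit 4705923397200) (nat_lit 152) (nat_lit 433982793970) (nat_lit 0) (nat_lit 4624432202992) (nat_lit 2) (nat_lit 5) (nat_lit 4) (nat_lit 4) (nat_lit 2) (nat_lit 4) (nat_lit 285) (nat_lit 237) (nat_lit 138)) (XT.lf (nat_lit 0) (nat_lit 5490966700713) (nat_lit 152) (nat_lit 314759387322) (nat_lit 0) (nat_lit 5409475496096) (nat_lit 2) (nat_lit 5) (nat_lit 4) (nat_lit 4) (nat_lit 2) (nat_lit 4) (nat_lit 286) (nat_lit 237) (nat_lit 137)))) (XT.nd (nat_lit 156) (nat_lit 76) (nat_lit 0) (XT.nd (nat_lit 78) (nat_lit 0) (nat_lit 0) (XT.lf (nat_lit 0) (nat_lit 6393766477931) (nat_lit 152) (nat_lit 177652513693) (nat_lit 0) (nat_lit 6312275264263) (nat_lit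 2) (nat_lit 5) (nat_lit 4) (nat_lit 4) (nat_lit 2) (nat_lit 4) (nat_lit 287) (nat_lit 237) (nat_lit 136)) (XT.lf (nat_lit 0) (nat_lit 7431986202757) (nat_lit 152) (nat_lit 19979647296) (nat_lit 0) (nat_lit 7350494981218) (nat_lit 2) (nat_lit 5) (nat_lit 4) (nat_lit 4) (nat_lit 2) (nat_lit 4) (nat_lit 288) (nat_lit 237) (nat_lit 135))) (XT.nd (nat_lit 78) (nat_lit 0) (nat_lit 0) (XT.lf (nat_lit 0) (nat_lit 177111836181) (nat_lit 76) (nat_lit 8456160857069) (nat_lit 76) (nat_lit 8374669628686) (nat_lit 1) (nat_lit 4) (nat_lit 2) (nat_lit 5) (nat_lit 2) (nat_lit 4) (nat_lit 289) (nat_lit 237) (nat_lit 134)) (XT.nd (nat_lit 78) (nat_lit 0) (nat_lit 0) (XT.lf (nat_lit 0) (nat_lit 406012450318) (nat_lit 76) (nat_lit 9609784081990) (nat_lit 76) (nat_lit 9528292847655) (nat_lit 1) (nat_lit 4) (nat_lit 2) (nat_lit 5) (nat_lit 2) (nat_lit 4) (nat_lit 290) (nat_lit 237) (nat_lit 133)) (XT.lf (nat_lit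 0) (nat_lit 669248128949) (nat_lit 76) (nat_lit 10936450804655) (nat_lit 76) (nat_lit 10854959565145) (nat_lit 1) (nat_lit 4) (nat_lit 2) (nat_lit 5) (nat_lit 2) (nat_lit 4) (nat_lit 291) (nat_lit 237) (nat_lit 132)))))) (XT.nd (nat_lit 312) (nat_lit 0) (nat_lit 0) (XT.nd (nat_lit 156) (nat_lit 0) (nat_lit 0) (XT.nd (nat_lit 78) (nat_lit 0) (nat_lit 0) (XT.lf (nat_lit 0) (nat_lit 971969135351) (nat_lit 76) (nat_lit 12462117547899) (nat_lit 76) (nat_lit 12380626303889) (nat_lit 1) (nat_lit 4) (nat_lit 2) (nat_lit 5) (nat_lit 2) (nat_lit 4) (nat_lit 292) (nat_lit 237) (nat_lit 131)) (XT.lf (nat_lit 0) (nat_lit 1320098271824) (nat_lit 76) (nat_lit 14216634313220) (nat_lit 76) (nat_lit 14135143065297) (nat_lit 1) (nat_lit 4) (nat_lit 2) (nat_lit 5) (nat_lit 2) (nat_lit 4) (nat_lit 293) (nat_lit 237) (nat_lit 130))) (XT.nd (nat_lit 78) (nat_lit 0) (nat_lit 0) (XT.lf (nat_lit 0) (nat_lit 1720446760603)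 (nat_lit 76) (nat_lit 16234328602549) (nat_lit 76) (nat_lit 16152837351222) (nat_lit 1) (nat_lit 4) (nat_lit 2) (nat_lit 5) (nat_lit 2) (nat_lit 4) (nat_lit 294) (nat_lit 237) (nat_lit 129)) (XT.lf (nat_lit 0) (nat_lit 2180847506904) (nat_lit 76) (nat_lit 18554677043284) (nat_lit 76) (nat_lit 18473185788999) (nat_lit 1) (nat_lit 4) (nat_lit 2) (nat_lit 5) (nat_lit 2) (nat_lit 4) (nat_lit 295) (nat_lit 237) (nat_lit 128)))) (XT.nd (nat_lit 234) (nat_lit 0) (nat_lit 0) (XT.nd (nat_lit 78) (nat_lit 0) (nat_lit 0) (XT.lf (nat_lit 0) (nat_lit 2710308351414) (nat_lit 76) (nat_lit 21223077757093) (nat_lit 76) (nat_lit 21141586500234) (nat_lit 1) (nat_lit 4) (nat_lit 2) (nat_lit 5) (nat_lit 2) (nat_lit 4) (nat_lit 296) (nat_lit 237) (nat_lit 127)) (XT.lf (nat_lit 0) (nat_lit 3319188310658) (nat_lit 76) (nat_lit 24291738584028) (nat_lit 76) (nat_lit 24210247324932) (nat_lit 1) (nat_lit 4) (nat_lit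 2) (nat_lit 5) (nat_lit 2) (nat_lit 4) (nat_lit 297) (nat_lit 237) (nat_lit 126))) (XT.nd (nat_lit 78) (nat_lit 0) (nat_lit 0) (XT.lf (nat_lit 0) (nat_lit 4824643978527) (nat_lit 76) (nat_lit 31879002494524) (nat_lit 76) (nat_lit 31797511231791) (nat_lit 1) (nat_lit 4) (nat_lit 2) (nat_lit 5) (nat_lit 2) (nat_lit 4) (nat_lit 299) (nat_lit 237) (nat_lit 124)) (XT.nd (nat_lit 78) (nat_lit 0) (nat_lit 0) (XT.lf (nat_lit 0) (nat_lit 5750674254567) (nat_lit 76) (nat_lit 36546052045899) (nat_lit 76) (nat_lit 36464560781695) (nat_lit 1) (nat_lit 4) (nat_lit 2) (nat_lit 5) (nat_lit 2) (nat_lit 4) (nat_lit 300) (nat_lit 237) (nat_lit 123)) (XT.lf (nat_lit 0) (nat_lit 6815609065184) (nat_lit 76) (nat_lit 41913159033443) (nat_lit 76) (nat_lit 41831667767959) (nat_lit 1) (nat_lit 4) (nat_lit 2) (nat_lit 5) (nat_lit 2) (nat_lit 4) (nat_lit 301) (nat_lit 237) (nat_lit 122))))))) (XT.nd (nat_lit 29874)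 (nat_lit 0) (nat_lit 760) (XT.nd (nat_lit 29484) (nat_lit 0) (nat_lit 1444) (XT.nd (nat_lit 156) (nat_lit 0) (nat_lit 0) (XT.nd (nat_lit 78) (nat_lit 0) (nat_lit 0) (XT.lf (nat_lit 0) (nat_lit 8040284091456) (nat_lit 76) (nat_lit 48085332072128) (nat_lit 76) (nat_lit 48003840805532) (nat_lit 1) (nat_lit 4) (nat_lit 2) (nat_lit 5) (nat_lit 2) (nat_lit 4) (nat_lit 302) (nat_lit 237) (nat_lit 121)) (XT.lf (nat_lit 0) (nat_lit 9448660366505) (nat_lit 76) (nat_lit 55183331069234) (nat_lit 76) (nat_lit 55101839801671) (nat_lit 1) (nat_lit 4) (nat_lit 2) (nat_lit 5) (nat_lit 2) (nat_lit 4) (nat_lit 303) (nat_lit 237) (nat_lit 120))) (XT.nd (nat_lit 29250) (nat_lit 0) (nat_lit 1444) (XT.lf (nat_lit 0) (nat_lit 11068293078322) (nat_lit 76) (nat_lit 63346029918182) (nat_lit 76) (nat_lit 63264538649778) (nat_lit 1) (nat_lit 4) (nat_lit 2) (nat_lit 5) (nat_lit 2) (nat_lit 4) (nat_lit 304) (nat_lit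 237) (nat_lit 119)) (XT.lf (nat_lit 0) (nat_lit 2863860799) (nat_lit 380) (nat_lit 11188227832) (nat_lit 380) (nat_lit 11188227832) (nat_lit 20) (nat_lit 3) (nat_lit 25) (nat_lit 3) (nat_lit 25) (nat_lit 5) (nat_lit 238) (nat_lit 238) (nat_lit 184)))) (XT.nd (nat_lit 156) (nat_lit 0) (nat_lit 76) (XT.nd (nat_lit 78) (nat_lit 0) (nat_lit 76) (XT.lf (nat_lit 76) (nat_lit 751401169) (nat_lit 0) (nat_lit 5460167068) (nat_lit 380) (nat_lit 48046854603) (nat_lit 21) (nat_lit 5) (nat_lit 20) (nat_lit 3) (nat_lit 25) (nat_lit 5) (nat_lit 239) (nat_lit 238) (nat_lit 183)) (XT.lf (nat_lit 0) (nat_lit 8841397685) (nat_lit 304) (nat_lit 29475411886) (nat_lit 380) (nat_lit 19975081705) (nat_lit 21) (nat_lit 5) (nat_lit 25) (nat_lit 5) (nat_lit 26) (nat_lit 5) (nat_lit 240) (nat_lit 238) (nat_lit 182))) (XT.nd (nat_lit 78) (nat_lit 0) (nat_lit 76) (XT.lf (nat_lit 0) (nat_lit 12122088768) (nat_lit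 304) (nat_lit 2101969562) (nat_lit 380) (nat_lit 48667881746) (nat_lit 21) (nat_lit 5) (nat_lit 25) (nat_lit 5) (nat_lit 26) (nat_lit 5) (nat_lit 241) (nat_lit 238) (nat_lit 181)) (XT.nd (nat_lit 78) (nat_lit 0) (nat_lit 0) (XT.lf (nat_lit 0) (nat_lit 17848854838) (nat_lit 304) (nat_lit 36358392567) (nat_lit 76) (nat_lit 13681668902) (nat_lit 22) (nat_lit 5) (nat_lit 26) (nat_lit 5) (nat_lit 23) (nat_lit 5) (nat_lit 242) (nat_lit 238) (nat_lit 180)) (XT.lf (nat_lit 0) (nat_lit 25224260071) (nat_lit 304) (nat_lit 3860267236) (nat_lit 76) (nat_lit 44432481776) (nat_lit 22) (nat_lit 5) (nat_lit 26) (nat_lit 5) (nat_lit 23) (nat_lit 5) (nat_lit 243) (nat_lit 238) (nat_lit 179)))))) (XT.nd (nat_lit 312) (nat_lit 380) (nat_lit 0) (XT.nd (nat_lit 156) (nat_lit 152) (nat_lit 0) (XT.nd (nat_lit 78) (nat_lit 0) (nat_lit 0) (XT.lf (nat_lit 0) (nat_lit 35291232638) (nat_lit 380) (nat_lit 43040805652)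 (nat_lit 76) (nat_lit 1419500958) (nat_lit 18) (nat_lit 5) (nat_lit 23) (nat_lit 5) (nat_lit 19) (nat_lit 5) (nat_lit 244) (nat_lit 238) (nat_lit 178)) (XT.lf (nat_lit 0) (nat_lit 48462387474) (nat_lit 380) (nat_lit 4487058369) (nat_lit 76) (nat_lit 33732693031) (nat_lit 18) (nat_lit 5) (nat_lit 23) (nat_lit 5) (nat_lit 19) (nat_lit 5) (nat_lit 245) (nat_lit 238) (nat_lit 177))) (XT.nd (nat_lit 78) (nat_lit 0) (nat_lit 0) (XT.lf (nat_lit 0) (nat_lit 43741564984) (nat_lit 152) (nat_lit 21676950528) (nat_lit 228) (nat_lit 28962426978) (nat_lit 16) (nat_lit 5) (nat_lit 18) (nat_lit 5) (nat_lit 19) (nat_lit 5) (nat_lit 246) (nat_lit 238) (nat_lit 176)) (XT.lf (nat_lit 0) (nat_lit 85753548635) (nat_lit 228) (nat_lit 4095868543) (nat_lit 76) (nat_lit 13259834445) (nat_lit 16) (nat_lit 5) (nat_lit 19) (nat_lit 5) (nat_lit 17) (nat_lit 4) (nat_lit 247) (nat_lit 238) (nat_lit 175)))) (XT.nd (nat_lit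 156) (nat_lit 228) (nat_lit 0) (XT.nd (nat_lit 78) (nat_lit 76) (nat_lit 0) (XT.lf (nat_lit 0) (nat_lit 53124233956) (nat_lit 76) (nat_lit 59245030941) (nat_lit 152) (nat_lit 292984842) (nat_lit 15) (nat_lit 5) (nat_lit 16) (nat_lit 5) (nat_lit 17) (nat_lit 4) (nat_lit 248) (nat_lit 238) (nat_lit 174)) (XT.lf (nat_lit 0) (nat_lit 17831099810) (nat_lit 152) (nat_lit 5041223165) (nat_lit 76) (nat_lit 100622407101) (nat_lit 14) (nat_lit 5) (nat_lit 16) (nat_lit 5) (nat_lit 15) (nat_lit 5) (nat_lit 249) (nat_lit 238) (nat_lit 173))) (XT.nd (nat_lit 78) (nat_lit 76) (nat_lit 0) (XT.lf (nat_lit 0) (nat_lit 42171586140) (nat_lit 228) (nat_lit 73222985721) (nat_lit 76) (nat_lit 20026254589) (nat_lit 12) (nat_lit 5) (nat_lit 15) (nat_lit 5) (nat_lit 13) (nat_lit 4) (nat_lit 250) (nat_lit 238) (nat_lit 172)) (XT.nd (nat_lit 78) (nat_lit 76) (nat_lit 0) (XT.lf (nat_lit 0) (nat_lit 71527114582)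 (nat_lit 228) (nat_lit 10110707891) (nat_lit 76) (nat_lit 67293423343) (nat_lit 12) (nat_lit 5) (nat_lit 15) (nat_lit 5) (nat_lit 13) (nat_lit 4) (nat_lit 251) (nat_lit 238) (nat_lit 171)) (XT.lf (nat_lit 0) (nat_lit 68571350363) (nat_lit 76) (nat_lit 39552923091) (nat_lit 152) (nat_lit 55918212856) (nat_lit 11) (nat_lit 5) (nat_lit 12) (nat_lit 5) (nat_lit 13) (nat_lit 4) (nat_lit 252) (nat_lit 238) (nat_lit 170))))))))
noncomputable def xc86 : XT := (XT.nd (nat_lit 1404) (nat_lit 76) (nat_lit 0) (XT.nd (nat_lit 702) (nat_lit 152) (nat_lit 0) (XT.nd (nat_lit 312) (nat_lit 228) (nat_lit 0) (XT.nd (nat_lit 156) (nat_lit 76) (nat_lit 0) (XT.nd (nat_lit 78) (nat_lit 152) (nat_lit 0) (XT.lf (nat_lit 0) (nat_lit 151129881955) (nat_lit 152) (nat_lit 21542326427) (nat_lit 0) (nat_lit 8610376080) (nat_lit 11) (nat_lit 5) (nat_lit 13) (nat_lit 4) (nat_lit 11) (nat_lit 4) (nat_lit 253) (nat_lit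 238) (nat_lit 169)) (XT.lf (nat_lit 0) (nat_lit 4429238471) (nat_lit 152) (nat_lit 132997848599) (nat_lit 76) (nat_lit 62949092088) (nat_lit 9) (nat_lit 5) (nat_lit 11) (nat_lit 5) (nat_lit 10) (nat_lit 4) (nat_lit 254) (nat_lit 238) (nat_lit 168))) (XT.nd (nat_lit 78) (nat_lit 76) (nat_lit 0) (XT.lf (nat_lit 0) (nat_lit 42290211022) (nat_lit 152) (nat_lit 51597805821) (nat_lit 76) (nat_lit 128053601288) (nat_lit 9) (nat_lit 5) (nat_lit 11) (nat_lit 5) (nat_lit 10) (nat_lit 4) (nat_lit 255) (nat_lit 238) (nat_lit 167)) (XT.lf (nat_lit 0) (nat_lit 46116469174) (nat_lit 76) (nat_lit 41622665792) (nat_lit 152) (nat_lit 158716418846) (nat_lit 8) (nat_lit 5) (nat_lit 9) (nat_lit 5) (nat_lit 10) (nat_lit 4) (nat_lit 256) (nat_lit 238) (nat_lit 166)))) (XT.nd (nat_lit 156) (nat_lit 228) (nat_lit 0) (XT.nd (nat_lit 78) (nat_lit 0) (nat_lit 0) (XT.lf (nat_lit 0) (nat_lit 143595555663) (nat_lit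 152) (nat_lit 110850392872) (nat_lit 0) (nat_lit 19662109055) (nat_lit 8) (nat_lit 5) (nat_lit 10) (nat_lit 4) (nat_lit 8) (nat_lit 4) (nat_lit 257) (nat_lit 238) (nat_lit 165)) (XT.lf (nat_lit 0) (nat_lit 209811813450) (nat_lit 152) (nat_lit 9921651141) (nat_lit 0) (nat_lit 85877767526) (nat_lit 8) (nat_lit 5) (nat_lit 10) (nat_lit 4) (nat_lit 8) (nat_lit 4) (nat_lit 258) (nat_lit 238) (nat_lit 164))) (XT.nd (nat_lit 78) (nat_lit 152) (nat_lit 0) (XT.lf (nat_lit 0) (nat_lit 116518633666) (nat_lit 76) (nat_lit 174266092451) (nat_lit 76) (nat_lit 50331525383) (nat_lit 7) (nat_lit 4) (nat_lit 8) (nat_lit 5) (nat_lit 8) (nat_lit 4) (nat_lit 259) (nat_lit 238) (nat_lit 163)) (XT.nd (nat_lit 78) (nat_lit 76) (nat_lit 0) (XT.lf (nat_lit 0) (nat_lit 2325128732) (nat_lit 152) (nat_lit 118935993462) (nat_lit 76) (nat_lit 260592335547) (nat_lit 6) (nat_lit 5) (nat_lit 8) (nat_lit 5) (nat_lit 7)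 (nat_lit 4) (nat_lit 260) (nat_lit 238) (nat_lit 162)) (XT.lf (nat_lit 0) (nat_lit 194522063) (nat_lit 76) (nat_lit 57540332057) (nat_lit 152) (nat_lit 370605746234) (nat_lit 5) (nat_lit 5) (nat_lit 6) (nat_lit 5) (nat_lit 7) (nat_lit 4) (nat_lit 261) (nat_lit 238) (nat_lit 161)))))) (XT.nd (nat_lit 312) (nat_lit 76) (nat_lit 0) (XT.nd (nat_lit 156) (nat_lit 76) (nat_lit 0) (XT.nd (nat_lit 78) (nat_lit 0) (nat_lit 0) (XT.lf (nat_lit 0) (nat_lit 128620418512) (nat_lit 152) (nat_lit 331255544382) (nat_lit 0) (nat_lit 20850195071) (nat_lit 5) (nat_lit 5) (nat_lit 7) (nat_lit 4) (nat_lit 5) (nat_lit 4) (nat_lit 262) (nat_lit 238) (nat_lit 160)) (XT.lf (nat_lit 0) (nat_lit 212878414031) (nat_lit 152) (nat_lit 222572264782) (nat_lit 0) (nat_lit 105107931489) (nat_lit 5) (nat_lit 5) (nat_lit 7) (nat_lit 4) (nat_lit 5) (nat_lit 4) (nat_lit 263) (nat_lit 238) (nat_lit 159))) (XT.nd (nat_lit 78)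 (nat_lit 76) (nat_lit 0) (XT.lf (nat_lit 0) (nat_lit 309774744230) (nat_lit 152) (nat_lit 97587205052) (nat_lit 0) (nat_lit 202004036383) (nat_lit 5) (nat_lit 5) (nat_lit 7) (nat_lit 4) (nat_lit 5) (nat_lit 4) (nat_lit 264) (nat_lit 238) (nat_lit 158)) (XT.lf (nat_lit 0) (nat_lit 50654619149) (nat_lit 76) (nat_lit 372648087482) (nat_lit 76) (nat_lit 264877183718) (nat_lit 4) (nat_lit 4) (nat_lit 5) (nat_lit 5) (nat_lit 5) (nat_lit 4) (nat_lit 265) (nat_lit 238) (nat_lit 157)))) (XT.nd (nat_lit 156) (nat_lit 76) (nat_lit 0) (XT.nd (nat_lit 78) (nat_lit 0) (nat_lit 0) (XT.lf (nat_lit 0) (nat_lit 232099597263) (nat_lit 76) (nat_lit 326861115295) (nat_lit 76) (nat_lit 219090041167) (nat_lit 4) (nat_lit 4) (nat_lit 5) (nat_lit 5) (nat_lit 5) (nat_lit 4) (nat_lit 266) (nat_lit 238) (nat_lit 156)) (XT.lf (nat_lit 0) (nat_lit 440760808327) (nat_lit 76) (nat_lit 274206350010) (nat_lit 76) (nat_lit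 166435127741) (nat_lit 4) (nat_lit 4) (nat_lit 5) (nat_lit 5) (nat_lit 5) (nat_lit 4) (nat_lit 267) (nat_lit 238) (nat_lit 155))) (XT.nd (nat_lit 78) (nat_lit 76) (nat_lit 0) (XT.lf (nat_lit 0) (nat_lit 680720754298) (nat_lit 76) (nat_lit 213653589698) (nat_lit 76) (nat_lit 105882238610) (nat_lit 4) (nat_lit 4) (nat_lit 5) (nat_lit 5) (nat_lit 5) (nat_lit 4) (nat_lit 268) (nat_lit 238) (nat_lit 154)) (XT.nd (nat_lit 78) (nat_lit 76) (nat_lit 0) (XT.lf (nat_lit 0) (nat_lit 956674303683) (nat_lit 76) (nat_lit 144018106441) (nat_lit 76) (nat_lit 36246643337) (nat_lit 4) (nat_lit 4) (nat_lit 5) (nat_lit 5) (nat_lit 5) (nat_lit 4) (nat_lit 269) (nat_lit 238) (nat_lit 153)) (XT.lf (nat_lit 0) (nat_lit 39931679506) (nat_lit 152) (nat_lit 21918449571) (nat_lit 76) (nat_lit 1232001530367) (nat_lit 3) (nat_lit 5) (nat_lit 5) (nat_lit 5) (nat_lit 4) (nat_lit 4) (nat_lit 270) (nat_lit 238) (nat_lit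 152))))))) (XT.nd (nat_lit 702) (nat_lit 0) (nat_lit 0) (XT.nd (nat_lit 312) (nat_lit 0) (nat_lit 0) (XT.nd (nat_lit 156) (nat_lit 0) (nat_lit 0) (XT.nd (nat_lit 78) (nat_lit 0) (nat_lit 0) (XT.lf (nat_lit 0) (nat_lit 132804895539) (nat_lit 152) (nat_lit 1300800068310) (nat_lit 0) (nat_lit 39090421443) (nat_lit 2) (nat_lit 5) (nat_lit 4) (nat_lit 4) (nat_lit 2) (nat_lit 4) (nat_lit 271) (nat_lit 238) (nat_lit 151)) (XT.lf (nat_lit 0) (nat_lit 243754479863) (nat_lit 152) (nat_lit 1283949440688) (nat_lit 0) (nat_lit 150039941721) (nat_lit 2) (nat_lit 5) (nat_lit 4) (nat_lit 4) (nat_lit 2) (nat_lit 4) (nat_lit 272) (nat_lit 238) (nat_lit 150))) (XT.nd (nat_lit 78) (nat_lit 0) (nat_lit 0) (XT.lf (nat_lit 0) (nat_lit 371346367570) (nat_lit 152) (nat_lit 1264571489750) (nat_lit 0) (nat_lit 277631773737) (nat_lit 2) (nat_lit 5) (nat_lit 4) (nat_lit 4) (nat_lit 2) (nat_lit 4) (nat_lit 273) (nat_lit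 238) (nat_lit 149)) (XT.lf (nat_lit 0) (nat_lit 518076921681) (nat_lit 152) (nat_lit 1242287081675) (nat_lit 0) (nat_lit 424362279420) (nat_lit 2) (nat_lit 5) (nat_lit 4) (nat_lit 4) (nat_lit 2) (nat_lit 4) (nat_lit 274) (nat_lit 238) (nat_lit 148)))) (XT.nd (nat_lit 156) (nat_lit 0) (nat_lit 0) (XT.nd (nat_lit 78) (nat_lit 0) (nat_lit 0) (XT.lf (nat_lit 0) (nat_lit 686816957385) (nat_lit 152) (nat_lit 1216660217172) (nat_lit 0) (nat_lit 593102273013) (nat_lit 2) (nat_lit 5) (nat_lit 4) (nat_lit 4) (nat_lit 2) (nat_lit 4) (nat_lit 275) (nat_lit 238) (nat_lit 147)) (XT.lf (nat_lit 0) (nat_lit 880867910164) (nat_lit 152) (nat_lit 1187189501069) (nat_lit 0) (nat_lit 787153189173) (nat_lit 2) (nat_lit 5) (nat_lit 4) (nat_lit 4) (nat_lit 2) (nat_lit 4) (nat_lit 276) (nat_lit 238) (nat_lit 146))) (XT.nd (nat_lit 78) (nat_lit 0) (nat_lit 0) (XT.lf (nat_lit 0) (nat_lit 1104026429092) (nat_lit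 152) (nat_lit 1153298332396) (nat_lit 0) (nat_lit 1010311676259) (nat_lit 2) (nat_lit 5) (nat_lit 4) (nat_lit 4) (nat_lit 2) (nat_lit 4) (nat_lit 277) (nat_lit 238) (nat_lit 145)) (XT.nd (nat_lit 78) (nat_lit 0) (nat_lit 0) (XT.lf (nat_lit 0) (nat_lit 1360658659107) (nat_lit 152) (nat_lit 1114323623072) (nat_lit 0) (nat_lit 1266943878585) (nat_lit 2) (nat_lit 5) (nat_lit 4) (nat_lit 4) (nat_lit 2) (nat_lit 4) (nat_lit 278) (nat_lit 238) (nat_lit 144)) (XT.lf (nat_lit 0) (nat_lit 1655785665577) (nat_lit 152) (nat_lit 1069502824436) (nat_lit 0) (nat_lit 1562070860978) (nat_lit 2) (nat_lit 5) (nat_lit 4) (nat_lit 4) (nat_lit 2) (nat_lit 4) (nat_lit 279) (nat_lit 238) (nat_lit 143)))))) (XT.nd (nat_lit 312) (nat_lit 0) (nat_lit 0) (XT.nd (nat_lit 156) (nat_lit 0) (nat_lit 0) (XT.nd (nat_lit 78) (nat_lit 0) (nat_lit 0) (XT.lf (nat_lit 0) (nat_lit 1995181672542) (nat_lit 152) (nat_lit 1017959007819)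 (nat_lit 0) (nat_lit 1901466847007) (nat_lit 2) (nat_lit 5) (nat_lit 4) (nat_lit 4) (nat_lit 2) (nat_lit 4) (nat_lit 280) (nat_lit 238) (nat_lit 142)) (XT.lf (nat_lit 0) (nat_lit 2385487036661) (nat_lit 152) (nat_lit 958683707243) (nat_lit 0) (nat_lit 2291772192919) (nat_lit 2) (nat_lit 5) (nat_lit 4) (nat_lit 4) (nat_lit 2) (nat_lit 4) (nat_lit 281) (nat_lit 238) (nat_lit 141))) (XT.nd (nat_lit 78) (nat_lit 0) (nat_lit 0) (XT.lf (nat_lit 0) (nat_lit 2834338167231) (nat_lit 152) (nat_lit 890517188566) (nat_lit 0) (nat_lit 2740623307658) (nat_lit 2) (nat_lit 5) (nat_lit 4) (nat_lit 4) (nat_lit 2) (nat_lit 4) (nat_lit 282) (nat_lit 238) (nat_lit 140)) (XT.lf (nat_lit 0) (nat_lit 3350516934198) (nat_lit 152) (nat_lit 812125759033) (nat_lit 0) (nat_lit 3256802060859) (nat_lit 2) (nat_lit 5) (nat_lit 4) (nat_lit 4) (nat_lit 2) (nat_lit 4) (nat_lit 283) (nat_lit 238) (nat_lit 139)))) (XT.nd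 (nat_lit 156) (nat_lit 0) (nat_lit 0) (XT.nd (nat_lit 78) (nat_lit 0) (nat_lit 0) (XT.lf (nat_lit 0) (nat_lit 3944122487351) (nat_lit 152) (nat_lit 721975673283) (nat_lit 0) (nat_lit 3850407602042) (nat_lit 2) (nat_lit 5) (nat_lit 4) (nat_lit 4) (nat_lit 2) (nat_lit 4) (nat_lit 284) (nat_lit 238) (nat_lit 138)) (XT.lf (nat_lit 0) (nat_lit 4626768848382) (nat_lit 152) (nat_lit 618303125289) (nat_lit 0) (nat_lit 4533053952663) (nat_lit 2) (nat_lit 5) (nat_lit 4) (nat_lit 4) (nat_lit 2) (nat_lit 4) (nat_lit 285) (nat_lit 238) (nat_lit 137))) (XT.nd (nat_lit 78) (nat_lit 0) (nat_lit 0) (XT.lf (nat_lit 0) (nat_lit 5411812141745) (nat_lit 152) (nat_lit 499079739114) (nat_lit 0) (nat_lit 5318097236975) (nat_lit 2) (nat_lit 5) (nat_lit 4) (nat_lit 4) (nat_lit 2) (nat_lit 4) (nat_lit 286) (nat_lit 238) (nat_lit 136)) (XT.nd (nat_lit 78) (nat_lit 0) (nat_lit 0) (XT.lf (nat_lit 0) (nat_lit 6314611910138)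 (nat_lit 152) (nat_lit 361972883288) (nat_lit 0) (nat_lit 6220896997497) (nat_lit 2) (nat_lit 5) (nat_lit 4) (nat_lit 4) (nat_lit 2) (nat_lit 4) (nat_lit 287) (nat_lit 238) (nat_lit 135)) (XT.lf (nat_lit 0) (nat_lit 7352831627289) (nat_lit 152) (nat_lit 204300032372) (nat_lit 0) (nat_lit 7259116707804) (nat_lit 2) (nat_lit 5) (nat_lit 4) (nat_lit 4) (nat_lit 2) (nat_lit 4) (nat_lit 288) (nat_lit 238) (nat_lit 134))))))))
noncomputable def xc87 : XT := (XT.nd (nat_lit 30810) (nat_lit 0) (nat_lit 456) (XT.nd (nat_lit 780) (nat_lit 0) (nat_lit 0) (XT.nd (nat_lit 312) (nat_lit 0) (nat_lit 0) (XT.nd (nat_lit 156) (nat_lit 0) (nat_lit 0) (XT.nd (nat_lit 78) (nat_lit 76) (nat_lit 0) (XT.lf (nat_lit 0) (nat_lit 8546784287664) (nat_lit 152) (nat_lit 22976282760) (nat_lit 0) (nat_lit 8453069362228) (nat_lit 2) (nat_lit 5) (nat_lit 4) (nat_lit 4) (nat_lit 2) (nat_lit 4) (nat_lit 289) (nat_lit 238)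 (nat_lit 133)) (XT.lf (nat_lit 0) (nat_lit 203678909074) (nat_lit 76) (nat_lit 9724584834823) (nat_lit 76) (nat_lit 9630869904211) (nat_lit 1) (nat_lit 4) (nat_lit 2) (nat_lit 5) (nat_lit 2) (nat_lit 4) (nat_lit 290) (nat_lit 238) (nat_lit 132))) (XT.nd (nat_lit 78) (nat_lit 0) (nat_lit 0) (XT.lf (nat_lit 0) (nat_lit 466914576532) (nat_lit 76) (nat_lit 11051251563153) (nat_lit 76) (nat_lit 10957536628041) (nat_lit 1) (nat_lit 4) (nat_lit 2) (nat_lit 5) (nat_lit 2) (nat_lit 4) (nat_lit 291) (nat_lit 238) (nat_lit 131)) (XT.lf (nat_lit 0) (nat_lit 769635573218) (nat_lit 76) (nat_lit 12576918311323) (nat_lit 76) (nat_lit 12483203372297) (nat_lit 1) (nat_lit 4) (nat_lit 2) (nat_lit 5) (nat_lit 2) (nat_lit 4) (nat_lit 292) (nat_lit 238) (nat_lit 130)))) (XT.nd (nat_lit 156) (nat_lit 0) (nat_lit 0) (XT.nd (nat_lit 78) (nat_lit 0) (nat_lit 0) (XT.lf (nat_lit 0) (nat_lit 1117764701242) (nat_lit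 76) (nat_lit 14331435080927) (nat_lit 76) (nat_lit 14237720138499) (nat_lit 1) (nat_lit 4) (nat_lit 2) (nat_lit 5) (nat_lit 2) (nat_lit 4) (nat_lit 293) (nat_lit 238) (nat_lit 129)) (XT.lf (nat_lit 0) (nat_lit 1518113182675) (nat_lit 76) (nat_lit 16349129373980) (nat_lit 76) (nat_lit 16255414428593) (nat_lit 1) (nat_lit 4) (nat_lit 2) (nat_lit 5) (nat_lit 2) (nat_lit 4) (nat_lit 294) (nat_lit 238) (nat_lit 128))) (XT.nd (nat_lit 78) (nat_lit 0) (nat_lit 0) (XT.lf (nat_lit 0) (nat_lit 1978513922587) (nat_lit 76) (nat_lit 18669477817954) (nat_lit 76) (nat_lit 18575762869994) (nat_lit 1) (nat_lit 4) (nat_lit 2) (nat_lit 5) (nat_lit 2) (nat_lit 4) (nat_lit 295) (nat_lit 238) (nat_lit 127)) (XT.nd (nat_lit 156) (nat_lit 0) (nat_lit 0) (XT.lf (nat_lit 0) (nat_lit 2507974761542) (nat_lit 76) (nat_lit 21337878534579) (nat_lit 76) (nat_lit 21244163584381) (nat_lit 1) (nat_lit 4) (nat_lit 2) (nat_lit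 5) (nat_lit 2) (nat_lit 4) (nat_lit 296) (nat_lit 238) (nat_lit 126)) (XT.lf (nat_lit 0) (nat_lit 3817066654499) (nat_lit 76) (nat_lit 27935499322333) (nat_lit 76) (nat_lit 27841784368499) (nat_lit 1) (nat_lit 4) (nat_lit 2) (nat_lit 5) (nat_lit 2) (nat_lit 4) (nat_lit 298) (nat_lit 238) (nat_lit 124)))))) (XT.nd (nat_lit 312) (nat_lit 0) (nat_lit 0) (XT.nd (nat_lit 156) (nat_lit 0) (nat_lit 0) (XT.nd (nat_lit 78) (nat_lit 0) (nat_lit 0) (XT.lf (nat_lit 0) (nat_lit 4622310375971) (nat_lit 76) (nat_lit 31993803278440) (nat_lit 76) (nat_lit 31900088323135) (nat_lit 1) (nat_lit 4) (nat_lit 2) (nat_lit 5) (nat_lit 2) (nat_lit 4) (nat_lit 299) (nat_lit 238) (nat_lit 123)) (XT.lf (nat_lit 0) (nat_lit 5548340648835) (nat_lit 76) (nat_lit 36660852831426) (nat_lit 76) (nat_lit 36567137874841) (nat_lit 1) (nat_lit 4) (nat_lit 2) (nat_lit 5) (nat_lit 2) (nat_lit 4) (nat_lit 300) (nat_lit 238) (nat_lit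 122))) (XT.nd (nat_lit 78) (nat_lit 0) (nat_lit 0) (XT.lf (nat_lit 0) (nat_lit 6613275456690) (nat_lit 76) (nat_lit 42027959820369) (nat_lit 76) (nat_lit 41934244862672) (nat_lit 1) (nat_lit 4) (nat_lit 2) (nat_lit 5) (nat_lit 2) (nat_lit 4) (nat_lit 301) (nat_lit 238) (nat_lit 121)) (XT.lf (nat_lit 0) (nat_lit 7837950480560) (nat_lit 76) (nat_lit 48200132860272) (nat_lit 76) (nat_lit 48106417901607) (nat_lit 1) (nat_lit 4) (nat_lit 2) (nat_lit 5) (nat_lit 2) (nat_lit 4) (nat_lit 302) (nat_lit 238) (nat_lit 120)))) (XT.nd (nat_lit 29484) (nat_lit 0) (nat_lit 1444) (XT.nd (nat_lit 29406) (nat_lit 0) (nat_lit 1444) (XT.lf (nat_lit 0) (nat_lit 9246326753521) (nat_lit 76) (nat_lit 55298131858437) (nat_lit 76) (nat_lit 55204416898931) (nat_lit 1) (nat_lit 4) (nat_lit 2) (nat_lit 5) (nat_lit 2) (nat_lit 4) (nat_lit 303) (nat_lit 238) (nat_lit 119)) (XT.lf (nat_lit 0) (nat_lit 3315634777) (nat_lit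 380) (nat_lit 12853643680) (nat_lit 380) (nat_lit 12853643680) (nat_lit 20) (nat_lit 3) (nat_lit 25) (nat_lit 3) (nat_lit 25) (nat_lit 5) (nat_lit 239) (nat_lit 239) (nat_lit 182))) (XT.nd (nat_lit 78) (nat_lit 0) (nat_lit 76) (XT.lf (nat_lit 76) (nat_lit 888582697) (nat_lit 0) (nat_lit 6294333836) (nat_lit 380) (nat_lit 55208132006) (nat_lit 21) (nat_lit 5) (nat_lit 20) (nat_lit 3) (nat_lit 25) (nat_lit 5) (nat_lit 240) (nat_lit 239) (nat_lit 181)) (XT.nd (nat_lit 78) (nat_lit 0) (nat_lit 0) (XT.lf (nat_lit 0) (nat_lit 10201508271) (nat_lit 304) (nat_lit 33869561873) (nat_lit 380) (nat_lit 22959349450) (nat_lit 21) (nat_lit 5) (nat_lit 25) (nat_lit 5) (nat_lit 26) (nat_lit 5) (nat_lit 241) (nat_lit 239) (nat_lit 180)) (XT.lf (nat_lit 0) (nat_lit 13969881156) (nat_lit 304) (nat_lit 2393646043) (nat_lit 380) (nat_lit 55957633998) (nat_lit 21) (nat_lit 5) (nat_lit 25) (nat_lit 5) (nat_lit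 26) (nat_lit 5) (nat_lit 242) (nat_lit 239) (nat_lit 179))))))) (XT.nd (nat_lit 702) (nat_lit 380) (nat_lit 0) (XT.nd (nat_lit 312) (nat_lit 456) (nat_lit 0) (XT.nd (nat_lit 156) (nat_lit 304) (nat_lit 0) (XT.nd (nat_lit 78) (nat_lit 0) (nat_lit 0) (XT.lf (nat_lit 0) (nat_lit 20552584047) (nat_lit 304) (nat_lit 41785325686) (nat_lit 76) (nat_lit 15730255152) (nat_lit 22) (nat_lit 5) (nat_lit 26) (nat_lit 5) (nat_lit 23) (nat_lit 5) (nat_lit 243) (nat_lit 239) (nat_lit 178)) (XT.lf (nat_lit 0) (nat_lit 29030856458) (nat_lit 304) (nat_lit 4415980568) (nat_lit 76) (nat_lit 51094167881) (nat_lit 22) (nat_lit 5) (nat_lit 26) (nat_lit 5) (nat_lit 23) (nat_lit 5) (nat_lit 244) (nat_lit 239) (nat_lit 177))) (XT.nd (nat_lit 78) (nat_lit 0) (nat_lit 0) (XT.lf (nat_lit 0) (nat_lit 40605859681) (nat_lit 380) (nat_lit 49471487185) (nat_lit 76) (nat_lit 1633684615) (nat_lit 18) (nat_lit 5) (nat_lit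 23) (nat_lit 5) (nat_lit 19) (nat_lit 5) (nat_lit 245) (nat_lit 239) (nat_lit 176)) (XT.lf (nat_lit 0) (nat_lit 55749956158) (nat_lit 380) (nat_lit 5137995981) (nat_lit 76) (nat_lit 38793691346) (nat_lit 18) (nat_lit 5) (nat_lit 23) (nat_lit 5) (nat_lit 19) (nat_lit 5) (nat_lit 246) (nat_lit 239) (nat_lit 175)))) (XT.nd (nat_lit 156) (nat_lit 304) (nat_lit 0) (XT.nd (nat_lit 78) (nat_lit 0) (nat_lit 0) (XT.lf (nat_lit 0) (nat_lit 50323915368) (nat_lit 152) (nat_lit 24924087096) (nat_lit 228) (nat_lit 33287501358) (nat_lit 16) (nat_lit 5) (nat_lit 18) (nat_lit 5) (nat_lit 19) (nat_lit 5) (nat_lit 247) (nat_lit 239) (nat_lit 174)) (XT.lf (nat_lit 0) (nat_lit 98631269686) (nat_lit 228) (nat_lit 4689802535) (nat_lit 76) (nat_lit 15252299836) (nat_lit 16) (nat_lit 5) (nat_lit 19) (nat_lit 5) (nat_lit 17) (nat_lit 4) (nat_lit 248) (nat_lit 239) (nat_lit 173))) (XT.nd (nat_lit 78) (nat_lit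 228) (nat_lit 0) (XT.lf (nat_lit 0) (nat_lit 61112385962) (nat_lit 76) (nat_lit 68125849653) (nat_lit 152) (nat_lit 321258787) (nat_lit 15) (nat_lit 5) (nat_lit 16) (nat_lit 5) (nat_lit 17) (nat_lit 4) (nat_lit 249) (nat_lit 239) (nat_lit 172)) (XT.nd (nat_lit 78) (nat_lit 152) (nat_lit 0) (XT.lf (nat_lit 0) (nat_lit 20518180776) (nat_lit 152) (nat_lit 5779179950) (nat_lit 76) (nat_lit 115719674383) (nat_lit 14) (nat_lit 5) (nat_lit 16) (nat_lit 5) (nat_lit 15) (nat_lit 5) (nat_lit 250) (nat_lit 239) (nat_lit 171)) (XT.lf (nat_lit 0) (nat_lit 48509084532) (nat_lit 228) (nat_lit 84187514775) (nat_lit 76) (nat_lit 23035550450) (nat_lit 12) (nat_lit 5) (nat_lit 15) (nat_lit 5) (nat_lit 13) (nat_lit 4) (nat_lit 251) (nat_lit 239) (nat_lit 170)))))) (XT.nd (nat_lit 312) (nat_lit 152) (nat_lit 0) (XT.nd (nat_lit 156) (nat_lit 152) (nat_lit 0) (XT.nd (nat_lit 78) (nat_lit 76) (nat_lit 0) (XT.lf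 (nat_lit 0) (nat_lit 82266408265) (nat_lit 228) (nat_lit 11610862940) (nat_lit 76) (nat_lit 77392095691) (nat_lit 12) (nat_lit 5) (nat_lit 15) (nat_lit 5) (nat_lit 13) (nat_lit 4) (nat_lit 252) (nat_lit 239) (nat_lit 169)) (XT.lf (nat_lit 0) (nat_lit 78872756273) (nat_lit 76) (nat_lit 45479701046) (nat_lit 152) (nat_lit 64294942842) (nat_lit 11) (nat_lit 5) (nat_lit 12) (nat_lit 5) (nat_lit 13) (nat_lit 4) (nat_lit 253) (nat_lit 239) (nat_lit 168))) (XT.nd (nat_lit 78) (nat_lit 152) (nat_lit 0) (XT.lf (nat_lit 0) (nat_lit 173807884197) (nat_lit 152) (nat_lit 24758973341) (nat_lit 0) (nat_lit 9906812542) (nat_lit 11) (nat_lit 5) (nat_lit 13) (nat_lit 4) (nat_lit 11) (nat_lit 4) (nat_lit 254) (nat_lit 239) (nat_lit 167)) (XT.lf (nat_lit 0) (nat_lit 5102013524) (nat_lit 152) (nat_lit 152932654060) (nat_lit 76) (nat_lit 72396661863) (nat_lit 9) (nat_lit 5) (nat_lit 11) (nat_lit 5) (nat_lit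 10) (nat_lit 4) (nat_lit 255) (nat_lit 239) (nat_lit 166)))) (XT.nd (nat_lit 156) (nat_lit 76) (nat_lit 0) (XT.nd (nat_lit 78) (nat_lit 76) (nat_lit 0) (XT.lf (nat_lit 0) (nat_lit 48641037704) (nat_lit 152) (nat_lit 59324544669) (nat_lit 76) (nat_lit 147266168404) (nat_lit 9) (nat_lit 5) (nat_lit 11) (nat_lit 5) (nat_lit 10) (nat_lit 4) (nat_lit 256) (nat_lit 239) (nat_lit 165)) (XT.lf (nat_lit 0) (nat_lit 53046283756) (nat_lit 76) (nat_lit 47860576105) (nat_lit 152) (nat_lit 182515985069) (nat_lit 8) (nat_lit 5) (nat_lit 9) (nat_lit 5) (nat_lit 10) (nat_lit 4) (nat_lit 257) (nat_lit 239) (nat_lit 164))) (XT.nd (nat_lit 78) (nat_lit 76) (nat_lit 0) (XT.lf (nat_lit 0) (nat_lit 165141047240) (nat_lit 152) (nat_lit 127466509326) (nat_lit 0) (nat_lit 22615773968) (nat_lit 8) (nat_lit 5) (nat_lit 10) (nat_lit 4) (nat_lit 8) (nat_lit 4) (nat_lit 258) (nat_lit 239) (nat_lit 163)) (XT.nd (nat_lit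 78) (nat_lit 76) (nat_lit 0) (XT.lf (nat_lit 0) (nat_lit 241288940447) (nat_lit 152) (nat_lit 11399948832) (nat_lit 0) (nat_lit 98763214006) (nat_lit 8) (nat_lit 5) (nat_lit 10) (nat_lit 4) (nat_lit 8) (nat_lit 4) (nat_lit 259) (nat_lit 239) (nat_lit 162)) (XT.lf (nat_lit 0) (nat_lit 134005926424) (nat_lit 76) (nat_lit 200401558395) (nat_lit 76) (nat_lit 57875437894) (nat_lit 7) (nat_lit 4) (nat_lit 8) (nat_lit 5) (nat_lit 8) (nat_lit 4) (nat_lit 260) (nat_lit 239) (nat_lit 161))))))))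
noncomputable def xc88 : XT := (XT.nd (nat_lit 1404) (nat_lit 76) (nat_lit 0) (XT.nd (nat_lit 702) (nat_lit 152) (nat_lit 0) (XT.nd (nat_lit 312) (nat_lit 76) (nat_lit 0) (XT.nd (nat_lit 156) (nat_lit 0) (nat_lit 0) (XT.nd (nat_lit 78) (nat_lit 76) (nat_lit 0) (XT.lf (nat_lit 0) (nat_lit 2678505424) (nat_lit 152) (nat_lit 136767676499) (nat_lit 76) (nat_lit 299684596533) (nat_lit 6) (nat_lit 5) (nat_lit 8) (nat_lit 5) (nat_lit 7) (nat_lit 4) (nat_lit 261) (nat_lit 239) (nat_lit 160)) (XT.lf (nat_lit 0) (nat_lit 232020174) (nat_lit 76) (nat_lit 66167412989) (nat_lit 152) (nat_lit 426191598659) (nat_lit 5) (nat_lit 5) (nat_lit 6) (nat_lit 5) (nat_lit 7) (nat_lit 4) (nat_lit 262) (nat_lit 239) (nat_lit 159))) (XT.nd (nat_lit 78) (nat_lit 0) (nat_lit 0) (XT.lf (nat_lit 0) (nat_lit 147917407609) (nat_lit 152) (nat_lit 380936211653) (nat_lit 0) (nat_lit 23980868280) (nat_lit 5) (nat_lit 5)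 (nat_lit 7) (nat_lit 4) (nat_lit 5) (nat_lit 4) (nat_lit 263) (nat_lit 239) (nat_lit 158)) (XT.lf (nat_lit 0) (nat_lit 244813590326) (nat_lit 152) (nat_lit 255951439815) (nat_lit 0) (nat_lit 120876855080) (nat_lit 5) (nat_lit 5) (nat_lit 7) (nat_lit 4) (nat_lit 5) (nat_lit 4) (nat_lit 264) (nat_lit 239) (nat_lit 157)))) (XT.nd (nat_lit 156) (nat_lit 0) (nat_lit 0) (XT.nd (nat_lit 78) (nat_lit 76) (nat_lit 0) (XT.lf (nat_lit 0) (nat_lit 356243924726) (nat_lit 152) (nat_lit 112219490433) (nat_lit 0) (nat_lit 232307019117) (nat_lit 5) (nat_lit 5) (nat_lit 7) (nat_lit 4) (nat_lit 5) (nat_lit 4) (nat_lit 265) (nat_lit 239) (nat_lit 156)) (XT.lf (nat_lit 0) (nat_lit 58258343972) (nat_lit 76) (nat_lit 428542579339) (nat_lit 76) (nat_lit 304605525588) (nat_lit 4) (nat_lit 4) (nat_lit 5) (nat_lit 5) (nat_lit 5) (nat_lit 4) (nat_lit 266) (nat_lit 239) (nat_lit 155))) (XT.nd (nat_lit 78) (nat_lit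 0) (nat_lit 0) (XT.lf (nat_lit 0) (nat_lit 266919347244) (nat_lit 76) (nat_lit 375887916271) (nat_lit 76) (nat_lit 251950733701) (nat_lit 4) (nat_lit 4) (nat_lit 5) (nat_lit 5) (nat_lit 5) (nat_lit 4) (nat_lit 267) (nat_lit 239) (nat_lit 154)) (XT.nd (nat_lit 78) (nat_lit 0) (nat_lit 0) (XT.lf (nat_lit 0) (nat_lit 506879112526) (nat_lit 76) (nat_lit 315335244843) (nat_lit 76) (nat_lit 191397950257) (nat_lit 4) (nat_lit 4) (nat_lit 5) (nat_lit 5) (nat_lit 5) (nat_lit 4) (nat_lit 268) (nat_lit 239) (nat_lit 153)) (XT.lf (nat_lit 0) (nat_lit 782832504790) (nat_lit 76) (nat_lit 245699838876) (nat_lit 76) (nat_lit 121762446885) (nat_lit 4) (nat_lit 4) (nat_lit 5) (nat_lit 5) (nat_lit 5) (nat_lit 4) (nat_lit 269) (nat_lit 239) (nat_lit 152)))))) (XT.nd (nat_lit 312) (nat_lit 0) (nat_lit 0) (XT.nd (nat_lit 156) (nat_lit 76) (nat_lit 0) (XT.nd (nat_lit 78) (nat_lit 76) (nat_lit 0) (XT.lf (nat_lit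 0) (nat_lit 1100178612146) (nat_lit 76) (nat_lit 165619266514) (nat_lit 76) (nat_lit 41681789822) (nat_lit 4) (nat_lit 4) (nat_lit 5) (nat_lit 5) (nat_lit 5) (nat_lit 4) (nat_lit 270) (nat_lit 239) (nat_lit 151)) (XT.lf (nat_lit 0) (nat_lit 45922896922) (nat_lit 152) (nat_lit 25203321961) (nat_lit 76) (nat_lit 1416802968184) (nat_lit 3) (nat_lit 5) (nat_lit 5) (nat_lit 5) (nat_lit 4) (nat_lit 4) (nat_lit 271) (nat_lit 239) (nat_lit 150))) (XT.nd (nat_lit 78) (nat_lit 0) (nat_lit 0) (XT.lf (nat_lit 0) (nat_lit 152727075561) (nat_lit 152) (nat_lit 1495917162433) (nat_lit 0) (nat_lit 44955236961) (nat_lit 2) (nat_lit 5) (nat_lit 4) (nat_lit 4) (nat_lit 2) (nat_lit 4) (nat_lit 272) (nat_lit 239) (nat_lit 149)) (XT.lf (nat_lit 0) (nat_lit 280318908965) (nat_lit 152) (nat_lit 1476539321031) (nat_lit 0) (nat_lit 172547021937) (nat_lit 2) (nat_lit 5) (nat_lit 4) (nat_lit 4) (nat_lit 2) (nat_lit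 4) (nat_lit 273) (nat_lit 239) (nat_lit 148)))) (XT.nd (nat_lit 156) (nat_lit 0) (nat_lit 0) (XT.nd (nat_lit 78) (nat_lit 0) (nat_lit 0) (XT.lf (nat_lit 0) (nat_lit 427049415856) (nat_lit 152) (nat_lit 1454255008204) (nat_lit 0) (nat_lit 319277486716) (nat_lit 2) (nat_lit 5) (nat_lit 4) (nat_lit 4) (nat_lit 2) (nat_lit 4) (nat_lit 274) (nat_lit 239) (nat_lit 147)) (XT.lf (nat_lit 0) (nat_lit 595789410499) (nat_lit 152) (nat_lit 1428628226527) (nat_lit 0) (nat_lit 488017444741) (nat_lit 2) (nat_lit 5) (nat_lit 4) (nat_lit 4) (nat_lit 2) (nat_lit 4) (nat_lit 275) (nat_lit 239) (nat_lit 146))) (XT.nd (nat_lit 78) (nat_lit 0) (nat_lit 0) (XT.lf (nat_lit 0) (nat_lit 789840327572) (nat_lit 152) (nat_lit 1399157582445) (nat_lit 0) (nat_lit 682068329972) (nat_lit 2) (nat_lit 5) (nat_lit 4) (nat_lit 4) (nat_lit 2) (nat_lit 4) (nat_lit 276) (nat_lit 239) (nat_lit 145)) (XT.nd (nat_lit 78) (nat_lit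 0) (nat_lit 0) (XT.lf (nat_lit 0) (nat_lit 1012998815452) (nat_lit 152) (nat_lit 1365266476400) (nat_lit 0) (nat_lit 905226790164) (nat_lit 2) (nat_lit 5) (nat_lit 4) (nat_lit 4) (nat_lit 2) (nat_lit 4) (nat_lit 277) (nat_lit 239) (nat_lit 144)) (XT.lf (nat_lit 0) (nat_lit 1269631018468) (nat_lit 152) (nat_lit 1326291821535) (nat_lit 0) (nat_lit 1161858969102) (nat_lit 2) (nat_lit 5) (nat_lit 4) (nat_lit 4) (nat_lit 2) (nat_lit 4) (nat_lit 278) (nat_lit 239) (nat_lit 143))))))) (XT.nd (nat_lit 702) (nat_lit 76) (nat_lit 0) (XT.nd (nat_lit 312) (nat_lit 0) (nat_lit 0) (XT.nd (nat_lit 156) (nat_lit 0) (nat_lit 0) (XT.nd (nat_lit 78) (nat_lit 0) (nat_lit 0) (XT.lf (nat_lit 0) (nat_lit 1564758001461) (nat_lit 152) (nat_lit 1281471070254) (nat_lit 0) (nat_lit 1456985931159) (nat_lit 2) (nat_lit 5) (nat_lit 4) (nat_lit 4) (nat_lit 2) (nat_lit 4) (nat_lit 279) (nat_lit 239) (nat_lit 142)) (XT.lf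 (nat_lit 0) (nat_lit 1904153988012) (nat_lit 152) (nat_lit 1229927294816) (nat_lit 0) (nat_lit 1796381899504) (nat_lit 2) (nat_lit 5) (nat_lit 4) (nat_lit 4) (nat_lit 2) (nat_lit 4) (nat_lit 280) (nat_lit 239) (nat_lit 141))) (XT.nd (nat_lit 78) (nat_lit 0) (nat_lit 0) (XT.lf (nat_lit 0) (nat_lit 2294459334379) (nat_lit 152) (nat_lit 1170652030047) (nat_lit 0) (nat_lit 2186687230040) (nat_lit 2) (nat_lit 5) (nat_lit 4) (nat_lit 4) (nat_lit 2) (nat_lit 4) (nat_lit 281) (nat_lit 239) (nat_lit 140)) (XT.lf (nat_lit 0) (nat_lit 2743310449513) (nat_lit 152) (nat_lit 1102485542508) (nat_lit 0) (nat_lit 2635538331407) (nat_lit 2) (nat_lit 5) (nat_lit 4) (nat_lit 4) (nat_lit 2) (nat_lit 4) (nat_lit 282) (nat_lit 239) (nat_lit 139)))) (XT.nd (nat_lit 156) (nat_lit 0) (nat_lit 0) (XT.nd (nat_lit 78) (nat_lit 0) (nat_lit 0) (XT.lf (nat_lit 0) (nat_lit 3259489203057) (nat_lit 152) (nat_lit 1024094140050)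 (nat_lit 0) (nat_lit 3151717072981) (nat_lit 2) (nat_lit 5) (nat_lit 4) (nat_lit 4) (nat_lit 2) (nat_lit 4) (nat_lit 283) (nat_lit 239) (nat_lit 138)) (XT.lf (nat_lit 0) (nat_lit 3853094744538) (nat_lit 152) (nat_lit 933944077844) (nat_lit 0) (nat_lit 3745322604052) (nat_lit 2) (nat_lit 5) (nat_lit 4) (nat_lit 4) (nat_lit 2) (nat_lit 4) (nat_lit 284) (nat_lit 239) (nat_lit 137))) (XT.nd (nat_lit 78) (nat_lit 0) (nat_lit 0) (XT.lf (nat_lit 0) (nat_lit 4535741095419) (nat_lit 152) (nat_lit 830271550324) (nat_lit 0) (nat_lit 4427968945882) (nat_lit 2) (nat_lit 5) (nat_lit 4) (nat_lit 4) (nat_lit 2) (nat_lit 4) (nat_lit 285) (nat_lit 239) (nat_lit 136)) (XT.nd (nat_lit 78) (nat_lit 0) (nat_lit 0) (XT.lf (nat_lit 0) (nat_lit 5320784379956) (nat_lit 152) (nat_lit 711048181951) (nat_lit 0) (nat_lit 5213012222549) (nat_lit 2) (nat_lit 5) (nat_lit 4) (nat_lit 4) (nat_lit 2) (nat_lit 4) (nat_lit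 286) (nat_lit 239) (nat_lit 135)) (XT.lf (nat_lit 0) (nat_lit 6223584140674) (nat_lit 152) (nat_lit 573941341606) (nat_lit 0) (nat_lit 6115811976422) (nat_lit 2) (nat_lit 5) (nat_lit 4) (nat_lit 4) (nat_lit 2) (nat_lit 4) (nat_lit 287) (nat_lit 239) (nat_lit 134)))))) (XT.nd (nat_lit 312) (nat_lit 0) (nat_lit 0) (XT.nd (nat_lit 156) (nat_lit 76) (nat_lit 0) (XT.nd (nat_lit 78) (nat_lit 0) (nat_lit 0) (XT.lf (nat_lit 0) (nat_lit 7261803851152) (nat_lit 152) (nat_lit 416268504151) (nat_lit 0) (nat_lit 7154031680948) (nat_lit 2) (nat_lit 5) (nat_lit 4) (nat_lit 4) (nat_lit 2) (nat_lit 4) (nat_lit 288) (nat_lit 239) (nat_lit 133)) (XT.lf (nat_lit 0) (nat_lit 8455756505724) (nat_lit 152) (nat_lit 234944766244) (nat_lit 0) (nat_lit 8347984330345) (nat_lit 2) (nat_lit 5) (nat_lit 4) (nat_lit 4) (nat_lit 2) (nat_lit 4) (nat_lit 289) (nat_lit 239) (nat_lit 132))) (XT.nd (nat_lit 78) (nat_lit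 76) (nat_lit 0) (XT.lf (nat_lit 0) (nat_lit 9828802047633) (nat_lit 152) (nat_lit 26422489536) (nat_lit 0) (nat_lit 9721029867754) (nat_lit 2) (nat_lit 5) (nat_lit 4) (nat_lit 4) (nat_lit 2) (nat_lit 4) (nat_lit 290) (nat_lit 239) (nat_lit 131)) (XT.lf (nat_lit 0) (nat_lit 234230970363) (nat_lit 76) (nat_lit 11183272446015) (nat_lit 76) (nat_lit 11075500262223) (nat_lit 1) (nat_lit 4) (nat_lit 2) (nat_lit 5) (nat_lit 2) (nat_lit 4) (nat_lit 291) (nat_lit 239) (nat_lit 130)))) (XT.nd (nat_lit 156) (nat_lit 0) (nat_lit 0) (XT.nd (nat_lit 78) (nat_lit 0) (nat_lit 0) (XT.lf (nat_lit 0) (nat_lit 536951958600) (nat_lit 76) (nat_lit 12708939198468) (nat_lit 76) (nat_lit 12601167011273) (nat_lit 1) (nat_lit 4) (nat_lit 2) (nat_lit 5) (nat_lit 2) (nat_lit 4) (nat_lit 292) (nat_lit 239) (nat_lit 129)) (XT.lf (nat_lit 0) (nat_lit 885081079278) (nat_lit 76) (nat_lit 14463455971797) (nat_lit 76)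 (nat_lit 14355683781643) (nat_lit 1) (nat_lit 4) (nat_lit 2) (nat_lit 5) (nat_lit 2) (nat_lit 4) (nat_lit 293) (nat_lit 239) (nat_lit 128))) (XT.nd (nat_lit 78) (nat_lit 0) (nat_lit 0) (XT.lf (nat_lit 0) (nat_lit 1285429554322) (nat_lit 76) (nat_lit 16481150268089) (nat_lit 76) (nat_lit 16373378075362) (nat_lit 1) (nat_lit 4) (nat_lit 2) (nat_lit 5) (nat_lit 2) (nat_lit 4) (nat_lit 294) (nat_lit 239) (nat_lit 127)) (XT.nd (nat_lit 78) (nat_lit 0) (nat_lit 0) (XT.lf (nat_lit 0) (nat_lit 1745830288679) (nat_lit 76) (nat_lit 18801498714879) (nat_lit 76) (nat_lit 18693726519915) (nat_lit 1) (nat_lit 4) (nat_lit 2) (nat_lit 5) (nat_lit 2) (nat_lit 4) (nat_lit 295) (nat_lit 239) (nat_lit 126)) (XT.lf (nat_lit 0) (nat_lit 2275291122803) (nat_lit 76) (nat_lit 21469899433953) (nat_lit 76) (nat_lit 21362127237043) (nat_lit 1) (nat_lit 4) (nat_lit 2) (nat_lit 5) (nat_lit 2) (nat_lit 4) (nat_lit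 296) (nat_lit 239) (nat_lit 125))))))))
noncomputable def xc89 : XT := (XT.nd (nat_lit 1404) (nat_lit 532) (nat_lit 0) (XT.nd (nat_lit 702) (nat_lit 532) (nat_lit 0) (XT.nd (nat_lit 312) (nat_lit 304) (nat_lit 0) (XT.nd (nat_lit 156) (nat_lit 0) (nat_lit 76) (XT.nd (nat_lit 78) (nat_lit 0) (nat_lit 0) (XT.lf (nat_lit 0) (nat_lit 3829762495) (nat_lit 380) (nat_lit 14771997735) (nat_lit 380) (nat_lit 14771997735) (nat_lit 20) (nat_lit 3) (nat_lit 25) (nat_lit 3) (nat_lit 25) (nat_lit 5) (nat_lit 240) (nat_lit 240) (nat_lit 180)) (XT.lf (nat_lit 76) (nat_lit 1040373959) (nat_lit 0) (nat_lit 7249933218) (nat_lit 380) (nat_lit 63454757638) (nat_lit 21) (nat_lit 5) (nat_lit 20) (nat_lit 3) (nat_lit 25) (nat_lit 5) (nat_lit 241) (nat_lit 240) (nat_lit 179))) (XT.nd (nat_lit 78) (nat_lit 0) (nat_lit 0) (XT.lf (nat_lit 0) (nat_lit 11757368488) (nat_lit 304) (nat_lit 38929457933) (nat_lit 380)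 (nat_lit 26394182293) (nat_lit 21) (nat_lit 5) (nat_lit 25) (nat_lit 5) (nat_lit 26) (nat_lit 5) (nat_lit 242) (nat_lit 240) (nat_lit 178)) (XT.lf (nat_lit 0) (nat_lit 16087653743) (nat_lit 304) (nat_lit 2734833627) (nat_lit 380) (nat_lit 64343392512) (nat_lit 21) (nat_lit 5) (nat_lit 25) (nat_lit 5) (nat_lit 26) (nat_lit 5) (nat_lit 243) (nat_lit 240) (nat_lit 177)))) (XT.nd (nat_lit 156) (nat_lit 456) (nat_lit 0) (XT.nd (nat_lit 78) (nat_lit 0) (nat_lit 0) (XT.lf (nat_lit 0) (nat_lit 23655434589) (nat_lit 304) (nat_lit 48032840406) (nat_lit 76) (nat_lit 18087022849) (nat_lit 22) (nat_lit 5) (nat_lit 26) (nat_lit 5) (nat_lit 23) (nat_lit 5) (nat_lit 244) (nat_lit 240) (nat_lit 176)) (XT.lf (nat_lit 0) (nat_lit 33402844001) (nat_lit 304) (nat_lit 5060739277) (nat_lit 76) (nat_lit 58755883867) (nat_lit 22) (nat_lit 5) (nat_lit 26) (nat_lit 5) (nat_lit 23) (nat_lit 5) (nat_lit 245) (nat_lit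 240) (nat_lit 175))) (XT.nd (nat_lit 78) (nat_lit 152) (nat_lit 0) (XT.lf (nat_lit 0) (nat_lit 46712573905) (nat_lit 380) (nat_lit 56872974486) (nat_lit 76) (nat_lit 1879688924) (nat_lit 18) (nat_lit 5) (nat_lit 23) (nat_lit 5) (nat_lit 19) (nat_lit 5) (nat_lit 246) (nat_lit 240) (nat_lit 174)) (XT.nd (nat_lit 78) (nat_lit 152) (nat_lit 0) (XT.lf (nat_lit 0) (nat_lit 64126219383) (nat_lit 380) (nat_lit 5891968617) (nat_lit 76) (nat_lit 44613572540) (nat_lit 18) (nat_lit 5) (nat_lit 23) (nat_lit 5) (nat_lit 19) (nat_lit 5) (nat_lit 247) (nat_lit 240) (nat_lit 173)) (XT.lf (nat_lit 0) (nat_lit 57888469128) (nat_lit 152) (nat_lit 28659368583) (nat_lit 228) (nat_lit 38266040803) (nat_lit 16) (nat_lit 5) (nat_lit 18) (nat_lit 5) (nat_lit 19) (nat_lit 5) (nat_lit 248) (nat_lit 240) (nat_lit 172)))))) (XT.nd (nat_lit 312) (nat_lit 228) (nat_lit 0) (XT.nd (nat_lit 156) (nat_lit 228) (nat_lit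 0) (XT.nd (nat_lit 78) (nat_lit 76) (nat_lit 0) (XT.lf (nat_lit 0) (nat_lit 113437066948) (nat_lit 228) (nat_lit 5377812582) (nat_lit 76) (nat_lit 17542783923) (nat_lit 16) (nat_lit 5) (nat_lit 19) (nat_lit 5) (nat_lit 17) (nat_lit 4) (nat_lit 249) (nat_lit 240) (nat_lit 171)) (XT.lf (nat_lit 0) (nat_lit 70294001447) (nat_lit 76) (nat_lit 78340238686) (nat_lit 152) (nat_lit 357595973) (nat_lit 15) (nat_lit 5) (nat_lit 16) (nat_lit 5) (nat_lit 17) (nat_lit 4) (nat_lit 250) (nat_lit 240) (nat_lit 170))) (XT.nd (nat_lit 78) (nat_lit 152) (nat_lit 0) (XT.lf (nat_lit 0) (nat_lit 23605296168) (nat_lit 152) (nat_lit 6632274946) (nat_lit 76) (nat_lit 133080579201) (nat_lit 14) (nat_lit 5) (nat_lit 16) (nat_lit 5) (nat_lit 15) (nat_lit 5) (nat_lit 251) (nat_lit 240) (nat_lit 169)) (XT.lf (nat_lit 0) (nat_lit 55794339817) (nat_lit 228) (nat_lit 96801336656) (nat_lit 76) (nat_lit 26494934189) (nat_lit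 12) (nat_lit 5) (nat_lit 15) (nat_lit 5) (nat_lit 13) (nat_lit 4) (nat_lit 252) (nat_lit 240) (nat_lit 168)))) (XT.nd (nat_lit 156) (nat_lit 152) (nat_lit 0) (XT.nd (nat_lit 78) (nat_lit 76) (nat_lit 0) (XT.lf (nat_lit 0) (nat_lit 94614102205) (nat_lit 228) (nat_lit 13340052960) (nat_lit 76) (nat_lit 89004432802) (nat_lit 12) (nat_lit 5) (nat_lit 15) (nat_lit 5) (nat_lit 13) (nat_lit 4) (nat_lit 253) (nat_lit 240) (nat_lit 167)) (XT.lf (nat_lit 0) (nat_lit 90715543707) (nat_lit 76) (nat_lit 52296997974) (nat_lit 152) (nat_lit 73930865219) (nat_lit 11) (nat_lit 5) (nat_lit 12) (nat_lit 5) (nat_lit 13) (nat_lit 4) (nat_lit 254) (nat_lit 240) (nat_lit 166))) (XT.nd (nat_lit 78) (nat_lit 152) (nat_lit 0) (XT.lf (nat_lit 0) (nat_lit 199885509132) (nat_lit 152) (nat_lit 28461702481) (nat_lit 0) (nat_lit 11396524443) (nat_lit 11) (nat_lit 5) (nat_lit 13) (nat_lit 4) (nat_lit 11) (nat_lit 4)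 (nat_lit 255) (nat_lit 240) (nat_lit 165)) (XT.nd (nat_lit 78) (nat_lit 0) (nat_lit 0) (XT.lf (nat_lit 0) (nat_lit 5873659056) (nat_lit 152) (nat_lit 175861306930) (nat_lit 76) (nat_lit 83260097597) (nat_lit 9) (nat_lit 5) (nat_lit 11) (nat_lit 5) (nat_lit 10) (nat_lit 4) (nat_lit 256) (nat_lit 240) (nat_lit 164)) (XT.lf (nat_lit 0) (nat_lit 55942709449) (nat_lit 152) (nat_lit 68213447901) (nat_lit 76) (nat_lit 169359516669) (nat_lit 9) (nat_lit 5) (nat_lit 11) (nat_lit 5) (nat_lit 10) (nat_lit 4) (nat_lit 257) (nat_lit 240) (nat_lit 163))))))) (XT.nd (nat_lit 702) (nat_lit 228) (nat_lit 0) (XT.nd (nat_lit 312) (nat_lit 152) (nat_lit 0) (XT.nd (nat_lit 156) (nat_lit 76) (nat_lit 0) (XT.nd (nat_lit 78) (nat_lit 0) (nat_lit 0) (XT.lf (nat_lit 0) (nat_lit 61012560312) (nat_lit 76) (nat_lit 55035511629) (nat_lit 152) (nat_lit 209887411863) (nat_lit 8) (nat_lit 5) (nat_lit 9) (nat_lit 5)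 (nat_lit 10) (nat_lit 4) (nat_lit 258) (nat_lit 240) (nat_lit 162)) (XT.lf (nat_lit 0) (nat_lit 189916860831) (nat_lit 152) (nat_lit 146577833569) (nat_lit 0) (nat_lit 26011428195) (nat_lit 8) (nat_lit 5) (nat_lit 10) (nat_lit 4) (nat_lit 8) (nat_lit 4) (nat_lit 259) (nat_lit 240) (nat_lit 161))) (XT.nd (nat_lit 78) (nat_lit 76) (nat_lit 0) (XT.lf (nat_lit 0) (nat_lit 277486330649) (nat_lit 152) (nat_lit 13102417543) (nat_lit 0) (nat_lit 113580555352) (nat_lit 8) (nat_lit 5) (nat_lit 10) (nat_lit 4) (nat_lit 8) (nat_lit 4) (nat_lit 260) (nat_lit 240) (nat_lit 160)) (XT.lf (nat_lit 0) (nat_lit 154113997019) (nat_lit 76) (nat_lit 230458428884) (nat_lit 76) (nat_lit 66552355622) (nat_lit 7) (nat_lit 4) (nat_lit 8) (nat_lit 5) (nat_lit 8) (nat_lit 4) (nat_lit 261) (nat_lit 240) (nat_lit 159)))) (XT.nd (nat_lit 156) (nat_lit 0) (nat_lit 0) (XT.nd (nat_lit 78) (nat_lit 76) (nat_lit 0) (XT.lf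 (nat_lit 0) (nat_lit 3083765080) (nat_lit 152) (nat_lit 157276237439) (nat_lit 76) (nat_lit 344639864957) (nat_lit 6) (nat_lit 5) (nat_lit 8) (nat_lit 5) (nat_lit 7) (nat_lit 4) (nat_lit 262) (nat_lit 240) (nat_lit 158)) (XT.lf (nat_lit 0) (nat_lit 273114165) (nat_lit 76) (nat_lit 76089523896) (nat_lit 152) (nat_lit 490116550549) (nat_lit 5) (nat_lit 5) (nat_lit 6) (nat_lit 5) (nat_lit 7) (nat_lit 4) (nat_lit 263) (nat_lit 240) (nat_lit 157))) (XT.nd (nat_lit 78) (nat_lit 0) (nat_lit 0) (XT.lf (nat_lit 0) (nat_lit 170107987612) (nat_lit 152) (nat_lit 438070848024) (nat_lit 0) (nat_lit 27580375798) (nat_lit 5) (nat_lit 5) (nat_lit 7) (nat_lit 4) (nat_lit 5) (nat_lit 4) (nat_lit 264) (nat_lit 240) (nat_lit 156)) (XT.nd (nat_lit 78) (nat_lit 0) (nat_lit 0) (XT.lf (nat_lit 0) (nat_lit 281538210494) (nat_lit 152) (nat_lit 294339116329) (nat_lit 0) (nat_lit 139010450539) (nat_lit 5) (nat_lit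 5) (nat_lit 7) (nat_lit 4) (nat_lit 5) (nat_lit 4) (nat_lit 265) (nat_lit 240) (nat_lit 155)) (XT.lf (nat_lit 0) (nat_lit 409682758321) (nat_lit 152) (nat_lit 129048031860) (nat_lit 0) (nat_lit 267154869546) (nat_lit 5) (nat_lit 5) (nat_lit 7) (nat_lit 4) (nat_lit 5) (nat_lit 4) (nat_lit 266) (nat_lit 240) (nat_lit 154)))))) (XT.nd (nat_lit 312) (nat_lit 152) (nat_lit 0) (XT.nd (nat_lit 156) (nat_lit 0) (nat_lit 0) (XT.nd (nat_lit 78) (nat_lit 0) (nat_lit 0) (XT.lf (nat_lit 0) (nat_lit 67001278518) (nat_lit 76) (nat_lit 492821908571) (nat_lit 76) (nat_lit 350293907781) (nat_lit 4) (nat_lit 4) (nat_lit 5) (nat_lit 5) (nat_lit 5) (nat_lit 4) (nat_lit 267) (nat_lit 240) (nat_lit 153)) (XT.lf (nat_lit 0) (nat_lit 306960886679) (nat_lit 76) (nat_lit 432269314435) (nat_lit 76) (nat_lit 289741216238) (nat_lit 4) (nat_lit 4) (nat_lit 5) (nat_lit 5) (nat_lit 5) (nat_lit 4) (nat_lit 268) (nat_lit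 240) (nat_lit 152))) (XT.nd (nat_lit 78) (nat_lit 0) (nat_lit 0) (XT.lf (nat_lit 0) (nat_lit 582914142316) (nat_lit 76) (nat_lit 362633975677) (nat_lit 76) (nat_lit 220105792780) (nat_lit 4) (nat_lit 4) (nat_lit 5) (nat_lit 5) (nat_lit 5) (nat_lit 4) (nat_lit 269) (nat_lit 240) (nat_lit 151)) (XT.lf (nat_lit 0) (nat_lit 900260130866) (nat_lit 76) (nat_lit 282553461758) (nat_lit 76) (nat_lit 140025205208) (nat_lit 4) (nat_lit 4) (nat_lit 5) (nat_lit 5) (nat_lit 5) (nat_lit 4) (nat_lit 270) (nat_lit 240) (nat_lit 150)))) (XT.nd (nat_lit 156) (nat_lit 76) (nat_lit 0) (XT.nd (nat_lit 78) (nat_lit 76) (nat_lit 0) (XT.lf (nat_lit 0) (nat_lit 1265207795583) (nat_lit 76) (nat_lit 190460980013) (nat_lit 76) (nat_lit 47932659418) (nat_lit 4) (nat_lit 4) (nat_lit 5) (nat_lit 5) (nat_lit 5) (nat_lit 4) (nat_lit 271) (nat_lit 240) (nat_lit 149)) (XT.lf (nat_lit 0) (nat_lit 52812439582) (nat_lit 152)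 (nat_lit 28981631185) (nat_lit 76) (nat_lit 1629324327031) (nat_lit 3) (nat_lit 5) (nat_lit 5) (nat_lit 5) (nat_lit 4) (nat_lit 4) (nat_lit 272) (nat_lit 240) (nat_lit 148))) (XT.nd (nat_lit 78) (nat_lit 0) (nat_lit 0) (XT.lf (nat_lit 0) (nat_lit 175637230046) (nat_lit 152) (nat_lit 1720302531789) (nat_lit 0) (nat_lit 51699469424) (nat_lit 2) (nat_lit 5) (nat_lit 4) (nat_lit 4) (nat_lit 2) (nat_lit 4) (nat_lit 273) (nat_lit 240) (nat_lit 147)) (XT.nd (nat_lit 78) (nat_lit 0) (nat_lit 0) (XT.lf (nat_lit 0) (nat_lit 322367695875) (nat_lit 152) (nat_lit 1698018301787) (nat_lit 0) (nat_lit 198429898635) (nat_lit 2) (nat_lit 5) (nat_lit 4) (nat_lit 4) (nat_lit 2) (nat_lit 4) (nat_lit 274) (nat_lit 240) (nat_lit 146)) (XT.lf (nat_lit 0) (nat_lit 491107654813) (nat_lit 152) (nat_lit 1672391592132) (nat_lit 0) (nat_lit 367169825731) (nat_lit 2) (nat_lit 5) (nat_lit 4) (nat_lit 4) (nat_lit 2)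 (nat_lit 4) (nat_lit 275) (nat_lit 240) (nat_lit 145))))))))
noncomputable def xc90 : XT := (XT.nd (nat_lit 1404) (nat_lit 0) (nat_lit 0) (XT.nd (nat_lit 702) (nat_lit 76) (nat_lit 0) (XT.nd (nat_lit 312) (nat_lit 0) (nat_lit 0) (XT.nd (nat_lit 156) (nat_lit 0) (nat_lit 0) (XT.nd (nat_lit 78) (nat_lit 0) (nat_lit 0) (XT.lf (nat_lit 0) (nat_lit 685158540838) (nat_lit 152) (nat_lit 1642921010678) (nat_lit 0) (nat_lit 561220684067) (nat_lit 2) (nat_lit 5) (nat_lit 4) (nat_lit 4) (nat_lit 2) (nat_lit 4) (nat_lit 276) (nat_lit 240) (nat_lit 144)) (XT.lf (nat_lit 0) (nat_lit 908317001720) (nat_lit 152) (nat_lit 1609029959092) (nat_lit 0) (nat_lit 784379120872) (nat_lit 2) (nat_lit 5) (nat_lit 4) (nat_lit 4) (nat_lit 2) (nat_lit 4) (nat_lit 277) (nat_lit 240) (nat_lit 143))) (XT.nd (nat_lit 78) (nat_lit 0) (nat_lit 0) (XT.lf (nat_lit 0) (nat_lit 1164949181259) (nat_lit 152) (nat_lit 1570055351582)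 (nat_lit 0) (nat_lit 1041011279474) (nat_lit 2) (nat_lit 5) (nat_lit 4) (nat_lit 4) (nat_lit 2) (nat_lit 4) (nat_lit 278) (nat_lit 240) (nat_lit 142)) (XT.lf (nat_lit 0) (nat_lit 1460076143838) (nat_lit 152) (nat_lit 1525234641480) (nat_lit 0) (nat_lit 1336138223847) (nat_lit 2) (nat_lit 5) (nat_lit 4) (nat_lit 4) (nat_lit 2) (nat_lit 4) (nat_lit 279) (nat_lit 240) (nat_lit 141)))) (XT.nd (nat_lit 156) (nat_lit 0) (nat_lit 0) (XT.nd (nat_lit 78) (nat_lit 0) (nat_lit 0) (XT.lf (nat_lit 0) (nat_lit 1799472112636) (nat_lit 152) (nat_lit 1473690901848) (nat_lit 0) (nat_lit 1675534176815) (nat_lit 2) (nat_lit 5) (nat_lit 4) (nat_lit 4) (nat_lit 2) (nat_lit 4) (nat_lit 280) (nat_lit 240) (nat_lit 140)) (XT.lf (nat_lit 0) (nat_lit 2189777443567) (nat_lit 152) (nat_lit 1414415668217) (nat_lit 0) (nat_lit 2065839493979) (nat_lit 2) (nat_lit 5) (nat_lit 4) (nat_lit 4) (nat_lit 2) (nat_lit 4) (nat_lit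 281) (nat_lit 240) (nat_lit 139))) (XT.nd (nat_lit 78) (nat_lit 0) (nat_lit 0) (XT.lf (nat_lit 0) (nat_lit 2638628545277) (nat_lit 152) (nat_lit 1346249207753) (nat_lit 0) (nat_lit 2514690583719) (nat_lit 2) (nat_lit 5) (nat_lit 4) (nat_lit 4) (nat_lit 2) (nat_lit 4) (nat_lit 282) (nat_lit 240) (nat_lit 138)) (XT.nd (nat_lit 78) (nat_lit 0) (nat_lit 0) (XT.lf (nat_lit 0) (nat_lit 3154807287149) (nat_lit 152) (nat_lit 1267857828840) (nat_lit 0) (nat_lit 3030869315182) (nat_lit 2) (nat_lit 5) (nat_lit 4) (nat_lit 4) (nat_lit 2) (nat_lit 4) (nat_lit 283) (nat_lit 240) (nat_lit 137)) (XT.lf (nat_lit 0) (nat_lit 3748412818481) (nat_lit 152) (nat_lit 1177707787106) (nat_lit 0) (nat_lit 3624474837462) (nat_lit 2) (nat_lit 5) (nat_lit 4) (nat_lit 4) (nat_lit 2) (nat_lit 4) (nat_lit 284) (nat_lit 240) (nat_lit 136)))))) (XT.nd (nat_lit 312) (nat_lit 76) (nat_lit 0) (XT.nd (nat_lit 156) (nat_lit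 0) (nat_lit 0) (XT.nd (nat_lit 78) (nat_lit 0) (nat_lit 0) (XT.lf (nat_lit 0) (nat_lit 4431059160536) (nat_lit 152) (nat_lit 1074035277389) (nat_lit 0) (nat_lit 4307121171646) (nat_lit 2) (nat_lit 5) (nat_lit 4) (nat_lit 4) (nat_lit 2) (nat_lit 4) (nat_lit 285) (nat_lit 240) (nat_lit 135)) (XT.lf (nat_lit 0) (nat_lit 5216102437399) (nat_lit 152) (nat_lit 954811924497) (nat_lit 0) (nat_lit 5092164441665) (nat_lit 2) (nat_lit 5) (nat_lit 4) (nat_lit 4) (nat_lit 2) (nat_lit 4) (nat_lit 286) (nat_lit 240) (nat_lit 134))) (XT.nd (nat_lit 78) (nat_lit 0) (nat_lit 0) (XT.lf (nat_lit 0) (nat_lit 6118902191443) (nat_lit 152) (nat_lit 817705097613) (nat_lit 0) (nat_lit 5994964189758) (nat_lit 2) (nat_lit 5) (nat_lit 4) (nat_lit 4) (nat_lit 2) (nat_lit 4) (nat_lit 287) (nat_lit 240) (nat_lit 133)) (XT.lf (nat_lit 0) (nat_lit 7157121896118) (nat_lit 152) (nat_lit 660032271864) (nat_lit 0) (nat_lit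 7033183889257) (nat_lit 2) (nat_lit 5) (nat_lit 4) (nat_lit 4) (nat_lit 2) (nat_lit 4) (nat_lit 288) (nat_lit 240) (nat_lit 132)))) (XT.nd (nat_lit 156) (nat_lit 76) (nat_lit 0) (XT.nd (nat_lit 78) (nat_lit 0) (nat_lit 0) (XT.lf (nat_lit 0) (nat_lit 8351074545644) (nat_lit 152) (nat_lit 478708544136) (nat_lit 0) (nat_lit 8227136534283) (nat_lit 2) (nat_lit 5) (nat_lit 4) (nat_lit 4) (nat_lit 2) (nat_lit 4) (nat_lit 289) (nat_lit 240) (nat_lit 131)) (XT.lf (nat_lit 0) (nat_lit 9724120083165) (nat_lit 152) (nat_lit 270186276279) (nat_lit 0) (nat_lit 9600182067891) (nat_lit 2) (nat_lit 5) (nat_lit 4) (nat_lit 4) (nat_lit 2) (nat_lit 4) (nat_lit 290) (nat_lit 240) (nat_lit 130))) (XT.nd (nat_lit 78) (nat_lit 76) (nat_lit 0) (XT.lf (nat_lit 0) (nat_lit 11303122443110) (nat_lit 152) (nat_lit 30385684791) (nat_lit 0) (nat_lit 11179184424433) (nat_lit 2) (nat_lit 5) (nat_lit 4) (nat_lit 4) (nat_lit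 2) (nat_lit 4) (nat_lit 291) (nat_lit 240) (nat_lit 129)) (XT.nd (nat_lit 78) (nat_lit 0) (nat_lit 0) (XT.lf (nat_lit 0) (nat_lit 269365785994) (nat_lit 76) (nat_lit 12860763226694) (nat_lit 76) (nat_lit 12736825205058) (nat_lit 1) (nat_lit 4) (nat_lit 2) (nat_lit 5) (nat_lit 2) (nat_lit 4) (nat_lit 292) (nat_lit 240) (nat_lit 128)) (XT.lf (nat_lit 0) (nat_lit 617494900283) (nat_lit 76) (nat_lit 14615280003261) (nat_lit 76) (nat_lit 14491341979052) (nat_lit 1) (nat_lit 4) (nat_lit 2) (nat_lit 5) (nat_lit 2) (nat_lit 4) (nat_lit 293) (nat_lit 240) (nat_lit 127))))))) (XT.nd (nat_lit 30810) (nat_lit 0) (nat_lit 760) (XT.nd (nat_lit 30420) (nat_lit 0) (nat_lit 1292) (XT.nd (nat_lit 30264) (nat_lit 0) (nat_lit 1444) (XT.nd (nat_lit 78) (nat_lit 0) (nat_lit 0) (XT.lf (nat_lit 0) (nat_lit 1017843369772) (nat_lit 76) (nat_lit 16632974302369) (nat_lit 76) (nat_lit 16509036275923) (nat_lit 1)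 (nat_lit 4) (nat_lit 2) (nat_lit 5) (nat_lit 2) (nat_lit 4) (nat_lit 294) (nat_lit 240) (nat_lit 126)) (XT.lf (nat_lit 0) (nat_lit 1478244099298) (nat_lit 76) (nat_lit 18953322751608) (nat_lit 76) (nat_lit 18829384723216) (nat_lit 1) (nat_lit 4) (nat_lit 2) (nat_lit 5) (nat_lit 2) (nat_lit 4) (nat_lit 295) (nat_lit 240) (nat_lit 125))) (XT.nd (nat_lit 78) (nat_lit 0) (nat_lit 0) (XT.lf (nat_lit 0) (nat_lit 4416916851) (nat_lit 380) (nat_lit 16980468476) (nat_lit 380) (nat_lit 16980468476) (nat_lit 20) (nat_lit 3) (nat_lit 25) (nat_lit 3) (nat_lit 25) (nat_lit 5) (nat_lit 241) (nat_lit 241) (nat_lit 178)) (XT.lf (nat_lit 76) (nat_lit 1210421628) (nat_lit 0) (nat_lit 8346080521) (nat_lit 380) (nat_lit 72946813122) (nat_lit 21) (nat_lit 5) (nat_lit 20) (nat_lit 3) (nat_lit 25) (nat_lit 5) (nat_lit 242) (nat_lit 241) (nat_lit 177)))) (XT.nd (nat_lit 156) (nat_lit 228) (nat_lit 0) (XT.nd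 (nat_lit 78) (nat_lit 0) (nat_lit 0) (XT.lf (nat_lit 0) (nat_lit 13540356730) (nat_lit 304) (nat_lit 44753346777) (nat_lit 380) (nat_lit 30346451736) (nat_lit 21) (nat_lit 5) (nat_lit 25) (nat_lit 5) (nat_lit 26) (nat_lit 5) (nat_lit 243) (nat_lit 241) (nat_lit 176)) (XT.lf (nat_lit 0) (nat_lit 18517656560) (nat_lit 304) (nat_lit 3131554458) (nat_lit 380) (nat_lit 73988937997) (nat_lit 21) (nat_lit 5) (nat_lit 25) (nat_lit 5) (nat_lit 26) (nat_lit 5) (nat_lit 244) (nat_lit 241) (nat_lit 175))) (XT.nd (nat_lit 78) (nat_lit 304) (nat_lit 0) (XT.lf (nat_lit 0) (nat_lit 27218844625) (nat_lit 304) (nat_lit 55222428748) (nat_lit 76) (nat_lit 20797981324) (nat_lit 22) (nat_lit 5) (nat_lit 26) (nat_lit 5) (nat_lit 23) (nat_lit 5) (nat_lit 245) (nat_lit 241) (nat_lit 174)) (XT.nd (nat_lit 78) (nat_lit 304) (nat_lit 0) (XT.lf (nat_lit 0) (nat_lit 38426396556) (nat_lit 304) (nat_lit 5806513022)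 (nat_lit 76) (nat_lit 67567444750) (nat_lit 22) (nat_lit 5) (nat_lit 26) (nat_lit 5) (nat_lit 23) (nat_lit 5) (nat_lit 246) (nat_lit 241) (nat_lit 173)) (XT.lf (nat_lit 0) (nat_lit 53731433731) (nat_lit 380) (nat_lit 65389375649) (nat_lit 76) (nat_lit 2162361821) (nat_lit 18) (nat_lit 5) (nat_lit 23) (nat_lit 5) (nat_lit 19) (nat_lit 5) (nat_lit 247) (nat_lit 241) (nat_lit 172)))))) (XT.nd (nat_lit 312) (nat_lit 304) (nat_lit 0) (XT.nd (nat_lit 156) (nat_lit 76) (nat_lit 0) (XT.nd (nat_lit 78) (nat_lit 152) (nat_lit 0) (XT.lf (nat_lit 0) (nat_lit 73755564239) (nat_lit 380) (nat_lit 6763116074) (nat_lit 76) (nat_lit 51306234125) (nat_lit 18) (nat_lit 5) (nat_lit 23) (nat_lit 5) (nat_lit 19) (nat_lit 5) (nat_lit 248) (nat_lit 241) (nat_lit 171)) (XT.lf (nat_lit 0) (nat_lit 66583812430) (nat_lit 152) (nat_lit 32955754719) (nat_lit 228) (nat_lit 43994917995) (nat_lit 16) (nat_lit 5) (nat_lit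 18) (nat_lit 5) (nat_lit 19) (nat_lit 5) (nat_lit 249) (nat_lit 241) (nat_lit 170))) (XT.nd (nat_lit 78) (nat_lit 76) (nat_lit 0) (XT.lf (nat_lit 0) (nat_lit 130461025334) (nat_lit 228) (nat_lit 6172794237) (nat_lit 76) (nat_lit 20176197058) (nat_lit 16) (nat_lit 5) (nat_lit 19) (nat_lit 5) (nat_lit 17) (nat_lit 4) (nat_lit 250) (nat_lit 241) (nat_lit 169)) (XT.lf (nat_lit 0) (nat_lit 80849260523) (nat_lit 76) (nat_lit 90087880602) (nat_lit 152) (nat_lit 402273834) (nat_lit 15) (nat_lit 5) (nat_lit 16) (nat_lit 5) (nat_lit 17) (nat_lit 4) (nat_lit 251) (nat_lit 241) (nat_lit 168)))) (XT.nd (nat_lit 156) (nat_lit 76) (nat_lit 0) (XT.nd (nat_lit 78) (nat_lit 152) (nat_lit 0) (XT.lf (nat_lit 0) (nat_lit 27153189478) (nat_lit 152) (nat_lit 7616695019) (nat_lit 76) (nat_lit 153044899473) (nat_lit 14) (nat_lit 5) (nat_lit 16) (nat_lit 5) (nat_lit 15) (nat_lit 5) (nat_lit 252) (nat_lit 241)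 (nat_lit 167)) (XT.lf (nat_lit 0) (nat_lit 64170214876) (nat_lit 228) (nat_lit 111310720267) (nat_lit 76) (nat_lit 30472237585) (nat_lit 12) (nat_lit 5) (nat_lit 15) (nat_lit 5) (nat_lit 13) (nat_lit 4) (nat_lit 253) (nat_lit 241) (nat_lit 166))) (XT.nd (nat_lit 78) (nat_lit 76) (nat_lit 0) (XT.lf (nat_lit 0) (nat_lit 108812064568) (nat_lit 228) (nat_lit 15331654914) (nat_lit 76) (nat_lit 102357761433) (nat_lit 12) (nat_lit 5) (nat_lit 15) (nat_lit 5) (nat_lit 13) (nat_lit 4) (nat_lit 254) (nat_lit 241) (nat_lit 165)) (XT.nd (nat_lit 78) (nat_lit 0) (nat_lit 0) (XT.lf (nat_lit 0) (nat_lit 104331853708) (nat_lit 76) (nat_lit 60138025379) (nat_lit 152) (nat_lit 85014204606) (nat_lit 11) (nat_lit 5) (nat_lit 12) (nat_lit 5) (nat_lit 13) (nat_lit 4) (nat_lit 255) (nat_lit 241) (nat_lit 164)) (XT.lf (nat_lit 0) (nat_lit 229873206810) (nat_lit 152) (nat_lit 32722551908) (nat_lit 0) (nat_lit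 13108793293) (nat_lit 11) (nat_lit 5) (nat_lit 13) (nat_lit 4) (nat_lit 11) (nat_lit 4) (nat_lit 256) (nat_lit 241) (nat_lit 163))))))))
noncomputable def xc91 : XT := (XT.nd (nat_lit 1404) (nat_lit 0) (nat_lit 0) (XT.nd (nat_lit 702) (nat_lit 228) (nat_lit 0) (XT.nd (nat_lit 312) (nat_lit 228) (nat_lit 0) (XT.nd (nat_lit 156) (nat_lit 76) (nat_lit 0) (XT.nd (nat_lit 78) (nat_lit 0) (nat_lit 0) (XT.lf (nat_lit 0) (nat_lit 6759504515) (nat_lit 152) (nat_lit 202231999953) (nat_lit 76) (nat_lit 95752088762) (nat_lit 9) (nat_lit 5) (nat_lit 11) (nat_lit 5) (nat_lit 10) (nat_lit 4) (nat_lit 257) (nat_lit 241) (nat_lit 162)) (XT.lf (nat_lit 0) (nat_lit 64338286823) (nat_lit 152) (nat_lit 78438071159) (nat_lit 76) (nat_lit 194766032452) (nat_lit 9) (nat_lit 5) (nat_lit 11) (nat_lit 5) (nat_lit 10) (nat_lit 4) (nat_lit 258) (nat_lit 241) (nat_lit 161))) (XT.nd (nat_lit 78) (nat_lit 0) (nat_lit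 0) (XT.lf (nat_lit 0) (nat_lit 70171502199) (nat_lit 76) (nat_lit 63287699702) (nat_lit 152) (nat_lit 241366008734) (nat_lit 8) (nat_lit 5) (nat_lit 9) (nat_lit 5) (nat_lit 10) (nat_lit 4) (nat_lit 259) (nat_lit 241) (nat_lit 160)) (XT.lf (nat_lit 0) (nat_lit 218407910942) (nat_lit 152) (nat_lit 168557966331) (nat_lit 0) (nat_lit 29915628724) (nat_lit 8) (nat_lit 5) (nat_lit 10) (nat_lit 4) (nat_lit 8) (nat_lit 4) (nat_lit 260) (nat_lit 241) (nat_lit 159)))) (XT.nd (nat_lit 156) (nat_lit 152) (nat_lit 0) (XT.nd (nat_lit 78) (nat_lit 76) (nat_lit 0) (XT.lf (nat_lit 0) (nat_lit 319112341973) (nat_lit 152) (nat_lit 15062091241) (nat_lit 0) (nat_lit 130619800655) (nat_lit 8) (nat_lit 5) (nat_lit 10) (nat_lit 4) (nat_lit 8) (nat_lit 4) (nat_lit 261) (nat_lit 241) (nat_lit 158)) (XT.lf (nat_lit 0) (nat_lit 177236526917) (nat_lit 76) (nat_lit 265024650102) (nat_lit 76) (nat_lit 76531883479)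 (nat_lit 7) (nat_lit 4) (nat_lit 8) (nat_lit 5) (nat_lit 8) (nat_lit 4) (nat_lit 262) (nat_lit 241) (nat_lit 157))) (XT.nd (nat_lit 78) (nat_lit 76) (nat_lit 0) (XT.lf (nat_lit 0) (nat_lit 3548964128) (nat_lit 152) (nat_lit 180862689663) (nat_lit 76) (nat_lit 396337794753) (nat_lit 6) (nat_lit 5) (nat_lit 8) (nat_lit 5) (nat_lit 7) (nat_lit 4) (nat_lit 263) (nat_lit 241) (nat_lit 156)) (XT.nd (nat_lit 78) (nat_lit 0) (nat_lit 0) (XT.lf (nat_lit 0) (nat_lit 318838163) (nat_lit 76) (nat_lit 87500683263) (nat_lit 152) (nat_lit 563631168927) (nat_lit 5) (nat_lit 5) (nat_lit 6) (nat_lit 5) (nat_lit 7) (nat_lit 4) (nat_lit 264) (nat_lit 241) (nat_lit 155)) (XT.lf (nat_lit 0) (nat_lit 195626430639) (nat_lit 152) (nat_lit 503777093090) (nat_lit 0) (nat_lit 31719229730) (nat_lit 5) (nat_lit 5) (nat_lit 7) (nat_lit 4) (nat_lit 5) (nat_lit 4) (nat_lit 265) (nat_lit 241) (nat_lit 154)))))) (XT.nd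 (nat_lit 312) (nat_lit 152) (nat_lit 0) (XT.nd (nat_lit 156) (nat_lit 76) (nat_lit 0) (XT.nd (nat_lit 78) (nat_lit 0) (nat_lit 0) (XT.lf (nat_lit 0) (nat_lit 323770894143) (nat_lit 152) (nat_lit 338486173224) (nat_lit 0) (nat_lit 159863581217) (nat_lit 5) (nat_lit 5) (nat_lit 7) (nat_lit 4) (nat_lit 5) (nat_lit 4) (nat_lit 266) (nat_lit 241) (nat_lit 153)) (XT.lf (nat_lit 0) (nat_lit 471136869525) (nat_lit 152) (nat_lit 148401923113) (nat_lit 0) (nat_lit 307229459194) (nat_lit 5) (nat_lit 5) (nat_lit 7) (nat_lit 4) (nat_lit 5) (nat_lit 4) (nat_lit 267) (nat_lit 241) (nat_lit 152))) (XT.nd (nat_lit 78) (nat_lit 0) (nat_lit 0) (XT.lf (nat_lit 0) (nat_lit 77054633207) (nat_lit 76) (nat_lit 566743638965) (nat_lit 76) (nat_lit 402836143933) (nat_lit 4) (nat_lit 4) (nat_lit 5) (nat_lit 5) (nat_lit 5) (nat_lit 4) (nat_lit 268) (nat_lit 241) (nat_lit 151)) (XT.lf (nat_lit 0) (nat_lit 353007770038)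 (nat_lit 76) (nat_lit 497108358650) (nat_lit 76) (nat_lit 333200789965) (nat_lit 4) (nat_lit 4) (nat_lit 5) (nat_lit 5) (nat_lit 5) (nat_lit 4) (nat_lit 269) (nat_lit 241) (nat_lit 150)))) (XT.nd (nat_lit 156) (nat_lit 152) (nat_lit 0) (XT.nd (nat_lit 78) (nat_lit 0) (nat_lit 0) (XT.lf (nat_lit 0) (nat_lit 670353655279) (nat_lit 76) (nat_lit 417027895550) (nat_lit 76) (nat_lit 253120262820) (nat_lit 4) (nat_lit 4) (nat_lit 5) (nat_lit 5) (nat_lit 5) (nat_lit 4) (nat_lit 270) (nat_lit 241) (nat_lit 149)) (XT.lf (nat_lit 0) (nat_lit 1035301230162) (nat_lit 76) (nat_lit 324935457997) (nat_lit 76) (nat_lit 161027769575) (nat_lit 4) (nat_lit 4) (nat_lit 5) (nat_lit 5) (nat_lit 5) (nat_lit 4) (nat_lit 271) (nat_lit 241) (nat_lit 148))) (XT.nd (nat_lit 78) (nat_lit 152) (nat_lit 0) (XT.lf (nat_lit 0) (nat_lit 1454990773326) (nat_lit 76) (nat_lit 219029237428) (nat_lit 76) (nat_lit 55121500579)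 (nat_lit 4) (nat_lit 4) (nat_lit 5) (nat_lit 5) (nat_lit 5) (nat_lit 4) (nat_lit 272) (nat_lit 241) (nat_lit 147)) (XT.nd (nat_lit 78) (nat_lit 76) (nat_lit 0) (XT.lf (nat_lit 0) (nat_lit 60735143418) (nat_lit 152) (nat_lit 33327220611) (nat_lit 76) (nat_lit 1873723666914) (nat_lit 3) (nat_lit 5) (nat_lit 5) (nat_lit 5) (nat_lit 4) (nat_lit 4) (nat_lit 273) (nat_lit 241) (nat_lit 146)) (XT.lf (nat_lit 0) (nat_lit 201983641131) (nat_lit 152) (nat_lit 1978346244255) (nat_lit 0) (nat_lit 59455105845) (nat_lit 2) (nat_lit 5) (nat_lit 4) (nat_lit 4) (nat_lit 2) (nat_lit 4) (nat_lit 274) (nat_lit 241) (nat_lit 145))))))) (XT.nd (nat_lit 702) (nat_lit 0) (nat_lit 0) (XT.nd (nat_lit 312) (nat_lit 0) (nat_lit 0) (XT.nd (nat_lit 156) (nat_lit 0) (nat_lit 0) (XT.nd (nat_lit 78) (nat_lit 0) (nat_lit 0) (XT.lf (nat_lit 0) (nat_lit 370723569021) (nat_lit 152) (nat_lit 1952719597227) (nat_lit 0) (nat_lit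 228195006046) (nat_lit 2) (nat_lit 5) (nat_lit 4) (nat_lit 4) (nat_lit 2) (nat_lit 4) (nat_lit 275) (nat_lit 241) (nat_lit 144)) (XT.lf (nat_lit 0) (nat_lit 564774428047) (nat_lit 152) (nat_lit 1923249070231) (nat_lit 0) (nat_lit 422245840995) (nat_lit 2) (nat_lit 5) (nat_lit 4) (nat_lit 4) (nat_lit 2) (nat_lit 4) (nat_lit 276) (nat_lit 241) (nat_lit 143))) (XT.nd (nat_lit 78) (nat_lit 0) (nat_lit 0) (XT.lf (nat_lit 0) (nat_lit 787932865452) (nat_lit 152) (nat_lit 1889358066001) (nat_lit 0) (nat_lit 645404257463) (nat_lit 2) (nat_lit 5) (nat_lit 4) (nat_lit 4) (nat_lit 2) (nat_lit 4) (nat_lit 277) (nat_lit 241) (nat_lit 142)) (XT.lf (nat_lit 0) (nat_lit 1044565024577) (nat_lit 152) (nat_lit 1850383499669) (nat_lit 0) (nat_lit 902036398382) (nat_lit 2) (nat_lit 5) (nat_lit 4) (nat_lit 4) (nat_lit 2) (nat_lit 4) (nat_lit 278) (nat_lit 241) (nat_lit 141)))) (XT.nd (nat_lit 156) (nat_lit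 0) (nat_lit 0) (XT.nd (nat_lit 78) (nat_lit 0) (nat_lit 0) (XT.lf (nat_lit 0) (nat_lit 1339691969403) (nat_lit 152) (nat_lit 1805562825375) (nat_lit 0) (nat_lit 1197163327378) (nat_lit 2) (nat_lit 5) (nat_lit 4) (nat_lit 4) (nat_lit 2) (nat_lit 4) (nat_lit 279) (nat_lit 241) (nat_lit 140)) (XT.lf (nat_lit 0) (nat_lit 1679087922766) (nat_lit 152) (nat_lit 1754019116880) (nat_lit 0) (nat_lit 1536559266974) (nat_lit 2) (nat_lit 5) (nat_lit 4) (nat_lit 4) (nat_lit 2) (nat_lit 4) (nat_lit 280) (nat_lit 241) (nat_lit 139))) (XT.nd (nat_lit 78) (nat_lit 0) (nat_lit 0) (XT.lf (nat_lit 0) (nat_lit 2069393240273) (nat_lit 152) (nat_lit 1694743910325) (nat_lit 0) (nat_lit 1926864572511) (nat_lit 2) (nat_lit 5) (nat_lit 4) (nat_lit 4) (nat_lit 2) (nat_lit 4) (nat_lit 281) (nat_lit 241) (nat_lit 138)) (XT.nd (nat_lit 78) (nat_lit 0) (nat_lit 0) (XT.lf (nat_lit 0) (nat_lit 2518244330312) (nat_lit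 152) (nat_lit 1626577473405) (nat_lit 0) (nat_lit 2375715652140) (nat_lit 2) (nat_lit 5) (nat_lit 4) (nat_lit 4) (nat_lit 2) (nat_lit 4) (nat_lit 282) (nat_lit 241) (nat_lit 137)) (XT.lf (nat_lit 0) (nat_lit 3034423062034) (nat_lit 152) (nat_lit 1548186114965) (nat_lit 0) (nat_lit 2891894374811) (nat_lit 2) (nat_lit 5) (nat_lit 4) (nat_lit 4) (nat_lit 2) (nat_lit 4) (nat_lit 283) (nat_lit 241) (nat_lit 136)))))) (XT.nd (nat_lit 312) (nat_lit 0) (nat_lit 0) (XT.nd (nat_lit 156) (nat_lit 0) (nat_lit 0) (XT.nd (nat_lit 78) (nat_lit 0) (nat_lit 0) (XT.lf (nat_lit 0) (nat_lit 3628028584540) (nat_lit 152) (nat_lit 1458036091034) (nat_lit 0) (nat_lit 3485499889445) (nat_lit 2) (nat_lit 5) (nat_lit 4) (nat_lit 4) (nat_lit 2) (nat_lit 4) (nat_lit 284) (nat_lit 241) (nat_lit 135)) (XT.lf (nat_lit 0) (nat_lit 4310674918920) (nat_lit 152) (nat_lit 1354363596797) (nat_lit 0) (nat_lit 4168146216982)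 (nat_lit 2) (nat_lit 5) (nat_lit 4) (nat_lit 4) (nat_lit 2) (nat_lit 4) (nat_lit 285) (nat_lit 241) (nat_lit 134))) (XT.nd (nat_lit 78) (nat_lit 0) (nat_lit 0) (XT.lf (nat_lit 0) (nat_lit 5095718189110) (nat_lit 152) (nat_lit 1235140257366) (nat_lit 0) (nat_lit 4953189481220) (nat_lit 2) (nat_lit 5) (nat_lit 4) (nat_lit 4) (nat_lit 2) (nat_lit 4) (nat_lit 286) (nat_lit 241) (nat_lit 133)) (XT.lf (nat_lit 0) (nat_lit 5998517937351) (nat_lit 152) (nat_lit 1098033442188) (nat_lit 0) (nat_lit 5855989224286) (nat_lit 2) (nat_lit 5) (nat_lit 4) (nat_lit 4) (nat_lit 2) (nat_lit 4) (nat_lit 287) (nat_lit 241) (nat_lit 132)))) (XT.nd (nat_lit 156) (nat_lit 0) (nat_lit 0) (XT.nd (nat_lit 78) (nat_lit 0) (nat_lit 0) (XT.lf (nat_lit 0) (nat_lit 7036737636979) (nat_lit 152) (nat_lit 940360626617) (nat_lit 0) (nat_lit 6894208919414) (nat_lit 2) (nat_lit 5) (nat_lit 4) (nat_lit 4) (nat_lit 2) (nat_lit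 4) (nat_lit 288) (nat_lit 241) (nat_lit 131)) (XT.lf (nat_lit 0) (nat_lit 8230690282117) (nat_lit 152) (nat_lit 759036907741) (nat_lit 0) (nat_lit 8088161560639) (nat_lit 2) (nat_lit 5) (nat_lit 4) (nat_lit 4) (nat_lit 2) (nat_lit 4) (nat_lit 289) (nat_lit 241) (nat_lit 130))) (XT.nd (nat_lit 78) (nat_lit 0) (nat_lit 0) (XT.lf (nat_lit 0) (nat_lit 9603735815823) (nat_lit 152) (nat_lit 550514647580) (nat_lit 0) (nat_lit 9461207090941) (nat_lit 2) (nat_lit 5) (nat_lit 4) (nat_lit 4) (nat_lit 2) (nat_lit 4) (nat_lit 290) (nat_lit 241) (nat_lit 129)) (XT.nd (nat_lit 78) (nat_lit 0) (nat_lit 0) (XT.lf (nat_lit 0) (nat_lit 11182738172450) (nat_lit 152) (nat_lit 310714062785) (nat_lit 0) (nat_lit 11040209444610) (nat_lit 2) (nat_lit 5) (nat_lit 4) (nat_lit 4) (nat_lit 2) (nat_lit 4) (nat_lit 291) (nat_lit 241) (nat_lit 128)) (XT.lf (nat_lit 0) (nat_lit 12998590876369) (nat_lit 152) (nat_lit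 34943402783) (nat_lit 0) (nat_lit 12856062145955) (nat_lit 2) (nat_lit 5) (nat_lit 4) (nat_lit 4) (nat_lit 2) (nat_lit 4) (nat_lit 292) (nat_lit 241) (nat_lit 127))))))))
noncomputable def xc92 : XT := (XT.nd (nat_lit 31356) (nat_lit 0) (nat_lit 228) (XT.nd (nat_lit 30654) (nat_lit 0) (nat_lit 988) (XT.nd (nat_lit 1482) (nat_lit 0) (nat_lit 0) (XT.nd (nat_lit 156) (nat_lit 0) (nat_lit 0) (XT.nd (nat_lit 78) (nat_lit 0) (nat_lit 0) (XT.lf (nat_lit 0) (nat_lit 309770782496) (nat_lit 76) (nat_lit 14789877645500) (nat_lit 76) (nat_lit 14647348912849) (nat_lit 1) (nat_lit 4) (nat_lit 2) (nat_lit 5) (nat_lit 2) (nat_lit 4) (nat_lit 293) (nat_lit 241) (nat_lit 126)) (XT.lf (nat_lit 0) (nat_lit 710119247154) (nat_lit 76) (nat_lit 16807571947057) (nat_lit 76) (nat_lit 16665043212460) (nat_lit 1) (nat_lit 4) (nat_lit 2) (nat_lit 5) (nat_lit 2) (nat_lit 4) (nat_lit 294) (nat_lit 241) (nat_lit 125)))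 (XT.nd (nat_lit 1248) (nat_lit 0) (nat_lit 0) (XT.lf (nat_lit 0) (nat_lit 1170519972480) (nat_lit 76) (nat_lit 19127920398426) (nat_lit 76) (nat_lit 18985391662138) (nat_lit 1) (nat_lit 4) (nat_lit 2) (nat_lit 5) (nat_lit 2) (nat_lit 4) (nat_lit 295) (nat_lit 241) (nat_lit 124)) (XT.lf (nat_lit 0) (nat_lit 30670737804899) (nat_lit 76) (nat_lit 167804464881525) (nat_lit 76) (nat_lit 167661936135163) (nat_lit 1) (nat_lit 4) (nat_lit 2) (nat_lit 5) (nat_lit 2) (nat_lit 4) (nat_lit 311) (nat_lit 241) (nat_lit 108)))) (XT.nd (nat_lit 28938) (nat_lit 0) (nat_lit 1444) (XT.nd (nat_lit 78) (nat_lit 0) (nat_lit 0) (XT.lf (nat_lit 0) (nat_lit 35625231259274) (nat_lit 76) (nat_lit 192774347300750) (nat_lit 76) (nat_lit 192631818554232) (nat_lit 1) (nat_lit 4) (nat_lit 2) (nat_lit 5) (nat_lit 2) (nat_lit 4) (nat_lit 312) (nat_lit 241) (nat_lit 107)) (XT.lf (nat_lit 0) (nat_lit 41322898731076) (nat_lit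 76) (nat_lit 221489712083230) (nat_lit 76) (nat_lit 221347183336575) (nat_lit 1) (nat_lit 4) (nat_lit 2) (nat_lit 5) (nat_lit 2) (nat_lit 4) (nat_lit 313) (nat_lit 241) (nat_lit 106))) (XT.nd (nat_lit 78) (nat_lit 0) (nat_lit 0) (XT.lf (nat_lit 0) (nat_lit 5089049829) (nat_lit 380) (nat_lit 19521997030) (nat_lit 380) (nat_lit 19521997030) (nat_lit 20) (nat_lit 3) (nat_lit 25) (nat_lit 3) (nat_lit 25) (nat_lit 5) (nat_lit 242) (nat_lit 242) (nat_lit 176)) (XT.nd (nat_lit 78) (nat_lit 0) (nat_lit 76) (XT.lf (nat_lit 76) (nat_lit 1402564513) (nat_lit 0) (nat_lit 9604538777) (nat_lit 380) (nat_lit 83869055762) (nat_lit 21) (nat_lit 5) (nat_lit 20) (nat_lit 3) (nat_lit 25) (nat_lit 5) (nat_lit 243) (nat_lit 242) (nat_lit 175)) (XT.lf (nat_lit 0) (nat_lit 15586066549) (nat_lit 304) (nat_lit 51454606000) (nat_lit 380) (nat_lit 34893233939) (nat_lit 21) (nat_lit 5) (nat_lit 25) (nat_lit 5) (nat_lit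 26) (nat_lit 5) (nat_lit 244) (nat_lit 242) (nat_lit 174)))))) (XT.nd (nat_lit 312) (nat_lit 304) (nat_lit 0) (XT.nd (nat_lit 156) (nat_lit 228) (nat_lit 0) (XT.nd (nat_lit 78) (nat_lit 0) (nat_lit 76) (XT.lf (nat_lit 0) (nat_lit 21308049661) (nat_lit 304) (nat_lit 3591076501) (nat_lit 380) (nat_lit 85082769515) (nat_lit 21) (nat_lit 5) (nat_lit 25) (nat_lit 5) (nat_lit 26) (nat_lit 5) (nat_lit 245) (nat_lit 242) (nat_lit 173)) (XT.lf (nat_lit 0) (nat_lit 31313085192) (nat_lit 304) (nat_lit 63494195542) (nat_lit 76) (nat_lit 23916094437) (nat_lit 22) (nat_lit 5) (nat_lit 26) (nat_lit 5) (nat_lit 23) (nat_lit 5) (nat_lit 246) (nat_lit 242) (nat_lit 172))) (XT.nd (nat_lit 78) (nat_lit 304) (nat_lit 0) (XT.lf (nat_lit 0) (nat_lit 44200281147) (nat_lit 304) (nat_lit 6667405176) (nat_lit 76) (nat_lit 77701183997) (nat_lit 22) (nat_lit 5) (nat_lit 26) (nat_lit 5) (nat_lit 23) (nat_lit 5) (nat_lit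 247) (nat_lit 242) (nat_lit 171)) (XT.lf (nat_lit 0) (nat_lit 61800202659) (nat_lit 380) (nat_lit 75186783879) (nat_lit 76) (nat_lit 2487260185) (nat_lit 18) (nat_lit 5) (nat_lit 23) (nat_lit 5) (nat_lit 19) (nat_lit 5) (nat_lit 248) (nat_lit 242) (nat_lit 170)))) (XT.nd (nat_lit 156) (nat_lit 152) (nat_lit 0) (XT.nd (nat_lit 78) (nat_lit 152) (nat_lit 0) (XT.lf (nat_lit 0) (nat_lit 84826771804) (nat_lit 380) (nat_lit 7768019904) (nat_lit 76) (nat_lit 59002642366) (nat_lit 18) (nat_lit 5) (nat_lit 23) (nat_lit 5) (nat_lit 19) (nat_lit 5) (nat_lit 249) (nat_lit 242) (nat_lit 169)) (XT.lf (nat_lit 0) (nat_lit 76580513167) (nat_lit 152) (nat_lit 37897213087) (nat_lit 228) (nat_lit 50585816239) (nat_lit 16) (nat_lit 5) (nat_lit 18) (nat_lit 5) (nat_lit 19) (nat_lit 5) (nat_lit 250) (nat_lit 242) (nat_lit 168))) (XT.nd (nat_lit 78) (nat_lit 152) (nat_lit 0) (XT.lf (nat_lit 0) (nat_lit 150036529488)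 (nat_lit 228) (nat_lit 7089873877) (nat_lit 76) (nat_lit 23204135537) (nat_lit 16) (nat_lit 5) (nat_lit 19) (nat_lit 5) (nat_lit 17) (nat_lit 4) (nat_lit 251) (nat_lit 242) (nat_lit 167)) (XT.nd (nat_lit 78) (nat_lit 76) (nat_lit 0) (XT.lf (nat_lit 0) (nat_lit 92985087302) (nat_lit 76) (nat_lit 103598496427) (nat_lit 152) (nat_lit 455838700) (nat_lit 15) (nat_lit 5) (nat_lit 16) (nat_lit 5) (nat_lit 17) (nat_lit 4) (nat_lit 252) (nat_lit 242) (nat_lit 166)) (XT.lf (nat_lit 0) (nat_lit 31231535677) (nat_lit 152) (nat_lit 8751319371) (nat_lit 76) (nat_lit 176003323160) (nat_lit 14) (nat_lit 5) (nat_lit 16) (nat_lit 5) (nat_lit 15) (nat_lit 5) (nat_lit 253) (nat_lit 242) (nat_lit 165))))))) (XT.nd (nat_lit 702) (nat_lit 304) (nat_lit 0) (XT.nd (nat_lit 312) (nat_lit 228) (nat_lit 0) (XT.nd (nat_lit 156) (nat_lit 76) (nat_lit 0) (XT.nd (nat_lit 78) (nat_lit 0) (nat_lit 0) (XT.lf (nat_lit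 0) (nat_lit 73800831483) (nat_lit 228) (nat_lit 127999149185) (nat_lit 76) (nat_lit 35045389492) (nat_lit 12) (nat_lit 5) (nat_lit 15) (nat_lit 5) (nat_lit 13) (nat_lit 4) (nat_lit 254) (nat_lit 242) (nat_lit 164)) (XT.lf (nat_lit 0) (nat_lit 125138295449) (nat_lit 228) (nat_lit 17624290872) (nat_lit 76) (nat_lit 117713439796) (nat_lit 12) (nat_lit 5) (nat_lit 15) (nat_lit 5) (nat_lit 13) (nat_lit 4) (nat_lit 255) (nat_lit 242) (nat_lit 163))) (XT.nd (nat_lit 78) (nat_lit 0) (nat_lit 0) (XT.lf (nat_lit 0) (nat_lit 119988420758) (nat_lit 76) (nat_lit 69156065829) (nat_lit 152) (nat_lit 97761578853) (nat_lit 11) (nat_lit 5) (nat_lit 12) (nat_lit 5) (nat_lit 13) (nat_lit 4) (nat_lit 256) (nat_lit 242) (nat_lit 162)) (XT.lf (nat_lit 0) (nat_lit 264357871241) (nat_lit 152) (nat_lit 37624578593) (nat_lit 0) (nat_lit 15077222068) (nat_lit 11) (nat_lit 5) (nat_lit 13) (nat_lit 4) (nat_lit 11)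 (nat_lit 4) (nat_lit 257) (nat_lit 242) (nat_lit 161)))) (XT.nd (nat_lit 156) (nat_lit 76) (nat_lit 0) (XT.nd (nat_lit 78) (nat_lit 0) (nat_lit 0) (XT.lf (nat_lit 0) (nat_lit 7777057110) (nat_lit 152) (nat_lit 232560370444) (nat_lit 76) (nat_lit 110117152757) (nat_lit 9) (nat_lit 5) (nat_lit 11) (nat_lit 5) (nat_lit 10) (nat_lit 4) (nat_lit 258) (nat_lit 242) (nat_lit 160)) (XT.lf (nat_lit 0) (nat_lit 73992183689) (nat_lit 152) (nat_lit 90198190962) (nat_lit 76) (nat_lit 223982894433) (nat_lit 9) (nat_lit 5) (nat_lit 11) (nat_lit 5) (nat_lit 10) (nat_lit 4) (nat_lit 259) (nat_lit 242) (nat_lit 159))) (XT.nd (nat_lit 78) (nat_lit 0) (nat_lit 0) (XT.lf (nat_lit 0) (nat_lit 80702564269) (nat_lit 76) (nat_lit 72778481371) (nat_lit 152) (nat_lit 277567496124) (nat_lit 8) (nat_lit 5) (nat_lit 9) (nat_lit 5) (nat_lit 10) (nat_lit 4) (nat_lit 260) (nat_lit 242) (nat_lit 158)) (XT.nd (nat_lit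 78) (nat_lit 0) (nat_lit 0) (XT.lf (nat_lit 0) (nat_lit 251171759954) (nat_lit 152) (nat_lit 193836714382) (nat_lit 0) (nat_lit 34404853032) (nat_lit 8) (nat_lit 5) (nat_lit 10) (nat_lit 4) (nat_lit 8) (nat_lit 4) (nat_lit 261) (nat_lit 242) (nat_lit 157)) (XT.lf (nat_lit 0) (nat_lit 366981508375) (nat_lit 152) (nat_lit 17317103276) (nat_lit 0) (nat_lit 150214405535) (nat_lit 8) (nat_lit 5) (nat_lit 10) (nat_lit 4) (nat_lit 8) (nat_lit 4) (nat_lit 262) (nat_lit 242) (nat_lit 156)))))) (XT.nd (nat_lit 312) (nat_lit 76) (nat_lit 0) (XT.nd (nat_lit 156) (nat_lit 76) (nat_lit 0) (XT.nd (nat_lit 78) (nat_lit 76) (nat_lit 0) (XT.lf (nat_lit 0) (nat_lit 203826112076) (nat_lit 76) (nat_lit 304776424658) (nat_lit 76) (nat_lit 88009151455) (nat_lit 7) (nat_lit 4) (nat_lit 8) (nat_lit 5) (nat_lit 8) (nat_lit 4) (nat_lit 263) (nat_lit 242) (nat_lit 155)) (XT.lf (nat_lit 0) (nat_lit 4083300646) (nat_lit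 152) (nat_lit 207988324953) (nat_lit 76) (nat_lit 455789938486) (nat_lit 6) (nat_lit 5) (nat_lit 8) (nat_lit 5) (nat_lit 7) (nat_lit 4) (nat_lit 264) (nat_lit 242) (nat_lit 154))) (XT.nd (nat_lit 78) (nat_lit 0) (nat_lit 0) (XT.lf (nat_lit 0) (nat_lit 370260768) (nat_lit 76) (nat_lit 100624069897) (nat_lit 152) (nat_lit 648173678517) (nat_lit 5) (nat_lit 5) (nat_lit 6) (nat_lit 5) (nat_lit 7) (nat_lit 4) (nat_lit 265) (nat_lit 242) (nat_lit 153)) (XT.lf (nat_lit 0) (nat_lit 224972092691) (nat_lit 152) (nat_lit 579340343528) (nat_lit 0) (nat_lit 36478473405) (nat_lit 5) (nat_lit 5) (nat_lit 7) (nat_lit 4) (nat_lit 5) (nat_lit 4) (nat_lit 266) (nat_lit 242) (nat_lit 152)))) (XT.nd (nat_lit 156) (nat_lit 76) (nat_lit 0) (XT.nd (nat_lit 78) (nat_lit 0) (nat_lit 0) (XT.lf (nat_lit 0) (nat_lit 372338004313) (nat_lit 152) (nat_lit 389256217880) (nat_lit 0) (nat_lit 183844300326) (nat_lit 5)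 (nat_lit 5) (nat_lit 7) (nat_lit 4) (nat_lit 5) (nat_lit 4) (nat_lit 267) (nat_lit 242) (nat_lit 151)) (XT.lf (nat_lit 0) (nat_lit 541808683475) (nat_lit 152) (nat_lit 170659706078) (nat_lit 0) (nat_lit 353314905835) (nat_lit 5) (nat_lit 5) (nat_lit 7) (nat_lit 4) (nat_lit 5) (nat_lit 4) (nat_lit 268) (nat_lit 242) (nat_lit 150))) (XT.nd (nat_lit 78) (nat_lit 0) (nat_lit 0) (XT.lf (nat_lit 0) (nat_lit 88615219803) (nat_lit 76) (nat_lit 651754008331) (nat_lit 76) (nat_lit 463260166646) (nat_lit 4) (nat_lit 4) (nat_lit 5) (nat_lit 5) (nat_lit 5) (nat_lit 4) (nat_lit 269) (nat_lit 242) (nat_lit 149)) (XT.nd (nat_lit 78) (nat_lit 0) (nat_lit 0) (XT.lf (nat_lit 0) (nat_lit 405961015209) (nat_lit 76) (nat_lit 571673589423) (nat_lit 76) (nat_lit 383179692045) (nat_lit 4) (nat_lit 4) (nat_lit 5) (nat_lit 5) (nat_lit 5) (nat_lit 4) (nat_lit 270) (nat_lit 242) (nat_lit 148)) (XT.lf (nat_lit 0)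 (nat_lit 770908511975) (nat_lit 76) (nat_lit 479581190296) (nat_lit 76) (nat_lit 291087244491) (nat_lit 4) (nat_lit 4) (nat_lit 5) (nat_lit 5) (nat_lit 5) (nat_lit 4) (nat_lit 271) (nat_lit 242) (nat_lit 147))))))))
noncomputable def xc93 : XT := (XT.nd (nat_lit 1404) (nat_lit 76) (nat_lit 0) (XT.nd (nat_lit 702) (nat_lit 0) (nat_lit 0) (XT.nd (nat_lit 312) (nat_lit 0) (nat_lit 0) (XT.nd (nat_lit 156) (nat_lit 152) (nat_lit 0) (XT.nd (nat_lit 78) (nat_lit 0) (nat_lit 0) (XT.lf (nat_lit 0) (nat_lit 1190597987212) (nat_lit 76) (nat_lit 373675003143) (nat_lit 76) (nat_lit 185181015227) (nat_lit 4) (nat_lit 4) (nat_lit 5) (nat_lit 5) (nat_lit 5) (nat_lit 4) (nat_lit 272) (nat_lit 242) (nat_lit 146)) (XT.lf (nat_lit 0) (nat_lit 1673240756738) (nat_lit 76) (nat_lit 251882950387) (nat_lit 76) (nat_lit 63388925853) (nat_lit 4) (nat_lit 4) (nat_lit 5) (nat_lit 5) (nat_lit 5) (nat_lit 4) (nat_lit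 273) (nat_lit 242) (nat_lit 145))) (XT.nd (nat_lit 78) (nat_lit 76) (nat_lit 0) (XT.lf (nat_lit 0) (nat_lit 69846048503) (nat_lit 152) (nat_lit 38325052094) (nat_lit 76) (nat_lit 2154782739316) (nat_lit 3) (nat_lit 5) (nat_lit 5) (nat_lit 5) (nat_lit 4) (nat_lit 4) (nat_lit 274) (nat_lit 242) (nat_lit 144)) (XT.lf (nat_lit 0) (nat_lit 232281812313) (nat_lit 152) (nat_lit 2275096920172) (nat_lit 0) (nat_lit 68373913126) (nat_lit 2) (nat_lit 5) (nat_lit 4) (nat_lit 4) (nat_lit 2) (nat_lit 4) (nat_lit 275) (nat_lit 242) (nat_lit 143)))) (XT.nd (nat_lit 156) (nat_lit 0) (nat_lit 0) (XT.nd (nat_lit 78) (nat_lit 0) (nat_lit 0) (XT.lf (nat_lit 0) (nat_lit 426332647862) (nat_lit 152) (nat_lit 2245626440532) (nat_lit 0) (nat_lit 262424727739) (nat_lit 2) (nat_lit 5) (nat_lit 4) (nat_lit 4) (nat_lit 2) (nat_lit 4) (nat_lit 276) (nat_lit 242) (nat_lit 142)) (XT.lf (nat_lit 0) (nat_lit 649491064853)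 (nat_lit 152) (nat_lit 2211735477480) (nat_lit 0) (nat_lit 485583126523) (nat_lit 2) (nat_lit 5) (nat_lit 4) (nat_lit 4) (nat_lit 2) (nat_lit 4) (nat_lit 277) (nat_lit 242) (nat_lit 141))) (XT.nd (nat_lit 78) (nat_lit 0) (nat_lit 0) (XT.lf (nat_lit 0) (nat_lit 906123206226) (nat_lit 152) (nat_lit 2172760946956) (nat_lit 0) (nat_lit 742215252065) (nat_lit 2) (nat_lit 5) (nat_lit 4) (nat_lit 4) (nat_lit 2) (nat_lit 4) (nat_lit 278) (nat_lit 242) (nat_lit 140)) (XT.nd (nat_lit 78) (nat_lit 0) (nat_lit 0) (XT.lf (nat_lit 0) (nat_lit 1201250135616) (nat_lit 152) (nat_lit 2127940303799) (nat_lit 0) (nat_lit 1037342167689) (nat_lit 2) (nat_lit 5) (nat_lit 4) (nat_lit 4) (nat_lit 2) (nat_lit 4) (nat_lit 279) (nat_lit 242) (nat_lit 139)) (XT.lf (nat_lit 0) (nat_lit 1540646075556) (nat_lit 152) (nat_lit 2076396622380) (nat_lit 0) (nat_lit 1376738095658) (nat_lit 2) (nat_lit 5) (nat_lit 4) (nat_lit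 4) (nat_lit 2) (nat_lit 4) (nat_lit 280) (nat_lit 242) (nat_lit 138)))))) (XT.nd (nat_lit 312) (nat_lit 0) (nat_lit 0) (XT.nd (nat_lit 156) (nat_lit 0) (nat_lit 0) (XT.nd (nat_lit 78) (nat_lit 0) (nat_lit 0) (XT.lf (nat_lit 0) (nat_lit 1930951381391) (nat_lit 152) (nat_lit 2017121439368) (nat_lit 0) (nat_lit 1767043391084) (nat_lit 2) (nat_lit 5) (nat_lit 4) (nat_lit 4) (nat_lit 2) (nat_lit 4) (nat_lit 281) (nat_lit 242) (nat_lit 137)) (XT.lf (nat_lit 0) (nat_lit 2379802461280) (nat_lit 152) (nat_lit 1948955022922) (nat_lit 0) (nat_lit 2215894461921) (nat_lit 2) (nat_lit 5) (nat_lit 4) (nat_lit 4) (nat_lit 2) (nat_lit 4) (nat_lit 282) (nat_lit 242) (nat_lit 136))) (XT.nd (nat_lit 78) (nat_lit 0) (nat_lit 0) (XT.lf (nat_lit 0) (nat_lit 2895981184176) (nat_lit 152) (nat_lit 1870563682284) (nat_lit 0) (nat_lit 2732073176947) (nat_lit 2) (nat_lit 5) (nat_lit 4) (nat_lit 4) (nat_lit 2) (nat_lit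 4) (nat_lit 283) (nat_lit 242) (nat_lit 135)) (XT.lf (nat_lit 0) (nat_lit 3489586699007) (nat_lit 152) (nat_lit 1780413673834) (nat_lit 0) (nat_lit 3325678684933) (nat_lit 2) (nat_lit 5) (nat_lit 4) (nat_lit 4) (nat_lit 2) (nat_lit 4) (nat_lit 284) (nat_lit 242) (nat_lit 134)))) (XT.nd (nat_lit 156) (nat_lit 0) (nat_lit 0) (XT.nd (nat_lit 78) (nat_lit 0) (nat_lit 0) (XT.lf (nat_lit 0) (nat_lit 4172233026714) (nat_lit 152) (nat_lit 1676741193058) (nat_lit 0) (nat_lit 4008325006689) (nat_lit 2) (nat_lit 5) (nat_lit 4) (nat_lit 4) (nat_lit 2) (nat_lit 4) (nat_lit 285) (nat_lit 242) (nat_lit 133)) (XT.lf (nat_lit 0) (nat_lit 4957276291100) (nat_lit 152) (nat_lit 1557517865333) (nat_lit 0) (nat_lit 4793368265900) (nat_lit 2) (nat_lit 5) (nat_lit 4) (nat_lit 4) (nat_lit 2) (nat_lit 4) (nat_lit 286) (nat_lit 242) (nat_lit 132))) (XT.nd (nat_lit 78) (nat_lit 0) (nat_lit 0) (XT.lf (nat_lit 0)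 (nat_lit 5860076034296) (nat_lit 152) (nat_lit 1420411060334) (nat_lit 0) (nat_lit 5696168004595) (nat_lit 2) (nat_lit 5) (nat_lit 4) (nat_lit 4) (nat_lit 2) (nat_lit 4) (nat_lit 287) (nat_lit 242) (nat_lit 131)) (XT.nd (nat_lit 78) (nat_lit 0) (nat_lit 0) (XT.lf (nat_lit 0) (nat_lit 6898295729536) (nat_lit 152) (nat_lit 1262738253614) (nat_lit 0) (nat_lit 6734387695922) (nat_lit 2) (nat_lit 5) (nat_lit 4) (nat_lit 4) (nat_lit 2) (nat_lit 4) (nat_lit 288) (nat_lit 242) (nat_lit 130)) (XT.lf (nat_lit 0) (nat_lit 8092248370858) (nat_lit 152) (nat_lit 1081414542434) (nat_lit 0) (nat_lit 7928340333842) (nat_lit 2) (nat_lit 5) (nat_lit 4) (nat_lit 4) (nat_lit 2) (nat_lit 4) (nat_lit 289) (nat_lit 242) (nat_lit 129))))))) (XT.nd (nat_lit 30732) (nat_lit 0) (nat_lit 1140) (XT.nd (nat_lit 312) (nat_lit 76) (nat_lit 0) (XT.nd (nat_lit 156) (nat_lit 0) (nat_lit 0) (XT.nd (nat_lit 78) (nat_lit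 0) (nat_lit 0) (XT.lf (nat_lit 0) (nat_lit 9465293901246) (nat_lit 152) (nat_lit 872892288966) (nat_lit 0) (nat_lit 9301385861270) (nat_lit 2) (nat_lit 5) (nat_lit 4) (nat_lit 4) (nat_lit 2) (nat_lit 4) (nat_lit 290) (nat_lit 242) (nat_lit 128)) (XT.lf (nat_lit 0) (nat_lit 11044296254988) (nat_lit 152) (nat_lit 633091709991) (nat_lit 0) (nat_lit 10880388212440) (nat_lit 2) (nat_lit 5) (nat_lit 4) (nat_lit 4) (nat_lit 2) (nat_lit 4) (nat_lit 291) (nat_lit 242) (nat_lit 127))) (XT.nd (nat_lit 78) (nat_lit 0) (nat_lit 0) (XT.lf (nat_lit 0) (nat_lit 12860148956398) (nat_lit 152) (nat_lit 357321055049) (nat_lit 0) (nat_lit 12696240911612) (nat_lit 2) (nat_lit 5) (nat_lit 4) (nat_lit 4) (nat_lit 2) (nat_lit 4) (nat_lit 292) (nat_lit 242) (nat_lit 126)) (XT.lf (nat_lit 0) (nat_lit 14948379558328) (nat_lit 152) (nat_lit 40184811328) (nat_lit 0) (nat_lit 14784471511597) (nat_lit 2) (nat_lit 5)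 (nat_lit 4) (nat_lit 4) (nat_lit 2) (nat_lit 4) (nat_lit 293) (nat_lit 242) (nat_lit 125)))) (XT.nd (nat_lit 1248) (nat_lit 0) (nat_lit 0) (XT.nd (nat_lit 78) (nat_lit 0) (nat_lit 0) (XT.lf (nat_lit 0) (nat_lit 356236497113) (nat_lit 76) (nat_lit 17008359243026) (nat_lit 76) (nat_lit 16844451194603) (nat_lit 1) (nat_lit 4) (nat_lit 2) (nat_lit 5) (nat_lit 2) (nat_lit 4) (nat_lit 294) (nat_lit 242) (nat_lit 124)) (XT.lf (nat_lit 0) (nat_lit 816637218786) (nat_lit 76) (nat_lit 19328707696247) (nat_lit 76) (nat_lit 19164799646353) (nat_lit 1) (nat_lit 4) (nat_lit 2) (nat_lit 5) (nat_lit 2) (nat_lit 4) (nat_lit 295) (nat_lit 242) (nat_lit 123))) (XT.nd (nat_lit 78) (nat_lit 0) (nat_lit 0) (XT.lf (nat_lit 0) (nat_lit 26008599851400) (nat_lit 76) (nat_lit 146292310956434) (nat_lit 76) (nat_lit 146128402897938) (nat_lit 1) (nat_lit 4) (nat_lit 2) (nat_lit 5) (nat_lit 2) (nat_lit 4) (nat_lit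 310) (nat_lit 242) (nat_lit 108)) (XT.nd (nat_lit 78) (nat_lit 0) (nat_lit 0) (XT.lf (nat_lit 0) (nat_lit 30316855029456) (nat_lit 76) (nat_lit 168005252190371) (nat_lit 76) (nat_lit 167841344131718) (nat_lit 1) (nat_lit 4) (nat_lit 2) (nat_lit 5) (nat_lit 2) (nat_lit 4) (nat_lit 311) (nat_lit 242) (nat_lit 107)) (XT.lf (nat_lit 0) (nat_lit 35271348483492) (nat_lit 76) (nat_lit 192975134609769) (nat_lit 76) (nat_lit 192811226550979) (nat_lit 1) (nat_lit 4) (nat_lit 2) (nat_lit 5) (nat_lit 2) (nat_lit 4) (nat_lit 312) (nat_lit 242) (nat_lit 106)))))) (XT.nd (nat_lit 312) (nat_lit 304) (nat_lit 0) (XT.nd (nat_lit 156) (nat_lit 0) (nat_lit 76) (XT.nd (nat_lit 78) (nat_lit 0) (nat_lit 0) (XT.lf (nat_lit 0) (nat_lit 5859662841) (nat_lit 380) (nat_lit 22446106251) (nat_lit 380) (nat_lit 22446106251) (nat_lit 20) (nat_lit 3) (nat_lit 25) (nat_lit 3) (nat_lit 25) (nat_lit 5) (nat_lit 243) (nat_lit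 243) (nat_lit 174)) (XT.lf (nat_lit 76) (nat_lit 1620948918) (nat_lit 0) (nat_lit 11050169445) (nat_lit 380) (nat_lit 96434458113) (nat_lit 21) (nat_lit 5) (nat_lit 20) (nat_lit 3) (nat_lit 25) (nat_lit 5) (nat_lit 244) (nat_lit 243) (nat_lit 173))) (XT.nd (nat_lit 78) (nat_lit 0) (nat_lit 0) (XT.lf (nat_lit 0) (nat_lit 17935058807) (nat_lit 304) (nat_lit 59163917660) (nat_lit 380) (nat_lit 40123298003) (nat_lit 21) (nat_lit 5) (nat_lit 25) (nat_lit 5) (nat_lit 26) (nat_lit 5) (nat_lit 245) (nat_lit 243) (nat_lit 172)) (XT.lf (nat_lit 0) (nat_lit 24513893871) (nat_lit 304) (nat_lit 4122016899) (nat_lit 380) (nat_lit 97841775354) (nat_lit 21) (nat_lit 5) (nat_lit 25) (nat_lit 5) (nat_lit 26) (nat_lit 5) (nat_lit 246) (nat_lit 243) (nat_lit 171)))) (XT.nd (nat_lit 156) (nat_lit 456) (nat_lit 0) (XT.nd (nat_lit 78) (nat_lit 0) (nat_lit 0) (XT.lf (nat_lit 0) (nat_lit 36018678499) (nat_lit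 304) (nat_lit 73009555483) (nat_lit 76) (nat_lit 27502310807) (nat_lit 22) (nat_lit 5) (nat_lit 26) (nat_lit 5) (nat_lit 23) (nat_lit 5) (nat_lit 247) (nat_lit 243) (nat_lit 170)) (XT.lf (nat_lit 0) (nat_lit 50837828126) (nat_lit 304) (nat_lit 7659890395) (nat_lit 76) (nat_lit 89355320034) (nat_lit 22) (nat_lit 5) (nat_lit 26) (nat_lit 5) (nat_lit 23) (nat_lit 5) (nat_lit 248) (nat_lit 243) (nat_lit 169))) (XT.nd (nat_lit 78) (nat_lit 152) (nat_lit 0) (XT.lf (nat_lit 0) (nat_lit 71077079083) (nat_lit 380) (nat_lit 86456485304) (nat_lit 76) (nat_lit 2860760623) (nat_lit 18) (nat_lit 5) (nat_lit 23) (nat_lit 5) (nat_lit 19) (nat_lit 5) (nat_lit 249) (nat_lit 243) (nat_lit 168)) (XT.nd (nat_lit 78) (nat_lit 152) (nat_lit 0) (XT.lf (nat_lit 0) (nat_lit 97556740640) (nat_lit 380) (nat_lit 8925991449) (nat_lit 76) (nat_lit 67853396468) (nat_lit 18) (nat_lit 5) (nat_lit 23) (nat_lit 5) (nat_lit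 19) (nat_lit 5) (nat_lit 250) (nat_lit 243) (nat_lit 167)) (XT.lf (nat_lit 0) (nat_lit 88074492882) (nat_lit 152) (nat_lit 43580354717) (nat_lit 228) (nat_lit 58167382849) (nat_lit 16) (nat_lit 5) (nat_lit 18) (nat_lit 5) (nat_lit 19) (nat_lit 5) (nat_lit 251) (nat_lit 243) (nat_lit 166))))))))
noncomputable def xc94 : XT := (XT.nd (nat_lit 1404) (nat_lit 228) (nat_lit 0) (XT.nd (nat_lit 702) (nat_lit 304) (nat_lit 0) (XT.nd (nat_lit 312) (nat_lit 228) (nat_lit 0) (XT.nd (nat_lit 156) (nat_lit 228) (nat_lit 0) (XT.nd (nat_lit 78) (nat_lit 76) (nat_lit 0) (XT.lf (nat_lit 0) (nat_lit 172546810692) (nat_lit 228) (nat_lit 8146671030) (nat_lit 76) (nat_lit 26685896828) (nat_lit 16) (nat_lit 5) (nat_lit 19) (nat_lit 5) (nat_lit 17) (nat_lit 4) (nat_lit 252) (nat_lit 243) (nat_lit 165)) (XT.lf (nat_lit 0) (nat_lit 106939230511) (nat_lit 76) (nat_lit 119136330425) (nat_lit 152) (nat_lit 519090718)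 (nat_lit 15) (nat_lit 5) (nat_lit 16) (nat_lit 5) (nat_lit 17) (nat_lit 4) (nat_lit 253) (nat_lit 243) (nat_lit 164))) (XT.nd (nat_lit 78) (nat_lit 152) (nat_lit 0) (XT.lf (nat_lit 0) (nat_lit 35920324839) (nat_lit 152) (nat_lit 10058058940) (nat_lit 76) (nat_lit 202405098583) (nat_lit 14) (nat_lit 5) (nat_lit 16) (nat_lit 5) (nat_lit 15) (nat_lit 5) (nat_lit 254) (nat_lit 243) (nat_lit 163)) (XT.lf (nat_lit 0) (nat_lit 84874800724) (nat_lit 228) (nat_lit 147192836972) (nat_lit 76) (nat_lit 40303949349) (nat_lit 12) (nat_lit 5) (nat_lit 15) (nat_lit 5) (nat_lit 13) (nat_lit 4) (nat_lit 255) (nat_lit 243) (nat_lit 162)))) (XT.nd (nat_lit 156) (nat_lit 152) (nat_lit 0) (XT.nd (nat_lit 78) (nat_lit 76) (nat_lit 0) (XT.lf (nat_lit 0) (nat_lit 143912382826) (nat_lit 228) (nat_lit 20262556598) (nat_lit 76) (nat_lit 135371978750) (nat_lit 12) (nat_lit 5) (nat_lit 15) (nat_lit 5) (nat_lit 13)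 (nat_lit 4) (nat_lit 256) (nat_lit 243) (nat_lit 161)) (XT.lf (nat_lit 0) (nat_lit 137991817327) (nat_lit 76) (nat_lit 79527461822) (nat_lit 152) (nat_lit 112422219127) (nat_lit 11) (nat_lit 5) (nat_lit 12) (nat_lit 5) (nat_lit 13) (nat_lit 4) (nat_lit 257) (nat_lit 243) (nat_lit 160))) (XT.nd (nat_lit 78) (nat_lit 152) (nat_lit 0) (XT.lf (nat_lit 0) (nat_lit 304014337114) (nat_lit 152) (nat_lit 43263459256) (nat_lit 0) (nat_lit 17340400675) (nat_lit 11) (nat_lit 5) (nat_lit 13) (nat_lit 4) (nat_lit 11) (nat_lit 4) (nat_lit 258) (nat_lit 243) (nat_lit 159)) (XT.nd (nat_lit 78) (nat_lit 0) (nat_lit 0) (XT.lf (nat_lit 0) (nat_lit 8946358148) (nat_lit 152) (nat_lit 267439564384) (nat_lit 76) (nat_lit 126636427509) (nat_lit 9) (nat_lit 5) (nat_lit 11) (nat_lit 5) (nat_lit 10) (nat_lit 4) (nat_lit 259) (nat_lit 243) (nat_lit 158)) (XT.lf (nat_lit 0) (nat_lit 85093396000) (nat_lit 152) (nat_lit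 103723692104) (nat_lit 76) (nat_lit 257581808457) (nat_lit 9) (nat_lit 5) (nat_lit 11) (nat_lit 5) (nat_lit 10) (nat_lit 4) (nat_lit 260) (nat_lit 243) (nat_lit 157)))))) (XT.nd (nat_lit 312) (nat_lit 152) (nat_lit 0) (XT.nd (nat_lit 156) (nat_lit 76) (nat_lit 0) (XT.nd (nat_lit 78) (nat_lit 0) (nat_lit 0) (XT.lf (nat_lit 0) (nat_lit 92811984253) (nat_lit 76) (nat_lit 83693459032) (nat_lit 152) (nat_lit 319200039129) (nat_lit 8) (nat_lit 5) (nat_lit 9) (nat_lit 5) (nat_lit 10) (nat_lit 4) (nat_lit 261) (nat_lit 243) (nat_lit 156)) (XT.lf (nat_lit 0) (nat_lit 288849537083) (nat_lit 152) (nat_lit 222908480973) (nat_lit 0) (nat_lit 39567002537) (nat_lit 8) (nat_lit 5) (nat_lit 10) (nat_lit 4) (nat_lit 8) (nat_lit 4) (nat_lit 262) (nat_lit 243) (nat_lit 155))) (XT.nd (nat_lit 78) (nat_lit 76) (nat_lit 0) (XT.lf (nat_lit 0) (nat_lit 422030485184) (nat_lit 152) (nat_lit 19911416102) (nat_lit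 0) (nat_lit 172747802496) (nat_lit 8) (nat_lit 5) (nat_lit 10) (nat_lit 4) (nat_lit 8) (nat_lit 4) (nat_lit 263) (nat_lit 243) (nat_lit 154)) (XT.lf (nat_lit 0) (nat_lit 234403133705) (nat_lit 76) (nat_lit 350491434322) (nat_lit 76) (nat_lit 101208622816) (nat_lit 7) (nat_lit 4) (nat_lit 8) (nat_lit 5) (nat_lit 8) (nat_lit 4) (nat_lit 264) (nat_lit 243) (nat_lit 153)))) (XT.nd (nat_lit 156) (nat_lit 0) (nat_lit 0) (XT.nd (nat_lit 78) (nat_lit 76) (nat_lit 0) (XT.lf (nat_lit 0) (nat_lit 4697301905) (nat_lit 152) (nat_lit 239183724426) (nat_lit 76) (nat_lit 524159544207) (nat_lit 6) (nat_lit 5) (nat_lit 8) (nat_lit 5) (nat_lit 7) (nat_lit 4) (nat_lit 265) (nat_lit 243) (nat_lit 152)) (XT.lf (nat_lit 0) (nat_lit 428519641) (nat_lit 76) (nat_lit 115716382949) (nat_lit 152) (nat_lit 745398092677) (nat_lit 5) (nat_lit 5) (nat_lit 6) (nat_lit 5) (nat_lit 7) (nat_lit 4) (nat_lit 266) (nat_lit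 243) (nat_lit 151))) (XT.nd (nat_lit 78) (nat_lit 0) (nat_lit 0) (XT.lf (nat_lit 0) (nat_lit 258719190116) (nat_lit 152) (nat_lit 666238889555) (nat_lit 0) (nat_lit 41951272178) (nat_lit 5) (nat_lit 5) (nat_lit 7) (nat_lit 4) (nat_lit 5) (nat_lit 4) (nat_lit 267) (nat_lit 243) (nat_lit 150)) (XT.nd (nat_lit 78) (nat_lit 0) (nat_lit 0) (XT.lf (nat_lit 0) (nat_lit 428189821065) (nat_lit 152) (nat_lit 447642471866) (nat_lit 0) (nat_lit 211421839082) (nat_lit 5) (nat_lit 5) (nat_lit 7) (nat_lit 4) (nat_lit 5) (nat_lit 4) (nat_lit 268) (nat_lit 243) (nat_lit 149)) (XT.lf (nat_lit 0) (nat_lit 623080956522) (nat_lit 152) (nat_lit 196256767471) (nat_lit 0) (nat_lit 406312918846) (nat_lit 5) (nat_lit 5) (nat_lit 7) (nat_lit 4) (nat_lit 5) (nat_lit 4) (nat_lit 269) (nat_lit 243) (nat_lit 148))))))) (XT.nd (nat_lit 702) (nat_lit 0) (nat_lit 0) (XT.nd (nat_lit 312) (nat_lit 152) (nat_lit 0) (XT.nd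 (nat_lit 156) (nat_lit 0) (nat_lit 0) (XT.nd (nat_lit 78) (nat_lit 0) (nat_lit 0) (XT.lf (nat_lit 0) (nat_lit 101909311178) (nat_lit 76) (nat_lit 749516219994) (nat_lit 76) (nat_lit 532748133890) (nat_lit 4) (nat_lit 4) (nat_lit 5) (nat_lit 5) (nat_lit 5) (nat_lit 4) (nat_lit 270) (nat_lit 243) (nat_lit 147)) (XT.lf (nat_lit 0) (nat_lit 466856740016) (nat_lit 76) (nat_lit 657423854282) (nat_lit 76) (nat_lit 440655726068) (nat_lit 4) (nat_lit 4) (nat_lit 5) (nat_lit 5) (nat_lit 5) (nat_lit 4) (nat_lit 271) (nat_lit 243) (nat_lit 146))) (XT.nd (nat_lit 78) (nat_lit 0) (nat_lit 0) (XT.lf (nat_lit 0) (nat_lit 886546156185) (nat_lit 76) (nat_lit 551517696185) (nat_lit 76) (nat_lit 334749531352) (nat_lit 4) (nat_lit 4) (nat_lit 5) (nat_lit 5) (nat_lit 5) (nat_lit 4) (nat_lit 272) (nat_lit 243) (nat_lit 145)) (XT.lf (nat_lit 0) (nat_lit 1369188874349) (nat_lit 76) (nat_lit 429725668697) (nat_lit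 76) (nat_lit 212957472021) (nat_lit 4) (nat_lit 4) (nat_lit 5) (nat_lit 5) (nat_lit 5) (nat_lit 4) (nat_lit 273) (nat_lit 243) (nat_lit 144)))) (XT.nd (nat_lit 156) (nat_lit 76) (nat_lit 0) (XT.nd (nat_lit 78) (nat_lit 76) (nat_lit 0) (XT.lf (nat_lit 0) (nat_lit 1924227904210) (nat_lit 76) (nat_lit 289664884322) (nat_lit 76) (nat_lit 72896659958) (nat_lit 4) (nat_lit 4) (nat_lit 5) (nat_lit 5) (nat_lit 5) (nat_lit 4) (nat_lit 274) (nat_lit 243) (nat_lit 143)) (XT.lf (nat_lit 0) (nat_lit 80323434850) (nat_lit 152) (nat_lit 44072863513) (nat_lit 76) (nat_lit 2478000545196) (nat_lit 3) (nat_lit 5) (nat_lit 5) (nat_lit 5) (nat_lit 4) (nat_lit 4) (nat_lit 275) (nat_lit 243) (nat_lit 142))) (XT.nd (nat_lit 78) (nat_lit 0) (nat_lit 0) (XT.lf (nat_lit 0) (nat_lit 267124556759) (nat_lit 152) (nat_lit 2616360504912) (nat_lit 0) (nat_lit 78630409474) (nat_lit 2) (nat_lit 5) (nat_lit 4) (nat_lit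 4) (nat_lit 2) (nat_lit 4) (nat_lit 276) (nat_lit 243) (nat_lit 141)) (XT.nd (nat_lit 78) (nat_lit 0) (nat_lit 0) (XT.lf (nat_lit 0) (nat_lit 490282955998) (nat_lit 152) (nat_lit 2582469577668) (nat_lit 0) (nat_lit 301788792882) (nat_lit 2) (nat_lit 5) (nat_lit 4) (nat_lit 4) (nat_lit 2) (nat_lit 4) (nat_lit 277) (nat_lit 243) (nat_lit 140)) (XT.lf (nat_lit 0) (nat_lit 746915081934) (nat_lit 152) (nat_lit 2543495078281) (nat_lit 0) (nat_lit 558420905052) (nat_lit 2) (nat_lit 5) (nat_lit 4) (nat_lit 4) (nat_lit 2) (nat_lit 4) (nat_lit 278) (nat_lit 243) (nat_lit 139)))))) (XT.nd (nat_lit 312) (nat_lit 0) (nat_lit 0) (XT.nd (nat_lit 156) (nat_lit 0) (nat_lit 0) (XT.nd (nat_lit 78) (nat_lit 0) (nat_lit 0) (XT.lf (nat_lit 0) (nat_lit 1042041997901) (nat_lit 152) (nat_lit 2498674462199) (nat_lit 0) (nat_lit 853547809048) (nat_lit 2) (nat_lit 5) (nat_lit 4) (nat_lit 4) (nat_lit 2) (nat_lit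 4) (nat_lit 279) (nat_lit 243) (nat_lit 138)) (XT.lf (nat_lit 0) (nat_lit 1381437926168) (nat_lit 152) (nat_lit 2447130804324) (nat_lit 0) (nat_lit 1192943726906) (nat_lit 2) (nat_lit 5) (nat_lit 4) (nat_lit 4) (nat_lit 2) (nat_lit 4) (nat_lit 280) (nat_lit 243) (nat_lit 137))) (XT.nd (nat_lit 78) (nat_lit 0) (nat_lit 0) (XT.lf (nat_lit 0) (nat_lit 1771743221854) (nat_lit 152) (nat_lit 2387855641786) (nat_lit 0) (nat_lit 1583249013541) (nat_lit 2) (nat_lit 5) (nat_lit 4) (nat_lit 4) (nat_lit 2) (nat_lit 4) (nat_lit 281) (nat_lit 243) (nat_lit 136)) (XT.lf (nat_lit 0) (nat_lit 2220594292917) (nat_lit 152) (nat_lit 2319689243142) (nat_lit 0) (nat_lit 2032100076733) (nat_lit 2) (nat_lit 5) (nat_lit 4) (nat_lit 4) (nat_lit 2) (nat_lit 4) (nat_lit 282) (nat_lit 243) (nat_lit 135)))) (XT.nd (nat_lit 156) (nat_lit 0) (nat_lit 0) (XT.nd (nat_lit 78) (nat_lit 0) (nat_lit 0) (XT.lf (nat_lit 0)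 (nat_lit 2736773008139) (nat_lit 152) (nat_lit 2241297917985) (nat_lit 0) (nat_lit 2548278785110) (nat_lit 2) (nat_lit 5) (nat_lit 4) (nat_lit 4) (nat_lit 2) (nat_lit 4) (nat_lit 283) (nat_lit 243) (nat_lit 134)) (XT.lf (nat_lit 0) (nat_lit 3330378516296) (nat_lit 152) (nat_lit 2151147922996) (nat_lit 0) (nat_lit 3141884287316) (nat_lit 2) (nat_lit 5) (nat_lit 4) (nat_lit 4) (nat_lit 2) (nat_lit 4) (nat_lit 284) (nat_lit 243) (nat_lit 133))) (XT.nd (nat_lit 78) (nat_lit 0) (nat_lit 0) (XT.lf (nat_lit 0) (nat_lit 4013024838200) (nat_lit 152) (nat_lit 2047475453926) (nat_lit 0) (nat_lit 3824530604045) (nat_lit 2) (nat_lit 5) (nat_lit 4) (nat_lit 4) (nat_lit 2) (nat_lit 4) (nat_lit 285) (nat_lit 243) (nat_lit 132)) (XT.nd (nat_lit 78) (nat_lit 0) (nat_lit 0) (XT.lf (nat_lit 0) (nat_lit 4798068097540) (nat_lit 152) (nat_lit 1928252136380) (nat_lit 0) (nat_lit 4609573858885) (nat_lit 2) (nat_lit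 5) (nat_lit 4) (nat_lit 4) (nat_lit 2) (nat_lit 4) (nat_lit 286) (nat_lit 243) (nat_lit 131)) (XT.lf (nat_lit 0) (nat_lit 5700867836347) (nat_lit 152) (nat_lit 1791145340231) (nat_lit 0) (nat_lit 5512373593779) (nat_lit 2) (nat_lit 5) (nat_lit 4) (nat_lit 4) (nat_lit 2) (nat_lit 4) (nat_lit 287) (nat_lit 243) (nat_lit 130))))))))
noncomputable def xc95 : XT := (XT.nd (nat_lit 31434) (nat_lit 0) (nat_lit 304) (XT.nd (nat_lit 1716) (nat_lit 0) (nat_lit 0) (XT.nd (nat_lit 312) (nat_lit 76) (nat_lit 0) (XT.nd (nat_lit 156) (nat_lit 0) (nat_lit 0) (XT.nd (nat_lit 78) (nat_lit 0) (nat_lit 0) (XT.lf (nat_lit 0) (nat_lit 6739087527772) (nat_lit 152) (nat_lit 1633472541208) (nat_lit 0) (nat_lit 6550593281800) (nat_lit 2) (nat_lit 5) (nat_lit 4) (nat_lit 4) (nat_lit 2) (nat_lit 4) (nat_lit 288) (nat_lit 243) (nat_lit 129)) (XT.lf (nat_lit 0) (nat_lit 7933040165777) (nat_lit 152) (nat_lit 1452148836721)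 (nat_lit 0) (nat_lit 7744545916846) (nat_lit 2) (nat_lit 5) (nat_lit 4) (nat_lit 4) (nat_lit 2) (nat_lit 4) (nat_lit 289) (nat_lit 243) (nat_lit 128))) (XT.nd (nat_lit 78) (nat_lit 0) (nat_lit 0) (XT.lf (nat_lit 0) (nat_lit 9306085693279) (nat_lit 152) (nat_lit 1243626589073) (nat_lit 0) (nat_lit 9117591441775) (nat_lit 2) (nat_lit 5) (nat_lit 4) (nat_lit 4) (nat_lit 2) (nat_lit 4) (nat_lit 290) (nat_lit 243) (nat_lit 127)) (XT.lf (nat_lit 0) (nat_lit 10885088044512) (nat_lit 152) (nat_lit 1003826015158) (nat_lit 0) (nat_lit 10696593790771) (nat_lit 2) (nat_lit 5) (nat_lit 4) (nat_lit 4) (nat_lit 2) (nat_lit 4) (nat_lit 291) (nat_lit 243) (nat_lit 126)))) (XT.nd (nat_lit 156) (nat_lit 76) (nat_lit 0) (XT.nd (nat_lit 78) (nat_lit 0) (nat_lit 0) (XT.lf (nat_lit 0) (nat_lit 12700940743740) (nat_lit 152) (nat_lit 728055364617) (nat_lit 0) (nat_lit 12512446488054) (nat_lit 2) (nat_lit 5)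 (nat_lit 4) (nat_lit 4) (nat_lit 2) (nat_lit 4) (nat_lit 292) (nat_lit 243) (nat_lit 125)) (XT.lf (nat_lit 0) (nat_lit 14789171343774) (nat_lit 152) (nat_lit 410919124722) (nat_lit 0) (nat_lit 14600677086396) (nat_lit 2) (nat_lit 5) (nat_lit 4) (nat_lit 4) (nat_lit 2) (nat_lit 4) (nat_lit 293) (nat_lit 243) (nat_lit 124))) (XT.nd (nat_lit 78) (nat_lit 76) (nat_lit 0) (XT.lf (nat_lit 0) (nat_lit 17190636530266) (nat_lit 152) (nat_lit 46212455997) (nat_lit 0) (nat_lit 17002142271417) (nat_lit 2) (nat_lit 5) (nat_lit 4) (nat_lit 4) (nat_lit 2) (nat_lit 4) (nat_lit 294) (nat_lit 243) (nat_lit 123)) (XT.nd (nat_lit 1092) (nat_lit 0) (nat_lit 0) (XT.lf (nat_lit 0) (nat_lit 409672045208) (nat_lit 76) (nat_lit 19559613092203) (nat_lit 76) (nat_lit 19371118832075) (nat_lit 1) (nat_lit 4) (nat_lit 2) (nat_lit 5) (nat_lit 2) (nat_lit 4) (nat_lit 295) (nat_lit 243) (nat_lit 122)) (XT.lf (nat_lit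 0) (nat_lit 21855325808426) (nat_lit 76) (nat_lit 127642397897685) (nat_lit 76) (nat_lit 127453903630233) (nat_lit 1) (nat_lit 4) (nat_lit 2) (nat_lit 5) (nat_lit 2) (nat_lit 4) (nat_lit 309) (nat_lit 243) (nat_lit 108)))))) (XT.nd (nat_lit 29328) (nat_lit 0) (nat_lit 1444) (XT.nd (nat_lit 156) (nat_lit 0) (nat_lit 0) (XT.nd (nat_lit 78) (nat_lit 0) (nat_lit 0) (XT.lf (nat_lit 0) (nat_lit 25601634659250) (nat_lit 76) (nat_lit 146523216361806) (nat_lit 76) (nat_lit 146334722094197) (nat_lit 1) (nat_lit 4) (nat_lit 2) (nat_lit 5) (nat_lit 2) (nat_lit 4) (nat_lit 310) (nat_lit 243) (nat_lit 107)) (XT.lf (nat_lit 0) (nat_lit 29909889836967) (nat_lit 76) (nat_lit 168236157595915) (nat_lit 76) (nat_lit 168047663328170) (nat_lit 1) (nat_lit 4) (nat_lit 2) (nat_lit 5) (nat_lit 2) (nat_lit 4) (nat_lit 311) (nat_lit 243) (nat_lit 106))) (XT.nd (nat_lit 29094) (nat_lit 0) (nat_lit 1444) (XT.lf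 (nat_lit 0) (nat_lit 34864383290708) (nat_lit 76) (nat_lit 193206040015463) (nat_lit 76) (nat_lit 193017545747599) (nat_lit 1) (nat_lit 4) (nat_lit 2) (nat_lit 5) (nat_lit 2) (nat_lit 4) (nat_lit 312) (nat_lit 243) (nat_lit 105)) (XT.lf (nat_lit 0) (nat_lit 6744098497) (nat_lit 380) (nat_lit 25809853694) (nat_lit 380) (nat_lit 25809853694) (nat_lit 20) (nat_lit 3) (nat_lit 25) (nat_lit 3) (nat_lit 25) (nat_lit 5) (nat_lit 244) (nat_lit 244) (nat_lit 172)))) (XT.nd (nat_lit 156) (nat_lit 0) (nat_lit 76) (XT.nd (nat_lit 78) (nat_lit 0) (nat_lit 76) (XT.lf (nat_lit 76) (nat_lit 1870140200) (nat_lit 0) (nat_lit 12711437660) (nat_lit 380) (nat_lit 110888317935) (nat_lit 21) (nat_lit 5) (nat_lit 20) (nat_lit 3) (nat_lit 25) (nat_lit 5) (nat_lit 245) (nat_lit 244) (nat_lit 171)) (XT.lf (nat_lit 0) (nat_lit 20633697420) (nat_lit 304) (nat_lit 68031791328) (nat_lit 380) (nat_lit 46138827843)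 (nat_lit 21) (nat_lit 5) (nat_lit 25) (nat_lit 5) (nat_lit 26) (nat_lit 5) (nat_lit 246) (nat_lit 244) (nat_lit 170))) (XT.nd (nat_lit 78) (nat_lit 0) (nat_lit 76) (XT.lf (nat_lit 0) (nat_lit 28198264728) (nat_lit 304) (nat_lit 4734481189) (nat_lit 380) (nat_lit 112515463518) (nat_lit 21) (nat_lit 5) (nat_lit 25) (nat_lit 5) (nat_lit 26) (nat_lit 5) (nat_lit 247) (nat_lit 244) (nat_lit 169)) (XT.nd (nat_lit 78) (nat_lit 0) (nat_lit 0) (XT.lf (nat_lit 0) (nat_lit 41428006193) (nat_lit 304) (nat_lit 83954357886) (nat_lit 76) (nat_lit 31626751722) (nat_lit 22) (nat_lit 5) (nat_lit 26) (nat_lit 5) (nat_lit 23) (nat_lit 5) (nat_lit 248) (nat_lit 244) (nat_lit 168)) (XT.lf (nat_lit 0) (nat_lit 58469177057) (nat_lit 304) (nat_lit 8803107938) (nat_lit 76) (nat_lit 102757830469) (nat_lit 22) (nat_lit 5) (nat_lit 26) (nat_lit 5) (nat_lit 23) (nat_lit 5) (nat_lit 249) (nat_lit 244) (nat_lit 167)))))))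 (XT.nd (nat_lit 702) (nat_lit 456) (nat_lit 0) (XT.nd (nat_lit 312) (nat_lit 380) (nat_lit 0) (XT.nd (nat_lit 156) (nat_lit 152) (nat_lit 0) (XT.nd (nat_lit 78) (nat_lit 0) (nat_lit 0) (XT.lf (nat_lit 0) (nat_lit 81743817524) (nat_lit 380) (nat_lit 99418669890) (nat_lit 76) (nat_lit 3290185801) (nat_lit 18) (nat_lit 5) (nat_lit 23) (nat_lit 5) (nat_lit 19) (nat_lit 5) (nat_lit 250) (nat_lit 244) (nat_lit 166)) (XT.lf (nat_lit 0) (nat_lit 112194753108) (nat_lit 380) (nat_lit 10259422159) (nat_lit 76) (nat_lit 78031676448) (nat_lit 18) (nat_lit 5) (nat_lit 23) (nat_lit 5) (nat_lit 19) (nat_lit 5) (nat_lit 251) (nat_lit 244) (nat_lit 165))) (XT.nd (nat_lit 78) (nat_lit 0) (nat_lit 0) (XT.lf (nat_lit 0) (nat_lit 101290886276) (nat_lit 152) (nat_lit 50116318826) (nat_lit 228) (nat_lit 66887722166) (nat_lit 16) (nat_lit 5) (nat_lit 18) (nat_lit 5) (nat_lit 19) (nat_lit 5) (nat_lit 252) (nat_lit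 244) (nat_lit 164)) (XT.lf (nat_lit 0) (nat_lit 198432463131) (nat_lit 228) (nat_lit 9363617674) (nat_lit 76) (nat_lit 30689644083) (nat_lit 16) (nat_lit 5) (nat_lit 19) (nat_lit 5) (nat_lit 17) (nat_lit 4) (nat_lit 253) (nat_lit 244) (nat_lit 163)))) (XT.nd (nat_lit 156) (nat_lit 228) (nat_lit 0) (XT.nd (nat_lit 78) (nat_lit 76) (nat_lit 0) (XT.lf (nat_lit 0) (nat_lit 122984939370) (nat_lit 76) (nat_lit 137005312718) (nat_lit 152) (nat_lit 593080007) (nat_lit 15) (nat_lit 5) (nat_lit 16) (nat_lit 5) (nat_lit 17) (nat_lit 4) (nat_lit 254) (nat_lit 244) (nat_lit 162)) (XT.lf (nat_lit 0) (nat_lit 41311442609) (nat_lit 152) (nat_lit 11562262422) (nat_lit 76) (nat_lit 232766828927) (nat_lit 14) (nat_lit 5) (nat_lit 16) (nat_lit 5) (nat_lit 15) (nat_lit 5) (nat_lit 255) (nat_lit 244) (nat_lit 161))) (XT.nd (nat_lit 78) (nat_lit 76) (nat_lit 0) (XT.lf (nat_lit 0) (nat_lit 97608927842) (nat_lit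 228) (nat_lit 169267086079) (nat_lit 76) (nat_lit 46350866087) (nat_lit 12) (nat_lit 5) (nat_lit 15) (nat_lit 5) (nat_lit 13) (nat_lit 4) (nat_lit 256) (nat_lit 244) (nat_lit 160)) (XT.nd (nat_lit 78) (nat_lit 76) (nat_lit 0) (XT.lf (nat_lit 0) (nat_lit 165501768084) (nat_lit 228) (nat_lit 23297873619) (nat_lit 76) (nat_lit 155678927159) (nat_lit 12) (nat_lit 5) (nat_lit 15) (nat_lit 5) (nat_lit 13) (nat_lit 4) (nat_lit 257) (nat_lit 244) (nat_lit 159)) (XT.lf (nat_lit 0) (nat_lit 158694471556) (nat_lit 76) (nat_lit 91455058312) (nat_lit 152) (nat_lit 129282832484) (nat_lit 11) (nat_lit 5) (nat_lit 12) (nat_lit 5) (nat_lit 13) (nat_lit 4) (nat_lit 258) (nat_lit 244) (nat_lit 158)))))) (XT.nd (nat_lit 312) (nat_lit 228) (nat_lit 0) (XT.nd (nat_lit 156) (nat_lit 76) (nat_lit 0) (XT.nd (nat_lit 78) (nat_lit 152) (nat_lit 0) (XT.lf (nat_lit 0) (nat_lit 349618593682) (nat_lit 152) (nat_lit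 49749344022) (nat_lit 0) (nat_lit 19942667050) (nat_lit 11) (nat_lit 5) (nat_lit 13) (nat_lit 4) (nat_lit 11) (nat_lit 4) (nat_lit 259) (nat_lit 244) (nat_lit 157)) (XT.lf (nat_lit 0) (nat_lit 10290385573) (nat_lit 152) (nat_lit 307551822953) (nat_lit 76) (nat_lit 145633178470) (nat_lit 9) (nat_lit 5) (nat_lit 11) (nat_lit 5) (nat_lit 10) (nat_lit 4) (nat_lit 260) (nat_lit 244) (nat_lit 156))) (XT.nd (nat_lit 78) (nat_lit 76) (nat_lit 0) (XT.lf (nat_lit 0) (nat_lit 97859208619) (nat_lit 152) (nat_lit 119279049321) (nat_lit 76) (nat_lit 296220198712) (nat_lit 9) (nat_lit 5) (nat_lit 11) (nat_lit 5) (nat_lit 10) (nat_lit 4) (nat_lit 261) (nat_lit 244) (nat_lit 155)) (XT.lf (nat_lit 0) (nat_lit 106736833190) (nat_lit 76) (nat_lit 96246120952) (nat_lit 152) (nat_lit 367078093079) (nat_lit 8) (nat_lit 5) (nat_lit 9) (nat_lit 5) (nat_lit 10) (nat_lit 4) (nat_lit 262) (nat_lit 244) (nat_lit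 154)))) (XT.nd (nat_lit 156) (nat_lit 228) (nat_lit 0) (XT.nd (nat_lit 78) (nat_lit 0) (nat_lit 0) (XT.lf (nat_lit 0) (nat_lit 332178489865) (nat_lit 152) (nat_lit 256341924714) (nat_lit 0) (nat_lit 45503127814) (nat_lit 8) (nat_lit 5) (nat_lit 10) (nat_lit 4) (nat_lit 8) (nat_lit 4) (nat_lit 263) (nat_lit 244) (nat_lit 153)) (XT.lf (nat_lit 0) (nat_lit 485336381630) (nat_lit 152) (nat_lit 22895669034) (nat_lit 0) (nat_lit 198660907563) (nat_lit 8) (nat_lit 5) (nat_lit 10) (nat_lit 4) (nat_lit 8) (nat_lit 4) (nat_lit 264) (nat_lit 244) (nat_lit 152))) (XT.nd (nat_lit 78) (nat_lit 152) (nat_lit 0) (XT.lf (nat_lit 0) (nat_lit 269565951449) (nat_lit 76) (nat_lit 403064050012) (nat_lit 76) (nat_lit 116388478539) (nat_lit 7) (nat_lit 4) (nat_lit 8) (nat_lit 5) (nat_lit 8) (nat_lit 4) (nat_lit 265) (nat_lit 244) (nat_lit 151)) (XT.nd (nat_lit 78) (nat_lit 76) (nat_lit 0) (XT.lf (nat_lit 0)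 (nat_lit 5403036065) (nat_lit 152) (nat_lit 275059128633) (nat_lit 76) (nat_lit 602784318900) (nat_lit 6) (nat_lit 5) (nat_lit 8) (nat_lit 5) (nat_lit 7) (nat_lit 4) (nat_lit 266) (nat_lit 244) (nat_lit 150)) (XT.lf (nat_lit 0) (nat_lit 494854115) (nat_lit 76) (nat_lit 133072859346) (nat_lit 152) (nat_lit 857206568304) (nat_lit 5) (nat_lit 5) (nat_lit 6) (nat_lit 5) (nat_lit 7) (nat_lit 4) (nat_lit 267) (nat_lit 244) (nat_lit 149))))))))
noncomputable def xc96 : XT := (XT.nd (nat_lit 1404) (nat_lit 76) (nat_lit 0) (XT.nd (nat_lit 702) (nat_lit 76) (nat_lit 0) (XT.nd (nat_lit 312) (nat_lit 76) (nat_lit 0) (XT.nd (nat_lit 156) (nat_lit 76) (nat_lit 0) (XT.nd (nat_lit 78) (nat_lit 0) (nat_lit 0) (XT.lf (nat_lit 0) (nat_lit 297528039160) (nat_lit 152) (nat_lit 766172828470) (nat_lit 0) (nat_lit 48244740141) (nat_lit 5) (nat_lit 5) (nat_lit 7) (nat_lit 4) (nat_lit 5) (nat_lit 4) (nat_lit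 268) (nat_lit 244) (nat_lit 148)) (XT.lf (nat_lit 0) (nat_lit 492419138161) (nat_lit 152) (nat_lit 514787195238) (nat_lit 0) (nat_lit 243135790714) (nat_lit 5) (nat_lit 5) (nat_lit 7) (nat_lit 4) (nat_lit 5) (nat_lit 4) (nat_lit 269) (nat_lit 244) (nat_lit 147))) (XT.nd (nat_lit 78) (nat_lit 76) (nat_lit 0) (XT.lf (nat_lit 0) (nat_lit 716543833858) (nat_lit 152) (nat_lit 225693850063) (nat_lit 0) (nat_lit 467260444300) (nat_lit 5) (nat_lit 5) (nat_lit 7) (nat_lit 4) (nat_lit 5) (nat_lit 4) (nat_lit 270) (nat_lit 244) (nat_lit 146)) (XT.lf (nat_lit 0) (nat_lit 117197075268) (nat_lit 76) (nat_lit 861942980338) (nat_lit 76) (nat_lit 612659554161) (nat_lit 4) (nat_lit 4) (nat_lit 5) (nat_lit 5) (nat_lit 5) (nat_lit 4) (nat_lit 271) (nat_lit 244) (nat_lit 145)))) (XT.nd (nat_lit 156) (nat_lit 76) (nat_lit 0) (XT.nd (nat_lit 78) (nat_lit 0) (nat_lit 0) (XT.lf (nat_lit 0) (nat_lit 536886440074)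 (nat_lit 76) (nat_lit 756036847507) (nat_lit 76) (nat_lit 506753389489) (nat_lit 4) (nat_lit 4) (nat_lit 5) (nat_lit 5) (nat_lit 5) (nat_lit 4) (nat_lit 272) (nat_lit 244) (nat_lit 144)) (XT.lf (nat_lit 0) (nat_lit 1019529113574) (nat_lit 76) (nat_lit 634244841989) (nat_lit 76) (nat_lit 384961356282) (nat_lit 4) (nat_lit 4) (nat_lit 5) (nat_lit 5) (nat_lit 5) (nat_lit 4) (nat_lit 273) (nat_lit 244) (nat_lit 143))) (XT.nd (nat_lit 78) (nat_lit 76) (nat_lit 0) (XT.lf (nat_lit 0) (nat_lit 1574568104598) (nat_lit 76) (nat_lit 494184076719) (nat_lit 76) (nat_lit 244900566935) (nat_lit 4) (nat_lit 4) (nat_lit 5) (nat_lit 5) (nat_lit 5) (nat_lit 4) (nat_lit 274) (nat_lit 244) (nat_lit 142)) (XT.nd (nat_lit 78) (nat_lit 76) (nat_lit 0) (XT.lf (nat_lit 0) (nat_lit 2212862871665) (nat_lit 76) (nat_lit 333114232377) (nat_lit 76) (nat_lit 83830701656) (nat_lit 4) (nat_lit 4) (nat_lit 5) (nat_lit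 5) (nat_lit 5) (nat_lit 4) (nat_lit 275) (nat_lit 244) (nat_lit 141)) (XT.lf (nat_lit 0) (nat_lit 92372312324) (nat_lit 152) (nat_lit 50683077429) (nat_lit 76) (nat_lit 2849700925639) (nat_lit 3) (nat_lit 5) (nat_lit 5) (nat_lit 5) (nat_lit 4) (nat_lit 4) (nat_lit 276) (nat_lit 244) (nat_lit 140)))))) (XT.nd (nat_lit 312) (nat_lit 0) (nat_lit 0) (XT.nd (nat_lit 156) (nat_lit 0) (nat_lit 0) (XT.nd (nat_lit 78) (nat_lit 0) (nat_lit 0) (XT.lf (nat_lit 0) (nat_lit 307193597625) (nat_lit 152) (nat_lit 3008813859828) (nat_lit 0) (nat_lit 90425280445) (nat_lit 2) (nat_lit 5) (nat_lit 4) (nat_lit 4) (nat_lit 2) (nat_lit 4) (nat_lit 277) (nat_lit 244) (nat_lit 139)) (XT.lf (nat_lit 0) (nat_lit 563825710139) (nat_lit 152) (nat_lit 2969839387517) (nat_lit 0) (nat_lit 347057380987) (nat_lit 2) (nat_lit 5) (nat_lit 4) (nat_lit 4) (nat_lit 2) (nat_lit 4) (nat_lit 278) (nat_lit 244) (nat_lit 138)))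 (XT.nd (nat_lit 78) (nat_lit 0) (nat_lit 0) (XT.lf (nat_lit 0) (nat_lit 858952614434) (nat_lit 152) (nat_lit 2925018794979) (nat_lit 0) (nat_lit 642184274873) (nat_lit 2) (nat_lit 5) (nat_lit 4) (nat_lit 4) (nat_lit 2) (nat_lit 4) (nat_lit 279) (nat_lit 244) (nat_lit 137)) (XT.lf (nat_lit 0) (nat_lit 1198348532552) (nat_lit 152) (nat_lit 2873475157577) (nat_lit 0) (nat_lit 981580183939) (nat_lit 2) (nat_lit 5) (nat_lit 4) (nat_lit 4) (nat_lit 2) (nat_lit 4) (nat_lit 280) (nat_lit 244) (nat_lit 136)))) (XT.nd (nat_lit 156) (nat_lit 0) (nat_lit 0) (XT.nd (nat_lit 78) (nat_lit 0) (nat_lit 0) (XT.lf (nat_lit 0) (nat_lit 1588653819411) (nat_lit 152) (nat_lit 2814200012841) (nat_lit 0) (nat_lit 1371885462928) (nat_lit 2) (nat_lit 5) (nat_lit 4) (nat_lit 4) (nat_lit 2) (nat_lit 4) (nat_lit 281) (nat_lit 244) (nat_lit 135)) (XT.lf (nat_lit 0) (nat_lit 2037504882800) (nat_lit 152) (nat_lit 2746033629678)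 (nat_lit 0) (nat_lit 1820736519473) (nat_lit 2) (nat_lit 5) (nat_lit 4) (nat_lit 4) (nat_lit 2) (nat_lit 4) (nat_lit 282) (nat_lit 244) (nat_lit 134))) (XT.nd (nat_lit 78) (nat_lit 0) (nat_lit 0) (XT.lf (nat_lit 0) (nat_lit 2553683591348) (nat_lit 152) (nat_lit 2667642317982) (nat_lit 0) (nat_lit 2336915222069) (nat_lit 2) (nat_lit 5) (nat_lit 4) (nat_lit 4) (nat_lit 2) (nat_lit 4) (nat_lit 283) (nat_lit 244) (nat_lit 133)) (XT.nd (nat_lit 78) (nat_lit 0) (nat_lit 0) (XT.lf (nat_lit 0) (nat_lit 3147289093702) (nat_lit 152) (nat_lit 2577492334699) (nat_lit 0) (nat_lit 2930520719248) (nat_lit 2) (nat_lit 5) (nat_lit 4) (nat_lit 4) (nat_lit 2) (nat_lit 4) (nat_lit 284) (nat_lit 244) (nat_lit 132)) (XT.lf (nat_lit 0) (nat_lit 3829935410560) (nat_lit 152) (nat_lit 2473819875808) (nat_lit 0) (nat_lit 3613167031606) (nat_lit 2) (nat_lit 5) (nat_lit 4) (nat_lit 4) (nat_lit 2) (nat_lit 4) (nat_lit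 285) (nat_lit 244) (nat_lit 131))))))) (XT.nd (nat_lit 702) (nat_lit 76) (nat_lit 0) (XT.nd (nat_lit 312) (nat_lit 0) (nat_lit 0) (XT.nd (nat_lit 156) (nat_lit 0) (nat_lit 0) (XT.nd (nat_lit 78) (nat_lit 0) (nat_lit 0) (XT.lf (nat_lit 0) (nat_lit 4614978665512) (nat_lit 152) (nat_lit 2354596567112) (nat_lit 0) (nat_lit 4398210282645) (nat_lit 2) (nat_lit 5) (nat_lit 4) (nat_lit 4) (nat_lit 2) (nat_lit 4) (nat_lit 286) (nat_lit 244) (nat_lit 130)) (XT.lf (nat_lit 0) (nat_lit 5517778400504) (nat_lit 152) (nat_lit 2217489778661) (nat_lit 0) (nat_lit 5301010014234) (nat_lit 2) (nat_lit 5) (nat_lit 4) (nat_lit 4) (nat_lit 2) (nat_lit 4) (nat_lit 287) (nat_lit 244) (nat_lit 129))) (XT.nd (nat_lit 78) (nat_lit 0) (nat_lit 0) (XT.lf (nat_lit 0) (nat_lit 6555998088610) (nat_lit 152) (nat_lit 2059816986330) (nat_lit 0) (nat_lit 6339229699381) (nat_lit 2) (nat_lit 5) (nat_lit 4) (nat_lit 4) (nat_lit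 2) (nat_lit 4) (nat_lit 288) (nat_lit 244) (nat_lit 128)) (XT.lf (nat_lit 0) (nat_lit 7749950723730) (nat_lit 152) (nat_lit 1878493287663) (nat_lit 0) (nat_lit 7533182331928) (nat_lit 2) (nat_lit 5) (nat_lit 4) (nat_lit 4) (nat_lit 2) (nat_lit 4) (nat_lit 289) (nat_lit 244) (nat_lit 127)))) (XT.nd (nat_lit 156) (nat_lit 0) (nat_lit 0) (XT.nd (nat_lit 78) (nat_lit 0) (nat_lit 0) (XT.lf (nat_lit 0) (nat_lit 9122996248723) (nat_lit 152) (nat_lit 1669971045075) (nat_lit 0) (nat_lit 8906227854684) (nat_lit 2) (nat_lit 5) (nat_lit 4) (nat_lit 4) (nat_lit 2) (nat_lit 4) (nat_lit 290) (nat_lit 244) (nat_lit 126)) (XT.lf (nat_lit 0) (nat_lit 10701998597775) (nat_lit 152) (nat_lit 1430170475561) (nat_lit 0) (nat_lit 10485230201790) (nat_lit 2) (nat_lit 5) (nat_lit 4) (nat_lit 4) (nat_lit 2) (nat_lit 4) (nat_lit 291) (nat_lit 244) (nat_lit 125))) (XT.nd (nat_lit 78) (nat_lit 0) (nat_lit 0) (XT.lf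 (nat_lit 0) (nat_lit 12517851295106) (nat_lit 152) (nat_lit 1154399828847) (nat_lit 0) (nat_lit 12301082897429) (nat_lit 2) (nat_lit 5) (nat_lit 4) (nat_lit 4) (nat_lit 2) (nat_lit 4) (nat_lit 292) (nat_lit 244) (nat_lit 124)) (XT.nd (nat_lit 78) (nat_lit 0) (nat_lit 0) (XT.lf (nat_lit 0) (nat_lit 14606081893490) (nat_lit 152) (nat_lit 837263592279) (nat_lit 0) (nat_lit 14389313494342) (nat_lit 2) (nat_lit 5) (nat_lit 4) (nat_lit 4) (nat_lit 2) (nat_lit 4) (nat_lit 293) (nat_lit 244) (nat_lit 123)) (XT.lf (nat_lit 0) (nat_lit 17007547078548) (nat_lit 152) (nat_lit 472556926447) (nat_lit 0) (nat_lit 16790778678120) (nat_lit 2) (nat_lit 5) (nat_lit 4) (nat_lit 4) (nat_lit 2) (nat_lit 4) (nat_lit 294) (nat_lit 244) (nat_lit 122)))))) (XT.nd (nat_lit 1248) (nat_lit 0) (nat_lit 0) (XT.nd (nat_lit 1092) (nat_lit 0) (nat_lit 0) (XT.nd (nat_lit 1014) (nat_lit 76) (nat_lit 0) (XT.lf (nat_lit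 0) (nat_lit 19769232038682) (nat_lit 152) (nat_lit 53144266150) (nat_lit 0) (nat_lit 19552463637142) (nat_lit 2) (nat_lit 5) (nat_lit 4) (nat_lit 4) (nat_lit 2) (nat_lit 4) (nat_lit 295) (nat_lit 244) (nat_lit 121)) (XT.lf (nat_lit 0) (nat_lit 18129655966443) (nat_lit 76) (nat_lit 111489836101953) (nat_lit 76) (nat_lit 111273067694203) (nat_lit 1) (nat_lit 4) (nat_lit 2) (nat_lit 5) (nat_lit 2) (nat_lit 4) (nat_lit 308) (nat_lit 244) (nat_lit 108))) (XT.nd (nat_lit 78) (nat_lit 0) (nat_lit 0) (XT.lf (nat_lit 0) (nat_lit 21387315837064) (nat_lit 76) (nat_lit 127907939114060) (nat_lit 76) (nat_lit 127691170706153) (nat_lit 1) (nat_lit 4) (nat_lit 2) (nat_lit 5) (nat_lit 2) (nat_lit 4) (nat_lit 309) (nat_lit 244) (nat_lit 107)) (XT.lf (nat_lit 0) (nat_lit 25133624687548) (nat_lit 76) (nat_lit 146788757578354) (nat_lit 76) (nat_lit 146571989170310) (nat_lit 1) (nat_lit 4) (nat_lit 2) (nat_lit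 5) (nat_lit 2) (nat_lit 4) (nat_lit 310) (nat_lit 244) (nat_lit 106)))) (XT.nd (nat_lit 29328) (nat_lit 0) (nat_lit 1444) (XT.nd (nat_lit 29250) (nat_lit 0) (nat_lit 1444) (XT.lf (nat_lit 0) (nat_lit 29441879864970) (nat_lit 76) (nat_lit 168501698812613) (nat_lit 76) (nat_lit 168284930404450) (nat_lit 1) (nat_lit 4) (nat_lit 2) (nat_lit 5) (nat_lit 2) (nat_lit 4) (nat_lit 311) (nat_lit 244) (nat_lit 105)) (XT.lf (nat_lit 0) (nat_lit 7759861649) (nat_lit 380) (nat_lit 29678935912) (nat_lit 380) (nat_lit 29678935912) (nat_lit 20) (nat_lit 3) (nat_lit 25) (nat_lit 3) (nat_lit 25) (nat_lit 5) (nat_lit 245) (nat_lit 245) (nat_lit 170))) (XT.nd (nat_lit 78) (nat_lit 0) (nat_lit 76) (XT.lf (nat_lit 76) (nat_lit 2155235100) (nat_lit 0) (nat_lit 14620983403) (nat_lit 380) (nat_lit 127513014476) (nat_lit 21) (nat_lit 5) (nat_lit 20) (nat_lit 3) (nat_lit 25) (nat_lit 5) (nat_lit 246) (nat_lit 245)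 (nat_lit 169)) (XT.nd (nat_lit 78) (nat_lit 0) (nat_lit 0) (XT.lf (nat_lit 0) (nat_lit 23735088360) (nat_lit 304) (nat_lit 78231483294) (nat_lit 380) (nat_lit 53057410160) (nat_lit 21) (nat_lit 5) (nat_lit 25) (nat_lit 5) (nat_lit 26) (nat_lit 5) (nat_lit 247) (nat_lit 245) (nat_lit 168)) (XT.lf (nat_lit 0) (nat_lit 32433514287) (nat_lit 304) (nat_lit 5440238817) (nat_lit 380) (nat_lit 129390833602) (nat_lit 21) (nat_lit 5) (nat_lit 25) (nat_lit 5) (nat_lit 26) (nat_lit 5) (nat_lit 248) (nat_lit 245) (nat_lit 167))))))))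
noncomputable def xc97 : XT := (XT.nd (nat_lit 1404) (nat_lit 380) (nat_lit 0) (XT.nd (nat_lit 702) (nat_lit 380) (nat_lit 0) (XT.nd (nat_lit 312) (nat_lit 456) (nat_lit 0) (XT.nd (nat_lit 156) (nat_lit 304) (nat_lit 0) (XT.nd (nat_lit 78) (nat_lit 0) (nat_lit 0) (XT.lf (nat_lit 0) (nat_lit 47647141654) (nat_lit 304) (nat_lit 96542497641) (nat_lit 76) (nat_lit 36370079637) (nat_lit 22) (nat_lit 5) (nat_lit 26) (nat_lit 5) (nat_lit 23) (nat_lit 5) (nat_lit 249) (nat_lit 245) (nat_lit 166)) (XT.lf (nat_lit 0) (nat_lit 67243844513) (nat_lit 304) (nat_lit 10119214192) (nat_lit 76) (nat_lit 118170909523) (nat_lit 22) (nat_lit 5) (nat_lit 26) (nat_lit 5) (nat_lit 23) (nat_lit 5) (nat_lit 250) (nat_lit 245) (nat_lit 165))) (XT.nd (nat_lit 78) (nat_lit 0) (nat_lit 0) (XT.lf (nat_lit 0) (nat_lit 94009304390) (nat_lit 380) (nat_lit 114326715584) (nat_lit 76) (nat_lit 3783948897) (nat_lit 18) (nat_lit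 5) (nat_lit 23) (nat_lit 5) (nat_lit 19) (nat_lit 5) (nat_lit 251) (nat_lit 245) (nat_lit 164)) (XT.lf (nat_lit 0) (nat_lit 129027369759) (nat_lit 380) (nat_lit 11794200883) (nat_lit 76) (nat_lit 89736632459) (nat_lit 18) (nat_lit 5) (nat_lit 23) (nat_lit 5) (nat_lit 19) (nat_lit 5) (nat_lit 252) (nat_lit 245) (nat_lit 163)))) (XT.nd (nat_lit 156) (nat_lit 304) (nat_lit 0) (XT.nd (nat_lit 78) (nat_lit 0) (nat_lit 0) (XT.lf (nat_lit 0) (nat_lit 116488465881) (nat_lit 152) (nat_lit 57632943135) (nat_lit 228) (nat_lit 76917275114) (nat_lit 16) (nat_lit 5) (nat_lit 18) (nat_lit 5) (nat_lit 19) (nat_lit 5) (nat_lit 253) (nat_lit 245) (nat_lit 162)) (XT.lf (nat_lit 0) (nat_lit 228200078035) (nat_lit 228) (nat_lit 10764338767) (nat_lit 76) (nat_lit 35293743043) (nat_lit 16) (nat_lit 5) (nat_lit 19) (nat_lit 5) (nat_lit 17) (nat_lit 4) (nat_lit 254) (nat_lit 245) (nat_lit 161))) (XT.nd (nat_lit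 78) (nat_lit 228) (nat_lit 0) (XT.lf (nat_lit 0) (nat_lit 141436328126) (nat_lit 76) (nat_lit 157555000158) (nat_lit 152) (nat_lit 679112466) (nat_lit 15) (nat_lit 5) (nat_lit 16) (nat_lit 5) (nat_lit 17) (nat_lit 4) (nat_lit 255) (nat_lit 245) (nat_lit 160)) (XT.nd (nat_lit 78) (nat_lit 152) (nat_lit 0) (XT.lf (nat_lit 0) (nat_lit 47510479639) (nat_lit 152) (nat_lit 13293195086) (nat_lit 76) (nat_lit 267682583366) (nat_lit 14) (nat_lit 5) (nat_lit 16) (nat_lit 5) (nat_lit 15) (nat_lit 5) (nat_lit 256) (nat_lit 245) (nat_lit 159)) (XT.lf (nat_lit 0) (nat_lit 112252465134) (nat_lit 228) (nat_lit 194653612931) (nat_lit 76) (nat_lit 53304497387) (nat_lit 12) (nat_lit 5) (nat_lit 15) (nat_lit 5) (nat_lit 13) (nat_lit 4) (nat_lit 257) (nat_lit 245) (nat_lit 158)))))) (XT.nd (nat_lit 312) (nat_lit 152) (nat_lit 0) (XT.nd (nat_lit 156) (nat_lit 152) (nat_lit 0) (XT.nd (nat_lit 78) (nat_lit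 76) (nat_lit 0) (XT.lf (nat_lit 0) (nat_lit 190328944701) (nat_lit 228) (nat_lit 26789479827) (nat_lit 76) (nat_lit 179031637004) (nat_lit 12) (nat_lit 5) (nat_lit 15) (nat_lit 5) (nat_lit 13) (nat_lit 4) (nat_lit 258) (nat_lit 245) (nat_lit 157)) (XT.lf (nat_lit 0) (nat_lit 182501577358) (nat_lit 76) (nat_lit 105172165615) (nat_lit 152) (nat_lit 148673201015) (nat_lit 11) (nat_lit 5) (nat_lit 12) (nat_lit 5) (nat_lit 13) (nat_lit 4) (nat_lit 259) (nat_lit 245) (nat_lit 156))) (XT.nd (nat_lit 78) (nat_lit 152) (nat_lit 0) (XT.lf (nat_lit 0) (nat_lit 402062975173) (nat_lit 152) (nat_lit 57208997707) (nat_lit 0) (nat_lit 22934979224) (nat_lit 11) (nat_lit 5) (nat_lit 13) (nat_lit 4) (nat_lit 11) (nat_lit 4) (nat_lit 260) (nat_lit 245) (nat_lit 155)) (XT.lf (nat_lit 0) (nat_lit 11835511426) (nat_lit 152) (nat_lit 353681816745) (nat_lit 76) (nat_lit 167479128271) (nat_lit 9) (nat_lit 5)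 (nat_lit 11) (nat_lit 5) (nat_lit 10) (nat_lit 4) (nat_lit 261) (nat_lit 245) (nat_lit 154)))) (XT.nd (nat_lit 156) (nat_lit 76) (nat_lit 0) (XT.nd (nat_lit 78) (nat_lit 76) (nat_lit 0) (XT.lf (nat_lit 0) (nat_lit 112539453405) (nat_lit 152) (nat_lit 137168489631) (nat_lit 76) (nat_lit 340654074633) (nat_lit 9) (nat_lit 5) (nat_lit 11) (nat_lit 5) (nat_lit 10) (nat_lit 4) (nat_lit 262) (nat_lit 245) (nat_lit 153)) (XT.lf (nat_lit 0) (nat_lit 122749665388) (nat_lit 76) (nat_lit 110682013058) (nat_lit 152) (nat_lit 422138331109) (nat_lit 8) (nat_lit 5) (nat_lit 9) (nat_lit 5) (nat_lit 10) (nat_lit 4) (nat_lit 263) (nat_lit 245) (nat_lit 152))) (XT.nd (nat_lit 78) (nat_lit 76) (nat_lit 0) (XT.lf (nat_lit 0) (nat_lit 382006414362) (nat_lit 152) (nat_lit 294791074741) (nat_lit 0) (nat_lit 52329409762) (nat_lit 8) (nat_lit 5) (nat_lit 10) (nat_lit 4) (nat_lit 8) (nat_lit 4) (nat_lit 264) (nat_lit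 245) (nat_lit 151)) (XT.nd (nat_lit 78) (nat_lit 76) (nat_lit 0) (XT.lf (nat_lit 0) (nat_lit 558137839759) (nat_lit 152) (nat_lit 26328159667) (nat_lit 0) (nat_lit 228460750459) (nat_lit 8) (nat_lit 5) (nat_lit 10) (nat_lit 4) (nat_lit 8) (nat_lit 4) (nat_lit 265) (nat_lit 245) (nat_lit 150)) (XT.lf (nat_lit 0) (nat_lit 310002619356) (nat_lit 76) (nat_lit 463522826165) (nat_lit 76) (nat_lit 133845663212) (nat_lit 7) (nat_lit 4) (nat_lit 8) (nat_lit 5) (nat_lit 8) (nat_lit 4) (nat_lit 266) (nat_lit 245) (nat_lit 149))))))) (XT.nd (nat_lit 702) (nat_lit 152) (nat_lit 0) (XT.nd (nat_lit 312) (nat_lit 76) (nat_lit 0) (XT.nd (nat_lit 156) (nat_lit 0) (nat_lit 0) (XT.nd (nat_lit 78) (nat_lit 76) (nat_lit 0) (XT.lf (nat_lit 0) (nat_lit 6214352627) (nat_lit 152) (nat_lit 316316368848) (nat_lit 76) (nat_lit 693202604210) (nat_lit 6) (nat_lit 5) (nat_lit 8) (nat_lit 5) (nat_lit 7) (nat_lit 4)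 (nat_lit 267) (nat_lit 245) (nat_lit 148)) (XT.lf (nat_lit 0) (nat_lit 570637262) (nat_lit 76) (nat_lit 153033046436) (nat_lit 152) (nat_lit 985786617236) (nat_lit 5) (nat_lit 5) (nat_lit 6) (nat_lit 5) (nat_lit 7) (nat_lit 4) (nat_lit 268) (nat_lit 245) (nat_lit 147))) (XT.nd (nat_lit 78) (nat_lit 0) (nat_lit 0) (XT.lf (nat_lit 0) (nat_lit 342157978891) (nat_lit 152) (nat_lit 881097320212) (nat_lit 0) (nat_lit 55482038788) (nat_lit 5) (nat_lit 5) (nat_lit 7) (nat_lit 4) (nat_lit 5) (nat_lit 4) (nat_lit 269) (nat_lit 245) (nat_lit 146)) (XT.lf (nat_lit 0) (nat_lit 566282647022) (nat_lit 152) (nat_lit 592004028846) (nat_lit 0) (nat_lit 279606670301) (nat_lit 5) (nat_lit 5) (nat_lit 7) (nat_lit 4) (nat_lit 5) (nat_lit 4) (nat_lit 270) (nat_lit 245) (nat_lit 145)))) (XT.nd (nat_lit 156) (nat_lit 0) (nat_lit 0) (XT.nd (nat_lit 78) (nat_lit 76) (nat_lit 0) (XT.lf (nat_lit 0) (nat_lit 824025963838)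 (nat_lit 152) (nat_lit 259546844375) (nat_lit 0) (nat_lit 537349955275) (nat_lit 5) (nat_lit 5) (nat_lit 7) (nat_lit 4) (nat_lit 5) (nat_lit 4) (nat_lit 271) (nat_lit 245) (nat_lit 144)) (XT.lf (nat_lit 0) (nat_lit 134777670520) (nat_lit 76) (nat_lit 991233918764) (nat_lit 76) (nat_lit 704557882513) (nat_lit 4) (nat_lit 4) (nat_lit 5) (nat_lit 5) (nat_lit 5) (nat_lit 4) (nat_lit 272) (nat_lit 245) (nat_lit 143))) (XT.nd (nat_lit 78) (nat_lit 0) (nat_lit 0) (XT.lf (nat_lit 0) (nat_lit 617420305182) (nat_lit 76) (nat_lit 869441932351) (nat_lit 76) (nat_lit 582765872022) (nat_lit 4) (nat_lit 4) (nat_lit 5) (nat_lit 5) (nat_lit 5) (nat_lit 4) (nat_lit 273) (nat_lit 245) (nat_lit 142)) (XT.nd (nat_lit 78) (nat_lit 0) (nat_lit 0) (XT.lf (nat_lit 0) (nat_lit 1172459262434) (nat_lit 76) (nat_lit 729381183695) (nat_lit 76) (nat_lit 442705102429) (nat_lit 4) (nat_lit 4) (nat_lit 5) (nat_lit 5)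 (nat_lit 5) (nat_lit 4) (nat_lit 274) (nat_lit 245) (nat_lit 141)) (XT.lf (nat_lit 0) (nat_lit 1810754000134) (nat_lit 76) (nat_lit 568311353799) (nat_lit 76) (nat_lit 281635254327) (nat_lit 4) (nat_lit 4) (nat_lit 5) (nat_lit 5) (nat_lit 5) (nat_lit 4) (nat_lit 275) (nat_lit 245) (nat_lit 140)))))) (XT.nd (nat_lit 312) (nat_lit 0) (nat_lit 0) (XT.nd (nat_lit 156) (nat_lit 76) (nat_lit 0) (XT.nd (nat_lit 78) (nat_lit 76) (nat_lit 0) (XT.lf (nat_lit 0) (nat_lit 2544792893586) (nat_lit 76) (nat_lit 383081076426) (nat_lit 76) (nat_lit 96404961124) (nat_lit 4) (nat_lit 4) (nat_lit 5) (nat_lit 5) (nat_lit 5) (nat_lit 4) (nat_lit 276) (nat_lit 245) (nat_lit 139)) (XT.lf (nat_lit 0) (nat_lit 106228433083) (nat_lit 152) (nat_lit 58284997938) (nat_lit 76) (nat_lit 3277156290318) (nat_lit 3) (nat_lit 5) (nat_lit 5) (nat_lit 5) (nat_lit 4) (nat_lit 4) (nat_lit 277) (nat_lit 245) (nat_lit 138)))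 (XT.nd (nat_lit 78) (nat_lit 0) (nat_lit 0) (XT.lf (nat_lit 0) (nat_lit 353272907479) (nat_lit 152) (nat_lit 3460135393758) (nat_lit 0) (nat_lit 103989306575) (nat_lit 2) (nat_lit 5) (nat_lit 4) (nat_lit 4) (nat_lit 2) (nat_lit 4) (nat_lit 278) (nat_lit 245) (nat_lit 137)) (XT.lf (nat_lit 0) (nat_lit 648399801625) (nat_lit 152) (nat_lit 3415314821693) (nat_lit 0) (nat_lit 399116191669) (nat_lit 2) (nat_lit 5) (nat_lit 4) (nat_lit 4) (nat_lit 2) (nat_lit 4) (nat_lit 279) (nat_lit 245) (nat_lit 136)))) (XT.nd (nat_lit 156) (nat_lit 0) (nat_lit 0) (XT.nd (nat_lit 78) (nat_lit 0) (nat_lit 0) (XT.lf (nat_lit 0) (nat_lit 987795710917) (nat_lit 152) (nat_lit 3363771202094) (nat_lit 0) (nat_lit 738512093090) (nat_lit 2) (nat_lit 5) (nat_lit 4) (nat_lit 4) (nat_lit 2) (nat_lit 4) (nat_lit 280) (nat_lit 245) (nat_lit 135)) (XT.lf (nat_lit 0) (nat_lit 1378100990102) (nat_lit 152) (nat_lit 3304496072838)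 (nat_lit 0) (nat_lit 1128817365431) (nat_lit 2) (nat_lit 5) (nat_lit 4) (nat_lit 4) (nat_lit 2) (nat_lit 4) (nat_lit 281) (nat_lit 245) (nat_lit 134))) (XT.nd (nat_lit 78) (nat_lit 0) (nat_lit 0) (XT.lf (nat_lit 0) (nat_lit 1826952046817) (nat_lit 152) (nat_lit 3236329703137) (nat_lit 0) (nat_lit 1577668416195) (nat_lit 2) (nat_lit 5) (nat_lit 4) (nat_lit 4) (nat_lit 2) (nat_lit 4) (nat_lit 282) (nat_lit 245) (nat_lit 133)) (XT.nd (nat_lit 78) (nat_lit 0) (nat_lit 0) (XT.lf (nat_lit 0) (nat_lit 2343130749562) (nat_lit 152) (nat_lit 3157938403146) (nat_lit 0) (nat_lit 2093847113765) (nat_lit 2) (nat_lit 5) (nat_lit 4) (nat_lit 4) (nat_lit 2) (nat_lit 4) (nat_lit 283) (nat_lit 245) (nat_lit 132)) (XT.lf (nat_lit 0) (nat_lit 2936736246870) (nat_lit 152) (nat_lit 3067788430042) (nat_lit 0) (nat_lit 2687452606572) (nat_lit 2) (nat_lit 5) (nat_lit 4) (nat_lit 4) (nat_lit 2) (nat_lit 4) (nat_lit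 284) (nat_lit 245) (nat_lit 131))))))))
noncomputable def xc98 : XT := (XT.nd (nat_lit 31746) (nat_lit 0) (nat_lit 380) (XT.nd (nat_lit 702) (nat_lit 76) (nat_lit 0) (XT.nd (nat_lit 312) (nat_lit 0) (nat_lit 0) (XT.nd (nat_lit 156) (nat_lit 0) (nat_lit 0) (XT.nd (nat_lit 78) (nat_lit 0) (nat_lit 0) (XT.lf (nat_lit 0) (nat_lit 3619382559339) (nat_lit 152) (nat_lit 2964115980002) (nat_lit 0) (nat_lit 3370098915129) (nat_lit 2) (nat_lit 5) (nat_lit 4) (nat_lit 4) (nat_lit 2) (nat_lit 4) (nat_lit 285) (nat_lit 245) (nat_lit 130)) (XT.lf (nat_lit 0) (nat_lit 4404425810476) (nat_lit 152) (nat_lit 2844892679003) (nat_lit 0) (nat_lit 4155142162863) (nat_lit 2) (nat_lit 5) (nat_lit 4) (nat_lit 4) (nat_lit 2) (nat_lit 4) (nat_lit 286) (nat_lit 245) (nat_lit 129))) (XT.nd (nat_lit 78) (nat_lit 0) (nat_lit 0) (XT.lf (nat_lit 0) (nat_lit 5307225542150) (nat_lit 152) (nat_lit 2707785897244) (nat_lit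 0) (nat_lit 5057941891577) (nat_lit 2) (nat_lit 5) (nat_lit 4) (nat_lit 4) (nat_lit 2) (nat_lit 4) (nat_lit 287) (nat_lit 245) (nat_lit 128)) (XT.lf (nat_lit 0) (nat_lit 6345445227371) (nat_lit 152) (nat_lit 2550113110733) (nat_lit 0) (nat_lit 6096161574226) (nat_lit 2) (nat_lit 5) (nat_lit 4) (nat_lit 4) (nat_lit 2) (nat_lit 4) (nat_lit 288) (nat_lit 245) (nat_lit 127)))) (XT.nd (nat_lit 156) (nat_lit 0) (nat_lit 0) (XT.nd (nat_lit 78) (nat_lit 0) (nat_lit 0) (XT.lf (nat_lit 0) (nat_lit 7539397859982) (nat_lit 152) (nat_lit 2368789417126) (nat_lit 0) (nat_lit 7290114204599) (nat_lit 2) (nat_lit 5) (nat_lit 4) (nat_lit 4) (nat_lit 2) (nat_lit 4) (nat_lit 289) (nat_lit 245) (nat_lit 126)) (XT.lf (nat_lit 0) (nat_lit 8912443382793) (nat_lit 152) (nat_lit 2160267178939) (nat_lit 0) (nat_lit 8663159725465) (nat_lit 2) (nat_lit 5) (nat_lit 4) (nat_lit 4) (nat_lit 2) (nat_lit 4) (nat_lit 290)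 (nat_lit 245) (nat_lit 125))) (XT.nd (nat_lit 78) (nat_lit 0) (nat_lit 0) (XT.lf (nat_lit 0) (nat_lit 10491445729948) (nat_lit 152) (nat_lit 1920466613252) (nat_lit 0) (nat_lit 10242162070928) (nat_lit 2) (nat_lit 5) (nat_lit 4) (nat_lit 4) (nat_lit 2) (nat_lit 4) (nat_lit 291) (nat_lit 245) (nat_lit 124)) (XT.nd (nat_lit 78) (nat_lit 0) (nat_lit 0) (XT.lf (nat_lit 0) (nat_lit 12307298425630) (nat_lit 152) (nat_lit 1644695969865) (nat_lit 0) (nat_lit 12058014765138) (nat_lit 2) (nat_lit 5) (nat_lit 4) (nat_lit 4) (nat_lit 2) (nat_lit 4) (nat_lit 292) (nat_lit 245) (nat_lit 123)) (XT.lf (nat_lit 0) (nat_lit 14395529022579) (nat_lit 152) (nat_lit 1327559736191) (nat_lit 0) (nat_lit 14146245360809) (nat_lit 2) (nat_lit 5) (nat_lit 4) (nat_lit 4) (nat_lit 2) (nat_lit 4) (nat_lit 293) (nat_lit 245) (nat_lit 122)))))) (XT.nd (nat_lit 30654) (nat_lit 0) (nat_lit 1444) (XT.nd (nat_lit 1092)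 (nat_lit 76) (nat_lit 0) (XT.nd (nat_lit 78) (nat_lit 0) (nat_lit 0) (XT.lf (nat_lit 0) (nat_lit 16796994206389) (nat_lit 152) (nat_lit 962853072875) (nat_lit 0) (nat_lit 16547710543507) (nat_lit 2) (nat_lit 5) (nat_lit 4) (nat_lit 4) (nat_lit 2) (nat_lit 4) (nat_lit 294) (nat_lit 245) (nat_lit 121)) (XT.lf (nat_lit 0) (nat_lit 19558679165439) (nat_lit 152) (nat_lit 543440414766) (nat_lit 0) (nat_lit 19309395501589) (nat_lit 2) (nat_lit 5) (nat_lit 4) (nat_lit 4) (nat_lit 2) (nat_lit 4) (nat_lit 295) (nat_lit 245) (nat_lit 120))) (XT.nd (nat_lit 78) (nat_lit 0) (nat_lit 0) (XT.lf (nat_lit 0) (nat_lit 17591444498986) (nat_lit 76) (nat_lit 111795208500983) (nat_lit 76) (nat_lit 111545924831732) (nat_lit 1) (nat_lit 4) (nat_lit 2) (nat_lit 5) (nat_lit 2) (nat_lit 4) (nat_lit 308) (nat_lit 245) (nat_lit 107)) (XT.lf (nat_lit 0) (nat_lit 20849104369267) (nat_lit 76) (nat_lit 128213311513263)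 (nat_lit 76) (nat_lit 127964027843875) (nat_lit 1) (nat_lit 4) (nat_lit 2) (nat_lit 5) (nat_lit 2) (nat_lit 4) (nat_lit 309) (nat_lit 245) (nat_lit 106)))) (XT.nd (nat_lit 156) (nat_lit 0) (nat_lit 76) (XT.nd (nat_lit 78) (nat_lit 0) (nat_lit 0) (XT.lf (nat_lit 0) (nat_lit 8926977666) (nat_lit 380) (nat_lit 34128964702) (nat_lit 380) (nat_lit 34128964702) (nat_lit 20) (nat_lit 3) (nat_lit 25) (nat_lit 3) (nat_lit 25) (nat_lit 5) (nat_lit 246) (nat_lit 246) (nat_lit 168)) (XT.lf (nat_lit 76) (nat_lit 2481978869) (nat_lit 0) (nat_lit 16816270870) (nat_lit 380) (nat_lit 146633500750) (nat_lit 21) (nat_lit 5) (nat_lit 20) (nat_lit 3) (nat_lit 25) (nat_lit 5) (nat_lit 247) (nat_lit 246) (nat_lit 167))) (XT.nd (nat_lit 78) (nat_lit 0) (nat_lit 0) (XT.lf (nat_lit 0) (nat_lit 27300142788) (nat_lit 304) (nat_lit 89962367048) (nat_lit 380) (nat_lit 61014326516) (nat_lit 21) (nat_lit 5) (nat_lit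 25) (nat_lit 5) (nat_lit 26) (nat_lit 5) (nat_lit 248) (nat_lit 246) (nat_lit 166)) (XT.nd (nat_lit 78) (nat_lit 0) (nat_lit 76) (XT.lf (nat_lit 0) (nat_lit 37302707668) (nat_lit 304) (nat_lit 6252936604) (nat_lit 380) (nat_lit 148797984583) (nat_lit 21) (nat_lit 5) (nat_lit 25) (nat_lit 5) (nat_lit 26) (nat_lit 5) (nat_lit 249) (nat_lit 246) (nat_lit 165)) (XT.lf (nat_lit 0) (nat_lit 54797944118) (nat_lit 304) (nat_lit 111020081038) (nat_lit 76) (nat_lit 41825073742) (nat_lit 22) (nat_lit 5) (nat_lit 26) (nat_lit 5) (nat_lit 23) (nat_lit 5) (nat_lit 250) (nat_lit 246) (nat_lit 164))))))) (XT.nd (nat_lit 702) (nat_lit 456) (nat_lit 0) (XT.nd (nat_lit 312) (nat_lit 304) (nat_lit 0) (XT.nd (nat_lit 156) (nat_lit 152) (nat_lit 0) (XT.nd (nat_lit 78) (nat_lit 304) (nat_lit 0) (XT.lf (nat_lit 0) (nat_lit 77333665725) (nat_lit 304) (nat_lit 11633799582) (nat_lit 76) (nat_lit 135896095656)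 (nat_lit 22) (nat_lit 5) (nat_lit 26) (nat_lit 5) (nat_lit 23) (nat_lit 5) (nat_lit 251) (nat_lit 246) (nat_lit 163)) (XT.lf (nat_lit 0) (nat_lit 108113659774) (nat_lit 380) (nat_lit 131472127617) (nat_lit 76) (nat_lit 4351719095) (nat_lit 18) (nat_lit 5) (nat_lit 23) (nat_lit 5) (nat_lit 19) (nat_lit 5) (nat_lit 252) (nat_lit 246) (nat_lit 162))) (XT.nd (nat_lit 78) (nat_lit 152) (nat_lit 0) (XT.lf (nat_lit 0) (nat_lit 148384048897) (nat_lit 380) (nat_lit 13560204664) (nat_lit 76) (nat_lit 103197281992) (nat_lit 18) (nat_lit 5) (nat_lit 23) (nat_lit 5) (nat_lit 19) (nat_lit 5) (nat_lit 253) (nat_lit 246) (nat_lit 161)) (XT.lf (nat_lit 0) (nat_lit 133964720008) (nat_lit 152) (nat_lit 66277261909) (nat_lit 228) (nat_lit 88452140199) (nat_lit 16) (nat_lit 5) (nat_lit 18) (nat_lit 5) (nat_lit 19) (nat_lit 5) (nat_lit 254) (nat_lit 246) (nat_lit 160)))) (XT.nd (nat_lit 156) (nat_lit 228)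 (nat_lit 0) (XT.nd (nat_lit 78) (nat_lit 76) (nat_lit 0) (XT.lf (nat_lit 0) (nat_lit 262432165682) (nat_lit 228) (nat_lit 12376099936) (nat_lit 76) (nat_lit 40588297768) (nat_lit 16) (nat_lit 5) (nat_lit 19) (nat_lit 5) (nat_lit 17) (nat_lit 4) (nat_lit 255) (nat_lit 246) (nat_lit 159)) (XT.lf (nat_lit 0) (nat_lit 162654535645) (nat_lit 76) (nat_lit 181187411265) (nat_lit 152) (nat_lit 778764181) (nat_lit 15) (nat_lit 5) (nat_lit 16) (nat_lit 5) (nat_lit 17) (nat_lit 4) (nat_lit 256) (nat_lit 246) (nat_lit 158))) (XT.nd (nat_lit 78) (nat_lit 152) (nat_lit 0) (XT.lf (nat_lit 0) (nat_lit 54638806321) (nat_lit 152) (nat_lit 15284598396) (nat_lit 76) (nat_lit 307835522932) (nat_lit 14) (nat_lit 5) (nat_lit 16) (nat_lit 5) (nat_lit 15) (nat_lit 5) (nat_lit 257) (nat_lit 246) (nat_lit 157)) (XT.nd (nat_lit 78) (nat_lit 0) (nat_lit 0) (XT.lf (nat_lit 0) (nat_lit 129091996995) (nat_lit 228)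 (nat_lit 223848981102) (nat_lit 76) (nat_lit 61300929188) (nat_lit 12) (nat_lit 5) (nat_lit 15) (nat_lit 5) (nat_lit 13) (nat_lit 4) (nat_lit 258) (nat_lit 246) (nat_lit 156)) (XT.lf (nat_lit 0) (nat_lit 218879731704) (nat_lit 228) (nat_lit 30805576784) (nat_lit 76) (nat_lit 205887040983) (nat_lit 12) (nat_lit 5) (nat_lit 15) (nat_lit 5) (nat_lit 13) (nat_lit 4) (nat_lit 259) (nat_lit 246) (nat_lit 155)))))) (XT.nd (nat_lit 312) (nat_lit 228) (nat_lit 0) (XT.nd (nat_lit 156) (nat_lit 152) (nat_lit 0) (XT.nd (nat_lit 78) (nat_lit 0) (nat_lit 0) (XT.lf (nat_lit 0) (nat_lit 209879033297) (nat_lit 76) (nat_lit 120947119801) (nat_lit 152) (nat_lit 170972626278) (nat_lit 11) (nat_lit 5) (nat_lit 12) (nat_lit 5) (nat_lit 13) (nat_lit 4) (nat_lit 260) (nat_lit 246) (nat_lit 154)) (XT.lf (nat_lit 0) (nat_lit 462373625562) (nat_lit 152) (nat_lit 65788269542) (nat_lit 0) (nat_lit 26375915798) (nat_lit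 11) (nat_lit 5) (nat_lit 13) (nat_lit 4) (nat_lit 11) (nat_lit 4) (nat_lit 261) (nat_lit 246) (nat_lit 153))) (XT.nd (nat_lit 78) (nat_lit 0) (nat_lit 0) (XT.lf (nat_lit 0) (nat_lit 13612023786) (nat_lit 152) (nat_lit 406731987441) (nat_lit 76) (nat_lit 192601733264) (nat_lit 9) (nat_lit 5) (nat_lit 11) (nat_lit 5) (nat_lit 10) (nat_lit 4) (nat_lit 262) (nat_lit 246) (nat_lit 152)) (XT.lf (nat_lit 0) (nat_lit 129421402413) (nat_lit 152) (nat_lit 157741935410) (nat_lit 76) (nat_lit 391752825612) (nat_lit 9) (nat_lit 5) (nat_lit 11) (nat_lit 5) (nat_lit 10) (nat_lit 4) (nat_lit 263) (nat_lit 246) (nat_lit 151)))) (XT.nd (nat_lit 156) (nat_lit 152) (nat_lit 0) (XT.nd (nat_lit 78) (nat_lit 0) (nat_lit 0) (XT.lf (nat_lit 0) (nat_lit 141163859787) (nat_lit 76) (nat_lit 127283539185) (nat_lit 152) (nat_lit 485457964759) (nat_lit 8) (nat_lit 5) (nat_lit 9) (nat_lit 5) (nat_lit 10) (nat_lit 4)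 (nat_lit 264) (nat_lit 246) (nat_lit 150)) (XT.lf (nat_lit 0) (nat_lit 439308246850) (nat_lit 152) (nat_lit 339008118802) (nat_lit 0) (nat_lit 60179435802) (nat_lit 8) (nat_lit 5) (nat_lit 10) (nat_lit 4) (nat_lit 8) (nat_lit 4) (nat_lit 265) (nat_lit 246) (nat_lit 149))) (XT.nd (nat_lit 78) (nat_lit 152) (nat_lit 0) (XT.lf (nat_lit 0) (nat_lit 641859272535) (nat_lit 152) (nat_lit 30275977400) (nat_lit 0) (nat_lit 262730397441) (nat_lit 8) (nat_lit 5) (nat_lit 10) (nat_lit 4) (nat_lit 8) (nat_lit 4) (nat_lit 266) (nat_lit 246) (nat_lit 148)) (XT.nd (nat_lit 78) (nat_lit 76) (nat_lit 0) (XT.lf (nat_lit 0) (nat_lit 356504354558) (nat_lit 76) (nat_lit 533050621471) (nat_lit 76) (nat_lit 153921690685) (nat_lit 7) (nat_lit 4) (nat_lit 8) (nat_lit 5) (nat_lit 8) (nat_lit 4) (nat_lit 267) (nat_lit 246) (nat_lit 147)) (XT.lf (nat_lit 0) (nat_lit 7147156677) (nat_lit 152) (nat_lit 363762592357)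 (nat_lit 76) (nat_lit 797183476865) (nat_lit 6) (nat_lit 5) (nat_lit 8) (nat_lit 5) (nat_lit 7) (nat_lit 4) (nat_lit 268) (nat_lit 246) (nat_lit 146))))))))
noncomputable def xc99 : XT := (XT.nd (nat_lit 1404) (nat_lit 76) (nat_lit 0) (XT.nd (nat_lit 702) (nat_lit 152) (nat_lit 0) (XT.nd (nat_lit 312) (nat_lit 76) (nat_lit 0) (XT.nd (nat_lit 156) (nat_lit 0) (nat_lit 0) (XT.nd (nat_lit 78) (nat_lit 0) (nat_lit 0) (XT.lf (nat_lit 0) (nat_lit 657408678) (nat_lit 76) (nat_lit 175987442485) (nat_lit 152) (nat_lit 1133653901834) (nat_lit 5) (nat_lit 5) (nat_lit 6) (nat_lit 5) (nat_lit 7) (nat_lit 4) (nat_lit 269) (nat_lit 246) (nat_lit 145)) (XT.lf (nat_lit 0) (nat_lit 393482230626) (nat_lit 152) (nat_lit 1013260835046) (nat_lit 0) (nat_lit 63804788936) (nat_lit 5) (nat_lit 5) (nat_lit 7) (nat_lit 4) (nat_lit 5) (nat_lit 4) (nat_lit 270) (nat_lit 246) (nat_lit 144))) (XT.nd (nat_lit 78) (nat_lit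 0) (nat_lit 0) (XT.lf (nat_lit 0) (nat_lit 651225526598) (nat_lit 152) (nat_lit 680803691262) (nat_lit 0) (nat_lit 321548057220) (nat_lit 5) (nat_lit 5) (nat_lit 7) (nat_lit 4) (nat_lit 5) (nat_lit 4) (nat_lit 271) (nat_lit 246) (nat_lit 143)) (XT.lf (nat_lit 0) (nat_lit 947630277999) (nat_lit 152) (nat_lit 298478051979) (nat_lit 0) (nat_lit 617952784543) (nat_lit 5) (nat_lit 5) (nat_lit 7) (nat_lit 4) (nat_lit 5) (nat_lit 4) (nat_lit 272) (nat_lit 246) (nat_lit 142)))) (XT.nd (nat_lit 156) (nat_lit 0) (nat_lit 0) (XT.nd (nat_lit 78) (nat_lit 0) (nat_lit 0) (XT.lf (nat_lit 0) (nat_lit 154995102921) (nat_lit 76) (nat_lit 1139918621986) (nat_lit 76) (nat_lit 810241107594) (nat_lit 4) (nat_lit 4) (nat_lit 5) (nat_lit 5) (nat_lit 5) (nat_lit 4) (nat_lit 273) (nat_lit 246) (nat_lit 141)) (XT.lf (nat_lit 0) (nat_lit 710034030806) (nat_lit 76) (nat_lit 999857887776) (nat_lit 76) (nat_lit 670180355178)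 (nat_lit 4) (nat_lit 4) (nat_lit 5) (nat_lit 5) (nat_lit 5) (nat_lit 4) (nat_lit 274) (nat_lit 246) (nat_lit 140))) (XT.nd (nat_lit 78) (nat_lit 0) (nat_lit 0) (XT.lf (nat_lit 0) (nat_lit 1348328742970) (nat_lit 76) (nat_lit 838788070442) (nat_lit 76) (nat_lit 509110522012) (nat_lit 4) (nat_lit 4) (nat_lit 5) (nat_lit 5) (nat_lit 5) (nat_lit 4) (nat_lit 275) (nat_lit 246) (nat_lit 139)) (XT.nd (nat_lit 78) (nat_lit 0) (nat_lit 0) (XT.lf (nat_lit 0) (nat_lit 2082367614216) (nat_lit 76) (nat_lit 653557803992) (nat_lit 76) (nat_lit 323880241797) (nat_lit 4) (nat_lit 4) (nat_lit 5) (nat_lit 5) (nat_lit 5) (nat_lit 4) (nat_lit 276) (nat_lit 246) (nat_lit 138)) (XT.lf (nat_lit 0) (nat_lit 2926512274634) (nat_lit 76) (nat_lit 440543017998) (nat_lit 76) (nat_lit 110865443832) (nat_lit 4) (nat_lit 4) (nat_lit 5) (nat_lit 5) (nat_lit 5) (nat_lit 4) (nat_lit 277) (nat_lit 246) (nat_lit 137))))))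 (XT.nd (nat_lit 312) (nat_lit 0) (nat_lit 0) (XT.nd (nat_lit 156) (nat_lit 0) (nat_lit 0) (XT.nd (nat_lit 78) (nat_lit 76) (nat_lit 0) (XT.lf (nat_lit 0) (nat_lit 122162905162) (nat_lit 152) (nat_lit 67027338476) (nat_lit 76) (nat_lit 3768729904628) (nat_lit 3) (nat_lit 5) (nat_lit 5) (nat_lit 5) (nat_lit 4) (nat_lit 4) (nat_lit 278) (nat_lit 246) (nat_lit 136)) (XT.lf (nat_lit 0) (nat_lit 406264047919) (nat_lit 152) (nat_lit 3979155290690) (nat_lit 0) (nat_lit 119587879548) (nat_lit 2) (nat_lit 5) (nat_lit 4) (nat_lit 4) (nat_lit 2) (nat_lit 4) (nat_lit 279) (nat_lit 246) (nat_lit 135))) (XT.nd (nat_lit 78) (nat_lit 0) (nat_lit 0) (XT.lf (nat_lit 0) (nat_lit 745659949536) (nat_lit 152) (nat_lit 3927611686571) (nat_lit 0) (nat_lit 458983774321) (nat_lit 2) (nat_lit 5) (nat_lit 4) (nat_lit 4) (nat_lit 2) (nat_lit 4) (nat_lit 280) (nat_lit 246) (nat_lit 134)) (XT.lf (nat_lit 0) (nat_lit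 1135965222048) (nat_lit 152) (nat_lit 3868336570777) (nat_lit 0) (nat_lit 849289040881) (nat_lit 2) (nat_lit 5) (nat_lit 4) (nat_lit 4) (nat_lit 2) (nat_lit 4) (nat_lit 281) (nat_lit 246) (nat_lit 133)))) (XT.nd (nat_lit 156) (nat_lit 0) (nat_lit 0) (XT.nd (nat_lit 78) (nat_lit 0) (nat_lit 0) (XT.lf (nat_lit 0) (nat_lit 1584816272959) (nat_lit 152) (nat_lit 3800170212781) (nat_lit 0) (nat_lit 1298140086617) (nat_lit 2) (nat_lit 5) (nat_lit 4) (nat_lit 4) (nat_lit 2) (nat_lit 4) (nat_lit 282) (nat_lit 246) (nat_lit 132)) (XT.lf (nat_lit 0) (nat_lit 2100994970658) (nat_lit 152) (nat_lit 3721778922969) (nat_lit 0) (nat_lit 1814318779816) (nat_lit 2) (nat_lit 5) (nat_lit 4) (nat_lit 4) (nat_lit 2) (nat_lit 4) (nat_lit 283) (nat_lit 246) (nat_lit 131))) (XT.nd (nat_lit 78) (nat_lit 0) (nat_lit 0) (XT.lf (nat_lit 0) (nat_lit 2694600463578) (nat_lit 152) (nat_lit 3631628958716) (nat_lit 0)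 (nat_lit 2407924268823) (nat_lit 2) (nat_lit 5) (nat_lit 4) (nat_lit 4) (nat_lit 2) (nat_lit 4) (nat_lit 284) (nat_lit 246) (nat_lit 130)) (XT.nd (nat_lit 78) (nat_lit 0) (nat_lit 0) (XT.lf (nat_lit 0) (nat_lit 3377246772232) (nat_lit 152) (nat_lit 3527956516372) (nat_lit 0) (nat_lit 3090570574074) (nat_lit 2) (nat_lit 5) (nat_lit 4) (nat_lit 4) (nat_lit 2) (nat_lit 4) (nat_lit 285) (nat_lit 246) (nat_lit 129)) (XT.lf (nat_lit 0) (nat_lit 4162290020051) (nat_lit 152) (nat_lit 3408733222066) (nat_lit 0) (nat_lit 3875613818934) (nat_lit 2) (nat_lit 5) (nat_lit 4) (nat_lit 4) (nat_lit 2) (nat_lit 4) (nat_lit 286) (nat_lit 246) (nat_lit 128))))))) (XT.nd (nat_lit 858) (nat_lit 76) (nat_lit 0) (XT.nd (nat_lit 312) (nat_lit 0) (nat_lit 0) (XT.nd (nat_lit 156) (nat_lit 0) (nat_lit 0) (XT.nd (nat_lit 78) (nat_lit 0) (nat_lit 0) (XT.lf (nat_lit 0) (nat_lit 5065089748839) (nat_lit 152) (nat_lit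 3271626446127) (nat_lit 0) (nat_lit 4778413545149) (nat_lit 2) (nat_lit 5) (nat_lit 4) (nat_lit 4) (nat_lit 2) (nat_lit 4) (nat_lit 287) (nat_lit 246) (nat_lit 127)) (XT.lf (nat_lit 0) (nat_lit 6103309431552) (nat_lit 152) (nat_lit 3113953664677) (nat_lit 0) (nat_lit 5816633225624) (nat_lit 2) (nat_lit 5) (nat_lit 4) (nat_lit 4) (nat_lit 2) (nat_lit 4) (nat_lit 288) (nat_lit 246) (nat_lit 126))) (XT.nd (nat_lit 78) (nat_lit 0) (nat_lit 0) (XT.lf (nat_lit 0) (nat_lit 7297262061981) (nat_lit 152) (nat_lit 2932629975470) (nat_lit 0) (nat_lit 7010585854108) (nat_lit 2) (nat_lit 5) (nat_lit 4) (nat_lit 4) (nat_lit 2) (nat_lit 4) (nat_lit 289) (nat_lit 246) (nat_lit 125)) (XT.lf (nat_lit 0) (nat_lit 8670307582896) (nat_lit 152) (nat_lit 2724107741110) (nat_lit 0) (nat_lit 8383631373331) (nat_lit 2) (nat_lit 5) (nat_lit 4) (nat_lit 4) (nat_lit 2) (nat_lit 4) (nat_lit 290) (nat_lit 246) (nat_lit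 124)))) (XT.nd (nat_lit 156) (nat_lit 0) (nat_lit 0) (XT.nd (nat_lit 78) (nat_lit 0) (nat_lit 0) (XT.lf (nat_lit 0) (nat_lit 10249309928401) (nat_lit 152) (nat_lit 2484307178750) (nat_lit 0) (nat_lit 9962633717365) (nat_lit 2) (nat_lit 5) (nat_lit 4) (nat_lit 4) (nat_lit 2) (nat_lit 4) (nat_lit 291) (nat_lit 246) (nat_lit 123)) (XT.lf (nat_lit 0) (nat_lit 12065162622648) (nat_lit 152) (nat_lit 2208536538256) (nat_lit 0) (nat_lit 11778486410333) (nat_lit 2) (nat_lit 5) (nat_lit 4) (nat_lit 4) (nat_lit 2) (nat_lit 4) (nat_lit 292) (nat_lit 246) (nat_lit 122))) (XT.nd (nat_lit 78) (nat_lit 0) (nat_lit 0) (XT.lf (nat_lit 0) (nat_lit 14153393218350) (nat_lit 152) (nat_lit 1891400307098) (nat_lit 0) (nat_lit 13866717004922) (nat_lit 2) (nat_lit 5) (nat_lit 4) (nat_lit 4) (nat_lit 2) (nat_lit 4) (nat_lit 293) (nat_lit 246) (nat_lit 121)) (XT.nd (nat_lit 78) (nat_lit 0) (nat_lit 0) (XT.lf (nat_lit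 0) (nat_lit 16554858401076) (nat_lit 152) (nat_lit 1526693645971) (nat_lit 0) (nat_lit 16268182186681) (nat_lit 2) (nat_lit 5) (nat_lit 4) (nat_lit 4) (nat_lit 2) (nat_lit 4) (nat_lit 294) (nat_lit 246) (nat_lit 120)) (XT.lf (nat_lit 0) (nat_lit 19316543359182) (nat_lit 152) (nat_lit 1107280989764) (nat_lit 0) (nat_lit 19029867143946) (nat_lit 2) (nat_lit 5) (nat_lit 4) (nat_lit 4) (nat_lit 2) (nat_lit 4) (nat_lit 295) (nat_lit 246) (nat_lit 119)))))) (XT.nd (nat_lit 30498) (nat_lit 0) (nat_lit 1444) (XT.nd (nat_lit 156) (nat_lit 0) (nat_lit 0) (XT.nd (nat_lit 78) (nat_lit 0) (nat_lit 0) (XT.lf (nat_lit 0) (nat_lit 623060125421) (nat_lit 76) (nat_lit 29747726483702) (nat_lit 76) (nat_lit 29461050266545) (nat_lit 1) (nat_lit 4) (nat_lit 2) (nat_lit 5) (nat_lit 2) (nat_lit 4) (nat_lit 298) (nat_lit 246) (nat_lit 116)) (XT.lf (nat_lit 0) (nat_lit 1428303830502) (nat_lit 76) (nat_lit 33806030448118)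 (nat_lit 76) (nat_lit 33519354230481) (nat_lit 1) (nat_lit 4) (nat_lit 2) (nat_lit 5) (nat_lit 2) (nat_lit 4) (nat_lit 299) (nat_lit 246) (nat_lit 115))) (XT.nd (nat_lit 30264) (nat_lit 0) (nat_lit 1444) (XT.lf (nat_lit 0) (nat_lit 2354334089114) (nat_lit 76) (nat_lit 38473080008329) (nat_lit 76) (nat_lit 38186403790274) (nat_lit 1) (nat_lit 4) (nat_lit 2) (nat_lit 5) (nat_lit 2) (nat_lit 4) (nat_lit 300) (nat_lit 246) (nat_lit 114)) (XT.lf (nat_lit 0) (nat_lit 10268396165) (nat_lit 380) (nat_lit 39246939579) (nat_lit 380) (nat_lit 39246939579) (nat_lit 20) (nat_lit 3) (nat_lit 25) (nat_lit 3) (nat_lit 25) (nat_lit 5) (nat_lit 247) (nat_lit 247) (nat_lit 166)))) (XT.nd (nat_lit 156) (nat_lit 0) (nat_lit 76) (XT.nd (nat_lit 78) (nat_lit 0) (nat_lit 76) (XT.lf (nat_lit 76) (nat_lit 2856890825) (nat_lit 0) (nat_lit 19340329616) (nat_lit 380) (nat_lit 168623636715) (nat_lit 21) (nat_lit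 5) (nat_lit 20) (nat_lit 3) (nat_lit 25) (nat_lit 5) (nat_lit 248) (nat_lit 247) (nat_lit 165)) (XT.lf (nat_lit 0) (nat_lit 31398787022) (nat_lit 304) (nat_lit 103453819466) (nat_lit 380) (nat_lit 70165193702) (nat_lit 21) (nat_lit 5) (nat_lit 25) (nat_lit 5) (nat_lit 26) (nat_lit 5) (nat_lit 249) (nat_lit 247) (nat_lit 164))) (XT.nd (nat_lit 78) (nat_lit 0) (nat_lit 76) (XT.lf (nat_lit 0) (nat_lit 42901264092) (nat_lit 304) (nat_lit 7188353061) (nat_lit 380) (nat_lit 171116567670) (nat_lit 21) (nat_lit 5) (nat_lit 25) (nat_lit 5) (nat_lit 26) (nat_lit 5) (nat_lit 250) (nat_lit 247) (nat_lit 163)) (XT.nd (nat_lit 78) (nat_lit 0) (nat_lit 0) (XT.lf (nat_lit 0) (nat_lit 63020457071) (nat_lit 304) (nat_lit 127670226465) (nat_lit 76) (nat_lit 48098443241) (nat_lit 22) (nat_lit 5) (nat_lit 26) (nat_lit 5) (nat_lit 23) (nat_lit 5) (nat_lit 251) (nat_lit 247) (nat_lit 162)) (XT.lf (nat_lit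 0) (nat_lit 88936168919) (nat_lit 304) (nat_lit 13376376712) (nat_lit 76) (nat_lit 156280169516) (nat_lit 22) (nat_lit 5) (nat_lit 26) (nat_lit 5) (nat_lit 23) (nat_lit 5) (nat_lit 252) (nat_lit 247) (nat_lit 161))))))))
noncomputable def xc100 : XT := (XT.nd (nat_lit 1404) (nat_lit 228) (nat_lit 0) (XT.nd (nat_lit 702) (nat_lit 456) (nat_lit 0) (XT.nd (nat_lit 312) (nat_lit 380) (nat_lit 0) (XT.nd (nat_lit 156) (nat_lit 152) (nat_lit 0) (XT.nd (nat_lit 78) (nat_lit 0) (nat_lit 0) (XT.lf (nat_lit 0) (nat_lit 124332946717) (nat_lit 380) (nat_lit 151190228193) (nat_lit 76) (nat_lit 5004611450) (nat_lit 18) (nat_lit 5) (nat_lit 23) (nat_lit 5) (nat_lit 19) (nat_lit 5) (nat_lit 253) (nat_lit 247) (nat_lit 160)) (XT.lf (nat_lit 0) (nat_lit 170643602300) (nat_lit 380) (nat_lit 15591871392) (nat_lit 76) (nat_lit 118676991239) (nat_lit 18) (nat_lit 5) (nat_lit 23) (nat_lit 5) (nat_lit 19) (nat_lit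 5) (nat_lit 254) (nat_lit 247) (nat_lit 159))) (XT.nd (nat_lit 78) (nat_lit 0) (nat_lit 0) (XT.lf (nat_lit 0) (nat_lit 154061684527) (nat_lit 152) (nat_lit 76218380349) (nat_lit 228) (nat_lit 101717899843) (nat_lit 16) (nat_lit 5) (nat_lit 18) (nat_lit 5) (nat_lit 19) (nat_lit 5) (nat_lit 255) (nat_lit 247) (nat_lit 158)) (XT.lf (nat_lit 0) (nat_lit 301798560245) (nat_lit 228) (nat_lit 14230329938) (nat_lit 76) (nat_lit 46676915415) (nat_lit 16) (nat_lit 5) (nat_lit 19) (nat_lit 5) (nat_lit 17) (nat_lit 4) (nat_lit 256) (nat_lit 247) (nat_lit 157)))) (XT.nd (nat_lit 156) (nat_lit 228) (nat_lit 0) (XT.nd (nat_lit 78) (nat_lit 76) (nat_lit 0) (XT.lf (nat_lit 0) (nat_lit 187054801662) (nat_lit 76) (nat_lit 208364888614) (nat_lit 152) (nat_lit 893903833) (nat_lit 15) (nat_lit 5) (nat_lit 16) (nat_lit 5) (nat_lit 17) (nat_lit 4) (nat_lit 257) (nat_lit 247) (nat_lit 156)) (XT.lf (nat_lit 0)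 (nat_lit 62835954101) (nat_lit 152) (nat_lit 17575340364) (nat_lit 76) (nat_lit 354011268808) (nat_lit 14) (nat_lit 5) (nat_lit 16) (nat_lit 5) (nat_lit 15) (nat_lit 5) (nat_lit 258) (nat_lit 247) (nat_lit 155))) (XT.nd (nat_lit 78) (nat_lit 76) (nat_lit 0) (XT.lf (nat_lit 0) (nat_lit 148457053325) (nat_lit 228) (nat_lit 257424306513) (nat_lit 76) (nat_lit 70496641113) (nat_lit 12) (nat_lit 5) (nat_lit 15) (nat_lit 5) (nat_lit 13) (nat_lit 4) (nat_lit 259) (nat_lit 247) (nat_lit 154)) (XT.nd (nat_lit 78) (nat_lit 76) (nat_lit 0) (XT.lf (nat_lit 0) (nat_lit 251712784311) (nat_lit 228) (nat_lit 35424655255) (nat_lit 76) (nat_lit 236770594998) (nat_lit 12) (nat_lit 5) (nat_lit 15) (nat_lit 5) (nat_lit 13) (nat_lit 4) (nat_lit 260) (nat_lit 247) (nat_lit 153)) (XT.lf (nat_lit 0) (nat_lit 241362566427) (nat_lit 76) (nat_lit 139088529430) (nat_lit 152) (nat_lit 196617344499) (nat_lit 11) (nat_lit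 5) (nat_lit 12) (nat_lit 5) (nat_lit 13) (nat_lit 4) (nat_lit 261) (nat_lit 247) (nat_lit 152)))))) (XT.nd (nat_lit 312) (nat_lit 228) (nat_lit 0) (XT.nd (nat_lit 156) (nat_lit 76) (nat_lit 0) (XT.nd (nat_lit 78) (nat_lit 152) (nat_lit 0) (XT.lf (nat_lit 0) (nat_lit 531730579879) (nat_lit 152) (nat_lit 75654938843) (nat_lit 0) (nat_lit 30332824673) (nat_lit 11) (nat_lit 5) (nat_lit 13) (nat_lit 4) (nat_lit 11) (nat_lit 4) (nat_lit 262) (nat_lit 247) (nat_lit 151)) (XT.lf (nat_lit 0) (nat_lit 15654723873) (nat_lit 152) (nat_lit 467740196283) (nat_lit 76) (nat_lit 221492549587) (nat_lit 9) (nat_lit 5) (nat_lit 11) (nat_lit 5) (nat_lit 10) (nat_lit 4) (nat_lit 263) (nat_lit 247) (nat_lit 150))) (XT.nd (nat_lit 78) (nat_lit 76) (nat_lit 0) (XT.lf (nat_lit 0) (nat_lit 148835392356) (nat_lit 152) (nat_lit 181401843744) (nat_lit 76) (nat_lit 450516233223) (nat_lit 9) (nat_lit 5) (nat_lit 11)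 (nat_lit 5) (nat_lit 10) (nat_lit 4) (nat_lit 264) (nat_lit 247) (nat_lit 149)) (XT.lf (nat_lit 0) (nat_lit 162339757915) (nat_lit 76) (nat_lit 146375483423) (nat_lit 152) (nat_lit 558275815604) (nat_lit 8) (nat_lit 5) (nat_lit 9) (nat_lit 5) (nat_lit 10) (nat_lit 4) (nat_lit 265) (nat_lit 247) (nat_lit 148)))) (XT.nd (nat_lit 156) (nat_lit 228) (nat_lit 0) (XT.nd (nat_lit 78) (nat_lit 0) (nat_lit 0) (XT.lf (nat_lit 0) (nat_lit 505205141975) (nat_lit 152) (nat_lit 389858113825) (nat_lit 0) (nat_lit 69206815879) (nat_lit 8) (nat_lit 5) (nat_lit 10) (nat_lit 4) (nat_lit 8) (nat_lit 4) (nat_lit 266) (nat_lit 247) (nat_lit 147)) (XT.lf (nat_lit 0) (nat_lit 738138735674) (nat_lit 152) (nat_lit 34816310708) (nat_lit 0) (nat_lit 302140361151) (nat_lit 8) (nat_lit 5) (nat_lit 10) (nat_lit 4) (nat_lit 8) (nat_lit 4) (nat_lit 267) (nat_lit 247) (nat_lit 146))) (XT.nd (nat_lit 78) (nat_lit 152)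 (nat_lit 0) (XT.lf (nat_lit 0) (nat_lit 409981022712) (nat_lit 76) (nat_lit 613007739365) (nat_lit 76) (nat_lit 177009322730) (nat_lit 7) (nat_lit 4) (nat_lit 8) (nat_lit 5) (nat_lit 8) (nat_lit 4) (nat_lit 268) (nat_lit 247) (nat_lit 145)) (XT.nd (nat_lit 78) (nat_lit 76) (nat_lit 0) (XT.lf (nat_lit 0) (nat_lit 8219722545) (nat_lit 152) (nat_lit 418326049780) (nat_lit 76) (nat_lit 916761362874) (nat_lit 6) (nat_lit 5) (nat_lit 8) (nat_lit 5) (nat_lit 7) (nat_lit 4) (nat_lit 269) (nat_lit 247) (nat_lit 144)) (XT.lf (nat_lit 0) (nat_lit 756909073) (nat_lit 76) (nat_lit 202385134725) (nat_lit 152) (nat_lit 1303701451769) (nat_lit 5) (nat_lit 5) (nat_lit 6) (nat_lit 5) (nat_lit 7) (nat_lit 4) (nat_lit 270) (nat_lit 247) (nat_lit 143))))))) (XT.nd (nat_lit 702) (nat_lit 76) (nat_lit 0) (XT.nd (nat_lit 312) (nat_lit 76) (nat_lit 0) (XT.nd (nat_lit 156) (nat_lit 76) (nat_lit 0) (XT.nd (nat_lit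 78) (nat_lit 0) (nat_lit 0) (XT.lf (nat_lit 0) (nat_lit 452504984805) (nat_lit 152) (nat_lit 1165249141250) (nat_lit 0) (nat_lit 73375843254) (nat_lit 5) (nat_lit 5) (nat_lit 7) (nat_lit 4) (nat_lit 5) (nat_lit 4) (nat_lit 271) (nat_lit 247) (nat_lit 142)) (XT.lf (nat_lit 0) (nat_lit 748909720445) (nat_lit 152) (nat_lit 782923532732) (nat_lit 0) (nat_lit 369780557957) (nat_lit 5) (nat_lit 5) (nat_lit 7) (nat_lit 4) (nat_lit 5) (nat_lit 4) (nat_lit 272) (nat_lit 247) (nat_lit 141))) (XT.nd (nat_lit 78) (nat_lit 76) (nat_lit 0) (XT.lf (nat_lit 0) (nat_lit 1089775136965) (nat_lit 152) (nat_lit 343249140454) (nat_lit 0) (nat_lit 710645956272) (nat_lit 5) (nat_lit 5) (nat_lit 7) (nat_lit 4) (nat_lit 5) (nat_lit 4) (nat_lit 273) (nat_lit 247) (nat_lit 140)) (XT.lf (nat_lit 0) (nat_lit 178244959530) (nat_lit 76) (nat_lit 1310906124477) (nat_lit 76) (nat_lit 931776927952) (nat_lit 4) (nat_lit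 4) (nat_lit 5) (nat_lit 5) (nat_lit 5) (nat_lit 4) (nat_lit 274) (nat_lit 247) (nat_lit 139)))) (XT.nd (nat_lit 156) (nat_lit 76) (nat_lit 0) (XT.nd (nat_lit 78) (nat_lit 0) (nat_lit 0) (XT.lf (nat_lit 0) (nat_lit 816539649488) (nat_lit 76) (nat_lit 1149836318066) (nat_lit 76) (nat_lit 770707107775) (nat_lit 4) (nat_lit 4) (nat_lit 5) (nat_lit 5) (nat_lit 5) (nat_lit 4) (nat_lit 275) (nat_lit 247) (nat_lit 138)) (XT.lf (nat_lit 0) (nat_lit 1550578501425) (nat_lit 76) (nat_lit 964606061116) (nat_lit 76) (nat_lit 585476838854) (nat_lit 4) (nat_lit 4) (nat_lit 5) (nat_lit 5) (nat_lit 5) (nat_lit 4) (nat_lit 276) (nat_lit 247) (nat_lit 137))) (XT.nd (nat_lit 78) (nat_lit 76) (nat_lit 0) (XT.lf (nat_lit 0) (nat_lit 2394723145052) (nat_lit 76) (nat_lit 751591283381) (nat_lit 76) (nat_lit 372462050710) (nat_lit 4) (nat_lit 4) (nat_lit 5) (nat_lit 5) (nat_lit 5) (nat_lit 4) (nat_lit 277) (nat_lit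 247) (nat_lit 136)) (XT.nd (nat_lit 78) (nat_lit 76) (nat_lit 0) (XT.lf (nat_lit 0) (nat_lit 3365489453832) (nat_lit 76) (nat_lit 506624304428) (nat_lit 76) (nat_lit 127495062705) (nat_lit 4) (nat_lit 4) (nat_lit 5) (nat_lit 5) (nat_lit 5) (nat_lit 4) (nat_lit 278) (nat_lit 247) (nat_lit 135)) (XT.lf (nat_lit 0) (nat_lit 140487497545) (nat_lit 152) (nat_lit 77081129869) (nat_lit 76) (nat_lit 4334039519443) (nat_lit 3) (nat_lit 5) (nat_lit 5) (nat_lit 5) (nat_lit 4) (nat_lit 4) (nat_lit 279) (nat_lit 247) (nat_lit 134)))))) (XT.nd (nat_lit 312) (nat_lit 0) (nat_lit 0) (XT.nd (nat_lit 156) (nat_lit 0) (nat_lit 0) (XT.nd (nat_lit 78) (nat_lit 0) (nat_lit 0) (XT.lf (nat_lit 0) (nat_lit 467203809600) (nat_lit 152) (nat_lit 4576028272662) (nat_lit 0) (nat_lit 137526195307) (nat_lit 2) (nat_lit 5) (nat_lit 4) (nat_lit 4) (nat_lit 2) (nat_lit 4) (nat_lit 280) (nat_lit 247) (nat_lit 133)) (XT.lf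 (nat_lit 0) (nat_lit 857509076309) (nat_lit 152) (nat_lit 4516753168574) (nat_lit 0) (nat_lit 527831456840) (nat_lit 2) (nat_lit 5) (nat_lit 4) (nat_lit 4) (nat_lit 2) (nat_lit 4) (nat_lit 281) (nat_lit 247) (nat_lit 132))) (XT.nd (nat_lit 78) (nat_lit 0) (nat_lit 0) (XT.lf (nat_lit 0) (nat_lit 1306360122174) (nat_lit 152) (nat_lit 4448586820756) (nat_lit 0) (nat_lit 976682498205) (nat_lit 2) (nat_lit 5) (nat_lit 4) (nat_lit 4) (nat_lit 2) (nat_lit 4) (nat_lit 282) (nat_lit 247) (nat_lit 131)) (XT.lf (nat_lit 0) (nat_lit 1822538815485) (nat_lit 152) (nat_lit 4370195539796) (nat_lit 0) (nat_lit 1492861187603) (nat_lit 2) (nat_lit 5) (nat_lit 4) (nat_lit 4) (nat_lit 2) (nat_lit 4) (nat_lit 283) (nat_lit 247) (nat_lit 130)))) (XT.nd (nat_lit 156) (nat_lit 0) (nat_lit 0) (XT.nd (nat_lit 78) (nat_lit 0) (nat_lit 0) (XT.lf (nat_lit 0) (nat_lit 2416144304589) (nat_lit 152) (nat_lit 4280045583239)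 (nat_lit 0) (nat_lit 2086466673305) (nat_lit 2) (nat_lit 5) (nat_lit 4) (nat_lit 4) (nat_lit 2) (nat_lit 4) (nat_lit 284) (nat_lit 247) (nat_lit 129)) (XT.lf (nat_lit 0) (nat_lit 3098790609926) (nat_lit 152) (nat_lit 4176373147588) (nat_lit 0) (nat_lit 2769112975682) (nat_lit 2) (nat_lit 5) (nat_lit 4) (nat_lit 4) (nat_lit 2) (nat_lit 4) (nat_lit 285) (nat_lit 247) (nat_lit 128))) (XT.nd (nat_lit 78) (nat_lit 0) (nat_lit 0) (XT.lf (nat_lit 0) (nat_lit 3883833854859) (nat_lit 152) (nat_lit 4057149859102) (nat_lit 0) (nat_lit 3554156218042) (nat_lit 2) (nat_lit 5) (nat_lit 4) (nat_lit 4) (nat_lit 2) (nat_lit 4) (nat_lit 286) (nat_lit 247) (nat_lit 127)) (XT.nd (nat_lit 78) (nat_lit 0) (nat_lit 0) (XT.lf (nat_lit 0) (nat_lit 4786633581139) (nat_lit 152) (nat_lit 3920043088223) (nat_lit 0) (nat_lit 4456955942084) (nat_lit 2) (nat_lit 5) (nat_lit 4) (nat_lit 4) (nat_lit 2) (nat_lit 4) (nat_lit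 287) (nat_lit 247) (nat_lit 126)) (XT.lf (nat_lit 0) (nat_lit 5824853261670) (nat_lit 152) (nat_lit 3762370311173) (nat_lit 0) (nat_lit 5495175620670) (nat_lit 2) (nat_lit 5) (nat_lit 4) (nat_lit 4) (nat_lit 2) (nat_lit 4) (nat_lit 288) (nat_lit 247) (nat_lit 125))))))))
noncomputable def xc101 : XT := (XT.nd (nat_lit 31746) (nat_lit 0) (nat_lit 304) (XT.nd (nat_lit 780) (nat_lit 76) (nat_lit 0) (XT.nd (nat_lit 312) (nat_lit 0) (nat_lit 0) (XT.nd (nat_lit 156) (nat_lit 0) (nat_lit 0) (XT.nd (nat_lit 78) (nat_lit 0) (nat_lit 0) (XT.lf (nat_lit 0) (nat_lit 7018805890201) (nat_lit 152) (nat_lit 3581046625793) (nat_lit 0) (nat_lit 6689128247510) (nat_lit 2) (nat_lit 5) (nat_lit 4) (nat_lit 4) (nat_lit 2) (nat_lit 4) (nat_lit 289) (nat_lit 247) (nat_lit 124)) (XT.lf (nat_lit 0) (nat_lit 8391851409467) (nat_lit 152) (nat_lit 3372524394761) (nat_lit 0) (nat_lit 8062173765304) (nat_lit 2) (nat_lit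 5) (nat_lit 4) (nat_lit 4) (nat_lit 2) (nat_lit 4) (nat_lit 290) (nat_lit 247) (nat_lit 123))) (XT.nd (nat_lit 78) (nat_lit 0) (nat_lit 0) (XT.lf (nat_lit 0) (nat_lit 9970853753537) (nat_lit 152) (nat_lit 3132723835294) (nat_lit 0) (nat_lit 9641176108096) (nat_lit 2) (nat_lit 5) (nat_lit 4) (nat_lit 4) (nat_lit 2) (nat_lit 4) (nat_lit 291) (nat_lit 247) (nat_lit 122)) (XT.lf (nat_lit 0) (nat_lit 11786706446537) (nat_lit 152) (nat_lit 2856953197316) (nat_lit 0) (nat_lit 11457028799983) (nat_lit 2) (nat_lit 5) (nat_lit 4) (nat_lit 4) (nat_lit 2) (nat_lit 4) (nat_lit 292) (nat_lit 247) (nat_lit 121)))) (XT.nd (nat_lit 156) (nat_lit 0) (nat_lit 0) (XT.nd (nat_lit 78) (nat_lit 0) (nat_lit 0) (XT.lf (nat_lit 0) (nat_lit 13874937041155) (nat_lit 152) (nat_lit 2539816968346) (nat_lit 0) (nat_lit 13545259393633) (nat_lit 2) (nat_lit 5) (nat_lit 4) (nat_lit 4) (nat_lit 2) (nat_lit 4) (nat_lit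 293) (nat_lit 247) (nat_lit 120)) (XT.lf (nat_lit 0) (nat_lit 16276402222937) (nat_lit 152) (nat_lit 2175110309121) (nat_lit 0) (nat_lit 15946724574574) (nat_lit 2) (nat_lit 5) (nat_lit 4) (nat_lit 4) (nat_lit 2) (nat_lit 4) (nat_lit 294) (nat_lit 247) (nat_lit 119))) (XT.nd (nat_lit 156) (nat_lit 0) (nat_lit 0) (XT.lf (nat_lit 0) (nat_lit 19038087180224) (nat_lit 152) (nat_lit 1755697654569) (nat_lit 0) (nat_lit 18708409531129) (nat_lit 2) (nat_lit 5) (nat_lit 4) (nat_lit 4) (nat_lit 2) (nat_lit 4) (nat_lit 295) (nat_lit 247) (nat_lit 118)) (XT.nd (nat_lit 78) (nat_lit 0) (nat_lit 0) (XT.lf (nat_lit 0) (nat_lit 25866353232484) (nat_lit 152) (nat_lit 718699875527) (nat_lit 0) (nat_lit 25536675582201) (nat_lit 2) (nat_lit 5) (nat_lit 4) (nat_lit 4) (nat_lit 2) (nat_lit 4) (nat_lit 297) (nat_lit 247) (nat_lit 116)) (XT.lf (nat_lit 0) (nat_lit 30066530837177) (nat_lit 152) (nat_lit 80825664057)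 (nat_lit 0) (nat_lit 29736853186413) (nat_lit 2) (nat_lit 5) (nat_lit 4) (nat_lit 4) (nat_lit 2) (nat_lit 4) (nat_lit 298) (nat_lit 247) (nat_lit 115)))))) (XT.nd (nat_lit 30576) (nat_lit 0) (nat_lit 1292) (XT.nd (nat_lit 30420) (nat_lit 0) (nat_lit 1444) (XT.nd (nat_lit 78) (nat_lit 0) (nat_lit 0) (XT.lf (nat_lit 0) (nat_lit 716519168271) (nat_lit 76) (nat_lit 34209885444071) (nat_lit 76) (nat_lit 33880207792889) (nat_lit 1) (nat_lit 4) (nat_lit 2) (nat_lit 5) (nat_lit 2) (nat_lit 4) (nat_lit 299) (nat_lit 247) (nat_lit 114)) (XT.lf (nat_lit 0) (nat_lit 1642549425979) (nat_lit 76) (nat_lit 38876935004740) (nat_lit 76) (nat_lit 38547257353194) (nat_lit 1) (nat_lit 4) (nat_lit 2) (nat_lit 5) (nat_lit 2) (nat_lit 4) (nat_lit 300) (nat_lit 247) (nat_lit 113))) (XT.nd (nat_lit 78) (nat_lit 0) (nat_lit 0) (XT.lf (nat_lit 0) (nat_lit 11810449048) (nat_lit 380) (nat_lit 45132944730) (nat_lit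 380) (nat_lit 45132944730) (nat_lit 20) (nat_lit 3) (nat_lit 25) (nat_lit 3) (nat_lit 25) (nat_lit 5) (nat_lit 248) (nat_lit 248) (nat_lit 164)) (XT.lf (nat_lit 76) (nat_lit 3287401859) (nat_lit 0) (nat_lit 22242602586) (nat_lit 380) (nat_lit 193913485324) (nat_lit 21) (nat_lit 5) (nat_lit 20) (nat_lit 3) (nat_lit 25) (nat_lit 5) (nat_lit 249) (nat_lit 248) (nat_lit 163)))) (XT.nd (nat_lit 156) (nat_lit 228) (nat_lit 0) (XT.nd (nat_lit 78) (nat_lit 0) (nat_lit 0) (XT.lf (nat_lit 0) (nat_lit 36111344444) (nat_lit 304) (nat_lit 118969697573) (nat_lit 380) (nat_lit 80689003540) (nat_lit 21) (nat_lit 5) (nat_lit 25) (nat_lit 5) (nat_lit 26) (nat_lit 5) (nat_lit 250) (nat_lit 248) (nat_lit 162)) (XT.lf (nat_lit 0) (nat_lit 49338835766) (nat_lit 304) (nat_lit 8264697487) (nat_lit 380) (nat_lit 196783210022) (nat_lit 21) (nat_lit 5) (nat_lit 25) (nat_lit 5) (nat_lit 26) (nat_lit 5) (nat_lit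 251) (nat_lit 248) (nat_lit 161))) (XT.nd (nat_lit 78) (nat_lit 304) (nat_lit 0) (XT.lf (nat_lit 0) (nat_lit 72475658966) (nat_lit 304) (nat_lit 146818592775) (nat_lit 76) (nat_lit 55312913651) (nat_lit 22) (nat_lit 5) (nat_lit 26) (nat_lit 5) (nat_lit 23) (nat_lit 5) (nat_lit 252) (nat_lit 248) (nat_lit 160)) (XT.nd (nat_lit 78) (nat_lit 304) (nat_lit 0) (XT.lf (nat_lit 0) (nat_lit 102278449330) (nat_lit 304) (nat_lit 15380948297) (nat_lit 76) (nat_lit 179721937485) (nat_lit 22) (nat_lit 5) (nat_lit 26) (nat_lit 5) (nat_lit 23) (nat_lit 5) (nat_lit 253) (nat_lit 248) (nat_lit 159)) (XT.lf (nat_lit 0) (nat_lit 142984580958) (nat_lit 380) (nat_lit 173866706796) (nat_lit 76) (nat_lit 5755404862) (nat_lit 18) (nat_lit 5) (nat_lit 23) (nat_lit 5) (nat_lit 19) (nat_lit 5) (nat_lit 254) (nat_lit 248) (nat_lit 158))))))) (XT.nd (nat_lit 702) (nat_lit 456) (nat_lit 0) (XT.nd (nat_lit 312) (nat_lit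 304) (nat_lit 0) (XT.nd (nat_lit 156) (nat_lit 76) (nat_lit 0) (XT.nd (nat_lit 78) (nat_lit 152) (nat_lit 0) (XT.lf (nat_lit 0) (nat_lit 196241614151) (nat_lit 380) (nat_lit 17928864600) (nat_lit 76) (nat_lit 136478628355) (nat_lit 18) (nat_lit 5) (nat_lit 23) (nat_lit 5) (nat_lit 19) (nat_lit 5) (nat_lit 255) (nat_lit 248) (nat_lit 157)) (XT.lf (nat_lit 0) (nat_lit 177172643458) (nat_lit 152) (nat_lit 87650781373) (nat_lit 228) (nat_lit 116974026116) (nat_lit 16) (nat_lit 5) (nat_lit 18) (nat_lit 5) (nat_lit 19) (nat_lit 5) (nat_lit 256) (nat_lit 248) (nat_lit 156))) (XT.nd (nat_lit 78) (nat_lit 76) (nat_lit 0) (XT.lf (nat_lit 0) (nat_lit 347069531208) (nat_lit 228) (nat_lit 16363227264) (nat_lit 76) (nat_lit 53678734756) (nat_lit 16) (nat_lit 5) (nat_lit 19) (nat_lit 5) (nat_lit 17) (nat_lit 4) (nat_lit 257) (nat_lit 248) (nat_lit 155)) (XT.lf (nat_lit 0) (nat_lit 215114598978) (nat_lit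 76) (nat_lit 239619142252) (nat_lit 152) (nat_lit 1026722887) (nat_lit 15) (nat_lit 5) (nat_lit 16) (nat_lit 5) (nat_lit 17) (nat_lit 4) (nat_lit 258) (nat_lit 248) (nat_lit 154)))) (XT.nd (nat_lit 156) (nat_lit 76) (nat_lit 0) (XT.nd (nat_lit 78) (nat_lit 152) (nat_lit 0) (XT.lf (nat_lit 0) (nat_lit 72262350492) (nat_lit 152) (nat_lit 20210168609) (nat_lit 76) (nat_lit 407113274772) (nat_lit 14) (nat_lit 5) (nat_lit 16) (nat_lit 5) (nat_lit 15) (nat_lit 5) (nat_lit 259) (nat_lit 248) (nat_lit 153)) (XT.lf (nat_lit 0) (nat_lit 170726561630) (nat_lit 228) (nat_lit 296036423754) (nat_lit 76) (nat_lit 81071570208) (nat_lit 12) (nat_lit 5) (nat_lit 15) (nat_lit 5) (nat_lit 13) (nat_lit 4) (nat_lit 260) (nat_lit 248) (nat_lit 152))) (XT.nd (nat_lit 78) (nat_lit 76) (nat_lit 0) (XT.lf (nat_lit 0) (nat_lit 289470528311) (nat_lit 228) (nat_lit 40737024207) (nat_lit 76) (nat_lit 272286560706)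 (nat_lit 12) (nat_lit 5) (nat_lit 15) (nat_lit 5) (nat_lit 13) (nat_lit 4) (nat_lit 261) (nat_lit 248) (nat_lit 151)) (XT.nd (nat_lit 78) (nat_lit 0) (nat_lit 0) (XT.lf (nat_lit 0) (nat_lit 277568220302) (nat_lit 76) (nat_lit 159951311044) (nat_lit 152) (nat_lit 226109057161) (nat_lit 11) (nat_lit 5) (nat_lit 12) (nat_lit 5) (nat_lit 13) (nat_lit 4) (nat_lit 262) (nat_lit 248) (nat_lit 150)) (XT.lf (nat_lit 0) (nat_lit 611490855317) (nat_lit 152) (nat_lit 87001991668) (nat_lit 0) (nat_lit 34883142707) (nat_lit 11) (nat_lit 5) (nat_lit 13) (nat_lit 4) (nat_lit 11) (nat_lit 4) (nat_lit 263) (nat_lit 248) (nat_lit 149)))))) (XT.nd (nat_lit 312) (nat_lit 228) (nat_lit 0) (XT.nd (nat_lit 156) (nat_lit 76) (nat_lit 0) (XT.nd (nat_lit 78) (nat_lit 0) (nat_lit 0) (XT.lf (nat_lit 0) (nat_lit 18003610351) (nat_lit 152) (nat_lit 537900024005) (nat_lit 76) (nat_lit 254716852694) (nat_lit 9) (nat_lit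 5) (nat_lit 11) (nat_lit 5) (nat_lit 10) (nat_lit 4) (nat_lit 264) (nat_lit 248) (nat_lit 148)) (XT.lf (nat_lit 0) (nat_lit 171161290686) (nat_lit 152) (nat_lit 208611075332) (nat_lit 76) (nat_lit 518094034005) (nat_lit 9) (nat_lit 5) (nat_lit 11) (nat_lit 5) (nat_lit 10) (nat_lit 4) (nat_lit 265) (nat_lit 248) (nat_lit 147))) (XT.nd (nat_lit 78) (nat_lit 0) (nat_lit 0) (XT.lf (nat_lit 0) (nat_lit 186691719078) (nat_lit 76) (nat_lit 168331362353) (nat_lit 152) (nat_lit 642016549859) (nat_lit 8) (nat_lit 5) (nat_lit 9) (nat_lit 5) (nat_lit 10) (nat_lit 4) (nat_lit 266) (nat_lit 248) (nat_lit 146)) (XT.lf (nat_lit 0) (nat_lit 580986410888) (nat_lit 152) (nat_lit 448335906288) (nat_lit 0) (nat_lit 79588189647) (nat_lit 8) (nat_lit 5) (nat_lit 10) (nat_lit 4) (nat_lit 8) (nat_lit 4) (nat_lit 267) (nat_lit 248) (nat_lit 145)))) (XT.nd (nat_lit 156) (nat_lit 152) (nat_lit 0) (XT.nd (nat_lit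 78) (nat_lit 76) (nat_lit 0) (XT.lf (nat_lit 0) (nat_lit 848859978735) (nat_lit 152) (nat_lit 40037953305) (nat_lit 0) (nat_lit 347461720876) (nat_lit 8) (nat_lit 5) (nat_lit 10) (nat_lit 4) (nat_lit 8) (nat_lit 4) (nat_lit 268) (nat_lit 248) (nat_lit 144)) (XT.lf (nat_lit 0) (nat_lit 471478943583) (nat_lit 76) (nat_lit 704958540855) (nat_lit 76) (nat_lit 203560251153) (nat_lit 7) (nat_lit 4) (nat_lit 8) (nat_lit 5) (nat_lit 8) (nat_lit 4) (nat_lit 269) (nat_lit 248) (nat_lit 143))) (XT.nd (nat_lit 78) (nat_lit 76) (nat_lit 0) (XT.lf (nat_lit 0) (nat_lit 9453053227) (nat_lit 152) (nat_lit 481074252951) (nat_lit 76) (nat_lit 1054275842903) (nat_lit 6) (nat_lit 5) (nat_lit 8) (nat_lit 5) (nat_lit 7) (nat_lit 4) (nat_lit 270) (nat_lit 248) (nat_lit 142)) (XT.nd (nat_lit 78) (nat_lit 0) (nat_lit 0) (XT.lf (nat_lit 0) (nat_lit 871117717) (nat_lit 76) (nat_lit 232742584228) (nat_lit 152) (nat_lit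 1499256264741) (nat_lit 5) (nat_lit 5) (nat_lit 6) (nat_lit 5) (nat_lit 7) (nat_lit 4) (nat_lit 271) (nat_lit 248) (nat_lit 141)) (XT.lf (nat_lit 0) (nat_lit 520381049793) (nat_lit 152) (nat_lit 1340035893116) (nat_lit 0) (nat_lit 84382473789) (nat_lit 5) (nat_lit 5) (nat_lit 7) (nat_lit 4) (nat_lit 5) (nat_lit 4) (nat_lit 272) (nat_lit 248) (nat_lit 140))))))))
noncomputable def xc102 : XT := (XT.nd (nat_lit 1404) (nat_lit 76) (nat_lit 0) (XT.nd (nat_lit 702) (nat_lit 0) (nat_lit 0) (XT.nd (nat_lit 312) (nat_lit 152) (nat_lit 0) (XT.nd (nat_lit 156) (nat_lit 76) (nat_lit 0) (XT.nd (nat_lit 78) (nat_lit 0) (nat_lit 0) (XT.lf (nat_lit 0) (nat_lit 861246454396) (nat_lit 152) (nat_lit 900361524101) (nat_lit 0) (nat_lit 425247862561) (nat_lit 5) (nat_lit 5) (nat_lit 7) (nat_lit 4) (nat_lit 5) (nat_lit 4) (nat_lit 273) (nat_lit 248) (nat_lit 139)) (XT.lf (nat_lit 0) (nat_lit 1253241647409)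 (nat_lit 152) (nat_lit 394736043226) (nat_lit 0) (nat_lit 817243041809) (nat_lit 5) (nat_lit 5) (nat_lit 7) (nat_lit 4) (nat_lit 5) (nat_lit 4) (nat_lit 274) (nat_lit 248) (nat_lit 138))) (XT.nd (nat_lit 78) (nat_lit 0) (nat_lit 0) (XT.lf (nat_lit 0) (nat_lit 204982150470) (nat_lit 76) (nat_lit 1507541823256) (nat_lit 76) (nat_lit 1071543205685) (nat_lit 4) (nat_lit 4) (nat_lit 5) (nat_lit 5) (nat_lit 5) (nat_lit 4) (nat_lit 275) (nat_lit 248) (nat_lit 137)) (XT.lf (nat_lit 0) (nat_lit 939020985616) (nat_lit 76) (nat_lit 1322311574565) (nat_lit 76) (nat_lit 886312946585) (nat_lit 4) (nat_lit 4) (nat_lit 5) (nat_lit 5) (nat_lit 5) (nat_lit 4) (nat_lit 276) (nat_lit 248) (nat_lit 136)))) (XT.nd (nat_lit 156) (nat_lit 152) (nat_lit 0) (XT.nd (nat_lit 78) (nat_lit 0) (nat_lit 0) (XT.lf (nat_lit 0) (nat_lit 1783165614643) (nat_lit 76) (nat_lit 1109296804013) (nat_lit 76) (nat_lit 673298166981)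 (nat_lit 4) (nat_lit 4) (nat_lit 5) (nat_lit 5) (nat_lit 5) (nat_lit 4) (nat_lit 277) (nat_lit 248) (nat_lit 135)) (XT.lf (nat_lit 0) (nat_lit 2753931910727) (nat_lit 76) (nat_lit 864329831305) (nat_lit 76) (nat_lit 428331186402) (nat_lit 4) (nat_lit 4) (nat_lit 5) (nat_lit 5) (nat_lit 5) (nat_lit 4) (nat_lit 278) (nat_lit 248) (nat_lit 134))) (XT.nd (nat_lit 78) (nat_lit 152) (nat_lit 0) (XT.lf (nat_lit 0) (nat_lit 3870313127487) (nat_lit 76) (nat_lit 582617824368) (nat_lit 76) (nat_lit 146619172621) (nat_lit 4) (nat_lit 4) (nat_lit 5) (nat_lit 5) (nat_lit 5) (nat_lit 4) (nat_lit 279) (nat_lit 248) (nat_lit 133)) (XT.nd (nat_lit 78) (nat_lit 76) (nat_lit 0) (XT.lf (nat_lit 0) (nat_lit 161560740596) (nat_lit 152) (nat_lit 88643065415) (nat_lit 76) (nat_lit 4984145544993) (nat_lit 3) (nat_lit 5) (nat_lit 5) (nat_lit 5) (nat_lit 4) (nat_lit 4) (nat_lit 280) (nat_lit 248) (nat_lit 132))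 (XT.lf (nat_lit 0) (nat_lit 537284497859) (nat_lit 152) (nat_lit 5262432277924) (nat_lit 0) (nat_lit 158155225795) (nat_lit 2) (nat_lit 5) (nat_lit 4) (nat_lit 4) (nat_lit 2) (nat_lit 4) (nat_lit 281) (nat_lit 248) (nat_lit 131)))))) (XT.nd (nat_lit 312) (nat_lit 0) (nat_lit 0) (XT.nd (nat_lit 156) (nat_lit 0) (nat_lit 0) (XT.nd (nat_lit 78) (nat_lit 0) (nat_lit 0) (XT.lf (nat_lit 0) (nat_lit 986135539337) (nat_lit 152) (nat_lit 5194265938958) (nat_lit 0) (nat_lit 607006263359) (nat_lit 2) (nat_lit 5) (nat_lit 4) (nat_lit 4) (nat_lit 2) (nat_lit 4) (nat_lit 282) (nat_lit 248) (nat_lit 130)) (XT.lf (nat_lit 0) (nat_lit 1502314228832) (nat_lit 152) (nat_lit 5115874665694) (nat_lit 0) (nat_lit 1123184949452) (nat_lit 2) (nat_lit 5) (nat_lit 4) (nat_lit 4) (nat_lit 2) (nat_lit 4) (nat_lit 283) (nat_lit 248) (nat_lit 129))) (XT.nd (nat_lit 78) (nat_lit 0) (nat_lit 0) (XT.lf (nat_lit 0) (nat_lit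 2095919714619) (nat_lit 152) (nat_lit 5025724715830) (nat_lit 0) (nat_lit 1716790432279) (nat_lit 2) (nat_lit 5) (nat_lit 4) (nat_lit 4) (nat_lit 2) (nat_lit 4) (nat_lit 284) (nat_lit 248) (nat_lit 128)) (XT.lf (nat_lit 0) (nat_lit 2778566017070) (nat_lit 152) (nat_lit 4922052285998) (nat_lit 0) (nat_lit 2399436732157) (nat_lit 2) (nat_lit 5) (nat_lit 4) (nat_lit 4) (nat_lit 2) (nat_lit 4) (nat_lit 285) (nat_lit 248) (nat_lit 127)))) (XT.nd (nat_lit 156) (nat_lit 0) (nat_lit 0) (XT.nd (nat_lit 78) (nat_lit 0) (nat_lit 0) (XT.lf (nat_lit 0) (nat_lit 3563609259494) (nat_lit 152) (nat_lit 4802829002573) (nat_lit 0) (nat_lit 3184479972345) (nat_lit 2) (nat_lit 5) (nat_lit 4) (nat_lit 4) (nat_lit 2) (nat_lit 4) (nat_lit 286) (nat_lit 248) (nat_lit 126)) (XT.lf (nat_lit 0) (nat_lit 4466408983592) (nat_lit 152) (nat_lit 4665722236094) (nat_lit 0) (nat_lit 4087279694497) (nat_lit 2) (nat_lit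 5) (nat_lit 4) (nat_lit 4) (nat_lit 2) (nat_lit 4) (nat_lit 287) (nat_lit 248) (nat_lit 125))) (XT.nd (nat_lit 78) (nat_lit 0) (nat_lit 0) (XT.lf (nat_lit 0) (nat_lit 5504628662226) (nat_lit 152) (nat_lit 4508049462871) (nat_lit 0) (nat_lit 5125499371439) (nat_lit 2) (nat_lit 5) (nat_lit 4) (nat_lit 4) (nat_lit 2) (nat_lit 4) (nat_lit 288) (nat_lit 248) (nat_lit 124)) (XT.nd (nat_lit 78) (nat_lit 0) (nat_lit 0) (XT.lf (nat_lit 0) (nat_lit 6698581289108) (nat_lit 152) (nat_lit 4326725780819) (nat_lit 0) (nat_lit 6319451996850) (nat_lit 2) (nat_lit 5) (nat_lit 4) (nat_lit 4) (nat_lit 2) (nat_lit 4) (nat_lit 289) (nat_lit 248) (nat_lit 123)) (XT.lf (nat_lit 0) (nat_lit 8071626806939) (nat_lit 152) (nat_lit 4118203552680) (nat_lit 0) (nat_lit 7692497513402) (nat_lit 2) (nat_lit 5) (nat_lit 4) (nat_lit 4) (nat_lit 2) (nat_lit 4) (nat_lit 290) (nat_lit 248) (nat_lit 122))))))) (XT.nd (nat_lit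 702) (nat_lit 76) (nat_lit 0) (XT.nd (nat_lit 312) (nat_lit 0) (nat_lit 0) (XT.nd (nat_lit 156) (nat_lit 0) (nat_lit 0) (XT.nd (nat_lit 78) (nat_lit 0) (nat_lit 0) (XT.lf (nat_lit 0) (nat_lit 9650629149763) (nat_lit 152) (nat_lit 3878402995729) (nat_lit 0) (nat_lit 9271499855113) (nat_lit 2) (nat_lit 5) (nat_lit 4) (nat_lit 4) (nat_lit 2) (nat_lit 4) (nat_lit 291) (nat_lit 248) (nat_lit 121)) (XT.lf (nat_lit 0) (nat_lit 11466481841678) (nat_lit 152) (nat_lit 3602632359939) (nat_lit 0) (nat_lit 11087352546061) (nat_lit 2) (nat_lit 5) (nat_lit 4) (nat_lit 4) (nat_lit 2) (nat_lit 4) (nat_lit 292) (nat_lit 248) (nat_lit 120))) (XT.nd (nat_lit 78) (nat_lit 0) (nat_lit 0) (XT.lf (nat_lit 0) (nat_lit 13554712435352) (nat_lit 152) (nat_lit 3285496132872) (nat_lit 0) (nat_lit 13175583138894) (nat_lit 2) (nat_lit 5) (nat_lit 4) (nat_lit 4) (nat_lit 2) (nat_lit 4) (nat_lit 293) (nat_lit 248) (nat_lit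 119)) (XT.lf (nat_lit 0) (nat_lit 15956177616314) (nat_lit 152) (nat_lit 2920789475301) (nat_lit 0) (nat_lit 15577048319125) (nat_lit 2) (nat_lit 5) (nat_lit 4) (nat_lit 4) (nat_lit 2) (nat_lit 4) (nat_lit 294) (nat_lit 248) (nat_lit 118)))) (XT.nd (nat_lit 156) (nat_lit 0) (nat_lit 0) (XT.nd (nat_lit 78) (nat_lit 0) (nat_lit 0) (XT.lf (nat_lit 0) (nat_lit 18717862572888) (nat_lit 152) (nat_lit 2501376822187) (nat_lit 0) (nat_lit 18338733275062) (nat_lit 2) (nat_lit 5) (nat_lit 4) (nat_lit 4) (nat_lit 2) (nat_lit 4) (nat_lit 295) (nat_lit 248) (nat_lit 117)) (XT.lf (nat_lit 0) (nat_lit 21893800271614) (nat_lit 152) (nat_lit 2019052273795) (nat_lit 0) (nat_lit 21514670973235) (nat_lit 2) (nat_lit 5) (nat_lit 4) (nat_lit 4) (nat_lit 2) (nat_lit 4) (nat_lit 296) (nat_lit 248) (nat_lit 116))) (XT.nd (nat_lit 78) (nat_lit 0) (nat_lit 0) (XT.lf (nat_lit 0) (nat_lit 25546128623989) (nat_lit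 152) (nat_lit 1464379045484) (nat_lit 0) (nat_lit 25166999325129) (nat_lit 2) (nat_lit 5) (nat_lit 4) (nat_lit 4) (nat_lit 2) (nat_lit 4) (nat_lit 297) (nat_lit 248) (nat_lit 115)) (XT.nd (nat_lit 78) (nat_lit 0) (nat_lit 0) (XT.lf (nat_lit 0) (nat_lit 29746306228213) (nat_lit 152) (nat_lit 826504834959) (nat_lit 0) (nat_lit 29367176928935) (nat_lit 2) (nat_lit 5) (nat_lit 4) (nat_lit 4) (nat_lit 2) (nat_lit 4) (nat_lit 298) (nat_lit 248) (nat_lit 114)) (XT.lf (nat_lit 0) (nat_lit 34576510472193) (nat_lit 152) (nat_lit 92949494625) (nat_lit 0) (nat_lit 34197381172552) (nat_lit 2) (nat_lit 5) (nat_lit 4) (nat_lit 4) (nat_lit 2) (nat_lit 4) (nat_lit 299) (nat_lit 248) (nat_lit 113)))))) (XT.nd (nat_lit 30654) (nat_lit 0) (nat_lit 1292) (XT.nd (nat_lit 30498) (nat_lit 0) (nat_lit 1444) (XT.nd (nat_lit 30420) (nat_lit 0) (nat_lit 1444) (XT.lf (nat_lit 0) (nat_lit 823997061687) (nat_lit 76)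 (nat_lit 39341368251468) (nat_lit 76) (nat_lit 38962238951510) (nat_lit 1) (nat_lit 4) (nat_lit 2) (nat_lit 5) (nat_lit 2) (nat_lit 4) (nat_lit 300) (nat_lit 248) (nat_lit 112)) (XT.lf (nat_lit 0) (nat_lit 13583372517) (nat_lit 380) (nat_lit 51902103236) (nat_lit 380) (nat_lit 51902103236) (nat_lit 20) (nat_lit 3) (nat_lit 25) (nat_lit 3) (nat_lit 25) (nat_lit 5) (nat_lit 249) (nat_lit 249) (nat_lit 162))) (XT.nd (nat_lit 78) (nat_lit 0) (nat_lit 76) (XT.lf (nat_lit 76) (nat_lit 3782007344) (nat_lit 0) (nat_lit 25579918136) (nat_lit 380) (nat_lit 222997712737) (nat_lit 21) (nat_lit 5) (nat_lit 20) (nat_lit 3) (nat_lit 25) (nat_lit 5) (nat_lit 250) (nat_lit 249) (nat_lit 161)) (XT.lf (nat_lit 0) (nat_lit 41530117467) (nat_lit 304) (nat_lit 136813492616) (nat_lit 380) (nat_lit 92791621203) (nat_lit 21) (nat_lit 5) (nat_lit 25) (nat_lit 5) (nat_lit 26) (nat_lit 5) (nat_lit 251) (nat_lit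 249) (nat_lit 160)))) (XT.nd (nat_lit 156) (nat_lit 228) (nat_lit 0) (XT.nd (nat_lit 78) (nat_lit 0) (nat_lit 76) (XT.lf (nat_lit 0) (nat_lit 56741462311) (nat_lit 304) (nat_lit 9502958986) (nat_lit 380) (nat_lit 226300054249) (nat_lit 21) (nat_lit 5) (nat_lit 25) (nat_lit 5) (nat_lit 26) (nat_lit 5) (nat_lit 252) (nat_lit 249) (nat_lit 159)) (XT.lf (nat_lit 0) (nat_lit 83348620918) (nat_lit 304) (nat_lit 168839742630) (nat_lit 76) (nat_lit 63609626822) (nat_lit 22) (nat_lit 5) (nat_lit 26) (nat_lit 5) (nat_lit 23) (nat_lit 5) (nat_lit 253) (nat_lit 249) (nat_lit 158))) (XT.nd (nat_lit 78) (nat_lit 304) (nat_lit 0) (XT.lf (nat_lit 0) (nat_lit 117621619432) (nat_lit 304) (nat_lit 17686665271) (nat_lit 76) (nat_lit 206680033433) (nat_lit 22) (nat_lit 5) (nat_lit 26) (nat_lit 5) (nat_lit 23) (nat_lit 5) (nat_lit 254) (nat_lit 249) (nat_lit 157)) (XT.nd (nat_lit 78) (nat_lit 0) (nat_lit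 0) (XT.lf (nat_lit 0) (nat_lit 164433547672) (nat_lit 380) (nat_lit 199945158466) (nat_lit 76) (nat_lit 6618792487) (nat_lit 18) (nat_lit 5) (nat_lit 23) (nat_lit 5) (nat_lit 19) (nat_lit 5) (nat_lit 255) (nat_lit 249) (nat_lit 156)) (XT.lf (nat_lit 0) (nat_lit 225678968944) (nat_lit 380) (nat_lit 20616842682) (nat_lit 76) (nat_lit 156950489474) (nat_lit 18) (nat_lit 5) (nat_lit 23) (nat_lit 5) (nat_lit 19) (nat_lit 5) (nat_lit 256) (nat_lit 249) (nat_lit 155))))))))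
noncomputable def xc103 : XT := (XT.nd (nat_lit 1404) (nat_lit 228) (nat_lit 0) (XT.nd (nat_lit 702) (nat_lit 304) (nat_lit 0) (XT.nd (nat_lit 312) (nat_lit 380) (nat_lit 0) (XT.nd (nat_lit 156) (nat_lit 152) (nat_lit 0) (XT.nd (nat_lit 78) (nat_lit 0) (nat_lit 0) (XT.lf (nat_lit 0) (nat_lit 203749830148) (nat_lit 152) (nat_lit 100798129370) (nat_lit 228) (nat_lit 134518951429) (nat_lit 16) (nat_lit 5) (nat_lit 18) (nat_lit 5) (nat_lit 19) (nat_lit 5) (nat_lit 257) (nat_lit 249) (nat_lit 154)) (XT.lf (nat_lit 0) (nat_lit 399130858377) (nat_lit 228) (nat_lit 18816462080) (nat_lit 76) (nat_lit 61730758223) (nat_lit 16) (nat_lit 5) (nat_lit 19) (nat_lit 5) (nat_lit 17) (nat_lit 4) (nat_lit 258) (nat_lit 249) (nat_lit 153))) (XT.nd (nat_lit 78) (nat_lit 76) (nat_lit 0) (XT.lf (nat_lit 0) (nat_lit 247382981313) (nat_lit 76) (nat_lit 275561650903) (nat_lit 152) (nat_lit 1179773647) (nat_lit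 15) (nat_lit 5) (nat_lit 16) (nat_lit 5) (nat_lit 17) (nat_lit 4) (nat_lit 259) (nat_lit 249) (nat_lit 152)) (XT.lf (nat_lit 0) (nat_lit 83102461687) (nat_lit 152) (nat_lit 23240580245) (nat_lit 76) (nat_lit 468180504659) (nat_lit 14) (nat_lit 5) (nat_lit 16) (nat_lit 5) (nat_lit 15) (nat_lit 5) (nat_lit 260) (nat_lit 249) (nat_lit 151)))) (XT.nd (nat_lit 156) (nat_lit 228) (nat_lit 0) (XT.nd (nat_lit 78) (nat_lit 0) (nat_lit 0) (XT.lf (nat_lit 0) (nat_lit 196336264442) (nat_lit 228) (nat_lit 340440731373) (nat_lit 76) (nat_lit 93232633094) (nat_lit 12) (nat_lit 5) (nat_lit 15) (nat_lit 5) (nat_lit 13) (nat_lit 4) (nat_lit 261) (nat_lit 249) (nat_lit 150)) (XT.lf (nat_lit 0) (nat_lit 332891732400) (nat_lit 228) (nat_lit 46846572669) (nat_lit 76) (nat_lit 313129829469) (nat_lit 12) (nat_lit 5) (nat_lit 15) (nat_lit 5) (nat_lit 13) (nat_lit 4) (nat_lit 262) (nat_lit 249) (nat_lit 149)))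 (XT.nd (nat_lit 78) (nat_lit 152) (nat_lit 0) (XT.lf (nat_lit 0) (nat_lit 319204412827) (nat_lit 76) (nat_lit 183943631292) (nat_lit 152) (nat_lit 260024743514) (nat_lit 11) (nat_lit 5) (nat_lit 12) (nat_lit 5) (nat_lit 13) (nat_lit 4) (nat_lit 263) (nat_lit 249) (nat_lit 148)) (XT.nd (nat_lit 78) (nat_lit 152) (nat_lit 0) (XT.lf (nat_lit 0) (nat_lit 703215004185) (nat_lit 152) (nat_lit 100051392119) (nat_lit 0) (nat_lit 40115912286) (nat_lit 11) (nat_lit 5) (nat_lit 13) (nat_lit 4) (nat_lit 11) (nat_lit 4) (nat_lit 264) (nat_lit 249) (nat_lit 147)) (XT.lf (nat_lit 0) (nat_lit 20704664491) (nat_lit 152) (nat_lit 618584118933) (nat_lit 76) (nat_lit 292924698684) (nat_lit 9) (nat_lit 5) (nat_lit 11) (nat_lit 5) (nat_lit 10) (nat_lit 4) (nat_lit 265) (nat_lit 249) (nat_lit 146)))))) (XT.nd (nat_lit 312) (nat_lit 228) (nat_lit 0) (XT.nd (nat_lit 156) (nat_lit 0) (nat_lit 0) (XT.nd (nat_lit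 78) (nat_lit 76) (nat_lit 0) (XT.lf (nat_lit 0) (nat_lit 196835930017) (nat_lit 152) (nat_lit 239901946481) (nat_lit 76) (nat_lit 595808415702) (nat_lit 9) (nat_lit 5) (nat_lit 11) (nat_lit 5) (nat_lit 10) (nat_lit 4) (nat_lit 266) (nat_lit 249) (nat_lit 145)) (XT.lf (nat_lit 0) (nat_lit 214696231174) (nat_lit 76) (nat_lit 193580731292) (nat_lit 152) (nat_lit 738318549853) (nat_lit 8) (nat_lit 5) (nat_lit 9) (nat_lit 5) (nat_lit 10) (nat_lit 4) (nat_lit 267) (nat_lit 249) (nat_lit 144))) (XT.nd (nat_lit 78) (nat_lit 0) (nat_lit 0) (XT.lf (nat_lit 0) (nat_lit 668134748790) (nat_lit 152) (nat_lit 515585593092) (nat_lit 0) (nat_lit 91526683792) (nat_lit 8) (nat_lit 5) (nat_lit 10) (nat_lit 4) (nat_lit 8) (nat_lit 4) (nat_lit 268) (nat_lit 249) (nat_lit 143)) (XT.lf (nat_lit 0) (nat_lit 976189302737) (nat_lit 152) (nat_lit 46043038354) (nat_lit 0) (nat_lit 399581210049) (nat_lit 8) (nat_lit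 5) (nat_lit 10) (nat_lit 4) (nat_lit 8) (nat_lit 4) (nat_lit 269) (nat_lit 249) (nat_lit 142)))) (XT.nd (nat_lit 156) (nat_lit 76) (nat_lit 0) (XT.nd (nat_lit 78) (nat_lit 76) (nat_lit 0) (XT.lf (nat_lit 0) (nat_lit 542201365433) (nat_lit 76) (nat_lit 810702050214) (nat_lit 76) (nat_lit 234093933449) (nat_lit 7) (nat_lit 4) (nat_lit 8) (nat_lit 5) (nat_lit 8) (nat_lit 4) (nat_lit 270) (nat_lit 249) (nat_lit 141)) (XT.lf (nat_lit 0) (nat_lit 10871292723) (nat_lit 152) (nat_lit 553234858344) (nat_lit 76) (nat_lit 1212417427731) (nat_lit 6) (nat_lit 5) (nat_lit 8) (nat_lit 5) (nat_lit 7) (nat_lit 4) (nat_lit 271) (nat_lit 249) (nat_lit 140))) (XT.nd (nat_lit 78) (nat_lit 0) (nat_lit 0) (XT.lf (nat_lit 0) (nat_lit 1002293717) (nat_lit 76) (nat_lit 267653729363) (nat_lit 152) (nat_lit 1724144398369) (nat_lit 5) (nat_lit 5) (nat_lit 6) (nat_lit 5) (nat_lit 7) (nat_lit 4) (nat_lit 272) (nat_lit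 249) (nat_lit 139)) (XT.nd (nat_lit 78) (nat_lit 0) (nat_lit 0) (XT.lf (nat_lit 0) (nat_lit 598438447161) (nat_lit 152) (nat_lit 1541040808787) (nat_lit 0) (nat_lit 97040036954) (nat_lit 5) (nat_lit 5) (nat_lit 7) (nat_lit 4) (nat_lit 5) (nat_lit 4) (nat_lit 273) (nat_lit 249) (nat_lit 138)) (XT.lf (nat_lit 0) (nat_lit 990433631163) (nat_lit 152) (nat_lit 1035415345502) (nat_lit 0) (nat_lit 489035208986) (nat_lit 5) (nat_lit 5) (nat_lit 7) (nat_lit 4) (nat_lit 5) (nat_lit 4) (nat_lit 274) (nat_lit 249) (nat_lit 137))))))) (XT.nd (nat_lit 702) (nat_lit 0) (nat_lit 0) (XT.nd (nat_lit 312) (nat_lit 152) (nat_lit 0) (XT.nd (nat_lit 156) (nat_lit 0) (nat_lit 0) (XT.nd (nat_lit 78) (nat_lit 76) (nat_lit 0) (XT.lf (nat_lit 0) (nat_lit 1441228075919) (nat_lit 152) (nat_lit 453946095611) (nat_lit 0) (nat_lit 939829643332) (nat_lit 5) (nat_lit 5) (nat_lit 7) (nat_lit 4) (nat_lit 5) (nat_lit 4)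 (nat_lit 275) (nat_lit 249) (nat_lit 136)) (XT.lf (nat_lit 0) (nat_lit 235729811044) (nat_lit 76) (nat_lit 1733672930475) (nat_lit 76) (nat_lit 1232274488836) (nat_lit 4) (nat_lit 4) (nat_lit 5) (nat_lit 5) (nat_lit 5) (nat_lit 4) (nat_lit 276) (nat_lit 249) (nat_lit 135))) (XT.nd (nat_lit 78) (nat_lit 0) (nat_lit 0) (XT.lf (nat_lit 0) (nat_lit 1079874427375) (nat_lit 76) (nat_lit 1520658166168) (nat_lit 76) (nat_lit 1019259716658) (nat_lit 4) (nat_lit 4) (nat_lit 5) (nat_lit 5) (nat_lit 5) (nat_lit 4) (nat_lit 277) (nat_lit 249) (nat_lit 134)) (XT.lf (nat_lit 0) (nat_lit 2050640712418) (nat_lit 76) (nat_lit 1275691198891) (nat_lit 76) (nat_lit 774292742537) (nat_lit 4) (nat_lit 4) (nat_lit 5) (nat_lit 5) (nat_lit 5) (nat_lit 4) (nat_lit 278) (nat_lit 249) (nat_lit 133)))) (XT.nd (nat_lit 156) (nat_lit 152) (nat_lit 0) (XT.nd (nat_lit 78) (nat_lit 0) (nat_lit 0) (XT.lf (nat_lit 0) (nat_lit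 3167021919579) (nat_lit 76) (nat_lit 993979196676) (nat_lit 76) (nat_lit 492580734371) (nat_lit 4) (nat_lit 4) (nat_lit 5) (nat_lit 5) (nat_lit 5) (nat_lit 4) (nat_lit 279) (nat_lit 249) (nat_lit 132)) (XT.lf (nat_lit 0) (nat_lit 4450860289865) (nat_lit 76) (nat_lit 670010402958) (nat_lit 76) (nat_lit 168611935477) (nat_lit 4) (nat_lit 4) (nat_lit 5) (nat_lit 5) (nat_lit 5) (nat_lit 4) (nat_lit 280) (nat_lit 249) (nat_lit 131))) (XT.nd (nat_lit 78) (nat_lit 76) (nat_lit 0) (XT.lf (nat_lit 0) (nat_lit 185794941228) (nat_lit 152) (nat_lit 101939348339) (nat_lit 76) (nat_lit 5731767450567) (nat_lit 3) (nat_lit 5) (nat_lit 5) (nat_lit 5) (nat_lit 4) (nat_lit 4) (nat_lit 281) (nat_lit 249) (nat_lit 130)) (XT.nd (nat_lit 78) (nat_lit 0) (nat_lit 0) (XT.lf (nat_lit 0) (nat_lit 617877260871) (nat_lit 152) (nat_lit 6051796941437) (nat_lit 0) (nat_lit 181878586180) (nat_lit 2) (nat_lit 5) (nat_lit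 4) (nat_lit 4) (nat_lit 2) (nat_lit 4) (nat_lit 282) (nat_lit 249) (nat_lit 129)) (XT.lf (nat_lit 0) (nat_lit 1134055947048) (nat_lit 152) (nat_lit 5973405674866) (nat_lit 0) (nat_lit 698057269399) (nat_lit 2) (nat_lit 5) (nat_lit 4) (nat_lit 4) (nat_lit 2) (nat_lit 4) (nat_lit 283) (nat_lit 249) (nat_lit 128)))))) (XT.nd (nat_lit 312) (nat_lit 0) (nat_lit 0) (XT.nd (nat_lit 156) (nat_lit 0) (nat_lit 0) (XT.nd (nat_lit 78) (nat_lit 0) (nat_lit 0) (XT.lf (nat_lit 0) (nat_lit 1727661429949) (nat_lit 152) (nat_lit 5883255730821) (nat_lit 0) (nat_lit 1291662749727) (nat_lit 2) (nat_lit 5) (nat_lit 4) (nat_lit 4) (nat_lit 2) (nat_lit 4) (nat_lit 284) (nat_lit 249) (nat_lit 127)) (XT.lf (nat_lit 0) (nat_lit 2410307729891) (nat_lit 152) (nat_lit 5779583306051) (nat_lit 0) (nat_lit 1974309047432) (nat_lit 2) (nat_lit 5) (nat_lit 4) (nat_lit 4) (nat_lit 2) (nat_lit 4) (nat_lit 285) (nat_lit 249)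 (nat_lit 126))) (XT.nd (nat_lit 78) (nat_lit 0) (nat_lit 0) (XT.lf (nat_lit 0) (nat_lit 3195350970134) (nat_lit 152) (nat_lit 5660360027025) (nat_lit 0) (nat_lit 2759352285729) (nat_lit 2) (nat_lit 5) (nat_lit 4) (nat_lit 4) (nat_lit 2) (nat_lit 4) (nat_lit 286) (nat_lit 249) (nat_lit 125)) (XT.lf (nat_lit 0) (nat_lit 4098150692335) (nat_lit 152) (nat_lit 5523253264374) (nat_lit 0) (nat_lit 3662152006238) (nat_lit 2) (nat_lit 5) (nat_lit 4) (nat_lit 4) (nat_lit 2) (nat_lit 4) (nat_lit 287) (nat_lit 249) (nat_lit 124)))) (XT.nd (nat_lit 156) (nat_lit 0) (nat_lit 0) (XT.nd (nat_lit 78) (nat_lit 0) (nat_lit 0) (XT.lf (nat_lit 0) (nat_lit 5136370369319) (nat_lit 152) (nat_lit 5365580494478) (nat_lit 0) (nat_lit 4700371681752) (nat_lit 2) (nat_lit 5) (nat_lit 4) (nat_lit 4) (nat_lit 2) (nat_lit 4) (nat_lit 288) (nat_lit 249) (nat_lit 123)) (XT.lf (nat_lit 0) (nat_lit 6330322994767) (nat_lit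 152) (nat_lit 5184256815319) (nat_lit 0) (nat_lit 5894324305920) (nat_lit 2) (nat_lit 5) (nat_lit 4) (nat_lit 4) (nat_lit 2) (nat_lit 4) (nat_lit 289) (nat_lit 249) (nat_lit 122))) (XT.nd (nat_lit 78) (nat_lit 0) (nat_lit 0) (XT.lf (nat_lit 0) (nat_lit 7703368511351) (nat_lit 152) (nat_lit 4975734589696) (nat_lit 0) (nat_lit 7267369821391) (nat_lit 2) (nat_lit 5) (nat_lit 4) (nat_lit 4) (nat_lit 2) (nat_lit 4) (nat_lit 290) (nat_lit 249) (nat_lit 121)) (XT.nd (nat_lit 78) (nat_lit 0) (nat_lit 0) (XT.lf (nat_lit 0) (nat_lit 9282370853089) (nat_lit 152) (nat_lit 4735934034933) (nat_lit 0) (nat_lit 8846372162163) (nat_lit 2) (nat_lit 5) (nat_lit 4) (nat_lit 4) (nat_lit 2) (nat_lit 4) (nat_lit 291) (nat_lit 249) (nat_lit 120)) (XT.lf (nat_lit 0) (nat_lit 11098223544061) (nat_lit 152) (nat_lit 4460163401046) (nat_lit 0) (nat_lit 10662224852293) (nat_lit 2) (nat_lit 5) (nat_lit 4) (nat_lit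 4) (nat_lit 2) (nat_lit 4) (nat_lit 292) (nat_lit 249) (nat_lit 119))))))))
noncomputable def xc104 : XT := (XT.nd (nat_lit 31902) (nat_lit 0) (nat_lit 152) (XT.nd (nat_lit 31200) (nat_lit 0) (nat_lit 988) (XT.nd (nat_lit 312) (nat_lit 0) (nat_lit 0) (XT.nd (nat_lit 156) (nat_lit 0) (nat_lit 0) (XT.nd (nat_lit 78) (nat_lit 0) (nat_lit 0) (XT.lf (nat_lit 0) (nat_lit 13186454136916) (nat_lit 152) (nat_lit 4143027175632) (nat_lit 0) (nat_lit 12750455444416) (nat_lit 2) (nat_lit 5) (nat_lit 4) (nat_lit 4) (nat_lit 2) (nat_lit 4) (nat_lit 293) (nat_lit 249) (nat_lit 118)) (XT.lf (nat_lit 0) (nat_lit 15587919317165) (nat_lit 152) (nat_lit 3778320519500) (nat_lit 0) (nat_lit 15151920624029) (nat_lit 2) (nat_lit 5) (nat_lit 4) (nat_lit 4) (nat_lit 2) (nat_lit 4) (nat_lit 294) (nat_lit 249) (nat_lit 117))) (XT.nd (nat_lit 78) (nat_lit 0) (nat_lit 0) (XT.lf (nat_lit 0) (nat_lit 18349604273118)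 (nat_lit 152) (nat_lit 3358907867637) (nat_lit 0) (nat_lit 17913605579429) (nat_lit 2) (nat_lit 5) (nat_lit 4) (nat_lit 4) (nat_lit 2) (nat_lit 4) (nat_lit 295) (nat_lit 249) (nat_lit 116)) (XT.lf (nat_lit 0) (nat_lit 21525541971305) (nat_lit 152) (nat_lit 2876583320334) (nat_lit 0) (nat_lit 21089543277135) (nat_lit 2) (nat_lit 5) (nat_lit 4) (nat_lit 4) (nat_lit 2) (nat_lit 4) (nat_lit 296) (nat_lit 249) (nat_lit 115)))) (XT.nd (nat_lit 156) (nat_lit 0) (nat_lit 0) (XT.nd (nat_lit 78) (nat_lit 0) (nat_lit 0) (XT.lf (nat_lit 0) (nat_lit 25177870323211) (nat_lit 152) (nat_lit 2321910092968) (nat_lit 0) (nat_lit 24741871628624) (nat_lit 2) (nat_lit 5) (nat_lit 4) (nat_lit 4) (nat_lit 2) (nat_lit 4) (nat_lit 297) (nat_lit 249) (nat_lit 114)) (XT.lf (nat_lit 0) (nat_lit 29378047927027) (nat_lit 152) (nat_lit 1684035883266) (nat_lit 0) (nat_lit 28942049232076) (nat_lit 2) (nat_lit 5) (nat_lit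 4) (nat_lit 4) (nat_lit 2) (nat_lit 4) (nat_lit 298) (nat_lit 249) (nat_lit 113))) (XT.nd (nat_lit 30576) (nat_lit 0) (nat_lit 1368) (XT.lf (nat_lit 0) (nat_lit 34208252170653) (nat_lit 152) (nat_lit 950480543646) (nat_lit 0) (nat_lit 33772253475386) (nat_lit 2) (nat_lit 5) (nat_lit 4) (nat_lit 4) (nat_lit 2) (nat_lit 4) (nat_lit 299) (nat_lit 249) (nat_lit 112)) (XT.nd (nat_lit 78) (nat_lit 0) (nat_lit 0) (XT.lf (nat_lit 0) (nat_lit 15621903810) (nat_lit 380) (nat_lit 59686826507) (nat_lit 380) (nat_lit 59686826507) (nat_lit 20) (nat_lit 3) (nat_lit 25) (nat_lit 3) (nat_lit 25) (nat_lit 5) (nat_lit 250) (nat_lit 250) (nat_lit 160)) (XT.lf (nat_lit 76) (nat_lit 4350439037) (nat_lit 0) (nat_lit 29417605413) (nat_lit 380) (nat_lit 256445255934) (nat_lit 21) (nat_lit 5) (nat_lit 20) (nat_lit 3) (nat_lit 25) (nat_lit 5) (nat_lit 251) (nat_lit 250) (nat_lit 159)))))) (XT.nd (nat_lit 312)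 (nat_lit 456) (nat_lit 0) (XT.nd (nat_lit 156) (nat_lit 0) (nat_lit 76) (XT.nd (nat_lit 78) (nat_lit 0) (nat_lit 0) (XT.lf (nat_lit 0) (nat_lit 47761201330) (nat_lit 304) (nat_lit 157334261617) (nat_lit 380) (nat_lit 106709810230) (nat_lit 21) (nat_lit 5) (nat_lit 25) (nat_lit 5) (nat_lit 26) (nat_lit 5) (nat_lit 252) (nat_lit 250) (nat_lit 158)) (XT.lf (nat_lit 0) (nat_lit 65254043608) (nat_lit 304) (nat_lit 10927311624) (nat_lit 380) (nat_lit 260244580514) (nat_lit 21) (nat_lit 5) (nat_lit 25) (nat_lit 5) (nat_lit 26) (nat_lit 5) (nat_lit 253) (nat_lit 250) (nat_lit 157))) (XT.nd (nat_lit 78) (nat_lit 0) (nat_lit 0) (XT.lf (nat_lit 0) (nat_lit 95852133797) (nat_lit 304) (nat_lit 194164464658) (nat_lit 76) (nat_lit 73150901562) (nat_lit 22) (nat_lit 5) (nat_lit 26) (nat_lit 5) (nat_lit 23) (nat_lit 5) (nat_lit 254) (nat_lit 250) (nat_lit 156)) (XT.lf (nat_lit 0) (nat_lit 135265922991)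 (nat_lit 304) (nat_lit 20338587352) (nat_lit 76) (nat_lit 237681891245) (nat_lit 22) (nat_lit 5) (nat_lit 26) (nat_lit 5) (nat_lit 23) (nat_lit 5) (nat_lit 255) (nat_lit 250) (nat_lit 155)))) (XT.nd (nat_lit 156) (nat_lit 228) (nat_lit 0) (XT.nd (nat_lit 78) (nat_lit 0) (nat_lit 0) (XT.lf (nat_lit 0) (nat_lit 189099547363) (nat_lit 380) (nat_lit 229935756924) (nat_lit 76) (nat_lit 7611669504) (nat_lit 18) (nat_lit 5) (nat_lit 23) (nat_lit 5) (nat_lit 19) (nat_lit 5) (nat_lit 256) (nat_lit 250) (nat_lit 154)) (XT.lf (nat_lit 0) (nat_lit 259531655625) (nat_lit 380) (nat_lit 23708347074) (nat_lit 76) (nat_lit 180493113455) (nat_lit 18) (nat_lit 5) (nat_lit 23) (nat_lit 5) (nat_lit 19) (nat_lit 5) (nat_lit 257) (nat_lit 250) (nat_lit 153))) (XT.nd (nat_lit 78) (nat_lit 76) (nat_lit 0) (XT.lf (nat_lit 0) (nat_lit 234313280225) (nat_lit 152) (nat_lit 115917645215) (nat_lit 228) (nat_lit 154695902950)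 (nat_lit 16) (nat_lit 5) (nat_lit 18) (nat_lit 5) (nat_lit 19) (nat_lit 5) (nat_lit 258) (nat_lit 250) (nat_lit 152)) (XT.nd (nat_lit 78) (nat_lit 76) (nat_lit 0) (XT.lf (nat_lit 0) (nat_lit 459001165762) (nat_lit 228) (nat_lit 21637986761) (nat_lit 76) (nat_lit 70990533206) (nat_lit 16) (nat_lit 5) (nat_lit 19) (nat_lit 5) (nat_lit 17) (nat_lit 4) (nat_lit 259) (nat_lit 250) (nat_lit 151)) (XT.lf (nat_lit 0) (nat_lit 284491330203) (nat_lit 76) (nat_lit 316895624295) (nat_lit 152) (nat_lit 1356015556) (nat_lit 15) (nat_lit 5) (nat_lit 16) (nat_lit 5) (nat_lit 17) (nat_lit 4) (nat_lit 260) (nat_lit 250) (nat_lit 150))))))) (XT.nd (nat_lit 702) (nat_lit 304) (nat_lit 0) (XT.nd (nat_lit 312) (nat_lit 228) (nat_lit 0) (XT.nd (nat_lit 156) (nat_lit 76) (nat_lit 0) (XT.nd (nat_lit 78) (nat_lit 152) (nat_lit 0) (XT.lf (nat_lit 0) (nat_lit 95568404566) (nat_lit 152) (nat_lit 26725825198) (nat_lit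 76) (nat_lit 538407760827) (nat_lit 14) (nat_lit 5) (nat_lit 16) (nat_lit 5) (nat_lit 15) (nat_lit 5) (nat_lit 261) (nat_lit 250) (nat_lit 149)) (XT.lf (nat_lit 0) (nat_lit 225787247449) (nat_lit 228) (nat_lit 391505967019) (nat_lit 76) (nat_lit 107217775586) (nat_lit 12) (nat_lit 5) (nat_lit 15) (nat_lit 5) (nat_lit 13) (nat_lit 4) (nat_lit 262) (nat_lit 250) (nat_lit 148))) (XT.nd (nat_lit 78) (nat_lit 76) (nat_lit 0) (XT.lf (nat_lit 0) (nat_lit 382825964730) (nat_lit 228) (nat_lit 53872798518) (nat_lit 76) (nat_lit 360099519131) (nat_lit 12) (nat_lit 5) (nat_lit 15) (nat_lit 5) (nat_lit 13) (nat_lit 4) (nat_lit 263) (nat_lit 250) (nat_lit 147)) (XT.lf (nat_lit 0) (nat_lit 367085800256) (nat_lit 76) (nat_lit 211534891367) (nat_lit 152) (nat_lit 299027946744) (nat_lit 11) (nat_lit 5) (nat_lit 12) (nat_lit 5) (nat_lit 13) (nat_lit 4) (nat_lit 264) (nat_lit 250) (nat_lit 146)))) (XT.nd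 (nat_lit 156) (nat_lit 76) (nat_lit 0) (XT.nd (nat_lit 78) (nat_lit 152) (nat_lit 0) (XT.lf (nat_lit 0) (nat_lit 808697648440) (nat_lit 152) (nat_lit 115058421694) (nat_lit 0) (nat_lit 46133524590) (nat_lit 11) (nat_lit 5) (nat_lit 13) (nat_lit 4) (nat_lit 11) (nat_lit 4) (nat_lit 265) (nat_lit 250) (nat_lit 145)) (XT.lf (nat_lit 0) (nat_lit 23810751755) (nat_lit 152) (nat_lit 711371049686) (nat_lit 76) (nat_lit 336863644005) (nat_lit 9) (nat_lit 5) (nat_lit 11) (nat_lit 5) (nat_lit 10) (nat_lit 4) (nat_lit 266) (nat_lit 250) (nat_lit 144))) (XT.nd (nat_lit 78) (nat_lit 76) (nat_lit 0) (XT.lf (nat_lit 0) (nat_lit 226361656554) (nat_lit 152) (nat_lit 275886640986) (nat_lit 76) (nat_lit 685179887204) (nat_lit 9) (nat_lit 5) (nat_lit 11) (nat_lit 5) (nat_lit 10) (nat_lit 4) (nat_lit 267) (nat_lit 250) (nat_lit 143)) (XT.nd (nat_lit 78) (nat_lit 0) (nat_lit 0) (XT.lf (nat_lit 0) (nat_lit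 246901236160) (nat_lit 76) (nat_lit 222617587365) (nat_lit 152) (nat_lit 849065967504) (nat_lit 8) (nat_lit 5) (nat_lit 9) (nat_lit 5) (nat_lit 10) (nat_lit 4) (nat_lit 268) (nat_lit 250) (nat_lit 142)) (XT.lf (nat_lit 0) (nat_lit 768355245622) (nat_lit 152) (nat_lit 592922903407) (nat_lit 0) (nat_lit 105255887266) (nat_lit 8) (nat_lit 5) (nat_lit 10) (nat_lit 4) (nat_lit 8) (nat_lit 4) (nat_lit 269) (nat_lit 250) (nat_lit 141)))))) (XT.nd (nat_lit 312) (nat_lit 76) (nat_lit 0) (XT.nd (nat_lit 156) (nat_lit 152) (nat_lit 0) (XT.nd (nat_lit 78) (nat_lit 76) (nat_lit 0) (XT.lf (nat_lit 0) (nat_lit 1122617945550) (nat_lit 152) (nat_lit 52949034412) (nat_lit 0) (nat_lit 459518566257) (nat_lit 8) (nat_lit 5) (nat_lit 10) (nat_lit 4) (nat_lit 8) (nat_lit 4) (nat_lit 270) (nat_lit 250) (nat_lit 140)) (XT.lf (nat_lit 0) (nat_lit 623532009047) (nat_lit 76) (nat_lit 932307152249) (nat_lit 76)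 (nat_lit 269207754750) (nat_lit 7) (nat_lit 4) (nat_lit 8) (nat_lit 5) (nat_lit 8) (nat_lit 4) (nat_lit 271) (nat_lit 250) (nat_lit 139))) (XT.nd (nat_lit 78) (nat_lit 76) (nat_lit 0) (XT.lf (nat_lit 0) (nat_lit 12502199496) (nat_lit 152) (nat_lit 636219684413) (nat_lit 76) (nat_lit 1394280199465) (nat_lit 6) (nat_lit 5) (nat_lit 8) (nat_lit 5) (nat_lit 7) (nat_lit 4) (nat_lit 272) (nat_lit 250) (nat_lit 138)) (XT.lf (nat_lit 0) (nat_lit 1153022154) (nat_lit 76) (nat_lit 307801605403) (nat_lit 152) (nat_lit 1982765826683) (nat_lit 5) (nat_lit 5) (nat_lit 6) (nat_lit 5) (nat_lit 7) (nat_lit 4) (nat_lit 273) (nat_lit 250) (nat_lit 137)))) (XT.nd (nat_lit 156) (nat_lit 76) (nat_lit 0) (XT.nd (nat_lit 78) (nat_lit 0) (nat_lit 0) (XT.lf (nat_lit 0) (nat_lit 688204395633) (nat_lit 152) (nat_lit 1772196576006) (nat_lit 0) (nat_lit 111596187749) (nat_lit 5) (nat_lit 5) (nat_lit 7) (nat_lit 4)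 (nat_lit 5) (nat_lit 4) (nat_lit 274) (nat_lit 250) (nat_lit 136)) (XT.lf (nat_lit 0) (nat_lit 1138998833576) (nat_lit 152) (nat_lit 1190727339416) (nat_lit 0) (nat_lit 562390616640) (nat_lit 5) (nat_lit 5) (nat_lit 7) (nat_lit 4) (nat_lit 5) (nat_lit 4) (nat_lit 275) (nat_lit 250) (nat_lit 135))) (XT.nd (nat_lit 78) (nat_lit 76) (nat_lit 0) (XT.lf (nat_lit 0) (nat_lit 1657412424470) (nat_lit 152) (nat_lit 522037742203) (nat_lit 0) (nat_lit 1080804199664) (nat_lit 5) (nat_lit 5) (nat_lit 7) (nat_lit 4) (nat_lit 5) (nat_lit 4) (nat_lit 276) (nat_lit 250) (nat_lit 134)) (XT.nd (nat_lit 78) (nat_lit 0) (nat_lit 0) (XT.lf (nat_lit 0) (nat_lit 271089538280) (nat_lit 76) (nat_lit 1993723744322) (nat_lit 76) (nat_lit 1417115512671) (nat_lit 4) (nat_lit 4) (nat_lit 5) (nat_lit 5) (nat_lit 5) (nat_lit 4) (nat_lit 277) (nat_lit 250) (nat_lit 133)) (XT.lf (nat_lit 0) (nat_lit 1241855813724) (nat_lit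 76) (nat_lit 1748756781768) (nat_lit 76) (nat_lit 1172148544165) (nat_lit 4) (nat_lit 4) (nat_lit 5) (nat_lit 5) (nat_lit 5) (nat_lit 4) (nat_lit 278) (nat_lit 250) (nat_lit 132))))))))
noncomputable def xc105 : XT := (XT.nd (nat_lit 1404) (nat_lit 0) (nat_lit 0) (XT.nd (nat_lit 702) (nat_lit 0) (nat_lit 0) (XT.nd (nat_lit 312) (nat_lit 76) (nat_lit 0) (XT.nd (nat_lit 156) (nat_lit 76) (nat_lit 0) (XT.nd (nat_lit 78) (nat_lit 0) (nat_lit 0) (XT.lf (nat_lit 0) (nat_lit 2358237012536) (nat_lit 76) (nat_lit 1467044783659) (nat_lit 76) (nat_lit 890436540882) (nat_lit 4) (nat_lit 4) (nat_lit 5) (nat_lit 5) (nat_lit 5) (nat_lit 4) (nat_lit 279) (nat_lit 250) (nat_lit 131)) (XT.lf (nat_lit 0) (nat_lit 3642075375563) (nat_lit 76) (nat_lit 1143075993512) (nat_lit 76) (nat_lit 566467746234) (nat_lit 4) (nat_lit 4) (nat_lit 5) (nat_lit 5) (nat_lit 5) (nat_lit 4) (nat_lit 280) (nat_lit 250) (nat_lit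 130))) (XT.nd (nat_lit 78) (nat_lit 76) (nat_lit 0) (XT.lf (nat_lit 0) (nat_lit 5118489479473) (nat_lit 76) (nat_lit 770511891518) (nat_lit 76) (nat_lit 193903640327) (nat_lit 4) (nat_lit 4) (nat_lit 5) (nat_lit 5) (nat_lit 5) (nat_lit 4) (nat_lit 281) (nat_lit 250) (nat_lit 129)) (XT.lf (nat_lit 0) (nat_lit 213664250118) (nat_lit 152) (nat_lit 117230116837) (nat_lit 76) (nat_lit 6591532623974) (nat_lit 3) (nat_lit 5) (nat_lit 5) (nat_lit 5) (nat_lit 4) (nat_lit 4) (nat_lit 282) (nat_lit 250) (nat_lit 128)))) (XT.nd (nat_lit 156) (nat_lit 0) (nat_lit 0) (XT.nd (nat_lit 78) (nat_lit 0) (nat_lit 0) (XT.lf (nat_lit 0) (nat_lit 710558916793) (nat_lit 152) (nat_lit 6959566347926) (nat_lit 0) (nat_lit 209160431965) (nat_lit 2) (nat_lit 5) (nat_lit 4) (nat_lit 4) (nat_lit 2) (nat_lit 4) (nat_lit 283) (nat_lit 250) (nat_lit 127)) (XT.lf (nat_lit 0) (nat_lit 1304164397185) (nat_lit 152) (nat_lit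 6869416408942) (nat_lit 0) (nat_lit 802765910119) (nat_lit 2) (nat_lit 5) (nat_lit 4) (nat_lit 4) (nat_lit 2) (nat_lit 4) (nat_lit 284) (nat_lit 250) (nat_lit 126))) (XT.nd (nat_lit 78) (nat_lit 0) (nat_lit 0) (XT.lf (nat_lit 0) (nat_lit 1986810694946) (nat_lit 152) (nat_lit 6765743988572) (nat_lit 0) (nat_lit 1485412205934) (nat_lit 2) (nat_lit 5) (nat_lit 4) (nat_lit 4) (nat_lit 2) (nat_lit 4) (nat_lit 285) (nat_lit 250) (nat_lit 125)) (XT.nd (nat_lit 78) (nat_lit 0) (nat_lit 0) (XT.lf (nat_lit 0) (nat_lit 2771853933292) (nat_lit 152) (nat_lit 6646520713373) (nat_lit 0) (nat_lit 2270455442589) (nat_lit 2) (nat_lit 5) (nat_lit 4) (nat_lit 4) (nat_lit 2) (nat_lit 4) (nat_lit 286) (nat_lit 250) (nat_lit 124)) (XT.lf (nat_lit 0) (nat_lit 3674653653843) (nat_lit 152) (nat_lit 6509413954049) (nat_lit 0) (nat_lit 3173255161669) (nat_lit 2) (nat_lit 5) (nat_lit 4) (nat_lit 4) (nat_lit 2) (nat_lit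 4) (nat_lit 287) (nat_lit 250) (nat_lit 123)))))) (XT.nd (nat_lit 312) (nat_lit 0) (nat_lit 0) (XT.nd (nat_lit 156) (nat_lit 0) (nat_lit 0) (XT.nd (nat_lit 78) (nat_lit 0) (nat_lit 0) (XT.lf (nat_lit 0) (nat_lit 4712873329393) (nat_lit 152) (nat_lit 6351741187047) (nat_lit 0) (nat_lit 4211474835939) (nat_lit 2) (nat_lit 5) (nat_lit 4) (nat_lit 4) (nat_lit 2) (nat_lit 4) (nat_lit 288) (nat_lit 250) (nat_lit 122)) (XT.lf (nat_lit 0) (nat_lit 5906825953593) (nat_lit 152) (nat_lit 6170417510404) (nat_lit 0) (nat_lit 5405427459028) (nat_lit 2) (nat_lit 5) (nat_lit 4) (nat_lit 4) (nat_lit 2) (nat_lit 4) (nat_lit 289) (nat_lit 250) (nat_lit 121))) (XT.nd (nat_lit 78) (nat_lit 0) (nat_lit 0) (XT.lf (nat_lit 0) (nat_lit 7279871469092) (nat_lit 152) (nat_lit 5961895286968) (nat_lit 0) (nat_lit 6778472973559) (nat_lit 2) (nat_lit 5) (nat_lit 4) (nat_lit 4) (nat_lit 2) (nat_lit 4) (nat_lit 290)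 (nat_lit 250) (nat_lit 120)) (XT.lf (nat_lit 0) (nat_lit 8858873809888) (nat_lit 152) (nat_lit 5722094734108) (nat_lit 0) (nat_lit 8357475313513) (nat_lit 2) (nat_lit 5) (nat_lit 4) (nat_lit 4) (nat_lit 2) (nat_lit 4) (nat_lit 291) (nat_lit 250) (nat_lit 119)))) (XT.nd (nat_lit 156) (nat_lit 0) (nat_lit 0) (XT.nd (nat_lit 78) (nat_lit 0) (nat_lit 0) (XT.lf (nat_lit 0) (nat_lit 10674726500039) (nat_lit 152) (nat_lit 5446324101875) (nat_lit 0) (nat_lit 10173328002934) (nat_lit 2) (nat_lit 5) (nat_lit 4) (nat_lit 4) (nat_lit 2) (nat_lit 4) (nat_lit 292) (nat_lit 250) (nat_lit 118)) (XT.lf (nat_lit 0) (nat_lit 12762957092181) (nat_lit 152) (nat_lit 5129187877900) (nat_lit 0) (nat_lit 12261558594439) (nat_lit 2) (nat_lit 5) (nat_lit 4) (nat_lit 4) (nat_lit 2) (nat_lit 4) (nat_lit 293) (nat_lit 250) (nat_lit 117))) (XT.nd (nat_lit 78) (nat_lit 0) (nat_lit 0) (XT.lf (nat_lit 0) (nat_lit 15164422271809)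 (nat_lit 152) (nat_lit 4764481223019) (nat_lit 0) (nat_lit 14663023773515) (nat_lit 2) (nat_lit 5) (nat_lit 4) (nat_lit 4) (nat_lit 2) (nat_lit 4) (nat_lit 294) (nat_lit 250) (nat_lit 116)) (XT.nd (nat_lit 78) (nat_lit 0) (nat_lit 0) (XT.lf (nat_lit 0) (nat_lit 17926107227223) (nat_lit 152) (nat_lit 4345068572244) (nat_lit 0) (nat_lit 17424708728448) (nat_lit 2) (nat_lit 5) (nat_lit 4) (nat_lit 4) (nat_lit 2) (nat_lit 4) (nat_lit 295) (nat_lit 250) (nat_lit 115)) (XT.lf (nat_lit 0) (nat_lit 21102044924941) (nat_lit 152) (nat_lit 3862744025886) (nat_lit 0) (nat_lit 20600646425747) (nat_lit 2) (nat_lit 5) (nat_lit 4) (nat_lit 4) (nat_lit 2) (nat_lit 4) (nat_lit 296) (nat_lit 250) (nat_lit 114))))))) (XT.nd (nat_lit 31278) (nat_lit 0) (nat_lit 684) (XT.nd (nat_lit 30888) (nat_lit 0) (nat_lit 1368) (XT.nd (nat_lit 156) (nat_lit 0) (nat_lit 0) (XT.nd (nat_lit 78) (nat_lit 0) (nat_lit 0) (XT.lf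 (nat_lit 0) (nat_lit 24754373276440) (nat_lit 152) (nat_lit 3308070799343) (nat_lit 0) (nat_lit 24252974776882) (nat_lit 2) (nat_lit 5) (nat_lit 4) (nat_lit 4) (nat_lit 2) (nat_lit 4) (nat_lit 297) (nat_lit 250) (nat_lit 113)) (XT.lf (nat_lit 0) (nat_lit 28954550879901) (nat_lit 152) (nat_lit 2670196590356) (nat_lit 0) (nat_lit 28453152380028) (nat_lit 2) (nat_lit 5) (nat_lit 4) (nat_lit 4) (nat_lit 2) (nat_lit 4) (nat_lit 298) (nat_lit 250) (nat_lit 112))) (XT.nd (nat_lit 30654) (nat_lit 0) (nat_lit 1368) (XT.lf (nat_lit 0) (nat_lit 33784755123219) (nat_lit 152) (nat_lit 1936641251358) (nat_lit 0) (nat_lit 33283356623070) (nat_lit 2) (nat_lit 5) (nat_lit 4) (nat_lit 4) (nat_lit 2) (nat_lit 4) (nat_lit 299) (nat_lit 250) (nat_lit 111)) (XT.lf (nat_lit 0) (nat_lit 17965964743) (nat_lit 380) (nat_lit 68639402684) (nat_lit 380) (nat_lit 68639402684) (nat_lit 20) (nat_lit 3) (nat_lit 25)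 (nat_lit 3) (nat_lit 25) (nat_lit 5) (nat_lit 251) (nat_lit 251) (nat_lit 158)))) (XT.nd (nat_lit 156) (nat_lit 0) (nat_lit 76) (XT.nd (nat_lit 78) (nat_lit 0) (nat_lit 76) (XT.lf (nat_lit 76) (nat_lit 5003859781) (nat_lit 0) (nat_lit 33830775190) (nat_lit 380) (nat_lit 294910446053) (nat_lit 21) (nat_lit 5) (nat_lit 20) (nat_lit 3) (nat_lit 25) (nat_lit 5) (nat_lit 252) (nat_lit 251) (nat_lit 157)) (XT.lf (nat_lit 0) (nat_lit 54926565835) (nat_lit 304) (nat_lit 180933451982) (nat_lit 380) (nat_lit 122715862745) (nat_lit 21) (nat_lit 5) (nat_lit 25) (nat_lit 5) (nat_lit 26) (nat_lit 5) (nat_lit 253) (nat_lit 251) (nat_lit 156))) (XT.nd (nat_lit 78) (nat_lit 0) (nat_lit 76) (XT.lf (nat_lit 0) (nat_lit 75043179980) (nat_lit 304) (nat_lit 12565583257) (nat_lit 380) (nat_lit 299280903227) (nat_lit 21) (nat_lit 5) (nat_lit 25) (nat_lit 5) (nat_lit 26) (nat_lit 5) (nat_lit 254) (nat_lit 251)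 (nat_lit 155)) (XT.nd (nat_lit 78) (nat_lit 0) (nat_lit 0) (XT.lf (nat_lit 0) (nat_lit 110230876166) (nat_lit 304) (nat_lit 223288197218) (nat_lit 76) (nat_lit 84123408795) (nat_lit 22) (nat_lit 5) (nat_lit 26) (nat_lit 5) (nat_lit 23) (nat_lit 5) (nat_lit 255) (nat_lit 251) (nat_lit 154)) (XT.lf (nat_lit 0) (nat_lit 155556613439) (nat_lit 304) (nat_lit 23388560552) (nat_lit 76) (nat_lit 273334063626) (nat_lit 22) (nat_lit 5) (nat_lit 26) (nat_lit 5) (nat_lit 23) (nat_lit 5) (nat_lit 256) (nat_lit 251) (nat_lit 153)))))) (XT.nd (nat_lit 312) (nat_lit 380) (nat_lit 0) (XT.nd (nat_lit 156) (nat_lit 152) (nat_lit 0) (XT.nd (nat_lit 78) (nat_lit 0) (nat_lit 0) (XT.lf (nat_lit 0) (nat_lit 217465211066) (nat_lit 380) (nat_lit 264425231759) (nat_lit 76) (nat_lit 8753463896) (nat_lit 18) (nat_lit 5) (nat_lit 23) (nat_lit 5) (nat_lit 19) (nat_lit 5) (nat_lit 257) (nat_lit 251) (nat_lit 152))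 (XT.lf (nat_lit 0) (nat_lit 298462040142) (nat_lit 380) (nat_lit 27263826349) (nat_lit 76) (nat_lit 207567118704) (nat_lit 18) (nat_lit 5) (nat_lit 23) (nat_lit 5) (nat_lit 19) (nat_lit 5) (nat_lit 258) (nat_lit 251) (nat_lit 151))) (XT.nd (nat_lit 78) (nat_lit 0) (nat_lit 0) (XT.lf (nat_lit 0) (nat_lit 269461009918) (nat_lit 152) (nat_lit 133305138077) (nat_lit 228) (nat_lit 177899614522) (nat_lit 16) (nat_lit 5) (nat_lit 18) (nat_lit 5) (nat_lit 19) (nat_lit 5) (nat_lit 259) (nat_lit 251) (nat_lit 150)) (XT.lf (nat_lit 0) (nat_lit 527851853768) (nat_lit 228) (nat_lit 24882970499) (nat_lit 76) (nat_lit 81639235116) (nat_lit 16) (nat_lit 5) (nat_lit 19) (nat_lit 5) (nat_lit 17) (nat_lit 4) (nat_lit 260) (nat_lit 251) (nat_lit 149)))) (XT.nd (nat_lit 156) (nat_lit 228) (nat_lit 0) (XT.nd (nat_lit 78) (nat_lit 76) (nat_lit 0) (XT.lf (nat_lit 0) (nat_lit 327165711543) (nat_lit 76) (nat_lit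 364429760572) (nat_lit 152) (nat_lit 1558870337) (nat_lit 15) (nat_lit 5) (nat_lit 16) (nat_lit 5) (nat_lit 17) (nat_lit 4) (nat_lit 261) (nat_lit 251) (nat_lit 148)) (XT.lf (nat_lit 0) (nat_lit 109904098995) (nat_lit 152) (nat_lit 30734062241) (nat_lit 76) (nat_lit 619169061412) (nat_lit 14) (nat_lit 5) (nat_lit 16) (nat_lit 5) (nat_lit 15) (nat_lit 5) (nat_lit 262) (nat_lit 251) (nat_lit 147))) (XT.nd (nat_lit 78) (nat_lit 76) (nat_lit 0) (XT.lf (nat_lit 0) (nat_lit 259655745410) (nat_lit 228) (nat_lit 450231201157) (nat_lit 76) (nat_lit 123300629091) (nat_lit 12) (nat_lit 5) (nat_lit 15) (nat_lit 5) (nat_lit 13) (nat_lit 4) (nat_lit 263) (nat_lit 251) (nat_lit 146)) (XT.nd (nat_lit 78) (nat_lit 76) (nat_lit 0) (XT.lf (nat_lit 0) (nat_lit 440250216695) (nat_lit 228) (nat_lit 61953143587) (nat_lit 76) (nat_lit 414114609754) (nat_lit 12) (nat_lit 5) (nat_lit 15) (nat_lit 5) (nat_lit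 13) (nat_lit 4) (nat_lit 264) (nat_lit 251) (nat_lit 145)) (XT.lf (nat_lit 0) (nat_lit 422149218879) (nat_lit 76) (nat_lit 243264909859) (nat_lit 152) (nat_lit 343881754411) (nat_lit 11) (nat_lit 5) (nat_lit 12) (nat_lit 5) (nat_lit 13) (nat_lit 4) (nat_lit 265) (nat_lit 251) (nat_lit 144))))))))
noncomputable def xc106 : XT := (XT.nd (nat_lit 1404) (nat_lit 76) (nat_lit 0) (XT.nd (nat_lit 702) (nat_lit 152) (nat_lit 0) (XT.nd (nat_lit 312) (nat_lit 228) (nat_lit 0) (XT.nd (nat_lit 156) (nat_lit 76) (nat_lit 0) (XT.nd (nat_lit 78) (nat_lit 152) (nat_lit 0) (XT.lf (nat_lit 0) (nat_lit 930002593344) (nat_lit 152) (nat_lit 132316671342) (nat_lit 0) (nat_lit 53053723760) (nat_lit 11) (nat_lit 5) (nat_lit 13) (nat_lit 4) (nat_lit 11) (nat_lit 4) (nat_lit 266) (nat_lit 251) (nat_lit 143)) (XT.lf (nat_lit 0) (nat_lit 27382657592) (nat_lit 152) (nat_lit 818076187603) (nat_lit 76) (nat_lit 387393372472)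 (nat_lit 9) (nat_lit 5) (nat_lit 11) (nat_lit 5) (nat_lit 10) (nat_lit 4) (nat_lit 267) (nat_lit 251) (nat_lit 142))) (XT.nd (nat_lit 78) (nat_lit 76) (nat_lit 0) (XT.lf (nat_lit 0) (nat_lit 260316159884) (nat_lit 152) (nat_lit 317269185363) (nat_lit 76) (nat_lit 787957028429) (nat_lit 9) (nat_lit 5) (nat_lit 11) (nat_lit 5) (nat_lit 10) (nat_lit 4) (nat_lit 268) (nat_lit 251) (nat_lit 141)) (XT.lf (nat_lit 0) (nat_lit 283936852820) (nat_lit 76) (nat_lit 256010033697) (nat_lit 152) (nat_lit 976425586767) (nat_lit 8) (nat_lit 5) (nat_lit 9) (nat_lit 5) (nat_lit 10) (nat_lit 4) (nat_lit 269) (nat_lit 251) (nat_lit 140)))) (XT.nd (nat_lit 156) (nat_lit 228) (nat_lit 0) (XT.nd (nat_lit 78) (nat_lit 0) (nat_lit 0) (XT.lf (nat_lit 0) (nat_lit 883608747599) (nat_lit 152) (nat_lit 681860939184) (nat_lit 0) (nat_lit 121044422270) (nat_lit 8) (nat_lit 5) (nat_lit 10) (nat_lit 4) (nat_lit 8) (nat_lit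 4) (nat_lit 270) (nat_lit 251) (nat_lit 139)) (XT.lf (nat_lit 0) (nat_lit 1291010824455) (nat_lit 152) (nat_lit 60891041979) (nat_lit 0) (nat_lit 528446483295) (nat_lit 8) (nat_lit 5) (nat_lit 10) (nat_lit 4) (nat_lit 8) (nat_lit 4) (nat_lit 271) (nat_lit 251) (nat_lit 138))) (XT.nd (nat_lit 78) (nat_lit 152) (nat_lit 0) (XT.lf (nat_lit 0) (nat_lit 717062142200) (nat_lit 76) (nat_lit 1072153069702) (nat_lit 76) (nat_lit 309588714775) (nat_lit 7) (nat_lit 4) (nat_lit 8) (nat_lit 5) (nat_lit 8) (nat_lit 4) (nat_lit 272) (nat_lit 251) (nat_lit 137)) (XT.nd (nat_lit 78) (nat_lit 76) (nat_lit 0) (XT.lf (nat_lit 0) (nat_lit 14377690376) (nat_lit 152) (nat_lit 731652332588) (nat_lit 76) (nat_lit 1603422348533) (nat_lit 6) (nat_lit 5) (nat_lit 8) (nat_lit 5) (nat_lit 7) (nat_lit 4) (nat_lit 273) (nat_lit 251) (nat_lit 136)) (XT.lf (nat_lit 0) (nat_lit 1326266124) (nat_lit 76) (nat_lit 353971707564)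 (nat_lit 152) (nat_lit 2280180525681) (nat_lit 5) (nat_lit 5) (nat_lit 6) (nat_lit 5) (nat_lit 7) (nat_lit 4) (nat_lit 274) (nat_lit 251) (nat_lit 135)))))) (XT.nd (nat_lit 312) (nat_lit 76) (nat_lit 0) (XT.nd (nat_lit 156) (nat_lit 76) (nat_lit 0) (XT.nd (nat_lit 78) (nat_lit 0) (nat_lit 0) (XT.lf (nat_lit 0) (nat_lit 791435192142) (nat_lit 152) (nat_lit 2038025794657) (nat_lit 0) (nat_lit 128335725743) (nat_lit 5) (nat_lit 5) (nat_lit 7) (nat_lit 4) (nat_lit 5) (nat_lit 4) (nat_lit 275) (nat_lit 251) (nat_lit 134)) (XT.lf (nat_lit 0) (nat_lit 1309848777884) (nat_lit 152) (nat_lit 1369336207502) (nat_lit 0) (nat_lit 646749304642) (nat_lit 5) (nat_lit 5) (nat_lit 7) (nat_lit 4) (nat_lit 5) (nat_lit 4) (nat_lit 276) (nat_lit 251) (nat_lit 133))) (XT.nd (nat_lit 78) (nat_lit 76) (nat_lit 0) (XT.lf (nat_lit 0) (nat_lit 1906024391856) (nat_lit 152) (nat_lit 600343201076) (nat_lit 0) (nat_lit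 1242924912662) (nat_lit 5) (nat_lit 5) (nat_lit 7) (nat_lit 4) (nat_lit 5) (nat_lit 4) (nat_lit 277) (nat_lit 251) (nat_lit 132)) (XT.lf (nat_lit 0) (nat_lit 311753162277) (nat_lit 76) (nat_lit 2292782210905) (nat_lit 76) (nat_lit 1629682726535) (nat_lit 4) (nat_lit 4) (nat_lit 5) (nat_lit 5) (nat_lit 5) (nat_lit 4) (nat_lit 278) (nat_lit 251) (nat_lit 131)))) (XT.nd (nat_lit 156) (nat_lit 76) (nat_lit 0) (XT.nd (nat_lit 78) (nat_lit 0) (nat_lit 0) (XT.lf (nat_lit 0) (nat_lit 1428134353830) (nat_lit 76) (nat_lit 2011070216367) (nat_lit 76) (nat_lit 1347970727498) (nat_lit 4) (nat_lit 4) (nat_lit 5) (nat_lit 5) (nat_lit 5) (nat_lit 4) (nat_lit 279) (nat_lit 251) (nat_lit 130)) (XT.lf (nat_lit 0) (nat_lit 2711972710545) (nat_lit 76) (nat_lit 1687101429325) (nat_lit 76) (nat_lit 1024001936542) (nat_lit 4) (nat_lit 4) (nat_lit 5) (nat_lit 5) (nat_lit 5) (nat_lit 4) (nat_lit 280) (nat_lit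 251) (nat_lit 129))) (XT.nd (nat_lit 78) (nat_lit 76) (nat_lit 0) (XT.lf (nat_lit 0) (nat_lit 4188386808966) (nat_lit 76) (nat_lit 1314537330031) (nat_lit 76) (nat_lit 651437833846) (nat_lit 4) (nat_lit 4) (nat_lit 5) (nat_lit 5) (nat_lit 5) (nat_lit 4) (nat_lit 281) (nat_lit 251) (nat_lit 128)) (XT.nd (nat_lit 78) (nat_lit 76) (nat_lit 0) (XT.lf (nat_lit 0) (nat_lit 5886263011888) (nat_lit 76) (nat_lit 886088620892) (nat_lit 76) (nat_lit 222989121747) (nat_lit 4) (nat_lit 4) (nat_lit 5) (nat_lit 5) (nat_lit 5) (nat_lit 4) (nat_lit 282) (nat_lit 251) (nat_lit 127)) (XT.lf (nat_lit 0) (nat_lit 245713938832) (nat_lit 152) (nat_lit 134814533227) (nat_lit 76) (nat_lit 7580262559780) (nat_lit 3) (nat_lit 5) (nat_lit 5) (nat_lit 5) (nat_lit 4) (nat_lit 4) (nat_lit 283) (nat_lit 251) (nat_lit 126))))))) (XT.nd (nat_lit 702) (nat_lit 0) (nat_lit 0) (XT.nd (nat_lit 312) (nat_lit 0) (nat_lit 0)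 (XT.nd (nat_lit 156) (nat_lit 0) (nat_lit 0) (XT.nd (nat_lit 78) (nat_lit 0) (nat_lit 0) (XT.lf (nat_lit 0) (nat_lit 817142804816) (nat_lit 152) (nat_lit 8003501198242) (nat_lit 0) (nat_lit 240534540508) (nat_lit 2) (nat_lit 5) (nat_lit 4) (nat_lit 4) (nat_lit 2) (nat_lit 4) (nat_lit 284) (nat_lit 251) (nat_lit 125)) (XT.lf (nat_lit 0) (nat_lit 1499789100680) (nat_lit 152) (nat_lit 7899828781698) (nat_lit 0) (nat_lit 923180834679) (nat_lit 2) (nat_lit 5) (nat_lit 4) (nat_lit 4) (nat_lit 2) (nat_lit 4) (nat_lit 285) (nat_lit 251) (nat_lit 124))) (XT.nd (nat_lit 78) (nat_lit 0) (nat_lit 0) (XT.lf (nat_lit 0) (nat_lit 2284832337376) (nat_lit 152) (nat_lit 7780605509827) (nat_lit 0) (nat_lit 1708224069905) (nat_lit 2) (nat_lit 5) (nat_lit 4) (nat_lit 4) (nat_lit 2) (nat_lit 4) (nat_lit 286) (nat_lit 251) (nat_lit 123)) (XT.lf (nat_lit 0) (nat_lit 3187632056493) (nat_lit 152) (nat_lit 7643498753396)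 (nat_lit 0) (nat_lit 2611023787742) (nat_lit 2) (nat_lit 5) (nat_lit 4) (nat_lit 4) (nat_lit 2) (nat_lit 4) (nat_lit 287) (nat_lit 251) (nat_lit 122)))) (XT.nd (nat_lit 156) (nat_lit 0) (nat_lit 0) (XT.nd (nat_lit 78) (nat_lit 0) (nat_lit 0) (XT.lf (nat_lit 0) (nat_lit 4225851730795) (nat_lit 152) (nat_lit 7485825988910) (nat_lit 0) (nat_lit 3649243460932) (nat_lit 2) (nat_lit 5) (nat_lit 4) (nat_lit 4) (nat_lit 2) (nat_lit 4) (nat_lit 288) (nat_lit 251) (nat_lit 121)) (XT.lf (nat_lit 0) (nat_lit 5419804353911) (nat_lit 152) (nat_lit 7304502314455) (nat_lit 0) (nat_lit 4843196083081) (nat_lit 2) (nat_lit 5) (nat_lit 4) (nat_lit 4) (nat_lit 2) (nat_lit 4) (nat_lit 289) (nat_lit 251) (nat_lit 120))) (XT.nd (nat_lit 78) (nat_lit 0) (nat_lit 0) (XT.lf (nat_lit 0) (nat_lit 6792849868467) (nat_lit 152) (nat_lit 7095980092922) (nat_lit 0) (nat_lit 6216241596795) (nat_lit 2) (nat_lit 5) (nat_lit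 4) (nat_lit 4) (nat_lit 2) (nat_lit 4) (nat_lit 290) (nat_lit 251) (nat_lit 119)) (XT.nd (nat_lit 78) (nat_lit 0) (nat_lit 0) (XT.lf (nat_lit 0) (nat_lit 8371852208442) (nat_lit 152) (nat_lit 6856179541716) (nat_lit 0) (nat_lit 7795243936039) (nat_lit 2) (nat_lit 5) (nat_lit 4) (nat_lit 4) (nat_lit 2) (nat_lit 4) (nat_lit 291) (nat_lit 251) (nat_lit 118)) (XT.lf (nat_lit 0) (nat_lit 10187704897881) (nat_lit 152) (nat_lit 6580408910922) (nat_lit 0) (nat_lit 9611096624842) (nat_lit 2) (nat_lit 5) (nat_lit 4) (nat_lit 4) (nat_lit 2) (nat_lit 4) (nat_lit 292) (nat_lit 251) (nat_lit 117)))))) (XT.nd (nat_lit 312) (nat_lit 0) (nat_lit 0) (XT.nd (nat_lit 156) (nat_lit 0) (nat_lit 0) (XT.nd (nat_lit 78) (nat_lit 0) (nat_lit 0) (XT.lf (nat_lit 0) (nat_lit 12275935489402) (nat_lit 152) (nat_lit 6263272688198) (nat_lit 0) (nat_lit 11699327215810) (nat_lit 2) (nat_lit 5) (nat_lit 4) (nat_lit 4)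 (nat_lit 2) (nat_lit 4) (nat_lit 293) (nat_lit 251) (nat_lit 116)) (XT.lf (nat_lit 0) (nat_lit 14677400668492) (nat_lit 152) (nat_lit 5898566034404) (nat_lit 0) (nat_lit 14100792394419) (nat_lit 2) (nat_lit 5) (nat_lit 4) (nat_lit 4) (nat_lit 2) (nat_lit 4) (nat_lit 294) (nat_lit 251) (nat_lit 115))) (XT.nd (nat_lit 78) (nat_lit 0) (nat_lit 0) (XT.lf (nat_lit 0) (nat_lit 17439085623436) (nat_lit 152) (nat_lit 5479153384575) (nat_lit 0) (nat_lit 16862477348945) (nat_lit 2) (nat_lit 5) (nat_lit 4) (nat_lit 4) (nat_lit 2) (nat_lit 4) (nat_lit 295) (nat_lit 251) (nat_lit 114)) (XT.lf (nat_lit 0) (nat_lit 20615023320747) (nat_lit 152) (nat_lit 4996828839040) (nat_lit 0) (nat_lit 20038415045892) (nat_lit 2) (nat_lit 5) (nat_lit 4) (nat_lit 4) (nat_lit 2) (nat_lit 4) (nat_lit 296) (nat_lit 251) (nat_lit 113)))) (XT.nd (nat_lit 30888) (nat_lit 0) (nat_lit 1368) (XT.nd (nat_lit 78) (nat_lit 0)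 (nat_lit 0) (XT.lf (nat_lit 0) (nat_lit 24267351671891) (nat_lit 152) (nat_lit 4442155613212) (nat_lit 0) (nat_lit 23690743396720) (nat_lit 2) (nat_lit 5) (nat_lit 4) (nat_lit 4) (nat_lit 2) (nat_lit 4) (nat_lit 297) (nat_lit 251) (nat_lit 112)) (XT.lf (nat_lit 0) (nat_lit 28467529275044) (nat_lit 152) (nat_lit 3804281404847) (nat_lit 0) (nat_lit 27890920999598) (nat_lit 2) (nat_lit 5) (nat_lit 4) (nat_lit 4) (nat_lit 2) (nat_lit 4) (nat_lit 298) (nat_lit 251) (nat_lit 111))) (XT.nd (nat_lit 78) (nat_lit 0) (nat_lit 0) (XT.lf (nat_lit 0) (nat_lit 20661445739) (nat_lit 380) (nat_lit 78934974487) (nat_lit 380) (nat_lit 78934974487) (nat_lit 20) (nat_lit 3) (nat_lit 25) (nat_lit 3) (nat_lit 25) (nat_lit 5) (nat_lit 252) (nat_lit 252) (nat_lit 156)) (XT.nd (nat_lit 78) (nat_lit 0) (nat_lit 76) (XT.lf (nat_lit 76) (nat_lit 5755085168) (nat_lit 0) (nat_lit 38905791441) (nat_lit 380) (nat_lit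 339145804439) (nat_lit 21) (nat_lit 5) (nat_lit 20) (nat_lit 3) (nat_lit 25) (nat_lit 5) (nat_lit 253) (nat_lit 252) (nat_lit 155)) (XT.lf (nat_lit 0) (nat_lit 63166446215) (nat_lit 304) (nat_lit 208072752292) (nat_lit 380) (nat_lit 141122925318) (nat_lit 21) (nat_lit 5) (nat_lit 25) (nat_lit 5) (nat_lit 26) (nat_lit 5) (nat_lit 254) (nat_lit 252) (nat_lit 154))))))))
noncomputable def xc107 : XT := (XT.nd (nat_lit 1404) (nat_lit 456) (nat_lit 0) (XT.nd (nat_lit 702) (nat_lit 456) (nat_lit 0) (XT.nd (nat_lit 312) (nat_lit 304) (nat_lit 0) (XT.nd (nat_lit 156) (nat_lit 228) (nat_lit 0) (XT.nd (nat_lit 78) (nat_lit 0) (nat_lit 76) (XT.lf (nat_lit 0) (nat_lit 86300435676) (nat_lit 304) (nat_lit 14449796843) (nat_lit 380) (nat_lit 344172763198) (nat_lit 21) (nat_lit 5) (nat_lit 25) (nat_lit 5) (nat_lit 26) (nat_lit 5) (nat_lit 255) (nat_lit 252) (nat_lit 153)) (XT.lf (nat_lit 0) (nat_lit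 126766204982) (nat_lit 304) (nat_lit 256780718189) (nat_lit 76) (nat_lit 96741823326) (nat_lit 22) (nat_lit 5) (nat_lit 26) (nat_lit 5) (nat_lit 23) (nat_lit 5) (nat_lit 256) (nat_lit 252) (nat_lit 152))) (XT.nd (nat_lit 78) (nat_lit 304) (nat_lit 0) (XT.lf (nat_lit 0) (nat_lit 178890711882) (nat_lit 304) (nat_lit 26896228450) (nat_lit 76) (nat_lit 314334089006) (nat_lit 22) (nat_lit 5) (nat_lit 26) (nat_lit 5) (nat_lit 23) (nat_lit 5) (nat_lit 257) (nat_lit 252) (nat_lit 151)) (XT.lf (nat_lit 0) (nat_lit 250085545920) (nat_lit 380) (nat_lit 304088344535) (nat_lit 76) (nat_lit 10066516724) (nat_lit 18) (nat_lit 5) (nat_lit 23) (nat_lit 5) (nat_lit 19) (nat_lit 5) (nat_lit 258) (nat_lit 252) (nat_lit 150)))) (XT.nd (nat_lit 156) (nat_lit 152) (nat_lit 0) (XT.nd (nat_lit 78) (nat_lit 152) (nat_lit 0) (XT.lf (nat_lit 0) (nat_lit 343231827201) (nat_lit 380) (nat_lit 31352815964) (nat_lit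 76) (nat_lit 238702215418) (nat_lit 18) (nat_lit 5) (nat_lit 23) (nat_lit 5) (nat_lit 19) (nat_lit 5) (nat_lit 259) (nat_lit 252) (nat_lit 149)) (XT.lf (nat_lit 0) (nat_lit 309880719182) (nat_lit 152) (nat_lit 153300792402) (nat_lit 228) (nat_lit 204584047157) (nat_lit 16) (nat_lit 5) (nat_lit 18) (nat_lit 5) (nat_lit 19) (nat_lit 5) (nat_lit 260) (nat_lit 252) (nat_lit 148))) (XT.nd (nat_lit 78) (nat_lit 152) (nat_lit 0) (XT.lf (nat_lit 0) (nat_lit 607030019841) (nat_lit 228) (nat_lit 28614875978) (nat_lit 76) (nat_lit 93885212579) (nat_lit 16) (nat_lit 5) (nat_lit 19) (nat_lit 5) (nat_lit 17) (nat_lit 4) (nat_lit 261) (nat_lit 252) (nat_lit 147)) (XT.nd (nat_lit 78) (nat_lit 76) (nat_lit 0) (XT.lf (nat_lit 0) (nat_lit 376241083820) (nat_lit 76) (nat_lit 419094067859) (nat_lit 152) (nat_lit 1792286860) (nat_lit 15) (nat_lit 5) (nat_lit 16) (nat_lit 5) (nat_lit 17) (nat_lit 4) (nat_lit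 262) (nat_lit 252) (nat_lit 146)) (XT.lf (nat_lit 0) (nat_lit 126390041817) (nat_lit 152) (nat_lit 35343690113) (nat_lit 76) (nat_lit 712044523808) (nat_lit 14) (nat_lit 5) (nat_lit 16) (nat_lit 5) (nat_lit 15) (nat_lit 5) (nat_lit 263) (nat_lit 252) (nat_lit 145)))))) (XT.nd (nat_lit 312) (nat_lit 228) (nat_lit 0) (XT.nd (nat_lit 156) (nat_lit 76) (nat_lit 0) (XT.nd (nat_lit 78) (nat_lit 0) (nat_lit 0) (XT.lf (nat_lit 0) (nat_lit 298604417879) (nat_lit 228) (nat_lit 517765381584) (nat_lit 76) (nat_lit 141795864979) (nat_lit 12) (nat_lit 5) (nat_lit 15) (nat_lit 5) (nat_lit 13) (nat_lit 4) (nat_lit 264) (nat_lit 252) (nat_lit 144)) (XT.lf (nat_lit 0) (nat_lit 506288019336) (nat_lit 228) (nat_lit 71245680563) (nat_lit 76) (nat_lit 476231924282) (nat_lit 12) (nat_lit 5) (nat_lit 15) (nat_lit 5) (nat_lit 13) (nat_lit 4) (nat_lit 265) (nat_lit 252) (nat_lit 143))) (XT.nd (nat_lit 78) (nat_lit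 0) (nat_lit 0) (XT.lf (nat_lit 0) (nat_lit 485472016521) (nat_lit 76) (nat_lit 279754483607) (nat_lit 152) (nat_lit 395463726953) (nat_lit 11) (nat_lit 5) (nat_lit 12) (nat_lit 5) (nat_lit 13) (nat_lit 4) (nat_lit 266) (nat_lit 252) (nat_lit 142)) (XT.lf (nat_lit 0) (nat_lit 1069503207403) (nat_lit 152) (nat_lit 152163783684) (nat_lit 0) (nat_lit 61011911232) (nat_lit 11) (nat_lit 5) (nat_lit 13) (nat_lit 4) (nat_lit 11) (nat_lit 4) (nat_lit 267) (nat_lit 252) (nat_lit 141)))) (XT.nd (nat_lit 156) (nat_lit 76) (nat_lit 0) (XT.nd (nat_lit 78) (nat_lit 0) (nat_lit 0) (XT.lf (nat_lit 0) (nat_lit 31490277836) (nat_lit 152) (nat_lit 940787222899) (nat_lit 76) (nat_lit 445502515860) (nat_lit 9) (nat_lit 5) (nat_lit 11) (nat_lit 5) (nat_lit 10) (nat_lit 4) (nat_lit 268) (nat_lit 252) (nat_lit 140)) (XT.lf (nat_lit 0) (nat_lit 299363776567) (nat_lit 152) (nat_lit 364859221564) (nat_lit 76) (nat_lit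 906150702274) (nat_lit 9) (nat_lit 5) (nat_lit 11) (nat_lit 5) (nat_lit 10) (nat_lit 4) (nat_lit 269) (nat_lit 252) (nat_lit 139))) (XT.nd (nat_lit 78) (nat_lit 0) (nat_lit 0) (XT.lf (nat_lit 0) (nat_lit 326527706819) (nat_lit 76) (nat_lit 294411393743) (nat_lit 152) (nat_lit 1122889216191) (nat_lit 8) (nat_lit 5) (nat_lit 9) (nat_lit 5) (nat_lit 10) (nat_lit 4) (nat_lit 270) (nat_lit 252) (nat_lit 138)) (XT.nd (nat_lit 78) (nat_lit 0) (nat_lit 0) (XT.lf (nat_lit 0) (nat_lit 1016150222411) (nat_lit 152) (nat_lit 784139777804) (nat_lit 0) (nat_lit 139201200479) (nat_lit 8) (nat_lit 5) (nat_lit 10) (nat_lit 4) (nat_lit 8) (nat_lit 4) (nat_lit 271) (nat_lit 252) (nat_lit 137)) (XT.lf (nat_lit 0) (nat_lit 1484662589577) (nat_lit 152) (nat_lit 70024435443) (nat_lit 0) (nat_lit 607713555675) (nat_lit 8) (nat_lit 5) (nat_lit 10) (nat_lit 4) (nat_lit 8) (nat_lit 4) (nat_lit 272) (nat_lit 252)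 (nat_lit 136))))))) (XT.nd (nat_lit 702) (nat_lit 152) (nat_lit 0) (XT.nd (nat_lit 312) (nat_lit 76) (nat_lit 0) (XT.nd (nat_lit 156) (nat_lit 76) (nat_lit 0) (XT.nd (nat_lit 78) (nat_lit 76) (nat_lit 0) (XT.lf (nat_lit 0) (nat_lit 824621714415) (nat_lit 76) (nat_lit 1232975912663) (nat_lit 76) (nat_lit 356026868352) (nat_lit 7) (nat_lit 4) (nat_lit 8) (nat_lit 5) (nat_lit 8) (nat_lit 4) (nat_lit 273) (nat_lit 252) (nat_lit 135)) (XT.lf (nat_lit 0) (nat_lit 16534465638) (nat_lit 152) (nat_lit 841399952241) (nat_lit 76) (nat_lit 1843935790907) (nat_lit 6) (nat_lit 5) (nat_lit 8) (nat_lit 5) (nat_lit 7) (nat_lit 4) (nat_lit 274) (nat_lit 252) (nat_lit 134))) (XT.nd (nat_lit 78) (nat_lit 0) (nat_lit 0) (XT.lf (nat_lit 0) (nat_lit 1525425813) (nat_lit 76) (nat_lit 407067358860) (nat_lit 152) (nat_lit 2622207472206) (nat_lit 5) (nat_lit 5) (nat_lit 6) (nat_lit 5) (nat_lit 7) (nat_lit 4) (nat_lit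 275) (nat_lit 252) (nat_lit 133)) (XT.lf (nat_lit 0) (nat_lit 910150574678) (nat_lit 152) (nat_lit 2343729461399) (nat_lit 0) (nat_lit 147586167653) (nat_lit 5) (nat_lit 5) (nat_lit 7) (nat_lit 4) (nat_lit 5) (nat_lit 4) (nat_lit 276) (nat_lit 252) (nat_lit 132)))) (XT.nd (nat_lit 156) (nat_lit 76) (nat_lit 0) (XT.nd (nat_lit 78) (nat_lit 0) (nat_lit 0) (XT.lf (nat_lit 0) (nat_lit 1506326184754) (nat_lit 152) (nat_lit 1574736462578) (nat_lit 0) (nat_lit 743761772554) (nat_lit 5) (nat_lit 5) (nat_lit 7) (nat_lit 4) (nat_lit 5) (nat_lit 4) (nat_lit 277) (nat_lit 252) (nat_lit 131)) (XT.lf (nat_lit 0) (nat_lit 2191928129058) (nat_lit 152) (nat_lit 690394528151) (nat_lit 0) (nat_lit 1429363712358) (nat_lit 5) (nat_lit 5) (nat_lit 7) (nat_lit 4) (nat_lit 5) (nat_lit 4) (nat_lit 278) (nat_lit 252) (nat_lit 130))) (XT.nd (nat_lit 78) (nat_lit 0) (nat_lit 0) (XT.lf (nat_lit 0) (nat_lit 358516282747)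 (nat_lit 76) (nat_lit 2636699470657) (nat_lit 76) (nat_lit 1874135050044) (nat_lit 4) (nat_lit 4) (nat_lit 5) (nat_lit 5) (nat_lit 5) (nat_lit 4) (nat_lit 279) (nat_lit 252) (nat_lit 129)) (XT.nd (nat_lit 78) (nat_lit 0) (nat_lit 0) (XT.lf (nat_lit 0) (nat_lit 1642354633973) (nat_lit 76) (nat_lit 2312730686315) (nat_lit 76) (nat_lit 1550166262299) (nat_lit 4) (nat_lit 4) (nat_lit 5) (nat_lit 5) (nat_lit 5) (nat_lit 4) (nat_lit 280) (nat_lit 252) (nat_lit 128)) (XT.lf (nat_lit 0) (nat_lit 3118768727621) (nat_lit 76) (nat_lit 1940166589370) (nat_lit 76) (nat_lit 1177602162395) (nat_lit 4) (nat_lit 4) (nat_lit 5) (nat_lit 5) (nat_lit 5) (nat_lit 4) (nat_lit 281) (nat_lit 252) (nat_lit 127)))))) (XT.nd (nat_lit 312) (nat_lit 0) (nat_lit 0) (XT.nd (nat_lit 156) (nat_lit 152) (nat_lit 0) (XT.nd (nat_lit 78) (nat_lit 0) (nat_lit 0) (XT.lf (nat_lit 0) (nat_lit 4816644926392) (nat_lit 76) (nat_lit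 1511717882272) (nat_lit 76) (nat_lit 749153452724) (nat_lit 4) (nat_lit 4) (nat_lit 5) (nat_lit 5) (nat_lit 5) (nat_lit 4) (nat_lit 282) (nat_lit 252) (nat_lit 126)) (XT.lf (nat_lit 0) (nat_lit 6769202547220) (nat_lit 76) (nat_lit 1019001872926) (nat_lit 76) (nat_lit 256437441141) (nat_lit 4) (nat_lit 4) (nat_lit 5) (nat_lit 5) (nat_lit 5) (nat_lit 4) (nat_lit 283) (nat_lit 252) (nat_lit 125))) (XT.nd (nat_lit 78) (nat_lit 76) (nat_lit 0) (XT.lf (nat_lit 0) (nat_lit 282571068369) (nat_lit 152) (nat_lit 155036636737) (nat_lit 76) (nat_lit 8717301975664) (nat_lit 3) (nat_lit 5) (nat_lit 5) (nat_lit 5) (nat_lit 4) (nat_lit 4) (nat_lit 284) (nat_lit 252) (nat_lit 124)) (XT.lf (nat_lit 0) (nat_lit 939714263727) (nat_lit 152) (nat_lit 9204026300948) (nat_lit 0) (nat_lit 276614754664) (nat_lit 2) (nat_lit 5) (nat_lit 4) (nat_lit 4) (nat_lit 2) (nat_lit 4) (nat_lit 285) (nat_lit 252) (nat_lit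 123)))) (XT.nd (nat_lit 156) (nat_lit 0) (nat_lit 0) (XT.nd (nat_lit 78) (nat_lit 0) (nat_lit 0) (XT.lf (nat_lit 0) (nat_lit 1724757498989) (nat_lit 152) (nat_lit 9084803031970) (nat_lit 0) (nat_lit 1061657988646) (nat_lit 2) (nat_lit 5) (nat_lit 4) (nat_lit 4) (nat_lit 2) (nat_lit 4) (nat_lit 286) (nat_lit 252) (nat_lit 122)) (XT.lf (nat_lit 0) (nat_lit 2627557216859) (nat_lit 152) (nat_lit 8947696278055) (nat_lit 0) (nat_lit 1964457705404) (nat_lit 2) (nat_lit 5) (nat_lit 4) (nat_lit 4) (nat_lit 2) (nat_lit 4) (nat_lit 287) (nat_lit 252) (nat_lit 121))) (XT.nd (nat_lit 78) (nat_lit 0) (nat_lit 0) (XT.lf (nat_lit 0) (nat_lit 3665776890076) (nat_lit 152) (nat_lit 8790023515757) (nat_lit 0) (nat_lit 3002677377654) (nat_lit 2) (nat_lit 5) (nat_lit 4) (nat_lit 4) (nat_lit 2) (nat_lit 4) (nat_lit 288) (nat_lit 252) (nat_lit 120)) (XT.nd (nat_lit 78) (nat_lit 0) (nat_lit 0) (XT.lf (nat_lit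 0) (nat_lit 4859729512249) (nat_lit 152) (nat_lit 8608699843205) (nat_lit 0) (nat_lit 4196629998986) (nat_lit 2) (nat_lit 5) (nat_lit 4) (nat_lit 4) (nat_lit 2) (nat_lit 4) (nat_lit 289) (nat_lit 252) (nat_lit 119)) (XT.lf (nat_lit 0) (nat_lit 6232775025984) (nat_lit 152) (nat_lit 8400177623326) (nat_lit 0) (nat_lit 5569675511990) (nat_lit 2) (nat_lit 5) (nat_lit 4) (nat_lit 4) (nat_lit 2) (nat_lit 4) (nat_lit 290) (nat_lit 252) (nat_lit 118))))))))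
noncomputable def xc108 : XT := (XT.nd (nat_lit 32292) (nat_lit 0) (nat_lit 152) (XT.nd (nat_lit 31590) (nat_lit 0) (nat_lit 988) (XT.nd (nat_lit 312) (nat_lit 0) (nat_lit 0) (XT.nd (nat_lit 156) (nat_lit 0) (nat_lit 0) (XT.nd (nat_lit 78) (nat_lit 0) (nat_lit 0) (XT.lf (nat_lit 0) (nat_lit 7811777365247) (nat_lit 152) (nat_lit 8160377073558) (nat_lit 0) (nat_lit 7148677850616) (nat_lit 2) (nat_lit 5) (nat_lit 4) (nat_lit 4) (nat_lit 2) (nat_lit 4) (nat_lit 291) (nat_lit 252) (nat_lit 117)) (XT.lf (nat_lit 0) (nat_lit 9627630054065) (nat_lit 152) (nat_lit 7884606444015) (nat_lit 0) (nat_lit 8964530538881) (nat_lit 2) (nat_lit 5) (nat_lit 4) (nat_lit 4) (nat_lit 2) (nat_lit 4) (nat_lit 292) (nat_lit 252) (nat_lit 116))) (XT.nd (nat_lit 78) (nat_lit 0) (nat_lit 0) (XT.lf (nat_lit 0) (nat_lit 11715860645047) (nat_lit 152) (nat_lit 7567470222379) (nat_lit 0) (nat_lit 11052761129382) (nat_lit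 2) (nat_lit 5) (nat_lit 4) (nat_lit 4) (nat_lit 2) (nat_lit 4) (nat_lit 293) (nat_lit 252) (nat_lit 115)) (XT.lf (nat_lit 0) (nat_lit 14117325823668) (nat_lit 152) (nat_lit 7202763569531) (nat_lit 0) (nat_lit 13454226307585) (nat_lit 2) (nat_lit 5) (nat_lit 4) (nat_lit 4) (nat_lit 2) (nat_lit 4) (nat_lit 294) (nat_lit 252) (nat_lit 114)))) (XT.nd (nat_lit 156) (nat_lit 0) (nat_lit 0) (XT.nd (nat_lit 78) (nat_lit 0) (nat_lit 0) (XT.lf (nat_lit 0) (nat_lit 16879010778205) (nat_lit 152) (nat_lit 6783350920524) (nat_lit 0) (nat_lit 16215911261758) (nat_lit 2) (nat_lit 5) (nat_lit 4) (nat_lit 4) (nat_lit 2) (nat_lit 4) (nat_lit 295) (nat_lit 252) (nat_lit 113)) (XT.lf (nat_lit 0) (nat_lit 20054948475160) (nat_lit 152) (nat_lit 6301026375704) (nat_lit 0) (nat_lit 19391848958398) (nat_lit 2) (nat_lit 5) (nat_lit 4) (nat_lit 4) (nat_lit 2) (nat_lit 4) (nat_lit 296) (nat_lit 252) (nat_lit 112)))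 (XT.nd (nat_lit 30966) (nat_lit 0) (nat_lit 1368) (XT.lf (nat_lit 0) (nat_lit 23707276825996) (nat_lit 152) (nat_lit 5746353150498) (nat_lit 0) (nat_lit 23044177308958) (nat_lit 2) (nat_lit 5) (nat_lit 4) (nat_lit 4) (nat_lit 2) (nat_lit 4) (nat_lit 297) (nat_lit 252) (nat_lit 111)) (XT.nd (nat_lit 78) (nat_lit 0) (nat_lit 0) (XT.lf (nat_lit 0) (nat_lit 23761105916) (nat_lit 380) (nat_lit 90774964629) (nat_lit 380) (nat_lit 90774964629) (nat_lit 20) (nat_lit 3) (nat_lit 25) (nat_lit 3) (nat_lit 25) (nat_lit 5) (nat_lit 253) (nat_lit 253) (nat_lit 154)) (XT.lf (nat_lit 76) (nat_lit 6618836729) (nat_lit 0) (nat_lit 44741962595) (nat_lit 380) (nat_lit 390016761288) (nat_lit 21) (nat_lit 5) (nat_lit 20) (nat_lit 3) (nat_lit 25) (nat_lit 5) (nat_lit 254) (nat_lit 253) (nat_lit 153)))))) (XT.nd (nat_lit 312) (nat_lit 456) (nat_lit 0) (XT.nd (nat_lit 156) (nat_lit 0) (nat_lit 76) (XT.nd (nat_lit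 78) (nat_lit 0) (nat_lit 0) (XT.lf (nat_lit 0) (nat_lit 72642090277) (nat_lit 304) (nat_lit 239283122611) (nat_lit 380) (nat_lit 162291124540) (nat_lit 21) (nat_lit 5) (nat_lit 25) (nat_lit 5) (nat_lit 26) (nat_lit 5) (nat_lit 255) (nat_lit 253) (nat_lit 152)) (XT.lf (nat_lit 0) (nat_lit 99246089836) (nat_lit 304) (nat_lit 16616794609) (nat_lit 380) (nat_lit 395798469351) (nat_lit 21) (nat_lit 5) (nat_lit 25) (nat_lit 5) (nat_lit 26) (nat_lit 5) (nat_lit 256) (nat_lit 253) (nat_lit 151))) (XT.nd (nat_lit 78) (nat_lit 0) (nat_lit 0) (XT.lf (nat_lit 0) (nat_lit 145781663057) (nat_lit 304) (nat_lit 295297290105) (nat_lit 76) (nat_lit 111253023639) (nat_lit 22) (nat_lit 5) (nat_lit 26) (nat_lit 5) (nat_lit 23) (nat_lit 5) (nat_lit 257) (nat_lit 253) (nat_lit 150)) (XT.lf (nat_lit 0) (nat_lit 205724777210) (nat_lit 304) (nat_lit 30930196794) (nat_lit 76) (nat_lit 361484138717) (nat_lit 22)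 (nat_lit 5) (nat_lit 26) (nat_lit 5) (nat_lit 23) (nat_lit 5) (nat_lit 258) (nat_lit 253) (nat_lit 149)))) (XT.nd (nat_lit 156) (nat_lit 228) (nat_lit 0) (XT.nd (nat_lit 78) (nat_lit 0) (nat_lit 0) (XT.lf (nat_lit 0) (nat_lit 287598796102) (nat_lit 380) (nat_lit 349701088096) (nat_lit 76) (nat_lit 11576519370) (nat_lit 18) (nat_lit 5) (nat_lit 23) (nat_lit 5) (nat_lit 19) (nat_lit 5) (nat_lit 259) (nat_lit 253) (nat_lit 148)) (XT.lf (nat_lit 0) (nat_lit 394716965015) (nat_lit 380) (nat_lit 36055296516) (nat_lit 76) (nat_lit 274507569589) (nat_lit 18) (nat_lit 5) (nat_lit 23) (nat_lit 5) (nat_lit 19) (nat_lit 5) (nat_lit 260) (nat_lit 253) (nat_lit 147))) (XT.nd (nat_lit 78) (nat_lit 76) (nat_lit 0) (XT.lf (nat_lit 0) (nat_lit 356363248819) (nat_lit 152) (nat_lit 176295823258) (nat_lit 228) (nat_lit 235271268943) (nat_lit 16) (nat_lit 5) (nat_lit 18) (nat_lit 5) (nat_lit 19) (nat_lit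 5) (nat_lit 261) (nat_lit 253) (nat_lit 146)) (XT.nd (nat_lit 78) (nat_lit 76) (nat_lit 0) (XT.lf (nat_lit 0) (nat_lit 698084816208) (nat_lit 228) (nat_lit 32906698985) (nat_lit 76) (nat_lit 107968064179) (nat_lit 16) (nat_lit 5) (nat_lit 19) (nat_lit 5) (nat_lit 17) (nat_lit 4) (nat_lit 262) (nat_lit 253) (nat_lit 145)) (XT.lf (nat_lit 0) (nat_lit 432677636220) (nat_lit 76) (nat_lit 481958059475) (nat_lit 152) (nat_lit 2060816824) (nat_lit 15) (nat_lit 5) (nat_lit 16) (nat_lit 5) (nat_lit 17) (nat_lit 4) (nat_lit 263) (nat_lit 253) (nat_lit 144))))))) (XT.nd (nat_lit 702) (nat_lit 304) (nat_lit 0) (XT.nd (nat_lit 312) (nat_lit 228) (nat_lit 0) (XT.nd (nat_lit 156) (nat_lit 76) (nat_lit 0) (XT.nd (nat_lit 78) (nat_lit 152) (nat_lit 0) (XT.lf (nat_lit 0) (nat_lit 145348796084) (nat_lit 152) (nat_lit 40644879574) (nat_lit 76) (nat_lit 818851280402) (nat_lit 14) (nat_lit 5) (nat_lit 16)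 (nat_lit 5) (nat_lit 15) (nat_lit 5) (nat_lit 264) (nat_lit 253) (nat_lit 143)) (XT.lf (nat_lit 0) (nat_lit 343395315462) (nat_lit 228) (nat_lit 595429810942) (nat_lit 76) (nat_lit 163065351739) (nat_lit 12) (nat_lit 5) (nat_lit 15) (nat_lit 5) (nat_lit 13) (nat_lit 4) (nat_lit 265) (nat_lit 253) (nat_lit 142))) (XT.nd (nat_lit 78) (nat_lit 76) (nat_lit 0) (XT.lf (nat_lit 0) (nat_lit 582231426498) (nat_lit 228) (nat_lit 81932204056) (nat_lit 76) (nat_lit 547666805979) (nat_lit 12) (nat_lit 5) (nat_lit 15) (nat_lit 5) (nat_lit 13) (nat_lit 4) (nat_lit 266) (nat_lit 253) (nat_lit 141)) (XT.lf (nat_lit 0) (nat_lit 558293132655) (nat_lit 76) (nat_lit 321717533099) (nat_lit 152) (nat_lit 454783066245) (nat_lit 11) (nat_lit 5) (nat_lit 12) (nat_lit 5) (nat_lit 13) (nat_lit 4) (nat_lit 267) (nat_lit 253) (nat_lit 140)))) (XT.nd (nat_lit 156) (nat_lit 76) (nat_lit 0) (XT.nd (nat_lit 78) (nat_lit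 152) (nat_lit 0) (XT.lf (nat_lit 0) (nat_lit 1229928858689) (nat_lit 152) (nat_lit 174988057581) (nat_lit 0) (nat_lit 70163795390) (nat_lit 11) (nat_lit 5) (nat_lit 13) (nat_lit 4) (nat_lit 11) (nat_lit 4) (nat_lit 268) (nat_lit 253) (nat_lit 139)) (XT.lf (nat_lit 0) (nat_lit 36213987078) (nat_lit 152) (nat_lit 1081905009287) (nat_lit 76) (nat_lit 512327997222) (nat_lit 9) (nat_lit 5) (nat_lit 11) (nat_lit 5) (nat_lit 10) (nat_lit 4) (nat_lit 269) (nat_lit 253) (nat_lit 138))) (XT.nd (nat_lit 78) (nat_lit 76) (nat_lit 0) (XT.lf (nat_lit 0) (nat_lit 344268488762) (nat_lit 152) (nat_lit 419587846497) (nat_lit 76) (nat_lit 1042073398035) (nat_lit 9) (nat_lit 5) (nat_lit 11) (nat_lit 5) (nat_lit 10) (nat_lit 4) (nat_lit 270) (nat_lit 253) (nat_lit 137)) (XT.nd (nat_lit 78) (nat_lit 0) (nat_lit 0) (XT.lf (nat_lit 0) (nat_lit 375507109403) (nat_lit 76) (nat_lit 338572993157) (nat_lit 152)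 (nat_lit 1291322440895) (nat_lit 8) (nat_lit 5) (nat_lit 9) (nat_lit 5) (nat_lit 10) (nat_lit 4) (nat_lit 271) (nat_lit 253) (nat_lit 136)) (XT.lf (nat_lit 0) (nat_lit 1168572878776) (nat_lit 152) (nat_lit 901760515926) (nat_lit 0) (nat_lit 160081467408) (nat_lit 8) (nat_lit 5) (nat_lit 10) (nat_lit 4) (nat_lit 8) (nat_lit 4) (nat_lit 272) (nat_lit 253) (nat_lit 135)))))) (XT.nd (nat_lit 312) (nat_lit 76) (nat_lit 0) (XT.nd (nat_lit 156) (nat_lit 152) (nat_lit 0) (XT.nd (nat_lit 78) (nat_lit 76) (nat_lit 0) (XT.lf (nat_lit 0) (nat_lit 1707362084973) (nat_lit 152) (nat_lit 80527902021) (nat_lit 0) (nat_lit 698870664554) (nat_lit 8) (nat_lit 5) (nat_lit 10) (nat_lit 4) (nat_lit 8) (nat_lit 4) (nat_lit 273) (nat_lit 253) (nat_lit 134)) (XT.lf (nat_lit 0) (nat_lit 948315161283) (nat_lit 76) (nat_lit 1417922210721) (nat_lit 76) (nat_lit 409430782431) (nat_lit 7) (nat_lit 4) (nat_lit 8) (nat_lit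 5) (nat_lit 8) (nat_lit 4) (nat_lit 274) (nat_lit 253) (nat_lit 133))) (XT.nd (nat_lit 78) (nat_lit 76) (nat_lit 0) (XT.lf (nat_lit 0) (nat_lit 19014727510) (nat_lit 152) (nat_lit 967609770986) (nat_lit 76) (nat_lit 2120526227667) (nat_lit 6) (nat_lit 5) (nat_lit 8) (nat_lit 5) (nat_lit 7) (nat_lit 4) (nat_lit 275) (nat_lit 253) (nat_lit 132)) (XT.lf (nat_lit 0) (nat_lit 1754405863) (nat_lit 76) (nat_lit 468127383415) (nat_lit 152) (nat_lit 3015538492978) (nat_lit 5) (nat_lit 5) (nat_lit 6) (nat_lit 5) (nat_lit 7) (nat_lit 4) (nat_lit 276) (nat_lit 253) (nat_lit 131)))) (XT.nd (nat_lit 156) (nat_lit 76) (nat_lit 0) (XT.nd (nat_lit 78) (nat_lit 0) (nat_lit 0) (XT.lf (nat_lit 0) (nat_lit 1046673239303) (nat_lit 152) (nat_lit 2695288727522) (nat_lit 0) (nat_lit 169724155598) (nat_lit 5) (nat_lit 5) (nat_lit 7) (nat_lit 4) (nat_lit 5) (nat_lit 4) (nat_lit 277) (nat_lit 253) (nat_lit 130))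 (XT.lf (nat_lit 0) (nat_lit 1732275180662) (nat_lit 152) (nat_lit 1810946798845) (nat_lit 0) (nat_lit 855326093043) (nat_lit 5) (nat_lit 5) (nat_lit 7) (nat_lit 4) (nat_lit 5) (nat_lit 4) (nat_lit 278) (nat_lit 253) (nat_lit 129))) (XT.nd (nat_lit 78) (nat_lit 76) (nat_lit 0) (XT.lf (nat_lit 0) (nat_lit 2520717407716) (nat_lit 152) (nat_lit 793953591618) (nat_lit 0) (nat_lit 1643768316695) (nat_lit 5) (nat_lit 5) (nat_lit 7) (nat_lit 4) (nat_lit 5) (nat_lit 4) (nat_lit 279) (nat_lit 253) (nat_lit 128)) (XT.nd (nat_lit 78) (nat_lit 0) (nat_lit 0) (XT.lf (nat_lit 0) (nat_lit 412293835653) (nat_lit 76) (nat_lit 3032204336902) (nat_lit 76) (nat_lit 2155255242922) (nat_lit 4) (nat_lit 4) (nat_lit 5) (nat_lit 5) (nat_lit 5) (nat_lit 4) (nat_lit 280) (nat_lit 253) (nat_lit 127)) (XT.lf (nat_lit 0) (nat_lit 1888707925151) (nat_lit 76) (nat_lit 2659640241998) (nat_lit 76) (nat_lit 1782691145445)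 (nat_lit 4) (nat_lit 4) (nat_lit 5) (nat_lit 5) (nat_lit 5) (nat_lit 4) (nat_lit 281) (nat_lit 253) (nat_lit 126))))))))
noncomputable def xc109 : XT := (XT.nd (nat_lit 32448) (nat_lit 0) (nat_lit 456) (XT.nd (nat_lit 702) (nat_lit 0) (nat_lit 0) (XT.nd (nat_lit 312) (nat_lit 76) (nat_lit 0) (XT.nd (nat_lit 156) (nat_lit 76) (nat_lit 0) (XT.nd (nat_lit 78) (nat_lit 0) (nat_lit 0) (XT.lf (nat_lit 0) (nat_lit 3586584120313) (nat_lit 76) (nat_lit 2231191536676) (nat_lit 76) (nat_lit 1354242437885) (nat_lit 4) (nat_lit 4) (nat_lit 5) (nat_lit 5) (nat_lit 5) (nat_lit 4) (nat_lit 282) (nat_lit 253) (nat_lit 125)) (XT.lf (nat_lit 0) (nat_lit 5539141738003) (nat_lit 76) (nat_lit 1738475528874) (nat_lit 76) (nat_lit 861526428138) (nat_lit 4) (nat_lit 4) (nat_lit 5) (nat_lit 5) (nat_lit 5) (nat_lit 4) (nat_lit 283) (nat_lit 253) (nat_lit 124))) (XT.nd (nat_lit 78) (nat_lit 76) (nat_lit 0) (XT.lf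 (nat_lit 0) (nat_lit 7784582992479) (nat_lit 76) (nat_lit 1171852122788) (nat_lit 76) (nat_lit 294903020360) (nat_lit 4) (nat_lit 4) (nat_lit 5) (nat_lit 5) (nat_lit 5) (nat_lit 4) (nat_lit 284) (nat_lit 253) (nat_lit 123)) (XT.lf (nat_lit 0) (nat_lit 324956757895) (nat_lit 152) (nat_lit 178292074423) (nat_lit 76) (nat_lit 10024897296148) (nat_lit 3) (nat_lit 5) (nat_lit 5) (nat_lit 5) (nat_lit 4) (nat_lit 4) (nat_lit 285) (nat_lit 253) (nat_lit 122)))) (XT.nd (nat_lit 156) (nat_lit 0) (nat_lit 0) (XT.nd (nat_lit 78) (nat_lit 0) (nat_lit 0) (XT.lf (nat_lit 0) (nat_lit 1080671432162) (nat_lit 152) (nat_lit 10584630187844) (nat_lit 0) (nat_lit 318106992877) (nat_lit 2) (nat_lit 5) (nat_lit 4) (nat_lit 4) (nat_lit 2) (nat_lit 4) (nat_lit 286) (nat_lit 253) (nat_lit 121)) (XT.lf (nat_lit 0) (nat_lit 1983471148947) (nat_lit 152) (nat_lit 10447523436117) (nat_lit 0) (nat_lit 1220906708694)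 (nat_lit 2) (nat_lit 5) (nat_lit 4) (nat_lit 4) (nat_lit 2) (nat_lit 4) (nat_lit 287) (nat_lit 253) (nat_lit 120))) (XT.nd (nat_lit 78) (nat_lit 0) (nat_lit 0) (XT.lf (nat_lit 0) (nat_lit 3021690821222) (nat_lit 152) (nat_lit 10289850675721) (nat_lit 0) (nat_lit 2259126380128) (nat_lit 2) (nat_lit 5) (nat_lit 4) (nat_lit 4) (nat_lit 2) (nat_lit 4) (nat_lit 288) (nat_lit 253) (nat_lit 119)) (XT.nd (nat_lit 78) (nat_lit 0) (nat_lit 0) (XT.lf (nat_lit 0) (nat_lit 4215643442574) (nat_lit 152) (nat_lit 10108527004823) (nat_lit 0) (nat_lit 3453079000749) (nat_lit 2) (nat_lit 5) (nat_lit 4) (nat_lit 4) (nat_lit 2) (nat_lit 4) (nat_lit 289) (nat_lit 253) (nat_lit 118)) (XT.lf (nat_lit 0) (nat_lit 5588688955597) (nat_lit 152) (nat_lit 9900004786383) (nat_lit 0) (nat_lit 4826124513135) (nat_lit 2) (nat_lit 5) (nat_lit 4) (nat_lit 4) (nat_lit 2) (nat_lit 4) (nat_lit 290) (nat_lit 253) (nat_lit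 117)))))) (XT.nd (nat_lit 312) (nat_lit 0) (nat_lit 0) (XT.nd (nat_lit 156) (nat_lit 0) (nat_lit 0) (XT.nd (nat_lit 78) (nat_lit 0) (nat_lit 0) (XT.lf (nat_lit 0) (nat_lit 7167691294239) (nat_lit 152) (nat_lit 9660204237866) (nat_lit 0) (nat_lit 6405126851224) (nat_lit 2) (nat_lit 5) (nat_lit 4) (nat_lit 4) (nat_lit 2) (nat_lit 4) (nat_lit 291) (nat_lit 253) (nat_lit 116)) (XT.lf (nat_lit 0) (nat_lit 8983543982518) (nat_lit 152) (nat_lit 9384433609411) (nat_lit 0) (nat_lit 8220979539022) (nat_lit 2) (nat_lit 5) (nat_lit 4) (nat_lit 4) (nat_lit 2) (nat_lit 4) (nat_lit 292) (nat_lit 253) (nat_lit 115))) (XT.nd (nat_lit 78) (nat_lit 0) (nat_lit 0) (XT.lf (nat_lit 0) (nat_lit 11071774573031) (nat_lit 152) (nat_lit 9067297388721) (nat_lit 0) (nat_lit 10309210129117) (nat_lit 2) (nat_lit 5) (nat_lit 4) (nat_lit 4) (nat_lit 2) (nat_lit 4) (nat_lit 293) (nat_lit 253) (nat_lit 114)) (XT.lf (nat_lit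 0) (nat_lit 13473239751244) (nat_lit 152) (nat_lit 8702590736695) (nat_lit 0) (nat_lit 12710675306966) (nat_lit 2) (nat_lit 5) (nat_lit 4) (nat_lit 4) (nat_lit 2) (nat_lit 4) (nat_lit 294) (nat_lit 253) (nat_lit 113)))) (XT.nd (nat_lit 31200) (nat_lit 0) (nat_lit 1368) (XT.nd (nat_lit 78) (nat_lit 0) (nat_lit 0) (XT.lf (nat_lit 0) (nat_lit 16234924705426) (nat_lit 152) (nat_lit 8283178088403) (nat_lit 0) (nat_lit 15472360260833) (nat_lit 2) (nat_lit 5) (nat_lit 4) (nat_lit 4) (nat_lit 2) (nat_lit 4) (nat_lit 295) (nat_lit 253) (nat_lit 112)) (XT.lf (nat_lit 0) (nat_lit 19410862402073) (nat_lit 152) (nat_lit 7800853544205) (nat_lit 0) (nat_lit 18648297957205) (nat_lit 2) (nat_lit 5) (nat_lit 4) (nat_lit 4) (nat_lit 2) (nat_lit 4) (nat_lit 296) (nat_lit 253) (nat_lit 111))) (XT.nd (nat_lit 78) (nat_lit 0) (nat_lit 0) (XT.lf (nat_lit 0) (nat_lit 27325607013) (nat_lit 380) (nat_lit 104391015728)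 (nat_lit 380) (nat_lit 104391015728) (nat_lit 20) (nat_lit 3) (nat_lit 25) (nat_lit 3) (nat_lit 25) (nat_lit 5) (nat_lit 254) (nat_lit 254) (nat_lit 152)) (XT.nd (nat_lit 78) (nat_lit 0) (nat_lit 76) (XT.lf (nat_lit 76) (nat_lit 7612031830) (nat_lit 0) (nat_lit 51453485670) (nat_lit 380) (nat_lit 448518584505) (nat_lit 21) (nat_lit 5) (nat_lit 20) (nat_lit 3) (nat_lit 25) (nat_lit 5) (nat_lit 255) (nat_lit 254) (nat_lit 151)) (XT.lf (nat_lit 0) (nat_lit 83538915826) (nat_lit 304) (nat_lit 275175180777) (nat_lit 380) (nat_lit 186634612067) (nat_lit 21) (nat_lit 5) (nat_lit 25) (nat_lit 5) (nat_lit 26) (nat_lit 5) (nat_lit 256) (nat_lit 254) (nat_lit 150))))))) (XT.nd (nat_lit 702) (nat_lit 456) (nat_lit 0) (XT.nd (nat_lit 312) (nat_lit 304) (nat_lit 0) (XT.nd (nat_lit 156) (nat_lit 228) (nat_lit 0) (XT.nd (nat_lit 78) (nat_lit 0) (nat_lit 76) (XT.lf (nat_lit 0) (nat_lit 114133448536)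 (nat_lit 304) (nat_lit 19108957083) (nat_lit 380) (nat_lit 455168082229) (nat_lit 21) (nat_lit 5) (nat_lit 25) (nat_lit 5) (nat_lit 26) (nat_lit 5) (nat_lit 257) (nat_lit 254) (nat_lit 149)) (XT.lf (nat_lit 0) (nat_lit 167649311251) (nat_lit 304) (nat_lit 339591478470) (nat_lit 76) (nat_lit 127940921846) (nat_lit 22) (nat_lit 5) (nat_lit 26) (nat_lit 5) (nat_lit 23) (nat_lit 5) (nat_lit 258) (nat_lit 254) (nat_lit 148))) (XT.nd (nat_lit 78) (nat_lit 304) (nat_lit 0) (XT.lf (nat_lit 0) (nat_lit 236583840518) (nat_lit 304) (nat_lit 35569374008) (nat_lit 76) (nat_lit 415706711404) (nat_lit 22) (nat_lit 5) (nat_lit 26) (nat_lit 5) (nat_lit 23) (nat_lit 5) (nat_lit 259) (nat_lit 254) (nat_lit 147)) (XT.lf (nat_lit 0) (nat_lit 330738931808) (nat_lit 380) (nat_lit 402155867099) (nat_lit 76) (nat_lit 13313016283) (nat_lit 18) (nat_lit 5) (nat_lit 23) (nat_lit 5) (nat_lit 19) (nat_lit 5) (nat_lit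 260) (nat_lit 254) (nat_lit 146)))) (XT.nd (nat_lit 156) (nat_lit 152) (nat_lit 0) (XT.nd (nat_lit 78) (nat_lit 152) (nat_lit 0) (XT.lf (nat_lit 0) (nat_lit 453924784803) (nat_lit 380) (nat_lit 41463256897) (nat_lit 76) (nat_lit 315683721555) (nat_lit 18) (nat_lit 5) (nat_lit 23) (nat_lit 5) (nat_lit 19) (nat_lit 5) (nat_lit 261) (nat_lit 254) (nat_lit 145)) (XT.lf (nat_lit 0) (nat_lit 409818055053) (nat_lit 152) (nat_lit 202740130202) (nat_lit 228) (nat_lit 270561667951) (nat_lit 16) (nat_lit 5) (nat_lit 18) (nat_lit 5) (nat_lit 19) (nat_lit 5) (nat_lit 262) (nat_lit 254) (nat_lit 144))) (XT.nd (nat_lit 78) (nat_lit 152) (nat_lit 0) (XT.lf (nat_lit 0) (nat_lit 802797760484) (nat_lit 228) (nat_lit 37842395031) (nat_lit 76) (nat_lit 124163326519) (nat_lit 16) (nat_lit 5) (nat_lit 19) (nat_lit 5) (nat_lit 17) (nat_lit 4) (nat_lit 263) (nat_lit 254) (nat_lit 143)) (XT.nd (nat_lit 78) (nat_lit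 76) (nat_lit 0) (XT.lf (nat_lit 0) (nat_lit 497579576418) (nat_lit 76) (nat_lit 554251678745) (nat_lit 152) (nat_lit 2369702626) (nat_lit 15) (nat_lit 5) (nat_lit 16) (nat_lit 5) (nat_lit 17) (nat_lit 4) (nat_lit 264) (nat_lit 254) (nat_lit 142)) (XT.lf (nat_lit 0) (nat_lit 167151303017) (nat_lit 152) (nat_lit 46741336232) (nat_lit 76) (nat_lit 941679031458) (nat_lit 14) (nat_lit 5) (nat_lit 16) (nat_lit 5) (nat_lit 15) (nat_lit 5) (nat_lit 265) (nat_lit 254) (nat_lit 141)))))) (XT.nd (nat_lit 312) (nat_lit 228) (nat_lit 0) (XT.nd (nat_lit 156) (nat_lit 76) (nat_lit 0) (XT.nd (nat_lit 78) (nat_lit 0) (nat_lit 0) (XT.lf (nat_lit 0) (nat_lit 394904790400) (nat_lit 228) (nat_lit 684743996851) (nat_lit 76) (nat_lit 187525235417) (nat_lit 12) (nat_lit 5) (nat_lit 15) (nat_lit 5) (nat_lit 13) (nat_lit 4) (nat_lit 266) (nat_lit 254) (nat_lit 140)) (XT.lf (nat_lit 0) (nat_lit 669566294924) (nat_lit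 228) (nat_lit 94221786202) (nat_lit 76) (nat_lit 629816897239) (nat_lit 12) (nat_lit 5) (nat_lit 15) (nat_lit 5) (nat_lit 13) (nat_lit 4) (nat_lit 267) (nat_lit 254) (nat_lit 139))) (XT.nd (nat_lit 78) (nat_lit 0) (nat_lit 0) (XT.lf (nat_lit 0) (nat_lit 642037339721) (nat_lit 76) (nat_lit 369975070021) (nat_lit 152) (nat_lit 523000360019) (nat_lit 11) (nat_lit 5) (nat_lit 12) (nat_lit 5) (nat_lit 13) (nat_lit 4) (nat_lit 268) (nat_lit 254) (nat_lit 138)) (XT.lf (nat_lit 0) (nat_lit 1414418316170) (nat_lit 152) (nat_lit 201236044173) (nat_lit 0) (nat_lit 80688438402) (nat_lit 11) (nat_lit 5) (nat_lit 13) (nat_lit 4) (nat_lit 11) (nat_lit 4) (nat_lit 269) (nat_lit 254) (nat_lit 137)))) (XT.nd (nat_lit 156) (nat_lit 76) (nat_lit 0) (XT.nd (nat_lit 78) (nat_lit 0) (nat_lit 0) (XT.lf (nat_lit 0) (nat_lit 41646211843) (nat_lit 152) (nat_lit 1244190536070) (nat_lit 76) (nat_lit 589177275431)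 (nat_lit 9) (nat_lit 5) (nat_lit 11) (nat_lit 5) (nat_lit 10) (nat_lit 4) (nat_lit 270) (nat_lit 254) (nat_lit 136)) (XT.lf (nat_lit 0) (nat_lit 395908872253) (nat_lit 152) (nat_lit 482525828159) (nat_lit 76) (nat_lit 1198384476111) (nat_lit 9) (nat_lit 5) (nat_lit 11) (nat_lit 5) (nat_lit 10) (nat_lit 4) (nat_lit 271) (nat_lit 254) (nat_lit 135))) (XT.nd (nat_lit 78) (nat_lit 0) (nat_lit 0) (XT.lf (nat_lit 0) (nat_lit 431833362248) (nat_lit 76) (nat_lit 389358859222) (nat_lit 152) (nat_lit 1485020687766) (nat_lit 8) (nat_lit 5) (nat_lit 9) (nat_lit 5) (nat_lit 10) (nat_lit 4) (nat_lit 272) (nat_lit 254) (nat_lit 134)) (XT.nd (nat_lit 78) (nat_lit 0) (nat_lit 0) (XT.lf (nat_lit 0) (nat_lit 1343858903600) (nat_lit 152) (nat_lit 1037024420498) (nat_lit 0) (nat_lit 184093753195) (nat_lit 8) (nat_lit 5) (nat_lit 10) (nat_lit 4) (nat_lit 8) (nat_lit 4) (nat_lit 273) (nat_lit 254) (nat_lit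 133)) (XT.lf (nat_lit 0) (nat_lit 1963466478596) (nat_lit 152) (nat_lit 92606937049) (nat_lit 0) (nat_lit 803701321347) (nat_lit 8) (nat_lit 5) (nat_lit 10) (nat_lit 4) (nat_lit 8) (nat_lit 4) (nat_lit 274) (nat_lit 254) (nat_lit 132))))))))
noncomputable def xc110 : XT := (XT.nd (nat_lit 1404) (nat_lit 76) (nat_lit 0) (XT.nd (nat_lit 702) (nat_lit 152) (nat_lit 0) (XT.nd (nat_lit 312) (nat_lit 76) (nat_lit 0) (XT.nd (nat_lit 156) (nat_lit 76) (nat_lit 0) (XT.nd (nat_lit 78) (nat_lit 76) (nat_lit 0) (XT.lf (nat_lit 0) (nat_lit 1090562578920) (nat_lit 76) (nat_lit 1630610475152) (nat_lit 76) (nat_lit 470845311952) (nat_lit 7) (nat_lit 4) (nat_lit 8) (nat_lit 5) (nat_lit 8) (nat_lit 4) (nat_lit 275) (nat_lit 254) (nat_lit 131)) (XT.lf (nat_lit 0) (nat_lit 21867006223) (nat_lit 152) (nat_lit 1112751104996) (nat_lit 76) (nat_lit 2438605213328) (nat_lit 6) (nat_lit 5) (nat_lit 8) (nat_lit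 5) (nat_lit 7) (nat_lit 4) (nat_lit 276) (nat_lit 254) (nat_lit 130))) (XT.nd (nat_lit 78) (nat_lit 0) (nat_lit 0) (XT.lf (nat_lit 0) (nat_lit 2017692396) (nat_lit 76) (nat_lit 538346430985) (nat_lit 152) (nat_lit 3467869191266) (nat_lit 5) (nat_lit 5) (nat_lit 6) (nat_lit 5) (nat_lit 7) (nat_lit 4) (nat_lit 277) (nat_lit 254) (nat_lit 129)) (XT.lf (nat_lit 0) (nat_lit 1203674284498) (nat_lit 152) (nat_lit 3099581920895) (nat_lit 0) (nat_lit 195182826421) (nat_lit 5) (nat_lit 5) (nat_lit 7) (nat_lit 4) (nat_lit 5) (nat_lit 4) (nat_lit 278) (nat_lit 254) (nat_lit 128)))) (XT.nd (nat_lit 156) (nat_lit 76) (nat_lit 0) (XT.nd (nat_lit 78) (nat_lit 0) (nat_lit 0) (XT.lf (nat_lit 0) (nat_lit 1992116509326) (nat_lit 152) (nat_lit 2082588718015) (nat_lit 0) (nat_lit 983625048289) (nat_lit 5) (nat_lit 5) (nat_lit 7) (nat_lit 4) (nat_lit 5) (nat_lit 4) (nat_lit 279) (nat_lit 254) (nat_lit 127))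 (XT.lf (nat_lit 0) (nat_lit 2898825063713) (nat_lit 152) (nat_lit 913046542833) (nat_lit 0) (nat_lit 1890333600103) (nat_lit 5) (nat_lit 5) (nat_lit 7) (nat_lit 4) (nat_lit 5) (nat_lit 4) (nat_lit 280) (nat_lit 254) (nat_lit 126))) (XT.nd (nat_lit 78) (nat_lit 0) (nat_lit 0) (XT.lf (nat_lit 0) (nat_lit 474137994551) (nat_lit 76) (nat_lit 3487034946338) (nat_lit 76) (nat_lit 2478543480491) (nat_lit 4) (nat_lit 4) (nat_lit 5) (nat_lit 5) (nat_lit 5) (nat_lit 4) (nat_lit 281) (nat_lit 254) (nat_lit 125)) (XT.nd (nat_lit 78) (nat_lit 0) (nat_lit 0) (XT.lf (nat_lit 0) (nat_lit 2172014186575) (nat_lit 76) (nat_lit 3058586242559) (nat_lit 76) (nat_lit 2050094774767) (nat_lit 4) (nat_lit 4) (nat_lit 5) (nat_lit 5) (nat_lit 5) (nat_lit 4) (nat_lit 282) (nat_lit 254) (nat_lit 124)) (XT.lf (nat_lit 0) (nat_lit 4124571801536) (nat_lit 76) (nat_lit 2565870236100) (nat_lit 76) (nat_lit 1557378766616)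 (nat_lit 4) (nat_lit 4) (nat_lit 5) (nat_lit 5) (nat_lit 5) (nat_lit 4) (nat_lit 283) (nat_lit 254) (nat_lit 123)))))) (XT.nd (nat_lit 312) (nat_lit 0) (nat_lit 0) (XT.nd (nat_lit 156) (nat_lit 152) (nat_lit 0) (XT.nd (nat_lit 78) (nat_lit 0) (nat_lit 0) (XT.lf (nat_lit 0) (nat_lit 6370013053639) (nat_lit 76) (nat_lit 1999246831182) (nat_lit 76) (nat_lit 990755360226) (nat_lit 4) (nat_lit 4) (nat_lit 5) (nat_lit 5) (nat_lit 5) (nat_lit 4) (nat_lit 284) (nat_lit 254) (nat_lit 122)) (XT.lf (nat_lit 0) (nat_lit 8952270489120) (nat_lit 76) (nat_lit 1347629917708) (nat_lit 76) (nat_lit 339138445473) (nat_lit 4) (nat_lit 4) (nat_lit 5) (nat_lit 5) (nat_lit 5) (nat_lit 4) (nat_lit 285) (nat_lit 254) (nat_lit 121))) (XT.nd (nat_lit 78) (nat_lit 76) (nat_lit 0) (XT.lf (nat_lit 0) (nat_lit 373700293713) (nat_lit 152) (nat_lit 205035841862) (nat_lit 76) (nat_lit 11528631908818) (nat_lit 3) (nat_lit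 5) (nat_lit 5) (nat_lit 5) (nat_lit 4) (nat_lit 4) (nat_lit 286) (nat_lit 254) (nat_lit 120)) (XT.lf (nat_lit 0) (nat_lit 1242772168821) (nat_lit 152) (nat_lit 12172324671978) (nat_lit 0) (nat_lit 365823060722) (nat_lit 2) (nat_lit 5) (nat_lit 4) (nat_lit 4) (nat_lit 2) (nat_lit 4) (nat_lit 287) (nat_lit 254) (nat_lit 119)))) (XT.nd (nat_lit 156) (nat_lit 0) (nat_lit 0) (XT.nd (nat_lit 78) (nat_lit 0) (nat_lit 0) (XT.lf (nat_lit 0) (nat_lit 2280991840276) (nat_lit 152) (nat_lit 12014651913237) (nat_lit 0) (nat_lit 1404042731445) (nat_lit 2) (nat_lit 5) (nat_lit 4) (nat_lit 4) (nat_lit 2) (nat_lit 4) (nat_lit 288) (nat_lit 254) (nat_lit 118)) (XT.lf (nat_lit 0) (nat_lit 3474944460915) (nat_lit 152) (nat_lit 11833328243777) (nat_lit 0) (nat_lit 2597995351448) (nat_lit 2) (nat_lit 5) (nat_lit 4) (nat_lit 4) (nat_lit 2) (nat_lit 4) (nat_lit 289) (nat_lit 254) (nat_lit 117))) (XT.nd (nat_lit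 78) (nat_lit 0) (nat_lit 0) (XT.lf (nat_lit 0) (nat_lit 4847989973317) (nat_lit 152) (nat_lit 11624806026588) (nat_lit 0) (nat_lit 3971040863297) (nat_lit 2) (nat_lit 5) (nat_lit 4) (nat_lit 4) (nat_lit 2) (nat_lit 4) (nat_lit 290) (nat_lit 254) (nat_lit 116)) (XT.nd (nat_lit 78) (nat_lit 0) (nat_lit 0) (XT.lf (nat_lit 0) (nat_lit 6426992311420) (nat_lit 152) (nat_lit 11385005479159) (nat_lit 0) (nat_lit 5550043200919) (nat_lit 2) (nat_lit 5) (nat_lit 4) (nat_lit 4) (nat_lit 2) (nat_lit 4) (nat_lit 291) (nat_lit 254) (nat_lit 115)) (XT.lf (nat_lit 0) (nat_lit 8242844999230) (nat_lit 152) (nat_lit 11109234851650) (nat_lit 0) (nat_lit 7365895888311) (nat_lit 2) (nat_lit 5) (nat_lit 4) (nat_lit 4) (nat_lit 2) (nat_lit 4) (nat_lit 292) (nat_lit 254) (nat_lit 114))))))) (XT.nd (nat_lit 31902) (nat_lit 0) (nat_lit 760) (XT.nd (nat_lit 31512) (nat_lit 0) (nat_lit 1444) (XT.nd (nat_lit 1014)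 (nat_lit 76) (nat_lit 0) (XT.nd (nat_lit 78) (nat_lit 0) (nat_lit 0) (XT.lf (nat_lit 0) (nat_lit 10331075589335) (nat_lit 152) (nat_lit 10792098631782) (nat_lit 0) (nat_lit 9454126478053) (nat_lit 2) (nat_lit 5) (nat_lit 4) (nat_lit 4) (nat_lit 2) (nat_lit 4) (nat_lit 293) (nat_lit 254) (nat_lit 113)) (XT.lf (nat_lit 0) (nat_lit 12732540767194) (nat_lit 152) (nat_lit 10427391980472) (nat_lit 0) (nat_lit 11855591655595) (nat_lit 2) (nat_lit 5) (nat_lit 4) (nat_lit 4) (nat_lit 2) (nat_lit 4) (nat_lit 294) (nat_lit 254) (nat_lit 112))) (XT.nd (nat_lit 30420) (nat_lit 0) (nat_lit 1444) (XT.lf (nat_lit 0) (nat_lit 1905955348568) (nat_lit 76) (nat_lit 90998975330863) (nat_lit 76) (nat_lit 90122026217551) (nat_lit 1) (nat_lit 4) (nat_lit 2) (nat_lit 5) (nat_lit 2) (nat_lit 4) (nat_lit 306) (nat_lit 254) (nat_lit 100)) (XT.lf (nat_lit 0) (nat_lit 31424701533) (nat_lit 380) (nat_lit 120049521701)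 (nat_lit 380) (nat_lit 120049521701) (nat_lit 20) (nat_lit 3) (nat_lit 25) (nat_lit 3) (nat_lit 25) (nat_lit 5) (nat_lit 255) (nat_lit 255) (nat_lit 150)))) (XT.nd (nat_lit 156) (nat_lit 0) (nat_lit 76) (XT.nd (nat_lit 78) (nat_lit 0) (nat_lit 76) (XT.lf (nat_lit 76) (nat_lit 8754116069) (nat_lit 0) (nat_lit 59171681440) (nat_lit 380) (nat_lit 515795849703) (nat_lit 21) (nat_lit 5) (nat_lit 20) (nat_lit 3) (nat_lit 25) (nat_lit 5) (nat_lit 256) (nat_lit 255) (nat_lit 149)) (XT.lf (nat_lit 0) (nat_lit 96070140352) (nat_lit 304) (nat_lit 316451147704) (nat_lit 380) (nat_lit 214629666899) (nat_lit 21) (nat_lit 5) (nat_lit 25) (nat_lit 5) (nat_lit 26) (nat_lit 5) (nat_lit 257) (nat_lit 255) (nat_lit 148))) (XT.nd (nat_lit 78) (nat_lit 0) (nat_lit 76) (XT.lf (nat_lit 0) (nat_lit 131253802470) (nat_lit 304) (nat_lit 21975030915) (nat_lit 380) (nat_lit 523443175452) (nat_lit 21) (nat_lit 5)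 (nat_lit 25) (nat_lit 5) (nat_lit 26) (nat_lit 5) (nat_lit 258) (nat_lit 255) (nat_lit 147)) (XT.nd (nat_lit 78) (nat_lit 0) (nat_lit 0) (XT.lf (nat_lit 0) (nat_lit 192797009440) (nat_lit 304) (nat_lit 390529893889) (nat_lit 76) (nat_lit 147132018279) (nat_lit 22) (nat_lit 5) (nat_lit 26) (nat_lit 5) (nat_lit 23) (nat_lit 5) (nat_lit 259) (nat_lit 255) (nat_lit 146)) (XT.lf (nat_lit 0) (nat_lit 272071678771) (nat_lit 304) (nat_lit 40904513716) (nat_lit 76) (nat_lit 478062681729) (nat_lit 22) (nat_lit 5) (nat_lit 26) (nat_lit 5) (nat_lit 23) (nat_lit 5) (nat_lit 260) (nat_lit 255) (nat_lit 145)))))) (XT.nd (nat_lit 312) (nat_lit 380) (nat_lit 0) (XT.nd (nat_lit 156) (nat_lit 152) (nat_lit 0) (XT.nd (nat_lit 78) (nat_lit 0) (nat_lit 0) (XT.lf (nat_lit 0) (nat_lit 380350010740) (nat_lit 380) (nat_lit 462478956645) (nat_lit 76) (nat_lit 15309983098) (nat_lit 18) (nat_lit 5) (nat_lit 23)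 (nat_lit 5) (nat_lit 19) (nat_lit 5) (nat_lit 261) (nat_lit 255) (nat_lit 144)) (XT.lf (nat_lit 0) (nat_lit 522013710489) (nat_lit 380) (nat_lit 47682492806) (nat_lit 76) (nat_lit 363036292286) (nat_lit 18) (nat_lit 5) (nat_lit 23) (nat_lit 5) (nat_lit 19) (nat_lit 5) (nat_lit 262) (nat_lit 255) (nat_lit 143))) (XT.nd (nat_lit 78) (nat_lit 0) (nat_lit 0) (XT.lf (nat_lit 0) (nat_lit 471291004453) (nat_lit 152) (nat_lit 233151099416) (nat_lit 228) (nat_lit 311145697855) (nat_lit 16) (nat_lit 5) (nat_lit 18) (nat_lit 5) (nat_lit 19) (nat_lit 5) (nat_lit 263) (nat_lit 255) (nat_lit 142)) (XT.lf (nat_lit 0) (nat_lit 923217592304) (nat_lit 228) (nat_lit 43518520788) (nat_lit 76) (nat_lit 142787865355) (nat_lit 16) (nat_lit 5) (nat_lit 19) (nat_lit 5) (nat_lit 17) (nat_lit 4) (nat_lit 264) (nat_lit 255) (nat_lit 141)))) (XT.nd (nat_lit 156) (nat_lit 228) (nat_lit 0) (XT.nd (nat_lit 78) (nat_lit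 76) (nat_lit 0) (XT.lf (nat_lit 0) (nat_lit 572216735766) (nat_lit 76) (nat_lit 637389362768) (nat_lit 152) (nat_lit 2724979024) (nat_lit 15) (nat_lit 5) (nat_lit 16) (nat_lit 5) (nat_lit 17) (nat_lit 4) (nat_lit 265) (nat_lit 255) (nat_lit 140)) (XT.lf (nat_lit 0) (nat_lit 192224140261) (nat_lit 152) (nat_lit 53752328516) (nat_lit 76) (nat_lit 1082930930786) (nat_lit 14) (nat_lit 5) (nat_lit 16) (nat_lit 5) (nat_lit 15) (nat_lit 5) (nat_lit 266) (nat_lit 255) (nat_lit 139))) (XT.nd (nat_lit 78) (nat_lit 76) (nat_lit 0) (XT.lf (nat_lit 0) (nat_lit 454140643266) (nat_lit 228) (nat_lit 787455380325) (nat_lit 76) (nat_lit 215654081915) (nat_lit 12) (nat_lit 5) (nat_lit 15) (nat_lit 5) (nat_lit 13) (nat_lit 4) (nat_lit 267) (nat_lit 255) (nat_lit 138)) (XT.nd (nat_lit 78) (nat_lit 76) (nat_lit 0) (XT.lf (nat_lit 0) (nat_lit 770001355950) (nat_lit 228) (nat_lit 108354866259) (nat_lit 76)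 (nat_lit 724289485029) (nat_lit 12) (nat_lit 5) (nat_lit 15) (nat_lit 5) (nat_lit 13) (nat_lit 4) (nat_lit 268) (nat_lit 255) (nat_lit 137)) (XT.lf (nat_lit 0) (nat_lit 738343120013) (nat_lit 76) (nat_lit 425471260171) (nat_lit 152) (nat_lit 601450288379) (nat_lit 11) (nat_lit 5) (nat_lit 12) (nat_lit 5) (nat_lit 13) (nat_lit 4) (nat_lit 269) (nat_lit 255) (nat_lit 136))))))))
noncomputable def xc111 : XT := (XT.nd (nat_lit 1404) (nat_lit 76) (nat_lit 0) (XT.nd (nat_lit 702) (nat_lit 152) (nat_lit 0) (XT.nd (nat_lit 312) (nat_lit 228) (nat_lit 0) (XT.nd (nat_lit 156) (nat_lit 76) (nat_lit 0) (XT.nd (nat_lit 78) (nat_lit 152) (nat_lit 0) (XT.lf (nat_lit 0) (nat_lit 1626581160894) (nat_lit 152) (nat_lit 231421282900) (nat_lit 0) (nat_lit 92791759893) (nat_lit 11) (nat_lit 5) (nat_lit 13) (nat_lit 4) (nat_lit 11) (nat_lit 4) (nat_lit 270) (nat_lit 255) (nat_lit 135)) (XT.lf (nat_lit 0)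 (nat_lit 47893239426) (nat_lit 152) (nat_lit 1430818946643) (nat_lit 76) (nat_lit 677553926198) (nat_lit 9) (nat_lit 5) (nat_lit 11) (nat_lit 5) (nat_lit 10) (nat_lit 4) (nat_lit 271) (nat_lit 255) (nat_lit 134))) (XT.nd (nat_lit 78) (nat_lit 76) (nat_lit 0) (XT.lf (nat_lit 0) (nat_lit 455295286401) (nat_lit 152) (nat_lit 554904554698) (nat_lit 76) (nat_lit 1378142199225) (nat_lit 9) (nat_lit 5) (nat_lit 11) (nat_lit 5) (nat_lit 10) (nat_lit 4) (nat_lit 272) (nat_lit 255) (nat_lit 133)) (XT.lf (nat_lit 0) (nat_lit 496608507558) (nat_lit 76) (nat_lit 447762625414) (nat_lit 152) (nat_lit 1707773700751) (nat_lit 8) (nat_lit 5) (nat_lit 9) (nat_lit 5) (nat_lit 10) (nat_lit 4) (nat_lit 273) (nat_lit 255) (nat_lit 132)))) (XT.nd (nat_lit 156) (nat_lit 228) (nat_lit 0) (XT.nd (nat_lit 78) (nat_lit 0) (nat_lit 0) (XT.lf (nat_lit 0) (nat_lit 1545437809468) (nat_lit 152) (nat_lit 1192577952899)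 (nat_lit 0) (nat_lit 211707865836) (nat_lit 8) (nat_lit 5) (nat_lit 10) (nat_lit 4) (nat_lit 8) (nat_lit 4) (nat_lit 274) (nat_lit 255) (nat_lit 131)) (XT.lf (nat_lit 0) (nat_lit 2257986511540) (nat_lit 152) (nat_lit 106497863977) (nat_lit 0) (nat_lit 924256562733) (nat_lit 8) (nat_lit 5) (nat_lit 10) (nat_lit 4) (nat_lit 8) (nat_lit 4) (nat_lit 275) (nat_lit 255) (nat_lit 130))) (XT.nd (nat_lit 78) (nat_lit 152) (nat_lit 0) (XT.lf (nat_lit 0) (nat_lit 1254147074222) (nat_lit 76) (nat_lit 1875201995629) (nat_lit 76) (nat_lit 541472042322) (nat_lit 7) (nat_lit 4) (nat_lit 8) (nat_lit 5) (nat_lit 8) (nat_lit 4) (nat_lit 276) (nat_lit 255) (nat_lit 129)) (XT.nd (nat_lit 78) (nat_lit 76) (nat_lit 0) (XT.lf (nat_lit 0) (nat_lit 25147109773) (nat_lit 152) (nat_lit 1279663671208) (nat_lit 76) (nat_lit 2804396034277) (nat_lit 6) (nat_lit 5) (nat_lit 8) (nat_lit 5) (nat_lit 7) (nat_lit 4) (nat_lit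 277) (nat_lit 255) (nat_lit 128)) (XT.lf (nat_lit 0) (nat_lit 2320441269) (nat_lit 76) (nat_lit 619098350308) (nat_lit 152) (nat_lit 3988049512747) (nat_lit 5) (nat_lit 5) (nat_lit 6) (nat_lit 5) (nat_lit 7) (nat_lit 4) (nat_lit 278) (nat_lit 255) (nat_lit 127)))))) (XT.nd (nat_lit 312) (nat_lit 76) (nat_lit 0) (XT.nd (nat_lit 156) (nat_lit 76) (nat_lit 0) (XT.nd (nat_lit 78) (nat_lit 0) (nat_lit 0) (XT.lf (nat_lit 0) (nat_lit 1384225472012) (nat_lit 152) (nat_lit 3564519121501) (nat_lit 0) (nat_lit 224460286288) (nat_lit 5) (nat_lit 5) (nat_lit 7) (nat_lit 4) (nat_lit 5) (nat_lit 4) (nat_lit 279) (nat_lit 255) (nat_lit 126)) (XT.lf (nat_lit 0) (nat_lit 2290934024715) (nat_lit 152) (nat_lit 2394976949606) (nat_lit 0) (nat_lit 1131168836754) (nat_lit 5) (nat_lit 5) (nat_lit 7) (nat_lit 4) (nat_lit 5) (nat_lit 4) (nat_lit 280) (nat_lit 255) (nat_lit 125))) (XT.nd (nat_lit 78) (nat_lit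 76) (nat_lit 0) (XT.lf (nat_lit 0) (nat_lit 3333648857174) (nat_lit 152) (nat_lit 1050003458074) (nat_lit 0) (nat_lit 2173883667267) (nat_lit 5) (nat_lit 5) (nat_lit 7) (nat_lit 4) (nat_lit 5) (nat_lit 4) (nat_lit 281) (nat_lit 255) (nat_lit 124)) (XT.lf (nat_lit 0) (nat_lit 545258756909) (nat_lit 76) (nat_lit 4010090157212) (nat_lit 76) (nat_lit 2850324965613) (nat_lit 4) (nat_lit 4) (nat_lit 5) (nat_lit 5) (nat_lit 5) (nat_lit 4) (nat_lit 282) (nat_lit 255) (nat_lit 123)))) (XT.nd (nat_lit 156) (nat_lit 76) (nat_lit 0) (XT.nd (nat_lit 78) (nat_lit 0) (nat_lit 0) (XT.lf (nat_lit 0) (nat_lit 2497816369496) (nat_lit 76) (nat_lit 3517374151920) (nat_lit 76) (nat_lit 2357608958850) (nat_lit 4) (nat_lit 4) (nat_lit 5) (nat_lit 5) (nat_lit 5) (nat_lit 4) (nat_lit 283) (nat_lit 255) (nat_lit 122)) (XT.lf (nat_lit 0) (nat_lit 4743257619536) (nat_lit 76) (nat_lit 2950750748016) (nat_lit 76)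 (nat_lit 1790985553668) (nat_lit 4) (nat_lit 4) (nat_lit 5) (nat_lit 5) (nat_lit 5) (nat_lit 4) (nat_lit 284) (nat_lit 255) (nat_lit 121))) (XT.nd (nat_lit 78) (nat_lit 76) (nat_lit 0) (XT.lf (nat_lit 0) (nat_lit 7325515053223) (nat_lit 76) (nat_lit 2299133835425) (nat_lit 76) (nat_lit 1139368639964) (nat_lit 4) (nat_lit 4) (nat_lit 5) (nat_lit 5) (nat_lit 5) (nat_lit 4) (nat_lit 285) (nat_lit 255) (nat_lit 120)) (XT.nd (nat_lit 78) (nat_lit 76) (nat_lit 0) (XT.lf (nat_lit 0) (nat_lit 10295111098609) (nat_lit 76) (nat_lit 1549774387596) (nat_lit 76) (nat_lit 390009191167) (nat_lit 4) (nat_lit 4) (nat_lit 5) (nat_lit 5) (nat_lit 5) (nat_lit 4) (nat_lit 286) (nat_lit 255) (nat_lit 119)) (XT.lf (nat_lit 0) (nat_lit 429755354506) (nat_lit 152) (nat_lit 235791185080) (nat_lit 76) (nat_lit 13257926708939) (nat_lit 3) (nat_lit 5) (nat_lit 5) (nat_lit 5) (nat_lit 4) (nat_lit 4) (nat_lit 287)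 (nat_lit 255) (nat_lit 118))))))) (XT.nd (nat_lit 31902) (nat_lit 0) (nat_lit 1064) (XT.nd (nat_lit 312) (nat_lit 0) (nat_lit 0) (XT.nd (nat_lit 156) (nat_lit 0) (nat_lit 0) (XT.nd (nat_lit 78) (nat_lit 0) (nat_lit 0) (XT.lf (nat_lit 0) (nat_lit 1429188010654) (nat_lit 152) (nat_lit 13998173339473) (nat_lit 0) (nat_lit 420696534131) (nat_lit 2) (nat_lit 5) (nat_lit 4) (nat_lit 4) (nat_lit 2) (nat_lit 4) (nat_lit 288) (nat_lit 255) (nat_lit 117)) (XT.lf (nat_lit 0) (nat_lit 2623140630673) (nat_lit 152) (nat_lit 13816849671264) (nat_lit 0) (nat_lit 1614649153598) (nat_lit 2) (nat_lit 5) (nat_lit 4) (nat_lit 4) (nat_lit 2) (nat_lit 4) (nat_lit 289) (nat_lit 255) (nat_lit 116))) (XT.nd (nat_lit 78) (nat_lit 0) (nat_lit 0) (XT.lf (nat_lit 0) (nat_lit 3996186142536) (nat_lit 152) (nat_lit 13608327455163) (nat_lit 0) (nat_lit 2987694664980) (nat_lit 2) (nat_lit 5) (nat_lit 4) (nat_lit 4) (nat_lit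 2) (nat_lit 4) (nat_lit 290) (nat_lit 255) (nat_lit 115)) (XT.lf (nat_lit 0) (nat_lit 5575188480170) (nat_lit 152) (nat_lit 13368526908680) (nat_lit 0) (nat_lit 4566697002195) (nat_lit 2) (nat_lit 5) (nat_lit 4) (nat_lit 4) (nat_lit 2) (nat_lit 4) (nat_lit 291) (nat_lit 255) (nat_lit 114)))) (XT.nd (nat_lit 936) (nat_lit 0) (nat_lit 0) (XT.nd (nat_lit 78) (nat_lit 0) (nat_lit 0) (XT.lf (nat_lit 0) (nat_lit 7391041167573) (nat_lit 152) (nat_lit 13092756281992) (nat_lit 0) (nat_lit 6382549689234) (nat_lit 2) (nat_lit 5) (nat_lit 4) (nat_lit 4) (nat_lit 2) (nat_lit 4) (nat_lit 292) (nat_lit 255) (nat_lit 113)) (XT.lf (nat_lit 0) (nat_lit 9479271757323) (nat_lit 152) (nat_lit 12775620062840) (nat_lit 0) (nat_lit 8470780278668) (nat_lit 2) (nat_lit 5) (nat_lit 4) (nat_lit 4) (nat_lit 2) (nat_lit 4) (nat_lit 293) (nat_lit 255) (nat_lit 112))) (XT.nd (nat_lit 78) (nat_lit 0) (nat_lit 0) (XT.lf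 (nat_lit 0) (nat_lit 67953210069189) (nat_lit 152) (nat_lit 3895277251765) (nat_lit 0) (nat_lit 66944718588880) (nat_lit 2) (nat_lit 5) (nat_lit 4) (nat_lit 4) (nat_lit 2) (nat_lit 4) (nat_lit 304) (nat_lit 255) (nat_lit 101)) (XT.nd (nat_lit 78) (nat_lit 0) (nat_lit 0) (XT.lf (nat_lit 0) (nat_lit 79125765990050) (nat_lit 152) (nat_lit 2198519186414) (nat_lit 0) (nat_lit 78117274509681) (nat_lit 2) (nat_lit 5) (nat_lit 4) (nat_lit 4) (nat_lit 2) (nat_lit 4) (nat_lit 305) (nat_lit 255) (nat_lit 100)) (XT.lf (nat_lit 0) (nat_lit 91974205298916) (nat_lit 152) (nat_lit 247247411510) (nat_lit 0) (nat_lit 90965713818495) (nat_lit 2) (nat_lit 5) (nat_lit 4) (nat_lit 4) (nat_lit 2) (nat_lit 4) (nat_lit 306) (nat_lit 255) (nat_lit 99)))))) (XT.nd (nat_lit 312) (nat_lit 304) (nat_lit 0) (XT.nd (nat_lit 156) (nat_lit 0) (nat_lit 76) (XT.nd (nat_lit 78) (nat_lit 0) (nat_lit 0) (XT.lf (nat_lit 0)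 (nat_lit 36138598420) (nat_lit 380) (nat_lit 138056839267) (nat_lit 380) (nat_lit 138056839267) (nat_lit 20) (nat_lit 3) (nat_lit 25) (nat_lit 3) (nat_lit 25) (nat_lit 5) (nat_lit 256) (nat_lit 256) (nat_lit 148)) (XT.lf (nat_lit 76) (nat_lit 10067444795) (nat_lit 0) (nat_lit 68047564408) (nat_lit 380) (nat_lit 593164832090) (nat_lit 21) (nat_lit 5) (nat_lit 20) (nat_lit 3) (nat_lit 25) (nat_lit 5) (nat_lit 257) (nat_lit 256) (nat_lit 147))) (XT.nd (nat_lit 78) (nat_lit 0) (nat_lit 0) (XT.lf (nat_lit 0) (nat_lit 110480954147) (nat_lit 304) (nat_lit 363918585311) (nat_lit 380) (nat_lit 246824013358) (nat_lit 21) (nat_lit 5) (nat_lit 25) (nat_lit 5) (nat_lit 26) (nat_lit 5) (nat_lit 258) (nat_lit 256) (nat_lit 146)) (XT.lf (nat_lit 0) (nat_lit 150942127399) (nat_lit 304) (nat_lit 25271081597) (nat_lit 380) (nat_lit 601959561705) (nat_lit 21) (nat_lit 5) (nat_lit 25) (nat_lit 5) (nat_lit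 26) (nat_lit 5) (nat_lit 259) (nat_lit 256) (nat_lit 145)))) (XT.nd (nat_lit 156) (nat_lit 456) (nat_lit 0) (XT.nd (nat_lit 78) (nat_lit 0) (nat_lit 0) (XT.lf (nat_lit 0) (nat_lit 221716788835) (nat_lit 304) (nat_lit 449109146326) (nat_lit 76) (nat_lit 169201789381) (nat_lit 22) (nat_lit 5) (nat_lit 26) (nat_lit 5) (nat_lit 23) (nat_lit 5) (nat_lit 260) (nat_lit 256) (nat_lit 144)) (XT.lf (nat_lit 0) (nat_lit 312882628829) (nat_lit 304) (nat_lit 47039989342) (nat_lit 76) (nat_lit 549772056475) (nat_lit 22) (nat_lit 5) (nat_lit 26) (nat_lit 5) (nat_lit 23) (nat_lit 5) (nat_lit 261) (nat_lit 256) (nat_lit 143))) (XT.nd (nat_lit 78) (nat_lit 152) (nat_lit 0) (XT.lf (nat_lit 0) (nat_lit 437402693192) (nat_lit 380) (nat_lit 531850580467) (nat_lit 76) (nat_lit 17606491430) (nat_lit 18) (nat_lit 5) (nat_lit 23) (nat_lit 5) (nat_lit 19) (nat_lit 5) (nat_lit 262) (nat_lit 256) (nat_lit 142))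 (XT.nd (nat_lit 78) (nat_lit 152) (nat_lit 0) (XT.lf (nat_lit 0) (nat_lit 600315924315) (nat_lit 380) (nat_lit 54834675706) (nat_lit 76) (nat_lit 417491745579) (nat_lit 18) (nat_lit 5) (nat_lit 23) (nat_lit 5) (nat_lit 19) (nat_lit 5) (nat_lit 263) (nat_lit 256) (nat_lit 141)) (XT.lf (nat_lit 0) (nat_lit 541984837459) (nat_lit 152) (nat_lit 268123726281) (nat_lit 228) (nat_lit 357817385962) (nat_lit 16) (nat_lit 5) (nat_lit 18) (nat_lit 5) (nat_lit 19) (nat_lit 5) (nat_lit 264) (nat_lit 256) (nat_lit 140))))))))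
noncomputable def xc112 : XT := (XT.nd (nat_lit 1404) (nat_lit 228) (nat_lit 0) (XT.nd (nat_lit 702) (nat_lit 304) (nat_lit 0) (XT.nd (nat_lit 312) (nat_lit 228) (nat_lit 0) (XT.nd (nat_lit 156) (nat_lit 228) (nat_lit 0) (XT.nd (nat_lit 78) (nat_lit 76) (nat_lit 0) (XT.lf (nat_lit 0) (nat_lit 1061700357990) (nat_lit 228) (nat_lit 50046122348) (nat_lit 76) (nat_lit 164206075298) (nat_lit 16) (nat_lit 5) (nat_lit 19) (nat_lit 5) (nat_lit 17) (nat_lit 4) (nat_lit 265) (nat_lit 256) (nat_lit 139)) (XT.lf (nat_lit 0) (nat_lit 658049414664) (nat_lit 76) (nat_lit 732997715926) (nat_lit 152) (nat_lit 3133590531) (nat_lit 15) (nat_lit 5) (nat_lit 16) (nat_lit 5) (nat_lit 17) (nat_lit 4) (nat_lit 266) (nat_lit 256) (nat_lit 138))) (XT.nd (nat_lit 78) (nat_lit 152) (nat_lit 0) (XT.lf (nat_lit 0) (nat_lit 221057868515) (nat_lit 152) (nat_lit 61815020402) (nat_lit 76) (nat_lit 1245370604135) (nat_lit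 14) (nat_lit 5) (nat_lit 16) (nat_lit 5) (nat_lit 15) (nat_lit 5) (nat_lit 267) (nat_lit 256) (nat_lit 137)) (XT.lf (nat_lit 0) (nat_lit 522261841310) (nat_lit 228) (nat_lit 905573524005) (nat_lit 76) (nat_lit 248002240467) (nat_lit 12) (nat_lit 5) (nat_lit 15) (nat_lit 5) (nat_lit 13) (nat_lit 4) (nat_lit 268) (nat_lit 256) (nat_lit 136)))) (XT.nd (nat_lit 156) (nat_lit 152) (nat_lit 0) (XT.nd (nat_lit 78) (nat_lit 76) (nat_lit 0) (XT.lf (nat_lit 0) (nat_lit 885501647651) (nat_lit 228) (nat_lit 124607954139) (nat_lit 76) (nat_lit 832932948014) (nat_lit 12) (nat_lit 5) (nat_lit 15) (nat_lit 5) (nat_lit 13) (nat_lit 4) (nat_lit 269) (nat_lit 256) (nat_lit 135)) (XT.lf (nat_lit 0) (nat_lit 849094723617) (nat_lit 76) (nat_lit 489291896000) (nat_lit 152) (nat_lit 691667736632) (nat_lit 11) (nat_lit 5) (nat_lit 12) (nat_lit 5) (nat_lit 13) (nat_lit 4) (nat_lit 270) (nat_lit 256) (nat_lit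 134))) (XT.nd (nat_lit 78) (nat_lit 152) (nat_lit 0) (XT.lf (nat_lit 0) (nat_lit 1870568408600) (nat_lit 152) (nat_lit 266134348380) (nat_lit 0) (nat_lit 106710566018) (nat_lit 11) (nat_lit 5) (nat_lit 13) (nat_lit 4) (nat_lit 11) (nat_lit 4) (nat_lit 271) (nat_lit 256) (nat_lit 133)) (XT.nd (nat_lit 78) (nat_lit 0) (nat_lit 0) (XT.lf (nat_lit 0) (nat_lit 55077297783) (nat_lit 152) (nat_lit 1645441660218) (nat_lit 76) (nat_lit 779187060083) (nat_lit 9) (nat_lit 5) (nat_lit 11) (nat_lit 5) (nat_lit 10) (nat_lit 4) (nat_lit 272) (nat_lit 256) (nat_lit 132)) (XT.lf (nat_lit 0) (nat_lit 523589642355) (nat_lit 152) (nat_lit 638140126232) (nat_lit 76) (nat_lit 1584863568200) (nat_lit 9) (nat_lit 5) (nat_lit 11) (nat_lit 5) (nat_lit 10) (nat_lit 4) (nat_lit 273) (nat_lit 256) (nat_lit 131)))))) (XT.nd (nat_lit 312) (nat_lit 152) (nat_lit 0) (XT.nd (nat_lit 156) (nat_lit 76) (nat_lit 0) (XT.nd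 (nat_lit 78) (nat_lit 0) (nat_lit 0) (XT.lf (nat_lit 0) (nat_lit 571099890286) (nat_lit 76) (nat_lit 514926971822) (nat_lit 152) (nat_lit 1963939687675) (nat_lit 8) (nat_lit 5) (nat_lit 9) (nat_lit 5) (nat_lit 10) (nat_lit 4) (nat_lit 274) (nat_lit 256) (nat_lit 130)) (XT.lf (nat_lit 0) (nat_lit 1777253534065) (nat_lit 152) (nat_lit 1371464547026) (nat_lit 0) (nat_lit 243464083262) (nat_lit 8) (nat_lit 5) (nat_lit 10) (nat_lit 4) (nat_lit 8) (nat_lit 4) (nat_lit 275) (nat_lit 256) (nat_lit 129))) (XT.nd (nat_lit 78) (nat_lit 76) (nat_lit 0) (XT.lf (nat_lit 0) (nat_lit 2596684534512) (nat_lit 152) (nat_lit 122472457654) (nat_lit 0) (nat_lit 1062895079795) (nat_lit 8) (nat_lit 5) (nat_lit 10) (nat_lit 4) (nat_lit 8) (nat_lit 4) (nat_lit 276) (nat_lit 256) (nat_lit 128)) (XT.lf (nat_lit 0) (nat_lit 1442269217371) (nat_lit 76) (nat_lit 2156482256565) (nat_lit 76) (nat_lit 622692798445) (nat_lit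 7) (nat_lit 4) (nat_lit 8) (nat_lit 5) (nat_lit 8) (nat_lit 4) (nat_lit 277) (nat_lit 256) (nat_lit 127)))) (XT.nd (nat_lit 156) (nat_lit 0) (nat_lit 0) (XT.nd (nat_lit 78) (nat_lit 76) (nat_lit 0) (XT.lf (nat_lit 0) (nat_lit 28919216024) (nat_lit 152) (nat_lit 1471613146625) (nat_lit 76) (nat_lit 3225055468870) (nat_lit 6) (nat_lit 5) (nat_lit 8) (nat_lit 5) (nat_lit 7) (nat_lit 4) (nat_lit 278) (nat_lit 256) (nat_lit 126)) (XT.lf (nat_lit 0) (nat_lit 2668579302) (nat_lit 76) (nat_lit 711963068582) (nat_lit 152) (nat_lit 4586256896400) (nat_lit 5) (nat_lit 5) (nat_lit 6) (nat_lit 5) (nat_lit 7) (nat_lit 4) (nat_lit 279) (nat_lit 256) (nat_lit 125))) (XT.nd (nat_lit 78) (nat_lit 0) (nat_lit 0) (XT.lf (nat_lit 0) (nat_lit 1591859326718) (nat_lit 152) (nat_lit 4099196923542) (nat_lit 0) (nat_lit 258129356380) (nat_lit 5) (nat_lit 5) (nat_lit 7) (nat_lit 4) (nat_lit 5) (nat_lit 4) (nat_lit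 280) (nat_lit 256) (nat_lit 124)) (XT.nd (nat_lit 78) (nat_lit 0) (nat_lit 0) (XT.lf (nat_lit 0) (nat_lit 2634574157904) (nat_lit 152) (nat_lit 2754223434496) (nat_lit 0) (nat_lit 1300844185874) (nat_lit 5) (nat_lit 5) (nat_lit 7) (nat_lit 4) (nat_lit 5) (nat_lit 4) (nat_lit 281) (nat_lit 256) (nat_lit 123)) (XT.lf (nat_lit 0) (nat_lit 3833696211387) (nat_lit 152) (nat_lit 1207503926741) (nat_lit 0) (nat_lit 2499966237886) (nat_lit 5) (nat_lit 5) (nat_lit 7) (nat_lit 4) (nat_lit 5) (nat_lit 4) (nat_lit 282) (nat_lit 256) (nat_lit 122))))))) (XT.nd (nat_lit 702) (nat_lit 0) (nat_lit 0) (XT.nd (nat_lit 312) (nat_lit 152) (nat_lit 0) (XT.nd (nat_lit 156) (nat_lit 0) (nat_lit 0) (XT.nd (nat_lit 78) (nat_lit 0) (nat_lit 0) (XT.lf (nat_lit 0) (nat_lit 627047618215) (nat_lit 76) (nat_lit 4611603657295) (nat_lit 76) (nat_lit 3277873682514) (nat_lit 4) (nat_lit 4) (nat_lit 5) (nat_lit 5) (nat_lit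 5) (nat_lit 4) (nat_lit 283) (nat_lit 256) (nat_lit 121)) (XT.lf (nat_lit 0) (nat_lit 2872488866460) (nat_lit 76) (nat_lit 4044980254274) (nat_lit 76) (nat_lit 2711250278381) (nat_lit 4) (nat_lit 4) (nat_lit 5) (nat_lit 5) (nat_lit 5) (nat_lit 4) (nat_lit 284) (nat_lit 256) (nat_lit 120))) (XT.nd (nat_lit 78) (nat_lit 0) (nat_lit 0) (XT.lf (nat_lit 0) (nat_lit 5454746298587) (nat_lit 76) (nat_lit 3393363342451) (nat_lit 76) (nat_lit 2059633365590) (nat_lit 4) (nat_lit 4) (nat_lit 5) (nat_lit 5) (nat_lit 5) (nat_lit 4) (nat_lit 285) (nat_lit 256) (nat_lit 119)) (XT.lf (nat_lit 0) (nat_lit 8424342342616) (nat_lit 76) (nat_lit 2644003895288) (nat_lit 76) (nat_lit 1310273917587) (nat_lit 4) (nat_lit 4) (nat_lit 5) (nat_lit 5) (nat_lit 5) (nat_lit 4) (nat_lit 286) (nat_lit 256) (nat_lit 118)))) (XT.nd (nat_lit 156) (nat_lit 76) (nat_lit 0) (XT.nd (nat_lit 78) (nat_lit 76) (nat_lit 0) (XT.lf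 (nat_lit 0) (nat_lit 11839377790713) (nat_lit 76) (nat_lit 1782240532300) (nat_lit 76) (nat_lit 448510553867) (nat_lit 4) (nat_lit 4) (nat_lit 5) (nat_lit 5) (nat_lit 5) (nat_lit 4) (nat_lit 287) (nat_lit 256) (nat_lit 117)) (XT.lf (nat_lit 0) (nat_lit 494218670337) (nat_lit 152) (nat_lit 271159837843) (nat_lit 76) (nat_lit 15246615725714) (nat_lit 3) (nat_lit 5) (nat_lit 5) (nat_lit 5) (nat_lit 4) (nat_lit 4) (nat_lit 288) (nat_lit 256) (nat_lit 116))) (XT.nd (nat_lit 78) (nat_lit 0) (nat_lit 0) (XT.lf (nat_lit 0) (nat_lit 1643566224736) (nat_lit 152) (nat_lit 16097899315213) (nat_lit 0) (nat_lit 483801025065) (nat_lit 2) (nat_lit 5) (nat_lit 4) (nat_lit 4) (nat_lit 2) (nat_lit 4) (nat_lit 289) (nat_lit 256) (nat_lit 115)) (XT.nd (nat_lit 78) (nat_lit 0) (nat_lit 0) (XT.lf (nat_lit 0) (nat_lit 3016611736130) (nat_lit 152) (nat_lit 15889377100057) (nat_lit 0) (nat_lit 1856846536041)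 (nat_lit 2) (nat_lit 5) (nat_lit 4) (nat_lit 4) (nat_lit 2) (nat_lit 4) (nat_lit 290) (nat_lit 256) (nat_lit 114)) (XT.lf (nat_lit 0) (nat_lit 4595614073356) (nat_lit 152) (nat_lit 15649576554396) (nat_lit 0) (nat_lit 3435848872903) (nat_lit 2) (nat_lit 5) (nat_lit 4) (nat_lit 4) (nat_lit 2) (nat_lit 4) (nat_lit 291) (nat_lit 256) (nat_lit 113)))))) (XT.nd (nat_lit 1092) (nat_lit 0) (nat_lit 0) (XT.nd (nat_lit 936) (nat_lit 0) (nat_lit 0) (XT.nd (nat_lit 858) (nat_lit 0) (nat_lit 0) (XT.lf (nat_lit 0) (nat_lit 6411466760404) (nat_lit 152) (nat_lit 15373805928424) (nat_lit 0) (nat_lit 5251701559635) (nat_lit 2) (nat_lit 5) (nat_lit 4) (nat_lit 4) (nat_lit 2) (nat_lit 4) (nat_lit 292) (nat_lit 256) (nat_lit 112)) (XT.lf (nat_lit 0) (nat_lit 57258369641901) (nat_lit 152) (nat_lit 7651768698148) (nat_lit 0) (nat_lit 56098604439477) (nat_lit 2) (nat_lit 5) (nat_lit 4) (nat_lit 4) (nat_lit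 2) (nat_lit 4) (nat_lit 303) (nat_lit 256) (nat_lit 101))) (XT.nd (nat_lit 78) (nat_lit 0) (nat_lit 0) (XT.lf (nat_lit 0) (nat_lit 66973635660099) (nat_lit 152) (nat_lit 6176326902074) (nat_lit 0) (nat_lit 65813870457616) (nat_lit 2) (nat_lit 5) (nat_lit 4) (nat_lit 4) (nat_lit 2) (nat_lit 4) (nat_lit 304) (nat_lit 256) (nat_lit 100)) (XT.lf (nat_lit 0) (nat_lit 78146191580902) (nat_lit 152) (nat_lit 4479568836839) (nat_lit 0) (nat_lit 76986426378367) (nat_lit 2) (nat_lit 5) (nat_lit 4) (nat_lit 4) (nat_lit 2) (nat_lit 4) (nat_lit 305) (nat_lit 256) (nat_lit 99)))) (XT.nd (nat_lit 30654) (nat_lit 0) (nat_lit 1368) (XT.nd (nat_lit 30576) (nat_lit 0) (nat_lit 1368) (XT.lf (nat_lit 0) (nat_lit 90994630889717) (nat_lit 152) (nat_lit 2528297062036) (nat_lit 0) (nat_lit 89834865687138) (nat_lit 2) (nat_lit 5) (nat_lit 4) (nat_lit 4) (nat_lit 2) (nat_lit 4) (nat_lit 306) (nat_lit 256) (nat_lit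 98)) (XT.lf (nat_lit 0) (nat_lit 41559533104) (nat_lit 380) (nat_lit 158765281460) (nat_lit 380) (nat_lit 158765281460) (nat_lit 20) (nat_lit 3) (nat_lit 25) (nat_lit 3) (nat_lit 25) (nat_lit 5) (nat_lit 257) (nat_lit 257) (nat_lit 146))) (XT.nd (nat_lit 78) (nat_lit 0) (nat_lit 76) (XT.lf (nat_lit 76) (nat_lit 11577721300) (nat_lit 0) (nat_lit 78254797937) (nat_lit 380) (nat_lit 682139258176) (nat_lit 21) (nat_lit 5) (nat_lit 20) (nat_lit 3) (nat_lit 25) (nat_lit 5) (nat_lit 258) (nat_lit 257) (nat_lit 145)) (XT.nd (nat_lit 78) (nat_lit 0) (nat_lit 0) (XT.lf (nat_lit 0) (nat_lit 127053318624) (nat_lit 304) (nat_lit 418506195756) (nat_lit 380) (nat_lit 283847537044) (nat_lit 21) (nat_lit 5) (nat_lit 25) (nat_lit 5) (nat_lit 26) (nat_lit 5) (nat_lit 259) (nat_lit 257) (nat_lit 144)) (XT.lf (nat_lit 0) (nat_lit 173583638991) (nat_lit 304) (nat_lit 29061589618) (nat_lit 380) (nat_lit 692253427858)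 (nat_lit 21) (nat_lit 5) (nat_lit 25) (nat_lit 5) (nat_lit 26) (nat_lit 5) (nat_lit 260) (nat_lit 257) (nat_lit 143))))))))
noncomputable def xc113 : XT := (XT.nd (nat_lit 1404) (nat_lit 380) (nat_lit 0) (XT.nd (nat_lit 702) (nat_lit 380) (nat_lit 0) (XT.nd (nat_lit 312) (nat_lit 456) (nat_lit 0) (XT.nd (nat_lit 156) (nat_lit 304) (nat_lit 0) (XT.nd (nat_lit 78) (nat_lit 0) (nat_lit 0) (XT.lf (nat_lit 0) (nat_lit 254974479544) (nat_lit 304) (nat_lit 516475343117) (nat_lit 76) (nat_lit 194582033863) (nat_lit 22) (nat_lit 5) (nat_lit 26) (nat_lit 5) (nat_lit 23) (nat_lit 5) (nat_lit 261) (nat_lit 257) (nat_lit 142)) (XT.lf (nat_lit 0) (nat_lit 359815173052) (nat_lit 304) (nat_lit 54095835432) (nat_lit 76) (nat_lit 632237844142) (nat_lit 22) (nat_lit 5) (nat_lit 26) (nat_lit 5) (nat_lit 23) (nat_lit 5) (nat_lit 262) (nat_lit 257) (nat_lit 141))) (XT.nd (nat_lit 78) (nat_lit 0) (nat_lit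 0) (XT.lf (nat_lit 0) (nat_lit 503013233911) (nat_lit 380) (nat_lit 611628001432) (nat_lit 76) (nat_lit 20247473362) (nat_lit 18) (nat_lit 5) (nat_lit 23) (nat_lit 5) (nat_lit 19) (nat_lit 5) (nat_lit 263) (nat_lit 257) (nat_lit 140)) (XT.lf (nat_lit 0) (nat_lit 690363431867) (nat_lit 380) (nat_lit 63059732623) (nat_lit 76) (nat_lit 480115514562) (nat_lit 18) (nat_lit 5) (nat_lit 23) (nat_lit 5) (nat_lit 19) (nat_lit 5) (nat_lit 264) (nat_lit 257) (nat_lit 139)))) (XT.nd (nat_lit 156) (nat_lit 304) (nat_lit 0) (XT.nd (nat_lit 78) (nat_lit 0) (nat_lit 0) (XT.lf (nat_lit 0) (nat_lit 623282700952) (nat_lit 152) (nat_lit 308342256455) (nat_lit 228) (nat_lit 411489867906) (nat_lit 16) (nat_lit 5) (nat_lit 18) (nat_lit 5) (nat_lit 19) (nat_lit 5) (nat_lit 265) (nat_lit 257) (nat_lit 138)) (XT.lf (nat_lit 0) (nat_lit 1220955507598) (nat_lit 228) (nat_lit 57552907197) (nat_lit 76) (nat_lit 188837009382)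 (nat_lit 16) (nat_lit 5) (nat_lit 19) (nat_lit 5) (nat_lit 17) (nat_lit 4) (nat_lit 266) (nat_lit 257) (nat_lit 137))) (XT.nd (nat_lit 78) (nat_lit 228) (nat_lit 0) (XT.lf (nat_lit 0) (nat_lit 756756954298) (nat_lit 76) (nat_lit 842947334556) (nat_lit 152) (nat_lit 3603526769) (nat_lit 15) (nat_lit 5) (nat_lit 16) (nat_lit 5) (nat_lit 17) (nat_lit 4) (nat_lit 267) (nat_lit 257) (nat_lit 136)) (XT.nd (nat_lit 78) (nat_lit 152) (nat_lit 0) (XT.lf (nat_lit 0) (nat_lit 254216629862) (nat_lit 152) (nat_lit 71087154452) (nat_lit 76) (nat_lit 1432176220260) (nat_lit 14) (nat_lit 5) (nat_lit 16) (nat_lit 5) (nat_lit 15) (nat_lit 5) (nat_lit 268) (nat_lit 257) (nat_lit 135)) (XT.lf (nat_lit 0) (nat_lit 600601194296) (nat_lit 228) (nat_lit 1041409429077) (nat_lit 76) (nat_lit 285202611519) (nat_lit 12) (nat_lit 5) (nat_lit 15) (nat_lit 5) (nat_lit 13) (nat_lit 4) (nat_lit 269) (nat_lit 257) (nat_lit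 134)))))) (XT.nd (nat_lit 312) (nat_lit 152) (nat_lit 0) (XT.nd (nat_lit 156) (nat_lit 152) (nat_lit 0) (XT.nd (nat_lit 78) (nat_lit 76) (nat_lit 0) (XT.lf (nat_lit 0) (nat_lit 1018326961572) (nat_lit 228) (nat_lit 143299039843) (nat_lit 76) (nat_lit 957872920636) (nat_lit 12) (nat_lit 5) (nat_lit 15) (nat_lit 5) (nat_lit 13) (nat_lit 4) (nat_lit 270) (nat_lit 257) (nat_lit 133)) (XT.lf (nat_lit 0) (nat_lit 976459034694) (nat_lit 76) (nat_lit 562685640175) (nat_lit 152) (nat_lit 795417825290) (nat_lit 11) (nat_lit 5) (nat_lit 12) (nat_lit 5) (nat_lit 13) (nat_lit 4) (nat_lit 271) (nat_lit 257) (nat_lit 132))) (XT.nd (nat_lit 78) (nat_lit 152) (nat_lit 0) (XT.lf (nat_lit 0) (nat_lit 2151153725521) (nat_lit 152) (nat_lit 306054404640) (nat_lit 0) (nat_lit 122717182785) (nat_lit 11) (nat_lit 5) (nat_lit 13) (nat_lit 4) (nat_lit 11) (nat_lit 4) (nat_lit 272) (nat_lit 257) (nat_lit 131))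 (XT.lf (nat_lit 0) (nat_lit 63338947228) (nat_lit 152) (nat_lit 1892257812146) (nat_lit 76) (nat_lit 896065153087) (nat_lit 9) (nat_lit 5) (nat_lit 11) (nat_lit 5) (nat_lit 10) (nat_lit 4) (nat_lit 273) (nat_lit 257) (nat_lit 130)))) (XT.nd (nat_lit 156) (nat_lit 76) (nat_lit 0) (XT.nd (nat_lit 78) (nat_lit 76) (nat_lit 0) (XT.lf (nat_lit 0) (nat_lit 602128136341) (nat_lit 152) (nat_lit 733861060728) (nat_lit 76) (nat_lit 1822593132989) (nat_lit 9) (nat_lit 5) (nat_lit 11) (nat_lit 5) (nat_lit 10) (nat_lit 4) (nat_lit 274) (nat_lit 257) (nat_lit 129)) (XT.lf (nat_lit 0) (nat_lit 656764954430) (nat_lit 76) (nat_lit 592165981752) (nat_lit 152) (nat_lit 2258530589266) (nat_lit 8) (nat_lit 5) (nat_lit 9) (nat_lit 5) (nat_lit 10) (nat_lit 4) (nat_lit 275) (nat_lit 257) (nat_lit 128))) (XT.nd (nat_lit 78) (nat_lit 76) (nat_lit 0) (XT.lf (nat_lit 0) (nat_lit 2043841604385) (nat_lit 152) (nat_lit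 1577184154366) (nat_lit 0) (nat_lit 279983724145) (nat_lit 8) (nat_lit 5) (nat_lit 10) (nat_lit 4) (nat_lit 8) (nat_lit 4) (nat_lit 276) (nat_lit 257) (nat_lit 127)) (XT.nd (nat_lit 78) (nat_lit 76) (nat_lit 0) (XT.lf (nat_lit 0) (nat_lit 2986187249654) (nat_lit 152) (nat_lit 140843261334) (nat_lit 0) (nat_lit 1222329366455) (nat_lit 8) (nat_lit 5) (nat_lit 10) (nat_lit 4) (nat_lit 8) (nat_lit 4) (nat_lit 277) (nat_lit 257) (nat_lit 126)) (XT.lf (nat_lit 0) (nat_lit 1658609661991) (nat_lit 76) (nat_lit 2479954566007) (nat_lit 76) (nat_lit 716096680235) (nat_lit 7) (nat_lit 4) (nat_lit 8) (nat_lit 5) (nat_lit 8) (nat_lit 4) (nat_lit 278) (nat_lit 257) (nat_lit 125))))))) (XT.nd (nat_lit 702) (nat_lit 152) (nat_lit 0) (XT.nd (nat_lit 312) (nat_lit 76) (nat_lit 0) (XT.nd (nat_lit 156) (nat_lit 0) (nat_lit 0) (XT.nd (nat_lit 78) (nat_lit 76) (nat_lit 0) (XT.lf (nat_lit 0) (nat_lit 33257128512)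 (nat_lit 152) (nat_lit 1692355061708) (nat_lit 76) (nat_lit 3708813811471) (nat_lit 6) (nat_lit 5) (nat_lit 8) (nat_lit 5) (nat_lit 7) (nat_lit 4) (nat_lit 279) (nat_lit 257) (nat_lit 124)) (XT.lf (nat_lit 0) (nat_lit 3068920522) (nat_lit 76) (nat_lit 818757502955) (nat_lit 152) (nat_lit 5274195398151) (nat_lit 5) (nat_lit 5) (nat_lit 6) (nat_lit 5) (nat_lit 7) (nat_lit 4) (nat_lit 280) (nat_lit 257) (nat_lit 123))) (XT.nd (nat_lit 78) (nat_lit 0) (nat_lit 0) (XT.lf (nat_lit 0) (nat_lit 1830638251363) (nat_lit 152) (nat_lit 4714076412029) (nat_lit 0) (nat_lit 296848780366) (nat_lit 5) (nat_lit 5) (nat_lit 7) (nat_lit 4) (nat_lit 5) (nat_lit 4) (nat_lit 281) (nat_lit 257) (nat_lit 122)) (XT.lf (nat_lit 0) (nat_lit 3029760303883) (nat_lit 152) (nat_lit 3167356906154) (nat_lit 0) (nat_lit 1495970831606) (nat_lit 5) (nat_lit 5) (nat_lit 7) (nat_lit 4) (nat_lit 5) (nat_lit 4) (nat_lit 282)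 (nat_lit 257) (nat_lit 121)))) (XT.nd (nat_lit 156) (nat_lit 0) (nat_lit 0) (XT.nd (nat_lit 78) (nat_lit 76) (nat_lit 0) (XT.lf (nat_lit 0) (nat_lit 4408750662480) (nat_lit 152) (nat_lit 1388629477911) (nat_lit 0) (nat_lit 2874961189091) (nat_lit 5) (nat_lit 5) (nat_lit 7) (nat_lit 4) (nat_lit 5) (nat_lit 4) (nat_lit 283) (nat_lit 257) (nat_lit 120)) (XT.lf (nat_lit 0) (nat_lit 721104797068) (nat_lit 76) (nat_lit 5303344188121) (nat_lit 76) (nat_lit 3769554713764) (nat_lit 4) (nat_lit 4) (nat_lit 5) (nat_lit 5) (nat_lit 5) (nat_lit 4) (nat_lit 284) (nat_lit 257) (nat_lit 119))) (XT.nd (nat_lit 78) (nat_lit 0) (nat_lit 0) (XT.lf (nat_lit 0) (nat_lit 3303362227838) (nat_lit 76) (nat_lit 4651727276965) (nat_lit 76) (nat_lit 3117937801767) (nat_lit 4) (nat_lit 4) (nat_lit 5) (nat_lit 5) (nat_lit 5) (nat_lit 4) (nat_lit 285) (nat_lit 257) (nat_lit 118)) (XT.nd (nat_lit 78) (nat_lit 0) (nat_lit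 0) (XT.lf (nat_lit 0) (nat_lit 6272958270687) (nat_lit 76) (nat_lit 3902367830383) (nat_lit 76) (nat_lit 2368578354454) (nat_lit 4) (nat_lit 4) (nat_lit 5) (nat_lit 5) (nat_lit 5) (nat_lit 4) (nat_lit 286) (nat_lit 257) (nat_lit 117)) (XT.lf (nat_lit 0) (nat_lit 9687993717759) (nat_lit 76) (nat_lit 3040604467899) (nat_lit 76) (nat_lit 1506814991334) (nat_lit 4) (nat_lit 4) (nat_lit 5) (nat_lit 5) (nat_lit 5) (nat_lit 4) (nat_lit 287) (nat_lit 257) (nat_lit 116)))))) (XT.nd (nat_lit 1092) (nat_lit 0) (nat_lit 0) (XT.nd (nat_lit 156) (nat_lit 76) (nat_lit 0) (XT.nd (nat_lit 78) (nat_lit 76) (nat_lit 0) (XT.lf (nat_lit 0) (nat_lit 13615284479972) (nat_lit 76) (nat_lit 2049576601986) (nat_lit 76) (nat_lit 515787124868) (nat_lit 4) (nat_lit 4) (nat_lit 5) (nat_lit 5) (nat_lit 5) (nat_lit 4) (nat_lit 288) (nat_lit 257) (nat_lit 115)) (XT.lf (nat_lit 0) (nat_lit 568351480456) (nat_lit 152)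 (nat_lit 311833794616) (nat_lit 76) (nat_lit 17533608092460) (nat_lit 3) (nat_lit 5) (nat_lit 5) (nat_lit 5) (nat_lit 4) (nat_lit 4) (nat_lit 289) (nat_lit 257) (nat_lit 114))) (XT.nd (nat_lit 78) (nat_lit 0) (nat_lit 0) (XT.lf (nat_lit 0) (nat_lit 1890101167886) (nat_lit 152) (nat_lit 18512584193454) (nat_lit 0) (nat_lit 556371187002) (nat_lit 2) (nat_lit 5) (nat_lit 4) (nat_lit 4) (nat_lit 2) (nat_lit 4) (nat_lit 290) (nat_lit 257) (nat_lit 113)) (XT.lf (nat_lit 0) (nat_lit 3469103504758) (nat_lit 152) (nat_lit 18272783648508) (nat_lit 0) (nat_lit 2135373523557) (nat_lit 2) (nat_lit 5) (nat_lit 4) (nat_lit 4) (nat_lit 2) (nat_lit 4) (nat_lit 291) (nat_lit 257) (nat_lit 112)))) (XT.nd (nat_lit 156) (nat_lit 0) (nat_lit 0) (XT.nd (nat_lit 78) (nat_lit 0) (nat_lit 0) (XT.lf (nat_lit 0) (nat_lit 47683801664195) (nat_lit 152) (nat_lit 11557968662405) (nat_lit 0) (nat_lit 46350071681340)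 (nat_lit 2) (nat_lit 5) (nat_lit 4) (nat_lit 4) (nat_lit 2) (nat_lit 4) (nat_lit 302) (nat_lit 257) (nat_lit 101)) (XT.lf (nat_lit 0) (nat_lit 56131859071381) (nat_lit 152) (nat_lit 10274975796137) (nat_lit 0) (nat_lit 54798129088466) (nat_lit 2) (nat_lit 5) (nat_lit 4) (nat_lit 4) (nat_lit 2) (nat_lit 4) (nat_lit 303) (nat_lit 257) (nat_lit 100))) (XT.nd (nat_lit 78) (nat_lit 0) (nat_lit 0) (XT.lf (nat_lit 0) (nat_lit 65847125089521) (nat_lit 152) (nat_lit 8799534000180) (nat_lit 0) (nat_lit 64513395106555) (nat_lit 2) (nat_lit 5) (nat_lit 4) (nat_lit 4) (nat_lit 2) (nat_lit 4) (nat_lit 304) (nat_lit 257) (nat_lit 99)) (XT.nd (nat_lit 78) (nat_lit 0) (nat_lit 0) (XT.lf (nat_lit 0) (nat_lit 77019681010273) (nat_lit 152) (nat_lit 7102775935046) (nat_lit 0) (nat_lit 75685951027263) (nat_lit 2) (nat_lit 5) (nat_lit 4) (nat_lit 4) (nat_lit 2) (nat_lit 4) (nat_lit 305) (nat_lit 257) (nat_lit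 98)) (XT.lf (nat_lit 0) (nat_lit 89868120319046) (nat_lit 152) (nat_lit 5151504160331) (nat_lit 0) (nat_lit 88534390335996) (nat_lit 2) (nat_lit 5) (nat_lit 4) (nat_lit 4) (nat_lit 2) (nat_lit 4) (nat_lit 306) (nat_lit 257) (nat_lit 97))))))))
noncomputable def xc114 : XT := (XT.nd (nat_lit 1404) (nat_lit 532) (nat_lit 0) (XT.nd (nat_lit 702) (nat_lit 532) (nat_lit 0) (XT.nd (nat_lit 312) (nat_lit 304) (nat_lit 0) (XT.nd (nat_lit 156) (nat_lit 0) (nat_lit 76) (XT.nd (nat_lit 78) (nat_lit 0) (nat_lit 0) (XT.lf (nat_lit 0) (nat_lit 47793572650) (nat_lit 380) (nat_lit 182580010392) (nat_lit 380) (nat_lit 182580010392) (nat_lit 20) (nat_lit 3) (nat_lit 25) (nat_lit 3) (nat_lit 25) (nat_lit 5) (nat_lit 258) (nat_lit 258) (nat_lit 144)) (XT.lf (nat_lit 76) (nat_lit 13314500315) (nat_lit 0) (nat_lit 89993092386) (nat_lit 380) (nat_lit 784459921021) (nat_lit 21) (nat_lit 5) (nat_lit 20) (nat_lit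 3) (nat_lit 25) (nat_lit 5) (nat_lit 259) (nat_lit 258) (nat_lit 143))) (XT.nd (nat_lit 78) (nat_lit 0) (nat_lit 0) (XT.lf (nat_lit 0) (nat_lit 146111483794) (nat_lit 304) (nat_lit 481281991016) (nat_lit 380) (nat_lit 326424608382) (nat_lit 21) (nat_lit 5) (nat_lit 25) (nat_lit 5) (nat_lit 26) (nat_lit 5) (nat_lit 260) (nat_lit 258) (nat_lit 142)) (XT.lf (nat_lit 0) (nat_lit 199621330385) (nat_lit 304) (nat_lit 33420711448) (nat_lit 380) (nat_lit 796091390541) (nat_lit 21) (nat_lit 5) (nat_lit 25) (nat_lit 5) (nat_lit 26) (nat_lit 5) (nat_lit 261) (nat_lit 258) (nat_lit 141)))) (XT.nd (nat_lit 156) (nat_lit 456) (nat_lit 0) (XT.nd (nat_lit 78) (nat_lit 0) (nat_lit 0) (XT.lf (nat_lit 0) (nat_lit 293220781823) (nat_lit 304) (nat_lit 593946512140) (nat_lit 76) (nat_lit 223769320852) (nat_lit 22) (nat_lit 5) (nat_lit 26) (nat_lit 5) (nat_lit 23) (nat_lit 5) (nat_lit 262) (nat_lit 258) (nat_lit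 140)) (XT.lf (nat_lit 0) (nat_lit 413787562356) (nat_lit 304) (nat_lit 62210095578) (nat_lit 76) (nat_lit 727073505033) (nat_lit 22) (nat_lit 5) (nat_lit 26) (nat_lit 5) (nat_lit 23) (nat_lit 5) (nat_lit 263) (nat_lit 258) (nat_lit 139))) (XT.nd (nat_lit 78) (nat_lit 152) (nat_lit 0) (XT.lf (nat_lit 0) (nat_lit 578465322394) (nat_lit 380) (nat_lit 703372076048) (nat_lit 76) (nat_lit 23284600580) (nat_lit 18) (nat_lit 5) (nat_lit 23) (nat_lit 5) (nat_lit 19) (nat_lit 5) (nat_lit 264) (nat_lit 258) (nat_lit 138)) (XT.nd (nat_lit 78) (nat_lit 152) (nat_lit 0) (XT.lf (nat_lit 0) (nat_lit 793918036557) (nat_lit 380) (nat_lit 72518583300) (nat_lit 76) (nat_lit 552132847149) (nat_lit 18) (nat_lit 5) (nat_lit 23) (nat_lit 5) (nat_lit 19) (nat_lit 5) (nat_lit 265) (nat_lit 258) (nat_lit 137)) (XT.lf (nat_lit 0) (nat_lit 716775210347) (nat_lit 152) (nat_lit 354593573170) (nat_lit 228) (nat_lit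 473213252854) (nat_lit 16) (nat_lit 5) (nat_lit 18) (nat_lit 5) (nat_lit 19) (nat_lit 5) (nat_lit 266) (nat_lit 258) (nat_lit 136)))))) (XT.nd (nat_lit 312) (nat_lit 228) (nat_lit 0) (XT.nd (nat_lit 156) (nat_lit 228) (nat_lit 0) (XT.nd (nat_lit 78) (nat_lit 76) (nat_lit 0) (XT.lf (nat_lit 0) (nat_lit 1404098906259) (nat_lit 228) (nat_lit 66185742329) (nat_lit 76) (nat_lit 217162578021) (nat_lit 16) (nat_lit 5) (nat_lit 19) (nat_lit 5) (nat_lit 17) (nat_lit 4) (nat_lit 267) (nat_lit 258) (nat_lit 135)) (XT.lf (nat_lit 0) (nat_lit 870270593802) (nat_lit 76) (nat_lit 969389405433) (nat_lit 152) (nat_lit 4143978400) (nat_lit 15) (nat_lit 5) (nat_lit 16) (nat_lit 5) (nat_lit 17) (nat_lit 4) (nat_lit 268) (nat_lit 258) (nat_lit 134))) (XT.nd (nat_lit 78) (nat_lit 152) (nat_lit 0) (XT.lf (nat_lit 0) (nat_lit 292349185642) (nat_lit 152) (nat_lit 81750137631) (nat_lit 76) (nat_lit 1647002672585)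 (nat_lit 14) (nat_lit 5) (nat_lit 16) (nat_lit 5) (nat_lit 15) (nat_lit 5) (nat_lit 269) (nat_lit 258) (nat_lit 133)) (XT.lf (nat_lit 0) (nat_lit 690691431505) (nat_lit 228) (nat_lit 1197620750032) (nat_lit 76) (nat_lit 327983029699) (nat_lit 12) (nat_lit 5) (nat_lit 15) (nat_lit 5) (nat_lit 13) (nat_lit 4) (nat_lit 270) (nat_lit 258) (nat_lit 132)))) (XT.nd (nat_lit 156) (nat_lit 152) (nat_lit 0) (XT.nd (nat_lit 78) (nat_lit 76) (nat_lit 0) (XT.lf (nat_lit 0) (nat_lit 1171076056298) (nat_lit 228) (nat_lit 164793814596) (nat_lit 76) (nat_lit 1101553881733) (nat_lit 12) (nat_lit 5) (nat_lit 15) (nat_lit 5) (nat_lit 13) (nat_lit 4) (nat_lit 271) (nat_lit 258) (nat_lit 131)) (XT.lf (nat_lit 0) (nat_lit 1122927967430) (nat_lit 76) (nat_lit 647088455785) (nat_lit 152) (nat_lit 914730444765) (nat_lit 11) (nat_lit 5) (nat_lit 12) (nat_lit 5) (nat_lit 13) (nat_lit 4) (nat_lit 272) (nat_lit 258)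 (nat_lit 130))) (XT.nd (nat_lit 78) (nat_lit 152) (nat_lit 0) (XT.lf (nat_lit 0) (nat_lit 2473826826414) (nat_lit 152) (nat_lit 351962492749) (nat_lit 0) (nat_lit 141124784296) (nat_lit 11) (nat_lit 5) (nat_lit 13) (nat_lit 4) (nat_lit 11) (nat_lit 4) (nat_lit 273) (nat_lit 258) (nat_lit 129)) (XT.nd (nat_lit 78) (nat_lit 0) (nat_lit 0) (XT.lf (nat_lit 0) (nat_lit 72839830732) (nat_lit 152) (nat_lit 2176096410542) (nat_lit 76) (nat_lit 1030474951754) (nat_lit 9) (nat_lit 5) (nat_lit 11) (nat_lit 5) (nat_lit 10) (nat_lit 4) (nat_lit 274) (nat_lit 258) (nat_lit 128)) (XT.lf (nat_lit 0) (nat_lit 692447392810) (nat_lit 152) (nat_lit 843940155989) (nat_lit 76) (nat_lit 2095982125288) (nat_lit 9) (nat_lit 5) (nat_lit 11) (nat_lit 5) (nat_lit 10) (nat_lit 4) (nat_lit 275) (nat_lit 258) (nat_lit 127))))))) (XT.nd (nat_lit 702) (nat_lit 228) (nat_lit 0) (XT.nd (nat_lit 312) (nat_lit 152) (nat_lit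 0) (XT.nd (nat_lit 156) (nat_lit 76) (nat_lit 0) (XT.nd (nat_lit 78) (nat_lit 0) (nat_lit 0) (XT.lf (nat_lit 0) (nat_lit 755279758541) (nat_lit 76) (nat_lit 680990851912) (nat_lit 152) (nat_lit 2597310138668) (nat_lit 8) (nat_lit 5) (nat_lit 9) (nat_lit 5) (nat_lit 10) (nat_lit 4) (nat_lit 276) (nat_lit 258) (nat_lit 126)) (XT.lf (nat_lit 0) (nat_lit 2350417875448) (nat_lit 152) (nat_lit 1813761721027) (nat_lit 0) (nat_lit 321981304236) (nat_lit 8) (nat_lit 5) (nat_lit 10) (nat_lit 4) (nat_lit 8) (nat_lit 4) (nat_lit 277) (nat_lit 258) (nat_lit 125))) (XT.nd (nat_lit 78) (nat_lit 76) (nat_lit 0) (XT.lf (nat_lit 0) (nat_lit 3434115363541) (nat_lit 152) (nat_lit 161969701409) (nat_lit 0) (nat_lit 1405678790092) (nat_lit 8) (nat_lit 5) (nat_lit 10) (nat_lit 4) (nat_lit 8) (nat_lit 4) (nat_lit 278) (nat_lit 258) (nat_lit 124)) (XT.lf (nat_lit 0) (nat_lit 1907401158182) (nat_lit 76) (nat_lit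 2851947728948) (nat_lit 76) (nat_lit 823511153554) (nat_lit 7) (nat_lit 4) (nat_lit 8) (nat_lit 5) (nat_lit 8) (nat_lit 4) (nat_lit 279) (nat_lit 258) (nat_lit 123)))) (XT.nd (nat_lit 156) (nat_lit 0) (nat_lit 0) (XT.nd (nat_lit 78) (nat_lit 76) (nat_lit 0) (XT.lf (nat_lit 0) (nat_lit 38245720536) (nat_lit 152) (nat_lit 1946208277931) (nat_lit 76) (nat_lit 4265135900031) (nat_lit 6) (nat_lit 5) (nat_lit 8) (nat_lit 5) (nat_lit 7) (nat_lit 4) (nat_lit 280) (nat_lit 258) (nat_lit 122)) (XT.lf (nat_lit 0) (nat_lit 3529299677) (nat_lit 76) (nat_lit 941571108803) (nat_lit 152) (nat_lit 6065324683141) (nat_lit 5) (nat_lit 5) (nat_lit 6) (nat_lit 5) (nat_lit 7) (nat_lit 4) (nat_lit 281) (nat_lit 258) (nat_lit 121))) (XT.nd (nat_lit 78) (nat_lit 0) (nat_lit 0) (XT.lf (nat_lit 0) (nat_lit 2105234008453) (nat_lit 152) (nat_lit 5421187835993) (nat_lit 0) (nat_lit 341376112943) (nat_lit 5) (nat_lit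 5) (nat_lit 7) (nat_lit 4) (nat_lit 5) (nat_lit 4) (nat_lit 282) (nat_lit 258) (nat_lit 120)) (XT.nd (nat_lit 78) (nat_lit 0) (nat_lit 0) (XT.lf (nat_lit 0) (nat_lit 3484224366322) (nat_lit 152) (nat_lit 3642460409172) (nat_lit 0) (nat_lit 1720366469845) (nat_lit 5) (nat_lit 5) (nat_lit 7) (nat_lit 4) (nat_lit 5) (nat_lit 4) (nat_lit 283) (nat_lit 258) (nat_lit 119)) (XT.lf (nat_lit 0) (nat_lit 5070063276510) (nat_lit 152) (nat_lit 1596923870985) (nat_lit 0) (nat_lit 3306205379192) (nat_lit 5) (nat_lit 5) (nat_lit 7) (nat_lit 4) (nat_lit 5) (nat_lit 4) (nat_lit 284) (nat_lit 258) (nat_lit 118)))))) (XT.nd (nat_lit 312) (nat_lit 152) (nat_lit 0) (XT.nd (nat_lit 156) (nat_lit 0) (nat_lit 0) (XT.nd (nat_lit 78) (nat_lit 0) (nat_lit 0) (XT.lf (nat_lit 0) (nat_lit 829270543940) (nat_lit 76) (nat_lit 6098845802903) (nat_lit 76) (nat_lit 4334987904854) (nat_lit 4) (nat_lit 4) (nat_lit 5) (nat_lit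 5) (nat_lit 5) (nat_lit 4) (nat_lit 285) (nat_lit 258) (nat_lit 117)) (XT.lf (nat_lit 0) (nat_lit 3798866585764) (nat_lit 76) (nat_lit 5349486356826) (nat_lit 76) (nat_lit 3585628458141) (nat_lit 4) (nat_lit 4) (nat_lit 5) (nat_lit 5) (nat_lit 5) (nat_lit 4) (nat_lit 286) (nat_lit 258) (nat_lit 116))) (XT.nd (nat_lit 78) (nat_lit 0) (nat_lit 0) (XT.lf (nat_lit 0) (nat_lit 7213902031943) (nat_lit 76) (nat_lit 4487722994781) (nat_lit 76) (nat_lit 2723865095542) (nat_lit 4) (nat_lit 4) (nat_lit 5) (nat_lit 5) (nat_lit 5) (nat_lit 4) (nat_lit 287) (nat_lit 258) (nat_lit 115)) (XT.lf (nat_lit 0) (nat_lit 11141192793381) (nat_lit 76) (nat_lit 3496695129250) (nat_lit 76) (nat_lit 1732837229530) (nat_lit 4) (nat_lit 4) (nat_lit 5) (nat_lit 5) (nat_lit 5) (nat_lit 4) (nat_lit 288) (nat_lit 258) (nat_lit 114)))) (XT.nd (nat_lit 156) (nat_lit 76) (nat_lit 0) (XT.nd (nat_lit 78) (nat_lit 76) (nat_lit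 0) (XT.lf (nat_lit 0) (nat_lit 15657577167584) (nat_lit 76) (nat_lit 2357013084602) (nat_lit 76) (nat_lit 593155184464) (nat_lit 4) (nat_lit 4) (nat_lit 5) (nat_lit 5) (nat_lit 5) (nat_lit 4) (nat_lit 289) (nat_lit 258) (nat_lit 113)) (XT.lf (nat_lit 0) (nat_lit 653604209760) (nat_lit 152) (nat_lit 358608849515) (nat_lit 76) (nat_lit 20163649312295) (nat_lit 3) (nat_lit 5) (nat_lit 5) (nat_lit 5) (nat_lit 4) (nat_lit 4) (nat_lit 290) (nat_lit 258) (nat_lit 112))) (XT.nd (nat_lit 780) (nat_lit 0) (nat_lit 0) (XT.lf (nat_lit 0) (nat_lit 2173616350207) (nat_lit 152) (nat_lit 21289471808074) (nat_lit 0) (nat_lit 639826871235) (nat_lit 2) (nat_lit 5) (nat_lit 4) (nat_lit 4) (nat_lit 2) (nat_lit 4) (nat_lit 291) (nat_lit 258) (nat_lit 111)) (XT.nd (nat_lit 78) (nat_lit 0) (nat_lit 0) (XT.lf (nat_lit 0) (nat_lit 39042177632159) (nat_lit 152) (nat_lit 15690302796009) (nat_lit 0) (nat_lit 37508388151807)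 (nat_lit 2) (nat_lit 5) (nat_lit 4) (nat_lit 4) (nat_lit 2) (nat_lit 4) (nat_lit 301) (nat_lit 258) (nat_lit 101)) (XT.lf (nat_lit 0) (nat_lit 46388314508031) (nat_lit 152) (nat_lit 14574656825226) (nat_lit 0) (nat_lit 44854525027620) (nat_lit 2) (nat_lit 5) (nat_lit 4) (nat_lit 4) (nat_lit 2) (nat_lit 4) (nat_lit 302) (nat_lit 258) (nat_lit 100))))))))
noncomputable def xc115 : XT := (XT.nd (nat_lit 32136) (nat_lit 0) (nat_lit 76) (XT.nd (nat_lit 31434) (nat_lit 0) (nat_lit 684) (XT.nd (nat_lit 31044) (nat_lit 0) (nat_lit 1368) (XT.nd (nat_lit 156) (nat_lit 0) (nat_lit 0) (XT.nd (nat_lit 78) (nat_lit 0) (nat_lit 0) (XT.lf (nat_lit 0) (nat_lit 54836371915159) (nat_lit 152) (nat_lit 13291663959075) (nat_lit 0) (nat_lit 53302582434696) (nat_lit 2) (nat_lit 5) (nat_lit 4) (nat_lit 4) (nat_lit 2) (nat_lit 4) (nat_lit 303) (nat_lit 258) (nat_lit 99)) (XT.lf (nat_lit 0) (nat_lit 64551637933248)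 (nat_lit 152) (nat_lit 11816222163218) (nat_lit 0) (nat_lit 63017848452741) (nat_lit 2) (nat_lit 5) (nat_lit 4) (nat_lit 4) (nat_lit 2) (nat_lit 4) (nat_lit 304) (nat_lit 258) (nat_lit 98))) (XT.nd (nat_lit 30810) (nat_lit 0) (nat_lit 1368) (XT.lf (nat_lit 0) (nat_lit 75724193853958) (nat_lit 152) (nat_lit 10119464098172) (nat_lit 0) (nat_lit 74190404373411) (nat_lit 2) (nat_lit 5) (nat_lit 4) (nat_lit 4) (nat_lit 2) (nat_lit 4) (nat_lit 305) (nat_lit 258) (nat_lit 97)) (XT.lf (nat_lit 0) (nat_lit 54962691406) (nat_lit 380) (nat_lit 209966964097) (nat_lit 380) (nat_lit 209966964097) (nat_lit 20) (nat_lit 3) (nat_lit 25) (nat_lit 3) (nat_lit 25) (nat_lit 5) (nat_lit 259) (nat_lit 259) (nat_lit 142)))) (XT.nd (nat_lit 156) (nat_lit 0) (nat_lit 76) (XT.nd (nat_lit 78) (nat_lit 0) (nat_lit 76) (XT.lf (nat_lit 76) (nat_lit 15311766720) (nat_lit 0) (nat_lit 103492112771) (nat_lit 380) (nat_lit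 902128738375) (nat_lit 21) (nat_lit 5) (nat_lit 20) (nat_lit 3) (nat_lit 25) (nat_lit 5) (nat_lit 260) (nat_lit 259) (nat_lit 141)) (XT.lf (nat_lit 0) (nat_lit 168028332923) (nat_lit 304) (nat_lit 553474188267) (nat_lit 380) (nat_lit 375388254861) (nat_lit 21) (nat_lit 5) (nat_lit 25) (nat_lit 5) (nat_lit 26) (nat_lit 5) (nat_lit 261) (nat_lit 259) (nat_lit 140))) (XT.nd (nat_lit 78) (nat_lit 0) (nat_lit 76) (XT.lf (nat_lit 0) (nat_lit 229564639995) (nat_lit 304) (nat_lit 38433729990) (nat_lit 380) (nat_lit 915505060185) (nat_lit 21) (nat_lit 5) (nat_lit 25) (nat_lit 5) (nat_lit 26) (nat_lit 5) (nat_lit 262) (nat_lit 259) (nat_lit 139)) (XT.nd (nat_lit 78) (nat_lit 0) (nat_lit 0) (XT.lf (nat_lit 0) (nat_lit 337203997658) (nat_lit 304) (nat_lit 683038388813) (nat_lit 76) (nat_lit 257334705301) (nat_lit 22) (nat_lit 5) (nat_lit 26) (nat_lit 5) (nat_lit 23) (nat_lit 5) (nat_lit 263) (nat_lit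 259) (nat_lit 138)) (XT.lf (nat_lit 0) (nat_lit 475855782415) (nat_lit 304) (nat_lit 71541522830) (nat_lit 76) (nat_lit 836134518893) (nat_lit 22) (nat_lit 5) (nat_lit 26) (nat_lit 5) (nat_lit 23) (nat_lit 5) (nat_lit 264) (nat_lit 259) (nat_lit 137)))))) (XT.nd (nat_lit 312) (nat_lit 380) (nat_lit 0) (XT.nd (nat_lit 156) (nat_lit 152) (nat_lit 0) (XT.nd (nat_lit 78) (nat_lit 0) (nat_lit 0) (XT.lf (nat_lit 0) (nat_lit 665235198936) (nat_lit 380) (nat_lit 808877792484) (nat_lit 76) (nat_lit 26777295365) (nat_lit 18) (nat_lit 5) (nat_lit 23) (nat_lit 5) (nat_lit 19) (nat_lit 5) (nat_lit 265) (nat_lit 259) (nat_lit 136)) (XT.lf (nat_lit 0) (nat_lit 913005810025) (nat_lit 380) (nat_lit 83396288211) (nat_lit 76) (nat_lit 634952778307) (nat_lit 18) (nat_lit 5) (nat_lit 23) (nat_lit 5) (nat_lit 19) (nat_lit 5) (nat_lit 266) (nat_lit 259) (nat_lit 135))) (XT.nd (nat_lit 78) (nat_lit 0) (nat_lit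 0) (XT.lf (nat_lit 0) (nat_lit 824291570729) (nat_lit 152) (nat_lit 407782592696) (nat_lit 228) (nat_lit 544195168769) (nat_lit 16) (nat_lit 5) (nat_lit 18) (nat_lit 5) (nat_lit 19) (nat_lit 5) (nat_lit 267) (nat_lit 259) (nat_lit 134)) (XT.lf (nat_lit 0) (nat_lit 1614713797035) (nat_lit 228) (nat_lit 76113527347) (nat_lit 76) (nat_lit 249736977754) (nat_lit 16) (nat_lit 5) (nat_lit 19) (nat_lit 5) (nat_lit 17) (nat_lit 4) (nat_lit 268) (nat_lit 259) (nat_lit 133)))) (XT.nd (nat_lit 156) (nat_lit 228) (nat_lit 0) (XT.nd (nat_lit 78) (nat_lit 76) (nat_lit 0) (XT.lf (nat_lit 0) (nat_lit 1000811255734) (nat_lit 76) (nat_lit 1114797794087) (nat_lit 152) (nat_lit 4765516646) (nat_lit 15) (nat_lit 5) (nat_lit 16) (nat_lit 5) (nat_lit 17) (nat_lit 4) (nat_lit 269) (nat_lit 259) (nat_lit 132)) (XT.lf (nat_lit 0) (nat_lit 336201609840) (nat_lit 152) (nat_lit 94012590231) (nat_lit 76) (nat_lit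 1894053088056) (nat_lit 14) (nat_lit 5) (nat_lit 16) (nat_lit 5) (nat_lit 15) (nat_lit 5) (nat_lit 270) (nat_lit 259) (nat_lit 131))) (XT.nd (nat_lit 78) (nat_lit 76) (nat_lit 0) (XT.lf (nat_lit 0) (nat_lit 794295190135) (nat_lit 228) (nat_lit 1377263791908) (nat_lit 76) (nat_lit 377180504156) (nat_lit 12) (nat_lit 5) (nat_lit 15) (nat_lit 5) (nat_lit 13) (nat_lit 4) (nat_lit 271) (nat_lit 259) (nat_lit 130)) (XT.nd (nat_lit 78) (nat_lit 76) (nat_lit 0) (XT.lf (nat_lit 0) (nat_lit 1346737502921) (nat_lit 228) (nat_lit 189512825370) (nat_lit 76) (nat_lit 1266786981385) (nat_lit 12) (nat_lit 5) (nat_lit 15) (nat_lit 5) (nat_lit 13) (nat_lit 4) (nat_lit 272) (nat_lit 259) (nat_lit 129)) (XT.lf (nat_lit 0) (nat_lit 1291367221169) (nat_lit 76) (nat_lit 744151701154) (nat_lit 152) (nat_lit 1051939970407) (nat_lit 11) (nat_lit 5) (nat_lit 12) (nat_lit 5) (nat_lit 13) (nat_lit 4) (nat_lit 273)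 (nat_lit 259) (nat_lit 128))))))) (XT.nd (nat_lit 702) (nat_lit 152) (nat_lit 0) (XT.nd (nat_lit 312) (nat_lit 228) (nat_lit 0) (XT.nd (nat_lit 156) (nat_lit 76) (nat_lit 0) (XT.nd (nat_lit 78) (nat_lit 152) (nat_lit 0) (XT.lf (nat_lit 0) (nat_lit 2844900882183) (nat_lit 152) (nat_lit 404756811775) (nat_lit 0) (nat_lit 162293520159) (nat_lit 11) (nat_lit 5) (nat_lit 13) (nat_lit 4) (nat_lit 11) (nat_lit 4) (nat_lit 274) (nat_lit 259) (nat_lit 127)) (XT.lf (nat_lit 0) (nat_lit 83765836661) (nat_lit 152) (nat_lit 2502510816603) (nat_lit 76) (nat_lit 1185046213952) (nat_lit 9) (nat_lit 5) (nat_lit 11) (nat_lit 5) (nat_lit 10) (nat_lit 4) (nat_lit 275) (nat_lit 259) (nat_lit 126))) (XT.nd (nat_lit 78) (nat_lit 76) (nat_lit 0) (XT.lf (nat_lit 0) (nat_lit 796314528965) (nat_lit 152) (nat_lit 970531131109) (nat_lit 76) (nat_lit 2410379460981) (nat_lit 9) (nat_lit 5) (nat_lit 11) (nat_lit 5)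 (nat_lit 10) (nat_lit 4) (nat_lit 276) (nat_lit 259) (nat_lit 125)) (XT.lf (nat_lit 0) (nat_lit 868571768406) (nat_lit 76) (nat_lit 783139459205) (nat_lit 152) (nat_lit 2986906629989) (nat_lit 8) (nat_lit 5) (nat_lit 9) (nat_lit 5) (nat_lit 10) (nat_lit 4) (nat_lit 277) (nat_lit 259) (nat_lit 124)))) (XT.nd (nat_lit 156) (nat_lit 228) (nat_lit 0) (XT.nd (nat_lit 78) (nat_lit 0) (nat_lit 0) (XT.lf (nat_lit 0) (nat_lit 2702980579755) (nat_lit 152) (nat_lit 2085825936464) (nat_lit 0) (nat_lit 370278516106) (nat_lit 8) (nat_lit 5) (nat_lit 10) (nat_lit 4) (nat_lit 8) (nat_lit 4) (nat_lit 278) (nat_lit 259) (nat_lit 123)) (XT.lf (nat_lit 0) (nat_lit 3949232688064) (nat_lit 152) (nat_lit 186265119474) (nat_lit 0) (nat_lit 1616530622723) (nat_lit 8) (nat_lit 5) (nat_lit 10) (nat_lit 4) (nat_lit 8) (nat_lit 4) (nat_lit 279) (nat_lit 259) (nat_lit 122))) (XT.nd (nat_lit 78) (nat_lit 152) (nat_lit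 0) (XT.lf (nat_lit 0) (nat_lit 2193511367367) (nat_lit 76) (nat_lit 3279739871685) (nat_lit 76) (nat_lit 947037804874) (nat_lit 7) (nat_lit 4) (nat_lit 8) (nat_lit 5) (nat_lit 8) (nat_lit 4) (nat_lit 280) (nat_lit 259) (nat_lit 121)) (XT.nd (nat_lit 78) (nat_lit 76) (nat_lit 0) (XT.lf (nat_lit 0) (nat_lit 43982595817) (nat_lit 152) (nat_lit 2238139487082) (nat_lit 76) (nat_lit 4904906297768) (nat_lit 6) (nat_lit 5) (nat_lit 8) (nat_lit 5) (nat_lit 7) (nat_lit 4) (nat_lit 281) (nat_lit 259) (nat_lit 120)) (XT.lf (nat_lit 0) (nat_lit 4058725688) (nat_lit 76) (nat_lit 1082806760307) (nat_lit 152) (nat_lit 6975123366910) (nat_lit 5) (nat_lit 5) (nat_lit 6) (nat_lit 5) (nat_lit 7) (nat_lit 4) (nat_lit 282) (nat_lit 259) (nat_lit 119)))))) (XT.nd (nat_lit 312) (nat_lit 76) (nat_lit 0) (XT.nd (nat_lit 156) (nat_lit 76) (nat_lit 0) (XT.nd (nat_lit 78) (nat_lit 0) (nat_lit 0) (XT.lf (nat_lit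 0) (nat_lit 2421019124379) (nat_lit 152) (nat_lit 6234365982779) (nat_lit 0) (nat_lit 392582541622) (nat_lit 5) (nat_lit 5) (nat_lit 7) (nat_lit 4) (nat_lit 5) (nat_lit 4) (nat_lit 283) (nat_lit 259) (nat_lit 118)) (XT.lf (nat_lit 0) (nat_lit 4006858034016) (nat_lit 152) (nat_lit 4188829445667) (nat_lit 0) (nat_lit 1978421450528) (nat_lit 5) (nat_lit 5) (nat_lit 7) (nat_lit 4) (nat_lit 5) (nat_lit 4) (nat_lit 284) (nat_lit 259) (nat_lit 117))) (XT.nd (nat_lit 78) (nat_lit 76) (nat_lit 0) (XT.lf (nat_lit 0) (nat_lit 5830572779070) (nat_lit 152) (nat_lit 1836462429997) (nat_lit 0) (nat_lit 3802136194946) (nat_lit 5) (nat_lit 5) (nat_lit 7) (nat_lit 4) (nat_lit 5) (nat_lit 4) (nat_lit 285) (nat_lit 259) (nat_lit 116)) (XT.lf (nat_lit 0) (nat_lit 953661146183) (nat_lit 76) (nat_lit 7013672663180) (nat_lit 76) (nat_lit 4985236078502) (nat_lit 4) (nat_lit 4) (nat_lit 5) (nat_lit 5) (nat_lit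 5) (nat_lit 4) (nat_lit 286) (nat_lit 259) (nat_lit 115)))) (XT.nd (nat_lit 156) (nat_lit 76) (nat_lit 0) (XT.nd (nat_lit 78) (nat_lit 0) (nat_lit 0) (XT.lf (nat_lit 0) (nat_lit 4368696591587) (nat_lit 76) (nat_lit 6151909301516) (nat_lit 76) (nat_lit 4123472716358) (nat_lit 4) (nat_lit 4) (nat_lit 5) (nat_lit 5) (nat_lit 5) (nat_lit 4) (nat_lit 287) (nat_lit 259) (nat_lit 114)) (XT.lf (nat_lit 0) (nat_lit 8295987352350) (nat_lit 76) (nat_lit 5160881436317) (nat_lit 76) (nat_lit 3132444850740) (nat_lit 4) (nat_lit 4) (nat_lit 5) (nat_lit 5) (nat_lit 5) (nat_lit 4) (nat_lit 288) (nat_lit 259) (nat_lit 113))) (XT.nd (nat_lit 78) (nat_lit 76) (nat_lit 0) (XT.lf (nat_lit 0) (nat_lit 12812371725967) (nat_lit 76) (nat_lit 4021199391957) (nat_lit 76) (nat_lit 1992762806017) (nat_lit 4) (nat_lit 4) (nat_lit 5) (nat_lit 5) (nat_lit 5) (nat_lit 4) (nat_lit 289) (nat_lit 259) (nat_lit 112)) (XT.nd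 (nat_lit 78) (nat_lit 76) (nat_lit 0) (XT.lf (nat_lit 0) (nat_lit 18006213754530) (nat_lit 76) (nat_lit 2710565041484) (nat_lit 76) (nat_lit 682128455227) (nat_lit 4) (nat_lit 4) (nat_lit 5) (nat_lit 5) (nat_lit 5) (nat_lit 4) (nat_lit 290) (nat_lit 259) (nat_lit 111)) (XT.lf (nat_lit 0) (nat_lit 751644846695) (nat_lit 152) (nat_lit 412400166135) (nat_lit 76) (nat_lit 23188196713650) (nat_lit 3) (nat_lit 5) (nat_lit 5) (nat_lit 5) (nat_lit 4) (nat_lit 4) (nat_lit 291) (nat_lit 259) (nat_lit 110))))))))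
noncomputable def xc116 : XT := (XT.nd (nat_lit 32292) (nat_lit 0) (nat_lit 152) (XT.nd (nat_lit 31590) (nat_lit 0) (nat_lit 760) (XT.nd (nat_lit 312) (nat_lit 0) (nat_lit 0) (XT.nd (nat_lit 156) (nat_lit 0) (nat_lit 0) (XT.nd (nat_lit 78) (nat_lit 0) (nat_lit 0) (XT.lf (nat_lit 0) (nat_lit 31164422292993) (nat_lit 152) (nat_lit 20129621114619) (nat_lit 0) (nat_lit 29400564390520) (nat_lit 2) (nat_lit 5) (nat_lit 4) (nat_lit 4) (nat_lit 2) (nat_lit 4) (nat_lit 300) (nat_lit 259) (nat_lit 101)) (XT.lf (nat_lit 0) (nat_lit 37552367402504) (nat_lit 152) (nat_lit 19159494183387) (nat_lit 0) (nat_lit 35788509499972) (nat_lit 2) (nat_lit 5) (nat_lit 4) (nat_lit 4) (nat_lit 2) (nat_lit 4) (nat_lit 301) (nat_lit 259) (nat_lit 100))) (XT.nd (nat_lit 78) (nat_lit 0) (nat_lit 0) (XT.lf (nat_lit 0) (nat_lit 44898504278317) (nat_lit 152) (nat_lit 18043848212720) (nat_lit 0) (nat_lit 43134646375734)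 (nat_lit 2) (nat_lit 5) (nat_lit 4) (nat_lit 4) (nat_lit 2) (nat_lit 4) (nat_lit 302) (nat_lit 259) (nat_lit 99)) (XT.lf (nat_lit 0) (nat_lit 53346561685395) (nat_lit 152) (nat_lit 16760855346669) (nat_lit 0) (nat_lit 51582703782768) (nat_lit 2) (nat_lit 5) (nat_lit 4) (nat_lit 4) (nat_lit 2) (nat_lit 4) (nat_lit 303) (nat_lit 259) (nat_lit 98)))) (XT.nd (nat_lit 31044) (nat_lit 0) (nat_lit 1368) (XT.nd (nat_lit 30966) (nat_lit 0) (nat_lit 1368) (XT.lf (nat_lit 0) (nat_lit 63061827703441) (nat_lit 152) (nat_lit 15285413550901) (nat_lit 0) (nat_lit 61297969800775) (nat_lit 2) (nat_lit 5) (nat_lit 4) (nat_lit 4) (nat_lit 2) (nat_lit 4) (nat_lit 304) (nat_lit 259) (nat_lit 97)) (XT.lf (nat_lit 0) (nat_lit 63207157771) (nat_lit 380) (nat_lit 241461972527) (nat_lit 380) (nat_lit 241461972527) (nat_lit 20) (nat_lit 3) (nat_lit 25) (nat_lit 3) (nat_lit 25) (nat_lit 5) (nat_lit 260) (nat_lit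 260) (nat_lit 140))) (XT.nd (nat_lit 78) (nat_lit 0) (nat_lit 76) (XT.lf (nat_lit 76) (nat_lit 17608600807) (nat_lit 0) (nat_lit 119015972430) (nat_lit 380) (nat_lit 1037447919983) (nat_lit 21) (nat_lit 5) (nat_lit 20) (nat_lit 3) (nat_lit 25) (nat_lit 5) (nat_lit 261) (nat_lit 260) (nat_lit 139)) (XT.nd (nat_lit 78) (nat_lit 0) (nat_lit 0) (XT.lf (nat_lit 0) (nat_lit 193232678560) (nat_lit 304) (nat_lit 636495239833) (nat_lit 380) (nat_lit 431696459231) (nat_lit 21) (nat_lit 5) (nat_lit 25) (nat_lit 5) (nat_lit 26) (nat_lit 5) (nat_lit 262) (nat_lit 260) (nat_lit 138)) (XT.lf (nat_lit 0) (nat_lit 263999419210) (nat_lit 304) (nat_lit 44198722816) (nat_lit 380) (nat_lit 1052830789770) (nat_lit 21) (nat_lit 5) (nat_lit 25) (nat_lit 5) (nat_lit 26) (nat_lit 5) (nat_lit 263) (nat_lit 260) (nat_lit 137)))))) (XT.nd (nat_lit 312) (nat_lit 456) (nat_lit 0) (XT.nd (nat_lit 156) (nat_lit 304)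 (nat_lit 0) (XT.nd (nat_lit 78) (nat_lit 0) (nat_lit 0) (XT.lf (nat_lit 0) (nat_lit 387784671833) (nat_lit 304) (nat_lit 785494071410) (nat_lit 76) (nat_lit 295934900753) (nat_lit 22) (nat_lit 5) (nat_lit 26) (nat_lit 5) (nat_lit 23) (nat_lit 5) (nat_lit 264) (nat_lit 260) (nat_lit 136)) (XT.lf (nat_lit 0) (nat_lit 547234214583) (nat_lit 304) (nat_lit 82272685407) (nat_lit 76) (nat_lit 961554687733) (nat_lit 22) (nat_lit 5) (nat_lit 26) (nat_lit 5) (nat_lit 23) (nat_lit 5) (nat_lit 265) (nat_lit 260) (nat_lit 135))) (XT.nd (nat_lit 78) (nat_lit 0) (nat_lit 0) (XT.lf (nat_lit 0) (nat_lit 765020537893) (nat_lit 380) (nat_lit 930209389545) (nat_lit 76) (nat_lit 30793893223) (nat_lit 18) (nat_lit 5) (nat_lit 23) (nat_lit 5) (nat_lit 19) (nat_lit 5) (nat_lit 266) (nat_lit 260) (nat_lit 134)) (XT.lf (nat_lit 0) (nat_lit 1049956732935) (nat_lit 380) (nat_lit 95905668998) (nat_lit 76) (nat_lit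 730195698143) (nat_lit 18) (nat_lit 5) (nat_lit 23) (nat_lit 5) (nat_lit 19) (nat_lit 5) (nat_lit 267) (nat_lit 260) (nat_lit 133)))) (XT.nd (nat_lit 156) (nat_lit 304) (nat_lit 0) (XT.nd (nat_lit 78) (nat_lit 0) (nat_lit 0) (XT.lf (nat_lit 0) (nat_lit 947935365945) (nat_lit 152) (nat_lit 468949969163) (nat_lit 228) (nat_lit 625824389633) (nat_lit 16) (nat_lit 5) (nat_lit 18) (nat_lit 5) (nat_lit 19) (nat_lit 5) (nat_lit 268) (nat_lit 260) (nat_lit 132)) (XT.lf (nat_lit 0) (nat_lit 1856920908055) (nat_lit 228) (nat_lit 87530498732) (nat_lit 76) (nat_lit 287197534269) (nat_lit 16) (nat_lit 5) (nat_lit 19) (nat_lit 5) (nat_lit 17) (nat_lit 4) (nat_lit 269) (nat_lit 260) (nat_lit 131))) (XT.nd (nat_lit 78) (nat_lit 228) (nat_lit 0) (XT.lf (nat_lit 0) (nat_lit 1150932999188) (nat_lit 76) (nat_lit 1282017446444) (nat_lit 152) (nat_lit 5480299898) (nat_lit 15) (nat_lit 5) (nat_lit 16) (nat_lit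 5) (nat_lit 17) (nat_lit 4) (nat_lit 270) (nat_lit 260) (nat_lit 130)) (XT.nd (nat_lit 78) (nat_lit 152) (nat_lit 0) (XT.lf (nat_lit 0) (nat_lit 386631886365) (nat_lit 152) (nat_lit 108114427314) (nat_lit 76) (nat_lit 2178161062291) (nat_lit 14) (nat_lit 5) (nat_lit 16) (nat_lit 5) (nat_lit 15) (nat_lit 5) (nat_lit 271) (nat_lit 260) (nat_lit 129)) (XT.lf (nat_lit 0) (nat_lit 913439501854) (nat_lit 228) (nat_lit 1583853307289) (nat_lit 76) (nat_lit 433757594903) (nat_lit 12) (nat_lit 5) (nat_lit 15) (nat_lit 5) (nat_lit 13) (nat_lit 4) (nat_lit 272) (nat_lit 260) (nat_lit 128))))))) (XT.nd (nat_lit 702) (nat_lit 228) (nat_lit 0) (XT.nd (nat_lit 312) (nat_lit 152) (nat_lit 0) (XT.nd (nat_lit 156) (nat_lit 152) (nat_lit 0) (XT.nd (nat_lit 78) (nat_lit 76) (nat_lit 0) (XT.lf (nat_lit 0) (nat_lit 1548748157228) (nat_lit 228) (nat_lit 217939702736) (nat_lit 76) (nat_lit 1456805041744) (nat_lit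 12) (nat_lit 5) (nat_lit 15) (nat_lit 5) (nat_lit 13) (nat_lit 4) (nat_lit 273) (nat_lit 260) (nat_lit 127)) (XT.lf (nat_lit 0) (nat_lit 1485072348672) (nat_lit 76) (nat_lit 855774438937) (nat_lit 152) (nat_lit 1209730934911) (nat_lit 11) (nat_lit 5) (nat_lit 12) (nat_lit 5) (nat_lit 13) (nat_lit 4) (nat_lit 274) (nat_lit 260) (nat_lit 126))) (XT.nd (nat_lit 78) (nat_lit 152) (nat_lit 0) (XT.lf (nat_lit 0) (nat_lit 3271636038561) (nat_lit 152) (nat_lit 465470292039) (nat_lit 0) (nat_lit 186637561959) (nat_lit 11) (nat_lit 5) (nat_lit 13) (nat_lit 4) (nat_lit 11) (nat_lit 4) (nat_lit 275) (nat_lit 260) (nat_lit 125)) (XT.lf (nat_lit 0) (nat_lit 96330735843) (nat_lit 152) (nat_lit 2877887397113) (nat_lit 76) (nat_lit 1362803160740) (nat_lit 9) (nat_lit 5) (nat_lit 11) (nat_lit 5) (nat_lit 10) (nat_lit 4) (nat_lit 276) (nat_lit 260) (nat_lit 124)))) (XT.nd (nat_lit 156) (nat_lit 76) (nat_lit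 0) (XT.nd (nat_lit 78) (nat_lit 76) (nat_lit 0) (XT.lf (nat_lit 0) (nat_lit 915761728903) (nat_lit 152) (nat_lit 1116110764270) (nat_lit 76) (nat_lit 2771936392907) (nat_lit 9) (nat_lit 5) (nat_lit 11) (nat_lit 5) (nat_lit 10) (nat_lit 4) (nat_lit 277) (nat_lit 260) (nat_lit 123)) (XT.lf (nat_lit 0) (nat_lit 998857568513) (nat_lit 76) (nat_lit 900610362589) (nat_lit 152) (nat_lit 3434942602196) (nat_lit 8) (nat_lit 5) (nat_lit 9) (nat_lit 5) (nat_lit 10) (nat_lit 4) (nat_lit 278) (nat_lit 260) (nat_lit 122))) (XT.nd (nat_lit 78) (nat_lit 76) (nat_lit 0) (XT.lf (nat_lit 0) (nat_lit 3108427684102) (nat_lit 152) (nat_lit 2398699794633) (nat_lit 0) (nat_lit 425820305798) (nat_lit 8) (nat_lit 5) (nat_lit 10) (nat_lit 4) (nat_lit 8) (nat_lit 4) (nat_lit 279) (nat_lit 260) (nat_lit 121)) (XT.nd (nat_lit 78) (nat_lit 76) (nat_lit 0) (XT.lf (nat_lit 0) (nat_lit 4541617606390) (nat_lit 152) (nat_lit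 214204859308) (nat_lit 0) (nat_lit 1859010226806) (nat_lit 8) (nat_lit 5) (nat_lit 10) (nat_lit 4) (nat_lit 8) (nat_lit 4) (nat_lit 280) (nat_lit 260) (nat_lit 120)) (XT.lf (nat_lit 0) (nat_lit 2522538099283) (nat_lit 76) (nat_lit 3771700839882) (nat_lit 76) (nat_lit 1089093459186) (nat_lit 7) (nat_lit 4) (nat_lit 8) (nat_lit 5) (nat_lit 8) (nat_lit 4) (nat_lit 281) (nat_lit 260) (nat_lit 119)))))) (XT.nd (nat_lit 312) (nat_lit 76) (nat_lit 0) (XT.nd (nat_lit 156) (nat_lit 0) (nat_lit 0) (XT.nd (nat_lit 78) (nat_lit 76) (nat_lit 0) (XT.lf (nat_lit 0) (nat_lit 50579998196) (nat_lit 152) (nat_lit 2573860385540) (nat_lit 76) (nat_lit 5640642252061) (nat_lit 6) (nat_lit 5) (nat_lit 8) (nat_lit 5) (nat_lit 7) (nat_lit 4) (nat_lit 282) (nat_lit 260) (nat_lit 118)) (XT.lf (nat_lit 0) (nat_lit 4667558027) (nat_lit 76) (nat_lit 1245227763150) (nat_lit 152) (nat_lit 8021391857806) (nat_lit 5)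 (nat_lit 5) (nat_lit 6) (nat_lit 5) (nat_lit 7) (nat_lit 4) (nat_lit 283) (nat_lit 260) (nat_lit 117))) (XT.nd (nat_lit 78) (nat_lit 0) (nat_lit 0) (XT.lf (nat_lit 0) (nat_lit 2784172004119) (nat_lit 152) (nat_lit 7169520858561) (nat_lit 0) (nat_lit 451469931740) (nat_lit 5) (nat_lit 5) (nat_lit 7) (nat_lit 4) (nat_lit 5) (nat_lit 4) (nat_lit 284) (nat_lit 260) (nat_lit 116)) (XT.lf (nat_lit 0) (nat_lit 4607886748757) (nat_lit 152) (nat_lit 4817153843704) (nat_lit 0) (nat_lit 2275184675824) (nat_lit 5) (nat_lit 5) (nat_lit 7) (nat_lit 4) (nat_lit 5) (nat_lit 4) (nat_lit 285) (nat_lit 260) (nat_lit 115)))) (XT.nd (nat_lit 156) (nat_lit 0) (nat_lit 0) (XT.nd (nat_lit 78) (nat_lit 76) (nat_lit 0) (XT.lf (nat_lit 0) (nat_lit 6705158704312) (nat_lit 152) (nat_lit 2111931778137) (nat_lit 0) (nat_lit 4372456630899) (nat_lit 5) (nat_lit 5) (nat_lit 7) (nat_lit 4) (nat_lit 5) (nat_lit 4) (nat_lit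 286) (nat_lit 260) (nat_lit 114)) (XT.lf (nat_lit 0) (nat_lit 1096710333727) (nat_lit 76) (nat_lit 8065723554975) (nat_lit 76) (nat_lit 5733021481144) (nat_lit 4) (nat_lit 4) (nat_lit 5) (nat_lit 5) (nat_lit 5) (nat_lit 4) (nat_lit 287) (nat_lit 260) (nat_lit 113))) (XT.nd (nat_lit 78) (nat_lit 0) (nat_lit 0) (XT.lf (nat_lit 0) (nat_lit 5024001093904) (nat_lit 76) (nat_lit 7074695690064) (nat_lit 76) (nat_lit 4741993615869) (nat_lit 4) (nat_lit 4) (nat_lit 5) (nat_lit 5) (nat_lit 5) (nat_lit 4) (nat_lit 288) (nat_lit 260) (nat_lit 112)) (XT.nd (nat_lit 78) (nat_lit 0) (nat_lit 0) (XT.lf (nat_lit 0) (nat_lit 9540385467011) (nat_lit 76) (nat_lit 5935013645956) (nat_lit 76) (nat_lit 3602311571444) (nat_lit 4) (nat_lit 4) (nat_lit 5) (nat_lit 5) (nat_lit 5) (nat_lit 4) (nat_lit 289) (nat_lit 260) (nat_lit 111)) (XT.lf (nat_lit 0) (nat_lit 14734227495130) (nat_lit 76) (nat_lit 4624379295700)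 (nat_lit 76) (nat_lit 2291677220914) (nat_lit 4) (nat_lit 4) (nat_lit 5) (nat_lit 5) (nat_lit 5) (nat_lit 4) (nat_lit 290) (nat_lit 260) (nat_lit 110))))))))
noncomputable def xc117 : XT := (XT.nd (nat_lit 32916) (nat_lit 0) (nat_lit 152) (XT.nd (nat_lit 32214) (nat_lit 0) (nat_lit 912) (XT.nd (nat_lit 780) (nat_lit 0) (nat_lit 0) (XT.nd (nat_lit 624) (nat_lit 0) (nat_lit 0) (XT.nd (nat_lit 546) (nat_lit 76) (nat_lit 0) (XT.lf (nat_lit 0) (nat_lit 864391577837) (nat_lit 152) (nat_lit 474260182883) (nat_lit 76) (nat_lit 26666426224108) (nat_lit 3) (nat_lit 5) (nat_lit 5) (nat_lit 5) (nat_lit 4) (nat_lit 4) (nat_lit 292) (nat_lit 260) (nat_lit 108)) (XT.lf (nat_lit 0) (nat_lit 23896405650929) (nat_lit 152) (nat_lit 24962779846208) (nat_lit 0) (nat_lit 21867969063018) (nat_lit 2) (nat_lit 5) (nat_lit 4) (nat_lit 4) (nat_lit 2) (nat_lit 4) (nat_lit 299) (nat_lit 260) (nat_lit 101))) (XT.nd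 (nat_lit 78) (nat_lit 0) (nat_lit 0) (XT.lf (nat_lit 0) (nat_lit 29451140528822) (nat_lit 152) (nat_lit 24119191210238) (nat_lit 0) (nat_lit 27422703940852) (nat_lit 2) (nat_lit 5) (nat_lit 4) (nat_lit 4) (nat_lit 2) (nat_lit 4) (nat_lit 300) (nat_lit 260) (nat_lit 100)) (XT.lf (nat_lit 0) (nat_lit 35839085638276) (nat_lit 152) (nat_lit 23149064279121) (nat_lit 0) (nat_lit 33810649050254) (nat_lit 2) (nat_lit 5) (nat_lit 4) (nat_lit 4) (nat_lit 2) (nat_lit 4) (nat_lit 301) (nat_lit 260) (nat_lit 99)))) (XT.nd (nat_lit 31200) (nat_lit 0) (nat_lit 1368) (XT.nd (nat_lit 78) (nat_lit 0) (nat_lit 0) (XT.lf (nat_lit 0) (nat_lit 43185222514039) (nat_lit 152) (nat_lit 22033418308555) (nat_lit 0) (nat_lit 41156785925973) (nat_lit 2) (nat_lit 5) (nat_lit 4) (nat_lit 4) (nat_lit 2) (nat_lit 4) (nat_lit 302) (nat_lit 260) (nat_lit 98)) (XT.lf (nat_lit 0) (nat_lit 51633279921074) (nat_lit 152) (nat_lit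 20750425442593) (nat_lit 0) (nat_lit 49604843332968) (nat_lit 2) (nat_lit 5) (nat_lit 4) (nat_lit 4) (nat_lit 2) (nat_lit 4) (nat_lit 303) (nat_lit 260) (nat_lit 97))) (XT.nd (nat_lit 78) (nat_lit 0) (nat_lit 0) (XT.lf (nat_lit 0) (nat_lit 72688278811) (nat_lit 380) (nat_lit 277681241046) (nat_lit 380) (nat_lit 277681241046) (nat_lit 20) (nat_lit 3) (nat_lit 25) (nat_lit 3) (nat_lit 25) (nat_lit 5) (nat_lit 261) (nat_lit 261) (nat_lit 138)) (XT.nd (nat_lit 78) (nat_lit 0) (nat_lit 76) (XT.lf (nat_lit 76) (nat_lit 20249943163) (nat_lit 0) (nat_lit 136868400614) (nat_lit 380) (nat_lit 1193065010325) (nat_lit 21) (nat_lit 5) (nat_lit 20) (nat_lit 3) (nat_lit 25) (nat_lit 5) (nat_lit 262) (nat_lit 261) (nat_lit 137)) (XT.lf (nat_lit 0) (nat_lit 222217652705) (nat_lit 304) (nat_lit 731969467831) (nat_lit 380) (nat_lit 496450902513) (nat_lit 21) (nat_lit 5) (nat_lit 25) (nat_lit 5) (nat_lit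 26) (nat_lit 5) (nat_lit 263) (nat_lit 261) (nat_lit 136)))))) (XT.nd (nat_lit 312) (nat_lit 304) (nat_lit 0) (XT.nd (nat_lit 156) (nat_lit 228) (nat_lit 0) (XT.nd (nat_lit 78) (nat_lit 0) (nat_lit 76) (XT.lf (nat_lit 0) (nat_lit 303599395014) (nat_lit 304) (nat_lit 50828480824) (nat_lit 380) (nat_lit 1210755385973) (nat_lit 21) (nat_lit 5) (nat_lit 25) (nat_lit 5) (nat_lit 26) (nat_lit 5) (nat_lit 264) (nat_lit 261) (nat_lit 135)) (XT.lf (nat_lit 0) (nat_lit 445952428961) (nat_lit 304) (nat_lit 903318124862) (nat_lit 76) (nat_lit 340325128046) (nat_lit 22) (nat_lit 5) (nat_lit 26) (nat_lit 5) (nat_lit 23) (nat_lit 5) (nat_lit 265) (nat_lit 261) (nat_lit 134))) (XT.nd (nat_lit 78) (nat_lit 304) (nat_lit 0) (XT.lf (nat_lit 0) (nat_lit 629319395773) (nat_lit 304) (nat_lit 94613538427) (nat_lit 76) (nat_lit 1105787884092) (nat_lit 22) (nat_lit 5) (nat_lit 26) (nat_lit 5) (nat_lit 23) (nat_lit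 5) (nat_lit 266) (nat_lit 261) (nat_lit 133)) (XT.lf (nat_lit 0) (nat_lit 879773663278) (nat_lit 380) (nat_lit 1069740743676) (nat_lit 76) (nat_lit 35412979893) (nat_lit 18) (nat_lit 5) (nat_lit 23) (nat_lit 5) (nat_lit 19) (nat_lit 5) (nat_lit 267) (nat_lit 261) (nat_lit 132)))) (XT.nd (nat_lit 156) (nat_lit 152) (nat_lit 0) (XT.nd (nat_lit 78) (nat_lit 152) (nat_lit 0) (XT.lf (nat_lit 0) (nat_lit 1207450281746) (nat_lit 380) (nat_lit 110291472130) (nat_lit 76) (nat_lit 839725055200) (nat_lit 18) (nat_lit 5) (nat_lit 23) (nat_lit 5) (nat_lit 19) (nat_lit 5) (nat_lit 268) (nat_lit 261) (nat_lit 131)) (XT.lf (nat_lit 0) (nat_lit 1090125715908) (nat_lit 152) (nat_lit 539292455133) (nat_lit 228) (nat_lit 719698006904) (nat_lit 16) (nat_lit 5) (nat_lit 18) (nat_lit 5) (nat_lit 19) (nat_lit 5) (nat_lit 269) (nat_lit 261) (nat_lit 130))) (XT.nd (nat_lit 78) (nat_lit 152) (nat_lit 0) (XT.lf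 (nat_lit 0) (nat_lit 2135459075616) (nat_lit 228) (nat_lit 100660029899) (nat_lit 76) (nat_lit 330277171860) (nat_lit 16) (nat_lit 5) (nat_lit 19) (nat_lit 5) (nat_lit 17) (nat_lit 4) (nat_lit 270) (nat_lit 261) (nat_lit 129)) (XT.nd (nat_lit 78) (nat_lit 76) (nat_lit 0) (XT.lf (nat_lit 0) (nat_lit 1323572990725) (nat_lit 76) (nat_lit 1474320050740) (nat_lit 152) (nat_lit 6302311427) (nat_lit 15) (nat_lit 5) (nat_lit 16) (nat_lit 5) (nat_lit 17) (nat_lit 4) (nat_lit 271) (nat_lit 261) (nat_lit 128)) (XT.lf (nat_lit 0) (nat_lit 444626695822) (nat_lit 152) (nat_lit 124331552507) (nat_lit 76) (nat_lit 2504885229973) (nat_lit 14) (nat_lit 5) (nat_lit 16) (nat_lit 5) (nat_lit 15) (nat_lit 5) (nat_lit 272) (nat_lit 261) (nat_lit 127))))))) (XT.nd (nat_lit 702) (nat_lit 304) (nat_lit 0) (XT.nd (nat_lit 312) (nat_lit 228) (nat_lit 0) (XT.nd (nat_lit 156) (nat_lit 76) (nat_lit 0) (XT.nd (nat_lit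 78) (nat_lit 0) (nat_lit 0) (XT.lf (nat_lit 0) (nat_lit 1050455452235) (nat_lit 228) (nat_lit 1821431263001) (nat_lit 76) (nat_lit 498821245575) (nat_lit 12) (nat_lit 5) (nat_lit 15) (nat_lit 5) (nat_lit 13) (nat_lit 4) (nat_lit 273) (nat_lit 261) (nat_lit 126)) (XT.lf (nat_lit 0) (nat_lit 1781060402640) (nat_lit 228) (nat_lit 250630623032) (nat_lit 76) (nat_lit 1675325807950) (nat_lit 12) (nat_lit 5) (nat_lit 15) (nat_lit 5) (nat_lit 13) (nat_lit 4) (nat_lit 274) (nat_lit 261) (nat_lit 125))) (XT.nd (nat_lit 78) (nat_lit 0) (nat_lit 0) (XT.lf (nat_lit 0) (nat_lit 1707833234492) (nat_lit 76) (nat_lit 984140591628) (nat_lit 152) (nat_lit 1391190551664) (nat_lit 11) (nat_lit 5) (nat_lit 12) (nat_lit 5) (nat_lit 13) (nat_lit 4) (nat_lit 275) (nat_lit 261) (nat_lit 124)) (XT.lf (nat_lit 0) (nat_lit 3762381462531) (nat_lit 152) (nat_lit 535290804464) (nat_lit 0) (nat_lit 214633206669) (nat_lit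 11) (nat_lit 5) (nat_lit 13) (nat_lit 4) (nat_lit 11) (nat_lit 4) (nat_lit 276) (nat_lit 261) (nat_lit 123)))) (XT.nd (nat_lit 156) (nat_lit 76) (nat_lit 0) (XT.nd (nat_lit 78) (nat_lit 0) (nat_lit 0) (XT.lf (nat_lit 0) (nat_lit 110780364126) (nat_lit 152) (nat_lit 3309570474936) (nat_lit 76) (nat_lit 1567223645964) (nat_lit 9) (nat_lit 5) (nat_lit 11) (nat_lit 5) (nat_lit 10) (nat_lit 4) (nat_lit 277) (nat_lit 261) (nat_lit 122)) (XT.lf (nat_lit 0) (nat_lit 1053126003810) (nat_lit 152) (nat_lit 1283527351307) (nat_lit 76) (nat_lit 3187726861506) (nat_lit 9) (nat_lit 5) (nat_lit 11) (nat_lit 5) (nat_lit 10) (nat_lit 4) (nat_lit 278) (nat_lit 261) (nat_lit 121))) (XT.nd (nat_lit 78) (nat_lit 0) (nat_lit 0) (XT.lf (nat_lit 0) (nat_lit 1148686230139) (nat_lit 76) (nat_lit 1035701905260) (nat_lit 152) (nat_lit 3950183975670) (nat_lit 8) (nat_lit 5) (nat_lit 9) (nat_lit 5) (nat_lit 10) (nat_lit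 4) (nat_lit 279) (nat_lit 261) (nat_lit 120)) (XT.nd (nat_lit 78) (nat_lit 0) (nat_lit 0) (XT.lf (nat_lit 0) (nat_lit 3574691849862) (nat_lit 152) (nat_lit 2758504739404) (nat_lit 0) (nat_lit 489693360949) (nat_lit 8) (nat_lit 5) (nat_lit 10) (nat_lit 4) (nat_lit 8) (nat_lit 4) (nat_lit 280) (nat_lit 261) (nat_lit 119)) (XT.lf (nat_lit 0) (nat_lit 5222860258779) (nat_lit 152) (nat_lit 246335566966) (nat_lit 0) (nat_lit 2137861768898) (nat_lit 8) (nat_lit 5) (nat_lit 10) (nat_lit 4) (nat_lit 8) (nat_lit 4) (nat_lit 281) (nat_lit 261) (nat_lit 118)))))) (XT.nd (nat_lit 312) (nat_lit 76) (nat_lit 0) (XT.nd (nat_lit 156) (nat_lit 76) (nat_lit 0) (XT.nd (nat_lit 78) (nat_lit 76) (nat_lit 0) (XT.lf (nat_lit 0) (nat_lit 2900918834448) (nat_lit 76) (nat_lit 4337455956371) (nat_lit 76) (nat_lit 1252457465649) (nat_lit 7) (nat_lit 4) (nat_lit 8) (nat_lit 5) (nat_lit 8) (nat_lit 4) (nat_lit 282)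 (nat_lit 261) (nat_lit 117)) (XT.lf (nat_lit 0) (nat_lit 58167007760) (nat_lit 152) (nat_lit 2959939424767) (nat_lit 76) (nat_lit 6486738597151) (nat_lit 6) (nat_lit 5) (nat_lit 8) (nat_lit 5) (nat_lit 7) (nat_lit 4) (nat_lit 283) (nat_lit 261) (nat_lit 116))) (XT.nd (nat_lit 78) (nat_lit 0) (nat_lit 0) (XT.lf (nat_lit 0) (nat_lit 5367709490) (nat_lit 76) (nat_lit 1432011919151) (nat_lit 152) (nat_lit 9224600625784) (nat_lit 5) (nat_lit 5) (nat_lit 6) (nat_lit 5) (nat_lit 7) (nat_lit 4) (nat_lit 284) (nat_lit 261) (nat_lit 115)) (XT.lf (nat_lit 0) (nat_lit 3201797813118) (nat_lit 152) (nat_lit 8244948970985) (nat_lit 0) (nat_lit 519190428212) (nat_lit 5) (nat_lit 5) (nat_lit 7) (nat_lit 4) (nat_lit 5) (nat_lit 4) (nat_lit 285) (nat_lit 261) (nat_lit 114)))) (XT.nd (nat_lit 156) (nat_lit 76) (nat_lit 0) (XT.nd (nat_lit 78) (nat_lit 0) (nat_lit 0) (XT.lf (nat_lit 0) (nat_lit 5299069768358)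 (nat_lit 152) (nat_lit 5539726906034) (nat_lit 0) (nat_lit 2616462383034) (nat_lit 5) (nat_lit 5) (nat_lit 7) (nat_lit 4) (nat_lit 5) (nat_lit 4) (nat_lit 286) (nat_lit 261) (nat_lit 113)) (XT.lf (nat_lit 0) (nat_lit 7710932516296) (nat_lit 152) (nat_lit 2428721532488) (nat_lit 0) (nat_lit 5028325130608) (nat_lit 5) (nat_lit 5) (nat_lit 7) (nat_lit 4) (nat_lit 5) (nat_lit 4) (nat_lit 287) (nat_lit 261) (nat_lit 112))) (XT.nd (nat_lit 78) (nat_lit 0) (nat_lit 0) (XT.lf (nat_lit 0) (nat_lit 1261216895594) (nat_lit 76) (nat_lit 9275582082413) (nat_lit 76) (nat_lit 6592974696409) (nat_lit 4) (nat_lit 4) (nat_lit 5) (nat_lit 5) (nat_lit 5) (nat_lit 4) (nat_lit 288) (nat_lit 261) (nat_lit 111)) (XT.nd (nat_lit 78) (nat_lit 0) (nat_lit 0) (XT.lf (nat_lit 0) (nat_lit 5777601268257) (nat_lit 76) (nat_lit 8135900038523) (nat_lit 76) (nat_lit 5453292652244) (nat_lit 4) (nat_lit 4) (nat_lit 5) (nat_lit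 5) (nat_lit 5) (nat_lit 4) (nat_lit 289) (nat_lit 261) (nat_lit 110)) (XT.lf (nat_lit 0) (nat_lit 10971443295991) (nat_lit 76) (nat_lit 6825265688457) (nat_lit 76) (nat_lit 4142658301939) (nat_lit 4) (nat_lit 4) (nat_lit 5) (nat_lit 5) (nat_lit 5) (nat_lit 4) (nat_lit 290) (nat_lit 261) (nat_lit 109))))))))
noncomputable def xc118 : XT := (XT.nd (nat_lit 33306) (nat_lit 0) (nat_lit 152) (XT.nd (nat_lit 32604) (nat_lit 0) (nat_lit 684) (XT.nd (nat_lit 32214) (nat_lit 0) (nat_lit 1368) (XT.nd (nat_lit 702) (nat_lit 152) (nat_lit 0) (XT.nd (nat_lit 78) (nat_lit 0) (nat_lit 0) (XT.lf (nat_lit 0) (nat_lit 16944361627163) (nat_lit 76) (nat_lit 5318036186236) (nat_lit 76) (nat_lit 2635428799510) (nat_lit 4) (nat_lit 4) (nat_lit 5) (nat_lit 5) (nat_lit 5) (nat_lit 4) (nat_lit 291) (nat_lit 261) (nat_lit 108)) (XT.lf (nat_lit 0) (nat_lit 23813217707385) (nat_lit 76) (nat_lit 3584722258990) (nat_lit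 76) (nat_lit 902114872083) (nat_lit 4) (nat_lit 4) (nat_lit 5) (nat_lit 5) (nat_lit 5) (nat_lit 4) (nat_lit 292) (nat_lit 261) (nat_lit 107))) (XT.nd (nat_lit 31434) (nat_lit 0) (nat_lit 1368) (XT.lf (nat_lit 0) (nat_lit 27480866499903) (nat_lit 152) (nat_lit 28707196820448) (nat_lit 0) (nat_lit 25148164423626) (nat_lit 2) (nat_lit 5) (nat_lit 4) (nat_lit 4) (nat_lit 2) (nat_lit 4) (nat_lit 300) (nat_lit 261) (nat_lit 99)) (XT.lf (nat_lit 0) (nat_lit 83591556455) (nat_lit 380) (nat_lit 319333406514) (nat_lit 380) (nat_lit 319333406514) (nat_lit 20) (nat_lit 3) (nat_lit 25) (nat_lit 3) (nat_lit 25) (nat_lit 5) (nat_lit 262) (nat_lit 262) (nat_lit 136)))) (XT.nd (nat_lit 156) (nat_lit 0) (nat_lit 76) (XT.nd (nat_lit 78) (nat_lit 0) (nat_lit 76) (XT.lf (nat_lit 76) (nat_lit 23287474133) (nat_lit 0) (nat_lit 157398685145) (nat_lit 380) (nat_lit 1372024688033) (nat_lit 21) (nat_lit 5) (nat_lit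 20) (nat_lit 3) (nat_lit 25) (nat_lit 5) (nat_lit 263) (nat_lit 262) (nat_lit 135)) (XT.lf (nat_lit 0) (nat_lit 255550355326) (nat_lit 304) (nat_lit 841764844167) (nat_lit 380) (nat_lit 570918518531) (nat_lit 21) (nat_lit 5) (nat_lit 25) (nat_lit 5) (nat_lit 26) (nat_lit 5) (nat_lit 264) (nat_lit 262) (nat_lit 134))) (XT.nd (nat_lit 78) (nat_lit 0) (nat_lit 76) (XT.lf (nat_lit 0) (nat_lit 349139351845) (nat_lit 304) (nat_lit 58452714827) (nat_lit 380) (nat_lit 1392368677035) (nat_lit 21) (nat_lit 5) (nat_lit 25) (nat_lit 5) (nat_lit 26) (nat_lit 5) (nat_lit 265) (nat_lit 262) (nat_lit 133)) (XT.nd (nat_lit 78) (nat_lit 0) (nat_lit 0) (XT.lf (nat_lit 0) (nat_lit 512845335916) (nat_lit 304) (nat_lit 1038815800295) (nat_lit 76) (nat_lit 391373891339) (nat_lit 22) (nat_lit 5) (nat_lit 26) (nat_lit 5) (nat_lit 23) (nat_lit 5) (nat_lit 266) (nat_lit 262) (nat_lit 132)) (XT.lf (nat_lit 0) (nat_lit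 723717342192) (nat_lit 304) (nat_lit 108805531542) (nat_lit 76) (nat_lit 1271656061564) (nat_lit 22) (nat_lit 5) (nat_lit 26) (nat_lit 5) (nat_lit 23) (nat_lit 5) (nat_lit 267) (nat_lit 262) (nat_lit 131)))))) (XT.nd (nat_lit 312) (nat_lit 380) (nat_lit 0) (XT.nd (nat_lit 156) (nat_lit 152) (nat_lit 0) (XT.nd (nat_lit 78) (nat_lit 0) (nat_lit 0) (XT.lf (nat_lit 0) (nat_lit 1011739746570) (nat_lit 380) (nat_lit 1230201814169) (nat_lit 76) (nat_lit 40724928908) (nat_lit 18) (nat_lit 5) (nat_lit 23) (nat_lit 5) (nat_lit 19) (nat_lit 5) (nat_lit 268) (nat_lit 262) (nat_lit 130)) (XT.lf (nat_lit 0) (nat_lit 1388567853399) (nat_lit 380) (nat_lit 126835157246) (nat_lit 76) (nat_lit 965683815247) (nat_lit 18) (nat_lit 5) (nat_lit 23) (nat_lit 5) (nat_lit 19) (nat_lit 5) (nat_lit 269) (nat_lit 262) (nat_lit 129))) (XT.nd (nat_lit 78) (nat_lit 0) (nat_lit 0) (XT.lf (nat_lit 0) (nat_lit 1253644607375)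 (nat_lit 152) (nat_lit 620186316292) (nat_lit 228) (nat_lit 827652676806) (nat_lit 16) (nat_lit 5) (nat_lit 18) (nat_lit 5) (nat_lit 19) (nat_lit 5) (nat_lit 270) (nat_lit 262) (nat_lit 128)) (XT.lf (nat_lit 0) (nat_lit 2455777960666) (nat_lit 228) (nat_lit 115759001384) (nat_lit 76) (nat_lit 379818753272) (nat_lit 16) (nat_lit 5) (nat_lit 19) (nat_lit 5) (nat_lit 17) (nat_lit 4) (nat_lit 271) (nat_lit 262) (nat_lit 127)))) (XT.nd (nat_lit 156) (nat_lit 228) (nat_lit 0) (XT.nd (nat_lit 78) (nat_lit 76) (nat_lit 0) (XT.lf (nat_lit 0) (nat_lit 1522108970834) (nat_lit 76) (nat_lit 1695468048771) (nat_lit 152) (nat_lit 7247632844) (nat_lit 15) (nat_lit 5) (nat_lit 16) (nat_lit 5) (nat_lit 17) (nat_lit 4) (nat_lit 272) (nat_lit 262) (nat_lit 126)) (XT.lf (nat_lit 0) (nat_lit 511320720234) (nat_lit 152) (nat_lit 142981255965) (nat_lit 76) (nat_lit 2880618020774) (nat_lit 14) (nat_lit 5) (nat_lit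 16) (nat_lit 5) (nat_lit 15) (nat_lit 5) (nat_lit 273) (nat_lit 262) (nat_lit 125))) (XT.nd (nat_lit 78) (nat_lit 76) (nat_lit 0) (XT.lf (nat_lit 0) (nat_lit 1208023789051) (nat_lit 228) (nat_lit 2094645921916) (nat_lit 76) (nat_lit 573644441059) (nat_lit 12) (nat_lit 5) (nat_lit 15) (nat_lit 5) (nat_lit 13) (nat_lit 4) (nat_lit 274) (nat_lit 262) (nat_lit 124)) (XT.nd (nat_lit 78) (nat_lit 76) (nat_lit 0) (XT.lf (nat_lit 0) (nat_lit 2048219479542) (nat_lit 228) (nat_lit 288225189934) (nat_lit 76) (nat_lit 1926624686662) (nat_lit 12) (nat_lit 5) (nat_lit 15) (nat_lit 5) (nat_lit 13) (nat_lit 4) (nat_lit 275) (nat_lit 262) (nat_lit 123)) (XT.lf (nat_lit 0) (nat_lit 1964008245011) (nat_lit 76) (nat_lit 1131761670430) (nat_lit 152) (nat_lit 1599869116656) (nat_lit 11) (nat_lit 5) (nat_lit 12) (nat_lit 5) (nat_lit 13) (nat_lit 4) (nat_lit 276) (nat_lit 262) (nat_lit 122))))))) (XT.nd (nat_lit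 702) (nat_lit 76) (nat_lit 0) (XT.nd (nat_lit 312) (nat_lit 228) (nat_lit 0) (XT.nd (nat_lit 156) (nat_lit 76) (nat_lit 0) (XT.nd (nat_lit 78) (nat_lit 152) (nat_lit 0) (XT.lf (nat_lit 0) (nat_lit 4326738695662) (nat_lit 152) (nat_lit 615584401405) (nat_lit 0) (nat_lit 246828195546) (nat_lit 11) (nat_lit 5) (nat_lit 13) (nat_lit 4) (nat_lit 11) (nat_lit 4) (nat_lit 277) (nat_lit 262) (nat_lit 121)) (XT.lf (nat_lit 0) (nat_lit 127397432285) (nat_lit 152) (nat_lit 3806006022173) (nat_lit 76) (nat_lit 1802307201261) (nat_lit 9) (nat_lit 5) (nat_lit 11) (nat_lit 5) (nat_lit 10) (nat_lit 4) (nat_lit 278) (nat_lit 262) (nat_lit 120))) (XT.nd (nat_lit 78) (nat_lit 76) (nat_lit 0) (XT.lf (nat_lit 0) (nat_lit 1211094916155) (nat_lit 152) (nat_lit 1476056433131) (nat_lit 76) (nat_lit 3665885898038) (nat_lit 9) (nat_lit 5) (nat_lit 11) (nat_lit 5) (nat_lit 10) (nat_lit 4) (nat_lit 279) (nat_lit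 262) (nat_lit 119)) (XT.lf (nat_lit 0) (nat_lit 1320989184583) (nat_lit 76) (nat_lit 1191057182189) (nat_lit 152) (nat_lit 4542711559276) (nat_lit 8) (nat_lit 5) (nat_lit 9) (nat_lit 5) (nat_lit 10) (nat_lit 4) (nat_lit 280) (nat_lit 262) (nat_lit 118)))) (XT.nd (nat_lit 156) (nat_lit 228) (nat_lit 0) (XT.nd (nat_lit 78) (nat_lit 0) (nat_lit 0) (XT.lf (nat_lit 0) (nat_lit 4110895637281) (nat_lit 152) (nat_lit 3172280431847) (nat_lit 0) (nat_lit 563147372110) (nat_lit 8) (nat_lit 5) (nat_lit 10) (nat_lit 4) (nat_lit 8) (nat_lit 4) (nat_lit 281) (nat_lit 262) (nat_lit 117)) (XT.lf (nat_lit 0) (nat_lit 6006289306238) (nat_lit 152) (nat_lit 283285885952) (nat_lit 0) (nat_lit 2458541040336) (nat_lit 8) (nat_lit 5) (nat_lit 10) (nat_lit 4) (nat_lit 8) (nat_lit 4) (nat_lit 282) (nat_lit 262) (nat_lit 116))) (XT.nd (nat_lit 78) (nat_lit 152) (nat_lit 0) (XT.lf (nat_lit 0) (nat_lit 3336056674945)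 (nat_lit 76) (nat_lit 4988074342647) (nat_lit 76) (nat_lit 1440326076109) (nat_lit 7) (nat_lit 4) (nat_lit 8) (nat_lit 5) (nat_lit 8) (nat_lit 4) (nat_lit 283) (nat_lit 262) (nat_lit 115)) (XT.nd (nat_lit 78) (nat_lit 76) (nat_lit 0) (XT.lf (nat_lit 0) (nat_lit 66892066360) (nat_lit 152) (nat_lit 3403930324415) (nat_lit 76) (nat_lit 7459749392228) (nat_lit 6) (nat_lit 5) (nat_lit 8) (nat_lit 5) (nat_lit 7) (nat_lit 4) (nat_lit 284) (nat_lit 262) (nat_lit 114)) (XT.lf (nat_lit 0) (nat_lit 6172879342) (nat_lit 76) (nat_lit 1646813700618) (nat_lit 152) (nat_lit 10608290711566) (nat_lit 5) (nat_lit 5) (nat_lit 6) (nat_lit 5) (nat_lit 7) (nat_lit 4) (nat_lit 285) (nat_lit 262) (nat_lit 113)))))) (XT.nd (nat_lit 312) (nat_lit 0) (nat_lit 0) (XT.nd (nat_lit 156) (nat_lit 76) (nat_lit 0) (XT.nd (nat_lit 78) (nat_lit 0) (nat_lit 0) (XT.lf (nat_lit 0) (nat_lit 3682067491422) (nat_lit 152) (nat_lit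 9481691304263) (nat_lit 0) (nat_lit 597068997518) (nat_lit 5) (nat_lit 5) (nat_lit 7) (nat_lit 4) (nat_lit 5) (nat_lit 4) (nat_lit 286) (nat_lit 262) (nat_lit 112)) (XT.lf (nat_lit 0) (nat_lit 6093930239122) (nat_lit 152) (nat_lit 6370685931182) (nat_lit 0) (nat_lit 3008931744901) (nat_lit 5) (nat_lit 5) (nat_lit 7) (nat_lit 4) (nat_lit 5) (nat_lit 4) (nat_lit 287) (nat_lit 262) (nat_lit 111))) (XT.nd (nat_lit 78) (nat_lit 76) (nat_lit 0) (XT.lf (nat_lit 0) (nat_lit 8867572398532) (nat_lit 152) (nat_lit 2793029753007) (nat_lit 0) (nat_lit 5782573904036) (nat_lit 5) (nat_lit 5) (nat_lit 7) (nat_lit 4) (nat_lit 5) (nat_lit 4) (nat_lit 288) (nat_lit 262) (nat_lit 110)) (XT.lf (nat_lit 0) (nat_lit 1450399438862) (nat_lit 76) (nat_lit 10666919390383) (nat_lit 76) (nat_lit 7581920895648) (nat_lit 4) (nat_lit 4) (nat_lit 5) (nat_lit 5) (nat_lit 5) (nat_lit 4) (nat_lit 289) (nat_lit 262) (nat_lit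 109)))) (XT.nd (nat_lit 156) (nat_lit 0) (nat_lit 0) (XT.nd (nat_lit 78) (nat_lit 0) (nat_lit 0) (XT.lf (nat_lit 0) (nat_lit 6644241466260) (nat_lit 76) (nat_lit 9356285040482) (nat_lit 76) (nat_lit 6271286545539) (nat_lit 4) (nat_lit 4) (nat_lit 5) (nat_lit 5) (nat_lit 5) (nat_lit 4) (nat_lit 290) (nat_lit 262) (nat_lit 108)) (XT.lf (nat_lit 0) (nat_lit 12617159797141) (nat_lit 76) (nat_lit 7849055538404) (nat_lit 76) (nat_lit 4764057043281) (nat_lit 4) (nat_lit 4) (nat_lit 5) (nat_lit 5) (nat_lit 5) (nat_lit 4) (nat_lit 291) (nat_lit 262) (nat_lit 107))) (XT.nd (nat_lit 32136) (nat_lit 0) (nat_lit 1216) (XT.lf (nat_lit 0) (nat_lit 19486015877109) (nat_lit 76) (nat_lit 6115741611284) (nat_lit 76) (nat_lit 3030743116003) (nat_lit 4) (nat_lit 4) (nat_lit 5) (nat_lit 5) (nat_lit 5) (nat_lit 4) (nat_lit 292) (nat_lit 262) (nat_lit 106)) (XT.nd (nat_lit 78) (nat_lit 0) (nat_lit 0) (XT.lf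 (nat_lit 0) (nat_lit 96130317010) (nat_lit 380) (nat_lit 367233401848) (nat_lit 380) (nat_lit 367233401848) (nat_lit 20) (nat_lit 3) (nat_lit 25) (nat_lit 3) (nat_lit 25) (nat_lit 5) (nat_lit 263) (nat_lit 263) (nat_lit 134)) (XT.lf (nat_lit 76) (nat_lit 26780625118) (nat_lit 0) (nat_lit 181008506396) (nat_lit 380) (nat_lit 1577828335404) (nat_lit 21) (nat_lit 5) (nat_lit 20) (nat_lit 3) (nat_lit 25) (nat_lit 5) (nat_lit 264) (nat_lit 263) (nat_lit 133))))))))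
noncomputable def xc119 : XT := (XT.nd (nat_lit 1404) (nat_lit 304) (nat_lit 0) (XT.nd (nat_lit 702) (nat_lit 532) (nat_lit 0) (XT.nd (nat_lit 312) (nat_lit 456) (nat_lit 0) (XT.nd (nat_lit 156) (nat_lit 0) (nat_lit 76) (XT.nd (nat_lit 78) (nat_lit 0) (nat_lit 0) (XT.lf (nat_lit 0) (nat_lit 293882949998) (nat_lit 304) (nat_lit 968029537644) (nat_lit 380) (nat_lit 656556281673) (nat_lit 21) (nat_lit 5) (nat_lit 25) (nat_lit 5) (nat_lit 26) (nat_lit 5) (nat_lit 265) (nat_lit 263) (nat_lit 132)) (XT.lf (nat_lit 0) (nat_lit 401510290598) (nat_lit 304) (nat_lit 67220593226) (nat_lit 380) (nat_lit 1601223965862) (nat_lit 21) (nat_lit 5) (nat_lit 25) (nat_lit 5) (nat_lit 26) (nat_lit 5) (nat_lit 266) (nat_lit 263) (nat_lit 131))) (XT.nd (nat_lit 78) (nat_lit 0) (nat_lit 0) (XT.lf (nat_lit 0) (nat_lit 589772168524) (nat_lit 304) (nat_lit 1194638137601) (nat_lit 76) (nat_lit 450079970568) (nat_lit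 22) (nat_lit 5) (nat_lit 26) (nat_lit 5) (nat_lit 23) (nat_lit 5) (nat_lit 267) (nat_lit 263) (nat_lit 130)) (XT.lf (nat_lit 0) (nat_lit 832274971538) (nat_lit 304) (nat_lit 125126332805) (nat_lit 76) (nat_lit 1462404466910) (nat_lit 22) (nat_lit 5) (nat_lit 26) (nat_lit 5) (nat_lit 23) (nat_lit 5) (nat_lit 268) (nat_lit 263) (nat_lit 129)))) (XT.nd (nat_lit 156) (nat_lit 228) (nat_lit 0) (XT.nd (nat_lit 78) (nat_lit 0) (nat_lit 0) (XT.lf (nat_lit 0) (nat_lit 1163500734113) (nat_lit 380) (nat_lit 1414732055248) (nat_lit 76) (nat_lit 46833669780) (nat_lit 18) (nat_lit 5) (nat_lit 23) (nat_lit 5) (nat_lit 19) (nat_lit 5) (nat_lit 269) (nat_lit 263) (nat_lit 128)) (XT.lf (nat_lit 0) (nat_lit 1596853053634) (nat_lit 380) (nat_lit 145860403836) (nat_lit 76) (nat_lit 1110536388869) (nat_lit 18) (nat_lit 5) (nat_lit 23) (nat_lit 5) (nat_lit 19) (nat_lit 5) (nat_lit 270) (nat_lit 263) (nat_lit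 127))) (XT.nd (nat_lit 78) (nat_lit 76) (nat_lit 0) (XT.lf (nat_lit 0) (nat_lit 1441691324251) (nat_lit 152) (nat_lit 713214258359) (nat_lit 228) (nat_lit 951800554786) (nat_lit 16) (nat_lit 5) (nat_lit 18) (nat_lit 5) (nat_lit 19) (nat_lit 5) (nat_lit 271) (nat_lit 263) (nat_lit 126)) (XT.nd (nat_lit 78) (nat_lit 76) (nat_lit 0) (XT.lf (nat_lit 0) (nat_lit 2824144672693) (nat_lit 228) (nat_lit 133122826639) (nat_lit 76) (nat_lit 436791570522) (nat_lit 16) (nat_lit 5) (nat_lit 19) (nat_lit 5) (nat_lit 17) (nat_lit 4) (nat_lit 272) (nat_lit 263) (nat_lit 125)) (XT.lf (nat_lit 0) (nat_lit 1750425340278) (nat_lit 76) (nat_lit 1949788248843) (nat_lit 152) (nat_lit 8334758642) (nat_lit 15) (nat_lit 5) (nat_lit 16) (nat_lit 5) (nat_lit 17) (nat_lit 4) (nat_lit 273) (nat_lit 263) (nat_lit 124)))))) (XT.nd (nat_lit 312) (nat_lit 228) (nat_lit 0) (XT.nd (nat_lit 156) (nat_lit 76) (nat_lit 0)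 (XT.nd (nat_lit 78) (nat_lit 152) (nat_lit 0) (XT.lf (nat_lit 0) (nat_lit 588018843422) (nat_lit 152) (nat_lit 164428422116) (nat_lit 76) (nat_lit 3312710728657) (nat_lit 14) (nat_lit 5) (nat_lit 16) (nat_lit 5) (nat_lit 15) (nat_lit 5) (nat_lit 274) (nat_lit 263) (nat_lit 123)) (XT.lf (nat_lit 0) (nat_lit 1389227371762) (nat_lit 228) (nat_lit 2408842787115) (nat_lit 76) (nat_lit 659691113756) (nat_lit 12) (nat_lit 5) (nat_lit 15) (nat_lit 5) (nat_lit 13) (nat_lit 4) (nat_lit 275) (nat_lit 263) (nat_lit 122))) (XT.nd (nat_lit 78) (nat_lit 76) (nat_lit 0) (XT.lf (nat_lit 0) (nat_lit 2355452413954) (nat_lit 228) (nat_lit 331458948348) (nat_lit 76) (nat_lit 2215618395348) (nat_lit 12) (nat_lit 5) (nat_lit 15) (nat_lit 5) (nat_lit 13) (nat_lit 4) (nat_lit 276) (nat_lit 263) (nat_lit 121)) (XT.lf (nat_lit 0) (nat_lit 2258609500927) (nat_lit 76) (nat_lit 1301525913476) (nat_lit 152) (nat_lit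 1839849470728) (nat_lit 11) (nat_lit 5) (nat_lit 12) (nat_lit 5) (nat_lit 13) (nat_lit 4) (nat_lit 277) (nat_lit 263) (nat_lit 120)))) (XT.nd (nat_lit 156) (nat_lit 76) (nat_lit 0) (XT.nd (nat_lit 78) (nat_lit 152) (nat_lit 0) (XT.lf (nat_lit 0) (nat_lit 4975749510409) (nat_lit 152) (nat_lit 707922043673) (nat_lit 0) (nat_lit 283852430833) (nat_lit 11) (nat_lit 5) (nat_lit 13) (nat_lit 4) (nat_lit 11) (nat_lit 4) (nat_lit 278) (nat_lit 263) (nat_lit 119)) (XT.lf (nat_lit 0) (nat_lit 146507057366) (nat_lit 152) (nat_lit 4376906907350) (nat_lit 76) (nat_lit 2072653287803) (nat_lit 9) (nat_lit 5) (nat_lit 11) (nat_lit 5) (nat_lit 10) (nat_lit 4) (nat_lit 279) (nat_lit 263) (nat_lit 118))) (XT.nd (nat_lit 78) (nat_lit 76) (nat_lit 0) (XT.lf (nat_lit 0) (nat_lit 1392759162482) (nat_lit 152) (nat_lit 1697464882318) (nat_lit 76) (nat_lit 4215768788269) (nat_lit 9) (nat_lit 5) (nat_lit 11) (nat_lit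 5) (nat_lit 10) (nat_lit 4) (nat_lit 280) (nat_lit 263) (nat_lit 117)) (XT.nd (nat_lit 78) (nat_lit 0) (nat_lit 0) (XT.lf (nat_lit 0) (nat_lit 1519137577336) (nat_lit 76) (nat_lit 1369715752818) (nat_lit 152) (nat_lit 5224118283530) (nat_lit 8) (nat_lit 5) (nat_lit 9) (nat_lit 5) (nat_lit 10) (nat_lit 4) (nat_lit 281) (nat_lit 263) (nat_lit 116)) (XT.lf (nat_lit 0) (nat_lit 4727529990389) (nat_lit 152) (nat_lit 3648122482659) (nat_lit 0) (nat_lit 647619483234) (nat_lit 8) (nat_lit 5) (nat_lit 10) (nat_lit 4) (nat_lit 8) (nat_lit 4) (nat_lit 282) (nat_lit 263) (nat_lit 115))))))) (XT.nd (nat_lit 702) (nat_lit 0) (nat_lit 0) (XT.nd (nat_lit 312) (nat_lit 76) (nat_lit 0) (XT.nd (nat_lit 156) (nat_lit 152) (nat_lit 0) (XT.nd (nat_lit 78) (nat_lit 76) (nat_lit 0) (XT.lf (nat_lit 0) (nat_lit 6907232708709) (nat_lit 152) (nat_lit 325778756702) (nat_lit 0) (nat_lit 2827322201001) (nat_lit 8)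 (nat_lit 5) (nat_lit 10) (nat_lit 4) (nat_lit 8) (nat_lit 4) (nat_lit 283) (nat_lit 263) (nat_lit 114)) (XT.lf (nat_lit 0) (nat_lit 3836465187777) (nat_lit 76) (nat_lit 5736285488616) (nat_lit 76) (nat_lit 1656374980427) (nat_lit 7) (nat_lit 4) (nat_lit 8) (nat_lit 5) (nat_lit 8) (nat_lit 4) (nat_lit 284) (nat_lit 263) (nat_lit 113))) (XT.nd (nat_lit 78) (nat_lit 76) (nat_lit 0) (XT.lf (nat_lit 0) (nat_lit 76925881937) (nat_lit 152) (nat_lit 3914519862440) (nat_lit 76) (nat_lit 8578711805225) (nat_lit 6) (nat_lit 5) (nat_lit 8) (nat_lit 5) (nat_lit 7) (nat_lit 4) (nat_lit 285) (nat_lit 263) (nat_lit 112)) (XT.lf (nat_lit 0) (nat_lit 7098821396) (nat_lit 76) (nat_lit 1893835750867) (nat_lit 152) (nat_lit 12199534312187) (nat_lit 5) (nat_lit 5) (nat_lit 6) (nat_lit 5) (nat_lit 7) (nat_lit 4) (nat_lit 286) (nat_lit 263) (nat_lit 111)))) (XT.nd (nat_lit 156) (nat_lit 76) (nat_lit 0) (XT.nd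 (nat_lit 78) (nat_lit 0) (nat_lit 0) (XT.lf (nat_lit 0) (nat_lit 4234377619927) (nat_lit 152) (nat_lit 10903944990549) (nat_lit 0) (nat_lit 686629350982) (nat_lit 5) (nat_lit 5) (nat_lit 7) (nat_lit 4) (nat_lit 5) (nat_lit 4) (nat_lit 287) (nat_lit 263) (nat_lit 110)) (XT.lf (nat_lit 0) (nat_lit 7008019779157) (nat_lit 152) (nat_lit 7326288812726) (nat_lit 0) (nat_lit 3460271509973) (nat_lit 5) (nat_lit 5) (nat_lit 7) (nat_lit 4) (nat_lit 5) (nat_lit 4) (nat_lit 288) (nat_lit 263) (nat_lit 109))) (XT.nd (nat_lit 78) (nat_lit 76) (nat_lit 0) (XT.lf (nat_lit 0) (nat_lit 10197708261935) (nat_lit 152) (nat_lit 3211984208886) (nat_lit 0) (nat_lit 6649959992543) (nat_lit 5) (nat_lit 5) (nat_lit 7) (nat_lit 4) (nat_lit 5) (nat_lit 4) (nat_lit 289) (nat_lit 263) (nat_lit 108)) (XT.nd (nat_lit 78) (nat_lit 0) (nat_lit 0) (XT.lf (nat_lit 0) (nat_lit 1667959361442) (nat_lit 76) (nat_lit 12266957295619)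 (nat_lit 76) (nat_lit 8719209026046) (nat_lit 4) (nat_lit 4) (nat_lit 5) (nat_lit 5) (nat_lit 5) (nat_lit 4) (nat_lit 290) (nat_lit 263) (nat_lit 107)) (XT.lf (nat_lit 0) (nat_lit 7640877692069) (nat_lit 76) (nat_lit 10759727793667) (nat_lit 76) (nat_lit 7211979523936) (nat_lit 4) (nat_lit 4) (nat_lit 5) (nat_lit 5) (nat_lit 5) (nat_lit 4) (nat_lit 291) (nat_lit 263) (nat_lit 106)))))) (XT.nd (nat_lit 32448) (nat_lit 0) (nat_lit 1064) (XT.nd (nat_lit 32292) (nat_lit 0) (nat_lit 1216) (XT.nd (nat_lit 32214) (nat_lit 0) (nat_lit 1216) (XT.lf (nat_lit 0) (nat_lit 14509733771817) (nat_lit 76) (nat_lit 9026413866654) (nat_lit 76) (nat_lit 5478665596787) (nat_lit 4) (nat_lit 4) (nat_lit 5) (nat_lit 5) (nat_lit 5) (nat_lit 4) (nat_lit 292) (nat_lit 263) (nat_lit 105)) (XT.lf (nat_lit 0) (nat_lit 110549885043) (nat_lit 380) (nat_lit 422318400296) (nat_lit 380) (nat_lit 422318400296) (nat_lit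 20) (nat_lit 3) (nat_lit 25) (nat_lit 3) (nat_lit 25) (nat_lit 5) (nat_lit 264) (nat_lit 264) (nat_lit 132))) (XT.nd (nat_lit 78) (nat_lit 0) (nat_lit 76) (XT.lf (nat_lit 76) (nat_lit 30797741468) (nat_lit 0) (nat_lit 208159796328) (nat_lit 380) (nat_lit 1814502543496) (nat_lit 21) (nat_lit 5) (nat_lit 20) (nat_lit 3) (nat_lit 25) (nat_lit 5) (nat_lit 265) (nat_lit 264) (nat_lit 131)) (XT.lf (nat_lit 0) (nat_lit 337965423782) (nat_lit 304) (nat_lit 1113233943225) (nat_lit 380) (nat_lit 755039712856) (nat_lit 21) (nat_lit 5) (nat_lit 25) (nat_lit 5) (nat_lit 26) (nat_lit 5) (nat_lit 266) (nat_lit 264) (nat_lit 130)))) (XT.nd (nat_lit 156) (nat_lit 228) (nat_lit 0) (XT.nd (nat_lit 78) (nat_lit 0) (nat_lit 76) (XT.lf (nat_lit 0) (nat_lit 461736861391) (nat_lit 304) (nat_lit 77303660415) (nat_lit 380) (nat_lit 1841407551116) (nat_lit 21) (nat_lit 5) (nat_lit 25) (nat_lit 5) (nat_lit 26)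 (nat_lit 5) (nat_lit 267) (nat_lit 264) (nat_lit 129)) (XT.lf (nat_lit 0) (nat_lit 678238018165) (nat_lit 304) (nat_lit 1373833833486) (nat_lit 76) (nat_lit 517591962772) (nat_lit 22) (nat_lit 5) (nat_lit 26) (nat_lit 5) (nat_lit 23) (nat_lit 5) (nat_lit 268) (nat_lit 264) (nat_lit 128))) (XT.nd (nat_lit 78) (nat_lit 304) (nat_lit 0) (XT.lf (nat_lit 0) (nat_lit 957116238453) (nat_lit 304) (nat_lit 143895261200) (nat_lit 76) (nat_lit 1681765134006) (nat_lit 22) (nat_lit 5) (nat_lit 26) (nat_lit 5) (nat_lit 23) (nat_lit 5) (nat_lit 269) (nat_lit 264) (nat_lit 127)) (XT.nd (nat_lit 78) (nat_lit 0) (nat_lit 0) (XT.lf (nat_lit 0) (nat_lit 1338025863556) (nat_lit 380) (nat_lit 1626941840060) (nat_lit 76) (nat_lit 53858721408) (nat_lit 18) (nat_lit 5) (nat_lit 23) (nat_lit 5) (nat_lit 19) (nat_lit 5) (nat_lit 270) (nat_lit 264) (nat_lit 126)) (XT.lf (nat_lit 0) (nat_lit 1836381028483) (nat_lit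 380) (nat_lit 167739443999) (nat_lit 76) (nat_lit 1277116848210) (nat_lit 18) (nat_lit 5) (nat_lit 23) (nat_lit 5) (nat_lit 19) (nat_lit 5) (nat_lit 271) (nat_lit 264) (nat_lit 125))))))))
noncomputable def xc120 : XT := (XT.nd (nat_lit 1404) (nat_lit 76) (nat_lit 0) (XT.nd (nat_lit 702) (nat_lit 304) (nat_lit 0) (XT.nd (nat_lit 312) (nat_lit 380) (nat_lit 0) (XT.nd (nat_lit 156) (nat_lit 152) (nat_lit 0) (XT.nd (nat_lit 78) (nat_lit 0) (nat_lit 0) (XT.lf (nat_lit 0) (nat_lit 1657945042374) (nat_lit 152) (nat_lit 820196393047) (nat_lit 228) (nat_lit 1094570620204) (nat_lit 16) (nat_lit 5) (nat_lit 18) (nat_lit 5) (nat_lit 19) (nat_lit 5) (nat_lit 272) (nat_lit 264) (nat_lit 124)) (XT.lf (nat_lit 0) (nat_lit 3247766387151) (nat_lit 228) (nat_lit 153091231767) (nat_lit 76) (nat_lit 502310309322) (nat_lit 16) (nat_lit 5) (nat_lit 19) (nat_lit 5) (nat_lit 17) (nat_lit 4) (nat_lit 273) (nat_lit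 264) (nat_lit 123))) (XT.nd (nat_lit 78) (nat_lit 76) (nat_lit 0) (XT.lf (nat_lit 0) (nat_lit 2012989159330) (nat_lit 76) (nat_lit 2242256480691) (nat_lit 152) (nat_lit 9584957975) (nat_lit 15) (nat_lit 5) (nat_lit 16) (nat_lit 5) (nat_lit 17) (nat_lit 4) (nat_lit 274) (nat_lit 264) (nat_lit 122)) (XT.lf (nat_lit 0) (nat_lit 676221681393) (nat_lit 152) (nat_lit 189092668614) (nat_lit 76) (nat_lit 3809617341560) (nat_lit 14) (nat_lit 5) (nat_lit 16) (nat_lit 5) (nat_lit 15) (nat_lit 5) (nat_lit 275) (nat_lit 264) (nat_lit 121)))) (XT.nd (nat_lit 156) (nat_lit 228) (nat_lit 0) (XT.nd (nat_lit 78) (nat_lit 0) (nat_lit 0) (XT.lf (nat_lit 0) (nat_lit 1597611488378) (nat_lit 228) (nat_lit 2770169187724) (nat_lit 76) (nat_lit 758644785763) (nat_lit 12) (nat_lit 5) (nat_lit 15) (nat_lit 5) (nat_lit 13) (nat_lit 4) (nat_lit 276) (nat_lit 264) (nat_lit 120)) (XT.lf (nat_lit 0) (nat_lit 2708770285484)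 (nat_lit 228) (nat_lit 381177775419) (nat_lit 76) (nat_lit 2547961158949) (nat_lit 12) (nat_lit 5) (nat_lit 15) (nat_lit 5) (nat_lit 13) (nat_lit 4) (nat_lit 277) (nat_lit 264) (nat_lit 119))) (XT.nd (nat_lit 78) (nat_lit 152) (nat_lit 0) (XT.lf (nat_lit 0) (nat_lit 2597400940557) (nat_lit 76) (nat_lit 1496754794813) (nat_lit 152) (nat_lit 2115826881185) (nat_lit 11) (nat_lit 5) (nat_lit 12) (nat_lit 5) (nat_lit 13) (nat_lit 4) (nat_lit 278) (nat_lit 264) (nat_lit 118)) (XT.nd (nat_lit 78) (nat_lit 152) (nat_lit 0) (XT.lf (nat_lit 0) (nat_lit 5722111944833) (nat_lit 152) (nat_lit 814110336657) (nat_lit 0) (nat_lit 326430299962) (nat_lit 11) (nat_lit 5) (nat_lit 13) (nat_lit 4) (nat_lit 11) (nat_lit 4) (nat_lit 279) (nat_lit 264) (nat_lit 117)) (XT.lf (nat_lit 0) (nat_lit 168483123713) (nat_lit 152) (nat_lit 5033442929728) (nat_lit 76) (nat_lit 2383551285778) (nat_lit 9) (nat_lit 5) (nat_lit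 11) (nat_lit 5) (nat_lit 10) (nat_lit 4) (nat_lit 280) (nat_lit 264) (nat_lit 116)))))) (XT.nd (nat_lit 312) (nat_lit 228) (nat_lit 0) (XT.nd (nat_lit 156) (nat_lit 0) (nat_lit 0) (XT.nd (nat_lit 78) (nat_lit 76) (nat_lit 0) (XT.lf (nat_lit 0) (nat_lit 1601673043586) (nat_lit 152) (nat_lit 1952084602733) (nat_lit 76) (nat_lit 4848134110686) (nat_lit 9) (nat_lit 5) (nat_lit 11) (nat_lit 5) (nat_lit 10) (nat_lit 4) (nat_lit 281) (nat_lit 264) (nat_lit 115)) (XT.lf (nat_lit 0) (nat_lit 1747008225327) (nat_lit 76) (nat_lit 1575173110675) (nat_lit 152) (nat_lit 6007736018773) (nat_lit 8) (nat_lit 5) (nat_lit 9) (nat_lit 5) (nat_lit 10) (nat_lit 4) (nat_lit 282) (nat_lit 264) (nat_lit 114))) (XT.nd (nat_lit 78) (nat_lit 0) (nat_lit 0) (XT.lf (nat_lit 0) (nat_lit 5436659494630) (nat_lit 152) (nat_lit 4195340844499) (nat_lit 0) (nat_lit 744762409732) (nat_lit 8) (nat_lit 5) (nat_lit 10) (nat_lit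 4) (nat_lit 8) (nat_lit 4) (nat_lit 283) (nat_lit 264) (nat_lit 113)) (XT.lf (nat_lit 0) (nat_lit 7943317619957) (nat_lit 152) (nat_lit 374645561025) (nat_lit 0) (nat_lit 3251420534641) (nat_lit 8) (nat_lit 5) (nat_lit 10) (nat_lit 4) (nat_lit 8) (nat_lit 4) (nat_lit 284) (nat_lit 264) (nat_lit 112)))) (XT.nd (nat_lit 156) (nat_lit 76) (nat_lit 0) (XT.nd (nat_lit 78) (nat_lit 76) (nat_lit 0) (XT.lf (nat_lit 0) (nat_lit 4411934974709) (nat_lit 76) (nat_lit 6596728307804) (nat_lit 76) (nat_lit 1904831222124) (nat_lit 7) (nat_lit 4) (nat_lit 8) (nat_lit 5) (nat_lit 8) (nat_lit 4) (nat_lit 285) (nat_lit 264) (nat_lit 111)) (XT.lf (nat_lit 0) (nat_lit 88464768480) (nat_lit 152) (nat_lit 4501697833763) (nat_lit 76) (nat_lit 9865518579156) (nat_lit 6) (nat_lit 5) (nat_lit 8) (nat_lit 5) (nat_lit 7) (nat_lit 4) (nat_lit 286) (nat_lit 264) (nat_lit 110))) (XT.nd (nat_lit 78) (nat_lit 0) (nat_lit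 0) (XT.lf (nat_lit 0) (nat_lit 8163652284) (nat_lit 76) (nat_lit 2177911109834) (nat_lit 152) (nat_lit 14029464454393) (nat_lit 5) (nat_lit 5) (nat_lit 6) (nat_lit 5) (nat_lit 7) (nat_lit 4) (nat_lit 287) (nat_lit 264) (nat_lit 109)) (XT.nd (nat_lit 78) (nat_lit 0) (nat_lit 0) (XT.lf (nat_lit 0) (nat_lit 4869534266540) (nat_lit 152) (nat_lit 12539536732058) (nat_lit 0) (nat_lit 789623756531) (nat_lit 5) (nat_lit 5) (nat_lit 7) (nat_lit 4) (nat_lit 5) (nat_lit 4) (nat_lit 288) (nat_lit 264) (nat_lit 108)) (XT.lf (nat_lit 0) (nat_lit 8059222749181) (nat_lit 152) (nat_lit 8425232128484) (nat_lit 0) (nat_lit 3979312238992) (nat_lit 5) (nat_lit 5) (nat_lit 7) (nat_lit 4) (nat_lit 5) (nat_lit 4) (nat_lit 289) (nat_lit 264) (nat_lit 107))))))) (XT.nd (nat_lit 32916) (nat_lit 0) (nat_lit 532) (XT.nd (nat_lit 32526) (nat_lit 0) (nat_lit 1216) (XT.nd (nat_lit 156) (nat_lit 0) (nat_lit 0) (XT.nd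 (nat_lit 78) (nat_lit 76) (nat_lit 0) (XT.lf (nat_lit 0) (nat_lit 11727364503965) (nat_lit 152) (nat_lit 3693781834871) (nat_lit 0) (nat_lit 7647453993618) (nat_lit 5) (nat_lit 5) (nat_lit 7) (nat_lit 4) (nat_lit 5) (nat_lit 4) (nat_lit 290) (nat_lit 264) (nat_lit 106)) (XT.lf (nat_lit 0) (nat_lit 1918153270763) (nat_lit 76) (nat_lit 14107000887451) (nat_lit 76) (nat_lit 10027090376967) (nat_lit 4) (nat_lit 4) (nat_lit 5) (nat_lit 5) (nat_lit 5) (nat_lit 4) (nat_lit 291) (nat_lit 264) (nat_lit 105))) (XT.nd (nat_lit 32292) (nat_lit 0) (nat_lit 1216) (XT.lf (nat_lit 0) (nat_lit 8787009350319) (nat_lit 76) (nat_lit 12373686960533) (nat_lit 76) (nat_lit 8293776449930) (nat_lit 4) (nat_lit 4) (nat_lit 5) (nat_lit 5) (nat_lit 5) (nat_lit 4) (nat_lit 292) (nat_lit 264) (nat_lit 104)) (XT.lf (nat_lit 0) (nat_lit 127132383287) (nat_lit 380) (nat_lit 485666151396) (nat_lit 380) (nat_lit 485666151396)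 (nat_lit 20) (nat_lit 3) (nat_lit 25) (nat_lit 3) (nat_lit 25) (nat_lit 5) (nat_lit 265) (nat_lit 265) (nat_lit 130)))) (XT.nd (nat_lit 156) (nat_lit 0) (nat_lit 76) (XT.nd (nat_lit 78) (nat_lit 0) (nat_lit 76) (XT.lf (nat_lit 76) (nat_lit 35417419764) (nat_lit 0) (nat_lit 239383776343) (nat_lit 380) (nat_lit 2086677893096) (nat_lit 21) (nat_lit 5) (nat_lit 20) (nat_lit 3) (nat_lit 25) (nat_lit 5) (nat_lit 266) (nat_lit 265) (nat_lit 129)) (XT.lf (nat_lit 0) (nat_lit 388660261004) (nat_lit 304) (nat_lit 1280219015757) (nat_lit 380) (nat_lit 868295661414) (nat_lit 21) (nat_lit 5) (nat_lit 25) (nat_lit 5) (nat_lit 26) (nat_lit 5) (nat_lit 267) (nat_lit 265) (nat_lit 128))) (XT.nd (nat_lit 78) (nat_lit 0) (nat_lit 76) (XT.lf (nat_lit 0) (nat_lit 530997411170) (nat_lit 304) (nat_lit 88899192996) (nat_lit 380) (nat_lit 2117618676506) (nat_lit 21) (nat_lit 5) (nat_lit 25) (nat_lit 5) (nat_lit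 26) (nat_lit 5) (nat_lit 268) (nat_lit 265) (nat_lit 127)) (XT.nd (nat_lit 78) (nat_lit 0) (nat_lit 0) (XT.lf (nat_lit 0) (nat_lit 779973739312) (nat_lit 304) (nat_lit 1579908889791) (nat_lit 76) (nat_lit 595230754631) (nat_lit 22) (nat_lit 5) (nat_lit 26) (nat_lit 5) (nat_lit 23) (nat_lit 5) (nat_lit 269) (nat_lit 265) (nat_lit 126)) (XT.lf (nat_lit 0) (nat_lit 1100683690240) (nat_lit 304) (nat_lit 165479534103) (nat_lit 76) (nat_lit 1934029901884) (nat_lit 22) (nat_lit 5) (nat_lit 26) (nat_lit 5) (nat_lit 23) (nat_lit 5) (nat_lit 270) (nat_lit 265) (nat_lit 125)))))) (XT.nd (nat_lit 312) (nat_lit 380) (nat_lit 0) (XT.nd (nat_lit 156) (nat_lit 152) (nat_lit 0) (XT.nd (nat_lit 78) (nat_lit 0) (nat_lit 0) (XT.lf (nat_lit 0) (nat_lit 1538729757702) (nat_lit 380) (nat_lit 1870983098319) (nat_lit 76) (nat_lit 61937530498) (nat_lit 18) (nat_lit 5) (nat_lit 23) (nat_lit 5) (nat_lit 19) (nat_lit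 5) (nat_lit 271) (nat_lit 265) (nat_lit 124)) (XT.lf (nat_lit 0) (nat_lit 2111838195463) (nat_lit 380) (nat_lit 192900345163) (nat_lit 76) (nat_lit 1468684376205) (nat_lit 18) (nat_lit 5) (nat_lit 23) (nat_lit 5) (nat_lit 19) (nat_lit 5) (nat_lit 272) (nat_lit 265) (nat_lit 123))) (XT.nd (nat_lit 78) (nat_lit 0) (nat_lit 0) (XT.lf (nat_lit 0) (nat_lit 1906636813464) (nat_lit 152) (nat_lit 943225848930) (nat_lit 228) (nat_lit 1258756199775) (nat_lit 16) (nat_lit 5) (nat_lit 18) (nat_lit 5) (nat_lit 19) (nat_lit 5) (nat_lit 273) (nat_lit 265) (nat_lit 122)) (XT.lf (nat_lit 0) (nat_lit 3734931355473) (nat_lit 228) (nat_lit 176054902266) (nat_lit 76) (nat_lit 577656858155) (nat_lit 16) (nat_lit 5) (nat_lit 19) (nat_lit 5) (nat_lit 17) (nat_lit 4) (nat_lit 274) (nat_lit 265) (nat_lit 121)))) (XT.nd (nat_lit 156) (nat_lit 228) (nat_lit 0) (XT.nd (nat_lit 78) (nat_lit 76) (nat_lit 0) (XT.lf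 (nat_lit 0) (nat_lit 2314937546847) (nat_lit 76) (nat_lit 2578594948653) (nat_lit 152) (nat_lit 11022690735) (nat_lit 15) (nat_lit 5) (nat_lit 16) (nat_lit 5) (nat_lit 17) (nat_lit 4) (nat_lit 275) (nat_lit 265) (nat_lit 120)) (XT.lf (nat_lit 0) (nat_lit 777654942265) (nat_lit 152) (nat_lit 217456556188) (nat_lit 76) (nat_lit 4381059945520) (nat_lit 14) (nat_lit 5) (nat_lit 16) (nat_lit 5) (nat_lit 15) (nat_lit 5) (nat_lit 276) (nat_lit 265) (nat_lit 119))) (XT.nd (nat_lit 78) (nat_lit 76) (nat_lit 0) (XT.lf (nat_lit 0) (nat_lit 1837253219841) (nat_lit 228) (nat_lit 3185694552682) (nat_lit 76) (nat_lit 872441507366) (nat_lit 12) (nat_lit 5) (nat_lit 15) (nat_lit 5) (nat_lit 13) (nat_lit 4) (nat_lit 277) (nat_lit 265) (nat_lit 118)) (XT.nd (nat_lit 78) (nat_lit 76) (nat_lit 0) (XT.lf (nat_lit 0) (nat_lit 3115085835442) (nat_lit 228) (nat_lit 438354430253) (nat_lit 76) (nat_lit 2930155336042)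 (nat_lit 12) (nat_lit 5) (nat_lit 15) (nat_lit 5) (nat_lit 13) (nat_lit 4) (nat_lit 278) (nat_lit 265) (nat_lit 117)) (XT.lf (nat_lit 0) (nat_lit 2987011092598) (nat_lit 76) (nat_lit 1721268009736) (nat_lit 152) (nat_lit 2433200905686) (nat_lit 11) (nat_lit 5) (nat_lit 12) (nat_lit 5) (nat_lit 13) (nat_lit 4) (nat_lit 279) (nat_lit 265) (nat_lit 116))))))))
noncomputable def xc121 : XT := (XT.nd (nat_lit 33774) (nat_lit 0) (nat_lit 0) (XT.nd (nat_lit 702) (nat_lit 0) (nat_lit 0) (XT.nd (nat_lit 312) (nat_lit 228) (nat_lit 0) (XT.nd (nat_lit 156) (nat_lit 76) (nat_lit 0) (XT.nd (nat_lit 78) (nat_lit 152) (nat_lit 0) (XT.lf (nat_lit 0) (nat_lit 6580428742503) (nat_lit 152) (nat_lit 936226876897) (nat_lit 0) (nat_lit 375394848361) (nat_lit 11) (nat_lit 5) (nat_lit 13) (nat_lit 4) (nat_lit 11) (nat_lit 4) (nat_lit 280) (nat_lit 265) (nat_lit 115)) (XT.lf (nat_lit 0) (nat_lit 193755598124)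 (nat_lit 152) (nat_lit 5788459358811) (nat_lit 76) (nat_lit 2741083982277) (nat_lit 9) (nat_lit 5) (nat_lit 11) (nat_lit 5) (nat_lit 10) (nat_lit 4) (nat_lit 281) (nat_lit 265) (nat_lit 114))) (XT.nd (nat_lit 78) (nat_lit 76) (nat_lit 0) (XT.lf (nat_lit 0) (nat_lit 1841924005214) (nat_lit 152) (nat_lit 2244897284119) (nat_lit 76) (nat_lit 5575354230448) (nat_lit 9) (nat_lit 5) (nat_lit 11) (nat_lit 5) (nat_lit 10) (nat_lit 4) (nat_lit 282) (nat_lit 265) (nat_lit 113)) (XT.lf (nat_lit 0) (nat_lit 2009059467740) (nat_lit 76) (nat_lit 1811449073446) (nat_lit 152) (nat_lit 6908896416079) (nat_lit 8) (nat_lit 5) (nat_lit 9) (nat_lit 5) (nat_lit 10) (nat_lit 4) (nat_lit 283) (nat_lit 265) (nat_lit 112)))) (XT.nd (nat_lit 156) (nat_lit 228) (nat_lit 0) (XT.nd (nat_lit 78) (nat_lit 0) (nat_lit 0) (XT.lf (nat_lit 0) (nat_lit 6252158423121) (nat_lit 152) (nat_lit 4824641963190) (nat_lit 0) (nat_lit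 856476774226) (nat_lit 8) (nat_lit 5) (nat_lit 10) (nat_lit 4) (nat_lit 8) (nat_lit 4) (nat_lit 284) (nat_lit 265) (nat_lit 111)) (XT.lf (nat_lit 0) (nat_lit 9134815266688) (nat_lit 152) (nat_lit 430842388236) (nat_lit 0) (nat_lit 3739133617476) (nat_lit 8) (nat_lit 5) (nat_lit 10) (nat_lit 4) (nat_lit 8) (nat_lit 4) (nat_lit 285) (nat_lit 265) (nat_lit 110))) (XT.nd (nat_lit 78) (nat_lit 152) (nat_lit 0) (XT.lf (nat_lit 0) (nat_lit 5073725227542) (nat_lit 76) (nat_lit 7586237550871) (nat_lit 76) (nat_lit 2190555901384) (nat_lit 7) (nat_lit 4) (nat_lit 8) (nat_lit 5) (nat_lit 8) (nat_lit 4) (nat_lit 286) (nat_lit 265) (nat_lit 109)) (XT.nd (nat_lit 78) (nat_lit 76) (nat_lit 0) (XT.lf (nat_lit 0) (nat_lit 101734486967) (nat_lit 152) (nat_lit 5176952502746) (nat_lit 76) (nat_lit 11345346368409) (nat_lit 6) (nat_lit 5) (nat_lit 8) (nat_lit 5) (nat_lit 7) (nat_lit 4) (nat_lit 287) (nat_lit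 265) (nat_lit 108)) (XT.lf (nat_lit 0) (nat_lit 9388205931) (nat_lit 76) (nat_lit 2504597773540) (nat_lit 152) (nat_lit 16133884119056) (nat_lit 5) (nat_lit 5) (nat_lit 6) (nat_lit 5) (nat_lit 7) (nat_lit 4) (nat_lit 288) (nat_lit 265) (nat_lit 107)))))) (XT.nd (nat_lit 32682) (nat_lit 0) (nat_lit 1140) (XT.nd (nat_lit 156) (nat_lit 0) (nat_lit 0) (XT.nd (nat_lit 78) (nat_lit 0) (nat_lit 0) (XT.lf (nat_lit 0) (nat_lit 5599964409261) (nat_lit 152) (nat_lit 14420467236519) (nat_lit 0) (nat_lit 908067322204) (nat_lit 5) (nat_lit 5) (nat_lit 7) (nat_lit 4) (nat_lit 5) (nat_lit 4) (nat_lit 289) (nat_lit 265) (nat_lit 106)) (XT.lf (nat_lit 0) (nat_lit 9268106163941) (nat_lit 152) (nat_lit 9689016943107) (nat_lit 0) (nat_lit 4576209076748) (nat_lit 5) (nat_lit 5) (nat_lit 7) (nat_lit 4) (nat_lit 5) (nat_lit 4) (nat_lit 290) (nat_lit 265) (nat_lit 105))) (XT.nd (nat_lit 32448) (nat_lit 0) (nat_lit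 1140) (XT.lf (nat_lit 0) (nat_lit 13486469181631) (nat_lit 152) (nat_lit 4247849106058) (nat_lit 0) (nat_lit 8794572094319) (nat_lit 5) (nat_lit 5) (nat_lit 7) (nat_lit 4) (nat_lit 5) (nat_lit 4) (nat_lit 291) (nat_lit 265) (nat_lit 104)) (XT.lf (nat_lit 0) (nat_lit 146202252490) (nat_lit 380) (nat_lit 558516067343) (nat_lit 380) (nat_lit 558516067343) (nat_lit 20) (nat_lit 3) (nat_lit 25) (nat_lit 3) (nat_lit 25) (nat_lit 5) (nat_lit 266) (nat_lit 266) (nat_lit 128)))) (XT.nd (nat_lit 156) (nat_lit 0) (nat_lit 76) (XT.nd (nat_lit 78) (nat_lit 0) (nat_lit 76) (XT.lf (nat_lit 76) (nat_lit 40730045640) (nat_lit 0) (nat_lit 275291350783) (nat_lit 380) (nat_lit 2399679552922) (nat_lit 21) (nat_lit 5) (nat_lit 20) (nat_lit 3) (nat_lit 25) (nat_lit 5) (nat_lit 267) (nat_lit 266) (nat_lit 127)) (XT.lf (nat_lit 0) (nat_lit 446959318042) (nat_lit 304) (nat_lit 1472251853789) (nat_lit 380) (nat_lit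 998540004298) (nat_lit 21) (nat_lit 5) (nat_lit 25) (nat_lit 5) (nat_lit 26) (nat_lit 5) (nat_lit 268) (nat_lit 266) (nat_lit 126))) (XT.nd (nat_lit 78) (nat_lit 0) (nat_lit 76) (XT.lf (nat_lit 0) (nat_lit 610647038399) (nat_lit 304) (nat_lit 102234059484) (nat_lit 380) (nat_lit 2435261472479) (nat_lit 21) (nat_lit 5) (nat_lit 25) (nat_lit 5) (nat_lit 26) (nat_lit 5) (nat_lit 269) (nat_lit 266) (nat_lit 125)) (XT.nd (nat_lit 78) (nat_lit 0) (nat_lit 0) (XT.lf (nat_lit 0) (nat_lit 896969814138) (nat_lit 304) (nat_lit 1816895209106) (nat_lit 76) (nat_lit 684515365893) (nat_lit 22) (nat_lit 5) (nat_lit 26) (nat_lit 5) (nat_lit 23) (nat_lit 5) (nat_lit 270) (nat_lit 266) (nat_lit 124)) (XT.lf (nat_lit 0) (nat_lit 1265786255889) (nat_lit 304) (nat_lit 190301451911) (nat_lit 76) (nat_lit 2224134385486) (nat_lit 22) (nat_lit 5) (nat_lit 26) (nat_lit 5) (nat_lit 23) (nat_lit 5) (nat_lit 271)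 (nat_lit 266) (nat_lit 123))))))) (XT.nd (nat_lit 702) (nat_lit 456) (nat_lit 0) (XT.nd (nat_lit 312) (nat_lit 380) (nat_lit 0) (XT.nd (nat_lit 156) (nat_lit 152) (nat_lit 0) (XT.nd (nat_lit 78) (nat_lit 0) (nat_lit 0) (XT.lf (nat_lit 0) (nat_lit 1769539232407) (nat_lit 380) (nat_lit 2151630549644) (nat_lit 76) (nat_lit 71228160736) (nat_lit 18) (nat_lit 5) (nat_lit 23) (nat_lit 5) (nat_lit 19) (nat_lit 5) (nat_lit 272) (nat_lit 266) (nat_lit 122)) (XT.lf (nat_lit 0) (nat_lit 2428613934390) (nat_lit 380) (nat_lit 221835385266) (nat_lit 76) (nat_lit 1688987033213) (nat_lit 18) (nat_lit 5) (nat_lit 23) (nat_lit 5) (nat_lit 19) (nat_lit 5) (nat_lit 273) (nat_lit 266) (nat_lit 121))) (XT.nd (nat_lit 78) (nat_lit 0) (nat_lit 0) (XT.lf (nat_lit 0) (nat_lit 2192632346624) (nat_lit 152) (nat_lit 1084709723945) (nat_lit 228) (nat_lit 1447569619563) (nat_lit 16) (nat_lit 5) (nat_lit 18) (nat_lit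 5) (nat_lit 19) (nat_lit 5) (nat_lit 274) (nat_lit 266) (nat_lit 120)) (XT.lf (nat_lit 0) (nat_lit 4295171066544) (nat_lit 228) (nat_lit 202463126818) (nat_lit 76) (nat_lit 664305388720) (nat_lit 16) (nat_lit 5) (nat_lit 19) (nat_lit 5) (nat_lit 17) (nat_lit 4) (nat_lit 275) (nat_lit 266) (nat_lit 119)))) (XT.nd (nat_lit 156) (nat_lit 228) (nat_lit 0) (XT.nd (nat_lit 78) (nat_lit 76) (nat_lit 0) (XT.lf (nat_lit 0) (nat_lit 2662178189172) (nat_lit 76) (nat_lit 2965384187820) (nat_lit 152) (nat_lit 12676086075) (nat_lit 15) (nat_lit 5) (nat_lit 16) (nat_lit 5) (nat_lit 17) (nat_lit 4) (nat_lit 276) (nat_lit 266) (nat_lit 118)) (XT.lf (nat_lit 0) (nat_lit 894303190156) (nat_lit 152) (nat_lit 250075030000) (nat_lit 76) (nat_lit 5038218939409) (nat_lit 14) (nat_lit 5) (nat_lit 16) (nat_lit 5) (nat_lit 15) (nat_lit 5) (nat_lit 277) (nat_lit 266) (nat_lit 117))) (XT.nd (nat_lit 78) (nat_lit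 76) (nat_lit 0) (XT.lf (nat_lit 0) (nat_lit 2112841209023) (nat_lit 228) (nat_lit 3663548725602) (nat_lit 76) (nat_lit 1003307736298) (nat_lit 12) (nat_lit 5) (nat_lit 15) (nat_lit 5) (nat_lit 13) (nat_lit 4) (nat_lit 278) (nat_lit 266) (nat_lit 116)) (XT.nd (nat_lit 78) (nat_lit 76) (nat_lit 0) (XT.lf (nat_lit 0) (nat_lit 3582348716154) (nat_lit 228) (nat_lit 504107586111) (nat_lit 76) (nat_lit 3369678638907) (nat_lit 12) (nat_lit 5) (nat_lit 15) (nat_lit 5) (nat_lit 13) (nat_lit 4) (nat_lit 279) (nat_lit 266) (nat_lit 115)) (XT.lf (nat_lit 0) (nat_lit 3435062764773) (nat_lit 76) (nat_lit 1979458207946) (nat_lit 152) (nat_lit 2798181035734) (nat_lit 11) (nat_lit 5) (nat_lit 12) (nat_lit 5) (nat_lit 13) (nat_lit 4) (nat_lit 280) (nat_lit 266) (nat_lit 114)))))) (XT.nd (nat_lit 312) (nat_lit 228) (nat_lit 0) (XT.nd (nat_lit 156) (nat_lit 76) (nat_lit 0) (XT.nd (nat_lit 78) (nat_lit 152)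 (nat_lit 0) (XT.lf (nat_lit 0) (nat_lit 7567493058374) (nat_lit 152) (nat_lit 1076660900674) (nat_lit 0) (nat_lit 431704078190) (nat_lit 11) (nat_lit 5) (nat_lit 13) (nat_lit 4) (nat_lit 11) (nat_lit 4) (nat_lit 281) (nat_lit 266) (nat_lit 113)) (XT.lf (nat_lit 0) (nat_lit 222818942269) (nat_lit 152) (nat_lit 6656728254786) (nat_lit 76) (nat_lit 3152246582365) (nat_lit 9) (nat_lit 5) (nat_lit 11) (nat_lit 5) (nat_lit 10) (nat_lit 4) (nat_lit 282) (nat_lit 266) (nat_lit 112))) (XT.nd (nat_lit 78) (nat_lit 76) (nat_lit 0) (XT.lf (nat_lit 0) (nat_lit 2118212609845) (nat_lit 152) (nat_lit 2581631869914) (nat_lit 76) (nat_lit 6411657367404) (nat_lit 9) (nat_lit 5) (nat_lit 11) (nat_lit 5) (nat_lit 10) (nat_lit 4) (nat_lit 283) (nat_lit 266) (nat_lit 111)) (XT.lf (nat_lit 0) (nat_lit 2310418394414) (nat_lit 76) (nat_lit 2083166431567) (nat_lit 152) (nat_lit 7945230874324) (nat_lit 8) (nat_lit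 5) (nat_lit 9) (nat_lit 5) (nat_lit 10) (nat_lit 4) (nat_lit 284) (nat_lit 266) (nat_lit 110)))) (XT.nd (nat_lit 156) (nat_lit 228) (nat_lit 0) (XT.nd (nat_lit 78) (nat_lit 0) (nat_lit 0) (XT.lf (nat_lit 0) (nat_lit 7189982189839) (nat_lit 152) (nat_lit 5548338251631) (nat_lit 0) (nat_lit 984948292654) (nat_lit 8) (nat_lit 5) (nat_lit 10) (nat_lit 4) (nat_lit 8) (nat_lit 4) (nat_lit 285) (nat_lit 266) (nat_lit 109)) (XT.lf (nat_lit 0) (nat_lit 10505037559516) (nat_lit 152) (nat_lit 495468741222) (nat_lit 0) (nat_lit 4300003662092) (nat_lit 8) (nat_lit 5) (nat_lit 10) (nat_lit 4) (nat_lit 8) (nat_lit 4) (nat_lit 286) (nat_lit 266) (nat_lit 108))) (XT.nd (nat_lit 78) (nat_lit 152) (nat_lit 0) (XT.lf (nat_lit 0) (nat_lit 5834784016685) (nat_lit 76) (nat_lit 8724173181155) (nat_lit 76) (nat_lit 2519139283523) (nat_lit 7) (nat_lit 4) (nat_lit 8) (nat_lit 5) (nat_lit 8) (nat_lit 4) (nat_lit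 287) (nat_lit 266) (nat_lit 107)) (XT.nd (nat_lit 78) (nat_lit 76) (nat_lit 0) (XT.lf (nat_lit 0) (nat_lit 116994662443) (nat_lit 152) (nat_lit 5953495373559) (nat_lit 76) (nat_lit 13047148325470) (nat_lit 6) (nat_lit 5) (nat_lit 8) (nat_lit 5) (nat_lit 7) (nat_lit 4) (nat_lit 288) (nat_lit 266) (nat_lit 106)) (XT.lf (nat_lit 0) (nat_lit 10796441211) (nat_lit 76) (nat_lit 2880287437477) (nat_lit 152) (nat_lit 18553966734272) (nat_lit 5) (nat_lit 5) (nat_lit 6) (nat_lit 5) (nat_lit 7) (nat_lit 4) (nat_lit 289) (nat_lit 266) (nat_lit 105))))))))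
noncomputable def xc122 : XT := (XT.nd (nat_lit 33852) (nat_lit 0) (nat_lit 0) (XT.nd (nat_lit 33150) (nat_lit 0) (nat_lit 456) (XT.nd (nat_lit 32760) (nat_lit 0) (nat_lit 988) (XT.nd (nat_lit 32604) (nat_lit 0) (nat_lit 1140) (XT.nd (nat_lit 78) (nat_lit 0) (nat_lit 0) (XT.lf (nat_lit 0) (nat_lit 6439959072721) (nat_lit 152) (nat_lit 16583537317953) (nat_lit 0) (nat_lit 1044277422194) (nat_lit 5) (nat_lit 5) (nat_lit 7) (nat_lit 4) (nat_lit 5) (nat_lit 4) (nat_lit 290) (nat_lit 266) (nat_lit 104)) (XT.lf (nat_lit 0) (nat_lit 10658322090334) (nat_lit 152) (nat_lit 11142369481056) (nat_lit 0) (nat_lit 5262640439703) (nat_lit 5) (nat_lit 5) (nat_lit 7) (nat_lit 4) (nat_lit 5) (nat_lit 4) (nat_lit 291) (nat_lit 266) (nat_lit 103))) (XT.nd (nat_lit 78) (nat_lit 0) (nat_lit 0) (XT.lf (nat_lit 0) (nat_lit 168132599218) (nat_lit 380) (nat_lit 642293472330) (nat_lit 380) (nat_lit 642293472330)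 (nat_lit 20) (nat_lit 3) (nat_lit 25) (nat_lit 3) (nat_lit 25) (nat_lit 5) (nat_lit 267) (nat_lit 267) (nat_lit 126)) (XT.lf (nat_lit 76) (nat_lit 46839562249) (nat_lit 0) (nat_lit 316585059442) (nat_lit 380) (nat_lit 2759631467608) (nat_lit 21) (nat_lit 5) (nat_lit 20) (nat_lit 3) (nat_lit 25) (nat_lit 5) (nat_lit 268) (nat_lit 267) (nat_lit 125)))) (XT.nd (nat_lit 156) (nat_lit 228) (nat_lit 0) (XT.nd (nat_lit 78) (nat_lit 0) (nat_lit 0) (XT.lf (nat_lit 0) (nat_lit 514003229273) (nat_lit 304) (nat_lit 1693089621021) (nat_lit 380) (nat_lit 1148321000158) (nat_lit 21) (nat_lit 5) (nat_lit 25) (nat_lit 5) (nat_lit 26) (nat_lit 5) (nat_lit 269) (nat_lit 267) (nat_lit 124)) (XT.lf (nat_lit 0) (nat_lit 702244105920) (nat_lit 304) (nat_lit 117569158984) (nat_lit 380) (nat_lit 2800550689190) (nat_lit 21) (nat_lit 5) (nat_lit 25) (nat_lit 5) (nat_lit 26) (nat_lit 5) (nat_lit 270) (nat_lit 267)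 (nat_lit 123))) (XT.nd (nat_lit 78) (nat_lit 304) (nat_lit 0) (XT.lf (nat_lit 0) (nat_lit 1031515296792) (nat_lit 304) (nat_lit 2089429479770) (nat_lit 76) (nat_lit 787192669315) (nat_lit 22) (nat_lit 5) (nat_lit 26) (nat_lit 5) (nat_lit 23) (nat_lit 5) (nat_lit 271) (nat_lit 267) (nat_lit 122)) (XT.nd (nat_lit 78) (nat_lit 304) (nat_lit 0) (XT.lf (nat_lit 0) (nat_lit 1455654203432) (nat_lit 304) (nat_lit 218846660392) (nat_lit 76) (nat_lit 2557754542038) (nat_lit 22) (nat_lit 5) (nat_lit 26) (nat_lit 5) (nat_lit 23) (nat_lit 5) (nat_lit 272) (nat_lit 267) (nat_lit 121)) (XT.lf (nat_lit 0) (nat_lit 2034970125623) (nat_lit 380) (nat_lit 2474375121942) (nat_lit 76) (nat_lit 81912385349) (nat_lit 18) (nat_lit 5) (nat_lit 23) (nat_lit 5) (nat_lit 19) (nat_lit 5) (nat_lit 273) (nat_lit 267) (nat_lit 120)))))) (XT.nd (nat_lit 312) (nat_lit 304) (nat_lit 0) (XT.nd (nat_lit 156) (nat_lit 76)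 (nat_lit 0) (XT.nd (nat_lit 78) (nat_lit 152) (nat_lit 0) (XT.lf (nat_lit 0) (nat_lit 2792906031814) (nat_lit 380) (nat_lit 255110684231) (nat_lit 76) (nat_lit 1942335088631) (nat_lit 18) (nat_lit 5) (nat_lit 23) (nat_lit 5) (nat_lit 19) (nat_lit 5) (nat_lit 274) (nat_lit 267) (nat_lit 119)) (XT.lf (nat_lit 0) (nat_lit 2521527207042) (nat_lit 152) (nat_lit 1247416180779) (nat_lit 228) (nat_lit 1664705054802) (nat_lit 16) (nat_lit 5) (nat_lit 18) (nat_lit 5) (nat_lit 19) (nat_lit 5) (nat_lit 275) (nat_lit 267) (nat_lit 118))) (XT.nd (nat_lit 78) (nat_lit 76) (nat_lit 0) (XT.lf (nat_lit 0) (nat_lit 4939446732386) (nat_lit 228) (nat_lit 232832587684) (nat_lit 76) (nat_lit 763951198421) (nat_lit 16) (nat_lit 5) (nat_lit 19) (nat_lit 5) (nat_lit 17) (nat_lit 4) (nat_lit 276) (nat_lit 267) (nat_lit 117)) (XT.lf (nat_lit 0) (nat_lit 3061504925334) (nat_lit 76) (nat_lit 3410191813624) (nat_lit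 152) (nat_lit 14577492734) (nat_lit 15) (nat_lit 5) (nat_lit 16) (nat_lit 5) (nat_lit 17) (nat_lit 4) (nat_lit 277) (nat_lit 267) (nat_lit 116)))) (XT.nd (nat_lit 156) (nat_lit 76) (nat_lit 0) (XT.nd (nat_lit 78) (nat_lit 152) (nat_lit 0) (XT.lf (nat_lit 0) (nat_lit 1028448673633) (nat_lit 152) (nat_lit 287586277229) (nat_lit 76) (nat_lit 5793951781879) (nat_lit 14) (nat_lit 5) (nat_lit 16) (nat_lit 5) (nat_lit 15) (nat_lit 5) (nat_lit 278) (nat_lit 267) (nat_lit 115)) (XT.lf (nat_lit 0) (nat_lit 2429767395068) (nat_lit 228) (nat_lit 4213081026895) (nat_lit 76) (nat_lit 1153803898881) (nat_lit 12) (nat_lit 5) (nat_lit 15) (nat_lit 5) (nat_lit 13) (nat_lit 4) (nat_lit 279) (nat_lit 267) (nat_lit 114))) (XT.nd (nat_lit 78) (nat_lit 76) (nat_lit 0) (XT.lf (nat_lit 0) (nat_lit 4119701027657) (nat_lit 228) (nat_lit 579723717464) (nat_lit 76) (nat_lit 3875130436601) (nat_lit 12) (nat_lit 5)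 (nat_lit 15) (nat_lit 5) (nat_lit 13) (nat_lit 4) (nat_lit 280) (nat_lit 267) (nat_lit 113)) (XT.nd (nat_lit 78) (nat_lit 0) (nat_lit 0) (XT.lf (nat_lit 0) (nat_lit 3950322185754) (nat_lit 76) (nat_lit 2276376936680) (nat_lit 152) (nat_lit 3217908186705) (nat_lit 11) (nat_lit 5) (nat_lit 12) (nat_lit 5) (nat_lit 13) (nat_lit 4) (nat_lit 281) (nat_lit 267) (nat_lit 112)) (XT.lf (nat_lit 0) (nat_lit 8702617020529) (nat_lit 152) (nat_lit 1238160029910) (nat_lit 0) (nat_lit 496459691866) (nat_lit 11) (nat_lit 5) (nat_lit 13) (nat_lit 4) (nat_lit 11) (nat_lit 4) (nat_lit 282) (nat_lit 267) (nat_lit 111))))))) (XT.nd (nat_lit 33228) (nat_lit 0) (nat_lit 836) (XT.nd (nat_lit 312) (nat_lit 228) (nat_lit 0) (XT.nd (nat_lit 156) (nat_lit 76) (nat_lit 0) (XT.nd (nat_lit 78) (nat_lit 0) (nat_lit 0) (XT.lf (nat_lit 0) (nat_lit 256241786956) (nat_lit 152) (nat_lit 7655237487070) (nat_lit 76) (nat_lit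 3625083571797) (nat_lit 9) (nat_lit 5) (nat_lit 11) (nat_lit 5) (nat_lit 10) (nat_lit 4) (nat_lit 283) (nat_lit 267) (nat_lit 110)) (XT.lf (nat_lit 0) (nat_lit 2435944504233) (nat_lit 152) (nat_lit 2968876645242) (nat_lit 76) (nat_lit 7373405974321) (nat_lit 9) (nat_lit 5) (nat_lit 11) (nat_lit 5) (nat_lit 10) (nat_lit 4) (nat_lit 284) (nat_lit 267) (nat_lit 109))) (XT.nd (nat_lit 78) (nat_lit 0) (nat_lit 0) (XT.lf (nat_lit 0) (nat_lit 2656981158501) (nat_lit 76) (nat_lit 2395641394112) (nat_lit 152) (nat_lit 9137015502323) (nat_lit 8) (nat_lit 5) (nat_lit 9) (nat_lit 5) (nat_lit 10) (nat_lit 4) (nat_lit 285) (nat_lit 267) (nat_lit 108)) (XT.lf (nat_lit 0) (nat_lit 8268479520772) (nat_lit 152) (nat_lit 6380588984811) (nat_lit 0) (nat_lit 1132690538287) (nat_lit 8) (nat_lit 5) (nat_lit 10) (nat_lit 4) (nat_lit 8) (nat_lit 4) (nat_lit 286) (nat_lit 267) (nat_lit 107)))) (XT.nd (nat_lit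 156) (nat_lit 152) (nat_lit 0) (XT.nd (nat_lit 78) (nat_lit 76) (nat_lit 0) (XT.lf (nat_lit 0) (nat_lit 12080793195580) (nat_lit 152) (nat_lit 569789048436) (nat_lit 0) (nat_lit 4945004212915) (nat_lit 8) (nat_lit 5) (nat_lit 10) (nat_lit 4) (nat_lit 8) (nat_lit 4) (nat_lit 287) (nat_lit 267) (nat_lit 106)) (XT.lf (nat_lit 0) (nat_lit 6710001622977) (nat_lit 76) (nat_lit 10032799156554) (nat_lit 76) (nat_lit 2897010173732) (nat_lit 7) (nat_lit 4) (nat_lit 8) (nat_lit 5) (nat_lit 8) (nat_lit 4) (nat_lit 288) (nat_lit 267) (nat_lit 105))) (XT.nd (nat_lit 78) (nat_lit 76) (nat_lit 0) (XT.lf (nat_lit 0) (nat_lit 134543863647) (nat_lit 152) (nat_lit 6846519676116) (nat_lit 76) (nat_lit 15004220575651) (nat_lit 6) (nat_lit 5) (nat_lit 8) (nat_lit 5) (nat_lit 7) (nat_lit 4) (nat_lit 289) (nat_lit 267) (nat_lit 104)) (XT.nd (nat_lit 78) (nat_lit 0) (nat_lit 0) (XT.lf (nat_lit 0) (nat_lit 12415910712)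 (nat_lit 76) (nat_lit 3312330551515) (nat_lit 152) (nat_lit 21337061742414) (nat_lit 5) (nat_lit 5) (nat_lit 6) (nat_lit 5) (nat_lit 7) (nat_lit 4) (nat_lit 290) (nat_lit 267) (nat_lit 103)) (XT.lf (nat_lit 0) (nat_lit 7405952935196) (nat_lit 152) (nat_lit 19071067912589) (nat_lit 0) (nat_lit 1200919036777) (nat_lit 5) (nat_lit 5) (nat_lit 7) (nat_lit 4) (nat_lit 5) (nat_lit 4) (nat_lit 291) (nat_lit 267) (nat_lit 102)))))) (XT.nd (nat_lit 312) (nat_lit 304) (nat_lit 0) (XT.nd (nat_lit 156) (nat_lit 0) (nat_lit 76) (XT.nd (nat_lit 78) (nat_lit 0) (nat_lit 0) (XT.lf (nat_lit 0) (nat_lit 193352495797) (nat_lit 380) (nat_lit 738637489313) (nat_lit 380) (nat_lit 738637489313) (nat_lit 20) (nat_lit 3) (nat_lit 25) (nat_lit 3) (nat_lit 25) (nat_lit 5) (nat_lit 268) (nat_lit 268) (nat_lit 124)) (XT.lf (nat_lit 76) (nat_lit 53865503969) (nat_lit 0) (nat_lit 364072822926) (nat_lit 380) (nat_lit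 3173576173948) (nat_lit 21) (nat_lit 5) (nat_lit 20) (nat_lit 3) (nat_lit 25) (nat_lit 5) (nat_lit 269) (nat_lit 268) (nat_lit 123))) (XT.nd (nat_lit 78) (nat_lit 0) (nat_lit 0) (XT.lf (nat_lit 0) (nat_lit 591103723890) (nat_lit 304) (nat_lit 1947053055981) (nat_lit 380) (nat_lit 1320569146563) (nat_lit 21) (nat_lit 5) (nat_lit 25) (nat_lit 5) (nat_lit 26) (nat_lit 5) (nat_lit 270) (nat_lit 268) (nat_lit 122)) (XT.lf (nat_lit 0) (nat_lit 807580730701) (nat_lit 304) (nat_lit 135204525707) (nat_lit 380) (nat_lit 3220633289422) (nat_lit 21) (nat_lit 5) (nat_lit 25) (nat_lit 5) (nat_lit 26) (nat_lit 5) (nat_lit 271) (nat_lit 268) (nat_lit 121)))) (XT.nd (nat_lit 156) (nat_lit 456) (nat_lit 0) (XT.nd (nat_lit 78) (nat_lit 0) (nat_lit 0) (XT.lf (nat_lit 0) (nat_lit 1186242599275) (nat_lit 304) (nat_lit 2402843893643) (nat_lit 76) (nat_lit 905271568607) (nat_lit 22) (nat_lit 5) (nat_lit 26)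 (nat_lit 5) (nat_lit 23) (nat_lit 5) (nat_lit 272) (nat_lit 268) (nat_lit 120)) (XT.lf (nat_lit 0) (nat_lit 1674002340872) (nat_lit 304) (nat_lit 251673652414) (nat_lit 76) (nat_lit 2941417722382) (nat_lit 22) (nat_lit 5) (nat_lit 26) (nat_lit 5) (nat_lit 23) (nat_lit 5) (nat_lit 273) (nat_lit 268) (nat_lit 119))) (XT.nd (nat_lit 78) (nat_lit 152) (nat_lit 0) (XT.lf (nat_lit 0) (nat_lit 2340215650784) (nat_lit 380) (nat_lit 2845531382559) (nat_lit 76) (nat_lit 94199243531) (nat_lit 18) (nat_lit 5) (nat_lit 23) (nat_lit 5) (nat_lit 19) (nat_lit 5) (nat_lit 274) (nat_lit 268) (nat_lit 118)) (XT.nd (nat_lit 78) (nat_lit 152) (nat_lit 0) (XT.lf (nat_lit 0) (nat_lit 3211841942080) (nat_lit 380) (nat_lit 293377280192) (nat_lit 76) (nat_lit 2233685352256) (nat_lit 18) (nat_lit 5) (nat_lit 23) (nat_lit 5) (nat_lit 19) (nat_lit 5) (nat_lit 275) (nat_lit 268) (nat_lit 117)) (XT.lf (nat_lit 0)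 (nat_lit 2899756294468) (nat_lit 152) (nat_lit 1434528606567) (nat_lit 228) (nat_lit 1914410807204) (nat_lit 16) (nat_lit 5) (nat_lit 18) (nat_lit 5) (nat_lit 19) (nat_lit 5) (nat_lit 276) (nat_lit 268) (nat_lit 116))))))))
noncomputable def xc123 : XT := (XT.nd (nat_lit 34008) (nat_lit 0) (nat_lit 228) (XT.nd (nat_lit 702) (nat_lit 304) (nat_lit 0) (XT.nd (nat_lit 312) (nat_lit 228) (nat_lit 0) (XT.nd (nat_lit 156) (nat_lit 228) (nat_lit 0) (XT.nd (nat_lit 78) (nat_lit 76) (nat_lit 0) (XT.lf (nat_lit 0) (nat_lit 5680363746675) (nat_lit 228) (nat_lit 267757469668) (nat_lit 76) (nat_lit 878543879237) (nat_lit 16) (nat_lit 5) (nat_lit 19) (nat_lit 5) (nat_lit 17) (nat_lit 4) (nat_lit 277) (nat_lit 268) (nat_lit 115)) (XT.lf (nat_lit 0) (nat_lit 3520730670022) (nat_lit 76) (nat_lit 3921720583877) (nat_lit 152) (nat_lit 16764111916) (nat_lit 15) (nat_lit 5) (nat_lit 16) (nat_lit 5) (nat_lit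 17) (nat_lit 4) (nat_lit 278) (nat_lit 268) (nat_lit 114))) (XT.nd (nat_lit 78) (nat_lit 152) (nat_lit 0) (XT.lf (nat_lit 0) (nat_lit 1182715978423) (nat_lit 152) (nat_lit 330724213315) (nat_lit 76) (nat_lit 6663044550339) (nat_lit 14) (nat_lit 5) (nat_lit 16) (nat_lit 5) (nat_lit 15) (nat_lit 5) (nat_lit 279) (nat_lit 268) (nat_lit 113)) (XT.lf (nat_lit 0) (nat_lit 2794232507876) (nat_lit 228) (nat_lit 4845043175222) (nat_lit 76) (nat_lit 1326874485329) (nat_lit 12) (nat_lit 5) (nat_lit 15) (nat_lit 5) (nat_lit 13) (nat_lit 4) (nat_lit 280) (nat_lit 268) (nat_lit 112)))) (XT.nd (nat_lit 156) (nat_lit 152) (nat_lit 0) (XT.nd (nat_lit 78) (nat_lit 76) (nat_lit 0) (XT.lf (nat_lit 0) (nat_lit 4737656184891) (nat_lit 228) (nat_lit 666682270121) (nat_lit 76) (nat_lit 4456400003497) (nat_lit 12) (nat_lit 5) (nat_lit 15) (nat_lit 5) (nat_lit 13) (nat_lit 4) (nat_lit 281) (nat_lit 268) (nat_lit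 111)) (XT.lf (nat_lit 0) (nat_lit 4542870518355) (nat_lit 76) (nat_lit 2617833475324) (nat_lit 152) (nat_lit 3700594411392) (nat_lit 11) (nat_lit 5) (nat_lit 12) (nat_lit 5) (nat_lit 13) (nat_lit 4) (nat_lit 282) (nat_lit 268) (nat_lit 110))) (XT.nd (nat_lit 78) (nat_lit 152) (nat_lit 0) (XT.lf (nat_lit 0) (nat_lit 10008009576179) (nat_lit 152) (nat_lit 1423884029962) (nat_lit 0) (nat_lit 570928647118) (nat_lit 11) (nat_lit 5) (nat_lit 13) (nat_lit 4) (nat_lit 11) (nat_lit 4) (nat_lit 283) (nat_lit 268) (nat_lit 109)) (XT.nd (nat_lit 78) (nat_lit 0) (nat_lit 0) (XT.lf (nat_lit 0) (nat_lit 294678057530) (nat_lit 152) (nat_lit 8803523105645) (nat_lit 76) (nat_lit 4168846109137) (nat_lit 9) (nat_lit 5) (nat_lit 11) (nat_lit 5) (nat_lit 10) (nat_lit 4) (nat_lit 284) (nat_lit 268) (nat_lit 108)) (XT.lf (nat_lit 0) (nat_lit 2801336182068) (nat_lit 152) (nat_lit 3414208138127) (nat_lit 76)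 (nat_lit 8479416871834) (nat_lit 9) (nat_lit 5) (nat_lit 11) (nat_lit 5) (nat_lit 10) (nat_lit 4) (nat_lit 285) (nat_lit 268) (nat_lit 107)))))) (XT.nd (nat_lit 312) (nat_lit 152) (nat_lit 0) (XT.nd (nat_lit 156) (nat_lit 76) (nat_lit 0) (XT.nd (nat_lit 78) (nat_lit 0) (nat_lit 0) (XT.lf (nat_lit 0) (nat_lit 3055528336000) (nat_lit 76) (nat_lit 2754987601573) (nat_lit 152) (nat_lit 10507567825289) (nat_lit 8) (nat_lit 5) (nat_lit 9) (nat_lit 5) (nat_lit 10) (nat_lit 4) (nat_lit 286) (nat_lit 268) (nat_lit 106)) (XT.lf (nat_lit 0) (nat_lit 9508751450745) (nat_lit 152) (nat_lit 7337677329081) (nat_lit 0) (nat_lit 1302594120342) (nat_lit 8) (nat_lit 5) (nat_lit 10) (nat_lit 4) (nat_lit 8) (nat_lit 4) (nat_lit 287) (nat_lit 268) (nat_lit 105))) (XT.nd (nat_lit 78) (nat_lit 76) (nat_lit 0) (XT.lf (nat_lit 0) (nat_lit 13892912176533) (nat_lit 152) (nat_lit 655257402700) (nat_lit 0) (nat_lit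 5686754845993) (nat_lit 8) (nat_lit 5) (nat_lit 10) (nat_lit 4) (nat_lit 8) (nat_lit 4) (nat_lit 288) (nat_lit 268) (nat_lit 104)) (XT.lf (nat_lit 0) (nat_lit 7716501869288) (nat_lit 76) (nat_lit 11537719028696) (nat_lit 76) (nat_lit 3331561698037) (nat_lit 7) (nat_lit 4) (nat_lit 8) (nat_lit 5) (nat_lit 8) (nat_lit 4) (nat_lit 289) (nat_lit 268) (nat_lit 103)))) (XT.nd (nat_lit 32760) (nat_lit 0) (nat_lit 1140) (XT.nd (nat_lit 78) (nat_lit 76) (nat_lit 0) (XT.lf (nat_lit 0) (nat_lit 154725444584) (nat_lit 152) (nat_lit 7873497624904) (nat_lit 76) (nat_lit 17254853663028) (nat_lit 6) (nat_lit 5) (nat_lit 8) (nat_lit 5) (nat_lit 7) (nat_lit 4) (nat_lit 290) (nat_lit 268) (nat_lit 102)) (XT.lf (nat_lit 0) (nat_lit 14278299828) (nat_lit 76) (nat_lit 3809180133046) (nat_lit 152) (nat_lit 24537621002265) (nat_lit 5) (nat_lit 5) (nat_lit 6) (nat_lit 5) (nat_lit 7) (nat_lit 4) (nat_lit 291)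 (nat_lit 268) (nat_lit 101))) (XT.nd (nat_lit 78) (nat_lit 0) (nat_lit 0) (XT.lf (nat_lit 0) (nat_lit 222355375229) (nat_lit 380) (nat_lit 849433109786) (nat_lit 380) (nat_lit 849433109786) (nat_lit 20) (nat_lit 3) (nat_lit 25) (nat_lit 3) (nat_lit 25) (nat_lit 5) (nat_lit 269) (nat_lit 269) (nat_lit 122)) (XT.nd (nat_lit 78) (nat_lit 0) (nat_lit 76) (XT.lf (nat_lit 76) (nat_lit 61945335146) (nat_lit 0) (nat_lit 418683749819) (nat_lit 380) (nat_lit 3649612589605) (nat_lit 21) (nat_lit 5) (nat_lit 20) (nat_lit 3) (nat_lit 25) (nat_lit 5) (nat_lit 270) (nat_lit 269) (nat_lit 121)) (XT.lf (nat_lit 0) (nat_lit 679769290207) (nat_lit 304) (nat_lit 2239111008182) (nat_lit 380) (nat_lit 1518654515812) (nat_lit 21) (nat_lit 5) (nat_lit 25) (nat_lit 5) (nat_lit 26) (nat_lit 5) (nat_lit 271) (nat_lit 269) (nat_lit 120))))))) (XT.nd (nat_lit 702) (nat_lit 456) (nat_lit 0) (XT.nd (nat_lit 312) (nat_lit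 304) (nat_lit 0) (XT.nd (nat_lit 156) (nat_lit 228) (nat_lit 0) (XT.nd (nat_lit 78) (nat_lit 0) (nat_lit 76) (XT.lf (nat_lit 0) (nat_lit 928717847030) (nat_lit 304) (nat_lit 155485199175) (nat_lit 380) (nat_lit 3703728280456) (nat_lit 21) (nat_lit 5) (nat_lit 25) (nat_lit 5) (nat_lit 26) (nat_lit 5) (nat_lit 272) (nat_lit 269) (nat_lit 119)) (XT.lf (nat_lit 0) (nat_lit 1364178995188) (nat_lit 304) (nat_lit 2763270471571) (nat_lit 76) (nat_lit 1041062303062) (nat_lit 22) (nat_lit 5) (nat_lit 26) (nat_lit 5) (nat_lit 23) (nat_lit 5) (nat_lit 273) (nat_lit 269) (nat_lit 118))) (XT.nd (nat_lit 78) (nat_lit 304) (nat_lit 0) (XT.lf (nat_lit 0) (nat_lit 1925102697239) (nat_lit 304) (nat_lit 289424694955) (nat_lit 76) (nat_lit 3382630380013) (nat_lit 22) (nat_lit 5) (nat_lit 26) (nat_lit 5) (nat_lit 23) (nat_lit 5) (nat_lit 274) (nat_lit 269) (nat_lit 117)) (XT.lf (nat_lit 0) (nat_lit 2691248003178)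 (nat_lit 380) (nat_lit 3272361084141) (nat_lit 76) (nat_lit 108329130348) (nat_lit 18) (nat_lit 5) (nat_lit 23) (nat_lit 5) (nat_lit 19) (nat_lit 5) (nat_lit 275) (nat_lit 269) (nat_lit 116)))) (XT.nd (nat_lit 156) (nat_lit 152) (nat_lit 0) (XT.nd (nat_lit 78) (nat_lit 152) (nat_lit 0) (XT.lf (nat_lit 0) (nat_lit 3693618237546) (nat_lit 380) (nat_lit 337383867175) (nat_lit 76) (nat_lit 2568738155345) (nat_lit 18) (nat_lit 5) (nat_lit 23) (nat_lit 5) (nat_lit 19) (nat_lit 5) (nat_lit 276) (nat_lit 269) (nat_lit 115)) (XT.lf (nat_lit 0) (nat_lit 3334719743455) (nat_lit 152) (nat_lit 1649707896547) (nat_lit 228) (nat_lit 2201572423884) (nat_lit 16) (nat_lit 5) (nat_lit 18) (nat_lit 5) (nat_lit 19) (nat_lit 5) (nat_lit 277) (nat_lit 269) (nat_lit 114))) (XT.nd (nat_lit 78) (nat_lit 152) (nat_lit 0) (XT.lf (nat_lit 0) (nat_lit 6532418312027) (nat_lit 228) (nat_lit 307921085455) (nat_lit 76)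 (nat_lit 1010325461919) (nat_lit 16) (nat_lit 5) (nat_lit 19) (nat_lit 5) (nat_lit 17) (nat_lit 4) (nat_lit 278) (nat_lit 269) (nat_lit 113)) (XT.nd (nat_lit 78) (nat_lit 76) (nat_lit 0) (XT.lf (nat_lit 0) (nat_lit 4048840274977) (nat_lit 76) (nat_lit 4509978670105) (nat_lit 152) (nat_lit 19278725128) (nat_lit 15) (nat_lit 5) (nat_lit 16) (nat_lit 5) (nat_lit 17) (nat_lit 4) (nat_lit 279) (nat_lit 269) (nat_lit 112)) (XT.lf (nat_lit 0) (nat_lit 1360123378019) (nat_lit 152) (nat_lit 380332841154) (nat_lit 76) (nat_lit 7662501233781) (nat_lit 14) (nat_lit 5) (nat_lit 16) (nat_lit 5) (nat_lit 15) (nat_lit 5) (nat_lit 280) (nat_lit 269) (nat_lit 111)))))) (XT.nd (nat_lit 312) (nat_lit 228) (nat_lit 0) (XT.nd (nat_lit 156) (nat_lit 76) (nat_lit 0) (XT.nd (nat_lit 78) (nat_lit 0) (nat_lit 0) (XT.lf (nat_lit 0) (nat_lit 3213367386740) (nat_lit 228) (nat_lit 5571799647190) (nat_lit 76) (nat_lit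 1525905659350) (nat_lit 12) (nat_lit 5) (nat_lit 15) (nat_lit 5) (nat_lit 13) (nat_lit 4) (nat_lit 281) (nat_lit 269) (nat_lit 110)) (XT.lf (nat_lit 0) (nat_lit 5448304614957) (nat_lit 228) (nat_lit 766684606887) (nat_lit 76) (nat_lit 5124860005084) (nat_lit 12) (nat_lit 5) (nat_lit 15) (nat_lit 5) (nat_lit 13) (nat_lit 4) (nat_lit 282) (nat_lit 269) (nat_lit 109))) (XT.nd (nat_lit 78) (nat_lit 0) (nat_lit 0) (XT.lf (nat_lit 0) (nat_lit 5224301099690) (nat_lit 76) (nat_lit 3010508495218) (nat_lit 152) (nat_lit 4255683570591) (nat_lit 11) (nat_lit 5) (nat_lit 12) (nat_lit 5) (nat_lit 13) (nat_lit 4) (nat_lit 283) (nat_lit 269) (nat_lit 108)) (XT.lf (nat_lit 0) (nat_lit 11509211014549) (nat_lit 152) (nat_lit 1637466631103) (nat_lit 0) (nat_lit 656567945299) (nat_lit 11) (nat_lit 5) (nat_lit 13) (nat_lit 4) (nat_lit 11) (nat_lit 4) (nat_lit 284) (nat_lit 269) (nat_lit 107)))) (XT.nd (nat_lit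 156) (nat_lit 76) (nat_lit 0) (XT.nd (nat_lit 78) (nat_lit 0) (nat_lit 0) (XT.lf (nat_lit 0) (nat_lit 338879768073) (nat_lit 152) (nat_lit 10124051568099) (nat_lit 76) (nat_lit 4794173026695) (nat_lit 9) (nat_lit 5) (nat_lit 11) (nat_lit 5) (nat_lit 10) (nat_lit 4) (nat_lit 285) (nat_lit 269) (nat_lit 106)) (XT.lf (nat_lit 0) (nat_lit 3221536611042) (nat_lit 152) (nat_lit 3926339355896) (nat_lit 76) (nat_lit 9751329403642) (nat_lit 9) (nat_lit 5) (nat_lit 11) (nat_lit 5) (nat_lit 10) (nat_lit 4) (nat_lit 286) (nat_lit 269) (nat_lit 105))) (XT.nd (nat_lit 78) (nat_lit 0) (nat_lit 0) (XT.lf (nat_lit 0) (nat_lit 3513857589216) (nat_lit 76) (nat_lit 3168235740557) (nat_lit 152) (nat_lit 12083702997281) (nat_lit 8) (nat_lit 5) (nat_lit 9) (nat_lit 5) (nat_lit 10) (nat_lit 4) (nat_lit 287) (nat_lit 269) (nat_lit 104)) (XT.nd (nat_lit 78) (nat_lit 0) (nat_lit 0) (XT.lf (nat_lit 0) (nat_lit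 10935064169762) (nat_lit 152) (nat_lit 8438328925833) (nat_lit 0) (nat_lit 1497983239385) (nat_lit 8) (nat_lit 5) (nat_lit 10) (nat_lit 4) (nat_lit 8) (nat_lit 4) (nat_lit 288) (nat_lit 269) (nat_lit 103)) (XT.lf (nat_lit 0) (nat_lit 15976849004234) (nat_lit 152) (nat_lit 753546010835) (nat_lit 0) (nat_lit 6539768073754) (nat_lit 8) (nat_lit 5) (nat_lit 10) (nat_lit 4) (nat_lit 8) (nat_lit 4) (nat_lit 289) (nat_lit 269) (nat_lit 102))))))))
noncomputable def xc124 : XT := (XT.nd (nat_lit 34086) (nat_lit 0) (nat_lit 152) (XT.nd (nat_lit 33384) (nat_lit 0) (nat_lit 380) (XT.nd (nat_lit 32994) (nat_lit 0) (nat_lit 912) (XT.nd (nat_lit 32838) (nat_lit 0) (nat_lit 1064) (XT.nd (nat_lit 78) (nat_lit 76) (nat_lit 0) (XT.lf (nat_lit 0) (nat_lit 8873977151848) (nat_lit 76) (nat_lit 13268376881985) (nat_lit 76) (nat_lit 3831295951416) (nat_lit 7) (nat_lit 4) (nat_lit 8) (nat_lit 5) (nat_lit 8)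 (nat_lit 4) (nat_lit 290) (nat_lit 269) (nat_lit 101)) (XT.lf (nat_lit 0) (nat_lit 177934262323) (nat_lit 152) (nat_lit 9054522266651) (nat_lit 76) (nat_lit 19843081713260) (nat_lit 6) (nat_lit 5) (nat_lit 8) (nat_lit 5) (nat_lit 7) (nat_lit 4) (nat_lit 291) (nat_lit 269) (nat_lit 100))) (XT.nd (nat_lit 78) (nat_lit 0) (nat_lit 0) (XT.lf (nat_lit 0) (nat_lit 255708685341) (nat_lit 380) (nat_lit 976848074043) (nat_lit 380) (nat_lit 976848074043) (nat_lit 20) (nat_lit 3) (nat_lit 25) (nat_lit 3) (nat_lit 25) (nat_lit 5) (nat_lit 270) (nat_lit 270) (nat_lit 120)) (XT.lf (nat_lit 76) (nat_lit 71237139639) (nat_lit 0) (nat_lit 481486314903) (nat_lit 380) (nat_lit 4197054470154) (nat_lit 21) (nat_lit 5) (nat_lit 20) (nat_lit 3) (nat_lit 25) (nat_lit 5) (nat_lit 271) (nat_lit 270) (nat_lit 119)))) (XT.nd (nat_lit 156) (nat_lit 228) (nat_lit 0) (XT.nd (nat_lit 78) (nat_lit 0) (nat_lit 0) (XT.lf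 (nat_lit 0) (nat_lit 781734689585) (nat_lit 304) (nat_lit 2574977654725) (nat_lit 380) (nat_lit 1746452691115) (nat_lit 21) (nat_lit 5) (nat_lit 25) (nat_lit 5) (nat_lit 26) (nat_lit 5) (nat_lit 272) (nat_lit 270) (nat_lit 118)) (XT.lf (nat_lit 0) (nat_lit 1068025529169) (nat_lit 304) (nat_lit 178807974978) (nat_lit 380) (nat_lit 4259287520726) (nat_lit 21) (nat_lit 5) (nat_lit 25) (nat_lit 5) (nat_lit 26) (nat_lit 5) (nat_lit 273) (nat_lit 270) (nat_lit 117))) (XT.nd (nat_lit 78) (nat_lit 304) (nat_lit 0) (XT.lf (nat_lit 0) (nat_lit 1568805849020) (nat_lit 304) (nat_lit 3177761037680) (nat_lit 76) (nat_lit 1197221647890) (nat_lit 22) (nat_lit 5) (nat_lit 26) (nat_lit 5) (nat_lit 23) (nat_lit 5) (nat_lit 274) (nat_lit 270) (nat_lit 116)) (XT.nd (nat_lit 78) (nat_lit 304) (nat_lit 0) (XT.lf (nat_lit 0) (nat_lit 2213868105785) (nat_lit 304) (nat_lit 332838395175) (nat_lit 76) (nat_lit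 3890024936465) (nat_lit 22) (nat_lit 5) (nat_lit 26) (nat_lit 5) (nat_lit 23) (nat_lit 5) (nat_lit 275) (nat_lit 270) (nat_lit 115)) (XT.lf (nat_lit 0) (nat_lit 3094935207267) (nat_lit 380) (nat_lit 3763215242374) (nat_lit 76) (nat_lit 124578500117) (nat_lit 18) (nat_lit 5) (nat_lit 23) (nat_lit 5) (nat_lit 19) (nat_lit 5) (nat_lit 276) (nat_lit 270) (nat_lit 114)))))) (XT.nd (nat_lit 312) (nat_lit 304) (nat_lit 0) (XT.nd (nat_lit 156) (nat_lit 76) (nat_lit 0) (XT.nd (nat_lit 78) (nat_lit 152) (nat_lit 0) (XT.lf (nat_lit 0) (nat_lit 4247660976319) (nat_lit 380) (nat_lit 387991443436) (nat_lit 76) (nat_lit 2954048878835) (nat_lit 18) (nat_lit 5) (nat_lit 23) (nat_lit 5) (nat_lit 19) (nat_lit 5) (nat_lit 277) (nat_lit 270) (nat_lit 113)) (XT.lf (nat_lit 0) (nat_lit 3834927708616) (nat_lit 152) (nat_lit 1897164080269) (nat_lit 228) (nat_lit 2531808284140) (nat_lit 16) (nat_lit 5) (nat_lit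 18) (nat_lit 5) (nat_lit 19) (nat_lit 5) (nat_lit 278) (nat_lit 270) (nat_lit 112))) (XT.nd (nat_lit 78) (nat_lit 76) (nat_lit 0) (XT.lf (nat_lit 0) (nat_lit 7512281061365) (nat_lit 228) (nat_lit 354109244747) (nat_lit 76) (nat_lit 1161874281808) (nat_lit 16) (nat_lit 5) (nat_lit 19) (nat_lit 5) (nat_lit 17) (nat_lit 4) (nat_lit 279) (nat_lit 270) (nat_lit 111)) (XT.lf (nat_lit 0) (nat_lit 4656166319590) (nat_lit 76) (nat_lit 5186475469597) (nat_lit 152) (nat_lit 22170531194) (nat_lit 15) (nat_lit 5) (nat_lit 16) (nat_lit 5) (nat_lit 17) (nat_lit 4) (nat_lit 280) (nat_lit 270) (nat_lit 110)))) (XT.nd (nat_lit 156) (nat_lit 76) (nat_lit 0) (XT.nd (nat_lit 78) (nat_lit 152) (nat_lit 0) (XT.lf (nat_lit 0) (nat_lit 1564141886863) (nat_lit 152) (nat_lit 437382764184) (nat_lit 76) (nat_lit 8811876419522) (nat_lit 14) (nat_lit 5) (nat_lit 16) (nat_lit 5) (nat_lit 15) (nat_lit 5) (nat_lit 281)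 (nat_lit 270) (nat_lit 109)) (XT.lf (nat_lit 0) (nat_lit 3695372496780) (nat_lit 228) (nat_lit 6407569591006) (nat_lit 76) (nat_lit 1754791509177) (nat_lit 12) (nat_lit 5) (nat_lit 15) (nat_lit 5) (nat_lit 13) (nat_lit 4) (nat_lit 282) (nat_lit 270) (nat_lit 108))) (XT.nd (nat_lit 78) (nat_lit 76) (nat_lit 0) (XT.lf (nat_lit 0) (nat_lit 6265550308965) (nat_lit 228) (nat_lit 881687295082) (nat_lit 76) (nat_lit 5893589006651) (nat_lit 12) (nat_lit 5) (nat_lit 15) (nat_lit 5) (nat_lit 13) (nat_lit 4) (nat_lit 283) (nat_lit 270) (nat_lit 107)) (XT.nd (nat_lit 78) (nat_lit 0) (nat_lit 0) (XT.lf (nat_lit 0) (nat_lit 6007946267352) (nat_lit 76) (nat_lit 3462084768438) (nat_lit 152) (nat_lit 4894036104282) (nat_lit 11) (nat_lit 5) (nat_lit 12) (nat_lit 5) (nat_lit 13) (nat_lit 4) (nat_lit 284) (nat_lit 270) (nat_lit 106)) (XT.lf (nat_lit 0) (nat_lit 13235592668201) (nat_lit 152) (nat_lit 1883086623232)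 (nat_lit 0) (nat_lit 755053137936) (nat_lit 11) (nat_lit 5) (nat_lit 13) (nat_lit 4) (nat_lit 11) (nat_lit 4) (nat_lit 285) (nat_lit 270) (nat_lit 105))))))) (XT.nd (nat_lit 33540) (nat_lit 0) (nat_lit 304) (XT.nd (nat_lit 312) (nat_lit 0) (nat_lit 0) (XT.nd (nat_lit 156) (nat_lit 76) (nat_lit 0) (XT.nd (nat_lit 78) (nat_lit 0) (nat_lit 0) (XT.lf (nat_lit 0) (nat_lit 389711734731) (nat_lit 152) (nat_lit 11642659300749) (nat_lit 76) (nat_lit 5513298981598) (nat_lit 9) (nat_lit 5) (nat_lit 11) (nat_lit 5) (nat_lit 10) (nat_lit 4) (nat_lit 286) (nat_lit 270) (nat_lit 104)) (XT.lf (nat_lit 0) (nat_lit 3704767103957) (nat_lit 152) (nat_lit 4515290257050) (nat_lit 76) (nat_lit 11214028814969) (nat_lit 9) (nat_lit 5) (nat_lit 11) (nat_lit 5) (nat_lit 10) (nat_lit 4) (nat_lit 287) (nat_lit 270) (nat_lit 103))) (XT.nd (nat_lit 78) (nat_lit 0) (nat_lit 0) (XT.lf (nat_lit 0) (nat_lit 4040936229727)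 (nat_lit 76) (nat_lit 3643471100693) (nat_lit 152) (nat_lit 13896258445512) (nat_lit 8) (nat_lit 5) (nat_lit 9) (nat_lit 5) (nat_lit 10) (nat_lit 4) (nat_lit 288) (nat_lit 270) (nat_lit 102)) (XT.lf (nat_lit 0) (nat_lit 12575323796288) (nat_lit 152) (nat_lit 9704078262734) (nat_lit 0) (nat_lit 1722680726043) (nat_lit 8) (nat_lit 5) (nat_lit 10) (nat_lit 4) (nat_lit 8) (nat_lit 4) (nat_lit 289) (nat_lit 270) (nat_lit 101)))) (XT.nd (nat_lit 32994) (nat_lit 0) (nat_lit 912) (XT.nd (nat_lit 32916) (nat_lit 0) (nat_lit 912) (XT.lf (nat_lit 0) (nat_lit 18373376355793) (nat_lit 152) (nat_lit 866577910744) (nat_lit 0) (nat_lit 7520733285470) (nat_lit 8) (nat_lit 5) (nat_lit 10) (nat_lit 4) (nat_lit 8) (nat_lit 4) (nat_lit 290) (nat_lit 270) (nat_lit 100)) (XT.lf (nat_lit 0) (nat_lit 294064991037) (nat_lit 380) (nat_lit 1123375283478) (nat_lit 380) (nat_lit 1123375283478) (nat_lit 20) (nat_lit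 3) (nat_lit 25) (nat_lit 3) (nat_lit 25) (nat_lit 5) (nat_lit 271) (nat_lit 271) (nat_lit 118))) (XT.nd (nat_lit 78) (nat_lit 0) (nat_lit 76) (XT.lf (nat_lit 76) (nat_lit 81922713777) (nat_lit 0) (nat_lit 553709264114) (nat_lit 380) (nat_lit 4826612634711) (nat_lit 21) (nat_lit 5) (nat_lit 20) (nat_lit 3) (nat_lit 25) (nat_lit 5) (nat_lit 272) (nat_lit 271) (nat_lit 117)) (XT.nd (nat_lit 78) (nat_lit 0) (nat_lit 0) (XT.lf (nat_lit 0) (nat_lit 898994897444) (nat_lit 304) (nat_lit 2961224299391) (nat_lit 380) (nat_lit 2008420593218) (nat_lit 21) (nat_lit 5) (nat_lit 25) (nat_lit 5) (nat_lit 26) (nat_lit 5) (nat_lit 273) (nat_lit 271) (nat_lit 116)) (XT.lf (nat_lit 0) (nat_lit 1228229362389) (nat_lit 304) (nat_lit 205629168144) (nat_lit 380) (nat_lit 4898180647475) (nat_lit 21) (nat_lit 5) (nat_lit 25) (nat_lit 5) (nat_lit 26) (nat_lit 5) (nat_lit 274) (nat_lit 271) (nat_lit 115)))))) (XT.nd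 (nat_lit 312) (nat_lit 456) (nat_lit 0) (XT.nd (nat_lit 156) (nat_lit 304) (nat_lit 0) (XT.nd (nat_lit 78) (nat_lit 0) (nat_lit 0) (XT.lf (nat_lit 0) (nat_lit 1804126729817) (nat_lit 304) (nat_lit 3654425189833) (nat_lit 76) (nat_lit 1376804894595) (nat_lit 22) (nat_lit 5) (nat_lit 26) (nat_lit 5) (nat_lit 23) (nat_lit 5) (nat_lit 275) (nat_lit 271) (nat_lit 114)) (XT.lf (nat_lit 0) (nat_lit 2545948324647) (nat_lit 304) (nat_lit 382764151409) (nat_lit 76) (nat_lit 4473528676520) (nat_lit 22) (nat_lit 5) (nat_lit 26) (nat_lit 5) (nat_lit 23) (nat_lit 5) (nat_lit 276) (nat_lit 271) (nat_lit 113))) (XT.nd (nat_lit 78) (nat_lit 0) (nat_lit 0) (XT.lf (nat_lit 0) (nat_lit 3559175491088) (nat_lit 380) (nat_lit 4327697525412) (nat_lit 76) (nat_lit 143265275299) (nat_lit 18) (nat_lit 5) (nat_lit 23) (nat_lit 5) (nat_lit 19) (nat_lit 5) (nat_lit 277) (nat_lit 271) (nat_lit 112)) (XT.lf (nat_lit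 0) (nat_lit 4884810125141) (nat_lit 380) (nat_lit 446190157067) (nat_lit 76) (nat_lit 3397156210803) (nat_lit 18) (nat_lit 5) (nat_lit 23) (nat_lit 5) (nat_lit 19) (nat_lit 5) (nat_lit 278) (nat_lit 271) (nat_lit 111)))) (XT.nd (nat_lit 156) (nat_lit 304) (nat_lit 0) (XT.nd (nat_lit 78) (nat_lit 0) (nat_lit 0) (XT.lf (nat_lit 0) (nat_lit 4410166867662) (nat_lit 152) (nat_lit 2181738691735) (nat_lit 228) (nat_lit 2911579524245) (nat_lit 16) (nat_lit 5) (nat_lit 18) (nat_lit 5) (nat_lit 19) (nat_lit 5) (nat_lit 279) (nat_lit 271) (nat_lit 110)) (XT.lf (nat_lit 0) (nat_lit 8639123222486) (nat_lit 228) (nat_lit 407225628792) (nat_lit 76) (nat_lit 1336155424535) (nat_lit 16) (nat_lit 5) (nat_lit 19) (nat_lit 5) (nat_lit 17) (nat_lit 4) (nat_lit 280) (nat_lit 271) (nat_lit 109))) (XT.nd (nat_lit 78) (nat_lit 228) (nat_lit 0) (XT.lf (nat_lit 0) (nat_lit 5354591270074) (nat_lit 76) (nat_lit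 5964446789263) (nat_lit 152) (nat_lit 25496108829) (nat_lit 15) (nat_lit 5) (nat_lit 16) (nat_lit 5) (nat_lit 17) (nat_lit 4) (nat_lit 281) (nat_lit 271) (nat_lit 108)) (XT.nd (nat_lit 78) (nat_lit 152) (nat_lit 0) (XT.lf (nat_lit 0) (nat_lit 1798763171512) (nat_lit 152) (nat_lit 502990176434) (nat_lit 76) (nat_lit 10133657882960) (nat_lit 14) (nat_lit 5) (nat_lit 16) (nat_lit 5) (nat_lit 15) (nat_lit 5) (nat_lit 282) (nat_lit 271) (nat_lit 107)) (XT.lf (nat_lit 0) (nat_lit 4249678372830) (nat_lit 228) (nat_lit 7368705027190) (nat_lit 76) (nat_lit 2018010236252) (nat_lit 12) (nat_lit 5) (nat_lit 15) (nat_lit 5) (nat_lit 13) (nat_lit 4) (nat_lit 283) (nat_lit 271) (nat_lit 106))))))))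
noncomputable def xc125 : XT := (XT.nd (nat_lit 34320) (nat_lit 0) (nat_lit 76) (XT.nd (nat_lit 33618) (nat_lit 0) (nat_lit 532) (XT.nd (nat_lit 312) (nat_lit 76) (nat_lit 0) (XT.nd (nat_lit 156) (nat_lit 152) (nat_lit 0) (XT.nd (nat_lit 78) (nat_lit 76) (nat_lit 0) (XT.lf (nat_lit 0) (nat_lit 7205382856643) (nat_lit 228) (nat_lit 1013940387199) (nat_lit 76) (nat_lit 6777627358256) (nat_lit 12) (nat_lit 5) (nat_lit 15) (nat_lit 5) (nat_lit 13) (nat_lit 4) (nat_lit 284) (nat_lit 271) (nat_lit 105)) (XT.lf (nat_lit 0) (nat_lit 6909138209503) (nat_lit 76) (nat_lit 3981397482900) (nat_lit 152) (nat_lit 5628141518490) (nat_lit 11) (nat_lit 5) (nat_lit 12) (nat_lit 5) (nat_lit 13) (nat_lit 4) (nat_lit 285) (nat_lit 271) (nat_lit 104))) (XT.nd (nat_lit 78) (nat_lit 152) (nat_lit 0) (XT.lf (nat_lit 0) (nat_lit 15220931569542) (nat_lit 152) (nat_lit 2165549614800) (nat_lit 0) (nat_lit 868311109262)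 (nat_lit 11) (nat_lit 5) (nat_lit 13) (nat_lit 4) (nat_lit 11) (nat_lit 4) (nat_lit 286) (nat_lit 271) (nat_lit 103)) (XT.lf (nat_lit 0) (nat_lit 448168496035) (nat_lit 152) (nat_lit 13389058193922) (nat_lit 76) (nat_lit 6340293829516) (nat_lit 9) (nat_lit 5) (nat_lit 11) (nat_lit 5) (nat_lit 10) (nat_lit 4) (nat_lit 287) (nat_lit 271) (nat_lit 102)))) (XT.nd (nat_lit 156) (nat_lit 0) (nat_lit 0) (XT.nd (nat_lit 78) (nat_lit 76) (nat_lit 0) (XT.lf (nat_lit 0) (nat_lit 4260482170502) (nat_lit 152) (nat_lit 5192583793921) (nat_lit 76) (nat_lit 12896133137805) (nat_lit 9) (nat_lit 5) (nat_lit 11) (nat_lit 5) (nat_lit 10) (nat_lit 4) (nat_lit 288) (nat_lit 271) (nat_lit 101)) (XT.lf (nat_lit 0) (nat_lit 4647076665796) (nat_lit 76) (nat_lit 4189991765081) (nat_lit 152) (nat_lit 15980697211309) (nat_lit 8) (nat_lit 5) (nat_lit 9) (nat_lit 5) (nat_lit 10) (nat_lit 4) (nat_lit 289) (nat_lit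 271) (nat_lit 100))) (XT.nd (nat_lit 32994) (nat_lit 0) (nat_lit 912) (XT.lf (nat_lit 0) (nat_lit 14461622366535) (nat_lit 152) (nat_lit 11159690000652) (nat_lit 0) (nat_lit 1981082835517) (nat_lit 8) (nat_lit 5) (nat_lit 10) (nat_lit 4) (nat_lit 8) (nat_lit 4) (nat_lit 290) (nat_lit 271) (nat_lit 99)) (XT.nd (nat_lit 78) (nat_lit 0) (nat_lit 0) (XT.lf (nat_lit 0) (nat_lit 338174741882) (nat_lit 380) (nat_lit 1291881574736) (nat_lit 380) (nat_lit 1291881574736) (nat_lit 20) (nat_lit 3) (nat_lit 25) (nat_lit 3) (nat_lit 25) (nat_lit 5) (nat_lit 272) (nat_lit 272) (nat_lit 116)) (XT.lf (nat_lit 76) (nat_lit 94211123256) (nat_lit 0) (nat_lit 636765655224) (nat_lit 380) (nat_lit 5550604525406) (nat_lit 21) (nat_lit 5) (nat_lit 20) (nat_lit 3) (nat_lit 25) (nat_lit 5) (nat_lit 273) (nat_lit 272) (nat_lit 115)))))) (XT.nd (nat_lit 312) (nat_lit 456) (nat_lit 0) (XT.nd (nat_lit 156) (nat_lit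 0) (nat_lit 76) (XT.nd (nat_lit 78) (nat_lit 0) (nat_lit 0) (XT.lf (nat_lit 0) (nat_lit 1033844135404) (nat_lit 304) (nat_lit 3405407941622) (nat_lit 380) (nat_lit 2309683681018) (nat_lit 21) (nat_lit 5) (nat_lit 25) (nat_lit 5) (nat_lit 26) (nat_lit 5) (nat_lit 274) (nat_lit 272) (nat_lit 114)) (XT.lf (nat_lit 0) (nat_lit 1412463769655) (nat_lit 304) (nat_lit 236473541037) (nat_lit 380) (nat_lit 5632907743567) (nat_lit 21) (nat_lit 5) (nat_lit 25) (nat_lit 5) (nat_lit 26) (nat_lit 5) (nat_lit 275) (nat_lit 272) (nat_lit 113))) (XT.nd (nat_lit 78) (nat_lit 0) (nat_lit 0) (XT.lf (nat_lit 0) (nat_lit 2074745741893) (nat_lit 304) (nat_lit 4202588965663) (nat_lit 76) (nat_lit 1583325628423) (nat_lit 22) (nat_lit 5) (nat_lit 26) (nat_lit 5) (nat_lit 23) (nat_lit 5) (nat_lit 276) (nat_lit 272) (nat_lit 112)) (XT.lf (nat_lit 0) (nat_lit 2927840575608) (nat_lit 304) (nat_lit 440178771821) (nat_lit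 76) (nat_lit 5144557977684) (nat_lit 22) (nat_lit 5) (nat_lit 26) (nat_lit 5) (nat_lit 23) (nat_lit 5) (nat_lit 277) (nat_lit 272) (nat_lit 111)))) (XT.nd (nat_lit 156) (nat_lit 228) (nat_lit 0) (XT.nd (nat_lit 78) (nat_lit 0) (nat_lit 0) (XT.lf (nat_lit 0) (nat_lit 4093051816817) (nat_lit 380) (nat_lit 4976852151716) (nat_lit 76) (nat_lit 164755066718) (nat_lit 18) (nat_lit 5) (nat_lit 23) (nat_lit 5) (nat_lit 19) (nat_lit 5) (nat_lit 278) (nat_lit 272) (nat_lit 110)) (XT.lf (nat_lit 0) (nat_lit 5617531645709) (nat_lit 380) (nat_lit 513118678446) (nat_lit 76) (nat_lit 3906729642532) (nat_lit 18) (nat_lit 5) (nat_lit 23) (nat_lit 5) (nat_lit 19) (nat_lit 5) (nat_lit 279) (nat_lit 272) (nat_lit 109))) (XT.nd (nat_lit 78) (nat_lit 76) (nat_lit 0) (XT.lf (nat_lit 0) (nat_lit 5071691899893) (nat_lit 152) (nat_lit 2508999495060) (nat_lit 228) (nat_lit 3348316450980) (nat_lit 16) (nat_lit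 5) (nat_lit 18) (nat_lit 5) (nat_lit 19) (nat_lit 5) (nat_lit 280) (nat_lit 272) (nat_lit 108)) (XT.nd (nat_lit 78) (nat_lit 76) (nat_lit 0) (XT.lf (nat_lit 0) (nat_lit 9934991707307) (nat_lit 228) (nat_lit 468309471095) (nat_lit 76) (nat_lit 1536578738559) (nat_lit 16) (nat_lit 5) (nat_lit 19) (nat_lit 5) (nat_lit 17) (nat_lit 4) (nat_lit 281) (nat_lit 272) (nat_lit 107)) (XT.lf (nat_lit 0) (nat_lit 6157779962510) (nat_lit 76) (nat_lit 6859113807067) (nat_lit 152) (nat_lit 29320523607) (nat_lit 15) (nat_lit 5) (nat_lit 16) (nat_lit 5) (nat_lit 17) (nat_lit 4) (nat_lit 282) (nat_lit 272) (nat_lit 106))))))) (XT.nd (nat_lit 33774) (nat_lit 0) (nat_lit 456) (XT.nd (nat_lit 312) (nat_lit 152) (nat_lit 0) (XT.nd (nat_lit 156) (nat_lit 76) (nat_lit 0) (XT.nd (nat_lit 78) (nat_lit 152) (nat_lit 0) (XT.lf (nat_lit 0) (nat_lit 2068577648464) (nat_lit 152) (nat_lit 578438701102) (nat_lit 76)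 (nat_lit 11653706565789) (nat_lit 14) (nat_lit 5) (nat_lit 16) (nat_lit 5) (nat_lit 15) (nat_lit 5) (nat_lit 283) (nat_lit 272) (nat_lit 105)) (XT.lf (nat_lit 0) (nat_lit 4887130129915) (nat_lit 228) (nat_lit 8474010779402) (nat_lit 76) (nat_lit 2320711772219) (nat_lit 12) (nat_lit 5) (nat_lit 15) (nat_lit 5) (nat_lit 13) (nat_lit 4) (nat_lit 284) (nat_lit 272) (nat_lit 104))) (XT.nd (nat_lit 78) (nat_lit 76) (nat_lit 0) (XT.lf (nat_lit 0) (nat_lit 8286190286149) (nat_lit 228) (nat_lit 1166031443657) (nat_lit 76) (nat_lit 7794271462454) (nat_lit 12) (nat_lit 5) (nat_lit 15) (nat_lit 5) (nat_lit 13) (nat_lit 4) (nat_lit 285) (nat_lit 272) (nat_lit 103)) (XT.lf (nat_lit 0) (nat_lit 7945508942477) (nat_lit 76) (nat_lit 4578607104728) (nat_lit 152) (nat_lit 6472362745179) (nat_lit 11) (nat_lit 5) (nat_lit 12) (nat_lit 5) (nat_lit 13) (nat_lit 4) (nat_lit 286) (nat_lit 272) (nat_lit 102))))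 (XT.nd (nat_lit 156) (nat_lit 0) (nat_lit 0) (XT.nd (nat_lit 78) (nat_lit 152) (nat_lit 0) (XT.lf (nat_lit 0) (nat_lit 17504071305814) (nat_lit 152) (nat_lit 2490382055570) (nat_lit 0) (nat_lit 998557776133) (nat_lit 11) (nat_lit 5) (nat_lit 13) (nat_lit 4) (nat_lit 11) (nat_lit 4) (nat_lit 287) (nat_lit 272) (nat_lit 101)) (XT.lf (nat_lit 0) (nat_lit 515393771268) (nat_lit 152) (nat_lit 15397416921544) (nat_lit 76) (nat_lit 7291337904457) (nat_lit 9) (nat_lit 5) (nat_lit 11) (nat_lit 5) (nat_lit 10) (nat_lit 4) (nat_lit 288) (nat_lit 272) (nat_lit 100))) (XT.nd (nat_lit 33150) (nat_lit 0) (nat_lit 836) (XT.lf (nat_lit 0) (nat_lit 4899554496797) (nat_lit 152) (nat_lit 5971471361734) (nat_lit 76) (nat_lit 14830553108922) (nat_lit 9) (nat_lit 5) (nat_lit 11) (nat_lit 5) (nat_lit 10) (nat_lit 4) (nat_lit 289) (nat_lit 272) (nat_lit 99)) (XT.nd (nat_lit 78) (nat_lit 0) (nat_lit 0) (XT.lf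 (nat_lit 0) (nat_lit 388900954819) (nat_lit 380) (nat_lit 1485663809990) (nat_lit 380) (nat_lit 1485663809990) (nat_lit 20) (nat_lit 3) (nat_lit 25) (nat_lit 3) (nat_lit 25) (nat_lit 5) (nat_lit 273) (nat_lit 273) (nat_lit 114)) (XT.lf (nat_lit 76) (nat_lit 108342793570) (nat_lit 0) (nat_lit 732280504637) (nat_lit 380) (nat_lit 6383195200805) (nat_lit 21) (nat_lit 5) (nat_lit 20) (nat_lit 3) (nat_lit 25) (nat_lit 5) (nat_lit 274) (nat_lit 273) (nat_lit 113)))))) (XT.nd (nat_lit 312) (nat_lit 456) (nat_lit 0) (XT.nd (nat_lit 156) (nat_lit 0) (nat_lit 76) (XT.nd (nat_lit 78) (nat_lit 0) (nat_lit 0) (XT.lf (nat_lit 0) (nat_lit 1188920758243) (nat_lit 304) (nat_lit 3916219130840) (nat_lit 380) (nat_lit 2656136232276) (nat_lit 21) (nat_lit 5) (nat_lit 25) (nat_lit 5) (nat_lit 26) (nat_lit 5) (nat_lit 275) (nat_lit 273) (nat_lit 112)) (XT.lf (nat_lit 0) (nat_lit 1624333337301) (nat_lit 304)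 (nat_lit 271944570431) (nat_lit 380) (nat_lit 6477843904325) (nat_lit 21) (nat_lit 5) (nat_lit 25) (nat_lit 5) (nat_lit 26) (nat_lit 5) (nat_lit 276) (nat_lit 273) (nat_lit 111))) (XT.nd (nat_lit 78) (nat_lit 0) (nat_lit 0) (XT.lf (nat_lit 0) (nat_lit 2385957605145) (nat_lit 304) (nat_lit 4832977308512) (nat_lit 76) (nat_lit 1820824472414) (nat_lit 22) (nat_lit 5) (nat_lit 26) (nat_lit 5) (nat_lit 23) (nat_lit 5) (nat_lit 277) (nat_lit 273) (nat_lit 110)) (XT.lf (nat_lit 0) (nat_lit 3367016663661) (nat_lit 304) (nat_lit 506205585854) (nat_lit 76) (nat_lit 5916241674099) (nat_lit 22) (nat_lit 5) (nat_lit 26) (nat_lit 5) (nat_lit 23) (nat_lit 5) (nat_lit 278) (nat_lit 273) (nat_lit 109)))) (XT.nd (nat_lit 156) (nat_lit 228) (nat_lit 0) (XT.nd (nat_lit 78) (nat_lit 0) (nat_lit 0) (XT.lf (nat_lit 0) (nat_lit 4707009590901) (nat_lit 380) (nat_lit 5723379972576) (nat_lit 76) (nat_lit 189468326820)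 (nat_lit 18) (nat_lit 5) (nat_lit 23) (nat_lit 5) (nat_lit 19) (nat_lit 5) (nat_lit 279) (nat_lit 273) (nat_lit 108)) (XT.lf (nat_lit 0) (nat_lit 6460161393923) (nat_lit 380) (nat_lit 590086478563) (nat_lit 76) (nat_lit 4492739088993) (nat_lit 18) (nat_lit 5) (nat_lit 23) (nat_lit 5) (nat_lit 19) (nat_lit 5) (nat_lit 280) (nat_lit 273) (nat_lit 107))) (XT.nd (nat_lit 78) (nat_lit 76) (nat_lit 0) (XT.lf (nat_lit 0) (nat_lit 5832445686452) (nat_lit 152) (nat_lit 2885349418991) (nat_lit 228) (nat_lit 3850563917188) (nat_lit 16) (nat_lit 5) (nat_lit 18) (nat_lit 5) (nat_lit 19) (nat_lit 5) (nat_lit 281) (nat_lit 273) (nat_lit 106)) (XT.nd (nat_lit 78) (nat_lit 76) (nat_lit 0) (XT.lf (nat_lit 0) (nat_lit 11425240464498) (nat_lit 228) (nat_lit 538555890234) (nat_lit 76) (nat_lit 1767065549604) (nat_lit 16) (nat_lit 5) (nat_lit 19) (nat_lit 5) (nat_lit 17) (nat_lit 4) (nat_lit 282) (nat_lit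 273) (nat_lit 105)) (XT.lf (nat_lit 0) (nat_lit 7081446958342) (nat_lit 76) (nat_lit 7887980877684) (nat_lit 152) (nat_lit 33718600980) (nat_lit 15) (nat_lit 5) (nat_lit 16) (nat_lit 5) (nat_lit 17) (nat_lit 4) (nat_lit 283) (nat_lit 273) (nat_lit 104))))))))
noncomputable def xc126 : XT := (XT.nd (nat_lit 68250) (nat_lit 0) (nat_lit 304) (XT.nd (nat_lit 34008) (nat_lit 0) (nat_lit 228) (XT.nd (nat_lit 33618) (nat_lit 0) (nat_lit 684) (XT.nd (nat_lit 156) (nat_lit 76) (nat_lit 0) (XT.nd (nat_lit 78) (nat_lit 0) (nat_lit 0) (XT.lf (nat_lit 0) (nat_lit 5620199650279) (nat_lit 228) (nat_lit 9745112394902) (nat_lit 76) (nat_lit 2668818538451) (nat_lit 12) (nat_lit 5) (nat_lit 15) (nat_lit 5) (nat_lit 13) (nat_lit 4) (nat_lit 285) (nat_lit 273) (nat_lit 102)) (XT.lf (nat_lit 0) (nat_lit 9529118829833) (nat_lit 228) (nat_lit 1340936158979) (nat_lit 76) (nat_lit 8963412182169) (nat_lit 12)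 (nat_lit 5) (nat_lit 15) (nat_lit 5) (nat_lit 13) (nat_lit 4) (nat_lit 286) (nat_lit 273) (nat_lit 101))) (XT.nd (nat_lit 33384) (nat_lit 0) (nat_lit 684) (XT.lf (nat_lit 0) (nat_lit 9137335285020) (nat_lit 76) (nat_lit 5265398169977) (nat_lit 152) (nat_lit 7443217156135) (nat_lit 11) (nat_lit 5) (nat_lit 12) (nat_lit 5) (nat_lit 13) (nat_lit 4) (nat_lit 287) (nat_lit 273) (nat_lit 100)) (XT.lf (nat_lit 0) (nat_lit 447236099293) (nat_lit 380) (nat_lit 1708513380766) (nat_lit 380) (nat_lit 1708513380766) (nat_lit 20) (nat_lit 3) (nat_lit 25) (nat_lit 3) (nat_lit 25) (nat_lit 5) (nat_lit 274) (nat_lit 274) (nat_lit 112)))) (XT.nd (nat_lit 156) (nat_lit 0) (nat_lit 76) (XT.nd (nat_lit 78) (nat_lit 0) (nat_lit 76) (XT.lf (nat_lit 76) (nat_lit 124594213985) (nat_lit 0) (nat_lit 842122581186) (nat_lit 380) (nat_lit 7340674478346) (nat_lit 21) (nat_lit 5) (nat_lit 20) (nat_lit 3) (nat_lit 25)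 (nat_lit 5) (nat_lit 275) (nat_lit 274) (nat_lit 111)) (XT.lf (nat_lit 0) (nat_lit 1367258873891) (nat_lit 304) (nat_lit 4503651998934) (nat_lit 380) (nat_lit 3054556666441) (nat_lit 21) (nat_lit 5) (nat_lit 25) (nat_lit 5) (nat_lit 26) (nat_lit 5) (nat_lit 276) (nat_lit 274) (nat_lit 110))) (XT.nd (nat_lit 78) (nat_lit 0) (nat_lit 76) (XT.lf (nat_lit 0) (nat_lit 1867983339558) (nat_lit 304) (nat_lit 312736254664) (nat_lit 380) (nat_lit 7449520489385) (nat_lit 21) (nat_lit 5) (nat_lit 25) (nat_lit 5) (nat_lit 26) (nat_lit 5) (nat_lit 277) (nat_lit 274) (nat_lit 109)) (XT.nd (nat_lit 78) (nat_lit 0) (nat_lit 0) (XT.lf (nat_lit 0) (nat_lit 2743851247406) (nat_lit 304) (nat_lit 5557923903277) (nat_lit 76) (nat_lit 2093948143069) (nat_lit 22) (nat_lit 5) (nat_lit 26) (nat_lit 5) (nat_lit 23) (nat_lit 5) (nat_lit 278) (nat_lit 274) (nat_lit 108)) (XT.lf (nat_lit 0) (nat_lit 3872069164505)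 (nat_lit 304) (nat_lit 582136422417) (nat_lit 76) (nat_lit 6803677925034) (nat_lit 22) (nat_lit 5) (nat_lit 26) (nat_lit 5) (nat_lit 23) (nat_lit 5) (nat_lit 279) (nat_lit 274) (nat_lit 107)))))) (XT.nd (nat_lit 312) (nat_lit 152) (nat_lit 0) (XT.nd (nat_lit 156) (nat_lit 152) (nat_lit 0) (XT.nd (nat_lit 78) (nat_lit 0) (nat_lit 0) (XT.lf (nat_lit 0) (nat_lit 5413061030717) (nat_lit 380) (nat_lit 6581886967028) (nat_lit 76) (nat_lit 217888575914) (nat_lit 18) (nat_lit 5) (nat_lit 23) (nat_lit 5) (nat_lit 19) (nat_lit 5) (nat_lit 280) (nat_lit 274) (nat_lit 106)) (XT.lf (nat_lit 0) (nat_lit 7429185604038) (nat_lit 380) (nat_lit 678599449100) (nat_lit 76) (nat_lit 5166649952404) (nat_lit 18) (nat_lit 5) (nat_lit 23) (nat_lit 5) (nat_lit 19) (nat_lit 5) (nat_lit 281) (nat_lit 274) (nat_lit 105))) (XT.nd (nat_lit 78) (nat_lit 0) (nat_lit 0) (XT.lf (nat_lit 0) (nat_lit 6707312540611) (nat_lit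 152) (nat_lit 3318151831591) (nat_lit 228) (nat_lit 4428148503679) (nat_lit 16) (nat_lit 5) (nat_lit 18) (nat_lit 5) (nat_lit 19) (nat_lit 5) (nat_lit 282) (nat_lit 274) (nat_lit 104)) (XT.lf (nat_lit 0) (nat_lit 13139026535002) (nat_lit 228) (nat_lit 619339272617) (nat_lit 76) (nat_lit 2032125382241) (nat_lit 16) (nat_lit 5) (nat_lit 19) (nat_lit 5) (nat_lit 17) (nat_lit 4) (nat_lit 283) (nat_lit 274) (nat_lit 103)))) (XT.nd (nat_lit 33696) (nat_lit 0) (nat_lit 456) (XT.nd (nat_lit 78) (nat_lit 76) (nat_lit 0) (XT.lf (nat_lit 0) (nat_lit 8143664003194) (nat_lit 76) (nat_lit 9071178009002) (nat_lit 152) (nat_lit 38776390243) (nat_lit 15) (nat_lit 5) (nat_lit 16) (nat_lit 5) (nat_lit 17) (nat_lit 4) (nat_lit 284) (nat_lit 274) (nat_lit 102)) (XT.lf (nat_lit 0) (nat_lit 2735693941858) (nat_lit 152) (nat_lit 764985179617) (nat_lit 76) (nat_lit 15412026933812) (nat_lit 14) (nat_lit 5) (nat_lit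 16) (nat_lit 5) (nat_lit 15) (nat_lit 5) (nat_lit 285) (nat_lit 274) (nat_lit 101))) (XT.nd (nat_lit 78) (nat_lit 0) (nat_lit 0) (XT.lf (nat_lit 0) (nat_lit 514321515134) (nat_lit 380) (nat_lit 1964790387334) (nat_lit 380) (nat_lit 1964790387334) (nat_lit 20) (nat_lit 3) (nat_lit 25) (nat_lit 3) (nat_lit 25) (nat_lit 5) (nat_lit 275) (nat_lit 275) (nat_lit 110)) (XT.nd (nat_lit 78) (nat_lit 0) (nat_lit 76) (XT.lf (nat_lit 76) (nat_lit 143283347126) (nat_lit 0) (nat_lit 968440969009) (nat_lit 380) (nat_lit 8441775648148) (nat_lit 21) (nat_lit 5) (nat_lit 20) (nat_lit 3) (nat_lit 25) (nat_lit 5) (nat_lit 276) (nat_lit 275) (nat_lit 109)) (XT.lf (nat_lit 0) (nat_lit 1572347706420) (nat_lit 304) (nat_lit 5179199797616) (nat_lit 380) (nat_lit 3512740165896) (nat_lit 21) (nat_lit 5) (nat_lit 25) (nat_lit 5) (nat_lit 26) (nat_lit 5) (nat_lit 277) (nat_lit 275) (nat_lit 108))))))) (XT.nd (nat_lit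 34320) (nat_lit 0) (nat_lit 76) (XT.nd (nat_lit 312) (nat_lit 228) (nat_lit 0) (XT.nd (nat_lit 156) (nat_lit 228) (nat_lit 0) (XT.nd (nat_lit 78) (nat_lit 0) (nat_lit 76) (XT.lf (nat_lit 0) (nat_lit 2148180841749) (nat_lit 304) (nat_lit 359646691857) (nat_lit 380) (nat_lit 8566948562349) (nat_lit 21) (nat_lit 5) (nat_lit 25) (nat_lit 5) (nat_lit 26) (nat_lit 5) (nat_lit 278) (nat_lit 275) (nat_lit 107)) (XT.lf (nat_lit 0) (nat_lit 3155428935642) (nat_lit 304) (nat_lit 6391612487624) (nat_lit 76) (nat_lit 2408040364373) (nat_lit 22) (nat_lit 5) (nat_lit 26) (nat_lit 5) (nat_lit 23) (nat_lit 5) (nat_lit 279) (nat_lit 275) (nat_lit 106))) (XT.nd (nat_lit 78) (nat_lit 304) (nat_lit 0) (XT.lf (nat_lit 0) (nat_lit 4452879540159) (nat_lit 304) (nat_lit 669456884786) (nat_lit 76) (nat_lit 7824229613653) (nat_lit 22) (nat_lit 5) (nat_lit 26) (nat_lit 5) (nat_lit 23) (nat_lit 5) (nat_lit 280)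 (nat_lit 275) (nat_lit 105)) (XT.lf (nat_lit 0) (nat_lit 6225020186218) (nat_lit 380) (nat_lit 7569170010998) (nat_lit 76) (nat_lit 250571862354) (nat_lit 18) (nat_lit 5) (nat_lit 23) (nat_lit 5) (nat_lit 19) (nat_lit 5) (nat_lit 281) (nat_lit 275) (nat_lit 104)))) (XT.nd (nat_lit 156) (nat_lit 76) (nat_lit 0) (XT.nd (nat_lit 78) (nat_lit 152) (nat_lit 0) (XT.lf (nat_lit 0) (nat_lit 8543563445420) (nat_lit 380) (nat_lit 780389365522) (nat_lit 76) (nat_lit 5941647445311) (nat_lit 18) (nat_lit 5) (nat_lit 23) (nat_lit 5) (nat_lit 19) (nat_lit 5) (nat_lit 282) (nat_lit 275) (nat_lit 103)) (XT.lf (nat_lit 0) (nat_lit 7713409422602) (nat_lit 152) (nat_lit 3815874606142) (nat_lit 228) (nat_lit 5092370778409) (nat_lit 16) (nat_lit 5) (nat_lit 18) (nat_lit 5) (nat_lit 19) (nat_lit 5) (nat_lit 283) (nat_lit 275) (nat_lit 102))) (XT.nd (nat_lit 78) (nat_lit 76) (nat_lit 0) (XT.lf (nat_lit 0) (nat_lit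 15109880515878) (nat_lit 228) (nat_lit 712240162638) (nat_lit 76) (nat_lit 2336944189726) (nat_lit 16) (nat_lit 5) (nat_lit 19) (nat_lit 5) (nat_lit 17) (nat_lit 4) (nat_lit 284) (nat_lit 275) (nat_lit 101)) (XT.nd (nat_lit 33696) (nat_lit 0) (nat_lit 380) (XT.lf (nat_lit 0) (nat_lit 9365213604505) (nat_lit 76) (nat_lit 10431854710099) (nat_lit 152) (nat_lit 44592848111) (nat_lit 15) (nat_lit 5) (nat_lit 16) (nat_lit 5) (nat_lit 17) (nat_lit 4) (nat_lit 285) (nat_lit 275) (nat_lit 100)) (XT.lf (nat_lit 0) (nat_lit 591469743119) (nat_lit 380) (nat_lit 2259508945022) (nat_lit 380) (nat_lit 2259508945022) (nat_lit 20) (nat_lit 3) (nat_lit 25) (nat_lit 3) (nat_lit 25) (nat_lit 5) (nat_lit 276) (nat_lit 276) (nat_lit 108)))))) (XT.nd (nat_lit 312) (nat_lit 304) (nat_lit 0) (XT.nd (nat_lit 156) (nat_lit 0) (nat_lit 76) (XT.nd (nat_lit 78) (nat_lit 0) (nat_lit 76) (XT.lf (nat_lit 76) (nat_lit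 164775849984) (nat_lit 0) (nat_lit 1113707114849) (nat_lit 380) (nat_lit 9708041993895) (nat_lit 21) (nat_lit 5) (nat_lit 20) (nat_lit 3) (nat_lit 25) (nat_lit 5) (nat_lit 277) (nat_lit 276) (nat_lit 107)) (XT.lf (nat_lit 0) (nat_lit 1808199863476) (nat_lit 304) (nat_lit 5956079766383) (nat_lit 380) (nat_lit 4039651190394) (nat_lit 21) (nat_lit 5) (nat_lit 25) (nat_lit 5) (nat_lit 26) (nat_lit 5) (nat_lit 278) (nat_lit 276) (nat_lit 106))) (XT.nd (nat_lit 78) (nat_lit 0) (nat_lit 76) (XT.lf (nat_lit 0) (nat_lit 2470407968962) (nat_lit 304) (nat_lit 413593694874) (nat_lit 380) (nat_lit 9851990846365) (nat_lit 21) (nat_lit 5) (nat_lit 25) (nat_lit 5) (nat_lit 26) (nat_lit 5) (nat_lit 279) (nat_lit 276) (nat_lit 105)) (XT.lf (nat_lit 0) (nat_lit 3628743276840) (nat_lit 304) (nat_lit 7350354359903) (nat_lit 76) (nat_lit 2769246418911) (nat_lit 22) (nat_lit 5) (nat_lit 26) (nat_lit 5) (nat_lit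 23) (nat_lit 5) (nat_lit 280) (nat_lit 276) (nat_lit 104)))) (XT.nd (nat_lit 156) (nat_lit 152) (nat_lit 0) (XT.nd (nat_lit 78) (nat_lit 304) (nat_lit 0) (XT.lf (nat_lit 0) (nat_lit 5120811471923) (nat_lit 304) (nat_lit 769875416751) (nat_lit 76) (nat_lit 8997864055599) (nat_lit 22) (nat_lit 5) (nat_lit 26) (nat_lit 5) (nat_lit 23) (nat_lit 5) (nat_lit 281) (nat_lit 276) (nat_lit 103)) (XT.lf (nat_lit 0) (nat_lit 7158773214826) (nat_lit 380) (nat_lit 8704545511828) (nat_lit 76) (nat_lit 288157641748) (nat_lit 18) (nat_lit 5) (nat_lit 23) (nat_lit 5) (nat_lit 19) (nat_lit 5) (nat_lit 282) (nat_lit 276) (nat_lit 102))) (XT.nd (nat_lit 78) (nat_lit 152) (nat_lit 0) (XT.lf (nat_lit 0) (nat_lit 9825097962820) (nat_lit 380) (nat_lit 897447769637) (nat_lit 76) (nat_lit 6832894562143) (nat_lit 18) (nat_lit 5) (nat_lit 23) (nat_lit 5) (nat_lit 19) (nat_lit 5) (nat_lit 283) (nat_lit 276) (nat_lit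 101)) (XT.nd (nat_lit 78) (nat_lit 0) (nat_lit 0) (XT.lf (nat_lit 0) (nat_lit 8870420836674) (nat_lit 152) (nat_lit 4388255796921) (nat_lit 228) (nat_lit 5856226394548) (nat_lit 16) (nat_lit 5) (nat_lit 18) (nat_lit 5) (nat_lit 19) (nat_lit 5) (nat_lit 284) (nat_lit 276) (nat_lit 100)) (XT.lf (nat_lit 0) (nat_lit 17376362593733) (nat_lit 228) (nat_lit 819076186374) (nat_lit 76) (nat_lit 2687485818298) (nat_lit 16) (nat_lit 5) (nat_lit 19) (nat_lit 5) (nat_lit 17) (nat_lit 4) (nat_lit 285) (nat_lit 276) (nat_lit 99))))))))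
noncomputable def xc127 : XT := (XT.nd (nat_lit 69030) (nat_lit 0) (nat_lit 152) (XT.nd (nat_lit 34476) (nat_lit 0) (nat_lit 152) (XT.nd (nat_lit 312) (nat_lit 304) (nat_lit 0) (XT.nd (nat_lit 156) (nat_lit 0) (nat_lit 76) (XT.nd (nat_lit 78) (nat_lit 0) (nat_lit 0) (XT.lf (nat_lit 0) (nat_lit 680190205128) (nat_lit 380) (nat_lit 2598435286462) (nat_lit 380) (nat_lit 2598435286462) (nat_lit 20) (nat_lit 3) (nat_lit 25) (nat_lit 3) (nat_lit 25) (nat_lit 5) (nat_lit 277) (nat_lit 277) (nat_lit 106)) (XT.lf (nat_lit 76) (nat_lit 189492228078) (nat_lit 0) (nat_lit 1280763182446) (nat_lit 380) (nat_lit 11164248291864) (nat_lit 21) (nat_lit 5) (nat_lit 20) (nat_lit 3) (nat_lit 25) (nat_lit 5) (nat_lit 278) (nat_lit 277) (nat_lit 105))) (XT.nd (nat_lit 78) (nat_lit 0) (nat_lit 0) (XT.lf (nat_lit 0) (nat_lit 2079429843824) (nat_lit 304) (nat_lit 6849491730679) (nat_lit 380) (nat_lit 4645598868661)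 (nat_lit 21) (nat_lit 5) (nat_lit 25) (nat_lit 5) (nat_lit 26) (nat_lit 5) (nat_lit 279) (nat_lit 277) (nat_lit 104)) (XT.lf (nat_lit 0) (nat_lit 2840969165025) (nat_lit 304) (nat_lit 475632748529) (nat_lit 380) (nat_lit 11329789473065) (nat_lit 21) (nat_lit 5) (nat_lit 25) (nat_lit 5) (nat_lit 26) (nat_lit 5) (nat_lit 280) (nat_lit 277) (nat_lit 103)))) (XT.nd (nat_lit 156) (nat_lit 456) (nat_lit 0) (XT.nd (nat_lit 78) (nat_lit 0) (nat_lit 0) (XT.lf (nat_lit 0) (nat_lit 4173054769009) (nat_lit 304) (nat_lit 8452907513235) (nat_lit 76) (nat_lit 3184633381659) (nat_lit 22) (nat_lit 5) (nat_lit 26) (nat_lit 5) (nat_lit 23) (nat_lit 5) (nat_lit 281) (nat_lit 277) (nat_lit 102)) (XT.lf (nat_lit 0) (nat_lit 5888933193271) (nat_lit 304) (nat_lit 885356728696) (nat_lit 76) (nat_lit 10347543663861) (nat_lit 22) (nat_lit 5) (nat_lit 26) (nat_lit 5) (nat_lit 23) (nat_lit 5) (nat_lit 282) (nat_lit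 277) (nat_lit 101))) (XT.nd (nat_lit 78) (nat_lit 152) (nat_lit 0) (XT.lf (nat_lit 0) (nat_lit 8232589197560) (nat_lit 380) (nat_lit 10010227337982) (nat_lit 76) (nat_lit 331381288041) (nat_lit 18) (nat_lit 5) (nat_lit 23) (nat_lit 5) (nat_lit 19) (nat_lit 5) (nat_lit 283) (nat_lit 277) (nat_lit 100)) (XT.nd (nat_lit 78) (nat_lit 152) (nat_lit 0) (XT.lf (nat_lit 0) (nat_lit 11298862657688) (nat_lit 380) (nat_lit 1032064934544) (nat_lit 76) (nat_lit 7857828746491) (nat_lit 18) (nat_lit 5) (nat_lit 23) (nat_lit 5) (nat_lit 19) (nat_lit 5) (nat_lit 284) (nat_lit 277) (nat_lit 99)) (XT.lf (nat_lit 0) (nat_lit 10200983962690) (nat_lit 152) (nat_lit 5046494166352) (nat_lit 228) (nat_lit 6734660353260) (nat_lit 16) (nat_lit 5) (nat_lit 18) (nat_lit 5) (nat_lit 19) (nat_lit 5) (nat_lit 285) (nat_lit 277) (nat_lit 98)))))) (XT.nd (nat_lit 312) (nat_lit 152) (nat_lit 0) (XT.nd (nat_lit 156) (nat_lit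 0) (nat_lit 76) (XT.nd (nat_lit 78) (nat_lit 0) (nat_lit 0) (XT.lf (nat_lit 0) (nat_lit 782218736307) (nat_lit 380) (nat_lit 2988200579196) (nat_lit 380) (nat_lit 2988200579195) (nat_lit 20) (nat_lit 3) (nat_lit 25) (nat_lit 3) (nat_lit 25) (nat_lit 5) (nat_lit 278) (nat_lit 278) (nat_lit 104)) (XT.lf (nat_lit 76) (nat_lit 217916062741) (nat_lit 0) (nat_lit 1472877660092) (nat_lit 380) (nat_lit 12838885534801) (nat_lit 21) (nat_lit 5) (nat_lit 20) (nat_lit 3) (nat_lit 25) (nat_lit 5) (nat_lit 279) (nat_lit 278) (nat_lit 103))) (XT.nd (nat_lit 78) (nat_lit 0) (nat_lit 0) (XT.lf (nat_lit 0) (nat_lit 2391344321022) (nat_lit 304) (nat_lit 7876915489780) (nat_lit 380) (nat_lit 5342438698739) (nat_lit 21) (nat_lit 5) (nat_lit 25) (nat_lit 5) (nat_lit 26) (nat_lit 5) (nat_lit 280) (nat_lit 278) (nat_lit 102)) (XT.lf (nat_lit 0) (nat_lit 3267114540322) (nat_lit 304) (nat_lit 546977660374) (nat_lit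 380) (nat_lit 13029257893833) (nat_lit 21) (nat_lit 5) (nat_lit 25) (nat_lit 5) (nat_lit 26) (nat_lit 5) (nat_lit 281) (nat_lit 278) (nat_lit 101)))) (XT.nd (nat_lit 156) (nat_lit 304) (nat_lit 0) (XT.nd (nat_lit 78) (nat_lit 0) (nat_lit 0) (XT.lf (nat_lit 0) (nat_lit 4799012984847) (nat_lit 304) (nat_lit 9720843639726) (nat_lit 76) (nat_lit 3662328388840) (nat_lit 22) (nat_lit 5) (nat_lit 26) (nat_lit 5) (nat_lit 23) (nat_lit 5) (nat_lit 282) (nat_lit 278) (nat_lit 100)) (XT.lf (nat_lit 0) (nat_lit 6772273172685) (nat_lit 304) (nat_lit 1018160237570) (nat_lit 76) (nat_lit 11899675213381) (nat_lit 22) (nat_lit 5) (nat_lit 26) (nat_lit 5) (nat_lit 23) (nat_lit 5) (nat_lit 283) (nat_lit 278) (nat_lit 99))) (XT.nd (nat_lit 78) (nat_lit 0) (nat_lit 0) (XT.lf (nat_lit 0) (nat_lit 9467477577580) (nat_lit 380) (nat_lit 11511761438210) (nat_lit 76) (nat_lit 381088481271) (nat_lit 18) (nat_lit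 5) (nat_lit 23) (nat_lit 5) (nat_lit 19) (nat_lit 5) (nat_lit 284) (nat_lit 278) (nat_lit 98)) (XT.nd (nat_lit 33930) (nat_lit 0) (nat_lit 152) (XT.lf (nat_lit 0) (nat_lit 12993692056676) (nat_lit 380) (nat_lit 1186874674318) (nat_lit 76) (nat_lit 9036503058485) (nat_lit 18) (nat_lit 5) (nat_lit 23) (nat_lit 5) (nat_lit 19) (nat_lit 5) (nat_lit 285) (nat_lit 278) (nat_lit 97)) (XT.lf (nat_lit 0) (nat_lit 899551547062) (nat_lit 380) (nat_lit 3436430665896) (nat_lit 380) (nat_lit 3436430665896) (nat_lit 20) (nat_lit 3) (nat_lit 25) (nat_lit 3) (nat_lit 25) (nat_lit 5) (nat_lit 279) (nat_lit 279) (nat_lit 102))))))) (XT.nd (nat_lit 34632) (nat_lit 0) (nat_lit 152) (XT.nd (nat_lit 312) (nat_lit 152) (nat_lit 0) (XT.nd (nat_lit 156) (nat_lit 0) (nat_lit 76) (XT.nd (nat_lit 78) (nat_lit 0) (nat_lit 76) (XT.lf (nat_lit 76) (nat_lit 250603472493) (nat_lit 0) (nat_lit 1693809309317) (nat_lit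 380) (nat_lit 14764718364384) (nat_lit 21) (nat_lit 5) (nat_lit 20) (nat_lit 3) (nat_lit 25) (nat_lit 5) (nat_lit 280) (nat_lit 279) (nat_lit 101)) (XT.lf (nat_lit 0) (nat_lit 2750045969648) (nat_lit 304) (nat_lit 9058452812869) (nat_lit 380) (nat_lit 6143804503383) (nat_lit 21) (nat_lit 5) (nat_lit 25) (nat_lit 5) (nat_lit 26) (nat_lit 5) (nat_lit 281) (nat_lit 279) (nat_lit 100))) (XT.nd (nat_lit 78) (nat_lit 0) (nat_lit 76) (XT.lf (nat_lit 0) (nat_lit 3757181721781) (nat_lit 304) (nat_lit 629024309100) (nat_lit 380) (nat_lit 14983646577762) (nat_lit 21) (nat_lit 5) (nat_lit 25) (nat_lit 5) (nat_lit 26) (nat_lit 5) (nat_lit 282) (nat_lit 279) (nat_lit 99)) (XT.lf (nat_lit 0) (nat_lit 5518864932942) (nat_lit 304) (nat_lit 11178970185311) (nat_lit 76) (nat_lit 4211677647115) (nat_lit 22) (nat_lit 5) (nat_lit 26) (nat_lit 5) (nat_lit 23) (nat_lit 5) (nat_lit 283) (nat_lit 279) (nat_lit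 98)))) (XT.nd (nat_lit 34086) (nat_lit 0) (nat_lit 152) (XT.nd (nat_lit 78) (nat_lit 304) (nat_lit 0) (XT.lf (nat_lit 0) (nat_lit 7788114148908) (nat_lit 304) (nat_lit 1170884272881) (nat_lit 76) (nat_lit 13684626495344) (nat_lit 22) (nat_lit 5) (nat_lit 26) (nat_lit 5) (nat_lit 23) (nat_lit 5) (nat_lit 284) (nat_lit 279) (nat_lit 97)) (XT.lf (nat_lit 0) (nat_lit 10887599214509) (nat_lit 380) (nat_lit 13238525653587) (nat_lit 76) (nat_lit 438251753479) (nat_lit 18) (nat_lit 5) (nat_lit 23) (nat_lit 5) (nat_lit 19) (nat_lit 5) (nat_lit 285) (nat_lit 279) (nat_lit 96))) (XT.nd (nat_lit 78) (nat_lit 0) (nat_lit 0) (XT.lf (nat_lit 0) (nat_lit 1034484279355) (nat_lit 380) (nat_lit 3951895265646) (nat_lit 380) (nat_lit 3951895265646) (nat_lit 20) (nat_lit 3) (nat_lit 25) (nat_lit 3) (nat_lit 25) (nat_lit 5) (nat_lit 280) (nat_lit 280) (nat_lit 100)) (XT.nd (nat_lit 78) (nat_lit 0) (nat_lit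 76) (XT.lf (nat_lit 76) (nat_lit 288193993626) (nat_lit 0) (nat_lit 1947880705874) (nat_lit 380) (nat_lit 16979426118559) (nat_lit 21) (nat_lit 5) (nat_lit 20) (nat_lit 3) (nat_lit 25) (nat_lit 5) (nat_lit 281) (nat_lit 280) (nat_lit 99)) (XT.lf (nat_lit 0) (nat_lit 3162552865453) (nat_lit 304) (nat_lit 10417220734513) (nat_lit 380) (nat_lit 7065375178764) (nat_lit 21) (nat_lit 5) (nat_lit 25) (nat_lit 5) (nat_lit 26) (nat_lit 5) (nat_lit 282) (nat_lit 280) (nat_lit 98)))))) (XT.nd (nat_lit 34320) (nat_lit 0) (nat_lit 0) (XT.nd (nat_lit 156) (nat_lit 76) (nat_lit 0) (XT.nd (nat_lit 78) (nat_lit 0) (nat_lit 76) (XT.lf (nat_lit 0) (nat_lit 4320758980359) (nat_lit 304) (nat_lit 723377955217) (nat_lit 380) (nat_lit 17231193564317) (nat_lit 21) (nat_lit 5) (nat_lit 25) (nat_lit 5) (nat_lit 26) (nat_lit 5) (nat_lit 283) (nat_lit 280) (nat_lit 97)) (XT.lf (nat_lit 0) (nat_lit 6346694673162)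 (nat_lit 304) (nat_lit 12855815712825) (nat_lit 76) (nat_lit 4843429294144) (nat_lit 22) (nat_lit 5) (nat_lit 26) (nat_lit 5) (nat_lit 23) (nat_lit 5) (nat_lit 284) (nat_lit 280) (nat_lit 96))) (XT.nd (nat_lit 34086) (nat_lit 152) (nat_lit 0) (XT.lf (nat_lit 0) (nat_lit 8956331271486) (nat_lit 304) (nat_lit 1346516913567) (nat_lit 76) (nat_lit 15737320469612) (nat_lit 22) (nat_lit 5) (nat_lit 26) (nat_lit 5) (nat_lit 23) (nat_lit 5) (nat_lit 285) (nat_lit 280) (nat_lit 95)) (XT.lf (nat_lit 0) (nat_lit 1189656921435) (nat_lit 380) (nat_lit 4544679555390) (nat_lit 380) (nat_lit 4544679555390) (nat_lit 20) (nat_lit 3) (nat_lit 25) (nat_lit 3) (nat_lit 25) (nat_lit 5) (nat_lit 281) (nat_lit 281) (nat_lit 98)))) (XT.nd (nat_lit 156) (nat_lit 0) (nat_lit 0) (XT.nd (nat_lit 78) (nat_lit 0) (nat_lit 76) (XT.lf (nat_lit 76) (nat_lit 331423092864) (nat_lit 0) (nat_lit 2240062811875) (nat_lit 380)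 (nat_lit 19526340035978) (nat_lit 21) (nat_lit 5) (nat_lit 20) (nat_lit 3) (nat_lit 25) (nat_lit 5) (nat_lit 282) (nat_lit 281) (nat_lit 97)) (XT.lf (nat_lit 0) (nat_lit 3636935795541) (nat_lit 304) (nat_lit 11979803844473) (nat_lit 380) (nat_lit 8125181455483) (nat_lit 21) (nat_lit 5) (nat_lit 25) (nat_lit 5) (nat_lit 26) (nat_lit 5) (nat_lit 283) (nat_lit 281) (nat_lit 96))) (XT.nd (nat_lit 34242) (nat_lit 76) (nat_lit 0) (XT.lf (nat_lit 0) (nat_lit 4968872827648) (nat_lit 304) (nat_lit 831884648311) (nat_lit 380) (nat_lit 19815872598881) (nat_lit 21) (nat_lit 5) (nat_lit 25) (nat_lit 5) (nat_lit 26) (nat_lit 5) (nat_lit 284) (nat_lit 281) (nat_lit 95)) (XT.nd (nat_lit 78) (nat_lit 0) (nat_lit 0) (XT.lf (nat_lit 0) (nat_lit 1368105459785) (nat_lit 380) (nat_lit 5226381488622) (nat_lit 380) (nat_lit 5226381488622) (nat_lit 20) (nat_lit 3) (nat_lit 25) (nat_lit 3) (nat_lit 25) (nat_lit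 5) (nat_lit 282) (nat_lit 282) (nat_lit 96)) (XT.lf (nat_lit 76) (nat_lit 381136556941) (nat_lit 0) (nat_lit 2576072233748) (nat_lit 380) (nat_lit 22455291041099) (nat_lit 21) (nat_lit 5) (nat_lit 20) (nat_lit 3) (nat_lit 25) (nat_lit 5) (nat_lit 283) (nat_lit 282) (nat_lit 95))))))))

set_option maxRecDepth 10000000 in
noncomputable def Tp : PT := (PT.nd (nat_lit 3860688) (PT.nd (nat_lit 3689244) pc0 pc1) (PT.nd (nat_lit 69498) pc2 pc3))

set_option maxRecDepth 10000000 in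
noncomputable def Tx : XT := (XT.nd (nat_lit 5975346) (nat_lit 0) (nat_lit 76) XT.nil (XT.nd (nat_lit 3747042) (nat_lit 0) (nat_lit 0) (XT.nd (nat_lit 1821768) (nat_lit 0) (nat_lit 0) (XT.nd (nat_lit 1336062) (nat_lit 0) (nat_lit 0) (XT.nd (nat_lit 961350) (nat_lit 0) (nat_lit 0) (XT.nd (nat_lit 720876) (nat_lit 0) (nat_lit 0) (XT.nd (nat_lit 549588) (nat_lit 0) (nat_lit 0) (XT.nd (nat_lit 445926) (nat_lit 0) (nat_lit 0) (XT.nd (nat_lit 342654) (nat_lit 0) (nat_lit 0) xc0 xc1) (XT.nd (nat_lit 68406) (nat_lit 0) (nat_lit 0) xc2 xc3)) (XT.nd (nat_lit 101868) (nat_lit 0) (nat_lit 0) (XT.nd (nat_lit 67080) (nat_lit 0) (nat_lit 0) xc4 xc5) (XT.nd (nat_lit 34710) (nat_lit 0) (nat_lit 0) xc6 xc7))) (XT.nd (nat_lit 136812) (nat_lit 0) (nat_lit 0) (XT.nd (nat_lit 68952) (nat_lit 0) (nat_lit 0) (XT.nd (nat_lit 34632) (nat_lit 0) (nat_lit 0) xc8 xc9) (XT.nd (nat_lit 34008) (nat_lit 0) (nat_lit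 0) xc10 xc11)) (XT.nd (nat_lit 67314) (nat_lit 0) (nat_lit 0) (XT.nd (nat_lit 33696) (nat_lit 0) (nat_lit 0) xc12 xc13) (XT.nd (nat_lit 3276) (nat_lit 0) (nat_lit 0) xc14 xc15)))) (XT.nd (nat_lit 205218) (nat_lit 0) (nat_lit 0) (XT.nd (nat_lit 103428) (nat_lit 0) (nat_lit 0) (XT.nd (nat_lit 67236) (nat_lit 0) (nat_lit 0) (XT.nd (nat_lit 33696) (nat_lit 0) (nat_lit 0) xc16 xc17) (XT.nd (nat_lit 33384) (nat_lit 0) (nat_lit 0) xc18 xc19)) (XT.nd (nat_lit 66066) (nat_lit 0) (nat_lit 0) (XT.nd (nat_lit 33150) (nat_lit 0) (nat_lit 0) xc20 xc21) (XT.nd (nat_lit 2808) (nat_lit 0) (nat_lit 0) xc22 xc23))) (XT.nd (nat_lit 71214) (nat_lit 0) (nat_lit 0) (XT.nd (nat_lit 35646) (nat_lit 0) (nat_lit 0) (XT.nd (nat_lit 32838) (nat_lit 0) (nat_lit 0) xc24 xc25) (XT.nd (nat_lit 32526) (nat_lit 0) (nat_lit 0) xc26 xc27)) (XT.nd (nat_lit 63804) (nat_lit 0) (nat_lit 0) (XT.nd (nat_lit 31902) (nat_lit 0)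 (nat_lit 0) xc28 xc29) (XT.nd (nat_lit 2808) (nat_lit 0) (nat_lit 0) xc30 xc31))))) (XT.nd (nat_lit 243672) (nat_lit 0) (nat_lit 0) (XT.nd (nat_lit 136422) (nat_lit 0) (nat_lit 0) (XT.nd (nat_lit 68328) (nat_lit 0) (nat_lit 0) (XT.nd (nat_lit 34164) (nat_lit 0) (nat_lit 0) (XT.nd (nat_lit 2730) (nat_lit 0) (nat_lit 0) xc32 xc33) (XT.nd (nat_lit 2808) (nat_lit 0) (nat_lit 0) xc34 xc35)) (XT.nd (nat_lit 34086) (nat_lit 0) (nat_lit 0) (XT.nd (nat_lit 2808) (nat_lit 0) (nat_lit 0) xc36 xc37) (XT.nd (nat_lit 2808) (nat_lit 0) (nat_lit 0) xc38 xc39))) (XT.nd (nat_lit 39624) (nat_lit 0) (nat_lit 0) (XT.nd (nat_lit 5616) (nat_lit 0) (nat_lit 0) (XT.nd (nat_lit 2808) (nat_lit 76) (nat_lit 0) xc40 xc41) (XT.nd (nat_lit 31200) (nat_lit 0) (nat_lit 0) xc42 xc43)) (XT.nd (nat_lit 33930) (nat_lit 0) (nat_lit 0) (XT.nd (nat_lit 31122) (nat_lit 0) (nat_lit 0) xc44 xc45) (XT.nd (nat_lit 30888) (nat_lit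 0) (nat_lit 0) xc46 xc47)))) (XT.nd (nat_lit 134316) (nat_lit 0) (nat_lit 0) (XT.nd (nat_lit 66924) (nat_lit 0) (nat_lit 0) (XT.nd (nat_lit 33462) (nat_lit 0) (nat_lit 0) (XT.nd (nat_lit 30654) (nat_lit 0) (nat_lit 76) xc48 xc49) (XT.nd (nat_lit 30654) (nat_lit 0) (nat_lit 76) xc50 xc51)) (XT.nd (nat_lit 33618) (nat_lit 0) (nat_lit 0) (XT.nd (nat_lit 2808) (nat_lit 0) (nat_lit 0) xc52 xc53) (XT.nd (nat_lit 2808) (nat_lit 0) (nat_lit 0) xc54 xc55))) (XT.nd (nat_lit 67938) (nat_lit 0) (nat_lit 0) (XT.nd (nat_lit 33852) (nat_lit 0) (nat_lit 0) (XT.nd (nat_lit 2808) (nat_lit 76) (nat_lit 0) xc56 xc57) (XT.nd (nat_lit 2808) (nat_lit 76) (nat_lit 0) xc58 xc59)) (XT.nd (nat_lit 5616) (nat_lit 0) (nat_lit 0) (XT.nd (nat_lit 2808) (nat_lit 76) (nat_lit 0) xc60 xc61) (XT.nd (nat_lit 31356) (nat_lit 0) (nat_lit 0) xc62 xc63)))))) (XT.nd (nat_lit 616902) (nat_lit 0) (nat_lit 0) (XT.nd (nat_lit 305058)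 (nat_lit 0) (nat_lit 0) (XT.nd (nat_lit 137670) (nat_lit 0) (nat_lit 0) (XT.nd (nat_lit 68562) (nat_lit 0) (nat_lit 0) (XT.nd (nat_lit 34164) (nat_lit 0) (nat_lit 0) (XT.nd (nat_lit 31356) (nat_lit 0) (nat_lit 0) xc64 xc65) (XT.nd (nat_lit 31590) (nat_lit 0) (nat_lit 0) xc66 xc67)) (XT.nd (nat_lit 34476) (nat_lit 0) (nat_lit 0) (XT.nd (nat_lit 31668) (nat_lit 0) (nat_lit 0) xc68 xc69) (XT.nd (nat_lit 31824) (nat_lit 0) (nat_lit 0) xc70 xc71))) (XT.nd (nat_lit 98280) (nat_lit 0) (nat_lit 0) (XT.nd (nat_lit 63726) (nat_lit 0) (nat_lit 0) (XT.nd (nat_lit 31902) (nat_lit 0) (nat_lit 0) xc72 xc73) (XT.nd (nat_lit 2808) (nat_lit 76) (nat_lit 0) xc74 xc75)) (XT.nd (nat_lit 34554) (nat_lit 0) (nat_lit 0) (XT.nd (nat_lit 2808) (nat_lit 76) (nat_lit 0) xc76 xc77) (XT.nd (nat_lit 2808) (nat_lit 76) (nat_lit 0) xc78 xc79)))) (XT.nd (nat_lit 139308) (nat_lit 0) (nat_lit 0) (XT.nd (nat_lit 69420)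 (nat_lit 0) (nat_lit 0) (XT.nd (nat_lit 34632) (nat_lit 0) (nat_lit 0) (XT.nd (nat_lit 2808) (nat_lit 76) (nat_lit 0) xc80 xc81) (XT.nd (nat_lit 2808) (nat_lit 76) (nat_lit 0) xc82 xc83)) (XT.nd (nat_lit 34866) (nat_lit 0) (nat_lit 0) (XT.nd (nat_lit 2808) (nat_lit 76) (nat_lit 0) xc84 xc85) (XT.nd (nat_lit 2808) (nat_lit 76) (nat_lit 0) xc86 xc87))) (XT.nd (nat_lit 71292) (nat_lit 0) (nat_lit 0) (XT.nd (nat_lit 35568) (nat_lit 0) (nat_lit 0) (XT.nd (nat_lit 32760) (nat_lit 0) (nat_lit 76) xc88 xc89) (XT.nd (nat_lit 32916) (nat_lit 0) (nat_lit 76) xc90 xc91)) (XT.nd (nat_lit 65598) (nat_lit 0) (nat_lit 0) (XT.nd (nat_lit 32760) (nat_lit 0) (nat_lit 0) xc92 xc93) (XT.nd (nat_lit 2808) (nat_lit 76) (nat_lit 0) xc94 xc95))))) (XT.nd (nat_lit 412542) (nat_lit 0) (nat_lit 76) (XT.nd (nat_lit 173940) (nat_lit 0) (nat_lit 0) (XT.nd (nat_lit 102024) (nat_lit 0) (nat_lit 0) (XT.nd (nat_lit 35724)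 (nat_lit 0) (nat_lit 0) (XT.nd (nat_lit 32916) (nat_lit 0) (nat_lit 76) xc96 xc97) (XT.nd (nat_lit 33150) (nat_lit 0) (nat_lit 0) xc98 xc99)) (XT.nd (nat_lit 35958) (nat_lit 0) (nat_lit 0) (XT.nd (nat_lit 2808) (nat_lit 76) (nat_lit 0) xc100 xc101) (XT.nd (nat_lit 33150) (nat_lit 0) (nat_lit 76) xc102 xc103))) (XT.nd (nat_lit 103038) (nat_lit 76) (nat_lit 0) (XT.nd (nat_lit 66690) (nat_lit 0) (nat_lit 0) (XT.nd (nat_lit 33306) (nat_lit 0) (nat_lit 0) xc104 xc105) (XT.nd (nat_lit 33540) (nat_lit 0) (nat_lit 0) xc106 xc107)) (XT.nd (nat_lit 67548) (nat_lit 76) (nat_lit 0) (XT.nd (nat_lit 33696) (nat_lit 0) (nat_lit 0) xc108 xc109) (XT.nd (nat_lit 34008) (nat_lit 0) (nat_lit 76) xc110 xc111)))) (XT.nd (nat_lit 275730) (nat_lit 0) (nat_lit 152) (XT.nd (nat_lit 105924) (nat_lit 0) (nat_lit 0) (XT.nd (nat_lit 68250) (nat_lit 0) (nat_lit 0) (XT.nd (nat_lit 34086) (nat_lit 0) (nat_lit 0) xc112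 xc113) (XT.nd (nat_lit 3510) (nat_lit 0) (nat_lit 0) xc114 xc115)) (XT.nd (nat_lit 68094) (nat_lit 0) (nat_lit 0) (XT.nd (nat_lit 33774) (nat_lit 0) (nat_lit 0) xc116 xc117) (XT.nd (nat_lit 66768) (nat_lit 0) (nat_lit 152) xc118 xc119))) (XT.nd (nat_lit 173394) (nat_lit 0) (nat_lit 152) (XT.nd (nat_lit 70200) (nat_lit 0) (nat_lit 76) (XT.nd (nat_lit 35022) (nat_lit 0) (nat_lit 76) xc120 xc121) (XT.nd (nat_lit 67782) (nat_lit 0) (nat_lit 0) xc122 xc123)) (XT.nd (nat_lit 137202) (nat_lit 0) (nat_lit 380) (XT.nd (nat_lit 68328) (nat_lit 0) (nat_lit 152) xc124 xc125) (XT.nd (nat_lit 136968) (nat_lit 0) (nat_lit 380) xc126 xc127))))))) XT.nil))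

set_option maxRecDepth 10000000 in
noncomputable def Te : XT := XT.nil

set_option maxRecDepth 10000000 in
noncomputable def Tz : ZL := (ZL.cons (nat_lit 76) (nat_lit 3) (nat_lit 114829330779728197479) (ZL.cons (nat_lit 152) (nat_lit 6) (nat_lit 215529441887048215310) (ZL.cons (nat_lit 228) (nat_lit 6) (nat_lit 203409010830917238504) (ZL.cons (nat_lit 304) (nat_lit 3) (nat_lit 100744465516124100696) (ZL.cons (nat_lit 380) (nat_lit 6) (nat_lit 189470515116366615174) (ZL.cons (nat_lit 456) (nat_lit 6) (nat_lit 179239051219310121276) (ZL.cons (nat_lit 532) (nat_lit 3) (nat_lit 88784708305885914068) (ZL.cons (nat_lit 608) (nat_lit 6) (nat_lit 167472867737695153290) (ZL.cons (nat_lit 684) (nat_lit 6) (nat_lit 158983327320513351348) (ZL.cons (nat_lit 760) (nat_lit 3) (nat_lit 78765735570022635179) (ZL.cons (nat_lit 836) (nat_lit 6) (nat_lit 149220355840754279116) (ZL.cons (nat_lit 912) (nat_lit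 6) (nat_lit 142376913062227355818) (ZL.cons (nat_lit 988) (nat_lit 3) (nat_lit 70557214713518860088) (ZL.cons (nat_lit 1064) (nat_lit 6) (nat_lit 136867249358797669366) (ZL.cons (nat_lit 1140) (nat_lit 6) (nat_lit 134506953866921394030) (ZL.cons (nat_lit 1216) (nat_lit 6) (nat_lit 129268652464663894298) (ZL.cons (nat_lit 1292) (nat_lit 3) (nat_lit 64085420303988627302) (ZL.cons (nat_lit 1368) (nat_lit 6) (nat_lit 125297036714568878594) (ZL.cons (nat_lit 1444) (nat_lit 6) (nat_lit 123244605852067769606) (ZL.cons (nat_lit 1520) (nat_lit 3) (nat_lit 60160248104228468906) (ZL.cons (nat_lit 1596) (nat_lit 6) (nat_lit 120866302723336155254) (ZL.cons (nat_lit 1672) (nat_lit 6) (nat_lit 122514401091091009652) (ZL.cons (nat_lit 1748) (nat_lit 6) (nat_lit 119631866745272970840) (ZL.cons (nat_lit 1824) (nat_lit 3) (nat_lit 59338623869729250773) (ZL.cons (nat_lit 1900) (nat_lit 6) (nat_lit 116088455254600033884)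 (ZL.cons (nat_lit 1976) (nat_lit 6) (nat_lit 117261939261590351380) (ZL.cons (nat_lit 2052) (nat_lit 6) (nat_lit 115477216772458952262) (ZL.cons (nat_lit 2128) (nat_lit 3) (nat_lit 56477113078714884825) (ZL.cons (nat_lit 2204) (nat_lit 6) (nat_lit 113581903649540869704) (ZL.cons (nat_lit 2280) (nat_lit 3) (nat_lit 56375900083111969940) (ZL.cons (nat_lit 2356) (nat_lit 6) (nat_lit 111402293558185074764) (ZL.cons (nat_lit 2432) (nat_lit 1) (nat_lit 18446744073709551617) ZL.nil))))))))))))))))))))))))))))))))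

noncomputable def vl : XL := ⟨(nat_lit 0), (nat_lit 76), (nat_lit 49473716), (nat_lit 152), (nat_lit 249339893), (nat_lit 152), (nat_lit 249339893), (nat_lit 1), (nat_lit 4), (nat_lit 2), (nat_lit 5), (nat_lit 2), (nat_lit 4), (nat_lit 0), (nat_lit 0), (nat_lit 0)⟩

noncomputable def cp0 : Nat := (nat_lit 782565937525714647639988029705446297862280203270405827407021867008)

noncomputable def cp1 : Nat := (nat_lit 4663898812131136850185781837959580874368497707436687847409428795390556782202443048729083441375017656200847086234137917373669462425983593695739532111228781415222495017685870351321174696637988317734820941581595036563574905035603637097628412456452008430356444618479074371765094943998207392120066341067199117377284613681337085213172982960885658645229868128889984064690640626824185277209204108585556764826853844870433349812575361720490779789835822132557114444257557943375024209695021293273636751348558538721706465371724618095767649059426602012868869417859603757721294533496810720079104125373388645647543871773661097963798122408180851648016101989053548013517087228555178711303989673693430436972279976274938809149158987572331180107558514925123264351429459968)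

noncomputable def rc0 : Nat := (nat_lit 4663898812131136850185781837959580874368497707436687847409428795390556782202443048729083441375017656200847086234137917373669462425983593695739532111228781415222495017685870351321174696637988317734820941581595036563574905035603637097628412456452008430356444618479074371765094943998207392120066341067199117377284613681337085213172982960885658645229868128889984064690640626824185277209204108585556764826853844870433349812575361720490779789835822132557114444257557943375024209695021293273636751348558538721706465371724618095767649059426602012868869417859603757721294533496810720079104125373388645647543871773661097963798122408180851648016101989053548013517087228555178711303989673693430436972279976274938809149158987572331180107558514925123264351429459968)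

end Vale.Agent.Lib.P154.PChain.BM.S0
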