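import Vale.Agent.Lib.P154.PChain.BM.R0_0

set_option linter.all false

namespace Vale.Agent.Lib.P154.PChain.BM.S1

open Vale.Agent.Lib.P154.Chain

noncomputable def pc0 : PT := (PT.nd (nat_lit 3517488) (PT.nd (nat_lit 3380052) (PT.nd (nat_lit 3311334) (PT.nd (nat_lit 3277014) (PT.nd (nat_lit 3276936) (PT.nd (nat_lit 3242616) PT.nil (PT.lf (nat_lit 76) (nat_lit 3) (nat_lit 1) (nat_lit 1) (nat_lit 118) (nat_lit 94) (nat_lit 118))) (PT.lf (nat_lit 152) (nat_lit 6) (nat_lit 2) (nat_lit 3) (nat_lit 117) (nat_lit 95) (nat_lit 118))) (PT.nd (nat_lit 34242) (PT.lf (nat_lit 152) (nat_lit 6) (nat_lit 2) (nat_lit 1) (nat_lit 118) (nat_lit 95) (nat_lit 117)) (PT.lf (nat_lit 228) (nat_lit 6) (nat_lit 3) (nat_lit 3) (nat_lit 116) (nat_lit 96) (nat_lit 118)))) (PT.nd (nat_lit 34320) (PT.nd (nat_lit 78) (PT.lf (nat_lit 304) (nat_lit 3) (nat_lit 4) (nat_lit 1) (nat_lit 117) (nat_lit 96) (nat_lit 117))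 (PT.lf (nat_lit 228) (nat_lit 6) (nat_lit 3) (nat_lit 1) (nat_lit 118) (nat_lit 96) (nat_lit 116))) (PT.nd (nat_lit 78) (PT.lf (nat_lit 380) (nat_lit 6) (nat_lit 5) (nat_lit 3) (nat_lit 116) (nat_lit 97) (nat_lit 117)) (PT.nd (nat_lit 34242) (PT.lf (nat_lit 380) (nat_lit 6) (nat_lit 5) (nat_lit 1) (nat_lit 117) (nat_lit 97) (nat_lit 116)) (PT.lf (nat_lit 456) (nat_lit 6) (nat_lit 6) (nat_lit 3) (nat_lit 115) (nat_lit 98) (nat_lit 117)))))) (PT.nd (nat_lit 68718) (PT.nd (nat_lit 34320) (PT.nd (nat_lit 78) (PT.lf (nat_lit 532) (nat_lit 3) (nat_lit 7) (nat_lit 1) (nat_lit 116) (nat_lit 98) (nat_lit 116)) (PT.lf (nat_lit 456) (nat_lit 6) (nat_lit 6) (nat_lit 1) (nat_lit 117) (nat_lit 98) (nat_lit 115))) (PT.nd (nat_lit 78) (PT.lf (nat_lit 608) (nat_lit 6) (nat_lit 8) (nat_lit 3) (nat_lit 115) (nat_lit 99) (nat_lit 116)) (PT.nd (nat_lit 34242) (PT.lf (nat_lit 608) (nat_lit 6) (nat_lit 8) (nat_lit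 1) (nat_lit 116) (nat_lit 99) (nat_lit 115)) (PT.lf (nat_lit 684) (nat_lit 6) (nat_lit 9) (nat_lit 3) (nat_lit 114) (nat_lit 100) (nat_lit 116))))) (PT.nd (nat_lit 34320) (PT.nd (nat_lit 78) (PT.lf (nat_lit 760) (nat_lit 3) (nat_lit 10) (nat_lit 1) (nat_lit 115) (nat_lit 100) (nat_lit 115)) (PT.lf (nat_lit 684) (nat_lit 6) (nat_lit 9) (nat_lit 1) (nat_lit 116) (nat_lit 100) (nat_lit 114))) (PT.nd (nat_lit 78) (PT.lf (nat_lit 836) (nat_lit 6) (nat_lit 11) (nat_lit 3) (nat_lit 114) (nat_lit 101) (nat_lit 115)) (PT.nd (nat_lit 34242) (PT.lf (nat_lit 836) (nat_lit 6) (nat_lit 11) (nat_lit 1) (nat_lit 115) (nat_lit 101) (nat_lit 114)) (PT.lf (nat_lit 912) (nat_lit 6) (nat_lit 12) (nat_lit 3) (nat_lit 113) (nat_lit 102) (nat_lit 115))))))) (PT.nd (nat_lit 103038) (PT.nd (nat_lit 34476) (PT.nd (nat_lit 34242) (PT.nd (nat_lit 78) (PT.lf (nat_lit 988) (nat_lit 3) (nat_lit 13) (nat_lit 1) (nat_lit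 114) (nat_lit 102) (nat_lit 114)) (PT.lf (nat_lit 912) (nat_lit 6) (nat_lit 12) (nat_lit 1) (nat_lit 115) (nat_lit 102) (nat_lit 113))) (PT.nd (nat_lit 78) (PT.lf (nat_lit 1064) (nat_lit 6) (nat_lit 14) (nat_lit 3) (nat_lit 112) (nat_lit 103) (nat_lit 115)) (PT.nd (nat_lit 78) (PT.lf (nat_lit 1140) (nat_lit 6) (nat_lit 15) (nat_lit 3) (nat_lit 113) (nat_lit 103) (nat_lit 114)) (PT.lf (nat_lit 1140) (nat_lit 6) (nat_lit 15) (nat_lit 1) (nat_lit 114) (nat_lit 103) (nat_lit 113))))) (PT.nd (nat_lit 34242) (PT.nd (nat_lit 34164) (PT.lf (nat_lit 1064) (nat_lit 6) (nat_lit 14) (nat_lit 1) (nat_lit 115) (nat_lit 103) (nat_lit 112)) (PT.lf (nat_lit 1216) (nat_lit 6) (nat_lit 16) (nat_lit 3) (nat_lit 112) (nat_lit 104) (nat_lit 114))) (PT.nd (nat_lit 78) (PT.lf (nat_lit 1292) (nat_lit 3) (nat_lit 17) (nat_lit 1) (nat_lit 113) (nat_lit 104) (nat_lit 113)) (PT.nd (nat_lit 34164) (PT.lf (nat_lit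 1216) (nat_lit 6) (nat_lit 16) (nat_lit 1) (nat_lit 114) (nat_lit 104) (nat_lit 112)) (PT.lf (nat_lit 1368) (nat_lit 6) (nat_lit 18) (nat_lit 3) (nat_lit 111) (nat_lit 105) (nat_lit 114)))))) (PT.nd (nat_lit 34398) (PT.nd (nat_lit 156) (PT.nd (nat_lit 78) (PT.lf (nat_lit 1444) (nat_lit 6) (nat_lit 19) (nat_lit 3) (nat_lit 112) (nat_lit 105) (nat_lit 113)) (PT.lf (nat_lit 1444) (nat_lit 6) (nat_lit 19) (nat_lit 1) (nat_lit 113) (nat_lit 105) (nat_lit 112))) (PT.nd (nat_lit 34086) (PT.lf (nat_lit 1368) (nat_lit 6) (nat_lit 18) (nat_lit 1) (nat_lit 114) (nat_lit 105) (nat_lit 111)) (PT.nd (nat_lit 78) (PT.lf (nat_lit 1672) (nat_lit 6) (nat_lit 22) (nat_lit 3) (nat_lit 110) (nat_lit 106) (nat_lit 114)) (PT.lf (nat_lit 1748) (nat_lit 6) (nat_lit 23) (nat_lit 3) (nat_lit 111) (nat_lit 106) (nat_lit 113))))) (PT.nd (nat_lit 156) (PT.nd (nat_lit 78) (PT.lf (nat_lit 1824) (nat_lit 3) (nat_lit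 24) (nat_lit 1) (nat_lit 112) (nat_lit 106) (nat_lit 112)) (PT.lf (nat_lit 1748) (nat_lit 6) (nat_lit 23) (nat_lit 1) (nat_lit 113) (nat_lit 106) (nat_lit 111))) (PT.nd (nat_lit 34008) (PT.lf (nat_lit 1672) (nat_lit 6) (nat_lit 22) (nat_lit 1) (nat_lit 114) (nat_lit 106) (nat_lit 110)) (PT.nd (nat_lit 78) (PT.lf (nat_lit 1596) (nat_lit 6) (nat_lit 21) (nat_lit 3) (nat_lit 109) (nat_lit 107) (nat_lit 114)) (PT.lf (nat_lit 1976) (nat_lit 6) (nat_lit 26) (nat_lit 3) (nat_lit 110) (nat_lit 107) (nat_lit 113))))))))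
noncomputable def pc1 : PT := (PT.nd (nat_lit 102804) (PT.nd (nat_lit 34554) (PT.nd (nat_lit 34164) (PT.nd (nat_lit 156) (PT.nd (nat_lit 78) (PT.lf (nat_lit 2052) (nat_lit 6) (nat_lit 27) (nat_lit 3) (nat_lit 111) (nat_lit 107) (nat_lit 112)) (PT.lf (nat_lit 2052) (nat_lit 6) (nat_lit 27) (nat_lit 1) (nat_lit 112) (nat_lit 107) (nat_lit 111))) (PT.nd (nat_lit 78) (PT.lf (nat_lit 1976) (nat_lit 6) (nat_lit 26) (nat_lit 1) (nat_lit 113) (nat_lit 107) (nat_lit 110)) (PT.lf (nat_lit 1596) (nat_lit 6) (nat_lit 21) (nat_lit 1) (nat_lit 114) (nat_lit 107) (nat_lit 109)))) (PT.nd (nat_lit 156) (PT.nd (nat_lit 78) (PT.lf (nat_lit 1520) (nat_lit 3) (nat_lit 20) (nat_lit 3) (nat_lit 108) (nat_lit 108) (nat_lit 114)) (PT.lf (nat_lit 1900) (nat_lit 6) (nat_lit 25) (nat_lit 3) (nat_lit 109) (nat_lit 108) (nat_lit 113))) (PT.nd (nat_lit 78) (PT.lf (nat_lit 2204) (nat_lit 6) (nat_lit 29) (nat_lit 3)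 (nat_lit 110) (nat_lit 108) (nat_lit 112)) (PT.nd (nat_lit 78) (PT.lf (nat_lit 2280) (nat_lit 3) (nat_lit 30) (nat_lit 1) (nat_lit 111) (nat_lit 108) (nat_lit 111)) (PT.lf (nat_lit 2204) (nat_lit 6) (nat_lit 29) (nat_lit 1) (nat_lit 112) (nat_lit 108) (nat_lit 110)))))) (PT.nd (nat_lit 34164) (PT.nd (nat_lit 33930) (PT.nd (nat_lit 78) (PT.lf (nat_lit 1900) (nat_lit 6) (nat_lit 25) (nat_lit 1) (nat_lit 113) (nat_lit 108) (nat_lit 109)) (PT.lf (nat_lit 1520) (nat_lit 3) (nat_lit 20) (nat_lit 0) (nat_lit 114) (nat_lit 108) (nat_lit 108))) (PT.nd (nat_lit 78) (PT.lf (nat_lit 1596) (nat_lit 6) (nat_lit 21) (nat_lit 5) (nat_lit 107) (nat_lit 109) (nat_lit 114)) (PT.nd (nat_lit 78) (PT.lf (nat_lit 1900) (nat_lit 6) (nat_lit 25) (nat_lit 5) (nat_lit 108) (nat_lit 109) (nat_lit 113)) (PT.lf (nat_lit 2128) (nat_lit 3) (nat_lit 28) (nat_lit 3) (nat_lit 109) (nat_lit 109) (nat_lit 112))))) (PT.nd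 (nat_lit 156) (PT.nd (nat_lit 78) (PT.lf (nat_lit 2356) (nat_lit 6) (nat_lit 31) (nat_lit 3) (nat_lit 110) (nat_lit 109) (nat_lit 111)) (PT.lf (nat_lit 2356) (nat_lit 6) (nat_lit 31) (nat_lit 1) (nat_lit 111) (nat_lit 109) (nat_lit 110))) (PT.nd (nat_lit 78) (PT.lf (nat_lit 2128) (nat_lit 3) (nat_lit 28) (nat_lit 0) (nat_lit 112) (nat_lit 109) (nat_lit 109)) (PT.nd (nat_lit 78) (PT.lf (nat_lit 1900) (nat_lit 6) (nat_lit 25) (nat_lit 0) (nat_lit 113) (nat_lit 109) (nat_lit 108)) (PT.lf (nat_lit 1596) (nat_lit 6) (nat_lit 21) (nat_lit 0) (nat_lit 114) (nat_lit 109) (nat_lit 107))))))) (PT.nd (nat_lit 34398) (PT.nd (nat_lit 390) (PT.nd (nat_lit 156) (PT.nd (nat_lit 78) (PT.lf (nat_lit 1672) (nat_lit 6) (nat_lit 22) (nat_lit 5) (nat_lit 106) (nat_lit 110) (nat_lit 114)) (PT.lf (nat_lit 1976) (nat_lit 6) (nat_lit 26) (nat_lit 5) (nat_lit 107) (nat_lit 110) (nat_lit 113))) (PT.nd (nat_lit 78)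 (PT.lf (nat_lit 2204) (nat_lit 6) (nat_lit 29) (nat_lit 5) (nat_lit 108) (nat_lit 110) (nat_lit 112)) (PT.nd (nat_lit 78) (PT.lf (nat_lit 2356) (nat_lit 6) (nat_lit 31) (nat_lit 5) (nat_lit 109) (nat_lit 110) (nat_lit 111)) (PT.lf (nat_lit 2432) (nat_lit 1) (nat_lit 32) (nat_lit 0) (nat_lit 110) (nat_lit 110) (nat_lit 110))))) (PT.nd (nat_lit 156) (PT.nd (nat_lit 78) (PT.lf (nat_lit 2356) (nat_lit 6) (nat_lit 31) (nat_lit 0) (nat_lit 111) (nat_lit 110) (nat_lit 109)) (PT.lf (nat_lit 2204) (nat_lit 6) (nat_lit 29) (nat_lit 0) (nat_lit 112) (nat_lit 110) (nat_lit 108))) (PT.nd (nat_lit 78) (PT.lf (nat_lit 1976) (nat_lit 6) (nat_lit 26) (nat_lit 0) (nat_lit 113) (nat_lit 110) (nat_lit 107)) (PT.nd (nat_lit 33696) (PT.lf (nat_lit 1672) (nat_lit 6) (nat_lit 22) (nat_lit 0) (nat_lit 114) (nat_lit 110) (nat_lit 106)) (PT.lf (nat_lit 1368) (nat_lit 6) (nat_lit 18) (nat_lit 5) (nat_lit 105) (nat_lit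 111) (nat_lit 114)))))) (PT.nd (nat_lit 390) (PT.nd (nat_lit 156) (PT.nd (nat_lit 78) (PT.lf (nat_lit 1748) (nat_lit 6) (nat_lit 23) (nat_lit 5) (nat_lit 106) (nat_lit 111) (nat_lit 113)) (PT.lf (nat_lit 2052) (nat_lit 6) (nat_lit 27) (nat_lit 5) (nat_lit 107) (nat_lit 111) (nat_lit 112))) (PT.nd (nat_lit 78) (PT.lf (nat_lit 2280) (nat_lit 3) (nat_lit 30) (nat_lit 4) (nat_lit 108) (nat_lit 111) (nat_lit 111)) (PT.nd (nat_lit 78) (PT.lf (nat_lit 2356) (nat_lit 6) (nat_lit 31) (nat_lit 4) (nat_lit 109) (nat_lit 111) (nat_lit 110)) (PT.lf (nat_lit 2356) (nat_lit 6) (nat_lit 31) (nat_lit 2) (nat_lit 110) (nat_lit 111) (nat_lit 109))))) (PT.nd (nat_lit 156) (PT.nd (nat_lit 78) (PT.lf (nat_lit 2280) (nat_lit 3) (nat_lit 30) (nat_lit 0) (nat_lit 111) (nat_lit 111) (nat_lit 108)) (PT.lf (nat_lit 2052) (nat_lit 6) (nat_lit 27) (nat_lit 0) (nat_lit 112) (nat_lit 111) (nat_lit 107))) (PT.nd (nat_lit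 78) (PT.lf (nat_lit 1748) (nat_lit 6) (nat_lit 23) (nat_lit 0) (nat_lit 113) (nat_lit 111) (nat_lit 106)) (PT.nd (nat_lit 33540) (PT.lf (nat_lit 1368) (nat_lit 6) (nat_lit 18) (nat_lit 0) (nat_lit 114) (nat_lit 111) (nat_lit 105)) (PT.lf (nat_lit 1064) (nat_lit 6) (nat_lit 14) (nat_lit 5) (nat_lit 103) (nat_lit 112) (nat_lit 115))))))))
noncomputable def pc2 : PT := (PT.nd (nat_lit 34788) (PT.nd (nat_lit 702) (PT.nd (nat_lit 312) (PT.nd (nat_lit 156) (PT.nd (nat_lit 78) (PT.lf (nat_lit 1216) (nat_lit 6) (nat_lit 16) (nat_lit 5) (nat_lit 104) (nat_lit 112) (nat_lit 114)) (PT.lf (nat_lit 1444) (nat_lit 6) (nat_lit 19) (nat_lit 5) (nat_lit 105) (nat_lit 112) (nat_lit 113))) (PT.nd (nat_lit 78) (PT.lf (nat_lit 1824) (nat_lit 3) (nat_lit 24) (nat_lit 4) (nat_lit 106) (nat_lit 112) (nat_lit 112)) (PT.lf (nat_lit 2052) (nat_lit 6) (nat_lit 27) (nat_lit 4) (nat_lit 107) (nat_lit 112) (nat_lit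 111)))) (PT.nd (nat_lit 156) (PT.nd (nat_lit 78) (PT.lf (nat_lit 2204) (nat_lit 6) (nat_lit 29) (nat_lit 4) (nat_lit 108) (nat_lit 112) (nat_lit 110)) (PT.lf (nat_lit 2128) (nat_lit 3) (nat_lit 28) (nat_lit 2) (nat_lit 109) (nat_lit 112) (nat_lit 109))) (PT.nd (nat_lit 78) (PT.lf (nat_lit 2204) (nat_lit 6) (nat_lit 29) (nat_lit 2) (nat_lit 110) (nat_lit 112) (nat_lit 108)) (PT.nd (nat_lit 78) (PT.lf (nat_lit 2052) (nat_lit 6) (nat_lit 27) (nat_lit 2) (nat_lit 111) (nat_lit 112) (nat_lit 107)) (PT.lf (nat_lit 1824) (nat_lit 3) (nat_lit 24) (nat_lit 0) (nat_lit 112) (nat_lit 112) (nat_lit 106)))))) (PT.nd (nat_lit 33696) (PT.nd (nat_lit 156) (PT.nd (nat_lit 78) (PT.lf (nat_lit 1444) (nat_lit 6) (nat_lit 19) (nat_lit 0) (nat_lit 113) (nat_lit 112) (nat_lit 105)) (PT.lf (nat_lit 1216) (nat_lit 6) (nat_lit 16) (nat_lit 0) (nat_lit 114) (nat_lit 112) (nat_lit 104))) (PT.nd (nat_lit 33384) (PT.lf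 (nat_lit 1064) (nat_lit 6) (nat_lit 14) (nat_lit 0) (nat_lit 115) (nat_lit 112) (nat_lit 103)) (PT.nd (nat_lit 78) (PT.lf (nat_lit 912) (nat_lit 6) (nat_lit 12) (nat_lit 5) (nat_lit 102) (nat_lit 113) (nat_lit 115)) (PT.lf (nat_lit 1140) (nat_lit 6) (nat_lit 15) (nat_lit 5) (nat_lit 103) (nat_lit 113) (nat_lit 114))))) (PT.nd (nat_lit 156) (PT.nd (nat_lit 78) (PT.lf (nat_lit 1292) (nat_lit 3) (nat_lit 17) (nat_lit 4) (nat_lit 104) (nat_lit 113) (nat_lit 113)) (PT.lf (nat_lit 1444) (nat_lit 6) (nat_lit 19) (nat_lit 4) (nat_lit 105) (nat_lit 113) (nat_lit 112))) (PT.nd (nat_lit 78) (PT.lf (nat_lit 1748) (nat_lit 6) (nat_lit 23) (nat_lit 4) (nat_lit 106) (nat_lit 113) (nat_lit 111)) (PT.nd (nat_lit 78) (PT.lf (nat_lit 1976) (nat_lit 6) (nat_lit 26) (nat_lit 4) (nat_lit 107) (nat_lit 113) (nat_lit 110)) (PT.lf (nat_lit 1900) (nat_lit 6) (nat_lit 25) (nat_lit 4) (nat_lit 108) (nat_lit 113)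 (nat_lit 109))))))) (PT.nd (nat_lit 33930) (PT.nd (nat_lit 390) (PT.nd (nat_lit 156) (PT.nd (nat_lit 78) (PT.lf (nat_lit 1900) (nat_lit 6) (nat_lit 25) (nat_lit 2) (nat_lit 109) (nat_lit 113) (nat_lit 108)) (PT.lf (nat_lit 1976) (nat_lit 6) (nat_lit 26) (nat_lit 2) (nat_lit 110) (nat_lit 113) (nat_lit 107))) (PT.nd (nat_lit 78) (PT.lf (nat_lit 1748) (nat_lit 6) (nat_lit 23) (nat_lit 2) (nat_lit 111) (nat_lit 113) (nat_lit 106)) (PT.nd (nat_lit 78) (PT.lf (nat_lit 1444) (nat_lit 6) (nat_lit 19) (nat_lit 2) (nat_lit 112) (nat_lit 113) (nat_lit 105)) (PT.lf (nat_lit 1292) (nat_lit 3) (nat_lit 17) (nat_lit 0) (nat_lit 113) (nat_lit 113) (nat_lit 104))))) (PT.nd (nat_lit 33306) (PT.nd (nat_lit 78) (PT.lf (nat_lit 1140) (nat_lit 6) (nat_lit 15) (nat_lit 0) (nat_lit 114) (nat_lit 113) (nat_lit 103)) (PT.lf (nat_lit 912) (nat_lit 6) (nat_lit 12) (nat_lit 0) (nat_lit 115) (nat_lit 113) (nat_lit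 102))) (PT.nd (nat_lit 78) (PT.lf (nat_lit 684) (nat_lit 6) (nat_lit 9) (nat_lit 5) (nat_lit 100) (nat_lit 114) (nat_lit 116)) (PT.nd (nat_lit 78) (PT.lf (nat_lit 836) (nat_lit 6) (nat_lit 11) (nat_lit 5) (nat_lit 101) (nat_lit 114) (nat_lit 115)) (PT.lf (nat_lit 988) (nat_lit 3) (nat_lit 13) (nat_lit 4) (nat_lit 102) (nat_lit 114) (nat_lit 114)))))) (PT.nd (nat_lit 390) (PT.nd (nat_lit 156) (PT.nd (nat_lit 78) (PT.lf (nat_lit 1140) (nat_lit 6) (nat_lit 15) (nat_lit 4) (nat_lit 103) (nat_lit 114) (nat_lit 113)) (PT.lf (nat_lit 1216) (nat_lit 6) (nat_lit 16) (nat_lit 4) (nat_lit 104) (nat_lit 114) (nat_lit 112))) (PT.nd (nat_lit 78) (PT.lf (nat_lit 1368) (nat_lit 6) (nat_lit 18) (nat_lit 4) (nat_lit 105) (nat_lit 114) (nat_lit 111)) (PT.nd (nat_lit 78) (PT.lf (nat_lit 1672) (nat_lit 6) (nat_lit 22) (nat_lit 4) (nat_lit 106) (nat_lit 114) (nat_lit 110)) (PT.lf (nat_lit 1596) (nat_lit 6)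 (nat_lit 21) (nat_lit 4) (nat_lit 107) (nat_lit 114) (nat_lit 109))))) (PT.nd (nat_lit 156) (PT.nd (nat_lit 78) (PT.lf (nat_lit 1520) (nat_lit 3) (nat_lit 20) (nat_lit 2) (nat_lit 108) (nat_lit 114) (nat_lit 108)) (PT.lf (nat_lit 1596) (nat_lit 6) (nat_lit 21) (nat_lit 2) (nat_lit 109) (nat_lit 114) (nat_lit 107))) (PT.nd (nat_lit 78) (PT.lf (nat_lit 1672) (nat_lit 6) (nat_lit 22) (nat_lit 2) (nat_lit 110) (nat_lit 114) (nat_lit 106)) (PT.nd (nat_lit 78) (PT.lf (nat_lit 1368) (nat_lit 6) (nat_lit 18) (nat_lit 2) (nat_lit 111) (nat_lit 114) (nat_lit 105)) (PT.lf (nat_lit 1216) (nat_lit 6) (nat_lit 16) (nat_lit 2) (nat_lit 112) (nat_lit 114) (nat_lit 104))))))))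
noncomputable def pc3 : PT := (PT.nd (nat_lit 67782) (PT.nd (nat_lit 34320) (PT.nd (nat_lit 33306) (PT.nd (nat_lit 156) (PT.nd (nat_lit 78) (PT.lf (nat_lit 1140) (nat_lit 6) (nat_lit 15) (nat_lit 2) (nat_lit 113) (nat_lit 114) (nat_lit 103)) (PT.lf (nat_lit 988) (nat_lit 3) (nat_lit 13) (nat_lit 0) (nat_lit 114) (nat_lit 114) (nat_lit 102))) (PT.nd (nat_lit 78) (PT.lf (nat_lit 836) (nat_lit 6) (nat_lit 11) (nat_lit 0) (nat_lit 115) (nat_lit 114) (nat_lit 101)) (PT.nd (nat_lit 32994) (PT.lf (nat_lit 684) (nat_lit 6) (nat_lit 9) (nat_lit 0) (nat_lit 116) (nat_lit 114) (nat_lit 100)) (PT.lf (nat_lit 456) (nat_lit 6) (nat_lit 6) (nat_lit 5) (nat_lit 98) (nat_lit 115) (nat_lit 117))))) (PT.nd (nat_lit 156) (PT.nd (nat_lit 78) (PT.lf (nat_lit 608) (nat_lit 6) (nat_lit 8) (nat_lit 5) (nat_lit 99) (nat_lit 115) (nat_lit 116)) (PT.lf (nat_lit 760) (nat_lit 3) (nat_lit 10) (nat_lit 4) (nat_lit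 100) (nat_lit 115) (nat_lit 115))) (PT.nd (nat_lit 78) (PT.lf (nat_lit 836) (nat_lit 6) (nat_lit 11) (nat_lit 4) (nat_lit 101) (nat_lit 115) (nat_lit 114)) (PT.nd (nat_lit 78) (PT.lf (nat_lit 912) (nat_lit 6) (nat_lit 12) (nat_lit 4) (nat_lit 102) (nat_lit 115) (nat_lit 113)) (PT.lf (nat_lit 1064) (nat_lit 6) (nat_lit 14) (nat_lit 4) (nat_lit 103) (nat_lit 115) (nat_lit 112)))))) (PT.nd (nat_lit 390) (PT.nd (nat_lit 156) (PT.nd (nat_lit 78) (PT.lf (nat_lit 1064) (nat_lit 6) (nat_lit 14) (nat_lit 2) (nat_lit 112) (nat_lit 115) (nat_lit 103)) (PT.lf (nat_lit 912) (nat_lit 6) (nat_lit 12) (nat_lit 2) (nat_lit 113) (nat_lit 115) (nat_lit 102))) (PT.nd (nat_lit 78) (PT.lf (nat_lit 836) (nat_lit 6) (nat_lit 11) (nat_lit 2) (nat_lit 114) (nat_lit 115) (nat_lit 101)) (PT.nd (nat_lit 78) (PT.lf (nat_lit 760) (nat_lit 3) (nat_lit 10) (nat_lit 0) (nat_lit 115) (nat_lit 115) (nat_lit 100)) (PT.lf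 (nat_lit 608) (nat_lit 6) (nat_lit 8) (nat_lit 0) (nat_lit 116) (nat_lit 115) (nat_lit 99))))) (PT.nd (nat_lit 32838) (PT.nd (nat_lit 32760) (PT.lf (nat_lit 456) (nat_lit 6) (nat_lit 6) (nat_lit 0) (nat_lit 117) (nat_lit 115) (nat_lit 98)) (PT.lf (nat_lit 228) (nat_lit 6) (nat_lit 3) (nat_lit 5) (nat_lit 96) (nat_lit 116) (nat_lit 118))) (PT.nd (nat_lit 78) (PT.lf (nat_lit 380) (nat_lit 6) (nat_lit 5) (nat_lit 5) (nat_lit 97) (nat_lit 116) (nat_lit 117)) (PT.nd (nat_lit 78) (PT.lf (nat_lit 532) (nat_lit 3) (nat_lit 7) (nat_lit 4) (nat_lit 98) (nat_lit 116) (nat_lit 116)) (PT.lf (nat_lit 608) (nat_lit 6) (nat_lit 8) (nat_lit 4) (nat_lit 99) (nat_lit 116) (nat_lit 115))))))) (PT.nd (nat_lit 35568) (PT.nd (nat_lit 1404) (PT.nd (nat_lit 1170) (PT.nd (nat_lit 1092) (PT.lf (nat_lit 684) (nat_lit 6) (nat_lit 9) (nat_lit 4) (nat_lit 100) (nat_lit 116) (nat_lit 114)) (PT.lf (nat_lit 684) (nat_lit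 6) (nat_lit 9) (nat_lit 2) (nat_lit 114) (nat_lit 116) (nat_lit 100))) (PT.nd (nat_lit 78) (PT.lf (nat_lit 608) (nat_lit 6) (nat_lit 8) (nat_lit 2) (nat_lit 115) (nat_lit 116) (nat_lit 99)) (PT.nd (nat_lit 78) (PT.lf (nat_lit 532) (nat_lit 3) (nat_lit 7) (nat_lit 0) (nat_lit 116) (nat_lit 116) (nat_lit 98)) (PT.lf (nat_lit 380) (nat_lit 6) (nat_lit 5) (nat_lit 0) (nat_lit 117) (nat_lit 116) (nat_lit 97))))) (PT.nd (nat_lit 32682) (PT.nd (nat_lit 32604) (PT.lf (nat_lit 228) (nat_lit 6) (nat_lit 3) (nat_lit 0) (nat_lit 118) (nat_lit 116) (nat_lit 96)) (PT.lf (nat_lit 152) (nat_lit 6) (nat_lit 2) (nat_lit 5) (nat_lit 95) (nat_lit 117) (nat_lit 118))) (PT.nd (nat_lit 78) (PT.lf (nat_lit 304) (nat_lit 3) (nat_lit 4) (nat_lit 4) (nat_lit 96) (nat_lit 117) (nat_lit 117)) (PT.nd (nat_lit 78) (PT.lf (nat_lit 380) (nat_lit 6) (nat_lit 5) (nat_lit 4) (nat_lit 97) (nat_lit 117) (nat_lit 116)) (PT.lf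 (nat_lit 456) (nat_lit 6) (nat_lit 6) (nat_lit 4) (nat_lit 98) (nat_lit 117) (nat_lit 115)))))) (PT.nd (nat_lit 32838) (PT.nd (nat_lit 156) (PT.nd (nat_lit 78) (PT.lf (nat_lit 456) (nat_lit 6) (nat_lit 6) (nat_lit 2) (nat_lit 115) (nat_lit 117) (nat_lit 98)) (PT.lf (nat_lit 380) (nat_lit 6) (nat_lit 5) (nat_lit 2) (nat_lit 116) (nat_lit 117) (nat_lit 97))) (PT.nd (nat_lit 78) (PT.lf (nat_lit 304) (nat_lit 3) (nat_lit 4) (nat_lit 0) (nat_lit 117) (nat_lit 117) (nat_lit 96)) (PT.nd (nat_lit 32526) (PT.lf (nat_lit 152) (nat_lit 6) (nat_lit 2) (nat_lit 0) (nat_lit 118) (nat_lit 117) (nat_lit 95)) (PT.lf (nat_lit 76) (nat_lit 3) (nat_lit 1) (nat_lit 4) (nat_lit 94) (nat_lit 118) (nat_lit 118))))) (PT.nd (nat_lit 1638) (PT.nd (nat_lit 78) (PT.lf (nat_lit 152) (nat_lit 6) (nat_lit 2) (nat_lit 4) (nat_lit 95) (nat_lit 118) (nat_lit 117)) (PT.lf (nat_lit 228) (nat_lit 6) (nat_lit 3) (nat_lit 4)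 (nat_lit 96) (nat_lit 118) (nat_lit 116))) (PT.nd (nat_lit 78) (PT.lf (nat_lit 228) (nat_lit 6) (nat_lit 3) (nat_lit 2) (nat_lit 116) (nat_lit 118) (nat_lit 96)) (PT.nd (nat_lit 78) (PT.lf (nat_lit 152) (nat_lit 6) (nat_lit 2) (nat_lit 2) (nat_lit 117) (nat_lit 118) (nat_lit 95)) (PT.lf (nat_lit 76) (nat_lit 3) (nat_lit 1) (nat_lit 0) (nat_lit 118) (nat_lit 118) (nat_lit 94))))))))
noncomputable def xc0 : XT := (XT.nd (nat_lit 137358) (nat_lit 0) (nat_lit 0) (XT.nd (nat_lit 102726) (nat_lit 0) (nat_lit 0) (XT.nd (nat_lit 68484) (nat_lit 0) (nat_lit 0) (XT.nd (nat_lit 34320) (nat_lit 0) (nat_lit 0) (XT.nd (nat_lit 78) (nat_lit 0) (nat_lit 0) (XT.lf (nat_lit 0) (nat_lit 3083595829251) (nat_lit 76) (nat_lit 2138310958450) (nat_lit 76) (nat_lit 2138310958450) (nat_lit 1) (nat_lit 4) (nat_lit 2) (nat_lit 5) (nat_lit 2) (nat_lit 4) (nat_lit 288) (nat_lit 186) (nat_lit 186)) (XT.nd (nat_lit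 34164) (nat_lit 0) (nat_lit 0) (XT.lf (nat_lit 0) (nat_lit 7093083518318) (nat_lit 76) (nat_lit 4917699753012) (nat_lit 76) (nat_lit 4917684111022) (nat_lit 1) (nat_lit 4) (nat_lit 2) (nat_lit 5) (nat_lit 2) (nat_lit 4) (nat_lit 289) (nat_lit 186) (nat_lit 185)) (XT.lf (nat_lit 0) (nat_lit 2330897446120) (nat_lit 76) (nat_lit 1617257592572) (nat_lit 76) (nat_lit 1617257592572) (nat_lit 1) (nat_lit 4) (nat_lit 2) (nat_lit 5) (nat_lit 2) (nat_lit 4) (nat_lit 286) (nat_lit 187) (nat_lit 187)))) (XT.nd (nat_lit 78) (nat_lit 0) (nat_lit 0) (XT.lf (nat_lit 0) (nat_lit 5361999203773) (nat_lit 76) (nat_lit 3719214693779) (nat_lit 76) (nat_lit 3719196705491) (nat_lit 1) (nat_lit 4) (nat_lit 2) (nat_lit 5) (nat_lit 2) (nat_lit 4) (nat_lit 287) (nat_lit 187) (nat_lit 186)) (XT.nd (nat_lit 78) (nat_lit 0) (nat_lit 0) (XT.lf (nat_lit 0) (nat_lit 6167154698910) (nat_lit 76) (nat_lit 4276657971696)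 (nat_lit 76) (nat_lit 4276624341417) (nat_lit 1) (nat_lit 4) (nat_lit 2) (nat_lit 5) (nat_lit 2) (nat_lit 4) (nat_lit 288) (nat_lit 187) (nat_lit 185)) (XT.lf (nat_lit 0) (nat_lit 7093014419949) (nat_lit 76) (nat_lit 4917751517812) (nat_lit 76) (nat_lit 4917704285803) (nat_lit 1) (nat_lit 4) (nat_lit 2) (nat_lit 5) (nat_lit 2) (nat_lit 4) (nat_lit 289) (nat_lit 187) (nat_lit 184))))) (XT.nd (nat_lit 234) (nat_lit 0) (nat_lit 0) (XT.nd (nat_lit 78) (nat_lit 0) (nat_lit 0) (XT.lf (nat_lit 0) (nat_lit 1761637728431) (nat_lit 76) (nat_lit 1223324485035) (nat_lit 76) (nat_lit 1223324485035) (nat_lit 1) (nat_lit 4) (nat_lit 2) (nat_lit 5) (nat_lit 2) (nat_lit 4) (nat_lit 284) (nat_lit 188) (nat_lit 188)) (XT.nd (nat_lit 78) (nat_lit 0) (nat_lit 0) (XT.lf (nat_lit 0) (nat_lit 4052842114741) (nat_lit 76) (nat_lit 2813096881071) (nat_lit 76) (nat_lit 2813076194539) (nat_lit 1) (nat_lit 4) (nat_lit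 2) (nat_lit 5) (nat_lit 2) (nat_lit 4) (nat_lit 285) (nat_lit 188) (nat_lit 187)) (XT.lf (nat_lit 0) (nat_lit 4661752388710) (nat_lit 76) (nat_lit 3234556648159) (nat_lit 76) (nat_lit 3234517973339) (nat_lit 1) (nat_lit 4) (nat_lit 2) (nat_lit 5) (nat_lit 2) (nat_lit 4) (nat_lit 286) (nat_lit 188) (nat_lit 186)))) (XT.nd (nat_lit 78) (nat_lit 0) (nat_lit 0) (XT.lf (nat_lit 0) (nat_lit 5361919740649) (nat_lit 76) (nat_lit 3719274223299) (nat_lit 76) (nat_lit 3719219906489) (nat_lit 1) (nat_lit 4) (nat_lit 2) (nat_lit 5) (nat_lit 2) (nat_lit 4) (nat_lit 287) (nat_lit 188) (nat_lit 185)) (XT.nd (nat_lit 78) (nat_lit 0) (nat_lit 0) (XT.lf (nat_lit 0) (nat_lit 6167043097010) (nat_lit 76) (nat_lit 4276733211221) (nat_lit 76) (nat_lit 4276665292681) (nat_lit 1) (nat_lit 4) (nat_lit 2) (nat_lit 5) (nat_lit 2) (nat_lit 4) (nat_lit 288) (nat_lit 188) (nat_lit 184)) (XT.lf (nat_lit 0) (nat_lit 7092874871286)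 (nat_lit 76) (nat_lit 4917840418211) (nat_lit 76) (nat_lit 4917760672079) (nat_lit 1) (nat_lit 4) (nat_lit 2) (nat_lit 5) (nat_lit 2) (nat_lit 4) (nat_lit 289) (nat_lit 188) (nat_lit 183)))))) (XT.nd (nat_lit 468) (nat_lit 0) (nat_lit 0) (XT.nd (nat_lit 234) (nat_lit 0) (nat_lit 0) (XT.nd (nat_lit 78) (nat_lit 0) (nat_lit 0) (XT.lf (nat_lit 0) (nat_lit 1331067255667) (nat_lit 76) (nat_lit 925521270135) (nat_lit 76) (nat_lit 925521270135) (nat_lit 1) (nat_lit 4) (nat_lit 2) (nat_lit 5) (nat_lit 2) (nat_lit 4) (nat_lit 282) (nat_lit 189) (nat_lit 189)) (XT.nd (nat_lit 78) (nat_lit 0) (nat_lit 0) (XT.lf (nat_lit 0) (nat_lit 3062691328287) (nat_lit 76) (nat_lit 2128067071625) (nat_lit 76) (nat_lit 2128043282114) (nat_lit 1) (nat_lit 4) (nat_lit 2) (nat_lit 5) (nat_lit 2) (nat_lit 4) (nat_lit 283) (nat_lit 189) (nat_lit 188)) (XT.lf (nat_lit 0) (nat_lit 3523226577801) (nat_lit 76) (nat_lit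 2446696652535) (nat_lit 76) (nat_lit 2446652176492) (nat_lit 1) (nat_lit 4) (nat_lit 2) (nat_lit 5) (nat_lit 2) (nat_lit 4) (nat_lit 284) (nat_lit 189) (nat_lit 187)))) (XT.nd (nat_lit 78) (nat_lit 0) (nat_lit 0) (XT.lf (nat_lit 0) (nat_lit 4052750732148) (nat_lit 76) (nat_lit 2813165340019) (nat_lit 76) (nat_lit 2813102875687) (nat_lit 1) (nat_lit 4) (nat_lit 2) (nat_lit 5) (nat_lit 2) (nat_lit 4) (nat_lit 285) (nat_lit 189) (nat_lit 186)) (XT.nd (nat_lit 78) (nat_lit 0) (nat_lit 0) (XT.lf (nat_lit 0) (nat_lit 4661624046524) (nat_lit 76) (nat_lit 3234643173613) (nat_lit 76) (nat_lit 3234565067292) (nat_lit 1) (nat_lit 4) (nat_lit 2) (nat_lit 5) (nat_lit 2) (nat_lit 4) (nat_lit 286) (nat_lit 189) (nat_lit 185)) (XT.lf (nat_lit 0) (nat_lit 5361759259687) (nat_lit 76) (nat_lit 3719376458758) (nat_lit 76) (nat_lit 3719284750707) (nat_lit 1) (nat_lit 4) (nat_lit 2) (nat_lit 5) (nat_lit 2)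 (nat_lit 4) (nat_lit 287) (nat_lit 189) (nat_lit 184))))) (XT.nd (nat_lit 33852) (nat_lit 0) (nat_lit 0) (XT.nd (nat_lit 78) (nat_lit 0) (nat_lit 0) (XT.lf (nat_lit 0) (nat_lit 6166854669286) (nat_lit 76) (nat_lit 4276849107555) (nat_lit 76) (nat_lit 4276745571912) (nat_lit 1) (nat_lit 4) (nat_lit 2) (nat_lit 5) (nat_lit 2) (nat_lit 4) (nat_lit 288) (nat_lit 189) (nat_lit 183)) (XT.nd (nat_lit 33696) (nat_lit 0) (nat_lit 0) (XT.lf (nat_lit 0) (nat_lit 7092662142030) (nat_lit 76) (nat_lit 4917968193566) (nat_lit 76) (nat_lit 4917854373061) (nat_lit 1) (nat_lit 4) (nat_lit 2) (nat_lit 5) (nat_lit 2) (nat_lit 4) (nat_lit 289) (nat_lit 189) (nat_lit 182)) (XT.lf (nat_lit 0) (nat_lit 1005346525848) (nat_lit 76) (nat_lit 700416086247) (nat_lit 76) (nat_lit 700416086247) (nat_lit 1) (nat_lit 4) (nat_lit 2) (nat_lit 5) (nat_lit 2) (nat_lit 4) (nat_lit 280) (nat_lit 190) (nat_lit 190)))) (XT.nd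 (nat_lit 156) (nat_lit 0) (nat_lit 0) (XT.nd (nat_lit 78) (nat_lit 0) (nat_lit 0) (XT.lf (nat_lit 0) (nat_lit 2313719145742) (nat_lit 76) (nat_lit 1610230371230) (nat_lit 76) (nat_lit 1610203013291) (nat_lit 1) (nat_lit 4) (nat_lit 2) (nat_lit 5) (nat_lit 2) (nat_lit 4) (nat_lit 281) (nat_lit 190) (nat_lit 189)) (XT.lf (nat_lit 0) (nat_lit 2662078300414) (nat_lit 76) (nat_lit 1851097375106) (nat_lit 76) (nat_lit 1851046227656) (nat_lit 1) (nat_lit 4) (nat_lit 2) (nat_lit 5) (nat_lit 2) (nat_lit 4) (nat_lit 282) (nat_lit 190) (nat_lit 188))) (XT.nd (nat_lit 78) (nat_lit 0) (nat_lit 0) (XT.lf (nat_lit 0) (nat_lit 3062586238305) (nat_lit 76) (nat_lit 2128145799415) (nat_lit 76) (nat_lit 2128073965434) (nat_lit 1) (nat_lit 4) (nat_lit 2) (nat_lit 5) (nat_lit 2) (nat_lit 4) (nat_lit 283) (nat_lit 190) (nat_lit 187)) (XT.lf (nat_lit 0) (nat_lit 3523078984287) (nat_lit 76) (nat_lit 2446796156808)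 (nat_lit 76) (nat_lit 2446706334538) (nat_lit 1) (nat_lit 4) (nat_lit 2) (nat_lit 5) (nat_lit 2) (nat_lit 4) (nat_lit 284) (nat_lit 190) (nat_lit 186))))))) (XT.nd (nat_lit 34398) (nat_lit 0) (nat_lit 0) (XT.nd (nat_lit 33930) (nat_lit 0) (nat_lit 0) (XT.nd (nat_lit 234) (nat_lit 0) (nat_lit 0) (XT.nd (nat_lit 78) (nat_lit 0) (nat_lit 0) (XT.lf (nat_lit 0) (nat_lit 4052566179042) (nat_lit 76) (nat_lit 2813282910797) (nat_lit 76) (nat_lit 2813177446538) (nat_lit 1) (nat_lit 4) (nat_lit 2) (nat_lit 5) (nat_lit 2) (nat_lit 4) (nat_lit 285) (nat_lit 190) (nat_lit 185)) (XT.nd (nat_lit 78) (nat_lit 0) (nat_lit 0) (XT.lf (nat_lit 0) (nat_lit 4661407354641) (nat_lit 76) (nat_lit 3234776454397) (nat_lit 76) (nat_lit 3234657388407) (nat_lit 1) (nat_lit 4) (nat_lit 2) (nat_lit 5) (nat_lit 2) (nat_lit 4) (nat_lit 286) (nat_lit 190) (nat_lit 184)) (XT.lf (nat_lit 0) (nat_lit 5361514621042) (nat_lit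 76) (nat_lit 3719523400417) (nat_lit 76) (nat_lit 3719392506835) (nat_lit 1) (nat_lit 4) (nat_lit 2) (nat_lit 5) (nat_lit 2) (nat_lit 4) (nat_lit 287) (nat_lit 190) (nat_lit 183)))) (XT.nd (nat_lit 78) (nat_lit 0) (nat_lit 0) (XT.lf (nat_lit 0) (nat_lit 6166585729109) (nat_lit 76) (nat_lit 4277007928234) (nat_lit 76) (nat_lit 4276866749790) (nat_lit 1) (nat_lit 4) (nat_lit 2) (nat_lit 5) (nat_lit 2) (nat_lit 4) (nat_lit 288) (nat_lit 190) (nat_lit 182)) (XT.nd (nat_lit 33540) (nat_lit 0) (nat_lit 0) (XT.lf (nat_lit 0) (nat_lit 7092372070087) (nat_lit 76) (nat_lit 4918137343829) (nat_lit 76) (nat_lit 4917987222027) (nat_lit 1) (nat_lit 4) (nat_lit 2) (nat_lit 5) (nat_lit 2) (nat_lit 4) (nat_lit 289) (nat_lit 190) (nat_lit 181)) (XT.lf (nat_lit 0) (nat_lit 758885126148) (nat_lit 76) (nat_lit 530292582807) (nat_lit 76) (nat_lit 530292582807) (nat_lit 1) (nat_lit 4) (nat_lit 2) (nat_lit 5)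 (nat_lit 2) (nat_lit 4) (nat_lit 278) (nat_lit 191) (nat_lit 191))))) (XT.nd (nat_lit 234) (nat_lit 0) (nat_lit 0) (XT.nd (nat_lit 78) (nat_lit 0) (nat_lit 0) (XT.lf (nat_lit 0) (nat_lit 1747071246875) (nat_lit 76) (nat_lit 1218837319247) (nat_lit 76) (nat_lit 1218805857618) (nat_lit 1) (nat_lit 4) (nat_lit 2) (nat_lit 5) (nat_lit 2) (nat_lit 4) (nat_lit 279) (nat_lit 191) (nat_lit 190)) (XT.nd (nat_lit 78) (nat_lit 0) (nat_lit 0) (XT.lf (nat_lit 0) (nat_lit 2010628409138) (nat_lit 76) (nat_lit 1400895232555) (nat_lit 76) (nat_lit 1400836412988) (nat_lit 1) (nat_lit 4) (nat_lit 2) (nat_lit 5) (nat_lit 2) (nat_lit 4) (nat_lit 280) (nat_lit 191) (nat_lit 189)) (XT.lf (nat_lit 0) (nat_lit 2313598292263) (nat_lit 76) (nat_lit 1610320908188) (nat_lit 76) (nat_lit 1610238299110) (nat_lit 1) (nat_lit 4) (nat_lit 2) (nat_lit 5) (nat_lit 2) (nat_lit 4) (nat_lit 281) (nat_lit 191) (nat_lit 188))))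 (XT.nd (nat_lit 78) (nat_lit 0) (nat_lit 0) (XT.lf (nat_lit 0) (nat_lit 2661908567874) (nat_lit 76) (nat_lit 1851211805019) (nat_lit 76) (nat_lit 1851108509409) (nat_lit 1) (nat_lit 4) (nat_lit 2) (nat_lit 5) (nat_lit 2) (nat_lit 4) (nat_lit 282) (nat_lit 191) (nat_lit 187)) (XT.nd (nat_lit 78) (nat_lit 0) (nat_lit 0) (XT.lf (nat_lit 0) (nat_lit 3062374002233) (nat_lit 76) (nat_lit 2128281005810) (nat_lit 76) (nat_lit 2128159721912) (nat_lit 1) (nat_lit 4) (nat_lit 2) (nat_lit 5) (nat_lit 2) (nat_lit 4) (nat_lit 283) (nat_lit 191) (nat_lit 186)) (XT.lf (nat_lit 0) (nat_lit 3522829788622) (nat_lit 76) (nat_lit 2446949429709) (nat_lit 76) (nat_lit 2446812503821) (nat_lit 1) (nat_lit 4) (nat_lit 2) (nat_lit 5) (nat_lit 2) (nat_lit 4) (nat_lit 284) (nat_lit 191) (nat_lit 185)))))) (XT.nd (nat_lit 33774) (nat_lit 0) (nat_lit 0) (XT.nd (nat_lit 234) (nat_lit 0) (nat_lit 0) (XT.nd (nat_lit 78)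 (nat_lit 0) (nat_lit 0) (XT.lf (nat_lit 0) (nat_lit 4052284844601) (nat_lit 76) (nat_lit 2813451893704) (nat_lit 76) (nat_lit 2813301366086) (nat_lit 1) (nat_lit 4) (nat_lit 2) (nat_lit 5) (nat_lit 2) (nat_lit 4) (nat_lit 285) (nat_lit 191) (nat_lit 184)) (XT.nd (nat_lit 78) (nat_lit 0) (nat_lit 0) (XT.lf (nat_lit 0) (nat_lit 4661098073438) (nat_lit 76) (nat_lit 3234959098178) (nat_lit 76) (nat_lit 3234796742968) (nat_lit 1) (nat_lit 4) (nat_lit 2) (nat_lit 5) (nat_lit 2) (nat_lit 4) (nat_lit 286) (nat_lit 191) (nat_lit 183)) (XT.lf (nat_lit 0) (nat_lit 5361181038307) (nat_lit 76) (nat_lit 3719717923219) (nat_lit 76) (nat_lit 3719545283146) (nat_lit 1) (nat_lit 4) (nat_lit 2) (nat_lit 5) (nat_lit 2) (nat_lit 4) (nat_lit 287) (nat_lit 191) (nat_lit 182)))) (XT.nd (nat_lit 78) (nat_lit 0) (nat_lit 0) (XT.lf (nat_lit 0) (nat_lit 6166231014607) (nat_lit 76) (nat_lit 4277212780620) (nat_lit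 76) (nat_lit 4277031197189) (nat_lit 1) (nat_lit 4) (nat_lit 2) (nat_lit 5) (nat_lit 2) (nat_lit 4) (nat_lit 288) (nat_lit 191) (nat_lit 181)) (XT.nd (nat_lit 33384) (nat_lit 0) (nat_lit 0) (XT.lf (nat_lit 0) (nat_lit 7091998980135) (nat_lit 76) (nat_lit 4918351178461) (nat_lit 76) (nat_lit 4918161818197) (nat_lit 1) (nat_lit 4) (nat_lit 2) (nat_lit 5) (nat_lit 2) (nat_lit 4) (nat_lit 289) (nat_lit 191) (nat_lit 180)) (XT.lf (nat_lit 0) (nat_lit 572329707110) (nat_lit 76) (nat_lit 401756382230) (nat_lit 76) (nat_lit 401756382230) (nat_lit 1) (nat_lit 4) (nat_lit 2) (nat_lit 5) (nat_lit 2) (nat_lit 4) (nat_lit 276) (nat_lit 192) (nat_lit 192))))) (XT.nd (nat_lit 234) (nat_lit 0) (nat_lit 0) (XT.nd (nat_lit 78) (nat_lit 0) (nat_lit 0) (XT.lf (nat_lit 0) (nat_lit 1318239101597) (nat_lit 76) (nat_lit 923078714740) (nat_lit 76) (nat_lit 923042533867) (nat_lit 1) (nat_lit 4) (nat_lit 2) (nat_lit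 5) (nat_lit 2) (nat_lit 4) (nat_lit 277) (nat_lit 192) (nat_lit 191)) (XT.nd (nat_lit 78) (nat_lit 0) (nat_lit 0) (XT.lf (nat_lit 0) (nat_lit 1517695913354) (nat_lit 76) (nat_lit 1060657684684) (nat_lit 76) (nat_lit 1060590042182) (nat_lit 1) (nat_lit 4) (nat_lit 2) (nat_lit 5) (nat_lit 2) (nat_lit 4) (nat_lit 278) (nat_lit 192) (nat_lit 190)) (XT.lf (nat_lit 0) (nat_lit 1746932265374) (nat_lit 76) (nat_lit 1218941436750) (nat_lit 76) (nat_lit 1218846436310) (nat_lit 1) (nat_lit 4) (nat_lit 2) (nat_lit 5) (nat_lit 2) (nat_lit 4) (nat_lit 279) (nat_lit 192) (nat_lit 189)))) (XT.nd (nat_lit 156) (nat_lit 0) (nat_lit 0) (XT.nd (nat_lit 78) (nat_lit 0) (nat_lit 0) (XT.lf (nat_lit 0) (nat_lit 2010433216717) (nat_lit 76) (nat_lit 1401026826955) (nat_lit 76) (nat_lit 1400908037003) (nat_lit 1) (nat_lit 4) (nat_lit 2) (nat_lit 5) (nat_lit 2) (nat_lit 4) (nat_lit 280) (nat_lit 192) (nat_lit 188))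 (XT.lf (nat_lit 0) (nat_lit 2313354220780) (nat_lit 76) (nat_lit 1610476395543) (nat_lit 76) (nat_lit 1610336919060) (nat_lit 1) (nat_lit 4) (nat_lit 2) (nat_lit 5) (nat_lit 2) (nat_lit 4) (nat_lit 281) (nat_lit 192) (nat_lit 187))) (XT.nd (nat_lit 78) (nat_lit 0) (nat_lit 0) (XT.lf (nat_lit 0) (nat_lit 2661621992859) (nat_lit 76) (nat_lit 1851388068855) (nat_lit 76) (nat_lit 1851230604084) (nat_lit 1) (nat_lit 4) (nat_lit 2) (nat_lit 5) (nat_lit 2) (nat_lit 4) (nat_lit 282) (nat_lit 192) (nat_lit 186)) (XT.lf (nat_lit 0) (nat_lit 3062050467626) (nat_lit 76) (nat_lit 2128475336153) (nat_lit 76) (nat_lit 2128302229392) (nat_lit 1) (nat_lit 4) (nat_lit 2) (nat_lit 5) (nat_lit 2) (nat_lit 4) (nat_lit 283) (nat_lit 192) (nat_lit 185))))))))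
noncomputable def xc1 : XT := (XT.nd (nat_lit 68094) (nat_lit 0) (nat_lit 0) (XT.nd (nat_lit 34086) (nat_lit 0) (nat_lit 0) (XT.nd (nat_lit 33618) (nat_lit 0) (nat_lit 0) (XT.nd (nat_lit 234) (nat_lit 0) (nat_lit 0) (XT.nd (nat_lit 78) (nat_lit 0) (nat_lit 0) (XT.lf (nat_lit 0) (nat_lit 3522474115239) (nat_lit 76) (nat_lit 2447159470057) (nat_lit 76) (nat_lit 2446972761566) (nat_lit 1) (nat_lit 4) (nat_lit 2) (nat_lit 5) (nat_lit 2) (nat_lit 4) (nat_lit 284) (nat_lit 192) (nat_lit 184)) (XT.nd (nat_lit 78) (nat_lit 0) (nat_lit 0) (XT.lf (nat_lit 0) (nat_lit 4051901224456) (nat_lit 76) (nat_lit 2813675594927) (nat_lit 76) (nat_lit 2813477058843) (nat_lit 1) (nat_lit 4) (nat_lit 2) (nat_lit 5) (nat_lit 2) (nat_lit 4) (nat_lit 285) (nat_lit 192) (nat_lit 183)) (XT.lf (nat_lit 0) (nat_lit 4660690151761) (nat_lit 76) (nat_lit 3235194678422) (nat_lit 76) (nat_lit 3234985857476) (nat_lit 1)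 (nat_lit 4) (nat_lit 2) (nat_lit 5) (nat_lit 2) (nat_lit 4) (nat_lit 286) (nat_lit 192) (nat_lit 182)))) (XT.nd (nat_lit 78) (nat_lit 0) (nat_lit 0) (XT.lf (nat_lit 0) (nat_lit 5360751984862) (nat_lit 76) (nat_lit 3719963833046) (nat_lit 76) (nat_lit 3719746068742) (nat_lit 1) (nat_lit 4) (nat_lit 2) (nat_lit 5) (nat_lit 2) (nat_lit 4) (nat_lit 287) (nat_lit 192) (nat_lit 181)) (XT.nd (nat_lit 78) (nat_lit 0) (nat_lit 0) (XT.lf (nat_lit 0) (nat_lit 6165783585712) (nat_lit 76) (nat_lit 4277467672694) (nat_lit 76) (nat_lit 4277242131556) (nat_lit 1) (nat_lit 4) (nat_lit 2) (nat_lit 5) (nat_lit 2) (nat_lit 4) (nat_lit 288) (nat_lit 192) (nat_lit 180)) (XT.lf (nat_lit 0) (nat_lit 7091535572588) (nat_lit 76) (nat_lit 4918613881184) (nat_lit 76) (nat_lit 4918381577583) (nat_lit 1) (nat_lit 4) (nat_lit 2) (nat_lit 5) (nat_lit 2) (nat_lit 4) (nat_lit 289) (nat_lit 192) (nat_lit 179))))) (XT.nd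 (nat_lit 234) (nat_lit 0) (nat_lit 0) (XT.nd (nat_lit 78) (nat_lit 0) (nat_lit 0) (XT.lf (nat_lit 0) (nat_lit 431042537119) (nat_lit 76) (nat_lit 304681398735) (nat_lit 76) (nat_lit 304681398735) (nat_lit 1) (nat_lit 4) (nat_lit 2) (nat_lit 5) (nat_lit 2) (nat_lit 4) (nat_lit 274) (nat_lit 193) (nat_lit 193)) (XT.nd (nat_lit 78) (nat_lit 0) (nat_lit 0) (XT.lf (nat_lit 0) (nat_lit 993560726905) (nat_lit 76) (nat_lit 699662108042) (nat_lit 76) (nat_lit 699620500038) (nat_lit 1) (nat_lit 4) (nat_lit 2) (nat_lit 5) (nat_lit 2) (nat_lit 4) (nat_lit 275) (nat_lit 193) (nat_lit 192)) (XT.lf (nat_lit 0) (nat_lit 1144573924436) (nat_lit 76) (nat_lit 803596161392) (nat_lit 76) (nat_lit 803518372515) (nat_lit 1) (nat_lit 4) (nat_lit 2) (nat_lit 5) (nat_lit 2) (nat_lit 4) (nat_lit 276) (nat_lit 193) (nat_lit 191)))) (XT.nd (nat_lit 78) (nat_lit 0) (nat_lit 0) (XT.lf (nat_lit 0) (nat_lit 1318079272871)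 (nat_lit 76) (nat_lit 923198449868) (nat_lit 76) (nat_lit 923089199362) (nat_lit 1) (nat_lit 4) (nat_lit 2) (nat_lit 5) (nat_lit 2) (nat_lit 4) (nat_lit 277) (nat_lit 193) (nat_lit 190)) (XT.nd (nat_lit 78) (nat_lit 0) (nat_lit 0) (XT.lf (nat_lit 0) (nat_lit 1517471442069) (nat_lit 76) (nat_lit 1060809018244) (nat_lit 76) (nat_lit 1060672409800) (nat_lit 1) (nat_lit 4) (nat_lit 2) (nat_lit 5) (nat_lit 2) (nat_lit 4) (nat_lit 278) (nat_lit 193) (nat_lit 189)) (XT.lf (nat_lit 0) (nat_lit 1746651583168) (nat_lit 76) (nat_lit 1219120247207) (nat_lit 76) (nat_lit 1218959849252) (nat_lit 1) (nat_lit 4) (nat_lit 2) (nat_lit 5) (nat_lit 2) (nat_lit 4) (nat_lit 279) (nat_lit 193) (nat_lit 188)))))) (XT.nd (nat_lit 468) (nat_lit 0) (nat_lit 0) (XT.nd (nat_lit 234) (nat_lit 0) (nat_lit 0) (XT.nd (nat_lit 78) (nat_lit 0) (nat_lit 0) (XT.lf (nat_lit 0) (nat_lit 2010103655450) (nat_lit 76) (nat_lit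 1401229530367) (nat_lit 76) (nat_lit 1401048445880) (nat_lit 1) (nat_lit 4) (nat_lit 2) (nat_lit 5) (nat_lit 2) (nat_lit 4) (nat_lit 280) (nat_lit 193) (nat_lit 187)) (XT.nd (nat_lit 78) (nat_lit 0) (nat_lit 0) (XT.lf (nat_lit 0) (nat_lit 2312982155981) (nat_lit 76) (nat_lit 1610699875437) (nat_lit 76) (nat_lit 1610500802661) (nat_lit 1) (nat_lit 4) (nat_lit 2) (nat_lit 5) (nat_lit 2) (nat_lit 4) (nat_lit 281) (nat_lit 193) (nat_lit 186)) (XT.lf (nat_lit 0) (nat_lit 2661212968468) (nat_lit 76) (nat_lit 1851629615256) (nat_lit 76) (nat_lit 1851414900490) (nat_lit 1) (nat_lit 4) (nat_lit 2) (nat_lit 5) (nat_lit 2) (nat_lit 4) (nat_lit 282) (nat_lit 193) (nat_lit 185)))) (XT.nd (nat_lit 78) (nat_lit 0) (nat_lit 0) (XT.lf (nat_lit 0) (nat_lit 3061609304459) (nat_lit 76) (nat_lit 2128732592559) (nat_lit 76) (nat_lit 2128504276063) (nat_lit 1) (nat_lit 4) (nat_lit 2) (nat_lit 5) (nat_lit 2)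 (nat_lit 4) (nat_lit 283) (nat_lit 193) (nat_lit 184)) (XT.nd (nat_lit 78) (nat_lit 0) (nat_lit 0) (XT.lf (nat_lit 0) (nat_lit 3522005005310) (nat_lit 76) (nat_lit 2447430387337) (nat_lit 76) (nat_lit 2447190243250) (nat_lit 1) (nat_lit 4) (nat_lit 2) (nat_lit 5) (nat_lit 2) (nat_lit 4) (nat_lit 284) (nat_lit 193) (nat_lit 183)) (XT.lf (nat_lit 0) (nat_lit 4051407812994) (nat_lit 76) (nat_lit 2813958391228) (nat_lit 76) (nat_lit 2813707962278) (nat_lit 1) (nat_lit 4) (nat_lit 2) (nat_lit 5) (nat_lit 2) (nat_lit 4) (nat_lit 285) (nat_lit 193) (nat_lit 182))))) (XT.nd (nat_lit 234) (nat_lit 0) (nat_lit 0) (XT.nd (nat_lit 78) (nat_lit 0) (nat_lit 0) (XT.lf (nat_lit 0) (nat_lit 4660175608532) (nat_lit 76) (nat_lit 3235487804307) (nat_lit 76) (nat_lit 3235228431998) (nat_lit 1) (nat_lit 4) (nat_lit 2) (nat_lit 5) (nat_lit 2) (nat_lit 4) (nat_lit 286) (nat_lit 193) (nat_lit 181)) (XT.nd (nat_lit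 78) (nat_lit 0) (nat_lit 0) (XT.lf (nat_lit 0) (nat_lit 5360219066184) (nat_lit 76) (nat_lit 3720265941177) (nat_lit 76) (nat_lit 3719998792035) (nat_lit 1) (nat_lit 4) (nat_lit 2) (nat_lit 5) (nat_lit 2) (nat_lit 4) (nat_lit 287) (nat_lit 193) (nat_lit 180)) (XT.lf (nat_lit 0) (nat_lit 6165234688382) (nat_lit 76) (nat_lit 4277777591474) (nat_lit 76) (nat_lit 4277503679868) (nat_lit 1) (nat_lit 4) (nat_lit 2) (nat_lit 5) (nat_lit 2) (nat_lit 4) (nat_lit 288) (nat_lit 193) (nat_lit 179)))) (XT.nd (nat_lit 33150) (nat_lit 0) (nat_lit 0) (XT.nd (nat_lit 33072) (nat_lit 0) (nat_lit 0) (XT.lf (nat_lit 0) (nat_lit 7090972780778) (nat_lit 76) (nat_lit 4918930591834) (nat_lit 76) (nat_lit 4918650799824) (nat_lit 1) (nat_lit 4) (nat_lit 2) (nat_lit 5) (nat_lit 2) (nat_lit 4) (nat_lit 289) (nat_lit 193) (nat_lit 178)) (XT.lf (nat_lit 0) (nat_lit 323950996283) (nat_lit 76) (nat_lit 231413142889)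 (nat_lit 76) (nat_lit 231413142889) (nat_lit 1) (nat_lit 4) (nat_lit 2) (nat_lit 5) (nat_lit 2) (nat_lit 4) (nat_lit 272) (nat_lit 194) (nat_lit 194))) (XT.nd (nat_lit 78) (nat_lit 0) (nat_lit 0) (XT.lf (nat_lit 0) (nat_lit 747574616712) (nat_lit 76) (nat_lit 530979353240) (nat_lit 76) (nat_lit 530931504035) (nat_lit 1) (nat_lit 4) (nat_lit 2) (nat_lit 5) (nat_lit 2) (nat_lit 4) (nat_lit 273) (nat_lit 194) (nat_lit 193)) (XT.lf (nat_lit 0) (nat_lit 861986760988) (nat_lit 76) (nat_lit 609458703941) (nat_lit 76) (nat_lit 609369246732) (nat_lit 1) (nat_lit 4) (nat_lit 2) (nat_lit 5) (nat_lit 2) (nat_lit 4) (nat_lit 274) (nat_lit 194) (nat_lit 192))))))) (XT.nd (nat_lit 936) (nat_lit 0) (nat_lit 0) (XT.nd (nat_lit 468) (nat_lit 0) (nat_lit 0) (XT.nd (nat_lit 234) (nat_lit 0) (nat_lit 0) (XT.nd (nat_lit 78) (nat_lit 0) (nat_lit 0) (XT.lf (nat_lit 0) (nat_lit 993376923870) (nat_lit 76) (nat_lit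 699799803439) (nat_lit 76) (nat_lit 699674165357) (nat_lit 1) (nat_lit 4) (nat_lit 2) (nat_lit 5) (nat_lit 2) (nat_lit 4) (nat_lit 275) (nat_lit 194) (nat_lit 191)) (XT.nd (nat_lit 78) (nat_lit 0) (nat_lit 0) (XT.lf (nat_lit 0) (nat_lit 1144315782459) (nat_lit 76) (nat_lit 803770194986) (nat_lit 76) (nat_lit 803613095275) (nat_lit 1) (nat_lit 4) (nat_lit 2) (nat_lit 5) (nat_lit 2) (nat_lit 4) (nat_lit 276) (nat_lit 194) (nat_lit 190)) (XT.lf (nat_lit 0) (nat_lit 1317756488334) (nat_lit 76) (nat_lit 923404081894) (nat_lit 76) (nat_lit 923219624245) (nat_lit 1) (nat_lit 4) (nat_lit 2) (nat_lit 5) (nat_lit 2) (nat_lit 4) (nat_lit 277) (nat_lit 194) (nat_lit 189)))) (XT.nd (nat_lit 78) (nat_lit 0) (nat_lit 0) (XT.lf (nat_lit 0) (nat_lit 1517092446612) (nat_lit 76) (nat_lit 1061042127168) (nat_lit 76) (nat_lit 1060833880008) (nat_lit 1) (nat_lit 4) (nat_lit 2) (nat_lit 5) (nat_lit 2) (nat_lit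 4) (nat_lit 278) (nat_lit 194) (nat_lit 188)) (XT.nd (nat_lit 78) (nat_lit 0) (nat_lit 0) (XT.lf (nat_lit 0) (nat_lit 1746223708650) (nat_lit 76) (nat_lit 1219377249086) (nat_lit 76) (nat_lit 1219148315394) (nat_lit 1) (nat_lit 4) (nat_lit 2) (nat_lit 5) (nat_lit 2) (nat_lit 4) (nat_lit 279) (nat_lit 194) (nat_lit 187)) (XT.lf (nat_lit 0) (nat_lit 2009633277400) (nat_lit 76) (nat_lit 1401507308728) (nat_lit 76) (nat_lit 1401260386747) (nat_lit 1) (nat_lit 4) (nat_lit 2) (nat_lit 5) (nat_lit 2) (nat_lit 4) (nat_lit 280) (nat_lit 194) (nat_lit 186))))) (XT.nd (nat_lit 234) (nat_lit 0) (nat_lit 0) (XT.nd (nat_lit 78) (nat_lit 0) (nat_lit 0) (XT.lf (nat_lit 0) (nat_lit 2312474818339) (nat_lit 76) (nat_lit 1610995720304) (nat_lit 76) (nat_lit 1610733156333) (nat_lit 1) (nat_lit 4) (nat_lit 2) (nat_lit 5) (nat_lit 2) (nat_lit 4) (nat_lit 281) (nat_lit 194) (nat_lit 185)) (XT.nd (nat_lit 78)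 (nat_lit 0) (nat_lit 0) (XT.lf (nat_lit 0) (nat_lit 2660673492049) (nat_lit 76) (nat_lit 1851941170128) (nat_lit 76) (nat_lit 1851665004427) (nat_lit 1) (nat_lit 4) (nat_lit 2) (nat_lit 5) (nat_lit 2) (nat_lit 4) (nat_lit 282) (nat_lit 194) (nat_lit 184)) (XT.lf (nat_lit 0) (nat_lit 3061041881278) (nat_lit 76) (nat_lit 2129057808305) (nat_lit 76) (nat_lit 2128769815013) (nat_lit 1) (nat_lit 4) (nat_lit 2) (nat_lit 5) (nat_lit 2) (nat_lit 4) (nat_lit 283) (nat_lit 194) (nat_lit 183)))) (XT.nd (nat_lit 78) (nat_lit 0) (nat_lit 0) (XT.lf (nat_lit 0) (nat_lit 3521413280597) (nat_lit 76) (nat_lit 2447767482105) (nat_lit 76) (nat_lit 2447469203950) (nat_lit 1) (nat_lit 4) (nat_lit 2) (nat_lit 5) (nat_lit 2) (nat_lit 4) (nat_lit 284) (nat_lit 194) (nat_lit 182)) (XT.nd (nat_lit 78) (nat_lit 0) (nat_lit 0) (XT.lf (nat_lit 0) (nat_lit 4050794956514) (nat_lit 76) (nat_lit 2814305815579) (nat_lit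 76) (nat_lit 2813998594066) (nat_lit 1) (nat_lit 4) (nat_lit 2) (nat_lit 5) (nat_lit 2) (nat_lit 4) (nat_lit 285) (nat_lit 194) (nat_lit 181)) (XT.lf (nat_lit 0) (nat_lit 4659544376602) (nat_lit 76) (nat_lit 3235844210904) (nat_lit 76) (nat_lit 3235529212558) (nat_lit 1) (nat_lit 4) (nat_lit 2) (nat_lit 5) (nat_lit 2) (nat_lit 4) (nat_lit 286) (nat_lit 194) (nat_lit 180)))))) (XT.nd (nat_lit 33306) (nat_lit 0) (nat_lit 0) (XT.nd (nat_lit 33072) (nat_lit 0) (nat_lit 0) (XT.nd (nat_lit 78) (nat_lit 0) (nat_lit 0) (XT.lf (nat_lit 0) (nat_lit 5359571855602) (nat_lit 76) (nat_lit 3720630158424) (nat_lit 76) (nat_lit 3720308397613) (nat_lit 1) (nat_lit 4) (nat_lit 2) (nat_lit 5) (nat_lit 2) (nat_lit 4) (nat_lit 287) (nat_lit 194) (nat_lit 179)) (XT.nd (nat_lit 78) (nat_lit 0) (nat_lit 0) (XT.lf (nat_lit 0) (nat_lit 6164573583321) (nat_lit 76) (nat_lit 4278148600590) (nat_lit 76) (nat_lit 4277820959376)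 (nat_lit 1) (nat_lit 4) (nat_lit 2) (nat_lit 5) (nat_lit 2) (nat_lit 4) (nat_lit 288) (nat_lit 194) (nat_lit 178)) (XT.lf (nat_lit 0) (nat_lit 7090299593561) (nat_lit 76) (nat_lit 4919307506922) (nat_lit 76) (nat_lit 4918974752314) (nat_lit 1) (nat_lit 4) (nat_lit 2) (nat_lit 5) (nat_lit 2) (nat_lit 4) (nat_lit 289) (nat_lit 194) (nat_lit 177)))) (XT.nd (nat_lit 78) (nat_lit 0) (nat_lit 0) (XT.lf (nat_lit 0) (nat_lit 242677542584) (nat_lit 76) (nat_lit 176166350122) (nat_lit 76) (nat_lit 176166350122) (nat_lit 1) (nat_lit 4) (nat_lit 2) (nat_lit 5) (nat_lit 2) (nat_lit 4) (nat_lit 270) (nat_lit 195) (nat_lit 195)) (XT.nd (nat_lit 78) (nat_lit 0) (nat_lit 0) (XT.lf (nat_lit 0) (nat_lit 561018771994) (nat_lit 76) (nat_lit 403721098563) (nat_lit 76) (nat_lit 403666071978) (nat_lit 1) (nat_lit 4) (nat_lit 2) (nat_lit 5) (nat_lit 2) (nat_lit 4) (nat_lit 271) (nat_lit 195) (nat_lit 194)) (XT.lf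 (nat_lit 0) (nat_lit 647788932328) (nat_lit 76) (nat_lit 462936578220) (nat_lit 76) (nat_lit 462833702430) (nat_lit 1) (nat_lit 4) (nat_lit 2) (nat_lit 5) (nat_lit 2) (nat_lit 4) (nat_lit 272) (nat_lit 195) (nat_lit 193))))) (XT.nd (nat_lit 234) (nat_lit 0) (nat_lit 0) (XT.nd (nat_lit 78) (nat_lit 0) (nat_lit 0) (XT.lf (nat_lit 0) (nat_lit 747363243221) (nat_lit 76) (nat_lit 531137702946) (nat_lit 76) (nat_lit 530993219152) (nat_lit 1) (nat_lit 4) (nat_lit 2) (nat_lit 5) (nat_lit 2) (nat_lit 4) (nat_lit 273) (nat_lit 195) (nat_lit 192)) (XT.nd (nat_lit 78) (nat_lit 0) (nat_lit 0) (XT.lf (nat_lit 0) (nat_lit 861689897714) (nat_lit 76) (nat_lit 609658842574) (nat_lit 76) (nat_lit 609478177907) (nat_lit 1) (nat_lit 4) (nat_lit 2) (nat_lit 5) (nat_lit 2) (nat_lit 4) (nat_lit 274) (nat_lit 195) (nat_lit 191)) (XT.lf (nat_lit 0) (nat_lit 993005721653) (nat_lit 76) (nat_lit 700036280269) (nat_lit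 76) (nat_lit 699824153973) (nat_lit 1) (nat_lit 4) (nat_lit 2) (nat_lit 5) (nat_lit 2) (nat_lit 4) (nat_lit 275) (nat_lit 195) (nat_lit 190)))) (XT.nd (nat_lit 156) (nat_lit 0) (nat_lit 0) (XT.nd (nat_lit 78) (nat_lit 0) (nat_lit 0) (XT.lf (nat_lit 0) (nat_lit 1143879937683) (nat_lit 76) (nat_lit 804038270249) (nat_lit 76) (nat_lit 803798786014) (nat_lit 1) (nat_lit 4) (nat_lit 2) (nat_lit 5) (nat_lit 2) (nat_lit 4) (nat_lit 276) (nat_lit 195) (nat_lit 189)) (XT.lf (nat_lit 0) (nat_lit 1317264432639) (nat_lit 76) (nat_lit 923699634054) (nat_lit 76) (nat_lit 923436360308) (nat_lit 1) (nat_lit 4) (nat_lit 2) (nat_lit 5) (nat_lit 2) (nat_lit 4) (nat_lit 277) (nat_lit 195) (nat_lit 188))) (XT.nd (nat_lit 78) (nat_lit 0) (nat_lit 0) (XT.lf (nat_lit 0) (nat_lit 1516551511855) (nat_lit 76) (nat_lit 1061361572283) (nat_lit 76) (nat_lit 1061077612006) (nat_lit 1) (nat_lit 4) (nat_lit 2) (nat_lit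 5) (nat_lit 2) (nat_lit 4) (nat_lit 278) (nat_lit 195) (nat_lit 187)) (XT.lf (nat_lit 0) (nat_lit 1745640270361) (nat_lit 76) (nat_lit 1219717470683) (nat_lit 76) (nat_lit 1219415522117) (nat_lit 1) (nat_lit 4) (nat_lit 2) (nat_lit 5) (nat_lit 2) (nat_lit 4) (nat_lit 279) (nat_lit 195) (nat_lit 186))))))))
noncomputable def xc2 : XT := (XT.nd (nat_lit 34632) (nat_lit 0) (nat_lit 0) (XT.nd (nat_lit 33618) (nat_lit 0) (nat_lit 0) (XT.nd (nat_lit 468) (nat_lit 0) (nat_lit 0) (XT.nd (nat_lit 234) (nat_lit 0) (nat_lit 0) (XT.nd (nat_lit 78) (nat_lit 0) (nat_lit 0) (XT.lf (nat_lit 0) (nat_lit 2009012879519) (nat_lit 76) (nat_lit 1401865596830) (nat_lit 76) (nat_lit 1401548006275) (nat_lit 1) (nat_lit 4) (nat_lit 2) (nat_lit 5) (nat_lit 2) (nat_lit 4) (nat_lit 280) (nat_lit 195) (nat_lit 185)) (XT.nd (nat_lit 78) (nat_lit 0) (nat_lit 0) (XT.lf (nat_lit 0) (nat_lit 2311822281681) (nat_lit 76)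 (nat_lit 1611369718412) (nat_lit 76) (nat_lit 1611038526126) (nat_lit 1) (nat_lit 4) (nat_lit 2) (nat_lit 5) (nat_lit 2) (nat_lit 4) (nat_lit 281) (nat_lit 195) (nat_lit 184)) (XT.lf (nat_lit 0) (nat_lit 2659993008629) (nat_lit 76) (nat_lit 1852328829111) (nat_lit 76) (nat_lit 1851985809233) (nat_lit 1) (nat_lit 4) (nat_lit 2) (nat_lit 5) (nat_lit 2) (nat_lit 4) (nat_lit 282) (nat_lit 195) (nat_lit 183)))) (XT.nd (nat_lit 78) (nat_lit 0) (nat_lit 0) (XT.lf (nat_lit 0) (nat_lit 3060337096326) (nat_lit 76) (nat_lit 2129457346309) (nat_lit 76) (nat_lit 2129104041569) (nat_lit 1) (nat_lit 4) (nat_lit 2) (nat_lit 5) (nat_lit 2) (nat_lit 4) (nat_lit 283) (nat_lit 195) (nat_lit 182)) (XT.nd (nat_lit 78) (nat_lit 0) (nat_lit 0) (XT.lf (nat_lit 0) (nat_lit 3520687363878) (nat_lit 76) (nat_lit 2448177349692) (nat_lit 76) (nat_lit 2447815101594) (nat_lit 1) (nat_lit 4) (nat_lit 2) (nat_lit 5) (nat_lit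 2) (nat_lit 4) (nat_lit 284) (nat_lit 195) (nat_lit 181)) (XT.lf (nat_lit 0) (nat_lit 4050050664345) (nat_lit 76) (nat_lit 2814724665413) (nat_lit 76) (nat_lit 2814354640481) (nat_lit 1) (nat_lit 4) (nat_lit 2) (nat_lit 5) (nat_lit 2) (nat_lit 4) (nat_lit 285) (nat_lit 195) (nat_lit 180))))) (XT.nd (nat_lit 234) (nat_lit 0) (nat_lit 0) (XT.nd (nat_lit 78) (nat_lit 0) (nat_lit 0) (XT.lf (nat_lit 0) (nat_lit 4658784105782) (nat_lit 76) (nat_lit 3236270871387) (nat_lit 76) (nat_lit 3235894083991) (nat_lit 1) (nat_lit 4) (nat_lit 2) (nat_lit 5) (nat_lit 2) (nat_lit 4) (nat_lit 286) (nat_lit 195) (nat_lit 179)) (XT.nd (nat_lit 78) (nat_lit 0) (nat_lit 0) (XT.lf (nat_lit 0) (nat_lit 5358797690302) (nat_lit 76) (nat_lit 3721063610776) (nat_lit 76) (nat_lit 3720680942976) (nat_lit 1) (nat_lit 4) (nat_lit 2) (nat_lit 5) (nat_lit 2) (nat_lit 4) (nat_lit 287) (nat_lit 195) (nat_lit 178)) (XT.lf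 (nat_lit 0) (nat_lit 6163787335864) (nat_lit 76) (nat_lit 4278587958914) (nat_lit 76) (nat_lit 4278200177721) (nat_lit 1) (nat_lit 4) (nat_lit 2) (nat_lit 5) (nat_lit 2) (nat_lit 4) (nat_lit 288) (nat_lit 195) (nat_lit 177)))) (XT.nd (nat_lit 32760) (nat_lit 0) (nat_lit 0) (XT.lf (nat_lit 0) (nat_lit 7089502839881) (nat_lit 76) (nat_lit 4919752000875) (nat_lit 76) (nat_lit 4919359773252) (nat_lit 1) (nat_lit 4) (nat_lit 2) (nat_lit 5) (nat_lit 2) (nat_lit 4) (nat_lit 289) (nat_lit 195) (nat_lit 176)) (XT.nd (nat_lit 78) (nat_lit 0) (nat_lit 0) (XT.lf (nat_lit 0) (nat_lit 180881742486) (nat_lit 76) (nat_lit 134569552772) (nat_lit 76) (nat_lit 134569552772) (nat_lit 1) (nat_lit 4) (nat_lit 2) (nat_lit 5) (nat_lit 2) (nat_lit 4) (nat_lit 268) (nat_lit 196) (nat_lit 196)) (XT.lf (nat_lit 0) (nat_lit 419317495373) (nat_lit 76) (nat_lit 307829238650) (nat_lit 76) (nat_lit 307765958077) (nat_lit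 1) (nat_lit 4) (nat_lit 2) (nat_lit 5) (nat_lit 2) (nat_lit 4) (nat_lit 269) (nat_lit 196) (nat_lit 195)))))) (XT.nd (nat_lit 468) (nat_lit 0) (nat_lit 0) (XT.nd (nat_lit 234) (nat_lit 0) (nat_lit 0) (XT.nd (nat_lit 78) (nat_lit 0) (nat_lit 0) (XT.lf (nat_lit 0) (nat_lit 485225065895) (nat_lit 76) (nat_lit 352459536551) (nat_lit 76) (nat_lit 352341229392) (nat_lit 1) (nat_lit 4) (nat_lit 2) (nat_lit 5) (nat_lit 2) (nat_lit 4) (nat_lit 270) (nat_lit 196) (nat_lit 194)) (XT.nd (nat_lit 78) (nat_lit 0) (nat_lit 0) (XT.lf (nat_lit 0) (nat_lit 560775692480) (nat_lit 76) (nat_lit 403903200726) (nat_lit 76) (nat_lit 403737044363) (nat_lit 1) (nat_lit 4) (nat_lit 2) (nat_lit 5) (nat_lit 2) (nat_lit 4) (nat_lit 271) (nat_lit 196) (nat_lit 193)) (XT.lf (nat_lit 0) (nat_lit 647447539562) (nat_lit 76) (nat_lit 463166737648) (nat_lit 76) (nat_lit 462958973281) (nat_lit 1) (nat_lit 4) (nat_lit 2) (nat_lit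 5) (nat_lit 2) (nat_lit 4) (nat_lit 272) (nat_lit 196) (nat_lit 192)))) (XT.nd (nat_lit 78) (nat_lit 0) (nat_lit 0) (XT.lf (nat_lit 0) (nat_lit 746936360672) (nat_lit 76) (nat_lit 531409651301) (nat_lit 76) (nat_lit 531165706061) (nat_lit 1) (nat_lit 4) (nat_lit 2) (nat_lit 5) (nat_lit 2) (nat_lit 4) (nat_lit 273) (nat_lit 196) (nat_lit 191)) (XT.nd (nat_lit 78) (nat_lit 0) (nat_lit 0) (XT.lf (nat_lit 0) (nat_lit 861188676222) (nat_lit 76) (nat_lit 609967129126) (nat_lit 76) (nat_lit 609691722256) (nat_lit 1) (nat_lit 4) (nat_lit 2) (nat_lit 5) (nat_lit 2) (nat_lit 4) (nat_lit 274) (nat_lit 196) (nat_lit 190)) (XT.lf (nat_lit 0) (nat_lit 992439857603) (nat_lit 76) (nat_lit 700376165254) (nat_lit 76) (nat_lit 700073400446) (nat_lit 1) (nat_lit 4) (nat_lit 2) (nat_lit 5) (nat_lit 2) (nat_lit 4) (nat_lit 275) (nat_lit 196) (nat_lit 189))))) (XT.nd (nat_lit 234) (nat_lit 0) (nat_lit 0) (XT.nd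 (nat_lit 78) (nat_lit 0) (nat_lit 0) (XT.lf (nat_lit 0) (nat_lit 1143257862712) (nat_lit 76) (nat_lit 804405632130) (nat_lit 76) (nat_lit 804079077811) (nat_lit 1) (nat_lit 4) (nat_lit 2) (nat_lit 5) (nat_lit 2) (nat_lit 4) (nat_lit 276) (nat_lit 196) (nat_lit 188)) (XT.nd (nat_lit 78) (nat_lit 0) (nat_lit 0) (XT.lf (nat_lit 0) (nat_lit 1316593478606) (nat_lit 76) (nat_lit 924090888891) (nat_lit 76) (nat_lit 923743648040) (nat_lit 1) (nat_lit 4) (nat_lit 2) (nat_lit 5) (nat_lit 2) (nat_lit 4) (nat_lit 277) (nat_lit 196) (nat_lit 187)) (XT.lf (nat_lit 0) (nat_lit 1515838054291) (nat_lit 76) (nat_lit 1061773603601) (nat_lit 76) (nat_lit 1061408374462) (nat_lit 1) (nat_lit 4) (nat_lit 2) (nat_lit 5) (nat_lit 2) (nat_lit 4) (nat_lit 278) (nat_lit 196) (nat_lit 186)))) (XT.nd (nat_lit 156) (nat_lit 0) (nat_lit 0) (XT.nd (nat_lit 78) (nat_lit 0) (nat_lit 0) (XT.lf (nat_lit 0) (nat_lit 1744889853205)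 (nat_lit 76) (nat_lit 1220147568507) (nat_lit 76) (nat_lit 1219766697378) (nat_lit 1) (nat_lit 4) (nat_lit 2) (nat_lit 5) (nat_lit 2) (nat_lit 4) (nat_lit 279) (nat_lit 196) (nat_lit 185)) (XT.lf (nat_lit 0) (nat_lit 2008230323586) (nat_lit 76) (nat_lit 1402311404660) (nat_lit 76) (nat_lit 1401916931801) (nat_lit 1) (nat_lit 4) (nat_lit 2) (nat_lit 5) (nat_lit 2) (nat_lit 4) (nat_lit 280) (nat_lit 196) (nat_lit 184))) (XT.nd (nat_lit 78) (nat_lit 0) (nat_lit 0) (XT.lf (nat_lit 0) (nat_lit 2311011778986) (nat_lit 76) (nat_lit 1611829187116) (nat_lit 76) (nat_lit 1611422886665) (nat_lit 1) (nat_lit 4) (nat_lit 2) (nat_lit 5) (nat_lit 2) (nat_lit 4) (nat_lit 281) (nat_lit 196) (nat_lit 183)) (XT.lf (nat_lit 0) (nat_lit 2659158204402) (nat_lit 76) (nat_lit 1852800176836) (nat_lit 76) (nat_lit 1852383591523) (nat_lit 1) (nat_lit 4) (nat_lit 2) (nat_lit 5) (nat_lit 2) (nat_lit 4) (nat_lit 282)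 (nat_lit 196) (nat_lit 182))))))) (XT.nd (nat_lit 33462) (nat_lit 0) (nat_lit 0) (XT.nd (nat_lit 468) (nat_lit 0) (nat_lit 0) (XT.nd (nat_lit 234) (nat_lit 0) (nat_lit 0) (XT.nd (nat_lit 78) (nat_lit 0) (nat_lit 0) (XT.lf (nat_lit 0) (nat_lit 3059481160332) (nat_lit 76) (nat_lit 2129939023618) (nat_lit 76) (nat_lit 2129513494946) (nat_lit 1) (nat_lit 4) (nat_lit 2) (nat_lit 5) (nat_lit 2) (nat_lit 4) (nat_lit 283) (nat_lit 196) (nat_lit 181)) (XT.nd (nat_lit 78) (nat_lit 0) (nat_lit 0) (XT.lf (nat_lit 0) (nat_lit 3519813052434) (nat_lit 76) (nat_lit 2448668009248) (nat_lit 76) (nat_lit 2448234703742) (nat_lit 1) (nat_lit 4) (nat_lit 2) (nat_lit 5) (nat_lit 2) (nat_lit 4) (nat_lit 284) (nat_lit 196) (nat_lit 180)) (XT.lf (nat_lit 0) (nat_lit 4049160374250) (nat_lit 76) (nat_lit 2815223135617) (nat_lit 76) (nat_lit 2814783067648) (nat_lit 1) (nat_lit 4) (nat_lit 2) (nat_lit 5) (nat_lit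 2) (nat_lit 4) (nat_lit 285) (nat_lit 196) (nat_lit 179)))) (XT.nd (nat_lit 78) (nat_lit 0) (nat_lit 0) (XT.lf (nat_lit 0) (nat_lit 4657879921206) (nat_lit 76) (nat_lit 3236776133461) (nat_lit 76) (nat_lit 3236330185088) (nat_lit 1) (nat_lit 4) (nat_lit 2) (nat_lit 5) (nat_lit 2) (nat_lit 4) (nat_lit 286) (nat_lit 196) (nat_lit 178)) (XT.nd (nat_lit 78) (nat_lit 0) (nat_lit 0) (XT.lf (nat_lit 0) (nat_lit 5357881423570) (nat_lit 76) (nat_lit 3721574778822) (nat_lit 76) (nat_lit 3721123717055) (nat_lit 1) (nat_lit 4) (nat_lit 2) (nat_lit 5) (nat_lit 2) (nat_lit 4) (nat_lit 287) (nat_lit 196) (nat_lit 177)) (XT.lf (nat_lit 0) (nat_lit 6162860562909) (nat_lit 76) (nat_lit 4279104262589) (nat_lit 76) (nat_lit 4278648754393) (nat_lit 1) (nat_lit 4) (nat_lit 2) (nat_lit 5) (nat_lit 2) (nat_lit 4) (nat_lit 288) (nat_lit 196) (nat_lit 176))))) (XT.nd (nat_lit 32760) (nat_lit 0) (nat_lit 0) (XT.nd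 (nat_lit 32604) (nat_lit 0) (nat_lit 0) (XT.lf (nat_lit 0) (nat_lit 7088566931080) (nat_lit 76) (nat_lit 4920272770314) (nat_lit 76) (nat_lit 4919813395657) (nat_lit 1) (nat_lit 4) (nat_lit 2) (nat_lit 5) (nat_lit 2) (nat_lit 4) (nat_lit 289) (nat_lit 196) (nat_lit 175)) (XT.nd (nat_lit 78) (nat_lit 0) (nat_lit 0) (XT.lf (nat_lit 0) (nat_lit 133762637895) (nat_lit 76) (nat_lit 103320770286) (nat_lit 76) (nat_lit 103320770286) (nat_lit 1) (nat_lit 4) (nat_lit 2) (nat_lit 5) (nat_lit 2) (nat_lit 4) (nat_lit 266) (nat_lit 197) (nat_lit 197)) (XT.lf (nat_lit 0) (nat_lit 311436977964) (nat_lit 76) (nat_lit 235704929025) (nat_lit 76) (nat_lit 235632156365) (nat_lit 1) (nat_lit 4) (nat_lit 2) (nat_lit 5) (nat_lit 2) (nat_lit 4) (nat_lit 267) (nat_lit 197) (nat_lit 196)))) (XT.nd (nat_lit 78) (nat_lit 0) (nat_lit 0) (XT.lf (nat_lit 0) (nat_lit 361613962805) (nat_lit 76) (nat_lit 269284967297)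 (nat_lit 76) (nat_lit 269148914064) (nat_lit 1) (nat_lit 4) (nat_lit 2) (nat_lit 5) (nat_lit 2) (nat_lit 4) (nat_lit 268) (nat_lit 197) (nat_lit 195)) (XT.nd (nat_lit 78) (nat_lit 0) (nat_lit 0) (XT.lf (nat_lit 0) (nat_lit 419037953932) (nat_lit 76) (nat_lit 308038656137) (nat_lit 76) (nat_lit 307847576319) (nat_lit 1) (nat_lit 4) (nat_lit 2) (nat_lit 5) (nat_lit 2) (nat_lit 4) (nat_lit 269) (nat_lit 197) (nat_lit 194)) (XT.lf (nat_lit 0) (nat_lit 484832464214) (nat_lit 76) (nat_lit 352724219893) (nat_lit 76) (nat_lit 352485290871) (nat_lit 1) (nat_lit 4) (nat_lit 2) (nat_lit 5) (nat_lit 2) (nat_lit 4) (nat_lit 270) (nat_lit 197) (nat_lit 193)))))) (XT.nd (nat_lit 468) (nat_lit 0) (nat_lit 0) (XT.nd (nat_lit 234) (nat_lit 0) (nat_lit 0) (XT.nd (nat_lit 78) (nat_lit 0) (nat_lit 0) (XT.lf (nat_lit 0) (nat_lit 560284777548) (nat_lit 76) (nat_lit 404215941334) (nat_lit 76) (nat_lit 403935404307)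 (nat_lit 1) (nat_lit 4) (nat_lit 2) (nat_lit 5) (nat_lit 2) (nat_lit 4) (nat_lit 271) (nat_lit 197) (nat_lit 192)) (XT.nd (nat_lit 78) (nat_lit 0) (nat_lit 0) (XT.lf (nat_lit 0) (nat_lit 646871134847) (nat_lit 76) (nat_lit 463521267183) (nat_lit 76) (nat_lit 463204549283) (nat_lit 1) (nat_lit 4) (nat_lit 2) (nat_lit 5) (nat_lit 2) (nat_lit 4) (nat_lit 272) (nat_lit 197) (nat_lit 191)) (XT.lf (nat_lit 0) (nat_lit 746285617014) (nat_lit 76) (nat_lit 531800519033) (nat_lit 76) (nat_lit 531452339504) (nat_lit 1) (nat_lit 4) (nat_lit 2) (nat_lit 5) (nat_lit 2) (nat_lit 4) (nat_lit 273) (nat_lit 197) (nat_lit 190)))) (XT.nd (nat_lit 78) (nat_lit 0) (nat_lit 0) (XT.lf (nat_lit 0) (nat_lit 860473290005) (nat_lit 76) (nat_lit 610389595290) (nat_lit 76) (nat_lit 610014057823) (nat_lit 1) (nat_lit 4) (nat_lit 2) (nat_lit 5) (nat_lit 2) (nat_lit 4) (nat_lit 274) (nat_lit 197) (nat_lit 189)) (XT.nd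 (nat_lit 78) (nat_lit 0) (nat_lit 0) (XT.lf (nat_lit 0) (nat_lit 991668260466) (nat_lit 76) (nat_lit 700826108315) (nat_lit 76) (nat_lit 700426781337) (nat_lit 1) (nat_lit 4) (nat_lit 2) (nat_lit 5) (nat_lit 2) (nat_lit 4) (nat_lit 275) (nat_lit 197) (nat_lit 188)) (XT.lf (nat_lit 0) (nat_lit 1142437386514) (nat_lit 76) (nat_lit 804879468146) (nat_lit 76) (nat_lit 804459454636) (nat_lit 1) (nat_lit 4) (nat_lit 2) (nat_lit 5) (nat_lit 2) (nat_lit 4) (nat_lit 276) (nat_lit 197) (nat_lit 187))))) (XT.nd (nat_lit 234) (nat_lit 0) (nat_lit 0) (XT.nd (nat_lit 78) (nat_lit 0) (nat_lit 0) (XT.lf (nat_lit 0) (nat_lit 1315730498876) (nat_lit 76) (nat_lit 924585501389) (nat_lit 76) (nat_lit 924147499590) (nat_lit 1) (nat_lit 4) (nat_lit 2) (nat_lit 5) (nat_lit 2) (nat_lit 4) (nat_lit 277) (nat_lit 197) (nat_lit 186)) (XT.nd (nat_lit 78) (nat_lit 0) (nat_lit 0) (XT.lf (nat_lit 0) (nat_lit 1514938114968)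 (nat_lit 76) (nat_lit 1062286282606) (nat_lit 76) (nat_lit 1061832638818) (nat_lit 1) (nat_lit 4) (nat_lit 2) (nat_lit 5) (nat_lit 2) (nat_lit 4) (nat_lit 278) (nat_lit 197) (nat_lit 185)) (XT.lf (nat_lit 0) (nat_lit 1743957775106) (nat_lit 76) (nat_lit 1220675957517) (nat_lit 76) (nat_lit 1220208711998) (nat_lit 1) (nat_lit 4) (nat_lit 2) (nat_lit 5) (nat_lit 2) (nat_lit 4) (nat_lit 279) (nat_lit 197) (nat_lit 184)))) (XT.nd (nat_lit 156) (nat_lit 0) (nat_lit 0) (XT.nd (nat_lit 78) (nat_lit 0) (nat_lit 0) (XT.lf (nat_lit 0) (nat_lit 2007270298725) (nat_lit 76) (nat_lit 1402853454544) (nat_lit 76) (nat_lit 1402374381434) (nat_lit 1) (nat_lit 4) (nat_lit 2) (nat_lit 5) (nat_lit 2) (nat_lit 4) (nat_lit 280) (nat_lit 197) (nat_lit 183)) (XT.lf (nat_lit 0) (nat_lit 2310027452593) (nat_lit 76) (nat_lit 1612383116021) (nat_lit 76) (nat_lit 1611893758049) (nat_lit 1) (nat_lit 4) (nat_lit 2)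 (nat_lit 5) (nat_lit 2) (nat_lit 4) (nat_lit 281) (nat_lit 197) (nat_lit 182))) (XT.nd (nat_lit 78) (nat_lit 0) (nat_lit 0) (XT.lf (nat_lit 0) (nat_lit 2658152746242) (nat_lit 76) (nat_lit 1853364435325) (nat_lit 76) (nat_lit 1852866133993) (nat_lit 1) (nat_lit 4) (nat_lit 2) (nat_lit 5) (nat_lit 2) (nat_lit 4) (nat_lit 282) (nat_lit 197) (nat_lit 181)) (XT.lf (nat_lit 0) (nat_lit 3058457326722) (nat_lit 76) (nat_lit 2130512264353) (nat_lit 76) (nat_lit 2130006186189) (nat_lit 1) (nat_lit 4) (nat_lit 2) (nat_lit 5) (nat_lit 2) (nat_lit 4) (nat_lit 283) (nat_lit 197) (nat_lit 180))))))))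
noncomputable def xc3 : XT := (XT.nd (nat_lit 34320) (nat_lit 0) (nat_lit 0) (XT.nd (nat_lit 33306) (nat_lit 0) (nat_lit 0) (XT.nd (nat_lit 32838) (nat_lit 0) (nat_lit 0) (XT.nd (nat_lit 234) (nat_lit 0) (nat_lit 0) (XT.nd (nat_lit 78) (nat_lit 0) (nat_lit 0) (XT.lf (nat_lit 0) (nat_lit 3518773240172) (nat_lit 76) (nat_lit 2449249060632) (nat_lit 76) (nat_lit 2448736220004) (nat_lit 1) (nat_lit 4) (nat_lit 2) (nat_lit 5) (nat_lit 2) (nat_lit 4) (nat_lit 284) (nat_lit 197) (nat_lit 179)) (XT.nd (nat_lit 78) (nat_lit 0) (nat_lit 0) (XT.lf (nat_lit 0) (nat_lit 4048106667508) (nat_lit 76) (nat_lit 2815810978871) (nat_lit 76) (nat_lit 2815292257839) (nat_lit 1) (nat_lit 4) (nat_lit 2) (nat_lit 5) (nat_lit 2) (nat_lit 4) (nat_lit 285) (nat_lit 197) (nat_lit 178)) (XT.lf (nat_lit 0) (nat_lit 4656814132308) (nat_lit 76) (nat_lit 3237369882687) (nat_lit 76) (nat_lit 3236846048261) (nat_lit 1)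 (nat_lit 4) (nat_lit 2) (nat_lit 5) (nat_lit 2) (nat_lit 4) (nat_lit 286) (nat_lit 197) (nat_lit 177)))) (XT.nd (nat_lit 78) (nat_lit 0) (nat_lit 0) (XT.lf (nat_lit 0) (nat_lit 5356805128449) (nat_lit 76) (nat_lit 3722173663677) (nat_lit 76) (nat_lit 3721645382821) (nat_lit 1) (nat_lit 4) (nat_lit 2) (nat_lit 5) (nat_lit 2) (nat_lit 4) (nat_lit 287) (nat_lit 197) (nat_lit 176)) (XT.nd (nat_lit 78) (nat_lit 0) (nat_lit 0) (XT.lf (nat_lit 0) (nat_lit 6161775131942) (nat_lit 76) (nat_lit 4279707613208) (nat_lit 76) (nat_lit 4279175465892) (nat_lit 1) (nat_lit 4) (nat_lit 2) (nat_lit 5) (nat_lit 2) (nat_lit 4) (nat_lit 288) (nat_lit 197) (nat_lit 175)) (XT.lf (nat_lit 0) (nat_lit 7087473555899) (nat_lit 76) (nat_lit 4920880004206) (nat_lit 76) (nat_lit 4920344494750) (nat_lit 1) (nat_lit 4) (nat_lit 2) (nat_lit 5) (nat_lit 2) (nat_lit 4) (nat_lit 289) (nat_lit 197) (nat_lit 174))))) (XT.nd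 (nat_lit 234) (nat_lit 0) (nat_lit 0) (XT.nd (nat_lit 78) (nat_lit 0) (nat_lit 0) (XT.lf (nat_lit 0) (nat_lit 97682333418) (nat_lit 76) (nat_lit 79927229571) (nat_lit 76) (nat_lit 79927229571) (nat_lit 1) (nat_lit 4) (nat_lit 2) (nat_lit 5) (nat_lit 2) (nat_lit 4) (nat_lit 264) (nat_lit 198) (nat_lit 198)) (XT.nd (nat_lit 78) (nat_lit 0) (nat_lit 0) (XT.lf (nat_lit 0) (nat_lit 229019714287) (nat_lit 76) (nat_lit 181609858985) (nat_lit 76) (nat_lit 181526170426) (nat_lit 1) (nat_lit 4) (nat_lit 2) (nat_lit 5) (nat_lit 2) (nat_lit 4) (nat_lit 265) (nat_lit 198) (nat_lit 197)) (XT.lf (nat_lit 0) (nat_lit 267353325299) (nat_lit 76) (nat_lit 206809281588) (nat_lit 76) (nat_lit 206652820371) (nat_lit 1) (nat_lit 4) (nat_lit 2) (nat_lit 5) (nat_lit 2) (nat_lit 4) (nat_lit 266) (nat_lit 198) (nat_lit 196)))) (XT.nd (nat_lit 78) (nat_lit 0) (nat_lit 0) (XT.lf (nat_lit 0) (nat_lit 311115505306)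 (nat_lit 76) (nat_lit 235945759135) (nat_lit 76) (nat_lit 235726017344) (nat_lit 1) (nat_lit 4) (nat_lit 2) (nat_lit 5) (nat_lit 2) (nat_lit 4) (nat_lit 267) (nat_lit 198) (nat_lit 195)) (XT.nd (nat_lit 78) (nat_lit 0) (nat_lit 0) (XT.lf (nat_lit 0) (nat_lit 361162470873) (nat_lit 76) (nat_lit 269589353141) (nat_lit 76) (nat_lit 269314584764) (nat_lit 1) (nat_lit 4) (nat_lit 2) (nat_lit 5) (nat_lit 2) (nat_lit 4) (nat_lit 268) (nat_lit 198) (nat_lit 194)) (XT.lf (nat_lit 0) (nat_lit 418473401761) (nat_lit 76) (nat_lit 308398307837) (nat_lit 76) (nat_lit 308075690256) (nat_lit 1) (nat_lit 4) (nat_lit 2) (nat_lit 5) (nat_lit 2) (nat_lit 4) (nat_lit 269) (nat_lit 198) (nat_lit 193)))))) (XT.nd (nat_lit 468) (nat_lit 0) (nat_lit 0) (XT.nd (nat_lit 234) (nat_lit 0) (nat_lit 0) (XT.nd (nat_lit 78) (nat_lit 0) (nat_lit 0) (XT.lf (nat_lit 0) (nat_lit 484169598792) (nat_lit 76) (nat_lit 353131928858)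 (nat_lit 76) (nat_lit 352767703273) (nat_lit 1) (nat_lit 4) (nat_lit 2) (nat_lit 5) (nat_lit 2) (nat_lit 4) (nat_lit 270) (nat_lit 198) (nat_lit 192)) (XT.nd (nat_lit 78) (nat_lit 0) (nat_lit 0) (XT.lf (nat_lit 0) (nat_lit 559536422342) (nat_lit 76) (nat_lit 404665439226) (nat_lit 76) (nat_lit 404265032768) (nat_lit 1) (nat_lit 4) (nat_lit 2) (nat_lit 5) (nat_lit 2) (nat_lit 4) (nat_lit 271) (nat_lit 198) (nat_lit 191)) (XT.lf (nat_lit 0) (nat_lit 646048440698) (nat_lit 76) (nat_lit 464007103272) (nat_lit 76) (nat_lit 463575235185) (nat_lit 1) (nat_lit 4) (nat_lit 2) (nat_lit 5) (nat_lit 2) (nat_lit 4) (nat_lit 272) (nat_lit 198) (nat_lit 190)))) (XT.nd (nat_lit 78) (nat_lit 0) (nat_lit 0) (XT.lf (nat_lit 0) (nat_lit 745398280307) (nat_lit 76) (nat_lit 532317953554) (nat_lit 76) (nat_lit 531858727529) (nat_lit 1) (nat_lit 4) (nat_lit 2) (nat_lit 5) (nat_lit 2) (nat_lit 4) (nat_lit 273)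 (nat_lit 198) (nat_lit 189)) (XT.nd (nat_lit 78) (nat_lit 0) (nat_lit 0) (XT.lf (nat_lit 0) (nat_lit 859529742377) (nat_lit 76) (nat_lit 610934506709) (nat_lit 76) (nat_lit 610451491172) (nat_lit 1) (nat_lit 4) (nat_lit 2) (nat_lit 5) (nat_lit 2) (nat_lit 4) (nat_lit 274) (nat_lit 198) (nat_lit 188)) (XT.lf (nat_lit 0) (nat_lit 990675833777) (nat_lit 76) (nat_lit 701394912688) (nat_lit 76) (nat_lit 700891210620) (nat_lit 1) (nat_lit 4) (nat_lit 2) (nat_lit 5) (nat_lit 2) (nat_lit 4) (nat_lit 275) (nat_lit 198) (nat_lit 187))))) (XT.nd (nat_lit 234) (nat_lit 0) (nat_lit 0) (XT.nd (nat_lit 78) (nat_lit 0) (nat_lit 0) (XT.lf (nat_lit 0) (nat_lit 1141402456293) (nat_lit 76) (nat_lit 805469049002) (nat_lit 76) (nat_lit 804947358645) (nat_lit 1) (nat_lit 4) (nat_lit 2) (nat_lit 5) (nat_lit 2) (nat_lit 4) (nat_lit 276) (nat_lit 198) (nat_lit 186)) (XT.nd (nat_lit 78) (nat_lit 0) (nat_lit 0)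 (XT.lf (nat_lit 0) (nat_lit 1314658609062) (nat_lit 76) (nat_lit 925193148750) (nat_lit 76) (nat_lit 924655816404) (nat_lit 1) (nat_lit 4) (nat_lit 2) (nat_lit 5) (nat_lit 2) (nat_lit 4) (nat_lit 277) (nat_lit 198) (nat_lit 185)) (XT.lf (nat_lit 0) (nat_lit 1513834086378) (nat_lit 76) (nat_lit 1062909639973) (nat_lit 76) (nat_lit 1062358705896) (nat_lit 1) (nat_lit 4) (nat_lit 2) (nat_lit 5) (nat_lit 2) (nat_lit 4) (nat_lit 278) (nat_lit 198) (nat_lit 184)))) (XT.nd (nat_lit 156) (nat_lit 0) (nat_lit 0) (XT.nd (nat_lit 78) (nat_lit 0) (nat_lit 0) (XT.lf (nat_lit 0) (nat_lit 1742825799753) (nat_lit 76) (nat_lit 1221312975758) (nat_lit 76) (nat_lit 1220750214090) (nat_lit 1) (nat_lit 4) (nat_lit 2) (nat_lit 5) (nat_lit 2) (nat_lit 4) (nat_lit 279) (nat_lit 198) (nat_lit 183)) (XT.lf (nat_lit 0) (nat_lit 2006114021841) (nat_lit 76) (nat_lit 1403502351807) (nat_lit 76) (nat_lit 1402929305276)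 (nat_lit 1) (nat_lit 4) (nat_lit 2) (nat_lit 5) (nat_lit 2) (nat_lit 4) (nat_lit 280) (nat_lit 198) (nat_lit 182))) (XT.nd (nat_lit 78) (nat_lit 0) (nat_lit 0) (XT.lf (nat_lit 0) (nat_lit 2308850043942) (nat_lit 76) (nat_lit 1613042342867) (nat_lit 76) (nat_lit 1612460352978) (nat_lit 1) (nat_lit 4) (nat_lit 2) (nat_lit 5) (nat_lit 2) (nat_lit 4) (nat_lit 281) (nat_lit 198) (nat_lit 181)) (XT.lf (nat_lit 0) (nat_lit 2656956962141) (nat_lit 76) (nat_lit 1854032644417) (nat_lit 76) (nat_lit 1853442877694) (nat_lit 1) (nat_lit 4) (nat_lit 2) (nat_lit 5) (nat_lit 2) (nat_lit 4) (nat_lit 282) (nat_lit 198) (nat_lit 180))))))) (XT.nd (nat_lit 33228) (nat_lit 0) (nat_lit 0) (XT.nd (nat_lit 468) (nat_lit 0) (nat_lit 0) (XT.nd (nat_lit 234) (nat_lit 0) (nat_lit 0) (XT.nd (nat_lit 78) (nat_lit 0) (nat_lit 0) (XT.lf (nat_lit 0) (nat_lit 3057245563969) (nat_lit 76) (nat_lit 2131188284095) (nat_lit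 76) (nat_lit 2130591754908) (nat_lit 1) (nat_lit 4) (nat_lit 2) (nat_lit 5) (nat_lit 2) (nat_lit 4) (nat_lit 283) (nat_lit 198) (nat_lit 179)) (XT.nd (nat_lit 78) (nat_lit 0) (nat_lit 0) (XT.lf (nat_lit 0) (nat_lit 3517547582940) (nat_lit 76) (nat_lit 2449931872242) (nat_lit 76) (nat_lit 2449329462652) (nat_lit 1) (nat_lit 4) (nat_lit 2) (nat_lit 5) (nat_lit 2) (nat_lit 4) (nat_lit 284) (nat_lit 198) (nat_lit 178)) (XT.lf (nat_lit 0) (nat_lit 4046868928119) (nat_lit 76) (nat_lit 2816499696454) (nat_lit 76) (nat_lit 2815892173469) (nat_lit 1) (nat_lit 4) (nat_lit 2) (nat_lit 5) (nat_lit 2) (nat_lit 4) (nat_lit 285) (nat_lit 198) (nat_lit 177)))) (XT.nd (nat_lit 78) (nat_lit 0) (nat_lit 0) (XT.lf (nat_lit 0) (nat_lit 4655565886696) (nat_lit 76) (nat_lit 3238063735899) (nat_lit 76) (nat_lit 3237451766485) (nat_lit 1) (nat_lit 4) (nat_lit 2) (nat_lit 5) (nat_lit 2) (nat_lit 4) (nat_lit 286)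 (nat_lit 198) (nat_lit 176)) (XT.nd (nat_lit 78) (nat_lit 0) (nat_lit 0) (XT.lf (nat_lit 0) (nat_lit 5355547746991) (nat_lit 76) (nat_lit 3722871982653) (nat_lit 76) (nat_lit 3722256146778) (nat_lit 1) (nat_lit 4) (nat_lit 2) (nat_lit 5) (nat_lit 2) (nat_lit 4) (nat_lit 287) (nat_lit 198) (nat_lit 175)) (XT.lf (nat_lit 0) (nat_lit 6160509806270) (nat_lit 76) (nat_lit 4280409815457) (nat_lit 76) (nat_lit 4279790617443) (nat_lit 1) (nat_lit 4) (nat_lit 2) (nat_lit 5) (nat_lit 2) (nat_lit 4) (nat_lit 288) (nat_lit 198) (nat_lit 174))))) (XT.nd (nat_lit 32448) (nat_lit 0) (nat_lit 0) (XT.nd (nat_lit 32292) (nat_lit 0) (nat_lit 0) (XT.lf (nat_lit 0) (nat_lit 7086201322215) (nat_lit 76) (nat_lit 4921585583214) (nat_lit 76) (nat_lit 4920963461600) (nat_lit 1) (nat_lit 4) (nat_lit 2) (nat_lit 5) (nat_lit 2) (nat_lit 4) (nat_lit 289) (nat_lit 198) (nat_lit 173)) (XT.nd (nat_lit 78) (nat_lit 0)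 (nat_lit 0) (XT.lf (nat_lit 0) (nat_lit 69881223951) (nat_lit 76) (nat_lit 62508634416) (nat_lit 76) (nat_lit 62508634416) (nat_lit 1) (nat_lit 4) (nat_lit 2) (nat_lit 5) (nat_lit 2) (nat_lit 4) (nat_lit 262) (nat_lit 199) (nat_lit 199)) (XT.lf (nat_lit 0) (nat_lit 165729714628) (nat_lit 76) (nat_lit 141213674774) (nat_lit 76) (nat_lit 141117432933) (nat_lit 1) (nat_lit 4) (nat_lit 2) (nat_lit 5) (nat_lit 2) (nat_lit 4) (nat_lit 263) (nat_lit 199) (nat_lit 198)))) (XT.nd (nat_lit 156) (nat_lit 0) (nat_lit 0) (XT.nd (nat_lit 78) (nat_lit 0) (nat_lit 0) (XT.lf (nat_lit 0) (nat_lit 195166923771) (nat_lit 76) (nat_lit 160047361310) (nat_lit 76) (nat_lit 159867430910) (nat_lit 1) (nat_lit 4) (nat_lit 2) (nat_lit 5) (nat_lit 2) (nat_lit 4) (nat_lit 264) (nat_lit 199) (nat_lit 197)) (XT.lf (nat_lit 0) (nat_lit 228650020731) (nat_lit 76) (nat_lit 181886813611) (nat_lit 76) (nat_lit 181634110552)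 (nat_lit 1) (nat_lit 4) (nat_lit 2) (nat_lit 5) (nat_lit 2) (nat_lit 4) (nat_lit 265) (nat_lit 199) (nat_lit 196))) (XT.nd (nat_lit 78) (nat_lit 0) (nat_lit 0) (XT.lf (nat_lit 0) (nat_lit 266834109577) (nat_lit 76) (nat_lit 207159325309) (nat_lit 76) (nat_lit 206843341676) (nat_lit 1) (nat_lit 4) (nat_lit 2) (nat_lit 5) (nat_lit 2) (nat_lit 4) (nat_lit 266) (nat_lit 199) (nat_lit 195)) (XT.lf (nat_lit 0) (nat_lit 310466270309) (nat_lit 76) (nat_lit 236359358589) (nat_lit 76) (nat_lit 235988348371) (nat_lit 1) (nat_lit 4) (nat_lit 2) (nat_lit 5) (nat_lit 2) (nat_lit 4) (nat_lit 267) (nat_lit 199) (nat_lit 194)))))) (XT.nd (nat_lit 468) (nat_lit 0) (nat_lit 0) (XT.nd (nat_lit 234) (nat_lit 0) (nat_lit 0) (XT.nd (nat_lit 78) (nat_lit 0) (nat_lit 0) (XT.lf (nat_lit 0) (nat_lit 360400175637) (nat_lit 76) (nat_lit 270058218450) (nat_lit 76) (nat_lit 269639359028) (nat_lit 1) (nat_lit 4) (nat_lit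 2) (nat_lit 5) (nat_lit 2) (nat_lit 4) (nat_lit 268) (nat_lit 199) (nat_lit 193)) (XT.nd (nat_lit 78) (nat_lit 0) (nat_lit 0) (XT.lf (nat_lit 0) (nat_lit 417612793274) (nat_lit 76) (nat_lit 308915230412) (nat_lit 76) (nat_lit 308454762985) (nat_lit 1) (nat_lit 4) (nat_lit 2) (nat_lit 5) (nat_lit 2) (nat_lit 4) (nat_lit 269) (nat_lit 199) (nat_lit 192)) (XT.lf (nat_lit 0) (nat_lit 483223500520) (nat_lit 76) (nat_lit 353690640360) (nat_lit 76) (nat_lit 353193992060) (nat_lit 1) (nat_lit 4) (nat_lit 2) (nat_lit 5) (nat_lit 2) (nat_lit 4) (nat_lit 270) (nat_lit 199) (nat_lit 191)))) (XT.nd (nat_lit 78) (nat_lit 0) (nat_lit 0) (XT.lf (nat_lit 0) (nat_lit 558515985128) (nat_lit 76) (nat_lit 405260488925) (nat_lit 76) (nat_lit 404732378996) (nat_lit 1) (nat_lit 4) (nat_lit 2) (nat_lit 5) (nat_lit 2) (nat_lit 4) (nat_lit 271) (nat_lit 199) (nat_lit 190)) (XT.nd (nat_lit 78) (nat_lit 0) (nat_lit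 0) (XT.lf (nat_lit 0) (nat_lit 644963360926) (nat_lit 76) (nat_lit 464633751403) (nat_lit 76) (nat_lit 464078283536) (nat_lit 1) (nat_lit 4) (nat_lit 2) (nat_lit 5) (nat_lit 2) (nat_lit 4) (nat_lit 272) (nat_lit 199) (nat_lit 189)) (XT.lf (nat_lit 0) (nat_lit 744256989614) (nat_lit 76) (nat_lit 532972078583) (nat_lit 76) (nat_lit 532392821205) (nat_lit 1) (nat_lit 4) (nat_lit 2) (nat_lit 5) (nat_lit 2) (nat_lit 4) (nat_lit 273) (nat_lit 199) (nat_lit 188))))) (XT.nd (nat_lit 234) (nat_lit 0) (nat_lit 0) (XT.nd (nat_lit 78) (nat_lit 0) (nat_lit 0) (XT.lf (nat_lit 0) (nat_lit 858339572623) (nat_lit 76) (nat_lit 611612524692) (nat_lit 76) (nat_lit 611012580782) (nat_lit 1) (nat_lit 4) (nat_lit 2) (nat_lit 5) (nat_lit 2) (nat_lit 4) (nat_lit 274) (nat_lit 199) (nat_lit 187)) (XT.nd (nat_lit 78) (nat_lit 0) (nat_lit 0) (XT.lf (nat_lit 0) (nat_lit 989443160491) (nat_lit 76) (nat_lit 702093707154)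 (nat_lit 76) (nat_lit 701475774955) (nat_lit 1) (nat_lit 4) (nat_lit 2) (nat_lit 5) (nat_lit 2) (nat_lit 4) (nat_lit 275) (nat_lit 199) (nat_lit 186)) (XT.lf (nat_lit 0) (nat_lit 1140132823414) (nat_lit 76) (nat_lit 806185909973) (nat_lit 76) (nat_lit 805552335785) (nat_lit 1) (nat_lit 4) (nat_lit 2) (nat_lit 5) (nat_lit 2) (nat_lit 4) (nat_lit 276) (nat_lit 199) (nat_lit 185)))) (XT.nd (nat_lit 156) (nat_lit 0) (nat_lit 0) (XT.nd (nat_lit 78) (nat_lit 0) (nat_lit 0) (XT.lf (nat_lit 0) (nat_lit 1313356837408) (nat_lit 76) (nat_lit 925925719727) (nat_lit 76) (nat_lit 925278543808) (nat_lit 1) (nat_lit 4) (nat_lit 2) (nat_lit 5) (nat_lit 2) (nat_lit 4) (nat_lit 277) (nat_lit 199) (nat_lit 184)) (XT.lf (nat_lit 0) (nat_lit 1512504367962) (nat_lit 76) (nat_lit 1063655871824) (nat_lit 76) (nat_lit 1062996868314) (nat_lit 1) (nat_lit 4) (nat_lit 2) (nat_lit 5) (nat_lit 2) (nat_lit 4) (nat_lit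 278) (nat_lit 199) (nat_lit 183))) (XT.nd (nat_lit 78) (nat_lit 0) (nat_lit 0) (XT.lf (nat_lit 0) (nat_lit 1741471779804) (nat_lit 76) (nat_lit 1222071086630) (nat_lit 76) (nat_lit 1221401798258) (nat_lit 1) (nat_lit 4) (nat_lit 2) (nat_lit 5) (nat_lit 2) (nat_lit 4) (nat_lit 279) (nat_lit 199) (nat_lit 182)) (XT.lf (nat_lit 0) (nat_lit 2004738870125) (nat_lit 76) (nat_lit 1404270792262) (nat_lit 76) (nat_lit 1403592560531) (nat_lit 1) (nat_lit 4) (nat_lit 2) (nat_lit 5) (nat_lit 2) (nat_lit 4) (nat_lit 280) (nat_lit 199) (nat_lit 181))))))))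
noncomputable def xc4 : XT := (XT.nd (nat_lit 34008) (nat_lit 0) (nat_lit 0) (XT.nd (nat_lit 32994) (nat_lit 0) (nat_lit 0) (XT.nd (nat_lit 468) (nat_lit 0) (nat_lit 0) (XT.nd (nat_lit 234) (nat_lit 0) (nat_lit 0) (XT.nd (nat_lit 78) (nat_lit 0) (nat_lit 0) (XT.lf (nat_lit 0) (nat_lit 2307456516776) (nat_lit 76) (nat_lit 1613819765570) (nat_lit 76) (nat_lit 1613133757005) (nat_lit 1) (nat_lit 4) (nat_lit 2) (nat_lit 5) (nat_lit 2) (nat_lit 4) (nat_lit 281) (nat_lit 199) (nat_lit 180)) (XT.nd (nat_lit 78) (nat_lit 0) (nat_lit 0) (XT.lf (nat_lit 0) (nat_lit 2655547456324) (nat_lit 76) (nat_lit 1854817877768) (nat_lit 76) (nat_lit 1854125106740) (nat_lit 1) (nat_lit 4) (nat_lit 2) (nat_lit 5) (nat_lit 2) (nat_lit 4) (nat_lit 282) (nat_lit 199) (nat_lit 179)) (XT.lf (nat_lit 0) (nat_lit 3055822163672) (nat_lit 76) (nat_lit 2131980309315) (nat_lit 76) (nat_lit 2131281657883) (nat_lit 1) (nat_lit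 4) (nat_lit 2) (nat_lit 5) (nat_lit 2) (nat_lit 4) (nat_lit 283) (nat_lit 199) (nat_lit 178)))) (XT.nd (nat_lit 78) (nat_lit 0) (nat_lit 0) (XT.lf (nat_lit 0) (nat_lit 3516112100486) (nat_lit 76) (nat_lit 2450729803436) (nat_lit 76) (nat_lit 2450026038610) (nat_lit 1) (nat_lit 4) (nat_lit 2) (nat_lit 5) (nat_lit 2) (nat_lit 4) (nat_lit 284) (nat_lit 199) (nat_lit 177)) (XT.nd (nat_lit 78) (nat_lit 0) (nat_lit 0) (XT.lf (nat_lit 0) (nat_lit 4045422939442) (nat_lit 76) (nat_lit 2817302763276) (nat_lit 76) (nat_lit 2816594552020) (nat_lit 1) (nat_lit 4) (nat_lit 2) (nat_lit 5) (nat_lit 2) (nat_lit 4) (nat_lit 285) (nat_lit 199) (nat_lit 176)) (XT.lf (nat_lit 0) (nat_lit 4654110762173) (nat_lit 76) (nat_lit 3238871268485) (nat_lit 76) (nat_lit 3238159190768) (nat_lit 1) (nat_lit 4) (nat_lit 2) (nat_lit 5) (nat_lit 2) (nat_lit 4) (nat_lit 286) (nat_lit 199) (nat_lit 175))))) (XT.nd (nat_lit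 32292) (nat_lit 0) (nat_lit 0) (XT.nd (nat_lit 78) (nat_lit 0) (nat_lit 0) (XT.lf (nat_lit 0) (nat_lit 5354084678254) (nat_lit 76) (nat_lit 3723683398512) (nat_lit 76) (nat_lit 3722967958656) (nat_lit 1) (nat_lit 4) (nat_lit 2) (nat_lit 5) (nat_lit 2) (nat_lit 4) (nat_lit 287) (nat_lit 199) (nat_lit 174)) (XT.nd (nat_lit 78) (nat_lit 0) (nat_lit 0) (XT.lf (nat_lit 0) (nat_lit 6159039829521) (nat_lit 76) (nat_lit 4281224608076) (nat_lit 76) (nat_lit 4280506244620) (nat_lit 1) (nat_lit 4) (nat_lit 2) (nat_lit 5) (nat_lit 2) (nat_lit 4) (nat_lit 288) (nat_lit 199) (nat_lit 173)) (XT.lf (nat_lit 0) (nat_lit 7084725338499) (nat_lit 76) (nat_lit 4922403312145) (nat_lit 76) (nat_lit 4921682406429) (nat_lit 1) (nat_lit 4) (nat_lit 2) (nat_lit 5) (nat_lit 2) (nat_lit 4) (nat_lit 289) (nat_lit 199) (nat_lit 172)))) (XT.nd (nat_lit 78) (nat_lit 0) (nat_lit 0) (XT.lf (nat_lit 0) (nat_lit 48262493004)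 (nat_lit 76) (nat_lit 49648498886) (nat_lit 76) (nat_lit 49648498886) (nat_lit 1) (nat_lit 4) (nat_lit 2) (nat_lit 5) (nat_lit 2) (nat_lit 4) (nat_lit 260) (nat_lit 200) (nat_lit 200)) (XT.nd (nat_lit 78) (nat_lit 0) (nat_lit 0) (XT.lf (nat_lit 0) (nat_lit 116757068379) (nat_lit 76) (nat_lit 111251935399) (nat_lit 76) (nat_lit 111141257281) (nat_lit 1) (nat_lit 4) (nat_lit 2) (nat_lit 5) (nat_lit 2) (nat_lit 4) (nat_lit 261) (nat_lit 200) (nat_lit 199)) (XT.lf (nat_lit 0) (nat_lit 139535043379) (nat_lit 76) (nat_lit 125239106326) (nat_lit 76) (nat_lit 125032186366) (nat_lit 1) (nat_lit 4) (nat_lit 2) (nat_lit 5) (nat_lit 2) (nat_lit 4) (nat_lit 262) (nat_lit 200) (nat_lit 198)))))) (XT.nd (nat_lit 468) (nat_lit 0) (nat_lit 0) (XT.nd (nat_lit 234) (nat_lit 0) (nat_lit 0) (XT.nd (nat_lit 78) (nat_lit 0) (nat_lit 0) (XT.lf (nat_lit 0) (nat_lit 165304567038) (nat_lit 76) (nat_lit 141532172595)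 (nat_lit 76) (nat_lit 141241564077) (nat_lit 1) (nat_lit 4) (nat_lit 2) (nat_lit 5) (nat_lit 2) (nat_lit 4) (nat_lit 263) (nat_lit 200) (nat_lit 197)) (XT.nd (nat_lit 78) (nat_lit 0) (nat_lit 0) (XT.lf (nat_lit 0) (nat_lit 194569825691) (nat_lit 76) (nat_lit 160449911589) (nat_lit 76) (nat_lit 160086530411) (nat_lit 1) (nat_lit 4) (nat_lit 2) (nat_lit 5) (nat_lit 2) (nat_lit 4) (nat_lit 264) (nat_lit 200) (nat_lit 196)) (XT.lf (nat_lit 0) (nat_lit 227903400484) (nat_lit 76) (nat_lit 182362452983) (nat_lit 76) (nat_lit 181935791233) (nat_lit 1) (nat_lit 4) (nat_lit 2) (nat_lit 5) (nat_lit 2) (nat_lit 4) (nat_lit 265) (nat_lit 200) (nat_lit 195)))) (XT.nd (nat_lit 78) (nat_lit 0) (nat_lit 0) (XT.lf (nat_lit 0) (nat_lit 265957470056) (nat_lit 76) (nat_lit 207698520415) (nat_lit 76) (nat_lit 207216832079) (nat_lit 1) (nat_lit 4) (nat_lit 2) (nat_lit 5) (nat_lit 2) (nat_lit 4) (nat_lit 266)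 (nat_lit 200) (nat_lit 194)) (XT.nd (nat_lit 78) (nat_lit 0) (nat_lit 0) (XT.lf (nat_lit 0) (nat_lit 309476570549) (nat_lit 76) (nat_lit 236953819551) (nat_lit 76) (nat_lit 236424282010) (nat_lit 1) (nat_lit 4) (nat_lit 2) (nat_lit 5) (nat_lit 2) (nat_lit 4) (nat_lit 267) (nat_lit 200) (nat_lit 193)) (XT.lf (nat_lit 0) (nat_lit 359312162625) (nat_lit 76) (nat_lit 270700736678) (nat_lit 76) (nat_lit 270129591133) (nat_lit 1) (nat_lit 4) (nat_lit 2) (nat_lit 5) (nat_lit 2) (nat_lit 4) (nat_lit 268) (nat_lit 200) (nat_lit 192))))) (XT.nd (nat_lit 234) (nat_lit 0) (nat_lit 0) (XT.nd (nat_lit 78) (nat_lit 0) (nat_lit 0) (XT.lf (nat_lit 0) (nat_lit 416439290478) (nat_lit 76) (nat_lit 309599537566) (nat_lit 76) (nat_lit 308992211148) (nat_lit 1) (nat_lit 4) (nat_lit 2) (nat_lit 5) (nat_lit 2) (nat_lit 4) (nat_lit 269) (nat_lit 200) (nat_lit 191)) (XT.nd (nat_lit 78) (nat_lit 0) (nat_lit 0) (XT.lf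 (nat_lit 0) (nat_lit 481975658782) (nat_lit 76) (nat_lit 354411285711) (nat_lit 76) (nat_lit 353772497664) (nat_lit 1) (nat_lit 4) (nat_lit 2) (nat_lit 5) (nat_lit 2) (nat_lit 4) (nat_lit 270) (nat_lit 200) (nat_lit 190)) (XT.lf (nat_lit 0) (nat_lit 557203500831) (nat_lit 76) (nat_lit 406012732708) (nat_lit 76) (nat_lit 405346586723) (nat_lit 1) (nat_lit 4) (nat_lit 2) (nat_lit 5) (nat_lit 2) (nat_lit 4) (nat_lit 271) (nat_lit 200) (nat_lit 189)))) (XT.nd (nat_lit 156) (nat_lit 0) (nat_lit 0) (XT.nd (nat_lit 78) (nat_lit 0) (nat_lit 0) (XT.lf (nat_lit 0) (nat_lit 643594665708) (nat_lit 76) (nat_lit 465413472084) (nat_lit 76) (nat_lit 464723536587) (nat_lit 1) (nat_lit 4) (nat_lit 2) (nat_lit 5) (nat_lit 2) (nat_lit 4) (nat_lit 272) (nat_lit 200) (nat_lit 188)) (XT.lf (nat_lit 0) (nat_lit 742839415335) (nat_lit 76) (nat_lit 533775692218) (nat_lit 76) (nat_lit 533065070190) (nat_lit 1)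 (nat_lit 4) (nat_lit 2) (nat_lit 5) (nat_lit 2) (nat_lit 4) (nat_lit 273) (nat_lit 200) (nat_lit 187))) (XT.nd (nat_lit 78) (nat_lit 0) (nat_lit 0) (XT.lf (nat_lit 0) (nat_lit 856879494813) (nat_lit 76) (nat_lit 612436914809) (nat_lit 76) (nat_lit 611708304493) (nat_lit 1) (nat_lit 4) (nat_lit 2) (nat_lit 5) (nat_lit 2) (nat_lit 4) (nat_lit 274) (nat_lit 200) (nat_lit 186)) (XT.lf (nat_lit 0) (nat_lit 987946123088) (nat_lit 76) (nat_lit 702936163777) (nat_lit 76) (nat_lit 702191911471) (nat_lit 1) (nat_lit 4) (nat_lit 2) (nat_lit 5) (nat_lit 2) (nat_lit 4) (nat_lit 275) (nat_lit 200) (nat_lit 185))))))) (XT.nd (nat_lit 936) (nat_lit 0) (nat_lit 0) (XT.nd (nat_lit 468) (nat_lit 0) (nat_lit 0) (XT.nd (nat_lit 234) (nat_lit 0) (nat_lit 0) (XT.nd (nat_lit 78) (nat_lit 0) (nat_lit 0) (XT.lf (nat_lit 0) (nat_lit 1138603647235) (nat_lit 76) (nat_lit 807044076602) (nat_lit 76) (nat_lit 806286222565)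 (nat_lit 1) (nat_lit 4) (nat_lit 2) (nat_lit 5) (nat_lit 2) (nat_lit 4) (nat_lit 276) (nat_lit 200) (nat_lit 184)) (XT.nd (nat_lit 78) (nat_lit 0) (nat_lit 0) (XT.lf (nat_lit 0) (nat_lit 1311799714466) (nat_lit 76) (nat_lit 926797547230) (nat_lit 76) (nat_lit 926027865602) (nat_lit 1) (nat_lit 4) (nat_lit 2) (nat_lit 5) (nat_lit 2) (nat_lit 4) (nat_lit 277) (nat_lit 200) (nat_lit 183)) (XT.lf (nat_lit 0) (nat_lit 1510922943488) (nat_lit 76) (nat_lit 1064539578348) (nat_lit 76) (nat_lit 1063759611857) (nat_lit 1) (nat_lit 4) (nat_lit 2) (nat_lit 5) (nat_lit 2) (nat_lit 4) (nat_lit 278) (nat_lit 200) (nat_lit 182)))) (XT.nd (nat_lit 78) (nat_lit 0) (nat_lit 0) (XT.lf (nat_lit 0) (nat_lit 1739869223564) (nat_lit 76) (nat_lit 1222965122738) (nat_lit 76) (nat_lit 1222176212889) (nat_lit 1) (nat_lit 4) (nat_lit 2) (nat_lit 5) (nat_lit 2) (nat_lit 4) (nat_lit 279) (nat_lit 200) (nat_lit 181))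 (XT.nd (nat_lit 78) (nat_lit 0) (nat_lit 0) (XT.lf (nat_lit 0) (nat_lit 2003117938434) (nat_lit 76) (nat_lit 1405173810617) (nat_lit 76) (nat_lit 1404377123934) (nat_lit 1) (nat_lit 4) (nat_lit 2) (nat_lit 5) (nat_lit 2) (nat_lit 4) (nat_lit 280) (nat_lit 200) (nat_lit 180)) (XT.lf (nat_lit 0) (nat_lit 2305819606434) (nat_lit 76) (nat_lit 1614730594573) (nat_lit 76) (nat_lit 1613927145427) (nat_lit 1) (nat_lit 4) (nat_lit 2) (nat_lit 5) (nat_lit 2) (nat_lit 4) (nat_lit 281) (nat_lit 200) (nat_lit 179))))) (XT.nd (nat_lit 234) (nat_lit 0) (nat_lit 0) (XT.nd (nat_lit 78) (nat_lit 0) (nat_lit 0) (XT.lf (nat_lit 0) (nat_lit 2653896651502) (nat_lit 76) (nat_lit 1855735498641) (nat_lit 76) (nat_lit 1854926169091) (nat_lit 1) (nat_lit 4) (nat_lit 2) (nat_lit 5) (nat_lit 2) (nat_lit 4) (nat_lit 282) (nat_lit 200) (nat_lit 178)) (XT.nd (nat_lit 78) (nat_lit 0) (nat_lit 0) (XT.lf (nat_lit 0) (nat_lit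 3054159276693) (nat_lit 76) (nat_lit 2132903836161) (nat_lit 76) (nat_lit 2132089393216) (nat_lit 1) (nat_lit 4) (nat_lit 2) (nat_lit 5) (nat_lit 2) (nat_lit 4) (nat_lit 283) (nat_lit 200) (nat_lit 177)) (XT.lf (nat_lit 0) (nat_lit 3514438707284) (nat_lit 76) (nat_lit 2451658465910) (nat_lit 76) (nat_lit 2450839576536) (nat_lit 1) (nat_lit 4) (nat_lit 2) (nat_lit 5) (nat_lit 2) (nat_lit 4) (nat_lit 284) (nat_lit 200) (nat_lit 176)))) (XT.nd (nat_lit 78) (nat_lit 0) (nat_lit 0) (XT.lf (nat_lit 0) (nat_lit 4043740410395) (nat_lit 76) (nat_lit 2818235891514) (nat_lit 76) (nat_lit 2817413135679) (nat_lit 1) (nat_lit 4) (nat_lit 2) (nat_lit 5) (nat_lit 2) (nat_lit 4) (nat_lit 285) (nat_lit 200) (nat_lit 175)) (XT.nd (nat_lit 78) (nat_lit 0) (nat_lit 0) (XT.lf (nat_lit 0) (nat_lit 4652420288912) (nat_lit 76) (nat_lit 3239808279996) (nat_lit 76) (nat_lit 3238982162021) (nat_lit 1) (nat_lit 4)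 (nat_lit 2) (nat_lit 5) (nat_lit 2) (nat_lit 4) (nat_lit 286) (nat_lit 200) (nat_lit 174)) (XT.lf (nat_lit 0) (nat_lit 5352387296981) (nat_lit 76) (nat_lit 3724623786782) (nat_lit 76) (nat_lit 3723794745208) (nat_lit 1) (nat_lit 4) (nat_lit 2) (nat_lit 5) (nat_lit 2) (nat_lit 4) (nat_lit 287) (nat_lit 200) (nat_lit 173)))))) (XT.nd (nat_lit 32370) (nat_lit 0) (nat_lit 0) (XT.nd (nat_lit 32136) (nat_lit 0) (nat_lit 0) (XT.nd (nat_lit 78) (nat_lit 0) (nat_lit 0) (XT.lf (nat_lit 0) (nat_lit 6157336441280) (nat_lit 76) (nat_lit 4282167932658) (nat_lit 76) (nat_lit 4281336348823) (nat_lit 1) (nat_lit 4) (nat_lit 2) (nat_lit 5) (nat_lit 2) (nat_lit 4) (nat_lit 288) (nat_lit 200) (nat_lit 172)) (XT.nd (nat_lit 31980) (nat_lit 0) (nat_lit 0) (XT.lf (nat_lit 0) (nat_lit 7083016726808) (nat_lit 76) (nat_lit 4923349190043) (nat_lit 76) (nat_lit 4922515395547) (nat_lit 1) (nat_lit 4) (nat_lit 2)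 (nat_lit 5) (nat_lit 2) (nat_lit 4) (nat_lit 289) (nat_lit 200) (nat_lit 171)) (XT.lf (nat_lit 0) (nat_lit 31228963711) (nat_lit 76) (nat_lit 40281837468) (nat_lit 76) (nat_lit 40281837468) (nat_lit 1) (nat_lit 4) (nat_lit 2) (nat_lit 5) (nat_lit 2) (nat_lit 4) (nat_lit 258) (nat_lit 201) (nat_lit 201)))) (XT.nd (nat_lit 78) (nat_lit 0) (nat_lit 0) (XT.lf (nat_lit 0) (nat_lit 78442951175) (nat_lit 76) (nat_lit 89267672331) (nat_lit 76) (nat_lit 89140392495) (nat_lit 1) (nat_lit 4) (nat_lit 2) (nat_lit 5) (nat_lit 2) (nat_lit 4) (nat_lit 259) (nat_lit 201) (nat_lit 200)) (XT.nd (nat_lit 78) (nat_lit 0) (nat_lit 0) (XT.lf (nat_lit 0) (nat_lit 96263470805) (nat_lit 76) (nat_lit 99552110891) (nat_lit 76) (nat_lit 99314152937) (nat_lit 1) (nat_lit 4) (nat_lit 2) (nat_lit 5) (nat_lit 2) (nat_lit 4) (nat_lit 260) (nat_lit 201) (nat_lit 199)) (XT.lf (nat_lit 0) (nat_lit 116268148652) (nat_lit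 76) (nat_lit 111618207892) (nat_lit 76) (nat_lit 111284008096) (nat_lit 1) (nat_lit 4) (nat_lit 2) (nat_lit 5) (nat_lit 2) (nat_lit 4) (nat_lit 261) (nat_lit 201) (nat_lit 198))))) (XT.nd (nat_lit 234) (nat_lit 0) (nat_lit 0) (XT.nd (nat_lit 78) (nat_lit 0) (nat_lit 0) (XT.lf (nat_lit 0) (nat_lit 138848380586) (nat_lit 76) (nat_lit 125702039146) (nat_lit 76) (nat_lit 125284150792) (nat_lit 1) (nat_lit 4) (nat_lit 2) (nat_lit 5) (nat_lit 2) (nat_lit 4) (nat_lit 262) (nat_lit 201) (nat_lit 197)) (XT.nd (nat_lit 78) (nat_lit 0) (nat_lit 0) (XT.lf (nat_lit 0) (nat_lit 164445953755) (nat_lit 76) (nat_lit 142079157873) (nat_lit 76) (nat_lit 141588496860) (nat_lit 1) (nat_lit 4) (nat_lit 2) (nat_lit 5) (nat_lit 2) (nat_lit 4) (nat_lit 263) (nat_lit 201) (nat_lit 196)) (XT.lf (nat_lit 0) (nat_lit 193561690241) (nat_lit 76) (nat_lit 161069985961) (nat_lit 76) (nat_lit 160516044374) (nat_lit 1)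 (nat_lit 4) (nat_lit 2) (nat_lit 5) (nat_lit 2) (nat_lit 4) (nat_lit 264) (nat_lit 201) (nat_lit 195)))) (XT.nd (nat_lit 156) (nat_lit 0) (nat_lit 0) (XT.nd (nat_lit 78) (nat_lit 0) (nat_lit 0) (XT.lf (nat_lit 0) (nat_lit 226765245760) (nat_lit 76) (nat_lit 183046083089) (nat_lit 76) (nat_lit 182437114917) (nat_lit 1) (nat_lit 4) (nat_lit 2) (nat_lit 5) (nat_lit 2) (nat_lit 4) (nat_lit 265) (nat_lit 201) (nat_lit 194)) (XT.lf (nat_lit 0) (nat_lit 264706255092) (nat_lit 76) (nat_lit 208437416376) (nat_lit 76) (nat_lit 207780598999) (nat_lit 1) (nat_lit 4) (nat_lit 2) (nat_lit 5) (nat_lit 2) (nat_lit 4) (nat_lit 266) (nat_lit 201) (nat_lit 193))) (XT.nd (nat_lit 78) (nat_lit 0) (nat_lit 0) (XT.lf (nat_lit 0) (nat_lit 308127042333) (nat_lit 76) (nat_lit 237740772778) (nat_lit 76) (nat_lit 237042347397) (nat_lit 1) (nat_lit 4) (nat_lit 2) (nat_lit 5) (nat_lit 2) (nat_lit 4) (nat_lit 267)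 (nat_lit 201) (nat_lit 192)) (XT.lf (nat_lit 0) (nat_lit 357877144626) (nat_lit 76) (nat_lit 271529478831) (nat_lit 76) (nat_lit 270794872577) (nat_lit 1) (nat_lit 4) (nat_lit 2) (nat_lit 5) (nat_lit 2) (nat_lit 4) (nat_lit 268) (nat_lit 201) (nat_lit 191))))))))
noncomputable def xc5 : XT := (XT.nd (nat_lit 33696) (nat_lit 0) (nat_lit 0) (XT.nd (nat_lit 936) (nat_lit 0) (nat_lit 0) (XT.nd (nat_lit 468) (nat_lit 0) (nat_lit 0) (XT.nd (nat_lit 234) (nat_lit 0) (nat_lit 0) (XT.nd (nat_lit 78) (nat_lit 0) (nat_lit 0) (XT.lf (nat_lit 0) (nat_lit 414929933536) (nat_lit 76) (nat_lit 310464617917) (nat_lit 76) (nat_lit 309698550034) (nat_lit 1) (nat_lit 4) (nat_lit 2) (nat_lit 5) (nat_lit 2) (nat_lit 4) (nat_lit 269) (nat_lit 201) (nat_lit 190)) (XT.nd (nat_lit 78) (nat_lit 0) (nat_lit 0) (XT.lf (nat_lit 0) (nat_lit 480401659282) (nat_lit 76) (nat_lit 355307964495) (nat_lit 76) (nat_lit 354514538673)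 (nat_lit 1) (nat_lit 4) (nat_lit 2) (nat_lit 5) (nat_lit 2) (nat_lit 4) (nat_lit 270) (nat_lit 201) (nat_lit 189)) (XT.lf (nat_lit 0) (nat_lit 555573290410) (nat_lit 76) (nat_lit 406936888389) (nat_lit 76) (nat_lit 406119673056) (nat_lit 1) (nat_lit 4) (nat_lit 2) (nat_lit 5) (nat_lit 2) (nat_lit 4) (nat_lit 271) (nat_lit 201) (nat_lit 188)))) (XT.nd (nat_lit 78) (nat_lit 0) (nat_lit 0) (XT.lf (nat_lit 0) (nat_lit 641915576226) (nat_lit 76) (nat_lit 466361520719) (nat_lit 76) (nat_lit 465523618855) (nat_lit 1) (nat_lit 4) (nat_lit 2) (nat_lit 5) (nat_lit 2) (nat_lit 4) (nat_lit 272) (nat_lit 201) (nat_lit 187)) (XT.nd (nat_lit 78) (nat_lit 0) (nat_lit 0) (XT.lf (nat_lit 0) (nat_lit 741117822321) (nat_lit 76) (nat_lit 534744517336) (nat_lit 76) (nat_lit 533888627183) (nat_lit 1) (nat_lit 4) (nat_lit 2) (nat_lit 5) (nat_lit 2) (nat_lit 4) (nat_lit 273) (nat_lit 201) (nat_lit 186)) (XT.lf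 (nat_lit 0) (nat_lit 855120942206) (nat_lit 76) (nat_lit 613423806433) (nat_lit 76) (nat_lit 612552274290) (nat_lit 1) (nat_lit 4) (nat_lit 2) (nat_lit 5) (nat_lit 2) (nat_lit 4) (nat_lit 274) (nat_lit 201) (nat_lit 185))))) (XT.nd (nat_lit 234) (nat_lit 0) (nat_lit 0) (XT.nd (nat_lit 78) (nat_lit 0) (nat_lit 0) (XT.lf (nat_lit 0) (nat_lit 986155431705) (nat_lit 76) (nat_lit 703938765406) (nat_lit 76) (nat_lit 703053631533) (nat_lit 1) (nat_lit 4) (nat_lit 2) (nat_lit 5) (nat_lit 2) (nat_lit 4) (nat_lit 275) (nat_lit 201) (nat_lit 184)) (XT.nd (nat_lit 78) (nat_lit 0) (nat_lit 0) (XT.lf (nat_lit 0) (nat_lit 1136785009091) (nat_lit 76) (nat_lit 808060339105) (nat_lit 76) (nat_lit 807163377641) (nat_lit 1) (nat_lit 4) (nat_lit 2) (nat_lit 5) (nat_lit 2) (nat_lit 4) (nat_lit 276) (nat_lit 201) (nat_lit 183)) (XT.lf (nat_lit 0) (nat_lit 1309956774790) (nat_lit 76) (nat_lit 927825688755) (nat_lit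 76) (nat_lit 926918442428) (nat_lit 1) (nat_lit 4) (nat_lit 2) (nat_lit 5) (nat_lit 2) (nat_lit 4) (nat_lit 277) (nat_lit 201) (nat_lit 182)))) (XT.nd (nat_lit 78) (nat_lit 0) (nat_lit 0) (XT.lf (nat_lit 0) (nat_lit 1509058872044) (nat_lit 76) (nat_lit 1065578049456) (nat_lit 76) (nat_lit 1064661859771) (nat_lit 1) (nat_lit 4) (nat_lit 2) (nat_lit 5) (nat_lit 2) (nat_lit 4) (nat_lit 278) (nat_lit 201) (nat_lit 181)) (XT.nd (nat_lit 78) (nat_lit 0) (nat_lit 0) (XT.lf (nat_lit 0) (nat_lit 1737986776671) (nat_lit 76) (nat_lit 1224012576093) (nat_lit 76) (nat_lit 1223088609574) (nat_lit 1) (nat_lit 4) (nat_lit 2) (nat_lit 5) (nat_lit 2) (nat_lit 4) (nat_lit 279) (nat_lit 201) (nat_lit 180)) (XT.lf (nat_lit 0) (nat_lit 2001219512889) (nat_lit 76) (nat_lit 1406229074620) (nat_lit 76) (nat_lit 1405298345638) (nat_lit 1) (nat_lit 4) (nat_lit 2) (nat_lit 5) (nat_lit 2) (nat_lit 4) (nat_lit 280)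 (nat_lit 201) (nat_lit 179)))))) (XT.nd (nat_lit 468) (nat_lit 0) (nat_lit 0) (XT.nd (nat_lit 234) (nat_lit 0) (nat_lit 0) (XT.nd (nat_lit 78) (nat_lit 0) (nat_lit 0) (XT.lf (nat_lit 0) (nat_lit 2303907286409) (nat_lit 76) (nat_lit 1615792650445) (nat_lit 76) (nat_lit 1614856041060) (nat_lit 1) (nat_lit 4) (nat_lit 2) (nat_lit 5) (nat_lit 2) (nat_lit 4) (nat_lit 281) (nat_lit 201) (nat_lit 178)) (XT.nd (nat_lit 78) (nat_lit 0) (nat_lit 0) (XT.lf (nat_lit 0) (nat_lit 2651972249320) (nat_lit 76) (nat_lit 1856803460486) (nat_lit 76) (nat_lit 1855861737706) (nat_lit 1) (nat_lit 4) (nat_lit 2) (nat_lit 5) (nat_lit 2) (nat_lit 4) (nat_lit 282) (nat_lit 201) (nat_lit 177)) (XT.lf (nat_lit 0) (nat_lit 3052224368289) (nat_lit 76) (nat_lit 2133976933634) (nat_lit 76) (nat_lit 2133030764424) (nat_lit 1) (nat_lit 4) (nat_lit 2) (nat_lit 5) (nat_lit 2) (nat_lit 4) (nat_lit 283) (nat_lit 201) (nat_lit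 176)))) (XT.nd (nat_lit 78) (nat_lit 0) (nat_lit 0) (XT.lf (nat_lit 0) (nat_lit 3512494663034) (nat_lit 76) (nat_lit 2452736029148) (nat_lit 76) (nat_lit 2451785993477) (nat_lit 1) (nat_lit 4) (nat_lit 2) (nat_lit 5) (nat_lit 2) (nat_lit 4) (nat_lit 284) (nat_lit 201) (nat_lit 175)) (XT.nd (nat_lit 78) (nat_lit 0) (nat_lit 0) (XT.lf (nat_lit 0) (nat_lit 4041788421930) (nat_lit 76) (nat_lit 2819317338025) (nat_lit 76) (nat_lit 2818363940215) (nat_lit 1) (nat_lit 4) (nat_lit 2) (nat_lit 5) (nat_lit 2) (nat_lit 4) (nat_lit 285) (nat_lit 201) (nat_lit 174)) (XT.lf (nat_lit 0) (nat_lit 4650461392435) (nat_lit 76) (nat_lit 3240893103266) (nat_lit 76) (nat_lit 3239936781856) (nat_lit 1) (nat_lit 4) (nat_lit 2) (nat_lit 5) (nat_lit 2) (nat_lit 4) (nat_lit 286) (nat_lit 201) (nat_lit 173))))) (XT.nd (nat_lit 31980) (nat_lit 0) (nat_lit 0) (XT.nd (nat_lit 78) (nat_lit 0) (nat_lit 0) (XT.lf (nat_lit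 0) (nat_lit 5350422393537) (nat_lit 76) (nat_lit 3725711546365) (nat_lit 76) (nat_lit 3724752682694) (nat_lit 1) (nat_lit 4) (nat_lit 2) (nat_lit 5) (nat_lit 2) (nat_lit 4) (nat_lit 287) (nat_lit 201) (nat_lit 172)) (XT.nd (nat_lit 78) (nat_lit 0) (nat_lit 0) (XT.lf (nat_lit 0) (nat_lit 6155366314387) (nat_lit 76) (nat_lit 4283258245556) (nat_lit 76) (nat_lit 4282297171224) (nat_lit 1) (nat_lit 4) (nat_lit 2) (nat_lit 5) (nat_lit 2) (nat_lit 4) (nat_lit 288) (nat_lit 201) (nat_lit 171)) (XT.lf (nat_lit 0) (nat_lit 7081042057785) (nat_lit 76) (nat_lit 4924441723214) (nat_lit 76) (nat_lit 4923478726568) (nat_lit 1) (nat_lit 4) (nat_lit 2) (nat_lit 5) (nat_lit 2) (nat_lit 4) (nat_lit 289) (nat_lit 201) (nat_lit 170)))) (XT.nd (nat_lit 156) (nat_lit 0) (nat_lit 0) (XT.nd (nat_lit 78) (nat_lit 0) (nat_lit 0) (XT.lf (nat_lit 0) (nat_lit 17559506192) (nat_lit 76) (nat_lit 33610361670) (nat_lit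 76) (nat_lit 33610361670) (nat_lit 1) (nat_lit 4) (nat_lit 2) (nat_lit 5) (nat_lit 2) (nat_lit 4) (nat_lit 256) (nat_lit 202) (nat_lit 202)) (XT.lf (nat_lit 0) (nat_lit 47995649080) (nat_lit 76) (nat_lit 73416194918) (nat_lit 76) (nat_lit 73269823107) (nat_lit 1) (nat_lit 4) (nat_lit 2) (nat_lit 5) (nat_lit 2) (nat_lit 4) (nat_lit 257) (nat_lit 202) (nat_lit 201))) (XT.nd (nat_lit 78) (nat_lit 0) (nat_lit 0) (XT.lf (nat_lit 0) (nat_lit 62157184938) (nat_lit 76) (nat_lit 80857055022) (nat_lit 76) (nat_lit 80583403375) (nat_lit 1) (nat_lit 4) (nat_lit 2) (nat_lit 5) (nat_lit 2) (nat_lit 4) (nat_lit 258) (nat_lit 202) (nat_lit 200)) (XT.lf (nat_lit 0) (nat_lit 77880693489) (nat_lit 76) (nat_lit 89688885699) (nat_lit 76) (nat_lit 89304555933) (nat_lit 1) (nat_lit 4) (nat_lit 2) (nat_lit 5) (nat_lit 2) (nat_lit 4) (nat_lit 259) (nat_lit 202) (nat_lit 199))))))) (XT.nd (nat_lit 936) (nat_lit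 0) (nat_lit 0) (XT.nd (nat_lit 468) (nat_lit 0) (nat_lit 0) (XT.nd (nat_lit 234) (nat_lit 0) (nat_lit 0) (XT.nd (nat_lit 78) (nat_lit 0) (nat_lit 0) (XT.lf (nat_lit 0) (nat_lit 95473808594) (nat_lit 76) (nat_lit 100084483634) (nat_lit 76) (nat_lit 99603912027) (nat_lit 1) (nat_lit 4) (nat_lit 2) (nat_lit 5) (nat_lit 2) (nat_lit 4) (nat_lit 260) (nat_lit 202) (nat_lit 198)) (XT.nd (nat_lit 78) (nat_lit 0) (nat_lit 0) (XT.lf (nat_lit 0) (nat_lit 115280743376) (nat_lit 76) (nat_lit 112247240962) (nat_lit 76) (nat_lit 111682980797) (nat_lit 1) (nat_lit 4) (nat_lit 2) (nat_lit 5) (nat_lit 2) (nat_lit 4) (nat_lit 261) (nat_lit 202) (nat_lit 197)) (XT.lf (nat_lit 0) (nat_lit 137689024819) (nat_lit 76) (nat_lit 126415124674) (nat_lit 76) (nat_lit 125778091850) (nat_lit 1) (nat_lit 4) (nat_lit 2) (nat_lit 5) (nat_lit 2) (nat_lit 4) (nat_lit 262) (nat_lit 202) (nat_lit 196)))) (XT.nd (nat_lit 78)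 (nat_lit 0) (nat_lit 0) (XT.lf (nat_lit 0) (nat_lit 163137075821) (nat_lit 76) (nat_lit 142865332495) (nat_lit 76) (nat_lit 142165019097) (nat_lit 1) (nat_lit 4) (nat_lit 2) (nat_lit 5) (nat_lit 2) (nat_lit 4) (nat_lit 263) (nat_lit 202) (nat_lit 195)) (XT.nd (nat_lit 78) (nat_lit 0) (nat_lit 0) (XT.lf (nat_lit 0) (nat_lit 192122793033) (nat_lit 76) (nat_lit 161919716316) (nat_lit 76) (nat_lit 161164376333) (nat_lit 1) (nat_lit 4) (nat_lit 2) (nat_lit 5) (nat_lit 2) (nat_lit 4) (nat_lit 264) (nat_lit 202) (nat_lit 194)) (XT.lf (nat_lit 0) (nat_lit 225213288312) (nat_lit 76) (nat_lit 183951079300) (nat_lit 76) (nat_lit 183147890112) (nat_lit 1) (nat_lit 4) (nat_lit 2) (nat_lit 5) (nat_lit 2) (nat_lit 4) (nat_lit 265) (nat_lit 202) (nat_lit 193))))) (XT.nd (nat_lit 234) (nat_lit 0) (nat_lit 0) (XT.nd (nat_lit 78) (nat_lit 0) (nat_lit 0) (XT.lf (nat_lit 0) (nat_lit 263055984393) (nat_lit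 76) (nat_lit 209390469853) (nat_lit 76) (nat_lit 208545672661) (nat_lit 1) (nat_lit 4) (nat_lit 2) (nat_lit 5) (nat_lit 2) (nat_lit 4) (nat_lit 266) (nat_lit 202) (nat_lit 192)) (XT.nd (nat_lit 78) (nat_lit 0) (nat_lit 0) (XT.lf (nat_lit 0) (nat_lit 306391281851) (nat_lit 76) (nat_lit 238735615181) (nat_lit 76) (nat_lit 237854637116) (nat_lit 1) (nat_lit 4) (nat_lit 2) (nat_lit 5) (nat_lit 2) (nat_lit 4) (nat_lit 267) (nat_lit 202) (nat_lit 191)) (XT.lf (nat_lit 0) (nat_lit 356067045201) (nat_lit 76) (nat_lit 272560659432) (nat_lit 76) (nat_lit 271648219738) (nat_lit 1) (nat_lit 4) (nat_lit 2) (nat_lit 5) (nat_lit 2) (nat_lit 4) (nat_lit 268) (nat_lit 202) (nat_lit 190)))) (XT.nd (nat_lit 78) (nat_lit 0) (nat_lit 0) (XT.lf (nat_lit 0) (nat_lit 413055191553) (nat_lit 76) (nat_lit 311527396950) (nat_lit 76) (nat_lit 310587599317) (nat_lit 1) (nat_lit 4) (nat_lit 2) (nat_lit 5) (nat_lit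 2) (nat_lit 4) (nat_lit 269) (nat_lit 202) (nat_lit 189)) (XT.nd (nat_lit 78) (nat_lit 0) (nat_lit 0) (XT.lf (nat_lit 0) (nat_lit 478470706378) (nat_lit 76) (nat_lit 356398220425) (nat_lit 76) (nat_lit 355434633281) (nat_lit 1) (nat_lit 4) (nat_lit 2) (nat_lit 5) (nat_lit 2) (nat_lit 4) (nat_lit 270) (nat_lit 202) (nat_lit 188)) (XT.lf (nat_lit 0) (nat_lit 553593458445) (nat_lit 76) (nat_lit 408051037273) (nat_lit 76) (nat_lit 407066763598) (nat_lit 1) (nat_lit 4) (nat_lit 2) (nat_lit 5) (nat_lit 2) (nat_lit 4) (nat_lit 271) (nat_lit 202) (nat_lit 187)))))) (XT.nd (nat_lit 468) (nat_lit 0) (nat_lit 0) (XT.nd (nat_lit 234) (nat_lit 0) (nat_lit 0) (XT.nd (nat_lit 78) (nat_lit 0) (nat_lit 0) (XT.lf (nat_lit 0) (nat_lit 639893240729) (nat_lit 76) (nat_lit 467496446086) (nat_lit 76) (nat_lit 466494184122) (nat_lit 1) (nat_lit 4) (nat_lit 2) (nat_lit 5) (nat_lit 2) (nat_lit 4) (nat_lit 272)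 (nat_lit 202) (nat_lit 186)) (XT.nd (nat_lit 78) (nat_lit 0) (nat_lit 0) (XT.lf (nat_lit 0) (nat_lit 739058527231) (nat_lit 76) (nat_lit 535897509209) (nat_lit 76) (nat_lit 534879605255) (nat_lit 1) (nat_lit 4) (nat_lit 2) (nat_lit 5) (nat_lit 2) (nat_lit 4) (nat_lit 273) (nat_lit 202) (nat_lit 185)) (XT.lf (nat_lit 0) (nat_lit 853029508340) (nat_lit 76) (nat_lit 614592508311) (nat_lit 76) (nat_lit 613561002627) (nat_lit 1) (nat_lit 4) (nat_lit 2) (nat_lit 5) (nat_lit 2) (nat_lit 4) (nat_lit 274) (nat_lit 202) (nat_lit 184)))) (XT.nd (nat_lit 78) (nat_lit 0) (nat_lit 0) (XT.lf (nat_lit 0) (nat_lit 984036051077) (nat_lit 76) (nat_lit 705121128159) (nat_lit 76) (nat_lit 704077794883) (nat_lit 1) (nat_lit 4) (nat_lit 2) (nat_lit 5) (nat_lit 2) (nat_lit 4) (nat_lit 275) (nat_lit 202) (nat_lit 183)) (XT.nd (nat_lit 78) (nat_lit 0) (nat_lit 0) (XT.lf (nat_lit 0) (nat_lit 1134641326930) (nat_lit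 76) (nat_lit 809254580879) (nat_lit 76) (nat_lit 808200962741) (nat_lit 1) (nat_lit 4) (nat_lit 2) (nat_lit 5) (nat_lit 2) (nat_lit 4) (nat_lit 276) (nat_lit 202) (nat_lit 182)) (XT.lf (nat_lit 0) (nat_lit 1307791960862) (nat_lit 76) (nat_lit 929030260112) (nat_lit 76) (nat_lit 927967698616) (nat_lit 1) (nat_lit 4) (nat_lit 2) (nat_lit 5) (nat_lit 2) (nat_lit 4) (nat_lit 277) (nat_lit 202) (nat_lit 181))))) (XT.nd (nat_lit 234) (nat_lit 0) (nat_lit 0) (XT.nd (nat_lit 78) (nat_lit 0) (nat_lit 0) (XT.lf (nat_lit 0) (nat_lit 1506875682667) (nat_lit 76) (nat_lit 1066791603060) (nat_lit 76) (nat_lit 1065721264730) (nat_lit 1) (nat_lit 4) (nat_lit 2) (nat_lit 5) (nat_lit 2) (nat_lit 4) (nat_lit 278) (nat_lit 202) (nat_lit 180)) (XT.nd (nat_lit 78) (nat_lit 0) (nat_lit 0) (XT.lf (nat_lit 0) (nat_lit 1735787608642) (nat_lit 76) (nat_lit 1225233940346) (nat_lit 76) (nat_lit 1224156839552) (nat_lit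 1) (nat_lit 4) (nat_lit 2) (nat_lit 5) (nat_lit 2) (nat_lit 4) (nat_lit 279) (nat_lit 202) (nat_lit 179)) (XT.lf (nat_lit 0) (nat_lit 1999006450380) (nat_lit 76) (nat_lit 1407457230742) (nat_lit 76) (nat_lit 1406374249545) (nat_lit 1) (nat_lit 4) (nat_lit 2) (nat_lit 5) (nat_lit 2) (nat_lit 4) (nat_lit 280) (nat_lit 202) (nat_lit 178)))) (XT.nd (nat_lit 156) (nat_lit 0) (nat_lit 0) (XT.nd (nat_lit 78) (nat_lit 0) (nat_lit 0) (XT.lf (nat_lit 0) (nat_lit 2301682141744) (nat_lit 76) (nat_lit 1617026712540) (nat_lit 76) (nat_lit 1615938617949) (nat_lit 1) (nat_lit 4) (nat_lit 2) (nat_lit 5) (nat_lit 2) (nat_lit 4) (nat_lit 281) (nat_lit 202) (nat_lit 177)) (XT.lf (nat_lit 0) (nat_lit 2649736598432) (nat_lit 76) (nat_lit 1858042658210) (nat_lit 76) (nat_lit 1856950117188) (nat_lit 1) (nat_lit 4) (nat_lit 2) (nat_lit 5) (nat_lit 2) (nat_lit 4) (nat_lit 282) (nat_lit 202) (nat_lit 176))) (XT.nd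 (nat_lit 78) (nat_lit 0) (nat_lit 0) (XT.lf (nat_lit 0) (nat_lit 3049979581555) (nat_lit 76) (nat_lit 2135220597122) (nat_lit 76) (nat_lit 2134124189640) (nat_lit 1) (nat_lit 4) (nat_lit 2) (nat_lit 5) (nat_lit 2) (nat_lit 4) (nat_lit 283) (nat_lit 202) (nat_lit 175)) (XT.lf (nat_lit 0) (nat_lit 3510241932086) (nat_lit 76) (nat_lit 2453983575908) (nat_lit 76) (nat_lit 2452883806287) (nat_lit 1) (nat_lit 4) (nat_lit 2) (nat_lit 5) (nat_lit 2) (nat_lit 4) (nat_lit 284) (nat_lit 202) (nat_lit 174))))))))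
noncomputable def xc6 : XT := (XT.nd (nat_lit 33540) (nat_lit 0) (nat_lit 0) (XT.nd (nat_lit 32526) (nat_lit 0) (nat_lit 0) (XT.nd (nat_lit 32058) (nat_lit 0) (nat_lit 0) (XT.nd (nat_lit 234) (nat_lit 0) (nat_lit 0) (XT.nd (nat_lit 78) (nat_lit 0) (nat_lit 0) (XT.lf (nat_lit 0) (nat_lit 4039528782970) (nat_lit 76) (nat_lit 2820568261545) (nat_lit 76) (nat_lit 2819465568323) (nat_lit 1) (nat_lit 4) (nat_lit 2) (nat_lit 5) (nat_lit 2) (nat_lit 4) (nat_lit 285) (nat_lit 202) (nat_lit 173)) (XT.nd (nat_lit 78) (nat_lit 0) (nat_lit 0) (XT.lf (nat_lit 0) (nat_lit 4648195746508) (nat_lit 76) (nat_lit 3242146963098) (nat_lit 76) (nat_lit 3241041727616) (nat_lit 1) (nat_lit 4) (nat_lit 2) (nat_lit 5) (nat_lit 2) (nat_lit 4) (nat_lit 286) (nat_lit 202) (nat_lit 172)) (XT.lf (nat_lit 0) (nat_lit 5348151524160) (nat_lit 76) (nat_lit 3726967959512) (nat_lit 76) (nat_lit 3725860513368) (nat_lit 1)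 (nat_lit 4) (nat_lit 2) (nat_lit 5) (nat_lit 2) (nat_lit 4) (nat_lit 287) (nat_lit 202) (nat_lit 171)))) (XT.nd (nat_lit 78) (nat_lit 0) (nat_lit 0) (XT.lf (nat_lit 0) (nat_lit 6153090902880) (nat_lit 76) (nat_lit 4284516878977) (nat_lit 76) (nat_lit 4283407510519) (nat_lit 1) (nat_lit 4) (nat_lit 2) (nat_lit 5) (nat_lit 2) (nat_lit 4) (nat_lit 288) (nat_lit 202) (nat_lit 170)) (XT.nd (nat_lit 31668) (nat_lit 0) (nat_lit 0) (XT.lf (nat_lit 0) (nat_lit 7078762696599) (nat_lit 76) (nat_lit 4925702287309) (nat_lit 76) (nat_lit 4924591247273) (nat_lit 1) (nat_lit 4) (nat_lit 2) (nat_lit 5) (nat_lit 2) (nat_lit 4) (nat_lit 289) (nat_lit 202) (nat_lit 169)) (XT.lf (nat_lit 0) (nat_lit 6315320912) (nat_lit 76) (nat_lit 29038493298) (nat_lit 76) (nat_lit 29038493298) (nat_lit 1) (nat_lit 4) (nat_lit 2) (nat_lit 5) (nat_lit 2) (nat_lit 4) (nat_lit 254) (nat_lit 203) (nat_lit 203))))) (XT.nd (nat_lit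 234) (nat_lit 0) (nat_lit 0) (XT.nd (nat_lit 78) (nat_lit 0) (nat_lit 0) (XT.lf (nat_lit 0) (nat_lit 23275340659) (nat_lit 76) (nat_lit 62317752123) (nat_lit 76) (nat_lit 62149424540) (nat_lit 1) (nat_lit 4) (nat_lit 2) (nat_lit 5) (nat_lit 2) (nat_lit 4) (nat_lit 255) (nat_lit 203) (nat_lit 202)) (XT.nd (nat_lit 78) (nat_lit 0) (nat_lit 0) (XT.lf (nat_lit 0) (nat_lit 34773158529) (nat_lit 76) (nat_lit 67558110439) (nat_lit 76) (nat_lit 67243411044) (nat_lit 1) (nat_lit 4) (nat_lit 2) (nat_lit 5) (nat_lit 2) (nat_lit 4) (nat_lit 256) (nat_lit 203) (nat_lit 201)) (XT.lf (nat_lit 0) (nat_lit 47349052740) (nat_lit 76) (nat_lit 73900590291) (nat_lit 76) (nat_lit 73458611061) (nat_lit 1) (nat_lit 4) (nat_lit 2) (nat_lit 5) (nat_lit 2) (nat_lit 4) (nat_lit 257) (nat_lit 203) (nat_lit 200)))) (XT.nd (nat_lit 78) (nat_lit 0) (nat_lit 0) (XT.lf (nat_lit 0) (nat_lit 61249073395) (nat_lit 76) (nat_lit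 81469283677) (nat_lit 76) (nat_lit 80916626329) (nat_lit 1) (nat_lit 4) (nat_lit 2) (nat_lit 5) (nat_lit 2) (nat_lit 4) (nat_lit 258) (nat_lit 203) (nat_lit 199)) (XT.nd (nat_lit 78) (nat_lit 0) (nat_lit 0) (XT.lf (nat_lit 0) (nat_lit 76745177421) (nat_lit 76) (nat_lit 90412273729) (nat_lit 76) (nat_lit 89763374539) (nat_lit 1) (nat_lit 4) (nat_lit 2) (nat_lit 5) (nat_lit 2) (nat_lit 4) (nat_lit 259) (nat_lit 203) (nat_lit 198)) (XT.lf (nat_lit 0) (nat_lit 94140549462) (nat_lit 76) (nat_lit 100904531991) (nat_lit 76) (nat_lit 100171944243) (nat_lit 1) (nat_lit 4) (nat_lit 2) (nat_lit 5) (nat_lit 2) (nat_lit 4) (nat_lit 260) (nat_lit 203) (nat_lit 197)))))) (XT.nd (nat_lit 468) (nat_lit 0) (nat_lit 0) (XT.nd (nat_lit 234) (nat_lit 0) (nat_lit 0) (XT.nd (nat_lit 78) (nat_lit 0) (nat_lit 0) (XT.lf (nat_lit 0) (nat_lit 113775533752) (nat_lit 76) (nat_lit 113151341777) (nat_lit 76) (nat_lit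 112345981370) (nat_lit 1) (nat_lit 4) (nat_lit 2) (nat_lit 5) (nat_lit 2) (nat_lit 4) (nat_lit 261) (nat_lit 203) (nat_lit 196)) (XT.nd (nat_lit 78) (nat_lit 0) (nat_lit 0) (XT.lf (nat_lit 0) (nat_lit 136034293029) (nat_lit 76) (nat_lit 127392314583) (nat_lit 76) (nat_lit 126523673602) (nat_lit 1) (nat_lit 4) (nat_lit 2) (nat_lit 5) (nat_lit 2) (nat_lit 4) (nat_lit 262) (nat_lit 203) (nat_lit 195)) (XT.lf (nat_lit 0) (nat_lit 161352324757) (nat_lit 76) (nat_lit 143906078138) (nat_lit 76) (nat_lit 142982410571) (nat_lit 1) (nat_lit 4) (nat_lit 2) (nat_lit 5) (nat_lit 2) (nat_lit 4) (nat_lit 263) (nat_lit 203) (nat_lit 194)))) (XT.nd (nat_lit 78) (nat_lit 0) (nat_lit 0) (XT.lf (nat_lit 0) (nat_lit 190224981729) (nat_lit 76) (nat_lit 163015727815) (nat_lit 76) (nat_lit 162044211044) (nat_lit 1) (nat_lit 4) (nat_lit 2) (nat_lit 5) (nat_lit 2) (nat_lit 4) (nat_lit 264) (nat_lit 203) (nat_lit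 193)) (XT.nd (nat_lit 78) (nat_lit 0) (nat_lit 0) (XT.lf (nat_lit 0) (nat_lit 223217163757) (nat_lit 76) (nat_lit 185095148064) (nat_lit 76) (nat_lit 184082023289) (nat_lit 1) (nat_lit 4) (nat_lit 2) (nat_lit 5) (nat_lit 2) (nat_lit 4) (nat_lit 265) (nat_lit 203) (nat_lit 192)) (XT.lf (nat_lit 0) (nat_lit 260974370054) (nat_lit 76) (nat_lit 210576327544) (nat_lit 76) (nat_lit 209527021895) (nat_lit 1) (nat_lit 4) (nat_lit 2) (nat_lit 5) (nat_lit 2) (nat_lit 4) (nat_lit 266) (nat_lit 203) (nat_lit 191))))) (XT.nd (nat_lit 234) (nat_lit 0) (nat_lit 0) (XT.nd (nat_lit 78) (nat_lit 0) (nat_lit 0) (XT.lf (nat_lit 0) (nat_lit 304235328570) (nat_lit 76) (nat_lit 239957811069) (nat_lit 76) (nat_lit 238877043791) (nat_lit 1) (nat_lit 4) (nat_lit 2) (nat_lit 5) (nat_lit 2) (nat_lit 4) (nat_lit 267) (nat_lit 203) (nat_lit 190)) (XT.nd (nat_lit 78) (nat_lit 0) (nat_lit 0) (XT.lf (nat_lit 0) (nat_lit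 353846449361) (nat_lit 76) (nat_lit 273814453752) (nat_lit 76) (nat_lit 272706328536) (nat_lit 1) (nat_lit 4) (nat_lit 2) (nat_lit 5) (nat_lit 2) (nat_lit 4) (nat_lit 268) (nat_lit 203) (nat_lit 189)) (XT.lf (nat_lit 0) (nat_lit 410778384792) (nat_lit 76) (nat_lit 312808668167) (nat_lit 76) (nat_lit 311676753440) (nat_lit 1) (nat_lit 4) (nat_lit 2) (nat_lit 5) (nat_lit 2) (nat_lit 4) (nat_lit 269) (nat_lit 203) (nat_lit 188)))) (XT.nd (nat_lit 156) (nat_lit 0) (nat_lit 0) (XT.nd (nat_lit 78) (nat_lit 0) (nat_lit 0) (XT.lf (nat_lit 0) (nat_lit 476145020556) (nat_lit 76) (nat_lit 357703384597) (nat_lit 76) (nat_lit 356550783338) (nat_lit 1) (nat_lit 4) (nat_lit 2) (nat_lit 5) (nat_lit 2) (nat_lit 4) (nat_lit 270) (nat_lit 203) (nat_lit 187)) (XT.lf (nat_lit 0) (nat_lit 551225269091) (nat_lit 76) (nat_lit 409376977928) (nat_lit 76) (nat_lit 408206388381) (nat_lit 1) (nat_lit 4) (nat_lit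 2) (nat_lit 5) (nat_lit 2) (nat_lit 4) (nat_lit 271) (nat_lit 203) (nat_lit 186))) (XT.nd (nat_lit 78) (nat_lit 0) (nat_lit 0) (XT.lf (nat_lit 0) (nat_lit 637488091783) (nat_lit 76) (nat_lit 468840453246) (nat_lit 76) (nat_lit 467654221710) (nat_lit 1) (nat_lit 4) (nat_lit 2) (nat_lit 5) (nat_lit 2) (nat_lit 4) (nat_lit 272) (nat_lit 203) (nat_lit 185)) (XT.lf (nat_lit 0) (nat_lit 736621239509) (nat_lit 76) (nat_lit 537257226374) (nat_lit 76) (nat_lit 536057393107) (nat_lit 1) (nat_lit 4) (nat_lit 2) (nat_lit 5) (nat_lit 2) (nat_lit 4) (nat_lit 273) (nat_lit 203) (nat_lit 184))))))) (XT.nd (nat_lit 936) (nat_lit 0) (nat_lit 0) (XT.nd (nat_lit 468) (nat_lit 0) (nat_lit 0) (XT.nd (nat_lit 234) (nat_lit 0) (nat_lit 0) (XT.nd (nat_lit 78) (nat_lit 0) (nat_lit 0) (XT.lf (nat_lit 0) (nat_lit 850564273856) (nat_lit 76) (nat_lit 615965886351) (nat_lit 76) (nat_lit 614754225493) (nat_lit 1) (nat_lit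 4) (nat_lit 2) (nat_lit 5) (nat_lit 2) (nat_lit 4) (nat_lit 274) (nat_lit 203) (nat_lit 183)) (XT.nd (nat_lit 78) (nat_lit 0) (nat_lit 0) (XT.lf (nat_lit 0) (nat_lit 981546515060) (nat_lit 76) (nat_lit 706506385220) (nat_lit 76) (nat_lit 705284439499) (nat_lit 1) (nat_lit 4) (nat_lit 2) (nat_lit 5) (nat_lit 2) (nat_lit 4) (nat_lit 275) (nat_lit 203) (nat_lit 182)) (XT.lf (nat_lit 0) (nat_lit 1132130659147) (nat_lit 76) (nat_lit 810650167524) (nat_lit 76) (nat_lit 809419278444) (nat_lit 1) (nat_lit 4) (nat_lit 2) (nat_lit 5) (nat_lit 2) (nat_lit 4) (nat_lit 276) (nat_lit 203) (nat_lit 181)))) (XT.nd (nat_lit 78) (nat_lit 0) (nat_lit 0) (XT.lf (nat_lit 0) (nat_lit 1305262917629) (nat_lit 76) (nat_lit 930434829003) (nat_lit 76) (nat_lit 929196163090) (nat_lit 1) (nat_lit 4) (nat_lit 2) (nat_lit 5) (nat_lit 2) (nat_lit 4) (nat_lit 277) (nat_lit 203) (nat_lit 180)) (XT.nd (nat_lit 78) (nat_lit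 0) (nat_lit 0) (XT.lf (nat_lit 0) (nat_lit 1504330660782) (nat_lit 76) (nat_lit 1068203982600) (nat_lit 76) (nat_lit 1066958554223) (nat_lit 1) (nat_lit 4) (nat_lit 2) (nat_lit 5) (nat_lit 2) (nat_lit 4) (nat_lit 278) (nat_lit 203) (nat_lit 179)) (XT.lf (nat_lit 0) (nat_lit 1733228692277) (nat_lit 76) (nat_lit 1226653111755) (nat_lit 76) (nat_lit 1225401802975) (nat_lit 1) (nat_lit 4) (nat_lit 2) (nat_lit 5) (nat_lit 2) (nat_lit 4) (nat_lit 279) (nat_lit 203) (nat_lit 178))))) (XT.nd (nat_lit 234) (nat_lit 0) (nat_lit 0) (XT.nd (nat_lit 78) (nat_lit 0) (nat_lit 0) (XT.lf (nat_lit 0) (nat_lit 1996435451859) (nat_lit 76) (nat_lit 1408882308124) (nat_lit 76) (nat_lit 1407625885950) (nat_lit 1) (nat_lit 4) (nat_lit 2) (nat_lit 5) (nat_lit 2) (nat_lit 4) (nat_lit 280) (nat_lit 203) (nat_lit 177)) (XT.nd (nat_lit 78) (nat_lit 0) (nat_lit 0) (XT.lf (nat_lit 0) (nat_lit 2299100636999) (nat_lit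 76) (nat_lit 1618456925551) (nat_lit 76) (nat_lit 1617196056947) (nat_lit 1) (nat_lit 4) (nat_lit 2) (nat_lit 5) (nat_lit 2) (nat_lit 4) (nat_lit 281) (nat_lit 203) (nat_lit 176)) (XT.lf (nat_lit 0) (nat_lit 2647145957842) (nat_lit 76) (nat_lit 1859477336984) (nat_lit 76) (nat_lit 1858212601919) (nat_lit 1) (nat_lit 4) (nat_lit 2) (nat_lit 5) (nat_lit 2) (nat_lit 4) (nat_lit 282) (nat_lit 203) (nat_lit 175)))) (XT.nd (nat_lit 78) (nat_lit 0) (nat_lit 0) (XT.lf (nat_lit 0) (nat_lit 3047380996750) (nat_lit 76) (nat_lit 2136659159170) (nat_lit 76) (nat_lit 2135391061965) (nat_lit 1) (nat_lit 4) (nat_lit 2) (nat_lit 5) (nat_lit 2) (nat_lit 4) (nat_lit 283) (nat_lit 203) (nat_lit 174)) (XT.nd (nat_lit 78) (nat_lit 0) (nat_lit 0) (XT.lf (nat_lit 0) (nat_lit 3507636439269) (nat_lit 76) (nat_lit 2455425514715) (nat_lit 76) (nat_lit 2454154493911) (nat_lit 1) (nat_lit 4) (nat_lit 2) (nat_lit 5)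 (nat_lit 2) (nat_lit 4) (nat_lit 284) (nat_lit 203) (nat_lit 173)) (XT.lf (nat_lit 0) (nat_lit 4036917283186) (nat_lit 76) (nat_lit 2822013136664) (nat_lit 76) (nat_lit 2820739573599) (nat_lit 1) (nat_lit 4) (nat_lit 2) (nat_lit 5) (nat_lit 2) (nat_lit 4) (nat_lit 285) (nat_lit 203) (nat_lit 172)))))) (XT.nd (nat_lit 31902) (nat_lit 0) (nat_lit 0) (XT.nd (nat_lit 234) (nat_lit 0) (nat_lit 0) (XT.nd (nat_lit 78) (nat_lit 0) (nat_lit 0) (XT.lf (nat_lit 0) (nat_lit 4645579023275) (nat_lit 76) (nat_lit 3243594391532) (nat_lit 76) (nat_lit 3242318617806) (nat_lit 1) (nat_lit 4) (nat_lit 2) (nat_lit 5) (nat_lit 2) (nat_lit 4) (nat_lit 286) (nat_lit 203) (nat_lit 171)) (XT.nd (nat_lit 78) (nat_lit 0) (nat_lit 0) (XT.lf (nat_lit 0) (nat_lit 5345530258797) (nat_lit 76) (nat_lit 3728417608220) (nat_lit 76) (nat_lit 3727139912180) (nat_lit 1) (nat_lit 4) (nat_lit 2) (nat_lit 5) (nat_lit 2) (nat_lit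 4) (nat_lit 287) (nat_lit 203) (nat_lit 170)) (XT.lf (nat_lit 0) (nat_lit 6150465687838) (nat_lit 76) (nat_lit 4285968458358) (nat_lit 76) (nat_lit 4284689090740) (nat_lit 1) (nat_lit 4) (nat_lit 2) (nat_lit 5) (nat_lit 2) (nat_lit 4) (nat_lit 288) (nat_lit 203) (nat_lit 169)))) (XT.nd (nat_lit 31512) (nat_lit 0) (nat_lit 0) (XT.lf (nat_lit 0) (nat_lit 7076134047055) (nat_lit 76) (nat_lit 4927155545536) (nat_lit 76) (nat_lit 4925874724372) (nat_lit 1) (nat_lit 4) (nat_lit 2) (nat_lit 5) (nat_lit 2) (nat_lit 4) (nat_lit 289) (nat_lit 203) (nat_lit 168)) (XT.nd (nat_lit 78) (nat_lit 76) (nat_lit 0) (XT.lf (nat_lit 0) (nat_lit 22971622882) (nat_lit 152) (nat_lit 3069587802) (nat_lit 0) (nat_lit 22971622882) (nat_lit 2) (nat_lit 5) (nat_lit 4) (nat_lit 4) (nat_lit 2) (nat_lit 4) (nat_lit 252) (nat_lit 204) (nat_lit 204)) (XT.lf (nat_lit 0) (nat_lit 2630796176) (nat_lit 76) (nat_lit 54946419076)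 (nat_lit 76) (nat_lit 54752842356) (nat_lit 1) (nat_lit 4) (nat_lit 2) (nat_lit 5) (nat_lit 2) (nat_lit 4) (nat_lit 253) (nat_lit 204) (nat_lit 203))))) (XT.nd (nat_lit 234) (nat_lit 0) (nat_lit 0) (XT.nd (nat_lit 78) (nat_lit 0) (nat_lit 0) (XT.lf (nat_lit 0) (nat_lit 12232909889) (nat_lit 76) (nat_lit 58464981759) (nat_lit 76) (nat_lit 58103077455) (nat_lit 1) (nat_lit 4) (nat_lit 2) (nat_lit 5) (nat_lit 2) (nat_lit 4) (nat_lit 254) (nat_lit 204) (nat_lit 202)) (XT.nd (nat_lit 78) (nat_lit 0) (nat_lit 0) (XT.lf (nat_lit 0) (nat_lit 22531754868) (nat_lit 76) (nat_lit 62874806802) (nat_lit 76) (nat_lit 62366530687) (nat_lit 1) (nat_lit 4) (nat_lit 2) (nat_lit 5) (nat_lit 2) (nat_lit 4) (nat_lit 255) (nat_lit 204) (nat_lit 201)) (XT.lf (nat_lit 0) (nat_lit 33728830255) (nat_lit 76) (nat_lit 68262173392) (nat_lit 76) (nat_lit 67626617441) (nat_lit 1) (nat_lit 4) (nat_lit 2) (nat_lit 5)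 (nat_lit 2) (nat_lit 4) (nat_lit 256) (nat_lit 204) (nat_lit 200)))) (XT.nd (nat_lit 156) (nat_lit 0) (nat_lit 0) (XT.nd (nat_lit 78) (nat_lit 0) (nat_lit 0) (XT.lf (nat_lit 0) (nat_lit 46043209262) (nat_lit 76) (nat_lit 74732486526) (nat_lit 76) (nat_lit 73986252457) (nat_lit 1) (nat_lit 4) (nat_lit 2) (nat_lit 5) (nat_lit 2) (nat_lit 4) (nat_lit 257) (nat_lit 204) (nat_lit 199)) (XT.lf (nat_lit 0) (nat_lit 59715825393) (nat_lit 76) (nat_lit 82412339288) (nat_lit 76) (nat_lit 81569863377) (nat_lit 1) (nat_lit 4) (nat_lit 2) (nat_lit 5) (nat_lit 2) (nat_lit 4) (nat_lit 258) (nat_lit 204) (nat_lit 198))) (XT.nd (nat_lit 78) (nat_lit 0) (nat_lit 0) (XT.lf (nat_lit 0) (nat_lit 75014186354) (nat_lit 76) (nat_lit 91451989666) (nat_lit 76) (nat_lit 90525825198) (nat_lit 1) (nat_lit 4) (nat_lit 2) (nat_lit 5) (nat_lit 2) (nat_lit 4) (nat_lit 259) (nat_lit 204) (nat_lit 197)) (XT.lf (nat_lit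 0) (nat_lit 92237607904) (nat_lit 76) (nat_lit 102028300387) (nat_lit 76) (nat_lit 101029363259) (nat_lit 1) (nat_lit 4) (nat_lit 2) (nat_lit 5) (nat_lit 2) (nat_lit 4) (nat_lit 260) (nat_lit 204) (nat_lit 196))))))))
noncomputable def xc7 : XT := (XT.nd (nat_lit 1950) (nat_lit 0) (nat_lit 0) (XT.nd (nat_lit 936) (nat_lit 0) (nat_lit 0) (XT.nd (nat_lit 468) (nat_lit 0) (nat_lit 0) (XT.nd (nat_lit 234) (nat_lit 0) (nat_lit 0) (XT.nd (nat_lit 78) (nat_lit 0) (nat_lit 0) (XT.lf (nat_lit 0) (nat_lit 111723070028) (nat_lit 76) (nat_lit 114348199267) (nat_lit 76) (nat_lit 113285981565) (nat_lit 1) (nat_lit 4) (nat_lit 2) (nat_lit 5) (nat_lit 2) (nat_lit 4) (nat_lit 261) (nat_lit 204) (nat_lit 195)) (XT.nd (nat_lit 78) (nat_lit 0) (nat_lit 0) (XT.lf (nat_lit 0) (nat_lit 133851810030) (nat_lit 76) (nat_lit 128652727806) (nat_lit 76) (nat_lit 127535483520) (nat_lit 1) (nat_lit 4) (nat_lit 2) (nat_lit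 5) (nat_lit 2) (nat_lit 4) (nat_lit 262) (nat_lit 204) (nat_lit 194)) (XT.lf (nat_lit 0) (nat_lit 159056781519) (nat_lit 76) (nat_lit 145221757216) (nat_lit 76) (nat_lit 144056663725) (nat_lit 1) (nat_lit 4) (nat_lit 2) (nat_lit 5) (nat_lit 2) (nat_lit 4) (nat_lit 263) (nat_lit 204) (nat_lit 193)))) (XT.nd (nat_lit 78) (nat_lit 0) (nat_lit 0) (XT.lf (nat_lit 0) (nat_lit 187831125240) (nat_lit 76) (nat_lit 164379464159) (nat_lit 76) (nat_lit 163172762663) (nat_lit 1) (nat_lit 4) (nat_lit 2) (nat_lit 5) (nat_lit 2) (nat_lit 4) (nat_lit 264) (nat_lit 204) (nat_lit 192)) (XT.nd (nat_lit 78) (nat_lit 0) (nat_lit 0) (XT.lf (nat_lit 0) (nat_lit 220737817484) (nat_lit 76) (nat_lit 186500673335) (nat_lit 76) (nat_lit 185257790966) (nat_lit 1) (nat_lit 4) (nat_lit 2) (nat_lit 5) (nat_lit 2) (nat_lit 4) (nat_lit 265) (nat_lit 204) (nat_lit 191)) (XT.lf (nat_lit 0) (nat_lit 258420684838) (nat_lit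 76) (nat_lit 212018191011) (nat_lit 76) (nat_lit 210743847014) (nat_lit 1) (nat_lit 4) (nat_lit 2) (nat_lit 5) (nat_lit 2) (nat_lit 4) (nat_lit 266) (nat_lit 204) (nat_lit 190))))) (XT.nd (nat_lit 234) (nat_lit 0) (nat_lit 0) (XT.nd (nat_lit 78) (nat_lit 0) (nat_lit 0) (XT.lf (nat_lit 0) (nat_lit 301617000795) (nat_lit 76) (nat_lit 241431272969) (nat_lit 76) (nat_lit 240129571033) (nat_lit 1) (nat_lit 4) (nat_lit 2) (nat_lit 5) (nat_lit 2) (nat_lit 4) (nat_lit 267) (nat_lit 204) (nat_lit 189)) (XT.nd (nat_lit 78) (nat_lit 0) (nat_lit 0) (XT.lf (nat_lit 0) (nat_lit 351171910666) (nat_lit 76) (nat_lit 275315392549) (nat_lit 76) (nat_lit 273989901102) (nat_lit 1) (nat_lit 4) (nat_lit 2) (nat_lit 5) (nat_lit 2) (nat_lit 4) (nat_lit 268) (nat_lit 204) (nat_lit 188)) (XT.lf (nat_lit 0) (nat_lit 408054967036) (nat_lit 76) (nat_lit 314333499919) (nat_lit 76) (nat_lit 312987321940) (nat_lit 1)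 (nat_lit 4) (nat_lit 2) (nat_lit 5) (nat_lit 2) (nat_lit 4) (nat_lit 269) (nat_lit 204) (nat_lit 187)))) (XT.nd (nat_lit 78) (nat_lit 0) (nat_lit 0) (XT.lf (nat_lit 0) (nat_lit 473379099268) (nat_lit 76) (nat_lit 359248992831) (nat_lit 76) (nat_lit 357884826564) (nat_lit 1) (nat_lit 4) (nat_lit 2) (nat_lit 5) (nat_lit 2) (nat_lit 4) (nat_lit 270) (nat_lit 204) (nat_lit 186)) (XT.nd (nat_lit 78) (nat_lit 0) (nat_lit 0) (XT.lf (nat_lit 0) (nat_lit 548422388211) (nat_lit 76) (nat_lit 410940652668) (nat_lit 76) (nat_lit 409560844411) (nat_lit 1) (nat_lit 4) (nat_lit 2) (nat_lit 5) (nat_lit 2) (nat_lit 4) (nat_lit 271) (nat_lit 204) (nat_lit 185)) (XT.lf (nat_lit 0) (nat_lit 634653072126) (nat_lit 76) (nat_lit 470419837992) (nat_lit 76) (nat_lit 469026428005) (nat_lit 1) (nat_lit 4) (nat_lit 2) (nat_lit 5) (nat_lit 2) (nat_lit 4) (nat_lit 272) (nat_lit 204) (nat_lit 184)))))) (XT.nd (nat_lit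 468) (nat_lit 0) (nat_lit 0) (XT.nd (nat_lit 234) (nat_lit 0) (nat_lit 0) (XT.nd (nat_lit 78) (nat_lit 0) (nat_lit 0) (XT.lf (nat_lit 0) (nat_lit 733758273090) (nat_lit 76) (nat_lit 538850271994) (nat_lit 76) (nat_lit 537445034415) (nat_lit 1) (nat_lit 4) (nat_lit 2) (nat_lit 5) (nat_lit 2) (nat_lit 4) (nat_lit 273) (nat_lit 204) (nat_lit 183)) (XT.nd (nat_lit 78) (nat_lit 0) (nat_lit 0) (XT.lf (nat_lit 0) (nat_lit 847677005905) (nat_lit 76) (nat_lit 617570810992) (nat_lit 76) (nat_lit 616155288551) (nat_lit 1) (nat_lit 4) (nat_lit 2) (nat_lit 5) (nat_lit 2) (nat_lit 4) (nat_lit 274) (nat_lit 204) (nat_lit 182)) (XT.lf (nat_lit 0) (nat_lit 978638115342) (nat_lit 76) (nat_lit 708121639445) (nat_lit 76) (nat_lit 706697173645) (nat_lit 1) (nat_lit 4) (nat_lit 2) (nat_lit 5) (nat_lit 2) (nat_lit 4) (nat_lit 275) (nat_lit 204) (nat_lit 181)))) (XT.nd (nat_lit 78) (nat_lit 0) (nat_lit 0) (XT.lf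 (nat_lit 0) (nat_lit 1129203883979) (nat_lit 76) (nat_lit 812274403995) (nat_lit 76) (nat_lit 810842161362) (nat_lit 1) (nat_lit 4) (nat_lit 2) (nat_lit 5) (nat_lit 2) (nat_lit 4) (nat_lit 276) (nat_lit 204) (nat_lit 180)) (XT.nd (nat_lit 78) (nat_lit 0) (nat_lit 0) (XT.lf (nat_lit 0) (nat_lit 1302320163809) (nat_lit 76) (nat_lit 932066876124) (nat_lit 76) (nat_lit 930627871026) (nat_lit 1) (nat_lit 4) (nat_lit 2) (nat_lit 5) (nat_lit 2) (nat_lit 4) (nat_lit 277) (nat_lit 204) (nat_lit 179)) (XT.lf (nat_lit 0) (nat_lit 1501374012483) (nat_lit 76) (nat_lit 1069842821589) (nat_lit 76) (nat_lit 1068397936089) (nat_lit 1) (nat_lit 4) (nat_lit 2) (nat_lit 5) (nat_lit 2) (nat_lit 4) (nat_lit 278) (nat_lit 204) (nat_lit 178))))) (XT.nd (nat_lit 234) (nat_lit 0) (nat_lit 0) (XT.nd (nat_lit 78) (nat_lit 0) (nat_lit 0) (XT.lf (nat_lit 0) (nat_lit 1730259961821) (nat_lit 76) (nat_lit 1228297856717)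 (nat_lit 76) (nat_lit 1226847857822) (nat_lit 1) (nat_lit 4) (nat_lit 2) (nat_lit 5) (nat_lit 2) (nat_lit 4) (nat_lit 279) (nat_lit 204) (nat_lit 177)) (XT.nd (nat_lit 78) (nat_lit 0) (nat_lit 0) (XT.lf (nat_lit 0) (nat_lit 1993456215180) (nat_lit 76) (nat_lit 1410532188715) (nat_lit 76) (nat_lit 1409077743391) (nat_lit 1) (nat_lit 4) (nat_lit 2) (nat_lit 5) (nat_lit 2) (nat_lit 4) (nat_lit 280) (nat_lit 204) (nat_lit 176)) (XT.lf (nat_lit 0) (nat_lit 2296112264474) (nat_lit 76) (nat_lit 1620111271906) (nat_lit 76) (nat_lit 1618652960121) (nat_lit 1) (nat_lit 4) (nat_lit 2) (nat_lit 5) (nat_lit 2) (nat_lit 4) (nat_lit 281) (nat_lit 204) (nat_lit 175)))) (XT.nd (nat_lit 156) (nat_lit 0) (nat_lit 0) (XT.nd (nat_lit 78) (nat_lit 0) (nat_lit 0) (XT.lf (nat_lit 0) (nat_lit 2644149641103) (nat_lit 76) (nat_lit 1861135566612) (nat_lit 76) (nat_lit 1859673892687) (nat_lit 1) (nat_lit 4) (nat_lit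 2) (nat_lit 5) (nat_lit 2) (nat_lit 4) (nat_lit 282) (nat_lit 204) (nat_lit 174)) (XT.lf (nat_lit 0) (nat_lit 3044377771999) (nat_lit 76) (nat_lit 2138320765557) (nat_lit 76) (nat_lit 2136856168032) (nat_lit 1) (nat_lit 4) (nat_lit 2) (nat_lit 5) (nat_lit 2) (nat_lit 4) (nat_lit 283) (nat_lit 204) (nat_lit 173))) (XT.nd (nat_lit 78) (nat_lit 0) (nat_lit 0) (XT.lf (nat_lit 0) (nat_lit 3504627207551) (nat_lit 76) (nat_lit 2457090057415) (nat_lit 76) (nat_lit 2455622917629) (nat_lit 1) (nat_lit 4) (nat_lit 2) (nat_lit 5) (nat_lit 2) (nat_lit 4) (nat_lit 284) (nat_lit 204) (nat_lit 172)) (XT.lf (nat_lit 0) (nat_lit 4033902828019) (nat_lit 76) (nat_lit 2823680232679) (nat_lit 76) (nat_lit 2822210882232) (nat_lit 1) (nat_lit 4) (nat_lit 2) (nat_lit 5) (nat_lit 2) (nat_lit 4) (nat_lit 285) (nat_lit 204) (nat_lit 171))))))) (XT.nd (nat_lit 32292) (nat_lit 0) (nat_lit 0) (XT.nd (nat_lit 31746)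 (nat_lit 0) (nat_lit 0) (XT.nd (nat_lit 234) (nat_lit 0) (nat_lit 0) (XT.nd (nat_lit 78) (nat_lit 0) (nat_lit 0) (XT.lf (nat_lit 0) (nat_lit 4642560025977) (nat_lit 76) (nat_lit 3245263707821) (nat_lit 76) (nat_lit 3243792435060) (nat_lit 1) (nat_lit 4) (nat_lit 2) (nat_lit 5) (nat_lit 2) (nat_lit 4) (nat_lit 286) (nat_lit 204) (nat_lit 170)) (XT.nd (nat_lit 78) (nat_lit 0) (nat_lit 0) (XT.lf (nat_lit 0) (nat_lit 5342507311820) (nat_lit 76) (nat_lit 3730088855182) (nat_lit 76) (nat_lit 3728615910843) (nat_lit 1) (nat_lit 4) (nat_lit 2) (nat_lit 5) (nat_lit 2) (nat_lit 4) (nat_lit 287) (nat_lit 204) (nat_lit 169)) (XT.lf (nat_lit 0) (nat_lit 6147439306359) (nat_lit 76) (nat_lit 4287641384166) (nat_lit 76) (nat_lit 4286166986281) (nat_lit 1) (nat_lit 4) (nat_lit 2) (nat_lit 5) (nat_lit 2) (nat_lit 4) (nat_lit 288) (nat_lit 204) (nat_lit 168)))) (XT.nd (nat_lit 31356) (nat_lit 0) (nat_lit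 76) (XT.lf (nat_lit 0) (nat_lit 7073104679051) (nat_lit 76) (nat_lit 4928829931210) (nat_lit 76) (nat_lit 4927354269373) (nat_lit 1) (nat_lit 4) (nat_lit 2) (nat_lit 5) (nat_lit 2) (nat_lit 4) (nat_lit 289) (nat_lit 204) (nat_lit 167)) (XT.nd (nat_lit 78) (nat_lit 0) (nat_lit 0) (XT.lf (nat_lit 0) (nat_lit 13176839059) (nat_lit 152) (nat_lit 11067947509) (nat_lit 0) (nat_lit 13176839059) (nat_lit 2) (nat_lit 5) (nat_lit 4) (nat_lit 4) (nat_lit 2) (nat_lit 4) (nat_lit 250) (nat_lit 205) (nat_lit 205)) (XT.lf (nat_lit 0) (nat_lit 35687823534) (nat_lit 152) (nat_lit 14463147473) (nat_lit 0) (nat_lit 35465210306) (nat_lit 2) (nat_lit 5) (nat_lit 4) (nat_lit 4) (nat_lit 2) (nat_lit 4) (nat_lit 251) (nat_lit 205) (nat_lit 204))))) (XT.nd (nat_lit 234) (nat_lit 0) (nat_lit 0) (XT.nd (nat_lit 78) (nat_lit 76) (nat_lit 0) (XT.lf (nat_lit 0) (nat_lit 45943048760) (nat_lit 152) (nat_lit 6573686742)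 (nat_lit 0) (nat_lit 45526858811) (nat_lit 2) (nat_lit 5) (nat_lit 4) (nat_lit 4) (nat_lit 2) (nat_lit 4) (nat_lit 252) (nat_lit 205) (nat_lit 203)) (XT.nd (nat_lit 78) (nat_lit 0) (nat_lit 0) (XT.lf (nat_lit 0) (nat_lit 1775672517) (nat_lit 76) (nat_lit 55587031957) (nat_lit 76) (nat_lit 55002514425) (nat_lit 1) (nat_lit 4) (nat_lit 2) (nat_lit 5) (nat_lit 2) (nat_lit 4) (nat_lit 253) (nat_lit 205) (nat_lit 202)) (XT.lf (nat_lit 0) (nat_lit 11031932374) (nat_lit 76) (nat_lit 59274654155) (nat_lit 76) (nat_lit 58543764812) (nat_lit 1) (nat_lit 4) (nat_lit 2) (nat_lit 5) (nat_lit 2) (nat_lit 4) (nat_lit 254) (nat_lit 205) (nat_lit 201)))) (XT.nd (nat_lit 156) (nat_lit 0) (nat_lit 0) (XT.nd (nat_lit 78) (nat_lit 0) (nat_lit 0) (XT.lf (nat_lit 0) (nat_lit 21030034869) (nat_lit 76) (nat_lit 63831487472) (nat_lit 76) (nat_lit 62973318293) (nat_lit 1) (nat_lit 4) (nat_lit 2) (nat_lit 5) (nat_lit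 2) (nat_lit 4) (nat_lit 255) (nat_lit 205) (nat_lit 200)) (XT.lf (nat_lit 0) (nat_lit 31965595052) (nat_lit 76) (nat_lit 69346687344) (nat_lit 76) (nat_lit 68377840047) (nat_lit 1) (nat_lit 4) (nat_lit 2) (nat_lit 5) (nat_lit 2) (nat_lit 4) (nat_lit 256) (nat_lit 205) (nat_lit 199))) (XT.nd (nat_lit 78) (nat_lit 0) (nat_lit 0) (XT.lf (nat_lit 0) (nat_lit 44052569535) (nat_lit 76) (nat_lit 75928159854) (nat_lit 76) (nat_lit 74863070715) (nat_lit 1) (nat_lit 4) (nat_lit 2) (nat_lit 5) (nat_lit 2) (nat_lit 4) (nat_lit 257) (nat_lit 205) (nat_lit 198)) (XT.lf (nat_lit 0) (nat_lit 57527442601) (nat_lit 76) (nat_lit 83704672942) (nat_lit 76) (nat_lit 82555895245) (nat_lit 1) (nat_lit 4) (nat_lit 2) (nat_lit 5) (nat_lit 2) (nat_lit 4) (nat_lit 258) (nat_lit 205) (nat_lit 197)))))) (XT.nd (nat_lit 468) (nat_lit 0) (nat_lit 0) (XT.nd (nat_lit 234) (nat_lit 0) (nat_lit 0) (XT.nd (nat_lit 78) (nat_lit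 0) (nat_lit 0) (XT.lf (nat_lit 0) (nat_lit 72653853071) (nat_lit 76) (nat_lit 92828375779) (nat_lit 76) (nat_lit 91606825423) (nat_lit 1) (nat_lit 4) (nat_lit 2) (nat_lit 5) (nat_lit 2) (nat_lit 4) (nat_lit 259) (nat_lit 205) (nat_lit 196)) (XT.nd (nat_lit 78) (nat_lit 0) (nat_lit 0) (XT.lf (nat_lit 0) (nat_lit 89727752454) (nat_lit 76) (nat_lit 103477775593) (nat_lit 76) (nat_lit 102192944663) (nat_lit 1) (nat_lit 4) (nat_lit 2) (nat_lit 5) (nat_lit 2) (nat_lit 4) (nat_lit 260) (nat_lit 205) (nat_lit 195)) (XT.lf (nat_lit 0) (nat_lit 109083195304) (nat_lit 76) (nat_lit 115861230207) (nat_lit 76) (nat_lit 114521372692) (nat_lit 1) (nat_lit 4) (nat_lit 2) (nat_lit 5) (nat_lit 2) (nat_lit 4) (nat_lit 261) (nat_lit 205) (nat_lit 194)))) (XT.nd (nat_lit 78) (nat_lit 0) (nat_lit 0) (XT.lf (nat_lit 0) (nat_lit 131098875067) (nat_lit 76) (nat_lit 130221024602) (nat_lit 76) (nat_lit 128833317882)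 (nat_lit 1) (nat_lit 4) (nat_lit 2) (nat_lit 5) (nat_lit 2) (nat_lit 4) (nat_lit 262) (nat_lit 205) (nat_lit 193)) (XT.nd (nat_lit 78) (nat_lit 0) (nat_lit 0) (XT.lf (nat_lit 0) (nat_lit 156205533304) (nat_lit 76) (nat_lit 146838111278) (nat_lit 76) (nat_lit 145408796554) (nat_lit 1) (nat_lit 4) (nat_lit 2) (nat_lit 5) (nat_lit 2) (nat_lit 4) (nat_lit 263) (nat_lit 205) (nat_lit 192)) (XT.lf (nat_lit 0) (nat_lit 184894387241) (nat_lit 76) (nat_lit 166037607147) (nat_lit 76) (nat_lit 164572111550) (nat_lit 1) (nat_lit 4) (nat_lit 2) (nat_lit 5) (nat_lit 2) (nat_lit 4) (nat_lit 264) (nat_lit 205) (nat_lit 191))))) (XT.nd (nat_lit 234) (nat_lit 0) (nat_lit 0) (XT.nd (nat_lit 78) (nat_lit 0) (nat_lit 0) (XT.lf (nat_lit 0) (nat_lit 217726740543) (nat_lit 76) (nat_lit 188195154520) (nat_lit 76) (nat_lit 186698197294) (nat_lit 1) (nat_lit 4) (nat_lit 2) (nat_lit 5) (nat_lit 2) (nat_lit 4) (nat_lit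 265) (nat_lit 205) (nat_lit 190)) (XT.nd (nat_lit 78) (nat_lit 0) (nat_lit 0) (XT.lf (nat_lit 0) (nat_lit 255344965339) (nat_lit 76) (nat_lit 213744270629) (nat_lit 76) (nat_lit 212219955465) (nat_lit 1) (nat_lit 4) (nat_lit 2) (nat_lit 5) (nat_lit 2) (nat_lit 4) (nat_lit 266) (nat_lit 205) (nat_lit 189)) (XT.lf (nat_lit 0) (nat_lit 298485070375) (nat_lit 76) (nat_lit 243184829484) (nat_lit 76) (nat_lit 241636724808) (nat_lit 1) (nat_lit 4) (nat_lit 2) (nat_lit 5) (nat_lit 2) (nat_lit 4) (nat_lit 267) (nat_lit 205) (nat_lit 188)))) (XT.nd (nat_lit 156) (nat_lit 0) (nat_lit 0) (XT.nd (nat_lit 78) (nat_lit 0) (nat_lit 0) (XT.lf (nat_lit 0) (nat_lit 347991101185) (nat_lit 76) (nat_lit 277092842019) (nat_lit 76) (nat_lit 275524050812) (nat_lit 1) (nat_lit 4) (nat_lit 2) (nat_lit 5) (nat_lit 2) (nat_lit 4) (nat_lit 268) (nat_lit 205) (nat_lit 187)) (XT.lf (nat_lit 0) (nat_lit 404831654023)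 (nat_lit 76) (nat_lit 316131725871) (nat_lit 76) (nat_lit 314544946375) (nat_lit 1) (nat_lit 4) (nat_lit 2) (nat_lit 5) (nat_lit 2) (nat_lit 4) (nat_lit 269) (nat_lit 205) (nat_lit 186))) (XT.nd (nat_lit 78) (nat_lit 0) (nat_lit 0) (XT.lf (nat_lit 0) (nat_lit 470118826662) (nat_lit 76) (nat_lit 361065285289) (nat_lit 76) (nat_lit 359462863803) (nat_lit 1) (nat_lit 4) (nat_lit 2) (nat_lit 5) (nat_lit 2) (nat_lit 4) (nat_lit 270) (nat_lit 205) (nat_lit 185)) (XT.lf (nat_lit 0) (nat_lit 545129976829) (nat_lit 76) (nat_lit 412772655131) (nat_lit 76) (nat_lit 411156631915) (nat_lit 1) (nat_lit 4) (nat_lit 2) (nat_lit 5) (nat_lit 2) (nat_lit 4) (nat_lit 271) (nat_lit 205) (nat_lit 184))))))))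
noncomputable def xc8 : XT := (XT.nd (nat_lit 33072) (nat_lit 0) (nat_lit 0) (XT.nd (nat_lit 936) (nat_lit 0) (nat_lit 0) (XT.nd (nat_lit 468) (nat_lit 0) (nat_lit 0) (XT.nd (nat_lit 234) (nat_lit 0) (nat_lit 0) (XT.nd (nat_lit 78) (nat_lit 0) (nat_lit 0) (XT.lf (nat_lit 0) (nat_lit 631332713982) (nat_lit 76) (nat_lit 472265501329) (nat_lit 76) (nat_lit 470637650522) (nat_lit 1) (nat_lit 4) (nat_lit 2) (nat_lit 5) (nat_lit 2) (nat_lit 4) (nat_lit 272) (nat_lit 205) (nat_lit 183)) (XT.nd (nat_lit 78) (nat_lit 0) (nat_lit 0) (XT.lf (nat_lit 0) (nat_lit 730413613414) (nat_lit 76) (nat_lit 540707814353) (nat_lit 76) (nat_lit 539069678683) (nat_lit 1) (nat_lit 4) (nat_lit 2) (nat_lit 5) (nat_lit 2) (nat_lit 4) (nat_lit 273) (nat_lit 205) (nat_lit 182)) (XT.lf (nat_lit 0) (nat_lit 844311214462) (nat_lit 76) (nat_lit 619438682934) (nat_lit 76) (nat_lit 617791603906) (nat_lit 1) (nat_lit 4) (nat_lit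 2) (nat_lit 5) (nat_lit 2) (nat_lit 4) (nat_lit 274) (nat_lit 205) (nat_lit 181)))) (XT.nd (nat_lit 78) (nat_lit 0) (nat_lit 0) (XT.lf (nat_lit 0) (nat_lit 975253948450) (nat_lit 76) (nat_lit 709998493633) (nat_lit 76) (nat_lit 708343637771) (nat_lit 1) (nat_lit 4) (nat_lit 2) (nat_lit 5) (nat_lit 2) (nat_lit 4) (nat_lit 275) (nat_lit 205) (nat_lit 180)) (XT.nd (nat_lit 78) (nat_lit 0) (nat_lit 0) (XT.lf (nat_lit 0) (nat_lit 1125803738434) (nat_lit 76) (nat_lit 814159068833) (nat_lit 76) (nat_lit 812497450507) (nat_lit 1) (nat_lit 4) (nat_lit 2) (nat_lit 5) (nat_lit 2) (nat_lit 4) (nat_lit 276) (nat_lit 205) (nat_lit 179)) (XT.lf (nat_lit 0) (nat_lit 1298906123785) (nat_lit 76) (nat_lit 933958332830) (nat_lit 76) (nat_lit 932290834101) (nat_lit 1) (nat_lit 4) (nat_lit 2) (nat_lit 5) (nat_lit 2) (nat_lit 4) (nat_lit 277) (nat_lit 205) (nat_lit 178))))) (XT.nd (nat_lit 234) (nat_lit 0)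 (nat_lit 0) (XT.nd (nat_lit 78) (nat_lit 0) (nat_lit 0) (XT.lf (nat_lit 0) (nat_lit 1497947890302) (nat_lit 76) (nat_lit 1071740184269) (nat_lit 76) (nat_lit 1070067572146) (nat_lit 1) (nat_lit 4) (nat_lit 2) (nat_lit 5) (nat_lit 2) (nat_lit 4) (nat_lit 278) (nat_lit 205) (nat_lit 177)) (XT.nd (nat_lit 78) (nat_lit 0) (nat_lit 0) (XT.lf (nat_lit 0) (nat_lit 1726823333417) (nat_lit 76) (nat_lit 1230200355025) (nat_lit 76) (nat_lit 1228523296472) (nat_lit 1) (nat_lit 4) (nat_lit 2) (nat_lit 5) (nat_lit 2) (nat_lit 4) (nat_lit 279) (nat_lit 205) (nat_lit 176)) (XT.lf (nat_lit 0) (nat_lit 1990010450930) (nat_lit 76) (nat_lit 1412439152788) (nat_lit 76) (nat_lit 1410758227774) (nat_lit 1) (nat_lit 4) (nat_lit 2) (nat_lit 5) (nat_lit 2) (nat_lit 4) (nat_lit 280) (nat_lit 205) (nat_lit 175)))) (XT.nd (nat_lit 78) (nat_lit 0) (nat_lit 0) (XT.lf (nat_lit 0) (nat_lit 2292658556010) (nat_lit 76)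 (nat_lit 1622022119251) (nat_lit 76) (nat_lit 1620337832098) (nat_lit 1) (nat_lit 4) (nat_lit 2) (nat_lit 5) (nat_lit 2) (nat_lit 4) (nat_lit 281) (nat_lit 205) (nat_lit 174)) (XT.nd (nat_lit 78) (nat_lit 0) (nat_lit 0) (XT.lf (nat_lit 0) (nat_lit 2640689024627) (nat_lit 76) (nat_lit 1863049790717) (nat_lit 76) (nat_lit 1861362579964) (nat_lit 1) (nat_lit 4) (nat_lit 2) (nat_lit 5) (nat_lit 2) (nat_lit 4) (nat_lit 282) (nat_lit 205) (nat_lit 173)) (XT.lf (nat_lit 0) (nat_lit 3040911148556) (nat_lit 76) (nat_lit 2140237925974) (nat_lit 76) (nat_lit 2138548172960) (nat_lit 1) (nat_lit 4) (nat_lit 2) (nat_lit 5) (nat_lit 2) (nat_lit 4) (nat_lit 283) (nat_lit 205) (nat_lit 172)))))) (XT.nd (nat_lit 31590) (nat_lit 0) (nat_lit 0) (XT.nd (nat_lit 234) (nat_lit 0) (nat_lit 0) (XT.nd (nat_lit 78) (nat_lit 0) (nat_lit 0) (XT.lf (nat_lit 0) (nat_lit 3501155360658) (nat_lit 76) (nat_lit 2459009771147)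 (nat_lit 76) (nat_lit 2457317807471) (nat_lit 1) (nat_lit 4) (nat_lit 2) (nat_lit 5) (nat_lit 2) (nat_lit 4) (nat_lit 284) (nat_lit 205) (nat_lit 171)) (XT.nd (nat_lit 78) (nat_lit 0) (nat_lit 0) (XT.lf (nat_lit 0) (nat_lit 4030426438996) (nat_lit 76) (nat_lit 2825602166684) (nat_lit 76) (nat_lit 2823908280695) (nat_lit 1) (nat_lit 4) (nat_lit 2) (nat_lit 5) (nat_lit 2) (nat_lit 4) (nat_lit 285) (nat_lit 205) (nat_lit 170)) (XT.lf (nat_lit 0) (nat_lit 4639079687276) (nat_lit 76) (nat_lit 3247187572500) (nat_lit 76) (nat_lit 3245492014933) (nat_lit 1) (nat_lit 4) (nat_lit 2) (nat_lit 5) (nat_lit 2) (nat_lit 4) (nat_lit 286) (nat_lit 205) (nat_lit 169)))) (XT.nd (nat_lit 78) (nat_lit 0) (nat_lit 0) (XT.lf (nat_lit 0) (nat_lit 5339023538616) (nat_lit 76) (nat_lit 3732014398707) (nat_lit 76) (nat_lit 3730317387594) (nat_lit 1) (nat_lit 4) (nat_lit 2) (nat_lit 5) (nat_lit 2) (nat_lit 4) (nat_lit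 287) (nat_lit 205) (nat_lit 168)) (XT.nd (nat_lit 78) (nat_lit 0) (nat_lit 0) (XT.lf (nat_lit 0) (nat_lit 6143952546630) (nat_lit 76) (nat_lit 4289568387557) (nat_lit 76) (nat_lit 4287870112491) (nat_lit 1) (nat_lit 4) (nat_lit 2) (nat_lit 5) (nat_lit 2) (nat_lit 4) (nat_lit 288) (nat_lit 205) (nat_lit 167)) (XT.lf (nat_lit 0) (nat_lit 7069615322345) (nat_lit 76) (nat_lit 4930758204050) (nat_lit 76) (nat_lit 4929058829895) (nat_lit 1) (nat_lit 4) (nat_lit 2) (nat_lit 5) (nat_lit 2) (nat_lit 4) (nat_lit 289) (nat_lit 205) (nat_lit 166))))) (XT.nd (nat_lit 234) (nat_lit 76) (nat_lit 0) (XT.nd (nat_lit 78) (nat_lit 0) (nat_lit 0) (XT.lf (nat_lit 0) (nat_lit 5141624081) (nat_lit 152) (nat_lit 18427891271) (nat_lit 0) (nat_lit 5141624081) (nat_lit 2) (nat_lit 5) (nat_lit 4) (nat_lit 4) (nat_lit 2) (nat_lit 4) (nat_lit 248) (nat_lit 206) (nat_lit 206)) (XT.nd (nat_lit 78) (nat_lit 0) (nat_lit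 0) (XT.lf (nat_lit 0) (nat_lit 18013993141) (nat_lit 152) (nat_lit 29742048354) (nat_lit 0) (nat_lit 17757987928) (nat_lit 2) (nat_lit 5) (nat_lit 4) (nat_lit 4) (nat_lit 2) (nat_lit 4) (nat_lit 249) (nat_lit 206) (nat_lit 205)) (XT.lf (nat_lit 0) (nat_lit 26353451562) (nat_lit 152) (nat_lit 22635582828) (nat_lit 0) (nat_lit 25874833121) (nat_lit 2) (nat_lit 5) (nat_lit 4) (nat_lit 4) (nat_lit 2) (nat_lit 4) (nat_lit 250) (nat_lit 206) (nat_lit 204)))) (XT.nd (nat_lit 156) (nat_lit 76) (nat_lit 0) (XT.nd (nat_lit 78) (nat_lit 0) (nat_lit 0) (XT.lf (nat_lit 0) (nat_lit 35464786744) (nat_lit 152) (nat_lit 15397346420) (nat_lit 0) (nat_lit 34792591583) (nat_lit 2) (nat_lit 5) (nat_lit 4) (nat_lit 4) (nat_lit 2) (nat_lit 4) (nat_lit 251) (nat_lit 206) (nat_lit 203)) (XT.lf (nat_lit 0) (nat_lit 45526263941) (nat_lit 152) (nat_lit 7885721462) (nat_lit 0) (nat_lit 44685741197) (nat_lit 2) (nat_lit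 5) (nat_lit 4) (nat_lit 4) (nat_lit 2) (nat_lit 4) (nat_lit 252) (nat_lit 206) (nat_lit 202))) (XT.nd (nat_lit 78) (nat_lit 0) (nat_lit 0) (XT.lf (nat_lit 0) (nat_lit 48694518) (nat_lit 76) (nat_lit 56687214727) (nat_lit 76) (nat_lit 55700320172) (nat_lit 1) (nat_lit 4) (nat_lit 2) (nat_lit 5) (nat_lit 2) (nat_lit 4) (nat_lit 253) (nat_lit 206) (nat_lit 201)) (XT.lf (nat_lit 0) (nat_lit 9004211891) (nat_lit 76) (nat_lit 60521845200) (nat_lit 76) (nat_lit 59407670808) (nat_lit 1) (nat_lit 4) (nat_lit 2) (nat_lit 5) (nat_lit 2) (nat_lit 4) (nat_lit 254) (nat_lit 206) (nat_lit 200))))))) (XT.nd (nat_lit 936) (nat_lit 0) (nat_lit 0) (XT.nd (nat_lit 468) (nat_lit 0) (nat_lit 0) (XT.nd (nat_lit 234) (nat_lit 0) (nat_lit 0) (XT.nd (nat_lit 78) (nat_lit 0) (nat_lit 0) (XT.lf (nat_lit 0) (nat_lit 18740799183) (nat_lit 76) (nat_lit 65206511799) (nat_lit 76) (nat_lit 63981659289) (nat_lit 1) (nat_lit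 4) (nat_lit 2) (nat_lit 5) (nat_lit 2) (nat_lit 4) (nat_lit 255) (nat_lit 206) (nat_lit 199)) (XT.nd (nat_lit 78) (nat_lit 0) (nat_lit 0) (XT.lf (nat_lit 0) (nat_lit 29448954842) (nat_lit 76) (nat_lit 70832871047) (nat_lit 76) (nat_lit 69511776695) (nat_lit 1) (nat_lit 4) (nat_lit 2) (nat_lit 5) (nat_lit 2) (nat_lit 4) (nat_lit 256) (nat_lit 206) (nat_lit 198)) (XT.lf (nat_lit 0) (nat_lit 41338186260) (nat_lit 76) (nat_lit 77511003883) (nat_lit 76) (nat_lit 76106220973) (nat_lit 1) (nat_lit 4) (nat_lit 2) (nat_lit 5) (nat_lit 2) (nat_lit 4) (nat_lit 257) (nat_lit 206) (nat_lit 197)))) (XT.nd (nat_lit 78) (nat_lit 0) (nat_lit 0) (XT.lf (nat_lit 0) (nat_lit 54641108835) (nat_lit 76) (nat_lit 85371569430) (nat_lit 76) (nat_lit 83894013861) (nat_lit 1) (nat_lit 4) (nat_lit 2) (nat_lit 5) (nat_lit 2) (nat_lit 4) (nat_lit 258) (nat_lit 206) (nat_lit 196)) (XT.nd (nat_lit 78) (nat_lit 0) (nat_lit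 0) (XT.lf (nat_lit 0) (nat_lit 69617997139) (nat_lit 76) (nat_lit 94568361360) (nat_lit 76) (nat_lit 93027525218) (nat_lit 1) (nat_lit 4) (nat_lit 2) (nat_lit 5) (nat_lit 2) (nat_lit 4) (nat_lit 259) (nat_lit 206) (nat_lit 195)) (XT.lf (nat_lit 0) (nat_lit 86561877247) (nat_lit 76) (nat_lit 105281316908) (nat_lit 76) (nat_lit 103685454180) (nat_lit 1) (nat_lit 4) (nat_lit 2) (nat_lit 5) (nat_lit 2) (nat_lit 4) (nat_lit 260) (nat_lit 206) (nat_lit 194))))) (XT.nd (nat_lit 234) (nat_lit 0) (nat_lit 0) (XT.nd (nat_lit 78) (nat_lit 0) (nat_lit 0) (XT.lf (nat_lit 0) (nat_lit 105804259857) (nat_lit 76) (nat_lit 117720037377) (nat_lit 76) (nat_lit 116076325445) (nat_lit 1) (nat_lit 4) (nat_lit 2) (nat_lit 5) (nat_lit 2) (nat_lit 4) (nat_lit 261) (nat_lit 206) (nat_lit 193)) (XT.nd (nat_lit 78) (nat_lit 0) (nat_lit 0) (XT.lf (nat_lit 0) (nat_lit 127721626369) (nat_lit 76) (nat_lit 132127889038)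 (nat_lit 76) (nat_lit 130442569101) (nat_lit 1) (nat_lit 4) (nat_lit 2) (nat_lit 5) (nat_lit 2) (nat_lit 4) (nat_lit 262) (nat_lit 206) (nat_lit 192)) (XT.lf (nat_lit 0) (nat_lit 152742794822) (nat_lit 76) (nat_lit 148786764641) (nat_lit 76) (nat_lit 147065263831) (nat_lit 1) (nat_lit 4) (nat_lit 2) (nat_lit 5) (nat_lit 2) (nat_lit 4) (nat_lit 263) (nat_lit 206) (nat_lit 191)))) (XT.nd (nat_lit 78) (nat_lit 0) (nat_lit 0) (XT.lf (nat_lit 0) (nat_lit 181357309817) (nat_lit 76) (nat_lit 168022598707) (nat_lit 76) (nat_lit 166269636268) (nat_lit 1) (nat_lit 4) (nat_lit 2) (nat_lit 5) (nat_lit 2) (nat_lit 4) (nat_lit 264) (nat_lit 206) (nat_lit 190)) (XT.nd (nat_lit 78) (nat_lit 0) (nat_lit 0) (XT.lf (nat_lit 0) (nat_lit 214125020560) (nat_lit 76) (nat_lit 190211744512) (nat_lit 76) (nat_lit 188431424135) (nat_lit 1) (nat_lit 4) (nat_lit 2) (nat_lit 5) (nat_lit 2) (nat_lit 4) (nat_lit 265)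 (nat_lit 206) (nat_lit 189)) (XT.lf (nat_lit 0) (nat_lit 251687034436) (nat_lit 76) (nat_lit 215788337519) (nat_lit 76) (nat_lit 213984227630) (nat_lit 1) (nat_lit 4) (nat_lit 2) (nat_lit 5) (nat_lit 2) (nat_lit 4) (nat_lit 266) (nat_lit 206) (nat_lit 188)))))) (XT.nd (nat_lit 468) (nat_lit 0) (nat_lit 0) (XT.nd (nat_lit 234) (nat_lit 0) (nat_lit 0) (XT.nd (nat_lit 78) (nat_lit 0) (nat_lit 0) (XT.lf (nat_lit 0) (nat_lit 294778260410) (nat_lit 76) (nat_lit 245252789328) (nat_lit 76) (nat_lit 243427992908) (nat_lit 1) (nat_lit 4) (nat_lit 2) (nat_lit 5) (nat_lit 2) (nat_lit 4) (nat_lit 267) (nat_lit 206) (nat_lit 187)) (XT.nd (nat_lit 78) (nat_lit 0) (nat_lit 0) (XT.lf (nat_lit 0) (nat_lit 344241787688) (nat_lit 76) (nat_lit 279181578345) (nat_lit 76) (nat_lit 277338793637) (nat_lit 1) (nat_lit 4) (nat_lit 2) (nat_lit 5) (nat_lit 2) (nat_lit 4) (nat_lit 268) (nat_lit 206) (nat_lit 186))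 (XT.lf (nat_lit 0) (nat_lit 401045380934) (nat_lit 76) (nat_lit 318238528703) (nat_lit 76) (nat_lit 316380102005) (nat_lit 1) (nat_lit 4) (nat_lit 2) (nat_lit 5) (nat_lit 2) (nat_lit 4) (nat_lit 269) (nat_lit 206) (nat_lit 185)))) (XT.nd (nat_lit 78) (nat_lit 0) (nat_lit 0) (XT.lf (nat_lit 0) (nat_lit 466300414797) (nat_lit 76) (nat_lit 363187798127) (nat_lit 76) (nat_lit 361315769698) (nat_lit 1) (nat_lit 4) (nat_lit 2) (nat_lit 5) (nat_lit 2) (nat_lit 4) (nat_lit 270) (nat_lit 206) (nat_lit 184)) (XT.nd (nat_lit 78) (nat_lit 0) (nat_lit 0) (XT.lf (nat_lit 0) (nat_lit 541283618202) (nat_lit 76) (nat_lit 414908828843) (nat_lit 76) (nat_lit 413024972823) (nat_lit 1) (nat_lit 4) (nat_lit 2) (nat_lit 5) (nat_lit 2) (nat_lit 4) (nat_lit 271) (nat_lit 206) (nat_lit 183)) (XT.lf (nat_lit 0) (nat_lit 627462053823) (nat_lit 76) (nat_lit 474413554063) (nat_lit 76) (nat_lit 472519413180) (nat_lit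 1) (nat_lit 4) (nat_lit 2) (nat_lit 5) (nat_lit 2) (nat_lit 4) (nat_lit 272) (nat_lit 206) (nat_lit 182))))) (XT.nd (nat_lit 234) (nat_lit 0) (nat_lit 0) (XT.nd (nat_lit 78) (nat_lit 0) (nat_lit 0) (XT.lf (nat_lit 0) (nat_lit 726521821487) (nat_lit 76) (nat_lit 542866196670) (nat_lit 76) (nat_lit 540963112429) (nat_lit 1) (nat_lit 4) (nat_lit 2) (nat_lit 5) (nat_lit 2) (nat_lit 4) (nat_lit 273) (nat_lit 206) (nat_lit 181)) (XT.nd (nat_lit 78) (nat_lit 0) (nat_lit 0) (XT.lf (nat_lit 0) (nat_lit 840401047085) (nat_lit 76) (nat_lit 621606047498) (nat_lit 76) (nat_lit 619695186423) (nat_lit 1) (nat_lit 4) (nat_lit 2) (nat_lit 5) (nat_lit 2) (nat_lit 4) (nat_lit 274) (nat_lit 206) (nat_lit 180)) (XT.lf (nat_lit 0) (nat_lit 971327802421) (nat_lit 76) (nat_lit 712173668846) (nat_lit 76) (nat_lit 710256045307) (nat_lit 1) (nat_lit 4) (nat_lit 2) (nat_lit 5) (nat_lit 2) (nat_lit 4) (nat_lit 275)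 (nat_lit 206) (nat_lit 179)))) (XT.nd (nat_lit 156) (nat_lit 0) (nat_lit 0) (XT.nd (nat_lit 78) (nat_lit 0) (nat_lit 0) (XT.lf (nat_lit 0) (nat_lit 1121863697926) (nat_lit 76) (nat_lit 816341035914) (nat_lit 76) (nat_lit 814417531972) (nat_lit 1) (nat_lit 4) (nat_lit 2) (nat_lit 5) (nat_lit 2) (nat_lit 4) (nat_lit 276) (nat_lit 206) (nat_lit 178)) (XT.lf (nat_lit 0) (nat_lit 1294954001120) (nat_lit 76) (nat_lit 936146205885) (nat_lit 76) (nat_lit 934217588549) (nat_lit 1) (nat_lit 4) (nat_lit 2) (nat_lit 5) (nat_lit 2) (nat_lit 4) (nat_lit 277) (nat_lit 206) (nat_lit 177))) (XT.nd (nat_lit 78) (nat_lit 0) (nat_lit 0) (XT.lf (nat_lit 0) (nat_lit 1493985261414) (nat_lit 76) (nat_lit 1073933192952) (nat_lit 76) (nat_lit 1072000129186) (nat_lit 1) (nat_lit 4) (nat_lit 2) (nat_lit 5) (nat_lit 2) (nat_lit 4) (nat_lit 278) (nat_lit 206) (nat_lit 176)) (XT.lf (nat_lit 0) (nat_lit 1722851568683)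 (nat_lit 76) (nat_lit 1232397829472) (nat_lit 76) (nat_lit 1230460899246) (nat_lit 1) (nat_lit 4) (nat_lit 2) (nat_lit 5) (nat_lit 2) (nat_lit 4) (nat_lit 279) (nat_lit 206) (nat_lit 175))))))))
noncomputable def xc9 : XT := (XT.nd (nat_lit 32916) (nat_lit 0) (nat_lit 0) (XT.nd (nat_lit 31902) (nat_lit 0) (nat_lit 0) (XT.nd (nat_lit 468) (nat_lit 0) (nat_lit 0) (XT.nd (nat_lit 234) (nat_lit 0) (nat_lit 0) (XT.nd (nat_lit 78) (nat_lit 0) (nat_lit 0) (XT.lf (nat_lit 0) (nat_lit 1986030741983) (nat_lit 76) (nat_lit 1414640510508) (nat_lit 76) (nat_lit 1412700218141) (nat_lit 1) (nat_lit 4) (nat_lit 2) (nat_lit 5) (nat_lit 2) (nat_lit 4) (nat_lit 280) (nat_lit 206) (nat_lit 174)) (XT.nd (nat_lit 78) (nat_lit 0) (nat_lit 0) (XT.lf (nat_lit 0) (nat_lit 2288671939051) (nat_lit 76) (nat_lit 1624226853731) (nat_lit 76) (nat_lit 1622283637765) (nat_lit 1) (nat_lit 4) (nat_lit 2) (nat_lit 5) (nat_lit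 2) (nat_lit 4) (nat_lit 281) (nat_lit 206) (nat_lit 173)) (XT.lf (nat_lit 0) (nat_lit 2636696400700) (nat_lit 76) (nat_lit 1865257461508) (nat_lit 76) (nat_lit 1863311703282) (nat_lit 1) (nat_lit 4) (nat_lit 2) (nat_lit 5) (nat_lit 2) (nat_lit 4) (nat_lit 282) (nat_lit 206) (nat_lit 172)))) (XT.nd (nat_lit 78) (nat_lit 0) (nat_lit 0) (XT.lf (nat_lit 0) (nat_lit 3036913301180) (nat_lit 76) (nat_lit 2142448150080) (nat_lit 76) (nat_lit 2140500181192) (nat_lit 1) (nat_lit 4) (nat_lit 2) (nat_lit 5) (nat_lit 2) (nat_lit 4) (nat_lit 283) (nat_lit 206) (nat_lit 171)) (XT.nd (nat_lit 78) (nat_lit 0) (nat_lit 0) (XT.lf (nat_lit 0) (nat_lit 3497152971152) (nat_lit 76) (nat_lit 2461222215527) (nat_lit 76) (nat_lit 2459272324325) (nat_lit 1) (nat_lit 4) (nat_lit 2) (nat_lit 5) (nat_lit 2) (nat_lit 4) (nat_lit 284) (nat_lit 206) (nat_lit 170)) (XT.lf (nat_lit 0) (nat_lit 4026420099811) (nat_lit 76)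 (nat_lit 2827816541738) (nat_lit 76) (nat_lit 2825864978958) (nat_lit 1) (nat_lit 4) (nat_lit 2) (nat_lit 5) (nat_lit 2) (nat_lit 4) (nat_lit 285) (nat_lit 206) (nat_lit 169))))) (XT.nd (nat_lit 234) (nat_lit 0) (nat_lit 0) (XT.nd (nat_lit 78) (nat_lit 0) (nat_lit 0) (XT.lf (nat_lit 0) (nat_lit 4635069913588) (nat_lit 76) (nat_lit 3249403626400) (nat_lit 76) (nat_lit 3247450610074) (nat_lit 1) (nat_lit 4) (nat_lit 2) (nat_lit 5) (nat_lit 2) (nat_lit 4) (nat_lit 286) (nat_lit 206) (nat_lit 168)) (XT.nd (nat_lit 78) (nat_lit 0) (nat_lit 0) (XT.lf (nat_lit 0) (nat_lit 5335010778404) (nat_lit 76) (nat_lit 3734231912473) (nat_lit 76) (nat_lit 3732277632194) (nat_lit 1) (nat_lit 4) (nat_lit 2) (nat_lit 5) (nat_lit 2) (nat_lit 4) (nat_lit 287) (nat_lit 206) (nat_lit 167)) (XT.lf (nat_lit 0) (nat_lit 6139937189441) (nat_lit 76) (nat_lit 4291787170772) (nat_lit 76) (nat_lit 4289831791404) (nat_lit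 1) (nat_lit 4) (nat_lit 2) (nat_lit 5) (nat_lit 2) (nat_lit 4) (nat_lit 288) (nat_lit 206) (nat_lit 166)))) (XT.nd (nat_lit 31044) (nat_lit 0) (nat_lit 76) (XT.lf (nat_lit 0) (nat_lit 7065597706914) (nat_lit 76) (nat_lit 4932978091133) (nat_lit 76) (nat_lit 4931021756035) (nat_lit 1) (nat_lit 4) (nat_lit 2) (nat_lit 5) (nat_lit 2) (nat_lit 4) (nat_lit 289) (nat_lit 206) (nat_lit 165)) (XT.nd (nat_lit 78) (nat_lit 152) (nat_lit 0) (XT.lf (nat_lit 0) (nat_lit 18943110362) (nat_lit 76) (nat_lit 1615486060) (nat_lit 76) (nat_lit 1615486060) (nat_lit 4) (nat_lit 4) (nat_lit 5) (nat_lit 5) (nat_lit 5) (nat_lit 4) (nat_lit 246) (nat_lit 207) (nat_lit 207)) (XT.lf (nat_lit 0) (nat_lit 3304368918) (nat_lit 152) (nat_lit 44115967146) (nat_lit 0) (nat_lit 3009962924) (nat_lit 2) (nat_lit 5) (nat_lit 4) (nat_lit 4) (nat_lit 2) (nat_lit 4) (nat_lit 247) (nat_lit 207) (nat_lit 206)))))) (XT.nd (nat_lit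 468) (nat_lit 76) (nat_lit 0) (XT.nd (nat_lit 234) (nat_lit 0) (nat_lit 0) (XT.nd (nat_lit 78) (nat_lit 0) (nat_lit 0) (XT.lf (nat_lit 0) (nat_lit 10282987624) (nat_lit 152) (nat_lit 37430423522) (nat_lit 0) (nat_lit 9732576416) (nat_lit 2) (nat_lit 5) (nat_lit 4) (nat_lit 4) (nat_lit 2) (nat_lit 4) (nat_lit 248) (nat_lit 207) (nat_lit 205)) (XT.nd (nat_lit 78) (nat_lit 0) (nat_lit 0) (XT.lf (nat_lit 0) (nat_lit 17757500833) (nat_lit 152) (nat_lit 30816377144) (nat_lit 0) (nat_lit 16984476397) (nat_lit 2) (nat_lit 5) (nat_lit 4) (nat_lit 4) (nat_lit 2) (nat_lit 4) (nat_lit 249) (nat_lit 207) (nat_lit 204)) (XT.lf (nat_lit 0) (nat_lit 25874149020) (nat_lit 152) (nat_lit 24144422756) (nat_lit 0) (nat_lit 24907547864) (nat_lit 2) (nat_lit 5) (nat_lit 4) (nat_lit 4) (nat_lit 2) (nat_lit 4) (nat_lit 250) (nat_lit 207) (nat_lit 203)))) (XT.nd (nat_lit 78) (nat_lit 0) (nat_lit 0) (XT.lf (nat_lit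 0) (nat_lit 34791736174) (nat_lit 152) (nat_lit 17284022120) (nat_lit 0) (nat_lit 33656807434) (nat_lit 2) (nat_lit 5) (nat_lit 4) (nat_lit 4) (nat_lit 2) (nat_lit 4) (nat_lit 251) (nat_lit 207) (nat_lit 202)) (XT.nd (nat_lit 78) (nat_lit 0) (nat_lit 0) (XT.lf (nat_lit 0) (nat_lit 44684736823) (nat_lit 152) (nat_lit 10100950008) (nat_lit 0) (nat_lit 43403436273) (nat_lit 2) (nat_lit 5) (nat_lit 4) (nat_lit 4) (nat_lit 2) (nat_lit 4) (nat_lit 252) (nat_lit 207) (nat_lit 201)) (XT.lf (nat_lit 0) (nat_lit 55746709678) (nat_lit 152) (nat_lit 2454668051) (nat_lit 0) (nat_lit 54338129291) (nat_lit 2) (nat_lit 5) (nat_lit 4) (nat_lit 4) (nat_lit 2) (nat_lit 4) (nat_lit 253) (nat_lit 207) (nat_lit 200))))) (XT.nd (nat_lit 234) (nat_lit 0) (nat_lit 0) (XT.nd (nat_lit 78) (nat_lit 0) (nat_lit 0) (XT.lf (nat_lit 0) (nat_lit 6110075649) (nat_lit 76) (nat_lit 62230956458) (nat_lit 76) (nat_lit 60711697953)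 (nat_lit 1) (nat_lit 4) (nat_lit 2) (nat_lit 5) (nat_lit 2) (nat_lit 4) (nat_lit 254) (nat_lit 207) (nat_lit 199)) (XT.nd (nat_lit 78) (nat_lit 0) (nat_lit 0) (XT.lf (nat_lit 0) (nat_lit 15619258417) (nat_lit 76) (nat_lit 67026782433) (nat_lit 76) (nat_lit 65411282087) (nat_lit 1) (nat_lit 4) (nat_lit 2) (nat_lit 5) (nat_lit 2) (nat_lit 4) (nat_lit 255) (nat_lit 207) (nat_lit 198)) (XT.lf (nat_lit 0) (nat_lit 26129671010) (nat_lit 76) (nat_lit 72749802007) (nat_lit 76) (nat_lit 71050613102) (nat_lit 1) (nat_lit 4) (nat_lit 2) (nat_lit 5) (nat_lit 2) (nat_lit 4) (nat_lit 256) (nat_lit 207) (nat_lit 197)))) (XT.nd (nat_lit 156) (nat_lit 0) (nat_lit 0) (XT.nd (nat_lit 78) (nat_lit 0) (nat_lit 0) (XT.lf (nat_lit 0) (nat_lit 37846951937) (nat_lit 76) (nat_lit 79511987302) (nat_lit 76) (nat_lit 77740025738) (nat_lit 1) (nat_lit 4) (nat_lit 2) (nat_lit 5) (nat_lit 2) (nat_lit 4) (nat_lit 257)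 (nat_lit 207) (nat_lit 196)) (XT.lf (nat_lit 0) (nat_lit 51000352346) (nat_lit 76) (nat_lit 87445641942) (nat_lit 76) (nat_lit 85610399805) (nat_lit 1) (nat_lit 4) (nat_lit 2) (nat_lit 5) (nat_lit 2) (nat_lit 4) (nat_lit 258) (nat_lit 207) (nat_lit 195))) (XT.nd (nat_lit 78) (nat_lit 0) (nat_lit 0) (XT.lf (nat_lit 0) (nat_lit 65847221375) (nat_lit 76) (nat_lit 96705989607) (nat_lit 76) (nat_lit 94815720884) (nat_lit 1) (nat_lit 4) (nat_lit 2) (nat_lit 5) (nat_lit 2) (nat_lit 4) (nat_lit 259) (nat_lit 207) (nat_lit 194)) (XT.lf (nat_lit 0) (nat_lit 82678041244) (nat_lit 76) (nat_lit 107474211010) (nat_lit 76) (nat_lit 105536093082) (nat_lit 1) (nat_lit 4) (nat_lit 2) (nat_lit 5) (nat_lit 2) (nat_lit 4) (nat_lit 260) (nat_lit 207) (nat_lit 193))))))) (XT.nd (nat_lit 936) (nat_lit 0) (nat_lit 0) (XT.nd (nat_lit 468) (nat_lit 0) (nat_lit 0) (XT.nd (nat_lit 234) (nat_lit 0) (nat_lit 0) (XT.nd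 (nat_lit 78) (nat_lit 0) (nat_lit 0) (XT.lf (nat_lit 0) (nat_lit 101822110603) (nat_lit 76) (nat_lit 119960988745) (nat_lit 76) (nat_lit 117981262813) (nat_lit 1) (nat_lit 4) (nat_lit 2) (nat_lit 5) (nat_lit 2) (nat_lit 4) (nat_lit 261) (nat_lit 207) (nat_lit 192)) (XT.nd (nat_lit 78) (nat_lit 0) (nat_lit 0) (XT.lf (nat_lit 0) (nat_lit 123653987331) (nat_lit 76) (nat_lit 134410629332) (nat_lit 76) (nat_lit 132394722528) (nat_lit 1) (nat_lit 4) (nat_lit 2) (nat_lit 5) (nat_lit 2) (nat_lit 4) (nat_lit 262) (nat_lit 207) (nat_lit 191)) (XT.lf (nat_lit 0) (nat_lit 148600816842) (nat_lit 76) (nat_lit 151105843132) (nat_lit 76) (nat_lit 149058474698) (nat_lit 1) (nat_lit 4) (nat_lit 2) (nat_lit 5) (nat_lit 2) (nat_lit 4) (nat_lit 263) (nat_lit 207) (nat_lit 190)))) (XT.nd (nat_lit 78) (nat_lit 0) (nat_lit 0) (XT.lf (nat_lit 0) (nat_lit 177150689278) (nat_lit 76) (nat_lit 170373275630) (nat_lit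 76) (nat_lit 168298549259) (nat_lit 1) (nat_lit 4) (nat_lit 2) (nat_lit 5) (nat_lit 2) (nat_lit 4) (nat_lit 264) (nat_lit 207) (nat_lit 189)) (XT.nd (nat_lit 78) (nat_lit 0) (nat_lit 0) (XT.lf (nat_lit 0) (nat_lit 209862189101) (nat_lit 76) (nat_lit 192589898333) (nat_lit 76) (nat_lit 190491382450) (nat_lit 1) (nat_lit 4) (nat_lit 2) (nat_lit 5) (nat_lit 2) (nat_lit 4) (nat_lit 265) (nat_lit 207) (nat_lit 188)) (XT.lf (nat_lit 0) (nat_lit 247375323915) (nat_lit 76) (nat_lit 218190384294) (nat_lit 76) (nat_lit 216071181879) (nat_lit 1) (nat_lit 4) (nat_lit 2) (nat_lit 5) (nat_lit 2) (nat_lit 4) (nat_lit 266) (nat_lit 207) (nat_lit 187))))) (XT.nd (nat_lit 234) (nat_lit 0) (nat_lit 0) (XT.nd (nat_lit 78) (nat_lit 0) (nat_lit 0) (XT.lf (nat_lit 0) (nat_lit 290424046358) (nat_lit 76) (nat_lit 247675612585) (nat_lit 76) (nat_lit 245538421882) (nat_lit 1) (nat_lit 4) (nat_lit 2) (nat_lit 5)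 (nat_lit 2) (nat_lit 4) (nat_lit 267) (nat_lit 207) (nat_lit 186)) (XT.nd (nat_lit 78) (nat_lit 0) (nat_lit 0) (XT.lf (nat_lit 0) (nat_lit 339850614043) (nat_lit 76) (nat_lit 281622468109) (nat_lit 76) (nat_lit 279469635416) (nat_lit 1) (nat_lit 4) (nat_lit 2) (nat_lit 5) (nat_lit 2) (nat_lit 4) (nat_lit 268) (nat_lit 207) (nat_lit 185)) (XT.lf (nat_lit 0) (nat_lit 396622068512) (nat_lit 76) (nat_lit 320695128472) (nat_lit 76) (nat_lit 318528694049) (nat_lit 1) (nat_lit 4) (nat_lit 2) (nat_lit 5) (nat_lit 2) (nat_lit 4) (nat_lit 269) (nat_lit 207) (nat_lit 184)))) (XT.nd (nat_lit 78) (nat_lit 0) (nat_lit 0) (XT.lf (nat_lit 0) (nat_lit 461849155614) (nat_lit 76) (nat_lit 365658058770) (nat_lit 76) (nat_lit 363479796755) (nat_lit 1) (nat_lit 4) (nat_lit 2) (nat_lit 5) (nat_lit 2) (nat_lit 4) (nat_lit 270) (nat_lit 207) (nat_lit 183)) (XT.nd (nat_lit 78) (nat_lit 0) (nat_lit 0) (XT.lf (nat_lit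 0) (nat_lit 536808057486) (nat_lit 76) (nat_lit 417390968508) (nat_lit 76) (nat_lit 415202421631) (nat_lit 1) (nat_lit 4) (nat_lit 2) (nat_lit 5) (nat_lit 2) (nat_lit 4) (nat_lit 271) (nat_lit 207) (nat_lit 182)) (XT.lf (nat_lit 0) (nat_lit 622965361340) (nat_lit 76) (nat_lit 476906023311) (nat_lit 76) (nat_lit 474708533075) (nat_lit 1) (nat_lit 4) (nat_lit 2) (nat_lit 5) (nat_lit 2) (nat_lit 4) (nat_lit 272) (nat_lit 207) (nat_lit 181)))))) (XT.nd (nat_lit 468) (nat_lit 0) (nat_lit 0) (XT.nd (nat_lit 234) (nat_lit 0) (nat_lit 0) (XT.nd (nat_lit 78) (nat_lit 0) (nat_lit 0) (XT.lf (nat_lit 0) (nat_lit 722006753555) (nat_lit 76) (nat_lit 545367648164) (nat_lit 76) (nat_lit 543162381095) (nat_lit 1) (nat_lit 4) (nat_lit 2) (nat_lit 5) (nat_lit 2) (nat_lit 4) (nat_lit 273) (nat_lit 207) (nat_lit 180)) (XT.nd (nat_lit 78) (nat_lit 0) (nat_lit 0) (XT.lf (nat_lit 0) (nat_lit 835870000501) (nat_lit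 76) (nat_lit 624115309641) (nat_lit 76) (nat_lit 621903280108) (nat_lit 1) (nat_lit 4) (nat_lit 2) (nat_lit 5) (nat_lit 2) (nat_lit 4) (nat_lit 274) (nat_lit 207) (nat_lit 179)) (XT.lf (nat_lit 0) (nat_lit 966782861357) (nat_lit 76) (nat_lit 714689722858) (nat_lit 76) (nat_lit 712471812922) (nat_lit 1) (nat_lit 4) (nat_lit 2) (nat_lit 5) (nat_lit 2) (nat_lit 4) (nat_lit 275) (nat_lit 207) (nat_lit 178)))) (XT.nd (nat_lit 78) (nat_lit 0) (nat_lit 0) (XT.lf (nat_lit 0) (nat_lit 1117306674706) (nat_lit 76) (nat_lit 818862995900) (nat_lit 76) (nat_lit 816639972569) (nat_lit 1) (nat_lit 4) (nat_lit 2) (nat_lit 5) (nat_lit 2) (nat_lit 4) (nat_lit 276) (nat_lit 207) (nat_lit 177)) (XT.nd (nat_lit 78) (nat_lit 0) (nat_lit 0) (XT.lf (nat_lit 0) (nat_lit 1290386471677) (nat_lit 76) (nat_lit 938673301499) (nat_lit 76) (nat_lit 936445831738) (nat_lit 1) (nat_lit 4) (nat_lit 2) (nat_lit 5) (nat_lit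 2) (nat_lit 4) (nat_lit 277) (nat_lit 207) (nat_lit 176)) (XT.lf (nat_lit 0) (nat_lit 1489408596125) (nat_lit 76) (nat_lit 1076464754330) (nat_lit 76) (nat_lit 1074233418109) (nat_lit 1) (nat_lit 4) (nat_lit 2) (nat_lit 5) (nat_lit 2) (nat_lit 4) (nat_lit 278) (nat_lit 207) (nat_lit 175))))) (XT.nd (nat_lit 234) (nat_lit 0) (nat_lit 0) (XT.nd (nat_lit 78) (nat_lit 0) (nat_lit 0) (XT.lf (nat_lit 0) (nat_lit 1718266959180) (nat_lit 76) (nat_lit 1234933274123) (nat_lit 76) (nat_lit 1232698575763) (nat_lit 1) (nat_lit 4) (nat_lit 2) (nat_lit 5) (nat_lit 2) (nat_lit 4) (nat_lit 279) (nat_lit 207) (nat_lit 174)) (XT.nd (nat_lit 78) (nat_lit 0) (nat_lit 0) (XT.lf (nat_lit 0) (nat_lit 1981439224467) (nat_lit 76) (nat_lit 1417179331918) (nat_lit 76) (nat_lit 1414941709957) (nat_lit 1) (nat_lit 4) (nat_lit 2) (nat_lit 5) (nat_lit 2) (nat_lit 4) (nat_lit 280) (nat_lit 207) (nat_lit 173)) (XT.lf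 (nat_lit 0) (nat_lit 2284074414568) (nat_lit 76) (nat_lit 1626768611453) (nat_lit 76) (nat_lit 1624528447232) (nat_lit 1) (nat_lit 4) (nat_lit 2) (nat_lit 5) (nat_lit 2) (nat_lit 4) (nat_lit 281) (nat_lit 207) (nat_lit 172)))) (XT.nd (nat_lit 156) (nat_lit 0) (nat_lit 0) (XT.nd (nat_lit 78) (nat_lit 0) (nat_lit 0) (XT.lf (nat_lit 0) (nat_lit 2632093652768) (nat_lit 76) (nat_lit 1867801772546) (nat_lit 76) (nat_lit 1865559397664) (nat_lit 1) (nat_lit 4) (nat_lit 2) (nat_lit 5) (nat_lit 2) (nat_lit 4) (nat_lit 282) (nat_lit 207) (nat_lit 171)) (XT.lf (nat_lit 0) (nat_lit 3032306011117) (nat_lit 76) (nat_lit 2144994681392) (nat_lit 76) (nat_lit 2142750384195) (nat_lit 1) (nat_lit 4) (nat_lit 2) (nat_lit 5) (nat_lit 2) (nat_lit 4) (nat_lit 283) (nat_lit 207) (nat_lit 170))) (XT.nd (nat_lit 78) (nat_lit 0) (nat_lit 0) (XT.lf (nat_lit 0) (nat_lit 3492541731411) (nat_lit 76) (nat_lit 2463770677512)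 (nat_lit 76) (nat_lit 2461524708737) (nat_lit 1) (nat_lit 4) (nat_lit 2) (nat_lit 5) (nat_lit 2) (nat_lit 4) (nat_lit 284) (nat_lit 207) (nat_lit 169)) (XT.lf (nat_lit 0) (nat_lit 4021805425567) (nat_lit 76) (nat_lit 2830366682569) (nat_lit 76) (nat_lit 2828119260249) (nat_lit 1) (nat_lit 4) (nat_lit 2) (nat_lit 5) (nat_lit 2) (nat_lit 4) (nat_lit 285) (nat_lit 207) (nat_lit 168))))))))
noncomputable def xc10 : XT := (XT.nd (nat_lit 32838) (nat_lit 0) (nat_lit 0) (XT.nd (nat_lit 31824) (nat_lit 0) (nat_lit 0) (XT.nd (nat_lit 31356) (nat_lit 0) (nat_lit 76) (XT.nd (nat_lit 31122) (nat_lit 0) (nat_lit 228) (XT.nd (nat_lit 78) (nat_lit 0) (nat_lit 0) (XT.lf (nat_lit 0) (nat_lit 4630452252820) (nat_lit 76) (nat_lit 3251955227097) (nat_lit 76) (nat_lit 3249706540824) (nat_lit 1) (nat_lit 4) (nat_lit 2) (nat_lit 5) (nat_lit 2) (nat_lit 4) (nat_lit 286) (nat_lit 207) (nat_lit 167)) (XT.nd (nat_lit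 78) (nat_lit 0) (nat_lit 0) (XT.lf (nat_lit 0) (nat_lit 5330390520659) (nat_lit 76) (nat_lit 3736784782619) (nat_lit 76) (nat_lit 3734534997256) (nat_lit 1) (nat_lit 4) (nat_lit 2) (nat_lit 5) (nat_lit 2) (nat_lit 4) (nat_lit 287) (nat_lit 207) (nat_lit 166)) (XT.lf (nat_lit 0) (nat_lit 6135314673454) (nat_lit 76) (nat_lit 4294341144787) (nat_lit 76) (nat_lit 4292090403694) (nat_lit 1) (nat_lit 4) (nat_lit 2) (nat_lit 5) (nat_lit 2) (nat_lit 4) (nat_lit 288) (nat_lit 207) (nat_lit 165)))) (XT.nd (nat_lit 78) (nat_lit 0) (nat_lit 0) (XT.lf (nat_lit 0) (nat_lit 2391626259) (nat_lit 76) (nat_lit 7437136684) (nat_lit 76) (nat_lit 7437136684) (nat_lit 4) (nat_lit 4) (nat_lit 5) (nat_lit 5) (nat_lit 5) (nat_lit 4) (nat_lit 244) (nat_lit 208) (nat_lit 208)) (XT.nd (nat_lit 78) (nat_lit 0) (nat_lit 0) (XT.lf (nat_lit 0) (nat_lit 20497028170) (nat_lit 76) (nat_lit 9476456544) (nat_lit 76) (nat_lit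 9110804299) (nat_lit 4) (nat_lit 4) (nat_lit 5) (nat_lit 5) (nat_lit 5) (nat_lit 4) (nat_lit 245) (nat_lit 208) (nat_lit 207)) (XT.lf (nat_lit 0) (nat_lit 37293482078) (nat_lit 76) (nat_lit 3881543645) (nat_lit 76) (nat_lit 3197932926) (nat_lit 4) (nat_lit 4) (nat_lit 5) (nat_lit 5) (nat_lit 5) (nat_lit 4) (nat_lit 246) (nat_lit 208) (nat_lit 206))))) (XT.nd (nat_lit 234) (nat_lit 0) (nat_lit 0) (XT.nd (nat_lit 78) (nat_lit 0) (nat_lit 0) (XT.lf (nat_lit 0) (nat_lit 3009402764) (nat_lit 152) (nat_lit 45351445254) (nat_lit 0) (nat_lit 2120424663) (nat_lit 2) (nat_lit 5) (nat_lit 4) (nat_lit 4) (nat_lit 2) (nat_lit 4) (nat_lit 247) (nat_lit 208) (nat_lit 205)) (XT.nd (nat_lit 78) (nat_lit 0) (nat_lit 0) (XT.lf (nat_lit 0) (nat_lit 9731789701) (nat_lit 152) (nat_lit 39165589439) (nat_lit 0) (nat_lit 8620198371) (nat_lit 2) (nat_lit 5) (nat_lit 4) (nat_lit 4) (nat_lit 2) (nat_lit 4) (nat_lit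 248) (nat_lit 208) (nat_lit 204)) (XT.lf (nat_lit 0) (nat_lit 16983492676) (nat_lit 152) (nat_lit 32986054199) (nat_lit 0) (nat_lit 15678324626) (nat_lit 2) (nat_lit 5) (nat_lit 4) (nat_lit 4) (nat_lit 2) (nat_lit 4) (nat_lit 249) (nat_lit 208) (nat_lit 203)))) (XT.nd (nat_lit 78) (nat_lit 0) (nat_lit 0) (XT.lf (nat_lit 0) (nat_lit 24906392835) (nat_lit 152) (nat_lit 26691935583) (nat_lit 0) (nat_lit 23432897202) (nat_lit 2) (nat_lit 5) (nat_lit 4) (nat_lit 4) (nat_lit 2) (nat_lit 4) (nat_lit 250) (nat_lit 208) (nat_lit 202)) (XT.nd (nat_lit 78) (nat_lit 0) (nat_lit 0) (XT.lf (nat_lit 0) (nat_lit 33655503441) (nat_lit 152) (nat_lit 20160087794) (nat_lit 0) (nat_lit 32035635996) (nat_lit 2) (nat_lit 5) (nat_lit 4) (nat_lit 4) (nat_lit 2) (nat_lit 4) (nat_lit 251) (nat_lit 208) (nat_lit 201)) (XT.lf (nat_lit 0) (nat_lit 43402002745) (nat_lit 152) (nat_lit 13262713808) (nat_lit 0) (nat_lit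 41654855465) (nat_lit 2) (nat_lit 5) (nat_lit 4) (nat_lit 4) (nat_lit 2) (nat_lit 4) (nat_lit 252) (nat_lit 208) (nat_lit 200)))))) (XT.nd (nat_lit 468) (nat_lit 0) (nat_lit 0) (XT.nd (nat_lit 234) (nat_lit 0) (nat_lit 0) (XT.nd (nat_lit 78) (nat_lit 76) (nat_lit 0) (XT.lf (nat_lit 0) (nat_lit 54336583125) (nat_lit 152) (nat_lit 5864865004) (nat_lit 0) (nat_lit 52478757727) (nat_lit 2) (nat_lit 5) (nat_lit 4) (nat_lit 4) (nat_lit 2) (nat_lit 4) (nat_lit 253) (nat_lit 208) (nat_lit 199)) (XT.nd (nat_lit 78) (nat_lit 0) (nat_lit 0) (XT.lf (nat_lit 0) (nat_lit 2292899243) (nat_lit 76) (nat_lit 64435427063) (nat_lit 76) (nat_lit 62481359822) (nat_lit 1) (nat_lit 4) (nat_lit 2) (nat_lit 5) (nat_lit 2) (nat_lit 4) (nat_lit 254) (nat_lit 208) (nat_lit 198)) (XT.lf (nat_lit 0) (nat_lit 11604338946) (nat_lit 76) (nat_lit 69327913364) (nat_lit 76) (nat_lit 67290157566) (nat_lit 1) (nat_lit 4) (nat_lit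 2) (nat_lit 5) (nat_lit 2) (nat_lit 4) (nat_lit 255) (nat_lit 208) (nat_lit 197)))) (XT.nd (nat_lit 78) (nat_lit 0) (nat_lit 0) (XT.lf (nat_lit 0) (nat_lit 21942801048) (nat_lit 76) (nat_lit 75134985396) (nat_lit 76) (nat_lit 73024456939) (nat_lit 1) (nat_lit 4) (nat_lit 2) (nat_lit 5) (nat_lit 2) (nat_lit 4) (nat_lit 256) (nat_lit 208) (nat_lit 196)) (XT.nd (nat_lit 78) (nat_lit 0) (nat_lit 0) (XT.lf (nat_lit 0) (nat_lit 33510559809) (nat_lit 76) (nat_lit 81970259785) (nat_lit 76) (nat_lit 79796450754) (nat_lit 1) (nat_lit 4) (nat_lit 2) (nat_lit 5) (nat_lit 2) (nat_lit 4) (nat_lit 257) (nat_lit 208) (nat_lit 195)) (XT.lf (nat_lit 0) (nat_lit 46533940943) (nat_lit 76) (nat_lit 89967470159) (nat_lit 76) (nat_lit 87738634543) (nat_lit 1) (nat_lit 4) (nat_lit 2) (nat_lit 5) (nat_lit 2) (nat_lit 4) (nat_lit 258) (nat_lit 208) (nat_lit 194))))) (XT.nd (nat_lit 234) (nat_lit 0) (nat_lit 0)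 (XT.nd (nat_lit 78) (nat_lit 0) (nat_lit 0) (XT.lf (nat_lit 0) (nat_lit 61267749733) (nat_lit 76) (nat_lit 99283083679) (nat_lit 76) (nat_lit 97006398858) (nat_lit 1) (nat_lit 4) (nat_lit 2) (nat_lit 5) (nat_lit 2) (nat_lit 4) (nat_lit 259) (nat_lit 208) (nat_lit 193)) (XT.nd (nat_lit 78) (nat_lit 0) (nat_lit 0) (XT.lf (nat_lit 0) (nat_lit 78000256351) (nat_lit 76) (nat_lit 110099362348) (nat_lit 76) (nat_lit 107781069523) (nat_lit 1) (nat_lit 4) (nat_lit 2) (nat_lit 5) (nat_lit 2) (nat_lit 4) (nat_lit 260) (nat_lit 208) (nat_lit 192)) (XT.lf (nat_lit 0) (nat_lit 97058835926) (nat_lit 76) (nat_lit 122627929009) (nat_lit 76) (nat_lit 120273455311) (nat_lit 1) (nat_lit 4) (nat_lit 2) (nat_lit 5) (nat_lit 2) (nat_lit 4) (nat_lit 261) (nat_lit 208) (nat_lit 191)))) (XT.nd (nat_lit 156) (nat_lit 0) (nat_lit 0) (XT.nd (nat_lit 78) (nat_lit 0) (nat_lit 0) (XT.lf (nat_lit 0) (nat_lit 118816373711)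 (nat_lit 76) (nat_lit 137113907794) (nat_lit 76) (nat_lit 134727972467) (nat_lit 1) (nat_lit 4) (nat_lit 2) (nat_lit 5) (nat_lit 2) (nat_lit 4) (nat_lit 262) (nat_lit 208) (nat_lit 190)) (XT.lf (nat_lit 0) (nat_lit 143698560664) (nat_lit 76) (nat_lit 153840720026) (nat_lit 76) (nat_lit 151427426760) (nat_lit 1) (nat_lit 4) (nat_lit 2) (nat_lit 5) (nat_lit 2) (nat_lit 4) (nat_lit 263) (nat_lit 208) (nat_lit 189))) (XT.nd (nat_lit 78) (nat_lit 0) (nat_lit 0) (XT.lf (nat_lit 0) (nat_lit 172192222179) (nat_lit 76) (nat_lit 173135629422) (nat_lit 76) (nat_lit 170698546645) (nat_lit 1) (nat_lit 4) (nat_lit 2) (nat_lit 5) (nat_lit 2) (nat_lit 4) (nat_lit 264) (nat_lit 208) (nat_lit 188)) (XT.lf (nat_lit 0) (nat_lit 204854842941) (nat_lit 76) (nat_lit 195376145079) (nat_lit 76) (nat_lit 192918375771) (nat_lit 1) (nat_lit 4) (nat_lit 2) (nat_lit 5) (nat_lit 2) (nat_lit 4) (nat_lit 265) (nat_lit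 208) (nat_lit 187))))))) (XT.nd (nat_lit 936) (nat_lit 0) (nat_lit 0) (XT.nd (nat_lit 468) (nat_lit 0) (nat_lit 0) (XT.nd (nat_lit 234) (nat_lit 0) (nat_lit 0) (XT.nd (nat_lit 78) (nat_lit 0) (nat_lit 0) (XT.lf (nat_lit 0) (nat_lit 242325474223) (nat_lit 76) (nat_lit 220997407522) (nat_lit 76) (nat_lit 218521649925) (nat_lit 1) (nat_lit 4) (nat_lit 2) (nat_lit 5) (nat_lit 2) (nat_lit 4) (nat_lit 266) (nat_lit 208) (nat_lit 186)) (XT.nd (nat_lit 78) (nat_lit 0) (nat_lit 0) (XT.lf (nat_lit 0) (nat_lit 285337237073) (nat_lit 76) (nat_lit 250500702320) (nat_lit 76) (nat_lit 248009302733) (nat_lit 1) (nat_lit 4) (nat_lit 2) (nat_lit 5) (nat_lit 2) (nat_lit 4) (nat_lit 267) (nat_lit 208) (nat_lit 185)) (XT.lf (nat_lit 0) (nat_lit 334731665982) (nat_lit 76) (nat_lit 284463267849) (nat_lit 76) (nat_lit 281958266532) (nat_lit 1) (nat_lit 4) (nat_lit 2) (nat_lit 5) (nat_lit 2) (nat_lit 4) (nat_lit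 268) (nat_lit 208) (nat_lit 184)))) (XT.nd (nat_lit 78) (nat_lit 0) (nat_lit 0) (XT.lf (nat_lit 0) (nat_lit 391475173690) (nat_lit 76) (nat_lit 323549589086) (nat_lit 76) (nat_lit 321032760178) (nat_lit 1) (nat_lit 4) (nat_lit 2) (nat_lit 5) (nat_lit 2) (nat_lit 4) (nat_lit 269) (nat_lit 208) (nat_lit 183)) (XT.nd (nat_lit 78) (nat_lit 0) (nat_lit 0) (XT.lf (nat_lit 0) (nat_lit 456677959259) (nat_lit 76) (nat_lit 368524398405) (nat_lit 76) (nat_lit 365997284634) (nat_lit 1) (nat_lit 4) (nat_lit 2) (nat_lit 5) (nat_lit 2) (nat_lit 4) (nat_lit 270) (nat_lit 208) (nat_lit 182)) (XT.lf (nat_lit 0) (nat_lit 531615729364) (nat_lit 76) (nat_lit 420267637726) (nat_lit 76) (nat_lit 417731580597) (nat_lit 1) (nat_lit 4) (nat_lit 2) (nat_lit 5) (nat_lit 2) (nat_lit 4) (nat_lit 271) (nat_lit 208) (nat_lit 181))))) (XT.nd (nat_lit 234) (nat_lit 0) (nat_lit 0) (XT.nd (nat_lit 78) (nat_lit 0) (nat_lit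 0) (XT.lf (nat_lit 0) (nat_lit 617754657768) (nat_lit 76) (nat_lit 479791674776) (nat_lit 76) (nat_lit 477247840813) (nat_lit 1) (nat_lit 4) (nat_lit 2) (nat_lit 5) (nat_lit 2) (nat_lit 4) (nat_lit 272) (nat_lit 208) (nat_lit 180)) (XT.nd (nat_lit 78) (nat_lit 0) (nat_lit 0) (XT.lf (nat_lit 0) (nat_lit 716780071331) (nat_lit 76) (nat_lit 548261110279) (nat_lit 76) (nat_lit 545710513852) (nat_lit 1) (nat_lit 4) (nat_lit 2) (nat_lit 5) (nat_lit 2) (nat_lit 4) (nat_lit 273) (nat_lit 208) (nat_lit 179)) (XT.lf (nat_lit 0) (nat_lit 830629423798) (nat_lit 76) (nat_lit 627015563625) (nat_lit 76) (nat_lit 624459086794) (nat_lit 1) (nat_lit 4) (nat_lit 2) (nat_lit 5) (nat_lit 2) (nat_lit 4) (nat_lit 274) (nat_lit 208) (nat_lit 178)))) (XT.nd (nat_lit 78) (nat_lit 0) (nat_lit 0) (XT.lf (nat_lit 0) (nat_lit 961530202497) (nat_lit 76) (nat_lit 717595882815) (nat_lit 76) (nat_lit 715034292590) (nat_lit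 1) (nat_lit 4) (nat_lit 2) (nat_lit 5) (nat_lit 2) (nat_lit 4) (nat_lit 275) (nat_lit 208) (nat_lit 177)) (XT.nd (nat_lit 78) (nat_lit 0) (nat_lit 0) (XT.lf (nat_lit 0) (nat_lit 1112043509623) (nat_lit 76) (nat_lit 821774291485) (nat_lit 76) (nat_lit 819208254830) (nat_lit 1) (nat_lit 4) (nat_lit 2) (nat_lit 5) (nat_lit 2) (nat_lit 4) (nat_lit 276) (nat_lit 208) (nat_lit 176)) (XT.lf (nat_lit 0) (nat_lit 1285114170748) (nat_lit 76) (nat_lit 941589062848) (nat_lit 76) (nat_lit 939019159733) (nat_lit 1) (nat_lit 4) (nat_lit 2) (nat_lit 5) (nat_lit 2) (nat_lit 4) (nat_lit 277) (nat_lit 208) (nat_lit 175)))))) (XT.nd (nat_lit 468) (nat_lit 0) (nat_lit 0) (XT.nd (nat_lit 234) (nat_lit 0) (nat_lit 0) (XT.nd (nat_lit 78) (nat_lit 0) (nat_lit 0) (XT.lf (nat_lit 0) (nat_lit 1484128350982) (nat_lit 76) (nat_lit 1079384398952) (nat_lit 76) (nat_lit 1076811133697) (nat_lit 1) (nat_lit 4) (nat_lit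 2) (nat_lit 5) (nat_lit 2) (nat_lit 4) (nat_lit 278) (nat_lit 208) (nat_lit 174)) (XT.nd (nat_lit 78) (nat_lit 0) (nat_lit 0) (XT.lf (nat_lit 0) (nat_lit 1712979806025) (nat_lit 76) (nat_lit 1237856295505) (nat_lit 76) (nat_lit 1235280106650) (nat_lit 1) (nat_lit 4) (nat_lit 2) (nat_lit 5) (nat_lit 2) (nat_lit 4) (nat_lit 279) (nat_lit 208) (nat_lit 173)) (XT.lf (nat_lit 0) (nat_lit 1976146064345) (nat_lit 76) (nat_lit 1420105289611) (nat_lit 76) (nat_lit 1417526558496) (nat_lit 1) (nat_lit 4) (nat_lit 2) (nat_lit 5) (nat_lit 2) (nat_lit 4) (nat_lit 280) (nat_lit 208) (nat_lit 172)))) (XT.nd (nat_lit 78) (nat_lit 0) (nat_lit 0) (XT.lf (nat_lit 0) (nat_lit 2278776030996) (nat_lit 76) (nat_lit 1629697122462) (nat_lit 76) (nat_lit 1627116180685) (nat_lit 1) (nat_lit 4) (nat_lit 2) (nat_lit 5) (nat_lit 2) (nat_lit 4) (nat_lit 281) (nat_lit 208) (nat_lit 171)) (XT.nd (nat_lit 78) (nat_lit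 0) (nat_lit 0) (XT.lf (nat_lit 0) (nat_lit 2626790727066) (nat_lit 76) (nat_lit 1870732503829) (nat_lit 76) (nat_lit 1868149639738) (nat_lit 1) (nat_lit 4) (nat_lit 2) (nat_lit 5) (nat_lit 2) (nat_lit 4) (nat_lit 282) (nat_lit 208) (nat_lit 170)) (XT.lf (nat_lit 0) (nat_lit 3026999135737) (nat_lit 76) (nat_lit 2147927343348) (nat_lit 76) (nat_lit 2145342807679) (nat_lit 1) (nat_lit 4) (nat_lit 2) (nat_lit 5) (nat_lit 2) (nat_lit 4) (nat_lit 283) (nat_lit 208) (nat_lit 169))))) (XT.nd (nat_lit 234) (nat_lit 0) (nat_lit 0) (XT.nd (nat_lit 78) (nat_lit 0) (nat_lit 0) (XT.lf (nat_lit 0) (nat_lit 3487231421528) (nat_lit 76) (nat_lit 2466705018314) (nat_lit 76) (nat_lit 2464119029099) (nat_lit 1) (nat_lit 4) (nat_lit 2) (nat_lit 5) (nat_lit 2) (nat_lit 4) (nat_lit 284) (nat_lit 208) (nat_lit 168)) (XT.nd (nat_lit 78) (nat_lit 0) (nat_lit 0) (XT.lf (nat_lit 0) (nat_lit 4016492129160) (nat_lit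 76) (nat_lit 2833302483237) (nat_lit 76) (nat_lit 2830715230070) (nat_lit 1) (nat_lit 4) (nat_lit 2) (nat_lit 5) (nat_lit 2) (nat_lit 4) (nat_lit 285) (nat_lit 208) (nat_lit 167)) (XT.lf (nat_lit 0) (nat_lit 4625136359435) (nat_lit 76) (nat_lit 3254892297213) (nat_lit 76) (nat_lit 3252303944957) (nat_lit 1) (nat_lit 4) (nat_lit 2) (nat_lit 5) (nat_lit 2) (nat_lit 4) (nat_lit 286) (nat_lit 208) (nat_lit 166)))) (XT.nd (nat_lit 30888) (nat_lit 0) (nat_lit 304) (XT.nd (nat_lit 78) (nat_lit 0) (nat_lit 0) (XT.lf (nat_lit 0) (nat_lit 5325072369032) (nat_lit 76) (nat_lit 3739722956604) (nat_lit 76) (nat_lit 3737133648618) (nat_lit 1) (nat_lit 4) (nat_lit 2) (nat_lit 5) (nat_lit 2) (nat_lit 4) (nat_lit 287) (nat_lit 208) (nat_lit 165)) (XT.lf (nat_lit 0) (nat_lit 6129994558139) (nat_lit 76) (nat_lit 4297280278657) (nat_lit 76) (nat_lit 4294690139601) (nat_lit 1) (nat_lit 4) (nat_lit 2) (nat_lit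 5) (nat_lit 2) (nat_lit 4) (nat_lit 288) (nat_lit 208) (nat_lit 164))) (XT.nd (nat_lit 78) (nat_lit 0) (nat_lit 0) (XT.lf (nat_lit 0) (nat_lit 1144513514) (nat_lit 152) (nat_lit 11317525780) (nat_lit 0) (nat_lit 1144513514) (nat_lit 5) (nat_lit 5) (nat_lit 7) (nat_lit 4) (nat_lit 5) (nat_lit 4) (nat_lit 242) (nat_lit 209) (nat_lit 209)) (XT.lf (nat_lit 0) (nat_lit 10690050275) (nat_lit 152) (nat_lit 9647279661) (nat_lit 0) (nat_lit 10269550193) (nat_lit 5) (nat_lit 5) (nat_lit 7) (nat_lit 4) (nat_lit 5) (nat_lit 4) (nat_lit 243) (nat_lit 209) (nat_lit 208))))))))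
noncomputable def xc11 : XT := (XT.nd (nat_lit 1950) (nat_lit 0) (nat_lit 0) (XT.nd (nat_lit 936) (nat_lit 0) (nat_lit 0) (XT.nd (nat_lit 468) (nat_lit 76) (nat_lit 0) (XT.nd (nat_lit 234) (nat_lit 152) (nat_lit 0) (XT.nd (nat_lit 78) (nat_lit 0) (nat_lit 0) (XT.lf (nat_lit 0) (nat_lit 4101603075) (nat_lit 76) (nat_lit 15622430621) (nat_lit 76) (nat_lit 14836278293) (nat_lit 4) (nat_lit 4) (nat_lit 5) (nat_lit 5) (nat_lit 5) (nat_lit 4) (nat_lit 244) (nat_lit 209) (nat_lit 207)) (XT.nd (nat_lit 78) (nat_lit 0) (nat_lit 0) (XT.lf (nat_lit 0) (nat_lit 19222640079) (nat_lit 76) (nat_lit 10509533075) (nat_lit 76) (nat_lit 9405422273) (nat_lit 4) (nat_lit 4) (nat_lit 5) (nat_lit 5) (nat_lit 5) (nat_lit 4) (nat_lit 245) (nat_lit 209) (nat_lit 206)) (XT.lf (nat_lit 0) (nat_lit 35503669076) (nat_lit 76) (nat_lit 5162376071) (nat_lit 76) (nat_lit 3781779639) (nat_lit 4) (nat_lit 4) (nat_lit 5)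 (nat_lit 5) (nat_lit 5) (nat_lit 4) (nat_lit 246) (nat_lit 209) (nat_lit 205)))) (XT.nd (nat_lit 78) (nat_lit 0) (nat_lit 0) (XT.lf (nat_lit 0) (nat_lit 2119293384) (nat_lit 152) (nat_lit 47846573867) (nat_lit 0) (nat_lit 618350126) (nat_lit 2) (nat_lit 5) (nat_lit 4) (nat_lit 4) (nat_lit 2) (nat_lit 4) (nat_lit 247) (nat_lit 209) (nat_lit 204)) (XT.nd (nat_lit 78) (nat_lit 0) (nat_lit 0) (XT.lf (nat_lit 0) (nat_lit 8618870087) (nat_lit 152) (nat_lit 42095229191) (nat_lit 0) (nat_lit 6924350109) (nat_lit 2) (nat_lit 5) (nat_lit 4) (nat_lit 4) (nat_lit 2) (nat_lit 4) (nat_lit 248) (nat_lit 209) (nat_lit 203)) (XT.lf (nat_lit 0) (nat_lit 15676825033) (nat_lit 152) (nat_lit 36293529723) (nat_lit 0) (nat_lit 13813977472) (nat_lit 2) (nat_lit 5) (nat_lit 4) (nat_lit 4) (nat_lit 2) (nat_lit 4) (nat_lit 249) (nat_lit 209) (nat_lit 202))))) (XT.nd (nat_lit 234) (nat_lit 76) (nat_lit 0) (XT.nd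 (nat_lit 78) (nat_lit 0) (nat_lit 0) (XT.lf (nat_lit 0) (nat_lit 23431248645) (nat_lit 152) (nat_lit 30327963953) (nat_lit 0) (nat_lit 21422029272) (nat_lit 2) (nat_lit 5) (nat_lit 4) (nat_lit 4) (nat_lit 2) (nat_lit 4) (nat_lit 250) (nat_lit 209) (nat_lit 201)) (XT.nd (nat_lit 78) (nat_lit 0) (nat_lit 0) (XT.lf (nat_lit 0) (nat_lit 32033857905) (nat_lit 152) (nat_lit 24081814290) (nat_lit 0) (nat_lit 29897358697) (nat_lit 2) (nat_lit 5) (nat_lit 4) (nat_lit 4) (nat_lit 2) (nat_lit 4) (nat_lit 251) (nat_lit 209) (nat_lit 200)) (XT.lf (nat_lit 0) (nat_lit 41652964735) (nat_lit 152) (nat_lit 17432873458) (nat_lit 0) (nat_lit 39405787409) (nat_lit 2) (nat_lit 5) (nat_lit 4) (nat_lit 4) (nat_lit 2) (nat_lit 4) (nat_lit 252) (nat_lit 209) (nat_lit 199)))) (XT.nd (nat_lit 78) (nat_lit 76) (nat_lit 0) (XT.lf (nat_lit 0) (nat_lit 52476769051) (nat_lit 152) (nat_lit 10251053483) (nat_lit 0) (nat_lit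 50133349883) (nat_lit 2) (nat_lit 5) (nat_lit 4) (nat_lit 4) (nat_lit 2) (nat_lit 4) (nat_lit 253) (nat_lit 209) (nat_lit 198)) (XT.nd (nat_lit 78) (nat_lit 76) (nat_lit 0) (XT.lf (nat_lit 0) (nat_lit 64717040937) (nat_lit 152) (nat_lit 2395840498) (nat_lit 0) (nat_lit 62289933211) (nat_lit 2) (nat_lit 5) (nat_lit 4) (nat_lit 4) (nat_lit 2) (nat_lit 4) (nat_lit 254) (nat_lit 209) (nat_lit 197)) (XT.lf (nat_lit 0) (nat_lit 6617487998) (nat_lit 76) (nat_lit 72154926720) (nat_lit 76) (nat_lit 69655046334) (nat_lit 1) (nat_lit 4) (nat_lit 2) (nat_lit 5) (nat_lit 2) (nat_lit 4) (nat_lit 255) (nat_lit 209) (nat_lit 196)))))) (XT.nd (nat_lit 468) (nat_lit 0) (nat_lit 0) (XT.nd (nat_lit 234) (nat_lit 0) (nat_lit 0) (XT.nd (nat_lit 78) (nat_lit 0) (nat_lit 0) (XT.lf (nat_lit 0) (nat_lit 16806427935) (nat_lit 76) (nat_lit 78035087846) (nat_lit 76) (nat_lit 75471926887) (nat_lit 1) (nat_lit 4) (nat_lit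 2) (nat_lit 5) (nat_lit 2) (nat_lit 4) (nat_lit 256) (nat_lit 209) (nat_lit 195)) (XT.nd (nat_lit 78) (nat_lit 0) (nat_lit 0) (XT.lf (nat_lit 0) (nat_lit 28244167421) (nat_lit 76) (nat_lit 84933917968) (nat_lit 76) (nat_lit 82315730424) (nat_lit 1) (nat_lit 4) (nat_lit 2) (nat_lit 5) (nat_lit 2) (nat_lit 4) (nat_lit 257) (nat_lit 209) (nat_lit 194)) (XT.lf (nat_lit 0) (nat_lit 41154488315) (nat_lit 76) (nat_lit 92986394198) (nat_lit 76) (nat_lit 90320357449) (nat_lit 1) (nat_lit 4) (nat_lit 2) (nat_lit 5) (nat_lit 2) (nat_lit 4) (nat_lit 258) (nat_lit 209) (nat_lit 193)))) (XT.nd (nat_lit 78) (nat_lit 0) (nat_lit 0) (XT.lf (nat_lit 0) (nat_lit 55789983854) (nat_lit 76) (nat_lit 102350064983) (nat_lit 76) (nat_lit 99642420230) (nat_lit 1) (nat_lit 4) (nat_lit 2) (nat_lit 5) (nat_lit 2) (nat_lit 4) (nat_lit 259) (nat_lit 209) (nat_lit 192)) (XT.nd (nat_lit 78) (nat_lit 0) (nat_lit 0) (XT.lf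 (nat_lit 0) (nat_lit 72437000688) (nat_lit 76) (nat_lit 113208132579) (nat_lit 76) (nat_lit 110464306953) (nat_lit 1) (nat_lit 4) (nat_lit 2) (nat_lit 5) (nat_lit 2) (nat_lit 4) (nat_lit 260) (nat_lit 209) (nat_lit 191)) (XT.lf (nat_lit 0) (nat_lit 91421241321) (nat_lit 76) (nat_lit 125773037438) (nat_lit 76) (nat_lit 122997750182) (nat_lit 1) (nat_lit 4) (nat_lit 2) (nat_lit 5) (nat_lit 2) (nat_lit 4) (nat_lit 261) (nat_lit 209) (nat_lit 190))))) (XT.nd (nat_lit 234) (nat_lit 0) (nat_lit 0) (XT.nd (nat_lit 78) (nat_lit 0) (nat_lit 0) (XT.lf (nat_lit 0) (nat_lit 113114136548) (nat_lit 76) (nat_lit 140290614654) (nat_lit 76) (nat_lit 137487969461) (nat_lit 1) (nat_lit 4) (nat_lit 2) (nat_lit 5) (nat_lit 2) (nat_lit 4) (nat_lit 262) (nat_lit 209) (nat_lit 189)) (XT.nd (nat_lit 78) (nat_lit 0) (nat_lit 0) (XT.lf (nat_lit 0) (nat_lit 137940112579) (nat_lit 76) (nat_lit 157044903784) (nat_lit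 76) (nat_lit 154218469079) (nat_lit 1) (nat_lit 4) (nat_lit 2) (nat_lit 5) (nat_lit 2) (nat_lit 4) (nat_lit 263) (nat_lit 209) (nat_lit 188)) (XT.lf (nat_lit 0) (nat_lit 166384895034) (nat_lit 76) (nat_lit 176363706134) (nat_lit 76) (nat_lit 173516584898) (nat_lit 1) (nat_lit 4) (nat_lit 2) (nat_lit 5) (nat_lit 2) (nat_lit 4) (nat_lit 264) (nat_lit 209) (nat_lit 187)))) (XT.nd (nat_lit 156) (nat_lit 0) (nat_lit 0) (XT.nd (nat_lit 78) (nat_lit 0) (nat_lit 0) (XT.lf (nat_lit 0) (nat_lit 199005012263) (nat_lit 76) (nat_lit 198624998274) (nat_lit 76) (nat_lit 195759888749) (nat_lit 1) (nat_lit 4) (nat_lit 2) (nat_lit 5) (nat_lit 2) (nat_lit 4) (nat_lit 265) (nat_lit 209) (nat_lit 186)) (XT.lf (nat_lit 0) (nat_lit 236438683953) (nat_lit 76) (nat_lit 224264327223) (nat_lit 76) (nat_lit 221383575708) (nat_lit 1) (nat_lit 4) (nat_lit 2) (nat_lit 5) (nat_lit 2) (nat_lit 4) (nat_lit 266) (nat_lit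 209) (nat_lit 185))) (XT.nd (nat_lit 78) (nat_lit 0) (nat_lit 0) (XT.lf (nat_lit 0) (nat_lit 279418308027) (nat_lit 76) (nat_lit 253783332026) (nat_lit 76) (nat_lit 250888978781) (nat_lit 1) (nat_lit 4) (nat_lit 2) (nat_lit 5) (nat_lit 2) (nat_lit 4) (nat_lit 267) (nat_lit 209) (nat_lit 184)) (XT.lf (nat_lit 0) (nat_lit 328784790174) (nat_lit 76) (nat_lit 287759558429) (nat_lit 76) (nat_lit 284853377592) (nat_lit 1) (nat_lit 4) (nat_lit 2) (nat_lit 5) (nat_lit 2) (nat_lit 4) (nat_lit 268) (nat_lit 209) (nat_lit 183))))))) (XT.nd (nat_lit 1014) (nat_lit 0) (nat_lit 0) (XT.nd (nat_lit 468) (nat_lit 0) (nat_lit 0) (XT.nd (nat_lit 234) (nat_lit 0) (nat_lit 0) (XT.nd (nat_lit 78) (nat_lit 0) (nat_lit 0) (XT.lf (nat_lit 0) (nat_lit 385503996349) (nat_lit 76) (nat_lit 326857758688) (nat_lit 76) (nat_lit 323941292989) (nat_lit 1) (nat_lit 4) (nat_lit 2) (nat_lit 5) (nat_lit 2) (nat_lit 4) (nat_lit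 269) (nat_lit 209) (nat_lit 182)) (XT.nd (nat_lit 78) (nat_lit 0) (nat_lit 0) (XT.lf (nat_lit 0) (nat_lit 450685650151) (nat_lit 76) (nat_lit 371842897590) (nat_lit 76) (nat_lit 368917488533) (nat_lit 1) (nat_lit 4) (nat_lit 2) (nat_lit 5) (nat_lit 2) (nat_lit 4) (nat_lit 270) (nat_lit 209) (nat_lit 181)) (XT.lf (nat_lit 0) (nat_lit 525605044807) (nat_lit 76) (nat_lit 423595119158) (nat_lit 76) (nat_lit 420661933267) (nat_lit 1) (nat_lit 4) (nat_lit 2) (nat_lit 5) (nat_lit 2) (nat_lit 4) (nat_lit 271) (nat_lit 209) (nat_lit 180)))) (XT.nd (nat_lit 78) (nat_lit 0) (nat_lit 0) (XT.lf (nat_lit 0) (nat_lit 611727994559) (nat_lit 76) (nat_lit 483126966857) (nat_lit 76) (nat_lit 480187018502) (nat_lit 1) (nat_lit 4) (nat_lit 2) (nat_lit 5) (nat_lit 2) (nat_lit 4) (nat_lit 272) (nat_lit 209) (nat_lit 179)) (XT.nd (nat_lit 78) (nat_lit 0) (nat_lit 0) (XT.lf (nat_lit 0) (nat_lit 710739513643)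 (nat_lit 76) (nat_lit 551603194228) (nat_lit 76) (nat_lit 548657365470) (nat_lit 1) (nat_lit 4) (nat_lit 2) (nat_lit 5) (nat_lit 2) (nat_lit 4) (nat_lit 273) (nat_lit 209) (nat_lit 178)) (XT.lf (nat_lit 0) (nat_lit 824576783952) (nat_lit 76) (nat_lit 630363553547) (nat_lit 76) (nat_lit 627412611395) (nat_lit 1) (nat_lit 4) (nat_lit 2) (nat_lit 5) (nat_lit 2) (nat_lit 4) (nat_lit 274) (nat_lit 209) (nat_lit 177))))) (XT.nd (nat_lit 234) (nat_lit 0) (nat_lit 0) (XT.nd (nat_lit 78) (nat_lit 0) (nat_lit 0) (XT.lf (nat_lit 0) (nat_lit 955467056429) (nat_lit 76) (nat_lit 720949008366) (nat_lit 76) (nat_lit 717993619784) (nat_lit 1) (nat_lit 4) (nat_lit 2) (nat_lit 5) (nat_lit 2) (nat_lit 4) (nat_lit 275) (nat_lit 209) (nat_lit 176)) (XT.nd (nat_lit 78) (nat_lit 0) (nat_lit 0) (XT.lf (nat_lit 0) (nat_lit 1105971227709) (nat_lit 76) (nat_lit 825131882800) (nat_lit 76) (nat_lit 822172627757) (nat_lit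 1) (nat_lit 4) (nat_lit 2) (nat_lit 5) (nat_lit 2) (nat_lit 4) (nat_lit 276) (nat_lit 209) (nat_lit 175)) (XT.lf (nat_lit 0) (nat_lit 1279033944620) (nat_lit 76) (nat_lit 944950537436) (nat_lit 76) (nat_lit 941987920253) (nat_lit 1) (nat_lit 4) (nat_lit 2) (nat_lit 5) (nat_lit 2) (nat_lit 4) (nat_lit 277) (nat_lit 209) (nat_lit 174)))) (XT.nd (nat_lit 156) (nat_lit 0) (nat_lit 0) (XT.nd (nat_lit 78) (nat_lit 0) (nat_lit 0) (XT.lf (nat_lit 0) (nat_lit 1478041216842) (nat_lit 76) (nat_lit 1082749250300) (nat_lit 76) (nat_lit 1079783709517) (nat_lit 1) (nat_lit 4) (nat_lit 2) (nat_lit 5) (nat_lit 2) (nat_lit 4) (nat_lit 278) (nat_lit 209) (nat_lit 173)) (XT.lf (nat_lit 0) (nat_lit 1706886664917) (nat_lit 76) (nat_lit 1241224083164) (nat_lit 76) (nat_lit 1238256000121) (nat_lit 1) (nat_lit 4) (nat_lit 2) (nat_lit 5) (nat_lit 2) (nat_lit 4) (nat_lit 279) (nat_lit 209) (nat_lit 172))) (XT.nd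 (nat_lit 78) (nat_lit 0) (nat_lit 0) (XT.lf (nat_lit 0) (nat_lit 1970047699788) (nat_lit 76) (nat_lit 1423475630586) (nat_lit 76) (nat_lit 1420505336882) (nat_lit 1) (nat_lit 4) (nat_lit 2) (nat_lit 5) (nat_lit 2) (nat_lit 4) (nat_lit 280) (nat_lit 209) (nat_lit 171)) (XT.lf (nat_lit 0) (nat_lit 2272673124309) (nat_lit 76) (nat_lit 1633069683711) (nat_lit 76) (nat_lit 1630097467692) (nat_lit 1) (nat_lit 4) (nat_lit 2) (nat_lit 5) (nat_lit 2) (nat_lit 4) (nat_lit 281) (nat_lit 209) (nat_lit 170)))))) (XT.nd (nat_lit 468) (nat_lit 0) (nat_lit 0) (XT.nd (nat_lit 234) (nat_lit 0) (nat_lit 0) (XT.nd (nat_lit 78) (nat_lit 0) (nat_lit 0) (XT.lf (nat_lit 0) (nat_lit 2620683870700) (nat_lit 76) (nat_lit 1874106995751) (nat_lit 76) (nat_lit 1871133108154) (nat_lit 1) (nat_lit 4) (nat_lit 2) (nat_lit 5) (nat_lit 2) (nat_lit 4) (nat_lit 282) (nat_lit 209) (nat_lit 169)) (XT.nd (nat_lit 78) (nat_lit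 0) (nat_lit 0) (XT.lf (nat_lit 0) (nat_lit 3020888844868) (nat_lit 76) (nat_lit 2151303514116) (nat_lit 76) (nat_lit 2148328172973) (nat_lit 1) (nat_lit 4) (nat_lit 2) (nat_lit 5) (nat_lit 2) (nat_lit 4) (nat_lit 283) (nat_lit 209) (nat_lit 168)) (XT.lf (nat_lit 0) (nat_lit 3481118144135) (nat_lit 76) (nat_lit 2470082648948) (nat_lit 76) (nat_lit 2467106043853) (nat_lit 1) (nat_lit 4) (nat_lit 2) (nat_lit 5) (nat_lit 2) (nat_lit 4) (nat_lit 284) (nat_lit 209) (nat_lit 167)))) (XT.nd (nat_lit 78) (nat_lit 0) (nat_lit 0) (XT.lf (nat_lit 0) (nat_lit 4010376254789) (nat_lit 76) (nat_lit 2836681383320) (nat_lit 76) (nat_lit 2833703679135) (nat_lit 1) (nat_lit 4) (nat_lit 2) (nat_lit 5) (nat_lit 2) (nat_lit 4) (nat_lit 285) (nat_lit 209) (nat_lit 166)) (XT.nd (nat_lit 78) (nat_lit 0) (nat_lit 0) (XT.lf (nat_lit 0) (nat_lit 4619018226823) (nat_lit 76) (nat_lit 3258272301165) (nat_lit 76) (nat_lit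 3255293641251) (nat_lit 1) (nat_lit 4) (nat_lit 2) (nat_lit 5) (nat_lit 2) (nat_lit 4) (nat_lit 286) (nat_lit 209) (nat_lit 165)) (XT.lf (nat_lit 0) (nat_lit 5318952272732) (nat_lit 76) (nat_lit 3743103920441) (nat_lit 76) (nat_lit 3740124429457) (nat_lit 1) (nat_lit 4) (nat_lit 2) (nat_lit 5) (nat_lit 2) (nat_lit 4) (nat_lit 287) (nat_lit 209) (nat_lit 164))))) (XT.nd (nat_lit 30810) (nat_lit 0) (nat_lit 228) (XT.nd (nat_lit 30654) (nat_lit 0) (nat_lit 456) (XT.lf (nat_lit 0) (nat_lit 6123872754284) (nat_lit 76) (nat_lit 4300662077178) (nat_lit 76) (nat_lit 4297681863525) (nat_lit 1) (nat_lit 4) (nat_lit 2) (nat_lit 5) (nat_lit 2) (nat_lit 4) (nat_lit 288) (nat_lit 209) (nat_lit 163)) (XT.nd (nat_lit 78) (nat_lit 76) (nat_lit 0) (XT.lf (nat_lit 0) (nat_lit 4748370675) (nat_lit 152) (nat_lit 1369436827) (nat_lit 0) (nat_lit 4748370675) (nat_lit 8) (nat_lit 5) (nat_lit 10) (nat_lit 4)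 (nat_lit 8) (nat_lit 4) (nat_lit 240) (nat_lit 210) (nat_lit 210)) (XT.lf (nat_lit 0) (nat_lit 13555545465) (nat_lit 76) (nat_lit 5622143456) (nat_lit 76) (nat_lit 5099882354) (nat_lit 7) (nat_lit 4) (nat_lit 8) (nat_lit 5) (nat_lit 8) (nat_lit 4) (nat_lit 241) (nat_lit 210) (nat_lit 209)))) (XT.nd (nat_lit 156) (nat_lit 76) (nat_lit 0) (XT.nd (nat_lit 78) (nat_lit 0) (nat_lit 0) (XT.lf (nat_lit 0) (nat_lit 2384363747) (nat_lit 152) (nat_lit 23379734725) (nat_lit 0) (nat_lit 1480288570) (nat_lit 5) (nat_lit 5) (nat_lit 7) (nat_lit 4) (nat_lit 5) (nat_lit 4) (nat_lit 242) (nat_lit 210) (nat_lit 208)) (XT.lf (nat_lit 0) (nat_lit 10447788404) (nat_lit 152) (nat_lit 11039513405) (nat_lit 0) (nat_lit 9178060982) (nat_lit 5) (nat_lit 5) (nat_lit 7) (nat_lit 4) (nat_lit 5) (nat_lit 4) (nat_lit 243) (nat_lit 210) (nat_lit 207))) (XT.nd (nat_lit 78) (nat_lit 0) (nat_lit 0) (XT.lf (nat_lit 0) (nat_lit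 2043318122) (nat_lit 76) (nat_lit 17095387910) (nat_lit 76) (nat_lit 15507702014) (nat_lit 4) (nat_lit 4) (nat_lit 5) (nat_lit 5) (nat_lit 5) (nat_lit 4) (nat_lit 244) (nat_lit 210) (nat_lit 206)) (XT.lf (nat_lit 0) (nat_lit 16648930216) (nat_lit 76) (nat_lit 12230246259) (nat_lit 76) (nat_lit 10366074733) (nat_lit 4) (nat_lit 4) (nat_lit 5) (nat_lit 5) (nat_lit 5) (nat_lit 4) (nat_lit 245) (nat_lit 210) (nat_lit 205))))))))
noncomputable def xc12 : XT := (XT.nd (nat_lit 1950) (nat_lit 0) (nat_lit 0) (XT.nd (nat_lit 936) (nat_lit 0) (nat_lit 0) (XT.nd (nat_lit 468) (nat_lit 76) (nat_lit 0) (XT.nd (nat_lit 234) (nat_lit 0) (nat_lit 0) (XT.nd (nat_lit 78) (nat_lit 152) (nat_lit 0) (XT.lf (nat_lit 0) (nat_lit 32481763639) (nat_lit 76) (nat_lit 7098529163) (nat_lit 76) (nat_lit 4993935350) (nat_lit 4) (nat_lit 4) (nat_lit 5) (nat_lit 5) (nat_lit 5) (nat_lit 4) (nat_lit 246) (nat_lit 210)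 (nat_lit 204)) (XT.nd (nat_lit 78) (nat_lit 76) (nat_lit 0) (XT.lf (nat_lit 0) (nat_lit 678114881) (nat_lit 152) (nat_lit 903177716) (nat_lit 76) (nat_lit 49154935474) (nat_lit 3) (nat_lit 5) (nat_lit 5) (nat_lit 5) (nat_lit 4) (nat_lit 4) (nat_lit 247) (nat_lit 210) (nat_lit 203)) (XT.lf (nat_lit 0) (nat_lit 6922454269) (nat_lit 152) (nat_lit 46276661816) (nat_lit 0) (nat_lit 4611851991) (nat_lit 2) (nat_lit 5) (nat_lit 4) (nat_lit 4) (nat_lit 2) (nat_lit 4) (nat_lit 248) (nat_lit 210) (nat_lit 202)))) (XT.nd (nat_lit 78) (nat_lit 0) (nat_lit 0) (XT.lf (nat_lit 0) (nat_lit 13811932668) (nat_lit 152) (nat_lit 40803515194) (nat_lit 0) (nat_lit 11354958578) (nat_lit 2) (nat_lit 5) (nat_lit 4) (nat_lit 4) (nat_lit 2) (nat_lit 4) (nat_lit 249) (nat_lit 210) (nat_lit 201)) (XT.nd (nat_lit 78) (nat_lit 0) (nat_lit 0) (XT.lf (nat_lit 0) (nat_lit 21419854934) (nat_lit 152) (nat_lit 35123647551)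 (nat_lit 0) (nat_lit 18835601008) (nat_lit 2) (nat_lit 5) (nat_lit 4) (nat_lit 4) (nat_lit 2) (nat_lit 4) (nat_lit 250) (nat_lit 210) (nat_lit 200)) (XT.lf (nat_lit 0) (nat_lit 29895071720) (nat_lit 152) (nat_lit 29125931041) (nat_lit 0) (nat_lit 27200139676) (nat_lit 2) (nat_lit 5) (nat_lit 4) (nat_lit 4) (nat_lit 2) (nat_lit 4) (nat_lit 251) (nat_lit 210) (nat_lit 199))))) (XT.nd (nat_lit 234) (nat_lit 76) (nat_lit 0) (XT.nd (nat_lit 78) (nat_lit 0) (nat_lit 0) (XT.lf (nat_lit 0) (nat_lit 39403402485) (nat_lit 152) (nat_lit 22693019038) (nat_lit 0) (nat_lit 36612228600) (nat_lit 2) (nat_lit 5) (nat_lit 4) (nat_lit 4) (nat_lit 2) (nat_lit 4) (nat_lit 252) (nat_lit 210) (nat_lit 198)) (XT.nd (nat_lit 78) (nat_lit 0) (nat_lit 0) (XT.lf (nat_lit 0) (nat_lit 50130879789) (nat_lit 152) (nat_lit 15699050219) (nat_lit 0) (nat_lit 47256017345) (nat_lit 2) (nat_lit 5) (nat_lit 4) (nat_lit 4)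 (nat_lit 2) (nat_lit 4) (nat_lit 253) (nat_lit 210) (nat_lit 197)) (XT.lf (nat_lit 0) (nat_lit 62287389055) (nat_lit 152) (nat_lit 8007186065) (nat_lit 0) (nat_lit 59339753952) (nat_lit 2) (nat_lit 5) (nat_lit 4) (nat_lit 4) (nat_lit 2) (nat_lit 4) (nat_lit 254) (nat_lit 210) (nat_lit 196)))) (XT.nd (nat_lit 78) (nat_lit 0) (nat_lit 0) (XT.lf (nat_lit 0) (nat_lit 561136752) (nat_lit 76) (nat_lit 75563133631) (nat_lit 76) (nat_lit 72552217955) (nat_lit 1) (nat_lit 4) (nat_lit 2) (nat_lit 5) (nat_lit 2) (nat_lit 4) (nat_lit 255) (nat_lit 210) (nat_lit 195)) (XT.nd (nat_lit 78) (nat_lit 0) (nat_lit 0) (XT.lf (nat_lit 0) (nat_lit 10620057413) (nat_lit 76) (nat_lit 81506850490) (nat_lit 76) (nat_lit 78440908229) (nat_lit 1) (nat_lit 4) (nat_lit 2) (nat_lit 5) (nat_lit 2) (nat_lit 4) (nat_lit 256) (nat_lit 210) (nat_lit 194)) (XT.lf (nat_lit 0) (nat_lit 21944736660) (nat_lit 76) (nat_lit 88460946468)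 (nat_lit 76) (nat_lit 85347155002) (nat_lit 1) (nat_lit 4) (nat_lit 2) (nat_lit 5) (nat_lit 2) (nat_lit 4) (nat_lit 257) (nat_lit 210) (nat_lit 193)))))) (XT.nd (nat_lit 468) (nat_lit 0) (nat_lit 0) (XT.nd (nat_lit 234) (nat_lit 0) (nat_lit 0) (XT.nd (nat_lit 78) (nat_lit 0) (nat_lit 0) (XT.lf (nat_lit 0) (nat_lit 34756744303) (nat_lit 76) (nat_lit 96561479964) (nat_lit 76) (nat_lit 93406080493) (nat_lit 1) (nat_lit 4) (nat_lit 2) (nat_lit 5) (nat_lit 2) (nat_lit 4) (nat_lit 258) (nat_lit 210) (nat_lit 192)) (XT.nd (nat_lit 78) (nat_lit 0) (nat_lit 0) (XT.lf (nat_lit 0) (nat_lit 49306750058) (nat_lit 76) (nat_lit 105966939676) (nat_lit 76) (nat_lit 102775359332) (nat_lit 1) (nat_lit 4) (nat_lit 2) (nat_lit 5) (nat_lit 2) (nat_lit 4) (nat_lit 259) (nat_lit 210) (nat_lit 191)) (XT.lf (nat_lit 0) (nat_lit 65879427950) (nat_lit 76) (nat_lit 116861345468) (nat_lit 76) (nat_lit 113638303496)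 (nat_lit 1) (nat_lit 4) (nat_lit 2) (nat_lit 5) (nat_lit 2) (nat_lit 4) (nat_lit 260) (nat_lit 210) (nat_lit 190)))) (XT.nd (nat_lit 78) (nat_lit 0) (nat_lit 0) (XT.lf (nat_lit 0) (nat_lit 84799026024) (nat_lit 76) (nat_lit 129457848759) (nat_lit 76) (nat_lit 126207448849) (nat_lit 1) (nat_lit 4) (nat_lit 2) (nat_lit 5) (nat_lit 2) (nat_lit 4) (nat_lit 261) (nat_lit 210) (nat_lit 189)) (XT.nd (nat_lit 78) (nat_lit 0) (nat_lit 0) (XT.lf (nat_lit 0) (nat_lit 106435710330) (nat_lit 76) (nat_lit 144002902874) (nat_lit 76) (nat_lit 140728713452) (nat_lit 1) (nat_lit 4) (nat_lit 2) (nat_lit 5) (nat_lit 2) (nat_lit 4) (nat_lit 262) (nat_lit 210) (nat_lit 188)) (XT.lf (nat_lit 0) (nat_lit 131212807300) (nat_lit 76) (nat_lit 160781084957) (nat_lit 76) (nat_lit 157486209004) (nat_lit 1) (nat_lit 4) (nat_lit 2) (nat_lit 5) (nat_lit 2) (nat_lit 4) (nat_lit 263) (nat_lit 210) (nat_lit 187))))) (XT.nd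 (nat_lit 234) (nat_lit 0) (nat_lit 0) (XT.nd (nat_lit 78) (nat_lit 0) (nat_lit 0) (XT.lf (nat_lit 0) (nat_lit 159615086223) (nat_lit 76) (nat_lit 180120663790) (nat_lit 76) (nat_lit 176807799548) (nat_lit 1) (nat_lit 4) (nat_lit 2) (nat_lit 5) (nat_lit 2) (nat_lit 4) (nat_lit 264) (nat_lit 210) (nat_lit 186)) (XT.nd (nat_lit 78) (nat_lit 0) (nat_lit 0) (XT.lf (nat_lit 0) (nat_lit 192198243860) (nat_lit 76) (nat_lit 202400022436) (nat_lit 76) (nat_lit 199071516204) (nat_lit 1) (nat_lit 4) (nat_lit 2) (nat_lit 5) (nat_lit 2) (nat_lit 4) (nat_lit 265) (nat_lit 210) (nat_lit 185)) (XT.lf (nat_lit 0) (nat_lit 229599776773) (nat_lit 76) (nat_lit 228055061390) (nat_lit 76) (nat_lit 224712953428) (nat_lit 1) (nat_lit 4) (nat_lit 2) (nat_lit 5) (nat_lit 2) (nat_lit 4) (nat_lit 266) (nat_lit 210) (nat_lit 184)))) (XT.nd (nat_lit 156) (nat_lit 0) (nat_lit 0) (XT.nd (nat_lit 78) (nat_lit 0) (nat_lit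 0) (XT.lf (nat_lit 0) (nat_lit 272551454085) (nat_lit 76) (nat_lit 257587727068) (nat_lit 76) (nat_lit 254233791514) (nat_lit 1) (nat_lit 4) (nat_lit 2) (nat_lit 5) (nat_lit 2) (nat_lit 4) (nat_lit 267) (nat_lit 210) (nat_lit 183)) (XT.lf (nat_lit 0) (nat_lit 321893634700) (nat_lit 76) (nat_lit 291575832492) (nat_lit 76) (nat_lit 288211612076) (nat_lit 1) (nat_lit 4) (nat_lit 2) (nat_lit 5) (nat_lit 2) (nat_lit 4) (nat_lit 268) (nat_lit 210) (nat_lit 182))) (XT.nd (nat_lit 78) (nat_lit 0) (nat_lit 0) (XT.lf (nat_lit 0) (nat_lit 378591709108) (nat_lit 76) (nat_lit 330684362334) (nat_lit 76) (nat_lit 327311198560) (nat_lit 1) (nat_lit 4) (nat_lit 2) (nat_lit 5) (nat_lit 2) (nat_lit 4) (nat_lit 269) (nat_lit 210) (nat_lit 181)) (XT.lf (nat_lit 0) (nat_lit 443754987461) (nat_lit 76) (nat_lit 375678483483) (nat_lit 76) (nat_lit 372297542875) (nat_lit 1) (nat_lit 4) (nat_lit 2) (nat_lit 5)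 (nat_lit 2) (nat_lit 4) (nat_lit 270) (nat_lit 210) (nat_lit 180))))))) (XT.nd (nat_lit 936) (nat_lit 0) (nat_lit 0) (XT.nd (nat_lit 468) (nat_lit 0) (nat_lit 0) (XT.nd (nat_lit 234) (nat_lit 0) (nat_lit 0) (XT.nd (nat_lit 78) (nat_lit 0) (nat_lit 0) (XT.lf (nat_lit 0) (nat_lit 518658403464) (nat_lit 76) (nat_lit 427438515700) (nat_lit 76) (nat_lit 424050812628) (nat_lit 1) (nat_lit 4) (nat_lit 2) (nat_lit 5) (nat_lit 2) (nat_lit 4) (nat_lit 271) (nat_lit 210) (nat_lit 179)) (XT.nd (nat_lit 78) (nat_lit 0) (nat_lit 0) (XT.lf (nat_lit 0) (nat_lit 604767458737) (nat_lit 76) (nat_lit 486977155268) (nat_lit 76) (nat_lit 483583571792) (nat_lit 1) (nat_lit 4) (nat_lit 2) (nat_lit 5) (nat_lit 2) (nat_lit 4) (nat_lit 272) (nat_lit 210) (nat_lit 178)) (XT.lf (nat_lit 0) (nat_lit 703766895664) (nat_lit 76) (nat_lit 555459288612) (nat_lit 76) (nat_lit 552060591743) (nat_lit 1) (nat_lit 4) (nat_lit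 2) (nat_lit 5) (nat_lit 2) (nat_lit 4) (nat_lit 273) (nat_lit 210) (nat_lit 177)))) (XT.nd (nat_lit 78) (nat_lit 0) (nat_lit 0) (XT.lf (nat_lit 0) (nat_lit 817593659751) (nat_lit 76) (nat_lit 634224783560) (nat_lit 76) (nat_lit 630821640261) (nat_lit 1) (nat_lit 4) (nat_lit 2) (nat_lit 5) (nat_lit 2) (nat_lit 4) (nat_lit 274) (nat_lit 210) (nat_lit 176)) (XT.nd (nat_lit 78) (nat_lit 0) (nat_lit 0) (XT.lf (nat_lit 0) (nat_lit 948474796382) (nat_lit 76) (nat_lit 724814704142) (nat_lit 76) (nat_lit 721407694382) (nat_lit 1) (nat_lit 4) (nat_lit 2) (nat_lit 5) (nat_lit 2) (nat_lit 4) (nat_lit 275) (nat_lit 210) (nat_lit 175)) (XT.lf (nat_lit 0) (nat_lit 1098971023447) (nat_lit 76) (nat_lit 829001461849) (nat_lit 76) (nat_lit 825591089950) (nat_lit 1) (nat_lit 4) (nat_lit 2) (nat_lit 5) (nat_lit 2) (nat_lit 4) (nat_lit 276) (nat_lit 210) (nat_lit 174))))) (XT.nd (nat_lit 234) (nat_lit 0) (nat_lit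 0) (XT.nd (nat_lit 78) (nat_lit 0) (nat_lit 0) (XT.lf (nat_lit 0) (nat_lit 1272026832346) (nat_lit 76) (nat_lit 948823493245) (nat_lit 76) (nat_lit 945410197745) (nat_lit 1) (nat_lit 4) (nat_lit 2) (nat_lit 5) (nat_lit 2) (nat_lit 4) (nat_lit 277) (nat_lit 210) (nat_lit 173)) (XT.nd (nat_lit 78) (nat_lit 0) (nat_lit 0) (XT.lf (nat_lit 0) (nat_lit 1471028097601) (nat_lit 76) (nat_lit 1086625142421) (nat_lit 76) (nat_lit 1083209304661) (nat_lit 1) (nat_lit 4) (nat_lit 2) (nat_lit 5) (nat_lit 2) (nat_lit 4) (nat_lit 278) (nat_lit 210) (nat_lit 172)) (XT.lf (nat_lit 0) (nat_lit 1699868322227) (nat_lit 76) (nat_lit 1245102528601) (nat_lit 76) (nat_lit 1241684480179) (nat_lit 1) (nat_lit 4) (nat_lit 2) (nat_lit 5) (nat_lit 2) (nat_lit 4) (nat_lit 279) (nat_lit 210) (nat_lit 171)))) (XT.nd (nat_lit 78) (nat_lit 0) (nat_lit 0) (XT.lf (nat_lit 0) (nat_lit 1963024814967) (nat_lit 76) (nat_lit 1427356296297)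 (nat_lit 76) (nat_lit 1423936325561) (nat_lit 1) (nat_lit 4) (nat_lit 2) (nat_lit 5) (nat_lit 2) (nat_lit 4) (nat_lit 280) (nat_lit 210) (nat_lit 170)) (XT.nd (nat_lit 78) (nat_lit 0) (nat_lit 0) (XT.lf (nat_lit 0) (nat_lit 2265646289810) (nat_lit 76) (nat_lit 1636952280094) (nat_lit 76) (nat_lit 1633530637780) (nat_lit 1) (nat_lit 4) (nat_lit 2) (nat_lit 5) (nat_lit 2) (nat_lit 4) (nat_lit 281) (nat_lit 210) (nat_lit 169)) (XT.lf (nat_lit 0) (nat_lit 2613653601698) (nat_lit 76) (nat_lit 1877991270980) (nat_lit 76) (nat_lit 1874568175121) (nat_lit 1) (nat_lit 4) (nat_lit 2) (nat_lit 5) (nat_lit 2) (nat_lit 4) (nat_lit 282) (nat_lit 210) (nat_lit 168)))))) (XT.nd (nat_lit 30888) (nat_lit 0) (nat_lit 304) (XT.nd (nat_lit 234) (nat_lit 0) (nat_lit 0) (XT.nd (nat_lit 78) (nat_lit 0) (nat_lit 0) (XT.lf (nat_lit 0) (nat_lit 3013855589342) (nat_lit 76) (nat_lit 2155189249211) (nat_lit 76) (nat_lit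 2151764889399) (nat_lit 1) (nat_lit 4) (nat_lit 2) (nat_lit 5) (nat_lit 2) (nat_lit 4) (nat_lit 283) (nat_lit 210) (nat_lit 167)) (XT.nd (nat_lit 78) (nat_lit 0) (nat_lit 0) (XT.lf (nat_lit 0) (nat_lit 3474082291631) (nat_lit 76) (nat_lit 2473969653492) (nat_lit 76) (nat_lit 2470544194591) (nat_lit 1) (nat_lit 4) (nat_lit 2) (nat_lit 5) (nat_lit 2) (nat_lit 4) (nat_lit 284) (nat_lit 210) (nat_lit 166)) (XT.lf (nat_lit 0) (nat_lit 4003338144044) (nat_lit 76) (nat_lit 2840569491733) (nat_lit 76) (nat_lit 2837143077101) (nat_lit 1) (nat_lit 4) (nat_lit 2) (nat_lit 5) (nat_lit 2) (nat_lit 4) (nat_lit 285) (nat_lit 210) (nat_lit 165)))) (XT.nd (nat_lit 78) (nat_lit 0) (nat_lit 0) (XT.lf (nat_lit 0) (nat_lit 4611978152389) (nat_lit 76) (nat_lit 3262161369464) (nat_lit 76) (nat_lit 3258734123763) (nat_lit 1) (nat_lit 4) (nat_lit 2) (nat_lit 5) (nat_lit 2) (nat_lit 4) (nat_lit 286) (nat_lit 210)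 (nat_lit 164)) (XT.nd (nat_lit 78) (nat_lit 0) (nat_lit 0) (XT.lf (nat_lit 0) (nat_lit 5311910490743) (nat_lit 76) (nat_lit 3746993823423) (nat_lit 76) (nat_lit 3743565855053) (nat_lit 1) (nat_lit 4) (nat_lit 2) (nat_lit 5) (nat_lit 2) (nat_lit 4) (nat_lit 287) (nat_lit 210) (nat_lit 163)) (XT.lf (nat_lit 0) (nat_lit 6116829487465) (nat_lit 76) (nat_lit 4304552705971) (nat_lit 76) (nat_lit 4301124109193) (nat_lit 1) (nat_lit 4) (nat_lit 2) (nat_lit 5) (nat_lit 2) (nat_lit 4) (nat_lit 288) (nat_lit 210) (nat_lit 162))))) (XT.nd (nat_lit 234) (nat_lit 228) (nat_lit 0) (XT.nd (nat_lit 78) (nat_lit 152) (nat_lit 0) (XT.lf (nat_lit 0) (nat_lit 2139012935) (nat_lit 76) (nat_lit 3340343561) (nat_lit 76) (nat_lit 3340343561) (nat_lit 10) (nat_lit 4) (nat_lit 11) (nat_lit 5) (nat_lit 11) (nat_lit 4) (nat_lit 238) (nat_lit 211) (nat_lit 211)) (XT.nd (nat_lit 78) (nat_lit 0) (nat_lit 0) (XT.lf (nat_lit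 0) (nat_lit 1237645767) (nat_lit 152) (nat_lit 17680269472) (nat_lit 0) (nat_lit 637045500) (nat_lit 8) (nat_lit 5) (nat_lit 10) (nat_lit 4) (nat_lit 8) (nat_lit 4) (nat_lit 239) (nat_lit 211) (nat_lit 210)) (XT.lf (nat_lit 0) (nat_lit 9709567733) (nat_lit 152) (nat_lit 3467380331) (nat_lit 0) (nat_lit 8586706364) (nat_lit 8) (nat_lit 5) (nat_lit 10) (nat_lit 4) (nat_lit 8) (nat_lit 4) (nat_lit 240) (nat_lit 211) (nat_lit 209)))) (XT.nd (nat_lit 156) (nat_lit 0) (nat_lit 0) (XT.nd (nat_lit 78) (nat_lit 152) (nat_lit 0) (XT.lf (nat_lit 0) (nat_lit 12121834703) (nat_lit 76) (nat_lit 6897005142) (nat_lit 76) (nat_lit 5320003684) (nat_lit 7) (nat_lit 4) (nat_lit 8) (nat_lit 5) (nat_lit 8) (nat_lit 4) (nat_lit 241) (nat_lit 211) (nat_lit 208)) (XT.lf (nat_lit 0) (nat_lit 1708912303) (nat_lit 76) (nat_lit 60711824) (nat_lit 152) (nat_lit 25569102405) (nat_lit 5) (nat_lit 5) (nat_lit 6) (nat_lit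 5) (nat_lit 7) (nat_lit 4) (nat_lit 242) (nat_lit 211) (nat_lit 207))) (XT.nd (nat_lit 78) (nat_lit 0) (nat_lit 0) (XT.lf (nat_lit 0) (nat_lit 9538024675) (nat_lit 152) (nat_lit 13851220248) (nat_lit 0) (nat_lit 7394227420) (nat_lit 5) (nat_lit 5) (nat_lit 7) (nat_lit 4) (nat_lit 5) (nat_lit 4) (nat_lit 243) (nat_lit 211) (nat_lit 206)) (XT.lf (nat_lit 0) (nat_lit 17924527419) (nat_lit 152) (nat_lit 1360245037) (nat_lit 0) (nat_lit 15504244534) (nat_lit 5) (nat_lit 5) (nat_lit 7) (nat_lit 4) (nat_lit 5) (nat_lit 4) (nat_lit 244) (nat_lit 211) (nat_lit 205))))))))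
noncomputable def xc13 : XT := (XT.nd (nat_lit 1950) (nat_lit 0) (nat_lit 0) (XT.nd (nat_lit 936) (nat_lit 0) (nat_lit 0) (XT.nd (nat_lit 468) (nat_lit 76) (nat_lit 0) (XT.nd (nat_lit 234) (nat_lit 152) (nat_lit 0) (XT.nd (nat_lit 78) (nat_lit 0) (nat_lit 0) (XT.lf (nat_lit 0) (nat_lit 12725543389) (nat_lit 76) (nat_lit 14672262223) (nat_lit 76) (nat_lit 12011557051) (nat_lit 4) (nat_lit 4) (nat_lit 5) (nat_lit 5) (nat_lit 5) (nat_lit 4) (nat_lit 245) (nat_lit 211) (nat_lit 204)) (XT.nd (nat_lit 78) (nat_lit 0) (nat_lit 0) (XT.lf (nat_lit 0) (nat_lit 28168641529) (nat_lit 76) (nat_lit 9727884177) (nat_lit 76) (nat_lit 6858116147) (nat_lit 4) (nat_lit 4) (nat_lit 5) (nat_lit 5) (nat_lit 5) (nat_lit 4) (nat_lit 246) (nat_lit 211) (nat_lit 203)) (XT.lf (nat_lit 0) (nat_lit 45199568863) (nat_lit 76) (nat_lit 4392091997) (nat_lit 76) (nat_lit 1340530178) (nat_lit 4) (nat_lit 4) (nat_lit 5)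 (nat_lit 5) (nat_lit 5) (nat_lit 4) (nat_lit 247) (nat_lit 211) (nat_lit 202)))) (XT.nd (nat_lit 78) (nat_lit 0) (nat_lit 0) (XT.lf (nat_lit 0) (nat_lit 4609351501) (nat_lit 152) (nat_lit 51791697953) (nat_lit 0) (nat_lit 1637459487) (nat_lit 2) (nat_lit 5) (nat_lit 4) (nat_lit 4) (nat_lit 2) (nat_lit 4) (nat_lit 248) (nat_lit 211) (nat_lit 201)) (XT.nd (nat_lit 78) (nat_lit 0) (nat_lit 0) (XT.lf (nat_lit 0) (nat_lit 11352328554) (nat_lit 152) (nat_lit 46604249457) (nat_lit 0) (nat_lit 8253156704) (nat_lit 2) (nat_lit 5) (nat_lit 4) (nat_lit 4) (nat_lit 2) (nat_lit 4) (nat_lit 249) (nat_lit 211) (nat_lit 200)) (XT.lf (nat_lit 0) (nat_lit 18832858346) (nat_lit 152) (nat_lit 41172814968) (nat_lit 0) (nat_lit 15623008378) (nat_lit 2) (nat_lit 5) (nat_lit 4) (nat_lit 4) (nat_lit 2) (nat_lit 4) (nat_lit 250) (nat_lit 211) (nat_lit 199))))) (XT.nd (nat_lit 234) (nat_lit 76) (nat_lit 0) (XT.nd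 (nat_lit 78) (nat_lit 0) (nat_lit 0) (XT.lf (nat_lit 0) (nat_lit 27197299068) (nat_lit 152) (nat_lit 35391127288) (nat_lit 0) (nat_lit 23891207258) (nat_lit 2) (nat_lit 5) (nat_lit 4) (nat_lit 4) (nat_lit 2) (nat_lit 4) (nat_lit 251) (nat_lit 211) (nat_lit 198)) (XT.nd (nat_lit 78) (nat_lit 0) (nat_lit 0) (XT.lf (nat_lit 0) (nat_lit 36609302821) (nat_lit 152) (nat_lit 29146066440) (nat_lit 0) (nat_lit 33219522453) (nat_lit 2) (nat_lit 5) (nat_lit 4) (nat_lit 4) (nat_lit 2) (nat_lit 4) (nat_lit 252) (nat_lit 211) (nat_lit 197)) (XT.lf (nat_lit 0) (nat_lit 47253017504) (nat_lit 152) (nat_lit 22315446453) (nat_lit 0) (nat_lit 43790464477) (nat_lit 2) (nat_lit 5) (nat_lit 4) (nat_lit 4) (nat_lit 2) (nat_lit 4) (nat_lit 253) (nat_lit 211) (nat_lit 196)))) (XT.nd (nat_lit 78) (nat_lit 76) (nat_lit 0) (XT.lf (nat_lit 0) (nat_lit 59336689710) (nat_lit 152) (nat_lit 14765624760) (nat_lit 0) (nat_lit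 55810856109) (nat_lit 2) (nat_lit 5) (nat_lit 4) (nat_lit 4) (nat_lit 2) (nat_lit 4) (nat_lit 254) (nat_lit 211) (nat_lit 195)) (XT.nd (nat_lit 78) (nat_lit 76) (nat_lit 0) (XT.lf (nat_lit 0) (nat_lit 73096739111) (nat_lit 152) (nat_lit 6348887460) (nat_lit 0) (nat_lit 69515878925) (nat_lit 2) (nat_lit 5) (nat_lit 4) (nat_lit 4) (nat_lit 2) (nat_lit 4) (nat_lit 255) (nat_lit 211) (nat_lit 194)) (XT.lf (nat_lit 0) (nat_lit 3262651799) (nat_lit 76) (nat_lit 85618199121) (nat_lit 76) (nat_lit 81989489730) (nat_lit 1) (nat_lit 4) (nat_lit 2) (nat_lit 5) (nat_lit 2) (nat_lit 4) (nat_lit 256) (nat_lit 211) (nat_lit 193)))))) (XT.nd (nat_lit 468) (nat_lit 0) (nat_lit 0) (XT.nd (nat_lit 234) (nat_lit 0) (nat_lit 0) (XT.nd (nat_lit 78) (nat_lit 0) (nat_lit 0) (XT.lf (nat_lit 0) (nat_lit 14489017795) (nat_lit 76) (nat_lit 92620352364) (nat_lit 76) (nat_lit 88950034969) (nat_lit 1) (nat_lit 4) (nat_lit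 2) (nat_lit 5) (nat_lit 2) (nat_lit 4) (nat_lit 257) (nat_lit 211) (nat_lit 192)) (XT.nd (nat_lit 78) (nat_lit 0) (nat_lit 0) (XT.lf (nat_lit 0) (nat_lit 27215535654) (nat_lit 76) (nat_lit 100762674786) (nat_lit 76) (nat_lit 97056176518) (nat_lit 1) (nat_lit 4) (nat_lit 2) (nat_lit 5) (nat_lit 2) (nat_lit 4) (nat_lit 258) (nat_lit 211) (nat_lit 191)) (XT.lf (nat_lit 0) (nat_lit 41691202466) (nat_lit 76) (nat_lit 110204472696) (nat_lit 76) (nat_lit 106466512799) (nat_lit 1) (nat_lit 4) (nat_lit 2) (nat_lit 5) (nat_lit 2) (nat_lit 4) (nat_lit 259) (nat_lit 211) (nat_lit 190)))) (XT.nd (nat_lit 78) (nat_lit 0) (nat_lit 0) (XT.lf (nat_lit 0) (nat_lit 58199237799) (nat_lit 76) (nat_lit 121130476921) (nat_lit 76) (nat_lit 117365159085) (nat_lit 1) (nat_lit 4) (nat_lit 2) (nat_lit 5) (nat_lit 2) (nat_lit 4) (nat_lit 260) (nat_lit 211) (nat_lit 189)) (XT.nd (nat_lit 78) (nat_lit 0) (nat_lit 0)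 (XT.lf (nat_lit 0) (nat_lit 77062624953) (nat_lit 76) (nat_lit 133754457109) (nat_lit 76) (nat_lit 129965349763) (nat_lit 1) (nat_lit 4) (nat_lit 2) (nat_lit 5) (nat_lit 2) (nat_lit 4) (nat_lit 261) (nat_lit 211) (nat_lit 188)) (XT.lf (nat_lit 0) (nat_lit 98650430198) (nat_lit 76) (nat_lit 148323404178) (nat_lit 76) (nat_lit 144513610300) (nat_lit 1) (nat_lit 4) (nat_lit 2) (nat_lit 5) (nat_lit 2) (nat_lit 4) (nat_lit 262) (nat_lit 211) (nat_lit 187))))) (XT.nd (nat_lit 234) (nat_lit 0) (nat_lit 0) (XT.nd (nat_lit 78) (nat_lit 0) (nat_lit 0) (XT.lf (nat_lit 0) (nat_lit 123385023636) (nat_lit 76) (nat_lit 165122362744) (nat_lit 76) (nat_lit 161294580577) (nat_lit 1) (nat_lit 4) (nat_lit 2) (nat_lit 5) (nat_lit 2) (nat_lit 4) (nat_lit 263) (nat_lit 211) (nat_lit 186)) (XT.nd (nat_lit 78) (nat_lit 0) (nat_lit 0) (XT.lf (nat_lit 0) (nat_lit 151750342967) (nat_lit 76) (nat_lit 184480008083)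 (nat_lit 76) (nat_lit 180636583926) (nat_lit 1) (nat_lit 4) (nat_lit 2) (nat_lit 5) (nat_lit 2) (nat_lit 4) (nat_lit 264) (nat_lit 211) (nat_lit 185)) (XT.lf (nat_lit 0) (nat_lit 184301361827) (nat_lit 76) (nat_lit 206775076734) (nat_lit 76) (nat_lit 202918050847) (nat_lit 1) (nat_lit 4) (nat_lit 2) (nat_lit 5) (nat_lit 2) (nat_lit 4) (nat_lit 265) (nat_lit 211) (nat_lit 184)))) (XT.nd (nat_lit 156) (nat_lit 0) (nat_lit 0) (XT.nd (nat_lit 78) (nat_lit 0) (nat_lit 0) (XT.lf (nat_lit 0) (nat_lit 221674947979) (nat_lit 76) (nat_lit 232443776563) (nat_lit 76) (nat_lit 228574923084) (nat_lit 1) (nat_lit 4) (nat_lit 2) (nat_lit 5) (nat_lit 2) (nat_lit 4) (nat_lit 266) (nat_lit 211) (nat_lit 183)) (XT.lf (nat_lit 0) (nat_lit 264602323759) (nat_lit 76) (nat_lit 261988321261) (nat_lit 76) (nat_lit 258109182920) (nat_lit 1) (nat_lit 4) (nat_lit 2) (nat_lit 5) (nat_lit 2) (nat_lit 4) (nat_lit 267)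 (nat_lit 211) (nat_lit 182))) (XT.nd (nat_lit 78) (nat_lit 0) (nat_lit 0) (XT.lf (nat_lit 0) (nat_lit 313923372606) (nat_lit 76) (nat_lit 295986756269) (nat_lit 76) (nat_lit 292098674569) (nat_lit 1) (nat_lit 4) (nat_lit 2) (nat_lit 5) (nat_lit 2) (nat_lit 4) (nat_lit 268) (nat_lit 211) (nat_lit 181)) (XT.lf (nat_lit 0) (nat_lit 370603071565) (nat_lit 76) (nat_lit 335104268358) (nat_lit 76) (nat_lit 331208409825) (nat_lit 1) (nat_lit 4) (nat_lit 2) (nat_lit 5) (nat_lit 2) (nat_lit 4) (nat_lit 269) (nat_lit 211) (nat_lit 180))))))) (XT.nd (nat_lit 936) (nat_lit 0) (nat_lit 0) (XT.nd (nat_lit 468) (nat_lit 0) (nat_lit 0) (XT.nd (nat_lit 234) (nat_lit 0) (nat_lit 0) (XT.nd (nat_lit 78) (nat_lit 0) (nat_lit 0) (XT.lf (nat_lit 0) (nat_lit 435750371265) (nat_lit 76) (nat_lit 380106200156) (nat_lit 76) (nat_lit 376203579159) (nat_lit 1) (nat_lit 4) (nat_lit 2) (nat_lit 5) (nat_lit 2) (nat_lit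 4) (nat_lit 270) (nat_lit 211) (nat_lit 179)) (XT.nd (nat_lit 78) (nat_lit 0) (nat_lit 0) (XT.lf (nat_lit 0) (nat_lit 510639892789) (nat_lit 76) (nat_lit 431873024242) (nat_lit 76) (nat_lit 427964522842) (nat_lit 1) (nat_lit 4) (nat_lit 2) (nat_lit 5) (nat_lit 2) (nat_lit 4) (nat_lit 271) (nat_lit 211) (nat_lit 178)) (XT.lf (nat_lit 0) (nat_lit 596736865905) (nat_lit 76) (nat_lit 491417569782) (nat_lit 76) (nat_lit 487503954988) (nat_lit 1) (nat_lit 4) (nat_lit 2) (nat_lit 5) (nat_lit 2) (nat_lit 4) (nat_lit 272) (nat_lit 211) (nat_lit 177)))) (XT.nd (nat_lit 78) (nat_lit 0) (nat_lit 0) (XT.lf (nat_lit 0) (nat_lit 695725796609) (nat_lit 76) (nat_lit 559904838755) (nat_lit 76) (nat_lit 555986777531) (nat_lit 1) (nat_lit 4) (nat_lit 2) (nat_lit 5) (nat_lit 2) (nat_lit 4) (nat_lit 273) (nat_lit 211) (nat_lit 176)) (XT.nd (nat_lit 78) (nat_lit 0) (nat_lit 0) (XT.lf (nat_lit 0) (nat_lit 809543424850)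 (nat_lit 76) (nat_lit 638674799467) (nat_lit 76) (nat_lit 634752871782) (nat_lit 1) (nat_lit 4) (nat_lit 2) (nat_lit 5) (nat_lit 2) (nat_lit 4) (nat_lit 274) (nat_lit 211) (nat_lit 175)) (XT.lf (nat_lit 0) (nat_lit 940416617267) (nat_lit 76) (nat_lit 729268603322) (nat_lit 76) (nat_lit 725343313498) (nat_lit 1) (nat_lit 4) (nat_lit 2) (nat_lit 5) (nat_lit 2) (nat_lit 4) (nat_lit 275) (nat_lit 211) (nat_lit 174))))) (XT.nd (nat_lit 234) (nat_lit 0) (nat_lit 0) (XT.nd (nat_lit 78) (nat_lit 0) (nat_lit 0) (XT.lf (nat_lit 0) (nat_lit 1090905936320) (nat_lit 76) (nat_lit 833458737789) (nat_lit 76) (nat_lit 829530524364) (nat_lit 1) (nat_lit 4) (nat_lit 2) (nat_lit 5) (nat_lit 2) (nat_lit 4) (nat_lit 276) (nat_lit 211) (nat_lit 173)) (XT.nd (nat_lit 78) (nat_lit 0) (nat_lit 0) (XT.lf (nat_lit 0) (nat_lit 1263955738252) (nat_lit 76) (nat_lit 953283705496) (nat_lit 76) (nat_lit 949352949811)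 (nat_lit 1) (nat_lit 4) (nat_lit 2) (nat_lit 5) (nat_lit 2) (nat_lit 4) (nat_lit 277) (nat_lit 211) (nat_lit 172)) (XT.lf (nat_lit 0) (nat_lit 1462951780057) (nat_lit 76) (nat_lit 1091087907987) (nat_lit 76) (nat_lit 1087154941641) (nat_lit 1) (nat_lit 4) (nat_lit 2) (nat_lit 5) (nat_lit 2) (nat_lit 4) (nat_lit 278) (nat_lit 211) (nat_lit 171)))) (XT.nd (nat_lit 78) (nat_lit 0) (nat_lit 0) (XT.lf (nat_lit 0) (nat_lit 1691787462553) (nat_lit 76) (nat_lit 1249567514441) (nat_lit 76) (nat_lit 1245632625781) (nat_lit 1) (nat_lit 4) (nat_lit 2) (nat_lit 5) (nat_lit 2) (nat_lit 4) (nat_lit 279) (nat_lit 211) (nat_lit 170)) (XT.nd (nat_lit 78) (nat_lit 0) (nat_lit 0) (XT.lf (nat_lit 0) (nat_lit 1954940005615) (nat_lit 76) (nat_lit 1431823212810) (nat_lit 76) (nat_lit 1427886652572) (nat_lit 1) (nat_lit 4) (nat_lit 2) (nat_lit 5) (nat_lit 2) (nat_lit 4) (nat_lit 280) (nat_lit 211) (nat_lit 169))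 (XT.lf (nat_lit 0) (nat_lit 2257558045955) (nat_lit 76) (nat_lit 1641420875454) (nat_lit 76) (nat_lit 1637482861670) (nat_lit 1) (nat_lit 4) (nat_lit 2) (nat_lit 5) (nat_lit 2) (nat_lit 4) (nat_lit 281) (nat_lit 211) (nat_lit 168)))))) (XT.nd (nat_lit 468) (nat_lit 0) (nat_lit 0) (XT.nd (nat_lit 234) (nat_lit 0) (nat_lit 0) (XT.nd (nat_lit 78) (nat_lit 0) (nat_lit 0) (XT.lf (nat_lit 0) (nat_lit 2605562371319) (nat_lit 76) (nat_lit 1882461326206) (nat_lit 76) (nat_lit 1878522048469) (nat_lit 1) (nat_lit 4) (nat_lit 2) (nat_lit 5) (nat_lit 2) (nat_lit 4) (nat_lit 282) (nat_lit 211) (nat_lit 167)) (XT.nd (nat_lit 78) (nat_lit 0) (nat_lit 0) (XT.lf (nat_lit 0) (nat_lit 3005761761985) (nat_lit 76) (nat_lit 2159660573886) (nat_lit 76) (nat_lit 2155720197060) (nat_lit 1) (nat_lit 4) (nat_lit 2) (nat_lit 5) (nat_lit 2) (nat_lit 4) (nat_lit 283) (nat_lit 211) (nat_lit 166)) (XT.lf (nat_lit 0)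 (nat_lit 3465986206033) (nat_lit 76) (nat_lit 2478442082036) (nat_lit 76) (nat_lit 2474500749479) (nat_lit 1) (nat_lit 4) (nat_lit 2) (nat_lit 5) (nat_lit 2) (nat_lit 4) (nat_lit 284) (nat_lit 211) (nat_lit 165)))) (XT.nd (nat_lit 78) (nat_lit 0) (nat_lit 0) (XT.lf (nat_lit 0) (nat_lit 3995240094758) (nat_lit 76) (nat_lit 2845042880162) (nat_lit 76) (nat_lit 2841100716536) (nat_lit 1) (nat_lit 4) (nat_lit 2) (nat_lit 5) (nat_lit 2) (nat_lit 4) (nat_lit 285) (nat_lit 211) (nat_lit 164)) (XT.nd (nat_lit 78) (nat_lit 0) (nat_lit 0) (XT.lf (nat_lit 0) (nat_lit 4603878395548) (nat_lit 76) (nat_lit 3266635592576) (nat_lit 76) (nat_lit 3262692706281) (nat_lit 1) (nat_lit 4) (nat_lit 2) (nat_lit 5) (nat_lit 2) (nat_lit 4) (nat_lit 286) (nat_lit 211) (nat_lit 163)) (XT.lf (nat_lit 0) (nat_lit 5303809249072) (nat_lit 76) (nat_lit 3751468772347) (nat_lit 76) (nat_lit 3747525257644) (nat_lit 1) (nat_lit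 4) (nat_lit 2) (nat_lit 5) (nat_lit 2) (nat_lit 4) (nat_lit 287) (nat_lit 211) (nat_lit 162))))) (XT.nd (nat_lit 30498) (nat_lit 0) (nat_lit 456) (XT.nd (nat_lit 30342) (nat_lit 0) (nat_lit 760) (XT.lf (nat_lit 0) (nat_lit 6108726954636) (nat_lit 76) (nat_lit 4309028286036) (nat_lit 76) (nat_lit 4305084224891) (nat_lit 1) (nat_lit 4) (nat_lit 2) (nat_lit 5) (nat_lit 2) (nat_lit 4) (nat_lit 288) (nat_lit 211) (nat_lit 161)) (XT.nd (nat_lit 78) (nat_lit 152) (nat_lit 0) (XT.lf (nat_lit 0) (nat_lit 1946789434) (nat_lit 76) (nat_lit 2668262250) (nat_lit 76) (nat_lit 2668262250) (nat_lit 13) (nat_lit 4) (nat_lit 14) (nat_lit 5) (nat_lit 14) (nat_lit 4) (nat_lit 236) (nat_lit 212) (nat_lit 212)) (XT.lf (nat_lit 0) (nat_lit 2675427563) (nat_lit 152) (nat_lit 11400780655) (nat_lit 0) (nat_lit 1929482031) (nat_lit 11) (nat_lit 5) (nat_lit 13) (nat_lit 4) (nat_lit 11) (nat_lit 4) (nat_lit 237)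 (nat_lit 212) (nat_lit 211)))) (XT.nd (nat_lit 156) (nat_lit 76) (nat_lit 0) (XT.nd (nat_lit 78) (nat_lit 152) (nat_lit 0) (XT.lf (nat_lit 0) (nat_lit 3529399773) (nat_lit 76) (nat_lit 7768729741) (nat_lit 76) (nat_lit 6374135920) (nat_lit 10) (nat_lit 4) (nat_lit 11) (nat_lit 5) (nat_lit 11) (nat_lit 4) (nat_lit 238) (nat_lit 212) (nat_lit 210)) (XT.lf (nat_lit 0) (nat_lit 356035967) (nat_lit 76) (nat_lit 756787002) (nat_lit 152) (nat_lit 18507972569) (nat_lit 8) (nat_lit 5) (nat_lit 9) (nat_lit 5) (nat_lit 10) (nat_lit 4) (nat_lit 239) (nat_lit 212) (nat_lit 209))) (XT.nd (nat_lit 78) (nat_lit 76) (nat_lit 0) (XT.lf (nat_lit 0) (nat_lit 9229349509) (nat_lit 152) (nat_lit 5667153752) (nat_lit 0) (nat_lit 6961657744) (nat_lit 8) (nat_lit 5) (nat_lit 10) (nat_lit 4) (nat_lit 8) (nat_lit 4) (nat_lit 240) (nat_lit 212) (nat_lit 208)) (XT.lf (nat_lit 0) (nat_lit 9226362317) (nat_lit 76) (nat_lit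 8949410357) (nat_lit 76) (nat_lit 6286814167) (nat_lit 7) (nat_lit 4) (nat_lit 8) (nat_lit 5) (nat_lit 8) (nat_lit 4) (nat_lit 241) (nat_lit 212) (nat_lit 207))))))))
noncomputable def xc14 : XT := (XT.nd (nat_lit 1950) (nat_lit 0) (nat_lit 0) (XT.nd (nat_lit 936) (nat_lit 76) (nat_lit 0) (XT.nd (nat_lit 468) (nat_lit 152) (nat_lit 0) (XT.nd (nat_lit 234) (nat_lit 76) (nat_lit 0) (XT.nd (nat_lit 78) (nat_lit 76) (nat_lit 0) (XT.lf (nat_lit 0) (nat_lit 535873694) (nat_lit 152) (nat_lit 1891374058) (nat_lit 76) (nat_lit 25062474667) (nat_lit 6) (nat_lit 5) (nat_lit 8) (nat_lit 5) (nat_lit 7) (nat_lit 4) (nat_lit 242) (nat_lit 212) (nat_lit 206)) (XT.nd (nat_lit 78) (nat_lit 0) (nat_lit 0) (XT.lf (nat_lit 0) (nat_lit 7942959361) (nat_lit 152) (nat_lit 18137411845) (nat_lit 0) (nat_lit 4883148414) (nat_lit 5) (nat_lit 5) (nat_lit 7) (nat_lit 4) (nat_lit 5) (nat_lit 4) (nat_lit 243) (nat_lit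 212) (nat_lit 205)) (XT.lf (nat_lit 0) (nat_lit 16107485553) (nat_lit 152) (nat_lit 6072211651) (nat_lit 0) (nat_lit 12807252319) (nat_lit 5) (nat_lit 5) (nat_lit 7) (nat_lit 4) (nat_lit 5) (nat_lit 4) (nat_lit 244) (nat_lit 212) (nat_lit 204)))) (XT.nd (nat_lit 78) (nat_lit 0) (nat_lit 0) (XT.lf (nat_lit 0) (nat_lit 7375717681) (nat_lit 76) (nat_lit 17883359540) (nat_lit 76) (nat_lit 14374063448) (nat_lit 4) (nat_lit 4) (nat_lit 5) (nat_lit 5) (nat_lit 5) (nat_lit 4) (nat_lit 245) (nat_lit 212) (nat_lit 203)) (XT.nd (nat_lit 78) (nat_lit 0) (nat_lit 0) (XT.lf (nat_lit 0) (nat_lit 22479915576) (nat_lit 76) (nat_lit 13101885016) (nat_lit 76) (nat_lit 9410795135) (nat_lit 4) (nat_lit 4) (nat_lit 5) (nat_lit 5) (nat_lit 5) (nat_lit 4) (nat_lit 246) (nat_lit 212) (nat_lit 202)) (XT.lf (nat_lit 0) (nat_lit 39216147045) (nat_lit 76) (nat_lit 7907748073) (nat_lit 76) (nat_lit 4058576636) (nat_lit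 4) (nat_lit 4) (nat_lit 5) (nat_lit 5) (nat_lit 5) (nat_lit 4) (nat_lit 247) (nat_lit 212) (nat_lit 201))))) (XT.nd (nat_lit 234) (nat_lit 0) (nat_lit 0) (XT.nd (nat_lit 78) (nat_lit 76) (nat_lit 0) (XT.lf (nat_lit 0) (nat_lit 1697900914) (nat_lit 152) (nat_lit 454999758) (nat_lit 76) (nat_lit 56167535560) (nat_lit 3) (nat_lit 5) (nat_lit 5) (nat_lit 5) (nat_lit 4) (nat_lit 4) (nat_lit 248) (nat_lit 212) (nat_lit 200)) (XT.nd (nat_lit 78) (nat_lit 0) (nat_lit 0) (XT.lf (nat_lit 0) (nat_lit 8249890005) (nat_lit 152) (nat_lit 53809225141) (nat_lit 0) (nat_lit 4447884423) (nat_lit 2) (nat_lit 5) (nat_lit 4) (nat_lit 4) (nat_lit 2) (nat_lit 4) (nat_lit 249) (nat_lit 212) (nat_lit 199)) (XT.lf (nat_lit 0) (nat_lit 15619643732) (nat_lit 152) (nat_lit 48593819480) (nat_lit 0) (nat_lit 11721396309) (nat_lit 2) (nat_lit 5) (nat_lit 4) (nat_lit 4) (nat_lit 2) (nat_lit 4) (nat_lit 250) (nat_lit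 212) (nat_lit 198)))) (XT.nd (nat_lit 78) (nat_lit 0) (nat_lit 0) (XT.lf (nat_lit 0) (nat_lit 23887757441) (nat_lit 152) (nat_lit 42999982956) (nat_lit 0) (nat_lit 19905821459) (nat_lit 2) (nat_lit 5) (nat_lit 4) (nat_lit 4) (nat_lit 2) (nat_lit 4) (nat_lit 251) (nat_lit 212) (nat_lit 197)) (XT.nd (nat_lit 78) (nat_lit 0) (nat_lit 0) (XT.lf (nat_lit 0) (nat_lit 33215998574) (nat_lit 152) (nat_lit 36918270940) (nat_lit 0) (nat_lit 29161289933) (nat_lit 2) (nat_lit 5) (nat_lit 4) (nat_lit 4) (nat_lit 2) (nat_lit 4) (nat_lit 252) (nat_lit 212) (nat_lit 196)) (XT.lf (nat_lit 0) (nat_lit 43786876197) (nat_lit 152) (nat_lit 30229693414) (nat_lit 0) (nat_lit 39668886983) (nat_lit 2) (nat_lit 5) (nat_lit 4) (nat_lit 4) (nat_lit 2) (nat_lit 4) (nat_lit 253) (nat_lit 212) (nat_lit 195)))))) (XT.nd (nat_lit 468) (nat_lit 0) (nat_lit 0) (XT.nd (nat_lit 234) (nat_lit 76) (nat_lit 0) (XT.nd (nat_lit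 78) (nat_lit 0) (nat_lit 0) (XT.lf (nat_lit 0) (nat_lit 55807211828) (nat_lit 152) (nat_lit 22803386906) (nat_lit 0) (nat_lit 51634196029) (nat_lit 2) (nat_lit 5) (nat_lit 4) (nat_lit 4) (nat_lit 2) (nat_lit 4) (nat_lit 254) (nat_lit 212) (nat_lit 194)) (XT.nd (nat_lit 78) (nat_lit 0) (nat_lit 0) (XT.lf (nat_lit 0) (nat_lit 69512185948) (nat_lit 152) (nat_lit 14494054113) (nat_lit 0) (nat_lit 65291320943) (nat_lit 2) (nat_lit 5) (nat_lit 4) (nat_lit 4) (nat_lit 2) (nat_lit 4) (nat_lit 255) (nat_lit 212) (nat_lit 193)) (XT.lf (nat_lit 0) (nat_lit 85169939353) (nat_lit 152) (nat_lit 5139121135) (nat_lit 0) (nat_lit 80907466345) (nat_lit 2) (nat_lit 5) (nat_lit 4) (nat_lit 4) (nat_lit 2) (nat_lit 4) (nat_lit 256) (nat_lit 212) (nat_lit 192)))) (XT.nd (nat_lit 78) (nat_lit 0) (nat_lit 0) (XT.lf (nat_lit 0) (nat_lit 5731138064) (nat_lit 76) (nat_lit 97493515337) (nat_lit 76) (nat_lit 93194861456)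 (nat_lit 1) (nat_lit 4) (nat_lit 2) (nat_lit 5) (nat_lit 2) (nat_lit 4) (nat_lit 257) (nat_lit 212) (nat_lit 191)) (XT.nd (nat_lit 78) (nat_lit 0) (nat_lit 0) (XT.lf (nat_lit 0) (nat_lit 18383316981) (nat_lit 76) (nat_lit 105672175957) (nat_lit 76) (nat_lit 101342060446) (nat_lit 1) (nat_lit 4) (nat_lit 2) (nat_lit 5) (nat_lit 2) (nat_lit 4) (nat_lit 258) (nat_lit 212) (nat_lit 190)) (XT.lf (nat_lit 0) (nat_lit 32794341235) (nat_lit 76) (nat_lit 115145572298) (nat_lit 76) (nat_lit 110788098849) (nat_lit 1) (nat_lit 4) (nat_lit 2) (nat_lit 5) (nat_lit 2) (nat_lit 4) (nat_lit 259) (nat_lit 212) (nat_lit 189))))) (XT.nd (nat_lit 234) (nat_lit 0) (nat_lit 0) (XT.nd (nat_lit 78) (nat_lit 0) (nat_lit 0) (XT.lf (nat_lit 0) (nat_lit 49246165647) (nat_lit 76) (nat_lit 126099053421) (nat_lit 76) (nat_lit 121717790461) (nat_lit 1) (nat_lit 4) (nat_lit 2) (nat_lit 5) (nat_lit 2) (nat_lit 4) (nat_lit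 260) (nat_lit 212) (nat_lit 188)) (XT.nd (nat_lit 78) (nat_lit 0) (nat_lit 0) (XT.lf (nat_lit 0) (nat_lit 68060673740) (nat_lit 76) (nat_lit 138746926564) (nat_lit 76) (nat_lit 134344977072) (nat_lit 1) (nat_lit 4) (nat_lit 2) (nat_lit 5) (nat_lit 2) (nat_lit 4) (nat_lit 261) (nat_lit 212) (nat_lit 187)) (XT.lf (nat_lit 0) (nat_lit 89605975453) (nat_lit 76) (nat_lit 153336650114) (nat_lit 76) (nat_lit 148916712334) (nat_lit 1) (nat_lit 4) (nat_lit 2) (nat_lit 5) (nat_lit 2) (nat_lit 4) (nat_lit 262) (nat_lit 212) (nat_lit 186)))) (XT.nd (nat_lit 156) (nat_lit 0) (nat_lit 0) (XT.nd (nat_lit 78) (nat_lit 0) (nat_lit 0) (XT.lf (nat_lit 0) (nat_lit 114303609299) (nat_lit 76) (nat_lit 170153675186) (nat_lit 76) (nat_lit 165718095417) (nat_lit 1) (nat_lit 4) (nat_lit 2) (nat_lit 5) (nat_lit 2) (nat_lit 4) (nat_lit 263) (nat_lit 212) (nat_lit 185)) (XT.lf (nat_lit 0) (nat_lit 142636789853) (nat_lit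 76) (nat_lit 189527030531) (nat_lit 76) (nat_lit 185077849030) (nat_lit 1) (nat_lit 4) (nat_lit 2) (nat_lit 5) (nat_lit 2) (nat_lit 4) (nat_lit 264) (nat_lit 212) (nat_lit 184))) (XT.nd (nat_lit 78) (nat_lit 0) (nat_lit 0) (XT.lf (nat_lit 0) (nat_lit 175159861951) (nat_lit 76) (nat_lit 211835760056) (nat_lit 76) (nat_lit 207374750964) (nat_lit 1) (nat_lit 4) (nat_lit 2) (nat_lit 5) (nat_lit 2) (nat_lit 4) (nat_lit 265) (nat_lit 212) (nat_lit 183)) (XT.lf (nat_lit 0) (nat_lit 212509146571) (nat_lit 76) (nat_lit 237516338906) (nat_lit 76) (nat_lit 233045044952) (nat_lit 1) (nat_lit 4) (nat_lit 2) (nat_lit 5) (nat_lit 2) (nat_lit 4) (nat_lit 266) (nat_lit 212) (nat_lit 182))))))) (XT.nd (nat_lit 936) (nat_lit 0) (nat_lit 0) (XT.nd (nat_lit 468) (nat_lit 0) (nat_lit 0) (XT.nd (nat_lit 234) (nat_lit 0) (nat_lit 0) (XT.nd (nat_lit 78) (nat_lit 0) (nat_lit 0) (XT.lf (nat_lit 0) (nat_lit 255415390583)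 (nat_lit 76) (nat_lit 267071213188) (nat_lit 76) (nat_lit 262590975875) (nat_lit 1) (nat_lit 4) (nat_lit 2) (nat_lit 5) (nat_lit 2) (nat_lit 4) (nat_lit 267) (nat_lit 212) (nat_lit 181)) (XT.nd (nat_lit 78) (nat_lit 0) (nat_lit 0) (XT.lf (nat_lit 0) (nat_lit 304718063982) (nat_lit 76) (nat_lit 301078630442) (nat_lit 76) (nat_lit 296590616296) (nat_lit 1) (nat_lit 4) (nat_lit 2) (nat_lit 5) (nat_lit 2) (nat_lit 4) (nat_lit 268) (nat_lit 212) (nat_lit 180)) (XT.lf (nat_lit 0) (nat_lit 361381784288) (nat_lit 76) (nat_lit 340203953180) (nat_lit 76) (nat_lit 335709176570) (nat_lit 1) (nat_lit 4) (nat_lit 2) (nat_lit 5) (nat_lit 2) (nat_lit 4) (nat_lit 269) (nat_lit 212) (nat_lit 179)))) (XT.nd (nat_lit 78) (nat_lit 0) (nat_lit 0) (XT.lf (nat_lit 0) (nat_lit 426515189509) (nat_lit 76) (nat_lit 385212676847) (nat_lit 76) (nat_lit 380712019834) (nat_lit 1) (nat_lit 4) (nat_lit 2) (nat_lit 5)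 (nat_lit 2) (nat_lit 4) (nat_lit 270) (nat_lit 212) (nat_lit 178)) (XT.nd (nat_lit 78) (nat_lit 0) (nat_lit 0) (XT.lf (nat_lit 0) (nat_lit 501392628876) (nat_lit 76) (nat_lit 436985406906) (nat_lit 76) (nat_lit 432479636498) (nat_lit 1) (nat_lit 4) (nat_lit 2) (nat_lit 5) (nat_lit 2) (nat_lit 4) (nat_lit 271) (nat_lit 212) (nat_lit 177)) (XT.lf (nat_lit 0) (nat_lit 587479095769) (nat_lit 76) (nat_lit 496535088075) (nat_lit 76) (nat_lit 492024871238) (nat_lit 1) (nat_lit 4) (nat_lit 2) (nat_lit 5) (nat_lit 2) (nat_lit 4) (nat_lit 272) (nat_lit 212) (nat_lit 176))))) (XT.nd (nat_lit 234) (nat_lit 0) (nat_lit 0) (XT.nd (nat_lit 78) (nat_lit 0) (nat_lit 0) (XT.lf (nat_lit 0) (nat_lit 686458890627) (nat_lit 76) (nat_lit 565026822812) (nat_lit 76) (nat_lit 560512739514) (nat_lit 1) (nat_lit 4) (nat_lit 2) (nat_lit 5) (nat_lit 2) (nat_lit 4) (nat_lit 273) (nat_lit 212) (nat_lit 175)) (XT.nd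 (nat_lit 78) (nat_lit 0) (nat_lit 0) (XT.lf (nat_lit 0) (nat_lit 800268574654) (nat_lit 76) (nat_lit 643800666797) (nat_lit 76) (nat_lit 639283221359) (nat_lit 1) (nat_lit 4) (nat_lit 2) (nat_lit 5) (nat_lit 2) (nat_lit 4) (nat_lit 274) (nat_lit 212) (nat_lit 174)) (XT.lf (nat_lit 0) (nat_lit 931134859059) (nat_lit 76) (nat_lit 734397847412) (nat_lit 76) (nat_lit 729877478374) (nat_lit 1) (nat_lit 4) (nat_lit 2) (nat_lit 5) (nat_lit 2) (nat_lit 4) (nat_lit 275) (nat_lit 212) (nat_lit 173)))) (XT.nd (nat_lit 78) (nat_lit 0) (nat_lit 0) (XT.lf (nat_lit 0) (nat_lit 1081618171145) (nat_lit 76) (nat_lit 838590918190) (nat_lit 76) (nat_lit 834068006892) (nat_lit 1) (nat_lit 4) (nat_lit 2) (nat_lit 5) (nat_lit 2) (nat_lit 4) (nat_lit 276) (nat_lit 212) (nat_lit 172)) (XT.nd (nat_lit 78) (nat_lit 0) (nat_lit 0) (XT.lf (nat_lit 0) (nat_lit 1254662749627) (nat_lit 76) (nat_lit 958418439213) (nat_lit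 76) (nat_lit 953893317253) (nat_lit 1) (nat_lit 4) (nat_lit 2) (nat_lit 5) (nat_lit 2) (nat_lit 4) (nat_lit 277) (nat_lit 212) (nat_lit 171)) (XT.lf (nat_lit 0) (nat_lit 1453654249302) (nat_lit 76) (nat_lit 1096224861978) (nat_lit 76) (nat_lit 1091697817704) (nat_lit 1) (nat_lit 4) (nat_lit 2) (nat_lit 5) (nat_lit 2) (nat_lit 4) (nat_lit 278) (nat_lit 212) (nat_lit 170)))))) (XT.nd (nat_lit 468) (nat_lit 0) (nat_lit 0) (XT.nd (nat_lit 234) (nat_lit 0) (nat_lit 0) (XT.nd (nat_lit 78) (nat_lit 0) (nat_lit 0) (XT.lf (nat_lit 0) (nat_lit 1682485982120) (nat_lit 76) (nat_lit 1254706399105) (nat_lit 76) (nat_lit 1250177683253) (nat_lit 1) (nat_lit 4) (nat_lit 2) (nat_lit 5) (nat_lit 2) (nat_lit 4) (nat_lit 279) (nat_lit 212) (nat_lit 169)) (XT.nd (nat_lit 78) (nat_lit 0) (nat_lit 0) (XT.lf (nat_lit 0) (nat_lit 1945635090679) (nat_lit 76) (nat_lit 1436963776320) (nat_lit 76) (nat_lit 1432433606923)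 (nat_lit 1) (nat_lit 4) (nat_lit 2) (nat_lit 5) (nat_lit 2) (nat_lit 4) (nat_lit 280) (nat_lit 212) (nat_lit 168)) (XT.lf (nat_lit 0) (nat_lit 2248250144495) (nat_lit 76) (nat_lit 1646562898830) (nat_lit 76) (nat_lit 1642031465480) (nat_lit 1) (nat_lit 4) (nat_lit 2) (nat_lit 5) (nat_lit 2) (nat_lit 4) (nat_lit 281) (nat_lit 212) (nat_lit 167)))) (XT.nd (nat_lit 78) (nat_lit 0) (nat_lit 0) (XT.lf (nat_lit 0) (nat_lit 2596251872881) (nat_lit 76) (nat_lit 1887604619031) (nat_lit 76) (nat_lit 1883072086591) (nat_lit 1) (nat_lit 4) (nat_lit 2) (nat_lit 5) (nat_lit 2) (nat_lit 4) (nat_lit 282) (nat_lit 212) (nat_lit 166)) (XT.nd (nat_lit 78) (nat_lit 0) (nat_lit 0) (XT.lf (nat_lit 0) (nat_lit 2996449005306) (nat_lit 76) (nat_lit 2164804970580) (nat_lit 76) (nat_lit 2160271482410) (nat_lit 1) (nat_lit 4) (nat_lit 2) (nat_lit 5) (nat_lit 2) (nat_lit 4) (nat_lit 283) (nat_lit 212) (nat_lit 165))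 (XT.lf (nat_lit 0) (nat_lit 3456671485665) (nat_lit 76) (nat_lit 2483587438615) (nat_lit 76) (nat_lit 2479053119376) (nat_lit 1) (nat_lit 4) (nat_lit 2) (nat_lit 5) (nat_lit 2) (nat_lit 4) (nat_lit 284) (nat_lit 212) (nat_lit 164))))) (XT.nd (nat_lit 234) (nat_lit 0) (nat_lit 0) (XT.nd (nat_lit 78) (nat_lit 0) (nat_lit 0) (XT.lf (nat_lit 0) (nat_lit 3985923666835) (nat_lit 76) (nat_lit 2850189071424) (nat_lit 76) (nat_lit 2845654029516) (nat_lit 1) (nat_lit 4) (nat_lit 2) (nat_lit 5) (nat_lit 2) (nat_lit 4) (nat_lit 285) (nat_lit 212) (nat_lit 163)) (XT.nd (nat_lit 78) (nat_lit 0) (nat_lit 0) (XT.lf (nat_lit 0) (nat_lit 4594560482795) (nat_lit 76) (nat_lit 3271782509650) (nat_lit 76) (nat_lit 3267246839334) (nat_lit 1) (nat_lit 4) (nat_lit 2) (nat_lit 5) (nat_lit 2) (nat_lit 4) (nat_lit 286) (nat_lit 212) (nat_lit 162)) (XT.lf (nat_lit 0) (nat_lit 5294490045162) (nat_lit 76) (nat_lit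 3756616320561) (nat_lit 76) (nat_lit 3752080103803) (nat_lit 1) (nat_lit 4) (nat_lit 2) (nat_lit 5) (nat_lit 2) (nat_lit 4) (nat_lit 287) (nat_lit 212) (nat_lit 161)))) (XT.nd (nat_lit 30264) (nat_lit 0) (nat_lit 912) (XT.nd (nat_lit 30186) (nat_lit 0) (nat_lit 1292) (XT.lf (nat_lit 0) (nat_lit 6099406627981) (nat_lit 76) (nat_lit 4314176383068) (nat_lit 76) (nat_lit 4309639691143) (nat_lit 1) (nat_lit 4) (nat_lit 2) (nat_lit 5) (nat_lit 2) (nat_lit 4) (nat_lit 288) (nat_lit 212) (nat_lit 160)) (XT.lf (nat_lit 0) (nat_lit 3010748915) (nat_lit 152) (nat_lit 101308622) (nat_lit 0) (nat_lit 3010748915) (nat_lit 18) (nat_lit 5) (nat_lit 20) (nat_lit 4) (nat_lit 18) (nat_lit 4) (nat_lit 234) (nat_lit 213) (nat_lit 213))) (XT.nd (nat_lit 78) (nat_lit 76) (nat_lit 0) (XT.lf (nat_lit 0) (nat_lit 1470755260) (nat_lit 152) (nat_lit 11323533333) (nat_lit 0) (nat_lit 544290909) (nat_lit 14) (nat_lit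 5) (nat_lit 16) (nat_lit 4) (nat_lit 14) (nat_lit 4) (nat_lit 235) (nat_lit 213) (nat_lit 212)) (XT.lf (nat_lit 0) (nat_lit 3164744046) (nat_lit 76) (nat_lit 6583529445) (nat_lit 76) (nat_lit 4851443919) (nat_lit 13) (nat_lit 4) (nat_lit 14) (nat_lit 5) (nat_lit 14) (nat_lit 4) (nat_lit 236) (nat_lit 213) (nat_lit 211))))))))
noncomputable def xc15 : XT := (XT.nd (nat_lit 1950) (nat_lit 0) (nat_lit 0) (XT.nd (nat_lit 936) (nat_lit 228) (nat_lit 0) (XT.nd (nat_lit 468) (nat_lit 228) (nat_lit 0) (XT.nd (nat_lit 234) (nat_lit 152) (nat_lit 0) (XT.nd (nat_lit 78) (nat_lit 152) (nat_lit 0) (XT.lf (nat_lit 0) (nat_lit 2697937171) (nat_lit 152) (nat_lit 12929810750) (nat_lit 0) (nat_lit 445505988) (nat_lit 11) (nat_lit 5) (nat_lit 13) (nat_lit 4) (nat_lit 11) (nat_lit 4) (nat_lit 237) (nat_lit 213) (nat_lit 210)) (XT.nd (nat_lit 78) (nat_lit 76) (nat_lit 0) (XT.lf (nat_lit 0) (nat_lit 1268874446)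 (nat_lit 76) (nat_lit 9659551563) (nat_lit 76) (nat_lit 6843078390) (nat_lit 10) (nat_lit 4) (nat_lit 11) (nat_lit 5) (nat_lit 11) (nat_lit 4) (nat_lit 238) (nat_lit 213) (nat_lit 209)) (XT.lf (nat_lit 0) (nat_lit 343151241) (nat_lit 152) (nat_lit 2593189885) (nat_lit 76) (nat_lit 16810770779) (nat_lit 9) (nat_lit 5) (nat_lit 11) (nat_lit 5) (nat_lit 10) (nat_lit 4) (nat_lit 239) (nat_lit 213) (nat_lit 208)))) (XT.nd (nat_lit 78) (nat_lit 76) (nat_lit 0) (XT.lf (nat_lit 0) (nat_lit 8046691103) (nat_lit 152) (nat_lit 9381232963) (nat_lit 0) (nat_lit 4589801059) (nat_lit 8) (nat_lit 5) (nat_lit 10) (nat_lit 4) (nat_lit 8) (nat_lit 4) (nat_lit 240) (nat_lit 213) (nat_lit 207)) (XT.nd (nat_lit 78) (nat_lit 0) (nat_lit 0) (XT.lf (nat_lit 0) (nat_lit 4812477759) (nat_lit 76) (nat_lit 11819514857) (nat_lit 76) (nat_lit 8019229661) (nat_lit 7) (nat_lit 4) (nat_lit 8) (nat_lit 5) (nat_lit 8) (nat_lit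 4) (nat_lit 241) (nat_lit 213) (nat_lit 206)) (XT.lf (nat_lit 0) (nat_lit 20760655959) (nat_lit 76) (nat_lit 5518207629) (nat_lit 76) (nat_lit 1419317952) (nat_lit 7) (nat_lit 4) (nat_lit 8) (nat_lit 5) (nat_lit 8) (nat_lit 4) (nat_lit 242) (nat_lit 213) (nat_lit 205))))) (XT.nd (nat_lit 234) (nat_lit 0) (nat_lit 0) (XT.nd (nat_lit 78) (nat_lit 76) (nat_lit 0) (XT.lf (nat_lit 0) (nat_lit 5631384664) (nat_lit 152) (nat_lit 23981948468) (nat_lit 0) (nat_lit 1595694159) (nat_lit 5) (nat_lit 5) (nat_lit 7) (nat_lit 4) (nat_lit 5) (nat_lit 4) (nat_lit 243) (nat_lit 213) (nat_lit 204)) (XT.nd (nat_lit 78) (nat_lit 76) (nat_lit 0) (XT.lf (nat_lit 0) (nat_lit 13602887767) (nat_lit 152) (nat_lit 12286987419) (nat_lit 0) (nat_lit 9358134404) (nat_lit 5) (nat_lit 5) (nat_lit 7) (nat_lit 4) (nat_lit 5) (nat_lit 4) (nat_lit 244) (nat_lit 213) (nat_lit 203)) (XT.lf (nat_lit 0) (nat_lit 494782589) (nat_lit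 76) (nat_lit 21926364027) (nat_lit 76) (nat_lit 17499816874) (nat_lit 4) (nat_lit 4) (nat_lit 5) (nat_lit 5) (nat_lit 5) (nat_lit 4) (nat_lit 245) (nat_lit 213) (nat_lit 202)))) (XT.nd (nat_lit 78) (nat_lit 0) (nat_lit 0) (XT.lf (nat_lit 0) (nat_lit 15304284619) (nat_lit 76) (nat_lit 17286544740) (nat_lit 76) (nat_lit 12701916031) (nat_lit 4) (nat_lit 4) (nat_lit 5) (nat_lit 5) (nat_lit 5) (nat_lit 4) (nat_lit 246) (nat_lit 213) (nat_lit 201)) (XT.nd (nat_lit 78) (nat_lit 0) (nat_lit 0) (XT.lf (nat_lit 0) (nat_lit 31784258813) (nat_lit 76) (nat_lit 12215586264) (nat_lit 76) (nat_lit 7493495332) (nat_lit 4) (nat_lit 4) (nat_lit 5) (nat_lit 5) (nat_lit 5) (nat_lit 4) (nat_lit 247) (nat_lit 213) (nat_lit 200)) (XT.lf (nat_lit 0) (nat_lit 50257139450) (nat_lit 76) (nat_lit 6614274193) (nat_lit 76) (nat_lit 1772650893) (nat_lit 4) (nat_lit 4) (nat_lit 5) (nat_lit 5) (nat_lit 5) (nat_lit 4)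 (nat_lit 248) (nat_lit 213) (nat_lit 199)))))) (XT.nd (nat_lit 468) (nat_lit 76) (nat_lit 0) (XT.nd (nat_lit 234) (nat_lit 0) (nat_lit 0) (XT.nd (nat_lit 78) (nat_lit 0) (nat_lit 0) (XT.lf (nat_lit 0) (nat_lit 4304908295) (nat_lit 76) (nat_lit 142434389) (nat_lit 152) (nat_lit 62420400320) (nat_lit 2) (nat_lit 5) (nat_lit 3) (nat_lit 5) (nat_lit 4) (nat_lit 4) (nat_lit 249) (nat_lit 213) (nat_lit 198)) (XT.nd (nat_lit 78) (nat_lit 0) (nat_lit 0) (XT.lf (nat_lit 0) (nat_lit 11717343848) (nat_lit 152) (nat_lit 57531854655) (nat_lit 0) (nat_lit 7054428911) (nat_lit 2) (nat_lit 5) (nat_lit 4) (nat_lit 4) (nat_lit 2) (nat_lit 4) (nat_lit 250) (nat_lit 213) (nat_lit 197)) (XT.lf (nat_lit 0) (nat_lit 19901694938) (nat_lit 152) (nat_lit 52101366962) (nat_lit 0) (nat_lit 15166007342) (nat_lit 2) (nat_lit 5) (nat_lit 4) (nat_lit 4) (nat_lit 2) (nat_lit 4) (nat_lit 251) (nat_lit 213) (nat_lit 196))))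 (XT.nd (nat_lit 78) (nat_lit 0) (nat_lit 0) (XT.lf (nat_lit 0) (nat_lit 29157099010) (nat_lit 152) (nat_lit 46161697407) (nat_lit 0) (nat_lit 24358130841) (nat_lit 2) (nat_lit 5) (nat_lit 4) (nat_lit 4) (nat_lit 2) (nat_lit 4) (nat_lit 252) (nat_lit 213) (nat_lit 195)) (XT.nd (nat_lit 78) (nat_lit 0) (nat_lit 0) (XT.lf (nat_lit 0) (nat_lit 39664640059) (nat_lit 152) (nat_lit 39596635066) (nat_lit 0) (nat_lit 34810645304) (nat_lit 2) (nat_lit 5) (nat_lit 4) (nat_lit 4) (nat_lit 2) (nat_lit 4) (nat_lit 253) (nat_lit 213) (nat_lit 194)) (XT.lf (nat_lit 0) (nat_lit 51629900408) (nat_lit 152) (nat_lit 32277733066) (nat_lit 0) (nat_lit 46728056448) (nat_lit 2) (nat_lit 5) (nat_lit 4) (nat_lit 4) (nat_lit 2) (nat_lit 4) (nat_lit 254) (nat_lit 213) (nat_lit 193))))) (XT.nd (nat_lit 234) (nat_lit 76) (nat_lit 0) (XT.nd (nat_lit 78) (nat_lit 0) (nat_lit 0) (XT.lf (nat_lit 0) (nat_lit 65286982977)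 (nat_lit 152) (nat_lit 24061795498) (nat_lit 0) (nat_lit 60343531014) (nat_lit 2) (nat_lit 5) (nat_lit 4) (nat_lit 4) (nat_lit 2) (nat_lit 4) (nat_lit 255) (nat_lit 213) (nat_lit 192)) (XT.nd (nat_lit 78) (nat_lit 0) (nat_lit 0) (XT.lf (nat_lit 0) (nat_lit 80903091557) (nat_lit 152) (nat_lit 14788075757) (nat_lit 0) (nat_lit 75923458720) (nat_lit 2) (nat_lit 5) (nat_lit 4) (nat_lit 4) (nat_lit 2) (nat_lit 4) (nat_lit 256) (nat_lit 213) (nat_lit 191)) (XT.lf (nat_lit 0) (nat_lit 98783758706) (nat_lit 152) (nat_lit 4275131502) (nat_lit 0) (nat_lit 93772664240) (nat_lit 2) (nat_lit 5) (nat_lit 4) (nat_lit 4) (nat_lit 2) (nat_lit 4) (nat_lit 257) (nat_lit 213) (nat_lit 190)))) (XT.nd (nat_lit 156) (nat_lit 0) (nat_lit 0) (XT.nd (nat_lit 78) (nat_lit 0) (nat_lit 0) (XT.lf (nat_lit 0) (nat_lit 8087284007) (nat_lit 76) (nat_lit 111386038931) (nat_lit 76) (nat_lit 106347586527) (nat_lit 1) (nat_lit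 4) (nat_lit 2) (nat_lit 5) (nat_lit 2) (nat_lit 4) (nat_lit 258) (nat_lit 213) (nat_lit 189)) (XT.lf (nat_lit 0) (nat_lit 22442097340) (nat_lit 76) (nat_lit 120886912171) (nat_lit 76) (nat_lit 115824670255) (nat_lit 1) (nat_lit 4) (nat_lit 2) (nat_lit 5) (nat_lit 2) (nat_lit 4) (nat_lit 259) (nat_lit 213) (nat_lit 188))) (XT.nd (nat_lit 78) (nat_lit 0) (nat_lit 0) (XT.lf (nat_lit 0) (nat_lit 38845042691) (nat_lit 76) (nat_lit 131864286247) (nat_lit 76) (nat_lit 126781357800) (nat_lit 1) (nat_lit 4) (nat_lit 2) (nat_lit 5) (nat_lit 2) (nat_lit 4) (nat_lit 260) (nat_lit 213) (nat_lit 187)) (XT.lf (nat_lit 0) (nat_lit 57617047251) (nat_lit 76) (nat_lit 144532935873) (nat_lit 76) (nat_lit 139432019137) (nat_lit 1) (nat_lit 4) (nat_lit 2) (nat_lit 5) (nat_lit 2) (nat_lit 4) (nat_lit 261) (nat_lit 213) (nat_lit 186))))))) (XT.nd (nat_lit 1014) (nat_lit 0) (nat_lit 0) (XT.nd (nat_lit 468) (nat_lit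 0) (nat_lit 0) (XT.nd (nat_lit 234) (nat_lit 0) (nat_lit 0) (XT.nd (nat_lit 78) (nat_lit 0) (nat_lit 0) (XT.lf (nat_lit 0) (nat_lit 79125389372) (nat_lit 76) (nat_lit 159140725930) (nat_lit 76) (nat_lit 154024167204) (nat_lit 1) (nat_lit 4) (nat_lit 2) (nat_lit 5) (nat_lit 2) (nat_lit 4) (nat_lit 262) (nat_lit 213) (nat_lit 185)) (XT.nd (nat_lit 78) (nat_lit 0) (nat_lit 0) (XT.lf (nat_lit 0) (nat_lit 103790884441) (nat_lit 76) (nat_lit 175973461007) (nat_lit 76) (nat_lit 170843300551) (nat_lit 1) (nat_lit 4) (nat_lit 2) (nat_lit 5) (nat_lit 2) (nat_lit 4) (nat_lit 263) (nat_lit 213) (nat_lit 184)) (XT.lf (nat_lit 0) (nat_lit 132096118233) (nat_lit 76) (nat_lit 195360477226) (nat_lit 76) (nat_lit 190218489178) (nat_lit 1) (nat_lit 4) (nat_lit 2) (nat_lit 5) (nat_lit 2) (nat_lit 4) (nat_lit 264) (nat_lit 213) (nat_lit 183)))) (XT.nd (nat_lit 78) (nat_lit 0) (nat_lit 0) (XT.lf (nat_lit 0)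 (nat_lit 164594888800) (nat_lit 76) (nat_lit 217681085772) (nat_lit 76) (nat_lit 212528812863) (nat_lit 1) (nat_lit 4) (nat_lit 2) (nat_lit 5) (nat_lit 2) (nat_lit 4) (nat_lit 265) (nat_lit 213) (nat_lit 182)) (XT.nd (nat_lit 78) (nat_lit 0) (nat_lit 0) (XT.lf (nat_lit 0) (nat_lit 201923041652) (nat_lit 76) (nat_lit 243371994206) (nat_lit 76) (nat_lit 238210777938) (nat_lit 1) (nat_lit 4) (nat_lit 2) (nat_lit 5) (nat_lit 2) (nat_lit 4) (nat_lit 266) (nat_lit 213) (nat_lit 181)) (XT.lf (nat_lit 0) (nat_lit 244810910215) (nat_lit 76) (nat_lit 272935850734) (nat_lit 76) (nat_lit 267766857633) (nat_lit 1) (nat_lit 4) (nat_lit 2) (nat_lit 5) (nat_lit 2) (nat_lit 4) (nat_lit 267) (nat_lit 213) (nat_lit 180))))) (XT.nd (nat_lit 234) (nat_lit 0) (nat_lit 0) (XT.nd (nat_lit 78) (nat_lit 0) (nat_lit 0) (XT.lf (nat_lit 0) (nat_lit 294097604962) (nat_lit 76) (nat_lit 306951078637) (nat_lit 76) (nat_lit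 301775323072) (nat_lit 1) (nat_lit 4) (nat_lit 2) (nat_lit 5) (nat_lit 2) (nat_lit 4) (nat_lit 268) (nat_lit 213) (nat_lit 179)) (XT.nd (nat_lit 78) (nat_lit 0) (nat_lit 0) (XT.lf (nat_lit 0) (nat_lit 350747430788) (nat_lit 76) (nat_lit 346083193245) (nat_lit 76) (nat_lit 340901557276) (nat_lit 1) (nat_lit 4) (nat_lit 2) (nat_lit 5) (nat_lit 2) (nat_lit 4) (nat_lit 269) (nat_lit 213) (nat_lit 178)) (XT.lf (nat_lit 0) (nat_lit 415868753852) (nat_lit 76) (nat_lit 391097822884) (nat_lit 76) (nat_lit 385911073521) (nat_lit 1) (nat_lit 4) (nat_lit 2) (nat_lit 5) (nat_lit 2) (nat_lit 4) (nat_lit 270) (nat_lit 213) (nat_lit 177)))) (XT.nd (nat_lit 156) (nat_lit 0) (nat_lit 0) (XT.nd (nat_lit 78) (nat_lit 0) (nat_lit 0) (XT.lf (nat_lit 0) (nat_lit 490735686997) (nat_lit 76) (nat_lit 442875688572) (nat_lit 76) (nat_lit 437684492779) (nat_lit 1) (nat_lit 4) (nat_lit 2) (nat_lit 5) (nat_lit 2) (nat_lit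 4) (nat_lit 271) (nat_lit 213) (nat_lit 176)) (XT.lf (nat_lit 0) (nat_lit 576813018044) (nat_lit 76) (nat_lit 502429835505) (nat_lit 76) (nat_lit 497234773251) (nat_lit 1) (nat_lit 4) (nat_lit 2) (nat_lit 5) (nat_lit 2) (nat_lit 4) (nat_lit 272) (nat_lit 213) (nat_lit 175))) (XT.nd (nat_lit 78) (nat_lit 0) (nat_lit 0) (XT.lf (nat_lit 0) (nat_lit 675784868688) (nat_lit 76) (nat_lit 570925453515) (nat_lit 76) (nat_lit 565727029122) (nat_lit 1) (nat_lit 4) (nat_lit 2) (nat_lit 5) (nat_lit 2) (nat_lit 4) (nat_lit 273) (nat_lit 213) (nat_lit 174)) (XT.lf (nat_lit 0) (nat_lit 789587644703) (nat_lit 76) (nat_lit 649702674259) (nat_lit 76) (nat_lit 644501326266) (nat_lit 1) (nat_lit 4) (nat_lit 2) (nat_lit 5) (nat_lit 2) (nat_lit 4) (nat_lit 274) (nat_lit 213) (nat_lit 173)))))) (XT.nd (nat_lit 468) (nat_lit 0) (nat_lit 0) (XT.nd (nat_lit 234) (nat_lit 0) (nat_lit 0) (XT.nd (nat_lit 78) (nat_lit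 0) (nat_lit 0) (XT.lf (nat_lit 0) (nat_lit 920447922140) (nat_lit 76) (nat_lit 740302791186) (nat_lit 76) (nat_lit 735098900933) (nat_lit 1) (nat_lit 4) (nat_lit 2) (nat_lit 5) (nat_lit 2) (nat_lit 4) (nat_lit 275) (nat_lit 213) (nat_lit 172)) (XT.nd (nat_lit 78) (nat_lit 0) (nat_lit 0) (XT.lf (nat_lit 0) (nat_lit 1070926010777) (nat_lit 76) (nat_lit 844498415280) (nat_lit 76) (nat_lit 839292314365) (nat_lit 1) (nat_lit 4) (nat_lit 2) (nat_lit 5) (nat_lit 2) (nat_lit 4) (nat_lit 276) (nat_lit 213) (nat_lit 171)) (XT.lf (nat_lit 0) (nat_lit 1243966047129) (nat_lit 76) (nat_lit 964328156576) (nat_lit 76) (nat_lit 959120133347) (nat_lit 1) (nat_lit 4) (nat_lit 2) (nat_lit 5) (nat_lit 2) (nat_lit 4) (nat_lit 277) (nat_lit 213) (nat_lit 170)))) (XT.nd (nat_lit 78) (nat_lit 0) (nat_lit 0) (XT.lf (nat_lit 0) (nat_lit 1442953597126) (nat_lit 76) (nat_lit 1102136510015) (nat_lit 76) (nat_lit 1096926815208)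 (nat_lit 1) (nat_lit 4) (nat_lit 2) (nat_lit 5) (nat_lit 2) (nat_lit 4) (nat_lit 278) (nat_lit 213) (nat_lit 169)) (XT.nd (nat_lit 78) (nat_lit 0) (nat_lit 0) (XT.lf (nat_lit 0) (nat_lit 1671781895440) (nat_lit 76) (nat_lit 1260619725988) (nat_lit 76) (nat_lit 1255408577635) (nat_lit 1) (nat_lit 4) (nat_lit 2) (nat_lit 5) (nat_lit 2) (nat_lit 4) (nat_lit 279) (nat_lit 213) (nat_lit 168)) (XT.lf (nat_lit 0) (nat_lit 1934928017475) (nat_lit 76) (nat_lit 1442878563069) (nat_lit 76) (nat_lit 1437666150763) (nat_lit 1) (nat_lit 4) (nat_lit 2) (nat_lit 5) (nat_lit 2) (nat_lit 4) (nat_lit 280) (nat_lit 213) (nat_lit 167))))) (XT.nd (nat_lit 234) (nat_lit 0) (nat_lit 0) (XT.nd (nat_lit 78) (nat_lit 0) (nat_lit 0) (XT.lf (nat_lit 0) (nat_lit 2237540474313) (nat_lit 76) (nat_lit 1652478955027) (nat_lit 76) (nat_lit 1647265443632) (nat_lit 1) (nat_lit 4) (nat_lit 2) (nat_lit 5) (nat_lit 2) (nat_lit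 4) (nat_lit 281) (nat_lit 213) (nat_lit 166)) (XT.nd (nat_lit 78) (nat_lit 0) (nat_lit 0) (XT.lf (nat_lit 0) (nat_lit 2585539944458) (nat_lit 76) (nat_lit 1893521779097) (nat_lit 76) (nat_lit 1888307311972) (nat_lit 1) (nat_lit 4) (nat_lit 2) (nat_lit 5) (nat_lit 2) (nat_lit 4) (nat_lit 282) (nat_lit 213) (nat_lit 165)) (XT.lf (nat_lit 0) (nat_lit 2985735113195) (nat_lit 76) (nat_lit 2170723090531) (nat_lit 76) (nat_lit 2165507792337) (nat_lit 1) (nat_lit 4) (nat_lit 2) (nat_lit 5) (nat_lit 2) (nat_lit 4) (nat_lit 283) (nat_lit 213) (nat_lit 164)))) (XT.nd (nat_lit 156) (nat_lit 0) (nat_lit 0) (XT.nd (nat_lit 78) (nat_lit 0) (nat_lit 0) (XT.lf (nat_lit 0) (nat_lit 3445955885999) (nat_lit 76) (nat_lit 2489506393250) (nat_lit 76) (nat_lit 2484290372386) (nat_lit 1) (nat_lit 4) (nat_lit 2) (nat_lit 5) (nat_lit 2) (nat_lit 4) (nat_lit 284) (nat_lit 213) (nat_lit 163)) (XT.lf (nat_lit 0) (nat_lit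 3975206582338) (nat_lit 76) (nat_lit 2856108751871) (nat_lit 76) (nat_lit 2850892102599) (nat_lit 1) (nat_lit 4) (nat_lit 2) (nat_lit 5) (nat_lit 2) (nat_lit 4) (nat_lit 285) (nat_lit 213) (nat_lit 162))) (XT.nd (nat_lit 78) (nat_lit 0) (nat_lit 0) (XT.lf (nat_lit 0) (nat_lit 4583842107142) (nat_lit 76) (nat_lit 3277702821237) (nat_lit 76) (nat_lit 3272485625524) (nat_lit 1) (nat_lit 4) (nat_lit 2) (nat_lit 5) (nat_lit 2) (nat_lit 4) (nat_lit 286) (nat_lit 213) (nat_lit 161)) (XT.lf (nat_lit 0) (nat_lit 5283770546763) (nat_lit 76) (nat_lit 3762537180966) (nat_lit 76) (nat_lit 3757319510086) (nat_lit 1) (nat_lit 4) (nat_lit 2) (nat_lit 5) (nat_lit 2) (nat_lit 4) (nat_lit 287) (nat_lit 213) (nat_lit 160))))))))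
noncomputable def xc16 : XT := (XT.nd (nat_lit 31902) (nat_lit 0) (nat_lit 0) (XT.nd (nat_lit 30888) (nat_lit 0) (nat_lit 76) (XT.nd (nat_lit 30420) (nat_lit 0) (nat_lit 456) (XT.nd (nat_lit 30186) (nat_lit 0) (nat_lit 912) (XT.nd (nat_lit 30030) (nat_lit 0) (nat_lit 1444) (XT.lf (nat_lit 0) (nat_lit 6088686153283) (nat_lit 76) (nat_lit 4320097720705) (nat_lit 76) (nat_lit 4314879636637) (nat_lit 1) (nat_lit 4) (nat_lit 2) (nat_lit 5) (nat_lit 2) (nat_lit 4) (nat_lit 288) (nat_lit 213) (nat_lit 159)) (XT.nd (nat_lit 78) (nat_lit 152) (nat_lit 0) (XT.lf (nat_lit 0) (nat_lit 1257008912) (nat_lit 152) (nat_lit 2724239161) (nat_lit 0) (nat_lit 1257008912) (nat_lit 22) (nat_lit 5) (nat_lit 24) (nat_lit 4) (nat_lit 22) (nat_lit 4) (nat_lit 232) (nat_lit 214) (nat_lit 214)) (XT.lf (nat_lit 0) (nat_lit 8426906848) (nat_lit 152) (nat_lit 2063536623) (nat_lit 152) (nat_lit 820814402) (nat_lit 20)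 (nat_lit 4) (nat_lit 22) (nat_lit 5) (nat_lit 22) (nat_lit 4) (nat_lit 233) (nat_lit 214) (nat_lit 213)))) (XT.nd (nat_lit 78) (nat_lit 380) (nat_lit 0) (XT.lf (nat_lit 0) (nat_lit 6777326766) (nat_lit 152) (nat_lit 874325871) (nat_lit 0) (nat_lit 4626076544) (nat_lit 18) (nat_lit 5) (nat_lit 20) (nat_lit 4) (nat_lit 18) (nat_lit 4) (nat_lit 234) (nat_lit 214) (nat_lit 212)) (XT.nd (nat_lit 78) (nat_lit 76) (nat_lit 0) (XT.lf (nat_lit 0) (nat_lit 564450014) (nat_lit 76) (nat_lit 1159478401) (nat_lit 152) (nat_lit 11680547855) (nat_lit 14) (nat_lit 5) (nat_lit 15) (nat_lit 5) (nat_lit 16) (nat_lit 4) (nat_lit 235) (nat_lit 214) (nat_lit 211)) (XT.lf (nat_lit 0) (nat_lit 963979764) (nat_lit 76) (nat_lit 8616856673) (nat_lit 76) (nat_lit 5118796992) (nat_lit 13) (nat_lit 4) (nat_lit 14) (nat_lit 5) (nat_lit 14) (nat_lit 4) (nat_lit 236) (nat_lit 214) (nat_lit 210))))) (XT.nd (nat_lit 234)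 (nat_lit 228) (nat_lit 0) (XT.nd (nat_lit 78) (nat_lit 76) (nat_lit 0) (XT.lf (nat_lit 0) (nat_lit 142549858) (nat_lit 76) (nat_lit 1900611145) (nat_lit 152) (nat_lit 14162885346) (nat_lit 11) (nat_lit 5) (nat_lit 12) (nat_lit 5) (nat_lit 13) (nat_lit 4) (nat_lit 237) (nat_lit 214) (nat_lit 209)) (XT.nd (nat_lit 78) (nat_lit 76) (nat_lit 0) (XT.lf (nat_lit 0) (nat_lit 9903643269) (nat_lit 152) (nat_lit 2420327614) (nat_lit 0) (nat_lit 5610185834) (nat_lit 11) (nat_lit 5) (nat_lit 13) (nat_lit 4) (nat_lit 11) (nat_lit 4) (nat_lit 238) (nat_lit 214) (nat_lit 208)) (XT.lf (nat_lit 0) (nat_lit 12854418348) (nat_lit 76) (nat_lit 5901253244) (nat_lit 76) (nat_lit 1181299030) (nat_lit 10) (nat_lit 4) (nat_lit 11) (nat_lit 5) (nat_lit 11) (nat_lit 4) (nat_lit 239) (nat_lit 214) (nat_lit 207)))) (XT.nd (nat_lit 78) (nat_lit 76) (nat_lit 0) (XT.lf (nat_lit 0) (nat_lit 6138453547) (nat_lit 152)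 (nat_lit 14682284731) (nat_lit 0) (nat_lit 1424730419) (nat_lit 8) (nat_lit 5) (nat_lit 10) (nat_lit 4) (nat_lit 8) (nat_lit 4) (nat_lit 240) (nat_lit 214) (nat_lit 206)) (XT.nd (nat_lit 78) (nat_lit 76) (nat_lit 0) (XT.lf (nat_lit 0) (nat_lit 14386303877) (nat_lit 152) (nat_lit 1145839693) (nat_lit 0) (nat_lit 9373976269) (nat_lit 8) (nat_lit 5) (nat_lit 10) (nat_lit 4) (nat_lit 8) (nat_lit 4) (nat_lit 241) (nat_lit 214) (nat_lit 205)) (XT.lf (nat_lit 0) (nat_lit 14360731418) (nat_lit 76) (nat_lit 9441473144) (nat_lit 76) (nat_lit 4169489467) (nat_lit 7) (nat_lit 4) (nat_lit 8) (nat_lit 5) (nat_lit 8) (nat_lit 4) (nat_lit 242) (nat_lit 214) (nat_lit 204)))))) (XT.nd (nat_lit 468) (nat_lit 152) (nat_lit 0) (XT.nd (nat_lit 234) (nat_lit 76) (nat_lit 0) (XT.nd (nat_lit 78) (nat_lit 76) (nat_lit 0) (XT.lf (nat_lit 0) (nat_lit 2623236039) (nat_lit 152) (nat_lit 41440602) (nat_lit 76) (nat_lit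 28854909170) (nat_lit 6) (nat_lit 5) (nat_lit 8) (nat_lit 5) (nat_lit 7) (nat_lit 4) (nat_lit 243) (nat_lit 214) (nat_lit 203)) (XT.nd (nat_lit 78) (nat_lit 0) (nat_lit 0) (XT.lf (nat_lit 0) (nat_lit 10361731061) (nat_lit 152) (nat_lit 20126165779) (nat_lit 0) (nat_lit 5089408045) (nat_lit 5) (nat_lit 5) (nat_lit 7) (nat_lit 4) (nat_lit 5) (nat_lit 4) (nat_lit 244) (nat_lit 214) (nat_lit 202)) (XT.lf (nat_lit 0) (nat_lit 19022137191) (nat_lit 152) (nat_lit 7649100784) (nat_lit 0) (nat_lit 13591732619) (nat_lit 5) (nat_lit 5) (nat_lit 7) (nat_lit 4) (nat_lit 5) (nat_lit 4) (nat_lit 245) (nat_lit 214) (nat_lit 201)))) (XT.nd (nat_lit 78) (nat_lit 0) (nat_lit 0) (XT.lf (nat_lit 0) (nat_lit 6501355878) (nat_lit 76) (nat_lit 22363737126) (nat_lit 76) (nat_lit 16795870332) (nat_lit 4) (nat_lit 4) (nat_lit 5) (nat_lit 5) (nat_lit 5) (nat_lit 4) (nat_lit 246) (nat_lit 214) (nat_lit 200)) (XT.nd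 (nat_lit 78) (nat_lit 0) (nat_lit 0) (XT.lf (nat_lit 0) (nat_lit 22758497660) (nat_lit 76) (nat_lit 17399890360) (nat_lit 76) (nat_lit 11712491198) (nat_lit 4) (nat_lit 4) (nat_lit 5) (nat_lit 5) (nat_lit 5) (nat_lit 4) (nat_lit 247) (nat_lit 214) (nat_lit 199)) (XT.lf (nat_lit 0) (nat_lit 41037610982) (nat_lit 76) (nat_lit 11891718907) (nat_lit 76) (nat_lit 6100378555) (nat_lit 4) (nat_lit 4) (nat_lit 5) (nat_lit 5) (nat_lit 5) (nat_lit 4) (nat_lit 248) (nat_lit 214) (nat_lit 198))))) (XT.nd (nat_lit 234) (nat_lit 0) (nat_lit 0) (XT.nd (nat_lit 78) (nat_lit 76) (nat_lit 0) (XT.lf (nat_lit 0) (nat_lit 142752695) (nat_lit 152) (nat_lit 5584798388) (nat_lit 76) (nat_lit 61549674862) (nat_lit 3) (nat_lit 5) (nat_lit 5) (nat_lit 5) (nat_lit 4) (nat_lit 4) (nat_lit 249) (nat_lit 214) (nat_lit 197)) (XT.nd (nat_lit 78) (nat_lit 0) (nat_lit 0) (XT.lf (nat_lit 0) (nat_lit 7049609350) (nat_lit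 152) (nat_lit 68161795092) (nat_lit 0) (nat_lit 1530795955) (nat_lit 2) (nat_lit 5) (nat_lit 4) (nat_lit 4) (nat_lit 2) (nat_lit 4) (nat_lit 250) (nat_lit 214) (nat_lit 196)) (XT.lf (nat_lit 0) (nat_lit 15161123379) (nat_lit 152) (nat_lit 62873349861) (nat_lit 0) (nat_lit 9579029410) (nat_lit 2) (nat_lit 5) (nat_lit 4) (nat_lit 4) (nat_lit 2) (nat_lit 4) (nat_lit 251) (nat_lit 214) (nat_lit 195)))) (XT.nd (nat_lit 156) (nat_lit 0) (nat_lit 0) (XT.nd (nat_lit 78) (nat_lit 0) (nat_lit 0) (XT.lf (nat_lit 0) (nat_lit 24353190877) (nat_lit 152) (nat_lit 57057195491) (nat_lit 0) (nat_lit 18716070323) (nat_lit 2) (nat_lit 5) (nat_lit 4) (nat_lit 4) (nat_lit 2) (nat_lit 4) (nat_lit 252) (nat_lit 214) (nat_lit 194)) (XT.lf (nat_lit 0) (nat_lit 34805656643) (nat_lit 152) (nat_lit 50599537658) (nat_lit 0) (nat_lit 29120686885) (nat_lit 2) (nat_lit 5) (nat_lit 4) (nat_lit 4) (nat_lit 2) (nat_lit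 4) (nat_lit 253) (nat_lit 214) (nat_lit 193))) (XT.nd (nat_lit 78) (nat_lit 0) (nat_lit 0) (XT.lf (nat_lit 0) (nat_lit 46723025442) (nat_lit 152) (nat_lit 43374030882) (nat_lit 0) (nat_lit 40996447680) (nat_lit 2) (nat_lit 5) (nat_lit 4) (nat_lit 4) (nat_lit 2) (nat_lit 4) (nat_lit 254) (nat_lit 214) (nat_lit 192)) (XT.lf (nat_lit 0) (nat_lit 60338463186) (nat_lit 152) (nat_lit 35239306552) (nat_lit 0) (nat_lit 54575704551) (nat_lit 2) (nat_lit 5) (nat_lit 4) (nat_lit 4) (nat_lit 2) (nat_lit 4) (nat_lit 255) (nat_lit 214) (nat_lit 191))))))) (XT.nd (nat_lit 936) (nat_lit 0) (nat_lit 0) (XT.nd (nat_lit 468) (nat_lit 0) (nat_lit 0) (XT.nd (nat_lit 234) (nat_lit 76) (nat_lit 0) (XT.nd (nat_lit 78) (nat_lit 0) (nat_lit 0) (XT.lf (nat_lit 0) (nat_lit 75918358874) (nat_lit 152) (nat_lit 26036207019) (nat_lit 0) (nat_lit 70124138609) (nat_lit 2) (nat_lit 5) (nat_lit 4) (nat_lit 4) (nat_lit 2)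 (nat_lit 4) (nat_lit 256) (nat_lit 214) (nat_lit 190)) (XT.nd (nat_lit 78) (nat_lit 0) (nat_lit 0) (XT.lf (nat_lit 0) (nat_lit 93767536551) (nat_lit 152) (nat_lit 15584671640) (nat_lit 0) (nat_lit 87945958349) (nat_lit 2) (nat_lit 5) (nat_lit 4) (nat_lit 4) (nat_lit 2) (nat_lit 4) (nat_lit 257) (nat_lit 214) (nat_lit 189)) (XT.lf (nat_lit 0) (nat_lit 114235219260) (nat_lit 152) (nat_lit 3680213853) (nat_lit 0) (nat_lit 108389851546) (nat_lit 2) (nat_lit 5) (nat_lit 4) (nat_lit 4) (nat_lit 2) (nat_lit 4) (nat_lit 258) (nat_lit 214) (nat_lit 188)))) (XT.nd (nat_lit 78) (nat_lit 0) (nat_lit 0) (XT.lf (nat_lit 0) (nat_lit 10431926878) (nat_lit 76) (nat_lit 127540822876) (nat_lit 76) (nat_lit 121674768630) (nat_lit 1) (nat_lit 4) (nat_lit 2) (nat_lit 5) (nat_lit 2) (nat_lit 4) (nat_lit 259) (nat_lit 214) (nat_lit 187)) (XT.nd (nat_lit 78) (nat_lit 0) (nat_lit 0) (XT.lf (nat_lit 0) (nat_lit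 26792368697) (nat_lit 76) (nat_lit 138538973435) (nat_lit 76) (nat_lit 132654930901) (nat_lit 1) (nat_lit 4) (nat_lit 2) (nat_lit 5) (nat_lit 2) (nat_lit 4) (nat_lit 260) (nat_lit 214) (nat_lit 186)) (XT.lf (nat_lit 0) (nat_lit 45527413665) (nat_lit 76) (nat_lit 151225689566) (nat_lit 76) (nat_lit 145326005042) (nat_lit 1) (nat_lit 4) (nat_lit 2) (nat_lit 5) (nat_lit 2) (nat_lit 4) (nat_lit 261) (nat_lit 214) (nat_lit 185))))) (XT.nd (nat_lit 234) (nat_lit 0) (nat_lit 0) (XT.nd (nat_lit 78) (nat_lit 0) (nat_lit 0) (XT.lf (nat_lit 0) (nat_lit 67003617010) (nat_lit 76) (nat_lit 165849189629) (nat_lit 76) (nat_lit 159935903375) (nat_lit 1) (nat_lit 4) (nat_lit 2) (nat_lit 5) (nat_lit 2) (nat_lit 4) (nat_lit 262) (nat_lit 214) (nat_lit 184)) (XT.nd (nat_lit 78) (nat_lit 0) (nat_lit 0) (XT.lf (nat_lit 0) (nat_lit 91641165317) (nat_lit 76) (nat_lit 182695585580) (nat_lit 76) (nat_lit 176770471734)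 (nat_lit 1) (nat_lit 4) (nat_lit 2) (nat_lit 5) (nat_lit 2) (nat_lit 4) (nat_lit 263) (nat_lit 214) (nat_lit 183)) (XT.lf (nat_lit 0) (nat_lit 119922097577) (nat_lit 76) (nat_lit 202094480820) (nat_lit 76) (nat_lit 196159082112) (nat_lit 1) (nat_lit 4) (nat_lit 2) (nat_lit 5) (nat_lit 2) (nat_lit 4) (nat_lit 264) (nat_lit 214) (nat_lit 182)))) (XT.nd (nat_lit 78) (nat_lit 0) (nat_lit 0) (XT.lf (nat_lit 0) (nat_lit 152399736376) (nat_lit 76) (nat_lit 224425418950) (nat_lit 76) (nat_lit 218481076884) (nat_lit 1) (nat_lit 4) (nat_lit 2) (nat_lit 5) (nat_lit 2) (nat_lit 4) (nat_lit 265) (nat_lit 214) (nat_lit 181)) (XT.nd (nat_lit 78) (nat_lit 0) (nat_lit 0) (XT.lf (nat_lit 0) (nat_lit 189709513779) (nat_lit 76) (nat_lit 250125309630) (nat_lit 76) (nat_lit 244173190730) (nat_lit 1) (nat_lit 4) (nat_lit 2) (nat_lit 5) (nat_lit 2) (nat_lit 4) (nat_lit 266) (nat_lit 214) (nat_lit 180)) (XT.lf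 (nat_lit 0) (nat_lit 232581403690) (nat_lit 76) (nat_lit 279696976808) (nat_lit 76) (nat_lit 273738095444) (nat_lit 1) (nat_lit 4) (nat_lit 2) (nat_lit 5) (nat_lit 2) (nat_lit 4) (nat_lit 267) (nat_lit 214) (nat_lit 179)))))) (XT.nd (nat_lit 468) (nat_lit 0) (nat_lit 0) (XT.nd (nat_lit 234) (nat_lit 0) (nat_lit 0) (XT.nd (nat_lit 78) (nat_lit 0) (nat_lit 0) (XT.lf (nat_lit 0) (nat_lit 281854203957) (nat_lit 76) (nat_lit 313718996580) (nat_lit 76) (nat_lit 307754234813) (nat_lit 1) (nat_lit 4) (nat_lit 2) (nat_lit 5) (nat_lit 2) (nat_lit 4) (nat_lit 268) (nat_lit 214) (nat_lit 178)) (XT.nd (nat_lit 78) (nat_lit 0) (nat_lit 0) (XT.lf (nat_lit 0) (nat_lit 338491947627) (nat_lit 76) (nat_lit 352857017160) (nat_lit 76) (nat_lit 346887141998) (nat_lit 1) (nat_lit 4) (nat_lit 2) (nat_lit 5) (nat_lit 2) (nat_lit 4) (nat_lit 269) (nat_lit 214) (nat_lit 177)) (XT.lf (nat_lit 0) (nat_lit 403602764468)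 (nat_lit 76) (nat_lit 397876782429) (nat_lit 76) (nat_lit 391902460837) (nat_lit 1) (nat_lit 4) (nat_lit 2) (nat_lit 5) (nat_lit 2) (nat_lit 4) (nat_lit 270) (nat_lit 214) (nat_lit 176)))) (XT.nd (nat_lit 78) (nat_lit 0) (nat_lit 0) (XT.lf (nat_lit 0) (nat_lit 478460561767) (nat_lit 76) (nat_lit 449659113880) (nat_lit 76) (nat_lit 443680925828) (nat_lit 1) (nat_lit 4) (nat_lit 2) (nat_lit 5) (nat_lit 2) (nat_lit 4) (nat_lit 271) (nat_lit 214) (nat_lit 175)) (XT.nd (nat_lit 78) (nat_lit 0) (nat_lit 0) (XT.lf (nat_lit 0) (nat_lit 564529948600) (nat_lit 76) (nat_lit 509217144086) (nat_lit 76) (nat_lit 503235593894) (nat_lit 1) (nat_lit 4) (nat_lit 2) (nat_lit 5) (nat_lit 2) (nat_lit 4) (nat_lit 272) (nat_lit 214) (nat_lit 174)) (XT.lf (nat_lit 0) (nat_lit 663494891232) (nat_lit 76) (nat_lit 577716138856) (nat_lit 76) (nat_lit 571731665064) (nat_lit 1) (nat_lit 4) (nat_lit 2) (nat_lit 5)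 (nat_lit 2) (nat_lit 4) (nat_lit 273) (nat_lit 214) (nat_lit 173))))) (XT.nd (nat_lit 234) (nat_lit 0) (nat_lit 0) (XT.nd (nat_lit 78) (nat_lit 0) (nat_lit 0) (XT.lf (nat_lit 0) (nat_lit 777291660279) (nat_lit 76) (nat_lit 656496295912) (nat_lit 76) (nat_lit 650509279859) (nat_lit 1) (nat_lit 4) (nat_lit 2) (nat_lit 5) (nat_lit 2) (nat_lit 4) (nat_lit 274) (nat_lit 214) (nat_lit 172)) (XT.nd (nat_lit 78) (nat_lit 0) (nat_lit 0) (XT.lf (nat_lit 0) (nat_lit 908146714267) (nat_lit 76) (nat_lit 747098966154) (nat_lit 76) (nat_lit 741109739440) (nat_lit 1) (nat_lit 4) (nat_lit 2) (nat_lit 5) (nat_lit 2) (nat_lit 4) (nat_lit 275) (nat_lit 214) (nat_lit 171)) (XT.lf (nat_lit 0) (nat_lit 1058620260774) (nat_lit 76) (nat_lit 851296810522) (nat_lit 76) (nat_lit 845305661493) (nat_lit 1) (nat_lit 4) (nat_lit 2) (nat_lit 5) (nat_lit 2) (nat_lit 4) (nat_lit 276) (nat_lit 214) (nat_lit 170)))) (XT.nd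 (nat_lit 156) (nat_lit 0) (nat_lit 0) (XT.nd (nat_lit 78) (nat_lit 0) (nat_lit 0) (XT.lf (nat_lit 0) (nat_lit 1231656347447) (nat_lit 76) (nat_lit 971128482491) (nat_lit 76) (nat_lit 965135661886) (nat_lit 1) (nat_lit 4) (nat_lit 2) (nat_lit 5) (nat_lit 2) (nat_lit 4) (nat_lit 277) (nat_lit 214) (nat_lit 169)) (XT.lf (nat_lit 0) (nat_lit 1430640462941) (nat_lit 76) (nat_lit 1108938514776) (nat_lit 76) (nat_lit 1102944240624) (nat_lit 1) (nat_lit 4) (nat_lit 2) (nat_lit 5) (nat_lit 2) (nat_lit 4) (nat_lit 278) (nat_lit 214) (nat_lit 168))) (XT.nd (nat_lit 78) (nat_lit 0) (nat_lit 0) (XT.lf (nat_lit 0) (nat_lit 1659465774732) (nat_lit 76) (nat_lit 1267423190615) (nat_lit 76) (nat_lit 1261427652510) (nat_lit 1) (nat_lit 4) (nat_lit 2) (nat_lit 5) (nat_lit 2) (nat_lit 4) (nat_lit 279) (nat_lit 214) (nat_lit 167)) (XT.lf (nat_lit 0) (nat_lit 1922609299789) (nat_lit 76) (nat_lit 1449683297145)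 (nat_lit 76) (nat_lit 1443686659951) (nat_lit 1) (nat_lit 4) (nat_lit 2) (nat_lit 5) (nat_lit 2) (nat_lit 4) (nat_lit 280) (nat_lit 214) (nat_lit 166))))))))
noncomputable def xc17 : XT := (XT.nd (nat_lit 31746) (nat_lit 0) (nat_lit 0) (XT.nd (nat_lit 30732) (nat_lit 0) (nat_lit 304) (XT.nd (nat_lit 468) (nat_lit 0) (nat_lit 0) (XT.nd (nat_lit 234) (nat_lit 0) (nat_lit 0) (XT.nd (nat_lit 78) (nat_lit 0) (nat_lit 0) (XT.lf (nat_lit 0) (nat_lit 2225219498385) (nat_lit 76) (nat_lit 1659284792972) (nat_lit 76) (nat_lit 1653287200048) (nat_lit 1) (nat_lit 4) (nat_lit 2) (nat_lit 5) (nat_lit 2) (nat_lit 4) (nat_lit 281) (nat_lit 214) (nat_lit 165)) (XT.nd (nat_lit 78) (nat_lit 0) (nat_lit 0) (XT.lf (nat_lit 0) (nat_lit 2573217004842) (nat_lit 76) (nat_lit 1900328576927) (nat_lit 76) (nat_lit 1894330152934) (nat_lit 1) (nat_lit 4) (nat_lit 2) (nat_lit 5) (nat_lit 2) (nat_lit 4) (nat_lit 282)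 (nat_lit 214) (nat_lit 164)) (XT.lf (nat_lit 0) (nat_lit 2973410466024) (nat_lit 76) (nat_lit 2177530723045) (nat_lit 76) (nat_lit 2171531576382) (nat_lit 1) (nat_lit 4) (nat_lit 2) (nat_lit 5) (nat_lit 2) (nat_lit 4) (nat_lit 283) (nat_lit 214) (nat_lit 163)))) (XT.nd (nat_lit 78) (nat_lit 0) (nat_lit 0) (XT.lf (nat_lit 0) (nat_lit 3433629753998) (nat_lit 76) (nat_lit 2496314751575) (nat_lit 76) (nat_lit 2490314976505) (nat_lit 1) (nat_lit 4) (nat_lit 2) (nat_lit 5) (nat_lit 2) (nat_lit 4) (nat_lit 284) (nat_lit 214) (nat_lit 162)) (XT.nd (nat_lit 78) (nat_lit 0) (nat_lit 0) (XT.lf (nat_lit 0) (nat_lit 3962879159180) (nat_lit 76) (nat_lit 2862917741336) (nat_lit 76) (nat_lit 2856917419824) (nat_lit 1) (nat_lit 4) (nat_lit 2) (nat_lit 5) (nat_lit 2) (nat_lit 4) (nat_lit 285) (nat_lit 214) (nat_lit 161)) (XT.lf (nat_lit 0) (nat_lit 4571513561238) (nat_lit 76) (nat_lit 3284512359520) (nat_lit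 76) (nat_lit 3278511562841) (nat_lit 1) (nat_lit 4) (nat_lit 2) (nat_lit 5) (nat_lit 2) (nat_lit 4) (nat_lit 286) (nat_lit 214) (nat_lit 160))))) (XT.nd (nat_lit 30030) (nat_lit 0) (nat_lit 1444) (XT.nd (nat_lit 78) (nat_lit 0) (nat_lit 0) (XT.lf (nat_lit 0) (nat_lit 5271441024560) (nat_lit 76) (nat_lit 3769347196482) (nat_lit 76) (nat_lit 3763345986615) (nat_lit 1) (nat_lit 4) (nat_lit 2) (nat_lit 5) (nat_lit 2) (nat_lit 4) (nat_lit 287) (nat_lit 214) (nat_lit 159)) (XT.nd (nat_lit 29874) (nat_lit 0) (nat_lit 2128) (XT.lf (nat_lit 0) (nat_lit 6076355782123) (nat_lit 76) (nat_lit 4326908151207) (nat_lit 76) (nat_lit 4320906582045) (nat_lit 1) (nat_lit 4) (nat_lit 2) (nat_lit 5) (nat_lit 2) (nat_lit 4) (nat_lit 288) (nat_lit 214) (nat_lit 158)) (XT.lf (nat_lit 0) (nat_lit 3783536861) (nat_lit 152) (nat_lit 390837040) (nat_lit 152) (nat_lit 390837040) (nat_lit 29) (nat_lit 4) (nat_lit 31)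 (nat_lit 5) (nat_lit 31) (nat_lit 4) (nat_lit 230) (nat_lit 215) (nat_lit 215)))) (XT.nd (nat_lit 78) (nat_lit 304) (nat_lit 0) (XT.lf (nat_lit 0) (nat_lit 1418704821) (nat_lit 152) (nat_lit 4944569236) (nat_lit 152) (nat_lit 3401108237) (nat_lit 24) (nat_lit 4) (nat_lit 26) (nat_lit 5) (nat_lit 26) (nat_lit 4) (nat_lit 231) (nat_lit 215) (nat_lit 214)) (XT.nd (nat_lit 78) (nat_lit 152) (nat_lit 0) (XT.lf (nat_lit 0) (nat_lit 3541976279) (nat_lit 152) (nat_lit 6097165091) (nat_lit 0) (nat_lit 870123503) (nat_lit 22) (nat_lit 5) (nat_lit 24) (nat_lit 4) (nat_lit 22) (nat_lit 4) (nat_lit 232) (nat_lit 215) (nat_lit 213)) (XT.lf (nat_lit 0) (nat_lit 7150282719) (nat_lit 152) (nat_lit 3988571061) (nat_lit 152) (nat_lit 236090265) (nat_lit 20) (nat_lit 4) (nat_lit 22) (nat_lit 5) (nat_lit 22) (nat_lit 4) (nat_lit 233) (nat_lit 215) (nat_lit 212)))))) (XT.nd (nat_lit 468) (nat_lit 380) (nat_lit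 0) (XT.nd (nat_lit 234) (nat_lit 304) (nat_lit 0) (XT.nd (nat_lit 78) (nat_lit 304) (nat_lit 0) (XT.lf (nat_lit 0) (nat_lit 6908351308) (nat_lit 152) (nat_lit 2902593875) (nat_lit 0) (nat_lit 2563761185) (nat_lit 18) (nat_lit 5) (nat_lit 20) (nat_lit 4) (nat_lit 18) (nat_lit 4) (nat_lit 234) (nat_lit 215) (nat_lit 211)) (XT.nd (nat_lit 78) (nat_lit 76) (nat_lit 0) (XT.lf (nat_lit 0) (nat_lit 1370132487) (nat_lit 228) (nat_lit 2251297913) (nat_lit 76) (nat_lit 9911219193) (nat_lit 15) (nat_lit 5) (nat_lit 18) (nat_lit 5) (nat_lit 16) (nat_lit 4) (nat_lit 235) (nat_lit 215) (nat_lit 210)) (XT.lf (nat_lit 0) (nat_lit 8790696461) (nat_lit 152) (nat_lit 2614117606) (nat_lit 0) (nat_lit 3458222327) (nat_lit 14) (nat_lit 5) (nat_lit 16) (nat_lit 4) (nat_lit 14) (nat_lit 4) (nat_lit 236) (nat_lit 215) (nat_lit 209)))) (XT.nd (nat_lit 78) (nat_lit 152) (nat_lit 0) (XT.lf (nat_lit 0) (nat_lit 790291493)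 (nat_lit 152) (nat_lit 4218376827) (nat_lit 76) (nat_lit 11390637097) (nat_lit 12) (nat_lit 5) (nat_lit 14) (nat_lit 5) (nat_lit 13) (nat_lit 4) (nat_lit 237) (nat_lit 215) (nat_lit 208)) (XT.nd (nat_lit 78) (nat_lit 76) (nat_lit 0) (XT.lf (nat_lit 0) (nat_lit 8210995490) (nat_lit 152) (nat_lit 7595276717) (nat_lit 0) (nat_lit 2356551365) (nat_lit 11) (nat_lit 5) (nat_lit 13) (nat_lit 4) (nat_lit 11) (nat_lit 4) (nat_lit 238) (nat_lit 215) (nat_lit 207)) (XT.lf (nat_lit 0) (nat_lit 6978936195) (nat_lit 76) (nat_lit 9720641966) (nat_lit 76) (nat_lit 3495331077) (nat_lit 10) (nat_lit 4) (nat_lit 11) (nat_lit 5) (nat_lit 11) (nat_lit 4) (nat_lit 239) (nat_lit 215) (nat_lit 206))))) (XT.nd (nat_lit 234) (nat_lit 152) (nat_lit 0) (XT.nd (nat_lit 78) (nat_lit 76) (nat_lit 0) (XT.lf (nat_lit 0) (nat_lit 800857278) (nat_lit 76) (nat_lit 2732152820) (nat_lit 152) (nat_lit 19007580806) (nat_lit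 8) (nat_lit 5) (nat_lit 9) (nat_lit 5) (nat_lit 10) (nat_lit 4) (nat_lit 240) (nat_lit 215) (nat_lit 205)) (XT.nd (nat_lit 78) (nat_lit 76) (nat_lit 0) (XT.lf (nat_lit 0) (nat_lit 11522359934) (nat_lit 152) (nat_lit 8499776820) (nat_lit 0) (nat_lit 5199922635) (nat_lit 8) (nat_lit 5) (nat_lit 10) (nat_lit 4) (nat_lit 8) (nat_lit 4) (nat_lit 241) (nat_lit 215) (nat_lit 204)) (XT.lf (nat_lit 0) (nat_lit 6288010559) (nat_lit 76) (nat_lit 14288455578) (nat_lit 76) (nat_lit 7740230392) (nat_lit 7) (nat_lit 4) (nat_lit 8) (nat_lit 5) (nat_lit 8) (nat_lit 4) (nat_lit 242) (nat_lit 215) (nat_lit 203)))) (XT.nd (nat_lit 156) (nat_lit 0) (nat_lit 0) (XT.nd (nat_lit 78) (nat_lit 152) (nat_lit 0) (XT.lf (nat_lit 0) (nat_lit 23188853981) (nat_lit 76) (nat_lit 7718965238) (nat_lit 76) (nat_lit 974402760) (nat_lit 7) (nat_lit 4) (nat_lit 8) (nat_lit 5) (nat_lit 8) (nat_lit 4) (nat_lit 243) (nat_lit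 215) (nat_lit 202)) (XT.lf (nat_lit 0) (nat_lit 6235901983) (nat_lit 76) (nat_lit 86786738) (nat_lit 152) (nat_lit 29658422445) (nat_lit 5) (nat_lit 5) (nat_lit 6) (nat_lit 5) (nat_lit 7) (nat_lit 4) (nat_lit 244) (nat_lit 215) (nat_lit 201))) (XT.nd (nat_lit 78) (nat_lit 0) (nat_lit 0) (XT.lf (nat_lit 0) (nat_lit 14854091815) (nat_lit 152) (nat_lit 17509495214) (nat_lit 0) (nat_lit 8313582778) (nat_lit 5) (nat_lit 5) (nat_lit 7) (nat_lit 4) (nat_lit 5) (nat_lit 4) (nat_lit 245) (nat_lit 215) (nat_lit 200)) (XT.lf (nat_lit 0) (nat_lit 24430328286) (nat_lit 152) (nat_lit 3895948134) (nat_lit 0) (nat_lit 17770286882) (nat_lit 5) (nat_lit 5) (nat_lit 7) (nat_lit 4) (nat_lit 5) (nat_lit 4) (nat_lit 246) (nat_lit 215) (nat_lit 199))))))) (XT.nd (nat_lit 936) (nat_lit 76) (nat_lit 0) (XT.nd (nat_lit 468) (nat_lit 0) (nat_lit 0) (XT.nd (nat_lit 234) (nat_lit 152) (nat_lit 0) (XT.nd (nat_lit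 78) (nat_lit 0) (nat_lit 0) (XT.lf (nat_lit 0) (nat_lit 11962272607) (nat_lit 76) (nat_lit 23562092399) (nat_lit 76) (nat_lit 16798109805) (nat_lit 4) (nat_lit 4) (nat_lit 5) (nat_lit 5) (nat_lit 5) (nat_lit 4) (nat_lit 247) (nat_lit 215) (nat_lit 198)) (XT.nd (nat_lit 78) (nat_lit 0) (nat_lit 0) (XT.lf (nat_lit 0) (nat_lit 30072892611) (nat_lit 76) (nat_lit 18134912787) (nat_lit 76) (nat_lit 11280546551) (nat_lit 4) (nat_lit 4) (nat_lit 5) (nat_lit 5) (nat_lit 5) (nat_lit 4) (nat_lit 248) (nat_lit 215) (nat_lit 197)) (XT.lf (nat_lit 0) (nat_lit 50585096370) (nat_lit 76) (nat_lit 12045075763) (nat_lit 76) (nat_lit 5112115054) (nat_lit 4) (nat_lit 4) (nat_lit 5) (nat_lit 5) (nat_lit 5) (nat_lit 4) (nat_lit 249) (nat_lit 215) (nat_lit 196)))) (XT.nd (nat_lit 78) (nat_lit 76) (nat_lit 0) (XT.lf (nat_lit 0) (nat_lit 1736433856) (nat_lit 152) (nat_lit 3389521306) (nat_lit 76) (nat_lit 72116298574)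 (nat_lit 3) (nat_lit 5) (nat_lit 5) (nat_lit 5) (nat_lit 4) (nat_lit 4) (nat_lit 250) (nat_lit 215) (nat_lit 195)) (XT.nd (nat_lit 78) (nat_lit 0) (nat_lit 0) (XT.lf (nat_lit 0) (nat_lit 9573292451) (nat_lit 152) (nat_lit 75526687841) (nat_lit 0) (nat_lit 3035577229) (nat_lit 2) (nat_lit 5) (nat_lit 4) (nat_lit 4) (nat_lit 2) (nat_lit 4) (nat_lit 251) (nat_lit 215) (nat_lit 194)) (XT.lf (nat_lit 0) (nat_lit 18710284667) (nat_lit 152) (nat_lit 69817937979) (nat_lit 0) (nat_lit 12124720240) (nat_lit 2) (nat_lit 5) (nat_lit 4) (nat_lit 4) (nat_lit 2) (nat_lit 4) (nat_lit 252) (nat_lit 215) (nat_lit 193))))) (XT.nd (nat_lit 234) (nat_lit 0) (nat_lit 0) (XT.nd (nat_lit 78) (nat_lit 0) (nat_lit 0) (XT.lf (nat_lit 0) (nat_lit 29114858883) (nat_lit 152) (nat_lit 63453675370) (nat_lit 0) (nat_lit 22487686452) (nat_lit 2) (nat_lit 5) (nat_lit 4) (nat_lit 4) (nat_lit 2) (nat_lit 4) (nat_lit 253)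 (nat_lit 215) (nat_lit 192)) (XT.nd (nat_lit 78) (nat_lit 0) (nat_lit 0) (XT.lf (nat_lit 0) (nat_lit 40990582857) (nat_lit 152) (nat_lit 56309381833) (nat_lit 0) (nat_lit 34327229553) (nat_lit 2) (nat_lit 5) (nat_lit 4) (nat_lit 4) (nat_lit 2) (nat_lit 4) (nat_lit 254) (nat_lit 215) (nat_lit 191)) (XT.lf (nat_lit 0) (nat_lit 54569807709) (nat_lit 152) (nat_lit 48245277711) (nat_lit 0) (nat_lit 47874992776) (nat_lit 2) (nat_lit 5) (nat_lit 4) (nat_lit 4) (nat_lit 2) (nat_lit 4) (nat_lit 255) (nat_lit 215) (nat_lit 190)))) (XT.nd (nat_lit 78) (nat_lit 0) (nat_lit 0) (XT.lf (nat_lit 0) (nat_lit 70118213925) (nat_lit 152) (nat_lit 39103587054) (nat_lit 0) (nat_lit 63396041054) (nat_lit 2) (nat_lit 5) (nat_lit 4) (nat_lit 4) (nat_lit 2) (nat_lit 4) (nat_lit 256) (nat_lit 215) (nat_lit 189)) (XT.nd (nat_lit 78) (nat_lit 0) (nat_lit 0) (XT.lf (nat_lit 0) (nat_lit 87940009454) (nat_lit 152) (nat_lit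 28705450698) (nat_lit 0) (nat_lit 81194047071) (nat_lit 2) (nat_lit 5) (nat_lit 4) (nat_lit 4) (nat_lit 2) (nat_lit 4) (nat_lit 257) (nat_lit 215) (nat_lit 188)) (XT.lf (nat_lit 0) (nat_lit 108383881598) (nat_lit 152) (nat_lit 16847426843) (nat_lit 0) (nat_lit 101617232684) (nat_lit 2) (nat_lit 5) (nat_lit 4) (nat_lit 4) (nat_lit 2) (nat_lit 4) (nat_lit 258) (nat_lit 215) (nat_lit 187)))))) (XT.nd (nat_lit 468) (nat_lit 0) (nat_lit 0) (XT.nd (nat_lit 234) (nat_lit 0) (nat_lit 0) (XT.nd (nat_lit 78) (nat_lit 76) (nat_lit 0) (XT.lf (nat_lit 0) (nat_lit 131849819161) (nat_lit 152) (nat_lit 3297510676) (nat_lit 0) (nat_lit 125065181959) (nat_lit 2) (nat_lit 5) (nat_lit 4) (nat_lit 4) (nat_lit 2) (nat_lit 4) (nat_lit 259) (nat_lit 215) (nat_lit 186)) (XT.nd (nat_lit 78) (nat_lit 0) (nat_lit 0) (XT.lf (nat_lit 0) (nat_lit 12852330481) (nat_lit 76) (nat_lit 146253706689) (nat_lit 76) (nat_lit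 139453427497) (nat_lit 1) (nat_lit 4) (nat_lit 2) (nat_lit 5) (nat_lit 2) (nat_lit 4) (nat_lit 260) (nat_lit 215) (nat_lit 185)) (XT.lf (nat_lit 0) (nat_lit 31555236673) (nat_lit 76) (nat_lit 158956132826) (nat_lit 76) (nat_lit 152142251903) (nat_lit 1) (nat_lit 4) (nat_lit 2) (nat_lit 5) (nat_lit 2) (nat_lit 4) (nat_lit 261) (nat_lit 215) (nat_lit 184)))) (XT.nd (nat_lit 78) (nat_lit 0) (nat_lit 0) (XT.lf (nat_lit 0) (nat_lit 53003493255) (nat_lit 76) (nat_lit 173593293762) (nat_lit 76) (nat_lit 166767585248) (nat_lit 1) (nat_lit 4) (nat_lit 2) (nat_lit 5) (nat_lit 2) (nat_lit 4) (nat_lit 262) (nat_lit 215) (nat_lit 183)) (XT.nd (nat_lit 78) (nat_lit 0) (nat_lit 0) (XT.lf (nat_lit 0) (nat_lit 77616740031) (nat_lit 76) (nat_lit 190451568735) (nat_lit 76) (nat_lit 183615575358) (nat_lit 1) (nat_lit 4) (nat_lit 2) (nat_lit 5) (nat_lit 2) (nat_lit 4) (nat_lit 263) (nat_lit 215) (nat_lit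 182)) (XT.lf (nat_lit 0) (nat_lit 105876540523) (nat_lit 76) (nat_lit 209860793558) (nat_lit 76) (nat_lit 203015856823) (nat_lit 1) (nat_lit 4) (nat_lit 2) (nat_lit 5) (nat_lit 2) (nat_lit 4) (nat_lit 264) (nat_lit 215) (nat_lit 181))))) (XT.nd (nat_lit 234) (nat_lit 0) (nat_lit 0) (XT.nd (nat_lit 78) (nat_lit 0) (nat_lit 0) (XT.lf (nat_lit 0) (nat_lit 138335803873) (nat_lit 76) (nat_lit 232200713935) (nat_lit 76) (nat_lit 225348000366) (nat_lit 1) (nat_lit 4) (nat_lit 2) (nat_lit 5) (nat_lit 2) (nat_lit 4) (nat_lit 265) (nat_lit 215) (nat_lit 180)) (XT.nd (nat_lit 78) (nat_lit 0) (nat_lit 0) (XT.lf (nat_lit 0) (nat_lit 175629602624) (nat_lit 76) (nat_lit 257908415264) (nat_lit 76) (nat_lit 251048939232) (nat_lit 1) (nat_lit 4) (nat_lit 2) (nat_lit 5) (nat_lit 2) (nat_lit 4) (nat_lit 266) (nat_lit 215) (nat_lit 179)) (XT.lf (nat_lit 0) (nat_lit 218487598055) (nat_lit 76) (nat_lit 287486874311)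 (nat_lit 76) (nat_lit 280621517875) (nat_lit 1) (nat_lit 4) (nat_lit 2) (nat_lit 5) (nat_lit 2) (nat_lit 4) (nat_lit 267) (nat_lit 215) (nat_lit 178)))) (XT.nd (nat_lit 156) (nat_lit 0) (nat_lit 0) (XT.nd (nat_lit 78) (nat_lit 0) (nat_lit 0) (XT.lf (nat_lit 0) (nat_lit 267748316165) (nat_lit 76) (nat_lit 321514800056) (nat_lit 76) (nat_lit 314644330226) (nat_lit 1) (nat_lit 4) (nat_lit 2) (nat_lit 5) (nat_lit 2) (nat_lit 4) (nat_lit 268) (nat_lit 215) (nat_lit 177)) (XT.lf (nat_lit 0) (nat_lit 324375553612) (nat_lit 76) (nat_lit 360657956264) (nat_lit 76) (nat_lit 353783040004) (nat_lit 1) (nat_lit 4) (nat_lit 2) (nat_lit 5) (nat_lit 2) (nat_lit 4) (nat_lit 269) (nat_lit 215) (nat_lit 176))) (XT.nd (nat_lit 78) (nat_lit 0) (nat_lit 0) (XT.lf (nat_lit 0) (nat_lit 389477234607) (nat_lit 76) (nat_lit 405682187297) (nat_lit 76) (nat_lit 398803404576) (nat_lit 1) (nat_lit 4) (nat_lit 2) (nat_lit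 5) (nat_lit 2) (nat_lit 4) (nat_lit 270) (nat_lit 215) (nat_lit 175)) (XT.lf (nat_lit 0) (nat_lit 464327087692) (nat_lit 76) (nat_lit 457468402021) (nat_lit 76) (nat_lit 450586257161) (nat_lit 1) (nat_lit 4) (nat_lit 2) (nat_lit 5) (nat_lit 2) (nat_lit 4) (nat_lit 271) (nat_lit 215) (nat_lit 174))))))))
noncomputable def xc18 : XT := (XT.nd (nat_lit 31590) (nat_lit 0) (nat_lit 76) (XT.nd (nat_lit 936) (nat_lit 0) (nat_lit 0) (XT.nd (nat_lit 468) (nat_lit 0) (nat_lit 0) (XT.nd (nat_lit 234) (nat_lit 0) (nat_lit 0) (XT.nd (nat_lit 78) (nat_lit 0) (nat_lit 0) (XT.lf (nat_lit 0) (nat_lit 550389566513) (nat_lit 76) (nat_lit 517029808987) (nat_lit 76) (nat_lit 510144740527) (nat_lit 1) (nat_lit 4) (nat_lit 2) (nat_lit 5) (nat_lit 2) (nat_lit 4) (nat_lit 272) (nat_lit 215) (nat_lit 173)) (XT.nd (nat_lit 78) (nat_lit 0) (nat_lit 0) (XT.lf (nat_lit 0) (nat_lit 649348502178) (nat_lit 76) (nat_lit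 585531740069) (nat_lit 76) (nat_lit 578644129348) (nat_lit 1) (nat_lit 4) (nat_lit 2) (nat_lit 5) (nat_lit 2) (nat_lit 4) (nat_lit 273) (nat_lit 215) (nat_lit 172)) (XT.lf (nat_lit 0) (nat_lit 763140047776) (nat_lit 76) (nat_lit 664314450440) (nat_lit 76) (nat_lit 657424629058) (nat_lit 1) (nat_lit 4) (nat_lit 2) (nat_lit 5) (nat_lit 2) (nat_lit 4) (nat_lit 274) (nat_lit 215) (nat_lit 171)))) (XT.nd (nat_lit 78) (nat_lit 0) (nat_lit 0) (XT.lf (nat_lit 0) (nat_lit 893990559633) (nat_lit 76) (nat_lit 754919340956) (nat_lit 76) (nat_lit 748027597260) (nat_lit 1) (nat_lit 4) (nat_lit 2) (nat_lit 5) (nat_lit 2) (nat_lit 4) (nat_lit 275) (nat_lit 215) (nat_lit 170)) (XT.nd (nat_lit 78) (nat_lit 0) (nat_lit 0) (XT.lf (nat_lit 0) (nat_lit 1044460156462) (nat_lit 76) (nat_lit 859119115997) (nat_lit 76) (nat_lit 852225700722) (nat_lit 1) (nat_lit 4) (nat_lit 2) (nat_lit 5) (nat_lit 2) (nat_lit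 4) (nat_lit 276) (nat_lit 215) (nat_lit 169)) (XT.lf (nat_lit 0) (nat_lit 1217492808632) (nat_lit 76) (nat_lit 978952466812) (nat_lit 76) (nat_lit 972057597992) (nat_lit 1) (nat_lit 4) (nat_lit 2) (nat_lit 5) (nat_lit 2) (nat_lit 4) (nat_lit 277) (nat_lit 215) (nat_lit 168))))) (XT.nd (nat_lit 234) (nat_lit 0) (nat_lit 0) (XT.nd (nat_lit 78) (nat_lit 0) (nat_lit 0) (XT.lf (nat_lit 0) (nat_lit 1416473937602) (nat_lit 76) (nat_lit 1116763958963) (nat_lit 76) (nat_lit 1109867826190) (nat_lit 1) (nat_lit 4) (nat_lit 2) (nat_lit 5) (nat_lit 2) (nat_lit 4) (nat_lit 278) (nat_lit 215) (nat_lit 167)) (XT.nd (nat_lit 78) (nat_lit 0) (nat_lit 0) (XT.lf (nat_lit 0) (nat_lit 1645296652415) (nat_lit 76) (nat_lit 1275249904251) (nat_lit 76) (nat_lit 1268352672389) (nat_lit 1) (nat_lit 4) (nat_lit 2) (nat_lit 5) (nat_lit 2) (nat_lit 4) (nat_lit 279) (nat_lit 215) (nat_lit 166)) (XT.lf (nat_lit 0) (nat_lit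 1908437919230) (nat_lit 76) (nat_lit 1457511114650) (nat_lit 76) (nat_lit 1450612927057) (nat_lit 1) (nat_lit 4) (nat_lit 2) (nat_lit 5) (nat_lit 2) (nat_lit 4) (nat_lit 280) (nat_lit 215) (nat_lit 165)))) (XT.nd (nat_lit 78) (nat_lit 0) (nat_lit 0) (XT.lf (nat_lit 0) (nat_lit 2211046154139) (nat_lit 76) (nat_lit 1667113570362) (nat_lit 76) (nat_lit 1660214551701) (nat_lit 1) (nat_lit 4) (nat_lit 2) (nat_lit 5) (nat_lit 2) (nat_lit 4) (nat_lit 281) (nat_lit 215) (nat_lit 164)) (XT.nd (nat_lit 78) (nat_lit 0) (nat_lit 0) (XT.lf (nat_lit 0) (nat_lit 2559041953040) (nat_lit 76) (nat_lit 1908158189001) (nat_lit 76) (nat_lit 1901258447670) (nat_lit 1) (nat_lit 4) (nat_lit 2) (nat_lit 5) (nat_lit 2) (nat_lit 4) (nat_lit 282) (nat_lit 215) (nat_lit 163)) (XT.lf (nat_lit 0) (nat_lit 2959233929392) (nat_lit 76) (nat_lit 2185361060930) (nat_lit 76) (nat_lit 2178460691191) (nat_lit 1) (nat_lit 4)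 (nat_lit 2) (nat_lit 5) (nat_lit 2) (nat_lit 4) (nat_lit 283) (nat_lit 215) (nat_lit 162)))))) (XT.nd (nat_lit 30108) (nat_lit 0) (nat_lit 1064) (XT.nd (nat_lit 234) (nat_lit 0) (nat_lit 0) (XT.nd (nat_lit 78) (nat_lit 0) (nat_lit 0) (XT.lf (nat_lit 0) (nat_lit 3419451926209) (nat_lit 76) (nat_lit 2504145720601) (nat_lit 76) (nat_lit 2497244804420) (nat_lit 1) (nat_lit 4) (nat_lit 2) (nat_lit 5) (nat_lit 2) (nat_lit 4) (nat_lit 284) (nat_lit 215) (nat_lit 161)) (XT.nd (nat_lit 78) (nat_lit 0) (nat_lit 0) (XT.lf (nat_lit 0) (nat_lit 3948700208646) (nat_lit 76) (nat_lit 2870749259180) (nat_lit 76) (nat_lit 2863847867833) (nat_lit 1) (nat_lit 4) (nat_lit 2) (nat_lit 5) (nat_lit 2) (nat_lit 4) (nat_lit 285) (nat_lit 215) (nat_lit 160)) (XT.lf (nat_lit 0) (nat_lit 4557333634404) (nat_lit 76) (nat_lit 3292344354596) (nat_lit 76) (nat_lit 3285442550061) (nat_lit 1) (nat_lit 4) (nat_lit 2) (nat_lit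 5) (nat_lit 2) (nat_lit 4) (nat_lit 286) (nat_lit 215) (nat_lit 159)))) (XT.nd (nat_lit 78) (nat_lit 0) (nat_lit 0) (XT.lf (nat_lit 0) (nat_lit 5257260248769) (nat_lit 76) (nat_lit 3777179606544) (nat_lit 76) (nat_lit 3770277442714) (nat_lit 1) (nat_lit 4) (nat_lit 2) (nat_lit 5) (nat_lit 2) (nat_lit 4) (nat_lit 287) (nat_lit 215) (nat_lit 158)) (XT.nd (nat_lit 29718) (nat_lit 0) (nat_lit 2508) (XT.lf (nat_lit 0) (nat_lit 6062174268109) (nat_lit 76) (nat_lit 4334740922125) (nat_lit 76) (nat_lit 4327838445865) (nat_lit 1) (nat_lit 4) (nat_lit 2) (nat_lit 5) (nat_lit 2) (nat_lit 4) (nat_lit 288) (nat_lit 215) (nat_lit 157)) (XT.lf (nat_lit 0) (nat_lit 549134251) (nat_lit 228) (nat_lit 1752100773) (nat_lit 228) (nat_lit 1752100773) (nat_lit 34) (nat_lit 4) (nat_lit 37) (nat_lit 5) (nat_lit 37) (nat_lit 4) (nat_lit 228) (nat_lit 216) (nat_lit 216))))) (XT.nd (nat_lit 234) (nat_lit 684) (nat_lit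 0) (XT.nd (nat_lit 78) (nat_lit 532) (nat_lit 0) (XT.lf (nat_lit 0) (nat_lit 2963762532) (nat_lit 228) (nat_lit 4577856031) (nat_lit 0) (nat_lit 1046783971) (nat_lit 31) (nat_lit 5) (nat_lit 34) (nat_lit 4) (nat_lit 31) (nat_lit 4) (nat_lit 229) (nat_lit 216) (nat_lit 215)) (XT.nd (nat_lit 78) (nat_lit 304) (nat_lit 0) (XT.lf (nat_lit 0) (nat_lit 687031089) (nat_lit 228) (nat_lit 2154891773) (nat_lit 76) (nat_lit 6318449322) (nat_lit 28) (nat_lit 5) (nat_lit 31) (nat_lit 5) (nat_lit 29) (nat_lit 4) (nat_lit 230) (nat_lit 216) (nat_lit 214)) (XT.lf (nat_lit 0) (nat_lit 193217334) (nat_lit 152) (nat_lit 7148497557) (nat_lit 152) (nat_lit 2487916409) (nat_lit 24) (nat_lit 4) (nat_lit 26) (nat_lit 5) (nat_lit 26) (nat_lit 4) (nat_lit 231) (nat_lit 216) (nat_lit 213)))) (XT.nd (nat_lit 156) (nat_lit 380) (nat_lit 0) (XT.nd (nat_lit 78) (nat_lit 152) (nat_lit 0) (XT.lf (nat_lit 0) (nat_lit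 2513364818) (nat_lit 76) (nat_lit 1496742982) (nat_lit 152) (nat_lit 6595170817) (nat_lit 22) (nat_lit 5) (nat_lit 23) (nat_lit 5) (nat_lit 24) (nat_lit 4) (nat_lit 232) (nat_lit 216) (nat_lit 212)) (XT.lf (nat_lit 0) (nat_lit 4572057032) (nat_lit 152) (nat_lit 6633581430) (nat_lit 152) (nat_lit 297923959) (nat_lit 20) (nat_lit 4) (nat_lit 22) (nat_lit 5) (nat_lit 22) (nat_lit 4) (nat_lit 233) (nat_lit 216) (nat_lit 211))) (XT.nd (nat_lit 78) (nat_lit 228) (nat_lit 0) (XT.lf (nat_lit 0) (nat_lit 6205710207) (nat_lit 76) (nat_lit 216634846) (nat_lit 152) (nat_lit 6115679989) (nat_lit 18) (nat_lit 5) (nat_lit 19) (nat_lit 5) (nat_lit 20) (nat_lit 4) (nat_lit 234) (nat_lit 216) (nat_lit 210)) (XT.lf (nat_lit 0) (nat_lit 380836752) (nat_lit 228) (nat_lit 6488691006) (nat_lit 76) (nat_lit 6857808142) (nat_lit 15) (nat_lit 5) (nat_lit 18) (nat_lit 5) (nat_lit 16) (nat_lit 4) (nat_lit 235) (nat_lit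 216) (nat_lit 209))))))) (XT.nd (nat_lit 936) (nat_lit 228) (nat_lit 0) (XT.nd (nat_lit 468) (nat_lit 228) (nat_lit 0) (XT.nd (nat_lit 234) (nat_lit 228) (nat_lit 0) (XT.nd (nat_lit 78) (nat_lit 228) (nat_lit 0) (XT.lf (nat_lit 0) (nat_lit 7356286934) (nat_lit 152) (nat_lit 7652257640) (nat_lit 0) (nat_lit 85067331) (nat_lit 14) (nat_lit 5) (nat_lit 16) (nat_lit 4) (nat_lit 14) (nat_lit 4) (nat_lit 236) (nat_lit 216) (nat_lit 208)) (XT.nd (nat_lit 78) (nat_lit 152) (nat_lit 0) (XT.lf (nat_lit 0) (nat_lit 6482383324) (nat_lit 76) (nat_lit 8955028599) (nat_lit 76) (nat_lit 1223192475) (nat_lit 13) (nat_lit 4) (nat_lit 14) (nat_lit 5) (nat_lit 14) (nat_lit 4) (nat_lit 237) (nat_lit 216) (nat_lit 207)) (XT.lf (nat_lit 0) (nat_lit 3996063962) (nat_lit 76) (nat_lit 1834914976) (nat_lit 152) (nat_lit 12629910879) (nat_lit 11) (nat_lit 5) (nat_lit 12) (nat_lit 5) (nat_lit 13) (nat_lit 4) (nat_lit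 238) (nat_lit 216) (nat_lit 206)))) (XT.nd (nat_lit 78) (nat_lit 228) (nat_lit 0) (XT.lf (nat_lit 0) (nat_lit 13914422916) (nat_lit 152) (nat_lit 549178400) (nat_lit 0) (nat_lit 6061955791) (nat_lit 11) (nat_lit 5) (nat_lit 13) (nat_lit 4) (nat_lit 11) (nat_lit 4) (nat_lit 239) (nat_lit 216) (nat_lit 205)) (XT.nd (nat_lit 78) (nat_lit 76) (nat_lit 0) (XT.lf (nat_lit 0) (nat_lit 359087454) (nat_lit 152) (nat_lit 7385993775) (nat_lit 76) (nat_lit 15149408428) (nat_lit 9) (nat_lit 5) (nat_lit 11) (nat_lit 5) (nat_lit 10) (nat_lit 4) (nat_lit 240) (nat_lit 216) (nat_lit 204)) (XT.lf (nat_lit 0) (nat_lit 7868386895) (nat_lit 152) (nat_lit 17633954626) (nat_lit 0) (nat_lit 112140045) (nat_lit 8) (nat_lit 5) (nat_lit 10) (nat_lit 4) (nat_lit 8) (nat_lit 4) (nat_lit 241) (nat_lit 216) (nat_lit 203))))) (XT.nd (nat_lit 234) (nat_lit 76) (nat_lit 0) (XT.nd (nat_lit 78) (nat_lit 152) (nat_lit 0)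 (XT.lf (nat_lit 0) (nat_lit 16625487728) (nat_lit 152) (nat_lit 3434591644) (nat_lit 0) (nat_lit 8672903585) (nat_lit 8) (nat_lit 5) (nat_lit 10) (nat_lit 4) (nat_lit 8) (nat_lit 4) (nat_lit 242) (nat_lit 216) (nat_lit 202)) (XT.nd (nat_lit 78) (nat_lit 76) (nat_lit 0) (XT.lf (nat_lit 0) (nat_lit 13034701579) (nat_lit 76) (nat_lit 13702394456) (nat_lit 76) (nat_lit 5579082232) (nat_lit 7) (nat_lit 4) (nat_lit 8) (nat_lit 5) (nat_lit 8) (nat_lit 4) (nat_lit 243) (nat_lit 216) (nat_lit 201)) (XT.lf (nat_lit 0) (nat_lit 1679834268) (nat_lit 152) (nat_lit 4777716145) (nat_lit 76) (nat_lit 29987930717) (nat_lit 6) (nat_lit 5) (nat_lit 8) (nat_lit 5) (nat_lit 7) (nat_lit 4) (nat_lit 244) (nat_lit 216) (nat_lit 200)))) (XT.nd (nat_lit 78) (nat_lit 0) (nat_lit 0) (XT.lf (nat_lit 0) (nat_lit 9823562240) (nat_lit 152) (nat_lit 29304072488) (nat_lit 0) (nat_lit 2044982258) (nat_lit 5) (nat_lit 5)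 (nat_lit 7) (nat_lit 4) (nat_lit 5) (nat_lit 4) (nat_lit 245) (nat_lit 216) (nat_lit 199)) (XT.nd (nat_lit 78) (nat_lit 0) (nat_lit 0) (XT.lf (nat_lit 0) (nat_lit 19303832123) (nat_lit 152) (nat_lit 15874599698) (nat_lit 0) (nat_lit 11421310951) (nat_lit 5) (nat_lit 5) (nat_lit 7) (nat_lit 4) (nat_lit 5) (nat_lit 4) (nat_lit 246) (nat_lit 216) (nat_lit 198)) (XT.lf (nat_lit 0) (nat_lit 30026726691) (nat_lit 152) (nat_lit 774844878) (nat_lit 0) (nat_lit 22053821876) (nat_lit 5) (nat_lit 5) (nat_lit 7) (nat_lit 4) (nat_lit 5) (nat_lit 4) (nat_lit 247) (nat_lit 216) (nat_lit 197)))))) (XT.nd (nat_lit 468) (nat_lit 0) (nat_lit 0) (XT.nd (nat_lit 234) (nat_lit 152) (nat_lit 0) (XT.nd (nat_lit 78) (nat_lit 0) (nat_lit 0) (XT.lf (nat_lit 0) (nat_lit 17148457238) (nat_lit 76) (nat_lit 25466005279) (nat_lit 76) (nat_lit 17414505992) (nat_lit 4) (nat_lit 4) (nat_lit 5) (nat_lit 5) (nat_lit 5) (nat_lit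 4) (nat_lit 248) (nat_lit 216) (nat_lit 196)) (XT.nd (nat_lit 78) (nat_lit 0) (nat_lit 0) (XT.lf (nat_lit 0) (nat_lit 37533255842) (nat_lit 76) (nat_lit 19437409722) (nat_lit 76) (nat_lit 11317567416) (nat_lit 4) (nat_lit 4) (nat_lit 5) (nat_lit 5) (nat_lit 5) (nat_lit 4) (nat_lit 249) (nat_lit 216) (nat_lit 195)) (XT.lf (nat_lit 0) (nat_lit 60737581990) (nat_lit 76) (nat_lit 12619019751) (nat_lit 76) (nat_lit 4439748733) (nat_lit 4) (nat_lit 4) (nat_lit 5) (nat_lit 5) (nat_lit 5) (nat_lit 4) (nat_lit 250) (nat_lit 216) (nat_lit 194)))) (XT.nd (nat_lit 78) (nat_lit 76) (nat_lit 0) (XT.lf (nat_lit 0) (nat_lit 3185759620) (nat_lit 152) (nat_lit 1604568149) (nat_lit 76) (nat_lit 83942569434) (nat_lit 3) (nat_lit 5) (nat_lit 5) (nat_lit 5) (nat_lit 4) (nat_lit 4) (nat_lit 251) (nat_lit 216) (nat_lit 193)) (XT.nd (nat_lit 78) (nat_lit 0) (nat_lit 0) (XT.lf (nat_lit 0) (nat_lit 12117975693)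 (nat_lit 152) (nat_lit 84693591574) (nat_lit 0) (nat_lit 4455119393) (nat_lit 2) (nat_lit 5) (nat_lit 4) (nat_lit 4) (nat_lit 2) (nat_lit 4) (nat_lit 252) (nat_lit 216) (nat_lit 192)) (XT.lf (nat_lit 0) (nat_lit 22480905084) (nat_lit 152) (nat_lit 78410542203) (nat_lit 0) (nat_lit 14781867911) (nat_lit 2) (nat_lit 5) (nat_lit 4) (nat_lit 4) (nat_lit 2) (nat_lit 4) (nat_lit 253) (nat_lit 216) (nat_lit 191))))) (XT.nd (nat_lit 234) (nat_lit 0) (nat_lit 0) (XT.nd (nat_lit 78) (nat_lit 0) (nat_lit 0) (XT.lf (nat_lit 0) (nat_lit 34320416166) (nat_lit 152) (nat_lit 71336868873) (nat_lit 0) (nat_lit 26589917364) (nat_lit 2) (nat_lit 5) (nat_lit 4) (nat_lit 4) (nat_lit 2) (nat_lit 4) (nat_lit 254) (nat_lit 216) (nat_lit 190)) (XT.nd (nat_lit 78) (nat_lit 0) (nat_lit 0) (XT.lf (nat_lit 0) (nat_lit 47868151546) (nat_lit 152) (nat_lit 63334173627) (nat_lit 0) (nat_lit 40110294806) (nat_lit 2) (nat_lit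 5) (nat_lit 4) (nat_lit 4) (nat_lit 2) (nat_lit 4) (nat_lit 255) (nat_lit 216) (nat_lit 189)) (XT.lf (nat_lit 0) (nat_lit 63389175614) (nat_lit 152) (nat_lit 54245881993) (nat_lit 0) (nat_lit 55607529362) (nat_lit 2) (nat_lit 5) (nat_lit 4) (nat_lit 4) (nat_lit 2) (nat_lit 4) (nat_lit 256) (nat_lit 216) (nat_lit 188)))) (XT.nd (nat_lit 156) (nat_lit 0) (nat_lit 0) (XT.nd (nat_lit 78) (nat_lit 0) (nat_lit 0) (XT.lf (nat_lit 0) (nat_lit 81187160578) (nat_lit 152) (nat_lit 43894179570) (nat_lit 0) (nat_lit 73384827795) (nat_lit 2) (nat_lit 5) (nat_lit 4) (nat_lit 4) (nat_lit 2) (nat_lit 4) (nat_lit 257) (nat_lit 216) (nat_lit 187)) (XT.lf (nat_lit 0) (nat_lit 101610327884) (nat_lit 152) (nat_lit 32076533048) (nat_lit 0) (nat_lit 93790006812) (nat_lit 2) (nat_lit 5) (nat_lit 4) (nat_lit 4) (nat_lit 2) (nat_lit 4) (nat_lit 258) (nat_lit 216) (nat_lit 186))) (XT.nd (nat_lit 78) (nat_lit 0)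 (nat_lit 0) (XT.lf (nat_lit 0) (nat_lit 125058261240) (nat_lit 152) (nat_lit 18561727605) (nat_lit 0) (nat_lit 117222298178) (nat_lit 2) (nat_lit 5) (nat_lit 4) (nat_lit 4) (nat_lit 2) (nat_lit 4) (nat_lit 259) (nat_lit 216) (nat_lit 185)) (XT.lf (nat_lit 0) (nat_lit 151989724559) (nat_lit 152) (nat_lit 3085343134) (nat_lit 0) (nat_lit 144140159767) (nat_lit 2) (nat_lit 5) (nat_lit 4) (nat_lit 4) (nat_lit 2) (nat_lit 4) (nat_lit 260) (nat_lit 216) (nat_lit 184))))))))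
noncomputable def xc19 : XT := (XT.nd (nat_lit 1950) (nat_lit 0) (nat_lit 0) (XT.nd (nat_lit 936) (nat_lit 0) (nat_lit 0) (XT.nd (nat_lit 468) (nat_lit 0) (nat_lit 0) (XT.nd (nat_lit 234) (nat_lit 0) (nat_lit 0) (XT.nd (nat_lit 78) (nat_lit 0) (nat_lit 0) (XT.lf (nat_lit 0) (nat_lit 15427147593) (nat_lit 76) (nat_lit 167875513454) (nat_lit 76) (nat_lit 160014121070) (nat_lit 1) (nat_lit 4) (nat_lit 2) (nat_lit 5) (nat_lit 2) (nat_lit 4) (nat_lit 261) (nat_lit 216) (nat_lit 183)) (XT.nd (nat_lit 78) (nat_lit 0) (nat_lit 0) (XT.lf (nat_lit 0) (nat_lit 36851102643) (nat_lit 76) (nat_lit 182524553411) (nat_lit 76) (nat_lit 174652876166) (nat_lit 1) (nat_lit 4) (nat_lit 2) (nat_lit 5) (nat_lit 2) (nat_lit 4) (nat_lit 262) (nat_lit 216) (nat_lit 182)) (XT.lf (nat_lit 0) (nat_lit 61443217651) (nat_lit 76) (nat_lit 199393157968) (nat_lit 76) (nat_lit 191512537364) (nat_lit 1) (nat_lit 4) (nat_lit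 2) (nat_lit 5) (nat_lit 2) (nat_lit 4) (nat_lit 263) (nat_lit 216) (nat_lit 181)))) (XT.nd (nat_lit 78) (nat_lit 0) (nat_lit 0) (XT.lf (nat_lit 0) (nat_lit 89684642694) (nat_lit 76) (nat_lit 218811365037) (nat_lit 76) (nat_lit 210922967600) (nat_lit 1) (nat_lit 4) (nat_lit 2) (nat_lit 5) (nat_lit 2) (nat_lit 4) (nat_lit 264) (nat_lit 216) (nat_lit 180)) (XT.nd (nat_lit 78) (nat_lit 0) (nat_lit 0) (XT.lf (nat_lit 0) (nat_lit 122127927392) (nat_lit 76) (nat_lit 241159096063) (nat_lit 76) (nat_lit 233263936162) (nat_lit 1) (nat_lit 4) (nat_lit 2) (nat_lit 5) (nat_lit 2) (nat_lit 4) (nat_lit 265) (nat_lit 216) (nat_lit 179)) (XT.lf (nat_lit 0) (nat_lit 159407831663) (nat_lit 76) (nat_lit 266873589261) (nat_lit 76) (nat_lit 258972548957) (nat_lit 1) (nat_lit 4) (nat_lit 2) (nat_lit 5) (nat_lit 2) (nat_lit 4) (nat_lit 266) (nat_lit 216) (nat_lit 178))))) (XT.nd (nat_lit 234) (nat_lit 0) (nat_lit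 0) (XT.nd (nat_lit 78) (nat_lit 0) (nat_lit 0) (XT.lf (nat_lit 0) (nat_lit 202253744938) (nat_lit 76) (nat_lit 296457954281) (nat_lit 76) (nat_lit 288551800582) (nat_lit 1) (nat_lit 4) (nat_lit 2) (nat_lit 5) (nat_lit 2) (nat_lit 4) (nat_lit 267) (nat_lit 216) (nat_lit 177)) (XT.nd (nat_lit 78) (nat_lit 0) (nat_lit 0) (XT.lf (nat_lit 0) (nat_lit 251503956825) (nat_lit 76) (nat_lit 330491015655) (nat_lit 76) (nat_lit 322580415526) (nat_lit 1) (nat_lit 4) (nat_lit 2) (nat_lit 5) (nat_lit 2) (nat_lit 4) (nat_lit 268) (nat_lit 216) (nat_lit 176)) (XT.lf (nat_lit 0) (nat_lit 308122058426) (nat_lit 76) (nat_lit 369638637627) (nat_lit 76) (nat_lit 361724171038) (nat_lit 1) (nat_lit 4) (nat_lit 2) (nat_lit 5) (nat_lit 2) (nat_lit 4) (nat_lit 269) (nat_lit 216) (nat_lit 175)))) (XT.nd (nat_lit 78) (nat_lit 0) (nat_lit 0) (XT.lf (nat_lit 0) (nat_lit 373215795208) (nat_lit 76) (nat_lit 414666751933)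 (nat_lit 76) (nat_lit 406748923204) (nat_lit 1) (nat_lit 4) (nat_lit 2) (nat_lit 5) (nat_lit 2) (nat_lit 4) (nat_lit 270) (nat_lit 216) (nat_lit 174)) (XT.nd (nat_lit 78) (nat_lit 0) (nat_lit 0) (XT.lf (nat_lit 0) (nat_lit 448058740280) (nat_lit 76) (nat_lit 466456343416) (nat_lit 76) (nat_lit 458535591087) (nat_lit 1) (nat_lit 4) (nat_lit 2) (nat_lit 5) (nat_lit 2) (nat_lit 4) (nat_lit 271) (nat_lit 216) (nat_lit 173)) (XT.lf (nat_lit 0) (nat_lit 534115212134) (nat_lit 76) (nat_lit 526020686694) (nat_lit 76) (nat_lit 518097392105) (nat_lit 1) (nat_lit 4) (nat_lit 2) (nat_lit 5) (nat_lit 2) (nat_lit 4) (nat_lit 272) (nat_lit 216) (nat_lit 172)))))) (XT.nd (nat_lit 468) (nat_lit 0) (nat_lit 0) (XT.nd (nat_lit 234) (nat_lit 0) (nat_lit 0) (XT.nd (nat_lit 78) (nat_lit 0) (nat_lit 0) (XT.lf (nat_lit 0) (nat_lit 633068924349) (nat_lit 76) (nat_lit 594525171091) (nat_lit 76) (nat_lit 586599665840)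 (nat_lit 1) (nat_lit 4) (nat_lit 2) (nat_lit 5) (nat_lit 2) (nat_lit 4) (nat_lit 273) (nat_lit 216) (nat_lit 171)) (XT.nd (nat_lit 78) (nat_lit 0) (nat_lit 0) (XT.lf (nat_lit 0) (nat_lit 746855927817) (nat_lit 76) (nat_lit 673310101736) (nat_lit 76) (nat_lit 665382674171) (nat_lit 1) (nat_lit 4) (nat_lit 2) (nat_lit 5) (nat_lit 2) (nat_lit 4) (nat_lit 274) (nat_lit 216) (nat_lit 170)) (XT.lf (nat_lit 0) (nat_lit 877702489996) (nat_lit 76) (nat_lit 763916922925) (nat_lit 76) (nat_lit 755987823782) (nat_lit 1) (nat_lit 4) (nat_lit 2) (nat_lit 5) (nat_lit 2) (nat_lit 4) (nat_lit 275) (nat_lit 216) (nat_lit 169)))) (XT.nd (nat_lit 78) (nat_lit 0) (nat_lit 0) (XT.lf (nat_lit 0) (nat_lit 1028168652321) (nat_lit 76) (nat_lit 868118376812) (nat_lit 76) (nat_lit 860187824123) (nat_lit 1) (nat_lit 4) (nat_lit 2) (nat_lit 5) (nat_lit 2) (nat_lit 4) (nat_lit 276) (nat_lit 216) (nat_lit 168)) (XT.nd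 (nat_lit 78) (nat_lit 0) (nat_lit 0) (XT.lf (nat_lit 0) (nat_lit 1201198317968) (nat_lit 76) (nat_lit 987953187494) (nat_lit 76) (nat_lit 980021370852) (nat_lit 1) (nat_lit 4) (nat_lit 2) (nat_lit 5) (nat_lit 2) (nat_lit 4) (nat_lit 277) (nat_lit 216) (nat_lit 167)) (XT.lf (nat_lit 0) (nat_lit 1400176849960) (nat_lit 76) (nat_lit 1125765949093) (nat_lit 76) (nat_lit 1117833033362) (nat_lit 1) (nat_lit 4) (nat_lit 2) (nat_lit 5) (nat_lit 2) (nat_lit 4) (nat_lit 278) (nat_lit 216) (nat_lit 166))))) (XT.nd (nat_lit 234) (nat_lit 0) (nat_lit 0) (XT.nd (nat_lit 78) (nat_lit 0) (nat_lit 0) (XT.lf (nat_lit 0) (nat_lit 1628997306531) (nat_lit 76) (nat_lit 1284252998250) (nat_lit 76) (nat_lit 1276319126789) (nat_lit 1) (nat_lit 4) (nat_lit 2) (nat_lit 5) (nat_lit 2) (nat_lit 4) (nat_lit 279) (nat_lit 216) (nat_lit 165)) (XT.nd (nat_lit 78) (nat_lit 0) (nat_lit 0) (XT.lf (nat_lit 0) (nat_lit 1892136609659)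 (nat_lit 76) (nat_lit 1466515168534) (nat_lit 76) (nat_lit 1458580466004) (nat_lit 1) (nat_lit 4) (nat_lit 2) (nat_lit 5) (nat_lit 2) (nat_lit 4) (nat_lit 280) (nat_lit 216) (nat_lit 164)) (XT.lf (nat_lit 0) (nat_lit 2194743137012) (nat_lit 76) (nat_lit 1676118458930) (nat_lit 76) (nat_lit 1668183033731) (nat_lit 1) (nat_lit 4) (nat_lit 2) (nat_lit 5) (nat_lit 2) (nat_lit 4) (nat_lit 281) (nat_lit 216) (nat_lit 163)))) (XT.nd (nat_lit 156) (nat_lit 0) (nat_lit 0) (XT.nd (nat_lit 78) (nat_lit 0) (nat_lit 0) (XT.lf (nat_lit 0) (nat_lit 2542737451083) (nat_lit 76) (nat_lit 1917163803381) (nat_lit 76) (nat_lit 1909227749773) (nat_lit 1) (nat_lit 4) (nat_lit 2) (nat_lit 5) (nat_lit 2) (nat_lit 4) (nat_lit 282) (nat_lit 216) (nat_lit 162)) (XT.lf (nat_lit 0) (nat_lit 2942928136278) (nat_lit 76) (nat_lit 2194367306450) (nat_lit 76) (nat_lit 2186430706401) (nat_lit 1) (nat_lit 4) (nat_lit 2)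 (nat_lit 5) (nat_lit 2) (nat_lit 4) (nat_lit 283) (nat_lit 216) (nat_lit 161))) (XT.nd (nat_lit 78) (nat_lit 0) (nat_lit 0) (XT.lf (nat_lit 0) (nat_lit 3403145010350) (nat_lit 76) (nat_lit 2513152514938) (nat_lit 76) (nat_lit 2505215439722) (nat_lit 1) (nat_lit 4) (nat_lit 2) (nat_lit 5) (nat_lit 2) (nat_lit 4) (nat_lit 284) (nat_lit 216) (nat_lit 160)) (XT.lf (nat_lit 0) (nat_lit 3932392316487) (nat_lit 76) (nat_lit 2879756530750) (nat_lit 76) (nat_lit 2871819042346) (nat_lit 1) (nat_lit 4) (nat_lit 2) (nat_lit 5) (nat_lit 2) (nat_lit 4) (nat_lit 285) (nat_lit 216) (nat_lit 159))))))) (XT.nd (nat_lit 30498) (nat_lit 0) (nat_lit 228) (XT.nd (nat_lit 29952) (nat_lit 0) (nat_lit 1140) (XT.nd (nat_lit 29718) (nat_lit 0) (nat_lit 2508) (XT.nd (nat_lit 78) (nat_lit 0) (nat_lit 0) (XT.lf (nat_lit 0) (nat_lit 4541024893289) (nat_lit 76) (nat_lit 3301352041152) (nat_lit 76) (nat_lit 3293414193453)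 (nat_lit 1) (nat_lit 4) (nat_lit 2) (nat_lit 5) (nat_lit 2) (nat_lit 4) (nat_lit 286) (nat_lit 216) (nat_lit 158)) (XT.nd (nat_lit 78) (nat_lit 0) (nat_lit 0) (XT.lf (nat_lit 0) (nat_lit 5240950769430) (nat_lit 76) (nat_lit 3786187653956) (nat_lit 76) (nat_lit 3778249493827) (nat_lit 1) (nat_lit 4) (nat_lit 2) (nat_lit 5) (nat_lit 2) (nat_lit 4) (nat_lit 287) (nat_lit 216) (nat_lit 157)) (XT.lf (nat_lit 0) (nat_lit 6045864146837) (nat_lit 76) (nat_lit 4343749283325) (nat_lit 76) (nat_lit 4335810851518) (nat_lit 1) (nat_lit 4) (nat_lit 2) (nat_lit 5) (nat_lit 2) (nat_lit 4) (nat_lit 288) (nat_lit 216) (nat_lit 156)))) (XT.nd (nat_lit 78) (nat_lit 760) (nat_lit 0) (XT.lf (nat_lit 0) (nat_lit 957264501) (nat_lit 532) (nat_lit 1763194548) (nat_lit 0) (nat_lit 957264501) (nat_lit 44) (nat_lit 5) (nat_lit 51) (nat_lit 4) (nat_lit 44) (nat_lit 4) (nat_lit 226) (nat_lit 217) (nat_lit 217)) (XT.nd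 (nat_lit 78) (nat_lit 456) (nat_lit 0) (XT.lf (nat_lit 0) (nat_lit 490886073) (nat_lit 304) (nat_lit 1550315329) (nat_lit 76) (nat_lit 5668067137) (nat_lit 40) (nat_lit 5) (nat_lit 44) (nat_lit 5) (nat_lit 41) (nat_lit 4) (nat_lit 227) (nat_lit 217) (nat_lit 216)) (XT.lf (nat_lit 0) (nat_lit 586902547) (nat_lit 228) (nat_lit 6001829048) (nat_lit 228) (nat_lit 1550604829) (nat_lit 34) (nat_lit 4) (nat_lit 37) (nat_lit 5) (nat_lit 37) (nat_lit 4) (nat_lit 228) (nat_lit 217) (nat_lit 215))))) (XT.nd (nat_lit 234) (nat_lit 760) (nat_lit 0) (XT.nd (nat_lit 78) (nat_lit 380) (nat_lit 0) (XT.lf (nat_lit 0) (nat_lit 2928456028) (nat_lit 152) (nat_lit 1484992604) (nat_lit 228) (nat_lit 4237236161) (nat_lit 31) (nat_lit 5) (nat_lit 33) (nat_lit 5) (nat_lit 34) (nat_lit 4) (nat_lit 229) (nat_lit 217) (nat_lit 214)) (XT.nd (nat_lit 78) (nat_lit 152) (nat_lit 0) (XT.lf (nat_lit 0) (nat_lit 1599175156)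 (nat_lit 228) (nat_lit 3911668659) (nat_lit 76) (nat_lit 3742319462) (nat_lit 28) (nat_lit 5) (nat_lit 31) (nat_lit 5) (nat_lit 29) (nat_lit 4) (nat_lit 230) (nat_lit 217) (nat_lit 213)) (XT.lf (nat_lit 0) (nat_lit 7788336561) (nat_lit 152) (nat_lit 41824047) (nat_lit 228) (nat_lit 2126774785) (nat_lit 26) (nat_lit 5) (nat_lit 28) (nat_lit 5) (nat_lit 29) (nat_lit 4) (nat_lit 231) (nat_lit 217) (nat_lit 212)))) (XT.nd (nat_lit 156) (nat_lit 304) (nat_lit 0) (XT.nd (nat_lit 78) (nat_lit 228) (nat_lit 0) (XT.lf (nat_lit 0) (nat_lit 3947479262) (nat_lit 228) (nat_lit 672980375) (nat_lit 76) (nat_lit 6144381475) (nat_lit 23) (nat_lit 5) (nat_lit 26) (nat_lit 5) (nat_lit 24) (nat_lit 4) (nat_lit 232) (nat_lit 217) (nat_lit 211)) (XT.lf (nat_lit 0) (nat_lit 641786242) (nat_lit 152) (nat_lit 10050317936) (nat_lit 152) (nat_lit 1007525273) (nat_lit 20) (nat_lit 4) (nat_lit 22) (nat_lit 5) (nat_lit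 22) (nat_lit 4) (nat_lit 233) (nat_lit 217) (nat_lit 210))) (XT.nd (nat_lit 78) (nat_lit 152) (nat_lit 0) (XT.lf (nat_lit 0) (nat_lit 1455108909) (nat_lit 76) (nat_lit 3933560338) (nat_lit 152) (nat_lit 7375901714) (nat_lit 18) (nat_lit 5) (nat_lit 19) (nat_lit 5) (nat_lit 20) (nat_lit 4) (nat_lit 234) (nat_lit 217) (nat_lit 209)) (XT.lf (nat_lit 0) (nat_lit 1699646993) (nat_lit 152) (nat_lit 10947068821) (nat_lit 152) (nat_lit 1344128354) (nat_lit 16) (nat_lit 4) (nat_lit 18) (nat_lit 5) (nat_lit 18) (nat_lit 4) (nat_lit 235) (nat_lit 217) (nat_lit 208)))))) (XT.nd (nat_lit 468) (nat_lit 380) (nat_lit 0) (XT.nd (nat_lit 234) (nat_lit 228) (nat_lit 0) (XT.nd (nat_lit 78) (nat_lit 152) (nat_lit 0) (XT.lf (nat_lit 0) (nat_lit 987682554) (nat_lit 76) (nat_lit 4343129399) (nat_lit 152) (nat_lit 10058557782) (nat_lit 14) (nat_lit 5) (nat_lit 15) (nat_lit 5) (nat_lit 16) (nat_lit 4) (nat_lit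 236) (nat_lit 217) (nat_lit 207)) (XT.nd (nat_lit 78) (nat_lit 152) (nat_lit 0) (XT.lf (nat_lit 0) (nat_lit 12957303469) (nat_lit 152) (nat_lit 831101935) (nat_lit 0) (nat_lit 3204539299) (nat_lit 14) (nat_lit 5) (nat_lit 16) (nat_lit 4) (nat_lit 14) (nat_lit 4) (nat_lit 237) (nat_lit 217) (nat_lit 206)) (XT.lf (nat_lit 0) (nat_lit 2860251083) (nat_lit 152) (nat_lit 4151734181) (nat_lit 76) (nat_lit 11810744077) (nat_lit 12) (nat_lit 5) (nat_lit 14) (nat_lit 5) (nat_lit 13) (nat_lit 4) (nat_lit 238) (nat_lit 217) (nat_lit 205)))) (XT.nd (nat_lit 78) (nat_lit 152) (nat_lit 0) (XT.lf (nat_lit 0) (nat_lit 10543379266) (nat_lit 152) (nat_lit 9466070239) (nat_lit 0) (nat_lit 910120677) (nat_lit 11) (nat_lit 5) (nat_lit 13) (nat_lit 4) (nat_lit 11) (nat_lit 4) (nat_lit 239) (nat_lit 217) (nat_lit 204)) (XT.nd (nat_lit 78) (nat_lit 76) (nat_lit 0) (XT.lf (nat_lit 0) (nat_lit 5850438129) (nat_lit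 76) (nat_lit 13673158096) (nat_lit 76) (nat_lit 3796048590) (nat_lit 10) (nat_lit 4) (nat_lit 11) (nat_lit 5) (nat_lit 11) (nat_lit 4) (nat_lit 240) (nat_lit 217) (nat_lit 203)) (XT.lf (nat_lit 0) (nat_lit 3571846590) (nat_lit 152) (nat_lit 2659712874) (nat_lit 76) (nat_lit 19841988525) (nat_lit 9) (nat_lit 5) (nat_lit 11) (nat_lit 5) (nat_lit 10) (nat_lit 4) (nat_lit 241) (nat_lit 217) (nat_lit 202))))) (XT.nd (nat_lit 234) (nat_lit 228) (nat_lit 0) (XT.nd (nat_lit 78) (nat_lit 76) (nat_lit 0) (XT.lf (nat_lit 0) (nat_lit 11983230846) (nat_lit 152) (nat_lit 14765872430) (nat_lit 0) (nat_lit 2470693708) (nat_lit 8) (nat_lit 5) (nat_lit 10) (nat_lit 4) (nat_lit 8) (nat_lit 4) (nat_lit 242) (nat_lit 217) (nat_lit 201)) (XT.nd (nat_lit 78) (nat_lit 0) (nat_lit 0) (XT.lf (nat_lit 0) (nat_lit 888743725) (nat_lit 76) (nat_lit 20803755310) (nat_lit 76) (nat_lit 11142758971) (nat_lit 7) (nat_lit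 4) (nat_lit 8) (nat_lit 5) (nat_lit 8) (nat_lit 4) (nat_lit 243) (nat_lit 217) (nat_lit 200)) (XT.lf (nat_lit 0) (nat_lit 19378178601) (nat_lit 76) (nat_lit 13693988438) (nat_lit 76) (nat_lit 3903897142) (nat_lit 7) (nat_lit 4) (nat_lit 8) (nat_lit 5) (nat_lit 8) (nat_lit 4) (nat_lit 244) (nat_lit 217) (nat_lit 199)))) (XT.nd (nat_lit 156) (nat_lit 76) (nat_lit 0) (XT.nd (nat_lit 78) (nat_lit 76) (nat_lit 0) (XT.lf (nat_lit 0) (nat_lit 4006926485) (nat_lit 152) (nat_lit 1567940689) (nat_lit 76) (nat_lit 36170154377) (nat_lit 6) (nat_lit 5) (nat_lit 8) (nat_lit 5) (nat_lit 7) (nat_lit 4) (nat_lit 245) (nat_lit 217) (nat_lit 198)) (XT.lf (nat_lit 0) (nat_lit 13228945738) (nat_lit 152) (nat_lit 29994187885) (nat_lit 0) (nat_lit 3969721559) (nat_lit 5) (nat_lit 5) (nat_lit 7) (nat_lit 4) (nat_lit 5) (nat_lit 4) (nat_lit 246) (nat_lit 217) (nat_lit 197))) (XT.nd (nat_lit 78) (nat_lit 76) (nat_lit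 0) (XT.lf (nat_lit 0) (nat_lit 23879275778) (nat_lit 152) (nat_lit 15033619673) (nat_lit 0) (nat_lit 14541457126) (nat_lit 5) (nat_lit 5) (nat_lit 7) (nat_lit 4) (nat_lit 5) (nat_lit 4) (nat_lit 247) (nat_lit 217) (nat_lit 196)) (XT.lf (nat_lit 0) (nat_lit 2011435476) (nat_lit 76) (nat_lit 34028430800) (nat_lit 76) (nat_lit 24622269129) (nat_lit 4) (nat_lit 4) (nat_lit 5) (nat_lit 5) (nat_lit 5) (nat_lit 4) (nat_lit 248) (nat_lit 217) (nat_lit 195))))))))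
noncomputable def xc20 : XT := (XT.nd (nat_lit 1950) (nat_lit 0) (nat_lit 0) (XT.nd (nat_lit 936) (nat_lit 76) (nat_lit 0) (XT.nd (nat_lit 468) (nat_lit 0) (nat_lit 0) (XT.nd (nat_lit 234) (nat_lit 152) (nat_lit 0) (XT.nd (nat_lit 78) (nat_lit 0) (nat_lit 0) (XT.lf (nat_lit 0) (nat_lit 22285446989) (nat_lit 76) (nat_lit 28053088694) (nat_lit 76) (nat_lit 18587498311) (nat_lit 4) (nat_lit 4) (nat_lit 5) (nat_lit 5) (nat_lit 5) (nat_lit 4) (nat_lit 249) (nat_lit 217) (nat_lit 194)) (XT.nd (nat_lit 78) (nat_lit 0) (nat_lit 0) (XT.lf (nat_lit 0) (nat_lit 45393436536) (nat_lit 76) (nat_lit 21281006071) (nat_lit 76) (nat_lit 11763738546) (nat_lit 4) (nat_lit 4) (nat_lit 5) (nat_lit 5) (nat_lit 5) (nat_lit 4) (nat_lit 250) (nat_lit 217) (nat_lit 193)) (XT.lf (nat_lit 0) (nat_lit 71787516956) (nat_lit 76) (nat_lit 13579685662) (nat_lit 76) (nat_lit 4017481493) (nat_lit 4) (nat_lit 4) (nat_lit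 5) (nat_lit 5) (nat_lit 5) (nat_lit 4) (nat_lit 251) (nat_lit 217) (nat_lit 192)))) (XT.nd (nat_lit 78) (nat_lit 76) (nat_lit 0) (XT.lf (nat_lit 0) (nat_lit 4562573042) (nat_lit 152) (nat_lit 111127584) (nat_lit 76) (nat_lit 97296772296) (nat_lit 3) (nat_lit 5) (nat_lit 5) (nat_lit 5) (nat_lit 4) (nat_lit 4) (nat_lit 252) (nat_lit 217) (nat_lit 191)) (XT.nd (nat_lit 78) (nat_lit 0) (nat_lit 0) (XT.lf (nat_lit 0) (nat_lit 14774000497) (nat_lit 152) (nat_lit 95762772507) (nat_lit 0) (nat_lit 5852465246) (nat_lit 2) (nat_lit 5) (nat_lit 4) (nat_lit 4) (nat_lit 2) (nat_lit 4) (nat_lit 253) (nat_lit 217) (nat_lit 190)) (XT.lf (nat_lit 0) (nat_lit 26582022107) (nat_lit 152) (nat_lit 88750508053) (nat_lit 0) (nat_lit 17633128918) (nat_lit 2) (nat_lit 5) (nat_lit 4) (nat_lit 4) (nat_lit 2) (nat_lit 4) (nat_lit 254) (nat_lit 217) (nat_lit 189))))) (XT.nd (nat_lit 234) (nat_lit 0) (nat_lit 0) (XT.nd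 (nat_lit 78) (nat_lit 0) (nat_lit 0) (XT.lf (nat_lit 0) (nat_lit 40102375339) (nat_lit 152) (nat_lit 80801211830) (nat_lit 0) (nat_lit 31129692639) (nat_lit 2) (nat_lit 5) (nat_lit 4) (nat_lit 4) (nat_lit 2) (nat_lit 4) (nat_lit 255) (nat_lit 217) (nat_lit 188)) (XT.nd (nat_lit 78) (nat_lit 0) (nat_lit 0) (XT.lf (nat_lit 0) (nat_lit 55599588842) (nat_lit 152) (nat_lit 71759354129) (nat_lit 0) (nat_lit 46606219610) (nat_lit 2) (nat_lit 5) (nat_lit 4) (nat_lit 4) (nat_lit 2) (nat_lit 4) (nat_lit 256) (nat_lit 217) (nat_lit 187)) (XT.lf (nat_lit 0) (nat_lit 73376868968) (nat_lit 152) (nat_lit 61448029038) (nat_lit 0) (nat_lit 64365511447) (nat_lit 2) (nat_lit 5) (nat_lit 4) (nat_lit 4) (nat_lit 2) (nat_lit 4) (nat_lit 257) (nat_lit 217) (nat_lit 186)))) (XT.nd (nat_lit 78) (nat_lit 0) (nat_lit 0) (XT.lf (nat_lit 0) (nat_lit 93782032066) (nat_lit 152) (nat_lit 49665493240) (nat_lit 0) (nat_lit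 84755032556) (nat_lit 2) (nat_lit 5) (nat_lit 4) (nat_lit 4) (nat_lit 2) (nat_lit 4) (nat_lit 258) (nat_lit 217) (nat_lit 185)) (XT.nd (nat_lit 78) (nat_lit 0) (nat_lit 0) (XT.lf (nat_lit 0) (nat_lit 117214309590) (nat_lit 152) (nat_lit 36181218862) (nat_lit 0) (nat_lit 108173708349) (nat_lit 2) (nat_lit 5) (nat_lit 4) (nat_lit 4) (nat_lit 2) (nat_lit 4) (nat_lit 259) (nat_lit 217) (nat_lit 184)) (XT.lf (nat_lit 0) (nat_lit 144132159142) (nat_lit 152) (nat_lit 20731383143) (nat_lit 0) (nat_lit 135079730309) (nat_lit 2) (nat_lit 5) (nat_lit 4) (nat_lit 4) (nat_lit 2) (nat_lit 4) (nat_lit 260) (nat_lit 217) (nat_lit 183)))))) (XT.nd (nat_lit 468) (nat_lit 0) (nat_lit 0) (XT.nd (nat_lit 234) (nat_lit 0) (nat_lit 0) (XT.nd (nat_lit 78) (nat_lit 76) (nat_lit 0) (XT.lf (nat_lit 0) (nat_lit 175062234300) (nat_lit 152) (nat_lit 3013706689) (nat_lit 0) (nat_lit 165999520606) (nat_lit 2) (nat_lit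 5) (nat_lit 4) (nat_lit 4) (nat_lit 2) (nat_lit 4) (nat_lit 261) (nat_lit 217) (nat_lit 182)) (XT.nd (nat_lit 78) (nat_lit 0) (nat_lit 0) (XT.lf (nat_lit 0) (nat_lit 18230420140) (nat_lit 76) (nat_lit 192817710612) (nat_lit 76) (nat_lit 183746053559) (nat_lit 1) (nat_lit 4) (nat_lit 2) (nat_lit 5) (nat_lit 2) (nat_lit 4) (nat_lit 262) (nat_lit 217) (nat_lit 181)) (XT.lf (nat_lit 0) (nat_lit 42804159699) (nat_lit 76) (nat_lit 209695297415) (nat_lit 76) (nat_lit 200615863529) (nat_lit 1) (nat_lit 4) (nat_lit 2) (nat_lit 5) (nat_lit 2) (nat_lit 4) (nat_lit 263) (nat_lit 217) (nat_lit 180)))) (XT.nd (nat_lit 78) (nat_lit 0) (nat_lit 0) (XT.lf (nat_lit 0) (nat_lit 71029606090) (nat_lit 76) (nat_lit 229121315134) (nat_lit 76) (nat_lit 220035118784) (nat_lit 1) (nat_lit 4) (nat_lit 2) (nat_lit 5) (nat_lit 2) (nat_lit 4) (nat_lit 264) (nat_lit 217) (nat_lit 179)) (XT.nd (nat_lit 78) (nat_lit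 0) (nat_lit 0) (XT.lf (nat_lit 0) (nat_lit 103458996308) (nat_lit 76) (nat_lit 251475838029) (nat_lit 76) (nat_lit 242383761275) (nat_lit 1) (nat_lit 4) (nat_lit 2) (nat_lit 5) (nat_lit 2) (nat_lit 4) (nat_lit 265) (nat_lit 217) (nat_lit 178)) (XT.lf (nat_lit 0) (nat_lit 140726818422) (nat_lit 76) (nat_lit 277196237200) (nat_lit 76) (nat_lit 268099047052) (nat_lit 1) (nat_lit 4) (nat_lit 2) (nat_lit 5) (nat_lit 2) (nat_lit 4) (nat_lit 266) (nat_lit 217) (nat_lit 177))))) (XT.nd (nat_lit 234) (nat_lit 0) (nat_lit 0) (XT.nd (nat_lit 78) (nat_lit 0) (nat_lit 0) (XT.lf (nat_lit 0) (nat_lit 183562225474) (nat_lit 76) (nat_lit 306785737848) (nat_lit 76) (nat_lit 297684101270) (nat_lit 1) (nat_lit 4) (nat_lit 2) (nat_lit 5) (nat_lit 2) (nat_lit 4) (nat_lit 267) (nat_lit 217) (nat_lit 176)) (XT.nd (nat_lit 78) (nat_lit 0) (nat_lit 0) (XT.lf (nat_lit 0) (nat_lit 232803301515) (nat_lit 76) (nat_lit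 340823264986) (nat_lit 76) (nat_lit 331717761947) (nat_lit 1) (nat_lit 4) (nat_lit 2) (nat_lit 5) (nat_lit 2) (nat_lit 4) (nat_lit 268) (nat_lit 217) (nat_lit 175)) (XT.lf (nat_lit 0) (nat_lit 289413458902) (nat_lit 76) (nat_lit 379974770231) (nat_lit 76) (nat_lit 370865905053) (nat_lit 1) (nat_lit 4) (nat_lit 2) (nat_lit 5) (nat_lit 2) (nat_lit 4) (nat_lit 269) (nat_lit 217) (nat_lit 174)))) (XT.nd (nat_lit 156) (nat_lit 0) (nat_lit 0) (XT.nd (nat_lit 78) (nat_lit 0) (nat_lit 0) (XT.lf (nat_lit 0) (nat_lit 354500287672) (nat_lit 76) (nat_lit 425006261296) (nat_lit 76) (nat_lit 415894472518) (nat_lit 1) (nat_lit 4) (nat_lit 2) (nat_lit 5) (nat_lit 2) (nat_lit 4) (nat_lit 270) (nat_lit 217) (nat_lit 173)) (XT.lf (nat_lit 0) (nat_lit 429337225777) (nat_lit 76) (nat_lit 476798789092) (nat_lit 76) (nat_lit 467684458053) (nat_lit 1) (nat_lit 4) (nat_lit 2) (nat_lit 5) (nat_lit 2) (nat_lit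 4) (nat_lit 271) (nat_lit 217) (nat_lit 172))) (XT.nd (nat_lit 78) (nat_lit 0) (nat_lit 0) (XT.lf (nat_lit 0) (nat_lit 515388474181) (nat_lit 76) (nat_lit 536365685685) (nat_lit 76) (nat_lit 527249143985) (nat_lit 1) (nat_lit 4) (nat_lit 2) (nat_lit 5) (nat_lit 2) (nat_lit 4) (nat_lit 272) (nat_lit 217) (nat_lit 171)) (XT.lf (nat_lit 0) (nat_lit 614337644266) (nat_lit 76) (nat_lit 604872390356) (nat_lit 76) (nat_lit 595753926341) (nat_lit 1) (nat_lit 4) (nat_lit 2) (nat_lit 5) (nat_lit 2) (nat_lit 4) (nat_lit 273) (nat_lit 217) (nat_lit 170))))))) (XT.nd (nat_lit 936) (nat_lit 0) (nat_lit 0) (XT.nd (nat_lit 468) (nat_lit 0) (nat_lit 0) (XT.nd (nat_lit 234) (nat_lit 0) (nat_lit 0) (XT.nd (nat_lit 78) (nat_lit 0) (nat_lit 0) (XT.lf (nat_lit 0) (nat_lit 728120698056) (nat_lit 76) (nat_lit 683659251674) (nat_lit 76) (nat_lit 674539116082) (nat_lit 1) (nat_lit 4) (nat_lit 2) (nat_lit 5) (nat_lit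 2) (nat_lit 4) (nat_lit 274) (nat_lit 217) (nat_lit 169)) (XT.nd (nat_lit 78) (nat_lit 0) (nat_lit 0) (XT.lf (nat_lit 0) (nat_lit 858963825732) (nat_lit 76) (nat_lit 774267751709) (nat_lit 76) (nat_lit 765146162572) (nat_lit 1) (nat_lit 4) (nat_lit 2) (nat_lit 5) (nat_lit 2) (nat_lit 4) (nat_lit 275) (nat_lit 217) (nat_lit 168)) (XT.lf (nat_lit 0) (nat_lit 1009427001533) (nat_lit 76) (nat_lit 878470665462) (nat_lit 76) (nat_lit 869347812372) (nat_lit 1) (nat_lit 4) (nat_lit 2) (nat_lit 5) (nat_lit 2) (nat_lit 4) (nat_lit 276) (nat_lit 217) (nat_lit 167)))) (XT.nd (nat_lit 78) (nat_lit 0) (nat_lit 0) (XT.lf (nat_lit 0) (nat_lit 1182454070202) (nat_lit 76) (nat_lit 998306745593) (nat_lit 76) (nat_lit 989182793413) (nat_lit 1) (nat_lit 4) (nat_lit 2) (nat_lit 5) (nat_lit 2) (nat_lit 4) (nat_lit 277) (nat_lit 217) (nat_lit 166)) (XT.nd (nat_lit 78) (nat_lit 0) (nat_lit 0) (XT.lf (nat_lit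 0) (nat_lit 1381430343952) (nat_lit 76) (nat_lit 1136120611061) (nat_lit 76) (nat_lit 1126995703151) (nat_lit 1) (nat_lit 4) (nat_lit 2) (nat_lit 5) (nat_lit 2) (nat_lit 4) (nat_lit 278) (nat_lit 217) (nat_lit 165)) (XT.lf (nat_lit 0) (nat_lit 1610248836835) (nat_lit 76) (nat_lit 1294608620103) (nat_lit 76) (nat_lit 1285482881124) (nat_lit 1) (nat_lit 4) (nat_lit 2) (nat_lit 5) (nat_lit 2) (nat_lit 4) (nat_lit 279) (nat_lit 217) (nat_lit 164))))) (XT.nd (nat_lit 234) (nat_lit 0) (nat_lit 0) (XT.nd (nat_lit 78) (nat_lit 0) (nat_lit 0) (XT.lf (nat_lit 0) (nat_lit 1873386432408) (nat_lit 76) (nat_lit 1476871625071) (nat_lit 76) (nat_lit 1467745163422) (nat_lit 1) (nat_lit 4) (nat_lit 2) (nat_lit 5) (nat_lit 2) (nat_lit 4) (nat_lit 280) (nat_lit 217) (nat_lit 163)) (XT.nd (nat_lit 78) (nat_lit 0) (nat_lit 0) (XT.lf (nat_lit 0) (nat_lit 2175991474931) (nat_lit 76) (nat_lit 1686475641278) (nat_lit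 76) (nat_lit 1677348551222) (nat_lit 1) (nat_lit 4) (nat_lit 2) (nat_lit 5) (nat_lit 2) (nat_lit 4) (nat_lit 281) (nat_lit 217) (nat_lit 162)) (XT.lf (nat_lit 0) (nat_lit 2523984497845) (nat_lit 76) (nat_lit 1927521616869) (nat_lit 76) (nat_lit 1918393980371) (nat_lit 1) (nat_lit 4) (nat_lit 2) (nat_lit 5) (nat_lit 2) (nat_lit 4) (nat_lit 282) (nat_lit 217) (nat_lit 161)))) (XT.nd (nat_lit 78) (nat_lit 0) (nat_lit 0) (XT.lf (nat_lit 0) (nat_lit 2924174060295) (nat_lit 76) (nat_lit 2204725668756) (nat_lit 76) (nat_lit 2195597557091) (nat_lit 1) (nat_lit 4) (nat_lit 2) (nat_lit 5) (nat_lit 2) (nat_lit 4) (nat_lit 283) (nat_lit 217) (nat_lit 160)) (XT.nd (nat_lit 78) (nat_lit 0) (nat_lit 0) (XT.lf (nat_lit 0) (nat_lit 3384389958067) (nat_lit 76) (nat_lit 2523511354477) (nat_lit 76) (nat_lit 2514382829624) (nat_lit 1) (nat_lit 4) (nat_lit 2) (nat_lit 5) (nat_lit 2) (nat_lit 4) (nat_lit 284)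 (nat_lit 217) (nat_lit 159)) (XT.lf (nat_lit 0) (nat_lit 3913636415248) (nat_lit 76) (nat_lit 2890115785275) (nat_lit 76) (nat_lit 2880986901127) (nat_lit 1) (nat_lit 4) (nat_lit 2) (nat_lit 5) (nat_lit 2) (nat_lit 4) (nat_lit 285) (nat_lit 217) (nat_lit 158)))))) (XT.nd (nat_lit 29796) (nat_lit 0) (nat_lit 1596) (XT.nd (nat_lit 29562) (nat_lit 0) (nat_lit 3268) (XT.nd (nat_lit 78) (nat_lit 0) (nat_lit 0) (XT.lf (nat_lit 0) (nat_lit 4522268253826) (nat_lit 76) (nat_lit 3311711656533) (nat_lit 76) (nat_lit 3302582459955) (nat_lit 1) (nat_lit 4) (nat_lit 2) (nat_lit 5) (nat_lit 2) (nat_lit 4) (nat_lit 286) (nat_lit 217) (nat_lit 157)) (XT.nd (nat_lit 78) (nat_lit 0) (nat_lit 0) (XT.lf (nat_lit 0) (nat_lit 5222193488034) (nat_lit 76) (nat_lit 3796547583125) (nat_lit 76) (nat_lit 3787418114869) (nat_lit 1) (nat_lit 4) (nat_lit 2) (nat_lit 5) (nat_lit 2) (nat_lit 4) (nat_lit 287) (nat_lit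 217) (nat_lit 156)) (XT.lf (nat_lit 0) (nat_lit 6027106307239) (nat_lit 76) (nat_lit 4354109485354) (nat_lit 76) (nat_lit 4344979780856) (nat_lit 1) (nat_lit 4) (nat_lit 2) (nat_lit 5) (nat_lit 2) (nat_lit 4) (nat_lit 288) (nat_lit 217) (nat_lit 155)))) (XT.nd (nat_lit 78) (nat_lit 912) (nat_lit 0) (XT.lf (nat_lit 0) (nat_lit 119220886) (nat_lit 380) (nat_lit 3182900136) (nat_lit 0) (nat_lit 119220886) (nat_lit 56) (nat_lit 5) (nat_lit 61) (nat_lit 4) (nat_lit 56) (nat_lit 4) (nat_lit 224) (nat_lit 218) (nat_lit 218)) (XT.nd (nat_lit 78) (nat_lit 532) (nat_lit 0) (XT.lf (nat_lit 0) (nat_lit 1780250893) (nat_lit 380) (nat_lit 4245679404) (nat_lit 380) (nat_lit 1052052318) (nat_lit 51) (nat_lit 4) (nat_lit 56) (nat_lit 5) (nat_lit 56) (nat_lit 4) (nat_lit 225) (nat_lit 218) (nat_lit 217)) (XT.lf (nat_lit 0) (nat_lit 3382741669) (nat_lit 456) (nat_lit 1114102458) (nat_lit 532) (nat_lit 2889942427)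 (nat_lit 44) (nat_lit 5) (nat_lit 50) (nat_lit 5) (nat_lit 51) (nat_lit 4) (nat_lit 226) (nat_lit 218) (nat_lit 216))))) (XT.nd (nat_lit 234) (nat_lit 684) (nat_lit 0) (XT.nd (nat_lit 78) (nat_lit 684) (nat_lit 0) (XT.lf (nat_lit 0) (nat_lit 2505508870) (nat_lit 304) (nat_lit 2552925822) (nat_lit 76) (nat_lit 2711059401) (nat_lit 40) (nat_lit 5) (nat_lit 44) (nat_lit 5) (nat_lit 41) (nat_lit 4) (nat_lit 227) (nat_lit 218) (nat_lit 215)) (XT.nd (nat_lit 78) (nat_lit 456) (nat_lit 0) (XT.lf (nat_lit 0) (nat_lit 7304080138) (nat_lit 228) (nat_lit 875141377) (nat_lit 304) (nat_lit 55223061) (nat_lit 37) (nat_lit 5) (nat_lit 40) (nat_lit 5) (nat_lit 41) (nat_lit 4) (nat_lit 228) (nat_lit 218) (nat_lit 214)) (XT.lf (nat_lit 0) (nat_lit 737715500) (nat_lit 152) (nat_lit 4691479308) (nat_lit 228) (nat_lit 3346873941) (nat_lit 31) (nat_lit 5) (nat_lit 33) (nat_lit 5) (nat_lit 34) (nat_lit 4) (nat_lit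 229) (nat_lit 218) (nat_lit 213)))) (XT.nd (nat_lit 156) (nat_lit 304) (nat_lit 0) (XT.nd (nat_lit 78) (nat_lit 152) (nat_lit 0) (XT.lf (nat_lit 0) (nat_lit 2011706918) (nat_lit 228) (nat_lit 6849251262) (nat_lit 76) (nat_lit 551156402) (nat_lit 28) (nat_lit 5) (nat_lit 31) (nat_lit 5) (nat_lit 29) (nat_lit 4) (nat_lit 230) (nat_lit 218) (nat_lit 212)) (XT.lf (nat_lit 0) (nat_lit 4305533401) (nat_lit 152) (nat_lit 3595992448) (nat_lit 228) (nat_lit 2242190808) (nat_lit 26) (nat_lit 5) (nat_lit 28) (nat_lit 5) (nat_lit 29) (nat_lit 4) (nat_lit 231) (nat_lit 218) (nat_lit 211))) (XT.nd (nat_lit 78) (nat_lit 76) (nat_lit 0) (XT.lf (nat_lit 0) (nat_lit 3406675707) (nat_lit 228) (nat_lit 5027741852) (nat_lit 76) (nat_lit 2552351841) (nat_lit 23) (nat_lit 5) (nat_lit 26) (nat_lit 5) (nat_lit 24) (nat_lit 4) (nat_lit 232) (nat_lit 218) (nat_lit 210)) (XT.lf (nat_lit 0) (nat_lit 7415622647) (nat_lit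 76) (nat_lit 2342369117) (nat_lit 152) (nat_lit 2195406402) (nat_lit 22) (nat_lit 5) (nat_lit 23) (nat_lit 5) (nat_lit 24) (nat_lit 4) (nat_lit 233) (nat_lit 218) (nat_lit 209))))))))
noncomputable def xc21 : XT := (XT.nd (nat_lit 1950) (nat_lit 76) (nat_lit 0) (XT.nd (nat_lit 936) (nat_lit 380) (nat_lit 0) (XT.nd (nat_lit 468) (nat_lit 304) (nat_lit 0) (XT.nd (nat_lit 234) (nat_lit 304) (nat_lit 0) (XT.nd (nat_lit 78) (nat_lit 304) (nat_lit 0) (XT.lf (nat_lit 0) (nat_lit 3837695661) (nat_lit 228) (nat_lit 4562297660) (nat_lit 76) (nat_lit 4654735558) (nat_lit 19) (nat_lit 5) (nat_lit 22) (nat_lit 5) (nat_lit 20) (nat_lit 4) (nat_lit 234) (nat_lit 218) (nat_lit 208)) (XT.nd (nat_lit 78) (nat_lit 228) (nat_lit 0) (XT.lf (nat_lit 0) (nat_lit 9111876026) (nat_lit 76) (nat_lit 1558241172) (nat_lit 152) (nat_lit 3645197942) (nat_lit 18) (nat_lit 5) (nat_lit 19) (nat_lit 5) (nat_lit 20) (nat_lit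 4) (nat_lit 235) (nat_lit 218) (nat_lit 207)) (XT.lf (nat_lit 0) (nat_lit 2765573382) (nat_lit 228) (nat_lit 6793119458) (nat_lit 76) (nat_lit 6190129152) (nat_lit 15) (nat_lit 5) (nat_lit 18) (nat_lit 5) (nat_lit 16) (nat_lit 4) (nat_lit 236) (nat_lit 218) (nat_lit 206)))) (XT.nd (nat_lit 78) (nat_lit 228) (nat_lit 0) (XT.lf (nat_lit 0) (nat_lit 7822120478) (nat_lit 76) (nat_lit 2150854626) (nat_lit 152) (nat_lit 7413133211) (nat_lit 14) (nat_lit 5) (nat_lit 15) (nat_lit 5) (nat_lit 16) (nat_lit 4) (nat_lit 237) (nat_lit 218) (nat_lit 205)) (XT.nd (nat_lit 78) (nat_lit 152) (nat_lit 0) (XT.lf (nat_lit 0) (nat_lit 5336911306) (nat_lit 76) (nat_lit 13093152245) (nat_lit 76) (nat_lit 825782239) (nat_lit 13) (nat_lit 4) (nat_lit 14) (nat_lit 5) (nat_lit 14) (nat_lit 4) (nat_lit 238) (nat_lit 218) (nat_lit 204)) (XT.lf (nat_lit 0) (nat_lit 959229019) (nat_lit 76) (nat_lit 5526327719) (nat_lit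 152) (nat_lit 14901895497) (nat_lit 11) (nat_lit 5) (nat_lit 12) (nat_lit 5) (nat_lit 13) (nat_lit 4) (nat_lit 239) (nat_lit 218) (nat_lit 203))))) (XT.nd (nat_lit 234) (nat_lit 76) (nat_lit 0) (XT.nd (nat_lit 78) (nat_lit 228) (nat_lit 0) (XT.lf (nat_lit 0) (nat_lit 15065152846) (nat_lit 152) (nat_lit 5503954096) (nat_lit 0) (nat_lit 3250581721) (nat_lit 11) (nat_lit 5) (nat_lit 13) (nat_lit 4) (nat_lit 11) (nat_lit 4) (nat_lit 240) (nat_lit 218) (nat_lit 202)) (XT.nd (nat_lit 78) (nat_lit 152) (nat_lit 0) (XT.lf (nat_lit 0) (nat_lit 11654468775) (nat_lit 76) (nat_lit 13472902128) (nat_lit 76) (nat_lit 1473944675) (nat_lit 10) (nat_lit 4) (nat_lit 11) (nat_lit 5) (nat_lit 11) (nat_lit 4) (nat_lit 241) (nat_lit 218) (nat_lit 201)) (XT.lf (nat_lit 0) (nat_lit 1424044926) (nat_lit 76) (nat_lit 5106406186) (nat_lit 152) (nat_lit 23258485528) (nat_lit 8) (nat_lit 5) (nat_lit 9) (nat_lit 5)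 (nat_lit 10) (nat_lit 4) (nat_lit 242) (nat_lit 218) (nat_lit 200)))) (XT.nd (nat_lit 78) (nat_lit 76) (nat_lit 0) (XT.lf (nat_lit 0) (nat_lit 15999684029) (nat_lit 152) (nat_lit 12812000637) (nat_lit 0) (nat_lit 4611984082) (nat_lit 8) (nat_lit 5) (nat_lit 10) (nat_lit 4) (nat_lit 8) (nat_lit 4) (nat_lit 243) (nat_lit 218) (nat_lit 199)) (XT.nd (nat_lit 78) (nat_lit 0) (nat_lit 0) (XT.lf (nat_lit 0) (nat_lit 4837943792) (nat_lit 76) (nat_lit 22129740183) (nat_lit 76) (nat_lit 10629783752) (nat_lit 7) (nat_lit 4) (nat_lit 8) (nat_lit 5) (nat_lit 8) (nat_lit 4) (nat_lit 244) (nat_lit 218) (nat_lit 198)) (XT.lf (nat_lit 0) (nat_lit 25603069311) (nat_lit 76) (nat_lit 14187583727) (nat_lit 76) (nat_lit 2590012961) (nat_lit 7) (nat_lit 4) (nat_lit 8) (nat_lit 5) (nat_lit 8) (nat_lit 4) (nat_lit 245) (nat_lit 218) (nat_lit 197)))))) (XT.nd (nat_lit 468) (nat_lit 152) (nat_lit 0) (XT.nd (nat_lit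 234) (nat_lit 76) (nat_lit 0) (XT.nd (nat_lit 78) (nat_lit 0) (nat_lit 0) (XT.lf (nat_lit 0) (nat_lit 1227205345) (nat_lit 76) (nat_lit 4979361068) (nat_lit 152) (nat_lit 41671358192) (nat_lit 5) (nat_lit 5) (nat_lit 6) (nat_lit 5) (nat_lit 7) (nat_lit 4) (nat_lit 246) (nat_lit 218) (nat_lit 196)) (XT.nd (nat_lit 78) (nat_lit 0) (nat_lit 0) (XT.lf (nat_lit 0) (nat_lit 16674043109) (nat_lit 152) (nat_lit 31691429129) (nat_lit 0) (nat_lit 5788614169) (nat_lit 5) (nat_lit 5) (nat_lit 7) (nat_lit 4) (nat_lit 5) (nat_lit 4) (nat_lit 247) (nat_lit 218) (nat_lit 195)) (XT.lf (nat_lit 0) (nat_lit 28731389328) (nat_lit 152) (nat_lit 14852239199) (nat_lit 0) (nat_lit 17786531674) (nat_lit 5) (nat_lit 5) (nat_lit 7) (nat_lit 4) (nat_lit 5) (nat_lit 4) (nat_lit 248) (nat_lit 218) (nat_lit 194)))) (XT.nd (nat_lit 78) (nat_lit 0) (nat_lit 0) (XT.lf (nat_lit 0) (nat_lit 4543343115) (nat_lit 76) (nat_lit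 38060680310) (nat_lit 76) (nat_lit 27064145516) (nat_lit 4) (nat_lit 4) (nat_lit 5) (nat_lit 5) (nat_lit 5) (nat_lit 4) (nat_lit 249) (nat_lit 218) (nat_lit 193)) (XT.nd (nat_lit 78) (nat_lit 0) (nat_lit 0) (XT.lf (nat_lit 0) (nat_lit 27567561704) (nat_lit 76) (nat_lit 31328864946) (nat_lit 76) (nat_lit 20287393507) (nat_lit 4) (nat_lit 4) (nat_lit 5) (nat_lit 5) (nat_lit 5) (nat_lit 4) (nat_lit 250) (nat_lit 218) (nat_lit 192)) (XT.lf (nat_lit 0) (nat_lit 53888797813) (nat_lit 76) (nat_lit 23662559545) (nat_lit 76) (nat_lit 12582012763) (nat_lit 4) (nat_lit 4) (nat_lit 5) (nat_lit 5) (nat_lit 5) (nat_lit 4) (nat_lit 251) (nat_lit 218) (nat_lit 191))))) (XT.nd (nat_lit 234) (nat_lit 0) (nat_lit 0) (XT.nd (nat_lit 78) (nat_lit 152) (nat_lit 0) (XT.lf (nat_lit 0) (nat_lit 84022032149) (nat_lit 76) (nat_lit 14911771175) (nat_lit 76) (nat_lit 3797245834) (nat_lit 4) (nat_lit 4) (nat_lit 5)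 (nat_lit 5) (nat_lit 5) (nat_lit 4) (nat_lit 252) (nat_lit 218) (nat_lit 190)) (XT.nd (nat_lit 78) (nat_lit 0) (nat_lit 0) (XT.lf (nat_lit 0) (nat_lit 1245769969) (nat_lit 76) (nat_lit 4710884782) (nat_lit 152) (nat_lit 111252278550) (nat_lit 2) (nat_lit 5) (nat_lit 3) (nat_lit 5) (nat_lit 4) (nat_lit 4) (nat_lit 253) (nat_lit 218) (nat_lit 189)) (XT.lf (nat_lit 0) (nat_lit 17623997320) (nat_lit 152) (nat_lit 108891001009) (nat_lit 0) (nat_lit 7281622703) (nat_lit 2) (nat_lit 5) (nat_lit 4) (nat_lit 4) (nat_lit 2) (nat_lit 4) (nat_lit 254) (nat_lit 218) (nat_lit 188)))) (XT.nd (nat_lit 156) (nat_lit 0) (nat_lit 0) (XT.nd (nat_lit 78) (nat_lit 0) (nat_lit 0) (XT.lf (nat_lit 0) (nat_lit 31120539988) (nat_lit 152) (nat_lit 100988138718) (nat_lit 0) (nat_lit 20757478839) (nat_lit 2) (nat_lit 5) (nat_lit 4) (nat_lit 4) (nat_lit 2) (nat_lit 4) (nat_lit 255) (nat_lit 218) (nat_lit 187)) (XT.lf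 (nat_lit 0) (nat_lit 46597048652) (nat_lit 152) (nat_lit 91986658350) (nat_lit 0) (nat_lit 36215999215) (nat_lit 2) (nat_lit 5) (nat_lit 4) (nat_lit 4) (nat_lit 2) (nat_lit 4) (nat_lit 256) (nat_lit 218) (nat_lit 186))) (XT.nd (nat_lit 78) (nat_lit 0) (nat_lit 0) (XT.lf (nat_lit 0) (nat_lit 64356324570) (nat_lit 152) (nat_lit 81710443983) (nat_lit 0) (nat_lit 53959633143) (nat_lit 2) (nat_lit 5) (nat_lit 4) (nat_lit 4) (nat_lit 2) (nat_lit 4) (nat_lit 257) (nat_lit 218) (nat_lit 185)) (XT.lf (nat_lit 0) (nat_lit 84745831836) (nat_lit 152) (nat_lit 69958439250) (nat_lit 0) (nat_lit 74335538679) (nat_lit 2) (nat_lit 5) (nat_lit 4) (nat_lit 4) (nat_lit 2) (nat_lit 4) (nat_lit 258) (nat_lit 218) (nat_lit 184))))))) (XT.nd (nat_lit 936) (nat_lit 0) (nat_lit 0) (XT.nd (nat_lit 468) (nat_lit 0) (nat_lit 0) (XT.nd (nat_lit 234) (nat_lit 76) (nat_lit 0) (XT.nd (nat_lit 78) (nat_lit 0) (nat_lit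 0) (XT.lf (nat_lit 0) (nat_lit 108164495592) (nat_lit 152) (nat_lit 56500713623) (nat_lit 0) (nat_lit 97742374843) (nat_lit 2) (nat_lit 5) (nat_lit 4) (nat_lit 4) (nat_lit 2) (nat_lit 4) (nat_lit 259) (nat_lit 218) (nat_lit 183)) (XT.nd (nat_lit 78) (nat_lit 0) (nat_lit 0) (XT.lf (nat_lit 0) (nat_lit 135070507086) (nat_lit 152) (nat_lit 41073963775) (nat_lit 0) (nat_lit 124638101474) (nat_lit 2) (nat_lit 5) (nat_lit 4) (nat_lit 4) (nat_lit 2) (nat_lit 4) (nat_lit 260) (nat_lit 218) (nat_lit 182)) (XT.lf (nat_lit 0) (nat_lit 165990288280) (nat_lit 152) (nat_lit 23376361992) (nat_lit 0) (nat_lit 155548939311) (nat_lit 2) (nat_lit 5) (nat_lit 4) (nat_lit 4) (nat_lit 2) (nat_lit 4) (nat_lit 261) (nat_lit 218) (nat_lit 181)))) (XT.nd (nat_lit 78) (nat_lit 76) (nat_lit 0) (XT.lf (nat_lit 0) (nat_lit 201528791417) (nat_lit 152) (nat_lit 3061650846) (nat_lit 0) (nat_lit 191079665614) (nat_lit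 2) (nat_lit 5) (nat_lit 4) (nat_lit 4) (nat_lit 2) (nat_lit 4) (nat_lit 262) (nat_lit 218) (nat_lit 180)) (XT.nd (nat_lit 78) (nat_lit 0) (nat_lit 0) (XT.lf (nat_lit 0) (nat_lit 21334888952) (nat_lit 76) (nat_lit 221559550676) (nat_lit 76) (nat_lit 211103662409) (nat_lit 1) (nat_lit 4) (nat_lit 2) (nat_lit 5) (nat_lit 2) (nat_lit 4) (nat_lit 263) (nat_lit 218) (nat_lit 179)) (XT.lf (nat_lit 0) (nat_lit 49546440863) (nat_lit 76) (nat_lit 240992360264) (nat_lit 76) (nat_lit 230530591593) (nat_lit 1) (nat_lit 4) (nat_lit 2) (nat_lit 5) (nat_lit 2) (nat_lit 4) (nat_lit 264) (nat_lit 218) (nat_lit 178))))) (XT.nd (nat_lit 234) (nat_lit 0) (nat_lit 0) (XT.nd (nat_lit 78) (nat_lit 0) (nat_lit 0) (XT.lf (nat_lit 0) (nat_lit 81963748924) (nat_lit 76) (nat_lit 263352789131) (nat_lit 76) (nat_lit 252885907067) (nat_lit 1) (nat_lit 4) (nat_lit 2) (nat_lit 5) (nat_lit 2) (nat_lit 4) (nat_lit 265)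 (nat_lit 218) (nat_lit 177)) (XT.nd (nat_lit 78) (nat_lit 0) (nat_lit 0) (XT.lf (nat_lit 0) (nat_lit 119221064816) (nat_lit 76) (nat_lit 289078323931) (nat_lit 76) (nat_lit 278606995436) (nat_lit 1) (nat_lit 4) (nat_lit 2) (nat_lit 5) (nat_lit 2) (nat_lit 4) (nat_lit 266) (nat_lit 218) (nat_lit 176)) (XT.lf (nat_lit 0) (nat_lit 162047336022) (nat_lit 76) (nat_lit 318672290343) (nat_lit 76) (nat_lit 308197095388) (nat_lit 1) (nat_lit 4) (nat_lit 2) (nat_lit 5) (nat_lit 2) (nat_lit 4) (nat_lit 267) (nat_lit 218) (nat_lit 175)))) (XT.nd (nat_lit 78) (nat_lit 0) (nat_lit 0) (XT.lf (nat_lit 0) (nat_lit 211280467849) (nat_lit 76) (nat_lit 352713700754) (nat_lit 76) (nat_lit 342235143659) (nat_lit 1) (nat_lit 4) (nat_lit 2) (nat_lit 5) (nat_lit 2) (nat_lit 4) (nat_lit 268) (nat_lit 218) (nat_lit 174)) (XT.nd (nat_lit 78) (nat_lit 0) (nat_lit 0) (XT.lf (nat_lit 0) (nat_lit 267883717224) (nat_lit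 76) (nat_lit 391868582759) (nat_lit 76) (nat_lit 381387102064) (nat_lit 1) (nat_lit 4) (nat_lit 2) (nat_lit 5) (nat_lit 2) (nat_lit 4) (nat_lit 269) (nat_lit 218) (nat_lit 173)) (XT.lf (nat_lit 0) (nat_lit 332964539026) (nat_lit 76) (nat_lit 436903010136) (nat_lit 76) (nat_lit 426418987180) (nat_lit 1) (nat_lit 4) (nat_lit 2) (nat_lit 5) (nat_lit 2) (nat_lit 4) (nat_lit 270) (nat_lit 218) (nat_lit 172)))))) (XT.nd (nat_lit 468) (nat_lit 0) (nat_lit 0) (XT.nd (nat_lit 234) (nat_lit 0) (nat_lit 0) (XT.nd (nat_lit 78) (nat_lit 0) (nat_lit 0) (XT.lf (nat_lit 0) (nat_lit 407796253681) (nat_lit 76) (nat_lit 488698091247) (nat_lit 76) (nat_lit 478211857630) (nat_lit 1) (nat_lit 4) (nat_lit 2) (nat_lit 5) (nat_lit 2) (nat_lit 4) (nat_lit 271) (nat_lit 218) (nat_lit 171)) (XT.nd (nat_lit 78) (nat_lit 0) (nat_lit 0) (XT.lf (nat_lit 0) (nat_lit 493842959956) (nat_lit 76) (nat_lit 548267208114) (nat_lit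 76) (nat_lit 537779052183) (nat_lit 1) (nat_lit 4) (nat_lit 2) (nat_lit 5) (nat_lit 2) (nat_lit 4) (nat_lit 272) (nat_lit 218) (nat_lit 170)) (XT.lf (nat_lit 0) (nat_lit 592788180362) (nat_lit 76) (nat_lit 616775843457) (nat_lit 76) (nat_lit 606286015949) (nat_lit 1) (nat_lit 4) (nat_lit 2) (nat_lit 5) (nat_lit 2) (nat_lit 4) (nat_lit 273) (nat_lit 218) (nat_lit 169)))) (XT.nd (nat_lit 78) (nat_lit 0) (nat_lit 0) (XT.lf (nat_lit 0) (nat_lit 706567799649) (nat_lit 76) (nat_lit 695564383622) (nat_lit 76) (nat_lit 685073102567) (nat_lit 1) (nat_lit 4) (nat_lit 2) (nat_lit 5) (nat_lit 2) (nat_lit 4) (nat_lit 274) (nat_lit 218) (nat_lit 168)) (XT.nd (nat_lit 78) (nat_lit 0) (nat_lit 0) (XT.lf (nat_lit 0) (nat_lit 837407940801) (nat_lit 76) (nat_lit 786174343523) (nat_lit 76) (nat_lit 775681798516) (nat_lit 1) (nat_lit 4) (nat_lit 2) (nat_lit 5) (nat_lit 2) (nat_lit 4) (nat_lit 275) (nat_lit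 218) (nat_lit 167)) (XT.lf (nat_lit 0) (nat_lit 987868519624) (nat_lit 76) (nat_lit 890378526725) (nat_lit 76) (nat_lit 879884882628) (nat_lit 1) (nat_lit 4) (nat_lit 2) (nat_lit 5) (nat_lit 2) (nat_lit 4) (nat_lit 276) (nat_lit 218) (nat_lit 166))))) (XT.nd (nat_lit 234) (nat_lit 0) (nat_lit 0) (XT.nd (nat_lit 78) (nat_lit 0) (nat_lit 0) (XT.lf (nat_lit 0) (nat_lit 1160893330052) (nat_lit 76) (nat_lit 1010215710724) (nat_lit 76) (nat_lit 999721110898) (nat_lit 1) (nat_lit 4) (nat_lit 2) (nat_lit 5) (nat_lit 2) (nat_lit 4) (nat_lit 277) (nat_lit 218) (nat_lit 165)) (XT.nd (nat_lit 78) (nat_lit 0) (nat_lit 0) (XT.lf (nat_lit 0) (nat_lit 1359867640114) (nat_lit 76) (nat_lit 1148030536078) (nat_lit 76) (nat_lit 1137535105182) (nat_lit 1) (nat_lit 4) (nat_lit 2) (nat_lit 5) (nat_lit 2) (nat_lit 4) (nat_lit 278) (nat_lit 218) (nat_lit 164)) (XT.lf (nat_lit 0) (nat_lit 1588684425442) (nat_lit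 76) (nat_lit 1306519379804) (nat_lit 76) (nat_lit 1296023226238) (nat_lit 1) (nat_lit 4) (nat_lit 2) (nat_lit 5) (nat_lit 2) (nat_lit 4) (nat_lit 279) (nat_lit 218) (nat_lit 163)))) (XT.nd (nat_lit 156) (nat_lit 0) (nat_lit 0) (XT.nd (nat_lit 78) (nat_lit 0) (nat_lit 0) (XT.lf (nat_lit 0) (nat_lit 1851820536184) (nat_lit 76) (nat_lit 1488783110583) (nat_lit 76) (nat_lit 1478286328609) (nat_lit 1) (nat_lit 4) (nat_lit 2) (nat_lit 5) (nat_lit 2) (nat_lit 4) (nat_lit 280) (nat_lit 218) (nat_lit 162)) (XT.lf (nat_lit 0) (nat_lit 2154424287551) (nat_lit 76) (nat_lit 1698387757931) (nat_lit 76) (nat_lit 1687890429516) (nat_lit 1) (nat_lit 4) (nat_lit 2) (nat_lit 5) (nat_lit 2) (nat_lit 4) (nat_lit 281) (nat_lit 218) (nat_lit 161))) (XT.nd (nat_lit 78) (nat_lit 0) (nat_lit 0) (XT.lf (nat_lit 0) (nat_lit 2502416187720) (nat_lit 76) (nat_lit 1939434282339) (nat_lit 76) (nat_lit 1928936478757)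 (nat_lit 1) (nat_lit 4) (nat_lit 2) (nat_lit 5) (nat_lit 2) (nat_lit 4) (nat_lit 282) (nat_lit 218) (nat_lit 160)) (XT.lf (nat_lit 0) (nat_lit 2902604773869) (nat_lit 76) (nat_lit 2216638811459) (nat_lit 76) (nat_lit 2206140594689) (nat_lit 1) (nat_lit 4) (nat_lit 2) (nat_lit 5) (nat_lit 2) (nat_lit 4) (nat_lit 283) (nat_lit 218) (nat_lit 159))))))))
noncomputable def xc22 : XT := (XT.nd (nat_lit 31122) (nat_lit 0) (nat_lit 0) (XT.nd (nat_lit 30108) (nat_lit 0) (nat_lit 760) (XT.nd (nat_lit 29640) (nat_lit 0) (nat_lit 2660) (XT.nd (nat_lit 234) (nat_lit 0) (nat_lit 0) (XT.nd (nat_lit 78) (nat_lit 0) (nat_lit 0) (XT.lf (nat_lit 0) (nat_lit 3362819822684) (nat_lit 76) (nat_lit 2535424912165) (nat_lit 76) (nat_lit 2524926336101) (nat_lit 1) (nat_lit 4) (nat_lit 2) (nat_lit 5) (nat_lit 2) (nat_lit 4) (nat_lit 284) (nat_lit 218) (nat_lit 158)) (XT.nd (nat_lit 78) (nat_lit 0) (nat_lit 0) (XT.lf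 (nat_lit 0) (nat_lit 3892065541642) (nat_lit 76) (nat_lit 2902029703819) (nat_lit 76) (nat_lit 2891530815325) (nat_lit 1) (nat_lit 4) (nat_lit 2) (nat_lit 5) (nat_lit 2) (nat_lit 4) (nat_lit 285) (nat_lit 218) (nat_lit 157)) (XT.lf (nat_lit 0) (nat_lit 4500696738287) (nat_lit 76) (nat_lit 3323625888866) (nat_lit 76) (nat_lit 3313126728693) (nat_lit 1) (nat_lit 4) (nat_lit 2) (nat_lit 5) (nat_lit 2) (nat_lit 4) (nat_lit 286) (nat_lit 218) (nat_lit 156)))) (XT.nd (nat_lit 78) (nat_lit 0) (nat_lit 0) (XT.lf (nat_lit 0) (nat_lit 5200621414293) (nat_lit 76) (nat_lit 3808462088317) (nat_lit 76) (nat_lit 3797962691903) (nat_lit 1) (nat_lit 4) (nat_lit 2) (nat_lit 5) (nat_lit 2) (nat_lit 4) (nat_lit 287) (nat_lit 218) (nat_lit 155)) (XT.nd (nat_lit 29250) (nat_lit 0) (nat_lit 5016) (XT.lf (nat_lit 0) (nat_lit 6005533748104) (nat_lit 76) (nat_lit 4366024227815) (nat_lit 76) (nat_lit 4355524625973)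 (nat_lit 1) (nat_lit 4) (nat_lit 2) (nat_lit 5) (nat_lit 2) (nat_lit 4) (nat_lit 288) (nat_lit 218) (nat_lit 154)) (XT.lf (nat_lit 0) (nat_lit 2866334233) (nat_lit 76) (nat_lit 201851345) (nat_lit 76) (nat_lit 201851345) (nat_lit 67) (nat_lit 4) (nat_lit 68) (nat_lit 5) (nat_lit 68) (nat_lit 4) (nat_lit 222) (nat_lit 219) (nat_lit 219))))) (XT.nd (nat_lit 234) (nat_lit 1064) (nat_lit 0) (XT.nd (nat_lit 78) (nat_lit 1064) (nat_lit 0) (XT.lf (nat_lit 0) (nat_lit 5046370886) (nat_lit 228) (nat_lit 545669074) (nat_lit 0) (nat_lit 1079886044) (nat_lit 64) (nat_lit 5) (nat_lit 67) (nat_lit 4) (nat_lit 64) (nat_lit 4) (nat_lit 223) (nat_lit 219) (nat_lit 218)) (XT.nd (nat_lit 78) (nat_lit 456) (nat_lit 0) (XT.lf (nat_lit 0) (nat_lit 10597347) (nat_lit 304) (nat_lit 3559690845) (nat_lit 380) (nat_lit 3301350343) (nat_lit 56) (nat_lit 5) (nat_lit 60) (nat_lit 5) (nat_lit 61) (nat_lit 4) (nat_lit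 224) (nat_lit 219) (nat_lit 217)) (XT.lf (nat_lit 0) (nat_lit 909338523) (nat_lit 380) (nat_lit 757558144) (nat_lit 456) (nat_lit 5474777472) (nat_lit 50) (nat_lit 5) (nat_lit 55) (nat_lit 5) (nat_lit 56) (nat_lit 5) (nat_lit 225) (nat_lit 219) (nat_lit 216)))) (XT.nd (nat_lit 78) (nat_lit 608) (nat_lit 0) (XT.lf (nat_lit 0) (nat_lit 2028153179) (nat_lit 456) (nat_lit 4744134966) (nat_lit 532) (nat_lit 708618291) (nat_lit 44) (nat_lit 5) (nat_lit 50) (nat_lit 5) (nat_lit 51) (nat_lit 4) (nat_lit 226) (nat_lit 219) (nat_lit 215)) (XT.nd (nat_lit 78) (nat_lit 304) (nat_lit 0) (XT.lf (nat_lit 0) (nat_lit 3359607261) (nat_lit 228) (nat_lit 790855219) (nat_lit 304) (nat_lit 3744086737) (nat_lit 40) (nat_lit 5) (nat_lit 43) (nat_lit 5) (nat_lit 44) (nat_lit 5) (nat_lit 227) (nat_lit 219) (nat_lit 214)) (XT.lf (nat_lit 0) (nat_lit 1024925282) (nat_lit 304) (nat_lit 3521925815) (nat_lit 76) (nat_lit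 3839915536) (nat_lit 36) (nat_lit 5) (nat_lit 40) (nat_lit 5) (nat_lit 37) (nat_lit 5) (nat_lit 228) (nat_lit 219) (nat_lit 213)))))) (XT.nd (nat_lit 468) (nat_lit 608) (nat_lit 0) (XT.nd (nat_lit 234) (nat_lit 684) (nat_lit 0) (XT.nd (nat_lit 78) (nat_lit 380) (nat_lit 0) (XT.lf (nat_lit 0) (nat_lit 6066324348) (nat_lit 304) (nat_lit 2447058690) (nat_lit 76) (nat_lit 450788529) (nat_lit 33) (nat_lit 5) (nat_lit 37) (nat_lit 5) (nat_lit 34) (nat_lit 4) (nat_lit 229) (nat_lit 219) (nat_lit 212)) (XT.nd (nat_lit 78) (nat_lit 152) (nat_lit 0) (XT.lf (nat_lit 0) (nat_lit 2052169792) (nat_lit 228) (nat_lit 1401674002) (nat_lit 76) (nat_lit 6176934452) (nat_lit 30) (nat_lit 5) (nat_lit 33) (nat_lit 5) (nat_lit 31) (nat_lit 5) (nat_lit 230) (nat_lit 219) (nat_lit 211)) (XT.lf (nat_lit 0) (nat_lit 7495137945) (nat_lit 228) (nat_lit 408315350) (nat_lit 76) (nat_lit 2495141729) (nat_lit 28) (nat_lit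 5) (nat_lit 31) (nat_lit 5) (nat_lit 29) (nat_lit 4) (nat_lit 231) (nat_lit 219) (nat_lit 210)))) (XT.nd (nat_lit 78) (nat_lit 304) (nat_lit 0) (XT.lf (nat_lit 0) (nat_lit 469223000) (nat_lit 152) (nat_lit 1892972752) (nat_lit 228) (nat_lit 8914403442) (nat_lit 23) (nat_lit 5) (nat_lit 25) (nat_lit 5) (nat_lit 26) (nat_lit 5) (nat_lit 232) (nat_lit 219) (nat_lit 209)) (XT.nd (nat_lit 78) (nat_lit 228) (nat_lit 0) (XT.lf (nat_lit 0) (nat_lit 1070417946) (nat_lit 76) (nat_lit 7255650268) (nat_lit 152) (nat_lit 3948481945) (nat_lit 22) (nat_lit 5) (nat_lit 23) (nat_lit 5) (nat_lit 24) (nat_lit 4) (nat_lit 233) (nat_lit 219) (nat_lit 208)) (XT.lf (nat_lit 0) (nat_lit 1353684087) (nat_lit 152) (nat_lit 350241819) (nat_lit 228) (nat_lit 11713062151) (nat_lit 19) (nat_lit 5) (nat_lit 21) (nat_lit 5) (nat_lit 22) (nat_lit 5) (nat_lit 234) (nat_lit 219) (nat_lit 207))))) (XT.nd (nat_lit 234) (nat_lit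 304) (nat_lit 0) (XT.nd (nat_lit 78) (nat_lit 228) (nat_lit 0) (XT.lf (nat_lit 0) (nat_lit 945340352) (nat_lit 76) (nat_lit 7224876804) (nat_lit 152) (nat_lit 6536876327) (nat_lit 18) (nat_lit 5) (nat_lit 19) (nat_lit 5) (nat_lit 20) (nat_lit 4) (nat_lit 235) (nat_lit 219) (nat_lit 206)) (XT.nd (nat_lit 78) (nat_lit 228) (nat_lit 0) (XT.lf (nat_lit 0) (nat_lit 15663805642) (nat_lit 152) (nat_lit 95016348) (nat_lit 0) (nat_lit 427732094) (nat_lit 18) (nat_lit 5) (nat_lit 20) (nat_lit 4) (nat_lit 18) (nat_lit 4) (nat_lit 236) (nat_lit 219) (nat_lit 205)) (XT.lf (nat_lit 0) (nat_lit 6381918980) (nat_lit 228) (nat_lit 2288773935) (nat_lit 76) (nat_lit 9180624154) (nat_lit 15) (nat_lit 5) (nat_lit 18) (nat_lit 5) (nat_lit 16) (nat_lit 4) (nat_lit 237) (nat_lit 219) (nat_lit 204)))) (XT.nd (nat_lit 156) (nat_lit 76) (nat_lit 0) (XT.nd (nat_lit 78) (nat_lit 152) (nat_lit 0) (XT.lf (nat_lit 0)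 (nat_lit 14051231019) (nat_lit 76) (nat_lit 323203665) (nat_lit 152) (nat_lit 5383924940) (nat_lit 14) (nat_lit 5) (nat_lit 15) (nat_lit 5) (nat_lit 16) (nat_lit 4) (nat_lit 238) (nat_lit 219) (nat_lit 203)) (XT.lf (nat_lit 0) (nat_lit 1857158796) (nat_lit 152) (nat_lit 11039814859) (nat_lit 76) (nat_lit 9025736175) (nat_lit 12) (nat_lit 5) (nat_lit 14) (nat_lit 5) (nat_lit 13) (nat_lit 4) (nat_lit 239) (nat_lit 219) (nat_lit 202))) (XT.nd (nat_lit 78) (nat_lit 0) (nat_lit 0) (XT.lf (nat_lit 0) (nat_lit 5628738883) (nat_lit 76) (nat_lit 4337886728) (nat_lit 152) (nat_lit 14426028491) (nat_lit 11) (nat_lit 5) (nat_lit 12) (nat_lit 5) (nat_lit 13) (nat_lit 4) (nat_lit 240) (nat_lit 219) (nat_lit 201)) (XT.lf (nat_lit 0) (nat_lit 19548189811) (nat_lit 152) (nat_lit 2259961821) (nat_lit 0) (nat_lit 5404666477) (nat_lit 11) (nat_lit 5) (nat_lit 13) (nat_lit 4) (nat_lit 11) (nat_lit 4) (nat_lit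 241) (nat_lit 219) (nat_lit 200))))))) (XT.nd (nat_lit 936) (nat_lit 228) (nat_lit 0) (XT.nd (nat_lit 468) (nat_lit 76) (nat_lit 0) (XT.nd (nat_lit 234) (nat_lit 228) (nat_lit 0) (XT.nd (nat_lit 78) (nat_lit 76) (nat_lit 0) (XT.lf (nat_lit 0) (nat_lit 466781615) (nat_lit 152) (nat_lit 13312040127) (nat_lit 76) (nat_lit 16648210095) (nat_lit 9) (nat_lit 5) (nat_lit 11) (nat_lit 5) (nat_lit 10) (nat_lit 4) (nat_lit 242) (nat_lit 219) (nat_lit 199)) (XT.nd (nat_lit 78) (nat_lit 0) (nat_lit 0) (XT.lf (nat_lit 0) (nat_lit 5149015644) (nat_lit 76) (nat_lit 4251560574) (nat_lit 152) (nat_lit 24704082151) (nat_lit 8) (nat_lit 5) (nat_lit 9) (nat_lit 5) (nat_lit 10) (nat_lit 4) (nat_lit 243) (nat_lit 219) (nat_lit 198)) (XT.lf (nat_lit 0) (nat_lit 20077495655) (nat_lit 152) (nat_lit 11581624810) (nat_lit 0) (nat_lit 6642674941) (nat_lit 8) (nat_lit 5) (nat_lit 10) (nat_lit 4) (nat_lit 8) (nat_lit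 4) (nat_lit 244) (nat_lit 219) (nat_lit 197)))) (XT.nd (nat_lit 78) (nat_lit 152) (nat_lit 0) (XT.lf (nat_lit 0) (nat_lit 8448995292) (nat_lit 76) (nat_lit 24092242101) (nat_lit 76) (nat_lit 10572539356) (nat_lit 7) (nat_lit 4) (nat_lit 8) (nat_lit 5) (nat_lit 8) (nat_lit 4) (nat_lit 245) (nat_lit 219) (nat_lit 196)) (XT.nd (nat_lit 78) (nat_lit 152) (nat_lit 0) (XT.lf (nat_lit 0) (nat_lit 31952538343) (nat_lit 76) (nat_lit 15135756843) (nat_lit 76) (nat_lit 1542243638) (nat_lit 7) (nat_lit 4) (nat_lit 8) (nat_lit 5) (nat_lit 8) (nat_lit 4) (nat_lit 246) (nat_lit 219) (nat_lit 195)) (XT.lf (nat_lit 0) (nat_lit 3774452016) (nat_lit 76) (nat_lit 4606388479) (nat_lit 152) (nat_lit 46578582183) (nat_lit 5) (nat_lit 5) (nat_lit 6) (nat_lit 5) (nat_lit 7) (nat_lit 4) (nat_lit 247) (nat_lit 219) (nat_lit 194))))) (XT.nd (nat_lit 234) (nat_lit 0) (nat_lit 0) (XT.nd (nat_lit 78) (nat_lit 76) (nat_lit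 0) (XT.lf (nat_lit 0) (nat_lit 20279690604) (nat_lit 152) (nat_lit 34326514433) (nat_lit 0) (nat_lit 7581998450) (nat_lit 5) (nat_lit 5) (nat_lit 7) (nat_lit 4) (nat_lit 5) (nat_lit 4) (nat_lit 248) (nat_lit 219) (nat_lit 193)) (XT.nd (nat_lit 78) (nat_lit 76) (nat_lit 0) (XT.lf (nat_lit 0) (nat_lit 34001568186) (nat_lit 152) (nat_lit 15237788936) (nat_lit 0) (nat_lit 21258939387) (nat_lit 5) (nat_lit 5) (nat_lit 7) (nat_lit 4) (nat_lit 5) (nat_lit 4) (nat_lit 249) (nat_lit 219) (nat_lit 192)) (XT.lf (nat_lit 0) (nat_lit 6911190380) (nat_lit 76) (nat_lit 42959184920) (nat_lit 76) (nat_lit 30177480778) (nat_lit 4) (nat_lit 4) (nat_lit 5) (nat_lit 5) (nat_lit 5) (nat_lit 4) (nat_lit 250) (nat_lit 219) (nat_lit 191)))) (XT.nd (nat_lit 78) (nat_lit 0) (nat_lit 0) (XT.lf (nat_lit 0) (nat_lit 33169083610) (nat_lit 76) (nat_lit 35323327352) (nat_lit 76) (nat_lit 22507644651) (nat_lit 4) (nat_lit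 4) (nat_lit 5) (nat_lit 5) (nat_lit 5) (nat_lit 4) (nat_lit 251) (nat_lit 219) (nat_lit 190)) (XT.nd (nat_lit 78) (nat_lit 0) (nat_lit 0) (XT.lf (nat_lit 0) (nat_lit 63247237181) (nat_lit 76) (nat_lit 26599015358) (nat_lit 76) (nat_lit 13753786084) (nat_lit 4) (nat_lit 4) (nat_lit 5) (nat_lit 5) (nat_lit 5) (nat_lit 4) (nat_lit 252) (nat_lit 219) (nat_lit 189)) (XT.lf (nat_lit 0) (nat_lit 97734136707) (nat_lit 76) (nat_lit 16615555879) (nat_lit 76) (nat_lit 3744633932) (nat_lit 4) (nat_lit 4) (nat_lit 5) (nat_lit 5) (nat_lit 5) (nat_lit 4) (nat_lit 253) (nat_lit 219) (nat_lit 188)))))) (XT.nd (nat_lit 468) (nat_lit 76) (nat_lit 0) (XT.nd (nat_lit 234) (nat_lit 0) (nat_lit 0) (XT.nd (nat_lit 78) (nat_lit 0) (nat_lit 0) (XT.lf (nat_lit 0) (nat_lit 2476337726) (nat_lit 76) (nat_lit 4912893584) (nat_lit 152) (nat_lit 127357662487) (nat_lit 2) (nat_lit 5) (nat_lit 3) (nat_lit 5) (nat_lit 4)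 (nat_lit 4) (nat_lit 254) (nat_lit 219) (nat_lit 187)) (XT.nd (nat_lit 78) (nat_lit 0) (nat_lit 0) (XT.lf (nat_lit 0) (nat_lit 20746913930) (nat_lit 152) (nat_lit 124289915905) (nat_lit 0) (nat_lit 8790718790) (nat_lit 2) (nat_lit 5) (nat_lit 4) (nat_lit 4) (nat_lit 2) (nat_lit 4) (nat_lit 255) (nat_lit 219) (nat_lit 186)) (XT.lf (nat_lit 0) (nat_lit 36205418388) (nat_lit 152) (nat_lit 115323546261) (nat_lit 0) (nat_lit 24233581257) (nat_lit 2) (nat_lit 5) (nat_lit 4) (nat_lit 4) (nat_lit 2) (nat_lit 4) (nat_lit 256) (nat_lit 219) (nat_lit 185)))) (XT.nd (nat_lit 78) (nat_lit 0) (nat_lit 0) (XT.lf (nat_lit 0) (nat_lit 53949038473) (nat_lit 152) (nat_lit 105077862959) (nat_lit 0) (nat_lit 41963599612) (nat_lit 2) (nat_lit 5) (nat_lit 4) (nat_lit 4) (nat_lit 2) (nat_lit 4) (nat_lit 257) (nat_lit 219) (nat_lit 184)) (XT.nd (nat_lit 78) (nat_lit 0) (nat_lit 0) (XT.lf (nat_lit 0) (nat_lit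 74324931972) (nat_lit 152) (nat_lit 93352406977) (nat_lit 0) (nat_lit 62327665519) (nat_lit 2) (nat_lit 5) (nat_lit 4) (nat_lit 4) (nat_lit 2) (nat_lit 4) (nat_lit 258) (nat_lit 219) (nat_lit 183)) (XT.lf (nat_lit 0) (nat_lit 97731757669) (nat_lit 152) (nat_lit 79917767222) (nat_lit 0) (nat_lit 85724206354) (nat_lit 2) (nat_lit 5) (nat_lit 4) (nat_lit 4) (nat_lit 2) (nat_lit 4) (nat_lit 259) (nat_lit 219) (nat_lit 182))))) (XT.nd (nat_lit 234) (nat_lit 76) (nat_lit 0) (XT.nd (nat_lit 78) (nat_lit 0) (nat_lit 0) (XT.lf (nat_lit 0) (nat_lit 124627475198) (nat_lit 152) (nat_lit 64511092044) (nat_lit 0) (nat_lit 112610980525) (nat_lit 2) (nat_lit 5) (nat_lit 4) (nat_lit 4) (nat_lit 2) (nat_lit 4) (nat_lit 260) (nat_lit 219) (nat_lit 181)) (XT.nd (nat_lit 78) (nat_lit 0) (nat_lit 0) (XT.lf (nat_lit 0) (nat_lit 155538305120) (nat_lit 152) (nat_lit 46830946496) (nat_lit 0) (nat_lit 143514033613)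 (nat_lit 2) (nat_lit 5) (nat_lit 4) (nat_lit 4) (nat_lit 2) (nat_lit 4) (nat_lit 261) (nat_lit 219) (nat_lit 180)) (XT.lf (nat_lit 0) (nat_lit 191069024541) (nat_lit 152) (nat_lit 26531414686) (nat_lit 0) (nat_lit 179037990570) (nat_lit 2) (nat_lit 5) (nat_lit 4) (nat_lit 4) (nat_lit 2) (nat_lit 4) (nat_lit 262) (nat_lit 219) (nat_lit 179)))) (XT.nd (nat_lit 156) (nat_lit 0) (nat_lit 0) (XT.nd (nat_lit 78) (nat_lit 76) (nat_lit 0) (XT.lf (nat_lit 0) (nat_lit 231914799711) (nat_lit 152) (nat_lit 3215331861) (nat_lit 0) (nat_lit 219877885337) (nat_lit 2) (nat_lit 5) (nat_lit 4) (nat_lit 4) (nat_lit 2) (nat_lit 4) (nat_lit 263) (nat_lit 219) (nat_lit 178)) (XT.lf (nat_lit 0) (nat_lit 24814824215) (nat_lit 76) (nat_lit 254656760004) (nat_lit 76) (nat_lit 242614732235) (nat_lit 1) (nat_lit 4) (nat_lit 2) (nat_lit 5) (nat_lit 2) (nat_lit 4) (nat_lit 264) (nat_lit 219) (nat_lit 177))) (XT.nd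 (nat_lit 78) (nat_lit 0) (nat_lit 0) (XT.lf (nat_lit 0) (nat_lit 57221626054) (nat_lit 76) (nat_lit 277022324500) (nat_lit 76) (nat_lit 264975850302) (nat_lit 1) (nat_lit 4) (nat_lit 2) (nat_lit 5) (nat_lit 2) (nat_lit 4) (nat_lit 265) (nat_lit 219) (nat_lit 176)) (XT.lf (nat_lit 0) (nat_lit 94469806099) (nat_lit 76) (nat_lit 302752325064) (nat_lit 76) (nat_lit 290701984405) (nat_lit 1) (nat_lit 4) (nat_lit 2) (nat_lit 5) (nat_lit 2) (nat_lit 4) (nat_lit 266) (nat_lit 219) (nat_lit 175))))))))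
noncomputable def xc23 : XT := (XT.nd (nat_lit 31044) (nat_lit 0) (nat_lit 304) (XT.nd (nat_lit 936) (nat_lit 0) (nat_lit 0) (XT.nd (nat_lit 468) (nat_lit 0) (nat_lit 0) (XT.nd (nat_lit 234) (nat_lit 0) (nat_lit 0) (XT.nd (nat_lit 78) (nat_lit 0) (nat_lit 0) (XT.lf (nat_lit 0) (nat_lit 137288133092) (nat_lit 76) (nat_lit 332350174749) (nat_lit 76) (nat_lit 320296471950) (nat_lit 1) (nat_lit 4) (nat_lit 2) (nat_lit 5) (nat_lit 2) (nat_lit 4) (nat_lit 267) (nat_lit 219) (nat_lit 174)) (XT.nd (nat_lit 78) (nat_lit 0) (nat_lit 0) (XT.lf (nat_lit 0) (nat_lit 186514356906) (nat_lit 76) (nat_lit 366394961919) (nat_lit 76) (nat_lit 354338335521) (nat_lit 1) (nat_lit 4) (nat_lit 2) (nat_lit 5) (nat_lit 2) (nat_lit 4) (nat_lit 268) (nat_lit 219) (nat_lit 173)) (XT.lf (nat_lit 0) (nat_lit 243111599314) (nat_lit 76) (nat_lit 405552780236) (nat_lit 76) (nat_lit 393493611577) (nat_lit 1) (nat_lit 4)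 (nat_lit 2) (nat_lit 5) (nat_lit 2) (nat_lit 4) (nat_lit 269) (nat_lit 219) (nat_lit 172)))) (XT.nd (nat_lit 78) (nat_lit 0) (nat_lit 0) (XT.lf (nat_lit 0) (nat_lit 308187197667) (nat_lit 76) (nat_lit 450589760928) (nat_lit 76) (nat_lit 438528381608) (nat_lit 1) (nat_lit 4) (nat_lit 2) (nat_lit 5) (nat_lit 2) (nat_lit 4) (nat_lit 270) (nat_lit 219) (nat_lit 171)) (XT.nd (nat_lit 78) (nat_lit 0) (nat_lit 0) (XT.lf (nat_lit 0) (nat_lit 383014370192) (nat_lit 76) (nat_lit 502387062314) (nat_lit 76) (nat_lit 490323760679) (nat_lit 1) (nat_lit 4) (nat_lit 2) (nat_lit 5) (nat_lit 2) (nat_lit 4) (nat_lit 271) (nat_lit 219) (nat_lit 170)) (XT.lf (nat_lit 0) (nat_lit 469057126788) (nat_lit 76) (nat_lit 561958109853) (nat_lit 76) (nat_lit 549893136641) (nat_lit 1) (nat_lit 4) (nat_lit 2) (nat_lit 5) (nat_lit 2) (nat_lit 4) (nat_lit 272) (nat_lit 219) (nat_lit 169))))) (XT.nd (nat_lit 234) (nat_lit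 0) (nat_lit 0) (XT.nd (nat_lit 78) (nat_lit 0) (nat_lit 0) (XT.lf (nat_lit 0) (nat_lit 567998912692) (nat_lit 76) (nat_lit 630468424043) (nat_lit 76) (nat_lit 618401997285) (nat_lit 1) (nat_lit 4) (nat_lit 2) (nat_lit 5) (nat_lit 2) (nat_lit 4) (nat_lit 273) (nat_lit 219) (nat_lit 168)) (XT.nd (nat_lit 78) (nat_lit 0) (nat_lit 0) (XT.lf (nat_lit 0) (nat_lit 681775545454) (nat_lit 76) (nat_lit 709258424074) (nat_lit 76) (nat_lit 697190733363) (nat_lit 1) (nat_lit 4) (nat_lit 2) (nat_lit 5) (nat_lit 2) (nat_lit 4) (nat_lit 274) (nat_lit 219) (nat_lit 167)) (XT.lf (nat_lit 0) (nat_lit 812613089629) (nat_lit 76) (nat_lit 799869653424) (nat_lit 76) (nat_lit 787800863624) (nat_lit 1) (nat_lit 4) (nat_lit 2) (nat_lit 5) (nat_lit 2) (nat_lit 4) (nat_lit 275) (nat_lit 219) (nat_lit 166)))) (XT.nd (nat_lit 78) (nat_lit 0) (nat_lit 0) (XT.lf (nat_lit 0) (nat_lit 963071410210) (nat_lit 76) (nat_lit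 904074940494) (nat_lit 76) (nat_lit 892005194964) (nat_lit 1) (nat_lit 4) (nat_lit 2) (nat_lit 5) (nat_lit 2) (nat_lit 4) (nat_lit 276) (nat_lit 219) (nat_lit 165)) (XT.nd (nat_lit 78) (nat_lit 0) (nat_lit 0) (XT.lf (nat_lit 0) (nat_lit 1136094256950) (nat_lit 76) (nat_lit 1023913084380) (nat_lit 76) (nat_lit 1011842507780) (nat_lit 1) (nat_lit 4) (nat_lit 2) (nat_lit 5) (nat_lit 2) (nat_lit 4) (nat_lit 277) (nat_lit 219) (nat_lit 164)) (XT.lf (nat_lit 0) (nat_lit 1335066859457) (nat_lit 76) (nat_lit 1161728744416) (nat_lit 76) (nat_lit 1149657445147) (nat_lit 1) (nat_lit 4) (nat_lit 2) (nat_lit 5) (nat_lit 2) (nat_lit 4) (nat_lit 278) (nat_lit 219) (nat_lit 163)))))) (XT.nd (nat_lit 468) (nat_lit 0) (nat_lit 0) (XT.nd (nat_lit 234) (nat_lit 0) (nat_lit 0) (XT.nd (nat_lit 78) (nat_lit 0) (nat_lit 0) (XT.lf (nat_lit 0) (nat_lit 1563882159955) (nat_lit 76) (nat_lit 1320218313953) (nat_lit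 76) (nat_lit 1308146386276) (nat_lit 1) (nat_lit 4) (nat_lit 2) (nat_lit 5) (nat_lit 2) (nat_lit 4) (nat_lit 279) (nat_lit 219) (nat_lit 162)) (XT.nd (nat_lit 78) (nat_lit 0) (nat_lit 0) (XT.lf (nat_lit 0) (nat_lit 1827016979540) (nat_lit 76) (nat_lit 1502482675873) (nat_lit 76) (nat_lit 1490410201754) (nat_lit 1) (nat_lit 4) (nat_lit 2) (nat_lit 5) (nat_lit 2) (nat_lit 4) (nat_lit 280) (nat_lit 219) (nat_lit 161)) (XT.lf (nat_lit 0) (nat_lit 2129619608161) (nat_lit 76) (nat_lit 1712087872039) (nat_lit 76) (nat_lit 1700014922753) (nat_lit 1) (nat_lit 4) (nat_lit 2) (nat_lit 5) (nat_lit 2) (nat_lit 4) (nat_lit 281) (nat_lit 219) (nat_lit 160)))) (XT.nd (nat_lit 78) (nat_lit 0) (nat_lit 0) (XT.lf (nat_lit 0) (nat_lit 2477610532030) (nat_lit 76) (nat_lit 1953134873680) (nat_lit 76) (nat_lit 1941061511206) (nat_lit 1) (nat_lit 4) (nat_lit 2) (nat_lit 5) (nat_lit 2) (nat_lit 4) (nat_lit 282)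 (nat_lit 219) (nat_lit 159)) (XT.nd (nat_lit 78) (nat_lit 0) (nat_lit 0) (XT.lf (nat_lit 0) (nat_lit 2877798269223) (nat_lit 76) (nat_lit 2230339817785) (nat_lit 76) (nat_lit 2218266096017) (nat_lit 1) (nat_lit 4) (nat_lit 2) (nat_lit 5) (nat_lit 2) (nat_lit 4) (nat_lit 283) (nat_lit 219) (nat_lit 158)) (XT.lf (nat_lit 0) (nat_lit 3338012579815) (nat_lit 76) (nat_lit 2549126279348) (nat_lit 76) (nat_lit 2537052245150) (nat_lit 1) (nat_lit 4) (nat_lit 2) (nat_lit 5) (nat_lit 2) (nat_lit 4) (nat_lit 284) (nat_lit 219) (nat_lit 157))))) (XT.nd (nat_lit 29328) (nat_lit 0) (nat_lit 4712) (XT.nd (nat_lit 78) (nat_lit 0) (nat_lit 0) (XT.lf (nat_lit 0) (nat_lit 3867257656840) (nat_lit 76) (nat_lit 2915731384790) (nat_lit 76) (nat_lit 2903657078914) (nat_lit 1) (nat_lit 4) (nat_lit 2) (nat_lit 5) (nat_lit 2) (nat_lit 4) (nat_lit 285) (nat_lit 219) (nat_lit 156)) (XT.nd (nat_lit 78) (nat_lit 0)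 (nat_lit 0) (XT.lf (nat_lit 0) (nat_lit 4475888295282) (nat_lit 76) (nat_lit 3337327842696) (nat_lit 76) (nat_lit 3325253300578) (nat_lit 1) (nat_lit 4) (nat_lit 2) (nat_lit 5) (nat_lit 2) (nat_lit 4) (nat_lit 286) (nat_lit 219) (nat_lit 155)) (XT.lf (nat_lit 0) (nat_lit 5175812485894) (nat_lit 76) (nat_lit 3822164279417) (nat_lit 76) (nat_lit 3810089531871) (nat_lit 1) (nat_lit 4) (nat_lit 2) (nat_lit 5) (nat_lit 2) (nat_lit 4) (nat_lit 287) (nat_lit 219) (nat_lit 154)))) (XT.nd (nat_lit 156) (nat_lit 380) (nat_lit 0) (XT.nd (nat_lit 78) (nat_lit 76) (nat_lit 0) (XT.lf (nat_lit 0) (nat_lit 1073741823) (nat_lit 0) (nat_lit 0) (nat_lit 0) (nat_lit 0) (nat_lit 69) (nat_lit 0) (nat_lit 1) (nat_lit 0) (nat_lit 1) (nat_lit 0) (nat_lit 220) (nat_lit 220) (nat_lit 220)) (XT.lf (nat_lit 0) (nat_lit 5313446429) (nat_lit 76) (nat_lit 772687958) (nat_lit 0) (nat_lit 387072256) (nat_lit 68) (nat_lit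 5) (nat_lit 69) (nat_lit 0) (nat_lit 68) (nat_lit 4) (nat_lit 221) (nat_lit 220) (nat_lit 219))) (XT.nd (nat_lit 78) (nat_lit 228) (nat_lit 0) (XT.lf (nat_lit 0) (nat_lit 3842249305) (nat_lit 152) (nat_lit 1218299245) (nat_lit 76) (nat_lit 1509255473) (nat_lit 66) (nat_lit 5) (nat_lit 68) (nat_lit 5) (nat_lit 67) (nat_lit 4) (nat_lit 222) (nat_lit 220) (nat_lit 218)) (XT.lf (nat_lit 0) (nat_lit 1989897040) (nat_lit 228) (nat_lit 1351765053) (nat_lit 76) (nat_lit 3392177196) (nat_lit 63) (nat_lit 5) (nat_lit 66) (nat_lit 5) (nat_lit 64) (nat_lit 5) (nat_lit 223) (nat_lit 220) (nat_lit 217))))))) (XT.nd (nat_lit 1014) (nat_lit 988) (nat_lit 0) (XT.nd (nat_lit 468) (nat_lit 1140) (nat_lit 0) (XT.nd (nat_lit 234) (nat_lit 1216) (nat_lit 0) (XT.nd (nat_lit 78) (nat_lit 836) (nat_lit 0) (XT.lf (nat_lit 0) (nat_lit 5778420072) (nat_lit 228) (nat_lit 881459332) (nat_lit 304) (nat_lit 307576843)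 (nat_lit 60) (nat_lit 5) (nat_lit 63) (nat_lit 5) (nat_lit 64) (nat_lit 5) (nat_lit 224) (nat_lit 220) (nat_lit 216)) (XT.nd (nat_lit 78) (nat_lit 456) (nat_lit 0) (XT.lf (nat_lit 0) (nat_lit 4103888768) (nat_lit 380) (nat_lit 846941702) (nat_lit 76) (nat_lit 2314645356) (nat_lit 55) (nat_lit 5) (nat_lit 60) (nat_lit 5) (nat_lit 56) (nat_lit 5) (nat_lit 225) (nat_lit 220) (nat_lit 215)) (XT.lf (nat_lit 0) (nat_lit 1077538027) (nat_lit 456) (nat_lit 258536077) (nat_lit 76) (nat_lit 6302240139) (nat_lit 49) (nat_lit 5) (nat_lit 55) (nat_lit 5) (nat_lit 50) (nat_lit 5) (nat_lit 226) (nat_lit 220) (nat_lit 214)))) (XT.nd (nat_lit 78) (nat_lit 532) (nat_lit 0) (XT.lf (nat_lit 0) (nat_lit 482887554) (nat_lit 228) (nat_lit 5038793948) (nat_lit 304) (nat_lit 2560099084) (nat_lit 40) (nat_lit 5) (nat_lit 43) (nat_lit 5) (nat_lit 44) (nat_lit 5) (nat_lit 227) (nat_lit 220) (nat_lit 213)) (XT.nd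 (nat_lit 78) (nat_lit 228) (nat_lit 0) (XT.lf (nat_lit 0) (nat_lit 1420759352) (nat_lit 228) (nat_lit 296947119) (nat_lit 304) (nat_lit 6889238328) (nat_lit 36) (nat_lit 5) (nat_lit 39) (nat_lit 5) (nat_lit 40) (nat_lit 5) (nat_lit 228) (nat_lit 220) (nat_lit 212)) (XT.lf (nat_lit 0) (nat_lit 2392238292) (nat_lit 228) (nat_lit 4025010041) (nat_lit 304) (nat_lit 2795029545) (nat_lit 33) (nat_lit 5) (nat_lit 36) (nat_lit 5) (nat_lit 37) (nat_lit 5) (nat_lit 229) (nat_lit 220) (nat_lit 211))))) (XT.nd (nat_lit 234) (nat_lit 532) (nat_lit 0) (XT.nd (nat_lit 78) (nat_lit 380) (nat_lit 0) (XT.lf (nat_lit 0) (nat_lit 1725033322) (nat_lit 228) (nat_lit 6455789053) (nat_lit 76) (nat_lit 1732315864) (nat_lit 30) (nat_lit 5) (nat_lit 33) (nat_lit 5) (nat_lit 31) (nat_lit 5) (nat_lit 230) (nat_lit 220) (nat_lit 210)) (XT.nd (nat_lit 78) (nat_lit 228) (nat_lit 0) (XT.lf (nat_lit 0) (nat_lit 4471783710)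 (nat_lit 152) (nat_lit 2312232164) (nat_lit 228) (nat_lit 3928063768) (nat_lit 28) (nat_lit 5) (nat_lit 30) (nat_lit 5) (nat_lit 31) (nat_lit 5) (nat_lit 231) (nat_lit 220) (nat_lit 209)) (XT.lf (nat_lit 0) (nat_lit 990154726) (nat_lit 228) (nat_lit 6201145367) (nat_lit 76) (nat_lit 4432976921) (nat_lit 25) (nat_lit 5) (nat_lit 28) (nat_lit 5) (nat_lit 26) (nat_lit 5) (nat_lit 232) (nat_lit 220) (nat_lit 208)))) (XT.nd (nat_lit 156) (nat_lit 304) (nat_lit 0) (XT.nd (nat_lit 78) (nat_lit 76) (nat_lit 0) (XT.lf (nat_lit 0) (nat_lit 6189056291) (nat_lit 152) (nat_lit 293162330) (nat_lit 228) (nat_lit 6178038138) (nat_lit 23) (nat_lit 5) (nat_lit 25) (nat_lit 5) (nat_lit 26) (nat_lit 5) (nat_lit 233) (nat_lit 220) (nat_lit 207)) (XT.lf (nat_lit 0) (nat_lit 6642538936) (nat_lit 76) (nat_lit 6376498828) (nat_lit 152) (nat_lit 815451189) (nat_lit 22) (nat_lit 5) (nat_lit 23) (nat_lit 5) (nat_lit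 24) (nat_lit 4) (nat_lit 234) (nat_lit 220) (nat_lit 206))) (XT.nd (nat_lit 78) (nat_lit 76) (nat_lit 0) (XT.lf (nat_lit 0) (nat_lit 5196899002) (nat_lit 228) (nat_lit 8519901518) (nat_lit 76) (nat_lit 1449140350) (nat_lit 19) (nat_lit 5) (nat_lit 22) (nat_lit 5) (nat_lit 20) (nat_lit 4) (nat_lit 235) (nat_lit 220) (nat_lit 205)) (XT.lf (nat_lit 0) (nat_lit 5978076413) (nat_lit 76) (nat_lit 6358840449) (nat_lit 152) (nat_lit 4336943222) (nat_lit 18) (nat_lit 5) (nat_lit 19) (nat_lit 5) (nat_lit 20) (nat_lit 4) (nat_lit 236) (nat_lit 220) (nat_lit 204)))))) (XT.nd (nat_lit 468) (nat_lit 380) (nat_lit 0) (XT.nd (nat_lit 234) (nat_lit 304) (nat_lit 0) (XT.nd (nat_lit 78) (nat_lit 76) (nat_lit 0) (XT.lf (nat_lit 0) (nat_lit 2209995016) (nat_lit 228) (nat_lit 13912370169) (nat_lit 76) (nat_lit 2267618114) (nat_lit 15) (nat_lit 5) (nat_lit 18) (nat_lit 5) (nat_lit 16) (nat_lit 4) (nat_lit 237)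 (nat_lit 220) (nat_lit 203)) (XT.nd (nat_lit 78) (nat_lit 0) (nat_lit 0) (XT.lf (nat_lit 0) (nat_lit 1625650055) (nat_lit 76) (nat_lit 8173454897) (nat_lit 152) (nat_lit 10530314458) (nat_lit 14) (nat_lit 5) (nat_lit 15) (nat_lit 5) (nat_lit 16) (nat_lit 4) (nat_lit 238) (nat_lit 220) (nat_lit 202)) (XT.lf (nat_lit 0) (nat_lit 18757749779) (nat_lit 152) (nat_lit 2592260287) (nat_lit 0) (nat_lit 1191493798) (nat_lit 14) (nat_lit 5) (nat_lit 16) (nat_lit 4) (nat_lit 14) (nat_lit 4) (nat_lit 239) (nat_lit 220) (nat_lit 201)))) (XT.nd (nat_lit 78) (nat_lit 152) (nat_lit 0) (XT.lf (nat_lit 0) (nat_lit 4222162146) (nat_lit 152) (nat_lit 8957321528) (nat_lit 76) (nat_lit 11862755538) (nat_lit 12) (nat_lit 5) (nat_lit 14) (nat_lit 5) (nat_lit 13) (nat_lit 4) (nat_lit 240) (nat_lit 220) (nat_lit 200)) (XT.nd (nat_lit 78) (nat_lit 76) (nat_lit 0) (XT.lf (nat_lit 0) (nat_lit 9895072787) (nat_lit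 76) (nat_lit 3463132952) (nat_lit 152) (nat_lit 14539912854) (nat_lit 11) (nat_lit 5) (nat_lit 12) (nat_lit 5) (nat_lit 13) (nat_lit 4) (nat_lit 241) (nat_lit 220) (nat_lit 199)) (XT.lf (nat_lit 0) (nat_lit 503418141) (nat_lit 76) (nat_lit 23670214383) (nat_lit 76) (nat_lit 6984167056) (nat_lit 10) (nat_lit 4) (nat_lit 11) (nat_lit 5) (nat_lit 11) (nat_lit 4) (nat_lit 242) (nat_lit 220) (nat_lit 198))))) (XT.nd (nat_lit 234) (nat_lit 228) (nat_lit 0) (XT.nd (nat_lit 78) (nat_lit 76) (nat_lit 0) (XT.lf (nat_lit 0) (nat_lit 2107328467) (nat_lit 152) (nat_lit 12408227596) (nat_lit 76) (nat_lit 20348693249) (nat_lit 9) (nat_lit 5) (nat_lit 11) (nat_lit 5) (nat_lit 10) (nat_lit 4) (nat_lit 243) (nat_lit 220) (nat_lit 197)) (XT.nd (nat_lit 78) (nat_lit 0) (nat_lit 0) (XT.lf (nat_lit 0) (nat_lit 8576463628) (nat_lit 76) (nat_lit 3663732058) (nat_lit 152) (nat_lit 26864759724) (nat_lit 8) (nat_lit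 5) (nat_lit 9) (nat_lit 5) (nat_lit 10) (nat_lit 4) (nat_lit 244) (nat_lit 220) (nat_lit 196)) (XT.lf (nat_lit 0) (nat_lit 24357822478) (nat_lit 152) (nat_lit 10935370670) (nat_lit 0) (nat_lit 8651471831) (nat_lit 8) (nat_lit 5) (nat_lit 10) (nat_lit 4) (nat_lit 8) (nat_lit 4) (nat_lit 245) (nat_lit 220) (nat_lit 195)))) (XT.nd (nat_lit 156) (nat_lit 152) (nat_lit 0) (XT.nd (nat_lit 78) (nat_lit 0) (nat_lit 0) (XT.lf (nat_lit 0) (nat_lit 11898091225) (nat_lit 76) (nat_lit 26680022378) (nat_lit 76) (nat_lit 10909488722) (nat_lit 7) (nat_lit 4) (nat_lit 8) (nat_lit 5) (nat_lit 8) (nat_lit 4) (nat_lit 246) (nat_lit 220) (nat_lit 194)) (XT.lf (nat_lit 0) (nat_lit 38642590086) (nat_lit 76) (nat_lit 16513897727) (nat_lit 76) (nat_lit 687552759) (nat_lit 7) (nat_lit 4) (nat_lit 8) (nat_lit 5) (nat_lit 8) (nat_lit 4) (nat_lit 247) (nat_lit 220) (nat_lit 193))) (XT.nd (nat_lit 78) (nat_lit 0)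 (nat_lit 0) (XT.lf (nat_lit 0) (nat_lit 6127512726) (nat_lit 76) (nat_lit 4450559038) (nat_lit 152) (nat_lit 52549505814) (nat_lit 5) (nat_lit 5) (nat_lit 6) (nat_lit 5) (nat_lit 7) (nat_lit 4) (nat_lit 248) (nat_lit 220) (nat_lit 192)) (XT.lf (nat_lit 0) (nat_lit 24156835899) (nat_lit 152) (nat_lit 37873503647) (nat_lit 0) (nat_lit 9418800792) (nat_lit 5) (nat_lit 5) (nat_lit 7) (nat_lit 4) (nat_lit 5) (nat_lit 4) (nat_lit 249) (nat_lit 220) (nat_lit 191))))))))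
noncomputable def xc24 : XT := (XT.nd (nat_lit 1950) (nat_lit 0) (nat_lit 0) (XT.nd (nat_lit 936) (nat_lit 76) (nat_lit 0) (XT.nd (nat_lit 468) (nat_lit 0) (nat_lit 0) (XT.nd (nat_lit 234) (nat_lit 152) (nat_lit 0) (XT.nd (nat_lit 78) (nat_lit 76) (nat_lit 0) (XT.lf (nat_lit 0) (nat_lit 39828057070) (nat_lit 152) (nat_lit 16130424275) (nat_lit 0) (nat_lit 25056043404) (nat_lit 5) (nat_lit 5) (nat_lit 7) (nat_lit 4) (nat_lit 5) (nat_lit 4) (nat_lit 250) (nat_lit 220) (nat_lit 190)) (XT.nd (nat_lit 78) (nat_lit 0) (nat_lit 0) (XT.lf (nat_lit 0) (nat_lit 9222988632) (nat_lit 76) (nat_lit 48790134539) (nat_lit 76) (nat_lit 33988574301) (nat_lit 4) (nat_lit 4) (nat_lit 5) (nat_lit 5) (nat_lit 5) (nat_lit 4) (nat_lit 251) (nat_lit 220) (nat_lit 189)) (XT.lf (nat_lit 0) (nat_lit 39253245887) (nat_lit 76) (nat_lit 40088845482) (nat_lit 76) (nat_lit 25261592571) (nat_lit 4) (nat_lit 4) (nat_lit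 5) (nat_lit 5) (nat_lit 5) (nat_lit 4) (nat_lit 252) (nat_lit 220) (nat_lit 188)))) (XT.nd (nat_lit 78) (nat_lit 152) (nat_lit 0) (XT.lf (nat_lit 0) (nat_lit 73698496441) (nat_lit 76) (nat_lit 30125405947) (nat_lit 76) (nat_lit 15275811582) (nat_lit 4) (nat_lit 4) (nat_lit 5) (nat_lit 5) (nat_lit 5) (nat_lit 4) (nat_lit 253) (nat_lit 220) (nat_lit 187)) (XT.nd (nat_lit 78) (nat_lit 152) (nat_lit 0) (XT.lf (nat_lit 0) (nat_lit 113232669111) (nat_lit 76) (nat_lit 18704879073) (nat_lit 76) (nat_lit 3835857357) (nat_lit 4) (nat_lit 4) (nat_lit 5) (nat_lit 5) (nat_lit 5) (nat_lit 4) (nat_lit 254) (nat_lit 220) (nat_lit 186)) (XT.lf (nat_lit 0) (nat_lit 3636977240) (nat_lit 76) (nat_lit 5268259445) (nat_lit 152) (nat_lit 146020890048) (nat_lit 2) (nat_lit 5) (nat_lit 3) (nat_lit 5) (nat_lit 4) (nat_lit 4) (nat_lit 255) (nat_lit 220) (nat_lit 185))))) (XT.nd (nat_lit 234) (nat_lit 0) (nat_lit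 0) (XT.nd (nat_lit 78) (nat_lit 0) (nat_lit 0) (XT.lf (nat_lit 0) (nat_lit 24221383543) (nat_lit 152) (nat_lit 142226609147) (nat_lit 0) (nat_lit 10424527123) (nat_lit 2) (nat_lit 5) (nat_lit 4) (nat_lit 4) (nat_lit 2) (nat_lit 4) (nat_lit 256) (nat_lit 220) (nat_lit 184)) (XT.nd (nat_lit 78) (nat_lit 0) (nat_lit 0) (XT.lf (nat_lit 0) (nat_lit 41951389862) (nat_lit 152) (nat_lit 132007474597) (nat_lit 0) (nat_lit 28142705849) (nat_lit 2) (nat_lit 5) (nat_lit 4) (nat_lit 4) (nat_lit 2) (nat_lit 4) (nat_lit 257) (nat_lit 220) (nat_lit 183)) (XT.lf (nat_lit 0) (nat_lit 62315445302) (nat_lit 152) (nat_lit 120305104487) (nat_lit 0) (nat_lit 48496476427) (nat_lit 2) (nat_lit 5) (nat_lit 4) (nat_lit 4) (nat_lit 2) (nat_lit 4) (nat_lit 258) (nat_lit 220) (nat_lit 182)))) (XT.nd (nat_lit 78) (nat_lit 0) (nat_lit 0) (XT.lf (nat_lit 0) (nat_lit 85711977035) (nat_lit 152) (nat_lit 106890539402) (nat_lit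 0) (nat_lit 71884064802) (nat_lit 2) (nat_lit 5) (nat_lit 4) (nat_lit 4) (nat_lit 2) (nat_lit 4) (nat_lit 259) (nat_lit 220) (nat_lit 181)) (XT.nd (nat_lit 78) (nat_lit 0) (nat_lit 0) (XT.lf (nat_lit 0) (nat_lit 112598743291) (nat_lit 152) (nat_lit 91501320459) (nat_lit 0) (nat_lit 98763054225) (nat_lit 2) (nat_lit 5) (nat_lit 4) (nat_lit 4) (nat_lit 2) (nat_lit 4) (nat_lit 260) (nat_lit 220) (nat_lit 180)) (XT.lf (nat_lit 0) (nat_lit 143501789497) (nat_lit 152) (nat_lit 73836354246) (nat_lit 0) (nat_lit 129659337966) (nat_lit 2) (nat_lit 5) (nat_lit 4) (nat_lit 4) (nat_lit 2) (nat_lit 4) (nat_lit 261) (nat_lit 220) (nat_lit 179)))))) (XT.nd (nat_lit 468) (nat_lit 0) (nat_lit 0) (XT.nd (nat_lit 234) (nat_lit 76) (nat_lit 0) (XT.nd (nat_lit 78) (nat_lit 0) (nat_lit 0) (XT.lf (nat_lit 0) (nat_lit 179025740469) (nat_lit 152) (nat_lit 53550021858) (nat_lit 0) (nat_lit 165177408536) (nat_lit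 2) (nat_lit 5) (nat_lit 4) (nat_lit 4) (nat_lit 2) (nat_lit 4) (nat_lit 262) (nat_lit 220) (nat_lit 178)) (XT.nd (nat_lit 78) (nat_lit 0) (nat_lit 0) (XT.lf (nat_lit 0) (nat_lit 219865630032) (nat_lit 152) (nat_lit 30245416791) (nat_lit 0) (nat_lit 206012184704) (nat_lit 2) (nat_lit 5) (nat_lit 4) (nat_lit 4) (nat_lit 2) (nat_lit 4) (nat_lit 263) (nat_lit 220) (nat_lit 177)) (XT.lf (nat_lit 0) (nat_lit 266820499502) (nat_lit 152) (nat_lit 3466579381) (nat_lit 0) (nat_lit 252962607745) (nat_lit 2) (nat_lit 5) (nat_lit 4) (nat_lit 4) (nat_lit 2) (nat_lit 4) (nat_lit 264) (nat_lit 220) (nat_lit 176)))) (XT.nd (nat_lit 78) (nat_lit 0) (nat_lit 0) (XT.lf (nat_lit 0) (nat_lit 28748542684) (nat_lit 76) (nat_lit 292751891568) (nat_lit 76) (nat_lit 278890133349) (nat_lit 1) (nat_lit 4) (nat_lit 2) (nat_lit 5) (nat_lit 2) (nat_lit 4) (nat_lit 265) (nat_lit 220) (nat_lit 175)) (XT.nd (nat_lit 78)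 (nat_lit 0) (nat_lit 0) (XT.lf (nat_lit 0) (nat_lit 65988778516) (nat_lit 76) (nat_lit 318485775404) (nat_lit 76) (nat_lit 304620655046) (nat_lit 1) (nat_lit 4) (nat_lit 2) (nat_lit 5) (nat_lit 2) (nat_lit 4) (nat_lit 266) (nat_lit 220) (nat_lit 174)) (XT.lf (nat_lit 0) (nat_lit 108800197496) (nat_lit 76) (nat_lit 348087001848) (nat_lit 76) (nat_lit 334218957890) (nat_lit 1) (nat_lit 4) (nat_lit 2) (nat_lit 5) (nat_lit 2) (nat_lit 4) (nat_lit 267) (nat_lit 220) (nat_lit 173))))) (XT.nd (nat_lit 234) (nat_lit 0) (nat_lit 0) (XT.nd (nat_lit 78) (nat_lit 0) (nat_lit 0) (XT.lf (nat_lit 0) (nat_lit 158020414343) (nat_lit 76) (nat_lit 382134725331) (nat_lit 76) (nat_lit 368264139112) (nat_lit 1) (nat_lit 4) (nat_lit 2) (nat_lit 5) (nat_lit 2) (nat_lit 4) (nat_lit 268) (nat_lit 220) (nat_lit 172)) (XT.nd (nat_lit 78) (nat_lit 0) (nat_lit 0) (XT.lf (nat_lit 0) (nat_lit 214612433302) (nat_lit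 76) (nat_lit 421295096963) (nat_lit 76) (nat_lit 407422300083) (nat_lit 1) (nat_lit 4) (nat_lit 2) (nat_lit 5) (nat_lit 2) (nat_lit 4) (nat_lit 269) (nat_lit 220) (nat_lit 171)) (XT.lf (nat_lit 0) (nat_lit 279683489524) (nat_lit 76) (nat_lit 466334297929) (nat_lit 76) (nat_lit 452459578735) (nat_lit 1) (nat_lit 4) (nat_lit 2) (nat_lit 5) (nat_lit 2) (nat_lit 4) (nat_lit 270) (nat_lit 220) (nat_lit 170)))) (XT.nd (nat_lit 156) (nat_lit 0) (nat_lit 0) (XT.nd (nat_lit 78) (nat_lit 0) (nat_lit 0) (XT.lf (nat_lit 0) (nat_lit 354506712371) (nat_lit 76) (nat_lit 518133529987) (nat_lit 76) (nat_lit 504257139215) (nat_lit 1) (nat_lit 4) (nat_lit 2) (nat_lit 5) (nat_lit 2) (nat_lit 4) (nat_lit 271) (nat_lit 220) (nat_lit 169)) (XT.lf (nat_lit 0) (nat_lit 440546034464) (nat_lit 76) (nat_lit 577706256373) (nat_lit 76) (nat_lit 563828412055) (nat_lit 1) (nat_lit 4) (nat_lit 2) (nat_lit 5) (nat_lit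 2) (nat_lit 4) (nat_lit 272) (nat_lit 220) (nat_lit 168))) (XT.nd (nat_lit 78) (nat_lit 0) (nat_lit 0) (XT.lf (nat_lit 0) (nat_lit 539484833843) (nat_lit 76) (nat_lit 646218030429) (nat_lit 76) (nat_lit 632338922159) (nat_lit 1) (nat_lit 4) (nat_lit 2) (nat_lit 5) (nat_lit 2) (nat_lit 4) (nat_lit 273) (nat_lit 220) (nat_lit 167)) (XT.lf (nat_lit 0) (nat_lit 653258869628) (nat_lit 76) (nat_lit 725009299909) (nat_lit 76) (nat_lit 711129092549) (nat_lit 1) (nat_lit 4) (nat_lit 2) (nat_lit 5) (nat_lit 2) (nat_lit 4) (nat_lit 274) (nat_lit 220) (nat_lit 166))))))) (XT.nd (nat_lit 936) (nat_lit 0) (nat_lit 0) (XT.nd (nat_lit 468) (nat_lit 0) (nat_lit 0) (XT.nd (nat_lit 234) (nat_lit 0) (nat_lit 0) (XT.nd (nat_lit 78) (nat_lit 0) (nat_lit 0) (XT.lf (nat_lit 0) (nat_lit 784094155561) (nat_lit 76) (nat_lit 815621633128) (nat_lit 76) (nat_lit 801740470038) (nat_lit 1) (nat_lit 4) (nat_lit 2) (nat_lit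 5) (nat_lit 2) (nat_lit 4) (nat_lit 275) (nat_lit 220) (nat_lit 165)) (XT.nd (nat_lit 78) (nat_lit 0) (nat_lit 0) (XT.lf (nat_lit 0) (nat_lit 934550512455) (nat_lit 76) (nat_lit 919827880084) (nat_lit 76) (nat_lit 905945885924) (nat_lit 1) (nat_lit 4) (nat_lit 2) (nat_lit 5) (nat_lit 2) (nat_lit 4) (nat_lit 276) (nat_lit 220) (nat_lit 164)) (XT.lf (nat_lit 0) (nat_lit 1107571651639) (nat_lit 76) (nat_lit 1039666858652) (nat_lit 76) (nat_lit 1025784141823) (nat_lit 1) (nat_lit 4) (nat_lit 2) (nat_lit 5) (nat_lit 2) (nat_lit 4) (nat_lit 277) (nat_lit 220) (nat_lit 163)))) (XT.nd (nat_lit 78) (nat_lit 0) (nat_lit 0) (XT.lf (nat_lit 0) (nat_lit 1306542769316) (nat_lit 76) (nat_lit 1177483244500) (nat_lit 76) (nat_lit 1163599899264) (nat_lit 1) (nat_lit 4) (nat_lit 2) (nat_lit 5) (nat_lit 2) (nat_lit 4) (nat_lit 278) (nat_lit 220) (nat_lit 162)) (XT.nd (nat_lit 78) (nat_lit 0) (nat_lit 0)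 (XT.lf (nat_lit 0) (nat_lit 1535356778657) (nat_lit 76) (nat_lit 1335973445178) (nat_lit 76) (nat_lit 1322089553499) (nat_lit 1) (nat_lit 4) (nat_lit 2) (nat_lit 5) (nat_lit 2) (nat_lit 4) (nat_lit 279) (nat_lit 220) (nat_lit 161)) (XT.lf (nat_lit 0) (nat_lit 1798490475497) (nat_lit 76) (nat_lit 1518238355915) (nat_lit 76) (nat_lit 1504353989070) (nat_lit 1) (nat_lit 4) (nat_lit 2) (nat_lit 5) (nat_lit 2) (nat_lit 4) (nat_lit 280) (nat_lit 220) (nat_lit 160))))) (XT.nd (nat_lit 234) (nat_lit 0) (nat_lit 0) (XT.nd (nat_lit 78) (nat_lit 0) (nat_lit 0) (XT.lf (nat_lit 0) (nat_lit 2101092127818) (nat_lit 76) (nat_lit 1727844029314) (nat_lit 76) (nat_lit 1713959249280) (nat_lit 1) (nat_lit 4) (nat_lit 2) (nat_lit 5) (nat_lit 2) (nat_lit 4) (nat_lit 281) (nat_lit 220) (nat_lit 159)) (XT.nd (nat_lit 78) (nat_lit 0) (nat_lit 0) (XT.lf (nat_lit 0) (nat_lit 2449082202731) (nat_lit 76) (nat_lit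 1968891445940) (nat_lit 76) (nat_lit 1955006306612) (nat_lit 1) (nat_lit 4) (nat_lit 2) (nat_lit 5) (nat_lit 2) (nat_lit 4) (nat_lit 282) (nat_lit 220) (nat_lit 158)) (XT.lf (nat_lit 0) (nat_lit 2849269201700) (nat_lit 76) (nat_lit 2246096750902) (nat_lit 76) (nat_lit 2232211299144) (nat_lit 1) (nat_lit 4) (nat_lit 2) (nat_lit 5) (nat_lit 2) (nat_lit 4) (nat_lit 283) (nat_lit 220) (nat_lit 157)))) (XT.nd (nat_lit 78) (nat_lit 0) (nat_lit 0) (XT.lf (nat_lit 0) (nat_lit 3309482870359) (nat_lit 76) (nat_lit 2564883526253) (nat_lit 76) (nat_lit 2550997802817) (nat_lit 1) (nat_lit 4) (nat_lit 2) (nat_lit 5) (nat_lit 2) (nat_lit 4) (nat_lit 284) (nat_lit 220) (nat_lit 156)) (XT.nd (nat_lit 78) (nat_lit 0) (nat_lit 0) (XT.lf (nat_lit 0) (nat_lit 3838727389181) (nat_lit 76) (nat_lit 2931488904554) (nat_lit 76) (nat_lit 2917602944877) (nat_lit 1) (nat_lit 4) (nat_lit 2) (nat_lit 5) (nat_lit 2)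 (nat_lit 4) (nat_lit 285) (nat_lit 220) (nat_lit 155)) (XT.lf (nat_lit 0) (nat_lit 4447357542230) (nat_lit 76) (nat_lit 3353085599730) (nat_lit 76) (nat_lit 3339199434624) (nat_lit 1) (nat_lit 4) (nat_lit 2) (nat_lit 5) (nat_lit 2) (nat_lit 4) (nat_lit 286) (nat_lit 220) (nat_lit 154)))))) (XT.nd (nat_lit 29640) (nat_lit 0) (nat_lit 2052) (XT.nd (nat_lit 29406) (nat_lit 0) (nat_lit 4104) (XT.nd (nat_lit 29250) (nat_lit 0) (nat_lit 4636) (XT.lf (nat_lit 0) (nat_lit 5147281310760) (nat_lit 76) (nat_lit 3837922242771) (nat_lit 76) (nat_lit 3824035899033) (nat_lit 1) (nat_lit 4) (nat_lit 2) (nat_lit 5) (nat_lit 2) (nat_lit 4) (nat_lit 287) (nat_lit 220) (nat_lit 153)) (XT.nd (nat_lit 78) (nat_lit 228) (nat_lit 0) (XT.lf (nat_lit 0) (nat_lit 1721895699) (nat_lit 228) (nat_lit 773041827) (nat_lit 228) (nat_lit 773041827) (nat_lit 65) (nat_lit 3) (nat_lit 68) (nat_lit 3) (nat_lit 68) (nat_lit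 5) (nat_lit 221) (nat_lit 221) (nat_lit 218)) (XT.lf (nat_lit 0) (nat_lit 1208352606) (nat_lit 228) (nat_lit 2384629282) (nat_lit 304) (nat_lit 3072545597) (nat_lit 62) (nat_lit 5) (nat_lit 65) (nat_lit 3) (nat_lit 66) (nat_lit 5) (nat_lit 222) (nat_lit 221) (nat_lit 217)))) (XT.nd (nat_lit 78) (nat_lit 532) (nat_lit 0) (XT.lf (nat_lit 76) (nat_lit 3909647458) (nat_lit 0) (nat_lit 1437801460) (nat_lit 304) (nat_lit 1513687452) (nat_lit 63) (nat_lit 5) (nat_lit 62) (nat_lit 5) (nat_lit 66) (nat_lit 5) (nat_lit 223) (nat_lit 221) (nat_lit 216)) (XT.nd (nat_lit 78) (nat_lit 304) (nat_lit 0) (XT.lf (nat_lit 0) (nat_lit 2372254457) (nat_lit 304) (nat_lit 3295463361) (nat_lit 76) (nat_lit 1454932160) (nat_lit 59) (nat_lit 5) (nat_lit 63) (nat_lit 5) (nat_lit 60) (nat_lit 5) (nat_lit 224) (nat_lit 221) (nat_lit 215)) (XT.lf (nat_lit 0) (nat_lit 4021194157) (nat_lit 304) (nat_lit 2344068253)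 (nat_lit 380) (nat_lit 1088089207) (nat_lit 55) (nat_lit 5) (nat_lit 59) (nat_lit 5) (nat_lit 60) (nat_lit 5) (nat_lit 225) (nat_lit 221) (nat_lit 214))))) (XT.nd (nat_lit 234) (nat_lit 836) (nat_lit 0) (XT.nd (nat_lit 78) (nat_lit 760) (nat_lit 0) (XT.lf (nat_lit 0) (nat_lit 2658651840) (nat_lit 456) (nat_lit 3418605749) (nat_lit 76) (nat_lit 1776863570) (nat_lit 49) (nat_lit 5) (nat_lit 55) (nat_lit 5) (nat_lit 50) (nat_lit 5) (nat_lit 226) (nat_lit 221) (nat_lit 213)) (XT.nd (nat_lit 78) (nat_lit 304) (nat_lit 0) (XT.lf (nat_lit 0) (nat_lit 5065518758) (nat_lit 456) (nat_lit 1632777141) (nat_lit 532) (nat_lit 1632371380) (nat_lit 43) (nat_lit 5) (nat_lit 49) (nat_lit 5) (nat_lit 50) (nat_lit 5) (nat_lit 227) (nat_lit 221) (nat_lit 212)) (XT.lf (nat_lit 0) (nat_lit 2223900281) (nat_lit 304) (nat_lit 3049383338) (nat_lit 76) (nat_lit 3611352509) (nat_lit 39) (nat_lit 5) (nat_lit 43)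 (nat_lit 5) (nat_lit 40) (nat_lit 5) (nat_lit 228) (nat_lit 221) (nat_lit 211)))) (XT.nd (nat_lit 156) (nat_lit 304) (nat_lit 0) (XT.nd (nat_lit 78) (nat_lit 304) (nat_lit 0) (XT.lf (nat_lit 0) (nat_lit 6472411246) (nat_lit 304) (nat_lit 2757827805) (nat_lit 76) (nat_lit 296316599) (nat_lit 36) (nat_lit 5) (nat_lit 40) (nat_lit 5) (nat_lit 37) (nat_lit 5) (nat_lit 229) (nat_lit 221) (nat_lit 210)) (XT.lf (nat_lit 0) (nat_lit 1099700417) (nat_lit 304) (nat_lit 2504960276) (nat_lit 76) (nat_lit 6653994033) (nat_lit 32) (nat_lit 5) (nat_lit 36) (nat_lit 5) (nat_lit 33) (nat_lit 5) (nat_lit 230) (nat_lit 221) (nat_lit 209))) (XT.nd (nat_lit 78) (nat_lit 152) (nat_lit 0) (XT.lf (nat_lit 0) (nat_lit 5737244066) (nat_lit 228) (nat_lit 2328494732) (nat_lit 76) (nat_lit 3025925290) (nat_lit 30) (nat_lit 5) (nat_lit 33) (nat_lit 5) (nat_lit 31) (nat_lit 5) (nat_lit 231) (nat_lit 221) (nat_lit 208))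 (XT.lf (nat_lit 0) (nat_lit 9806891480) (nat_lit 152) (nat_lit 1370778831) (nat_lit 228) (nat_lit 864034133) (nat_lit 28) (nat_lit 5) (nat_lit 30) (nat_lit 5) (nat_lit 31) (nat_lit 5) (nat_lit 232) (nat_lit 221) (nat_lit 207))))))))
noncomputable def xc25 : XT := (XT.nd (nat_lit 1950) (nat_lit 76) (nat_lit 0) (XT.nd (nat_lit 936) (nat_lit 532) (nat_lit 0) (XT.nd (nat_lit 468) (nat_lit 456) (nat_lit 0) (XT.nd (nat_lit 234) (nat_lit 456) (nat_lit 0) (XT.nd (nat_lit 78) (nat_lit 304) (nat_lit 0) (XT.lf (nat_lit 0) (nat_lit 4295046718) (nat_lit 228) (nat_lit 2464498493) (nat_lit 76) (nat_lit 6350144865) (nat_lit 25) (nat_lit 5) (nat_lit 28) (nat_lit 5) (nat_lit 26) (nat_lit 5) (nat_lit 233) (nat_lit 221) (nat_lit 206)) (XT.nd (nat_lit 78) (nat_lit 152) (nat_lit 0) (XT.lf (nat_lit 0) (nat_lit 10328105191) (nat_lit 228) (nat_lit 2963467842) (nat_lit 76) (nat_lit 1032864908) (nat_lit 23) (nat_lit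 5) (nat_lit 26) (nat_lit 5) (nat_lit 24) (nat_lit 4) (nat_lit 234) (nat_lit 221) (nat_lit 205)) (XT.lf (nat_lit 0) (nat_lit 1785095476) (nat_lit 152) (nat_lit 4011358606) (nat_lit 76) (nat_lit 9896932163) (nat_lit 21) (nat_lit 5) (nat_lit 23) (nat_lit 5) (nat_lit 22) (nat_lit 5) (nat_lit 235) (nat_lit 221) (nat_lit 204)))) (XT.nd (nat_lit 78) (nat_lit 304) (nat_lit 0) (XT.lf (nat_lit 0) (nat_lit 8431686051) (nat_lit 228) (nat_lit 5757651415) (nat_lit 76) (nat_lit 3051592576) (nat_lit 19) (nat_lit 5) (nat_lit 22) (nat_lit 5) (nat_lit 20) (nat_lit 4) (nat_lit 236) (nat_lit 221) (nat_lit 203)) (XT.nd (nat_lit 78) (nat_lit 228) (nat_lit 0) (XT.lf (nat_lit 0) (nat_lit 10573037408) (nat_lit 76) (nat_lit 5838361885) (nat_lit 152) (nat_lit 2582596573) (nat_lit 18) (nat_lit 5) (nat_lit 19) (nat_lit 5) (nat_lit 20) (nat_lit 4) (nat_lit 237) (nat_lit 221) (nat_lit 202)) (XT.lf (nat_lit 0) (nat_lit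 4646538793) (nat_lit 228) (nat_lit 12367557449) (nat_lit 76) (nat_lit 3963543278) (nat_lit 15) (nat_lit 5) (nat_lit 18) (nat_lit 5) (nat_lit 16) (nat_lit 4) (nat_lit 238) (nat_lit 221) (nat_lit 201))))) (XT.nd (nat_lit 234) (nat_lit 228) (nat_lit 0) (XT.nd (nat_lit 78) (nat_lit 152) (nat_lit 0) (XT.lf (nat_lit 0) (nat_lit 5193763180) (nat_lit 76) (nat_lit 7985629683) (nat_lit 152) (nat_lit 10044485937) (nat_lit 14) (nat_lit 5) (nat_lit 15) (nat_lit 5) (nat_lit 16) (nat_lit 4) (nat_lit 239) (nat_lit 221) (nat_lit 200)) (XT.nd (nat_lit 78) (nat_lit 76) (nat_lit 0) (XT.lf (nat_lit 0) (nat_lit 15517042) (nat_lit 76) (nat_lit 23247072855) (nat_lit 76) (nat_lit 2523002074) (nat_lit 13) (nat_lit 4) (nat_lit 14) (nat_lit 5) (nat_lit 14) (nat_lit 4) (nat_lit 240) (nat_lit 221) (nat_lit 199)) (XT.lf (nat_lit 0) (nat_lit 6433126944) (nat_lit 152) (nat_lit 7474102698) (nat_lit 76) (nat_lit 14763650107)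 (nat_lit 12) (nat_lit 5) (nat_lit 14) (nat_lit 5) (nat_lit 13) (nat_lit 4) (nat_lit 241) (nat_lit 221) (nat_lit 198)))) (XT.nd (nat_lit 78) (nat_lit 152) (nat_lit 0) (XT.lf (nat_lit 0) (nat_lit 13966874779) (nat_lit 76) (nat_lit 2829153529) (nat_lit 152) (nat_lit 15170790209) (nat_lit 11) (nat_lit 5) (nat_lit 12) (nat_lit 5) (nat_lit 13) (nat_lit 4) (nat_lit 242) (nat_lit 221) (nat_lit 197)) (XT.nd (nat_lit 78) (nat_lit 76) (nat_lit 0) (XT.lf (nat_lit 0) (nat_lit 3028254611) (nat_lit 76) (nat_lit 26101487517) (nat_lit 76) (nat_lit 6594200014) (nat_lit 10) (nat_lit 4) (nat_lit 11) (nat_lit 5) (nat_lit 11) (nat_lit 4) (nat_lit 243) (nat_lit 221) (nat_lit 196)) (XT.lf (nat_lit 0) (nat_lit 3610973755) (nat_lit 152) (nat_lit 12076177388) (nat_lit 76) (nat_lit 24310828343) (nat_lit 9) (nat_lit 5) (nat_lit 11) (nat_lit 5) (nat_lit 10) (nat_lit 4) (nat_lit 244) (nat_lit 221) (nat_lit 195))))))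 (XT.nd (nat_lit 468) (nat_lit 228) (nat_lit 0) (XT.nd (nat_lit 234) (nat_lit 152) (nat_lit 0) (XT.nd (nat_lit 78) (nat_lit 76) (nat_lit 0) (XT.lf (nat_lit 0) (nat_lit 11870566924) (nat_lit 76) (nat_lit 3286590467) (nat_lit 152) (nat_lit 29726281055) (nat_lit 8) (nat_lit 5) (nat_lit 9) (nat_lit 5) (nat_lit 10) (nat_lit 4) (nat_lit 245) (nat_lit 221) (nat_lit 194)) (XT.nd (nat_lit 78) (nat_lit 76) (nat_lit 0) (XT.lf (nat_lit 0) (nat_lit 28970817191) (nat_lit 152) (nat_lit 10773409456) (nat_lit 0) (nat_lit 10714709165) (nat_lit 8) (nat_lit 5) (nat_lit 10) (nat_lit 4) (nat_lit 8) (nat_lit 4) (nat_lit 246) (nat_lit 221) (nat_lit 193)) (XT.lf (nat_lit 0) (nat_lit 15332518814) (nat_lit 76) (nat_lit 29906179960) (nat_lit 76) (nat_lit 11601540358) (nat_lit 7) (nat_lit 4) (nat_lit 8) (nat_lit 5) (nat_lit 8) (nat_lit 4) (nat_lit 247) (nat_lit 221) (nat_lit 192)))) (XT.nd (nat_lit 78) (nat_lit 76)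 (nat_lit 0) (XT.lf (nat_lit 0) (nat_lit 28980997) (nat_lit 152) (nat_lit 18286560497) (nat_lit 76) (nat_lit 45843739040) (nat_lit 6) (nat_lit 5) (nat_lit 8) (nat_lit 5) (nat_lit 7) (nat_lit 4) (nat_lit 248) (nat_lit 221) (nat_lit 191)) (XT.nd (nat_lit 78) (nat_lit 0) (nat_lit 0) (XT.lf (nat_lit 0) (nat_lit 8397787390) (nat_lit 76) (nat_lit 4477849728) (nat_lit 152) (nat_lit 59663792786) (nat_lit 5) (nat_lit 5) (nat_lit 6) (nat_lit 5) (nat_lit 7) (nat_lit 4) (nat_lit 249) (nat_lit 221) (nat_lit 190)) (XT.lf (nat_lit 0) (nat_lit 28411886201) (nat_lit 152) (nat_lit 42343196150) (nat_lit 0) (nat_lit 11360545354) (nat_lit 5) (nat_lit 5) (nat_lit 7) (nat_lit 4) (nat_lit 5) (nat_lit 4) (nat_lit 250) (nat_lit 221) (nat_lit 189))))) (XT.nd (nat_lit 234) (nat_lit 152) (nat_lit 0) (XT.nd (nat_lit 78) (nat_lit 76) (nat_lit 0) (XT.lf (nat_lit 0) (nat_lit 46351417733) (nat_lit 152) (nat_lit 17496654835)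 (nat_lit 0) (nat_lit 29274384213) (nat_lit 5) (nat_lit 5) (nat_lit 7) (nat_lit 4) (nat_lit 5) (nat_lit 4) (nat_lit 251) (nat_lit 221) (nat_lit 188)) (XT.nd (nat_lit 78) (nat_lit 0) (nat_lit 0) (XT.lf (nat_lit 0) (nat_lit 11570610610) (nat_lit 76) (nat_lit 55645193005) (nat_lit 76) (nat_lit 38545818031) (nat_lit 4) (nat_lit 4) (nat_lit 5) (nat_lit 5) (nat_lit 5) (nat_lit 4) (nat_lit 252) (nat_lit 221) (nat_lit 187)) (XT.lf (nat_lit 0) (nat_lit 45979644668) (nat_lit 76) (nat_lit 45699162117) (nat_lit 76) (nat_lit 28580359792) (nat_lit 4) (nat_lit 4) (nat_lit 5) (nat_lit 5) (nat_lit 5) (nat_lit 4) (nat_lit 253) (nat_lit 221) (nat_lit 186)))) (XT.nd (nat_lit 156) (nat_lit 152) (nat_lit 0) (XT.nd (nat_lit 78) (nat_lit 0) (nat_lit 0) (XT.lf (nat_lit 0) (nat_lit 85482324732) (nat_lit 76) (nat_lit 34293773198) (nat_lit 76) (nat_lit 17158077523) (nat_lit 4) (nat_lit 4) (nat_lit 5) (nat_lit 5)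 (nat_lit 5) (nat_lit 4) (nat_lit 254) (nat_lit 221) (nat_lit 185)) (XT.lf (nat_lit 0) (nat_lit 130851529325) (nat_lit 76) (nat_lit 21205877333) (nat_lit 76) (nat_lit 4055491790) (nat_lit 4) (nat_lit 4) (nat_lit 5) (nat_lit 5) (nat_lit 5) (nat_lit 4) (nat_lit 255) (nat_lit 221) (nat_lit 184))) (XT.nd (nat_lit 78) (nat_lit 0) (nat_lit 0) (XT.lf (nat_lit 0) (nat_lit 4779263981) (nat_lit 76) (nat_lit 5769978000) (nat_lit 152) (nat_lit 167591001392) (nat_lit 2) (nat_lit 5) (nat_lit 3) (nat_lit 5) (nat_lit 4) (nat_lit 4) (nat_lit 256) (nat_lit 221) (nat_lit 183)) (XT.lf (nat_lit 0) (nat_lit 28128642132) (nat_lit 152) (nat_lit 163026162604) (nat_lit 0) (nat_lit 12226543064) (nat_lit 2) (nat_lit 5) (nat_lit 4) (nat_lit 4) (nat_lit 2) (nat_lit 4) (nat_lit 257) (nat_lit 221) (nat_lit 182))))))) (XT.nd (nat_lit 936) (nat_lit 0) (nat_lit 0) (XT.nd (nat_lit 468) (nat_lit 76) (nat_lit 0) (XT.nd (nat_lit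 234) (nat_lit 0) (nat_lit 0) (XT.nd (nat_lit 78) (nat_lit 0) (nat_lit 0) (XT.lf (nat_lit 0) (nat_lit 48482403608) (nat_lit 152) (nat_lit 151343867164) (nat_lit 0) (nat_lit 32571361182) (nat_lit 2) (nat_lit 5) (nat_lit 4) (nat_lit 4) (nat_lit 2) (nat_lit 4) (nat_lit 258) (nat_lit 221) (nat_lit 181)) (XT.nd (nat_lit 78) (nat_lit 0) (nat_lit 0) (XT.lf (nat_lit 0) (nat_lit 71869984068) (nat_lit 152) (nat_lit 137946758314) (nat_lit 0) (nat_lit 55951164808) (nat_lit 2) (nat_lit 5) (nat_lit 4) (nat_lit 4) (nat_lit 2) (nat_lit 4) (nat_lit 259) (nat_lit 221) (nat_lit 180)) (XT.lf (nat_lit 0) (nat_lit 98748966609) (nat_lit 152) (nat_lit 122572718707) (nat_lit 0) (nat_lit 82823384885) (nat_lit 2) (nat_lit 5) (nat_lit 4) (nat_lit 4) (nat_lit 2) (nat_lit 4) (nat_lit 260) (nat_lit 221) (nat_lit 179)))) (XT.nd (nat_lit 78) (nat_lit 0) (nat_lit 0) (XT.lf (nat_lit 0) (nat_lit 129645244366) (nat_lit 152)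 (nat_lit 104920951916) (nat_lit 0) (nat_lit 113713782239) (nat_lit 2) (nat_lit 5) (nat_lit 4) (nat_lit 4) (nat_lit 2) (nat_lit 4) (nat_lit 261) (nat_lit 221) (nat_lit 178)) (XT.nd (nat_lit 78) (nat_lit 0) (nat_lit 0) (XT.lf (nat_lit 0) (nat_lit 165163309732) (nat_lit 152) (nat_lit 84646097285) (nat_lit 0) (nat_lit 149226734210) (nat_lit 2) (nat_lit 5) (nat_lit 4) (nat_lit 4) (nat_lit 2) (nat_lit 4) (nat_lit 262) (nat_lit 221) (nat_lit 177)) (XT.lf (nat_lit 0) (nat_lit 205998081375) (nat_lit 152) (nat_lit 61351472877) (nat_lit 0) (nat_lit 190057059423) (nat_lit 2) (nat_lit 5) (nat_lit 4) (nat_lit 4) (nat_lit 2) (nat_lit 4) (nat_lit 263) (nat_lit 221) (nat_lit 176))))) (XT.nd (nat_lit 234) (nat_lit 0) (nat_lit 0) (XT.nd (nat_lit 78) (nat_lit 76) (nat_lit 0) (XT.lf (nat_lit 0) (nat_lit 252948500480) (nat_lit 152) (nat_lit 34581314301) (nat_lit 0) (nat_lit 237003612068) (nat_lit 2) (nat_lit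 5) (nat_lit 4) (nat_lit 4) (nat_lit 2) (nat_lit 4) (nat_lit 264) (nat_lit 221) (nat_lit 175)) (XT.nd (nat_lit 78) (nat_lit 76) (nat_lit 0) (XT.lf (nat_lit 0) (nat_lit 306933162205) (nat_lit 152) (nat_lit 3811857585) (nat_lit 0) (nat_lit 290984911653) (nat_lit 2) (nat_lit 5) (nat_lit 4) (nat_lit 4) (nat_lit 2) (nat_lit 4) (nat_lit 265) (nat_lit 221) (nat_lit 174)) (XT.lf (nat_lit 0) (nat_lit 33220744568) (nat_lit 76) (nat_lit 336586503328) (nat_lit 76) (nat_lit 320635329176) (nat_lit 1) (nat_lit 4) (nat_lit 2) (nat_lit 5) (nat_lit 2) (nat_lit 4) (nat_lit 266) (nat_lit 221) (nat_lit 173)))) (XT.nd (nat_lit 78) (nat_lit 0) (nat_lit 0) (XT.lf (nat_lit 0) (nat_lit 76026156581) (nat_lit 76) (nat_lit 366190666084) (nat_lit 76) (nat_lit 350236949672) (nat_lit 1) (nat_lit 4) (nat_lit 2) (nat_lit 5) (nat_lit 2) (nat_lit 4) (nat_lit 267) (nat_lit 221) (nat_lit 172)) (XT.nd (nat_lit 78) (nat_lit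 0) (nat_lit 0) (XT.lf (nat_lit 0) (nat_lit 125241149979) (nat_lit 76) (nat_lit 400240942882) (nat_lit 76) (nat_lit 384285015808) (nat_lit 1) (nat_lit 4) (nat_lit 2) (nat_lit 5) (nat_lit 2) (nat_lit 4) (nat_lit 268) (nat_lit 221) (nat_lit 171)) (XT.lf (nat_lit 0) (nat_lit 181828626807) (nat_lit 76) (nat_lit 439403534788) (nat_lit 76) (nat_lit 423445685400) (nat_lit 1) (nat_lit 4) (nat_lit 2) (nat_lit 5) (nat_lit 2) (nat_lit 4) (nat_lit 269) (nat_lit 221) (nat_lit 170)))))) (XT.nd (nat_lit 468) (nat_lit 0) (nat_lit 0) (XT.nd (nat_lit 234) (nat_lit 0) (nat_lit 0) (XT.nd (nat_lit 78) (nat_lit 0) (nat_lit 0) (XT.lf (nat_lit 0) (nat_lit 246895733351) (nat_lit 76) (nat_lit 484444666427) (nat_lit 76) (nat_lit 468485145462) (nat_lit 1) (nat_lit 4) (nat_lit 2) (nat_lit 5) (nat_lit 2) (nat_lit 4) (nat_lit 270) (nat_lit 221) (nat_lit 169)) (XT.nd (nat_lit 78) (nat_lit 0) (nat_lit 0) (XT.lf (nat_lit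 0) (nat_lit 321715521695) (nat_lit 76) (nat_lit 536245577331) (nat_lit 76) (nat_lit 520284602820) (nat_lit 1) (nat_lit 4) (nat_lit 2) (nat_lit 5) (nat_lit 2) (nat_lit 4) (nat_lit 271) (nat_lit 221) (nat_lit 168)) (XT.lf (nat_lit 0) (nat_lit 407751857264) (nat_lit 76) (nat_lit 595819763583) (nat_lit 76) (nat_lit 579857525119) (nat_lit 1) (nat_lit 4) (nat_lit 2) (nat_lit 5) (nat_lit 2) (nat_lit 4) (nat_lit 272) (nat_lit 221) (nat_lit 167)))) (XT.nd (nat_lit 78) (nat_lit 0) (nat_lit 0) (XT.lf (nat_lit 0) (nat_lit 506688059666) (nat_lit 76) (nat_lit 664332807088) (nat_lit 76) (nat_lit 648369469535) (nat_lit 1) (nat_lit 4) (nat_lit 2) (nat_lit 5) (nat_lit 2) (nat_lit 4) (nat_lit 273) (nat_lit 221) (nat_lit 166)) (XT.nd (nat_lit 78) (nat_lit 0) (nat_lit 0) (XT.lf (nat_lit 0) (nat_lit 620459837209) (nat_lit 76) (nat_lit 743125180436) (nat_lit 76) (nat_lit 727160887153) (nat_lit 1) (nat_lit 4)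 (nat_lit 2) (nat_lit 5) (nat_lit 2) (nat_lit 4) (nat_lit 274) (nat_lit 221) (nat_lit 165)) (XT.lf (nat_lit 0) (nat_lit 751293159454) (nat_lit 76) (nat_lit 833738473541) (nat_lit 76) (nat_lit 817773349188) (nat_lit 1) (nat_lit 4) (nat_lit 2) (nat_lit 5) (nat_lit 2) (nat_lit 4) (nat_lit 275) (nat_lit 221) (nat_lit 164))))) (XT.nd (nat_lit 234) (nat_lit 0) (nat_lit 0) (XT.nd (nat_lit 78) (nat_lit 0) (nat_lit 0) (XT.lf (nat_lit 0) (nat_lit 901747808792) (nat_lit 76) (nat_lit 937945555180) (nat_lit 76) (nat_lit 921979708158) (nat_lit 1) (nat_lit 4) (nat_lit 2) (nat_lit 5) (nat_lit 2) (nat_lit 4) (nat_lit 276) (nat_lit 221) (nat_lit 163)) (XT.nd (nat_lit 78) (nat_lit 0) (nat_lit 0) (XT.lf (nat_lit 0) (nat_lit 1074767463146) (nat_lit 76) (nat_lit 1057785259560) (nat_lit 76) (nat_lit 1041818784130) (nat_lit 1) (nat_lit 4) (nat_lit 2) (nat_lit 5) (nat_lit 2) (nat_lit 4) (nat_lit 277) (nat_lit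 221) (nat_lit 162)) (XT.lf (nat_lit 0) (nat_lit 1273737289666) (nat_lit 76) (nat_lit 1195602276549) (nat_lit 76) (nat_lit 1179635254677) (nat_lit 1) (nat_lit 4) (nat_lit 2) (nat_lit 5) (nat_lit 2) (nat_lit 4) (nat_lit 278) (nat_lit 221) (nat_lit 161)))) (XT.nd (nat_lit 156) (nat_lit 0) (nat_lit 0) (XT.nd (nat_lit 78) (nat_lit 0) (nat_lit 0) (XT.lf (nat_lit 0) (nat_lit 1502550176262) (nat_lit 76) (nat_lit 1354093026044) (nat_lit 76) (nat_lit 1338125529006) (nat_lit 1) (nat_lit 4) (nat_lit 2) (nat_lit 5) (nat_lit 2) (nat_lit 4) (nat_lit 279) (nat_lit 221) (nat_lit 160)) (XT.lf (nat_lit 0) (nat_lit 1765682896802) (nat_lit 76) (nat_lit 1536358414014) (nat_lit 76) (nat_lit 1520390503787) (nat_lit 1) (nat_lit 4) (nat_lit 2) (nat_lit 5) (nat_lit 2) (nat_lit 4) (nat_lit 280) (nat_lit 221) (nat_lit 159))) (XT.nd (nat_lit 78) (nat_lit 0) (nat_lit 0) (XT.lf (nat_lit 0) (nat_lit 2068283700167) (nat_lit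 76) (nat_lit 1745964502398) (nat_lit 76) (nat_lit 1729996232877) (nat_lit 1) (nat_lit 4) (nat_lit 2) (nat_lit 5) (nat_lit 2) (nat_lit 4) (nat_lit 281) (nat_lit 221) (nat_lit 158)) (XT.lf (nat_lit 0) (nat_lit 2416273036856) (nat_lit 76) (nat_lit 1987012279881) (nat_lit 76) (nat_lit 1971043697930) (nat_lit 1) (nat_lit 4) (nat_lit 2) (nat_lit 5) (nat_lit 2) (nat_lit 4) (nat_lit 282) (nat_lit 221) (nat_lit 157))))))))
noncomputable def xc26 : XT := (XT.nd (nat_lit 31200) (nat_lit 0) (nat_lit 76) (XT.nd (nat_lit 30186) (nat_lit 0) (nat_lit 912) (XT.nd (nat_lit 29718) (nat_lit 0) (nat_lit 2888) (XT.nd (nat_lit 234) (nat_lit 0) (nat_lit 0) (XT.nd (nat_lit 78) (nat_lit 0) (nat_lit 0) (XT.lf (nat_lit 0) (nat_lit 2816459393893) (nat_lit 76) (nat_lit 2264217898631) (nat_lit 76) (nat_lit 2248249045002) (nat_lit 1) (nat_lit 4) (nat_lit 2) (nat_lit 5) (nat_lit 2) (nat_lit 4) (nat_lit 283) (nat_lit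 221) (nat_lit 156)) (XT.nd (nat_lit 78) (nat_lit 0) (nat_lit 0) (XT.lf (nat_lit 0) (nat_lit 3276672504349) (nat_lit 76) (nat_lit 2583004946841) (nat_lit 76) (nat_lit 2567035856970) (nat_lit 1) (nat_lit 4) (nat_lit 2) (nat_lit 5) (nat_lit 2) (nat_lit 4) (nat_lit 284) (nat_lit 221) (nat_lit 155)) (XT.lf (nat_lit 0) (nat_lit 3805916537777) (nat_lit 76) (nat_lit 2949610562412) (nat_lit 76) (nat_lit 2933641267113) (nat_lit 1) (nat_lit 4) (nat_lit 2) (nat_lit 5) (nat_lit 2) (nat_lit 4) (nat_lit 285) (nat_lit 221) (nat_lit 154)))) (XT.nd (nat_lit 78) (nat_lit 0) (nat_lit 0) (XT.lf (nat_lit 0) (nat_lit 4414546268744) (nat_lit 76) (nat_lit 3371207463908) (nat_lit 76) (nat_lit 3355237989977) (nat_lit 1) (nat_lit 4) (nat_lit 2) (nat_lit 5) (nat_lit 2) (nat_lit 4) (nat_lit 286) (nat_lit 221) (nat_lit 153)) (XT.nd (nat_lit 29328) (nat_lit 0) (nat_lit 4636) (XT.lf (nat_lit 0) (nat_lit 5114469670248)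 (nat_lit 76) (nat_lit 3856044286359) (nat_lit 76) (nat_lit 3840074657095) (nat_lit 1) (nat_lit 4) (nat_lit 2) (nat_lit 5) (nat_lit 2) (nat_lit 4) (nat_lit 287) (nat_lit 221) (nat_lit 152)) (XT.lf (nat_lit 0) (nat_lit 1228268080) (nat_lit 0) (nat_lit 1228268080) (nat_lit 228) (nat_lit 956416236) (nat_lit 62) (nat_lit 5) (nat_lit 62) (nat_lit 3) (nat_lit 65) (nat_lit 3) (nat_lit 222) (nat_lit 222) (nat_lit 216))))) (XT.nd (nat_lit 234) (nat_lit 1064) (nat_lit 0) (XT.nd (nat_lit 78) (nat_lit 380) (nat_lit 0) (XT.lf (nat_lit 0) (nat_lit 1493328745) (nat_lit 304) (nat_lit 5409380014) (nat_lit 380) (nat_lit 150939848) (nat_lit 58) (nat_lit 5) (nat_lit 62) (nat_lit 5) (nat_lit 63) (nat_lit 5) (nat_lit 223) (nat_lit 222) (nat_lit 215)) (XT.nd (nat_lit 78) (nat_lit 380) (nat_lit 0) (XT.lf (nat_lit 76) (nat_lit 1043802631) (nat_lit 0) (nat_lit 3872309220) (nat_lit 380) (nat_lit 2428161195) (nat_lit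 59) (nat_lit 5) (nat_lit 58) (nat_lit 5) (nat_lit 63) (nat_lit 5) (nat_lit 224) (nat_lit 222) (nat_lit 214)) (XT.lf (nat_lit 76) (nat_lit 730682423) (nat_lit 0) (nat_lit 10365694) (nat_lit 456) (nat_lit 6966888672) (nat_lit 54) (nat_lit 5) (nat_lit 53) (nat_lit 5) (nat_lit 59) (nat_lit 5) (nat_lit 225) (nat_lit 222) (nat_lit 213)))) (XT.nd (nat_lit 78) (nat_lit 760) (nat_lit 0) (XT.lf (nat_lit 0) (nat_lit 524285565) (nat_lit 380) (nat_lit 3542146989) (nat_lit 456) (nat_lit 4070254195) (nat_lit 49) (nat_lit 5) (nat_lit 54) (nat_lit 5) (nat_lit 55) (nat_lit 5) (nat_lit 226) (nat_lit 222) (nat_lit 212)) (XT.nd (nat_lit 78) (nat_lit 304) (nat_lit 0) (XT.lf (nat_lit 0) (nat_lit 538532058) (nat_lit 456) (nat_lit 7173000850) (nat_lit 532) (nat_lit 933889391) (nat_lit 43) (nat_lit 5) (nat_lit 49) (nat_lit 5) (nat_lit 50) (nat_lit 5) (nat_lit 227) (nat_lit 222) (nat_lit 211)) (XT.lf (nat_lit 0)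 (nat_lit 623970030) (nat_lit 228) (nat_lit 1860627420) (nat_lit 304) (nat_lit 6746181303) (nat_lit 39) (nat_lit 5) (nat_lit 42) (nat_lit 5) (nat_lit 43) (nat_lit 5) (nat_lit 228) (nat_lit 222) (nat_lit 210)))))) (XT.nd (nat_lit 468) (nat_lit 760) (nat_lit 0) (XT.nd (nat_lit 234) (nat_lit 532) (nat_lit 0) (XT.nd (nat_lit 78) (nat_lit 456) (nat_lit 0) (XT.lf (nat_lit 0) (nat_lit 780683780) (nat_lit 228) (nat_lit 5591976043) (nat_lit 304) (nat_lit 3529312577) (nat_lit 36) (nat_lit 5) (nat_lit 39) (nat_lit 5) (nat_lit 40) (nat_lit 5) (nat_lit 229) (nat_lit 222) (nat_lit 209)) (XT.nd (nat_lit 78) (nat_lit 152) (nat_lit 0) (XT.lf (nat_lit 0) (nat_lit 192527113) (nat_lit 304) (nat_lit 9639321644) (nat_lit 76) (nat_lit 839951789) (nat_lit 32) (nat_lit 5) (nat_lit 36) (nat_lit 5) (nat_lit 33) (nat_lit 5) (nat_lit 230) (nat_lit 222) (nat_lit 208)) (XT.lf (nat_lit 0) (nat_lit 1154979139) (nat_lit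 152) (nat_lit 3277864121) (nat_lit 228) (nat_lit 7104051672) (nat_lit 30) (nat_lit 5) (nat_lit 32) (nat_lit 5) (nat_lit 33) (nat_lit 5) (nat_lit 231) (nat_lit 222) (nat_lit 207)))) (XT.nd (nat_lit 78) (nat_lit 380) (nat_lit 0) (XT.lf (nat_lit 0) (nat_lit 1237172501) (nat_lit 152) (nat_lit 8228563996) (nat_lit 228) (nat_lit 3054068235) (nat_lit 28) (nat_lit 5) (nat_lit 30) (nat_lit 5) (nat_lit 31) (nat_lit 5) (nat_lit 232) (nat_lit 222) (nat_lit 206)) (XT.nd (nat_lit 78) (nat_lit 152) (nat_lit 0) (XT.lf (nat_lit 0) (nat_lit 1183115849) (nat_lit 152) (nat_lit 525593288) (nat_lit 228) (nat_lit 11923978303) (nat_lit 25) (nat_lit 5) (nat_lit 27) (nat_lit 5) (nat_lit 28) (nat_lit 5) (nat_lit 233) (nat_lit 222) (nat_lit 205)) (XT.lf (nat_lit 0) (nat_lit 731189165) (nat_lit 152) (nat_lit 6612367946) (nat_lit 228) (nat_lit 7535921832) (nat_lit 23) (nat_lit 5) (nat_lit 25) (nat_lit 5) (nat_lit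 26) (nat_lit 5) (nat_lit 234) (nat_lit 222) (nat_lit 204))))) (XT.nd (nat_lit 234) (nat_lit 456) (nat_lit 0) (XT.nd (nat_lit 78) (nat_lit 304) (nat_lit 0) (XT.lf (nat_lit 0) (nat_lit 14056271383) (nat_lit 228) (nat_lit 27795540) (nat_lit 76) (nat_lit 2210960350) (nat_lit 23) (nat_lit 5) (nat_lit 26) (nat_lit 5) (nat_lit 24) (nat_lit 4) (nat_lit 235) (nat_lit 222) (nat_lit 203)) (XT.nd (nat_lit 78) (nat_lit 152) (nat_lit 0) (XT.lf (nat_lit 0) (nat_lit 4076264975) (nat_lit 152) (nat_lit 1409409808) (nat_lit 76) (nat_lit 12396819348) (nat_lit 21) (nat_lit 5) (nat_lit 23) (nat_lit 5) (nat_lit 22) (nat_lit 5) (nat_lit 236) (nat_lit 222) (nat_lit 202)) (XT.lf (nat_lit 0) (nat_lit 11552962361) (nat_lit 228) (nat_lit 3566300768) (nat_lit 76) (nat_lit 4556651820) (nat_lit 19) (nat_lit 5) (nat_lit 22) (nat_lit 5) (nat_lit 20) (nat_lit 4) (nat_lit 237) (nat_lit 222) (nat_lit 201)))) (XT.nd (nat_lit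 156) (nat_lit 152) (nat_lit 0) (XT.nd (nat_lit 78) (nat_lit 228) (nat_lit 0) (XT.lf (nat_lit 0) (nat_lit 14955400984) (nat_lit 76) (nat_lit 5599330057) (nat_lit 152) (nat_lit 1151545128) (nat_lit 18) (nat_lit 5) (nat_lit 19) (nat_lit 5) (nat_lit 20) (nat_lit 4) (nat_lit 238) (nat_lit 222) (nat_lit 200)) (XT.lf (nat_lit 0) (nat_lit 6935235699) (nat_lit 228) (nat_lit 11476628122) (nat_lit 76) (nat_lit 5583241081) (nat_lit 15) (nat_lit 5) (nat_lit 18) (nat_lit 5) (nat_lit 16) (nat_lit 4) (nat_lit 239) (nat_lit 222) (nat_lit 199))) (XT.nd (nat_lit 78) (nat_lit 76) (nat_lit 0) (XT.lf (nat_lit 0) (nat_lit 8486450051) (nat_lit 76) (nat_lit 8114405366) (nat_lit 152) (nat_lit 9989438079) (nat_lit 14) (nat_lit 5) (nat_lit 15) (nat_lit 5) (nat_lit 16) (nat_lit 4) (nat_lit 240) (nat_lit 222) (nat_lit 198)) (XT.lf (nat_lit 0) (nat_lit 2402416077) (nat_lit 76) (nat_lit 25685402396) (nat_lit 76) (nat_lit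 1457351317) (nat_lit 13) (nat_lit 4) (nat_lit 14) (nat_lit 5) (nat_lit 14) (nat_lit 4) (nat_lit 241) (nat_lit 222) (nat_lit 197))))))) (XT.nd (nat_lit 936) (nat_lit 152) (nat_lit 0) (XT.nd (nat_lit 468) (nat_lit 304) (nat_lit 0) (XT.nd (nat_lit 234) (nat_lit 152) (nat_lit 0) (XT.nd (nat_lit 78) (nat_lit 152) (nat_lit 0) (XT.lf (nat_lit 0) (nat_lit 8591018842) (nat_lit 152) (nat_lit 6457738286) (nat_lit 76) (nat_lit 17826198558) (nat_lit 12) (nat_lit 5) (nat_lit 14) (nat_lit 5) (nat_lit 13) (nat_lit 4) (nat_lit 242) (nat_lit 222) (nat_lit 196)) (XT.nd (nat_lit 78) (nat_lit 76) (nat_lit 0) (XT.lf (nat_lit 0) (nat_lit 18018458793) (nat_lit 76) (nat_lit 2381353126) (nat_lit 152) (nat_lit 16274303203) (nat_lit 11) (nat_lit 5) (nat_lit 12) (nat_lit 5) (nat_lit 13) (nat_lit 4) (nat_lit 243) (nat_lit 222) (nat_lit 195)) (XT.lf (nat_lit 0) (nat_lit 5334533444) (nat_lit 76) (nat_lit 29170390021)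 (nat_lit 76) (nat_lit 6496303853) (nat_lit 10) (nat_lit 4) (nat_lit 11) (nat_lit 5) (nat_lit 11) (nat_lit 4) (nat_lit 244) (nat_lit 222) (nat_lit 194)))) (XT.nd (nat_lit 78) (nat_lit 76) (nat_lit 0) (XT.lf (nat_lit 0) (nat_lit 5050575220) (nat_lit 152) (nat_lit 12229165926) (nat_lit 76) (nat_lit 28645415625) (nat_lit 9) (nat_lit 5) (nat_lit 11) (nat_lit 5) (nat_lit 10) (nat_lit 4) (nat_lit 245) (nat_lit 222) (nat_lit 193)) (XT.nd (nat_lit 78) (nat_lit 0) (nat_lit 0) (XT.lf (nat_lit 0) (nat_lit 15169211510) (nat_lit 76) (nat_lit 3078859642) (nat_lit 152) (nat_lit 33301901756) (nat_lit 8) (nat_lit 5) (nat_lit 9) (nat_lit 5) (nat_lit 10) (nat_lit 4) (nat_lit 246) (nat_lit 222) (nat_lit 192)) (XT.lf (nat_lit 0) (nat_lit 34041824527) (nat_lit 152) (nat_lit 11026648236) (nat_lit 0) (nat_lit 12900756038) (nat_lit 8) (nat_lit 5) (nat_lit 10) (nat_lit 4) (nat_lit 8) (nat_lit 4) (nat_lit 247) (nat_lit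 222) (nat_lit 191))))) (XT.nd (nat_lit 234) (nat_lit 76) (nat_lit 0) (XT.nd (nat_lit 78) (nat_lit 152) (nat_lit 0) (XT.lf (nat_lit 0) (nat_lit 18879817359) (nat_lit 76) (nat_lit 33805456084) (nat_lit 76) (nat_lit 12627690751) (nat_lit 7) (nat_lit 4) (nat_lit 8) (nat_lit 5) (nat_lit 8) (nat_lit 4) (nat_lit 248) (nat_lit 222) (nat_lit 190)) (XT.nd (nat_lit 78) (nat_lit 76) (nat_lit 0) (XT.lf (nat_lit 0) (nat_lit 623205932) (nat_lit 152) (nat_lit 19913407291) (nat_lit 76) (nat_lit 53199007478) (nat_lit 6) (nat_lit 5) (nat_lit 8) (nat_lit 5) (nat_lit 7) (nat_lit 4) (nat_lit 249) (nat_lit 222) (nat_lit 189)) (XT.lf (nat_lit 0) (nat_lit 10679117318) (nat_lit 76) (nat_lit 4665373564) (nat_lit 152) (nat_lit 68032538338) (nat_lit 5) (nat_lit 5) (nat_lit 6) (nat_lit 5) (nat_lit 7) (nat_lit 4) (nat_lit 250) (nat_lit 222) (nat_lit 188)))) (XT.nd (nat_lit 78) (nat_lit 76) (nat_lit 0) (XT.lf (nat_lit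 0) (nat_lit 33151192699) (nat_lit 152) (nat_lit 47778733762) (nat_lit 0) (nat_lit 13464570025) (nat_lit 5) (nat_lit 5) (nat_lit 7) (nat_lit 4) (nat_lit 5) (nat_lit 4) (nat_lit 251) (nat_lit 222) (nat_lit 187)) (XT.nd (nat_lit 78) (nat_lit 76) (nat_lit 0) (XT.lf (nat_lit 0) (nat_lit 53719368277) (nat_lit 152) (nat_lit 19324681921) (nat_lit 0) (nat_lit 34013318252) (nat_lit 5) (nat_lit 5) (nat_lit 7) (nat_lit 4) (nat_lit 5) (nat_lit 4) (nat_lit 252) (nat_lit 222) (nat_lit 186)) (XT.lf (nat_lit 0) (nat_lit 14035256026) (nat_lit 76) (nat_lit 63641528315) (nat_lit 76) (nat_lit 43918584940) (nat_lit 4) (nat_lit 4) (nat_lit 5) (nat_lit 5) (nat_lit 5) (nat_lit 4) (nat_lit 253) (nat_lit 222) (nat_lit 185)))))) (XT.nd (nat_lit 468) (nat_lit 0) (nat_lit 0) (XT.nd (nat_lit 234) (nat_lit 152) (nat_lit 0) (XT.nd (nat_lit 78) (nat_lit 0) (nat_lit 0) (XT.lf (nat_lit 0) (nat_lit 53510551216) (nat_lit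 76) (nat_lit 52249302834) (nat_lit 76) (nat_lit 32511669591) (nat_lit 4) (nat_lit 4) (nat_lit 5) (nat_lit 5) (nat_lit 5) (nat_lit 4) (nat_lit 254) (nat_lit 222) (nat_lit 184)) (XT.nd (nat_lit 78) (nat_lit 0) (nat_lit 0) (XT.lf (nat_lit 0) (nat_lit 98855942874) (nat_lit 76) (nat_lit 39172853438) (nat_lit 76) (nat_lit 19422446395) (nat_lit 4) (nat_lit 4) (nat_lit 5) (nat_lit 5) (nat_lit 5) (nat_lit 4) (nat_lit 255) (nat_lit 222) (nat_lit 183)) (XT.lf (nat_lit 0) (nat_lit 150958623448) (nat_lit 76) (nat_lit 24156336551) (nat_lit 76) (nat_lit 4394821857) (nat_lit 4) (nat_lit 4) (nat_lit 5) (nat_lit 5) (nat_lit 5) (nat_lit 4) (nat_lit 256) (nat_lit 222) (nat_lit 182)))) (XT.nd (nat_lit 78) (nat_lit 0) (nat_lit 0) (XT.lf (nat_lit 0) (nat_lit 5947374868) (nat_lit 76) (nat_lit 6417311857) (nat_lit 152) (nat_lit 192477839001) (nat_lit 2) (nat_lit 5) (nat_lit 3) (nat_lit 5) (nat_lit 4) (nat_lit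 4) (nat_lit 257) (nat_lit 222) (nat_lit 181)) (XT.nd (nat_lit 78) (nat_lit 0) (nat_lit 0) (XT.lf (nat_lit 0) (nat_lit 32555160424) (nat_lit 152) (nat_lit 187075975149) (nat_lit 0) (nat_lit 14240741441) (nat_lit 2) (nat_lit 5) (nat_lit 4) (nat_lit 4) (nat_lit 2) (nat_lit 4) (nat_lit 258) (nat_lit 222) (nat_lit 180)) (XT.lf (nat_lit 0) (nat_lit 55934957168) (nat_lit 152) (nat_lit 173694045634) (nat_lit 0) (nat_lit 37613775722) (nat_lit 2) (nat_lit 5) (nat_lit 4) (nat_lit 4) (nat_lit 2) (nat_lit 4) (nat_lit 259) (nat_lit 222) (nat_lit 179))))) (XT.nd (nat_lit 234) (nat_lit 0) (nat_lit 0) (XT.nd (nat_lit 78) (nat_lit 0) (nat_lit 0) (XT.lf (nat_lit 0) (nat_lit 82807171260) (nat_lit 152) (nat_lit 158333205449) (nat_lit 0) (nat_lit 64480109410) (nat_lit 2) (nat_lit 5) (nat_lit 4) (nat_lit 4) (nat_lit 2) (nat_lit 4) (nat_lit 260) (nat_lit 222) (nat_lit 178)) (XT.nd (nat_lit 78) (nat_lit 0) (nat_lit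 0) (XT.lf (nat_lit 0) (nat_lit 113697563410) (nat_lit 152) (nat_lit 140692916415) (nat_lit 0) (nat_lit 95365388166) (nat_lit 2) (nat_lit 5) (nat_lit 4) (nat_lit 4) (nat_lit 2) (nat_lit 4) (nat_lit 261) (nat_lit 222) (nat_lit 177)) (XT.lf (nat_lit 0) (nat_lit 149210510856) (nat_lit 152) (nat_lit 120428042444) (nat_lit 0) (nat_lit 130873889182) (nat_lit 2) (nat_lit 5) (nat_lit 4) (nat_lit 4) (nat_lit 2) (nat_lit 4) (nat_lit 262) (nat_lit 222) (nat_lit 176)))) (XT.nd (nat_lit 156) (nat_lit 0) (nat_lit 0) (XT.nd (nat_lit 78) (nat_lit 0) (nat_lit 0) (XT.lf (nat_lit 0) (nat_lit 190040832135) (nat_lit 152) (nat_lit 97142096870) (nat_lit 0) (nat_lit 171700344000) (nat_lit 2) (nat_lit 5) (nat_lit 4) (nat_lit 4) (nat_lit 2) (nat_lit 4) (nat_lit 263) (nat_lit 222) (nat_lit 175)) (XT.lf (nat_lit 0) (nat_lit 236987381358) (nat_lit 152) (nat_lit 70379485106) (nat_lit 0) (nat_lit 218643531084) (nat_lit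 2) (nat_lit 5) (nat_lit 4) (nat_lit 4) (nat_lit 2) (nat_lit 4) (nat_lit 264) (nat_lit 222) (nat_lit 174))) (XT.nd (nat_lit 78) (nat_lit 0) (nat_lit 0) (XT.lf (nat_lit 0) (nat_lit 290968677967) (nat_lit 152) (nat_lit 39616590835) (nat_lit 0) (nat_lit 272621904093) (nat_lit 2) (nat_lit 5) (nat_lit 4) (nat_lit 4) (nat_lit 2) (nat_lit 4) (nat_lit 265) (nat_lit 222) (nat_lit 173)) (XT.lf (nat_lit 0) (nat_lit 353040877765) (nat_lit 152) (nat_lit 4251531344) (nat_lit 0) (nat_lit 334691561631) (nat_lit 2) (nat_lit 5) (nat_lit 4) (nat_lit 4) (nat_lit 2) (nat_lit 4) (nat_lit 266) (nat_lit 222) (nat_lit 172))))))))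
noncomputable def xc27 : XT := (XT.nd (nat_lit 31278) (nat_lit 0) (nat_lit 304) (XT.nd (nat_lit 936) (nat_lit 0) (nat_lit 0) (XT.nd (nat_lit 468) (nat_lit 0) (nat_lit 0) (XT.nd (nat_lit 234) (nat_lit 0) (nat_lit 0) (XT.nd (nat_lit 78) (nat_lit 0) (nat_lit 0) (XT.lf (nat_lit 0) (nat_lit 38324779112) (nat_lit 76) (nat_lit 387015369583) (nat_lit 76) (nat_lit 368663842787) (nat_lit 1) (nat_lit 4) (nat_lit 2) (nat_lit 5) (nat_lit 2) (nat_lit 4) (nat_lit 267) (nat_lit 222) (nat_lit 171)) (XT.nd (nat_lit 78) (nat_lit 0) (nat_lit 0) (XT.lf (nat_lit 0) (nat_lit 87535230380) (nat_lit 76) (nat_lit 421067866654) (nat_lit 76) (nat_lit 402714417544) (nat_lit 1) (nat_lit 4) (nat_lit 2) (nat_lit 5) (nat_lit 2) (nat_lit 4) (nat_lit 268) (nat_lit 222) (nat_lit 170)) (XT.lf (nat_lit 0) (nat_lit 144118757530) (nat_lit 76) (nat_lit 460232389234) (nat_lit 76) (nat_lit 441877268546) (nat_lit 1) (nat_lit 4)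 (nat_lit 2) (nat_lit 5) (nat_lit 2) (nat_lit 4) (nat_lit 269) (nat_lit 222) (nat_lit 169)))) (XT.nd (nat_lit 78) (nat_lit 0) (nat_lit 0) (XT.lf (nat_lit 0) (nat_lit 209182429571) (nat_lit 76) (nat_lit 505275199719) (nat_lit 76) (nat_lit 486918625485) (nat_lit 1) (nat_lit 4) (nat_lit 2) (nat_lit 5) (nat_lit 2) (nat_lit 4) (nat_lit 270) (nat_lit 222) (nat_lit 168)) (XT.nd (nat_lit 78) (nat_lit 0) (nat_lit 0) (XT.lf (nat_lit 0) (nat_lit 283999231391) (nat_lit 76) (nat_lit 557077570489) (nat_lit 76) (nat_lit 538719732303) (nat_lit 1) (nat_lit 4) (nat_lit 2) (nat_lit 5) (nat_lit 2) (nat_lit 4) (nat_lit 271) (nat_lit 222) (nat_lit 167)) (XT.lf (nat_lit 0) (nat_lit 370032969982) (nat_lit 76) (nat_lit 616653026190) (nat_lit 76) (nat_lit 598294088914) (nat_lit 1) (nat_lit 4) (nat_lit 2) (nat_lit 5) (nat_lit 2) (nat_lit 4) (nat_lit 272) (nat_lit 222) (nat_lit 166))))) (XT.nd (nat_lit 234) (nat_lit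 0) (nat_lit 0) (XT.nd (nat_lit 78) (nat_lit 0) (nat_lit 0) (XT.lf (nat_lit 0) (nat_lit 468966914142) (nat_lit 76) (nat_lit 685167173564) (nat_lit 76) (nat_lit 666807280558) (nat_lit 1) (nat_lit 4) (nat_lit 2) (nat_lit 5) (nat_lit 2) (nat_lit 4) (nat_lit 273) (nat_lit 222) (nat_lit 165)) (XT.nd (nat_lit 78) (nat_lit 0) (nat_lit 0) (XT.lf (nat_lit 0) (nat_lit 582736727997) (nat_lit 76) (nat_lit 763960506797) (nat_lit 76) (nat_lit 745599782722) (nat_lit 1) (nat_lit 4) (nat_lit 2) (nat_lit 5) (nat_lit 2) (nat_lit 4) (nat_lit 274) (nat_lit 222) (nat_lit 164)) (XT.lf (nat_lit 0) (nat_lit 713568342687) (nat_lit 76) (nat_lit 854574634585) (nat_lit 76) (nat_lit 836213187841) (nat_lit 1) (nat_lit 4) (nat_lit 2) (nat_lit 5) (nat_lit 2) (nat_lit 4) (nat_lit 275) (nat_lit 222) (nat_lit 163)))) (XT.nd (nat_lit 78) (nat_lit 0) (nat_lit 0) (XT.lf (nat_lit 0) (nat_lit 864021507196) (nat_lit 76) (nat_lit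 958782442036) (nat_lit 76) (nat_lit 940420366883) (nat_lit 1) (nat_lit 4) (nat_lit 2) (nat_lit 5) (nat_lit 2) (nat_lit 4) (nat_lit 276) (nat_lit 222) (nat_lit 162)) (XT.nd (nat_lit 78) (nat_lit 0) (nat_lit 0) (XT.lf (nat_lit 0) (nat_lit 1037039870393) (nat_lit 76) (nat_lit 1078622777556) (nat_lit 76) (nat_lit 1060260155962) (nat_lit 1) (nat_lit 4) (nat_lit 2) (nat_lit 5) (nat_lit 2) (nat_lit 4) (nat_lit 277) (nat_lit 222) (nat_lit 161)) (XT.lf (nat_lit 0) (nat_lit 1236008574168) (nat_lit 76) (nat_lit 1216440343363) (nat_lit 76) (nat_lit 1198077246602) (nat_lit 1) (nat_lit 4) (nat_lit 2) (nat_lit 5) (nat_lit 2) (nat_lit 4) (nat_lit 278) (nat_lit 222) (nat_lit 160)))))) (XT.nd (nat_lit 468) (nat_lit 0) (nat_lit 0) (XT.nd (nat_lit 234) (nat_lit 0) (nat_lit 0) (XT.nd (nat_lit 78) (nat_lit 0) (nat_lit 0) (XT.lf (nat_lit 0) (nat_lit 1464820484463) (nat_lit 76) (nat_lit 1374931570091) (nat_lit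 76) (nat_lit 1356568060141) (nat_lit 1) (nat_lit 4) (nat_lit 2) (nat_lit 5) (nat_lit 2) (nat_lit 4) (nat_lit 279) (nat_lit 222) (nat_lit 159)) (XT.nd (nat_lit 78) (nat_lit 0) (nat_lit 0) (XT.lf (nat_lit 0) (nat_lit 1727952356047) (nat_lit 76) (nat_lit 1557197373046) (nat_lit 76) (nat_lit 1538833503802) (nat_lit 1) (nat_lit 4) (nat_lit 2) (nat_lit 5) (nat_lit 2) (nat_lit 4) (nat_lit 280) (nat_lit 222) (nat_lit 158)) (XT.lf (nat_lit 0) (nat_lit 2030552421188) (nat_lit 76) (nat_lit 1766803822286) (nat_lit 76) (nat_lit 1748439640613) (nat_lit 1) (nat_lit 4) (nat_lit 2) (nat_lit 5) (nat_lit 2) (nat_lit 4) (nat_lit 281) (nat_lit 222) (nat_lit 157)))) (XT.nd (nat_lit 78) (nat_lit 0) (nat_lit 0) (XT.lf (nat_lit 0) (nat_lit 2378541115945) (nat_lit 76) (nat_lit 2007851913558) (nat_lit 76) (nat_lit 1989487460206) (nat_lit 1) (nat_lit 4) (nat_lit 2) (nat_lit 5) (nat_lit 2) (nat_lit 4) (nat_lit 282)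 (nat_lit 222) (nat_lit 156)) (XT.nd (nat_lit 78) (nat_lit 0) (nat_lit 0) (XT.lf (nat_lit 0) (nat_lit 2778726914778) (nat_lit 76) (nat_lit 2285057805167) (nat_lit 76) (nat_lit 2266693115574) (nat_lit 1) (nat_lit 4) (nat_lit 2) (nat_lit 5) (nat_lit 2) (nat_lit 4) (nat_lit 283) (nat_lit 222) (nat_lit 155)) (XT.lf (nat_lit 0) (nat_lit 3238939539841) (nat_lit 76) (nat_lit 2603845090647) (nat_lit 76) (nat_lit 2585480195626) (nat_lit 1) (nat_lit 4) (nat_lit 2) (nat_lit 5) (nat_lit 2) (nat_lit 4) (nat_lit 284) (nat_lit 222) (nat_lit 154))))) (XT.nd (nat_lit 29562) (nat_lit 0) (nat_lit 3952) (XT.nd (nat_lit 78) (nat_lit 0) (nat_lit 0) (XT.lf (nat_lit 0) (nat_lit 3768183151187) (nat_lit 76) (nat_lit 2970450912538) (nat_lit 76) (nat_lit 2952085838884) (nat_lit 1) (nat_lit 4) (nat_lit 2) (nat_lit 5) (nat_lit 2) (nat_lit 4) (nat_lit 285) (nat_lit 222) (nat_lit 153)) (XT.nd (nat_lit 78) (nat_lit 0)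 (nat_lit 0) (XT.lf (nat_lit 0) (nat_lit 4376812515127) (nat_lit 76) (nat_lit 3392047993444) (nat_lit 76) (nat_lit 3373682764457) (nat_lit 1) (nat_lit 4) (nat_lit 2) (nat_lit 5) (nat_lit 2) (nat_lit 4) (nat_lit 286) (nat_lit 222) (nat_lit 152)) (XT.lf (nat_lit 0) (nat_lit 5076735597476) (nat_lit 76) (nat_lit 3876884971903) (nat_lit 76) (nat_lit 3858519607844) (nat_lit 1) (nat_lit 4) (nat_lit 2) (nat_lit 5) (nat_lit 2) (nat_lit 4) (nat_lit 287) (nat_lit 222) (nat_lit 151)))) (XT.nd (nat_lit 156) (nat_lit 304) (nat_lit 0) (XT.nd (nat_lit 78) (nat_lit 0) (nat_lit 0) (XT.lf (nat_lit 0) (nat_lit 2217512797) (nat_lit 380) (nat_lit 718304199) (nat_lit 380) (nat_lit 718304199) (nat_lit 57) (nat_lit 3) (nat_lit 62) (nat_lit 3) (nat_lit 62) (nat_lit 5) (nat_lit 223) (nat_lit 223) (nat_lit 214)) (XT.lf (nat_lit 76) (nat_lit 5131673942) (nat_lit 0) (nat_lit 2332774840) (nat_lit 380) (nat_lit 166780863)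 (nat_lit 58) (nat_lit 5) (nat_lit 57) (nat_lit 3) (nat_lit 62) (nat_lit 5) (nat_lit 224) (nat_lit 223) (nat_lit 213))) (XT.nd (nat_lit 78) (nat_lit 0) (nat_lit 0) (XT.lf (nat_lit 0) (nat_lit 2526961854) (nat_lit 380) (nat_lit 3431366315) (nat_lit 456) (nat_lit 2061921599) (nat_lit 53) (nat_lit 5) (nat_lit 58) (nat_lit 5) (nat_lit 59) (nat_lit 5) (nat_lit 225) (nat_lit 223) (nat_lit 212)) (XT.lf (nat_lit 76) (nat_lit 4270136126) (nat_lit 0) (nat_lit 1168610089) (nat_lit 456) (nat_lit 3043967452) (nat_lit 54) (nat_lit 5) (nat_lit 53) (nat_lit 5) (nat_lit 59) (nat_lit 5) (nat_lit 226) (nat_lit 223) (nat_lit 211))))))) (XT.nd (nat_lit 1014) (nat_lit 912) (nat_lit 0) (XT.nd (nat_lit 468) (nat_lit 988) (nat_lit 0) (XT.nd (nat_lit 234) (nat_lit 684) (nat_lit 0) (XT.nd (nat_lit 78) (nat_lit 760) (nat_lit 0) (XT.lf (nat_lit 0) (nat_lit 4117052503) (nat_lit 380) (nat_lit 4607966197) (nat_lit 456)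 (nat_lit 295681038) (nat_lit 49) (nat_lit 5) (nat_lit 54) (nat_lit 5) (nat_lit 55) (nat_lit 5) (nat_lit 227) (nat_lit 223) (nat_lit 210)) (XT.nd (nat_lit 78) (nat_lit 228) (nat_lit 0) (XT.lf (nat_lit 0) (nat_lit 2677935618) (nat_lit 532) (nat_lit 5555764301) (nat_lit 76) (nat_lit 1404602149) (nat_lit 42) (nat_lit 5) (nat_lit 49) (nat_lit 5) (nat_lit 43) (nat_lit 5) (nat_lit 228) (nat_lit 223) (nat_lit 209)) (XT.lf (nat_lit 0) (nat_lit 4142210956) (nat_lit 228) (nat_lit 2013251046) (nat_lit 304) (nat_lit 4187257667) (nat_lit 39) (nat_lit 5) (nat_lit 42) (nat_lit 5) (nat_lit 43) (nat_lit 5) (nat_lit 229) (nat_lit 223) (nat_lit 208)))) (XT.nd (nat_lit 78) (nat_lit 456) (nat_lit 0) (XT.lf (nat_lit 0) (nat_lit 4279363670) (nat_lit 228) (nat_lit 6001145232) (nat_lit 304) (nat_lit 862932131) (nat_lit 36) (nat_lit 5) (nat_lit 39) (nat_lit 5) (nat_lit 40) (nat_lit 5) (nat_lit 230) (nat_lit 223)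 (nat_lit 207)) (XT.nd (nat_lit 78) (nat_lit 152) (nat_lit 0) (XT.lf (nat_lit 0) (nat_lit 2952197923) (nat_lit 304) (nat_lit 7626170566) (nat_lit 76) (nat_lit 1469562295) (nat_lit 32) (nat_lit 5) (nat_lit 36) (nat_lit 5) (nat_lit 33) (nat_lit 5) (nat_lit 231) (nat_lit 223) (nat_lit 206)) (XT.lf (nat_lit 0) (nat_lit 4494484038) (nat_lit 152) (nat_lit 3054035809) (nat_lit 228) (nat_lit 5517478444) (nat_lit 30) (nat_lit 5) (nat_lit 32) (nat_lit 5) (nat_lit 33) (nat_lit 5) (nat_lit 232) (nat_lit 223) (nat_lit 205))))) (XT.nd (nat_lit 234) (nat_lit 456) (nat_lit 0) (XT.nd (nat_lit 78) (nat_lit 380) (nat_lit 0) (XT.lf (nat_lit 0) (nat_lit 4489627780) (nat_lit 152) (nat_lit 8615778220) (nat_lit 228) (nat_lit 1110114395) (nat_lit 28) (nat_lit 5) (nat_lit 30) (nat_lit 5) (nat_lit 31) (nat_lit 5) (nat_lit 233) (nat_lit 223) (nat_lit 204)) (XT.nd (nat_lit 78) (nat_lit 152) (nat_lit 0) (XT.lf (nat_lit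 0) (nat_lit 4025842608) (nat_lit 228) (nat_lit 11233961685) (nat_lit 76) (nat_lit 249159770) (nat_lit 25) (nat_lit 5) (nat_lit 28) (nat_lit 5) (nat_lit 26) (nat_lit 5) (nat_lit 234) (nat_lit 223) (nat_lit 203)) (XT.lf (nat_lit 0) (nat_lit 3649642568) (nat_lit 152) (nat_lit 6667663313) (nat_lit 228) (nat_lit 6641047839) (nat_lit 23) (nat_lit 5) (nat_lit 25) (nat_lit 5) (nat_lit 26) (nat_lit 5) (nat_lit 235) (nat_lit 223) (nat_lit 202)))) (XT.nd (nat_lit 156) (nat_lit 152) (nat_lit 0) (XT.nd (nat_lit 78) (nat_lit 228) (nat_lit 0) (XT.lf (nat_lit 0) (nat_lit 2656852802) (nat_lit 76) (nat_lit 15219356218) (nat_lit 152) (nat_lit 723309243) (nat_lit 22) (nat_lit 5) (nat_lit 23) (nat_lit 5) (nat_lit 24) (nat_lit 4) (nat_lit 236) (nat_lit 223) (nat_lit 201)) (XT.lf (nat_lit 0) (nat_lit 843811190) (nat_lit 152) (nat_lit 5394172222) (nat_lit 228) (nat_lit 14200573215) (nat_lit 19) (nat_lit 5) (nat_lit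 21) (nat_lit 5) (nat_lit 22) (nat_lit 5) (nat_lit 237) (nat_lit 223) (nat_lit 200))) (XT.nd (nat_lit 78) (nat_lit 152) (nat_lit 0) (XT.lf (nat_lit 0) (nat_lit 14689705128) (nat_lit 228) (nat_lit 1791228220) (nat_lit 76) (nat_lit 6032074249) (nat_lit 19) (nat_lit 5) (nat_lit 22) (nat_lit 5) (nat_lit 20) (nat_lit 4) (nat_lit 238) (nat_lit 223) (nat_lit 199)) (XT.lf (nat_lit 0) (nat_lit 48188191) (nat_lit 152) (nat_lit 5546785365) (nat_lit 76) (nat_lit 19263691563) (nat_lit 17) (nat_lit 5) (nat_lit 19) (nat_lit 5) (nat_lit 18) (nat_lit 5) (nat_lit 239) (nat_lit 223) (nat_lit 198)))))) (XT.nd (nat_lit 468) (nat_lit 380) (nat_lit 0) (XT.nd (nat_lit 234) (nat_lit 228) (nat_lit 0) (XT.nd (nat_lit 78) (nat_lit 152) (nat_lit 0) (XT.lf (nat_lit 0) (nat_lit 9179087092) (nat_lit 228) (nat_lit 11121704234) (nat_lit 76) (nat_lit 7195900258) (nat_lit 15) (nat_lit 5) (nat_lit 18) (nat_lit 5) (nat_lit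 16) (nat_lit 4) (nat_lit 240) (nat_lit 223) (nat_lit 197)) (XT.nd (nat_lit 78) (nat_lit 76) (nat_lit 0) (XT.lf (nat_lit 0) (nat_lit 11660077214) (nat_lit 76) (nat_lit 8523196590) (nat_lit 152) (nat_lit 10306968537) (nat_lit 14) (nat_lit 5) (nat_lit 15) (nat_lit 5) (nat_lit 16) (nat_lit 4) (nat_lit 241) (nat_lit 223) (nat_lit 196)) (XT.lf (nat_lit 0) (nat_lit 4565857112) (nat_lit 76) (nat_lit 28745221158) (nat_lit 76) (nat_lit 584006137) (nat_lit 13) (nat_lit 4) (nat_lit 14) (nat_lit 5) (nat_lit 14) (nat_lit 4) (nat_lit 242) (nat_lit 223) (nat_lit 195)))) (XT.nd (nat_lit 78) (nat_lit 152) (nat_lit 0) (XT.lf (nat_lit 0) (nat_lit 10781692731) (nat_lit 152) (nat_lit 5810157201) (nat_lit 76) (nat_lit 21141338880) (nat_lit 12) (nat_lit 5) (nat_lit 14) (nat_lit 5) (nat_lit 13) (nat_lit 4) (nat_lit 243) (nat_lit 223) (nat_lit 194)) (XT.nd (nat_lit 78) (nat_lit 76) (nat_lit 0) (XT.lf (nat_lit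 0) (nat_lit 22200662620) (nat_lit 76) (nat_lit 2079067676) (nat_lit 152) (nat_lit 17829168504) (nat_lit 11) (nat_lit 5) (nat_lit 12) (nat_lit 5) (nat_lit 13) (nat_lit 4) (nat_lit 244) (nat_lit 223) (nat_lit 193)) (XT.lf (nat_lit 0) (nat_lit 7535122264) (nat_lit 76) (nat_lit 32906008545) (nat_lit 76) (nat_lit 6648801482) (nat_lit 10) (nat_lit 4) (nat_lit 11) (nat_lit 5) (nat_lit 11) (nat_lit 4) (nat_lit 245) (nat_lit 223) (nat_lit 192))))) (XT.nd (nat_lit 234) (nat_lit 228) (nat_lit 0) (XT.nd (nat_lit 78) (nat_lit 76) (nat_lit 0) (XT.lf (nat_lit 0) (nat_lit 6487144794) (nat_lit 152) (nat_lit 12809523370) (nat_lit 76) (nat_lit 33462426857) (nat_lit 9) (nat_lit 5) (nat_lit 11) (nat_lit 5) (nat_lit 10) (nat_lit 4) (nat_lit 246) (nat_lit 223) (nat_lit 191)) (XT.nd (nat_lit 78) (nat_lit 0) (nat_lit 0) (XT.lf (nat_lit 0) (nat_lit 18592464350) (nat_lit 76) (nat_lit 3010844055) (nat_lit 152) (nat_lit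 37629269094) (nat_lit 8) (nat_lit 5) (nat_lit 9) (nat_lit 5) (nat_lit 10) (nat_lit 4) (nat_lit 247) (nat_lit 223) (nat_lit 190)) (XT.lf (nat_lit 0) (nat_lit 39696593296) (nat_lit 152) (nat_lit 11650193571) (nat_lit 0) (nat_lit 15273556021) (nat_lit 8) (nat_lit 5) (nat_lit 10) (nat_lit 4) (nat_lit 8) (nat_lit 4) (nat_lit 248) (nat_lit 223) (nat_lit 189)))) (XT.nd (nat_lit 156) (nat_lit 76) (nat_lit 0) (XT.nd (nat_lit 78) (nat_lit 76) (nat_lit 0) (XT.lf (nat_lit 0) (nat_lit 22655019242) (nat_lit 76) (nat_lit 38432682156) (nat_lit 76) (nat_lit 13981896795) (nat_lit 7) (nat_lit 4) (nat_lit 8) (nat_lit 5) (nat_lit 8) (nat_lit 4) (nat_lit 249) (nat_lit 223) (nat_lit 188)) (XT.lf (nat_lit 0) (nat_lit 1162719174) (nat_lit 152) (nat_lit 22056458248) (nat_lit 76) (nat_lit 61540830307) (nat_lit 6) (nat_lit 5) (nat_lit 8) (nat_lit 5) (nat_lit 7) (nat_lit 4) (nat_lit 250) (nat_lit 223) (nat_lit 187)))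 (XT.nd (nat_lit 78) (nat_lit 0) (nat_lit 0) (XT.lf (nat_lit 0) (nat_lit 13053508030) (nat_lit 76) (nat_lit 4999089902) (nat_lit 152) (nat_lit 77798233180) (nat_lit 5) (nat_lit 5) (nat_lit 6) (nat_lit 5) (nat_lit 7) (nat_lit 4) (nat_lit 251) (nat_lit 223) (nat_lit 186)) (XT.lf (nat_lit 0) (nat_lit 38484948025) (nat_lit 152) (nat_lit 54252960227) (nat_lit 0) (nat_lit 15786669795) (nat_lit 5) (nat_lit 5) (nat_lit 7) (nat_lit 4) (nat_lit 5) (nat_lit 4) (nat_lit 252) (nat_lit 223) (nat_lit 185))))))))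
noncomputable def xc28 : XT := (XT.nd (nat_lit 1950) (nat_lit 0) (nat_lit 0) (XT.nd (nat_lit 936) (nat_lit 76) (nat_lit 0) (XT.nd (nat_lit 468) (nat_lit 0) (nat_lit 0) (XT.nd (nat_lit 234) (nat_lit 152) (nat_lit 0) (XT.nd (nat_lit 78) (nat_lit 76) (nat_lit 0) (XT.lf (nat_lit 0) (nat_lit 62091253016) (nat_lit 152) (nat_lit 21621137601) (nat_lit 0) (nat_lit 39378284917) (nat_lit 5) (nat_lit 5) (nat_lit 7) (nat_lit 4) (nat_lit 5) (nat_lit 4) (nat_lit 253) (nat_lit 223) (nat_lit 184)) (XT.nd (nat_lit 78) (nat_lit 0) (nat_lit 0) (XT.lf (nat_lit 0) (nat_lit 16691813863) (nat_lit 76) (nat_lit 72922771822) (nat_lit 76) (nat_lit 50197029925) (nat_lit 4) (nat_lit 4) (nat_lit 5) (nat_lit 5) (nat_lit 5) (nat_lit 4) (nat_lit 254) (nat_lit 223) (nat_lit 183)) (XT.lf (nat_lit 0) (nat_lit 62016498622) (nat_lit 76) (nat_lit 59856275877) (nat_lit 76) (nat_lit 37119426328) (nat_lit 4) (nat_lit 4) (nat_lit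 5) (nat_lit 5) (nat_lit 5) (nat_lit 4) (nat_lit 255) (nat_lit 223) (nat_lit 182)))) (XT.nd (nat_lit 78) (nat_lit 152) (nat_lit 0) (XT.lf (nat_lit 0) (nat_lit 114101173196) (nat_lit 76) (nat_lit 44848414164) (nat_lit 76) (nat_lit 22101905788) (nat_lit 4) (nat_lit 4) (nat_lit 5) (nat_lit 5) (nat_lit 5) (nat_lit 4) (nat_lit 256) (nat_lit 223) (nat_lit 181)) (XT.nd (nat_lit 78) (nat_lit 152) (nat_lit 0) (XT.lf (nat_lit 0) (nat_lit 173964885565) (nat_lit 76) (nat_lit 27605554608) (nat_lit 76) (nat_lit 4850647252) (nat_lit 4) (nat_lit 4) (nat_lit 5) (nat_lit 5) (nat_lit 5) (nat_lit 4) (nat_lit 257) (nat_lit 223) (nat_lit 180)) (XT.lf (nat_lit 0) (nat_lit 7180669219) (nat_lit 76) (nat_lit 7214946182) (nat_lit 152) (nat_lit 221159108348) (nat_lit 2) (nat_lit 5) (nat_lit 3) (nat_lit 5) (nat_lit 4) (nat_lit 4) (nat_lit 258) (nat_lit 223) (nat_lit 179))))) (XT.nd (nat_lit 234) (nat_lit 0) (nat_lit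 0) (XT.nd (nat_lit 78) (nat_lit 0) (nat_lit 0) (XT.lf (nat_lit 0) (nat_lit 37595124069) (nat_lit 152) (nat_lit 214831804808) (nat_lit 0) (nat_lit 16513122538) (nat_lit 2) (nat_lit 5) (nat_lit 4) (nat_lit 4) (nat_lit 2) (nat_lit 4) (nat_lit 259) (nat_lit 223) (nat_lit 178)) (XT.nd (nat_lit 78) (nat_lit 0) (nat_lit 0) (XT.lf (nat_lit 0) (nat_lit 64461452553) (nat_lit 152) (nat_lit 199482442381) (nat_lit 0) (nat_lit 43374337629) (nat_lit 2) (nat_lit 5) (nat_lit 4) (nat_lit 4) (nat_lit 2) (nat_lit 4) (nat_lit 260) (nat_lit 223) (nat_lit 177)) (XT.lf (nat_lit 0) (nat_lit 95346726784) (nat_lit 152) (nat_lit 181852134007) (nat_lit 0) (nat_lit 74255165429) (nat_lit 2) (nat_lit 5) (nat_lit 4) (nat_lit 4) (nat_lit 2) (nat_lit 4) (nat_lit 261) (nat_lit 223) (nat_lit 176)))) (XT.nd (nat_lit 78) (nat_lit 0) (nat_lit 0) (XT.lf (nat_lit 0) (nat_lit 130855223865) (nat_lit 152) (nat_lit 161595938869)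 (nat_lit 0) (nat_lit 109759796050) (nat_lit 2) (nat_lit 5) (nat_lit 4) (nat_lit 4) (nat_lit 2) (nat_lit 4) (nat_lit 262) (nat_lit 223) (nat_lit 175)) (XT.nd (nat_lit 78) (nat_lit 0) (nat_lit 0) (XT.lf (nat_lit 0) (nat_lit 171681675261) (nat_lit 152) (nat_lit 138317540108) (nat_lit 0) (nat_lit 150582885306) (nat_lit 2) (nat_lit 5) (nat_lit 4) (nat_lit 4) (nat_lit 2) (nat_lit 4) (nat_lit 263) (nat_lit 223) (nat_lit 174)) (XT.lf (nat_lit 0) (nat_lit 218624859369) (nat_lit 152) (nat_lit 111561490789) (nat_lit 0) (nat_lit 197523145815) (nat_lit 2) (nat_lit 5) (nat_lit 4) (nat_lit 4) (nat_lit 2) (nat_lit 4) (nat_lit 264) (nat_lit 223) (nat_lit 173)))))) (XT.nd (nat_lit 468) (nat_lit 0) (nat_lit 0) (XT.nd (nat_lit 234) (nat_lit 76) (nat_lit 0) (XT.nd (nat_lit 78) (nat_lit 0) (nat_lit 0) (XT.lf (nat_lit 0) (nat_lit 272603229792) (nat_lit 152) (nat_lit 80804302993) (nat_lit 0) (nat_lit 251498973976)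 (nat_lit 2) (nat_lit 5) (nat_lit 4) (nat_lit 4) (nat_lit 2) (nat_lit 4) (nat_lit 265) (nat_lit 223) (nat_lit 172)) (XT.nd (nat_lit 78) (nat_lit 0) (nat_lit 0) (XT.lf (nat_lit 0) (nat_lit 334672885080) (nat_lit 152) (nat_lit 45444205653) (nat_lit 0) (nat_lit 313566418603) (nat_lit 2) (nat_lit 5) (nat_lit 4) (nat_lit 4) (nat_lit 2) (nat_lit 4) (nat_lit 266) (nat_lit 223) (nat_lit 171)) (XT.lf (nat_lit 0) (nat_lit 406048231533) (nat_lit 152) (nat_lit 4789370778) (nat_lit 0) (nat_lit 384939842741) (nat_lit 2) (nat_lit 5) (nat_lit 4) (nat_lit 4) (nat_lit 2) (nat_lit 4) (nat_lit 267) (nat_lit 223) (nat_lit 170)))) (XT.nd (nat_lit 78) (nat_lit 0) (nat_lit 0) (XT.lf (nat_lit 0) (nat_lit 44164931033) (nat_lit 76) (nat_lit 445022979940) (nat_lit 76) (nat_lit 423912919571) (nat_lit 1) (nat_lit 4) (nat_lit 2) (nat_lit 5) (nat_lit 2) (nat_lit 4) (nat_lit 268) (nat_lit 223) (nat_lit 169)) (XT.nd (nat_lit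 78) (nat_lit 0) (nat_lit 0) (XT.lf (nat_lit 0) (nat_lit 100745023680) (nat_lit 76) (nat_lit 484189181365) (nat_lit 76) (nat_lit 463077667450) (nat_lit 1) (nat_lit 4) (nat_lit 2) (nat_lit 5) (nat_lit 2) (nat_lit 4) (nat_lit 269) (nat_lit 223) (nat_lit 168)) (XT.lf (nat_lit 0) (nat_lit 165805709197) (nat_lit 76) (nat_lit 529233451717) (nat_lit 76) (nat_lit 508120673849) (nat_lit 1) (nat_lit 4) (nat_lit 2) (nat_lit 5) (nat_lit 2) (nat_lit 4) (nat_lit 270) (nat_lit 223) (nat_lit 167))))) (XT.nd (nat_lit 234) (nat_lit 0) (nat_lit 0) (XT.nd (nat_lit 78) (nat_lit 0) (nat_lit 0) (XT.lf (nat_lit 0) (nat_lit 240619914039) (nat_lit 76) (nat_lit 581037091936) (nat_lit 76) (nat_lit 559923214979) (nat_lit 1) (nat_lit 4) (nat_lit 2) (nat_lit 5) (nat_lit 2) (nat_lit 4) (nat_lit 271) (nat_lit 223) (nat_lit 166)) (XT.nd (nat_lit 78) (nat_lit 0) (nat_lit 0) (XT.lf (nat_lit 0) (nat_lit 326651394389) (nat_lit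 76) (nat_lit 640613651505) (nat_lit 76) (nat_lit 619498818818) (nat_lit 1) (nat_lit 4) (nat_lit 2) (nat_lit 5) (nat_lit 2) (nat_lit 4) (nat_lit 272) (nat_lit 223) (nat_lit 165)) (XT.lf (nat_lit 0) (nat_lit 425583374861) (nat_lit 76) (nat_lit 709128758764) (nat_lit 76) (nat_lit 688013095008) (nat_lit 1) (nat_lit 4) (nat_lit 2) (nat_lit 5) (nat_lit 2) (nat_lit 4) (nat_lit 273) (nat_lit 223) (nat_lit 164)))) (XT.nd (nat_lit 156) (nat_lit 0) (nat_lit 0) (XT.nd (nat_lit 78) (nat_lit 0) (nat_lit 0) (XT.lf (nat_lit 0) (nat_lit 539351481161) (nat_lit 76) (nat_lit 787922926682) (nat_lit 76) (nat_lit 766806540256) (nat_lit 1) (nat_lit 4) (nat_lit 2) (nat_lit 5) (nat_lit 2) (nat_lit 4) (nat_lit 274) (nat_lit 223) (nat_lit 163)) (XT.lf (nat_lit 0) (nat_lit 670181611021) (nat_lit 76) (nat_lit 878537780281) (nat_lit 76) (nat_lit 857420765447) (nat_lit 1) (nat_lit 4) (nat_lit 2) (nat_lit 5) (nat_lit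 2) (nat_lit 4) (nat_lit 275) (nat_lit 223) (nat_lit 162))) (XT.nd (nat_lit 78) (nat_lit 0) (nat_lit 0) (XT.lf (nat_lit 0) (nat_lit 820633484372) (nat_lit 76) (nat_lit 982746218872) (nat_lit 76) (nat_lit 961628657597) (nat_lit 1) (nat_lit 4) (nat_lit 2) (nat_lit 5) (nat_lit 2) (nat_lit 4) (nat_lit 276) (nat_lit 223) (nat_lit 161)) (XT.lf (nat_lit 0) (nat_lit 993650724824) (nat_lit 76) (nat_lit 1102587103210) (nat_lit 76) (nat_lit 1081469066768) (nat_lit 1) (nat_lit 4) (nat_lit 2) (nat_lit 5) (nat_lit 2) (nat_lit 4) (nat_lit 277) (nat_lit 223) (nat_lit 160))))))) (XT.nd (nat_lit 30342) (nat_lit 0) (nat_lit 1368) (XT.nd (nat_lit 468) (nat_lit 0) (nat_lit 0) (XT.nd (nat_lit 234) (nat_lit 0) (nat_lit 0) (XT.nd (nat_lit 78) (nat_lit 0) (nat_lit 0) (XT.lf (nat_lit 0) (nat_lit 1192618452299) (nat_lit 76) (nat_lit 1240405146249) (nat_lit 76) (nat_lit 1219286696619) (nat_lit 1) (nat_lit 4) (nat_lit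 2) (nat_lit 5) (nat_lit 2) (nat_lit 4) (nat_lit 278) (nat_lit 223) (nat_lit 159)) (XT.nd (nat_lit 78) (nat_lit 0) (nat_lit 0) (XT.lf (nat_lit 0) (nat_lit 1421429513638) (nat_lit 76) (nat_lit 1398896787963) (nat_lit 76) (nat_lit 1377777979038) (nat_lit 1) (nat_lit 4) (nat_lit 2) (nat_lit 5) (nat_lit 2) (nat_lit 4) (nat_lit 279) (nat_lit 223) (nat_lit 158)) (XT.lf (nat_lit 0) (nat_lit 1684560646998) (nat_lit 76) (nat_lit 1581162951774) (nat_lit 76) (nat_lit 1560043830420) (nat_lit 1) (nat_lit 4) (nat_lit 2) (nat_lit 5) (nat_lit 2) (nat_lit 4) (nat_lit 280) (nat_lit 223) (nat_lit 157)))) (XT.nd (nat_lit 78) (nat_lit 0) (nat_lit 0) (XT.lf (nat_lit 0) (nat_lit 1987160070207) (nat_lit 76) (nat_lit 1790769714803) (nat_lit 76) (nat_lit 1769650321770) (nat_lit 1) (nat_lit 4) (nat_lit 2) (nat_lit 5) (nat_lit 2) (nat_lit 4) (nat_lit 281) (nat_lit 223) (nat_lit 156)) (XT.nd (nat_lit 78) (nat_lit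 0) (nat_lit 0) (XT.lf (nat_lit 0) (nat_lit 2335148206760) (nat_lit 76) (nat_lit 2031818078934) (nat_lit 76) (nat_lit 2010698449659) (nat_lit 1) (nat_lit 4) (nat_lit 2) (nat_lit 5) (nat_lit 2) (nat_lit 4) (nat_lit 282) (nat_lit 223) (nat_lit 155)) (XT.lf (nat_lit 0) (nat_lit 2735333520200) (nat_lit 76) (nat_lit 2309024207812) (nat_lit 76) (nat_lit 2287904373110) (nat_lit 1) (nat_lit 4) (nat_lit 2) (nat_lit 5) (nat_lit 2) (nat_lit 4) (nat_lit 283) (nat_lit 223) (nat_lit 154))))) (XT.nd (nat_lit 234) (nat_lit 0) (nat_lit 0) (XT.nd (nat_lit 78) (nat_lit 0) (nat_lit 0) (XT.lf (nat_lit 0) (nat_lit 3195545723181) (nat_lit 76) (nat_lit 2627811699613) (nat_lit 76) (nat_lit 2606691686278) (nat_lit 1) (nat_lit 4) (nat_lit 2) (nat_lit 5) (nat_lit 2) (nat_lit 4) (nat_lit 284) (nat_lit 223) (nat_lit 153)) (XT.nd (nat_lit 78) (nat_lit 0) (nat_lit 0) (XT.lf (nat_lit 0) (nat_lit 3724788967500) (nat_lit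 76) (nat_lit 2994417700914) (nat_lit 76) (nat_lit 2973297532246) (nat_lit 1) (nat_lit 4) (nat_lit 2) (nat_lit 5) (nat_lit 2) (nat_lit 4) (nat_lit 285) (nat_lit 223) (nat_lit 152)) (XT.lf (nat_lit 0) (nat_lit 4333418012286) (nat_lit 76) (nat_lit 3416014937828) (nat_lit 76) (nat_lit 3394894634088) (nat_lit 1) (nat_lit 4) (nat_lit 2) (nat_lit 5) (nat_lit 2) (nat_lit 4) (nat_lit 286) (nat_lit 223) (nat_lit 151)))) (XT.nd (nat_lit 29484) (nat_lit 0) (nat_lit 3876) (XT.lf (nat_lit 0) (nat_lit 5033340817110) (nat_lit 76) (nat_lit 3900852051946) (nat_lit 76) (nat_lit 3879731630753) (nat_lit 1) (nat_lit 4) (nat_lit 2) (nat_lit 5) (nat_lit 2) (nat_lit 4) (nat_lit 287) (nat_lit 223) (nat_lit 150)) (XT.nd (nat_lit 78) (nat_lit 0) (nat_lit 0) (XT.lf (nat_lit 0) (nat_lit 497608013) (nat_lit 0) (nat_lit 497608013) (nat_lit 380) (nat_lit 2996696351) (nat_lit 52) (nat_lit 5) (nat_lit 52) (nat_lit 3) (nat_lit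 57) (nat_lit 3) (nat_lit 224) (nat_lit 224) (nat_lit 212)) (XT.lf (nat_lit 0) (nat_lit 4294595347) (nat_lit 380) (nat_lit 172750337) (nat_lit 456) (nat_lit 3936303151) (nat_lit 52) (nat_lit 5) (nat_lit 57) (nat_lit 3) (nat_lit 58) (nat_lit 5) (nat_lit 225) (nat_lit 224) (nat_lit 211)))))) (XT.nd (nat_lit 468) (nat_lit 1216) (nat_lit 0) (XT.nd (nat_lit 234) (nat_lit 912) (nat_lit 0) (XT.nd (nat_lit 78) (nat_lit 456) (nat_lit 0) (XT.lf (nat_lit 0) (nat_lit 6822573848) (nat_lit 380) (nat_lit 1112787536) (nat_lit 456) (nat_lit 962000110) (nat_lit 53) (nat_lit 5) (nat_lit 58) (nat_lit 5) (nat_lit 59) (nat_lit 5) (nat_lit 226) (nat_lit 224) (nat_lit 210)) (XT.nd (nat_lit 78) (nat_lit 0) (nat_lit 76) (XT.lf (nat_lit 0) (nat_lit 243122385) (nat_lit 456) (nat_lit 1968755291) (nat_lit 532) (nat_lit 7254347132) (nat_lit 47) (nat_lit 5) (nat_lit 53) (nat_lit 5) (nat_lit 54) (nat_lit 5) (nat_lit 227)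 (nat_lit 224) (nat_lit 209)) (XT.lf (nat_lit 0) (nat_lit 2826882322) (nat_lit 456) (nat_lit 2799143474) (nat_lit 76) (nat_lit 4487618771) (nat_lit 48) (nat_lit 5) (nat_lit 54) (nat_lit 5) (nat_lit 49) (nat_lit 5) (nat_lit 228) (nat_lit 224) (nat_lit 208)))) (XT.nd (nat_lit 78) (nat_lit 532) (nat_lit 0) (XT.lf (nat_lit 0) (nat_lit 5875984335) (nat_lit 532) (nat_lit 3560145652) (nat_lit 76) (nat_lit 1416537502) (nat_lit 42) (nat_lit 5) (nat_lit 49) (nat_lit 5) (nat_lit 43) (nat_lit 5) (nat_lit 229) (nat_lit 224) (nat_lit 207)) (XT.nd (nat_lit 78) (nat_lit 304) (nat_lit 0) (XT.lf (nat_lit 0) (nat_lit 7353066548) (nat_lit 228) (nat_lit 2219608846) (nat_lit 304) (nat_lit 2115270074) (nat_lit 39) (nat_lit 5) (nat_lit 42) (nat_lit 5) (nat_lit 43) (nat_lit 5) (nat_lit 230) (nat_lit 224) (nat_lit 206)) (XT.lf (nat_lit 0) (nat_lit 1352855849) (nat_lit 304) (nat_lit 5186611791) (nat_lit 76) (nat_lit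 6088381173) (nat_lit 35) (nat_lit 5) (nat_lit 39) (nat_lit 5) (nat_lit 36) (nat_lit 5) (nat_lit 231) (nat_lit 224) (nat_lit 205))))) (XT.nd (nat_lit 234) (nat_lit 608) (nat_lit 0) (XT.nd (nat_lit 78) (nat_lit 380) (nat_lit 0) (XT.lf (nat_lit 0) (nat_lit 5459898495) (nat_lit 304) (nat_lit 6154557909) (nat_lit 76) (nat_lit 2070804002) (nat_lit 32) (nat_lit 5) (nat_lit 36) (nat_lit 5) (nat_lit 33) (nat_lit 5) (nat_lit 232) (nat_lit 224) (nat_lit 204)) (XT.nd (nat_lit 78) (nat_lit 228) (nat_lit 0) (XT.lf (nat_lit 0) (nat_lit 7562802600) (nat_lit 152) (nat_lit 2971114390) (nat_lit 228) (nat_lit 4339670359) (nat_lit 30) (nat_lit 5) (nat_lit 32) (nat_lit 5) (nat_lit 33) (nat_lit 5) (nat_lit 233) (nat_lit 224) (nat_lit 203)) (XT.lf (nat_lit 0) (nat_lit 512677306) (nat_lit 228) (nat_lit 8740943240) (nat_lit 76) (nat_lit 6955378574) (nat_lit 27) (nat_lit 5) (nat_lit 30) (nat_lit 5) (nat_lit 28)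 (nat_lit 5) (nat_lit 234) (nat_lit 224) (nat_lit 202)))) (XT.nd (nat_lit 156) (nat_lit 304) (nat_lit 0) (XT.nd (nat_lit 78) (nat_lit 152) (nat_lit 0) (XT.lf (nat_lit 0) (nat_lit 6198992127) (nat_lit 228) (nat_lit 10598822263) (nat_lit 76) (nat_lit 909109085) (nat_lit 25) (nat_lit 5) (nat_lit 28) (nat_lit 5) (nat_lit 26) (nat_lit 5) (nat_lit 235) (nat_lit 224) (nat_lit 201)) (XT.lf (nat_lit 0) (nat_lit 6320926403) (nat_lit 152) (nat_lit 6959639029) (nat_lit 228) (nat_lit 6105815776) (nat_lit 23) (nat_lit 5) (nat_lit 25) (nat_lit 5) (nat_lit 26) (nat_lit 5) (nat_lit 236) (nat_lit 224) (nat_lit 200))) (XT.nd (nat_lit 78) (nat_lit 152) (nat_lit 0) (XT.lf (nat_lit 0) (nat_lit 540226405) (nat_lit 152) (nat_lit 16207606755) (nat_lit 76) (nat_lit 4534788777) (nat_lit 21) (nat_lit 5) (nat_lit 23) (nat_lit 5) (nat_lit 22) (nat_lit 5) (nat_lit 237) (nat_lit 224) (nat_lit 199)) (XT.lf (nat_lit 0)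 (nat_lit 2898535645) (nat_lit 152) (nat_lit 5478405877) (nat_lit 228) (nat_lit 15029406690) (nat_lit 19) (nat_lit 5) (nat_lit 21) (nat_lit 5) (nat_lit 22) (nat_lit 5) (nat_lit 238) (nat_lit 224) (nat_lit 198))))))))
noncomputable def xc29 : XT := (XT.nd (nat_lit 1950) (nat_lit 76) (nat_lit 0) (XT.nd (nat_lit 936) (nat_lit 380) (nat_lit 0) (XT.nd (nat_lit 468) (nat_lit 380) (nat_lit 0) (XT.nd (nat_lit 234) (nat_lit 228) (nat_lit 0) (XT.nd (nat_lit 78) (nat_lit 304) (nat_lit 0) (XT.lf (nat_lit 0) (nat_lit 17954634178) (nat_lit 228) (nat_lit 313207225) (nat_lit 76) (nat_lit 7535694201) (nat_lit 19) (nat_lit 5) (nat_lit 22) (nat_lit 5) (nat_lit 20) (nat_lit 4) (nat_lit 239) (nat_lit 224) (nat_lit 197)) (XT.nd (nat_lit 78) (nat_lit 152) (nat_lit 0) (XT.lf (nat_lit 0) (nat_lit 1043105945) (nat_lit 152) (nat_lit 4726725886) (nat_lit 76) (nat_lit 22737405921) (nat_lit 17) (nat_lit 5) (nat_lit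 19) (nat_lit 5) (nat_lit 18) (nat_lit 5) (nat_lit 240) (nat_lit 224) (nat_lit 196)) (XT.lf (nat_lit 0) (nat_lit 11466018995) (nat_lit 228) (nat_lit 11219889468) (nat_lit 76) (nat_lit 8861427463) (nat_lit 15) (nat_lit 5) (nat_lit 18) (nat_lit 5) (nat_lit 16) (nat_lit 4) (nat_lit 241) (nat_lit 224) (nat_lit 195)))) (XT.nd (nat_lit 78) (nat_lit 152) (nat_lit 0) (XT.lf (nat_lit 0) (nat_lit 14846260558) (nat_lit 76) (nat_lit 9190432539) (nat_lit 152) (nat_lit 10960094911) (nat_lit 14) (nat_lit 5) (nat_lit 15) (nat_lit 5) (nat_lit 16) (nat_lit 4) (nat_lit 242) (nat_lit 224) (nat_lit 194)) (XT.nd (nat_lit 78) (nat_lit 0) (nat_lit 0) (XT.lf (nat_lit 0) (nat_lit 146355588) (nat_lit 152) (nat_lit 32307031548) (nat_lit 76) (nat_lit 6463764952) (nat_lit 12) (nat_lit 5) (nat_lit 14) (nat_lit 5) (nat_lit 13) (nat_lit 4) (nat_lit 243) (nat_lit 224) (nat_lit 193)) (XT.lf (nat_lit 0) (nat_lit 13081004155)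 (nat_lit 152) (nat_lit 5459569758) (nat_lit 76) (nat_lit 24797386999) (nat_lit 12) (nat_lit 5) (nat_lit 14) (nat_lit 5) (nat_lit 13) (nat_lit 4) (nat_lit 244) (nat_lit 224) (nat_lit 192))))) (XT.nd (nat_lit 234) (nat_lit 152) (nat_lit 0) (XT.nd (nat_lit 78) (nat_lit 152) (nat_lit 0) (XT.lf (nat_lit 0) (nat_lit 26649427425) (nat_lit 76) (nat_lit 1892259837) (nat_lit 152) (nat_lit 19833388634) (nat_lit 11) (nat_lit 5) (nat_lit 12) (nat_lit 5) (nat_lit 13) (nat_lit 4) (nat_lit 245) (nat_lit 224) (nat_lit 191)) (XT.nd (nat_lit 78) (nat_lit 76) (nat_lit 0) (XT.lf (nat_lit 0) (nat_lit 9724300851) (nat_lit 76) (nat_lit 37358023264) (nat_lit 76) (nat_lit 7024610968) (nat_lit 10) (nat_lit 4) (nat_lit 11) (nat_lit 5) (nat_lit 11) (nat_lit 4) (nat_lit 246) (nat_lit 224) (nat_lit 190)) (XT.lf (nat_lit 0) (nat_lit 7973625428) (nat_lit 152) (nat_lit 13782734527) (nat_lit 76) (nat_lit 38875135981) (nat_lit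 9) (nat_lit 5) (nat_lit 11) (nat_lit 5) (nat_lit 10) (nat_lit 4) (nat_lit 247) (nat_lit 224) (nat_lit 189)))) (XT.nd (nat_lit 78) (nat_lit 76) (nat_lit 0) (XT.lf (nat_lit 0) (nat_lit 22249289476) (nat_lit 76) (nat_lit 3061832075) (nat_lit 152) (nat_lit 42768617548) (nat_lit 8) (nat_lit 5) (nat_lit 9) (nat_lit 5) (nat_lit 10) (nat_lit 4) (nat_lit 248) (nat_lit 224) (nat_lit 188)) (XT.nd (nat_lit 78) (nat_lit 76) (nat_lit 0) (XT.lf (nat_lit 0) (nat_lit 46065823380) (nat_lit 152) (nat_lit 12618552927) (nat_lit 0) (nat_lit 17895543358) (nat_lit 8) (nat_lit 5) (nat_lit 10) (nat_lit 4) (nat_lit 8) (nat_lit 4) (nat_lit 249) (nat_lit 224) (nat_lit 187)) (XT.lf (nat_lit 0) (nat_lit 26766488975) (nat_lit 76) (nat_lit 43862164941) (nat_lit 76) (nat_lit 15670903379) (nat_lit 7) (nat_lit 4) (nat_lit 8) (nat_lit 5) (nat_lit 8) (nat_lit 4) (nat_lit 250) (nat_lit 224) (nat_lit 186)))))) (XT.nd (nat_lit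 468) (nat_lit 152) (nat_lit 0) (XT.nd (nat_lit 234) (nat_lit 76) (nat_lit 0) (XT.nd (nat_lit 78) (nat_lit 76) (nat_lit 0) (XT.lf (nat_lit 0) (nat_lit 1674391589) (nat_lit 152) (nat_lit 24726771873) (nat_lit 76) (nat_lit 71045657467) (nat_lit 6) (nat_lit 5) (nat_lit 8) (nat_lit 5) (nat_lit 7) (nat_lit 4) (nat_lit 251) (nat_lit 224) (nat_lit 185)) (XT.nd (nat_lit 78) (nat_lit 0) (nat_lit 0) (XT.lf (nat_lit 0) (nat_lit 15595672696) (nat_lit 76) (nat_lit 5472136983) (nat_lit 152) (nat_lit 89135880513) (nat_lit 5) (nat_lit 5) (nat_lit 6) (nat_lit 5) (nat_lit 7) (nat_lit 4) (nat_lit 252) (nat_lit 224) (nat_lit 184)) (XT.lf (nat_lit 0) (nat_lit 44530715879) (nat_lit 152) (nat_lit 61867211558) (nat_lit 0) (nat_lit 18383338897) (nat_lit 5) (nat_lit 5) (nat_lit 7) (nat_lit 4) (nat_lit 5) (nat_lit 4) (nat_lit 253) (nat_lit 224) (nat_lit 183)))) (XT.nd (nat_lit 78) (nat_lit 76) (nat_lit 0) (XT.lf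 (nat_lit 0) (nat_lit 71642354577) (nat_lit 152) (nat_lit 24408923282) (nat_lit 0) (nat_lit 45483869944) (nat_lit 5) (nat_lit 5) (nat_lit 7) (nat_lit 4) (nat_lit 5) (nat_lit 4) (nat_lit 254) (nat_lit 224) (nat_lit 182)) (XT.nd (nat_lit 78) (nat_lit 0) (nat_lit 0) (XT.lf (nat_lit 0) (nat_lit 19612424833) (nat_lit 76) (nat_lit 83660820307) (nat_lit 76) (nat_lit 57492676847) (nat_lit 4) (nat_lit 4) (nat_lit 5) (nat_lit 5) (nat_lit 5) (nat_lit 4) (nat_lit 255) (nat_lit 224) (nat_lit 181)) (XT.lf (nat_lit 0) (nat_lit 71681442016) (nat_lit 76) (nat_lit 68660484833) (nat_lit 76) (nat_lit 42483942393) (nat_lit 4) (nat_lit 4) (nat_lit 5) (nat_lit 5) (nat_lit 5) (nat_lit 4) (nat_lit 256) (nat_lit 224) (nat_lit 180))))) (XT.nd (nat_lit 234) (nat_lit 0) (nat_lit 0) (XT.nd (nat_lit 78) (nat_lit 152) (nat_lit 0) (XT.lf (nat_lit 0) (nat_lit 131531539263) (nat_lit 76) (nat_lit 51424169832) (nat_lit 76)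 (nat_lit 25240323931) (nat_lit 4) (nat_lit 4) (nat_lit 5) (nat_lit 5) (nat_lit 5) (nat_lit 4) (nat_lit 257) (nat_lit 224) (nat_lit 179)) (XT.nd (nat_lit 78) (nat_lit 152) (nat_lit 0) (XT.lf (nat_lit 0) (nat_lit 200333696737) (nat_lit 76) (nat_lit 31614643055) (nat_lit 76) (nat_lit 5424446318) (nat_lit 4) (nat_lit 4) (nat_lit 5) (nat_lit 5) (nat_lit 5) (nat_lit 4) (nat_lit 258) (nat_lit 224) (nat_lit 178)) (XT.lf (nat_lit 0) (nat_lit 8515756839) (nat_lit 76) (nat_lit 8172452796) (nat_lit 152) (nat_lit 254188999929) (nat_lit 2) (nat_lit 5) (nat_lit 3) (nat_lit 5) (nat_lit 4) (nat_lit 4) (nat_lit 259) (nat_lit 224) (nat_lit 177)))) (XT.nd (nat_lit 156) (nat_lit 0) (nat_lit 0) (XT.nd (nat_lit 78) (nat_lit 0) (nat_lit 0) (XT.lf (nat_lit 0) (nat_lit 43352872514) (nat_lit 152) (nat_lit 246825523271) (nat_lit 0) (nat_lit 19093130526) (nat_lit 2) (nat_lit 5) (nat_lit 4) (nat_lit 4) (nat_lit 2)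 (nat_lit 4) (nat_lit 260) (nat_lit 224) (nat_lit 176)) (XT.lf (nat_lit 0) (nat_lit 74233696380) (nat_lit 152) (nat_lit 229203893730) (nat_lit 0) (nat_lit 49970087932) (nat_lit 2) (nat_lit 5) (nat_lit 4) (nat_lit 4) (nat_lit 2) (nat_lit 4) (nat_lit 261) (nat_lit 224) (nat_lit 175))) (XT.nd (nat_lit 78) (nat_lit 0) (nat_lit 0) (XT.lf (nat_lit 0) (nat_lit 109738323579) (nat_lit 152) (nat_lit 208955245405) (nat_lit 0) (nat_lit 85471352990) (nat_lit 2) (nat_lit 5) (nat_lit 4) (nat_lit 4) (nat_lit 2) (nat_lit 4) (nat_lit 262) (nat_lit 224) (nat_lit 174)) (XT.lf (nat_lit 0) (nat_lit 150561409860) (nat_lit 152) (nat_lit 185683409089) (nat_lit 0) (nat_lit 126291515672) (nat_lit 2) (nat_lit 5) (nat_lit 4) (nat_lit 4) (nat_lit 2) (nat_lit 4) (nat_lit 263) (nat_lit 224) (nat_lit 173))))))) (XT.nd (nat_lit 936) (nat_lit 0) (nat_lit 0) (XT.nd (nat_lit 468) (nat_lit 0) (nat_lit 0) (XT.nd (nat_lit 234)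 (nat_lit 76) (nat_lit 0) (XT.nd (nat_lit 78) (nat_lit 0) (nat_lit 0) (XT.lf (nat_lit 0) (nat_lit 197501667781) (nat_lit 152) (nat_lit 158933066245) (nat_lit 0) (nat_lit 173229231332) (nat_lit 2) (nat_lit 5) (nat_lit 4) (nat_lit 4) (nat_lit 2) (nat_lit 4) (nat_lit 264) (nat_lit 224) (nat_lit 172)) (XT.nd (nat_lit 78) (nat_lit 0) (nat_lit 0) (XT.lf (nat_lit 0) (nat_lit 251477493692) (nat_lit 152) (nat_lit 128180840600) (nat_lit 0) (nat_lit 227202846582) (nat_lit 2) (nat_lit 5) (nat_lit 4) (nat_lit 4) (nat_lit 2) (nat_lit 4) (nat_lit 265) (nat_lit 224) (nat_lit 171)) (XT.lf (nat_lit 0) (nat_lit 313544936363) (nat_lit 152) (nat_lit 92825058174) (nat_lit 0) (nat_lit 289268366938) (nat_lit 2) (nat_lit 5) (nat_lit 4) (nat_lit 4) (nat_lit 2) (nat_lit 4) (nat_lit 266) (nat_lit 224) (nat_lit 170)))) (XT.nd (nat_lit 78) (nat_lit 76) (nat_lit 0) (XT.lf (nat_lit 0) (nat_lit 384918358800) (nat_lit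 152) (nat_lit 52173975398) (nat_lit 0) (nat_lit 360640117798) (nat_lit 2) (nat_lit 5) (nat_lit 4) (nat_lit 4) (nat_lit 2) (nat_lit 4) (nat_lit 267) (nat_lit 224) (nat_lit 169)) (XT.nd (nat_lit 78) (nat_lit 76) (nat_lit 0) (XT.lf (nat_lit 0) (nat_lit 466994197531) (nat_lit 152) (nat_lit 5432245001) (nat_lit 0) (nat_lit 442714502983) (nat_lit 2) (nat_lit 5) (nat_lit 4) (nat_lit 4) (nat_lit 2) (nat_lit 4) (nat_lit 268) (nat_lit 224) (nat_lit 168)) (XT.lf (nat_lit 0) (nat_lit 50858808726) (nat_lit 76) (nat_lit 511742631029) (nat_lit 76) (nat_lit 487461672528) (nat_lit 1) (nat_lit 4) (nat_lit 2) (nat_lit 5) (nat_lit 2) (nat_lit 4) (nat_lit 269) (nat_lit 224) (nat_lit 167))))) (XT.nd (nat_lit 234) (nat_lit 0) (nat_lit 0) (XT.nd (nat_lit 78) (nat_lit 0) (nat_lit 0) (XT.lf (nat_lit 0) (nat_lit 115916897265) (nat_lit 76) (nat_lit 556788170829) (nat_lit 76) (nat_lit 532506113239) (nat_lit 1) (nat_lit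 4) (nat_lit 2) (nat_lit 5) (nat_lit 2) (nat_lit 4) (nat_lit 270) (nat_lit 224) (nat_lit 166)) (XT.nd (nat_lit 78) (nat_lit 0) (nat_lit 0) (XT.lf (nat_lit 0) (nat_lit 190728843865) (nat_lit 76) (nat_lit 608592914917) (nat_lit 76) (nat_lit 584309901597) (nat_lit 1) (nat_lit 4) (nat_lit 2) (nat_lit 5) (nat_lit 2) (nat_lit 4) (nat_lit 271) (nat_lit 224) (nat_lit 165)) (XT.lf (nat_lit 0) (nat_lit 276758360527) (nat_lit 76) (nat_lit 668170434372) (nat_lit 76) (nat_lit 643886589983) (nat_lit 1) (nat_lit 4) (nat_lit 2) (nat_lit 5) (nat_lit 2) (nat_lit 4) (nat_lit 272) (nat_lit 224) (nat_lit 164)))) (XT.nd (nat_lit 78) (nat_lit 0) (nat_lit 0) (XT.lf (nat_lit 0) (nat_lit 375688633444) (nat_lit 76) (nat_lit 736686376314) (nat_lit 76) (nat_lit 712401809256) (nat_lit 1) (nat_lit 4) (nat_lit 2) (nat_lit 5) (nat_lit 2) (nat_lit 4) (nat_lit 273) (nat_lit 224) (nat_lit 163)) (XT.nd (nat_lit 78) (nat_lit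 0) (nat_lit 0) (XT.lf (nat_lit 0) (nat_lit 489455254914) (nat_lit 76) (nat_lit 815481270043) (nat_lit 76) (nat_lit 791196074577) (nat_lit 1) (nat_lit 4) (nat_lit 2) (nat_lit 5) (nat_lit 2) (nat_lit 4) (nat_lit 274) (nat_lit 224) (nat_lit 162)) (XT.lf (nat_lit 0) (nat_lit 620284093616) (nat_lit 76) (nat_lit 906096754783) (nat_lit 76) (nat_lit 881811012875) (nat_lit 1) (nat_lit 4) (nat_lit 2) (nat_lit 5) (nat_lit 2) (nat_lit 4) (nat_lit 275) (nat_lit 224) (nat_lit 161)))))) (XT.nd (nat_lit 468) (nat_lit 0) (nat_lit 0) (XT.nd (nat_lit 234) (nat_lit 0) (nat_lit 0) (XT.nd (nat_lit 78) (nat_lit 0) (nat_lit 0) (XT.lf (nat_lit 0) (nat_lit 770734844223) (nat_lit 76) (nat_lit 1010305742192) (nat_lit 76) (nat_lit 986019525117) (nat_lit 1) (nat_lit 4) (nat_lit 2) (nat_lit 5) (nat_lit 2) (nat_lit 4) (nat_lit 276) (nat_lit 224) (nat_lit 160)) (XT.nd (nat_lit 78) (nat_lit 0) (nat_lit 0) (XT.lf (nat_lit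 0) (nat_lit 943751108375) (nat_lit 76) (nat_lit 1130147103763) (nat_lit 76) (nat_lit 1105860473499) (nat_lit 1) (nat_lit 4) (nat_lit 2) (nat_lit 5) (nat_lit 2) (nat_lit 4) (nat_lit 277) (nat_lit 224) (nat_lit 159)) (XT.lf (nat_lit 0) (nat_lit 1142717986893) (nat_lit 76) (nat_lit 1267965561787) (nat_lit 76) (nat_lit 1243678572229) (nat_lit 1) (nat_lit 4) (nat_lit 2) (nat_lit 5) (nat_lit 2) (nat_lit 4) (nat_lit 278) (nat_lit 224) (nat_lit 158)))) (XT.nd (nat_lit 78) (nat_lit 0) (nat_lit 0) (XT.lf (nat_lit 0) (nat_lit 1371528310009) (nat_lit 76) (nat_lit 1426457564357) (nat_lit 76) (nat_lit 1402170262369) (nat_lit 1) (nat_lit 4) (nat_lit 2) (nat_lit 5) (nat_lit 2) (nat_lit 4) (nat_lit 279) (nat_lit 224) (nat_lit 157)) (XT.nd (nat_lit 78) (nat_lit 0) (nat_lit 0) (XT.lf (nat_lit 0) (nat_lit 1634658801436) (nat_lit 76) (nat_lit 1608724041957) (nat_lit 76) (nat_lit 1584436468291) (nat_lit 1)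 (nat_lit 4) (nat_lit 2) (nat_lit 5) (nat_lit 2) (nat_lit 4) (nat_lit 280) (nat_lit 224) (nat_lit 156)) (XT.lf (nat_lit 0) (nat_lit 1937257666442) (nat_lit 76) (nat_lit 1818331077845) (nat_lit 76) (nat_lit 1794043267938) (nat_lit 1) (nat_lit 4) (nat_lit 2) (nat_lit 5) (nat_lit 2) (nat_lit 4) (nat_lit 281) (nat_lit 224) (nat_lit 155))))) (XT.nd (nat_lit 234) (nat_lit 0) (nat_lit 0) (XT.nd (nat_lit 78) (nat_lit 0) (nat_lit 0) (XT.lf (nat_lit 0) (nat_lit 2285245317602) (nat_lit 76) (nat_lit 2059379679245) (nat_lit 76) (nat_lit 2035091663910) (nat_lit 1) (nat_lit 4) (nat_lit 2) (nat_lit 5) (nat_lit 2) (nat_lit 4) (nat_lit 282) (nat_lit 224) (nat_lit 154)) (XT.nd (nat_lit 78) (nat_lit 0) (nat_lit 0) (XT.lf (nat_lit 0) (nat_lit 2685430208960) (nat_lit 76) (nat_lit 2336586014444) (nat_lit 76) (nat_lit 2312297820476) (nat_lit 1) (nat_lit 4) (nat_lit 2) (nat_lit 5) (nat_lit 2) (nat_lit 4) (nat_lit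 283) (nat_lit 224) (nat_lit 153)) (XT.lf (nat_lit 0) (nat_lit 3145642044914) (nat_lit 76) (nat_lit 2655373685654) (nat_lit 76) (nat_lit 2631085336354) (nat_lit 1) (nat_lit 4) (nat_lit 2) (nat_lit 5) (nat_lit 2) (nat_lit 4) (nat_lit 284) (nat_lit 224) (nat_lit 152)))) (XT.nd (nat_lit 156) (nat_lit 0) (nat_lit 0) (XT.nd (nat_lit 78) (nat_lit 0) (nat_lit 0) (XT.lf (nat_lit 0) (nat_lit 3674884970079) (nat_lit 76) (nat_lit 3021979842964) (nat_lit 76) (nat_lit 2997691358591) (nat_lit 1) (nat_lit 4) (nat_lit 2) (nat_lit 5) (nat_lit 2) (nat_lit 4) (nat_lit 285) (nat_lit 224) (nat_lit 151)) (XT.lf (nat_lit 0) (nat_lit 4283513737339) (nat_lit 76) (nat_lit 3443577215537) (nat_lit 76) (nat_lit 3419288613710) (nat_lit 1) (nat_lit 4) (nat_lit 2) (nat_lit 5) (nat_lit 2) (nat_lit 4) (nat_lit 286) (nat_lit 224) (nat_lit 150))) (XT.nd (nat_lit 29562) (nat_lit 0) (nat_lit 3876) (XT.lf (nat_lit 0) (nat_lit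 4983436300836) (nat_lit 76) (nat_lit 3928414447620) (nat_lit 76) (nat_lit 3904125743660) (nat_lit 1) (nat_lit 4) (nat_lit 2) (nat_lit 5) (nat_lit 2) (nat_lit 4) (nat_lit 287) (nat_lit 224) (nat_lit 149)) (XT.lf (nat_lit 0) (nat_lit 1557311740) (nat_lit 0) (nat_lit 1557311740) (nat_lit 380) (nat_lit 1312165588) (nat_lit 52) (nat_lit 5) (nat_lit 52) (nat_lit 3) (nat_lit 57) (nat_lit 3) (nat_lit 225) (nat_lit 225) (nat_lit 210))))))))
noncomputable def xc30 : XT := (XT.nd (nat_lit 1950) (nat_lit 532) (nat_lit 0) (XT.nd (nat_lit 936) (nat_lit 1140) (nat_lit 0) (XT.nd (nat_lit 468) (nat_lit 1216) (nat_lit 0) (XT.nd (nat_lit 234) (nat_lit 608) (nat_lit 0) (XT.nd (nat_lit 78) (nat_lit 380) (nat_lit 0) (XT.lf (nat_lit 76) (nat_lit 1937682567) (nat_lit 0) (nat_lit 6432806477) (nat_lit 456) (nat_lit 1008213963) (nat_lit 53) (nat_lit 5) (nat_lit 52) (nat_lit 5) (nat_lit 58) (nat_lit 5) (nat_lit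 226) (nat_lit 225) (nat_lit 209)) (XT.nd (nat_lit 78) (nat_lit 0) (nat_lit 0) (XT.lf (nat_lit 0) (nat_lit 803219414) (nat_lit 456) (nat_lit 9096016305) (nat_lit 532) (nat_lit 82909375) (nat_lit 47) (nat_lit 5) (nat_lit 53) (nat_lit 5) (nat_lit 54) (nat_lit 5) (nat_lit 227) (nat_lit 225) (nat_lit 208)) (XT.lf (nat_lit 0) (nat_lit 2977944346) (nat_lit 456) (nat_lit 153278211) (nat_lit 532) (nat_lit 7531396466) (nat_lit 47) (nat_lit 5) (nat_lit 53) (nat_lit 5) (nat_lit 54) (nat_lit 5) (nat_lit 228) (nat_lit 225) (nat_lit 207)))) (XT.nd (nat_lit 78) (nat_lit 684) (nat_lit 0) (XT.lf (nat_lit 0) (nat_lit 5632695903) (nat_lit 456) (nat_lit 1077712129) (nat_lit 76) (nat_lit 4723070097) (nat_lit 48) (nat_lit 5) (nat_lit 54) (nat_lit 5) (nat_lit 49) (nat_lit 5) (nat_lit 229) (nat_lit 225) (nat_lit 206)) (XT.nd (nat_lit 78) (nat_lit 228) (nat_lit 0) (XT.lf (nat_lit 0) (nat_lit 8871830662) (nat_lit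 532) (nat_lit 1955049698) (nat_lit 76) (nat_lit 1478730816) (nat_lit 42) (nat_lit 5) (nat_lit 49) (nat_lit 5) (nat_lit 43) (nat_lit 5) (nat_lit 230) (nat_lit 225) (nat_lit 205)) (XT.lf (nat_lit 0) (nat_lit 10414078665) (nat_lit 228) (nat_lit 2480240262) (nat_lit 304) (nat_lit 390915033) (nat_lit 39) (nat_lit 5) (nat_lit 42) (nat_lit 5) (nat_lit 43) (nat_lit 5) (nat_lit 231) (nat_lit 225) (nat_lit 204))))) (XT.nd (nat_lit 234) (nat_lit 532) (nat_lit 0) (XT.nd (nat_lit 78) (nat_lit 380) (nat_lit 0) (XT.lf (nat_lit 0) (nat_lit 3291576542) (nat_lit 304) (nat_lit 3935710850) (nat_lit 76) (nat_lit 7151814206) (nat_lit 35) (nat_lit 5) (nat_lit 39) (nat_lit 5) (nat_lit 36) (nat_lit 5) (nat_lit 232) (nat_lit 225) (nat_lit 203)) (XT.nd (nat_lit 78) (nat_lit 152) (nat_lit 0) (XT.lf (nat_lit 0) (nat_lit 7840222311) (nat_lit 304) (nat_lit 5100018918) (nat_lit 76) (nat_lit 2669369678) (nat_lit 32)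 (nat_lit 5) (nat_lit 36) (nat_lit 5) (nat_lit 33) (nat_lit 5) (nat_lit 233) (nat_lit 225) (nat_lit 202)) (XT.lf (nat_lit 0) (nat_lit 10507541294) (nat_lit 152) (nat_lit 3007687567) (nat_lit 228) (nat_lit 3474227830) (nat_lit 30) (nat_lit 5) (nat_lit 32) (nat_lit 5) (nat_lit 33) (nat_lit 5) (nat_lit 234) (nat_lit 225) (nat_lit 201)))) (XT.nd (nat_lit 78) (nat_lit 304) (nat_lit 0) (XT.lf (nat_lit 0) (nat_lit 1894264406) (nat_lit 228) (nat_lit 8227411571) (nat_lit 76) (nat_lit 8411825695) (nat_lit 27) (nat_lit 5) (nat_lit 30) (nat_lit 5) (nat_lit 28) (nat_lit 5) (nat_lit 235) (nat_lit 225) (nat_lit 200)) (XT.nd (nat_lit 78) (nat_lit 152) (nat_lit 0) (XT.lf (nat_lit 0) (nat_lit 8315436884) (nat_lit 228) (nat_lit 10434215603) (nat_lit 76) (nat_lit 1516231857) (nat_lit 25) (nat_lit 5) (nat_lit 28) (nat_lit 5) (nat_lit 26) (nat_lit 5) (nat_lit 236) (nat_lit 225) (nat_lit 199)) (XT.lf (nat_lit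 0) (nat_lit 8874991603) (nat_lit 152) (nat_lit 7468103764) (nat_lit 228) (nat_lit 5863737867) (nat_lit 23) (nat_lit 5) (nat_lit 25) (nat_lit 5) (nat_lit 26) (nat_lit 5) (nat_lit 237) (nat_lit 225) (nat_lit 198)))))) (XT.nd (nat_lit 468) (nat_lit 456) (nat_lit 0) (XT.nd (nat_lit 234) (nat_lit 304) (nat_lit 0) (XT.nd (nat_lit 78) (nat_lit 228) (nat_lit 0) (XT.lf (nat_lit 0) (nat_lit 1627250346) (nat_lit 152) (nat_lit 17045966233) (nat_lit 76) (nat_lit 5719814179) (nat_lit 21) (nat_lit 5) (nat_lit 23) (nat_lit 5) (nat_lit 22) (nat_lit 5) (nat_lit 238) (nat_lit 225) (nat_lit 197)) (XT.nd (nat_lit 78) (nat_lit 76) (nat_lit 0) (XT.lf (nat_lit 0) (nat_lit 4791276503) (nat_lit 152) (nat_lit 5752044128) (nat_lit 228) (nat_lit 16299883850) (nat_lit 19) (nat_lit 5) (nat_lit 21) (nat_lit 5) (nat_lit 22) (nat_lit 5) (nat_lit 239) (nat_lit 225) (nat_lit 196)) (XT.lf (nat_lit 0) (nat_lit 1011153795)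 (nat_lit 76) (nat_lit 20463620081) (nat_lit 152) (nat_lit 8131998301) (nat_lit 18) (nat_lit 5) (nat_lit 19) (nat_lit 5) (nat_lit 20) (nat_lit 4) (nat_lit 240) (nat_lit 225) (nat_lit 195)))) (XT.nd (nat_lit 78) (nat_lit 228) (nat_lit 0) (XT.lf (nat_lit 0) (nat_lit 1946407016) (nat_lit 152) (nat_lit 4186526993) (nat_lit 76) (nat_lit 26589726166) (nat_lit 17) (nat_lit 5) (nat_lit 19) (nat_lit 5) (nat_lit 18) (nat_lit 5) (nat_lit 241) (nat_lit 225) (nat_lit 194)) (XT.nd (nat_lit 78) (nat_lit 76) (nat_lit 0) (XT.lf (nat_lit 0) (nat_lit 13874064633) (nat_lit 228) (nat_lit 11715674097) (nat_lit 76) (nat_lit 10633849269) (nat_lit 15) (nat_lit 5) (nat_lit 18) (nat_lit 5) (nat_lit 16) (nat_lit 4) (nat_lit 242) (nat_lit 225) (nat_lit 193)) (XT.lf (nat_lit 0) (nat_lit 18159907968) (nat_lit 76) (nat_lit 10106809489) (nat_lit 152) (nat_lit 11928934171) (nat_lit 14) (nat_lit 5) (nat_lit 15) (nat_lit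 5) (nat_lit 16) (nat_lit 4) (nat_lit 243) (nat_lit 225) (nat_lit 192))))) (XT.nd (nat_lit 234) (nat_lit 228) (nat_lit 0) (XT.nd (nat_lit 78) (nat_lit 76) (nat_lit 0) (XT.lf (nat_lit 0) (nat_lit 761402417) (nat_lit 152) (nat_lit 36090381043) (nat_lit 76) (nat_lit 7854936032) (nat_lit 12) (nat_lit 5) (nat_lit 14) (nat_lit 5) (nat_lit 13) (nat_lit 4) (nat_lit 244) (nat_lit 225) (nat_lit 191)) (XT.nd (nat_lit 78) (nat_lit 76) (nat_lit 0) (XT.lf (nat_lit 0) (nat_lit 15558888249) (nat_lit 152) (nat_lit 5354413711) (nat_lit 76) (nat_lit 28883609255) (nat_lit 12) (nat_lit 5) (nat_lit 14) (nat_lit 5) (nat_lit 13) (nat_lit 4) (nat_lit 245) (nat_lit 225) (nat_lit 190)) (XT.lf (nat_lit 0) (nat_lit 31492713305) (nat_lit 76) (nat_lit 1799034169) (nat_lit 152) (nat_lit 22301663360) (nat_lit 11) (nat_lit 5) (nat_lit 12) (nat_lit 5) (nat_lit 13) (nat_lit 4) (nat_lit 246) (nat_lit 225) (nat_lit 189))))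 (XT.nd (nat_lit 156) (nat_lit 76) (nat_lit 0) (XT.nd (nat_lit 78) (nat_lit 76) (nat_lit 0) (XT.lf (nat_lit 0) (nat_lit 11983634257) (nat_lit 76) (nat_lit 42595838993) (nat_lit 76) (nat_lit 7608351205) (nat_lit 10) (nat_lit 4) (nat_lit 11) (nat_lit 5) (nat_lit 11) (nat_lit 4) (nat_lit 247) (nat_lit 225) (nat_lit 188)) (XT.lf (nat_lit 0) (nat_lit 9557880142) (nat_lit 152) (nat_lit 15133156162) (nat_lit 76) (nat_lit 45003831780) (nat_lit 9) (nat_lit 5) (nat_lit 11) (nat_lit 5) (nat_lit 10) (nat_lit 4) (nat_lit 248) (nat_lit 225) (nat_lit 187))) (XT.nd (nat_lit 78) (nat_lit 0) (nat_lit 0) (XT.lf (nat_lit 0) (nat_lit 26242981932) (nat_lit 76) (nat_lit 3218166555) (nat_lit 152) (nat_lit 48802025938) (nat_lit 8) (nat_lit 5) (nat_lit 9) (nat_lit 5) (nat_lit 10) (nat_lit 4) (nat_lit 249) (nat_lit 225) (nat_lit 186)) (XT.lf (nat_lit 0) (nat_lit 53289300735) (nat_lit 152) (nat_lit 13922171648) (nat_lit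 0) (nat_lit 20830123583) (nat_lit 8) (nat_lit 5) (nat_lit 10) (nat_lit 4) (nat_lit 8) (nat_lit 4) (nat_lit 250) (nat_lit 225) (nat_lit 185))))))) (XT.nd (nat_lit 936) (nat_lit 76) (nat_lit 0) (XT.nd (nat_lit 468) (nat_lit 152) (nat_lit 0) (XT.nd (nat_lit 234) (nat_lit 76) (nat_lit 0) (XT.nd (nat_lit 78) (nat_lit 152) (nat_lit 0) (XT.lf (nat_lit 0) (nat_lit 31320756724) (nat_lit 76) (nat_lit 50187864322) (nat_lit 76) (nat_lit 17712822111) (nat_lit 7) (nat_lit 4) (nat_lit 8) (nat_lit 5) (nat_lit 8) (nat_lit 4) (nat_lit 251) (nat_lit 225) (nat_lit 184)) (XT.nd (nat_lit 78) (nat_lit 76) (nat_lit 0) (XT.lf (nat_lit 0) (nat_lit 2180570772) (nat_lit 152) (nat_lit 27953250706) (nat_lit 76) (nat_lit 81909464585) (nat_lit 6) (nat_lit 5) (nat_lit 8) (nat_lit 5) (nat_lit 7) (nat_lit 4) (nat_lit 252) (nat_lit 225) (nat_lit 183)) (XT.lf (nat_lit 0) (nat_lit 18376716198) (nat_lit 76) (nat_lit 6083644558)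 (nat_lit 152) (nat_lit 102255156620) (nat_lit 5) (nat_lit 5) (nat_lit 6) (nat_lit 5) (nat_lit 7) (nat_lit 4) (nat_lit 253) (nat_lit 225) (nat_lit 182)))) (XT.nd (nat_lit 78) (nat_lit 76) (nat_lit 0) (XT.lf (nat_lit 0) (nat_lit 51416769877) (nat_lit 152) (nat_lit 70751306371) (nat_lit 0) (nat_lit 21313746071) (nat_lit 5) (nat_lit 5) (nat_lit 7) (nat_lit 4) (nat_lit 5) (nat_lit 4) (nat_lit 254) (nat_lit 225) (nat_lit 181)) (XT.nd (nat_lit 78) (nat_lit 76) (nat_lit 0) (XT.lf (nat_lit 0) (nat_lit 82568226560) (nat_lit 152) (nat_lit 27725925321) (nat_lit 0) (nat_lit 52456803773) (nat_lit 5) (nat_lit 5) (nat_lit 7) (nat_lit 4) (nat_lit 5) (nat_lit 4) (nat_lit 255) (nat_lit 225) (nat_lit 180)) (XT.lf (nat_lit 0) (nat_lit 22869478645) (nat_lit 76) (nat_lit 96058436896) (nat_lit 76) (nat_lit 65939710649) (nat_lit 4) (nat_lit 4) (nat_lit 5) (nat_lit 5) (nat_lit 5) (nat_lit 4) (nat_lit 256) (nat_lit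 225) (nat_lit 179))))) (XT.nd (nat_lit 234) (nat_lit 152) (nat_lit 0) (XT.nd (nat_lit 78) (nat_lit 0) (nat_lit 0) (XT.lf (nat_lit 0) (nat_lit 82707736655) (nat_lit 76) (nat_lit 78827812813) (nat_lit 76) (nat_lit 48702735730) (nat_lit 4) (nat_lit 4) (nat_lit 5) (nat_lit 5) (nat_lit 5) (nat_lit 4) (nat_lit 257) (nat_lit 225) (nat_lit 178)) (XT.nd (nat_lit 78) (nat_lit 0) (nat_lit 0) (XT.lf (nat_lit 0) (nat_lit 151499599141) (nat_lit 76) (nat_lit 59023234659) (nat_lit 76) (nat_lit 28892635111) (nat_lit 4) (nat_lit 4) (nat_lit 5) (nat_lit 5) (nat_lit 5) (nat_lit 4) (nat_lit 258) (nat_lit 225) (nat_lit 177)) (XT.lf (nat_lit 0) (nat_lit 230590993846) (nat_lit 76) (nat_lit 36257221558) (nat_lit 76) (nat_lit 6121819865) (nat_lit 4) (nat_lit 4) (nat_lit 5) (nat_lit 5) (nat_lit 5) (nat_lit 4) (nat_lit 259) (nat_lit 225) (nat_lit 176)))) (XT.nd (nat_lit 78) (nat_lit 0) (nat_lit 0) (XT.lf (nat_lit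 0) (nat_lit 9988195780) (nat_lit 76) (nat_lit 9304002897) (nat_lit 152) (nat_lit 292208484382) (nat_lit 2) (nat_lit 5) (nat_lit 3) (nat_lit 5) (nat_lit 4) (nat_lit 4) (nat_lit 260) (nat_lit 225) (nat_lit 175)) (XT.nd (nat_lit 78) (nat_lit 0) (nat_lit 0) (XT.lf (nat_lit 0) (nat_lit 49945391168) (nat_lit 152) (nat_lit 283674643059) (nat_lit 0) (nat_lit 22035012852) (nat_lit 2) (nat_lit 5) (nat_lit 4) (nat_lit 4) (nat_lit 2) (nat_lit 4) (nat_lit 261) (nat_lit 225) (nat_lit 174)) (XT.lf (nat_lit 0) (nat_lit 85446653251) (nat_lit 152) (nat_lit 263432557179) (nat_lit 0) (nat_lit 57533351336) (nat_lit 2) (nat_lit 5) (nat_lit 4) (nat_lit 4) (nat_lit 2) (nat_lit 4) (nat_lit 262) (nat_lit 225) (nat_lit 173)))))) (XT.nd (nat_lit 468) (nat_lit 76) (nat_lit 0) (XT.nd (nat_lit 234) (nat_lit 0) (nat_lit 0) (XT.nd (nat_lit 78) (nat_lit 0) (nat_lit 0) (XT.lf (nat_lit 0) (nat_lit 126266813345) (nat_lit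 152) (nat_lit 240166427337) (nat_lit 0) (nat_lit 98350969169) (nat_lit 2) (nat_lit 5) (nat_lit 4) (nat_lit 4) (nat_lit 2) (nat_lit 4) (nat_lit 263) (nat_lit 225) (nat_lit 172)) (XT.nd (nat_lit 78) (nat_lit 0) (nat_lit 0) (XT.lf (nat_lit 0) (nat_lit 173204526756) (nat_lit 152) (nat_lit 213421046644) (nat_lit 0) (nat_lit 145286471918) (nat_lit 2) (nat_lit 5) (nat_lit 4) (nat_lit 4) (nat_lit 2) (nat_lit 4) (nat_lit 264) (nat_lit 225) (nat_lit 171)) (XT.lf (nat_lit 0) (nat_lit 227178140050) (nat_lit 152) (nat_lit 182673135914) (nat_lit 0) (nat_lit 199258162898) (nat_lit 2) (nat_lit 5) (nat_lit 4) (nat_lit 4) (nat_lit 2) (nat_lit 4) (nat_lit 265) (nat_lit 225) (nat_lit 170)))) (XT.nd (nat_lit 78) (nat_lit 0) (nat_lit 0) (XT.lf (nat_lit 0) (nat_lit 289243658705) (nat_lit 152) (nat_lit 147321105587) (nat_lit 0) (nat_lit 261322009975) (nat_lit 2) (nat_lit 5) (nat_lit 4) (nat_lit 4) (nat_lit 2)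 (nat_lit 4) (nat_lit 266) (nat_lit 225) (nat_lit 169)) (XT.nd (nat_lit 78) (nat_lit 0) (nat_lit 0) (XT.lf (nat_lit 0) (nat_lit 360615408085) (nat_lit 152) (nat_lit 106673285507) (nat_lit 0) (nat_lit 332692305810) (nat_lit 2) (nat_lit 5) (nat_lit 4) (nat_lit 4) (nat_lit 2) (nat_lit 4) (nat_lit 267) (nat_lit 225) (nat_lit 168)) (XT.lf (nat_lit 0) (nat_lit 442689791984) (nat_lit 152) (nat_lit 59934392236) (nat_lit 0) (nat_lit 414765425755) (nat_lit 2) (nat_lit 5) (nat_lit 4) (nat_lit 4) (nat_lit 2) (nat_lit 4) (nat_lit 268) (nat_lit 225) (nat_lit 167))))) (XT.nd (nat_lit 234) (nat_lit 0) (nat_lit 0) (XT.nd (nat_lit 78) (nat_lit 76) (nat_lit 0) (XT.lf (nat_lit 0) (nat_lit 537072613563) (nat_lit 152) (nat_lit 6189969166) (nat_lit 0) (nat_lit 509147148246) (nat_lit 2) (nat_lit 5) (nat_lit 4) (nat_lit 4) (nat_lit 2) (nat_lit 4) (nat_lit 269) (nat_lit 225) (nat_lit 166)) (XT.nd (nat_lit 78) (nat_lit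 0) (nat_lit 0) (XT.lf (nat_lit 0) (nat_lit 58539908323) (nat_lit 76) (nat_lit 588478471126) (nat_lit 76) (nat_lit 560552050078) (nat_lit 1) (nat_lit 4) (nat_lit 2) (nat_lit 5) (nat_lit 2) (nat_lit 4) (nat_lit 270) (nat_lit 225) (nat_lit 165)) (XT.lf (nat_lit 0) (nat_lit 133349891236) (nat_lit 76) (nat_lit 640284175099) (nat_lit 76) (nat_lit 612356922982) (nat_lit 1) (nat_lit 4) (nat_lit 2) (nat_lit 5) (nat_lit 2) (nat_lit 4) (nat_lit 271) (nat_lit 225) (nat_lit 164)))) (XT.nd (nat_lit 156) (nat_lit 0) (nat_lit 0) (XT.nd (nat_lit 78) (nat_lit 0) (nat_lit 0) (XT.lf (nat_lit 0) (nat_lit 219377700342) (nat_lit 76) (nat_lit 699862529238) (nat_lit 76) (nat_lit 671934554451) (nat_lit 1) (nat_lit 4) (nat_lit 2) (nat_lit 5) (nat_lit 2) (nat_lit 4) (nat_lit 272) (nat_lit 225) (nat_lit 163)) (XT.lf (nat_lit 0) (nat_lit 318306488429) (nat_lit 76) (nat_lit 768379196992) (nat_lit 76) (nat_lit 740450593797)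 (nat_lit 1) (nat_lit 4) (nat_lit 2) (nat_lit 5) (nat_lit 2) (nat_lit 4) (nat_lit 273) (nat_lit 225) (nat_lit 162))) (XT.nd (nat_lit 78) (nat_lit 0) (nat_lit 0) (XT.lf (nat_lit 0) (nat_lit 432071818742) (nat_lit 76) (nat_lit 847174721861) (nat_lit 76) (nat_lit 819245572224) (nat_lit 1) (nat_lit 4) (nat_lit 2) (nat_lit 5) (nat_lit 2) (nat_lit 4) (nat_lit 274) (nat_lit 225) (nat_lit 161)) (XT.lf (nat_lit 0) (nat_lit 562899534700) (nat_lit 76) (nat_lit 937790755418) (nat_lit 76) (nat_lit 909861130615) (nat_lit 1) (nat_lit 4) (nat_lit 2) (nat_lit 5) (nat_lit 2) (nat_lit 4) (nat_lit 275) (nat_lit 225) (nat_lit 160))))))))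
noncomputable def xc31 : XT := (XT.nd (nat_lit 31512) (nat_lit 0) (nat_lit 76) (XT.nd (nat_lit 30498) (nat_lit 0) (nat_lit 1672) (XT.nd (nat_lit 468) (nat_lit 0) (nat_lit 0) (XT.nd (nat_lit 234) (nat_lit 0) (nat_lit 0) (XT.nd (nat_lit 78) (nat_lit 0) (nat_lit 0) (XT.lf (nat_lit 0) (nat_lit 713349309006) (nat_lit 76) (nat_lit 1042000220060) (nat_lit 76) (nat_lit 1014070182069) (nat_lit 1) (nat_lit 4) (nat_lit 2) (nat_lit 5) (nat_lit 2) (nat_lit 4) (nat_lit 276) (nat_lit 225) (nat_lit 159)) (XT.nd (nat_lit 78) (nat_lit 0) (nat_lit 0) (XT.lf (nat_lit 0) (nat_lit 886364724201) (nat_lit 76) (nat_lit 1161841996616) (nat_lit 76) (nat_lit 1133911599330) (nat_lit 1) (nat_lit 4) (nat_lit 2) (nat_lit 5) (nat_lit 2) (nat_lit 4) (nat_lit 277) (nat_lit 225) (nat_lit 158)) (XT.lf (nat_lit 0) (nat_lit 1085330864496) (nat_lit 76) (nat_lit 1299660815497) (nat_lit 76) (nat_lit 1271730105782) (nat_lit 1)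 (nat_lit 4) (nat_lit 2) (nat_lit 5) (nat_lit 2) (nat_lit 4) (nat_lit 278) (nat_lit 225) (nat_lit 157)))) (XT.nd (nat_lit 78) (nat_lit 0) (nat_lit 0) (XT.lf (nat_lit 0) (nat_lit 1314140545679) (nat_lit 76) (nat_lit 1458153131855) (nat_lit 76) (nat_lit 1430222150462) (nat_lit 1) (nat_lit 4) (nat_lit 2) (nat_lit 5) (nat_lit 2) (nat_lit 4) (nat_lit 279) (nat_lit 225) (nat_lit 156)) (XT.nd (nat_lit 78) (nat_lit 0) (nat_lit 0) (XT.lf (nat_lit 0) (nat_lit 1577270478904) (nat_lit 76) (nat_lit 1640419882315) (nat_lit 76) (nat_lit 1612488664679) (nat_lit 1) (nat_lit 4) (nat_lit 2) (nat_lit 5) (nat_lit 2) (nat_lit 4) (nat_lit 280) (nat_lit 225) (nat_lit 155)) (XT.lf (nat_lit 0) (nat_lit 1879868858516) (nat_lit 76) (nat_lit 1850027155472) (nat_lit 76) (nat_lit 1822095732409) (nat_lit 1) (nat_lit 4) (nat_lit 2) (nat_lit 5) (nat_lit 2) (nat_lit 4) (nat_lit 281) (nat_lit 225) (nat_lit 154))))) (XT.nd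 (nat_lit 234) (nat_lit 0) (nat_lit 0) (XT.nd (nat_lit 78) (nat_lit 0) (nat_lit 0) (XT.lf (nat_lit 0) (nat_lit 2227856087594) (nat_lit 76) (nat_lit 2091075963192) (nat_lit 76) (nat_lit 2063144361497) (nat_lit 1) (nat_lit 4) (nat_lit 2) (nat_lit 5) (nat_lit 2) (nat_lit 4) (nat_lit 282) (nat_lit 225) (nat_lit 153)) (XT.nd (nat_lit 78) (nat_lit 0) (nat_lit 0) (XT.lf (nat_lit 0) (nat_lit 2628040611925) (nat_lit 76) (nat_lit 2368282477801) (nat_lit 76) (nat_lit 2340350720773) (nat_lit 1) (nat_lit 4) (nat_lit 2) (nat_lit 5) (nat_lit 2) (nat_lit 4) (nat_lit 283) (nat_lit 225) (nat_lit 152)) (XT.lf (nat_lit 0) (nat_lit 3088252128725) (nat_lit 76) (nat_lit 2687070305020) (nat_lit 76) (nat_lit 2659138412919) (nat_lit 1) (nat_lit 4) (nat_lit 2) (nat_lit 5) (nat_lit 2) (nat_lit 4) (nat_lit 284) (nat_lit 225) (nat_lit 151)))) (XT.nd (nat_lit 78) (nat_lit 0) (nat_lit 0) (XT.lf (nat_lit 0) (nat_lit 3617494776364)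 (nat_lit 76) (nat_lit 3053676597988) (nat_lit 76) (nat_lit 3025744588434) (nat_lit 1) (nat_lit 4) (nat_lit 2) (nat_lit 5) (nat_lit 2) (nat_lit 4) (nat_lit 285) (nat_lit 225) (nat_lit 150)) (XT.nd (nat_lit 78) (nat_lit 0) (nat_lit 0) (XT.lf (nat_lit 0) (nat_lit 4226123302298) (nat_lit 76) (nat_lit 3475274088526) (nat_lit 76) (nat_lit 3447341976838) (nat_lit 1) (nat_lit 4) (nat_lit 2) (nat_lit 5) (nat_lit 2) (nat_lit 4) (nat_lit 286) (nat_lit 225) (nat_lit 149)) (XT.lf (nat_lit 0) (nat_lit 4926045655946) (nat_lit 76) (nat_lit 3960111423187) (nat_lit 76) (nat_lit 3932179222687) (nat_lit 1) (nat_lit 4) (nat_lit 2) (nat_lit 5) (nat_lit 2) (nat_lit 4) (nat_lit 287) (nat_lit 225) (nat_lit 148)))))) (XT.nd (nat_lit 468) (nat_lit 1444) (nat_lit 0) (XT.nd (nat_lit 234) (nat_lit 228) (nat_lit 0) (XT.nd (nat_lit 78) (nat_lit 0) (nat_lit 76) (XT.lf (nat_lit 0) (nat_lit 99411931) (nat_lit 532) (nat_lit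 2433627262) (nat_lit 532) (nat_lit 2433627262) (nat_lit 45) (nat_lit 3) (nat_lit 52) (nat_lit 3) (nat_lit 52) (nat_lit 5) (nat_lit 226) (nat_lit 226) (nat_lit 208)) (XT.nd (nat_lit 78) (nat_lit 0) (nat_lit 0) (XT.lf (nat_lit 0) (nat_lit 1572586907) (nat_lit 456) (nat_lit 6757513471) (nat_lit 532) (nat_lit 2236045017) (nat_lit 46) (nat_lit 5) (nat_lit 52) (nat_lit 5) (nat_lit 53) (nat_lit 5) (nat_lit 227) (nat_lit 226) (nat_lit 207)) (XT.lf (nat_lit 76) (nat_lit 2643458404) (nat_lit 0) (nat_lit 642080408) (nat_lit 532) (nat_lit 7998310502) (nat_lit 47) (nat_lit 5) (nat_lit 46) (nat_lit 5) (nat_lit 53) (nat_lit 5) (nat_lit 228) (nat_lit 226) (nat_lit 206)))) (XT.nd (nat_lit 78) (nat_lit 380) (nat_lit 0) (XT.lf (nat_lit 76) (nat_lit 1494554499) (nat_lit 0) (nat_lit 4006368559) (nat_lit 532) (nat_lit 6589185311) (nat_lit 48) (nat_lit 5) (nat_lit 47) (nat_lit 5) (nat_lit 54) (nat_lit 5) (nat_lit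 229) (nat_lit 226) (nat_lit 205)) (XT.nd (nat_lit 78) (nat_lit 0) (nat_lit 0) (XT.lf (nat_lit 0) (nat_lit 399761333) (nat_lit 456) (nat_lit 7888422020) (nat_lit 532) (nat_lit 4710425900) (nat_lit 42) (nat_lit 5) (nat_lit 48) (nat_lit 5) (nat_lit 49) (nat_lit 5) (nat_lit 230) (nat_lit 226) (nat_lit 204)) (XT.lf (nat_lit 0) (nat_lit 11801432237) (nat_lit 532) (nat_lit 630826772) (nat_lit 76) (nat_lit 1586901640) (nat_lit 42) (nat_lit 5) (nat_lit 49) (nat_lit 5) (nat_lit 43) (nat_lit 5) (nat_lit 231) (nat_lit 226) (nat_lit 203))))) (XT.nd (nat_lit 234) (nat_lit 684) (nat_lit 0) (XT.nd (nat_lit 78) (nat_lit 456) (nat_lit 0) (XT.lf (nat_lit 0) (nat_lit 1039487497) (nat_lit 304) (nat_lit 1729690692) (nat_lit 76) (nat_lit 12388850259) (nat_lit 38) (nat_lit 5) (nat_lit 42) (nat_lit 5) (nat_lit 39) (nat_lit 5) (nat_lit 232) (nat_lit 226) (nat_lit 202)) (XT.nd (nat_lit 78) (nat_lit 228) (nat_lit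 0) (XT.lf (nat_lit 0) (nat_lit 5097821390) (nat_lit 304) (nat_lit 2991933104) (nat_lit 76) (nat_lit 8338140860) (nat_lit 35) (nat_lit 5) (nat_lit 39) (nat_lit 5) (nat_lit 36) (nat_lit 5) (nat_lit 233) (nat_lit 226) (nat_lit 201)) (XT.lf (nat_lit 0) (nat_lit 10196852287) (nat_lit 304) (nat_lit 4369579277) (nat_lit 76) (nat_lit 3287502975) (nat_lit 32) (nat_lit 5) (nat_lit 36) (nat_lit 5) (nat_lit 33) (nat_lit 5) (nat_lit 234) (nat_lit 226) (nat_lit 200)))) (XT.nd (nat_lit 156) (nat_lit 304) (nat_lit 0) (XT.nd (nat_lit 78) (nat_lit 228) (nat_lit 0) (XT.lf (nat_lit 0) (nat_lit 13452533210) (nat_lit 152) (nat_lit 3149506879) (nat_lit 228) (nat_lit 2848750978) (nat_lit 30) (nat_lit 5) (nat_lit 32) (nat_lit 5) (nat_lit 33) (nat_lit 5) (nat_lit 235) (nat_lit 226) (nat_lit 199)) (XT.lf (nat_lit 0) (nat_lit 3164933750) (nat_lit 228) (nat_lit 8081808256) (nat_lit 76) (nat_lit 9985992997) (nat_lit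 27) (nat_lit 5) (nat_lit 30) (nat_lit 5) (nat_lit 28) (nat_lit 5) (nat_lit 236) (nat_lit 226) (nat_lit 198))) (XT.nd (nat_lit 78) (nat_lit 152) (nat_lit 0) (XT.lf (nat_lit 0) (nat_lit 10459989420) (nat_lit 228) (nat_lit 10672746809) (nat_lit 76) (nat_lit 2099626113) (nat_lit 25) (nat_lit 5) (nat_lit 28) (nat_lit 5) (nat_lit 26) (nat_lit 5) (nat_lit 237) (nat_lit 226) (nat_lit 197)) (XT.lf (nat_lit 0) (nat_lit 11420551299) (nat_lit 152) (nat_lit 8183418671) (nat_lit 228) (nat_lit 5867721780) (nat_lit 23) (nat_lit 5) (nat_lit 25) (nat_lit 5) (nat_lit 26) (nat_lit 5) (nat_lit 238) (nat_lit 226) (nat_lit 196))))))) (XT.nd (nat_lit 1014) (nat_lit 456) (nat_lit 0) (XT.nd (nat_lit 468) (nat_lit 456) (nat_lit 0) (XT.nd (nat_lit 234) (nat_lit 304) (nat_lit 0) (XT.nd (nat_lit 78) (nat_lit 228) (nat_lit 0) (XT.lf (nat_lit 0) (nat_lit 2632010851) (nat_lit 152) (nat_lit 18398489497) (nat_lit 76) (nat_lit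 6959492987) (nat_lit 21) (nat_lit 5) (nat_lit 23) (nat_lit 5) (nat_lit 22) (nat_lit 5) (nat_lit 239) (nat_lit 226) (nat_lit 195)) (XT.nd (nat_lit 78) (nat_lit 76) (nat_lit 0) (XT.lf (nat_lit 0) (nat_lit 6612395587) (nat_lit 152) (nat_lit 6200391292) (nat_lit 228) (nat_lit 18000871083) (nat_lit 19) (nat_lit 5) (nat_lit 21) (nat_lit 5) (nat_lit 22) (nat_lit 5) (nat_lit 240) (nat_lit 226) (nat_lit 194)) (XT.lf (nat_lit 0) (nat_lit 2214100197) (nat_lit 76) (nat_lit 23114073703) (nat_lit 152) (nat_lit 8668178745) (nat_lit 18) (nat_lit 5) (nat_lit 19) (nat_lit 5) (nat_lit 20) (nat_lit 4) (nat_lit 241) (nat_lit 226) (nat_lit 193)))) (XT.nd (nat_lit 78) (nat_lit 228) (nat_lit 0) (XT.lf (nat_lit 0) (nat_lit 2803082759) (nat_lit 152) (nat_lit 3869925494) (nat_lit 76) (nat_lit 30912180823) (nat_lit 17) (nat_lit 5) (nat_lit 19) (nat_lit 5) (nat_lit 18) (nat_lit 5) (nat_lit 242) (nat_lit 226) (nat_lit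 192)) (XT.nd (nat_lit 78) (nat_lit 76) (nat_lit 0) (XT.lf (nat_lit 0) (nat_lit 16475509140) (nat_lit 228) (nat_lit 12575332364) (nat_lit 76) (nat_lit 12564055345) (nat_lit 15) (nat_lit 5) (nat_lit 18) (nat_lit 5) (nat_lit 16) (nat_lit 4) (nat_lit 243) (nat_lit 226) (nat_lit 191)) (XT.lf (nat_lit 0) (nat_lit 21705601783) (nat_lit 76) (nat_lit 11273350435) (nat_lit 152) (nat_lit 13207745014) (nat_lit 14) (nat_lit 5) (nat_lit 15) (nat_lit 5) (nat_lit 16) (nat_lit 4) (nat_lit 244) (nat_lit 226) (nat_lit 190))))) (XT.nd (nat_lit 234) (nat_lit 228) (nat_lit 0) (XT.nd (nat_lit 78) (nat_lit 76) (nat_lit 0) (XT.lf (nat_lit 0) (nat_lit 1324076666) (nat_lit 152) (nat_lit 40700380364) (nat_lit 76) (nat_lit 9351971398) (nat_lit 12) (nat_lit 5) (nat_lit 14) (nat_lit 5) (nat_lit 13) (nat_lit 4) (nat_lit 245) (nat_lit 226) (nat_lit 189)) (XT.nd (nat_lit 78) (nat_lit 76) (nat_lit 0) (XT.lf (nat_lit 0)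 (nat_lit 18282690084) (nat_lit 152) (nat_lit 5458829823) (nat_lit 76) (nat_lit 33493363653) (nat_lit 12) (nat_lit 5) (nat_lit 14) (nat_lit 5) (nat_lit 13) (nat_lit 4) (nat_lit 246) (nat_lit 226) (nat_lit 188)) (XT.lf (nat_lit 0) (nat_lit 36856220881) (nat_lit 76) (nat_lit 1783774252) (nat_lit 152) (nat_lit 25263749485) (nat_lit 11) (nat_lit 5) (nat_lit 12) (nat_lit 5) (nat_lit 13) (nat_lit 4) (nat_lit 247) (nat_lit 226) (nat_lit 187)))) (XT.nd (nat_lit 156) (nat_lit 76) (nat_lit 0) (XT.nd (nat_lit 78) (nat_lit 76) (nat_lit 0) (XT.lf (nat_lit 0) (nat_lit 14386614767) (nat_lit 76) (nat_lit 48708551129) (nat_lit 76) (nat_lit 8394253105) (nat_lit 10) (nat_lit 4) (nat_lit 11) (nat_lit 5) (nat_lit 11) (nat_lit 4) (nat_lit 248) (nat_lit 226) (nat_lit 186)) (XT.lf (nat_lit 0) (nat_lit 11285105377) (nat_lit 152) (nat_lit 16860983240) (nat_lit 76) (nat_lit 51979302882) (nat_lit 9) (nat_lit 5) (nat_lit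 11) (nat_lit 5) (nat_lit 10) (nat_lit 4) (nat_lit 249) (nat_lit 226) (nat_lit 185))) (XT.nd (nat_lit 78) (nat_lit 0) (nat_lit 0) (XT.lf (nat_lit 0) (nat_lit 30675685581) (nat_lit 76) (nat_lit 3471825125) (nat_lit 152) (nat_lit 55833570477) (nat_lit 8) (nat_lit 5) (nat_lit 9) (nat_lit 5) (nat_lit 10) (nat_lit 4) (nat_lit 250) (nat_lit 226) (nat_lit 184)) (XT.lf (nat_lit 0) (nat_lit 61519825409) (nat_lit 152) (nat_lit 15565004602) (nat_lit 0) (nat_lit 24143866106) (nat_lit 8) (nat_lit 5) (nat_lit 10) (nat_lit 4) (nat_lit 8) (nat_lit 4) (nat_lit 251) (nat_lit 226) (nat_lit 183)))))) (XT.nd (nat_lit 468) (nat_lit 152) (nat_lit 0) (XT.nd (nat_lit 234) (nat_lit 76) (nat_lit 0) (XT.nd (nat_lit 78) (nat_lit 152) (nat_lit 0) (XT.lf (nat_lit 0) (nat_lit 36426654279) (nat_lit 76) (nat_lit 57524266761) (nat_lit 76) (nat_lit 20136311193) (nat_lit 7) (nat_lit 4) (nat_lit 8) (nat_lit 5) (nat_lit 8)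 (nat_lit 4) (nat_lit 252) (nat_lit 226) (nat_lit 182)) (XT.nd (nat_lit 78) (nat_lit 76) (nat_lit 0) (XT.lf (nat_lit 0) (nat_lit 2700488482) (nat_lit 152) (nat_lit 31781371055) (nat_lit 76) (nat_lit 94352374630) (nat_lit 6) (nat_lit 5) (nat_lit 8) (nat_lit 5) (nat_lit 7) (nat_lit 4) (nat_lit 253) (nat_lit 226) (nat_lit 181)) (XT.lf (nat_lit 0) (nat_lit 21467206689) (nat_lit 76) (nat_lit 6837920564) (nat_lit 152) (nat_lit 117403557925) (nat_lit 5) (nat_lit 5) (nat_lit 6) (nat_lit 5) (nat_lit 7) (nat_lit 4) (nat_lit 254) (nat_lit 226) (nat_lit 180)))) (XT.nd (nat_lit 78) (nat_lit 76) (nat_lit 0) (XT.lf (nat_lit 0) (nat_lit 59285388659) (nat_lit 152) (nat_lit 81064579325) (nat_lit 0) (nat_lit 24641550014) (nat_lit 5) (nat_lit 5) (nat_lit 7) (nat_lit 4) (nat_lit 5) (nat_lit 4) (nat_lit 255) (nat_lit 226) (nat_lit 179)) (XT.nd (nat_lit 78) (nat_lit 76) (nat_lit 0) (XT.lf (nat_lit 0) (nat_lit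 95089202545) (nat_lit 152) (nat_lit 31624446291) (nat_lit 0) (nat_lit 60439013064) (nat_lit 5) (nat_lit 5) (nat_lit 7) (nat_lit 4) (nat_lit 5) (nat_lit 4) (nat_lit 256) (nat_lit 226) (nat_lit 178)) (XT.lf (nat_lit 0) (nat_lit 26538229430) (nat_lit 76) (nat_lit 110352641783) (nat_lit 76) (nat_lit 75696929836) (nat_lit 4) (nat_lit 4) (nat_lit 5) (nat_lit 5) (nat_lit 5) (nat_lit 4) (nat_lit 257) (nat_lit 226) (nat_lit 177))))) (XT.nd (nat_lit 234) (nat_lit 152) (nat_lit 0) (XT.nd (nat_lit 78) (nat_lit 0) (nat_lit 0) (XT.lf (nat_lit 0) (nat_lit 95321139752) (nat_lit 76) (nat_lit 90552366780) (nat_lit 76) (nat_lit 55891852689) (nat_lit 4) (nat_lit 4) (nat_lit 5) (nat_lit 5) (nat_lit 5) (nat_lit 4) (nat_lit 258) (nat_lit 226) (nat_lit 176)) (XT.nd (nat_lit 78) (nat_lit 0) (nat_lit 0) (XT.lf (nat_lit 0) (nat_lit 174404749967) (nat_lit 76) (nat_lit 67790095550) (nat_lit 76) (nat_lit 33125405681)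 (nat_lit 4) (nat_lit 4) (nat_lit 5) (nat_lit 5) (nat_lit 5) (nat_lit 4) (nat_lit 259) (nat_lit 226) (nat_lit 175)) (XT.lf (nat_lit 0) (nat_lit 265336348102) (nat_lit 76) (nat_lit 41620479306) (nat_lit 76) (nat_lit 6952158327) (nat_lit 4) (nat_lit 4) (nat_lit 5) (nat_lit 5) (nat_lit 5) (nat_lit 4) (nat_lit 260) (nat_lit 226) (nat_lit 174)))) (XT.nd (nat_lit 156) (nat_lit 0) (nat_lit 0) (XT.nd (nat_lit 78) (nat_lit 0) (nat_lit 0) (XT.lf (nat_lit 0) (nat_lit 11633930187) (nat_lit 76) (nat_lit 10628285511) (nat_lit 152) (nat_lit 335957439054) (nat_lit 2) (nat_lit 5) (nat_lit 3) (nat_lit 5) (nat_lit 4) (nat_lit 4) (nat_lit 261) (nat_lit 226) (nat_lit 173)) (XT.lf (nat_lit 0) (nat_lit 57504941073) (nat_lit 152) (nat_lit 326093734638) (nat_lit 0) (nat_lit 25399178010) (nat_lit 2) (nat_lit 5) (nat_lit 4) (nat_lit 4) (nat_lit 2) (nat_lit 4) (nat_lit 262) (nat_lit 226) (nat_lit 172))) (XT.nd (nat_lit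 78) (nat_lit 0) (nat_lit 0) (XT.lf (nat_lit 0) (nat_lit 98322556657) (nat_lit 152) (nat_lit 302832566948) (nat_lit 0) (nat_lit 66214582932) (nat_lit 2) (nat_lit 5) (nat_lit 4) (nat_lit 4) (nat_lit 2) (nat_lit 4) (nat_lit 263) (nat_lit 226) (nat_lit 171)) (XT.lf (nat_lit 0) (nat_lit 145258057449) (nat_lit 152) (nat_lit 276091501170) (nat_lit 0) (nat_lit 113148161410) (nat_lit 2) (nat_lit 5) (nat_lit 4) (nat_lit 4) (nat_lit 2) (nat_lit 4) (nat_lit 264) (nat_lit 226) (nat_lit 170))))))))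
noncomputable def xc32 : XT := (XT.nd (nat_lit 31590) (nat_lit 0) (nat_lit 456) (XT.nd (nat_lit 936) (nat_lit 0) (nat_lit 0) (XT.nd (nat_lit 468) (nat_lit 76) (nat_lit 0) (XT.nd (nat_lit 234) (nat_lit 0) (nat_lit 0) (XT.nd (nat_lit 78) (nat_lit 0) (nat_lit 0) (XT.lf (nat_lit 0) (nat_lit 199229746728) (nat_lit 152) (nat_lit 245347342539) (nat_lit 0) (nat_lit 167118179111) (nat_lit 2) (nat_lit 5) (nat_lit 4) (nat_lit 4) (nat_lit 2) (nat_lit 4) (nat_lit 265) (nat_lit 226) (nat_lit 169)) (XT.nd (nat_lit 78) (nat_lit 0) (nat_lit 0) (XT.lf (nat_lit 0) (nat_lit 261293592326) (nat_lit 152) (nat_lit 209998574907) (nat_lit 0) (nat_lit 229180571163) (nat_lit 2) (nat_lit 5) (nat_lit 4) (nat_lit 4) (nat_lit 2) (nat_lit 4) (nat_lit 266) (nat_lit 226) (nat_lit 168)) (XT.lf (nat_lit 0) (nat_lit 332663886874) (nat_lit 152) (nat_lit 169353591953) (nat_lit 0) (nat_lit 300549601759) (nat_lit 2) (nat_lit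 5) (nat_lit 4) (nat_lit 4) (nat_lit 2) (nat_lit 4) (nat_lit 267) (nat_lit 226) (nat_lit 167)))) (XT.nd (nat_lit 78) (nat_lit 0) (nat_lit 0) (XT.lf (nat_lit 0) (nat_lit 414737005701) (nat_lit 152) (nat_lit 122617165748) (nat_lit 0) (nat_lit 382621621496) (nat_lit 2) (nat_lit 5) (nat_lit 4) (nat_lit 4) (nat_lit 2) (nat_lit 4) (nat_lit 268) (nat_lit 226) (nat_lit 166)) (XT.nd (nat_lit 78) (nat_lit 0) (nat_lit 0) (XT.lf (nat_lit 0) (nat_lit 509118727219) (nat_lit 152) (nat_lit 68874887954) (nat_lit 0) (nat_lit 477002387284) (nat_lit 2) (nat_lit 5) (nat_lit 4) (nat_lit 4) (nat_lit 2) (nat_lit 4) (nat_lit 269) (nat_lit 226) (nat_lit 165)) (XT.lf (nat_lit 0) (nat_lit 617655650326) (nat_lit 152) (nat_lit 7075279222) (nat_lit 0) (nat_lit 585538479322) (nat_lit 2) (nat_lit 5) (nat_lit 4) (nat_lit 4) (nat_lit 2) (nat_lit 4) (nat_lit 270) (nat_lit 226) (nat_lit 164))))) (XT.nd (nat_lit 234) (nat_lit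 0) (nat_lit 0) (XT.nd (nat_lit 78) (nat_lit 0) (nat_lit 0) (XT.lf (nat_lit 0) (nat_lit 67360424469) (nat_lit 76) (nat_lit 676730918878) (nat_lit 76) (nat_lit 644613025204) (nat_lit 1) (nat_lit 4) (nat_lit 2) (nat_lit 5) (nat_lit 2) (nat_lit 4) (nat_lit 271) (nat_lit 226) (nat_lit 163)) (XT.nd (nat_lit 78) (nat_lit 0) (nat_lit 0) (XT.lf (nat_lit 0) (nat_lit 153386748745) (nat_lit 76) (nat_lit 736309998828) (nat_lit 76) (nat_lit 704191476746) (nat_lit 1) (nat_lit 4) (nat_lit 2) (nat_lit 5) (nat_lit 2) (nat_lit 4) (nat_lit 272) (nat_lit 226) (nat_lit 162)) (XT.lf (nat_lit 0) (nat_lit 252314245675) (nat_lit 76) (nat_lit 804827297722) (nat_lit 76) (nat_lit 772708229199) (nat_lit 1) (nat_lit 4) (nat_lit 2) (nat_lit 5) (nat_lit 2) (nat_lit 4) (nat_lit 273) (nat_lit 226) (nat_lit 161)))) (XT.nd (nat_lit 78) (nat_lit 0) (nat_lit 0) (XT.lf (nat_lit 0) (nat_lit 366078453243) (nat_lit 76) (nat_lit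 883623371409) (nat_lit 76) (nat_lit 851503827719) (nat_lit 1) (nat_lit 4) (nat_lit 2) (nat_lit 5) (nat_lit 2) (nat_lit 4) (nat_lit 274) (nat_lit 226) (nat_lit 160)) (XT.nd (nat_lit 78) (nat_lit 0) (nat_lit 0) (XT.lf (nat_lit 0) (nat_lit 496905192901) (nat_lit 76) (nat_lit 974239882199) (nat_lit 76) (nat_lit 942119925321) (nat_lit 1) (nat_lit 4) (nat_lit 2) (nat_lit 5) (nat_lit 2) (nat_lit 4) (nat_lit 275) (nat_lit 226) (nat_lit 159)) (XT.lf (nat_lit 0) (nat_lit 647354118250) (nat_lit 76) (nat_lit 1078449761826) (nat_lit 76) (nat_lit 1046329445654) (nat_lit 1) (nat_lit 4) (nat_lit 2) (nat_lit 5) (nat_lit 2) (nat_lit 4) (nat_lit 276) (nat_lit 226) (nat_lit 158)))))) (XT.nd (nat_lit 468) (nat_lit 0) (nat_lit 0) (XT.nd (nat_lit 234) (nat_lit 0) (nat_lit 0) (XT.nd (nat_lit 78) (nat_lit 0) (nat_lit 0) (XT.lf (nat_lit 0) (nat_lit 820368795222) (nat_lit 76) (nat_lit 1198291899239) (nat_lit 76)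 (nat_lit 1166171270636) (nat_lit 1) (nat_lit 4) (nat_lit 2) (nat_lit 5) (nat_lit 2) (nat_lit 4) (nat_lit 277) (nat_lit 226) (nat_lit 157)) (XT.nd (nat_lit 78) (nat_lit 0) (nat_lit 0) (XT.lf (nat_lit 0) (nat_lit 1019334293584) (nat_lit 76) (nat_lit 1336111031908) (nat_lit 76) (nat_lit 1303990131628) (nat_lit 1) (nat_lit 4) (nat_lit 2) (nat_lit 5) (nat_lit 2) (nat_lit 4) (nat_lit 278) (nat_lit 226) (nat_lit 156)) (XT.lf (nat_lit 0) (nat_lit 1248143416564) (nat_lit 76) (nat_lit 1494603621126) (nat_lit 76) (nat_lit 1462482484603) (nat_lit 1) (nat_lit 4) (nat_lit 2) (nat_lit 5) (nat_lit 2) (nat_lit 4) (nat_lit 279) (nat_lit 226) (nat_lit 155)))) (XT.nd (nat_lit 78) (nat_lit 0) (nat_lit 0) (XT.lf (nat_lit 0) (nat_lit 1511272864395) (nat_lit 76) (nat_lit 1676870608854) (nat_lit 76) (nat_lit 1644749266904) (nat_lit 1) (nat_lit 4) (nat_lit 2) (nat_lit 5) (nat_lit 2) (nat_lit 4) (nat_lit 280) (nat_lit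 226) (nat_lit 154)) (XT.nd (nat_lit 78) (nat_lit 0) (nat_lit 0) (XT.lf (nat_lit 0) (nat_lit 1813870821926) (nat_lit 76) (nat_lit 1886478088332) (nat_lit 76) (nat_lit 1854356567750) (nat_lit 1) (nat_lit 4) (nat_lit 2) (nat_lit 5) (nat_lit 2) (nat_lit 4) (nat_lit 281) (nat_lit 226) (nat_lit 153)) (XT.lf (nat_lit 0) (nat_lit 2161857683977) (nat_lit 76) (nat_lit 2127527075462) (nat_lit 76) (nat_lit 2095405399547) (nat_lit 1) (nat_lit 4) (nat_lit 2) (nat_lit 5) (nat_lit 2) (nat_lit 4) (nat_lit 282) (nat_lit 226) (nat_lit 152))))) (XT.nd (nat_lit 234) (nat_lit 0) (nat_lit 0) (XT.nd (nat_lit 78) (nat_lit 0) (nat_lit 0) (XT.lf (nat_lit 0) (nat_lit 2562041889154) (nat_lit 76) (nat_lit 2404733746080) (nat_lit 76) (nat_lit 2372611935092) (nat_lit 1) (nat_lit 4) (nat_lit 2) (nat_lit 5) (nat_lit 2) (nat_lit 4) (nat_lit 283) (nat_lit 226) (nat_lit 151)) (XT.nd (nat_lit 78) (nat_lit 0) (nat_lit 0) (XT.lf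 (nat_lit 0) (nat_lit 3022253128428) (nat_lit 76) (nat_lit 2723521708958) (nat_lit 76) (nat_lit 2691399780516) (nat_lit 1) (nat_lit 4) (nat_lit 2) (nat_lit 5) (nat_lit 2) (nat_lit 4) (nat_lit 284) (nat_lit 226) (nat_lit 150)) (XT.lf (nat_lit 0) (nat_lit 3551495534741) (nat_lit 76) (nat_lit 3090128119891) (nat_lit 76) (nat_lit 3058006089315) (nat_lit 1) (nat_lit 4) (nat_lit 2) (nat_lit 5) (nat_lit 2) (nat_lit 4) (nat_lit 285) (nat_lit 226) (nat_lit 149)))) (XT.nd (nat_lit 29796) (nat_lit 0) (nat_lit 3344) (XT.nd (nat_lit 78) (nat_lit 0) (nat_lit 0) (XT.lf (nat_lit 0) (nat_lit 4160123850825) (nat_lit 76) (nat_lit 3511725713007) (nat_lit 76) (nat_lit 3479603593619) (nat_lit 1) (nat_lit 4) (nat_lit 2) (nat_lit 5) (nat_lit 2) (nat_lit 4) (nat_lit 286) (nat_lit 226) (nat_lit 148)) (XT.lf (nat_lit 0) (nat_lit 4860046021996) (nat_lit 76) (nat_lit 3996563136866) (nat_lit 76) (nat_lit 3964440940251)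 (nat_lit 1) (nat_lit 4) (nat_lit 2) (nat_lit 5) (nat_lit 2) (nat_lit 4) (nat_lit 287) (nat_lit 226) (nat_lit 147))) (XT.nd (nat_lit 78) (nat_lit 0) (nat_lit 76) (XT.lf (nat_lit 0) (nat_lit 1273428858) (nat_lit 532) (nat_lit 2171086921) (nat_lit 532) (nat_lit 2171086921) (nat_lit 45) (nat_lit 3) (nat_lit 52) (nat_lit 3) (nat_lit 52) (nat_lit 5) (nat_lit 227) (nat_lit 227) (nat_lit 206)) (XT.lf (nat_lit 0) (nat_lit 3830427894) (nat_lit 456) (nat_lit 6431423795) (nat_lit 532) (nat_lit 1721658735) (nat_lit 46) (nat_lit 5) (nat_lit 52) (nat_lit 5) (nat_lit 53) (nat_lit 5) (nat_lit 228) (nat_lit 227) (nat_lit 205))))))) (XT.nd (nat_lit 936) (nat_lit 1064) (nat_lit 0) (XT.nd (nat_lit 468) (nat_lit 1064) (nat_lit 0) (XT.nd (nat_lit 234) (nat_lit 532) (nat_lit 0) (XT.nd (nat_lit 78) (nat_lit 304) (nat_lit 0) (XT.lf (nat_lit 76) (nat_lit 4266293515) (nat_lit 0) (nat_lit 1299789013) (nat_lit 532)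 (nat_lit 7262283200) (nat_lit 47) (nat_lit 5) (nat_lit 46) (nat_lit 5) (nat_lit 53) (nat_lit 5) (nat_lit 229) (nat_lit 227) (nat_lit 204)) (XT.nd (nat_lit 78) (nat_lit 380) (nat_lit 0) (XT.lf (nat_lit 76) (nat_lit 2989139568) (nat_lit 0) (nat_lit 4910267575) (nat_lit 532) (nat_lit 5873963787) (nat_lit 48) (nat_lit 5) (nat_lit 47) (nat_lit 5) (nat_lit 54) (nat_lit 5) (nat_lit 230) (nat_lit 227) (nat_lit 203)) (XT.lf (nat_lit 0) (nat_lit 1748491699) (nat_lit 456) (nat_lit 9175705163) (nat_lit 532) (nat_lit 3908966946) (nat_lit 42) (nat_lit 5) (nat_lit 48) (nat_lit 5) (nat_lit 49) (nat_lit 5) (nat_lit 231) (nat_lit 227) (nat_lit 202)))) (XT.nd (nat_lit 78) (nat_lit 304) (nat_lit 0) (XT.lf (nat_lit 0) (nat_lit 523799320) (nat_lit 228) (nat_lit 14269388032) (nat_lit 304) (nat_lit 1227807694) (nat_lit 39) (nat_lit 5) (nat_lit 42) (nat_lit 5) (nat_lit 43) (nat_lit 5) (nat_lit 232) (nat_lit 227)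 (nat_lit 201)) (XT.nd (nat_lit 78) (nat_lit 228) (nat_lit 0) (XT.lf (nat_lit 0) (nat_lit 2304334145) (nat_lit 304) (nat_lit 808557412) (nat_lit 76) (nat_lit 14227457004) (nat_lit 38) (nat_lit 5) (nat_lit 42) (nat_lit 5) (nat_lit 39) (nat_lit 5) (nat_lit 233) (nat_lit 227) (nat_lit 200)) (XT.lf (nat_lit 0) (nat_lit 6854939489) (nat_lit 304) (nat_lit 2280697079) (nat_lit 76) (nat_lit 9674725523) (nat_lit 35) (nat_lit 5) (nat_lit 39) (nat_lit 5) (nat_lit 36) (nat_lit 5) (nat_lit 234) (nat_lit 227) (nat_lit 199))))) (XT.nd (nat_lit 234) (nat_lit 456) (nat_lit 0) (XT.nd (nat_lit 78) (nat_lit 380) (nat_lit 0) (XT.lf (nat_lit 0) (nat_lit 12619080796) (nat_lit 304) (nat_lit 3894246808) (nat_lit 76) (nat_lit 3945261953) (nat_lit 32) (nat_lit 5) (nat_lit 36) (nat_lit 5) (nat_lit 33) (nat_lit 5) (nat_lit 235) (nat_lit 227) (nat_lit 198)) (XT.nd (nat_lit 78) (nat_lit 228) (nat_lit 0) (XT.lf (nat_lit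 0) (nat_lit 16505468557) (nat_lit 152) (nat_lit 3388032100) (nat_lit 228) (nat_lit 2409060958) (nat_lit 30) (nat_lit 5) (nat_lit 32) (nat_lit 5) (nat_lit 33) (nat_lit 5) (nat_lit 236) (nat_lit 227) (nat_lit 197)) (XT.lf (nat_lit 0) (nat_lit 4385631984) (nat_lit 228) (nat_lit 8250816696) (nat_lit 76) (nat_lit 11720106274) (nat_lit 27) (nat_lit 5) (nat_lit 30) (nat_lit 5) (nat_lit 28) (nat_lit 5) (nat_lit 237) (nat_lit 227) (nat_lit 196)))) (XT.nd (nat_lit 78) (nat_lit 304) (nat_lit 0) (XT.lf (nat_lit 0) (nat_lit 12707427912) (nat_lit 228) (nat_lit 11270557784) (nat_lit 76) (nat_lit 2683726534) (nat_lit 25) (nat_lit 5) (nat_lit 28) (nat_lit 5) (nat_lit 26) (nat_lit 5) (nat_lit 238) (nat_lit 227) (nat_lit 195)) (XT.nd (nat_lit 78) (nat_lit 152) (nat_lit 0) (XT.lf (nat_lit 0) (nat_lit 14051827532) (nat_lit 152) (nat_lit 9104768403) (nat_lit 228) (nat_lit 6085818219) (nat_lit 23) (nat_lit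 5) (nat_lit 25) (nat_lit 5) (nat_lit 26) (nat_lit 5) (nat_lit 239) (nat_lit 227) (nat_lit 194)) (XT.lf (nat_lit 0) (nat_lit 3601990516) (nat_lit 152) (nat_lit 20247584910) (nat_lit 76) (nat_lit 8292042024) (nat_lit 21) (nat_lit 5) (nat_lit 23) (nat_lit 5) (nat_lit 22) (nat_lit 5) (nat_lit 240) (nat_lit 227) (nat_lit 193)))))) (XT.nd (nat_lit 468) (nat_lit 380) (nat_lit 0) (XT.nd (nat_lit 234) (nat_lit 380) (nat_lit 0) (XT.nd (nat_lit 78) (nat_lit 152) (nat_lit 0) (XT.lf (nat_lit 0) (nat_lit 8437848579) (nat_lit 152) (nat_lit 6817059093) (nat_lit 228) (nat_lit 20138434377) (nat_lit 19) (nat_lit 5) (nat_lit 21) (nat_lit 5) (nat_lit 22) (nat_lit 5) (nat_lit 241) (nat_lit 227) (nat_lit 192)) (XT.nd (nat_lit 78) (nat_lit 76) (nat_lit 0) (XT.lf (nat_lit 0) (nat_lit 3341128899) (nat_lit 76) (nat_lit 26264292970) (nat_lit 152) (nat_lit 9451491152) (nat_lit 18) (nat_lit 5) (nat_lit 19) (nat_lit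 5) (nat_lit 20) (nat_lit 4) (nat_lit 242) (nat_lit 227) (nat_lit 191)) (XT.lf (nat_lit 0) (nat_lit 3650550611) (nat_lit 152) (nat_lit 3736175718) (nat_lit 76) (nat_lit 35801556705) (nat_lit 17) (nat_lit 5) (nat_lit 19) (nat_lit 5) (nat_lit 18) (nat_lit 5) (nat_lit 243) (nat_lit 227) (nat_lit 190)))) (XT.nd (nat_lit 78) (nat_lit 228) (nat_lit 0) (XT.lf (nat_lit 0) (nat_lit 19340283385) (nat_lit 228) (nat_lit 13782847457) (nat_lit 76) (nat_lit 14702069080) (nat_lit 15) (nat_lit 5) (nat_lit 18) (nat_lit 5) (nat_lit 16) (nat_lit 4) (nat_lit 244) (nat_lit 227) (nat_lit 189)) (XT.nd (nat_lit 78) (nat_lit 152) (nat_lit 0) (XT.lf (nat_lit 0) (nat_lit 25582771063) (nat_lit 76) (nat_lit 12700095551) (nat_lit 152) (nat_lit 14802873282) (nat_lit 14) (nat_lit 5) (nat_lit 15) (nat_lit 5) (nat_lit 16) (nat_lit 4) (nat_lit 245) (nat_lit 227) (nat_lit 188)) (XT.lf (nat_lit 0) (nat_lit 1861791295) (nat_lit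 152) (nat_lit 46197832250) (nat_lit 76) (nat_lit 10995821899) (nat_lit 12) (nat_lit 5) (nat_lit 14) (nat_lit 5) (nat_lit 13) (nat_lit 4) (nat_lit 246) (nat_lit 227) (nat_lit 187))))) (XT.nd (nat_lit 234) (nat_lit 228) (nat_lit 0) (XT.nd (nat_lit 78) (nat_lit 152) (nat_lit 0) (XT.lf (nat_lit 0) (nat_lit 21319965882) (nat_lit 152) (nat_lit 5749301976) (nat_lit 76) (nat_lit 38726981063) (nat_lit 12) (nat_lit 5) (nat_lit 14) (nat_lit 5) (nat_lit 13) (nat_lit 4) (nat_lit 247) (nat_lit 227) (nat_lit 186)) (XT.nd (nat_lit 78) (nat_lit 76) (nat_lit 0) (XT.lf (nat_lit 0) (nat_lit 42868283942) (nat_lit 76) (nat_lit 1835752456) (nat_lit 152) (nat_lit 28763585345) (nat_lit 11) (nat_lit 5) (nat_lit 12) (nat_lit 5) (nat_lit 13) (nat_lit 4) (nat_lit 248) (nat_lit 227) (nat_lit 185)) (XT.lf (nat_lit 0) (nat_lit 17002403104) (nat_lit 76) (nat_lit 55805636284) (nat_lit 76) (nat_lit 9384694829) (nat_lit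 10) (nat_lit 4) (nat_lit 11) (nat_lit 5) (nat_lit 11) (nat_lit 4) (nat_lit 249) (nat_lit 227) (nat_lit 184)))) (XT.nd (nat_lit 156) (nat_lit 76) (nat_lit 0) (XT.nd (nat_lit 78) (nat_lit 76) (nat_lit 0) (XT.lf (nat_lit 0) (nat_lit 13199832026) (nat_lit 152) (nat_lit 18980190199) (nat_lit 76) (nat_lit 59946252254) (nat_lit 9) (nat_lit 5) (nat_lit 11) (nat_lit 5) (nat_lit 10) (nat_lit 4) (nat_lit 250) (nat_lit 227) (nat_lit 183)) (XT.lf (nat_lit 0) (nat_lit 35652279522) (nat_lit 76) (nat_lit 3819391776) (nat_lit 152) (nat_lit 63990262494) (nat_lit 8) (nat_lit 5) (nat_lit 9) (nat_lit 5) (nat_lit 10) (nat_lit 4) (nat_lit 251) (nat_lit 227) (nat_lit 182))) (XT.nd (nat_lit 78) (nat_lit 76) (nat_lit 0) (XT.lf (nat_lit 0) (nat_lit 70927103239) (nat_lit 152) (nat_lit 17562898739) (nat_lit 0) (nat_lit 27908526540) (nat_lit 8) (nat_lit 5) (nat_lit 10) (nat_lit 4) (nat_lit 8) (nat_lit 4) (nat_lit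 252) (nat_lit 227) (nat_lit 181)) (XT.lf (nat_lit 0) (nat_lit 42198995746) (nat_lit 76) (nat_lit 66007895652) (nat_lit 76) (nat_lit 22980248054) (nat_lit 7) (nat_lit 4) (nat_lit 8) (nat_lit 5) (nat_lit 8) (nat_lit 4) (nat_lit 253) (nat_lit 227) (nat_lit 180))))))))
noncomputable def xc33 : XT := (XT.nd (nat_lit 1950) (nat_lit 0) (nat_lit 0) (XT.nd (nat_lit 936) (nat_lit 76) (nat_lit 0) (XT.nd (nat_lit 468) (nat_lit 152) (nat_lit 0) (XT.nd (nat_lit 234) (nat_lit 76) (nat_lit 0) (XT.nd (nat_lit 78) (nat_lit 76) (nat_lit 0) (XT.lf (nat_lit 0) (nat_lit 3251370522) (nat_lit 152) (nat_lit 36272684648) (nat_lit 76) (nat_lit 108623560018) (nat_lit 6) (nat_lit 5) (nat_lit 8) (nat_lit 5) (nat_lit 7) (nat_lit 4) (nat_lit 254) (nat_lit 227) (nat_lit 179)) (XT.nd (nat_lit 78) (nat_lit 0) (nat_lit 0) (XT.lf (nat_lit 0) (nat_lit 24939826869) (nat_lit 76) (nat_lit 7743933278) (nat_lit 152) (nat_lit 134870520961)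 (nat_lit 5) (nat_lit 5) (nat_lit 6) (nat_lit 5) (nat_lit 7) (nat_lit 4) (nat_lit 255) (nat_lit 227) (nat_lit 178)) (XT.lf (nat_lit 0) (nat_lit 68296233481) (nat_lit 152) (nat_lit 92997859416) (nat_lit 0) (nat_lit 28436642277) (nat_lit 5) (nat_lit 5) (nat_lit 7) (nat_lit 4) (nat_lit 5) (nat_lit 4) (nat_lit 256) (nat_lit 227) (nat_lit 177)))) (XT.nd (nat_lit 78) (nat_lit 76) (nat_lit 0) (XT.lf (nat_lit 0) (nat_lit 109455223381) (nat_lit 152) (nat_lit 36171237751) (nat_lit 0) (nat_lit 69590830032) (nat_lit 5) (nat_lit 5) (nat_lit 7) (nat_lit 4) (nat_lit 5) (nat_lit 4) (nat_lit 257) (nat_lit 227) (nat_lit 176)) (XT.nd (nat_lit 78) (nat_lit 0) (nat_lit 0) (XT.lf (nat_lit 0) (nat_lit 30699174800) (nat_lit 76) (nat_lit 126818913742) (nat_lit 76) (nat_lit 86950344615) (nat_lit 4) (nat_lit 4) (nat_lit 5) (nat_lit 5) (nat_lit 5) (nat_lit 4) (nat_lit 258) (nat_lit 227) (nat_lit 175)) (XT.lf (nat_lit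 0) (nat_lit 109776015893) (nat_lit 76) (nat_lit 104059896312) (nat_lit 76) (nat_lit 64187696075) (nat_lit 4) (nat_lit 4) (nat_lit 5) (nat_lit 5) (nat_lit 5) (nat_lit 4) (nat_lit 259) (nat_lit 227) (nat_lit 174))))) (XT.nd (nat_lit 234) (nat_lit 0) (nat_lit 0) (XT.nd (nat_lit 78) (nat_lit 152) (nat_lit 0) (XT.lf (nat_lit 0) (nat_lit 200701727835) (nat_lit 76) (nat_lit 77893109460) (nat_lit 76) (nat_lit 38017751735) (nat_lit 4) (nat_lit 4) (nat_lit 5) (nat_lit 5) (nat_lit 5) (nat_lit 4) (nat_lit 260) (nat_lit 227) (nat_lit 173)) (XT.nd (nat_lit 78) (nat_lit 152) (nat_lit 0) (XT.lf (nat_lit 0) (nat_lit 305255291946) (nat_lit 76) (nat_lit 47806594313) (nat_lit 76) (nat_lit 7928490947) (nat_lit 4) (nat_lit 4) (nat_lit 5) (nat_lit 5) (nat_lit 5) (nat_lit 4) (nat_lit 261) (nat_lit 227) (nat_lit 172)) (XT.lf (nat_lit 0) (nat_lit 13490554717) (nat_lit 76) (nat_lit 12168601820) (nat_lit 152) (nat_lit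 386288810689) (nat_lit 2) (nat_lit 5) (nat_lit 3) (nat_lit 5) (nat_lit 4) (nat_lit 4) (nat_lit 262) (nat_lit 227) (nat_lit 171)))) (XT.nd (nat_lit 78) (nat_lit 0) (nat_lit 0) (XT.lf (nat_lit 0) (nat_lit 66181904336) (nat_lit 152) (nat_lit 374907904566) (nat_lit 0) (nat_lit 29253601577) (nat_lit 2) (nat_lit 5) (nat_lit 4) (nat_lit 4) (nat_lit 2) (nat_lit 4) (nat_lit 263) (nat_lit 227) (nat_lit 170)) (XT.nd (nat_lit 78) (nat_lit 0) (nat_lit 0) (XT.lf (nat_lit 0) (nat_lit 113115481114) (nat_lit 152) (nat_lit 348170590888) (nat_lit 0) (nat_lit 76185506777) (nat_lit 2) (nat_lit 5) (nat_lit 4) (nat_lit 4) (nat_lit 2) (nat_lit 4) (nat_lit 264) (nat_lit 227) (nat_lit 169)) (XT.lf (nat_lit 0) (nat_lit 167085497335) (nat_lit 152) (nat_lit 317429694952) (nat_lit 0) (nat_lit 130154069452) (nat_lit 2) (nat_lit 5) (nat_lit 4) (nat_lit 4) (nat_lit 2) (nat_lit 4) (nat_lit 265) (nat_lit 227) (nat_lit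 168)))))) (XT.nd (nat_lit 468) (nat_lit 76) (nat_lit 0) (XT.nd (nat_lit 234) (nat_lit 0) (nat_lit 0) (XT.nd (nat_lit 78) (nat_lit 0) (nat_lit 0) (XT.lf (nat_lit 0) (nat_lit 229147888101) (nat_lit 152) (nat_lit 282083764447) (nat_lit 0) (nat_lit 192215196265) (nat_lit 2) (nat_lit 5) (nat_lit 4) (nat_lit 4) (nat_lit 2) (nat_lit 4) (nat_lit 266) (nat_lit 227) (nat_lit 167)) (XT.nd (nat_lit 78) (nat_lit 0) (nat_lit 0) (XT.lf (nat_lit 0) (nat_lit 300516917578) (nat_lit 152) (nat_lit 241441248559) (nat_lit 0) (nat_lit 263583126653) (nat_lit 2) (nat_lit 5) (nat_lit 4) (nat_lit 4) (nat_lit 2) (nat_lit 4) (nat_lit 267) (nat_lit 227) (nat_lit 166)) (XT.lf (nat_lit 0) (nat_lit 382588936343) (nat_lit 152) (nat_lit 194706967629) (nat_lit 0) (nat_lit 345654189688) (nat_lit 2) (nat_lit 5) (nat_lit 4) (nat_lit 4) (nat_lit 2) (nat_lit 4) (nat_lit 268) (nat_lit 227) (nat_lit 165)))) (XT.nd (nat_lit 78)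 (nat_lit 0) (nat_lit 0) (XT.lf (nat_lit 0) (nat_lit 476969701285) (nat_lit 152) (nat_lit 140966555291) (nat_lit 0) (nat_lit 440034123560) (nat_lit 2) (nat_lit 5) (nat_lit 4) (nat_lit 4) (nat_lit 2) (nat_lit 4) (nat_lit 269) (nat_lit 227) (nat_lit 164)) (XT.nd (nat_lit 78) (nat_lit 0) (nat_lit 0) (XT.lf (nat_lit 0) (nat_lit 585505792587) (nat_lit 152) (nat_lit 79168568695) (nat_lit 0) (nat_lit 548569492193) (nat_lit 2) (nat_lit 5) (nat_lit 4) (nat_lit 4) (nat_lit 2) (nat_lit 4) (nat_lit 270) (nat_lit 227) (nat_lit 163)) (XT.lf (nat_lit 0) (nat_lit 710320742471) (nat_lit 152) (nat_lit 8103916800) (nat_lit 0) (nat_lit 673383813670) (nat_lit 2) (nat_lit 5) (nat_lit 4) (nat_lit 4) (nat_lit 2) (nat_lit 4) (nat_lit 271) (nat_lit 227) (nat_lit 162))))) (XT.nd (nat_lit 234) (nat_lit 0) (nat_lit 0) (XT.nd (nat_lit 78) (nat_lit 0) (nat_lit 0) (XT.lf (nat_lit 0) (nat_lit 77494378421) (nat_lit 76)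 (nat_lit 778225945809) (nat_lit 76) (nat_lit 741288470565) (nat_lit 1) (nat_lit 4) (nat_lit 2) (nat_lit 5) (nat_lit 2) (nat_lit 4) (nat_lit 272) (nat_lit 227) (nat_lit 161)) (XT.nd (nat_lit 78) (nat_lit 0) (nat_lit 0) (XT.lf (nat_lit 0) (nat_lit 176420752606) (nat_lit 76) (nat_lit 846743793521) (nat_lit 76) (nat_lit 809805843111) (nat_lit 1) (nat_lit 4) (nat_lit 2) (nat_lit 5) (nat_lit 2) (nat_lit 4) (nat_lit 273) (nat_lit 227) (nat_lit 160)) (XT.lf (nat_lit 0) (nat_lit 290183983874) (nat_lit 76) (nat_lit 925540344440) (nat_lit 76) (nat_lit 888601980842) (nat_lit 1) (nat_lit 4) (nat_lit 2) (nat_lit 5) (nat_lit 2) (nat_lit 4) (nat_lit 274) (nat_lit 227) (nat_lit 159)))) (XT.nd (nat_lit 156) (nat_lit 0) (nat_lit 0) (XT.nd (nat_lit 78) (nat_lit 0) (nat_lit 0) (XT.lf (nat_lit 0) (nat_lit 421009874575) (nat_lit 76) (nat_lit 1016157270216) (nat_lit 76) (nat_lit 979218547323) (nat_lit 1) (nat_lit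 4) (nat_lit 2) (nat_lit 5) (nat_lit 2) (nat_lit 4) (nat_lit 275) (nat_lit 227) (nat_lit 158)) (XT.lf (nat_lit 0) (nat_lit 571458061701) (nat_lit 76) (nat_lit 1120367510699) (nat_lit 76) (nat_lit 1083428475377) (nat_lit 1) (nat_lit 4) (nat_lit 2) (nat_lit 5) (nat_lit 2) (nat_lit 4) (nat_lit 276) (nat_lit 227) (nat_lit 157))) (XT.nd (nat_lit 78) (nat_lit 0) (nat_lit 0) (XT.lf (nat_lit 0) (nat_lit 744472096740) (nat_lit 76) (nat_lit 1240209961900) (nat_lit 76) (nat_lit 1203270654899) (nat_lit 1) (nat_lit 4) (nat_lit 2) (nat_lit 5) (nat_lit 2) (nat_lit 4) (nat_lit 277) (nat_lit 227) (nat_lit 156)) (XT.lf (nat_lit 0) (nat_lit 943437036899) (nat_lit 76) (nat_lit 1378029367429) (nat_lit 76) (nat_lit 1341089824186) (nat_lit 1) (nat_lit 4) (nat_lit 2) (nat_lit 5) (nat_lit 2) (nat_lit 4) (nat_lit 278) (nat_lit 227) (nat_lit 155))))))) (XT.nd (nat_lit 30654) (nat_lit 0) (nat_lit 1292) (XT.nd (nat_lit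 468) (nat_lit 0) (nat_lit 0) (XT.nd (nat_lit 234) (nat_lit 0) (nat_lit 0) (XT.nd (nat_lit 78) (nat_lit 0) (nat_lit 0) (XT.lf (nat_lit 0) (nat_lit 1172245674486) (nat_lit 76) (nat_lit 1536522193916) (nat_lit 76) (nat_lit 1499582445245) (nat_lit 1) (nat_lit 4) (nat_lit 2) (nat_lit 5) (nat_lit 2) (nat_lit 4) (nat_lit 279) (nat_lit 227) (nat_lit 154)) (XT.nd (nat_lit 78) (nat_lit 0) (nat_lit 0) (XT.lf (nat_lit 0) (nat_lit 1435374700235) (nat_lit 76) (nat_lit 1718789387965) (nat_lit 76) (nat_lit 1681849460662) (nat_lit 1) (nat_lit 4) (nat_lit 2) (nat_lit 5) (nat_lit 2) (nat_lit 4) (nat_lit 280) (nat_lit 227) (nat_lit 153)) (XT.lf (nat_lit 0) (nat_lit 1737972290738) (nat_lit 76) (nat_lit 1928397046853) (nat_lit 76) (nat_lit 1891456964217) (nat_lit 1) (nat_lit 4) (nat_lit 2) (nat_lit 5) (nat_lit 2) (nat_lit 4) (nat_lit 281) (nat_lit 227) (nat_lit 152)))) (XT.nd (nat_lit 78) (nat_lit 0) (nat_lit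 0) (XT.lf (nat_lit 0) (nat_lit 2085958833635) (nat_lit 76) (nat_lit 2169446189991) (nat_lit 76) (nat_lit 2132505972283) (nat_lit 1) (nat_lit 4) (nat_lit 2) (nat_lit 5) (nat_lit 2) (nat_lit 4) (nat_lit 282) (nat_lit 227) (nat_lit 151)) (XT.nd (nat_lit 78) (nat_lit 0) (nat_lit 0) (XT.lf (nat_lit 0) (nat_lit 2486142761287) (nat_lit 76) (nat_lit 2446652996268) (nat_lit 76) (nat_lit 2409712661106) (nat_lit 1) (nat_lit 4) (nat_lit 2) (nat_lit 5) (nat_lit 2) (nat_lit 4) (nat_lit 283) (nat_lit 227) (nat_lit 150)) (XT.lf (nat_lit 0) (nat_lit 2946353759234) (nat_lit 76) (nat_lit 2765441077110) (nat_lit 76) (nat_lit 2728500639814) (nat_lit 1) (nat_lit 4) (nat_lit 2) (nat_lit 5) (nat_lit 2) (nat_lit 4) (nat_lit 284) (nat_lit 227) (nat_lit 149))))) (XT.nd (nat_lit 29952) (nat_lit 0) (nat_lit 3344) (XT.nd (nat_lit 78) (nat_lit 0) (nat_lit 0) (XT.lf (nat_lit 0) (nat_lit 3475595955698) (nat_lit 76) (nat_lit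 3132047590621) (nat_lit 76) (nat_lit 3095107064514) (nat_lit 1) (nat_lit 4) (nat_lit 2) (nat_lit 5) (nat_lit 2) (nat_lit 4) (nat_lit 285) (nat_lit 227) (nat_lit 148)) (XT.nd (nat_lit 78) (nat_lit 0) (nat_lit 0) (XT.lf (nat_lit 0) (nat_lit 4084224089305) (nat_lit 76) (nat_lit 3553645272935) (nat_lit 76) (nat_lit 3516704669600) (nat_lit 1) (nat_lit 4) (nat_lit 2) (nat_lit 5) (nat_lit 2) (nat_lit 4) (nat_lit 286) (nat_lit 227) (nat_lit 147)) (XT.lf (nat_lit 0) (nat_lit 4784146101800) (nat_lit 76) (nat_lit 4038482774359) (nat_lit 76) (nat_lit 4001542103868) (nat_lit 1) (nat_lit 4) (nat_lit 2) (nat_lit 5) (nat_lit 2) (nat_lit 4) (nat_lit 287) (nat_lit 227) (nat_lit 146)))) (XT.nd (nat_lit 78) (nat_lit 0) (nat_lit 76) (XT.lf (nat_lit 0) (nat_lit 2340893197) (nat_lit 532) (nat_lit 2022205966) (nat_lit 532) (nat_lit 2022205966) (nat_lit 45) (nat_lit 3) (nat_lit 52) (nat_lit 3) (nat_lit 52) (nat_lit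 5) (nat_lit 228) (nat_lit 228) (nat_lit 204)) (XT.nd (nat_lit 78) (nat_lit 0) (nat_lit 0) (XT.lf (nat_lit 0) (nat_lit 5933878997) (nat_lit 456) (nat_lit 6383119068) (nat_lit 532) (nat_lit 1337341925) (nat_lit 46) (nat_lit 5) (nat_lit 52) (nat_lit 5) (nat_lit 53) (nat_lit 5) (nat_lit 229) (nat_lit 228) (nat_lit 203)) (XT.lf (nat_lit 76) (nat_lit 5833508885) (nat_lit 0) (nat_lit 1919253807) (nat_lit 532) (nat_lit 6887902522) (nat_lit 47) (nat_lit 5) (nat_lit 46) (nat_lit 5) (nat_lit 53) (nat_lit 5) (nat_lit 230) (nat_lit 228) (nat_lit 202)))))) (XT.nd (nat_lit 468) (nat_lit 1064) (nat_lit 0) (XT.nd (nat_lit 234) (nat_lit 532) (nat_lit 0) (XT.nd (nat_lit 78) (nat_lit 608) (nat_lit 0) (XT.lf (nat_lit 76) (nat_lit 4398116851) (nat_lit 0) (nat_lit 5875876695) (nat_lit 532) (nat_lit 5466892517) (nat_lit 48) (nat_lit 5) (nat_lit 47) (nat_lit 5) (nat_lit 54) (nat_lit 5) (nat_lit 231) (nat_lit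 228) (nat_lit 201)) (XT.nd (nat_lit 78) (nat_lit 228) (nat_lit 0) (XT.lf (nat_lit 0) (nat_lit 2985257830) (nat_lit 456) (nat_lit 10630714882) (nat_lit 532) (nat_lit 3355030069) (nat_lit 42) (nat_lit 5) (nat_lit 48) (nat_lit 5) (nat_lit 49) (nat_lit 5) (nat_lit 232) (nat_lit 228) (nat_lit 200)) (XT.lf (nat_lit 0) (nat_lit 1575867187) (nat_lit 228) (nat_lit 16373845431) (nat_lit 304) (nat_lit 396920177) (nat_lit 39) (nat_lit 5) (nat_lit 42) (nat_lit 5) (nat_lit 43) (nat_lit 5) (nat_lit 233) (nat_lit 228) (nat_lit 199)))) (XT.nd (nat_lit 78) (nat_lit 456) (nat_lit 0) (XT.lf (nat_lit 0) (nat_lit 3488489767) (nat_lit 304) (nat_lit 37147727) (nat_lit 76) (nat_lit 16346663800) (nat_lit 38) (nat_lit 5) (nat_lit 42) (nat_lit 5) (nat_lit 39) (nat_lit 5) (nat_lit 234) (nat_lit 228) (nat_lit 198)) (XT.nd (nat_lit 78) (nat_lit 228) (nat_lit 0) (XT.lf (nat_lit 0) (nat_lit 8633611331) (nat_lit 304)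 (nat_lit 1745655333) (nat_lit 76) (nat_lit 11190859518) (nat_lit 35) (nat_lit 5) (nat_lit 39) (nat_lit 5) (nat_lit 36) (nat_lit 5) (nat_lit 235) (nat_lit 228) (nat_lit 197)) (XT.lf (nat_lit 0) (nat_lit 15186952869) (nat_lit 304) (nat_lit 3623359739) (nat_lit 76) (nat_lit 4661537848) (nat_lit 32) (nat_lit 5) (nat_lit 36) (nat_lit 5) (nat_lit 33) (nat_lit 5) (nat_lit 236) (nat_lit 228) (nat_lit 196))))) (XT.nd (nat_lit 234) (nat_lit 532) (nat_lit 0) (XT.nd (nat_lit 78) (nat_lit 380) (nat_lit 0) (XT.lf (nat_lit 0) (nat_lit 19763939401) (nat_lit 152) (nat_lit 3719374297) (nat_lit 228) (nat_lit 2114841526) (nat_lit 30) (nat_lit 5) (nat_lit 32) (nat_lit 5) (nat_lit 33) (nat_lit 5) (nat_lit 237) (nat_lit 228) (nat_lit 195)) (XT.nd (nat_lit 78) (nat_lit 152) (nat_lit 0) (XT.lf (nat_lit 0) (nat_lit 5607528329) (nat_lit 228) (nat_lit 8699582642) (nat_lit 76) (nat_lit 13656734183) (nat_lit 27) (nat_lit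 5) (nat_lit 30) (nat_lit 5) (nat_lit 28) (nat_lit 5) (nat_lit 238) (nat_lit 228) (nat_lit 194)) (XT.lf (nat_lit 0) (nat_lit 15126540267) (nat_lit 228) (nat_lit 12202652948) (nat_lit 76) (nat_lit 3289806501) (nat_lit 25) (nat_lit 5) (nat_lit 28) (nat_lit 5) (nat_lit 26) (nat_lit 5) (nat_lit 239) (nat_lit 228) (nat_lit 193)))) (XT.nd (nat_lit 156) (nat_lit 228) (nat_lit 0) (XT.nd (nat_lit 78) (nat_lit 152) (nat_lit 0) (XT.lf (nat_lit 0) (nat_lit 16853887892) (nat_lit 152) (nat_lit 10238980399) (nat_lit 228) (nat_lit 6498077094) (nat_lit 23) (nat_lit 5) (nat_lit 25) (nat_lit 5) (nat_lit 26) (nat_lit 5) (nat_lit 240) (nat_lit 228) (nat_lit 192)) (XT.lf (nat_lit 0) (nat_lit 4577206323) (nat_lit 152) (nat_lit 22596119234) (nat_lit 76) (nat_lit 9754090362) (nat_lit 21) (nat_lit 5) (nat_lit 23) (nat_lit 5) (nat_lit 22) (nat_lit 5) (nat_lit 241) (nat_lit 228) (nat_lit 191))) (XT.nd (nat_lit 78)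 (nat_lit 76) (nat_lit 0) (XT.lf (nat_lit 0) (nat_lit 10333842429) (nat_lit 152) (nat_lit 7602649418) (nat_lit 228) (nat_lit 22733817781) (nat_lit 19) (nat_lit 5) (nat_lit 21) (nat_lit 5) (nat_lit 22) (nat_lit 5) (nat_lit 242) (nat_lit 228) (nat_lit 190)) (XT.lf (nat_lit 0) (nat_lit 4443367174) (nat_lit 76) (nat_lit 29964321196) (nat_lit 152) (nat_lit 10478353271) (nat_lit 18) (nat_lit 5) (nat_lit 19) (nat_lit 5) (nat_lit 20) (nat_lit 4) (nat_lit 243) (nat_lit 228) (nat_lit 189))))))))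
noncomputable def xc34 : XT := (XT.nd (nat_lit 1950) (nat_lit 76) (nat_lit 0) (XT.nd (nat_lit 936) (nat_lit 304) (nat_lit 0) (XT.nd (nat_lit 468) (nat_lit 380) (nat_lit 0) (XT.nd (nat_lit 234) (nat_lit 228) (nat_lit 0) (XT.nd (nat_lit 78) (nat_lit 228) (nat_lit 0) (XT.lf (nat_lit 0) (nat_lit 4521010660) (nat_lit 152) (nat_lit 3756535081) (nat_lit 76) (nat_lit 41362753355) (nat_lit 17) (nat_lit 5) (nat_lit 19) (nat_lit 5) (nat_lit 18) (nat_lit 5) (nat_lit 244) (nat_lit 228) (nat_lit 188)) (XT.nd (nat_lit 78) (nat_lit 76) (nat_lit 0) (XT.lf (nat_lit 0) (nat_lit 22538829010) (nat_lit 228) (nat_lit 15337015776) (nat_lit 76) (nat_lit 17098990356) (nat_lit 15) (nat_lit 5) (nat_lit 18) (nat_lit 5) (nat_lit 16) (nat_lit 4) (nat_lit 245) (nat_lit 228) (nat_lit 187)) (XT.lf (nat_lit 0) (nat_lit 29890000721) (nat_lit 76) (nat_lit 14405293286) (nat_lit 152) (nat_lit 16731407500) (nat_lit 14) (nat_lit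 5) (nat_lit 15) (nat_lit 5) (nat_lit 16) (nat_lit 4) (nat_lit 246) (nat_lit 228) (nat_lit 186)))) (XT.nd (nat_lit 78) (nat_lit 76) (nat_lit 0) (XT.lf (nat_lit 0) (nat_lit 2397470672) (nat_lit 152) (nat_lit 52668070288) (nat_lit 76) (nat_lit 12827467238) (nat_lit 12) (nat_lit 5) (nat_lit 14) (nat_lit 5) (nat_lit 13) (nat_lit 4) (nat_lit 247) (nat_lit 228) (nat_lit 185)) (XT.nd (nat_lit 78) (nat_lit 76) (nat_lit 0) (XT.lf (nat_lit 0) (nat_lit 24740926576) (nat_lit 152) (nat_lit 6212187012) (nat_lit 76) (nat_lit 44694525661) (nat_lit 12) (nat_lit 5) (nat_lit 14) (nat_lit 5) (nat_lit 13) (nat_lit 4) (nat_lit 248) (nat_lit 228) (nat_lit 184)) (XT.lf (nat_lit 0) (nat_lit 49664220241) (nat_lit 76) (nat_lit 1948099874) (nat_lit 152) (nat_lit 32859048242) (nat_lit 11) (nat_lit 5) (nat_lit 12) (nat_lit 5) (nat_lit 13) (nat_lit 4) (nat_lit 249) (nat_lit 228) (nat_lit 183))))) (XT.nd (nat_lit 234)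 (nat_lit 152) (nat_lit 0) (XT.nd (nat_lit 78) (nat_lit 152) (nat_lit 0) (XT.lf (nat_lit 0) (nat_lit 19898923208) (nat_lit 76) (nat_lit 64018298351) (nat_lit 76) (nat_lit 10589226091) (nat_lit 10) (nat_lit 4) (nat_lit 11) (nat_lit 5) (nat_lit 11) (nat_lit 4) (nat_lit 250) (nat_lit 228) (nat_lit 182)) (XT.nd (nat_lit 78) (nat_lit 76) (nat_lit 0) (XT.lf (nat_lit 0) (nat_lit 15347641115) (nat_lit 152) (nat_lit 21517244795) (nat_lit 76) (nat_lit 69066775302) (nat_lit 9) (nat_lit 5) (nat_lit 11) (nat_lit 5) (nat_lit 10) (nat_lit 4) (nat_lit 251) (nat_lit 228) (nat_lit 181)) (XT.lf (nat_lit 0) (nat_lit 41283857634) (nat_lit 76) (nat_lit 4261331077) (nat_lit 152) (nat_lit 73423702772) (nat_lit 8) (nat_lit 5) (nat_lit 9) (nat_lit 5) (nat_lit 10) (nat_lit 4) (nat_lit 252) (nat_lit 228) (nat_lit 180)))) (XT.nd (nat_lit 78) (nat_lit 152) (nat_lit 0) (XT.lf (nat_lit 0) (nat_lit 81701748323) (nat_lit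 152) (nat_lit 19942621599) (nat_lit 0) (nat_lit 32202994949) (nat_lit 8) (nat_lit 5) (nat_lit 10) (nat_lit 4) (nat_lit 8) (nat_lit 4) (nat_lit 253) (nat_lit 228) (nat_lit 179)) (XT.nd (nat_lit 78) (nat_lit 76) (nat_lit 0) (XT.lf (nat_lit 0) (nat_lit 48761996960) (nat_lit 76) (nat_lit 75799430758) (nat_lit 76) (nat_lit 26293818482) (nat_lit 7) (nat_lit 4) (nat_lit 8) (nat_lit 5) (nat_lit 8) (nat_lit 4) (nat_lit 254) (nat_lit 228) (nat_lit 178)) (XT.lf (nat_lit 0) (nat_lit 3849328476) (nat_lit 152) (nat_lit 41504973307) (nat_lit 76) (nat_lit 125006567890) (nat_lit 6) (nat_lit 5) (nat_lit 8) (nat_lit 5) (nat_lit 7) (nat_lit 4) (nat_lit 255) (nat_lit 228) (nat_lit 177)))))) (XT.nd (nat_lit 468) (nat_lit 152) (nat_lit 0) (XT.nd (nat_lit 234) (nat_lit 76) (nat_lit 0) (XT.nd (nat_lit 78) (nat_lit 0) (nat_lit 0) (XT.lf (nat_lit 0) (nat_lit 28871756799) (nat_lit 76) (nat_lit 8815031495) (nat_lit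 152) (nat_lit 154992539066) (nat_lit 5) (nat_lit 5) (nat_lit 6) (nat_lit 5) (nat_lit 7) (nat_lit 4) (nat_lit 256) (nat_lit 228) (nat_lit 176)) (XT.nd (nat_lit 78) (nat_lit 0) (nat_lit 0) (XT.lf (nat_lit 0) (nat_lit 78629921072) (nat_lit 152) (nat_lit 106776342255) (nat_lit 0) (nat_lit 32776890800) (nat_lit 5) (nat_lit 5) (nat_lit 7) (nat_lit 4) (nat_lit 5) (nat_lit 4) (nat_lit 257) (nat_lit 228) (nat_lit 175)) (XT.lf (nat_lit 0) (nat_lit 125951117818) (nat_lit 152) (nat_lit 41448057262) (nat_lit 0) (nat_lit 80094456434) (nat_lit 5) (nat_lit 5) (nat_lit 7) (nat_lit 4) (nat_lit 5) (nat_lit 4) (nat_lit 258) (nat_lit 228) (nat_lit 174)))) (XT.nd (nat_lit 78) (nat_lit 0) (nat_lit 0) (XT.lf (nat_lit 0) (nat_lit 35440316393) (nat_lit 76) (nat_lit 145776250381) (nat_lit 76) (nat_lit 99916431509) (nat_lit 4) (nat_lit 4) (nat_lit 5) (nat_lit 5) (nat_lit 5) (nat_lit 4) (nat_lit 259) (nat_lit 228)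 (nat_lit 173)) (XT.nd (nat_lit 78) (nat_lit 0) (nat_lit 0) (XT.lf (nat_lit 0) (nat_lit 126360909906) (nat_lit 76) (nat_lit 119611923870) (nat_lit 76) (nat_lit 73749359357) (nat_lit 4) (nat_lit 4) (nat_lit 5) (nat_lit 5) (nat_lit 5) (nat_lit 4) (nat_lit 260) (nat_lit 228) (nat_lit 172)) (XT.lf (nat_lit 0) (nat_lit 230910023209) (nat_lit 76) (nat_lit 89527548150) (nat_lit 76) (nat_lit 43662596123) (nat_lit 4) (nat_lit 4) (nat_lit 5) (nat_lit 5) (nat_lit 5) (nat_lit 4) (nat_lit 261) (nat_lit 228) (nat_lit 171))))) (XT.nd (nat_lit 234) (nat_lit 0) (nat_lit 0) (XT.nd (nat_lit 78) (nat_lit 152) (nat_lit 0) (XT.lf (nat_lit 0) (nat_lit 351133182432) (nat_lit 76) (nat_lit 54934515870) (nat_lit 76) (nat_lit 9067487743) (nat_lit 4) (nat_lit 4) (nat_lit 5) (nat_lit 5) (nat_lit 5) (nat_lit 4) (nat_lit 262) (nat_lit 228) (nat_lit 170)) (XT.nd (nat_lit 78) (nat_lit 0) (nat_lit 0) (XT.lf (nat_lit 0)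 (nat_lit 15598474410) (nat_lit 76) (nat_lit 13953115897) (nat_lit 152) (nat_lit 444185066717) (nat_lit 2) (nat_lit 5) (nat_lit 3) (nat_lit 5) (nat_lit 4) (nat_lit 4) (nat_lit 263) (nat_lit 228) (nat_lit 169)) (XT.lf (nat_lit 0) (nat_lit 76147921255) (nat_lit 152) (nat_lit 431068558858) (nat_lit 0) (nat_lit 33675325644) (nat_lit 2) (nat_lit 5) (nat_lit 4) (nat_lit 4) (nat_lit 2) (nat_lit 4) (nat_lit 264) (nat_lit 228) (nat_lit 168)))) (XT.nd (nat_lit 156) (nat_lit 0) (nat_lit 0) (XT.nd (nat_lit 78) (nat_lit 0) (nat_lit 0) (XT.lf (nat_lit 0) (nat_lit 130116482644) (nat_lit 152) (nat_lit 400330500048) (nat_lit 0) (nat_lit 87642623080) (nat_lit 2) (nat_lit 5) (nat_lit 4) (nat_lit 4) (nat_lit 2) (nat_lit 4) (nat_lit 265) (nat_lit 228) (nat_lit 167)) (XT.lf (nat_lit 0) (nat_lit 192177608339) (nat_lit 152) (nat_lit 364987036610) (nat_lit 0) (nat_lit 149702649685) (nat_lit 2) (nat_lit 5) (nat_lit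 4) (nat_lit 4) (nat_lit 2) (nat_lit 4) (nat_lit 266) (nat_lit 228) (nat_lit 166))) (XT.nd (nat_lit 78) (nat_lit 0) (nat_lit 0) (XT.lf (nat_lit 0) (nat_lit 263545537753) (nat_lit 152) (nat_lit 324346665997) (nat_lit 0) (nat_lit 221069623370) (nat_lit 2) (nat_lit 5) (nat_lit 4) (nat_lit 4) (nat_lit 2) (nat_lit 4) (nat_lit 267) (nat_lit 228) (nat_lit 165)) (XT.lf (nat_lit 0) (nat_lit 345616599943) (nat_lit 152) (nat_lit 277614250523) (nat_lit 0) (nat_lit 303139854490) (nat_lit 2) (nat_lit 5) (nat_lit 4) (nat_lit 4) (nat_lit 2) (nat_lit 4) (nat_lit 268) (nat_lit 228) (nat_lit 164))))))) (XT.nd (nat_lit 936) (nat_lit 0) (nat_lit 0) (XT.nd (nat_lit 468) (nat_lit 0) (nat_lit 0) (XT.nd (nat_lit 234) (nat_lit 76) (nat_lit 0) (XT.nd (nat_lit 78) (nat_lit 0) (nat_lit 0) (XT.lf (nat_lit 0) (nat_lit 439996533080) (nat_lit 152) (nat_lit 223875460322) (nat_lit 0) (nat_lit 397519064958) (nat_lit 2) (nat_lit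 5) (nat_lit 4) (nat_lit 4) (nat_lit 2) (nat_lit 4) (nat_lit 269) (nat_lit 228) (nat_lit 163)) (XT.nd (nat_lit 78) (nat_lit 0) (nat_lit 0) (XT.lf (nat_lit 0) (nat_lit 548531901073) (nat_lit 152) (nat_lit 162078884279) (nat_lit 0) (nat_lit 506053804544) (nat_lit 2) (nat_lit 5) (nat_lit 4) (nat_lit 4) (nat_lit 2) (nat_lit 4) (nat_lit 270) (nat_lit 228) (nat_lit 162)) (XT.lf (nat_lit 0) (nat_lit 673346221994) (nat_lit 152) (nat_lit 91015458951) (nat_lit 0) (nat_lit 630867579022) (nat_lit 2) (nat_lit 5) (nat_lit 4) (nat_lit 4) (nat_lit 2) (nat_lit 4) (nat_lit 271) (nat_lit 228) (nat_lit 161)))) (XT.nd (nat_lit 78) (nat_lit 76) (nat_lit 0) (XT.lf (nat_lit 0) (nat_lit 816881515162) (nat_lit 152) (nat_lit 9294812973) (nat_lit 0) (nat_lit 774402397024) (nat_lit 2) (nat_lit 5) (nat_lit 4) (nat_lit 4) (nat_lit 2) (nat_lit 4) (nat_lit 272) (nat_lit 228) (nat_lit 160)) (XT.nd (nat_lit 78) (nat_lit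 0) (nat_lit 0) (XT.lf (nat_lit 0) (nat_lit 89141136531) (nat_lit 76) (nat_lit 894948789740) (nat_lit 76) (nat_lit 852469258413) (nat_lit 1) (nat_lit 4) (nat_lit 2) (nat_lit 5) (nat_lit 2) (nat_lit 4) (nat_lit 273) (nat_lit 228) (nat_lit 159)) (XT.lf (nat_lit 0) (nat_lit 202903518842) (nat_lit 76) (nat_lit 973745755644) (nat_lit 76) (nat_lit 931265865023) (nat_lit 1) (nat_lit 4) (nat_lit 2) (nat_lit 5) (nat_lit 2) (nat_lit 4) (nat_lit 274) (nat_lit 228) (nat_lit 158))))) (XT.nd (nat_lit 234) (nat_lit 0) (nat_lit 0) (XT.nd (nat_lit 78) (nat_lit 0) (nat_lit 0) (XT.lf (nat_lit 0) (nat_lit 333728671320) (nat_lit 76) (nat_lit 1064363042276) (nat_lit 76) (nat_lit 1021882839226) (nat_lit 1) (nat_lit 4) (nat_lit 2) (nat_lit 5) (nat_lit 2) (nat_lit 4) (nat_lit 275) (nat_lit 228) (nat_lit 157)) (XT.nd (nat_lit 78) (nat_lit 0) (nat_lit 0) (XT.lf (nat_lit 0) (nat_lit 484176216513) (nat_lit 76) (nat_lit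 1168573596548) (nat_lit 76) (nat_lit 1126093121819) (nat_lit 1) (nat_lit 4) (nat_lit 2) (nat_lit 5) (nat_lit 2) (nat_lit 4) (nat_lit 276) (nat_lit 228) (nat_lit 156)) (XT.lf (nat_lit 0) (nat_lit 657189693350) (nat_lit 76) (nat_lit 1288416320608) (nat_lit 76) (nat_lit 1245935609638) (nat_lit 1) (nat_lit 4) (nat_lit 2) (nat_lit 5) (nat_lit 2) (nat_lit 4) (nat_lit 277) (nat_lit 228) (nat_lit 155)))) (XT.nd (nat_lit 78) (nat_lit 0) (nat_lit 0) (XT.lf (nat_lit 0) (nat_lit 856154148115) (nat_lit 76) (nat_lit 1426235963406) (nat_lit 76) (nat_lit 1383755047008) (nat_lit 1) (nat_lit 4) (nat_lit 2) (nat_lit 5) (nat_lit 2) (nat_lit 4) (nat_lit 278) (nat_lit 228) (nat_lit 154)) (XT.nd (nat_lit 78) (nat_lit 0) (nat_lit 0) (XT.lf (nat_lit 0) (nat_lit 1084962363620) (nat_lit 76) (nat_lit 1584728996214) (nat_lit 76) (nat_lit 1542247901183) (nat_lit 1) (nat_lit 4) (nat_lit 2) (nat_lit 5) (nat_lit 2) (nat_lit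 4) (nat_lit 279) (nat_lit 228) (nat_lit 153)) (XT.lf (nat_lit 0) (nat_lit 1348091022342) (nat_lit 76) (nat_lit 1766996369673) (nat_lit 76) (nat_lit 1724515119309) (nat_lit 1) (nat_lit 4) (nat_lit 2) (nat_lit 5) (nat_lit 2) (nat_lit 4) (nat_lit 280) (nat_lit 228) (nat_lit 152)))))) (XT.nd (nat_lit 468) (nat_lit 0) (nat_lit 0) (XT.nd (nat_lit 234) (nat_lit 0) (nat_lit 0) (XT.nd (nat_lit 78) (nat_lit 0) (nat_lit 0) (XT.lf (nat_lit 0) (nat_lit 1650688293691) (nat_lit 76) (nat_lit 1976604184569) (nat_lit 76) (nat_lit 1934122799133) (nat_lit 1) (nat_lit 4) (nat_lit 2) (nat_lit 5) (nat_lit 2) (nat_lit 4) (nat_lit 281) (nat_lit 228) (nat_lit 151)) (XT.nd (nat_lit 78) (nat_lit 0) (nat_lit 0) (XT.lf (nat_lit 0) (nat_lit 1998674559062) (nat_lit 76) (nat_lit 2217653463366) (nat_lit 76) (nat_lit 2175171960476) (nat_lit 1) (nat_lit 4) (nat_lit 2) (nat_lit 5) (nat_lit 2) (nat_lit 4) (nat_lit 282) (nat_lit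 228) (nat_lit 150)) (XT.lf (nat_lit 0) (nat_lit 2398858245388) (nat_lit 76) (nat_lit 2494860387608) (nat_lit 76) (nat_lit 2452378782584) (nat_lit 1) (nat_lit 4) (nat_lit 2) (nat_lit 5) (nat_lit 2) (nat_lit 4) (nat_lit 283) (nat_lit 228) (nat_lit 149)))) (XT.nd (nat_lit 78) (nat_lit 0) (nat_lit 0) (XT.lf (nat_lit 0) (nat_lit 2859069033486) (nat_lit 76) (nat_lit 2813648571028) (nat_lit 76) (nat_lit 2771166877192) (nat_lit 1) (nat_lit 4) (nat_lit 2) (nat_lit 5) (nat_lit 2) (nat_lit 4) (nat_lit 284) (nat_lit 228) (nat_lit 148)) (XT.nd (nat_lit 78) (nat_lit 0) (nat_lit 0) (XT.lf (nat_lit 0) (nat_lit 3388311047473) (nat_lit 76) (nat_lit 3180255173738) (nat_lit 76) (nat_lit 3137773402674) (nat_lit 1) (nat_lit 4) (nat_lit 2) (nat_lit 5) (nat_lit 2) (nat_lit 4) (nat_lit 285) (nat_lit 228) (nat_lit 147)) (XT.lf (nat_lit 0) (nat_lit 3996939022404) (nat_lit 76) (nat_lit 3601852933615) (nat_lit 76)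 (nat_lit 3559371095397) (nat_lit 1) (nat_lit 4) (nat_lit 2) (nat_lit 5) (nat_lit 2) (nat_lit 4) (nat_lit 286) (nat_lit 228) (nat_lit 146))))) (XT.nd (nat_lit 30030) (nat_lit 0) (nat_lit 2812) (XT.nd (nat_lit 29874) (nat_lit 0) (nat_lit 3344) (XT.lf (nat_lit 0) (nat_lit 4696860896919) (nat_lit 76) (nat_lit 4086690502485) (nat_lit 76) (nat_lit 4044208605871) (nat_lit 1) (nat_lit 4) (nat_lit 2) (nat_lit 5) (nat_lit 2) (nat_lit 4) (nat_lit 287) (nat_lit 228) (nat_lit 145)) (XT.nd (nat_lit 78) (nat_lit 0) (nat_lit 76) (XT.lf (nat_lit 0) (nat_lit 3354749302) (nat_lit 532) (nat_lit 1966713426) (nat_lit 532) (nat_lit 1966713426) (nat_lit 45) (nat_lit 3) (nat_lit 52) (nat_lit 3) (nat_lit 52) (nat_lit 5) (nat_lit 229) (nat_lit 229) (nat_lit 202)) (XT.lf (nat_lit 0) (nat_lit 7980019008) (nat_lit 456) (nat_lit 6574599559) (nat_lit 532) (nat_lit 1052071288) (nat_lit 46) (nat_lit 5) (nat_lit 52) (nat_lit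 5) (nat_lit 53) (nat_lit 5) (nat_lit 230) (nat_lit 229) (nat_lit 201)))) (XT.nd (nat_lit 156) (nat_lit 608) (nat_lit 0) (XT.nd (nat_lit 78) (nat_lit 0) (nat_lit 76) (XT.lf (nat_lit 76) (nat_lit 7409685571) (nat_lit 0) (nat_lit 2528122175) (nat_lit 532) (nat_lit 6814302903) (nat_lit 47) (nat_lit 5) (nat_lit 46) (nat_lit 5) (nat_lit 53) (nat_lit 5) (nat_lit 231) (nat_lit 229) (nat_lit 200)) (XT.lf (nat_lit 76) (nat_lit 5784190785) (nat_lit 0) (nat_lit 6930467261) (nat_lit 532) (nat_lit 5312887954) (nat_lit 48) (nat_lit 5) (nat_lit 47) (nat_lit 5) (nat_lit 54) (nat_lit 5) (nat_lit 232) (nat_lit 229) (nat_lit 199))) (XT.nd (nat_lit 78) (nat_lit 304) (nat_lit 0) (XT.lf (nat_lit 0) (nat_lit 4169902743) (nat_lit 456) (nat_lit 12284795795) (nat_lit 532) (nat_lit 2996067626) (nat_lit 42) (nat_lit 5) (nat_lit 48) (nat_lit 5) (nat_lit 49) (nat_lit 5) (nat_lit 233) (nat_lit 229) (nat_lit 198)) (XT.lf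 (nat_lit 0) (nat_lit 295510900) (nat_lit 304) (nat_lit 18499147579) (nat_lit 76) (nat_lit 2244760896) (nat_lit 38) (nat_lit 5) (nat_lit 42) (nat_lit 5) (nat_lit 39) (nat_lit 5) (nat_lit 234) (nat_lit 229) (nat_lit 197))))))))
noncomputable def xc35 : XT := (XT.nd (nat_lit 1950) (nat_lit 304) (nat_lit 0) (XT.nd (nat_lit 936) (nat_lit 760) (nat_lit 0) (XT.nd (nat_lit 468) (nat_lit 760) (nat_lit 0) (XT.nd (nat_lit 234) (nat_lit 532) (nat_lit 0) (XT.nd (nat_lit 78) (nat_lit 228) (nat_lit 0) (XT.lf (nat_lit 0) (nat_lit 665579476) (nat_lit 228) (nat_lit 3996221581) (nat_lit 304) (nat_lit 18137815668) (nat_lit 35) (nat_lit 5) (nat_lit 38) (nat_lit 5) (nat_lit 39) (nat_lit 5) (nat_lit 235) (nat_lit 229) (nat_lit 196)) (XT.nd (nat_lit 78) (nat_lit 228) (nat_lit 0) (XT.lf (nat_lit 0) (nat_lit 10496086617) (nat_lit 304) (nat_lit 1344255008) (nat_lit 76) (nat_lit 12918581200) (nat_lit 35) (nat_lit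 5) (nat_lit 39) (nat_lit 5) (nat_lit 36) (nat_lit 5) (nat_lit 236) (nat_lit 229) (nat_lit 195)) (XT.lf (nat_lit 0) (nat_lit 17975400302) (nat_lit 304) (nat_lit 3520342648) (nat_lit 76) (nat_lit 5454898282) (nat_lit 32) (nat_lit 5) (nat_lit 36) (nat_lit 5) (nat_lit 33) (nat_lit 5) (nat_lit 237) (nat_lit 229) (nat_lit 194)))) (XT.nd (nat_lit 78) (nat_lit 380) (nat_lit 0) (XT.lf (nat_lit 0) (nat_lit 23320326576) (nat_lit 152) (nat_lit 4143546894) (nat_lit 228) (nat_lit 1936356166) (nat_lit 30) (nat_lit 5) (nat_lit 32) (nat_lit 5) (nat_lit 33) (nat_lit 5) (nat_lit 238) (nat_lit 229) (nat_lit 193)) (XT.nd (nat_lit 78) (nat_lit 152) (nat_lit 0) (XT.lf (nat_lit 0) (nat_lit 6875161585) (nat_lit 228) (nat_lit 9408031147) (nat_lit 76) (nat_lit 15840300618) (nat_lit 27) (nat_lit 5) (nat_lit 30) (nat_lit 5) (nat_lit 28) (nat_lit 5) (nat_lit 239) (nat_lit 229) (nat_lit 192)) (XT.lf (nat_lit 0) (nat_lit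 17783421624) (nat_lit 228) (nat_lit 13459524611) (nat_lit 76) (nat_lit 3937168581) (nat_lit 25) (nat_lit 5) (nat_lit 28) (nat_lit 5) (nat_lit 26) (nat_lit 5) (nat_lit 240) (nat_lit 229) (nat_lit 191))))) (XT.nd (nat_lit 234) (nat_lit 304) (nat_lit 0) (XT.nd (nat_lit 78) (nat_lit 304) (nat_lit 0) (XT.lf (nat_lit 0) (nat_lit 19906951212) (nat_lit 152) (nat_lit 11599777731) (nat_lit 228) (nat_lit 7094252659) (nat_lit 23) (nat_lit 5) (nat_lit 25) (nat_lit 5) (nat_lit 26) (nat_lit 5) (nat_lit 241) (nat_lit 229) (nat_lit 190)) (XT.nd (nat_lit 78) (nat_lit 152) (nat_lit 0) (XT.lf (nat_lit 0) (nat_lit 5592647180) (nat_lit 152) (nat_lit 25464854010) (nat_lit 76) (nat_lit 11382226248) (nat_lit 21) (nat_lit 5) (nat_lit 23) (nat_lit 5) (nat_lit 22) (nat_lit 5) (nat_lit 242) (nat_lit 229) (nat_lit 189)) (XT.lf (nat_lit 0) (nat_lit 12360528671) (nat_lit 152) (nat_lit 8563864570) (nat_lit 228) (nat_lit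 25822240729) (nat_lit 19) (nat_lit 5) (nat_lit 21) (nat_lit 5) (nat_lit 22) (nat_lit 5) (nat_lit 243) (nat_lit 229) (nat_lit 188)))) (XT.nd (nat_lit 78) (nat_lit 228) (nat_lit 0) (XT.lf (nat_lit 0) (nat_lit 5564366723) (nat_lit 76) (nat_lit 34277785467) (nat_lit 152) (nat_lit 11754558773) (nat_lit 18) (nat_lit 5) (nat_lit 19) (nat_lit 5) (nat_lit 20) (nat_lit 4) (nat_lit 244) (nat_lit 229) (nat_lit 187)) (XT.nd (nat_lit 78) (nat_lit 152) (nat_lit 0) (XT.lf (nat_lit 0) (nat_lit 5443304004) (nat_lit 152) (nat_lit 3911647106) (nat_lit 76) (nat_lit 47711561930) (nat_lit 17) (nat_lit 5) (nat_lit 19) (nat_lit 5) (nat_lit 18) (nat_lit 5) (nat_lit 245) (nat_lit 229) (nat_lit 186)) (XT.lf (nat_lit 0) (nat_lit 26144608460) (nat_lit 228) (nat_lit 17249470752) (nat_lit 76) (nat_lit 19808724289) (nat_lit 15) (nat_lit 5) (nat_lit 18) (nat_lit 5) (nat_lit 16) (nat_lit 4) (nat_lit 246) (nat_lit 229)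 (nat_lit 185)))))) (XT.nd (nat_lit 468) (nat_lit 304) (nat_lit 0) (XT.nd (nat_lit 234) (nat_lit 228) (nat_lit 0) (XT.nd (nat_lit 78) (nat_lit 152) (nat_lit 0) (XT.lf (nat_lit 0) (nat_lit 34728747709) (nat_lit 76) (nat_lit 16414997224) (nat_lit 152) (nat_lit 19020402727) (nat_lit 14) (nat_lit 5) (nat_lit 15) (nat_lit 5) (nat_lit 16) (nat_lit 4) (nat_lit 247) (nat_lit 229) (nat_lit 184)) (XT.nd (nat_lit 78) (nat_lit 0) (nat_lit 0) (XT.lf (nat_lit 0) (nat_lit 2950974587) (nat_lit 152) (nat_lit 60220880604) (nat_lit 76) (nat_lit 14889411183) (nat_lit 12) (nat_lit 5) (nat_lit 14) (nat_lit 5) (nat_lit 13) (nat_lit 4) (nat_lit 248) (nat_lit 229) (nat_lit 183)) (XT.lf (nat_lit 0) (nat_lit 28620659749) (nat_lit 152) (nat_lit 6841927909) (nat_lit 76) (nat_lit 51518551345) (nat_lit 12) (nat_lit 5) (nat_lit 14) (nat_lit 5) (nat_lit 13) (nat_lit 4) (nat_lit 249) (nat_lit 229) (nat_lit 182)))) (XT.nd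 (nat_lit 78) (nat_lit 152) (nat_lit 0) (XT.lf (nat_lit 0) (nat_lit 57390370258) (nat_lit 76) (nat_lit 2117051754) (nat_lit 152) (nat_lit 37622253375) (nat_lit 11) (nat_lit 5) (nat_lit 12) (nat_lit 5) (nat_lit 13) (nat_lit 4) (nat_lit 250) (nat_lit 229) (nat_lit 181)) (XT.nd (nat_lit 78) (nat_lit 76) (nat_lit 0) (XT.lf (nat_lit 0) (nat_lit 23145508107) (nat_lit 76) (nat_lit 73501433746) (nat_lit 76) (nat_lit 12023982056) (nat_lit 10) (nat_lit 4) (nat_lit 11) (nat_lit 5) (nat_lit 11) (nat_lit 4) (nat_lit 251) (nat_lit 229) (nat_lit 180)) (XT.lf (nat_lit 0) (nat_lit 17776694114) (nat_lit 152) (nat_lit 24510446688) (nat_lit 76) (nat_lit 79524020489) (nat_lit 9) (nat_lit 5) (nat_lit 11) (nat_lit 5) (nat_lit 10) (nat_lit 4) (nat_lit 252) (nat_lit 229) (nat_lit 179))))) (XT.nd (nat_lit 234) (nat_lit 152) (nat_lit 0) (XT.nd (nat_lit 78) (nat_lit 76) (nat_lit 0) (XT.lf (nat_lit 0) (nat_lit 47690981598)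 (nat_lit 76) (nat_lit 4801499007) (nat_lit 152) (nat_lit 84312419552) (nat_lit 8) (nat_lit 5) (nat_lit 9) (nat_lit 5) (nat_lit 10) (nat_lit 4) (nat_lit 253) (nat_lit 229) (nat_lit 178)) (XT.nd (nat_lit 78) (nat_lit 76) (nat_lit 0) (XT.lf (nat_lit 0) (nat_lit 94059528225) (nat_lit 152) (nat_lit 22741416011) (nat_lit 0) (nat_lit 37115250942) (nat_lit 8) (nat_lit 5) (nat_lit 10) (nat_lit 4) (nat_lit 8) (nat_lit 4) (nat_lit 254) (nat_lit 229) (nat_lit 177)) (XT.lf (nat_lit 0) (nat_lit 56252592800) (nat_lit 76) (nat_lit 87086434791) (nat_lit 76) (nat_lit 30136971192) (nat_lit 7) (nat_lit 4) (nat_lit 8) (nat_lit 5) (nat_lit 8) (nat_lit 4) (nat_lit 255) (nat_lit 229) (nat_lit 176)))) (XT.nd (nat_lit 156) (nat_lit 0) (nat_lit 0) (XT.nd (nat_lit 78) (nat_lit 76) (nat_lit 0) (XT.lf (nat_lit 0) (nat_lit 4510094384) (nat_lit 152) (nat_lit 47572977119) (nat_lit 76) (nat_lit 143825208174) (nat_lit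 6) (nat_lit 5) (nat_lit 8) (nat_lit 5) (nat_lit 7) (nat_lit 4) (nat_lit 256) (nat_lit 229) (nat_lit 175)) (XT.lf (nat_lit 0) (nat_lit 33346910412) (nat_lit 76) (nat_lit 10068861438) (nat_lit 152) (nat_lit 178159332939) (nat_lit 5) (nat_lit 5) (nat_lit 6) (nat_lit 5) (nat_lit 7) (nat_lit 4) (nat_lit 257) (nat_lit 229) (nat_lit 174))) (XT.nd (nat_lit 78) (nat_lit 0) (nat_lit 0) (XT.lf (nat_lit 0) (nat_lit 90491896998) (nat_lit 152) (nat_lit 122663344767) (nat_lit 0) (nat_lit 37749947809) (nat_lit 5) (nat_lit 5) (nat_lit 7) (nat_lit 4) (nat_lit 5) (nat_lit 4) (nat_lit 258) (nat_lit 229) (nat_lit 173)) (XT.lf (nat_lit 0) (nat_lit 144902470504) (nat_lit 152) (nat_lit 47552701655) (nat_lit 0) (nat_lit 92157775672) (nat_lit 5) (nat_lit 5) (nat_lit 7) (nat_lit 4) (nat_lit 5) (nat_lit 4) (nat_lit 259) (nat_lit 229) (nat_lit 172))))))) (XT.nd (nat_lit 1014) (nat_lit 76) (nat_lit 0) (XT.nd (nat_lit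 468) (nat_lit 0) (nat_lit 0) (XT.nd (nat_lit 234) (nat_lit 152) (nat_lit 0) (XT.nd (nat_lit 78) (nat_lit 0) (nat_lit 0) (XT.lf (nat_lit 0) (nat_lit 40859400051) (nat_lit 76) (nat_lit 167593160208) (nat_lit 76) (nat_lit 114846077863) (nat_lit 4) (nat_lit 4) (nat_lit 5) (nat_lit 5) (nat_lit 5) (nat_lit 4) (nat_lit 260) (nat_lit 229) (nat_lit 171)) (XT.nd (nat_lit 78) (nat_lit 0) (nat_lit 0) (XT.lf (nat_lit 0) (nat_lit 145404643086) (nat_lit 76) (nat_lit 137510644859) (nat_lit 76) (nat_lit 84761486414) (nat_lit 4) (nat_lit 4) (nat_lit 5) (nat_lit 5) (nat_lit 5) (nat_lit 4) (nat_lit 261) (nat_lit 229) (nat_lit 170)) (XT.lf (nat_lit 0) (nat_lit 265624436859) (nat_lit 76) (nat_lit 102919230293) (nat_lit 76) (nat_lit 50168266544) (nat_lit 4) (nat_lit 4) (nat_lit 5) (nat_lit 5) (nat_lit 5) (nat_lit 4) (nat_lit 262) (nat_lit 229) (nat_lit 169)))) (XT.nd (nat_lit 78) (nat_lit 152) (nat_lit 0) (XT.lf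 (nat_lit 0) (nat_lit 403870907770) (nat_lit 76) (nat_lit 63142127964) (nat_lit 76) (nat_lit 10389594386) (nat_lit 4) (nat_lit 4) (nat_lit 5) (nat_lit 5) (nat_lit 5) (nat_lit 4) (nat_lit 263) (nat_lit 229) (nat_lit 168)) (XT.nd (nat_lit 78) (nat_lit 0) (nat_lit 0) (XT.lf (nat_lit 0) (nat_lit 18002016071) (nat_lit 76) (nat_lit 16015250620) (nat_lit 152) (nat_lit 510777238387) (nat_lit 2) (nat_lit 5) (nat_lit 3) (nat_lit 5) (nat_lit 4) (nat_lit 4) (nat_lit 264) (nat_lit 229) (nat_lit 167)) (XT.lf (nat_lit 0) (nat_lit 87599395846) (nat_lit 152) (nat_lit 495671730102) (nat_lit 0) (nat_lit 38752094306) (nat_lit 2) (nat_lit 5) (nat_lit 4) (nat_lit 4) (nat_lit 2) (nat_lit 4) (nat_lit 265) (nat_lit 229) (nat_lit 166))))) (XT.nd (nat_lit 234) (nat_lit 0) (nat_lit 0) (XT.nd (nat_lit 78) (nat_lit 0) (nat_lit 0) (XT.lf (nat_lit 0) (nat_lit 149659421479) (nat_lit 152) (nat_lit 460330411938) (nat_lit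 0) (nat_lit 100811164208) (nat_lit 2) (nat_lit 5) (nat_lit 4) (nat_lit 4) (nat_lit 2) (nat_lit 4) (nat_lit 266) (nat_lit 229) (nat_lit 165)) (XT.nd (nat_lit 78) (nat_lit 0) (nat_lit 0) (XT.lf (nat_lit 0) (nat_lit 221026394318) (nat_lit 152) (nat_lit 419691906782) (nat_lit 0) (nat_lit 172177305977) (nat_lit 2) (nat_lit 5) (nat_lit 4) (nat_lit 4) (nat_lit 2) (nat_lit 4) (nat_lit 267) (nat_lit 229) (nat_lit 164)) (XT.lf (nat_lit 0) (nat_lit 303096624702) (nat_lit 152) (nat_lit 372961113445) (nat_lit 0) (nat_lit 254246813693) (nat_lit 2) (nat_lit 5) (nat_lit 4) (nat_lit 4) (nat_lit 2) (nat_lit 4) (nat_lit 268) (nat_lit 229) (nat_lit 163)))) (XT.nd (nat_lit 156) (nat_lit 0) (nat_lit 0) (XT.nd (nat_lit 78) (nat_lit 0) (nat_lit 0) (XT.lf (nat_lit 0) (nat_lit 397475834530) (nat_lit 152) (nat_lit 319223733796) (nat_lit 0) (nat_lit 348625395113) (nat_lit 2) (nat_lit 5) (nat_lit 4) (nat_lit 4) (nat_lit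 2) (nat_lit 4) (nat_lit 269) (nat_lit 229) (nat_lit 162)) (XT.lf (nat_lit 0) (nat_lit 506010573560) (nat_lit 152) (nat_lit 257428384322) (nat_lit 0) (nat_lit 457159587701) (nat_lit 2) (nat_lit 5) (nat_lit 4) (nat_lit 4) (nat_lit 2) (nat_lit 4) (nat_lit 270) (nat_lit 229) (nat_lit 161))) (XT.nd (nat_lit 78) (nat_lit 0) (nat_lit 0) (XT.lf (nat_lit 0) (nat_lit 630824347555) (nat_lit 152) (nat_lit 186366025575) (nat_lit 0) (nat_lit 581972886529) (nat_lit 2) (nat_lit 5) (nat_lit 4) (nat_lit 4) (nat_lit 2) (nat_lit 4) (nat_lit 271) (nat_lit 229) (nat_lit 160)) (XT.lf (nat_lit 0) (nat_lit 774359165136) (nat_lit 152) (nat_lit 104646307058) (nat_lit 0) (nat_lit 725507290922) (nat_lit 2) (nat_lit 5) (nat_lit 4) (nat_lit 4) (nat_lit 2) (nat_lit 4) (nat_lit 272) (nat_lit 229) (nat_lit 159)))))) (XT.nd (nat_lit 468) (nat_lit 0) (nat_lit 0) (XT.nd (nat_lit 234) (nat_lit 0) (nat_lit 0) (XT.nd (nat_lit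 78) (nat_lit 76) (nat_lit 0) (XT.lf (nat_lit 0) (nat_lit 939423316214) (nat_lit 152) (nat_lit 10670364714) (nat_lit 0) (nat_lit 890571082705) (nat_lit 2) (nat_lit 5) (nat_lit 4) (nat_lit 4) (nat_lit 2) (nat_lit 4) (nat_lit 273) (nat_lit 229) (nat_lit 158)) (XT.nd (nat_lit 78) (nat_lit 0) (nat_lit 0) (XT.lf (nat_lit 0) (nat_lit 102529396876) (nat_lit 76) (nat_lit 1029182754371) (nat_lit 76) (nat_lit 980330208432) (nat_lit 1) (nat_lit 4) (nat_lit 2) (nat_lit 5) (nat_lit 2) (nat_lit 4) (nat_lit 274) (nat_lit 229) (nat_lit 157)) (XT.lf (nat_lit 0) (nat_lit 233353907421) (nat_lit 76) (nat_lit 1119800354791) (nat_lit 76) (nat_lit 1070947537175) (nat_lit 1) (nat_lit 4) (nat_lit 2) (nat_lit 5) (nat_lit 2) (nat_lit 4) (nat_lit 275) (nat_lit 229) (nat_lit 156)))) (XT.nd (nat_lit 78) (nat_lit 0) (nat_lit 0) (XT.lf (nat_lit 0) (nat_lit 383800894412) (nat_lit 76) (nat_lit 1224011181922) (nat_lit 76)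 (nat_lit 1175158128064) (nat_lit 1) (nat_lit 4) (nat_lit 2) (nat_lit 5) (nat_lit 2) (nat_lit 4) (nat_lit 276) (nat_lit 229) (nat_lit 155)) (XT.nd (nat_lit 78) (nat_lit 0) (nat_lit 0) (XT.lf (nat_lit 0) (nat_lit 556813885854) (nat_lit 76) (nat_lit 1343854143252) (nat_lit 76) (nat_lit 1295000883966) (nat_lit 1) (nat_lit 4) (nat_lit 2) (nat_lit 5) (nat_lit 2) (nat_lit 4) (nat_lit 277) (nat_lit 229) (nat_lit 154)) (XT.lf (nat_lit 0) (nat_lit 755777918538) (nat_lit 76) (nat_lit 1481673992370) (nat_lit 76) (nat_lit 1432820554452) (nat_lit 1) (nat_lit 4) (nat_lit 2) (nat_lit 5) (nat_lit 2) (nat_lit 4) (nat_lit 278) (nat_lit 229) (nat_lit 153))))) (XT.nd (nat_lit 234) (nat_lit 0) (nat_lit 0) (XT.nd (nat_lit 78) (nat_lit 0) (nat_lit 0) (XT.lf (nat_lit 0) (nat_lit 984585767016) (nat_lit 76) (nat_lit 1640167204587) (nat_lit 76) (nat_lit 1591313611336) (nat_lit 1) (nat_lit 4) (nat_lit 2) (nat_lit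 5) (nat_lit 2) (nat_lit 4) (nat_lit 279) (nat_lit 229) (nat_lit 152)) (XT.nd (nat_lit 78) (nat_lit 0) (nat_lit 0) (XT.lf (nat_lit 0) (nat_lit 1247714106584) (nat_lit 76) (nat_lit 1822434734055) (nat_lit 76) (nat_lit 1773581005731) (nat_lit 1) (nat_lit 4) (nat_lit 2) (nat_lit 5) (nat_lit 2) (nat_lit 4) (nat_lit 280) (nat_lit 229) (nat_lit 151)) (XT.lf (nat_lit 0) (nat_lit 1550311100407) (nat_lit 76) (nat_lit 2032042684610) (nat_lit 76) (nat_lit 1983188838832) (nat_lit 1) (nat_lit 4) (nat_lit 2) (nat_lit 5) (nat_lit 2) (nat_lit 4) (nat_lit 281) (nat_lit 229) (nat_lit 150)))) (XT.nd (nat_lit 156) (nat_lit 0) (nat_lit 0) (XT.nd (nat_lit 78) (nat_lit 0) (nat_lit 0) (XT.lf (nat_lit 0) (nat_lit 1898297124452) (nat_lit 76) (nat_lit 2273092081372) (nat_lit 76) (nat_lit 2224238133461) (nat_lit 1) (nat_lit 4) (nat_lit 2) (nat_lit 5) (nat_lit 2) (nat_lit 4) (nat_lit 282) (nat_lit 229) (nat_lit 149))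 (XT.lf (nat_lit 0) (nat_lit 2298480600928) (nat_lit 76) (nat_lit 2550299108192) (nat_lit 76) (nat_lit 2501445071468) (nat_lit 1) (nat_lit 4) (nat_lit 2) (nat_lit 5) (nat_lit 2) (nat_lit 4) (nat_lit 283) (nat_lit 229) (nat_lit 148))) (XT.nd (nat_lit 78) (nat_lit 0) (nat_lit 0) (XT.lf (nat_lit 0) (nat_lit 2758691206549) (nat_lit 76) (nat_lit 2869087380810) (nat_lit 76) (nat_lit 2820233266859) (nat_lit 1) (nat_lit 4) (nat_lit 2) (nat_lit 5) (nat_lit 2) (nat_lit 4) (nat_lit 284) (nat_lit 229) (nat_lit 147)) (XT.lf (nat_lit 0) (nat_lit 3287933061860) (nat_lit 76) (nat_lit 3235694061083) (nat_lit 76) (nat_lit 3186839879977) (nat_lit 1) (nat_lit 4) (nat_lit 2) (nat_lit 5) (nat_lit 2) (nat_lit 4) (nat_lit 285) (nat_lit 229) (nat_lit 146))))))))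
noncomputable def xc36 : XT := (XT.nd (nat_lit 31824) (nat_lit 0) (nat_lit 0) (XT.nd (nat_lit 30810) (nat_lit 0) (nat_lit 684) (XT.nd (nat_lit 30342) (nat_lit 0) (nat_lit 2204) (XT.nd (nat_lit 30108) (nat_lit 0) (nat_lit 3420) (XT.nd (nat_lit 78) (nat_lit 0) (nat_lit 0) (XT.lf (nat_lit 0) (nat_lit 3896560898812) (nat_lit 76) (nat_lit 3657291888408) (nat_lit 76) (nat_lit 3608437648906) (nat_lit 1) (nat_lit 4) (nat_lit 2) (nat_lit 5) (nat_lit 2) (nat_lit 4) (nat_lit 286) (nat_lit 229) (nat_lit 145)) (XT.nd (nat_lit 29952) (nat_lit 0) (nat_lit 3344) (XT.lf (nat_lit 0) (nat_lit 4596482653345) (nat_lit 76) (nat_lit 4142129515927) (nat_lit 76) (nat_lit 4093275225647) (nat_lit 1) (nat_lit 4) (nat_lit 2) (nat_lit 5) (nat_lit 2) (nat_lit 4) (nat_lit 287) (nat_lit 229) (nat_lit 144)) (XT.lf (nat_lit 0) (nat_lit 4359074835) (nat_lit 532) (nat_lit 1990398372) (nat_lit 532) (nat_lit 1990398372) (nat_lit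 45) (nat_lit 3) (nat_lit 52) (nat_lit 3) (nat_lit 52) (nat_lit 5) (nat_lit 230) (nat_lit 230) (nat_lit 200)))) (XT.nd (nat_lit 78) (nat_lit 0) (nat_lit 0) (XT.lf (nat_lit 0) (nat_lit 10051167918) (nat_lit 456) (nat_lit 6981592995) (nat_lit 532) (nat_lit 842493002) (nat_lit 46) (nat_lit 5) (nat_lit 52) (nat_lit 5) (nat_lit 53) (nat_lit 5) (nat_lit 231) (nat_lit 230) (nat_lit 199)) (XT.nd (nat_lit 78) (nat_lit 0) (nat_lit 76) (XT.lf (nat_lit 76) (nat_lit 9051308807) (nat_lit 0) (nat_lit 3150047719) (nat_lit 532) (nat_lit 6999559872) (nat_lit 47) (nat_lit 5) (nat_lit 46) (nat_lit 5) (nat_lit 53) (nat_lit 5) (nat_lit 232) (nat_lit 230) (nat_lit 198)) (XT.lf (nat_lit 76) (nat_lit 7201049199) (nat_lit 0) (nat_lit 8101008286) (nat_lit 532) (nat_lit 5373308149) (nat_lit 48) (nat_lit 5) (nat_lit 47) (nat_lit 5) (nat_lit 54) (nat_lit 5) (nat_lit 233) (nat_lit 230) (nat_lit 197))))) (XT.nd (nat_lit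 234) (nat_lit 380) (nat_lit 0) (XT.nd (nat_lit 78) (nat_lit 532) (nat_lit 0) (XT.lf (nat_lit 0) (nat_lit 5352557333) (nat_lit 456) (nat_lit 14172485812) (nat_lit 532) (nat_lit 2793517882) (nat_lit 42) (nat_lit 5) (nat_lit 48) (nat_lit 5) (nat_lit 49) (nat_lit 5) (nat_lit 234) (nat_lit 230) (nat_lit 196)) (XT.nd (nat_lit 78) (nat_lit 228) (nat_lit 0) (XT.lf (nat_lit 0) (nat_lit 891168513) (nat_lit 304) (nat_lit 20687059383) (nat_lit 76) (nat_lit 2571670310) (nat_lit 38) (nat_lit 5) (nat_lit 42) (nat_lit 5) (nat_lit 39) (nat_lit 5) (nat_lit 235) (nat_lit 230) (nat_lit 195)) (XT.lf (nat_lit 0) (nat_lit 1302693462) (nat_lit 228) (nat_lit 4550717522) (nat_lit 304) (nat_lit 20325606636) (nat_lit 35) (nat_lit 5) (nat_lit 38) (nat_lit 5) (nat_lit 39) (nat_lit 5) (nat_lit 236) (nat_lit 230) (nat_lit 194)))) (XT.nd (nat_lit 78) (nat_lit 380) (nat_lit 0) (XT.lf (nat_lit 0) (nat_lit 12499560923)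 (nat_lit 304) (nat_lit 1044382011) (nat_lit 76) (nat_lit 14893489555) (nat_lit 35) (nat_lit 5) (nat_lit 39) (nat_lit 5) (nat_lit 36) (nat_lit 5) (nat_lit 237) (nat_lit 230) (nat_lit 193)) (XT.nd (nat_lit 78) (nat_lit 152) (nat_lit 0) (XT.lf (nat_lit 0) (nat_lit 21057649480) (nat_lit 304) (nat_lit 3559531246) (nat_lit 76) (nat_lit 6344308643) (nat_lit 32) (nat_lit 5) (nat_lit 36) (nat_lit 5) (nat_lit 33) (nat_lit 5) (nat_lit 238) (nat_lit 230) (nat_lit 192)) (XT.lf (nat_lit 0) (nat_lit 27265858560) (nat_lit 152) (nat_lit 4663957152) (nat_lit 228) (nat_lit 1851980413) (nat_lit 30) (nat_lit 5) (nat_lit 32) (nat_lit 5) (nat_lit 33) (nat_lit 5) (nat_lit 239) (nat_lit 230) (nat_lit 191)))))) (XT.nd (nat_lit 468) (nat_lit 608) (nat_lit 0) (XT.nd (nat_lit 234) (nat_lit 380) (nat_lit 0) (XT.nd (nat_lit 78) (nat_lit 304) (nat_lit 0) (XT.lf (nat_lit 0) (nat_lit 8228934125) (nat_lit 228) (nat_lit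 10368204522) (nat_lit 76) (nat_lit 18318467683) (nat_lit 27) (nat_lit 5) (nat_lit 30) (nat_lit 5) (nat_lit 28) (nat_lit 5) (nat_lit 240) (nat_lit 230) (nat_lit 190)) (XT.nd (nat_lit 78) (nat_lit 152) (nat_lit 0) (XT.lf (nat_lit 0) (nat_lit 20744243236) (nat_lit 228) (nat_lit 15044785039) (nat_lit 76) (nat_lit 4644107653) (nat_lit 25) (nat_lit 5) (nat_lit 28) (nat_lit 5) (nat_lit 26) (nat_lit 5) (nat_lit 241) (nat_lit 230) (nat_lit 189)) (XT.lf (nat_lit 0) (nat_lit 23289954300) (nat_lit 152) (nat_lit 13207381647) (nat_lit 228) (nat_lit 7872162959) (nat_lit 23) (nat_lit 5) (nat_lit 25) (nat_lit 5) (nat_lit 26) (nat_lit 5) (nat_lit 242) (nat_lit 230) (nat_lit 188)))) (XT.nd (nat_lit 78) (nat_lit 228) (nat_lit 0) (XT.lf (nat_lit 0) (nat_lit 6680209595) (nat_lit 152) (nat_lit 28890870876) (nat_lit 76) (nat_lit 13214340776) (nat_lit 21) (nat_lit 5) (nat_lit 23) (nat_lit 5) (nat_lit 22) (nat_lit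 5) (nat_lit 243) (nat_lit 230) (nat_lit 187)) (XT.nd (nat_lit 78) (nat_lit 76) (nat_lit 0) (XT.lf (nat_lit 0) (nat_lit 14574993513) (nat_lit 152) (nat_lit 9712956725) (nat_lit 228) (nat_lit 29452363441) (nat_lit 19) (nat_lit 5) (nat_lit 21) (nat_lit 5) (nat_lit 22) (nat_lit 5) (nat_lit 244) (nat_lit 230) (nat_lit 186)) (XT.lf (nat_lit 0) (nat_lit 6742684849) (nat_lit 76) (nat_lit 39282452221) (nat_lit 152) (nat_lit 13294266226) (nat_lit 18) (nat_lit 5) (nat_lit 19) (nat_lit 5) (nat_lit 20) (nat_lit 4) (nat_lit 245) (nat_lit 230) (nat_lit 185))))) (XT.nd (nat_lit 234) (nat_lit 304) (nat_lit 0) (XT.nd (nat_lit 78) (nat_lit 228) (nat_lit 0) (XT.lf (nat_lit 0) (nat_lit 6444405839) (nat_lit 152) (nat_lit 4189609115) (nat_lit 76) (nat_lit 54977480017) (nat_lit 17) (nat_lit 5) (nat_lit 19) (nat_lit 5) (nat_lit 18) (nat_lit 5) (nat_lit 246) (nat_lit 230) (nat_lit 184)) (XT.nd (nat_lit 78) (nat_lit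 76) (nat_lit 0) (XT.lf (nat_lit 0) (nat_lit 30236398102) (nat_lit 228) (nat_lit 19543433980) (nat_lit 76) (nat_lit 22889587094) (nat_lit 15) (nat_lit 5) (nat_lit 18) (nat_lit 5) (nat_lit 16) (nat_lit 4) (nat_lit 247) (nat_lit 230) (nat_lit 183)) (XT.lf (nat_lit 0) (nat_lit 40206677544) (nat_lit 76) (nat_lit 18763001020) (nat_lit 152) (nat_lit 21706570208) (nat_lit 14) (nat_lit 5) (nat_lit 15) (nat_lit 5) (nat_lit 16) (nat_lit 4) (nat_lit 248) (nat_lit 230) (nat_lit 182)))) (XT.nd (nat_lit 156) (nat_lit 152) (nat_lit 0) (XT.nd (nat_lit 78) (nat_lit 0) (nat_lit 0) (XT.lf (nat_lit 0) (nat_lit 3540224416) (nat_lit 152) (nat_lit 68991328213) (nat_lit 76) (nat_lit 17227037500) (nat_lit 12) (nat_lit 5) (nat_lit 14) (nat_lit 5) (nat_lit 13) (nat_lit 4) (nat_lit 249) (nat_lit 230) (nat_lit 181)) (XT.lf (nat_lit 0) (nat_lit 33041240138) (nat_lit 152) (nat_lit 7639795807) (nat_lit 76) (nat_lit 59336955471)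 (nat_lit 12) (nat_lit 5) (nat_lit 14) (nat_lit 5) (nat_lit 13) (nat_lit 4) (nat_lit 250) (nat_lit 230) (nat_lit 180))) (XT.nd (nat_lit 78) (nat_lit 76) (nat_lit 0) (XT.lf (nat_lit 0) (nat_lit 66208012361) (nat_lit 76) (nat_lit 2341404904) (nat_lit 152) (nat_lit 43140334593) (nat_lit 11) (nat_lit 5) (nat_lit 12) (nat_lit 5) (nat_lit 13) (nat_lit 4) (nat_lit 251) (nat_lit 230) (nat_lit 179)) (XT.lf (nat_lit 0) (nat_lit 26815252220) (nat_lit 76) (nat_lit 84436206949) (nat_lit 76) (nat_lit 13711414563) (nat_lit 10) (nat_lit 4) (nat_lit 11) (nat_lit 5) (nat_lit 11) (nat_lit 4) (nat_lit 252) (nat_lit 230) (nat_lit 178))))))) (XT.nd (nat_lit 936) (nat_lit 228) (nat_lit 0) (XT.nd (nat_lit 468) (nat_lit 76) (nat_lit 0) (XT.nd (nat_lit 234) (nat_lit 228) (nat_lit 0) (XT.nd (nat_lit 78) (nat_lit 76) (nat_lit 0) (XT.lf (nat_lit 0) (nat_lit 20539158029) (nat_lit 152) (nat_lit 28009785089) (nat_lit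 76) (nat_lit 91526142573) (nat_lit 9) (nat_lit 5) (nat_lit 11) (nat_lit 5) (nat_lit 10) (nat_lit 4) (nat_lit 253) (nat_lit 230) (nat_lit 177)) (XT.nd (nat_lit 78) (nat_lit 0) (nat_lit 0) (XT.lf (nat_lit 0) (nat_lit 55006855921) (nat_lit 76) (nat_lit 5446841641) (nat_lit 152) (nat_lit 96864886540) (nat_lit 8) (nat_lit 5) (nat_lit 9) (nat_lit 5) (nat_lit 10) (nat_lit 4) (nat_lit 254) (nat_lit 230) (nat_lit 176)) (XT.lf (nat_lit 0) (nat_lit 108245975534) (nat_lit 152) (nat_lit 26006996029) (nat_lit 0) (nat_lit 42744396241) (nat_lit 8) (nat_lit 5) (nat_lit 10) (nat_lit 4) (nat_lit 8) (nat_lit 4) (nat_lit 255) (nat_lit 230) (nat_lit 175)))) (XT.nd (nat_lit 78) (nat_lit 152) (nat_lit 0) (XT.lf (nat_lit 0) (nat_lit 64823787049) (nat_lit 76) (nat_lit 100086707700) (nat_lit 76) (nat_lit 34581206806) (nat_lit 7) (nat_lit 4) (nat_lit 8) (nat_lit 5) (nat_lit 8) (nat_lit 4) (nat_lit 256) (nat_lit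 230) (nat_lit 174)) (XT.nd (nat_lit 78) (nat_lit 76) (nat_lit 0) (XT.lf (nat_lit 0) (nat_lit 5249645695) (nat_lit 152) (nat_lit 54589647933) (nat_lit 76) (nat_lit 165450146376) (nat_lit 6) (nat_lit 5) (nat_lit 8) (nat_lit 5) (nat_lit 7) (nat_lit 4) (nat_lit 257) (nat_lit 230) (nat_lit 173)) (XT.lf (nat_lit 0) (nat_lit 38458126629) (nat_lit 76) (nat_lit 11527451688) (nat_lit 152) (nat_lit 204821163324) (nat_lit 5) (nat_lit 5) (nat_lit 6) (nat_lit 5) (nat_lit 7) (nat_lit 4) (nat_lit 258) (nat_lit 230) (nat_lit 172))))) (XT.nd (nat_lit 234) (nat_lit 0) (nat_lit 0) (XT.nd (nat_lit 78) (nat_lit 76) (nat_lit 0) (XT.lf (nat_lit 0) (nat_lit 104116711994) (nat_lit 152) (nat_lit 140964964571) (nat_lit 0) (nat_lit 43455179782) (nat_lit 5) (nat_lit 5) (nat_lit 7) (nat_lit 4) (nat_lit 5) (nat_lit 4) (nat_lit 259) (nat_lit 230) (nat_lit 171)) (XT.nd (nat_lit 78) (nat_lit 76) (nat_lit 0) (XT.lf (nat_lit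 0) (nat_lit 166682215380) (nat_lit 152) (nat_lit 54600492198) (nat_lit 0) (nat_lit 106018607069) (nat_lit 5) (nat_lit 5) (nat_lit 7) (nat_lit 4) (nat_lit 5) (nat_lit 4) (nat_lit 260) (nat_lit 230) (nat_lit 170)) (XT.lf (nat_lit 0) (nat_lit 47066220228) (nat_lit 76) (nat_lit 192694684161) (nat_lit 76) (nat_lit 132029270546) (nat_lit 4) (nat_lit 4) (nat_lit 5) (nat_lit 5) (nat_lit 5) (nat_lit 4) (nat_lit 261) (nat_lit 230) (nat_lit 169)))) (XT.nd (nat_lit 78) (nat_lit 0) (nat_lit 0) (XT.lf (nat_lit 0) (nat_lit 167283087522) (nat_lit 76) (nat_lit 158104676302) (nat_lit 76) (nat_lit 97437692858) (nat_lit 4) (nat_lit 4) (nat_lit 5) (nat_lit 5) (nat_lit 5) (nat_lit 4) (nat_lit 262) (nat_lit 230) (nat_lit 168)) (XT.nd (nat_lit 78) (nat_lit 0) (nat_lit 0) (XT.lf (nat_lit 0) (nat_lit 305527013669) (nat_lit 76) (nat_lit 118328797197) (nat_lit 76) (nat_lit 57660448684) (nat_lit 4) (nat_lit 4) (nat_lit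 5) (nat_lit 5) (nat_lit 5) (nat_lit 4) (nat_lit 263) (nat_lit 230) (nat_lit 167)) (XT.lf (nat_lit 0) (nat_lit 464502771137) (nat_lit 76) (nat_lit 72588823124) (nat_lit 76) (nat_lit 11919287594) (nat_lit 4) (nat_lit 4) (nat_lit 5) (nat_lit 5) (nat_lit 5) (nat_lit 4) (nat_lit 264) (nat_lit 230) (nat_lit 166)))))) (XT.nd (nat_lit 468) (nat_lit 76) (nat_lit 0) (XT.nd (nat_lit 234) (nat_lit 0) (nat_lit 0) (XT.nd (nat_lit 78) (nat_lit 0) (nat_lit 0) (XT.lf (nat_lit 0) (nat_lit 20750538140) (nat_lit 76) (nat_lit 18394224291) (nat_lit 152) (nat_lit 587366914250) (nat_lit 2) (nat_lit 5) (nat_lit 3) (nat_lit 5) (nat_lit 4) (nat_lit 4) (nat_lit 265) (nat_lit 230) (nat_lit 165)) (XT.nd (nat_lit 78) (nat_lit 0) (nat_lit 0) (XT.lf (nat_lit 0) (nat_lit 100761449952) (nat_lit 152) (nat_lit 569979304298) (nat_lit 0) (nat_lit 44584167291) (nat_lit 2) (nat_lit 5) (nat_lit 4) (nat_lit 4) (nat_lit 2) (nat_lit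 4) (nat_lit 266) (nat_lit 230) (nat_lit 164)) (XT.lf (nat_lit 0) (nat_lit 172127590986) (nat_lit 152) (nat_lit 529342421278) (nat_lit 0) (nat_lit 115949585656) (nat_lit 2) (nat_lit 5) (nat_lit 4) (nat_lit 4) (nat_lit 2) (nat_lit 4) (nat_lit 267) (nat_lit 230) (nat_lit 163)))) (XT.nd (nat_lit 78) (nat_lit 0) (nat_lit 0) (XT.lf (nat_lit 0) (nat_lit 254197098061) (nat_lit 152) (nat_lit 482613038494) (nat_lit 0) (nat_lit 198018464324) (nat_lit 2) (nat_lit 5) (nat_lit 4) (nat_lit 4) (nat_lit 2) (nat_lit 4) (nat_lit 268) (nat_lit 230) (nat_lit 162)) (XT.nd (nat_lit 78) (nat_lit 0) (nat_lit 0) (XT.lf (nat_lit 0) (nat_lit 348575678926) (nat_lit 152) (nat_lit 428876885413) (nat_lit 0) (nat_lit 292396498746) (nat_lit 2) (nat_lit 5) (nat_lit 4) (nat_lit 4) (nat_lit 2) (nat_lit 4) (nat_lit 269) (nat_lit 230) (nat_lit 161)) (XT.lf (nat_lit 0) (nat_lit 457109871030) (nat_lit 152) (nat_lit 367082602519)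 (nat_lit 0) (nat_lit 400930215684) (nat_lit 2) (nat_lit 5) (nat_lit 4) (nat_lit 4) (nat_lit 2) (nat_lit 4) (nat_lit 270) (nat_lit 230) (nat_lit 160))))) (XT.nd (nat_lit 234) (nat_lit 76) (nat_lit 0) (XT.nd (nat_lit 78) (nat_lit 0) (nat_lit 0) (XT.lf (nat_lit 0) (nat_lit 581923169438) (nat_lit 152) (nat_lit 296021171234) (nat_lit 0) (nat_lit 525743100903) (nat_lit 2) (nat_lit 5) (nat_lit 4) (nat_lit 4) (nat_lit 2) (nat_lit 4) (nat_lit 271) (nat_lit 230) (nat_lit 159)) (XT.nd (nat_lit 78) (nat_lit 0) (nat_lit 0) (XT.lf (nat_lit 0) (nat_lit 725457573465) (nat_lit 152) (nat_lit 214302259206) (nat_lit 0) (nat_lit 669277145636) (nat_lit 2) (nat_lit 5) (nat_lit 4) (nat_lit 4) (nat_lit 2) (nat_lit 4) (nat_lit 272) (nat_lit 230) (nat_lit 158)) (XT.lf (nat_lit 0) (nat_lit 890521364931) (nat_lit 152) (nat_lit 120327018156) (nat_lit 0) (nat_lit 834340624672) (nat_lit 2) (nat_lit 5) (nat_lit 4) (nat_lit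 4) (nat_lit 2) (nat_lit 4) (nat_lit 273) (nat_lit 230) (nat_lit 157)))) (XT.nd (nat_lit 156) (nat_lit 0) (nat_lit 0) (XT.nd (nat_lit 78) (nat_lit 76) (nat_lit 0) (XT.lf (nat_lit 0) (nat_lit 1080344052797) (nat_lit 152) (nat_lit 12256802064) (nat_lit 0) (nat_lit 1024163040860) (nat_lit 2) (nat_lit 5) (nat_lit 4) (nat_lit 4) (nat_lit 2) (nat_lit 4) (nat_lit 274) (nat_lit 230) (nat_lit 156)) (XT.lf (nat_lit 0) (nat_lit 117921728801) (nat_lit 76) (nat_lit 1183553850830) (nat_lit 76) (nat_lit 1127372602652) (nat_lit 1) (nat_lit 4) (nat_lit 2) (nat_lit 5) (nat_lit 2) (nat_lit 4) (nat_lit 275) (nat_lit 230) (nat_lit 155))) (XT.nd (nat_lit 78) (nat_lit 0) (nat_lit 0) (XT.lf (nat_lit 0) (nat_lit 268368230398) (nat_lit 76) (nat_lit 1287764915231) (nat_lit 76) (nat_lit 1231583461624) (nat_lit 1) (nat_lit 4) (nat_lit 2) (nat_lit 5) (nat_lit 2) (nat_lit 4) (nat_lit 276) (nat_lit 230) (nat_lit 154))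 (XT.lf (nat_lit 0) (nat_lit 441380799760) (nat_lit 76) (nat_lit 1407608082881) (nat_lit 76) (nat_lit 1351426450642) (nat_lit 1) (nat_lit 4) (nat_lit 2) (nat_lit 5) (nat_lit 2) (nat_lit 4) (nat_lit 277) (nat_lit 230) (nat_lit 153))))))))
noncomputable def xc37 : XT := (XT.nd (nat_lit 31980) (nat_lit 0) (nat_lit 76) (XT.nd (nat_lit 30966) (nat_lit 0) (nat_lit 1292) (XT.nd (nat_lit 468) (nat_lit 0) (nat_lit 0) (XT.nd (nat_lit 234) (nat_lit 0) (nat_lit 0) (XT.nd (nat_lit 78) (nat_lit 0) (nat_lit 0) (XT.lf (nat_lit 0) (nat_lit 640344465416) (nat_lit 76) (nat_lit 1545428111409) (nat_lit 76) (nat_lit 1489246323837) (nat_lit 1) (nat_lit 4) (nat_lit 2) (nat_lit 5) (nat_lit 2) (nat_lit 4) (nat_lit 278) (nat_lit 230) (nat_lit 152)) (XT.nd (nat_lit 78) (nat_lit 0) (nat_lit 0) (XT.lf (nat_lit 0) (nat_lit 869151994740) (nat_lit 76) (nat_lit 1703921479635) (nat_lit 76) (nat_lit 1647739556991) (nat_lit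 1) (nat_lit 4) (nat_lit 2) (nat_lit 5) (nat_lit 2) (nat_lit 4) (nat_lit 279) (nat_lit 230) (nat_lit 151)) (XT.lf (nat_lit 0) (nat_lit 1132280056782) (nat_lit 76) (nat_lit 1886189144761) (nat_lit 76) (nat_lit 1830007104663) (nat_lit 1) (nat_lit 4) (nat_lit 2) (nat_lit 5) (nat_lit 2) (nat_lit 4) (nat_lit 280) (nat_lit 230) (nat_lit 150)))) (XT.nd (nat_lit 78) (nat_lit 0) (nat_lit 0) (XT.lf (nat_lit 0) (nat_lit 1434876809279) (nat_lit 76) (nat_lit 2095797213281) (nat_lit 76) (nat_lit 2039615071049) (nat_lit 1) (nat_lit 4) (nat_lit 2) (nat_lit 5) (nat_lit 2) (nat_lit 4) (nat_lit 281) (nat_lit 230) (nat_lit 149)) (XT.nd (nat_lit 78) (nat_lit 0) (nat_lit 0) (XT.lf (nat_lit 0) (nat_lit 1782862623475) (nat_lit 76) (nat_lit 2336846712622) (nat_lit 76) (nat_lit 2280664481578) (nat_lit 1) (nat_lit 4) (nat_lit 2) (nat_lit 5) (nat_lit 2) (nat_lit 4) (nat_lit 282) (nat_lit 230) (nat_lit 148)) (XT.lf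 (nat_lit 0) (nat_lit 2183045917473) (nat_lit 76) (nat_lit 2614053828639) (nat_lit 76) (nat_lit 2557871520367) (nat_lit 1) (nat_lit 4) (nat_lit 2) (nat_lit 5) (nat_lit 2) (nat_lit 4) (nat_lit 283) (nat_lit 230) (nat_lit 147))))) (XT.nd (nat_lit 30264) (nat_lit 0) (nat_lit 3344) (XT.nd (nat_lit 78) (nat_lit 0) (nat_lit 0) (XT.lf (nat_lit 0) (nat_lit 2643256364418) (nat_lit 76) (nat_lit 2932842178821) (nat_lit 76) (nat_lit 2876659803395) (nat_lit 1) (nat_lit 4) (nat_lit 2) (nat_lit 5) (nat_lit 2) (nat_lit 4) (nat_lit 284) (nat_lit 230) (nat_lit 146)) (XT.nd (nat_lit 78) (nat_lit 0) (nat_lit 0) (XT.lf (nat_lit 0) (nat_lit 3172498081750) (nat_lit 76) (nat_lit 3299448926541) (nat_lit 76) (nat_lit 3243266492719) (nat_lit 1) (nat_lit 4) (nat_lit 2) (nat_lit 5) (nat_lit 2) (nat_lit 4) (nat_lit 285) (nat_lit 230) (nat_lit 145)) (XT.lf (nat_lit 0) (nat_lit 3781125798720) (nat_lit 76) (nat_lit 3721046812515)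 (nat_lit 76) (nat_lit 3664864327914) (nat_lit 1) (nat_lit 4) (nat_lit 2) (nat_lit 5) (nat_lit 2) (nat_lit 4) (nat_lit 286) (nat_lit 230) (nat_lit 144)))) (XT.nd (nat_lit 78) (nat_lit 0) (nat_lit 76) (XT.lf (nat_lit 0) (nat_lit 5391849586) (nat_lit 532) (nat_lit 2083799664) (nat_lit 532) (nat_lit 2083799664) (nat_lit 45) (nat_lit 3) (nat_lit 52) (nat_lit 3) (nat_lit 52) (nat_lit 5) (nat_lit 231) (nat_lit 231) (nat_lit 198)) (XT.nd (nat_lit 78) (nat_lit 0) (nat_lit 0) (XT.lf (nat_lit 0) (nat_lit 12219823112) (nat_lit 456) (nat_lit 7590876180) (nat_lit 532) (nat_lit 691068102) (nat_lit 46) (nat_lit 5) (nat_lit 52) (nat_lit 5) (nat_lit 53) (nat_lit 5) (nat_lit 232) (nat_lit 231) (nat_lit 197)) (XT.lf (nat_lit 76) (nat_lit 10809890118) (nat_lit 0) (nat_lit 3806076403) (nat_lit 532) (nat_lit 7416685938) (nat_lit 47) (nat_lit 5) (nat_lit 46) (nat_lit 5) (nat_lit 53) (nat_lit 5) (nat_lit 233)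 (nat_lit 231) (nat_lit 196)))))) (XT.nd (nat_lit 468) (nat_lit 1064) (nat_lit 0) (XT.nd (nat_lit 234) (nat_lit 456) (nat_lit 0) (XT.nd (nat_lit 78) (nat_lit 684) (nat_lit 0) (XT.lf (nat_lit 76) (nat_lit 8696503212) (nat_lit 0) (nat_lit 9415192372) (nat_lit 532) (nat_lit 5622394732) (nat_lit 48) (nat_lit 5) (nat_lit 47) (nat_lit 5) (nat_lit 54) (nat_lit 5) (nat_lit 234) (nat_lit 231) (nat_lit 195)) (XT.nd (nat_lit 78) (nat_lit 304) (nat_lit 0) (XT.lf (nat_lit 0) (nat_lit 6576740879) (nat_lit 456) (nat_lit 16332362954) (nat_lit 532) (nat_lit 2719570223) (nat_lit 42) (nat_lit 5) (nat_lit 48) (nat_lit 5) (nat_lit 49) (nat_lit 5) (nat_lit 235) (nat_lit 231) (nat_lit 194)) (XT.lf (nat_lit 0) (nat_lit 1441729216) (nat_lit 304) (nat_lit 23346291952) (nat_lit 76) (nat_lit 2950007079) (nat_lit 38) (nat_lit 5) (nat_lit 42) (nat_lit 5) (nat_lit 39) (nat_lit 5) (nat_lit 236) (nat_lit 231) (nat_lit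 193)))) (XT.nd (nat_lit 78) (nat_lit 228) (nat_lit 0) (XT.lf (nat_lit 0) (nat_lit 1904356131) (nat_lit 228) (nat_lit 5199346098) (nat_lit 304) (nat_lit 22971512750) (nat_lit 35) (nat_lit 5) (nat_lit 38) (nat_lit 5) (nat_lit 39) (nat_lit 5) (nat_lit 237) (nat_lit 231) (nat_lit 192)) (XT.nd (nat_lit 78) (nat_lit 228) (nat_lit 0) (XT.lf (nat_lit 0) (nat_lit 14698927057) (nat_lit 304) (nat_lit 821824758) (nat_lit 76) (nat_lit 17155581930) (nat_lit 35) (nat_lit 5) (nat_lit 39) (nat_lit 5) (nat_lit 36) (nat_lit 5) (nat_lit 238) (nat_lit 231) (nat_lit 191)) (XT.lf (nat_lit 0) (nat_lit 24508122333) (nat_lit 304) (nat_lit 3723810423) (nat_lit 76) (nat_lit 7349773933) (nat_lit 32) (nat_lit 5) (nat_lit 36) (nat_lit 5) (nat_lit 33) (nat_lit 5) (nat_lit 239) (nat_lit 231) (nat_lit 190))))) (XT.nd (nat_lit 234) (nat_lit 532) (nat_lit 0) (XT.nd (nat_lit 78) (nat_lit 380) (nat_lit 0) (XT.lf (nat_lit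 0) (nat_lit 31694098779) (nat_lit 152) (nat_lit 5287088135) (nat_lit 228) (nat_lit 1846352765) (nat_lit 30) (nat_lit 5) (nat_lit 32) (nat_lit 5) (nat_lit 33) (nat_lit 5) (nat_lit 240) (nat_lit 231) (nat_lit 189)) (XT.nd (nat_lit 78) (nat_lit 152) (nat_lit 0) (XT.lf (nat_lit 0) (nat_lit 9707129294) (nat_lit 228) (nat_lit 11582390741) (nat_lit 76) (nat_lit 21143456719) (nat_lit 27) (nat_lit 5) (nat_lit 30) (nat_lit 5) (nat_lit 28) (nat_lit 5) (nat_lit 241) (nat_lit 231) (nat_lit 188)) (XT.lf (nat_lit 0) (nat_lit 24077662987) (nat_lit 228) (nat_lit 16973587284) (nat_lit 76) (nat_lit 5428711540) (nat_lit 25) (nat_lit 5) (nat_lit 28) (nat_lit 5) (nat_lit 26) (nat_lit 5) (nat_lit 242) (nat_lit 231) (nat_lit 187)))) (XT.nd (nat_lit 156) (nat_lit 228) (nat_lit 0) (XT.nd (nat_lit 78) (nat_lit 152) (nat_lit 0) (XT.lf (nat_lit 0) (nat_lit 27083606541) (nat_lit 152) (nat_lit 15088403644) (nat_lit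 228) (nat_lit 8836558217) (nat_lit 23) (nat_lit 5) (nat_lit 25) (nat_lit 5) (nat_lit 26) (nat_lit 5) (nat_lit 243) (nat_lit 231) (nat_lit 186)) (XT.lf (nat_lit 0) (nat_lit 7870267755) (nat_lit 152) (nat_lit 32926799250) (nat_lit 76) (nat_lit 15290843946) (nat_lit 21) (nat_lit 5) (nat_lit 23) (nat_lit 5) (nat_lit 22) (nat_lit 5) (nat_lit 244) (nat_lit 231) (nat_lit 185))) (XT.nd (nat_lit 78) (nat_lit 76) (nat_lit 0) (XT.lf (nat_lit 0) (nat_lit 17033745784) (nat_lit 152) (nat_lit 11067452195) (nat_lit 228) (nat_lit 33686313687) (nat_lit 19) (nat_lit 5) (nat_lit 21) (nat_lit 5) (nat_lit 22) (nat_lit 5) (nat_lit 245) (nat_lit 231) (nat_lit 184)) (XT.lf (nat_lit 0) (nat_lit 8013946266) (nat_lit 76) (nat_lit 45071227567) (nat_lit 152) (nat_lit 15119425924) (nat_lit 18) (nat_lit 5) (nat_lit 19) (nat_lit 5) (nat_lit 20) (nat_lit 4) (nat_lit 246) (nat_lit 231) (nat_lit 183))))))) (XT.nd (nat_lit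 936) (nat_lit 304) (nat_lit 0) (XT.nd (nat_lit 468) (nat_lit 380) (nat_lit 0) (XT.nd (nat_lit 234) (nat_lit 228) (nat_lit 0) (XT.nd (nat_lit 78) (nat_lit 228) (nat_lit 0) (XT.lf (nat_lit 0) (nat_lit 7550655550) (nat_lit 152) (nat_lit 4584564616) (nat_lit 76) (nat_lit 63306660657) (nat_lit 17) (nat_lit 5) (nat_lit 19) (nat_lit 5) (nat_lit 18) (nat_lit 5) (nat_lit 247) (nat_lit 231) (nat_lit 182)) (XT.nd (nat_lit 78) (nat_lit 76) (nat_lit 0) (XT.lf (nat_lit 0) (nat_lit 34900476625) (nat_lit 228) (nat_lit 22253053135) (nat_lit 76) (nat_lit 26405863844) (nat_lit 15) (nat_lit 5) (nat_lit 18) (nat_lit 5) (nat_lit 16) (nat_lit 4) (nat_lit 248) (nat_lit 231) (nat_lit 181)) (XT.lf (nat_lit 0) (nat_lit 46440792732) (nat_lit 76) (nat_lit 21491064944) (nat_lit 152) (nat_lit 24836360708) (nat_lit 14) (nat_lit 5) (nat_lit 15) (nat_lit 5) (nat_lit 16) (nat_lit 4) (nat_lit 249) (nat_lit 231) (nat_lit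 180)))) (XT.nd (nat_lit 78) (nat_lit 76) (nat_lit 0) (XT.lf (nat_lit 0) (nat_lit 4182111492) (nat_lit 152) (nat_lit 79141400237) (nat_lit 76) (nat_lit 19889894363) (nat_lit 12) (nat_lit 5) (nat_lit 14) (nat_lit 5) (nat_lit 13) (nat_lit 4) (nat_lit 250) (nat_lit 231) (nat_lit 179)) (XT.nd (nat_lit 78) (nat_lit 76) (nat_lit 0) (XT.lf (nat_lit 0) (nat_lit 38093820431) (nat_lit 152) (nat_lit 8613045868) (nat_lit 76) (nat_lit 68306021608) (nat_lit 12) (nat_lit 5) (nat_lit 14) (nat_lit 5) (nat_lit 13) (nat_lit 4) (nat_lit 251) (nat_lit 231) (nat_lit 178)) (XT.lf (nat_lit 0) (nat_lit 76297313696) (nat_lit 76) (nat_lit 2622139562) (nat_lit 152) (nat_lit 49516672655) (nat_lit 11) (nat_lit 5) (nat_lit 12) (nat_lit 5) (nat_lit 13) (nat_lit 4) (nat_lit 252) (nat_lit 231) (nat_lit 177))))) (XT.nd (nat_lit 234) (nat_lit 152) (nat_lit 0) (XT.nd (nat_lit 78) (nat_lit 152) (nat_lit 0) (XT.lf (nat_lit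 0) (nat_lit 30987194417) (nat_lit 76) (nat_lit 97033250953) (nat_lit 76) (nat_lit 15680289470) (nat_lit 10) (nat_lit 4) (nat_lit 11) (nat_lit 5) (nat_lit 11) (nat_lit 4) (nat_lit 253) (nat_lit 231) (nat_lit 176)) (XT.nd (nat_lit 78) (nat_lit 76) (nat_lit 0) (XT.lf (nat_lit 0) (nat_lit 23692591126) (nat_lit 152) (nat_lit 32077242567) (nat_lit 76) (nat_lit 105310654894) (nat_lit 9) (nat_lit 5) (nat_lit 11) (nat_lit 5) (nat_lit 10) (nat_lit 4) (nat_lit 254) (nat_lit 231) (nat_lit 175)) (XT.lf (nat_lit 0) (nat_lit 63380551292) (nat_lit 76) (nat_lit 6207246174) (nat_lit 152) (nat_lit 111323242626) (nat_lit 8) (nat_lit 5) (nat_lit 9) (nat_lit 5) (nat_lit 10) (nat_lit 4) (nat_lit 255) (nat_lit 231) (nat_lit 174)))) (XT.nd (nat_lit 78) (nat_lit 152) (nat_lit 0) (XT.lf (nat_lit 0) (nat_lit 124541486666) (nat_lit 152) (nat_lit 29797926428) (nat_lit 0) (nat_lit 49202828952) (nat_lit 8) (nat_lit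 5) (nat_lit 10) (nat_lit 4) (nat_lit 8) (nat_lit 4) (nat_lit 256) (nat_lit 231) (nat_lit 173)) (XT.nd (nat_lit 78) (nat_lit 76) (nat_lit 0) (XT.lf (nat_lit 0) (nat_lit 74648153086) (nat_lit 76) (nat_lit 115052309461) (nat_lit 76) (nat_lit 39710686454) (nat_lit 7) (nat_lit 4) (nat_lit 8) (nat_lit 5) (nat_lit 8) (nat_lit 4) (nat_lit 257) (nat_lit 231) (nat_lit 172)) (XT.lf (nat_lit 0) (nat_lit 6084757694) (nat_lit 152) (nat_lit 62687905518) (nat_lit 76) (nat_lit 190306350355) (nat_lit 6) (nat_lit 5) (nat_lit 8) (nat_lit 5) (nat_lit 7) (nat_lit 4) (nat_lit 258) (nat_lit 231) (nat_lit 171)))))) (XT.nd (nat_lit 468) (nat_lit 152) (nat_lit 0) (XT.nd (nat_lit 234) (nat_lit 76) (nat_lit 0) (XT.nd (nat_lit 78) (nat_lit 0) (nat_lit 0) (XT.lf (nat_lit 0) (nat_lit 44309401129) (nat_lit 76) (nat_lit 13217447351) (nat_lit 152) (nat_lit 235497404322) (nat_lit 5) (nat_lit 5) (nat_lit 6) (nat_lit 5) (nat_lit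 7) (nat_lit 4) (nat_lit 259) (nat_lit 231) (nat_lit 170)) (XT.nd (nat_lit 78) (nat_lit 0) (nat_lit 0) (XT.lf (nat_lit 0) (nat_lit 119772805142) (nat_lit 152) (nat_lit 162035696470) (nat_lit 0) (nat_lit 50005774181) (nat_lit 5) (nat_lit 5) (nat_lit 7) (nat_lit 4) (nat_lit 5) (nat_lit 4) (nat_lit 260) (nat_lit 231) (nat_lit 169)) (XT.lf (nat_lit 0) (nat_lit 191718101034) (nat_lit 152) (nat_lit 62726207083) (nat_lit 0) (nat_lit 121949500243) (nat_lit 5) (nat_lit 5) (nat_lit 7) (nat_lit 4) (nat_lit 5) (nat_lit 4) (nat_lit 261) (nat_lit 231) (nat_lit 168)))) (XT.nd (nat_lit 78) (nat_lit 0) (nat_lit 0) (XT.lf (nat_lit 0) (nat_lit 54185064543) (nat_lit 76) (nat_lit 221570569145) (nat_lit 76) (nat_lit 151800603285) (nat_lit 4) (nat_lit 4) (nat_lit 5) (nat_lit 5) (nat_lit 5) (nat_lit 4) (nat_lit 262) (nat_lit 231) (nat_lit 167)) (XT.nd (nat_lit 78) (nat_lit 0) (nat_lit 0) (XT.lf (nat_lit 0) (nat_lit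 192426777852) (nat_lit 76) (nat_lit 181795753713) (nat_lit 76) (nat_lit 112024600837) (nat_lit 4) (nat_lit 4) (nat_lit 5) (nat_lit 5) (nat_lit 5) (nat_lit 4) (nat_lit 263) (nat_lit 231) (nat_lit 166)) (XT.lf (nat_lit 0) (nat_lit 351400611112) (nat_lit 76) (nat_lit 136056704573) (nat_lit 76) (nat_lit 66284519508) (nat_lit 4) (nat_lit 4) (nat_lit 5) (nat_lit 5) (nat_lit 5) (nat_lit 4) (nat_lit 264) (nat_lit 231) (nat_lit 165))))) (XT.nd (nat_lit 234) (nat_lit 0) (nat_lit 0) (XT.nd (nat_lit 78) (nat_lit 152) (nat_lit 0) (XT.lf (nat_lit 0) (nat_lit 534216921931) (nat_lit 76) (nat_lit 83458527285) (nat_lit 76) (nat_lit 13685444665) (nat_lit 4) (nat_lit 4) (nat_lit 5) (nat_lit 5) (nat_lit 5) (nat_lit 4) (nat_lit 265) (nat_lit 231) (nat_lit 164)) (XT.nd (nat_lit 78) (nat_lit 0) (nat_lit 0) (XT.lf (nat_lit 0) (nat_lit 23899579851) (nat_lit 76) (nat_lit 21135729260) (nat_lit 152) (nat_lit 675451603640)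 (nat_lit 2) (nat_lit 5) (nat_lit 3) (nat_lit 5) (nat_lit 4) (nat_lit 4) (nat_lit 266) (nat_lit 231) (nat_lit 163)) (XT.lf (nat_lit 0) (nat_lit 115892412041) (nat_lit 152) (nat_lit 655443545637) (nat_lit 0) (nat_lit 51286354834) (nat_lit 2) (nat_lit 5) (nat_lit 4) (nat_lit 4) (nat_lit 2) (nat_lit 4) (nat_lit 267) (nat_lit 231) (nat_lit 162)))) (XT.nd (nat_lit 156) (nat_lit 0) (nat_lit 0) (XT.nd (nat_lit 78) (nat_lit 0) (nat_lit 0) (XT.lf (nat_lit 0) (nat_lit 197961290152) (nat_lit 152) (nat_lit 608715389421) (nat_lit 0) (nat_lit 133354686504) (nat_lit 2) (nat_lit 5) (nat_lit 4) (nat_lit 4) (nat_lit 2) (nat_lit 4) (nat_lit 268) (nat_lit 231) (nat_lit 161)) (XT.lf (nat_lit 0) (nat_lit 292339324091) (nat_lit 152) (nat_lit 554980302921) (nat_lit 0) (nat_lit 227732245276) (nat_lit 2) (nat_lit 5) (nat_lit 4) (nat_lit 4) (nat_lit 2) (nat_lit 4) (nat_lit 269) (nat_lit 231) (nat_lit 160))) (XT.nd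 (nat_lit 78) (nat_lit 0) (nat_lit 0) (XT.lf (nat_lit 0) (nat_lit 400873040608) (nat_lit 152) (nat_lit 493186947489) (nat_lit 0) (nat_lit 336265548605) (nat_lit 2) (nat_lit 5) (nat_lit 4) (nat_lit 4) (nat_lit 2) (nat_lit 4) (nat_lit 270) (nat_lit 231) (nat_lit 159)) (XT.lf (nat_lit 0) (nat_lit 525685925462) (nat_lit 152) (nat_lit 422126322692) (nat_lit 0) (nat_lit 461078074164) (nat_lit 2) (nat_lit 5) (nat_lit 4) (nat_lit 4) (nat_lit 2) (nat_lit 4) (nat_lit 271) (nat_lit 231) (nat_lit 158))))))))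
noncomputable def xc38 : XT := (XT.nd (nat_lit 32058) (nat_lit 0) (nat_lit 228) (XT.nd (nat_lit 936) (nat_lit 0) (nat_lit 0) (XT.nd (nat_lit 468) (nat_lit 0) (nat_lit 0) (XT.nd (nat_lit 234) (nat_lit 76) (nat_lit 0) (XT.nd (nat_lit 78) (nat_lit 0) (nat_lit 0) (XT.lf (nat_lit 0) (nat_lit 669219969877) (nat_lit 152) (nat_lit 340408111958) (nat_lit 0) (nat_lit 604611806150) (nat_lit 2) (nat_lit 5) (nat_lit 4) (nat_lit 4) (nat_lit 2) (nat_lit 4) (nat_lit 272) (nat_lit 231) (nat_lit 157)) (XT.nd (nat_lit 78) (nat_lit 0) (nat_lit 0) (XT.lf (nat_lit 0) (nat_lit 834283448636) (nat_lit 152) (nat_lit 246433480729) (nat_lit 0) (nat_lit 769675013231) (nat_lit 2) (nat_lit 5) (nat_lit 4) (nat_lit 4) (nat_lit 2) (nat_lit 4) (nat_lit 273) (nat_lit 231) (nat_lit 156)) (XT.lf (nat_lit 0) (nat_lit 1024105864584) (nat_lit 152) (nat_lit 138363794916) (nat_lit 0) (nat_lit 959497192937) (nat_lit 2) (nat_lit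 5) (nat_lit 4) (nat_lit 4) (nat_lit 2) (nat_lit 4) (nat_lit 274) (nat_lit 231) (nat_lit 155)))) (XT.nd (nat_lit 78) (nat_lit 76) (nat_lit 0) (XT.lf (nat_lit 0) (nat_lit 1242401134555) (nat_lit 152) (nat_lit 14084647623) (nat_lit 0) (nat_lit 1177792257480) (nat_lit 2) (nat_lit 5) (nat_lit 4) (nat_lit 4) (nat_lit 2) (nat_lit 4) (nat_lit 275) (nat_lit 231) (nat_lit 154)) (XT.nd (nat_lit 78) (nat_lit 0) (nat_lit 0) (XT.lf (nat_lit 0) (nat_lit 135619759308) (nat_lit 76) (nat_lit 1361082152126) (nat_lit 76) (nat_lit 1296473096418) (nat_lit 1) (nat_lit 4) (nat_lit 2) (nat_lit 5) (nat_lit 2) (nat_lit 4) (nat_lit 276) (nat_lit 231) (nat_lit 153)) (XT.lf (nat_lit 0) (nat_lit 308631961642) (nat_lit 76) (nat_lit 1480925499185) (nat_lit 76) (nat_lit 1416316288145) (nat_lit 1) (nat_lit 4) (nat_lit 2) (nat_lit 5) (nat_lit 2) (nat_lit 4) (nat_lit 277) (nat_lit 231) (nat_lit 152))))) (XT.nd (nat_lit 234)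 (nat_lit 0) (nat_lit 0) (XT.nd (nat_lit 78) (nat_lit 0) (nat_lit 0) (XT.lf (nat_lit 0) (nat_lit 507595308144) (nat_lit 76) (nat_lit 1618745683722) (nat_lit 76) (nat_lit 1554136337609) (nat_lit 1) (nat_lit 4) (nat_lit 2) (nat_lit 5) (nat_lit 2) (nat_lit 4) (nat_lit 278) (nat_lit 231) (nat_lit 151)) (XT.nd (nat_lit 78) (nat_lit 0) (nat_lit 0) (XT.lf (nat_lit 0) (nat_lit 736402559942) (nat_lit 76) (nat_lit 1777239187607) (nat_lit 76) (nat_lit 1712629724040) (nat_lit 1) (nat_lit 4) (nat_lit 2) (nat_lit 5) (nat_lit 2) (nat_lit 4) (nat_lit 279) (nat_lit 231) (nat_lit 150)) (XT.lf (nat_lit 0) (nat_lit 999530380658) (nat_lit 76) (nat_lit 1959506970698) (nat_lit 76) (nat_lit 1894897404998) (nat_lit 1) (nat_lit 4) (nat_lit 2) (nat_lit 5) (nat_lit 2) (nat_lit 4) (nat_lit 280) (nat_lit 231) (nat_lit 149)))) (XT.nd (nat_lit 78) (nat_lit 0) (nat_lit 0) (XT.lf (nat_lit 0) (nat_lit 1302126923306) (nat_lit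 76) (nat_lit 2169115141796) (nat_lit 76) (nat_lit 2104505487283) (nat_lit 1) (nat_lit 4) (nat_lit 2) (nat_lit 5) (nat_lit 2) (nat_lit 4) (nat_lit 281) (nat_lit 231) (nat_lit 148)) (XT.nd (nat_lit 78) (nat_lit 0) (nat_lit 0) (XT.lf (nat_lit 0) (nat_lit 1650112555024) (nat_lit 76) (nat_lit 2410164730334) (nat_lit 76) (nat_lit 2345554998594) (nat_lit 1) (nat_lit 4) (nat_lit 2) (nat_lit 5) (nat_lit 2) (nat_lit 4) (nat_lit 282) (nat_lit 231) (nat_lit 147)) (XT.lf (nat_lit 0) (nat_lit 2050295690347) (nat_lit 76) (nat_lit 2687371923916) (nat_lit 76) (nat_lit 2622762125021) (nat_lit 1) (nat_lit 4) (nat_lit 2) (nat_lit 5) (nat_lit 2) (nat_lit 4) (nat_lit 283) (nat_lit 231) (nat_lit 146)))))) (XT.nd (nat_lit 30576) (nat_lit 0) (nat_lit 2204) (XT.nd (nat_lit 30342) (nat_lit 0) (nat_lit 3344) (XT.nd (nat_lit 78) (nat_lit 0) (nat_lit 0) (XT.lf (nat_lit 0) (nat_lit 2510505999312) (nat_lit 76) (nat_lit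 3006160341544) (nat_lit 76) (nat_lit 2941550484254) (nat_lit 1) (nat_lit 4) (nat_lit 2) (nat_lit 5) (nat_lit 2) (nat_lit 4) (nat_lit 284) (nat_lit 231) (nat_lit 145)) (XT.nd (nat_lit 78) (nat_lit 0) (nat_lit 0) (XT.lf (nat_lit 0) (nat_lit 3039747596662) (nat_lit 76) (nat_lit 3372767147914) (nat_lit 76) (nat_lit 3308157239845) (nat_lit 1) (nat_lit 4) (nat_lit 2) (nat_lit 5) (nat_lit 2) (nat_lit 4) (nat_lit 285) (nat_lit 231) (nat_lit 144)) (XT.lf (nat_lit 0) (nat_lit 3648375209300) (nat_lit 76) (nat_lit 3794365084887) (nat_lit 76) (nat_lit 3729755132662) (nat_lit 1) (nat_lit 4) (nat_lit 2) (nat_lit 5) (nat_lit 2) (nat_lit 4) (nat_lit 286) (nat_lit 231) (nat_lit 143)))) (XT.nd (nat_lit 78) (nat_lit 0) (nat_lit 76) (XT.lf (nat_lit 0) (nat_lit 6487140087) (nat_lit 532) (nat_lit 2241240340) (nat_lit 532) (nat_lit 2241240340) (nat_lit 45) (nat_lit 3) (nat_lit 52) (nat_lit 3) (nat_lit 52) (nat_lit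 5) (nat_lit 232) (nat_lit 232) (nat_lit 196)) (XT.nd (nat_lit 78) (nat_lit 0) (nat_lit 0) (XT.lf (nat_lit 0) (nat_lit 14552592425) (nat_lit 456) (nat_lit 8398350129) (nat_lit 532) (nat_lit 584672476) (nat_lit 46) (nat_lit 5) (nat_lit 52) (nat_lit 5) (nat_lit 53) (nat_lit 5) (nat_lit 233) (nat_lit 232) (nat_lit 195)) (XT.lf (nat_lit 76) (nat_lit 12734500283) (nat_lit 0) (nat_lit 4515756504) (nat_lit 532) (nat_lit 8050695132) (nat_lit 47) (nat_lit 5) (nat_lit 46) (nat_lit 5) (nat_lit 53) (nat_lit 5) (nat_lit 234) (nat_lit 232) (nat_lit 194))))) (XT.nd (nat_lit 234) (nat_lit 608) (nat_lit 0) (XT.nd (nat_lit 78) (nat_lit 684) (nat_lit 0) (XT.lf (nat_lit 76) (nat_lit 10315002613) (nat_lit 0) (nat_lit 10902354285) (nat_lit 532) (nat_lit 6044650244) (nat_lit 48) (nat_lit 5) (nat_lit 47) (nat_lit 5) (nat_lit 54) (nat_lit 5) (nat_lit 235) (nat_lit 232) (nat_lit 193)) (XT.nd (nat_lit 78) (nat_lit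 304) (nat_lit 0) (XT.lf (nat_lit 0) (nat_lit 7881815297) (nat_lit 456) (nat_lit 18807929511) (nat_lit 532) (nat_lit 2754745574) (nat_lit 42) (nat_lit 5) (nat_lit 48) (nat_lit 5) (nat_lit 49) (nat_lit 5) (nat_lit 236) (nat_lit 232) (nat_lit 192)) (XT.lf (nat_lit 0) (nat_lit 1973213875) (nat_lit 304) (nat_lit 26512639270) (nat_lit 76) (nat_lit 3386902260) (nat_lit 38) (nat_lit 5) (nat_lit 42) (nat_lit 5) (nat_lit 39) (nat_lit 5) (nat_lit 237) (nat_lit 232) (nat_lit 191)))) (XT.nd (nat_lit 156) (nat_lit 380) (nat_lit 0) (XT.nd (nat_lit 78) (nat_lit 0) (nat_lit 0) (XT.lf (nat_lit 0) (nat_lit 2497199456) (nat_lit 228) (nat_lit 5953554967) (nat_lit 304) (nat_lit 26112563003) (nat_lit 35) (nat_lit 5) (nat_lit 38) (nat_lit 5) (nat_lit 39) (nat_lit 5) (nat_lit 238) (nat_lit 232) (nat_lit 190)) (XT.lf (nat_lit 0) (nat_lit 17149083314) (nat_lit 304) (nat_lit 658357788) (nat_lit 76) (nat_lit 19750143372)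 (nat_lit 35) (nat_lit 5) (nat_lit 39) (nat_lit 5) (nat_lit 36) (nat_lit 5) (nat_lit 239) (nat_lit 232) (nat_lit 189))) (XT.nd (nat_lit 78) (nat_lit 152) (nat_lit 0) (XT.lf (nat_lit 0) (nat_lit 28405002635) (nat_lit 304) (nat_lit 4002873095) (nat_lit 76) (nat_lit 8492934914) (nat_lit 32) (nat_lit 5) (nat_lit 36) (nat_lit 5) (nat_lit 33) (nat_lit 5) (nat_lit 240) (nat_lit 232) (nat_lit 188)) (XT.lf (nat_lit 0) (nat_lit 36704063453) (nat_lit 152) (nat_lit 6022334652) (nat_lit 228) (nat_lit 1908995881) (nat_lit 30) (nat_lit 5) (nat_lit 32) (nat_lit 5) (nat_lit 33) (nat_lit 5) (nat_lit 241) (nat_lit 232) (nat_lit 187))))))) (XT.nd (nat_lit 936) (nat_lit 532) (nat_lit 0) (XT.nd (nat_lit 468) (nat_lit 532) (nat_lit 0) (XT.nd (nat_lit 234) (nat_lit 380) (nat_lit 0) (XT.nd (nat_lit 78) (nat_lit 304) (nat_lit 0) (XT.lf (nat_lit 0) (nat_lit 11347588139) (nat_lit 228) (nat_lit 13061870744) (nat_lit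 76) (nat_lit 24373363796) (nat_lit 27) (nat_lit 5) (nat_lit 30) (nat_lit 5) (nat_lit 28) (nat_lit 5) (nat_lit 242) (nat_lit 232) (nat_lit 186)) (XT.nd (nat_lit 78) (nat_lit 152) (nat_lit 0) (XT.lf (nat_lit 0) (nat_lit 27857012446) (nat_lit 228) (nat_lit 19271674139) (nat_lit 76) (nat_lit 6309549643) (nat_lit 25) (nat_lit 5) (nat_lit 28) (nat_lit 5) (nat_lit 26) (nat_lit 5) (nat_lit 243) (nat_lit 232) (nat_lit 185)) (XT.lf (nat_lit 0) (nat_lit 31373110923) (nat_lit 152) (nat_lit 17275985363) (nat_lit 228) (nat_lit 9998390391) (nat_lit 23) (nat_lit 5) (nat_lit 25) (nat_lit 5) (nat_lit 26) (nat_lit 5) (nat_lit 244) (nat_lit 232) (nat_lit 184)))) (XT.nd (nat_lit 78) (nat_lit 228) (nat_lit 0) (XT.lf (nat_lit 0) (nat_lit 9192983132) (nat_lit 152) (nat_lit 37640713461) (nat_lit 76) (nat_lit 17655814246) (nat_lit 21) (nat_lit 5) (nat_lit 23) (nat_lit 5) (nat_lit 22) (nat_lit 5) (nat_lit 245)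 (nat_lit 232) (nat_lit 183)) (XT.nd (nat_lit 78) (nat_lit 76) (nat_lit 0) (XT.lf (nat_lit 0) (nat_lit 19794859254) (nat_lit 152) (nat_lit 12650104588) (nat_lit 228) (nat_lit 38600202690) (nat_lit 19) (nat_lit 5) (nat_lit 21) (nat_lit 5) (nat_lit 22) (nat_lit 5) (nat_lit 246) (nat_lit 232) (nat_lit 182)) (XT.lf (nat_lit 0) (nat_lit 9412528709) (nat_lit 76) (nat_lit 51753580898) (nat_lit 152) (nat_lit 17259566478) (nat_lit 18) (nat_lit 5) (nat_lit 19) (nat_lit 5) (nat_lit 20) (nat_lit 4) (nat_lit 247) (nat_lit 232) (nat_lit 181))))) (XT.nd (nat_lit 234) (nat_lit 228) (nat_lit 0) (XT.nd (nat_lit 78) (nat_lit 228) (nat_lit 0) (XT.lf (nat_lit 0) (nat_lit 8788803096) (nat_lit 152) (nat_lit 5095700450) (nat_lit 76) (nat_lit 72865085946) (nat_lit 17) (nat_lit 5) (nat_lit 19) (nat_lit 5) (nat_lit 18) (nat_lit 5) (nat_lit 248) (nat_lit 232) (nat_lit 180)) (XT.nd (nat_lit 78) (nat_lit 76) (nat_lit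 0) (XT.lf (nat_lit 0) (nat_lit 40232802416) (nat_lit 228) (nat_lit 25423225893) (nat_lit 76) (nat_lit 30429381368) (nat_lit 15) (nat_lit 5) (nat_lit 18) (nat_lit 5) (nat_lit 16) (nat_lit 4) (nat_lit 249) (nat_lit 232) (nat_lit 179)) (XT.lf (nat_lit 0) (nat_lit 53560494671) (nat_lit 76) (nat_lit 24649404286) (nat_lit 152) (nat_lit 28466393241) (nat_lit 14) (nat_lit 5) (nat_lit 15) (nat_lit 5) (nat_lit 16) (nat_lit 4) (nat_lit 250) (nat_lit 232) (nat_lit 178)))) (XT.nd (nat_lit 78) (nat_lit 76) (nat_lit 0) (XT.lf (nat_lit 0) (nat_lit 4893249323) (nat_lit 152) (nat_lit 90862419568) (nat_lit 76) (nat_lit 22932963576) (nat_lit 12) (nat_lit 5) (nat_lit 14) (nat_lit 5) (nat_lit 13) (nat_lit 4) (nat_lit 251) (nat_lit 232) (nat_lit 177)) (XT.nd (nat_lit 78) (nat_lit 76) (nat_lit 0) (XT.lf (nat_lit 0) (nat_lit 43880781415) (nat_lit 152) (nat_lit 9774402135) (nat_lit 76) (nat_lit 78603737943) (nat_lit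 12) (nat_lit 5) (nat_lit 14) (nat_lit 5) (nat_lit 13) (nat_lit 4) (nat_lit 252) (nat_lit 232) (nat_lit 176)) (XT.lf (nat_lit 0) (nat_lit 87861456672) (nat_lit 76) (nat_lit 2962170457) (nat_lit 152) (nat_lit 56872557578) (nat_lit 11) (nat_lit 5) (nat_lit 12) (nat_lit 5) (nat_lit 13) (nat_lit 4) (nat_lit 253) (nat_lit 232) (nat_lit 175)))))) (XT.nd (nat_lit 468) (nat_lit 152) (nat_lit 0) (XT.nd (nat_lit 234) (nat_lit 152) (nat_lit 0) (XT.nd (nat_lit 78) (nat_lit 152) (nat_lit 0) (XT.lf (nat_lit 0) (nat_lit 35748433780) (nat_lit 76) (nat_lit 111536528170) (nat_lit 76) (nat_lit 17965915288) (nat_lit 10) (nat_lit 4) (nat_lit 11) (nat_lit 5) (nat_lit 11) (nat_lit 4) (nat_lit 254) (nat_lit 232) (nat_lit 174)) (XT.nd (nat_lit 78) (nat_lit 76) (nat_lit 0) (XT.lf (nat_lit 0) (nat_lit 27301345120) (nat_lit 152) (nat_lit 36787497923) (nat_lit 76) (nat_lit 121149287861) (nat_lit 9) (nat_lit 5) (nat_lit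 11) (nat_lit 5) (nat_lit 10) (nat_lit 4) (nat_lit 255) (nat_lit 232) (nat_lit 173)) (XT.lf (nat_lit 0) (nat_lit 72980387847) (nat_lit 76) (nat_lit 7095518949) (nat_lit 152) (nat_lit 127967757832) (nat_lit 8) (nat_lit 5) (nat_lit 9) (nat_lit 5) (nat_lit 10) (nat_lit 4) (nat_lit 256) (nat_lit 232) (nat_lit 172)))) (XT.nd (nat_lit 78) (nat_lit 152) (nat_lit 0) (XT.lf (nat_lit 0) (nat_lit 143267030877) (nat_lit 152) (nat_lit 34184349604) (nat_lit 0) (nat_lit 56618620611) (nat_lit 8) (nat_lit 5) (nat_lit 10) (nat_lit 4) (nat_lit 8) (nat_lit 4) (nat_lit 257) (nat_lit 232) (nat_lit 171)) (XT.nd (nat_lit 78) (nat_lit 76) (nat_lit 0) (XT.lf (nat_lit 0) (nat_lit 85921593803) (nat_lit 76) (nat_lit 132274311349) (nat_lit 76) (nat_lit 45623658895) (nat_lit 7) (nat_lit 4) (nat_lit 8) (nat_lit 5) (nat_lit 8) (nat_lit 4) (nat_lit 258) (nat_lit 232) (nat_lit 170)) (XT.lf (nat_lit 0) (nat_lit 7033513045)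 (nat_lit 152) (nat_lit 72022895046) (nat_lit 76) (nat_lit 218881552075) (nat_lit 6) (nat_lit 5) (nat_lit 8) (nat_lit 5) (nat_lit 7) (nat_lit 4) (nat_lit 259) (nat_lit 232) (nat_lit 169))))) (XT.nd (nat_lit 234) (nat_lit 76) (nat_lit 0) (XT.nd (nat_lit 78) (nat_lit 0) (nat_lit 0) (XT.lf (nat_lit 0) (nat_lit 51018235120) (nat_lit 76) (nat_lit 15170482532) (nat_lit 152) (nat_lit 270786526501) (nat_lit 5) (nat_lit 5) (nat_lit 6) (nat_lit 5) (nat_lit 7) (nat_lit 4) (nat_lit 260) (nat_lit 232) (nat_lit 168)) (XT.nd (nat_lit 78) (nat_lit 0) (nat_lit 0) (XT.lf (nat_lit 0) (nat_lit 137767902737) (nat_lit 152) (nat_lit 186285086640) (nat_lit 0) (nat_lit 57531076929) (nat_lit 5) (nat_lit 5) (nat_lit 7) (nat_lit 4) (nat_lit 5) (nat_lit 4) (nat_lit 261) (nat_lit 232) (nat_lit 167)) (XT.lf (nat_lit 0) (nat_lit 220501187339) (nat_lit 152) (nat_lit 72086473536) (nat_lit 0) (nat_lit 140263174515) (nat_lit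 5) (nat_lit 5) (nat_lit 7) (nat_lit 4) (nat_lit 5) (nat_lit 4) (nat_lit 262) (nat_lit 232) (nat_lit 166)))) (XT.nd (nat_lit 156) (nat_lit 0) (nat_lit 0) (XT.nd (nat_lit 78) (nat_lit 0) (nat_lit 0) (XT.lf (nat_lit 0) (nat_lit 62357369616) (nat_lit 76) (nat_lit 254784742312) (nat_lit 76) (nat_lit 174545697300) (nat_lit 4) (nat_lit 4) (nat_lit 5) (nat_lit 5) (nat_lit 5) (nat_lit 4) (nat_lit 263) (nat_lit 232) (nat_lit 165)) (XT.lf (nat_lit 0) (nat_lit 221329529653) (nat_lit 76) (nat_lit 209046497462) (nat_lit 76) (nat_lit 128806554894) (nat_lit 4) (nat_lit 4) (nat_lit 5) (nat_lit 5) (nat_lit 5) (nat_lit 4) (nat_lit 264) (nat_lit 232) (nat_lit 164))) (XT.nd (nat_lit 78) (nat_lit 0) (nat_lit 0) (XT.lf (nat_lit 0) (nat_lit 404144385495) (nat_lit 76) (nat_lit 156449019556) (nat_lit 76) (nat_lit 76208296506) (nat_lit 4) (nat_lit 4) (nat_lit 5) (nat_lit 5) (nat_lit 5) (nat_lit 4) (nat_lit 265)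 (nat_lit 232) (nat_lit 163)) (XT.lf (nat_lit 0) (nat_lit 614378749539) (nat_lit 76) (nat_lit 95963227505) (nat_lit 76) (nat_lit 15721825774) (nat_lit 4) (nat_lit 4) (nat_lit 5) (nat_lit 5) (nat_lit 5) (nat_lit 4) (nat_lit 266) (nat_lit 232) (nat_lit 162))))))))
noncomputable def xc39 : XT := (XT.nd (nat_lit 32136) (nat_lit 0) (nat_lit 304) (XT.nd (nat_lit 936) (nat_lit 0) (nat_lit 0) (XT.nd (nat_lit 468) (nat_lit 76) (nat_lit 0) (XT.nd (nat_lit 234) (nat_lit 0) (nat_lit 0) (XT.nd (nat_lit 78) (nat_lit 0) (nat_lit 0) (XT.lf (nat_lit 0) (nat_lit 27512086576) (nat_lit 76) (nat_lit 24292758839) (nat_lit 152) (nat_lit 776753958366) (nat_lit 2) (nat_lit 5) (nat_lit 3) (nat_lit 5) (nat_lit 4) (nat_lit 4) (nat_lit 267) (nat_lit 232) (nat_lit 161)) (XT.nd (nat_lit 78) (nat_lit 0) (nat_lit 0) (XT.lf (nat_lit 0) (nat_lit 133288935167) (nat_lit 152) (nat_lit 753735386136) (nat_lit 0) (nat_lit 58990319363)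 (nat_lit 2) (nat_lit 5) (nat_lit 4) (nat_lit 4) (nat_lit 2) (nat_lit 4) (nat_lit 268) (nat_lit 232) (nat_lit 160)) (XT.lf (nat_lit 0) (nat_lit 227666493519) (nat_lit 152) (nat_lit 700001227098) (nat_lit 0) (nat_lit 153367464526) (nat_lit 2) (nat_lit 5) (nat_lit 4) (nat_lit 4) (nat_lit 2) (nat_lit 4) (nat_lit 269) (nat_lit 232) (nat_lit 159)))) (XT.nd (nat_lit 78) (nat_lit 0) (nat_lit 0) (XT.lf (nat_lit 0) (nat_lit 336199796482) (nat_lit 152) (nat_lit 638208678154) (nat_lit 0) (nat_lit 261900408195) (nat_lit 2) (nat_lit 5) (nat_lit 4) (nat_lit 4) (nat_lit 2) (nat_lit 4) (nat_lit 270) (nat_lit 232) (nat_lit 158)) (XT.nd (nat_lit 78) (nat_lit 0) (nat_lit 0) (XT.lf (nat_lit 0) (nat_lit 461012321723) (nat_lit 152) (nat_lit 567148754651) (nat_lit 0) (nat_lit 386712621007) (nat_lit 2) (nat_lit 5) (nat_lit 4) (nat_lit 4) (nat_lit 2) (nat_lit 4) (nat_lit 271) (nat_lit 232) (nat_lit 157)) (XT.lf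 (nat_lit 0) (nat_lit 604546053432) (nat_lit 152) (nat_lit 485431153738) (nat_lit 0) (nat_lit 530246081038) (nat_lit 2) (nat_lit 5) (nat_lit 4) (nat_lit 4) (nat_lit 2) (nat_lit 4) (nat_lit 272) (nat_lit 232) (nat_lit 156))))) (XT.nd (nat_lit 234) (nat_lit 76) (nat_lit 0) (XT.nd (nat_lit 78) (nat_lit 0) (nat_lit 0) (XT.lf (nat_lit 0) (nat_lit 769609260273) (nat_lit 152) (nat_lit 391457052789) (nat_lit 0) (nat_lit 695309051636) (nat_lit 2) (nat_lit 5) (nat_lit 4) (nat_lit 4) (nat_lit 2) (nat_lit 4) (nat_lit 273) (nat_lit 232) (nat_lit 155)) (XT.nd (nat_lit 78) (nat_lit 0) (nat_lit 0) (XT.lf (nat_lit 0) (nat_lit 959431439770) (nat_lit 152) (nat_lit 283387828088) (nat_lit 0) (nat_lit 885131025706) (nat_lit 2) (nat_lit 5) (nat_lit 4) (nat_lit 4) (nat_lit 2) (nat_lit 4) (nat_lit 274) (nat_lit 232) (nat_lit 154)) (XT.lf (nat_lit 0) (nat_lit 1177726504131) (nat_lit 152) (nat_lit 159109081762)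 (nat_lit 0) (nat_lit 1103425911434) (nat_lit 2) (nat_lit 5) (nat_lit 4) (nat_lit 4) (nat_lit 2) (nat_lit 4) (nat_lit 275) (nat_lit 232) (nat_lit 153)))) (XT.nd (nat_lit 78) (nat_lit 76) (nat_lit 0) (XT.lf (nat_lit 0) (nat_lit 1428765443746) (nat_lit 152) (nat_lit 16189273121) (nat_lit 0) (nat_lit 1354464695717) (nat_lit 2) (nat_lit 5) (nat_lit 4) (nat_lit 4) (nat_lit 2) (nat_lit 4) (nat_lit 276) (nat_lit 232) (nat_lit 152)) (XT.nd (nat_lit 78) (nat_lit 0) (nat_lit 0) (XT.lf (nat_lit 0) (nat_lit 155970111624) (nat_lit 76) (nat_lit 1565240863353) (nat_lit 76) (nat_lit 1490939980252) (nat_lit 1) (nat_lit 4) (nat_lit 2) (nat_lit 5) (nat_lit 2) (nat_lit 4) (nat_lit 277) (nat_lit 232) (nat_lit 151)) (XT.lf (nat_lit 0) (nat_lit 354933180601) (nat_lit 76) (nat_lit 1703061183549) (nat_lit 76) (nat_lit 1628760182994) (nat_lit 1) (nat_lit 4) (nat_lit 2) (nat_lit 5) (nat_lit 2) (nat_lit 4) (nat_lit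 278) (nat_lit 232) (nat_lit 150)))))) (XT.nd (nat_lit 468) (nat_lit 0) (nat_lit 0) (XT.nd (nat_lit 234) (nat_lit 0) (nat_lit 0) (XT.nd (nat_lit 78) (nat_lit 0) (nat_lit 0) (XT.lf (nat_lit 0) (nat_lit 583740191073) (nat_lit 76) (nat_lit 1861554805398) (nat_lit 76) (nat_lit 1787253702709) (nat_lit 1) (nat_lit 4) (nat_lit 2) (nat_lit 5) (nat_lit 2) (nat_lit 4) (nat_lit 279) (nat_lit 232) (nat_lit 149)) (XT.nd (nat_lit 78) (nat_lit 0) (nat_lit 0) (XT.lf (nat_lit 0) (nat_lit 846867801940) (nat_lit 76) (nat_lit 2043822691068) (nat_lit 76) (nat_lit 1969521499566) (nat_lit 1) (nat_lit 4) (nat_lit 2) (nat_lit 5) (nat_lit 2) (nat_lit 4) (nat_lit 280) (nat_lit 232) (nat_lit 148)) (XT.lf (nat_lit 0) (nat_lit 1149464162110) (nat_lit 76) (nat_lit 2253430951364) (nat_lit 76) (nat_lit 2179129682634) (nat_lit 1) (nat_lit 4) (nat_lit 2) (nat_lit 5) (nat_lit 2) (nat_lit 4) (nat_lit 281) (nat_lit 232) (nat_lit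 147)))) (XT.nd (nat_lit 78) (nat_lit 0) (nat_lit 0) (XT.lf (nat_lit 0) (nat_lit 1497449635152) (nat_lit 76) (nat_lit 2494480617466) (nat_lit 76) (nat_lit 2420179281582) (nat_lit 1) (nat_lit 4) (nat_lit 2) (nat_lit 5) (nat_lit 2) (nat_lit 4) (nat_lit 282) (nat_lit 232) (nat_lit 146)) (XT.nd (nat_lit 78) (nat_lit 0) (nat_lit 0) (XT.lf (nat_lit 0) (nat_lit 1897632632496) (nat_lit 76) (nat_lit 2771687878494) (nat_lit 76) (nat_lit 2697386484215) (nat_lit 1) (nat_lit 4) (nat_lit 2) (nat_lit 5) (nat_lit 2) (nat_lit 4) (nat_lit 283) (nat_lit 232) (nat_lit 145)) (XT.lf (nat_lit 0) (nat_lit 2357842821480) (nat_lit 76) (nat_lit 3090476354772) (nat_lit 76) (nat_lit 3016174909714) (nat_lit 1) (nat_lit 4) (nat_lit 2) (nat_lit 5) (nat_lit 2) (nat_lit 4) (nat_lit 284) (nat_lit 232) (nat_lit 144))))) (XT.nd (nat_lit 30420) (nat_lit 0) (nat_lit 3116) (XT.nd (nat_lit 78) (nat_lit 0) (nat_lit 0) (XT.lf (nat_lit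 0) (nat_lit 2887084314497) (nat_lit 76) (nat_lit 3457083212141) (nat_lit 76) (nat_lit 3382781722927) (nat_lit 1) (nat_lit 4) (nat_lit 2) (nat_lit 5) (nat_lit 2) (nat_lit 4) (nat_lit 285) (nat_lit 232) (nat_lit 143)) (XT.nd (nat_lit 30264) (nat_lit 0) (nat_lit 3344) (XT.lf (nat_lit 0) (nat_lit 3495711836411) (nat_lit 76) (nat_lit 3878681193461) (nat_lit 76) (nat_lit 3804379665852) (nat_lit 1) (nat_lit 4) (nat_lit 2) (nat_lit 5) (nat_lit 2) (nat_lit 4) (nat_lit 286) (nat_lit 232) (nat_lit 142)) (XT.lf (nat_lit 0) (nat_lit 7676856138) (nat_lit 532) (nat_lit 2460126374) (nat_lit 532) (nat_lit 2460126374) (nat_lit 45) (nat_lit 3) (nat_lit 52) (nat_lit 3) (nat_lit 52) (nat_lit 5) (nat_lit 233) (nat_lit 233) (nat_lit 194)))) (XT.nd (nat_lit 156) (nat_lit 304) (nat_lit 0) (XT.nd (nat_lit 78) (nat_lit 0) (nat_lit 0) (XT.lf (nat_lit 0) (nat_lit 17113398753) (nat_lit 456) (nat_lit 9407700019) (nat_lit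 532) (nat_lit 513540954) (nat_lit 46) (nat_lit 5) (nat_lit 52) (nat_lit 5) (nat_lit 53) (nat_lit 5) (nat_lit 234) (nat_lit 233) (nat_lit 193)) (XT.lf (nat_lit 76) (nat_lit 14873882620) (nat_lit 0) (nat_lit 5298049008) (nat_lit 532) (nat_lit 8896489423) (nat_lit 47) (nat_lit 5) (nat_lit 46) (nat_lit 5) (nat_lit 53) (nat_lit 5) (nat_lit 235) (nat_lit 233) (nat_lit 192))) (XT.nd (nat_lit 78) (nat_lit 380) (nat_lit 0) (XT.lf (nat_lit 76) (nat_lit 12099700202) (nat_lit 0) (nat_lit 12594329778) (nat_lit 532) (nat_lit 6632932887) (nat_lit 48) (nat_lit 5) (nat_lit 47) (nat_lit 5) (nat_lit 54) (nat_lit 5) (nat_lit 236) (nat_lit 233) (nat_lit 191)) (XT.lf (nat_lit 0) (nat_lit 9304967203) (nat_lit 456) (nat_lit 21648560990) (nat_lit 532) (nat_lit 2886097159) (nat_lit 42) (nat_lit 5) (nat_lit 48) (nat_lit 5) (nat_lit 49) (nat_lit 5) (nat_lit 237) (nat_lit 233) (nat_lit 190))))))) (XT.nd (nat_lit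 1014) (nat_lit 760) (nat_lit 0) (XT.nd (nat_lit 468) (nat_lit 912) (nat_lit 0) (XT.nd (nat_lit 234) (nat_lit 608) (nat_lit 0) (XT.nd (nat_lit 78) (nat_lit 228) (nat_lit 0) (XT.lf (nat_lit 0) (nat_lit 2507551552) (nat_lit 304) (nat_lit 30235776011) (nat_lit 76) (nat_lit 3890698748) (nat_lit 38) (nat_lit 5) (nat_lit 42) (nat_lit 5) (nat_lit 39) (nat_lit 5) (nat_lit 238) (nat_lit 233) (nat_lit 189)) (XT.nd (nat_lit 78) (nat_lit 0) (nat_lit 0) (XT.lf (nat_lit 0) (nat_lit 3104059076) (nat_lit 228) (nat_lit 6827160579) (nat_lit 304) (nat_lit 29799068127) (nat_lit 35) (nat_lit 5) (nat_lit 38) (nat_lit 5) (nat_lit 39) (nat_lit 5) (nat_lit 239) (nat_lit 233) (nat_lit 188)) (XT.lf (nat_lit 0) (nat_lit 19906940857) (nat_lit 304) (nat_lit 540294305) (nat_lit 76) (nat_lit 22728713386) (nat_lit 35) (nat_lit 5) (nat_lit 39) (nat_lit 5) (nat_lit 36) (nat_lit 5) (nat_lit 240) (nat_lit 233) (nat_lit 187))))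 (XT.nd (nat_lit 78) (nat_lit 380) (nat_lit 0) (XT.lf (nat_lit 0) (nat_lit 32832605167) (nat_lit 304) (nat_lit 4391955181) (nat_lit 76) (nat_lit 9797646335) (nat_lit 32) (nat_lit 5) (nat_lit 36) (nat_lit 5) (nat_lit 33) (nat_lit 5) (nat_lit 241) (nat_lit 233) (nat_lit 186)) (XT.nd (nat_lit 78) (nat_lit 228) (nat_lit 0) (XT.lf (nat_lit 0) (nat_lit 42403132220) (nat_lit 152) (nat_lit 6881967116) (nat_lit 228) (nat_lit 2033296265) (nat_lit 30) (nat_lit 5) (nat_lit 32) (nat_lit 5) (nat_lit 33) (nat_lit 5) (nat_lit 242) (nat_lit 233) (nat_lit 185)) (XT.lf (nat_lit 0) (nat_lit 13189151277) (nat_lit 228) (nat_lit 14826158079) (nat_lit 76) (nat_lit 28073518512) (nat_lit 27) (nat_lit 5) (nat_lit 30) (nat_lit 5) (nat_lit 28) (nat_lit 5) (nat_lit 243) (nat_lit 233) (nat_lit 184))))) (XT.nd (nat_lit 234) (nat_lit 456) (nat_lit 0) (XT.nd (nat_lit 78) (nat_lit 304) (nat_lit 0) (XT.lf (nat_lit 0) (nat_lit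 32162369615) (nat_lit 228) (nat_lit 21974938502) (nat_lit 76) (nat_lit 7306289364) (nat_lit 25) (nat_lit 5) (nat_lit 28) (nat_lit 5) (nat_lit 26) (nat_lit 5) (nat_lit 244) (nat_lit 233) (nat_lit 183)) (XT.nd (nat_lit 78) (nat_lit 152) (nat_lit 0) (XT.lf (nat_lit 0) (nat_lit 36250694499) (nat_lit 152) (nat_lit 19810159101) (nat_lit 228) (nat_lit 11374404861) (nat_lit 23) (nat_lit 5) (nat_lit 25) (nat_lit 5) (nat_lit 26) (nat_lit 5) (nat_lit 245) (nat_lit 233) (nat_lit 182)) (XT.lf (nat_lit 0) (nat_lit 10679435489) (nat_lit 152) (nat_lit 43116608248) (nat_lit 76) (nat_lit 20358132476) (nat_lit 21) (nat_lit 5) (nat_lit 23) (nat_lit 5) (nat_lit 22) (nat_lit 5) (nat_lit 246) (nat_lit 233) (nat_lit 181)))) (XT.nd (nat_lit 156) (nat_lit 228) (nat_lit 0) (XT.nd (nat_lit 78) (nat_lit 76) (nat_lit 0) (XT.lf (nat_lit 0) (nat_lit 22919892757) (nat_lit 152) (nat_lit 14489045278) (nat_lit 228) (nat_lit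 44285085230) (nat_lit 19) (nat_lit 5) (nat_lit 21) (nat_lit 5) (nat_lit 22) (nat_lit 5) (nat_lit 247) (nat_lit 233) (nat_lit 180)) (XT.lf (nat_lit 0) (nat_lit 10972983064) (nat_lit 76) (nat_lit 59457388692) (nat_lit 152) (nat_lit 19751886451) (nat_lit 18) (nat_lit 5) (nat_lit 19) (nat_lit 5) (nat_lit 20) (nat_lit 4) (nat_lit 248) (nat_lit 233) (nat_lit 179))) (XT.nd (nat_lit 78) (nat_lit 152) (nat_lit 0) (XT.lf (nat_lit 0) (nat_lit 10186933930) (nat_lit 152) (nat_lit 5726559217) (nat_lit 76) (nat_lit 83842052007) (nat_lit 17) (nat_lit 5) (nat_lit 19) (nat_lit 5) (nat_lit 18) (nat_lit 5) (nat_lit 249) (nat_lit 233) (nat_lit 178)) (XT.lf (nat_lit 0) (nat_lit 46341260999) (nat_lit 228) (nat_lit 29109840052) (nat_lit 76) (nat_lit 35041151861) (nat_lit 15) (nat_lit 5) (nat_lit 18) (nat_lit 5) (nat_lit 16) (nat_lit 4) (nat_lit 250) (nat_lit 233) (nat_lit 177)))))) (XT.nd (nat_lit 468) (nat_lit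 304) (nat_lit 0) (XT.nd (nat_lit 234) (nat_lit 228) (nat_lit 0) (XT.nd (nat_lit 78) (nat_lit 152) (nat_lit 0) (XT.lf (nat_lit 0) (nat_lit 61710699707) (nat_lit 76) (nat_lit 28297423322) (nat_lit 152) (nat_lit 32664199809) (nat_lit 14) (nat_lit 5) (nat_lit 15) (nat_lit 5) (nat_lit 16) (nat_lit 4) (nat_lit 251) (nat_lit 233) (nat_lit 176)) (XT.nd (nat_lit 78) (nat_lit 0) (nat_lit 0) (XT.lf (nat_lit 0) (nat_lit 5690617521) (nat_lit 152) (nat_lit 104378216752) (nat_lit 76) (nat_lit 26417962976) (nat_lit 12) (nat_lit 5) (nat_lit 14) (nat_lit 5) (nat_lit 13) (nat_lit 4) (nat_lit 252) (nat_lit 233) (nat_lit 175)) (XT.lf (nat_lit 0) (nat_lit 50518012366) (nat_lit 152) (nat_lit 11141809629) (nat_lit 76) (nat_lit 90433476778) (nat_lit 12) (nat_lit 5) (nat_lit 14) (nat_lit 5) (nat_lit 13) (nat_lit 4) (nat_lit 253) (nat_lit 233) (nat_lit 174)))) (XT.nd (nat_lit 78) (nat_lit 152) (nat_lit 0) (XT.lf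 (nat_lit 0) (nat_lit 101131069065) (nat_lit 76) (nat_lit 3366201099) (nat_lit 152) (nat_lit 65349289249) (nat_lit 11) (nat_lit 5) (nat_lit 12) (nat_lit 5) (nat_lit 13) (nat_lit 4) (nat_lit 254) (nat_lit 233) (nat_lit 173)) (XT.nd (nat_lit 78) (nat_lit 76) (nat_lit 0) (XT.lf (nat_lit 0) (nat_lit 41196264215) (nat_lit 76) (nat_lit 128227906884) (nat_lit 76) (nat_lit 20610581333) (nat_lit 10) (nat_lit 4) (nat_lit 11) (nat_lit 5) (nat_lit 11) (nat_lit 4) (nat_lit 255) (nat_lit 233) (nat_lit 172)) (XT.lf (nat_lit 0) (nat_lit 31438032957) (nat_lit 152) (nat_lit 42229001796) (nat_lit 76) (nat_lit 139353465337) (nat_lit 9) (nat_lit 5) (nat_lit 11) (nat_lit 5) (nat_lit 10) (nat_lit 4) (nat_lit 256) (nat_lit 233) (nat_lit 171))))) (XT.nd (nat_lit 234) (nat_lit 152) (nat_lit 0) (XT.nd (nat_lit 78) (nat_lit 76) (nat_lit 0) (XT.lf (nat_lit 0) (nat_lit 83997581270) (nat_lit 76) (nat_lit 8127473143)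 (nat_lit 152) (nat_lit 147122111536) (nat_lit 8) (nat_lit 5) (nat_lit 9) (nat_lit 5) (nat_lit 10) (nat_lit 4) (nat_lit 257) (nat_lit 233) (nat_lit 170)) (XT.nd (nat_lit 78) (nat_lit 76) (nat_lit 0) (XT.lf (nat_lit 0) (nat_lit 164790598712) (nat_lit 152) (nat_lit 39249041146) (nat_lit 0) (nat_lit 65138156474) (nat_lit 8) (nat_lit 5) (nat_lit 10) (nat_lit 4) (nat_lit 8) (nat_lit 4) (nat_lit 258) (nat_lit 233) (nat_lit 169)) (XT.lf (nat_lit 0) (nat_lit 98867464446) (nat_lit 76) (nat_lit 152088354436) (nat_lit 76) (nat_lit 52434216782) (nat_lit 7) (nat_lit 4) (nat_lit 8) (nat_lit 5) (nat_lit 8) (nat_lit 4) (nat_lit 259) (nat_lit 233) (nat_lit 168)))) (XT.nd (nat_lit 156) (nat_lit 0) (nat_lit 0) (XT.nd (nat_lit 78) (nat_lit 76) (nat_lit 0) (XT.lf (nat_lit 0) (nat_lit 8115792703) (nat_lit 152) (nat_lit 82774763104) (nat_lit 76) (nat_lit 251735901459) (nat_lit 6) (nat_lit 5) (nat_lit 8) (nat_lit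 5) (nat_lit 7) (nat_lit 4) (nat_lit 260) (nat_lit 233) (nat_lit 167)) (XT.lf (nat_lit 0) (nat_lit 58718171766) (nat_lit 76) (nat_lit 17423686729) (nat_lit 152) (nat_lit 311377671094) (nat_lit 5) (nat_lit 5) (nat_lit 6) (nat_lit 5) (nat_lit 7) (nat_lit 4) (nat_lit 261) (nat_lit 233) (nat_lit 166))) (XT.nd (nat_lit 78) (nat_lit 0) (nat_lit 0) (XT.lf (nat_lit 0) (nat_lit 158455150017) (nat_lit 152) (nat_lit 214185532585) (nat_lit 0) (nat_lit 66179216064) (nat_lit 5) (nat_lit 5) (nat_lit 7) (nat_lit 4) (nat_lit 5) (nat_lit 4) (nat_lit 262) (nat_lit 233) (nat_lit 165)) (XT.lf (nat_lit 0) (nat_lit 253595549675) (nat_lit 152) (nat_lit 82862647131) (nat_lit 0) (nat_lit 161318718167) (nat_lit 5) (nat_lit 5) (nat_lit 7) (nat_lit 4) (nat_lit 5) (nat_lit 4) (nat_lit 263) (nat_lit 233) (nat_lit 164))))))))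
noncomputable def xc40 : XT := (XT.nd (nat_lit 32214) (nat_lit 0) (nat_lit 456) (XT.nd (nat_lit 936) (nat_lit 76) (nat_lit 0) (XT.nd (nat_lit 468) (nat_lit 0) (nat_lit 0) (XT.nd (nat_lit 234) (nat_lit 152) (nat_lit 0) (XT.nd (nat_lit 78) (nat_lit 0) (nat_lit 0) (XT.lf (nat_lit 0) (nat_lit 71744657775) (nat_lit 76) (nat_lit 292986262957) (nat_lit 76) (nat_lit 200708650966) (nat_lit 4) (nat_lit 4) (nat_lit 5) (nat_lit 5) (nat_lit 5) (nat_lit 4) (nat_lit 264) (nat_lit 233) (nat_lit 163)) (XT.nd (nat_lit 78) (nat_lit 0) (nat_lit 0) (XT.lf (nat_lit 0) (nat_lit 254558248419) (nat_lit 76) (nat_lit 240389393209) (nat_lit 76) (nat_lit 148111102538) (nat_lit 4) (nat_lit 4) (nat_lit 5) (nat_lit 5) (nat_lit 5) (nat_lit 4) (nat_lit 265) (nat_lit 233) (nat_lit 162)) (XT.lf (nat_lit 0) (nat_lit 464791512292) (nat_lit 76) (nat_lit 179904129992) (nat_lit 76) (nat_lit 87625249164) (nat_lit 4) (nat_lit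 4) (nat_lit 5) (nat_lit 5) (nat_lit 5) (nat_lit 4) (nat_lit 266) (nat_lit 233) (nat_lit 161)))) (XT.nd (nat_lit 78) (nat_lit 152) (nat_lit 0) (XT.lf (nat_lit 0) (nat_lit 706557708902) (nat_lit 76) (nat_lit 110347065982) (nat_lit 76) (nat_lit 18067671973) (nat_lit 4) (nat_lit 4) (nat_lit 5) (nat_lit 5) (nat_lit 5) (nat_lit 4) (nat_lit 267) (nat_lit 233) (nat_lit 160)) (XT.nd (nat_lit 78) (nat_lit 0) (nat_lit 0) (XT.lf (nat_lit 0) (nat_lit 31659746252) (nat_lit 76) (nat_lit 27926593413) (nat_lit 152) (nat_lit 893255418231) (nat_lit 2) (nat_lit 5) (nat_lit 3) (nat_lit 5) (nat_lit 4) (nat_lit 4) (nat_lit 268) (nat_lit 233) (nat_lit 159)) (XT.lf (nat_lit 0) (nat_lit 153291849219) (nat_lit 152) (nat_lit 866777023851) (nat_lit 0) (nat_lit 67847193395) (nat_lit 2) (nat_lit 5) (nat_lit 4) (nat_lit 4) (nat_lit 2) (nat_lit 4) (nat_lit 269) (nat_lit 233) (nat_lit 158))))) (XT.nd (nat_lit 234) (nat_lit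 0) (nat_lit 0) (XT.nd (nat_lit 78) (nat_lit 0) (nat_lit 0) (XT.lf (nat_lit 0) (nat_lit 261824792570) (nat_lit 152) (nat_lit 804985176202) (nat_lit 0) (nat_lit 176379824317) (nat_lit 2) (nat_lit 5) (nat_lit 4) (nat_lit 4) (nat_lit 2) (nat_lit 4) (nat_lit 270) (nat_lit 233) (nat_lit 157)) (XT.nd (nat_lit 78) (nat_lit 0) (nat_lit 0) (XT.lf (nat_lit 0) (nat_lit 386637005105) (nat_lit 152) (nat_lit 733925862520) (nat_lit 0) (nat_lit 301191765173) (nat_lit 2) (nat_lit 5) (nat_lit 4) (nat_lit 4) (nat_lit 2) (nat_lit 4) (nat_lit 271) (nat_lit 233) (nat_lit 156)) (XT.lf (nat_lit 0) (nat_lit 530170464896) (nat_lit 152) (nat_lit 652208791886) (nat_lit 0) (nat_lit 444724988722) (nat_lit 2) (nat_lit 5) (nat_lit 4) (nat_lit 4) (nat_lit 2) (nat_lit 4) (nat_lit 272) (nat_lit 233) (nat_lit 155)))) (XT.nd (nat_lit 78) (nat_lit 0) (nat_lit 0) (XT.lf (nat_lit 0) (nat_lit 695233435285) (nat_lit 152) (nat_lit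 558235152049) (nat_lit 0) (nat_lit 609787753684) (nat_lit 2) (nat_lit 5) (nat_lit 4) (nat_lit 4) (nat_lit 2) (nat_lit 4) (nat_lit 273) (nat_lit 233) (nat_lit 154)) (XT.nd (nat_lit 78) (nat_lit 0) (nat_lit 0) (XT.lf (nat_lit 0) (nat_lit 885055409173) (nat_lit 152) (nat_lit 450166328315) (nat_lit 0) (nat_lit 799609548939) (nat_lit 2) (nat_lit 5) (nat_lit 4) (nat_lit 4) (nat_lit 2) (nat_lit 4) (nat_lit 274) (nat_lit 233) (nat_lit 153)) (XT.lf (nat_lit 0) (nat_lit 1103350294743) (nat_lit 152) (nat_lit 325887930656) (nat_lit 0) (nat_lit 1017904279176) (nat_lit 2) (nat_lit 5) (nat_lit 4) (nat_lit 4) (nat_lit 2) (nat_lit 4) (nat_lit 275) (nat_lit 233) (nat_lit 152)))))) (XT.nd (nat_lit 468) (nat_lit 0) (nat_lit 0) (XT.nd (nat_lit 234) (nat_lit 0) (nat_lit 0) (XT.nd (nat_lit 78) (nat_lit 76) (nat_lit 0) (XT.lf (nat_lit 0) (nat_lit 1354389078888) (nat_lit 152) (nat_lit 182968425205) (nat_lit 0)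 (nat_lit 1268942928249) (nat_lit 2) (nat_lit 5) (nat_lit 4) (nat_lit 4) (nat_lit 2) (nat_lit 4) (nat_lit 276) (nat_lit 233) (nat_lit 151)) (XT.nd (nat_lit 78) (nat_lit 76) (nat_lit 0) (XT.lf (nat_lit 0) (nat_lit 1643083389993) (nat_lit 152) (nat_lit 18611560766) (nat_lit 0) (nat_lit 1557637121900) (nat_lit 2) (nat_lit 5) (nat_lit 4) (nat_lit 4) (nat_lit 2) (nat_lit 4) (nat_lit 277) (nat_lit 233) (nat_lit 150)) (XT.lf (nat_lit 0) (nat_lit 179371215076) (nat_lit 76) (nat_lit 1800024261974) (nat_lit 76) (nat_lit 1714577891748) (nat_lit 1) (nat_lit 4) (nat_lit 2) (nat_lit 5) (nat_lit 2) (nat_lit 4) (nat_lit 278) (nat_lit 233) (nat_lit 149)))) (XT.nd (nat_lit 78) (nat_lit 0) (nat_lit 0) (XT.lf (nat_lit 0) (nat_lit 408178015698) (nat_lit 76) (nat_lit 1958517986402) (nat_lit 76) (nat_lit 1873071527363) (nat_lit 1) (nat_lit 4) (nat_lit 2) (nat_lit 5) (nat_lit 2) (nat_lit 4) (nat_lit 279) (nat_lit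 233) (nat_lit 148)) (XT.nd (nat_lit 78) (nat_lit 0) (nat_lit 0) (XT.lf (nat_lit 0) (nat_lit 671305444087) (nat_lit 76) (nat_lit 2140785961269) (nat_lit 76) (nat_lit 2055339425003) (nat_lit 1) (nat_lit 4) (nat_lit 2) (nat_lit 5) (nat_lit 2) (nat_lit 4) (nat_lit 280) (nat_lit 233) (nat_lit 147)) (XT.lf (nat_lit 0) (nat_lit 973901645582) (nat_lit 76) (nat_lit 2350394299129) (nat_lit 76) (nat_lit 2264947695708) (nat_lit 1) (nat_lit 4) (nat_lit 2) (nat_lit 5) (nat_lit 2) (nat_lit 4) (nat_lit 281) (nat_lit 233) (nat_lit 146))))) (XT.nd (nat_lit 234) (nat_lit 0) (nat_lit 0) (XT.nd (nat_lit 78) (nat_lit 0) (nat_lit 0) (XT.lf (nat_lit 0) (nat_lit 1321886980645) (nat_lit 76) (nat_lit 2591444032678) (nat_lit 76) (nat_lit 2505997370861) (nat_lit 1) (nat_lit 4) (nat_lit 2) (nat_lit 5) (nat_lit 2) (nat_lit 4) (nat_lit 282) (nat_lit 233) (nat_lit 145)) (XT.nd (nat_lit 78) (nat_lit 0) (nat_lit 0) (XT.lf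 (nat_lit 0) (nat_lit 1722069858006) (nat_lit 76) (nat_lit 2868651352355) (nat_lit 76) (nat_lit 2783204639760) (nat_lit 1) (nat_lit 4) (nat_lit 2) (nat_lit 5) (nat_lit 2) (nat_lit 4) (nat_lit 283) (nat_lit 233) (nat_lit 144)) (XT.lf (nat_lit 0) (nat_lit 2182279942658) (nat_lit 76) (nat_lit 3187439879633) (nat_lit 76) (nat_lit 3101993122882) (nat_lit 1) (nat_lit 4) (nat_lit 2) (nat_lit 5) (nat_lit 2) (nat_lit 4) (nat_lit 284) (nat_lit 233) (nat_lit 143)))) (XT.nd (nat_lit 30420) (nat_lit 0) (nat_lit 3344) (XT.nd (nat_lit 78) (nat_lit 0) (nat_lit 0) (XT.lf (nat_lit 0) (nat_lit 2711521344952) (nat_lit 76) (nat_lit 3554046781348) (nat_lit 76) (nat_lit 3468599986202) (nat_lit 1) (nat_lit 4) (nat_lit 2) (nat_lit 5) (nat_lit 2) (nat_lit 4) (nat_lit 285) (nat_lit 233) (nat_lit 142)) (XT.lf (nat_lit 0) (nat_lit 3320148787976) (nat_lit 76) (nat_lit 3975644801232) (nat_lit 76) (nat_lit 3890197972697)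 (nat_lit 1) (nat_lit 4) (nat_lit 2) (nat_lit 5) (nat_lit 2) (nat_lit 4) (nat_lit 286) (nat_lit 233) (nat_lit 141))) (XT.nd (nat_lit 78) (nat_lit 0) (nat_lit 76) (XT.lf (nat_lit 0) (nat_lit 8992199332) (nat_lit 532) (nat_lit 2740449665) (nat_lit 532) (nat_lit 2740449665) (nat_lit 45) (nat_lit 3) (nat_lit 52) (nat_lit 3) (nat_lit 52) (nat_lit 5) (nat_lit 234) (nat_lit 234) (nat_lit 192)) (XT.lf (nat_lit 0) (nat_lit 19966168463) (nat_lit 456) (nat_lit 10629514659) (nat_lit 532) (nat_lit 470471988) (nat_lit 46) (nat_lit 5) (nat_lit 52) (nat_lit 5) (nat_lit 53) (nat_lit 5) (nat_lit 235) (nat_lit 234) (nat_lit 191))))))) (XT.nd (nat_lit 936) (nat_lit 1064) (nat_lit 0) (XT.nd (nat_lit 468) (nat_lit 1064) (nat_lit 0) (XT.nd (nat_lit 234) (nat_lit 532) (nat_lit 0) (XT.nd (nat_lit 78) (nat_lit 304) (nat_lit 0) (XT.lf (nat_lit 76) (nat_lit 17278278657) (nat_lit 0) (nat_lit 6172097779) (nat_lit 532)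 (nat_lit 9957382513) (nat_lit 47) (nat_lit 5) (nat_lit 46) (nat_lit 5) (nat_lit 53) (nat_lit 5) (nat_lit 236) (nat_lit 234) (nat_lit 190)) (XT.nd (nat_lit 78) (nat_lit 380) (nat_lit 0) (XT.lf (nat_lit 76) (nat_lit 14094199428) (nat_lit 0) (nat_lit 14526293876) (nat_lit 532) (nat_lit 7387105414) (nat_lit 48) (nat_lit 5) (nat_lit 47) (nat_lit 5) (nat_lit 54) (nat_lit 5) (nat_lit 237) (nat_lit 234) (nat_lit 189)) (XT.lf (nat_lit 0) (nat_lit 10882851876) (nat_lit 456) (nat_lit 24910546123) (nat_lit 532) (nat_lit 3105884889) (nat_lit 42) (nat_lit 5) (nat_lit 48) (nat_lit 5) (nat_lit 49) (nat_lit 5) (nat_lit 238) (nat_lit 234) (nat_lit 188)))) (XT.nd (nat_lit 78) (nat_lit 228) (nat_lit 0) (XT.lf (nat_lit 0) (nat_lit 3063915359) (nat_lit 304) (nat_lit 34579264039) (nat_lit 76) (nat_lit 4471098380) (nat_lit 38) (nat_lit 5) (nat_lit 42) (nat_lit 5) (nat_lit 39) (nat_lit 5) (nat_lit 239) (nat_lit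 234) (nat_lit 187)) (XT.nd (nat_lit 78) (nat_lit 0) (nat_lit 0) (XT.lf (nat_lit 0) (nat_lit 3745304762) (nat_lit 228) (nat_lit 7836544583) (nat_lit 304) (nat_lit 34094728477) (nat_lit 35) (nat_lit 5) (nat_lit 38) (nat_lit 5) (nat_lit 39) (nat_lit 5) (nat_lit 240) (nat_lit 234) (nat_lit 186)) (XT.lf (nat_lit 0) (nat_lit 23033242890) (nat_lit 304) (nat_lit 457393534) (nat_lit 76) (nat_lit 26150155372) (nat_lit 35) (nat_lit 5) (nat_lit 39) (nat_lit 5) (nat_lit 36) (nat_lit 5) (nat_lit 241) (nat_lit 234) (nat_lit 185))))) (XT.nd (nat_lit 234) (nat_lit 456) (nat_lit 0) (XT.nd (nat_lit 78) (nat_lit 380) (nat_lit 0) (XT.lf (nat_lit 0) (nat_lit 37883660129) (nat_lit 304) (nat_lit 4890938342) (nat_lit 76) (nat_lit 11290560722) (nat_lit 32) (nat_lit 5) (nat_lit 36) (nat_lit 5) (nat_lit 33) (nat_lit 5) (nat_lit 242) (nat_lit 234) (nat_lit 184)) (XT.nd (nat_lit 78) (nat_lit 228) (nat_lit 0) (XT.lf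 (nat_lit 0) (nat_lit 48909885038) (nat_lit 152) (nat_lit 7881205295) (nat_lit 228) (nat_lit 2215758382) (nat_lit 30) (nat_lit 5) (nat_lit 32) (nat_lit 5) (nat_lit 33) (nat_lit 5) (nat_lit 243) (nat_lit 234) (nat_lit 183)) (XT.lf (nat_lit 0) (nat_lit 15272949235) (nat_lit 228) (nat_lit 16902638859) (nat_lit 76) (nat_lit 32317930142) (nat_lit 27) (nat_lit 5) (nat_lit 30) (nat_lit 5) (nat_lit 28) (nat_lit 5) (nat_lit 244) (nat_lit 234) (nat_lit 182)))) (XT.nd (nat_lit 78) (nat_lit 304) (nat_lit 0) (XT.lf (nat_lit 0) (nat_lit 37082608083) (nat_lit 228) (nat_lit 25129412353) (nat_lit 76) (nat_lit 8440272296) (nat_lit 25) (nat_lit 5) (nat_lit 28) (nat_lit 5) (nat_lit 26) (nat_lit 5) (nat_lit 245) (nat_lit 234) (nat_lit 181)) (XT.nd (nat_lit 78) (nat_lit 152) (nat_lit 0) (XT.lf (nat_lit 0) (nat_lit 41818065734) (nat_lit 152) (nat_lit 22738413351) (nat_lit 228) (nat_lit 12986997280) (nat_lit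 23) (nat_lit 5) (nat_lit 25) (nat_lit 5) (nat_lit 26) (nat_lit 5) (nat_lit 246) (nat_lit 234) (nat_lit 180)) (XT.lf (nat_lit 0) (nat_lit 12362639953) (nat_lit 152) (nat_lit 49455394584) (nat_lit 76) (nat_lit 23452643344) (nat_lit 21) (nat_lit 5) (nat_lit 23) (nat_lit 5) (nat_lit 22) (nat_lit 5) (nat_lit 247) (nat_lit 234) (nat_lit 179)))))) (XT.nd (nat_lit 468) (nat_lit 380) (nat_lit 0) (XT.nd (nat_lit 234) (nat_lit 380) (nat_lit 0) (XT.nd (nat_lit 78) (nat_lit 152) (nat_lit 0) (XT.lf (nat_lit 0) (nat_lit 26475687343) (nat_lit 152) (nat_lit 16618110955) (nat_lit 228) (nat_lit 50848341124) (nat_lit 19) (nat_lit 5) (nat_lit 21) (nat_lit 5) (nat_lit 22) (nat_lit 5) (nat_lit 248) (nat_lit 234) (nat_lit 178)) (XT.nd (nat_lit 78) (nat_lit 76) (nat_lit 0) (XT.lf (nat_lit 0) (nat_lit 12731274607) (nat_lit 76) (nat_lit 68331211105) (nat_lit 152) (nat_lit 22641614600) (nat_lit 18) (nat_lit 5) (nat_lit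 19) (nat_lit 5) (nat_lit 20) (nat_lit 4) (nat_lit 249) (nat_lit 234) (nat_lit 177)) (XT.lf (nat_lit 0) (nat_lit 11775322125) (nat_lit 152) (nat_lit 6484600717) (nat_lit 76) (nat_lit 96454052185) (nat_lit 17) (nat_lit 5) (nat_lit 19) (nat_lit 5) (nat_lit 18) (nat_lit 5) (nat_lit 250) (nat_lit 234) (nat_lit 176)))) (XT.nd (nat_lit 78) (nat_lit 228) (nat_lit 0) (XT.lf (nat_lit 0) (nat_lit 53348055609) (nat_lit 228) (nat_lit 33380384320) (nat_lit 76) (nat_lit 40333138090) (nat_lit 15) (nat_lit 5) (nat_lit 18) (nat_lit 5) (nat_lit 16) (nat_lit 4) (nat_lit 251) (nat_lit 234) (nat_lit 175)) (XT.nd (nat_lit 78) (nat_lit 152) (nat_lit 0) (XT.lf (nat_lit 0) (nat_lit 71055116259) (nat_lit 76) (nat_lit 32504689670) (nat_lit 152) (nat_lit 37509272187) (nat_lit 14) (nat_lit 5) (nat_lit 15) (nat_lit 5) (nat_lit 16) (nat_lit 4) (nat_lit 252) (nat_lit 234) (nat_lit 174)) (XT.lf (nat_lit 0) (nat_lit 6592135140)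 (nat_lit 152) (nat_lit 119949077242) (nat_lit 76) (nat_lit 30414725373) (nat_lit 12) (nat_lit 5) (nat_lit 14) (nat_lit 5) (nat_lit 13) (nat_lit 4) (nat_lit 253) (nat_lit 234) (nat_lit 173))))) (XT.nd (nat_lit 234) (nat_lit 228) (nat_lit 0) (XT.nd (nat_lit 78) (nat_lit 152) (nat_lit 0) (XT.lf (nat_lit 0) (nat_lit 58137388126) (nat_lit 152) (nat_lit 12738409749) (nat_lit 76) (nat_lit 104028122599) (nat_lit 12) (nat_lit 5) (nat_lit 14) (nat_lit 5) (nat_lit 13) (nat_lit 4) (nat_lit 254) (nat_lit 234) (nat_lit 172)) (XT.nd (nat_lit 78) (nat_lit 76) (nat_lit 0) (XT.lf (nat_lit 0) (nat_lit 116369080194) (nat_lit 76) (nat_lit 3840662510) (nat_lit 152) (nat_lit 75110735970) (nat_lit 11) (nat_lit 5) (nat_lit 12) (nat_lit 5) (nat_lit 13) (nat_lit 4) (nat_lit 255) (nat_lit 234) (nat_lit 171)) (XT.lf (nat_lit 0) (nat_lit 47440403559) (nat_lit 76) (nat_lit 147432527313) (nat_lit 76) (nat_lit 23664194054)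 (nat_lit 10) (nat_lit 4) (nat_lit 11) (nat_lit 5) (nat_lit 11) (nat_lit 4) (nat_lit 256) (nat_lit 234) (nat_lit 170)))) (XT.nd (nat_lit 156) (nat_lit 76) (nat_lit 0) (XT.nd (nat_lit 78) (nat_lit 76) (nat_lit 0) (XT.lf (nat_lit 0) (nat_lit 36185107328) (nat_lit 152) (nat_lit 48505415721) (nat_lit 76) (nat_lit 160280518633) (nat_lit 9) (nat_lit 5) (nat_lit 11) (nat_lit 5) (nat_lit 10) (nat_lit 4) (nat_lit 257) (nat_lit 234) (nat_lit 169)) (XT.lf (nat_lit 0) (nat_lit 96650250782) (nat_lit 76) (nat_lit 9322114985) (nat_lit 152) (nat_lit 169159570065) (nat_lit 8) (nat_lit 5) (nat_lit 9) (nat_lit 5) (nat_lit 10) (nat_lit 4) (nat_lit 258) (nat_lit 234) (nat_lit 168))) (XT.nd (nat_lit 78) (nat_lit 76) (nat_lit 0) (XT.lf (nat_lit 0) (nat_lit 189534529315) (nat_lit 152) (nat_lit 45088789834) (nat_lit 0) (nat_lit 74929101323) (nat_lit 8) (nat_lit 5) (nat_lit 10) (nat_lit 4) (nat_lit 8) (nat_lit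 4) (nat_lit 259) (nat_lit 234) (nat_lit 167)) (XT.lf (nat_lit 0) (nat_lit 113741161861) (nat_lit 76) (nat_lit 174881113374) (nat_lit 76) (nat_lit 60274403404) (nat_lit 7) (nat_lit 4) (nat_lit 8) (nat_lit 5) (nat_lit 8) (nat_lit 4) (nat_lit 260) (nat_lit 234) (nat_lit 166))))))))
noncomputable def xc41 : XT := (XT.nd (nat_lit 1950) (nat_lit 0) (nat_lit 0) (XT.nd (nat_lit 936) (nat_lit 76) (nat_lit 0) (XT.nd (nat_lit 468) (nat_lit 152) (nat_lit 0) (XT.nd (nat_lit 234) (nat_lit 76) (nat_lit 0) (XT.nd (nat_lit 78) (nat_lit 76) (nat_lit 0) (XT.lf (nat_lit 0) (nat_lit 9353768566) (nat_lit 152) (nat_lit 95151986114) (nat_lit 76) (nat_lit 289513009984) (nat_lit 6) (nat_lit 5) (nat_lit 8) (nat_lit 5) (nat_lit 7) (nat_lit 4) (nat_lit 261) (nat_lit 234) (nat_lit 165)) (XT.nd (nat_lit 78) (nat_lit 0) (nat_lit 0) (XT.lf (nat_lit 0) (nat_lit 67561588554) (nat_lit 76) (nat_lit 20020326179) (nat_lit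 152) (nat_lit 358064031111) (nat_lit 5) (nat_lit 5) (nat_lit 6) (nat_lit 5) (nat_lit 7) (nat_lit 4) (nat_lit 262) (nat_lit 234) (nat_lit 164)) (XT.lf (nat_lit 0) (nat_lit 182240104463) (nat_lit 152) (nat_lit 246281364703) (nat_lit 0) (nat_lit 76120070191) (nat_lit 5) (nat_lit 5) (nat_lit 7) (nat_lit 4) (nat_lit 5) (nat_lit 4) (nat_lit 263) (nat_lit 234) (nat_lit 163)))) (XT.nd (nat_lit 78) (nat_lit 76) (nat_lit 0) (XT.lf (nat_lit 0) (nat_lit 291649388164) (nat_lit 152) (nat_lit 95264220053) (nat_lit 0) (nat_lit 185528675212) (nat_lit 5) (nat_lit 5) (nat_lit 7) (nat_lit 4) (nat_lit 5) (nat_lit 4) (nat_lit 264) (nat_lit 234) (nat_lit 162)) (XT.nd (nat_lit 78) (nat_lit 0) (nat_lit 0) (XT.lf (nat_lit 0) (nat_lit 82531825414) (nat_lit 76) (nat_lit 336921959903) (nat_lit 76) (nat_lit 230800656793) (nat_lit 4) (nat_lit 4) (nat_lit 5) (nat_lit 5) (nat_lit 5) (nat_lit 4) (nat_lit 265) (nat_lit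 234) (nat_lit 161)) (XT.lf (nat_lit 0) (nat_lit 292764132615) (nat_lit 76) (nat_lit 276437156541) (nat_lit 76) (nat_lit 170315340251) (nat_lit 4) (nat_lit 4) (nat_lit 5) (nat_lit 5) (nat_lit 5) (nat_lit 4) (nat_lit 266) (nat_lit 234) (nat_lit 160))))) (XT.nd (nat_lit 234) (nat_lit 0) (nat_lit 0) (XT.nd (nat_lit 78) (nat_lit 152) (nat_lit 0) (XT.lf (nat_lit 0) (nat_lit 534529497338) (nat_lit 76) (nat_lit 206880492404) (nat_lit 76) (nat_lit 100758229871) (nat_lit 4) (nat_lit 4) (nat_lit 5) (nat_lit 5) (nat_lit 5) (nat_lit 4) (nat_lit 267) (nat_lit 234) (nat_lit 159)) (XT.nd (nat_lit 78) (nat_lit 152) (nat_lit 0) (XT.lf (nat_lit 0) (nat_lit 812558111500) (nat_lit 76) (nat_lit 126891076238) (nat_lit 76) (nat_lit 20768425667) (nat_lit 4) (nat_lit 4) (nat_lit 5) (nat_lit 5) (nat_lit 5) (nat_lit 4) (nat_lit 268) (nat_lit 234) (nat_lit 158)) (XT.lf (nat_lit 0) (nat_lit 36424471282) (nat_lit 76)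 (nat_lit 32107961062) (nat_lit 152) (nat_lit 1027234934073) (nat_lit 2) (nat_lit 5) (nat_lit 3) (nat_lit 5) (nat_lit 4) (nat_lit 4) (nat_lit 269) (nat_lit 234) (nat_lit 157)))) (XT.nd (nat_lit 78) (nat_lit 0) (nat_lit 0) (XT.lf (nat_lit 0) (nat_lit 176292865753) (nat_lit 152) (nat_lit 996779460071) (nat_lit 0) (nat_lit 78030568154) (nat_lit 2) (nat_lit 5) (nat_lit 4) (nat_lit 4) (nat_lit 2) (nat_lit 4) (nat_lit 270) (nat_lit 234) (nat_lit 156)) (XT.nd (nat_lit 78) (nat_lit 0) (nat_lit 0) (XT.lf (nat_lit 0) (nat_lit 301104806370) (nat_lit 152) (nat_lit 925720676669) (nat_lit 0) (nat_lit 202842272528) (nat_lit 2) (nat_lit 5) (nat_lit 4) (nat_lit 4) (nat_lit 2) (nat_lit 4) (nat_lit 271) (nat_lit 234) (nat_lit 155)) (XT.lf (nat_lit 0) (nat_lit 444638029709) (nat_lit 152) (nat_lit 844004067147) (nat_lit 0) (nat_lit 346375290440) (nat_lit 2) (nat_lit 5) (nat_lit 4) (nat_lit 4) (nat_lit 2) (nat_lit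 4) (nat_lit 272) (nat_lit 234) (nat_lit 154)))))) (XT.nd (nat_lit 468) (nat_lit 76) (nat_lit 0) (XT.nd (nat_lit 234) (nat_lit 0) (nat_lit 0) (XT.nd (nat_lit 78) (nat_lit 0) (nat_lit 0) (XT.lf (nat_lit 0) (nat_lit 609700794489) (nat_lit 152) (nat_lit 750030828277) (nat_lit 0) (nat_lit 511437876587) (nat_lit 2) (nat_lit 5) (nat_lit 4) (nat_lit 4) (nat_lit 2) (nat_lit 4) (nat_lit 273) (nat_lit 234) (nat_lit 153)) (XT.nd (nat_lit 78) (nat_lit 0) (nat_lit 0) (XT.lf (nat_lit 0) (nat_lit 799522589586) (nat_lit 152) (nat_lit 641962353211) (nat_lit 0) (nat_lit 701259516351) (nat_lit 2) (nat_lit 5) (nat_lit 4) (nat_lit 4) (nat_lit 2) (nat_lit 4) (nat_lit 274) (nat_lit 234) (nat_lit 152)) (XT.lf (nat_lit 0) (nat_lit 1017817319686) (nat_lit 152) (nat_lit 517684258741) (nat_lit 0) (nat_lit 919554111380) (nat_lit 2) (nat_lit 5) (nat_lit 4) (nat_lit 4) (nat_lit 2) (nat_lit 4) (nat_lit 275) (nat_lit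 234) (nat_lit 151)))) (XT.nd (nat_lit 78) (nat_lit 0) (nat_lit 0) (XT.lf (nat_lit 0) (nat_lit 1268855968640) (nat_lit 152) (nat_lit 374765016932) (nat_lit 0) (nat_lit 1170592642879) (nat_lit 2) (nat_lit 5) (nat_lit 4) (nat_lit 4) (nat_lit 2) (nat_lit 4) (nat_lit 276) (nat_lit 234) (nat_lit 150)) (XT.nd (nat_lit 78) (nat_lit 0) (nat_lit 0) (XT.lf (nat_lit 0) (nat_lit 1557550162186) (nat_lit 152) (nat_lit 210408381748) (nat_lit 0) (nat_lit 1459286734292) (nat_lit 2) (nat_lit 5) (nat_lit 4) (nat_lit 4) (nat_lit 2) (nat_lit 4) (nat_lit 277) (nat_lit 234) (nat_lit 149)) (XT.lf (nat_lit 0) (nat_lit 1889548264983) (nat_lit 152) (nat_lit 21398679892) (nat_lit 0) (nat_lit 1791284748277) (nat_lit 2) (nat_lit 5) (nat_lit 4) (nat_lit 4) (nat_lit 2) (nat_lit 4) (nat_lit 278) (nat_lit 234) (nat_lit 148))))) (XT.nd (nat_lit 234) (nat_lit 0) (nat_lit 0) (XT.nd (nat_lit 78) (nat_lit 0) (nat_lit 0) (XT.lf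 (nat_lit 0) (nat_lit 206281121690) (nat_lit 76) (nat_lit 2070025836332) (nat_lit 76) (nat_lit 1971762242397) (nat_lit 1) (nat_lit 4) (nat_lit 2) (nat_lit 5) (nat_lit 2) (nat_lit 4) (nat_lit 279) (nat_lit 234) (nat_lit 147)) (XT.nd (nat_lit 78) (nat_lit 0) (nat_lit 0) (XT.lf (nat_lit 0) (nat_lit 469408391404) (nat_lit 76) (nat_lit 2252293888763) (nat_lit 76) (nat_lit 2154030227674) (nat_lit 1) (nat_lit 4) (nat_lit 2) (nat_lit 5) (nat_lit 2) (nat_lit 4) (nat_lit 280) (nat_lit 234) (nat_lit 146)) (XT.lf (nat_lit 0) (nat_lit 772004454919) (nat_lit 76) (nat_lit 2461902294069) (nat_lit 76) (nat_lit 2363638574585) (nat_lit 1) (nat_lit 4) (nat_lit 2) (nat_lit 5) (nat_lit 2) (nat_lit 4) (nat_lit 281) (nat_lit 234) (nat_lit 145)))) (XT.nd (nat_lit 156) (nat_lit 0) (nat_lit 0) (XT.nd (nat_lit 78) (nat_lit 0) (nat_lit 0) (XT.lf (nat_lit 0) (nat_lit 1119989670000) (nat_lit 76) (nat_lit 2702952086267)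 (nat_lit 76) (nat_lit 2604688316004) (nat_lit 1) (nat_lit 4) (nat_lit 2) (nat_lit 5) (nat_lit 2) (nat_lit 4) (nat_lit 282) (nat_lit 234) (nat_lit 144)) (XT.lf (nat_lit 0) (nat_lit 1520172443029) (nat_lit 76) (nat_lit 2980159456944) (nat_lit 76) (nat_lit 2881895642526) (nat_lit 1) (nat_lit 4) (nat_lit 2) (nat_lit 5) (nat_lit 2) (nat_lit 4) (nat_lit 283) (nat_lit 234) (nat_lit 143))) (XT.nd (nat_lit 78) (nat_lit 0) (nat_lit 0) (XT.lf (nat_lit 0) (nat_lit 1980382436957) (nat_lit 76) (nat_lit 3298948028569) (nat_lit 76) (nat_lit 3200684175754) (nat_lit 1) (nat_lit 4) (nat_lit 2) (nat_lit 5) (nat_lit 2) (nat_lit 4) (nat_lit 284) (nat_lit 234) (nat_lit 142)) (XT.lf (nat_lit 0) (nat_lit 2509623760361) (nat_lit 76) (nat_lit 3665554968847) (nat_lit 76) (nat_lit 3567291082645) (nat_lit 1) (nat_lit 4) (nat_lit 2) (nat_lit 5) (nat_lit 2) (nat_lit 4) (nat_lit 285) (nat_lit 234) (nat_lit 141)))))))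 (XT.nd (nat_lit 31278) (nat_lit 0) (nat_lit 608) (XT.nd (nat_lit 30810) (nat_lit 0) (nat_lit 1976) (XT.nd (nat_lit 30576) (nat_lit 0) (nat_lit 3116) (XT.nd (nat_lit 30420) (nat_lit 0) (nat_lit 3344) (XT.lf (nat_lit 0) (nat_lit 3118251134786) (nat_lit 76) (nat_lit 4087153022264) (nat_lit 76) (nat_lit 3988889107029) (nat_lit 1) (nat_lit 4) (nat_lit 2) (nat_lit 5) (nat_lit 2) (nat_lit 4) (nat_lit 286) (nat_lit 234) (nat_lit 140)) (XT.nd (nat_lit 78) (nat_lit 0) (nat_lit 76) (XT.lf (nat_lit 0) (nat_lit 10464896736) (nat_lit 532) (nat_lit 3084450449) (nat_lit 532) (nat_lit 3084450449) (nat_lit 45) (nat_lit 3) (nat_lit 52) (nat_lit 3) (nat_lit 52) (nat_lit 5) (nat_lit 235) (nat_lit 235) (nat_lit 190)) (XT.lf (nat_lit 0) (nat_lit 23177169269) (nat_lit 456) (nat_lit 12080773341) (nat_lit 532) (nat_lit 450229849) (nat_lit 46) (nat_lit 5) (nat_lit 52) (nat_lit 5) (nat_lit 53) (nat_lit 5) (nat_lit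 236) (nat_lit 235) (nat_lit 189)))) (XT.nd (nat_lit 78) (nat_lit 304) (nat_lit 0) (XT.lf (nat_lit 76) (nat_lit 20001070470) (nat_lit 0) (nat_lit 7157905958) (nat_lit 532) (nat_lit 11244123860) (nat_lit 47) (nat_lit 5) (nat_lit 46) (nat_lit 5) (nat_lit 53) (nat_lit 5) (nat_lit 237) (nat_lit 235) (nat_lit 188)) (XT.nd (nat_lit 78) (nat_lit 380) (nat_lit 0) (XT.lf (nat_lit 76) (nat_lit 16344090548) (nat_lit 0) (nat_lit 16737611969) (nat_lit 532) (nat_lit 8313116477) (nat_lit 48) (nat_lit 5) (nat_lit 47) (nat_lit 5) (nat_lit 54) (nat_lit 5) (nat_lit 238) (nat_lit 235) (nat_lit 187)) (XT.lf (nat_lit 0) (nat_lit 12653003357) (nat_lit 456) (nat_lit 28658244098) (nat_lit 532) (nat_lit 3410613109) (nat_lit 42) (nat_lit 5) (nat_lit 48) (nat_lit 5) (nat_lit 49) (nat_lit 5) (nat_lit 239) (nat_lit 235) (nat_lit 186))))) (XT.nd (nat_lit 234) (nat_lit 608) (nat_lit 0) (XT.nd (nat_lit 78) (nat_lit 228)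 (nat_lit 0) (XT.lf (nat_lit 0) (nat_lit 3659783248) (nat_lit 304) (nat_lit 39621066027) (nat_lit 76) (nat_lit 5139339561) (nat_lit 38) (nat_lit 5) (nat_lit 42) (nat_lit 5) (nat_lit 39) (nat_lit 5) (nat_lit 240) (nat_lit 235) (nat_lit 185)) (XT.nd (nat_lit 78) (nat_lit 0) (nat_lit 0) (XT.lf (nat_lit 0) (nat_lit 4439907150) (nat_lit 228) (nat_lit 9000918459) (nat_lit 304) (nat_lit 39077217621) (nat_lit 35) (nat_lit 5) (nat_lit 38) (nat_lit 5) (nat_lit 39) (nat_lit 5) (nat_lit 241) (nat_lit 235) (nat_lit 184)) (XT.lf (nat_lit 0) (nat_lit 26594286718) (nat_lit 304) (nat_lit 402036653) (nat_lit 76) (nat_lit 30081854464) (nat_lit 35) (nat_lit 5) (nat_lit 39) (nat_lit 5) (nat_lit 36) (nat_lit 5) (nat_lit 242) (nat_lit 235) (nat_lit 183)))) (XT.nd (nat_lit 78) (nat_lit 380) (nat_lit 0) (XT.lf (nat_lit 0) (nat_lit 43661607400) (nat_lit 304) (nat_lit 5503739686) (nat_lit 76) (nat_lit 13001738355)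 (nat_lit 32) (nat_lit 5) (nat_lit 36) (nat_lit 5) (nat_lit 33) (nat_lit 5) (nat_lit 243) (nat_lit 235) (nat_lit 182)) (XT.nd (nat_lit 78) (nat_lit 228) (nat_lit 0) (XT.lf (nat_lit 0) (nat_lit 56356978748) (nat_lit 152) (nat_lit 9038390333) (nat_lit 228) (nat_lit 2455470099) (nat_lit 30) (nat_lit 5) (nat_lit 32) (nat_lit 5) (nat_lit 33) (nat_lit 5) (nat_lit 244) (nat_lit 235) (nat_lit 181)) (XT.lf (nat_lit 0) (nat_lit 17643608269) (nat_lit 228) (nat_lit 19326546650) (nat_lit 76) (nat_lit 37190862653) (nat_lit 27) (nat_lit 5) (nat_lit 30) (nat_lit 5) (nat_lit 28) (nat_lit 5) (nat_lit 245) (nat_lit 235) (nat_lit 180)))))) (XT.nd (nat_lit 468) (nat_lit 608) (nat_lit 0) (XT.nd (nat_lit 234) (nat_lit 304) (nat_lit 0) (XT.nd (nat_lit 78) (nat_lit 304) (nat_lit 0) (XT.lf (nat_lit 0) (nat_lit 42717500638) (nat_lit 228) (nat_lit 28791628043) (nat_lit 76) (nat_lit 9735076489) (nat_lit 25) (nat_lit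 5) (nat_lit 28) (nat_lit 5) (nat_lit 26) (nat_lit 5) (nat_lit 246) (nat_lit 235) (nat_lit 179)) (XT.nd (nat_lit 78) (nat_lit 152) (nat_lit 0) (XT.lf (nat_lit 0) (nat_lit 48188898136) (nat_lit 152) (nat_lit 26116457308) (nat_lit 228) (nat_lit 14864295787) (nat_lit 23) (nat_lit 5) (nat_lit 25) (nat_lit 5) (nat_lit 26) (nat_lit 5) (nat_lit 247) (nat_lit 235) (nat_lit 178)) (XT.lf (nat_lit 0) (nat_lit 14278502214) (nat_lit 152) (nat_lit 56776384375) (nat_lit 76) (nat_lit 27001383699) (nat_lit 21) (nat_lit 5) (nat_lit 23) (nat_lit 5) (nat_lit 22) (nat_lit 5) (nat_lit 248) (nat_lit 235) (nat_lit 177)))) (XT.nd (nat_lit 78) (nat_lit 152) (nat_lit 0) (XT.lf (nat_lit 0) (nat_lit 30536122238) (nat_lit 152) (nat_lit 19077337153) (nat_lit 228) (nat_lit 58415473660) (nat_lit 19) (nat_lit 5) (nat_lit 21) (nat_lit 5) (nat_lit 22) (nat_lit 5) (nat_lit 249) (nat_lit 235) (nat_lit 176)) (XT.nd (nat_lit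 78) (nat_lit 76) (nat_lit 0) (XT.lf (nat_lit 0) (nat_lit 14725914064) (nat_lit 76) (nat_lit 78547028202) (nat_lit 152) (nat_lit 25982616851) (nat_lit 18) (nat_lit 5) (nat_lit 19) (nat_lit 5) (nat_lit 20) (nat_lit 4) (nat_lit 250) (nat_lit 235) (nat_lit 175)) (XT.lf (nat_lit 0) (nat_lit 13587252281) (nat_lit 152) (nat_lit 7380963881) (nat_lit 76) (nat_lit 110949148577) (nat_lit 17) (nat_lit 5) (nat_lit 19) (nat_lit 5) (nat_lit 18) (nat_lit 5) (nat_lit 251) (nat_lit 235) (nat_lit 174))))) (XT.nd (nat_lit 234) (nat_lit 228) (nat_lit 0) (XT.nd (nat_lit 78) (nat_lit 228) (nat_lit 0) (XT.lf (nat_lit 0) (nat_lit 61392309666) (nat_lit 228) (nat_lit 38314903791) (nat_lit 76) (nat_lit 46410188917) (nat_lit 15) (nat_lit 5) (nat_lit 18) (nat_lit 5) (nat_lit 16) (nat_lit 4) (nat_lit 252) (nat_lit 235) (nat_lit 173)) (XT.nd (nat_lit 78) (nat_lit 152) (nat_lit 0) (XT.lf (nat_lit 0) (nat_lit 81779781879)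 (nat_lit 76) (nat_lit 37352153309) (nat_lit 152) (nat_lit 43094409635) (nat_lit 14) (nat_lit 5) (nat_lit 15) (nat_lit 5) (nat_lit 16) (nat_lit 4) (nat_lit 253) (nat_lit 235) (nat_lit 172)) (XT.lf (nat_lit 0) (nat_lit 7617193588) (nat_lit 152) (nat_lit 137876507242) (nat_lit 76) (nat_lit 35002694444) (nat_lit 12) (nat_lit 5) (nat_lit 14) (nat_lit 5) (nat_lit 13) (nat_lit 4) (nat_lit 254) (nat_lit 235) (nat_lit 171)))) (XT.nd (nat_lit 156) (nat_lit 152) (nat_lit 0) (XT.nd (nat_lit 78) (nat_lit 76) (nat_lit 0) (XT.lf (nat_lit 0) (nat_lit 66889507804) (nat_lit 152) (nat_lit 14592708962) (nat_lit 76) (nat_lit 119654741219) (nat_lit 12) (nat_lit 5) (nat_lit 14) (nat_lit 5) (nat_lit 13) (nat_lit 4) (nat_lit 255) (nat_lit 235) (nat_lit 170)) (XT.lf (nat_lit 0) (nat_lit 133876125224) (nat_lit 76) (nat_lit 4393723132) (nat_lit 152) (nat_lit 86346384803) (nat_lit 11) (nat_lit 5) (nat_lit 12) (nat_lit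 5) (nat_lit 13) (nat_lit 4) (nat_lit 256) (nat_lit 235) (nat_lit 169))) (XT.nd (nat_lit 78) (nat_lit 76) (nat_lit 0) (XT.lf (nat_lit 0) (nat_lit 54605386370) (nat_lit 76) (nat_lit 169525050565) (nat_lit 76) (nat_lit 27185109000) (nat_lit 10) (nat_lit 4) (nat_lit 11) (nat_lit 5) (nat_lit 11) (nat_lit 4) (nat_lit 257) (nat_lit 235) (nat_lit 168)) (XT.lf (nat_lit 0) (nat_lit 41636593222) (nat_lit 152) (nat_lit 55737419879) (nat_lit 76) (nat_lit 184340769203) (nat_lit 9) (nat_lit 5) (nat_lit 11) (nat_lit 5) (nat_lit 10) (nat_lit 4) (nat_lit 258) (nat_lit 235) (nat_lit 167))))))))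
noncomputable def xc42 : XT := (XT.nd (nat_lit 1950) (nat_lit 0) (nat_lit 0) (XT.nd (nat_lit 936) (nat_lit 76) (nat_lit 0) (XT.nd (nat_lit 468) (nat_lit 228) (nat_lit 0) (XT.nd (nat_lit 234) (nat_lit 152) (nat_lit 0) (XT.nd (nat_lit 78) (nat_lit 76) (nat_lit 0) (XT.lf (nat_lit 0) (nat_lit 111187888453) (nat_lit 76) (nat_lit 10701922494) (nat_lit 152) (nat_lit 194510172341) (nat_lit 8) (nat_lit 5) (nat_lit 9) (nat_lit 5) (nat_lit 10) (nat_lit 4) (nat_lit 259) (nat_lit 235) (nat_lit 166)) (XT.nd (nat_lit 78) (nat_lit 76) (nat_lit 0) (XT.lf (nat_lit 0) (nat_lit 217983869995) (nat_lit 152) (nat_lit 51816110211) (nat_lit 0) (nat_lit 86183756788) (nat_lit 8) (nat_lit 5) (nat_lit 10) (nat_lit 4) (nat_lit 8) (nat_lit 4) (nat_lit 260) (nat_lit 235) (nat_lit 165)) (XT.lf (nat_lit 0) (nat_lit 130835287178) (nat_lit 76) (nat_lit 201097783800) (nat_lit 76) (nat_lit 69296701234) (nat_lit 7) (nat_lit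 4) (nat_lit 8) (nat_lit 5) (nat_lit 8) (nat_lit 4) (nat_lit 261) (nat_lit 235) (nat_lit 164)))) (XT.nd (nat_lit 78) (nat_lit 76) (nat_lit 0) (XT.lf (nat_lit 0) (nat_lit 10772415671) (nat_lit 152) (nat_lit 109395300889) (nat_lit 76) (nat_lit 332952606703) (nat_lit 6) (nat_lit 5) (nat_lit 8) (nat_lit 5) (nat_lit 7) (nat_lit 4) (nat_lit 262) (nat_lit 235) (nat_lit 163)) (XT.nd (nat_lit 78) (nat_lit 0) (nat_lit 0) (XT.lf (nat_lit 0) (nat_lit 77722814378) (nat_lit 76) (nat_lit 23010586025) (nat_lit 152) (nat_lit 411758293133) (nat_lit 5) (nat_lit 5) (nat_lit 6) (nat_lit 5) (nat_lit 7) (nat_lit 4) (nat_lit 263) (nat_lit 235) (nat_lit 162)) (XT.lf (nat_lit 0) (nat_lit 209588734079) (nat_lit 152) (nat_lit 283199374497) (nat_lit 0) (nat_lit 87548645345) (nat_lit 5) (nat_lit 5) (nat_lit 7) (nat_lit 4) (nat_lit 5) (nat_lit 4) (nat_lit 264) (nat_lit 235) (nat_lit 161))))) (XT.nd (nat_lit 234) (nat_lit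 152) (nat_lit 0) (XT.nd (nat_lit 78) (nat_lit 76) (nat_lit 0) (XT.lf (nat_lit 0) (nat_lit 335407765038) (nat_lit 152) (nat_lit 109532814007) (nat_lit 0) (nat_lit 213367163124) (nat_lit 5) (nat_lit 5) (nat_lit 7) (nat_lit 4) (nat_lit 5) (nat_lit 4) (nat_lit 265) (nat_lit 235) (nat_lit 160)) (XT.nd (nat_lit 78) (nat_lit 0) (nat_lit 0) (XT.lf (nat_lit 0) (nat_lit 94930857428) (nat_lit 76) (nat_lit 387450996802) (nat_lit 76) (nat_lit 265409948645) (nat_lit 4) (nat_lit 4) (nat_lit 5) (nat_lit 5) (nat_lit 5) (nat_lit 4) (nat_lit 266) (nat_lit 235) (nat_lit 159)) (XT.lf (nat_lit 0) (nat_lit 336695498770) (nat_lit 76) (nat_lit 317894680382) (nat_lit 76) (nat_lit 195853244187) (nat_lit 4) (nat_lit 4) (nat_lit 5) (nat_lit 5) (nat_lit 5) (nat_lit 4) (nat_lit 267) (nat_lit 235) (nat_lit 158)))) (XT.nd (nat_lit 78) (nat_lit 152) (nat_lit 0) (XT.lf (nat_lit 0) (nat_lit 614723483906) (nat_lit 76) (nat_lit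 237905566578) (nat_lit 76) (nat_lit 115863792959) (nat_lit 4) (nat_lit 4) (nat_lit 5) (nat_lit 5) (nat_lit 5) (nat_lit 4) (nat_lit 268) (nat_lit 235) (nat_lit 157)) (XT.nd (nat_lit 78) (nat_lit 152) (nat_lit 0) (XT.lf (nat_lit 0) (nat_lit 934454490806) (nat_lit 76) (nat_lit 145918650989) (nat_lit 76) (nat_lit 23876583958) (nat_lit 4) (nat_lit 4) (nat_lit 5) (nat_lit 5) (nat_lit 5) (nat_lit 4) (nat_lit 269) (nat_lit 235) (nat_lit 156)) (XT.lf (nat_lit 0) (nat_lit 41900061136) (nat_lit 76) (nat_lit 36918392377) (nat_lit 152) (nat_lit 1181313522469) (nat_lit 2) (nat_lit 5) (nat_lit 3) (nat_lit 5) (nat_lit 4) (nat_lit 4) (nat_lit 270) (nat_lit 235) (nat_lit 155)))))) (XT.nd (nat_lit 468) (nat_lit 76) (nat_lit 0) (XT.nd (nat_lit 234) (nat_lit 0) (nat_lit 0) (XT.nd (nat_lit 78) (nat_lit 0) (nat_lit 0) (XT.lf (nat_lit 0) (nat_lit 202742269454) (nat_lit 152) (nat_lit 1146285704332) (nat_lit 0)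 (nat_lit 89739913867) (nat_lit 2) (nat_lit 5) (nat_lit 4) (nat_lit 4) (nat_lit 2) (nat_lit 4) (nat_lit 271) (nat_lit 235) (nat_lit 154)) (XT.nd (nat_lit 78) (nat_lit 0) (nat_lit 0) (XT.lf (nat_lit 0) (nat_lit 346275287185) (nat_lit 152) (nat_lit 1064569495778) (nat_lit 0) (nat_lit 233272752965) (nat_lit 2) (nat_lit 5) (nat_lit 4) (nat_lit 4) (nat_lit 2) (nat_lit 4) (nat_lit 272) (nat_lit 235) (nat_lit 153)) (XT.lf (nat_lit 0) (nat_lit 511337873174) (nat_lit 152) (nat_lit 970596605575) (nat_lit 0) (nat_lit 398335183621) (nat_lit 2) (nat_lit 5) (nat_lit 4) (nat_lit 4) (nat_lit 2) (nat_lit 4) (nat_lit 273) (nat_lit 235) (nat_lit 152)))) (XT.nd (nat_lit 78) (nat_lit 0) (nat_lit 0) (XT.lf (nat_lit 0) (nat_lit 701159512800) (nat_lit 152) (nat_lit 862528433697) (nat_lit 0) (nat_lit 588156688175) (nat_lit 2) (nat_lit 5) (nat_lit 4) (nat_lit 4) (nat_lit 2) (nat_lit 4) (nat_lit 274) (nat_lit 235)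 (nat_lit 151)) (XT.nd (nat_lit 78) (nat_lit 0) (nat_lit 0) (XT.lf (nat_lit 0) (nat_lit 919454107709) (nat_lit 152) (nat_lit 738250602870) (nat_lit 0) (nat_lit 806451165630) (nat_lit 2) (nat_lit 5) (nat_lit 4) (nat_lit 4) (nat_lit 2) (nat_lit 4) (nat_lit 275) (nat_lit 235) (nat_lit 150)) (XT.lf (nat_lit 0) (nat_lit 1170492639104) (nat_lit 152) (nat_lit 595331590315) (nat_lit 0) (nat_lit 1057489594892) (nat_lit 2) (nat_lit 5) (nat_lit 4) (nat_lit 4) (nat_lit 2) (nat_lit 4) (nat_lit 276) (nat_lit 235) (nat_lit 149))))) (XT.nd (nat_lit 234) (nat_lit 76) (nat_lit 0) (XT.nd (nat_lit 78) (nat_lit 0) (nat_lit 0) (XT.lf (nat_lit 0) (nat_lit 1459186730427) (nat_lit 152) (nat_lit 430975154482) (nat_lit 0) (nat_lit 1346183597402) (nat_lit 2) (nat_lit 5) (nat_lit 4) (nat_lit 4) (nat_lit 2) (nat_lit 4) (nat_lit 277) (nat_lit 235) (nat_lit 148)) (XT.nd (nat_lit 78) (nat_lit 0) (nat_lit 0) (XT.lf (nat_lit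 0) (nat_lit 1791184744333) (nat_lit 152) (nat_lit 241965625976) (nat_lit 0) (nat_lit 1678181534080) (nat_lit 2) (nat_lit 5) (nat_lit 4) (nat_lit 4) (nat_lit 2) (nat_lit 4) (nat_lit 278) (nat_lit 235) (nat_lit 147)) (XT.lf (nat_lit 0) (nat_lit 2172982294138) (nat_lit 152) (nat_lit 24604992281) (nat_lit 0) (nat_lit 2059979016731) (nat_lit 2) (nat_lit 5) (nat_lit 4) (nat_lit 4) (nat_lit 2) (nat_lit 4) (nat_lit 279) (nat_lit 235) (nat_lit 146)))) (XT.nd (nat_lit 156) (nat_lit 0) (nat_lit 0) (XT.nd (nat_lit 78) (nat_lit 0) (nat_lit 0) (XT.lf (nat_lit 0) (nat_lit 237226484162) (nat_lit 76) (nat_lit 2380528150391) (nat_lit 76) (nat_lit 2267524814588) (nat_lit 1) (nat_lit 4) (nat_lit 2) (nat_lit 5) (nat_lit 2) (nat_lit 4) (nat_lit 280) (nat_lit 235) (nat_lit 145)) (XT.lf (nat_lit 0) (nat_lit 539822427695) (nat_lit 76) (nat_lit 2590136614346) (nat_lit 76) (nat_lit 2477133227765) (nat_lit 1) (nat_lit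 4) (nat_lit 2) (nat_lit 5) (nat_lit 2) (nat_lit 4) (nat_lit 281) (nat_lit 235) (nat_lit 144))) (XT.nd (nat_lit 78) (nat_lit 0) (nat_lit 0) (XT.lf (nat_lit 0) (nat_lit 887807538444) (nat_lit 76) (nat_lit 2831186457544) (nat_lit 76) (nat_lit 2718183026808) (nat_lit 1) (nat_lit 4) (nat_lit 2) (nat_lit 5) (nat_lit 2) (nat_lit 4) (nat_lit 282) (nat_lit 235) (nat_lit 143)) (XT.lf (nat_lit 0) (nat_lit 1287990220750) (nat_lit 76) (nat_lit 3108393872568) (nat_lit 76) (nat_lit 2995390403436) (nat_lit 1) (nat_lit 4) (nat_lit 2) (nat_lit 5) (nat_lit 2) (nat_lit 4) (nat_lit 283) (nat_lit 235) (nat_lit 142))))))) (XT.nd (nat_lit 31356) (nat_lit 0) (nat_lit 760) (XT.nd (nat_lit 30888) (nat_lit 0) (nat_lit 2356) (XT.nd (nat_lit 30654) (nat_lit 0) (nat_lit 3344) (XT.nd (nat_lit 78) (nat_lit 0) (nat_lit 0) (XT.lf (nat_lit 0) (nat_lit 1748200135788) (nat_lit 76) (nat_lit 3427182482756) (nat_lit 76) (nat_lit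 3314178980235) (nat_lit 1) (nat_lit 4) (nat_lit 2) (nat_lit 5) (nat_lit 2) (nat_lit 4) (nat_lit 284) (nat_lit 235) (nat_lit 141)) (XT.nd (nat_lit 78) (nat_lit 0) (nat_lit 0) (XT.lf (nat_lit 0) (nat_lit 2277441390592) (nat_lit 76) (nat_lit 3793789456567) (nat_lit 76) (nat_lit 3680785925014) (nat_lit 1) (nat_lit 4) (nat_lit 2) (nat_lit 5) (nat_lit 2) (nat_lit 4) (nat_lit 285) (nat_lit 235) (nat_lit 140)) (XT.lf (nat_lit 0) (nat_lit 2886068705364) (nat_lit 76) (nat_lit 4215387539142) (nat_lit 76) (nat_lit 4102383982344) (nat_lit 1) (nat_lit 4) (nat_lit 2) (nat_lit 5) (nat_lit 2) (nat_lit 4) (nat_lit 286) (nat_lit 235) (nat_lit 139)))) (XT.nd (nat_lit 78) (nat_lit 0) (nat_lit 76) (XT.lf (nat_lit 0) (nat_lit 12128292875) (nat_lit 532) (nat_lit 3496405982) (nat_lit 532) (nat_lit 3496405982) (nat_lit 45) (nat_lit 3) (nat_lit 52) (nat_lit 3) (nat_lit 52) (nat_lit 5) (nat_lit 236) (nat_lit 236)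 (nat_lit 188)) (XT.nd (nat_lit 78) (nat_lit 0) (nat_lit 0) (XT.lf (nat_lit 0) (nat_lit 26817128807) (nat_lit 456) (nat_lit 13784633376) (nat_lit 532) (nat_lit 449096699) (nat_lit 46) (nat_lit 5) (nat_lit 52) (nat_lit 5) (nat_lit 53) (nat_lit 5) (nat_lit 237) (nat_lit 236) (nat_lit 187)) (XT.lf (nat_lit 76) (nat_lit 23100323679) (nat_lit 0) (nat_lit 8276955567) (nat_lit 532) (nat_lit 12774322001) (nat_lit 47) (nat_lit 5) (nat_lit 46) (nat_lit 5) (nat_lit 53) (nat_lit 5) (nat_lit 238) (nat_lit 236) (nat_lit 186))))) (XT.nd (nat_lit 234) (nat_lit 456) (nat_lit 0) (XT.nd (nat_lit 78) (nat_lit 684) (nat_lit 0) (XT.lf (nat_lit 76) (nat_lit 18898359106) (nat_lit 0) (nat_lit 19272733169) (nat_lit 532) (nat_lit 9422424403) (nat_lit 48) (nat_lit 5) (nat_lit 47) (nat_lit 5) (nat_lit 54) (nat_lit 5) (nat_lit 239) (nat_lit 236) (nat_lit 185)) (XT.nd (nat_lit 78) (nat_lit 304) (nat_lit 0) (XT.lf (nat_lit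 0) (nat_lit 14655092764) (nat_lit 456) (nat_lit 32965386048) (nat_lit 532) (nat_lit 3800349111) (nat_lit 42) (nat_lit 5) (nat_lit 48) (nat_lit 5) (nat_lit 49) (nat_lit 5) (nat_lit 240) (nat_lit 236) (nat_lit 184)) (XT.lf (nat_lit 0) (nat_lit 4311798437) (nat_lit 304) (nat_lit 45454518848) (nat_lit 76) (nat_lit 5908407922) (nat_lit 38) (nat_lit 5) (nat_lit 42) (nat_lit 5) (nat_lit 39) (nat_lit 5) (nat_lit 241) (nat_lit 236) (nat_lit 183)))) (XT.nd (nat_lit 78) (nat_lit 228) (nat_lit 0) (XT.lf (nat_lit 0) (nat_lit 5206314148) (nat_lit 228) (nat_lit 10342657125) (nat_lit 304) (nat_lit 44839200924) (nat_lit 35) (nat_lit 5) (nat_lit 38) (nat_lit 5) (nat_lit 39) (nat_lit 5) (nat_lit 242) (nat_lit 236) (nat_lit 182)) (XT.nd (nat_lit 78) (nat_lit 228) (nat_lit 0) (XT.lf (nat_lit 0) (nat_lit 30663624354) (nat_lit 304) (nat_lit 368606113) (nat_lit 76) (nat_lit 34601070847) (nat_lit 35) (nat_lit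 5) (nat_lit 39) (nat_lit 5) (nat_lit 36) (nat_lit 5) (nat_lit 243) (nat_lit 236) (nat_lit 181)) (XT.lf (nat_lit 0) (nat_lit 50282983293) (nat_lit 304) (nat_lit 6237928686) (nat_lit 76) (nat_lit 14965302340) (nat_lit 32) (nat_lit 5) (nat_lit 36) (nat_lit 5) (nat_lit 33) (nat_lit 5) (nat_lit 244) (nat_lit 236) (nat_lit 180)))))) (XT.nd (nat_lit 468) (nat_lit 608) (nat_lit 0) (XT.nd (nat_lit 234) (nat_lit 456) (nat_lit 0) (XT.nd (nat_lit 78) (nat_lit 380) (nat_lit 0) (XT.lf (nat_lit 0) (nat_lit 64894163332) (nat_lit 152) (nat_lit 10375248500) (nat_lit 228) (nat_lit 2753732360) (nat_lit 30) (nat_lit 5) (nat_lit 32) (nat_lit 5) (nat_lit 33) (nat_lit 5) (nat_lit 245) (nat_lit 236) (nat_lit 179)) (XT.nd (nat_lit 78) (nat_lit 152) (nat_lit 0) (XT.lf (nat_lit 0) (nat_lit 20350426748) (nat_lit 228) (nat_lit 22141227673) (nat_lit 76) (nat_lit 42788579378) (nat_lit 27) (nat_lit 5) (nat_lit 30) (nat_lit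 5) (nat_lit 28) (nat_lit 5) (nat_lit 246) (nat_lit 236) (nat_lit 178)) (XT.lf (nat_lit 0) (nat_lit 49179947165) (nat_lit 228) (nat_lit 33029316551) (nat_lit 76) (nat_lit 11217087186) (nat_lit 25) (nat_lit 5) (nat_lit 28) (nat_lit 5) (nat_lit 26) (nat_lit 5) (nat_lit 247) (nat_lit 236) (nat_lit 177)))) (XT.nd (nat_lit 78) (nat_lit 304) (nat_lit 0) (XT.lf (nat_lit 0) (nat_lit 55491427594) (nat_lit 152) (nat_lit 30009186361) (nat_lit 228) (nat_lit 17040442171) (nat_lit 23) (nat_lit 5) (nat_lit 25) (nat_lit 5) (nat_lit 26) (nat_lit 5) (nat_lit 248) (nat_lit 236) (nat_lit 176)) (XT.nd (nat_lit 78) (nat_lit 152) (nat_lit 0) (XT.lf (nat_lit 0) (nat_lit 16466754876) (nat_lit 152) (nat_lit 65219254586) (nat_lit 76) (nat_lit 31074913639) (nat_lit 21) (nat_lit 5) (nat_lit 23) (nat_lit 5) (nat_lit 22) (nat_lit 5) (nat_lit 249) (nat_lit 236) (nat_lit 175)) (XT.lf (nat_lit 0) (nat_lit 35183899208)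 (nat_lit 152) (nat_lit 21913614138) (nat_lit 228) (nat_lit 67132336386) (nat_lit 19) (nat_lit 5) (nat_lit 21) (nat_lit 5) (nat_lit 22) (nat_lit 5) (nat_lit 250) (nat_lit 236) (nat_lit 174))))) (XT.nd (nat_lit 234) (nat_lit 304) (nat_lit 0) (XT.nd (nat_lit 78) (nat_lit 228) (nat_lit 0) (XT.lf (nat_lit 0) (nat_lit 16999034268) (nat_lit 76) (nat_lit 90303475954) (nat_lit 152) (nat_lit 29838240049) (nat_lit 18) (nat_lit 5) (nat_lit 19) (nat_lit 5) (nat_lit 20) (nat_lit 4) (nat_lit 251) (nat_lit 236) (nat_lit 173)) (XT.nd (nat_lit 78) (nat_lit 152) (nat_lit 0) (XT.lf (nat_lit 0) (nat_lit 15659844349) (nat_lit 152) (nat_lit 8430394328) (nat_lit 76) (nat_lit 127611928096) (nat_lit 17) (nat_lit 5) (nat_lit 19) (nat_lit 5) (nat_lit 18) (nat_lit 5) (nat_lit 252) (nat_lit 236) (nat_lit 172)) (XT.lf (nat_lit 0) (nat_lit 70632948719) (nat_lit 228) (nat_lit 44007290076) (nat_lit 76) (nat_lit 53392193711)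 (nat_lit 15) (nat_lit 5) (nat_lit 18) (nat_lit 5) (nat_lit 16) (nat_lit 4) (nat_lit 253) (nat_lit 236) (nat_lit 171)))) (XT.nd (nat_lit 156) (nat_lit 76) (nat_lit 0) (XT.nd (nat_lit 78) (nat_lit 152) (nat_lit 0) (XT.lf (nat_lit 0) (nat_lit 94096955726) (nat_lit 76) (nat_lit 42933622950) (nat_lit 152) (nat_lit 49527377599) (nat_lit 14) (nat_lit 5) (nat_lit 15) (nat_lit 5) (nat_lit 16) (nat_lit 4) (nat_lit 254) (nat_lit 236) (nat_lit 170)) (XT.lf (nat_lit 0) (nat_lit 8787173895) (nat_lit 152) (nat_lit 158508885721) (nat_lit 76) (nat_lit 40272577072) (nat_lit 12) (nat_lit 5) (nat_lit 14) (nat_lit 5) (nat_lit 13) (nat_lit 4) (nat_lit 255) (nat_lit 236) (nat_lit 169))) (XT.nd (nat_lit 78) (nat_lit 76) (nat_lit 0) (XT.lf (nat_lit 0) (nat_lit 76946761164) (nat_lit 152) (nat_lit 16738921734) (nat_lit 76) (nat_lit 137619890194) (nat_lit 12) (nat_lit 5) (nat_lit 14) (nat_lit 5) (nat_lit 13) (nat_lit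 4) (nat_lit 256) (nat_lit 236) (nat_lit 168)) (XT.lf (nat_lit 0) (nat_lit 153996623781) (nat_lit 76) (nat_lit 5035360993) (nat_lit 152) (nat_lit 99274931134) (nat_lit 11) (nat_lit 5) (nat_lit 12) (nat_lit 5) (nat_lit 13) (nat_lit 4) (nat_lit 257) (nat_lit 236) (nat_lit 167))))))))
noncomputable def xc43 : XT := (XT.nd (nat_lit 1950) (nat_lit 0) (nat_lit 0) (XT.nd (nat_lit 936) (nat_lit 228) (nat_lit 0) (XT.nd (nat_lit 468) (nat_lit 152) (nat_lit 0) (XT.nd (nat_lit 234) (nat_lit 152) (nat_lit 0) (XT.nd (nat_lit 78) (nat_lit 152) (nat_lit 0) (XT.lf (nat_lit 0) (nat_lit 62833186596) (nat_lit 76) (nat_lit 194936903920) (nat_lit 76) (nat_lit 31241163318) (nat_lit 10) (nat_lit 4) (nat_lit 11) (nat_lit 5) (nat_lit 11) (nat_lit 4) (nat_lit 258) (nat_lit 236) (nat_lit 166)) (XT.nd (nat_lit 78) (nat_lit 76) (nat_lit 0) (XT.lf (nat_lit 0) (nat_lit 47900017778) (nat_lit 152) (nat_lit 64064907568)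 (nat_lit 76) (nat_lit 212005625812) (nat_lit 9) (nat_lit 5) (nat_lit 11) (nat_lit 5) (nat_lit 10) (nat_lit 4) (nat_lit 259) (nat_lit 236) (nat_lit 165)) (XT.lf (nat_lit 0) (nat_lit 127896393123) (nat_lit 76) (nat_lit 12293214846) (nat_lit 152) (nat_lit 223669054915) (nat_lit 8) (nat_lit 5) (nat_lit 9) (nat_lit 5) (nat_lit 10) (nat_lit 4) (nat_lit 260) (nat_lit 236) (nat_lit 164)))) (XT.nd (nat_lit 78) (nat_lit 152) (nat_lit 0) (XT.lf (nat_lit 0) (nat_lit 250695939177) (nat_lit 152) (nat_lit 59561307008) (nat_lit 0) (nat_lit 99122881945) (nat_lit 8) (nat_lit 5) (nat_lit 10) (nat_lit 4) (nat_lit 8) (nat_lit 4) (nat_lit 261) (nat_lit 236) (nat_lit 163)) (XT.nd (nat_lit 78) (nat_lit 76) (nat_lit 0) (XT.lf (nat_lit 0) (nat_lit 150485495974) (nat_lit 76) (nat_lit 231250733729) (nat_lit 76) (nat_lit 79676943522) (nat_lit 7) (nat_lit 4) (nat_lit 8) (nat_lit 5) (nat_lit 8) (nat_lit 4) (nat_lit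 262) (nat_lit 236) (nat_lit 162)) (XT.lf (nat_lit 0) (nat_lit 12400060117) (nat_lit 152) (nat_lit 125782302531) (nat_lit 76) (nat_lit 382905059313) (nat_lit 6) (nat_lit 5) (nat_lit 8) (nat_lit 5) (nat_lit 7) (nat_lit 4) (nat_lit 263) (nat_lit 236) (nat_lit 161))))) (XT.nd (nat_lit 234) (nat_lit 76) (nat_lit 0) (XT.nd (nat_lit 78) (nat_lit 0) (nat_lit 0) (XT.lf (nat_lit 0) (nat_lit 89401642993) (nat_lit 76) (nat_lit 26452503546) (nat_lit 152) (nat_lit 473510435859) (nat_lit 5) (nat_lit 5) (nat_lit 6) (nat_lit 5) (nat_lit 7) (nat_lit 4) (nat_lit 264) (nat_lit 236) (nat_lit 160)) (XT.nd (nat_lit 78) (nat_lit 0) (nat_lit 0) (XT.lf (nat_lit 0) (nat_lit 241036582146) (nat_lit 152) (nat_lit 325660985843) (nat_lit 0) (nat_lit 100688930522) (nat_lit 5) (nat_lit 5) (nat_lit 7) (nat_lit 4) (nat_lit 5) (nat_lit 4) (nat_lit 265) (nat_lit 236) (nat_lit 159)) (XT.lf (nat_lit 0) (nat_lit 385727223668)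 (nat_lit 152) (nat_lit 125946827562) (nat_lit 0) (nat_lit 245379184006) (nat_lit 5) (nat_lit 5) (nat_lit 7) (nat_lit 4) (nat_lit 5) (nat_lit 4) (nat_lit 266) (nat_lit 236) (nat_lit 158)))) (XT.nd (nat_lit 78) (nat_lit 0) (nat_lit 0) (XT.lf (nat_lit 0) (nat_lit 109185048010) (nat_lit 76) (nat_lit 445561646634) (nat_lit 76) (nat_lit 305213269549) (nat_lit 4) (nat_lit 4) (nat_lit 5) (nat_lit 5) (nat_lit 5) (nat_lit 4) (nat_lit 267) (nat_lit 236) (nat_lit 157)) (XT.nd (nat_lit 78) (nat_lit 0) (nat_lit 0) (XT.lf (nat_lit 0) (nat_lit 387212486166) (nat_lit 76) (nat_lit 365572795754) (nat_lit 76) (nat_lit 225224125256) (nat_lit 4) (nat_lit 4) (nat_lit 5) (nat_lit 5) (nat_lit 5) (nat_lit 4) (nat_lit 268) (nat_lit 236) (nat_lit 156)) (XT.lf (nat_lit 0) (nat_lit 706943017432) (nat_lit 76) (nat_lit 273586108795) (nat_lit 76) (nat_lit 133237183156) (nat_lit 4) (nat_lit 4) (nat_lit 5) (nat_lit 5)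 (nat_lit 5) (nat_lit 4) (nat_lit 269) (nat_lit 236) (nat_lit 155)))))) (XT.nd (nat_lit 468) (nat_lit 76) (nat_lit 0) (XT.nd (nat_lit 234) (nat_lit 0) (nat_lit 0) (XT.nd (nat_lit 78) (nat_lit 152) (nat_lit 0) (XT.lf (nat_lit 0) (nat_lit 1074632239157) (nat_lit 76) (nat_lit 167801846229) (nat_lit 76) (nat_lit 27452698728) (nat_lit 4) (nat_lit 4) (nat_lit 5) (nat_lit 5) (nat_lit 5) (nat_lit 4) (nat_lit 270) (nat_lit 236) (nat_lit 154)) (XT.nd (nat_lit 78) (nat_lit 0) (nat_lit 0) (XT.lf (nat_lit 0) (nat_lit 48194082906) (nat_lit 76) (nat_lit 42451793695) (nat_lit 152) (nat_lit 1358505521188) (nat_lit 2) (nat_lit 5) (nat_lit 3) (nat_lit 5) (nat_lit 4) (nat_lit 4) (nat_lit 271) (nat_lit 236) (nat_lit 153)) (XT.lf (nat_lit 0) (nat_lit 233157748881) (nat_lit 152) (nat_lit 1318220488337) (nat_lit 0) (nat_lit 103204500562) (nat_lit 2) (nat_lit 5) (nat_lit 4) (nat_lit 4) (nat_lit 2) (nat_lit 4)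 (nat_lit 272) (nat_lit 236) (nat_lit 152)))) (XT.nd (nat_lit 78) (nat_lit 0) (nat_lit 0) (XT.lf (nat_lit 0) (nat_lit 398220179400) (nat_lit 152) (nat_lit 1224247901323) (nat_lit 0) (nat_lit 268266796009) (nat_lit 2) (nat_lit 5) (nat_lit 4) (nat_lit 4) (nat_lit 2) (nat_lit 4) (nat_lit 273) (nat_lit 236) (nat_lit 151)) (XT.nd (nat_lit 78) (nat_lit 0) (nat_lit 0) (XT.lf (nat_lit 0) (nat_lit 588041683835) (nat_lit 152) (nat_lit 1116179993088) (nat_lit 0) (nat_lit 458088182990) (nat_lit 2) (nat_lit 5) (nat_lit 4) (nat_lit 4) (nat_lit 2) (nat_lit 4) (nat_lit 274) (nat_lit 236) (nat_lit 150)) (XT.lf (nat_lit 0) (nat_lit 806336161185) (nat_lit 152) (nat_lit 991902391514) (nat_lit 0) (nat_lit 676382558207) (nat_lit 2) (nat_lit 5) (nat_lit 4) (nat_lit 4) (nat_lit 2) (nat_lit 4) (nat_lit 275) (nat_lit 236) (nat_lit 149))))) (XT.nd (nat_lit 234) (nat_lit 76) (nat_lit 0) (XT.nd (nat_lit 78) (nat_lit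 0) (nat_lit 0) (XT.lf (nat_lit 0) (nat_lit 1057374590357) (nat_lit 152) (nat_lit 848983578311) (nat_lit 0) (nat_lit 927420898566) (nat_lit 2) (nat_lit 5) (nat_lit 4) (nat_lit 4) (nat_lit 2) (nat_lit 4) (nat_lit 276) (nat_lit 236) (nat_lit 148)) (XT.nd (nat_lit 78) (nat_lit 0) (nat_lit 0) (XT.lf (nat_lit 0) (nat_lit 1346068592789) (nat_lit 152) (nat_lit 684627315828) (nat_lit 0) (nat_lit 1216114823770) (nat_lit 2) (nat_lit 5) (nat_lit 4) (nat_lit 4) (nat_lit 2) (nat_lit 4) (nat_lit 277) (nat_lit 236) (nat_lit 147)) (XT.lf (nat_lit 0) (nat_lit 1678066529398) (nat_lit 152) (nat_lit 495617938060) (nat_lit 0) (nat_lit 1548112693225) (nat_lit 2) (nat_lit 5) (nat_lit 4) (nat_lit 4) (nat_lit 2) (nat_lit 4) (nat_lit 278) (nat_lit 236) (nat_lit 146)))) (XT.nd (nat_lit 156) (nat_lit 76) (nat_lit 0) (XT.nd (nat_lit 78) (nat_lit 0) (nat_lit 0) (XT.lf (nat_lit 0) (nat_lit 2059864011989) (nat_lit 152)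 (nat_lit 278257435442) (nat_lit 0) (nat_lit 1929910117421) (nat_lit 2) (nat_lit 5) (nat_lit 4) (nat_lit 4) (nat_lit 2) (nat_lit 4) (nat_lit 279) (nat_lit 236) (nat_lit 145)) (XT.lf (nat_lit 0) (nat_lit 2498930991308) (nat_lit 152) (nat_lit 28293102489) (nat_lit 0) (nat_lit 2368977045961) (nat_lit 2) (nat_lit 5) (nat_lit 4) (nat_lit 4) (nat_lit 2) (nat_lit 4) (nat_lit 280) (nat_lit 236) (nat_lit 144))) (XT.nd (nat_lit 78) (nat_lit 0) (nat_lit 0) (XT.lf (nat_lit 0) (nat_lit 272812872074) (nat_lit 76) (nat_lit 2737606192314) (nat_lit 76) (nat_lit 2607652202812) (nat_lit 1) (nat_lit 4) (nat_lit 2) (nat_lit 5) (nat_lit 2) (nat_lit 4) (nat_lit 281) (nat_lit 236) (nat_lit 143)) (XT.lf (nat_lit 0) (nat_lit 620797892100) (nat_lit 76) (nat_lit 2978656079859) (nat_lit 76) (nat_lit 2848702051961) (nat_lit 1) (nat_lit 4) (nat_lit 2) (nat_lit 5) (nat_lit 2) (nat_lit 4) (nat_lit 282) (nat_lit 236) (nat_lit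 142))))))) (XT.nd (nat_lit 31512) (nat_lit 0) (nat_lit 760) (XT.nd (nat_lit 30966) (nat_lit 0) (nat_lit 2356) (XT.nd (nat_lit 234) (nat_lit 0) (nat_lit 0) (XT.nd (nat_lit 78) (nat_lit 0) (nat_lit 0) (XT.lf (nat_lit 0) (nat_lit 1020980495515) (nat_lit 76) (nat_lit 3255863533446) (nat_lit 76) (nat_lit 3125909472160) (nat_lit 1) (nat_lit 4) (nat_lit 2) (nat_lit 5) (nat_lit 2) (nat_lit 4) (nat_lit 283) (nat_lit 236) (nat_lit 141)) (XT.nd (nat_lit 78) (nat_lit 0) (nat_lit 0) (XT.lf (nat_lit 0) (nat_lit 1481190341954) (nat_lit 76) (nat_lit 3574652177166) (nat_lit 76) (nat_lit 3444698086847) (nat_lit 1) (nat_lit 4) (nat_lit 2) (nat_lit 5) (nat_lit 2) (nat_lit 4) (nat_lit 284) (nat_lit 236) (nat_lit 140)) (XT.lf (nat_lit 0) (nat_lit 2010431537105) (nat_lit 76) (nat_lit 3941259180137) (nat_lit 76) (nat_lit 3811305064572) (nat_lit 1) (nat_lit 4) (nat_lit 2) (nat_lit 5) (nat_lit 2) (nat_lit 4) (nat_lit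 285) (nat_lit 236) (nat_lit 139)))) (XT.nd (nat_lit 30576) (nat_lit 0) (nat_lit 3344) (XT.lf (nat_lit 0) (nat_lit 2619058800006) (nat_lit 76) (nat_lit 4362857288068) (nat_lit 76) (nat_lit 4232903150550) (nat_lit 1) (nat_lit 4) (nat_lit 2) (nat_lit 5) (nat_lit 2) (nat_lit 4) (nat_lit 286) (nat_lit 236) (nat_lit 138)) (XT.nd (nat_lit 78) (nat_lit 0) (nat_lit 76) (XT.lf (nat_lit 0) (nat_lit 14018358453) (nat_lit 532) (nat_lit 3982521295) (nat_lit 532) (nat_lit 3982521295) (nat_lit 45) (nat_lit 3) (nat_lit 52) (nat_lit 3) (nat_lit 52) (nat_lit 5) (nat_lit 237) (nat_lit 237) (nat_lit 186)) (XT.lf (nat_lit 0) (nat_lit 30963240018) (nat_lit 456) (nat_lit 15770471318) (nat_lit 532) (nat_lit 464538613) (nat_lit 46) (nat_lit 5) (nat_lit 52) (nat_lit 5) (nat_lit 53) (nat_lit 5) (nat_lit 238) (nat_lit 237) (nat_lit 185))))) (XT.nd (nat_lit 234) (nat_lit 760) (nat_lit 0) (XT.nd (nat_lit 78) (nat_lit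 304) (nat_lit 0) (XT.lf (nat_lit 76) (nat_lit 26640300502) (nat_lit 0) (nat_lit 9552800387) (nat_lit 532) (nat_lit 14572193977) (nat_lit 47) (nat_lit 5) (nat_lit 46) (nat_lit 5) (nat_lit 53) (nat_lit 5) (nat_lit 239) (nat_lit 237) (nat_lit 184)) (XT.nd (nat_lit 78) (nat_lit 380) (nat_lit 0) (XT.lf (nat_lit 76) (nat_lit 21810734882) (nat_lit 0) (nat_lit 22182153091) (nat_lit 532) (nat_lit 10731697670) (nat_lit 48) (nat_lit 5) (nat_lit 47) (nat_lit 5) (nat_lit 54) (nat_lit 5) (nat_lit 240) (nat_lit 237) (nat_lit 183)) (XT.lf (nat_lit 0) (nat_lit 16932100651) (nat_lit 456) (nat_lit 37916549597) (nat_lit 532) (nat_lit 4278260862) (nat_lit 42) (nat_lit 5) (nat_lit 48) (nat_lit 5) (nat_lit 49) (nat_lit 5) (nat_lit 241) (nat_lit 237) (nat_lit 182)))) (XT.nd (nat_lit 156) (nat_lit 228) (nat_lit 0) (XT.nd (nat_lit 78) (nat_lit 228) (nat_lit 0) (XT.lf (nat_lit 0) (nat_lit 5036487070) (nat_lit 304)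 (nat_lit 52189742359) (nat_lit 76) (nat_lit 6793283423) (nat_lit 38) (nat_lit 5) (nat_lit 42) (nat_lit 5) (nat_lit 39) (nat_lit 5) (nat_lit 242) (nat_lit 237) (nat_lit 181)) (XT.lf (nat_lit 0) (nat_lit 6063193916) (nat_lit 228) (nat_lit 11887704766) (nat_lit 304) (nat_lit 51489769652) (nat_lit 35) (nat_lit 5) (nat_lit 38) (nat_lit 5) (nat_lit 39) (nat_lit 5) (nat_lit 243) (nat_lit 237) (nat_lit 180))) (XT.nd (nat_lit 78) (nat_lit 228) (nat_lit 0) (XT.lf (nat_lit 0) (nat_lit 35323806666) (nat_lit 304) (nat_lit 353019119) (nat_lit 76) (nat_lit 39796477760) (nat_lit 35) (nat_lit 5) (nat_lit 39) (nat_lit 5) (nat_lit 36) (nat_lit 5) (nat_lit 244) (nat_lit 237) (nat_lit 179)) (XT.lf (nat_lit 0) (nat_lit 57879975047) (nat_lit 304) (nat_lit 7104527666) (nat_lit 76) (nat_lit 17220156846) (nat_lit 32) (nat_lit 5) (nat_lit 36) (nat_lit 5) (nat_lit 33) (nat_lit 5) (nat_lit 245) (nat_lit 237) (nat_lit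 178)))))) (XT.nd (nat_lit 468) (nat_lit 608) (nat_lit 0) (XT.nd (nat_lit 234) (nat_lit 456) (nat_lit 0) (XT.nd (nat_lit 78) (nat_lit 380) (nat_lit 0) (XT.lf (nat_lit 0) (nat_lit 74691530003) (nat_lit 152) (nat_lit 11917244371) (nat_lit 228) (nat_lit 3113818109) (nat_lit 30) (nat_lit 5) (nat_lit 32) (nat_lit 5) (nat_lit 33) (nat_lit 5) (nat_lit 246) (nat_lit 237) (nat_lit 177)) (XT.nd (nat_lit 78) (nat_lit 152) (nat_lit 0) (XT.lf (nat_lit 0) (nat_lit 23448569013) (nat_lit 228) (nat_lit 25398668176) (nat_lit 76) (nat_lit 49221299046) (nat_lit 27) (nat_lit 5) (nat_lit 30) (nat_lit 5) (nat_lit 28) (nat_lit 5) (nat_lit 247) (nat_lit 237) (nat_lit 176)) (XT.lf (nat_lit 0) (nat_lit 56598392118) (nat_lit 228) (nat_lit 37922424280) (nat_lit 76) (nat_lit 12916095801) (nat_lit 25) (nat_lit 5) (nat_lit 28) (nat_lit 5) (nat_lit 26) (nat_lit 5) (nat_lit 248) (nat_lit 237) (nat_lit 175)))) (XT.nd (nat_lit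 78) (nat_lit 304) (nat_lit 0) (XT.lf (nat_lit 0) (nat_lit 63871243615) (nat_lit 152) (nat_lit 34491857666) (nat_lit 228) (nat_lit 19556056334) (nat_lit 23) (nat_lit 5) (nat_lit 25) (nat_lit 5) (nat_lit 26) (nat_lit 5) (nat_lit 249) (nat_lit 237) (nat_lit 174)) (XT.nd (nat_lit 78) (nat_lit 152) (nat_lit 0) (XT.lf (nat_lit 0) (nat_lit 18971911646) (nat_lit 152) (nat_lit 74946500094) (nat_lit 76) (nat_lit 35753785758) (nat_lit 21) (nat_lit 5) (nat_lit 23) (nat_lit 5) (nat_lit 22) (nat_lit 5) (nat_lit 250) (nat_lit 237) (nat_lit 173)) (XT.lf (nat_lit 0) (nat_lit 40512416894) (nat_lit 152) (nat_lit 25181507988) (nat_lit 228) (nat_lit 77167813821) (nat_lit 19) (nat_lit 5) (nat_lit 21) (nat_lit 5) (nat_lit 22) (nat_lit 5) (nat_lit 251) (nat_lit 237) (nat_lit 172))))) (XT.nd (nat_lit 234) (nat_lit 304) (nat_lit 0) (XT.nd (nat_lit 78) (nat_lit 228) (nat_lit 0) (XT.lf (nat_lit 0) (nat_lit 19597458855)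 (nat_lit 76) (nat_lit 103829635171) (nat_lit 152) (nat_lit 34282392442) (nat_lit 18) (nat_lit 5) (nat_lit 19) (nat_lit 5) (nat_lit 20) (nat_lit 4) (nat_lit 252) (nat_lit 237) (nat_lit 171)) (XT.nd (nat_lit 78) (nat_lit 152) (nat_lit 0) (XT.lf (nat_lit 0) (nat_lit 18034911153) (nat_lit 152) (nat_lit 9651313299) (nat_lit 76) (nat_lit 146769148110) (nat_lit 17) (nat_lit 5) (nat_lit 19) (nat_lit 5) (nat_lit 18) (nat_lit 5) (nat_lit 253) (nat_lit 237) (nat_lit 170)) (XT.lf (nat_lit 0) (nat_lit 81251930801) (nat_lit 228) (nat_lit 50566909649) (nat_lit 76) (nat_lit 61416505910) (nat_lit 15) (nat_lit 5) (nat_lit 18) (nat_lit 5) (nat_lit 16) (nat_lit 4) (nat_lit 254) (nat_lit 237) (nat_lit 169)))) (XT.nd (nat_lit 156) (nat_lit 76) (nat_lit 0) (XT.nd (nat_lit 78) (nat_lit 152) (nat_lit 0) (XT.lf (nat_lit 0) (nat_lit 108249462461) (nat_lit 76) (nat_lit 49357520189) (nat_lit 152) (nat_lit 56932897485)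 (nat_lit 14) (nat_lit 5) (nat_lit 15) (nat_lit 5) (nat_lit 16) (nat_lit 4) (nat_lit 255) (nat_lit 237) (nat_lit 168)) (XT.lf (nat_lit 0) (nat_lit 10125969275) (nat_lit 152) (nat_lit 182248093734) (nat_lit 76) (nat_lit 46328192147) (nat_lit 12) (nat_lit 5) (nat_lit 14) (nat_lit 5) (nat_lit 13) (nat_lit 4) (nat_lit 256) (nat_lit 237) (nat_lit 167))) (XT.nd (nat_lit 78) (nat_lit 76) (nat_lit 0) (XT.lf (nat_lit 0) (nat_lit 88506792118) (nat_lit 152) (nat_lit 19217477520) (nat_lit 76) (nat_lit 158275681128) (nat_lit 12) (nat_lit 5) (nat_lit 14) (nat_lit 5) (nat_lit 13) (nat_lit 4) (nat_lit 257) (nat_lit 237) (nat_lit 166)) (XT.lf (nat_lit 0) (nat_lit 177125667272) (nat_lit 76) (nat_lit 5777492660) (nat_lit 152) (nat_lit 114148468431) (nat_lit 11) (nat_lit 5) (nat_lit 12) (nat_lit 5) (nat_lit 13) (nat_lit 4) (nat_lit 258) (nat_lit 237) (nat_lit 165))))))))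
noncomputable def xc44 : XT := (XT.nd (nat_lit 1950) (nat_lit 0) (nat_lit 0) (XT.nd (nat_lit 936) (nat_lit 228) (nat_lit 0) (XT.nd (nat_lit 468) (nat_lit 152) (nat_lit 0) (XT.nd (nat_lit 234) (nat_lit 152) (nat_lit 0) (XT.nd (nat_lit 78) (nat_lit 152) (nat_lit 0) (XT.lf (nat_lit 0) (nat_lit 72286136056) (nat_lit 76) (nat_lit 224164657482) (nat_lit 76) (nat_lit 35910920400) (nat_lit 10) (nat_lit 4) (nat_lit 11) (nat_lit 5) (nat_lit 11) (nat_lit 4) (nat_lit 259) (nat_lit 237) (nat_lit 164)) (XT.nd (nat_lit 78) (nat_lit 76) (nat_lit 0) (XT.lf (nat_lit 0) (nat_lit 55098582314) (nat_lit 152) (nat_lit 73649596223) (nat_lit 76) (nat_lit 243816860027) (nat_lit 9) (nat_lit 5) (nat_lit 11) (nat_lit 5) (nat_lit 10) (nat_lit 4) (nat_lit 260) (nat_lit 237) (nat_lit 163)) (XT.lf (nat_lit 0) (nat_lit 147103779428) (nat_lit 76) (nat_lit 14126614070) (nat_lit 152) (nat_lit 257206072300) (nat_lit 8) (nat_lit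 5) (nat_lit 9) (nat_lit 5) (nat_lit 10) (nat_lit 4) (nat_lit 261) (nat_lit 237) (nat_lit 162)))) (XT.nd (nat_lit 78) (nat_lit 152) (nat_lit 0) (XT.lf (nat_lit 0) (nat_lit 288311285579) (nat_lit 152) (nat_lit 68474921030) (nat_lit 0) (nat_lit 114000056497) (nat_lit 8) (nat_lit 5) (nat_lit 10) (nat_lit 4) (nat_lit 8) (nat_lit 4) (nat_lit 262) (nat_lit 237) (nat_lit 161)) (XT.nd (nat_lit 78) (nat_lit 76) (nat_lit 0) (XT.lf (nat_lit 0) (nat_lit 173077160234) (nat_lit 76) (nat_lit 265929483568) (nat_lit 76) (nat_lit 91617700251) (nat_lit 7) (nat_lit 4) (nat_lit 8) (nat_lit 5) (nat_lit 8) (nat_lit 4) (nat_lit 263) (nat_lit 237) (nat_lit 160)) (XT.lf (nat_lit 0) (nat_lit 14268978091) (nat_lit 152) (nat_lit 144632790829) (nat_lit 76) (nat_lit 440348048157) (nat_lit 6) (nat_lit 5) (nat_lit 8) (nat_lit 5) (nat_lit 7) (nat_lit 4) (nat_lit 264) (nat_lit 237) (nat_lit 159))))) (XT.nd (nat_lit 234)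 (nat_lit 76) (nat_lit 0) (XT.nd (nat_lit 78) (nat_lit 0) (nat_lit 0) (XT.lf (nat_lit 0) (nat_lit 102827319656) (nat_lit 76) (nat_lit 30413066880) (nat_lit 152) (nat_lit 544528229031) (nat_lit 5) (nat_lit 5) (nat_lit 6) (nat_lit 5) (nat_lit 7) (nat_lit 4) (nat_lit 265) (nat_lit 237) (nat_lit 158)) (XT.nd (nat_lit 78) (nat_lit 0) (nat_lit 0) (XT.lf (nat_lit 0) (nat_lit 277199281532) (nat_lit 152) (nat_lit 374496300200) (nat_lit 0) (nat_lit 115798310459) (nat_lit 5) (nat_lit 5) (nat_lit 7) (nat_lit 4) (nat_lit 5) (nat_lit 4) (nat_lit 266) (nat_lit 237) (nat_lit 157)) (XT.lf (nat_lit 0) (nat_lit 443592578578) (nat_lit 152) (nat_lit 144826822549) (nat_lit 0) (nat_lit 282191314093) (nat_lit 5) (nat_lit 5) (nat_lit 7) (nat_lit 4) (nat_lit 5) (nat_lit 4) (nat_lit 267) (nat_lit 237) (nat_lit 156)))) (XT.nd (nat_lit 78) (nat_lit 0) (nat_lit 0) (XT.lf (nat_lit 0) (nat_lit 125573816151) (nat_lit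 76) (nat_lit 512390600860) (nat_lit 76) (nat_lit 350989081234) (nat_lit 4) (nat_lit 4) (nat_lit 5) (nat_lit 5) (nat_lit 5) (nat_lit 4) (nat_lit 268) (nat_lit 237) (nat_lit 155)) (XT.nd (nat_lit 78) (nat_lit 0) (nat_lit 0) (XT.lf (nat_lit 0) (nat_lit 445303933822) (nat_lit 76) (nat_lit 420404112709) (nat_lit 76) (nat_lit 259002371221) (nat_lit 4) (nat_lit 4) (nat_lit 5) (nat_lit 5) (nat_lit 5) (nat_lit 4) (nat_lit 269) (nat_lit 237) (nat_lit 154)) (XT.lf (nat_lit 0) (nat_lit 812992795899) (nat_lit 76) (nat_lit 314620023020) (nat_lit 76) (nat_lit 153218088609) (nat_lit 4) (nat_lit 4) (nat_lit 5) (nat_lit 5) (nat_lit 5) (nat_lit 4) (nat_lit 270) (nat_lit 237) (nat_lit 153)))))) (XT.nd (nat_lit 468) (nat_lit 76) (nat_lit 0) (XT.nd (nat_lit 234) (nat_lit 0) (nat_lit 0) (XT.nd (nat_lit 78) (nat_lit 152) (nat_lit 0) (XT.lf (nat_lit 0) (nat_lit 1235834314902) (nat_lit 76) (nat_lit 192968643082)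 (nat_lit 76) (nat_lit 31566540911) (nat_lit 4) (nat_lit 4) (nat_lit 5) (nat_lit 5) (nat_lit 5) (nat_lit 4) (nat_lit 271) (nat_lit 237) (nat_lit 152)) (XT.nd (nat_lit 78) (nat_lit 0) (nat_lit 0) (XT.lf (nat_lit 0) (nat_lit 55430010162) (nat_lit 76) (nat_lit 48816267823) (nat_lit 152) (nat_lit 1562277546227) (nat_lit 2) (nat_lit 5) (nat_lit 3) (nat_lit 5) (nat_lit 4) (nat_lit 4) (nat_lit 272) (nat_lit 237) (nat_lit 151)) (XT.lf (nat_lit 0) (nat_lit 268134540898) (nat_lit 152) (nat_lit 1515947458264) (nat_lit 0) (nat_lit 118687897473) (nat_lit 2) (nat_lit 5) (nat_lit 4) (nat_lit 4) (nat_lit 2) (nat_lit 4) (nat_lit 273) (nat_lit 237) (nat_lit 150)))) (XT.nd (nat_lit 78) (nat_lit 0) (nat_lit 0) (XT.lf (nat_lit 0) (nat_lit 457955927775) (nat_lit 152) (nat_lit 1407879779284) (nat_lit 0) (nat_lit 308509182216) (nat_lit 2) (nat_lit 5) (nat_lit 4) (nat_lit 4) (nat_lit 2) (nat_lit 4) (nat_lit 274)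 (nat_lit 237) (nat_lit 149)) (XT.nd (nat_lit 78) (nat_lit 0) (nat_lit 0) (XT.lf (nat_lit 0) (nat_lit 676250302901) (nat_lit 152) (nat_lit 1283602377062) (nat_lit 0) (nat_lit 526803468530) (nat_lit 2) (nat_lit 5) (nat_lit 4) (nat_lit 4) (nat_lit 2) (nat_lit 4) (nat_lit 275) (nat_lit 237) (nat_lit 148)) (XT.lf (nat_lit 0) (nat_lit 927288643182) (nat_lit 152) (nat_lit 1140683737208) (nat_lit 0) (nat_lit 777841731583) (nat_lit 2) (nat_lit 5) (nat_lit 4) (nat_lit 4) (nat_lit 2) (nat_lit 4) (nat_lit 276) (nat_lit 237) (nat_lit 147))))) (XT.nd (nat_lit 234) (nat_lit 76) (nat_lit 0) (XT.nd (nat_lit 78) (nat_lit 0) (nat_lit 0) (XT.lf (nat_lit 0) (nat_lit 1215982568317) (nat_lit 152) (nat_lit 976327625463) (nat_lit 0) (nat_lit 1066535589564) (nat_lit 2) (nat_lit 5) (nat_lit 4) (nat_lit 4) (nat_lit 2) (nat_lit 4) (nat_lit 277) (nat_lit 237) (nat_lit 146)) (XT.nd (nat_lit 78) (nat_lit 0) (nat_lit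 0) (XT.lf (nat_lit 0) (nat_lit 1547980437713) (nat_lit 152) (nat_lit 787318378772) (nat_lit 0) (nat_lit 1398533400564) (nat_lit 2) (nat_lit 5) (nat_lit 4) (nat_lit 4) (nat_lit 2) (nat_lit 4) (nat_lit 278) (nat_lit 237) (nat_lit 145)) (XT.lf (nat_lit 0) (nat_lit 1929777861857) (nat_lit 152) (nat_lit 569957990134) (nat_lit 0) (nat_lit 1780330773930) (nat_lit 2) (nat_lit 5) (nat_lit 4) (nat_lit 4) (nat_lit 2) (nat_lit 4) (nat_lit 279) (nat_lit 237) (nat_lit 144)))) (XT.nd (nat_lit 156) (nat_lit 76) (nat_lit 0) (XT.nd (nat_lit 78) (nat_lit 0) (nat_lit 0) (XT.lf (nat_lit 0) (nat_lit 2368844790352) (nat_lit 152) (nat_lit 319993756293) (nat_lit 0) (nat_lit 2219397658270) (nat_lit 2) (nat_lit 5) (nat_lit 4) (nat_lit 4) (nat_lit 2) (nat_lit 4) (nat_lit 280) (nat_lit 237) (nat_lit 143)) (XT.lf (nat_lit 0) (nat_lit 2873771663104) (nat_lit 152) (nat_lit 32535072675) (nat_lit 0) (nat_lit 2724324492625)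 (nat_lit 2) (nat_lit 5) (nat_lit 4) (nat_lit 4) (nat_lit 2) (nat_lit 4) (nat_lit 281) (nat_lit 237) (nat_lit 142))) (XT.nd (nat_lit 78) (nat_lit 0) (nat_lit 0) (XT.lf (nat_lit 0) (nat_lit 313736629190) (nat_lit 76) (nat_lit 3148246228431) (nat_lit 76) (nat_lit 2998799024564) (nat_lit 1) (nat_lit 4) (nat_lit 2) (nat_lit 5) (nat_lit 2) (nat_lit 4) (nat_lit 282) (nat_lit 237) (nat_lit 141)) (XT.lf (nat_lit 0) (nat_lit 713919164006) (nat_lit 76) (nat_lit 3425453715551) (nat_lit 76) (nat_lit 3276006482651) (nat_lit 1) (nat_lit 4) (nat_lit 2) (nat_lit 5) (nat_lit 2) (nat_lit 4) (nat_lit 283) (nat_lit 237) (nat_lit 140))))))) (XT.nd (nat_lit 31590) (nat_lit 0) (nat_lit 684) (XT.nd (nat_lit 31122) (nat_lit 0) (nat_lit 2204) (XT.nd (nat_lit 30888) (nat_lit 0) (nat_lit 3420) (XT.nd (nat_lit 78) (nat_lit 0) (nat_lit 0) (XT.lf (nat_lit 0) (nat_lit 1174128950791) (nat_lit 76) (nat_lit 3744242388430)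 (nat_lit 76) (nat_lit 3594795130285) (nat_lit 1) (nat_lit 4) (nat_lit 2) (nat_lit 5) (nat_lit 2) (nat_lit 4) (nat_lit 284) (nat_lit 237) (nat_lit 139)) (XT.nd (nat_lit 30732) (nat_lit 0) (nat_lit 3344) (XT.lf (nat_lit 0) (nat_lit 1703370094072) (nat_lit 76) (nat_lit 4110849416757) (nat_lit 76) (nat_lit 3961402136658) (nat_lit 1) (nat_lit 4) (nat_lit 2) (nat_lit 5) (nat_lit 2) (nat_lit 4) (nat_lit 285) (nat_lit 237) (nat_lit 138)) (XT.lf (nat_lit 0) (nat_lit 16174663561) (nat_lit 532) (nat_lit 4550904719) (nat_lit 532) (nat_lit 4550904719) (nat_lit 45) (nat_lit 3) (nat_lit 52) (nat_lit 3) (nat_lit 52) (nat_lit 5) (nat_lit 238) (nat_lit 238) (nat_lit 184)))) (XT.nd (nat_lit 78) (nat_lit 0) (nat_lit 0) (XT.lf (nat_lit 0) (nat_lit 35701141438) (nat_lit 456) (nat_lit 18074146316) (nat_lit 532) (nat_lit 494958466) (nat_lit 46) (nat_lit 5) (nat_lit 52) (nat_lit 5) (nat_lit 53) (nat_lit 5) (nat_lit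 239) (nat_lit 238) (nat_lit 183)) (XT.nd (nat_lit 78) (nat_lit 0) (nat_lit 76) (XT.lf (nat_lit 76) (nat_lit 30693002115) (nat_lit 0) (nat_lit 11011657296) (nat_lit 532) (nat_lit 16668589181) (nat_lit 47) (nat_lit 5) (nat_lit 46) (nat_lit 5) (nat_lit 53) (nat_lit 5) (nat_lit 240) (nat_lit 238) (nat_lit 182)) (XT.lf (nat_lit 76) (nat_lit 25141038431) (nat_lit 0) (nat_lit 25523472233) (nat_lit 532) (nat_lit 12262745029) (nat_lit 48) (nat_lit 5) (nat_lit 47) (nat_lit 5) (nat_lit 54) (nat_lit 5) (nat_lit 241) (nat_lit 238) (nat_lit 181))))) (XT.nd (nat_lit 234) (nat_lit 380) (nat_lit 0) (XT.nd (nat_lit 78) (nat_lit 532) (nat_lit 0) (XT.lf (nat_lit 0) (nat_lit 19531457505) (nat_lit 456) (nat_lit 43608837814) (nat_lit 532) (nat_lit 4850328448) (nat_lit 42) (nat_lit 5) (nat_lit 48) (nat_lit 5) (nat_lit 49) (nat_lit 5) (nat_lit 242) (nat_lit 238) (nat_lit 180)) (XT.nd (nat_lit 78) (nat_lit 228)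 (nat_lit 0) (XT.lf (nat_lit 0) (nat_lit 5850877989) (nat_lit 304) (nat_lit 59955478333) (nat_lit 76) (nat_lit 7811228157) (nat_lit 38) (nat_lit 5) (nat_lit 42) (nat_lit 5) (nat_lit 39) (nat_lit 5) (nat_lit 243) (nat_lit 238) (nat_lit 179)) (XT.lf (nat_lit 0) (nat_lit 7030088993) (nat_lit 228) (nat_lit 13666058268) (nat_lit 304) (nat_lit 59156288854) (nat_lit 35) (nat_lit 5) (nat_lit 38) (nat_lit 5) (nat_lit 39) (nat_lit 5) (nat_lit 244) (nat_lit 238) (nat_lit 178)))) (XT.nd (nat_lit 78) (nat_lit 380) (nat_lit 0) (XT.lf (nat_lit 0) (nat_lit 40668229205) (nat_lit 304) (nat_lit 352378103) (nat_lit 76) (nat_lit 45769916370) (nat_lit 35) (nat_lit 5) (nat_lit 39) (nat_lit 5) (nat_lit 36) (nat_lit 5) (nat_lit 245) (nat_lit 238) (nat_lit 177)) (XT.nd (nat_lit 78) (nat_lit 152) (nat_lit 0) (XT.lf (nat_lit 0) (nat_lit 66603214601) (nat_lit 304) (nat_lit 8117964606) (nat_lit 76) (nat_lit 19810786539)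 (nat_lit 32) (nat_lit 5) (nat_lit 36) (nat_lit 5) (nat_lit 33) (nat_lit 5) (nat_lit 246) (nat_lit 238) (nat_lit 176)) (XT.lf (nat_lit 0) (nat_lit 85943079671) (nat_lit 152) (nat_lit 13694024671) (nat_lit 228) (nat_lit 3540834792) (nat_lit 30) (nat_lit 5) (nat_lit 32) (nat_lit 5) (nat_lit 33) (nat_lit 5) (nat_lit 247) (nat_lit 238) (nat_lit 175)))))) (XT.nd (nat_lit 468) (nat_lit 608) (nat_lit 0) (XT.nd (nat_lit 234) (nat_lit 380) (nat_lit 0) (XT.nd (nat_lit 78) (nat_lit 304) (nat_lit 0) (XT.lf (nat_lit 0) (nat_lit 27000318072) (nat_lit 228) (nat_lit 29160269046) (nat_lit 76) (nat_lit 56615407145) (nat_lit 27) (nat_lit 5) (nat_lit 30) (nat_lit 5) (nat_lit 28) (nat_lit 5) (nat_lit 248) (nat_lit 238) (nat_lit 174)) (XT.nd (nat_lit 78) (nat_lit 152) (nat_lit 0) (XT.lf (nat_lit 0) (nat_lit 65119495267) (nat_lit 228) (nat_lit 43564444063) (nat_lit 76) (nat_lit 14865945360) (nat_lit 25) (nat_lit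 5) (nat_lit 28) (nat_lit 5) (nat_lit 26) (nat_lit 5) (nat_lit 249) (nat_lit 238) (nat_lit 173)) (XT.lf (nat_lit 0) (nat_lit 73494351240) (nat_lit 152) (nat_lit 39651491402) (nat_lit 228) (nat_lit 22458877138) (nat_lit 23) (nat_lit 5) (nat_lit 25) (nat_lit 5) (nat_lit 26) (nat_lit 5) (nat_lit 250) (nat_lit 238) (nat_lit 172)))) (XT.nd (nat_lit 78) (nat_lit 228) (nat_lit 0) (XT.lf (nat_lit 0) (nat_lit 21844271957) (nat_lit 152) (nat_lit 86146401247) (nat_lit 76) (nat_lit 41130188271) (nat_lit 21) (nat_lit 5) (nat_lit 23) (nat_lit 5) (nat_lit 22) (nat_lit 5) (nat_lit 251) (nat_lit 238) (nat_lit 171)) (XT.nd (nat_lit 78) (nat_lit 76) (nat_lit 0) (XT.lf (nat_lit 0) (nat_lit 46627791946) (nat_lit 152) (nat_lit 28944255342) (nat_lit 228) (nat_lit 88716994950) (nat_lit 19) (nat_lit 5) (nat_lit 21) (nat_lit 5) (nat_lit 22) (nat_lit 5) (nat_lit 252) (nat_lit 238) (nat_lit 170)) (XT.lf (nat_lit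 0) (nat_lit 22573803164) (nat_lit 76) (nat_lit 119389439859) (nat_lit 152) (nat_lit 39400869558) (nat_lit 18) (nat_lit 5) (nat_lit 19) (nat_lit 5) (nat_lit 20) (nat_lit 4) (nat_lit 253) (nat_lit 238) (nat_lit 169))))) (XT.nd (nat_lit 234) (nat_lit 304) (nat_lit 0) (XT.nd (nat_lit 78) (nat_lit 228) (nat_lit 0) (XT.lf (nat_lit 0) (nat_lit 20759875728) (nat_lit 152) (nat_lit 11066012050) (nat_lit 76) (nat_lit 168796188228) (nat_lit 17) (nat_lit 5) (nat_lit 19) (nat_lit 5) (nat_lit 18) (nat_lit 5) (nat_lit 254) (nat_lit 238) (nat_lit 168)) (XT.nd (nat_lit 78) (nat_lit 76) (nat_lit 0) (XT.lf (nat_lit 0) (nat_lit 93457897945) (nat_lit 228) (nat_lit 58120585841) (nat_lit 76) (nat_lit 70640689277) (nat_lit 15) (nat_lit 5) (nat_lit 18) (nat_lit 5) (nat_lit 16) (nat_lit 4) (nat_lit 255) (nat_lit 238) (nat_lit 167)) (XT.lf (nat_lit 0) (nat_lit 124515587597) (nat_lit 76) (nat_lit 56748939368) (nat_lit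 152) (nat_lit 65454997134) (nat_lit 14) (nat_lit 5) (nat_lit 15) (nat_lit 5) (nat_lit 16) (nat_lit 4) (nat_lit 256) (nat_lit 238) (nat_lit 166)))) (XT.nd (nat_lit 156) (nat_lit 152) (nat_lit 0) (XT.nd (nat_lit 78) (nat_lit 0) (nat_lit 0) (XT.lf (nat_lit 0) (nat_lit 11660531431) (nat_lit 152) (nat_lit 209557236077) (nat_lit 76) (nat_lit 53288557843) (nat_lit 12) (nat_lit 5) (nat_lit 14) (nat_lit 5) (nat_lit 13) (nat_lit 4) (nat_lit 257) (nat_lit 238) (nat_lit 165)) (XT.lf (nat_lit 0) (nat_lit 101796434209) (nat_lit 152) (nat_lit 22075688960) (nat_lit 76) (nat_lit 182026717535) (nat_lit 12) (nat_lit 5) (nat_lit 14) (nat_lit 5) (nat_lit 13) (nat_lit 4) (nat_lit 258) (nat_lit 238) (nat_lit 164))) (XT.nd (nat_lit 78) (nat_lit 76) (nat_lit 0) (XT.lf (nat_lit 0) (nat_lit 203716861350) (nat_lit 76) (nat_lit 6634156269) (nat_lit 152) (nat_lit 131257353157) (nat_lit 11) (nat_lit 5) (nat_lit 12)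 (nat_lit 5) (nat_lit 13) (nat_lit 4) (nat_lit 259) (nat_lit 238) (nat_lit 163)) (XT.lf (nat_lit 0) (nat_lit 83150206915) (nat_lit 76) (nat_lit 257779691056) (nat_lit 76) (nat_lit 41285144535) (nat_lit 10) (nat_lit 4) (nat_lit 11) (nat_lit 5) (nat_lit 11) (nat_lit 4) (nat_lit 260) (nat_lit 238) (nat_lit 162))))))))
noncomputable def xc45 : XT := (XT.nd (nat_lit 32682) (nat_lit 0) (nat_lit 532) (XT.nd (nat_lit 936) (nat_lit 228) (nat_lit 0) (XT.nd (nat_lit 468) (nat_lit 76) (nat_lit 0) (XT.nd (nat_lit 234) (nat_lit 228) (nat_lit 0) (XT.nd (nat_lit 78) (nat_lit 76) (nat_lit 0) (XT.lf (nat_lit 0) (nat_lit 63373624382) (nat_lit 152) (nat_lit 84678096162) (nat_lit 76) (nat_lit 280397245623) (nat_lit 9) (nat_lit 5) (nat_lit 11) (nat_lit 5) (nat_lit 10) (nat_lit 4) (nat_lit 261) (nat_lit 238) (nat_lit 161)) (XT.nd (nat_lit 78) (nat_lit 0) (nat_lit 0) (XT.lf (nat_lit 0) (nat_lit 169186682702)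 (nat_lit 76) (nat_lit 16237603910) (nat_lit 152) (nat_lit 295776895544) (nat_lit 8) (nat_lit 5) (nat_lit 9) (nat_lit 5) (nat_lit 10) (nat_lit 4) (nat_lit 262) (nat_lit 238) (nat_lit 160)) (XT.lf (nat_lit 0) (nat_lit 331566262367) (nat_lit 152) (nat_lit 78730596214) (nat_lit 0) (nat_lit 131106675375) (nat_lit 8) (nat_lit 5) (nat_lit 10) (nat_lit 4) (nat_lit 8) (nat_lit 4) (nat_lit 263) (nat_lit 238) (nat_lit 159)))) (XT.nd (nat_lit 78) (nat_lit 152) (nat_lit 0) (XT.lf (nat_lit 0) (nat_lit 199052979912) (nat_lit 76) (nat_lit 305812206504) (nat_lit 76) (nat_lit 105352200431) (nat_lit 7) (nat_lit 4) (nat_lit 8) (nat_lit 5) (nat_lit 8) (nat_lit 4) (nat_lit 264) (nat_lit 238) (nat_lit 158)) (XT.nd (nat_lit 78) (nat_lit 76) (nat_lit 0) (XT.lf (nat_lit 0) (nat_lit 16416061256) (nat_lit 152) (nat_lit 166314963077) (nat_lit 76) (nat_lit 506405722259) (nat_lit 6) (nat_lit 5) (nat_lit 8) (nat_lit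 5) (nat_lit 7) (nat_lit 4) (nat_lit 265) (nat_lit 238) (nat_lit 157)) (XT.lf (nat_lit 0) (nat_lit 118263085063) (nat_lit 76) (nat_lit 34969497839) (nat_lit 152) (nat_lit 626200830337) (nat_lit 5) (nat_lit 5) (nat_lit 6) (nat_lit 5) (nat_lit 7) (nat_lit 4) (nat_lit 266) (nat_lit 238) (nat_lit 156))))) (XT.nd (nat_lit 234) (nat_lit 0) (nat_lit 0) (XT.nd (nat_lit 78) (nat_lit 76) (nat_lit 0) (XT.lf (nat_lit 0) (nat_lit 318784627119) (nat_lit 152) (nat_lit 430660285103) (nat_lit 0) (nat_lit 133172624407) (nat_lit 5) (nat_lit 5) (nat_lit 7) (nat_lit 4) (nat_lit 5) (nat_lit 4) (nat_lit 267) (nat_lit 238) (nat_lit 155)) (XT.nd (nat_lit 78) (nat_lit 76) (nat_lit 0) (XT.lf (nat_lit 0) (nat_lit 510136207414) (nat_lit 152) (nat_lit 166541750168) (nat_lit 0) (nat_lit 324523982841) (nat_lit 5) (nat_lit 5) (nat_lit 7) (nat_lit 4) (nat_lit 5) (nat_lit 4) (nat_lit 268) (nat_lit 238) (nat_lit 154)) (XT.lf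 (nat_lit 0) (nat_lit 144418214427) (nat_lit 76) (nat_lit 589245188895) (nat_lit 76) (nat_lit 403632771399) (nat_lit 4) (nat_lit 4) (nat_lit 5) (nat_lit 5) (nat_lit 5) (nat_lit 4) (nat_lit 269) (nat_lit 238) (nat_lit 153)))) (XT.nd (nat_lit 78) (nat_lit 0) (nat_lit 0) (XT.lf (nat_lit 0) (nat_lit 512106763766) (nat_lit 76) (nat_lit 483461249534) (nat_lit 76) (nat_lit 297848664278) (nat_lit 4) (nat_lit 4) (nat_lit 5) (nat_lit 5) (nat_lit 5) (nat_lit 4) (nat_lit 270) (nat_lit 238) (nat_lit 152)) (XT.nd (nat_lit 78) (nat_lit 0) (nat_lit 0) (XT.lf (nat_lit 0) (nat_lit 934948010824) (nat_lit 76) (nat_lit 361810000315) (nat_lit 76) (nat_lit 176197269181) (nat_lit 4) (nat_lit 4) (nat_lit 5) (nat_lit 5) (nat_lit 5) (nat_lit 4) (nat_lit 271) (nat_lit 238) (nat_lit 151)) (XT.lf (nat_lit 0) (nat_lit 1421214936521) (nat_lit 76) (nat_lit 221911308103) (nat_lit 76) (nat_lit 36298450118) (nat_lit 4) (nat_lit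 4) (nat_lit 5) (nat_lit 5) (nat_lit 5) (nat_lit 4) (nat_lit 272) (nat_lit 238) (nat_lit 150)))))) (XT.nd (nat_lit 468) (nat_lit 76) (nat_lit 0) (XT.nd (nat_lit 234) (nat_lit 0) (nat_lit 0) (XT.nd (nat_lit 78) (nat_lit 0) (nat_lit 0) (XT.lf (nat_lit 0) (nat_lit 63749664669) (nat_lit 76) (nat_lit 56136216560) (nat_lit 152) (nat_lit 1796616302441) (nat_lit 2) (nat_lit 5) (nat_lit 3) (nat_lit 5) (nat_lit 4) (nat_lit 4) (nat_lit 273) (nat_lit 238) (nat_lit 149)) (XT.nd (nat_lit 78) (nat_lit 0) (nat_lit 0) (XT.lf (nat_lit 0) (nat_lit 308357088524) (nat_lit 152) (nat_lit 1743334962015) (nat_lit 0) (nat_lit 136493140185) (nat_lit 2) (nat_lit 5) (nat_lit 4) (nat_lit 4) (nat_lit 2) (nat_lit 4) (nat_lit 274) (nat_lit 238) (nat_lit 148)) (XT.lf (nat_lit 0) (nat_lit 526651374760) (nat_lit 152) (nat_lit 1619057733142) (nat_lit 0) (nat_lit 354787349193) (nat_lit 2) (nat_lit 5) (nat_lit 4) (nat_lit 4)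 (nat_lit 2) (nat_lit 4) (nat_lit 275) (nat_lit 238) (nat_lit 147)))) (XT.nd (nat_lit 78) (nat_lit 0) (nat_lit 0) (XT.lf (nat_lit 0) (nat_lit 777689637744) (nat_lit 152) (nat_lit 1476139244026) (nat_lit 0) (nat_lit 605825545023) (nat_lit 2) (nat_lit 5) (nat_lit 4) (nat_lit 4) (nat_lit 2) (nat_lit 4) (nat_lit 276) (nat_lit 238) (nat_lit 146)) (XT.nd (nat_lit 78) (nat_lit 0) (nat_lit 0) (XT.lf (nat_lit 0) (nat_lit 1066383495666) (nat_lit 152) (nat_lit 1311783263359) (nat_lit 0) (nat_lit 894519344549) (nat_lit 2) (nat_lit 5) (nat_lit 4) (nat_lit 4) (nat_lit 2) (nat_lit 4) (nat_lit 277) (nat_lit 238) (nat_lit 145)) (XT.lf (nat_lit 0) (nat_lit 1398381306614) (nat_lit 152) (nat_lit 1122774130647) (nat_lit 0) (nat_lit 1226517104719) (nat_lit 2) (nat_lit 5) (nat_lit 4) (nat_lit 4) (nat_lit 2) (nat_lit 4) (nat_lit 278) (nat_lit 238) (nat_lit 144))))) (XT.nd (nat_lit 234) (nat_lit 76) (nat_lit 0)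 (XT.nd (nat_lit 78) (nat_lit 0) (nat_lit 0) (XT.lf (nat_lit 0) (nat_lit 1780178679935) (nat_lit 152) (nat_lit 905413841123) (nat_lit 0) (nat_lit 1608314433884) (nat_lit 2) (nat_lit 5) (nat_lit 4) (nat_lit 4) (nat_lit 2) (nat_lit 4) (nat_lit 279) (nat_lit 238) (nat_lit 143)) (XT.nd (nat_lit 78) (nat_lit 0) (nat_lit 0) (XT.lf (nat_lit 0) (nat_lit 2219245564235) (nat_lit 152) (nat_lit 655449693467) (nat_lit 0) (nat_lit 2047381279789) (nat_lit 2) (nat_lit 5) (nat_lit 4) (nat_lit 4) (nat_lit 2) (nat_lit 4) (nat_lit 280) (nat_lit 238) (nat_lit 142)) (XT.lf (nat_lit 0) (nat_lit 2724172398557) (nat_lit 152) (nat_lit 367991084792) (nat_lit 0) (nat_lit 2552308080723) (nat_lit 2) (nat_lit 5) (nat_lit 4) (nat_lit 4) (nat_lit 2) (nat_lit 4) (nat_lit 281) (nat_lit 238) (nat_lit 141)))) (XT.nd (nat_lit 156) (nat_lit 0) (nat_lit 0) (XT.nd (nat_lit 78) (nat_lit 76) (nat_lit 0) (XT.lf (nat_lit 0) (nat_lit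 3304838186180) (nat_lit 152) (nat_lit 37413824928) (nat_lit 0) (nat_lit 3132973839313) (nat_lit 2) (nat_lit 5) (nat_lit 4) (nat_lit 4) (nat_lit 2) (nat_lit 4) (nat_lit 282) (nat_lit 238) (nat_lit 140)) (XT.lf (nat_lit 0) (nat_lit 360798504517) (nat_lit 76) (nat_lit 3620482487663) (nat_lit 76) (nat_lit 3448618115550) (nat_lit 1) (nat_lit 4) (nat_lit 2) (nat_lit 5) (nat_lit 2) (nat_lit 4) (nat_lit 283) (nat_lit 238) (nat_lit 139))) (XT.nd (nat_lit 78) (nat_lit 0) (nat_lit 0) (XT.lf (nat_lit 0) (nat_lit 821008239431) (nat_lit 76) (nat_lit 3939271185899) (nat_lit 76) (nat_lit 3767406791833) (nat_lit 1) (nat_lit 4) (nat_lit 2) (nat_lit 5) (nat_lit 2) (nat_lit 4) (nat_lit 284) (nat_lit 238) (nat_lit 138)) (XT.lf (nat_lit 0) (nat_lit 1350249337606) (nat_lit 76) (nat_lit 4305878236273) (nat_lit 76) (nat_lit 4134013823118) (nat_lit 1) (nat_lit 4) (nat_lit 2) (nat_lit 5) (nat_lit 2) (nat_lit 4)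 (nat_lit 285) (nat_lit 238) (nat_lit 137))))))) (XT.nd (nat_lit 936) (nat_lit 1292) (nat_lit 0) (XT.nd (nat_lit 468) (nat_lit 988) (nat_lit 0) (XT.nd (nat_lit 234) (nat_lit 532) (nat_lit 0) (XT.nd (nat_lit 78) (nat_lit 0) (nat_lit 76) (XT.lf (nat_lit 0) (nat_lit 18641355602) (nat_lit 532) (nat_lit 5211616215) (nat_lit 532) (nat_lit 5211616215) (nat_lit 45) (nat_lit 3) (nat_lit 52) (nat_lit 3) (nat_lit 52) (nat_lit 5) (nat_lit 239) (nat_lit 239) (nat_lit 182)) (XT.nd (nat_lit 78) (nat_lit 0) (nat_lit 0) (XT.lf (nat_lit 0) (nat_lit 41126948130) (nat_lit 456) (nat_lit 20738466221) (nat_lit 532) (nat_lit 539515326) (nat_lit 46) (nat_lit 5) (nat_lit 52) (nat_lit 5) (nat_lit 53) (nat_lit 5) (nat_lit 240) (nat_lit 239) (nat_lit 181)) (XT.lf (nat_lit 76) (nat_lit 35339792915) (nat_lit 0) (nat_lit 12683017876) (nat_lit 532) (nat_lit 19101252686) (nat_lit 47) (nat_lit 5) (nat_lit 46) (nat_lit 5)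 (nat_lit 53) (nat_lit 5) (nat_lit 241) (nat_lit 239) (nat_lit 180)))) (XT.nd (nat_lit 78) (nat_lit 684) (nat_lit 0) (XT.lf (nat_lit 76) (nat_lit 28956574774) (nat_lit 0) (nat_lit 29362576190) (nat_lit 532) (nat_lit 14042642763) (nat_lit 48) (nat_lit 5) (nat_lit 47) (nat_lit 5) (nat_lit 54) (nat_lit 5) (nat_lit 242) (nat_lit 239) (nat_lit 179)) (XT.nd (nat_lit 78) (nat_lit 304) (nat_lit 0) (XT.lf (nat_lit 0) (nat_lit 22506198252) (nat_lit 456) (nat_lit 50153797345) (nat_lit 532) (nat_lit 5525196018) (nat_lit 42) (nat_lit 5) (nat_lit 48) (nat_lit 5) (nat_lit 49) (nat_lit 5) (nat_lit 243) (nat_lit 239) (nat_lit 178)) (XT.lf (nat_lit 0) (nat_lit 6773060052) (nat_lit 304) (nat_lit 68901370683) (nat_lit 76) (nat_lit 8982120109) (nat_lit 38) (nat_lit 5) (nat_lit 42) (nat_lit 5) (nat_lit 39) (nat_lit 5) (nat_lit 244) (nat_lit 239) (nat_lit 177))))) (XT.nd (nat_lit 234) (nat_lit 532) (nat_lit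 0) (XT.nd (nat_lit 78) (nat_lit 228) (nat_lit 0) (XT.lf (nat_lit 0) (nat_lit 8128017080) (nat_lit 228) (nat_lit 15712335844) (nat_lit 304) (nat_lit 67986672639) (nat_lit 35) (nat_lit 5) (nat_lit 38) (nat_lit 5) (nat_lit 39) (nat_lit 5) (nat_lit 245) (nat_lit 239) (nat_lit 176)) (XT.nd (nat_lit 78) (nat_lit 228) (nat_lit 0) (XT.lf (nat_lit 0) (nat_lit 46803133936) (nat_lit 304) (nat_lit 364710142) (nat_lit 76) (nat_lit 52638403407) (nat_lit 35) (nat_lit 5) (nat_lit 39) (nat_lit 5) (nat_lit 36) (nat_lit 5) (nat_lit 246) (nat_lit 239) (nat_lit 175)) (XT.lf (nat_lit 0) (nat_lit 76624882648) (nat_lit 304) (nat_lit 9296156680) (nat_lit 76) (nat_lit 22788155874) (nat_lit 32) (nat_lit 5) (nat_lit 36) (nat_lit 5) (nat_lit 33) (nat_lit 5) (nat_lit 247) (nat_lit 239) (nat_lit 174)))) (XT.nd (nat_lit 78) (nat_lit 380) (nat_lit 0) (XT.lf (nat_lit 0) (nat_lit 98870700539) (nat_lit 152) (nat_lit 15739957215)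 (nat_lit 228) (nat_lit 4041671894) (nat_lit 30) (nat_lit 5) (nat_lit 32) (nat_lit 5) (nat_lit 33) (nat_lit 5) (nat_lit 248) (nat_lit 239) (nat_lit 173)) (XT.nd (nat_lit 78) (nat_lit 152) (nat_lit 0) (XT.lf (nat_lit 0) (nat_lit 31076425296) (nat_lit 228) (nat_lit 33497863766) (nat_lit 76) (nat_lit 65115970194) (nat_lit 27) (nat_lit 5) (nat_lit 30) (nat_lit 5) (nat_lit 28) (nat_lit 5) (nat_lit 249) (nat_lit 239) (nat_lit 172)) (XT.lf (nat_lit 0) (nat_lit 74911120375) (nat_lit 228) (nat_lit 50064068056) (nat_lit 76) (nat_lit 17105239954) (nat_lit 25) (nat_lit 5) (nat_lit 28) (nat_lit 5) (nat_lit 26) (nat_lit 5) (nat_lit 250) (nat_lit 239) (nat_lit 171)))))) (XT.nd (nat_lit 468) (nat_lit 532) (nat_lit 0) (XT.nd (nat_lit 234) (nat_lit 304) (nat_lit 0) (XT.nd (nat_lit 78) (nat_lit 304) (nat_lit 0) (XT.lf (nat_lit 0) (nat_lit 84550580358) (nat_lit 152) (nat_lit 45588519525) (nat_lit 228) (nat_lit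 25804580054) (nat_lit 23) (nat_lit 5) (nat_lit 25) (nat_lit 5) (nat_lit 26) (nat_lit 5) (nat_lit 251) (nat_lit 239) (nat_lit 170)) (XT.nd (nat_lit 78) (nat_lit 152) (nat_lit 0) (XT.lf (nat_lit 0) (nat_lit 25141006183) (nat_lit 152) (nat_lit 99036547551) (nat_lit 76) (nat_lit 47309799422) (nat_lit 21) (nat_lit 5) (nat_lit 23) (nat_lit 5) (nat_lit 22) (nat_lit 5) (nat_lit 252) (nat_lit 239) (nat_lit 169)) (XT.lf (nat_lit 0) (nat_lit 53651081735) (nat_lit 152) (nat_lit 33274945557) (nat_lit 228) (nat_lit 102004891305) (nat_lit 19) (nat_lit 5) (nat_lit 21) (nat_lit 5) (nat_lit 22) (nat_lit 5) (nat_lit 253) (nat_lit 239) (nat_lit 168)))) (XT.nd (nat_lit 78) (nat_lit 228) (nat_lit 0) (XT.lf (nat_lit 0) (nat_lit 25987643377) (nat_lit 76) (nat_lit 137286785450) (nat_lit 152) (nat_lit 45292941958) (nat_lit 18) (nat_lit 5) (nat_lit 19) (nat_lit 5) (nat_lit 20) (nat_lit 4) (nat_lit 254) (nat_lit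 239) (nat_lit 167)) (XT.nd (nat_lit 78) (nat_lit 152) (nat_lit 0) (XT.lf (nat_lit 0) (nat_lit 23888774216) (nat_lit 152) (nat_lit 12700962445) (nat_lit 76) (nat_lit 194124439073) (nat_lit 17) (nat_lit 5) (nat_lit 19) (nat_lit 5) (nat_lit 18) (nat_lit 5) (nat_lit 255) (nat_lit 239) (nat_lit 166)) (XT.lf (nat_lit 0) (nat_lit 107490327456) (nat_lit 228) (nat_lit 66814960858) (nat_lit 76) (nat_lit 81245645205) (nat_lit 15) (nat_lit 5) (nat_lit 18) (nat_lit 5) (nat_lit 16) (nat_lit 4) (nat_lit 256) (nat_lit 239) (nat_lit 165))))) (XT.nd (nat_lit 234) (nat_lit 304) (nat_lit 0) (XT.nd (nat_lit 78) (nat_lit 152) (nat_lit 0) (XT.lf (nat_lit 0) (nat_lit 143214631420) (nat_lit 76) (nat_lit 65252048628) (nat_lit 152) (nat_lit 75259760901) (nat_lit 14) (nat_lit 5) (nat_lit 15) (nat_lit 5) (nat_lit 16) (nat_lit 4) (nat_lit 257) (nat_lit 239) (nat_lit 164)) (XT.nd (nat_lit 78) (nat_lit 0) (nat_lit 0)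 (XT.lf (nat_lit 0) (nat_lit 13421457470) (nat_lit 152) (nat_lit 240969595238) (nat_lit 76) (nat_lit 61290262596) (nat_lit 12) (nat_lit 5) (nat_lit 14) (nat_lit 5) (nat_lit 13) (nat_lit 4) (nat_lit 258) (nat_lit 239) (nat_lit 163)) (XT.lf (nat_lit 0) (nat_lit 117076200492) (nat_lit 152) (nat_lit 25368584695) (nat_lit 76) (nat_lit 209338047840) (nat_lit 12) (nat_lit 5) (nat_lit 14) (nat_lit 5) (nat_lit 13) (nat_lit 4) (nat_lit 259) (nat_lit 239) (nat_lit 162)))) (XT.nd (nat_lit 156) (nat_lit 152) (nat_lit 0) (XT.nd (nat_lit 78) (nat_lit 76) (nat_lit 0) (XT.lf (nat_lit 0) (nat_lit 234291285818) (nat_lit 76) (nat_lit 7621748300) (nat_lit 152) (nat_lit 150935834741) (nat_lit 11) (nat_lit 5) (nat_lit 12) (nat_lit 5) (nat_lit 13) (nat_lit 4) (nat_lit 260) (nat_lit 239) (nat_lit 161)) (XT.lf (nat_lit 0) (nat_lit 95638730732) (nat_lit 76) (nat_lit 296439336549) (nat_lit 76) (nat_lit 47468529505)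 (nat_lit 10) (nat_lit 4) (nat_lit 11) (nat_lit 5) (nat_lit 11) (nat_lit 4) (nat_lit 261) (nat_lit 239) (nat_lit 160))) (XT.nd (nat_lit 78) (nat_lit 76) (nat_lit 0) (XT.lf (nat_lit 0) (nat_lit 72887422083) (nat_lit 152) (nat_lit 97365489609) (nat_lit 76) (nat_lit 322462773179) (nat_lit 9) (nat_lit 5) (nat_lit 11) (nat_lit 5) (nat_lit 10) (nat_lit 4) (nat_lit 262) (nat_lit 239) (nat_lit 159)) (XT.lf (nat_lit 0) (nat_lit 194577793886) (nat_lit 76) (nat_lit 18667193630) (nat_lit 152) (nat_lit 340135802201) (nat_lit 8) (nat_lit 5) (nat_lit 9) (nat_lit 5) (nat_lit 10) (nat_lit 4) (nat_lit 263) (nat_lit 239) (nat_lit 158))))))))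
noncomputable def xc46 : XT := (XT.nd (nat_lit 32760) (nat_lit 0) (nat_lit 380) (XT.nd (nat_lit 936) (nat_lit 76) (nat_lit 0) (XT.nd (nat_lit 468) (nat_lit 228) (nat_lit 0) (XT.nd (nat_lit 234) (nat_lit 76) (nat_lit 0) (XT.nd (nat_lit 78) (nat_lit 152) (nat_lit 0) (XT.lf (nat_lit 0) (nat_lit 381307465579) (nat_lit 152) (nat_lit 90528417804) (nat_lit 0) (nat_lit 150777675097) (nat_lit 8) (nat_lit 5) (nat_lit 10) (nat_lit 4) (nat_lit 8) (nat_lit 4) (nat_lit 264) (nat_lit 239) (nat_lit 157)) (XT.nd (nat_lit 78) (nat_lit 76) (nat_lit 0) (XT.lf (nat_lit 0) (nat_lit 228921698652) (nat_lit 76) (nat_lit 351678971620) (nat_lit 76) (nat_lit 121148864252) (nat_lit 7) (nat_lit 4) (nat_lit 8) (nat_lit 5) (nat_lit 8) (nat_lit 4) (nat_lit 265) (nat_lit 239) (nat_lit 156)) (XT.lf (nat_lit 0) (nat_lit 18883564169) (nat_lit 152) (nat_lit 191252569448) (nat_lit 76) (nat_lit 582370714344) (nat_lit 6) (nat_lit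 5) (nat_lit 8) (nat_lit 5) (nat_lit 7) (nat_lit 4) (nat_lit 266) (nat_lit 239) (nat_lit 155)))) (XT.nd (nat_lit 78) (nat_lit 0) (nat_lit 0) (XT.lf (nat_lit 0) (nat_lit 136011370098) (nat_lit 76) (nat_lit 40210741742) (nat_lit 152) (nat_lit 720125939350) (nat_lit 5) (nat_lit 5) (nat_lit 6) (nat_lit 5) (nat_lit 7) (nat_lit 4) (nat_lit 267) (nat_lit 239) (nat_lit 154)) (XT.nd (nat_lit 78) (nat_lit 0) (nat_lit 0) (XT.lf (nat_lit 0) (nat_lit 366606444708) (nat_lit 152) (nat_lit 495251418509) (nat_lit 0) (nat_lit 153151971664) (nat_lit 5) (nat_lit 5) (nat_lit 7) (nat_lit 4) (nat_lit 5) (nat_lit 4) (nat_lit 268) (nat_lit 239) (nat_lit 153)) (XT.lf (nat_lit 0) (nat_lit 586660224197) (nat_lit 152) (nat_lit 191516134989) (nat_lit 0) (nat_lit 373205583393) (nat_lit 5) (nat_lit 5) (nat_lit 7) (nat_lit 4) (nat_lit 5) (nat_lit 4) (nat_lit 269) (nat_lit 239) (nat_lit 152))))) (XT.nd (nat_lit 234) (nat_lit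 152) (nat_lit 0) (XT.nd (nat_lit 78) (nat_lit 0) (nat_lit 0) (XT.lf (nat_lit 0) (nat_lit 166087242131) (nat_lit 76) (nat_lit 677628941072) (nat_lit 76) (nat_lit 464174154390) (nat_lit 4) (nat_lit 4) (nat_lit 5) (nat_lit 5) (nat_lit 5) (nat_lit 4) (nat_lit 270) (nat_lit 239) (nat_lit 151)) (XT.nd (nat_lit 78) (nat_lit 0) (nat_lit 0) (XT.lf (nat_lit 0) (nat_lit 588928252714) (nat_lit 76) (nat_lit 555977805522) (nat_lit 76) (nat_lit 342522891990) (nat_lit 4) (nat_lit 4) (nat_lit 5) (nat_lit 5) (nat_lit 5) (nat_lit 4) (nat_lit 271) (nat_lit 239) (nat_lit 150)) (XT.lf (nat_lit 0) (nat_lit 1075194972781) (nat_lit 76) (nat_lit 416079212152) (nat_lit 76) (nat_lit 202624188316) (nat_lit 4) (nat_lit 4) (nat_lit 5) (nat_lit 5) (nat_lit 5) (nat_lit 4) (nat_lit 272) (nat_lit 239) (nat_lit 149)))) (XT.nd (nat_lit 78) (nat_lit 152) (nat_lit 0) (XT.lf (nat_lit 0) (nat_lit 1634401316419) (nat_lit 76)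 (nat_lit 255196014570) (nat_lit 76) (nat_lit 41740894816) (nat_lit 4) (nat_lit 4) (nat_lit 5) (nat_lit 5) (nat_lit 5) (nat_lit 4) (nat_lit 273) (nat_lit 239) (nat_lit 148)) (XT.nd (nat_lit 78) (nat_lit 0) (nat_lit 0) (XT.lf (nat_lit 0) (nat_lit 73316010764) (nat_lit 76) (nat_lit 64554765160) (nat_lit 152) (nat_lit 2066106573350) (nat_lit 2) (nat_lit 5) (nat_lit 3) (nat_lit 5) (nat_lit 4) (nat_lit 4) (nat_lit 274) (nat_lit 239) (nat_lit 147)) (XT.lf (nat_lit 0) (nat_lit 354612441210) (nat_lit 152) (nat_lit 2004831716722) (nat_lit 0) (nat_lit 156968667426) (nat_lit 2) (nat_lit 5) (nat_lit 4) (nat_lit 4) (nat_lit 2) (nat_lit 4) (nat_lit 275) (nat_lit 239) (nat_lit 146)))))) (XT.nd (nat_lit 468) (nat_lit 76) (nat_lit 0) (XT.nd (nat_lit 234) (nat_lit 0) (nat_lit 0) (XT.nd (nat_lit 78) (nat_lit 0) (nat_lit 0) (XT.lf (nat_lit 0) (nat_lit 605650636980) (nat_lit 152) (nat_lit 1861913358683) (nat_lit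 0) (nat_lit 408006804800) (nat_lit 2) (nat_lit 5) (nat_lit 4) (nat_lit 4) (nat_lit 2) (nat_lit 4) (nat_lit 276) (nat_lit 239) (nat_lit 145)) (XT.nd (nat_lit 78) (nat_lit 0) (nat_lit 0) (XT.lf (nat_lit 0) (nat_lit 894344436455) (nat_lit 152) (nat_lit 1697557491995) (nat_lit 0) (nat_lit 696700553496) (nat_lit 2) (nat_lit 5) (nat_lit 4) (nat_lit 4) (nat_lit 2) (nat_lit 4) (nat_lit 277) (nat_lit 239) (nat_lit 144)) (XT.lf (nat_lit 0) (nat_lit 1226342196580) (nat_lit 152) (nat_lit 1508548458397) (nat_lit 0) (nat_lit 1028698269466) (nat_lit 2) (nat_lit 5) (nat_lit 4) (nat_lit 4) (nat_lit 2) (nat_lit 4) (nat_lit 278) (nat_lit 239) (nat_lit 143)))) (XT.nd (nat_lit 78) (nat_lit 0) (nat_lit 0) (XT.lf (nat_lit 0) (nat_lit 1608139525706) (nat_lit 152) (nat_lit 1291188255057) (nat_lit 0) (nat_lit 1410495560197) (nat_lit 2) (nat_lit 5) (nat_lit 4) (nat_lit 4) (nat_lit 2) (nat_lit 4) (nat_lit 279) (nat_lit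 239) (nat_lit 142)) (XT.nd (nat_lit 78) (nat_lit 0) (nat_lit 0) (XT.lf (nat_lit 0) (nat_lit 2047206371577) (nat_lit 152) (nat_lit 1041224182346) (nat_lit 0) (nat_lit 1849562372680) (nat_lit 2) (nat_lit 5) (nat_lit 4) (nat_lit 4) (nat_lit 2) (nat_lit 4) (nat_lit 280) (nat_lit 239) (nat_lit 141)) (XT.lf (nat_lit 0) (nat_lit 2552133172481) (nat_lit 152) (nat_lit 753765638839) (nat_lit 0) (nat_lit 2354489144551) (nat_lit 2) (nat_lit 5) (nat_lit 4) (nat_lit 4) (nat_lit 2) (nat_lit 4) (nat_lit 281) (nat_lit 239) (nat_lit 140))))) (XT.nd (nat_lit 234) (nat_lit 0) (nat_lit 0) (XT.nd (nat_lit 78) (nat_lit 76) (nat_lit 0) (XT.lf (nat_lit 0) (nat_lit 3132798931045) (nat_lit 152) (nat_lit 423188435643) (nat_lit 0) (nat_lit 2935154877869) (nat_lit 2) (nat_lit 5) (nat_lit 4) (nat_lit 4) (nat_lit 2) (nat_lit 4) (nat_lit 282) (nat_lit 239) (nat_lit 139)) (XT.nd (nat_lit 78) (nat_lit 76) (nat_lit 0) (XT.lf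 (nat_lit 0) (nat_lit 3800564499067) (nat_lit 152) (nat_lit 43024757912) (nat_lit 0) (nat_lit 3602920423938) (nat_lit 2) (nat_lit 5) (nat_lit 4) (nat_lit 4) (nat_lit 2) (nat_lit 4) (nat_lit 283) (nat_lit 239) (nat_lit 138)) (XT.lf (nat_lit 0) (nat_lit 414919324390) (nat_lit 76) (nat_lit 4163554350392) (nat_lit 76) (nat_lit 3965910256173) (nat_lit 1) (nat_lit 4) (nat_lit 2) (nat_lit 5) (nat_lit 2) (nat_lit 4) (nat_lit 284) (nat_lit 239) (nat_lit 137)))) (XT.nd (nat_lit 30966) (nat_lit 0) (nat_lit 3420) (XT.nd (nat_lit 30888) (nat_lit 0) (nat_lit 3344) (XT.lf (nat_lit 0) (nat_lit 944160383342) (nat_lit 76) (nat_lit 4530161419939) (nat_lit 76) (nat_lit 4332517309121) (nat_lit 1) (nat_lit 4) (nat_lit 2) (nat_lit 5) (nat_lit 2) (nat_lit 4) (nat_lit 285) (nat_lit 239) (nat_lit 136)) (XT.lf (nat_lit 0) (nat_lit 21468177095) (nat_lit 532) (nat_lit 5976780794) (nat_lit 532) (nat_lit 5976780794)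 (nat_lit 45) (nat_lit 3) (nat_lit 52) (nat_lit 3) (nat_lit 52) (nat_lit 5) (nat_lit 240) (nat_lit 240) (nat_lit 180))) (XT.nd (nat_lit 78) (nat_lit 0) (nat_lit 0) (XT.lf (nat_lit 0) (nat_lit 47349400917) (nat_lit 456) (nat_lit 23813847087) (nat_lit 532) (nat_lit 597995056) (nat_lit 46) (nat_lit 5) (nat_lit 52) (nat_lit 5) (nat_lit 53) (nat_lit 5) (nat_lit 241) (nat_lit 240) (nat_lit 179)) (XT.lf (nat_lit 76) (nat_lit 40673155411) (nat_lit 0) (nat_lit 14600300037) (nat_lit 532) (nat_lit 21915306470) (nat_lit 47) (nat_lit 5) (nat_lit 46) (nat_lit 5) (nat_lit 53) (nat_lit 5) (nat_lit 242) (nat_lit 240) (nat_lit 178))))))) (XT.nd (nat_lit 936) (nat_lit 988) (nat_lit 0) (XT.nd (nat_lit 468) (nat_lit 988) (nat_lit 0) (XT.nd (nat_lit 234) (nat_lit 456) (nat_lit 0) (XT.nd (nat_lit 78) (nat_lit 684) (nat_lit 0) (XT.lf (nat_lit 76) (nat_lit 33333619084) (nat_lit 0) (nat_lit 33774964979) (nat_lit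 532) (nat_lit 16104038028) (nat_lit 48) (nat_lit 5) (nat_lit 47) (nat_lit 5) (nat_lit 54) (nat_lit 5) (nat_lit 243) (nat_lit 240) (nat_lit 177)) (XT.nd (nat_lit 78) (nat_lit 304) (nat_lit 0) (XT.lf (nat_lit 0) (nat_lit 25916171182) (nat_lit 456) (nat_lit 57679614666) (nat_lit 532) (nat_lit 6314140490) (nat_lit 42) (nat_lit 5) (nat_lit 48) (nat_lit 5) (nat_lit 49) (nat_lit 5) (nat_lit 244) (nat_lit 240) (nat_lit 176)) (XT.lf (nat_lit 0) (nat_lit 7822705536) (nat_lit 304) (nat_lit 79200712846) (nat_lit 76) (nat_lit 10328839054) (nat_lit 38) (nat_lit 5) (nat_lit 42) (nat_lit 5) (nat_lit 39) (nat_lit 5) (nat_lit 245) (nat_lit 240) (nat_lit 175)))) (XT.nd (nat_lit 78) (nat_lit 228) (nat_lit 0) (XT.lf (nat_lit 0) (nat_lit 9380047420) (nat_lit 228) (nat_lit 18066440539) (nat_lit 304) (nat_lit 78152114333) (nat_lit 35) (nat_lit 5) (nat_lit 38) (nat_lit 5) (nat_lit 39) (nat_lit 5) (nat_lit 246)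 (nat_lit 240) (nat_lit 174)) (XT.nd (nat_lit 78) (nat_lit 228) (nat_lit 0) (XT.lf (nat_lit 0) (nat_lit 53849819792) (nat_lit 304) (nat_lit 388774186) (nat_lit 76) (nat_lit 60536432032) (nat_lit 35) (nat_lit 5) (nat_lit 39) (nat_lit 5) (nat_lit 36) (nat_lit 5) (nat_lit 247) (nat_lit 240) (nat_lit 173)) (XT.lf (nat_lit 0) (nat_lit 88142196034) (nat_lit 304) (nat_lit 10660710529) (nat_lit 76) (nat_lit 26210728106) (nat_lit 32) (nat_lit 5) (nat_lit 36) (nat_lit 5) (nat_lit 33) (nat_lit 5) (nat_lit 248) (nat_lit 240) (nat_lit 172))))) (XT.nd (nat_lit 234) (nat_lit 456) (nat_lit 0) (XT.nd (nat_lit 78) (nat_lit 380) (nat_lit 0) (XT.lf (nat_lit 0) (nat_lit 113728646956) (nat_lit 152) (nat_lit 18094772228) (nat_lit 228) (nat_lit 4625020511) (nat_lit 30) (nat_lit 5) (nat_lit 32) (nat_lit 5) (nat_lit 33) (nat_lit 5) (nat_lit 249) (nat_lit 240) (nat_lit 171)) (XT.nd (nat_lit 78) (nat_lit 152) (nat_lit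 0) (XT.lf (nat_lit 0) (nat_lit 35757593827) (nat_lit 228) (nat_lit 38494985193) (nat_lit 76) (nat_lit 74889605405) (nat_lit 27) (nat_lit 5) (nat_lit 30) (nat_lit 5) (nat_lit 28) (nat_lit 5) (nat_lit 250) (nat_lit 240) (nat_lit 170)) (XT.lf (nat_lit 0) (nat_lit 86165709654) (nat_lit 228) (nat_lit 57547181013) (nat_lit 76) (nat_lit 19678135807) (nat_lit 25) (nat_lit 5) (nat_lit 28) (nat_lit 5) (nat_lit 26) (nat_lit 5) (nat_lit 251) (nat_lit 240) (nat_lit 169)))) (XT.nd (nat_lit 78) (nat_lit 304) (nat_lit 0) (XT.lf (nat_lit 0) (nat_lit 97257421804) (nat_lit 152) (nat_lit 52418710053) (nat_lit 228) (nat_lit 29657778476) (nat_lit 23) (nat_lit 5) (nat_lit 25) (nat_lit 5) (nat_lit 26) (nat_lit 5) (nat_lit 252) (nat_lit 240) (nat_lit 168)) (XT.nd (nat_lit 78) (nat_lit 152) (nat_lit 0) (XT.lf (nat_lit 0) (nat_lit 28927350632) (nat_lit 152) (nat_lit 113867973818) (nat_lit 76) (nat_lit 54413893465)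 (nat_lit 21) (nat_lit 5) (nat_lit 23) (nat_lit 5) (nat_lit 22) (nat_lit 5) (nat_lit 253) (nat_lit 240) (nat_lit 167)) (XT.lf (nat_lit 0) (nat_lit 61720763652) (nat_lit 152) (nat_lit 38257909065) (nat_lit 228) (nat_lit 117290764595) (nat_lit 19) (nat_lit 5) (nat_lit 21) (nat_lit 5) (nat_lit 22) (nat_lit 5) (nat_lit 254) (nat_lit 240) (nat_lit 166)))))) (XT.nd (nat_lit 468) (nat_lit 456) (nat_lit 0) (XT.nd (nat_lit 234) (nat_lit 228) (nat_lit 0) (XT.nd (nat_lit 78) (nat_lit 228) (nat_lit 0) (XT.lf (nat_lit 0) (nat_lit 29906787796) (nat_lit 76) (nat_lit 157871432465) (nat_lit 152) (nat_lit 52073228783) (nat_lit 18) (nat_lit 5) (nat_lit 19) (nat_lit 5) (nat_lit 20) (nat_lit 4) (nat_lit 255) (nat_lit 240) (nat_lit 165)) (XT.nd (nat_lit 78) (nat_lit 152) (nat_lit 0) (XT.lf (nat_lit 0) (nat_lit 27483369841) (nat_lit 152) (nat_lit 14587239958) (nat_lit 76) (nat_lit 223249776094) (nat_lit 17)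 (nat_lit 5) (nat_lit 19) (nat_lit 5) (nat_lit 18) (nat_lit 5) (nat_lit 256) (nat_lit 240) (nat_lit 164)) (XT.lf (nat_lit 0) (nat_lit 123624269633) (nat_lit 228) (nat_lit 76819274659) (nat_lit 76) (nat_lit 93439185776) (nat_lit 15) (nat_lit 5) (nat_lit 18) (nat_lit 5) (nat_lit 16) (nat_lit 4) (nat_lit 257) (nat_lit 240) (nat_lit 163)))) (XT.nd (nat_lit 78) (nat_lit 152) (nat_lit 0) (XT.lf (nat_lit 0) (nat_lit 164713238748) (nat_lit 76) (nat_lit 75032875473) (nat_lit 152) (nat_lit 86538527832) (nat_lit 14) (nat_lit 5) (nat_lit 15) (nat_lit 5) (nat_lit 16) (nat_lit 4) (nat_lit 258) (nat_lit 240) (nat_lit 162)) (XT.nd (nat_lit 78) (nat_lit 0) (nat_lit 0) (XT.lf (nat_lit 0) (nat_lit 15443633614) (nat_lit 152) (nat_lit 277098984429) (nat_lit 76) (nat_lit 70490169529) (nat_lit 12) (nat_lit 5) (nat_lit 14) (nat_lit 5) (nat_lit 13) (nat_lit 4) (nat_lit 259) (nat_lit 240) (nat_lit 161)) (XT.lf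 (nat_lit 0) (nat_lit 134645419717) (nat_lit 152) (nat_lit 29159915795) (nat_lit 76) (nat_lit 240744292010) (nat_lit 12) (nat_lit 5) (nat_lit 14) (nat_lit 5) (nat_lit 13) (nat_lit 4) (nat_lit 260) (nat_lit 240) (nat_lit 160))))) (XT.nd (nat_lit 234) (nat_lit 228) (nat_lit 0) (XT.nd (nat_lit 78) (nat_lit 152) (nat_lit 0) (XT.lf (nat_lit 0) (nat_lit 269447753938) (nat_lit 76) (nat_lit 8759315717) (nat_lit 152) (nat_lit 173568556728) (nat_lit 11) (nat_lit 5) (nat_lit 12) (nat_lit 5) (nat_lit 13) (nat_lit 4) (nat_lit 261) (nat_lit 240) (nat_lit 159)) (XT.nd (nat_lit 78) (nat_lit 76) (nat_lit 0) (XT.lf (nat_lit 0) (nat_lit 109996633181) (nat_lit 76) (nat_lit 340899711008) (nat_lit 76) (nat_lit 54581711229) (nat_lit 10) (nat_lit 4) (nat_lit 11) (nat_lit 5) (nat_lit 11) (nat_lit 4) (nat_lit 262) (nat_lit 240) (nat_lit 158)) (XT.lf (nat_lit 0) (nat_lit 83826398566) (nat_lit 152) (nat_lit 111959484333)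 (nat_lit 76) (nat_lit 370836681188) (nat_lit 9) (nat_lit 5) (nat_lit 11) (nat_lit 5) (nat_lit 10) (nat_lit 4) (nat_lit 263) (nat_lit 240) (nat_lit 157)))) (XT.nd (nat_lit 156) (nat_lit 152) (nat_lit 0) (XT.nd (nat_lit 78) (nat_lit 0) (nat_lit 0) (XT.lf (nat_lit 0) (nat_lit 223774375090) (nat_lit 76) (nat_lit 21462697350) (nat_lit 152) (nat_lit 391150404912) (nat_lit 8) (nat_lit 5) (nat_lit 9) (nat_lit 5) (nat_lit 10) (nat_lit 4) (nat_lit 264) (nat_lit 240) (nat_lit 156)) (XT.lf (nat_lit 0) (nat_lit 438508321792) (nat_lit 152) (nat_lit 104098782295) (nat_lit 0) (nat_lit 173398105882) (nat_lit 8) (nat_lit 5) (nat_lit 10) (nat_lit 4) (nat_lit 8) (nat_lit 4) (nat_lit 265) (nat_lit 240) (nat_lit 155))) (XT.nd (nat_lit 78) (nat_lit 76) (nat_lit 0) (XT.lf (nat_lit 0) (nat_lit 263268098442) (nat_lit 76) (nat_lit 404426986845) (nat_lit 76) (nat_lit 139316531324) (nat_lit 7) (nat_lit 4) (nat_lit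 8) (nat_lit 5) (nat_lit 8) (nat_lit 4) (nat_lit 266) (nat_lit 240) (nat_lit 154)) (XT.lf (nat_lit 0) (nat_lit 21719950382) (nat_lit 152) (nat_lit 219933167083) (nat_lit 76) (nat_lit 669729447201) (nat_lit 6) (nat_lit 5) (nat_lit 8) (nat_lit 5) (nat_lit 7) (nat_lit 4) (nat_lit 267) (nat_lit 240) (nat_lit 153))))))))
noncomputable def xc47 : XT := (XT.nd (nat_lit 32838) (nat_lit 0) (nat_lit 228) (XT.nd (nat_lit 936) (nat_lit 76) (nat_lit 0) (XT.nd (nat_lit 468) (nat_lit 152) (nat_lit 0) (XT.nd (nat_lit 234) (nat_lit 76) (nat_lit 0) (XT.nd (nat_lit 78) (nat_lit 0) (nat_lit 0) (XT.lf (nat_lit 0) (nat_lit 156419746520) (nat_lit 76) (nat_lit 46239191738) (nat_lit 152) (nat_lit 828141037786) (nat_lit 5) (nat_lit 5) (nat_lit 6) (nat_lit 5) (nat_lit 7) (nat_lit 4) (nat_lit 268) (nat_lit 240) (nat_lit 152)) (XT.nd (nat_lit 78) (nat_lit 0) (nat_lit 0) (XT.lf (nat_lit 0) (nat_lit 421600529389) (nat_lit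 152) (nat_lit 569533150673) (nat_lit 0) (nat_lit 176127378827) (nat_lit 5) (nat_lit 5) (nat_lit 7) (nat_lit 4) (nat_lit 5) (nat_lit 4) (nat_lit 269) (nat_lit 240) (nat_lit 151)) (XT.lf (nat_lit 0) (nat_lit 674661969109) (nat_lit 152) (nat_lit 220238354706) (nat_lit 0) (nat_lit 429188691697) (nat_lit 5) (nat_lit 5) (nat_lit 7) (nat_lit 4) (nat_lit 5) (nat_lit 4) (nat_lit 270) (nat_lit 240) (nat_lit 150)))) (XT.nd (nat_lit 78) (nat_lit 0) (nat_lit 0) (XT.lf (nat_lit 0) (nat_lit 191005088784) (nat_lit 76) (nat_lit 779270994022) (nat_lit 76) (nat_lit 533797606305) (nat_lit 4) (nat_lit 4) (nat_lit 5) (nat_lit 5) (nat_lit 5) (nat_lit 4) (nat_lit 271) (nat_lit 240) (nat_lit 149)) (XT.nd (nat_lit 78) (nat_lit 0) (nat_lit 0) (XT.lf (nat_lit 0) (nat_lit 677271630042) (nat_lit 76) (nat_lit 639372486603) (nat_lit 76) (nat_lit 393899002969) (nat_lit 4) (nat_lit 4) (nat_lit 5) (nat_lit 5) (nat_lit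 5) (nat_lit 4) (nat_lit 272) (nat_lit 240) (nat_lit 148)) (XT.lf (nat_lit 0) (nat_lit 1236477818194) (nat_lit 76) (nat_lit 478489363760) (nat_lit 76) (nat_lit 233015796720) (nat_lit 4) (nat_lit 4) (nat_lit 5) (nat_lit 5) (nat_lit 5) (nat_lit 4) (nat_lit 273) (nat_lit 240) (nat_lit 147))))) (XT.nd (nat_lit 234) (nat_lit 0) (nat_lit 0) (XT.nd (nat_lit 78) (nat_lit 152) (nat_lit 0) (XT.lf (nat_lit 0) (nat_lit 1879564643878) (nat_lit 76) (nat_lit 293473912220) (nat_lit 76) (nat_lit 48000272653) (nat_lit 4) (nat_lit 4) (nat_lit 5) (nat_lit 5) (nat_lit 5) (nat_lit 4) (nat_lit 274) (nat_lit 240) (nat_lit 146)) (XT.nd (nat_lit 78) (nat_lit 0) (nat_lit 0) (XT.lf (nat_lit 0) (nat_lit 84316358614) (nat_lit 76) (nat_lit 74236555447) (nat_lit 152) (nat_lit 2376020915151) (nat_lit 2) (nat_lit 5) (nat_lit 3) (nat_lit 5) (nat_lit 4) (nat_lit 4) (nat_lit 275) (nat_lit 240) (nat_lit 145)) (XT.lf (nat_lit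 0) (nat_lit 407805660440) (nat_lit 152) (nat_lit 2305553835595) (nat_lit 0) (nat_lit 180515144260) (nat_lit 2) (nat_lit 5) (nat_lit 4) (nat_lit 4) (nat_lit 2) (nat_lit 4) (nat_lit 276) (nat_lit 240) (nat_lit 144)))) (XT.nd (nat_lit 78) (nat_lit 0) (nat_lit 0) (XT.lf (nat_lit 0) (nat_lit 696499409091) (nat_lit 152) (nat_lit 2141198068020) (nat_lit 0) (nat_lit 469208848756) (nat_lit 2) (nat_lit 5) (nat_lit 4) (nat_lit 4) (nat_lit 2) (nat_lit 4) (nat_lit 277) (nat_lit 240) (nat_lit 143)) (XT.nd (nat_lit 78) (nat_lit 0) (nat_lit 0) (XT.lf (nat_lit 0) (nat_lit 1028497125022) (nat_lit 152) (nat_lit 1952189120607) (nat_lit 0) (nat_lit 801206526291) (nat_lit 2) (nat_lit 5) (nat_lit 4) (nat_lit 4) (nat_lit 2) (nat_lit 4) (nat_lit 278) (nat_lit 240) (nat_lit 142)) (XT.lf (nat_lit 0) (nat_lit 1410294415719) (nat_lit 152) (nat_lit 1734828992211) (nat_lit 0) (nat_lit 1183003783599) (nat_lit 2) (nat_lit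 5) (nat_lit 4) (nat_lit 4) (nat_lit 2) (nat_lit 4) (nat_lit 279) (nat_lit 240) (nat_lit 141)))))) (XT.nd (nat_lit 31356) (nat_lit 0) (nat_lit 2584) (XT.nd (nat_lit 234) (nat_lit 76) (nat_lit 0) (XT.nd (nat_lit 78) (nat_lit 0) (nat_lit 0) (XT.lf (nat_lit 0) (nat_lit 1849361228172) (nat_lit 152) (nat_lit 1484864984668) (nat_lit 0) (nat_lit 1622070567020) (nat_lit 2) (nat_lit 5) (nat_lit 4) (nat_lit 4) (nat_lit 2) (nat_lit 4) (nat_lit 280) (nat_lit 240) (nat_lit 140)) (XT.nd (nat_lit 78) (nat_lit 0) (nat_lit 0) (XT.lf (nat_lit 0) (nat_lit 2354288000018) (nat_lit 152) (nat_lit 1197406497830) (nat_lit 0) (nat_lit 2126997313620) (nat_lit 2) (nat_lit 5) (nat_lit 4) (nat_lit 4) (nat_lit 2) (nat_lit 4) (nat_lit 281) (nat_lit 240) (nat_lit 139)) (XT.lf (nat_lit 0) (nat_lit 2934953733314) (nat_lit 152) (nat_lit 866829343910) (nat_lit 0) (nat_lit 2707663024963) (nat_lit 2) (nat_lit 5) (nat_lit 4)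 (nat_lit 4) (nat_lit 2) (nat_lit 4) (nat_lit 282) (nat_lit 240) (nat_lit 138)))) (XT.nd (nat_lit 78) (nat_lit 76) (nat_lit 0) (XT.lf (nat_lit 0) (nat_lit 3602719279363) (nat_lit 152) (nat_lit 486665709029) (nat_lit 0) (nat_lit 3375428551923) (nat_lit 2) (nat_lit 5) (nat_lit 4) (nat_lit 4) (nat_lit 2) (nat_lit 4) (nat_lit 283) (nat_lit 240) (nat_lit 137)) (XT.nd (nat_lit 78) (nat_lit 76) (nat_lit 0) (XT.lf (nat_lit 0) (nat_lit 4370649616241) (nat_lit 152) (nat_lit 49477609025) (nat_lit 0) (nat_lit 4143358872201) (nat_lit 2) (nat_lit 5) (nat_lit 4) (nat_lit 4) (nat_lit 2) (nat_lit 4) (nat_lit 284) (nat_lit 240) (nat_lit 136)) (XT.lf (nat_lit 0) (nat_lit 477158012610) (nat_lit 76) (nat_lit 4788087116999) (nat_lit 76) (nat_lit 4560796358524) (nat_lit 1) (nat_lit 4) (nat_lit 2) (nat_lit 5) (nat_lit 2) (nat_lit 4) (nat_lit 285) (nat_lit 240) (nat_lit 135))))) (XT.nd (nat_lit 234) (nat_lit 760)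 (nat_lit 0) (XT.nd (nat_lit 78) (nat_lit 0) (nat_lit 76) (XT.lf (nat_lit 0) (nat_lit 24711555382) (nat_lit 532) (nat_lit 6860762673) (nat_lit 532) (nat_lit 6860762673) (nat_lit 45) (nat_lit 3) (nat_lit 52) (nat_lit 3) (nat_lit 52) (nat_lit 5) (nat_lit 241) (nat_lit 241) (nat_lit 178)) (XT.nd (nat_lit 78) (nat_lit 0) (nat_lit 0) (XT.lf (nat_lit 0) (nat_lit 54492197118) (nat_lit 456) (nat_lit 27359164931) (nat_lit 532) (nat_lit 670720727) (nat_lit 46) (nat_lit 5) (nat_lit 52) (nat_lit 5) (nat_lit 53) (nat_lit 5) (nat_lit 242) (nat_lit 241) (nat_lit 177)) (XT.lf (nat_lit 76) (nat_lit 46798622908) (nat_lit 0) (nat_lit 16801558259) (nat_lit 532) (nat_lit 25163937700) (nat_lit 47) (nat_lit 5) (nat_lit 46) (nat_lit 5) (nat_lit 53) (nat_lit 5) (nat_lit 243) (nat_lit 241) (nat_lit 176)))) (XT.nd (nat_lit 156) (nat_lit 532) (nat_lit 0) (XT.nd (nat_lit 78) (nat_lit 380) (nat_lit 0) (XT.lf (nat_lit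 76) (nat_lit 38359036687) (nat_lit 0) (nat_lit 38847260661) (nat_lit 532) (nat_lit 18485616398) (nat_lit 48) (nat_lit 5) (nat_lit 47) (nat_lit 5) (nat_lit 54) (nat_lit 5) (nat_lit 244) (nat_lit 241) (nat_lit 175)) (XT.lf (nat_lit 0) (nat_lit 29829338404) (nat_lit 456) (nat_lit 66333634536) (nat_lit 532) (nat_lit 7231140633) (nat_lit 42) (nat_lit 5) (nat_lit 48) (nat_lit 5) (nat_lit 49) (nat_lit 5) (nat_lit 245) (nat_lit 241) (nat_lit 174))) (XT.nd (nat_lit 78) (nat_lit 228) (nat_lit 0) (XT.lf (nat_lit 0) (nat_lit 9021583183) (nat_lit 304) (nat_lit 91053701859) (nat_lit 76) (nat_lit 11877711929) (nat_lit 38) (nat_lit 5) (nat_lit 42) (nat_lit 5) (nat_lit 39) (nat_lit 5) (nat_lit 246) (nat_lit 241) (nat_lit 173)) (XT.lf (nat_lit 0) (nat_lit 10811877050) (nat_lit 228) (nat_lit 20774330491) (nat_lit 304) (nat_lit 89850312050) (nat_lit 35) (nat_lit 5) (nat_lit 38) (nat_lit 5) (nat_lit 39) (nat_lit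 5) (nat_lit 247) (nat_lit 241) (nat_lit 172))))))) (XT.nd (nat_lit 1014) (nat_lit 608) (nat_lit 0) (XT.nd (nat_lit 468) (nat_lit 836) (nat_lit 0) (XT.nd (nat_lit 234) (nat_lit 532) (nat_lit 0) (XT.nd (nat_lit 78) (nat_lit 380) (nat_lit 0) (XT.lf (nat_lit 0) (nat_lit 61947115647) (nat_lit 304) (nat_lit 423920199) (nat_lit 76) (nat_lit 69618611857) (nat_lit 35) (nat_lit 5) (nat_lit 39) (nat_lit 5) (nat_lit 36) (nat_lit 5) (nat_lit 248) (nat_lit 241) (nat_lit 171)) (XT.nd (nat_lit 78) (nat_lit 152) (nat_lit 0) (XT.lf (nat_lit 0) (nat_lit 101381356055) (nat_lit 304) (nat_lit 12237231359) (nat_lit 76) (nat_lit 30145625677) (nat_lit 32) (nat_lit 5) (nat_lit 36) (nat_lit 5) (nat_lit 33) (nat_lit 5) (nat_lit 249) (nat_lit 241) (nat_lit 170)) (XT.lf (nat_lit 0) (nat_lit 130808617977) (nat_lit 152) (nat_lit 20804316177) (nat_lit 228) (nat_lit 5301456259) (nat_lit 30) (nat_lit 5) (nat_lit 32) (nat_lit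 5) (nat_lit 33) (nat_lit 5) (nat_lit 250) (nat_lit 241) (nat_lit 169)))) (XT.nd (nat_lit 78) (nat_lit 304) (nat_lit 0) (XT.lf (nat_lit 0) (nat_lit 41136132513) (nat_lit 228) (nat_lit 44248395060) (nat_lit 76) (nat_lit 86127764311) (nat_lit 27) (nat_lit 5) (nat_lit 30) (nat_lit 5) (nat_lit 28) (nat_lit 5) (nat_lit 251) (nat_lit 241) (nat_lit 168)) (XT.nd (nat_lit 78) (nat_lit 152) (nat_lit 0) (XT.lf (nat_lit 0) (nat_lit 99104117122) (nat_lit 228) (nat_lit 66159222436) (nat_lit 76) (nat_lit 22635232253) (nat_lit 25) (nat_lit 5) (nat_lit 28) (nat_lit 5) (nat_lit 26) (nat_lit 5) (nat_lit 252) (nat_lit 241) (nat_lit 167)) (XT.lf (nat_lit 0) (nat_lit 111864374879) (nat_lit 152) (nat_lit 60275401325) (nat_lit 228) (nat_lit 34093221363) (nat_lit 23) (nat_lit 5) (nat_lit 25) (nat_lit 5) (nat_lit 26) (nat_lit 5) (nat_lit 253) (nat_lit 241) (nat_lit 166))))) (XT.nd (nat_lit 234) (nat_lit 456) (nat_lit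 0) (XT.nd (nat_lit 78) (nat_lit 228) (nat_lit 0) (XT.lf (nat_lit 0) (nat_lit 33277941711) (nat_lit 152) (nat_lit 130929980200) (nat_lit 76) (nat_lit 62581742421) (nat_lit 21) (nat_lit 5) (nat_lit 23) (nat_lit 5) (nat_lit 22) (nat_lit 5) (nat_lit 254) (nat_lit 241) (nat_lit 165)) (XT.nd (nat_lit 78) (nat_lit 76) (nat_lit 0) (XT.lf (nat_lit 0) (nat_lit 70995528224) (nat_lit 152) (nat_lit 43990335821) (nat_lit 228) (nat_lit 134873142682) (nat_lit 19) (nat_lit 5) (nat_lit 21) (nat_lit 5) (nat_lit 22) (nat_lit 5) (nat_lit 255) (nat_lit 241) (nat_lit 164)) (XT.lf (nat_lit 0) (nat_lit 34408683404) (nat_lit 76) (nat_lit 181545817805) (nat_lit 152) (nat_lit 59873888361) (nat_lit 18) (nat_lit 5) (nat_lit 19) (nat_lit 5) (nat_lit 20) (nat_lit 4) (nat_lit 256) (nat_lit 241) (nat_lit 163)))) (XT.nd (nat_lit 156) (nat_lit 228) (nat_lit 0) (XT.nd (nat_lit 78) (nat_lit 152) (nat_lit 0) (XT.lf (nat_lit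 0) (nat_lit 31614404234) (nat_lit 152) (nat_lit 16761059901) (nat_lit 76) (nat_lit 256742286864) (nat_lit 17) (nat_lit 5) (nat_lit 19) (nat_lit 5) (nat_lit 18) (nat_lit 5) (nat_lit 257) (nat_lit 241) (nat_lit 162)) (XT.lf (nat_lit 0) (nat_lit 142175768723) (nat_lit 228) (nat_lit 88328607954) (nat_lit 76) (nat_lit 107460125109) (nat_lit 15) (nat_lit 5) (nat_lit 18) (nat_lit 5) (nat_lit 16) (nat_lit 4) (nat_lit 258) (nat_lit 241) (nat_lit 161))) (XT.nd (nat_lit 78) (nat_lit 152) (nat_lit 0) (XT.lf (nat_lit 0) (nat_lit 189432634855) (nat_lit 76) (nat_lit 86282528572) (nat_lit 152) (nat_lit 99511596455) (nat_lit 14) (nat_lit 5) (nat_lit 15) (nat_lit 5) (nat_lit 16) (nat_lit 4) (nat_lit 259) (nat_lit 241) (nat_lit 160)) (XT.lf (nat_lit 0) (nat_lit 17766951831) (nat_lit 152) (nat_lit 318651695915) (nat_lit 76) (nat_lit 81068509736) (nat_lit 12) (nat_lit 5) (nat_lit 14) (nat_lit 5) (nat_lit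 13) (nat_lit 4) (nat_lit 260) (nat_lit 241) (nat_lit 159)))))) (XT.nd (nat_lit 468) (nat_lit 304) (nat_lit 0) (XT.nd (nat_lit 234) (nat_lit 152) (nat_lit 0) (XT.nd (nat_lit 78) (nat_lit 152) (nat_lit 0) (XT.lf (nat_lit 0) (nat_lit 154848122391) (nat_lit 152) (nat_lit 33523349966) (nat_lit 76) (nat_lit 276860122575) (nat_lit 12) (nat_lit 5) (nat_lit 14) (nat_lit 5) (nat_lit 13) (nat_lit 4) (nat_lit 261) (nat_lit 241) (nat_lit 158)) (XT.nd (nat_lit 78) (nat_lit 76) (nat_lit 0) (XT.lf (nat_lit 0) (nat_lit 309874576951) (nat_lit 76) (nat_lit 10068906967) (nat_lit 152) (nat_lit 199598053300) (nat_lit 11) (nat_lit 5) (nat_lit 12) (nat_lit 5) (nat_lit 13) (nat_lit 4) (nat_lit 262) (nat_lit 241) (nat_lit 157)) (XT.lf (nat_lit 0) (nat_lit 126505272081) (nat_lit 76) (nat_lit 392030489193) (nat_lit 76) (nat_lit 62763601032) (nat_lit 10) (nat_lit 4) (nat_lit 11) (nat_lit 5) (nat_lit 11) (nat_lit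 4) (nat_lit 263) (nat_lit 241) (nat_lit 156)))) (XT.nd (nat_lit 78) (nat_lit 76) (nat_lit 0) (XT.lf (nat_lit 0) (nat_lit 96404791750) (nat_lit 152) (nat_lit 128745218917) (nat_lit 76) (nat_lit 426465579988) (nat_lit 9) (nat_lit 5) (nat_lit 11) (nat_lit 5) (nat_lit 10) (nat_lit 4) (nat_lit 264) (nat_lit 241) (nat_lit 155)) (XT.nd (nat_lit 78) (nat_lit 0) (nat_lit 0) (XT.lf (nat_lit 0) (nat_lit 257348026340) (nat_lit 76) (nat_lit 24678642350) (nat_lit 152) (nat_lit 449818604501) (nat_lit 8) (nat_lit 5) (nat_lit 9) (nat_lit 5) (nat_lit 10) (nat_lit 4) (nat_lit 265) (nat_lit 241) (nat_lit 154)) (XT.lf (nat_lit 0) (nat_lit 504288151442) (nat_lit 152) (nat_lit 119706871337) (nat_lit 0) (nat_lit 199410679624) (nat_lit 8) (nat_lit 5) (nat_lit 10) (nat_lit 4) (nat_lit 8) (nat_lit 4) (nat_lit 266) (nat_lit 241) (nat_lit 153))))) (XT.nd (nat_lit 234) (nat_lit 76) (nat_lit 0) (XT.nd (nat_lit 78)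 (nat_lit 152) (nat_lit 0) (XT.lf (nat_lit 0) (nat_lit 302764471993) (nat_lit 76) (nat_lit 465088138451) (nat_lit 76) (nat_lit 160210485453) (nat_lit 7) (nat_lit 4) (nat_lit 8) (nat_lit 5) (nat_lit 8) (nat_lit 4) (nat_lit 267) (nat_lit 241) (nat_lit 152)) (XT.nd (nat_lit 78) (nat_lit 76) (nat_lit 0) (XT.lf (nat_lit 0) (nat_lit 24980855293) (nat_lit 152) (nat_lit 252917631536) (nat_lit 76) (nat_lit 770191227764) (nat_lit 6) (nat_lit 5) (nat_lit 8) (nat_lit 5) (nat_lit 7) (nat_lit 4) (nat_lit 268) (nat_lit 241) (nat_lit 151)) (XT.lf (nat_lit 0) (nat_lit 179887752663) (nat_lit 76) (nat_lit 53172680128) (nat_lit 152) (nat_lit 952359325803) (nat_lit 5) (nat_lit 5) (nat_lit 6) (nat_lit 5) (nat_lit 7) (nat_lit 4) (nat_lit 269) (nat_lit 241) (nat_lit 150)))) (XT.nd (nat_lit 156) (nat_lit 76) (nat_lit 0) (XT.nd (nat_lit 78) (nat_lit 0) (nat_lit 0) (XT.lf (nat_lit 0) (nat_lit 484842966434) (nat_lit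 152) (nat_lit 654958601072) (nat_lit 0) (nat_lit 202548460255) (nat_lit 5) (nat_lit 5) (nat_lit 7) (nat_lit 4) (nat_lit 5) (nat_lit 4) (nat_lit 270) (nat_lit 241) (nat_lit 149)) (XT.lf (nat_lit 0) (nat_lit 775863314594) (nat_lit 152) (nat_lit 253270175562) (nat_lit 0) (nat_lit 493568712498) (nat_lit 5) (nat_lit 5) (nat_lit 7) (nat_lit 4) (nat_lit 5) (nat_lit 4) (nat_lit 271) (nat_lit 241) (nat_lit 148))) (XT.nd (nat_lit 78) (nat_lit 0) (nat_lit 0) (XT.lf (nat_lit 0) (nat_lit 219659451597) (nat_lit 76) (nat_lit 896159912910) (nat_lit 76) (nat_lit 613865227408) (nat_lit 4) (nat_lit 4) (nat_lit 5) (nat_lit 5) (nat_lit 5) (nat_lit 4) (nat_lit 272) (nat_lit 241) (nat_lit 147)) (XT.lf (nat_lit 0) (nat_lit 778865504544) (nat_lit 76) (nat_lit 735276855058) (nat_lit 76) (nat_lit 452982097029) (nat_lit 4) (nat_lit 4) (nat_lit 5) (nat_lit 5) (nat_lit 5) (nat_lit 4) (nat_lit 273) (nat_lit 241) (nat_lit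 146))))))))
noncomputable def xc48 : XT := (XT.nd (nat_lit 32916) (nat_lit 0) (nat_lit 0) (XT.nd (nat_lit 31902) (nat_lit 0) (nat_lit 1596) (XT.nd (nat_lit 468) (nat_lit 0) (nat_lit 0) (XT.nd (nat_lit 234) (nat_lit 0) (nat_lit 0) (XT.nd (nat_lit 78) (nat_lit 152) (nat_lit 0) (XT.lf (nat_lit 0) (nat_lit 1421952212659) (nat_lit 76) (nat_lit 550261460032) (nat_lit 76) (nat_lit 267966638936) (nat_lit 4) (nat_lit 4) (nat_lit 5) (nat_lit 5) (nat_lit 5) (nat_lit 4) (nat_lit 274) (nat_lit 241) (nat_lit 145)) (XT.nd (nat_lit 78) (nat_lit 152) (nat_lit 0) (XT.lf (nat_lit 0) (nat_lit 2161501707187) (nat_lit 76) (nat_lit 337493861409) (nat_lit 76) (nat_lit 55198985472) (nat_lit 4) (nat_lit 4) (nat_lit 5) (nat_lit 5) (nat_lit 5) (nat_lit 4) (nat_lit 275) (nat_lit 241) (nat_lit 144)) (XT.lf (nat_lit 0) (nat_lit 96966040182) (nat_lit 76) (nat_lit 85370961647) (nat_lit 152) (nat_lit 2732422809170) (nat_lit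 2) (nat_lit 5) (nat_lit 3) (nat_lit 5) (nat_lit 4) (nat_lit 4) (nat_lit 276) (nat_lit 241) (nat_lit 143)))) (XT.nd (nat_lit 78) (nat_lit 0) (nat_lit 0) (XT.lf (nat_lit 0) (nat_lit 468977532606) (nat_lit 152) (nat_lit 2651384915747) (nat_lit 0) (nat_lit 207593305669) (nat_lit 2) (nat_lit 5) (nat_lit 4) (nat_lit 4) (nat_lit 2) (nat_lit 4) (nat_lit 277) (nat_lit 241) (nat_lit 142)) (XT.nd (nat_lit 78) (nat_lit 0) (nat_lit 0) (XT.lf (nat_lit 0) (nat_lit 800975210107) (nat_lit 152) (nat_lit 2462376043278) (nat_lit 0) (nat_lit 539590949782) (nat_lit 2) (nat_lit 5) (nat_lit 4) (nat_lit 4) (nat_lit 2) (nat_lit 4) (nat_lit 278) (nat_lit 241) (nat_lit 141)) (XT.lf (nat_lit 0) (nat_lit 1182772467386) (nat_lit 152) (nat_lit 2245015980050) (nat_lit 0) (nat_lit 921388178028) (nat_lit 2) (nat_lit 5) (nat_lit 4) (nat_lit 4) (nat_lit 2) (nat_lit 4) (nat_lit 279) (nat_lit 241) (nat_lit 140))))) (XT.nd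 (nat_lit 234) (nat_lit 0) (nat_lit 0) (XT.nd (nat_lit 78) (nat_lit 0) (nat_lit 0) (XT.lf (nat_lit 0) (nat_lit 1621839250781) (nat_lit 152) (nat_lit 1995052029175) (nat_lit 0) (nat_lit 1360454936177) (nat_lit 2) (nat_lit 5) (nat_lit 4) (nat_lit 4) (nat_lit 2) (nat_lit 4) (nat_lit 280) (nat_lit 241) (nat_lit 139)) (XT.nd (nat_lit 78) (nat_lit 0) (nat_lit 0) (XT.lf (nat_lit 0) (nat_lit 2126765997358) (nat_lit 152) (nat_lit 1707593591613) (nat_lit 0) (nat_lit 1865381660802) (nat_lit 2) (nat_lit 5) (nat_lit 4) (nat_lit 4) (nat_lit 2) (nat_lit 4) (nat_lit 281) (nat_lit 241) (nat_lit 138)) (XT.lf (nat_lit 0) (nat_lit 2707431708682) (nat_lit 152) (nat_lit 1377016480543) (nat_lit 0) (nat_lit 2446047353036) (nat_lit 2) (nat_lit 5) (nat_lit 4) (nat_lit 4) (nat_lit 2) (nat_lit 4) (nat_lit 282) (nat_lit 241) (nat_lit 137)))) (XT.nd (nat_lit 78) (nat_lit 0) (nat_lit 0) (XT.lf (nat_lit 0) (nat_lit 3375197235625)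 (nat_lit 152) (nat_lit 996852882922) (nat_lit 0) (nat_lit 3113812863379) (nat_lit 2) (nat_lit 5) (nat_lit 4) (nat_lit 4) (nat_lit 2) (nat_lit 4) (nat_lit 283) (nat_lit 241) (nat_lit 136)) (XT.nd (nat_lit 78) (nat_lit 0) (nat_lit 0) (XT.lf (nat_lit 0) (nat_lit 4143127555889) (nat_lit 152) (nat_lit 559664815319) (nat_lit 0) (nat_lit 3881743169209) (nat_lit 2) (nat_lit 5) (nat_lit 4) (nat_lit 4) (nat_lit 2) (nat_lit 4) (nat_lit 284) (nat_lit 241) (nat_lit 135)) (XT.lf (nat_lit 0) (nat_lit 5026247393131) (nat_lit 152) (nat_lit 56898598148) (nat_lit 0) (nat_lit 4764862993899) (nat_lit 2) (nat_lit 5) (nat_lit 4) (nat_lit 4) (nat_lit 2) (nat_lit 4) (nat_lit 285) (nat_lit 241) (nat_lit 134)))))) (XT.nd (nat_lit 468) (nat_lit 1140) (nat_lit 0) (XT.nd (nat_lit 234) (nat_lit 532) (nat_lit 0) (XT.nd (nat_lit 78) (nat_lit 0) (nat_lit 76) (XT.lf (nat_lit 0) (nat_lit 28435794717) (nat_lit 532) (nat_lit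 7880398633) (nat_lit 532) (nat_lit 7880398633) (nat_lit 45) (nat_lit 3) (nat_lit 52) (nat_lit 3) (nat_lit 52) (nat_lit 5) (nat_lit 242) (nat_lit 242) (nat_lit 176)) (XT.nd (nat_lit 78) (nat_lit 0) (nat_lit 0) (XT.lf (nat_lit 0) (nat_lit 62696564351) (nat_lit 456) (nat_lit 31442805856) (nat_lit 532) (nat_lit 758494366) (nat_lit 46) (nat_lit 5) (nat_lit 52) (nat_lit 5) (nat_lit 53) (nat_lit 5) (nat_lit 243) (nat_lit 242) (nat_lit 175)) (XT.lf (nat_lit 76) (nat_lit 53836937467) (nat_lit 0) (nat_lit 19330270800) (nat_lit 532) (nat_lit 28909292257) (nat_lit 47) (nat_lit 5) (nat_lit 46) (nat_lit 5) (nat_lit 53) (nat_lit 5) (nat_lit 244) (nat_lit 242) (nat_lit 174)))) (XT.nd (nat_lit 78) (nat_lit 684) (nat_lit 0) (XT.lf (nat_lit 76) (nat_lit 44132079139) (nat_lit 0) (nat_lit 44678925136) (nat_lit 532) (nat_lit 21232729304) (nat_lit 48) (nat_lit 5) (nat_lit 47) (nat_lit 5) (nat_lit 54) (nat_lit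 5) (nat_lit 245) (nat_lit 242) (nat_lit 173)) (XT.nd (nat_lit 78) (nat_lit 304) (nat_lit 0) (XT.lf (nat_lit 0) (nat_lit 34323203470) (nat_lit 456) (nat_lit 76285250734) (nat_lit 532) (nat_lit 8293035977) (nat_lit 42) (nat_lit 5) (nat_lit 48) (nat_lit 5) (nat_lit 49) (nat_lit 5) (nat_lit 246) (nat_lit 242) (nat_lit 172)) (XT.lf (nat_lit 0) (nat_lit 10394081013) (nat_lit 304) (nat_lit 104691252100) (nat_lit 76) (nat_lit 13659026197) (nat_lit 38) (nat_lit 5) (nat_lit 42) (nat_lit 5) (nat_lit 39) (nat_lit 5) (nat_lit 247) (nat_lit 242) (nat_lit 171))))) (XT.nd (nat_lit 234) (nat_lit 684) (nat_lit 0) (XT.nd (nat_lit 78) (nat_lit 228) (nat_lit 0) (XT.lf (nat_lit 0) (nat_lit 12452427996) (nat_lit 228) (nat_lit 23888910212) (nat_lit 304) (nat_lit 103309243029) (nat_lit 35) (nat_lit 5) (nat_lit 38) (nat_lit 5) (nat_lit 39) (nat_lit 5) (nat_lit 248) (nat_lit 242) (nat_lit 170)) (XT.nd (nat_lit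 78) (nat_lit 228) (nat_lit 0) (XT.lf (nat_lit 0) (nat_lit 71254171943) (nat_lit 304) (nat_lit 469988294) (nat_lit 76) (nat_lit 80062700437) (nat_lit 35) (nat_lit 5) (nat_lit 39) (nat_lit 5) (nat_lit 36) (nat_lit 5) (nat_lit 249) (nat_lit 242) (nat_lit 169)) (XT.lf (nat_lit 0) (nat_lit 116602041970) (nat_lit 304) (nat_lit 14055737991) (nat_lit 76) (nat_lit 34669955998) (nat_lit 32) (nat_lit 5) (nat_lit 36) (nat_lit 5) (nat_lit 33) (nat_lit 5) (nat_lit 250) (nat_lit 242) (nat_lit 168)))) (XT.nd (nat_lit 156) (nat_lit 304) (nat_lit 0) (XT.nd (nat_lit 78) (nat_lit 228) (nat_lit 0) (XT.lf (nat_lit 0) (nat_lit 150445543171) (nat_lit 152) (nat_lit 23921430987) (nat_lit 228) (nat_lit 6083580310) (nat_lit 30) (nat_lit 5) (nat_lit 32) (nat_lit 5) (nat_lit 33) (nat_lit 5) (nat_lit 251) (nat_lit 242) (nat_lit 167)) (XT.lf (nat_lit 0) (nat_lit 47317818637) (nat_lit 228) (nat_lit 50869897864) (nat_lit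 76) (nat_lit 99050496515) (nat_lit 27) (nat_lit 5) (nat_lit 30) (nat_lit 5) (nat_lit 28) (nat_lit 5) (nat_lit 252) (nat_lit 242) (nat_lit 166))) (XT.nd (nat_lit 78) (nat_lit 152) (nat_lit 0) (XT.lf (nat_lit 0) (nat_lit 113979981207) (nat_lit 228) (nat_lit 76067955911) (nat_lit 76) (nat_lit 26034582177) (nat_lit 25) (nat_lit 5) (nat_lit 28) (nat_lit 5) (nat_lit 26) (nat_lit 5) (nat_lit 253) (nat_lit 242) (nat_lit 165)) (XT.lf (nat_lit 0) (nat_lit 128657898638) (nat_lit 152) (nat_lit 69312087526) (nat_lit 228) (nat_lit 39197205412) (nat_lit 23) (nat_lit 5) (nat_lit 25) (nat_lit 5) (nat_lit 26) (nat_lit 5) (nat_lit 254) (nat_lit 242) (nat_lit 164))))))) (XT.nd (nat_lit 936) (nat_lit 456) (nat_lit 0) (XT.nd (nat_lit 468) (nat_lit 456) (nat_lit 0) (XT.nd (nat_lit 234) (nat_lit 304) (nat_lit 0) (XT.nd (nat_lit 78) (nat_lit 228) (nat_lit 0) (XT.lf (nat_lit 0) (nat_lit 38278319913) (nat_lit 152)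 (nat_lit 150555723210) (nat_lit 76) (nat_lit 71973362905) (nat_lit 21) (nat_lit 5) (nat_lit 23) (nat_lit 5) (nat_lit 22) (nat_lit 5) (nat_lit 255) (nat_lit 242) (nat_lit 163)) (XT.nd (nat_lit 78) (nat_lit 76) (nat_lit 0) (XT.lf (nat_lit 0) (nat_lit 81657447268) (nat_lit 152) (nat_lit 50584153035) (nat_lit 228) (nat_lit 155095617598) (nat_lit 19) (nat_lit 5) (nat_lit 21) (nat_lit 5) (nat_lit 22) (nat_lit 5) (nat_lit 256) (nat_lit 242) (nat_lit 162)) (XT.lf (nat_lit 0) (nat_lit 39581991539) (nat_lit 76) (nat_lit 208772904441) (nat_lit 152) (nat_lit 68847164629) (nat_lit 18) (nat_lit 5) (nat_lit 19) (nat_lit 5) (nat_lit 20) (nat_lit 4) (nat_lit 257) (nat_lit 242) (nat_lit 161)))) (XT.nd (nat_lit 78) (nat_lit 228) (nat_lit 0) (XT.lf (nat_lit 0) (nat_lit 36363013956) (nat_lit 152) (nat_lit 19264431701) (nat_lit 76) (nat_lit 295257444151) (nat_lit 17) (nat_lit 5) (nat_lit 19) (nat_lit 5) (nat_lit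 18) (nat_lit 5) (nat_lit 258) (nat_lit 242) (nat_lit 160)) (XT.nd (nat_lit 78) (nat_lit 76) (nat_lit 0) (XT.lf (nat_lit 0) (nat_lit 163508076296) (nat_lit 228) (nat_lit 101567647423) (nat_lit 76) (nat_lit 123582971072) (nat_lit 15) (nat_lit 5) (nat_lit 18) (nat_lit 5) (nat_lit 16) (nat_lit 4) (nat_lit 259) (nat_lit 242) (nat_lit 159)) (XT.lf (nat_lit 0) (nat_lit 217856914049) (nat_lit 76) (nat_lit 99220916763) (nat_lit 152) (nat_lit 114432505639) (nat_lit 14) (nat_lit 5) (nat_lit 15) (nat_lit 5) (nat_lit 16) (nat_lit 4) (nat_lit 260) (nat_lit 242) (nat_lit 158))))) (XT.nd (nat_lit 234) (nat_lit 228) (nat_lit 0) (XT.nd (nat_lit 78) (nat_lit 76) (nat_lit 0) (XT.lf (nat_lit 0) (nat_lit 20437116099) (nat_lit 152) (nat_lit 366440273609) (nat_lit 76) (nat_lit 93232426860) (nat_lit 12) (nat_lit 5) (nat_lit 14) (nat_lit 5) (nat_lit 13) (nat_lit 4) (nat_lit 261) (nat_lit 242) (nat_lit 157)) (XT.nd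 (nat_lit 78) (nat_lit 76) (nat_lit 0) (XT.lf (nat_lit 0) (nat_lit 178079794222) (nat_lit 152) (nat_lit 38543872727) (nat_lit 76) (nat_lit 318392306756) (nat_lit 12) (nat_lit 5) (nat_lit 14) (nat_lit 5) (nat_lit 13) (nat_lit 4) (nat_lit 262) (nat_lit 242) (nat_lit 156)) (XT.lf (nat_lit 0) (nat_lit 356363067783) (nat_lit 76) (nat_lit 11575986975) (nat_lit 152) (nat_lit 229533385539) (nat_lit 11) (nat_lit 5) (nat_lit 12) (nat_lit 5) (nat_lit 13) (nat_lit 4) (nat_lit 263) (nat_lit 242) (nat_lit 155)))) (XT.nd (nat_lit 78) (nat_lit 152) (nat_lit 0) (XT.lf (nat_lit 0) (nat_lit 145487977013) (nat_lit 76) (nat_lit 450831903050) (nat_lit 76) (nat_lit 72174083053) (nat_lit 10) (nat_lit 4) (nat_lit 11) (nat_lit 5) (nat_lit 11) (nat_lit 4) (nat_lit 264) (nat_lit 242) (nat_lit 154)) (XT.nd (nat_lit 78) (nat_lit 76) (nat_lit 0) (XT.lf (nat_lit 0) (nat_lit 110868862799) (nat_lit 152) (nat_lit 148050810401)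 (nat_lit 76) (nat_lit 490437985320) (nat_lit 9) (nat_lit 5) (nat_lit 11) (nat_lit 5) (nat_lit 10) (nat_lit 4) (nat_lit 265) (nat_lit 242) (nat_lit 153)) (XT.lf (nat_lit 0) (nat_lit 295955897578) (nat_lit 76) (nat_lit 28377822746) (nat_lit 152) (nat_lit 517288097522) (nat_lit 8) (nat_lit 5) (nat_lit 9) (nat_lit 5) (nat_lit 10) (nat_lit 4) (nat_lit 266) (nat_lit 242) (nat_lit 152)))))) (XT.nd (nat_lit 468) (nat_lit 228) (nat_lit 0) (XT.nd (nat_lit 234) (nat_lit 76) (nat_lit 0) (XT.nd (nat_lit 78) (nat_lit 152) (nat_lit 0) (XT.lf (nat_lit 0) (nat_lit 579934082197) (nat_lit 152) (nat_lit 137657814475) (nat_lit 0) (nat_lit 229324442521) (nat_lit 8) (nat_lit 5) (nat_lit 10) (nat_lit 4) (nat_lit 8) (nat_lit 4) (nat_lit 267) (nat_lit 242) (nat_lit 151)) (XT.nd (nat_lit 78) (nat_lit 76) (nat_lit 0) (XT.lf (nat_lit 0) (nat_lit 348183799718) (nat_lit 76) (nat_lit 534849169107) (nat_lit 76) (nat_lit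 184239392433) (nat_lit 7) (nat_lit 4) (nat_lit 8) (nat_lit 5) (nat_lit 8) (nat_lit 4) (nat_lit 268) (nat_lit 242) (nat_lit 150)) (XT.lf (nat_lit 0) (nat_lit 28730185744) (nat_lit 152) (nat_lit 290851109453) (nat_lit 76) (nat_lit 885721699060) (nat_lit 6) (nat_lit 5) (nat_lit 8) (nat_lit 5) (nat_lit 7) (nat_lit 4) (nat_lit 269) (nat_lit 242) (nat_lit 149)))) (XT.nd (nat_lit 78) (nat_lit 0) (nat_lit 0) (XT.lf (nat_lit 0) (nat_lit 206874729675) (nat_lit 76) (nat_lit 61146774684) (nat_lit 152) (nat_lit 1095211056319) (nat_lit 5) (nat_lit 5) (nat_lit 6) (nat_lit 5) (nat_lit 7) (nat_lit 4) (nat_lit 270) (nat_lit 242) (nat_lit 148)) (XT.nd (nat_lit 78) (nat_lit 0) (nat_lit 0) (XT.lf (nat_lit 0) (nat_lit 557571194111) (nat_lit 152) (nat_lit 753198971799) (nat_lit 0) (nat_lit 232932222378) (nat_lit 5) (nat_lit 5) (nat_lit 7) (nat_lit 4) (nat_lit 5) (nat_lit 4) (nat_lit 271) (nat_lit 242) (nat_lit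 147)) (XT.lf (nat_lit 0) (nat_lit 892244361968) (nat_lit 152) (nat_lit 291257728475) (nat_lit 0) (nat_lit 567605317708) (nat_lit 5) (nat_lit 5) (nat_lit 7) (nat_lit 4) (nat_lit 5) (nat_lit 4) (nat_lit 272) (nat_lit 242) (nat_lit 146))))) (XT.nd (nat_lit 234) (nat_lit 152) (nat_lit 0) (XT.nd (nat_lit 78) (nat_lit 0) (nat_lit 0) (XT.lf (nat_lit 0) (nat_lit 252611091073) (nat_lit 76) (nat_lit 1030582591555) (nat_lit 76) (nat_lit 705943484227) (nat_lit 4) (nat_lit 4) (nat_lit 5) (nat_lit 5) (nat_lit 5) (nat_lit 4) (nat_lit 273) (nat_lit 242) (nat_lit 145)) (XT.nd (nat_lit 78) (nat_lit 0) (nat_lit 0) (XT.lf (nat_lit 0) (nat_lit 895697696953) (nat_lit 76) (nat_lit 845567245671) (nat_lit 76) (nat_lit 520928083503) (nat_lit 4) (nat_lit 4) (nat_lit 5) (nat_lit 5) (nat_lit 5) (nat_lit 4) (nat_lit 274) (nat_lit 242) (nat_lit 144)) (XT.lf (nat_lit 0) (nat_lit 1635247102581) (nat_lit 76) (nat_lit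 632799689780) (nat_lit 76) (nat_lit 308160479924) (nat_lit 4) (nat_lit 4) (nat_lit 5) (nat_lit 5) (nat_lit 5) (nat_lit 4) (nat_lit 275) (nat_lit 242) (nat_lit 143)))) (XT.nd (nat_lit 156) (nat_lit 0) (nat_lit 0) (XT.nd (nat_lit 78) (nat_lit 152) (nat_lit 0) (XT.lf (nat_lit 0) (nat_lit 2485728752850) (nat_lit 76) (nat_lit 388117080397) (nat_lit 76) (nat_lit 63477829073) (nat_lit 4) (nat_lit 4) (nat_lit 5) (nat_lit 5) (nat_lit 5) (nat_lit 4) (nat_lit 276) (nat_lit 242) (nat_lit 142)) (XT.lf (nat_lit 0) (nat_lit 111512630729) (nat_lit 76) (nat_lit 98175791439) (nat_lit 152) (nat_lit 3142285290468) (nat_lit 2) (nat_lit 5) (nat_lit 3) (nat_lit 5) (nat_lit 4) (nat_lit 4) (nat_lit 277) (nat_lit 242) (nat_lit 141))) (XT.nd (nat_lit 78) (nat_lit 0) (nat_lit 0) (XT.lf (nat_lit 0) (nat_lit 539324936107) (nat_lit 152) (nat_lit 3049091144461) (nat_lit 0) (nat_lit 238732974313) (nat_lit 2) (nat_lit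 5) (nat_lit 4) (nat_lit 4) (nat_lit 2) (nat_lit 4) (nat_lit 278) (nat_lit 242) (nat_lit 140)) (XT.lf (nat_lit 0) (nat_lit 921122164328) (nat_lit 152) (nat_lit 2831731137902) (nat_lit 0) (nat_lit 620530177287) (nat_lit 2) (nat_lit 5) (nat_lit 4) (nat_lit 4) (nat_lit 2) (nat_lit 4) (nat_lit 279) (nat_lit 242) (nat_lit 139))))))))
noncomputable def xc49 : XT := (XT.nd (nat_lit 32994) (nat_lit 0) (nat_lit 0) (XT.nd (nat_lit 31980) (nat_lit 0) (nat_lit 912) (XT.nd (nat_lit 31512) (nat_lit 0) (nat_lit 2736) (XT.nd (nat_lit 234) (nat_lit 0) (nat_lit 0) (XT.nd (nat_lit 78) (nat_lit 0) (nat_lit 0) (XT.lf (nat_lit 0) (nat_lit 1360188922454) (nat_lit 152) (nat_lit 2581767236303) (nat_lit 0) (nat_lit 1059596913461) (nat_lit 2) (nat_lit 5) (nat_lit 4) (nat_lit 4) (nat_lit 2) (nat_lit 4) (nat_lit 280) (nat_lit 242) (nat_lit 138)) (XT.nd (nat_lit 78) (nat_lit 0) (nat_lit 0) (XT.lf (nat_lit 0) (nat_lit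 1865115647059) (nat_lit 152) (nat_lit 2294308841591) (nat_lit 0) (nat_lit 1564523618977) (nat_lit 2) (nat_lit 5) (nat_lit 4) (nat_lit 4) (nat_lit 2) (nat_lit 4) (nat_lit 281) (nat_lit 242) (nat_lit 137)) (XT.lf (nat_lit 0) (nat_lit 2445781339276) (nat_lit 152) (nat_lit 1963731767781) (nat_lit 0) (nat_lit 2145189294594) (nat_lit 2) (nat_lit 5) (nat_lit 4) (nat_lit 4) (nat_lit 2) (nat_lit 4) (nat_lit 282) (nat_lit 242) (nat_lit 136)))) (XT.nd (nat_lit 78) (nat_lit 0) (nat_lit 0) (XT.lf (nat_lit 0) (nat_lit 3113546849605) (nat_lit 152) (nat_lit 1583568202560) (nat_lit 0) (nat_lit 2812954790489) (nat_lit 2) (nat_lit 5) (nat_lit 4) (nat_lit 4) (nat_lit 2) (nat_lit 4) (nat_lit 283) (nat_lit 242) (nat_lit 135)) (XT.nd (nat_lit 78) (nat_lit 0) (nat_lit 0) (XT.lf (nat_lit 0) (nat_lit 3881477155422) (nat_lit 152) (nat_lit 1146380163130) (nat_lit 0) (nat_lit 3580885083753) (nat_lit 2) (nat_lit 5)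 (nat_lit 4) (nat_lit 4) (nat_lit 2) (nat_lit 4) (nat_lit 284) (nat_lit 242) (nat_lit 134)) (XT.lf (nat_lit 0) (nat_lit 4764596980101) (nat_lit 152) (nat_lit 643613970460) (nat_lit 0) (nat_lit 4464004897518) (nat_lit 2) (nat_lit 5) (nat_lit 4) (nat_lit 4) (nat_lit 2) (nat_lit 4) (nat_lit 285) (nat_lit 242) (nat_lit 133))))) (XT.nd (nat_lit 234) (nat_lit 532) (nat_lit 0) (XT.nd (nat_lit 78) (nat_lit 0) (nat_lit 76) (XT.lf (nat_lit 0) (nat_lit 32714400997) (nat_lit 532) (nat_lit 9055291364) (nat_lit 532) (nat_lit 9055291364) (nat_lit 45) (nat_lit 3) (nat_lit 52) (nat_lit 3) (nat_lit 52) (nat_lit 5) (nat_lit 243) (nat_lit 243) (nat_lit 174)) (XT.nd (nat_lit 78) (nat_lit 0) (nat_lit 0) (XT.lf (nat_lit 0) (nat_lit 72124139866) (nat_lit 456) (nat_lit 36143927064) (nat_lit 532) (nat_lit 862563817) (nat_lit 46) (nat_lit 5) (nat_lit 52) (nat_lit 5) (nat_lit 53) (nat_lit 5) (nat_lit 244) (nat_lit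 243) (nat_lit 173)) (XT.lf (nat_lit 76) (nat_lit 61926482716) (nat_lit 0) (nat_lit 22236222613) (nat_lit 532) (nat_lit 33223579405) (nat_lit 47) (nat_lit 5) (nat_lit 46) (nat_lit 5) (nat_lit 53) (nat_lit 5) (nat_lit 245) (nat_lit 243) (nat_lit 172)))) (XT.nd (nat_lit 78) (nat_lit 684) (nat_lit 0) (XT.lf (nat_lit 76) (nat_lit 50766399100) (nat_lit 0) (nat_lit 51384223548) (nat_lit 532) (nat_lit 24398183461) (nat_lit 48) (nat_lit 5) (nat_lit 47) (nat_lit 5) (nat_lit 54) (nat_lit 5) (nat_lit 246) (nat_lit 243) (nat_lit 171)) (XT.nd (nat_lit 78) (nat_lit 304) (nat_lit 0) (XT.lf (nat_lit 0) (nat_lit 39486401802) (nat_lit 456) (nat_lit 87729226259) (nat_lit 532) (nat_lit 9519769633) (nat_lit 42) (nat_lit 5) (nat_lit 48) (nat_lit 5) (nat_lit 49) (nat_lit 5) (nat_lit 247) (nat_lit 243) (nat_lit 170)) (XT.lf (nat_lit 0) (nat_lit 11967756758) (nat_lit 304) (nat_lit 120379435160) (nat_lit 76) (nat_lit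 15707621132) (nat_lit 38) (nat_lit 5) (nat_lit 42) (nat_lit 5) (nat_lit 39) (nat_lit 5) (nat_lit 248) (nat_lit 243) (nat_lit 169)))))) (XT.nd (nat_lit 468) (nat_lit 836) (nat_lit 0) (XT.nd (nat_lit 234) (nat_lit 532) (nat_lit 0) (XT.nd (nat_lit 78) (nat_lit 228) (nat_lit 0) (XT.lf (nat_lit 0) (nat_lit 14334484551) (nat_lit 228) (nat_lit 27471059710) (nat_lit 304) (nat_lit 118791553242) (nat_lit 35) (nat_lit 5) (nat_lit 38) (nat_lit 5) (nat_lit 39) (nat_lit 5) (nat_lit 249) (nat_lit 243) (nat_lit 168)) (XT.nd (nat_lit 78) (nat_lit 228) (nat_lit 0) (XT.lf (nat_lit 0) (nat_lit 81953631534) (nat_lit 304) (nat_lit 527238949) (nat_lit 76) (nat_lit 92073086071) (nat_lit 35) (nat_lit 5) (nat_lit 39) (nat_lit 5) (nat_lit 36) (nat_lit 5) (nat_lit 250) (nat_lit 243) (nat_lit 167)) (XT.lf (nat_lit 0) (nat_lit 134102542978) (nat_lit 304) (nat_lit 16151185215) (nat_lit 76) (nat_lit 39872329526) (nat_lit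 32) (nat_lit 5) (nat_lit 36) (nat_lit 5) (nat_lit 33) (nat_lit 5) (nat_lit 251) (nat_lit 243) (nat_lit 166)))) (XT.nd (nat_lit 78) (nat_lit 380) (nat_lit 0) (XT.lf (nat_lit 0) (nat_lit 173024195061) (nat_lit 152) (nat_lit 27506974469) (nat_lit 228) (nat_lit 6986216117) (nat_lit 30) (nat_lit 5) (nat_lit 32) (nat_lit 5) (nat_lit 33) (nat_lit 5) (nat_lit 252) (nat_lit 243) (nat_lit 165)) (XT.nd (nat_lit 78) (nat_lit 152) (nat_lit 0) (XT.lf (nat_lit 0) (nat_lit 54424010334) (nat_lit 228) (nat_lit 58488468400) (nat_lit 76) (nat_lit 113910768579) (nat_lit 27) (nat_lit 5) (nat_lit 30) (nat_lit 5) (nat_lit 28) (nat_lit 5) (nat_lit 253) (nat_lit 243) (nat_lit 164)) (XT.lf (nat_lit 0) (nat_lit 131084726228) (nat_lit 228) (nat_lit 87466693805) (nat_lit 76) (nat_lit 29942843292) (nat_lit 25) (nat_lit 5) (nat_lit 28) (nat_lit 5) (nat_lit 26) (nat_lit 5) (nat_lit 254) (nat_lit 243) (nat_lit 163)))))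 (XT.nd (nat_lit 234) (nat_lit 380) (nat_lit 0) (XT.nd (nat_lit 78) (nat_lit 304) (nat_lit 0) (XT.lf (nat_lit 0) (nat_lit 147967069276) (nat_lit 152) (nat_lit 79705404249) (nat_lit 228) (nat_lit 45069225426) (nat_lit 23) (nat_lit 5) (nat_lit 25) (nat_lit 5) (nat_lit 26) (nat_lit 5) (nat_lit 255) (nat_lit 243) (nat_lit 162)) (XT.nd (nat_lit 78) (nat_lit 152) (nat_lit 0) (XT.lf (nat_lit 0) (nat_lit 44026636479) (nat_lit 152) (nat_lit 173128681677) (nat_lit 76) (nat_lit 82772663462) (nat_lit 21) (nat_lit 5) (nat_lit 23) (nat_lit 5) (nat_lit 22) (nat_lit 5) (nat_lit 256) (nat_lit 243) (nat_lit 161)) (XT.lf (nat_lit 0) (nat_lit 93915584064) (nat_lit 152) (nat_lit 58168197041) (nat_lit 228) (nat_lit 178353535675) (nat_lit 19) (nat_lit 5) (nat_lit 21) (nat_lit 5) (nat_lit 22) (nat_lit 5) (nat_lit 257) (nat_lit 243) (nat_lit 160)))) (XT.nd (nat_lit 156) (nat_lit 228) (nat_lit 0) (XT.nd (nat_lit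 78) (nat_lit 76) (nat_lit 0) (XT.lf (nat_lit 0) (nat_lit 45528368247) (nat_lit 76) (nat_lit 240085221178) (nat_lit 152) (nat_lit 79168336120) (nat_lit 18) (nat_lit 5) (nat_lit 19) (nat_lit 5) (nat_lit 20) (nat_lit 4) (nat_lit 258) (nat_lit 243) (nat_lit 159)) (XT.lf (nat_lit 0) (nat_lit 41822342485) (nat_lit 152) (nat_lit 22145939795) (nat_lit 76) (nat_lit 339548944901) (nat_lit 17) (nat_lit 5) (nat_lit 19) (nat_lit 5) (nat_lit 18) (nat_lit 5) (nat_lit 259) (nat_lit 243) (nat_lit 158))) (XT.nd (nat_lit 78) (nat_lit 76) (nat_lit 0) (XT.lf (nat_lit 0) (nat_lit 188038780946) (nat_lit 228) (nat_lit 116795042761) (nat_lit 76) (nat_lit 142123310643) (nat_lit 15) (nat_lit 5) (nat_lit 18) (nat_lit 5) (nat_lit 16) (nat_lit 4) (nat_lit 260) (nat_lit 243) (nat_lit 157)) (XT.lf (nat_lit 0) (nat_lit 250542546783) (nat_lit 76) (nat_lit 114101036436) (nat_lit 152) (nat_lit 131592972952) (nat_lit 14)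 (nat_lit 5) (nat_lit 15) (nat_lit 5) (nat_lit 16) (nat_lit 4) (nat_lit 261) (nat_lit 243) (nat_lit 156))))))) (XT.nd (nat_lit 936) (nat_lit 228) (nat_lit 0) (XT.nd (nat_lit 468) (nat_lit 228) (nat_lit 0) (XT.nd (nat_lit 234) (nat_lit 228) (nat_lit 0) (XT.nd (nat_lit 78) (nat_lit 76) (nat_lit 0) (XT.lf (nat_lit 0) (nat_lit 23506556098) (nat_lit 152) (nat_lit 421399375751) (nat_lit 76) (nat_lit 107220043753) (nat_lit 12) (nat_lit 5) (nat_lit 14) (nat_lit 5) (nat_lit 13) (nat_lit 4) (nat_lit 262) (nat_lit 243) (nat_lit 155)) (XT.nd (nat_lit 78) (nat_lit 76) (nat_lit 0) (XT.lf (nat_lit 0) (nat_lit 204795130821) (nat_lit 152) (nat_lit 44319419811) (nat_lit 76) (nat_lit 366153546565) (nat_lit 12) (nat_lit 5) (nat_lit 14) (nat_lit 5) (nat_lit 13) (nat_lit 4) (nat_lit 263) (nat_lit 243) (nat_lit 154)) (XT.lf (nat_lit 0) (nat_lit 409823051042) (nat_lit 76) (nat_lit 13309922990) (nat_lit 152) (nat_lit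 263960084669) (nat_lit 11) (nat_lit 5) (nat_lit 12) (nat_lit 5) (nat_lit 13) (nat_lit 4) (nat_lit 264) (nat_lit 243) (nat_lit 153)))) (XT.nd (nat_lit 78) (nat_lit 152) (nat_lit 0) (XT.lf (nat_lit 0) (nat_lit 167316401633) (nat_lit 76) (nat_lit 518454299456) (nat_lit 76) (nat_lit 82997126978) (nat_lit 10) (nat_lit 4) (nat_lit 11) (nat_lit 5) (nat_lit 11) (nat_lit 4) (nat_lit 265) (nat_lit 243) (nat_lit 152)) (XT.nd (nat_lit 78) (nat_lit 76) (nat_lit 0) (XT.lf (nat_lit 0) (nat_lit 127501727029) (nat_lit 152) (nat_lit 170253750407) (nat_lit 76) (nat_lit 564005625148) (nat_lit 9) (nat_lit 5) (nat_lit 11) (nat_lit 5) (nat_lit 10) (nat_lit 4) (nat_lit 266) (nat_lit 243) (nat_lit 151)) (XT.lf (nat_lit 0) (nat_lit 340353567498) (nat_lit 76) (nat_lit 32632518119) (nat_lit 152) (nat_lit 594878818649) (nat_lit 8) (nat_lit 5) (nat_lit 9) (nat_lit 5) (nat_lit 10) (nat_lit 4) (nat_lit 267) (nat_lit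 243) (nat_lit 150))))) (XT.nd (nat_lit 234) (nat_lit 76) (nat_lit 0) (XT.nd (nat_lit 78) (nat_lit 152) (nat_lit 0) (XT.lf (nat_lit 0) (nat_lit 666926242192) (nat_lit 152) (nat_lit 158302639718) (nat_lit 0) (nat_lit 263724742890) (nat_lit 8) (nat_lit 5) (nat_lit 10) (nat_lit 4) (nat_lit 8) (nat_lit 4) (nat_lit 268) (nat_lit 243) (nat_lit 149)) (XT.nd (nat_lit 78) (nat_lit 76) (nat_lit 0) (XT.lf (nat_lit 0) (nat_lit 400414890981) (nat_lit 76) (nat_lit 615074888435) (nat_lit 76) (nat_lit 211873285542) (nat_lit 7) (nat_lit 4) (nat_lit 8) (nat_lit 5) (nat_lit 8) (nat_lit 4) (nat_lit 269) (nat_lit 243) (nat_lit 148)) (XT.lf (nat_lit 0) (nat_lit 33041378754) (nat_lit 152) (nat_lit 334475625162) (nat_lit 76) (nat_lit 1018581305248) (nat_lit 6) (nat_lit 5) (nat_lit 8) (nat_lit 5) (nat_lit 7) (nat_lit 4) (nat_lit 270) (nat_lit 243) (nat_lit 147)))) (XT.nd (nat_lit 78) (nat_lit 0) (nat_lit 0) (XT.lf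 (nat_lit 0) (nat_lit 237908823144) (nat_lit 76) (nat_lit 70317424185) (nat_lit 152) (nat_lit 1259491075178) (nat_lit 5) (nat_lit 5) (nat_lit 6) (nat_lit 5) (nat_lit 7) (nat_lit 4) (nat_lit 271) (nat_lit 243) (nat_lit 146)) (XT.nd (nat_lit 78) (nat_lit 0) (nat_lit 0) (XT.lf (nat_lit 0) (nat_lit 641208221214) (nat_lit 152) (nat_lit 866176231985) (nat_lit 0) (nat_lit 267873184721) (nat_lit 5) (nat_lit 5) (nat_lit 7) (nat_lit 4) (nat_lit 5) (nat_lit 4) (nat_lit 272) (nat_lit 243) (nat_lit 145)) (XT.lf (nat_lit 0) (nat_lit 1026082188425) (nat_lit 152) (nat_lit 334944139413) (nat_lit 0) (nat_lit 652747097091) (nat_lit 5) (nat_lit 5) (nat_lit 7) (nat_lit 4) (nat_lit 5) (nat_lit 4) (nat_lit 273) (nat_lit 243) (nat_lit 144)))))) (XT.nd (nat_lit 468) (nat_lit 0) (nat_lit 0) (XT.nd (nat_lit 234) (nat_lit 152) (nat_lit 0) (XT.nd (nat_lit 78) (nat_lit 0) (nat_lit 0) (XT.lf (nat_lit 0) (nat_lit 290504812757)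 (nat_lit 76) (nat_lit 1185168991031) (nat_lit 76) (nat_lit 811833852009) (nat_lit 4) (nat_lit 4) (nat_lit 5) (nat_lit 5) (nat_lit 5) (nat_lit 4) (nat_lit 274) (nat_lit 243) (nat_lit 143)) (XT.nd (nat_lit 78) (nat_lit 0) (nat_lit 0) (XT.lf (nat_lit 0) (nat_lit 1030054141082) (nat_lit 76) (nat_lit 972401472299) (nat_lit 76) (nat_lit 599066291809) (nat_lit 4) (nat_lit 4) (nat_lit 5) (nat_lit 5) (nat_lit 5) (nat_lit 4) (nat_lit 275) (nat_lit 243) (nat_lit 142)) (XT.lf (nat_lit 0) (nat_lit 1880535724130) (nat_lit 76) (nat_lit 727718895228) (nat_lit 76) (nat_lit 354383678679) (nat_lit 4) (nat_lit 4) (nat_lit 5) (nat_lit 5) (nat_lit 5) (nat_lit 4) (nat_lit 276) (nat_lit 243) (nat_lit 141)))) (XT.nd (nat_lit 78) (nat_lit 152) (nat_lit 0) (XT.lf (nat_lit 0) (nat_lit 2858589418962) (nat_lit 76) (nat_lit 446333992004) (nat_lit 76) (nat_lit 72998744100) (nat_lit 4) (nat_lit 4) (nat_lit 5) (nat_lit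 5) (nat_lit 5) (nat_lit 4) (nat_lit 277) (nat_lit 243) (nat_lit 140)) (XT.nd (nat_lit 78) (nat_lit 0) (nat_lit 0) (XT.lf (nat_lit 0) (nat_lit 128240799077) (nat_lit 76) (nat_lit 112901544310) (nat_lit 152) (nat_lit 3613627373204) (nat_lit 2) (nat_lit 5) (nat_lit 3) (nat_lit 5) (nat_lit 4) (nat_lit 4) (nat_lit 278) (nat_lit 243) (nat_lit 139)) (XT.lf (nat_lit 0) (nat_lit 620224261484) (nat_lit 152) (nat_lit 3506453675376) (nat_lit 0) (nat_lit 274543429189) (nat_lit 2) (nat_lit 5) (nat_lit 4) (nat_lit 4) (nat_lit 2) (nat_lit 4) (nat_lit 279) (nat_lit 243) (nat_lit 138))))) (XT.nd (nat_lit 234) (nat_lit 0) (nat_lit 0) (XT.nd (nat_lit 78) (nat_lit 0) (nat_lit 0) (XT.lf (nat_lit 0) (nat_lit 1059290997638) (nat_lit 152) (nat_lit 3256489816627) (nat_lit 0) (nat_lit 713610146253) (nat_lit 2) (nat_lit 5) (nat_lit 4) (nat_lit 4) (nat_lit 2) (nat_lit 4) (nat_lit 280) (nat_lit 243) (nat_lit 137))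 (XT.nd (nat_lit 78) (nat_lit 0) (nat_lit 0) (XT.lf (nat_lit 0) (nat_lit 1564217703137) (nat_lit 152) (nat_lit 2969031459174) (nat_lit 0) (nat_lit 1218536835152) (nat_lit 2) (nat_lit 5) (nat_lit 4) (nat_lit 4) (nat_lit 2) (nat_lit 4) (nat_lit 281) (nat_lit 243) (nat_lit 136)) (XT.lf (nat_lit 0) (nat_lit 2144883378739) (nat_lit 152) (nat_lit 2638454417765) (nat_lit 0) (nat_lit 1799202496321) (nat_lit 2) (nat_lit 5) (nat_lit 4) (nat_lit 4) (nat_lit 2) (nat_lit 4) (nat_lit 282) (nat_lit 243) (nat_lit 135)))) (XT.nd (nat_lit 156) (nat_lit 0) (nat_lit 0) (XT.nd (nat_lit 78) (nat_lit 0) (nat_lit 0) (XT.lf (nat_lit 0) (nat_lit 2812648874621) (nat_lit 152) (nat_lit 2258290880718) (nat_lit 0) (nat_lit 2466967979651) (nat_lit 2) (nat_lit 5) (nat_lit 4) (nat_lit 4) (nat_lit 2) (nat_lit 4) (nat_lit 283) (nat_lit 243) (nat_lit 134)) (XT.lf (nat_lit 0) (nat_lit 3580579167875) (nat_lit 152) (nat_lit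 1821102865788) (nat_lit 0) (nat_lit 3234898261990) (nat_lit 2) (nat_lit 5) (nat_lit 4) (nat_lit 4) (nat_lit 2) (nat_lit 4) (nat_lit 284) (nat_lit 243) (nat_lit 133))) (XT.nd (nat_lit 31200) (nat_lit 0) (nat_lit 3268) (XT.lf (nat_lit 0) (nat_lit 4463698981630) (nat_lit 152) (nat_lit 1318336694420) (nat_lit 0) (nat_lit 4118018066254) (nat_lit 2) (nat_lit 5) (nat_lit 4) (nat_lit 4) (nat_lit 2) (nat_lit 4) (nat_lit 285) (nat_lit 243) (nat_lit 132)) (XT.lf (nat_lit 0) (nat_lit 37631570275) (nat_lit 532) (nat_lit 10408165739) (nat_lit 532) (nat_lit 10408165739) (nat_lit 45) (nat_lit 3) (nat_lit 52) (nat_lit 3) (nat_lit 52) (nat_lit 5) (nat_lit 244) (nat_lit 244) (nat_lit 172))))))))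
noncomputable def xc50 : XT := (XT.nd (nat_lit 1950) (nat_lit 456) (nat_lit 0) (XT.nd (nat_lit 936) (nat_lit 1140) (nat_lit 0) (XT.nd (nat_lit 468) (nat_lit 912) (nat_lit 0) (XT.nd (nat_lit 234) (nat_lit 836) (nat_lit 0) (XT.nd (nat_lit 78) (nat_lit 0) (nat_lit 0) (XT.lf (nat_lit 0) (nat_lit 82960220856) (nat_lit 456) (nat_lit 41553947375) (nat_lit 532) (nat_lit 984610239) (nat_lit 46) (nat_lit 5) (nat_lit 52) (nat_lit 5) (nat_lit 53) (nat_lit 5) (nat_lit 245) (nat_lit 244) (nat_lit 171)) (XT.nd (nat_lit 78) (nat_lit 0) (nat_lit 76) (XT.lf (nat_lit 76) (nat_lit 71226044636) (nat_lit 0) (nat_lit 25576503788) (nat_lit 532) (nat_lit 38190400482) (nat_lit 47) (nat_lit 5) (nat_lit 46) (nat_lit 5) (nat_lit 53) (nat_lit 5) (nat_lit 246) (nat_lit 244) (nat_lit 170)) (XT.lf (nat_lit 76) (nat_lit 58392329166) (nat_lit 0) (nat_lit 59094473066) (nat_lit 532) (nat_lit 28043200025) (nat_lit 48) (nat_lit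 5) (nat_lit 47) (nat_lit 5) (nat_lit 54) (nat_lit 5) (nat_lit 247) (nat_lit 244) (nat_lit 169)))) (XT.nd (nat_lit 78) (nat_lit 532) (nat_lit 0) (XT.lf (nat_lit 0) (nat_lit 45420490852) (nat_lit 456) (nat_lit 100889508432) (nat_lit 532) (nat_lit 10934712969) (nat_lit 42) (nat_lit 5) (nat_lit 48) (nat_lit 5) (nat_lit 49) (nat_lit 5) (nat_lit 248) (nat_lit 244) (nat_lit 168)) (XT.nd (nat_lit 78) (nat_lit 228) (nat_lit 0) (XT.lf (nat_lit 0) (nat_lit 13773932441) (nat_lit 304) (nat_lit 138424626612) (nat_lit 76) (nat_lit 18063568465) (nat_lit 38) (nat_lit 5) (nat_lit 42) (nat_lit 5) (nat_lit 39) (nat_lit 5) (nat_lit 249) (nat_lit 244) (nat_lit 167)) (XT.lf (nat_lit 0) (nat_lit 16495388692) (nat_lit 228) (nat_lit 31590821099) (nat_lit 304) (nat_lit 136599642567) (nat_lit 35) (nat_lit 5) (nat_lit 38) (nat_lit 5) (nat_lit 39) (nat_lit 5) (nat_lit 250) (nat_lit 244) (nat_lit 166))))) (XT.nd (nat_lit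 234) (nat_lit 532) (nat_lit 0) (XT.nd (nat_lit 78) (nat_lit 380) (nat_lit 0) (XT.lf (nat_lit 0) (nat_lit 94255246244) (nat_lit 304) (nat_lit 596307711) (nat_lit 76) (nat_lit 105884790432) (nat_lit 35) (nat_lit 5) (nat_lit 39) (nat_lit 5) (nat_lit 36) (nat_lit 5) (nat_lit 251) (nat_lit 244) (nat_lit 165)) (XT.nd (nat_lit 78) (nat_lit 152) (nat_lit 0) (XT.lf (nat_lit 0) (nat_lit 154225633091) (nat_lit 304) (nat_lit 18564098554) (nat_lit 76) (nat_lit 45854600601) (nat_lit 32) (nat_lit 5) (nat_lit 36) (nat_lit 5) (nat_lit 33) (nat_lit 5) (nat_lit 252) (nat_lit 244) (nat_lit 164)) (XT.lf (nat_lit 0) (nat_lit 198986762252) (nat_lit 152) (nat_lit 31631000854) (nat_lit 228) (nat_lit 8026661776) (nat_lit 30) (nat_lit 5) (nat_lit 32) (nat_lit 5) (nat_lit 33) (nat_lit 5) (nat_lit 253) (nat_lit 244) (nat_lit 163)))) (XT.nd (nat_lit 78) (nat_lit 304) (nat_lit 0) (XT.lf (nat_lit 0) (nat_lit 62594053397)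 (nat_lit 228) (nat_lit 67252729856) (nat_lit 76) (nat_lit 130999423628) (nat_lit 27) (nat_lit 5) (nat_lit 30) (nat_lit 5) (nat_lit 28) (nat_lit 5) (nat_lit 254) (nat_lit 244) (nat_lit 162)) (XT.nd (nat_lit 78) (nat_lit 152) (nat_lit 0) (XT.lf (nat_lit 0) (nat_lit 150753293642) (nat_lit 228) (nat_lit 100578035877) (nat_lit 76) (nat_lit 34436594011) (nat_lit 25) (nat_lit 5) (nat_lit 28) (nat_lit 5) (nat_lit 26) (nat_lit 5) (nat_lit 255) (nat_lit 244) (nat_lit 161)) (XT.lf (nat_lit 0) (nat_lit 170170058471) (nat_lit 152) (nat_lit 91658571101) (nat_lit 228) (nat_lit 51823892190) (nat_lit 23) (nat_lit 5) (nat_lit 25) (nat_lit 5) (nat_lit 26) (nat_lit 5) (nat_lit 256) (nat_lit 244) (nat_lit 160)))))) (XT.nd (nat_lit 468) (nat_lit 456) (nat_lit 0) (XT.nd (nat_lit 234) (nat_lit 304) (nat_lit 0) (XT.nd (nat_lit 78) (nat_lit 228) (nat_lit 0) (XT.lf (nat_lit 0) (nat_lit 50635598740) (nat_lit 152)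 (nat_lit 199090120023) (nat_lit 76) (nat_lit 95191055323) (nat_lit 21) (nat_lit 5) (nat_lit 23) (nat_lit 5) (nat_lit 22) (nat_lit 5) (nat_lit 257) (nat_lit 244) (nat_lit 159)) (XT.nd (nat_lit 78) (nat_lit 76) (nat_lit 0) (XT.lf (nat_lit 0) (nat_lit 108010119939) (nat_lit 152) (nat_lit 66890720398) (nat_lit 228) (nat_lit 205101708133) (nat_lit 19) (nat_lit 5) (nat_lit 21) (nat_lit 5) (nat_lit 22) (nat_lit 5) (nat_lit 258) (nat_lit 244) (nat_lit 158)) (XT.lf (nat_lit 0) (nat_lit 52364487739) (nat_lit 76) (nat_lit 276095267925) (nat_lit 152) (nat_lit 91039122869) (nat_lit 18) (nat_lit 5) (nat_lit 19) (nat_lit 5) (nat_lit 20) (nat_lit 4) (nat_lit 259) (nat_lit 244) (nat_lit 157)))) (XT.nd (nat_lit 78) (nat_lit 228) (nat_lit 0) (XT.lf (nat_lit 0) (nat_lit 48099381144) (nat_lit 152) (nat_lit 25461663157) (nat_lit 76) (nat_lit 390483467450) (nat_lit 17) (nat_lit 5) (nat_lit 19) (nat_lit 5) (nat_lit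 18) (nat_lit 5) (nat_lit 260) (nat_lit 244) (nat_lit 156)) (XT.nd (nat_lit 78) (nat_lit 76) (nat_lit 0) (XT.lf (nat_lit 0) (nat_lit 216247995597) (nat_lit 228) (nat_lit 134308437720) (nat_lit 76) (nat_lit 163443995451) (nat_lit 15) (nat_lit 5) (nat_lit 18) (nat_lit 5) (nat_lit 16) (nat_lit 4) (nat_lit 261) (nat_lit 244) (nat_lit 155)) (XT.lf (nat_lit 0) (nat_lit 288129294114) (nat_lit 76) (nat_lit 131213909981) (nat_lit 152) (nat_lit 151328585410) (nat_lit 14) (nat_lit 5) (nat_lit 15) (nat_lit 5) (nat_lit 16) (nat_lit 4) (nat_lit 262) (nat_lit 244) (nat_lit 154))))) (XT.nd (nat_lit 234) (nat_lit 228) (nat_lit 0) (XT.nd (nat_lit 78) (nat_lit 76) (nat_lit 0) (XT.lf (nat_lit 0) (nat_lit 27035467743) (nat_lit 152) (nat_lit 484604035309) (nat_lit 76) (nat_lit 123305131878) (nat_lit 12) (nat_lit 5) (nat_lit 14) (nat_lit 5) (nat_lit 13) (nat_lit 4) (nat_lit 263) (nat_lit 244) (nat_lit 153))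 (XT.nd (nat_lit 78) (nat_lit 76) (nat_lit 0) (XT.lf (nat_lit 0) (nat_lit 235516946731) (nat_lit 152) (nat_lit 50962770343) (nat_lit 76) (nat_lit 421078388603) (nat_lit 12) (nat_lit 5) (nat_lit 14) (nat_lit 5) (nat_lit 13) (nat_lit 4) (nat_lit 264) (nat_lit 244) (nat_lit 152)) (XT.lf (nat_lit 0) (nat_lit 471300684949) (nat_lit 76) (nat_lit 15304549790) (nat_lit 152) (nat_lit 303551595517) (nat_lit 11) (nat_lit 5) (nat_lit 12) (nat_lit 5) (nat_lit 13) (nat_lit 4) (nat_lit 265) (nat_lit 244) (nat_lit 151)))) (XT.nd (nat_lit 156) (nat_lit 76) (nat_lit 0) (XT.nd (nat_lit 78) (nat_lit 76) (nat_lit 0) (XT.lf (nat_lit 0) (nat_lit 192417815048) (nat_lit 76) (nat_lit 596220637907) (nat_lit 76) (nat_lit 95444375774) (nat_lit 10) (nat_lit 4) (nat_lit 11) (nat_lit 5) (nat_lit 11) (nat_lit 4) (nat_lit 266) (nat_lit 244) (nat_lit 150)) (XT.lf (nat_lit 0) (nat_lit 146628902764) (nat_lit 152) (nat_lit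 195788273042) (nat_lit 76) (nat_lit 648607937373) (nat_lit 9) (nat_lit 5) (nat_lit 11) (nat_lit 5) (nat_lit 10) (nat_lit 4) (nat_lit 267) (nat_lit 244) (nat_lit 149))) (XT.nd (nat_lit 78) (nat_lit 0) (nat_lit 0) (XT.lf (nat_lit 0) (nat_lit 391409842912) (nat_lit 76) (nat_lit 37525900156) (nat_lit 152) (nat_lit 684108756002) (nat_lit 8) (nat_lit 5) (nat_lit 9) (nat_lit 5) (nat_lit 10) (nat_lit 4) (nat_lit 268) (nat_lit 244) (nat_lit 148)) (XT.lf (nat_lit 0) (nat_lit 766966726851) (nat_lit 152) (nat_lit 182045126845) (nat_lit 0) (nat_lit 303284689855) (nat_lit 8) (nat_lit 5) (nat_lit 10) (nat_lit 4) (nat_lit 8) (nat_lit 4) (nat_lit 269) (nat_lit 244) (nat_lit 147))))))) (XT.nd (nat_lit 936) (nat_lit 0) (nat_lit 0) (XT.nd (nat_lit 468) (nat_lit 152) (nat_lit 0) (XT.nd (nat_lit 234) (nat_lit 76) (nat_lit 0) (XT.nd (nat_lit 78) (nat_lit 152) (nat_lit 0) (XT.lf (nat_lit 0) (nat_lit 460479787241)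 (nat_lit 76) (nat_lit 707334869498) (nat_lit 76) (nat_lit 243652754173) (nat_lit 7) (nat_lit 4) (nat_lit 8) (nat_lit 5) (nat_lit 8) (nat_lit 4) (nat_lit 270) (nat_lit 244) (nat_lit 146)) (XT.nd (nat_lit 78) (nat_lit 76) (nat_lit 0) (XT.lf (nat_lit 0) (nat_lit 37998844658) (nat_lit 152) (nat_lit 384644586547) (nat_lit 76) (nat_lit 1171369522834) (nat_lit 6) (nat_lit 5) (nat_lit 8) (nat_lit 5) (nat_lit 7) (nat_lit 4) (nat_lit 271) (nat_lit 244) (nat_lit 145)) (XT.lf (nat_lit 0) (nat_lit 273597327347) (nat_lit 76) (nat_lit 80864004389) (nat_lit 152) (nat_lit 1448413496691) (nat_lit 5) (nat_lit 5) (nat_lit 6) (nat_lit 5) (nat_lit 7) (nat_lit 4) (nat_lit 272) (nat_lit 244) (nat_lit 144)))) (XT.nd (nat_lit 78) (nat_lit 76) (nat_lit 0) (XT.lf (nat_lit 0) (nat_lit 737390473668) (nat_lit 152) (nat_lit 996100711710) (nat_lit 0) (nat_lit 308055016105) (nat_lit 5) (nat_lit 5) (nat_lit 7) (nat_lit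 4) (nat_lit 5) (nat_lit 4) (nat_lit 273) (nat_lit 244) (nat_lit 143)) (XT.nd (nat_lit 78) (nat_lit 76) (nat_lit 0) (XT.lf (nat_lit 0) (nat_lit 1179995403012) (nat_lit 152) (nat_lit 385184060262) (nat_lit 0) (nat_lit 750659903981) (nat_lit 5) (nat_lit 5) (nat_lit 7) (nat_lit 4) (nat_lit 5) (nat_lit 4) (nat_lit 274) (nat_lit 244) (nat_lit 142)) (XT.lf (nat_lit 0) (nat_lit 334082090832) (nat_lit 76) (nat_lit 1362943591666) (nat_lit 76) (nat_lit 933608056577) (nat_lit 4) (nat_lit 4) (nat_lit 5) (nat_lit 5) (nat_lit 5) (nat_lit 4) (nat_lit 275) (nat_lit 244) (nat_lit 141))))) (XT.nd (nat_lit 234) (nat_lit 152) (nat_lit 0) (XT.nd (nat_lit 78) (nat_lit 0) (nat_lit 0) (XT.lf (nat_lit 0) (nat_lit 1184563615428) (nat_lit 76) (nat_lit 1118261042692) (nat_lit 76) (nat_lit 688925476247) (nat_lit 4) (nat_lit 4) (nat_lit 5) (nat_lit 5) (nat_lit 5) (nat_lit 4) (nat_lit 276) (nat_lit 244) (nat_lit 140))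 (XT.nd (nat_lit 78) (nat_lit 0) (nat_lit 0) (XT.lf (nat_lit 0) (nat_lit 2162617259431) (nat_lit 76) (nat_lit 836876163901) (nat_lit 76) (nat_lit 407540570191) (nat_lit 4) (nat_lit 4) (nat_lit 5) (nat_lit 5) (nat_lit 5) (nat_lit 4) (nat_lit 277) (nat_lit 244) (nat_lit 139)) (XT.lf (nat_lit 0) (nat_lit 3287378855008) (nat_lit 76) (nat_lit 513283598970) (nat_lit 76) (nat_lit 83947981550) (nat_lit 4) (nat_lit 4) (nat_lit 5) (nat_lit 5) (nat_lit 5) (nat_lit 4) (nat_lit 278) (nat_lit 244) (nat_lit 138)))) (XT.nd (nat_lit 78) (nat_lit 0) (nat_lit 0) (XT.lf (nat_lit 0) (nat_lit 147477882068) (nat_lit 76) (nat_lit 129836310289) (nat_lit 152) (nat_lit 4155670941693) (nat_lit 2) (nat_lit 5) (nat_lit 3) (nat_lit 5) (nat_lit 4) (nat_lit 4) (nat_lit 279) (nat_lit 244) (nat_lit 137)) (XT.nd (nat_lit 78) (nat_lit 0) (nat_lit 0) (XT.lf (nat_lit 0) (nat_lit 713258343021) (nat_lit 152) (nat_lit 4032420864108)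 (nat_lit 0) (nat_lit 315725328239) (nat_lit 2) (nat_lit 5) (nat_lit 4) (nat_lit 4) (nat_lit 2) (nat_lit 4) (nat_lit 280) (nat_lit 244) (nat_lit 136)) (XT.lf (nat_lit 0) (nat_lit 1218185031905) (nat_lit 152) (nat_lit 3744962539056) (nat_lit 0) (nat_lit 820652002689) (nat_lit 2) (nat_lit 5) (nat_lit 4) (nat_lit 4) (nat_lit 2) (nat_lit 4) (nat_lit 281) (nat_lit 244) (nat_lit 135)))))) (XT.nd (nat_lit 31746) (nat_lit 0) (nat_lit 2128) (XT.nd (nat_lit 31512) (nat_lit 0) (nat_lit 3268) (XT.nd (nat_lit 78) (nat_lit 0) (nat_lit 0) (XT.lf (nat_lit 0) (nat_lit 1798850693060) (nat_lit 152) (nat_lit 3414385525820) (nat_lit 0) (nat_lit 1401317651293) (nat_lit 2) (nat_lit 5) (nat_lit 4) (nat_lit 4) (nat_lit 2) (nat_lit 4) (nat_lit 282) (nat_lit 244) (nat_lit 134)) (XT.nd (nat_lit 78) (nat_lit 0) (nat_lit 0) (XT.lf (nat_lit 0) (nat_lit 2466616176379) (nat_lit 152) (nat_lit 3034222013273) (nat_lit 0)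 (nat_lit 2069083123697) (nat_lit 2) (nat_lit 5) (nat_lit 4) (nat_lit 4) (nat_lit 2) (nat_lit 4) (nat_lit 283) (nat_lit 244) (nat_lit 133)) (XT.lf (nat_lit 0) (nat_lit 3234546458709) (nat_lit 152) (nat_lit 2597034019646) (nat_lit 0) (nat_lit 2837013396536) (nat_lit 2) (nat_lit 5) (nat_lit 4) (nat_lit 4) (nat_lit 2) (nat_lit 4) (nat_lit 284) (nat_lit 244) (nat_lit 132)))) (XT.nd (nat_lit 78) (nat_lit 0) (nat_lit 76) (XT.lf (nat_lit 0) (nat_lit 43283874156) (nat_lit 532) (nat_lit 11965292808) (nat_lit 532) (nat_lit 11965292808) (nat_lit 45) (nat_lit 3) (nat_lit 52) (nat_lit 3) (nat_lit 52) (nat_lit 5) (nat_lit 245) (nat_lit 245) (nat_lit 170)) (XT.nd (nat_lit 78) (nat_lit 0) (nat_lit 0) (XT.lf (nat_lit 0) (nat_lit 95417456260) (nat_lit 456) (nat_lit 47778291845) (nat_lit 532) (nat_lit 1126753080) (nat_lit 46) (nat_lit 5) (nat_lit 52) (nat_lit 5) (nat_lit 53) (nat_lit 5) (nat_lit 246) (nat_lit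 245) (nat_lit 169)) (XT.lf (nat_lit 76) (nat_lit 81917958524) (nat_lit 0) (nat_lit 29416644977) (nat_lit 532) (nat_lit 43906320982) (nat_lit 47) (nat_lit 5) (nat_lit 46) (nat_lit 5) (nat_lit 53) (nat_lit 5) (nat_lit 247) (nat_lit 245) (nat_lit 168))))) (XT.nd (nat_lit 234) (nat_lit 608) (nat_lit 0) (XT.nd (nat_lit 78) (nat_lit 684) (nat_lit 0) (XT.lf (nat_lit 76) (nat_lit 67159473588) (nat_lit 0) (nat_lit 67960622087) (nat_lit 532) (nat_lit 32238556432) (nat_lit 48) (nat_lit 5) (nat_lit 47) (nat_lit 5) (nat_lit 54) (nat_lit 5) (nat_lit 248) (nat_lit 245) (nat_lit 167)) (XT.nd (nat_lit 78) (nat_lit 304) (nat_lit 0) (XT.lf (nat_lit 0) (nat_lit 52241979437) (nat_lit 456) (nat_lit 116023613891) (nat_lit 532) (nat_lit 12565073329) (nat_lit 42) (nat_lit 5) (nat_lit 48) (nat_lit 5) (nat_lit 49) (nat_lit 5) (nat_lit 249) (nat_lit 245) (nat_lit 166)) (XT.lf (nat_lit 0) (nat_lit 15848349089) (nat_lit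 304) (nat_lit 159179455710) (nat_lit 76) (nat_lit 20772955653) (nat_lit 38) (nat_lit 5) (nat_lit 42) (nat_lit 5) (nat_lit 39) (nat_lit 5) (nat_lit 250) (nat_lit 245) (nat_lit 165)))) (XT.nd (nat_lit 156) (nat_lit 380) (nat_lit 0) (XT.nd (nat_lit 78) (nat_lit 0) (nat_lit 0) (XT.lf (nat_lit 0) (nat_lit 18977811521) (nat_lit 228) (nat_lit 36328765573) (nat_lit 304) (nat_lit 157081540816) (nat_lit 35) (nat_lit 5) (nat_lit 38) (nat_lit 5) (nat_lit 39) (nat_lit 5) (nat_lit 251) (nat_lit 245) (nat_lit 164)) (XT.lf (nat_lit 0) (nat_lit 108400013317) (nat_lit 304) (nat_lit 678179517) (nat_lit 76) (nat_lit 121768069640) (nat_lit 35) (nat_lit 5) (nat_lit 39) (nat_lit 5) (nat_lit 36) (nat_lit 5) (nat_lit 252) (nat_lit 245) (nat_lit 163))) (XT.nd (nat_lit 78) (nat_lit 152) (nat_lit 0) (XT.lf (nat_lit 0) (nat_lit 177365306915) (nat_lit 304) (nat_lit 21341330016) (nat_lit 76) (nat_lit 52733865661) (nat_lit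 32) (nat_lit 5) (nat_lit 36) (nat_lit 5) (nat_lit 33) (nat_lit 5) (nat_lit 253) (nat_lit 245) (nat_lit 162)) (XT.lf (nat_lit 0) (nat_lit 228841534950) (nat_lit 152) (nat_lit 36374123735) (nat_lit 228) (nat_lit 9224999976) (nat_lit 30) (nat_lit 5) (nat_lit 32) (nat_lit 5) (nat_lit 33) (nat_lit 5) (nat_lit 254) (nat_lit 245) (nat_lit 161))))))))
noncomputable def xc51 : XT := (XT.nd (nat_lit 1950) (nat_lit 152) (nat_lit 0) (XT.nd (nat_lit 936) (nat_lit 532) (nat_lit 0) (XT.nd (nat_lit 468) (nat_lit 532) (nat_lit 0) (XT.nd (nat_lit 234) (nat_lit 380) (nat_lit 0) (XT.nd (nat_lit 78) (nat_lit 304) (nat_lit 0) (XT.lf (nat_lit 0) (nat_lit 71988032116) (nat_lit 228) (nat_lit 77333827384) (nat_lit 76) (nat_lit 150650879527) (nat_lit 27) (nat_lit 5) (nat_lit 30) (nat_lit 5) (nat_lit 28) (nat_lit 5) (nat_lit 255) (nat_lit 245) (nat_lit 160)) (XT.nd (nat_lit 78) (nat_lit 152) (nat_lit 0) (XT.lf (nat_lit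 0) (nat_lit 173370717540) (nat_lit 228) (nat_lit 115658191543) (nat_lit 76) (nat_lit 39603840562) (nat_lit 25) (nat_lit 5) (nat_lit 28) (nat_lit 5) (nat_lit 26) (nat_lit 5) (nat_lit 256) (nat_lit 245) (nat_lit 159)) (XT.lf (nat_lit 0) (nat_lit 195701562557) (nat_lit 152) (nat_lit 105405357684) (nat_lit 228) (nat_lit 59593153107) (nat_lit 23) (nat_lit 5) (nat_lit 25) (nat_lit 5) (nat_lit 26) (nat_lit 5) (nat_lit 257) (nat_lit 245) (nat_lit 158)))) (XT.nd (nat_lit 78) (nat_lit 228) (nat_lit 0) (XT.lf (nat_lit 0) (nat_lit 58234694157) (nat_lit 152) (nat_lit 228947691784) (nat_lit 76) (nat_lit 109471598190) (nat_lit 21) (nat_lit 5) (nat_lit 23) (nat_lit 5) (nat_lit 22) (nat_lit 5) (nat_lit 258) (nat_lit 245) (nat_lit 157)) (XT.nd (nat_lit 78) (nat_lit 76) (nat_lit 0) (XT.lf (nat_lit 0) (nat_lit 124217080852) (nat_lit 152) (nat_lit 76922282182) (nat_lit 228) (nat_lit 235863291087) (nat_lit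 19) (nat_lit 5) (nat_lit 21) (nat_lit 5) (nat_lit 22) (nat_lit 5) (nat_lit 259) (nat_lit 245) (nat_lit 156)) (XT.lf (nat_lit 0) (nat_lit 60224351263) (nat_lit 76) (nat_lit 317507488979) (nat_lit 152) (nat_lit 104691616123) (nat_lit 18) (nat_lit 5) (nat_lit 19) (nat_lit 5) (nat_lit 20) (nat_lit 4) (nat_lit 260) (nat_lit 245) (nat_lit 155))))) (XT.nd (nat_lit 234) (nat_lit 228) (nat_lit 0) (XT.nd (nat_lit 78) (nat_lit 228) (nat_lit 0) (XT.lf (nat_lit 0) (nat_lit 55317076434) (nat_lit 152) (nat_lit 29276249033) (nat_lit 76) (nat_lit 449057636577) (nat_lit 17) (nat_lit 5) (nat_lit 19) (nat_lit 5) (nat_lit 18) (nat_lit 5) (nat_lit 261) (nat_lit 245) (nat_lit 154)) (XT.nd (nat_lit 78) (nat_lit 76) (nat_lit 0) (XT.lf (nat_lit 0) (nat_lit 248687763942) (nat_lit 228) (nat_lit 154450271275) (nat_lit 76) (nat_lit 187962249371) (nat_lit 15) (nat_lit 5) (nat_lit 18) (nat_lit 5) (nat_lit 16) (nat_lit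 4) (nat_lit 262) (nat_lit 245) (nat_lit 153)) (XT.lf (nat_lit 0) (nat_lit 331352745178) (nat_lit 76) (nat_lit 150894271017) (nat_lit 152) (nat_lit 174025352629) (nat_lit 14) (nat_lit 5) (nat_lit 15) (nat_lit 5) (nat_lit 16) (nat_lit 4) (nat_lit 263) (nat_lit 245) (nat_lit 152)))) (XT.nd (nat_lit 78) (nat_lit 76) (nat_lit 0) (XT.lf (nat_lit 0) (nat_lit 31093002068) (nat_lit 152) (nat_lit 557290673268) (nat_lit 76) (nat_lit 141802475619) (nat_lit 12) (nat_lit 5) (nat_lit 14) (nat_lit 5) (nat_lit 13) (nat_lit 4) (nat_lit 264) (nat_lit 245) (nat_lit 151)) (XT.nd (nat_lit 78) (nat_lit 76) (nat_lit 0) (XT.lf (nat_lit 0) (nat_lit 270846414100) (nat_lit 152) (nat_lit 58603736036) (nat_lit 76) (nat_lit 484241515554) (nat_lit 12) (nat_lit 5) (nat_lit 14) (nat_lit 5) (nat_lit 13) (nat_lit 4) (nat_lit 265) (nat_lit 245) (nat_lit 150)) (XT.lf (nat_lit 0) (nat_lit 541998945538) (nat_lit 76) (nat_lit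 17598824584) (nat_lit 152) (nat_lit 349082443085) (nat_lit 11) (nat_lit 5) (nat_lit 12) (nat_lit 5) (nat_lit 13) (nat_lit 4) (nat_lit 266) (nat_lit 245) (nat_lit 149)))))) (XT.nd (nat_lit 468) (nat_lit 152) (nat_lit 0) (XT.nd (nat_lit 234) (nat_lit 152) (nat_lit 0) (XT.nd (nat_lit 78) (nat_lit 152) (nat_lit 0) (XT.lf (nat_lit 0) (nat_lit 221283476471) (nat_lit 76) (nat_lit 685652367645) (nat_lit 76) (nat_lit 109759277697) (nat_lit 10) (nat_lit 4) (nat_lit 11) (nat_lit 5) (nat_lit 11) (nat_lit 4) (nat_lit 267) (nat_lit 245) (nat_lit 148)) (XT.nd (nat_lit 78) (nat_lit 76) (nat_lit 0) (XT.lf (nat_lit 0) (nat_lit 168624687465) (nat_lit 152) (nat_lit 225153837305) (nat_lit 76) (nat_lit 745900238341) (nat_lit 9) (nat_lit 5) (nat_lit 11) (nat_lit 5) (nat_lit 10) (nat_lit 4) (nat_lit 268) (nat_lit 245) (nat_lit 147)) (XT.lf (nat_lit 0) (nat_lit 450123769473) (nat_lit 76) (nat_lit 43153654229)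 (nat_lit 152) (nat_lit 786723643735) (nat_lit 8) (nat_lit 5) (nat_lit 9) (nat_lit 5) (nat_lit 10) (nat_lit 4) (nat_lit 269) (nat_lit 245) (nat_lit 146)))) (XT.nd (nat_lit 78) (nat_lit 152) (nat_lit 0) (XT.lf (nat_lit 0) (nat_lit 882012906638) (nat_lit 152) (nat_lit 209349696378) (nat_lit 0) (nat_lit 348778327573) (nat_lit 8) (nat_lit 5) (nat_lit 10) (nat_lit 4) (nat_lit 8) (nat_lit 4) (nat_lit 270) (nat_lit 245) (nat_lit 145)) (XT.nd (nat_lit 78) (nat_lit 76) (nat_lit 0) (XT.lf (nat_lit 0) (nat_lit 529553768645) (nat_lit 76) (nat_lit 813434153077) (nat_lit 76) (nat_lit 280199514783) (nat_lit 7) (nat_lit 4) (nat_lit 8) (nat_lit 5) (nat_lit 8) (nat_lit 4) (nat_lit 271) (nat_lit 245) (nat_lit 144)) (XT.lf (nat_lit 0) (nat_lit 43699623410) (nat_lit 152) (nat_lit 442339473101) (nat_lit 76) (nat_lit 1347075723886) (nat_lit 6) (nat_lit 5) (nat_lit 8) (nat_lit 5) (nat_lit 7) (nat_lit 4) (nat_lit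 272) (nat_lit 245) (nat_lit 143))))) (XT.nd (nat_lit 234) (nat_lit 76) (nat_lit 0) (XT.nd (nat_lit 78) (nat_lit 0) (nat_lit 0) (XT.lf (nat_lit 0) (nat_lit 314638575395) (nat_lit 76) (nat_lit 92992823631) (nat_lit 152) (nat_lit 1665674583755) (nat_lit 5) (nat_lit 5) (nat_lit 6) (nat_lit 5) (nat_lit 7) (nat_lit 4) (nat_lit 273) (nat_lit 245) (nat_lit 142)) (XT.nd (nat_lit 78) (nat_lit 0) (nat_lit 0) (XT.lf (nat_lit 0) (nat_lit 847999815434) (nat_lit 152) (nat_lit 1145514340151) (nat_lit 0) (nat_lit 354263914022) (nat_lit 5) (nat_lit 5) (nat_lit 7) (nat_lit 4) (nat_lit 5) (nat_lit 4) (nat_lit 274) (nat_lit 245) (nat_lit 141)) (XT.lf (nat_lit 0) (nat_lit 1356995383652) (nat_lit 152) (nat_lit 442960383809) (nat_lit 0) (nat_lit 863259450884) (nat_lit 5) (nat_lit 5) (nat_lit 7) (nat_lit 4) (nat_lit 5) (nat_lit 4) (nat_lit 275) (nat_lit 245) (nat_lit 140)))) (XT.nd (nat_lit 156) (nat_lit 0) (nat_lit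 0) (XT.nd (nat_lit 78) (nat_lit 0) (nat_lit 0) (XT.lf (nat_lit 0) (nat_lit 384195581139) (nat_lit 76) (nat_lit 1567384564806) (nat_lit 76) (nat_lit 1073648604773) (nat_lit 4) (nat_lit 4) (nat_lit 5) (nat_lit 5) (nat_lit 5) (nat_lit 4) (nat_lit 276) (nat_lit 245) (nat_lit 139)) (XT.lf (nat_lit 0) (nat_lit 1362249180943) (nat_lit 76) (nat_lit 1285999707260) (nat_lit 76) (nat_lit 792263723519) (nat_lit 4) (nat_lit 4) (nat_lit 5) (nat_lit 5) (nat_lit 5) (nat_lit 4) (nat_lit 277) (nat_lit 245) (nat_lit 138))) (XT.nd (nat_lit 78) (nat_lit 0) (nat_lit 0) (XT.lf (nat_lit 0) (nat_lit 2487010738086) (nat_lit 76) (nat_lit 962407160803) (nat_lit 76) (nat_lit 468671156445) (nat_lit 4) (nat_lit 4) (nat_lit 5) (nat_lit 5) (nat_lit 5) (nat_lit 4) (nat_lit 278) (nat_lit 245) (nat_lit 137)) (XT.lf (nat_lit 0) (nat_lit 3780486456946) (nat_lit 76) (nat_lit 590275766917) (nat_lit 76) (nat_lit 96539744631)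 (nat_lit 4) (nat_lit 4) (nat_lit 5) (nat_lit 5) (nat_lit 5) (nat_lit 4) (nat_lit 279) (nat_lit 245) (nat_lit 136))))))) (XT.nd (nat_lit 32370) (nat_lit 0) (nat_lit 760) (XT.nd (nat_lit 31824) (nat_lit 0) (nat_lit 2508) (XT.nd (nat_lit 234) (nat_lit 0) (nat_lit 0) (XT.nd (nat_lit 78) (nat_lit 0) (nat_lit 0) (XT.lf (nat_lit 0) (nat_lit 169600292642) (nat_lit 76) (nat_lit 149311404721) (nat_lit 152) (nat_lit 4779021176525) (nat_lit 2) (nat_lit 5) (nat_lit 3) (nat_lit 5) (nat_lit 4) (nat_lit 4) (nat_lit 280) (nat_lit 245) (nat_lit 135)) (XT.nd (nat_lit 78) (nat_lit 0) (nat_lit 0) (XT.lf (nat_lit 0) (nat_lit 820247428927) (nat_lit 152) (nat_lit 4637283341494) (nat_lit 0) (nat_lit 363084418342) (nat_lit 2) (nat_lit 5) (nat_lit 4) (nat_lit 4) (nat_lit 2) (nat_lit 4) (nat_lit 281) (nat_lit 245) (nat_lit 134)) (XT.lf (nat_lit 0) (nat_lit 1400913077519) (nat_lit 152) (nat_lit 4306706352758) (nat_lit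 0) (nat_lit 943750056020) (nat_lit 2) (nat_lit 5) (nat_lit 4) (nat_lit 4) (nat_lit 2) (nat_lit 4) (nat_lit 282) (nat_lit 245) (nat_lit 133)))) (XT.nd (nat_lit 78) (nat_lit 0) (nat_lit 0) (XT.lf (nat_lit 0) (nat_lit 2068678549914) (nat_lit 152) (nat_lit 3926542861514) (nat_lit 0) (nat_lit 1611515518924) (nat_lit 2) (nat_lit 5) (nat_lit 4) (nat_lit 4) (nat_lit 2) (nat_lit 4) (nat_lit 283) (nat_lit 245) (nat_lit 132)) (XT.nd (nat_lit 31434) (nat_lit 0) (nat_lit 3268) (XT.lf (nat_lit 0) (nat_lit 2836608822744) (nat_lit 152) (nat_lit 3489354886412) (nat_lit 0) (nat_lit 2379445783502) (nat_lit 2) (nat_lit 5) (nat_lit 4) (nat_lit 4) (nat_lit 2) (nat_lit 4) (nat_lit 284) (nat_lit 245) (nat_lit 131)) (XT.lf (nat_lit 0) (nat_lit 49782178031) (nat_lit 532) (nat_lit 13756988209) (nat_lit 532) (nat_lit 13756988209) (nat_lit 45) (nat_lit 3) (nat_lit 52) (nat_lit 3) (nat_lit 52) (nat_lit 5) (nat_lit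 246) (nat_lit 246) (nat_lit 168))))) (XT.nd (nat_lit 234) (nat_lit 836) (nat_lit 0) (XT.nd (nat_lit 78) (nat_lit 0) (nat_lit 0) (XT.lf (nat_lit 0) (nat_lit 109740057516) (nat_lit 456) (nat_lit 54938421152) (nat_lit 532) (nat_lit 1291570431) (nat_lit 46) (nat_lit 5) (nat_lit 52) (nat_lit 5) (nat_lit 53) (nat_lit 5) (nat_lit 247) (nat_lit 246) (nat_lit 167)) (XT.nd (nat_lit 78) (nat_lit 0) (nat_lit 76) (XT.lf (nat_lit 76) (nat_lit 94211706890) (nat_lit 0) (nat_lit 33831913459) (nat_lit 532) (nat_lit 50482711797) (nat_lit 47) (nat_lit 5) (nat_lit 46) (nat_lit 5) (nat_lit 53) (nat_lit 5) (nat_lit 248) (nat_lit 246) (nat_lit 166)) (XT.lf (nat_lit 76) (nat_lit 77239666874) (nat_lit 0) (nat_lit 78156211098) (nat_lit 532) (nat_lit 37065928861) (nat_lit 48) (nat_lit 5) (nat_lit 47) (nat_lit 5) (nat_lit 54) (nat_lit 5) (nat_lit 249) (nat_lit 246) (nat_lit 165)))) (XT.nd (nat_lit 156) (nat_lit 228)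 (nat_lit 0) (XT.nd (nat_lit 78) (nat_lit 304) (nat_lit 0) (XT.lf (nat_lit 0) (nat_lit 60084639268) (nat_lit 456) (nat_lit 133427669543) (nat_lit 532) (nat_lit 14442388895) (nat_lit 42) (nat_lit 5) (nat_lit 48) (nat_lit 5) (nat_lit 49) (nat_lit 5) (nat_lit 250) (nat_lit 246) (nat_lit 164)) (XT.lf (nat_lit 0) (nat_lit 18231897695) (nat_lit 304) (nat_lit 183049670934) (nat_lit 76) (nat_lit 23888787030) (nat_lit 38) (nat_lit 5) (nat_lit 42) (nat_lit 5) (nat_lit 39) (nat_lit 5) (nat_lit 251) (nat_lit 246) (nat_lit 163))) (XT.nd (nat_lit 78) (nat_lit 0) (nat_lit 0) (XT.lf (nat_lit 0) (nat_lit 21830618996) (nat_lit 228) (nat_lit 41777567222) (nat_lit 304) (nat_lit 180637686391) (nat_lit 35) (nat_lit 5) (nat_lit 38) (nat_lit 5) (nat_lit 39) (nat_lit 5) (nat_lit 252) (nat_lit 246) (nat_lit 162)) (XT.lf (nat_lit 0) (nat_lit 124664915229) (nat_lit 304) (nat_lit 774179146) (nat_lit 76) (nat_lit 140033704013)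 (nat_lit 35) (nat_lit 5) (nat_lit 39) (nat_lit 5) (nat_lit 36) (nat_lit 5) (nat_lit 253) (nat_lit 246) (nat_lit 161)))))) (XT.nd (nat_lit 468) (nat_lit 684) (nat_lit 0) (XT.nd (nat_lit 234) (nat_lit 456) (nat_lit 0) (XT.nd (nat_lit 78) (nat_lit 380) (nat_lit 0) (XT.lf (nat_lit 0) (nat_lit 203974510408) (nat_lit 304) (nat_lit 24536946667) (nat_lit 76) (nat_lit 60644758341) (nat_lit 32) (nat_lit 5) (nat_lit 36) (nat_lit 5) (nat_lit 33) (nat_lit 5) (nat_lit 254) (nat_lit 246) (nat_lit 160)) (XT.nd (nat_lit 78) (nat_lit 228) (nat_lit 0) (XT.lf (nat_lit 0) (nat_lit 263172875483) (nat_lit 152) (nat_lit 41829087477) (nat_lit 228) (nat_lit 10604469394) (nat_lit 30) (nat_lit 5) (nat_lit 32) (nat_lit 5) (nat_lit 33) (nat_lit 5) (nat_lit 255) (nat_lit 246) (nat_lit 159)) (XT.lf (nat_lit 0) (nat_lit 82789919890) (nat_lit 228) (nat_lit 88928750679) (nat_lit 76) (nat_lit 173249677697) (nat_lit 27)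 (nat_lit 5) (nat_lit 30) (nat_lit 5) (nat_lit 28) (nat_lit 5) (nat_lit 256) (nat_lit 246) (nat_lit 158)))) (XT.nd (nat_lit 78) (nat_lit 304) (nat_lit 0) (XT.lf (nat_lit 0) (nat_lit 199379674776) (nat_lit 228) (nat_lit 133001967749) (nat_lit 76) (nat_lit 45545745530) (nat_lit 25) (nat_lit 5) (nat_lit 28) (nat_lit 5) (nat_lit 26) (nat_lit 5) (nat_lit 257) (nat_lit 246) (nat_lit 157)) (XT.nd (nat_lit 78) (nat_lit 152) (nat_lit 0) (XT.lf (nat_lit 0) (nat_lit 225061330260) (nat_lit 152) (nat_lit 121214649744) (nat_lit 228) (nat_lit 68528857332) (nat_lit 23) (nat_lit 5) (nat_lit 25) (nat_lit 5) (nat_lit 26) (nat_lit 5) (nat_lit 258) (nat_lit 246) (nat_lit 156)) (XT.lf (nat_lit 0) (nat_lit 66972738059) (nat_lit 152) (nat_lit 263285349339) (nat_lit 76) (nat_lit 125893762922) (nat_lit 21) (nat_lit 5) (nat_lit 23) (nat_lit 5) (nat_lit 22) (nat_lit 5) (nat_lit 259) (nat_lit 246) (nat_lit 155)))))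 (XT.nd (nat_lit 234) (nat_lit 380) (nat_lit 0) (XT.nd (nat_lit 78) (nat_lit 152) (nat_lit 0) (XT.lf (nat_lit 0) (nat_lit 142853758611) (nat_lit 152) (nat_lit 88459077232) (nat_lit 228) (nat_lit 271240007234) (nat_lit 19) (nat_lit 5) (nat_lit 21) (nat_lit 5) (nat_lit 22) (nat_lit 5) (nat_lit 260) (nat_lit 246) (nat_lit 154)) (XT.nd (nat_lit 78) (nat_lit 76) (nat_lit 0) (XT.lf (nat_lit 0) (nat_lit 69261928612) (nat_lit 76) (nat_lit 365132047763) (nat_lit 152) (nat_lit 120392806424) (nat_lit 18) (nat_lit 5) (nat_lit 19) (nat_lit 5) (nat_lit 20) (nat_lit 4) (nat_lit 261) (nat_lit 246) (nat_lit 153)) (XT.lf (nat_lit 0) (nat_lit 63616746117) (nat_lit 152) (nat_lit 33664160038) (nat_lit 76) (nat_lit 516417528951) (nat_lit 17) (nat_lit 5) (nat_lit 19) (nat_lit 5) (nat_lit 18) (nat_lit 5) (nat_lit 262) (nat_lit 246) (nat_lit 152)))) (XT.nd (nat_lit 156) (nat_lit 152) (nat_lit 0) (XT.nd (nat_lit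 78) (nat_lit 76) (nat_lit 0) (XT.lf (nat_lit 0) (nat_lit 285992871070) (nat_lit 228) (nat_lit 177614460660) (nat_lit 76) (nat_lit 216157837894) (nat_lit 15) (nat_lit 5) (nat_lit 18) (nat_lit 5) (nat_lit 16) (nat_lit 4) (nat_lit 263) (nat_lit 246) (nat_lit 151)) (XT.lf (nat_lit 0) (nat_lit 381058724590) (nat_lit 76) (nat_lit 173527106974) (nat_lit 152) (nat_lit 200127249593) (nat_lit 14) (nat_lit 5) (nat_lit 15) (nat_lit 5) (nat_lit 16) (nat_lit 4) (nat_lit 264) (nat_lit 246) (nat_lit 150))) (XT.nd (nat_lit 78) (nat_lit 0) (nat_lit 0) (XT.lf (nat_lit 0) (nat_lit 35758626603) (nat_lit 152) (nat_lit 640881274380) (nat_lit 76) (nat_lit 163074037101) (nat_lit 12) (nat_lit 5) (nat_lit 14) (nat_lit 5) (nat_lit 13) (nat_lit 4) (nat_lit 265) (nat_lit 246) (nat_lit 149)) (XT.lf (nat_lit 0) (nat_lit 311474832063) (nat_lit 152) (nat_lit 67391687852) (nat_lit 76) (nat_lit 556878777791) (nat_lit 12)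 (nat_lit 5) (nat_lit 14) (nat_lit 5) (nat_lit 13) (nat_lit 4) (nat_lit 266) (nat_lit 246) (nat_lit 148))))))))
noncomputable def xc52 : XT := (XT.nd (nat_lit 33384) (nat_lit 0) (nat_lit 152) (XT.nd (nat_lit 936) (nat_lit 152) (nat_lit 0) (XT.nd (nat_lit 468) (nat_lit 228) (nat_lit 0) (XT.nd (nat_lit 234) (nat_lit 152) (nat_lit 0) (XT.nd (nat_lit 78) (nat_lit 152) (nat_lit 0) (XT.lf (nat_lit 0) (nat_lit 623301175154) (nat_lit 76) (nat_lit 20237583868) (nat_lit 152) (nat_lit 401443379105) (nat_lit 11) (nat_lit 5) (nat_lit 12) (nat_lit 5) (nat_lit 13) (nat_lit 4) (nat_lit 267) (nat_lit 246) (nat_lit 147)) (XT.nd (nat_lit 78) (nat_lit 76) (nat_lit 0) (XT.lf (nat_lit 0) (nat_lit 254478258179) (nat_lit 76) (nat_lit 788499189939) (nat_lit 76) (nat_lit 126221842740) (nat_lit 10) (nat_lit 4) (nat_lit 11) (nat_lit 5) (nat_lit 11) (nat_lit 4) (nat_lit 268) (nat_lit 246) (nat_lit 146)) (XT.lf (nat_lit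 0) (nat_lit 193919486453) (nat_lit 152) (nat_lit 258924888936) (nat_lit 76) (nat_lit 857786113685) (nat_lit 9) (nat_lit 5) (nat_lit 11) (nat_lit 5) (nat_lit 10) (nat_lit 4) (nat_lit 269) (nat_lit 246) (nat_lit 145)))) (XT.nd (nat_lit 78) (nat_lit 76) (nat_lit 0) (XT.lf (nat_lit 0) (nat_lit 517644187541) (nat_lit 76) (nat_lit 49625847203) (nat_lit 152) (nat_lit 904731112286) (nat_lit 8) (nat_lit 5) (nat_lit 9) (nat_lit 5) (nat_lit 10) (nat_lit 4) (nat_lit 270) (nat_lit 246) (nat_lit 144)) (XT.nd (nat_lit 78) (nat_lit 76) (nat_lit 0) (XT.lf (nat_lit 0) (nat_lit 1014315727897) (nat_lit 152) (nat_lit 240750487702) (nat_lit 0) (nat_lit 401095783129) (nat_lit 8) (nat_lit 5) (nat_lit 10) (nat_lit 4) (nat_lit 8) (nat_lit 4) (nat_lit 271) (nat_lit 246) (nat_lit 143)) (XT.lf (nat_lit 0) (nat_lit 608988356299) (nat_lit 76) (nat_lit 935448560087) (nat_lit 76) (nat_lit 322228570534) (nat_lit 7) (nat_lit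 4) (nat_lit 8) (nat_lit 5) (nat_lit 8) (nat_lit 4) (nat_lit 272) (nat_lit 246) (nat_lit 142))))) (XT.nd (nat_lit 234) (nat_lit 76) (nat_lit 0) (XT.nd (nat_lit 78) (nat_lit 76) (nat_lit 0) (XT.lf (nat_lit 0) (nat_lit 50255286811) (nat_lit 152) (nat_lit 508689031928) (nat_lit 76) (nat_lit 1549137666686) (nat_lit 6) (nat_lit 5) (nat_lit 8) (nat_lit 5) (nat_lit 7) (nat_lit 4) (nat_lit 273) (nat_lit 246) (nat_lit 141)) (XT.nd (nat_lit 78) (nat_lit 0) (nat_lit 0) (XT.lf (nat_lit 0) (nat_lit 361835608545) (nat_lit 76) (nat_lit 106941156313) (nat_lit 152) (nat_lit 1915525062479) (nat_lit 5) (nat_lit 5) (nat_lit 6) (nat_lit 5) (nat_lit 7) (nat_lit 4) (nat_lit 274) (nat_lit 246) (nat_lit 140)) (XT.lf (nat_lit 0) (nat_lit 975200370521) (nat_lit 152) (nat_lit 1317340373355) (nat_lit 0) (nat_lit 407403989218) (nat_lit 5) (nat_lit 5) (nat_lit 7) (nat_lit 4) (nat_lit 5) (nat_lit 4) (nat_lit 275) (nat_lit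 246) (nat_lit 139)))) (XT.nd (nat_lit 78) (nat_lit 76) (nat_lit 0) (XT.lf (nat_lit 0) (nat_lit 1560545197957) (nat_lit 152) (nat_lit 509403469364) (nat_lit 0) (nat_lit 992748792945) (nat_lit 5) (nat_lit 5) (nat_lit 7) (nat_lit 4) (nat_lit 5) (nat_lit 4) (nat_lit 276) (nat_lit 246) (nat_lit 138)) (XT.nd (nat_lit 78) (nat_lit 0) (nat_lit 0) (XT.lf (nat_lit 0) (nat_lit 441825808050) (nat_lit 76) (nat_lit 1802491821844) (nat_lit 76) (nat_lit 1234695396215) (nat_lit 4) (nat_lit 4) (nat_lit 5) (nat_lit 5) (nat_lit 5) (nat_lit 4) (nat_lit 277) (nat_lit 246) (nat_lit 137)) (XT.lf (nat_lit 0) (nat_lit 1566587331772) (nat_lit 76) (nat_lit 1478899291451) (nat_lit 76) (nat_lit 911102847895) (nat_lit 4) (nat_lit 4) (nat_lit 5) (nat_lit 5) (nat_lit 5) (nat_lit 4) (nat_lit 278) (nat_lit 246) (nat_lit 136)))))) (XT.nd (nat_lit 31902) (nat_lit 0) (nat_lit 2508) (XT.nd (nat_lit 234) (nat_lit 0) (nat_lit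 0) (XT.nd (nat_lit 78) (nat_lit 152) (nat_lit 0) (XT.lf (nat_lit 0) (nat_lit 2860063021570) (nat_lit 76) (nat_lit 1106767911534) (nat_lit 76) (nat_lit 538971452388) (nat_lit 4) (nat_lit 4) (nat_lit 5) (nat_lit 5) (nat_lit 5) (nat_lit 4) (nat_lit 279) (nat_lit 246) (nat_lit 135)) (XT.nd (nat_lit 78) (nat_lit 152) (nat_lit 0) (XT.lf (nat_lit 0) (nat_lit 4347560010507) (nat_lit 76) (nat_lit 678816850746) (nat_lit 76) (nat_lit 111020378045) (nat_lit 4) (nat_lit 4) (nat_lit 5) (nat_lit 5) (nat_lit 5) (nat_lit 4) (nat_lit 280) (nat_lit 246) (nat_lit 134)) (XT.lf (nat_lit 0) (nat_lit 195040887211) (nat_lit 76) (nat_lit 171707849183) (nat_lit 152) (nat_lit 5495874045690) (nat_lit 2) (nat_lit 5) (nat_lit 3) (nat_lit 5) (nat_lit 4) (nat_lit 4) (nat_lit 281) (nat_lit 246) (nat_lit 133)))) (XT.nd (nat_lit 78) (nat_lit 0) (nat_lit 0) (XT.lf (nat_lit 0) (nat_lit 943284796160) (nat_lit 152) (nat_lit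 5332875349538) (nat_lit 0) (nat_lit 417547301031) (nat_lit 2) (nat_lit 5) (nat_lit 4) (nat_lit 4) (nat_lit 2) (nat_lit 4) (nat_lit 282) (nat_lit 246) (nat_lit 132)) (XT.nd (nat_lit 78) (nat_lit 0) (nat_lit 0) (XT.lf (nat_lit 0) (nat_lit 1611050259056) (nat_lit 152) (nat_lit 4952711876820) (nat_lit 0) (nat_lit 1085312755674) (nat_lit 2) (nat_lit 5) (nat_lit 4) (nat_lit 4) (nat_lit 2) (nat_lit 4) (nat_lit 283) (nat_lit 246) (nat_lit 131)) (XT.lf (nat_lit 0) (nat_lit 2378980523626) (nat_lit 152) (nat_lit 4515523917826) (nat_lit 0) (nat_lit 1853243013067) (nat_lit 2) (nat_lit 5) (nat_lit 4) (nat_lit 4) (nat_lit 2) (nat_lit 4) (nat_lit 284) (nat_lit 246) (nat_lit 130))))) (XT.nd (nat_lit 234) (nat_lit 760) (nat_lit 0) (XT.nd (nat_lit 78) (nat_lit 0) (nat_lit 76) (XT.lf (nat_lit 0) (nat_lit 57253831958) (nat_lit 532) (nat_lit 15818193515) (nat_lit 532) (nat_lit 15818193515) (nat_lit 45) (nat_lit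 3) (nat_lit 52) (nat_lit 3) (nat_lit 52) (nat_lit 5) (nat_lit 247) (nat_lit 247) (nat_lit 166)) (XT.nd (nat_lit 78) (nat_lit 0) (nat_lit 0) (XT.lf (nat_lit 0) (nat_lit 126208614587) (nat_lit 456) (nat_lit 63174182835) (nat_lit 532) (nat_lit 1482133510) (nat_lit 46) (nat_lit 5) (nat_lit 52) (nat_lit 5) (nat_lit 53) (nat_lit 5) (nat_lit 248) (nat_lit 247) (nat_lit 165)) (XT.lf (nat_lit 76) (nat_lit 108348041062) (nat_lit 0) (nat_lit 38908796308) (nat_lit 532) (nat_lit 58047891850) (nat_lit 47) (nat_lit 5) (nat_lit 46) (nat_lit 5) (nat_lit 53) (nat_lit 5) (nat_lit 249) (nat_lit 247) (nat_lit 164)))) (XT.nd (nat_lit 156) (nat_lit 532) (nat_lit 0) (XT.nd (nat_lit 78) (nat_lit 380) (nat_lit 0) (XT.lf (nat_lit 76) (nat_lit 88830359626) (nat_lit 0) (nat_lit 89880773726) (nat_lit 532) (nat_lit 42619458238) (nat_lit 48) (nat_lit 5) (nat_lit 47) (nat_lit 5) (nat_lit 54) (nat_lit 5) (nat_lit 250)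 (nat_lit 247) (nat_lit 163)) (XT.lf (nat_lit 0) (nat_lit 69102146437) (nat_lit 456) (nat_lit 153442208306) (nat_lit 532) (nat_lit 16603117412) (nat_lit 42) (nat_lit 5) (nat_lit 48) (nat_lit 5) (nat_lit 49) (nat_lit 5) (nat_lit 251) (nat_lit 247) (nat_lit 162))) (XT.nd (nat_lit 78) (nat_lit 228) (nat_lit 0) (XT.lf (nat_lit 0) (nat_lit 20971443214) (nat_lit 304) (nat_lit 210502053042) (nat_lit 76) (nat_lit 27472020419) (nat_lit 38) (nat_lit 5) (nat_lit 42) (nat_lit 5) (nat_lit 39) (nat_lit 5) (nat_lit 252) (nat_lit 247) (nat_lit 161)) (XT.lf (nat_lit 0) (nat_lit 25109851351) (nat_lit 228) (nat_lit 48043814262) (nat_lit 304) (nat_lit 207728737802) (nat_lit 35) (nat_lit 5) (nat_lit 38) (nat_lit 5) (nat_lit 39) (nat_lit 5) (nat_lit 253) (nat_lit 247) (nat_lit 160))))))) (XT.nd (nat_lit 936) (nat_lit 760) (nat_lit 0) (XT.nd (nat_lit 468) (nat_lit 684) (nat_lit 0) (XT.nd (nat_lit 234) (nat_lit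 532) (nat_lit 0) (XT.nd (nat_lit 78) (nat_lit 380) (nat_lit 0) (XT.lf (nat_lit 0) (nat_lit 143368357553) (nat_lit 304) (nat_lit 885975358) (nat_lit 76) (nat_lit 161039080165) (nat_lit 35) (nat_lit 5) (nat_lit 39) (nat_lit 5) (nat_lit 36) (nat_lit 5) (nat_lit 254) (nat_lit 247) (nat_lit 159)) (XT.nd (nat_lit 78) (nat_lit 152) (nat_lit 0) (XT.lf (nat_lit 0) (nat_lit 234574019638) (nat_lit 304) (nat_lit 28213267229) (nat_lit 76) (nat_lit 69742086710) (nat_lit 32) (nat_lit 5) (nat_lit 36) (nat_lit 5) (nat_lit 33) (nat_lit 5) (nat_lit 255) (nat_lit 247) (nat_lit 158)) (XT.lf (nat_lit 0) (nat_lit 302652670920) (nat_lit 152) (nat_lit 48102577389) (nat_lit 228) (nat_lit 12191903071) (nat_lit 30) (nat_lit 5) (nat_lit 32) (nat_lit 5) (nat_lit 33) (nat_lit 5) (nat_lit 256) (nat_lit 247) (nat_lit 157)))) (XT.nd (nat_lit 78) (nat_lit 304) (nat_lit 0) (XT.lf (nat_lit 0) (nat_lit 95211192717) (nat_lit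 228) (nat_lit 102264168526) (nat_lit 76) (nat_lit 199238011197) (nat_lit 27) (nat_lit 5) (nat_lit 30) (nat_lit 5) (nat_lit 28) (nat_lit 5) (nat_lit 257) (nat_lit 247) (nat_lit 156)) (XT.nd (nat_lit 78) (nat_lit 152) (nat_lit 0) (XT.lf (nat_lit 0) (nat_lit 229289158775) (nat_lit 228) (nat_lit 152948518091) (nat_lit 76) (nat_lit 52378612186) (nat_lit 25) (nat_lit 5) (nat_lit 28) (nat_lit 5) (nat_lit 26) (nat_lit 5) (nat_lit 258) (nat_lit 247) (nat_lit 155)) (XT.lf (nat_lit 0) (nat_lit 258823957639) (nat_lit 152) (nat_lit 139395704224) (nat_lit 228) (nat_lit 78805714293) (nat_lit 23) (nat_lit 5) (nat_lit 25) (nat_lit 5) (nat_lit 26) (nat_lit 5) (nat_lit 259) (nat_lit 247) (nat_lit 154))))) (XT.nd (nat_lit 234) (nat_lit 304) (nat_lit 0) (XT.nd (nat_lit 78) (nat_lit 228) (nat_lit 0) (XT.lf (nat_lit 0) (nat_lit 77020796048) (nat_lit 152) (nat_lit 302774751956) (nat_lit 76) (nat_lit 144778904869)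 (nat_lit 21) (nat_lit 5) (nat_lit 23) (nat_lit 5) (nat_lit 22) (nat_lit 5) (nat_lit 260) (nat_lit 247) (nat_lit 153)) (XT.nd (nat_lit 78) (nat_lit 76) (nat_lit 0) (XT.lf (nat_lit 0) (nat_lit 164284934411) (nat_lit 152) (nat_lit 101726768852) (nat_lit 228) (nat_lit 311923908118) (nat_lit 19) (nat_lit 5) (nat_lit 21) (nat_lit 5) (nat_lit 22) (nat_lit 5) (nat_lit 261) (nat_lit 247) (nat_lit 152)) (XT.lf (nat_lit 0) (nat_lit 79654185511) (nat_lit 76) (nat_lit 419900671893) (nat_lit 152) (nat_lit 138449797620) (nat_lit 18) (nat_lit 5) (nat_lit 19) (nat_lit 5) (nat_lit 20) (nat_lit 4) (nat_lit 262) (nat_lit 247) (nat_lit 151)))) (XT.nd (nat_lit 78) (nat_lit 228) (nat_lit 0) (XT.lf (nat_lit 0) (nat_lit 73160852150) (nat_lit 152) (nat_lit 38711117617) (nat_lit 76) (nat_lit 593881101120) (nat_lit 17) (nat_lit 5) (nat_lit 19) (nat_lit 5) (nat_lit 18) (nat_lit 5) (nat_lit 263) (nat_lit 247) (nat_lit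 150)) (XT.nd (nat_lit 78) (nat_lit 76) (nat_lit 0) (XT.lf (nat_lit 0) (nat_lit 328893270568) (nat_lit 228) (nat_lit 204254095689) (nat_lit 76) (nat_lit 248582459603) (nat_lit 15) (nat_lit 5) (nat_lit 18) (nat_lit 5) (nat_lit 16) (nat_lit 4) (nat_lit 264) (nat_lit 247) (nat_lit 149)) (XT.lf (nat_lit 0) (nat_lit 438219852852) (nat_lit 76) (nat_lit 199555186483) (nat_lit 152) (nat_lit 230144895875) (nat_lit 14) (nat_lit 5) (nat_lit 15) (nat_lit 5) (nat_lit 16) (nat_lit 4) (nat_lit 265) (nat_lit 247) (nat_lit 148)))))) (XT.nd (nat_lit 468) (nat_lit 304) (nat_lit 0) (XT.nd (nat_lit 234) (nat_lit 228) (nat_lit 0) (XT.nd (nat_lit 78) (nat_lit 76) (nat_lit 0) (XT.lf (nat_lit 0) (nat_lit 41123686548) (nat_lit 152) (nat_lit 737011197199) (nat_lit 76) (nat_lit 187536042583) (nat_lit 12) (nat_lit 5) (nat_lit 14) (nat_lit 5) (nat_lit 13) (nat_lit 4) (nat_lit 266) (nat_lit 247) (nat_lit 147)) (XT.nd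 (nat_lit 78) (nat_lit 76) (nat_lit 0) (XT.lf (nat_lit 0) (nat_lit 358197157702) (nat_lit 152) (nat_lit 77498468562) (nat_lit 76) (nat_lit 640411376995) (nat_lit 12) (nat_lit 5) (nat_lit 14) (nat_lit 5) (nat_lit 13) (nat_lit 4) (nat_lit 267) (nat_lit 247) (nat_lit 146)) (XT.lf (nat_lit 0) (nat_lit 716798156935) (nat_lit 76) (nat_lit 23272416605) (nat_lit 152) (nat_lit 461658804351) (nat_lit 11) (nat_lit 5) (nat_lit 12) (nat_lit 5) (nat_lit 13) (nat_lit 4) (nat_lit 268) (nat_lit 247) (nat_lit 145)))) (XT.nd (nat_lit 78) (nat_lit 152) (nat_lit 0) (XT.lf (nat_lit 0) (nat_lit 292651705971) (nat_lit 76) (nat_lit 906773287445) (nat_lit 76) (nat_lit 145154116042) (nat_lit 10) (nat_lit 4) (nat_lit 11) (nat_lit 5) (nat_lit 11) (nat_lit 4) (nat_lit 269) (nat_lit 247) (nat_lit 144)) (XT.nd (nat_lit 78) (nat_lit 76) (nat_lit 0) (XT.lf (nat_lit 0) (nat_lit 223008238055) (nat_lit 152) (nat_lit 297762091869)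 (nat_lit 76) (nat_lit 986454665591) (nat_lit 9) (nat_lit 5) (nat_lit 11) (nat_lit 5) (nat_lit 10) (nat_lit 4) (nat_lit 270) (nat_lit 247) (nat_lit 143)) (XT.lf (nat_lit 0) (nat_lit 595292216538) (nat_lit 76) (nat_lit 57069077659) (nat_lit 152) (nat_lit 1040439964000) (nat_lit 8) (nat_lit 5) (nat_lit 9) (nat_lit 5) (nat_lit 10) (nat_lit 4) (nat_lit 271) (nat_lit 247) (nat_lit 142))))) (XT.nd (nat_lit 234) (nat_lit 152) (nat_lit 0) (XT.nd (nat_lit 78) (nat_lit 152) (nat_lit 0) (XT.lf (nat_lit 0) (nat_lit 1166463756467) (nat_lit 152) (nat_lit 276861803289) (nat_lit 0) (nat_lit 461260684752) (nat_lit 8) (nat_lit 5) (nat_lit 10) (nat_lit 4) (nat_lit 8) (nat_lit 4) (nat_lit 272) (nat_lit 247) (nat_lit 141)) (XT.nd (nat_lit 78) (nat_lit 76) (nat_lit 0) (XT.lf (nat_lit 0) (nat_lit 700337760865) (nat_lit 76) (nat_lit 1075765302739) (nat_lit 76) (nat_lit 370562197160) (nat_lit 7) (nat_lit 4) (nat_lit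 8) (nat_lit 5) (nat_lit 8) (nat_lit 4) (nat_lit 273) (nat_lit 247) (nat_lit 140)) (XT.lf (nat_lit 0) (nat_lit 57794124173) (nat_lit 152) (nat_lit 584991356745) (nat_lit 76) (nat_lit 1781508758440) (nat_lit 6) (nat_lit 5) (nat_lit 8) (nat_lit 5) (nat_lit 7) (nat_lit 4) (nat_lit 274) (nat_lit 247) (nat_lit 139)))) (XT.nd (nat_lit 156) (nat_lit 76) (nat_lit 0) (XT.nd (nat_lit 78) (nat_lit 0) (nat_lit 0) (XT.lf (nat_lit 0) (nat_lit 416111892617) (nat_lit 76) (nat_lit 122981882982) (nat_lit 152) (nat_lit 2202853285866) (nat_lit 5) (nat_lit 5) (nat_lit 6) (nat_lit 5) (nat_lit 7) (nat_lit 4) (nat_lit 275) (nat_lit 247) (nat_lit 138)) (XT.lf (nat_lit 0) (nat_lit 1121480866758) (nat_lit 152) (nat_lit 1514940584126) (nat_lit 0) (nat_lit 468514956668) (nat_lit 5) (nat_lit 5) (nat_lit 7) (nat_lit 4) (nat_lit 5) (nat_lit 4) (nat_lit 276) (nat_lit 247) (nat_lit 137))) (XT.nd (nat_lit 78) (nat_lit 76)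 (nat_lit 0) (XT.lf (nat_lit 0) (nat_lit 1794627360833) (nat_lit 152) (nat_lit 585813254784) (nat_lit 0) (nat_lit 1141661432815) (nat_lit 5) (nat_lit 5) (nat_lit 7) (nat_lit 4) (nat_lit 5) (nat_lit 4) (nat_lit 277) (nat_lit 247) (nat_lit 136)) (XT.lf (nat_lit 0) (nat_lit 508100352029) (nat_lit 76) (nat_lit 2072865271731) (nat_lit 76) (nat_lit 1419899328124) (nat_lit 4) (nat_lit 4) (nat_lit 5) (nat_lit 5) (nat_lit 5) (nat_lit 4) (nat_lit 278) (nat_lit 247) (nat_lit 135))))))))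
noncomputable def xc53 : XT := (XT.nd (nat_lit 33462) (nat_lit 0) (nat_lit 0) (XT.nd (nat_lit 32448) (nat_lit 0) (nat_lit 912) (XT.nd (nat_lit 31980) (nat_lit 0) (nat_lit 2736) (XT.nd (nat_lit 234) (nat_lit 152) (nat_lit 0) (XT.nd (nat_lit 78) (nat_lit 0) (nat_lit 0) (XT.lf (nat_lit 0) (nat_lit 1801576016556) (nat_lit 76) (nat_lit 1700733903961) (nat_lit 76) (nat_lit 1047767946798) (nat_lit 4) (nat_lit 4) (nat_lit 5) (nat_lit 5) (nat_lit 5) (nat_lit 4) (nat_lit 279) (nat_lit 247) (nat_lit 134)) (XT.nd (nat_lit 78) (nat_lit 0) (nat_lit 0) (XT.lf (nat_lit 0) (nat_lit 3289072983518) (nat_lit 76) (nat_lit 1272782853736) (nat_lit 76) (nat_lit 619816884785) (nat_lit 4) (nat_lit 4) (nat_lit 5) (nat_lit 5) (nat_lit 5) (nat_lit 4) (nat_lit 280) (nat_lit 247) (nat_lit 133)) (XT.lf (nat_lit 0) (nat_lit 4999694454441) (nat_lit 76) (nat_lit 780639165724) (nat_lit 76) (nat_lit 127673186524) (nat_lit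 4) (nat_lit 4) (nat_lit 5) (nat_lit 5) (nat_lit 5) (nat_lit 4) (nat_lit 281) (nat_lit 247) (nat_lit 132)))) (XT.nd (nat_lit 78) (nat_lit 0) (nat_lit 0) (XT.lf (nat_lit 0) (nat_lit 224297436680) (nat_lit 76) (nat_lit 197463825239) (nat_lit 152) (nat_lit 6320254920171) (nat_lit 2) (nat_lit 5) (nat_lit 3) (nat_lit 5) (nat_lit 4) (nat_lit 4) (nat_lit 282) (nat_lit 247) (nat_lit 131)) (XT.nd (nat_lit 78) (nat_lit 0) (nat_lit 0) (XT.lf (nat_lit 0) (nat_lit 1084777706809) (nat_lit 152) (nat_lit 6132806279055) (nat_lit 0) (nat_lit 480179562490) (nat_lit 2) (nat_lit 5) (nat_lit 4) (nat_lit 4) (nat_lit 2) (nat_lit 4) (nat_lit 283) (nat_lit 247) (nat_lit 130)) (XT.lf (nat_lit 0) (nat_lit 1852707964196) (nat_lit 152) (nat_lit 5695618334069) (nat_lit 0) (nat_lit 1248109813637) (nat_lit 2) (nat_lit 5) (nat_lit 4) (nat_lit 4) (nat_lit 2) (nat_lit 4) (nat_lit 284) (nat_lit 247) (nat_lit 129))))) (XT.nd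 (nat_lit 234) (nat_lit 532) (nat_lit 0) (XT.nd (nat_lit 78) (nat_lit 0) (nat_lit 76) (XT.lf (nat_lit 0) (nat_lit 65845178753) (nat_lit 532) (nat_lit 18189150954) (nat_lit 532) (nat_lit 18189150954) (nat_lit 45) (nat_lit 3) (nat_lit 52) (nat_lit 3) (nat_lit 52) (nat_lit 5) (nat_lit 248) (nat_lit 248) (nat_lit 164)) (XT.nd (nat_lit 78) (nat_lit 0) (nat_lit 0) (XT.lf (nat_lit 0) (nat_lit 145145614484) (nat_lit 456) (nat_lit 72646528416) (nat_lit 532) (nat_lit 1702054683) (nat_lit 46) (nat_lit 5) (nat_lit 52) (nat_lit 5) (nat_lit 53) (nat_lit 5) (nat_lit 249) (nat_lit 248) (nat_lit 163)) (XT.lf (nat_lit 76) (nat_lit 124603708952) (nat_lit 0) (nat_lit 44746700503) (nat_lit 532) (nat_lit 66749611192) (nat_lit 47) (nat_lit 5) (nat_lit 46) (nat_lit 5) (nat_lit 53) (nat_lit 5) (nat_lit 250) (nat_lit 248) (nat_lit 162)))) (XT.nd (nat_lit 78) (nat_lit 684) (nat_lit 0) (XT.lf (nat_lit 76) (nat_lit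 102158499748) (nat_lit 0) (nat_lit 103363744955) (nat_lit 532) (nat_lit 49007567936) (nat_lit 48) (nat_lit 5) (nat_lit 47) (nat_lit 5) (nat_lit 54) (nat_lit 5) (nat_lit 251) (nat_lit 248) (nat_lit 161)) (XT.nd (nat_lit 78) (nat_lit 304) (nat_lit 0) (XT.lf (nat_lit 0) (nat_lit 79471106421) (nat_lit 456) (nat_lit 176458833187) (nat_lit 532) (nat_lit 19089328073) (nat_lit 42) (nat_lit 5) (nat_lit 48) (nat_lit 5) (nat_lit 49) (nat_lit 5) (nat_lit 252) (nat_lit 248) (nat_lit 160)) (XT.lf (nat_lit 0) (nat_lit 24120759594) (nat_lit 304) (nat_lit 242073528460) (nat_lit 76) (nat_lit 31592759463) (nat_lit 38) (nat_lit 5) (nat_lit 42) (nat_lit 5) (nat_lit 39) (nat_lit 5) (nat_lit 253) (nat_lit 248) (nat_lit 159)))))) (XT.nd (nat_lit 468) (nat_lit 836) (nat_lit 0) (XT.nd (nat_lit 234) (nat_lit 532) (nat_lit 0) (XT.nd (nat_lit 78) (nat_lit 228) (nat_lit 0) (XT.lf (nat_lit 0) (nat_lit 28879837187)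 (nat_lit 228) (nat_lit 55250092985) (nat_lit 304) (nat_lit 238884569041) (nat_lit 35) (nat_lit 5) (nat_lit 38) (nat_lit 5) (nat_lit 39) (nat_lit 5) (nat_lit 254) (nat_lit 248) (nat_lit 158)) (XT.nd (nat_lit 78) (nat_lit 228) (nat_lit 0) (XT.lf (nat_lit 0) (nat_lit 164876412727) (nat_lit 304) (nat_lit 1015597060) (nat_lit 76) (nat_lit 185195184571) (nat_lit 35) (nat_lit 5) (nat_lit 39) (nat_lit 5) (nat_lit 36) (nat_lit 5) (nat_lit 255) (nat_lit 248) (nat_lit 157)) (XT.lf (nat_lit 0) (nat_lit 269762642561) (nat_lit 304) (nat_lit 32442065300) (nat_lit 76) (nat_lit 80203864455) (nat_lit 32) (nat_lit 5) (nat_lit 36) (nat_lit 5) (nat_lit 33) (nat_lit 5) (nat_lit 256) (nat_lit 248) (nat_lit 156)))) (XT.nd (nat_lit 78) (nat_lit 380) (nat_lit 0) (XT.lf (nat_lit 0) (nat_lit 348053493384) (nat_lit 152) (nat_lit 55317303727) (nat_lit 228) (nat_lit 14018241097) (nat_lit 30) (nat_lit 5) (nat_lit 32)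 (nat_lit 5) (nat_lit 33) (nat_lit 5) (nat_lit 257) (nat_lit 248) (nat_lit 155)) (XT.nd (nat_lit 78) (nat_lit 152) (nat_lit 0) (XT.lf (nat_lit 0) (nat_lit 109494977367) (nat_lit 228) (nat_lit 117600848811) (nat_lit 76) (nat_lit 229124379679) (nat_lit 27) (nat_lit 5) (nat_lit 30) (nat_lit 5) (nat_lit 28) (nat_lit 5) (nat_lit 258) (nat_lit 248) (nat_lit 154)) (XT.lf (nat_lit 0) (nat_lit 263684447739) (nat_lit 228) (nat_lit 175887964182) (nat_lit 76) (nat_lit 60236163808) (nat_lit 25) (nat_lit 5) (nat_lit 28) (nat_lit 5) (nat_lit 26) (nat_lit 5) (nat_lit 259) (nat_lit 248) (nat_lit 153))))) (XT.nd (nat_lit 234) (nat_lit 380) (nat_lit 0) (XT.nd (nat_lit 78) (nat_lit 304) (nat_lit 0) (XT.lf (nat_lit 0) (nat_lit 297650143225) (nat_lit 152) (nat_lit 160304195599) (nat_lit 228) (nat_lit 90624702523) (nat_lit 23) (nat_lit 5) (nat_lit 25) (nat_lit 5) (nat_lit 26) (nat_lit 5) (nat_lit 260) (nat_lit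 248) (nat_lit 152)) (XT.nd (nat_lit 78) (nat_lit 152) (nat_lit 0) (XT.lf (nat_lit 0) (nat_lit 88575539107) (nat_lit 152) (nat_lit 348188394025) (nat_lit 76) (nat_lit 166496555350) (nat_lit 21) (nat_lit 5) (nat_lit 23) (nat_lit 5) (nat_lit 22) (nat_lit 5) (nat_lit 261) (nat_lit 248) (nat_lit 151)) (XT.lf (nat_lit 0) (nat_lit 188930027699) (nat_lit 152) (nat_lit 116984899518) (nat_lit 228) (nat_lit 358710906282) (nat_lit 19) (nat_lit 5) (nat_lit 21) (nat_lit 5) (nat_lit 22) (nat_lit 5) (nat_lit 262) (nat_lit 248) (nat_lit 150)))) (XT.nd (nat_lit 156) (nat_lit 228) (nat_lit 0) (XT.nd (nat_lit 78) (nat_lit 76) (nat_lit 0) (XT.lf (nat_lit 0) (nat_lit 91604557275) (nat_lit 76) (nat_lit 482884878133) (nat_lit 152) (nat_lit 159215808082) (nat_lit 18) (nat_lit 5) (nat_lit 19) (nat_lit 5) (nat_lit 20) (nat_lit 4) (nat_lit 263) (nat_lit 248) (nat_lit 149)) (XT.lf (nat_lit 0) (nat_lit 84136185353)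 (nat_lit 152) (nat_lit 44515769058) (nat_lit 76) (nat_lit 682963979200) (nat_lit 17) (nat_lit 5) (nat_lit 19) (nat_lit 5) (nat_lit 18) (nat_lit 5) (nat_lit 264) (nat_lit 248) (nat_lit 148))) (XT.nd (nat_lit 78) (nat_lit 76) (nat_lit 0) (XT.lf (nat_lit 0) (nat_lit 378228371805) (nat_lit 228) (nat_lit 234890293923) (nat_lit 76) (nat_lit 285870543874) (nat_lit 15) (nat_lit 5) (nat_lit 18) (nat_lit 5) (nat_lit 16) (nat_lit 4) (nat_lit 265) (nat_lit 248) (nat_lit 147)) (XT.lf (nat_lit 0) (nat_lit 503954584710) (nat_lit 76) (nat_lit 229487718491) (nat_lit 152) (nat_lit 264665540534) (nat_lit 14) (nat_lit 5) (nat_lit 15) (nat_lit 5) (nat_lit 16) (nat_lit 4) (nat_lit 266) (nat_lit 248) (nat_lit 146))))))) (XT.nd (nat_lit 936) (nat_lit 228) (nat_lit 0) (XT.nd (nat_lit 468) (nat_lit 228) (nat_lit 0) (XT.nd (nat_lit 234) (nat_lit 228) (nat_lit 0) (XT.nd (nat_lit 78) (nat_lit 76) (nat_lit 0) (XT.lf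 (nat_lit 0) (nat_lit 47293196774) (nat_lit 152) (nat_lit 847561161589) (nat_lit 76) (nat_lit 215667129436) (nat_lit 12) (nat_lit 5) (nat_lit 14) (nat_lit 5) (nat_lit 13) (nat_lit 4) (nat_lit 267) (nat_lit 248) (nat_lit 145)) (XT.nd (nat_lit 78) (nat_lit 76) (nat_lit 0) (XT.lf (nat_lit 0) (nat_lit 411927563744) (nat_lit 152) (nat_lit 89121747377) (nat_lit 76) (nat_lit 736473675254) (nat_lit 12) (nat_lit 5) (nat_lit 14) (nat_lit 5) (nat_lit 13) (nat_lit 4) (nat_lit 268) (nat_lit 248) (nat_lit 144)) (XT.lf (nat_lit 0) (nat_lit 824319245699) (nat_lit 76) (nat_lit 26762670520) (nat_lit 152) (nat_lit 530906807144) (nat_lit 11) (nat_lit 5) (nat_lit 12) (nat_lit 5) (nat_lit 13) (nat_lit 4) (nat_lit 269) (nat_lit 248) (nat_lit 143)))) (XT.nd (nat_lit 78) (nat_lit 152) (nat_lit 0) (XT.lf (nat_lit 0) (nat_lit 336550754165) (nat_lit 76) (nat_lit 1042788690024) (nat_lit 76) (nat_lit 166926474955)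 (nat_lit 10) (nat_lit 4) (nat_lit 11) (nat_lit 5) (nat_lit 11) (nat_lit 4) (nat_lit 270) (nat_lit 248) (nat_lit 142)) (XT.nd (nat_lit 78) (nat_lit 76) (nat_lit 0) (XT.lf (nat_lit 0) (nat_lit 256460100330) (nat_lit 152) (nat_lit 342425248441) (nat_lit 76) (nat_lit 1134423345470) (nat_lit 9) (nat_lit 5) (nat_lit 11) (nat_lit 5) (nat_lit 10) (nat_lit 4) (nat_lit 271) (nat_lit 248) (nat_lit 141)) (XT.lf (nat_lit 0) (nat_lit 684587108276) (nat_lit 76) (nat_lit 65628950367) (nat_lit 152) (nat_lit 1196505342245) (nat_lit 8) (nat_lit 5) (nat_lit 9) (nat_lit 5) (nat_lit 10) (nat_lit 4) (nat_lit 272) (nat_lit 248) (nat_lit 140))))) (XT.nd (nat_lit 234) (nat_lit 76) (nat_lit 0) (XT.nd (nat_lit 78) (nat_lit 152) (nat_lit 0) (XT.lf (nat_lit 0) (nat_lit 1341433826089) (nat_lit 152) (nat_lit 318390122881) (nat_lit 0) (nat_lit 530450191363) (nat_lit 8) (nat_lit 5) (nat_lit 10) (nat_lit 4) (nat_lit 8)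 (nat_lit 4) (nat_lit 273) (nat_lit 248) (nat_lit 139)) (XT.nd (nat_lit 78) (nat_lit 76) (nat_lit 0) (XT.lf (nat_lit 0) (nat_lit 805389295408) (nat_lit 76) (nat_lit 1237129688802) (nat_lit 76) (nat_lit 426146028470) (nat_lit 7) (nat_lit 4) (nat_lit 8) (nat_lit 5) (nat_lit 8) (nat_lit 4) (nat_lit 274) (nat_lit 248) (nat_lit 138)) (XT.lf (nat_lit 0) (nat_lit 66463654398) (nat_lit 152) (nat_lit 672739281450) (nat_lit 76) (nat_lit 2048735406234) (nat_lit 6) (nat_lit 5) (nat_lit 8) (nat_lit 5) (nat_lit 7) (nat_lit 4) (nat_lit 275) (nat_lit 248) (nat_lit 137)))) (XT.nd (nat_lit 78) (nat_lit 0) (nat_lit 0) (XT.lf (nat_lit 0) (nat_lit 478529389395) (nat_lit 76) (nat_lit 141428827602) (nat_lit 152) (nat_lit 2533280873465) (nat_lit 5) (nat_lit 5) (nat_lit 6) (nat_lit 5) (nat_lit 7) (nat_lit 4) (nat_lit 276) (nat_lit 248) (nat_lit 136)) (XT.nd (nat_lit 78) (nat_lit 0) (nat_lit 0) (XT.lf (nat_lit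 0) (nat_lit 1289703329974) (nat_lit 152) (nat_lit 1742181032628) (nat_lit 0) (nat_lit 538792479236) (nat_lit 5) (nat_lit 5) (nat_lit 7) (nat_lit 4) (nat_lit 5) (nat_lit 4) (nat_lit 277) (nat_lit 248) (nat_lit 135)) (XT.lf (nat_lit 0) (nat_lit 2063821754699) (nat_lit 152) (nat_lit 673684687248) (nat_lit 0) (nat_lit 1312910890405) (nat_lit 5) (nat_lit 5) (nat_lit 7) (nat_lit 4) (nat_lit 5) (nat_lit 4) (nat_lit 278) (nat_lit 248) (nat_lit 134)))))) (XT.nd (nat_lit 32058) (nat_lit 0) (nat_lit 2508) (XT.nd (nat_lit 234) (nat_lit 152) (nat_lit 0) (XT.nd (nat_lit 78) (nat_lit 0) (nat_lit 0) (XT.lf (nat_lit 0) (nat_lit 584315913545) (nat_lit 76) (nat_lit 2383794817961) (nat_lit 76) (nat_lit 1632883941881) (nat_lit 4) (nat_lit 4) (nat_lit 5) (nat_lit 5) (nat_lit 5) (nat_lit 4) (nat_lit 279) (nat_lit 248) (nat_lit 133)) (XT.nd (nat_lit 78) (nat_lit 0) (nat_lit 0) (XT.lf (nat_lit 0) (nat_lit 2071812861398)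 (nat_lit 76) (nat_lit 1955843776921) (nat_lit 76) (nat_lit 1204932890590) (nat_lit 4) (nat_lit 4) (nat_lit 5) (nat_lit 5) (nat_lit 5) (nat_lit 4) (nat_lit 280) (nat_lit 248) (nat_lit 132)) (XT.lf (nat_lit 0) (nat_lit 3782434315705) (nat_lit 76) (nat_lit 1463700096897) (nat_lit 76) (nat_lit 712789201653) (nat_lit 4) (nat_lit 4) (nat_lit 5) (nat_lit 5) (nat_lit 5) (nat_lit 4) (nat_lit 281) (nat_lit 248) (nat_lit 131)))) (XT.nd (nat_lit 78) (nat_lit 152) (nat_lit 0) (XT.lf (nat_lit 0) (nat_lit 5749648957093) (nat_lit 76) (nat_lit 897734879801) (nat_lit 76) (nat_lit 146823976807) (nat_lit 4) (nat_lit 4) (nat_lit 5) (nat_lit 5) (nat_lit 5) (nat_lit 4) (nat_lit 282) (nat_lit 248) (nat_lit 130)) (XT.nd (nat_lit 78) (nat_lit 0) (nat_lit 0) (XT.lf (nat_lit 0) (nat_lit 257942367031) (nat_lit 76) (nat_lit 227083246798) (nat_lit 152) (nat_lit 7268292982490) (nat_lit 2) (nat_lit 5) (nat_lit 3) (nat_lit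 5) (nat_lit 4) (nat_lit 4) (nat_lit 283) (nat_lit 248) (nat_lit 129)) (XT.lf (nat_lit 0) (nat_lit 1247494507424) (nat_lit 152) (nat_lit 7052726938936) (nat_lit 0) (nat_lit 552206622614) (nat_lit 2) (nat_lit 5) (nat_lit 4) (nat_lit 4) (nat_lit 2) (nat_lit 4) (nat_lit 284) (nat_lit 248) (nat_lit 128))))) (XT.nd (nat_lit 234) (nat_lit 760) (nat_lit 0) (XT.nd (nat_lit 78) (nat_lit 0) (nat_lit 76) (XT.lf (nat_lit 0) (nat_lit 75724429670) (nat_lit 532) (nat_lit 20916184021) (nat_lit 532) (nat_lit 20916184021) (nat_lit 45) (nat_lit 3) (nat_lit 52) (nat_lit 3) (nat_lit 52) (nat_lit 5) (nat_lit 249) (nat_lit 249) (nat_lit 162)) (XT.nd (nat_lit 78) (nat_lit 0) (nat_lit 0) (XT.lf (nat_lit 0) (nat_lit 166921772504) (nat_lit 456) (nat_lit 83540648060) (nat_lit 532) (nat_lit 1955549007) (nat_lit 46) (nat_lit 5) (nat_lit 52) (nat_lit 5) (nat_lit 53) (nat_lit 5) (nat_lit 250) (nat_lit 249) (nat_lit 161))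 (XT.lf (nat_lit 76) (nat_lit 143296882860) (nat_lit 0) (nat_lit 51459903876) (nat_lit 532) (nat_lit 76757920972) (nat_lit 47) (nat_lit 5) (nat_lit 46) (nat_lit 5) (nat_lit 53) (nat_lit 5) (nat_lit 251) (nat_lit 249) (nat_lit 160)))) (XT.nd (nat_lit 156) (nat_lit 532) (nat_lit 0) (XT.nd (nat_lit 78) (nat_lit 380) (nat_lit 0) (XT.lf (nat_lit 76) (nat_lit 117484986376) (nat_lit 0) (nat_lit 118868953330) (nat_lit 532) (nat_lit 56355066803) (nat_lit 48) (nat_lit 5) (nat_lit 47) (nat_lit 5) (nat_lit 54) (nat_lit 5) (nat_lit 252) (nat_lit 249) (nat_lit 159)) (XT.lf (nat_lit 0) (nat_lit 91394523248) (nat_lit 456) (nat_lit 202927880194) (nat_lit 532) (nat_lit 21949508417) (nat_lit 42) (nat_lit 5) (nat_lit 48) (nat_lit 5) (nat_lit 49) (nat_lit 5) (nat_lit 253) (nat_lit 249) (nat_lit 158))) (XT.nd (nat_lit 78) (nat_lit 228) (nat_lit 0) (XT.lf (nat_lit 0) (nat_lit 27741595573) (nat_lit 304) (nat_lit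 278381659779) (nat_lit 76) (nat_lit 36331624974) (nat_lit 38) (nat_lit 5) (nat_lit 42) (nat_lit 5) (nat_lit 39) (nat_lit 5) (nat_lit 254) (nat_lit 249) (nat_lit 157)) (XT.lf (nat_lit 0) (nat_lit 33214465417) (nat_lit 228) (nat_lit 63537385067) (nat_lit 304) (nat_lit 274714623447) (nat_lit 35) (nat_lit 5) (nat_lit 38) (nat_lit 5) (nat_lit 39) (nat_lit 5) (nat_lit 255) (nat_lit 249) (nat_lit 156))))))))
noncomputable def xc54 : XT := (XT.nd (nat_lit 1950) (nat_lit 0) (nat_lit 0) (XT.nd (nat_lit 936) (nat_lit 760) (nat_lit 0) (XT.nd (nat_lit 468) (nat_lit 684) (nat_lit 0) (XT.nd (nat_lit 234) (nat_lit 532) (nat_lit 0) (XT.nd (nat_lit 78) (nat_lit 380) (nat_lit 0) (XT.lf (nat_lit 0) (nat_lit 189609993005) (nat_lit 304) (nat_lit 1165460550) (nat_lit 76) (nat_lit 212974645532) (nat_lit 35) (nat_lit 5) (nat_lit 39) (nat_lit 5) (nat_lit 36) (nat_lit 5) (nat_lit 256) (nat_lit 249) (nat_lit 155))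 (XT.nd (nat_lit 78) (nat_lit 152) (nat_lit 0) (XT.lf (nat_lit 0) (nat_lit 310228944410) (nat_lit 304) (nat_lit 37305961474) (nat_lit 76) (nat_lit 92234795533) (nat_lit 32) (nat_lit 5) (nat_lit 36) (nat_lit 5) (nat_lit 33) (nat_lit 5) (nat_lit 257) (nat_lit 249) (nat_lit 154)) (XT.lf (nat_lit 0) (nat_lit 400263726711) (nat_lit 152) (nat_lit 63614400026) (nat_lit 228) (nat_lit 16119126649) (nat_lit 30) (nat_lit 5) (nat_lit 32) (nat_lit 5) (nat_lit 33) (nat_lit 5) (nat_lit 258) (nat_lit 249) (nat_lit 153)))) (XT.nd (nat_lit 78) (nat_lit 304) (nat_lit 0) (XT.lf (nat_lit 0) (nat_lit 125920816216) (nat_lit 228) (nat_lit 135238749295) (nat_lit 76) (nat_lit 263493540829) (nat_lit 27) (nat_lit 5) (nat_lit 30) (nat_lit 5) (nat_lit 28) (nat_lit 5) (nat_lit 259) (nat_lit 249) (nat_lit 152)) (XT.nd (nat_lit 78) (nat_lit 152) (nat_lit 0) (XT.lf (nat_lit 0) (nat_lit 303238563026) (nat_lit 228) (nat_lit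 202269017695) (nat_lit 76) (nat_lit 69272162892) (nat_lit 25) (nat_lit 5) (nat_lit 28) (nat_lit 5) (nat_lit 26) (nat_lit 5) (nat_lit 260) (nat_lit 249) (nat_lit 151)) (XT.lf (nat_lit 0) (nat_lit 342299624588) (nat_lit 152) (nat_lit 184349171436) (nat_lit 228) (nat_lit 104216994735) (nat_lit 23) (nat_lit 5) (nat_lit 25) (nat_lit 5) (nat_lit 26) (nat_lit 5) (nat_lit 261) (nat_lit 249) (nat_lit 150))))) (XT.nd (nat_lit 234) (nat_lit 304) (nat_lit 0) (XT.nd (nat_lit 78) (nat_lit 228) (nat_lit 0) (XT.lf (nat_lit 0) (nat_lit 101863097688) (nat_lit 152) (nat_lit 400414709292) (nat_lit 76) (nat_lit 191471654721) (nat_lit 21) (nat_lit 5) (nat_lit 23) (nat_lit 5) (nat_lit 22) (nat_lit 5) (nat_lit 262) (nat_lit 249) (nat_lit 149)) (XT.nd (nat_lit 78) (nat_lit 76) (nat_lit 0) (XT.lf (nat_lit 0) (nat_lit 217271311155) (nat_lit 152) (nat_lit 134531965515) (nat_lit 228) (nat_lit 412516341428) (nat_lit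 19) (nat_lit 5) (nat_lit 21) (nat_lit 5) (nat_lit 22) (nat_lit 5) (nat_lit 263) (nat_lit 249) (nat_lit 148)) (XT.lf (nat_lit 0) (nat_lit 105346937605) (nat_lit 76) (nat_lit 555316933450) (nat_lit 152) (nat_lit 183097075943) (nat_lit 18) (nat_lit 5) (nat_lit 19) (nat_lit 5) (nat_lit 20) (nat_lit 4) (nat_lit 264) (nat_lit 249) (nat_lit 147)))) (XT.nd (nat_lit 78) (nat_lit 228) (nat_lit 0) (XT.lf (nat_lit 0) (nat_lit 96757524597) (nat_lit 152) (nat_lit 51191609878) (nat_lit 76) (nat_lit 785409115144) (nat_lit 17) (nat_lit 5) (nat_lit 19) (nat_lit 5) (nat_lit 18) (nat_lit 5) (nat_lit 265) (nat_lit 249) (nat_lit 146)) (XT.nd (nat_lit 78) (nat_lit 76) (nat_lit 0) (XT.lf (nat_lit 0) (nat_lit 434963467388) (nat_lit 228) (nat_lit 270122389149) (nat_lit 76) (nat_lit 328751666347) (nat_lit 15) (nat_lit 5) (nat_lit 18) (nat_lit 5) (nat_lit 16) (nat_lit 4) (nat_lit 266) (nat_lit 249) (nat_lit 145))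 (XT.lf (nat_lit 0) (nat_lit 579549098640) (nat_lit 76) (nat_lit 263910312209) (nat_lit 152) (nat_lit 304364547628) (nat_lit 14) (nat_lit 5) (nat_lit 15) (nat_lit 5) (nat_lit 16) (nat_lit 4) (nat_lit 267) (nat_lit 249) (nat_lit 144)))))) (XT.nd (nat_lit 468) (nat_lit 304) (nat_lit 0) (XT.nd (nat_lit 234) (nat_lit 228) (nat_lit 0) (XT.nd (nat_lit 78) (nat_lit 76) (nat_lit 0) (XT.lf (nat_lit 0) (nat_lit 54387900104) (nat_lit 152) (nat_lit 974694038898) (nat_lit 76) (nat_lit 248017713382) (nat_lit 12) (nat_lit 5) (nat_lit 14) (nat_lit 5) (nat_lit 13) (nat_lit 4) (nat_lit 268) (nat_lit 249) (nat_lit 143)) (XT.nd (nat_lit 78) (nat_lit 76) (nat_lit 0) (XT.lf (nat_lit 0) (nat_lit 473717327709) (nat_lit 152) (nat_lit 102488881719) (nat_lit 76) (nat_lit 846945173960) (nat_lit 12) (nat_lit 5) (nat_lit 14) (nat_lit 5) (nat_lit 13) (nat_lit 4) (nat_lit 269) (nat_lit 249) (nat_lit 142)) (XT.lf (nat_lit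 0) (nat_lit 947968164860) (nat_lit 76) (nat_lit 30776610927) (nat_lit 152) (nat_lit 610542209795) (nat_lit 11) (nat_lit 5) (nat_lit 12) (nat_lit 5) (nat_lit 13) (nat_lit 4) (nat_lit 270) (nat_lit 249) (nat_lit 141)))) (XT.nd (nat_lit 78) (nat_lit 152) (nat_lit 0) (XT.lf (nat_lit 0) (nat_lit 387034344453) (nat_lit 76) (nat_lit 1199206546997) (nat_lit 76) (nat_lit 191964872667) (nat_lit 10) (nat_lit 4) (nat_lit 11) (nat_lit 5) (nat_lit 11) (nat_lit 4) (nat_lit 271) (nat_lit 249) (nat_lit 140)) (XT.nd (nat_lit 78) (nat_lit 76) (nat_lit 0) (XT.lf (nat_lit 0) (nat_lit 294929589154) (nat_lit 152) (nat_lit 393788160691) (nat_lit 76) (nat_lit 1304587210269) (nat_lit 9) (nat_lit 5) (nat_lit 11) (nat_lit 5) (nat_lit 10) (nat_lit 4) (nat_lit 272) (nat_lit 249) (nat_lit 139)) (XT.lf (nat_lit 0) (nat_lit 787275975467) (nat_lit 76) (nat_lit 75472923212) (nat_lit 152) (nat_lit 1375980677528) (nat_lit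 8) (nat_lit 5) (nat_lit 9) (nat_lit 5) (nat_lit 10) (nat_lit 4) (nat_lit 273) (nat_lit 249) (nat_lit 138))))) (XT.nd (nat_lit 234) (nat_lit 152) (nat_lit 0) (XT.nd (nat_lit 78) (nat_lit 152) (nat_lit 0) (XT.lf (nat_lit 0) (nat_lit 1542649282726) (nat_lit 152) (nat_lit 366147922294) (nat_lit 0) (nat_lit 610018025472) (nat_lit 8) (nat_lit 5) (nat_lit 10) (nat_lit 4) (nat_lit 8) (nat_lit 4) (nat_lit 274) (nat_lit 249) (nat_lit 137)) (XT.nd (nat_lit 78) (nat_lit 76) (nat_lit 0) (XT.lf (nat_lit 0) (nat_lit 926198347876) (nat_lit 76) (nat_lit 1422698832597) (nat_lit 76) (nat_lit 490067555981) (nat_lit 7) (nat_lit 4) (nat_lit 8) (nat_lit 5) (nat_lit 8) (nat_lit 4) (nat_lit 275) (nat_lit 249) (nat_lit 136)) (XT.lf (nat_lit 0) (nat_lit 76433513785) (nat_lit 152) (nat_lit 773649584777) (nat_lit 76) (nat_lit 2356045969743) (nat_lit 6) (nat_lit 5) (nat_lit 8) (nat_lit 5) (nat_lit 7) (nat_lit 4) (nat_lit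 276) (nat_lit 249) (nat_lit 135)))) (XT.nd (nat_lit 156) (nat_lit 76) (nat_lit 0) (XT.nd (nat_lit 78) (nat_lit 0) (nat_lit 0) (XT.lf (nat_lit 0) (nat_lit 550309336847) (nat_lit 76) (nat_lit 162642896296) (nat_lit 152) (nat_lit 2913272698035) (nat_lit 5) (nat_lit 5) (nat_lit 6) (nat_lit 5) (nat_lit 7) (nat_lit 4) (nat_lit 277) (nat_lit 249) (nat_lit 134)) (XT.lf (nat_lit 0) (nat_lit 1483159081418) (nat_lit 152) (nat_lit 2003507704259) (nat_lit 0) (nat_lit 619611562137) (nat_lit 5) (nat_lit 5) (nat_lit 7) (nat_lit 4) (nat_lit 5) (nat_lit 4) (nat_lit 278) (nat_lit 249) (nat_lit 133))) (XT.nd (nat_lit 78) (nat_lit 76) (nat_lit 0) (XT.lf (nat_lit 0) (nat_lit 2373395236989) (nat_lit 152) (nat_lit 774736970106) (nat_lit 0) (nat_lit 1509847707458) (nat_lit 5) (nat_lit 5) (nat_lit 7) (nat_lit 4) (nat_lit 5) (nat_lit 4) (nat_lit 279) (nat_lit 249) (nat_lit 132)) (XT.lf (nat_lit 0) (nat_lit 671963685236)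 (nat_lit 76) (nat_lit 2741363855756) (nat_lit 76) (nat_lit 1877816317313) (nat_lit 4) (nat_lit 4) (nat_lit 5) (nat_lit 5) (nat_lit 5) (nat_lit 4) (nat_lit 280) (nat_lit 249) (nat_lit 131))))))) (XT.nd (nat_lit 32682) (nat_lit 0) (nat_lit 532) (XT.nd (nat_lit 32214) (nat_lit 0) (nat_lit 2128) (XT.nd (nat_lit 31980) (nat_lit 0) (nat_lit 3116) (XT.nd (nat_lit 78) (nat_lit 0) (nat_lit 0) (XT.lf (nat_lit 0) (nat_lit 2382585125094) (nat_lit 76) (nat_lit 2249220182677) (nat_lit 76) (nat_lit 1385672636483) (nat_lit 4) (nat_lit 4) (nat_lit 5) (nat_lit 5) (nat_lit 5) (nat_lit 4) (nat_lit 281) (nat_lit 249) (nat_lit 130)) (XT.nd (nat_lit 78) (nat_lit 0) (nat_lit 0) (XT.lf (nat_lit 0) (nat_lit 4349799753919) (nat_lit 76) (nat_lit 1683254971621) (nat_lit 76) (nat_lit 819707418687) (nat_lit 4) (nat_lit 4) (nat_lit 5) (nat_lit 5) (nat_lit 5) (nat_lit 4) (nat_lit 282) (nat_lit 249) (nat_lit 129)) (XT.lf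 (nat_lit 0) (nat_lit 6612096553577) (nat_lit 76) (nat_lit 1032394990197) (nat_lit 76) (nat_lit 168847431403) (nat_lit 4) (nat_lit 4) (nat_lit 5) (nat_lit 5) (nat_lit 5) (nat_lit 4) (nat_lit 283) (nat_lit 249) (nat_lit 128)))) (XT.nd (nat_lit 78) (nat_lit 0) (nat_lit 76) (XT.lf (nat_lit 0) (nat_lit 87084964898) (nat_lit 532) (nat_lit 24052598713) (nat_lit 532) (nat_lit 24052598713) (nat_lit 45) (nat_lit 3) (nat_lit 52) (nat_lit 3) (nat_lit 52) (nat_lit 5) (nat_lit 250) (nat_lit 250) (nat_lit 160)) (XT.nd (nat_lit 78) (nat_lit 0) (nat_lit 0) (XT.lf (nat_lit 0) (nat_lit 191963301780) (nat_lit 456) (nat_lit 96069582987) (nat_lit 532) (nat_lit 2247509805) (nat_lit 46) (nat_lit 5) (nat_lit 52) (nat_lit 5) (nat_lit 53) (nat_lit 5) (nat_lit 251) (nat_lit 250) (nat_lit 159)) (XT.lf (nat_lit 76) (nat_lit 164793394545) (nat_lit 0) (nat_lit 59179795543) (nat_lit 532) (nat_lit 88268484809) (nat_lit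 47) (nat_lit 5) (nat_lit 46) (nat_lit 5) (nat_lit 53) (nat_lit 5) (nat_lit 252) (nat_lit 250) (nat_lit 158))))) (XT.nd (nat_lit 234) (nat_lit 456) (nat_lit 0) (XT.nd (nat_lit 78) (nat_lit 684) (nat_lit 0) (XT.lf (nat_lit 76) (nat_lit 135109784741) (nat_lit 0) (nat_lit 136699785276) (nat_lit 532) (nat_lit 64805577241) (nat_lit 48) (nat_lit 5) (nat_lit 47) (nat_lit 5) (nat_lit 54) (nat_lit 5) (nat_lit 253) (nat_lit 250) (nat_lit 157)) (XT.nd (nat_lit 78) (nat_lit 304) (nat_lit 0) (XT.lf (nat_lit 0) (nat_lit 105105781784) (nat_lit 456) (nat_lit 233367230110) (nat_lit 532) (nat_lit 25239500754) (nat_lit 42) (nat_lit 5) (nat_lit 48) (nat_lit 5) (nat_lit 49) (nat_lit 5) (nat_lit 254) (nat_lit 250) (nat_lit 156)) (XT.lf (nat_lit 0) (nat_lit 31904893162) (nat_lit 304) (nat_lit 320136717480) (nat_lit 76) (nat_lit 41781332117) (nat_lit 38) (nat_lit 5) (nat_lit 42) (nat_lit 5) (nat_lit 39) (nat_lit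 5) (nat_lit 255) (nat_lit 250) (nat_lit 155)))) (XT.nd (nat_lit 78) (nat_lit 228) (nat_lit 0) (XT.lf (nat_lit 0) (nat_lit 38198641016) (nat_lit 228) (nat_lit 73067825066) (nat_lit 304) (nat_lit 315919827587) (nat_lit 35) (nat_lit 5) (nat_lit 38) (nat_lit 5) (nat_lit 39) (nat_lit 5) (nat_lit 256) (nat_lit 250) (nat_lit 154)) (XT.nd (nat_lit 78) (nat_lit 228) (nat_lit 0) (XT.lf (nat_lit 0) (nat_lit 218053093746) (nat_lit 304) (nat_lit 1338407369) (nat_lit 76) (nat_lit 244920980945) (nat_lit 35) (nat_lit 5) (nat_lit 39) (nat_lit 5) (nat_lit 36) (nat_lit 5) (nat_lit 257) (nat_lit 250) (nat_lit 153)) (XT.lf (nat_lit 0) (nat_lit 356764726876) (nat_lit 304) (nat_lit 42900030651) (nat_lit 76) (nat_lit 106070280579) (nat_lit 32) (nat_lit 5) (nat_lit 36) (nat_lit 5) (nat_lit 33) (nat_lit 5) (nat_lit 258) (nat_lit 250) (nat_lit 152)))))) (XT.nd (nat_lit 468) (nat_lit 608) (nat_lit 0) (XT.nd (nat_lit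 234) (nat_lit 456) (nat_lit 0) (XT.nd (nat_lit 78) (nat_lit 380) (nat_lit 0) (XT.lf (nat_lit 0) (nat_lit 460304956282) (nat_lit 152) (nat_lit 73156182517) (nat_lit 228) (nat_lit 18535596318) (nat_lit 30) (nat_lit 5) (nat_lit 32) (nat_lit 5) (nat_lit 33) (nat_lit 5) (nat_lit 259) (nat_lit 250) (nat_lit 151)) (XT.nd (nat_lit 78) (nat_lit 152) (nat_lit 0) (XT.lf (nat_lit 0) (nat_lit 144810142613) (nat_lit 228) (nat_lit 155522877879) (nat_lit 76) (nat_lit 303017953199) (nat_lit 27) (nat_lit 5) (nat_lit 30) (nat_lit 5) (nat_lit 28) (nat_lit 5) (nat_lit 260) (nat_lit 250) (nat_lit 150)) (XT.lf (nat_lit 0) (nat_lit 348725442472) (nat_lit 228) (nat_lit 232607751360) (nat_lit 76) (nat_lit 79663421740) (nat_lit 25) (nat_lit 5) (nat_lit 28) (nat_lit 5) (nat_lit 26) (nat_lit 5) (nat_lit 261) (nat_lit 250) (nat_lit 149)))) (XT.nd (nat_lit 78) (nat_lit 304) (nat_lit 0) (XT.lf (nat_lit 0) (nat_lit 393646050226)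 (nat_lit 152) (nat_lit 212001053009) (nat_lit 228) (nat_lit 119848475387) (nat_lit 23) (nat_lit 5) (nat_lit 25) (nat_lit 5) (nat_lit 26) (nat_lit 5) (nat_lit 262) (nat_lit 250) (nat_lit 148)) (XT.nd (nat_lit 78) (nat_lit 152) (nat_lit 0) (XT.lf (nat_lit 0) (nat_lit 117143490669) (nat_lit 152) (nat_lit 460475445865) (nat_lit 76) (nat_lit 220192868766) (nat_lit 21) (nat_lit 5) (nat_lit 23) (nat_lit 5) (nat_lit 22) (nat_lit 5) (nat_lit 263) (nat_lit 250) (nat_lit 147)) (XT.lf (nat_lit 0) (nat_lit 249863353235) (nat_lit 152) (nat_lit 154711254534) (nat_lit 228) (nat_lit 474392884667) (nat_lit 19) (nat_lit 5) (nat_lit 21) (nat_lit 5) (nat_lit 22) (nat_lit 5) (nat_lit 264) (nat_lit 250) (nat_lit 146))))) (XT.nd (nat_lit 234) (nat_lit 304) (nat_lit 0) (XT.nd (nat_lit 78) (nat_lit 228) (nat_lit 0) (XT.lf (nat_lit 0) (nat_lit 121150261224) (nat_lit 76) (nat_lit 638613962009) (nat_lit 152) (nat_lit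 210560803043) (nat_lit 18) (nat_lit 5) (nat_lit 19) (nat_lit 5) (nat_lit 20) (nat_lit 4) (nat_lit 265) (nat_lit 250) (nat_lit 145)) (XT.nd (nat_lit 78) (nat_lit 152) (nat_lit 0) (XT.lf (nat_lit 0) (nat_lit 111271842467) (nat_lit 152) (nat_lit 58869198590) (nat_lit 76) (nat_lit 903220890025) (nat_lit 17) (nat_lit 5) (nat_lit 19) (nat_lit 5) (nat_lit 18) (nat_lit 5) (nat_lit 266) (nat_lit 250) (nat_lit 144)) (XT.lf (nat_lit 0) (nat_lit 500208622515) (nat_lit 228) (nat_lit 310639651973) (nat_lit 76) (nat_lit 378064825292) (nat_lit 15) (nat_lit 5) (nat_lit 18) (nat_lit 5) (nat_lit 16) (nat_lit 4) (nat_lit 267) (nat_lit 250) (nat_lit 143)))) (XT.nd (nat_lit 156) (nat_lit 76) (nat_lit 0) (XT.nd (nat_lit 78) (nat_lit 152) (nat_lit 0) (XT.lf (nat_lit 0) (nat_lit 666482466252) (nat_lit 76) (nat_lit 303496432533) (nat_lit 152) (nat_lit 350018606720) (nat_lit 14) (nat_lit 5) (nat_lit 15) (nat_lit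 5) (nat_lit 16) (nat_lit 4) (nat_lit 268) (nat_lit 250) (nat_lit 142)) (XT.lf (nat_lit 0) (nat_lit 62546632427) (nat_lit 152) (nat_lit 1120897164067) (nat_lit 76) (nat_lit 285220759448) (nat_lit 12) (nat_lit 5) (nat_lit 14) (nat_lit 5) (nat_lit 13) (nat_lit 4) (nat_lit 269) (nat_lit 250) (nat_lit 141))) (XT.nd (nat_lit 78) (nat_lit 76) (nat_lit 0) (XT.lf (nat_lit 0) (nat_lit 544775402784) (nat_lit 152) (nat_lit 117861361224) (nat_lit 76) (nat_lit 973987288366) (nat_lit 12) (nat_lit 5) (nat_lit 14) (nat_lit 5) (nat_lit 13) (nat_lit 4) (nat_lit 270) (nat_lit 250) (nat_lit 140)) (XT.lf (nat_lit 0) (nat_lit 1090164170160) (nat_lit 76) (nat_lit 35392754610) (nat_lit 152) (nat_lit 702123073651) (nat_lit 11) (nat_lit 5) (nat_lit 12) (nat_lit 5) (nat_lit 13) (nat_lit 4) (nat_lit 271) (nat_lit 250) (nat_lit 139))))))))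
noncomputable def xc55 : XT := (XT.nd (nat_lit 33774) (nat_lit 0) (nat_lit 0) (XT.nd (nat_lit 32760) (nat_lit 0) (nat_lit 1444) (XT.nd (nat_lit 468) (nat_lit 152) (nat_lit 0) (XT.nd (nat_lit 234) (nat_lit 152) (nat_lit 0) (XT.nd (nat_lit 78) (nat_lit 152) (nat_lit 0) (XT.lf (nat_lit 0) (nat_lit 445090234997) (nat_lit 76) (nat_lit 1379087191405) (nat_lit 76) (nat_lit 220759169896) (nat_lit 10) (nat_lit 4) (nat_lit 11) (nat_lit 5) (nat_lit 11) (nat_lit 4) (nat_lit 272) (nat_lit 250) (nat_lit 138)) (XT.nd (nat_lit 78) (nat_lit 76) (nat_lit 0) (XT.lf (nat_lit 0) (nat_lit 339169385768) (nat_lit 152) (nat_lit 452855723157) (nat_lit 76) (nat_lit 1500275566274) (nat_lit 9) (nat_lit 5) (nat_lit 11) (nat_lit 5) (nat_lit 10) (nat_lit 4) (nat_lit 273) (nat_lit 250) (nat_lit 137)) (XT.lf (nat_lit 0) (nat_lit 905367977421) (nat_lit 76) (nat_lit 86793582140) (nat_lit 152) (nat_lit 1582377426754) (nat_lit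 8) (nat_lit 5) (nat_lit 9) (nat_lit 5) (nat_lit 10) (nat_lit 4) (nat_lit 274) (nat_lit 250) (nat_lit 136)))) (XT.nd (nat_lit 78) (nat_lit 152) (nat_lit 0) (XT.lf (nat_lit 0) (nat_lit 1774046964529) (nat_lit 152) (nat_lit 421069566957) (nat_lit 0) (nat_lit 701520960223) (nat_lit 8) (nat_lit 5) (nat_lit 10) (nat_lit 4) (nat_lit 8) (nat_lit 4) (nat_lit 275) (nat_lit 250) (nat_lit 135)) (XT.nd (nat_lit 78) (nat_lit 76) (nat_lit 0) (XT.lf (nat_lit 0) (nat_lit 1065128597719) (nat_lit 76) (nat_lit 1636103423441) (nat_lit 76) (nat_lit 563577404495) (nat_lit 7) (nat_lit 4) (nat_lit 8) (nat_lit 5) (nat_lit 8) (nat_lit 4) (nat_lit 276) (nat_lit 250) (nat_lit 134)) (XT.lf (nat_lit 0) (nat_lit 87898776186) (nat_lit 152) (nat_lit 889696577208) (nat_lit 76) (nat_lit 2709453056186) (nat_lit 6) (nat_lit 5) (nat_lit 8) (nat_lit 5) (nat_lit 7) (nat_lit 4) (nat_lit 277) (nat_lit 250) (nat_lit 133))))) (XT.nd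 (nat_lit 234) (nat_lit 76) (nat_lit 0) (XT.nd (nat_lit 78) (nat_lit 0) (nat_lit 0) (XT.lf (nat_lit 0) (nat_lit 632856144969) (nat_lit 76) (nat_lit 187039137586) (nat_lit 152) (nat_lit 3350263371019) (nat_lit 5) (nat_lit 5) (nat_lit 6) (nat_lit 5) (nat_lit 7) (nat_lit 4) (nat_lit 278) (nat_lit 250) (nat_lit 132)) (XT.nd (nat_lit 78) (nat_lit 0) (nat_lit 0) (XT.lf (nat_lit 0) (nat_lit 1705633134140) (nat_lit 152) (nat_lit 2304033494480) (nat_lit 0) (nat_lit 712553456016) (nat_lit 5) (nat_lit 5) (nat_lit 7) (nat_lit 4) (nat_lit 5) (nat_lit 4) (nat_lit 279) (nat_lit 250) (nat_lit 131)) (XT.lf (nat_lit 0) (nat_lit 2729404688197) (nat_lit 152) (nat_lit 890947197868) (nat_lit 0) (nat_lit 1736325002323) (nat_lit 5) (nat_lit 5) (nat_lit 7) (nat_lit 4) (nat_lit 5) (nat_lit 4) (nat_lit 280) (nat_lit 250) (nat_lit 130)))) (XT.nd (nat_lit 78) (nat_lit 0) (nat_lit 0) (XT.lf (nat_lit 0) (nat_lit 772758528879)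 (nat_lit 76) (nat_lit 3152568294310) (nat_lit 76) (nat_lit 2159488601696) (nat_lit 4) (nat_lit 4) (nat_lit 5) (nat_lit 5) (nat_lit 5) (nat_lit 4) (nat_lit 281) (nat_lit 250) (nat_lit 129)) (XT.nd (nat_lit 78) (nat_lit 0) (nat_lit 0) (XT.lf (nat_lit 0) (nat_lit 2739973146778) (nat_lit 76) (nat_lit 2586603088505) (nat_lit 76) (nat_lit 1593523390031) (nat_lit 4) (nat_lit 4) (nat_lit 5) (nat_lit 5) (nat_lit 5) (nat_lit 4) (nat_lit 282) (nat_lit 250) (nat_lit 128)) (XT.lf (nat_lit 0) (nat_lit 5002269936937) (nat_lit 76) (nat_lit 1935743111648) (nat_lit 76) (nat_lit 942663408077) (nat_lit 4) (nat_lit 4) (nat_lit 5) (nat_lit 5) (nat_lit 5) (nat_lit 4) (nat_lit 283) (nat_lit 250) (nat_lit 127)))))) (XT.nd (nat_lit 468) (nat_lit 1140) (nat_lit 0) (XT.nd (nat_lit 234) (nat_lit 532) (nat_lit 0) (XT.nd (nat_lit 78) (nat_lit 0) (nat_lit 76) (XT.lf (nat_lit 0) (nat_lit 100149124209) (nat_lit 532) (nat_lit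 27659722614) (nat_lit 532) (nat_lit 27659722614) (nat_lit 45) (nat_lit 3) (nat_lit 52) (nat_lit 3) (nat_lit 52) (nat_lit 5) (nat_lit 251) (nat_lit 251) (nat_lit 158)) (XT.nd (nat_lit 78) (nat_lit 0) (nat_lit 0) (XT.lf (nat_lit 0) (nat_lit 220760264647) (nat_lit 456) (nat_lit 110478385440) (nat_lit 532) (nat_lit 2583599185) (nat_lit 46) (nat_lit 5) (nat_lit 52) (nat_lit 5) (nat_lit 53) (nat_lit 5) (nat_lit 252) (nat_lit 251) (nat_lit 157)) (XT.lf (nat_lit 76) (nat_lit 189513900328) (nat_lit 0) (nat_lit 68057450005) (nat_lit 532) (nat_lit 101506395104) (nat_lit 47) (nat_lit 5) (nat_lit 46) (nat_lit 5) (nat_lit 53) (nat_lit 5) (nat_lit 253) (nat_lit 251) (nat_lit 156)))) (XT.nd (nat_lit 78) (nat_lit 684) (nat_lit 0) (XT.lf (nat_lit 76) (nat_lit 155377802856) (nat_lit 0) (nat_lit 157205122782) (nat_lit 532) (nat_lit 74524334747) (nat_lit 48) (nat_lit 5) (nat_lit 47) (nat_lit 5) (nat_lit 54)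 (nat_lit 5) (nat_lit 254) (nat_lit 251) (nat_lit 155)) (XT.nd (nat_lit 78) (nat_lit 304) (nat_lit 0) (XT.lf (nat_lit 0) (nat_lit 120873221868) (nat_lit 456) (nat_lit 268372441573) (nat_lit 532) (nat_lit 29023585470) (nat_lit 42) (nat_lit 5) (nat_lit 48) (nat_lit 5) (nat_lit 49) (nat_lit 5) (nat_lit 255) (nat_lit 251) (nat_lit 154)) (XT.lf (nat_lit 0) (nat_lit 36692183472) (nat_lit 304) (nat_lit 368155568190) (nat_lit 76) (nat_lit 48048504257) (nat_lit 38) (nat_lit 5) (nat_lit 42) (nat_lit 5) (nat_lit 39) (nat_lit 5) (nat_lit 256) (nat_lit 251) (nat_lit 153))))) (XT.nd (nat_lit 234) (nat_lit 684) (nat_lit 0) (XT.nd (nat_lit 78) (nat_lit 228) (nat_lit 0) (XT.lf (nat_lit 0) (nat_lit 43929953832) (nat_lit 228) (nat_lit 84027871973) (nat_lit 304) (nat_lit 363306297471) (nat_lit 35) (nat_lit 5) (nat_lit 38) (nat_lit 5) (nat_lit 39) (nat_lit 5) (nat_lit 257) (nat_lit 251) (nat_lit 152)) (XT.nd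 (nat_lit 78) (nat_lit 228) (nat_lit 0) (XT.lf (nat_lit 0) (nat_lit 250762268992) (nat_lit 304) (nat_lit 1537752774) (nat_lit 76) (nat_lit 281659232875) (nat_lit 35) (nat_lit 5) (nat_lit 39) (nat_lit 5) (nat_lit 36) (nat_lit 5) (nat_lit 258) (nat_lit 251) (nat_lit 151)) (XT.lf (nat_lit 0) (nat_lit 410280525363) (nat_lit 304) (nat_lit 49333655253) (nat_lit 76) (nat_lit 121981023585) (nat_lit 32) (nat_lit 5) (nat_lit 36) (nat_lit 5) (nat_lit 33) (nat_lit 5) (nat_lit 259) (nat_lit 251) (nat_lit 150)))) (XT.nd (nat_lit 156) (nat_lit 304) (nat_lit 0) (XT.nd (nat_lit 78) (nat_lit 228) (nat_lit 0) (XT.lf (nat_lit 0) (nat_lit 529351962910) (nat_lit 152) (nat_lit 84129324442) (nat_lit 228) (nat_lit 21314877672) (nat_lit 30) (nat_lit 5) (nat_lit 32) (nat_lit 5) (nat_lit 33) (nat_lit 5) (nat_lit 260) (nat_lit 251) (nat_lit 149)) (XT.lf (nat_lit 0) (nat_lit 166532574375) (nat_lit 228) (nat_lit 178850036359)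 (nat_lit 76) (nat_lit 348470934456) (nat_lit 27) (nat_lit 5) (nat_lit 30) (nat_lit 5) (nat_lit 28) (nat_lit 5) (nat_lit 261) (nat_lit 251) (nat_lit 148))) (XT.nd (nat_lit 78) (nat_lit 152) (nat_lit 0) (XT.lf (nat_lit 0) (nat_lit 401035086814) (nat_lit 228) (nat_lit 267497689876) (nat_lit 76) (nat_lit 91613263481) (nat_lit 25) (nat_lit 5) (nat_lit 28) (nat_lit 5) (nat_lit 26) (nat_lit 5) (nat_lit 262) (nat_lit 251) (nat_lit 147)) (XT.lf (nat_lit 0) (nat_lit 452694078328) (nat_lit 152) (nat_lit 243800837318) (nat_lit 228) (nat_lit 137824938713) (nat_lit 23) (nat_lit 5) (nat_lit 25) (nat_lit 5) (nat_lit 26) (nat_lit 5) (nat_lit 263) (nat_lit 251) (nat_lit 146))))))) (XT.nd (nat_lit 1014) (nat_lit 304) (nat_lit 0) (XT.nd (nat_lit 468) (nat_lit 456) (nat_lit 0) (XT.nd (nat_lit 234) (nat_lit 304) (nat_lit 0) (XT.nd (nat_lit 78) (nat_lit 228) (nat_lit 0) (XT.lf (nat_lit 0) (nat_lit 134715716219)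 (nat_lit 152) (nat_lit 529545651350) (nat_lit 76) (nat_lit 253222151320) (nat_lit 21) (nat_lit 5) (nat_lit 23) (nat_lit 5) (nat_lit 22) (nat_lit 5) (nat_lit 264) (nat_lit 251) (nat_lit 145)) (XT.nd (nat_lit 78) (nat_lit 76) (nat_lit 0) (XT.lf (nat_lit 0) (nat_lit 287343873542) (nat_lit 152) (nat_lit 177917560251) (nat_lit 228) (nat_lit 545551130807) (nat_lit 19) (nat_lit 5) (nat_lit 21) (nat_lit 5) (nat_lit 22) (nat_lit 5) (nat_lit 265) (nat_lit 251) (nat_lit 144)) (XT.lf (nat_lit 0) (nat_lit 139323770524) (nat_lit 76) (nat_lit 734405669574) (nat_lit 152) (nat_lit 242144292655) (nat_lit 18) (nat_lit 5) (nat_lit 19) (nat_lit 5) (nat_lit 20) (nat_lit 4) (nat_lit 266) (nat_lit 251) (nat_lit 143)))) (XT.nd (nat_lit 78) (nat_lit 228) (nat_lit 0) (XT.lf (nat_lit 0) (nat_lit 127963139956) (nat_lit 152) (nat_lit 67698706719) (nat_lit 76) (nat_lit 1038704331740) (nat_lit 17) (nat_lit 5) (nat_lit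 19) (nat_lit 5) (nat_lit 18) (nat_lit 5) (nat_lit 267) (nat_lit 251) (nat_lit 142)) (XT.nd (nat_lit 78) (nat_lit 76) (nat_lit 0) (XT.lf (nat_lit 0) (nat_lit 575240396057) (nat_lit 228) (nat_lit 357234771377) (nat_lit 76) (nat_lit 434774858343) (nat_lit 15) (nat_lit 5) (nat_lit 18) (nat_lit 5) (nat_lit 16) (nat_lit 4) (nat_lit 268) (nat_lit 251) (nat_lit 141)) (XT.lf (nat_lit 0) (nat_lit 766455594462) (nat_lit 76) (nat_lit 349020574912) (nat_lit 152) (nat_lit 402520926612) (nat_lit 14) (nat_lit 5) (nat_lit 15) (nat_lit 5) (nat_lit 16) (nat_lit 4) (nat_lit 269) (nat_lit 251) (nat_lit 140))))) (XT.nd (nat_lit 234) (nat_lit 228) (nat_lit 0) (XT.nd (nat_lit 78) (nat_lit 76) (nat_lit 0) (XT.lf (nat_lit 0) (nat_lit 71929041134) (nat_lit 152) (nat_lit 1289030997153) (nat_lit 76) (nat_lit 328004167549) (nat_lit 12) (nat_lit 5) (nat_lit 14) (nat_lit 5) (nat_lit 13) (nat_lit 4) (nat_lit 270) (nat_lit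 251) (nat_lit 139)) (XT.nd (nat_lit 78) (nat_lit 76) (nat_lit 0) (XT.lf (nat_lit 0) (nat_lit 626492073065) (nat_lit 152) (nat_lit 135539920604) (nat_lit 76) (nat_lit 1120085637433) (nat_lit 12) (nat_lit 5) (nat_lit 14) (nat_lit 5) (nat_lit 13) (nat_lit 4) (nat_lit 271) (nat_lit 251) (nat_lit 138)) (XT.lf (nat_lit 0) (nat_lit 1253689385908) (nat_lit 76) (nat_lit 40701404697) (nat_lit 152) (nat_lit 807441181115) (nat_lit 11) (nat_lit 5) (nat_lit 12) (nat_lit 5) (nat_lit 13) (nat_lit 4) (nat_lit 272) (nat_lit 251) (nat_lit 137)))) (XT.nd (nat_lit 156) (nat_lit 76) (nat_lit 0) (XT.nd (nat_lit 78) (nat_lit 76) (nat_lit 0) (XT.lf (nat_lit 0) (nat_lit 511854328943) (nat_lit 76) (nat_lit 1585950014810) (nat_lit 76) (nat_lit 253872717462) (nat_lit 10) (nat_lit 4) (nat_lit 11) (nat_lit 5) (nat_lit 11) (nat_lit 4) (nat_lit 273) (nat_lit 251) (nat_lit 136)) (XT.lf (nat_lit 0) (nat_lit 390045064516)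 (nat_lit 152) (nat_lit 520783581338) (nat_lit 76) (nat_lit 1725317108750) (nat_lit 9) (nat_lit 5) (nat_lit 11) (nat_lit 5) (nat_lit 10) (nat_lit 4) (nat_lit 274) (nat_lit 251) (nat_lit 135))) (XT.nd (nat_lit 78) (nat_lit 0) (nat_lit 0) (XT.lf (nat_lit 0) (nat_lit 1041173631979) (nat_lit 76) (nat_lit 99812408079) (nat_lit 152) (nat_lit 1819733774300) (nat_lit 8) (nat_lit 5) (nat_lit 9) (nat_lit 5) (nat_lit 10) (nat_lit 4) (nat_lit 275) (nat_lit 251) (nat_lit 134)) (XT.lf (nat_lit 0) (nat_lit 2040154228031) (nat_lit 152) (nat_lit 484229590900) (nat_lit 0) (nat_lit 806749278872) (nat_lit 8) (nat_lit 5) (nat_lit 10) (nat_lit 4) (nat_lit 8) (nat_lit 4) (nat_lit 276) (nat_lit 251) (nat_lit 133)))))) (XT.nd (nat_lit 468) (nat_lit 0) (nat_lit 0) (XT.nd (nat_lit 234) (nat_lit 76) (nat_lit 0) (XT.nd (nat_lit 78) (nat_lit 152) (nat_lit 0) (XT.lf (nat_lit 0) (nat_lit 1224898263680) (nat_lit 76) (nat_lit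 1881518759985) (nat_lit 76) (nat_lit 648113799756) (nat_lit 7) (nat_lit 4) (nat_lit 8) (nat_lit 5) (nat_lit 8) (nat_lit 4) (nat_lit 277) (nat_lit 251) (nat_lit 132)) (XT.nd (nat_lit 78) (nat_lit 76) (nat_lit 0) (XT.lf (nat_lit 0) (nat_lit 101083770560) (nat_lit 152) (nat_lit 1023150727090) (nat_lit 76) (nat_lit 3115871159023) (nat_lit 6) (nat_lit 5) (nat_lit 8) (nat_lit 5) (nat_lit 7) (nat_lit 4) (nat_lit 278) (nat_lit 251) (nat_lit 131)) (XT.lf (nat_lit 0) (nat_lit 727784874914) (nat_lit 76) (nat_lit 215094862172) (nat_lit 152) (nat_lit 3852802701458) (nat_lit 5) (nat_lit 5) (nat_lit 6) (nat_lit 5) (nat_lit 7) (nat_lit 4) (nat_lit 279) (nat_lit 251) (nat_lit 130)))) (XT.nd (nat_lit 78) (nat_lit 76) (nat_lit 0) (XT.lf (nat_lit 0) (nat_lit 1961478248313) (nat_lit 152) (nat_lit 2649638242345) (nat_lit 0) (nat_lit 819436595068) (nat_lit 5) (nat_lit 5) (nat_lit 7) (nat_lit 4) (nat_lit 5)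 (nat_lit 4) (nat_lit 280) (nat_lit 251) (nat_lit 129)) (XT.nd (nat_lit 78) (nat_lit 76) (nat_lit 0) (XT.lf (nat_lit 0) (nat_lit 3138815516690) (nat_lit 152) (nat_lit 1024589037281) (nat_lit 0) (nat_lit 1996773857584) (nat_lit 5) (nat_lit 5) (nat_lit 7) (nat_lit 4) (nat_lit 5) (nat_lit 4) (nat_lit 281) (nat_lit 251) (nat_lit 128)) (XT.lf (nat_lit 0) (nat_lit 888672528141) (nat_lit 76) (nat_lit 3625453432740) (nat_lit 76) (nat_lit 2483411768537) (nat_lit 4) (nat_lit 4) (nat_lit 5) (nat_lit 5) (nat_lit 5) (nat_lit 4) (nat_lit 282) (nat_lit 251) (nat_lit 127))))) (XT.nd (nat_lit 32136) (nat_lit 0) (nat_lit 2584) (XT.nd (nat_lit 31980) (nat_lit 0) (nat_lit 3116) (XT.lf (nat_lit 0) (nat_lit 3150969310039) (nat_lit 76) (nat_lit 2974593459853) (nat_lit 76) (nat_lit 1832551791220) (nat_lit 4) (nat_lit 4) (nat_lit 5) (nat_lit 5) (nat_lit 5) (nat_lit 4) (nat_lit 283) (nat_lit 251) (nat_lit 126))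 (XT.nd (nat_lit 78) (nat_lit 0) (nat_lit 76) (XT.lf (nat_lit 0) (nat_lit 115172562464) (nat_lit 532) (nat_lit 31808101870) (nat_lit 532) (nat_lit 31808101870) (nat_lit 45) (nat_lit 3) (nat_lit 52) (nat_lit 3) (nat_lit 52) (nat_lit 5) (nat_lit 252) (nat_lit 252) (nat_lit 156)) (XT.lf (nat_lit 0) (nat_lit 253876170204) (nat_lit 456) (nat_lit 127048906964) (nat_lit 532) (nat_lit 2970354873) (nat_lit 46) (nat_lit 5) (nat_lit 52) (nat_lit 5) (nat_lit 53) (nat_lit 5) (nat_lit 253) (nat_lit 252) (nat_lit 155)))) (XT.nd (nat_lit 156) (nat_lit 608) (nat_lit 0) (XT.nd (nat_lit 78) (nat_lit 0) (nat_lit 76) (XT.lf (nat_lit 76) (nat_lit 217942117023) (nat_lit 0) (nat_lit 78266585563) (nat_lit 532) (nat_lit 116730568036) (nat_lit 47) (nat_lit 5) (nat_lit 46) (nat_lit 5) (nat_lit 53) (nat_lit 5) (nat_lit 254) (nat_lit 252) (nat_lit 154)) (XT.lf (nat_lit 76) (nat_lit 178685645612) (nat_lit 0) (nat_lit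 180786170756) (nat_lit 532) (nat_lit 85701412877) (nat_lit 48) (nat_lit 5) (nat_lit 47) (nat_lit 5) (nat_lit 54) (nat_lit 5) (nat_lit 255) (nat_lit 252) (nat_lit 153))) (XT.nd (nat_lit 78) (nat_lit 304) (nat_lit 0) (XT.lf (nat_lit 0) (nat_lit 139005394422) (nat_lit 456) (nat_lit 308628403798) (nat_lit 532) (nat_lit 33375731686) (nat_lit 42) (nat_lit 5) (nat_lit 48) (nat_lit 5) (nat_lit 49) (nat_lit 5) (nat_lit 256) (nat_lit 252) (nat_lit 152)) (XT.lf (nat_lit 0) (nat_lit 42197187805) (nat_lit 304) (nat_lit 423377650555) (nat_lit 76) (nat_lit 55255758967) (nat_lit 38) (nat_lit 5) (nat_lit 42) (nat_lit 5) (nat_lit 39) (nat_lit 5) (nat_lit 257) (nat_lit 252) (nat_lit 151))))))))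
noncomputable def xc56 : XT := (XT.nd (nat_lit 1950) (nat_lit 76) (nat_lit 0) (XT.nd (nat_lit 936) (nat_lit 760) (nat_lit 0) (XT.nd (nat_lit 468) (nat_lit 760) (nat_lit 0) (XT.nd (nat_lit 234) (nat_lit 532) (nat_lit 0) (XT.nd (nat_lit 78) (nat_lit 228) (nat_lit 0) (XT.lf (nat_lit 0) (nat_lit 50520593721) (nat_lit 228) (nat_lit 96631956851) (nat_lit 304) (nat_lit 417801104660) (nat_lit 35) (nat_lit 5) (nat_lit 38) (nat_lit 5) (nat_lit 39) (nat_lit 5) (nat_lit 258) (nat_lit 252) (nat_lit 150)) (XT.nd (nat_lit 78) (nat_lit 228) (nat_lit 0) (XT.lf (nat_lit 0) (nat_lit 288377525170) (nat_lit 304) (nat_lit 1767345217) (nat_lit 76) (nat_lit 323908197041) (nat_lit 35) (nat_lit 5) (nat_lit 39) (nat_lit 5) (nat_lit 36) (nat_lit 5) (nat_lit 259) (nat_lit 252) (nat_lit 149)) (XT.lf (nat_lit 0) (nat_lit 471823427953) (nat_lit 304) (nat_lit 56732660066) (nat_lit 76) (nat_lit 140278329047) (nat_lit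 32) (nat_lit 5) (nat_lit 36) (nat_lit 5) (nat_lit 33) (nat_lit 5) (nat_lit 260) (nat_lit 252) (nat_lit 148)))) (XT.nd (nat_lit 78) (nat_lit 380) (nat_lit 0) (XT.lf (nat_lit 0) (nat_lit 608755712496) (nat_lit 152) (nat_lit 96748507264) (nat_lit 228) (nat_lit 24511309252) (nat_lit 30) (nat_lit 5) (nat_lit 32) (nat_lit 5) (nat_lit 33) (nat_lit 5) (nat_lit 261) (nat_lit 252) (nat_lit 147)) (XT.nd (nat_lit 78) (nat_lit 152) (nat_lit 0) (XT.lf (nat_lit 0) (nat_lit 191513148903) (nat_lit 228) (nat_lit 205676579089) (nat_lit 76) (nat_lit 400741792603) (nat_lit 27) (nat_lit 5) (nat_lit 30) (nat_lit 5) (nat_lit 28) (nat_lit 5) (nat_lit 262) (nat_lit 252) (nat_lit 146)) (XT.lf (nat_lit 0) (nat_lit 461190975901) (nat_lit 228) (nat_lit 307621417695) (nat_lit 76) (nat_lit 105355501381) (nat_lit 25) (nat_lit 5) (nat_lit 28) (nat_lit 5) (nat_lit 26) (nat_lit 5) (nat_lit 263) (nat_lit 252) (nat_lit 145)))))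 (XT.nd (nat_lit 234) (nat_lit 304) (nat_lit 0) (XT.nd (nat_lit 78) (nat_lit 304) (nat_lit 0) (XT.lf (nat_lit 0) (nat_lit 520599037387) (nat_lit 152) (nat_lit 280370680388) (nat_lit 228) (nat_lit 158498068568) (nat_lit 23) (nat_lit 5) (nat_lit 25) (nat_lit 5) (nat_lit 26) (nat_lit 5) (nat_lit 264) (nat_lit 252) (nat_lit 144)) (XT.nd (nat_lit 78) (nat_lit 152) (nat_lit 0) (XT.lf (nat_lit 0) (nat_lit 154923604427) (nat_lit 152) (nat_lit 608976658678) (nat_lit 76) (nat_lit 291205740362) (nat_lit 21) (nat_lit 5) (nat_lit 23) (nat_lit 5) (nat_lit 22) (nat_lit 5) (nat_lit 265) (nat_lit 252) (nat_lit 143)) (XT.lf (nat_lit 0) (nat_lit 330446223814) (nat_lit 152) (nat_lit 204604905091) (nat_lit 228) (nat_lit 627383281291) (nat_lit 19) (nat_lit 5) (nat_lit 21) (nat_lit 5) (nat_lit 22) (nat_lit 5) (nat_lit 266) (nat_lit 252) (nat_lit 142)))) (XT.nd (nat_lit 78) (nat_lit 228) (nat_lit 0) (XT.lf (nat_lit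 0) (nat_lit 160223069649) (nat_lit 76) (nat_lit 844566227582) (nat_lit 152) (nat_lit 278465459544) (nat_lit 18) (nat_lit 5) (nat_lit 19) (nat_lit 5) (nat_lit 20) (nat_lit 4) (nat_lit 267) (nat_lit 252) (nat_lit 141)) (XT.nd (nat_lit 78) (nat_lit 152) (nat_lit 0) (XT.lf (nat_lit 0) (nat_lit 147158004991) (nat_lit 152) (nat_lit 77852853626) (nat_lit 76) (nat_lit 1194510214554) (nat_lit 17) (nat_lit 5) (nat_lit 19) (nat_lit 5) (nat_lit 18) (nat_lit 5) (nat_lit 268) (nat_lit 252) (nat_lit 140)) (XT.lf (nat_lit 0) (nat_lit 661526818540) (nat_lit 228) (nat_lit 410819360701) (nat_lit 76) (nat_lit 499991320937) (nat_lit 15) (nat_lit 5) (nat_lit 18) (nat_lit 5) (nat_lit 16) (nat_lit 4) (nat_lit 269) (nat_lit 252) (nat_lit 139)))))) (XT.nd (nat_lit 468) (nat_lit 304) (nat_lit 0) (XT.nd (nat_lit 234) (nat_lit 228) (nat_lit 0) (XT.nd (nat_lit 78) (nat_lit 152) (nat_lit 0) (XT.lf (nat_lit 0) (nat_lit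 881424506994) (nat_lit 76) (nat_lit 401373417292) (nat_lit 152) (nat_lit 462898709371) (nat_lit 14) (nat_lit 5) (nat_lit 15) (nat_lit 5) (nat_lit 16) (nat_lit 4) (nat_lit 270) (nat_lit 252) (nat_lit 138)) (XT.nd (nat_lit 78) (nat_lit 0) (nat_lit 0) (XT.lf (nat_lit 0) (nat_lit 82718710229) (nat_lit 152) (nat_lit 1482385086028) (nat_lit 76) (nat_lit 377205015128) (nat_lit 12) (nat_lit 5) (nat_lit 14) (nat_lit 5) (nat_lit 13) (nat_lit 4) (nat_lit 271) (nat_lit 252) (nat_lit 137)) (XT.lf (nat_lit 0) (nat_lit 720466156133) (nat_lit 152) (nat_lit 155870421131) (nat_lit 76) (nat_lit 1288098676480) (nat_lit 12) (nat_lit 5) (nat_lit 14) (nat_lit 5) (nat_lit 13) (nat_lit 4) (nat_lit 272) (nat_lit 252) (nat_lit 136)))) (XT.nd (nat_lit 78) (nat_lit 152) (nat_lit 0) (XT.lf (nat_lit 0) (nat_lit 1441743240088) (nat_lit 76) (nat_lit 46806416457) (nat_lit 152) (nat_lit 928557090922) (nat_lit 11) (nat_lit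 5) (nat_lit 12) (nat_lit 5) (nat_lit 13) (nat_lit 4) (nat_lit 273) (nat_lit 252) (nat_lit 135)) (XT.nd (nat_lit 78) (nat_lit 76) (nat_lit 0) (XT.lf (nat_lit 0) (nat_lit 588632900739) (nat_lit 76) (nat_lit 1823842323984) (nat_lit 76) (nat_lit 291953377128) (nat_lit 10) (nat_lit 4) (nat_lit 11) (nat_lit 5) (nat_lit 11) (nat_lit 4) (nat_lit 274) (nat_lit 252) (nat_lit 134)) (XT.lf (nat_lit 0) (nat_lit 448552029019) (nat_lit 152) (nat_lit 598900740245) (nat_lit 76) (nat_lit 1984114831989) (nat_lit 9) (nat_lit 5) (nat_lit 11) (nat_lit 5) (nat_lit 10) (nat_lit 4) (nat_lit 275) (nat_lit 252) (nat_lit 133))))) (XT.nd (nat_lit 234) (nat_lit 152) (nat_lit 0) (XT.nd (nat_lit 78) (nat_lit 76) (nat_lit 0) (XT.lf (nat_lit 0) (nat_lit 1197350023049) (nat_lit 76) (nat_lit 114784109455) (nat_lit 152) (nat_lit 2092693638958) (nat_lit 8) (nat_lit 5) (nat_lit 9) (nat_lit 5) (nat_lit 10) (nat_lit 4) (nat_lit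 276) (nat_lit 252) (nat_lit 132)) (XT.nd (nat_lit 78) (nat_lit 76) (nat_lit 0) (XT.lf (nat_lit 0) (nat_lit 2346177527698) (nat_lit 152) (nat_lit 556863718684) (nat_lit 0) (nat_lit 927761802738) (nat_lit 8) (nat_lit 5) (nat_lit 10) (nat_lit 4) (nat_lit 8) (nat_lit 4) (nat_lit 277) (nat_lit 252) (nat_lit 131)) (XT.lf (nat_lit 0) (nat_lit 1408633287772) (nat_lit 76) (nat_lit 2163746440167) (nat_lit 76) (nat_lit 745330706836) (nat_lit 7) (nat_lit 4) (nat_lit 8) (nat_lit 5) (nat_lit 8) (nat_lit 4) (nat_lit 278) (nat_lit 252) (nat_lit 130)))) (XT.nd (nat_lit 156) (nat_lit 0) (nat_lit 0) (XT.nd (nat_lit 78) (nat_lit 76) (nat_lit 0) (XT.lf (nat_lit 0) (nat_lit 116246470696) (nat_lit 152) (nat_lit 1176623081560) (nat_lit 76) (nat_lit 3583251942071) (nat_lit 6) (nat_lit 5) (nat_lit 8) (nat_lit 5) (nat_lit 7) (nat_lit 4) (nat_lit 279) (nat_lit 252) (nat_lit 129)) (XT.lf (nat_lit 0) (nat_lit 836952839195)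 (nat_lit 76) (nat_lit 247358981061) (nat_lit 152) (nat_lit 4430722974189) (nat_lit 5) (nat_lit 5) (nat_lit 6) (nat_lit 5) (nat_lit 7) (nat_lit 4) (nat_lit 280) (nat_lit 252) (nat_lit 128))) (XT.nd (nat_lit 78) (nat_lit 0) (nat_lit 0) (XT.lf (nat_lit 0) (nat_lit 2255700094484) (nat_lit 152) (nat_lit 3047083769768) (nat_lit 0) (nat_lit 942352175556) (nat_lit 5) (nat_lit 5) (nat_lit 7) (nat_lit 4) (nat_lit 5) (nat_lit 4) (nat_lit 281) (nat_lit 252) (nat_lit 127)) (XT.lf (nat_lit 0) (nat_lit 3609637938910) (nat_lit 152) (nat_lit 1178277211196) (nat_lit 0) (nat_lit 2296290015550) (nat_lit 5) (nat_lit 5) (nat_lit 7) (nat_lit 4) (nat_lit 5) (nat_lit 4) (nat_lit 282) (nat_lit 252) (nat_lit 126))))))) (XT.nd (nat_lit 32916) (nat_lit 0) (nat_lit 380) (XT.nd (nat_lit 32448) (nat_lit 0) (nat_lit 1748) (XT.nd (nat_lit 32214) (nat_lit 0) (nat_lit 2888) (XT.nd (nat_lit 32058) (nat_lit 0) (nat_lit 3116)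 (XT.lf (nat_lit 0) (nat_lit 1021973573661) (nat_lit 76) (nat_lit 4169271367714) (nat_lit 76) (nat_lit 2855923440500) (nat_lit 4) (nat_lit 4) (nat_lit 5) (nat_lit 5) (nat_lit 5) (nat_lit 4) (nat_lit 283) (nat_lit 252) (nat_lit 125)) (XT.nd (nat_lit 78) (nat_lit 0) (nat_lit 76) (XT.lf (nat_lit 0) (nat_lit 132449255622) (nat_lit 532) (nat_lit 36578879241) (nat_lit 532) (nat_lit 36578879241) (nat_lit 45) (nat_lit 3) (nat_lit 52) (nat_lit 3) (nat_lit 52) (nat_lit 5) (nat_lit 253) (nat_lit 253) (nat_lit 154)) (XT.lf (nat_lit 0) (nat_lit 291959006592) (nat_lit 456) (nat_lit 146105308195) (nat_lit 532) (nat_lit 3415315144) (nat_lit 46) (nat_lit 5) (nat_lit 52) (nat_lit 5) (nat_lit 53) (nat_lit 5) (nat_lit 254) (nat_lit 253) (nat_lit 153)))) (XT.nd (nat_lit 78) (nat_lit 304) (nat_lit 0) (XT.lf (nat_lit 76) (nat_lit 250634290263) (nat_lit 0) (nat_lit 90006965124) (nat_lit 532) (nat_lit 134238802517)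 (nat_lit 47) (nat_lit 5) (nat_lit 46) (nat_lit 5) (nat_lit 53) (nat_lit 5) (nat_lit 255) (nat_lit 253) (nat_lit 152)) (XT.nd (nat_lit 78) (nat_lit 380) (nat_lit 0) (XT.lf (nat_lit 76) (nat_lit 205489378903) (nat_lit 0) (nat_lit 207904307754) (nat_lit 532) (nat_lit 98555436088) (nat_lit 48) (nat_lit 5) (nat_lit 47) (nat_lit 5) (nat_lit 54) (nat_lit 5) (nat_lit 256) (nat_lit 253) (nat_lit 151)) (XT.lf (nat_lit 0) (nat_lit 159857102848) (nat_lit 456) (nat_lit 354922736950) (nat_lit 532) (nat_lit 38381039186) (nat_lit 42) (nat_lit 5) (nat_lit 48) (nat_lit 5) (nat_lit 49) (nat_lit 5) (nat_lit 257) (nat_lit 253) (nat_lit 150))))) (XT.nd (nat_lit 234) (nat_lit 608) (nat_lit 0) (XT.nd (nat_lit 78) (nat_lit 228) (nat_lit 0) (XT.lf (nat_lit 0) (nat_lit 48527655816) (nat_lit 304) (nat_lit 486883350794) (nat_lit 76) (nat_lit 63544106988) (nat_lit 38) (nat_lit 5) (nat_lit 42) (nat_lit 5) (nat_lit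 39) (nat_lit 5) (nat_lit 258) (nat_lit 253) (nat_lit 149)) (XT.nd (nat_lit 78) (nat_lit 0) (nat_lit 0) (XT.lf (nat_lit 0) (nat_lit 58099549937) (nat_lit 228) (nat_lit 111126677851) (nat_lit 304) (nat_lit 480470410296) (nat_lit 35) (nat_lit 5) (nat_lit 38) (nat_lit 5) (nat_lit 39) (nat_lit 5) (nat_lit 259) (nat_lit 253) (nat_lit 148)) (XT.lf (nat_lit 0) (nat_lit 331634846443) (nat_lit 304) (nat_lit 2031637569) (nat_lit 76) (nat_lit 372494486510) (nat_lit 35) (nat_lit 5) (nat_lit 39) (nat_lit 5) (nat_lit 36) (nat_lit 5) (nat_lit 260) (nat_lit 253) (nat_lit 147)))) (XT.nd (nat_lit 78) (nat_lit 380) (nat_lit 0) (XT.lf (nat_lit 0) (nat_lit 542597565046) (nat_lit 304) (nat_lit 65241770059) (nat_lit 76) (nat_lit 161320193280) (nat_lit 32) (nat_lit 5) (nat_lit 36) (nat_lit 5) (nat_lit 33) (nat_lit 5) (nat_lit 261) (nat_lit 253) (nat_lit 146)) (XT.nd (nat_lit 78) (nat_lit 228) (nat_lit 0) (XT.lf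 (nat_lit 0) (nat_lit 700069791601) (nat_lit 152) (nat_lit 111260620145) (nat_lit 228) (nat_lit 28187400671) (nat_lit 30) (nat_lit 5) (nat_lit 32) (nat_lit 5) (nat_lit 33) (nat_lit 5) (nat_lit 262) (nat_lit 253) (nat_lit 145)) (XT.lf (nat_lit 0) (nat_lit 220240641745) (nat_lit 228) (nat_lit 236527337995) (nat_lit 76) (nat_lit 460853226317) (nat_lit 27) (nat_lit 5) (nat_lit 30) (nat_lit 5) (nat_lit 28) (nat_lit 5) (nat_lit 263) (nat_lit 253) (nat_lit 144)))))) (XT.nd (nat_lit 468) (nat_lit 608) (nat_lit 0) (XT.nd (nat_lit 234) (nat_lit 304) (nat_lit 0) (XT.nd (nat_lit 78) (nat_lit 304) (nat_lit 0) (XT.lf (nat_lit 0) (nat_lit 530370095682) (nat_lit 228) (nat_lit 353763930415) (nat_lit 76) (nat_lit 121159014398) (nat_lit 25) (nat_lit 5) (nat_lit 28) (nat_lit 5) (nat_lit 26) (nat_lit 5) (nat_lit 264) (nat_lit 253) (nat_lit 143)) (XT.nd (nat_lit 78) (nat_lit 152) (nat_lit 0) (XT.lf (nat_lit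 0) (nat_lit 598689533683) (nat_lit 152) (nat_lit 322426068815) (nat_lit 228) (nat_lit 182272316887) (nat_lit 23) (nat_lit 5) (nat_lit 25) (nat_lit 5) (nat_lit 26) (nat_lit 5) (nat_lit 265) (nat_lit 253) (nat_lit 142)) (XT.lf (nat_lit 0) (nat_lit 178162546433) (nat_lit 152) (nat_lit 700322522036) (nat_lit 76) (nat_lit 334886802810) (nat_lit 21) (nat_lit 5) (nat_lit 23) (nat_lit 5) (nat_lit 22) (nat_lit 5) (nat_lit 266) (nat_lit 253) (nat_lit 141)))) (XT.nd (nat_lit 78) (nat_lit 152) (nat_lit 0) (XT.lf (nat_lit 0) (nat_lit 380013739043) (nat_lit 152) (nat_lit 235295422180) (nat_lit 228) (nat_lit 721490380942) (nat_lit 19) (nat_lit 5) (nat_lit 21) (nat_lit 5) (nat_lit 22) (nat_lit 5) (nat_lit 267) (nat_lit 253) (nat_lit 140)) (XT.nd (nat_lit 78) (nat_lit 76) (nat_lit 0) (XT.lf (nat_lit 0) (nat_lit 184257084764) (nat_lit 76) (nat_lit 971250940602) (nat_lit 152) (nat_lit 320234917788) (nat_lit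 18) (nat_lit 5) (nat_lit 19) (nat_lit 5) (nat_lit 20) (nat_lit 4) (nat_lit 268) (nat_lit 253) (nat_lit 139)) (XT.lf (nat_lit 0) (nat_lit 169232003691) (nat_lit 152) (nat_lit 89530283296) (nat_lit 76) (nat_lit 1373686922958) (nat_lit 17) (nat_lit 5) (nat_lit 19) (nat_lit 5) (nat_lit 18) (nat_lit 5) (nat_lit 269) (nat_lit 253) (nat_lit 138))))) (XT.nd (nat_lit 234) (nat_lit 228) (nat_lit 0) (XT.nd (nat_lit 78) (nat_lit 228) (nat_lit 0) (XT.lf (nat_lit 0) (nat_lit 760756115857) (nat_lit 228) (nat_lit 472441791171) (nat_lit 76) (nat_lit 574990195896) (nat_lit 15) (nat_lit 5) (nat_lit 18) (nat_lit 5) (nat_lit 16) (nat_lit 4) (nat_lit 270) (nat_lit 253) (nat_lit 137)) (XT.nd (nat_lit 78) (nat_lit 152) (nat_lit 0) (XT.lf (nat_lit 0) (nat_lit 1013638616588) (nat_lit 76) (nat_lit 461579245495) (nat_lit 152) (nat_lit 532333246414) (nat_lit 14) (nat_lit 5) (nat_lit 15) (nat_lit 5) (nat_lit 16) (nat_lit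 4) (nat_lit 271) (nat_lit 253) (nat_lit 136)) (XT.lf (nat_lit 0) (nat_lit 95126753380) (nat_lit 152) (nat_lit 1704742424964) (nat_lit 76) (nat_lit 433785935598) (nat_lit 12) (nat_lit 5) (nat_lit 14) (nat_lit 5) (nat_lit 13) (nat_lit 4) (nat_lit 272) (nat_lit 253) (nat_lit 135)))) (XT.nd (nat_lit 156) (nat_lit 152) (nat_lit 0) (XT.nd (nat_lit 78) (nat_lit 76) (nat_lit 0) (XT.lf (nat_lit 0) (nat_lit 828536285307) (nat_lit 152) (nat_lit 179250615632) (nat_lit 76) (nat_lit 1481313624213) (nat_lit 12) (nat_lit 5) (nat_lit 14) (nat_lit 5) (nat_lit 13) (nat_lit 4) (nat_lit 273) (nat_lit 253) (nat_lit 134)) (XT.lf (nat_lit 0) (nat_lit 1658005063564) (nat_lit 76) (nat_lit 53827228495) (nat_lit 152) (nat_lit 1067840452398) (nat_lit 11) (nat_lit 5) (nat_lit 12) (nat_lit 5) (nat_lit 13) (nat_lit 4) (nat_lit 274) (nat_lit 253) (nat_lit 133))) (XT.nd (nat_lit 78) (nat_lit 76) (nat_lit 0) (XT.lf (nat_lit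 0) (nat_lit 676928155286) (nat_lit 76) (nat_lit 2097418526610) (nat_lit 76) (nat_lit 335746196210) (nat_lit 10) (nat_lit 4) (nat_lit 11) (nat_lit 5) (nat_lit 11) (nat_lit 4) (nat_lit 275) (nat_lit 253) (nat_lit 132)) (XT.lf (nat_lit 0) (nat_lit 515834988249) (nat_lit 152) (nat_lit 688735565237) (nat_lit 76) (nat_lit 2281732175446) (nat_lit 9) (nat_lit 5) (nat_lit 11) (nat_lit 5) (nat_lit 10) (nat_lit 4) (nat_lit 276) (nat_lit 253) (nat_lit 131))))))))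
noncomputable def xc57 : XT := (XT.nd (nat_lit 34086) (nat_lit 0) (nat_lit 0) (XT.nd (nat_lit 33072) (nat_lit 0) (nat_lit 684) (XT.nd (nat_lit 32604) (nat_lit 0) (nat_lit 2508) (XT.nd (nat_lit 234) (nat_lit 152) (nat_lit 0) (XT.nd (nat_lit 78) (nat_lit 76) (nat_lit 0) (XT.lf (nat_lit 0) (nat_lit 1376952788339) (nat_lit 76) (nat_lit 132001605014) (nat_lit 152) (nat_lit 2406597532448) (nat_lit 8) (nat_lit 5) (nat_lit 9) (nat_lit 5) (nat_lit 10) (nat_lit 4) (nat_lit 277) (nat_lit 253) (nat_lit 130)) (XT.nd (nat_lit 78) (nat_lit 76) (nat_lit 0) (XT.lf (nat_lit 0) (nat_lit 2698104281966) (nat_lit 152) (nat_lit 640393041438) (nat_lit 0) (nat_lit 1066926172986) (nat_lit 8) (nat_lit 5) (nat_lit 10) (nat_lit 4) (nat_lit 8) (nat_lit 4) (nat_lit 278) (nat_lit 253) (nat_lit 129)) (XT.lf (nat_lit 0) (nat_lit 1619928496090) (nat_lit 76) (nat_lit 2488308305007) (nat_lit 76) (nat_lit 857130189698) (nat_lit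 7) (nat_lit 4) (nat_lit 8) (nat_lit 5) (nat_lit 8) (nat_lit 4) (nat_lit 279) (nat_lit 253) (nat_lit 128)))) (XT.nd (nat_lit 78) (nat_lit 76) (nat_lit 0) (XT.lf (nat_lit 0) (nat_lit 133683543042) (nat_lit 152) (nat_lit 1353116351285) (nat_lit 76) (nat_lit 4120739815948) (nat_lit 6) (nat_lit 5) (nat_lit 8) (nat_lit 5) (nat_lit 7) (nat_lit 4) (nat_lit 280) (nat_lit 253) (nat_lit 127)) (XT.nd (nat_lit 78) (nat_lit 0) (nat_lit 0) (XT.lf (nat_lit 0) (nat_lit 962495941288) (nat_lit 76) (nat_lit 284462744715) (nat_lit 152) (nat_lit 5095331320139) (nat_lit 5) (nat_lit 5) (nat_lit 6) (nat_lit 5) (nat_lit 7) (nat_lit 4) (nat_lit 281) (nat_lit 253) (nat_lit 126)) (XT.lf (nat_lit 0) (nat_lit 2594055191020) (nat_lit 152) (nat_lit 3504146177254) (nat_lit 0) (nat_lit 1083705070871) (nat_lit 5) (nat_lit 5) (nat_lit 7) (nat_lit 4) (nat_lit 5) (nat_lit 4) (nat_lit 282) (nat_lit 253) (nat_lit 125))))) (XT.nd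 (nat_lit 234) (nat_lit 532) (nat_lit 0) (XT.nd (nat_lit 78) (nat_lit 0) (nat_lit 76) (XT.lf (nat_lit 0) (nat_lit 152317255526) (nat_lit 532) (nat_lit 42065380005) (nat_lit 532) (nat_lit 42065380005) (nat_lit 45) (nat_lit 3) (nat_lit 52) (nat_lit 3) (nat_lit 52) (nat_lit 5) (nat_lit 254) (nat_lit 254) (nat_lit 152)) (XT.nd (nat_lit 78) (nat_lit 0) (nat_lit 0) (XT.lf (nat_lit 0) (nat_lit 335753924393) (nat_lit 456) (nat_lit 168020397570) (nat_lit 532) (nat_lit 3927164053) (nat_lit 46) (nat_lit 5) (nat_lit 52) (nat_lit 5) (nat_lit 53) (nat_lit 5) (nat_lit 255) (nat_lit 254) (nat_lit 151)) (XT.lf (nat_lit 76) (nat_lit 288230080825) (nat_lit 0) (nat_lit 103508306093) (nat_lit 532) (nat_lit 154373601553) (nat_lit 47) (nat_lit 5) (nat_lit 46) (nat_lit 5) (nat_lit 53) (nat_lit 5) (nat_lit 256) (nat_lit 254) (nat_lit 150)))) (XT.nd (nat_lit 78) (nat_lit 684) (nat_lit 0) (XT.lf (nat_lit 76) (nat_lit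 236313456021) (nat_lit 0) (nat_lit 239090113755) (nat_lit 532) (nat_lit 113337852658) (nat_lit 48) (nat_lit 5) (nat_lit 47) (nat_lit 5) (nat_lit 54) (nat_lit 5) (nat_lit 257) (nat_lit 254) (nat_lit 149)) (XT.nd (nat_lit 78) (nat_lit 304) (nat_lit 0) (XT.lf (nat_lit 0) (nat_lit 183836348247) (nat_lit 456) (nat_lit 408161202375) (nat_lit 532) (nat_lit 44137399410) (nat_lit 42) (nat_lit 5) (nat_lit 48) (nat_lit 5) (nat_lit 49) (nat_lit 5) (nat_lit 258) (nat_lit 254) (nat_lit 148)) (XT.lf (nat_lit 0) (nat_lit 55807477035) (nat_lit 304) (nat_lit 559915137084) (nat_lit 76) (nat_lit 73075711070) (nat_lit 38) (nat_lit 5) (nat_lit 42) (nat_lit 5) (nat_lit 39) (nat_lit 5) (nat_lit 259) (nat_lit 254) (nat_lit 147)))))) (XT.nd (nat_lit 468) (nat_lit 836) (nat_lit 0) (XT.nd (nat_lit 234) (nat_lit 532) (nat_lit 0) (XT.nd (nat_lit 78) (nat_lit 228) (nat_lit 0) (XT.lf (nat_lit 0) (nat_lit 66815138122)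 (nat_lit 228) (nat_lit 127795624687) (nat_lit 304) (nat_lit 552540321510) (nat_lit 35) (nat_lit 5) (nat_lit 38) (nat_lit 5) (nat_lit 39) (nat_lit 5) (nat_lit 260) (nat_lit 254) (nat_lit 146)) (XT.nd (nat_lit 78) (nat_lit 228) (nat_lit 0) (XT.lf (nat_lit 0) (nat_lit 381380597038) (nat_lit 304) (nat_lit 2335771158) (nat_lit 76) (nat_lit 428368704789) (nat_lit 35) (nat_lit 5) (nat_lit 39) (nat_lit 5) (nat_lit 36) (nat_lit 5) (nat_lit 261) (nat_lit 254) (nat_lit 145)) (XT.lf (nat_lit 0) (nat_lit 623987670804) (nat_lit 304) (nat_lit 75027438958) (nat_lit 76) (nat_lit 185518309135) (nat_lit 32) (nat_lit 5) (nat_lit 36) (nat_lit 5) (nat_lit 33) (nat_lit 5) (nat_lit 262) (nat_lit 254) (nat_lit 144)))) (XT.nd (nat_lit 78) (nat_lit 380) (nat_lit 0) (XT.lf (nat_lit 0) (nat_lit 805080806452) (nat_lit 152) (nat_lit 127949589757) (nat_lit 228) (nat_lit 32415053329) (nat_lit 30) (nat_lit 5) (nat_lit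 32) (nat_lit 5) (nat_lit 33) (nat_lit 5) (nat_lit 263) (nat_lit 254) (nat_lit 143)) (XT.nd (nat_lit 78) (nat_lit 152) (nat_lit 0) (XT.lf (nat_lit 0) (nat_lit 253277131585) (nat_lit 228) (nat_lit 272005888253) (nat_lit 76) (nat_lit 529981334895) (nat_lit 27) (nat_lit 5) (nat_lit 30) (nat_lit 5) (nat_lit 28) (nat_lit 5) (nat_lit 264) (nat_lit 254) (nat_lit 142)) (XT.lf (nat_lit 0) (nat_lit 609925967989) (nat_lit 228) (nat_lit 406827990727) (nat_lit 76) (nat_lit 139333008568) (nat_lit 25) (nat_lit 5) (nat_lit 28) (nat_lit 5) (nat_lit 26) (nat_lit 5) (nat_lit 265) (nat_lit 254) (nat_lit 141))))) (XT.nd (nat_lit 234) (nat_lit 380) (nat_lit 0) (XT.nd (nat_lit 78) (nat_lit 304) (nat_lit 0) (XT.lf (nat_lit 0) (nat_lit 688493448187) (nat_lit 152) (nat_lit 370789817601) (nat_lit 228) (nat_lit 209612815107) (nat_lit 23) (nat_lit 5) (nat_lit 25) (nat_lit 5) (nat_lit 26) (nat_lit 5) (nat_lit 266)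 (nat_lit 254) (nat_lit 140)) (XT.nd (nat_lit 78) (nat_lit 152) (nat_lit 0) (XT.lf (nat_lit 0) (nat_lit 204887231871) (nat_lit 152) (nat_lit 805370419855) (nat_lit 76) (nat_lit 385119975514) (nat_lit 21) (nat_lit 5) (nat_lit 23) (nat_lit 5) (nat_lit 22) (nat_lit 5) (nat_lit 267) (nat_lit 254) (nat_lit 139)) (XT.lf (nat_lit 0) (nat_lit 437016239715) (nat_lit 152) (nat_lit 270589570158) (nat_lit 228) (nat_lit 829713641265) (nat_lit 19) (nat_lit 5) (nat_lit 21) (nat_lit 5) (nat_lit 22) (nat_lit 5) (nat_lit 268) (nat_lit 254) (nat_lit 138)))) (XT.nd (nat_lit 156) (nat_lit 228) (nat_lit 0) (XT.nd (nat_lit 78) (nat_lit 76) (nat_lit 0) (XT.lf (nat_lit 0) (nat_lit 211896066886) (nat_lit 76) (nat_lit 1116938414496) (nat_lit 152) (nat_lit 368269882725) (nat_lit 18) (nat_lit 5) (nat_lit 19) (nat_lit 5) (nat_lit 20) (nat_lit 4) (nat_lit 269) (nat_lit 254) (nat_lit 137)) (XT.lf (nat_lit 0) (nat_lit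 194617029539) (nat_lit 152) (nat_lit 102959448948) (nat_lit 76) (nat_lit 1579740094650) (nat_lit 17) (nat_lit 5) (nat_lit 19) (nat_lit 5) (nat_lit 18) (nat_lit 5) (nat_lit 270) (nat_lit 254) (nat_lit 136))) (XT.nd (nat_lit 78) (nat_lit 76) (nat_lit 0) (XT.lf (nat_lit 0) (nat_lit 874869740825) (nat_lit 228) (nat_lit 543307701710) (nat_lit 76) (nat_lit 661238858981) (nat_lit 15) (nat_lit 5) (nat_lit 18) (nat_lit 5) (nat_lit 16) (nat_lit 4) (nat_lit 271) (nat_lit 254) (nat_lit 135)) (XT.lf (nat_lit 0) (nat_lit 1165684736898) (nat_lit 76) (nat_lit 530815992893) (nat_lit 152) (nat_lit 612183029700) (nat_lit 14) (nat_lit 5) (nat_lit 15) (nat_lit 5) (nat_lit 16) (nat_lit 4) (nat_lit 272) (nat_lit 254) (nat_lit 134))))))) (XT.nd (nat_lit 33150) (nat_lit 0) (nat_lit 1064) (XT.nd (nat_lit 468) (nat_lit 228) (nat_lit 0) (XT.nd (nat_lit 234) (nat_lit 228) (nat_lit 0) (XT.nd (nat_lit 78) (nat_lit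 76) (nat_lit 0) (XT.lf (nat_lit 0) (nat_lit 109395945303) (nat_lit 152) (nat_lit 1960453468127) (nat_lit 76) (nat_lit 498853953121) (nat_lit 12) (nat_lit 5) (nat_lit 14) (nat_lit 5) (nat_lit 13) (nat_lit 4) (nat_lit 273) (nat_lit 254) (nat_lit 133)) (XT.nd (nat_lit 78) (nat_lit 76) (nat_lit 0) (XT.lf (nat_lit 0) (nat_lit 952816883681) (nat_lit 152) (nat_lit 206137929211) (nat_lit 76) (nat_lit 1703510778440) (nat_lit 12) (nat_lit 5) (nat_lit 14) (nat_lit 5) (nat_lit 13) (nat_lit 4) (nat_lit 274) (nat_lit 254) (nat_lit 132)) (XT.lf (nat_lit 0) (nat_lit 1906706078269) (nat_lit 76) (nat_lit 61901199022) (nat_lit 152) (nat_lit 1228016367394) (nat_lit 11) (nat_lit 5) (nat_lit 12) (nat_lit 5) (nat_lit 13) (nat_lit 4) (nat_lit 275) (nat_lit 254) (nat_lit 131)))) (XT.nd (nat_lit 78) (nat_lit 152) (nat_lit 0) (XT.lf (nat_lit 0) (nat_lit 778467620119) (nat_lit 76) (nat_lit 2412031195226) (nat_lit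 76) (nat_lit 386107983873) (nat_lit 10) (nat_lit 4) (nat_lit 11) (nat_lit 5) (nat_lit 11) (nat_lit 4) (nat_lit 276) (nat_lit 254) (nat_lit 130)) (XT.nd (nat_lit 78) (nat_lit 76) (nat_lit 0) (XT.lf (nat_lit 0) (nat_lit 593210353596) (nat_lit 152) (nat_lit 792045683733) (nat_lit 76) (nat_lit 2623992091485) (nat_lit 9) (nat_lit 5) (nat_lit 11) (nat_lit 5) (nat_lit 10) (nat_lit 4) (nat_lit 277) (nat_lit 254) (nat_lit 129)) (XT.lf (nat_lit 0) (nat_lit 1583495904572) (nat_lit 76) (nat_lit 151801754380) (nat_lit 152) (nat_lit 2767587047114) (nat_lit 8) (nat_lit 5) (nat_lit 9) (nat_lit 5) (nat_lit 10) (nat_lit 4) (nat_lit 278) (nat_lit 254) (nat_lit 128))))) (XT.nd (nat_lit 234) (nat_lit 76) (nat_lit 0) (XT.nd (nat_lit 78) (nat_lit 152) (nat_lit 0) (XT.lf (nat_lit 0) (nat_lit 3102820018864) (nat_lit 152) (nat_lit 736451819923) (nat_lit 0) (nat_lit 1226965174425) (nat_lit 8) (nat_lit 5) (nat_lit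 10) (nat_lit 4) (nat_lit 8) (nat_lit 4) (nat_lit 279) (nat_lit 254) (nat_lit 127)) (XT.nd (nat_lit 78) (nat_lit 76) (nat_lit 0) (XT.lf (nat_lit 0) (nat_lit 1862917933190) (nat_lit 76) (nat_lit 2861554474248) (nat_lit 76) (nat_lit 985699625023) (nat_lit 7) (nat_lit 4) (nat_lit 8) (nat_lit 5) (nat_lit 8) (nat_lit 4) (nat_lit 280) (nat_lit 254) (nat_lit 126)) (XT.lf (nat_lit 0) (nat_lit 153736151429) (nat_lit 152) (nat_lit 1556083658413) (nat_lit 76) (nat_lit 4738850850772) (nat_lit 6) (nat_lit 5) (nat_lit 8) (nat_lit 5) (nat_lit 7) (nat_lit 4) (nat_lit 281) (nat_lit 254) (nat_lit 125)))) (XT.nd (nat_lit 32292) (nat_lit 0) (nat_lit 3040) (XT.lf (nat_lit 0) (nat_lit 1106870465725) (nat_lit 76) (nat_lit 327132093279) (nat_lit 152) (nat_lit 5859630942409) (nat_lit 5) (nat_lit 5) (nat_lit 6) (nat_lit 5) (nat_lit 7) (nat_lit 4) (nat_lit 282) (nat_lit 254) (nat_lit 124)) (XT.nd (nat_lit 78) (nat_lit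 0) (nat_lit 76) (XT.lf (nat_lit 0) (nat_lit 175165306283) (nat_lit 532) (nat_lit 48374936630) (nat_lit 532) (nat_lit 48374936630) (nat_lit 45) (nat_lit 3) (nat_lit 52) (nat_lit 3) (nat_lit 52) (nat_lit 5) (nat_lit 255) (nat_lit 255) (nat_lit 150)) (XT.lf (nat_lit 0) (nat_lit 386117819714) (nat_lit 456) (nat_lit 193222922723) (nat_lit 532) (nat_lit 4515899634) (nat_lit 46) (nat_lit 5) (nat_lit 52) (nat_lit 5) (nat_lit 53) (nat_lit 5) (nat_lit 256) (nat_lit 255) (nat_lit 149)))))) (XT.nd (nat_lit 468) (nat_lit 1216) (nat_lit 0) (XT.nd (nat_lit 234) (nat_lit 532) (nat_lit 0) (XT.nd (nat_lit 78) (nat_lit 304) (nat_lit 0) (XT.lf (nat_lit 76) (nat_lit 331465082191) (nat_lit 0) (nat_lit 119034775978) (nat_lit 532) (nat_lit 177528869504) (nat_lit 47) (nat_lit 5) (nat_lit 46) (nat_lit 5) (nat_lit 53) (nat_lit 5) (nat_lit 257) (nat_lit 255) (nat_lit 148)) (XT.nd (nat_lit 78) (nat_lit 380) (nat_lit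 0) (XT.lf (nat_lit 76) (nat_lit 271760981253) (nat_lit 0) (nat_lit 274953751678) (nat_lit 532) (nat_lit 130337850901) (nat_lit 48) (nat_lit 5) (nat_lit 47) (nat_lit 5) (nat_lit 54) (nat_lit 5) (nat_lit 258) (nat_lit 255) (nat_lit 147)) (XT.lf (nat_lit 0) (nat_lit 211412314640) (nat_lit 456) (nat_lit 469385424231) (nat_lit 532) (nat_lit 50757407692) (nat_lit 42) (nat_lit 5) (nat_lit 48) (nat_lit 5) (nat_lit 49) (nat_lit 5) (nat_lit 259) (nat_lit 255) (nat_lit 146)))) (XT.nd (nat_lit 78) (nat_lit 228) (nat_lit 0) (XT.lf (nat_lit 0) (nat_lit 64179107359) (nat_lit 304) (nat_lit 643901865999) (nat_lit 76) (nat_lit 84037058683) (nat_lit 38) (nat_lit 5) (nat_lit 42) (nat_lit 5) (nat_lit 39) (nat_lit 5) (nat_lit 260) (nat_lit 255) (nat_lit 145)) (XT.nd (nat_lit 78) (nat_lit 0) (nat_lit 0) (XT.lf (nat_lit 0) (nat_lit 76837904640) (nat_lit 228) (nat_lit 146964926922) (nat_lit 304) (nat_lit 635420877994)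 (nat_lit 35) (nat_lit 5) (nat_lit 38) (nat_lit 5) (nat_lit 39) (nat_lit 5) (nat_lit 261) (nat_lit 255) (nat_lit 144)) (XT.lf (nat_lit 0) (nat_lit 438588082532) (nat_lit 304) (nat_lit 2685674036) (nat_lit 76) (nat_lit 492624044763) (nat_lit 35) (nat_lit 5) (nat_lit 39) (nat_lit 5) (nat_lit 36) (nat_lit 5) (nat_lit 262) (nat_lit 255) (nat_lit 143))))) (XT.nd (nat_lit 234) (nat_lit 608) (nat_lit 0) (XT.nd (nat_lit 78) (nat_lit 380) (nat_lit 0) (XT.lf (nat_lit 0) (nat_lit 717586177570) (nat_lit 304) (nat_lit 86281103679) (nat_lit 76) (nat_lit 213346121187) (nat_lit 32) (nat_lit 5) (nat_lit 36) (nat_lit 5) (nat_lit 33) (nat_lit 5) (nat_lit 263) (nat_lit 255) (nat_lit 142)) (XT.nd (nat_lit 78) (nat_lit 228) (nat_lit 0) (XT.lf (nat_lit 0) (nat_lit 925843340357) (nat_lit 152) (nat_lit 147141934905) (nat_lit 228) (nat_lit 37276965435) (nat_lit 30) (nat_lit 5) (nat_lit 32) (nat_lit 5) (nat_lit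 33) (nat_lit 5) (nat_lit 264) (nat_lit 255) (nat_lit 141)) (XT.lf (nat_lit 0) (nat_lit 291268998925) (nat_lit 228) (nat_lit 312806355279) (nat_lit 76) (nat_lit 609478629367) (nat_lit 27) (nat_lit 5) (nat_lit 30) (nat_lit 5) (nat_lit 28) (nat_lit 5) (nat_lit 265) (nat_lit 255) (nat_lit 140)))) (XT.nd (nat_lit 156) (nat_lit 304) (nat_lit 0) (XT.nd (nat_lit 78) (nat_lit 152) (nat_lit 0) (XT.lf (nat_lit 0) (nat_lit 701415133852) (nat_lit 228) (nat_lit 467851789147) (nat_lit 76) (nat_lit 160233067234) (nat_lit 25) (nat_lit 5) (nat_lit 28) (nat_lit 5) (nat_lit 26) (nat_lit 5) (nat_lit 266) (nat_lit 255) (nat_lit 139)) (XT.lf (nat_lit 0) (nat_lit 791767831731) (nat_lit 152) (nat_lit 426408168097) (nat_lit 228) (nat_lit 241054473242) (nat_lit 23) (nat_lit 5) (nat_lit 25) (nat_lit 5) (nat_lit 26) (nat_lit 5) (nat_lit 267) (nat_lit 255) (nat_lit 138))) (XT.nd (nat_lit 78) (nat_lit 152) (nat_lit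 0) (XT.lf (nat_lit 0) (nat_lit 235620546120) (nat_lit 152) (nat_lit 926175619516) (nat_lit 76) (nat_lit 442888086989) (nat_lit 21) (nat_lit 5) (nat_lit 23) (nat_lit 5) (nat_lit 22) (nat_lit 5) (nat_lit 268) (nat_lit 255) (nat_lit 137)) (XT.lf (nat_lit 0) (nat_lit 502569008237) (nat_lit 152) (nat_lit 311177880653) (nat_lit 228) (nat_lit 954170463017) (nat_lit 19) (nat_lit 5) (nat_lit 21) (nat_lit 5) (nat_lit 22) (nat_lit 5) (nat_lit 269) (nat_lit 255) (nat_lit 136))))))))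
noncomputable def xc58 : XT := (XT.nd (nat_lit 34242) (nat_lit 0) (nat_lit 76) (XT.nd (nat_lit 936) (nat_lit 76) (nat_lit 0) (XT.nd (nat_lit 468) (nat_lit 380) (nat_lit 0) (XT.nd (nat_lit 234) (nat_lit 228) (nat_lit 0) (XT.nd (nat_lit 78) (nat_lit 228) (nat_lit 0) (XT.lf (nat_lit 0) (nat_lit 243680794052) (nat_lit 76) (nat_lit 1284479050246) (nat_lit 152) (nat_lit 423510158910) (nat_lit 18) (nat_lit 5) (nat_lit 19) (nat_lit 5) (nat_lit 20) (nat_lit 4) (nat_lit 270) (nat_lit 255) (nat_lit 135)) (XT.nd (nat_lit 78) (nat_lit 152) (nat_lit 0) (XT.lf (nat_lit 0) (nat_lit 223809754324) (nat_lit 152) (nat_lit 118403081343) (nat_lit 76) (nat_lit 1816701209602) (nat_lit 17) (nat_lit 5) (nat_lit 19) (nat_lit 5) (nat_lit 18) (nat_lit 5) (nat_lit 271) (nat_lit 255) (nat_lit 134)) (XT.lf (nat_lit 0) (nat_lit 1006100358916) (nat_lit 228) (nat_lit 624803586163) (nat_lit 76) (nat_lit 760424788925) (nat_lit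 15) (nat_lit 5) (nat_lit 18) (nat_lit 5) (nat_lit 16) (nat_lit 4) (nat_lit 272) (nat_lit 255) (nat_lit 133)))) (XT.nd (nat_lit 78) (nat_lit 152) (nat_lit 0) (XT.lf (nat_lit 0) (nat_lit 1340537695314) (nat_lit 76) (nat_lit 610438286401) (nat_lit 152) (nat_lit 704010330146) (nat_lit 14) (nat_lit 5) (nat_lit 15) (nat_lit 5) (nat_lit 16) (nat_lit 4) (nat_lit 273) (nat_lit 255) (nat_lit 132)) (XT.nd (nat_lit 78) (nat_lit 0) (nat_lit 0) (XT.lf (nat_lit 0) (nat_lit 125805472384) (nat_lit 152) (nat_lit 2254521245941) (nat_lit 76) (nat_lit 573682142259) (nat_lit 12) (nat_lit 5) (nat_lit 14) (nat_lit 5) (nat_lit 13) (nat_lit 4) (nat_lit 274) (nat_lit 255) (nat_lit 131)) (XT.lf (nat_lit 0) (nat_lit 1095739533874) (nat_lit 152) (nat_lit 237058407805) (nat_lit 76) (nat_lit 1959037478831) (nat_lit 12) (nat_lit 5) (nat_lit 14) (nat_lit 5) (nat_lit 13) (nat_lit 4) (nat_lit 275) (nat_lit 255) (nat_lit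 130))))) (XT.nd (nat_lit 234) (nat_lit 152) (nat_lit 0) (XT.nd (nat_lit 78) (nat_lit 152) (nat_lit 0) (XT.lf (nat_lit 0) (nat_lit 2192712182955) (nat_lit 76) (nat_lit 71186292866) (nat_lit 152) (nat_lit 1412218706916) (nat_lit 11) (nat_lit 5) (nat_lit 12) (nat_lit 5) (nat_lit 13) (nat_lit 4) (nat_lit 276) (nat_lit 255) (nat_lit 129)) (XT.nd (nat_lit 78) (nat_lit 76) (nat_lit 0) (XT.lf (nat_lit 0) (nat_lit 895237945776) (nat_lit 76) (nat_lit 2773835791051) (nat_lit 76) (nat_lit 444024074257) (nat_lit 10) (nat_lit 4) (nat_lit 11) (nat_lit 5) (nat_lit 11) (nat_lit 4) (nat_lit 277) (nat_lit 255) (nat_lit 128)) (XT.lf (nat_lit 0) (nat_lit 682191995188) (nat_lit 152) (nat_lit 910852372746) (nat_lit 76) (nat_lit 3017590973052) (nat_lit 9) (nat_lit 5) (nat_lit 11) (nat_lit 5) (nat_lit 10) (nat_lit 4) (nat_lit 278) (nat_lit 255) (nat_lit 127)))) (XT.nd (nat_lit 78) (nat_lit 76) (nat_lit 0) (XT.lf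 (nat_lit 0) (nat_lit 1821020439961) (nat_lit 76) (nat_lit 174571948436) (nat_lit 152) (nat_lit 3182725017073) (nat_lit 8) (nat_lit 5) (nat_lit 9) (nat_lit 5) (nat_lit 10) (nat_lit 4) (nat_lit 279) (nat_lit 255) (nat_lit 126)) (XT.nd (nat_lit 78) (nat_lit 76) (nat_lit 0) (XT.lf (nat_lit 0) (nat_lit 3568243093228) (nat_lit 152) (nat_lit 846919458522) (nat_lit 0) (nat_lit 1411010007671) (nat_lit 8) (nat_lit 5) (nat_lit 10) (nat_lit 4) (nat_lit 8) (nat_lit 4) (nat_lit 280) (nat_lit 255) (nat_lit 125)) (XT.lf (nat_lit 0) (nat_lit 2142355746183) (nat_lit 76) (nat_lit 3290787587533) (nat_lit 76) (nat_lit 1133554498358) (nat_lit 7) (nat_lit 4) (nat_lit 8) (nat_lit 5) (nat_lit 8) (nat_lit 4) (nat_lit 281) (nat_lit 255) (nat_lit 124)))))) (XT.nd (nat_lit 32760) (nat_lit 0) (nat_lit 1444) (XT.nd (nat_lit 32526) (nat_lit 0) (nat_lit 2736) (XT.nd (nat_lit 32370) (nat_lit 0) (nat_lit 2964) (XT.lf (nat_lit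 0) (nat_lit 176796632314) (nat_lit 152) (nat_lit 1789496097107) (nat_lit 76) (nat_lit 5449678525596) (nat_lit 6) (nat_lit 5) (nat_lit 8) (nat_lit 5) (nat_lit 7) (nat_lit 4) (nat_lit 282) (nat_lit 255) (nat_lit 123)) (XT.nd (nat_lit 78) (nat_lit 0) (nat_lit 76) (XT.lf (nat_lit 0) (nat_lit 201440451887) (nat_lit 532) (nat_lit 55630987804) (nat_lit 532) (nat_lit 55630987804) (nat_lit 45) (nat_lit 3) (nat_lit 52) (nat_lit 3) (nat_lit 52) (nat_lit 5) (nat_lit 256) (nat_lit 256) (nat_lit 148)) (XT.lf (nat_lit 0) (nat_lit 444036102624) (nat_lit 456) (nat_lit 222205956986) (nat_lit 532) (nat_lit 5193028226) (nat_lit 46) (nat_lit 5) (nat_lit 52) (nat_lit 5) (nat_lit 53) (nat_lit 5) (nat_lit 257) (nat_lit 256) (nat_lit 147)))) (XT.nd (nat_lit 78) (nat_lit 304) (nat_lit 0) (XT.lf (nat_lit 76) (nat_lit 381185214456) (nat_lit 0) (nat_lit 136890161728) (nat_lit 532) (nat_lit 204157615974) (nat_lit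 47) (nat_lit 5) (nat_lit 46) (nat_lit 5) (nat_lit 53) (nat_lit 5) (nat_lit 258) (nat_lit 256) (nat_lit 146)) (XT.nd (nat_lit 78) (nat_lit 380) (nat_lit 0) (XT.lf (nat_lit 76) (nat_lit 312525511678) (nat_lit 0) (nat_lit 316196905818) (nat_lit 532) (nat_lit 149888014620) (nat_lit 48) (nat_lit 5) (nat_lit 47) (nat_lit 5) (nat_lit 54) (nat_lit 5) (nat_lit 259) (nat_lit 256) (nat_lit 145)) (XT.lf (nat_lit 0) (nat_lit 243124550612) (nat_lit 456) (nat_lit 539793269244) (nat_lit 532) (nat_lit 58370563928) (nat_lit 42) (nat_lit 5) (nat_lit 48) (nat_lit 5) (nat_lit 49) (nat_lit 5) (nat_lit 260) (nat_lit 256) (nat_lit 144))))) (XT.nd (nat_lit 234) (nat_lit 760) (nat_lit 0) (XT.nd (nat_lit 78) (nat_lit 228) (nat_lit 0) (XT.lf (nat_lit 0) (nat_lit 73806358165) (nat_lit 304) (nat_lit 740486736336) (nat_lit 76) (nat_lit 96642610644) (nat_lit 38) (nat_lit 5) (nat_lit 42) (nat_lit 5) (nat_lit 39) (nat_lit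 5) (nat_lit 261) (nat_lit 256) (nat_lit 143)) (XT.nd (nat_lit 78) (nat_lit 0) (nat_lit 0) (XT.lf (nat_lit 0) (nat_lit 88363965232) (nat_lit 228) (nat_lit 169009634604) (nat_lit 304) (nat_lit 730733637864) (nat_lit 35) (nat_lit 5) (nat_lit 38) (nat_lit 5) (nat_lit 39) (nat_lit 5) (nat_lit 262) (nat_lit 256) (nat_lit 142)) (XT.lf (nat_lit 0) (nat_lit 504376594298) (nat_lit 304) (nat_lit 3088175202) (nat_lit 76) (nat_lit 566517677380) (nat_lit 35) (nat_lit 5) (nat_lit 39) (nat_lit 5) (nat_lit 36) (nat_lit 5) (nat_lit 263) (nat_lit 256) (nat_lit 141)))) (XT.nd (nat_lit 156) (nat_lit 380) (nat_lit 0) (XT.nd (nat_lit 78) (nat_lit 152) (nat_lit 0) (XT.lf (nat_lit 0) (nat_lit 825224373502) (nat_lit 304) (nat_lit 99222928117) (nat_lit 76) (nat_lit 245348089029) (nat_lit 32) (nat_lit 5) (nat_lit 36) (nat_lit 5) (nat_lit 33) (nat_lit 5) (nat_lit 264) (nat_lit 256) (nat_lit 140)) (XT.lf (nat_lit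 0) (nat_lit 1064720153651) (nat_lit 152) (nat_lit 169213154581) (nat_lit 228) (nat_lit 42868248706) (nat_lit 30) (nat_lit 5) (nat_lit 32) (nat_lit 5) (nat_lit 33) (nat_lit 5) (nat_lit 265) (nat_lit 256) (nat_lit 139))) (XT.nd (nat_lit 78) (nat_lit 152) (nat_lit 0) (XT.lf (nat_lit 0) (nat_lit 334959573793) (nat_lit 228) (nat_lit 359726993855) (nat_lit 76) (nat_lit 700900495030) (nat_lit 27) (nat_lit 5) (nat_lit 30) (nat_lit 5) (nat_lit 28) (nat_lit 5) (nat_lit 266) (nat_lit 256) (nat_lit 138)) (XT.lf (nat_lit 0) (nat_lit 806627608592) (nat_lit 228) (nat_lit 538029254918) (nat_lit 76) (nat_lit 184268108515) (nat_lit 25) (nat_lit 5) (nat_lit 28) (nat_lit 5) (nat_lit 26) (nat_lit 5) (nat_lit 267) (nat_lit 256) (nat_lit 137))))))) (XT.nd (nat_lit 936) (nat_lit 152) (nat_lit 0) (XT.nd (nat_lit 468) (nat_lit 456) (nat_lit 0) (XT.nd (nat_lit 234) (nat_lit 304) (nat_lit 0) (XT.nd (nat_lit 78)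 (nat_lit 304) (nat_lit 0) (XT.lf (nat_lit 0) (nat_lit 910533283477) (nat_lit 152) (nat_lit 490369300952) (nat_lit 228) (nat_lit 277212444507) (nat_lit 23) (nat_lit 5) (nat_lit 25) (nat_lit 5) (nat_lit 26) (nat_lit 5) (nat_lit 268) (nat_lit 256) (nat_lit 136)) (XT.nd (nat_lit 78) (nat_lit 152) (nat_lit 0) (XT.lf (nat_lit 0) (nat_lit 270963801549) (nat_lit 152) (nat_lit 1065101687724) (nat_lit 76) (nat_lit 509321387106) (nat_lit 21) (nat_lit 5) (nat_lit 23) (nat_lit 5) (nat_lit 22) (nat_lit 5) (nat_lit 269) (nat_lit 256) (nat_lit 135)) (XT.lf (nat_lit 0) (nat_lit 577954610938) (nat_lit 152) (nat_lit 357854468212) (nat_lit 228) (nat_lit 1097295862763) (nat_lit 19) (nat_lit 5) (nat_lit 21) (nat_lit 5) (nat_lit 22) (nat_lit 5) (nat_lit 270) (nat_lit 256) (nat_lit 134)))) (XT.nd (nat_lit 78) (nat_lit 228) (nat_lit 0) (XT.lf (nat_lit 0) (nat_lit 280233152957) (nat_lit 76) (nat_lit 1477150812187)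 (nat_lit 152) (nat_lit 487036526812) (nat_lit 18) (nat_lit 5) (nat_lit 19) (nat_lit 5) (nat_lit 20) (nat_lit 4) (nat_lit 271) (nat_lit 256) (nat_lit 133)) (XT.nd (nat_lit 78) (nat_lit 152) (nat_lit 0) (XT.lf (nat_lit 0) (nat_lit 257381346286) (nat_lit 152) (nat_lit 136163328084) (nat_lit 76) (nat_lit 2089206467228) (nat_lit 17) (nat_lit 5) (nat_lit 19) (nat_lit 5) (nat_lit 18) (nat_lit 5) (nat_lit 272) (nat_lit 256) (nat_lit 132)) (XT.lf (nat_lit 0) (nat_lit 1157015531443) (nat_lit 228) (nat_lit 718523919322) (nat_lit 76) (nat_lit 874488583707) (nat_lit 15) (nat_lit 5) (nat_lit 18) (nat_lit 5) (nat_lit 16) (nat_lit 4) (nat_lit 273) (nat_lit 256) (nat_lit 131))))) (XT.nd (nat_lit 234) (nat_lit 228) (nat_lit 0) (XT.nd (nat_lit 78) (nat_lit 152) (nat_lit 0) (XT.lf (nat_lit 0) (nat_lit 1541618537044) (nat_lit 76) (nat_lit 702003949644) (nat_lit 152) (nat_lit 809611763215) (nat_lit 14) (nat_lit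 5) (nat_lit 15) (nat_lit 5) (nat_lit 16) (nat_lit 4) (nat_lit 274) (nat_lit 256) (nat_lit 130)) (XT.nd (nat_lit 78) (nat_lit 0) (nat_lit 0) (XT.lf (nat_lit 0) (nat_lit 144676395537) (nat_lit 152) (nat_lit 2592699249538) (nat_lit 76) (nat_lit 659734536316) (nat_lit 12) (nat_lit 5) (nat_lit 14) (nat_lit 5) (nat_lit 13) (nat_lit 4) (nat_lit 275) (nat_lit 256) (nat_lit 129)) (XT.lf (nat_lit 0) (nat_lit 1260100552908) (nat_lit 152) (nat_lit 272617009591) (nat_lit 76) (nat_lit 2252893163889) (nat_lit 12) (nat_lit 5) (nat_lit 14) (nat_lit 5) (nat_lit 13) (nat_lit 4) (nat_lit 276) (nat_lit 256) (nat_lit 128)))) (XT.nd (nat_lit 78) (nat_lit 152) (nat_lit 0) (XT.lf (nat_lit 0) (nat_lit 2521619156292) (nat_lit 76) (nat_lit 81864171761) (nat_lit 152) (nat_lit 1624051425553) (nat_lit 11) (nat_lit 5) (nat_lit 12) (nat_lit 5) (nat_lit 13) (nat_lit 4) (nat_lit 277) (nat_lit 256) (nat_lit 127)) (XT.nd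 (nat_lit 78) (nat_lit 76) (nat_lit 0) (XT.lf (nat_lit 0) (nat_lit 1029523775744) (nat_lit 76) (nat_lit 3189911096601) (nat_lit 76) (nat_lit 510627604340) (nat_lit 10) (nat_lit 4) (nat_lit 11) (nat_lit 5) (nat_lit 11) (nat_lit 4) (nat_lit 278) (nat_lit 256) (nat_lit 126)) (XT.lf (nat_lit 0) (nat_lit 784520861424) (nat_lit 152) (nat_lit 1047480104993) (nat_lit 76) (nat_lit 3470229670309) (nat_lit 9) (nat_lit 5) (nat_lit 11) (nat_lit 5) (nat_lit 10) (nat_lit 4) (nat_lit 279) (nat_lit 256) (nat_lit 125)))))) (XT.nd (nat_lit 32838) (nat_lit 0) (nat_lit 1748) (XT.nd (nat_lit 32604) (nat_lit 0) (nat_lit 2888) (XT.nd (nat_lit 78) (nat_lit 76) (nat_lit 0) (XT.lf (nat_lit 0) (nat_lit 2094173619153) (nat_lit 76) (nat_lit 200757688451) (nat_lit 152) (nat_lit 3660133703767) (nat_lit 8) (nat_lit 5) (nat_lit 9) (nat_lit 5) (nat_lit 10) (nat_lit 4) (nat_lit 280) (nat_lit 256) (nat_lit 124)) (XT.nd (nat_lit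 78) (nat_lit 76) (nat_lit 0) (XT.lf (nat_lit 0) (nat_lit 4103479611302) (nat_lit 152) (nat_lit 973957275683) (nat_lit 0) (nat_lit 1622661551984) (nat_lit 8) (nat_lit 5) (nat_lit 10) (nat_lit 4) (nat_lit 8) (nat_lit 4) (nat_lit 281) (nat_lit 256) (nat_lit 123)) (XT.lf (nat_lit 0) (nat_lit 2463709201127) (nat_lit 76) (nat_lit 3784405681918) (nat_lit 76) (nat_lit 1303587619865) (nat_lit 7) (nat_lit 4) (nat_lit 8) (nat_lit 5) (nat_lit 8) (nat_lit 4) (nat_lit 282) (nat_lit 256) (nat_lit 122)))) (XT.nd (nat_lit 78) (nat_lit 0) (nat_lit 76) (XT.lf (nat_lit 0) (nat_lit 231656784065) (nat_lit 532) (nat_lit 63975492821) (nat_lit 532) (nat_lit 63975492821) (nat_lit 45) (nat_lit 3) (nat_lit 52) (nat_lit 3) (nat_lit 52) (nat_lit 5) (nat_lit 257) (nat_lit 257) (nat_lit 146)) (XT.nd (nat_lit 78) (nat_lit 0) (nat_lit 0) (XT.lf (nat_lit 0) (nat_lit 510641979230) (nat_lit 456) (nat_lit 255536544941) (nat_lit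 532) (nat_lit 5971788620) (nat_lit 46) (nat_lit 5) (nat_lit 52) (nat_lit 5) (nat_lit 53) (nat_lit 5) (nat_lit 258) (nat_lit 257) (nat_lit 145)) (XT.lf (nat_lit 76) (nat_lit 438363276350) (nat_lit 0) (nat_lit 157423814043) (nat_lit 532) (nat_lit 234780816816) (nat_lit 47) (nat_lit 5) (nat_lit 46) (nat_lit 5) (nat_lit 53) (nat_lit 5) (nat_lit 259) (nat_lit 257) (nat_lit 144))))) (XT.nd (nat_lit 234) (nat_lit 608) (nat_lit 0) (XT.nd (nat_lit 78) (nat_lit 684) (nat_lit 0) (XT.lf (nat_lit 76) (nat_lit 359404628211) (nat_lit 0) (nat_lit 363626510793) (nat_lit 532) (nat_lit 172370828218) (nat_lit 48) (nat_lit 5) (nat_lit 47) (nat_lit 5) (nat_lit 54) (nat_lit 5) (nat_lit 260) (nat_lit 257) (nat_lit 143)) (XT.nd (nat_lit 78) (nat_lit 304) (nat_lit 0) (XT.lf (nat_lit 0) (nat_lit 279593527175) (nat_lit 456) (nat_lit 620762283358) (nat_lit 532) (nat_lit 67125804534) (nat_lit 42) (nat_lit 5) (nat_lit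 48) (nat_lit 5) (nat_lit 49) (nat_lit 5) (nat_lit 261) (nat_lit 257) (nat_lit 142)) (XT.lf (nat_lit 0) (nat_lit 84877602780) (nat_lit 304) (nat_lit 851559437098) (nat_lit 76) (nat_lit 111138997068) (nat_lit 38) (nat_lit 5) (nat_lit 42) (nat_lit 5) (nat_lit 39) (nat_lit 5) (nat_lit 262) (nat_lit 257) (nat_lit 141)))) (XT.nd (nat_lit 156) (nat_lit 380) (nat_lit 0) (XT.nd (nat_lit 78) (nat_lit 0) (nat_lit 0) (XT.lf (nat_lit 0) (nat_lit 101618843492) (nat_lit 228) (nat_lit 194361056085) (nat_lit 304) (nat_lit 840343402388) (nat_lit 35) (nat_lit 5) (nat_lit 38) (nat_lit 5) (nat_lit 39) (nat_lit 5) (nat_lit 263) (nat_lit 257) (nat_lit 140)) (XT.lf (nat_lit 0) (nat_lit 580033309822) (nat_lit 304) (nat_lit 3551136878) (nat_lit 76) (nat_lit 651495348573) (nat_lit 35) (nat_lit 5) (nat_lit 39) (nat_lit 5) (nat_lit 36) (nat_lit 5) (nat_lit 264) (nat_lit 257) (nat_lit 139))) (XT.nd (nat_lit 78) (nat_lit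 152) (nat_lit 0) (XT.lf (nat_lit 0) (nat_lit 949008233155) (nat_lit 304) (nat_lit 114106109404) (nat_lit 76) (nat_lit 282150339937) (nat_lit 32) (nat_lit 5) (nat_lit 36) (nat_lit 5) (nat_lit 33) (nat_lit 5) (nat_lit 265) (nat_lit 257) (nat_lit 138)) (XT.lf (nat_lit 0) (nat_lit 1224428412797) (nat_lit 152) (nat_lit 194595074415) (nat_lit 228) (nat_lit 49298288247) (nat_lit 30) (nat_lit 5) (nat_lit 32) (nat_lit 5) (nat_lit 33) (nat_lit 5) (nat_lit 266) (nat_lit 257) (nat_lit 137))))))))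
noncomputable def xc59 : XT := (XT.nd (nat_lit 34398) (nat_lit 0) (nat_lit 0) (XT.nd (nat_lit 936) (nat_lit 228) (nat_lit 0) (XT.nd (nat_lit 468) (nat_lit 532) (nat_lit 0) (XT.nd (nat_lit 234) (nat_lit 380) (nat_lit 0) (XT.nd (nat_lit 78) (nat_lit 304) (nat_lit 0) (XT.lf (nat_lit 0) (nat_lit 385203680017) (nat_lit 228) (nat_lit 413685804963) (nat_lit 76) (nat_lit 806035623166) (nat_lit 27) (nat_lit 5) (nat_lit 30) (nat_lit 5) (nat_lit 28) (nat_lit 5) (nat_lit 267) (nat_lit 257) (nat_lit 136)) (XT.nd (nat_lit 78) (nat_lit 152) (nat_lit 0) (XT.lf (nat_lit 0) (nat_lit 927621904634) (nat_lit 228) (nat_lit 618733414346) (nat_lit 76) (nat_lit 211908386187) (nat_lit 25) (nat_lit 5) (nat_lit 28) (nat_lit 5) (nat_lit 26) (nat_lit 5) (nat_lit 268) (nat_lit 257) (nat_lit 135)) (XT.lf (nat_lit 0) (nat_lit 1047113485441) (nat_lit 152) (nat_lit 563924626259) (nat_lit 228) (nat_lit 318794160165) (nat_lit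 23) (nat_lit 5) (nat_lit 25) (nat_lit 5) (nat_lit 26) (nat_lit 5) (nat_lit 269) (nat_lit 257) (nat_lit 134)))) (XT.nd (nat_lit 78) (nat_lit 228) (nat_lit 0) (XT.lf (nat_lit 0) (nat_lit 311608502981) (nat_lit 152) (nat_lit 1224866733155) (nat_lit 76) (nat_lit 585719661008) (nat_lit 21) (nat_lit 5) (nat_lit 23) (nat_lit 5) (nat_lit 22) (nat_lit 5) (nat_lit 270) (nat_lit 257) (nat_lit 133)) (XT.nd (nat_lit 78) (nat_lit 76) (nat_lit 0) (XT.lf (nat_lit 0) (nat_lit 664647992724) (nat_lit 152) (nat_lit 411532566959) (nat_lit 228) (nat_lit 1261890113854) (nat_lit 19) (nat_lit 5) (nat_lit 21) (nat_lit 5) (nat_lit 22) (nat_lit 5) (nat_lit 271) (nat_lit 257) (nat_lit 132)) (XT.lf (nat_lit 0) (nat_lit 322268307223) (nat_lit 76) (nat_lit 1698723361732) (nat_lit 152) (nat_lit 560091887924) (nat_lit 18) (nat_lit 5) (nat_lit 19) (nat_lit 5) (nat_lit 20) (nat_lit 4) (nat_lit 272) (nat_lit 257) (nat_lit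 131))))) (XT.nd (nat_lit 234) (nat_lit 228) (nat_lit 0) (XT.nd (nat_lit 78) (nat_lit 228) (nat_lit 0) (XT.lf (nat_lit 0) (nat_lit 295988645630) (nat_lit 152) (nat_lit 156587664377) (nat_lit 76) (nat_lit 2402587494919) (nat_lit 17) (nat_lit 5) (nat_lit 19) (nat_lit 5) (nat_lit 18) (nat_lit 5) (nat_lit 273) (nat_lit 257) (nat_lit 130)) (XT.nd (nat_lit 78) (nat_lit 76) (nat_lit 0) (XT.lf (nat_lit 0) (nat_lit 1330567950905) (nat_lit 228) (nat_lit 826302352388) (nat_lit 76) (nat_lit 1005661929066) (nat_lit 15) (nat_lit 5) (nat_lit 18) (nat_lit 5) (nat_lit 16) (nat_lit 4) (nat_lit 274) (nat_lit 257) (nat_lit 129)) (XT.lf (nat_lit 0) (nat_lit 1772861459328) (nat_lit 76) (nat_lit 807304481813) (nat_lit 152) (nat_lit 931053439642) (nat_lit 14) (nat_lit 5) (nat_lit 15) (nat_lit 5) (nat_lit 16) (nat_lit 4) (nat_lit 275) (nat_lit 257) (nat_lit 128)))) (XT.nd (nat_lit 78) (nat_lit 76) (nat_lit 0)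 (XT.lf (nat_lit 0) (nat_lit 166377932218) (nat_lit 152) (nat_lit 2981603998373) (nat_lit 76) (nat_lit 758694771748) (nat_lit 12) (nat_lit 5) (nat_lit 14) (nat_lit 5) (nat_lit 13) (nat_lit 4) (nat_lit 276) (nat_lit 257) (nat_lit 127)) (XT.nd (nat_lit 78) (nat_lit 76) (nat_lit 0) (XT.lf (nat_lit 0) (nat_lit 1449115703105) (nat_lit 152) (nat_lit 313509440511) (nat_lit 76) (nat_lit 2590827186286) (nat_lit 12) (nat_lit 5) (nat_lit 14) (nat_lit 5) (nat_lit 13) (nat_lit 4) (nat_lit 277) (nat_lit 257) (nat_lit 126)) (XT.lf (nat_lit 0) (nat_lit 2899862140053) (nat_lit 76) (nat_lit 94143748349) (nat_lit 152) (nat_lit 1867659073299) (nat_lit 11) (nat_lit 5) (nat_lit 12) (nat_lit 5) (nat_lit 13) (nat_lit 4) (nat_lit 278) (nat_lit 257) (nat_lit 125)))))) (XT.nd (nat_lit 32916) (nat_lit 0) (nat_lit 1824) (XT.nd (nat_lit 234) (nat_lit 0) (nat_lit 0) (XT.nd (nat_lit 78) (nat_lit 152) (nat_lit 0) (XT.lf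 (nat_lit 0) (nat_lit 1183952446530) (nat_lit 76) (nat_lit 3668397713372) (nat_lit 76) (nat_lit 587221683700) (nat_lit 10) (nat_lit 4) (nat_lit 11) (nat_lit 5) (nat_lit 11) (nat_lit 4) (nat_lit 279) (nat_lit 257) (nat_lit 124)) (XT.nd (nat_lit 78) (nat_lit 76) (nat_lit 0) (XT.lf (nat_lit 0) (nat_lit 902199041267) (nat_lit 152) (nat_lit 1204602027234) (nat_lit 76) (nat_lit 3990764159645) (nat_lit 9) (nat_lit 5) (nat_lit 11) (nat_lit 5) (nat_lit 10) (nat_lit 4) (nat_lit 280) (nat_lit 257) (nat_lit 123)) (XT.lf (nat_lit 0) (nat_lit 2408299747619) (nat_lit 76) (nat_lit 230871302209) (nat_lit 152) (nat_lit 4209153709527) (nat_lit 8) (nat_lit 5) (nat_lit 9) (nat_lit 5) (nat_lit 10) (nat_lit 4) (nat_lit 281) (nat_lit 257) (nat_lit 122)))) (XT.nd (nat_lit 32526) (nat_lit 0) (nat_lit 2812) (XT.lf (nat_lit 0) (nat_lit 4719001593897) (nat_lit 152) (nat_lit 1120050790197) (nat_lit 0) (nat_lit 1866060817419)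 (nat_lit 8) (nat_lit 5) (nat_lit 10) (nat_lit 4) (nat_lit 8) (nat_lit 4) (nat_lit 282) (nat_lit 257) (nat_lit 121)) (XT.nd (nat_lit 78) (nat_lit 0) (nat_lit 76) (XT.lf (nat_lit 0) (nat_lit 266405501595) (nat_lit 532) (nat_lit 73571708499) (nat_lit 532) (nat_lit 73571708499) (nat_lit 45) (nat_lit 3) (nat_lit 52) (nat_lit 3) (nat_lit 52) (nat_lit 5) (nat_lit 258) (nat_lit 258) (nat_lit 144)) (XT.lf (nat_lit 0) (nat_lit 587238624857) (nat_lit 456) (nat_lit 293866795611) (nat_lit 532) (nat_lit 6867410343) (nat_lit 46) (nat_lit 5) (nat_lit 52) (nat_lit 5) (nat_lit 53) (nat_lit 5) (nat_lit 259) (nat_lit 258) (nat_lit 143))))) (XT.nd (nat_lit 234) (nat_lit 760) (nat_lit 0) (XT.nd (nat_lit 78) (nat_lit 304) (nat_lit 0) (XT.lf (nat_lit 76) (nat_lit 504117979316) (nat_lit 0) (nat_lit 181037482979) (nat_lit 532) (nat_lit 269997605460) (nat_lit 47) (nat_lit 5) (nat_lit 46) (nat_lit 5) (nat_lit 53)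 (nat_lit 5) (nat_lit 260) (nat_lit 258) (nat_lit 142)) (XT.nd (nat_lit 78) (nat_lit 380) (nat_lit 0) (XT.lf (nat_lit 76) (nat_lit 413315541559) (nat_lit 0) (nat_lit 418170539663) (nat_lit 532) (nat_lit 198226158618) (nat_lit 48) (nat_lit 5) (nat_lit 47) (nat_lit 5) (nat_lit 54) (nat_lit 5) (nat_lit 261) (nat_lit 258) (nat_lit 141)) (XT.lf (nat_lit 0) (nat_lit 321532778535) (nat_lit 456) (nat_lit 713876643803) (nat_lit 532) (nat_lit 77194415113) (nat_lit 42) (nat_lit 5) (nat_lit 48) (nat_lit 5) (nat_lit 49) (nat_lit 5) (nat_lit 262) (nat_lit 258) (nat_lit 140)))) (XT.nd (nat_lit 156) (nat_lit 228) (nat_lit 0) (XT.nd (nat_lit 78) (nat_lit 228) (nat_lit 0) (XT.lf (nat_lit 0) (nat_lit 97609463152) (nat_lit 304) (nat_lit 979293118493) (nat_lit 76) (nat_lit 127809842717) (nat_lit 38) (nat_lit 5) (nat_lit 42) (nat_lit 5) (nat_lit 39) (nat_lit 5) (nat_lit 263) (nat_lit 258) (nat_lit 139)) (XT.lf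 (nat_lit 0) (nat_lit 116861884364) (nat_lit 228) (nat_lit 223515196570) (nat_lit 304) (nat_lit 966394700152) (nat_lit 35) (nat_lit 5) (nat_lit 38) (nat_lit 5) (nat_lit 39) (nat_lit 5) (nat_lit 264) (nat_lit 258) (nat_lit 138))) (XT.nd (nat_lit 78) (nat_lit 228) (nat_lit 0) (XT.lf (nat_lit 0) (nat_lit 667038477470) (nat_lit 304) (nat_lit 4083607331) (nat_lit 76) (nat_lit 749219665668) (nat_lit 35) (nat_lit 5) (nat_lit 39) (nat_lit 5) (nat_lit 36) (nat_lit 5) (nat_lit 265) (nat_lit 258) (nat_lit 137)) (XT.lf (nat_lit 0) (nat_lit 1091359622099) (nat_lit 304) (nat_lit 131221830781) (nat_lit 76) (nat_lit 324472919323) (nat_lit 32) (nat_lit 5) (nat_lit 36) (nat_lit 5) (nat_lit 33) (nat_lit 5) (nat_lit 266) (nat_lit 258) (nat_lit 136))))))) (XT.nd (nat_lit 1014) (nat_lit 228) (nat_lit 0) (XT.nd (nat_lit 468) (nat_lit 608) (nat_lit 0) (XT.nd (nat_lit 234) (nat_lit 456) (nat_lit 0) (XT.nd (nat_lit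 78) (nat_lit 380) (nat_lit 0) (XT.lf (nat_lit 0) (nat_lit 1408092853241) (nat_lit 152) (nat_lit 223784295235) (nat_lit 228) (nat_lit 56692881945) (nat_lit 30) (nat_lit 5) (nat_lit 32) (nat_lit 5) (nat_lit 33) (nat_lit 5) (nat_lit 267) (nat_lit 258) (nat_lit 135)) (XT.nd (nat_lit 78) (nat_lit 152) (nat_lit 0) (XT.lf (nat_lit 0) (nat_lit 442984360681) (nat_lit 228) (nat_lit 475738495768) (nat_lit 76) (nat_lit 926941007383) (nat_lit 27) (nat_lit 5) (nat_lit 30) (nat_lit 5) (nat_lit 28) (nat_lit 5) (nat_lit 268) (nat_lit 258) (nat_lit 134)) (XT.lf (nat_lit 0) (nat_lit 1066765307346) (nat_lit 228) (nat_lit 711543253485) (nat_lit 76) (nat_lit 243694690539) (nat_lit 25) (nat_lit 5) (nat_lit 28) (nat_lit 5) (nat_lit 26) (nat_lit 5) (nat_lit 269) (nat_lit 258) (nat_lit 133)))) (XT.nd (nat_lit 78) (nat_lit 304) (nat_lit 0) (XT.lf (nat_lit 0) (nat_lit 1204180666626) (nat_lit 152) (nat_lit 648513267391)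 (nat_lit 228) (nat_lit 366613169999) (nat_lit 23) (nat_lit 5) (nat_lit 25) (nat_lit 5) (nat_lit 26) (nat_lit 5) (nat_lit 270) (nat_lit 258) (nat_lit 132)) (XT.nd (nat_lit 78) (nat_lit 152) (nat_lit 0) (XT.lf (nat_lit 0) (nat_lit 358349877634) (nat_lit 152) (nat_lit 1408596586056) (nat_lit 76) (nat_lit 673577659940) (nat_lit 21) (nat_lit 5) (nat_lit 23) (nat_lit 5) (nat_lit 22) (nat_lit 5) (nat_lit 271) (nat_lit 258) (nat_lit 131)) (XT.lf (nat_lit 0) (nat_lit 764345335409) (nat_lit 152) (nat_lit 473262397950) (nat_lit 228) (nat_lit 1451173533902) (nat_lit 19) (nat_lit 5) (nat_lit 21) (nat_lit 5) (nat_lit 22) (nat_lit 5) (nat_lit 272) (nat_lit 258) (nat_lit 130))))) (XT.nd (nat_lit 234) (nat_lit 304) (nat_lit 0) (XT.nd (nat_lit 78) (nat_lit 228) (nat_lit 0) (XT.lf (nat_lit 0) (nat_lit 370608690411) (nat_lit 76) (nat_lit 1953531811335) (nat_lit 152) (nat_lit 644105581956) (nat_lit 18) (nat_lit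 5) (nat_lit 19) (nat_lit 5) (nat_lit 20) (nat_lit 4) (nat_lit 273) (nat_lit 258) (nat_lit 129)) (XT.nd (nat_lit 78) (nat_lit 152) (nat_lit 0) (XT.lf (nat_lit 0) (nat_lit 340387016123) (nat_lit 152) (nat_lit 180075690843) (nat_lit 76) (nat_lit 2762975662716) (nat_lit 17) (nat_lit 5) (nat_lit 19) (nat_lit 5) (nat_lit 18) (nat_lit 5) (nat_lit 274) (nat_lit 258) (nat_lit 128)) (XT.lf (nat_lit 0) (nat_lit 1530153211402) (nat_lit 228) (nat_lit 950247588171) (nat_lit 76) (nat_lit 1156511262133) (nat_lit 15) (nat_lit 5) (nat_lit 18) (nat_lit 5) (nat_lit 16) (nat_lit 4) (nat_lit 275) (nat_lit 258) (nat_lit 127)))) (XT.nd (nat_lit 156) (nat_lit 76) (nat_lit 0) (XT.nd (nat_lit 78) (nat_lit 152) (nat_lit 0) (XT.lf (nat_lit 0) (nat_lit 2038790785393) (nat_lit 76) (nat_lit 928400108506) (nat_lit 152) (nat_lit 1070711389007) (nat_lit 14) (nat_lit 5) (nat_lit 15) (nat_lit 5) (nat_lit 16) (nat_lit 4)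 (nat_lit 276) (nat_lit 258) (nat_lit 126)) (XT.lf (nat_lit 0) (nat_lit 191334680539) (nat_lit 152) (nat_lit 3428844493331) (nat_lit 76) (nat_lit 872499029087) (nat_lit 12) (nat_lit 5) (nat_lit 14) (nat_lit 5) (nat_lit 13) (nat_lit 4) (nat_lit 277) (nat_lit 258) (nat_lit 125))) (XT.nd (nat_lit 78) (nat_lit 76) (nat_lit 0) (XT.lf (nat_lit 0) (nat_lit 1666483109430) (nat_lit 152) (nat_lit 360535765459) (nat_lit 76) (nat_lit 2979451300382) (nat_lit 12) (nat_lit 5) (nat_lit 14) (nat_lit 5) (nat_lit 13) (nat_lit 4) (nat_lit 278) (nat_lit 258) (nat_lit 124)) (XT.lf (nat_lit 0) (nat_lit 3334841544477) (nat_lit 76) (nat_lit 108265273417) (nat_lit 152) (nat_lit 2147807884322) (nat_lit 11) (nat_lit 5) (nat_lit 12) (nat_lit 5) (nat_lit 13) (nat_lit 4) (nat_lit 279) (nat_lit 258) (nat_lit 123)))))) (XT.nd (nat_lit 32994) (nat_lit 0) (nat_lit 1672) (XT.nd (nat_lit 32760) (nat_lit 0) (nat_lit 2812)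 (XT.nd (nat_lit 78) (nat_lit 152) (nat_lit 0) (XT.lf (nat_lit 0) (nat_lit 1361545392469) (nat_lit 76) (nat_lit 4218657334296) (nat_lit 76) (nat_lit 675304889911) (nat_lit 10) (nat_lit 4) (nat_lit 11) (nat_lit 5) (nat_lit 11) (nat_lit 4) (nat_lit 280) (nat_lit 258) (nat_lit 122)) (XT.nd (nat_lit 78) (nat_lit 76) (nat_lit 0) (XT.lf (nat_lit 0) (nat_lit 1037528935741) (nat_lit 152) (nat_lit 1385292260613) (nat_lit 76) (nat_lit 4589378812922) (nat_lit 9) (nat_lit 5) (nat_lit 11) (nat_lit 5) (nat_lit 10) (nat_lit 4) (nat_lit 281) (nat_lit 258) (nat_lit 121)) (XT.lf (nat_lit 0) (nat_lit 2769544774483) (nat_lit 76) (nat_lit 265501967667) (nat_lit 152) (nat_lit 4840526728297) (nat_lit 8) (nat_lit 5) (nat_lit 9) (nat_lit 5) (nat_lit 10) (nat_lit 4) (nat_lit 282) (nat_lit 258) (nat_lit 120)))) (XT.nd (nat_lit 78) (nat_lit 0) (nat_lit 76) (XT.lf (nat_lit 0) (nat_lit 306366478003) (nat_lit 532) (nat_lit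 84607382926) (nat_lit 532) (nat_lit 84607382926) (nat_lit 45) (nat_lit 3) (nat_lit 52) (nat_lit 3) (nat_lit 52) (nat_lit 5) (nat_lit 259) (nat_lit 259) (nat_lit 142)) (XT.nd (nat_lit 78) (nat_lit 0) (nat_lit 0) (XT.lf (nat_lit 0) (nat_lit 675324682286) (nat_lit 456) (nat_lit 337946640229) (nat_lit 532) (nat_lit 7897411066) (nat_lit 46) (nat_lit 5) (nat_lit 52) (nat_lit 5) (nat_lit 53) (nat_lit 5) (nat_lit 260) (nat_lit 259) (nat_lit 141)) (XT.lf (nat_lit 76) (nat_lit 579735836147) (nat_lit 0) (nat_lit 208193178642) (nat_lit 532) (nat_lit 310496993819) (nat_lit 47) (nat_lit 5) (nat_lit 46) (nat_lit 5) (nat_lit 53) (nat_lit 5) (nat_lit 261) (nat_lit 259) (nat_lit 140))))) (XT.nd (nat_lit 234) (nat_lit 608) (nat_lit 0) (XT.nd (nat_lit 78) (nat_lit 684) (nat_lit 0) (XT.lf (nat_lit 76) (nat_lit 475313038477) (nat_lit 0) (nat_lit 480896160122) (nat_lit 532) (nat_lit 227959860230) (nat_lit 48)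 (nat_lit 5) (nat_lit 47) (nat_lit 5) (nat_lit 54) (nat_lit 5) (nat_lit 262) (nat_lit 259) (nat_lit 139)) (XT.nd (nat_lit 78) (nat_lit 304) (nat_lit 0) (XT.lf (nat_lit 0) (nat_lit 369762863394) (nat_lit 456) (nat_lit 820958153940) (nat_lit 532) (nat_lit 88773380707) (nat_lit 42) (nat_lit 5) (nat_lit 48) (nat_lit 5) (nat_lit 49) (nat_lit 5) (nat_lit 263) (nat_lit 259) (nat_lit 138)) (XT.lf (nat_lit 0) (nat_lit 112251048942) (nat_lit 304) (nat_lit 1126186909202) (nat_lit 76) (nat_lit 146981316166) (nat_lit 38) (nat_lit 5) (nat_lit 42) (nat_lit 5) (nat_lit 39) (nat_lit 5) (nat_lit 264) (nat_lit 259) (nat_lit 137)))) (XT.nd (nat_lit 156) (nat_lit 380) (nat_lit 0) (XT.nd (nat_lit 78) (nat_lit 0) (nat_lit 0) (XT.lf (nat_lit 0) (nat_lit 134391329097) (nat_lit 228) (nat_lit 257042462500) (nat_lit 304) (nat_lit 1111353744423) (nat_lit 35) (nat_lit 5) (nat_lit 38) (nat_lit 5) (nat_lit 39) (nat_lit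 5) (nat_lit 265) (nat_lit 259) (nat_lit 136)) (XT.lf (nat_lit 0) (nat_lit 767094378523) (nat_lit 304) (nat_lit 4695997142) (nat_lit 76) (nat_lit 861602626717) (nat_lit 35) (nat_lit 5) (nat_lit 39) (nat_lit 5) (nat_lit 36) (nat_lit 5) (nat_lit 266) (nat_lit 259) (nat_lit 135))) (XT.nd (nat_lit 78) (nat_lit 152) (nat_lit 0) (XT.lf (nat_lit 0) (nat_lit 1255063681839) (nat_lit 304) (nat_lit 150904957926) (nat_lit 76) (nat_lit 373143878693) (nat_lit 32) (nat_lit 5) (nat_lit 36) (nat_lit 5) (nat_lit 33) (nat_lit 5) (nat_lit 267) (nat_lit 259) (nat_lit 134)) (XT.lf (nat_lit 0) (nat_lit 1619306916217) (nat_lit 152) (nat_lit 257351909016) (nat_lit 228) (nat_lit 65196701164) (nat_lit 30) (nat_lit 5) (nat_lit 32) (nat_lit 5) (nat_lit 33) (nat_lit 5) (nat_lit 268) (nat_lit 259) (nat_lit 133))))))))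
noncomputable def xc60 : XT := (XT.nd (nat_lit 34632) (nat_lit 0) (nat_lit 76) (XT.nd (nat_lit 936) (nat_lit 76) (nat_lit 0) (XT.nd (nat_lit 468) (nat_lit 532) (nat_lit 0) (XT.nd (nat_lit 234) (nat_lit 380) (nat_lit 0) (XT.nd (nat_lit 78) (nat_lit 304) (nat_lit 0) (XT.lf (nat_lit 0) (nat_lit 509432112070) (nat_lit 228) (nat_lit 547099134072) (nat_lit 76) (nat_lit 1065982189297) (nat_lit 27) (nat_lit 5) (nat_lit 30) (nat_lit 5) (nat_lit 28) (nat_lit 5) (nat_lit 269) (nat_lit 259) (nat_lit 132)) (XT.nd (nat_lit 78) (nat_lit 152) (nat_lit 0) (XT.lf (nat_lit 0) (nat_lit 1226780191929) (nat_lit 228) (nat_lit 818274610685) (nat_lit 76) (nat_lit 280248929223) (nat_lit 25) (nat_lit 5) (nat_lit 28) (nat_lit 5) (nat_lit 26) (nat_lit 5) (nat_lit 270) (nat_lit 259) (nat_lit 131)) (XT.lf (nat_lit 0) (nat_lit 1384807886369) (nat_lit 152) (nat_lit 745790217571) (nat_lit 228) (nat_lit 421605059154) (nat_lit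 23) (nat_lit 5) (nat_lit 25) (nat_lit 5) (nat_lit 26) (nat_lit 5) (nat_lit 271) (nat_lit 259) (nat_lit 130)))) (XT.nd (nat_lit 78) (nat_lit 228) (nat_lit 0) (XT.lf (nat_lit 0) (nat_lit 412102434293) (nat_lit 152) (nat_lit 1619885955195) (nat_lit 76) (nat_lit 774614346573) (nat_lit 21) (nat_lit 5) (nat_lit 23) (nat_lit 5) (nat_lit 22) (nat_lit 5) (nat_lit 272) (nat_lit 259) (nat_lit 129)) (XT.nd (nat_lit 78) (nat_lit 76) (nat_lit 0) (XT.lf (nat_lit 0) (nat_lit 878997244436) (nat_lit 152) (nat_lit 544251716771) (nat_lit 228) (nat_lit 1668849490618) (nat_lit 19) (nat_lit 5) (nat_lit 21) (nat_lit 5) (nat_lit 22) (nat_lit 5) (nat_lit 273) (nat_lit 259) (nat_lit 128)) (XT.lf (nat_lit 0) (nat_lit 426200097644) (nat_lit 76) (nat_lit 2246561541706) (nat_lit 152) (nat_lit 740721351835) (nat_lit 18) (nat_lit 5) (nat_lit 19) (nat_lit 5) (nat_lit 20) (nat_lit 4) (nat_lit 274) (nat_lit 259) (nat_lit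 127))))) (XT.nd (nat_lit 234) (nat_lit 228) (nat_lit 0) (XT.nd (nat_lit 78) (nat_lit 228) (nat_lit 0) (XT.lf (nat_lit 0) (nat_lit 391445124231) (nat_lit 152) (nat_lit 207086951320) (nat_lit 76) (nat_lit 3177422045061) (nat_lit 17) (nat_lit 5) (nat_lit 19) (nat_lit 5) (nat_lit 18) (nat_lit 5) (nat_lit 275) (nat_lit 259) (nat_lit 126)) (XT.nd (nat_lit 78) (nat_lit 76) (nat_lit 0) (XT.lf (nat_lit 0) (nat_lit 1759676244426) (nat_lit 228) (nat_lit 1092784637871) (nat_lit 76) (nat_lit 1329987984501) (nat_lit 15) (nat_lit 5) (nat_lit 18) (nat_lit 5) (nat_lit 16) (nat_lit 4) (nat_lit 276) (nat_lit 259) (nat_lit 125)) (XT.lf (nat_lit 0) (nat_lit 2344609484234) (nat_lit 76) (nat_lit 1067660090318) (nat_lit 152) (nat_lit 1231318047012) (nat_lit 14) (nat_lit 5) (nat_lit 15) (nat_lit 5) (nat_lit 16) (nat_lit 4) (nat_lit 277) (nat_lit 259) (nat_lit 124)))) (XT.nd (nat_lit 78) (nat_lit 76) (nat_lit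 0) (XT.lf (nat_lit 0) (nat_lit 220034926845) (nat_lit 152) (nat_lit 3943171088088) (nat_lit 76) (nat_lit 1003373914888) (nat_lit 12) (nat_lit 5) (nat_lit 14) (nat_lit 5) (nat_lit 13) (nat_lit 4) (nat_lit 278) (nat_lit 259) (nat_lit 123)) (XT.nd (nat_lit 78) (nat_lit 76) (nat_lit 0) (XT.lf (nat_lit 0) (nat_lit 1916455614301) (nat_lit 152) (nat_lit 414616061371) (nat_lit 76) (nat_lit 3426369022777) (nat_lit 12) (nat_lit 5) (nat_lit 14) (nat_lit 5) (nat_lit 13) (nat_lit 4) (nat_lit 279) (nat_lit 259) (nat_lit 122)) (XT.lf (nat_lit 0) (nat_lit 3835067839223) (nat_lit 76) (nat_lit 124505036313) (nat_lit 152) (nat_lit 2469979029185) (nat_lit 11) (nat_lit 5) (nat_lit 12) (nat_lit 5) (nat_lit 13) (nat_lit 4) (nat_lit 280) (nat_lit 259) (nat_lit 121)))))) (XT.nd (nat_lit 33150) (nat_lit 0) (nat_lit 1140) (XT.nd (nat_lit 32916) (nat_lit 0) (nat_lit 2432) (XT.nd (nat_lit 32760) (nat_lit 0) (nat_lit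 2660) (XT.lf (nat_lit 0) (nat_lit 1565777261044) (nat_lit 76) (nat_lit 4851455907158) (nat_lit 76) (nat_lit 776600588355) (nat_lit 10) (nat_lit 4) (nat_lit 11) (nat_lit 5) (nat_lit 11) (nat_lit 4) (nat_lit 281) (nat_lit 259) (nat_lit 120)) (XT.nd (nat_lit 78) (nat_lit 0) (nat_lit 76) (XT.lf (nat_lit 0) (nat_lit 352321564008) (nat_lit 532) (nat_lit 97298428476) (nat_lit 532) (nat_lit 97298428476) (nat_lit 45) (nat_lit 3) (nat_lit 52) (nat_lit 3) (nat_lit 52) (nat_lit 5) (nat_lit 260) (nat_lit 260) (nat_lit 140)) (XT.lf (nat_lit 0) (nat_lit 776623584023) (nat_lit 456) (nat_lit 388638504147) (nat_lit 532) (nat_lit 9081938923) (nat_lit 46) (nat_lit 5) (nat_lit 52) (nat_lit 5) (nat_lit 53) (nat_lit 5) (nat_lit 261) (nat_lit 260) (nat_lit 139)))) (XT.nd (nat_lit 78) (nat_lit 304) (nat_lit 0) (XT.lf (nat_lit 76) (nat_lit 666696332502) (nat_lit 0) (nat_lit 239422210800) (nat_lit 532) (nat_lit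 357071351995) (nat_lit 47) (nat_lit 5) (nat_lit 46) (nat_lit 5) (nat_lit 53) (nat_lit 5) (nat_lit 262) (nat_lit 260) (nat_lit 138)) (XT.nd (nat_lit 78) (nat_lit 380) (nat_lit 0) (XT.lf (nat_lit 76) (nat_lit 546610119529) (nat_lit 0) (nat_lit 553030614015) (nat_lit 532) (nat_lit 262153671264) (nat_lit 48) (nat_lit 5) (nat_lit 47) (nat_lit 5) (nat_lit 54) (nat_lit 5) (nat_lit 263) (nat_lit 260) (nat_lit 137)) (XT.lf (nat_lit 0) (nat_lit 425227419995) (nat_lit 456) (nat_lit 944101887289) (nat_lit 532) (nat_lit 102089239099) (nat_lit 42) (nat_lit 5) (nat_lit 48) (nat_lit 5) (nat_lit 49) (nat_lit 5) (nat_lit 264) (nat_lit 260) (nat_lit 136))))) (XT.nd (nat_lit 234) (nat_lit 760) (nat_lit 0) (XT.nd (nat_lit 78) (nat_lit 228) (nat_lit 0) (XT.lf (nat_lit 0) (nat_lit 129088832043) (nat_lit 304) (nat_lit 1295114811695) (nat_lit 76) (nat_lit 169028511355) (nat_lit 38) (nat_lit 5) (nat_lit 42) (nat_lit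 5) (nat_lit 39) (nat_lit 5) (nat_lit 265) (nat_lit 260) (nat_lit 135)) (XT.nd (nat_lit 78) (nat_lit 0) (nat_lit 0) (XT.lf (nat_lit 0) (nat_lit 154550151015) (nat_lit 228) (nat_lit 295598821624) (nat_lit 304) (nat_lit 1278056684535) (nat_lit 35) (nat_lit 5) (nat_lit 38) (nat_lit 5) (nat_lit 39) (nat_lit 5) (nat_lit 266) (nat_lit 260) (nat_lit 134)) (XT.lf (nat_lit 0) (nat_lit 882158633172) (nat_lit 304) (nat_lit 5400282318) (nat_lit 76) (nat_lit 990843029192) (nat_lit 35) (nat_lit 5) (nat_lit 39) (nat_lit 5) (nat_lit 36) (nat_lit 5) (nat_lit 267) (nat_lit 260) (nat_lit 133)))) (XT.nd (nat_lit 156) (nat_lit 380) (nat_lit 0) (XT.nd (nat_lit 78) (nat_lit 152) (nat_lit 0) (XT.lf (nat_lit 0) (nat_lit 1443323322148) (nat_lit 304) (nat_lit 173540590104) (nat_lit 76) (nat_lit 429115476732) (nat_lit 32) (nat_lit 5) (nat_lit 36) (nat_lit 5) (nat_lit 33) (nat_lit 5) (nat_lit 268) (nat_lit 260) (nat_lit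 132)) (XT.lf (nat_lit 0) (nat_lit 1862203055722) (nat_lit 152) (nat_lit 295954672302) (nat_lit 228) (nat_lit 74976120839) (nat_lit 30) (nat_lit 5) (nat_lit 32) (nat_lit 5) (nat_lit 33) (nat_lit 5) (nat_lit 269) (nat_lit 260) (nat_lit 131))) (XT.nd (nat_lit 78) (nat_lit 152) (nat_lit 0) (XT.lf (nat_lit 0) (nat_lit 585847002443) (nat_lit 228) (nat_lit 629163901302) (nat_lit 76) (nat_lit 1225879540986) (nat_lit 27) (nat_lit 5) (nat_lit 30) (nat_lit 5) (nat_lit 28) (nat_lit 5) (nat_lit 270) (nat_lit 260) (nat_lit 130)) (XT.lf (nat_lit 0) (nat_lit 1410797287622) (nat_lit 228) (nat_lit 941015703368) (nat_lit 76) (nat_lit 322286295149) (nat_lit 25) (nat_lit 5) (nat_lit 28) (nat_lit 5) (nat_lit 26) (nat_lit 5) (nat_lit 271) (nat_lit 260) (nat_lit 129))))))) (XT.nd (nat_lit 33696) (nat_lit 0) (nat_lit 608) (XT.nd (nat_lit 468) (nat_lit 304) (nat_lit 0) (XT.nd (nat_lit 234) (nat_lit 304) (nat_lit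 0) (XT.nd (nat_lit 78) (nat_lit 304) (nat_lit 0) (XT.lf (nat_lit 0) (nat_lit 1592529159872) (nat_lit 152) (nat_lit 857658720014) (nat_lit 228) (nat_lit 484845752738) (nat_lit 23) (nat_lit 5) (nat_lit 25) (nat_lit 5) (nat_lit 26) (nat_lit 5) (nat_lit 272) (nat_lit 260) (nat_lit 128)) (XT.nd (nat_lit 78) (nat_lit 152) (nat_lit 0) (XT.lf (nat_lit 0) (nat_lit 473917856158) (nat_lit 152) (nat_lit 1862868758668) (nat_lit 76) (nat_lit 890806527022) (nat_lit 21) (nat_lit 5) (nat_lit 23) (nat_lit 5) (nat_lit 22) (nat_lit 5) (nat_lit 273) (nat_lit 260) (nat_lit 127)) (XT.lf (nat_lit 0) (nat_lit 1010846913307) (nat_lit 152) (nat_lit 625889443381) (nat_lit 228) (nat_lit 1919176858733) (nat_lit 19) (nat_lit 5) (nat_lit 21) (nat_lit 5) (nat_lit 22) (nat_lit 5) (nat_lit 274) (nat_lit 260) (nat_lit 126)))) (XT.nd (nat_lit 78) (nat_lit 228) (nat_lit 0) (XT.lf (nat_lit 0) (nat_lit 490130190681) (nat_lit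 76) (nat_lit 2583545741712) (nat_lit 152) (nat_lit 851829503635) (nat_lit 18) (nat_lit 5) (nat_lit 19) (nat_lit 5) (nat_lit 20) (nat_lit 4) (nat_lit 275) (nat_lit 260) (nat_lit 125)) (XT.nd (nat_lit 78) (nat_lit 152) (nat_lit 0) (XT.lf (nat_lit 0) (nat_lit 450161934975) (nat_lit 152) (nat_lit 238149923584) (nat_lit 76) (nat_lit 3654035376725) (nat_lit 17) (nat_lit 5) (nat_lit 19) (nat_lit 5) (nat_lit 18) (nat_lit 5) (nat_lit 276) (nat_lit 260) (nat_lit 124)) (XT.lf (nat_lit 0) (nat_lit 2023627719889) (nat_lit 228) (nat_lit 1256702266613) (nat_lit 76) (nat_lit 1529486207166) (nat_lit 15) (nat_lit 5) (nat_lit 18) (nat_lit 5) (nat_lit 16) (nat_lit 4) (nat_lit 277) (nat_lit 260) (nat_lit 123))))) (XT.nd (nat_lit 234) (nat_lit 76) (nat_lit 0) (XT.nd (nat_lit 78) (nat_lit 152) (nat_lit 0) (XT.lf (nat_lit 0) (nat_lit 2696300968142) (nat_lit 76) (nat_lit 1227809077806) (nat_lit 152) (nat_lit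 1416015715995) (nat_lit 14) (nat_lit 5) (nat_lit 15) (nat_lit 5) (nat_lit 16) (nat_lit 4) (nat_lit 278) (nat_lit 260) (nat_lit 122)) (XT.nd (nat_lit 78) (nat_lit 0) (nat_lit 0) (XT.lf (nat_lit 0) (nat_lit 253040199312) (nat_lit 152) (nat_lit 4534646691382) (nat_lit 76) (nat_lit 1153880025893) (nat_lit 12) (nat_lit 5) (nat_lit 14) (nat_lit 5) (nat_lit 13) (nat_lit 4) (nat_lit 279) (nat_lit 260) (nat_lit 121)) (XT.lf (nat_lit 0) (nat_lit 2203923985525) (nat_lit 152) (nat_lit 476808418473) (nat_lit 76) (nat_lit 3940324396865) (nat_lit 12) (nat_lit 5) (nat_lit 14) (nat_lit 5) (nat_lit 13) (nat_lit 4) (nat_lit 280) (nat_lit 260) (nat_lit 120)))) (XT.nd (nat_lit 32838) (nat_lit 0) (nat_lit 2584) (XT.lf (nat_lit 0) (nat_lit 4410328062799) (nat_lit 76) (nat_lit 143180770500) (nat_lit 152) (nat_lit 2840475854992) (nat_lit 11) (nat_lit 5) (nat_lit 12) (nat_lit 5) (nat_lit 13) (nat_lit 4) (nat_lit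 281) (nat_lit 260) (nat_lit 119)) (XT.nd (nat_lit 78) (nat_lit 0) (nat_lit 76) (XT.lf (nat_lit 0) (nat_lit 405169885040) (nat_lit 532) (nat_lit 111893145950) (nat_lit 532) (nat_lit 111893145950) (nat_lit 45) (nat_lit 3) (nat_lit 52) (nat_lit 3) (nat_lit 52) (nat_lit 5) (nat_lit 261) (nat_lit 261) (nat_lit 138)) (XT.lf (nat_lit 0) (nat_lit 893117272398) (nat_lit 456) (nat_lit 446934179871) (nat_lit 532) (nat_lit 10444166395) (nat_lit 46) (nat_lit 5) (nat_lit 52) (nat_lit 5) (nat_lit 53) (nat_lit 5) (nat_lit 262) (nat_lit 261) (nat_lit 137)))))) (XT.nd (nat_lit 468) (nat_lit 1216) (nat_lit 0) (XT.nd (nat_lit 234) (nat_lit 532) (nat_lit 0) (XT.nd (nat_lit 78) (nat_lit 304) (nat_lit 0) (XT.lf (nat_lit 76) (nat_lit 766700873821) (nat_lit 0) (nat_lit 275335584282) (nat_lit 532) (nat_lit 410631910450) (nat_lit 47) (nat_lit 5) (nat_lit 46) (nat_lit 5) (nat_lit 53) (nat_lit 5) (nat_lit 263) (nat_lit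 261) (nat_lit 136)) (XT.nd (nat_lit 78) (nat_lit 380) (nat_lit 0) (XT.lf (nat_lit 76) (nat_lit 628601732188) (nat_lit 0) (nat_lit 635985228707) (nat_lit 532) (nat_lit 301476594922) (nat_lit 48) (nat_lit 5) (nat_lit 47) (nat_lit 5) (nat_lit 54) (nat_lit 5) (nat_lit 264) (nat_lit 261) (nat_lit 135)) (XT.lf (nat_lit 0) (nat_lit 489011629093) (nat_lit 456) (nat_lit 1085717178139) (nat_lit 532) (nat_lit 117402512515) (nat_lit 42) (nat_lit 5) (nat_lit 48) (nat_lit 5) (nat_lit 49) (nat_lit 5) (nat_lit 265) (nat_lit 261) (nat_lit 134)))) (XT.nd (nat_lit 78) (nat_lit 228) (nat_lit 0) (XT.lf (nat_lit 0) (nat_lit 148452251942) (nat_lit 304) (nat_lit 1489381932212) (nat_lit 76) (nat_lit 194382786367) (nat_lit 38) (nat_lit 5) (nat_lit 42) (nat_lit 5) (nat_lit 39) (nat_lit 5) (nat_lit 266) (nat_lit 261) (nat_lit 133)) (XT.nd (nat_lit 78) (nat_lit 0) (nat_lit 0) (XT.lf (nat_lit 0) (nat_lit 177732766336)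 (nat_lit 228) (nat_lit 339938637117) (nat_lit 304) (nat_lit 1469765095305) (nat_lit 35) (nat_lit 5) (nat_lit 38) (nat_lit 5) (nat_lit 39) (nat_lit 5) (nat_lit 267) (nat_lit 261) (nat_lit 132)) (XT.lf (nat_lit 0) (nat_lit 1014482502151) (nat_lit 304) (nat_lit 6210238166) (nat_lit 76) (nat_lit 1139469489973) (nat_lit 35) (nat_lit 5) (nat_lit 39) (nat_lit 5) (nat_lit 36) (nat_lit 5) (nat_lit 268) (nat_lit 261) (nat_lit 131))))) (XT.nd (nat_lit 234) (nat_lit 608) (nat_lit 0) (XT.nd (nat_lit 78) (nat_lit 380) (nat_lit 0) (XT.lf (nat_lit 0) (nat_lit 1659821887036) (nat_lit 304) (nat_lit 199571594301) (nat_lit 76) (nat_lit 493482810518) (nat_lit 32) (nat_lit 5) (nat_lit 36) (nat_lit 5) (nat_lit 33) (nat_lit 5) (nat_lit 269) (nat_lit 261) (nat_lit 130)) (XT.nd (nat_lit 78) (nat_lit 228) (nat_lit 0) (XT.lf (nat_lit 0) (nat_lit 2141533591261) (nat_lit 152) (nat_lit 340347855706) (nat_lit 228) (nat_lit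 86222474315) (nat_lit 30) (nat_lit 5) (nat_lit 32) (nat_lit 5) (nat_lit 33) (nat_lit 5) (nat_lit 270) (nat_lit 261) (nat_lit 129)) (XT.lf (nat_lit 0) (nat_lit 673724108434) (nat_lit 228) (nat_lit 723538408704) (nat_lit 76) (nat_lit 1409761489747) (nat_lit 27) (nat_lit 5) (nat_lit 30) (nat_lit 5) (nat_lit 28) (nat_lit 5) (nat_lit 271) (nat_lit 261) (nat_lit 128)))) (XT.nd (nat_lit 156) (nat_lit 304) (nat_lit 0) (XT.nd (nat_lit 78) (nat_lit 152) (nat_lit 0) (XT.lf (nat_lit 0) (nat_lit 1622416931355) (nat_lit 228) (nat_lit 1082167984074) (nat_lit 76) (nat_lit 370629259492) (nat_lit 25) (nat_lit 5) (nat_lit 28) (nat_lit 5) (nat_lit 26) (nat_lit 5) (nat_lit 272) (nat_lit 261) (nat_lit 127)) (XT.lf (nat_lit 0) (nat_lit 1831408602319) (nat_lit 152) (nat_lit 986307505187) (nat_lit 228) (nat_lit 557572566280) (nat_lit 23) (nat_lit 5) (nat_lit 25) (nat_lit 5) (nat_lit 26) (nat_lit 5) (nat_lit 273)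 (nat_lit 261) (nat_lit 126))) (XT.nd (nat_lit 78) (nat_lit 152) (nat_lit 0) (XT.lf (nat_lit 0) (nat_lit 545005577471) (nat_lit 152) (nat_lit 2142299004562) (nat_lit 76) (nat_lit 1024427527598) (nat_lit 21) (nat_lit 5) (nat_lit 23) (nat_lit 5) (nat_lit 22) (nat_lit 5) (nat_lit 274) (nat_lit 261) (nat_lit 125)) (XT.lf (nat_lit 0) (nat_lit 1162474012461) (nat_lit 152) (nat_lit 719772836520) (nat_lit 228) (nat_lit 2207053345594) (nat_lit 19) (nat_lit 5) (nat_lit 21) (nat_lit 5) (nat_lit 22) (nat_lit 5) (nat_lit 275) (nat_lit 261) (nat_lit 124))))))))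
noncomputable def xc61 : XT := (XT.nd (nat_lit 67782) (nat_lit 0) (nat_lit 228) (XT.nd (nat_lit 33774) (nat_lit 0) (nat_lit 152) (XT.nd (nat_lit 33306) (nat_lit 0) (nat_lit 1976) (XT.nd (nat_lit 234) (nat_lit 228) (nat_lit 0) (XT.nd (nat_lit 78) (nat_lit 228) (nat_lit 0) (XT.lf (nat_lit 0) (nat_lit 563649778558) (nat_lit 76) (nat_lit 2971077579339) (nat_lit 152) (nat_lit 979603890635) (nat_lit 18) (nat_lit 5) (nat_lit 19) (nat_lit 5) (nat_lit 20) (nat_lit 4) (nat_lit 276) (nat_lit 261) (nat_lit 123)) (XT.nd (nat_lit 78) (nat_lit 152) (nat_lit 0) (XT.lf (nat_lit 0) (nat_lit 517686257062) (nat_lit 152) (nat_lit 273872358862) (nat_lit 76) (nat_lit 4202140702065) (nat_lit 17) (nat_lit 5) (nat_lit 19) (nat_lit 5) (nat_lit 18) (nat_lit 5) (nat_lit 277) (nat_lit 261) (nat_lit 122)) (XT.lf (nat_lit 0) (nat_lit 2327171907211) (nat_lit 228) (nat_lit 1445207555991) (nat_lit 76) (nat_lit 1758909157137)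 (nat_lit 15) (nat_lit 5) (nat_lit 18) (nat_lit 5) (nat_lit 16) (nat_lit 4) (nat_lit 278) (nat_lit 261) (nat_lit 121)))) (XT.nd (nat_lit 78) (nat_lit 152) (nat_lit 0) (XT.lf (nat_lit 0) (nat_lit 3100746159694) (nat_lit 76) (nat_lit 1411980419772) (nat_lit 152) (nat_lit 1628418044609) (nat_lit 14) (nat_lit 5) (nat_lit 15) (nat_lit 5) (nat_lit 16) (nat_lit 4) (nat_lit 279) (nat_lit 261) (nat_lit 120)) (XT.nd (nat_lit 78) (nat_lit 0) (nat_lit 0) (XT.lf (nat_lit 0) (nat_lit 290996254495) (nat_lit 152) (nat_lit 5214843649782) (nat_lit 76) (nat_lit 1326962047752) (nat_lit 12) (nat_lit 5) (nat_lit 14) (nat_lit 5) (nat_lit 13) (nat_lit 4) (nat_lit 280) (nat_lit 261) (nat_lit 119)) (XT.lf (nat_lit 0) (nat_lit 2534512605341) (nat_lit 152) (nat_lit 548329641846) (nat_lit 76) (nat_lit 4531373072025) (nat_lit 12) (nat_lit 5) (nat_lit 14) (nat_lit 5) (nat_lit 13) (nat_lit 4) (nat_lit 281) (nat_lit 261)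 (nat_lit 118))))) (XT.nd (nat_lit 234) (nat_lit 532) (nat_lit 0) (XT.nd (nat_lit 78) (nat_lit 0) (nat_lit 76) (XT.lf (nat_lit 0) (nat_lit 465945433151) (nat_lit 532) (nat_lit 128677082457) (nat_lit 532) (nat_lit 128677082457) (nat_lit 45) (nat_lit 3) (nat_lit 52) (nat_lit 3) (nat_lit 52) (nat_lit 5) (nat_lit 262) (nat_lit 262) (nat_lit 136)) (XT.nd (nat_lit 78) (nat_lit 0) (nat_lit 0) (XT.lf (nat_lit 0) (nat_lit 1027084977262) (nat_lit 456) (nat_lit 513974231313) (nat_lit 532) (nat_lit 12010743440) (nat_lit 46) (nat_lit 5) (nat_lit 52) (nat_lit 5) (nat_lit 53) (nat_lit 5) (nat_lit 263) (nat_lit 262) (nat_lit 135)) (XT.lf (nat_lit 76) (nat_lit 881706074038) (nat_lit 0) (nat_lit 316635953578) (nat_lit 532) (nat_lit 472226587872) (nat_lit 47) (nat_lit 5) (nat_lit 46) (nat_lit 5) (nat_lit 53) (nat_lit 5) (nat_lit 264) (nat_lit 262) (nat_lit 134)))) (XT.nd (nat_lit 78) (nat_lit 684) (nat_lit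 0) (XT.lf (nat_lit 76) (nat_lit 722892063646) (nat_lit 0) (nat_lit 731383030094) (nat_lit 532) (nat_lit 346697988105) (nat_lit 48) (nat_lit 5) (nat_lit 47) (nat_lit 5) (nat_lit 54) (nat_lit 5) (nat_lit 265) (nat_lit 262) (nat_lit 133)) (XT.nd (nat_lit 78) (nat_lit 304) (nat_lit 0) (XT.lf (nat_lit 0) (nat_lit 562363446122) (nat_lit 456) (nat_lit 1248574760724) (nat_lit 532) (nat_lit 135012804365) (nat_lit 42) (nat_lit 5) (nat_lit 48) (nat_lit 5) (nat_lit 49) (nat_lit 5) (nat_lit 266) (nat_lit 262) (nat_lit 132)) (XT.lf (nat_lit 0) (nat_lit 170720161637) (nat_lit 304) (nat_lit 1712789145494) (nat_lit 76) (nat_lit 223540203044) (nat_lit 38) (nat_lit 5) (nat_lit 42) (nat_lit 5) (nat_lit 39) (nat_lit 5) (nat_lit 267) (nat_lit 262) (nat_lit 131)))))) (XT.nd (nat_lit 468) (nat_lit 836) (nat_lit 0) (XT.nd (nat_lit 234) (nat_lit 532) (nat_lit 0) (XT.nd (nat_lit 78) (nat_lit 228) (nat_lit 0) (XT.lf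 (nat_lit 0) (nat_lit 204392751357) (nat_lit 228) (nat_lit 390929426824) (nat_lit 304) (nat_lit 1690229790104) (nat_lit 35) (nat_lit 5) (nat_lit 38) (nat_lit 5) (nat_lit 39) (nat_lit 5) (nat_lit 268) (nat_lit 262) (nat_lit 130)) (XT.nd (nat_lit 78) (nat_lit 228) (nat_lit 0) (XT.lf (nat_lit 0) (nat_lit 1166654933432) (nat_lit 304) (nat_lit 7141708485) (nat_lit 76) (nat_lit 1310389918311) (nat_lit 35) (nat_lit 5) (nat_lit 39) (nat_lit 5) (nat_lit 36) (nat_lit 5) (nat_lit 269) (nat_lit 262) (nat_lit 129)) (XT.lf (nat_lit 0) (nat_lit 1908795220425) (nat_lit 304) (nat_lit 229507269690) (nat_lit 76) (nat_lit 567505241378) (nat_lit 32) (nat_lit 5) (nat_lit 36) (nat_lit 5) (nat_lit 33) (nat_lit 5) (nat_lit 270) (nat_lit 262) (nat_lit 128)))) (XT.nd (nat_lit 78) (nat_lit 380) (nat_lit 0) (XT.lf (nat_lit 0) (nat_lit 2462763688310) (nat_lit 152) (nat_lit 391400020874) (nat_lit 228) (nat_lit 99155796578)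 (nat_lit 30) (nat_lit 5) (nat_lit 32) (nat_lit 5) (nat_lit 33) (nat_lit 5) (nat_lit 271) (nat_lit 262) (nat_lit 127)) (XT.nd (nat_lit 78) (nat_lit 152) (nat_lit 0) (XT.lf (nat_lit 0) (nat_lit 774782766759) (nat_lit 228) (nat_lit 832069111187) (nat_lit 76) (nat_lit 1621225726528) (nat_lit 27) (nat_lit 5) (nat_lit 30) (nat_lit 5) (nat_lit 28) (nat_lit 5) (nat_lit 272) (nat_lit 262) (nat_lit 126)) (XT.lf (nat_lit 0) (nat_lit 1865779509311) (nat_lit 228) (nat_lit 1244493125127) (nat_lit 76) (nat_lit 426223663592) (nat_lit 25) (nat_lit 5) (nat_lit 28) (nat_lit 5) (nat_lit 26) (nat_lit 5) (nat_lit 273) (nat_lit 262) (nat_lit 125))))) (XT.nd (nat_lit 234) (nat_lit 380) (nat_lit 0) (XT.nd (nat_lit 78) (nat_lit 304) (nat_lit 0) (XT.lf (nat_lit 0) (nat_lit 2106119944438) (nat_lit 152) (nat_lit 1134253613702) (nat_lit 228) (nat_lit 641208413893) (nat_lit 23) (nat_lit 5) (nat_lit 25) (nat_lit 5)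 (nat_lit 26) (nat_lit 5) (nat_lit 274) (nat_lit 262) (nat_lit 124)) (XT.nd (nat_lit 78) (nat_lit 152) (nat_lit 0) (XT.lf (nat_lit 0) (nat_lit 626756446522) (nat_lit 152) (nat_lit 2463643803899) (nat_lit 76) (nat_lit 1178091673011) (nat_lit 21) (nat_lit 5) (nat_lit 23) (nat_lit 5) (nat_lit 22) (nat_lit 5) (nat_lit 275) (nat_lit 262) (nat_lit 123)) (XT.lf (nat_lit 0) (nat_lit 1336845161331) (nat_lit 152) (nat_lit 827738744328) (nat_lit 228) (nat_lit 2538111315714) (nat_lit 19) (nat_lit 5) (nat_lit 21) (nat_lit 5) (nat_lit 22) (nat_lit 5) (nat_lit 276) (nat_lit 262) (nat_lit 122)))) (XT.nd (nat_lit 156) (nat_lit 228) (nat_lit 0) (XT.nd (nat_lit 78) (nat_lit 76) (nat_lit 0) (XT.lf (nat_lit 0) (nat_lit 648197290162) (nat_lit 76) (nat_lit 3416739198373) (nat_lit 152) (nat_lit 1126544445085) (nat_lit 18) (nat_lit 5) (nat_lit 19) (nat_lit 5) (nat_lit 20) (nat_lit 4) (nat_lit 277) (nat_lit 262)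 (nat_lit 121)) (XT.lf (nat_lit 0) (nat_lit 595339219697) (nat_lit 152) (nat_lit 314953172421) (nat_lit 76) (nat_lit 4832461821615) (nat_lit 17) (nat_lit 5) (nat_lit 19) (nat_lit 5) (nat_lit 18) (nat_lit 5) (nat_lit 278) (nat_lit 262) (nat_lit 120))) (XT.nd (nat_lit 78) (nat_lit 76) (nat_lit 0) (XT.lf (nat_lit 0) (nat_lit 2676247715477) (nat_lit 228) (nat_lit 1661988651117) (nat_lit 76) (nat_lit 2022745544995) (nat_lit 15) (nat_lit 5) (nat_lit 18) (nat_lit 5) (nat_lit 16) (nat_lit 4) (nat_lit 279) (nat_lit 262) (nat_lit 119)) (XT.lf (nat_lit 0) (nat_lit 3565858118680) (nat_lit 76) (nat_lit 1623777467839) (nat_lit 152) (nat_lit 1872680729534) (nat_lit 14) (nat_lit 5) (nat_lit 15) (nat_lit 5) (nat_lit 16) (nat_lit 4) (nat_lit 280) (nat_lit 262) (nat_lit 118))))))) (XT.nd (nat_lit 1014) (nat_lit 608) (nat_lit 0) (XT.nd (nat_lit 468) (nat_lit 1140) (nat_lit 0) (XT.nd (nat_lit 234) (nat_lit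 532) (nat_lit 0) (XT.nd (nat_lit 78) (nat_lit 0) (nat_lit 76) (XT.lf (nat_lit 0) (nat_lit 535837297541) (nat_lit 532) (nat_lit 147978618070) (nat_lit 532) (nat_lit 147978618070) (nat_lit 45) (nat_lit 3) (nat_lit 52) (nat_lit 3) (nat_lit 52) (nat_lit 5) (nat_lit 263) (nat_lit 263) (nat_lit 134)) (XT.nd (nat_lit 78) (nat_lit 0) (nat_lit 0) (XT.lf (nat_lit 0) (nat_lit 1181147810055) (nat_lit 456) (nat_lit 591070308893) (nat_lit 532) (nat_lit 13812318726) (nat_lit 46) (nat_lit 5) (nat_lit 52) (nat_lit 5) (nat_lit 53) (nat_lit 5) (nat_lit 264) (nat_lit 263) (nat_lit 133)) (XT.lf (nat_lit 76) (nat_lit 1013962037426) (nat_lit 0) (nat_lit 364131370549) (nat_lit 532) (nat_lit 543060493523) (nat_lit 47) (nat_lit 5) (nat_lit 46) (nat_lit 5) (nat_lit 53) (nat_lit 5) (nat_lit 265) (nat_lit 263) (nat_lit 132)))) (XT.nd (nat_lit 78) (nat_lit 684) (nat_lit 0) (XT.lf (nat_lit 76) (nat_lit 831325927355)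 (nat_lit 0) (nat_lit 841090497524) (nat_lit 532) (nat_lit 398702613690) (nat_lit 48) (nat_lit 5) (nat_lit 47) (nat_lit 5) (nat_lit 54) (nat_lit 5) (nat_lit 266) (nat_lit 263) (nat_lit 131)) (XT.nd (nat_lit 78) (nat_lit 304) (nat_lit 0) (XT.lf (nat_lit 0) (nat_lit 646718017986) (nat_lit 456) (nat_lit 1435860979268) (nat_lit 532) (nat_lit 155264660727) (nat_lit 42) (nat_lit 5) (nat_lit 48) (nat_lit 5) (nat_lit 49) (nat_lit 5) (nat_lit 267) (nat_lit 263) (nat_lit 130)) (XT.lf (nat_lit 0) (nat_lit 196328240253) (nat_lit 304) (nat_lit 1969707459435) (nat_lit 76) (nat_lit 257071232533) (nat_lit 38) (nat_lit 5) (nat_lit 42) (nat_lit 5) (nat_lit 39) (nat_lit 5) (nat_lit 268) (nat_lit 263) (nat_lit 129))))) (XT.nd (nat_lit 234) (nat_lit 684) (nat_lit 0) (XT.nd (nat_lit 78) (nat_lit 228) (nat_lit 0) (XT.lf (nat_lit 0) (nat_lit 235051717045) (nat_lit 228) (nat_lit 449568836417) (nat_lit 304) (nat_lit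 1943764206069) (nat_lit 35) (nat_lit 5) (nat_lit 38) (nat_lit 5) (nat_lit 39) (nat_lit 5) (nat_lit 269) (nat_lit 263) (nat_lit 128)) (XT.nd (nat_lit 78) (nat_lit 228) (nat_lit 0) (XT.lf (nat_lit 0) (nat_lit 1341653215758) (nat_lit 304) (nat_lit 8212915301) (nat_lit 76) (nat_lit 1506948409718) (nat_lit 35) (nat_lit 5) (nat_lit 39) (nat_lit 5) (nat_lit 36) (nat_lit 5) (nat_lit 270) (nat_lit 263) (nat_lit 127)) (XT.lf (nat_lit 0) (nat_lit 2195114541549) (nat_lit 304) (nat_lit 263933311934) (nat_lit 76) (nat_lit 652631034604) (nat_lit 32) (nat_lit 5) (nat_lit 36) (nat_lit 5) (nat_lit 33) (nat_lit 5) (nat_lit 271) (nat_lit 263) (nat_lit 126)))) (XT.nd (nat_lit 156) (nat_lit 304) (nat_lit 0) (XT.nd (nat_lit 78) (nat_lit 228) (nat_lit 0) (XT.lf (nat_lit 0) (nat_lit 2832178285686) (nat_lit 152) (nat_lit 450110014033) (nat_lit 228) (nat_lit 114029129101) (nat_lit 30) (nat_lit 5) (nat_lit 32) (nat_lit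 5) (nat_lit 33) (nat_lit 5) (nat_lit 272) (nat_lit 263) (nat_lit 125)) (XT.lf (nat_lit 0) (nat_lit 891000213576) (nat_lit 228) (nat_lit 956879433387) (nat_lit 76) (nat_lit 1864409595578) (nat_lit 27) (nat_lit 5) (nat_lit 30) (nat_lit 5) (nat_lit 28) (nat_lit 5) (nat_lit 273) (nat_lit 263) (nat_lit 124))) (XT.nd (nat_lit 78) (nat_lit 152) (nat_lit 0) (XT.lf (nat_lit 0) (nat_lit 2145646464632) (nat_lit 228) (nat_lit 1431167051130) (nat_lit 76) (nat_lit 490157224606) (nat_lit 25) (nat_lit 5) (nat_lit 28) (nat_lit 5) (nat_lit 26) (nat_lit 5) (nat_lit 274) (nat_lit 263) (nat_lit 123)) (XT.lf (nat_lit 0) (nat_lit 2422037975250) (nat_lit 152) (nat_lit 1304391642705) (nat_lit 228) (nat_lit 737389647751) (nat_lit 23) (nat_lit 5) (nat_lit 25) (nat_lit 5) (nat_lit 26) (nat_lit 5) (nat_lit 275) (nat_lit 263) (nat_lit 122)))))) (XT.nd (nat_lit 33540) (nat_lit 0) (nat_lit 1520) (XT.nd (nat_lit 234)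 (nat_lit 228) (nat_lit 0) (XT.nd (nat_lit 78) (nat_lit 228) (nat_lit 0) (XT.lf (nat_lit 0) (nat_lit 720769938022) (nat_lit 152) (nat_lit 2833190335659) (nat_lit 76) (nat_lit 1354805436268) (nat_lit 21) (nat_lit 5) (nat_lit 23) (nat_lit 5) (nat_lit 22) (nat_lit 5) (nat_lit 276) (nat_lit 263) (nat_lit 121)) (XT.nd (nat_lit 78) (nat_lit 76) (nat_lit 0) (XT.lf (nat_lit 0) (nat_lit 1537371971071) (nat_lit 152) (nat_lit 951899542616) (nat_lit 228) (nat_lit 2918827989087) (nat_lit 19) (nat_lit 5) (nat_lit 21) (nat_lit 5) (nat_lit 22) (nat_lit 5) (nat_lit 277) (nat_lit 263) (nat_lit 120)) (XT.lf (nat_lit 0) (nat_lit 745426917576) (nat_lit 76) (nat_lit 3929250064619) (nat_lit 152) (nat_lit 1295526089810) (nat_lit 18) (nat_lit 5) (nat_lit 19) (nat_lit 5) (nat_lit 20) (nat_lit 4) (nat_lit 278) (nat_lit 263) (nat_lit 119)))) (XT.nd (nat_lit 78) (nat_lit 152) (nat_lit 0) (XT.lf (nat_lit 0) (nat_lit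 684640120857) (nat_lit 152) (nat_lit 362196117833) (nat_lit 76) (nat_lit 5557331105624) (nat_lit 17) (nat_lit 5) (nat_lit 19) (nat_lit 5) (nat_lit 18) (nat_lit 5) (nat_lit 279) (nat_lit 263) (nat_lit 118)) (XT.nd (nat_lit 33150) (nat_lit 0) (nat_lit 2280) (XT.lf (nat_lit 0) (nat_lit 3077684889572) (nat_lit 228) (nat_lit 1911286919845) (nat_lit 76) (nat_lit 2326157387548) (nat_lit 15) (nat_lit 5) (nat_lit 18) (nat_lit 5) (nat_lit 16) (nat_lit 4) (nat_lit 280) (nat_lit 263) (nat_lit 117)) (XT.lf (nat_lit 0) (nat_lit 616212929539) (nat_lit 532) (nat_lit 170175390549) (nat_lit 532) (nat_lit 170175390549) (nat_lit 45) (nat_lit 3) (nat_lit 52) (nat_lit 3) (nat_lit 52) (nat_lit 5) (nat_lit 264) (nat_lit 264) (nat_lit 132))))) (XT.nd (nat_lit 234) (nat_lit 836) (nat_lit 0) (XT.nd (nat_lit 78) (nat_lit 0) (nat_lit 0) (XT.lf (nat_lit 0) (nat_lit 1358320046746) (nat_lit 456) (nat_lit 679730812038)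 (nat_lit 532) (nat_lit 15884139140) (nat_lit 46) (nat_lit 5) (nat_lit 52) (nat_lit 5) (nat_lit 53) (nat_lit 5) (nat_lit 265) (nat_lit 264) (nat_lit 131)) (XT.nd (nat_lit 78) (nat_lit 0) (nat_lit 76) (XT.lf (nat_lit 76) (nat_lit 1166056382573) (nat_lit 0) (nat_lit 418751094229) (nat_lit 532) (nat_lit 624519505147) (nat_lit 47) (nat_lit 5) (nat_lit 46) (nat_lit 5) (nat_lit 53) (nat_lit 5) (nat_lit 266) (nat_lit 264) (nat_lit 130)) (XT.lf (nat_lit 76) (nat_lit 956024857413) (nat_lit 0) (nat_lit 967254081919) (nat_lit 532) (nat_lit 458507950824) (nat_lit 48) (nat_lit 5) (nat_lit 47) (nat_lit 5) (nat_lit 54) (nat_lit 5) (nat_lit 267) (nat_lit 264) (nat_lit 129)))) (XT.nd (nat_lit 156) (nat_lit 228) (nat_lit 0) (XT.nd (nat_lit 78) (nat_lit 304) (nat_lit 0) (XT.lf (nat_lit 0) (nat_lit 743725762230) (nat_lit 456) (nat_lit 1651240129512) (nat_lit 532) (nat_lit 178554311221) (nat_lit 42) (nat_lit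 5) (nat_lit 48) (nat_lit 5) (nat_lit 49) (nat_lit 5) (nat_lit 268) (nat_lit 264) (nat_lit 128)) (XT.lf (nat_lit 0) (nat_lit 225777517402) (nat_lit 304) (nat_lit 2265163534582) (nat_lit 76) (nat_lit 295631916682) (nat_lit 38) (nat_lit 5) (nat_lit 42) (nat_lit 5) (nat_lit 39) (nat_lit 5) (nat_lit 269) (nat_lit 264) (nat_lit 127))) (XT.nd (nat_lit 78) (nat_lit 0) (nat_lit 0) (XT.lf (nat_lit 0) (nat_lit 270309514665) (nat_lit 228) (nat_lit 517004158528) (nat_lit 304) (nat_lit 2235328797244) (nat_lit 35) (nat_lit 5) (nat_lit 38) (nat_lit 5) (nat_lit 39) (nat_lit 5) (nat_lit 270) (nat_lit 264) (nat_lit 126)) (XT.lf (nat_lit 0) (nat_lit 1542901230116) (nat_lit 304) (nat_lit 9444815200) (nat_lit 76) (nat_lit 1732990673944) (nat_lit 35) (nat_lit 5) (nat_lit 39) (nat_lit 5) (nat_lit 36) (nat_lit 5) (nat_lit 271) (nat_lit 264) (nat_lit 125))))))))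
noncomputable def xc62 : XT := (XT.nd (nat_lit 68484) (nat_lit 0) (nat_lit 304) (XT.nd (nat_lit 34086) (nat_lit 0) (nat_lit 152) (XT.nd (nat_lit 468) (nat_lit 304) (nat_lit 0) (XT.nd (nat_lit 234) (nat_lit 456) (nat_lit 0) (XT.nd (nat_lit 78) (nat_lit 380) (nat_lit 0) (XT.lf (nat_lit 0) (nat_lit 2524381751559) (nat_lit 304) (nat_lit 303523272272) (nat_lit 76) (nat_lit 750525695102) (nat_lit 32) (nat_lit 5) (nat_lit 36) (nat_lit 5) (nat_lit 33) (nat_lit 5) (nat_lit 272) (nat_lit 264) (nat_lit 124)) (XT.nd (nat_lit 78) (nat_lit 228) (nat_lit 0) (XT.lf (nat_lit 0) (nat_lit 3257005061906) (nat_lit 152) (nat_lit 517626508597) (nat_lit 228) (nat_lit 131133470516) (nat_lit 30) (nat_lit 5) (nat_lit 32) (nat_lit 5) (nat_lit 33) (nat_lit 5) (nat_lit 273) (nat_lit 264) (nat_lit 123)) (XT.lf (nat_lit 0) (nat_lit 1024650269660) (nat_lit 228) (nat_lit 1100411314763) (nat_lit 76) (nat_lit 2144071042530)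 (nat_lit 27) (nat_lit 5) (nat_lit 30) (nat_lit 5) (nat_lit 28) (nat_lit 5) (nat_lit 274) (nat_lit 264) (nat_lit 122)))) (XT.nd (nat_lit 78) (nat_lit 304) (nat_lit 0) (XT.lf (nat_lit 0) (nat_lit 2467493456198) (nat_lit 228) (nat_lit 1645842076463) (nat_lit 76) (nat_lit 563680816974) (nat_lit 25) (nat_lit 5) (nat_lit 28) (nat_lit 5) (nat_lit 26) (nat_lit 5) (nat_lit 275) (nat_lit 264) (nat_lit 121)) (XT.nd (nat_lit 78) (nat_lit 152) (nat_lit 0) (XT.lf (nat_lit 0) (nat_lit 2785343701138) (nat_lit 152) (nat_lit 1500050379241) (nat_lit 228) (nat_lit 847998073571) (nat_lit 23) (nat_lit 5) (nat_lit 25) (nat_lit 5) (nat_lit 26) (nat_lit 5) (nat_lit 276) (nat_lit 264) (nat_lit 120)) (XT.lf (nat_lit 0) (nat_lit 828885447268) (nat_lit 152) (nat_lit 3258168856650) (nat_lit 76) (nat_lit 1558026261013) (nat_lit 21) (nat_lit 5) (nat_lit 23) (nat_lit 5) (nat_lit 22) (nat_lit 5) (nat_lit 277) (nat_lit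 264) (nat_lit 119))))) (XT.nd (nat_lit 33384) (nat_lit 0) (nat_lit 2128) (XT.nd (nat_lit 78) (nat_lit 152) (nat_lit 0) (XT.lf (nat_lit 0) (nat_lit 1767977793604) (nat_lit 152) (nat_lit 1094684463905) (nat_lit 228) (nat_lit 3356652169314) (nat_lit 19) (nat_lit 5) (nat_lit 21) (nat_lit 5) (nat_lit 22) (nat_lit 5) (nat_lit 278) (nat_lit 264) (nat_lit 118)) (XT.nd (nat_lit 78) (nat_lit 76) (nat_lit 0) (XT.lf (nat_lit 0) (nat_lit 857240980839) (nat_lit 76) (nat_lit 4518637564096) (nat_lit 152) (nat_lit 1489854986617) (nat_lit 18) (nat_lit 5) (nat_lit 19) (nat_lit 5) (nat_lit 20) (nat_lit 4) (nat_lit 279) (nat_lit 264) (nat_lit 117)) (XT.lf (nat_lit 0) (nat_lit 787336152751) (nat_lit 152) (nat_lit 416525512483) (nat_lit 76) (nat_lit 6390930779609) (nat_lit 17) (nat_lit 5) (nat_lit 19) (nat_lit 5) (nat_lit 18) (nat_lit 5) (nat_lit 280) (nat_lit 264) (nat_lit 116)))) (XT.nd (nat_lit 78) (nat_lit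 0) (nat_lit 76) (XT.lf (nat_lit 0) (nat_lit 708644897224) (nat_lit 532) (nat_lit 195701683833) (nat_lit 532) (nat_lit 195701683833) (nat_lit 45) (nat_lit 3) (nat_lit 52) (nat_lit 3) (nat_lit 52) (nat_lit 5) (nat_lit 265) (nat_lit 265) (nat_lit 130)) (XT.nd (nat_lit 78) (nat_lit 0) (nat_lit 0) (XT.lf (nat_lit 0) (nat_lit 1562068103045) (nat_lit 456) (nat_lit 781690401187) (nat_lit 532) (nat_lit 18266739297) (nat_lit 46) (nat_lit 5) (nat_lit 52) (nat_lit 5) (nat_lit 53) (nat_lit 5) (nat_lit 266) (nat_lit 265) (nat_lit 129)) (XT.lf (nat_lit 76) (nat_lit 1340964869852) (nat_lit 0) (nat_lit 481563772049) (nat_lit 532) (nat_lit 718197383733) (nat_lit 47) (nat_lit 5) (nat_lit 46) (nat_lit 5) (nat_lit 53) (nat_lit 5) (nat_lit 267) (nat_lit 265) (nat_lit 128)))))) (XT.nd (nat_lit 468) (nat_lit 988) (nat_lit 0) (XT.nd (nat_lit 234) (nat_lit 456) (nat_lit 0) (XT.nd (nat_lit 78) (nat_lit 684) (nat_lit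 0) (XT.lf (nat_lit 76) (nat_lit 1099428616993) (nat_lit 0) (nat_lit 1112342201591) (nat_lit 532) (nat_lit 527284101921) (nat_lit 48) (nat_lit 5) (nat_lit 47) (nat_lit 5) (nat_lit 54) (nat_lit 5) (nat_lit 268) (nat_lit 265) (nat_lit 127)) (XT.nd (nat_lit 78) (nat_lit 304) (nat_lit 0) (XT.lf (nat_lit 0) (nat_lit 855284657980) (nat_lit 456) (nat_lit 1898926151474) (nat_lit 532) (nat_lit 205337421145) (nat_lit 42) (nat_lit 5) (nat_lit 48) (nat_lit 5) (nat_lit 49) (nat_lit 5) (nat_lit 269) (nat_lit 265) (nat_lit 126)) (XT.lf (nat_lit 0) (nat_lit 259644176098) (nat_lit 304) (nat_lit 2604938031675) (nat_lit 76) (nat_lit 339976703632) (nat_lit 38) (nat_lit 5) (nat_lit 42) (nat_lit 5) (nat_lit 39) (nat_lit 5) (nat_lit 270) (nat_lit 265) (nat_lit 125)))) (XT.nd (nat_lit 78) (nat_lit 228) (nat_lit 0) (XT.lf (nat_lit 0) (nat_lit 310855972158) (nat_lit 228) (nat_lit 594554779774) (nat_lit 304) (nat_lit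 2570628086785) (nat_lit 35) (nat_lit 5) (nat_lit 38) (nat_lit 5) (nat_lit 39) (nat_lit 5) (nat_lit 271) (nat_lit 265) (nat_lit 124)) (XT.nd (nat_lit 78) (nat_lit 228) (nat_lit 0) (XT.lf (nat_lit 0) (nat_lit 1774336438825) (nat_lit 304) (nat_lit 10861509203) (nat_lit 76) (nat_lit 1992939277129) (nat_lit 35) (nat_lit 5) (nat_lit 39) (nat_lit 5) (nat_lit 36) (nat_lit 5) (nat_lit 272) (nat_lit 265) (nat_lit 123)) (XT.lf (nat_lit 0) (nat_lit 2903039036054) (nat_lit 304) (nat_lit 349051735549) (nat_lit 76) (nat_lit 863104553381) (nat_lit 32) (nat_lit 5) (nat_lit 36) (nat_lit 5) (nat_lit 33) (nat_lit 5) (nat_lit 273) (nat_lit 265) (nat_lit 122))))) (XT.nd (nat_lit 234) (nat_lit 456) (nat_lit 0) (XT.nd (nat_lit 78) (nat_lit 380) (nat_lit 0) (XT.lf (nat_lit 0) (nat_lit 3745555846423) (nat_lit 152) (nat_lit 595270479186) (nat_lit 228) (nat_lit 150803469960) (nat_lit 30) (nat_lit 5) (nat_lit 32)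 (nat_lit 5) (nat_lit 33) (nat_lit 5) (nat_lit 274) (nat_lit 265) (nat_lit 121)) (XT.nd (nat_lit 78) (nat_lit 152) (nat_lit 0) (XT.lf (nat_lit 0) (nat_lit 1178347828292) (nat_lit 228) (nat_lit 1265472986547) (nat_lit 76) (nat_lit 2465681704667) (nat_lit 27) (nat_lit 5) (nat_lit 30) (nat_lit 5) (nat_lit 28) (nat_lit 5) (nat_lit 275) (nat_lit 265) (nat_lit 120)) (XT.lf (nat_lit 0) (nat_lit 2837617491166) (nat_lit 228) (nat_lit 1892718363481) (nat_lit 76) (nat_lit 648232946081) (nat_lit 25) (nat_lit 5) (nat_lit 28) (nat_lit 5) (nat_lit 26) (nat_lit 5) (nat_lit 276) (nat_lit 265) (nat_lit 119)))) (XT.nd (nat_lit 33540) (nat_lit 0) (nat_lit 1976) (XT.nd (nat_lit 156) (nat_lit 304) (nat_lit 0) (XT.lf (nat_lit 0) (nat_lit 3203145278691) (nat_lit 152) (nat_lit 1725057928664) (nat_lit 228) (nat_lit 975197768468) (nat_lit 23) (nat_lit 5) (nat_lit 25) (nat_lit 5) (nat_lit 26) (nat_lit 5) (nat_lit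 277) (nat_lit 265) (nat_lit 118)) (XT.lf (nat_lit 0) (nat_lit 2033174482965) (nat_lit 152) (nat_lit 1258887125852) (nat_lit 228) (nat_lit 3860149980998) (nat_lit 19) (nat_lit 5) (nat_lit 21) (nat_lit 5) (nat_lit 22) (nat_lit 5) (nat_lit 279) (nat_lit 265) (nat_lit 116))) (XT.nd (nat_lit 78) (nat_lit 0) (nat_lit 76) (XT.lf (nat_lit 0) (nat_lit 814941653172) (nat_lit 532) (nat_lit 225056924840) (nat_lit 532) (nat_lit 225056924840) (nat_lit 45) (nat_lit 3) (nat_lit 52) (nat_lit 3) (nat_lit 52) (nat_lit 5) (nat_lit 266) (nat_lit 266) (nat_lit 128)) (XT.lf (nat_lit 0) (nat_lit 1796378355771) (nat_lit 456) (nat_lit 898943936672) (nat_lit 532) (nat_lit 21006734528) (nat_lit 46) (nat_lit 5) (nat_lit 52) (nat_lit 5) (nat_lit 53) (nat_lit 5) (nat_lit 267) (nat_lit 266) (nat_lit 127))))))) (XT.nd (nat_lit 34320) (nat_lit 0) (nat_lit 304) (XT.nd (nat_lit 468) (nat_lit 1064) (nat_lit 0) (XT.nd (nat_lit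 234) (nat_lit 532) (nat_lit 0) (XT.nd (nat_lit 78) (nat_lit 304) (nat_lit 0) (XT.lf (nat_lit 76) (nat_lit 1542109622933) (nat_lit 0) (nat_lit 553798348204) (nat_lit 532) (nat_lit 825926955613) (nat_lit 47) (nat_lit 5) (nat_lit 46) (nat_lit 5) (nat_lit 53) (nat_lit 5) (nat_lit 268) (nat_lit 266) (nat_lit 126)) (XT.nd (nat_lit 78) (nat_lit 380) (nat_lit 0) (XT.lf (nat_lit 76) (nat_lit 1264342932957) (nat_lit 0) (nat_lit 1279193537414) (nat_lit 532) (nat_lit 606376685808) (nat_lit 48) (nat_lit 5) (nat_lit 47) (nat_lit 5) (nat_lit 54) (nat_lit 5) (nat_lit 269) (nat_lit 266) (nat_lit 125)) (XT.lf (nat_lit 0) (nat_lit 983577380431) (nat_lit 456) (nat_lit 2183765076112) (nat_lit 532) (nat_lit 236138006521) (nat_lit 42) (nat_lit 5) (nat_lit 48) (nat_lit 5) (nat_lit 49) (nat_lit 5) (nat_lit 270) (nat_lit 266) (nat_lit 124)))) (XT.nd (nat_lit 78) (nat_lit 228) (nat_lit 0) (XT.lf (nat_lit 0) (nat_lit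 298590826018) (nat_lit 304) (nat_lit 2995678711401) (nat_lit 76) (nat_lit 390973208759) (nat_lit 38) (nat_lit 5) (nat_lit 42) (nat_lit 5) (nat_lit 39) (nat_lit 5) (nat_lit 271) (nat_lit 266) (nat_lit 123)) (XT.nd (nat_lit 78) (nat_lit 0) (nat_lit 0) (XT.lf (nat_lit 0) (nat_lit 357484390888) (nat_lit 228) (nat_lit 683737994824) (nat_lit 304) (nat_lit 2956222277084) (nat_lit 35) (nat_lit 5) (nat_lit 38) (nat_lit 5) (nat_lit 39) (nat_lit 5) (nat_lit 272) (nat_lit 266) (nat_lit 122)) (XT.lf (nat_lit 0) (nat_lit 2040486922942) (nat_lit 304) (nat_lit 12490714202) (nat_lit 76) (nat_lit 2291880170281) (nat_lit 35) (nat_lit 5) (nat_lit 39) (nat_lit 5) (nat_lit 36) (nat_lit 5) (nat_lit 273) (nat_lit 266) (nat_lit 121))))) (XT.nd (nat_lit 234) (nat_lit 456) (nat_lit 0) (XT.nd (nat_lit 78) (nat_lit 380) (nat_lit 0) (XT.lf (nat_lit 0) (nat_lit 3338494907916) (nat_lit 304) (nat_lit 401409475039) (nat_lit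 76) (nat_lit 992570239422) (nat_lit 32) (nat_lit 5) (nat_lit 36) (nat_lit 5) (nat_lit 33) (nat_lit 5) (nat_lit 274) (nat_lit 266) (nat_lit 120)) (XT.nd (nat_lit 78) (nat_lit 228) (nat_lit 0) (XT.lf (nat_lit 0) (nat_lit 4307389242464) (nat_lit 152) (nat_lit 684561046752) (nat_lit 228) (nat_lit 173423974473) (nat_lit 30) (nat_lit 5) (nat_lit 32) (nat_lit 5) (nat_lit 33) (nat_lit 5) (nat_lit 275) (nat_lit 266) (nat_lit 119)) (XT.lf (nat_lit 0) (nat_lit 1355100016286) (nat_lit 228) (nat_lit 1455293915300) (nat_lit 76) (nat_lit 2835533964721) (nat_lit 27) (nat_lit 5) (nat_lit 30) (nat_lit 5) (nat_lit 28) (nat_lit 5) (nat_lit 276) (nat_lit 266) (nat_lit 118)))) (XT.nd (nat_lit 78) (nat_lit 304) (nat_lit 0) (XT.lf (nat_lit 0) (nat_lit 3263260127346) (nat_lit 228) (nat_lit 2176626099514) (nat_lit 76) (nat_lit 745467892954) (nat_lit 25) (nat_lit 5) (nat_lit 28) (nat_lit 5) (nat_lit 26) (nat_lit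 5) (nat_lit 277) (nat_lit 266) (nat_lit 117)) (XT.nd (nat_lit 78) (nat_lit 152) (nat_lit 0) (XT.lf (nat_lit 0) (nat_lit 3683617087418) (nat_lit 152) (nat_lit 1983816612320) (nat_lit 228) (nat_lit 1121477421535) (nat_lit 23) (nat_lit 5) (nat_lit 25) (nat_lit 5) (nat_lit 26) (nat_lit 5) (nat_lit 278) (nat_lit 266) (nat_lit 116)) (XT.lf (nat_lit 0) (nat_lit 1096201030737) (nat_lit 152) (nat_lit 4308928270605) (nat_lit 76) (nat_lit 2060489743600) (nat_lit 21) (nat_lit 5) (nat_lit 23) (nat_lit 5) (nat_lit 22) (nat_lit 5) (nat_lit 279) (nat_lit 266) (nat_lit 115)))))) (XT.nd (nat_lit 468) (nat_lit 988) (nat_lit 0) (XT.nd (nat_lit 234) (nat_lit 532) (nat_lit 0) (XT.nd (nat_lit 78) (nat_lit 0) (nat_lit 76) (XT.lf (nat_lit 0) (nat_lit 937182917302) (nat_lit 532) (nat_lit 258815454820) (nat_lit 532) (nat_lit 258815454820) (nat_lit 45) (nat_lit 3) (nat_lit 52) (nat_lit 3) (nat_lit 52) (nat_lit 5)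 (nat_lit 267) (nat_lit 267) (nat_lit 126)) (XT.nd (nat_lit 78) (nat_lit 0) (nat_lit 0) (XT.lf (nat_lit 0) (nat_lit 2065835137317) (nat_lit 456) (nat_lit 1033785508501) (nat_lit 532) (nat_lit 24157732864) (nat_lit 46) (nat_lit 5) (nat_lit 52) (nat_lit 5) (nat_lit 53) (nat_lit 5) (nat_lit 268) (nat_lit 267) (nat_lit 125)) (XT.lf (nat_lit 76) (nat_lit 1773426083465) (nat_lit 0) (nat_lit 636868108258) (nat_lit 532) (nat_lit 949815971976) (nat_lit 47) (nat_lit 5) (nat_lit 46) (nat_lit 5) (nat_lit 53) (nat_lit 5) (nat_lit 269) (nat_lit 267) (nat_lit 124)))) (XT.nd (nat_lit 78) (nat_lit 684) (nat_lit 0) (XT.lf (nat_lit 76) (nat_lit 1453994390607) (nat_lit 0) (nat_lit 1471072572248) (nat_lit 532) (nat_lit 697333164936) (nat_lit 48) (nat_lit 5) (nat_lit 47) (nat_lit 5) (nat_lit 54) (nat_lit 5) (nat_lit 270) (nat_lit 267) (nat_lit 123)) (XT.nd (nat_lit 78) (nat_lit 304) (nat_lit 0) (XT.lf (nat_lit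 0) (nat_lit 1131114005458) (nat_lit 456) (nat_lit 2511329838979) (nat_lit 532) (nat_lit 271558686482) (nat_lit 42) (nat_lit 5) (nat_lit 48) (nat_lit 5) (nat_lit 49) (nat_lit 5) (nat_lit 271) (nat_lit 267) (nat_lit 122)) (XT.lf (nat_lit 0) (nat_lit 343379467694) (nat_lit 304) (nat_lit 3445030499190) (nat_lit 76) (nat_lit 449619189757) (nat_lit 38) (nat_lit 5) (nat_lit 42) (nat_lit 5) (nat_lit 39) (nat_lit 5) (nat_lit 272) (nat_lit 267) (nat_lit 121))))) (XT.nd (nat_lit 234) (nat_lit 532) (nat_lit 0) (XT.nd (nat_lit 78) (nat_lit 228) (nat_lit 0) (XT.lf (nat_lit 0) (nat_lit 411107066842) (nat_lit 228) (nat_lit 786298692599) (nat_lit 304) (nat_lit 3399655601468) (nat_lit 35) (nat_lit 5) (nat_lit 38) (nat_lit 5) (nat_lit 39) (nat_lit 5) (nat_lit 273) (nat_lit 267) (nat_lit 120)) (XT.nd (nat_lit 78) (nat_lit 228) (nat_lit 0) (XT.lf (nat_lit 0) (nat_lit 2346559975215) (nat_lit 304) (nat_lit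 14364305165) (nat_lit 76) (nat_lit 2635662197019) (nat_lit 35) (nat_lit 5) (nat_lit 39) (nat_lit 5) (nat_lit 36) (nat_lit 5) (nat_lit 274) (nat_lit 267) (nat_lit 119)) (XT.lf (nat_lit 0) (nat_lit 3839269156545) (nat_lit 304) (nat_lit 461620880535) (nat_lit 76) (nat_lit 1141455777630) (nat_lit 32) (nat_lit 5) (nat_lit 36) (nat_lit 5) (nat_lit 33) (nat_lit 5) (nat_lit 275) (nat_lit 267) (nat_lit 118)))) (XT.nd (nat_lit 156) (nat_lit 152) (nat_lit 0) (XT.nd (nat_lit 78) (nat_lit 228) (nat_lit 0) (XT.lf (nat_lit 0) (nat_lit 4953497643259) (nat_lit 152) (nat_lit 787245200505) (nat_lit 228) (nat_lit 199437558561) (nat_lit 30) (nat_lit 5) (nat_lit 32) (nat_lit 5) (nat_lit 33) (nat_lit 5) (nat_lit 276) (nat_lit 267) (nat_lit 117)) (XT.lf (nat_lit 0) (nat_lit 1558365029125) (nat_lit 228) (nat_lit 1673587988055) (nat_lit 76) (nat_lit 3260864062722) (nat_lit 27) (nat_lit 5) (nat_lit 30) (nat_lit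 5) (nat_lit 28) (nat_lit 5) (nat_lit 277) (nat_lit 267) (nat_lit 116))) (XT.nd (nat_lit 33618) (nat_lit 0) (nat_lit 1520) (XT.lf (nat_lit 0) (nat_lit 3752749155903) (nat_lit 228) (nat_lit 2503120000461) (nat_lit 76) (nat_lit 857288080648) (nat_lit 25) (nat_lit 5) (nat_lit 28) (nat_lit 5) (nat_lit 26) (nat_lit 5) (nat_lit 278) (nat_lit 267) (nat_lit 115)) (XT.lf (nat_lit 0) (nat_lit 1077760367113) (nat_lit 532) (nat_lit 297637766429) (nat_lit 532) (nat_lit 297637766429) (nat_lit 45) (nat_lit 3) (nat_lit 52) (nat_lit 3) (nat_lit 52) (nat_lit 5) (nat_lit 268) (nat_lit 268) (nat_lit 124))))))))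
noncomputable def xc63 : XT := (XT.nd (nat_lit 69342) (nat_lit 0) (nat_lit 380) (XT.nd (nat_lit 34554) (nat_lit 0) (nat_lit 228) (XT.nd (nat_lit 468) (nat_lit 608) (nat_lit 0) (XT.nd (nat_lit 234) (nat_lit 836) (nat_lit 0) (XT.nd (nat_lit 78) (nat_lit 0) (nat_lit 0) (XT.lf (nat_lit 0) (nat_lit 2375710429222) (nat_lit 456) (nat_lit 1188853320657) (nat_lit 532) (nat_lit 27781383838) (nat_lit 46) (nat_lit 5) (nat_lit 52) (nat_lit 5) (nat_lit 53) (nat_lit 5) (nat_lit 269) (nat_lit 268) (nat_lit 123)) (XT.nd (nat_lit 78) (nat_lit 0) (nat_lit 76) (XT.lf (nat_lit 76) (nat_lit 2039440008908) (nat_lit 0) (nat_lit 732398330414) (nat_lit 532) (nat_lit 1092288347373) (nat_lit 47) (nat_lit 5) (nat_lit 46) (nat_lit 5) (nat_lit 53) (nat_lit 5) (nat_lit 270) (nat_lit 268) (nat_lit 122)) (XT.lf (nat_lit 76) (nat_lit 1672093562586) (nat_lit 0) (nat_lit 1691733461278) (nat_lit 532) (nat_lit 801933121724)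 (nat_lit 48) (nat_lit 5) (nat_lit 47) (nat_lit 5) (nat_lit 54) (nat_lit 5) (nat_lit 271) (nat_lit 268) (nat_lit 121)))) (XT.nd (nat_lit 78) (nat_lit 532) (nat_lit 0) (XT.lf (nat_lit 0) (nat_lit 1300781119858) (nat_lit 456) (nat_lit 2888029315922) (nat_lit 532) (nat_lit 312292473562) (nat_lit 42) (nat_lit 5) (nat_lit 48) (nat_lit 5) (nat_lit 49) (nat_lit 5) (nat_lit 272) (nat_lit 268) (nat_lit 120)) (XT.nd (nat_lit 78) (nat_lit 228) (nat_lit 0) (XT.lf (nat_lit 0) (nat_lit 394886401288) (nat_lit 304) (nat_lit 3961785059760) (nat_lit 76) (nat_lit 517062067981) (nat_lit 38) (nat_lit 5) (nat_lit 42) (nat_lit 5) (nat_lit 39) (nat_lit 5) (nat_lit 273) (nat_lit 268) (nat_lit 119)) (XT.lf (nat_lit 0) (nat_lit 472773139964) (nat_lit 228) (nat_lit 904243495394) (nat_lit 304) (nat_lit 3909603928699) (nat_lit 35) (nat_lit 5) (nat_lit 38) (nat_lit 5) (nat_lit 39) (nat_lit 5) (nat_lit 274) (nat_lit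 268) (nat_lit 118))))) (XT.nd (nat_lit 234) (nat_lit 228) (nat_lit 0) (XT.nd (nat_lit 78) (nat_lit 380) (nat_lit 0) (XT.lf (nat_lit 0) (nat_lit 2698543981956) (nat_lit 304) (nat_lit 16518938715) (nat_lit 76) (nat_lit 3031011527477) (nat_lit 35) (nat_lit 5) (nat_lit 39) (nat_lit 5) (nat_lit 36) (nat_lit 5) (nat_lit 275) (nat_lit 268) (nat_lit 117)) (XT.nd (nat_lit 78) (nat_lit 152) (nat_lit 0) (XT.lf (nat_lit 0) (nat_lit 4415159539435) (nat_lit 304) (nat_lit 530864000699) (nat_lit 76) (nat_lit 1312674146010) (nat_lit 32) (nat_lit 5) (nat_lit 36) (nat_lit 5) (nat_lit 33) (nat_lit 5) (nat_lit 276) (nat_lit 268) (nat_lit 116)) (XT.lf (nat_lit 0) (nat_lit 5696522300656) (nat_lit 152) (nat_lit 905331978116) (nat_lit 228) (nat_lit 229353183208) (nat_lit 30) (nat_lit 5) (nat_lit 32) (nat_lit 5) (nat_lit 33) (nat_lit 5) (nat_lit 277) (nat_lit 268) (nat_lit 115)))) (XT.nd (nat_lit 33696) (nat_lit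 0) (nat_lit 1368) (XT.lf (nat_lit 0) (nat_lit 1792119791355) (nat_lit 228) (nat_lit 1924626175269) (nat_lit 76) (nat_lit 3749993674620) (nat_lit 27) (nat_lit 5) (nat_lit 30) (nat_lit 5) (nat_lit 28) (nat_lit 5) (nat_lit 278) (nat_lit 268) (nat_lit 114)) (XT.nd (nat_lit 78) (nat_lit 0) (nat_lit 76) (XT.lf (nat_lit 0) (nat_lit 1239424431416) (nat_lit 532) (nat_lit 342283426393) (nat_lit 532) (nat_lit 342283426393) (nat_lit 45) (nat_lit 3) (nat_lit 52) (nat_lit 3) (nat_lit 52) (nat_lit 5) (nat_lit 269) (nat_lit 269) (nat_lit 122)) (XT.lf (nat_lit 0) (nat_lit 2732067009718) (nat_lit 456) (nat_lit 1367181308080) (nat_lit 532) (nat_lit 31948584642) (nat_lit 46) (nat_lit 5) (nat_lit 52) (nat_lit 5) (nat_lit 53) (nat_lit 5) (nat_lit 270) (nat_lit 269) (nat_lit 121)))))) (XT.nd (nat_lit 546) (nat_lit 380) (nat_lit 0) (XT.nd (nat_lit 234) (nat_lit 532) (nat_lit 0) (XT.nd (nat_lit 78) (nat_lit 304)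 (nat_lit 0) (XT.lf (nat_lit 76) (nat_lit 2345356020016) (nat_lit 0) (nat_lit 842258084449) (nat_lit 532) (nat_lit 1256131584053) (nat_lit 47) (nat_lit 5) (nat_lit 46) (nat_lit 5) (nat_lit 53) (nat_lit 5) (nat_lit 271) (nat_lit 269) (nat_lit 120)) (XT.nd (nat_lit 78) (nat_lit 380) (nat_lit 0) (XT.lf (nat_lit 76) (nat_lit 1922907607097) (nat_lit 0) (nat_lit 1945493482883) (nat_lit 532) (nat_lit 922223076407) (nat_lit 48) (nat_lit 5) (nat_lit 47) (nat_lit 5) (nat_lit 54) (nat_lit 5) (nat_lit 272) (nat_lit 269) (nat_lit 119)) (XT.lf (nat_lit 0) (nat_lit 1495898298107) (nat_lit 456) (nat_lit 3321233714139) (nat_lit 532) (nat_lit 359136332580) (nat_lit 42) (nat_lit 5) (nat_lit 48) (nat_lit 5) (nat_lit 49) (nat_lit 5) (nat_lit 273) (nat_lit 269) (nat_lit 118)))) (XT.nd (nat_lit 78) (nat_lit 228) (nat_lit 0) (XT.lf (nat_lit 0) (nat_lit 454119371643) (nat_lit 304) (nat_lit 4556052807906) (nat_lit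 76) (nat_lit 594621377998) (nat_lit 38) (nat_lit 5) (nat_lit 42) (nat_lit 5) (nat_lit 39) (nat_lit 5) (nat_lit 274) (nat_lit 269) (nat_lit 117)) (XT.nd (nat_lit 78) (nat_lit 0) (nat_lit 0) (XT.lf (nat_lit 0) (nat_lit 543689120862) (nat_lit 228) (nat_lit 1039880018875) (nat_lit 304) (nat_lit 4496044508182) (nat_lit 35) (nat_lit 5) (nat_lit 38) (nat_lit 5) (nat_lit 39) (nat_lit 5) (nat_lit 275) (nat_lit 269) (nat_lit 116)) (XT.lf (nat_lit 0) (nat_lit 3103325587158) (nat_lit 304) (nat_lit 18996770278) (nat_lit 76) (nat_lit 3485663257283) (nat_lit 35) (nat_lit 5) (nat_lit 39) (nat_lit 5) (nat_lit 36) (nat_lit 5) (nat_lit 276) (nat_lit 269) (nat_lit 115))))) (XT.nd (nat_lit 33930) (nat_lit 0) (nat_lit 608) (XT.nd (nat_lit 33774) (nat_lit 0) (nat_lit 1140) (XT.lf (nat_lit 0) (nat_lit 6551000654003) (nat_lit 152) (nat_lit 1041131772970) (nat_lit 228) (nat_lit 263756153781) (nat_lit 30) (nat_lit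 5) (nat_lit 32) (nat_lit 5) (nat_lit 33) (nat_lit 5) (nat_lit 278) (nat_lit 269) (nat_lit 113)) (XT.nd (nat_lit 78) (nat_lit 0) (nat_lit 76) (XT.lf (nat_lit 0) (nat_lit 1425338103113) (nat_lit 532) (nat_lit 393625936570) (nat_lit 532) (nat_lit 393625936570) (nat_lit 45) (nat_lit 3) (nat_lit 52) (nat_lit 3) (nat_lit 52) (nat_lit 5) (nat_lit 270) (nat_lit 270) (nat_lit 120)) (XT.lf (nat_lit 0) (nat_lit 3141877073359) (nat_lit 456) (nat_lit 1572258496220) (nat_lit 532) (nat_lit 36740867218) (nat_lit 46) (nat_lit 5) (nat_lit 52) (nat_lit 5) (nat_lit 53) (nat_lit 5) (nat_lit 271) (nat_lit 270) (nat_lit 119)))) (XT.nd (nat_lit 156) (nat_lit 608) (nat_lit 0) (XT.nd (nat_lit 78) (nat_lit 0) (nat_lit 76) (XT.lf (nat_lit 76) (nat_lit 2697159430408) (nat_lit 0) (nat_lit 968596800499) (nat_lit 532) (nat_lit 1444551309998) (nat_lit 47) (nat_lit 5) (nat_lit 46) (nat_lit 5) (nat_lit 53) (nat_lit 5)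 (nat_lit 272) (nat_lit 270) (nat_lit 118)) (XT.lf (nat_lit 76) (nat_lit 2211343755816) (nat_lit 0) (nat_lit 2237317507141) (nat_lit 532) (nat_lit 1060556527603) (nat_lit 48) (nat_lit 5) (nat_lit 47) (nat_lit 5) (nat_lit 54) (nat_lit 5) (nat_lit 273) (nat_lit 270) (nat_lit 117))) (XT.nd (nat_lit 78) (nat_lit 304) (nat_lit 0) (XT.lf (nat_lit 0) (nat_lit 1720283050588) (nat_lit 456) (nat_lit 3819418771887) (nat_lit 532) (nat_lit 413006773380) (nat_lit 42) (nat_lit 5) (nat_lit 48) (nat_lit 5) (nat_lit 49) (nat_lit 5) (nat_lit 274) (nat_lit 270) (nat_lit 116)) (XT.lf (nat_lit 0) (nat_lit 522237285074) (nat_lit 304) (nat_lit 5239460720911) (nat_lit 76) (nat_lit 683814584561) (nat_lit 38) (nat_lit 5) (nat_lit 42) (nat_lit 5) (nat_lit 39) (nat_lit 5) (nat_lit 275) (nat_lit 270) (nat_lit 115))))))) (XT.nd (nat_lit 68718) (nat_lit 0) (nat_lit 456) (XT.nd (nat_lit 34242) (nat_lit 0) (nat_lit 228)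 (XT.nd (nat_lit 34008) (nat_lit 0) (nat_lit 988) (XT.nd (nat_lit 78) (nat_lit 228) (nat_lit 0) (XT.lf (nat_lit 0) (nat_lit 625242496480) (nat_lit 228) (nat_lit 1195862021080) (nat_lit 304) (nat_lit 5170451176982) (nat_lit 35) (nat_lit 5) (nat_lit 38) (nat_lit 5) (nat_lit 39) (nat_lit 5) (nat_lit 276) (nat_lit 270) (nat_lit 114)) (XT.nd (nat_lit 78) (nat_lit 228) (nat_lit 0) (XT.lf (nat_lit 0) (nat_lit 3568824431212) (nat_lit 304) (nat_lit 21846278831) (nat_lit 76) (nat_lit 4008512746393) (nat_lit 35) (nat_lit 5) (nat_lit 39) (nat_lit 5) (nat_lit 36) (nat_lit 5) (nat_lit 277) (nat_lit 270) (nat_lit 113)) (XT.lf (nat_lit 0) (nat_lit 5839048504462) (nat_lit 304) (nat_lit 702067623749) (nat_lit 76) (nat_lit 1736011560599) (nat_lit 32) (nat_lit 5) (nat_lit 36) (nat_lit 5) (nat_lit 33) (nat_lit 5) (nat_lit 278) (nat_lit 270) (nat_lit 112)))) (XT.nd (nat_lit 78) (nat_lit 0) (nat_lit 76) (XT.lf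 (nat_lit 0) (nat_lit 1639138823861) (nat_lit 532) (nat_lit 452669824196) (nat_lit 532) (nat_lit 452669824196) (nat_lit 45) (nat_lit 3) (nat_lit 52) (nat_lit 3) (nat_lit 52) (nat_lit 5) (nat_lit 271) (nat_lit 271) (nat_lit 118)) (XT.nd (nat_lit 78) (nat_lit 0) (nat_lit 0) (XT.lf (nat_lit 0) (nat_lit 3613158643575) (nat_lit 456) (nat_lit 1808097264549) (nat_lit 532) (nat_lit 42251993429) (nat_lit 46) (nat_lit 5) (nat_lit 52) (nat_lit 5) (nat_lit 53) (nat_lit 5) (nat_lit 272) (nat_lit 271) (nat_lit 117)) (XT.lf (nat_lit 76) (nat_lit 3101733350556) (nat_lit 0) (nat_lit 1113886323132) (nat_lit 532) (nat_lit 1661233997678) (nat_lit 47) (nat_lit 5) (nat_lit 46) (nat_lit 5) (nat_lit 53) (nat_lit 5) (nat_lit 273) (nat_lit 271) (nat_lit 116))))) (XT.nd (nat_lit 234) (nat_lit 228) (nat_lit 0) (XT.nd (nat_lit 78) (nat_lit 684) (nat_lit 0) (XT.lf (nat_lit 76) (nat_lit 2543045324977) (nat_lit 0) (nat_lit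 2572915134593) (nat_lit 532) (nat_lit 1219639998982) (nat_lit 48) (nat_lit 5) (nat_lit 47) (nat_lit 5) (nat_lit 54) (nat_lit 5) (nat_lit 274) (nat_lit 271) (nat_lit 115)) (XT.nd (nat_lit 78) (nat_lit 304) (nat_lit 0) (XT.lf (nat_lit 0) (nat_lit 1978325514048) (nat_lit 456) (nat_lit 4392331588144) (nat_lit 532) (nat_lit 474957782517) (nat_lit 42) (nat_lit 5) (nat_lit 48) (nat_lit 5) (nat_lit 49) (nat_lit 5) (nat_lit 275) (nat_lit 271) (nat_lit 114)) (XT.lf (nat_lit 0) (nat_lit 600572883645) (nat_lit 304) (nat_lit 6025379822862) (nat_lit 76) (nat_lit 786386772142) (nat_lit 38) (nat_lit 5) (nat_lit 42) (nat_lit 5) (nat_lit 39) (nat_lit 5) (nat_lit 276) (nat_lit 271) (nat_lit 113)))) (XT.nd (nat_lit 34086) (nat_lit 0) (nat_lit 836) (XT.nd (nat_lit 34008) (nat_lit 0) (nat_lit 760) (XT.lf (nat_lit 0) (nat_lit 719028876614) (nat_lit 228) (nat_lit 1375241323768) (nat_lit 304) (nat_lit 5946018847914)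 (nat_lit 35) (nat_lit 5) (nat_lit 38) (nat_lit 5) (nat_lit 39) (nat_lit 5) (nat_lit 277) (nat_lit 271) (nat_lit 112)) (XT.lf (nat_lit 0) (nat_lit 1885009651433) (nat_lit 532) (nat_lit 520570295664) (nat_lit 532) (nat_lit 520570295664) (nat_lit 45) (nat_lit 3) (nat_lit 52) (nat_lit 3) (nat_lit 52) (nat_lit 5) (nat_lit 272) (nat_lit 272) (nat_lit 116))) (XT.nd (nat_lit 78) (nat_lit 0) (nat_lit 0) (XT.lf (nat_lit 0) (nat_lit 4155132447077) (nat_lit 456) (nat_lit 2079311849616) (nat_lit 532) (nat_lit 48589789516) (nat_lit 46) (nat_lit 5) (nat_lit 52) (nat_lit 5) (nat_lit 53) (nat_lit 5) (nat_lit 273) (nat_lit 272) (nat_lit 115)) (XT.lf (nat_lit 76) (nat_lit 3566993357364) (nat_lit 0) (nat_lit 1280969273536) (nat_lit 532) (nat_lit 1910419090661) (nat_lit 47) (nat_lit 5) (nat_lit 46) (nat_lit 5) (nat_lit 53) (nat_lit 5) (nat_lit 274) (nat_lit 272) (nat_lit 114)))))) (XT.nd (nat_lit 34476) (nat_lit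 0) (nat_lit 304) (XT.nd (nat_lit 34242) (nat_lit 0) (nat_lit 532) (XT.nd (nat_lit 78) (nat_lit 684) (nat_lit 0) (XT.lf (nat_lit 76) (nat_lit 2924502128100) (nat_lit 0) (nat_lit 2958852405826) (nat_lit 532) (nat_lit 1402585992960) (nat_lit 48) (nat_lit 5) (nat_lit 47) (nat_lit 5) (nat_lit 54) (nat_lit 5) (nat_lit 275) (nat_lit 272) (nat_lit 113)) (XT.nd (nat_lit 78) (nat_lit 304) (nat_lit 0) (XT.lf (nat_lit 0) (nat_lit 2275074345595) (nat_lit 456) (nat_lit 5051181326724) (nat_lit 532) (nat_lit 546201444699) (nat_lit 42) (nat_lit 5) (nat_lit 48) (nat_lit 5) (nat_lit 49) (nat_lit 5) (nat_lit 276) (nat_lit 272) (nat_lit 112)) (XT.lf (nat_lit 0) (nat_lit 690658820585) (nat_lit 304) (nat_lit 6929186791614) (nat_lit 76) (nat_lit 904344787885) (nat_lit 38) (nat_lit 5) (nat_lit 42) (nat_lit 5) (nat_lit 39) (nat_lit 5) (nat_lit 277) (nat_lit 272) (nat_lit 111)))) (XT.nd (nat_lit 78) (nat_lit 0)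 (nat_lit 76) (XT.lf (nat_lit 0) (nat_lit 2167761102168) (nat_lit 532) (nat_lit 598655838379) (nat_lit 532) (nat_lit 598655838379) (nat_lit 45) (nat_lit 3) (nat_lit 52) (nat_lit 3) (nat_lit 52) (nat_lit 5) (nat_lit 273) (nat_lit 273) (nat_lit 114)) (XT.nd (nat_lit 78) (nat_lit 0) (nat_lit 0) (XT.lf (nat_lit 0) (nat_lit 4778402319405) (nat_lit 456) (nat_lit 2391208623569) (nat_lit 532) (nat_lit 55878255730) (nat_lit 46) (nat_lit 5) (nat_lit 52) (nat_lit 5) (nat_lit 53) (nat_lit 5) (nat_lit 274) (nat_lit 273) (nat_lit 113)) (XT.lf (nat_lit 76) (nat_lit 4102042364164) (nat_lit 0) (nat_lit 1473114666029) (nat_lit 532) (nat_lit 2196981949217) (nat_lit 47) (nat_lit 5) (nat_lit 46) (nat_lit 5) (nat_lit 53) (nat_lit 5) (nat_lit 275) (nat_lit 273) (nat_lit 112))))) (XT.nd (nat_lit 34320) (nat_lit 0) (nat_lit 304) (XT.nd (nat_lit 78) (nat_lit 380) (nat_lit 0) (XT.lf (nat_lit 76) (nat_lit 3363177450625)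 (nat_lit 0) (nat_lit 3402680267489) (nat_lit 532) (nat_lit 1612973887467) (nat_lit 48) (nat_lit 5) (nat_lit 47) (nat_lit 5) (nat_lit 54) (nat_lit 5) (nat_lit 276) (nat_lit 273) (nat_lit 111)) (XT.nd (nat_lit 34164) (nat_lit 0) (nat_lit 228) (XT.lf (nat_lit 0) (nat_lit 2616335500792) (nat_lit 456) (nat_lit 5808858526004) (nat_lit 532) (nat_lit 628131657476) (nat_lit 42) (nat_lit 5) (nat_lit 48) (nat_lit 5) (nat_lit 49) (nat_lit 5) (nat_lit 277) (nat_lit 273) (nat_lit 110)) (XT.lf (nat_lit 0) (nat_lit 2492925269776) (nat_lit 532) (nat_lit 688454212899) (nat_lit 532) (nat_lit 688454212899) (nat_lit 45) (nat_lit 3) (nat_lit 52) (nat_lit 3) (nat_lit 52) (nat_lit 5) (nat_lit 274) (nat_lit 274) (nat_lit 112)))) (XT.nd (nat_lit 156) (nat_lit 0) (nat_lit 0) (XT.nd (nat_lit 78) (nat_lit 0) (nat_lit 0) (XT.lf (nat_lit 0) (nat_lit 5495162671299) (nat_lit 456) (nat_lit 2749889914465) (nat_lit 532)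 (nat_lit 64259992416) (nat_lit 46) (nat_lit 5) (nat_lit 52) (nat_lit 5) (nat_lit 53) (nat_lit 5) (nat_lit 275) (nat_lit 274) (nat_lit 111)) (XT.lf (nat_lit 76) (nat_lit 4717348721204) (nat_lit 0) (nat_lit 1694081867039) (nat_lit 532) (nat_lit 2526529237787) (nat_lit 47) (nat_lit 5) (nat_lit 46) (nat_lit 5) (nat_lit 53) (nat_lit 5) (nat_lit 276) (nat_lit 274) (nat_lit 110))) (XT.nd (nat_lit 34320) (nat_lit 76) (nat_lit 0) (XT.lf (nat_lit 76) (nat_lit 3867654070721) (nat_lit 0) (nat_lit 3913082308209) (nat_lit 532) (nat_lit 1854919967231) (nat_lit 48) (nat_lit 5) (nat_lit 47) (nat_lit 5) (nat_lit 54) (nat_lit 5) (nat_lit 277) (nat_lit 274) (nat_lit 109)) (XT.lf (nat_lit 0) (nat_lit 6319437075005) (nat_lit 456) (nat_lit 3162373399640) (nat_lit 532) (nat_lit 73898990013) (nat_lit 46) (nat_lit 5) (nat_lit 52) (nat_lit 5) (nat_lit 53) (nat_lit 5) (nat_lit 276) (nat_lit 275) (nat_lit 109))))))))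

set_option maxRecDepth 10000000 in
noncomputable def Tp : PT := (PT.nd (nat_lit 3860688) (PT.nd (nat_lit 3689244) pc0 pc1) (PT.nd (nat_lit 69498) pc2 pc3))

set_option maxRecDepth 10000000 in
noncomputable def Tx : XT := (XT.nd (nat_lit 6420492) (nat_lit 0) (nat_lit 76) XT.nil (XT.nd (nat_lit 3060564) (nat_lit 0) (nat_lit 0) (XT.nd (nat_lit 1374126) (nat_lit 0) (nat_lit 0) (XT.nd (nat_lit 928746) (nat_lit 0) (nat_lit 0) (XT.nd (nat_lit 652314) (nat_lit 0) (nat_lit 0) (XT.nd (nat_lit 446628) (nat_lit 0) (nat_lit 0) (XT.nd (nat_lit 308958) (nat_lit 0) (nat_lit 0) (XT.nd (nat_lit 206076) (nat_lit 0) (nat_lit 0) xc0 xc1) (XT.nd (nat_lit 69108) (nat_lit 0) (nat_lit 0) xc2 xc3)) (XT.nd (nat_lit 103506) (nat_lit 0) (nat_lit 0) (XT.nd (nat_lit 67860) (nat_lit 0) (nat_lit 0) xc4 xc5) (XT.nd (nat_lit 66924) (nat_lit 0) (nat_lit 0) xc6 xc7))) (XT.nd (nat_lit 169962) (nat_lit 0) (nat_lit 0) (XT.nd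 (nat_lit 69888) (nat_lit 0) (nat_lit 0) (XT.nd (nat_lit 35022) (nat_lit 0) (nat_lit 0) xc8 xc9) (XT.nd (nat_lit 65520) (nat_lit 0) (nat_lit 0) xc10 xc11)) (XT.nd (nat_lit 68484) (nat_lit 0) (nat_lit 0) (XT.nd (nat_lit 34320) (nat_lit 0) (nat_lit 0) xc12 xc13) (XT.nd (nat_lit 34008) (nat_lit 0) (nat_lit 0) xc14 xc15)))) (XT.nd (nat_lit 237822) (nat_lit 0) (nat_lit 0) (XT.nd (nat_lit 134550) (nat_lit 0) (nat_lit 0) (XT.nd (nat_lit 67548) (nat_lit 0) (nat_lit 0) (XT.nd (nat_lit 33852) (nat_lit 0) (nat_lit 0) xc16 xc17) (XT.nd (nat_lit 33540) (nat_lit 0) (nat_lit 0) xc18 xc19)) (XT.nd (nat_lit 37128) (nat_lit 0) (nat_lit 0) (XT.nd (nat_lit 33228) (nat_lit 0) (nat_lit 0) xc20 xc21) (XT.nd (nat_lit 33072) (nat_lit 0) (nat_lit 0) xc22 xc23))) (XT.nd (nat_lit 103428) (nat_lit 0) (nat_lit 0) (XT.nd (nat_lit 36972) (nat_lit 0) (nat_lit 0) (XT.nd (nat_lit 33072) (nat_lit 0) (nat_lit 0) xc24 xc25)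 (XT.nd (nat_lit 33150) (nat_lit 0) (nat_lit 0) xc26 xc27)) (XT.nd (nat_lit 66690) (nat_lit 0) (nat_lit 0) (XT.nd (nat_lit 33306) (nat_lit 0) (nat_lit 0) xc28 xc29) (XT.nd (nat_lit 3900) (nat_lit 0) (nat_lit 0) xc30 xc31))))) (XT.nd (nat_lit 516672) (nat_lit 0) (nat_lit 76) (XT.nd (nat_lit 240708) (nat_lit 0) (nat_lit 0) (XT.nd (nat_lit 104832) (nat_lit 0) (nat_lit 0) (XT.nd (nat_lit 67158) (nat_lit 0) (nat_lit 0) (XT.nd (nat_lit 33540) (nat_lit 0) (nat_lit 0) xc32 xc33) (XT.nd (nat_lit 33696) (nat_lit 0) (nat_lit 0) xc34 xc35)) (XT.nd (nat_lit 67704) (nat_lit 0) (nat_lit 0) (XT.nd (nat_lit 33774) (nat_lit 0) (nat_lit 0) xc36 xc37) (XT.nd (nat_lit 34008) (nat_lit 0) (nat_lit 0) xc38 xc39))) (XT.nd (nat_lit 137202) (nat_lit 0) (nat_lit 0) (XT.nd (nat_lit 68406) (nat_lit 0) (nat_lit 0) (XT.nd (nat_lit 34164) (nat_lit 0) (nat_lit 0) xc40 xc41) (XT.nd (nat_lit 34320) (nat_lit 0) (nat_lit 0)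 xc42 xc43)) (XT.nd (nat_lit 69186) (nat_lit 0) (nat_lit 0) (XT.nd (nat_lit 34554) (nat_lit 0) (nat_lit 0) xc44 xc45) (XT.nd (nat_lit 34710) (nat_lit 0) (nat_lit 0) xc46 xc47)))) (XT.nd (nat_lit 377130) (nat_lit 0) (nat_lit 152) (XT.nd (nat_lit 171444) (nat_lit 0) (nat_lit 0) (XT.nd (nat_lit 100932) (nat_lit 0) (nat_lit 0) (XT.nd (nat_lit 34866) (nat_lit 0) (nat_lit 0) xc48 xc49) (XT.nd (nat_lit 35178) (nat_lit 0) (nat_lit 0) xc50 xc51)) (XT.nd (nat_lit 102336) (nat_lit 0) (nat_lit 152) (XT.nd (nat_lit 35334) (nat_lit 0) (nat_lit 0) xc52 xc53) (XT.nd (nat_lit 35646) (nat_lit 0) (nat_lit 0) xc54 xc55))) (XT.nd (nat_lit 241644) (nat_lit 0) (nat_lit 456) (XT.nd (nat_lit 104130) (nat_lit 0) (nat_lit 152) (XT.nd (nat_lit 35880) (nat_lit 0) (nat_lit 76) xc56 xc57) (XT.nd (nat_lit 68562) (nat_lit 0) (nat_lit 152) xc58 xc59)) (XT.nd (nat_lit 172224) (nat_lit 0) (nat_lit 532) (XT.nd (nat_lit 69342)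 (nat_lit 0) (nat_lit 152) xc60 xc61) (XT.nd (nat_lit 137358) (nat_lit 0) (nat_lit 760) xc62 xc63)))))) XT.nil))

set_option maxRecDepth 10000000 in
noncomputable def Te : XT := XT.nil

set_option maxRecDepth 10000000 in
noncomputable def Tz : ZL := (ZL.cons (nat_lit 76) (nat_lit 3) (nat_lit 114829330779728197479) (ZL.cons (nat_lit 152) (nat_lit 6) (nat_lit 215529441887048215310) (ZL.cons (nat_lit 228) (nat_lit 6) (nat_lit 203409010830917238504) (ZL.cons (nat_lit 304) (nat_lit 3) (nat_lit 100744465516124100696) (ZL.cons (nat_lit 380) (nat_lit 6) (nat_lit 189470515116366615174) (ZL.cons (nat_lit 456) (nat_lit 6) (nat_lit 179239051219310121276) (ZL.cons (nat_lit 532) (nat_lit 3) (nat_lit 88784708305885914068) (ZL.cons (nat_lit 608) (nat_lit 6) (nat_lit 167472867737695153290) (ZL.cons (nat_lit 684) (nat_lit 6) (nat_lit 158983327320513351348) (ZL.cons (nat_lit 760) (nat_lit 3) (nat_lit 78765735570022635179)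 (ZL.cons (nat_lit 836) (nat_lit 6) (nat_lit 149220355840754279116) (ZL.cons (nat_lit 912) (nat_lit 6) (nat_lit 142376913062227355818) (ZL.cons (nat_lit 988) (nat_lit 3) (nat_lit 70557214713518860088) (ZL.cons (nat_lit 1064) (nat_lit 6) (nat_lit 136867249358797669366) (ZL.cons (nat_lit 1140) (nat_lit 6) (nat_lit 134506953866921394030) (ZL.cons (nat_lit 1216) (nat_lit 6) (nat_lit 129268652464663894298) (ZL.cons (nat_lit 1292) (nat_lit 3) (nat_lit 64085420303988627302) (ZL.cons (nat_lit 1368) (nat_lit 6) (nat_lit 125297036714568878594) (ZL.cons (nat_lit 1444) (nat_lit 6) (nat_lit 123244605852067769606) (ZL.cons (nat_lit 1520) (nat_lit 3) (nat_lit 60160248104228468906) (ZL.cons (nat_lit 1596) (nat_lit 6) (nat_lit 120866302723336155254) (ZL.cons (nat_lit 1672) (nat_lit 6) (nat_lit 122514401091091009652) (ZL.cons (nat_lit 1748) (nat_lit 6) (nat_lit 119631866745272970840) (ZL.cons (nat_lit 1824)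 (nat_lit 3) (nat_lit 59338623869729250773) (ZL.cons (nat_lit 1900) (nat_lit 6) (nat_lit 116088455254600033884) (ZL.cons (nat_lit 1976) (nat_lit 6) (nat_lit 117261939261590351380) (ZL.cons (nat_lit 2052) (nat_lit 6) (nat_lit 115477216772458952262) (ZL.cons (nat_lit 2128) (nat_lit 3) (nat_lit 56477113078714884825) (ZL.cons (nat_lit 2204) (nat_lit 6) (nat_lit 113581903649540869704) (ZL.cons (nat_lit 2280) (nat_lit 3) (nat_lit 56375900083111969940) (ZL.cons (nat_lit 2356) (nat_lit 6) (nat_lit 111402293558185074764) (ZL.cons (nat_lit 2432) (nat_lit 1) (nat_lit 18446744073709551617) ZL.nil))))))))))))))))))))))))))))))))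

noncomputable def vl : XL := ⟨(nat_lit 0), (nat_lit 76), (nat_lit 230075448), (nat_lit 152), (nat_lit 159374174), (nat_lit 152), (nat_lit 159374174), (nat_lit 1), (nat_lit 4), (nat_lit 2), (nat_lit 5), (nat_lit 2), (nat_lit 4), (nat_lit 0), (nat_lit 0), (nat_lit 0)⟩

noncomputable def cp0 : Nat := (nat_lit 4663898812131136850185781837959580874368497707436687847409428795390556782202443048729083441375017656200847086234137917373669462425983593695739532111228781415222495017685870351321174696637988317734820941581595036563574905035603637097628412456452008430356444618479074371765094943998207392120066341067199117377284613681337085213172982960885658645229868128889984064690640626824185277209204108585556764826853844870433349812575361720490779789835822132557114444257557943375024209695021293273636751348558538721706465371724618095767649059426602012868869417859603757721294533496810720079104125373388645647543871773661097963798122408180851648016101989053548013517087228555178711303989673693430436972279976274938809149158987572331180107558514925123264351429459968)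

noncomputable def cp1 : Nat := (nat_lit 137049168358125859123161656650216274123490548008116802374192940614763712890988517281644798384090405098023627852686510526222828803216295963336912286993035955768336602639431994239926709924708050312932251315841882623910061954387379187756132937419478615258741272479250213717244699035919752297091481705494826725721973264738139282590046906506391633303422259746608202992727307532164272781244704499816363219435415831558595638770648710408495041654884490727455553991625577677416535237603207656842139511329983482900843083643793628583342999768067082075098514703796994063680747029729967427141535549487795282490653654468105481031816876377567508713162247171547145750449127706194093793397097343532266559368241078961116877678763887964799962707256441243575894478140700827503296240701939211417520345286712969487960228753159519777446718782138953017310694873995521473678688850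89792604048101181122109995312671521073814196450121843768486234560396768860245586782988042397935885318310269091104665927120699197578412801056382729392152309757335388376027609339542473855512028999944363751486148800823248655268479982896982747000397307767543495108669732987844808820833487299592834430607488274117136626512413679511229689990120330999346345370340727923011291111105789244793953348588056242117585318433092695068182866510398739498382982037486307380758165045114487564374612285604398625563304223031516921270410516292113348591286663732015128438154000120819140571368693265045882945614617141792986627212856838258702517908761953329881283850533528887686250520735603630038473926608942531637879086806670329058265890759422884950909414744583569408)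

noncomputable def rc0 : Nat := (nat_lit 137049168358125859123161656650216274123490548008116802374192940614763712890988517281644798384090405098023627852686510526222828803216295963336912286993035955768336602639431994239926709924708050312932251315841882623910061954387379187756132937419478615258741272479250213717244699035919752297091481705494826725721973264738139282590046906506391633303422259746608202992727307532164272781244704499816363219435415831558595638770648710408495041654884490727455553991625577677416535237603207656842139511329983482900843083643793628583342999768067082075098514703796994063680747029729967427141535549487795282490653654468105481031816876377567508713162247171547145750449127706194093793397097343532266559368241078961116877678763887964799962707256441243575894478140700827503296240701939211417520345286712969487960228753159519777446718782138953017310694873995521473678688850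89792604048101181122109995312671521073814196450121843768486234560396768860245586782988042397935885318310269091104665927120699197578412801056382729392152309757335388376027609339542473855512028999944363751486148800823248655268479982896982747000397307767543495108669732987844808820833487299592834430607488274117136626512413679511229689990120330999346345370340727923011291111105789244793953348588056242117585318433092695068182866510398739498382982037486307380758165045114487564374612285604398625563304223031516921270410516292113348591286663732015128438154000120819140571368693265045882945614617141792986627212856838258702517908761953329881283850533528887686250520735603630038473926608942531637879086806670329058265890759422884950909414744583569408)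

end Vale.Agent.Lib.P154.PChain.BM.S1
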