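import Vale.Agent.Lib.P154.PChain.BM.R1_0

set_option linter.all false

namespace Vale.Agent.Lib.P154.PChain.BM.S2

open Vale.Agent.Lib.P154.Chain

noncomputable def pc0 : PT := (PT.nd (nat_lit 4521738) (PT.nd (nat_lit 4359264) (PT.nd (nat_lit 4237584) (PT.nd (nat_lit 4196946) (PT.nd (nat_lit 4196868) (PT.nd (nat_lit 4156308) PT.nil (PT.lf (nat_lit 76) (nat_lit 3) (nat_lit 1) (nat_lit 1) (nat_lit 144) (nat_lit 102) (nat_lit 144))) (PT.lf (nat_lit 152) (nat_lit 6) (nat_lit 2) (nat_lit 3) (nat_lit 143) (nat_lit 103) (nat_lit 144))) (PT.nd (nat_lit 40482) (PT.lf (nat_lit 152) (nat_lit 6) (nat_lit 2) (nat_lit 1) (nat_lit 144) (nat_lit 103) (nat_lit 143)) (PT.nd (nat_lit 78) (PT.lf (nat_lit 228) (nat_lit 6) (nat_lit 3) (nat_lit 3) (nat_lit 142) (nat_lit 104) (nat_lit 144)) (PT.lf (nat_lit 304) (nat_lit 3) (nat_lit 4) (nat_lit 1) (nat_lit 143) (nat_lit 104) (nat_lit 143))))) (PT.nd (nat_lit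 81042) (PT.nd (nat_lit 40482) (PT.lf (nat_lit 228) (nat_lit 6) (nat_lit 3) (nat_lit 1) (nat_lit 144) (nat_lit 104) (nat_lit 142)) (PT.nd (nat_lit 78) (PT.lf (nat_lit 380) (nat_lit 6) (nat_lit 5) (nat_lit 3) (nat_lit 142) (nat_lit 105) (nat_lit 143)) (PT.lf (nat_lit 380) (nat_lit 6) (nat_lit 5) (nat_lit 1) (nat_lit 143) (nat_lit 105) (nat_lit 142)))) (PT.nd (nat_lit 78) (PT.lf (nat_lit 456) (nat_lit 6) (nat_lit 6) (nat_lit 3) (nat_lit 141) (nat_lit 106) (nat_lit 143)) (PT.nd (nat_lit 78) (PT.lf (nat_lit 532) (nat_lit 3) (nat_lit 7) (nat_lit 1) (nat_lit 142) (nat_lit 106) (nat_lit 142)) (PT.lf (nat_lit 456) (nat_lit 6) (nat_lit 6) (nat_lit 1) (nat_lit 143) (nat_lit 106) (nat_lit 141)))))) (PT.nd (nat_lit 81198) (PT.nd (nat_lit 40560) (PT.nd (nat_lit 78) (PT.lf (nat_lit 608) (nat_lit 6) (nat_lit 8) (nat_lit 3) (nat_lit 141) (nat_lit 107) (nat_lit 142)) (PT.lf (nat_lit 608) (nat_lit 6) (nat_lit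 8) (nat_lit 1) (nat_lit 142) (nat_lit 107) (nat_lit 141))) (PT.nd (nat_lit 78) (PT.lf (nat_lit 684) (nat_lit 6) (nat_lit 9) (nat_lit 3) (nat_lit 140) (nat_lit 108) (nat_lit 142)) (PT.nd (nat_lit 78) (PT.lf (nat_lit 760) (nat_lit 3) (nat_lit 10) (nat_lit 1) (nat_lit 141) (nat_lit 108) (nat_lit 141)) (PT.lf (nat_lit 684) (nat_lit 6) (nat_lit 9) (nat_lit 1) (nat_lit 142) (nat_lit 108) (nat_lit 140))))) (PT.nd (nat_lit 40638) (PT.nd (nat_lit 78) (PT.lf (nat_lit 836) (nat_lit 6) (nat_lit 11) (nat_lit 3) (nat_lit 140) (nat_lit 109) (nat_lit 141)) (PT.nd (nat_lit 40482) (PT.lf (nat_lit 836) (nat_lit 6) (nat_lit 11) (nat_lit 1) (nat_lit 141) (nat_lit 109) (nat_lit 140)) (PT.lf (nat_lit 912) (nat_lit 6) (nat_lit 12) (nat_lit 3) (nat_lit 139) (nat_lit 110) (nat_lit 141)))) (PT.nd (nat_lit 78) (PT.lf (nat_lit 988) (nat_lit 3) (nat_lit 13) (nat_lit 1) (nat_lit 140) (nat_lit 110) (nat_lit 140)) (PT.nd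 (nat_lit 40482) (PT.lf (nat_lit 912) (nat_lit 6) (nat_lit 12) (nat_lit 1) (nat_lit 141) (nat_lit 110) (nat_lit 139)) (PT.lf (nat_lit 1064) (nat_lit 6) (nat_lit 14) (nat_lit 3) (nat_lit 139) (nat_lit 111) (nat_lit 140))))))) (PT.nd (nat_lit 162240) (PT.nd (nat_lit 81120) (PT.nd (nat_lit 40560) (PT.nd (nat_lit 40482) (PT.lf (nat_lit 1064) (nat_lit 6) (nat_lit 14) (nat_lit 1) (nat_lit 140) (nat_lit 111) (nat_lit 139)) (PT.lf (nat_lit 1140) (nat_lit 6) (nat_lit 15) (nat_lit 3) (nat_lit 138) (nat_lit 112) (nat_lit 140))) (PT.nd (nat_lit 78) (PT.lf (nat_lit 1216) (nat_lit 3) (nat_lit 16) (nat_lit 1) (nat_lit 139) (nat_lit 112) (nat_lit 139)) (PT.nd (nat_lit 40404) (PT.lf (nat_lit 1140) (nat_lit 6) (nat_lit 15) (nat_lit 1) (nat_lit 140) (nat_lit 112) (nat_lit 138)) (PT.lf (nat_lit 1292) (nat_lit 6) (nat_lit 17) (nat_lit 3) (nat_lit 137) (nat_lit 113) (nat_lit 140))))) (PT.nd (nat_lit 40560)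 (PT.nd (nat_lit 78) (PT.lf (nat_lit 1368) (nat_lit 6) (nat_lit 18) (nat_lit 3) (nat_lit 138) (nat_lit 113) (nat_lit 139)) (PT.nd (nat_lit 78) (PT.lf (nat_lit 1368) (nat_lit 6) (nat_lit 18) (nat_lit 1) (nat_lit 139) (nat_lit 113) (nat_lit 138)) (PT.lf (nat_lit 1292) (nat_lit 6) (nat_lit 17) (nat_lit 1) (nat_lit 140) (nat_lit 113) (nat_lit 137)))) (PT.nd (nat_lit 78) (PT.lf (nat_lit 1444) (nat_lit 6) (nat_lit 19) (nat_lit 3) (nat_lit 137) (nat_lit 114) (nat_lit 139)) (PT.nd (nat_lit 78) (PT.lf (nat_lit 1520) (nat_lit 3) (nat_lit 20) (nat_lit 1) (nat_lit 138) (nat_lit 114) (nat_lit 138)) (PT.lf (nat_lit 1444) (nat_lit 6) (nat_lit 19) (nat_lit 1) (nat_lit 139) (nat_lit 114) (nat_lit 137)))))) (PT.nd (nat_lit 40716) (PT.nd (nat_lit 156) (PT.nd (nat_lit 78) (PT.lf (nat_lit 1596) (nat_lit 6) (nat_lit 21) (nat_lit 3) (nat_lit 136) (nat_lit 115) (nat_lit 139)) (PT.lf (nat_lit 1672) (nat_lit 6)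 (nat_lit 22) (nat_lit 3) (nat_lit 137) (nat_lit 115) (nat_lit 138))) (PT.nd (nat_lit 78) (PT.lf (nat_lit 1672) (nat_lit 6) (nat_lit 22) (nat_lit 1) (nat_lit 138) (nat_lit 115) (nat_lit 137)) (PT.nd (nat_lit 40404) (PT.lf (nat_lit 1596) (nat_lit 6) (nat_lit 21) (nat_lit 1) (nat_lit 139) (nat_lit 115) (nat_lit 136)) (PT.lf (nat_lit 1748) (nat_lit 6) (nat_lit 23) (nat_lit 3) (nat_lit 136) (nat_lit 116) (nat_lit 138))))) (PT.nd (nat_lit 40560) (PT.nd (nat_lit 78) (PT.lf (nat_lit 1824) (nat_lit 3) (nat_lit 24) (nat_lit 1) (nat_lit 137) (nat_lit 116) (nat_lit 137)) (PT.nd (nat_lit 40404) (PT.lf (nat_lit 1748) (nat_lit 6) (nat_lit 23) (nat_lit 1) (nat_lit 138) (nat_lit 116) (nat_lit 136)) (PT.lf (nat_lit 1900) (nat_lit 6) (nat_lit 25) (nat_lit 3) (nat_lit 135) (nat_lit 117) (nat_lit 138)))) (PT.nd (nat_lit 78) (PT.lf (nat_lit 1976) (nat_lit 6) (nat_lit 26) (nat_lit 3) (nat_lit 136) (nat_lit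 117) (nat_lit 137)) (PT.nd (nat_lit 78) (PT.lf (nat_lit 1976) (nat_lit 6) (nat_lit 26) (nat_lit 1) (nat_lit 137) (nat_lit 117) (nat_lit 136)) (PT.lf (nat_lit 1900) (nat_lit 6) (nat_lit 25) (nat_lit 1) (nat_lit 138) (nat_lit 117) (nat_lit 135))))))))
noncomputable def pc1 : PT := (PT.nd (nat_lit 162474) (PT.nd (nat_lit 81354) (PT.nd (nat_lit 40638) (PT.nd (nat_lit 156) (PT.nd (nat_lit 78) (PT.lf (nat_lit 2052) (nat_lit 6) (nat_lit 27) (nat_lit 3) (nat_lit 134) (nat_lit 118) (nat_lit 138)) (PT.lf (nat_lit 2128) (nat_lit 6) (nat_lit 28) (nat_lit 3) (nat_lit 135) (nat_lit 118) (nat_lit 137))) (PT.nd (nat_lit 78) (PT.lf (nat_lit 2204) (nat_lit 3) (nat_lit 29) (nat_lit 1) (nat_lit 136) (nat_lit 118) (nat_lit 136)) (PT.nd (nat_lit 78) (PT.lf (nat_lit 2128) (nat_lit 6) (nat_lit 28) (nat_lit 1) (nat_lit 137) (nat_lit 118) (nat_lit 135)) (PT.lf (nat_lit 2052) (nat_lit 6) (nat_lit 27) (nat_lit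 1) (nat_lit 138) (nat_lit 118) (nat_lit 134))))) (PT.nd (nat_lit 234) (PT.nd (nat_lit 78) (PT.lf (nat_lit 2280) (nat_lit 6) (nat_lit 30) (nat_lit 3) (nat_lit 134) (nat_lit 119) (nat_lit 137)) (PT.nd (nat_lit 78) (PT.lf (nat_lit 2356) (nat_lit 6) (nat_lit 31) (nat_lit 3) (nat_lit 135) (nat_lit 119) (nat_lit 136)) (PT.lf (nat_lit 2356) (nat_lit 6) (nat_lit 31) (nat_lit 1) (nat_lit 136) (nat_lit 119) (nat_lit 135)))) (PT.nd (nat_lit 40326) (PT.lf (nat_lit 2280) (nat_lit 6) (nat_lit 30) (nat_lit 1) (nat_lit 137) (nat_lit 119) (nat_lit 134)) (PT.nd (nat_lit 78) (PT.lf (nat_lit 2432) (nat_lit 6) (nat_lit 32) (nat_lit 3) (nat_lit 133) (nat_lit 120) (nat_lit 137)) (PT.lf (nat_lit 2508) (nat_lit 6) (nat_lit 33) (nat_lit 3) (nat_lit 134) (nat_lit 120) (nat_lit 136)))))) (PT.nd (nat_lit 40560) (PT.nd (nat_lit 156) (PT.nd (nat_lit 78) (PT.lf (nat_lit 2584) (nat_lit 3) (nat_lit 34) (nat_lit 1) (nat_lit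 135) (nat_lit 120) (nat_lit 135)) (PT.lf (nat_lit 2508) (nat_lit 6) (nat_lit 33) (nat_lit 1) (nat_lit 136) (nat_lit 120) (nat_lit 134))) (PT.nd (nat_lit 40248) (PT.lf (nat_lit 2432) (nat_lit 6) (nat_lit 32) (nat_lit 1) (nat_lit 137) (nat_lit 120) (nat_lit 133)) (PT.nd (nat_lit 78) (PT.lf (nat_lit 2660) (nat_lit 6) (nat_lit 35) (nat_lit 3) (nat_lit 132) (nat_lit 121) (nat_lit 137)) (PT.lf (nat_lit 2736) (nat_lit 6) (nat_lit 36) (nat_lit 3) (nat_lit 133) (nat_lit 121) (nat_lit 136))))) (PT.nd (nat_lit 234) (PT.nd (nat_lit 78) (PT.lf (nat_lit 2812) (nat_lit 6) (nat_lit 37) (nat_lit 3) (nat_lit 134) (nat_lit 121) (nat_lit 135)) (PT.nd (nat_lit 78) (PT.lf (nat_lit 2812) (nat_lit 6) (nat_lit 37) (nat_lit 1) (nat_lit 135) (nat_lit 121) (nat_lit 134)) (PT.lf (nat_lit 2736) (nat_lit 6) (nat_lit 36) (nat_lit 1) (nat_lit 136) (nat_lit 121) (nat_lit 133)))) (PT.nd (nat_lit 40170) (PT.lf (nat_lit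 2660) (nat_lit 6) (nat_lit 35) (nat_lit 1) (nat_lit 137) (nat_lit 121) (nat_lit 132)) (PT.nd (nat_lit 78) (PT.lf (nat_lit 2888) (nat_lit 6) (nat_lit 38) (nat_lit 3) (nat_lit 131) (nat_lit 122) (nat_lit 137)) (PT.lf (nat_lit 2964) (nat_lit 6) (nat_lit 39) (nat_lit 3) (nat_lit 132) (nat_lit 122) (nat_lit 136))))))) (PT.nd (nat_lit 81042) (PT.nd (nat_lit 40482) (PT.nd (nat_lit 156) (PT.nd (nat_lit 78) (PT.lf (nat_lit 3040) (nat_lit 6) (nat_lit 40) (nat_lit 3) (nat_lit 133) (nat_lit 122) (nat_lit 135)) (PT.lf (nat_lit 3116) (nat_lit 3) (nat_lit 41) (nat_lit 1) (nat_lit 134) (nat_lit 122) (nat_lit 134))) (PT.nd (nat_lit 78) (PT.lf (nat_lit 3040) (nat_lit 6) (nat_lit 40) (nat_lit 1) (nat_lit 135) (nat_lit 122) (nat_lit 133)) (PT.nd (nat_lit 78) (PT.lf (nat_lit 2964) (nat_lit 6) (nat_lit 39) (nat_lit 1) (nat_lit 136) (nat_lit 122) (nat_lit 132)) (PT.lf (nat_lit 2888) (nat_lit 6) (nat_lit 38)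 (nat_lit 1) (nat_lit 137) (nat_lit 122) (nat_lit 131))))) (PT.nd (nat_lit 234) (PT.nd (nat_lit 78) (PT.lf (nat_lit 3192) (nat_lit 6) (nat_lit 42) (nat_lit 3) (nat_lit 131) (nat_lit 123) (nat_lit 136)) (PT.nd (nat_lit 78) (PT.lf (nat_lit 3268) (nat_lit 6) (nat_lit 43) (nat_lit 3) (nat_lit 132) (nat_lit 123) (nat_lit 135)) (PT.lf (nat_lit 3344) (nat_lit 6) (nat_lit 44) (nat_lit 3) (nat_lit 133) (nat_lit 123) (nat_lit 134)))) (PT.nd (nat_lit 78) (PT.lf (nat_lit 3344) (nat_lit 6) (nat_lit 44) (nat_lit 1) (nat_lit 134) (nat_lit 123) (nat_lit 133)) (PT.nd (nat_lit 78) (PT.lf (nat_lit 3268) (nat_lit 6) (nat_lit 43) (nat_lit 1) (nat_lit 135) (nat_lit 123) (nat_lit 132)) (PT.lf (nat_lit 3192) (nat_lit 6) (nat_lit 42) (nat_lit 1) (nat_lit 136) (nat_lit 123) (nat_lit 131)))))) (PT.nd (nat_lit 468) (PT.nd (nat_lit 234) (PT.nd (nat_lit 78) (PT.lf (nat_lit 3648) (nat_lit 6) (nat_lit 48) (nat_lit 3)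 (nat_lit 130) (nat_lit 124) (nat_lit 136)) (PT.nd (nat_lit 78) (PT.lf (nat_lit 3724) (nat_lit 6) (nat_lit 49) (nat_lit 3) (nat_lit 131) (nat_lit 124) (nat_lit 135)) (PT.lf (nat_lit 3800) (nat_lit 6) (nat_lit 50) (nat_lit 3) (nat_lit 132) (nat_lit 124) (nat_lit 134)))) (PT.nd (nat_lit 78) (PT.lf (nat_lit 3876) (nat_lit 3) (nat_lit 51) (nat_lit 1) (nat_lit 133) (nat_lit 124) (nat_lit 133)) (PT.nd (nat_lit 78) (PT.lf (nat_lit 3800) (nat_lit 6) (nat_lit 50) (nat_lit 1) (nat_lit 134) (nat_lit 124) (nat_lit 132)) (PT.lf (nat_lit 3724) (nat_lit 6) (nat_lit 49) (nat_lit 1) (nat_lit 135) (nat_lit 124) (nat_lit 131))))) (PT.nd (nat_lit 40248) (PT.nd (nat_lit 40092) (PT.lf (nat_lit 3648) (nat_lit 6) (nat_lit 48) (nat_lit 1) (nat_lit 136) (nat_lit 124) (nat_lit 130)) (PT.nd (nat_lit 78) (PT.lf (nat_lit 3572) (nat_lit 6) (nat_lit 47) (nat_lit 3) (nat_lit 129) (nat_lit 125) (nat_lit 136)) (PT.lf (nat_lit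 4104) (nat_lit 6) (nat_lit 54) (nat_lit 3) (nat_lit 130) (nat_lit 125) (nat_lit 135)))) (PT.nd (nat_lit 78) (PT.lf (nat_lit 4180) (nat_lit 6) (nat_lit 55) (nat_lit 3) (nat_lit 131) (nat_lit 125) (nat_lit 134)) (PT.nd (nat_lit 78) (PT.lf (nat_lit 4256) (nat_lit 6) (nat_lit 56) (nat_lit 3) (nat_lit 132) (nat_lit 125) (nat_lit 133)) (PT.lf (nat_lit 4256) (nat_lit 6) (nat_lit 56) (nat_lit 1) (nat_lit 133) (nat_lit 125) (nat_lit 132))))))))
noncomputable def pc2 : PT := (PT.nd (nat_lit 121290) (PT.nd (nat_lit 40794) (PT.nd (nat_lit 40326) (PT.nd (nat_lit 156) (PT.nd (nat_lit 78) (PT.lf (nat_lit 4180) (nat_lit 6) (nat_lit 55) (nat_lit 1) (nat_lit 134) (nat_lit 125) (nat_lit 131)) (PT.lf (nat_lit 4104) (nat_lit 6) (nat_lit 54) (nat_lit 1) (nat_lit 135) (nat_lit 125) (nat_lit 130))) (PT.nd (nat_lit 40014) (PT.lf (nat_lit 3572) (nat_lit 6) (nat_lit 47) (nat_lit 1) (nat_lit 136) (nat_lit 125)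 (nat_lit 129)) (PT.nd (nat_lit 78) (PT.lf (nat_lit 3496) (nat_lit 6) (nat_lit 46) (nat_lit 3) (nat_lit 128) (nat_lit 126) (nat_lit 136)) (PT.lf (nat_lit 4028) (nat_lit 6) (nat_lit 53) (nat_lit 3) (nat_lit 129) (nat_lit 126) (nat_lit 135))))) (PT.nd (nat_lit 234) (PT.nd (nat_lit 78) (PT.lf (nat_lit 4484) (nat_lit 6) (nat_lit 59) (nat_lit 3) (nat_lit 130) (nat_lit 126) (nat_lit 134)) (PT.nd (nat_lit 78) (PT.lf (nat_lit 4560) (nat_lit 6) (nat_lit 60) (nat_lit 3) (nat_lit 131) (nat_lit 126) (nat_lit 133)) (PT.lf (nat_lit 4636) (nat_lit 3) (nat_lit 61) (nat_lit 1) (nat_lit 132) (nat_lit 126) (nat_lit 132)))) (PT.nd (nat_lit 78) (PT.lf (nat_lit 4560) (nat_lit 6) (nat_lit 60) (nat_lit 1) (nat_lit 133) (nat_lit 126) (nat_lit 131)) (PT.nd (nat_lit 78) (PT.lf (nat_lit 4484) (nat_lit 6) (nat_lit 59) (nat_lit 1) (nat_lit 134) (nat_lit 126) (nat_lit 130)) (PT.lf (nat_lit 4028) (nat_lit 6) (nat_lit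 53) (nat_lit 1) (nat_lit 135) (nat_lit 126) (nat_lit 129)))))) (PT.nd (nat_lit 40248) (PT.nd (nat_lit 40014) (PT.nd (nat_lit 39936) (PT.lf (nat_lit 3496) (nat_lit 6) (nat_lit 46) (nat_lit 1) (nat_lit 136) (nat_lit 126) (nat_lit 128)) (PT.lf (nat_lit 3420) (nat_lit 3) (nat_lit 45) (nat_lit 3) (nat_lit 127) (nat_lit 127) (nat_lit 136))) (PT.nd (nat_lit 78) (PT.lf (nat_lit 3952) (nat_lit 6) (nat_lit 52) (nat_lit 3) (nat_lit 128) (nat_lit 127) (nat_lit 135)) (PT.nd (nat_lit 78) (PT.lf (nat_lit 4408) (nat_lit 6) (nat_lit 58) (nat_lit 3) (nat_lit 129) (nat_lit 127) (nat_lit 134)) (PT.lf (nat_lit 4788) (nat_lit 6) (nat_lit 63) (nat_lit 3) (nat_lit 130) (nat_lit 127) (nat_lit 133))))) (PT.nd (nat_lit 234) (PT.nd (nat_lit 78) (PT.lf (nat_lit 4864) (nat_lit 6) (nat_lit 64) (nat_lit 3) (nat_lit 131) (nat_lit 127) (nat_lit 132)) (PT.nd (nat_lit 78) (PT.lf (nat_lit 4864) (nat_lit 6) (nat_lit 64)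 (nat_lit 1) (nat_lit 132) (nat_lit 127) (nat_lit 131)) (PT.lf (nat_lit 4788) (nat_lit 6) (nat_lit 63) (nat_lit 1) (nat_lit 133) (nat_lit 127) (nat_lit 130)))) (PT.nd (nat_lit 78) (PT.lf (nat_lit 4408) (nat_lit 6) (nat_lit 58) (nat_lit 1) (nat_lit 134) (nat_lit 127) (nat_lit 129)) (PT.nd (nat_lit 78) (PT.lf (nat_lit 3952) (nat_lit 6) (nat_lit 52) (nat_lit 1) (nat_lit 135) (nat_lit 127) (nat_lit 128)) (PT.lf (nat_lit 3420) (nat_lit 3) (nat_lit 45) (nat_lit 0) (nat_lit 136) (nat_lit 127) (nat_lit 127))))))) (PT.nd (nat_lit 40560) (PT.nd (nat_lit 390) (PT.nd (nat_lit 156) (PT.nd (nat_lit 78) (PT.lf (nat_lit 3496) (nat_lit 6) (nat_lit 46) (nat_lit 5) (nat_lit 126) (nat_lit 128) (nat_lit 136)) (PT.lf (nat_lit 3952) (nat_lit 6) (nat_lit 52) (nat_lit 5) (nat_lit 127) (nat_lit 128) (nat_lit 135))) (PT.nd (nat_lit 78) (PT.lf (nat_lit 4332) (nat_lit 3) (nat_lit 57) (nat_lit 3) (nat_lit 128) (nat_lit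 128) (nat_lit 134)) (PT.nd (nat_lit 78) (PT.lf (nat_lit 4712) (nat_lit 6) (nat_lit 62) (nat_lit 3) (nat_lit 129) (nat_lit 128) (nat_lit 133)) (PT.lf (nat_lit 5016) (nat_lit 6) (nat_lit 66) (nat_lit 3) (nat_lit 130) (nat_lit 128) (nat_lit 132))))) (PT.nd (nat_lit 234) (PT.nd (nat_lit 78) (PT.lf (nat_lit 5092) (nat_lit 3) (nat_lit 67) (nat_lit 1) (nat_lit 131) (nat_lit 128) (nat_lit 131)) (PT.nd (nat_lit 78) (PT.lf (nat_lit 5016) (nat_lit 6) (nat_lit 66) (nat_lit 1) (nat_lit 132) (nat_lit 128) (nat_lit 130)) (PT.lf (nat_lit 4712) (nat_lit 6) (nat_lit 62) (nat_lit 1) (nat_lit 133) (nat_lit 128) (nat_lit 129)))) (PT.nd (nat_lit 78) (PT.lf (nat_lit 4332) (nat_lit 3) (nat_lit 57) (nat_lit 0) (nat_lit 134) (nat_lit 128) (nat_lit 128)) (PT.nd (nat_lit 78) (PT.lf (nat_lit 3952) (nat_lit 6) (nat_lit 52) (nat_lit 0) (nat_lit 135) (nat_lit 128) (nat_lit 127)) (PT.lf (nat_lit 3496) (nat_lit 6) (nat_lit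 46) (nat_lit 0) (nat_lit 136) (nat_lit 128) (nat_lit 126)))))) (PT.nd (nat_lit 468) (PT.nd (nat_lit 234) (PT.nd (nat_lit 78) (PT.lf (nat_lit 3572) (nat_lit 6) (nat_lit 47) (nat_lit 5) (nat_lit 125) (nat_lit 129) (nat_lit 136)) (PT.nd (nat_lit 78) (PT.lf (nat_lit 4028) (nat_lit 6) (nat_lit 53) (nat_lit 5) (nat_lit 126) (nat_lit 129) (nat_lit 135)) (PT.lf (nat_lit 4408) (nat_lit 6) (nat_lit 58) (nat_lit 5) (nat_lit 127) (nat_lit 129) (nat_lit 134)))) (PT.nd (nat_lit 78) (PT.lf (nat_lit 4712) (nat_lit 6) (nat_lit 62) (nat_lit 5) (nat_lit 128) (nat_lit 129) (nat_lit 133)) (PT.nd (nat_lit 78) (PT.lf (nat_lit 4940) (nat_lit 3) (nat_lit 65) (nat_lit 3) (nat_lit 129) (nat_lit 129) (nat_lit 132)) (PT.lf (nat_lit 5168) (nat_lit 6) (nat_lit 68) (nat_lit 3) (nat_lit 130) (nat_lit 129) (nat_lit 131))))) (PT.nd (nat_lit 234) (PT.nd (nat_lit 78) (PT.lf (nat_lit 5168) (nat_lit 6) (nat_lit 68) (nat_lit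 1) (nat_lit 131) (nat_lit 129) (nat_lit 130)) (PT.nd (nat_lit 78) (PT.lf (nat_lit 4940) (nat_lit 3) (nat_lit 65) (nat_lit 0) (nat_lit 132) (nat_lit 129) (nat_lit 129)) (PT.lf (nat_lit 4712) (nat_lit 6) (nat_lit 62) (nat_lit 0) (nat_lit 133) (nat_lit 129) (nat_lit 128)))) (PT.nd (nat_lit 78) (PT.lf (nat_lit 4408) (nat_lit 6) (nat_lit 58) (nat_lit 0) (nat_lit 134) (nat_lit 129) (nat_lit 127)) (PT.nd (nat_lit 78) (PT.lf (nat_lit 4028) (nat_lit 6) (nat_lit 53) (nat_lit 0) (nat_lit 135) (nat_lit 129) (nat_lit 126)) (PT.lf (nat_lit 3572) (nat_lit 6) (nat_lit 47) (nat_lit 0) (nat_lit 136) (nat_lit 129) (nat_lit 125))))))))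
noncomputable def pc3 : PT := (PT.nd (nat_lit 41184) (PT.nd (nat_lit 858) (PT.nd (nat_lit 390) (PT.nd (nat_lit 156) (PT.nd (nat_lit 78) (PT.lf (nat_lit 3648) (nat_lit 6) (nat_lit 48) (nat_lit 5) (nat_lit 124) (nat_lit 130) (nat_lit 136)) (PT.lf (nat_lit 4104) (nat_lit 6) (nat_lit 54) (nat_lit 5) (nat_lit 125) (nat_lit 130) (nat_lit 135))) (PT.nd (nat_lit 78) (PT.lf (nat_lit 4484) (nat_lit 6) (nat_lit 59) (nat_lit 5) (nat_lit 126) (nat_lit 130) (nat_lit 134)) (PT.nd (nat_lit 78) (PT.lf (nat_lit 4788) (nat_lit 6) (nat_lit 63) (nat_lit 5) (nat_lit 127) (nat_lit 130) (nat_lit 133)) (PT.lf (nat_lit 5016) (nat_lit 6) (nat_lit 66) (nat_lit 5) (nat_lit 128) (nat_lit 130) (nat_lit 132))))) (PT.nd (nat_lit 234) (PT.nd (nat_lit 78) (PT.lf (nat_lit 5168) (nat_lit 6) (nat_lit 68) (nat_lit 5) (nat_lit 129) (nat_lit 130) (nat_lit 131)) (PT.nd (nat_lit 78) (PT.lf (nat_lit 5244) (nat_lit 1) (nat_lit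 69) (nat_lit 0) (nat_lit 130) (nat_lit 130) (nat_lit 130)) (PT.lf (nat_lit 5168) (nat_lit 6) (nat_lit 68) (nat_lit 0) (nat_lit 131) (nat_lit 130) (nat_lit 129)))) (PT.nd (nat_lit 78) (PT.lf (nat_lit 5016) (nat_lit 6) (nat_lit 66) (nat_lit 0) (nat_lit 132) (nat_lit 130) (nat_lit 128)) (PT.nd (nat_lit 78) (PT.lf (nat_lit 4788) (nat_lit 6) (nat_lit 63) (nat_lit 0) (nat_lit 133) (nat_lit 130) (nat_lit 127)) (PT.lf (nat_lit 4484) (nat_lit 6) (nat_lit 59) (nat_lit 0) (nat_lit 134) (nat_lit 130) (nat_lit 126)))))) (PT.nd (nat_lit 39858) (PT.nd (nat_lit 39624) (PT.nd (nat_lit 78) (PT.lf (nat_lit 4104) (nat_lit 6) (nat_lit 54) (nat_lit 0) (nat_lit 135) (nat_lit 130) (nat_lit 125)) (PT.lf (nat_lit 3648) (nat_lit 6) (nat_lit 48) (nat_lit 0) (nat_lit 136) (nat_lit 130) (nat_lit 124))) (PT.nd (nat_lit 78) (PT.lf (nat_lit 2888) (nat_lit 6) (nat_lit 38) (nat_lit 5) (nat_lit 122) (nat_lit 131) (nat_lit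 137)) (PT.nd (nat_lit 78) (PT.lf (nat_lit 3192) (nat_lit 6) (nat_lit 42) (nat_lit 5) (nat_lit 123) (nat_lit 131) (nat_lit 136)) (PT.lf (nat_lit 3724) (nat_lit 6) (nat_lit 49) (nat_lit 5) (nat_lit 124) (nat_lit 131) (nat_lit 135))))) (PT.nd (nat_lit 234) (PT.nd (nat_lit 78) (PT.lf (nat_lit 4180) (nat_lit 6) (nat_lit 55) (nat_lit 5) (nat_lit 125) (nat_lit 131) (nat_lit 134)) (PT.nd (nat_lit 78) (PT.lf (nat_lit 4560) (nat_lit 6) (nat_lit 60) (nat_lit 5) (nat_lit 126) (nat_lit 131) (nat_lit 133)) (PT.lf (nat_lit 4864) (nat_lit 6) (nat_lit 64) (nat_lit 5) (nat_lit 127) (nat_lit 131) (nat_lit 132)))) (PT.nd (nat_lit 78) (PT.lf (nat_lit 5092) (nat_lit 3) (nat_lit 67) (nat_lit 4) (nat_lit 128) (nat_lit 131) (nat_lit 131)) (PT.nd (nat_lit 78) (PT.lf (nat_lit 5168) (nat_lit 6) (nat_lit 68) (nat_lit 4) (nat_lit 129) (nat_lit 131) (nat_lit 130)) (PT.lf (nat_lit 5168) (nat_lit 6) (nat_lit 68) (nat_lit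 2) (nat_lit 130) (nat_lit 131) (nat_lit 129))))))) (PT.nd (nat_lit 40170) (PT.nd (nat_lit 390) (PT.nd (nat_lit 156) (PT.nd (nat_lit 78) (PT.lf (nat_lit 5092) (nat_lit 3) (nat_lit 67) (nat_lit 0) (nat_lit 131) (nat_lit 131) (nat_lit 128)) (PT.lf (nat_lit 4864) (nat_lit 6) (nat_lit 64) (nat_lit 0) (nat_lit 132) (nat_lit 131) (nat_lit 127))) (PT.nd (nat_lit 78) (PT.lf (nat_lit 4560) (nat_lit 6) (nat_lit 60) (nat_lit 0) (nat_lit 133) (nat_lit 131) (nat_lit 126)) (PT.nd (nat_lit 78) (PT.lf (nat_lit 4180) (nat_lit 6) (nat_lit 55) (nat_lit 0) (nat_lit 134) (nat_lit 131) (nat_lit 125)) (PT.lf (nat_lit 3724) (nat_lit 6) (nat_lit 49) (nat_lit 0) (nat_lit 135) (nat_lit 131) (nat_lit 124))))) (PT.nd (nat_lit 39546) (PT.nd (nat_lit 78) (PT.lf (nat_lit 3192) (nat_lit 6) (nat_lit 42) (nat_lit 0) (nat_lit 136) (nat_lit 131) (nat_lit 123)) (PT.nd (nat_lit 39390) (PT.lf (nat_lit 2888) (nat_lit 6) (nat_lit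 38) (nat_lit 0) (nat_lit 137) (nat_lit 131) (nat_lit 122)) (PT.lf (nat_lit 2660) (nat_lit 6) (nat_lit 35) (nat_lit 5) (nat_lit 121) (nat_lit 132) (nat_lit 137)))) (PT.nd (nat_lit 78) (PT.lf (nat_lit 2964) (nat_lit 6) (nat_lit 39) (nat_lit 5) (nat_lit 122) (nat_lit 132) (nat_lit 136)) (PT.nd (nat_lit 78) (PT.lf (nat_lit 3268) (nat_lit 6) (nat_lit 43) (nat_lit 5) (nat_lit 123) (nat_lit 132) (nat_lit 135)) (PT.lf (nat_lit 3800) (nat_lit 6) (nat_lit 50) (nat_lit 5) (nat_lit 124) (nat_lit 132) (nat_lit 134)))))) (PT.nd (nat_lit 468) (PT.nd (nat_lit 234) (PT.nd (nat_lit 78) (PT.lf (nat_lit 4256) (nat_lit 6) (nat_lit 56) (nat_lit 5) (nat_lit 125) (nat_lit 132) (nat_lit 133)) (PT.nd (nat_lit 78) (PT.lf (nat_lit 4636) (nat_lit 3) (nat_lit 61) (nat_lit 4) (nat_lit 126) (nat_lit 132) (nat_lit 132)) (PT.lf (nat_lit 4864) (nat_lit 6) (nat_lit 64) (nat_lit 4) (nat_lit 127) (nat_lit 132) (nat_lit 131))))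 (PT.nd (nat_lit 78) (PT.lf (nat_lit 5016) (nat_lit 6) (nat_lit 66) (nat_lit 4) (nat_lit 128) (nat_lit 132) (nat_lit 130)) (PT.nd (nat_lit 78) (PT.lf (nat_lit 4940) (nat_lit 3) (nat_lit 65) (nat_lit 2) (nat_lit 129) (nat_lit 132) (nat_lit 129)) (PT.lf (nat_lit 5016) (nat_lit 6) (nat_lit 66) (nat_lit 2) (nat_lit 130) (nat_lit 132) (nat_lit 128))))) (PT.nd (nat_lit 234) (PT.nd (nat_lit 78) (PT.lf (nat_lit 4864) (nat_lit 6) (nat_lit 64) (nat_lit 2) (nat_lit 131) (nat_lit 132) (nat_lit 127)) (PT.nd (nat_lit 78) (PT.lf (nat_lit 4636) (nat_lit 3) (nat_lit 61) (nat_lit 0) (nat_lit 132) (nat_lit 132) (nat_lit 126)) (PT.lf (nat_lit 4256) (nat_lit 6) (nat_lit 56) (nat_lit 0) (nat_lit 133) (nat_lit 132) (nat_lit 125)))) (PT.nd (nat_lit 78) (PT.lf (nat_lit 3800) (nat_lit 6) (nat_lit 50) (nat_lit 0) (nat_lit 134) (nat_lit 132) (nat_lit 124)) (PT.nd (nat_lit 78) (PT.lf (nat_lit 3268) (nat_lit 6) (nat_lit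 43) (nat_lit 0) (nat_lit 135) (nat_lit 132) (nat_lit 123)) (PT.lf (nat_lit 2964) (nat_lit 6) (nat_lit 39) (nat_lit 0) (nat_lit 136) (nat_lit 132) (nat_lit 122))))))))
noncomputable def pc4 : PT := (PT.nd (nat_lit 80028) (PT.nd (nat_lit 40092) (PT.nd (nat_lit 39624) (PT.nd (nat_lit 39390) (PT.nd (nat_lit 39312) (PT.lf (nat_lit 2660) (nat_lit 6) (nat_lit 35) (nat_lit 0) (nat_lit 137) (nat_lit 132) (nat_lit 121)) (PT.lf (nat_lit 2432) (nat_lit 6) (nat_lit 32) (nat_lit 5) (nat_lit 120) (nat_lit 133) (nat_lit 137))) (PT.nd (nat_lit 78) (PT.lf (nat_lit 2736) (nat_lit 6) (nat_lit 36) (nat_lit 5) (nat_lit 121) (nat_lit 133) (nat_lit 136)) (PT.nd (nat_lit 78) (PT.lf (nat_lit 3040) (nat_lit 6) (nat_lit 40) (nat_lit 5) (nat_lit 122) (nat_lit 133) (nat_lit 135)) (PT.lf (nat_lit 3344) (nat_lit 6) (nat_lit 44) (nat_lit 5) (nat_lit 123) (nat_lit 133) (nat_lit 134))))) (PT.nd (nat_lit 234) (PT.nd (nat_lit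 78) (PT.lf (nat_lit 3876) (nat_lit 3) (nat_lit 51) (nat_lit 4) (nat_lit 124) (nat_lit 133) (nat_lit 133)) (PT.nd (nat_lit 78) (PT.lf (nat_lit 4256) (nat_lit 6) (nat_lit 56) (nat_lit 4) (nat_lit 125) (nat_lit 133) (nat_lit 132)) (PT.lf (nat_lit 4560) (nat_lit 6) (nat_lit 60) (nat_lit 4) (nat_lit 126) (nat_lit 133) (nat_lit 131)))) (PT.nd (nat_lit 78) (PT.lf (nat_lit 4788) (nat_lit 6) (nat_lit 63) (nat_lit 4) (nat_lit 127) (nat_lit 133) (nat_lit 130)) (PT.nd (nat_lit 78) (PT.lf (nat_lit 4712) (nat_lit 6) (nat_lit 62) (nat_lit 4) (nat_lit 128) (nat_lit 133) (nat_lit 129)) (PT.lf (nat_lit 4712) (nat_lit 6) (nat_lit 62) (nat_lit 2) (nat_lit 129) (nat_lit 133) (nat_lit 128)))))) (PT.nd (nat_lit 390) (PT.nd (nat_lit 156) (PT.nd (nat_lit 78) (PT.lf (nat_lit 4788) (nat_lit 6) (nat_lit 63) (nat_lit 2) (nat_lit 130) (nat_lit 133) (nat_lit 127)) (PT.lf (nat_lit 4560) (nat_lit 6) (nat_lit 60) (nat_lit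 2) (nat_lit 131) (nat_lit 133) (nat_lit 126))) (PT.nd (nat_lit 78) (PT.lf (nat_lit 4256) (nat_lit 6) (nat_lit 56) (nat_lit 2) (nat_lit 132) (nat_lit 133) (nat_lit 125)) (PT.nd (nat_lit 78) (PT.lf (nat_lit 3876) (nat_lit 3) (nat_lit 51) (nat_lit 0) (nat_lit 133) (nat_lit 133) (nat_lit 124)) (PT.lf (nat_lit 3344) (nat_lit 6) (nat_lit 44) (nat_lit 0) (nat_lit 134) (nat_lit 133) (nat_lit 123))))) (PT.nd (nat_lit 39312) (PT.nd (nat_lit 78) (PT.lf (nat_lit 3040) (nat_lit 6) (nat_lit 40) (nat_lit 0) (nat_lit 135) (nat_lit 133) (nat_lit 122)) (PT.nd (nat_lit 78) (PT.lf (nat_lit 2736) (nat_lit 6) (nat_lit 36) (nat_lit 0) (nat_lit 136) (nat_lit 133) (nat_lit 121)) (PT.lf (nat_lit 2432) (nat_lit 6) (nat_lit 32) (nat_lit 0) (nat_lit 137) (nat_lit 133) (nat_lit 120)))) (PT.nd (nat_lit 78) (PT.lf (nat_lit 2052) (nat_lit 6) (nat_lit 27) (nat_lit 5) (nat_lit 118) (nat_lit 134) (nat_lit 138)) (PT.nd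 (nat_lit 78) (PT.lf (nat_lit 2280) (nat_lit 6) (nat_lit 30) (nat_lit 5) (nat_lit 119) (nat_lit 134) (nat_lit 137)) (PT.lf (nat_lit 2508) (nat_lit 6) (nat_lit 33) (nat_lit 5) (nat_lit 120) (nat_lit 134) (nat_lit 136))))))) (PT.nd (nat_lit 858) (PT.nd (nat_lit 390) (PT.nd (nat_lit 156) (PT.nd (nat_lit 78) (PT.lf (nat_lit 2812) (nat_lit 6) (nat_lit 37) (nat_lit 5) (nat_lit 121) (nat_lit 134) (nat_lit 135)) (PT.lf (nat_lit 3116) (nat_lit 3) (nat_lit 41) (nat_lit 4) (nat_lit 122) (nat_lit 134) (nat_lit 134))) (PT.nd (nat_lit 78) (PT.lf (nat_lit 3344) (nat_lit 6) (nat_lit 44) (nat_lit 4) (nat_lit 123) (nat_lit 134) (nat_lit 133)) (PT.nd (nat_lit 78) (PT.lf (nat_lit 3800) (nat_lit 6) (nat_lit 50) (nat_lit 4) (nat_lit 124) (nat_lit 134) (nat_lit 132)) (PT.lf (nat_lit 4180) (nat_lit 6) (nat_lit 55) (nat_lit 4) (nat_lit 125) (nat_lit 134) (nat_lit 131))))) (PT.nd (nat_lit 234) (PT.nd (nat_lit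 78) (PT.lf (nat_lit 4484) (nat_lit 6) (nat_lit 59) (nat_lit 4) (nat_lit 126) (nat_lit 134) (nat_lit 130)) (PT.nd (nat_lit 78) (PT.lf (nat_lit 4408) (nat_lit 6) (nat_lit 58) (nat_lit 4) (nat_lit 127) (nat_lit 134) (nat_lit 129)) (PT.lf (nat_lit 4332) (nat_lit 3) (nat_lit 57) (nat_lit 2) (nat_lit 128) (nat_lit 134) (nat_lit 128)))) (PT.nd (nat_lit 78) (PT.lf (nat_lit 4408) (nat_lit 6) (nat_lit 58) (nat_lit 2) (nat_lit 129) (nat_lit 134) (nat_lit 127)) (PT.nd (nat_lit 78) (PT.lf (nat_lit 4484) (nat_lit 6) (nat_lit 59) (nat_lit 2) (nat_lit 130) (nat_lit 134) (nat_lit 126)) (PT.lf (nat_lit 4180) (nat_lit 6) (nat_lit 55) (nat_lit 2) (nat_lit 131) (nat_lit 134) (nat_lit 125)))))) (PT.nd (nat_lit 390) (PT.nd (nat_lit 156) (PT.nd (nat_lit 78) (PT.lf (nat_lit 3800) (nat_lit 6) (nat_lit 50) (nat_lit 2) (nat_lit 132) (nat_lit 134) (nat_lit 124)) (PT.lf (nat_lit 3344) (nat_lit 6) (nat_lit 44) (nat_lit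 2) (nat_lit 133) (nat_lit 134) (nat_lit 123))) (PT.nd (nat_lit 78) (PT.lf (nat_lit 3116) (nat_lit 3) (nat_lit 41) (nat_lit 0) (nat_lit 134) (nat_lit 134) (nat_lit 122)) (PT.nd (nat_lit 78) (PT.lf (nat_lit 2812) (nat_lit 6) (nat_lit 37) (nat_lit 0) (nat_lit 135) (nat_lit 134) (nat_lit 121)) (PT.lf (nat_lit 2508) (nat_lit 6) (nat_lit 33) (nat_lit 0) (nat_lit 136) (nat_lit 134) (nat_lit 120))))) (PT.nd (nat_lit 39156) (PT.nd (nat_lit 78) (PT.lf (nat_lit 2280) (nat_lit 6) (nat_lit 30) (nat_lit 0) (nat_lit 137) (nat_lit 134) (nat_lit 119)) (PT.nd (nat_lit 39000) (PT.lf (nat_lit 2052) (nat_lit 6) (nat_lit 27) (nat_lit 0) (nat_lit 138) (nat_lit 134) (nat_lit 118)) (PT.lf (nat_lit 1900) (nat_lit 6) (nat_lit 25) (nat_lit 5) (nat_lit 117) (nat_lit 135) (nat_lit 138)))) (PT.nd (nat_lit 78) (PT.lf (nat_lit 2128) (nat_lit 6) (nat_lit 28) (nat_lit 5) (nat_lit 118) (nat_lit 135) (nat_lit 137)) (PT.nd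 (nat_lit 78) (PT.lf (nat_lit 2356) (nat_lit 6) (nat_lit 31) (nat_lit 5) (nat_lit 119) (nat_lit 135) (nat_lit 136)) (PT.lf (nat_lit 2584) (nat_lit 3) (nat_lit 34) (nat_lit 4) (nat_lit 120) (nat_lit 135) (nat_lit 135))))))))
noncomputable def pc5 : PT := (PT.nd (nat_lit 40482) (PT.nd (nat_lit 858) (PT.nd (nat_lit 390) (PT.nd (nat_lit 156) (PT.nd (nat_lit 78) (PT.lf (nat_lit 2812) (nat_lit 6) (nat_lit 37) (nat_lit 4) (nat_lit 121) (nat_lit 135) (nat_lit 134)) (PT.lf (nat_lit 3040) (nat_lit 6) (nat_lit 40) (nat_lit 4) (nat_lit 122) (nat_lit 135) (nat_lit 133))) (PT.nd (nat_lit 78) (PT.lf (nat_lit 3268) (nat_lit 6) (nat_lit 43) (nat_lit 4) (nat_lit 123) (nat_lit 135) (nat_lit 132)) (PT.nd (nat_lit 78) (PT.lf (nat_lit 3724) (nat_lit 6) (nat_lit 49) (nat_lit 4) (nat_lit 124) (nat_lit 135) (nat_lit 131)) (PT.lf (nat_lit 4104) (nat_lit 6) (nat_lit 54) (nat_lit 4) (nat_lit 125) (nat_lit 135) (nat_lit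 130))))) (PT.nd (nat_lit 234) (PT.nd (nat_lit 78) (PT.lf (nat_lit 4028) (nat_lit 6) (nat_lit 53) (nat_lit 4) (nat_lit 126) (nat_lit 135) (nat_lit 129)) (PT.nd (nat_lit 78) (PT.lf (nat_lit 3952) (nat_lit 6) (nat_lit 52) (nat_lit 4) (nat_lit 127) (nat_lit 135) (nat_lit 128)) (PT.lf (nat_lit 3952) (nat_lit 6) (nat_lit 52) (nat_lit 2) (nat_lit 128) (nat_lit 135) (nat_lit 127)))) (PT.nd (nat_lit 78) (PT.lf (nat_lit 4028) (nat_lit 6) (nat_lit 53) (nat_lit 2) (nat_lit 129) (nat_lit 135) (nat_lit 126)) (PT.nd (nat_lit 78) (PT.lf (nat_lit 4104) (nat_lit 6) (nat_lit 54) (nat_lit 2) (nat_lit 130) (nat_lit 135) (nat_lit 125)) (PT.lf (nat_lit 3724) (nat_lit 6) (nat_lit 49) (nat_lit 2) (nat_lit 131) (nat_lit 135) (nat_lit 124)))))) (PT.nd (nat_lit 390) (PT.nd (nat_lit 156) (PT.nd (nat_lit 78) (PT.lf (nat_lit 3268) (nat_lit 6) (nat_lit 43) (nat_lit 2) (nat_lit 132) (nat_lit 135) (nat_lit 123)) (PT.lf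 (nat_lit 3040) (nat_lit 6) (nat_lit 40) (nat_lit 2) (nat_lit 133) (nat_lit 135) (nat_lit 122))) (PT.nd (nat_lit 78) (PT.lf (nat_lit 2812) (nat_lit 6) (nat_lit 37) (nat_lit 2) (nat_lit 134) (nat_lit 135) (nat_lit 121)) (PT.nd (nat_lit 78) (PT.lf (nat_lit 2584) (nat_lit 3) (nat_lit 34) (nat_lit 0) (nat_lit 135) (nat_lit 135) (nat_lit 120)) (PT.lf (nat_lit 2356) (nat_lit 6) (nat_lit 31) (nat_lit 0) (nat_lit 136) (nat_lit 135) (nat_lit 119))))) (PT.nd (nat_lit 39000) (PT.nd (nat_lit 78) (PT.lf (nat_lit 2128) (nat_lit 6) (nat_lit 28) (nat_lit 0) (nat_lit 137) (nat_lit 135) (nat_lit 118)) (PT.nd (nat_lit 38844) (PT.lf (nat_lit 1900) (nat_lit 6) (nat_lit 25) (nat_lit 0) (nat_lit 138) (nat_lit 135) (nat_lit 117)) (PT.lf (nat_lit 1596) (nat_lit 6) (nat_lit 21) (nat_lit 5) (nat_lit 115) (nat_lit 136) (nat_lit 139)))) (PT.nd (nat_lit 78) (PT.lf (nat_lit 1748) (nat_lit 6) (nat_lit 23) (nat_lit 5)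 (nat_lit 116) (nat_lit 136) (nat_lit 138)) (PT.nd (nat_lit 78) (PT.lf (nat_lit 1976) (nat_lit 6) (nat_lit 26) (nat_lit 5) (nat_lit 117) (nat_lit 136) (nat_lit 137)) (PT.lf (nat_lit 2204) (nat_lit 3) (nat_lit 29) (nat_lit 4) (nat_lit 118) (nat_lit 136) (nat_lit 136))))))) (PT.nd (nat_lit 858) (PT.nd (nat_lit 390) (PT.nd (nat_lit 156) (PT.nd (nat_lit 78) (PT.lf (nat_lit 2356) (nat_lit 6) (nat_lit 31) (nat_lit 4) (nat_lit 119) (nat_lit 136) (nat_lit 135)) (PT.lf (nat_lit 2508) (nat_lit 6) (nat_lit 33) (nat_lit 4) (nat_lit 120) (nat_lit 136) (nat_lit 134))) (PT.nd (nat_lit 78) (PT.lf (nat_lit 2736) (nat_lit 6) (nat_lit 36) (nat_lit 4) (nat_lit 121) (nat_lit 136) (nat_lit 133)) (PT.nd (nat_lit 78) (PT.lf (nat_lit 2964) (nat_lit 6) (nat_lit 39) (nat_lit 4) (nat_lit 122) (nat_lit 136) (nat_lit 132)) (PT.lf (nat_lit 3192) (nat_lit 6) (nat_lit 42) (nat_lit 4) (nat_lit 123) (nat_lit 136) (nat_lit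 131))))) (PT.nd (nat_lit 234) (PT.nd (nat_lit 78) (PT.lf (nat_lit 3648) (nat_lit 6) (nat_lit 48) (nat_lit 4) (nat_lit 124) (nat_lit 136) (nat_lit 130)) (PT.nd (nat_lit 78) (PT.lf (nat_lit 3572) (nat_lit 6) (nat_lit 47) (nat_lit 4) (nat_lit 125) (nat_lit 136) (nat_lit 129)) (PT.lf (nat_lit 3496) (nat_lit 6) (nat_lit 46) (nat_lit 4) (nat_lit 126) (nat_lit 136) (nat_lit 128)))) (PT.nd (nat_lit 78) (PT.lf (nat_lit 3420) (nat_lit 3) (nat_lit 45) (nat_lit 2) (nat_lit 127) (nat_lit 136) (nat_lit 127)) (PT.nd (nat_lit 78) (PT.lf (nat_lit 3496) (nat_lit 6) (nat_lit 46) (nat_lit 2) (nat_lit 128) (nat_lit 136) (nat_lit 126)) (PT.lf (nat_lit 3572) (nat_lit 6) (nat_lit 47) (nat_lit 2) (nat_lit 129) (nat_lit 136) (nat_lit 125)))))) (PT.nd (nat_lit 468) (PT.nd (nat_lit 234) (PT.nd (nat_lit 78) (PT.lf (nat_lit 3648) (nat_lit 6) (nat_lit 48) (nat_lit 2) (nat_lit 130) (nat_lit 136) (nat_lit 124)) (PT.nd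 (nat_lit 78) (PT.lf (nat_lit 3192) (nat_lit 6) (nat_lit 42) (nat_lit 2) (nat_lit 131) (nat_lit 136) (nat_lit 123)) (PT.lf (nat_lit 2964) (nat_lit 6) (nat_lit 39) (nat_lit 2) (nat_lit 132) (nat_lit 136) (nat_lit 122)))) (PT.nd (nat_lit 78) (PT.lf (nat_lit 2736) (nat_lit 6) (nat_lit 36) (nat_lit 2) (nat_lit 133) (nat_lit 136) (nat_lit 121)) (PT.nd (nat_lit 78) (PT.lf (nat_lit 2508) (nat_lit 6) (nat_lit 33) (nat_lit 2) (nat_lit 134) (nat_lit 136) (nat_lit 120)) (PT.lf (nat_lit 2356) (nat_lit 6) (nat_lit 31) (nat_lit 2) (nat_lit 135) (nat_lit 136) (nat_lit 119))))) (PT.nd (nat_lit 234) (PT.nd (nat_lit 78) (PT.lf (nat_lit 2204) (nat_lit 3) (nat_lit 29) (nat_lit 0) (nat_lit 136) (nat_lit 136) (nat_lit 118)) (PT.nd (nat_lit 78) (PT.lf (nat_lit 1976) (nat_lit 6) (nat_lit 26) (nat_lit 0) (nat_lit 137) (nat_lit 136) (nat_lit 117)) (PT.lf (nat_lit 1748) (nat_lit 6) (nat_lit 23) (nat_lit 0) (nat_lit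 138) (nat_lit 136) (nat_lit 116)))) (PT.nd (nat_lit 38610) (PT.lf (nat_lit 1596) (nat_lit 6) (nat_lit 21) (nat_lit 0) (nat_lit 139) (nat_lit 136) (nat_lit 115)) (PT.nd (nat_lit 78) (PT.lf (nat_lit 1292) (nat_lit 6) (nat_lit 17) (nat_lit 5) (nat_lit 113) (nat_lit 137) (nat_lit 140)) (PT.lf (nat_lit 1444) (nat_lit 6) (nat_lit 19) (nat_lit 5) (nat_lit 114) (nat_lit 137) (nat_lit 139))))))))
noncomputable def pc6 : PT := (PT.nd (nat_lit 40716) (PT.nd (nat_lit 1482) (PT.nd (nat_lit 390) (PT.nd (nat_lit 156) (PT.nd (nat_lit 78) (PT.lf (nat_lit 1672) (nat_lit 6) (nat_lit 22) (nat_lit 5) (nat_lit 115) (nat_lit 137) (nat_lit 138)) (PT.lf (nat_lit 1824) (nat_lit 3) (nat_lit 24) (nat_lit 4) (nat_lit 116) (nat_lit 137) (nat_lit 137))) (PT.nd (nat_lit 78) (PT.lf (nat_lit 1976) (nat_lit 6) (nat_lit 26) (nat_lit 4) (nat_lit 117) (nat_lit 137) (nat_lit 136)) (PT.nd (nat_lit 78) (PT.lf (nat_lit 2128)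 (nat_lit 6) (nat_lit 28) (nat_lit 4) (nat_lit 118) (nat_lit 137) (nat_lit 135)) (PT.lf (nat_lit 2280) (nat_lit 6) (nat_lit 30) (nat_lit 4) (nat_lit 119) (nat_lit 137) (nat_lit 134))))) (PT.nd (nat_lit 858) (PT.nd (nat_lit 78) (PT.lf (nat_lit 2432) (nat_lit 6) (nat_lit 32) (nat_lit 4) (nat_lit 120) (nat_lit 137) (nat_lit 133)) (PT.nd (nat_lit 78) (PT.lf (nat_lit 2660) (nat_lit 6) (nat_lit 35) (nat_lit 4) (nat_lit 121) (nat_lit 137) (nat_lit 132)) (PT.lf (nat_lit 2888) (nat_lit 6) (nat_lit 38) (nat_lit 4) (nat_lit 122) (nat_lit 137) (nat_lit 131)))) (PT.nd (nat_lit 78) (PT.lf (nat_lit 2888) (nat_lit 6) (nat_lit 38) (nat_lit 2) (nat_lit 131) (nat_lit 137) (nat_lit 122)) (PT.nd (nat_lit 78) (PT.lf (nat_lit 2660) (nat_lit 6) (nat_lit 35) (nat_lit 2) (nat_lit 132) (nat_lit 137) (nat_lit 121)) (PT.lf (nat_lit 2432) (nat_lit 6) (nat_lit 32) (nat_lit 2) (nat_lit 133) (nat_lit 137) (nat_lit 120))))))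 (PT.nd (nat_lit 390) (PT.nd (nat_lit 156) (PT.nd (nat_lit 78) (PT.lf (nat_lit 2280) (nat_lit 6) (nat_lit 30) (nat_lit 2) (nat_lit 134) (nat_lit 137) (nat_lit 119)) (PT.lf (nat_lit 2128) (nat_lit 6) (nat_lit 28) (nat_lit 2) (nat_lit 135) (nat_lit 137) (nat_lit 118))) (PT.nd (nat_lit 78) (PT.lf (nat_lit 1976) (nat_lit 6) (nat_lit 26) (nat_lit 2) (nat_lit 136) (nat_lit 137) (nat_lit 117)) (PT.nd (nat_lit 78) (PT.lf (nat_lit 1824) (nat_lit 3) (nat_lit 24) (nat_lit 0) (nat_lit 137) (nat_lit 137) (nat_lit 116)) (PT.lf (nat_lit 1672) (nat_lit 6) (nat_lit 22) (nat_lit 0) (nat_lit 138) (nat_lit 137) (nat_lit 115))))) (PT.nd (nat_lit 38610) (PT.nd (nat_lit 78) (PT.lf (nat_lit 1444) (nat_lit 6) (nat_lit 19) (nat_lit 0) (nat_lit 139) (nat_lit 137) (nat_lit 114)) (PT.nd (nat_lit 38454) (PT.lf (nat_lit 1292) (nat_lit 6) (nat_lit 17) (nat_lit 0) (nat_lit 140) (nat_lit 137) (nat_lit 113)) (PT.lf (nat_lit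 1140) (nat_lit 6) (nat_lit 15) (nat_lit 5) (nat_lit 112) (nat_lit 138) (nat_lit 140)))) (PT.nd (nat_lit 78) (PT.lf (nat_lit 1368) (nat_lit 6) (nat_lit 18) (nat_lit 5) (nat_lit 113) (nat_lit 138) (nat_lit 139)) (PT.nd (nat_lit 78) (PT.lf (nat_lit 1520) (nat_lit 3) (nat_lit 20) (nat_lit 4) (nat_lit 114) (nat_lit 138) (nat_lit 138)) (PT.lf (nat_lit 1672) (nat_lit 6) (nat_lit 22) (nat_lit 4) (nat_lit 115) (nat_lit 138) (nat_lit 137))))))) (PT.nd (nat_lit 40248) (PT.nd (nat_lit 1560) (PT.nd (nat_lit 156) (PT.nd (nat_lit 78) (PT.lf (nat_lit 1748) (nat_lit 6) (nat_lit 23) (nat_lit 4) (nat_lit 116) (nat_lit 138) (nat_lit 136)) (PT.lf (nat_lit 1900) (nat_lit 6) (nat_lit 25) (nat_lit 4) (nat_lit 117) (nat_lit 138) (nat_lit 135))) (PT.nd (nat_lit 1248) (PT.lf (nat_lit 2052) (nat_lit 6) (nat_lit 27) (nat_lit 4) (nat_lit 118) (nat_lit 138) (nat_lit 134)) (PT.nd (nat_lit 78) (PT.lf (nat_lit 2052)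 (nat_lit 6) (nat_lit 27) (nat_lit 2) (nat_lit 134) (nat_lit 138) (nat_lit 118)) (PT.lf (nat_lit 1900) (nat_lit 6) (nat_lit 25) (nat_lit 2) (nat_lit 135) (nat_lit 138) (nat_lit 117))))) (PT.nd (nat_lit 234) (PT.nd (nat_lit 78) (PT.lf (nat_lit 1748) (nat_lit 6) (nat_lit 23) (nat_lit 2) (nat_lit 136) (nat_lit 138) (nat_lit 116)) (PT.nd (nat_lit 78) (PT.lf (nat_lit 1672) (nat_lit 6) (nat_lit 22) (nat_lit 2) (nat_lit 137) (nat_lit 138) (nat_lit 115)) (PT.lf (nat_lit 1520) (nat_lit 3) (nat_lit 20) (nat_lit 0) (nat_lit 138) (nat_lit 138) (nat_lit 114)))) (PT.nd (nat_lit 78) (PT.lf (nat_lit 1368) (nat_lit 6) (nat_lit 18) (nat_lit 0) (nat_lit 139) (nat_lit 138) (nat_lit 113)) (PT.nd (nat_lit 38298) (PT.lf (nat_lit 1140) (nat_lit 6) (nat_lit 15) (nat_lit 0) (nat_lit 140) (nat_lit 138) (nat_lit 112)) (PT.lf (nat_lit 912) (nat_lit 6) (nat_lit 12) (nat_lit 5) (nat_lit 110) (nat_lit 139) (nat_lit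 141)))))) (PT.nd (nat_lit 2028) (PT.nd (nat_lit 234) (PT.nd (nat_lit 78) (PT.lf (nat_lit 1064) (nat_lit 6) (nat_lit 14) (nat_lit 5) (nat_lit 111) (nat_lit 139) (nat_lit 140)) (PT.nd (nat_lit 78) (PT.lf (nat_lit 1216) (nat_lit 3) (nat_lit 16) (nat_lit 4) (nat_lit 112) (nat_lit 139) (nat_lit 139)) (PT.lf (nat_lit 1368) (nat_lit 6) (nat_lit 18) (nat_lit 4) (nat_lit 113) (nat_lit 139) (nat_lit 138)))) (PT.nd (nat_lit 78) (PT.lf (nat_lit 1444) (nat_lit 6) (nat_lit 19) (nat_lit 4) (nat_lit 114) (nat_lit 139) (nat_lit 137)) (PT.nd (nat_lit 1638) (PT.lf (nat_lit 1596) (nat_lit 6) (nat_lit 21) (nat_lit 4) (nat_lit 115) (nat_lit 139) (nat_lit 136)) (PT.lf (nat_lit 1596) (nat_lit 6) (nat_lit 21) (nat_lit 2) (nat_lit 136) (nat_lit 139) (nat_lit 115))))) (PT.nd (nat_lit 234) (PT.nd (nat_lit 78) (PT.lf (nat_lit 1444) (nat_lit 6) (nat_lit 19) (nat_lit 2) (nat_lit 137) (nat_lit 139) (nat_lit 114)) (PT.nd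 (nat_lit 78) (PT.lf (nat_lit 1368) (nat_lit 6) (nat_lit 18) (nat_lit 2) (nat_lit 138) (nat_lit 139) (nat_lit 113)) (PT.lf (nat_lit 1216) (nat_lit 3) (nat_lit 16) (nat_lit 0) (nat_lit 139) (nat_lit 139) (nat_lit 112)))) (PT.nd (nat_lit 78) (PT.lf (nat_lit 1064) (nat_lit 6) (nat_lit 14) (nat_lit 0) (nat_lit 140) (nat_lit 139) (nat_lit 111)) (PT.nd (nat_lit 38064) (PT.lf (nat_lit 912) (nat_lit 6) (nat_lit 12) (nat_lit 0) (nat_lit 141) (nat_lit 139) (nat_lit 110)) (PT.lf (nat_lit 684) (nat_lit 6) (nat_lit 9) (nat_lit 5) (nat_lit 108) (nat_lit 140) (nat_lit 142))))))))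
noncomputable def pc7 : PT := (PT.nd (nat_lit 80964) (PT.nd (nat_lit 40404) (PT.nd (nat_lit 2184) (PT.nd (nat_lit 156) (PT.nd (nat_lit 78) (PT.lf (nat_lit 836) (nat_lit 6) (nat_lit 11) (nat_lit 5) (nat_lit 109) (nat_lit 140) (nat_lit 141)) (PT.lf (nat_lit 988) (nat_lit 3) (nat_lit 13) (nat_lit 4) (nat_lit 110) (nat_lit 140) (nat_lit 140))) (PT.nd (nat_lit 78) (PT.lf (nat_lit 1064) (nat_lit 6) (nat_lit 14) (nat_lit 4) (nat_lit 111) (nat_lit 140) (nat_lit 139)) (PT.nd (nat_lit 78) (PT.lf (nat_lit 1140) (nat_lit 6) (nat_lit 15) (nat_lit 4) (nat_lit 112) (nat_lit 140) (nat_lit 138)) (PT.lf (nat_lit 1292) (nat_lit 6) (nat_lit 17) (nat_lit 4) (nat_lit 113) (nat_lit 140) (nat_lit 137))))) (PT.nd (nat_lit 234) (PT.nd (nat_lit 78) (PT.lf (nat_lit 1292) (nat_lit 6) (nat_lit 17) (nat_lit 2) (nat_lit 137) (nat_lit 140) (nat_lit 113)) (PT.nd (nat_lit 78) (PT.lf (nat_lit 1140) (nat_lit 6) (nat_lit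 15) (nat_lit 2) (nat_lit 138) (nat_lit 140) (nat_lit 112)) (PT.lf (nat_lit 1064) (nat_lit 6) (nat_lit 14) (nat_lit 2) (nat_lit 139) (nat_lit 140) (nat_lit 111)))) (PT.nd (nat_lit 78) (PT.lf (nat_lit 988) (nat_lit 3) (nat_lit 13) (nat_lit 0) (nat_lit 140) (nat_lit 140) (nat_lit 110)) (PT.nd (nat_lit 78) (PT.lf (nat_lit 836) (nat_lit 6) (nat_lit 11) (nat_lit 0) (nat_lit 141) (nat_lit 140) (nat_lit 109)) (PT.lf (nat_lit 684) (nat_lit 6) (nat_lit 9) (nat_lit 0) (nat_lit 142) (nat_lit 140) (nat_lit 108)))))) (PT.nd (nat_lit 2574) (PT.nd (nat_lit 156) (PT.nd (nat_lit 78) (PT.lf (nat_lit 456) (nat_lit 6) (nat_lit 6) (nat_lit 5) (nat_lit 106) (nat_lit 141) (nat_lit 143)) (PT.lf (nat_lit 608) (nat_lit 6) (nat_lit 8) (nat_lit 5) (nat_lit 107) (nat_lit 141) (nat_lit 142))) (PT.nd (nat_lit 78) (PT.lf (nat_lit 760) (nat_lit 3) (nat_lit 10) (nat_lit 4) (nat_lit 108) (nat_lit 141) (nat_lit 141)) (PT.nd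 (nat_lit 78) (PT.lf (nat_lit 836) (nat_lit 6) (nat_lit 11) (nat_lit 4) (nat_lit 109) (nat_lit 141) (nat_lit 140)) (PT.lf (nat_lit 912) (nat_lit 6) (nat_lit 12) (nat_lit 4) (nat_lit 110) (nat_lit 141) (nat_lit 139))))) (PT.nd (nat_lit 234) (PT.nd (nat_lit 78) (PT.lf (nat_lit 912) (nat_lit 6) (nat_lit 12) (nat_lit 2) (nat_lit 139) (nat_lit 141) (nat_lit 110)) (PT.nd (nat_lit 78) (PT.lf (nat_lit 836) (nat_lit 6) (nat_lit 11) (nat_lit 2) (nat_lit 140) (nat_lit 141) (nat_lit 109)) (PT.lf (nat_lit 760) (nat_lit 3) (nat_lit 10) (nat_lit 0) (nat_lit 141) (nat_lit 141) (nat_lit 108)))) (PT.nd (nat_lit 78) (PT.lf (nat_lit 608) (nat_lit 6) (nat_lit 8) (nat_lit 0) (nat_lit 142) (nat_lit 141) (nat_lit 107)) (PT.nd (nat_lit 37596) (PT.lf (nat_lit 456) (nat_lit 6) (nat_lit 6) (nat_lit 0) (nat_lit 143) (nat_lit 141) (nat_lit 106)) (PT.lf (nat_lit 228) (nat_lit 6) (nat_lit 3) (nat_lit 5) (nat_lit 104)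 (nat_lit 142) (nat_lit 144))))))) (PT.nd (nat_lit 40638) (PT.nd (nat_lit 2808) (PT.nd (nat_lit 156) (PT.nd (nat_lit 78) (PT.lf (nat_lit 380) (nat_lit 6) (nat_lit 5) (nat_lit 5) (nat_lit 105) (nat_lit 142) (nat_lit 143)) (PT.lf (nat_lit 532) (nat_lit 3) (nat_lit 7) (nat_lit 4) (nat_lit 106) (nat_lit 142) (nat_lit 142))) (PT.nd (nat_lit 78) (PT.lf (nat_lit 608) (nat_lit 6) (nat_lit 8) (nat_lit 4) (nat_lit 107) (nat_lit 142) (nat_lit 141)) (PT.nd (nat_lit 2496) (PT.lf (nat_lit 684) (nat_lit 6) (nat_lit 9) (nat_lit 4) (nat_lit 108) (nat_lit 142) (nat_lit 140)) (PT.lf (nat_lit 684) (nat_lit 6) (nat_lit 9) (nat_lit 2) (nat_lit 140) (nat_lit 142) (nat_lit 108))))) (PT.nd (nat_lit 234) (PT.nd (nat_lit 78) (PT.lf (nat_lit 608) (nat_lit 6) (nat_lit 8) (nat_lit 2) (nat_lit 141) (nat_lit 142) (nat_lit 107)) (PT.nd (nat_lit 78) (PT.lf (nat_lit 532) (nat_lit 3) (nat_lit 7) (nat_lit 0) (nat_lit 142)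 (nat_lit 142) (nat_lit 106)) (PT.lf (nat_lit 380) (nat_lit 6) (nat_lit 5) (nat_lit 0) (nat_lit 143) (nat_lit 142) (nat_lit 105)))) (PT.nd (nat_lit 37440) (PT.lf (nat_lit 228) (nat_lit 6) (nat_lit 3) (nat_lit 0) (nat_lit 144) (nat_lit 142) (nat_lit 104)) (PT.nd (nat_lit 78) (PT.lf (nat_lit 152) (nat_lit 6) (nat_lit 2) (nat_lit 5) (nat_lit 103) (nat_lit 143) (nat_lit 144)) (PT.lf (nat_lit 304) (nat_lit 3) (nat_lit 4) (nat_lit 4) (nat_lit 104) (nat_lit 143) (nat_lit 143)))))) (PT.nd (nat_lit 40404) (PT.nd (nat_lit 2886) (PT.nd (nat_lit 78) (PT.lf (nat_lit 380) (nat_lit 6) (nat_lit 5) (nat_lit 4) (nat_lit 105) (nat_lit 143) (nat_lit 142)) (PT.nd (nat_lit 2730) (PT.lf (nat_lit 456) (nat_lit 6) (nat_lit 6) (nat_lit 4) (nat_lit 106) (nat_lit 143) (nat_lit 141)) (PT.lf (nat_lit 456) (nat_lit 6) (nat_lit 6) (nat_lit 2) (nat_lit 141) (nat_lit 143) (nat_lit 106)))) (PT.nd (nat_lit 78) (PT.lf (nat_lit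 380) (nat_lit 6) (nat_lit 5) (nat_lit 2) (nat_lit 142) (nat_lit 143) (nat_lit 105)) (PT.nd (nat_lit 78) (PT.lf (nat_lit 304) (nat_lit 3) (nat_lit 4) (nat_lit 0) (nat_lit 143) (nat_lit 143) (nat_lit 104)) (PT.lf (nat_lit 152) (nat_lit 6) (nat_lit 2) (nat_lit 0) (nat_lit 144) (nat_lit 143) (nat_lit 103))))) (PT.nd (nat_lit 3120) (PT.nd (nat_lit 78) (PT.lf (nat_lit 76) (nat_lit 3) (nat_lit 1) (nat_lit 4) (nat_lit 102) (nat_lit 144) (nat_lit 144)) (PT.nd (nat_lit 78) (PT.lf (nat_lit 152) (nat_lit 6) (nat_lit 2) (nat_lit 4) (nat_lit 103) (nat_lit 144) (nat_lit 143)) (PT.lf (nat_lit 228) (nat_lit 6) (nat_lit 3) (nat_lit 4) (nat_lit 104) (nat_lit 144) (nat_lit 142)))) (PT.nd (nat_lit 78) (PT.lf (nat_lit 228) (nat_lit 6) (nat_lit 3) (nat_lit 2) (nat_lit 142) (nat_lit 144) (nat_lit 104)) (PT.nd (nat_lit 78) (PT.lf (nat_lit 152) (nat_lit 6) (nat_lit 2) (nat_lit 2) (nat_lit 143) (nat_lit 144) (nat_lit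 103)) (PT.lf (nat_lit 76) (nat_lit 3) (nat_lit 1) (nat_lit 0) (nat_lit 144) (nat_lit 144) (nat_lit 102))))))))
noncomputable def xc0 : XT := (XT.nd (nat_lit 202488) (nat_lit 0) (nat_lit 0) (XT.nd (nat_lit 121680) (nat_lit 0) (nat_lit 0) (XT.nd (nat_lit 81042) (nat_lit 0) (nat_lit 0) (XT.nd (nat_lit 40560) (nat_lit 0) (nat_lit 0) (XT.nd (nat_lit 78) (nat_lit 0) (nat_lit 0) (XT.lf (nat_lit 0) (nat_lit 1271534477552) (nat_lit 76) (nat_lit 884363072742) (nat_lit 76) (nat_lit 884363072742) (nat_lit 1) (nat_lit 4) (nat_lit 2) (nat_lit 5) (nat_lit 2) (nat_lit 4) (nat_lit 372) (nat_lit 204) (nat_lit 204)) (XT.nd (nat_lit 40404) (nat_lit 0) (nat_lit 0) (XT.lf (nat_lit 0) (nat_lit 2747202477278) (nat_lit 76) (nat_lit 1909873000246) (nat_lit 76) (nat_lit 1909859178559) (nat_lit 1) (nat_lit 4) (nat_lit 2) (nat_lit 5) (nat_lit 2) (nat_lit 4) (nat_lit 373) (nat_lit 204) (nat_lit 203)) (XT.lf (nat_lit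 0) (nat_lit 1089481408714) (nat_lit 76) (nat_lit 758539478793) (nat_lit 76) (nat_lit 758539478793) (nat_lit 1) (nat_lit 4) (nat_lit 2) (nat_lit 5) (nat_lit 2) (nat_lit 4) (nat_lit 370) (nat_lit 205) (nat_lit 205)))) (XT.nd (nat_lit 156) (nat_lit 0) (nat_lit 0) (XT.nd (nat_lit 78) (nat_lit 0) (nat_lit 0) (XT.lf (nat_lit 0) (nat_lit 2354022889050) (nat_lit 76) (nat_lit 1638065938367) (nat_lit 76) (nat_lit 1638051010945) (nat_lit 1) (nat_lit 4) (nat_lit 2) (nat_lit 5) (nat_lit 2) (nat_lit 4) (nat_lit 371) (nat_lit 205) (nat_lit 204)) (XT.lf (nat_lit 0) (nat_lit 2543051537237) (nat_lit 76) (nat_lit 1768749587070) (nat_lit 76) (nat_lit 1768720837960) (nat_lit 1) (nat_lit 4) (nat_lit 2) (nat_lit 5) (nat_lit 2) (nat_lit 4) (nat_lit 372) (nat_lit 205) (nat_lit 203))) (XT.nd (nat_lit 40248) (nat_lit 0) (nat_lit 0) (XT.lf (nat_lit 0) (nat_lit 2747168931756) (nat_lit 76) (nat_lit 1909904325317)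 (nat_lit 76) (nat_lit 1909862778348) (nat_lit 1) (nat_lit 4) (nat_lit 2) (nat_lit 5) (nat_lit 2) (nat_lit 4) (nat_lit 373) (nat_lit 205) (nat_lit 202)) (XT.lf (nat_lit 0) (nat_lit 933347888625) (nat_lit 76) (nat_lit 650693282015) (nat_lit 76) (nat_lit 650693282015) (nat_lit 1) (nat_lit 4) (nat_lit 2) (nat_lit 5) (nat_lit 2) (nat_lit 4) (nat_lit 368) (nat_lit 206) (nat_lit 206))))) (XT.nd (nat_lit 312) (nat_lit 0) (nat_lit 0) (XT.nd (nat_lit 156) (nat_lit 0) (nat_lit 0) (XT.nd (nat_lit 78) (nat_lit 0) (nat_lit 0) (XT.lf (nat_lit 0) (nat_lit 2016833929356) (nat_lit 76) (nat_lit 1405087806459) (nat_lit 76) (nat_lit 1405071684843) (nat_lit 1) (nat_lit 4) (nat_lit 2) (nat_lit 5) (nat_lit 2) (nat_lit 4) (nat_lit 369) (nat_lit 206) (nat_lit 205)) (XT.lf (nat_lit 0) (nat_lit 2178944006132) (nat_lit 76) (nat_lit 1517104274500) (nat_lit 76) (nat_lit 1517073225461) (nat_lit 1) (nat_lit 4) (nat_lit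 2) (nat_lit 5) (nat_lit 2) (nat_lit 4) (nat_lit 370) (nat_lit 206) (nat_lit 204))) (XT.nd (nat_lit 78) (nat_lit 0) (nat_lit 0) (XT.lf (nat_lit 0) (nat_lit 2353986659886) (nat_lit 76) (nat_lit 1638099769444) (nat_lit 76) (nat_lit 1638054898717) (nat_lit 1) (nat_lit 4) (nat_lit 2) (nat_lit 5) (nat_lit 2) (nat_lit 4) (nat_lit 371) (nat_lit 206) (nat_lit 203)) (XT.lf (nat_lit 0) (nat_lit 2542999180417) (nat_lit 76) (nat_lit 1768791301631) (nat_lit 76) (nat_lit 1768733633045) (nat_lit 1) (nat_lit 4) (nat_lit 2) (nat_lit 5) (nat_lit 2) (nat_lit 4) (nat_lit 372) (nat_lit 206) (nat_lit 202)))) (XT.nd (nat_lit 40170) (nat_lit 0) (nat_lit 0) (XT.nd (nat_lit 40092) (nat_lit 0) (nat_lit 0) (XT.lf (nat_lit 0) (nat_lit 2747101641922) (nat_lit 76) (nat_lit 1909953339401) (nat_lit 76) (nat_lit 1909883820945) (nat_lit 1) (nat_lit 4) (nat_lit 2) (nat_lit 5) (nat_lit 2) (nat_lit 4) (nat_lit 373) (nat_lit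 206) (nat_lit 201)) (XT.lf (nat_lit 0) (nat_lit 799432015337) (nat_lit 76) (nat_lit 558261986103) (nat_lit 76) (nat_lit 558261986103) (nat_lit 1) (nat_lit 4) (nat_lit 2) (nat_lit 5) (nat_lit 2) (nat_lit 4) (nat_lit 366) (nat_lit 207) (nat_lit 207))) (XT.nd (nat_lit 78) (nat_lit 0) (nat_lit 0) (XT.lf (nat_lit 0) (nat_lit 1727639842248) (nat_lit 76) (nat_lit 1205403432676) (nat_lit 76) (nat_lit 1205386021330) (nat_lit 1) (nat_lit 4) (nat_lit 2) (nat_lit 5) (nat_lit 2) (nat_lit 4) (nat_lit 367) (nat_lit 207) (nat_lit 206)) (XT.lf (nat_lit 0) (nat_lit 1866675461050) (nat_lit 76) (nat_lit 1301413906296) (nat_lit 76) (nat_lit 1301380373333) (nat_lit 1) (nat_lit 4) (nat_lit 2) (nat_lit 5) (nat_lit 2) (nat_lit 4) (nat_lit 368) (nat_lit 207) (nat_lit 205)))))) (XT.nd (nat_lit 40482) (nat_lit 0) (nat_lit 0) (XT.nd (nat_lit 312) (nat_lit 0) (nat_lit 0) (XT.nd (nat_lit 156) (nat_lit 0) (nat_lit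 0) (XT.nd (nat_lit 78) (nat_lit 0) (nat_lit 0) (XT.lf (nat_lit 0) (nat_lit 2016794801858) (nat_lit 76) (nat_lit 1405124344022) (nat_lit 76) (nat_lit 1405075883636) (nat_lit 1) (nat_lit 4) (nat_lit 2) (nat_lit 5) (nat_lit 2) (nat_lit 4) (nat_lit 369) (nat_lit 207) (nat_lit 204)) (XT.lf (nat_lit 0) (nat_lit 2178887460767) (nat_lit 76) (nat_lit 1517149326226) (nat_lit 76) (nat_lit 1517087044153) (nat_lit 1) (nat_lit 4) (nat_lit 2) (nat_lit 5) (nat_lit 2) (nat_lit 4) (nat_lit 370) (nat_lit 207) (nat_lit 203))) (XT.nd (nat_lit 78) (nat_lit 0) (nat_lit 0) (XT.lf (nat_lit 0) (nat_lit 2353913986866) (nat_lit 76) (nat_lit 1638152704655) (nat_lit 76) (nat_lit 1638077624722) (nat_lit 1) (nat_lit 4) (nat_lit 2) (nat_lit 5) (nat_lit 2) (nat_lit 4) (nat_lit 371) (nat_lit 207) (nat_lit 202)) (XT.lf (nat_lit 0) (nat_lit 2542911574383) (nat_lit 76) (nat_lit 1768851536365) (nat_lit 76) (nat_lit 1768764606563)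 (nat_lit 1) (nat_lit 4) (nat_lit 2) (nat_lit 5) (nat_lit 2) (nat_lit 4) (nat_lit 372) (nat_lit 207) (nat_lit 201)))) (XT.nd (nat_lit 40014) (nat_lit 0) (nat_lit 0) (XT.nd (nat_lit 39936) (nat_lit 0) (nat_lit 0) (XT.lf (nat_lit 0) (nat_lit 2747000209024) (nat_lit 76) (nat_lit 1910020332952) (nat_lit 76) (nat_lit 1909922431049) (nat_lit 1) (nat_lit 4) (nat_lit 2) (nat_lit 5) (nat_lit 2) (nat_lit 4) (nat_lit 373) (nat_lit 207) (nat_lit 200)) (XT.lf (nat_lit 0) (nat_lit 684559669519) (nat_lit 76) (nat_lit 479048837934) (nat_lit 76) (nat_lit 479048837934) (nat_lit 1) (nat_lit 4) (nat_lit 2) (nat_lit 5) (nat_lit 2) (nat_lit 4) (nat_lit 364) (nat_lit 208) (nat_lit 208))) (XT.nd (nat_lit 78) (nat_lit 0) (nat_lit 0) (XT.lf (nat_lit 0) (nat_lit 1479584910410) (nat_lit 76) (nat_lit 1034267636045) (nat_lit 76) (nat_lit 1034248831791) (nat_lit 1) (nat_lit 4) (nat_lit 2) (nat_lit 5) (nat_lit 2) (nat_lit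 4) (nat_lit 365) (nat_lit 208) (nat_lit 207)) (XT.lf (nat_lit 0) (nat_lit 1598842089178) (nat_lit 76) (nat_lit 1116553501855) (nat_lit 76) (nat_lit 1116517286255) (nat_lit 1) (nat_lit 4) (nat_lit 2) (nat_lit 5) (nat_lit 2) (nat_lit 4) (nat_lit 366) (nat_lit 208) (nat_lit 206))))) (XT.nd (nat_lit 312) (nat_lit 0) (nat_lit 0) (XT.nd (nat_lit 156) (nat_lit 0) (nat_lit 0) (XT.nd (nat_lit 78) (nat_lit 0) (nat_lit 0) (XT.lf (nat_lit 0) (nat_lit 1727597584551) (nat_lit 76) (nat_lit 1205442893243) (nat_lit 76) (nat_lit 1205390556027) (nat_lit 1) (nat_lit 4) (nat_lit 2) (nat_lit 5) (nat_lit 2) (nat_lit 4) (nat_lit 367) (nat_lit 208) (nat_lit 205)) (XT.lf (nat_lit 0) (nat_lit 1866614392056) (nat_lit 76) (nat_lit 1301462562160) (nat_lit 76) (nat_lit 1301395297521) (nat_lit 1) (nat_lit 4) (nat_lit 2) (nat_lit 5) (nat_lit 2) (nat_lit 4) (nat_lit 368) (nat_lit 208) (nat_lit 204))) (XT.nd (nat_lit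 78) (nat_lit 0) (nat_lit 0) (XT.lf (nat_lit 0) (nat_lit 2016716314997) (nat_lit 76) (nat_lit 1405181514049) (nat_lit 76) (nat_lit 1405100427722) (nat_lit 1) (nat_lit 4) (nat_lit 2) (nat_lit 5) (nat_lit 2) (nat_lit 4) (nat_lit 369) (nat_lit 208) (nat_lit 203)) (XT.lf (nat_lit 0) (nat_lit 2178792846250) (nat_lit 76) (nat_lit 1517214379738) (nat_lit 76) (nat_lit 1517120495552) (nat_lit 1) (nat_lit 4) (nat_lit 2) (nat_lit 5) (nat_lit 2) (nat_lit 4) (nat_lit 370) (nat_lit 208) (nat_lit 202)))) (XT.nd (nat_lit 156) (nat_lit 0) (nat_lit 0) (XT.nd (nat_lit 78) (nat_lit 0) (nat_lit 0) (XT.lf (nat_lit 0) (nat_lit 2353804439335) (nat_lit 76) (nat_lit 1638225057689) (nat_lit 76) (nat_lit 1638119323634) (nat_lit 1) (nat_lit 4) (nat_lit 2) (nat_lit 5) (nat_lit 2) (nat_lit 4) (nat_lit 371) (nat_lit 208) (nat_lit 201)) (XT.lf (nat_lit 0) (nat_lit 2542788199988) (nat_lit 76) (nat_lit 1768930648217) (nat_lit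 76) (nat_lit 1768813942060) (nat_lit 1) (nat_lit 4) (nat_lit 2) (nat_lit 5) (nat_lit 2) (nat_lit 4) (nat_lit 372) (nat_lit 208) (nat_lit 200))) (XT.nd (nat_lit 39780) (nat_lit 0) (nat_lit 0) (XT.lf (nat_lit 0) (nat_lit 2746864031975) (nat_lit 76) (nat_lit 1910105702968) (nat_lit 76) (nat_lit 1909978837458) (nat_lit 1) (nat_lit 4) (nat_lit 2) (nat_lit 5) (nat_lit 2) (nat_lit 4) (nat_lit 373) (nat_lit 208) (nat_lit 199)) (XT.lf (nat_lit 0) (nat_lit 586009193556) (nat_lit 76) (nat_lit 411170664157) (nat_lit 76) (nat_lit 411170664157) (nat_lit 1) (nat_lit 4) (nat_lit 2) (nat_lit 5) (nat_lit 2) (nat_lit 4) (nat_lit 362) (nat_lit 209) (nat_lit 209))))))) (XT.nd (nat_lit 40794) (nat_lit 0) (nat_lit 0) (XT.nd (nat_lit 624) (nat_lit 0) (nat_lit 0) (XT.nd (nat_lit 312) (nat_lit 0) (nat_lit 0) (XT.nd (nat_lit 156) (nat_lit 0) (nat_lit 0) (XT.nd (nat_lit 78) (nat_lit 0) (nat_lit 0) (XT.lf (nat_lit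 0) (nat_lit 1266790764270) (nat_lit 76) (nat_lit 887612552376) (nat_lit 76) (nat_lit 887592243782) (nat_lit 1) (nat_lit 4) (nat_lit 2) (nat_lit 5) (nat_lit 2) (nat_lit 4) (nat_lit 363) (nat_lit 209) (nat_lit 208)) (XT.lf (nat_lit 0) (nat_lit 1369095642222) (nat_lit 76) (nat_lit 958129567887) (nat_lit 76) (nat_lit 958090455039) (nat_lit 1) (nat_lit 4) (nat_lit 2) (nat_lit 5) (nat_lit 2) (nat_lit 4) (nat_lit 364) (nat_lit 209) (nat_lit 207))) (XT.nd (nat_lit 78) (nat_lit 0) (nat_lit 0) (XT.lf (nat_lit 0) (nat_lit 1479539272097) (nat_lit 76) (nat_lit 1034310253458) (nat_lit 76) (nat_lit 1034253729264) (nat_lit 1) (nat_lit 4) (nat_lit 2) (nat_lit 5) (nat_lit 2) (nat_lit 4) (nat_lit 365) (nat_lit 209) (nat_lit 206)) (XT.lf (nat_lit 0) (nat_lit 1598776134665) (nat_lit 76) (nat_lit 1116606050188) (nat_lit 76) (nat_lit 1116533404377) (nat_lit 1) (nat_lit 4) (nat_lit 2) (nat_lit 5) (nat_lit 2)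 (nat_lit 4) (nat_lit 366) (nat_lit 209) (nat_lit 205)))) (XT.nd (nat_lit 156) (nat_lit 0) (nat_lit 0) (XT.nd (nat_lit 78) (nat_lit 0) (nat_lit 0) (XT.lf (nat_lit 0) (nat_lit 1727512818740) (nat_lit 76) (nat_lit 1205504636873) (nat_lit 76) (nat_lit 1205417063640) (nat_lit 1) (nat_lit 4) (nat_lit 2) (nat_lit 5) (nat_lit 2) (nat_lit 4) (nat_lit 367) (nat_lit 209) (nat_lit 204)) (XT.lf (nat_lit 0) (nat_lit 1866512208378) (nat_lit 76) (nat_lit 1301532819953) (nat_lit 76) (nat_lit 1301431425032) (nat_lit 1) (nat_lit 4) (nat_lit 2) (nat_lit 5) (nat_lit 2) (nat_lit 4) (nat_lit 368) (nat_lit 209) (nat_lit 203))) (XT.nd (nat_lit 78) (nat_lit 0) (nat_lit 0) (XT.lf (nat_lit 0) (nat_lit 2016598003663) (nat_lit 76) (nat_lit 1405259655327) (nat_lit 76) (nat_lit 1405145462547) (nat_lit 1) (nat_lit 4) (nat_lit 2) (nat_lit 5) (nat_lit 2) (nat_lit 4) (nat_lit 369) (nat_lit 209) (nat_lit 202)) (XT.lf (nat_lit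 0) (nat_lit 2178659601903) (nat_lit 76) (nat_lit 1517299820539) (nat_lit 76) (nat_lit 1517173777889) (nat_lit 1) (nat_lit 4) (nat_lit 2) (nat_lit 5) (nat_lit 2) (nat_lit 4) (nat_lit 370) (nat_lit 209) (nat_lit 201))))) (XT.nd (nat_lit 39858) (nat_lit 0) (nat_lit 0) (XT.nd (nat_lit 156) (nat_lit 0) (nat_lit 0) (XT.nd (nat_lit 78) (nat_lit 0) (nat_lit 0) (XT.lf (nat_lit 0) (nat_lit 2353657368123) (nat_lit 76) (nat_lit 1638317257307) (nat_lit 76) (nat_lit 1638180242556) (nat_lit 1) (nat_lit 4) (nat_lit 2) (nat_lit 5) (nat_lit 2) (nat_lit 4) (nat_lit 371) (nat_lit 209) (nat_lit 200)) (XT.lf (nat_lit 0) (nat_lit 2542628326123) (nat_lit 76) (nat_lit 1769029105999) (nat_lit 76) (nat_lit 1768881931895) (nat_lit 1) (nat_lit 4) (nat_lit 2) (nat_lit 5) (nat_lit 2) (nat_lit 4) (nat_lit 372) (nat_lit 209) (nat_lit 199))) (XT.nd (nat_lit 39624) (nat_lit 0) (nat_lit 0) (XT.lf (nat_lit 0) (nat_lit 2746692303803)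 (nat_lit 76) (nat_lit 1910209955347) (nat_lit 76) (nat_lit 1910053374435) (nat_lit 1) (nat_lit 4) (nat_lit 2) (nat_lit 5) (nat_lit 2) (nat_lit 4) (nat_lit 373) (nat_lit 209) (nat_lit 198)) (XT.lf (nat_lit 0) (nat_lit 501446813879) (nat_lit 76) (nat_lit 353013150614) (nat_lit 76) (nat_lit 353013150614) (nat_lit 1) (nat_lit 4) (nat_lit 2) (nat_lit 5) (nat_lit 2) (nat_lit 4) (nat_lit 360) (nat_lit 210) (nat_lit 210)))) (XT.nd (nat_lit 156) (nat_lit 0) (nat_lit 0) (XT.nd (nat_lit 78) (nat_lit 0) (nat_lit 0) (XT.lf (nat_lit 0) (nat_lit 1084216896662) (nat_lit 76) (nat_lit 761951036546) (nat_lit 76) (nat_lit 761929103265) (nat_lit 1) (nat_lit 4) (nat_lit 2) (nat_lit 5) (nat_lit 2) (nat_lit 4) (nat_lit 361) (nat_lit 210) (nat_lit 209)) (XT.lf (nat_lit 0) (nat_lit 1171992794550) (nat_lit 76) (nat_lit 822375771696) (nat_lit 76) (nat_lit 822333529821) (nat_lit 1) (nat_lit 4) (nat_lit 2) (nat_lit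 5) (nat_lit 2) (nat_lit 4) (nat_lit 362) (nat_lit 210) (nat_lit 208))) (XT.nd (nat_lit 78) (nat_lit 0) (nat_lit 0) (XT.lf (nat_lit 0) (nat_lit 1266741474891) (nat_lit 76) (nat_lit 887658579182) (nat_lit 76) (nat_lit 887597533053) (nat_lit 1) (nat_lit 4) (nat_lit 2) (nat_lit 5) (nat_lit 2) (nat_lit 4) (nat_lit 363) (nat_lit 210) (nat_lit 207)) (XT.lf (nat_lit 0) (nat_lit 1369024411347) (nat_lit 76) (nat_lit 958186320087) (nat_lit 76) (nat_lit 958107862612) (nat_lit 1) (nat_lit 4) (nat_lit 2) (nat_lit 5) (nat_lit 2) (nat_lit 4) (nat_lit 364) (nat_lit 210) (nat_lit 206)))))) (XT.nd (nat_lit 624) (nat_lit 0) (nat_lit 0) (XT.nd (nat_lit 312) (nat_lit 0) (nat_lit 0) (XT.nd (nat_lit 156) (nat_lit 0) (nat_lit 0) (XT.nd (nat_lit 78) (nat_lit 0) (nat_lit 0) (XT.lf (nat_lit 0) (nat_lit 1479447725021) (nat_lit 76) (nat_lit 1034376936578) (nat_lit 76) (nat_lit 1034282357486) (nat_lit 1) (nat_lit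 4) (nat_lit 2) (nat_lit 5) (nat_lit 2) (nat_lit 4) (nat_lit 365) (nat_lit 210) (nat_lit 205)) (XT.lf (nat_lit 0) (nat_lit 1598665776292) (nat_lit 76) (nat_lit 1116681928604) (nat_lit 76) (nat_lit 1116572422090) (nat_lit 1) (nat_lit 4) (nat_lit 2) (nat_lit 5) (nat_lit 2) (nat_lit 4) (nat_lit 366) (nat_lit 210) (nat_lit 204))) (XT.nd (nat_lit 78) (nat_lit 0) (nat_lit 0) (XT.lf (nat_lit 0) (nat_lit 1727385042500) (nat_lit 76) (nat_lit 1205589029453) (nat_lit 76) (nat_lit 1205465701250) (nat_lit 1) (nat_lit 4) (nat_lit 2) (nat_lit 5) (nat_lit 2) (nat_lit 4) (nat_lit 367) (nat_lit 210) (nat_lit 203)) (XT.lf (nat_lit 0) (nat_lit 1866368304483) (nat_lit 76) (nat_lit 1301625096017) (nat_lit 76) (nat_lit 1301488969956) (nat_lit 1) (nat_lit 4) (nat_lit 2) (nat_lit 5) (nat_lit 2) (nat_lit 4) (nat_lit 368) (nat_lit 210) (nat_lit 202)))) (XT.nd (nat_lit 156) (nat_lit 0) (nat_lit 0) (XT.nd (nat_lit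 78) (nat_lit 0) (nat_lit 0) (XT.lf (nat_lit 0) (nat_lit 2016439166754) (nat_lit 76) (nat_lit 1405359230914) (nat_lit 76) (nat_lit 1405211254983) (nat_lit 1) (nat_lit 4) (nat_lit 2) (nat_lit 5) (nat_lit 2) (nat_lit 4) (nat_lit 369) (nat_lit 210) (nat_lit 201)) (XT.lf (nat_lit 0) (nat_lit 2178486938129) (nat_lit 76) (nat_lit 1517406154943) (nat_lit 76) (nat_lit 1517247206911) (nat_lit 1) (nat_lit 4) (nat_lit 2) (nat_lit 5) (nat_lit 2) (nat_lit 4) (nat_lit 370) (nat_lit 210) (nat_lit 200))) (XT.nd (nat_lit 78) (nat_lit 0) (nat_lit 0) (XT.lf (nat_lit 0) (nat_lit 2353471901697) (nat_lit 76) (nat_lit 1638429849876) (nat_lit 76) (nat_lit 1638260742491) (nat_lit 1) (nat_lit 4) (nat_lit 2) (nat_lit 5) (nat_lit 2) (nat_lit 4) (nat_lit 371) (nat_lit 210) (nat_lit 199)) (XT.lf (nat_lit 0) (nat_lit 2542431005389) (nat_lit 76) (nat_lit 1769147493164) (nat_lit 76) (nat_lit 1768968978971) (nat_lit 1)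 (nat_lit 4) (nat_lit 2) (nat_lit 5) (nat_lit 2) (nat_lit 4) (nat_lit 372) (nat_lit 210) (nat_lit 198))))) (XT.nd (nat_lit 39702) (nat_lit 0) (nat_lit 0) (XT.nd (nat_lit 39546) (nat_lit 0) (nat_lit 0) (XT.nd (nat_lit 39468) (nat_lit 0) (nat_lit 0) (XT.lf (nat_lit 0) (nat_lit 2746484006858) (nat_lit 76) (nat_lit 1910333707880) (nat_lit 76) (nat_lit 1910146483678) (nat_lit 1) (nat_lit 4) (nat_lit 2) (nat_lit 5) (nat_lit 2) (nat_lit 4) (nat_lit 373) (nat_lit 210) (nat_lit 197)) (XT.lf (nat_lit 0) (nat_lit 428871273699) (nat_lit 76) (nat_lit 303192502838) (nat_lit 76) (nat_lit 303192502838) (nat_lit 1) (nat_lit 4) (nat_lit 2) (nat_lit 5) (nat_lit 2) (nat_lit 4) (nat_lit 358) (nat_lit 211) (nat_lit 211))) (XT.nd (nat_lit 78) (nat_lit 0) (nat_lit 0) (XT.lf (nat_lit 0) (nat_lit 927541072170) (nat_lit 76) (nat_lit 654293847847) (nat_lit 76) (nat_lit 654270159903) (nat_lit 1) (nat_lit 4) (nat_lit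 2) (nat_lit 5) (nat_lit 2) (nat_lit 4) (nat_lit 359) (nat_lit 211) (nat_lit 210)) (XT.lf (nat_lit 0) (nat_lit 1002865987791) (nat_lit 76) (nat_lit 706063500079) (nat_lit 76) (nat_lit 706017878854) (nat_lit 1) (nat_lit 4) (nat_lit 2) (nat_lit 5) (nat_lit 2) (nat_lit 4) (nat_lit 360) (nat_lit 211) (nat_lit 209)))) (XT.nd (nat_lit 156) (nat_lit 0) (nat_lit 0) (XT.nd (nat_lit 78) (nat_lit 0) (nat_lit 0) (XT.lf (nat_lit 0) (nat_lit 1084163664134) (nat_lit 76) (nat_lit 762000745497) (nat_lit 76) (nat_lit 761934815677) (nat_lit 1) (nat_lit 4) (nat_lit 2) (nat_lit 5) (nat_lit 2) (nat_lit 4) (nat_lit 361) (nat_lit 211) (nat_lit 208)) (XT.lf (nat_lit 0) (nat_lit 1171915865205) (nat_lit 76) (nat_lit 822437064072) (nat_lit 76) (nat_lit 822352329999) (nat_lit 1) (nat_lit 4) (nat_lit 2) (nat_lit 5) (nat_lit 2) (nat_lit 4) (nat_lit 362) (nat_lit 211) (nat_lit 207))) (XT.nd (nat_lit 78) (nat_lit 0)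 (nat_lit 0) (XT.lf (nat_lit 0) (nat_lit 1266642604050) (nat_lit 76) (nat_lit 887730596952) (nat_lit 76) (nat_lit 887628451533) (nat_lit 1) (nat_lit 4) (nat_lit 2) (nat_lit 5) (nat_lit 2) (nat_lit 4) (nat_lit 363) (nat_lit 211) (nat_lit 206)) (XT.lf (nat_lit 0) (nat_lit 1368905224305) (nat_lit 76) (nat_lit 958268268777) (nat_lit 76) (nat_lit 958150001741) (nat_lit 1) (nat_lit 4) (nat_lit 2) (nat_lit 5) (nat_lit 2) (nat_lit 4) (nat_lit 364) (nat_lit 211) (nat_lit 205))))))))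
noncomputable def xc1 : XT := (XT.nd (nat_lit 80730) (nat_lit 0) (nat_lit 0) (XT.nd (nat_lit 40404) (nat_lit 0) (nat_lit 0) (XT.nd (nat_lit 546) (nat_lit 0) (nat_lit 0) (XT.nd (nat_lit 234) (nat_lit 0) (nat_lit 0) (XT.nd (nat_lit 78) (nat_lit 0) (nat_lit 0) (XT.lf (nat_lit 0) (nat_lit 1479309726682) (nat_lit 76) (nat_lit 1034468080564) (nat_lit 76) (nat_lit 1034334886105) (nat_lit 1) (nat_lit 4) (nat_lit 2) (nat_lit 5) (nat_lit 2) (nat_lit 4) (nat_lit 365) (nat_lit 211) (nat_lit 204)) (XT.nd (nat_lit 78) (nat_lit 0) (nat_lit 0) (XT.lf (nat_lit 0) (nat_lit 1598510360086) (nat_lit 76) (nat_lit 1116781586754) (nat_lit 76) (nat_lit 1116634570607) (nat_lit 1) (nat_lit 4) (nat_lit 2) (nat_lit 5) (nat_lit 2) (nat_lit 4) (nat_lit 366) (nat_lit 211) (nat_lit 203)) (XT.lf (nat_lit 0) (nat_lit 1727213498639) (nat_lit 76) (nat_lit 1205696571087) (nat_lit 76) (nat_lit 1205536757082) (nat_lit 1) (nat_lit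 4) (nat_lit 2) (nat_lit 5) (nat_lit 2) (nat_lit 4) (nat_lit 367) (nat_lit 211) (nat_lit 202)))) (XT.nd (nat_lit 156) (nat_lit 0) (nat_lit 0) (XT.nd (nat_lit 78) (nat_lit 0) (nat_lit 0) (XT.lf (nat_lit 0) (nat_lit 1866181827607) (nat_lit 76) (nat_lit 1301739937174) (nat_lit 76) (nat_lit 1301568273299) (nat_lit 1) (nat_lit 4) (nat_lit 2) (nat_lit 5) (nat_lit 2) (nat_lit 4) (nat_lit 368) (nat_lit 211) (nat_lit 201)) (XT.lf (nat_lit 0) (nat_lit 2016238863014) (nat_lit 76) (nat_lit 1405480830889) (nat_lit 76) (nat_lit 1405298194912) (nat_lit 1) (nat_lit 4) (nat_lit 2) (nat_lit 5) (nat_lit 2) (nat_lit 4) (nat_lit 369) (nat_lit 211) (nat_lit 200))) (XT.nd (nat_lit 78) (nat_lit 0) (nat_lit 0) (XT.lf (nat_lit 0) (nat_lit 2178273831736) (nat_lit 76) (nat_lit 1517534013082) (nat_lit 76) (nat_lit 1517341217752) (nat_lit 1) (nat_lit 4) (nat_lit 2) (nat_lit 5) (nat_lit 2) (nat_lit 4) (nat_lit 370)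 (nat_lit 211) (nat_lit 199)) (XT.lf (nat_lit 0) (nat_lit 2353246940996) (nat_lit 76) (nat_lit 1638563502611) (nat_lit 76) (nat_lit 1638361300473) (nat_lit 1) (nat_lit 4) (nat_lit 2) (nat_lit 5) (nat_lit 2) (nat_lit 4) (nat_lit 371) (nat_lit 211) (nat_lit 198))))) (XT.nd (nat_lit 39546) (nat_lit 0) (nat_lit 0) (XT.nd (nat_lit 39390) (nat_lit 0) (nat_lit 0) (XT.nd (nat_lit 78) (nat_lit 0) (nat_lit 0) (XT.lf (nat_lit 0) (nat_lit 2542195068477) (nat_lit 76) (nat_lit 1769286511267) (nat_lit 76) (nat_lit 1769075599121) (nat_lit 1) (nat_lit 4) (nat_lit 2) (nat_lit 5) (nat_lit 2) (nat_lit 4) (nat_lit 372) (nat_lit 211) (nat_lit 197)) (XT.lf (nat_lit 0) (nat_lit 2746237906787) (nat_lit 76) (nat_lit 1910477693915) (nat_lit 76) (nat_lit 1910258716947) (nat_lit 1) (nat_lit 4) (nat_lit 2) (nat_lit 5) (nat_lit 2) (nat_lit 4) (nat_lit 373) (nat_lit 211) (nat_lit 196))) (XT.nd (nat_lit 78) (nat_lit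 0) (nat_lit 0) (XT.lf (nat_lit 0) (nat_lit 366566362007) (nat_lit 76) (nat_lit 260522577426) (nat_lit 76) (nat_lit 260522577426) (nat_lit 1) (nat_lit 4) (nat_lit 2) (nat_lit 5) (nat_lit 2) (nat_lit 4) (nat_lit 356) (nat_lit 212) (nat_lit 212)) (XT.lf (nat_lit 0) (nat_lit 793056792592) (nat_lit 76) (nat_lit 562078652295) (nat_lit 76) (nat_lit 562053069316) (nat_lit 1) (nat_lit 4) (nat_lit 2) (nat_lit 5) (nat_lit 2) (nat_lit 4) (nat_lit 357) (nat_lit 212) (nat_lit 211)))) (XT.nd (nat_lit 156) (nat_lit 0) (nat_lit 0) (XT.nd (nat_lit 78) (nat_lit 0) (nat_lit 0) (XT.lf (nat_lit 0) (nat_lit 857712696235) (nat_lit 76) (nat_lit 606425180435) (nat_lit 76) (nat_lit 606375909512) (nat_lit 1) (nat_lit 4) (nat_lit 2) (nat_lit 5) (nat_lit 2) (nat_lit 4) (nat_lit 358) (nat_lit 212) (nat_lit 210)) (XT.lf (nat_lit 0) (nat_lit 927483581039) (nat_lit 76) (nat_lit 654347533514) (nat_lit 76) (nat_lit 654276329309)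 (nat_lit 1) (nat_lit 4) (nat_lit 2) (nat_lit 5) (nat_lit 2) (nat_lit 4) (nat_lit 359) (nat_lit 212) (nat_lit 209))) (XT.nd (nat_lit 78) (nat_lit 0) (nat_lit 0) (XT.lf (nat_lit 0) (nat_lit 1002782904099) (nat_lit 76) (nat_lit 706129695845) (nat_lit 76) (nat_lit 706038183046) (nat_lit 1) (nat_lit 4) (nat_lit 2) (nat_lit 5) (nat_lit 2) (nat_lit 4) (nat_lit 360) (nat_lit 212) (nat_lit 208)) (XT.lf (nat_lit 0) (nat_lit 1084056883625) (nat_lit 76) (nat_lit 762078524688) (nat_lit 76) (nat_lit 761968207635) (nat_lit 1) (nat_lit 4) (nat_lit 2) (nat_lit 5) (nat_lit 2) (nat_lit 4) (nat_lit 361) (nat_lit 212) (nat_lit 207)))))) (XT.nd (nat_lit 624) (nat_lit 0) (nat_lit 0) (XT.nd (nat_lit 312) (nat_lit 0) (nat_lit 0) (XT.nd (nat_lit 156) (nat_lit 0) (nat_lit 0) (XT.nd (nat_lit 78) (nat_lit 0) (nat_lit 0) (XT.lf (nat_lit 0) (nat_lit 1171787143200) (nat_lit 76) (nat_lit 822525568657) (nat_lit 76) (nat_lit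 822397840258) (nat_lit 1) (nat_lit 4) (nat_lit 2) (nat_lit 5) (nat_lit 2) (nat_lit 4) (nat_lit 362) (nat_lit 212) (nat_lit 206)) (XT.lf (nat_lit 0) (nat_lit 1266493565844) (nat_lit 76) (nat_lit 887829032457) (nat_lit 76) (nat_lit 887685182442) (nat_lit 1) (nat_lit 4) (nat_lit 2) (nat_lit 5) (nat_lit 2) (nat_lit 4) (nat_lit 363) (nat_lit 212) (nat_lit 205))) (XT.nd (nat_lit 78) (nat_lit 0) (nat_lit 0) (XT.lf (nat_lit 0) (nat_lit 1368737374802) (nat_lit 76) (nat_lit 958375899578) (nat_lit 76) (nat_lit 958217122140) (nat_lit 1) (nat_lit 4) (nat_lit 2) (nat_lit 5) (nat_lit 2) (nat_lit 4) (nat_lit 364) (nat_lit 212) (nat_lit 204)) (XT.lf (nat_lit 0) (nat_lit 1479124459312) (nat_lit 76) (nat_lit 1034584225529) (nat_lit 76) (nat_lit 1034411626403) (nat_lit 1) (nat_lit 4) (nat_lit 2) (nat_lit 5) (nat_lit 2) (nat_lit 4) (nat_lit 365) (nat_lit 212) (nat_lit 203)))) (XT.nd (nat_lit 156) (nat_lit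 0) (nat_lit 0) (XT.nd (nat_lit 78) (nat_lit 0) (nat_lit 0) (XT.lf (nat_lit 0) (nat_lit 1598308965060) (nat_lit 76) (nat_lit 1116905615203) (nat_lit 76) (nat_lit 1116720218218) (nat_lit 1) (nat_lit 4) (nat_lit 2) (nat_lit 5) (nat_lit 2) (nat_lit 4) (nat_lit 366) (nat_lit 212) (nat_lit 202)) (XT.lf (nat_lit 0) (nat_lit 1726997170599) (nat_lit 76) (nat_lit 1205827899059) (nat_lit 76) (nat_lit 1205630652205) (nat_lit 1) (nat_lit 4) (nat_lit 2) (nat_lit 5) (nat_lit 2) (nat_lit 4) (nat_lit 367) (nat_lit 212) (nat_lit 201))) (XT.nd (nat_lit 78) (nat_lit 0) (nat_lit 0) (XT.lf (nat_lit 0) (nat_lit 1865951672703) (nat_lit 76) (nat_lit 1301878023964) (nat_lit 76) (nat_lit 1301669805008) (nat_lit 1) (nat_lit 4) (nat_lit 2) (nat_lit 5) (nat_lit 2) (nat_lit 4) (nat_lit 368) (nat_lit 212) (nat_lit 200)) (XT.lf (nat_lit 0) (nat_lit 2015995905457) (nat_lit 76) (nat_lit 1405625175843) (nat_lit 76) (nat_lit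 1405406797534) (nat_lit 1) (nat_lit 4) (nat_lit 2) (nat_lit 5) (nat_lit 2) (nat_lit 4) (nat_lit 369) (nat_lit 212) (nat_lit 199))))) (XT.nd (nat_lit 39390) (nat_lit 0) (nat_lit 0) (XT.nd (nat_lit 156) (nat_lit 0) (nat_lit 0) (XT.nd (nat_lit 78) (nat_lit 0) (nat_lit 0) (XT.lf (nat_lit 0) (nat_lit 2178019019871) (nat_lit 76) (nat_lit 1517684152632) (nat_lit 76) (nat_lit 1517456367515) (nat_lit 1) (nat_lit 4) (nat_lit 2) (nat_lit 5) (nat_lit 2) (nat_lit 4) (nat_lit 370) (nat_lit 212) (nat_lit 198)) (XT.lf (nat_lit 0) (nat_lit 2352981152920) (nat_lit 76) (nat_lit 1638719007529) (nat_lit 76) (nat_lit 1638482512404) (nat_lit 1) (nat_lit 4) (nat_lit 2) (nat_lit 5) (nat_lit 2) (nat_lit 4) (nat_lit 371) (nat_lit 212) (nat_lit 197))) (XT.nd (nat_lit 78) (nat_lit 0) (nat_lit 0) (XT.lf (nat_lit 0) (nat_lit 2541919117243) (nat_lit 76) (nat_lit 1769446984117) (nat_lit 76) (nat_lit 1769202424170) (nat_lit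 1) (nat_lit 4) (nat_lit 2) (nat_lit 5) (nat_lit 2) (nat_lit 4) (nat_lit 372) (nat_lit 212) (nat_lit 196)) (XT.lf (nat_lit 0) (nat_lit 2745952545221) (nat_lit 76) (nat_lit 1910642766702) (nat_lit 76) (nat_lit 1910390739327) (nat_lit 1) (nat_lit 4) (nat_lit 2) (nat_lit 5) (nat_lit 2) (nat_lit 4) (nat_lit 373) (nat_lit 212) (nat_lit 195)))) (XT.nd (nat_lit 156) (nat_lit 0) (nat_lit 0) (XT.nd (nat_lit 78) (nat_lit 0) (nat_lit 0) (XT.lf (nat_lit 0) (nat_lit 313060212130) (nat_lit 76) (nat_lit 223986703889) (nat_lit 76) (nat_lit 223986703889) (nat_lit 1) (nat_lit 4) (nat_lit 2) (nat_lit 5) (nat_lit 2) (nat_lit 4) (nat_lit 354) (nat_lit 213) (nat_lit 213)) (XT.lf (nat_lit 0) (nat_lit 677585384910) (nat_lit 76) (nat_lit 483109156259) (nat_lit 76) (nat_lit 483081526641) (nat_lit 1) (nat_lit 4) (nat_lit 2) (nat_lit 5) (nat_lit 2) (nat_lit 4) (nat_lit 355) (nat_lit 213) (nat_lit 212))) (XT.nd (nat_lit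 78) (nat_lit 0) (nat_lit 0) (XT.lf (nat_lit 0) (nat_lit 733100484757) (nat_lit 76) (nat_lit 521088543592) (nat_lit 76) (nat_lit 521035330995) (nat_lit 1) (nat_lit 4) (nat_lit 2) (nat_lit 5) (nat_lit 2) (nat_lit 4) (nat_lit 356) (nat_lit 213) (nat_lit 211)) (XT.lf (nat_lit 0) (nat_lit 792994702171) (nat_lit 76) (nat_lit 562136632815) (nat_lit 76) (nat_lit 562059732274) (nat_lit 1) (nat_lit 4) (nat_lit 2) (nat_lit 5) (nat_lit 2) (nat_lit 4) (nat_lit 357) (nat_lit 213) (nat_lit 210))))))) (XT.nd (nat_lit 40170) (nat_lit 0) (nat_lit 0) (XT.nd (nat_lit 624) (nat_lit 0) (nat_lit 0) (XT.nd (nat_lit 312) (nat_lit 0) (nat_lit 0) (XT.nd (nat_lit 156) (nat_lit 0) (nat_lit 0) (XT.nd (nat_lit 78) (nat_lit 0) (nat_lit 0) (XT.lf (nat_lit 0) (nat_lit 857622965848) (nat_lit 76) (nat_lit 606496671863) (nat_lit 76) (nat_lit 606397838040) (nat_lit 1) (nat_lit 4) (nat_lit 2) (nat_lit 5) (nat_lit 2) (nat_lit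 4) (nat_lit 358) (nat_lit 213) (nat_lit 209)) (XT.lf (nat_lit 0) (nat_lit 927368258089) (nat_lit 76) (nat_lit 654431535040) (nat_lit 76) (nat_lit 654312392624) (nat_lit 1) (nat_lit 4) (nat_lit 2) (nat_lit 5) (nat_lit 2) (nat_lit 4) (nat_lit 359) (nat_lit 213) (nat_lit 208))) (XT.nd (nat_lit 78) (nat_lit 0) (nat_lit 0) (XT.lf (nat_lit 0) (nat_lit 1002643884333) (nat_lit 76) (nat_lit 706225280797) (nat_lit 76) (nat_lit 706087334127) (nat_lit 1) (nat_lit 4) (nat_lit 2) (nat_lit 5) (nat_lit 2) (nat_lit 4) (nat_lit 360) (nat_lit 213) (nat_lit 207)) (XT.lf (nat_lit 0) (nat_lit 1083895922362) (nat_lit 76) (nat_lit 762184835033) (nat_lit 76) (nat_lit 762029477017) (nat_lit 1) (nat_lit 4) (nat_lit 2) (nat_lit 5) (nat_lit 2) (nat_lit 4) (nat_lit 361) (nat_lit 213) (nat_lit 206)))) (XT.nd (nat_lit 156) (nat_lit 0) (nat_lit 0) (XT.nd (nat_lit 78) (nat_lit 0) (nat_lit 0) (XT.lf (nat_lit 0) (nat_lit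 1171605865737) (nat_lit 76) (nat_lit 822641809922) (nat_lit 76) (nat_lit 822470330289) (nat_lit 1) (nat_lit 4) (nat_lit 2) (nat_lit 5) (nat_lit 2) (nat_lit 4) (nat_lit 362) (nat_lit 213) (nat_lit 205)) (XT.lf (nat_lit 0) (nat_lit 1266293477084) (nat_lit 76) (nat_lit 887954469019) (nat_lit 76) (nat_lit 887768061963) (nat_lit 1) (nat_lit 4) (nat_lit 2) (nat_lit 5) (nat_lit 2) (nat_lit 4) (nat_lit 363) (nat_lit 213) (nat_lit 204))) (XT.nd (nat_lit 78) (nat_lit 0) (nat_lit 0) (XT.lf (nat_lit 0) (nat_lit 1368519868174) (nat_lit 76) (nat_lit 958509850304) (nat_lit 76) (nat_lit 958309621560) (nat_lit 1) (nat_lit 4) (nat_lit 2) (nat_lit 5) (nat_lit 2) (nat_lit 4) (nat_lit 364) (nat_lit 213) (nat_lit 203)) (XT.lf (nat_lit 0) (nat_lit 1478890825029) (nat_lit 76) (nat_lit 1034726059739) (nat_lit 76) (nat_lit 1034513033136) (nat_lit 1) (nat_lit 4) (nat_lit 2) (nat_lit 5) (nat_lit 2) (nat_lit 4)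 (nat_lit 365) (nat_lit 213) (nat_lit 202))))) (XT.nd (nat_lit 312) (nat_lit 0) (nat_lit 0) (XT.nd (nat_lit 156) (nat_lit 0) (nat_lit 0) (XT.nd (nat_lit 78) (nat_lit 0) (nat_lit 0) (XT.lf (nat_lit 0) (nat_lit 1598060397763) (nat_lit 76) (nat_lit 1117054748936) (nat_lit 76) (nat_lit 1116829872464) (nat_lit 1) (nat_lit 4) (nat_lit 2) (nat_lit 5) (nat_lit 2) (nat_lit 4) (nat_lit 366) (nat_lit 213) (nat_lit 201)) (XT.lf (nat_lit 0) (nat_lit 1726734776438) (nat_lit 76) (nat_lit 1205983791610) (nat_lit 76) (nat_lit 1205747943036) (nat_lit 1) (nat_lit 4) (nat_lit 2) (nat_lit 5) (nat_lit 2) (nat_lit 4) (nat_lit 367) (nat_lit 213) (nat_lit 200))) (XT.nd (nat_lit 78) (nat_lit 0) (nat_lit 0) (XT.lf (nat_lit 0) (nat_lit 1865676475889) (nat_lit 76) (nat_lit 1302040174679) (nat_lit 76) (nat_lit 1301794166752) (nat_lit 1) (nat_lit 4) (nat_lit 2) (nat_lit 5) (nat_lit 2) (nat_lit 4) (nat_lit 368) (nat_lit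 213) (nat_lit 199)) (XT.lf (nat_lit 0) (nat_lit 2015708854335) (nat_lit 76) (nat_lit 1405793121154) (nat_lit 76) (nat_lit 1405537706419) (nat_lit 1) (nat_lit 4) (nat_lit 2) (nat_lit 5) (nat_lit 2) (nat_lit 4) (nat_lit 369) (nat_lit 213) (nat_lit 198)))) (XT.nd (nat_lit 156) (nat_lit 0) (nat_lit 0) (XT.nd (nat_lit 78) (nat_lit 0) (nat_lit 0) (XT.lf (nat_lit 0) (nat_lit 2177720992538) (nat_lit 76) (nat_lit 1517857463311) (nat_lit 76) (nat_lit 1517593338568) (nat_lit 1) (nat_lit 4) (nat_lit 2) (nat_lit 5) (nat_lit 2) (nat_lit 4) (nat_lit 370) (nat_lit 213) (nat_lit 197)) (XT.lf (nat_lit 0) (nat_lit 2352672962428) (nat_lit 76) (nat_lit 1638897286140) (nat_lit 76) (nat_lit 1638625096575) (nat_lit 1) (nat_lit 4) (nat_lit 2) (nat_lit 5) (nat_lit 2) (nat_lit 4) (nat_lit 371) (nat_lit 213) (nat_lit 196))) (XT.nd (nat_lit 78) (nat_lit 0) (nat_lit 0) (XT.lf (nat_lit 0) (nat_lit 2541601516419) (nat_lit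 76) (nat_lit 1769629862666) (nat_lit 76) (nat_lit 1769350205673) (nat_lit 1) (nat_lit 4) (nat_lit 2) (nat_lit 5) (nat_lit 2) (nat_lit 4) (nat_lit 372) (nat_lit 213) (nat_lit 195)) (XT.lf (nat_lit 0) (nat_lit 2745626231128) (nat_lit 76) (nat_lit 1910829904452) (nat_lit 76) (nat_lit 1910543333174) (nat_lit 1) (nat_lit 4) (nat_lit 2) (nat_lit 5) (nat_lit 2) (nat_lit 4) (nat_lit 373) (nat_lit 213) (nat_lit 194)))))) (XT.nd (nat_lit 624) (nat_lit 0) (nat_lit 0) (XT.nd (nat_lit 312) (nat_lit 0) (nat_lit 0) (XT.nd (nat_lit 156) (nat_lit 0) (nat_lit 0) (XT.nd (nat_lit 78) (nat_lit 0) (nat_lit 0) (XT.lf (nat_lit 0) (nat_lit 267090403896) (nat_lit 76) (nat_lit 192713527947) (nat_lit 76) (nat_lit 192713527947) (nat_lit 1) (nat_lit 4) (nat_lit 2) (nat_lit 5) (nat_lit 2) (nat_lit 4) (nat_lit 352) (nat_lit 214) (nat_lit 214)) (XT.lf (nat_lit 0) (nat_lit 578400625263) (nat_lit 76) (nat_lit 415502926294)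 (nat_lit 76) (nat_lit 415473086306) (nat_lit 1) (nat_lit 4) (nat_lit 2) (nat_lit 5) (nat_lit 2) (nat_lit 4) (nat_lit 353) (nat_lit 214) (nat_lit 213))) (XT.nd (nat_lit 78) (nat_lit 0) (nat_lit 0) (XT.lf (nat_lit 0) (nat_lit 626085605862) (nat_lit 76) (nat_lit 448020267617) (nat_lit 76) (nat_lit 447962798012) (nat_lit 1) (nat_lit 4) (nat_lit 2) (nat_lit 5) (nat_lit 2) (nat_lit 4) (nat_lit 354) (nat_lit 214) (nat_lit 212)) (XT.lf (nat_lit 0) (nat_lit 677518327255) (nat_lit 76) (nat_lit 483171775220) (nat_lit 76) (nat_lit 483088722636) (nat_lit 1) (nat_lit 4) (nat_lit 2) (nat_lit 5) (nat_lit 2) (nat_lit 4) (nat_lit 355) (nat_lit 214) (nat_lit 211)))) (XT.nd (nat_lit 156) (nat_lit 0) (nat_lit 0) (XT.nd (nat_lit 78) (nat_lit 0) (nat_lit 0) (XT.lf (nat_lit 0) (nat_lit 733003575939) (nat_lit 76) (nat_lit 521165754334) (nat_lit 76) (nat_lit 521059013805) (nat_lit 1) (nat_lit 4) (nat_lit 2) (nat_lit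 5) (nat_lit 2) (nat_lit 4) (nat_lit 356) (nat_lit 214) (nat_lit 210)) (XT.lf (nat_lit 0) (nat_lit 792870153386) (nat_lit 76) (nat_lit 562227354464) (nat_lit 76) (nat_lit 562098680654) (nat_lit 1) (nat_lit 4) (nat_lit 2) (nat_lit 5) (nat_lit 2) (nat_lit 4) (nat_lit 357) (nat_lit 214) (nat_lit 209))) (XT.nd (nat_lit 78) (nat_lit 0) (nat_lit 0) (XT.lf (nat_lit 0) (nat_lit 857472824500) (nat_lit 76) (nat_lit 606599903610) (nat_lit 76) (nat_lit 606450921206) (nat_lit 1) (nat_lit 4) (nat_lit 2) (nat_lit 5) (nat_lit 2) (nat_lit 4) (nat_lit 358) (nat_lit 214) (nat_lit 208)) (XT.lf (nat_lit 0) (nat_lit 927194419926) (nat_lit 76) (nat_lit 654546350214) (nat_lit 76) (nat_lit 654378563556) (nat_lit 1) (nat_lit 4) (nat_lit 2) (nat_lit 5) (nat_lit 2) (nat_lit 4) (nat_lit 359) (nat_lit 214) (nat_lit 207))))) (XT.nd (nat_lit 312) (nat_lit 0) (nat_lit 0) (XT.nd (nat_lit 156) (nat_lit 0) (nat_lit 0) (XT.nd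 (nat_lit 78) (nat_lit 0) (nat_lit 0) (XT.lf (nat_lit 0) (nat_lit 1002448104672) (nat_lit 76) (nat_lit 706350821364) (nat_lit 76) (nat_lit 706165623360) (nat_lit 1) (nat_lit 4) (nat_lit 2) (nat_lit 5) (nat_lit 2) (nat_lit 4) (nat_lit 360) (nat_lit 214) (nat_lit 206)) (XT.lf (nat_lit 0) (nat_lit 1083679826501) (nat_lit 76) (nat_lit 762320306520) (nat_lit 76) (nat_lit 762118986900) (nat_lit 1) (nat_lit 4) (nat_lit 2) (nat_lit 5) (nat_lit 2) (nat_lit 4) (nat_lit 361) (nat_lit 214) (nat_lit 205))) (XT.nd (nat_lit 78) (nat_lit 0) (nat_lit 0) (XT.lf (nat_lit 0) (nat_lit 1171370958579) (nat_lit 76) (nat_lit 822786476706) (nat_lit 76) (nat_lit 822570229663) (nat_lit 1) (nat_lit 4) (nat_lit 2) (nat_lit 5) (nat_lit 2) (nat_lit 4) (nat_lit 362) (nat_lit 214) (nat_lit 204)) (XT.lf (nat_lit 0) (nat_lit 1266041152058) (nat_lit 76) (nat_lit 888107649966) (nat_lit 76) (nat_lit 887877581235) (nat_lit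 1) (nat_lit 4) (nat_lit 2) (nat_lit 5) (nat_lit 2) (nat_lit 4) (nat_lit 363) (nat_lit 214) (nat_lit 203)))) (XT.nd (nat_lit 156) (nat_lit 0) (nat_lit 0) (XT.nd (nat_lit 78) (nat_lit 0) (nat_lit 0) (XT.lf (nat_lit 0) (nat_lit 1368251415493) (nat_lit 76) (nat_lit 958670914735) (nat_lit 76) (nat_lit 958428048145) (nat_lit 1) (nat_lit 4) (nat_lit 2) (nat_lit 5) (nat_lit 2) (nat_lit 4) (nat_lit 364) (nat_lit 214) (nat_lit 202)) (XT.lf (nat_lit 0) (nat_lit 1478607439335) (nat_lit 76) (nat_lit 1034894423693) (nat_lit 76) (nat_lit 1034639707234) (nat_lit 1) (nat_lit 4) (nat_lit 2) (nat_lit 5) (nat_lit 2) (nat_lit 4) (nat_lit 365) (nat_lit 214) (nat_lit 201))) (XT.nd (nat_lit 78) (nat_lit 0) (nat_lit 0) (XT.lf (nat_lit 0) (nat_lit 1597763185204) (nat_lit 76) (nat_lit 1117229871708) (nat_lit 76) (nat_lit 1116964183147) (nat_lit 1) (nat_lit 4) (nat_lit 2) (nat_lit 5) (nat_lit 2) (nat_lit 4) (nat_lit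 366) (nat_lit 214) (nat_lit 200)) (XT.lf (nat_lit 0) (nat_lit 1726424761226) (nat_lit 76) (nat_lit 1206165172546) (nat_lit 76) (nat_lit 1205889324632) (nat_lit 1) (nat_lit 4) (nat_lit 2) (nat_lit 5) (nat_lit 2) (nat_lit 4) (nat_lit 367) (nat_lit 214) (nat_lit 199))))))))
noncomputable def xc2 : XT := (XT.nd (nat_lit 79794) (nat_lit 0) (nat_lit 0) (XT.nd (nat_lit 39936) (nat_lit 0) (nat_lit 0) (XT.nd (nat_lit 39312) (nat_lit 0) (nat_lit 0) (XT.nd (nat_lit 234) (nat_lit 0) (nat_lit 0) (XT.nd (nat_lit 78) (nat_lit 0) (nat_lit 0) (XT.lf (nat_lit 0) (nat_lit 1865354606369) (nat_lit 76) (nat_lit 1302227350211) (nat_lit 76) (nat_lit 1301942095489) (nat_lit 1) (nat_lit 4) (nat_lit 2) (nat_lit 5) (nat_lit 2) (nat_lit 4) (nat_lit 368) (nat_lit 214) (nat_lit 198)) (XT.nd (nat_lit 78) (nat_lit 0) (nat_lit 0) (XT.lf (nat_lit 0) (nat_lit 2015376008604) (nat_lit 76) (nat_lit 1405985662053) (nat_lit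 76) (nat_lit 1405691697323) (nat_lit 1) (nat_lit 4) (nat_lit 2) (nat_lit 5) (nat_lit 2) (nat_lit 4) (nat_lit 369) (nat_lit 214) (nat_lit 197)) (XT.lf (nat_lit 0) (nat_lit 2177377983649) (nat_lit 76) (nat_lit 1518054972143) (nat_lit 76) (nat_lit 1517752942590) (nat_lit 1) (nat_lit 4) (nat_lit 2) (nat_lit 5) (nat_lit 2) (nat_lit 4) (nat_lit 370) (nat_lit 214) (nat_lit 196)))) (XT.nd (nat_lit 156) (nat_lit 0) (nat_lit 0) (XT.nd (nat_lit 78) (nat_lit 0) (nat_lit 0) (XT.lf (nat_lit 0) (nat_lit 2352320543207) (nat_lit 76) (nat_lit 1639099394910) (nat_lit 76) (nat_lit 1638789897929) (nat_lit 1) (nat_lit 4) (nat_lit 2) (nat_lit 5) (nat_lit 2) (nat_lit 4) (nat_lit 371) (nat_lit 214) (nat_lit 195)) (XT.lf (nat_lit 0) (nat_lit 2541240383928) (nat_lit 76) (nat_lit 1769836230637) (nat_lit 76) (nat_lit 1769519819371) (nat_lit 1) (nat_lit 4) (nat_lit 2) (nat_lit 5) (nat_lit 2) (nat_lit 4) (nat_lit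 372) (nat_lit 214) (nat_lit 194))) (XT.nd (nat_lit 38844) (nat_lit 0) (nat_lit 0) (XT.lf (nat_lit 0) (nat_lit 2745257030794) (nat_lit 76) (nat_lit 1911040216128) (nat_lit 76) (nat_lit 1910717402747) (nat_lit 1) (nat_lit 4) (nat_lit 2) (nat_lit 5) (nat_lit 2) (nat_lit 4) (nat_lit 373) (nat_lit 214) (nat_lit 193)) (XT.lf (nat_lit 0) (nat_lit 227574041212) (nat_lit 76) (nat_lit 165956302696) (nat_lit 76) (nat_lit 165956302696) (nat_lit 1) (nat_lit 4) (nat_lit 2) (nat_lit 5) (nat_lit 2) (nat_lit 4) (nat_lit 350) (nat_lit 215) (nat_lit 215))))) (XT.nd (nat_lit 312) (nat_lit 0) (nat_lit 0) (XT.nd (nat_lit 156) (nat_lit 0) (nat_lit 0) (XT.nd (nat_lit 78) (nat_lit 0) (nat_lit 0) (XT.lf (nat_lit 0) (nat_lit 493164110091) (nat_lit 76) (nat_lit 357646656225) (nat_lit 76) (nat_lit 357614429039) (nat_lit 1) (nat_lit 4) (nat_lit 2) (nat_lit 5) (nat_lit 2) (nat_lit 4) (nat_lit 351) (nat_lit 215) (nat_lit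 214)) (XT.lf (nat_lit 0) (nat_lit 534143203924) (nat_lit 76) (nat_lit 385477664521) (nat_lit 76) (nat_lit 385415597347) (nat_lit 1) (nat_lit 4) (nat_lit 2) (nat_lit 5) (nat_lit 2) (nat_lit 4) (nat_lit 352) (nat_lit 215) (nat_lit 213))) (XT.nd (nat_lit 78) (nat_lit 0) (nat_lit 0) (XT.lf (nat_lit 0) (nat_lit 578328202996) (nat_lit 76) (nat_lit 415570554772) (nat_lit 76) (nat_lit 415480857981) (nat_lit 1) (nat_lit 4) (nat_lit 2) (nat_lit 5) (nat_lit 2) (nat_lit 4) (nat_lit 353) (nat_lit 215) (nat_lit 212)) (XT.lf (nat_lit 0) (nat_lit 625980944338) (nat_lit 76) (nat_lit 448103655217) (nat_lit 76) (nat_lit 447988375447) (nat_lit 1) (nat_lit 4) (nat_lit 2) (nat_lit 5) (nat_lit 2) (nat_lit 4) (nat_lit 354) (nat_lit 215) (nat_lit 211)))) (XT.nd (nat_lit 156) (nat_lit 0) (nat_lit 0) (XT.nd (nat_lit 78) (nat_lit 0) (nat_lit 0) (XT.lf (nat_lit 0) (nat_lit 677383814567) (nat_lit 76) (nat_lit 483269754601)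 (nat_lit 76) (nat_lit 483130786886) (nat_lit 1) (nat_lit 4) (nat_lit 2) (nat_lit 5) (nat_lit 2) (nat_lit 4) (nat_lit 355) (nat_lit 215) (nat_lit 210)) (XT.lf (nat_lit 0) (nat_lit 732841423284) (nat_lit 76) (nat_lit 521277244622) (nat_lit 76) (nat_lit 521116343625) (nat_lit 1) (nat_lit 4) (nat_lit 2) (nat_lit 5) (nat_lit 2) (nat_lit 4) (nat_lit 356) (nat_lit 215) (nat_lit 209))) (XT.nd (nat_lit 78) (nat_lit 0) (nat_lit 0) (XT.lf (nat_lit 0) (nat_lit 792682408169) (nat_lit 76) (nat_lit 562351354851) (nat_lit 76) (nat_lit 562170145260) (nat_lit 1) (nat_lit 4) (nat_lit 2) (nat_lit 5) (nat_lit 2) (nat_lit 4) (nat_lit 357) (nat_lit 215) (nat_lit 208)) (XT.lf (nat_lit 0) (nat_lit 857261382467) (nat_lit 76) (nat_lit 606735487423) (nat_lit 76) (nat_lit 606535473579) (nat_lit 1) (nat_lit 4) (nat_lit 2) (nat_lit 5) (nat_lit 2) (nat_lit 4) (nat_lit 358) (nat_lit 215) (nat_lit 207)))))) (XT.nd (nat_lit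 624) (nat_lit 0) (nat_lit 0) (XT.nd (nat_lit 312) (nat_lit 0) (nat_lit 0) (XT.nd (nat_lit 156) (nat_lit 0) (nat_lit 0) (XT.nd (nat_lit 78) (nat_lit 0) (nat_lit 0) (XT.lf (nat_lit 0) (nat_lit 926961036396) (nat_lit 76) (nat_lit 654692659420) (nat_lit 76) (nat_lit 654475234230) (nat_lit 1) (nat_lit 4) (nat_lit 2) (nat_lit 5) (nat_lit 2) (nat_lit 4) (nat_lit 359) (nat_lit 215) (nat_lit 206)) (XT.lf (nat_lit 0) (nat_lit 1002194404942) (nat_lit 76) (nat_lit 706507061490) (nat_lit 76) (nat_lit 706273514684) (nat_lit 1) (nat_lit 4) (nat_lit 2) (nat_lit 5) (nat_lit 2) (nat_lit 4) (nat_lit 360) (nat_lit 215) (nat_lit 205))) (XT.nd (nat_lit 78) (nat_lit 0) (nat_lit 0) (XT.lf (nat_lit 0) (nat_lit 1083407315474) (nat_lit 76) (nat_lit 762485741943) (nat_lit 76) (nat_lit 762237267714) (nat_lit 1) (nat_lit 4) (nat_lit 2) (nat_lit 5) (nat_lit 2) (nat_lit 4) (nat_lit 361) (nat_lit 215) (nat_lit 204))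 (XT.lf (nat_lit 0) (nat_lit 1171081029684) (nat_lit 76) (nat_lit 822960426292) (nat_lit 76) (nat_lit 822698130375) (nat_lit 1) (nat_lit 4) (nat_lit 2) (nat_lit 5) (nat_lit 2) (nat_lit 4) (nat_lit 362) (nat_lit 215) (nat_lit 203)))) (XT.nd (nat_lit 156) (nat_lit 0) (nat_lit 0) (XT.nd (nat_lit 78) (nat_lit 0) (nat_lit 0) (XT.lf (nat_lit 0) (nat_lit 1265735095508) (nat_lit 76) (nat_lit 888289483037) (nat_lit 76) (nat_lit 888014389261) (nat_lit 1) (nat_lit 4) (nat_lit 2) (nat_lit 5) (nat_lit 2) (nat_lit 4) (nat_lit 363) (nat_lit 215) (nat_lit 202)) (XT.lf (nat_lit 0) (nat_lit 1367930425930) (nat_lit 76) (nat_lit 958860047329) (nat_lit 76) (nat_lit 958573103683) (nat_lit 1) (nat_lit 4) (nat_lit 2) (nat_lit 5) (nat_lit 2) (nat_lit 4) (nat_lit 364) (nat_lit 215) (nat_lit 201))) (XT.nd (nat_lit 78) (nat_lit 0) (nat_lit 0) (XT.lf (nat_lit 0) (nat_lit 1478272622906) (nat_lit 76) (nat_lit 1035090315104)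 (nat_lit 76) (nat_lit 1034792399357) (nat_lit 1) (nat_lit 4) (nat_lit 2) (nat_lit 5) (nat_lit 2) (nat_lit 4) (nat_lit 365) (nat_lit 215) (nat_lit 200)) (XT.lf (nat_lit 0) (nat_lit 1597415566123) (nat_lit 76) (nat_lit 1117432021283) (nat_lit 76) (nat_lit 1117123946183) (nat_lit 1) (nat_lit 4) (nat_lit 2) (nat_lit 5) (nat_lit 2) (nat_lit 4) (nat_lit 366) (nat_lit 215) (nat_lit 199))))) (XT.nd (nat_lit 312) (nat_lit 0) (nat_lit 0) (XT.nd (nat_lit 156) (nat_lit 0) (nat_lit 0) (XT.nd (nat_lit 78) (nat_lit 0) (nat_lit 0) (XT.lf (nat_lit 0) (nat_lit 1726065287837) (nat_lit 76) (nat_lit 1206373116717) (nat_lit 76) (nat_lit 1206055634809) (nat_lit 1) (nat_lit 4) (nat_lit 2) (nat_lit 5) (nat_lit 2) (nat_lit 4) (nat_lit 367) (nat_lit 215) (nat_lit 198)) (XT.lf (nat_lit 0) (nat_lit 1864984156769) (nat_lit 76) (nat_lit 1302440659750) (nat_lit 76) (nat_lit 1302114467833) (nat_lit 1) (nat_lit 4) (nat_lit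 2) (nat_lit 5) (nat_lit 2) (nat_lit 4) (nat_lit 368) (nat_lit 215) (nat_lit 197))) (XT.nd (nat_lit 78) (nat_lit 0) (nat_lit 0) (XT.lf (nat_lit 0) (nat_lit 2014995395846) (nat_lit 76) (nat_lit 1406203939525) (nat_lit 76) (nat_lit 1405869682786) (nat_lit 1) (nat_lit 4) (nat_lit 2) (nat_lit 5) (nat_lit 2) (nat_lit 4) (nat_lit 369) (nat_lit 215) (nat_lit 196)) (XT.lf (nat_lit 0) (nat_lit 2176987960559) (nat_lit 76) (nat_lit 1518277849552) (nat_lit 76) (nat_lit 1517936125385) (nat_lit 1) (nat_lit 4) (nat_lit 2) (nat_lit 5) (nat_lit 2) (nat_lit 4) (nat_lit 370) (nat_lit 215) (nat_lit 195)))) (XT.nd (nat_lit 156) (nat_lit 0) (nat_lit 0) (XT.nd (nat_lit 78) (nat_lit 0) (nat_lit 0) (XT.lf (nat_lit 0) (nat_lit 2351921806847) (nat_lit 76) (nat_lit 1639326531520) (nat_lit 76) (nat_lit 1638977893068) (nat_lit 1) (nat_lit 4) (nat_lit 2) (nat_lit 5) (nat_lit 2) (nat_lit 4) (nat_lit 371) (nat_lit 215)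 (nat_lit 194)) (XT.lf (nat_lit 0) (nat_lit 2540833579725) (nat_lit 76) (nat_lit 1770067310952) (nat_lit 76) (nat_lit 1769712270385) (nat_lit 1) (nat_lit 4) (nat_lit 2) (nat_lit 5) (nat_lit 2) (nat_lit 4) (nat_lit 372) (nat_lit 215) (nat_lit 193))) (XT.nd (nat_lit 38688) (nat_lit 0) (nat_lit 0) (XT.lf (nat_lit 0) (nat_lit 2744842756365) (nat_lit 76) (nat_lit 1911274948023) (nat_lit 76) (nat_lit 1910913979570) (nat_lit 1) (nat_lit 4) (nat_lit 2) (nat_lit 5) (nat_lit 2) (nat_lit 4) (nat_lit 373) (nat_lit 215) (nat_lit 192)) (XT.lf (nat_lit 0) (nat_lit 193582094999) (nat_lit 76) (nat_lit 143075135884) (nat_lit 76) (nat_lit 143075135884) (nat_lit 1) (nat_lit 4) (nat_lit 2) (nat_lit 5) (nat_lit 2) (nat_lit 4) (nat_lit 348) (nat_lit 216) (nat_lit 216))))))) (XT.nd (nat_lit 1248) (nat_lit 0) (nat_lit 0) (XT.nd (nat_lit 624) (nat_lit 0) (nat_lit 0) (XT.nd (nat_lit 312) (nat_lit 0) (nat_lit 0)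 (XT.nd (nat_lit 156) (nat_lit 0) (nat_lit 0) (XT.nd (nat_lit 78) (nat_lit 0) (nat_lit 0) (XT.lf (nat_lit 0) (nat_lit 419869840757) (nat_lit 76) (nat_lit 308157819303) (nat_lit 76) (nat_lit 308123013942) (nat_lit 1) (nat_lit 4) (nat_lit 2) (nat_lit 5) (nat_lit 2) (nat_lit 4) (nat_lit 349) (nat_lit 216) (nat_lit 215)) (XT.lf (nat_lit 0) (nat_lit 455107470245) (nat_lit 76) (nat_lit 331967262709) (nat_lit 76) (nat_lit 331900230161) (nat_lit 1) (nat_lit 4) (nat_lit 2) (nat_lit 5) (nat_lit 2) (nat_lit 4) (nat_lit 350) (nat_lit 216) (nat_lit 214))) (XT.nd (nat_lit 78) (nat_lit 0) (nat_lit 0) (XT.lf (nat_lit 0) (nat_lit 493085894043) (nat_lit 76) (nat_lit 357719694982) (nat_lit 76) (nat_lit 357622822447) (nat_lit 1) (nat_lit 4) (nat_lit 2) (nat_lit 5) (nat_lit 2) (nat_lit 4) (nat_lit 351) (nat_lit 216) (nat_lit 213)) (XT.lf (nat_lit 0) (nat_lit 534030169478) (nat_lit 76) (nat_lit 385567723129)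 (nat_lit 76) (nat_lit 385443220977) (nat_lit 1) (nat_lit 4) (nat_lit 2) (nat_lit 5) (nat_lit 2) (nat_lit 4) (nat_lit 352) (nat_lit 216) (nat_lit 212)))) (XT.nd (nat_lit 156) (nat_lit 0) (nat_lit 0) (XT.nd (nat_lit 78) (nat_lit 0) (nat_lit 0) (XT.lf (nat_lit 0) (nat_lit 578182929292) (nat_lit 76) (nat_lit 415676372503) (nat_lit 76) (nat_lit 415526287371) (nat_lit 1) (nat_lit 4) (nat_lit 2) (nat_lit 5) (nat_lit 2) (nat_lit 4) (nat_lit 353) (nat_lit 216) (nat_lit 211)) (XT.lf (nat_lit 0) (nat_lit 625805819471) (nat_lit 76) (nat_lit 448224064728) (nat_lit 76) (nat_lit 448050291652) (nat_lit 1) (nat_lit 4) (nat_lit 2) (nat_lit 5) (nat_lit 2) (nat_lit 4) (nat_lit 354) (nat_lit 216) (nat_lit 210))) (XT.nd (nat_lit 78) (nat_lit 0) (nat_lit 0) (XT.lf (nat_lit 0) (nat_lit 677181049733) (nat_lit 76) (nat_lit 483403675019) (nat_lit 76) (nat_lit 483207968661) (nat_lit 1) (nat_lit 4) (nat_lit 2) (nat_lit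 5) (nat_lit 2) (nat_lit 4) (nat_lit 355) (nat_lit 216) (nat_lit 209)) (XT.lf (nat_lit 0) (nat_lit 732613065888) (nat_lit 76) (nat_lit 521423675139) (nat_lit 76) (nat_lit 521207660187) (nat_lit 1) (nat_lit 4) (nat_lit 2) (nat_lit 5) (nat_lit 2) (nat_lit 4) (nat_lit 356) (nat_lit 216) (nat_lit 208))))) (XT.nd (nat_lit 312) (nat_lit 0) (nat_lit 0) (XT.nd (nat_lit 156) (nat_lit 0) (nat_lit 0) (XT.nd (nat_lit 78) (nat_lit 0) (nat_lit 0) (XT.lf (nat_lit 0) (nat_lit 792430353957) (nat_lit 76) (nat_lit 562509368793) (nat_lit 76) (nat_lit 562274549588) (nat_lit 1) (nat_lit 4) (nat_lit 2) (nat_lit 5) (nat_lit 2) (nat_lit 4) (nat_lit 357) (nat_lit 216) (nat_lit 207)) (XT.lf (nat_lit 0) (nat_lit 856987386758) (nat_lit 76) (nat_lit 606904226759) (nat_lit 76) (nat_lit 606651996208) (nat_lit 1) (nat_lit 4) (nat_lit 2) (nat_lit 5) (nat_lit 2) (nat_lit 4) (nat_lit 358) (nat_lit 216) (nat_lit 206))) (XT.nd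 (nat_lit 78) (nat_lit 0) (nat_lit 0) (XT.lf (nat_lit 0) (nat_lit 926666724486) (nat_lit 76) (nat_lit 654871329676) (nat_lit 76) (nat_lit 654602977508) (nat_lit 1) (nat_lit 4) (nat_lit 2) (nat_lit 5) (nat_lit 2) (nat_lit 4) (nat_lit 359) (nat_lit 216) (nat_lit 205)) (XT.lf (nat_lit 0) (nat_lit 1001881281735) (nat_lit 76) (nat_lit 706694927043) (nat_lit 76) (nat_lit 706411647453) (nat_lit 1) (nat_lit 4) (nat_lit 2) (nat_lit 5) (nat_lit 2) (nat_lit 4) (nat_lit 360) (nat_lit 216) (nat_lit 204)))) (XT.nd (nat_lit 156) (nat_lit 0) (nat_lit 0) (XT.nd (nat_lit 78) (nat_lit 0) (nat_lit 0) (XT.lf (nat_lit 0) (nat_lit 1083076774400) (nat_lit 76) (nat_lit 762682121660) (nat_lit 76) (nat_lit 762385020381) (nat_lit 1) (nat_lit 4) (nat_lit 2) (nat_lit 5) (nat_lit 2) (nat_lit 4) (nat_lit 361) (nat_lit 216) (nat_lit 203)) (XT.lf (nat_lit 0) (nat_lit 1170734360955) (nat_lit 76) (nat_lit 823164689493)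 (nat_lit 76) (nat_lit 822854790356) (nat_lit 1) (nat_lit 4) (nat_lit 2) (nat_lit 5) (nat_lit 2) (nat_lit 4) (nat_lit 362) (nat_lit 216) (nat_lit 202))) (XT.nd (nat_lit 78) (nat_lit 0) (nat_lit 0) (XT.lf (nat_lit 0) (nat_lit 1265373493765) (nat_lit 76) (nat_lit 888501045761) (nat_lit 76) (nat_lit 888179296754) (nat_lit 1) (nat_lit 4) (nat_lit 2) (nat_lit 5) (nat_lit 2) (nat_lit 4) (nat_lit 363) (nat_lit 216) (nat_lit 201)) (XT.lf (nat_lit 0) (nat_lit 1367554997322) (nat_lit 76) (nat_lit 959078368870) (nat_lit 76) (nat_lit 958745647762) (nat_lit 1) (nat_lit 4) (nat_lit 2) (nat_lit 5) (nat_lit 2) (nat_lit 4) (nat_lit 364) (nat_lit 216) (nat_lit 200)))))) (XT.nd (nat_lit 624) (nat_lit 0) (nat_lit 0) (XT.nd (nat_lit 312) (nat_lit 0) (nat_lit 0) (XT.nd (nat_lit 156) (nat_lit 0) (nat_lit 0) (XT.nd (nat_lit 78) (nat_lit 0) (nat_lit 0) (XT.lf (nat_lit 0) (nat_lit 1477884391645) (nat_lit 76) (nat_lit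 1035314894810) (nat_lit 76) (nat_lit 1034972014348) (nat_lit 1) (nat_lit 4) (nat_lit 2) (nat_lit 5) (nat_lit 2) (nat_lit 4) (nat_lit 365) (nat_lit 216) (nat_lit 199)) (XT.lf (nat_lit 0) (nat_lit 1597015480554) (nat_lit 76) (nat_lit 1117662395585) (nat_lit 76) (nat_lit 1117310108315) (nat_lit 1) (nat_lit 4) (nat_lit 2) (nat_lit 5) (nat_lit 2) (nat_lit 4) (nat_lit 366) (nat_lit 216) (nat_lit 198))) (XT.nd (nat_lit 78) (nat_lit 0) (nat_lit 0) (XT.lf (nat_lit 0) (nat_lit 1725654226057) (nat_lit 76) (nat_lit 1206608856386) (nat_lit 76) (nat_lit 1206247859109) (nat_lit 1) (nat_lit 4) (nat_lit 2) (nat_lit 5) (nat_lit 2) (nat_lit 4) (nat_lit 367) (nat_lit 216) (nat_lit 197)) (XT.lf (nat_lit 0) (nat_lit 1864562931831) (nat_lit 76) (nat_lit 1302681367352) (nat_lit 76) (nat_lit 1302312305252) (nat_lit 1) (nat_lit 4) (nat_lit 2) (nat_lit 5) (nat_lit 2) (nat_lit 4) (nat_lit 368) (nat_lit 216) (nat_lit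 196)))) (XT.nd (nat_lit 156) (nat_lit 0) (nat_lit 0) (XT.nd (nat_lit 78) (nat_lit 0) (nat_lit 0) (XT.lf (nat_lit 0) (nat_lit 2014564760576) (nat_lit 76) (nat_lit 1406449247064) (nat_lit 76) (nat_lit 1406072717536) (nat_lit 1) (nat_lit 4) (nat_lit 2) (nat_lit 5) (nat_lit 2) (nat_lit 4) (nat_lit 369) (nat_lit 216) (nat_lit 195)) (XT.lf (nat_lit 0) (nat_lit 2176548612019) (nat_lit 76) (nat_lit 1518527416293) (nat_lit 76) (nat_lit 1518143972480) (nat_lit 1) (nat_lit 4) (nat_lit 2) (nat_lit 5) (nat_lit 2) (nat_lit 4) (nat_lit 370) (nat_lit 216) (nat_lit 194))) (XT.nd (nat_lit 78) (nat_lit 0) (nat_lit 0) (XT.lf (nat_lit 0) (nat_lit 2351474390464) (nat_lit 76) (nat_lit 1639580041966) (nat_lit 76) (nat_lit 1639190196037) (nat_lit 1) (nat_lit 4) (nat_lit 2) (nat_lit 5) (nat_lit 2) (nat_lit 4) (nat_lit 371) (nat_lit 216) (nat_lit 193)) (XT.lf (nat_lit 0) (nat_lit 2540378693117) (nat_lit 76) (nat_lit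 1770324472977) (nat_lit 76) (nat_lit 1769928699163) (nat_lit 1) (nat_lit 4) (nat_lit 2) (nat_lit 5) (nat_lit 2) (nat_lit 4) (nat_lit 372) (nat_lit 216) (nat_lit 192))))) (XT.nd (nat_lit 38766) (nat_lit 0) (nat_lit 0) (XT.nd (nat_lit 38610) (nat_lit 0) (nat_lit 0) (XT.nd (nat_lit 38532) (nat_lit 0) (nat_lit 0) (XT.lf (nat_lit 0) (nat_lit 2744380952883) (nat_lit 76) (nat_lit 1911535491138) (nat_lit 76) (nat_lit 1911134228543) (nat_lit 1) (nat_lit 4) (nat_lit 2) (nat_lit 5) (nat_lit 2) (nat_lit 4) (nat_lit 373) (nat_lit 216) (nat_lit 191)) (XT.lf (nat_lit 0) (nat_lit 164317402731) (nat_lit 76) (nat_lit 123521771731) (nat_lit 76) (nat_lit 123521771731) (nat_lit 1) (nat_lit 4) (nat_lit 2) (nat_lit 5) (nat_lit 2) (nat_lit 4) (nat_lit 346) (nat_lit 217) (nat_lit 217))) (XT.nd (nat_lit 78) (nat_lit 0) (nat_lit 0) (XT.lf (nat_lit 0) (nat_lit 356796706703) (nat_lit 76) (nat_lit 265851794796) (nat_lit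 76) (nat_lit 265814205006) (nat_lit 1) (nat_lit 4) (nat_lit 2) (nat_lit 5) (nat_lit 2) (nat_lit 4) (nat_lit 347) (nat_lit 217) (nat_lit 216)) (XT.lf (nat_lit 0) (nat_lit 387120328845) (nat_lit 76) (nat_lit 286209301670) (nat_lit 76) (nat_lit 286136906518) (nat_lit 1) (nat_lit 4) (nat_lit 2) (nat_lit 5) (nat_lit 2) (nat_lit 4) (nat_lit 348) (nat_lit 217) (nat_lit 215)))) (XT.nd (nat_lit 156) (nat_lit 0) (nat_lit 0) (XT.nd (nat_lit 78) (nat_lit 0) (nat_lit 0) (XT.lf (nat_lit 0) (nat_lit 419785367425) (nat_lit 76) (nat_lit 308236701161) (nat_lit 76) (nat_lit 308132078823) (nat_lit 1) (nat_lit 4) (nat_lit 2) (nat_lit 5) (nat_lit 2) (nat_lit 4) (nat_lit 349) (nat_lit 217) (nat_lit 214)) (XT.lf (nat_lit 0) (nat_lit 454985393043) (nat_lit 76) (nat_lit 332064526006) (nat_lit 76) (nat_lit 331930063681) (nat_lit 1) (nat_lit 4) (nat_lit 2) (nat_lit 5) (nat_lit 2) (nat_lit 4) (nat_lit 350) (nat_lit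 217) (nat_lit 213))) (XT.nd (nat_lit 78) (nat_lit 0) (nat_lit 0) (XT.lf (nat_lit 0) (nat_lit 492928998443) (nat_lit 76) (nat_lit 357833978131) (nat_lit 76) (nat_lit 357671886189) (nat_lit 1) (nat_lit 4) (nat_lit 2) (nat_lit 5) (nat_lit 2) (nat_lit 4) (nat_lit 351) (nat_lit 217) (nat_lit 212)) (XT.lf (nat_lit 0) (nat_lit 533841034621) (nat_lit 76) (nat_lit 385697765401) (nat_lit 76) (nat_lit 385510090479) (nat_lit 1) (nat_lit 4) (nat_lit 2) (nat_lit 5) (nat_lit 2) (nat_lit 4) (nat_lit 352) (nat_lit 217) (nat_lit 211))))))))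
noncomputable def xc3 : XT := (XT.nd (nat_lit 40794) (nat_lit 0) (nat_lit 0) (XT.nd (nat_lit 1248) (nat_lit 0) (nat_lit 0) (XT.nd (nat_lit 624) (nat_lit 0) (nat_lit 0) (XT.nd (nat_lit 312) (nat_lit 0) (nat_lit 0) (XT.nd (nat_lit 156) (nat_lit 0) (nat_lit 0) (XT.nd (nat_lit 78) (nat_lit 0) (nat_lit 0) (XT.lf (nat_lit 0) (nat_lit 577963943271) (nat_lit 76) (nat_lit 415821006554) (nat_lit 76) (nat_lit 415609643688) (nat_lit 1) (nat_lit 4) (nat_lit 2) (nat_lit 5) (nat_lit 2) (nat_lit 4) (nat_lit 353) (nat_lit 217) (nat_lit 210)) (XT.lf (nat_lit 0) (nat_lit 625559193483) (nat_lit 76) (nat_lit 448382209687) (nat_lit 76) (nat_lit 448148913539) (nat_lit 1) (nat_lit 4) (nat_lit 2) (nat_lit 5) (nat_lit 2) (nat_lit 4) (nat_lit 354) (nat_lit 217) (nat_lit 209))) (XT.nd (nat_lit 78) (nat_lit 0) (nat_lit 0) (XT.lf (nat_lit 0) (nat_lit 676908831184) (nat_lit 76) (nat_lit 483574330077) (nat_lit 76)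 (nat_lit 483320725335) (nat_lit 1) (nat_lit 4) (nat_lit 2) (nat_lit 5) (nat_lit 2) (nat_lit 4) (nat_lit 355) (nat_lit 217) (nat_lit 208)) (XT.lf (nat_lit 0) (nat_lit 732317150522) (nat_lit 76) (nat_lit 521605913622) (nat_lit 76) (nat_lit 521333504627) (nat_lit 1) (nat_lit 4) (nat_lit 2) (nat_lit 5) (nat_lit 2) (nat_lit 4) (nat_lit 356) (nat_lit 217) (nat_lit 207)))) (XT.nd (nat_lit 156) (nat_lit 0) (nat_lit 0) (XT.nd (nat_lit 78) (nat_lit 0) (nat_lit 0) (XT.lf (nat_lit 0) (nat_lit 792112497094) (nat_lit 76) (nat_lit 562702332670) (nat_lit 76) (nat_lit 562412512329) (nat_lit 1) (nat_lit 4) (nat_lit 2) (nat_lit 5) (nat_lit 2) (nat_lit 4) (nat_lit 357) (nat_lit 217) (nat_lit 206)) (XT.lf (nat_lit 0) (nat_lit 856649213695) (nat_lit 76) (nat_lit 607107121556) (nat_lit 76) (nat_lit 606801179599) (nat_lit 1) (nat_lit 4) (nat_lit 2) (nat_lit 5) (nat_lit 2) (nat_lit 4) (nat_lit 358) (nat_lit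 217) (nat_lit 205))) (XT.nd (nat_lit 78) (nat_lit 0) (nat_lit 0) (XT.lf (nat_lit 0) (nat_lit 926309740126) (nat_lit 76) (nat_lit 655083419770) (nat_lit 76) (nat_lit 654762550389) (nat_lit 1) (nat_lit 4) (nat_lit 2) (nat_lit 5) (nat_lit 2) (nat_lit 4) (nat_lit 359) (nat_lit 217) (nat_lit 204)) (XT.lf (nat_lit 0) (nat_lit 1001506879508) (nat_lit 76) (nat_lit 706915531300) (nat_lit 76) (nat_lit 706580840232) (nat_lit 1) (nat_lit 4) (nat_lit 2) (nat_lit 5) (nat_lit 2) (nat_lit 4) (nat_lit 360) (nat_lit 217) (nat_lit 203))))) (XT.nd (nat_lit 312) (nat_lit 0) (nat_lit 0) (XT.nd (nat_lit 156) (nat_lit 0) (nat_lit 0) (XT.nd (nat_lit 78) (nat_lit 0) (nat_lit 0) (XT.lf (nat_lit 0) (nat_lit 1082686244517) (nat_lit 76) (nat_lit 762910609401) (nat_lit 76) (nat_lit 762563120474) (nat_lit 1) (nat_lit 4) (nat_lit 2) (nat_lit 5) (nat_lit 2) (nat_lit 4) (nat_lit 361) (nat_lit 217) (nat_lit 202)) (XT.lf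 (nat_lit 0) (nat_lit 1170328898058) (nat_lit 76) (nat_lit 823400476758) (nat_lit 76) (nat_lit 823041137960) (nat_lit 1) (nat_lit 4) (nat_lit 2) (nat_lit 5) (nat_lit 2) (nat_lit 4) (nat_lit 362) (nat_lit 217) (nat_lit 201))) (XT.nd (nat_lit 78) (nat_lit 0) (nat_lit 0) (XT.lf (nat_lit 0) (nat_lit 1264954204004) (nat_lit 76) (nat_lit 888743591843) (nat_lit 76) (nat_lit 888373280944) (nat_lit 1) (nat_lit 4) (nat_lit 2) (nat_lit 5) (nat_lit 2) (nat_lit 4) (nat_lit 363) (nat_lit 217) (nat_lit 200)) (XT.lf (nat_lit 0) (nat_lit 1367122904908) (nat_lit 76) (nat_lit 959327173116) (nat_lit 76) (nat_lit 958946702864) (nat_lit 1) (nat_lit 4) (nat_lit 2) (nat_lit 5) (nat_lit 2) (nat_lit 4) (nat_lit 364) (nat_lit 217) (nat_lit 199)))) (XT.nd (nat_lit 156) (nat_lit 0) (nat_lit 0) (XT.nd (nat_lit 78) (nat_lit 0) (nat_lit 0) (XT.lf (nat_lit 0) (nat_lit 1477440444924) (nat_lit 76) (nat_lit 1035569493652)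 (nat_lit 76) (nat_lit 1035179616592) (nat_lit 1) (nat_lit 4) (nat_lit 2) (nat_lit 5) (nat_lit 2) (nat_lit 4) (nat_lit 365) (nat_lit 217) (nat_lit 198)) (XT.lf (nat_lit 0) (nat_lit 1596560557622) (nat_lit 76) (nat_lit 1117922359795) (nat_lit 76) (nat_lit 1117523772727) (nat_lit 1) (nat_lit 4) (nat_lit 2) (nat_lit 5) (nat_lit 2) (nat_lit 4) (nat_lit 366) (nat_lit 217) (nat_lit 197))) (XT.nd (nat_lit 78) (nat_lit 0) (nat_lit 0) (XT.lf (nat_lit 0) (nat_lit 1725189139966) (nat_lit 76) (nat_lit 1206873788529) (nat_lit 76) (nat_lit 1206467136639) (nat_lit 1) (nat_lit 4) (nat_lit 2) (nat_lit 5) (nat_lit 2) (nat_lit 4) (nat_lit 367) (nat_lit 217) (nat_lit 196)) (XT.lf (nat_lit 0) (nat_lit 1864088435408) (nat_lit 76) (nat_lit 1302950899432) (nat_lit 76) (nat_lit 1302536780114) (nat_lit 1) (nat_lit 4) (nat_lit 2) (nat_lit 5) (nat_lit 2) (nat_lit 4) (nat_lit 368) (nat_lit 217) (nat_lit 195))))))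 (XT.nd (nat_lit 38922) (nat_lit 0) (nat_lit 0) (XT.nd (nat_lit 312) (nat_lit 0) (nat_lit 0) (XT.nd (nat_lit 156) (nat_lit 0) (nat_lit 0) (XT.nd (nat_lit 78) (nat_lit 0) (nat_lit 0) (XT.lf (nat_lit 0) (nat_lit 2014081550883) (nat_lit 76) (nat_lit 1406723038345) (nat_lit 76) (nat_lit 1406302004743) (nat_lit 1) (nat_lit 4) (nat_lit 2) (nat_lit 5) (nat_lit 2) (nat_lit 4) (nat_lit 369) (nat_lit 217) (nat_lit 194)) (XT.lf (nat_lit 0) (nat_lit 2176057334483) (nat_lit 76) (nat_lit 1518805151279) (nat_lit 76) (nat_lit 1518377715560) (nat_lit 1) (nat_lit 4) (nat_lit 2) (nat_lit 5) (nat_lit 2) (nat_lit 4) (nat_lit 370) (nat_lit 217) (nat_lit 193))) (XT.nd (nat_lit 78) (nat_lit 0) (nat_lit 0) (XT.lf (nat_lit 0) (nat_lit 2350975642703) (nat_lit 76) (nat_lit 1639861428531) (nat_lit 76) (nat_lit 1639428064927) (nat_lit 1) (nat_lit 4) (nat_lit 2) (nat_lit 5) (nat_lit 2) (nat_lit 4) (nat_lit 371) (nat_lit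 217) (nat_lit 192)) (XT.lf (nat_lit 0) (nat_lit 2539873028482) (nat_lit 76) (nat_lit 1770609240633) (nat_lit 76) (nat_lit 1770170388247) (nat_lit 1) (nat_lit 4) (nat_lit 2) (nat_lit 5) (nat_lit 2) (nat_lit 4) (nat_lit 372) (nat_lit 217) (nat_lit 191)))) (XT.nd (nat_lit 38454) (nat_lit 0) (nat_lit 0) (XT.nd (nat_lit 38376) (nat_lit 0) (nat_lit 0) (XT.lf (nat_lit 0) (nat_lit 2743868883734) (nat_lit 76) (nat_lit 1911823389435) (nat_lit 76) (nat_lit 1911379454843) (nat_lit 1) (nat_lit 4) (nat_lit 2) (nat_lit 5) (nat_lit 2) (nat_lit 4) (nat_lit 373) (nat_lit 217) (nat_lit 190)) (XT.lf (nat_lit 0) (nat_lit 139095802607) (nat_lit 76) (nat_lit 106826545856) (nat_lit 76) (nat_lit 106826545856) (nat_lit 1) (nat_lit 4) (nat_lit 2) (nat_lit 5) (nat_lit 2) (nat_lit 4) (nat_lit 344) (nat_lit 218) (nat_lit 218))) (XT.nd (nat_lit 78) (nat_lit 0) (nat_lit 0) (XT.lf (nat_lit 0) (nat_lit 302467739780)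 (nat_lit 76) (nat_lit 229713688335) (nat_lit 76) (nat_lit 229673091362) (nat_lit 1) (nat_lit 4) (nat_lit 2) (nat_lit 5) (nat_lit 2) (nat_lit 4) (nat_lit 345) (nat_lit 218) (nat_lit 217)) (XT.lf (nat_lit 0) (nat_lit 328587435416) (nat_lit 76) (nat_lit 247107295756) (nat_lit 76) (nat_lit 247029108992) (nat_lit 1) (nat_lit 4) (nat_lit 2) (nat_lit 5) (nat_lit 2) (nat_lit 4) (nat_lit 346) (nat_lit 218) (nat_lit 216))))) (XT.nd (nat_lit 312) (nat_lit 0) (nat_lit 0) (XT.nd (nat_lit 156) (nat_lit 0) (nat_lit 0) (XT.nd (nat_lit 78) (nat_lit 0) (nat_lit 0) (XT.lf (nat_lit 0) (nat_lit 356705475504) (nat_lit 76) (nat_lit 265936987202) (nat_lit 76) (nat_lit 265823995077) (nat_lit 1) (nat_lit 4) (nat_lit 2) (nat_lit 5) (nat_lit 2) (nat_lit 4) (nat_lit 347) (nat_lit 218) (nat_lit 215)) (XT.lf (nat_lit 0) (nat_lit 386988485466) (nat_lit 76) (nat_lit 286314346031) (nat_lit 76) (nat_lit 286169126720)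 (nat_lit 1) (nat_lit 4) (nat_lit 2) (nat_lit 5) (nat_lit 2) (nat_lit 4) (nat_lit 348) (nat_lit 218) (nat_lit 214))) (XT.nd (nat_lit 78) (nat_lit 0) (nat_lit 0) (XT.lf (nat_lit 0) (nat_lit 419615920177) (nat_lit 76) (nat_lit 308360126962) (nat_lit 76) (nat_lit 308185067664) (nat_lit 1) (nat_lit 4) (nat_lit 2) (nat_lit 5) (nat_lit 2) (nat_lit 4) (nat_lit 349) (nat_lit 218) (nat_lit 213)) (XT.lf (nat_lit 0) (nat_lit 454781127397) (nat_lit 76) (nat_lit 332204971659) (nat_lit 76) (nat_lit 332002282743) (nat_lit 1) (nat_lit 4) (nat_lit 2) (nat_lit 5) (nat_lit 2) (nat_lit 4) (nat_lit 350) (nat_lit 218) (nat_lit 212)))) (XT.nd (nat_lit 156) (nat_lit 0) (nat_lit 0) (XT.nd (nat_lit 78) (nat_lit 0) (nat_lit 0) (XT.lf (nat_lit 0) (nat_lit 492692493541) (nat_lit 76) (nat_lit 357990182907) (nat_lit 76) (nat_lit 357761911012) (nat_lit 1) (nat_lit 4) (nat_lit 2) (nat_lit 5) (nat_lit 2) (nat_lit 4) (nat_lit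 351) (nat_lit 218) (nat_lit 211)) (XT.lf (nat_lit 0) (nat_lit 533574678554) (nat_lit 76) (nat_lit 385868561956) (nat_lit 76) (nat_lit 385616602117) (nat_lit 1) (nat_lit 4) (nat_lit 2) (nat_lit 5) (nat_lit 2) (nat_lit 4) (nat_lit 352) (nat_lit 218) (nat_lit 210))) (XT.nd (nat_lit 78) (nat_lit 0) (nat_lit 0) (XT.lf (nat_lit 0) (nat_lit 577669947238) (nat_lit 76) (nat_lit 416005314017) (nat_lit 76) (nat_lit 415731420896) (nat_lit 1) (nat_lit 4) (nat_lit 2) (nat_lit 5) (nat_lit 2) (nat_lit 4) (nat_lit 353) (nat_lit 218) (nat_lit 209)) (XT.lf (nat_lit 0) (nat_lit 625239604888) (nat_lit 76) (nat_lit 448579027249) (nat_lit 76) (nat_lit 448284825534) (nat_lit 1) (nat_lit 4) (nat_lit 2) (nat_lit 5) (nat_lit 2) (nat_lit 4) (nat_lit 354) (nat_lit 218) (nat_lit 208))))))) (XT.nd (nat_lit 1248) (nat_lit 0) (nat_lit 0) (XT.nd (nat_lit 624) (nat_lit 0) (nat_lit 0) (XT.nd (nat_lit 312) (nat_lit 0) (nat_lit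 0) (XT.nd (nat_lit 156) (nat_lit 0) (nat_lit 0) (XT.nd (nat_lit 78) (nat_lit 0) (nat_lit 0) (XT.lf (nat_lit 0) (nat_lit 676565545772) (nat_lit 76) (nat_lit 483782731064) (nat_lit 76) (nat_lit 483469725095) (nat_lit 1) (nat_lit 4) (nat_lit 2) (nat_lit 5) (nat_lit 2) (nat_lit 4) (nat_lit 355) (nat_lit 218) (nat_lit 207)) (XT.lf (nat_lit 0) (nat_lit 731951923614) (nat_lit 76) (nat_lit 521825040003) (nat_lit 76) (nat_lit 521494622689) (nat_lit 1) (nat_lit 4) (nat_lit 2) (nat_lit 5) (nat_lit 2) (nat_lit 4) (nat_lit 356) (nat_lit 218) (nat_lit 206))) (XT.nd (nat_lit 78) (nat_lit 0) (nat_lit 0) (XT.lf (nat_lit 0) (nat_lit 791726953986) (nat_lit 76) (nat_lit 562931389972) (nat_lit 76) (nat_lit 562584851040) (nat_lit 1) (nat_lit 4) (nat_lit 2) (nat_lit 5) (nat_lit 2) (nat_lit 4) (nat_lit 357) (nat_lit 218) (nat_lit 205)) (XT.lf (nat_lit 0) (nat_lit 856244859290) (nat_lit 76) (nat_lit 607345374154)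 (nat_lit 76) (nat_lit 606983907800) (nat_lit 1) (nat_lit 4) (nat_lit 2) (nat_lit 5) (nat_lit 2) (nat_lit 4) (nat_lit 358) (nat_lit 218) (nat_lit 204)))) (XT.nd (nat_lit 156) (nat_lit 0) (nat_lit 0) (XT.nd (nat_lit 78) (nat_lit 0) (nat_lit 0) (XT.lf (nat_lit 0) (nat_lit 925887967853) (nat_lit 76) (nat_lit 655330186531) (nat_lit 76) (nat_lit 654954898489) (nat_lit 1) (nat_lit 4) (nat_lit 2) (nat_lit 5) (nat_lit 2) (nat_lit 4) (nat_lit 359) (nat_lit 218) (nat_lit 203)) (XT.lf (nat_lit 0) (nat_lit 1001068979580) (nat_lit 76) (nat_lit 707170181546) (nat_lit 76) (nat_lit 706782095645) (nat_lit 1) (nat_lit 4) (nat_lit 2) (nat_lit 5) (nat_lit 2) (nat_lit 4) (nat_lit 360) (nat_lit 218) (nat_lit 202))) (XT.nd (nat_lit 78) (nat_lit 0) (nat_lit 0) (XT.lf (nat_lit 0) (nat_lit 1082233411575) (nat_lit 76) (nat_lit 763172559170) (nat_lit 76) (nat_lit 762772623399) (nat_lit 1) (nat_lit 4) (nat_lit 2)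 (nat_lit 5) (nat_lit 2) (nat_lit 4) (nat_lit 361) (nat_lit 218) (nat_lit 201)) (XT.lf (nat_lit 0) (nat_lit 1169862238252) (nat_lit 76) (nat_lit 823669185343) (nat_lit 76) (nat_lit 823258277472) (nat_lit 1) (nat_lit 4) (nat_lit 2) (nat_lit 5) (nat_lit 2) (nat_lit 4) (nat_lit 362) (nat_lit 218) (nat_lit 200))))) (XT.nd (nat_lit 312) (nat_lit 0) (nat_lit 0) (XT.nd (nat_lit 156) (nat_lit 0) (nat_lit 0) (XT.nd (nat_lit 78) (nat_lit 0) (nat_lit 0) (XT.lf (nat_lit 0) (nat_lit 1264474741545) (nat_lit 76) (nat_lit 889018558593) (nat_lit 76) (nat_lit 888597491368) (nat_lit 1) (nat_lit 4) (nat_lit 2) (nat_lit 5) (nat_lit 2) (nat_lit 4) (nat_lit 363) (nat_lit 218) (nat_lit 199)) (XT.lf (nat_lit 0) (nat_lit 1366631588141) (nat_lit 76) (nat_lit 959607934463) (nat_lit 76) (nat_lit 959177460429) (nat_lit 1) (nat_lit 4) (nat_lit 2) (nat_lit 5) (nat_lit 2) (nat_lit 4) (nat_lit 364) (nat_lit 218) (nat_lit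 198))) (XT.nd (nat_lit 78) (nat_lit 0) (nat_lit 0) (XT.lf (nat_lit 0) (nat_lit 1476938151945) (nat_lit 76) (nat_lit 1035855620366) (nat_lit 76) (nat_lit 1035416436325) (nat_lit 1) (nat_lit 4) (nat_lit 2) (nat_lit 5) (nat_lit 2) (nat_lit 4) (nat_lit 365) (nat_lit 218) (nat_lit 197)) (XT.lf (nat_lit 0) (nat_lit 1596048101485) (nat_lit 76) (nat_lit 1118213454441) (nat_lit 76) (nat_lit 1117766205578) (nat_lit 1) (nat_lit 4) (nat_lit 2) (nat_lit 5) (nat_lit 2) (nat_lit 4) (nat_lit 366) (nat_lit 218) (nat_lit 196)))) (XT.nd (nat_lit 156) (nat_lit 0) (nat_lit 0) (XT.nd (nat_lit 78) (nat_lit 0) (nat_lit 0) (XT.lf (nat_lit 0) (nat_lit 1724667273497) (nat_lit 76) (nat_lit 1207169483113) (nat_lit 76) (nat_lit 1206714766822) (nat_lit 1) (nat_lit 4) (nat_lit 2) (nat_lit 5) (nat_lit 2) (nat_lit 4) (nat_lit 367) (nat_lit 218) (nat_lit 195)) (XT.lf (nat_lit 0) (nat_lit 1863557855669) (nat_lit 76) (nat_lit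 1303250853217) (nat_lit 76) (nat_lit 1302789222641) (nat_lit 1) (nat_lit 4) (nat_lit 2) (nat_lit 5) (nat_lit 2) (nat_lit 4) (nat_lit 368) (nat_lit 218) (nat_lit 194))) (XT.nd (nat_lit 78) (nat_lit 0) (nat_lit 0) (XT.lf (nat_lit 0) (nat_lit 2013542903301) (nat_lit 76) (nat_lit 1407026935836) (nat_lit 76) (nat_lit 1406558903144) (nat_lit 1) (nat_lit 4) (nat_lit 2) (nat_lit 5) (nat_lit 2) (nat_lit 4) (nat_lit 369) (nat_lit 218) (nat_lit 193)) (XT.lf (nat_lit 0) (nat_lit 2175511216676) (nat_lit 76) (nat_lit 1519112700348) (nat_lit 76) (nat_lit 1518638739771) (nat_lit 1) (nat_lit 4) (nat_lit 2) (nat_lit 5) (nat_lit 2) (nat_lit 4) (nat_lit 370) (nat_lit 218) (nat_lit 192)))))) (XT.nd (nat_lit 38766) (nat_lit 0) (nat_lit 0) (XT.nd (nat_lit 38454) (nat_lit 0) (nat_lit 0) (XT.nd (nat_lit 156) (nat_lit 0) (nat_lit 0) (XT.nd (nat_lit 78) (nat_lit 0) (nat_lit 0) (XT.lf (nat_lit 0) (nat_lit 2350422608022)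 (nat_lit 76) (nat_lit 1640172358691) (nat_lit 76) (nat_lit 1639692909332) (nat_lit 1) (nat_lit 4) (nat_lit 2) (nat_lit 5) (nat_lit 2) (nat_lit 4) (nat_lit 371) (nat_lit 218) (nat_lit 191)) (XT.lf (nat_lit 0) (nat_lit 2539313589287) (nat_lit 76) (nat_lit 1770923301434) (nat_lit 76) (nat_lit 1770438769869) (nat_lit 1) (nat_lit 4) (nat_lit 2) (nat_lit 5) (nat_lit 2) (nat_lit 4) (nat_lit 372) (nat_lit 218) (nat_lit 190))) (XT.nd (nat_lit 38220) (nat_lit 0) (nat_lit 0) (XT.lf (nat_lit 0) (nat_lit 2743303514433) (nat_lit 76) (nat_lit 1912140348977) (nat_lit 76) (nat_lit 1911651111665) (nat_lit 1) (nat_lit 4) (nat_lit 2) (nat_lit 5) (nat_lit 2) (nat_lit 4) (nat_lit 373) (nat_lit 218) (nat_lit 189)) (XT.lf (nat_lit 0) (nat_lit 117329954862) (nat_lit 76) (nat_lit 92587203464) (nat_lit 76) (nat_lit 92587203464) (nat_lit 1) (nat_lit 4) (nat_lit 2) (nat_lit 5) (nat_lit 2) (nat_lit 4) (nat_lit 342)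 (nat_lit 219) (nat_lit 219)))) (XT.nd (nat_lit 156) (nat_lit 0) (nat_lit 0) (XT.nd (nat_lit 78) (nat_lit 0) (nat_lit 0) (XT.lf (nat_lit 0) (nat_lit 255615173144) (nat_lit 76) (nat_lit 198874176712) (nat_lit 76) (nat_lit 198830331980) (nat_lit 1) (nat_lit 4) (nat_lit 2) (nat_lit 5) (nat_lit 2) (nat_lit 4) (nat_lit 343) (nat_lit 219) (nat_lit 218)) (XT.lf (nat_lit 0) (nat_lit 278140445565) (nat_lit 76) (nat_lit 213721944190) (nat_lit 76) (nat_lit 213637502486) (nat_lit 1) (nat_lit 4) (nat_lit 2) (nat_lit 5) (nat_lit 2) (nat_lit 4) (nat_lit 344) (nat_lit 219) (nat_lit 217))) (XT.nd (nat_lit 78) (nat_lit 0) (nat_lit 0) (XT.lf (nat_lit 0) (nat_lit 302369210085) (nat_lit 76) (nat_lit 229805696134) (nat_lit 76) (nat_lit 229683664639) (nat_lit 1) (nat_lit 4) (nat_lit 2) (nat_lit 5) (nat_lit 2) (nat_lit 4) (nat_lit 345) (nat_lit 219) (nat_lit 216)) (XT.lf (nat_lit 0) (nat_lit 328445044568) (nat_lit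 76) (nat_lit 247220743666) (nat_lit 76) (nat_lit 247063906810) (nat_lit 1) (nat_lit 4) (nat_lit 2) (nat_lit 5) (nat_lit 2) (nat_lit 4) (nat_lit 346) (nat_lit 219) (nat_lit 215))))) (XT.nd (nat_lit 312) (nat_lit 0) (nat_lit 0) (XT.nd (nat_lit 156) (nat_lit 0) (nat_lit 0) (XT.nd (nat_lit 78) (nat_lit 0) (nat_lit 0) (XT.lf (nat_lit 0) (nat_lit 356522472477) (nat_lit 76) (nat_lit 266070287067) (nat_lit 76) (nat_lit 265881223025) (nat_lit 1) (nat_lit 4) (nat_lit 2) (nat_lit 5) (nat_lit 2) (nat_lit 4) (nat_lit 347) (nat_lit 219) (nat_lit 214)) (XT.lf (nat_lit 0) (nat_lit 386767878569) (nat_lit 76) (nat_lit 286466027336) (nat_lit 76) (nat_lit 286247123307) (nat_lit 1) (nat_lit 4) (nat_lit 2) (nat_lit 5) (nat_lit 2) (nat_lit 4) (nat_lit 348) (nat_lit 219) (nat_lit 213))) (XT.nd (nat_lit 78) (nat_lit 0) (nat_lit 0) (XT.lf (nat_lit 0) (nat_lit 419360494882) (nat_lit 76) (nat_lit 308528828119)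 (nat_lit 76) (nat_lit 308282294472) (nat_lit 1) (nat_lit 4) (nat_lit 2) (nat_lit 5) (nat_lit 2) (nat_lit 4) (nat_lit 349) (nat_lit 219) (nat_lit 212)) (XT.lf (nat_lit 0) (nat_lit 454493462846) (nat_lit 76) (nat_lit 332389431939) (nat_lit 76) (nat_lit 332117315313) (nat_lit 1) (nat_lit 4) (nat_lit 2) (nat_lit 5) (nat_lit 2) (nat_lit 4) (nat_lit 350) (nat_lit 219) (nat_lit 211)))) (XT.nd (nat_lit 156) (nat_lit 0) (nat_lit 0) (XT.nd (nat_lit 78) (nat_lit 0) (nat_lit 0) (XT.lf (nat_lit 0) (nat_lit 492374977825) (nat_lit 76) (nat_lit 358189234967) (nat_lit 76) (nat_lit 357893430396) (nat_lit 1) (nat_lit 4) (nat_lit 2) (nat_lit 5) (nat_lit 2) (nat_lit 4) (nat_lit 351) (nat_lit 219) (nat_lit 210)) (XT.lf (nat_lit 0) (nat_lit 533229522872) (nat_lit 76) (nat_lit 386081124923) (nat_lit 76) (nat_lit 385763387071) (nat_lit 1) (nat_lit 4) (nat_lit 2) (nat_lit 5) (nat_lit 2) (nat_lit 4) (nat_lit 352)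 (nat_lit 219) (nat_lit 209))) (XT.nd (nat_lit 78) (nat_lit 0) (nat_lit 0) (XT.lf (nat_lit 0) (nat_lit 577299198994) (nat_lit 76) (nat_lit 416230387083) (nat_lit 76) (nat_lit 415892340637) (nat_lit 1) (nat_lit 4) (nat_lit 2) (nat_lit 5) (nat_lit 2) (nat_lit 4) (nat_lit 353) (nat_lit 219) (nat_lit 208)) (XT.lf (nat_lit 0) (nat_lit 624845159828) (nat_lit 76) (nat_lit 448815683740) (nat_lit 76) (nat_lit 448458833041) (nat_lit 1) (nat_lit 4) (nat_lit 2) (nat_lit 5) (nat_lit 2) (nat_lit 4) (nat_lit 354) (nat_lit 219) (nat_lit 207))))))))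
noncomputable def xc4 : XT := (XT.nd (nat_lit 40404) (nat_lit 0) (nat_lit 0) (XT.nd (nat_lit 1170) (nat_lit 0) (nat_lit 0) (XT.nd (nat_lit 546) (nat_lit 0) (nat_lit 0) (XT.nd (nat_lit 234) (nat_lit 0) (nat_lit 0) (XT.nd (nat_lit 78) (nat_lit 0) (nat_lit 0) (XT.lf (nat_lit 0) (nat_lit 676149159215) (nat_lit 76) (nat_lit 484030112949) (nat_lit 76) (nat_lit 483655850903) (nat_lit 1) (nat_lit 4) (nat_lit 2) (nat_lit 5) (nat_lit 2) (nat_lit 4) (nat_lit 355) (nat_lit 219) (nat_lit 206)) (XT.nd (nat_lit 78) (nat_lit 0) (nat_lit 0) (XT.lf (nat_lit 0) (nat_lit 731515220856) (nat_lit 76) (nat_lit 522082352809) (nat_lit 76) (nat_lit 521691969146) (nat_lit 1) (nat_lit 4) (nat_lit 2) (nat_lit 5) (nat_lit 2) (nat_lit 4) (nat_lit 356) (nat_lit 219) (nat_lit 205)) (XT.lf (nat_lit 0) (nat_lit 791271439931) (nat_lit 76) (nat_lit 563197898073) (nat_lit 76) (nat_lit 562792586988) (nat_lit 1) (nat_lit 4)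 (nat_lit 2) (nat_lit 5) (nat_lit 2) (nat_lit 4) (nat_lit 357) (nat_lit 219) (nat_lit 204)))) (XT.nd (nat_lit 156) (nat_lit 0) (nat_lit 0) (XT.nd (nat_lit 78) (nat_lit 0) (nat_lit 0) (XT.lf (nat_lit 0) (nat_lit 855771927367) (nat_lit 76) (nat_lit 607620396419) (nat_lit 76) (nat_lit 607201263646) (nat_lit 1) (nat_lit 4) (nat_lit 2) (nat_lit 5) (nat_lit 2) (nat_lit 4) (nat_lit 358) (nat_lit 219) (nat_lit 203)) (XT.lf (nat_lit 0) (nat_lit 925398908276) (nat_lit 76) (nat_lit 655613092281) (nat_lit 76) (nat_lit 655181161649) (nat_lit 1) (nat_lit 4) (nat_lit 2) (nat_lit 5) (nat_lit 2) (nat_lit 4) (nat_lit 359) (nat_lit 219) (nat_lit 202))) (XT.nd (nat_lit 78) (nat_lit 0) (nat_lit 0) (XT.lf (nat_lit 0) (nat_lit 1000564986988) (nat_lit 76) (nat_lit 707460386819) (nat_lit 76) (nat_lit 707016606317) (nat_lit 1) (nat_lit 4) (nat_lit 2) (nat_lit 5) (nat_lit 2) (nat_lit 4) (nat_lit 360) (nat_lit 219)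 (nat_lit 201)) (XT.lf (nat_lit 0) (nat_lit 1081715592119) (nat_lit 76) (nat_lit 763469523260) (nat_lit 76) (nat_lit 763014770657) (nat_lit 1) (nat_lit 4) (nat_lit 2) (nat_lit 5) (nat_lit 2) (nat_lit 4) (nat_lit 361) (nat_lit 219) (nat_lit 200))))) (XT.nd (nat_lit 312) (nat_lit 0) (nat_lit 0) (XT.nd (nat_lit 156) (nat_lit 0) (nat_lit 0) (XT.nd (nat_lit 78) (nat_lit 0) (nat_lit 0) (XT.lf (nat_lit 0) (nat_lit 1169331616143) (nat_lit 76) (nat_lit 823972407598) (nat_lit 76) (nat_lit 823507495642) (nat_lit 1) (nat_lit 4) (nat_lit 2) (nat_lit 5) (nat_lit 2) (nat_lit 4) (nat_lit 362) (nat_lit 219) (nat_lit 199)) (XT.lf (nat_lit 0) (nat_lit 1263932265128) (nat_lit 76) (nat_lit 889327575443) (nat_lit 76) (nat_lit 888853256679) (nat_lit 1) (nat_lit 4) (nat_lit 2) (nat_lit 5) (nat_lit 2) (nat_lit 4) (nat_lit 363) (nat_lit 219) (nat_lit 198))) (XT.nd (nat_lit 78) (nat_lit 0) (nat_lit 0) (XT.lf (nat_lit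 0) (nat_lit 1366078135513) (nat_lit 76) (nat_lit 959922316681) (nat_lit 76) (nat_lit 959439287908) (nat_lit 1) (nat_lit 4) (nat_lit 2) (nat_lit 5) (nat_lit 2) (nat_lit 4) (nat_lit 364) (nat_lit 219) (nat_lit 197)) (XT.lf (nat_lit 0) (nat_lit 1476374536159) (nat_lit 76) (nat_lit 1036174970517) (nat_lit 76) (nat_lit 1035683876922) (nat_lit 1) (nat_lit 4) (nat_lit 2) (nat_lit 5) (nat_lit 2) (nat_lit 4) (nat_lit 365) (nat_lit 219) (nat_lit 196)))) (XT.nd (nat_lit 156) (nat_lit 0) (nat_lit 0) (XT.nd (nat_lit 78) (nat_lit 0) (nat_lit 0) (XT.lf (nat_lit 0) (nat_lit 1595475075367) (nat_lit 76) (nat_lit 1118537404529) (nat_lit 76) (nat_lit 1118038843507) (nat_lit 1) (nat_lit 4) (nat_lit 2) (nat_lit 5) (nat_lit 2) (nat_lit 4) (nat_lit 366) (nat_lit 219) (nat_lit 195)) (XT.lf (nat_lit 0) (nat_lit 1724085534109) (nat_lit 76) (nat_lit 1207497692402) (nat_lit 76) (nat_lit 1206992217095) (nat_lit 1)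 (nat_lit 4) (nat_lit 2) (nat_lit 5) (nat_lit 2) (nat_lit 4) (nat_lit 367) (nat_lit 219) (nat_lit 194))) (XT.nd (nat_lit 78) (nat_lit 0) (nat_lit 0) (XT.lf (nat_lit 0) (nat_lit 1862968048438) (nat_lit 76) (nat_lit 1303583006211) (nat_lit 76) (nat_lit 1303071128788) (nat_lit 1) (nat_lit 4) (nat_lit 2) (nat_lit 5) (nat_lit 2) (nat_lit 4) (nat_lit 368) (nat_lit 219) (nat_lit 193)) (XT.lf (nat_lit 0) (nat_lit 2012945625845) (nat_lit 76) (nat_lit 1407362740409) (nat_lit 76) (nat_lit 1406844935101) (nat_lit 1) (nat_lit 4) (nat_lit 2) (nat_lit 5) (nat_lit 2) (nat_lit 4) (nat_lit 369) (nat_lit 219) (nat_lit 192)))))) (XT.nd (nat_lit 38610) (nat_lit 0) (nat_lit 0) (XT.nd (nat_lit 38298) (nat_lit 0) (nat_lit 0) (XT.nd (nat_lit 156) (nat_lit 0) (nat_lit 0) (XT.nd (nat_lit 78) (nat_lit 0) (nat_lit 0) (XT.lf (nat_lit 0) (nat_lit 2174907022346) (nat_lit 76) (nat_lit 1519451886013) (nat_lit 76) (nat_lit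 1518928591922) (nat_lit 1) (nat_lit 4) (nat_lit 2) (nat_lit 5) (nat_lit 2) (nat_lit 4) (nat_lit 370) (nat_lit 219) (nat_lit 191)) (XT.lf (nat_lit 0) (nat_lit 2349812009178) (nat_lit 76) (nat_lit 1640514674996) (nat_lit 76) (nat_lit 1639986298700) (nat_lit 1) (nat_lit 4) (nat_lit 2) (nat_lit 5) (nat_lit 2) (nat_lit 4) (nat_lit 371) (nat_lit 219) (nat_lit 190))) (XT.nd (nat_lit 78) (nat_lit 0) (nat_lit 0) (XT.lf (nat_lit 0) (nat_lit 2538697060337) (nat_lit 76) (nat_lit 1771268516480) (nat_lit 76) (nat_lit 1770735434437) (nat_lit 1) (nat_lit 4) (nat_lit 2) (nat_lit 5) (nat_lit 2) (nat_lit 4) (nat_lit 372) (nat_lit 219) (nat_lit 189)) (XT.lf (nat_lit 0) (nat_lit 2742681494646) (nat_lit 76) (nat_lit 1912488248042) (nat_lit 76) (nat_lit 1911950808827) (nat_lit 1) (nat_lit 4) (nat_lit 2) (nat_lit 5) (nat_lit 2) (nat_lit 4) (nat_lit 373) (nat_lit 219) (nat_lit 188)))) (XT.nd (nat_lit 156) (nat_lit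 0) (nat_lit 0) (XT.nd (nat_lit 78) (nat_lit 0) (nat_lit 0) (XT.lf (nat_lit 0) (nat_lit 98515466518) (nat_lit 76) (nat_lit 80459315149) (nat_lit 76) (nat_lit 80459315149) (nat_lit 1) (nat_lit 4) (nat_lit 2) (nat_lit 5) (nat_lit 2) (nat_lit 4) (nat_lit 340) (nat_lit 220) (nat_lit 220)) (XT.lf (nat_lit 0) (nat_lit 215150475971) (nat_lit 76) (nat_lit 172588803329) (nat_lit 76) (nat_lit 172541451019) (nat_lit 1) (nat_lit 4) (nat_lit 2) (nat_lit 5) (nat_lit 2) (nat_lit 4) (nat_lit 341) (nat_lit 220) (nat_lit 219))) (XT.nd (nat_lit 78) (nat_lit 0) (nat_lit 0) (XT.lf (nat_lit 0) (nat_lit 234604657304) (nat_lit 76) (nat_lit 185248767604) (nat_lit 76) (nat_lit 185157570563) (nat_lit 1) (nat_lit 4) (nat_lit 2) (nat_lit 5) (nat_lit 2) (nat_lit 4) (nat_lit 342) (nat_lit 220) (nat_lit 218)) (XT.lf (nat_lit 0) (nat_lit 255508761073) (nat_lit 76) (nat_lit 198973545134) (nat_lit 76) (nat_lit 198841751120)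 (nat_lit 1) (nat_lit 4) (nat_lit 2) (nat_lit 5) (nat_lit 2) (nat_lit 4) (nat_lit 343) (nat_lit 220) (nat_lit 217))))) (XT.nd (nat_lit 312) (nat_lit 0) (nat_lit 0) (XT.nd (nat_lit 156) (nat_lit 0) (nat_lit 0) (XT.nd (nat_lit 78) (nat_lit 0) (nat_lit 0) (XT.lf (nat_lit 0) (nat_lit 277986663449) (nat_lit 76) (nat_lit 213844467933) (nat_lit 76) (nat_lit 213675084129) (nat_lit 1) (nat_lit 4) (nat_lit 2) (nat_lit 5) (nat_lit 2) (nat_lit 4) (nat_lit 344) (nat_lit 220) (nat_lit 216)) (XT.lf (nat_lit 0) (nat_lit 302171566815) (nat_lit 76) (nat_lit 229949659988) (nat_lit 76) (nat_lit 229745470823) (nat_lit 1) (nat_lit 4) (nat_lit 2) (nat_lit 5) (nat_lit 2) (nat_lit 4) (nat_lit 345) (nat_lit 220) (nat_lit 215))) (XT.nd (nat_lit 78) (nat_lit 0) (nat_lit 0) (XT.lf (nat_lit 0) (nat_lit 328206789119) (nat_lit 76) (nat_lit 247384559476) (nat_lit 76) (nat_lit 247148143124) (nat_lit 1) (nat_lit 4) (nat_lit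 2) (nat_lit 5) (nat_lit 2) (nat_lit 4) (nat_lit 346) (nat_lit 220) (nat_lit 214)) (XT.lf (nat_lit 0) (nat_lit 356246613158) (nat_lit 76) (nat_lit 266252484317) (nat_lit 76) (nat_lit 265986227979) (nat_lit 1) (nat_lit 4) (nat_lit 2) (nat_lit 5) (nat_lit 2) (nat_lit 4) (nat_lit 347) (nat_lit 220) (nat_lit 213)))) (XT.nd (nat_lit 156) (nat_lit 0) (nat_lit 0) (XT.nd (nat_lit 78) (nat_lit 0) (nat_lit 0) (XT.lf (nat_lit 0) (nat_lit 386457200853) (nat_lit 76) (nat_lit 286665244439) (nat_lit 76) (nat_lit 286371358482) (nat_lit 1) (nat_lit 4) (nat_lit 2) (nat_lit 5) (nat_lit 2) (nat_lit 4) (nat_lit 348) (nat_lit 220) (nat_lit 212)) (XT.lf (nat_lit 0) (nat_lit 419017577909) (nat_lit 76) (nat_lit 308743804344) (nat_lit 76) (nat_lit 308424335408) (nat_lit 1) (nat_lit 4) (nat_lit 2) (nat_lit 5) (nat_lit 2) (nat_lit 4) (nat_lit 349) (nat_lit 220) (nat_lit 211))) (XT.nd (nat_lit 78) (nat_lit 0) (nat_lit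 0) (XT.lf (nat_lit 0) (nat_lit 454120694709) (nat_lit 76) (nat_lit 332618999943) (nat_lit 76) (nat_lit 332275843063) (nat_lit 1) (nat_lit 4) (nat_lit 2) (nat_lit 5) (nat_lit 2) (nat_lit 4) (nat_lit 350) (nat_lit 220) (nat_lit 210)) (XT.lf (nat_lit 0) (nat_lit 491974569721) (nat_lit 76) (nat_lit 358432313878) (nat_lit 76) (nat_lit 358067223716) (nat_lit 1) (nat_lit 4) (nat_lit 2) (nat_lit 5) (nat_lit 2) (nat_lit 4) (nat_lit 351) (nat_lit 220) (nat_lit 209))))))) (XT.nd (nat_lit 1248) (nat_lit 0) (nat_lit 0) (XT.nd (nat_lit 624) (nat_lit 0) (nat_lit 0) (XT.nd (nat_lit 312) (nat_lit 0) (nat_lit 0) (XT.nd (nat_lit 156) (nat_lit 0) (nat_lit 0) (XT.nd (nat_lit 78) (nat_lit 0) (nat_lit 0) (XT.lf (nat_lit 0) (nat_lit 532803522206) (nat_lit 76) (nat_lit 386336713934) (nat_lit 76) (nat_lit 385951315179) (nat_lit 1) (nat_lit 4) (nat_lit 2) (nat_lit 5) (nat_lit 2) (nat_lit 4) (nat_lit 352) (nat_lit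 220) (nat_lit 208)) (XT.lf (nat_lit 0) (nat_lit 576849501512) (nat_lit 76) (nat_lit 416497559519) (nat_lit 76) (nat_lit 416093356510) (nat_lit 1) (nat_lit 4) (nat_lit 2) (nat_lit 5) (nat_lit 2) (nat_lit 4) (nat_lit 353) (nat_lit 220) (nat_lit 207))) (XT.nd (nat_lit 78) (nat_lit 0) (nat_lit 0) (XT.lf (nat_lit 0) (nat_lit 624373520849) (nat_lit 76) (nat_lit 449093581570) (nat_lit 76) (nat_lit 448671967215) (nat_lit 1) (nat_lit 4) (nat_lit 2) (nat_lit 5) (nat_lit 2) (nat_lit 4) (nat_lit 354) (nat_lit 220) (nat_lit 206)) (XT.lf (nat_lit 0) (nat_lit 675657204036) (nat_lit 76) (nat_lit 484317941699) (nat_lit 76) (nat_lit 483880205727) (nat_lit 1) (nat_lit 4) (nat_lit 2) (nat_lit 5) (nat_lit 2) (nat_lit 4) (nat_lit 355) (nat_lit 220) (nat_lit 205)))) (XT.nd (nat_lit 156) (nat_lit 0) (nat_lit 0) (XT.nd (nat_lit 78) (nat_lit 0) (nat_lit 0) (XT.lf (nat_lit 0) (nat_lit 731004454380) (nat_lit 76)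 (nat_lit 522379376855) (nat_lit 76) (nat_lit 521926713460) (nat_lit 1) (nat_lit 4) (nat_lit 2) (nat_lit 5) (nat_lit 2) (nat_lit 4) (nat_lit 356) (nat_lit 220) (nat_lit 204)) (XT.lf (nat_lit 0) (nat_lit 790743255587) (nat_lit 76) (nat_lit 563503436283) (nat_lit 76) (nat_lit 563036951201) (nat_lit 1) (nat_lit 4) (nat_lit 2) (nat_lit 5) (nat_lit 2) (nat_lit 4) (nat_lit 357) (nat_lit 220) (nat_lit 203))) (XT.nd (nat_lit 78) (nat_lit 0) (nat_lit 0) (XT.lf (nat_lit 0) (nat_lit 855227615368) (nat_lit 76) (nat_lit 607933818114) (nat_lit 76) (nat_lit 607454535172) (nat_lit 1) (nat_lit 4) (nat_lit 2) (nat_lit 5) (nat_lit 2) (nat_lit 4) (nat_lit 358) (nat_lit 220) (nat_lit 202)) (XT.lf (nat_lit 0) (nat_lit 924839663263) (nat_lit 76) (nat_lit 655933813498) (nat_lit 76) (nat_lit 655442680687) (nat_lit 1) (nat_lit 4) (nat_lit 2) (nat_lit 5) (nat_lit 2) (nat_lit 4) (nat_lit 359) (nat_lit 220) (nat_lit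 201))))) (XT.nd (nat_lit 312) (nat_lit 0) (nat_lit 0) (XT.nd (nat_lit 156) (nat_lit 0) (nat_lit 0) (XT.nd (nat_lit 78) (nat_lit 0) (nat_lit 0) (XT.lf (nat_lit 0) (nat_lit 999991915111) (nat_lit 76) (nat_lit 707787866853) (nat_lit 76) (nat_lit 707285761941) (nat_lit 1) (nat_lit 4) (nat_lit 2) (nat_lit 5) (nat_lit 2) (nat_lit 4) (nat_lit 360) (nat_lit 220) (nat_lit 200)) (XT.lf (nat_lit 0) (nat_lit 1081129717589) (nat_lit 76) (nat_lit 763803261459) (nat_lit 76) (nat_lit 763290997193) (nat_lit 1) (nat_lit 4) (nat_lit 2) (nat_lit 5) (nat_lit 2) (nat_lit 4) (nat_lit 361) (nat_lit 220) (nat_lit 199))) (XT.nd (nat_lit 78) (nat_lit 0) (nat_lit 0) (XT.lf (nat_lit 0) (nat_lit 1168733887305) (nat_lit 76) (nat_lit 824311940393) (nat_lit 76) (nat_lit 823790269319) (nat_lit 1) (nat_lit 4) (nat_lit 2) (nat_lit 5) (nat_lit 2) (nat_lit 4) (nat_lit 362) (nat_lit 220) (nat_lit 198)) (XT.lf (nat_lit 0)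 (nat_lit 1263323560079) (nat_lit 76) (nat_lit 889672473606) (nat_lit 76) (nat_lit 889142092524) (nat_lit 1) (nat_lit 4) (nat_lit 2) (nat_lit 5) (nat_lit 2) (nat_lit 4) (nat_lit 363) (nat_lit 220) (nat_lit 197)))) (XT.nd (nat_lit 156) (nat_lit 0) (nat_lit 0) (XT.nd (nat_lit 78) (nat_lit 0) (nat_lit 0) (XT.lf (nat_lit 0) (nat_lit 1365459267305) (nat_lit 76) (nat_lit 960272182776) (nat_lit 76) (nat_lit 959733736872) (nat_lit 1) (nat_lit 4) (nat_lit 2) (nat_lit 5) (nat_lit 2) (nat_lit 4) (nat_lit 364) (nat_lit 220) (nat_lit 196)) (XT.lf (nat_lit 0) (nat_lit 1475746257620) (nat_lit 76) (nat_lit 1036529436549) (nat_lit 76) (nat_lit 1035983523217) (nat_lit 1) (nat_lit 4) (nat_lit 2) (nat_lit 5) (nat_lit 2) (nat_lit 4) (nat_lit 365) (nat_lit 220) (nat_lit 195))) (XT.nd (nat_lit 78) (nat_lit 0) (nat_lit 0) (XT.lf (nat_lit 0) (nat_lit 1594838083557) (nat_lit 76) (nat_lit 1118896129764) (nat_lit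 76) (nat_lit 1118343302147) (nat_lit 1) (nat_lit 4) (nat_lit 2) (nat_lit 5) (nat_lit 2) (nat_lit 4) (nat_lit 366) (nat_lit 220) (nat_lit 194)) (XT.lf (nat_lit 0) (nat_lit 1723440474457) (nat_lit 76) (nat_lit 1207860361341) (nat_lit 76) (nat_lit 1207301131609) (nat_lit 1) (nat_lit 4) (nat_lit 2) (nat_lit 5) (nat_lit 2) (nat_lit 4) (nat_lit 367) (nat_lit 220) (nat_lit 193)))))) (XT.nd (nat_lit 38454) (nat_lit 0) (nat_lit 0) (XT.nd (nat_lit 312) (nat_lit 0) (nat_lit 0) (XT.nd (nat_lit 156) (nat_lit 0) (nat_lit 0) (XT.nd (nat_lit 78) (nat_lit 0) (nat_lit 0) (XT.lf (nat_lit 0) (nat_lit 1862315518561) (nat_lit 76) (nat_lit 1303949326729) (nat_lit 76) (nat_lit 1303384169112) (nat_lit 1) (nat_lit 4) (nat_lit 2) (nat_lit 5) (nat_lit 2) (nat_lit 4) (nat_lit 368) (nat_lit 220) (nat_lit 192)) (XT.lf (nat_lit 0) (nat_lit 2012286179093) (nat_lit 76) (nat_lit 1407732442018) (nat_lit 76) (nat_lit 1407161795618)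 (nat_lit 1) (nat_lit 4) (nat_lit 2) (nat_lit 5) (nat_lit 2) (nat_lit 4) (nat_lit 369) (nat_lit 220) (nat_lit 191))) (XT.nd (nat_lit 78) (nat_lit 0) (nat_lit 0) (XT.lf (nat_lit 0) (nat_lit 2174241171080) (nat_lit 76) (nat_lit 1519824718262) (nat_lit 76) (nat_lit 1519248989656) (nat_lit 1) (nat_lit 4) (nat_lit 2) (nat_lit 5) (nat_lit 2) (nat_lit 4) (nat_lit 370) (nat_lit 220) (nat_lit 190)) (XT.lf (nat_lit 0) (nat_lit 2349140227807) (nat_lit 76) (nat_lit 1640890405987) (nat_lit 76) (nat_lit 1640309971635) (nat_lit 1) (nat_lit 4) (nat_lit 2) (nat_lit 5) (nat_lit 2) (nat_lit 4) (nat_lit 371) (nat_lit 220) (nat_lit 189)))) (XT.nd (nat_lit 37986) (nat_lit 0) (nat_lit 0) (XT.nd (nat_lit 78) (nat_lit 0) (nat_lit 0) (XT.lf (nat_lit 0) (nat_lit 2538019788128) (nat_lit 76) (nat_lit 1771646931490) (nat_lit 76) (nat_lit 1771062139965) (nat_lit 1) (nat_lit 4) (nat_lit 2) (nat_lit 5) (nat_lit 2) (nat_lit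 4) (nat_lit 372) (nat_lit 220) (nat_lit 188)) (XT.lf (nat_lit 0) (nat_lit 2741999138327) (nat_lit 76) (nat_lit 1912869148255) (nat_lit 76) (nat_lit 1912280322312) (nat_lit 1) (nat_lit 4) (nat_lit 2) (nat_lit 5) (nat_lit 2) (nat_lit 4) (nat_lit 373) (nat_lit 220) (nat_lit 187))) (XT.nd (nat_lit 78) (nat_lit 0) (nat_lit 0) (XT.lf (nat_lit 0) (nat_lit 82218990590) (nat_lit 76) (nat_lit 70148062596) (nat_lit 76) (nat_lit 70148062596) (nat_lit 1) (nat_lit 4) (nat_lit 2) (nat_lit 5) (nat_lit 2) (nat_lit 4) (nat_lit 338) (nat_lit 221) (nat_lit 221)) (XT.lf (nat_lit 0) (nat_lit 180138653431) (nat_lit 76) (nat_lit 150220232424) (nat_lit 76) (nat_lit 150169091930) (nat_lit 1) (nat_lit 4) (nat_lit 2) (nat_lit 5) (nat_lit 2) (nat_lit 4) (nat_lit 339) (nat_lit 221) (nat_lit 220))))) (XT.nd (nat_lit 312) (nat_lit 0) (nat_lit 0) (XT.nd (nat_lit 156) (nat_lit 0) (nat_lit 0) (XT.nd (nat_lit 78) (nat_lit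 0) (nat_lit 0) (XT.lf (nat_lit 0) (nat_lit 196971260421) (nat_lit 76) (nat_lit 160998939828) (nat_lit 76) (nat_lit 160900447024) (nat_lit 1) (nat_lit 4) (nat_lit 2) (nat_lit 5) (nat_lit 2) (nat_lit 4) (nat_lit 340) (nat_lit 221) (nat_lit 219)) (XT.lf (nat_lit 0) (nat_lit 215035550935) (nat_lit 76) (nat_lit 172696121225) (nat_lit 76) (nat_lit 172553783690) (nat_lit 1) (nat_lit 4) (nat_lit 2) (nat_lit 5) (nat_lit 2) (nat_lit 4) (nat_lit 341) (nat_lit 221) (nat_lit 218))) (XT.nd (nat_lit 78) (nat_lit 0) (nat_lit 0) (XT.lf (nat_lit 0) (nat_lit 234438572618) (nat_lit 76) (nat_lit 185381093246) (nat_lit 76) (nat_lit 185198158738) (nat_lit 1) (nat_lit 4) (nat_lit 2) (nat_lit 5) (nat_lit 2) (nat_lit 4) (nat_lit 342) (nat_lit 221) (nat_lit 217)) (XT.lf (nat_lit 0) (nat_lit 255295306342) (nat_lit 76) (nat_lit 199129026097) (nat_lit 76) (nat_lit 198908501798) (nat_lit 1) (nat_lit 4) (nat_lit 2)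 (nat_lit 5) (nat_lit 2) (nat_lit 4) (nat_lit 343) (nat_lit 221) (nat_lit 216)))) (XT.nd (nat_lit 156) (nat_lit 0) (nat_lit 0) (XT.nd (nat_lit 78) (nat_lit 0) (nat_lit 0) (XT.lf (nat_lit 0) (nat_lit 277729347564) (nat_lit 76) (nat_lit 214021389008) (nat_lit 76) (nat_lit 213766059348) (nat_lit 1) (nat_lit 4) (nat_lit 2) (nat_lit 5) (nat_lit 2) (nat_lit 4) (nat_lit 344) (nat_lit 221) (nat_lit 215)) (XT.lf (nat_lit 0) (nat_lit 301873638752) (nat_lit 76) (nat_lit 230146433019) (nat_lit 76) (nat_lit 229858876173) (nat_lit 1) (nat_lit 4) (nat_lit 2) (nat_lit 5) (nat_lit 2) (nat_lit 4) (nat_lit 345) (nat_lit 221) (nat_lit 214))) (XT.nd (nat_lit 78) (nat_lit 0) (nat_lit 0) (XT.lf (nat_lit 0) (nat_lit 327871257186) (nat_lit 76) (nat_lit 247599713946) (nat_lit 76) (nat_lit 247282317113) (nat_lit 1) (nat_lit 4) (nat_lit 2) (nat_lit 5) (nat_lit 2) (nat_lit 4) (nat_lit 346) (nat_lit 221) (nat_lit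 213)) (XT.lf (nat_lit 0) (nat_lit 355876262827) (nat_lit 76) (nat_lit 266484658640) (nat_lit 76) (nat_lit 266139632189) (nat_lit 1) (nat_lit 4) (nat_lit 2) (nat_lit 5) (nat_lit 2) (nat_lit 4) (nat_lit 347) (nat_lit 221) (nat_lit 212))))))))
noncomputable def xc5 : XT := (XT.nd (nat_lit 40092) (nat_lit 0) (nat_lit 0) (XT.nd (nat_lit 1170) (nat_lit 0) (nat_lit 0) (XT.nd (nat_lit 546) (nat_lit 0) (nat_lit 0) (XT.nd (nat_lit 234) (nat_lit 0) (nat_lit 0) (XT.nd (nat_lit 78) (nat_lit 0) (nat_lit 0) (XT.lf (nat_lit 0) (nat_lit 386054611265) (nat_lit 76) (nat_lit 286913177883) (nat_lit 76) (nat_lit 286542568453) (nat_lit 1) (nat_lit 4) (nat_lit 2) (nat_lit 5) (nat_lit 2) (nat_lit 4) (nat_lit 348) (nat_lit 221) (nat_lit 211)) (XT.nd (nat_lit 78) (nat_lit 0) (nat_lit 0) (XT.lf (nat_lit 0) (nat_lit 418585137157) (nat_lit 76) (nat_lit 309006329568) (nat_lit 76) (nat_lit 308612032194) (nat_lit 1)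 (nat_lit 4) (nat_lit 2) (nat_lit 5) (nat_lit 2) (nat_lit 4) (nat_lit 349) (nat_lit 221) (nat_lit 210)) (XT.lf (nat_lit 0) (nat_lit 453660613990) (nat_lit 76) (nat_lit 332895036075) (nat_lit 76) (nat_lit 332478805419) (nat_lit 1) (nat_lit 4) (nat_lit 2) (nat_lit 5) (nat_lit 2) (nat_lit 4) (nat_lit 350) (nat_lit 221) (nat_lit 209)))) (XT.nd (nat_lit 156) (nat_lit 0) (nat_lit 0) (XT.nd (nat_lit 78) (nat_lit 0) (nat_lit 0) (XT.lf (nat_lit 0) (nat_lit 491488896441) (nat_lit 76) (nat_lit 358720860109) (nat_lit 76) (nat_lit 358284320859) (nat_lit 1) (nat_lit 4) (nat_lit 2) (nat_lit 5) (nat_lit 2) (nat_lit 4) (nat_lit 351) (nat_lit 221) (nat_lit 208)) (XT.lf (nat_lit 0) (nat_lit 532294152109) (nat_lit 76) (nat_lit 386636843590) (nat_lit 76) (nat_lit 386181500087) (nat_lit 1) (nat_lit 4) (nat_lit 2) (nat_lit 5) (nat_lit 2) (nat_lit 4) (nat_lit 352) (nat_lit 221) (nat_lit 207))) (XT.nd (nat_lit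 78) (nat_lit 0) (nat_lit 0) (XT.lf (nat_lit 0) (nat_lit 576318189918) (nat_lit 76) (nat_lit 416808414569) (nat_lit 76) (nat_lit 416335659720) (nat_lit 1) (nat_lit 4) (nat_lit 2) (nat_lit 5) (nat_lit 2) (nat_lit 4) (nat_lit 353) (nat_lit 221) (nat_lit 206)) (XT.lf (nat_lit 0) (nat_lit 623821893055) (nat_lit 76) (nat_lit 449414367540) (nat_lit 76) (nat_lit 448925491074) (nat_lit 1) (nat_lit 4) (nat_lit 2) (nat_lit 5) (nat_lit 2) (nat_lit 4) (nat_lit 354) (nat_lit 221) (nat_lit 205))))) (XT.nd (nat_lit 312) (nat_lit 0) (nat_lit 0) (XT.nd (nat_lit 156) (nat_lit 0) (nat_lit 0) (XT.nd (nat_lit 78) (nat_lit 0) (nat_lit 0) (XT.lf (nat_lit 0) (nat_lit 675086764945) (nat_lit 76) (nat_lit 484647922966) (nat_lit 76) (nat_lit 484144119077) (nat_lit 1) (nat_lit 4) (nat_lit 2) (nat_lit 5) (nat_lit 2) (nat_lit 4) (nat_lit 355) (nat_lit 221) (nat_lit 204)) (XT.lf (nat_lit 0) (nat_lit 730416597421) (nat_lit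 76) (nat_lit 522717872285) (nat_lit 76) (nat_lit 522200246708) (nat_lit 1) (nat_lit 4) (nat_lit 2) (nat_lit 5) (nat_lit 2) (nat_lit 4) (nat_lit 356) (nat_lit 221) (nat_lit 203))) (XT.nd (nat_lit 78) (nat_lit 0) (nat_lit 0) (XT.lf (nat_lit 0) (nat_lit 790139270973) (nat_lit 76) (nat_lit 563849815198) (nat_lit 76) (nat_lit 563319391762) (nat_lit 1) (nat_lit 4) (nat_lit 2) (nat_lit 5) (nat_lit 2) (nat_lit 4) (nat_lit 357) (nat_lit 221) (nat_lit 202)) (XT.lf (nat_lit 0) (nat_lit 854608697741) (nat_lit 76) (nat_lit 608287496551) (nat_lit 76) (nat_lit 607745223246) (nat_lit 1) (nat_lit 4) (nat_lit 2) (nat_lit 5) (nat_lit 2) (nat_lit 4) (nat_lit 358) (nat_lit 221) (nat_lit 201)))) (XT.nd (nat_lit 156) (nat_lit 0) (nat_lit 0) (XT.nd (nat_lit 78) (nat_lit 0) (nat_lit 0) (XT.lf (nat_lit 0) (nat_lit 924206918771) (nat_lit 76) (nat_lit 656294250753) (nat_lit 76) (nat_lit 655741005346) (nat_lit 1)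 (nat_lit 4) (nat_lit 2) (nat_lit 5) (nat_lit 2) (nat_lit 4) (nat_lit 359) (nat_lit 221) (nat_lit 200)) (XT.lf (nat_lit 0) (nat_lit 999346367966) (nat_lit 76) (nat_lit 708154562272) (nat_lit 76) (nat_lit 707591157512) (nat_lit 1) (nat_lit 4) (nat_lit 2) (nat_lit 5) (nat_lit 2) (nat_lit 4) (nat_lit 360) (nat_lit 221) (nat_lit 199))) (XT.nd (nat_lit 78) (nat_lit 0) (nat_lit 0) (XT.lf (nat_lit 0) (nat_lit 1080472316136) (nat_lit 76) (nat_lit 764175751474) (nat_lit 76) (nat_lit 763602939906) (nat_lit 1) (nat_lit 4) (nat_lit 2) (nat_lit 5) (nat_lit 2) (nat_lit 4) (nat_lit 361) (nat_lit 221) (nat_lit 198)) (XT.lf (nat_lit 0) (nat_lit 1168065509641) (nat_lit 76) (nat_lit 824689795776) (nat_lit 76) (nat_lit 824108274200) (nat_lit 1) (nat_lit 4) (nat_lit 2) (nat_lit 5) (nat_lit 2) (nat_lit 4) (nat_lit 362) (nat_lit 221) (nat_lit 197)))))) (XT.nd (nat_lit 624) (nat_lit 0) (nat_lit 0) (XT.nd (nat_lit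 312) (nat_lit 0) (nat_lit 0) (XT.nd (nat_lit 156) (nat_lit 0) (nat_lit 0) (XT.nd (nat_lit 78) (nat_lit 0) (nat_lit 0) (XT.lf (nat_lit 0) (nat_lit 1262645019256) (nat_lit 76) (nat_lit 890055296921) (nat_lit 76) (nat_lit 889465710523) (nat_lit 1) (nat_lit 4) (nat_lit 2) (nat_lit 5) (nat_lit 2) (nat_lit 4) (nat_lit 363) (nat_lit 221) (nat_lit 196)) (XT.lf (nat_lit 0) (nat_lit 1364771316151) (nat_lit 76) (nat_lit 960659606029) (nat_lit 76) (nat_lit 960062552203) (nat_lit 1) (nat_lit 4) (nat_lit 2) (nat_lit 5) (nat_lit 2) (nat_lit 4) (nat_lit 364) (nat_lit 221) (nat_lit 195))) (XT.nd (nat_lit 78) (nat_lit 0) (nat_lit 0) (XT.lf (nat_lit 0) (nat_lit 1475049593195) (nat_lit 76) (nat_lit 1036921119004) (nat_lit 76) (nat_lit 1036317150892) (nat_lit 1) (nat_lit 4) (nat_lit 2) (nat_lit 5) (nat_lit 2) (nat_lit 4) (nat_lit 365) (nat_lit 221) (nat_lit 194)) (XT.lf (nat_lit 0) (nat_lit 1594133351290)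 (nat_lit 76) (nat_lit 1119291755923) (nat_lit 76) (nat_lit 1118681385696) (nat_lit 1) (nat_lit 4) (nat_lit 2) (nat_lit 5) (nat_lit 2) (nat_lit 4) (nat_lit 366) (nat_lit 221) (nat_lit 193)))) (XT.nd (nat_lit 156) (nat_lit 0) (nat_lit 0) (XT.nd (nat_lit 78) (nat_lit 0) (nat_lit 0) (XT.lf (nat_lit 0) (nat_lit 1722728271965) (nat_lit 76) (nat_lit 1208259639080) (nat_lit 76) (nat_lit 1207643340968) (nat_lit 1) (nat_lit 4) (nat_lit 2) (nat_lit 5) (nat_lit 2) (nat_lit 4) (nat_lit 367) (nat_lit 221) (nat_lit 192)) (XT.lf (nat_lit 0) (nat_lit 1861596399194) (nat_lit 76) (nat_lit 1304351985559) (nat_lit 76) (nat_lit 1303730198664) (nat_lit 1) (nat_lit 4) (nat_lit 2) (nat_lit 5) (nat_lit 2) (nat_lit 4) (nat_lit 368) (nat_lit 221) (nat_lit 191))) (XT.nd (nat_lit 78) (nat_lit 0) (nat_lit 0) (XT.lf (nat_lit 0) (nat_lit 2011560655213) (nat_lit 76) (nat_lit 1408138231488) (nat_lit 76) (nat_lit 1407511362388)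 (nat_lit 1) (nat_lit 4) (nat_lit 2) (nat_lit 5) (nat_lit 2) (nat_lit 4) (nat_lit 369) (nat_lit 221) (nat_lit 190)) (XT.lf (nat_lit 0) (nat_lit 2173509717094) (nat_lit 76) (nat_lit 1520233406473) (nat_lit 76) (nat_lit 1519601831626) (nat_lit 1) (nat_lit 4) (nat_lit 2) (nat_lit 5) (nat_lit 2) (nat_lit 4) (nat_lit 370) (nat_lit 221) (nat_lit 189))))) (XT.nd (nat_lit 37986) (nat_lit 0) (nat_lit 0) (XT.nd (nat_lit 156) (nat_lit 0) (nat_lit 0) (XT.nd (nat_lit 78) (nat_lit 0) (nat_lit 0) (XT.lf (nat_lit 0) (nat_lit 2348403282982) (nat_lit 76) (nat_lit 1641301778217) (nat_lit 76) (nat_lit 1640665846198) (nat_lit 1) (nat_lit 4) (nat_lit 2) (nat_lit 5) (nat_lit 2) (nat_lit 4) (nat_lit 371) (nat_lit 221) (nat_lit 188)) (XT.lf (nat_lit 0) (nat_lit 2537277759194) (nat_lit 76) (nat_lit 1772060788923) (nat_lit 76) (nat_lit 1771420822485) (nat_lit 1) (nat_lit 4) (nat_lit 2) (nat_lit 5) (nat_lit 2) (nat_lit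 4) (nat_lit 372) (nat_lit 221) (nat_lit 187))) (XT.nd (nat_lit 37752) (nat_lit 0) (nat_lit 0) (XT.lf (nat_lit 0) (nat_lit 2741252401884) (nat_lit 76) (nat_lit 1913285306802) (nat_lit 76) (nat_lit 1912641604791) (nat_lit 1) (nat_lit 4) (nat_lit 2) (nat_lit 5) (nat_lit 2) (nat_lit 4) (nat_lit 373) (nat_lit 221) (nat_lit 186)) (XT.lf (nat_lit 0) (nat_lit 68068017683) (nat_lit 76) (nat_lit 61401198958) (nat_lit 76) (nat_lit 61401198958) (nat_lit 1) (nat_lit 4) (nat_lit 2) (nat_lit 5) (nat_lit 2) (nat_lit 4) (nat_lit 336) (nat_lit 222) (nat_lit 222)))) (XT.nd (nat_lit 156) (nat_lit 0) (nat_lit 0) (XT.nd (nat_lit 78) (nat_lit 0) (nat_lit 0) (XT.lf (nat_lit 0) (nat_lit 149776202652) (nat_lit 76) (nat_lit 131223040343) (nat_lit 76) (nat_lit 131167808609) (nat_lit 1) (nat_lit 4) (nat_lit 2) (nat_lit 5) (nat_lit 2) (nat_lit 4) (nat_lit 337) (nat_lit 222) (nat_lit 221)) (XT.lf (nat_lit 0) (nat_lit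 164373534757) (nat_lit 76) (nat_lit 140382859485) (nat_lit 76) (nat_lit 140276487257) (nat_lit 1) (nat_lit 4) (nat_lit 2) (nat_lit 5) (nat_lit 2) (nat_lit 4) (nat_lit 338) (nat_lit 222) (nat_lit 220))) (XT.nd (nat_lit 78) (nat_lit 0) (nat_lit 0) (XT.lf (nat_lit 0) (nat_lit 180014534392) (nat_lit 76) (nat_lit 150336135752) (nat_lit 76) (nat_lit 150182411214) (nat_lit 1) (nat_lit 4) (nat_lit 2) (nat_lit 5) (nat_lit 2) (nat_lit 4) (nat_lit 339) (nat_lit 222) (nat_lit 219)) (XT.lf (nat_lit 0) (nat_lit 196791888961) (nat_lit 76) (nat_lit 161141851521) (nat_lit 76) (nat_lit 160944282252) (nat_lit 1) (nat_lit 4) (nat_lit 2) (nat_lit 5) (nat_lit 2) (nat_lit 4) (nat_lit 340) (nat_lit 222) (nat_lit 218))))))) (XT.nd (nat_lit 1248) (nat_lit 0) (nat_lit 0) (XT.nd (nat_lit 624) (nat_lit 0) (nat_lit 0) (XT.nd (nat_lit 312) (nat_lit 0) (nat_lit 0) (XT.nd (nat_lit 156) (nat_lit 0) (nat_lit 0) (XT.nd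 (nat_lit 78) (nat_lit 0) (nat_lit 0) (XT.lf (nat_lit 0) (nat_lit 214805019825) (nat_lit 76) (nat_lit 172864040665) (nat_lit 76) (nat_lit 172625874422) (nat_lit 1) (nat_lit 4) (nat_lit 2) (nat_lit 5) (nat_lit 2) (nat_lit 4) (nat_lit 341) (nat_lit 222) (nat_lit 217)) (XT.lf (nat_lit 0) (nat_lit 234160671463) (nat_lit 76) (nat_lit 185572168007) (nat_lit 76) (nat_lit 185296411975) (nat_lit 1) (nat_lit 4) (nat_lit 2) (nat_lit 5) (nat_lit 2) (nat_lit 4) (nat_lit 342) (nat_lit 222) (nat_lit 216))) (XT.nd (nat_lit 78) (nat_lit 0) (nat_lit 0) (XT.lf (nat_lit 0) (nat_lit 254973544033) (nat_lit 76) (nat_lit 199341540969) (nat_lit 76) (nat_lit 199030979576) (nat_lit 1) (nat_lit 4) (nat_lit 2) (nat_lit 5) (nat_lit 2) (nat_lit 4) (nat_lit 343) (nat_lit 222) (nat_lit 215)) (XT.lf (nat_lit 0) (nat_lit 277366973076) (nat_lit 76) (nat_lit 214253755836) (nat_lit 76) (nat_lit 213910967256) (nat_lit 1) (nat_lit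 4) (nat_lit 2) (nat_lit 5) (nat_lit 2) (nat_lit 4) (nat_lit 344) (nat_lit 222) (nat_lit 214)))) (XT.nd (nat_lit 156) (nat_lit 0) (nat_lit 0) (XT.nd (nat_lit 78) (nat_lit 0) (nat_lit 0) (XT.lf (nat_lit 0) (nat_lit 301473660394) (nat_lit 76) (nat_lit 230397181287) (nat_lit 76) (nat_lit 230024552720) (nat_lit 1) (nat_lit 4) (nat_lit 2) (nat_lit 5) (nat_lit 2) (nat_lit 4) (nat_lit 345) (nat_lit 222) (nat_lit 213)) (XT.lf (nat_lit 0) (nat_lit 327436460431) (nat_lit 76) (nat_lit 247867482066) (nat_lit 76) (nat_lit 247467223881) (nat_lit 1) (nat_lit 4) (nat_lit 2) (nat_lit 5) (nat_lit 2) (nat_lit 4) (nat_lit 346) (nat_lit 222) (nat_lit 212))) (XT.nd (nat_lit 78) (nat_lit 0) (nat_lit 0) (XT.lf (nat_lit 0) (nat_lit 355409226815) (nat_lit 76) (nat_lit 266768185882) (nat_lit 76) (nat_lit 266342344718) (nat_lit 1) (nat_lit 4) (nat_lit 2) (nat_lit 5) (nat_lit 2) (nat_lit 4) (nat_lit 347) (nat_lit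 222) (nat_lit 211)) (XT.lf (nat_lit 0) (nat_lit 385557724089) (nat_lit 76) (nat_lit 287211296905) (nat_lit 76) (nat_lit 286761767797) (nat_lit 1) (nat_lit 4) (nat_lit 2) (nat_lit 5) (nat_lit 2) (nat_lit 4) (nat_lit 348) (nat_lit 222) (nat_lit 210))))) (XT.nd (nat_lit 312) (nat_lit 0) (nat_lit 0) (XT.nd (nat_lit 156) (nat_lit 0) (nat_lit 0) (XT.nd (nat_lit 78) (nat_lit 0) (nat_lit 0) (XT.lf (nat_lit 0) (nat_lit 418060610014) (nat_lit 76) (nat_lit 309317959498) (nat_lit 76) (nat_lit 308846497108) (nat_lit 1) (nat_lit 4) (nat_lit 2) (nat_lit 5) (nat_lit 2) (nat_lit 4) (nat_lit 349) (nat_lit 222) (nat_lit 209)) (XT.lf (nat_lit 0) (nat_lit 453110494285) (nat_lit 76) (nat_lit 333219176104) (nat_lit 76) (nat_lit 332727405120) (nat_lit 1) (nat_lit 4) (nat_lit 2) (nat_lit 5) (nat_lit 2) (nat_lit 4) (nat_lit 350) (nat_lit 222) (nat_lit 208))) (XT.nd (nat_lit 78) (nat_lit 0) (nat_lit 0) (XT.lf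 (nat_lit 0) (nat_lit 490915079919) (nat_lit 76) (nat_lit 359056583563) (nat_lit 76) (nat_lit 358546008326) (nat_lit 1) (nat_lit 4) (nat_lit 2) (nat_lit 5) (nat_lit 2) (nat_lit 4) (nat_lit 351) (nat_lit 222) (nat_lit 207)) (XT.lf (nat_lit 0) (nat_lit 531698394091) (nat_lit 76) (nat_lit 386983292438) (nat_lit 76) (nat_lit 386455305855) (nat_lit 1) (nat_lit 4) (nat_lit 2) (nat_lit 5) (nat_lit 2) (nat_lit 4) (nat_lit 352) (nat_lit 222) (nat_lit 206)))) (XT.nd (nat_lit 156) (nat_lit 0) (nat_lit 0) (XT.nd (nat_lit 78) (nat_lit 0) (nat_lit 0) (XT.lf (nat_lit 0) (nat_lit 575702115700) (nat_lit 76) (nat_lit 417164794337) (nat_lit 76) (nat_lit 416620686137) (nat_lit 1) (nat_lit 4) (nat_lit 2) (nat_lit 5) (nat_lit 2) (nat_lit 4) (nat_lit 353) (nat_lit 222) (nat_lit 205)) (XT.lf (nat_lit 0) (nat_lit 623187007539) (nat_lit 76) (nat_lit 449779942605) (nat_lit 76) (nat_lit 449220906982) (nat_lit 1)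 (nat_lit 4) (nat_lit 2) (nat_lit 5) (nat_lit 2) (nat_lit 4) (nat_lit 354) (nat_lit 222) (nat_lit 204))) (XT.nd (nat_lit 78) (nat_lit 0) (nat_lit 0) (XT.lf (nat_lit 0) (nat_lit 674434461562) (nat_lit 76) (nat_lit 485022012194) (nat_lit 76) (nat_lit 484449154883) (nat_lit 1) (nat_lit 4) (nat_lit 2) (nat_lit 5) (nat_lit 2) (nat_lit 4) (nat_lit 355) (nat_lit 222) (nat_lit 203)) (XT.lf (nat_lit 0) (nat_lit 729748166383) (nat_lit 76) (nat_lit 523099844998) (nat_lit 76) (nat_lit 522514189828) (nat_lit 1) (nat_lit 4) (nat_lit 2) (nat_lit 5) (nat_lit 2) (nat_lit 4) (nat_lit 356) (nat_lit 222) (nat_lit 202)))))) (XT.nd (nat_lit 624) (nat_lit 0) (nat_lit 0) (XT.nd (nat_lit 312) (nat_lit 0) (nat_lit 0) (XT.nd (nat_lit 156) (nat_lit 0) (nat_lit 0) (XT.nd (nat_lit 78) (nat_lit 0) (nat_lit 0) (XT.lf (nat_lit 0) (nat_lit 789455906922) (nat_lit 76) (nat_lit 564239087433) (nat_lit 76) (nat_lit 563641582394)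 (nat_lit 1) (nat_lit 4) (nat_lit 2) (nat_lit 5) (nat_lit 2) (nat_lit 4) (nat_lit 357) (nat_lit 222) (nat_lit 201)) (XT.lf (nat_lit 0) (nat_lit 853911506824) (nat_lit 76) (nat_lit 608683527604) (nat_lit 76) (nat_lit 608075050463) (nat_lit 1) (nat_lit 4) (nat_lit 2) (nat_lit 5) (nat_lit 2) (nat_lit 4) (nat_lit 358) (nat_lit 222) (nat_lit 200))) (XT.nd (nat_lit 78) (nat_lit 0) (nat_lit 0) (XT.lf (nat_lit 0) (nat_lit 923496925202) (nat_lit 76) (nat_lit 656696539970) (nat_lit 76) (nat_lit 656077903476) (nat_lit 1) (nat_lit 4) (nat_lit 2) (nat_lit 5) (nat_lit 2) (nat_lit 4) (nat_lit 359) (nat_lit 222) (nat_lit 199)) (XT.lf (nat_lit 0) (nat_lit 998624520089) (nat_lit 76) (nat_lit 708562646086) (nat_lit 76) (nat_lit 707934602783) (nat_lit 1) (nat_lit 4) (nat_lit 2) (nat_lit 5) (nat_lit 2) (nat_lit 4) (nat_lit 360) (nat_lit 222) (nat_lit 198)))) (XT.nd (nat_lit 156) (nat_lit 0) (nat_lit 0) (XT.nd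 (nat_lit 78) (nat_lit 0) (nat_lit 0) (XT.lf (nat_lit 0) (nat_lit 1079739492048) (nat_lit 76) (nat_lit 764589200655) (nat_lit 76) (nat_lit 763952447345) (nat_lit 1) (nat_lit 4) (nat_lit 2) (nat_lit 5) (nat_lit 2) (nat_lit 4) (nat_lit 361) (nat_lit 222) (nat_lit 197)) (XT.lf (nat_lit 0) (nat_lit 1167322522394) (nat_lit 76) (nat_lit 825108212889) (nat_lit 76) (nat_lit 824463394757) (nat_lit 1) (nat_lit 4) (nat_lit 2) (nat_lit 5) (nat_lit 2) (nat_lit 4) (nat_lit 362) (nat_lit 222) (nat_lit 196))) (XT.nd (nat_lit 78) (nat_lit 0) (nat_lit 0) (XT.lf (nat_lit 0) (nat_lit 1261892621678) (nat_lit 76) (nat_lit 890478313972) (nat_lit 76) (nat_lit 889826028412) (nat_lit 1) (nat_lit 4) (nat_lit 2) (nat_lit 5) (nat_lit 2) (nat_lit 4) (nat_lit 363) (nat_lit 222) (nat_lit 195)) (XT.lf (nat_lit 0) (nat_lit 1364010205302) (nat_lit 76) (nat_lit 961086882281) (nat_lit 76) (nat_lit 960427682436) (nat_lit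 1) (nat_lit 4) (nat_lit 2) (nat_lit 5) (nat_lit 2) (nat_lit 4) (nat_lit 364) (nat_lit 222) (nat_lit 194))))) (XT.nd (nat_lit 312) (nat_lit 0) (nat_lit 0) (XT.nd (nat_lit 156) (nat_lit 0) (nat_lit 0) (XT.nd (nat_lit 78) (nat_lit 0) (nat_lit 0) (XT.lf (nat_lit 0) (nat_lit 1474280414504) (nat_lit 76) (nat_lit 1037352338961) (nat_lit 76) (nat_lit 1036686737000) (nat_lit 1) (nat_lit 4) (nat_lit 2) (nat_lit 5) (nat_lit 2) (nat_lit 4) (nat_lit 365) (nat_lit 222) (nat_lit 193)) (XT.lf (nat_lit 0) (nat_lit 1593356702374) (nat_lit 76) (nat_lit 1119726627459) (nat_lit 76) (nat_lit 1119055097613) (nat_lit 1) (nat_lit 4) (nat_lit 2) (nat_lit 5) (nat_lit 2) (nat_lit 4) (nat_lit 366) (nat_lit 222) (nat_lit 192))) (XT.nd (nat_lit 78) (nat_lit 0) (nat_lit 0) (XT.lf (nat_lit 0) (nat_lit 1721944706174) (nat_lit 76) (nat_lit 1208697891707) (nat_lit 76) (nat_lit 1208020873079) (nat_lit 1) (nat_lit 4) (nat_lit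 2) (nat_lit 5) (nat_lit 2) (nat_lit 4) (nat_lit 367) (nat_lit 222) (nat_lit 191)) (XT.lf (nat_lit 0) (nat_lit 1860806428889) (nat_lit 76) (nat_lit 1304793368826) (nat_lit 76) (nat_lit 1304111267992) (nat_lit 1) (nat_lit 4) (nat_lit 2) (nat_lit 5) (nat_lit 2) (nat_lit 4) (nat_lit 368) (nat_lit 222) (nat_lit 190)))) (XT.nd (nat_lit 156) (nat_lit 0) (nat_lit 0) (XT.nd (nat_lit 78) (nat_lit 0) (nat_lit 0) (XT.lf (nat_lit 0) (nat_lit 2010764754803) (nat_lit 76) (nat_lit 1408582513497) (nat_lit 76) (nat_lit 1407895706916) (nat_lit 1) (nat_lit 4) (nat_lit 2) (nat_lit 5) (nat_lit 2) (nat_lit 4) (nat_lit 369) (nat_lit 222) (nat_lit 189)) (XT.lf (nat_lit 0) (nat_lit 2172708325846) (nat_lit 76) (nat_lit 1520680372501) (nat_lit 76) (nat_lit 1519989208748) (nat_lit 1) (nat_lit 4) (nat_lit 2) (nat_lit 5) (nat_lit 2) (nat_lit 4) (nat_lit 370) (nat_lit 222) (nat_lit 188))) (XT.nd (nat_lit 78) (nat_lit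 0) (nat_lit 0) (XT.lf (nat_lit 0) (nat_lit 2347596807625) (nat_lit 76) (nat_lit 1641751229448) (nat_lit 76) (nat_lit 1641056031276) (nat_lit 1) (nat_lit 4) (nat_lit 2) (nat_lit 5) (nat_lit 2) (nat_lit 4) (nat_lit 371) (nat_lit 222) (nat_lit 187)) (XT.lf (nat_lit 0) (nat_lit 2536466576328) (nat_lit 76) (nat_lit 1772512541268) (nat_lit 76) (nat_lit 1771813607523) (nat_lit 1) (nat_lit 4) (nat_lit 2) (nat_lit 5) (nat_lit 2) (nat_lit 4) (nat_lit 372) (nat_lit 222) (nat_lit 186))))))))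
noncomputable def xc6 : XT := (XT.nd (nat_lit 39936) (nat_lit 0) (nat_lit 0) (XT.nd (nat_lit 38688) (nat_lit 0) (nat_lit 0) (XT.nd (nat_lit 38064) (nat_lit 0) (nat_lit 0) (XT.nd (nat_lit 37752) (nat_lit 0) (nat_lit 0) (XT.nd (nat_lit 37596) (nat_lit 0) (nat_lit 0) (XT.lf (nat_lit 0) (nat_lit 2740436860213) (nat_lit 76) (nat_lit 1913739189808) (nat_lit 76) (nat_lit 1913036797200) (nat_lit 1) (nat_lit 4) (nat_lit 2) (nat_lit 5) (nat_lit 2) (nat_lit 4) (nat_lit 373) (nat_lit 222) (nat_lit 185)) (XT.nd (nat_lit 78) (nat_lit 0) (nat_lit 0) (XT.lf (nat_lit 0) (nat_lit 55742118088) (nat_lit 76) (nat_lit 54003016543) (nat_lit 76) (nat_lit 54003016543) (nat_lit 1) (nat_lit 4) (nat_lit 2) (nat_lit 5) (nat_lit 2) (nat_lit 4) (nat_lit 334) (nat_lit 223) (nat_lit 223)) (XT.lf (nat_lit 0) (nat_lit 123372202282) (nat_lit 76) (nat_lit 115130682375) (nat_lit 76) (nat_lit 115071032102) (nat_lit 1) (nat_lit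 4) (nat_lit 2) (nat_lit 5) (nat_lit 2) (nat_lit 4) (nat_lit 335) (nat_lit 223) (nat_lit 222)))) (XT.nd (nat_lit 156) (nat_lit 0) (nat_lit 0) (XT.nd (nat_lit 78) (nat_lit 0) (nat_lit 0) (XT.lf (nat_lit 0) (nat_lit 136066433229) (nat_lit 76) (nat_lit 122896070952) (nat_lit 76) (nat_lit 122781188946) (nat_lit 1) (nat_lit 4) (nat_lit 2) (nat_lit 5) (nat_lit 2) (nat_lit 4) (nat_lit 336) (nat_lit 223) (nat_lit 221)) (XT.lf (nat_lit 0) (nat_lit 149642154089) (nat_lit 76) (nat_lit 131348215937) (nat_lit 76) (nat_lit 131182193436) (nat_lit 1) (nat_lit 4) (nat_lit 2) (nat_lit 5) (nat_lit 2) (nat_lit 4) (nat_lit 337) (nat_lit 223) (nat_lit 220))) (XT.nd (nat_lit 78) (nat_lit 0) (nat_lit 0) (XT.lf (nat_lit 0) (nat_lit 164179813580) (nat_lit 76) (nat_lit 140537204114) (nat_lit 76) (nat_lit 140323829304) (nat_lit 1) (nat_lit 4) (nat_lit 2) (nat_lit 5) (nat_lit 2) (nat_lit 4) (nat_lit 338) (nat_lit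 223) (nat_lit 219)) (XT.lf (nat_lit 0) (nat_lit 179765560793) (nat_lit 76) (nat_lit 150517488747) (nat_lit 76) (nat_lit 150260269205) (nat_lit 1) (nat_lit 4) (nat_lit 2) (nat_lit 5) (nat_lit 2) (nat_lit 4) (nat_lit 339) (nat_lit 223) (nat_lit 218))))) (XT.nd (nat_lit 312) (nat_lit 0) (nat_lit 0) (XT.nd (nat_lit 156) (nat_lit 0) (nat_lit 0) (XT.nd (nat_lit 78) (nat_lit 0) (nat_lit 0) (XT.lf (nat_lit 0) (nat_lit 196491755713) (nat_lit 76) (nat_lit 161348212263) (nat_lit 76) (nat_lit 161050395748) (nat_lit 1) (nat_lit 4) (nat_lit 2) (nat_lit 5) (nat_lit 2) (nat_lit 4) (nat_lit 340) (nat_lit 223) (nat_lit 217)) (XT.lf (nat_lit 0) (nat_lit 214457516531) (nat_lit 76) (nat_lit 173093556727) (nat_lit 76) (nat_lit 172758150422) (nat_lit 1) (nat_lit 4) (nat_lit 2) (nat_lit 5) (nat_lit 2) (nat_lit 4) (nat_lit 341) (nat_lit 223) (nat_lit 216))) (XT.nd (nat_lit 78) (nat_lit 0) (nat_lit 0) (XT.lf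 (nat_lit 0) (nat_lit 233769307016) (nat_lit 76) (nat_lit 185823124181) (nat_lit 76) (nat_lit 185452912515) (nat_lit 1) (nat_lit 4) (nat_lit 2) (nat_lit 5) (nat_lit 2) (nat_lit 4) (nat_lit 342) (nat_lit 223) (nat_lit 215)) (XT.lf (nat_lit 0) (nat_lit 254541567407) (nat_lit 76) (nat_lit 199612349099) (nat_lit 76) (nat_lit 199209910246) (nat_lit 1) (nat_lit 4) (nat_lit 2) (nat_lit 5) (nat_lit 2) (nat_lit 4) (nat_lit 343) (nat_lit 223) (nat_lit 214)))) (XT.nd (nat_lit 156) (nat_lit 0) (nat_lit 0) (XT.nd (nat_lit 78) (nat_lit 0) (nat_lit 0) (XT.lf (nat_lit 0) (nat_lit 276897392581) (nat_lit 76) (nat_lit 214542945405) (nat_lit 76) (nat_lit 214110666566) (nat_lit 1) (nat_lit 4) (nat_lit 2) (nat_lit 5) (nat_lit 2) (nat_lit 4) (nat_lit 344) (nat_lit 223) (nat_lit 213)) (XT.lf (nat_lit 0) (nat_lit 300969261501) (nat_lit 76) (nat_lit 230703390709) (nat_lit 76) (nat_lit 230243482251) (nat_lit 1)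 (nat_lit 4) (nat_lit 2) (nat_lit 5) (nat_lit 2) (nat_lit 4) (nat_lit 345) (nat_lit 223) (nat_lit 212))) (XT.nd (nat_lit 78) (nat_lit 0) (nat_lit 0) (XT.lf (nat_lit 0) (nat_lit 326899822280) (nat_lit 76) (nat_lit 248189450610) (nat_lit 76) (nat_lit 247703959173) (nat_lit 1) (nat_lit 4) (nat_lit 2) (nat_lit 5) (nat_lit 2) (nat_lit 4) (nat_lit 346) (nat_lit 223) (nat_lit 211)) (XT.lf (nat_lit 0) (nat_lit 354842737501) (nat_lit 76) (nat_lit 267104746206) (nat_lit 76) (nat_lit 266595566825) (nat_lit 1) (nat_lit 4) (nat_lit 2) (nat_lit 5) (nat_lit 2) (nat_lit 4) (nat_lit 347) (nat_lit 223) (nat_lit 210)))))) (XT.nd (nat_lit 624) (nat_lit 0) (nat_lit 0) (XT.nd (nat_lit 312) (nat_lit 0) (nat_lit 0) (XT.nd (nat_lit 156) (nat_lit 0) (nat_lit 0) (XT.nd (nat_lit 78) (nat_lit 0) (nat_lit 0) (XT.lf (nat_lit 0) (nat_lit 384963594808) (nat_lit 76) (nat_lit 287561368137) (nat_lit 76) (nat_lit 287030255474)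 (nat_lit 1) (nat_lit 4) (nat_lit 2) (nat_lit 5) (nat_lit 2) (nat_lit 4) (nat_lit 348) (nat_lit 223) (nat_lit 209)) (XT.lf (nat_lit 0) (nat_lit 417440888171) (nat_lit 76) (nat_lit 309680540828) (nat_lit 76) (nat_lit 309129119571) (nat_lit 1) (nat_lit 4) (nat_lit 2) (nat_lit 5) (nat_lit 2) (nat_lit 4) (nat_lit 349) (nat_lit 223) (nat_lit 208))) (XT.nd (nat_lit 78) (nat_lit 0) (nat_lit 0) (XT.lf (nat_lit 0) (nat_lit 452467075626) (nat_lit 76) (nat_lit 333593340860) (nat_lit 76) (nat_lit 333023115349) (nat_lit 1) (nat_lit 4) (nat_lit 2) (nat_lit 5) (nat_lit 2) (nat_lit 4) (nat_lit 350) (nat_lit 223) (nat_lit 207)) (XT.lf (nat_lit 0) (nat_lit 490249719763) (nat_lit 76) (nat_lit 359441473713) (nat_lit 76) (nat_lit 358853836856) (nat_lit 1) (nat_lit 4) (nat_lit 2) (nat_lit 5) (nat_lit 2) (nat_lit 4) (nat_lit 351) (nat_lit 223) (nat_lit 206)))) (XT.nd (nat_lit 156) (nat_lit 0) (nat_lit 0) (XT.nd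 (nat_lit 78) (nat_lit 0) (nat_lit 0) (XT.lf (nat_lit 0) (nat_lit 531012717735) (nat_lit 76) (nat_lit 387378113508) (nat_lit 76) (nat_lit 386774355035) (nat_lit 1) (nat_lit 4) (nat_lit 2) (nat_lit 5) (nat_lit 2) (nat_lit 4) (nat_lit 352) (nat_lit 223) (nat_lit 205)) (XT.lf (nat_lit 0) (nat_lit 574997628046) (nat_lit 76) (nat_lit 417568810703) (nat_lit 76) (nat_lit 416950124808) (nat_lit 1) (nat_lit 4) (nat_lit 2) (nat_lit 5) (nat_lit 2) (nat_lit 4) (nat_lit 353) (nat_lit 223) (nat_lit 204))) (XT.nd (nat_lit 78) (nat_lit 0) (nat_lit 0) (XT.lf (nat_lit 0) (nat_lit 622465102018) (nat_lit 76) (nat_lit 450192473134) (nat_lit 76) (nat_lit 449559965551) (nat_lit 1) (nat_lit 4) (nat_lit 2) (nat_lit 5) (nat_lit 2) (nat_lit 4) (nat_lit 354) (nat_lit 223) (nat_lit 203)) (XT.lf (nat_lit 0) (nat_lit 673696428386) (nat_lit 76) (nat_lit 485442426208) (nat_lit 76) (nat_lit 484797120765) (nat_lit 1) (nat_lit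 4) (nat_lit 2) (nat_lit 5) (nat_lit 2) (nat_lit 4) (nat_lit 355) (nat_lit 223) (nat_lit 202))))) (XT.nd (nat_lit 312) (nat_lit 0) (nat_lit 0) (XT.nd (nat_lit 156) (nat_lit 0) (nat_lit 0) (XT.nd (nat_lit 78) (nat_lit 0) (nat_lit 0) (XT.lf (nat_lit 0) (nat_lit 728995200193) (nat_lit 76) (nat_lit 523527558534) (nat_lit 76) (nat_lit 522870403222) (nat_lit 1) (nat_lit 4) (nat_lit 2) (nat_lit 5) (nat_lit 2) (nat_lit 4) (nat_lit 356) (nat_lit 223) (nat_lit 201)) (XT.lf (nat_lit 0) (nat_lit 788689113867) (nat_lit 76) (nat_lit 564673559787) (nat_lit 76) (nat_lit 564005432374) (nat_lit 1) (nat_lit 4) (nat_lit 2) (nat_lit 5) (nat_lit 2) (nat_lit 4) (nat_lit 357) (nat_lit 223) (nat_lit 200))) (XT.nd (nat_lit 78) (nat_lit 0) (nat_lit 0) (XT.lf (nat_lit 0) (nat_lit 853131911117) (nat_lit 76) (nat_lit 609124258122) (nat_lit 76) (nat_lit 608445971356) (nat_lit 1) (nat_lit 4) (nat_lit 2) (nat_lit 5)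 (nat_lit 2) (nat_lit 4) (nat_lit 358) (nat_lit 223) (nat_lit 199)) (XT.lf (nat_lit 0) (nat_lit 922705475186) (nat_lit 76) (nat_lit 657143065085) (nat_lit 76) (nat_lit 656455371510) (nat_lit 1) (nat_lit 4) (nat_lit 2) (nat_lit 5) (nat_lit 2) (nat_lit 4) (nat_lit 359) (nat_lit 223) (nat_lit 198)))) (XT.nd (nat_lit 156) (nat_lit 0) (nat_lit 0) (XT.nd (nat_lit 78) (nat_lit 0) (nat_lit 0) (XT.lf (nat_lit 0) (nat_lit 997822093862) (nat_lit 76) (nat_lit 709014536568) (nat_lit 76) (nat_lit 708318132985) (nat_lit 1) (nat_lit 4) (nat_lit 2) (nat_lit 5) (nat_lit 2) (nat_lit 4) (nat_lit 360) (nat_lit 223) (nat_lit 197)) (XT.lf (nat_lit 0) (nat_lit 1078926902663) (nat_lit 76) (nat_lit 765046059070) (nat_lit 76) (nat_lit 764341590665) (nat_lit 1) (nat_lit 4) (nat_lit 2) (nat_lit 5) (nat_lit 2) (nat_lit 4) (nat_lit 361) (nat_lit 223) (nat_lit 196))) (XT.nd (nat_lit 78) (nat_lit 0) (nat_lit 0) (XT.lf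 (nat_lit 0) (nat_lit 1166500522678) (nat_lit 76) (nat_lit 825569671241) (nat_lit 76) (nat_lit 824857735408) (nat_lit 1) (nat_lit 4) (nat_lit 2) (nat_lit 5) (nat_lit 2) (nat_lit 4) (nat_lit 362) (nat_lit 223) (nat_lit 195)) (XT.lf (nat_lit 0) (nat_lit 1261061908691) (nat_lit 76) (nat_lit 890944031526) (nat_lit 76) (nat_lit 890225181408) (nat_lit 1) (nat_lit 4) (nat_lit 2) (nat_lit 5) (nat_lit 2) (nat_lit 4) (nat_lit 363) (nat_lit 223) (nat_lit 194))))))) (XT.nd (nat_lit 38610) (nat_lit 0) (nat_lit 0) (XT.nd (nat_lit 624) (nat_lit 0) (nat_lit 0) (XT.nd (nat_lit 312) (nat_lit 0) (nat_lit 0) (XT.nd (nat_lit 156) (nat_lit 0) (nat_lit 0) (XT.nd (nat_lit 78) (nat_lit 0) (nat_lit 0) (XT.lf (nat_lit 0) (nat_lit 1363171424473) (nat_lit 76) (nat_lit 961556543540) (nat_lit 76) (nat_lit 960831291306) (nat_lit 1) (nat_lit 4) (nat_lit 2) (nat_lit 5) (nat_lit 2) (nat_lit 4) (nat_lit 364) (nat_lit 223)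 (nat_lit 193)) (XT.lf (nat_lit 0) (nat_lit 1473434163450) (nat_lit 76) (nat_lit 1037825651798) (nat_lit 76) (nat_lit 1037094471680) (nat_lit 1) (nat_lit 4) (nat_lit 2) (nat_lit 5) (nat_lit 2) (nat_lit 4) (nat_lit 365) (nat_lit 223) (nat_lit 192))) (XT.nd (nat_lit 78) (nat_lit 0) (nat_lit 0) (XT.lf (nat_lit 0) (nat_lit 1592503534445) (nat_lit 76) (nat_lit 1120203321388) (nat_lit 76) (nat_lit 1119466652487) (nat_lit 1) (nat_lit 4) (nat_lit 2) (nat_lit 5) (nat_lit 2) (nat_lit 4) (nat_lit 366) (nat_lit 223) (nat_lit 191)) (XT.lf (nat_lit 0) (nat_lit 1721085133731) (nat_lit 76) (nat_lit 1209177716276) (nat_lit 76) (nat_lit 1208435965169) (nat_lit 1) (nat_lit 4) (nat_lit 2) (nat_lit 5) (nat_lit 2) (nat_lit 4) (nat_lit 367) (nat_lit 223) (nat_lit 190)))) (XT.nd (nat_lit 156) (nat_lit 0) (nat_lit 0) (XT.nd (nat_lit 78) (nat_lit 0) (nat_lit 0) (XT.lf (nat_lit 0) (nat_lit 1859940926341) (nat_lit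 76) (nat_lit 1305276092137) (nat_lit 76) (nat_lit 1304529635283) (nat_lit 1) (nat_lit 4) (nat_lit 2) (nat_lit 5) (nat_lit 2) (nat_lit 4) (nat_lit 368) (nat_lit 223) (nat_lit 189)) (XT.lf (nat_lit 0) (nat_lit 2009893761416) (nat_lit 76) (nat_lit 1409067920826) (nat_lit 76) (nat_lit 1408317106801) (nat_lit 1) (nat_lit 4) (nat_lit 2) (nat_lit 5) (nat_lit 2) (nat_lit 4) (nat_lit 369) (nat_lit 223) (nat_lit 188))) (XT.nd (nat_lit 78) (nat_lit 0) (nat_lit 0) (XT.lf (nat_lit 0) (nat_lit 2171832248350) (nat_lit 76) (nat_lit 1521168265033) (nat_lit 76) (nat_lit 1520413416589) (nat_lit 1) (nat_lit 4) (nat_lit 2) (nat_lit 5) (nat_lit 2) (nat_lit 4) (nat_lit 370) (nat_lit 223) (nat_lit 187)) (XT.lf (nat_lit 0) (nat_lit 2346716022620) (nat_lit 76) (nat_lit 1642241423094) (nat_lit 76) (nat_lit 1641482839077) (nat_lit 1) (nat_lit 4) (nat_lit 2) (nat_lit 5) (nat_lit 2) (nat_lit 4) (nat_lit 371) (nat_lit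 223) (nat_lit 186))))) (XT.nd (nat_lit 37674) (nat_lit 0) (nat_lit 0) (XT.nd (nat_lit 37518) (nat_lit 0) (nat_lit 0) (XT.nd (nat_lit 78) (nat_lit 0) (nat_lit 0) (XT.lf (nat_lit 0) (nat_lit 2535581432518) (nat_lit 76) (nat_lit 1773004865576) (nat_lit 76) (nat_lit 1772242822694) (nat_lit 1) (nat_lit 4) (nat_lit 2) (nat_lit 5) (nat_lit 2) (nat_lit 4) (nat_lit 372) (nat_lit 223) (nat_lit 185)) (XT.lf (nat_lit 0) (nat_lit 2739547680474) (nat_lit 76) (nat_lit 1914233486951) (nat_lit 76) (nat_lit 1913468241417) (nat_lit 1) (nat_lit 4) (nat_lit 2) (nat_lit 5) (nat_lit 2) (nat_lit 4) (nat_lit 373) (nat_lit 223) (nat_lit 184))) (XT.nd (nat_lit 78) (nat_lit 0) (nat_lit 0) (XT.lf (nat_lit 0) (nat_lit 44965426998) (nat_lit 76) (nat_lit 47769178365) (nat_lit 76) (nat_lit 47769178365) (nat_lit 1) (nat_lit 4) (nat_lit 2) (nat_lit 5) (nat_lit 2) (nat_lit 4) (nat_lit 332) (nat_lit 224) (nat_lit 224))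 (XT.lf (nat_lit 0) (nat_lit 100332087704) (nat_lit 76) (nat_lit 101544325240) (nat_lit 76) (nat_lit 101479902946) (nat_lit 1) (nat_lit 4) (nat_lit 2) (nat_lit 5) (nat_lit 2) (nat_lit 4) (nat_lit 333) (nat_lit 224) (nat_lit 223)))) (XT.nd (nat_lit 156) (nat_lit 0) (nat_lit 0) (XT.nd (nat_lit 78) (nat_lit 0) (nat_lit 0) (XT.lf (nat_lit 0) (nat_lit 111409065867) (nat_lit 76) (nat_lit 108107199966) (nat_lit 76) (nat_lit 107983127399) (nat_lit 1) (nat_lit 4) (nat_lit 2) (nat_lit 5) (nat_lit 2) (nat_lit 4) (nat_lit 334) (nat_lit 224) (nat_lit 222)) (XT.lf (nat_lit 0) (nat_lit 123227429834) (nat_lit 76) (nat_lit 115265872016) (nat_lit 76) (nat_lit 115086567715) (nat_lit 1) (nat_lit 4) (nat_lit 2) (nat_lit 5) (nat_lit 2) (nat_lit 4) (nat_lit 335) (nat_lit 224) (nat_lit 221))) (XT.nd (nat_lit 78) (nat_lit 0) (nat_lit 0) (XT.lf (nat_lit 0) (nat_lit 135857214357) (nat_lit 76) (nat_lit 123062763152)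 (nat_lit 76) (nat_lit 122832318356) (nat_lit 1) (nat_lit 4) (nat_lit 2) (nat_lit 5) (nat_lit 2) (nat_lit 4) (nat_lit 336) (nat_lit 224) (nat_lit 220)) (XT.lf (nat_lit 0) (nat_lit 149373262603) (nat_lit 76) (nat_lit 131544077172) (nat_lit 76) (nat_lit 131266280067) (nat_lit 1) (nat_lit 4) (nat_lit 2) (nat_lit 5) (nat_lit 2) (nat_lit 4) (nat_lit 337) (nat_lit 224) (nat_lit 219)))))) (XT.nd (nat_lit 624) (nat_lit 0) (nat_lit 0) (XT.nd (nat_lit 312) (nat_lit 0) (nat_lit 0) (XT.nd (nat_lit 156) (nat_lit 0) (nat_lit 0) (XT.nd (nat_lit 78) (nat_lit 0) (nat_lit 0) (XT.lf (nat_lit 0) (nat_lit 163855669672) (nat_lit 76) (nat_lit 140760073715) (nat_lit 76) (nat_lit 140438431879) (nat_lit 1) (nat_lit 4) (nat_lit 2) (nat_lit 5) (nat_lit 2) (nat_lit 4) (nat_lit 338) (nat_lit 224) (nat_lit 218)) (XT.lf (nat_lit 0) (nat_lit 179390257236) (nat_lit 76) (nat_lit 150765366094) (nat_lit 76) (nat_lit 150403127285)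 (nat_lit 1) (nat_lit 4) (nat_lit 2) (nat_lit 5) (nat_lit 2) (nat_lit 4) (nat_lit 339) (nat_lit 224) (nat_lit 217))) (XT.nd (nat_lit 78) (nat_lit 0) (nat_lit 0) (XT.lf (nat_lit 0) (nat_lit 196069082110) (nat_lit 76) (nat_lit 161619244931) (nat_lit 76) (nat_lit 161219416332) (nat_lit 1) (nat_lit 4) (nat_lit 2) (nat_lit 5) (nat_lit 2) (nat_lit 4) (nat_lit 340) (nat_lit 224) (nat_lit 216)) (XT.lf (nat_lit 0) (nat_lit 213990981775) (nat_lit 76) (nat_lit 173386029507) (nat_lit 76) (nat_lit 172951395547) (nat_lit 1) (nat_lit 4) (nat_lit 2) (nat_lit 5) (nat_lit 2) (nat_lit 4) (nat_lit 341) (nat_lit 224) (nat_lit 215)))) (XT.nd (nat_lit 156) (nat_lit 0) (nat_lit 0) (XT.nd (nat_lit 78) (nat_lit 0) (nat_lit 0) (XT.lf (nat_lit 0) (nat_lit 233262160081) (nat_lit 76) (nat_lit 186135448917) (nat_lit 76) (nat_lit 185668587770) (nat_lit 1) (nat_lit 4) (nat_lit 2) (nat_lit 5) (nat_lit 2) (nat_lit 4) (nat_lit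 342) (nat_lit 224) (nat_lit 214)) (XT.lf (nat_lit 0) (nat_lit 253996816602) (nat_lit 76) (nat_lit 199943055274) (nat_lit 76) (nat_lit 199446354140) (nat_lit 1) (nat_lit 4) (nat_lit 2) (nat_lit 5) (nat_lit 2) (nat_lit 4) (nat_lit 343) (nat_lit 224) (nat_lit 213))) (XT.nd (nat_lit 78) (nat_lit 0) (nat_lit 0) (XT.lf (nat_lit 0) (nat_lit 276317823378) (nat_lit 76) (nat_lit 214890671433) (nat_lit 76) (nat_lit 214366340681) (nat_lit 1) (nat_lit 4) (nat_lit 2) (nat_lit 5) (nat_lit 2) (nat_lit 4) (nat_lit 344) (nat_lit 224) (nat_lit 212)) (XT.lf (nat_lit 0) (nat_lit 300357453041) (nat_lit 76) (nat_lit 231066875858) (nat_lit 76) (nat_lit 230516962127) (nat_lit 1) (nat_lit 4) (nat_lit 2) (nat_lit 5) (nat_lit 2) (nat_lit 4) (nat_lit 345) (nat_lit 224) (nat_lit 211))))) (XT.nd (nat_lit 312) (nat_lit 0) (nat_lit 0) (XT.nd (nat_lit 156) (nat_lit 0) (nat_lit 0) (XT.nd (nat_lit 78) (nat_lit 0) (nat_lit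 0) (XT.lf (nat_lit 0) (nat_lit 326258162657) (nat_lit 76) (nat_lit 248567527540) (nat_lit 76) (nat_lit 247993925864) (nat_lit 1) (nat_lit 4) (nat_lit 2) (nat_lit 5) (nat_lit 2) (nat_lit 4) (nat_lit 346) (nat_lit 224) (nat_lit 210)) (XT.lf (nat_lit 0) (nat_lit 354173437910) (nat_lit 76) (nat_lit 267496334043) (nat_lit 76) (nat_lit 266900799086) (nat_lit 1) (nat_lit 4) (nat_lit 2) (nat_lit 5) (nat_lit 2) (nat_lit 4) (nat_lit 347) (nat_lit 224) (nat_lit 209))) (XT.nd (nat_lit 78) (nat_lit 0) (nat_lit 0) (XT.lf (nat_lit 0) (nat_lit 384268702656) (nat_lit 76) (nat_lit 287965466073) (nat_lit 76) (nat_lit 287349622522) (nat_lit 1) (nat_lit 4) (nat_lit 2) (nat_lit 5) (nat_lit 2) (nat_lit 4) (nat_lit 348) (nat_lit 224) (nat_lit 208)) (XT.lf (nat_lit 0) (nat_lit 416722299203) (nat_lit 76) (nat_lit 310096222189) (nat_lit 76) (nat_lit 309461574385) (nat_lit 1) (nat_lit 4) (nat_lit 2) (nat_lit 5)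 (nat_lit 2) (nat_lit 4) (nat_lit 349) (nat_lit 224) (nat_lit 207)))) (XT.nd (nat_lit 156) (nat_lit 0) (nat_lit 0) (XT.nd (nat_lit 78) (nat_lit 0) (nat_lit 0) (XT.lf (nat_lit 0) (nat_lit 451726545161) (nat_lit 76) (nat_lit 334019747615) (nat_lit 76) (nat_lit 333367688464) (nat_lit 1) (nat_lit 4) (nat_lit 2) (nat_lit 5) (nat_lit 2) (nat_lit 4) (nat_lit 350) (nat_lit 224) (nat_lit 206)) (XT.lf (nat_lit 0) (nat_lit 489488873098) (nat_lit 76) (nat_lit 359877811388) (nat_lit 76) (nat_lit 359209630621) (nat_lit 1) (nat_lit 4) (nat_lit 2) (nat_lit 5) (nat_lit 2) (nat_lit 4) (nat_lit 351) (nat_lit 224) (nat_lit 205))) (XT.nd (nat_lit 78) (nat_lit 0) (nat_lit 0) (XT.lf (nat_lit 0) (nat_lit 530233059772) (nat_lit 76) (nat_lit 387823646480) (nat_lit 76) (nat_lit 387140538289) (nat_lit 1) (nat_lit 4) (nat_lit 2) (nat_lit 5) (nat_lit 2) (nat_lit 4) (nat_lit 352) (nat_lit 224) (nat_lit 204)) (XT.lf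 (nat_lit 0) (nat_lit 574200552216) (nat_lit 76) (nat_lit 418022857838) (nat_lit 76) (nat_lit 417325927960) (nat_lit 1) (nat_lit 4) (nat_lit 2) (nat_lit 5) (nat_lit 2) (nat_lit 4) (nat_lit 353) (nat_lit 224) (nat_lit 203))))))))
noncomputable def xc7 : XT := (XT.nd (nat_lit 39702) (nat_lit 0) (nat_lit 0) (XT.nd (nat_lit 1248) (nat_lit 0) (nat_lit 0) (XT.nd (nat_lit 624) (nat_lit 0) (nat_lit 0) (XT.nd (nat_lit 312) (nat_lit 0) (nat_lit 0) (XT.nd (nat_lit 156) (nat_lit 0) (nat_lit 0) (XT.nd (nat_lit 78) (nat_lit 0) (nat_lit 0) (XT.lf (nat_lit 0) (nat_lit 621651898533) (nat_lit 76) (nat_lit 450654403754) (nat_lit 76) (nat_lit 449944676017) (nat_lit 1) (nat_lit 4) (nat_lit 2) (nat_lit 5) (nat_lit 2) (nat_lit 4) (nat_lit 354) (nat_lit 224) (nat_lit 202)) (XT.lf (nat_lit 0) (nat_lit 672868291887) (nat_lit 76) (nat_lit 485911656350) (nat_lit 76) (nat_lit 485190078744) (nat_lit 1) (nat_lit 4)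 (nat_lit 2) (nat_lit 5) (nat_lit 2) (nat_lit 4) (nat_lit 355) (nat_lit 224) (nat_lit 201))) (XT.nd (nat_lit 78) (nat_lit 0) (nat_lit 0) (XT.lf (nat_lit 0) (nat_lit 728153236829) (nat_lit 76) (nat_lit 524003547494) (nat_lit 76) (nat_lit 523270997786) (nat_lit 1) (nat_lit 4) (nat_lit 2) (nat_lit 5) (nat_lit 2) (nat_lit 4) (nat_lit 356) (nat_lit 224) (nat_lit 200)) (XT.lf (nat_lit 0) (nat_lit 787834347850) (nat_lit 76) (nat_lit 565155806912) (nat_lit 76) (nat_lit 564413097850) (nat_lit 1) (nat_lit 4) (nat_lit 2) (nat_lit 5) (nat_lit 2) (nat_lit 4) (nat_lit 357) (nat_lit 224) (nat_lit 199)))) (XT.nd (nat_lit 156) (nat_lit 0) (nat_lit 0) (XT.nd (nat_lit 78) (nat_lit 0) (nat_lit 0) (XT.lf (nat_lit 0) (nat_lit 852265290792) (nat_lit 76) (nat_lit 609612299843) (nat_lit 76) (nat_lit 608860183973) (nat_lit 1) (nat_lit 4) (nat_lit 2) (nat_lit 5) (nat_lit 2) (nat_lit 4) (nat_lit 358) (nat_lit 224)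 (nat_lit 198)) (XT.lf (nat_lit 0) (nat_lit 921827878651) (nat_lit 76) (nat_lit 657636472173) (nat_lit 76) (nat_lit 656875646295) (nat_lit 1) (nat_lit 4) (nat_lit 2) (nat_lit 5) (nat_lit 2) (nat_lit 4) (nat_lit 359) (nat_lit 224) (nat_lit 197))) (XT.nd (nat_lit 78) (nat_lit 0) (nat_lit 0) (XT.lf (nat_lit 0) (nat_lit 996934334168) (nat_lit 76) (nat_lit 709512911588) (nat_lit 76) (nat_lit 708744020889) (nat_lit 1) (nat_lit 4) (nat_lit 2) (nat_lit 5) (nat_lit 2) (nat_lit 4) (nat_lit 360) (nat_lit 224) (nat_lit 196)) (XT.lf (nat_lit 0) (nat_lit 1078029732637) (nat_lit 76) (nat_lit 765549034028) (nat_lit 76) (nat_lit 764772675900) (nat_lit 1) (nat_lit 4) (nat_lit 2) (nat_lit 5) (nat_lit 2) (nat_lit 4) (nat_lit 361) (nat_lit 224) (nat_lit 195))))) (XT.nd (nat_lit 312) (nat_lit 0) (nat_lit 0) (XT.nd (nat_lit 156) (nat_lit 0) (nat_lit 0) (XT.nd (nat_lit 78) (nat_lit 0) (nat_lit 0) (XT.lf (nat_lit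 0) (nat_lit 1165594639382) (nat_lit 76) (nat_lit 826076905401) (nat_lit 76) (nat_lit 825293632988) (nat_lit 1) (nat_lit 4) (nat_lit 2) (nat_lit 5) (nat_lit 2) (nat_lit 4) (nat_lit 362) (nat_lit 224) (nat_lit 194)) (XT.lf (nat_lit 0) (nat_lit 1260147957552) (nat_lit 76) (nat_lit 891455209390) (nat_lit 76) (nat_lit 890665534862) (nat_lit 1) (nat_lit 4) (nat_lit 2) (nat_lit 5) (nat_lit 2) (nat_lit 4) (nat_lit 363) (nat_lit 224) (nat_lit 193))) (XT.nd (nat_lit 78) (nat_lit 0) (nat_lit 0) (XT.lf (nat_lit 0) (nat_lit 1362250003109) (nat_lit 76) (nat_lit 962071372983) (nat_lit 76) (nat_lit 961275770570) (nat_lit 1) (nat_lit 4) (nat_lit 2) (nat_lit 5) (nat_lit 2) (nat_lit 4) (nat_lit 364) (nat_lit 224) (nat_lit 192)) (XT.lf (nat_lit 0) (nat_lit 1472505825211) (nat_lit 76) (nat_lit 1038343862333) (nat_lit 76) (nat_lit 1037542771137) (nat_lit 1) (nat_lit 4) (nat_lit 2) (nat_lit 5) (nat_lit 2)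 (nat_lit 4) (nat_lit 365) (nat_lit 224) (nat_lit 191)))) (XT.nd (nat_lit 156) (nat_lit 0) (nat_lit 0) (XT.nd (nat_lit 78) (nat_lit 0) (nat_lit 0) (XT.lf (nat_lit 0) (nat_lit 1591568791693) (nat_lit 76) (nat_lit 1120724662563) (nat_lit 76) (nat_lit 1119918489161) (nat_lit 1) (nat_lit 4) (nat_lit 2) (nat_lit 5) (nat_lit 2) (nat_lit 4) (nat_lit 366) (nat_lit 224) (nat_lit 190)) (XT.lf (nat_lit 0) (nat_lit 1720144460874) (nat_lit 76) (nat_lit 1209701956192) (nat_lit 76) (nat_lit 1208891077044) (nat_lit 1) (nat_lit 4) (nat_lit 2) (nat_lit 5) (nat_lit 2) (nat_lit 4) (nat_lit 367) (nat_lit 224) (nat_lit 189))) (XT.nd (nat_lit 78) (nat_lit 0) (nat_lit 0) (XT.lf (nat_lit 0) (nat_lit 1858994762645) (nat_lit 76) (nat_lit 1305803016072) (nat_lit 76) (nat_lit 1304987779752) (nat_lit 1) (nat_lit 4) (nat_lit 2) (nat_lit 5) (nat_lit 2) (nat_lit 4) (nat_lit 368) (nat_lit 224) (nat_lit 188)) (XT.lf (nat_lit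 0) (nat_lit 2008942513611) (nat_lit 76) (nat_lit 1409597329964) (nat_lit 76) (nat_lit 1408778059225) (nat_lit 1) (nat_lit 4) (nat_lit 2) (nat_lit 5) (nat_lit 2) (nat_lit 4) (nat_lit 369) (nat_lit 224) (nat_lit 187)))))) (XT.nd (nat_lit 37830) (nat_lit 0) (nat_lit 0) (XT.nd (nat_lit 37518) (nat_lit 0) (nat_lit 0) (XT.nd (nat_lit 156) (nat_lit 0) (nat_lit 0) (XT.nd (nat_lit 78) (nat_lit 0) (nat_lit 0) (XT.lf (nat_lit 0) (nat_lit 2170876293036) (nat_lit 76) (nat_lit 1521699975286) (nat_lit 76) (nat_lit 1520876968974) (nat_lit 1) (nat_lit 4) (nat_lit 2) (nat_lit 5) (nat_lit 2) (nat_lit 4) (nat_lit 370) (nat_lit 224) (nat_lit 186)) (XT.lf (nat_lit 0) (nat_lit 2345755708502) (nat_lit 76) (nat_lit 1642775264008) (nat_lit 76) (nat_lit 1641948798832) (nat_lit 1) (nat_lit 4) (nat_lit 2) (nat_lit 5) (nat_lit 2) (nat_lit 4) (nat_lit 371) (nat_lit 224) (nat_lit 185))) (XT.nd (nat_lit 78) (nat_lit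 0) (nat_lit 0) (XT.lf (nat_lit 0) (nat_lit 2534617082470) (nat_lit 76) (nat_lit 1773540679323) (nat_lit 76) (nat_lit 1772711011495) (nat_lit 1) (nat_lit 4) (nat_lit 2) (nat_lit 5) (nat_lit 2) (nat_lit 4) (nat_lit 372) (nat_lit 224) (nat_lit 184)) (XT.lf (nat_lit 0) (nat_lit 2738579593454) (nat_lit 76) (nat_lit 1914771127397) (nat_lit 76) (nat_lit 1913938494151) (nat_lit 1) (nat_lit 4) (nat_lit 2) (nat_lit 5) (nat_lit 2) (nat_lit 4) (nat_lit 373) (nat_lit 224) (nat_lit 183)))) (XT.nd (nat_lit 156) (nat_lit 0) (nat_lit 0) (XT.nd (nat_lit 78) (nat_lit 0) (nat_lit 0) (XT.lf (nat_lit 0) (nat_lit 35500194991) (nat_lit 76) (nat_lit 42542290564) (nat_lit 76) (nat_lit 42542290564) (nat_lit 1) (nat_lit 4) (nat_lit 2) (nat_lit 5) (nat_lit 2) (nat_lit 4) (nat_lit 330) (nat_lit 225) (nat_lit 225)) (XT.lf (nat_lit 0) (nat_lit 80143727801) (nat_lit 76) (nat_lit 90123279588) (nat_lit 76) (nat_lit 90053703510)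 (nat_lit 1) (nat_lit 4) (nat_lit 2) (nat_lit 5) (nat_lit 2) (nat_lit 4) (nat_lit 331) (nat_lit 225) (nat_lit 224))) (XT.nd (nat_lit 78) (nat_lit 0) (nat_lit 0) (XT.lf (nat_lit 0) (nat_lit 89849670062) (nat_lit 76) (nat_lit 95647616958) (nat_lit 76) (nat_lit 95513618586) (nat_lit 1) (nat_lit 4) (nat_lit 2) (nat_lit 5) (nat_lit 2) (nat_lit 4) (nat_lit 332) (nat_lit 225) (nat_lit 223)) (XT.lf (nat_lit 0) (nat_lit 100175733461) (nat_lit 76) (nat_lit 101690330053) (nat_lit 76) (nat_lit 101496681407) (nat_lit 1) (nat_lit 4) (nat_lit 2) (nat_lit 5) (nat_lit 2) (nat_lit 4) (nat_lit 333) (nat_lit 225) (nat_lit 222))))) (XT.nd (nat_lit 312) (nat_lit 0) (nat_lit 0) (XT.nd (nat_lit 156) (nat_lit 0) (nat_lit 0) (XT.nd (nat_lit 78) (nat_lit 0) (nat_lit 0) (XT.lf (nat_lit 0) (nat_lit 111183109485) (nat_lit 76) (nat_lit 108287227541) (nat_lit 76) (nat_lit 108038347162) (nat_lit 1) (nat_lit 4) (nat_lit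 2) (nat_lit 5) (nat_lit 2) (nat_lit 4) (nat_lit 334) (nat_lit 225) (nat_lit 221)) (XT.lf (nat_lit 0) (nat_lit 122937027029) (nat_lit 76) (nat_lit 115477402150) (nat_lit 76) (nat_lit 115177381276) (nat_lit 1) (nat_lit 4) (nat_lit 2) (nat_lit 5) (nat_lit 2) (nat_lit 4) (nat_lit 335) (nat_lit 225) (nat_lit 220))) (XT.nd (nat_lit 78) (nat_lit 0) (nat_lit 0) (XT.lf (nat_lit 0) (nat_lit 135507138937) (nat_lit 76) (nat_lit 123303462321) (nat_lit 76) (nat_lit 122956089138) (nat_lit 1) (nat_lit 4) (nat_lit 2) (nat_lit 5) (nat_lit 2) (nat_lit 4) (nat_lit 336) (nat_lit 225) (nat_lit 219)) (XT.lf (nat_lit 0) (nat_lit 148967934761) (nat_lit 76) (nat_lit 131811784707) (nat_lit 76) (nat_lit 131420566793) (nat_lit 1) (nat_lit 4) (nat_lit 2) (nat_lit 5) (nat_lit 2) (nat_lit 4) (nat_lit 337) (nat_lit 225) (nat_lit 218)))) (XT.nd (nat_lit 156) (nat_lit 0) (nat_lit 0) (XT.nd (nat_lit 78) (nat_lit 0) (nat_lit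 0) (XT.lf (nat_lit 0) (nat_lit 163399182181) (nat_lit 76) (nat_lit 141052788997) (nat_lit 76) (nat_lit 140620974109) (nat_lit 1) (nat_lit 4) (nat_lit 2) (nat_lit 5) (nat_lit 2) (nat_lit 4) (nat_lit 338) (nat_lit 225) (nat_lit 217)) (XT.lf (nat_lit 0) (nat_lit 178886399699) (nat_lit 76) (nat_lit 151081236697) (nat_lit 76) (nat_lit 150611832019) (nat_lit 1) (nat_lit 4) (nat_lit 2) (nat_lit 5) (nat_lit 2) (nat_lit 4) (nat_lit 339) (nat_lit 225) (nat_lit 216))) (XT.nd (nat_lit 78) (nat_lit 0) (nat_lit 0) (XT.lf (nat_lit 0) (nat_lit 195521363420) (nat_lit 76) (nat_lit 161956555645) (nat_lit 76) (nat_lit 161452345606) (nat_lit 1) (nat_lit 4) (nat_lit 2) (nat_lit 5) (nat_lit 2) (nat_lit 4) (nat_lit 340) (nat_lit 225) (nat_lit 215)) (XT.lf (nat_lit 0) (nat_lit 213402650906) (nat_lit 76) (nat_lit 173743192177) (nat_lit 76) (nat_lit 173206754952) (nat_lit 1) (nat_lit 4) (nat_lit 2) (nat_lit 5)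 (nat_lit 2) (nat_lit 4) (nat_lit 341) (nat_lit 225) (nat_lit 214))))))) (XT.nd (nat_lit 1248) (nat_lit 0) (nat_lit 0) (XT.nd (nat_lit 624) (nat_lit 0) (nat_lit 0) (XT.nd (nat_lit 312) (nat_lit 0) (nat_lit 0) (XT.nd (nat_lit 156) (nat_lit 0) (nat_lit 0) (XT.nd (nat_lit 78) (nat_lit 0) (nat_lit 0) (XT.lf (nat_lit 0) (nat_lit 232636225342) (nat_lit 76) (nat_lit 186510993026) (nat_lit 76) (nat_lit 185944715814) (nat_lit 1) (nat_lit 4) (nat_lit 2) (nat_lit 5) (nat_lit 2) (nat_lit 4) (nat_lit 342) (nat_lit 225) (nat_lit 213)) (XT.lf (nat_lit 0) (nat_lit 253336063466) (nat_lit 76) (nat_lit 200335619236) (nat_lit 76) (nat_lit 199741712406) (nat_lit 1) (nat_lit 4) (nat_lit 2) (nat_lit 5) (nat_lit 2) (nat_lit 4) (nat_lit 343) (nat_lit 225) (nat_lit 212))) (XT.nd (nat_lit 78) (nat_lit 0) (nat_lit 0) (XT.lf (nat_lit 0) (nat_lit 275624830985) (nat_lit 76) (nat_lit 215298994517) (nat_lit 76) (nat_lit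 214679504707) (nat_lit 1) (nat_lit 4) (nat_lit 2) (nat_lit 5) (nat_lit 2) (nat_lit 4) (nat_lit 344) (nat_lit 225) (nat_lit 211)) (XT.lf (nat_lit 0) (nat_lit 299634609484) (nat_lit 76) (nat_lit 231489790722) (nat_lit 76) (nat_lit 230846612968) (nat_lit 1) (nat_lit 4) (nat_lit 2) (nat_lit 5) (nat_lit 2) (nat_lit 4) (nat_lit 345) (nat_lit 225) (nat_lit 210)))) (XT.nd (nat_lit 156) (nat_lit 0) (nat_lit 0) (XT.nd (nat_lit 78) (nat_lit 0) (nat_lit 0) (XT.lf (nat_lit 0) (nat_lit 325507679133) (nat_lit 76) (nat_lit 249003953311) (nat_lit 76) (nat_lit 248338842276) (nat_lit 1) (nat_lit 4) (nat_lit 2) (nat_lit 5) (nat_lit 2) (nat_lit 4) (nat_lit 346) (nat_lit 225) (nat_lit 209)) (XT.lf (nat_lit 0) (nat_lit 353397361825) (nat_lit 76) (nat_lit 267945269913) (nat_lit 76) (nat_lit 267259850284) (nat_lit 1) (nat_lit 4) (nat_lit 2) (nat_lit 5) (nat_lit 2) (nat_lit 4) (nat_lit 347) (nat_lit 225) (nat_lit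 208))) (XT.nd (nat_lit 78) (nat_lit 0) (nat_lit 0) (XT.lf (nat_lit 0) (nat_lit 383468929754) (nat_lit 76) (nat_lit 288425985368) (nat_lit 76) (nat_lit 287721761485) (nat_lit 1) (nat_lit 4) (nat_lit 2) (nat_lit 5) (nat_lit 2) (nat_lit 4) (nat_lit 348) (nat_lit 225) (nat_lit 207)) (XT.lf (nat_lit 0) (nat_lit 415900584804) (nat_lit 76) (nat_lit 310567466879) (nat_lit 76) (nat_lit 309845831650) (nat_lit 1) (nat_lit 4) (nat_lit 2) (nat_lit 5) (nat_lit 2) (nat_lit 4) (nat_lit 349) (nat_lit 225) (nat_lit 206))))) (XT.nd (nat_lit 312) (nat_lit 0) (nat_lit 0) (XT.nd (nat_lit 156) (nat_lit 0) (nat_lit 0) (XT.nd (nat_lit 78) (nat_lit 0) (nat_lit 0) (XT.lf (nat_lit 0) (nat_lit 450884514561) (nat_lit 76) (nat_lit 334500923224) (nat_lit 76) (nat_lit 333763166379) (nat_lit 1) (nat_lit 4) (nat_lit 2) (nat_lit 5) (nat_lit 2) (nat_lit 4) (nat_lit 350) (nat_lit 225) (nat_lit 205)) (XT.lf (nat_lit 0) (nat_lit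 488628031201) (nat_lit 76) (nat_lit 360368182294) (nat_lit 76) (nat_lit 359615498026) (nat_lit 1) (nat_lit 4) (nat_lit 2) (nat_lit 5) (nat_lit 2) (nat_lit 4) (nat_lit 351) (nat_lit 225) (nat_lit 204))) (XT.nd (nat_lit 78) (nat_lit 0) (nat_lit 0) (XT.lf (nat_lit 0) (nat_lit 529354800008) (nat_lit 76) (nat_lit 388322531549) (nat_lit 76) (nat_lit 387556025593) (nat_lit 1) (nat_lit 4) (nat_lit 2) (nat_lit 5) (nat_lit 2) (nat_lit 4) (nat_lit 352) (nat_lit 225) (nat_lit 203)) (XT.lf (nat_lit 0) (nat_lit 573306164797) (nat_lit 76) (nat_lit 418529626392) (nat_lit 76) (nat_lit 417750322577) (nat_lit 1) (nat_lit 4) (nat_lit 2) (nat_lit 5) (nat_lit 2) (nat_lit 4) (nat_lit 353) (nat_lit 225) (nat_lit 202)))) (XT.nd (nat_lit 156) (nat_lit 0) (nat_lit 0) (XT.nd (nat_lit 78) (nat_lit 0) (nat_lit 0) (XT.lf (nat_lit 0) (nat_lit 620742578100) (nat_lit 76) (nat_lit 451168471831) (nat_lit 76) (nat_lit 450377318146)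 (nat_lit 1) (nat_lit 4) (nat_lit 2) (nat_lit 5) (nat_lit 2) (nat_lit 4) (nat_lit 354) (nat_lit 225) (nat_lit 201)) (XT.lf (nat_lit 0) (nat_lit 671945144589) (nat_lit 76) (nat_lit 486432483244) (nat_lit 76) (nat_lit 485630357458) (nat_lit 1) (nat_lit 4) (nat_lit 2) (nat_lit 5) (nat_lit 2) (nat_lit 4) (nat_lit 355) (nat_lit 225) (nat_lit 200))) (XT.nd (nat_lit 78) (nat_lit 0) (nat_lit 0) (XT.lf (nat_lit 0) (nat_lit 727217286879) (nat_lit 76) (nat_lit 524530632553) (nat_lit 76) (nat_lit 523718347414) (nat_lit 1) (nat_lit 4) (nat_lit 2) (nat_lit 5) (nat_lit 2) (nat_lit 4) (nat_lit 356) (nat_lit 225) (nat_lit 199)) (XT.lf (nat_lit 0) (nat_lit 786886543592) (nat_lit 76) (nat_lit 565688686567) (nat_lit 76) (nat_lit 564866994619) (nat_lit 1) (nat_lit 4) (nat_lit 2) (nat_lit 5) (nat_lit 2) (nat_lit 4) (nat_lit 357) (nat_lit 225) (nat_lit 198)))))) (XT.nd (nat_lit 624) (nat_lit 0) (nat_lit 0)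 (XT.nd (nat_lit 312) (nat_lit 0) (nat_lit 0) (XT.nd (nat_lit 156) (nat_lit 0) (nat_lit 0) (XT.nd (nat_lit 78) (nat_lit 0) (nat_lit 0) (XT.lf (nat_lit 0) (nat_lit 851306510323) (nat_lit 76) (nat_lit 610150544865) (nat_lit 76) (nat_lit 609320142910) (nat_lit 1) (nat_lit 4) (nat_lit 2) (nat_lit 5) (nat_lit 2) (nat_lit 4) (nat_lit 358) (nat_lit 225) (nat_lit 197)) (XT.lf (nat_lit 0) (nat_lit 920858935023) (nat_lit 76) (nat_lit 658179685127) (nat_lit 76) (nat_lit 657341218350) (nat_lit 1) (nat_lit 4) (nat_lit 2) (nat_lit 5) (nat_lit 2) (nat_lit 4) (nat_lit 359) (nat_lit 225) (nat_lit 196))) (XT.nd (nat_lit 78) (nat_lit 0) (nat_lit 0) (XT.lf (nat_lit 0) (nat_lit 995955980209) (nat_lit 76) (nat_lit 710060724481) (nat_lit 76) (nat_lit 709214790275) (nat_lit 1) (nat_lit 4) (nat_lit 2) (nat_lit 5) (nat_lit 2) (nat_lit 4) (nat_lit 360) (nat_lit 225) (nat_lit 195)) (XT.lf (nat_lit 0) (nat_lit 1077042665408)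 (nat_lit 76) (nat_lit 766101106121) (nat_lit 76) (nat_lit 765248257631) (nat_lit 1) (nat_lit 4) (nat_lit 2) (nat_lit 5) (nat_lit 2) (nat_lit 4) (nat_lit 361) (nat_lit 225) (nat_lit 194)))) (XT.nd (nat_lit 156) (nat_lit 0) (nat_lit 0) (XT.nd (nat_lit 78) (nat_lit 0) (nat_lit 0) (XT.lf (nat_lit 0) (nat_lit 1164599504309) (nat_lit 76) (nat_lit 826632921199) (nat_lit 76) (nat_lit 825773670593) (nat_lit 1) (nat_lit 4) (nat_lit 2) (nat_lit 5) (nat_lit 2) (nat_lit 4) (nat_lit 362) (nat_lit 225) (nat_lit 193)) (XT.lf (nat_lit 0) (nat_lit 1259145352255) (nat_lit 76) (nat_lit 892014876768) (nat_lit 76) (nat_lit 891149698277) (nat_lit 1) (nat_lit 4) (nat_lit 2) (nat_lit 5) (nat_lit 2) (nat_lit 4) (nat_lit 363) (nat_lit 225) (nat_lit 192))) (XT.nd (nat_lit 78) (nat_lit 0) (nat_lit 0) (XT.lf (nat_lit 0) (nat_lit 1361240480937) (nat_lit 76) (nat_lit 962634421452) (nat_lit 76) (nat_lit 961763754178)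 (nat_lit 1) (nat_lit 4) (nat_lit 2) (nat_lit 5) (nat_lit 2) (nat_lit 4) (nat_lit 364) (nat_lit 225) (nat_lit 191)) (XT.lf (nat_lit 0) (nat_lit 1471489898525) (nat_lit 76) (nat_lit 1038910041442) (nat_lit 76) (nat_lit 1038034291963) (nat_lit 1) (nat_lit 4) (nat_lit 2) (nat_lit 5) (nat_lit 2) (nat_lit 4) (nat_lit 365) (nat_lit 225) (nat_lit 190))))) (XT.nd (nat_lit 312) (nat_lit 0) (nat_lit 0) (XT.nd (nat_lit 156) (nat_lit 0) (nat_lit 0) (XT.nd (nat_lit 78) (nat_lit 0) (nat_lit 0) (XT.lf (nat_lit 0) (nat_lit 1590546934901) (nat_lit 76) (nat_lit 1121293740413) (nat_lit 76) (nat_lit 1120413285187) (nat_lit 1) (nat_lit 4) (nat_lit 2) (nat_lit 5) (nat_lit 2) (nat_lit 4) (nat_lit 366) (nat_lit 225) (nat_lit 189)) (XT.lf (nat_lit 0) (nat_lit 1719117113244) (nat_lit 76) (nat_lit 1210273718061) (nat_lit 76) (nat_lit 1209388905663) (nat_lit 1) (nat_lit 4) (nat_lit 2) (nat_lit 5) (nat_lit 2) (nat_lit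 4) (nat_lit 367) (nat_lit 225) (nat_lit 188))) (XT.nd (nat_lit 78) (nat_lit 0) (nat_lit 0) (XT.lf (nat_lit 0) (nat_lit 1857962330906) (nat_lit 76) (nat_lit 1306377263144) (nat_lit 76) (nat_lit 1305488416327) (nat_lit 1) (nat_lit 4) (nat_lit 2) (nat_lit 5) (nat_lit 2) (nat_lit 4) (nat_lit 368) (nat_lit 225) (nat_lit 187)) (XT.lf (nat_lit 0) (nat_lit 2007905374363) (nat_lit 76) (nat_lit 1410173878151) (nat_lit 76) (nat_lit 1409281295761) (nat_lit 1) (nat_lit 4) (nat_lit 2) (nat_lit 5) (nat_lit 2) (nat_lit 4) (nat_lit 369) (nat_lit 225) (nat_lit 186)))) (XT.nd (nat_lit 156) (nat_lit 0) (nat_lit 0) (XT.nd (nat_lit 78) (nat_lit 0) (nat_lit 0) (XT.lf (nat_lit 0) (nat_lit 2169834794984) (nat_lit 76) (nat_lit 1522278654133) (nat_lit 76) (nat_lit 1521382612879) (nat_lit 1) (nat_lit 4) (nat_lit 2) (nat_lit 5) (nat_lit 2) (nat_lit 4) (nat_lit 370) (nat_lit 225) (nat_lit 185)) (XT.lf (nat_lit 0)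 (nat_lit 2344710174519) (nat_lit 76) (nat_lit 1643355915690) (nat_lit 76) (nat_lit 1642456671784) (nat_lit 1) (nat_lit 4) (nat_lit 2) (nat_lit 5) (nat_lit 2) (nat_lit 4) (nat_lit 371) (nat_lit 225) (nat_lit 184))) (XT.nd (nat_lit 78) (nat_lit 0) (nat_lit 0) (XT.lf (nat_lit 0) (nat_lit 2533567811516) (nat_lit 76) (nat_lit 1774123157704) (nat_lit 76) (nat_lit 1773220948380) (nat_lit 1) (nat_lit 4) (nat_lit 2) (nat_lit 5) (nat_lit 2) (nat_lit 4) (nat_lit 372) (nat_lit 225) (nat_lit 183)) (XT.lf (nat_lit 0) (nat_lit 2737526862340) (nat_lit 76) (nat_lit 1915355297165) (nat_lit 76) (nat_lit 1914450342083) (nat_lit 1) (nat_lit 4) (nat_lit 2) (nat_lit 5) (nat_lit 2) (nat_lit 4) (nat_lit 373) (nat_lit 225) (nat_lit 182))))))))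
noncomputable def xc8 : XT := (XT.nd (nat_lit 2418) (nat_lit 0) (nat_lit 0) (XT.nd (nat_lit 1170) (nat_lit 0) (nat_lit 0) (XT.nd (nat_lit 546) (nat_lit 0) (nat_lit 0) (XT.nd (nat_lit 234) (nat_lit 0) (nat_lit 0) (XT.nd (nat_lit 78) (nat_lit 0) (nat_lit 0) (XT.lf (nat_lit 0) (nat_lit 27141251256) (nat_lit 76) (nat_lit 38188110306) (nat_lit 76) (nat_lit 38188110306) (nat_lit 1) (nat_lit 4) (nat_lit 2) (nat_lit 5) (nat_lit 2) (nat_lit 4) (nat_lit 328) (nat_lit 226) (nat_lit 226)) (XT.nd (nat_lit 78) (nat_lit 0) (nat_lit 0) (XT.lf (nat_lit 0) (nat_lit 62365473864) (nat_lit 76) (nat_lit 80576804789) (nat_lit 76) (nat_lit 80501662625) (nat_lit 1) (nat_lit 4) (nat_lit 2) (nat_lit 5) (nat_lit 2) (nat_lit 4) (nat_lit 329) (nat_lit 226) (nat_lit 225)) (XT.lf (nat_lit 0) (nat_lit 70912711333) (nat_lit 76) (nat_lit 85202582176) (nat_lit 76) (nat_lit 85057863933) (nat_lit 1) (nat_lit 4) (nat_lit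 2) (nat_lit 5) (nat_lit 2) (nat_lit 4) (nat_lit 330) (nat_lit 226) (nat_lit 224)))) (XT.nd (nat_lit 156) (nat_lit 0) (nat_lit 0) (XT.nd (nat_lit 78) (nat_lit 0) (nat_lit 0) (XT.lf (nat_lit 0) (nat_lit 79974865218) (nat_lit 76) (nat_lit 90280964786) (nat_lit 76) (nat_lit 90071824249) (nat_lit 1) (nat_lit 4) (nat_lit 2) (nat_lit 5) (nat_lit 2) (nat_lit 4) (nat_lit 331) (nat_lit 226) (nat_lit 223)) (XT.lf (nat_lit 0) (nat_lit 89605637170) (nat_lit 76) (nat_lit 95842046740) (nat_lit 76) (nat_lit 95573255931) (nat_lit 1) (nat_lit 4) (nat_lit 2) (nat_lit 5) (nat_lit 2) (nat_lit 4) (nat_lit 332) (nat_lit 226) (nat_lit 222))) (XT.nd (nat_lit 78) (nat_lit 0) (nat_lit 0) (XT.lf (nat_lit 0) (nat_lit 99862098432) (nat_lit 76) (nat_lit 101918782597) (nat_lit 76) (nat_lit 101594760054) (nat_lit 1) (nat_lit 4) (nat_lit 2) (nat_lit 5) (nat_lit 2) (nat_lit 4) (nat_lit 333) (nat_lit 226) (nat_lit 221))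 (XT.lf (nat_lit 0) (nat_lit 110805028031) (nat_lit 76) (nat_lit 108547182644) (nat_lit 76) (nat_lit 108172019606) (nat_lit 1) (nat_lit 4) (nat_lit 2) (nat_lit 5) (nat_lit 2) (nat_lit 4) (nat_lit 334) (nat_lit 226) (nat_lit 220))))) (XT.nd (nat_lit 312) (nat_lit 0) (nat_lit 0) (XT.nd (nat_lit 156) (nat_lit 0) (nat_lit 0) (XT.nd (nat_lit 78) (nat_lit 0) (nat_lit 0) (XT.lf (nat_lit 0) (nat_lit 122499272960) (nat_lit 76) (nat_lit 115766526288) (nat_lit 76) (nat_lit 115344010941) (nat_lit 1) (nat_lit 4) (nat_lit 2) (nat_lit 5) (nat_lit 2) (nat_lit 4) (nat_lit 335) (nat_lit 226) (nat_lit 219)) (XT.lf (nat_lit 0) (nat_lit 135014132447) (nat_lit 76) (nat_lit 123619594825) (nat_lit 76) (nat_lit 123153234747) (nat_lit 1) (nat_lit 4) (nat_lit 2) (nat_lit 5) (nat_lit 2) (nat_lit 4) (nat_lit 336) (nat_lit 226) (nat_lit 218))) (XT.nd (nat_lit 78) (nat_lit 0) (nat_lit 0) (XT.lf (nat_lit 0) (nat_lit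 148423768622) (nat_lit 76) (nat_lit 132152924958) (nat_lit 76) (nat_lit 131645967906) (nat_lit 1) (nat_lit 4) (nat_lit 2) (nat_lit 5) (nat_lit 2) (nat_lit 4) (nat_lit 337) (nat_lit 226) (nat_lit 217)) (XT.lf (nat_lit 0) (nat_lit 162807645996) (nat_lit 76) (nat_lit 141417084568) (nat_lit 76) (nat_lit 140872537726) (nat_lit 1) (nat_lit 4) (nat_lit 2) (nat_lit 5) (nat_lit 2) (nat_lit 4) (nat_lit 338) (nat_lit 226) (nat_lit 216)))) (XT.nd (nat_lit 156) (nat_lit 0) (nat_lit 0) (XT.nd (nat_lit 78) (nat_lit 0) (nat_lit 0) (XT.lf (nat_lit 0) (nat_lit 178251002361) (nat_lit 76) (nat_lit 151466972380) (nat_lit 76) (nat_lit 150887620177) (nat_lit 1) (nat_lit 4) (nat_lit 2) (nat_lit 5) (nat_lit 2) (nat_lit 4) (nat_lit 339) (nat_lit 226) (nat_lit 215)) (XT.lf (nat_lit 0) (nat_lit 194845353902) (nat_lit 76) (nat_lit 162362143284) (nat_lit 76) (nat_lit 161750563894) (nat_lit 1) (nat_lit 4) (nat_lit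 2) (nat_lit 5) (nat_lit 2) (nat_lit 4) (nat_lit 340) (nat_lit 226) (nat_lit 214))) (XT.nd (nat_lit 78) (nat_lit 0) (nat_lit 0) (XT.lf (nat_lit 0) (nat_lit 212689037519) (nat_lit 76) (nat_lit 174167161255) (nat_lit 76) (nat_lit 173525741879) (nat_lit 1) (nat_lit 4) (nat_lit 2) (nat_lit 5) (nat_lit 2) (nat_lit 4) (nat_lit 341) (nat_lit 226) (nat_lit 213)) (XT.lf (nat_lit 0) (nat_lit 231887793557) (nat_lit 76) (nat_lit 186951981957) (nat_lit 76) (nat_lit 186282932963) (nat_lit 1) (nat_lit 4) (nat_lit 2) (nat_lit 5) (nat_lit 2) (nat_lit 4) (nat_lit 342) (nat_lit 226) (nat_lit 212)))))) (XT.nd (nat_lit 624) (nat_lit 0) (nat_lit 0) (XT.nd (nat_lit 312) (nat_lit 0) (nat_lit 0) (XT.nd (nat_lit 156) (nat_lit 0) (nat_lit 0) (XT.nd (nat_lit 78) (nat_lit 0) (nat_lit 0) (XT.lf (nat_lit 0) (nat_lit 252555392424) (nat_lit 76) (nat_lit 200792367289) (nat_lit 76) (nat_lit 200097735315) (nat_lit 1) (nat_lit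 4) (nat_lit 2) (nat_lit 5) (nat_lit 2) (nat_lit 4) (nat_lit 343) (nat_lit 226) (nat_lit 211)) (XT.lf (nat_lit 0) (nat_lit 274814308779) (nat_lit 76) (nat_lit 215770334349) (nat_lit 76) (nat_lit 215052014432) (nat_lit 1) (nat_lit 4) (nat_lit 2) (nat_lit 5) (nat_lit 2) (nat_lit 4) (nat_lit 344) (nat_lit 226) (nat_lit 210))) (XT.nd (nat_lit 78) (nat_lit 0) (nat_lit 0) (XT.lf (nat_lit 0) (nat_lit 298796447311) (nat_lit 76) (nat_lit 231974641462) (nat_lit 76) (nat_lit 231234388263) (nat_lit 1) (nat_lit 4) (nat_lit 2) (nat_lit 5) (nat_lit 2) (nat_lit 4) (nat_lit 345) (nat_lit 226) (nat_lit 209)) (XT.lf (nat_lit 0) (nat_lit 324643924398) (nat_lit 76) (nat_lit 249501314150) (nat_lit 76) (nat_lit 248740752357) (nat_lit 1) (nat_lit 4) (nat_lit 2) (nat_lit 5) (nat_lit 2) (nat_lit 4) (nat_lit 346) (nat_lit 226) (nat_lit 208)))) (XT.nd (nat_lit 156) (nat_lit 0) (nat_lit 0) (XT.nd (nat_lit 78) (nat_lit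 0) (nat_lit 0) (XT.lf (nat_lit 0) (nat_lit 352509910274) (nat_lit 76) (nat_lit 268454214178) (nat_lit 76) (nat_lit 267674848131) (nat_lit 1) (nat_lit 4) (nat_lit 2) (nat_lit 5) (nat_lit 2) (nat_lit 4) (nat_lit 347) (nat_lit 226) (nat_lit 207)) (XT.lf (nat_lit 0) (nat_lit 382559536706) (nat_lit 76) (nat_lit 288945655026) (nat_lit 76) (nat_lit 288148877633) (nat_lit 1) (nat_lit 4) (nat_lit 2) (nat_lit 5) (nat_lit 2) (nat_lit 4) (nat_lit 348) (nat_lit 226) (nat_lit 206))) (XT.nd (nat_lit 78) (nat_lit 0) (nat_lit 0) (XT.lf (nat_lit 0) (nat_lit 414970875556) (nat_lit 76) (nat_lit 311097067457) (nat_lit 76) (nat_lit 310284168448) (nat_lit 1) (nat_lit 4) (nat_lit 2) (nat_lit 5) (nat_lit 2) (nat_lit 4) (nat_lit 349) (nat_lit 226) (nat_lit 205)) (XT.lf (nat_lit 0) (nat_lit 449935994016) (nat_lit 76) (nat_lit 335039719099) (nat_lit 76) (nat_lit 334211892667) (nat_lit 1) (nat_lit 4) (nat_lit 2)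 (nat_lit 5) (nat_lit 2) (nat_lit 4) (nat_lit 350) (nat_lit 226) (nat_lit 204))))) (XT.nd (nat_lit 312) (nat_lit 0) (nat_lit 0) (XT.nd (nat_lit 156) (nat_lit 0) (nat_lit 0) (XT.nd (nat_lit 78) (nat_lit 0) (nat_lit 0) (XT.lf (nat_lit 0) (nat_lit 487662092789) (nat_lit 76) (nat_lit 360915492332) (nat_lit 76) (nat_lit 360073844212) (nat_lit 1) (nat_lit 4) (nat_lit 2) (nat_lit 5) (nat_lit 2) (nat_lit 4) (nat_lit 351) (nat_lit 226) (nat_lit 203)) (XT.lf (nat_lit 0) (nat_lit 528372733941) (nat_lit 76) (nat_lit 388877725072) (nat_lit 76) (nat_lit 388023279093) (nat_lit 1) (nat_lit 4) (nat_lit 2) (nat_lit 5) (nat_lit 2) (nat_lit 4) (nat_lit 352) (nat_lit 226) (nat_lit 202))) (XT.nd (nat_lit 78) (nat_lit 0) (nat_lit 0) (XT.lf (nat_lit 0) (nat_lit 572309165716) (nat_lit 76) (nat_lit 419092119438) (nat_lit 76) (nat_lit 418225823589) (nat_lit 1) (nat_lit 4) (nat_lit 2) (nat_lit 5) (nat_lit 2) (nat_lit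 4) (nat_lit 353) (nat_lit 226) (nat_lit 201)) (XT.lf (nat_lit 0) (nat_lit 619731752154) (nat_lit 76) (nat_lit 451737723694) (nat_lit 76) (nat_lit 450860455744) (nat_lit 1) (nat_lit 4) (nat_lit 2) (nat_lit 5) (nat_lit 2) (nat_lit 4) (nat_lit 354) (nat_lit 226) (nat_lit 200)))) (XT.nd (nat_lit 156) (nat_lit 0) (nat_lit 0) (XT.nd (nat_lit 78) (nat_lit 0) (nat_lit 0) (XT.lf (nat_lit 0) (nat_lit 670921515990) (nat_lit 76) (nat_lit 487007993272) (nat_lit 76) (nat_lit 486120565968) (nat_lit 1) (nat_lit 4) (nat_lit 2) (nat_lit 5) (nat_lit 2) (nat_lit 4) (nat_lit 355) (nat_lit 226) (nat_lit 199)) (XT.lf (nat_lit 0) (nat_lit 726181803972) (nat_lit 76) (nat_lit 525111937177) (nat_lit 76) (nat_lit 524215103065) (nat_lit 1) (nat_lit 4) (nat_lit 2) (nat_lit 5) (nat_lit 2) (nat_lit 4) (nat_lit 356) (nat_lit 226) (nat_lit 198))) (XT.nd (nat_lit 78) (nat_lit 0) (nat_lit 0) (XT.lf (nat_lit 0) (nat_lit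 785840084474) (nat_lit 76) (nat_lit 566275356558) (nat_lit 76) (nat_lit 565369812438) (nat_lit 1) (nat_lit 4) (nat_lit 2) (nat_lit 5) (nat_lit 2) (nat_lit 4) (nat_lit 357) (nat_lit 226) (nat_lit 197)) (XT.lf (nat_lit 0) (nat_lit 850249888047) (nat_lit 76) (nat_lit 610742182789) (nat_lit 76) (nat_lit 609828573847) (nat_lit 1) (nat_lit 4) (nat_lit 2) (nat_lit 5) (nat_lit 2) (nat_lit 4) (nat_lit 358) (nat_lit 226) (nat_lit 196))))))) (XT.nd (nat_lit 38142) (nat_lit 0) (nat_lit 0) (XT.nd (nat_lit 624) (nat_lit 0) (nat_lit 0) (XT.nd (nat_lit 312) (nat_lit 0) (nat_lit 0) (XT.nd (nat_lit 156) (nat_lit 0) (nat_lit 0) (XT.nd (nat_lit 78) (nat_lit 0) (nat_lit 0) (XT.lf (nat_lit 0) (nat_lit 919792902415) (nat_lit 76) (nat_lit 658775922989) (nat_lit 76) (nat_lit 657854846619) (nat_lit 1) (nat_lit 4) (nat_lit 2) (nat_lit 5) (nat_lit 2) (nat_lit 4) (nat_lit 359) (nat_lit 226) (nat_lit 195)) (XT.lf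 (nat_lit 0) (nat_lit 994881234330) (nat_lit 76) (nat_lit 710661221543) (nat_lit 76) (nat_lit 709733230889) (nat_lit 1) (nat_lit 4) (nat_lit 2) (nat_lit 5) (nat_lit 2) (nat_lit 4) (nat_lit 360) (nat_lit 226) (nat_lit 194))) (XT.nd (nat_lit 78) (nat_lit 0) (nat_lit 0) (XT.lf (nat_lit 0) (nat_lit 1075959851686) (nat_lit 76) (nat_lit 766705546889) (nat_lit 76) (nat_lit 765771154118) (nat_lit 1) (nat_lit 4) (nat_lit 2) (nat_lit 5) (nat_lit 2) (nat_lit 4) (nat_lit 361) (nat_lit 226) (nat_lit 193)) (XT.lf (nat_lit 0) (nat_lit 1163509220363) (nat_lit 76) (nat_lit 827241013546) (nat_lit 76) (nat_lit 826300692890) (nat_lit 1) (nat_lit 4) (nat_lit 2) (nat_lit 5) (nat_lit 2) (nat_lit 4) (nat_lit 362) (nat_lit 226) (nat_lit 192)))) (XT.nd (nat_lit 156) (nat_lit 0) (nat_lit 0) (XT.nd (nat_lit 78) (nat_lit 0) (nat_lit 0) (XT.lf (nat_lit 0) (nat_lit 1258048151434) (nat_lit 76) (nat_lit 892626350206)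 (nat_lit 76) (nat_lit 891680540768) (nat_lit 1) (nat_lit 4) (nat_lit 2) (nat_lit 5) (nat_lit 2) (nat_lit 4) (nat_lit 363) (nat_lit 226) (nat_lit 191)) (XT.lf (nat_lit 0) (nat_lit 1360136875603) (nat_lit 76) (nat_lit 963249025530) (nat_lit 76) (nat_lit 962298133886) (nat_lit 1) (nat_lit 4) (nat_lit 2) (nat_lit 5) (nat_lit 2) (nat_lit 4) (nat_lit 364) (nat_lit 226) (nat_lit 190))) (XT.nd (nat_lit 78) (nat_lit 0) (nat_lit 0) (XT.lf (nat_lit 0) (nat_lit 1470380363085) (nat_lit 76) (nat_lit 1039527544261) (nat_lit 76) (nat_lit 1038571946871) (nat_lit 1) (nat_lit 4) (nat_lit 2) (nat_lit 5) (nat_lit 2) (nat_lit 4) (nat_lit 365) (nat_lit 226) (nat_lit 189)) (XT.lf (nat_lit 0) (nat_lit 1589431908623) (nat_lit 76) (nat_lit 1121913927251) (nat_lit 76) (nat_lit 1120953972689) (nat_lit 1) (nat_lit 4) (nat_lit 2) (nat_lit 5) (nat_lit 2) (nat_lit 4) (nat_lit 366) (nat_lit 226) (nat_lit 188))))) (XT.nd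 (nat_lit 312) (nat_lit 0) (nat_lit 0) (XT.nd (nat_lit 156) (nat_lit 0) (nat_lit 0) (XT.nd (nat_lit 78) (nat_lit 0) (nat_lit 0) (XT.lf (nat_lit 0) (nat_lit 1717997002856) (nat_lit 76) (nat_lit 1210896390103) (nat_lit 76) (nat_lit 1209932401121) (nat_lit 1) (nat_lit 4) (nat_lit 2) (nat_lit 5) (nat_lit 2) (nat_lit 4) (nat_lit 367) (nat_lit 226) (nat_lit 187)) (XT.lf (nat_lit 0) (nat_lit 1856837513010) (nat_lit 76) (nat_lit 1307002236300) (nat_lit 76) (nat_lit 1306034511745) (nat_lit 1) (nat_lit 4) (nat_lit 2) (nat_lit 5) (nat_lit 2) (nat_lit 4) (nat_lit 368) (nat_lit 226) (nat_lit 186))) (XT.nd (nat_lit 78) (nat_lit 0) (nat_lit 0) (XT.lf (nat_lit 0) (nat_lit 2006776197663) (nat_lit 76) (nat_lit 1410800981968) (nat_lit 76) (nat_lit 1409829798549) (nat_lit 1) (nat_lit 4) (nat_lit 2) (nat_lit 5) (nat_lit 2) (nat_lit 4) (nat_lit 369) (nat_lit 226) (nat_lit 185)) (XT.lf (nat_lit 0) (nat_lit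 2168701582353) (nat_lit 76) (nat_lit 1522907730784) (nat_lit 76) (nat_lit 1521933344714) (nat_lit 1) (nat_lit 4) (nat_lit 2) (nat_lit 5) (nat_lit 2) (nat_lit 4) (nat_lit 370) (nat_lit 226) (nat_lit 184)))) (XT.nd (nat_lit 156) (nat_lit 0) (nat_lit 0) (XT.nd (nat_lit 78) (nat_lit 0) (nat_lit 0) (XT.lf (nat_lit 0) (nat_lit 2343573224916) (nat_lit 76) (nat_lit 1643986819039) (nat_lit 76) (nat_lit 1643009467551) (nat_lit 1) (nat_lit 4) (nat_lit 2) (nat_lit 5) (nat_lit 2) (nat_lit 4) (nat_lit 371) (nat_lit 226) (nat_lit 183)) (XT.lf (nat_lit 0) (nat_lit 2532427401753) (nat_lit 76) (nat_lit 1774755752441) (nat_lit 76) (nat_lit 1773775655195) (nat_lit 1) (nat_lit 4) (nat_lit 2) (nat_lit 5) (nat_lit 2) (nat_lit 4) (nat_lit 372) (nat_lit 226) (nat_lit 182))) (XT.nd (nat_lit 36972) (nat_lit 0) (nat_lit 0) (XT.lf (nat_lit 0) (nat_lit 2736383248726) (nat_lit 76) (nat_lit 1915989458001) (nat_lit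 76) (nat_lit 1915006818387) (nat_lit 1) (nat_lit 4) (nat_lit 2) (nat_lit 5) (nat_lit 2) (nat_lit 4) (nat_lit 373) (nat_lit 226) (nat_lit 181)) (XT.lf (nat_lit 0) (nat_lit 19711248773) (nat_lit 76) (nat_lit 34592298789) (nat_lit 76) (nat_lit 34592298789) (nat_lit 1) (nat_lit 4) (nat_lit 2) (nat_lit 5) (nat_lit 2) (nat_lit 4) (nat_lit 326) (nat_lit 227) (nat_lit 227)))))) (XT.nd (nat_lit 624) (nat_lit 0) (nat_lit 0) (XT.nd (nat_lit 312) (nat_lit 0) (nat_lit 0) (XT.nd (nat_lit 156) (nat_lit 0) (nat_lit 0) (XT.nd (nat_lit 78) (nat_lit 0) (nat_lit 0) (XT.lf (nat_lit 0) (nat_lit 46615898192) (nat_lit 76) (nat_lit 72657090834) (nat_lit 76) (nat_lit 72575937296) (nat_lit 1) (nat_lit 4) (nat_lit 2) (nat_lit 5) (nat_lit 2) (nat_lit 4) (nat_lit 327) (nat_lit 227) (nat_lit 226)) (XT.lf (nat_lit 0) (nat_lit 54187809573) (nat_lit 76) (nat_lit 76503661744) (nat_lit 76) (nat_lit 76347366042) (nat_lit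 1) (nat_lit 4) (nat_lit 2) (nat_lit 5) (nat_lit 2) (nat_lit 4) (nat_lit 328) (nat_lit 227) (nat_lit 225))) (XT.nd (nat_lit 78) (nat_lit 0) (nat_lit 0) (XT.lf (nat_lit 0) (nat_lit 62183102275) (nat_lit 76) (nat_lit 80747104803) (nat_lit 76) (nat_lit 80521233023) (nat_lit 1) (nat_lit 4) (nat_lit 2) (nat_lit 5) (nat_lit 2) (nat_lit 4) (nat_lit 329) (nat_lit 227) (nat_lit 224)) (XT.lf (nat_lit 0) (nat_lit 70649155810) (nat_lit 76) (nat_lit 85412566340) (nat_lit 76) (nat_lit 85122272265) (nat_lit 1) (nat_lit 4) (nat_lit 2) (nat_lit 5) (nat_lit 2) (nat_lit 4) (nat_lit 330) (nat_lit 227) (nat_lit 223)))) (XT.nd (nat_lit 156) (nat_lit 0) (nat_lit 0) (XT.nd (nat_lit 78) (nat_lit 0) (nat_lit 0) (XT.lf (nat_lit 0) (nat_lit 79636139386) (nat_lit 76) (nat_lit 90527693534) (nat_lit 76) (nat_lit 90177749187) (nat_lit 1) (nat_lit 4) (nat_lit 2) (nat_lit 5) (nat_lit 2) (nat_lit 4) (nat_lit 331) (nat_lit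 227) (nat_lit 222)) (XT.lf (nat_lit 0) (nat_lit 89197309200) (nat_lit 76) (nat_lit 96122798251) (nat_lit 76) (nat_lit 95717622170) (nat_lit 1) (nat_lit 4) (nat_lit 2) (nat_lit 5) (nat_lit 2) (nat_lit 4) (nat_lit 332) (nat_lit 227) (nat_lit 221))) (XT.nd (nat_lit 78) (nat_lit 0) (nat_lit 0) (XT.lf (nat_lit 0) (nat_lit 99389324037) (nat_lit 76) (nat_lit 102231036666) (nat_lit 76) (nat_lit 101774720091) (nat_lit 1) (nat_lit 4) (nat_lit 2) (nat_lit 5) (nat_lit 2) (nat_lit 4) (nat_lit 333) (nat_lit 227) (nat_lit 220)) (XT.lf (nat_lit 0) (nat_lit 110272581022) (nat_lit 76) (nat_lit 108888605748) (nat_lit 76) (nat_lit 108384936863) (nat_lit 1) (nat_lit 4) (nat_lit 2) (nat_lit 5) (nat_lit 2) (nat_lit 4) (nat_lit 334) (nat_lit 227) (nat_lit 219))))) (XT.nd (nat_lit 312) (nat_lit 0) (nat_lit 0) (XT.nd (nat_lit 156) (nat_lit 0) (nat_lit 0) (XT.nd (nat_lit 78) (nat_lit 0) (nat_lit 0) (XT.lf (nat_lit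 0) (nat_lit 121911573529) (nat_lit 76) (nat_lit 116134957759) (nat_lit 76) (nat_lit 115587444143) (nat_lit 1) (nat_lit 4) (nat_lit 2) (nat_lit 5) (nat_lit 2) (nat_lit 4) (nat_lit 335) (nat_lit 227) (nat_lit 218)) (XT.lf (nat_lit 0) (nat_lit 134375273367) (nat_lit 76) (nat_lit 124013034042) (nat_lit 76) (nat_lit 123424923453) (nat_lit 1) (nat_lit 4) (nat_lit 2) (nat_lit 5) (nat_lit 2) (nat_lit 4) (nat_lit 336) (nat_lit 227) (nat_lit 217))) (XT.nd (nat_lit 78) (nat_lit 0) (nat_lit 0) (XT.lf (nat_lit 0) (nat_lit 147737539496) (nat_lit 76) (nat_lit 132569519495) (nat_lit 76) (nat_lit 131943819116) (nat_lit 1) (nat_lit 4) (nat_lit 2) (nat_lit 5) (nat_lit 2) (nat_lit 4) (nat_lit 337) (nat_lit 227) (nat_lit 216)) (XT.lf (nat_lit 0) (nat_lit 162077555717) (nat_lit 76) (nat_lit 141855119218) (nat_lit 76) (nat_lit 141194613477) (nat_lit 1) (nat_lit 4) (nat_lit 2) (nat_lit 5) (nat_lit 2) (nat_lit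 4) (nat_lit 338) (nat_lit 227) (nat_lit 215)))) (XT.nd (nat_lit 156) (nat_lit 0) (nat_lit 0) (XT.nd (nat_lit 78) (nat_lit 0) (nat_lit 0) (XT.lf (nat_lit 0) (nat_lit 177480299903) (nat_lit 76) (nat_lit 151924858985) (nat_lit 76) (nat_lit 151232126058) (nat_lit 1) (nat_lit 4) (nat_lit 2) (nat_lit 5) (nat_lit 2) (nat_lit 4) (nat_lit 339) (nat_lit 227) (nat_lit 214)) (XT.lf (nat_lit 0) (nat_lit 194037047575) (nat_lit 76) (nat_lit 162838411329) (nat_lit 76) (nat_lit 162115838415) (nat_lit 1) (nat_lit 4) (nat_lit 2) (nat_lit 5) (nat_lit 2) (nat_lit 4) (nat_lit 340) (nat_lit 227) (nat_lit 213))) (XT.nd (nat_lit 78) (nat_lit 0) (nat_lit 0) (XT.lf (nat_lit 0) (nat_lit 211845912793) (nat_lit 76) (nat_lit 174660449152) (nat_lit 76) (nat_lit 173910246621) (nat_lit 1) (nat_lit 4) (nat_lit 2) (nat_lit 5) (nat_lit 2) (nat_lit 4) (nat_lit 341) (nat_lit 227) (nat_lit 212)) (XT.lf (nat_lit 0) (nat_lit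 231012429575) (nat_lit 76) (nat_lit 187461028976) (nat_lit 76) (nat_lit 186685243465) (nat_lit 1) (nat_lit 4) (nat_lit 2) (nat_lit 5) (nat_lit 2) (nat_lit 4) (nat_lit 342) (nat_lit 227) (nat_lit 211))))))))
noncomputable def xc9 : XT := (XT.nd (nat_lit 39156) (nat_lit 0) (nat_lit 0) (XT.nd (nat_lit 1170) (nat_lit 0) (nat_lit 0) (XT.nd (nat_lit 546) (nat_lit 0) (nat_lit 0) (XT.nd (nat_lit 234) (nat_lit 0) (nat_lit 0) (XT.nd (nat_lit 78) (nat_lit 0) (nat_lit 0) (XT.lf (nat_lit 0) (nat_lit 251650177277) (nat_lit 76) (nat_lit 201316006088) (nat_lit 76) (nat_lit 200516532633) (nat_lit 1) (nat_lit 4) (nat_lit 2) (nat_lit 5) (nat_lit 2) (nat_lit 4) (nat_lit 343) (nat_lit 227) (nat_lit 210)) (XT.nd (nat_lit 78) (nat_lit 0) (nat_lit 0) (XT.lf (nat_lit 0) (nat_lit 273881453666) (nat_lit 76) (nat_lit 216307484056) (nat_lit 76) (nat_lit 215486077319) (nat_lit 1) (nat_lit 4) (nat_lit 2) (nat_lit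 5) (nat_lit 2) (nat_lit 4) (nat_lit 344) (nat_lit 227) (nat_lit 209)) (XT.lf (nat_lit 0) (nat_lit 297837999636) (nat_lit 76) (nat_lit 232524301268) (nat_lit 76) (nat_lit 231682585937) (nat_lit 1) (nat_lit 4) (nat_lit 2) (nat_lit 5) (nat_lit 2) (nat_lit 4) (nat_lit 345) (nat_lit 227) (nat_lit 208)))) (XT.nd (nat_lit 156) (nat_lit 0) (nat_lit 0) (XT.nd (nat_lit 78) (nat_lit 0) (nat_lit 0) (XT.lf (nat_lit 0) (nat_lit 323661779907) (nat_lit 76) (nat_lit 250062557381) (nat_lit 76) (nat_lit 249202037796) (nat_lit 1) (nat_lit 4) (nat_lit 2) (nat_lit 5) (nat_lit 2) (nat_lit 4) (nat_lit 346) (nat_lit 227) (nat_lit 207)) (XT.lf (nat_lit 0) (nat_lit 351505824286) (nat_lit 76) (nat_lit 269026182802) (nat_lit 76) (nat_lit 268148251872) (nat_lit 1) (nat_lit 4) (nat_lit 2) (nat_lit 5) (nat_lit 2) (nat_lit 4) (nat_lit 347) (nat_lit 227) (nat_lit 206))) (XT.nd (nat_lit 78) (nat_lit 0) (nat_lit 0) (XT.lf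 (nat_lit 0) (nat_lit 381535134517) (nat_lit 76) (nat_lit 289527554571) (nat_lit 76) (nat_lit 288633502024) (nat_lit 1) (nat_lit 4) (nat_lit 2) (nat_lit 5) (nat_lit 2) (nat_lit 4) (nat_lit 348) (nat_lit 227) (nat_lit 205)) (XT.lf (nat_lit 0) (nat_lit 413927662070) (nat_lit 76) (nat_lit 311688162299) (nat_lit 76) (nat_lit 310779182329) (nat_lit 1) (nat_lit 4) (nat_lit 2) (nat_lit 5) (nat_lit 2) (nat_lit 4) (nat_lit 349) (nat_lit 227) (nat_lit 204))))) (XT.nd (nat_lit 312) (nat_lit 0) (nat_lit 0) (XT.nd (nat_lit 156) (nat_lit 0) (nat_lit 0) (XT.nd (nat_lit 78) (nat_lit 0) (nat_lit 0) (XT.lf (nat_lit 0) (nat_lit 448875362663) (nat_lit 76) (nat_lit 335639328104) (nat_lit 76) (nat_lit 334716526446) (nat_lit 1) (nat_lit 4) (nat_lit 2) (nat_lit 5) (nat_lit 2) (nat_lit 4) (nat_lit 350) (nat_lit 227) (nat_lit 203)) (XT.lf (nat_lit 0) (nat_lit 486585333781) (nat_lit 76) (nat_lit 361522984822) (nat_lit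 76) (nat_lit 360587385305) (nat_lit 1) (nat_lit 4) (nat_lit 2) (nat_lit 5) (nat_lit 2) (nat_lit 4) (nat_lit 351) (nat_lit 227) (nat_lit 202))) (XT.nd (nat_lit 78) (nat_lit 0) (nat_lit 0) (XT.lf (nat_lit 0) (nat_lit 527281041918) (nat_lit 76) (nat_lit 389492517084) (nat_lit 76) (nat_lit 388545067698) (nat_lit 1) (nat_lit 4) (nat_lit 2) (nat_lit 5) (nat_lit 2) (nat_lit 4) (nat_lit 352) (nat_lit 227) (nat_lit 201)) (XT.lf (nat_lit 0) (nat_lit 571203646829) (nat_lit 76) (nat_lit 419713670268) (nat_lit 76) (nat_lit 418755248780) (nat_lit 1) (nat_lit 4) (nat_lit 2) (nat_lit 5) (nat_lit 2) (nat_lit 4) (nat_lit 353) (nat_lit 227) (nat_lit 200)))) (XT.nd (nat_lit 156) (nat_lit 0) (nat_lit 0) (XT.nd (nat_lit 78) (nat_lit 0) (nat_lit 0) (XT.lf (nat_lit 0) (nat_lit 618613430614) (nat_lit 76) (nat_lit 452365532688) (nat_lit 76) (nat_lit 451396951847) (nat_lit 1) (nat_lit 4) (nat_lit 2) (nat_lit 5)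 (nat_lit 2) (nat_lit 4) (nat_lit 354) (nat_lit 227) (nat_lit 199)) (XT.lf (nat_lit 0) (nat_lit 669791340142) (nat_lit 76) (nat_lit 487641596862) (nat_lit 76) (nat_lit 486663609213) (nat_lit 1) (nat_lit 4) (nat_lit 2) (nat_lit 5) (nat_lit 2) (nat_lit 4) (nat_lit 355) (nat_lit 227) (nat_lit 198))) (XT.nd (nat_lit 78) (nat_lit 0) (nat_lit 0) (XT.lf (nat_lit 0) (nat_lit 725040651914) (nat_lit 76) (nat_lit 525750906134) (nat_lit 76) (nat_lit 524764208477) (nat_lit 1) (nat_lit 4) (nat_lit 2) (nat_lit 5) (nat_lit 2) (nat_lit 4) (nat_lit 356) (nat_lit 227) (nat_lit 197)) (XT.lf (nat_lit 0) (nat_lit 784688769257) (nat_lit 76) (nat_lit 566919293448) (nat_lit 76) (nat_lit 565924530968) (nat_lit 1) (nat_lit 4) (nat_lit 2) (nat_lit 5) (nat_lit 2) (nat_lit 4) (nat_lit 357) (nat_lit 227) (nat_lit 196)))))) (XT.nd (nat_lit 624) (nat_lit 0) (nat_lit 0) (XT.nd (nat_lit 312) (nat_lit 0) (nat_lit 0) (XT.nd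 (nat_lit 156) (nat_lit 0) (nat_lit 0) (XT.nd (nat_lit 78) (nat_lit 0) (nat_lit 0) (XT.lf (nat_lit 0) (nat_lit 849089162498) (nat_lit 76) (nat_lit 611390719616) (nat_lit 76) (nat_lit 610388489709) (nat_lit 1) (nat_lit 4) (nat_lit 2) (nat_lit 5) (nat_lit 2) (nat_lit 4) (nat_lit 358) (nat_lit 227) (nat_lit 195)) (XT.lf (nat_lit 0) (nat_lit 918623463596) (nat_lit 76) (nat_lit 659428719018) (nat_lit 76) (nat_lit 658419574825) (nat_lit 1) (nat_lit 4) (nat_lit 2) (nat_lit 5) (nat_lit 2) (nat_lit 4) (nat_lit 359) (nat_lit 227) (nat_lit 194))) (XT.nd (nat_lit 78) (nat_lit 0) (nat_lit 0) (XT.lf (nat_lit 0) (nat_lit 993703727669) (nat_lit 76) (nat_lit 711317961277) (nat_lit 76) (nat_lit 710302414969) (nat_lit 1) (nat_lit 4) (nat_lit 2) (nat_lit 5) (nat_lit 2) (nat_lit 4) (nat_lit 360) (nat_lit 227) (nat_lit 193)) (XT.lf (nat_lit 0) (nat_lit 1074774874800) (nat_lit 76) (nat_lit 767365938202) (nat_lit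 76) (nat_lit 766344464009) (nat_lit 1) (nat_lit 4) (nat_lit 2) (nat_lit 5) (nat_lit 2) (nat_lit 4) (nat_lit 361) (nat_lit 227) (nat_lit 192)))) (XT.nd (nat_lit 156) (nat_lit 0) (nat_lit 0) (XT.nd (nat_lit 78) (nat_lit 0) (nat_lit 0) (XT.lf (nat_lit 0) (nat_lit 1162317326602) (nat_lit 76) (nat_lit 827904785950) (nat_lit 76) (nat_lit 826877822975) (nat_lit 1) (nat_lit 4) (nat_lit 2) (nat_lit 5) (nat_lit 2) (nat_lit 4) (nat_lit 362) (nat_lit 227) (nat_lit 191)) (XT.lf (nat_lit 0) (nat_lit 1256849853159) (nat_lit 76) (nat_lit 893293253250) (nat_lit 76) (nat_lit 892261208069) (nat_lit 1) (nat_lit 4) (nat_lit 2) (nat_lit 5) (nat_lit 2) (nat_lit 4) (nat_lit 363) (nat_lit 227) (nat_lit 190))) (XT.nd (nat_lit 78) (nat_lit 0) (nat_lit 0) (XT.lf (nat_lit 0) (nat_lit 1358932647222) (nat_lit 76) (nat_lit 963918827315) (nat_lit 76) (nat_lit 962882076388) (nat_lit 1) (nat_lit 4) (nat_lit 2) (nat_lit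 5) (nat_lit 2) (nat_lit 4) (nat_lit 364) (nat_lit 227) (nat_lit 189)) (XT.lf (nat_lit 0) (nat_lit 1469170643867) (nat_lit 76) (nat_lit 1040200030066) (nat_lit 76) (nat_lit 1039158921966) (nat_lit 1) (nat_lit 4) (nat_lit 2) (nat_lit 5) (nat_lit 2) (nat_lit 4) (nat_lit 365) (nat_lit 227) (nat_lit 188))))) (XT.nd (nat_lit 312) (nat_lit 0) (nat_lit 0) (XT.nd (nat_lit 156) (nat_lit 0) (nat_lit 0) (XT.nd (nat_lit 78) (nat_lit 0) (nat_lit 0) (XT.lf (nat_lit 0) (nat_lit 1588217105295) (nat_lit 76) (nat_lit 1122588898259) (nat_lit 76) (nat_lit 1121543755740) (nat_lit 1) (nat_lit 4) (nat_lit 2) (nat_lit 5) (nat_lit 2) (nat_lit 4) (nat_lit 366) (nat_lit 227) (nat_lit 187)) (XT.lf (nat_lit 0) (nat_lit 1716777492019) (nat_lit 76) (nat_lit 1211573662225) (nat_lit 76) (nat_lit 1210524784133) (nat_lit 1) (nat_lit 4) (nat_lit 2) (nat_lit 5) (nat_lit 2) (nat_lit 4) (nat_lit 367) (nat_lit 227) (nat_lit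 186))) (XT.nd (nat_lit 78) (nat_lit 0) (nat_lit 0) (XT.lf (nat_lit 0) (nat_lit 1855613643369) (nat_lit 76) (nat_lit 1307681639083) (nat_lit 76) (nat_lit 1306629302127) (nat_lit 1) (nat_lit 4) (nat_lit 2) (nat_lit 5) (nat_lit 2) (nat_lit 4) (nat_lit 368) (nat_lit 227) (nat_lit 185)) (XT.lf (nat_lit 0) (nat_lit 2005548292091) (nat_lit 76) (nat_lit 1411482357585) (nat_lit 76) (nat_lit 1410426817977) (nat_lit 1) (nat_lit 4) (nat_lit 2) (nat_lit 5) (nat_lit 2) (nat_lit 4) (nat_lit 369) (nat_lit 227) (nat_lit 184)))) (XT.nd (nat_lit 156) (nat_lit 0) (nat_lit 0) (XT.nd (nat_lit 78) (nat_lit 0) (nat_lit 0) (XT.lf (nat_lit 0) (nat_lit 2167469939809) (nat_lit 76) (nat_lit 1523590933100) (nat_lit 76) (nat_lit 1522532428074) (nat_lit 1) (nat_lit 4) (nat_lit 2) (nat_lit 5) (nat_lit 2) (nat_lit 4) (nat_lit 370) (nat_lit 227) (nat_lit 183)) (XT.lf (nat_lit 0) (nat_lit 2342338122213) (nat_lit 76) (nat_lit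 1644671712743) (nat_lit 76) (nat_lit 1643610461959) (nat_lit 1) (nat_lit 4) (nat_lit 2) (nat_lit 5) (nat_lit 2) (nat_lit 4) (nat_lit 371) (nat_lit 227) (nat_lit 182))) (XT.nd (nat_lit 78) (nat_lit 0) (nat_lit 0) (XT.lf (nat_lit 0) (nat_lit 2531189095198) (nat_lit 76) (nat_lit 1775442212244) (nat_lit 76) (nat_lit 1774378419092) (nat_lit 1) (nat_lit 4) (nat_lit 2) (nat_lit 5) (nat_lit 2) (nat_lit 4) (nat_lit 372) (nat_lit 227) (nat_lit 181)) (XT.lf (nat_lit 0) (nat_lit 2735141975642) (nat_lit 76) (nat_lit 1916677367896) (nat_lit 76) (nat_lit 1915611220700) (nat_lit 1) (nat_lit 4) (nat_lit 2) (nat_lit 5) (nat_lit 2) (nat_lit 4) (nat_lit 373) (nat_lit 227) (nat_lit 180))))))) (XT.nd (nat_lit 1248) (nat_lit 0) (nat_lit 0) (XT.nd (nat_lit 624) (nat_lit 0) (nat_lit 0) (XT.nd (nat_lit 312) (nat_lit 0) (nat_lit 0) (XT.nd (nat_lit 156) (nat_lit 0) (nat_lit 0) (XT.nd (nat_lit 78) (nat_lit 0) (nat_lit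 0) (XT.lf (nat_lit 0) (nat_lit 13056579245) (nat_lit 76) (nat_lit 31657641932) (nat_lit 76) (nat_lit 31657641932) (nat_lit 1) (nat_lit 4) (nat_lit 2) (nat_lit 5) (nat_lit 2) (nat_lit 4) (nat_lit 324) (nat_lit 228) (nat_lit 228)) (XT.lf (nat_lit 0) (nat_lit 32564980078) (nat_lit 76) (nat_lit 66153250060) (nat_lit 76) (nat_lit 66065604239) (nat_lit 1) (nat_lit 4) (nat_lit 2) (nat_lit 5) (nat_lit 2) (nat_lit 4) (nat_lit 325) (nat_lit 228) (nat_lit 227))) (XT.nd (nat_lit 78) (nat_lit 0) (nat_lit 0) (XT.lf (nat_lit 0) (nat_lit 39320229171) (nat_lit 76) (nat_lit 69322233999) (nat_lit 76) (nat_lit 69153434641) (nat_lit 1) (nat_lit 4) (nat_lit 2) (nat_lit 5) (nat_lit 2) (nat_lit 4) (nat_lit 326) (nat_lit 228) (nat_lit 226)) (XT.lf (nat_lit 0) (nat_lit 46418936876) (nat_lit 76) (nat_lit 72841014848) (nat_lit 76) (nat_lit 72597073326) (nat_lit 1) (nat_lit 4) (nat_lit 2) (nat_lit 5) (nat_lit 2)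 (nat_lit 4) (nat_lit 327) (nat_lit 228) (nat_lit 225)))) (XT.nd (nat_lit 156) (nat_lit 0) (nat_lit 0) (XT.nd (nat_lit 78) (nat_lit 0) (nat_lit 0) (XT.lf (nat_lit 0) (nat_lit 53903169608) (nat_lit 76) (nat_lit 76730444641) (nat_lit 76) (nat_lit 76416927041) (nat_lit 1) (nat_lit 4) (nat_lit 2) (nat_lit 5) (nat_lit 2) (nat_lit 4) (nat_lit 328) (nat_lit 228) (nat_lit 224)) (XT.lf (nat_lit 0) (nat_lit 61817278376) (nat_lit 76) (nat_lit 81013571850) (nat_lit 76) (nat_lit 80635631956) (nat_lit 1) (nat_lit 4) (nat_lit 2) (nat_lit 5) (nat_lit 2) (nat_lit 4) (nat_lit 329) (nat_lit 228) (nat_lit 223))) (XT.nd (nat_lit 78) (nat_lit 0) (nat_lit 0) (XT.lf (nat_lit 0) (nat_lit 70208161603) (nat_lit 76) (nat_lit 85715777971) (nat_lit 76) (nat_lit 85278187804) (nat_lit 1) (nat_lit 4) (nat_lit 2) (nat_lit 5) (nat_lit 2) (nat_lit 4) (nat_lit 330) (nat_lit 228) (nat_lit 222)) (XT.lf (nat_lit 0) (nat_lit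 79125543040) (nat_lit 76) (nat_lit 90864927929) (nat_lit 76) (nat_lit 90372106027) (nat_lit 1) (nat_lit 4) (nat_lit 2) (nat_lit 5) (nat_lit 2) (nat_lit 4) (nat_lit 331) (nat_lit 228) (nat_lit 221))))) (XT.nd (nat_lit 312) (nat_lit 0) (nat_lit 0) (XT.nd (nat_lit 156) (nat_lit 0) (nat_lit 0) (XT.nd (nat_lit 78) (nat_lit 0) (nat_lit 0) (XT.lf (nat_lit 0) (nat_lit 88622266430) (nat_lit 76) (nat_lit 96491535204) (nat_lit 76) (nat_lit 95947572808) (nat_lit 1) (nat_lit 4) (nat_lit 2) (nat_lit 5) (nat_lit 2) (nat_lit 4) (nat_lit 332) (nat_lit 228) (nat_lit 220)) (XT.lf (nat_lit 0) (nat_lit 98754608652) (nat_lit 76) (nat_lit 102628942654) (nat_lit 76) (nat_lit 102037627949) (nat_lit 1) (nat_lit 4) (nat_lit 2) (nat_lit 5) (nat_lit 2) (nat_lit 4) (nat_lit 333) (nat_lit 228) (nat_lit 219))) (XT.nd (nat_lit 78) (nat_lit 0) (nat_lit 0) (XT.lf (nat_lit 0) (nat_lit 109582613216) (nat_lit 76) (nat_lit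 109313520103) (nat_lit 76) (nat_lit 108678360666) (nat_lit 1) (nat_lit 4) (nat_lit 2) (nat_lit 5) (nat_lit 2) (nat_lit 4) (nat_lit 334) (nat_lit 228) (nat_lit 218)) (XT.lf (nat_lit 0) (nat_lit 121170446074) (nat_lit 76) (nat_lit 116584879859) (nat_lit 76) (nat_lit 115909123450) (nat_lit 1) (nat_lit 4) (nat_lit 2) (nat_lit 5) (nat_lit 2) (nat_lit 4) (nat_lit 335) (nat_lit 228) (nat_lit 217)))) (XT.nd (nat_lit 156) (nat_lit 0) (nat_lit 0) (XT.nd (nat_lit 78) (nat_lit 0) (nat_lit 0) (XT.lf (nat_lit 0) (nat_lit 133586775865) (nat_lit 76) (nat_lit 124486111464) (nat_lit 76) (nat_lit 123772765264) (nat_lit 1) (nat_lit 4) (nat_lit 2) (nat_lit 5) (nat_lit 2) (nat_lit 4) (nat_lit 336) (nat_lit 228) (nat_lit 216)) (XT.lf (nat_lit 0) (nat_lit 146905180841) (nat_lit 76) (nat_lit 133064037029) (nat_lit 76) (nat_lit 132315885468) (nat_lit 1) (nat_lit 4) (nat_lit 2) (nat_lit 5) (nat_lit 2) (nat_lit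 4) (nat_lit 337) (nat_lit 228) (nat_lit 215))) (XT.nd (nat_lit 78) (nat_lit 0) (nat_lit 0) (XT.lf (nat_lit 0) (nat_lit 161204584883) (nat_lit 76) (nat_lit 142369488706) (nat_lit 76) (nat_lit 141589109959) (nat_lit 1) (nat_lit 4) (nat_lit 2) (nat_lit 5) (nat_lit 2) (nat_lit 4) (nat_lit 338) (nat_lit 228) (nat_lit 214)) (XT.lf (nat_lit 0) (nat_lit 176569725199) (nat_lit 76) (nat_lit 152457609914) (nat_lit 76) (nat_lit 151647391179) (nat_lit 1) (nat_lit 4) (nat_lit 2) (nat_lit 5) (nat_lit 2) (nat_lit 4) (nat_lit 339) (nat_lit 228) (nat_lit 213)))))) (XT.nd (nat_lit 624) (nat_lit 0) (nat_lit 0) (XT.nd (nat_lit 312) (nat_lit 0) (nat_lit 0) (XT.nd (nat_lit 156) (nat_lit 0) (nat_lit 0) (XT.nd (nat_lit 78) (nat_lit 0) (nat_lit 0) (XT.lf (nat_lit 0) (nat_lit 193091654474) (nat_lit 76) (nat_lit 163388182110) (nat_lit 76) (nat_lit 162550333757) (nat_lit 1) (nat_lit 4) (nat_lit 2) (nat_lit 5) (nat_lit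 2) (nat_lit 4) (nat_lit 340) (nat_lit 228) (nat_lit 212)) (XT.lf (nat_lit 0) (nat_lit 210868280435) (nat_lit 76) (nat_lit 175225979056) (nat_lit 76) (nat_lit 174362547724) (nat_lit 1) (nat_lit 4) (nat_lit 2) (nat_lit 5) (nat_lit 2) (nat_lit 4) (nat_lit 341) (nat_lit 228) (nat_lit 211))) (XT.nd (nat_lit 78) (nat_lit 0) (nat_lit 0) (XT.lf (nat_lit 0) (nat_lit 230004946052) (nat_lit 76) (nat_lit 188041150659) (nat_lit 76) (nat_lit 187154031383) (nat_lit 1) (nat_lit 4) (nat_lit 2) (nat_lit 5) (nat_lit 2) (nat_lit 4) (nat_lit 342) (nat_lit 228) (nat_lit 210)) (XT.lf (nat_lit 0) (nat_lit 250615053788) (nat_lit 76) (nat_lit 201909638678) (nat_lit 76) (nat_lit 201000586121) (nat_lit 1) (nat_lit 4) (nat_lit 2) (nat_lit 5) (nat_lit 2) (nat_lit 4) (nat_lit 343) (nat_lit 228) (nat_lit 209)))) (XT.nd (nat_lit 156) (nat_lit 0) (nat_lit 0) (XT.nd (nat_lit 78) (nat_lit 0) (nat_lit 0) (XT.lf (nat_lit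 0) (nat_lit 272820737615) (nat_lit 76) (nat_lit 216913626745) (nat_lit 76) (nat_lit 215984265594) (nat_lit 1) (nat_lit 4) (nat_lit 2) (nat_lit 5) (nat_lit 2) (nat_lit 4) (nat_lit 344) (nat_lit 228) (nat_lit 208)) (XT.lf (nat_lit 0) (nat_lit 296753586769) (nat_lit 76) (nat_lit 233142027382) (nat_lit 76) (nat_lit 232193861977) (nat_lit 1) (nat_lit 4) (nat_lit 2) (nat_lit 5) (nat_lit 2) (nat_lit 4) (nat_lit 345) (nat_lit 228) (nat_lit 207))) (XT.nd (nat_lit 78) (nat_lit 0) (nat_lit 0) (XT.lf (nat_lit 0) (nat_lit 322555425543) (nat_lit 76) (nat_lit 250691008889) (nat_lit 76) (nat_lit 249725432139) (nat_lit 1) (nat_lit 4) (nat_lit 2) (nat_lit 5) (nat_lit 2) (nat_lit 4) (nat_lit 346) (nat_lit 228) (nat_lit 206)) (XT.lf (nat_lit 0) (nat_lit 350379153721) (nat_lit 76) (nat_lit 269664565231) (nat_lit 76) (nat_lit 268682866863) (nat_lit 1) (nat_lit 4) (nat_lit 2) (nat_lit 5) (nat_lit 2) (nat_lit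 4) (nat_lit 347) (nat_lit 228) (nat_lit 205))))) (XT.nd (nat_lit 312) (nat_lit 0) (nat_lit 0) (XT.nd (nat_lit 156) (nat_lit 0) (nat_lit 0) (XT.nd (nat_lit 78) (nat_lit 0) (nat_lit 0) (XT.lf (nat_lit 0) (nat_lit 380389652656) (nat_lit 76) (nat_lit 290175132297) (nat_lit 76) (nat_lit 289178506506) (nat_lit 1) (nat_lit 4) (nat_lit 2) (nat_lit 5) (nat_lit 2) (nat_lit 4) (nat_lit 348) (nat_lit 228) (nat_lit 204)) (XT.lf (nat_lit 0) (nat_lit 412764762341) (nat_lit 76) (nat_lit 312344254187) (nat_lit 76) (nat_lit 311333806709) (nat_lit 1) (nat_lit 4) (nat_lit 2) (nat_lit 5) (nat_lit 2) (nat_lit 4) (nat_lit 349) (nat_lit 228) (nat_lit 203))) (XT.nd (nat_lit 78) (nat_lit 0) (nat_lit 0) (XT.lf (nat_lit 0) (nat_lit 447696335279) (nat_lit 76) (nat_lit 336303303477) (nat_lit 76) (nat_lit 335280058140) (nat_lit 1) (nat_lit 4) (nat_lit 2) (nat_lit 5) (nat_lit 2) (nat_lit 4) (nat_lit 350) (nat_lit 228)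 (nat_lit 202)) (XT.lf (nat_lit 0) (nat_lit 485391373383) (nat_lit 76) (nat_lit 362194259717) (nat_lit 76) (nat_lit 361159164511) (nat_lit 1) (nat_lit 4) (nat_lit 2) (nat_lit 5) (nat_lit 2) (nat_lit 4) (nat_lit 351) (nat_lit 228) (nat_lit 201)))) (XT.nd (nat_lit 156) (nat_lit 0) (nat_lit 0) (XT.nd (nat_lit 78) (nat_lit 0) (nat_lit 0) (XT.lf (nat_lit 0) (nat_lit 526073254656) (nat_lit 76) (nat_lit 390170550797) (nat_lit 76) (nat_lit 389124483489) (nat_lit 1) (nat_lit 4) (nat_lit 2) (nat_lit 5) (nat_lit 2) (nat_lit 4) (nat_lit 352) (nat_lit 228) (nat_lit 200)) (XT.lf (nat_lit 0) (nat_lit 569983056913) (nat_lit 76) (nat_lit 420397962145) (nat_lit 76) (nat_lit 419341735484) (nat_lit 1) (nat_lit 4) (nat_lit 2) (nat_lit 5) (nat_lit 2) (nat_lit 4) (nat_lit 353) (nat_lit 228) (nat_lit 199))) (XT.nd (nat_lit 78) (nat_lit 0) (nat_lit 0) (XT.lf (nat_lit 0) (nat_lit 617380986391) (nat_lit 76) (nat_lit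 453055619162) (nat_lit 76) (nat_lit 451989985692) (nat_lit 1) (nat_lit 4) (nat_lit 2) (nat_lit 5) (nat_lit 2) (nat_lit 4) (nat_lit 354) (nat_lit 228) (nat_lit 198)) (XT.lf (nat_lit 0) (nat_lit 668547919708) (nat_lit 76) (nat_lit 488337048703) (nat_lit 76) (nat_lit 487262705226) (nat_lit 1) (nat_lit 4) (nat_lit 2) (nat_lit 5) (nat_lit 2) (nat_lit 4) (nat_lit 355) (nat_lit 228) (nat_lit 197))))))))
noncomputable def xc10 : XT := (XT.nd (nat_lit 39078) (nat_lit 0) (nat_lit 0) (XT.nd (nat_lit 1170) (nat_lit 0) (nat_lit 0) (XT.nd (nat_lit 546) (nat_lit 0) (nat_lit 0) (XT.nd (nat_lit 234) (nat_lit 0) (nat_lit 0) (XT.nd (nat_lit 78) (nat_lit 0) (nat_lit 0) (XT.lf (nat_lit 0) (nat_lit 723787068321) (nat_lit 76) (nat_lit 526451325908) (nat_lit 76) (nat_lit 525368917608) (nat_lit 1) (nat_lit 4) (nat_lit 2) (nat_lit 5) (nat_lit 2) (nat_lit 4) (nat_lit 356) (nat_lit 228) (nat_lit 196)) (XT.nd (nat_lit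 78) (nat_lit 0) (nat_lit 0) (XT.lf (nat_lit 0) (nat_lit 783425775333) (nat_lit 76) (nat_lit 567624313159) (nat_lit 76) (nat_lit 566534437432) (nat_lit 1) (nat_lit 4) (nat_lit 2) (nat_lit 5) (nat_lit 2) (nat_lit 4) (nat_lit 357) (nat_lit 228) (nat_lit 195)) (XT.lf (nat_lit 0) (nat_lit 847817455303) (nat_lit 76) (nat_lit 612099998529) (nat_lit 76) (nat_lit 611003208517) (nat_lit 1) (nat_lit 4) (nat_lit 2) (nat_lit 5) (nat_lit 2) (nat_lit 4) (nat_lit 358) (nat_lit 228) (nat_lit 194)))) (XT.nd (nat_lit 156) (nat_lit 0) (nat_lit 0) (XT.nd (nat_lit 78) (nat_lit 0) (nat_lit 0) (XT.lf (nat_lit 0) (nat_lit 917343688558) (nat_lit 76) (nat_lit 660141941635) (nat_lit 76) (nat_lit 659038749507) (nat_lit 1) (nat_lit 4) (nat_lit 2) (nat_lit 5) (nat_lit 2) (nat_lit 4) (nat_lit 359) (nat_lit 228) (nat_lit 193)) (XT.lf (nat_lit 0) (nat_lit 992416482406) (nat_lit 76) (nat_lit 712034835474) (nat_lit 76)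 (nat_lit 710925715461) (nat_lit 1) (nat_lit 4) (nat_lit 2) (nat_lit 5) (nat_lit 2) (nat_lit 4) (nat_lit 360) (nat_lit 228) (nat_lit 192))) (XT.nd (nat_lit 78) (nat_lit 0) (nat_lit 0) (XT.lf (nat_lit 0) (nat_lit 1073480712663) (nat_lit 76) (nat_lit 768086193490) (nat_lit 76) (nat_lit 766971584694) (nat_lit 1) (nat_lit 4) (nat_lit 2) (nat_lit 5) (nat_lit 2) (nat_lit 4) (nat_lit 361) (nat_lit 228) (nat_lit 191)) (XT.lf (nat_lit 0) (nat_lit 1161016759951) (nat_lit 76) (nat_lit 828628171878) (nat_lit 76) (nat_lit 827508480877) (nat_lit 1) (nat_lit 4) (nat_lit 2) (nat_lit 5) (nat_lit 2) (nat_lit 4) (nat_lit 362) (nat_lit 228) (nat_lit 190))))) (XT.nd (nat_lit 312) (nat_lit 0) (nat_lit 0) (XT.nd (nat_lit 156) (nat_lit 0) (nat_lit 0) (XT.nd (nat_lit 78) (nat_lit 0) (nat_lit 0) (XT.lf (nat_lit 0) (nat_lit 1255543356403) (nat_lit 76) (nat_lit 894019537919) (nat_lit 76) (nat_lit 892895141171) (nat_lit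 1) (nat_lit 4) (nat_lit 2) (nat_lit 5) (nat_lit 2) (nat_lit 4) (nat_lit 363) (nat_lit 228) (nat_lit 189)) (XT.lf (nat_lit 0) (nat_lit 1357620659628) (nat_lit 76) (nat_lit 964647796004) (nat_lit 76) (nat_lit 963519042083) (nat_lit 1) (nat_lit 4) (nat_lit 2) (nat_lit 5) (nat_lit 2) (nat_lit 4) (nat_lit 364) (nat_lit 228) (nat_lit 188))) (XT.nd (nat_lit 78) (nat_lit 0) (nat_lit 0) (XT.lf (nat_lit 0) (nat_lit 1467853572163) (nat_lit 76) (nat_lit 1040931483957) (nat_lit 76) (nat_lit 1039798695618) (nat_lit 1) (nat_lit 4) (nat_lit 2) (nat_lit 5) (nat_lit 2) (nat_lit 4) (nat_lit 365) (nat_lit 228) (nat_lit 187)) (XT.lf (nat_lit 0) (nat_lit 1586895326082) (nat_lit 76) (nat_lit 1123322653264) (nat_lit 76) (nat_lit 1122186129352) (nat_lit 1) (nat_lit 4) (nat_lit 2) (nat_lit 5) (nat_lit 2) (nat_lit 4) (nat_lit 366) (nat_lit 228) (nat_lit 186)))) (XT.nd (nat_lit 156) (nat_lit 0) (nat_lit 0) (XT.nd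 (nat_lit 78) (nat_lit 0) (nat_lit 0) (XT.lf (nat_lit 0) (nat_lit 1715451354002) (nat_lit 76) (nat_lit 1212309547891) (nat_lit 76) (nat_lit 1211169565115) (nat_lit 1) (nat_lit 4) (nat_lit 2) (nat_lit 5) (nat_lit 2) (nat_lit 4) (nat_lit 367) (nat_lit 228) (nat_lit 185)) (XT.lf (nat_lit 0) (nat_lit 1854283469422) (nat_lit 76) (nat_lit 1308419497584) (nat_lit 76) (nat_lit 1307276312156) (nat_lit 1) (nat_lit 4) (nat_lit 2) (nat_lit 5) (nat_lit 2) (nat_lit 4) (nat_lit 368) (nat_lit 228) (nat_lit 184))) (XT.nd (nat_lit 78) (nat_lit 0) (nat_lit 0) (XT.lf (nat_lit 0) (nat_lit 2004214381172) (nat_lit 76) (nat_lit 1412222042785) (nat_lit 76) (nat_lit 1411075891938) (nat_lit 1) (nat_lit 4) (nat_lit 2) (nat_lit 5) (nat_lit 2) (nat_lit 4) (nat_lit 369) (nat_lit 228) (nat_lit 183)) (XT.lf (nat_lit 0) (nat_lit 2166132568731) (nat_lit 76) (nat_lit 1524332309687) (nat_lit 76) (nat_lit 1523183413083) (nat_lit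 1) (nat_lit 4) (nat_lit 2) (nat_lit 5) (nat_lit 2) (nat_lit 4) (nat_lit 370) (nat_lit 228) (nat_lit 182)))))) (XT.nd (nat_lit 37284) (nat_lit 0) (nat_lit 0) (XT.nd (nat_lit 36972) (nat_lit 0) (nat_lit 0) (XT.nd (nat_lit 36816) (nat_lit 0) (nat_lit 0) (XT.nd (nat_lit 78) (nat_lit 0) (nat_lit 0) (XT.lf (nat_lit 0) (nat_lit 2340997547283) (nat_lit 76) (nat_lit 1645414655429) (nat_lit 76) (nat_lit 1644263216457) (nat_lit 1) (nat_lit 4) (nat_lit 2) (nat_lit 5) (nat_lit 2) (nat_lit 4) (nat_lit 371) (nat_lit 228) (nat_lit 181)) (XT.lf (nat_lit 0) (nat_lit 2529845553739) (nat_lit 76) (nat_lit 1776186605022) (nat_lit 76) (nat_lit 1775032812005) (nat_lit 1) (nat_lit 4) (nat_lit 2) (nat_lit 5) (nat_lit 2) (nat_lit 4) (nat_lit 372) (nat_lit 228) (nat_lit 180))) (XT.nd (nat_lit 78) (nat_lit 0) (nat_lit 0) (XT.lf (nat_lit 0) (nat_lit 7043861559) (nat_lit 76) (nat_lit 29301672389) (nat_lit 76) (nat_lit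 29301672389) (nat_lit 1) (nat_lit 4) (nat_lit 2) (nat_lit 5) (nat_lit 2) (nat_lit 4) (nat_lit 322) (nat_lit 229) (nat_lit 229)) (XT.lf (nat_lit 0) (nat_lit 19926531390) (nat_lit 76) (nat_lit 60886175324) (nat_lit 76) (nat_lit 60791517838) (nat_lit 1) (nat_lit 4) (nat_lit 2) (nat_lit 5) (nat_lit 2) (nat_lit 4) (nat_lit 323) (nat_lit 229) (nat_lit 228)))) (XT.nd (nat_lit 156) (nat_lit 0) (nat_lit 0) (XT.nd (nat_lit 78) (nat_lit 0) (nat_lit 0) (XT.lf (nat_lit 0) (nat_lit 26002708644) (nat_lit 76) (nat_lit 63463931200) (nat_lit 76) (nat_lit 63281627894) (nat_lit 1) (nat_lit 4) (nat_lit 2) (nat_lit 5) (nat_lit 2) (nat_lit 4) (nat_lit 324) (nat_lit 229) (nat_lit 227)) (XT.lf (nat_lit 0) (nat_lit 32352261856) (nat_lit 76) (nat_lit 66351887995) (nat_lit 76) (nat_lit 66088431151) (nat_lit 1) (nat_lit 4) (nat_lit 2) (nat_lit 5) (nat_lit 2) (nat_lit 4) (nat_lit 325) (nat_lit 229) (nat_lit 226)))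 (XT.nd (nat_lit 78) (nat_lit 0) (nat_lit 0) (XT.lf (nat_lit 0) (nat_lit 39012818009) (nat_lit 76) (nat_lit 69567159528) (nat_lit 76) (nat_lit 69228560520) (nat_lit 1) (nat_lit 4) (nat_lit 2) (nat_lit 5) (nat_lit 2) (nat_lit 4) (nat_lit 326) (nat_lit 229) (nat_lit 225)) (XT.lf (nat_lit 0) (nat_lit 46023847065) (nat_lit 76) (nat_lit 73128799260) (nat_lit 76) (nat_lit 72720624174) (nat_lit 1) (nat_lit 4) (nat_lit 2) (nat_lit 5) (nat_lit 2) (nat_lit 4) (nat_lit 327) (nat_lit 229) (nat_lit 224))))) (XT.nd (nat_lit 312) (nat_lit 0) (nat_lit 0) (XT.nd (nat_lit 156) (nat_lit 0) (nat_lit 0) (XT.nd (nat_lit 78) (nat_lit 0) (nat_lit 0) (XT.lf (nat_lit 0) (nat_lit 53426895863) (nat_lit 76) (nat_lit 77057913203) (nat_lit 76) (nat_lit 76585315823) (nat_lit 1) (nat_lit 4) (nat_lit 2) (nat_lit 5) (nat_lit 2) (nat_lit 4) (nat_lit 328) (nat_lit 229) (nat_lit 223)) (XT.lf (nat_lit 0) (nat_lit 61265834322)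 (nat_lit 76) (nat_lit 81377784997) (nat_lit 76) (nat_lit 80845537343) (nat_lit 1) (nat_lit 4) (nat_lit 2) (nat_lit 5) (nat_lit 2) (nat_lit 4) (nat_lit 329) (nat_lit 229) (nat_lit 222))) (XT.nd (nat_lit 78) (nat_lit 0) (nat_lit 0) (XT.lf (nat_lit 0) (nat_lit 69587115411) (nat_lit 76) (nat_lit 86114013880) (nat_lit 76) (nat_lit 85526534493) (nat_lit 1) (nat_lit 4) (nat_lit 2) (nat_lit 5) (nat_lit 2) (nat_lit 4) (nat_lit 330) (nat_lit 229) (nat_lit 221)) (XT.lf (nat_lit 0) (nat_lit 78440050424) (nat_lit 76) (nat_lit 91294666396) (nat_lit 76) (nat_lit 90656046514) (nat_lit 1) (nat_lit 4) (nat_lit 2) (nat_lit 5) (nat_lit 2) (nat_lit 4) (nat_lit 331) (nat_lit 229) (nat_lit 220)))) (XT.nd (nat_lit 156) (nat_lit 0) (nat_lit 0) (XT.nd (nat_lit 78) (nat_lit 0) (nat_lit 0) (XT.lf (nat_lit 0) (nat_lit 87877101199) (nat_lit 76) (nat_lit 96950442706) (nat_lit 76) (nat_lit 96264470515) (nat_lit 1)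 (nat_lit 4) (nat_lit 2) (nat_lit 5) (nat_lit 2) (nat_lit 4) (nat_lit 332) (nat_lit 229) (nat_lit 219)) (XT.lf (nat_lit 0) (nat_lit 97954191000) (nat_lit 76) (nat_lit 103114858523) (nat_lit 76) (nat_lit 102385041601) (nat_lit 1) (nat_lit 4) (nat_lit 2) (nat_lit 5) (nat_lit 2) (nat_lit 4) (nat_lit 333) (nat_lit 229) (nat_lit 218))) (XT.nd (nat_lit 78) (nat_lit 0) (nat_lit 0) (XT.lf (nat_lit 0) (nat_lit 108731035914) (nat_lit 76) (nat_lit 109824443718) (nat_lit 76) (nat_lit 109054029822) (nat_lit 1) (nat_lit 4) (nat_lit 2) (nat_lit 5) (nat_lit 2) (nat_lit 4) (nat_lit 334) (nat_lit 229) (nat_lit 217)) (XT.lf (nat_lit 0) (nat_lit 120271498726) (nat_lit 76) (nat_lit 117118958795) (nat_lit 76) (nat_lit 116310955110) (nat_lit 1) (nat_lit 4) (nat_lit 2) (nat_lit 5) (nat_lit 2) (nat_lit 4) (nat_lit 335) (nat_lit 229) (nat_lit 216))))))) (XT.nd (nat_lit 1248) (nat_lit 0) (nat_lit 0) (XT.nd (nat_lit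 624) (nat_lit 0) (nat_lit 0) (XT.nd (nat_lit 312) (nat_lit 0) (nat_lit 0) (XT.nd (nat_lit 156) (nat_lit 0) (nat_lit 0) (XT.nd (nat_lit 78) (nat_lit 0) (nat_lit 0) (XT.lf (nat_lit 0) (nat_lit 132643967365) (nat_lit 76) (nat_lit 125041630511) (nat_lit 76) (nat_lit 124198821464) (nat_lit 1) (nat_lit 4) (nat_lit 2) (nat_lit 5) (nat_lit 2) (nat_lit 4) (nat_lit 336) (nat_lit 229) (nat_lit 215)) (XT.lf (nat_lit 0) (nat_lit 145921760162) (nat_lit 76) (nat_lit 133639408032) (nat_lit 76) (nat_lit 132764371799) (nat_lit 1) (nat_lit 4) (nat_lit 2) (nat_lit 5) (nat_lit 2) (nat_lit 4) (nat_lit 337) (nat_lit 229) (nat_lit 214))) (XT.nd (nat_lit 78) (nat_lit 0) (nat_lit 0) (XT.lf (nat_lit 0) (nat_lit 160183560334) (nat_lit 76) (nat_lit 142963241150) (nat_lit 76) (nat_lit 142058364929) (nat_lit 1) (nat_lit 4) (nat_lit 2) (nat_lit 5) (nat_lit 2) (nat_lit 4) (nat_lit 338) (nat_lit 229) (nat_lit 213)) (XT.lf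 (nat_lit 0) (nat_lit 175513882252) (nat_lit 76) (nat_lit 153068382209) (nat_lit 76) (nat_lit 152135876371) (nat_lit 1) (nat_lit 4) (nat_lit 2) (nat_lit 5) (nat_lit 2) (nat_lit 4) (nat_lit 339) (nat_lit 229) (nat_lit 212)))) (XT.nd (nat_lit 156) (nat_lit 0) (nat_lit 0) (XT.nd (nat_lit 78) (nat_lit 0) (nat_lit 0) (XT.lf (nat_lit 0) (nat_lit 192003572270) (nat_lit 76) (nat_lit 164014713527) (nat_lit 76) (nat_lit 163056624709) (nat_lit 1) (nat_lit 4) (nat_lit 2) (nat_lit 5) (nat_lit 2) (nat_lit 4) (nat_lit 340) (nat_lit 229) (nat_lit 211)) (XT.lf (nat_lit 0) (nat_lit 209750347067) (nat_lit 76) (nat_lit 175867102253) (nat_lit 76) (nat_lit 174885325491) (nat_lit 1) (nat_lit 4) (nat_lit 2) (nat_lit 5) (nat_lit 2) (nat_lit 4) (nat_lit 341) (nat_lit 229) (nat_lit 210))) (XT.nd (nat_lit 78) (nat_lit 0) (nat_lit 0) (XT.lf (nat_lit 0) (nat_lit 228859372718) (nat_lit 76) (nat_lit 188695784764) (nat_lit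 76) (nat_lit 187692074720) (nat_lit 1) (nat_lit 4) (nat_lit 2) (nat_lit 5) (nat_lit 2) (nat_lit 4) (nat_lit 342) (nat_lit 229) (nat_lit 209)) (XT.lf (nat_lit 0) (nat_lit 249443887892) (nat_lit 76) (nat_lit 202576782882) (nat_lit 76) (nat_lit 201552764245) (nat_lit 1) (nat_lit 4) (nat_lit 2) (nat_lit 5) (nat_lit 2) (nat_lit 4) (nat_lit 343) (nat_lit 229) (nat_lit 208))))) (XT.nd (nat_lit 312) (nat_lit 0) (nat_lit 0) (XT.nd (nat_lit 156) (nat_lit 0) (nat_lit 0) (XT.nd (nat_lit 78) (nat_lit 0) (nat_lit 0) (XT.lf (nat_lit 0) (nat_lit 271625874902) (nat_lit 76) (nat_lit 217592354374) (nat_lit 76) (nat_lit 216549531484) (nat_lit 1) (nat_lit 4) (nat_lit 2) (nat_lit 5) (nat_lit 2) (nat_lit 4) (nat_lit 344) (nat_lit 229) (nat_lit 207)) (XT.lf (nat_lit 0) (nat_lit 295536782560) (nat_lit 76) (nat_lit 233831480405) (nat_lit 76) (nat_lit 232771246168) (nat_lit 1) (nat_lit 4) (nat_lit 2) (nat_lit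 5) (nat_lit 2) (nat_lit 4) (nat_lit 345) (nat_lit 229) (nat_lit 206))) (XT.nd (nat_lit 78) (nat_lit 0) (nat_lit 0) (XT.lf (nat_lit 0) (nat_lit 321318305133) (nat_lit 76) (nat_lit 251390392833) (nat_lit 76) (nat_lit 250314036979) (nat_lit 1) (nat_lit 4) (nat_lit 2) (nat_lit 5) (nat_lit 2) (nat_lit 4) (nat_lit 346) (nat_lit 229) (nat_lit 205)) (XT.lf (nat_lit 0) (nat_lit 349123222014) (nat_lit 76) (nat_lit 270373144471) (nat_lit 76) (nat_lit 269281861194) (nat_lit 1) (nat_lit 4) (nat_lit 2) (nat_lit 5) (nat_lit 2) (nat_lit 4) (nat_lit 347) (nat_lit 229) (nat_lit 204)))) (XT.nd (nat_lit 156) (nat_lit 0) (nat_lit 0) (XT.nd (nat_lit 78) (nat_lit 0) (nat_lit 0) (XT.lf (nat_lit 0) (nat_lit 379116303081) (nat_lit 76) (nat_lit 290892225699) (nat_lit 76) (nat_lit 289787120735) (nat_lit 1) (nat_lit 4) (nat_lit 2) (nat_lit 5) (nat_lit 2) (nat_lit 4) (nat_lit 348) (nat_lit 229) (nat_lit 203)) (XT.lf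 (nat_lit 0) (nat_lit 411475285112) (nat_lit 76) (nat_lit 313069231075) (nat_lit 76) (nat_lit 311951328251) (nat_lit 1) (nat_lit 4) (nat_lit 2) (nat_lit 5) (nat_lit 2) (nat_lit 4) (nat_lit 349) (nat_lit 229) (nat_lit 202))) (XT.nd (nat_lit 78) (nat_lit 0) (nat_lit 0) (XT.lf (nat_lit 0) (nat_lit 446391925035) (nat_lit 76) (nat_lit 337035579887) (nat_lit 76) (nat_lit 335905827195) (nat_lit 1) (nat_lit 4) (nat_lit 2) (nat_lit 5) (nat_lit 2) (nat_lit 4) (nat_lit 350) (nat_lit 229) (nat_lit 201)) (XT.lf (nat_lit 0) (nat_lit 484073136274) (nat_lit 76) (nat_lit 362933294945) (nat_lit 76) (nat_lit 361792570151) (nat_lit 1) (nat_lit 4) (nat_lit 2) (nat_lit 5) (nat_lit 2) (nat_lit 4) (nat_lit 351) (nat_lit 229) (nat_lit 200)))))) (XT.nd (nat_lit 624) (nat_lit 0) (nat_lit 0) (XT.nd (nat_lit 312) (nat_lit 0) (nat_lit 0) (XT.nd (nat_lit 156) (nat_lit 0) (nat_lit 0) (XT.nd (nat_lit 78) (nat_lit 0)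 (nat_lit 0) (XT.lf (nat_lit 0) (nat_lit 524742214895) (nat_lit 76) (nat_lit 390915844189) (nat_lit 76) (nat_lit 389764960042) (nat_lit 1) (nat_lit 4) (nat_lit 2) (nat_lit 5) (nat_lit 2) (nat_lit 4) (nat_lit 352) (nat_lit 229) (nat_lit 199)) (XT.lf (nat_lit 0) (nat_lit 568640162845) (nat_lit 76) (nat_lit 421149050134) (nat_lit 76) (nat_lit 419988759178) (nat_lit 1) (nat_lit 4) (nat_lit 2) (nat_lit 5) (nat_lit 2) (nat_lit 4) (nat_lit 353) (nat_lit 229) (nat_lit 198))) (XT.nd (nat_lit 78) (nat_lit 0) (nat_lit 0) (XT.lf (nat_lit 0) (nat_lit 616027116111) (nat_lit 76) (nat_lit 453812072517) (nat_lit 76) (nat_lit 452643071554) (nat_lit 1) (nat_lit 4) (nat_lit 2) (nat_lit 5) (nat_lit 2) (nat_lit 4) (nat_lit 354) (nat_lit 229) (nat_lit 197)) (XT.lf (nat_lit 0) (nat_lit 667183886270) (nat_lit 76) (nat_lit 489098469992) (nat_lit 76) (nat_lit 487921404206) (nat_lit 1) (nat_lit 4) (nat_lit 2) (nat_lit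 5) (nat_lit 2) (nat_lit 4) (nat_lit 355) (nat_lit 229) (nat_lit 196)))) (XT.nd (nat_lit 156) (nat_lit 0) (nat_lit 0) (XT.nd (nat_lit 78) (nat_lit 0) (nat_lit 0) (XT.lf (nat_lit 0) (nat_lit 722413624551) (nat_lit 76) (nat_lit 527217347134) (nat_lit 76) (nat_lit 526032813920) (nat_lit 1) (nat_lit 4) (nat_lit 2) (nat_lit 5) (nat_lit 2) (nat_lit 4) (nat_lit 356) (nat_lit 229) (nat_lit 195)) (XT.lf (nat_lit 0) (nat_lit 782043618292) (nat_lit 76) (nat_lit 568394593586) (nat_lit 76) (nat_lit 567203146088) (nat_lit 1) (nat_lit 4) (nat_lit 2) (nat_lit 5) (nat_lit 2) (nat_lit 4) (nat_lit 357) (nat_lit 229) (nat_lit 194))) (XT.nd (nat_lit 78) (nat_lit 0) (nat_lit 0) (XT.lf (nat_lit 0) (nat_lit 846427230420) (nat_lit 76) (nat_lit 612874222661) (nat_lit 76) (nat_lit 611676373047) (nat_lit 1) (nat_lit 4) (nat_lit 2) (nat_lit 5) (nat_lit 2) (nat_lit 4) (nat_lit 358) (nat_lit 229) (nat_lit 193)) (XT.lf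 (nat_lit 0) (nat_lit 915945993450) (nat_lit 76) (nat_lit 660919817346) (nat_lit 76) (nat_lit 659716039847) (nat_lit 1) (nat_lit 4) (nat_lit 2) (nat_lit 5) (nat_lit 2) (nat_lit 4) (nat_lit 359) (nat_lit 229) (nat_lit 192))))) (XT.nd (nat_lit 312) (nat_lit 0) (nat_lit 0) (XT.nd (nat_lit 156) (nat_lit 0) (nat_lit 0) (XT.nd (nat_lit 78) (nat_lit 0) (nat_lit 0) (XT.lf (nat_lit 0) (nat_lit 991011870424) (nat_lit 76) (nat_lit 712816092276) (nat_lit 76) (nat_lit 711606825995) (nat_lit 1) (nat_lit 4) (nat_lit 2) (nat_lit 5) (nat_lit 2) (nat_lit 4) (nat_lit 360) (nat_lit 229) (nat_lit 191)) (XT.lf (nat_lit 0) (nat_lit 1072069696166) (nat_lit 76) (nat_lit 768870580932) (nat_lit 76) (nat_lit 767656232445) (nat_lit 1) (nat_lit 4) (nat_lit 2) (nat_lit 5) (nat_lit 2) (nat_lit 4) (nat_lit 361) (nat_lit 229) (nat_lit 190))) (XT.nd (nat_lit 78) (nat_lit 0) (nat_lit 0) (XT.lf (nat_lit 0) (nat_lit 1159599813349)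 (nat_lit 76) (nat_lit 829415458062) (nat_lit 76) (nat_lit 828196403828) (nat_lit 1) (nat_lit 4) (nat_lit 2) (nat_lit 5) (nat_lit 2) (nat_lit 4) (nat_lit 362) (nat_lit 229) (nat_lit 189)) (XT.lf (nat_lit 0) (nat_lit 1254120918963) (nat_lit 76) (nat_lit 894809508122) (nat_lit 76) (nat_lit 893586096716) (nat_lit 1) (nat_lit 4) (nat_lit 2) (nat_lit 5) (nat_lit 2) (nat_lit 4) (nat_lit 363) (nat_lit 229) (nat_lit 188)))) (XT.nd (nat_lit 156) (nat_lit 0) (nat_lit 0) (XT.nd (nat_lit 78) (nat_lit 0) (nat_lit 0) (XT.lf (nat_lit 0) (nat_lit 1356193138078) (nat_lit 76) (nat_lit 965440251410) (nat_lit 76) (nat_lit 964212805584) (nat_lit 1) (nat_lit 4) (nat_lit 2) (nat_lit 5) (nat_lit 2) (nat_lit 4) (nat_lit 364) (nat_lit 229) (nat_lit 187)) (XT.lf (nat_lit 0) (nat_lit 1466421343104) (nat_lit 76) (nat_lit 1041726240477) (nat_lit 76) (nat_lit 1040495059079) (nat_lit 1) (nat_lit 4) (nat_lit 2) (nat_lit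 5) (nat_lit 2) (nat_lit 4) (nat_lit 365) (nat_lit 229) (nat_lit 186))) (XT.nd (nat_lit 78) (nat_lit 0) (nat_lit 0) (XT.lf (nat_lit 0) (nat_lit 1585458738220) (nat_lit 76) (nat_lit 1124119540446) (nat_lit 76) (nat_lit 1122884900183) (nat_lit 1) (nat_lit 4) (nat_lit 2) (nat_lit 5) (nat_lit 2) (nat_lit 4) (nat_lit 366) (nat_lit 229) (nat_lit 185)) (XT.lf (nat_lit 0) (nat_lit 1714010730210) (nat_lit 76) (nat_lit 1213108407907) (nat_lit 76) (nat_lit 1211870564993) (nat_lit 1) (nat_lit 4) (nat_lit 2) (nat_lit 5) (nat_lit 2) (nat_lit 4) (nat_lit 367) (nat_lit 229) (nat_lit 184))))))))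
noncomputable def xc11 : XT := (XT.nd (nat_lit 39000) (nat_lit 0) (nat_lit 0) (XT.nd (nat_lit 37752) (nat_lit 0) (nat_lit 0) (XT.nd (nat_lit 37128) (nat_lit 0) (nat_lit 0) (XT.nd (nat_lit 312) (nat_lit 0) (nat_lit 0) (XT.nd (nat_lit 156) (nat_lit 0) (nat_lit 0) (XT.nd (nat_lit 78) (nat_lit 0) (nat_lit 0) (XT.lf (nat_lit 0) (nat_lit 1852839108656) (nat_lit 76) (nat_lit 1309220184298) (nat_lit 76) (nat_lit 1307979375966) (nat_lit 1) (nat_lit 4) (nat_lit 2) (nat_lit 5) (nat_lit 2) (nat_lit 4) (nat_lit 368) (nat_lit 229) (nat_lit 183)) (XT.lf (nat_lit 0) (nat_lit 2002766560247) (nat_lit 76) (nat_lit 1413024420886) (nat_lit 76) (nat_lit 1411780866796) (nat_lit 1) (nat_lit 4) (nat_lit 2) (nat_lit 5) (nat_lit 2) (nat_lit 4) (nat_lit 369) (nat_lit 229) (nat_lit 182))) (XT.nd (nat_lit 78) (nat_lit 0) (nat_lit 0) (XT.lf (nat_lit 0) (nat_lit 2164681543955) (nat_lit 76) (nat_lit 1525136253888) (nat_lit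 76) (nat_lit 1523890157430) (nat_lit 1) (nat_lit 4) (nat_lit 2) (nat_lit 5) (nat_lit 2) (nat_lit 4) (nat_lit 370) (nat_lit 229) (nat_lit 181)) (XT.lf (nat_lit 0) (nat_lit 2339543555978) (nat_lit 76) (nat_lit 1646220049723) (nat_lit 76) (nat_lit 1644971599220) (nat_lit 1) (nat_lit 4) (nat_lit 2) (nat_lit 5) (nat_lit 2) (nat_lit 4) (nat_lit 371) (nat_lit 229) (nat_lit 180)))) (XT.nd (nat_lit 36660) (nat_lit 0) (nat_lit 0) (XT.nd (nat_lit 36582) (nat_lit 0) (nat_lit 0) (XT.lf (nat_lit 0) (nat_lit 2528388815648) (nat_lit 76) (nat_lit 1776993341994) (nat_lit 76) (nat_lit 1775742711820) (nat_lit 1) (nat_lit 4) (nat_lit 2) (nat_lit 5) (nat_lit 2) (nat_lit 4) (nat_lit 372) (nat_lit 229) (nat_lit 179)) (XT.lf (nat_lit 0) (nat_lit 1556921217) (nat_lit 76) (nat_lit 27454636000) (nat_lit 76) (nat_lit 27454636000) (nat_lit 1) (nat_lit 4) (nat_lit 2) (nat_lit 5) (nat_lit 2) (nat_lit 4) (nat_lit 320)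 (nat_lit 230) (nat_lit 230))) (XT.nd (nat_lit 78) (nat_lit 0) (nat_lit 0) (XT.lf (nat_lit 0) (nat_lit 8451683485) (nat_lit 76) (nat_lit 56704141761) (nat_lit 76) (nat_lit 56601911676) (nat_lit 1) (nat_lit 4) (nat_lit 2) (nat_lit 5) (nat_lit 2) (nat_lit 4) (nat_lit 321) (nat_lit 230) (nat_lit 229)) (XT.lf (nat_lit 0) (nat_lit 13968437286) (nat_lit 76) (nat_lit 58763883900) (nat_lit 76) (nat_lit 58566996329) (nat_lit 1) (nat_lit 4) (nat_lit 2) (nat_lit 5) (nat_lit 2) (nat_lit 4) (nat_lit 322) (nat_lit 230) (nat_lit 228))))) (XT.nd (nat_lit 312) (nat_lit 0) (nat_lit 0) (XT.nd (nat_lit 156) (nat_lit 0) (nat_lit 0) (XT.nd (nat_lit 78) (nat_lit 0) (nat_lit 0) (XT.lf (nat_lit 0) (nat_lit 19696795711) (nat_lit 76) (nat_lit 61100704295) (nat_lit 76) (nat_lit 60816170904) (nat_lit 1) (nat_lit 4) (nat_lit 2) (nat_lit 5) (nat_lit 2) (nat_lit 4) (nat_lit 323) (nat_lit 230) (nat_lit 227)) (XT.lf (nat_lit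 0) (nat_lit 25670704589) (nat_lit 76) (nat_lit 63728450771) (nat_lit 76) (nat_lit 63362763843) (nat_lit 1) (nat_lit 4) (nat_lit 2) (nat_lit 5) (nat_lit 2) (nat_lit 4) (nat_lit 324) (nat_lit 230) (nat_lit 226))) (XT.nd (nat_lit 78) (nat_lit 0) (nat_lit 0) (XT.lf (nat_lit 0) (nat_lit 31925564861) (nat_lit 76) (nat_lit 66662695160) (nat_lit 76) (nat_lit 66221866067) (nat_lit 1) (nat_lit 4) (nat_lit 2) (nat_lit 5) (nat_lit 2) (nat_lit 4) (nat_lit 325) (nat_lit 230) (nat_lit 225)) (XT.lf (nat_lit 0) (nat_lit 38498442365) (nat_lit 76) (nat_lit 69920825575) (nat_lit 76) (nat_lit 69410420404) (nat_lit 1) (nat_lit 4) (nat_lit 2) (nat_lit 5) (nat_lit 2) (nat_lit 4) (nat_lit 326) (nat_lit 230) (nat_lit 224)))) (XT.nd (nat_lit 156) (nat_lit 0) (nat_lit 0) (XT.nd (nat_lit 78) (nat_lit 0) (nat_lit 0) (XT.lf (nat_lit 0) (nat_lit 45428287487) (nat_lit 76) (nat_lit 73522149458) (nat_lit 76) (nat_lit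 72947321992) (nat_lit 1) (nat_lit 4) (nat_lit 2) (nat_lit 5) (nat_lit 2) (nat_lit 4) (nat_lit 327) (nat_lit 230) (nat_lit 223)) (XT.lf (nat_lit 0) (nat_lit 52756165976) (nat_lit 76) (nat_lit 77488007985) (nat_lit 76) (nat_lit 76853530247) (nat_lit 1) (nat_lit 4) (nat_lit 2) (nat_lit 5) (nat_lit 2) (nat_lit 4) (nat_lit 328) (nat_lit 230) (nat_lit 222))) (XT.nd (nat_lit 78) (nat_lit 0) (nat_lit 0) (XT.lf (nat_lit 0) (nat_lit 60525502297) (nat_lit 76) (nat_lit 81841902541) (nat_lit 76) (nat_lit 81152193069) (nat_lit 1) (nat_lit 4) (nat_lit 2) (nat_lit 5) (nat_lit 2) (nat_lit 4) (nat_lit 329) (nat_lit 230) (nat_lit 221)) (XT.lf (nat_lit 0) (nat_lit 68782336961) (nat_lit 76) (nat_lit 86609633983) (nat_lit 76) (nat_lit 85868784017) (nat_lit 1) (nat_lit 4) (nat_lit 2) (nat_lit 5) (nat_lit 2) (nat_lit 4) (nat_lit 330) (nat_lit 230) (nat_lit 220)))))) (XT.nd (nat_lit 624) (nat_lit 0) (nat_lit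 0) (XT.nd (nat_lit 312) (nat_lit 0) (nat_lit 0) (XT.nd (nat_lit 156) (nat_lit 0) (nat_lit 0) (XT.nd (nat_lit 78) (nat_lit 0) (nat_lit 0) (XT.lf (nat_lit 0) (nat_lit 77575599360) (nat_lit 76) (nat_lit 91819455534) (nat_lit 76) (nat_lit 91031253258) (nat_lit 1) (nat_lit 4) (nat_lit 2) (nat_lit 5) (nat_lit 2) (nat_lit 4) (nat_lit 331) (nat_lit 230) (nat_lit 219)) (XT.lf (nat_lit 0) (nat_lit 86957397713) (nat_lit 76) (nat_lit 97502240211) (nat_lit 76) (nat_lit 96670193204) (nat_lit 1) (nat_lit 4) (nat_lit 2) (nat_lit 5) (nat_lit 2) (nat_lit 4) (nat_lit 332) (nat_lit 230) (nat_lit 218))) (XT.nd (nat_lit 78) (nat_lit 0) (nat_lit 0) (XT.lf (nat_lit 0) (nat_lit 96983327865) (nat_lit 76) (nat_lit 103691663774) (nat_lit 76) (nat_lit 102819019793) (nat_lit 1) (nat_lit 4) (nat_lit 2) (nat_lit 5) (nat_lit 2) (nat_lit 4) (nat_lit 333) (nat_lit 230) (nat_lit 217)) (XT.lf (nat_lit 0) (nat_lit 107712802733)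 (nat_lit 76) (nat_lit 110424404289) (nat_lit 76) (nat_lit 109514170519) (nat_lit 1) (nat_lit 4) (nat_lit 2) (nat_lit 5) (nat_lit 2) (nat_lit 4) (nat_lit 334) (nat_lit 230) (nat_lit 216)))) (XT.nd (nat_lit 156) (nat_lit 0) (nat_lit 0) (XT.nd (nat_lit 78) (nat_lit 0) (nat_lit 0) (XT.lf (nat_lit 0) (nat_lit 119209404392) (nat_lit 76) (nat_lit 117740359479) (nat_lit 76) (nat_lit 116795320347) (nat_lit 1) (nat_lit 4) (nat_lit 2) (nat_lit 5) (nat_lit 2) (nat_lit 4) (nat_lit 335) (nat_lit 230) (nat_lit 215)) (XT.lf (nat_lit 0) (nat_lit 131541260852) (nat_lit 76) (nat_lit 125682883150) (nat_lit 76) (nat_lit 124705616832) (nat_lit 1) (nat_lit 4) (nat_lit 2) (nat_lit 5) (nat_lit 2) (nat_lit 4) (nat_lit 336) (nat_lit 230) (nat_lit 214))) (XT.nd (nat_lit 78) (nat_lit 0) (nat_lit 0) (XT.lf (nat_lit 0) (nat_lit 144781449779) (nat_lit 76) (nat_lit 134299042111) (nat_lit 76) (nat_lit 133291935805) (nat_lit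 1) (nat_lit 4) (nat_lit 2) (nat_lit 5) (nat_lit 2) (nat_lit 4) (nat_lit 337) (nat_lit 230) (nat_lit 213)) (XT.lf (nat_lit 0) (nat_lit 159008431553) (nat_lit 76) (nat_lit 143639895081) (nat_lit 76) (nat_lit 142605159157) (nat_lit 1) (nat_lit 4) (nat_lit 2) (nat_lit 5) (nat_lit 2) (nat_lit 4) (nat_lit 338) (nat_lit 230) (nat_lit 212))))) (XT.nd (nat_lit 312) (nat_lit 0) (nat_lit 0) (XT.nd (nat_lit 156) (nat_lit 0) (nat_lit 0) (XT.nd (nat_lit 78) (nat_lit 0) (nat_lit 0) (XT.lf (nat_lit 0) (nat_lit 174306514215) (nat_lit 76) (nat_lit 153760795262) (nat_lit 76) (nat_lit 152700476359) (nat_lit 1) (nat_lit 4) (nat_lit 2) (nat_lit 5) (nat_lit 2) (nat_lit 4) (nat_lit 339) (nat_lit 230) (nat_lit 211)) (XT.lf (nat_lit 0) (nat_lit 190766353068) (nat_lit 76) (nat_lit 164721718360) (nat_lit 76) (nat_lit 163637711513) (nat_lit 1) (nat_lit 4) (nat_lit 2) (nat_lit 5) (nat_lit 2) (nat_lit 4) (nat_lit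 340) (nat_lit 230) (nat_lit 210))) (XT.nd (nat_lit 78) (nat_lit 0) (nat_lit 0) (XT.lf (nat_lit 0) (nat_lit 208485487899) (nat_lit 76) (nat_lit 176587617993) (nat_lit 76) (nat_lit 175481677865) (nat_lit 1) (nat_lit 4) (nat_lit 2) (nat_lit 5) (nat_lit 2) (nat_lit 4) (nat_lit 341) (nat_lit 230) (nat_lit 209)) (XT.lf (nat_lit 0) (nat_lit 227568920988) (nat_lit 76) (nat_lit 189428810603) (nat_lit 76) (nat_lit 188302561881) (nat_lit 1) (nat_lit 4) (nat_lit 2) (nat_lit 5) (nat_lit 2) (nat_lit 4) (nat_lit 342) (nat_lit 230) (nat_lit 208)))) (XT.nd (nat_lit 156) (nat_lit 0) (nat_lit 0) (XT.nd (nat_lit 78) (nat_lit 0) (nat_lit 0) (XT.lf (nat_lit 0) (nat_lit 248129739346) (nat_lit 76) (nat_lit 203321392147) (nat_lit 76) (nat_lit 202176339171) (nat_lit 1) (nat_lit 4) (nat_lit 2) (nat_lit 5) (nat_lit 2) (nat_lit 4) (nat_lit 343) (nat_lit 230) (nat_lit 207)) (XT.lf (nat_lit 0) (nat_lit 270289784859)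 (nat_lit 76) (nat_lit 218347689033) (nat_lit 76) (nat_lit 217185224711) (nat_lit 1) (nat_lit 4) (nat_lit 2) (nat_lit 5) (nat_lit 2) (nat_lit 4) (nat_lit 344) (nat_lit 230) (nat_lit 206))) (XT.nd (nat_lit 78) (nat_lit 0) (nat_lit 0) (XT.lf (nat_lit 0) (nat_lit 294180376316) (nat_lit 76) (nat_lit 234596745984) (nat_lit 76) (nat_lit 233418160046) (nat_lit 1) (nat_lit 4) (nat_lit 2) (nat_lit 5) (nat_lit 2) (nat_lit 4) (nat_lit 345) (nat_lit 230) (nat_lit 205)) (XT.lf (nat_lit 0) (nat_lit 319943087592) (nat_lit 76) (nat_lit 252164853708) (nat_lit 76) (nat_lit 250971340346) (nat_lit 1) (nat_lit 4) (nat_lit 2) (nat_lit 5) (nat_lit 2) (nat_lit 4) (nat_lit 346) (nat_lit 230) (nat_lit 204))))))) (XT.nd (nat_lit 1248) (nat_lit 0) (nat_lit 0) (XT.nd (nat_lit 624) (nat_lit 0) (nat_lit 0) (XT.nd (nat_lit 312) (nat_lit 0) (nat_lit 0) (XT.nd (nat_lit 156) (nat_lit 0) (nat_lit 0) (XT.nd (nat_lit 78)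 (nat_lit 0) (nat_lit 0) (XT.lf (nat_lit 0) (nat_lit 347730586606) (nat_lit 76) (nat_lit 271156119509) (nat_lit 76) (nat_lit 269948784460) (nat_lit 1) (nat_lit 4) (nat_lit 2) (nat_lit 5) (nat_lit 2) (nat_lit 4) (nat_lit 347) (nat_lit 230) (nat_lit 203)) (XT.lf (nat_lit 0) (nat_lit 377707540018) (nat_lit 76) (nat_lit 291683084223) (nat_lit 76) (nat_lit 290462951315) (nat_lit 1) (nat_lit 4) (nat_lit 2) (nat_lit 5) (nat_lit 2) (nat_lit 4) (nat_lit 348) (nat_lit 230) (nat_lit 202))) (XT.nd (nat_lit 78) (nat_lit 0) (nat_lit 0) (XT.lf (nat_lit 0) (nat_lit 410051589035) (nat_lit 76) (nat_lit 313867389121) (nat_lit 76) (nat_lit 312635406343) (nat_lit 1) (nat_lit 4) (nat_lit 2) (nat_lit 5) (nat_lit 2) (nat_lit 4) (nat_lit 349) (nat_lit 230) (nat_lit 201)) (XT.lf (nat_lit 0) (nat_lit 444954402094) (nat_lit 76) (nat_lit 337840496751) (nat_lit 76) (nat_lit 336597541872) (nat_lit 1) (nat_lit 4) (nat_lit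 2) (nat_lit 5) (nat_lit 2) (nat_lit 4) (nat_lit 350) (nat_lit 230) (nat_lit 200)))) (XT.nd (nat_lit 156) (nat_lit 0) (nat_lit 0) (XT.nd (nat_lit 78) (nat_lit 0) (nat_lit 0) (XT.lf (nat_lit 0) (nat_lit 482622810680) (nat_lit 76) (nat_lit 363744469973) (nat_lit 76) (nat_lit 362491355741) (nat_lit 1) (nat_lit 4) (nat_lit 2) (nat_lit 5) (nat_lit 2) (nat_lit 4) (nat_lit 351) (nat_lit 230) (nat_lit 199)) (XT.lf (nat_lit 0) (nat_lit 523280034992) (nat_lit 76) (nat_lit 391732813813) (nat_lit 76) (nat_lit 390470292773) (nat_lit 1) (nat_lit 4) (nat_lit 2) (nat_lit 5) (nat_lit 2) (nat_lit 4) (nat_lit 352) (nat_lit 230) (nat_lit 198))) (XT.nd (nat_lit 78) (nat_lit 0) (nat_lit 0) (XT.lf (nat_lit 0) (nat_lit 567167006731) (nat_lit 76) (nat_lit 421971385125) (nat_lit 76) (nat_lit 420700154077) (nat_lit 1) (nat_lit 4) (nat_lit 2) (nat_lit 5) (nat_lit 2) (nat_lit 4) (nat_lit 353) (nat_lit 230) (nat_lit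 197)) (XT.lf (nat_lit 0) (nat_lit 614543796839) (nat_lit 76) (nat_lit 454639375441) (nat_lit 76) (nat_lit 453360079571) (nat_lit 1) (nat_lit 4) (nat_lit 2) (nat_lit 5) (nat_lit 2) (nat_lit 4) (nat_lit 354) (nat_lit 230) (nat_lit 196))))) (XT.nd (nat_lit 312) (nat_lit 0) (nat_lit 0) (XT.nd (nat_lit 156) (nat_lit 0) (nat_lit 0) (XT.nd (nat_lit 78) (nat_lit 0) (nat_lit 0) (XT.lf (nat_lit 0) (nat_lit 665691156666) (nat_lit 76) (nat_lit 489930372853) (nat_lit 76) (nat_lit 488643609555) (nat_lit 1) (nat_lit 4) (nat_lit 2) (nat_lit 5) (nat_lit 2) (nat_lit 4) (nat_lit 355) (nat_lit 230) (nat_lit 195)) (XT.lf (nat_lit 0) (nat_lit 720912181677) (nat_lit 76) (nat_lit 528053509197) (nat_lit 76) (nat_lit 526759831613) (nat_lit 1) (nat_lit 4) (nat_lit 2) (nat_lit 5) (nat_lit 2) (nat_lit 4) (nat_lit 356) (nat_lit 230) (nat_lit 194))) (XT.nd (nat_lit 78) (nat_lit 0) (nat_lit 0) (XT.lf (nat_lit 0) (nat_lit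 780534107576) (nat_lit 76) (nat_lit 569234699354) (nat_lit 76) (nat_lit 567934619655) (nat_lit 1) (nat_lit 4) (nat_lit 2) (nat_lit 5) (nat_lit 2) (nat_lit 4) (nat_lit 357) (nat_lit 230) (nat_lit 193)) (XT.lf (nat_lit 0) (nat_lit 844910249479) (nat_lit 76) (nat_lit 613717980008) (nat_lit 76) (nat_lit 612411972424) (nat_lit 1) (nat_lit 4) (nat_lit 2) (nat_lit 5) (nat_lit 2) (nat_lit 4) (nat_lit 358) (nat_lit 230) (nat_lit 192)))) (XT.nd (nat_lit 156) (nat_lit 0) (nat_lit 0) (XT.nd (nat_lit 78) (nat_lit 0) (nat_lit 0) (XT.lf (nat_lit 0) (nat_lit 914422095634) (nat_lit 76) (nat_lit 661766955784) (nat_lit 76) (nat_lit 660455459418) (nat_lit 1) (nat_lit 4) (nat_lit 2) (nat_lit 5) (nat_lit 2) (nat_lit 4) (nat_lit 359) (nat_lit 230) (nat_lit 191)) (XT.lf (nat_lit 0) (nat_lit 989481568094) (nat_lit 76) (nat_lit 713666361355) (nat_lit 76) (nat_lit 712349782782) (nat_lit 1) (nat_lit 4) (nat_lit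 2) (nat_lit 5) (nat_lit 2) (nat_lit 4) (nat_lit 360) (nat_lit 230) (nat_lit 190))) (XT.nd (nat_lit 78) (nat_lit 0) (nat_lit 0) (XT.lf (nat_lit 0) (nat_lit 1070533463731) (nat_lit 76) (nat_lit 769723748752) (nat_lit 76) (nat_lit 768402464433) (nat_lit 1) (nat_lit 4) (nat_lit 2) (nat_lit 5) (nat_lit 2) (nat_lit 4) (nat_lit 361) (nat_lit 230) (nat_lit 189)) (XT.lf (nat_lit 0) (nat_lit 1158058090075) (nat_lit 76) (nat_lit 830271309900) (nat_lit 76) (nat_lit 828945668409) (nat_lit 1) (nat_lit 4) (nat_lit 2) (nat_lit 5) (nat_lit 2) (nat_lit 4) (nat_lit 362) (nat_lit 230) (nat_lit 188)))))) (XT.nd (nat_lit 624) (nat_lit 0) (nat_lit 0) (XT.nd (nat_lit 312) (nat_lit 0) (nat_lit 0) (XT.nd (nat_lit 156) (nat_lit 0) (nat_lit 0) (XT.nd (nat_lit 78) (nat_lit 0) (nat_lit 0) (XT.lf (nat_lit 0) (nat_lit 1252574111580) (nat_lit 76) (nat_lit 895667845164) (nat_lit 76) (nat_lit 894338169254) (nat_lit 1)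 (nat_lit 4) (nat_lit 2) (nat_lit 5) (nat_lit 2) (nat_lit 4) (nat_lit 363) (nat_lit 230) (nat_lit 187)) (XT.lf (nat_lit 0) (nat_lit 1354641623186) (nat_lit 76) (nat_lit 966300889565) (nat_lit 76) (nat_lit 964967478082) (nat_lit 1) (nat_lit 4) (nat_lit 2) (nat_lit 5) (nat_lit 2) (nat_lit 4) (nat_lit 364) (nat_lit 230) (nat_lit 186))) (XT.nd (nat_lit 78) (nat_lit 0) (nat_lit 0) (XT.lf (nat_lit 0) (nat_lit 1464865469408) (nat_lit 76) (nat_lit 1042589009294) (nat_lit 76) (nat_lit 1041252138947) (nat_lit 1) (nat_lit 4) (nat_lit 2) (nat_lit 5) (nat_lit 2) (nat_lit 4) (nat_lit 365) (nat_lit 230) (nat_lit 185)) (XT.lf (nat_lit 0) (nat_lit 1583898828593) (nat_lit 76) (nat_lit 1124984282097) (nat_lit 76) (nat_lit 1123644209098) (nat_lit 1) (nat_lit 4) (nat_lit 2) (nat_lit 5) (nat_lit 2) (nat_lit 4) (nat_lit 366) (nat_lit 230) (nat_lit 184)))) (XT.nd (nat_lit 156) (nat_lit 0) (nat_lit 0) (XT.nd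 (nat_lit 78) (nat_lit 0) (nat_lit 0) (XT.lf (nat_lit 0) (nat_lit 1712447083611) (nat_lit 76) (nat_lit 1213974976257) (nat_lit 76) (nat_lit 1212631937839) (nat_lit 1) (nat_lit 4) (nat_lit 2) (nat_lit 5) (nat_lit 2) (nat_lit 4) (nat_lit 367) (nat_lit 230) (nat_lit 183)) (XT.lf (nat_lit 0) (nat_lit 1851272001898) (nat_lit 76) (nat_lit 1310088444035) (nat_lit 76) (nat_lit 1308742659860) (nat_lit 1) (nat_lit 4) (nat_lit 2) (nat_lit 5) (nat_lit 2) (nat_lit 4) (nat_lit 368) (nat_lit 230) (nat_lit 182))) (XT.nd (nat_lit 78) (nat_lit 0) (nat_lit 0) (XT.lf (nat_lit 0) (nat_lit 2001196249638) (nat_lit 76) (nat_lit 1413894246723) (nat_lit 76) (nat_lit 1412545920180) (nat_lit 1) (nat_lit 4) (nat_lit 2) (nat_lit 5) (nat_lit 2) (nat_lit 4) (nat_lit 369) (nat_lit 230) (nat_lit 181)) (XT.lf (nat_lit 0) (nat_lit 2163108266816) (nat_lit 76) (nat_lit 1526007529817) (nat_lit 76) (nat_lit 1524656849229) (nat_lit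 1) (nat_lit 4) (nat_lit 2) (nat_lit 5) (nat_lit 2) (nat_lit 4) (nat_lit 370) (nat_lit 230) (nat_lit 180))))) (XT.nd (nat_lit 36660) (nat_lit 0) (nat_lit 0) (XT.nd (nat_lit 36504) (nat_lit 0) (nat_lit 76) (XT.nd (nat_lit 78) (nat_lit 0) (nat_lit 0) (XT.lf (nat_lit 0) (nat_lit 2337967532053) (nat_lit 76) (nat_lit 1647092668329) (nat_lit 76) (nat_lit 1645739808070) (nat_lit 1) (nat_lit 4) (nat_lit 2) (nat_lit 5) (nat_lit 2) (nat_lit 4) (nat_lit 371) (nat_lit 230) (nat_lit 179)) (XT.lf (nat_lit 0) (nat_lit 2526810248403) (nat_lit 76) (nat_lit 1777867203821) (nat_lit 76) (nat_lit 1776512325348) (nat_lit 1) (nat_lit 4) (nat_lit 2) (nat_lit 5) (nat_lit 2) (nat_lit 4) (nat_lit 372) (nat_lit 230) (nat_lit 178))) (XT.nd (nat_lit 78) (nat_lit 0) (nat_lit 0) (XT.lf (nat_lit 0) (nat_lit 22636258678) (nat_lit 152) (nat_lit 3330435300) (nat_lit 0) (nat_lit 22636258678) (nat_lit 2) (nat_lit 5) (nat_lit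 4) (nat_lit 4) (nat_lit 2) (nat_lit 4) (nat_lit 318) (nat_lit 231) (nat_lit 231)) (XT.lf (nat_lit 0) (nat_lit 51452274434) (nat_lit 152) (nat_lit 1972831693) (nat_lit 0) (nat_lit 51341865943) (nat_lit 2) (nat_lit 5) (nat_lit 4) (nat_lit 4) (nat_lit 2) (nat_lit 4) (nat_lit 319) (nat_lit 231) (nat_lit 230)))) (XT.nd (nat_lit 156) (nat_lit 0) (nat_lit 0) (XT.nd (nat_lit 78) (nat_lit 0) (nat_lit 0) (XT.lf (nat_lit 0) (nat_lit 2985013735) (nat_lit 76) (nat_lit 55082654251) (nat_lit 76) (nat_lit 54870015675) (nat_lit 1) (nat_lit 4) (nat_lit 2) (nat_lit 5) (nat_lit 2) (nat_lit 4) (nat_lit 320) (nat_lit 231) (nat_lit 229)) (XT.lf (nat_lit 0) (nat_lit 8203568952) (nat_lit 76) (nat_lit 56935833049) (nat_lit 76) (nat_lit 56628536987) (nat_lit 1) (nat_lit 4) (nat_lit 2) (nat_lit 5) (nat_lit 2) (nat_lit 4) (nat_lit 321) (nat_lit 231) (nat_lit 228))) (XT.nd (nat_lit 78) (nat_lit 0) (nat_lit 0) (XT.lf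 (nat_lit 0) (nat_lit 13609872906) (nat_lit 76) (nat_lit 59049565037) (nat_lit 76) (nat_lit 58654623154) (nat_lit 1) (nat_lit 4) (nat_lit 2) (nat_lit 5) (nat_lit 2) (nat_lit 4) (nat_lit 322) (nat_lit 231) (nat_lit 227)) (XT.lf (nat_lit 0) (nat_lit 19235962956) (nat_lit 76) (nat_lit 61436376033) (nat_lit 76) (nat_lit 60960280612) (nat_lit 1) (nat_lit 4) (nat_lit 2) (nat_lit 5) (nat_lit 2) (nat_lit 4) (nat_lit 323) (nat_lit 231) (nat_lit 226))))))))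
noncomputable def xc12 : XT := (XT.nd (nat_lit 2418) (nat_lit 0) (nat_lit 0) (XT.nd (nat_lit 1170) (nat_lit 0) (nat_lit 0) (XT.nd (nat_lit 546) (nat_lit 0) (nat_lit 0) (XT.nd (nat_lit 234) (nat_lit 0) (nat_lit 0) (XT.nd (nat_lit 78) (nat_lit 0) (nat_lit 0) (XT.lf (nat_lit 0) (nat_lit 25115178893) (nat_lit 76) (nat_lit 64110410102) (nat_lit 76) (nat_lit 63559172518) (nat_lit 1) (nat_lit 4) (nat_lit 2) (nat_lit 5) (nat_lit 2) (nat_lit 4) (nat_lit 324) (nat_lit 231) (nat_lit 225)) (XT.nd (nat_lit 78) (nat_lit 0) (nat_lit 0) (XT.lf (nat_lit 0) (nat_lit 31282360516) (nat_lit 76) (nat_lit 67087513374) (nat_lit 76) (nat_lit 66466699711) (nat_lit 1) (nat_lit 4) (nat_lit 2) (nat_lit 5) (nat_lit 2) (nat_lit 4) (nat_lit 325) (nat_lit 231) (nat_lit 224)) (XT.lf (nat_lit 0) (nat_lit 37774054087) (nat_lit 76) (nat_lit 70385327940) (nat_lit 76) (nat_lit 69700091983) (nat_lit 1) (nat_lit 4) (nat_lit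 2) (nat_lit 5) (nat_lit 2) (nat_lit 4) (nat_lit 326) (nat_lit 231) (nat_lit 223)))) (XT.nd (nat_lit 156) (nat_lit 0) (nat_lit 0) (XT.nd (nat_lit 78) (nat_lit 0) (nat_lit 0) (XT.lf (nat_lit 0) (nat_lit 44628728900) (nat_lit 76) (nat_lit 74023396406) (nat_lit 76) (nat_lit 73278510176) (nat_lit 1) (nat_lit 4) (nat_lit 2) (nat_lit 5) (nat_lit 2) (nat_lit 4) (nat_lit 327) (nat_lit 231) (nat_lit 222)) (XT.lf (nat_lit 0) (nat_lit 51887005251) (nat_lit 76) (nat_lit 78023277696) (nat_lit 76) (nat_lit 77223159732) (nat_lit 1) (nat_lit 4) (nat_lit 2) (nat_lit 5) (nat_lit 2) (nat_lit 4) (nat_lit 328) (nat_lit 231) (nat_lit 221))) (XT.nd (nat_lit 78) (nat_lit 0) (nat_lit 0) (XT.lf (nat_lit 0) (nat_lit 59591895148) (nat_lit 76) (nat_lit 82408674811) (nat_lit 76) (nat_lit 81557416352) (nat_lit 1) (nat_lit 4) (nat_lit 2) (nat_lit 5) (nat_lit 2) (nat_lit 4) (nat_lit 329) (nat_lit 231) (nat_lit 220))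 (XT.lf (nat_lit 0) (nat_lit 67789057197) (nat_lit 76) (nat_lit 87205575288) (nat_lit 76) (nat_lit 86306964520) (nat_lit 1) (nat_lit 4) (nat_lit 2) (nat_lit 5) (nat_lit 2) (nat_lit 4) (nat_lit 330) (nat_lit 231) (nat_lit 219))))) (XT.nd (nat_lit 312) (nat_lit 0) (nat_lit 0) (XT.nd (nat_lit 156) (nat_lit 0) (nat_lit 0) (XT.nd (nat_lit 78) (nat_lit 0) (nat_lit 0) (XT.lf (nat_lit 0) (nat_lit 76527067174) (nat_lit 76) (nat_lit 92442405205) (nat_lit 76) (nat_lit 91499949706) (nat_lit 1) (nat_lit 4) (nat_lit 2) (nat_lit 5) (nat_lit 2) (nat_lit 4) (nat_lit 331) (nat_lit 231) (nat_lit 218)) (XT.lf (nat_lit 0) (nat_lit 85857705878) (nat_lit 76) (nat_lit 98150197628) (nat_lit 76) (nat_lit 97167145156) (nat_lit 1) (nat_lit 4) (nat_lit 2) (nat_lit 5) (nat_lit 2) (nat_lit 4) (nat_lit 332) (nat_lit 231) (nat_lit 217))) (XT.nd (nat_lit 78) (nat_lit 0) (nat_lit 0) (XT.lf (nat_lit 0) (nat_lit 95836265984)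 (nat_lit 76) (nat_lit 104362776512) (nat_lit 76) (nat_lit 103342134250) (nat_lit 1) (nat_lit 4) (nat_lit 2) (nat_lit 5) (nat_lit 2) (nat_lit 4) (nat_lit 333) (nat_lit 231) (nat_lit 216)) (XT.lf (nat_lit 0) (nat_lit 106521879699) (nat_lit 76) (nat_lit 111116957139) (nat_lit 76) (nat_lit 110061509516) (nat_lit 1) (nat_lit 4) (nat_lit 2) (nat_lit 5) (nat_lit 2) (nat_lit 4) (nat_lit 334) (nat_lit 231) (nat_lit 215)))) (XT.nd (nat_lit 156) (nat_lit 0) (nat_lit 0) (XT.nd (nat_lit 78) (nat_lit 0) (nat_lit 0) (XT.lf (nat_lit 0) (nat_lit 117977869179) (nat_lit 76) (nat_lit 118452764284) (nat_lit 76) (nat_lit 117365089474) (nat_lit 1) (nat_lit 4) (nat_lit 2) (nat_lit 5) (nat_lit 2) (nat_lit 4) (nat_lit 335) (nat_lit 231) (nat_lit 214)) (XT.lf (nat_lit 0) (nat_lit 130272121769) (nat_lit 76) (nat_lit 126413669395) (nat_lit 76) (nat_lit 125296154598) (nat_lit 1) (nat_lit 4) (nat_lit 2) (nat_lit 5)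 (nat_lit 2) (nat_lit 4) (nat_lit 336) (nat_lit 231) (nat_lit 213))) (XT.nd (nat_lit 78) (nat_lit 0) (nat_lit 0) (XT.lf (nat_lit 0) (nat_lit 143477492298) (nat_lit 76) (nat_lit 135046848208) (nat_lit 76) (nat_lit 133901703793) (nat_lit 1) (nat_lit 4) (nat_lit 2) (nat_lit 5) (nat_lit 2) (nat_lit 4) (nat_lit 337) (nat_lit 231) (nat_lit 212)) (XT.lf (nat_lit 0) (nat_lit 157672234816) (nat_lit 76) (nat_lit 144403460300) (nat_lit 76) (nat_lit 143232732906) (nat_lit 1) (nat_lit 4) (nat_lit 2) (nat_lit 5) (nat_lit 2) (nat_lit 4) (nat_lit 338) (nat_lit 231) (nat_lit 211)))))) (XT.nd (nat_lit 624) (nat_lit 0) (nat_lit 0) (XT.nd (nat_lit 312) (nat_lit 0) (nat_lit 0) (XT.nd (nat_lit 156) (nat_lit 0) (nat_lit 0) (XT.nd (nat_lit 78) (nat_lit 0) (nat_lit 0) (XT.lf (nat_lit 0) (nat_lit 172940466313) (nat_lit 76) (nat_lit 154538952261) (nat_lit 76) (nat_lit 153344536923) (nat_lit 1) (nat_lit 4) (nat_lit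 2) (nat_lit 5) (nat_lit 2) (nat_lit 4) (nat_lit 339) (nat_lit 231) (nat_lit 210)) (XT.lf (nat_lit 0) (nat_lit 189372665200) (nat_lit 76) (nat_lit 165513386267) (nat_lit 76) (nat_lit 164297037647) (nat_lit 1) (nat_lit 4) (nat_lit 2) (nat_lit 5) (nat_lit 2) (nat_lit 4) (nat_lit 340) (nat_lit 231) (nat_lit 209))) (XT.nd (nat_lit 78) (nat_lit 0) (nat_lit 0) (XT.lf (nat_lit 0) (nat_lit 207066207469) (nat_lit 76) (nat_lit 177391795999) (nat_lit 76) (nat_lit 176155138785) (nat_lit 1) (nat_lit 4) (nat_lit 2) (nat_lit 5) (nat_lit 2) (nat_lit 4) (nat_lit 341) (nat_lit 231) (nat_lit 208)) (XT.lf (nat_lit 0) (nat_lit 226125943741) (nat_lit 76) (nat_lit 190244572035) (nat_lit 76) (nat_lit 188989110567) (nat_lit 1) (nat_lit 4) (nat_lit 2) (nat_lit 5) (nat_lit 2) (nat_lit 4) (nat_lit 342) (nat_lit 231) (nat_lit 207)))) (XT.nd (nat_lit 156) (nat_lit 0) (nat_lit 0) (XT.nd (nat_lit 78) (nat_lit 0) (nat_lit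 0) (XT.lf (nat_lit 0) (nat_lit 246664820602) (nat_lit 76) (nat_lit 204147878972) (nat_lit 76) (nat_lit 202875006158) (nat_lit 1) (nat_lit 4) (nat_lit 2) (nat_lit 5) (nat_lit 2) (nat_lit 4) (nat_lit 343) (nat_lit 231) (nat_lit 206)) (XT.lf (nat_lit 0) (nat_lit 268804549915) (nat_lit 76) (nat_lit 219184106778) (nat_lit 76) (nat_lit 217895112348) (nat_lit 1) (nat_lit 4) (nat_lit 2) (nat_lit 5) (nat_lit 2) (nat_lit 4) (nat_lit 344) (nat_lit 231) (nat_lit 205))) (XT.nd (nat_lit 78) (nat_lit 0) (nat_lit 0) (XT.lf (nat_lit 0) (nat_lit 292676330075) (nat_lit 76) (nat_lit 235442359026) (nat_lit 76) (nat_lit 234138437173) (nat_lit 1) (nat_lit 4) (nat_lit 2) (nat_lit 5) (nat_lit 2) (nat_lit 4) (nat_lit 345) (nat_lit 231) (nat_lit 204)) (XT.lf (nat_lit 0) (nat_lit 318421623484) (nat_lit 76) (nat_lit 253018980913) (nat_lit 76) (nat_lit 251701237372) (nat_lit 1) (nat_lit 4) (nat_lit 2) (nat_lit 5)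 (nat_lit 2) (nat_lit 4) (nat_lit 346) (nat_lit 231) (nat_lit 203))))) (XT.nd (nat_lit 312) (nat_lit 0) (nat_lit 0) (XT.nd (nat_lit 156) (nat_lit 0) (nat_lit 0) (XT.nd (nat_lit 78) (nat_lit 0) (nat_lit 0) (XT.lf (nat_lit 0) (nat_lit 346192994843) (nat_lit 76) (nat_lit 272018130199) (nat_lit 76) (nat_lit 270687588799) (nat_lit 1) (nat_lit 4) (nat_lit 2) (nat_lit 5) (nat_lit 2) (nat_lit 4) (nat_lit 347) (nat_lit 231) (nat_lit 202)) (XT.lf (nat_lit 0) (nat_lit 376155015241) (nat_lit 76) (nat_lit 292552394435) (nat_lit 76) (nat_lit 291210003166) (nat_lit 1) (nat_lit 4) (nat_lit 2) (nat_lit 5) (nat_lit 2) (nat_lit 4) (nat_lit 348) (nat_lit 231) (nat_lit 201))) (XT.nd (nat_lit 78) (nat_lit 0) (nat_lit 0) (XT.lf (nat_lit 0) (nat_lit 408485237393) (nat_lit 76) (nat_lit 314743458151) (nat_lit 76) (nat_lit 313390094780) (nat_lit 1) (nat_lit 4) (nat_lit 2) (nat_lit 5) (nat_lit 2) (nat_lit 4) (nat_lit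 349) (nat_lit 231) (nat_lit 200)) (XT.lf (nat_lit 0) (nat_lit 443375247799) (nat_lit 76) (nat_lit 338722823945) (nat_lit 76) (nat_lit 337359301221) (nat_lit 1) (nat_lit 4) (nat_lit 2) (nat_lit 5) (nat_lit 2) (nat_lit 4) (nat_lit 350) (nat_lit 231) (nat_lit 199)))) (XT.nd (nat_lit 156) (nat_lit 0) (nat_lit 0) (XT.nd (nat_lit 78) (nat_lit 0) (nat_lit 0) (XT.lf (nat_lit 0) (nat_lit 481031802077) (nat_lit 76) (nat_lit 364632591763) (nat_lit 76) (nat_lit 363259662231) (nat_lit 1) (nat_lit 4) (nat_lit 2) (nat_lit 5) (nat_lit 2) (nat_lit 4) (nat_lit 351) (nat_lit 231) (nat_lit 198)) (XT.lf (nat_lit 0) (nat_lit 521678050179) (nat_lit 76) (nat_lit 392626300971) (nat_lit 76) (nat_lit 391244661431) (nat_lit 1) (nat_lit 4) (nat_lit 2) (nat_lit 5) (nat_lit 2) (nat_lit 4) (nat_lit 352) (nat_lit 231) (nat_lit 197))) (XT.nd (nat_lit 78) (nat_lit 0) (nat_lit 0) (XT.lf (nat_lit 0) (nat_lit 565554858759)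 (nat_lit 76) (nat_lit 422869840215) (nat_lit 76) (nat_lit 421480135853) (nat_lit 1) (nat_lit 4) (nat_lit 2) (nat_lit 5) (nat_lit 2) (nat_lit 4) (nat_lit 353) (nat_lit 231) (nat_lit 196)) (XT.lf (nat_lit 0) (nat_lit 612922238536) (nat_lit 76) (nat_lit 455542430469) (nat_lit 76) (nat_lit 454145258679) (nat_lit 1) (nat_lit 4) (nat_lit 2) (nat_lit 5) (nat_lit 2) (nat_lit 4) (nat_lit 354) (nat_lit 231) (nat_lit 195))))))) (XT.nd (nat_lit 1248) (nat_lit 0) (nat_lit 0) (XT.nd (nat_lit 624) (nat_lit 0) (nat_lit 0) (XT.nd (nat_lit 312) (nat_lit 0) (nat_lit 0) (XT.nd (nat_lit 156) (nat_lit 0) (nat_lit 0) (XT.nd (nat_lit 78) (nat_lit 0) (nat_lit 0) (XT.lf (nat_lit 0) (nat_lit 664060885092) (nat_lit 76) (nat_lit 490837687082) (nat_lit 76) (nat_lit 489433601007) (nat_lit 1) (nat_lit 4) (nat_lit 2) (nat_lit 5) (nat_lit 2) (nat_lit 4) (nat_lit 355) (nat_lit 231) (nat_lit 194)) (XT.lf (nat_lit 0) (nat_lit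 719273842260) (nat_lit 76) (nat_lit 528964767131) (nat_lit 76) (nat_lit 527554278940) (nat_lit 1) (nat_lit 4) (nat_lit 2) (nat_lit 5) (nat_lit 2) (nat_lit 4) (nat_lit 356) (nat_lit 231) (nat_lit 193))) (XT.nd (nat_lit 78) (nat_lit 0) (nat_lit 0) (XT.lf (nat_lit 0) (nat_lit 778888297934) (nat_lit 76) (nat_lit 570149608867) (nat_lit 76) (nat_lit 568733192791) (nat_lit 1) (nat_lit 4) (nat_lit 2) (nat_lit 5) (nat_lit 2) (nat_lit 4) (nat_lit 357) (nat_lit 231) (nat_lit 192)) (XT.lf (nat_lit 0) (nat_lit 843257522962) (nat_lit 76) (nat_lit 614636270613) (nat_lit 76) (nat_lit 613214365754) (nat_lit 1) (nat_lit 4) (nat_lit 2) (nat_lit 5) (nat_lit 2) (nat_lit 4) (nat_lit 358) (nat_lit 231) (nat_lit 191)))) (XT.nd (nat_lit 156) (nat_lit 0) (nat_lit 0) (XT.nd (nat_lit 78) (nat_lit 0) (nat_lit 0) (XT.lf (nat_lit 0) (nat_lit 912762964604) (nat_lit 76) (nat_lit 662688377029) (nat_lit 76) (nat_lit 661261389965)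 (nat_lit 1) (nat_lit 4) (nat_lit 2) (nat_lit 5) (nat_lit 2) (nat_lit 4) (nat_lit 359) (nat_lit 231) (nat_lit 190)) (XT.lf (nat_lit 0) (nat_lit 987816506958) (nat_lit 76) (nat_lit 714590681340) (nat_lit 76) (nat_lit 713158988530) (nat_lit 1) (nat_lit 4) (nat_lit 2) (nat_lit 5) (nat_lit 2) (nat_lit 4) (nat_lit 360) (nat_lit 231) (nat_lit 189))) (XT.nd (nat_lit 78) (nat_lit 0) (nat_lit 0) (XT.lf (nat_lit 0) (nat_lit 1068862911757) (nat_lit 76) (nat_lit 770650752757) (nat_lit 76) (nat_lit 769214702774) (nat_lit 1) (nat_lit 4) (nat_lit 2) (nat_lit 5) (nat_lit 2) (nat_lit 4) (nat_lit 361) (nat_lit 231) (nat_lit 188)) (XT.lf (nat_lit 0) (nat_lit 1156382453992) (nat_lit 76) (nat_lit 831200799109) (nat_lit 76) (nat_lit 829760714707) (nat_lit 1) (nat_lit 4) (nat_lit 2) (nat_lit 5) (nat_lit 2) (nat_lit 4) (nat_lit 362) (nat_lit 231) (nat_lit 187))))) (XT.nd (nat_lit 312) (nat_lit 0) (nat_lit 0)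 (XT.nd (nat_lit 156) (nat_lit 0) (nat_lit 0) (XT.nd (nat_lit 78) (nat_lit 0) (nat_lit 0) (XT.lf (nat_lit 0) (nat_lit 1250893767988) (nat_lit 76) (nat_lit 896599635486) (nat_lit 76) (nat_lit 895155815511) (nat_lit 1) (nat_lit 4) (nat_lit 2) (nat_lit 5) (nat_lit 2) (nat_lit 4) (nat_lit 363) (nat_lit 231) (nat_lit 186)) (XT.lf (nat_lit 0) (nat_lit 1352956920790) (nat_lit 76) (nat_lit 967234810549) (nat_lit 76) (nat_lit 965787531710) (nat_lit 1) (nat_lit 4) (nat_lit 2) (nat_lit 5) (nat_lit 2) (nat_lit 4) (nat_lit 364) (nat_lit 231) (nat_lit 185))) (XT.nd (nat_lit 78) (nat_lit 0) (nat_lit 0) (XT.lf (nat_lit 0) (nat_lit 1463176731082) (nat_lit 76) (nat_lit 1043524903112) (nat_lit 76) (nat_lit 1042074421621) (nat_lit 1) (nat_lit 4) (nat_lit 2) (nat_lit 5) (nat_lit 2) (nat_lit 4) (nat_lit 365) (nat_lit 231) (nat_lit 184)) (XT.lf (nat_lit 0) (nat_lit 1582206353295) (nat_lit 76) (nat_lit 1125922002613)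 (nat_lit 76) (nat_lit 1124468555704) (nat_lit 1) (nat_lit 4) (nat_lit 2) (nat_lit 5) (nat_lit 2) (nat_lit 4) (nat_lit 366) (nat_lit 231) (nat_lit 183)))) (XT.nd (nat_lit 156) (nat_lit 0) (nat_lit 0) (XT.nd (nat_lit 78) (nat_lit 0) (nat_lit 0) (XT.lf (nat_lit 0) (nat_lit 1710751148153) (nat_lit 76) (nat_lit 1214914388160) (nat_lit 76) (nat_lit 1213458195494) (nat_lit 1) (nat_lit 4) (nat_lit 2) (nat_lit 5) (nat_lit 2) (nat_lit 4) (nat_lit 367) (nat_lit 231) (nat_lit 182)) (XT.lf (nat_lit 0) (nat_lit 1849572862589) (nat_lit 76) (nat_lit 1311029422038) (nat_lit 76) (nat_lit 1309570687003) (nat_lit 1) (nat_lit 4) (nat_lit 2) (nat_lit 5) (nat_lit 2) (nat_lit 4) (nat_lit 368) (nat_lit 231) (nat_lit 181))) (XT.nd (nat_lit 78) (nat_lit 0) (nat_lit 0) (XT.lf (nat_lit 0) (nat_lit 1999494143799) (nat_lit 76) (nat_lit 1414836674818) (nat_lit 76) (nat_lit 1413375585739) (nat_lit 1) (nat_lit 4) (nat_lit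 2) (nat_lit 5) (nat_lit 2) (nat_lit 4) (nat_lit 369) (nat_lit 231) (nat_lit 180)) (XT.lf (nat_lit 0) (nat_lit 2161403414191) (nat_lit 76) (nat_lit 1526951300591) (nat_lit 76) (nat_lit 1525488031840) (nat_lit 1) (nat_lit 4) (nat_lit 2) (nat_lit 5) (nat_lit 2) (nat_lit 4) (nat_lit 370) (nat_lit 231) (nat_lit 179)))))) (XT.nd (nat_lit 36816) (nat_lit 0) (nat_lit 0) (XT.nd (nat_lit 36504) (nat_lit 0) (nat_lit 0) (XT.nd (nat_lit 36348) (nat_lit 0) (nat_lit 76) (XT.nd (nat_lit 78) (nat_lit 0) (nat_lit 0) (XT.lf (nat_lit 0) (nat_lit 2336260136108) (nat_lit 76) (nat_lit 1648037682323) (nat_lit 76) (nat_lit 1646572395358) (nat_lit 1) (nat_lit 4) (nat_lit 2) (nat_lit 5) (nat_lit 2) (nat_lit 4) (nat_lit 371) (nat_lit 231) (nat_lit 178)) (XT.lf (nat_lit 0) (nat_lit 2525100497531) (nat_lit 76) (nat_lit 1778813368944) (nat_lit 76) (nat_lit 1777346213263) (nat_lit 1) (nat_lit 4) (nat_lit 2) (nat_lit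 5) (nat_lit 2) (nat_lit 4) (nat_lit 372) (nat_lit 231) (nat_lit 177))) (XT.nd (nat_lit 78) (nat_lit 0) (nat_lit 0) (XT.lf (nat_lit 0) (nat_lit 17026220068) (nat_lit 152) (nat_lit 7821660959) (nat_lit 0) (nat_lit 17026220068) (nat_lit 2) (nat_lit 5) (nat_lit 4) (nat_lit 4) (nat_lit 2) (nat_lit 4) (nat_lit 316) (nat_lit 232) (nat_lit 232)) (XT.lf (nat_lit 0) (nat_lit 39539227491) (nat_lit 152) (nat_lit 11256206433) (nat_lit 0) (nat_lit 39419986320) (nat_lit 2) (nat_lit 5) (nat_lit 4) (nat_lit 4) (nat_lit 2) (nat_lit 4) (nat_lit 317) (nat_lit 232) (nat_lit 231)))) (XT.nd (nat_lit 156) (nat_lit 76) (nat_lit 0) (XT.nd (nat_lit 78) (nat_lit 0) (nat_lit 0) (XT.lf (nat_lit 0) (nat_lit 45323981392) (nat_lit 152) (nat_lit 6793045501) (nat_lit 0) (nat_lit 45094331730) (nat_lit 2) (nat_lit 5) (nat_lit 4) (nat_lit 4) (nat_lit 2) (nat_lit 4) (nat_lit 318) (nat_lit 232) (nat_lit 230)) (XT.lf (nat_lit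 0) (nat_lit 51440981863) (nat_lit 152) (nat_lit 2227390760) (nat_lit 0) (nat_lit 51109102115) (nat_lit 2) (nat_lit 5) (nat_lit 4) (nat_lit 4) (nat_lit 2) (nat_lit 4) (nat_lit 319) (nat_lit 232) (nat_lit 229))) (XT.nd (nat_lit 78) (nat_lit 0) (nat_lit 0) (XT.lf (nat_lit 0) (nat_lit 2597764205) (nat_lit 76) (nat_lit 55391189879) (nat_lit 76) (nat_lit 54964652646) (nat_lit 1) (nat_lit 4) (nat_lit 2) (nat_lit 5) (nat_lit 2) (nat_lit 4) (nat_lit 320) (nat_lit 232) (nat_lit 228)) (XT.lf (nat_lit 0) (nat_lit 7705869576) (nat_lit 76) (nat_lit 57298358526) (nat_lit 76) (nat_lit 56784175472) (nat_lit 1) (nat_lit 4) (nat_lit 2) (nat_lit 5) (nat_lit 2) (nat_lit 4) (nat_lit 321) (nat_lit 232) (nat_lit 227))))) (XT.nd (nat_lit 312) (nat_lit 0) (nat_lit 0) (XT.nd (nat_lit 156) (nat_lit 0) (nat_lit 0) (XT.nd (nat_lit 78) (nat_lit 0) (nat_lit 0) (XT.lf (nat_lit 0) (nat_lit 13009905155) (nat_lit 76) (nat_lit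 59462081114) (nat_lit 76) (nat_lit 58866744523) (nat_lit 1) (nat_lit 4) (nat_lit 2) (nat_lit 5) (nat_lit 2) (nat_lit 4) (nat_lit 322) (nat_lit 232) (nat_lit 226)) (XT.lf (nat_lit 0) (nat_lit 18541302264) (nat_lit 76) (nat_lit 61895179703) (nat_lit 76) (nat_lit 61224700948) (nat_lit 1) (nat_lit 4) (nat_lit 2) (nat_lit 5) (nat_lit 2) (nat_lit 4) (nat_lit 323) (nat_lit 232) (nat_lit 225))) (XT.nd (nat_lit 78) (nat_lit 0) (nat_lit 0) (XT.lf (nat_lit 0) (nat_lit 24332839553) (nat_lit 76) (nat_lit 64612072656) (nat_lit 76) (nat_lit 63872017822) (nat_lit 1) (nat_lit 4) (nat_lit 2) (nat_lit 5) (nat_lit 2) (nat_lit 4) (nat_lit 324) (nat_lit 232) (nat_lit 224)) (XT.lf (nat_lit 0) (nat_lit 30418837242) (nat_lit 76) (nat_lit 67628860078) (nat_lit 76) (nat_lit 66824382949) (nat_lit 1) (nat_lit 4) (nat_lit 2) (nat_lit 5) (nat_lit 2) (nat_lit 4) (nat_lit 325) (nat_lit 232) (nat_lit 223)))) (XT.nd (nat_lit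 156) (nat_lit 0) (nat_lit 0) (XT.nd (nat_lit 78) (nat_lit 0) (nat_lit 0) (XT.lf (nat_lit 0) (nat_lit 36835360504) (nat_lit 76) (nat_lit 70963419228) (nat_lit 76) (nat_lit 70099291827) (nat_lit 1) (nat_lit 4) (nat_lit 2) (nat_lit 5) (nat_lit 2) (nat_lit 4) (nat_lit 326) (nat_lit 232) (nat_lit 222)) (XT.lf (nat_lit 0) (nat_lit 43620433179) (nat_lit 76) (nat_lit 74635510457) (nat_lit 76) (nat_lit 73716151322) (nat_lit 1) (nat_lit 4) (nat_lit 2) (nat_lit 5) (nat_lit 2) (nat_lit 4) (nat_lit 327) (nat_lit 232) (nat_lit 221))) (XT.nd (nat_lit 78) (nat_lit 0) (nat_lit 0) (XT.lf (nat_lit 0) (nat_lit 50814263105) (nat_lit 76) (nat_lit 78666894305) (nat_lit 76) (nat_lit 77696394676) (nat_lit 1) (nat_lit 4) (nat_lit 2) (nat_lit 5) (nat_lit 2) (nat_lit 4) (nat_lit 328) (nat_lit 232) (nat_lit 220)) (XT.lf (nat_lit 0) (nat_lit 58459480387) (nat_lit 76) (nat_lit 83081460455) (nat_lit 76) (nat_lit 82063608516)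 (nat_lit 1) (nat_lit 4) (nat_lit 2) (nat_lit 5) (nat_lit 2) (nat_lit 4) (nat_lit 329) (nat_lit 232) (nat_lit 219))))))))
noncomputable def xc13 : XT := (XT.nd (nat_lit 2418) (nat_lit 0) (nat_lit 0) (XT.nd (nat_lit 1170) (nat_lit 0) (nat_lit 0) (XT.nd (nat_lit 546) (nat_lit 0) (nat_lit 0) (XT.nd (nat_lit 234) (nat_lit 0) (nat_lit 0) (XT.nd (nat_lit 78) (nat_lit 0) (nat_lit 0) (XT.lf (nat_lit 0) (nat_lit 66601390015) (nat_lit 76) (nat_lit 87905369299) (nat_lit 76) (nat_lit 86843672629) (nat_lit 1) (nat_lit 4) (nat_lit 2) (nat_lit 5) (nat_lit 2) (nat_lit 4) (nat_lit 330) (nat_lit 232) (nat_lit 218)) (XT.nd (nat_lit 78) (nat_lit 0) (nat_lit 0) (XT.lf (nat_lit 0) (nat_lit 75288240342) (nat_lit 76) (nat_lit 93167206962) (nat_lit 76) (nat_lit 92064913319) (nat_lit 1) (nat_lit 4) (nat_lit 2) (nat_lit 5) (nat_lit 2) (nat_lit 4) (nat_lit 331) (nat_lit 232) (nat_lit 217)) (XT.lf (nat_lit 0) (nat_lit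 84571509001) (nat_lit 76) (nat_lit 98898154706) (nat_lit 76) (nat_lit 97758271273) (nat_lit 1) (nat_lit 4) (nat_lit 2) (nat_lit 5) (nat_lit 2) (nat_lit 4) (nat_lit 332) (nat_lit 232) (nat_lit 216)))) (XT.nd (nat_lit 156) (nat_lit 0) (nat_lit 0) (XT.nd (nat_lit 78) (nat_lit 0) (nat_lit 0) (XT.lf (nat_lit 0) (nat_lit 94506207954) (nat_lit 76) (nat_lit 105132173702) (nat_lit 76) (nat_lit 103957484907) (nat_lit 1) (nat_lit 4) (nat_lit 2) (nat_lit 5) (nat_lit 2) (nat_lit 4) (nat_lit 333) (nat_lit 232) (nat_lit 215)) (XT.lf (nat_lit 0) (nat_lit 105151209490) (nat_lit 76) (nat_lit 111906206284) (nat_lit 76) (nat_lit 110699290303) (nat_lit 1) (nat_lit 4) (nat_lit 2) (nat_lit 5) (nat_lit 2) (nat_lit 4) (nat_lit 334) (nat_lit 232) (nat_lit 214))) (XT.nd (nat_lit 78) (nat_lit 0) (nat_lit 0) (XT.lf (nat_lit 0) (nat_lit 116569595100) (nat_lit 76) (nat_lit 119260394869) (nat_lit 76) (nat_lit 118023638901)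 (nat_lit 1) (nat_lit 4) (nat_lit 2) (nat_lit 5) (nat_lit 2) (nat_lit 4) (nat_lit 335) (nat_lit 232) (nat_lit 213)) (XT.lf (nat_lit 0) (nat_lit 128829029292) (nat_lit 76) (nat_lit 127238319833) (nat_lit 76) (nat_lit 125973934247) (nat_lit 1) (nat_lit 4) (nat_lit 2) (nat_lit 5) (nat_lit 2) (nat_lit 4) (nat_lit 336) (nat_lit 232) (nat_lit 212))))) (XT.nd (nat_lit 312) (nat_lit 0) (nat_lit 0) (XT.nd (nat_lit 156) (nat_lit 0) (nat_lit 0) (XT.nd (nat_lit 78) (nat_lit 0) (nat_lit 0) (XT.lf (nat_lit 0) (nat_lit 142002160565) (nat_lit 76) (nat_lit 135887257768) (nat_lit 76) (nat_lit 134597289202) (nat_lit 1) (nat_lit 4) (nat_lit 2) (nat_lit 5) (nat_lit 2) (nat_lit 4) (nat_lit 337) (nat_lit 232) (nat_lit 211)) (XT.lf (nat_lit 0) (nat_lit 156167051918) (nat_lit 76) (nat_lit 145258461639) (nat_lit 76) (nat_lit 143944805130) (nat_lit 1) (nat_lit 4) (nat_lit 2) (nat_lit 5) (nat_lit 2) (nat_lit 4)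 (nat_lit 338) (nat_lit 232) (nat_lit 210))) (XT.nd (nat_lit 78) (nat_lit 0) (nat_lit 0) (XT.lf (nat_lit 0) (nat_lit 171407643449) (nat_lit 76) (nat_lit 155407464508) (nat_lit 76) (nat_lit 154071874717) (nat_lit 1) (nat_lit 4) (nat_lit 2) (nat_lit 5) (nat_lit 2) (nat_lit 4) (nat_lit 339) (nat_lit 232) (nat_lit 209)) (XT.lf (nat_lit 0) (nat_lit 187814249773) (nat_lit 76) (nat_lit 166394408613) (nat_lit 76) (nat_lit 165038510228) (nat_lit 1) (nat_lit 4) (nat_lit 2) (nat_lit 5) (nat_lit 2) (nat_lit 4) (nat_lit 340) (nat_lit 232) (nat_lit 208)))) (XT.nd (nat_lit 156) (nat_lit 0) (nat_lit 0) (XT.nd (nat_lit 78) (nat_lit 0) (nat_lit 0) (XT.lf (nat_lit 0) (nat_lit 205484095226) (nat_lit 76) (nat_lit 178284401770) (nat_lit 76) (nat_lit 176909699131) (nat_lit 1) (nat_lit 4) (nat_lit 2) (nat_lit 5) (nat_lit 2) (nat_lit 4) (nat_lit 341) (nat_lit 232) (nat_lit 207)) (XT.lf (nat_lit 0) (nat_lit 224521890002)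 (nat_lit 76) (nat_lit 191147903199) (nat_lit 76) (nat_lit 189755789215) (nat_lit 1) (nat_lit 4) (nat_lit 2) (nat_lit 5) (nat_lit 2) (nat_lit 4) (nat_lit 342) (nat_lit 232) (nat_lit 206))) (XT.nd (nat_lit 78) (nat_lit 0) (nat_lit 0) (XT.lf (nat_lit 0) (nat_lit 245040450662) (nat_lit 76) (nat_lit 205061141057) (nat_lit 76) (nat_lit 203652905456) (nat_lit 1) (nat_lit 4) (nat_lit 2) (nat_lit 5) (nat_lit 2) (nat_lit 4) (nat_lit 343) (nat_lit 232) (nat_lit 205)) (XT.lf (nat_lit 0) (nat_lit 267161368678) (nat_lit 76) (nat_lit 220106564160) (nat_lit 76) (nat_lit 218683401136) (nat_lit 1) (nat_lit 4) (nat_lit 2) (nat_lit 5) (nat_lit 2) (nat_lit 4) (nat_lit 344) (nat_lit 232) (nat_lit 204)))))) (XT.nd (nat_lit 624) (nat_lit 0) (nat_lit 0) (XT.nd (nat_lit 312) (nat_lit 0) (nat_lit 0) (XT.nd (nat_lit 156) (nat_lit 0) (nat_lit 0) (XT.nd (nat_lit 78) (nat_lit 0) (nat_lit 0) (XT.lf (nat_lit 0) (nat_lit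 291015730971) (nat_lit 76) (nat_lit 236373330571) (nat_lit 76) (nat_lit 234936345859) (nat_lit 1) (nat_lit 4) (nat_lit 2) (nat_lit 5) (nat_lit 2) (nat_lit 4) (nat_lit 345) (nat_lit 232) (nat_lit 203)) (XT.lf (nat_lit 0) (nat_lit 316744896724) (nat_lit 76) (nat_lit 253957835942) (nat_lit 76) (nat_lit 252508053371) (nat_lit 1) (nat_lit 4) (nat_lit 2) (nat_lit 5) (nat_lit 2) (nat_lit 4) (nat_lit 346) (nat_lit 232) (nat_lit 202))) (XT.nd (nat_lit 78) (nat_lit 0) (nat_lit 0) (XT.lf (nat_lit 0) (nat_lit 344501335069) (nat_lit 76) (nat_lit 272964284751) (nat_lit 76) (nat_lit 271502652311) (nat_lit 1) (nat_lit 4) (nat_lit 2) (nat_lit 5) (nat_lit 2) (nat_lit 4) (nat_lit 347) (nat_lit 232) (nat_lit 201)) (XT.lf (nat_lit 0) (nat_lit 374449528603) (nat_lit 76) (nat_lit 293505307805) (nat_lit 76) (nat_lit 292032703263) (nat_lit 1) (nat_lit 4) (nat_lit 2) (nat_lit 5) (nat_lit 2) (nat_lit 4) (nat_lit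 348) (nat_lit 232) (nat_lit 200)))) (XT.nd (nat_lit 156) (nat_lit 0) (nat_lit 0) (XT.nd (nat_lit 78) (nat_lit 0) (nat_lit 0) (XT.lf (nat_lit 0) (nat_lit 406766948102) (nat_lit 76) (nat_lit 315702629684) (nat_lit 76) (nat_lit 314219865789) (nat_lit 1) (nat_lit 4) (nat_lit 2) (nat_lit 5) (nat_lit 2) (nat_lit 4) (nat_lit 349) (nat_lit 232) (nat_lit 199)) (XT.lf (nat_lit 0) (nat_lit 441645104200) (nat_lit 76) (nat_lit 339687790075) (nat_lit 76) (nat_lit 338195619372) (nat_lit 1) (nat_lit 4) (nat_lit 2) (nat_lit 5) (nat_lit 2) (nat_lit 4) (nat_lit 350) (nat_lit 232) (nat_lit 198))) (XT.nd (nat_lit 78) (nat_lit 0) (nat_lit 0) (XT.lf (nat_lit 0) (nat_lit 479290682268) (nat_lit 76) (nat_lit 365602923261) (nat_lit 76) (nat_lit 364102042550) (nat_lit 1) (nat_lit 4) (nat_lit 2) (nat_lit 5) (nat_lit 2) (nat_lit 4) (nat_lit 351) (nat_lit 232) (nat_lit 197)) (XT.lf (nat_lit 0) (nat_lit 519926767211)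 (nat_lit 76) (nat_lit 393601600401) (nat_lit 76) (nat_lit 392092654868) (nat_lit 1) (nat_lit 4) (nat_lit 2) (nat_lit 5) (nat_lit 2) (nat_lit 4) (nat_lit 352) (nat_lit 232) (nat_lit 196))))) (XT.nd (nat_lit 312) (nat_lit 0) (nat_lit 0) (XT.nd (nat_lit 156) (nat_lit 0) (nat_lit 0) (XT.nd (nat_lit 78) (nat_lit 0) (nat_lit 0) (XT.lf (nat_lit 0) (nat_lit 563794165459) (nat_lit 76) (nat_lit 423849739583) (nat_lit 76) (nat_lit 422333326622) (nat_lit 1) (nat_lit 4) (nat_lit 2) (nat_lit 5) (nat_lit 2) (nat_lit 4) (nat_lit 353) (nat_lit 232) (nat_lit 195)) (XT.lf (nat_lit 0) (nat_lit 611152831965) (nat_lit 76) (nat_lit 456526589038) (nat_lit 76) (nat_lit 455003261792) (nat_lit 1) (nat_lit 4) (nat_lit 2) (nat_lit 5) (nat_lit 2) (nat_lit 4) (nat_lit 354) (nat_lit 232) (nat_lit 194))) (XT.nd (nat_lit 78) (nat_lit 0) (nat_lit 0) (XT.lf (nat_lit 0) (nat_lit 662283410679) (nat_lit 76) (nat_lit 491825789357)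 (nat_lit 76) (nat_lit 490296059994) (nat_lit 1) (nat_lit 4) (nat_lit 2) (nat_lit 5) (nat_lit 2) (nat_lit 4) (nat_lit 355) (nat_lit 232) (nat_lit 193)) (XT.lf (nat_lit 0) (nat_lit 717488897622) (nat_lit 76) (nat_lit 529956520984) (nat_lit 76) (nat_lit 528420863737) (nat_lit 1) (nat_lit 4) (nat_lit 2) (nat_lit 5) (nat_lit 2) (nat_lit 4) (nat_lit 356) (nat_lit 232) (nat_lit 192)))) (XT.nd (nat_lit 156) (nat_lit 0) (nat_lit 0) (XT.nd (nat_lit 78) (nat_lit 0) (nat_lit 0) (XT.lf (nat_lit 0) (nat_lit 777096436421) (nat_lit 76) (nat_lit 571144743812) (nat_lit 76) (nat_lit 569603597782) (nat_lit 1) (nat_lit 4) (nat_lit 2) (nat_lit 5) (nat_lit 2) (nat_lit 4) (nat_lit 357) (nat_lit 232) (nat_lit 191)) (XT.lf (nat_lit 0) (nat_lit 841459256936) (nat_lit 76) (nat_lit 615634536197) (nat_lit 76) (nat_lit 614088307962) (nat_lit 1) (nat_lit 4) (nat_lit 2) (nat_lit 5) (nat_lit 2) (nat_lit 4) (nat_lit 358)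 (nat_lit 232) (nat_lit 190))) (XT.nd (nat_lit 78) (nat_lit 0) (nat_lit 0) (XT.lf (nat_lit 0) (nat_lit 910958768472) (nat_lit 76) (nat_lit 663689541355) (nat_lit 76) (nat_lit 662138607373) (nat_lit 1) (nat_lit 4) (nat_lit 2) (nat_lit 5) (nat_lit 2) (nat_lit 4) (nat_lit 359) (nat_lit 232) (nat_lit 189)) (XT.lf (nat_lit 0) (nat_lit 986006819988) (nat_lit 76) (nat_lit 715594529685) (nat_lit 76) (nat_lit 714039238531) (nat_lit 1) (nat_lit 4) (nat_lit 2) (nat_lit 5) (nat_lit 2) (nat_lit 4) (nat_lit 360) (nat_lit 232) (nat_lit 188))))))) (XT.nd (nat_lit 37284) (nat_lit 0) (nat_lit 0) (XT.nd (nat_lit 624) (nat_lit 0) (nat_lit 0) (XT.nd (nat_lit 312) (nat_lit 0) (nat_lit 0) (XT.nd (nat_lit 156) (nat_lit 0) (nat_lit 0) (XT.nd (nat_lit 78) (nat_lit 0) (nat_lit 0) (XT.lf (nat_lit 0) (nat_lit 1067048140678) (nat_lit 76) (nat_lit 771657086305) (nat_lit 76) (nat_lit 770097760732) (nat_lit 1) (nat_lit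 4) (nat_lit 2) (nat_lit 5) (nat_lit 2) (nat_lit 4) (nat_lit 361) (nat_lit 232) (nat_lit 187)) (XT.lf (nat_lit 0) (nat_lit 1154562975404) (nat_lit 76) (nat_lit 832209433771) (nat_lit 76) (nat_lit 830646372625) (nat_lit 1) (nat_lit 4) (nat_lit 2) (nat_lit 5) (nat_lit 2) (nat_lit 4) (nat_lit 362) (nat_lit 232) (nat_lit 186))) (XT.nd (nat_lit 78) (nat_lit 0) (nat_lit 0) (XT.lf (nat_lit 0) (nat_lit 1249069930595) (nat_lit 76) (nat_lit 897610400809) (nat_lit 76) (nat_lit 896043880799) (nat_lit 1) (nat_lit 4) (nat_lit 2) (nat_lit 5) (nat_lit 2) (nat_lit 4) (nat_lit 363) (nat_lit 232) (nat_lit 185)) (XT.lf (nat_lit 0) (nat_lit 1351129047467) (nat_lit 76) (nat_lit 968247548706) (nat_lit 76) (nat_lit 966677826044) (nat_lit 1) (nat_lit 4) (nat_lit 2) (nat_lit 5) (nat_lit 2) (nat_lit 4) (nat_lit 364) (nat_lit 232) (nat_lit 184)))) (XT.nd (nat_lit 156) (nat_lit 0) (nat_lit 0) (XT.nd (nat_lit 78)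 (nat_lit 0) (nat_lit 0) (XT.lf (nat_lit 0) (nat_lit 1461345120787) (nat_lit 76) (nat_lit 1044539467968) (nat_lit 76) (nat_lit 1042966779888) (nat_lit 1) (nat_lit 4) (nat_lit 2) (nat_lit 5) (nat_lit 2) (nat_lit 4) (nat_lit 365) (nat_lit 232) (nat_lit 183)) (XT.lf (nat_lit 0) (nat_lit 1580371282840) (nat_lit 76) (nat_lit 1126938258857) (nat_lit 76) (nat_lit 1125362825019) (nat_lit 1) (nat_lit 4) (nat_lit 2) (nat_lit 5) (nat_lit 2) (nat_lit 4) (nat_lit 366) (nat_lit 232) (nat_lit 182))) (XT.nd (nat_lit 78) (nat_lit 0) (nat_lit 0) (XT.lf (nat_lit 0) (nat_lit 1708912873847) (nat_lit 76) (nat_lit 1215932210503) (nat_lit 76) (nat_lit 1214354234297) (nat_lit 1) (nat_lit 4) (nat_lit 2) (nat_lit 5) (nat_lit 2) (nat_lit 4) (nat_lit 367) (nat_lit 232) (nat_lit 181)) (XT.lf (nat_lit 0) (nat_lit 1847731621754) (nat_lit 76) (nat_lit 1312048694473) (nat_lit 76) (nat_lit 1310468364223) (nat_lit 1) (nat_lit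 4) (nat_lit 2) (nat_lit 5) (nat_lit 2) (nat_lit 4) (nat_lit 368) (nat_lit 232) (nat_lit 180))))) (XT.nd (nat_lit 36348) (nat_lit 0) (nat_lit 76) (XT.nd (nat_lit 156) (nat_lit 0) (nat_lit 0) (XT.nd (nat_lit 78) (nat_lit 0) (nat_lit 0) (XT.lf (nat_lit 0) (nat_lit 1997650156178) (nat_lit 76) (nat_lit 1415857289931) (nat_lit 76) (nat_lit 1414274780009) (nat_lit 1) (nat_lit 4) (nat_lit 2) (nat_lit 5) (nat_lit 2) (nat_lit 4) (nat_lit 369) (nat_lit 232) (nat_lit 179)) (XT.lf (nat_lit 0) (nat_lit 2159556883250) (nat_lit 76) (nat_lit 1527973158924) (nat_lit 76) (nat_lit 1526388630788) (nat_lit 1) (nat_lit 4) (nat_lit 2) (nat_lit 5) (nat_lit 2) (nat_lit 4) (nat_lit 370) (nat_lit 232) (nat_lit 178))) (XT.nd (nat_lit 78) (nat_lit 0) (nat_lit 0) (XT.lf (nat_lit 0) (nat_lit 2334411250240) (nat_lit 76) (nat_lit 1649060691786) (nat_lit 76) (nat_lit 1647474294934) (nat_lit 1) (nat_lit 4) (nat_lit 2)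 (nat_lit 5) (nat_lit 2) (nat_lit 4) (nat_lit 371) (nat_lit 232) (nat_lit 177)) (XT.lf (nat_lit 0) (nat_lit 2523249431176) (nat_lit 76) (nat_lit 1779837444268) (nat_lit 76) (nat_lit 1778249317123) (nat_lit 1) (nat_lit 4) (nat_lit 2) (nat_lit 5) (nat_lit 2) (nat_lit 4) (nat_lit 372) (nat_lit 232) (nat_lit 176)))) (XT.nd (nat_lit 156) (nat_lit 0) (nat_lit 0) (XT.nd (nat_lit 78) (nat_lit 0) (nat_lit 0) (XT.lf (nat_lit 0) (nat_lit 12026058325) (nat_lit 152) (nat_lit 12069471027) (nat_lit 0) (nat_lit 12026058325) (nat_lit 2) (nat_lit 5) (nat_lit 4) (nat_lit 4) (nat_lit 2) (nat_lit 4) (nat_lit 314) (nat_lit 233) (nat_lit 233)) (XT.lf (nat_lit 0) (nat_lit 28959885497) (nat_lit 152) (nat_lit 19980389680) (nat_lit 0) (nat_lit 28831105032) (nat_lit 2) (nat_lit 5) (nat_lit 4) (nat_lit 4) (nat_lit 2) (nat_lit 4) (nat_lit 315) (nat_lit 233) (nat_lit 232))) (XT.nd (nat_lit 78) (nat_lit 0) (nat_lit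 0) (XT.lf (nat_lit 0) (nat_lit 34108021295) (nat_lit 152) (nat_lit 15786070812) (nat_lit 0) (nat_lit 33859999659) (nat_lit 2) (nat_lit 5) (nat_lit 4) (nat_lit 4) (nat_lit 2) (nat_lit 4) (nat_lit 316) (nat_lit 233) (nat_lit 231)) (XT.lf (nat_lit 0) (nat_lit 39527031514) (nat_lit 152) (nat_lit 11531130226) (nat_lit 0) (nat_lit 39168601386) (nat_lit 2) (nat_lit 5) (nat_lit 4) (nat_lit 4) (nat_lit 2) (nat_lit 4) (nat_lit 317) (nat_lit 233) (nat_lit 230)))))) (XT.nd (nat_lit 624) (nat_lit 0) (nat_lit 0) (XT.nd (nat_lit 312) (nat_lit 0) (nat_lit 0) (XT.nd (nat_lit 156) (nat_lit 76) (nat_lit 0) (XT.nd (nat_lit 78) (nat_lit 0) (nat_lit 0) (XT.lf (nat_lit 0) (nat_lit 45249028808) (nat_lit 152) (nat_lit 7190353460) (nat_lit 0) (nat_lit 44788368595) (nat_lit 2) (nat_lit 5) (nat_lit 4) (nat_lit 4) (nat_lit 2) (nat_lit 4) (nat_lit 318) (nat_lit 233) (nat_lit 229)) (XT.lf (nat_lit 0) (nat_lit 51307921308)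 (nat_lit 152) (nat_lit 2738017392) (nat_lit 0) (nat_lit 50752603610) (nat_lit 2) (nat_lit 5) (nat_lit 4) (nat_lit 4) (nat_lit 2) (nat_lit 4) (nat_lit 319) (nat_lit 233) (nat_lit 228))) (XT.nd (nat_lit 78) (nat_lit 0) (nat_lit 0) (XT.lf (nat_lit 0) (nat_lit 1949799034) (nat_lit 76) (nat_lit 55836707243) (nat_lit 76) (nat_lit 55193743724) (nat_lit 1) (nat_lit 4) (nat_lit 2) (nat_lit 5) (nat_lit 2) (nat_lit 4) (nat_lit 320) (nat_lit 233) (nat_lit 227)) (XT.lf (nat_lit 0) (nat_lit 6955636029) (nat_lit 76) (nat_lit 57793866491) (nat_lit 76) (nat_lit 57069749434) (nat_lit 1) (nat_lit 4) (nat_lit 2) (nat_lit 5) (nat_lit 2) (nat_lit 4) (nat_lit 321) (nat_lit 233) (nat_lit 226)))) (XT.nd (nat_lit 156) (nat_lit 0) (nat_lit 0) (XT.nd (nat_lit 78) (nat_lit 0) (nat_lit 0) (XT.lf (nat_lit 0) (nat_lit 12164978668) (nat_lit 76) (nat_lit 60003876672) (nat_lit 76) (nat_lit 59204617451) (nat_lit 1) (nat_lit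 4) (nat_lit 2) (nat_lit 5) (nat_lit 2) (nat_lit 4) (nat_lit 322) (nat_lit 233) (nat_lit 225)) (XT.lf (nat_lit 0) (nat_lit 17608697128) (nat_lit 76) (nat_lit 62479834144) (nat_lit 76) (nat_lit 61610998845) (nat_lit 1) (nat_lit 4) (nat_lit 2) (nat_lit 5) (nat_lit 2) (nat_lit 4) (nat_lit 323) (nat_lit 233) (nat_lit 224))) (XT.nd (nat_lit 78) (nat_lit 0) (nat_lit 0) (XT.lf (nat_lit 0) (nat_lit 23319050483) (nat_lit 76) (nat_lit 65236411247) (nat_lit 76) (nat_lit 64303153654) (nat_lit 1) (nat_lit 4) (nat_lit 2) (nat_lit 5) (nat_lit 2) (nat_lit 4) (nat_lit 324) (nat_lit 233) (nat_lit 223)) (XT.lf (nat_lit 0) (nat_lit 29329877863) (nat_lit 76) (nat_lit 68289943253) (nat_lit 76) (nat_lit 67297035387) (nat_lit 1) (nat_lit 4) (nat_lit 2) (nat_lit 5) (nat_lit 2) (nat_lit 4) (nat_lit 325) (nat_lit 233) (nat_lit 222))))) (XT.nd (nat_lit 312) (nat_lit 0) (nat_lit 0) (XT.nd (nat_lit 156) (nat_lit 0)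 (nat_lit 0) (XT.nd (nat_lit 78) (nat_lit 0) (nat_lit 0) (XT.lf (nat_lit 0) (nat_lit 35676798986) (nat_lit 76) (nat_lit 71658525166) (nat_lit 76) (nat_lit 70610385566) (nat_lit 1) (nat_lit 4) (nat_lit 2) (nat_lit 5) (nat_lit 2) (nat_lit 4) (nat_lit 326) (nat_lit 233) (nat_lit 221)) (XT.lf (nat_lit 0) (nat_lit 42397425237) (nat_lit 76) (nat_lit 75362118953) (nat_lit 76) (nat_lit 74262838859) (nat_lit 1) (nat_lit 4) (nat_lit 2) (nat_lit 5) (nat_lit 2) (nat_lit 4) (nat_lit 327) (nat_lit 233) (nat_lit 220))) (XT.nd (nat_lit 78) (nat_lit 0) (nat_lit 0) (XT.lf (nat_lit 0) (nat_lit 49531582549) (nat_lit 76) (nat_lit 79422671837) (nat_lit 76) (nat_lit 78276039433) (nat_lit 1) (nat_lit 4) (nat_lit 2) (nat_lit 5) (nat_lit 2) (nat_lit 4) (nat_lit 328) (nat_lit 233) (nat_lit 219)) (XT.lf (nat_lit 0) (nat_lit 57121547409) (nat_lit 76) (nat_lit 83864246353) (nat_lit 76) (nat_lit 82673769218) (nat_lit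 1) (nat_lit 4) (nat_lit 2) (nat_lit 5) (nat_lit 2) (nat_lit 4) (nat_lit 329) (nat_lit 233) (nat_lit 218)))) (XT.nd (nat_lit 156) (nat_lit 0) (nat_lit 0) (XT.nd (nat_lit 78) (nat_lit 0) (nat_lit 0) (XT.lf (nat_lit 0) (nat_lit 65212297388) (nat_lit 76) (nat_lit 88713162943) (nat_lit 76) (nat_lit 87482088835) (nat_lit 1) (nat_lit 4) (nat_lit 2) (nat_lit 5) (nat_lit 2) (nat_lit 4) (nat_lit 330) (nat_lit 233) (nat_lit 217)) (XT.lf (nat_lit 0) (nat_lit 73851777670) (nat_lit 76) (nat_lit 93998155927) (nat_lit 76) (nat_lit 92729492029) (nat_lit 1) (nat_lit 4) (nat_lit 2) (nat_lit 5) (nat_lit 2) (nat_lit 4) (nat_lit 331) (nat_lit 233) (nat_lit 216))) (XT.nd (nat_lit 78) (nat_lit 0) (nat_lit 0) (XT.lf (nat_lit 0) (nat_lit 83091185175) (nat_lit 76) (nat_lit 99750543783) (nat_lit 76) (nat_lit 98447074523) (nat_lit 1) (nat_lit 4) (nat_lit 2) (nat_lit 5) (nat_lit 2) (nat_lit 4) (nat_lit 332) (nat_lit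 233) (nat_lit 215)) (XT.lf (nat_lit 0) (nat_lit 92985271948) (nat_lit 76) (nat_lit 106004414734) (nat_lit 76) (nat_lit 104668718288) (nat_lit 1) (nat_lit 4) (nat_lit 2) (nat_lit 5) (nat_lit 2) (nat_lit 4) (nat_lit 333) (nat_lit 233) (nat_lit 214))))))))
noncomputable def xc14 : XT := (XT.nd (nat_lit 2418) (nat_lit 0) (nat_lit 0) (XT.nd (nat_lit 1170) (nat_lit 0) (nat_lit 0) (XT.nd (nat_lit 546) (nat_lit 0) (nat_lit 0) (XT.nd (nat_lit 234) (nat_lit 0) (nat_lit 0) (XT.nd (nat_lit 78) (nat_lit 0) (nat_lit 0) (XT.lf (nat_lit 0) (nat_lit 103592669615) (nat_lit 76) (nat_lit 112796828756) (nat_lit 76) (nat_lit 111431292324) (nat_lit 1) (nat_lit 4) (nat_lit 2) (nat_lit 5) (nat_lit 2) (nat_lit 4) (nat_lit 334) (nat_lit 233) (nat_lit 213)) (XT.nd (nat_lit 78) (nat_lit 0) (nat_lit 0) (XT.lf (nat_lit 0) (nat_lit 114976236828) (nat_lit 76) (nat_lit 120168037193) (nat_lit 76) (nat_lit 118774871142)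 (nat_lit 1) (nat_lit 4) (nat_lit 2) (nat_lit 5) (nat_lit 2) (nat_lit 4) (nat_lit 335) (nat_lit 233) (nat_lit 212)) (XT.lf (nat_lit 0) (nat_lit 127203431762) (nat_lit 76) (nat_lit 128161721279) (nat_lit 76) (nat_lit 126742972249) (nat_lit 1) (nat_lit 4) (nat_lit 2) (nat_lit 5) (nat_lit 2) (nat_lit 4) (nat_lit 336) (nat_lit 233) (nat_lit 211)))) (XT.nd (nat_lit 156) (nat_lit 0) (nat_lit 0) (XT.nd (nat_lit 78) (nat_lit 0) (nat_lit 0) (XT.lf (nat_lit 0) (nat_lit 140346711871) (nat_lit 76) (nat_lit 136825250994) (nat_lit 76) (nat_lit 135382814019) (nat_lit 1) (nat_lit 4) (nat_lit 2) (nat_lit 5) (nat_lit 2) (nat_lit 4) (nat_lit 337) (nat_lit 233) (nat_lit 210)) (XT.lf (nat_lit 0) (nat_lit 154483963258) (nat_lit 76) (nat_lit 146209965773) (nat_lit 76) (nat_lit 144745595517) (nat_lit 1) (nat_lit 4) (nat_lit 2) (nat_lit 5) (nat_lit 2) (nat_lit 4) (nat_lit 338) (nat_lit 233) (nat_lit 209))) (XT.nd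 (nat_lit 78) (nat_lit 0) (nat_lit 0) (XT.lf (nat_lit 0) (nat_lit 169698962227) (nat_lit 76) (nat_lit 156371478741) (nat_lit 76) (nat_lit 154886799891) (nat_lit 1) (nat_lit 4) (nat_lit 2) (nat_lit 5) (nat_lit 2) (nat_lit 4) (nat_lit 339) (nat_lit 233) (nat_lit 208)) (XT.lf (nat_lit 0) (nat_lit 186081871735) (nat_lit 76) (nat_lit 167370006271) (nat_lit 76) (nat_lit 165866523167) (nat_lit 1) (nat_lit 4) (nat_lit 2) (nat_lit 5) (nat_lit 2) (nat_lit 4) (nat_lit 340) (nat_lit 233) (nat_lit 207))))) (XT.nd (nat_lit 312) (nat_lit 0) (nat_lit 0) (XT.nd (nat_lit 156) (nat_lit 0) (nat_lit 0) (XT.nd (nat_lit 78) (nat_lit 0) (nat_lit 0) (XT.lf (nat_lit 0) (nat_lit 203729775691) (nat_lit 76) (nat_lit 179270724822) (nat_lit 76) (nat_lit 177749830373) (nat_lit 1) (nat_lit 4) (nat_lit 2) (nat_lit 5) (nat_lit 2) (nat_lit 4) (nat_lit 341) (nat_lit 233) (nat_lit 206)) (XT.lf (nat_lit 0) (nat_lit 222747254266)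 (nat_lit 76) (nat_lit 192144157171) (nat_lit 76) (nat_lit 190607141105) (nat_lit 1) (nat_lit 4) (nat_lit 2) (nat_lit 5) (nat_lit 2) (nat_lit 4) (nat_lit 342) (nat_lit 233) (nat_lit 205))) (XT.nd (nat_lit 78) (nat_lit 0) (nat_lit 0) (XT.lf (nat_lit 0) (nat_lit 243247003630) (nat_lit 76) (nat_lit 206066590325) (nat_lit 76) (nat_lit 204514646837) (nat_lit 1) (nat_lit 4) (nat_lit 2) (nat_lit 5) (nat_lit 2) (nat_lit 4) (nat_lit 343) (nat_lit 233) (nat_lit 204)) (XT.lf (nat_lit 0) (nat_lit 265350503778) (nat_lit 76) (nat_lit 221120527591) (nat_lit 76) (nat_lit 219554762415) (nat_lit 1) (nat_lit 4) (nat_lit 2) (nat_lit 5) (nat_lit 2) (nat_lit 4) (nat_lit 344) (nat_lit 233) (nat_lit 203)))) (XT.nd (nat_lit 156) (nat_lit 0) (nat_lit 0) (XT.nd (nat_lit 78) (nat_lit 0) (nat_lit 0) (XT.lf (nat_lit 0) (nat_lit 289188738416) (nat_lit 76) (nat_lit 237395177487) (nat_lit 76) (nat_lit 235816614451) (nat_lit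 1) (nat_lit 4) (nat_lit 2) (nat_lit 5) (nat_lit 2) (nat_lit 4) (nat_lit 345) (nat_lit 233) (nat_lit 202)) (XT.lf (nat_lit 0) (nat_lit 314902971155) (nat_lit 76) (nat_lit 254986982381) (nat_lit 76) (nat_lit 253396569476) (nat_lit 1) (nat_lit 4) (nat_lit 2) (nat_lit 5) (nat_lit 2) (nat_lit 4) (nat_lit 346) (nat_lit 233) (nat_lit 201))) (XT.nd (nat_lit 78) (nat_lit 0) (nat_lit 0) (XT.lf (nat_lit 0) (nat_lit 342645582635) (nat_lit 76) (nat_lit 274000190008) (nat_lit 76) (nat_lit 272398805001) (nat_lit 1) (nat_lit 4) (nat_lit 2) (nat_lit 5) (nat_lit 2) (nat_lit 4) (nat_lit 347) (nat_lit 233) (nat_lit 200)) (XT.lf (nat_lit 0) (nat_lit 372580973516) (nat_lit 76) (nat_lit 294547471226) (nat_lit 76) (nat_lit 292935926866) (nat_lit 1) (nat_lit 4) (nat_lit 2) (nat_lit 5) (nat_lit 2) (nat_lit 4) (nat_lit 348) (nat_lit 233) (nat_lit 199)))))) (XT.nd (nat_lit 624) (nat_lit 0) (nat_lit 0) (XT.nd (nat_lit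 312) (nat_lit 0) (nat_lit 0) (XT.nd (nat_lit 156) (nat_lit 0) (nat_lit 0) (XT.nd (nat_lit 78) (nat_lit 0) (nat_lit 0) (XT.lf (nat_lit 0) (nat_lit 404886538707) (nat_lit 76) (nat_lit 316750587702) (nat_lit 76) (nat_lit 315129636534) (nat_lit 1) (nat_lit 4) (nat_lit 2) (nat_lit 5) (nat_lit 2) (nat_lit 4) (nat_lit 349) (nat_lit 233) (nat_lit 198)) (XT.lf (nat_lit 0) (nat_lit 439753718595) (nat_lit 76) (nat_lit 340741113460) (nat_lit 76) (nat_lit 339111452284) (nat_lit 1) (nat_lit 4) (nat_lit 2) (nat_lit 5) (nat_lit 2) (nat_lit 4) (nat_lit 350) (nat_lit 233) (nat_lit 197))) (XT.nd (nat_lit 78) (nat_lit 0) (nat_lit 0) (XT.lf (nat_lit 0) (nat_lit 477389133504) (nat_lit 76) (nat_lit 366661214578) (nat_lit 76) (nat_lit 365023488580) (nat_lit 1) (nat_lit 4) (nat_lit 2) (nat_lit 5) (nat_lit 2) (nat_lit 4) (nat_lit 351) (nat_lit 233) (nat_lit 196)) (XT.lf (nat_lit 0) (nat_lit 518015808115) (nat_lit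 76) (nat_lit 394664491656) (nat_lit 76) (nat_lit 393019298230) (nat_lit 1) (nat_lit 4) (nat_lit 2) (nat_lit 5) (nat_lit 2) (nat_lit 4) (nat_lit 352) (nat_lit 233) (nat_lit 195)))) (XT.nd (nat_lit 156) (nat_lit 0) (nat_lit 0) (XT.nd (nat_lit 78) (nat_lit 0) (nat_lit 0) (XT.lf (nat_lit 0) (nat_lit 561874493093) (nat_lit 76) (nat_lit 424916890039) (nat_lit 76) (nat_lit 423264782328) (nat_lit 1) (nat_lit 4) (nat_lit 2) (nat_lit 5) (nat_lit 2) (nat_lit 4) (nat_lit 353) (nat_lit 233) (nat_lit 194)) (XT.lf (nat_lit 0) (nat_lit 609225091757) (nat_lit 76) (nat_lit 457597683200) (nat_lit 76) (nat_lit 455939173373) (nat_lit 1) (nat_lit 4) (nat_lit 2) (nat_lit 5) (nat_lit 2) (nat_lit 4) (nat_lit 354) (nat_lit 233) (nat_lit 193))) (XT.nd (nat_lit 78) (nat_lit 0) (nat_lit 0) (XT.lf (nat_lit 0) (nat_lit 660348200246) (nat_lit 76) (nat_lit 492900535096) (nat_lit 76) (nat_lit 491236097385) (nat_lit 1)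 (nat_lit 4) (nat_lit 2) (nat_lit 5) (nat_lit 2) (nat_lit 4) (nat_lit 355) (nat_lit 233) (nat_lit 192)) (XT.lf (nat_lit 0) (nat_lit 715546770314) (nat_lit 76) (nat_lit 531034647815) (nat_lit 76) (nat_lit 529364721321) (nat_lit 1) (nat_lit 4) (nat_lit 2) (nat_lit 5) (nat_lit 2) (nat_lit 4) (nat_lit 356) (nat_lit 233) (nat_lit 191))))) (XT.nd (nat_lit 312) (nat_lit 0) (nat_lit 0) (XT.nd (nat_lit 156) (nat_lit 0) (nat_lit 0) (XT.nd (nat_lit 78) (nat_lit 0) (nat_lit 0) (XT.lf (nat_lit 0) (nat_lit 775147904599) (nat_lit 76) (nat_lit 572226001283) (nat_lit 76) (nat_lit 570550992583) (nat_lit 1) (nat_lit 4) (nat_lit 2) (nat_lit 5) (nat_lit 2) (nat_lit 4) (nat_lit 357) (nat_lit 233) (nat_lit 190)) (XT.lf (nat_lit 0) (nat_lit 839504795008) (nat_lit 76) (nat_lit 616718692410) (nat_lit 76) (nat_lit 615038977963) (nat_lit 1) (nat_lit 4) (nat_lit 2) (nat_lit 5) (nat_lit 2) (nat_lit 4) (nat_lit 358)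 (nat_lit 233) (nat_lit 189))) (XT.nd (nat_lit 78) (nat_lit 0) (nat_lit 0) (XT.lf (nat_lit 0) (nat_lit 908998815707) (nat_lit 76) (nat_lit 664776381586) (nat_lit 76) (nat_lit 663092309968) (nat_lit 1) (nat_lit 4) (nat_lit 2) (nat_lit 5) (nat_lit 2) (nat_lit 4) (nat_lit 359) (nat_lit 233) (nat_lit 188)) (XT.lf (nat_lit 0) (nat_lit 984041783113) (nat_lit 76) (nat_lit 716683855120) (nat_lit 76) (nat_lit 714995749082) (nat_lit 1) (nat_lit 4) (nat_lit 2) (nat_lit 5) (nat_lit 2) (nat_lit 4) (nat_lit 360) (nat_lit 233) (nat_lit 187)))) (XT.nd (nat_lit 156) (nat_lit 0) (nat_lit 0) (XT.nd (nat_lit 78) (nat_lit 0) (nat_lit 0) (XT.lf (nat_lit 0) (nat_lit 1065078396294) (nat_lit 76) (nat_lit 772748712853) (nat_lit 76) (nat_lit 771056871243) (nat_lit 1) (nat_lit 4) (nat_lit 2) (nat_lit 5) (nat_lit 2) (nat_lit 4) (nat_lit 361) (nat_lit 233) (nat_lit 186)) (XT.lf (nat_lit 0) (nat_lit 1152588872216)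 (nat_lit 76) (nat_lit 833303190981) (nat_lit 76) (nat_lit 831607890506) (nat_lit 1) (nat_lit 4) (nat_lit 2) (nat_lit 5) (nat_lit 2) (nat_lit 4) (nat_lit 362) (nat_lit 233) (nat_lit 185))) (XT.nd (nat_lit 78) (nat_lit 0) (nat_lit 0) (XT.lf (nat_lit 0) (nat_lit 1247091791477) (nat_lit 76) (nat_lit 898706130854) (nat_lit 76) (nat_lit 897007627727) (nat_lit 1) (nat_lit 4) (nat_lit 2) (nat_lit 5) (nat_lit 2) (nat_lit 4) (nat_lit 363) (nat_lit 233) (nat_lit 184)) (XT.lf (nat_lit 0) (nat_lit 1349147171377) (nat_lit 76) (nat_lit 969345105449) (nat_lit 76) (nat_lit 967643636904) (nat_lit 1) (nat_lit 4) (nat_lit 2) (nat_lit 5) (nat_lit 2) (nat_lit 4) (nat_lit 364) (nat_lit 233) (nat_lit 183))))))) (XT.nd (nat_lit 37128) (nat_lit 0) (nat_lit 0) (XT.nd (nat_lit 36504) (nat_lit 0) (nat_lit 76) (XT.nd (nat_lit 312) (nat_lit 0) (nat_lit 0) (XT.nd (nat_lit 156) (nat_lit 0) (nat_lit 0) (XT.nd (nat_lit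 78) (nat_lit 0) (nat_lit 0) (XT.lf (nat_lit 0) (nat_lit 1459359784537) (nat_lit 76) (nat_lit 1045638716098) (nat_lit 76) (nat_lit 1043934501796) (nat_lit 1) (nat_lit 4) (nat_lit 2) (nat_lit 5) (nat_lit 2) (nat_lit 4) (nat_lit 365) (nat_lit 233) (nat_lit 182)) (XT.lf (nat_lit 0) (nat_lit 1578382742739) (nat_lit 76) (nat_lit 1128039073086) (nat_lit 76) (nat_lit 1126332316416) (nat_lit 1) (nat_lit 4) (nat_lit 2) (nat_lit 5) (nat_lit 2) (nat_lit 4) (nat_lit 366) (nat_lit 233) (nat_lit 181))) (XT.nd (nat_lit 78) (nat_lit 0) (nat_lit 0) (XT.lf (nat_lit 0) (nat_lit 1706921367217) (nat_lit 76) (nat_lit 1217034474825) (nat_lit 76) (nat_lit 1215325364110) (nat_lit 1) (nat_lit 4) (nat_lit 2) (nat_lit 5) (nat_lit 2) (nat_lit 4) (nat_lit 367) (nat_lit 233) (nat_lit 180)) (XT.lf (nat_lit 0) (nat_lit 1845737368337) (nat_lit 76) (nat_lit 1313152301473) (nat_lit 76) (nat_lit 1311441011087) (nat_lit 1)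 (nat_lit 4) (nat_lit 2) (nat_lit 5) (nat_lit 2) (nat_lit 4) (nat_lit 368) (nat_lit 233) (nat_lit 179)))) (XT.nd (nat_lit 156) (nat_lit 0) (nat_lit 0) (XT.nd (nat_lit 78) (nat_lit 0) (nat_lit 0) (XT.lf (nat_lit 0) (nat_lit 1995653359441) (nat_lit 76) (nat_lit 1416962140152) (nat_lit 76) (nat_lit 1415248831551) (nat_lit 1) (nat_lit 4) (nat_lit 2) (nat_lit 5) (nat_lit 2) (nat_lit 4) (nat_lit 369) (nat_lit 233) (nat_lit 178)) (XT.lf (nat_lit 0) (nat_lit 2157557731586) (nat_lit 76) (nat_lit 1529079160274) (nat_lit 76) (nat_lit 1527363982957) (nat_lit 1) (nat_lit 4) (nat_lit 2) (nat_lit 5) (nat_lit 2) (nat_lit 4) (nat_lit 370) (nat_lit 233) (nat_lit 177))) (XT.nd (nat_lit 78) (nat_lit 0) (nat_lit 0) (XT.lf (nat_lit 0) (nat_lit 2332409918089) (nat_lit 76) (nat_lit 1650167758998) (nat_lit 76) (nat_lit 1648450851387) (nat_lit 1) (nat_lit 4) (nat_lit 2) (nat_lit 5) (nat_lit 2) (nat_lit 4) (nat_lit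 371) (nat_lit 233) (nat_lit 176)) (XT.lf (nat_lit 0) (nat_lit 2521246080055) (nat_lit 76) (nat_lit 1780945498388) (nat_lit 76) (nat_lit 1779226988655) (nat_lit 1) (nat_lit 4) (nat_lit 2) (nat_lit 5) (nat_lit 2) (nat_lit 4) (nat_lit 372) (nat_lit 233) (nat_lit 175))))) (XT.nd (nat_lit 312) (nat_lit 0) (nat_lit 0) (XT.nd (nat_lit 156) (nat_lit 0) (nat_lit 0) (XT.nd (nat_lit 78) (nat_lit 0) (nat_lit 0) (XT.lf (nat_lit 0) (nat_lit 7533531066) (nat_lit 152) (nat_lit 16140376095) (nat_lit 0) (nat_lit 7533531066) (nat_lit 2) (nat_lit 5) (nat_lit 4) (nat_lit 4) (nat_lit 2) (nat_lit 4) (nat_lit 312) (nat_lit 234) (nat_lit 234)) (XT.lf (nat_lit 0) (nat_lit 19494714580) (nat_lit 152) (nat_lit 28286371208) (nat_lit 0) (nat_lit 19355631678) (nat_lit 2) (nat_lit 5) (nat_lit 4) (nat_lit 4) (nat_lit 2) (nat_lit 4) (nat_lit 313) (nat_lit 234) (nat_lit 233))) (XT.nd (nat_lit 78) (nat_lit 0) (nat_lit 0)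 (XT.lf (nat_lit 0) (nat_lit 24112144301) (nat_lit 152) (nat_lit 24293110858) (nat_lit 0) (nat_lit 23844280934) (nat_lit 2) (nat_lit 5) (nat_lit 4) (nat_lit 4) (nat_lit 2) (nat_lit 4) (nat_lit 314) (nat_lit 234) (nat_lit 232)) (XT.lf (nat_lit 0) (nat_lit 28946713841) (nat_lit 152) (nat_lit 20277307376) (nat_lit 0) (nat_lit 28559609304) (nat_lit 2) (nat_lit 5) (nat_lit 4) (nat_lit 4) (nat_lit 2) (nat_lit 4) (nat_lit 315) (nat_lit 234) (nat_lit 231)))) (XT.nd (nat_lit 156) (nat_lit 0) (nat_lit 0) (XT.nd (nat_lit 78) (nat_lit 0) (nat_lit 0) (XT.lf (nat_lit 0) (nat_lit 34027072503) (nat_lit 152) (nat_lit 16215163407) (nat_lit 0) (nat_lit 33529559474) (nat_lit 2) (nat_lit 5) (nat_lit 4) (nat_lit 4) (nat_lit 2) (nat_lit 4) (nat_lit 316) (nat_lit 234) (nat_lit 230)) (XT.lf (nat_lit 0) (nat_lit 39383326115) (nat_lit 152) (nat_lit 12082606988) (nat_lit 0) (nat_lit 38783583001) (nat_lit 2) (nat_lit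 5) (nat_lit 4) (nat_lit 4) (nat_lit 2) (nat_lit 4) (nat_lit 317) (nat_lit 234) (nat_lit 229))) (XT.nd (nat_lit 78) (nat_lit 0) (nat_lit 0) (XT.lf (nat_lit 0) (nat_lit 45047215440) (nat_lit 152) (nat_lit 7855148895) (nat_lit 0) (nat_lit 44352814839) (nat_lit 2) (nat_lit 5) (nat_lit 4) (nat_lit 4) (nat_lit 2) (nat_lit 4) (nat_lit 318) (nat_lit 234) (nat_lit 228)) (XT.lf (nat_lit 0) (nat_lit 51052304265) (nat_lit 152) (nat_lit 3507737525) (nat_lit 0) (nat_lit 50270257844) (nat_lit 2) (nat_lit 5) (nat_lit 4) (nat_lit 4) (nat_lit 2) (nat_lit 4) (nat_lit 319) (nat_lit 234) (nat_lit 227)))))) (XT.nd (nat_lit 624) (nat_lit 0) (nat_lit 0) (XT.nd (nat_lit 312) (nat_lit 0) (nat_lit 0) (XT.nd (nat_lit 156) (nat_lit 0) (nat_lit 0) (XT.nd (nat_lit 78) (nat_lit 0) (nat_lit 0) (XT.lf (nat_lit 0) (nat_lit 1037278428) (nat_lit 76) (nat_lit 56421846445) (nat_lit 76) (nat_lit 55558646487) (nat_lit 1) (nat_lit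 4) (nat_lit 2) (nat_lit 5) (nat_lit 2) (nat_lit 4) (nat_lit 320) (nat_lit 234) (nat_lit 226)) (XT.lf (nat_lit 0) (nat_lit 5948422482) (nat_lit 76) (nat_lit 58425293286) (nat_lit 76) (nat_lit 57486951164) (nat_lit 1) (nat_lit 4) (nat_lit 2) (nat_lit 5) (nat_lit 2) (nat_lit 4) (nat_lit 321) (nat_lit 234) (nat_lit 225))) (XT.nd (nat_lit 78) (nat_lit 0) (nat_lit 0) (XT.lf (nat_lit 0) (nat_lit 11070086472) (nat_lit 76) (nat_lit 60678162350) (nat_lit 76) (nat_lit 59670244150) (nat_lit 1) (nat_lit 4) (nat_lit 2) (nat_lit 5) (nat_lit 2) (nat_lit 4) (nat_lit 322) (nat_lit 234) (nat_lit 224)) (XT.lf (nat_lit 0) (nat_lit 16432620999) (nat_lit 76) (nat_lit 63193803973) (nat_lit 76) (nat_lit 62121463478) (nat_lit 1) (nat_lit 4) (nat_lit 2) (nat_lit 5) (nat_lit 2) (nat_lit 4) (nat_lit 323) (nat_lit 234) (nat_lit 223)))) (XT.nd (nat_lit 156) (nat_lit 0) (nat_lit 0) (XT.nd (nat_lit 78) (nat_lit 0) (nat_lit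 0) (XT.lf (nat_lit 0) (nat_lit 22067804044) (nat_lit 76) (nat_lit 65987125660) (nat_lit 76) (nat_lit 64855134892) (nat_lit 1) (nat_lit 4) (nat_lit 2) (nat_lit 5) (nat_lit 2) (nat_lit 4) (nat_lit 324) (nat_lit 234) (nat_lit 222)) (XT.lf (nat_lit 0) (nat_lit 28009029286) (nat_lit 76) (nat_lit 69074680429) (nat_lit 76) (nat_lit 67887457927) (nat_lit 1) (nat_lit 4) (nat_lit 2) (nat_lit 5) (nat_lit 2) (nat_lit 4) (nat_lit 325) (nat_lit 234) (nat_lit 221))) (XT.nd (nat_lit 78) (nat_lit 0) (nat_lit 0) (XT.lf (nat_lit 0) (nat_lit 34291503985) (nat_lit 76) (nat_lit 72474764900) (nat_lit 76) (nat_lit 71236401904) (nat_lit 1) (nat_lit 4) (nat_lit 2) (nat_lit 5) (nat_lit 2) (nat_lit 4) (nat_lit 326) (nat_lit 234) (nat_lit 220)) (XT.lf (nat_lit 0) (nat_lit 40952457621) (nat_lit 76) (nat_lit 76207527723) (nat_lit 76) (nat_lit 74921812417) (nat_lit 1) (nat_lit 4) (nat_lit 2) (nat_lit 5) (nat_lit 2)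 (nat_lit 4) (nat_lit 327) (nat_lit 234) (nat_lit 219))))) (XT.nd (nat_lit 312) (nat_lit 0) (nat_lit 0) (XT.nd (nat_lit 156) (nat_lit 0) (nat_lit 0) (XT.nd (nat_lit 78) (nat_lit 0) (nat_lit 0) (XT.lf (nat_lit 0) (nat_lit 48031362511) (nat_lit 76) (nat_lit 80295088973) (nat_lit 76) (nat_lit 78965528936) (nat_lit 1) (nat_lit 4) (nat_lit 2) (nat_lit 5) (nat_lit 2) (nat_lit 4) (nat_lit 328) (nat_lit 234) (nat_lit 218)) (XT.lf (nat_lit 0) (nat_lit 55570167722) (nat_lit 76) (nat_lit 84761671235) (nat_lit 76) (nat_lit 83391514225) (nat_lit 1) (nat_lit 4) (nat_lit 2) (nat_lit 5) (nat_lit 2) (nat_lit 4) (nat_lit 329) (nat_lit 234) (nat_lit 217))) (XT.nd (nat_lit 78) (nat_lit 0) (nat_lit 0) (XT.lf (nat_lit 0) (nat_lit 63613547655) (nat_lit 76) (nat_lit 89633743146) (nat_lit 76) (nat_lit 88225996346) (nat_lit 1) (nat_lit 4) (nat_lit 2) (nat_lit 5) (nat_lit 2) (nat_lit 4) (nat_lit 330) (nat_lit 234)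 (nat_lit 216)) (XT.lf (nat_lit 0) (nat_lit 72209166784) (nat_lit 76) (nat_lit 94940176242) (nat_lit 76) (nat_lit 93497624080) (nat_lit 1) (nat_lit 4) (nat_lit 2) (nat_lit 5) (nat_lit 2) (nat_lit 4) (nat_lit 331) (nat_lit 234) (nat_lit 215)))) (XT.nd (nat_lit 156) (nat_lit 0) (nat_lit 0) (XT.nd (nat_lit 78) (nat_lit 0) (nat_lit 0) (XT.lf (nat_lit 0) (nat_lit 81407962110) (nat_lit 76) (nat_lit 100712416053) (nat_lit 76) (nat_lit 99237636705) (nat_lit 1) (nat_lit 4) (nat_lit 2) (nat_lit 5) (nat_lit 2) (nat_lit 4) (nat_lit 332) (nat_lit 234) (nat_lit 214)) (XT.lf (nat_lit 0) (nat_lit 91264445014) (nat_lit 76) (nat_lit 106984668444) (nat_lit 76) (nat_lit 105480049109) (nat_lit 1) (nat_lit 4) (nat_lit 2) (nat_lit 5) (nat_lit 2) (nat_lit 4) (nat_lit 333) (nat_lit 234) (nat_lit 213))) (XT.nd (nat_lit 78) (nat_lit 0) (nat_lit 0) (XT.lf (nat_lit 0) (nat_lit 101837024283) (nat_lit 76) (nat_lit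 113794102319) (nat_lit 76) (nat_lit 112261853366) (nat_lit 1) (nat_lit 4) (nat_lit 2) (nat_lit 5) (nat_lit 2) (nat_lit 4) (nat_lit 334) (nat_lit 234) (nat_lit 212)) (XT.lf (nat_lit 0) (nat_lit 113188352238) (nat_lit 76) (nat_lit 121181069877) (nat_lit 76) (nat_lit 119623237945) (nat_lit 1) (nat_lit 4) (nat_lit 2) (nat_lit 5) (nat_lit 2) (nat_lit 4) (nat_lit 335) (nat_lit 234) (nat_lit 211))))))))
noncomputable def xc15 : XT := (XT.nd (nat_lit 2496) (nat_lit 0) (nat_lit 0) (XT.nd (nat_lit 1248) (nat_lit 0) (nat_lit 0) (XT.nd (nat_lit 624) (nat_lit 0) (nat_lit 0) (XT.nd (nat_lit 312) (nat_lit 0) (nat_lit 0) (XT.nd (nat_lit 156) (nat_lit 0) (nat_lit 0) (XT.nd (nat_lit 78) (nat_lit 0) (nat_lit 0) (XT.lf (nat_lit 0) (nat_lit 125385696009) (nat_lit 76) (nat_lit 129189345743) (nat_lit 76) (nat_lit 127607825867) (nat_lit 1) (nat_lit 4) (nat_lit 2) (nat_lit 5) (nat_lit 2) (nat_lit 4) (nat_lit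 336) (nat_lit 234) (nat_lit 210)) (XT.lf (nat_lit 0) (nat_lit 138501336151) (nat_lit 76) (nat_lit 137866386365) (nat_lit 76) (nat_lit 136262933207) (nat_lit 1) (nat_lit 4) (nat_lit 2) (nat_lit 5) (nat_lit 2) (nat_lit 4) (nat_lit 337) (nat_lit 234) (nat_lit 209))) (XT.nd (nat_lit 78) (nat_lit 0) (nat_lit 0) (XT.lf (nat_lit 0) (nat_lit 152612994976) (nat_lit 76) (nat_lit 147263611243) (nat_lit 76) (nat_lit 145639849492) (nat_lit 1) (nat_lit 4) (nat_lit 2) (nat_lit 5) (nat_lit 2) (nat_lit 4) (nat_lit 338) (nat_lit 234) (nat_lit 208)) (XT.lf (nat_lit 0) (nat_lit 167804297129) (nat_lit 76) (nat_lit 157436707637) (nat_lit 76) (nat_lit 155794141631) (nat_lit 1) (nat_lit 4) (nat_lit 2) (nat_lit 5) (nat_lit 2) (nat_lit 4) (nat_lit 339) (nat_lit 234) (nat_lit 207)))) (XT.nd (nat_lit 156) (nat_lit 0) (nat_lit 0) (XT.nd (nat_lit 78) (nat_lit 0) (nat_lit 0) (XT.lf (nat_lit 0) (nat_lit 184165265140)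 (nat_lit 76) (nat_lit 168445960560) (nat_lit 76) (nat_lit 166785983209) (nat_lit 1) (nat_lit 4) (nat_lit 2) (nat_lit 5) (nat_lit 2) (nat_lit 4) (nat_lit 340) (nat_lit 234) (nat_lit 206)) (XT.lf (nat_lit 0) (nat_lit 201792852896) (nat_lit 76) (nat_lit 180356610032) (nat_lit 76) (nat_lit 178680511064) (nat_lit 1) (nat_lit 4) (nat_lit 2) (nat_lit 5) (nat_lit 2) (nat_lit 4) (nat_lit 341) (nat_lit 234) (nat_lit 205))) (XT.nd (nat_lit 78) (nat_lit 0) (nat_lit 0) (XT.lf (nat_lit 0) (nat_lit 220791520174) (nat_lit 76) (nat_lit 193239237678) (nat_lit 76) (nat_lit 191548211287) (nat_lit 1) (nat_lit 4) (nat_lit 2) (nat_lit 5) (nat_lit 2) (nat_lit 4) (nat_lit 342) (nat_lit 234) (nat_lit 204)) (XT.lf (nat_lit 0) (nat_lit 241273851670) (nat_lit 76) (nat_lit 207170184995) (nat_lit 76) (nat_lit 205465336917) (nat_lit 1) (nat_lit 4) (nat_lit 2) (nat_lit 5) (nat_lit 2) (nat_lit 4) (nat_lit 343) (nat_lit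 234) (nat_lit 203))))) (XT.nd (nat_lit 312) (nat_lit 0) (nat_lit 0) (XT.nd (nat_lit 156) (nat_lit 0) (nat_lit 0) (XT.nd (nat_lit 78) (nat_lit 0) (nat_lit 0) (XT.lf (nat_lit 0) (nat_lit 263361224163) (nat_lit 76) (nat_lit 222232005746) (nat_lit 76) (nat_lit 220514359808) (nat_lit 1) (nat_lit 4) (nat_lit 2) (nat_lit 5) (nat_lit 2) (nat_lit 4) (nat_lit 344) (nat_lit 234) (nat_lit 202)) (XT.lf (nat_lit 0) (nat_lit 287184525787) (nat_lit 76) (nat_lit 238513955164) (nat_lit 76) (nat_lit 236784459357) (nat_lit 1) (nat_lit 4) (nat_lit 2) (nat_lit 5) (nat_lit 2) (nat_lit 4) (nat_lit 345) (nat_lit 234) (nat_lit 201))) (XT.nd (nat_lit 78) (nat_lit 0) (nat_lit 0) (XT.lf (nat_lit 0) (nat_lit 312884931662) (nat_lit 76) (nat_lit 256112518876) (nat_lit 76) (nat_lit 254372050967) (nat_lit 1) (nat_lit 4) (nat_lit 2) (nat_lit 5) (nat_lit 2) (nat_lit 4) (nat_lit 346) (nat_lit 234) (nat_lit 200)) (XT.lf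 (nat_lit 0) (nat_lit 340614740489) (nat_lit 76) (nat_lit 275131984666) (nat_lit 76) (nat_lit 273381357405) (nat_lit 1) (nat_lit 4) (nat_lit 2) (nat_lit 5) (nat_lit 2) (nat_lit 4) (nat_lit 347) (nat_lit 234) (nat_lit 199)))) (XT.nd (nat_lit 156) (nat_lit 0) (nat_lit 0) (XT.nd (nat_lit 78) (nat_lit 0) (nat_lit 0) (XT.lf (nat_lit 0) (nat_lit 370538277062) (nat_lit 76) (nat_lit 295685060481) (nat_lit 76) (nat_lit 293925026411) (nat_lit 1) (nat_lit 4) (nat_lit 2) (nat_lit 5) (nat_lit 2) (nat_lit 4) (nat_lit 348) (nat_lit 234) (nat_lit 198)) (XT.lf (nat_lit 0) (nat_lit 402832866042) (nat_lit 76) (nat_lit 317893542324) (nat_lit 76) (nat_lit 316124798246) (nat_lit 1) (nat_lit 4) (nat_lit 2) (nat_lit 5) (nat_lit 2) (nat_lit 4) (nat_lit 349) (nat_lit 234) (nat_lit 197))) (XT.nd (nat_lit 78) (nat_lit 0) (nat_lit 0) (XT.lf (nat_lit 0) (nat_lit 437689882771) (nat_lit 76) (nat_lit 341889036015) (nat_lit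 76) (nat_lit 340112227115) (nat_lit 1) (nat_lit 4) (nat_lit 2) (nat_lit 5) (nat_lit 2) (nat_lit 4) (nat_lit 350) (nat_lit 234) (nat_lit 196)) (XT.lf (nat_lit 0) (nat_lit 475315887348) (nat_lit 76) (nat_lit 367813737071) (nat_lit 76) (nat_lit 366029460743) (nat_lit 1) (nat_lit 4) (nat_lit 2) (nat_lit 5) (nat_lit 2) (nat_lit 4) (nat_lit 351) (nat_lit 234) (nat_lit 195)))))) (XT.nd (nat_lit 624) (nat_lit 0) (nat_lit 0) (XT.nd (nat_lit 312) (nat_lit 0) (nat_lit 0) (XT.nd (nat_lit 156) (nat_lit 0) (nat_lit 0) (XT.nd (nat_lit 78) (nat_lit 0) (nat_lit 0) (XT.lf (nat_lit 0) (nat_lit 515933848689) (nat_lit 76) (nat_lit 395821273350) (nat_lit 76) (nat_lit 394030082737) (nat_lit 1) (nat_lit 4) (nat_lit 2) (nat_lit 5) (nat_lit 2) (nat_lit 4) (nat_lit 352) (nat_lit 234) (nat_lit 194)) (XT.lf (nat_lit 0) (nat_lit 559784465825) (nat_lit 76) (nat_lit 426077615438) (nat_lit 76) (nat_lit 424280022710)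 (nat_lit 1) (nat_lit 4) (nat_lit 2) (nat_lit 5) (nat_lit 2) (nat_lit 4) (nat_lit 353) (nat_lit 234) (nat_lit 193))) (XT.nd (nat_lit 78) (nat_lit 0) (nat_lit 0) (XT.lf (nat_lit 0) (nat_lit 607127594263) (nat_lit 76) (nat_lit 458762060177) (nat_lit 76) (nat_lit 456958539564) (nat_lit 1) (nat_lit 4) (nat_lit 2) (nat_lit 5) (nat_lit 2) (nat_lit 4) (nat_lit 354) (nat_lit 234) (nat_lit 192)) (XT.lf (nat_lit 0) (nat_lit 658243785878) (nat_lit 76) (nat_lit 494068293166) (nat_lit 76) (nat_lit 492259283770) (nat_lit 1) (nat_lit 4) (nat_lit 2) (nat_lit 5) (nat_lit 2) (nat_lit 4) (nat_lit 355) (nat_lit 234) (nat_lit 191)))) (XT.nd (nat_lit 156) (nat_lit 0) (nat_lit 0) (XT.nd (nat_lit 78) (nat_lit 0) (nat_lit 0) (XT.lf (nat_lit 0) (nat_lit 713435951432) (nat_lit 76) (nat_lit 532205536525) (nat_lit 76) (nat_lit 530391444923) (nat_lit 1) (nat_lit 4) (nat_lit 2) (nat_lit 5) (nat_lit 2) (nat_lit 4) (nat_lit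 356) (nat_lit 234) (nat_lit 190)) (XT.lf (nat_lit 0) (nat_lit 773031155612) (nat_lit 76) (nat_lit 573399788733) (nat_lit 76) (nat_lit 571580991385) (nat_lit 1) (nat_lit 4) (nat_lit 2) (nat_lit 5) (nat_lit 2) (nat_lit 4) (nat_lit 357) (nat_lit 234) (nat_lit 189))) (XT.nd (nat_lit 78) (nat_lit 0) (nat_lit 0) (XT.lf (nat_lit 0) (nat_lit 837382555183) (nat_lit 76) (nat_lit 617895163879) (nat_lit 76) (nat_lit 616072009359) (nat_lit 1) (nat_lit 4) (nat_lit 2) (nat_lit 5) (nat_lit 2) (nat_lit 4) (nat_lit 358) (nat_lit 234) (nat_lit 188)) (XT.lf (nat_lit 0) (nat_lit 906871491772) (nat_lit 76) (nat_lit 665955338259) (nat_lit 76) (nat_lit 664128149320) (nat_lit 1) (nat_lit 4) (nat_lit 2) (nat_lit 5) (nat_lit 2) (nat_lit 4) (nat_lit 359) (nat_lit 234) (nat_lit 187))))) (XT.nd (nat_lit 312) (nat_lit 0) (nat_lit 0) (XT.nd (nat_lit 156) (nat_lit 0) (nat_lit 0) (XT.nd (nat_lit 78) (nat_lit 0) (nat_lit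 0) (XT.lf (nat_lit 0) (nat_lit 981909751670) (nat_lit 76) (nat_lit 717865112907) (nat_lit 76) (nat_lit 716034188394) (nat_lit 1) (nat_lit 4) (nat_lit 2) (nat_lit 5) (nat_lit 2) (nat_lit 4) (nat_lit 360) (nat_lit 234) (nat_lit 186)) (XT.lf (nat_lit 0) (nat_lit 1062942006046) (nat_lit 76) (nat_lit 773932101301) (nat_lit 76) (nat_lit 772097717925) (nat_lit 1) (nat_lit 4) (nat_lit 2) (nat_lit 5) (nat_lit 2) (nat_lit 4) (nat_lit 361) (nat_lit 234) (nat_lit 185))) (XT.nd (nat_lit 78) (nat_lit 0) (nat_lit 0) (XT.lf (nat_lit 0) (nat_lit 1150448446038) (nat_lit 76) (nat_lit 834488552263) (nat_lit 76) (nat_lit 832650966235) (nat_lit 1) (nat_lit 4) (nat_lit 2) (nat_lit 5) (nat_lit 2) (nat_lit 4) (nat_lit 362) (nat_lit 234) (nat_lit 184)) (XT.lf (nat_lit 0) (nat_lit 1244947628327) (nat_lit 76) (nat_lit 899893318834) (nat_lit 76) (nat_lit 898052767388) (nat_lit 1) (nat_lit 4) (nat_lit 2) (nat_lit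 5) (nat_lit 2) (nat_lit 4) (nat_lit 363) (nat_lit 234) (nat_lit 183)))) (XT.nd (nat_lit 156) (nat_lit 0) (nat_lit 0) (XT.nd (nat_lit 78) (nat_lit 0) (nat_lit 0) (XT.lf (nat_lit 0) (nat_lit 1346999548067) (nat_lit 76) (nat_lit 970533984817) (nat_lit 76) (nat_lit 968690687613) (nat_lit 1) (nat_lit 4) (nat_lit 2) (nat_lit 5) (nat_lit 2) (nat_lit 4) (nat_lit 364) (nat_lit 234) (nat_lit 182)) (XT.lf (nat_lit 0) (nat_lit 1457208957376) (nat_lit 76) (nat_lit 1046829161566) (nat_lit 76) (nat_lit 1044983321993) (nat_lit 1) (nat_lit 4) (nat_lit 2) (nat_lit 5) (nat_lit 2) (nat_lit 4) (nat_lit 365) (nat_lit 234) (nat_lit 181))) (XT.nd (nat_lit 78) (nat_lit 0) (nat_lit 0) (XT.lf (nat_lit 0) (nat_lit 1576228949049) (nat_lit 76) (nat_lit 1129230968647) (nat_lit 76) (nat_lit 1127382775029) (nat_lit 1) (nat_lit 4) (nat_lit 2) (nat_lit 5) (nat_lit 2) (nat_lit 4) (nat_lit 366) (nat_lit 234) (nat_lit 180))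 (XT.lf (nat_lit 0) (nat_lit 1704764826740) (nat_lit 76) (nat_lit 1218227713063) (nat_lit 76) (nat_lit 1216377339775) (nat_lit 1) (nat_lit 4) (nat_lit 2) (nat_lit 5) (nat_lit 2) (nat_lit 4) (nat_lit 367) (nat_lit 234) (nat_lit 179))))))) (XT.nd (nat_lit 36972) (nat_lit 0) (nat_lit 0) (XT.nd (nat_lit 36348) (nat_lit 0) (nat_lit 76) (XT.nd (nat_lit 312) (nat_lit 0) (nat_lit 0) (XT.nd (nat_lit 156) (nat_lit 0) (nat_lit 0) (XT.nd (nat_lit 78) (nat_lit 0) (nat_lit 0) (XT.lf (nat_lit 0) (nat_lit 1843578284541) (nat_lit 76) (nat_lit 1314346782932) (nat_lit 76) (nat_lit 1312494391429) (nat_lit 1) (nat_lit 4) (nat_lit 2) (nat_lit 5) (nat_lit 2) (nat_lit 4) (nat_lit 368) (nat_lit 234) (nat_lit 178)) (XT.lf (nat_lit 0) (nat_lit 1993491920718) (nat_lit 76) (nat_lit 1418157772740) (nat_lit 76) (nat_lit 1416303512521) (nat_lit 1) (nat_lit 4) (nat_lit 2) (nat_lit 5) (nat_lit 2) (nat_lit 4) (nat_lit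 369) (nat_lit 234) (nat_lit 177))) (XT.nd (nat_lit 78) (nat_lit 0) (nat_lit 0) (XT.lf (nat_lit 0) (nat_lit 2155394112376) (nat_lit 76) (nat_lit 1530275858723) (nat_lit 76) (nat_lit 1528419868211) (nat_lit 1) (nat_lit 4) (nat_lit 2) (nat_lit 5) (nat_lit 2) (nat_lit 4) (nat_lit 370) (nat_lit 234) (nat_lit 176)) (XT.lf (nat_lit 0) (nat_lit 2330244279909) (nat_lit 76) (nat_lit 1651365444355) (nat_lit 76) (nat_lit 1649507851720) (nat_lit 1) (nat_lit 4) (nat_lit 2) (nat_lit 5) (nat_lit 2) (nat_lit 4) (nat_lit 371) (nat_lit 234) (nat_lit 175)))) (XT.nd (nat_lit 35880) (nat_lit 0) (nat_lit 76) (XT.nd (nat_lit 35802) (nat_lit 0) (nat_lit 76) (XT.lf (nat_lit 0) (nat_lit 2519078572458) (nat_lit 76) (nat_lit 1782144097550) (nat_lit 76) (nat_lit 1780285021467) (nat_lit 1) (nat_lit 4) (nat_lit 2) (nat_lit 5) (nat_lit 2) (nat_lit 4) (nat_lit 372) (nat_lit 234) (nat_lit 174)) (XT.lf (nat_lit 0) (nat_lit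 3459762999) (nat_lit 152) (nat_lit 20093941047) (nat_lit 0) (nat_lit 3459762999) (nat_lit 2) (nat_lit 5) (nat_lit 4) (nat_lit 4) (nat_lit 2) (nat_lit 4) (nat_lit 310) (nat_lit 235) (nat_lit 235))) (XT.nd (nat_lit 78) (nat_lit 0) (nat_lit 0) (XT.lf (nat_lit 0) (nat_lit 10953158553) (nat_lit 152) (nat_lit 36299924212) (nat_lit 0) (nat_lit 10802949019) (nat_lit 2) (nat_lit 5) (nat_lit 4) (nat_lit 4) (nat_lit 2) (nat_lit 4) (nat_lit 311) (nat_lit 235) (nat_lit 234)) (XT.lf (nat_lit 0) (nat_lit 15131891996) (nat_lit 152) (nat_lit 32447254499) (nat_lit 0) (nat_lit 14842599560) (nat_lit 2) (nat_lit 5) (nat_lit 4) (nat_lit 4) (nat_lit 2) (nat_lit 4) (nat_lit 312) (nat_lit 235) (nat_lit 233))))) (XT.nd (nat_lit 312) (nat_lit 0) (nat_lit 0) (XT.nd (nat_lit 156) (nat_lit 0) (nat_lit 0) (XT.nd (nat_lit 78) (nat_lit 0) (nat_lit 0) (XT.lf (nat_lit 0) (nat_lit 19480489192) (nat_lit 152) (nat_lit 28607042320)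 (nat_lit 0) (nat_lit 19062416291) (nat_lit 2) (nat_lit 5) (nat_lit 4) (nat_lit 4) (nat_lit 2) (nat_lit 4) (nat_lit 313) (nat_lit 235) (nat_lit 232)) (XT.lf (nat_lit 0) (nat_lit 24024719606) (nat_lit 152) (nat_lit 24756530862) (nat_lit 0) (nat_lit 23487405534) (nat_lit 2) (nat_lit 5) (nat_lit 4) (nat_lit 4) (nat_lit 2) (nat_lit 4) (nat_lit 314) (nat_lit 235) (nat_lit 231))) (XT.nd (nat_lit 78) (nat_lit 0) (nat_lit 0) (XT.lf (nat_lit 0) (nat_lit 28791512011) (nat_lit 152) (nat_lit 20872902280) (nat_lit 0) (nat_lit 28143789448) (nat_lit 2) (nat_lit 5) (nat_lit 4) (nat_lit 4) (nat_lit 2) (nat_lit 4) (nat_lit 315) (nat_lit 235) (nat_lit 230)) (XT.lf (nat_lit 0) (nat_lit 33809114066) (nat_lit 152) (nat_lit 16933142478) (nat_lit 0) (nat_lit 33059161417) (nat_lit 2) (nat_lit 5) (nat_lit 4) (nat_lit 4) (nat_lit 2) (nat_lit 4) (nat_lit 316) (nat_lit 235) (nat_lit 229)))) (XT.nd (nat_lit 156) (nat_lit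 0) (nat_lit 0) (XT.nd (nat_lit 78) (nat_lit 0) (nat_lit 0) (XT.lf (nat_lit 0) (nat_lit 39107259708) (nat_lit 152) (nat_lit 12913904732) (nat_lit 0) (nat_lit 38262649574) (nat_lit 2) (nat_lit 5) (nat_lit 4) (nat_lit 4) (nat_lit 2) (nat_lit 4) (nat_lit 317) (nat_lit 235) (nat_lit 228)) (XT.lf (nat_lit 0) (nat_lit 44717345357) (nat_lit 152) (nat_lit 8791371336) (nat_lit 0) (nat_lit 43785089402) (nat_lit 2) (nat_lit 5) (nat_lit 4) (nat_lit 4) (nat_lit 2) (nat_lit 4) (nat_lit 318) (nat_lit 235) (nat_lit 227))) (XT.nd (nat_lit 78) (nat_lit 0) (nat_lit 0) (XT.lf (nat_lit 0) (nat_lit 50672615964) (nat_lit 152) (nat_lit 4541112463) (nat_lit 0) (nat_lit 49659206472) (nat_lit 2) (nat_lit 5) (nat_lit 4) (nat_lit 4) (nat_lit 2) (nat_lit 4) (nat_lit 319) (nat_lit 235) (nat_lit 226)) (XT.lf (nat_lit 0) (nat_lit 57008362022) (nat_lit 152) (nat_lit 137941393) (nat_lit 0) (nat_lit 55919810365) (nat_lit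 2) (nat_lit 5) (nat_lit 4) (nat_lit 4) (nat_lit 2) (nat_lit 4) (nat_lit 320) (nat_lit 235) (nat_lit 225)))))) (XT.nd (nat_lit 624) (nat_lit 0) (nat_lit 0) (XT.nd (nat_lit 312) (nat_lit 0) (nat_lit 0) (XT.nd (nat_lit 156) (nat_lit 0) (nat_lit 0) (XT.nd (nat_lit 78) (nat_lit 0) (nat_lit 0) (XT.lf (nat_lit 0) (nat_lit 4678260262) (nat_lit 76) (nat_lit 59196380702) (nat_lit 76) (nat_lit 58038252967) (nat_lit 1) (nat_lit 4) (nat_lit 2) (nat_lit 5) (nat_lit 2) (nat_lit 4) (nat_lit 321) (nat_lit 235) (nat_lit 224)) (XT.lf (nat_lit 0) (nat_lit 9718740318) (nat_lit 76) (nat_lit 61488933916) (nat_lit 76) (nat_lit 60266383887) (nat_lit 1) (nat_lit 4) (nat_lit 2) (nat_lit 5) (nat_lit 2) (nat_lit 4) (nat_lit 322) (nat_lit 235) (nat_lit 223))) (XT.nd (nat_lit 78) (nat_lit 0) (nat_lit 0) (XT.lf (nat_lit 0) (nat_lit 15006104536) (nat_lit 76) (nat_lit 64041320123) (nat_lit 76) (nat_lit 62759119821) (nat_lit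 1) (nat_lit 4) (nat_lit 2) (nat_lit 5) (nat_lit 2) (nat_lit 4) (nat_lit 323) (nat_lit 235) (nat_lit 222)) (XT.lf (nat_lit 0) (nat_lit 20571685443) (nat_lit 76) (nat_lit 66868664573) (nat_lit 76) (nat_lit 65531232537) (nat_lit 1) (nat_lit 4) (nat_lit 2) (nat_lit 5) (nat_lit 2) (nat_lit 4) (nat_lit 324) (nat_lit 235) (nat_lit 221)))) (XT.nd (nat_lit 156) (nat_lit 0) (nat_lit 0) (XT.nd (nat_lit 78) (nat_lit 0) (nat_lit 0) (XT.lf (nat_lit 0) (nat_lit 26448464261) (nat_lit 76) (nat_lit 69987721900) (nat_lit 76) (nat_lit 68599149370) (nat_lit 1) (nat_lit 4) (nat_lit 2) (nat_lit 5) (nat_lit 2) (nat_lit 4) (nat_lit 325) (nat_lit 235) (nat_lit 220)) (XT.lf (nat_lit 0) (nat_lit 32671266345) (nat_lit 76) (nat_lit 73416975406) (nat_lit 76) (nat_lit 71981050567) (nat_lit 1) (nat_lit 4) (nat_lit 2) (nat_lit 5) (nat_lit 2) (nat_lit 4) (nat_lit 326) (nat_lit 235) (nat_lit 219))) (XT.nd (nat_lit 78)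 (nat_lit 0) (nat_lit 0) (XT.lf (nat_lit 0) (nat_lit 39276967559) (nat_lit 76) (nat_lit 77176746595) (nat_lit 76) (nat_lit 75696977024) (nat_lit 1) (nat_lit 4) (nat_lit 2) (nat_lit 5) (nat_lit 2) (nat_lit 4) (nat_lit 327) (nat_lit 235) (nat_lit 218)) (XT.lf (nat_lit 0) (nat_lit 46304712801) (nat_lit 76) (nat_lit 81289315592) (nat_lit 76) (nat_lit 79768949047) (nat_lit 1) (nat_lit 4) (nat_lit 2) (nat_lit 5) (nat_lit 2) (nat_lit 4) (nat_lit 328) (nat_lit 235) (nat_lit 217))))) (XT.nd (nat_lit 312) (nat_lit 0) (nat_lit 0) (XT.nd (nat_lit 156) (nat_lit 0) (nat_lit 0) (XT.nd (nat_lit 78) (nat_lit 0) (nat_lit 0) (XT.lf (nat_lit 0) (nat_lit 53796147966) (nat_lit 76) (nat_lit 85779053175) (nat_lit 76) (nat_lit 84221096841) (nat_lit 1) (nat_lit 4) (nat_lit 2) (nat_lit 5) (nat_lit 2) (nat_lit 4) (nat_lit 329) (nat_lit 235) (nat_lit 216)) (XT.lf (nat_lit 0) (nat_lit 61795666745) (nat_lit 76) (nat_lit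 90672565197) (nat_lit 76) (nat_lit 89079803502) (nat_lit 1) (nat_lit 4) (nat_lit 2) (nat_lit 5) (nat_lit 2) (nat_lit 4) (nat_lit 330) (nat_lit 235) (nat_lit 215))) (XT.nd (nat_lit 78) (nat_lit 0) (nat_lit 0) (XT.lf (nat_lit 0) (nat_lit 70350673695) (nat_lit 76) (nat_lit 95998850249) (nat_lit 76) (nat_lit 94373861367) (nat_lit 1) (nat_lit 4) (nat_lit 2) (nat_lit 5) (nat_lit 2) (nat_lit 4) (nat_lit 331) (nat_lit 235) (nat_lit 214)) (XT.lf (nat_lit 0) (nat_lit 79511865152) (nat_lit 76) (nat_lit 101789471500) (nat_lit 76) (nat_lit 100134642631) (nat_lit 1) (nat_lit 4) (nat_lit 2) (nat_lit 5) (nat_lit 2) (nat_lit 4) (nat_lit 332) (nat_lit 235) (nat_lit 213)))) (XT.nd (nat_lit 156) (nat_lit 0) (nat_lit 0) (XT.nd (nat_lit 78) (nat_lit 0) (nat_lit 0) (XT.lf (nat_lit 0) (nat_lit 89333529658) (nat_lit 76) (nat_lit 108078743743) (nat_lit 76) (nat_lit 106396285256) (nat_lit 1) (nat_lit 4) (nat_lit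 2) (nat_lit 5) (nat_lit 2) (nat_lit 4) (nat_lit 333) (nat_lit 235) (nat_lit 212)) (XT.lf (nat_lit 0) (nat_lit 99873869670) (nat_lit 76) (nat_lit 114903936740) (nat_lit 76) (nat_lit 113195895273) (nat_lit 1) (nat_lit 4) (nat_lit 2) (nat_lit 5) (nat_lit 2) (nat_lit 4) (nat_lit 334) (nat_lit 235) (nat_lit 211))) (XT.nd (nat_lit 78) (nat_lit 0) (nat_lit 0) (XT.lf (nat_lit 0) (nat_lit 111195346461) (nat_lit 76) (nat_lit 122305496078) (nat_lit 76) (nat_lit 120573766668) (nat_lit 1) (nat_lit 4) (nat_lit 2) (nat_lit 5) (nat_lit 2) (nat_lit 4) (nat_lit 335) (nat_lit 235) (nat_lit 210)) (XT.lf (nat_lit 0) (nat_lit 123365050265) (nat_lit 76) (nat_lit 130327282851) (nat_lit 76) (nat_lit 128573620160) (nat_lit 1) (nat_lit 4) (nat_lit 2) (nat_lit 5) (nat_lit 2) (nat_lit 4) (nat_lit 336) (nat_lit 235) (nat_lit 209))))))))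
noncomputable def xc16 : XT := (XT.nd (nat_lit 2418) (nat_lit 0) (nat_lit 0) (XT.nd (nat_lit 1170) (nat_lit 0) (nat_lit 0) (XT.nd (nat_lit 546) (nat_lit 0) (nat_lit 0) (XT.nd (nat_lit 234) (nat_lit 0) (nat_lit 0) (XT.nd (nat_lit 78) (nat_lit 0) (nat_lit 0) (XT.lf (nat_lit 0) (nat_lit 136455097845) (nat_lit 76) (nat_lit 139016833573) (nat_lit 76) (nat_lit 137242862287) (nat_lit 1) (nat_lit 4) (nat_lit 2) (nat_lit 5) (nat_lit 2) (nat_lit 4) (nat_lit 337) (nat_lit 235) (nat_lit 208)) (XT.nd (nat_lit 78) (nat_lit 0) (nat_lit 0) (XT.lf (nat_lit 0) (nat_lit 150543059854) (nat_lit 76) (nat_lit 148425641876) (nat_lit 76) (nat_lit 146632866337) (nat_lit 1) (nat_lit 4) (nat_lit 2) (nat_lit 5) (nat_lit 2) (nat_lit 4) (nat_lit 338) (nat_lit 235) (nat_lit 207)) (XT.lf (nat_lit 0) (nat_lit 165712420510) (nat_lit 76) (nat_lit 158609463663) (nat_lit 76) (nat_lit 156799276778) (nat_lit 1) (nat_lit 4)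 (nat_lit 2) (nat_lit 5) (nat_lit 2) (nat_lit 4) (nat_lit 339) (nat_lit 235) (nat_lit 206)))) (XT.nd (nat_lit 156) (nat_lit 0) (nat_lit 0) (XT.nd (nat_lit 78) (nat_lit 0) (nat_lit 0) (XT.lf (nat_lit 0) (nat_lit 182053072321) (nat_lit 76) (nat_lit 169628647507) (nat_lit 76) (nat_lit 167802339005) (nat_lit 1) (nat_lit 4) (nat_lit 2) (nat_lit 5) (nat_lit 2) (nat_lit 4) (nat_lit 340) (nat_lit 235) (nat_lit 205)) (XT.lf (nat_lit 0) (nat_lit 199661848779) (nat_lit 76) (nat_lit 181548492275) (nat_lit 76) (nat_lit 179707256350) (nat_lit 1) (nat_lit 4) (nat_lit 2) (nat_lit 5) (nat_lit 2) (nat_lit 4) (nat_lit 341) (nat_lit 235) (nat_lit 204))) (XT.nd (nat_lit 78) (nat_lit 0) (nat_lit 0) (XT.lf (nat_lit 0) (nat_lit 218643098190) (nat_lit 76) (nat_lit 194439634084) (nat_lit 76) (nat_lit 192584576472) (nat_lit 1) (nat_lit 4) (nat_lit 2) (nat_lit 5) (nat_lit 2) (nat_lit 4) (nat_lit 342) (nat_lit 235)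 (nat_lit 203)) (XT.lf (nat_lit 0) (nat_lit 239109302031) (nat_lit 76) (nat_lit 208378464886) (nat_lit 76) (nat_lit 206510609415) (nat_lit 1) (nat_lit 4) (nat_lit 2) (nat_lit 5) (nat_lit 2) (nat_lit 4) (nat_lit 343) (nat_lit 235) (nat_lit 202))))) (XT.nd (nat_lit 312) (nat_lit 0) (nat_lit 0) (XT.nd (nat_lit 156) (nat_lit 0) (nat_lit 0) (XT.nd (nat_lit 78) (nat_lit 0) (nat_lit 0) (XT.lf (nat_lit 0) (nat_lit 261181741510) (nat_lit 76) (nat_lit 223447585160) (nat_lit 76) (nat_lit 221567879819) (nat_lit 1) (nat_lit 4) (nat_lit 2) (nat_lit 5) (nat_lit 2) (nat_lit 4) (nat_lit 344) (nat_lit 235) (nat_lit 201)) (XT.lf (nat_lit 0) (nat_lit 284991216269) (nat_lit 76) (nat_lit 239736293396) (nat_lit 76) (nat_lit 237845615953) (nat_lit 1) (nat_lit 4) (nat_lit 2) (nat_lit 5) (nat_lit 2) (nat_lit 4) (nat_lit 345) (nat_lit 235) (nat_lit 200))) (XT.nd (nat_lit 78) (nat_lit 0) (nat_lit 0) (XT.lf (nat_lit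 0) (nat_lit 310678819491) (nat_lit 76) (nat_lit 257341115272) (nat_lit 76) (nat_lit 255440278476) (nat_lit 1) (nat_lit 4) (nat_lit 2) (nat_lit 5) (nat_lit 2) (nat_lit 4) (nat_lit 346) (nat_lit 235) (nat_lit 199)) (XT.lf (nat_lit 0) (nat_lit 338396774011) (nat_lit 76) (nat_lit 276366375659) (nat_lit 76) (nat_lit 274456132054) (nat_lit 1) (nat_lit 4) (nat_lit 2) (nat_lit 5) (nat_lit 2) (nat_lit 4) (nat_lit 347) (nat_lit 235) (nat_lit 198)))) (XT.nd (nat_lit 156) (nat_lit 0) (nat_lit 0) (XT.nd (nat_lit 78) (nat_lit 0) (nat_lit 0) (XT.lf (nat_lit 0) (nat_lit 368309334373) (nat_lit 76) (nat_lit 296924816840) (nat_lit 76) (nat_lit 295005863228) (nat_lit 1) (nat_lit 4) (nat_lit 2) (nat_lit 5) (nat_lit 2) (nat_lit 4) (nat_lit 348) (nat_lit 235) (nat_lit 197)) (XT.lf (nat_lit 0) (nat_lit 400593760195) (nat_lit 76) (nat_lit 319138266616) (nat_lit 76) (nat_lit 317211248182) (nat_lit 1) (nat_lit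 4) (nat_lit 2) (nat_lit 5) (nat_lit 2) (nat_lit 4) (nat_lit 349) (nat_lit 235) (nat_lit 196))) (XT.nd (nat_lit 78) (nat_lit 0) (nat_lit 0) (XT.lf (nat_lit 0) (nat_lit 435441366592) (nat_lit 76) (nat_lit 343138360244) (nat_lit 76) (nat_lit 341203874382) (nat_lit 1) (nat_lit 4) (nat_lit 2) (nat_lit 5) (nat_lit 2) (nat_lit 4) (nat_lit 350) (nat_lit 235) (nat_lit 195)) (XT.lf (nat_lit 0) (nat_lit 473058657899) (nat_lit 76) (nat_lit 369067320502) (nat_lit 76) (nat_lit 367125920355) (nat_lit 1) (nat_lit 4) (nat_lit 2) (nat_lit 5) (nat_lit 2) (nat_lit 4) (nat_lit 351) (nat_lit 235) (nat_lit 194)))))) (XT.nd (nat_lit 624) (nat_lit 0) (nat_lit 0) (XT.nd (nat_lit 312) (nat_lit 0) (nat_lit 0) (XT.nd (nat_lit 156) (nat_lit 0) (nat_lit 0) (XT.nd (nat_lit 78) (nat_lit 0) (nat_lit 0) (XT.lf (nat_lit 0) (nat_lit 513668551397) (nat_lit 76) (nat_lit 397078800486) (nat_lit 76) (nat_lit 395130998223) (nat_lit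 1) (nat_lit 4) (nat_lit 2) (nat_lit 5) (nat_lit 2) (nat_lit 4) (nat_lit 352) (nat_lit 235) (nat_lit 193)) (XT.lf (nat_lit 0) (nat_lit 557511698307) (nat_lit 76) (nat_lit 427338794153) (nat_lit 76) (nat_lit 425385064005) (nat_lit 1) (nat_lit 4) (nat_lit 2) (nat_lit 5) (nat_lit 2) (nat_lit 4) (nat_lit 353) (nat_lit 235) (nat_lit 192))) (XT.nd (nat_lit 78) (nat_lit 0) (nat_lit 0) (XT.lf (nat_lit 0) (nat_lit 604847909871) (nat_lit 76) (nat_lit 460026619983) (nat_lit 76) (nat_lit 458067401053) (nat_lit 1) (nat_lit 4) (nat_lit 2) (nat_lit 5) (nat_lit 2) (nat_lit 4) (nat_lit 354) (nat_lit 235) (nat_lit 191)) (XT.lf (nat_lit 0) (nat_lit 655957696972) (nat_lit 76) (nat_lit 495335983612) (nat_lit 76) (nat_lit 493371682476) (nat_lit 1) (nat_lit 4) (nat_lit 2) (nat_lit 5) (nat_lit 2) (nat_lit 4) (nat_lit 355) (nat_lit 235) (nat_lit 190)))) (XT.nd (nat_lit 156) (nat_lit 0) (nat_lit 0) (XT.nd (nat_lit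 78) (nat_lit 0) (nat_lit 0) (XT.lf (nat_lit 0) (nat_lit 711143932421) (nat_lit 76) (nat_lit 533476125712) (nat_lit 76) (nat_lit 531507118830) (nat_lit 1) (nat_lit 4) (nat_lit 2) (nat_lit 5) (nat_lit 2) (nat_lit 4) (nat_lit 356) (nat_lit 235) (nat_lit 189)) (XT.lf (nat_lit 0) (nat_lit 770733645763) (nat_lit 76) (nat_lit 574673061940) (nat_lit 76) (nat_lit 572699697885) (nat_lit 1) (nat_lit 4) (nat_lit 2) (nat_lit 5) (nat_lit 2) (nat_lit 4) (nat_lit 357) (nat_lit 235) (nat_lit 188))) (XT.nd (nat_lit 78) (nat_lit 0) (nat_lit 0) (XT.lf (nat_lit 0) (nat_lit 835079961224) (nat_lit 76) (nat_lit 619170922289) (nat_lit 76) (nat_lit 617193523815) (nat_lit 1) (nat_lit 4) (nat_lit 2) (nat_lit 5) (nat_lit 2) (nat_lit 4) (nat_lit 358) (nat_lit 235) (nat_lit 187)) (XT.lf (nat_lit 0) (nat_lit 904564190304) (nat_lit 76) (nat_lit 667233397783) (nat_lit 76) (nat_lit 665252263736) (nat_lit 1) (nat_lit 4)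 (nat_lit 2) (nat_lit 5) (nat_lit 2) (nat_lit 4) (nat_lit 359) (nat_lit 235) (nat_lit 186))))) (XT.nd (nat_lit 312) (nat_lit 0) (nat_lit 0) (XT.nd (nat_lit 156) (nat_lit 0) (nat_lit 0) (XT.nd (nat_lit 78) (nat_lit 0) (nat_lit 0) (XT.lf (nat_lit 0) (nat_lit 979598091397) (nat_lit 76) (nat_lit 719145303092) (nat_lit 76) (nat_lit 717160710181) (nat_lit 1) (nat_lit 4) (nat_lit 2) (nat_lit 5) (nat_lit 2) (nat_lit 4) (nat_lit 360) (nat_lit 235) (nat_lit 185)) (XT.lf (nat_lit 0) (nat_lit 1060626309844) (nat_lit 76) (nat_lit 775214264321) (nat_lit 76) (nat_lit 773226468758) (nat_lit 1) (nat_lit 4) (nat_lit 2) (nat_lit 5) (nat_lit 2) (nat_lit 4) (nat_lit 361) (nat_lit 235) (nat_lit 184))) (XT.nd (nat_lit 78) (nat_lit 0) (nat_lit 0) (XT.lf (nat_lit 0) (nat_lit 1148129012863) (nat_lit 76) (nat_lit 835772541981) (nat_lit 76) (nat_lit 833781781000) (nat_lit 1) (nat_lit 4) (nat_lit 2) (nat_lit 5) (nat_lit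 2) (nat_lit 4) (nat_lit 362) (nat_lit 235) (nat_lit 183)) (XT.lf (nat_lit 0) (nat_lit 1242624734993) (nat_lit 76) (nat_lit 901178999940) (nat_lit 76) (nat_lit 899185493201) (nat_lit 1) (nat_lit 4) (nat_lit 2) (nat_lit 5) (nat_lit 2) (nat_lit 4) (nat_lit 363) (nat_lit 235) (nat_lit 182)))) (XT.nd (nat_lit 156) (nat_lit 0) (nat_lit 0) (XT.nd (nat_lit 78) (nat_lit 0) (nat_lit 0) (XT.lf (nat_lit 0) (nat_lit 1344673450882) (nat_lit 76) (nat_lit 971821232022) (nat_lit 76) (nat_lit 969825182916) (nat_lit 1) (nat_lit 4) (nat_lit 2) (nat_lit 5) (nat_lit 2) (nat_lit 4) (nat_lit 364) (nat_lit 235) (nat_lit 181)) (XT.lf (nat_lit 0) (nat_lit 1454879893661) (nat_lit 76) (nat_lit 1048117858863) (nat_lit 76) (nat_lit 1046119455712) (nat_lit 1) (nat_lit 4) (nat_lit 2) (nat_lit 5) (nat_lit 2) (nat_lit 4) (nat_lit 365) (nat_lit 235) (nat_lit 180))) (XT.nd (nat_lit 78) (nat_lit 0) (nat_lit 0) (XT.lf (nat_lit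 0) (nat_lit 1573897138548) (nat_lit 76) (nat_lit 1130521008621) (nat_lit 76) (nat_lit 1128520425799) (nat_lit 1) (nat_lit 4) (nat_lit 2) (nat_lit 5) (nat_lit 2) (nat_lit 4) (nat_lit 366) (nat_lit 235) (nat_lit 179)) (XT.lf (nat_lit 0) (nat_lit 1702430472919) (nat_lit 76) (nat_lit 1219518996259) (nat_lit 76) (nat_lit 1217516395222) (nat_lit 1) (nat_lit 4) (nat_lit 2) (nat_lit 5) (nat_lit 2) (nat_lit 4) (nat_lit 367) (nat_lit 235) (nat_lit 178))))))) (XT.nd (nat_lit 36816) (nat_lit 0) (nat_lit 0) (XT.nd (nat_lit 36192) (nat_lit 0) (nat_lit 76) (XT.nd (nat_lit 312) (nat_lit 0) (nat_lit 0) (XT.nd (nat_lit 156) (nat_lit 0) (nat_lit 0) (XT.nd (nat_lit 78) (nat_lit 0) (nat_lit 0) (XT.lf (nat_lit 0) (nat_lit 1841241575793) (nat_lit 76) (nat_lit 1315639217257) (nat_lit 76) (nat_lit 1313634747504) (nat_lit 1) (nat_lit 4) (nat_lit 2) (nat_lit 5) (nat_lit 2) (nat_lit 4) (nat_lit 368) (nat_lit 235)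 (nat_lit 177)) (XT.lf (nat_lit 0) (nat_lit 1991153031483) (nat_lit 76) (nat_lit 1419451272926) (nat_lit 76) (nat_lit 1417445072880) (nat_lit 1) (nat_lit 4) (nat_lit 2) (nat_lit 5) (nat_lit 2) (nat_lit 4) (nat_lit 369) (nat_lit 235) (nat_lit 176))) (XT.nd (nat_lit 78) (nat_lit 0) (nat_lit 0) (XT.lf (nat_lit 0) (nat_lit 2153053204171) (nat_lit 76) (nat_lit 1531570345818) (nat_lit 76) (nat_lit 1529562543649) (nat_lit 1) (nat_lit 4) (nat_lit 2) (nat_lit 5) (nat_lit 2) (nat_lit 4) (nat_lit 370) (nat_lit 235) (nat_lit 175)) (XT.lf (nat_lit 0) (nat_lit 2327901502287) (nat_lit 76) (nat_lit 1652660845254) (nat_lit 76) (nat_lit 1650651559637) (nat_lit 1) (nat_lit 4) (nat_lit 2) (nat_lit 5) (nat_lit 2) (nat_lit 4) (nat_lit 371) (nat_lit 235) (nat_lit 174)))) (XT.nd (nat_lit 35724) (nat_lit 0) (nat_lit 76) (XT.nd (nat_lit 35646) (nat_lit 0) (nat_lit 228) (XT.lf (nat_lit 0) (nat_lit 2516734063896)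 (nat_lit 76) (nat_lit 1783440344563) (nat_lit 76) (nat_lit 1781429685384) (nat_lit 1) (nat_lit 4) (nat_lit 2) (nat_lit 5) (nat_lit 2) (nat_lit 4) (nat_lit 372) (nat_lit 235) (nat_lit 173)) (XT.lf (nat_lit 0) (nat_lit 22904627831) (nat_lit 76) (nat_lit 265853280) (nat_lit 76) (nat_lit 265853280) (nat_lit 4) (nat_lit 4) (nat_lit 5) (nat_lit 5) (nat_lit 5) (nat_lit 4) (nat_lit 308) (nat_lit 236) (nat_lit 236))) (XT.nd (nat_lit 78) (nat_lit 0) (nat_lit 0) (XT.lf (nat_lit 0) (nat_lit 3169317621) (nat_lit 152) (nat_lit 44134167898) (nat_lit 0) (nat_lit 3007091324) (nat_lit 2) (nat_lit 5) (nat_lit 4) (nat_lit 4) (nat_lit 2) (nat_lit 4) (nat_lit 309) (nat_lit 236) (nat_lit 235)) (XT.lf (nat_lit 0) (nat_lit 6989542250) (nat_lit 152) (nat_lit 40367704588) (nat_lit 0) (nat_lit 6677106419) (nat_lit 2) (nat_lit 5) (nat_lit 4) (nat_lit 4) (nat_lit 2) (nat_lit 4) (nat_lit 310) (nat_lit 236) (nat_lit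 234))))) (XT.nd (nat_lit 312) (nat_lit 0) (nat_lit 0) (XT.nd (nat_lit 156) (nat_lit 0) (nat_lit 0) (XT.nd (nat_lit 78) (nat_lit 0) (nat_lit 0) (XT.lf (nat_lit 0) (nat_lit 10937795133) (nat_lit 152) (nat_lit 36646249013) (nat_lit 0) (nat_lit 10486276401) (nat_lit 2) (nat_lit 5) (nat_lit 4) (nat_lit 4) (nat_lit 2) (nat_lit 4) (nat_lit 311) (nat_lit 236) (nat_lit 233)) (XT.lf (nat_lit 0) (nat_lit 15037473325) (nat_lit 152) (nat_lit 32947748103) (nat_lit 0) (nat_lit 14457174128) (nat_lit 2) (nat_lit 5) (nat_lit 4) (nat_lit 4) (nat_lit 2) (nat_lit 4) (nat_lit 312) (nat_lit 236) (nat_lit 232))) (XT.nd (nat_lit 78) (nat_lit 0) (nat_lit 0) (XT.lf (nat_lit 0) (nat_lit 19312871215) (nat_lit 152) (nat_lit 29250284816) (nat_lit 0) (nat_lit 18613330846) (nat_lit 2) (nat_lit 5) (nat_lit 4) (nat_lit 4) (nat_lit 2) (nat_lit 4) (nat_lit 313) (nat_lit 236) (nat_lit 231)) (XT.lf (nat_lit 0) (nat_lit 23789324493)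 (nat_lit 152) (nat_lit 25531948258) (nat_lit 0) (nat_lit 22979375633) (nat_lit 2) (nat_lit 5) (nat_lit 4) (nat_lit 4) (nat_lit 2) (nat_lit 4) (nat_lit 314) (nat_lit 236) (nat_lit 230)))) (XT.nd (nat_lit 156) (nat_lit 0) (nat_lit 0) (XT.nd (nat_lit 78) (nat_lit 0) (nat_lit 0) (XT.lf (nat_lit 0) (nat_lit 28493360291) (nat_lit 152) (nat_lit 21770703842) (nat_lit 0) (nat_lit 27581181346) (nat_lit 2) (nat_lit 5) (nat_lit 4) (nat_lit 4) (nat_lit 2) (nat_lit 4) (nat_lit 315) (nat_lit 236) (nat_lit 229)) (XT.lf (nat_lit 0) (nat_lit 33452854377) (nat_lit 152) (nat_lit 17944262714) (nat_lit 0) (nat_lit 32446017945) (nat_lit 2) (nat_lit 5) (nat_lit 4) (nat_lit 4) (nat_lit 2) (nat_lit 4) (nat_lit 316) (nat_lit 236) (nat_lit 228))) (XT.nd (nat_lit 78) (nat_lit 0) (nat_lit 0) (XT.lf (nat_lit 0) (nat_lit 38697196344) (nat_lit 152) (nat_lit 14029949664) (nat_lit 0) (nat_lit 37602714092) (nat_lit 2)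 (nat_lit 5) (nat_lit 4) (nat_lit 4) (nat_lit 2) (nat_lit 4) (nat_lit 317) (nat_lit 236) (nat_lit 227)) (XT.lf (nat_lit 0) (nat_lit 44257463774) (nat_lit 152) (nat_lit 10004568766) (nat_lit 0) (nat_lit 43081827985) (nat_lit 2) (nat_lit 5) (nat_lit 4) (nat_lit 4) (nat_lit 2) (nat_lit 4) (nat_lit 318) (nat_lit 236) (nat_lit 226)))))) (XT.nd (nat_lit 624) (nat_lit 0) (nat_lit 0) (XT.nd (nat_lit 312) (nat_lit 0) (nat_lit 0) (XT.nd (nat_lit 156) (nat_lit 76) (nat_lit 0) (XT.nd (nat_lit 78) (nat_lit 0) (nat_lit 0) (XT.lf (nat_lit 0) (nat_lit 50166606402) (nat_lit 152) (nat_lit 5844265909) (nat_lit 0) (nat_lit 48915828448) (nat_lit 2) (nat_lit 5) (nat_lit 4) (nat_lit 4) (nat_lit 2) (nat_lit 4) (nat_lit 319) (nat_lit 236) (nat_lit 225)) (XT.lf (nat_lit 0) (nat_lit 56459641367) (nat_lit 152) (nat_lit 1524387447) (nat_lit 0) (nat_lit 55139287336) (nat_lit 2) (nat_lit 5) (nat_lit 4) (nat_lit 4)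 (nat_lit 2) (nat_lit 4) (nat_lit 320) (nat_lit 236) (nat_lit 224))) (XT.nd (nat_lit 78) (nat_lit 0) (nat_lit 0) (XT.lf (nat_lit 0) (nat_lit 3137622482) (nat_lit 76) (nat_lit 60111698144) (nat_lit 76) (nat_lit 58726921818) (nat_lit 1) (nat_lit 4) (nat_lit 2) (nat_lit 5) (nat_lit 2) (nat_lit 4) (nat_lit 321) (nat_lit 236) (nat_lit 223)) (XT.lf (nat_lit 0) (nat_lit 8102932229) (nat_lit 76) (nat_lit 62440995942) (nat_lit 76) (nat_lit 60996569344) (nat_lit 1) (nat_lit 4) (nat_lit 2) (nat_lit 5) (nat_lit 2) (nat_lit 4) (nat_lit 322) (nat_lit 236) (nat_lit 222)))) (XT.nd (nat_lit 156) (nat_lit 0) (nat_lit 0) (XT.nd (nat_lit 78) (nat_lit 0) (nat_lit 0) (XT.lf (nat_lit 0) (nat_lit 13320694308) (nat_lit 76) (nat_lit 65027404912) (nat_lit 76) (nat_lit 63527746579) (nat_lit 1) (nat_lit 4) (nat_lit 2) (nat_lit 5) (nat_lit 2) (nat_lit 4) (nat_lit 323) (nat_lit 236) (nat_lit 221)) (XT.lf (nat_lit 0)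 (nat_lit 18821828792) (nat_lit 76) (nat_lit 67886251920) (nat_lit 76) (nat_lit 66335453093) (nat_lit 1) (nat_lit 4) (nat_lit 2) (nat_lit 5) (nat_lit 2) (nat_lit 4) (nat_lit 324) (nat_lit 236) (nat_lit 220))) (XT.nd (nat_lit 78) (nat_lit 0) (nat_lit 0) (XT.lf (nat_lit 0) (nat_lit 24638934994) (nat_lit 76) (nat_lit 71034478282) (nat_lit 76) (nat_lit 69436327145) (nat_lit 1) (nat_lit 4) (nat_lit 2) (nat_lit 5) (nat_lit 2) (nat_lit 4) (nat_lit 325) (nat_lit 236) (nat_lit 219)) (XT.lf (nat_lit 0) (nat_lit 30806484657) (nat_lit 76) (nat_lit 74490740155) (nat_lit 76) (nat_lit 72848744287) (nat_lit 1) (nat_lit 4) (nat_lit 2) (nat_lit 5) (nat_lit 2) (nat_lit 4) (nat_lit 326) (nat_lit 236) (nat_lit 218))))) (XT.nd (nat_lit 312) (nat_lit 0) (nat_lit 0) (XT.nd (nat_lit 156) (nat_lit 0) (nat_lit 0) (XT.nd (nat_lit 78) (nat_lit 0) (nat_lit 0) (XT.lf (nat_lit 0) (nat_lit 37361026222) (nat_lit 76) (nat_lit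 78275519090) (nat_lit 76) (nat_lit 76592926249) (nat_lit 1) (nat_lit 4) (nat_lit 2) (nat_lit 5) (nat_lit 2) (nat_lit 4) (nat_lit 327) (nat_lit 236) (nat_lit 217)) (XT.lf (nat_lit 0) (nat_lit 44341401418) (nat_lit 76) (nat_lit 82411243407) (nat_lit 76) (nat_lit 80691060776) (nat_lit 1) (nat_lit 4) (nat_lit 2) (nat_lit 5) (nat_lit 2) (nat_lit 4) (nat_lit 328) (nat_lit 236) (nat_lit 216))) (XT.nd (nat_lit 78) (nat_lit 0) (nat_lit 0) (XT.lf (nat_lit 0) (nat_lit 51788975430) (nat_lit 76) (nat_lit 86922421102) (nat_lit 76) (nat_lit 85167433110) (nat_lit 1) (nat_lit 4) (nat_lit 2) (nat_lit 5) (nat_lit 2) (nat_lit 4) (nat_lit 329) (nat_lit 236) (nat_lit 215)) (XT.lf (nat_lit 0) (nat_lit 59747882030) (nat_lit 76) (nat_lit 91835785080) (nat_lit 76) (nat_lit 90048569901) (nat_lit 1) (nat_lit 4) (nat_lit 2) (nat_lit 5) (nat_lit 2) (nat_lit 4) (nat_lit 330) (nat_lit 236) (nat_lit 214)))) (XT.nd (nat_lit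 156) (nat_lit 0) (nat_lit 0) (XT.nd (nat_lit 78) (nat_lit 0) (nat_lit 0) (XT.lf (nat_lit 0) (nat_lit 68265285110) (nat_lit 76) (nat_lit 97180451571) (nat_lit 76) (nat_lit 95363396406) (nat_lit 1) (nat_lit 4) (nat_lit 2) (nat_lit 5) (nat_lit 2) (nat_lit 4) (nat_lit 331) (nat_lit 236) (nat_lit 213)) (XT.lf (nat_lit 0) (nat_lit 77391658169) (nat_lit 76) (nat_lit 102988092674) (nat_lit 76) (nat_lit 101143407891) (nat_lit 1) (nat_lit 4) (nat_lit 2) (nat_lit 5) (nat_lit 2) (nat_lit 4) (nat_lit 332) (nat_lit 236) (nat_lit 212))) (XT.nd (nat_lit 78) (nat_lit 0) (nat_lit 0) (XT.lf (nat_lit 0) (nat_lit 87181083418) (nat_lit 76) (nat_lit 109293124040) (nat_lit 76) (nat_lit 107422856277) (nat_lit 1) (nat_lit 4) (nat_lit 2) (nat_lit 5) (nat_lit 2) (nat_lit 4) (nat_lit 333) (nat_lit 236) (nat_lit 211)) (XT.lf (nat_lit 0) (nat_lit 97691572266) (nat_lit 76) (nat_lit 116132908817) (nat_lit 76) (nat_lit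 114238953110) (nat_lit 1) (nat_lit 4) (nat_lit 2) (nat_lit 5) (nat_lit 2) (nat_lit 4) (nat_lit 334) (nat_lit 236) (nat_lit 210))))))))
noncomputable def xc17 : XT := (XT.nd (nat_lit 2418) (nat_lit 0) (nat_lit 0) (XT.nd (nat_lit 1170) (nat_lit 0) (nat_lit 0) (XT.nd (nat_lit 546) (nat_lit 0) (nat_lit 0) (XT.nd (nat_lit 234) (nat_lit 0) (nat_lit 0) (XT.nd (nat_lit 78) (nat_lit 0) (nat_lit 0) (XT.lf (nat_lit 0) (nat_lit 108985409091) (nat_lit 76) (nat_lit 123547979063) (nat_lit 76) (nat_lit 121632090074) (nat_lit 1) (nat_lit 4) (nat_lit 2) (nat_lit 5) (nat_lit 2) (nat_lit 4) (nat_lit 335) (nat_lit 236) (nat_lit 209)) (XT.nd (nat_lit 78) (nat_lit 0) (nat_lit 0) (XT.lf (nat_lit 0) (nat_lit 121129520333) (nat_lit 76) (nat_lit 131582275935) (nat_lit 76) (nat_lit 129646078352) (nat_lit 1) (nat_lit 4) (nat_lit 2) (nat_lit 5) (nat_lit 2) (nat_lit 4) (nat_lit 336) (nat_lit 236) (nat_lit 208)) (XT.lf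 (nat_lit 0) (nat_lit 134195871097) (nat_lit 76) (nat_lit 140283410082) (nat_lit 76) (nat_lit 138328408245) (nat_lit 1) (nat_lit 4) (nat_lit 2) (nat_lit 5) (nat_lit 2) (nat_lit 4) (nat_lit 337) (nat_lit 236) (nat_lit 207)))) (XT.nd (nat_lit 156) (nat_lit 0) (nat_lit 0) (XT.nd (nat_lit 78) (nat_lit 0) (nat_lit 0) (XT.lf (nat_lit 0) (nat_lit 148261891609) (nat_lit 76) (nat_lit 149702943779) (nat_lit 76) (nat_lit 147730530597) (nat_lit 1) (nat_lit 4) (nat_lit 2) (nat_lit 5) (nat_lit 2) (nat_lit 4) (nat_lit 338) (nat_lit 236) (nat_lit 206)) (XT.lf (nat_lit 0) (nat_lit 163410936064) (nat_lit 76) (nat_lit 159896696486) (nat_lit 76) (nat_lit 157908161687) (nat_lit 1) (nat_lit 4) (nat_lit 2) (nat_lit 5) (nat_lit 2) (nat_lit 4) (nat_lit 339) (nat_lit 236) (nat_lit 205))) (XT.nd (nat_lit 78) (nat_lit 0) (nat_lit 0) (XT.lf (nat_lit 0) (nat_lit 179732776578) (nat_lit 76) (nat_lit 170925075626) (nat_lit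 76) (nat_lit 168921613405) (nat_lit 1) (nat_lit 4) (nat_lit 2) (nat_lit 5) (nat_lit 2) (nat_lit 4) (nat_lit 340) (nat_lit 236) (nat_lit 204)) (XT.lf (nat_lit 0) (nat_lit 197324135169) (nat_lit 76) (nat_lit 182853434558) (nat_lit 76) (nat_lit 180836150648) (nat_lit 1) (nat_lit 4) (nat_lit 2) (nat_lit 5) (nat_lit 2) (nat_lit 4) (nat_lit 341) (nat_lit 236) (nat_lit 203))))) (XT.nd (nat_lit 312) (nat_lit 0) (nat_lit 0) (XT.nd (nat_lit 156) (nat_lit 0) (nat_lit 0) (XT.nd (nat_lit 78) (nat_lit 0) (nat_lit 0) (XT.lf (nat_lit 0) (nat_lit 216289256925) (nat_lit 76) (nat_lit 195752459852) (nat_lit 76) (nat_lit 193722378083) (nat_lit 1) (nat_lit 4) (nat_lit 2) (nat_lit 5) (nat_lit 2) (nat_lit 4) (nat_lit 342) (nat_lit 236) (nat_lit 202)) (XT.lf (nat_lit 0) (nat_lit 236740527752) (nat_lit 76) (nat_lit 209698590176) (nat_lit 76) (nat_lit 207656658538) (nat_lit 1) (nat_lit 4) (nat_lit 2) (nat_lit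 5) (nat_lit 2) (nat_lit 4) (nat_lit 343) (nat_lit 236) (nat_lit 201))) (XT.nd (nat_lit 78) (nat_lit 0) (nat_lit 0) (XT.lf (nat_lit 0) (nat_lit 258799140366) (nat_lit 76) (nat_lit 224774469267) (nat_lit 76) (nat_lit 222721565528) (nat_lit 1) (nat_lit 4) (nat_lit 2) (nat_lit 5) (nat_lit 2) (nat_lit 4) (nat_lit 344) (nat_lit 236) (nat_lit 200)) (XT.lf (nat_lit 0) (nat_lit 282595812473) (nat_lit 76) (nat_lit 241069435667) (nat_lit 76) (nat_lit 239006372575) (nat_lit 1) (nat_lit 4) (nat_lit 2) (nat_lit 5) (nat_lit 2) (nat_lit 4) (nat_lit 345) (nat_lit 236) (nat_lit 199)))) (XT.nd (nat_lit 156) (nat_lit 0) (nat_lit 0) (XT.nd (nat_lit 78) (nat_lit 0) (nat_lit 0) (XT.lf (nat_lit 0) (nat_lit 308271561387) (nat_lit 76) (nat_lit 258680052140) (nat_lit 76) (nat_lit 256607582239) (nat_lit 1) (nat_lit 4) (nat_lit 2) (nat_lit 5) (nat_lit 2) (nat_lit 4) (nat_lit 346) (nat_lit 236) (nat_lit 198)) (XT.lf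 (nat_lit 0) (nat_lit 335978539695) (nat_lit 76) (nat_lit 277710677894) (nat_lit 76) (nat_lit 275629497985) (nat_lit 1) (nat_lit 4) (nat_lit 2) (nat_lit 5) (nat_lit 2) (nat_lit 4) (nat_lit 347) (nat_lit 236) (nat_lit 197))) (XT.nd (nat_lit 78) (nat_lit 0) (nat_lit 0) (XT.lf (nat_lit 0) (nat_lit 365880936899) (nat_lit 76) (nat_lit 298274087008) (nat_lit 76) (nat_lit 296184842277) (nat_lit 1) (nat_lit 4) (nat_lit 2) (nat_lit 5) (nat_lit 2) (nat_lit 4) (nat_lit 348) (nat_lit 236) (nat_lit 196)) (XT.lf (nat_lit 0) (nat_lit 398155952389) (nat_lit 76) (nat_lit 320492136722) (nat_lit 76) (nat_lit 318395424563) (nat_lit 1) (nat_lit 4) (nat_lit 2) (nat_lit 5) (nat_lit 2) (nat_lit 4) (nat_lit 349) (nat_lit 236) (nat_lit 195)))))) (XT.nd (nat_lit 624) (nat_lit 0) (nat_lit 0) (XT.nd (nat_lit 312) (nat_lit 0) (nat_lit 0) (XT.nd (nat_lit 156) (nat_lit 0) (nat_lit 0) (XT.nd (nat_lit 78) (nat_lit 0)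 (nat_lit 0) (XT.lf (nat_lit 0) (nat_lit 432994845516) (nat_lit 76) (nat_lit 344496489551) (nat_lit 76) (nat_lit 342392863107) (nat_lit 1) (nat_lit 4) (nat_lit 2) (nat_lit 5) (nat_lit 2) (nat_lit 4) (nat_lit 350) (nat_lit 236) (nat_lit 194)) (XT.lf (nat_lit 0) (nat_lit 470604068980) (nat_lit 76) (nat_lit 370429393514) (nat_lit 76) (nat_lit 368319364954) (nat_lit 1) (nat_lit 4) (nat_lit 2) (nat_lit 5) (nat_lit 2) (nat_lit 4) (nat_lit 351) (nat_lit 236) (nat_lit 193))) (XT.nd (nat_lit 78) (nat_lit 0) (nat_lit 0) (XT.lf (nat_lit 0) (nat_lit 511206492253) (nat_lit 76) (nat_lit 398444525077) (nat_lit 76) (nat_lit 396328568632) (nat_lit 1) (nat_lit 4) (nat_lit 2) (nat_lit 5) (nat_lit 2) (nat_lit 4) (nat_lit 352) (nat_lit 236) (nat_lit 192)) (XT.lf (nat_lit 0) (nat_lit 555042722289) (nat_lit 76) (nat_lit 428707899835) (nat_lit 76) (nat_lit 426586454608) (nat_lit 1) (nat_lit 4) (nat_lit 2) (nat_lit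 5) (nat_lit 2) (nat_lit 4) (nat_lit 353) (nat_lit 236) (nat_lit 191)))) (XT.nd (nat_lit 156) (nat_lit 0) (nat_lit 0) (XT.nd (nat_lit 78) (nat_lit 0) (nat_lit 0) (XT.lf (nat_lit 0) (nat_lit 602372529339) (nat_lit 76) (nat_lit 461398856306) (nat_lit 76) (nat_lit 459272328873) (nat_lit 1) (nat_lit 4) (nat_lit 2) (nat_lit 5) (nat_lit 2) (nat_lit 4) (nat_lit 354) (nat_lit 236) (nat_lit 190)) (XT.lf (nat_lit 0) (nat_lit 653476386334) (nat_lit 76) (nat_lit 496711118675) (nat_lit 76) (nat_lit 494579885496) (nat_lit 1) (nat_lit 4) (nat_lit 2) (nat_lit 5) (nat_lit 2) (nat_lit 4) (nat_lit 355) (nat_lit 236) (nat_lit 189))) (XT.nd (nat_lit 78) (nat_lit 0) (nat_lit 0) (XT.lf (nat_lit 0) (nat_lit 708657130945) (nat_lit 76) (nat_lit 534853944795) (nat_lit 76) (nat_lit 532718354443) (nat_lit 1) (nat_lit 4) (nat_lit 2) (nat_lit 5) (nat_lit 2) (nat_lit 4) (nat_lit 356) (nat_lit 236) (nat_lit 188)) (XT.lf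 (nat_lit 0) (nat_lit 768241760178) (nat_lit 76) (nat_lit 576053366226) (nat_lit 76) (nat_lit 573913741455) (nat_lit 1) (nat_lit 4) (nat_lit 2) (nat_lit 5) (nat_lit 2) (nat_lit 4) (nat_lit 357) (nat_lit 236) (nat_lit 187))))) (XT.nd (nat_lit 312) (nat_lit 0) (nat_lit 0) (XT.nd (nat_lit 156) (nat_lit 0) (nat_lit 0) (XT.nd (nat_lit 78) (nat_lit 0) (nat_lit 0) (XT.lf (nat_lit 0) (nat_lit 832583368130) (nat_lit 76) (nat_lit 620553527689) (nat_lit 76) (nat_lit 618410167345) (nat_lit 1) (nat_lit 4) (nat_lit 2) (nat_lit 5) (nat_lit 2) (nat_lit 4) (nat_lit 358) (nat_lit 236) (nat_lit 186)) (XT.lf (nat_lit 0) (nat_lit 902063238406) (nat_lit 76) (nat_lit 668618133844) (nat_lit 76) (nat_lit 666471314637) (nat_lit 1) (nat_lit 4) (nat_lit 2) (nat_lit 5) (nat_lit 2) (nat_lit 4) (nat_lit 359) (nat_lit 236) (nat_lit 185))) (XT.nd (nat_lit 78) (nat_lit 0) (nat_lit 0) (XT.lf (nat_lit 0) (nat_lit 977093103569)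 (nat_lit 76) (nat_lit 720532011987) (nat_lit 76) (nat_lit 718381990128) (nat_lit 1) (nat_lit 4) (nat_lit 2) (nat_lit 5) (nat_lit 2) (nat_lit 4) (nat_lit 360) (nat_lit 236) (nat_lit 184)) (XT.lf (nat_lit 0) (nat_lit 1058117585043) (nat_lit 76) (nat_lit 776602799915) (nat_lit 76) (nat_lit 774449812637) (nat_lit 1) (nat_lit 4) (nat_lit 2) (nat_lit 5) (nat_lit 2) (nat_lit 4) (nat_lit 361) (nat_lit 236) (nat_lit 183)))) (XT.nd (nat_lit 156) (nat_lit 0) (nat_lit 0) (XT.nd (nat_lit 78) (nat_lit 0) (nat_lit 0) (XT.lf (nat_lit 0) (nat_lit 1145616827903) (nat_lit 76) (nat_lit 837162768962) (nat_lit 76) (nat_lit 835007035927) (nat_lit 1) (nat_lit 4) (nat_lit 2) (nat_lit 5) (nat_lit 2) (nat_lit 4) (nat_lit 362) (nat_lit 236) (nat_lit 182)) (XT.lf (nat_lit 0) (nat_lit 1240109346181) (nat_lit 76) (nat_lit 902570793020) (nat_lit 76) (nat_lit 900412517617) (nat_lit 1) (nat_lit 4) (nat_lit 2) (nat_lit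 5) (nat_lit 2) (nat_lit 4) (nat_lit 363) (nat_lit 236) (nat_lit 181))) (XT.nd (nat_lit 78) (nat_lit 0) (nat_lit 0) (XT.lf (nat_lit 0) (nat_lit 1342155095541) (nat_lit 76) (nat_lit 973214475195) (nat_lit 76) (nat_lit 971053845747) (nat_lit 1) (nat_lit 4) (nat_lit 2) (nat_lit 5) (nat_lit 2) (nat_lit 4) (nat_lit 364) (nat_lit 236) (nat_lit 180)) (XT.lf (nat_lit 0) (nat_lit 1452358791535) (nat_lit 76) (nat_lit 1049512444714) (nat_lit 76) (nat_lit 1047349635595) (nat_lit 1) (nat_lit 4) (nat_lit 2) (nat_lit 5) (nat_lit 2) (nat_lit 4) (nat_lit 365) (nat_lit 236) (nat_lit 179))))))) (XT.nd (nat_lit 36660) (nat_lit 0) (nat_lit 0) (XT.nd (nat_lit 36036) (nat_lit 0) (nat_lit 76) (XT.nd (nat_lit 312) (nat_lit 0) (nat_lit 0) (XT.nd (nat_lit 156) (nat_lit 0) (nat_lit 0) (XT.nd (nat_lit 78) (nat_lit 0) (nat_lit 0) (XT.lf (nat_lit 0) (nat_lit 1571373493101) (nat_lit 76) (nat_lit 1131916837693) (nat_lit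 76) (nat_lit 1129752010359) (nat_lit 1) (nat_lit 4) (nat_lit 2) (nat_lit 5) (nat_lit 2) (nat_lit 4) (nat_lit 366) (nat_lit 236) (nat_lit 178)) (XT.lf (nat_lit 0) (nat_lit 1699904472546) (nat_lit 76) (nat_lit 1220915976460) (nat_lit 76) (nat_lit 1218749280410) (nat_lit 1) (nat_lit 4) (nat_lit 2) (nat_lit 5) (nat_lit 2) (nat_lit 4) (nat_lit 367) (nat_lit 236) (nat_lit 177))) (XT.nd (nat_lit 78) (nat_lit 0) (nat_lit 0) (XT.lf (nat_lit 0) (nat_lit 1838713394932) (nat_lit 76) (nat_lit 1317037263319) (nat_lit 76) (nat_lit 1314868836976) (nat_lit 1) (nat_lit 4) (nat_lit 2) (nat_lit 5) (nat_lit 2) (nat_lit 4) (nat_lit 368) (nat_lit 236) (nat_lit 176)) (XT.lf (nat_lit 0) (nat_lit 1988622831652) (nat_lit 76) (nat_lit 1420850305896) (nat_lit 76) (nat_lit 1418680277430) (nat_lit 1) (nat_lit 4) (nat_lit 2) (nat_lit 5) (nat_lit 2) (nat_lit 4) (nat_lit 369) (nat_lit 236) (nat_lit 175)))) (XT.nd (nat_lit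 156) (nat_lit 0) (nat_lit 0) (XT.nd (nat_lit 78) (nat_lit 0) (nat_lit 0) (XT.lf (nat_lit 0) (nat_lit 2150521134924) (nat_lit 76) (nat_lit 1532970292592) (nat_lit 76) (nat_lit 1530798780679) (nat_lit 1) (nat_lit 4) (nat_lit 2) (nat_lit 5) (nat_lit 2) (nat_lit 4) (nat_lit 370) (nat_lit 236) (nat_lit 174)) (XT.lf (nat_lit 0) (nat_lit 2325367702099) (nat_lit 76) (nat_lit 1654061638143) (nat_lit 76) (nat_lit 1651888752667) (nat_lit 1) (nat_lit 4) (nat_lit 2) (nat_lit 5) (nat_lit 2) (nat_lit 4) (nat_lit 371) (nat_lit 236) (nat_lit 173))) (XT.nd (nat_lit 35490) (nat_lit 0) (nat_lit 228) (XT.lf (nat_lit 0) (nat_lit 2514198660984) (nat_lit 76) (nat_lit 1784841920892) (nat_lit 76) (nat_lit 1782667763599) (nat_lit 1) (nat_lit 4) (nat_lit 2) (nat_lit 5) (nat_lit 2) (nat_lit 4) (nat_lit 372) (nat_lit 236) (nat_lit 172)) (XT.lf (nat_lit 0) (nat_lit 13091797310) (nat_lit 76) (nat_lit 3637431272) (nat_lit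 76) (nat_lit 3637431272) (nat_lit 4) (nat_lit 4) (nat_lit 5) (nat_lit 5) (nat_lit 5) (nat_lit 4) (nat_lit 306) (nat_lit 237) (nat_lit 237))))) (XT.nd (nat_lit 312) (nat_lit 0) (nat_lit 0) (XT.nd (nat_lit 156) (nat_lit 152) (nat_lit 0) (XT.nd (nat_lit 78) (nat_lit 0) (nat_lit 0) (XT.lf (nat_lit 0) (nat_lit 35709456172) (nat_lit 76) (nat_lit 4080455544) (nat_lit 76) (nat_lit 3891234791) (nat_lit 4) (nat_lit 4) (nat_lit 5) (nat_lit 5) (nat_lit 5) (nat_lit 4) (nat_lit 307) (nat_lit 237) (nat_lit 236)) (XT.lf (nat_lit 0) (nat_lit 45635060304) (nat_lit 76) (nat_lit 804660028) (nat_lit 76) (nat_lit 440234875) (nat_lit 4) (nat_lit 4) (nat_lit 5) (nat_lit 5) (nat_lit 5) (nat_lit 4) (nat_lit 308) (nat_lit 237) (nat_lit 235))) (XT.nd (nat_lit 78) (nat_lit 0) (nat_lit 0) (XT.lf (nat_lit 0) (nat_lit 3152725128) (nat_lit 152) (nat_lit 44508198683) (nat_lit 0) (nat_lit 2665084897) (nat_lit 2) (nat_lit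 5) (nat_lit 4) (nat_lit 4) (nat_lit 2) (nat_lit 4) (nat_lit 309) (nat_lit 237) (nat_lit 234)) (XT.lf (nat_lit 0) (nat_lit 6887570086) (nat_lit 152) (nat_lit 40908237680) (nat_lit 0) (nat_lit 6260846953) (nat_lit 2) (nat_lit 5) (nat_lit 4) (nat_lit 4) (nat_lit 2) (nat_lit 4) (nat_lit 310) (nat_lit 237) (nat_lit 233)))) (XT.nd (nat_lit 156) (nat_lit 0) (nat_lit 0) (XT.nd (nat_lit 78) (nat_lit 0) (nat_lit 0) (XT.lf (nat_lit 0) (nat_lit 10756767718) (nat_lit 152) (nat_lit 37340950908) (nat_lit 0) (nat_lit 10001264120) (nat_lit 2) (nat_lit 5) (nat_lit 4) (nat_lit 4) (nat_lit 2) (nat_lit 4) (nat_lit 311) (nat_lit 237) (nat_lit 232)) (XT.lf (nat_lit 0) (nat_lit 14783246604) (nat_lit 152) (nat_lit 33785198890) (nat_lit 0) (nat_lit 13908501835) (nat_lit 2) (nat_lit 5) (nat_lit 4) (nat_lit 4) (nat_lit 2) (nat_lit 4) (nat_lit 312) (nat_lit 237) (nat_lit 231))) (XT.nd (nat_lit 78) (nat_lit 0) (nat_lit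 0) (XT.lf (nat_lit 0) (nat_lit 18990867358) (nat_lit 152) (nat_lit 30219910503) (nat_lit 0) (nat_lit 18005714097) (nat_lit 2) (nat_lit 5) (nat_lit 4) (nat_lit 4) (nat_lit 2) (nat_lit 4) (nat_lit 313) (nat_lit 237) (nat_lit 230)) (XT.lf (nat_lit 0) (nat_lit 23404564029) (nat_lit 152) (nat_lit 26623958113) (nat_lit 0) (nat_lit 22317180683) (nat_lit 2) (nat_lit 5) (nat_lit 4) (nat_lit 4) (nat_lit 2) (nat_lit 4) (nat_lit 314) (nat_lit 237) (nat_lit 229)))))) (XT.nd (nat_lit 624) (nat_lit 0) (nat_lit 0) (XT.nd (nat_lit 312) (nat_lit 76) (nat_lit 0) (XT.nd (nat_lit 156) (nat_lit 0) (nat_lit 0) (XT.nd (nat_lit 78) (nat_lit 0) (nat_lit 0) (XT.lf (nat_lit 0) (nat_lit 28050491858) (nat_lit 152) (nat_lit 22976032370) (nat_lit 0) (nat_lit 26868451026) (nat_lit 2) (nat_lit 5) (nat_lit 4) (nat_lit 4) (nat_lit 2) (nat_lit 4) (nat_lit 315) (nat_lit 237) (nat_lit 228)) (XT.lf (nat_lit 0) (nat_lit 32956182267)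 (nat_lit 152) (nat_lit 19254515938) (nat_lit 0) (nat_lit 31686495615) (nat_lit 2) (nat_lit 5) (nat_lit 4) (nat_lit 4) (nat_lit 2) (nat_lit 4) (nat_lit 316) (nat_lit 237) (nat_lit 227))) (XT.nd (nat_lit 78) (nat_lit 0) (nat_lit 0) (XT.lf (nat_lit 0) (nat_lit 38150706016) (nat_lit 152) (nat_lit 15437355387) (nat_lit 0) (nat_lit 36799865826) (nat_lit 2) (nat_lit 5) (nat_lit 4) (nat_lit 4) (nat_lit 2) (nat_lit 4) (nat_lit 317) (nat_lit 237) (nat_lit 226)) (XT.lf (nat_lit 0) (nat_lit 43664845467) (nat_lit 152) (nat_lit 11501930504) (nat_lit 0) (nat_lit 42238863113) (nat_lit 2) (nat_lit 5) (nat_lit 4) (nat_lit 4) (nat_lit 2) (nat_lit 4) (nat_lit 318) (nat_lit 237) (nat_lit 225)))) (XT.nd (nat_lit 156) (nat_lit 76) (nat_lit 0) (XT.nd (nat_lit 78) (nat_lit 0) (nat_lit 0) (XT.lf (nat_lit 0) (nat_lit 49531277002) (nat_lit 152) (nat_lit 7424920255) (nat_lit 0) (nat_lit 48035718570) (nat_lit 2)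 (nat_lit 5) (nat_lit 4) (nat_lit 4) (nat_lit 2) (nat_lit 4) (nat_lit 319) (nat_lit 237) (nat_lit 224)) (XT.lf (nat_lit 0) (nat_lit 55784764660) (nat_lit 152) (nat_lit 3182164578) (nat_lit 0) (nat_lit 54224783934) (nat_lit 2) (nat_lit 5) (nat_lit 4) (nat_lit 4) (nat_lit 2) (nat_lit 4) (nat_lit 320) (nat_lit 237) (nat_lit 223))) (XT.nd (nat_lit 78) (nat_lit 0) (nat_lit 0) (XT.lf (nat_lit 0) (nat_lit 1317379437) (nat_lit 76) (nat_lit 61176669715) (nat_lit 76) (nat_lit 59557038716) (nat_lit 1) (nat_lit 4) (nat_lit 2) (nat_lit 5) (nat_lit 2) (nat_lit 4) (nat_lit 321) (nat_lit 237) (nat_lit 222)) (XT.lf (nat_lit 0) (nat_lit 6213087045) (nat_lit 76) (nat_lit 63539990277) (nat_lit 76) (nat_lit 61865127544) (nat_lit 1) (nat_lit 4) (nat_lit 2) (nat_lit 5) (nat_lit 2) (nat_lit 4) (nat_lit 322) (nat_lit 237) (nat_lit 221))))) (XT.nd (nat_lit 312) (nat_lit 0) (nat_lit 0) (XT.nd (nat_lit 156) (nat_lit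 0) (nat_lit 0) (XT.nd (nat_lit 78) (nat_lit 0) (nat_lit 0) (XT.lf (nat_lit 0) (nat_lit 11366402700) (nat_lit 76) (nat_lit 66157901805) (nat_lit 76) (nat_lit 64431898577) (nat_lit 1) (nat_lit 4) (nat_lit 2) (nat_lit 5) (nat_lit 2) (nat_lit 4) (nat_lit 323) (nat_lit 237) (nat_lit 220)) (XT.lf (nat_lit 0) (nat_lit 16807864569) (nat_lit 76) (nat_lit 69045917848) (nat_lit 76) (nat_lit 67272562311) (nat_lit 1) (nat_lit 4) (nat_lit 2) (nat_lit 5) (nat_lit 2) (nat_lit 4) (nat_lit 324) (nat_lit 237) (nat_lit 219))) (XT.nd (nat_lit 78) (nat_lit 0) (nat_lit 0) (XT.lf (nat_lit 0) (nat_lit 22569718350) (nat_lit 76) (nat_lit 72221152576) (nat_lit 76) (nat_lit 70403952308) (nat_lit 1) (nat_lit 4) (nat_lit 2) (nat_lit 5) (nat_lit 2) (nat_lit 4) (nat_lit 325) (nat_lit 237) (nat_lit 218)) (XT.lf (nat_lit 0) (nat_lit 28686108364) (nat_lit 76) (nat_lit 75702422196) (nat_lit 76) (nat_lit 73844624954) (nat_lit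 1) (nat_lit 4) (nat_lit 2) (nat_lit 5) (nat_lit 2) (nat_lit 4) (nat_lit 326) (nat_lit 237) (nat_lit 217)))) (XT.nd (nat_lit 156) (nat_lit 0) (nat_lit 0) (XT.nd (nat_lit 78) (nat_lit 0) (nat_lit 0) (XT.lf (nat_lit 0) (nat_lit 35193279883) (nat_lit 76) (nat_lit 79510356452) (nat_lit 76) (nat_lit 77614969420) (nat_lit 1) (nat_lit 4) (nat_lit 2) (nat_lit 5) (nat_lit 2) (nat_lit 4) (nat_lit 327) (nat_lit 237) (nat_lit 216)) (XT.lf (nat_lit 0) (nat_lit 42129793925) (nat_lit 76) (nat_lit 83667520881) (nat_lit 76) (nat_lit 81737328488) (nat_lit 1) (nat_lit 4) (nat_lit 2) (nat_lit 5) (nat_lit 2) (nat_lit 4) (nat_lit 328) (nat_lit 237) (nat_lit 215))) (XT.nd (nat_lit 78) (nat_lit 0) (nat_lit 0) (XT.lf (nat_lit 0) (nat_lit 49536755758) (nat_lit 76) (nat_lit 88198550531) (nat_lit 76) (nat_lit 86236130952) (nat_lit 1) (nat_lit 4) (nat_lit 2) (nat_lit 5) (nat_lit 2) (nat_lit 4) (nat_lit 329) (nat_lit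 237) (nat_lit 214)) (XT.lf (nat_lit 0) (nat_lit 57458058489) (nat_lit 76) (nat_lit 93130295949) (nat_lit 76) (nat_lit 91138036383) (nat_lit 1) (nat_lit 4) (nat_lit 2) (nat_lit 5) (nat_lit 2) (nat_lit 4) (nat_lit 330) (nat_lit 237) (nat_lit 213))))))))
noncomputable def xc18 : XT := (XT.nd (nat_lit 2418) (nat_lit 0) (nat_lit 0) (XT.nd (nat_lit 1170) (nat_lit 0) (nat_lit 0) (XT.nd (nat_lit 546) (nat_lit 0) (nat_lit 0) (XT.nd (nat_lit 234) (nat_lit 0) (nat_lit 0) (XT.nd (nat_lit 78) (nat_lit 0) (nat_lit 0) (XT.lf (nat_lit 0) (nat_lit 65940643171) (nat_lit 76) (nat_lit 98491982292) (nat_lit 76) (nat_lit 96472093108) (nat_lit 1) (nat_lit 4) (nat_lit 2) (nat_lit 5) (nat_lit 2) (nat_lit 4) (nat_lit 331) (nat_lit 237) (nat_lit 212)) (XT.nd (nat_lit 78) (nat_lit 0) (nat_lit 0) (XT.lf (nat_lit 0) (nat_lit 75034776973) (nat_lit 76) (nat_lit 104315382518) (nat_lit 76) (nat_lit 102269910354) (nat_lit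 1) (nat_lit 4) (nat_lit 2) (nat_lit 5) (nat_lit 2) (nat_lit 4) (nat_lit 332) (nat_lit 237) (nat_lit 211)) (XT.lf (nat_lit 0) (nat_lit 84794351058) (nat_lit 76) (nat_lit 110635005663) (nat_lit 76) (nat_lit 108565845555) (nat_lit 1) (nat_lit 4) (nat_lit 2) (nat_lit 5) (nat_lit 2) (nat_lit 4) (nat_lit 333) (nat_lit 237) (nat_lit 210)))) (XT.nd (nat_lit 156) (nat_lit 0) (nat_lit 0) (XT.nd (nat_lit 78) (nat_lit 0) (nat_lit 0) (XT.lf (nat_lit 0) (nat_lit 95277199939) (nat_lit 76) (nat_lit 117488301347) (nat_lit 76) (nat_lit 115397207958) (nat_lit 1) (nat_lit 4) (nat_lit 2) (nat_lit 5) (nat_lit 2) (nat_lit 4) (nat_lit 334) (nat_lit 237) (nat_lit 209)) (XT.lf (nat_lit 0) (nat_lit 106545444203) (nat_lit 76) (nat_lit 124915881692) (nat_lit 76) (nat_lit 122804479709) (nat_lit 1) (nat_lit 4) (nat_lit 2) (nat_lit 5) (nat_lit 2) (nat_lit 4) (nat_lit 335) (nat_lit 237) (nat_lit 208))) (XT.nd (nat_lit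 78) (nat_lit 0) (nat_lit 0) (XT.lf (nat_lit 0) (nat_lit 118665858629) (nat_lit 76) (nat_lit 132961761990) (nat_lit 76) (nat_lit 130831555753) (nat_lit 1) (nat_lit 4) (nat_lit 2) (nat_lit 5) (nat_lit 2) (nat_lit 4) (nat_lit 336) (nat_lit 237) (nat_lit 207)) (XT.lf (nat_lit 0) (nat_lit 131710267896) (nat_lit 76) (nat_lit 141673621530) (nat_lit 76) (nat_lit 139526003947) (nat_lit 1) (nat_lit 4) (nat_lit 2) (nat_lit 5) (nat_lit 2) (nat_lit 4) (nat_lit 337) (nat_lit 237) (nat_lit 206))))) (XT.nd (nat_lit 312) (nat_lit 0) (nat_lit 0) (XT.nd (nat_lit 156) (nat_lit 0) (nat_lit 0) (XT.nd (nat_lit 78) (nat_lit 0) (nat_lit 0) (XT.lf (nat_lit 0) (nat_lit 145755972207) (nat_lit 76) (nat_lit 151103086148) (nat_lit 76) (nat_lit 148939346948) (nat_lit 1) (nat_lit 4) (nat_lit 2) (nat_lit 5) (nat_lit 2) (nat_lit 4) (nat_lit 338) (nat_lit 237) (nat_lit 205)) (XT.lf (nat_lit 0) (nat_lit 160886205365) (nat_lit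 76) (nat_lit 161306034151) (nat_lit 76) (nat_lit 159127367529) (nat_lit 1) (nat_lit 4) (nat_lit 2) (nat_lit 5) (nat_lit 2) (nat_lit 4) (nat_lit 339) (nat_lit 237) (nat_lit 204))) (XT.nd (nat_lit 78) (nat_lit 0) (nat_lit 0) (XT.lf (nat_lit 0) (nat_lit 177190628012) (nat_lit 76) (nat_lit 172342927455) (nat_lit 76) (nat_lit 170150439145) (nat_lit 1) (nat_lit 4) (nat_lit 2) (nat_lit 5) (nat_lit 2) (nat_lit 4) (nat_lit 340) (nat_lit 237) (nat_lit 203)) (XT.lf (nat_lit 0) (nat_lit 194765858948) (nat_lit 76) (nat_lit 184279169871) (nat_lit 76) (nat_lit 182073883702) (nat_lit 1) (nat_lit 4) (nat_lit 2) (nat_lit 5) (nat_lit 2) (nat_lit 4) (nat_lit 341) (nat_lit 237) (nat_lit 202)))) (XT.nd (nat_lit 156) (nat_lit 0) (nat_lit 0) (XT.nd (nat_lit 78) (nat_lit 0) (nat_lit 0) (XT.lf (nat_lit 0) (nat_lit 213716047689) (nat_lit 76) (nat_lit 197185494688) (nat_lit 76) (nat_lit 194968358649) (nat_lit 1)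 (nat_lit 4) (nat_lit 2) (nat_lit 5) (nat_lit 2) (nat_lit 4) (nat_lit 342) (nat_lit 237) (nat_lit 201)) (XT.lf (nat_lit 0) (nat_lit 234153491652) (nat_lit 76) (nat_lit 211138383830) (nat_lit 76) (nat_lit 208910275690) (nat_lit 1) (nat_lit 4) (nat_lit 2) (nat_lit 5) (nat_lit 2) (nat_lit 4) (nat_lit 343) (nat_lit 237) (nat_lit 200))) (XT.nd (nat_lit 78) (nat_lit 0) (nat_lit 0) (XT.lf (nat_lit 0) (nat_lit 256199301614) (nat_lit 76) (nat_lit 226220521085) (nat_lit 76) (nat_lit 223982253592) (nat_lit 1) (nat_lit 4) (nat_lit 2) (nat_lit 5) (nat_lit 2) (nat_lit 4) (nat_lit 344) (nat_lit 237) (nat_lit 199)) (XT.lf (nat_lit 0) (nat_lit 279984119412) (nat_lit 76) (nat_lit 242521282081) (nat_lit 76) (nat_lit 240273607780) (nat_lit 1) (nat_lit 4) (nat_lit 2) (nat_lit 5) (nat_lit 2) (nat_lit 4) (nat_lit 345) (nat_lit 237) (nat_lit 198)))))) (XT.nd (nat_lit 624) (nat_lit 0) (nat_lit 0) (XT.nd (nat_lit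 312) (nat_lit 0) (nat_lit 0) (XT.nd (nat_lit 156) (nat_lit 0) (nat_lit 0) (XT.nd (nat_lit 78) (nat_lit 0) (nat_lit 0) (XT.lf (nat_lit 0) (nat_lit 305648892115) (nat_lit 76) (nat_lit 260137263921) (nat_lit 76) (nat_lit 257880879612) (nat_lit 1) (nat_lit 4) (nat_lit 2) (nat_lit 5) (nat_lit 2) (nat_lit 4) (nat_lit 346) (nat_lit 237) (nat_lit 197)) (XT.lf (nat_lit 0) (nat_lit 333345707265) (nat_lit 76) (nat_lit 279172857608) (nat_lit 76) (nat_lit 276908408476) (nat_lit 1) (nat_lit 4) (nat_lit 2) (nat_lit 5) (nat_lit 2) (nat_lit 4) (nat_lit 347) (nat_lit 237) (nat_lit 196))) (XT.nd (nat_lit 78) (nat_lit 0) (nat_lit 0) (XT.lf (nat_lit 0) (nat_lit 363238694137) (nat_lit 76) (nat_lit 299740866660) (nat_lit 76) (nat_lit 297468950100) (nat_lit 1) (nat_lit 4) (nat_lit 2) (nat_lit 5) (nat_lit 2) (nat_lit 4) (nat_lit 348) (nat_lit 237) (nat_lit 195)) (XT.lf (nat_lit 0) (nat_lit 395504996357) (nat_lit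 76) (nat_lit 321963175575) (nat_lit 76) (nat_lit 319684344730) (nat_lit 1) (nat_lit 4) (nat_lit 2) (nat_lit 5) (nat_lit 2) (nat_lit 4) (nat_lit 349) (nat_lit 237) (nat_lit 194)))) (XT.nd (nat_lit 156) (nat_lit 0) (nat_lit 0) (XT.nd (nat_lit 78) (nat_lit 0) (nat_lit 0) (XT.lf (nat_lit 0) (nat_lit 430335821641) (nat_lit 76) (nat_lit 345971472109) (nat_lit 76) (nat_lit 343686239149) (nat_lit 1) (nat_lit 4) (nat_lit 2) (nat_lit 5) (nat_lit 2) (nat_lit 4) (nat_lit 350) (nat_lit 237) (nat_lit 193)) (XT.lf (nat_lit 0) (nat_lit 467937574880) (nat_lit 76) (nat_lit 371908027650) (nat_lit 76) (nat_lit 369616866805) (nat_lit 1) (nat_lit 4) (nat_lit 2) (nat_lit 5) (nat_lit 2) (nat_lit 4) (nat_lit 351) (nat_lit 237) (nat_lit 192))) (XT.nd (nat_lit 78) (nat_lit 0) (nat_lit 0) (XT.lf (nat_lit 0) (nat_lit 508533081279) (nat_lit 76) (nat_lit 399926540305) (nat_lit 76) (nat_lit 397629890677) (nat_lit 1)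 (nat_lit 4) (nat_lit 2) (nat_lit 5) (nat_lit 2) (nat_lit 4) (nat_lit 352) (nat_lit 237) (nat_lit 191)) (XT.lf (nat_lit 0) (nat_lit 552362906801) (nat_lit 76) (nat_lit 430193045703) (nat_lit 76) (nat_lit 427891313870) (nat_lit 1) (nat_lit 4) (nat_lit 2) (nat_lit 5) (nat_lit 2) (nat_lit 4) (nat_lit 353) (nat_lit 237) (nat_lit 190))))) (XT.nd (nat_lit 312) (nat_lit 0) (nat_lit 0) (XT.nd (nat_lit 156) (nat_lit 0) (nat_lit 0) (XT.nd (nat_lit 78) (nat_lit 0) (nat_lit 0) (XT.lf (nat_lit 0) (nat_lit 599686783745) (nat_lit 76) (nat_lit 462886900915) (nat_lit 76) (nat_lit 460580463335) (nat_lit 1) (nat_lit 4) (nat_lit 2) (nat_lit 5) (nat_lit 2) (nat_lit 4) (nat_lit 354) (nat_lit 237) (nat_lit 189)) (XT.lf (nat_lit 0) (nat_lit 650785149902) (nat_lit 76) (nat_lit 498201847304) (nat_lit 76) (nat_lit 495891052552) (nat_lit 1) (nat_lit 4) (nat_lit 2) (nat_lit 5) (nat_lit 2) (nat_lit 4) (nat_lit 355)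 (nat_lit 237) (nat_lit 188))) (XT.nd (nat_lit 78) (nat_lit 0) (nat_lit 0) (XT.lf (nat_lit 0) (nat_lit 705960810404) (nat_lit 76) (nat_lit 536347158626) (nat_lit 76) (nat_lit 534032329455) (nat_lit 1) (nat_lit 4) (nat_lit 2) (nat_lit 5) (nat_lit 2) (nat_lit 4) (nat_lit 356) (nat_lit 237) (nat_lit 187)) (XT.lf (nat_lit 0) (nat_lit 765540732127) (nat_lit 76) (nat_lit 577548881172) (nat_lit 76) (nat_lit 575230316428) (nat_lit 1) (nat_lit 4) (nat_lit 2) (nat_lit 5) (nat_lit 2) (nat_lit 4) (nat_lit 357) (nat_lit 237) (nat_lit 186)))) (XT.nd (nat_lit 156) (nat_lit 0) (nat_lit 0) (XT.nd (nat_lit 78) (nat_lit 0) (nat_lit 0) (XT.lf (nat_lit 0) (nat_lit 829877981276) (nat_lit 76) (nat_lit 622051173296) (nat_lit 76) (nat_lit 619729149688) (nat_lit 1) (nat_lit 4) (nat_lit 2) (nat_lit 5) (nat_lit 2) (nat_lit 4) (nat_lit 358) (nat_lit 237) (nat_lit 185)) (XT.lf (nat_lit 0) (nat_lit 899353815621) (nat_lit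 76) (nat_lit 670117752285) (nat_lit 76) (nat_lit 667792526025) (nat_lit 1) (nat_lit 4) (nat_lit 2) (nat_lit 5) (nat_lit 2) (nat_lit 4) (nat_lit 359) (nat_lit 237) (nat_lit 184))) (XT.nd (nat_lit 78) (nat_lit 0) (nat_lit 0) (XT.lf (nat_lit 0) (nat_lit 974379943812) (nat_lit 76) (nat_lit 722033457127) (nat_lit 76) (nat_lit 719705265449) (nat_lit 1) (nat_lit 4) (nat_lit 2) (nat_lit 5) (nat_lit 2) (nat_lit 4) (nat_lit 360) (nat_lit 237) (nat_lit 183)) (XT.lf (nat_lit 0) (nat_lit 1055400965127) (nat_lit 76) (nat_lit 778105936442) (nat_lit 76) (nat_lit 775774999006) (nat_lit 1) (nat_lit 4) (nat_lit 2) (nat_lit 5) (nat_lit 2) (nat_lit 4) (nat_lit 361) (nat_lit 237) (nat_lit 182))))))) (XT.nd (nat_lit 36504) (nat_lit 0) (nat_lit 0) (XT.nd (nat_lit 624) (nat_lit 0) (nat_lit 0) (XT.nd (nat_lit 312) (nat_lit 0) (nat_lit 0) (XT.nd (nat_lit 156) (nat_lit 0) (nat_lit 0) (XT.nd (nat_lit 78) (nat_lit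 0) (nat_lit 0) (XT.lf (nat_lit 0) (nat_lit 1142897004135) (nat_lit 76) (nat_lit 838667471589) (nat_lit 76) (nat_lit 836333991785) (nat_lit 1) (nat_lit 4) (nat_lit 2) (nat_lit 5) (nat_lit 2) (nat_lit 4) (nat_lit 362) (nat_lit 237) (nat_lit 181)) (XT.lf (nat_lit 0) (nat_lit 1237386555884) (nat_lit 76) (nat_lit 904076945739) (nat_lit 76) (nat_lit 901741111891) (nat_lit 1) (nat_lit 4) (nat_lit 2) (nat_lit 5) (nat_lit 2) (nat_lit 4) (nat_lit 363) (nat_lit 237) (nat_lit 180))) (XT.nd (nat_lit 78) (nat_lit 0) (nat_lit 0) (XT.lf (nat_lit 0) (nat_lit 1339429558458) (nat_lit 76) (nat_lit 974721970592) (nat_lit 76) (nat_lit 972383957072) (nat_lit 1) (nat_lit 4) (nat_lit 2) (nat_lit 5) (nat_lit 2) (nat_lit 4) (nat_lit 364) (nat_lit 237) (nat_lit 179)) (XT.lf (nat_lit 0) (nat_lit 1449630711131) (nat_lit 76) (nat_lit 1051021183331) (nat_lit 76) (nat_lit 1048681151597) (nat_lit 1) (nat_lit 4) (nat_lit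 2) (nat_lit 5) (nat_lit 2) (nat_lit 4) (nat_lit 365) (nat_lit 237) (nat_lit 178)))) (XT.nd (nat_lit 156) (nat_lit 0) (nat_lit 0) (XT.nd (nat_lit 78) (nat_lit 0) (nat_lit 0) (XT.lf (nat_lit 0) (nat_lit 1568643057771) (nat_lit 76) (nat_lit 1133426727440) (nat_lit 76) (nat_lit 1131084826989) (nat_lit 1) (nat_lit 4) (nat_lit 2) (nat_lit 5) (nat_lit 2) (nat_lit 4) (nat_lit 366) (nat_lit 237) (nat_lit 177)) (XT.lf (nat_lit 0) (nat_lit 1697171856728) (nat_lit 76) (nat_lit 1222426932068) (nat_lit 76) (nat_lit 1220083301324) (nat_lit 1) (nat_lit 4) (nat_lit 2) (nat_lit 5) (nat_lit 2) (nat_lit 4) (nat_lit 367) (nat_lit 237) (nat_lit 176))) (XT.nd (nat_lit 78) (nat_lit 0) (nat_lit 0) (XT.lf (nat_lit 0) (nat_lit 1835978760145) (nat_lit 76) (nat_lit 1318549205835) (nat_lit 76) (nat_lit 1316203972969) (nat_lit 1) (nat_lit 4) (nat_lit 2) (nat_lit 5) (nat_lit 2) (nat_lit 4) (nat_lit 368) (nat_lit 237)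 (nat_lit 175)) (XT.lf (nat_lit 0) (nat_lit 1985886327448) (nat_lit 76) (nat_lit 1422363162217) (nat_lit 76) (nat_lit 1420016445903) (nat_lit 1) (nat_lit 4) (nat_lit 2) (nat_lit 5) (nat_lit 2) (nat_lit 4) (nat_lit 369) (nat_lit 237) (nat_lit 174))))) (XT.nd (nat_lit 35568) (nat_lit 0) (nat_lit 228) (XT.nd (nat_lit 156) (nat_lit 0) (nat_lit 0) (XT.nd (nat_lit 78) (nat_lit 0) (nat_lit 0) (XT.lf (nat_lit 0) (nat_lit 2147782899779) (nat_lit 76) (nat_lit 1534483995028) (nat_lit 76) (nat_lit 1532135905151) (nat_lit 1) (nat_lit 4) (nat_lit 2) (nat_lit 5) (nat_lit 2) (nat_lit 4) (nat_lit 370) (nat_lit 237) (nat_lit 173)) (XT.lf (nat_lit 0) (nat_lit 2322627864231) (nat_lit 76) (nat_lit 1655576124018) (nat_lit 76) (nat_lit 1653226762324) (nat_lit 1) (nat_lit 4) (nat_lit 2) (nat_lit 5) (nat_lit 2) (nat_lit 4) (nat_lit 371) (nat_lit 237) (nat_lit 172))) (XT.nd (nat_lit 35334) (nat_lit 0) (nat_lit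 228) (XT.lf (nat_lit 0) (nat_lit 2511457339112) (nat_lit 76) (nat_lit 1786357132174) (nat_lit 76) (nat_lit 1784006592872) (nat_lit 1) (nat_lit 4) (nat_lit 2) (nat_lit 5) (nat_lit 2) (nat_lit 4) (nat_lit 372) (nat_lit 237) (nat_lit 171)) (XT.lf (nat_lit 0) (nat_lit 4155258423) (nat_lit 76) (nat_lit 6800776365) (nat_lit 76) (nat_lit 6800776365) (nat_lit 4) (nat_lit 4) (nat_lit 5) (nat_lit 5) (nat_lit 5) (nat_lit 4) (nat_lit 304) (nat_lit 238) (nat_lit 238)))) (XT.nd (nat_lit 156) (nat_lit 0) (nat_lit 0) (XT.nd (nat_lit 78) (nat_lit 0) (nat_lit 0) (XT.lf (nat_lit 0) (nat_lit 17001026096) (nat_lit 76) (nat_lit 10611169264) (nat_lit 76) (nat_lit 10406810851) (nat_lit 4) (nat_lit 4) (nat_lit 5) (nat_lit 5) (nat_lit 5) (nat_lit 4) (nat_lit 305) (nat_lit 238) (nat_lit 237)) (XT.lf (nat_lit 0) (nat_lit 25995463633) (nat_lit 76) (nat_lit 7569652289) (nat_lit 76) (nat_lit 7176073124) (nat_lit 4)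 (nat_lit 4) (nat_lit 5) (nat_lit 5) (nat_lit 5) (nat_lit 4) (nat_lit 306) (nat_lit 238) (nat_lit 236))) (XT.nd (nat_lit 78) (nat_lit 0) (nat_lit 0) (XT.lf (nat_lit 0) (nat_lit 35347129827) (nat_lit 76) (nat_lit 4458978002) (nat_lit 76) (nat_lit 3890194436) (nat_lit 4) (nat_lit 4) (nat_lit 5) (nat_lit 5) (nat_lit 5) (nat_lit 4) (nat_lit 307) (nat_lit 238) (nat_lit 235)) (XT.lf (nat_lit 0) (nat_lit 45111441960) (nat_lit 76) (nat_lit 1260712777) (nat_lit 76) (nat_lit 529702915) (nat_lit 4) (nat_lit 4) (nat_lit 5) (nat_lit 5) (nat_lit 5) (nat_lit 4) (nat_lit 308) (nat_lit 238) (nat_lit 234)))))) (XT.nd (nat_lit 624) (nat_lit 76) (nat_lit 0) (XT.nd (nat_lit 312) (nat_lit 0) (nat_lit 0) (XT.nd (nat_lit 156) (nat_lit 0) (nat_lit 0) (XT.nd (nat_lit 78) (nat_lit 0) (nat_lit 0) (XT.lf (nat_lit 0) (nat_lit 2957215520) (nat_lit 152) (nat_lit 45258476730) (nat_lit 0) (nat_lit 2141271634) (nat_lit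 2) (nat_lit 5) (nat_lit 4) (nat_lit 4) (nat_lit 2) (nat_lit 4) (nat_lit 309) (nat_lit 238) (nat_lit 233)) (XT.lf (nat_lit 0) (nat_lit 6613005227) (nat_lit 152) (nat_lit 41812684531) (nat_lit 0) (nat_lit 5668280876) (nat_lit 2) (nat_lit 5) (nat_lit 4) (nat_lit 4) (nat_lit 2) (nat_lit 4) (nat_lit 310) (nat_lit 238) (nat_lit 232))) (XT.nd (nat_lit 78) (nat_lit 0) (nat_lit 0) (XT.lf (nat_lit 0) (nat_lit 10409003553) (nat_lit 152) (nat_lit 38388146651) (nat_lit 0) (nat_lit 9345038031) (nat_lit 2) (nat_lit 5) (nat_lit 4) (nat_lit 4) (nat_lit 2) (nat_lit 4) (nat_lit 311) (nat_lit 238) (nat_lit 231)) (XT.lf (nat_lit 0) (nat_lit 14367705302) (nat_lit 152) (nat_lit 34964569533) (nat_lit 0) (nat_lit 13193331289) (nat_lit 2) (nat_lit 5) (nat_lit 4) (nat_lit 4) (nat_lit 2) (nat_lit 4) (nat_lit 312) (nat_lit 238) (nat_lit 230)))) (XT.nd (nat_lit 156) (nat_lit 0) (nat_lit 0) (XT.nd (nat_lit 78) (nat_lit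 0) (nat_lit 0) (XT.lf (nat_lit 0) (nat_lit 18512569449) (nat_lit 152) (nat_lit 31521665313) (nat_lit 0) (nat_lit 17235965351) (nat_lit 2) (nat_lit 5) (nat_lit 4) (nat_lit 4) (nat_lit 2) (nat_lit 4) (nat_lit 313) (nat_lit 238) (nat_lit 229)) (XT.lf (nat_lit 0) (nat_lit 22868158151) (nat_lit 152) (nat_lit 28039031595) (nat_lit 0) (nat_lit 21496896567) (nat_lit 2) (nat_lit 5) (nat_lit 4) (nat_lit 4) (nat_lit 2) (nat_lit 4) (nat_lit 314) (nat_lit 238) (nat_lit 228))) (XT.nd (nat_lit 78) (nat_lit 0) (nat_lit 0) (XT.lf (nat_lit 0) (nat_lit 27460282304) (nat_lit 152) (nat_lit 24496030550) (nat_lit 0) (nat_lit 26001374899) (nat_lit 2) (nat_lit 5) (nat_lit 4) (nat_lit 4) (nat_lit 2) (nat_lit 4) (nat_lit 315) (nat_lit 238) (nat_lit 227)) (XT.lf (nat_lit 0) (nat_lit 32316154496) (nat_lit 152) (nat_lit 20871666616) (nat_lit 0) (nat_lit 30776093553) (nat_lit 2) (nat_lit 5) (nat_lit 4) (nat_lit 4)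 (nat_lit 2) (nat_lit 4) (nat_lit 316) (nat_lit 238) (nat_lit 226))))) (XT.nd (nat_lit 312) (nat_lit 76) (nat_lit 0) (XT.nd (nat_lit 156) (nat_lit 0) (nat_lit 0) (XT.nd (nat_lit 78) (nat_lit 0) (nat_lit 0) (XT.lf (nat_lit 0) (nat_lit 37464550265) (nat_lit 152) (nat_lit 17144462080) (nat_lit 0) (nat_lit 35849347158) (nat_lit 2) (nat_lit 5) (nat_lit 4) (nat_lit 4) (nat_lit 2) (nat_lit 4) (nat_lit 317) (nat_lit 238) (nat_lit 225)) (XT.lf (nat_lit 0) (nat_lit 42935978623) (nat_lit 152) (nat_lit 13292329805) (nat_lit 0) (nat_lit 41251199439) (nat_lit 2) (nat_lit 5) (nat_lit 4) (nat_lit 4) (nat_lit 2) (nat_lit 4) (nat_lit 318) (nat_lit 238) (nat_lit 224))) (XT.nd (nat_lit 78) (nat_lit 0) (nat_lit 0) (XT.lf (nat_lit 0) (nat_lit 48762862851) (nat_lit 152) (nat_lit 9292442341) (nat_lit 0) (nat_lit 47013661372) (nat_lit 2) (nat_lit 5) (nat_lit 4) (nat_lit 4) (nat_lit 2) (nat_lit 4) (nat_lit 319)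 (nat_lit 238) (nat_lit 223)) (XT.lf (nat_lit 0) (nat_lit 54979732631) (nat_lit 152) (nat_lit 5121096649) (nat_lit 0) (nat_lit 53170880879) (nat_lit 2) (nat_lit 5) (nat_lit 4) (nat_lit 4) (nat_lit 2) (nat_lit 4) (nat_lit 320) (nat_lit 238) (nat_lit 222)))) (XT.nd (nat_lit 156) (nat_lit 0) (nat_lit 0) (XT.nd (nat_lit 78) (nat_lit 76) (nat_lit 0) (XT.lf (nat_lit 0) (nat_lit 61623428674) (nat_lit 152) (nat_lit 753573646) (nat_lit 0) (nat_lit 59759345189) (nat_lit 2) (nat_lit 5) (nat_lit 4) (nat_lit 4) (nat_lit 2) (nat_lit 4) (nat_lit 321) (nat_lit 238) (nat_lit 221)) (XT.lf (nat_lit 0) (nat_lit 4038005685) (nat_lit 76) (nat_lit 64792429480) (nat_lit 76) (nat_lit 62877205499) (nat_lit 1) (nat_lit 4) (nat_lit 2) (nat_lit 5) (nat_lit 2) (nat_lit 4) (nat_lit 322) (nat_lit 238) (nat_lit 220))) (XT.nd (nat_lit 78) (nat_lit 0) (nat_lit 0) (XT.lf (nat_lit 0) (nat_lit 9131648725) (nat_lit 76) (nat_lit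 67439510043) (nat_lit 76) (nat_lit 65476933753) (nat_lit 1) (nat_lit 4) (nat_lit 2) (nat_lit 5) (nat_lit 2) (nat_lit 4) (nat_lit 323) (nat_lit 238) (nat_lit 219)) (XT.lf (nat_lit 0) (nat_lit 14517858172) (nat_lit 76) (nat_lit 70354534452) (nat_lit 76) (nat_lit 68348113431) (nat_lit 1) (nat_lit 4) (nat_lit 2) (nat_lit 5) (nat_lit 2) (nat_lit 4) (nat_lit 324) (nat_lit 238) (nat_lit 218))))))))
noncomputable def xc19 : XT := (XT.nd (nat_lit 2496) (nat_lit 0) (nat_lit 0) (XT.nd (nat_lit 1248) (nat_lit 0) (nat_lit 0) (XT.nd (nat_lit 624) (nat_lit 0) (nat_lit 0) (XT.nd (nat_lit 312) (nat_lit 0) (nat_lit 0) (XT.nd (nat_lit 156) (nat_lit 0) (nat_lit 0) (XT.nd (nat_lit 78) (nat_lit 0) (nat_lit 0) (XT.lf (nat_lit 0) (nat_lit 20228552304) (nat_lit 76) (nat_lit 73554776927) (nat_lit 76) (nat_lit 71507758933) (nat_lit 1) (nat_lit 4) (nat_lit 2) (nat_lit 5) (nat_lit 2) (nat_lit 4) (nat_lit 325) (nat_lit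 238) (nat_lit 217)) (XT.lf (nat_lit 0) (nat_lit 26297572272) (nat_lit 76) (nat_lit 77059201867) (nat_lit 76) (nat_lit 74974594083) (nat_lit 1) (nat_lit 4) (nat_lit 2) (nat_lit 5) (nat_lit 2) (nat_lit 4) (nat_lit 326) (nat_lit 238) (nat_lit 216))) (XT.nd (nat_lit 78) (nat_lit 0) (nat_lit 0) (XT.lf (nat_lit 0) (nat_lit 32760882638) (nat_lit 76) (nat_lit 80888576235) (nat_lit 76) (nat_lit 78769163089) (nat_lit 1) (nat_lit 4) (nat_lit 2) (nat_lit 5) (nat_lit 2) (nat_lit 4) (nat_lit 327) (nat_lit 238) (nat_lit 215)) (XT.lf (nat_lit 0) (nat_lit 39656784501) (nat_lit 76) (nat_lit 85065592619) (nat_lit 76) (nat_lit 82913952287) (nat_lit 1) (nat_lit 4) (nat_lit 2) (nat_lit 5) (nat_lit 2) (nat_lit 4) (nat_lit 328) (nat_lit 238) (nat_lit 214)))) (XT.nd (nat_lit 156) (nat_lit 0) (nat_lit 0) (XT.nd (nat_lit 78) (nat_lit 0) (nat_lit 0) (XT.lf (nat_lit 0) (nat_lit 47026142464) (nat_lit 76) (nat_lit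 89615003709) (nat_lit 76) (nat_lit 87433523391) (nat_lit 1) (nat_lit 4) (nat_lit 2) (nat_lit 5) (nat_lit 2) (nat_lit 4) (nat_lit 329) (nat_lit 238) (nat_lit 213)) (XT.lf (nat_lit 0) (nat_lit 54912626798) (nat_lit 76) (nat_lit 94563768979) (nat_lit 76) (nat_lit 92354659043) (nat_lit 1) (nat_lit 4) (nat_lit 2) (nat_lit 5) (nat_lit 2) (nat_lit 4) (nat_lit 330) (nat_lit 238) (nat_lit 212))) (XT.nd (nat_lit 78) (nat_lit 0) (nat_lit 0) (XT.lf (nat_lit 0) (nat_lit 63362972223) (nat_lit 76) (nat_lit 99941214445) (nat_lit 76) (nat_lit 97706521529) (nat_lit 1) (nat_lit 4) (nat_lit 2) (nat_lit 5) (nat_lit 2) (nat_lit 4) (nat_lit 331) (nat_lit 238) (nat_lit 211)) (XT.lf (nat_lit 0) (nat_lit 72427254861) (nat_lit 76) (nat_lit 105779206450) (nat_lit 76) (nat_lit 103520825590) (nat_lit 1) (nat_lit 4) (nat_lit 2) (nat_lit 5) (nat_lit 2) (nat_lit 4) (nat_lit 332) (nat_lit 238) (nat_lit 210))))) (XT.nd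 (nat_lit 312) (nat_lit 0) (nat_lit 0) (XT.nd (nat_lit 156) (nat_lit 0) (nat_lit 0) (XT.nd (nat_lit 78) (nat_lit 0) (nat_lit 0) (XT.lf (nat_lit 0) (nat_lit 82159188979) (nat_lit 76) (nat_lit 112112340503) (nat_lit 76) (nat_lit 109832026361) (nat_lit 1) (nat_lit 4) (nat_lit 2) (nat_lit 5) (nat_lit 2) (nat_lit 4) (nat_lit 333) (nat_lit 238) (nat_lit 209)) (XT.lf (nat_lit 0) (nat_lit 92616445298) (nat_lit 76) (nat_lit 118978146286) (nat_lit 76) (nat_lit 116677523550) (nat_lit 1) (nat_lit 4) (nat_lit 2) (nat_lit 5) (nat_lit 2) (nat_lit 4) (nat_lit 334) (nat_lit 238) (nat_lit 208))) (XT.nd (nat_lit 78) (nat_lit 0) (nat_lit 0) (XT.lf (nat_lit 0) (nat_lit 103860992745) (nat_lit 76) (nat_lit 126417310057) (nat_lit 76) (nat_lit 124097883067) (nat_lit 1) (nat_lit 4) (nat_lit 2) (nat_lit 5) (nat_lit 2) (nat_lit 4) (nat_lit 335) (nat_lit 238) (nat_lit 207)) (XT.lf (nat_lit 0) (nat_lit 115959465674)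 (nat_lit 76) (nat_lit 134473915748) (nat_lit 76) (nat_lit 132137077413) (nat_lit 1) (nat_lit 4) (nat_lit 2) (nat_lit 5) (nat_lit 2) (nat_lit 4) (nat_lit 336) (nat_lit 238) (nat_lit 206)))) (XT.nd (nat_lit 156) (nat_lit 0) (nat_lit 0) (XT.nd (nat_lit 78) (nat_lit 0) (nat_lit 0) (XT.lf (nat_lit 0) (nat_lit 128983558741) (nat_lit 76) (nat_lit 143195706209) (nat_lit 76) (nat_lit 140842746257) (nat_lit 1) (nat_lit 4) (nat_lit 2) (nat_lit 5) (nat_lit 2) (nat_lit 4) (nat_lit 337) (nat_lit 238) (nat_lit 205)) (XT.lf (nat_lit 0) (nat_lit 143010451755) (nat_lit 76) (nat_lit 152634366123) (nat_lit 76) (nat_lit 150266478748) (nat_lit 1) (nat_lit 4) (nat_lit 2) (nat_lit 5) (nat_lit 2) (nat_lit 4) (nat_lit 338) (nat_lit 238) (nat_lit 204))) (XT.nd (nat_lit 78) (nat_lit 0) (nat_lit 0) (XT.lf (nat_lit 0) (nat_lit 158123267046) (nat_lit 76) (nat_lit 162845828289) (nat_lit 76) (nat_lit 160464119227) (nat_lit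 1) (nat_lit 4) (nat_lit 2) (nat_lit 5) (nat_lit 2) (nat_lit 4) (nat_lit 339) (nat_lit 238) (nat_lit 203)) (XT.lf (nat_lit 0) (nat_lit 174411562037) (nat_lit 76) (nat_lit 173890605078) (nat_lit 76) (nat_lit 171496098156) (nat_lit 1) (nat_lit 4) (nat_lit 2) (nat_lit 5) (nat_lit 2) (nat_lit 4) (nat_lit 340) (nat_lit 238) (nat_lit 202)))))) (XT.nd (nat_lit 624) (nat_lit 0) (nat_lit 0) (XT.nd (nat_lit 312) (nat_lit 0) (nat_lit 0) (XT.nd (nat_lit 156) (nat_lit 0) (nat_lit 0) (XT.nd (nat_lit 78) (nat_lit 0) (nat_lit 0) (XT.lf (nat_lit 0) (nat_lit 191971859959) (nat_lit 76) (nat_lit 185834147017) (nat_lit 76) (nat_lit 183427790225) (nat_lit 1) (nat_lit 4) (nat_lit 2) (nat_lit 5) (nat_lit 2) (nat_lit 4) (nat_lit 341) (nat_lit 238) (nat_lit 201)) (XT.lf (nat_lit 0) (nat_lit 210908221836) (nat_lit 76) (nat_lit 198747230651) (nat_lit 76) (nat_lit 196329901758) (nat_lit 1) (nat_lit 4) (nat_lit 2)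 (nat_lit 5) (nat_lit 2) (nat_lit 4) (nat_lit 342) (nat_lit 238) (nat_lit 200))) (XT.nd (nat_lit 78) (nat_lit 0) (nat_lit 0) (XT.lf (nat_lit 0) (nat_lit 231332863146) (nat_lit 76) (nat_lit 212706377957) (nat_lit 76) (nat_lit 210278889711) (nat_lit 1) (nat_lit 4) (nat_lit 2) (nat_lit 5) (nat_lit 2) (nat_lit 4) (nat_lit 343) (nat_lit 238) (nat_lit 199)) (XT.lf (nat_lit 0) (nat_lit 253366818800) (nat_lit 76) (nat_lit 227794309809) (nat_lit 76) (nat_lit 225357414755) (nat_lit 1) (nat_lit 4) (nat_lit 2) (nat_lit 5) (nat_lit 2) (nat_lit 4) (nat_lit 344) (nat_lit 238) (nat_lit 198)))) (XT.nd (nat_lit 156) (nat_lit 0) (nat_lit 0) (XT.nd (nat_lit 78) (nat_lit 0) (nat_lit 0) (XT.lf (nat_lit 0) (nat_lit 277140660387) (nat_lit 76) (nat_lit 244100436172) (nat_lit 76) (nat_lit 241654831110) (nat_lit 1) (nat_lit 4) (nat_lit 2) (nat_lit 5) (nat_lit 2) (nat_lit 4) (nat_lit 345) (nat_lit 238) (nat_lit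 197)) (XT.lf (nat_lit 0) (nat_lit 302795269932) (nat_lit 76) (nat_lit 261721385945) (nat_lit 76) (nat_lit 259267716061) (nat_lit 1) (nat_lit 4) (nat_lit 2) (nat_lit 5) (nat_lit 2) (nat_lit 4) (nat_lit 346) (nat_lit 238) (nat_lit 196))) (XT.nd (nat_lit 78) (nat_lit 0) (nat_lit 0) (XT.lf (nat_lit 0) (nat_lit 330482674750) (nat_lit 76) (nat_lit 280761579569) (nat_lit 76) (nat_lit 278300442257) (nat_lit 1) (nat_lit 4) (nat_lit 2) (nat_lit 5) (nat_lit 2) (nat_lit 4) (nat_lit 347) (nat_lit 238) (nat_lit 195)) (XT.lf (nat_lit 0) (nat_lit 360366948352) (nat_lit 76) (nat_lit 301333847822) (nat_lit 76) (nat_lit 298865796225) (nat_lit 1) (nat_lit 4) (nat_lit 2) (nat_lit 5) (nat_lit 2) (nat_lit 4) (nat_lit 348) (nat_lit 238) (nat_lit 194))))) (XT.nd (nat_lit 312) (nat_lit 0) (nat_lit 0) (XT.nd (nat_lit 156) (nat_lit 0) (nat_lit 0) (XT.nd (nat_lit 78) (nat_lit 0) (nat_lit 0) (XT.lf (nat_lit 0) (nat_lit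 392625182729) (nat_lit 76) (nat_lit 323560100442) (nat_lit 76) (nat_lit 321085646729) (nat_lit 1) (nat_lit 4) (nat_lit 2) (nat_lit 5) (nat_lit 2) (nat_lit 4) (nat_lit 349) (nat_lit 238) (nat_lit 193)) (XT.lf (nat_lit 0) (nat_lit 427448537788) (nat_lit 76) (nat_lit 347572048556) (nat_lit 76) (nat_lit 345091666958) (nat_lit 1) (nat_lit 4) (nat_lit 2) (nat_lit 5) (nat_lit 2) (nat_lit 4) (nat_lit 350) (nat_lit 238) (nat_lit 192))) (XT.nd (nat_lit 78) (nat_lit 0) (nat_lit 0) (XT.lf (nat_lit 0) (nat_lit 465043374152) (nat_lit 76) (nat_lit 373511985188) (nat_lit 76) (nat_lit 371026114808) (nat_lit 1) (nat_lit 4) (nat_lit 2) (nat_lit 5) (nat_lit 2) (nat_lit 4) (nat_lit 351) (nat_lit 238) (nat_lit 191)) (XT.lf (nat_lit 0) (nat_lit 505632476037) (nat_lit 76) (nat_lit 401533628483) (nat_lit 76) (nat_lit 399042675897) (nat_lit 1) (nat_lit 4) (nat_lit 2) (nat_lit 5) (nat_lit 2) (nat_lit 4) (nat_lit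 352) (nat_lit 238) (nat_lit 190)))) (XT.nd (nat_lit 156) (nat_lit 0) (nat_lit 0) (XT.nd (nat_lit 78) (nat_lit 0) (nat_lit 0) (XT.lf (nat_lit 0) (nat_lit 549456371454) (nat_lit 76) (nat_lit 431803032622) (nat_lit 76) (nat_lit 429307374290) (nat_lit 1) (nat_lit 4) (nat_lit 2) (nat_lit 5) (nat_lit 2) (nat_lit 4) (nat_lit 353) (nat_lit 238) (nat_lit 189)) (XT.lf (nat_lit 0) (nat_lit 596774757561) (nat_lit 76) (nat_lit 464499571853) (nat_lit 76) (nat_lit 461999556349) (nat_lit 1) (nat_lit 4) (nat_lit 2) (nat_lit 5) (nat_lit 2) (nat_lit 4) (nat_lit 354) (nat_lit 238) (nat_lit 188))) (XT.nd (nat_lit 78) (nat_lit 0) (nat_lit 0) (XT.lf (nat_lit 0) (nat_lit 647868039608) (nat_lit 76) (nat_lit 499817003445) (nat_lit 76) (nat_lit 497312953522) (nat_lit 1) (nat_lit 4) (nat_lit 2) (nat_lit 5) (nat_lit 2) (nat_lit 4) (nat_lit 355) (nat_lit 238) (nat_lit 187)) (XT.lf (nat_lit 0) (nat_lit 703038992601)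 (nat_lit 76) (nat_lit 537964615882) (nat_lit 76) (nat_lit 535456830385) (nat_lit 1) (nat_lit 4) (nat_lit 2) (nat_lit 5) (nat_lit 2) (nat_lit 4) (nat_lit 356) (nat_lit 238) (nat_lit 186))))))) (XT.nd (nat_lit 36348) (nat_lit 0) (nat_lit 76) (XT.nd (nat_lit 624) (nat_lit 0) (nat_lit 0) (XT.nd (nat_lit 312) (nat_lit 0) (nat_lit 0) (XT.nd (nat_lit 156) (nat_lit 0) (nat_lit 0) (XT.nd (nat_lit 78) (nat_lit 0) (nat_lit 0) (XT.lf (nat_lit 0) (nat_lit 762614555520) (nat_lit 76) (nat_lit 579168469088) (nat_lit 76) (nat_lit 576657224728) (nat_lit 1) (nat_lit 4) (nat_lit 2) (nat_lit 5) (nat_lit 2) (nat_lit 4) (nat_lit 357) (nat_lit 238) (nat_lit 185)) (XT.lf (nat_lit 0) (nat_lit 826947768738) (nat_lit 76) (nat_lit 623672734047) (nat_lit 76) (nat_lit 621158287034) (nat_lit 1) (nat_lit 4) (nat_lit 2) (nat_lit 5) (nat_lit 2) (nat_lit 4) (nat_lit 358) (nat_lit 238) (nat_lit 184))) (XT.nd (nat_lit 78)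 (nat_lit 0) (nat_lit 0) (XT.lf (nat_lit 0) (nat_lit 896419866111) (nat_lit 76) (nat_lit 671741139735) (nat_lit 76) (nat_lit 669223727304) (nat_lit 1) (nat_lit 4) (nat_lit 2) (nat_lit 5) (nat_lit 2) (nat_lit 4) (nat_lit 359) (nat_lit 238) (nat_lit 183)) (XT.lf (nat_lit 0) (nat_lit 971442534143) (nat_lit 76) (nat_lit 723658535964) (nat_lit 76) (nat_lit 721138377775) (nat_lit 1) (nat_lit 4) (nat_lit 2) (nat_lit 5) (nat_lit 2) (nat_lit 4) (nat_lit 360) (nat_lit 238) (nat_lit 182)))) (XT.nd (nat_lit 156) (nat_lit 0) (nat_lit 0) (XT.nd (nat_lit 78) (nat_lit 0) (nat_lit 0) (XT.lf (nat_lit 0) (nat_lit 1052460351606) (nat_lit 76) (nat_lit 779732581378) (nat_lit 76) (nat_lit 777209880821) (nat_lit 1) (nat_lit 4) (nat_lit 2) (nat_lit 5) (nat_lit 2) (nat_lit 4) (nat_lit 361) (nat_lit 238) (nat_lit 181)) (XT.lf (nat_lit 0) (nat_lit 1139953424086) (nat_lit 76) (nat_lit 840295566617) (nat_lit 76) (nat_lit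 837770512016) (nat_lit 1) (nat_lit 4) (nat_lit 2) (nat_lit 5) (nat_lit 2) (nat_lit 4) (nat_lit 362) (nat_lit 238) (nat_lit 180))) (XT.nd (nat_lit 78) (nat_lit 0) (nat_lit 0) (XT.lf (nat_lit 0) (nat_lit 1234440229049) (nat_lit 76) (nat_lit 905706383446) (nat_lit 76) (nat_lit 903179149173) (nat_lit 1) (nat_lit 4) (nat_lit 2) (nat_lit 5) (nat_lit 2) (nat_lit 4) (nat_lit 363) (nat_lit 238) (nat_lit 179)) (XT.lf (nat_lit 0) (nat_lit 1336480688302) (nat_lit 76) (nat_lit 976352651519) (nat_lit 76) (nat_lit 973823399032) (nat_lit 1) (nat_lit 4) (nat_lit 2) (nat_lit 5) (nat_lit 2) (nat_lit 4) (nat_lit 364) (nat_lit 238) (nat_lit 178))))) (XT.nd (nat_lit 312) (nat_lit 0) (nat_lit 0) (XT.nd (nat_lit 156) (nat_lit 0) (nat_lit 0) (XT.nd (nat_lit 78) (nat_lit 0) (nat_lit 0) (XT.lf (nat_lit 0) (nat_lit 1446679486048) (nat_lit 76) (nat_lit 1052653015388) (nat_lit 76) (nat_lit 1050121894185) (nat_lit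 1) (nat_lit 4) (nat_lit 2) (nat_lit 5) (nat_lit 2) (nat_lit 4) (nat_lit 365) (nat_lit 238) (nat_lit 177)) (XT.lf (nat_lit 0) (nat_lit 1565689652201) (nat_lit 76) (nat_lit 1135059625357) (nat_lit 76) (nat_lit 1132526773861) (nat_lit 1) (nat_lit 4) (nat_lit 2) (nat_lit 5) (nat_lit 2) (nat_lit 4) (nat_lit 366) (nat_lit 238) (nat_lit 176))) (XT.nd (nat_lit 78) (nat_lit 0) (nat_lit 0) (XT.lf (nat_lit 0) (nat_lit 1694216432188) (nat_lit 76) (nat_lit 1224060816894) (nat_lit 76) (nat_lit 1221526363274) (nat_lit 1) (nat_lit 4) (nat_lit 2) (nat_lit 5) (nat_lit 2) (nat_lit 4) (nat_lit 367) (nat_lit 238) (nat_lit 175)) (XT.lf (nat_lit 0) (nat_lit 1833021466188) (nat_lit 76) (nat_lit 1320184004465) (nat_lit 76) (nat_lit 1317648067399) (nat_lit 1) (nat_lit 4) (nat_lit 2) (nat_lit 5) (nat_lit 2) (nat_lit 4) (nat_lit 368) (nat_lit 238) (nat_lit 174)))) (XT.nd (nat_lit 156) (nat_lit 0) (nat_lit 0) (XT.nd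 (nat_lit 78) (nat_lit 0) (nat_lit 0) (XT.lf (nat_lit 0) (nat_lit 1982927302551) (nat_lit 76) (nat_lit 1423998806962) (nat_lit 76) (nat_lit 1421461496332) (nat_lit 1) (nat_lit 4) (nat_lit 2) (nat_lit 5) (nat_lit 2) (nat_lit 4) (nat_lit 369) (nat_lit 238) (nat_lit 173)) (XT.lf (nat_lit 0) (nat_lit 2144822272158) (nat_lit 76) (nat_lit 1536120423212) (nat_lit 76) (nat_lit 1533581840766) (nat_lit 1) (nat_lit 4) (nat_lit 2) (nat_lit 5) (nat_lit 2) (nat_lit 4) (nat_lit 370) (nat_lit 238) (nat_lit 172))) (XT.nd (nat_lit 78) (nat_lit 0) (nat_lit 0) (XT.lf (nat_lit 0) (nat_lit 2319665752607) (nat_lit 76) (nat_lit 1657213277610) (nat_lit 76) (nat_lit 1654673517555) (nat_lit 1) (nat_lit 4) (nat_lit 2) (nat_lit 5) (nat_lit 2) (nat_lit 4) (nat_lit 371) (nat_lit 238) (nat_lit 171)) (XT.lf (nat_lit 0) (nat_lit 2508493853411) (nat_lit 76) (nat_lit 1787994957439) (nat_lit 76) (nat_lit 1785454107006) (nat_lit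 1) (nat_lit 4) (nat_lit 2) (nat_lit 5) (nat_lit 2) (nat_lit 4) (nat_lit 372) (nat_lit 238) (nat_lit 170)))))) (XT.nd (nat_lit 624) (nat_lit 0) (nat_lit 0) (XT.nd (nat_lit 312) (nat_lit 152) (nat_lit 0) (XT.nd (nat_lit 156) (nat_lit 76) (nat_lit 0) (XT.nd (nat_lit 78) (nat_lit 0) (nat_lit 0) (XT.lf (nat_lit 0) (nat_lit 5833454126) (nat_lit 152) (nat_lit 3868198609) (nat_lit 0) (nat_lit 5833454126) (nat_lit 5) (nat_lit 5) (nat_lit 7) (nat_lit 4) (nat_lit 5) (nat_lit 4) (nat_lit 302) (nat_lit 239) (nat_lit 239)) (XT.lf (nat_lit 0) (nat_lit 16654735041) (nat_lit 152) (nat_lit 121182189) (nat_lit 0) (nat_lit 16434027955) (nat_lit 5) (nat_lit 5) (nat_lit 7) (nat_lit 4) (nat_lit 5) (nat_lit 4) (nat_lit 303) (nat_lit 239) (nat_lit 238))) (XT.nd (nat_lit 78) (nat_lit 0) (nat_lit 0) (XT.lf (nat_lit 0) (nat_lit 8107335381) (nat_lit 76) (nat_lit 13919925654) (nat_lit 76) (nat_lit 13494860156) (nat_lit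 4) (nat_lit 4) (nat_lit 5) (nat_lit 5) (nat_lit 5) (nat_lit 4) (nat_lit 304) (nat_lit 239) (nat_lit 237)) (XT.lf (nat_lit 0) (nat_lit 16609713644) (nat_lit 76) (nat_lit 11019973519) (nat_lit 76) (nat_lit 10405687268) (nat_lit 4) (nat_lit 4) (nat_lit 5) (nat_lit 5) (nat_lit 5) (nat_lit 4) (nat_lit 305) (nat_lit 239) (nat_lit 236)))) (XT.nd (nat_lit 156) (nat_lit 152) (nat_lit 0) (XT.nd (nat_lit 78) (nat_lit 0) (nat_lit 0) (XT.lf (nat_lit 0) (nat_lit 25429955822) (nat_lit 76) (nat_lit 8062189258) (nat_lit 76) (nat_lit 7272698607) (nat_lit 4) (nat_lit 4) (nat_lit 5) (nat_lit 5) (nat_lit 5) (nat_lit 4) (nat_lit 306) (nat_lit 239) (nat_lit 235)) (XT.lf (nat_lit 0) (nat_lit 34620330018) (nat_lit 76) (nat_lit 5029045263) (nat_lit 76) (nat_lit 4077328314) (nat_lit 4) (nat_lit 4) (nat_lit 5) (nat_lit 5) (nat_lit 5) (nat_lit 4) (nat_lit 307) (nat_lit 239) (nat_lit 234))) (XT.nd (nat_lit 78) (nat_lit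 152) (nat_lit 0) (XT.lf (nat_lit 0) (nat_lit 44235297708) (nat_lit 76) (nat_lit 1902567345) (nat_lit 76) (nat_lit 800640862) (nat_lit 4) (nat_lit 4) (nat_lit 5) (nat_lit 5) (nat_lit 5) (nat_lit 4) (nat_lit 308) (nat_lit 239) (nat_lit 233)) (XT.lf (nat_lit 0) (nat_lit 2581630221) (nat_lit 152) (nat_lit 46389448132) (nat_lit 0) (nat_lit 1432547457) (nat_lit 2) (nat_lit 5) (nat_lit 4) (nat_lit 4) (nat_lit 2) (nat_lit 4) (nat_lit 309) (nat_lit 239) (nat_lit 232))))) (XT.nd (nat_lit 312) (nat_lit 0) (nat_lit 0) (XT.nd (nat_lit 156) (nat_lit 0) (nat_lit 0) (XT.nd (nat_lit 78) (nat_lit 0) (nat_lit 0) (XT.lf (nat_lit 0) (nat_lit 6164220621) (nat_lit 152) (nat_lit 43086404825) (nat_lit 0) (nat_lit 4895896687) (nat_lit 2) (nat_lit 5) (nat_lit 4) (nat_lit 4) (nat_lit 2) (nat_lit 4) (nat_lit 310) (nat_lit 239) (nat_lit 231)) (XT.lf (nat_lit 0) (nat_lit 9892441811) (nat_lit 152) (nat_lit 39794041846)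 (nat_lit 0) (nat_lit 8513709385) (nat_lit 2) (nat_lit 5) (nat_lit 4) (nat_lit 4) (nat_lit 2) (nat_lit 4) (nat_lit 311) (nat_lit 239) (nat_lit 230))) (XT.nd (nat_lit 78) (nat_lit 0) (nat_lit 0) (XT.lf (nat_lit 0) (nat_lit 13788386954) (nat_lit 152) (nat_lit 36492848895) (nat_lit 0) (nat_lit 12307424443) (nat_lit 2) (nat_lit 5) (nat_lit 4) (nat_lit 4) (nat_lit 2) (nat_lit 4) (nat_lit 312) (nat_lit 239) (nat_lit 229)) (XT.lf (nat_lit 0) (nat_lit 17875143131) (nat_lit 152) (nat_lit 33163263348) (nat_lit 0) (nat_lit 16299523134) (nat_lit 2) (nat_lit 5) (nat_lit 4) (nat_lit 4) (nat_lit 2) (nat_lit 4) (nat_lit 313) (nat_lit 239) (nat_lit 228)))) (XT.nd (nat_lit 156) (nat_lit 0) (nat_lit 0) (XT.nd (nat_lit 78) (nat_lit 0) (nat_lit 0) (XT.lf (nat_lit 0) (nat_lit 22176928158) (nat_lit 152) (nat_lit 29785554327) (nat_lit 0) (nat_lit 20513662340) (nat_lit 2) (nat_lit 5) (nat_lit 4) (nat_lit 4) (nat_lit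 2) (nat_lit 4) (nat_lit 314) (nat_lit 239) (nat_lit 227)) (XT.lf (nat_lit 0) (nat_lit 26719234092) (nat_lit 152) (nat_lit 26339705779) (nat_lit 0) (nat_lit 24974814737) (nat_lit 2) (nat_lit 5) (nat_lit 4) (nat_lit 4) (nat_lit 2) (nat_lit 4) (nat_lit 315) (nat_lit 239) (nat_lit 226))) (XT.nd (nat_lit 78) (nat_lit 0) (nat_lit 0) (XT.lf (nat_lit 0) (nat_lit 31528978304) (nat_lit 152) (nat_lit 22805297861) (nat_lit 0) (nat_lit 29709416785) (nat_lit 2) (nat_lit 5) (nat_lit 4) (nat_lit 4) (nat_lit 2) (nat_lit 4) (nat_lit 316) (nat_lit 239) (nat_lit 225)) (XT.lf (nat_lit 0) (nat_lit 36634662981) (nat_lit 152) (nat_lit 19161385933) (nat_lit 0) (nat_lit 34745525384) (nat_lit 2) (nat_lit 5) (nat_lit 4) (nat_lit 4) (nat_lit 2) (nat_lit 4) (nat_lit 317) (nat_lit 239) (nat_lit 224))))))))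
noncomputable def xc20 : XT := (XT.nd (nat_lit 2418) (nat_lit 0) (nat_lit 0) (XT.nd (nat_lit 1170) (nat_lit 0) (nat_lit 0) (XT.nd (nat_lit 546) (nat_lit 0) (nat_lit 0) (XT.nd (nat_lit 234) (nat_lit 76) (nat_lit 0) (XT.nd (nat_lit 78) (nat_lit 0) (nat_lit 0) (XT.lf (nat_lit 0) (nat_lit 42066544032) (nat_lit 152) (nat_lit 15386376442) (nat_lit 0) (nat_lit 40112984140) (nat_lit 2) (nat_lit 5) (nat_lit 4) (nat_lit 4) (nat_lit 2) (nat_lit 4) (nat_lit 318) (nat_lit 239) (nat_lit 223)) (XT.nd (nat_lit 78) (nat_lit 0) (nat_lit 0) (XT.lf (nat_lit 0) (nat_lit 47856810382) (nat_lit 152) (nat_lit 11457898964) (nat_lit 0) (nat_lit 45843600217) (nat_lit 2) (nat_lit 5) (nat_lit 4) (nat_lit 4) (nat_lit 2) (nat_lit 4) (nat_lit 319) (nat_lit 239) (nat_lit 222)) (XT.lf (nat_lit 0) (nat_lit 54039774720) (nat_lit 152) (nat_lit 7352673630) (nat_lit 0) (nat_lit 51971332822) (nat_lit 2) (nat_lit 5) (nat_lit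 4) (nat_lit 4) (nat_lit 2) (nat_lit 4) (nat_lit 320) (nat_lit 239) (nat_lit 221)))) (XT.nd (nat_lit 156) (nat_lit 0) (nat_lit 0) (XT.nd (nat_lit 78) (nat_lit 76) (nat_lit 0) (XT.lf (nat_lit 0) (nat_lit 60652076836) (nat_lit 152) (nat_lit 3046373179) (nat_lit 0) (nat_lit 58532494443) (nat_lit 2) (nat_lit 5) (nat_lit 4) (nat_lit 4) (nat_lit 2) (nat_lit 4) (nat_lit 321) (nat_lit 239) (nat_lit 220)) (XT.lf (nat_lit 0) (nat_lit 1564798776) (nat_lit 76) (nat_lit 66205735412) (nat_lit 76) (nat_lit 64038800710) (nat_lit 1) (nat_lit 4) (nat_lit 2) (nat_lit 5) (nat_lit 2) (nat_lit 4) (nat_lit 322) (nat_lit 239) (nat_lit 219))) (XT.nd (nat_lit 78) (nat_lit 0) (nat_lit 0) (XT.lf (nat_lit 0) (nat_lit 6603189395) (nat_lit 76) (nat_lit 68879824341) (nat_lit 76) (nat_lit 66669044908) (nat_lit 1) (nat_lit 4) (nat_lit 2) (nat_lit 5) (nat_lit 2) (nat_lit 4) (nat_lit 323) (nat_lit 239) (nat_lit 218)) (XT.lf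 (nat_lit 0) (nat_lit 11938239193) (nat_lit 76) (nat_lit 71819856497) (nat_lit 76) (nat_lit 69568480090) (nat_lit 1) (nat_lit 4) (nat_lit 2) (nat_lit 5) (nat_lit 2) (nat_lit 4) (nat_lit 324) (nat_lit 239) (nat_lit 217))))) (XT.nd (nat_lit 312) (nat_lit 0) (nat_lit 0) (XT.nd (nat_lit 156) (nat_lit 0) (nat_lit 0) (XT.nd (nat_lit 78) (nat_lit 0) (nat_lit 0) (XT.lf (nat_lit 0) (nat_lit 17601563279) (nat_lit 76) (nat_lit 75043254293) (nat_lit 76) (nat_lit 72754288096) (nat_lit 1) (nat_lit 4) (nat_lit 2) (nat_lit 5) (nat_lit 2) (nat_lit 4) (nat_lit 325) (nat_lit 239) (nat_lit 216)) (XT.lf (nat_lit 0) (nat_lit 23626722094) (nat_lit 76) (nat_lit 78569119344) (nat_lit 76) (nat_lit 76245347786) (nat_lit 1) (nat_lit 4) (nat_lit 2) (nat_lit 5) (nat_lit 2) (nat_lit 4) (nat_lit 326) (nat_lit 239) (nat_lit 215))) (XT.nd (nat_lit 78) (nat_lit 0) (nat_lit 0) (XT.lf (nat_lit 0) (nat_lit 30049420281) (nat_lit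 76) (nat_lit 82418345668) (nat_lit 76) (nat_lit 80062346923) (nat_lit 1) (nat_lit 4) (nat_lit 2) (nat_lit 5) (nat_lit 2) (nat_lit 4) (nat_lit 327) (nat_lit 239) (nat_lit 214)) (XT.lf (nat_lit 0) (nat_lit 36907718274) (nat_lit 76) (nat_lit 86613743492) (nat_lit 76) (nat_lit 84227904760) (nat_lit 1) (nat_lit 4) (nat_lit 2) (nat_lit 5) (nat_lit 2) (nat_lit 4) (nat_lit 328) (nat_lit 239) (nat_lit 213)))) (XT.nd (nat_lit 156) (nat_lit 0) (nat_lit 0) (XT.nd (nat_lit 78) (nat_lit 0) (nat_lit 0) (XT.lf (nat_lit 0) (nat_lit 44242257840) (nat_lit 76) (nat_lit 91180174435) (nat_lit 76) (nat_lit 88766706085) (nat_lit 1) (nat_lit 4) (nat_lit 2) (nat_lit 5) (nat_lit 2) (nat_lit 4) (nat_lit 329) (nat_lit 239) (nat_lit 212)) (XT.lf (nat_lit 0) (nat_lit 52096502916) (nat_lit 76) (nat_lit 96144698827) (nat_lit 76) (nat_lit 93705647498) (nat_lit 1) (nat_lit 4) (nat_lit 2) (nat_lit 5) (nat_lit 2) (nat_lit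 4) (nat_lit 330) (nat_lit 239) (nat_lit 211))) (XT.nd (nat_lit 78) (nat_lit 0) (nat_lit 0) (XT.lf (nat_lit 0) (nat_lit 60516997177) (nat_lit 76) (nat_lit 101536736072) (nat_lit 76) (nat_lit 99073996799) (nat_lit 1) (nat_lit 4) (nat_lit 2) (nat_lit 5) (nat_lit 2) (nat_lit 4) (nat_lit 331) (nat_lit 239) (nat_lit 210)) (XT.lf (nat_lit 0) (nat_lit 69553639848) (nat_lit 76) (nat_lit 107388238985) (nat_lit 76) (nat_lit 104903566430) (nat_lit 1) (nat_lit 4) (nat_lit 2) (nat_lit 5) (nat_lit 2) (nat_lit 4) (nat_lit 332) (nat_lit 239) (nat_lit 209)))))) (XT.nd (nat_lit 624) (nat_lit 0) (nat_lit 0) (XT.nd (nat_lit 312) (nat_lit 0) (nat_lit 0) (XT.nd (nat_lit 156) (nat_lit 0) (nat_lit 0) (XT.nd (nat_lit 78) (nat_lit 0) (nat_lit 0) (XT.lf (nat_lit 0) (nat_lit 79259981405) (nat_lit 76) (nat_lit 113733883136) (nat_lit 76) (nat_lit 111228901988) (nat_lit 1) (nat_lit 4) (nat_lit 2) (nat_lit 5) (nat_lit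 2) (nat_lit 4) (nat_lit 333) (nat_lit 239) (nat_lit 208)) (XT.lf (nat_lit 0) (nat_lit 89693540908) (nat_lit 76) (nat_lit 120611272345) (nat_lit 76) (nat_lit 118087486943) (nat_lit 1) (nat_lit 4) (nat_lit 2) (nat_lit 5) (nat_lit 2) (nat_lit 4) (nat_lit 334) (nat_lit 239) (nat_lit 207))) (XT.nd (nat_lit 78) (nat_lit 0) (nat_lit 0) (XT.lf (nat_lit 0) (nat_lit 100916146858) (nat_lit 76) (nat_lit 128061161509) (nat_lit 76) (nat_lit 125519964761) (nat_lit 1) (nat_lit 4) (nat_lit 2) (nat_lit 5) (nat_lit 2) (nat_lit 4) (nat_lit 335) (nat_lit 239) (nat_lit 206)) (XT.lf (nat_lit 0) (nat_lit 112994303586) (nat_lit 76) (nat_lit 136127698121) (nat_lit 76) (nat_lit 133570379756) (nat_lit 1) (nat_lit 4) (nat_lit 2) (nat_lit 5) (nat_lit 2) (nat_lit 4) (nat_lit 336) (nat_lit 239) (nat_lit 205)))) (XT.nd (nat_lit 156) (nat_lit 0) (nat_lit 0) (XT.nd (nat_lit 78) (nat_lit 0) (nat_lit 0) (XT.lf (nat_lit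 0) (nat_lit 125999585356) (nat_lit 76) (nat_lit 144858683878) (nat_lit 76) (nat_lit 142286438090) (nat_lit 1) (nat_lit 4) (nat_lit 2) (nat_lit 5) (nat_lit 2) (nat_lit 4) (nat_lit 337) (nat_lit 239) (nat_lit 204)) (XT.lf (nat_lit 0) (nat_lit 140009060503) (nat_lit 76) (nat_lit 154305857955) (nat_lit 76) (nat_lit 151719790480) (nat_lit 1) (nat_lit 4) (nat_lit 2) (nat_lit 5) (nat_lit 2) (nat_lit 4) (nat_lit 338) (nat_lit 239) (nat_lit 203))) (XT.nd (nat_lit 78) (nat_lit 0) (nat_lit 0) (XT.lf (nat_lit 0) (nat_lit 155105748138) (nat_lit 76) (nat_lit 164525203607) (nat_lit 76) (nat_lit 161926338272) (nat_lit 1) (nat_lit 4) (nat_lit 2) (nat_lit 5) (nat_lit 2) (nat_lit 4) (nat_lit 339) (nat_lit 239) (nat_lit 202)) (XT.lf (nat_lit 0) (nat_lit 171379110116) (nat_lit 76) (nat_lit 175577279918) (nat_lit 76) (nat_lit 172966564714) (nat_lit 1) (nat_lit 4) (nat_lit 2) (nat_lit 5) (nat_lit 2) (nat_lit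 4) (nat_lit 340) (nat_lit 239) (nat_lit 201))))) (XT.nd (nat_lit 312) (nat_lit 0) (nat_lit 0) (XT.nd (nat_lit 156) (nat_lit 0) (nat_lit 0) (XT.nd (nat_lit 78) (nat_lit 0) (nat_lit 0) (XT.lf (nat_lit 0) (nat_lit 188925581173) (nat_lit 76) (nat_lit 187527580674) (nat_lit 76) (nat_lit 184905893369) (nat_lit 1) (nat_lit 4) (nat_lit 2) (nat_lit 5) (nat_lit 2) (nat_lit 4) (nat_lit 341) (nat_lit 239) (nat_lit 200)) (XT.lf (nat_lit 0) (nat_lit 207849140398) (nat_lit 76) (nat_lit 200446922472) (nat_lit 76) (nat_lit 197815075814) (nat_lit 1) (nat_lit 4) (nat_lit 2) (nat_lit 5) (nat_lit 2) (nat_lit 4) (nat_lit 342) (nat_lit 239) (nat_lit 199))) (XT.nd (nat_lit 78) (nat_lit 0) (nat_lit 0) (XT.lf (nat_lit 0) (nat_lit 228261927399) (nat_lit 76) (nat_lit 214411864375) (nat_lit 76) (nat_lit 211770610908) (nat_lit 1) (nat_lit 4) (nat_lit 2) (nat_lit 5) (nat_lit 2) (nat_lit 4) (nat_lit 343) (nat_lit 239)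 (nat_lit 198)) (XT.lf (nat_lit 0) (nat_lit 250284906842) (nat_lit 76) (nat_lit 229505161594) (nat_lit 76) (nat_lit 226855198119) (nat_lit 1) (nat_lit 4) (nat_lit 2) (nat_lit 5) (nat_lit 2) (nat_lit 4) (nat_lit 344) (nat_lit 239) (nat_lit 197)))) (XT.nd (nat_lit 156) (nat_lit 0) (nat_lit 0) (XT.nd (nat_lit 78) (nat_lit 0) (nat_lit 0) (XT.lf (nat_lit 0) (nat_lit 274048585271) (nat_lit 76) (nat_lit 245816255890) (nat_lit 76) (nat_lit 243158227594) (nat_lit 1) (nat_lit 4) (nat_lit 2) (nat_lit 5) (nat_lit 2) (nat_lit 4) (nat_lit 345) (nat_lit 239) (nat_lit 196)) (XT.lf (nat_lit 0) (nat_lit 299693784484) (nat_lit 76) (nat_lit 263441805600) (nat_lit 76) (nat_lit 260776309876) (nat_lit 1) (nat_lit 4) (nat_lit 2) (nat_lit 5) (nat_lit 2) (nat_lit 4) (nat_lit 346) (nat_lit 239) (nat_lit 195))) (XT.nd (nat_lit 78) (nat_lit 0) (nat_lit 0) (XT.lf (nat_lit 0) (nat_lit 327372476032) (nat_lit 76) (nat_lit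 282486258426) (nat_lit 76) (nat_lit 279813848416) (nat_lit 1) (nat_lit 4) (nat_lit 2) (nat_lit 5) (nat_lit 2) (nat_lit 4) (nat_lit 347) (nat_lit 239) (nat_lit 194)) (XT.lf (nat_lit 0) (nat_lit 357248681791) (nat_lit 76) (nat_lit 303062470384) (nat_lit 76) (nat_lit 300383658259) (nat_lit 1) (nat_lit 4) (nat_lit 2) (nat_lit 5) (nat_lit 2) (nat_lit 4) (nat_lit 348) (nat_lit 239) (nat_lit 193))))))) (XT.nd (nat_lit 1248) (nat_lit 0) (nat_lit 0) (XT.nd (nat_lit 624) (nat_lit 0) (nat_lit 0) (XT.nd (nat_lit 312) (nat_lit 0) (nat_lit 0) (XT.nd (nat_lit 156) (nat_lit 0) (nat_lit 0) (XT.nd (nat_lit 78) (nat_lit 0) (nat_lit 0) (XT.lf (nat_lit 0) (nat_lit 389499445943) (nat_lit 76) (nat_lit 325292374583) (nat_lit 76) (nat_lit 322607634572) (nat_lit 1) (nat_lit 4) (nat_lit 2) (nat_lit 5) (nat_lit 2) (nat_lit 4) (nat_lit 349) (nat_lit 239) (nat_lit 192)) (XT.lf (nat_lit 0) (nat_lit 424315884128) (nat_lit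 76) (nat_lit 349307703788) (nat_lit 76) (nat_lit 346617474995) (nat_lit 1) (nat_lit 4) (nat_lit 2) (nat_lit 5) (nat_lit 2) (nat_lit 4) (nat_lit 350) (nat_lit 239) (nat_lit 191))) (XT.nd (nat_lit 78) (nat_lit 0) (nat_lit 0) (XT.lf (nat_lit 0) (nat_lit 461904315978) (nat_lit 76) (nat_lit 375250771060) (nat_lit 76) (nat_lit 372555460062) (nat_lit 1) (nat_lit 4) (nat_lit 2) (nat_lit 5) (nat_lit 2) (nat_lit 4) (nat_lit 351) (nat_lit 239) (nat_lit 190)) (XT.lf (nat_lit 0) (nat_lit 502487487758) (nat_lit 76) (nat_lit 403275313096) (nat_lit 76) (nat_lit 400575296351) (nat_lit 1) (nat_lit 4) (nat_lit 2) (nat_lit 5) (nat_lit 2) (nat_lit 4) (nat_lit 352) (nat_lit 239) (nat_lit 189)))) (XT.nd (nat_lit 156) (nat_lit 0) (nat_lit 0) (XT.nd (nat_lit 78) (nat_lit 0) (nat_lit 0) (XT.lf (nat_lit 0) (nat_lit 546305892336) (nat_lit 76) (nat_lit 433547401255) (nat_lit 76) (nat_lit 430843027338) (nat_lit 1)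 (nat_lit 4) (nat_lit 2) (nat_lit 5) (nat_lit 2) (nat_lit 4) (nat_lit 353) (nat_lit 239) (nat_lit 188)) (XT.lf (nat_lit 0) (nat_lit 593619194333) (nat_lit 76) (nat_lit 466246425689) (nat_lit 76) (nat_lit 463538017353) (nat_lit 1) (nat_lit 4) (nat_lit 2) (nat_lit 5) (nat_lit 2) (nat_lit 4) (nat_lit 354) (nat_lit 239) (nat_lit 187))) (XT.nd (nat_lit 78) (nat_lit 0) (nat_lit 0) (XT.lf (nat_lit 0) (nat_lit 644707768872) (nat_lit 76) (nat_lit 501566158395) (nat_lit 76) (nat_lit 498854014486) (nat_lit 1) (nat_lit 4) (nat_lit 2) (nat_lit 5) (nat_lit 2) (nat_lit 4) (nat_lit 355) (nat_lit 239) (nat_lit 186)) (XT.lf (nat_lit 0) (nat_lit 699874363060) (nat_lit 76) (nat_lit 539715901493) (nat_lit 76) (nat_lit 537000298719) (nat_lit 1) (nat_lit 4) (nat_lit 2) (nat_lit 5) (nat_lit 2) (nat_lit 4) (nat_lit 356) (nat_lit 239) (nat_lit 185))))) (XT.nd (nat_lit 312) (nat_lit 0) (nat_lit 0) (XT.nd (nat_lit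 156) (nat_lit 0) (nat_lit 0) (XT.nd (nat_lit 78) (nat_lit 0) (nat_lit 0) (XT.lf (nat_lit 0) (nat_lit 759445890049) (nat_lit 76) (nat_lit 580921727533) (nat_lit 76) (nat_lit 578202922108) (nat_lit 1) (nat_lit 4) (nat_lit 2) (nat_lit 5) (nat_lit 2) (nat_lit 4) (nat_lit 357) (nat_lit 239) (nat_lit 184)) (XT.lf (nat_lit 0) (nat_lit 823775366295) (nat_lit 76) (nat_lit 625427819190) (nat_lit 76) (nat_lit 622706048347) (nat_lit 1) (nat_lit 4) (nat_lit 2) (nat_lit 5) (nat_lit 2) (nat_lit 4) (nat_lit 358) (nat_lit 239) (nat_lit 183))) (XT.nd (nat_lit 78) (nat_lit 0) (nat_lit 0) (XT.lf (nat_lit 0) (nat_lit 893244003509) (nat_lit 76) (nat_lit 673497916266) (nat_lit 76) (nat_lit 670773399665) (nat_lit 1) (nat_lit 4) (nat_lit 2) (nat_lit 5) (nat_lit 2) (nat_lit 4) (nat_lit 359) (nat_lit 239) (nat_lit 182)) (XT.lf (nat_lit 0) (nat_lit 968263467689) (nat_lit 76) (nat_lit 725416878595) (nat_lit 76)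 (nat_lit 722689819625) (nat_lit 1) (nat_lit 4) (nat_lit 2) (nat_lit 5) (nat_lit 2) (nat_lit 4) (nat_lit 360) (nat_lit 239) (nat_lit 181)))) (XT.nd (nat_lit 156) (nat_lit 0) (nat_lit 0) (XT.nd (nat_lit 78) (nat_lit 0) (nat_lit 0) (XT.lf (nat_lit 0) (nat_lit 1049278318623) (nat_lit 76) (nat_lit 781492374101) (nat_lit 76) (nat_lit 778762961087) (nat_lit 1) (nat_lit 4) (nat_lit 2) (nat_lit 5) (nat_lit 2) (nat_lit 4) (nat_lit 361) (nat_lit 239) (nat_lit 180)) (XT.lf (nat_lit 0) (nat_lit 1136768644317) (nat_lit 76) (nat_lit 842056702018) (nat_lit 76) (nat_lit 839325109333) (nat_lit 1) (nat_lit 4) (nat_lit 2) (nat_lit 5) (nat_lit 2) (nat_lit 4) (nat_lit 362) (nat_lit 239) (nat_lit 179))) (XT.nd (nat_lit 78) (nat_lit 0) (nat_lit 0) (XT.lf (nat_lit 0) (nat_lit 1231252905959) (nat_lit 76) (nat_lit 907468762067) (nat_lit 76) (nat_lit 904735151168) (nat_lit 1) (nat_lit 4) (nat_lit 2) (nat_lit 5)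 (nat_lit 2) (nat_lit 4) (nat_lit 363) (nat_lit 239) (nat_lit 178)) (XT.lf (nat_lit 0) (nat_lit 1333291010286) (nat_lit 76) (nat_lit 978116181270) (nat_lit 76) (nat_lit 975380701654) (nat_lit 1) (nat_lit 4) (nat_lit 2) (nat_lit 5) (nat_lit 2) (nat_lit 4) (nat_lit 364) (nat_lit 239) (nat_lit 177)))))) (XT.nd (nat_lit 35568) (nat_lit 0) (nat_lit 228) (XT.nd (nat_lit 312) (nat_lit 0) (nat_lit 0) (XT.nd (nat_lit 156) (nat_lit 0) (nat_lit 0) (XT.nd (nat_lit 78) (nat_lit 0) (nat_lit 0) (XT.lf (nat_lit 0) (nat_lit 1443487627545) (nat_lit 76) (nat_lit 1054417611000) (nat_lit 76) (nat_lit 1051680401091) (nat_lit 1) (nat_lit 4) (nat_lit 2) (nat_lit 5) (nat_lit 2) (nat_lit 4) (nat_lit 365) (nat_lit 239) (nat_lit 176)) (XT.lf (nat_lit 0) (nat_lit 1562495774728) (nat_lit 76) (nat_lit 1136825207878) (nat_lit 76) (nat_lit 1134086395846) (nat_lit 1) (nat_lit 4) (nat_lit 2) (nat_lit 5) (nat_lit 2) (nat_lit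 4) (nat_lit 366) (nat_lit 239) (nat_lit 175))) (XT.nd (nat_lit 78) (nat_lit 0) (nat_lit 0) (XT.lf (nat_lit 0) (nat_lit 1691020685299) (nat_lit 76) (nat_lit 1225827313218) (nat_lit 76) (nat_lit 1223087017739) (nat_lit 1) (nat_lit 4) (nat_lit 2) (nat_lit 5) (nat_lit 2) (nat_lit 4) (nat_lit 367) (nat_lit 239) (nat_lit 174)) (XT.lf (nat_lit 0) (nat_lit 1829823988358) (nat_lit 76) (nat_lit 1321951346905) (nat_lit 76) (nat_lit 1319209677863) (nat_lit 1) (nat_lit 4) (nat_lit 2) (nat_lit 5) (nat_lit 2) (nat_lit 4) (nat_lit 368) (nat_lit 239) (nat_lit 173)))) (XT.nd (nat_lit 156) (nat_lit 0) (nat_lit 0) (XT.nd (nat_lit 78) (nat_lit 0) (nat_lit 0) (XT.lf (nat_lit 0) (nat_lit 1979728221997) (nat_lit 76) (nat_lit 1425766932841) (nat_lit 76) (nat_lit 1423023991982) (nat_lit 1) (nat_lit 4) (nat_lit 2) (nat_lit 5) (nat_lit 2) (nat_lit 4) (nat_lit 369) (nat_lit 239) (nat_lit 172)) (XT.lf (nat_lit 0)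 (nat_lit 2141621707600) (nat_lit 76) (nat_lit 1537889274498) (nat_lit 76) (nat_lit 1535145156031) (nat_lit 1) (nat_lit 4) (nat_lit 2) (nat_lit 5) (nat_lit 2) (nat_lit 4) (nat_lit 370) (nat_lit 239) (nat_lit 171))) (XT.nd (nat_lit 78) (nat_lit 0) (nat_lit 0) (XT.lf (nat_lit 0) (nat_lit 2316463813972) (nat_lit 76) (nat_lit 1658982800569) (nat_lit 76) (nat_lit 1656237591723) (nat_lit 1) (nat_lit 4) (nat_lit 2) (nat_lit 5) (nat_lit 2) (nat_lit 4) (nat_lit 371) (nat_lit 239) (nat_lit 170)) (XT.lf (nat_lit 0) (nat_lit 2505290642484) (nat_lit 76) (nat_lit 1789765102318) (nat_lit 76) (nat_lit 1787018883863) (nat_lit 1) (nat_lit 4) (nat_lit 2) (nat_lit 5) (nat_lit 2) (nat_lit 4) (nat_lit 372) (nat_lit 239) (nat_lit 169))))) (XT.nd (nat_lit 312) (nat_lit 76) (nat_lit 0) (XT.nd (nat_lit 156) (nat_lit 0) (nat_lit 0) (XT.nd (nat_lit 78) (nat_lit 0) (nat_lit 0) (XT.lf (nat_lit 0) (nat_lit 1249432021)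 (nat_lit 152) (nat_lit 11149007228) (nat_lit 0) (nat_lit 1249432021) (nat_lit 5) (nat_lit 5) (nat_lit 7) (nat_lit 4) (nat_lit 5) (nat_lit 4) (nat_lit 300) (nat_lit 240) (nat_lit 240)) (XT.lf (nat_lit 0) (nat_lit 7077605223) (nat_lit 152) (nat_lit 15188998660) (nat_lit 0) (nat_lit 6839241571) (nat_lit 5) (nat_lit 5) (nat_lit 7) (nat_lit 4) (nat_lit 5) (nat_lit 4) (nat_lit 301) (nat_lit 240) (nat_lit 239))) (XT.nd (nat_lit 78) (nat_lit 0) (nat_lit 0) (XT.lf (nat_lit 0) (nat_lit 11796592469) (nat_lit 152) (nat_lit 7944856126) (nat_lit 0) (nat_lit 11337521730) (nat_lit 5) (nat_lit 5) (nat_lit 7) (nat_lit 4) (nat_lit 5) (nat_lit 4) (nat_lit 302) (nat_lit 240) (nat_lit 238)) (XT.lf (nat_lit 0) (nat_lit 16683790147) (nat_lit 152) (nat_lit 522658601) (nat_lit 0) (nat_lit 16020360996) (nat_lit 5) (nat_lit 5) (nat_lit 7) (nat_lit 4) (nat_lit 5) (nat_lit 4) (nat_lit 303) (nat_lit 240) (nat_lit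 237)))) (XT.nd (nat_lit 156) (nat_lit 0) (nat_lit 0) (XT.nd (nat_lit 78) (nat_lit 0) (nat_lit 0) (XT.lf (nat_lit 0) (nat_lit 7496586945) (nat_lit 76) (nat_lit 14451865581) (nat_lit 76) (nat_lit 13599215677) (nat_lit 4) (nat_lit 4) (nat_lit 5) (nat_lit 5) (nat_lit 5) (nat_lit 4) (nat_lit 304) (nat_lit 240) (nat_lit 236)) (XT.lf (nat_lit 0) (nat_lit 15824769850) (nat_lit 76) (nat_lit 11635646160) (nat_lit 76) (nat_lit 10607791856) (nat_lit 4) (nat_lit 4) (nat_lit 5) (nat_lit 5) (nat_lit 5) (nat_lit 4) (nat_lit 305) (nat_lit 240) (nat_lit 235))) (XT.nd (nat_lit 78) (nat_lit 0) (nat_lit 0) (XT.lf (nat_lit 0) (nat_lit 24483720029) (nat_lit 76) (nat_lit 8755392191) (nat_lit 76) (nat_lit 7565311590) (nat_lit 4) (nat_lit 4) (nat_lit 5) (nat_lit 5) (nat_lit 5) (nat_lit 4) (nat_lit 306) (nat_lit 240) (nat_lit 234)) (XT.lf (nat_lit 0) (nat_lit 33524749782) (nat_lit 76) (nat_lit 5794035502) (nat_lit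 76) (nat_lit 4453745366) (nat_lit 4) (nat_lit 4) (nat_lit 5) (nat_lit 5) (nat_lit 5) (nat_lit 4) (nat_lit 307) (nat_lit 240) (nat_lit 233))))))))
noncomputable def xc21 : XT := (XT.nd (nat_lit 2418) (nat_lit 0) (nat_lit 0) (XT.nd (nat_lit 1170) (nat_lit 76) (nat_lit 0) (XT.nd (nat_lit 546) (nat_lit 0) (nat_lit 0) (XT.nd (nat_lit 234) (nat_lit 0) (nat_lit 0) (XT.nd (nat_lit 78) (nat_lit 152) (nat_lit 0) (XT.lf (nat_lit 0) (nat_lit 43001435581) (nat_lit 76) (nat_lit 2734027312) (nat_lit 76) (nat_lit 1254654274) (nat_lit 4) (nat_lit 4) (nat_lit 5) (nat_lit 5) (nat_lit 5) (nat_lit 4) (nat_lit 308) (nat_lit 240) (nat_lit 232)) (XT.nd (nat_lit 78) (nat_lit 0) (nat_lit 0) (XT.lf (nat_lit 0) (nat_lit 2023743540) (nat_lit 152) (nat_lit 47907814942) (nat_lit 0) (nat_lit 534712520) (nat_lit 2) (nat_lit 5) (nat_lit 4) (nat_lit 4) (nat_lit 2) (nat_lit 4) (nat_lit 309) (nat_lit 240) (nat_lit 231))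 (XT.lf (nat_lit 0) (nat_lit 5538556805) (nat_lit 152) (nat_lit 44736946535) (nat_lit 0) (nat_lit 3939117293) (nat_lit 2) (nat_lit 5) (nat_lit 4) (nat_lit 4) (nat_lit 2) (nat_lit 4) (nat_lit 310) (nat_lit 240) (nat_lit 230)))) (XT.nd (nat_lit 156) (nat_lit 0) (nat_lit 0) (XT.nd (nat_lit 78) (nat_lit 0) (nat_lit 0) (XT.lf (nat_lit 0) (nat_lit 9204021388) (nat_lit 152) (nat_lit 41566967723) (nat_lit 0) (nat_lit 7502351791) (nat_lit 2) (nat_lit 5) (nat_lit 4) (nat_lit 4) (nat_lit 2) (nat_lit 4) (nat_lit 311) (nat_lit 240) (nat_lit 229)) (XT.lf (nat_lit 0) (nat_lit 13041858561) (nat_lit 152) (nat_lit 38379093445) (nat_lit 0) (nat_lit 11245531478) (nat_lit 2) (nat_lit 5) (nat_lit 4) (nat_lit 4) (nat_lit 2) (nat_lit 4) (nat_lit 312) (nat_lit 240) (nat_lit 228))) (XT.nd (nat_lit 78) (nat_lit 0) (nat_lit 0) (XT.lf (nat_lit 0) (nat_lit 17074811063) (nat_lit 152) (nat_lit 35154432595) (nat_lit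 0) (nat_lit 15190838159) (nat_lit 2) (nat_lit 5) (nat_lit 4) (nat_lit 4) (nat_lit 2) (nat_lit 4) (nat_lit 313) (nat_lit 240) (nat_lit 227)) (XT.lf (nat_lit 0) (nat_lit 21326777871) (nat_lit 152) (nat_lit 31873876071) (nat_lit 0) (nat_lit 19361651430) (nat_lit 2) (nat_lit 5) (nat_lit 4) (nat_lit 4) (nat_lit 2) (nat_lit 4) (nat_lit 314) (nat_lit 240) (nat_lit 226))))) (XT.nd (nat_lit 312) (nat_lit 0) (nat_lit 0) (XT.nd (nat_lit 156) (nat_lit 0) (nat_lit 0) (XT.nd (nat_lit 78) (nat_lit 0) (nat_lit 0) (XT.lf (nat_lit 0) (nat_lit 25822955826) (nat_lit 152) (nat_lit 28517983540) (nat_lit 0) (nat_lit 23782687221) (nat_lit 2) (nat_lit 5) (nat_lit 4) (nat_lit 4) (nat_lit 2) (nat_lit 4) (nat_lit 315) (nat_lit 240) (nat_lit 225)) (XT.lf (nat_lit 0) (nat_lit 30589988946) (nat_lit 152) (nat_lit 25066868229) (nat_lit 0) (nat_lit 28480144263) (nat_lit 2) (nat_lit 5) (nat_lit 4) (nat_lit 4) (nat_lit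 2) (nat_lit 4) (nat_lit 316) (nat_lit 240) (nat_lit 224))) (XT.nd (nat_lit 78) (nat_lit 0) (nat_lit 0) (XT.lf (nat_lit 0) (nat_lit 35656126315) (nat_lit 152) (nat_lit 21500079085) (nat_lit 0) (nat_lit 33481859337) (nat_lit 2) (nat_lit 5) (nat_lit 4) (nat_lit 4) (nat_lit 2) (nat_lit 4) (nat_lit 317) (nat_lit 240) (nat_lit 223)) (XT.lf (nat_lit 0) (nat_lit 41051389488) (nat_lit 152) (nat_lit 17796479581) (nat_lit 0) (nat_lit 38817472238) (nat_lit 2) (nat_lit 5) (nat_lit 4) (nat_lit 4) (nat_lit 2) (nat_lit 4) (nat_lit 318) (nat_lit 240) (nat_lit 222)))) (XT.nd (nat_lit 156) (nat_lit 0) (nat_lit 0) (XT.nd (nat_lit 78) (nat_lit 0) (nat_lit 0) (XT.lf (nat_lit 0) (nat_lit 46807750396) (nat_lit 152) (nat_lit 13934122460) (nat_lit 0) (nat_lit 44518601412) (nat_lit 2) (nat_lit 5) (nat_lit 4) (nat_lit 4) (nat_lit 2) (nat_lit 4) (nat_lit 319) (nat_lit 240) (nat_lit 221)) (XT.lf (nat_lit 0) (nat_lit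 52959320807) (nat_lit 152) (nat_lit 9890119679) (nat_lit 0) (nat_lit 50619031328) (nat_lit 2) (nat_lit 5) (nat_lit 4) (nat_lit 4) (nat_lit 2) (nat_lit 4) (nat_lit 320) (nat_lit 240) (nat_lit 220))) (XT.nd (nat_lit 78) (nat_lit 0) (nat_lit 0) (XT.lf (nat_lit 0) (nat_lit 59542554470) (nat_lit 152) (nat_lit 5640506778) (nat_lit 0) (nat_lit 57154912682) (nat_lit 2) (nat_lit 5) (nat_lit 4) (nat_lit 4) (nat_lit 2) (nat_lit 4) (nat_lit 321) (nat_lit 240) (nat_lit 219)) (XT.lf (nat_lit 0) (nat_lit 66596463142) (nat_lit 152) (nat_lit 1160100865) (nat_lit 0) (nat_lit 64164976622) (nat_lit 2) (nat_lit 5) (nat_lit 4) (nat_lit 4) (nat_lit 2) (nat_lit 4) (nat_lit 322) (nat_lit 240) (nat_lit 218)))))) (XT.nd (nat_lit 624) (nat_lit 0) (nat_lit 0) (XT.nd (nat_lit 312) (nat_lit 0) (nat_lit 0) (XT.nd (nat_lit 156) (nat_lit 0) (nat_lit 0) (XT.nd (nat_lit 78) (nat_lit 0) (nat_lit 0) (XT.lf (nat_lit 0) (nat_lit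 3766041248) (nat_lit 76) (nat_lit 70487379896) (nat_lit 76) (nat_lit 68015296403) (nat_lit 1) (nat_lit 4) (nat_lit 2) (nat_lit 5) (nat_lit 2) (nat_lit 4) (nat_lit 323) (nat_lit 240) (nat_lit 217)) (XT.lf (nat_lit 0) (nat_lit 9053721000) (nat_lit 76) (nat_lit 73450567373) (nat_lit 76) (nat_lit 70940894090) (nat_lit 1) (nat_lit 4) (nat_lit 2) (nat_lit 5) (nat_lit 2) (nat_lit 4) (nat_lit 324) (nat_lit 240) (nat_lit 216))) (XT.nd (nat_lit 78) (nat_lit 0) (nat_lit 0) (XT.lf (nat_lit 0) (nat_lit 14673183933) (nat_lit 76) (nat_lit 76695405280) (nat_lit 76) (nat_lit 74150926636) (nat_lit 1) (nat_lit 4) (nat_lit 2) (nat_lit 5) (nat_lit 2) (nat_lit 4) (nat_lit 325) (nat_lit 240) (nat_lit 215)) (XT.lf (nat_lit 0) (nat_lit 20657730569) (nat_lit 76) (nat_lit 80241122287) (nat_lit 76) (nat_lit 77664416457) (nat_lit 1) (nat_lit 4) (nat_lit 2) (nat_lit 5) (nat_lit 2) (nat_lit 4) (nat_lit 326) (nat_lit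 240) (nat_lit 214)))) (XT.nd (nat_lit 156) (nat_lit 0) (nat_lit 0) (XT.nd (nat_lit 78) (nat_lit 0) (nat_lit 0) (XT.lf (nat_lit 0) (nat_lit 27042824886) (nat_lit 76) (nat_lit 84108730051) (nat_lit 76) (nat_lit 81502184233) (nat_lit 1) (nat_lit 4) (nat_lit 2) (nat_lit 5) (nat_lit 2) (nat_lit 4) (nat_lit 327) (nat_lit 240) (nat_lit 213)) (XT.lf (nat_lit 0) (nat_lit 33866304482) (nat_lit 76) (nat_lit 88321147727) (nat_lit 76) (nat_lit 85686972292) (nat_lit 1) (nat_lit 4) (nat_lit 2) (nat_lit 5) (nat_lit 2) (nat_lit 4) (nat_lit 328) (nat_lit 240) (nat_lit 212))) (XT.nd (nat_lit 78) (nat_lit 0) (nat_lit 0) (XT.lf (nat_lit 0) (nat_lit 41168604790) (nat_lit 76) (nat_lit 92903337792) (nat_lit 76) (nat_lit 90243579377) (nat_lit 1) (nat_lit 4) (nat_lit 2) (nat_lit 5) (nat_lit 2) (nat_lit 4) (nat_lit 329) (nat_lit 240) (nat_lit 211)) (XT.lf (nat_lit 0) (nat_lit 48992998703) (nat_lit 76) (nat_lit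 97882453964) (nat_lit 76) (nat_lit 95199007605) (nat_lit 1) (nat_lit 4) (nat_lit 2) (nat_lit 5) (nat_lit 2) (nat_lit 4) (nat_lit 330) (nat_lit 240) (nat_lit 210))))) (XT.nd (nat_lit 312) (nat_lit 0) (nat_lit 0) (XT.nd (nat_lit 156) (nat_lit 0) (nat_lit 0) (XT.nd (nat_lit 78) (nat_lit 0) (nat_lit 0) (XT.lf (nat_lit 0) (nat_lit 57385852997) (nat_lit 76) (nat_lit 103288002117) (nat_lit 76) (nat_lit 100582622476) (nat_lit 1) (nat_lit 4) (nat_lit 2) (nat_lit 5) (nat_lit 2) (nat_lit 4) (nat_lit 331) (nat_lit 240) (nat_lit 209)) (XT.lf (nat_lit 0) (nat_lit 66396903106) (nat_lit 76) (nat_lit 109152015128) (nat_lit 76) (nat_lit 106426326894) (nat_lit 1) (nat_lit 4) (nat_lit 2) (nat_lit 5) (nat_lit 2) (nat_lit 4) (nat_lit 332) (nat_lit 240) (nat_lit 208))) (XT.nd (nat_lit 78) (nat_lit 0) (nat_lit 0) (XT.lf (nat_lit 0) (nat_lit 76079547847) (nat_lit 76) (nat_lit 115509242705) (nat_lit 76) (nat_lit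 112764750217) (nat_lit 1) (nat_lit 4) (nat_lit 2) (nat_lit 5) (nat_lit 2) (nat_lit 4) (nat_lit 333) (nat_lit 240) (nat_lit 207)) (XT.lf (nat_lit 0) (nat_lit 86491165853) (nat_lit 76) (nat_lit 122397357308) (nat_lit 76) (nat_lit 119635453474) (nat_lit 1) (nat_lit 4) (nat_lit 2) (nat_lit 5) (nat_lit 2) (nat_lit 4) (nat_lit 334) (nat_lit 240) (nat_lit 206)))) (XT.nd (nat_lit 156) (nat_lit 0) (nat_lit 0) (XT.nd (nat_lit 78) (nat_lit 0) (nat_lit 0) (XT.lf (nat_lit 0) (nat_lit 97693455602) (nat_lit 76) (nat_lit 129857177392) (nat_lit 76) (nat_lit 127079151942) (nat_lit 1) (nat_lit 4) (nat_lit 2) (nat_lit 5) (nat_lit 2) (nat_lit 4) (nat_lit 335) (nat_lit 240) (nat_lit 205)) (XT.lf (nat_lit 0) (nat_lit 109752801034) (nat_lit 76) (nat_lit 137932909300) (nat_lit 76) (nat_lit 135139956427) (nat_lit 1) (nat_lit 4) (nat_lit 2) (nat_lit 5) (nat_lit 2) (nat_lit 4) (nat_lit 336) (nat_lit 240) (nat_lit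 204))) (XT.nd (nat_lit 78) (nat_lit 0) (nat_lit 0) (XT.lf (nat_lit 0) (nat_lit 122740664936) (nat_lit 76) (nat_lit 146672409221) (nat_lit 76) (nat_lit 143865634659) (nat_lit 1) (nat_lit 4) (nat_lit 2) (nat_lit 5) (nat_lit 2) (nat_lit 4) (nat_lit 337) (nat_lit 240) (nat_lit 203)) (XT.lf (nat_lit 0) (nat_lit 136734012428) (nat_lit 76) (nat_lit 156127466783) (nat_lit 76) (nat_lit 153307894362) (nat_lit 1) (nat_lit 4) (nat_lit 2) (nat_lit 5) (nat_lit 2) (nat_lit 4) (nat_lit 338) (nat_lit 240) (nat_lit 202))))))) (XT.nd (nat_lit 1248) (nat_lit 0) (nat_lit 0) (XT.nd (nat_lit 624) (nat_lit 0) (nat_lit 0) (XT.nd (nat_lit 312) (nat_lit 0) (nat_lit 0) (XT.nd (nat_lit 156) (nat_lit 0) (nat_lit 0) (XT.nd (nat_lit 78) (nat_lit 0) (nat_lit 0) (XT.lf (nat_lit 0) (nat_lit 151815767050) (nat_lit 76) (nat_lit 166354111957) (nat_lit 76) (nat_lit 163522689667) (nat_lit 1) (nat_lit 4) (nat_lit 2) (nat_lit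 5) (nat_lit 2) (nat_lit 4) (nat_lit 339) (nat_lit 240) (nat_lit 201)) (XT.lf (nat_lit 0) (nat_lit 168075302162) (nat_lit 76) (nat_lit 177412947085) (nat_lit 76) (nat_lit 174570552694) (nat_lit 1) (nat_lit 4) (nat_lit 2) (nat_lit 5) (nat_lit 2) (nat_lit 4) (nat_lit 340) (nat_lit 240) (nat_lit 200))) (XT.nd (nat_lit 78) (nat_lit 0) (nat_lit 0) (XT.lf (nat_lit 0) (nat_lit 185608970567) (nat_lit 76) (nat_lit 189369506006) (nat_lit 76) (nat_lit 186516952262) (nat_lit 1) (nat_lit 4) (nat_lit 2) (nat_lit 5) (nat_lit 2) (nat_lit 4) (nat_lit 341) (nat_lit 240) (nat_lit 199)) (XT.lf (nat_lit 0) (nat_lit 204520675483) (nat_lit 76) (nat_lit 202294642401) (nat_lit 76) (nat_lit 199432681848) (nat_lit 1) (nat_lit 4) (nat_lit 2) (nat_lit 5) (nat_lit 2) (nat_lit 4) (nat_lit 342) (nat_lit 240) (nat_lit 198)))) (XT.nd (nat_lit 156) (nat_lit 0) (nat_lit 0) (XT.nd (nat_lit 78) (nat_lit 0) (nat_lit 0) (XT.lf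 (nat_lit 0) (nat_lit 224922486274) (nat_lit 76) (nat_lit 216264949671) (nat_lit 76) (nat_lit 213394279110) (nat_lit 1) (nat_lit 4) (nat_lit 2) (nat_lit 5) (nat_lit 2) (nat_lit 4) (nat_lit 343) (nat_lit 240) (nat_lit 197)) (XT.lf (nat_lit 0) (nat_lit 246935302559) (nat_lit 76) (nat_lit 231363214822) (nat_lit 76) (nat_lit 228484479440) (nat_lit 1) (nat_lit 4) (nat_lit 2) (nat_lit 5) (nat_lit 2) (nat_lit 4) (nat_lit 344) (nat_lit 240) (nat_lit 196))) (XT.nd (nat_lit 78) (nat_lit 0) (nat_lit 0) (XT.lf (nat_lit 0) (nat_lit 270689570656) (nat_lit 76) (nat_lit 247678909056) (nat_lit 76) (nat_lit 244792706245) (nat_lit 1) (nat_lit 4) (nat_lit 2) (nat_lit 5) (nat_lit 2) (nat_lit 4) (nat_lit 345) (nat_lit 240) (nat_lit 195)) (XT.lf (nat_lit 0) (nat_lit 296326056599) (nat_lit 76) (nat_lit 265308717967) (nat_lit 76) (nat_lit 262415600872) (nat_lit 1) (nat_lit 4) (nat_lit 2) (nat_lit 5) (nat_lit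 2) (nat_lit 4) (nat_lit 346) (nat_lit 240) (nat_lit 194))))) (XT.nd (nat_lit 312) (nat_lit 0) (nat_lit 0) (XT.nd (nat_lit 156) (nat_lit 0) (nat_lit 0) (XT.nd (nat_lit 78) (nat_lit 0) (nat_lit 0) (XT.lf (nat_lit 0) (nat_lit 323996680304) (nat_lit 76) (nat_lit 284357114498) (nat_lit 76) (nat_lit 281457595287) (nat_lit 1) (nat_lit 4) (nat_lit 2) (nat_lit 5) (nat_lit 2) (nat_lit 4) (nat_lit 347) (nat_lit 240) (nat_lit 193)) (XT.lf (nat_lit 0) (nat_lit 353865415838) (nat_lit 76) (nat_lit 304936978035) (nat_lit 76) (nat_lit 302031530939) (nat_lit 1) (nat_lit 4) (nat_lit 2) (nat_lit 5) (nat_lit 2) (nat_lit 4) (nat_lit 348) (nat_lit 240) (nat_lit 192))) (XT.nd (nat_lit 78) (nat_lit 0) (nat_lit 0) (XT.lf (nat_lit 0) (nat_lit 386109263115) (nat_lit 76) (nat_lit 327170263325) (nat_lit 76) (nat_lit 324259327446) (nat_lit 1) (nat_lit 4) (nat_lit 2) (nat_lit 5) (nat_lit 2) (nat_lit 4) (nat_lit 349)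 (nat_lit 240) (nat_lit 191)) (XT.lf (nat_lit 0) (nat_lit 420919296786) (nat_lit 76) (nat_lit 351188723170) (nat_lit 76) (nat_lit 348272705085) (nat_lit 1) (nat_lit 4) (nat_lit 2) (nat_lit 5) (nat_lit 2) (nat_lit 4) (nat_lit 350) (nat_lit 240) (nat_lit 190)))) (XT.nd (nat_lit 156) (nat_lit 0) (nat_lit 0) (XT.nd (nat_lit 78) (nat_lit 0) (nat_lit 0) (XT.lf (nat_lit 0) (nat_lit 458501798531) (nat_lit 76) (nat_lit 377134689184) (nat_lit 76) (nat_lit 374213965353) (nat_lit 1) (nat_lit 4) (nat_lit 2) (nat_lit 5) (nat_lit 2) (nat_lit 4) (nat_lit 351) (nat_lit 240) (nat_lit 189)) (XT.lf (nat_lit 0) (nat_lit 499079479472) (nat_lit 76) (nat_lit 405161915239) (nat_lit 76) (nat_lit 402236834236) (nat_lit 1) (nat_lit 4) (nat_lit 2) (nat_lit 5) (nat_lit 2) (nat_lit 4) (nat_lit 352) (nat_lit 240) (nat_lit 188))) (XT.nd (nat_lit 78) (nat_lit 0) (nat_lit 0) (XT.lf (nat_lit 0) (nat_lit 542892799941) (nat_lit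 76) (nat_lit 435436488601) (nat_lit 76) (nat_lit 432507373179) (nat_lit 1) (nat_lit 4) (nat_lit 2) (nat_lit 5) (nat_lit 2) (nat_lit 4) (nat_lit 353) (nat_lit 240) (nat_lit 187)) (XT.lf (nat_lit 0) (nat_lit 590201394430) (nat_lit 76) (nat_lit 468137814149) (nat_lit 76) (nat_lit 465204963154) (nat_lit 1) (nat_lit 4) (nat_lit 2) (nat_lit 5) (nat_lit 2) (nat_lit 4) (nat_lit 354) (nat_lit 240) (nat_lit 186)))))) (XT.nd (nat_lit 624) (nat_lit 0) (nat_lit 0) (XT.nd (nat_lit 312) (nat_lit 0) (nat_lit 0) (XT.nd (nat_lit 156) (nat_lit 0) (nat_lit 0) (XT.nd (nat_lit 78) (nat_lit 0) (nat_lit 0) (XT.lf (nat_lit 0) (nat_lit 641285610164) (nat_lit 76) (nat_lit 503459677516) (nat_lit 76) (nat_lit 500523367657) (nat_lit 1) (nat_lit 4) (nat_lit 2) (nat_lit 5) (nat_lit 2) (nat_lit 4) (nat_lit 355) (nat_lit 240) (nat_lit 185)) (XT.lf (nat_lit 0) (nat_lit 696448168422) (nat_lit 76) (nat_lit 541611393448)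 (nat_lit 76) (nat_lit 538671880937) (nat_lit 1) (nat_lit 4) (nat_lit 2) (nat_lit 5) (nat_lit 2) (nat_lit 4) (nat_lit 356) (nat_lit 240) (nat_lit 184))) (XT.nd (nat_lit 78) (nat_lit 0) (nat_lit 0) (XT.lf (nat_lit 0) (nat_lit 756015958439) (nat_lit 76) (nat_lit 582819046187) (nat_lit 76) (nat_lit 579876568258) (nat_lit 1) (nat_lit 4) (nat_lit 2) (nat_lit 5) (nat_lit 2) (nat_lit 4) (nat_lit 357) (nat_lit 240) (nat_lit 183)) (XT.lf (nat_lit 0) (nat_lit 820341974525) (nat_lit 76) (nat_lit 627326829232) (nat_lit 76) (nat_lit 624381605545) (nat_lit 1) (nat_lit 4) (nat_lit 2) (nat_lit 5) (nat_lit 2) (nat_lit 4) (nat_lit 358) (nat_lit 240) (nat_lit 182)))) (XT.nd (nat_lit 156) (nat_lit 0) (nat_lit 0) (XT.nd (nat_lit 78) (nat_lit 0) (nat_lit 0) (XT.lf (nat_lit 0) (nat_lit 889807407888) (nat_lit 76) (nat_lit 675398492407) (nat_lit 76) (nat_lit 672450726351) (nat_lit 1) (nat_lit 4) (nat_lit 2) (nat_lit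 5) (nat_lit 2) (nat_lit 4) (nat_lit 359) (nat_lit 240) (nat_lit 181)) (XT.lf (nat_lit 0) (nat_lit 964823905539) (nat_lit 76) (nat_lit 727318904828) (nat_lit 76) (nat_lit 724368784728) (nat_lit 1) (nat_lit 4) (nat_lit 2) (nat_lit 5) (nat_lit 2) (nat_lit 4) (nat_lit 360) (nat_lit 240) (nat_lit 180))) (XT.nd (nat_lit 78) (nat_lit 0) (nat_lit 0) (XT.lf (nat_lit 0) (nat_lit 1045836009687) (nat_lit 76) (nat_lit 783395743012) (nat_lit 76) (nat_lit 780443443241) (nat_lit 1) (nat_lit 4) (nat_lit 2) (nat_lit 5) (nat_lit 2) (nat_lit 4) (nat_lit 361) (nat_lit 240) (nat_lit 179)) (XT.lf (nat_lit 0) (nat_lit 1133323792060) (nat_lit 76) (nat_lit 843961314150) (nat_lit 76) (nat_lit 841006996165) (nat_lit 1) (nat_lit 4) (nat_lit 2) (nat_lit 5) (nat_lit 2) (nat_lit 4) (nat_lit 362) (nat_lit 240) (nat_lit 178))))) (XT.nd (nat_lit 312) (nat_lit 0) (nat_lit 0) (XT.nd (nat_lit 156) (nat_lit 0) (nat_lit 0)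 (XT.nd (nat_lit 78) (nat_lit 0) (nat_lit 0) (XT.lf (nat_lit 0) (nat_lit 1227805698776) (nat_lit 76) (nat_lit 909374525328) (nat_lit 76) (nat_lit 906418338627) (nat_lit 1) (nat_lit 4) (nat_lit 2) (nat_lit 5) (nat_lit 2) (nat_lit 4) (nat_lit 363) (nat_lit 240) (nat_lit 177)) (XT.lf (nat_lit 0) (nat_lit 1329841622615) (nat_lit 76) (nat_lit 980023010392) (nat_lit 76) (nat_lit 977065093397) (nat_lit 1) (nat_lit 4) (nat_lit 2) (nat_lit 5) (nat_lit 2) (nat_lit 4) (nat_lit 364) (nat_lit 240) (nat_lit 176))) (XT.nd (nat_lit 78) (nat_lit 0) (nat_lit 0) (XT.lf (nat_lit 0) (nat_lit 1440036220905) (nat_lit 76) (nat_lit 1056325427031) (nat_lit 76) (nat_lit 1053365907913) (nat_lit 1) (nat_lit 4) (nat_lit 2) (nat_lit 5) (nat_lit 2) (nat_lit 4) (nat_lit 365) (nat_lit 240) (nat_lit 175)) (XT.lf (nat_lit 0) (nat_lit 1559042498671) (nat_lit 76) (nat_lit 1138733937712) (nat_lit 76) (nat_lit 1135772935147)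 (nat_lit 1) (nat_lit 4) (nat_lit 2) (nat_lit 5) (nat_lit 2) (nat_lit 4) (nat_lit 366) (nat_lit 240) (nat_lit 174)))) (XT.nd (nat_lit 156) (nat_lit 0) (nat_lit 0) (XT.nd (nat_lit 78) (nat_lit 0) (nat_lit 0) (XT.lf (nat_lit 0) (nat_lit 1687565678300) (nat_lit 76) (nat_lit 1227736889168) (nat_lit 76) (nat_lit 1224774513040) (nat_lit 1) (nat_lit 4) (nat_lit 2) (nat_lit 5) (nat_lit 2) (nat_lit 4) (nat_lit 367) (nat_lit 240) (nat_lit 173)) (XT.lf (nat_lit 0) (nat_lit 1826367378636) (nat_lit 76) (nat_lit 1323861706294) (nat_lit 76) (nat_lit 1320898058349) (nat_lit 1) (nat_lit 4) (nat_lit 2) (nat_lit 5) (nat_lit 2) (nat_lit 4) (nat_lit 368) (nat_lit 240) (nat_lit 172))) (XT.nd (nat_lit 78) (nat_lit 0) (nat_lit 0) (XT.lf (nat_lit 0) (nat_lit 1976270128272) (nat_lit 76) (nat_lit 1427678017637) (nat_lit 76) (nat_lit 1424713192084) (nat_lit 1) (nat_lit 4) (nat_lit 2) (nat_lit 5) (nat_lit 2) (nat_lit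 4) (nat_lit 369) (nat_lit 240) (nat_lit 171)) (XT.lf (nat_lit 0) (nat_lit 2138162239799) (nat_lit 76) (nat_lit 1539801030968) (nat_lit 76) (nat_lit 1536835115036) (nat_lit 1) (nat_lit 4) (nat_lit 2) (nat_lit 5) (nat_lit 2) (nat_lit 4) (nat_lit 370) (nat_lit 240) (nat_lit 170))))))))
noncomputable def xc22 : XT := (XT.nd (nat_lit 37206) (nat_lit 0) (nat_lit 0) (XT.nd (nat_lit 35958) (nat_lit 0) (nat_lit 0) (XT.nd (nat_lit 35334) (nat_lit 0) (nat_lit 76) (XT.nd (nat_lit 35022) (nat_lit 0) (nat_lit 304) (XT.nd (nat_lit 78) (nat_lit 0) (nat_lit 0) (XT.lf (nat_lit 0) (nat_lit 2313003073877) (nat_lit 76) (nat_lit 1660895178958) (nat_lit 76) (nat_lit 1657928253417) (nat_lit 1) (nat_lit 4) (nat_lit 2) (nat_lit 5) (nat_lit 2) (nat_lit 4) (nat_lit 371) (nat_lit 240) (nat_lit 169)) (XT.nd (nat_lit 34866) (nat_lit 0) (nat_lit 456) (XT.lf (nat_lit 0) (nat_lit 2501828724339) (nat_lit 76) (nat_lit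 1791678056559) (nat_lit 76) (nat_lit 1788710196194) (nat_lit 1) (nat_lit 4) (nat_lit 2) (nat_lit 5) (nat_lit 2) (nat_lit 4) (nat_lit 372) (nat_lit 240) (nat_lit 168)) (XT.lf (nat_lit 0) (nat_lit 6222317674) (nat_lit 76) (nat_lit 2905310641) (nat_lit 76) (nat_lit 2905310641) (nat_lit 7) (nat_lit 4) (nat_lit 8) (nat_lit 5) (nat_lit 8) (nat_lit 4) (nat_lit 298) (nat_lit 241) (nat_lit 241)))) (XT.nd (nat_lit 156) (nat_lit 0) (nat_lit 0) (XT.nd (nat_lit 78) (nat_lit 152) (nat_lit 0) (XT.lf (nat_lit 0) (nat_lit 22040565795) (nat_lit 76) (nat_lit 1930528803) (nat_lit 76) (nat_lit 1652501439) (nat_lit 7) (nat_lit 4) (nat_lit 8) (nat_lit 5) (nat_lit 8) (nat_lit 4) (nat_lit 299) (nat_lit 241) (nat_lit 240)) (XT.lf (nat_lit 0) (nat_lit 2638922995) (nat_lit 152) (nat_lit 22523150075) (nat_lit 0) (nat_lit 2143126598) (nat_lit 5) (nat_lit 5) (nat_lit 7) (nat_lit 4) (nat_lit 5) (nat_lit 4) (nat_lit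 300) (nat_lit 241) (nat_lit 239))) (XT.nd (nat_lit 78) (nat_lit 0) (nat_lit 0) (XT.lf (nat_lit 0) (nat_lit 7108984738) (nat_lit 152) (nat_lit 15622593186) (nat_lit 0) (nat_lit 6392481255) (nat_lit 5) (nat_lit 5) (nat_lit 7) (nat_lit 4) (nat_lit 5) (nat_lit 4) (nat_lit 301) (nat_lit 241) (nat_lit 238)) (XT.lf (nat_lit 0) (nat_lit 11727342875) (nat_lit 152) (nat_lit 8571468157) (nat_lit 0) (nat_lit 10806480979) (nat_lit 5) (nat_lit 5) (nat_lit 7) (nat_lit 4) (nat_lit 5) (nat_lit 4) (nat_lit 302) (nat_lit 241) (nat_lit 237))))) (XT.nd (nat_lit 312) (nat_lit 152) (nat_lit 0) (XT.nd (nat_lit 156) (nat_lit 0) (nat_lit 0) (XT.nd (nat_lit 78) (nat_lit 76) (nat_lit 0) (XT.lf (nat_lit 0) (nat_lit 16521365453) (nat_lit 152) (nat_lit 1327990546) (nat_lit 0) (nat_lit 15411282804) (nat_lit 5) (nat_lit 5) (nat_lit 7) (nat_lit 4) (nat_lit 5) (nat_lit 4) (nat_lit 303) (nat_lit 241) (nat_lit 236)) (XT.lf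 (nat_lit 0) (nat_lit 6474652289) (nat_lit 76) (nat_lit 15200524748) (nat_lit 76) (nat_lit 13915237699) (nat_lit 4) (nat_lit 4) (nat_lit 5) (nat_lit 5) (nat_lit 5) (nat_lit 4) (nat_lit 304) (nat_lit 241) (nat_lit 235))) (XT.nd (nat_lit 78) (nat_lit 0) (nat_lit 0) (XT.lf (nat_lit 0) (nat_lit 14641543195) (nat_lit 76) (nat_lit 12461835618) (nat_lit 76) (nat_lit 11014322272) (nat_lit 4) (nat_lit 4) (nat_lit 5) (nat_lit 5) (nat_lit 5) (nat_lit 4) (nat_lit 305) (nat_lit 241) (nat_lit 234)) (XT.lf (nat_lit 0) (nat_lit 23151148932) (nat_lit 76) (nat_lit 9653368955) (nat_lit 76) (nat_lit 8055646075) (nat_lit 4) (nat_lit 4) (nat_lit 5) (nat_lit 5) (nat_lit 5) (nat_lit 4) (nat_lit 306) (nat_lit 241) (nat_lit 233)))) (XT.nd (nat_lit 156) (nat_lit 152) (nat_lit 0) (XT.nd (nat_lit 78) (nat_lit 0) (nat_lit 0) (XT.lf (nat_lit 0) (nat_lit 32053896794) (nat_lit 76) (nat_lit 6758481994) (nat_lit 76) (nat_lit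 5021676212) (nat_lit 4) (nat_lit 4) (nat_lit 5) (nat_lit 5) (nat_lit 5) (nat_lit 4) (nat_lit 307) (nat_lit 241) (nat_lit 232)) (XT.lf (nat_lit 0) (nat_lit 41402543804) (nat_lit 76) (nat_lit 3760019849) (nat_lit 76) (nat_lit 1894433602) (nat_lit 4) (nat_lit 4) (nat_lit 5) (nat_lit 5) (nat_lit 5) (nat_lit 4) (nat_lit 308) (nat_lit 241) (nat_lit 231))) (XT.nd (nat_lit 78) (nat_lit 0) (nat_lit 0) (XT.lf (nat_lit 0) (nat_lit 707451296) (nat_lit 76) (nat_lit 586913469) (nat_lit 152) (nat_lit 49249776703) (nat_lit 2) (nat_lit 5) (nat_lit 3) (nat_lit 5) (nat_lit 4) (nat_lit 4) (nat_lit 309) (nat_lit 241) (nat_lit 230)) (XT.lf (nat_lit 0) (nat_lit 4732306141) (nat_lit 152) (nat_lit 46774090649) (nat_lit 0) (nat_lit 2792272891) (nat_lit 2) (nat_lit 5) (nat_lit 4) (nat_lit 4) (nat_lit 2) (nat_lit 4) (nat_lit 310) (nat_lit 241) (nat_lit 229)))))) (XT.nd (nat_lit 624) (nat_lit 76) (nat_lit 0) (XT.nd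 (nat_lit 312) (nat_lit 0) (nat_lit 0) (XT.nd (nat_lit 156) (nat_lit 0) (nat_lit 0) (XT.nd (nat_lit 78) (nat_lit 0) (nat_lit 0) (XT.lf (nat_lit 0) (nat_lit 8339662754) (nat_lit 152) (nat_lit 43717430510) (nat_lit 0) (nat_lit 6304972018) (nat_lit 2) (nat_lit 5) (nat_lit 4) (nat_lit 4) (nat_lit 2) (nat_lit 4) (nat_lit 311) (nat_lit 241) (nat_lit 228)) (XT.lf (nat_lit 0) (nat_lit 12123696252) (nat_lit 152) (nat_lit 40634480929) (nat_lit 0) (nat_lit 10001359695) (nat_lit 2) (nat_lit 5) (nat_lit 4) (nat_lit 4) (nat_lit 2) (nat_lit 4) (nat_lit 312) (nat_lit 241) (nat_lit 227))) (XT.nd (nat_lit 78) (nat_lit 0) (nat_lit 0) (XT.lf (nat_lit 0) (nat_lit 16106830535) (nat_lit 152) (nat_lit 37506972576) (nat_lit 0) (nat_lit 13903340442) (nat_lit 2) (nat_lit 5) (nat_lit 4) (nat_lit 4) (nat_lit 2) (nat_lit 4) (nat_lit 313) (nat_lit 241) (nat_lit 226)) (XT.lf (nat_lit 0) (nat_lit 20312669364) (nat_lit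 152) (nat_lit 34316372069) (nat_lit 0) (nat_lit 18034037106) (nat_lit 2) (nat_lit 5) (nat_lit 4) (nat_lit 4) (nat_lit 2) (nat_lit 4) (nat_lit 314) (nat_lit 241) (nat_lit 225)))) (XT.nd (nat_lit 156) (nat_lit 0) (nat_lit 0) (XT.nd (nat_lit 78) (nat_lit 0) (nat_lit 0) (XT.lf (nat_lit 0) (nat_lit 24766136227) (nat_lit 152) (nat_lit 31043772145) (nat_lit 0) (nat_lit 22417927891) (nat_lit 2) (nat_lit 5) (nat_lit 4) (nat_lit 4) (nat_lit 2) (nat_lit 4) (nat_lit 315) (nat_lit 241) (nat_lit 224)) (XT.lf (nat_lit 0) (nat_lit 29493622039) (nat_lit 152) (nat_lit 27669779619) (nat_lit 0) (nat_lit 27080991408) (nat_lit 2) (nat_lit 5) (nat_lit 4) (nat_lit 4) (nat_lit 2) (nat_lit 4) (nat_lit 316) (nat_lit 241) (nat_lit 223))) (XT.nd (nat_lit 78) (nat_lit 0) (nat_lit 0) (XT.lf (nat_lit 0) (nat_lit 34523141530) (nat_lit 152) (nat_lit 24174400461) (nat_lit 0) (nat_lit 32050860627) (nat_lit 2) (nat_lit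 5) (nat_lit 4) (nat_lit 4) (nat_lit 2) (nat_lit 4) (nat_lit 317) (nat_lit 241) (nat_lit 222)) (XT.lf (nat_lit 0) (nat_lit 39884499262) (nat_lit 152) (nat_lit 20536921314) (nat_lit 0) (nat_lit 37356986625) (nat_lit 2) (nat_lit 5) (nat_lit 4) (nat_lit 4) (nat_lit 2) (nat_lit 4) (nat_lit 318) (nat_lit 241) (nat_lit 221))))) (XT.nd (nat_lit 312) (nat_lit 76) (nat_lit 0) (XT.nd (nat_lit 156) (nat_lit 0) (nat_lit 0) (XT.nd (nat_lit 78) (nat_lit 0) (nat_lit 0) (XT.lf (nat_lit 0) (nat_lit 45609466241) (nat_lit 152) (nat_lit 16735786746) (nat_lit 0) (nat_lit 43030813110) (nat_lit 2) (nat_lit 5) (nat_lit 4) (nat_lit 4) (nat_lit 2) (nat_lit 4) (nat_lit 319) (nat_lit 241) (nat_lit 220)) (XT.lf (nat_lit 0) (nat_lit 51731968200) (nat_lit 152) (nat_lit 12748471514) (nat_lit 0) (nat_lit 49105962759) (nat_lit 2) (nat_lit 5) (nat_lit 4) (nat_lit 4) (nat_lit 2) (nat_lit 4) (nat_lit 320) (nat_lit 241) (nat_lit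 219))) (XT.nd (nat_lit 78) (nat_lit 0) (nat_lit 0) (XT.lf (nat_lit 0) (nat_lit 58288286630) (nat_lit 152) (nat_lit 8551347084) (nat_lit 0) (nat_lit 55618436458) (nat_lit 2) (nat_lit 5) (nat_lit 4) (nat_lit 4) (nat_lit 2) (nat_lit 4) (nat_lit 321) (nat_lit 241) (nat_lit 218)) (XT.lf (nat_lit 0) (nat_lit 65317273790) (nat_lit 152) (nat_lit 4119541608) (nat_lit 0) (nat_lit 62606826645) (nat_lit 2) (nat_lit 5) (nat_lit 4) (nat_lit 4) (nat_lit 2) (nat_lit 4) (nat_lit 322) (nat_lit 241) (nat_lit 217)))) (XT.nd (nat_lit 156) (nat_lit 0) (nat_lit 0) (XT.nd (nat_lit 78) (nat_lit 0) (nat_lit 0) (XT.lf (nat_lit 0) (nat_lit 603391554) (nat_lit 76) (nat_lit 72271702963) (nat_lit 76) (nat_lit 69523666027) (nat_lit 1) (nat_lit 4) (nat_lit 2) (nat_lit 5) (nat_lit 2) (nat_lit 4) (nat_lit 323) (nat_lit 241) (nat_lit 216)) (XT.lf (nat_lit 0) (nat_lit 5847210153) (nat_lit 76) (nat_lit 75256330551) (nat_lit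 76) (nat_lit 72473488254) (nat_lit 1) (nat_lit 4) (nat_lit 2) (nat_lit 5) (nat_lit 2) (nat_lit 4) (nat_lit 324) (nat_lit 241) (nat_lit 215))) (XT.nd (nat_lit 78) (nat_lit 0) (nat_lit 0) (XT.lf (nat_lit 0) (nat_lit 11426060907) (nat_lit 76) (nat_lit 78521020414) (nat_lit 76) (nat_lit 75705950931) (nat_lit 1) (nat_lit 4) (nat_lit 2) (nat_lit 5) (nat_lit 2) (nat_lit 4) (nat_lit 325) (nat_lit 241) (nat_lit 214)) (XT.lf (nat_lit 0) (nat_lit 17373003673) (nat_lit 76) (nat_lit 82085118861) (nat_lit 76) (nat_lit 79240209391) (nat_lit 1) (nat_lit 4) (nat_lit 2) (nat_lit 5) (nat_lit 2) (nat_lit 4) (nat_lit 326) (nat_lit 241) (nat_lit 213))))))) (XT.nd (nat_lit 1248) (nat_lit 0) (nat_lit 0) (XT.nd (nat_lit 624) (nat_lit 0) (nat_lit 0) (XT.nd (nat_lit 312) (nat_lit 0) (nat_lit 0) (XT.nd (nat_lit 156) (nat_lit 0) (nat_lit 0) (XT.nd (nat_lit 78) (nat_lit 0) (nat_lit 0) (XT.lf (nat_lit 0) (nat_lit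 23723279593) (nat_lit 76) (nat_lit 85969746476) (nat_lit 76) (nat_lit 83097207388) (nat_lit 1) (nat_lit 4) (nat_lit 2) (nat_lit 5) (nat_lit 2) (nat_lit 4) (nat_lit 327) (nat_lit 241) (nat_lit 212)) (XT.lf (nat_lit 0) (nat_lit 30514519931) (nat_lit 76) (nat_lit 90197923275) (nat_lit 76) (nat_lit 87299801207) (nat_lit 1) (nat_lit 4) (nat_lit 2) (nat_lit 5) (nat_lit 2) (nat_lit 4) (nat_lit 328) (nat_lit 241) (nat_lit 211))) (XT.nd (nat_lit 78) (nat_lit 0) (nat_lit 0) (XT.lf (nat_lit 0) (nat_lit 37786969076) (nat_lit 76) (nat_lit 94794705120) (nat_lit 76) (nat_lit 91872895108) (nat_lit 1) (nat_lit 4) (nat_lit 2) (nat_lit 5) (nat_lit 2) (nat_lit 4) (nat_lit 329) (nat_lit 241) (nat_lit 210)) (XT.lf (nat_lit 0) (nat_lit 45583723021) (nat_lit 76) (nat_lit 99787332199) (nat_lit 76) (nat_lit 96843588906) (nat_lit 1) (nat_lit 4) (nat_lit 2) (nat_lit 5) (nat_lit 2) (nat_lit 4) (nat_lit 330) (nat_lit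 241) (nat_lit 209)))) (XT.nd (nat_lit 156) (nat_lit 0) (nat_lit 0) (XT.nd (nat_lit 78) (nat_lit 0) (nat_lit 0) (XT.lf (nat_lit 0) (nat_lit 53950984754) (nat_lit 76) (nat_lit 105205390451) (nat_lit 76) (nat_lit 102241338564) (nat_lit 1) (nat_lit 4) (nat_lit 2) (nat_lit 5) (nat_lit 2) (nat_lit 4) (nat_lit 331) (nat_lit 241) (nat_lit 208)) (XT.lf (nat_lit 0) (nat_lit 62938338047) (nat_lit 76) (nat_lit 111080986888) (nat_lit 76) (nat_lit 108098130747) (nat_lit 1) (nat_lit 4) (nat_lit 2) (nat_lit 5) (nat_lit 2) (nat_lit 4) (nat_lit 332) (nat_lit 241) (nat_lit 207))) (XT.nd (nat_lit 78) (nat_lit 0) (nat_lit 0) (XT.lf (nat_lit 0) (nat_lit 72599041291) (nat_lit 76) (nat_lit 117448939859) (nat_lit 76) (nat_lit 114448672372) (nat_lit 1) (nat_lit 4) (nat_lit 2) (nat_lit 5) (nat_lit 2) (nat_lit 4) (nat_lit 333) (nat_lit 241) (nat_lit 206)) (XT.lf (nat_lit 0) (nat_lit 82990343096) (nat_lit 76) (nat_lit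 124346985381) (nat_lit 76) (nat_lit 121330596278) (nat_lit 1) (nat_lit 4) (nat_lit 2) (nat_lit 5) (nat_lit 2) (nat_lit 4) (nat_lit 334) (nat_lit 241) (nat_lit 205))))) (XT.nd (nat_lit 312) (nat_lit 0) (nat_lit 0) (XT.nd (nat_lit 156) (nat_lit 0) (nat_lit 0) (XT.nd (nat_lit 78) (nat_lit 0) (nat_lit 0) (XT.lf (nat_lit 0) (nat_lit 94173821549) (nat_lit 76) (nat_lit 131816000762) (nat_lit 76) (nat_lit 128784684236) (nat_lit 1) (nat_lit 4) (nat_lit 2) (nat_lit 5) (nat_lit 2) (nat_lit 4) (nat_lit 335) (nat_lit 241) (nat_lit 204)) (XT.lf (nat_lit 0) (nat_lit 106215749113) (nat_lit 76) (nat_lit 139900246834) (nat_lit 76) (nat_lit 136855108620) (nat_lit 1) (nat_lit 4) (nat_lit 2) (nat_lit 5) (nat_lit 2) (nat_lit 4) (nat_lit 336) (nat_lit 241) (nat_lit 203))) (XT.nd (nat_lit 78) (nat_lit 0) (nat_lit 0) (XT.lf (nat_lit 0) (nat_lit 119187485360) (nat_lit 76) (nat_lit 148647630239) (nat_lit 76) (nat_lit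 145589694166) (nat_lit 1) (nat_lit 4) (nat_lit 2) (nat_lit 5) (nat_lit 2) (nat_lit 4) (nat_lit 337) (nat_lit 241) (nat_lit 202)) (XT.lf (nat_lit 0) (nat_lit 133165899838) (nat_lit 76) (nat_lit 158109987323) (nat_lit 76) (nat_lit 155040201381) (nat_lit 1) (nat_lit 4) (nat_lit 2) (nat_lit 5) (nat_lit 2) (nat_lit 4) (nat_lit 338) (nat_lit 241) (nat_lit 201)))) (XT.nd (nat_lit 156) (nat_lit 0) (nat_lit 0) (XT.nd (nat_lit 78) (nat_lit 0) (nat_lit 0) (XT.lf (nat_lit 0) (nat_lit 148233827595) (nat_lit 76) (nat_lit 168343391315) (nat_lit 76) (nat_lit 165262633271) (nat_lit 1) (nat_lit 4) (nat_lit 2) (nat_lit 5) (nat_lit 2) (nat_lit 4) (nat_lit 339) (nat_lit 241) (nat_lit 200)) (XT.lf (nat_lit 0) (nat_lit 164480560055) (nat_lit 76) (nat_lit 179408484608) (nat_lit 76) (nat_lit 176317567211) (nat_lit 1) (nat_lit 4) (nat_lit 2) (nat_lit 5) (nat_lit 2) (nat_lit 4) (nat_lit 340) (nat_lit 241) (nat_lit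 199))) (XT.nd (nat_lit 78) (nat_lit 0) (nat_lit 0) (XT.lf (nat_lit 0) (nat_lit 182002374152) (nat_lit 76) (nat_lit 191370838125) (nat_lit 76) (nat_lit 188270513919) (nat_lit 1) (nat_lit 4) (nat_lit 2) (nat_lit 5) (nat_lit 2) (nat_lit 4) (nat_lit 341) (nat_lit 241) (nat_lit 198)) (XT.lf (nat_lit 0) (nat_lit 200903102857) (nat_lit 76) (nat_lit 204301339887) (nat_lit 76) (nat_lit 201192305674) (nat_lit 1) (nat_lit 4) (nat_lit 2) (nat_lit 5) (nat_lit 2) (nat_lit 4) (nat_lit 342) (nat_lit 241) (nat_lit 197)))))) (XT.nd (nat_lit 624) (nat_lit 0) (nat_lit 0) (XT.nd (nat_lit 312) (nat_lit 0) (nat_lit 0) (XT.nd (nat_lit 156) (nat_lit 0) (nat_lit 0) (XT.nd (nat_lit 78) (nat_lit 0) (nat_lit 0) (XT.lf (nat_lit 0) (nat_lit 221294750489) (nat_lit 76) (nat_lit 218276615090) (nat_lit 76) (nat_lit 215159516054) (nat_lit 1) (nat_lit 4) (nat_lit 2) (nat_lit 5) (nat_lit 2) (nat_lit 4) (nat_lit 343) (nat_lit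 241) (nat_lit 196)) (XT.lf (nat_lit 0) (nat_lit 243298156442) (nat_lit 76) (nat_lit 233379480179) (nat_lit 76) (nat_lit 230254913715) (nat_lit 1) (nat_lit 4) (nat_lit 2) (nat_lit 5) (nat_lit 2) (nat_lit 4) (nat_lit 344) (nat_lit 241) (nat_lit 195))) (XT.nd (nat_lit 78) (nat_lit 0) (nat_lit 0) (XT.lf (nat_lit 0) (nat_lit 267043711269) (nat_lit 76) (nat_lit 249699433614) (nat_lit 76) (nat_lit 246567952865) (nat_lit 1) (nat_lit 4) (nat_lit 2) (nat_lit 5) (nat_lit 2) (nat_lit 4) (nat_lit 345) (nat_lit 241) (nat_lit 194)) (XT.lf (nat_lit 0) (nat_lit 292672129369) (nat_lit 76) (nat_lit 267333186230) (nat_lit 76) (nat_lit 264195303366) (nat_lit 1) (nat_lit 4) (nat_lit 2) (nat_lit 5) (nat_lit 2) (nat_lit 4) (nat_lit 346) (nat_lit 241) (nat_lit 193)))) (XT.nd (nat_lit 156) (nat_lit 0) (nat_lit 0) (XT.nd (nat_lit 78) (nat_lit 0) (nat_lit 0) (XT.lf (nat_lit 0) (nat_lit 320335282849) (nat_lit 76)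 (nat_lit 286385234340) (nat_lit 76) (nat_lit 283241423591) (nat_lit 1) (nat_lit 4) (nat_lit 2) (nat_lit 5) (nat_lit 2) (nat_lit 4) (nat_lit 347) (nat_lit 241) (nat_lit 192)) (XT.lf (nat_lit 0) (nat_lit 350197101509) (nat_lit 76) (nat_lit 306968478968) (nat_lit 76) (nat_lit 303819179437) (nat_lit 1) (nat_lit 4) (nat_lit 2) (nat_lit 5) (nat_lit 2) (nat_lit 4) (nat_lit 348) (nat_lit 241) (nat_lit 191))) (XT.nd (nat_lit 78) (nat_lit 0) (nat_lit 0) (XT.lf (nat_lit 0) (nat_lit 382434544272) (nat_lit 76) (nat_lit 329204894898) (nat_lit 76) (nat_lit 326050513161) (nat_lit 1) (nat_lit 4) (nat_lit 2) (nat_lit 5) (nat_lit 2) (nat_lit 4) (nat_lit 349) (nat_lit 241) (nat_lit 190)) (XT.lf (nat_lit 0) (nat_lit 417238647837) (nat_lit 76) (nat_lit 353226253484) (nat_lit 76) (nat_lit 350067166001) (nat_lit 1) (nat_lit 4) (nat_lit 2) (nat_lit 5) (nat_lit 2) (nat_lit 4) (nat_lit 350) (nat_lit 241) (nat_lit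 189))))) (XT.nd (nat_lit 312) (nat_lit 0) (nat_lit 0) (XT.nd (nat_lit 156) (nat_lit 0) (nat_lit 0) (XT.nd (nat_lit 78) (nat_lit 0) (nat_lit 0) (XT.lf (nat_lit 0) (nat_lit 454815658744) (nat_lit 76) (nat_lit 379174903517) (nat_lit 76) (nat_lit 376011458861) (nat_lit 1) (nat_lit 4) (nat_lit 2) (nat_lit 5) (nat_lit 2) (nat_lit 4) (nat_lit 351) (nat_lit 241) (nat_lit 188)) (XT.lf (nat_lit 0) (nat_lit 495388255576) (nat_lit 76) (nat_lit 407204614776) (nat_lit 76) (nat_lit 404037135701) (nat_lit 1) (nat_lit 4) (nat_lit 2) (nat_lit 5) (nat_lit 2) (nat_lit 4) (nat_lit 352) (nat_lit 241) (nat_lit 187))) (XT.nd (nat_lit 78) (nat_lit 0) (nat_lit 0) (XT.lf (nat_lit 0) (nat_lit 539196868537) (nat_lit 76) (nat_lit 437481489252) (nat_lit 76) (nat_lit 434310274604) (nat_lit 1) (nat_lit 4) (nat_lit 2) (nat_lit 5) (nat_lit 2) (nat_lit 4) (nat_lit 353) (nat_lit 241) (nat_lit 186)) (XT.lf (nat_lit 0) (nat_lit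 586501104220) (nat_lit 76) (nat_lit 470184945461) (nat_lit 76) (nat_lit 467010271949) (nat_lit 1) (nat_lit 4) (nat_lit 2) (nat_lit 5) (nat_lit 2) (nat_lit 4) (nat_lit 354) (nat_lit 241) (nat_lit 185)))) (XT.nd (nat_lit 156) (nat_lit 0) (nat_lit 0) (XT.nd (nat_lit 78) (nat_lit 0) (nat_lit 0) (XT.lf (nat_lit 0) (nat_lit 637581284025) (nat_lit 76) (nat_lit 505508781662) (nat_lit 76) (nat_lit 502330905498) (nat_lit 1) (nat_lit 4) (nat_lit 2) (nat_lit 5) (nat_lit 2) (nat_lit 4) (nat_lit 355) (nat_lit 241) (nat_lit 184)) (XT.lf (nat_lit 0) (nat_lit 692740105311) (nat_lit 76) (nat_lit 543662324293) (nat_lit 76) (nat_lit 540481482711) (nat_lit 1) (nat_lit 4) (nat_lit 2) (nat_lit 5) (nat_lit 2) (nat_lit 4) (nat_lit 356) (nat_lit 241) (nat_lit 183))) (XT.nd (nat_lit 78) (nat_lit 0) (nat_lit 0) (XT.lf (nat_lit 0) (nat_lit 752304435168) (nat_lit 76) (nat_lit 584871668419) (nat_lit 76) (nat_lit 581688081080)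 (nat_lit 1) (nat_lit 4) (nat_lit 2) (nat_lit 5) (nat_lit 2) (nat_lit 4) (nat_lit 357) (nat_lit 241) (nat_lit 182)) (XT.lf (nat_lit 0) (nat_lit 816627247403) (nat_lit 76) (nat_lit 629381017563) (nat_lit 76) (nat_lit 626194887855) (nat_lit 1) (nat_lit 4) (nat_lit 2) (nat_lit 5) (nat_lit 2) (nat_lit 4) (nat_lit 358) (nat_lit 241) (nat_lit 181))))))))
noncomputable def xc23 : XT := (XT.nd (nat_lit 37128) (nat_lit 0) (nat_lit 0) (XT.nd (nat_lit 35880) (nat_lit 0) (nat_lit 76) (XT.nd (nat_lit 624) (nat_lit 0) (nat_lit 0) (XT.nd (nat_lit 312) (nat_lit 0) (nat_lit 0) (XT.nd (nat_lit 156) (nat_lit 0) (nat_lit 0) (XT.nd (nat_lit 78) (nat_lit 0) (nat_lit 0) (XT.lf (nat_lit 0) (nat_lit 886089714236) (nat_lit 76) (nat_lit 677454130831) (nat_lit 76) (nat_lit 674265647078) (nat_lit 1) (nat_lit 4) (nat_lit 2) (nat_lit 5) (nat_lit 2) (nat_lit 4) (nat_lit 359) (nat_lit 241) (nat_lit 180)) (XT.lf (nat_lit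 0) (nat_lit 961103465101) (nat_lit 76) (nat_lit 729375885929) (nat_lit 76) (nat_lit 726185222506) (nat_lit 1) (nat_lit 4) (nat_lit 2) (nat_lit 5) (nat_lit 2) (nat_lit 4) (nat_lit 360) (nat_lit 241) (nat_lit 179))) (XT.nd (nat_lit 78) (nat_lit 0) (nat_lit 0) (XT.lf (nat_lit 0) (nat_lit 1042113025929) (nat_lit 76) (nat_lit 785453967334) (nat_lit 76) (nat_lit 782261285696) (nat_lit 1) (nat_lit 4) (nat_lit 2) (nat_lit 5) (nat_lit 2) (nat_lit 4) (nat_lit 361) (nat_lit 241) (nat_lit 178)) (XT.lf (nat_lit 0) (nat_lit 1129598453375) (nat_lit 76) (nat_lit 846020689601) (nat_lit 76) (nat_lit 842826139247) (nat_lit 1) (nat_lit 4) (nat_lit 2) (nat_lit 5) (nat_lit 2) (nat_lit 4) (nat_lit 362) (nat_lit 241) (nat_lit 177)))) (XT.nd (nat_lit 156) (nat_lit 0) (nat_lit 0) (XT.nd (nat_lit 78) (nat_lit 0) (nat_lit 0) (XT.lf (nat_lit 0) (nat_lit 1224078179604) (nat_lit 76) (nat_lit 911434966641) (nat_lit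 76) (nat_lit 908238685994) (nat_lit 1) (nat_lit 4) (nat_lit 2) (nat_lit 5) (nat_lit 2) (nat_lit 4) (nat_lit 363) (nat_lit 241) (nat_lit 176)) (XT.lf (nat_lit 0) (nat_lit 1326112084473) (nat_lit 76) (nat_lit 982084438613) (nat_lit 76) (nat_lit 978886555843) (nat_lit 1) (nat_lit 4) (nat_lit 2) (nat_lit 5) (nat_lit 2) (nat_lit 4) (nat_lit 364) (nat_lit 241) (nat_lit 175))) (XT.nd (nat_lit 78) (nat_lit 0) (nat_lit 0) (XT.lf (nat_lit 0) (nat_lit 1436304813346) (nat_lit 76) (nat_lit 1058387769056) (nat_lit 76) (nat_lit 1055188402838) (nat_lit 1) (nat_lit 4) (nat_lit 2) (nat_lit 5) (nat_lit 2) (nat_lit 4) (nat_lit 365) (nat_lit 241) (nat_lit 174)) (XT.lf (nat_lit 0) (nat_lit 1555309360171) (nat_lit 76) (nat_lit 1140797125853) (nat_lit 76) (nat_lit 1137596386072) (nat_lit 1) (nat_lit 4) (nat_lit 2) (nat_lit 5) (nat_lit 2) (nat_lit 4) (nat_lit 366) (nat_lit 241) (nat_lit 173))))) (XT.nd (nat_lit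 312) (nat_lit 0) (nat_lit 0) (XT.nd (nat_lit 156) (nat_lit 0) (nat_lit 0) (XT.nd (nat_lit 78) (nat_lit 0) (nat_lit 0) (XT.lf (nat_lit 0) (nat_lit 1683830937078) (nat_lit 76) (nat_lit 1229800860747) (nat_lit 76) (nat_lit 1226598849150) (nat_lit 1) (nat_lit 4) (nat_lit 2) (nat_lit 5) (nat_lit 2) (nat_lit 4) (nat_lit 367) (nat_lit 241) (nat_lit 172)) (XT.lf (nat_lit 0) (nat_lit 1822631153410) (nat_lit 76) (nat_lit 1325926403281) (nat_lit 76) (nat_lit 1322723214075) (nat_lit 1) (nat_lit 4) (nat_lit 2) (nat_lit 5) (nat_lit 2) (nat_lit 4) (nat_lit 368) (nat_lit 241) (nat_lit 171))) (XT.nd (nat_lit 78) (nat_lit 0) (nat_lit 0) (XT.lf (nat_lit 0) (nat_lit 1972532528969) (nat_lit 76) (nat_lit 1429743386297) (nat_lit 76) (nat_lit 1426539106713) (nat_lit 1) (nat_lit 4) (nat_lit 2) (nat_lit 5) (nat_lit 2) (nat_lit 4) (nat_lit 369) (nat_lit 241) (nat_lit 170)) (XT.lf (nat_lit 0) (nat_lit 2134423368202)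 (nat_lit 76) (nat_lit 1541867021548) (nat_lit 76) (nat_lit 1538661732354) (nat_lit 1) (nat_lit 4) (nat_lit 2) (nat_lit 5) (nat_lit 2) (nat_lit 4) (nat_lit 370) (nat_lit 241) (nat_lit 169)))) (XT.nd (nat_lit 34788) (nat_lit 0) (nat_lit 456) (XT.nd (nat_lit 78) (nat_lit 0) (nat_lit 0) (XT.lf (nat_lit 0) (nat_lit 2309263024231) (nat_lit 76) (nat_lit 1662961745390) (nat_lit 76) (nat_lit 1659755521372) (nat_lit 1) (nat_lit 4) (nat_lit 2) (nat_lit 5) (nat_lit 2) (nat_lit 4) (nat_lit 371) (nat_lit 241) (nat_lit 168)) (XT.lf (nat_lit 0) (nat_lit 2498087583907) (nat_lit 76) (nat_lit 1793745156186) (nat_lit 76) (nat_lit 1790538066592) (nat_lit 1) (nat_lit 4) (nat_lit 2) (nat_lit 5) (nat_lit 2) (nat_lit 4) (nat_lit 372) (nat_lit 241) (nat_lit 167))) (XT.nd (nat_lit 78) (nat_lit 76) (nat_lit 0) (XT.lf (nat_lit 0) (nat_lit 3978228179) (nat_lit 152) (nat_lit 2704004011) (nat_lit 0) (nat_lit 3978228179)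 (nat_lit 8) (nat_lit 5) (nat_lit 10) (nat_lit 4) (nat_lit 8) (nat_lit 4) (nat_lit 296) (nat_lit 242) (nat_lit 242)) (XT.lf (nat_lit 0) (nat_lit 3140181514) (nat_lit 76) (nat_lit 9900777661) (nat_lit 76) (nat_lit 9600508107) (nat_lit 7) (nat_lit 4) (nat_lit 8) (nat_lit 5) (nat_lit 8) (nat_lit 4) (nat_lit 297) (nat_lit 242) (nat_lit 241)))))) (XT.nd (nat_lit 624) (nat_lit 152) (nat_lit 0) (XT.nd (nat_lit 312) (nat_lit 76) (nat_lit 0) (XT.nd (nat_lit 156) (nat_lit 152) (nat_lit 0) (XT.nd (nat_lit 78) (nat_lit 0) (nat_lit 0) (XT.lf (nat_lit 0) (nat_lit 12226904726) (nat_lit 76) (nat_lit 6213287611) (nat_lit 76) (nat_lit 5634990692) (nat_lit 7) (nat_lit 4) (nat_lit 8) (nat_lit 5) (nat_lit 8) (nat_lit 4) (nat_lit 298) (nat_lit 242) (nat_lit 240)) (XT.lf (nat_lit 0) (nat_lit 21621232743) (nat_lit 76) (nat_lit 2428006961) (nat_lit 76) (nat_lit 1592277298) (nat_lit 7) (nat_lit 4) (nat_lit 8)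 (nat_lit 5) (nat_lit 8) (nat_lit 4) (nat_lit 299) (nat_lit 242) (nat_lit 239))) (XT.nd (nat_lit 78) (nat_lit 0) (nat_lit 0) (XT.lf (nat_lit 0) (nat_lit 2564133434) (nat_lit 152) (nat_lit 23199891070) (nat_lit 0) (nat_lit 1569602586) (nat_lit 5) (nat_lit 5) (nat_lit 7) (nat_lit 4) (nat_lit 5) (nat_lit 4) (nat_lit 300) (nat_lit 242) (nat_lit 238)) (XT.lf (nat_lit 0) (nat_lit 6933566068) (nat_lit 152) (nat_lit 16492351686) (nat_lit 0) (nat_lit 5734676808) (nat_lit 5) (nat_lit 5) (nat_lit 7) (nat_lit 4) (nat_lit 5) (nat_lit 4) (nat_lit 301) (nat_lit 242) (nat_lit 237)))) (XT.nd (nat_lit 156) (nat_lit 76) (nat_lit 0) (XT.nd (nat_lit 78) (nat_lit 0) (nat_lit 0) (XT.lf (nat_lit 0) (nat_lit 11458749104) (nat_lit 152) (nat_lit 9619946571) (nat_lit 0) (nat_lit 10070639091) (nat_lit 5) (nat_lit 5) (nat_lit 7) (nat_lit 4) (nat_lit 5) (nat_lit 4) (nat_lit 302) (nat_lit 242) (nat_lit 236)) (XT.lf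 (nat_lit 0) (nat_lit 16166498441) (nat_lit 152) (nat_lit 2541950360) (nat_lit 0) (nat_lit 14603184027) (nat_lit 5) (nat_lit 5) (nat_lit 7) (nat_lit 4) (nat_lit 5) (nat_lit 4) (nat_lit 303) (nat_lit 242) (nat_lit 235))) (XT.nd (nat_lit 78) (nat_lit 0) (nat_lit 0) (XT.lf (nat_lit 0) (nat_lit 5035475504) (nat_lit 76) (nat_lit 16170339654) (nat_lit 76) (nat_lit 14444798943) (nat_lit 4) (nat_lit 4) (nat_lit 5) (nat_lit 5) (nat_lit 5) (nat_lit 4) (nat_lit 304) (nat_lit 242) (nat_lit 234)) (XT.lf (nat_lit 0) (nat_lit 13053021967) (nat_lit 76) (nat_lit 13503437830) (nat_lit 76) (nat_lit 11627687586) (nat_lit 4) (nat_lit 4) (nat_lit 5) (nat_lit 5) (nat_lit 5) (nat_lit 4) (nat_lit 305) (nat_lit 242) (nat_lit 233))))) (XT.nd (nat_lit 312) (nat_lit 76) (nat_lit 0) (XT.nd (nat_lit 156) (nat_lit 76) (nat_lit 0) (XT.nd (nat_lit 78) (nat_lit 0) (nat_lit 0) (XT.lf (nat_lit 0) (nat_lit 21424345813) (nat_lit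 76) (nat_lit 10761440896) (nat_lit 76) (nat_lit 8746607749) (nat_lit 4) (nat_lit 4) (nat_lit 5) (nat_lit 5) (nat_lit 5) (nat_lit 4) (nat_lit 306) (nat_lit 242) (nat_lit 232)) (XT.lf (nat_lit 0) (nat_lit 30199054885) (nat_lit 76) (nat_lit 7928099979) (nat_lit 76) (nat_lit 5784486368) (nat_lit 4) (nat_lit 4) (nat_lit 5) (nat_lit 5) (nat_lit 5) (nat_lit 4) (nat_lit 307) (nat_lit 242) (nat_lit 231))) (XT.nd (nat_lit 78) (nat_lit 76) (nat_lit 0) (XT.lf (nat_lit 0) (nat_lit 39429147462) (nat_lit 76) (nat_lit 4986624913) (nat_lit 76) (nat_lit 2723770130) (nat_lit 4) (nat_lit 4) (nat_lit 5) (nat_lit 5) (nat_lit 5) (nat_lit 4) (nat_lit 308) (nat_lit 242) (nat_lit 230)) (XT.lf (nat_lit 0) (nat_lit 430983703) (nat_lit 152) (nat_lit 1476817171) (nat_lit 76) (nat_lit 48726552825) (nat_lit 3) (nat_lit 5) (nat_lit 5) (nat_lit 5) (nat_lit 4) (nat_lit 4) (nat_lit 309) (nat_lit 242) (nat_lit 229)))) (XT.nd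 (nat_lit 156) (nat_lit 0) (nat_lit 0) (XT.nd (nat_lit 78) (nat_lit 0) (nat_lit 0) (XT.lf (nat_lit 0) (nat_lit 3740690846) (nat_lit 152) (nat_lit 49209909132) (nat_lit 0) (nat_lit 1448567366) (nat_lit 2) (nat_lit 5) (nat_lit 4) (nat_lit 4) (nat_lit 2) (nat_lit 4) (nat_lit 310) (nat_lit 242) (nat_lit 228)) (XT.lf (nat_lit 0) (nat_lit 7294243784) (nat_lit 152) (nat_lit 46258173690) (nat_lit 0) (nat_lit 4914474483) (nat_lit 2) (nat_lit 5) (nat_lit 4) (nat_lit 4) (nat_lit 2) (nat_lit 4) (nat_lit 311) (nat_lit 242) (nat_lit 227))) (XT.nd (nat_lit 78) (nat_lit 0) (nat_lit 0) (XT.lf (nat_lit 0) (nat_lit 11028459064) (nat_lit 152) (nat_lit 43272376606) (nat_lit 0) (nat_lit 8567536225) (nat_lit 2) (nat_lit 5) (nat_lit 4) (nat_lit 4) (nat_lit 2) (nat_lit 4) (nat_lit 312) (nat_lit 242) (nat_lit 226)) (XT.lf (nat_lit 0) (nat_lit 14965465368) (nat_lit 152) (nat_lit 40234824270) (nat_lit 0) (nat_lit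 12429400365) (nat_lit 2) (nat_lit 5) (nat_lit 4) (nat_lit 4) (nat_lit 2) (nat_lit 4) (nat_lit 313) (nat_lit 242) (nat_lit 225))))))) (XT.nd (nat_lit 1248) (nat_lit 0) (nat_lit 0) (XT.nd (nat_lit 624) (nat_lit 76) (nat_lit 0) (XT.nd (nat_lit 312) (nat_lit 0) (nat_lit 0) (XT.nd (nat_lit 156) (nat_lit 0) (nat_lit 0) (XT.nd (nat_lit 78) (nat_lit 0) (nat_lit 0) (XT.lf (nat_lit 0) (nat_lit 19128593104) (nat_lit 152) (nat_lit 37127516370) (nat_lit 0) (nat_lit 16522952023) (nat_lit 2) (nat_lit 5) (nat_lit 4) (nat_lit 4) (nat_lit 2) (nat_lit 4) (nat_lit 314) (nat_lit 242) (nat_lit 224)) (XT.lf (nat_lit 0) (nat_lit 23542512659) (nat_lit 152) (nat_lit 33932039231) (nat_lit 0) (nat_lit 20872449284) (nat_lit 2) (nat_lit 5) (nat_lit 4) (nat_lit 4) (nat_lit 2) (nat_lit 4) (nat_lit 315) (nat_lit 242) (nat_lit 223))) (XT.nd (nat_lit 78) (nat_lit 0) (nat_lit 0) (XT.lf (nat_lit 0) (nat_lit 28233380594)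 (nat_lit 152) (nat_lit 30629456690) (nat_lit 0) (nat_lit 25503666946) (nat_lit 2) (nat_lit 5) (nat_lit 4) (nat_lit 4) (nat_lit 2) (nat_lit 4) (nat_lit 316) (nat_lit 242) (nat_lit 222)) (XT.lf (nat_lit 0) (nat_lit 33228994643) (nat_lit 152) (nat_lit 27200197890) (nat_lit 0) (nat_lit 30444049261) (nat_lit 2) (nat_lit 5) (nat_lit 4) (nat_lit 4) (nat_lit 2) (nat_lit 4) (nat_lit 317) (nat_lit 242) (nat_lit 221)))) (XT.nd (nat_lit 156) (nat_lit 0) (nat_lit 0) (XT.nd (nat_lit 78) (nat_lit 0) (nat_lit 0) (XT.lf (nat_lit 0) (nat_lit 38558958447) (nat_lit 152) (nat_lit 23623941296) (nat_lit 0) (nat_lit 35722872570) (nat_lit 2) (nat_lit 5) (nat_lit 4) (nat_lit 4) (nat_lit 2) (nat_lit 4) (nat_lit 318) (nat_lit 242) (nat_lit 220)) (XT.lf (nat_lit 0) (nat_lit 44254856975) (nat_lit 152) (nat_lit 19879494277) (nat_lit 0) (nat_lit 41371418789) (nat_lit 2) (nat_lit 5) (nat_lit 4) (nat_lit 4) (nat_lit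 2) (nat_lit 4) (nat_lit 319) (nat_lit 242) (nat_lit 219))) (XT.nd (nat_lit 78) (nat_lit 0) (nat_lit 0) (XT.lf (nat_lit 0) (nat_lit 50350443700) (nat_lit 152) (nat_lit 15944667516) (nat_lit 0) (nat_lit 47423160783) (nat_lit 2) (nat_lit 5) (nat_lit 4) (nat_lit 4) (nat_lit 2) (nat_lit 4) (nat_lit 320) (nat_lit 242) (nat_lit 218)) (XT.lf (nat_lit 0) (nat_lit 56881840618) (nat_lit 152) (nat_lit 11796143523) (nat_lit 0) (nat_lit 53913960728) (nat_lit 2) (nat_lit 5) (nat_lit 4) (nat_lit 4) (nat_lit 2) (nat_lit 4) (nat_lit 321) (nat_lit 242) (nat_lit 217))))) (XT.nd (nat_lit 312) (nat_lit 0) (nat_lit 0) (XT.nd (nat_lit 156) (nat_lit 76) (nat_lit 0) (XT.nd (nat_lit 78) (nat_lit 0) (nat_lit 0) (XT.lf (nat_lit 0) (nat_lit 63887752304) (nat_lit 152) (nat_lit 7409338451) (nat_lit 0) (nat_lit 60882282624) (nat_lit 2) (nat_lit 5) (nat_lit 4) (nat_lit 4) (nat_lit 2) (nat_lit 4) (nat_lit 322) (nat_lit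 242) (nat_lit 216)) (XT.lf (nat_lit 0) (nat_lit 71409695270) (nat_lit 152) (nat_lit 2758256418) (nat_lit 0) (nat_lit 68369420229) (nat_lit 2) (nat_lit 5) (nat_lit 4) (nat_lit 4) (nat_lit 2) (nat_lit 4) (nat_lit 323) (nat_lit 242) (nat_lit 215))) (XT.nd (nat_lit 78) (nat_lit 0) (nat_lit 0) (XT.lf (nat_lit 0) (nat_lit 2299705106) (nat_lit 76) (nat_lit 77247846851) (nat_lit 76) (nat_lit 74175344623) (nat_lit 1) (nat_lit 4) (nat_lit 2) (nat_lit 5) (nat_lit 2) (nat_lit 4) (nat_lit 324) (nat_lit 242) (nat_lit 214)) (XT.lf (nat_lit 0) (nat_lit 7840951990) (nat_lit 76) (nat_lit 80530918154) (nat_lit 76) (nat_lit 77428575939) (nat_lit 1) (nat_lit 4) (nat_lit 2) (nat_lit 5) (nat_lit 2) (nat_lit 4) (nat_lit 325) (nat_lit 242) (nat_lit 213)))) (XT.nd (nat_lit 156) (nat_lit 0) (nat_lit 0) (XT.nd (nat_lit 78) (nat_lit 0) (nat_lit 0) (XT.lf (nat_lit 0) (nat_lit 13753076359) (nat_lit 76) (nat_lit 84112036453)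 (nat_lit 76) (nat_lit 80982064620) (nat_lit 1) (nat_lit 4) (nat_lit 2) (nat_lit 5) (nat_lit 2) (nat_lit 4) (nat_lit 326) (nat_lit 242) (nat_lit 212)) (XT.lf (nat_lit 0) (nat_lit 20071113021) (nat_lit 76) (nat_lit 88012423190) (nat_lit 76) (nat_lit 84856868378) (nat_lit 1) (nat_lit 4) (nat_lit 2) (nat_lit 5) (nat_lit 2) (nat_lit 4) (nat_lit 327) (nat_lit 242) (nat_lit 211))) (XT.nd (nat_lit 78) (nat_lit 0) (nat_lit 0) (XT.lf (nat_lit 0) (nat_lit 26832502196) (nat_lit 76) (nat_lit 92255191769) (nat_lit 76) (nat_lit 89075949012) (nat_lit 1) (nat_lit 4) (nat_lit 2) (nat_lit 5) (nat_lit 2) (nat_lit 4) (nat_lit 328) (nat_lit 242) (nat_lit 210)) (XT.lf (nat_lit 0) (nat_lit 34077311374) (nat_lit 76) (nat_lit 96865484521) (nat_lit 76) (nat_lit 93664308483) (nat_lit 1) (nat_lit 4) (nat_lit 2) (nat_lit 5) (nat_lit 2) (nat_lit 4) (nat_lit 329) (nat_lit 242) (nat_lit 209)))))) (XT.nd (nat_lit 624)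 (nat_lit 0) (nat_lit 0) (XT.nd (nat_lit 312) (nat_lit 0) (nat_lit 0) (XT.nd (nat_lit 156) (nat_lit 0) (nat_lit 0) (XT.nd (nat_lit 78) (nat_lit 0) (nat_lit 0) (XT.lf (nat_lit 0) (nat_lit 41848472757) (nat_lit 76) (nat_lit 101870621699) (nat_lit 76) (nat_lit 98649137067) (nat_lit 1) (nat_lit 4) (nat_lit 2) (nat_lit 5) (nat_lit 2) (nat_lit 4) (nat_lit 330) (nat_lit 242) (nat_lit 208)) (XT.lf (nat_lit 0) (nat_lit 50192037674) (nat_lit 76) (nat_lit 107300263377) (nat_lit 76) (nat_lit 104059974491) (nat_lit 1) (nat_lit 4) (nat_lit 2) (nat_lit 5) (nat_lit 2) (nat_lit 4) (nat_lit 331) (nat_lit 242) (nat_lit 207))) (XT.nd (nat_lit 78) (nat_lit 0) (nat_lit 0) (XT.lf (nat_lit 0) (nat_lit 59157449470) (nat_lit 76) (nat_lit 113186585207) (nat_lit 76) (nat_lit 109928884976) (nat_lit 1) (nat_lit 4) (nat_lit 2) (nat_lit 5) (nat_lit 2) (nat_lit 4) (nat_lit 332) (nat_lit 242) (nat_lit 206)) (XT.lf (nat_lit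 0) (nat_lit 68797836513) (nat_lit 76) (nat_lit 119564469099) (nat_lit 76) (nat_lit 116290647250) (nat_lit 1) (nat_lit 4) (nat_lit 2) (nat_lit 5) (nat_lit 2) (nat_lit 4) (nat_lit 333) (nat_lit 242) (nat_lit 205)))) (XT.nd (nat_lit 156) (nat_lit 0) (nat_lit 0) (XT.nd (nat_lit 78) (nat_lit 0) (nat_lit 0) (XT.lf (nat_lit 0) (nat_lit 79170327022) (nat_lit 76) (nat_lit 126471709918) (nat_lit 76) (nat_lit 123182960647) (nat_lit 1) (nat_lit 4) (nat_lit 2) (nat_lit 5) (nat_lit 2) (nat_lit 4) (nat_lit 334) (nat_lit 242) (nat_lit 204)) (XT.lf (nat_lit 0) (nat_lit 90336387607) (nat_lit 76) (nat_lit 133949239462) (nat_lit 76) (nat_lit 130646668503) (nat_lit 1) (nat_lit 4) (nat_lit 2) (nat_lit 5) (nat_lit 2) (nat_lit 4) (nat_lit 335) (nat_lit 242) (nat_lit 203))) (XT.nd (nat_lit 78) (nat_lit 0) (nat_lit 0) (XT.lf (nat_lit 0) (nat_lit 102362187516) (nat_lit 76) (nat_lit 142041369018) (nat_lit 76) (nat_lit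 138726000200) (nat_lit 1) (nat_lit 4) (nat_lit 2) (nat_lit 5) (nat_lit 2) (nat_lit 4) (nat_lit 336) (nat_lit 242) (nat_lit 202)) (XT.lf (nat_lit 0) (nat_lit 115318990749) (nat_lit 76) (nat_lit 150796051946) (nat_lit 76) (nat_lit 147468833258) (nat_lit 1) (nat_lit 4) (nat_lit 2) (nat_lit 5) (nat_lit 2) (nat_lit 4) (nat_lit 337) (nat_lit 242) (nat_lit 201))))) (XT.nd (nat_lit 312) (nat_lit 0) (nat_lit 0) (XT.nd (nat_lit 156) (nat_lit 0) (nat_lit 0) (XT.nd (nat_lit 78) (nat_lit 0) (nat_lit 0) (XT.lf (nat_lit 0) (nat_lit 129283578362) (nat_lit 76) (nat_lit 160265167848) (nat_lit 76) (nat_lit 156926977059) (nat_lit 1) (nat_lit 4) (nat_lit 2) (nat_lit 5) (nat_lit 2) (nat_lit 4) (nat_lit 338) (nat_lit 242) (nat_lit 200)) (XT.lf (nat_lit 0) (nat_lit 144338703466) (nat_lit 76) (nat_lit 170504830004) (nat_lit 76) (nat_lit 167156479862) (nat_lit 1) (nat_lit 4) (nat_lit 2) (nat_lit 5) (nat_lit 2)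 (nat_lit 4) (nat_lit 339) (nat_lit 242) (nat_lit 199))) (XT.nd (nat_lit 78) (nat_lit 0) (nat_lit 0) (XT.lf (nat_lit 0) (nat_lit 160573581619) (nat_lit 76) (nat_lit 181575717893) (nat_lit 76) (nat_lit 178217960943) (nat_lit 1) (nat_lit 4) (nat_lit 2) (nat_lit 5) (nat_lit 2) (nat_lit 4) (nat_lit 340) (nat_lit 242) (nat_lit 198)) (XT.lf (nat_lit 0) (nat_lit 178084419504) (nat_lit 76) (nat_lit 193543436777) (nat_lit 76) (nat_lit 190176969819) (nat_lit 1) (nat_lit 4) (nat_lit 2) (nat_lit 5) (nat_lit 2) (nat_lit 4) (nat_lit 341) (nat_lit 242) (nat_lit 197)))) (XT.nd (nat_lit 156) (nat_lit 0) (nat_lit 0) (XT.nd (nat_lit 78) (nat_lit 0) (nat_lit 0) (XT.lf (nat_lit 0) (nat_lit 196974985051) (nat_lit 76) (nat_lit 206478906472) (nat_lit 76) (nat_lit 203104374691) (nat_lit 1) (nat_lit 4) (nat_lit 2) (nat_lit 5) (nat_lit 2) (nat_lit 4) (nat_lit 342) (nat_lit 242) (nat_lit 196)) (XT.lf (nat_lit 0)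 (nat_lit 217357222352) (nat_lit 76) (nat_lit 220458781612) (nat_lit 76) (nat_lit 217076782404) (nat_lit 1) (nat_lit 4) (nat_lit 2) (nat_lit 5) (nat_lit 2) (nat_lit 4) (nat_lit 343) (nat_lit 242) (nat_lit 195))) (XT.nd (nat_lit 78) (nat_lit 0) (nat_lit 0) (XT.lf (nat_lit 0) (nat_lit 239351915034) (nat_lit 76) (nat_lit 235565905902) (nat_lit 76) (nat_lit 232176992409) (nat_lit 1) (nat_lit 4) (nat_lit 2) (nat_lit 5) (nat_lit 2) (nat_lit 4) (nat_lit 344) (nat_lit 242) (nat_lit 194)) (XT.lf (nat_lit 0) (nat_lit 263089402018) (nat_lit 76) (nat_lit 251889803043) (nat_lit 76) (nat_lit 248494487434) (nat_lit 1) (nat_lit 4) (nat_lit 2) (nat_lit 5) (nat_lit 2) (nat_lit 4) (nat_lit 345) (nat_lit 242) (nat_lit 193))))))))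
noncomputable def xc24 : XT := (XT.nd (nat_lit 36894) (nat_lit 0) (nat_lit 0) (XT.nd (nat_lit 1170) (nat_lit 0) (nat_lit 0) (XT.nd (nat_lit 546) (nat_lit 0) (nat_lit 0) (XT.nd (nat_lit 234) (nat_lit 0) (nat_lit 0) (XT.nd (nat_lit 78) (nat_lit 0) (nat_lit 0) (XT.lf (nat_lit 0) (nat_lit 288710349893) (nat_lit 76) (nat_lit 269527207238) (nat_lit 76) (nat_lit 266125963744) (nat_lit 1) (nat_lit 4) (nat_lit 2) (nat_lit 5) (nat_lit 2) (nat_lit 4) (nat_lit 346) (nat_lit 242) (nat_lit 192)) (XT.nd (nat_lit 78) (nat_lit 0) (nat_lit 0) (XT.lf (nat_lit 0) (nat_lit 316366586499) (nat_lit 76) (nat_lit 288582636439) (nat_lit 76) (nat_lit 285175904162) (nat_lit 1) (nat_lit 4) (nat_lit 2) (nat_lit 5) (nat_lit 2) (nat_lit 4) (nat_lit 347) (nat_lit 242) (nat_lit 191)) (XT.lf (nat_lit 0) (nat_lit 346222000644) (nat_lit 76) (nat_lit 309169011707) (nat_lit 76) (nat_lit 305757197225) (nat_lit 1) (nat_lit 4)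 (nat_lit 2) (nat_lit 5) (nat_lit 2) (nat_lit 4) (nat_lit 348) (nat_lit 242) (nat_lit 190)))) (XT.nd (nat_lit 156) (nat_lit 0) (nat_lit 0) (XT.nd (nat_lit 78) (nat_lit 0) (nat_lit 0) (XT.lf (nat_lit 0) (nat_lit 378453513302) (nat_lit 76) (nat_lit 331408326379) (nat_lit 76) (nat_lit 327991806150) (nat_lit 1) (nat_lit 4) (nat_lit 2) (nat_lit 5) (nat_lit 2) (nat_lit 4) (nat_lit 349) (nat_lit 242) (nat_lit 189)) (XT.lf (nat_lit 0) (nat_lit 413252126030) (nat_lit 76) (nat_lit 355432368984) (nat_lit 76) (nat_lit 352011491583) (nat_lit 1) (nat_lit 4) (nat_lit 2) (nat_lit 5) (nat_lit 2) (nat_lit 4) (nat_lit 350) (nat_lit 242) (nat_lit 188))) (XT.nd (nat_lit 78) (nat_lit 0) (nat_lit 0) (XT.lf (nat_lit 0) (nat_lit 450824052827) (nat_lit 76) (nat_lit 381383504220) (nat_lit 76) (nat_lit 377958592400) (nat_lit 1) (nat_lit 4) (nat_lit 2) (nat_lit 5) (nat_lit 2) (nat_lit 4) (nat_lit 351) (nat_lit 242)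 (nat_lit 187)) (XT.lf (nat_lit 0) (nat_lit 491391942150) (nat_lit 76) (nat_lit 409415516592) (nat_lit 76) (nat_lit 405986869199) (nat_lit 1) (nat_lit 4) (nat_lit 2) (nat_lit 5) (nat_lit 2) (nat_lit 4) (nat_lit 352) (nat_lit 242) (nat_lit 186))))) (XT.nd (nat_lit 312) (nat_lit 0) (nat_lit 0) (XT.nd (nat_lit 156) (nat_lit 0) (nat_lit 0) (XT.nd (nat_lit 78) (nat_lit 0) (nat_lit 0) (XT.lf (nat_lit 0) (nat_lit 535196196306) (nat_lit 76) (nat_lit 439694521729) (nat_lit 76) (nat_lit 436262415473) (nat_lit 1) (nat_lit 4) (nat_lit 2) (nat_lit 5) (nat_lit 2) (nat_lit 4) (nat_lit 353) (nat_lit 242) (nat_lit 185)) (XT.lf (nat_lit 0) (nat_lit 582496396060) (nat_lit 76) (nat_lit 472399950773) (nat_lit 76) (nat_lit 468964641864) (nat_lit 1) (nat_lit 4) (nat_lit 2) (nat_lit 5) (nat_lit 2) (nat_lit 4) (nat_lit 354) (nat_lit 242) (nat_lit 184))) (XT.nd (nat_lit 78) (nat_lit 0) (nat_lit 0) (XT.lf (nat_lit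 0) (nat_lit 633572838892) (nat_lit 76) (nat_lit 507725613673) (nat_lit 76) (nat_lit 504287339346) (nat_lit 1) (nat_lit 4) (nat_lit 2) (nat_lit 5) (nat_lit 2) (nat_lit 4) (nat_lit 355) (nat_lit 242) (nat_lit 183)) (XT.lf (nat_lit 0) (nat_lit 688728200019) (nat_lit 76) (nat_lit 545880847691) (nat_lit 76) (nat_lit 542439827606) (nat_lit 1) (nat_lit 4) (nat_lit 2) (nat_lit 5) (nat_lit 2) (nat_lit 4) (nat_lit 356) (nat_lit 242) (nat_lit 182)))) (XT.nd (nat_lit 156) (nat_lit 0) (nat_lit 0) (XT.nd (nat_lit 78) (nat_lit 0) (nat_lit 0) (XT.lf (nat_lit 0) (nat_lit 748289326024) (nat_lit 76) (nat_lit 587091757917) (nat_lit 76) (nat_lit 583648195464) (nat_lit 1) (nat_lit 4) (nat_lit 2) (nat_lit 5) (nat_lit 2) (nat_lit 4) (nat_lit 357) (nat_lit 242) (nat_lit 181)) (XT.lf (nat_lit 0) (nat_lit 812609171730) (nat_lit 76) (nat_lit 631602557153) (nat_lit 76) (nat_lit 628156640656) (nat_lit 1) (nat_lit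 4) (nat_lit 2) (nat_lit 5) (nat_lit 2) (nat_lit 4) (nat_lit 358) (nat_lit 242) (nat_lit 180))) (XT.nd (nat_lit 78) (nat_lit 0) (nat_lit 0) (XT.lf (nat_lit 0) (nat_lit 882068891778) (nat_lit 76) (nat_lit 679677013098) (nat_lit 76) (nat_lit 676228916930) (nat_lit 1) (nat_lit 4) (nat_lit 2) (nat_lit 5) (nat_lit 2) (nat_lit 4) (nat_lit 359) (nat_lit 242) (nat_lit 179)) (XT.lf (nat_lit 0) (nat_lit 957080099322) (nat_lit 76) (nat_lit 731600011417) (nat_lit 76) (nat_lit 728149897035) (nat_lit 1) (nat_lit 4) (nat_lit 2) (nat_lit 5) (nat_lit 2) (nat_lit 4) (nat_lit 360) (nat_lit 242) (nat_lit 178)))))) (XT.nd (nat_lit 624) (nat_lit 0) (nat_lit 0) (XT.nd (nat_lit 312) (nat_lit 0) (nat_lit 0) (XT.nd (nat_lit 156) (nat_lit 0) (nat_lit 0) (XT.nd (nat_lit 78) (nat_lit 0) (nat_lit 0) (XT.lf (nat_lit 0) (nat_lit 1038087305223) (nat_lit 76) (nat_lit 787679243952) (nat_lit 76) (nat_lit 784227260853) (nat_lit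 1) (nat_lit 4) (nat_lit 2) (nat_lit 5) (nat_lit 2) (nat_lit 4) (nat_lit 361) (nat_lit 242) (nat_lit 177)) (XT.lf (nat_lit 0) (nat_lit 1125570552182) (nat_lit 76) (nat_lit 848247032081) (nat_lit 76) (nat_lit 844793318688) (nat_lit 1) (nat_lit 4) (nat_lit 2) (nat_lit 5) (nat_lit 2) (nat_lit 4) (nat_lit 362) (nat_lit 242) (nat_lit 176))) (XT.nd (nat_lit 78) (nat_lit 0) (nat_lit 0) (XT.lf (nat_lit 0) (nat_lit 1220048259441) (nat_lit 76) (nat_lit 913662296029) (nat_lit 76) (nat_lit 910206980513) (nat_lit 1) (nat_lit 4) (nat_lit 2) (nat_lit 5) (nat_lit 2) (nat_lit 4) (nat_lit 363) (nat_lit 242) (nat_lit 175)) (XT.lf (nat_lit 0) (nat_lit 1322080294894) (nat_lit 76) (nat_lit 984312681805) (nat_lit 76) (nat_lit 980855882842) (nat_lit 1) (nat_lit 4) (nat_lit 2) (nat_lit 5) (nat_lit 2) (nat_lit 4) (nat_lit 364) (nat_lit 242) (nat_lit 174)))) (XT.nd (nat_lit 156) (nat_lit 0) (nat_lit 0) (XT.nd (nat_lit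 78) (nat_lit 0) (nat_lit 0) (XT.lf (nat_lit 0) (nat_lit 1432271292826) (nat_lit 76) (nat_lit 1060616858362) (nat_lit 76) (nat_lit 1057158685837) (nat_lit 1) (nat_lit 4) (nat_lit 2) (nat_lit 5) (nat_lit 2) (nat_lit 4) (nat_lit 365) (nat_lit 242) (nat_lit 173)) (XT.lf (nat_lit 0) (nat_lit 1551274236927) (nat_lit 76) (nat_lit 1143026998598) (nat_lit 76) (nat_lit 1139567554256) (nat_lit 1) (nat_lit 4) (nat_lit 2) (nat_lit 5) (nat_lit 2) (nat_lit 4) (nat_lit 366) (nat_lit 242) (nat_lit 172))) (XT.nd (nat_lit 78) (nat_lit 0) (nat_lit 0) (XT.lf (nat_lit 0) (nat_lit 1679794329831) (nat_lit 76) (nat_lit 1232031458901) (nat_lit 76) (nat_lit 1228570836950) (nat_lit 1) (nat_lit 4) (nat_lit 2) (nat_lit 5) (nat_lit 2) (nat_lit 4) (nat_lit 367) (nat_lit 242) (nat_lit 171)) (XT.lf (nat_lit 0) (nat_lit 1818593172086) (nat_lit 76) (nat_lit 1328157673107) (nat_lit 76) (nat_lit 1324695960778) (nat_lit 1)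 (nat_lit 4) (nat_lit 2) (nat_lit 5) (nat_lit 2) (nat_lit 4) (nat_lit 368) (nat_lit 242) (nat_lit 170))))) (XT.nd (nat_lit 34788) (nat_lit 0) (nat_lit 456) (XT.nd (nat_lit 156) (nat_lit 0) (nat_lit 0) (XT.nd (nat_lit 78) (nat_lit 0) (nat_lit 0) (XT.lf (nat_lit 0) (nat_lit 1968493275352) (nat_lit 76) (nat_lit 1431975278043) (nat_lit 76) (nat_lit 1428512556105) (nat_lit 1) (nat_lit 4) (nat_lit 2) (nat_lit 5) (nat_lit 2) (nat_lit 4) (nat_lit 369) (nat_lit 242) (nat_lit 169)) (XT.lf (nat_lit 0) (nat_lit 2130382936535) (nat_lit 76) (nat_lit 1544099489145) (nat_lit 76) (nat_lit 1540635832383) (nat_lit 1) (nat_lit 4) (nat_lit 2) (nat_lit 5) (nat_lit 2) (nat_lit 4) (nat_lit 370) (nat_lit 242) (nat_lit 168))) (XT.nd (nat_lit 78) (nat_lit 0) (nat_lit 0) (XT.lf (nat_lit 0) (nat_lit 2305221501778) (nat_lit 76) (nat_lit 1665194746183) (nat_lit 76) (nat_lit 1661730223843) (nat_lit 1) (nat_lit 4) (nat_lit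 2) (nat_lit 5) (nat_lit 2) (nat_lit 4) (nat_lit 371) (nat_lit 242) (nat_lit 167)) (XT.lf (nat_lit 0) (nat_lit 2494045051466) (nat_lit 76) (nat_lit 1795978650679) (nat_lit 76) (nat_lit 1792513326879) (nat_lit 1) (nat_lit 4) (nat_lit 2) (nat_lit 5) (nat_lit 2) (nat_lit 4) (nat_lit 372) (nat_lit 242) (nat_lit 166)))) (XT.nd (nat_lit 156) (nat_lit 76) (nat_lit 0) (XT.nd (nat_lit 78) (nat_lit 152) (nat_lit 0) (XT.lf (nat_lit 0) (nat_lit 8314635010) (nat_lit 76) (nat_lit 590433931) (nat_lit 76) (nat_lit 590433931) (nat_lit 10) (nat_lit 4) (nat_lit 11) (nat_lit 5) (nat_lit 11) (nat_lit 4) (nat_lit 294) (nat_lit 243) (nat_lit 243)) (XT.lf (nat_lit 0) (nat_lit 3413799121) (nat_lit 152) (nat_lit 13607774453) (nat_lit 0) (nat_lit 3089508003) (nat_lit 8) (nat_lit 5) (nat_lit 10) (nat_lit 4) (nat_lit 8) (nat_lit 4) (nat_lit 295) (nat_lit 243) (nat_lit 242))) (XT.nd (nat_lit 78) (nat_lit 76) (nat_lit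 0) (XT.lf (nat_lit 0) (nat_lit 8161842261) (nat_lit 152) (nat_lit 5631393986) (nat_lit 0) (nat_lit 7537281589) (nat_lit 8) (nat_lit 5) (nat_lit 10) (nat_lit 4) (nat_lit 8) (nat_lit 4) (nat_lit 296) (nat_lit 243) (nat_lit 241)) (XT.lf (nat_lit 0) (nat_lit 2687301818) (nat_lit 76) (nat_lit 10438054071) (nat_lit 76) (nat_lit 9535466035) (nat_lit 7) (nat_lit 4) (nat_lit 8) (nat_lit 5) (nat_lit 8) (nat_lit 4) (nat_lit 297) (nat_lit 243) (nat_lit 240))))))) (XT.nd (nat_lit 1248) (nat_lit 76) (nat_lit 0) (XT.nd (nat_lit 624) (nat_lit 152) (nat_lit 0) (XT.nd (nat_lit 312) (nat_lit 76) (nat_lit 0) (XT.nd (nat_lit 156) (nat_lit 152) (nat_lit 0) (XT.nd (nat_lit 78) (nat_lit 0) (nat_lit 0) (XT.lf (nat_lit 0) (nat_lit 11572422601) (nat_lit 76) (nat_lit 6845375850) (nat_lit 76) (nat_lit 5685355069) (nat_lit 7) (nat_lit 4) (nat_lit 8) (nat_lit 5) (nat_lit 8) (nat_lit 4) (nat_lit 298) (nat_lit 243)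 (nat_lit 239)) (XT.lf (nat_lit 0) (nat_lit 20780081702) (nat_lit 76) (nat_lit 3147883932) (nat_lit 76) (nat_lit 1749499498) (nat_lit 7) (nat_lit 4) (nat_lit 8) (nat_lit 5) (nat_lit 8) (nat_lit 4) (nat_lit 299) (nat_lit 243) (nat_lit 238))) (XT.nd (nat_lit 78) (nat_lit 0) (nat_lit 0) (XT.lf (nat_lit 0) (nat_lit 2274052161) (nat_lit 152) (nat_lit 24332247756) (nat_lit 0) (nat_lit 774893347) (nat_lit 5) (nat_lit 5) (nat_lit 7) (nat_lit 4) (nat_lit 5) (nat_lit 4) (nat_lit 300) (nat_lit 243) (nat_lit 237)) (XT.lf (nat_lit 0) (nat_lit 6550309695) (nat_lit 152) (nat_lit 17803428285) (nat_lit 0) (nat_lit 4861930128) (nat_lit 5) (nat_lit 5) (nat_lit 7) (nat_lit 4) (nat_lit 5) (nat_lit 4) (nat_lit 301) (nat_lit 243) (nat_lit 236)))) (XT.nd (nat_lit 156) (nat_lit 76) (nat_lit 0) (XT.nd (nat_lit 78) (nat_lit 0) (nat_lit 0) (XT.lf (nat_lit 0) (nat_lit 10989219490) (nat_lit 152) (nat_lit 11096504571)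 (nat_lit 0) (nat_lit 9125635522) (nat_lit 5) (nat_lit 5) (nat_lit 7) (nat_lit 4) (nat_lit 5) (nat_lit 4) (nat_lit 302) (nat_lit 243) (nat_lit 235)) (XT.lf (nat_lit 0) (nat_lit 15617086195) (nat_lit 152) (nat_lit 4171731880) (nat_lit 0) (nat_lit 13591275931) (nat_lit 5) (nat_lit 5) (nat_lit 7) (nat_lit 4) (nat_lit 5) (nat_lit 4) (nat_lit 303) (nat_lit 243) (nat_lit 234))) (XT.nd (nat_lit 78) (nat_lit 0) (nat_lit 0) (XT.lf (nat_lit 0) (nat_lit 3170528135) (nat_lit 76) (nat_lit 17367057350) (nat_lit 76) (nat_lit 15191037551) (nat_lit 4) (nat_lit 4) (nat_lit 5) (nat_lit 5) (nat_lit 5) (nat_lit 4) (nat_lit 304) (nat_lit 243) (nat_lit 233)) (XT.lf (nat_lit 0) (nat_lit 11049792706) (nat_lit 76) (nat_lit 14766625254) (nat_lit 76) (nat_lit 12451522554) (nat_lit 4) (nat_lit 4) (nat_lit 5) (nat_lit 5) (nat_lit 5) (nat_lit 4) (nat_lit 305) (nat_lit 243) (nat_lit 232))))) (XT.nd (nat_lit 312) (nat_lit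 152) (nat_lit 0) (XT.nd (nat_lit 156) (nat_lit 0) (nat_lit 0) (XT.nd (nat_lit 78) (nat_lit 0) (nat_lit 0) (XT.lf (nat_lit 0) (nat_lit 19293077763) (nat_lit 76) (nat_lit 12086174364) (nat_lit 76) (nat_lit 9642291199) (nat_lit 4) (nat_lit 4) (nat_lit 5) (nat_lit 5) (nat_lit 5) (nat_lit 4) (nat_lit 306) (nat_lit 243) (nat_lit 231)) (XT.lf (nat_lit 0) (nat_lit 27949232402) (nat_lit 76) (nat_lit 9309820526) (nat_lit 76) (nat_lit 6746696190) (nat_lit 4) (nat_lit 4) (nat_lit 5) (nat_lit 5) (nat_lit 5) (nat_lit 4) (nat_lit 307) (nat_lit 243) (nat_lit 230))) (XT.nd (nat_lit 78) (nat_lit 0) (nat_lit 0) (XT.lf (nat_lit 0) (nat_lit 37069552355) (nat_lit 76) (nat_lit 6421111273) (nat_lit 76) (nat_lit 3747578445) (nat_lit 4) (nat_lit 4) (nat_lit 5) (nat_lit 5) (nat_lit 5) (nat_lit 4) (nat_lit 308) (nat_lit 243) (nat_lit 229)) (XT.lf (nat_lit 0) (nat_lit 46708083961) (nat_lit 76) (nat_lit 3402928327)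 (nat_lit 76) (nat_lit 627165414) (nat_lit 4) (nat_lit 4) (nat_lit 5) (nat_lit 5) (nat_lit 5) (nat_lit 4) (nat_lit 309) (nat_lit 243) (nat_lit 228)))) (XT.nd (nat_lit 156) (nat_lit 0) (nat_lit 0) (XT.nd (nat_lit 78) (nat_lit 0) (nat_lit 0) (XT.lf (nat_lit 0) (nat_lit 2455139564) (nat_lit 76) (nat_lit 105225802) (nat_lit 152) (nat_lit 51956141345) (nat_lit 2) (nat_lit 5) (nat_lit 3) (nat_lit 5) (nat_lit 4) (nat_lit 4) (nat_lit 310) (nat_lit 243) (nat_lit 227)) (XT.lf (nat_lit 0) (nat_lit 6061569403) (nat_lit 152) (nat_lit 49204253519) (nat_lit 0) (nat_lit 3322619200) (nat_lit 2) (nat_lit 5) (nat_lit 4) (nat_lit 4) (nat_lit 2) (nat_lit 4) (nat_lit 311) (nat_lit 243) (nat_lit 226))) (XT.nd (nat_lit 78) (nat_lit 0) (nat_lit 0) (XT.lf (nat_lit 0) (nat_lit 9749656703) (nat_lit 152) (nat_lit 46308412452) (nat_lit 0) (nat_lit 6935564336) (nat_lit 2) (nat_lit 5) (nat_lit 4) (nat_lit 4) (nat_lit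 2) (nat_lit 4) (nat_lit 312) (nat_lit 243) (nat_lit 225)) (XT.lf (nat_lit 0) (nat_lit 13643951915) (nat_lit 152) (nat_lit 43354152723) (nat_lit 0) (nat_lit 10760283469) (nat_lit 2) (nat_lit 5) (nat_lit 4) (nat_lit 4) (nat_lit 2) (nat_lit 4) (nat_lit 313) (nat_lit 243) (nat_lit 224)))))) (XT.nd (nat_lit 624) (nat_lit 76) (nat_lit 0) (XT.nd (nat_lit 312) (nat_lit 0) (nat_lit 0) (XT.nd (nat_lit 156) (nat_lit 0) (nat_lit 0) (XT.nd (nat_lit 78) (nat_lit 0) (nat_lit 0) (XT.lf (nat_lit 0) (nat_lit 17767532343) (nat_lit 152) (nat_lit 40323967607) (nat_lit 0) (nat_lit 14819441604) (nat_lit 2) (nat_lit 5) (nat_lit 4) (nat_lit 4) (nat_lit 2) (nat_lit 4) (nat_lit 314) (nat_lit 243) (nat_lit 223)) (XT.lf (nat_lit 0) (nat_lit 22144834021) (nat_lit 152) (nat_lit 37199900454) (nat_lit 0) (nat_lit 19137093009) (nat_lit 2) (nat_lit 5) (nat_lit 4) (nat_lit 4) (nat_lit 2) (nat_lit 4) (nat_lit 315) (nat_lit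 243) (nat_lit 222))) (XT.nd (nat_lit 78) (nat_lit 0) (nat_lit 0) (XT.lf (nat_lit 0) (nat_lit 26801796513) (nat_lit 152) (nat_lit 33963438271) (nat_lit 0) (nat_lit 23738823767) (nat_lit 2) (nat_lit 5) (nat_lit 4) (nat_lit 4) (nat_lit 2) (nat_lit 4) (nat_lit 316) (nat_lit 243) (nat_lit 221)) (XT.lf (nat_lit 0) (nat_lit 31766016635) (nat_lit 152) (nat_lit 30595402024) (nat_lit 0) (nat_lit 28651903394) (nat_lit 2) (nat_lit 5) (nat_lit 4) (nat_lit 4) (nat_lit 2) (nat_lit 4) (nat_lit 317) (nat_lit 243) (nat_lit 220)))) (XT.nd (nat_lit 156) (nat_lit 0) (nat_lit 0) (XT.nd (nat_lit 78) (nat_lit 0) (nat_lit 0) (XT.lf (nat_lit 0) (nat_lit 37066911987) (nat_lit 152) (nat_lit 27075832979) (nat_lit 0) (nat_lit 33905446436) (nat_lit 2) (nat_lit 5) (nat_lit 4) (nat_lit 4) (nat_lit 2) (nat_lit 4) (nat_lit 318) (nat_lit 243) (nat_lit 219)) (XT.lf (nat_lit 0) (nat_lit 42735895282) (nat_lit 152) (nat_lit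 23383874431) (nat_lit 0) (nat_lit 39530585000) (nat_lit 2) (nat_lit 5) (nat_lit 4) (nat_lit 4) (nat_lit 2) (nat_lit 4) (nat_lit 319) (nat_lit 243) (nat_lit 218))) (XT.nd (nat_lit 78) (nat_lit 0) (nat_lit 0) (XT.lf (nat_lit 0) (nat_lit 48806560495) (nat_lit 152) (nat_lit 19497648107) (nat_lit 0) (nat_lit 45560653240) (nat_lit 2) (nat_lit 5) (nat_lit 4) (nat_lit 4) (nat_lit 2) (nat_lit 4) (nat_lit 320) (nat_lit 243) (nat_lit 217)) (XT.lf (nat_lit 0) (nat_lit 55314881939) (nat_lit 152) (nat_lit 15394124518) (nat_lit 0) (nat_lit 52031384894) (nat_lit 2) (nat_lit 5) (nat_lit 4) (nat_lit 4) (nat_lit 2) (nat_lit 4) (nat_lit 321) (nat_lit 243) (nat_lit 216))))) (XT.nd (nat_lit 312) (nat_lit 0) (nat_lit 0) (XT.nd (nat_lit 156) (nat_lit 76) (nat_lit 0) (XT.nd (nat_lit 78) (nat_lit 0) (nat_lit 0) (XT.lf (nat_lit 0) (nat_lit 62299427445) (nat_lit 152) (nat_lit 11048986486) (nat_lit 0) (nat_lit 58981125039)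 (nat_lit 2) (nat_lit 5) (nat_lit 4) (nat_lit 4) (nat_lit 2) (nat_lit 4) (nat_lit 322) (nat_lit 243) (nat_lit 215)) (XT.lf (nat_lit 0) (nat_lit 69801586911) (nat_lit 152) (nat_lit 6436485047) (nat_lit 0) (nat_lit 66451057319) (nat_lit 2) (nat_lit 5) (nat_lit 4) (nat_lit 4) (nat_lit 2) (nat_lit 4) (nat_lit 323) (nat_lit 243) (nat_lit 214))) (XT.nd (nat_lit 78) (nat_lit 76) (nat_lit 0) (XT.lf (nat_lit 0) (nat_lit 77865817580) (nat_lit 152) (nat_lit 1529286857) (nat_lit 0) (nat_lit 74485448000) (nat_lit 2) (nat_lit 5) (nat_lit 4) (nat_lit 4) (nat_lit 2) (nat_lit 4) (nat_lit 324) (nat_lit 243) (nat_lit 213)) (XT.lf (nat_lit 0) (nat_lit 3896612093) (nat_lit 76) (nat_lit 82737009005) (nat_lit 76) (nat_lit 79329009807) (nat_lit 1) (nat_lit 4) (nat_lit 2) (nat_lit 5) (nat_lit 2) (nat_lit 4) (nat_lit 325) (nat_lit 243) (nat_lit 212)))) (XT.nd (nat_lit 156) (nat_lit 0) (nat_lit 0) (XT.nd (nat_lit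 78) (nat_lit 0) (nat_lit 0) (XT.lf (nat_lit 0) (nat_lit 9776497204) (nat_lit 76) (nat_lit 86333886426) (nat_lit 76) (nat_lit 82900304249) (nat_lit 1) (nat_lit 4) (nat_lit 2) (nat_lit 5) (nat_lit 2) (nat_lit 4) (nat_lit 326) (nat_lit 243) (nat_lit 211)) (XT.lf (nat_lit 0) (nat_lit 16064682703) (nat_lit 76) (nat_lit 90248864944) (nat_lit 76) (nat_lit 86791594823) (nat_lit 1) (nat_lit 4) (nat_lit 2) (nat_lit 5) (nat_lit 2) (nat_lit 4) (nat_lit 327) (nat_lit 243) (nat_lit 210))) (XT.nd (nat_lit 78) (nat_lit 0) (nat_lit 0) (XT.lf (nat_lit 0) (nat_lit 22798431911) (nat_lit 76) (nat_lit 94505144429) (nat_lit 76) (nat_lit 91025941027) (nat_lit 1) (nat_lit 4) (nat_lit 2) (nat_lit 5) (nat_lit 2) (nat_lit 4) (nat_lit 328) (nat_lit 243) (nat_lit 209)) (XT.lf (nat_lit 0) (nat_lit 30017648527) (nat_lit 76) (nat_lit 99127947281) (nat_lit 76) (nat_lit 95628435284) (nat_lit 1) (nat_lit 4) (nat_lit 2)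 (nat_lit 5) (nat_lit 2) (nat_lit 4) (nat_lit 329) (nat_lit 243) (nat_lit 208))))))))
noncomputable def xc25 : XT := (XT.nd (nat_lit 2418) (nat_lit 0) (nat_lit 0) (XT.nd (nat_lit 1170) (nat_lit 0) (nat_lit 0) (XT.nd (nat_lit 546) (nat_lit 0) (nat_lit 0) (XT.nd (nat_lit 234) (nat_lit 0) (nat_lit 0) (XT.nd (nat_lit 78) (nat_lit 0) (nat_lit 0) (XT.lf (nat_lit 0) (nat_lit 37765113094) (nat_lit 76) (nat_lit 104144667884) (nat_lit 76) (nat_lit 100626351634) (nat_lit 1) (nat_lit 4) (nat_lit 2) (nat_lit 5) (nat_lit 2) (nat_lit 4) (nat_lit 330) (nat_lit 243) (nat_lit 207)) (XT.nd (nat_lit 78) (nat_lit 0) (nat_lit 0) (XT.lf (nat_lit 0) (nat_lit 46086736514) (nat_lit 76) (nat_lit 109585034956) (nat_lit 76) (nat_lit 106049307360) (nat_lit 1) (nat_lit 4) (nat_lit 2) (nat_lit 5) (nat_lit 2) (nat_lit 4) (nat_lit 331) (nat_lit 243) (nat_lit 206)) (XT.lf (nat_lit 0) (nat_lit 55031832109) (nat_lit 76)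 (nat_lit 115481287707) (nat_lit 76) (nat_lit 111929438494) (nat_lit 1) (nat_lit 4) (nat_lit 2) (nat_lit 5) (nat_lit 2) (nat_lit 4) (nat_lit 332) (nat_lit 243) (nat_lit 205)))) (XT.nd (nat_lit 156) (nat_lit 0) (nat_lit 0) (XT.nd (nat_lit 78) (nat_lit 0) (nat_lit 0) (XT.lf (nat_lit 0) (nat_lit 64653407855) (nat_lit 76) (nat_lit 121868366894) (nat_lit 76) (nat_lit 118301590259) (nat_lit 1) (nat_lit 4) (nat_lit 2) (nat_lit 5) (nat_lit 2) (nat_lit 4) (nat_lit 333) (nat_lit 243) (nat_lit 204)) (XT.lf (nat_lit 0) (nat_lit 75008480497) (nat_lit 76) (nat_lit 128784121876) (nat_lit 76) (nat_lit 125203523553) (nat_lit 1) (nat_lit 4) (nat_lit 2) (nat_lit 5) (nat_lit 2) (nat_lit 4) (nat_lit 334) (nat_lit 243) (nat_lit 203))) (XT.nd (nat_lit 78) (nat_lit 0) (nat_lit 0) (XT.lf (nat_lit 0) (nat_lit 86158413426) (nat_lit 76) (nat_lit 136269534905) (nat_lit 76) (nat_lit 132676138723) (nat_lit 1) (nat_lit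 4) (nat_lit 2) (nat_lit 5) (nat_lit 2) (nat_lit 4) (nat_lit 335) (nat_lit 243) (nat_lit 202)) (XT.lf (nat_lit 0) (nat_lit 98169280322) (nat_lit 76) (nat_lit 144368963984) (nat_lit 76) (nat_lit 140763717932) (nat_lit 1) (nat_lit 4) (nat_lit 2) (nat_lit 5) (nat_lit 2) (nat_lit 4) (nat_lit 336) (nat_lit 243) (nat_lit 201))))) (XT.nd (nat_lit 312) (nat_lit 0) (nat_lit 0) (XT.nd (nat_lit 156) (nat_lit 0) (nat_lit 0) (XT.nd (nat_lit 78) (nat_lit 0) (nat_lit 0) (XT.lf (nat_lit 0) (nat_lit 111112256690) (nat_lit 76) (nat_lit 153130405729) (nat_lit 76) (nat_lit 149514187576) (nat_lit 1) (nat_lit 4) (nat_lit 2) (nat_lit 5) (nat_lit 2) (nat_lit 4) (nat_lit 337) (nat_lit 243) (nat_lit 200)) (XT.lf (nat_lit 0) (nat_lit 125064041650) (nat_lit 76) (nat_lit 162605779796) (nat_lit 76) (nat_lit 158979402289) (nat_lit 1) (nat_lit 4) (nat_lit 2) (nat_lit 5) (nat_lit 2) (nat_lit 4) (nat_lit 338) (nat_lit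 243) (nat_lit 199))) (XT.nd (nat_lit 78) (nat_lit 0) (nat_lit 0) (XT.lf (nat_lit 0) (nat_lit 140107312447) (nat_lit 76) (nat_lit 172851236548) (nat_lit 76) (nat_lit 169215452233) (nat_lit 1) (nat_lit 4) (nat_lit 2) (nat_lit 5) (nat_lit 2) (nat_lit 4) (nat_lit 339) (nat_lit 243) (nat_lit 198)) (XT.lf (nat_lit 0) (nat_lit 156331214388) (nat_lit 76) (nat_lit 183927489805) (nat_lit 76) (nat_lit 180282995482) (nat_lit 1) (nat_lit 4) (nat_lit 2) (nat_lit 5) (nat_lit 2) (nat_lit 4) (nat_lit 340) (nat_lit 243) (nat_lit 197)))) (XT.nd (nat_lit 156) (nat_lit 0) (nat_lit 0) (XT.nd (nat_lit 78) (nat_lit 0) (nat_lit 0) (XT.lf (nat_lit 0) (nat_lit 173831889115) (nat_lit 76) (nat_lit 195900176621) (nat_lit 76) (nat_lit 192247617477) (nat_lit 1) (nat_lit 4) (nat_lit 2) (nat_lit 5) (nat_lit 2) (nat_lit 4) (nat_lit 341) (nat_lit 243) (nat_lit 196)) (XT.lf (nat_lit 0) (nat_lit 192713044330) (nat_lit 76)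 (nat_lit 208840246254) (nat_lit 76) (nat_lit 205180219681) (nat_lit 1) (nat_lit 4) (nat_lit 2) (nat_lit 5) (nat_lit 2) (nat_lit 4) (nat_lit 342) (nat_lit 243) (nat_lit 195))) (XT.nd (nat_lit 78) (nat_lit 0) (nat_lit 0) (XT.lf (nat_lit 0) (nat_lit 213086568361) (nat_lit 76) (nat_lit 222824380595) (nat_lit 76) (nat_lit 219157439738) (nat_lit 1) (nat_lit 4) (nat_lit 2) (nat_lit 5) (nat_lit 2) (nat_lit 4) (nat_lit 343) (nat_lit 243) (nat_lit 194)) (XT.lf (nat_lit 0) (nat_lit 235073193200) (nat_lit 76) (nat_lit 237935448591) (nat_lit 76) (nat_lit 234262105617) (nat_lit 1) (nat_lit 4) (nat_lit 2) (nat_lit 5) (nat_lit 2) (nat_lit 4) (nat_lit 344) (nat_lit 243) (nat_lit 193)))))) (XT.nd (nat_lit 624) (nat_lit 0) (nat_lit 0) (XT.nd (nat_lit 312) (nat_lit 0) (nat_lit 0) (XT.nd (nat_lit 156) (nat_lit 0) (nat_lit 0) (XT.nd (nat_lit 78) (nat_lit 0) (nat_lit 0) (XT.lf (nat_lit 0) (nat_lit 258803209960)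 (nat_lit 76) (nat_lit 254262997310) (nat_lit 76) (nat_lit 250583726451) (nat_lit 1) (nat_lit 4) (nat_lit 2) (nat_lit 5) (nat_lit 2) (nat_lit 4) (nat_lit 345) (nat_lit 243) (nat_lit 192)) (XT.lf (nat_lit 0) (nat_lit 284417240960) (nat_lit 76) (nat_lit 271903782596) (nat_lit 76) (nat_lit 268219022955) (nat_lit 1) (nat_lit 4) (nat_lit 2) (nat_lit 5) (nat_lit 2) (nat_lit 4) (nat_lit 346) (nat_lit 243) (nat_lit 191))) (XT.nd (nat_lit 78) (nat_lit 0) (nat_lit 0) (XT.lf (nat_lit 0) (nat_lit 312067073052) (nat_lit 76) (nat_lit 290962342437) (nat_lit 76) (nat_lit 287272500591) (nat_lit 1) (nat_lit 4) (nat_lit 2) (nat_lit 5) (nat_lit 2) (nat_lit 4) (nat_lit 347) (nat_lit 243) (nat_lit 190)) (XT.lf (nat_lit 0) (nat_lit 341916557092) (nat_lit 76) (nat_lit 311551616447) (nat_lit 76) (nat_lit 307857068854) (nat_lit 1) (nat_lit 4) (nat_lit 2) (nat_lit 5) (nat_lit 2) (nat_lit 4) (nat_lit 348) (nat_lit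 243) (nat_lit 189)))) (XT.nd (nat_lit 156) (nat_lit 0) (nat_lit 0) (XT.nd (nat_lit 78) (nat_lit 0) (nat_lit 0) (XT.lf (nat_lit 0) (nat_lit 374142578912) (nat_lit 76) (nat_lit 333793615137) (nat_lit 76) (nat_lit 330094710372) (nat_lit 1) (nat_lit 4) (nat_lit 2) (nat_lit 5) (nat_lit 2) (nat_lit 4) (nat_lit 349) (nat_lit 243) (nat_lit 188)) (XT.lf (nat_lit 0) (nat_lit 408936107530) (nat_lit 76) (nat_lit 357820142946) (nat_lit 76) (nat_lit 354117203762) (nat_lit 1) (nat_lit 4) (nat_lit 2) (nat_lit 5) (nat_lit 2) (nat_lit 4) (nat_lit 350) (nat_lit 243) (nat_lit 187))) (XT.nd (nat_lit 78) (nat_lit 0) (nat_lit 0) (XT.lf (nat_lit 0) (nat_lit 446503326818) (nat_lit 76) (nat_lit 383773579296) (nat_lit 76) (nat_lit 380066904539) (nat_lit 1) (nat_lit 4) (nat_lit 2) (nat_lit 5) (nat_lit 2) (nat_lit 4) (nat_lit 351) (nat_lit 243) (nat_lit 186)) (XT.lf (nat_lit 0) (nat_lit 487066857337) (nat_lit 76)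 (nat_lit 411807722329) (nat_lit 76) (nat_lit 408097588708) (nat_lit 1) (nat_lit 4) (nat_lit 2) (nat_lit 5) (nat_lit 2) (nat_lit 4) (nat_lit 352) (nat_lit 243) (nat_lit 185))))) (XT.nd (nat_lit 312) (nat_lit 0) (nat_lit 0) (XT.nd (nat_lit 156) (nat_lit 0) (nat_lit 0) (XT.nd (nat_lit 78) (nat_lit 0) (nat_lit 0) (XT.lf (nat_lit 0) (nat_lit 530867075563) (nat_lit 76) (nat_lit 442088700301) (nat_lit 76) (nat_lit 438375364028) (nat_lit 1) (nat_lit 4) (nat_lit 2) (nat_lit 5) (nat_lit 2) (nat_lit 4) (nat_lit 353) (nat_lit 243) (nat_lit 184)) (XT.lf (nat_lit 0) (nat_lit 578163538344) (nat_lit 76) (nat_lit 474795956043) (nat_lit 76) (nat_lit 471079654351) (nat_lit 1) (nat_lit 4) (nat_lit 2) (nat_lit 5) (nat_lit 2) (nat_lit 4) (nat_lit 354) (nat_lit 243) (nat_lit 183))) (XT.nd (nat_lit 78) (nat_lit 0) (nat_lit 0) (XT.lf (nat_lit 0) (nat_lit 629236521017) (nat_lit 76) (nat_lit 510123310330) (nat_lit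 76) (nat_lit 506404262881) (nat_lit 1) (nat_lit 4) (nat_lit 2) (nat_lit 5) (nat_lit 2) (nat_lit 4) (nat_lit 355) (nat_lit 243) (nat_lit 182)) (XT.lf (nat_lit 0) (nat_lit 684388678292) (nat_lit 76) (nat_lit 548280110448) (nat_lit 76) (nat_lit 544558520630) (nat_lit 1) (nat_lit 4) (nat_lit 2) (nat_lit 5) (nat_lit 2) (nat_lit 4) (nat_lit 356) (nat_lit 243) (nat_lit 181)))) (XT.nd (nat_lit 156) (nat_lit 0) (nat_lit 0) (XT.nd (nat_lit 78) (nat_lit 0) (nat_lit 0) (XT.lf (nat_lit 0) (nat_lit 743946837769) (nat_lit 76) (nat_lit 589492470766) (nat_lit 76) (nat_lit 585768526904) (nat_lit 1) (nat_lit 4) (nat_lit 2) (nat_lit 5) (nat_lit 2) (nat_lit 4) (nat_lit 357) (nat_lit 243) (nat_lit 180)) (XT.lf (nat_lit 0) (nat_lit 808263936689) (nat_lit 76) (nat_lit 634004612680) (nat_lit 76) (nat_lit 630278489147) (nat_lit 1) (nat_lit 4) (nat_lit 2) (nat_lit 5) (nat_lit 2) (nat_lit 4) (nat_lit 358) (nat_lit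 243) (nat_lit 179))) (XT.nd (nat_lit 78) (nat_lit 0) (nat_lit 0) (XT.lf (nat_lit 0) (nat_lit 877721113416) (nat_lit 76) (nat_lit 682080311846) (nat_lit 76) (nat_lit 678352170099) (nat_lit 1) (nat_lit 4) (nat_lit 2) (nat_lit 5) (nat_lit 2) (nat_lit 4) (nat_lit 359) (nat_lit 243) (nat_lit 178)) (XT.lf (nat_lit 0) (nat_lit 952729966033) (nat_lit 76) (nat_lit 734004461295) (nat_lit 76) (nat_lit 730274450831) (nat_lit 1) (nat_lit 4) (nat_lit 2) (nat_lit 5) (nat_lit 2) (nat_lit 4) (nat_lit 360) (nat_lit 243) (nat_lit 177))))))) (XT.nd (nat_lit 35568) (nat_lit 0) (nat_lit 76) (XT.nd (nat_lit 624) (nat_lit 0) (nat_lit 0) (XT.nd (nat_lit 312) (nat_lit 0) (nat_lit 0) (XT.nd (nat_lit 156) (nat_lit 0) (nat_lit 0) (XT.nd (nat_lit 78) (nat_lit 0) (nat_lit 0) (XT.lf (nat_lit 0) (nat_lit 1033734991447) (nat_lit 76) (nat_lit 790084759690) (nat_lit 76) (nat_lit 786353018934) (nat_lit 1) (nat_lit 4) (nat_lit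 2) (nat_lit 5) (nat_lit 2) (nat_lit 4) (nat_lit 361) (nat_lit 243) (nat_lit 176)) (XT.lf (nat_lit 0) (nat_lit 1121216219436) (nat_lit 76) (nat_lit 850653534727) (nat_lit 76) (nat_lit 846920191847) (nat_lit 1) (nat_lit 4) (nat_lit 2) (nat_lit 5) (nat_lit 2) (nat_lit 4) (nat_lit 362) (nat_lit 243) (nat_lit 175))) (XT.nd (nat_lit 78) (nat_lit 0) (nat_lit 0) (XT.lf (nat_lit 0) (nat_lit 1215692057279) (nat_lit 76) (nat_lit 916069712479) (nat_lit 76) (nat_lit 912334886152) (nat_lit 1) (nat_lit 4) (nat_lit 2) (nat_lit 5) (nat_lit 2) (nat_lit 4) (nat_lit 363) (nat_lit 243) (nat_lit 174)) (XT.lf (nat_lit 0) (nat_lit 1317722361791) (nat_lit 76) (nat_lit 986720944370) (nat_lit 76) (nat_lit 982984744481) (nat_lit 1) (nat_lit 4) (nat_lit 2) (nat_lit 5) (nat_lit 2) (nat_lit 4) (nat_lit 364) (nat_lit 243) (nat_lit 173)))) (XT.nd (nat_lit 156) (nat_lit 0) (nat_lit 0) (XT.nd (nat_lit 78) (nat_lit 0)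 (nat_lit 0) (XT.lf (nat_lit 0) (nat_lit 1427911756999) (nat_lit 76) (nat_lit 1063025904367) (nat_lit 76) (nat_lit 1059288432660) (nat_lit 1) (nat_lit 4) (nat_lit 2) (nat_lit 5) (nat_lit 2) (nat_lit 4) (nat_lit 365) (nat_lit 243) (nat_lit 172)) (XT.lf (nat_lit 0) (nat_lit 1546913217097) (nat_lit 76) (nat_lit 1145436770011) (nat_lit 76) (nat_lit 1141698120695) (nat_lit 1) (nat_lit 4) (nat_lit 2) (nat_lit 5) (nat_lit 2) (nat_lit 4) (nat_lit 366) (nat_lit 243) (nat_lit 171))) (XT.nd (nat_lit 78) (nat_lit 0) (nat_lit 0) (XT.lf (nat_lit 0) (nat_lit 1675431935924) (nat_lit 76) (nat_lit 1234441901986) (nat_lit 76) (nat_lit 1230702162293) (nat_lit 1) (nat_lit 4) (nat_lit 2) (nat_lit 5) (nat_lit 2) (nat_lit 4) (nat_lit 367) (nat_lit 243) (nat_lit 170)) (XT.lf (nat_lit 0) (nat_lit 1814229505886) (nat_lit 76) (nat_lit 1330568738112) (nat_lit 76) (nat_lit 1326827988809) (nat_lit 1) (nat_lit 4) (nat_lit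 2) (nat_lit 5) (nat_lit 2) (nat_lit 4) (nat_lit 368) (nat_lit 243) (nat_lit 169))))) (XT.nd (nat_lit 34632) (nat_lit 0) (nat_lit 532) (XT.nd (nat_lit 156) (nat_lit 0) (nat_lit 0) (XT.nd (nat_lit 78) (nat_lit 0) (nat_lit 0) (XT.lf (nat_lit 0) (nat_lit 1964128431102) (nat_lit 76) (nat_lit 1434386918900) (nat_lit 76) (nat_lit 1430645234773) (nat_lit 1) (nat_lit 4) (nat_lit 2) (nat_lit 5) (nat_lit 2) (nat_lit 4) (nat_lit 369) (nat_lit 243) (nat_lit 168)) (XT.lf (nat_lit 0) (nat_lit 2126017001499) (nat_lit 76) (nat_lit 1546511663198) (nat_lit 76) (nat_lit 1542769113494) (nat_lit 1) (nat_lit 4) (nat_lit 2) (nat_lit 5) (nat_lit 2) (nat_lit 4) (nat_lit 370) (nat_lit 243) (nat_lit 167))) (XT.nd (nat_lit 78) (nat_lit 0) (nat_lit 0) (XT.lf (nat_lit 0) (nat_lit 2300854556754) (nat_lit 76) (nat_lit 1667607413935) (nat_lit 76) (nat_lit 1663864062771) (nat_lit 1) (nat_lit 4) (nat_lit 2) (nat_lit 5)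 (nat_lit 2) (nat_lit 4) (nat_lit 371) (nat_lit 243) (nat_lit 166)) (XT.lf (nat_lit 0) (nat_lit 2489677171268) (nat_lit 76) (nat_lit 1798391775561) (nat_lit 76) (nat_lit 1794647682304) (nat_lit 1) (nat_lit 4) (nat_lit 2) (nat_lit 5) (nat_lit 2) (nat_lit 4) (nat_lit 372) (nat_lit 243) (nat_lit 165)))) (XT.nd (nat_lit 156) (nat_lit 152) (nat_lit 0) (XT.nd (nat_lit 78) (nat_lit 76) (nat_lit 0) (XT.lf (nat_lit 0) (nat_lit 3785685638) (nat_lit 152) (nat_lit 923232441) (nat_lit 0) (nat_lit 3785685638) (nat_lit 11) (nat_lit 5) (nat_lit 13) (nat_lit 4) (nat_lit 11) (nat_lit 4) (nat_lit 292) (nat_lit 244) (nat_lit 244)) (XT.lf (nat_lit 0) (nat_lit 7097551347) (nat_lit 76) (nat_lit 5614669955) (nat_lit 76) (nat_lit 5236416795) (nat_lit 10) (nat_lit 4) (nat_lit 11) (nat_lit 5) (nat_lit 11) (nat_lit 4) (nat_lit 293) (nat_lit 244) (nat_lit 243))) (XT.nd (nat_lit 78) (nat_lit 152) (nat_lit 0) (XT.lf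 (nat_lit 0) (nat_lit 16413687660) (nat_lit 76) (nat_lit 1657634949) (nat_lit 76) (nat_lit 929147382) (nat_lit 10) (nat_lit 4) (nat_lit 11) (nat_lit 5) (nat_lit 11) (nat_lit 4) (nat_lit 294) (nat_lit 244) (nat_lit 242)) (XT.lf (nat_lit 0) (nat_lit 3516710682) (nat_lit 152) (nat_lit 14072417258) (nat_lit 0) (nat_lit 2541915603) (nat_lit 8) (nat_lit 5) (nat_lit 10) (nat_lit 4) (nat_lit 8) (nat_lit 4) (nat_lit 295) (nat_lit 244) (nat_lit 241)))))) (XT.nd (nat_lit 624) (nat_lit 228) (nat_lit 0) (XT.nd (nat_lit 312) (nat_lit 152) (nat_lit 0) (XT.nd (nat_lit 156) (nat_lit 0) (nat_lit 0) (XT.nd (nat_lit 78) (nat_lit 76) (nat_lit 0) (XT.lf (nat_lit 0) (nat_lit 8154656400) (nat_lit 152) (nat_lit 6302875647) (nat_lit 0) (nat_lit 6901833957) (nat_lit 8) (nat_lit 5) (nat_lit 10) (nat_lit 4) (nat_lit 8) (nat_lit 4) (nat_lit 296) (nat_lit 244) (nat_lit 240)) (XT.lf (nat_lit 0) (nat_lit 1778858693)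 (nat_lit 76) (nat_lit 11215521199) (nat_lit 76) (nat_lit 9705266011) (nat_lit 7) (nat_lit 4) (nat_lit 8) (nat_lit 5) (nat_lit 8) (nat_lit 4) (nat_lit 297) (nat_lit 244) (nat_lit 239))) (XT.nd (nat_lit 78) (nat_lit 0) (nat_lit 0) (XT.lf (nat_lit 0) (nat_lit 10477310561) (nat_lit 76) (nat_lit 7710631709) (nat_lit 76) (nat_lit 5962012868) (nat_lit 7) (nat_lit 4) (nat_lit 8) (nat_lit 5) (nat_lit 8) (nat_lit 4) (nat_lit 298) (nat_lit 244) (nat_lit 238)) (XT.lf (nat_lit 0) (nat_lit 19512128073) (nat_lit 76) (nat_lit 4094425652) (nat_lit 76) (nat_lit 2125099725) (nat_lit 7) (nat_lit 4) (nat_lit 8) (nat_lit 5) (nat_lit 8) (nat_lit 4) (nat_lit 299) (nat_lit 244) (nat_lit 237)))) (XT.nd (nat_lit 156) (nat_lit 0) (nat_lit 0) (XT.nd (nat_lit 78) (nat_lit 0) (nat_lit 0) (XT.lf (nat_lit 0) (nat_lit 1514531510) (nat_lit 76) (nat_lit 258649186) (nat_lit 152) (nat_lit 25674501729) (nat_lit 5) (nat_lit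 5) (nat_lit 6) (nat_lit 5) (nat_lit 7) (nat_lit 4) (nat_lit 300) (nat_lit 244) (nat_lit 236)) (XT.lf (nat_lit 0) (nat_lit 5956944470) (nat_lit 152) (nat_lit 19563592326) (nat_lit 0) (nat_lit 3769069385) (nat_lit 5) (nat_lit 5) (nat_lit 7) (nat_lit 4) (nat_lit 5) (nat_lit 4) (nat_lit 301) (nat_lit 244) (nat_lit 235))) (XT.nd (nat_lit 78) (nat_lit 0) (nat_lit 0) (XT.lf (nat_lit 0) (nat_lit 10315971634) (nat_lit 152) (nat_lit 13009892132) (nat_lit 0) (nat_lit 7965870251) (nat_lit 5) (nat_lit 5) (nat_lit 7) (nat_lit 4) (nat_lit 5) (nat_lit 4) (nat_lit 302) (nat_lit 244) (nat_lit 234)) (XT.lf (nat_lit 0) (nat_lit 14869872940) (nat_lit 152) (nat_lit 6226993069) (nat_lit 0) (nat_lit 12369562024) (nat_lit 5) (nat_lit 5) (nat_lit 7) (nat_lit 4) (nat_lit 5) (nat_lit 4) (nat_lit 303) (nat_lit 244) (nat_lit 233))))) (XT.nd (nat_lit 312) (nat_lit 152) (nat_lit 0) (XT.nd (nat_lit 156) (nat_lit 0)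 (nat_lit 0) (XT.nd (nat_lit 78) (nat_lit 0) (nat_lit 0) (XT.lf (nat_lit 0) (nat_lit 868758642) (nat_lit 76) (nat_lit 18797769496) (nat_lit 76) (nat_lit 16158375677) (nat_lit 4) (nat_lit 4) (nat_lit 5) (nat_lit 5) (nat_lit 5) (nat_lit 4) (nat_lit 304) (nat_lit 244) (nat_lit 232)) (XT.lf (nat_lit 0) (nat_lit 8619984425) (nat_lit 76) (nat_lit 16258883445) (nat_lit 76) (nat_lit 13490709162) (nat_lit 4) (nat_lit 4) (nat_lit 5) (nat_lit 5) (nat_lit 5) (nat_lit 4) (nat_lit 305) (nat_lit 244) (nat_lit 231))) (XT.nd (nat_lit 78) (nat_lit 0) (nat_lit 0) (XT.lf (nat_lit 0) (nat_lit 16744715048) (nat_lit 76) (nat_lit 13635419634) (nat_lit 76) (nat_lit 10748004179) (nat_lit 4) (nat_lit 4) (nat_lit 5) (nat_lit 5) (nat_lit 5) (nat_lit 4) (nat_lit 306) (nat_lit 244) (nat_lit 230)) (XT.lf (nat_lit 0) (nat_lit 25291097063) (nat_lit 76) (nat_lit 10911831609) (nat_lit 76) (nat_lit 7914007663) (nat_lit 4)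 (nat_lit 4) (nat_lit 5) (nat_lit 5) (nat_lit 5) (nat_lit 4) (nat_lit 307) (nat_lit 244) (nat_lit 229)))) (XT.nd (nat_lit 156) (nat_lit 152) (nat_lit 0) (XT.nd (nat_lit 78) (nat_lit 0) (nat_lit 0) (XT.lf (nat_lit 0) (nat_lit 34309775697) (nat_lit 76) (nat_lit 8071979590) (nat_lit 76) (nat_lit 4971925559) (nat_lit 4) (nat_lit 4) (nat_lit 5) (nat_lit 5) (nat_lit 5) (nat_lit 4) (nat_lit 308) (nat_lit 244) (nat_lit 228)) (XT.lf (nat_lit 0) (nat_lit 43854194971) (nat_lit 76) (nat_lit 5099034824) (nat_lit 76) (nat_lit 1904323307) (nat_lit 4) (nat_lit 4) (nat_lit 5) (nat_lit 5) (nat_lit 5) (nat_lit 4) (nat_lit 309) (nat_lit 244) (nat_lit 227))) (XT.nd (nat_lit 78) (nat_lit 76) (nat_lit 0) (XT.lf (nat_lit 0) (nat_lit 1241597168) (nat_lit 152) (nat_lit 699835226) (nat_lit 76) (nat_lit 52705369772) (nat_lit 3) (nat_lit 5) (nat_lit 5) (nat_lit 5) (nat_lit 4) (nat_lit 4) (nat_lit 310) (nat_lit 244)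 (nat_lit 226)) (XT.lf (nat_lit 0) (nat_lit 4634334874) (nat_lit 152) (nat_lit 52573128248) (nat_lit 0) (nat_lit 1519972953) (nat_lit 2) (nat_lit 5) (nat_lit 4) (nat_lit 4) (nat_lit 2) (nat_lit 4) (nat_lit 311) (nat_lit 244) (nat_lit 225))))))))
noncomputable def xc26 : XT := (XT.nd (nat_lit 2418) (nat_lit 0) (nat_lit 0) (XT.nd (nat_lit 1170) (nat_lit 0) (nat_lit 0) (XT.nd (nat_lit 546) (nat_lit 76) (nat_lit 0) (XT.nd (nat_lit 234) (nat_lit 0) (nat_lit 0) (XT.nd (nat_lit 78) (nat_lit 0) (nat_lit 0) (XT.lf (nat_lit 0) (nat_lit 8279711082) (nat_lit 152) (nat_lit 49760579788) (nat_lit 0) (nat_lit 5095773083) (nat_lit 2) (nat_lit 5) (nat_lit 4) (nat_lit 4) (nat_lit 2) (nat_lit 4) (nat_lit 312) (nat_lit 244) (nat_lit 224)) (XT.nd (nat_lit 78) (nat_lit 0) (nat_lit 0) (XT.lf (nat_lit 0) (nat_lit 12134458986) (nat_lit 152) (nat_lit 46883442844) (nat_lit 0) (nat_lit 8886098692) (nat_lit 2) (nat_lit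 5) (nat_lit 4) (nat_lit 4) (nat_lit 2) (nat_lit 4) (nat_lit 313) (nat_lit 244) (nat_lit 223)) (XT.lf (nat_lit 0) (nat_lit 16221421537) (nat_lit 152) (nat_lit 43924667714) (nat_lit 0) (nat_lit 12913410971) (nat_lit 2) (nat_lit 5) (nat_lit 4) (nat_lit 4) (nat_lit 2) (nat_lit 4) (nat_lit 314) (nat_lit 244) (nat_lit 222)))) (XT.nd (nat_lit 156) (nat_lit 0) (nat_lit 0) (XT.nd (nat_lit 78) (nat_lit 0) (nat_lit 0) (XT.lf (nat_lit 0) (nat_lit 20564817772) (nat_lit 152) (nat_lit 40866720918) (nat_lit 0) (nat_lit 17201575472) (nat_lit 2) (nat_lit 5) (nat_lit 4) (nat_lit 4) (nat_lit 2) (nat_lit 4) (nat_lit 315) (nat_lit 244) (nat_lit 221)) (XT.lf (nat_lit 0) (nat_lit 25190386337) (nat_lit 152) (nat_lit 37691481288) (nat_lit 0) (nat_lit 21776003542) (nat_lit 2) (nat_lit 5) (nat_lit 4) (nat_lit 4) (nat_lit 2) (nat_lit 4) (nat_lit 316) (nat_lit 244) (nat_lit 220))) (XT.nd (nat_lit 78) (nat_lit 0)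 (nat_lit 0) (XT.lf (nat_lit 0) (nat_lit 30125538007) (nat_lit 152) (nat_lit 34380132590) (nat_lit 0) (nat_lit 26663802903) (nat_lit 2) (nat_lit 5) (nat_lit 4) (nat_lit 4) (nat_lit 2) (nat_lit 4) (nat_lit 317) (nat_lit 244) (nat_lit 219)) (XT.lf (nat_lit 0) (nat_lit 35399518125) (nat_lit 152) (nat_lit 30913052017) (nat_lit 0) (nat_lit 31893938290) (nat_lit 2) (nat_lit 5) (nat_lit 4) (nat_lit 4) (nat_lit 2) (nat_lit 4) (nat_lit 318) (nat_lit 244) (nat_lit 218))))) (XT.nd (nat_lit 312) (nat_lit 76) (nat_lit 0) (XT.nd (nat_lit 156) (nat_lit 0) (nat_lit 0) (XT.nd (nat_lit 78) (nat_lit 0) (nat_lit 0) (XT.lf (nat_lit 0) (nat_lit 41043579908) (nat_lit 152) (nat_lit 27269693905) (nat_lit 0) (nat_lit 37497403100) (nat_lit 2) (nat_lit 5) (nat_lit 4) (nat_lit 4) (nat_lit 2) (nat_lit 4) (nat_lit 319) (nat_lit 244) (nat_lit 217)) (XT.lf (nat_lit 0) (nat_lit 47091169647) (nat_lit 152) (nat_lit 23428467985)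 (nat_lit 0) (nat_lit 43507403049) (nat_lit 2) (nat_lit 5) (nat_lit 4) (nat_lit 4) (nat_lit 2) (nat_lit 4) (nat_lit 320) (nat_lit 244) (nat_lit 216))) (XT.nd (nat_lit 78) (nat_lit 0) (nat_lit 0) (XT.lf (nat_lit 0) (nat_lit 53578124912) (nat_lit 152) (nat_lit 19366611437) (nat_lit 0) (nat_lit 49959552952) (nat_lit 2) (nat_lit 5) (nat_lit 4) (nat_lit 4) (nat_lit 2) (nat_lit 4) (nat_lit 321) (nat_lit 244) (nat_lit 215)) (XT.lf (nat_lit 0) (nat_lit 60542886917) (nat_lit 152) (nat_lit 15060053999) (nat_lit 0) (nat_lit 56892087771) (nat_lit 2) (nat_lit 5) (nat_lit 4) (nat_lit 4) (nat_lit 2) (nat_lit 4) (nat_lit 322) (nat_lit 244) (nat_lit 214)))) (XT.nd (nat_lit 156) (nat_lit 76) (nat_lit 0) (XT.nd (nat_lit 78) (nat_lit 0) (nat_lit 0) (XT.lf (nat_lit 0) (nat_lit 68026728328) (nat_lit 152) (nat_lit 10483275331) (nat_lit 0) (nat_lit 64346089195) (nat_lit 2) (nat_lit 5) (nat_lit 4) (nat_lit 4)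 (nat_lit 2) (nat_lit 4) (nat_lit 323) (nat_lit 244) (nat_lit 213)) (XT.lf (nat_lit 0) (nat_lit 76073997834) (nat_lit 152) (nat_lit 5609153782) (nat_lit 0) (nat_lit 72365729083) (nat_lit 2) (nat_lit 5) (nat_lit 4) (nat_lit 4) (nat_lit 2) (nat_lit 4) (nat_lit 324) (nat_lit 244) (nat_lit 212))) (XT.nd (nat_lit 78) (nat_lit 76) (nat_lit 0) (XT.lf (nat_lit 0) (nat_lit 84732382959) (nat_lit 152) (nat_lit 408805668) (nat_lit 0) (nat_lit 80998531228) (nat_lit 2) (nat_lit 5) (nat_lit 4) (nat_lit 4) (nat_lit 2) (nat_lit 4) (nat_lit 325) (nat_lit 244) (nat_lit 211)) (XT.lf (nat_lit 0) (nat_lit 5419701296) (nat_lit 76) (nat_lit 88763835300) (nat_lit 76) (nat_lit 85006295625) (nat_lit 1) (nat_lit 4) (nat_lit 2) (nat_lit 5) (nat_lit 2) (nat_lit 4) (nat_lit 326) (nat_lit 244) (nat_lit 210)))))) (XT.nd (nat_lit 624) (nat_lit 0) (nat_lit 0) (XT.nd (nat_lit 312) (nat_lit 0) (nat_lit 0) (XT.nd (nat_lit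 156) (nat_lit 0) (nat_lit 0) (XT.nd (nat_lit 78) (nat_lit 0) (nat_lit 0) (XT.lf (nat_lit 0) (nat_lit 11680246828) (nat_lit 76) (nat_lit 92692324724) (nat_lit 76) (nat_lit 88912851768) (nat_lit 1) (nat_lit 4) (nat_lit 2) (nat_lit 5) (nat_lit 2) (nat_lit 4) (nat_lit 327) (nat_lit 244) (nat_lit 209)) (XT.lf (nat_lit 0) (nat_lit 18388403474) (nat_lit 76) (nat_lit 96961114309) (nat_lit 76) (nat_lit 93161332759) (nat_lit 1) (nat_lit 4) (nat_lit 2) (nat_lit 5) (nat_lit 2) (nat_lit 4) (nat_lit 328) (nat_lit 244) (nat_lit 208))) (XT.nd (nat_lit 78) (nat_lit 0) (nat_lit 0) (XT.lf (nat_lit 0) (nat_lit 25583923274) (nat_lit 76) (nat_lit 101595500586) (nat_lit 76) (nat_lit 97776914782) (nat_lit 1) (nat_lit 4) (nat_lit 2) (nat_lit 5) (nat_lit 2) (nat_lit 4) (nat_lit 329) (nat_lit 244) (nat_lit 207)) (XT.lf (nat_lit 0) (nat_lit 33309446345) (nat_lit 76) (nat_lit 106622946583) (nat_lit 76) (nat_lit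 102786949434) (nat_lit 1) (nat_lit 4) (nat_lit 2) (nat_lit 5) (nat_lit 2) (nat_lit 4) (nat_lit 330) (nat_lit 244) (nat_lit 206)))) (XT.nd (nat_lit 156) (nat_lit 0) (nat_lit 0) (XT.nd (nat_lit 78) (nat_lit 0) (nat_lit 0) (XT.lf (nat_lit 0) (nat_lit 41610753563) (nat_lit 76) (nat_lit 112073244575) (nat_lit 76) (nat_lit 108221125809) (nat_lit 1) (nat_lit 4) (nat_lit 2) (nat_lit 5) (nat_lit 2) (nat_lit 4) (nat_lit 331) (nat_lit 244) (nat_lit 205)) (XT.lf (nat_lit 0) (nat_lit 50537037862) (nat_lit 76) (nat_lit 117978692622) (nat_lit 76) (nat_lit 114111646433) (nat_lit 1) (nat_lit 4) (nat_lit 2) (nat_lit 5) (nat_lit 2) (nat_lit 4) (nat_lit 332) (nat_lit 244) (nat_lit 204))) (XT.nd (nat_lit 78) (nat_lit 0) (nat_lit 0) (XT.lf (nat_lit 0) (nat_lit 60141195741) (nat_lit 76) (nat_lit 124374285973) (nat_lit 76) (nat_lit 120493418096) (nat_lit 1) (nat_lit 4) (nat_lit 2) (nat_lit 5) (nat_lit 2) (nat_lit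 4) (nat_lit 333) (nat_lit 244) (nat_lit 203)) (XT.lf (nat_lit 0) (nat_lit 70480140727) (nat_lit 76) (nat_lit 131297924440) (nat_lit 76) (nat_lit 127404258704) (nat_lit 1) (nat_lit 4) (nat_lit 2) (nat_lit 5) (nat_lit 2) (nat_lit 4) (nat_lit 334) (nat_lit 244) (nat_lit 202))))) (XT.nd (nat_lit 312) (nat_lit 0) (nat_lit 0) (XT.nd (nat_lit 156) (nat_lit 0) (nat_lit 0) (XT.nd (nat_lit 78) (nat_lit 0) (nat_lit 0) (XT.lf (nat_lit 0) (nat_lit 81615140643) (nat_lit 76) (nat_lit 138790636992) (nat_lit 76) (nat_lit 134885121386) (nat_lit 1) (nat_lit 4) (nat_lit 2) (nat_lit 5) (nat_lit 2) (nat_lit 4) (nat_lit 335) (nat_lit 244) (nat_lit 201)) (XT.lf (nat_lit 0) (nat_lit 93612180673) (nat_lit 76) (nat_lit 146896824888) (nat_lit 76) (nat_lit 142980337181) (nat_lit 1) (nat_lit 4) (nat_lit 2) (nat_lit 5) (nat_lit 2) (nat_lit 4) (nat_lit 336) (nat_lit 244) (nat_lit 200))) (XT.nd (nat_lit 78) (nat_lit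 0) (nat_lit 0) (XT.lf (nat_lit 0) (nat_lit 106542354389) (nat_lit 76) (nat_lit 155664524797) (nat_lit 76) (nat_lit 151737877737) (nat_lit 1) (nat_lit 4) (nat_lit 2) (nat_lit 5) (nat_lit 2) (nat_lit 4) (nat_lit 337) (nat_lit 244) (nat_lit 199)) (XT.lf (nat_lit 0) (nat_lit 120482285041) (nat_lit 76) (nat_lit 165145693460) (nat_lit 76) (nat_lit 161209639592) (nat_lit 1) (nat_lit 4) (nat_lit 2) (nat_lit 5) (nat_lit 2) (nat_lit 4) (nat_lit 338) (nat_lit 244) (nat_lit 198)))) (XT.nd (nat_lit 156) (nat_lit 0) (nat_lit 0) (XT.nd (nat_lit 78) (nat_lit 0) (nat_lit 0) (XT.lf (nat_lit 0) (nat_lit 135514579627) (nat_lit 76) (nat_lit 175396515580) (nat_lit 76) (nat_lit 171451751704) (nat_lit 1) (nat_lit 4) (nat_lit 2) (nat_lit 5) (nat_lit 2) (nat_lit 4) (nat_lit 339) (nat_lit 244) (nat_lit 197)) (XT.lf (nat_lit 0) (nat_lit 151728318410) (nat_lit 76) (nat_lit 186477736769) (nat_lit 76) (nat_lit 182524908071)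 (nat_lit 1) (nat_lit 4) (nat_lit 2) (nat_lit 5) (nat_lit 2) (nat_lit 4) (nat_lit 340) (nat_lit 244) (nat_lit 196))) (XT.nd (nat_lit 78) (nat_lit 0) (nat_lit 0) (XT.lf (nat_lit 0) (nat_lit 169219582805) (nat_lit 76) (nat_lit 198455023523) (nat_lit 76) (nat_lit 194494727397) (nat_lit 1) (nat_lit 4) (nat_lit 2) (nat_lit 5) (nat_lit 2) (nat_lit 4) (nat_lit 341) (nat_lit 244) (nat_lit 195)) (XT.lf (nat_lit 0) (nat_lit 188092024750) (nat_lit 76) (nat_lit 211399352357) (nat_lit 76) (nat_lit 207432141945) (nat_lit 1) (nat_lit 4) (nat_lit 2) (nat_lit 5) (nat_lit 2) (nat_lit 4) (nat_lit 342) (nat_lit 244) (nat_lit 194))))))) (XT.nd (nat_lit 1248) (nat_lit 0) (nat_lit 0) (XT.nd (nat_lit 624) (nat_lit 0) (nat_lit 0) (XT.nd (nat_lit 312) (nat_lit 0) (nat_lit 0) (XT.nd (nat_lit 156) (nat_lit 0) (nat_lit 0) (XT.nd (nat_lit 78) (nat_lit 0) (nat_lit 0) (XT.lf (nat_lit 0) (nat_lit 208457480938) (nat_lit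 76) (nat_lit 225387430404) (nat_lit 76) (nat_lit 221413817876) (nat_lit 1) (nat_lit 4) (nat_lit 2) (nat_lit 5) (nat_lit 2) (nat_lit 4) (nat_lit 343) (nat_lit 244) (nat_lit 193)) (XT.lf (nat_lit 0) (nat_lit 230436635552) (nat_lit 76) (nat_lit 240502149978) (nat_lit 76) (nat_lit 236522609566) (nat_lit 1) (nat_lit 4) (nat_lit 2) (nat_lit 5) (nat_lit 2) (nat_lit 4) (nat_lit 344) (nat_lit 244) (nat_lit 192))) (XT.nd (nat_lit 78) (nat_lit 0) (nat_lit 0) (XT.lf (nat_lit 0) (nat_lit 254159735437) (nat_lit 76) (nat_lit 256833079788) (nat_lit 76) (nat_lit 252848050594) (nat_lit 1) (nat_lit 4) (nat_lit 2) (nat_lit 5) (nat_lit 2) (nat_lit 4) (nat_lit 345) (nat_lit 244) (nat_lit 191)) (XT.lf (nat_lit 0) (nat_lit 279767361924) (nat_lit 76) (nat_lit 274476995715) (nat_lit 76) (nat_lit 270486884314) (nat_lit 1) (nat_lit 4) (nat_lit 2) (nat_lit 5) (nat_lit 2) (nat_lit 4) (nat_lit 346) (nat_lit 244) (nat_lit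 190)))) (XT.nd (nat_lit 156) (nat_lit 0) (nat_lit 0) (XT.nd (nat_lit 78) (nat_lit 0) (nat_lit 0) (XT.lf (nat_lit 0) (nat_lit 307411263910) (nat_lit 76) (nat_lit 293538454297) (nat_lit 76) (nat_lit 289543637150) (nat_lit 1) (nat_lit 4) (nat_lit 2) (nat_lit 5) (nat_lit 2) (nat_lit 4) (nat_lit 347) (nat_lit 244) (nat_lit 189)) (XT.lf (nat_lit 0) (nat_lit 337255257112) (nat_lit 76) (nat_lit 314130412326) (nat_lit 76) (nat_lit 310131238007) (nat_lit 1) (nat_lit 4) (nat_lit 2) (nat_lit 5) (nat_lit 2) (nat_lit 4) (nat_lit 348) (nat_lit 244) (nat_lit 188))) (XT.nd (nat_lit 78) (nat_lit 0) (nat_lit 0) (XT.lf (nat_lit 0) (nat_lit 369476194822) (nat_lit 76) (nat_lit 336374896220) (nat_lit 76) (nat_lit 332371687482) (nat_lit 1) (nat_lit 4) (nat_lit 2) (nat_lit 5) (nat_lit 2) (nat_lit 4) (nat_lit 349) (nat_lit 244) (nat_lit 187)) (XT.lf (nat_lit 0) (nat_lit 404265015931) (nat_lit 76) (nat_lit 360403725142)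 (nat_lit 76) (nat_lit 356396780831) (nat_lit 1) (nat_lit 4) (nat_lit 2) (nat_lit 5) (nat_lit 2) (nat_lit 4) (nat_lit 350) (nat_lit 244) (nat_lit 186))))) (XT.nd (nat_lit 312) (nat_lit 0) (nat_lit 0) (XT.nd (nat_lit 156) (nat_lit 0) (nat_lit 0) (XT.nd (nat_lit 78) (nat_lit 0) (nat_lit 0) (XT.lf (nat_lit 0) (nat_lit 441827876416) (nat_lit 76) (nat_lit 386359292153) (nat_lit 76) (nat_lit 382348888978) (nat_lit 1) (nat_lit 4) (nat_lit 2) (nat_lit 5) (nat_lit 2) (nat_lit 4) (nat_lit 351) (nat_lit 244) (nat_lit 185)) (XT.lf (nat_lit 0) (nat_lit 482387371004) (nat_lit 76) (nat_lit 414395408021) (nat_lit 76) (nat_lit 410381802194) (nat_lit 1) (nat_lit 4) (nat_lit 2) (nat_lit 5) (nat_lit 2) (nat_lit 4) (nat_lit 352) (nat_lit 244) (nat_lit 184))) (XT.nd (nat_lit 78) (nat_lit 0) (nat_lit 0) (XT.lf (nat_lit 0) (nat_lit 526183852258) (nat_lit 76) (nat_lit 444678212691) (nat_lit 76) (nat_lit 440661641446)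 (nat_lit 1) (nat_lit 4) (nat_lit 2) (nat_lit 5) (nat_lit 2) (nat_lit 4) (nat_lit 353) (nat_lit 244) (nat_lit 183)) (XT.lf (nat_lit 0) (nat_lit 573476854880) (nat_lit 76) (nat_lit 477387159821) (nat_lit 76) (nat_lit 473367842818) (nat_lit 1) (nat_lit 4) (nat_lit 2) (nat_lit 5) (nat_lit 2) (nat_lit 4) (nat_lit 354) (nat_lit 244) (nat_lit 182)))) (XT.nd (nat_lit 156) (nat_lit 0) (nat_lit 0) (XT.nd (nat_lit 78) (nat_lit 0) (nat_lit 0) (XT.lf (nat_lit 0) (nat_lit 624546633701) (nat_lit 76) (nat_lit 512716080208) (nat_lit 76) (nat_lit 508694220836) (nat_lit 1) (nat_lit 4) (nat_lit 2) (nat_lit 5) (nat_lit 2) (nat_lit 4) (nat_lit 355) (nat_lit 244) (nat_lit 181)) (XT.lf (nat_lit 0) (nat_lit 679695824447) (nat_lit 76) (nat_lit 550874330417) (nat_lit 76) (nat_lit 546850117001) (nat_lit 1) (nat_lit 4) (nat_lit 2) (nat_lit 5) (nat_lit 2) (nat_lit 4) (nat_lit 356) (nat_lit 244) (nat_lit 180))) (XT.nd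 (nat_lit 78) (nat_lit 0) (nat_lit 0) (XT.lf (nat_lit 0) (nat_lit 739251237138) (nat_lit 76) (nat_lit 592088033414) (nat_lit 76) (nat_lit 588061640327) (nat_lit 1) (nat_lit 4) (nat_lit 2) (nat_lit 5) (nat_lit 2) (nat_lit 4) (nat_lit 357) (nat_lit 244) (nat_lit 179)) (XT.lf (nat_lit 0) (nat_lit 803565792737) (nat_lit 76) (nat_lit 636601418548) (nat_lit 76) (nat_lit 632573007247) (nat_lit 1) (nat_lit 4) (nat_lit 2) (nat_lit 5) (nat_lit 2) (nat_lit 4) (nat_lit 358) (nat_lit 244) (nat_lit 178)))))) (XT.nd (nat_lit 624) (nat_lit 0) (nat_lit 0) (XT.nd (nat_lit 312) (nat_lit 0) (nat_lit 0) (XT.nd (nat_lit 156) (nat_lit 0) (nat_lit 0) (XT.nd (nat_lit 78) (nat_lit 0) (nat_lit 0) (XT.lf (nat_lit 0) (nat_lit 873020614538) (nat_lit 76) (nat_lit 684678268843) (nat_lit 76) (nat_lit 680647988826) (nat_lit 1) (nat_lit 4) (nat_lit 2) (nat_lit 5) (nat_lit 2) (nat_lit 4) (nat_lit 359) (nat_lit 244) (nat_lit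 177)) (XT.lf (nat_lit 0) (nat_lit 948027286668) (nat_lit 76) (nat_lit 736603484153) (nat_lit 76) (nat_lit 732571473843) (nat_lit 1) (nat_lit 4) (nat_lit 2) (nat_lit 5) (nat_lit 2) (nat_lit 4) (nat_lit 360) (nat_lit 244) (nat_lit 176))) (XT.nd (nat_lit 78) (nat_lit 0) (nat_lit 0) (XT.lf (nat_lit 0) (nat_lit 1029030293112) (nat_lit 76) (nat_lit 792684769457) (nat_lit 76) (nat_lit 788651157024) (nat_lit 1) (nat_lit 4) (nat_lit 2) (nat_lit 5) (nat_lit 2) (nat_lit 4) (nat_lit 361) (nat_lit 244) (nat_lit 175)) (XT.lf (nat_lit 0) (nat_lit 1116509651685) (nat_lit 76) (nat_lit 853254458298) (nat_lit 76) (nat_lit 849219362417) (nat_lit 1) (nat_lit 4) (nat_lit 2) (nat_lit 5) (nat_lit 2) (nat_lit 4) (nat_lit 362) (nat_lit 244) (nat_lit 174)))) (XT.nd (nat_lit 156) (nat_lit 0) (nat_lit 0) (XT.nd (nat_lit 78) (nat_lit 0) (nat_lit 0) (XT.lf (nat_lit 0) (nat_lit 1210983758586) (nat_lit 76) (nat_lit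 918671482165) (nat_lit 76) (nat_lit 914635012721) (nat_lit 1) (nat_lit 4) (nat_lit 2) (nat_lit 5) (nat_lit 2) (nat_lit 4) (nat_lit 363) (nat_lit 244) (nat_lit 173)) (XT.lf (nat_lit 0) (nat_lit 1313012460374) (nat_lit 76) (nat_lit 989323497496) (nat_lit 76) (nat_lit 985285756235) (nat_lit 1) (nat_lit 4) (nat_lit 2) (nat_lit 5) (nat_lit 2) (nat_lit 4) (nat_lit 364) (nat_lit 244) (nat_lit 172))) (XT.nd (nat_lit 78) (nat_lit 0) (nat_lit 0) (XT.lf (nat_lit 0) (nat_lit 1423200371579) (nat_lit 76) (nat_lit 1065629182900) (nat_lit 76) (nat_lit 1061590264031) (nat_lit 1) (nat_lit 4) (nat_lit 2) (nat_lit 5) (nat_lit 2) (nat_lit 4) (nat_lit 365) (nat_lit 244) (nat_lit 171)) (XT.lf (nat_lit 0) (nat_lit 1542200457601) (nat_lit 76) (nat_lit 1148040720217) (nat_lit 76) (nat_lit 1144000710969) (nat_lit 1) (nat_lit 4) (nat_lit 2) (nat_lit 5) (nat_lit 2) (nat_lit 4) (nat_lit 366) (nat_lit 244) (nat_lit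 170))))) (XT.nd (nat_lit 312) (nat_lit 0) (nat_lit 0) (XT.nd (nat_lit 156) (nat_lit 0) (nat_lit 0) (XT.nd (nat_lit 78) (nat_lit 0) (nat_lit 0) (XT.lf (nat_lit 0) (nat_lit 1670717904134) (nat_lit 76) (nat_lit 1237046474112) (nat_lit 76) (nat_lit 1233005455255) (nat_lit 1) (nat_lit 4) (nat_lit 2) (nat_lit 5) (nat_lit 2) (nat_lit 4) (nat_lit 367) (nat_lit 244) (nat_lit 169)) (XT.lf (nat_lit 0) (nat_lit 1809514296046) (nat_lit 76) (nat_lit 1333173886089) (nat_lit 76) (nat_lit 1329131932409) (nat_lit 1) (nat_lit 4) (nat_lit 2) (nat_lit 5) (nat_lit 2) (nat_lit 4) (nat_lit 368) (nat_lit 244) (nat_lit 168))) (XT.nd (nat_lit 78) (nat_lit 0) (nat_lit 0) (XT.lf (nat_lit 0) (nat_lit 1959412130476) (nat_lit 76) (nat_lit 1436992600073) (nat_lit 76) (nat_lit 1432949780815) (nat_lit 1) (nat_lit 4) (nat_lit 2) (nat_lit 5) (nat_lit 2) (nat_lit 4) (nat_lit 369) (nat_lit 244) (nat_lit 167)) (XT.lf (nat_lit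 0) (nat_lit 2121299690886) (nat_lit 76) (nat_lit 1549117838071) (nat_lit 76) (nat_lit 1545074217353) (nat_lit 1) (nat_lit 4) (nat_lit 2) (nat_lit 5) (nat_lit 2) (nat_lit 4) (nat_lit 370) (nat_lit 244) (nat_lit 166)))) (XT.nd (nat_lit 34320) (nat_lit 0) (nat_lit 760) (XT.nd (nat_lit 78) (nat_lit 0) (nat_lit 0) (XT.lf (nat_lit 0) (nat_lit 2296136310967) (nat_lit 76) (nat_lit 1670214045938) (nat_lit 76) (nat_lit 1666169683127) (nat_lit 1) (nat_lit 4) (nat_lit 2) (nat_lit 5) (nat_lit 2) (nat_lit 4) (nat_lit 371) (nat_lit 244) (nat_lit 165)) (XT.lf (nat_lit 0) (nat_lit 2484958059579) (nat_lit 76) (nat_lit 1800998830832) (nat_lit 76) (nat_lit 1796953780897) (nat_lit 1) (nat_lit 4) (nat_lit 2) (nat_lit 5) (nat_lit 2) (nat_lit 4) (nat_lit 372) (nat_lit 244) (nat_lit 164))) (XT.nd (nat_lit 78) (nat_lit 152) (nat_lit 0) (XT.lf (nat_lit 0) (nat_lit 6228834648) (nat_lit 76) (nat_lit 707740789) (nat_lit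 76) (nat_lit 707740789) (nat_lit 13) (nat_lit 4) (nat_lit 14) (nat_lit 5) (nat_lit 14) (nat_lit 4) (nat_lit 290) (nat_lit 245) (nat_lit 245)) (XT.lf (nat_lit 0) (nat_lit 3145172444) (nat_lit 152) (nat_lit 10225192962) (nat_lit 0) (nat_lit 2736659032) (nat_lit 11) (nat_lit 5) (nat_lit 13) (nat_lit 4) (nat_lit 11) (nat_lit 4) (nat_lit 291) (nat_lit 245) (nat_lit 244))))))))
noncomputable def xc27 : XT := (XT.nd (nat_lit 2496) (nat_lit 76) (nat_lit 0) (XT.nd (nat_lit 1248) (nat_lit 152) (nat_lit 0) (XT.nd (nat_lit 624) (nat_lit 228) (nat_lit 0) (XT.nd (nat_lit 312) (nat_lit 76) (nat_lit 0) (XT.nd (nat_lit 156) (nat_lit 152) (nat_lit 0) (XT.nd (nat_lit 78) (nat_lit 76) (nat_lit 0) (XT.lf (nat_lit 0) (nat_lit 7859050324) (nat_lit 152) (nat_lit 2067646786) (nat_lit 0) (nat_lit 7072283752) (nat_lit 11) (nat_lit 5) (nat_lit 13) (nat_lit 4) (nat_lit 11) (nat_lit 4) (nat_lit 292) (nat_lit 245)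 (nat_lit 243)) (XT.lf (nat_lit 0) (nat_lit 6649140036) (nat_lit 76) (nat_lit 6228092337) (nat_lit 76) (nat_lit 5091091357) (nat_lit 10) (nat_lit 4) (nat_lit 11) (nat_lit 5) (nat_lit 11) (nat_lit 4) (nat_lit 293) (nat_lit 245) (nat_lit 242))) (XT.nd (nat_lit 78) (nat_lit 152) (nat_lit 0) (XT.lf (nat_lit 0) (nat_lit 15765663053) (nat_lit 76) (nat_lit 2362273932) (nat_lit 76) (nat_lit 900981834) (nat_lit 10) (nat_lit 4) (nat_lit 11) (nat_lit 5) (nat_lit 11) (nat_lit 4) (nat_lit 294) (nat_lit 245) (nat_lit 241)) (XT.lf (nat_lit 0) (nat_lit 3398852531) (nat_lit 152) (nat_lit 15004456308) (nat_lit 0) (nat_lit 1767776928) (nat_lit 8) (nat_lit 5) (nat_lit 10) (nat_lit 4) (nat_lit 8) (nat_lit 4) (nat_lit 295) (nat_lit 245) (nat_lit 240)))) (XT.nd (nat_lit 156) (nat_lit 0) (nat_lit 0) (XT.nd (nat_lit 78) (nat_lit 76) (nat_lit 0) (XT.lf (nat_lit 0) (nat_lit 7934856193) (nat_lit 152) (nat_lit 7426432156)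 (nat_lit 0) (nat_lit 6046347845) (nat_lit 8) (nat_lit 5) (nat_lit 10) (nat_lit 4) (nat_lit 8) (nat_lit 4) (nat_lit 296) (nat_lit 245) (nat_lit 239)) (XT.lf (nat_lit 0) (nat_lit 409468775) (nat_lit 76) (nat_lit 12237786257) (nat_lit 76) (nat_lit 10110914256) (nat_lit 7) (nat_lit 4) (nat_lit 8) (nat_lit 5) (nat_lit 8) (nat_lit 4) (nat_lit 297) (nat_lit 245) (nat_lit 238))) (XT.nd (nat_lit 78) (nat_lit 0) (nat_lit 0) (XT.lf (nat_lit 0) (nat_lit 8935079053) (nat_lit 76) (nat_lit 8814182629) (nat_lit 76) (nat_lit 6466603542) (nat_lit 7) (nat_lit 4) (nat_lit 8) (nat_lit 5) (nat_lit 8) (nat_lit 4) (nat_lit 298) (nat_lit 245) (nat_lit 237)) (XT.lf (nat_lit 0) (nat_lit 17809858058) (nat_lit 76) (nat_lit 5273241258) (nat_lit 76) (nat_lit 2721303759) (nat_lit 7) (nat_lit 4) (nat_lit 8) (nat_lit 5) (nat_lit 8) (nat_lit 4) (nat_lit 299) (nat_lit 245) (nat_lit 236))))) (XT.nd (nat_lit 312) (nat_lit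 76) (nat_lit 0) (XT.nd (nat_lit 156) (nat_lit 0) (nat_lit 0) (XT.nd (nat_lit 78) (nat_lit 76) (nat_lit 0) (XT.lf (nat_lit 0) (nat_lit 1089792899) (nat_lit 152) (nat_lit 474389021) (nat_lit 76) (nat_lit 25966807303) (nat_lit 6) (nat_lit 5) (nat_lit 8) (nat_lit 5) (nat_lit 7) (nat_lit 4) (nat_lit 300) (nat_lit 245) (nat_lit 235)) (XT.lf (nat_lit 0) (nat_lit 5149954155) (nat_lit 152) (nat_lit 21783274411) (nat_lit 0) (nat_lit 2449618365) (nat_lit 5) (nat_lit 5) (nat_lit 7) (nat_lit 4) (nat_lit 5) (nat_lit 4) (nat_lit 301) (nat_lit 245) (nat_lit 234))) (XT.nd (nat_lit 78) (nat_lit 0) (nat_lit 0) (XT.lf (nat_lit 0) (nat_lit 9435015919) (nat_lit 152) (nat_lit 15371447845) (nat_lit 0) (nat_lit 6584470595) (nat_lit 5) (nat_lit 5) (nat_lit 7) (nat_lit 4) (nat_lit 5) (nat_lit 4) (nat_lit 302) (nat_lit 245) (nat_lit 233)) (XT.lf (nat_lit 0) (nat_lit 13920430745) (nat_lit 152) (nat_lit 8719913255)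 (nat_lit 0) (nat_lit 10930802520) (nat_lit 5) (nat_lit 5) (nat_lit 7) (nat_lit 4) (nat_lit 5) (nat_lit 4) (nat_lit 303) (nat_lit 245) (nat_lit 232)))) (XT.nd (nat_lit 156) (nat_lit 0) (nat_lit 0) (XT.nd (nat_lit 78) (nat_lit 76) (nat_lit 0) (XT.lf (nat_lit 0) (nat_lit 18632778869) (nat_lit 152) (nat_lit 1789254138) (nat_lit 0) (nat_lit 15514370179) (nat_lit 5) (nat_lit 5) (nat_lit 7) (nat_lit 4) (nat_lit 5) (nat_lit 4) (nat_lit 304) (nat_lit 245) (nat_lit 231)) (XT.lf (nat_lit 0) (nat_lit 5749198258) (nat_lit 76) (nat_lit 17989055414) (nat_lit 76) (nat_lit 14751405553) (nat_lit 4) (nat_lit 4) (nat_lit 5) (nat_lit 5) (nat_lit 5) (nat_lit 4) (nat_lit 305) (nat_lit 245) (nat_lit 230))) (XT.nd (nat_lit 78) (nat_lit 0) (nat_lit 0) (XT.lf (nat_lit 0) (nat_lit 13764156257) (nat_lit 76) (nat_lit 15418357416) (nat_lit 76) (nat_lit 12070299063) (nat_lit 4) (nat_lit 4) (nat_lit 5) (nat_lit 5) (nat_lit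 5) (nat_lit 4) (nat_lit 306) (nat_lit 245) (nat_lit 229)) (XT.lf (nat_lit 0) (nat_lit 22208896954) (nat_lit 76) (nat_lit 12743626626) (nat_lit 76) (nat_lit 9293338188) (nat_lit 4) (nat_lit 4) (nat_lit 5) (nat_lit 5) (nat_lit 5) (nat_lit 4) (nat_lit 307) (nat_lit 245) (nat_lit 228)))))) (XT.nd (nat_lit 624) (nat_lit 0) (nat_lit 0) (XT.nd (nat_lit 312) (nat_lit 0) (nat_lit 0) (XT.nd (nat_lit 156) (nat_lit 152) (nat_lit 0) (XT.nd (nat_lit 78) (nat_lit 0) (nat_lit 0) (XT.lf (nat_lit 0) (nat_lit 31133463256) (nat_lit 76) (nat_lit 9949012787) (nat_lit 76) (nat_lit 6404066863) (nat_lit 4) (nat_lit 4) (nat_lit 5) (nat_lit 5) (nat_lit 5) (nat_lit 4) (nat_lit 308) (nat_lit 245) (nat_lit 227)) (XT.lf (nat_lit 0) (nat_lit 40590741482) (nat_lit 76) (nat_lit 7017955225) (nat_lit 76) (nat_lit 3385363481) (nat_lit 4) (nat_lit 4) (nat_lit 5) (nat_lit 5) (nat_lit 5) (nat_lit 4) (nat_lit 309) (nat_lit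 245) (nat_lit 226))) (XT.nd (nat_lit 78) (nat_lit 152) (nat_lit 0) (XT.lf (nat_lit 0) (nat_lit 50636774763) (nat_lit 76) (nat_lit 3933084710) (nat_lit 76) (nat_lit 219339428) (nat_lit 4) (nat_lit 4) (nat_lit 5) (nat_lit 5) (nat_lit 5) (nat_lit 4) (nat_lit 310) (nat_lit 245) (nat_lit 225)) (XT.lf (nat_lit 0) (nat_lit 2486151644) (nat_lit 76) (nat_lit 530694072) (nat_lit 152) (nat_lit 55866830711) (nat_lit 2) (nat_lit 5) (nat_lit 3) (nat_lit 5) (nat_lit 4) (nat_lit 4) (nat_lit 311) (nat_lit 245) (nat_lit 224)))) (XT.nd (nat_lit 156) (nat_lit 0) (nat_lit 0) (XT.nd (nat_lit 78) (nat_lit 0) (nat_lit 0) (XT.lf (nat_lit 0) (nat_lit 6609911411) (nat_lit 152) (nat_lit 53649335903) (nat_lit 0) (nat_lit 3037259999) (nat_lit 2) (nat_lit 5) (nat_lit 4) (nat_lit 4) (nat_lit 2) (nat_lit 4) (nat_lit 312) (nat_lit 245) (nat_lit 223)) (XT.lf (nat_lit 0) (nat_lit 10428041437) (nat_lit 152) (nat_lit 50843608945)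 (nat_lit 0) (nat_lit 6795739753) (nat_lit 2) (nat_lit 5) (nat_lit 4) (nat_lit 4) (nat_lit 2) (nat_lit 4) (nat_lit 313) (nat_lit 245) (nat_lit 222))) (XT.nd (nat_lit 78) (nat_lit 0) (nat_lit 0) (XT.lf (nat_lit 0) (nat_lit 14481098546) (nat_lit 152) (nat_lit 47950954173) (nat_lit 0) (nat_lit 10793565128) (nat_lit 2) (nat_lit 5) (nat_lit 4) (nat_lit 4) (nat_lit 2) (nat_lit 4) (nat_lit 314) (nat_lit 245) (nat_lit 221)) (XT.lf (nat_lit 0) (nat_lit 18793100854) (nat_lit 152) (nat_lit 44954229930) (nat_lit 0) (nat_lit 15054426941) (nat_lit 2) (nat_lit 5) (nat_lit 4) (nat_lit 4) (nat_lit 2) (nat_lit 4) (nat_lit 315) (nat_lit 245) (nat_lit 220))))) (XT.nd (nat_lit 312) (nat_lit 0) (nat_lit 0) (XT.nd (nat_lit 156) (nat_lit 0) (nat_lit 0) (XT.nd (nat_lit 78) (nat_lit 0) (nat_lit 0) (XT.lf (nat_lit 0) (nat_lit 23389600966) (nat_lit 152) (nat_lit 41835677849) (nat_lit 0) (nat_lit 19603574744) (nat_lit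 2) (nat_lit 5) (nat_lit 4) (nat_lit 4) (nat_lit 2) (nat_lit 4) (nat_lit 316) (nat_lit 245) (nat_lit 219)) (XT.lf (nat_lit 0) (nat_lit 28297837403) (nat_lit 152) (nat_lit 38576817622) (nat_lit 0) (nat_lit 24467966450) (nat_lit 2) (nat_lit 5) (nat_lit 4) (nat_lit 4) (nat_lit 2) (nat_lit 4) (nat_lit 317) (nat_lit 245) (nat_lit 218))) (XT.nd (nat_lit 78) (nat_lit 0) (nat_lit 0) (XT.lf (nat_lit 0) (nat_lit 33546896010) (nat_lit 152) (nat_lit 35158337485) (nat_lit 0) (nat_lit 29676428083) (nat_lit 2) (nat_lit 5) (nat_lit 4) (nat_lit 4) (nat_lit 2) (nat_lit 4) (nat_lit 318) (nat_lit 245) (nat_lit 217)) (XT.lf (nat_lit 0) (nat_lit 39167882318) (nat_lit 152) (nat_lit 31559979778) (nat_lit 0) (nat_lit 35259824602) (nat_lit 2) (nat_lit 5) (nat_lit 4) (nat_lit 4) (nat_lit 2) (nat_lit 4) (nat_lit 319) (nat_lit 245) (nat_lit 216)))) (XT.nd (nat_lit 156) (nat_lit 0) (nat_lit 0) (XT.nd (nat_lit 78)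 (nat_lit 0) (nat_lit 0) (XT.lf (nat_lit 0) (nat_lit 45194105878) (nat_lit 152) (nat_lit 27760420899) (nat_lit 0) (nat_lit 41251242800) (nat_lit 2) (nat_lit 5) (nat_lit 4) (nat_lit 4) (nat_lit 2) (nat_lit 4) (nat_lit 320) (nat_lit 245) (nat_lit 215)) (XT.lf (nat_lit 0) (nat_lit 51661277642) (nat_lit 152) (nat_lit 23737144944) (nat_lit 0) (nat_lit 47686187378) (nat_lit 2) (nat_lit 5) (nat_lit 4) (nat_lit 4) (nat_lit 2) (nat_lit 4) (nat_lit 321) (nat_lit 245) (nat_lit 214))) (XT.nd (nat_lit 78) (nat_lit 0) (nat_lit 0) (XT.lf (nat_lit 0) (nat_lit 58607721592) (nat_lit 152) (nat_lit 19466310278) (nat_lit 0) (nat_lit 54602791341) (nat_lit 2) (nat_lit 5) (nat_lit 4) (nat_lit 4) (nat_lit 2) (nat_lit 4) (nat_lit 322) (nat_lit 245) (nat_lit 213)) (XT.lf (nat_lit 0) (nat_lit 66074601841) (nat_lit 152) (nat_lit 14922608250) (nat_lit 0) (nat_lit 62042041972) (nat_lit 2) (nat_lit 5) (nat_lit 4) (nat_lit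 4) (nat_lit 2) (nat_lit 4) (nat_lit 323) (nat_lit 245) (nat_lit 212))))))) (XT.nd (nat_lit 1248) (nat_lit 0) (nat_lit 0) (XT.nd (nat_lit 624) (nat_lit 0) (nat_lit 0) (XT.nd (nat_lit 312) (nat_lit 0) (nat_lit 0) (XT.nd (nat_lit 156) (nat_lit 76) (nat_lit 0) (XT.nd (nat_lit 78) (nat_lit 0) (nat_lit 0) (XT.lf (nat_lit 0) (nat_lit 74106166567) (nat_lit 152) (nat_lit 10079113220) (nat_lit 0) (nat_lit 70048023719) (nat_lit 2) (nat_lit 5) (nat_lit 4) (nat_lit 4) (nat_lit 2) (nat_lit 4) (nat_lit 324) (nat_lit 245) (nat_lit 211)) (XT.lf (nat_lit 0) (nat_lit 82750010228) (nat_lit 152) (nat_lit 4907122994) (nat_lit 0) (nat_lit 78668179436) (nat_lit 2) (nat_lit 5) (nat_lit 4) (nat_lit 4) (nat_lit 2) (nat_lit 4) (nat_lit 325) (nat_lit 245) (nat_lit 210))) (XT.nd (nat_lit 78) (nat_lit 0) (nat_lit 0) (XT.lf (nat_lit 0) (nat_lit 656870585) (nat_lit 76) (nat_lit 91416282770) (nat_lit 76) (nat_lit 87312518696)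 (nat_lit 1) (nat_lit 4) (nat_lit 2) (nat_lit 5) (nat_lit 2) (nat_lit 4) (nat_lit 326) (nat_lit 245) (nat_lit 209)) (XT.lf (nat_lit 0) (nat_lit 6891823555) (nat_lit 76) (nat_lit 95357282294) (nat_lit 76) (nat_lit 91233209626) (nat_lit 1) (nat_lit 4) (nat_lit 2) (nat_lit 5) (nat_lit 2) (nat_lit 4) (nat_lit 327) (nat_lit 245) (nat_lit 208)))) (XT.nd (nat_lit 156) (nat_lit 0) (nat_lit 0) (XT.nd (nat_lit 78) (nat_lit 0) (nat_lit 0) (XT.lf (nat_lit 0) (nat_lit 13576283385) (nat_lit 76) (nat_lit 99637655304) (nat_lit 76) (nat_lit 95494778383) (nat_lit 1) (nat_lit 4) (nat_lit 2) (nat_lit 5) (nat_lit 2) (nat_lit 4) (nat_lit 328) (nat_lit 245) (nat_lit 207)) (XT.lf (nat_lit 0) (nat_lit 20749861688) (nat_lit 76) (nat_lit 104282766975) (nat_lit 76) (nat_lit 100122478707) (nat_lit 1) (nat_lit 4) (nat_lit 2) (nat_lit 5) (nat_lit 2) (nat_lit 4) (nat_lit 329) (nat_lit 245) (nat_lit 206))) (XT.nd (nat_lit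 78) (nat_lit 0) (nat_lit 0) (XT.lf (nat_lit 0) (nat_lit 28455068558) (nat_lit 76) (nat_lit 109320143892) (nat_lit 76) (nat_lit 105143734008) (nat_lit 1) (nat_lit 4) (nat_lit 2) (nat_lit 5) (nat_lit 2) (nat_lit 4) (nat_lit 330) (nat_lit 245) (nat_lit 205)) (XT.lf (nat_lit 0) (nat_lit 36737564480) (nat_lit 76) (nat_lit 114779637180) (nat_lit 76) (nat_lit 110588299873) (nat_lit 1) (nat_lit 4) (nat_lit 2) (nat_lit 5) (nat_lit 2) (nat_lit 4) (nat_lit 331) (nat_lit 245) (nat_lit 204))))) (XT.nd (nat_lit 312) (nat_lit 0) (nat_lit 0) (XT.nd (nat_lit 156) (nat_lit 0) (nat_lit 0) (XT.nd (nat_lit 78) (nat_lit 0) (nat_lit 0) (XT.lf (nat_lit 0) (nat_lit 45646430911) (nat_lit 76) (nat_lit 120693599391) (nat_lit 76) (nat_lit 116488440396) (nat_lit 1) (nat_lit 4) (nat_lit 2) (nat_lit 5) (nat_lit 2) (nat_lit 4) (nat_lit 332) (nat_lit 245) (nat_lit 203)) (XT.lf (nat_lit 0) (nat_lit 55234461135) (nat_lit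 76) (nat_lit 127097076226) (nat_lit 76) (nat_lit 122879119372) (nat_lit 1) (nat_lit 4) (nat_lit 2) (nat_lit 5) (nat_lit 2) (nat_lit 4) (nat_lit 333) (nat_lit 245) (nat_lit 202))) (XT.nd (nat_lit 78) (nat_lit 0) (nat_lit 0) (XT.lf (nat_lit 0) (nat_lit 65558473107) (nat_lit 76) (nat_lit 134028014216) (nat_lit 76) (nat_lit 129798207493) (nat_lit 1) (nat_lit 4) (nat_lit 2) (nat_lit 5) (nat_lit 2) (nat_lit 4) (nat_lit 334) (nat_lit 245) (nat_lit 201)) (XT.lf (nat_lit 0) (nat_lit 76679646158) (nat_lit 76) (nat_lit 141527485585) (nat_lit 76) (nat_lit 137286706760) (nat_lit 1) (nat_lit 4) (nat_lit 2) (nat_lit 5) (nat_lit 2) (nat_lit 4) (nat_lit 335) (nat_lit 245) (nat_lit 200)))) (XT.nd (nat_lit 156) (nat_lit 0) (nat_lit 0) (XT.nd (nat_lit 78) (nat_lit 0) (nat_lit 0) (XT.lf (nat_lit 0) (nat_lit 88663883536) (nat_lit 76) (nat_lit 149639931646) (nat_lit 76) (nat_lit 145388993468) (nat_lit 1) (nat_lit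 4) (nat_lit 2) (nat_lit 5) (nat_lit 2) (nat_lit 4) (nat_lit 336) (nat_lit 245) (nat_lit 199)) (XT.lf (nat_lit 0) (nat_lit 101582202944) (nat_lit 76) (nat_lit 158413426152) (nat_lit 76) (nat_lit 154153081165) (nat_lit 1) (nat_lit 4) (nat_lit 2) (nat_lit 5) (nat_lit 2) (nat_lit 4) (nat_lit 337) (nat_lit 245) (nat_lit 198))) (XT.nd (nat_lit 78) (nat_lit 0) (nat_lit 0) (XT.lf (nat_lit 0) (nat_lit 115511157385) (nat_lit 76) (nat_lit 167899960182) (nat_lit 76) (nat_lit 163630905187) (nat_lit 1) (nat_lit 4) (nat_lit 2) (nat_lit 5) (nat_lit 2) (nat_lit 4) (nat_lit 338) (nat_lit 245) (nat_lit 197)) (XT.lf (nat_lit 0) (nat_lit 130533288812) (nat_lit 76) (nat_lit 178155750234) (nat_lit 76) (nat_lit 173878630418) (nat_lit 1) (nat_lit 4) (nat_lit 2) (nat_lit 5) (nat_lit 2) (nat_lit 4) (nat_lit 339) (nat_lit 245) (nat_lit 196)))))) (XT.nd (nat_lit 624) (nat_lit 0) (nat_lit 0) (XT.nd (nat_lit 312)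 (nat_lit 0) (nat_lit 0) (XT.nd (nat_lit 156) (nat_lit 0) (nat_lit 0) (XT.nd (nat_lit 78) (nat_lit 0) (nat_lit 0) (XT.lf (nat_lit 0) (nat_lit 146737617263) (nat_lit 76) (nat_lit 189241571361) (nat_lit 76) (nat_lit 184956984116) (nat_lit 1) (nat_lit 4) (nat_lit 2) (nat_lit 5) (nat_lit 2) (nat_lit 4) (nat_lit 340) (nat_lit 245) (nat_lit 195)) (XT.lf (nat_lit 0) (nat_lit 164220168388) (nat_lit 76) (nat_lit 201223117316) (nat_lit 76) (nat_lit 196931615787) (nat_lit 1) (nat_lit 4) (nat_lit 2) (nat_lit 5) (nat_lit 2) (nat_lit 4) (nat_lit 341) (nat_lit 245) (nat_lit 194))) (XT.nd (nat_lit 78) (nat_lit 0) (nat_lit 0) (XT.lf (nat_lit 0) (nat_lit 183084542490) (nat_lit 76) (nat_lit 214171389855) (nat_lit 76) (nat_lit 209873486210) (nat_lit 1) (nat_lit 4) (nat_lit 2) (nat_lit 5) (nat_lit 2) (nat_lit 4) (nat_lit 342) (nat_lit 245) (nat_lit 193)) (XT.lf (nat_lit 0) (nat_lit 203442528453) (nat_lit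 76) (nat_lit 228163119480) (nat_lit 76) (nat_lit 223859287950) (nat_lit 1) (nat_lit 4) (nat_lit 2) (nat_lit 5) (nat_lit 2) (nat_lit 4) (nat_lit 343) (nat_lit 245) (nat_lit 192)))) (XT.nd (nat_lit 156) (nat_lit 0) (nat_lit 0) (XT.nd (nat_lit 78) (nat_lit 0) (nat_lit 0) (XT.lf (nat_lit 0) (nat_lit 225414766193) (nat_lit 76) (nat_lit 243281220146) (nat_lit 76) (nat_lit 238971899834) (nat_lit 1) (nat_lit 4) (nat_lit 2) (nat_lit 5) (nat_lit 2) (nat_lit 4) (nat_lit 344) (nat_lit 245) (nat_lit 191)) (XT.lf (nat_lit 0) (nat_lit 249131461564) (nat_lit 76) (nat_lit 259615280596) (nat_lit 76) (nat_lit 255300878078) (nat_lit 1) (nat_lit 4) (nat_lit 2) (nat_lit 5) (nat_lit 2) (nat_lit 4) (nat_lit 345) (nat_lit 245) (nat_lit 190))) (XT.nd (nat_lit 78) (nat_lit 0) (nat_lit 0) (XT.lf (nat_lit 0) (nat_lit 274733157945) (nat_lit 76) (nat_lit 277262095264) (nat_lit 76) (nat_lit 272942987000) (nat_lit 1)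 (nat_lit 4) (nat_lit 2) (nat_lit 5) (nat_lit 2) (nat_lit 4) (nat_lit 346) (nat_lit 245) (nat_lit 189)) (XT.lf (nat_lit 0) (nat_lit 302371569093) (nat_lit 76) (nat_lit 296326237866) (nat_lit 76) (nat_lit 292002772429) (nat_lit 1) (nat_lit 4) (nat_lit 2) (nat_lit 5) (nat_lit 2) (nat_lit 4) (nat_lit 347) (nat_lit 245) (nat_lit 188))))) (XT.nd (nat_lit 312) (nat_lit 0) (nat_lit 0) (XT.nd (nat_lit 156) (nat_lit 0) (nat_lit 0) (XT.nd (nat_lit 78) (nat_lit 0) (nat_lit 0) (XT.lf (nat_lit 0) (nat_lit 332210478186) (nat_lit 76) (nat_lit 316920681098) (nat_lit 76) (nat_lit 312593181242) (nat_lit 1) (nat_lit 4) (nat_lit 2) (nat_lit 5) (nat_lit 2) (nat_lit 4) (nat_lit 348) (nat_lit 245) (nat_lit 187)) (XT.lf (nat_lit 0) (nat_lit 364426708387) (nat_lit 76) (nat_lit 339167466105) (nat_lit 76) (nat_lit 334836230676) (nat_lit 1) (nat_lit 4) (nat_lit 2) (nat_lit 5) (nat_lit 2) (nat_lit 4) (nat_lit 349)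 (nat_lit 245) (nat_lit 186))) (XT.nd (nat_lit 78) (nat_lit 0) (nat_lit 0) (XT.lf (nat_lit 0) (nat_lit 399211170692) (nat_lit 76) (nat_lit 363198425689) (nat_lit 76) (nat_lit 358863731396) (nat_lit 1) (nat_lit 4) (nat_lit 2) (nat_lit 5) (nat_lit 2) (nat_lit 4) (nat_lit 350) (nat_lit 245) (nat_lit 185)) (XT.lf (nat_lit 0) (nat_lit 436769995246) (nat_lit 76) (nat_lit 389155965535) (nat_lit 76) (nat_lit 384818068590) (nat_lit 1) (nat_lit 4) (nat_lit 2) (nat_lit 5) (nat_lit 2) (nat_lit 4) (nat_lit 351) (nat_lit 245) (nat_lit 184)))) (XT.nd (nat_lit 156) (nat_lit 0) (nat_lit 0) (XT.nd (nat_lit 78) (nat_lit 0) (nat_lit 0) (XT.lf (nat_lit 0) (nat_lit 477325752863) (nat_lit 76) (nat_lit 417193908101) (nat_lit 76) (nat_lit 412853045738) (nat_lit 1) (nat_lit 4) (nat_lit 2) (nat_lit 5) (nat_lit 2) (nat_lit 4) (nat_lit 352) (nat_lit 245) (nat_lit 183)) (XT.lf (nat_lit 0) (nat_lit 521118773957) (nat_lit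 76) (nat_lit 447478404158) (nat_lit 76) (nat_lit 443134796038) (nat_lit 1) (nat_lit 4) (nat_lit 2) (nat_lit 5) (nat_lit 2) (nat_lit 4) (nat_lit 353) (nat_lit 245) (nat_lit 182))) (XT.nd (nat_lit 78) (nat_lit 0) (nat_lit 0) (XT.lf (nat_lit 0) (nat_lit 568408572727) (nat_lit 76) (nat_lit 480188917387) (nat_lit 76) (nat_lit 475842766898) (nat_lit 1) (nat_lit 4) (nat_lit 2) (nat_lit 5) (nat_lit 2) (nat_lit 4) (nat_lit 354) (nat_lit 245) (nat_lit 181)) (XT.lf (nat_lit 0) (nat_lit 619475385019) (nat_lit 76) (nat_lit 515519287867) (nat_lit 76) (nat_lit 511170783333) (nat_lit 1) (nat_lit 4) (nat_lit 2) (nat_lit 5) (nat_lit 2) (nat_lit 4) (nat_lit 355) (nat_lit 245) (nat_lit 180))))))))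
noncomputable def xc28 : XT := (XT.nd (nat_lit 36426) (nat_lit 0) (nat_lit 0) (XT.nd (nat_lit 1170) (nat_lit 0) (nat_lit 0) (XT.nd (nat_lit 546) (nat_lit 0) (nat_lit 0) (XT.nd (nat_lit 234) (nat_lit 0) (nat_lit 0) (XT.nd (nat_lit 78) (nat_lit 0) (nat_lit 0) (XT.lf (nat_lit 0) (nat_lit 674621828979) (nat_lit 76) (nat_lit 553678880754) (nat_lit 76) (nat_lit 549328196549) (nat_lit 1) (nat_lit 4) (nat_lit 2) (nat_lit 5) (nat_lit 2) (nat_lit 4) (nat_lit 356) (nat_lit 245) (nat_lit 179)) (XT.nd (nat_lit 78) (nat_lit 0) (nat_lit 0) (XT.lf (nat_lit 0) (nat_lit 734174698350) (nat_lit 76) (nat_lit 594893826971) (nat_lit 76) (nat_lit 590541124552) (nat_lit 1) (nat_lit 4) (nat_lit 2) (nat_lit 5) (nat_lit 2) (nat_lit 4) (nat_lit 357) (nat_lit 245) (nat_lit 178)) (XT.lf (nat_lit 0) (nat_lit 798486899023) (nat_lit 76) (nat_lit 639408363235) (nat_lit 76) (nat_lit 635053792100) (nat_lit 1) (nat_lit 4)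 (nat_lit 2) (nat_lit 5) (nat_lit 2) (nat_lit 4) (nat_lit 358) (nat_lit 245) (nat_lit 177)))) (XT.nd (nat_lit 156) (nat_lit 0) (nat_lit 0) (XT.nd (nat_lit 78) (nat_lit 0) (nat_lit 0) (XT.lf (nat_lit 0) (nat_lit 867939540335) (nat_lit 76) (nat_lit 687486279391) (nat_lit 76) (nat_lit 683129977963) (nat_lit 1) (nat_lit 4) (nat_lit 2) (nat_lit 5) (nat_lit 2) (nat_lit 4) (nat_lit 359) (nat_lit 245) (nat_lit 176)) (XT.lf (nat_lit 0) (nat_lit 942944193496) (nat_lit 76) (nat_lit 739412481610) (nat_lit 76) (nat_lit 735054578058) (nat_lit 1) (nat_lit 4) (nat_lit 2) (nat_lit 5) (nat_lit 2) (nat_lit 4) (nat_lit 360) (nat_lit 245) (nat_lit 175))) (XT.nd (nat_lit 78) (nat_lit 0) (nat_lit 0) (XT.lf (nat_lit 0) (nat_lit 1023945330523) (nat_lit 76) (nat_lit 795494680718) (nat_lit 76) (nat_lit 791135293719) (nat_lit 1) (nat_lit 4) (nat_lit 2) (nat_lit 5) (nat_lit 2) (nat_lit 4) (nat_lit 361) (nat_lit 245)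 (nat_lit 174)) (XT.lf (nat_lit 0) (nat_lit 1111422958155) (nat_lit 76) (nat_lit 856065215673) (nat_lit 76) (nat_lit 851704455112) (nat_lit 1) (nat_lit 4) (nat_lit 2) (nat_lit 5) (nat_lit 2) (nat_lit 4) (nat_lit 362) (nat_lit 245) (nat_lit 173))))) (XT.nd (nat_lit 312) (nat_lit 0) (nat_lit 0) (XT.nd (nat_lit 156) (nat_lit 0) (nat_lit 0) (XT.nd (nat_lit 78) (nat_lit 0) (nat_lit 0) (XT.lf (nat_lit 0) (nat_lit 1205895462333) (nat_lit 76) (nat_lit 921483022980) (nat_lit 76) (nat_lit 917120990601) (nat_lit 1) (nat_lit 4) (nat_lit 2) (nat_lit 5) (nat_lit 2) (nat_lit 4) (nat_lit 363) (nat_lit 245) (nat_lit 172)) (XT.lf (nat_lit 0) (nat_lit 1307922680118) (nat_lit 76) (nat_lit 992135763718) (nat_lit 76) (nat_lit 987772553731) (nat_lit 1) (nat_lit 4) (nat_lit 2) (nat_lit 5) (nat_lit 2) (nat_lit 4) (nat_lit 364) (nat_lit 245) (nat_lit 171))) (XT.nd (nat_lit 78) (nat_lit 0) (nat_lit 0) (XT.lf (nat_lit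 0) (nat_lit 1418109217246) (nat_lit 76) (nat_lit 1068442120795) (nat_lit 76) (nat_lit 1064077820430) (nat_lit 1) (nat_lit 4) (nat_lit 2) (nat_lit 5) (nat_lit 2) (nat_lit 4) (nat_lit 365) (nat_lit 245) (nat_lit 170)) (XT.lf (nat_lit 0) (nat_lit 1537108030974) (nat_lit 76) (nat_lit 1150854280032) (nat_lit 76) (nat_lit 1146488970057) (nat_lit 1) (nat_lit 4) (nat_lit 2) (nat_lit 5) (nat_lit 2) (nat_lit 4) (nat_lit 366) (nat_lit 245) (nat_lit 169)))) (XT.nd (nat_lit 156) (nat_lit 0) (nat_lit 0) (XT.nd (nat_lit 78) (nat_lit 0) (nat_lit 0) (XT.lf (nat_lit 0) (nat_lit 1665624299458) (nat_lit 76) (nat_lit 1239860609778) (nat_lit 76) (nat_lit 1235494364980) (nat_lit 1) (nat_lit 4) (nat_lit 2) (nat_lit 5) (nat_lit 2) (nat_lit 4) (nat_lit 367) (nat_lit 245) (nat_lit 168)) (XT.lf (nat_lit 0) (nat_lit 1804419600584) (nat_lit 76) (nat_lit 1335988554952) (nat_lit 76) (nat_lit 1331621444576) (nat_lit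 1) (nat_lit 4) (nat_lit 2) (nat_lit 5) (nat_lit 2) (nat_lit 4) (nat_lit 368) (nat_lit 245) (nat_lit 167))) (XT.nd (nat_lit 78) (nat_lit 0) (nat_lit 0) (XT.lf (nat_lit 0) (nat_lit 1954316425026) (nat_lit 76) (nat_lit 1439807762635) (nat_lit 76) (nat_lit 1435439850799) (nat_lit 1) (nat_lit 4) (nat_lit 2) (nat_lit 5) (nat_lit 2) (nat_lit 4) (nat_lit 369) (nat_lit 245) (nat_lit 166)) (XT.lf (nat_lit 0) (nat_lit 2116203050262) (nat_lit 76) (nat_lit 1551933457763) (nat_lit 76) (nat_lit 1547564803833) (nat_lit 1) (nat_lit 4) (nat_lit 2) (nat_lit 5) (nat_lit 2) (nat_lit 4) (nat_lit 370) (nat_lit 245) (nat_lit 165)))))) (XT.nd (nat_lit 34632) (nat_lit 0) (nat_lit 304) (XT.nd (nat_lit 34320) (nat_lit 0) (nat_lit 684) (XT.nd (nat_lit 34164) (nat_lit 0) (nat_lit 912) (XT.nd (nat_lit 78) (nat_lit 0) (nat_lit 0) (XT.lf (nat_lit 0) (nat_lit 2291038804441) (nat_lit 76) (nat_lit 1673030088898) (nat_lit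 76) (nat_lit 1668660747845) (nat_lit 1) (nat_lit 4) (nat_lit 2) (nat_lit 5) (nat_lit 2) (nat_lit 4) (nat_lit 371) (nat_lit 245) (nat_lit 164)) (XT.lf (nat_lit 0) (nat_lit 2479859751293) (nat_lit 76) (nat_lit 1803815265707) (nat_lit 76) (nat_lit 1799445288429) (nat_lit 1) (nat_lit 4) (nat_lit 2) (nat_lit 5) (nat_lit 2) (nat_lit 4) (nat_lit 372) (nat_lit 245) (nat_lit 163))) (XT.nd (nat_lit 78) (nat_lit 76) (nat_lit 0) (XT.lf (nat_lit 0) (nat_lit 2193188778) (nat_lit 152) (nat_lit 2525419101) (nat_lit 0) (nat_lit 2193188778) (nat_lit 14) (nat_lit 5) (nat_lit 16) (nat_lit 4) (nat_lit 14) (nat_lit 4) (nat_lit 288) (nat_lit 246) (nat_lit 246)) (XT.lf (nat_lit 0) (nat_lit 3339146469) (nat_lit 76) (nat_lit 5832787956) (nat_lit 76) (nat_lit 5356297911) (nat_lit 13) (nat_lit 4) (nat_lit 14) (nat_lit 5) (nat_lit 14) (nat_lit 4) (nat_lit 289) (nat_lit 246) (nat_lit 245)))) (XT.nd (nat_lit 156)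 (nat_lit 76) (nat_lit 0) (XT.nd (nat_lit 78) (nat_lit 152) (nat_lit 0) (XT.lf (nat_lit 0) (nat_lit 12244793127) (nat_lit 76) (nat_lit 1985594281) (nat_lit 76) (nat_lit 1067909750) (nat_lit 13) (nat_lit 4) (nat_lit 14) (nat_lit 5) (nat_lit 14) (nat_lit 4) (nat_lit 290) (nat_lit 246) (nat_lit 244)) (XT.lf (nat_lit 0) (nat_lit 3335031449) (nat_lit 152) (nat_lit 10685251320) (nat_lit 0) (nat_lit 2107070391) (nat_lit 11) (nat_lit 5) (nat_lit 13) (nat_lit 4) (nat_lit 11) (nat_lit 4) (nat_lit 291) (nat_lit 246) (nat_lit 243))) (XT.nd (nat_lit 78) (nat_lit 76) (nat_lit 0) (XT.lf (nat_lit 0) (nat_lit 7937025657) (nat_lit 152) (nat_lit 2732503202) (nat_lit 0) (nat_lit 6358830191) (nat_lit 11) (nat_lit 5) (nat_lit 13) (nat_lit 4) (nat_lit 11) (nat_lit 4) (nat_lit 292) (nat_lit 246) (nat_lit 242)) (XT.lf (nat_lit 0) (nat_lit 5749660163) (nat_lit 76) (nat_lit 7080319038) (nat_lit 76) (nat_lit 5177832454)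 (nat_lit 10) (nat_lit 4) (nat_lit 11) (nat_lit 5) (nat_lit 11) (nat_lit 4) (nat_lit 293) (nat_lit 246) (nat_lit 241))))) (XT.nd (nat_lit 312) (nat_lit 228) (nat_lit 0) (XT.nd (nat_lit 156) (nat_lit 0) (nat_lit 0) (XT.nd (nat_lit 78) (nat_lit 152) (nat_lit 0) (XT.lf (nat_lit 0) (nat_lit 14681356052) (nat_lit 76) (nat_lit 3298960447) (nat_lit 76) (nat_lit 1096204310) (nat_lit 10) (nat_lit 4) (nat_lit 11) (nat_lit 5) (nat_lit 11) (nat_lit 4) (nat_lit 294) (nat_lit 246) (nat_lit 240)) (XT.lf (nat_lit 0) (nat_lit 3059526251) (nat_lit 152) (nat_lit 16409414796) (nat_lit 0) (nat_lit 762504490) (nat_lit 8) (nat_lit 5) (nat_lit 10) (nat_lit 4) (nat_lit 8) (nat_lit 4) (nat_lit 295) (nat_lit 246) (nat_lit 239))) (XT.nd (nat_lit 78) (nat_lit 0) (nat_lit 0) (XT.lf (nat_lit 0) (nat_lit 7501139120) (nat_lit 152) (nat_lit 9008721624) (nat_lit 0) (nat_lit 4965753706) (nat_lit 8) (nat_lit 5) (nat_lit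 10) (nat_lit 4) (nat_lit 8) (nat_lit 4) (nat_lit 296) (nat_lit 246) (nat_lit 238)) (XT.lf (nat_lit 0) (nat_lit 12116291343) (nat_lit 152) (nat_lit 1357499332) (nat_lit 0) (nat_lit 9360198843) (nat_lit 8) (nat_lit 5) (nat_lit 10) (nat_lit 4) (nat_lit 8) (nat_lit 4) (nat_lit 297) (nat_lit 246) (nat_lit 237)))) (XT.nd (nat_lit 156) (nat_lit 152) (nat_lit 0) (XT.nd (nat_lit 78) (nat_lit 0) (nat_lit 0) (XT.lf (nat_lit 0) (nat_lit 6936588929) (nat_lit 76) (nat_lit 10162568170) (nat_lit 76) (nat_lit 7202117258) (nat_lit 7) (nat_lit 4) (nat_lit 8) (nat_lit 5) (nat_lit 8) (nat_lit 4) (nat_lit 298) (nat_lit 246) (nat_lit 236)) (XT.lf (nat_lit 0) (nat_lit 15663184130) (nat_lit 76) (nat_lit 6691316325) (nat_lit 76) (nat_lit 3541644659) (nat_lit 7) (nat_lit 4) (nat_lit 8) (nat_lit 5) (nat_lit 8) (nat_lit 4) (nat_lit 299) (nat_lit 246) (nat_lit 235))) (XT.nd (nat_lit 78) (nat_lit 76) (nat_lit 0) (XT.lf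 (nat_lit 0) (nat_lit 235874156) (nat_lit 152) (nat_lit 2834257820) (nat_lit 76) (nat_lit 24560192544) (nat_lit 6) (nat_lit 5) (nat_lit 8) (nat_lit 5) (nat_lit 7) (nat_lit 4) (nat_lit 300) (nat_lit 246) (nat_lit 234)) (XT.lf (nat_lit 0) (nat_lit 4124556584) (nat_lit 152) (nat_lit 24475628211) (nat_lit 0) (nat_lit 895758101) (nat_lit 5) (nat_lit 5) (nat_lit 7) (nat_lit 4) (nat_lit 5) (nat_lit 4) (nat_lit 301) (nat_lit 246) (nat_lit 233))))))) (XT.nd (nat_lit 1248) (nat_lit 76) (nat_lit 0) (XT.nd (nat_lit 624) (nat_lit 152) (nat_lit 0) (XT.nd (nat_lit 312) (nat_lit 0) (nat_lit 0) (XT.nd (nat_lit 156) (nat_lit 76) (nat_lit 0) (XT.nd (nat_lit 78) (nat_lit 0) (nat_lit 0) (XT.lf (nat_lit 0) (nat_lit 8341131868) (nat_lit 152) (nat_lit 18195166117) (nat_lit 0) (nat_lit 4973250482) (nat_lit 5) (nat_lit 5) (nat_lit 7) (nat_lit 4) (nat_lit 5) (nat_lit 4) (nat_lit 302) (nat_lit 246) (nat_lit 232))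 (XT.lf (nat_lit 0) (nat_lit 12763133286) (nat_lit 152) (nat_lit 11665265296) (nat_lit 0) (nat_lit 9266471436) (nat_lit 5) (nat_lit 5) (nat_lit 7) (nat_lit 4) (nat_lit 5) (nat_lit 4) (nat_lit 303) (nat_lit 246) (nat_lit 231))) (XT.nd (nat_lit 78) (nat_lit 76) (nat_lit 0) (XT.lf (nat_lit 0) (nat_lit 17416765292) (nat_lit 152) (nat_lit 4847230040) (nat_lit 0) (nat_lit 13800862270) (nat_lit 5) (nat_lit 5) (nat_lit 7) (nat_lit 4) (nat_lit 5) (nat_lit 4) (nat_lit 304) (nat_lit 246) (nat_lit 230)) (XT.lf (nat_lit 0) (nat_lit 2420422140) (nat_lit 76) (nat_lit 19967394032) (nat_lit 76) (nat_lit 16241082519) (nat_lit 4) (nat_lit 4) (nat_lit 5) (nat_lit 5) (nat_lit 5) (nat_lit 4) (nat_lit 305) (nat_lit 246) (nat_lit 229)))) (XT.nd (nat_lit 156) (nat_lit 0) (nat_lit 0) (XT.nd (nat_lit 78) (nat_lit 0) (nat_lit 0) (XT.lf (nat_lit 0) (nat_lit 10333738821) (nat_lit 76) (nat_lit 17445553269) (nat_lit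 76) (nat_lit 13617011671) (nat_lit 4) (nat_lit 4) (nat_lit 5) (nat_lit 5) (nat_lit 5) (nat_lit 4) (nat_lit 306) (nat_lit 246) (nat_lit 228)) (XT.lf (nat_lit 0) (nat_lit 18684367186) (nat_lit 76) (nat_lit 14816060659) (nat_lit 76) (nat_lit 10892861574) (nat_lit 4) (nat_lit 4) (nat_lit 5) (nat_lit 5) (nat_lit 5) (nat_lit 4) (nat_lit 307) (nat_lit 246) (nat_lit 227))) (XT.nd (nat_lit 78) (nat_lit 0) (nat_lit 0) (XT.lf (nat_lit 0) (nat_lit 27521792440) (nat_lit 76) (nat_lit 12063334024) (nat_lit 76) (nat_lit 8052489119) (nat_lit 4) (nat_lit 4) (nat_lit 5) (nat_lit 5) (nat_lit 5) (nat_lit 4) (nat_lit 308) (nat_lit 246) (nat_lit 226)) (XT.lf (nat_lit 0) (nat_lit 36898384510) (nat_lit 76) (nat_lit 9171060910) (nat_lit 76) (nat_lit 5079062468) (nat_lit 4) (nat_lit 4) (nat_lit 5) (nat_lit 5) (nat_lit 5) (nat_lit 4) (nat_lit 309) (nat_lit 246) (nat_lit 225))))) (XT.nd (nat_lit 312) (nat_lit 0)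 (nat_lit 0) (XT.nd (nat_lit 156) (nat_lit 76) (nat_lit 0) (XT.nd (nat_lit 78) (nat_lit 76) (nat_lit 0) (XT.lf (nat_lit 0) (nat_lit 46869708388) (nat_lit 76) (nat_lit 6122101921) (nat_lit 76) (nat_lit 1954961315) (nat_lit 4) (nat_lit 4) (nat_lit 5) (nat_lit 5) (nat_lit 5) (nat_lit 4) (nat_lit 310) (nat_lit 246) (nat_lit 224)) (XT.lf (nat_lit 0) (nat_lit 1271378968) (nat_lit 152) (nat_lit 1592248429) (nat_lit 76) (nat_lit 56188712676) (nat_lit 3) (nat_lit 5) (nat_lit 5) (nat_lit 5) (nat_lit 4) (nat_lit 4) (nat_lit 311) (nat_lit 246) (nat_lit 223))) (XT.nd (nat_lit 78) (nat_lit 0) (nat_lit 0) (XT.lf (nat_lit 0) (nat_lit 4730362581) (nat_lit 152) (nat_lit 57997725279) (nat_lit 0) (nat_lit 747826489) (nat_lit 2) (nat_lit 5) (nat_lit 4) (nat_lit 4) (nat_lit 2) (nat_lit 4) (nat_lit 312) (nat_lit 246) (nat_lit 222)) (XT.lf (nat_lit 0) (nat_lit 8514587165) (nat_lit 152) (nat_lit 55258118678)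 (nat_lit 0) (nat_lit 4476819339) (nat_lit 2) (nat_lit 5) (nat_lit 4) (nat_lit 4) (nat_lit 2) (nat_lit 4) (nat_lit 313) (nat_lit 246) (nat_lit 221)))) (XT.nd (nat_lit 156) (nat_lit 0) (nat_lit 0) (XT.nd (nat_lit 78) (nat_lit 0) (nat_lit 0) (XT.lf (nat_lit 0) (nat_lit 12536250346) (nat_lit 152) (nat_lit 52426686459) (nat_lit 0) (nat_lit 8447342026) (nat_lit 2) (nat_lit 5) (nat_lit 4) (nat_lit 4) (nat_lit 2) (nat_lit 4) (nat_lit 314) (nat_lit 246) (nat_lit 220)) (XT.lf (nat_lit 0) (nat_lit 16819184202) (nat_lit 152) (nat_lit 49486649764) (nat_lit 0) (nat_lit 12682923572) (nat_lit 2) (nat_lit 5) (nat_lit 4) (nat_lit 4) (nat_lit 2) (nat_lit 4) (nat_lit 315) (nat_lit 246) (nat_lit 219))) (XT.nd (nat_lit 78) (nat_lit 0) (nat_lit 0) (XT.lf (nat_lit 0) (nat_lit 21388769081) (nat_lit 152) (nat_lit 46420586155) (nat_lit 0) (nat_lit 17208663721) (nat_lit 2) (nat_lit 5) (nat_lit 4) (nat_lit 4) (nat_lit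 2) (nat_lit 4) (nat_lit 316) (nat_lit 246) (nat_lit 218)) (XT.lf (nat_lit 0) (nat_lit 26272084006) (nat_lit 152) (nat_lit 43210326365) (nat_lit 0) (nat_lit 22051381672) (nat_lit 2) (nat_lit 5) (nat_lit 4) (nat_lit 4) (nat_lit 2) (nat_lit 4) (nat_lit 317) (nat_lit 246) (nat_lit 217)))))) (XT.nd (nat_lit 624) (nat_lit 76) (nat_lit 0) (XT.nd (nat_lit 312) (nat_lit 0) (nat_lit 0) (XT.nd (nat_lit 156) (nat_lit 0) (nat_lit 0) (XT.nd (nat_lit 78) (nat_lit 0) (nat_lit 0) (XT.lf (nat_lit 0) (nat_lit 31498067138) (nat_lit 152) (nat_lit 39836846632) (nat_lit 0) (nat_lit 27239775014) (nat_lit 2) (nat_lit 5) (nat_lit 4) (nat_lit 4) (nat_lit 2) (nat_lit 4) (nat_lit 318) (nat_lit 246) (nat_lit 216)) (XT.lf (nat_lit 0) (nat_lit 37097687267) (nat_lit 152) (nat_lit 36280155965) (nat_lit 0) (nat_lit 32804589782) (nat_lit 2) (nat_lit 5) (nat_lit 4) (nat_lit 4) (nat_lit 2) (nat_lit 4) (nat_lit 319) (nat_lit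 246) (nat_lit 215))) (XT.nd (nat_lit 78) (nat_lit 0) (nat_lit 0) (XT.lf (nat_lit 0) (nat_lit 43104127327) (nat_lit 152) (nat_lit 32519177680) (nat_lit 0) (nat_lit 38778802655) (nat_lit 2) (nat_lit 5) (nat_lit 4) (nat_lit 4) (nat_lit 2) (nat_lit 4) (nat_lit 320) (nat_lit 246) (nat_lit 214)) (XT.lf (nat_lit 0) (nat_lit 49552981036) (nat_lit 152) (nat_lit 28531624497) (nat_lit 0) (nat_lit 45197816377) (nat_lit 2) (nat_lit 5) (nat_lit 4) (nat_lit 4) (nat_lit 2) (nat_lit 4) (nat_lit 321) (nat_lit 246) (nat_lit 213)))) (XT.nd (nat_lit 156) (nat_lit 0) (nat_lit 0) (XT.nd (nat_lit 78) (nat_lit 0) (nat_lit 0) (XT.lf (nat_lit 0) (nat_lit 56482463824) (nat_lit 152) (nat_lit 24293866471) (nat_lit 0) (nat_lit 52099669547) (nat_lit 2) (nat_lit 5) (nat_lit 4) (nat_lit 4) (nat_lit 2) (nat_lit 4) (nat_lit 322) (nat_lit 246) (nat_lit 212)) (XT.lf (nat_lit 0) (nat_lit 63933639292) (nat_lit 152) (nat_lit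 19780790962) (nat_lit 0) (nat_lit 59525262036) (nat_lit 2) (nat_lit 5) (nat_lit 4) (nat_lit 4) (nat_lit 2) (nat_lit 4) (nat_lit 323) (nat_lit 246) (nat_lit 211))) (XT.nd (nat_lit 78) (nat_lit 0) (nat_lit 0) (XT.lf (nat_lit 0) (nat_lit 71950662556) (nat_lit 152) (nat_lit 14965653820) (nat_lit 0) (nat_lit 67518597356) (nat_lit 2) (nat_lit 5) (nat_lit 4) (nat_lit 4) (nat_lit 2) (nat_lit 4) (nat_lit 324) (nat_lit 246) (nat_lit 210)) (XT.lf (nat_lit 0) (nat_lit 80581041899) (nat_lit 152) (nat_lit 9819920897) (nat_lit 0) (nat_lit 76127043418) (nat_lit 2) (nat_lit 5) (nat_lit 4) (nat_lit 4) (nat_lit 2) (nat_lit 4) (nat_lit 325) (nat_lit 246) (nat_lit 209))))) (XT.nd (nat_lit 312) (nat_lit 0) (nat_lit 0) (XT.nd (nat_lit 156) (nat_lit 0) (nat_lit 0) (XT.nd (nat_lit 78) (nat_lit 76) (nat_lit 0) (XT.lf (nat_lit 0) (nat_lit 89875920312) (nat_lit 152) (nat_lit 4313098963) (nat_lit 0) (nat_lit 85401613237)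 (nat_lit 2) (nat_lit 5) (nat_lit 4) (nat_lit 4) (nat_lit 2) (nat_lit 4) (nat_lit 326) (nat_lit 246) (nat_lit 208)) (XT.lf (nat_lit 0) (nat_lit 1671037042) (nat_lit 76) (nat_lit 98259529994) (nat_lit 76) (nat_lit 93766418665) (nat_lit 1) (nat_lit 4) (nat_lit 2) (nat_lit 5) (nat_lit 2) (nat_lit 4) (nat_lit 327) (nat_lit 246) (nat_lit 207))) (XT.nd (nat_lit 78) (nat_lit 0) (nat_lit 0) (XT.lf (nat_lit 0) (nat_lit 8333555375) (nat_lit 76) (nat_lit 102550628398) (nat_lit 76) (nat_lit 98040105723) (nat_lit 1) (nat_lit 4) (nat_lit 2) (nat_lit 5) (nat_lit 2) (nat_lit 4) (nat_lit 328) (nat_lit 246) (nat_lit 206)) (XT.lf (nat_lit 0) (nat_lit 15486817477) (nat_lit 76) (nat_lit 107205670988) (nat_lit 76) (nat_lit 102679026697) (nat_lit 1) (nat_lit 4) (nat_lit 2) (nat_lit 5) (nat_lit 2) (nat_lit 4) (nat_lit 329) (nat_lit 246) (nat_lit 205)))) (XT.nd (nat_lit 156) (nat_lit 0) (nat_lit 0) (XT.nd (nat_lit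 78) (nat_lit 0) (nat_lit 0) (XT.lf (nat_lit 0) (nat_lit 23173213051) (nat_lit 76) (nat_lit 112252243203) (nat_lit 76) (nat_lit 107710671488) (nat_lit 1) (nat_lit 4) (nat_lit 2) (nat_lit 5) (nat_lit 2) (nat_lit 4) (nat_lit 330) (nat_lit 246) (nat_lit 204)) (XT.lf (nat_lit 0) (nat_lit 31438291105) (nat_lit 76) (nat_lit 117720250654) (nat_lit 76) (nat_lit 113164857251) (nat_lit 1) (nat_lit 4) (nat_lit 2) (nat_lit 5) (nat_lit 2) (nat_lit 4) (nat_lit 331) (nat_lit 246) (nat_lit 203))) (XT.nd (nat_lit 78) (nat_lit 0) (nat_lit 0) (XT.lf (nat_lit 0) (nat_lit 40331029881) (nat_lit 76) (nat_lit 123642096349) (nat_lit 76) (nat_lit 119073905088) (nat_lit 1) (nat_lit 4) (nat_lit 2) (nat_lit 5) (nat_lit 2) (nat_lit 4) (nat_lit 332) (nat_lit 246) (nat_lit 202)) (XT.lf (nat_lit 0) (nat_lit 49904127091) (nat_lit 76) (nat_lit 130052872707) (nat_lit 76) (nat_lit 125472831577) (nat_lit 1) (nat_lit 4) (nat_lit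 2) (nat_lit 5) (nat_lit 2) (nat_lit 4) (nat_lit 333) (nat_lit 246) (nat_lit 201))))))))
noncomputable def xc29 : XT := (XT.nd (nat_lit 2418) (nat_lit 0) (nat_lit 0) (XT.nd (nat_lit 1170) (nat_lit 0) (nat_lit 0) (XT.nd (nat_lit 546) (nat_lit 0) (nat_lit 0) (XT.nd (nat_lit 234) (nat_lit 0) (nat_lit 0) (XT.nd (nat_lit 78) (nat_lit 0) (nat_lit 0) (XT.lf (nat_lit 0) (nat_lit 60214312198) (nat_lit 76) (nat_lit 136990569515) (nat_lit 76) (nat_lit 132399556282) (nat_lit 1) (nat_lit 4) (nat_lit 2) (nat_lit 5) (nat_lit 2) (nat_lit 4) (nat_lit 334) (nat_lit 246) (nat_lit 200)) (XT.nd (nat_lit 78) (nat_lit 0) (nat_lit 0) (XT.lf (nat_lit 0) (nat_lit 71322682597) (nat_lit 76) (nat_lit 144496299048) (nat_lit 76) (nat_lit 139895126463) (nat_lit 1) (nat_lit 4) (nat_lit 2) (nat_lit 5) (nat_lit 2) (nat_lit 4) (nat_lit 335) (nat_lit 246) (nat_lit 199)) (XT.lf (nat_lit 0) (nat_lit 83295065667) (nat_lit 76)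 (nat_lit 152614539705) (nat_lit 76) (nat_lit 148003960311) (nat_lit 1) (nat_lit 4) (nat_lit 2) (nat_lit 5) (nat_lit 2) (nat_lit 4) (nat_lit 336) (nat_lit 246) (nat_lit 198)))) (XT.nd (nat_lit 156) (nat_lit 0) (nat_lit 0) (XT.nd (nat_lit 78) (nat_lit 0) (nat_lit 0) (XT.lf (nat_lit 0) (nat_lit 96202408863) (nat_lit 76) (nat_lit 161393399578) (nat_lit 76) (nat_lit 156774110176) (nat_lit 1) (nat_lit 4) (nat_lit 2) (nat_lit 5) (nat_lit 2) (nat_lit 4) (nat_lit 337) (nat_lit 246) (nat_lit 197)) (XT.lf (nat_lit 0) (nat_lit 110121200146) (nat_lit 76) (nat_lit 170884901541) (nat_lit 76) (nat_lit 166257547317) (nat_lit 1) (nat_lit 4) (nat_lit 2) (nat_lit 5) (nat_lit 2) (nat_lit 4) (nat_lit 338) (nat_lit 246) (nat_lit 196))) (XT.nd (nat_lit 78) (nat_lit 0) (nat_lit 0) (XT.lf (nat_lit 0) (nat_lit 125133921242) (nat_lit 76) (nat_lit 181145291530) (nat_lit 76) (nat_lit 176510469879) (nat_lit 1) (nat_lit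 4) (nat_lit 2) (nat_lit 5) (nat_lit 2) (nat_lit 4) (nat_lit 339) (nat_lit 246) (nat_lit 195)) (XT.lf (nat_lit 0) (nat_lit 141329536422) (nat_lit 76) (nat_lit 192235371858) (nat_lit 76) (nat_lit 187593635922) (nat_lit 1) (nat_lit 4) (nat_lit 2) (nat_lit 5) (nat_lit 2) (nat_lit 4) (nat_lit 340) (nat_lit 246) (nat_lit 194))))) (XT.nd (nat_lit 312) (nat_lit 0) (nat_lit 0) (XT.nd (nat_lit 156) (nat_lit 0) (nat_lit 0) (XT.nd (nat_lit 78) (nat_lit 0) (nat_lit 0) (XT.lf (nat_lit 0) (nat_lit 158804019705) (nat_lit 76) (nat_lit 204220861519) (nat_lit 76) (nat_lit 199572723467) (nat_lit 1) (nat_lit 4) (nat_lit 2) (nat_lit 5) (nat_lit 2) (nat_lit 4) (nat_lit 341) (nat_lit 246) (nat_lit 193)) (XT.lf (nat_lit 0) (nat_lit 177660923582) (nat_lit 76) (nat_lit 217172785637) (nat_lit 76) (nat_lit 212518719699) (nat_lit 1) (nat_lit 4) (nat_lit 2) (nat_lit 5) (nat_lit 2) (nat_lit 4) (nat_lit 342) (nat_lit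 246) (nat_lit 192))) (XT.nd (nat_lit 78) (nat_lit 0) (nat_lit 0) (XT.lf (nat_lit 0) (nat_lit 198011992670) (nat_lit 76) (nat_lit 231167896353) (nat_lit 76) (nat_lit 226508341634) (nat_lit 1) (nat_lit 4) (nat_lit 2) (nat_lit 5) (nat_lit 2) (nat_lit 4) (nat_lit 343) (nat_lit 246) (nat_lit 191)) (XT.lf (nat_lit 0) (nat_lit 219977825896) (nat_lit 76) (nat_lit 246289127659) (nat_lit 76) (nat_lit 241624490733) (nat_lit 1) (nat_lit 4) (nat_lit 2) (nat_lit 5) (nat_lit 2) (nat_lit 4) (nat_lit 344) (nat_lit 246) (nat_lit 190)))) (XT.nd (nat_lit 156) (nat_lit 0) (nat_lit 0) (XT.nd (nat_lit 78) (nat_lit 0) (nat_lit 0) (XT.lf (nat_lit 0) (nat_lit 243688591162) (nat_lit 76) (nat_lit 262626086851) (nat_lit 76) (nat_lit 257956744179) (nat_lit 1) (nat_lit 4) (nat_lit 2) (nat_lit 5) (nat_lit 2) (nat_lit 4) (nat_lit 345) (nat_lit 246) (nat_lit 189)) (XT.lf (nat_lit 0) (nat_lit 269284796705) (nat_lit 76)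 (nat_lit 280275585538) (nat_lit 76) (nat_lit 275601885693) (nat_lit 1) (nat_lit 4) (nat_lit 2) (nat_lit 5) (nat_lit 2) (nat_lit 4) (nat_lit 346) (nat_lit 246) (nat_lit 188))) (XT.nd (nat_lit 78) (nat_lit 0) (nat_lit 0) (XT.lf (nat_lit 0) (nat_lit 296918123744) (nat_lit 76) (nat_lit 299342213342) (nat_lit 76) (nat_lit 294664479079) (nat_lit 1) (nat_lit 4) (nat_lit 2) (nat_lit 5) (nat_lit 2) (nat_lit 4) (nat_lit 347) (nat_lit 246) (nat_lit 187)) (XT.lf (nat_lit 0) (nat_lit 326752325327) (nat_lit 76) (nat_lit 319938957688) (nat_lit 76) (nat_lit 315257487852) (nat_lit 1) (nat_lit 4) (nat_lit 2) (nat_lit 5) (nat_lit 2) (nat_lit 4) (nat_lit 348) (nat_lit 246) (nat_lit 186)))))) (XT.nd (nat_lit 624) (nat_lit 0) (nat_lit 0) (XT.nd (nat_lit 312) (nat_lit 0) (nat_lit 0) (XT.nd (nat_lit 156) (nat_lit 0) (nat_lit 0) (XT.nd (nat_lit 78) (nat_lit 0) (nat_lit 0) (XT.lf (nat_lit 0) (nat_lit 358964196724)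 (nat_lit 76) (nat_lit 342187873357) (nat_lit 76) (nat_lit 337502944657) (nat_lit 1) (nat_lit 4) (nat_lit 2) (nat_lit 5) (nat_lit 2) (nat_lit 4) (nat_lit 349) (nat_lit 246) (nat_lit 185)) (XT.lf (nat_lit 0) (nat_lit 393744623099) (nat_lit 76) (nat_lit 366220805775) (nat_lit 76) (nat_lit 361532674423) (nat_lit 1) (nat_lit 4) (nat_lit 2) (nat_lit 5) (nat_lit 2) (nat_lit 4) (nat_lit 350) (nat_lit 246) (nat_lit 184))) (XT.nd (nat_lit 78) (nat_lit 0) (nat_lit 0) (XT.lf (nat_lit 0) (nat_lit 431299710681) (nat_lit 76) (nat_lit 392180172319) (nat_lit 76) (nat_lit 387489075549) (nat_lit 1) (nat_lit 4) (nat_lit 2) (nat_lit 5) (nat_lit 2) (nat_lit 4) (nat_lit 351) (nat_lit 246) (nat_lit 183)) (XT.lf (nat_lit 0) (nat_lit 471852008138) (nat_lit 76) (nat_lit 420219806273) (nat_lit 76) (nat_lit 415525963745) (nat_lit 1) (nat_lit 4) (nat_lit 2) (nat_lit 5) (nat_lit 2) (nat_lit 4) (nat_lit 352) (nat_lit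 246) (nat_lit 182)))) (XT.nd (nat_lit 156) (nat_lit 0) (nat_lit 0) (XT.nd (nat_lit 78) (nat_lit 0) (nat_lit 0) (XT.lf (nat_lit 0) (nat_lit 515641825381) (nat_lit 76) (nat_lit 450505868430) (nat_lit 76) (nat_lit 445809483534) (nat_lit 1) (nat_lit 4) (nat_lit 2) (nat_lit 5) (nat_lit 2) (nat_lit 4) (nat_lit 353) (nat_lit 246) (nat_lit 181)) (XT.lf (nat_lit 0) (nat_lit 562928657622) (nat_lit 76) (nat_lit 483217831751) (nat_lit 76) (nat_lit 478519092810) (nat_lit 1) (nat_lit 4) (nat_lit 2) (nat_lit 5) (nat_lit 2) (nat_lit 4) (nat_lit 354) (nat_lit 246) (nat_lit 180))) (XT.nd (nat_lit 78) (nat_lit 0) (nat_lit 0) (XT.lf (nat_lit 0) (nat_lit 613992723128) (nat_lit 76) (nat_lit 518549544908) (nat_lit 76) (nat_lit 513848626296) (nat_lit 1) (nat_lit 4) (nat_lit 2) (nat_lit 5) (nat_lit 2) (nat_lit 4) (nat_lit 355) (nat_lit 246) (nat_lit 179)) (XT.lf (nat_lit 0) (nat_lit 669136623768) (nat_lit 76)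 (nat_lit 556710381016) (nat_lit 76) (nat_lit 552007444190) (nat_lit 1) (nat_lit 4) (nat_lit 2) (nat_lit 5) (nat_lit 2) (nat_lit 4) (nat_lit 356) (nat_lit 246) (nat_lit 178))))) (XT.nd (nat_lit 312) (nat_lit 0) (nat_lit 0) (XT.nd (nat_lit 156) (nat_lit 0) (nat_lit 0) (XT.nd (nat_lit 78) (nat_lit 0) (nat_lit 0) (XT.lf (nat_lit 0) (nat_lit 728687138211) (nat_lit 76) (nat_lit 597926478363) (nat_lit 76) (nat_lit 593221672820) (nat_lit 1) (nat_lit 4) (nat_lit 2) (nat_lit 5) (nat_lit 2) (nat_lit 4) (nat_lit 357) (nat_lit 246) (nat_lit 177)) (XT.lf (nat_lit 0) (nat_lit 792997158397) (nat_lit 76) (nat_lit 642442080488) (nat_lit 76) (nat_lit 637735544652) (nat_lit 1) (nat_lit 4) (nat_lit 2) (nat_lit 5) (nat_lit 2) (nat_lit 4) (nat_lit 358) (nat_lit 246) (nat_lit 176))) (XT.nd (nat_lit 78) (nat_lit 0) (nat_lit 0) (XT.lf (nat_lit 0) (nat_lit 862447780740) (nat_lit 76) (nat_lit 690520983553) (nat_lit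 76) (nat_lit 685812845594) (nat_lit 1) (nat_lit 4) (nat_lit 2) (nat_lit 5) (nat_lit 2) (nat_lit 4) (nat_lit 359) (nat_lit 246) (nat_lit 175)) (XT.lf (nat_lit 0) (nat_lit 937450564484) (nat_lit 76) (nat_lit 742448099575) (nat_lit 76) (nat_lit 737738478169) (nat_lit 1) (nat_lit 4) (nat_lit 2) (nat_lit 5) (nat_lit 2) (nat_lit 4) (nat_lit 360) (nat_lit 246) (nat_lit 174)))) (XT.nd (nat_lit 156) (nat_lit 0) (nat_lit 0) (XT.nd (nat_lit 78) (nat_lit 0) (nat_lit 0) (XT.lf (nat_lit 0) (nat_lit 1018449970570) (nat_lit 76) (nat_lit 798531144798) (nat_lit 76) (nat_lit 793820149829) (nat_lit 1) (nat_lit 4) (nat_lit 2) (nat_lit 5) (nat_lit 2) (nat_lit 4) (nat_lit 361) (nat_lit 246) (nat_lit 173)) (XT.lf (nat_lit 0) (nat_lit 1105925995479) (nat_lit 76) (nat_lit 859102463193) (nat_lit 76) (nat_lit 854390196407) (nat_lit 1) (nat_lit 4) (nat_lit 2) (nat_lit 5) (nat_lit 2) (nat_lit 4) (nat_lit 362) (nat_lit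 246) (nat_lit 172))) (XT.nd (nat_lit 78) (nat_lit 0) (nat_lit 0) (XT.lf (nat_lit 0) (nat_lit 1200397015653) (nat_lit 76) (nat_lit 924520995907) (nat_lit 76) (nat_lit 919807551513) (nat_lit 1) (nat_lit 4) (nat_lit 2) (nat_lit 5) (nat_lit 2) (nat_lit 4) (nat_lit 363) (nat_lit 246) (nat_lit 171)) (XT.lf (nat_lit 0) (nat_lit 1302422859362) (nat_lit 76) (nat_lit 995174408318) (nat_lit 76) (nat_lit 990459873546) (nat_lit 1) (nat_lit 4) (nat_lit 2) (nat_lit 5) (nat_lit 2) (nat_lit 4) (nat_lit 364) (nat_lit 246) (nat_lit 170))))))) (XT.nd (nat_lit 35100) (nat_lit 0) (nat_lit 228) (XT.nd (nat_lit 34476) (nat_lit 0) (nat_lit 684) (XT.nd (nat_lit 312) (nat_lit 0) (nat_lit 0) (XT.nd (nat_lit 156) (nat_lit 0) (nat_lit 0) (XT.nd (nat_lit 78) (nat_lit 0) (nat_lit 0) (XT.lf (nat_lit 0) (nat_lit 1412608124196) (nat_lit 76) (nat_lit 1071481387315) (nat_lit 76) (nat_lit 1066765842933) (nat_lit 1) (nat_lit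 4) (nat_lit 2) (nat_lit 5) (nat_lit 2) (nat_lit 4) (nat_lit 365) (nat_lit 246) (nat_lit 169)) (XT.lf (nat_lit 0) (nat_lit 1531605759875) (nat_lit 76) (nat_lit 1153894122403) (nat_lit 76) (nat_lit 1149177643198) (nat_lit 1) (nat_lit 4) (nat_lit 2) (nat_lit 5) (nat_lit 2) (nat_lit 4) (nat_lit 366) (nat_lit 246) (nat_lit 168))) (XT.nd (nat_lit 78) (nat_lit 0) (nat_lit 0) (XT.lf (nat_lit 0) (nat_lit 1660120937572) (nat_lit 76) (nat_lit 1242900985346) (nat_lit 76) (nat_lit 1238183640563) (nat_lit 1) (nat_lit 4) (nat_lit 2) (nat_lit 5) (nat_lit 2) (nat_lit 4) (nat_lit 367) (nat_lit 246) (nat_lit 167)) (XT.lf (nat_lit 0) (nat_lit 1798915228710) (nat_lit 76) (nat_lit 1339029424219) (nat_lit 76) (nat_lit 1334311277976) (nat_lit 1) (nat_lit 4) (nat_lit 2) (nat_lit 5) (nat_lit 2) (nat_lit 4) (nat_lit 368) (nat_lit 246) (nat_lit 166)))) (XT.nd (nat_lit 156) (nat_lit 0) (nat_lit 0) (XT.nd (nat_lit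 78) (nat_lit 0) (nat_lit 0) (XT.lf (nat_lit 0) (nat_lit 1948811117978) (nat_lit 76) (nat_lit 1442849089032) (nat_lit 76) (nat_lit 1438130200695) (nat_lit 1) (nat_lit 4) (nat_lit 2) (nat_lit 5) (nat_lit 2) (nat_lit 4) (nat_lit 369) (nat_lit 246) (nat_lit 165)) (XT.lf (nat_lit 0) (nat_lit 2110696877313) (nat_lit 76) (nat_lit 1554975207427) (nat_lit 76) (nat_lit 1550255631968) (nat_lit 1) (nat_lit 4) (nat_lit 2) (nat_lit 5) (nat_lit 2) (nat_lit 4) (nat_lit 370) (nat_lit 246) (nat_lit 164))) (XT.nd (nat_lit 78) (nat_lit 0) (nat_lit 0) (XT.lf (nat_lit 0) (nat_lit 2285531829732) (nat_lit 76) (nat_lit 1676072230477) (nat_lit 76) (nat_lit 1671352018793) (nat_lit 1) (nat_lit 4) (nat_lit 2) (nat_lit 5) (nat_lit 2) (nat_lit 4) (nat_lit 371) (nat_lit 246) (nat_lit 163)) (XT.lf (nat_lit 0) (nat_lit 2474352034213) (nat_lit 76) (nat_lit 1806857770171) (nat_lit 76) (nat_lit 1802136969388) (nat_lit 1)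 (nat_lit 4) (nat_lit 2) (nat_lit 5) (nat_lit 2) (nat_lit 4) (nat_lit 372) (nat_lit 246) (nat_lit 162))))) (XT.nd (nat_lit 312) (nat_lit 228) (nat_lit 0) (XT.nd (nat_lit 156) (nat_lit 76) (nat_lit 0) (XT.nd (nat_lit 78) (nat_lit 152) (nat_lit 0) (XT.lf (nat_lit 0) (nat_lit 2318295106) (nat_lit 152) (nat_lit 1983576742) (nat_lit 152) (nat_lit 1983576742) (nat_lit 16) (nat_lit 4) (nat_lit 18) (nat_lit 5) (nat_lit 18) (nat_lit 4) (nat_lit 286) (nat_lit 247) (nat_lit 247)) (XT.lf (nat_lit 0) (nat_lit 93461281) (nat_lit 76) (nat_lit 218672982) (nat_lit 152) (nat_lit 12871896825) (nat_lit 14) (nat_lit 5) (nat_lit 15) (nat_lit 5) (nat_lit 16) (nat_lit 4) (nat_lit 287) (nat_lit 247) (nat_lit 246))) (XT.nd (nat_lit 78) (nat_lit 76) (nat_lit 0) (XT.lf (nat_lit 0) (nat_lit 4777722263) (nat_lit 152) (nat_lit 5269243623) (nat_lit 0) (nat_lit 3786622970) (nat_lit 14) (nat_lit 5) (nat_lit 16) (nat_lit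 4) (nat_lit 14) (nat_lit 4) (nat_lit 288) (nat_lit 247) (nat_lit 245)) (XT.lf (nat_lit 0) (nat_lit 2896364037) (nat_lit 76) (nat_lit 6542132333) (nat_lit 76) (nat_lit 5109838554) (nat_lit 13) (nat_lit 4) (nat_lit 14) (nat_lit 5) (nat_lit 14) (nat_lit 4) (nat_lit 289) (nat_lit 247) (nat_lit 244)))) (XT.nd (nat_lit 156) (nat_lit 76) (nat_lit 0) (XT.nd (nat_lit 78) (nat_lit 152) (nat_lit 0) (XT.lf (nat_lit 0) (nat_lit 11604903132) (nat_lit 76) (nat_lit 2781626304) (nat_lit 76) (nat_lit 940819112) (nat_lit 13) (nat_lit 4) (nat_lit 14) (nat_lit 5) (nat_lit 14) (nat_lit 4) (nat_lit 290) (nat_lit 247) (nat_lit 243)) (XT.lf (nat_lit 0) (nat_lit 3307361136) (nat_lit 152) (nat_lit 11608094307) (nat_lit 0) (nat_lit 1252675625) (nat_lit 11) (nat_lit 5) (nat_lit 13) (nat_lit 4) (nat_lit 11) (nat_lit 4) (nat_lit 291) (nat_lit 247) (nat_lit 242))) (XT.nd (nat_lit 78) (nat_lit 76) (nat_lit 0) (XT.lf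 (nat_lit 0) (nat_lit 7805759351) (nat_lit 152) (nat_lit 3844974021) (nat_lit 0) (nat_lit 5426782722) (nat_lit 11) (nat_lit 5) (nat_lit 13) (nat_lit 4) (nat_lit 11) (nat_lit 4) (nat_lit 292) (nat_lit 247) (nat_lit 241)) (XT.lf (nat_lit 0) (nat_lit 4393781475) (nat_lit 76) (nat_lit 8176400289) (nat_lit 76) (nat_lit 5497154107) (nat_lit 10) (nat_lit 4) (nat_lit 11) (nat_lit 5) (nat_lit 11) (nat_lit 4) (nat_lit 293) (nat_lit 247) (nat_lit 240)))))) (XT.nd (nat_lit 624) (nat_lit 76) (nat_lit 0) (XT.nd (nat_lit 312) (nat_lit 228) (nat_lit 0) (XT.nd (nat_lit 156) (nat_lit 0) (nat_lit 0) (XT.nd (nat_lit 78) (nat_lit 152) (nat_lit 0) (XT.lf (nat_lit 0) (nat_lit 13154341136) (nat_lit 76) (nat_lit 4473245230) (nat_lit 76) (nat_lit 1515971684) (nat_lit 10) (nat_lit 4) (nat_lit 11) (nat_lit 5) (nat_lit 11) (nat_lit 4) (nat_lit 294) (nat_lit 247) (nat_lit 239)) (XT.lf (nat_lit 0) (nat_lit 2003741946)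 (nat_lit 76) (nat_lit 505127398) (nat_lit 152) (nat_lit 17802639330) (nat_lit 8) (nat_lit 5) (nat_lit 9) (nat_lit 5) (nat_lit 10) (nat_lit 4) (nat_lit 295) (nat_lit 247) (nat_lit 238))) (XT.nd (nat_lit 78) (nat_lit 0) (nat_lit 0) (XT.lf (nat_lit 0) (nat_lit 6850935005) (nat_lit 152) (nat_lit 11059120583) (nat_lit 0) (nat_lit 3653648019) (nat_lit 8) (nat_lit 5) (nat_lit 10) (nat_lit 4) (nat_lit 8) (nat_lit 4) (nat_lit 296) (nat_lit 247) (nat_lit 237)) (XT.lf (nat_lit 0) (nat_lit 11385162336) (nat_lit 152) (nat_lit 3559931024) (nat_lit 0) (nat_lit 7983516938) (nat_lit 8) (nat_lit 5) (nat_lit 10) (nat_lit 4) (nat_lit 8) (nat_lit 4) (nat_lit 297) (nat_lit 247) (nat_lit 236)))) (XT.nd (nat_lit 156) (nat_lit 152) (nat_lit 0) (XT.nd (nat_lit 78) (nat_lit 0) (nat_lit 0) (XT.lf (nat_lit 0) (nat_lit 4469997283) (nat_lit 76) (nat_lit 11763778767) (nat_lit 76) (nat_lit 8172912616) (nat_lit 7) (nat_lit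 4) (nat_lit 8) (nat_lit 5) (nat_lit 8) (nat_lit 4) (nat_lit 298) (nat_lit 247) (nat_lit 235)) (XT.lf (nat_lit 0) (nat_lit 13059385258) (nat_lit 76) (nat_lit 8357054259) (nat_lit 76) (nat_lit 4590983707) (nat_lit 7) (nat_lit 4) (nat_lit 8) (nat_lit 5) (nat_lit 8) (nat_lit 4) (nat_lit 299) (nat_lit 247) (nat_lit 234))) (XT.nd (nat_lit 78) (nat_lit 152) (nat_lit 0) (XT.lf (nat_lit 0) (nat_lit 22071673319) (nat_lit 76) (nat_lit 4802066663) (nat_lit 76) (nat_lit 873769815) (nat_lit 7) (nat_lit 4) (nat_lit 8) (nat_lit 5) (nat_lit 8) (nat_lit 4) (nat_lit 300) (nat_lit 247) (nat_lit 233)) (XT.lf (nat_lit 0) (nat_lit 1948301251) (nat_lit 76) (nat_lit 949202418) (nat_lit 152) (nat_lit 26730234338) (nat_lit 5) (nat_lit 5) (nat_lit 6) (nat_lit 5) (nat_lit 7) (nat_lit 4) (nat_lit 301) (nat_lit 247) (nat_lit 232))))) (XT.nd (nat_lit 312) (nat_lit 76) (nat_lit 0) (XT.nd (nat_lit 156) (nat_lit 0) (nat_lit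 0) (XT.nd (nat_lit 78) (nat_lit 0) (nat_lit 0) (XT.lf (nat_lit 0) (nat_lit 7027837204) (nat_lit 152) (nat_lit 21497780091) (nat_lit 0) (nat_lit 3122661941) (nat_lit 5) (nat_lit 5) (nat_lit 7) (nat_lit 4) (nat_lit 5) (nat_lit 4) (nat_lit 302) (nat_lit 247) (nat_lit 231)) (XT.lf (nat_lit 0) (nat_lit 11391122504) (nat_lit 152) (nat_lit 15080503131) (nat_lit 0) (nat_lit 7366706070) (nat_lit 5) (nat_lit 5) (nat_lit 7) (nat_lit 4) (nat_lit 5) (nat_lit 4) (nat_lit 303) (nat_lit 247) (nat_lit 230))) (XT.nd (nat_lit 78) (nat_lit 0) (nat_lit 0) (XT.lf (nat_lit 0) (nat_lit 15990387733) (nat_lit 152) (nat_lit 8366749228) (nat_lit 0) (nat_lit 11855562807) (nat_lit 5) (nat_lit 5) (nat_lit 7) (nat_lit 4) (nat_lit 5) (nat_lit 4) (nat_lit 304) (nat_lit 247) (nat_lit 229)) (XT.lf (nat_lit 0) (nat_lit 20852887796) (nat_lit 152) (nat_lit 1316733173) (nat_lit 0) (nat_lit 16615832785) (nat_lit 5) (nat_lit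 5) (nat_lit 7) (nat_lit 4) (nat_lit 5) (nat_lit 4) (nat_lit 305) (nat_lit 247) (nat_lit 228)))) (XT.nd (nat_lit 156) (nat_lit 0) (nat_lit 0) (XT.nd (nat_lit 78) (nat_lit 0) (nat_lit 0) (XT.lf (nat_lit 0) (nat_lit 6433134339) (nat_lit 76) (nat_lit 19729020204) (nat_lit 76) (nat_lit 15397307708) (nat_lit 4) (nat_lit 4) (nat_lit 5) (nat_lit 5) (nat_lit 5) (nat_lit 4) (nat_lit 306) (nat_lit 247) (nat_lit 227)) (XT.lf (nat_lit 0) (nat_lit 14696621656) (nat_lit 76) (nat_lit 17141414798) (nat_lit 76) (nat_lit 12722056481) (nat_lit 4) (nat_lit 4) (nat_lit 5) (nat_lit 5) (nat_lit 5) (nat_lit 4) (nat_lit 307) (nat_lit 247) (nat_lit 226))) (XT.nd (nat_lit 78) (nat_lit 0) (nat_lit 0) (XT.lf (nat_lit 0) (nat_lit 23453360755) (nat_lit 76) (nat_lit 14427472611) (nat_lit 76) (nat_lit 9926960757) (nat_lit 4) (nat_lit 4) (nat_lit 5) (nat_lit 5) (nat_lit 5) (nat_lit 4) (nat_lit 308) (nat_lit 247) (nat_lit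 225)) (XT.lf (nat_lit 0) (nat_lit 32755243422) (nat_lit 76) (nat_lit 11571111024) (nat_lit 76) (nat_lit 6995457004) (nat_lit 4) (nat_lit 4) (nat_lit 5) (nat_lit 5) (nat_lit 5) (nat_lit 4) (nat_lit 309) (nat_lit 247) (nat_lit 224))))))))
noncomputable def xc30 : XT := (XT.nd (nat_lit 2418) (nat_lit 0) (nat_lit 0) (XT.nd (nat_lit 1170) (nat_lit 76) (nat_lit 0) (XT.nd (nat_lit 546) (nat_lit 0) (nat_lit 0) (XT.nd (nat_lit 234) (nat_lit 0) (nat_lit 0) (XT.nd (nat_lit 78) (nat_lit 152) (nat_lit 0) (XT.lf (nat_lit 0) (nat_lit 42657391926) (nat_lit 76) (nat_lit 8555403447) (nat_lit 76) (nat_lit 3910173350) (nat_lit 4) (nat_lit 4) (nat_lit 5) (nat_lit 5) (nat_lit 5) (nat_lit 4) (nat_lit 310) (nat_lit 247) (nat_lit 223)) (XT.nd (nat_lit 78) (nat_lit 152) (nat_lit 0) (XT.lf (nat_lit 0) (nat_lit 53218485665) (nat_lit 76) (nat_lit 5362479023) (nat_lit 76) (nat_lit 652826632) (nat_lit 4) (nat_lit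 4) (nat_lit 5) (nat_lit 5) (nat_lit 5) (nat_lit 4) (nat_lit 311) (nat_lit 247) (nat_lit 222)) (XT.lf (nat_lit 0) (nat_lit 794997076) (nat_lit 76) (nat_lit 1880147029) (nat_lit 152) (nat_lit 60996586699) (nat_lit 2) (nat_lit 5) (nat_lit 3) (nat_lit 5) (nat_lit 4) (nat_lit 4) (nat_lit 312) (nat_lit 247) (nat_lit 221)))) (XT.nd (nat_lit 156) (nat_lit 0) (nat_lit 0) (XT.nd (nat_lit 78) (nat_lit 0) (nat_lit 0) (XT.lf (nat_lit 0) (nat_lit 6382757181) (nat_lit 152) (nat_lit 60153132099) (nat_lit 0) (nat_lit 1915595701) (nat_lit 2) (nat_lit 5) (nat_lit 4) (nat_lit 4) (nat_lit 2) (nat_lit 4) (nat_lit 313) (nat_lit 247) (nat_lit 220)) (XT.lf (nat_lit 0) (nat_lit 10375351910) (nat_lit 152) (nat_lit 57378387429) (nat_lit 0) (nat_lit 5860838121) (nat_lit 2) (nat_lit 5) (nat_lit 4) (nat_lit 4) (nat_lit 2) (nat_lit 4) (nat_lit 314) (nat_lit 247) (nat_lit 219))) (XT.nd (nat_lit 78) (nat_lit 0) (nat_lit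 0) (XT.lf (nat_lit 0) (nat_lit 14631370533) (nat_lit 152) (nat_lit 54490839206) (nat_lit 0) (nat_lit 10073012012) (nat_lit 2) (nat_lit 5) (nat_lit 4) (nat_lit 4) (nat_lit 2) (nat_lit 4) (nat_lit 315) (nat_lit 247) (nat_lit 218)) (XT.lf (nat_lit 0) (nat_lit 19176033900) (nat_lit 152) (nat_lit 51473376033) (nat_lit 0) (nat_lit 14577078407) (nat_lit 2) (nat_lit 5) (nat_lit 4) (nat_lit 4) (nat_lit 2) (nat_lit 4) (nat_lit 316) (nat_lit 247) (nat_lit 217))))) (XT.nd (nat_lit 312) (nat_lit 0) (nat_lit 0) (XT.nd (nat_lit 156) (nat_lit 0) (nat_lit 0) (XT.nd (nat_lit 78) (nat_lit 0) (nat_lit 0) (XT.lf (nat_lit 0) (nat_lit 24036273351) (nat_lit 152) (nat_lit 48308116647) (nat_lit 0) (nat_lit 19399728067) (nat_lit 2) (nat_lit 5) (nat_lit 4) (nat_lit 4) (nat_lit 2) (nat_lit 4) (nat_lit 317) (nat_lit 247) (nat_lit 216)) (XT.lf (nat_lit 0) (nat_lit 29240890303) (nat_lit 152) (nat_lit 44976303955) (nat_lit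 0) (nat_lit 24569539658) (nat_lit 2) (nat_lit 5) (nat_lit 4) (nat_lit 4) (nat_lit 2) (nat_lit 4) (nat_lit 318) (nat_lit 247) (nat_lit 215))) (XT.nd (nat_lit 78) (nat_lit 0) (nat_lit 0) (XT.lf (nat_lit 0) (nat_lit 34820726932) (nat_lit 152) (nat_lit 41458193882) (nat_lit 0) (nat_lit 30117149101) (nat_lit 2) (nat_lit 5) (nat_lit 4) (nat_lit 4) (nat_lit 2) (nat_lit 4) (nat_lit 319) (nat_lit 247) (nat_lit 214)) (XT.lf (nat_lit 0) (nat_lit 40808848937) (nat_lit 152) (nat_lit 37732938368) (nat_lit 0) (nat_lit 36075431118) (nat_lit 2) (nat_lit 5) (nat_lit 4) (nat_lit 4) (nat_lit 2) (nat_lit 4) (nat_lit 320) (nat_lit 247) (nat_lit 213)))) (XT.nd (nat_lit 156) (nat_lit 0) (nat_lit 0) (XT.nd (nat_lit 78) (nat_lit 0) (nat_lit 0) (XT.lf (nat_lit 0) (nat_lit 47240741483) (nat_lit 152) (nat_lit 33778461826) (nat_lit 0) (nat_lit 42479694047) (nat_lit 2) (nat_lit 5) (nat_lit 4) (nat_lit 4) (nat_lit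 2) (nat_lit 4) (nat_lit 321) (nat_lit 247) (nat_lit 212)) (XT.lf (nat_lit 0) (nat_lit 54154519491) (nat_lit 152) (nat_lit 29571330319) (nat_lit 0) (nat_lit 49367889075) (nat_lit 2) (nat_lit 5) (nat_lit 4) (nat_lit 4) (nat_lit 2) (nat_lit 4) (nat_lit 322) (nat_lit 247) (nat_lit 211))) (XT.nd (nat_lit 78) (nat_lit 0) (nat_lit 0) (XT.lf (nat_lit 0) (nat_lit 61591153497) (nat_lit 152) (nat_lit 25086612698) (nat_lit 0) (nat_lit 56780835137) (nat_lit 2) (nat_lit 5) (nat_lit 4) (nat_lit 4) (nat_lit 2) (nat_lit 4) (nat_lit 323) (nat_lit 247) (nat_lit 210)) (XT.lf (nat_lit 0) (nat_lit 69594712442) (nat_lit 152) (nat_lit 20297732859) (nat_lit 0) (nat_lit 64762460801) (nat_lit 2) (nat_lit 5) (nat_lit 4) (nat_lit 4) (nat_lit 2) (nat_lit 4) (nat_lit 324) (nat_lit 247) (nat_lit 209)))))) (XT.nd (nat_lit 624) (nat_lit 0) (nat_lit 0) (XT.nd (nat_lit 312) (nat_lit 0) (nat_lit 0) (XT.nd (nat_lit 156)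 (nat_lit 76) (nat_lit 0) (XT.nd (nat_lit 78) (nat_lit 0) (nat_lit 0) (XT.lf (nat_lit 0) (nat_lit 78212624825) (nat_lit 152) (nat_lit 15176312255) (nat_lit 0) (nat_lit 73360064590) (nat_lit 2) (nat_lit 5) (nat_lit 4) (nat_lit 4) (nat_lit 2) (nat_lit 4) (nat_lit 325) (nat_lit 247) (nat_lit 208)) (XT.lf (nat_lit 0) (nat_lit 87495959756) (nat_lit 152) (nat_lit 9692001726) (nat_lit 0) (nat_lit 82624595267) (nat_lit 2) (nat_lit 5) (nat_lit 4) (nat_lit 4) (nat_lit 2) (nat_lit 4) (nat_lit 326) (nat_lit 247) (nat_lit 207))) (XT.nd (nat_lit 78) (nat_lit 76) (nat_lit 0) (XT.lf (nat_lit 0) (nat_lit 97499729590) (nat_lit 152) (nat_lit 3812301655) (nat_lit 0) (nat_lit 92610953755) (nat_lit 2) (nat_lit 5) (nat_lit 4) (nat_lit 4) (nat_lit 2) (nat_lit 4) (nat_lit 327) (nat_lit 247) (nat_lit 206)) (XT.lf (nat_lit 0) (nat_lit 2629151427) (nat_lit 76) (nat_lit 105717295653) (nat_lit 76) (nat_lit 100812398201)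 (nat_lit 1) (nat_lit 4) (nat_lit 2) (nat_lit 5) (nat_lit 2) (nat_lit 4) (nat_lit 328) (nat_lit 247) (nat_lit 205)))) (XT.nd (nat_lit 156) (nat_lit 0) (nat_lit 0) (XT.nd (nat_lit 78) (nat_lit 0) (nat_lit 0) (XT.lf (nat_lit 0) (nat_lit 9763602233) (nat_lit 76) (nat_lit 110381533540) (nat_lit 76) (nat_lit 105461708665) (nat_lit 1) (nat_lit 4) (nat_lit 2) (nat_lit 5) (nat_lit 2) (nat_lit 4) (nat_lit 329) (nat_lit 247) (nat_lit 204)) (XT.lf (nat_lit 0) (nat_lit 17432579938) (nat_lit 76) (nat_lit 115436619917) (nat_lit 76) (nat_lit 110502973355) (nat_lit 1) (nat_lit 4) (nat_lit 2) (nat_lit 5) (nat_lit 2) (nat_lit 4) (nat_lit 330) (nat_lit 247) (nat_lit 203))) (XT.nd (nat_lit 78) (nat_lit 0) (nat_lit 0) (XT.lf (nat_lit 0) (nat_lit 25681530338) (nat_lit 76) (nat_lit 120912510853) (nat_lit 76) (nat_lit 115966066432) (nat_lit 1) (nat_lit 4) (nat_lit 2) (nat_lit 5) (nat_lit 2) (nat_lit 4) (nat_lit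 331) (nat_lit 247) (nat_lit 202)) (XT.lf (nat_lit 0) (nat_lit 34559336100) (nat_lit 76) (nat_lit 126841656071) (nat_lit 76) (nat_lit 121883361780) (nat_lit 1) (nat_lit 4) (nat_lit 2) (nat_lit 5) (nat_lit 2) (nat_lit 4) (nat_lit 332) (nat_lit 247) (nat_lit 201))))) (XT.nd (nat_lit 312) (nat_lit 0) (nat_lit 0) (XT.nd (nat_lit 156) (nat_lit 0) (nat_lit 0) (XT.nd (nat_lit 78) (nat_lit 0) (nat_lit 0) (XT.lf (nat_lit 0) (nat_lit 44118606445) (nat_lit 76) (nat_lit 133259191247) (nat_lit 76) (nat_lit 128289924855) (nat_lit 1) (nat_lit 4) (nat_lit 2) (nat_lit 5) (nat_lit 2) (nat_lit 4) (nat_lit 333) (nat_lit 247) (nat_lit 200)) (XT.lf (nat_lit 0) (nat_lit 54415988900) (nat_lit 76) (nat_lit 140203146218) (nat_lit 76) (nat_lit 135223720473) (nat_lit 1) (nat_lit 4) (nat_lit 2) (nat_lit 5) (nat_lit 2) (nat_lit 4) (nat_lit 334) (nat_lit 247) (nat_lit 199))) (XT.nd (nat_lit 78) (nat_lit 0) (nat_lit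 0) (XT.lf (nat_lit 0) (nat_lit 65512504990) (nat_lit 76) (nat_lit 147714670348) (nat_lit 76) (nat_lit 142725837795) (nat_lit 1) (nat_lit 4) (nat_lit 2) (nat_lit 5) (nat_lit 2) (nat_lit 4) (nat_lit 335) (nat_lit 247) (nat_lit 198)) (XT.lf (nat_lit 0) (nat_lit 77473911849) (nat_lit 76) (nat_lit 155838276372) (nat_lit 76) (nat_lit 150840733811) (nat_lit 1) (nat_lit 4) (nat_lit 2) (nat_lit 5) (nat_lit 2) (nat_lit 4) (nat_lit 336) (nat_lit 247) (nat_lit 197)))) (XT.nd (nat_lit 156) (nat_lit 0) (nat_lit 0) (XT.nd (nat_lit 78) (nat_lit 0) (nat_lit 0) (XT.lf (nat_lit 0) (nat_lit 90371091887) (nat_lit 76) (nat_lit 164622104178) (nat_lit 76) (nat_lit 159616496794) (nat_lit 1) (nat_lit 4) (nat_lit 2) (nat_lit 5) (nat_lit 2) (nat_lit 4) (nat_lit 337) (nat_lit 247) (nat_lit 196)) (XT.lf (nat_lit 0) (nat_lit 104280472838) (nat_lit 76) (nat_lit 174118206078) (nat_lit 76) (nat_lit 169105131267) (nat_lit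 1) (nat_lit 4) (nat_lit 2) (nat_lit 5) (nat_lit 2) (nat_lit 4) (nat_lit 338) (nat_lit 247) (nat_lit 195))) (XT.nd (nat_lit 78) (nat_lit 0) (nat_lit 0) (XT.lf (nat_lit 0) (nat_lit 119284480664) (nat_lit 76) (nat_lit 184382855270) (nat_lit 76) (nat_lit 179362866173) (nat_lit 1) (nat_lit 4) (nat_lit 2) (nat_lit 5) (nat_lit 2) (nat_lit 4) (nat_lit 339) (nat_lit 247) (nat_lit 194)) (XT.lf (nat_lit 0) (nat_lit 135472028002) (nat_lit 76) (nat_lit 195476879303) (nat_lit 76) (nat_lit 190450488090) (nat_lit 1) (nat_lit 4) (nat_lit 2) (nat_lit 5) (nat_lit 2) (nat_lit 4) (nat_lit 340) (nat_lit 247) (nat_lit 193))))))) (XT.nd (nat_lit 1248) (nat_lit 0) (nat_lit 0) (XT.nd (nat_lit 624) (nat_lit 0) (nat_lit 0) (XT.nd (nat_lit 312) (nat_lit 0) (nat_lit 0) (XT.nd (nat_lit 156) (nat_lit 0) (nat_lit 0) (XT.nd (nat_lit 78) (nat_lit 0) (nat_lit 0) (XT.lf (nat_lit 0) (nat_lit 152939041059) (nat_lit 76) (nat_lit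 207466020542) (nat_lit 76) (nat_lit 202433701445) (nat_lit 1) (nat_lit 4) (nat_lit 2) (nat_lit 5) (nat_lit 2) (nat_lit 4) (nat_lit 341) (nat_lit 247) (nat_lit 192)) (XT.lf (nat_lit 0) (nat_lit 171789028062) (nat_lit 76) (nat_lit 220421325751) (nat_lit 76) (nat_lit 215383517871) (nat_lit 1) (nat_lit 4) (nat_lit 2) (nat_lit 5) (nat_lit 2) (nat_lit 4) (nat_lit 342) (nat_lit 247) (nat_lit 191))) (XT.nd (nat_lit 78) (nat_lit 0) (nat_lit 0) (XT.lf (nat_lit 0) (nat_lit 192133692636) (nat_lit 76) (nat_lit 234419567108) (nat_lit 76) (nat_lit 229376677022) (nat_lit 1) (nat_lit 4) (nat_lit 2) (nat_lit 5) (nat_lit 2) (nat_lit 4) (nat_lit 343) (nat_lit 247) (nat_lit 190)) (XT.lf (nat_lit 0) (nat_lit 214093595757) (nat_lit 76) (nat_lit 249543697155) (nat_lit 76) (nat_lit 244496101323) (nat_lit 1) (nat_lit 4) (nat_lit 2) (nat_lit 5) (nat_lit 2) (nat_lit 4) (nat_lit 344) (nat_lit 247) (nat_lit 189))))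 (XT.nd (nat_lit 156) (nat_lit 0) (nat_lit 0) (XT.nd (nat_lit 78) (nat_lit 0) (nat_lit 0) (XT.lf (nat_lit 0) (nat_lit 237798870184) (nat_lit 76) (nat_lit 265883340366) (nat_lit 76) (nat_lit 260831387361) (nat_lit 1) (nat_lit 4) (nat_lit 2) (nat_lit 5) (nat_lit 2) (nat_lit 4) (nat_lit 345) (nat_lit 247) (nat_lit 188)) (XT.lf (nat_lit 0) (nat_lit 263389991618) (nat_lit 76) (nat_lit 283535324256) (nat_lit 76) (nat_lit 278479336832) (nat_lit 1) (nat_lit 4) (nat_lit 2) (nat_lit 5) (nat_lit 2) (nat_lit 4) (nat_lit 346) (nat_lit 247) (nat_lit 187))) (XT.nd (nat_lit 78) (nat_lit 0) (nat_lit 0) (XT.lf (nat_lit 0) (nat_lit 291018611148) (nat_lit 76) (nat_lit 302604253174) (nat_lit 76) (nat_lit 297544530178) (nat_lit 1) (nat_lit 4) (nat_lit 2) (nat_lit 5) (nat_lit 2) (nat_lit 4) (nat_lit 347) (nat_lit 247) (nat_lit 186)) (XT.lf (nat_lit 0) (nat_lit 320848453927) (nat_lit 76) (nat_lit 323203128182)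 (nat_lit 76) (nat_lit 318139946321) (nat_lit 1) (nat_lit 4) (nat_lit 2) (nat_lit 5) (nat_lit 2) (nat_lit 4) (nat_lit 348) (nat_lit 247) (nat_lit 185))))) (XT.nd (nat_lit 312) (nat_lit 0) (nat_lit 0) (XT.nd (nat_lit 156) (nat_lit 0) (nat_lit 0) (XT.nd (nat_lit 78) (nat_lit 0) (nat_lit 0) (XT.lf (nat_lit 0) (nat_lit 353056289394) (nat_lit 76) (nat_lit 345454016685) (nat_lit 76) (nat_lit 340387632173) (nat_lit 1) (nat_lit 4) (nat_lit 2) (nat_lit 5) (nat_lit 2) (nat_lit 4) (nat_lit 349) (nat_lit 247) (nat_lit 184)) (XT.lf (nat_lit 0) (nat_lit 387832978796) (nat_lit 76) (nat_lit 369488775801) (nat_lit 76) (nat_lit 364419425871) (nat_lit 1) (nat_lit 4) (nat_lit 2) (nat_lit 5) (nat_lit 2) (nat_lit 4) (nat_lit 350) (nat_lit 247) (nat_lit 183))) (XT.nd (nat_lit 78) (nat_lit 0) (nat_lit 0) (XT.lf (nat_lit 0) (nat_lit 425384606219) (nat_lit 76) (nat_lit 395449833733) (nat_lit 76) (nat_lit 390377738045)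 (nat_lit 1) (nat_lit 4) (nat_lit 2) (nat_lit 5) (nat_lit 2) (nat_lit 4) (nat_lit 351) (nat_lit 247) (nat_lit 182)) (XT.lf (nat_lit 0) (nat_lit 465933699824) (nat_lit 76) (nat_lit 423491033786) (nat_lit 76) (nat_lit 418416395730) (nat_lit 1) (nat_lit 4) (nat_lit 2) (nat_lit 5) (nat_lit 2) (nat_lit 4) (nat_lit 352) (nat_lit 247) (nat_lit 181)))) (XT.nd (nat_lit 156) (nat_lit 0) (nat_lit 0) (XT.nd (nat_lit 78) (nat_lit 0) (nat_lit 0) (XT.lf (nat_lit 0) (nat_lit 509720550538) (nat_lit 76) (nat_lit 453778546035) (nat_lit 76) (nat_lit 448701553934) (nat_lit 1) (nat_lit 4) (nat_lit 2) (nat_lit 5) (nat_lit 2) (nat_lit 4) (nat_lit 353) (nat_lit 247) (nat_lit 180)) (XT.lf (nat_lit 0) (nat_lit 557004635993) (nat_lit 76) (nat_lit 486491852034) (nat_lit 76) (nat_lit 481412680262) (nat_lit 1) (nat_lit 4) (nat_lit 2) (nat_lit 5) (nat_lit 2) (nat_lit 4) (nat_lit 354) (nat_lit 247) (nat_lit 179))) (XT.nd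 (nat_lit 78) (nat_lit 0) (nat_lit 0) (XT.lf (nat_lit 0) (nat_lit 608066158179) (nat_lit 76) (nat_lit 521824808412) (nat_lit 76) (nat_lit 516743618426) (nat_lit 1) (nat_lit 4) (nat_lit 2) (nat_lit 5) (nat_lit 2) (nat_lit 4) (nat_lit 355) (nat_lit 247) (nat_lit 178)) (XT.lf (nat_lit 0) (nat_lit 663207703892) (nat_lit 76) (nat_lit 559986795649) (nat_lit 76) (nat_lit 554903736947) (nat_lit 1) (nat_lit 4) (nat_lit 2) (nat_lit 5) (nat_lit 2) (nat_lit 4) (nat_lit 356) (nat_lit 247) (nat_lit 177)))))) (XT.nd (nat_lit 624) (nat_lit 0) (nat_lit 0) (XT.nd (nat_lit 312) (nat_lit 0) (nat_lit 0) (XT.nd (nat_lit 156) (nat_lit 0) (nat_lit 0) (XT.nd (nat_lit 78) (nat_lit 0) (nat_lit 0) (XT.lf (nat_lit 0) (nat_lit 722756037848) (nat_lit 76) (nat_lit 601203958857) (nat_lit 76) (nat_lit 596119169861) (nat_lit 1) (nat_lit 4) (nat_lit 2) (nat_lit 5) (nat_lit 2) (nat_lit 4) (nat_lit 357) (nat_lit 247) (nat_lit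 176)) (XT.lf (nat_lit 0) (nat_lit 787064039064) (nat_lit 76) (nat_lit 645720547891) (nat_lit 76) (nat_lit 640634156772) (nat_lit 1) (nat_lit 4) (nat_lit 2) (nat_lit 5) (nat_lit 2) (nat_lit 4) (nat_lit 358) (nat_lit 247) (nat_lit 175))) (XT.nd (nat_lit 78) (nat_lit 0) (nat_lit 0) (XT.lf (nat_lit 0) (nat_lit 856512791991) (nat_lit 76) (nat_lit 693800364760) (nat_lit 76) (nat_lit 688712490193) (nat_lit 1) (nat_lit 4) (nat_lit 2) (nat_lit 5) (nat_lit 2) (nat_lit 4) (nat_lit 359) (nat_lit 247) (nat_lit 174)) (XT.lf (nat_lit 0) (nat_lit 931513844793) (nat_lit 76) (nat_lit 745728326897) (nat_lit 76) (nat_lit 740639078768) (nat_lit 1) (nat_lit 4) (nat_lit 2) (nat_lit 5) (nat_lit 2) (nat_lit 4) (nat_lit 360) (nat_lit 247) (nat_lit 173)))) (XT.nd (nat_lit 156) (nat_lit 0) (nat_lit 0) (XT.nd (nat_lit 78) (nat_lit 0) (nat_lit 0) (XT.lf (nat_lit 0) (nat_lit 1012511648156) (nat_lit 76) (nat_lit 801812155559)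 (nat_lit 76) (nat_lit 796721635613) (nat_lit 1) (nat_lit 4) (nat_lit 2) (nat_lit 5) (nat_lit 2) (nat_lit 4) (nat_lit 361) (nat_lit 247) (nat_lit 172)) (XT.lf (nat_lit 0) (nat_lit 1099986189061) (nat_lit 76) (nat_lit 862384199362) (nat_lit 76) (nat_lit 857292501807) (nat_lit 1) (nat_lit 4) (nat_lit 2) (nat_lit 5) (nat_lit 2) (nat_lit 4) (nat_lit 362) (nat_lit 247) (nat_lit 171))) (XT.nd (nat_lit 78) (nat_lit 0) (nat_lit 0) (XT.lf (nat_lit 0) (nat_lit 1194455835159) (nat_lit 76) (nat_lit 927803403749) (nat_lit 76) (nat_lit 922710615816) (nat_lit 1) (nat_lit 4) (nat_lit 2) (nat_lit 5) (nat_lit 2) (nat_lit 4) (nat_lit 363) (nat_lit 247) (nat_lit 170)) (XT.lf (nat_lit 0) (nat_lit 1296480406574) (nat_lit 76) (nat_lit 998457438079) (nat_lit 76) (nat_lit 993363640537) (nat_lit 1) (nat_lit 4) (nat_lit 2) (nat_lit 5) (nat_lit 2) (nat_lit 4) (nat_lit 364) (nat_lit 247) (nat_lit 169))))) (XT.nd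 (nat_lit 312) (nat_lit 0) (nat_lit 0) (XT.nd (nat_lit 156) (nat_lit 0) (nat_lit 0) (XT.nd (nat_lit 78) (nat_lit 0) (nat_lit 0) (XT.lf (nat_lit 0) (nat_lit 1406664493359) (nat_lit 76) (nat_lit 1074764992928) (nat_lit 76) (nat_lit 1069670260562) (nat_lit 1) (nat_lit 4) (nat_lit 2) (nat_lit 5) (nat_lit 2) (nat_lit 4) (nat_lit 365) (nat_lit 247) (nat_lit 168)) (XT.lf (nat_lit 0) (nat_lit 1525661038251) (nat_lit 76) (nat_lit 1157178261212) (nat_lit 76) (nat_lit 1152082663269) (nat_lit 1) (nat_lit 4) (nat_lit 2) (nat_lit 5) (nat_lit 2) (nat_lit 4) (nat_lit 366) (nat_lit 247) (nat_lit 167))) (XT.nd (nat_lit 78) (nat_lit 0) (nat_lit 0) (XT.lf (nat_lit 0) (nat_lit 1654175205961) (nat_lit 76) (nat_lit 1246185617854) (nat_lit 76) (nat_lit 1241089218451) (nat_lit 1) (nat_lit 4) (nat_lit 2) (nat_lit 5) (nat_lit 2) (nat_lit 4) (nat_lit 367) (nat_lit 247) (nat_lit 166)) (XT.lf (nat_lit 0) (nat_lit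 1792968561925) (nat_lit 76) (nat_lit 1342314513857) (nat_lit 76) (nat_lit 1337217372361) (nat_lit 1) (nat_lit 4) (nat_lit 2) (nat_lit 5) (nat_lit 2) (nat_lit 4) (nat_lit 368) (nat_lit 247) (nat_lit 165)))) (XT.nd (nat_lit 156) (nat_lit 0) (nat_lit 0) (XT.nd (nat_lit 78) (nat_lit 0) (nat_lit 0) (XT.lf (nat_lit 0) (nat_lit 1942863585292) (nat_lit 76) (nat_lit 1446134601938) (nat_lit 76) (nat_lit 1441036773318) (nat_lit 1) (nat_lit 4) (nat_lit 2) (nat_lit 5) (nat_lit 2) (nat_lit 4) (nat_lit 369) (nat_lit 247) (nat_lit 164)) (XT.lf (nat_lit 0) (nat_lit 2104748542866) (nat_lit 76) (nat_lit 1558261112248) (nat_lit 76) (nat_lit 1553162647404) (nat_lit 1) (nat_lit 4) (nat_lit 2) (nat_lit 5) (nat_lit 2) (nat_lit 4) (nat_lit 370) (nat_lit 247) (nat_lit 163))) (XT.nd (nat_lit 78) (nat_lit 0) (nat_lit 0) (XT.lf (nat_lit 0) (nat_lit 2279582752914) (nat_lit 76) (nat_lit 1679358498183) (nat_lit 76)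 (nat_lit 1674259444240) (nat_lit 1) (nat_lit 4) (nat_lit 2) (nat_lit 5) (nat_lit 2) (nat_lit 4) (nat_lit 371) (nat_lit 247) (nat_lit 162)) (XT.lf (nat_lit 0) (nat_lit 2468402270014) (nat_lit 76) (nat_lit 1810144373880) (nat_lit 76) (nat_lit 1805044774477) (nat_lit 1) (nat_lit 4) (nat_lit 2) (nat_lit 5) (nat_lit 2) (nat_lit 4) (nat_lit 372) (nat_lit 247) (nat_lit 161))))))))
noncomputable def xc31 : XT := (XT.nd (nat_lit 2496) (nat_lit 76) (nat_lit 0) (XT.nd (nat_lit 1248) (nat_lit 380) (nat_lit 0) (XT.nd (nat_lit 624) (nat_lit 304) (nat_lit 0) (XT.nd (nat_lit 312) (nat_lit 304) (nat_lit 0) (XT.nd (nat_lit 156) (nat_lit 228) (nat_lit 0) (XT.nd (nat_lit 78) (nat_lit 0) (nat_lit 0) (XT.lf (nat_lit 0) (nat_lit 80695547) (nat_lit 152) (nat_lit 5588679726) (nat_lit 0) (nat_lit 80695547) (nat_lit 18) (nat_lit 5) (nat_lit 20) (nat_lit 4) (nat_lit 18) (nat_lit 4) (nat_lit 284) (nat_lit 248) (nat_lit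 248)) (XT.lf (nat_lit 0) (nat_lit 4515914453) (nat_lit 152) (nat_lit 3582688059) (nat_lit 0) (nat_lit 3915674226) (nat_lit 18) (nat_lit 5) (nat_lit 20) (nat_lit 4) (nat_lit 18) (nat_lit 4) (nat_lit 285) (nat_lit 248) (nat_lit 247))) (XT.nd (nat_lit 78) (nat_lit 76) (nat_lit 0) (XT.lf (nat_lit 0) (nat_lit 4427123065) (nat_lit 152) (nat_lit 4654854779) (nat_lit 152) (nat_lit 3498836563) (nat_lit 16) (nat_lit 4) (nat_lit 18) (nat_lit 5) (nat_lit 18) (nat_lit 4) (nat_lit 286) (nat_lit 248) (nat_lit 246)) (XT.lf (nat_lit 0) (nat_lit 638735619) (nat_lit 228) (nat_lit 342057375) (nat_lit 76) (nat_lit 12221851734) (nat_lit 15) (nat_lit 5) (nat_lit 18) (nat_lit 5) (nat_lit 16) (nat_lit 4) (nat_lit 287) (nat_lit 248) (nat_lit 245)))) (XT.nd (nat_lit 156) (nat_lit 152) (nat_lit 0) (XT.nd (nat_lit 78) (nat_lit 76) (nat_lit 0) (XT.lf (nat_lit 0) (nat_lit 4962976172) (nat_lit 152) (nat_lit 5925754138)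 (nat_lit 0) (nat_lit 2974904406) (nat_lit 14) (nat_lit 5) (nat_lit 16) (nat_lit 4) (nat_lit 14) (nat_lit 4) (nat_lit 288) (nat_lit 248) (nat_lit 244)) (XT.lf (nat_lit 0) (nat_lit 2008175278) (nat_lit 76) (nat_lit 7488534564) (nat_lit 76) (nat_lit 5091949385) (nat_lit 13) (nat_lit 4) (nat_lit 14) (nat_lit 5) (nat_lit 14) (nat_lit 4) (nat_lit 289) (nat_lit 248) (nat_lit 243))) (XT.nd (nat_lit 78) (nat_lit 152) (nat_lit 0) (XT.lf (nat_lit 0) (nat_lit 10534207369) (nat_lit 76) (nat_lit 3808294875) (nat_lit 76) (nat_lit 1033456535) (nat_lit 13) (nat_lit 4) (nat_lit 14) (nat_lit 5) (nat_lit 14) (nat_lit 4) (nat_lit 290) (nat_lit 248) (nat_lit 242)) (XT.lf (nat_lit 0) (nat_lit 3061997533) (nat_lit 152) (nat_lit 12999190623) (nat_lit 0) (nat_lit 168411656) (nat_lit 11) (nat_lit 5) (nat_lit 13) (nat_lit 4) (nat_lit 11) (nat_lit 4) (nat_lit 291) (nat_lit 248) (nat_lit 241))))) (XT.nd (nat_lit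 312) (nat_lit 152) (nat_lit 0) (XT.nd (nat_lit 156) (nat_lit 76) (nat_lit 0) (XT.nd (nat_lit 78) (nat_lit 76) (nat_lit 0) (XT.lf (nat_lit 0) (nat_lit 7464473532) (nat_lit 152) (nat_lit 5411651662) (nat_lit 0) (nat_lit 4270618102) (nat_lit 11) (nat_lit 5) (nat_lit 13) (nat_lit 4) (nat_lit 11) (nat_lit 4) (nat_lit 292) (nat_lit 248) (nat_lit 240)) (XT.lf (nat_lit 0) (nat_lit 2573469137) (nat_lit 76) (nat_lit 9522831387) (nat_lit 76) (nat_lit 6050948592) (nat_lit 10) (nat_lit 4) (nat_lit 11) (nat_lit 5) (nat_lit 11) (nat_lit 4) (nat_lit 293) (nat_lit 248) (nat_lit 239))) (XT.nd (nat_lit 78) (nat_lit 76) (nat_lit 0) (XT.lf (nat_lit 0) (nat_lit 11175569327) (nat_lit 76) (nat_lit 5892087006) (nat_lit 76) (nat_lit 2162771466) (nat_lit 10) (nat_lit 4) (nat_lit 11) (nat_lit 5) (nat_lit 11) (nat_lit 4) (nat_lit 294) (nat_lit 248) (nat_lit 238)) (XT.lf (nat_lit 0) (nat_lit 1764426920) (nat_lit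 152) (nat_lit 297671197) (nat_lit 76) (nat_lit 18347986848) (nat_lit 9) (nat_lit 5) (nat_lit 11) (nat_lit 5) (nat_lit 10) (nat_lit 4) (nat_lit 295) (nat_lit 248) (nat_lit 237)))) (XT.nd (nat_lit 156) (nat_lit 76) (nat_lit 0) (XT.nd (nat_lit 78) (nat_lit 0) (nat_lit 0) (XT.lf (nat_lit 0) (nat_lit 5980390787) (nat_lit 152) (nat_lit 13589779544) (nat_lit 0) (nat_lit 2102255344) (nat_lit 8) (nat_lit 5) (nat_lit 10) (nat_lit 4) (nat_lit 8) (nat_lit 4) (nat_lit 296) (nat_lit 248) (nat_lit 236)) (XT.lf (nat_lit 0) (nat_lit 10439687663) (nat_lit 152) (nat_lit 6231361035) (nat_lit 0) (nat_lit 6372331468) (nat_lit 8) (nat_lit 5) (nat_lit 10) (nat_lit 4) (nat_lit 8) (nat_lit 4) (nat_lit 297) (nat_lit 248) (nat_lit 235))) (XT.nd (nat_lit 78) (nat_lit 0) (nat_lit 0) (XT.lf (nat_lit 0) (nat_lit 1520687276) (nat_lit 76) (nat_lit 13627303073) (nat_lit 76) (nat_lit 9384742477) (nat_lit 7) (nat_lit 4)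 (nat_lit 8) (nat_lit 5) (nat_lit 8) (nat_lit 4) (nat_lit 298) (nat_lit 248) (nat_lit 234)) (XT.lf (nat_lit 0) (nat_lit 9983031524) (nat_lit 76) (nat_lit 10280326100) (nat_lit 76) (nat_lit 5875539207) (nat_lit 7) (nat_lit 4) (nat_lit 8) (nat_lit 5) (nat_lit 8) (nat_lit 4) (nat_lit 299) (nat_lit 248) (nat_lit 233)))))) (XT.nd (nat_lit 624) (nat_lit 152) (nat_lit 0) (XT.nd (nat_lit 312) (nat_lit 76) (nat_lit 0) (XT.nd (nat_lit 156) (nat_lit 76) (nat_lit 0) (XT.nd (nat_lit 78) (nat_lit 76) (nat_lit 0) (XT.lf (nat_lit 0) (nat_lit 18877686504) (nat_lit 76) (nat_lit 6780660296) (nat_lit 76) (nat_lit 2225663869) (nat_lit 7) (nat_lit 4) (nat_lit 8) (nat_lit 5) (nat_lit 8) (nat_lit 4) (nat_lit 300) (nat_lit 248) (nat_lit 232)) (XT.lf (nat_lit 0) (nat_lit 1507148651) (nat_lit 152) (nat_lit 1559210134) (nat_lit 76) (nat_lit 26709004515) (nat_lit 6) (nat_lit 5) (nat_lit 8) (nat_lit 5) (nat_lit 7)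 (nat_lit 4) (nat_lit 301) (nat_lit 248) (nat_lit 231))) (XT.nd (nat_lit 78) (nat_lit 0) (nat_lit 0) (XT.lf (nat_lit 0) (nat_lit 5487349441) (nat_lit 152) (nat_lit 25298860814) (nat_lit 0) (nat_lit 1021738521) (nat_lit 5) (nat_lit 5) (nat_lit 7) (nat_lit 4) (nat_lit 5) (nat_lit 4) (nat_lit 302) (nat_lit 248) (nat_lit 230)) (XT.lf (nat_lit 0) (nat_lit 9796267965) (nat_lit 152) (nat_lit 18985865206) (nat_lit 0) (nat_lit 5220248553) (nat_lit 5) (nat_lit 5) (nat_lit 7) (nat_lit 4) (nat_lit 5) (nat_lit 4) (nat_lit 303) (nat_lit 248) (nat_lit 229)))) (XT.nd (nat_lit 156) (nat_lit 76) (nat_lit 0) (XT.nd (nat_lit 78) (nat_lit 0) (nat_lit 0) (XT.lf (nat_lit 0) (nat_lit 14345193586) (nat_lit 152) (nat_lit 12368668111) (nat_lit 0) (nat_lit 9666944089) (nat_lit 5) (nat_lit 5) (nat_lit 7) (nat_lit 4) (nat_lit 5) (nat_lit 4) (nat_lit 304) (nat_lit 248) (nat_lit 228)) (XT.lf (nat_lit 0) (nat_lit 19161082901)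 (nat_lit 152) (nat_lit 5408056508) (nat_lit 0) (nat_lit 14388175918) (nat_lit 5) (nat_lit 5) (nat_lit 7) (nat_lit 4) (nat_lit 5) (nat_lit 4) (nat_lit 305) (nat_lit 248) (nat_lit 227))) (XT.nd (nat_lit 78) (nat_lit 0) (nat_lit 0) (XT.lf (nat_lit 0) (nat_lit 2039228120) (nat_lit 76) (nat_lit 22282289879) (nat_lit 76) (nat_lit 17421737076) (nat_lit 4) (nat_lit 4) (nat_lit 5) (nat_lit 5) (nat_lit 5) (nat_lit 4) (nat_lit 306) (nat_lit 248) (nat_lit 226)) (XT.lf (nat_lit 0) (nat_lit 10222029281) (nat_lit 76) (nat_lit 19733468921) (nat_lit 76) (nat_lit 14791762580) (nat_lit 4) (nat_lit 4) (nat_lit 5) (nat_lit 5) (nat_lit 5) (nat_lit 4) (nat_lit 307) (nat_lit 248) (nat_lit 225))))) (XT.nd (nat_lit 312) (nat_lit 152) (nat_lit 0) (XT.nd (nat_lit 156) (nat_lit 0) (nat_lit 0) (XT.nd (nat_lit 78) (nat_lit 0) (nat_lit 0) (XT.lf (nat_lit 0) (nat_lit 18904058976) (nat_lit 76) (nat_lit 17055438260) (nat_lit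 76) (nat_lit 12038589755) (nat_lit 4) (nat_lit 4) (nat_lit 5) (nat_lit 5) (nat_lit 5) (nat_lit 4) (nat_lit 308) (nat_lit 248) (nat_lit 224)) (XT.lf (nat_lit 0) (nat_lit 28136766270) (nat_lit 76) (nat_lit 14232328085) (nat_lit 76) (nat_lit 9145903502) (nat_lit 4) (nat_lit 4) (nat_lit 5) (nat_lit 5) (nat_lit 5) (nat_lit 4) (nat_lit 309) (nat_lit 248) (nat_lit 223))) (XT.nd (nat_lit 78) (nat_lit 0) (nat_lit 0) (XT.lf (nat_lit 0) (nat_lit 37974863502) (nat_lit 76) (nat_lit 11247408854) (nat_lit 76) (nat_lit 6096561977) (nat_lit 4) (nat_lit 4) (nat_lit 5) (nat_lit 5) (nat_lit 5) (nat_lit 4) (nat_lit 310) (nat_lit 248) (nat_lit 222)) (XT.lf (nat_lit 0) (nat_lit 48476650508) (nat_lit 76) (nat_lit 8082992157) (nat_lit 76) (nat_lit 2872495007) (nat_lit 4) (nat_lit 4) (nat_lit 5) (nat_lit 5) (nat_lit 5) (nat_lit 4) (nat_lit 311) (nat_lit 248) (nat_lit 221)))) (XT.nd (nat_lit 156) (nat_lit 0) (nat_lit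 0) (XT.nd (nat_lit 78) (nat_lit 76) (nat_lit 0) (XT.lf (nat_lit 0) (nat_lit 518119721) (nat_lit 152) (nat_lit 4188039862) (nat_lit 76) (nat_lit 59172074067) (nat_lit 3) (nat_lit 5) (nat_lit 5) (nat_lit 5) (nat_lit 4) (nat_lit 4) (nat_lit 312) (nat_lit 248) (nat_lit 220)) (XT.lf (nat_lit 0) (nat_lit 3092117041) (nat_lit 76) (nat_lit 950664891) (nat_lit 152) (nat_lit 64629855319) (nat_lit 2) (nat_lit 5) (nat_lit 3) (nat_lit 5) (nat_lit 4) (nat_lit 4) (nat_lit 313) (nat_lit 248) (nat_lit 219))) (XT.nd (nat_lit 78) (nat_lit 0) (nat_lit 0) (XT.lf (nat_lit 0) (nat_lit 7985597915) (nat_lit 152) (nat_lit 62835400498) (nat_lit 0) (nat_lit 3018725981) (nat_lit 2) (nat_lit 5) (nat_lit 4) (nat_lit 4) (nat_lit 2) (nat_lit 4) (nat_lit 314) (nat_lit 248) (nat_lit 218)) (XT.lf (nat_lit 0) (nat_lit 12216695025) (nat_lit 152) (nat_lit 59996452712) (nat_lit 0) (nat_lit 7209226119) (nat_lit 2) (nat_lit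 5) (nat_lit 4) (nat_lit 4) (nat_lit 2) (nat_lit 4) (nat_lit 315) (nat_lit 248) (nat_lit 217))))))) (XT.nd (nat_lit 1248) (nat_lit 0) (nat_lit 0) (XT.nd (nat_lit 624) (nat_lit 76) (nat_lit 0) (XT.nd (nat_lit 312) (nat_lit 0) (nat_lit 0) (XT.nd (nat_lit 156) (nat_lit 0) (nat_lit 0) (XT.nd (nat_lit 78) (nat_lit 0) (nat_lit 0) (XT.lf (nat_lit 0) (nat_lit 16738282919) (nat_lit 152) (nat_lit 57023989943) (nat_lit 0) (nat_lit 11693224222) (nat_lit 2) (nat_lit 5) (nat_lit 4) (nat_lit 4) (nat_lit 2) (nat_lit 4) (nat_lit 316) (nat_lit 248) (nat_lit 216)) (XT.lf (nat_lit 0) (nat_lit 21577156189) (nat_lit 152) (nat_lit 53900397598) (nat_lit 0) (nat_lit 16497292131) (nat_lit 2) (nat_lit 5) (nat_lit 4) (nat_lit 4) (nat_lit 2) (nat_lit 4) (nat_lit 317) (nat_lit 248) (nat_lit 215))) (XT.nd (nat_lit 78) (nat_lit 0) (nat_lit 0) (XT.lf (nat_lit 0) (nat_lit 26761989642) (nat_lit 152) (nat_lit 50607165499)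 (nat_lit 0) (nat_lit 21649898398) (nat_lit 2) (nat_lit 5) (nat_lit 4) (nat_lit 4) (nat_lit 2) (nat_lit 4) (nat_lit 318) (nat_lit 248) (nat_lit 214)) (XT.lf (nat_lit 0) (nat_lit 32323508216) (nat_lit 152) (nat_lit 47124778198) (nat_lit 0) (nat_lit 27181576984) (nat_lit 2) (nat_lit 5) (nat_lit 4) (nat_lit 4) (nat_lit 2) (nat_lit 4) (nat_lit 319) (nat_lit 248) (nat_lit 213)))) (XT.nd (nat_lit 156) (nat_lit 0) (nat_lit 0) (XT.nd (nat_lit 78) (nat_lit 0) (nat_lit 0) (XT.lf (nat_lit 0) (nat_lit 38294669057) (nat_lit 152) (nat_lit 43432599324) (nat_lit 0) (nat_lit 33125108208) (nat_lit 2) (nat_lit 5) (nat_lit 4) (nat_lit 4) (nat_lit 2) (nat_lit 4) (nat_lit 320) (nat_lit 248) (nat_lit 212)) (XT.lf (nat_lit 0) (nat_lit 44710856824) (nat_lit 152) (nat_lit 39508749300) (nat_lit 0) (nat_lit 39515712995) (nat_lit 2) (nat_lit 5) (nat_lit 4) (nat_lit 4) (nat_lit 2) (nat_lit 4) (nat_lit 321) (nat_lit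 248) (nat_lit 211))) (XT.nd (nat_lit 78) (nat_lit 0) (nat_lit 0) (XT.lf (nat_lit 0) (nat_lit 51610093369) (nat_lit 152) (nat_lit 35329975681) (nat_lit 0) (nat_lit 46391261596) (nat_lit 2) (nat_lit 5) (nat_lit 4) (nat_lit 4) (nat_lit 2) (nat_lit 4) (nat_lit 322) (nat_lit 248) (nat_lit 210)) (XT.lf (nat_lit 0) (nat_lit 59033263057) (nat_lit 152) (nat_lit 30871515364) (nat_lit 0) (nat_lit 53792498003) (nat_lit 2) (nat_lit 5) (nat_lit 4) (nat_lit 4) (nat_lit 2) (nat_lit 4) (nat_lit 323) (nat_lit 248) (nat_lit 209))))) (XT.nd (nat_lit 312) (nat_lit 76) (nat_lit 0) (XT.nd (nat_lit 156) (nat_lit 0) (nat_lit 0) (XT.nd (nat_lit 78) (nat_lit 0) (nat_lit 0) (XT.lf (nat_lit 0) (nat_lit 67024355042) (nat_lit 152) (nat_lit 26106947843) (nat_lit 0) (nat_lit 61763281394) (nat_lit 2) (nat_lit 5) (nat_lit 4) (nat_lit 4) (nat_lit 2) (nat_lit 4) (nat_lit 324) (nat_lit 248) (nat_lit 208)) (XT.lf (nat_lit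 0) (nat_lit 75630723943) (nat_lit 152) (nat_lit 21008038645) (nat_lit 0) (nat_lit 70350846041) (nat_lit 2) (nat_lit 5) (nat_lit 4) (nat_lit 4) (nat_lit 2) (nat_lit 4) (nat_lit 325) (nat_lit 248) (nat_lit 207))) (XT.nd (nat_lit 78) (nat_lit 0) (nat_lit 0) (XT.lf (nat_lit 0) (nat_lit 84903370464) (nat_lit 152) (nat_lit 15544572010) (nat_lit 0) (nat_lit 79606081216) (nat_lit 2) (nat_lit 5) (nat_lit 4) (nat_lit 4) (nat_lit 2) (nat_lit 4) (nat_lit 326) (nat_lit 248) (nat_lit 206)) (XT.lf (nat_lit 0) (nat_lit 94897243623) (nat_lit 152) (nat_lit 9684171841) (nat_lit 0) (nat_lit 89583832758) (nat_lit 2) (nat_lit 5) (nat_lit 4) (nat_lit 4) (nat_lit 2) (nat_lit 4) (nat_lit 327) (nat_lit 248) (nat_lit 205)))) (XT.nd (nat_lit 156) (nat_lit 0) (nat_lit 0) (XT.nd (nat_lit 78) (nat_lit 76) (nat_lit 0) (XT.lf (nat_lit 0) (nat_lit 105671566370) (nat_lit 152) (nat_lit 3392109840) (nat_lit 0) (nat_lit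 100343228083) (nat_lit 2) (nat_lit 5) (nat_lit 4) (nat_lit 4) (nat_lit 2) (nat_lit 4) (nat_lit 328) (nat_lit 248) (nat_lit 204)) (XT.lf (nat_lit 0) (nat_lit 3546300604) (nat_lit 76) (nat_lit 113829174555) (nat_lit 76) (nat_lit 108487014580) (nat_lit 1) (nat_lit 4) (nat_lit 2) (nat_lit 5) (nat_lit 2) (nat_lit 4) (nat_lit 329) (nat_lit 248) (nat_lit 203))) (XT.nd (nat_lit 78) (nat_lit 0) (nat_lit 0) (XT.lf (nat_lit 0) (nat_lit 11199150655) (nat_lit 76) (nat_lit 118892144417) (nat_lit 76) (nat_lit 113537186583) (nat_lit 1) (nat_lit 4) (nat_lit 2) (nat_lit 5) (nat_lit 2) (nat_lit 4) (nat_lit 330) (nat_lit 248) (nat_lit 202)) (XT.lf (nat_lit 0) (nat_lit 19433168040) (nat_lit 76) (nat_lit 124375334876) (nat_lit 76) (nat_lit 119008527172) (nat_lit 1) (nat_lit 4) (nat_lit 2) (nat_lit 5) (nat_lit 2) (nat_lit 4) (nat_lit 331) (nat_lit 248) (nat_lit 201)))))) (XT.nd (nat_lit 624) (nat_lit 0) (nat_lit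 0) (XT.nd (nat_lit 312) (nat_lit 0) (nat_lit 0) (XT.nd (nat_lit 156) (nat_lit 0) (nat_lit 0) (XT.nd (nat_lit 78) (nat_lit 0) (nat_lit 0) (XT.lf (nat_lit 0) (nat_lit 28297146938) (nat_lit 76) (nat_lit 130311238912) (nat_lit 76) (nat_lit 124933459106) (nat_lit 1) (nat_lit 4) (nat_lit 2) (nat_lit 5) (nat_lit 2) (nat_lit 4) (nat_lit 332) (nat_lit 248) (nat_lit 200)) (XT.lf (nat_lit 0) (nat_lit 37843614630) (nat_lit 76) (nat_lit 136735032251) (nat_lit 76) (nat_lit 131347093093) (nat_lit 1) (nat_lit 4) (nat_lit 2) (nat_lit 5) (nat_lit 2) (nat_lit 4) (nat_lit 333) (nat_lit 248) (nat_lit 199))) (XT.nd (nat_lit 78) (nat_lit 0) (nat_lit 0) (XT.lf (nat_lit 0) (nat_lit 48129142777) (nat_lit 76) (nat_lit 143684781819) (nat_lit 76) (nat_lit 138287435853) (nat_lit 1) (nat_lit 4) (nat_lit 2) (nat_lit 5) (nat_lit 2) (nat_lit 4) (nat_lit 334) (nat_lit 248) (nat_lit 198)) (XT.lf (nat_lit 0) (nat_lit 59214682656)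 (nat_lit 76) (nat_lit 151201671317) (nat_lit 76) (nat_lit 145795615342) (nat_lit 1) (nat_lit 4) (nat_lit 2) (nat_lit 5) (nat_lit 2) (nat_lit 4) (nat_lit 335) (nat_lit 248) (nat_lit 197)))) (XT.nd (nat_lit 156) (nat_lit 0) (nat_lit 0) (XT.nd (nat_lit 78) (nat_lit 0) (nat_lit 0) (XT.lf (nat_lit 0) (nat_lit 71165926357) (nat_lit 76) (nat_lit 159330245273) (nat_lit 76) (nat_lit 153916124477) (nat_lit 1) (nat_lit 4) (nat_lit 2) (nat_lit 5) (nat_lit 2) (nat_lit 4) (nat_lit 336) (nat_lit 248) (nat_lit 196)) (XT.lf (nat_lit 0) (nat_lit 84053696063) (nat_lit 76) (nat_lit 168118673016) (nat_lit 76) (nat_lit 162697084792) (nat_lit 1) (nat_lit 4) (nat_lit 2) (nat_lit 5) (nat_lit 2) (nat_lit 4) (nat_lit 337) (nat_lit 248) (nat_lit 195))) (XT.nd (nat_lit 78) (nat_lit 0) (nat_lit 0) (XT.lf (nat_lit 0) (nat_lit 97954363744) (nat_lit 76) (nat_lit 177619034118) (nat_lit 76) (nat_lit 172190531609) (nat_lit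 1) (nat_lit 4) (nat_lit 2) (nat_lit 5) (nat_lit 2) (nat_lit 4) (nat_lit 338) (nat_lit 248) (nat_lit 194)) (XT.lf (nat_lit 0) (nat_lit 112950303726) (nat_lit 76) (nat_lit 187887627014) (nat_lit 76) (nat_lit 182452722389) (nat_lit 1) (nat_lit 4) (nat_lit 2) (nat_lit 5) (nat_lit 2) (nat_lit 4) (nat_lit 339) (nat_lit 248) (nat_lit 193))))) (XT.nd (nat_lit 312) (nat_lit 0) (nat_lit 0) (XT.nd (nat_lit 156) (nat_lit 0) (nat_lit 0) (XT.nd (nat_lit 78) (nat_lit 0) (nat_lit 0) (XT.lf (nat_lit 0) (nat_lit 129130380840) (nat_lit 76) (nat_lit 198985302626) (nat_lit 76) (nat_lit 193544470116) (nat_lit 1) (nat_lit 4) (nat_lit 2) (nat_lit 5) (nat_lit 2) (nat_lit 4) (nat_lit 340) (nat_lit 248) (nat_lit 192)) (XT.lf (nat_lit 0) (nat_lit 146590477022) (nat_lit 76) (nat_lit 210977824957) (nat_lit 76) (nat_lit 205531503664) (nat_lit 1) (nat_lit 4) (nat_lit 2) (nat_lit 5) (nat_lit 2) (nat_lit 4) (nat_lit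 341) (nat_lit 248) (nat_lit 191))) (XT.nd (nat_lit 78) (nat_lit 0) (nat_lit 0) (XT.lf (nat_lit 0) (nat_lit 165434059511) (nat_lit 76) (nat_lit 223936260806) (nat_lit 76) (nat_lit 218484857307) (nat_lit 1) (nat_lit 4) (nat_lit 2) (nat_lit 5) (nat_lit 2) (nat_lit 4) (nat_lit 342) (nat_lit 248) (nat_lit 190)) (XT.lf (nat_lit 0) (nat_lit 185772793980) (nat_lit 76) (nat_lit 237937400904) (nat_lit 76) (nat_lit 232481291659) (nat_lit 1) (nat_lit 4) (nat_lit 2) (nat_lit 5) (nat_lit 2) (nat_lit 4) (nat_lit 343) (nat_lit 248) (nat_lit 189)))) (XT.nd (nat_lit 156) (nat_lit 0) (nat_lit 0) (XT.nd (nat_lit 78) (nat_lit 0) (nat_lit 0) (XT.lf (nat_lit 0) (nat_lit 207727206263) (nat_lit 76) (nat_lit 253064214970) (nat_lit 76) (nat_lit 247603748553) (nat_lit 1) (nat_lit 4) (nat_lit 2) (nat_lit 5) (nat_lit 2) (nat_lit 4) (nat_lit 344) (nat_lit 248) (nat_lit 188)) (XT.lf (nat_lit 0) (nat_lit 231427396580)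 (nat_lit 76) (nat_lit 269406343384) (nat_lit 76) (nat_lit 263941842548) (nat_lit 1) (nat_lit 4) (nat_lit 2) (nat_lit 5) (nat_lit 2) (nat_lit 4) (nat_lit 345) (nat_lit 248) (nat_lit 187))) (XT.nd (nat_lit 78) (nat_lit 0) (nat_lit 0) (XT.lf (nat_lit 0) (nat_lit 257013810505) (nat_lit 76) (nat_lit 287060628388) (nat_lit 76) (nat_lit 281592391979) (nat_lit 1) (nat_lit 4) (nat_lit 2) (nat_lit 5) (nat_lit 2) (nat_lit 4) (nat_lit 346) (nat_lit 248) (nat_lit 186)) (XT.lf (nat_lit 0) (nat_lit 284638071231) (nat_lit 76) (nat_lit 306131687968) (nat_lit 76) (nat_lit 300659992695) (nat_lit 1) (nat_lit 4) (nat_lit 2) (nat_lit 5) (nat_lit 2) (nat_lit 4) (nat_lit 347) (nat_lit 248) (nat_lit 185))))))))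
noncomputable def xc32 : XT := (XT.nd (nat_lit 36036) (nat_lit 0) (nat_lit 76) (XT.nd (nat_lit 1170) (nat_lit 0) (nat_lit 0) (XT.nd (nat_lit 546) (nat_lit 0) (nat_lit 0) (XT.nd (nat_lit 234) (nat_lit 0) (nat_lit 0) (XT.nd (nat_lit 78) (nat_lit 0) (nat_lit 0) (XT.lf (nat_lit 0) (nat_lit 314463878080) (nat_lit 76) (nat_lit 326732535810) (nat_lit 76) (nat_lit 321257637885) (nat_lit 1) (nat_lit 4) (nat_lit 2) (nat_lit 5) (nat_lit 2) (nat_lit 4) (nat_lit 348) (nat_lit 248) (nat_lit 184)) (XT.nd (nat_lit 78) (nat_lit 0) (nat_lit 0) (XT.lf (nat_lit 0) (nat_lit 346667976575) (nat_lit 76) (nat_lit 348985251011) (nat_lit 76) (nat_lit 343507387668) (nat_lit 1) (nat_lit 4) (nat_lit 2) (nat_lit 5) (nat_lit 2) (nat_lit 4) (nat_lit 349) (nat_lit 248) (nat_lit 183)) (XT.lf (nat_lit 0) (nat_lit 381441205817) (nat_lit 76) (nat_lit 373021701515) (nat_lit 76) (nat_lit 367541092414) (nat_lit 1) (nat_lit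 4) (nat_lit 2) (nat_lit 5) (nat_lit 2) (nat_lit 4) (nat_lit 350) (nat_lit 248) (nat_lit 182)))) (XT.nd (nat_lit 156) (nat_lit 0) (nat_lit 0) (XT.nd (nat_lit 78) (nat_lit 0) (nat_lit 0) (XT.lf (nat_lit 0) (nat_lit 418989629389) (nat_lit 76) (nat_lit 398984325546) (nat_lit 76) (nat_lit 393501174077) (nat_lit 1) (nat_lit 4) (nat_lit 2) (nat_lit 5) (nat_lit 2) (nat_lit 4) (nat_lit 351) (nat_lit 248) (nat_lit 181)) (XT.lf (nat_lit 0) (nat_lit 459535756465) (nat_lit 76) (nat_lit 427026975692) (nat_lit 76) (nat_lit 421541470178) (nat_lit 1) (nat_lit 4) (nat_lit 2) (nat_lit 5) (nat_lit 2) (nat_lit 4) (nat_lit 352) (nat_lit 248) (nat_lit 180))) (XT.nd (nat_lit 78) (nat_lit 0) (nat_lit 0) (XT.lf (nat_lit 0) (nat_lit 503319860393) (nat_lit 76) (nat_lit 457315830619) (nat_lit 76) (nat_lit 451828145434) (nat_lit 1) (nat_lit 4) (nat_lit 2) (nat_lit 5) (nat_lit 2) (nat_lit 4) (nat_lit 353) (nat_lit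 248) (nat_lit 179)) (XT.lf (nat_lit 0) (nat_lit 550601402528) (nat_lit 76) (nat_lit 490030379838) (nat_lit 76) (nat_lit 484540676440) (nat_lit 1) (nat_lit 4) (nat_lit 2) (nat_lit 5) (nat_lit 2) (nat_lit 4) (nat_lit 354) (nat_lit 248) (nat_lit 178))))) (XT.nd (nat_lit 312) (nat_lit 0) (nat_lit 0) (XT.nd (nat_lit 156) (nat_lit 0) (nat_lit 0) (XT.nd (nat_lit 78) (nat_lit 0) (nat_lit 0) (XT.lf (nat_lit 0) (nat_lit 601660569787) (nat_lit 76) (nat_lit 525364487346) (nat_lit 76) (nat_lit 519872915230) (nat_lit 1) (nat_lit 4) (nat_lit 2) (nat_lit 5) (nat_lit 2) (nat_lit 4) (nat_lit 355) (nat_lit 248) (nat_lit 177)) (XT.lf (nat_lit 0) (nat_lit 656799935012) (nat_lit 76) (nat_lit 563527540444) (nat_lit 76) (nat_lit 558034238036) (nat_lit 1) (nat_lit 4) (nat_lit 2) (nat_lit 5) (nat_lit 2) (nat_lit 4) (nat_lit 356) (nat_lit 248) (nat_lit 176))) (XT.nd (nat_lit 78) (nat_lit 0) (nat_lit 0) (XT.lf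 (nat_lit 0) (nat_lit 716346249999) (nat_lit 76) (nat_lit 604745690560) (nat_lit 76) (nat_lit 599250786029) (nat_lit 1) (nat_lit 4) (nat_lit 2) (nat_lit 5) (nat_lit 2) (nat_lit 4) (nat_lit 357) (nat_lit 248) (nat_lit 175)) (XT.lf (nat_lit 0) (nat_lit 780652381798) (nat_lit 76) (nat_lit 649263193398) (nat_lit 76) (nat_lit 643766805419) (nat_lit 1) (nat_lit 4) (nat_lit 2) (nat_lit 5) (nat_lit 2) (nat_lit 4) (nat_lit 358) (nat_lit 248) (nat_lit 174)))) (XT.nd (nat_lit 156) (nat_lit 0) (nat_lit 0) (XT.nd (nat_lit 78) (nat_lit 0) (nat_lit 0) (XT.lf (nat_lit 0) (nat_lit 850099403783) (nat_lit 76) (nat_lit 697343856382) (nat_lit 76) (nat_lit 691846094840) (nat_lit 1) (nat_lit 4) (nat_lit 2) (nat_lit 5) (nat_lit 2) (nat_lit 4) (nat_lit 359) (nat_lit 248) (nat_lit 173)) (XT.lf (nat_lit 0) (nat_lit 925098853863) (nat_lit 76) (nat_lit 749272601958) (nat_lit 76) (nat_lit 743773568600) (nat_lit 1)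 (nat_lit 4) (nat_lit 2) (nat_lit 5) (nat_lit 2) (nat_lit 4) (nat_lit 360) (nat_lit 248) (nat_lit 172))) (XT.nd (nat_lit 78) (nat_lit 0) (nat_lit 0) (XT.lf (nat_lit 0) (nat_lit 1006095173223) (nat_lit 76) (nat_lit 805357156028) (nat_lit 76) (nat_lit 799856945061) (nat_lit 1) (nat_lit 4) (nat_lit 2) (nat_lit 5) (nat_lit 2) (nat_lit 4) (nat_lit 361) (nat_lit 248) (nat_lit 171)) (XT.lf (nat_lit 0) (nat_lit 1093568340051) (nat_lit 76) (nat_lit 865929871504) (nat_lit 76) (nat_lit 860428570158) (nat_lit 1) (nat_lit 4) (nat_lit 2) (nat_lit 5) (nat_lit 2) (nat_lit 4) (nat_lit 362) (nat_lit 248) (nat_lit 170)))))) (XT.nd (nat_lit 624) (nat_lit 0) (nat_lit 0) (XT.nd (nat_lit 312) (nat_lit 0) (nat_lit 0) (XT.nd (nat_lit 156) (nat_lit 0) (nat_lit 0) (XT.nd (nat_lit 78) (nat_lit 0) (nat_lit 0) (XT.lf (nat_lit 0) (nat_lit 1188036713855) (nat_lit 76) (nat_lit 931349697810) (nat_lit 76) (nat_lit 925847386856)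 (nat_lit 1) (nat_lit 4) (nat_lit 2) (nat_lit 5) (nat_lit 2) (nat_lit 4) (nat_lit 363) (nat_lit 248) (nat_lit 169)) (XT.lf (nat_lit 0) (nat_lit 1290060107221) (nat_lit 76) (nat_lit 1002004307993) (nat_lit 76) (nat_lit 996501062215) (nat_lit 1) (nat_lit 4) (nat_lit 2) (nat_lit 5) (nat_lit 2) (nat_lit 4) (nat_lit 364) (nat_lit 248) (nat_lit 168))) (XT.nd (nat_lit 78) (nat_lit 0) (nat_lit 0) (XT.lf (nat_lit 0) (nat_lit 1400243103219) (nat_lit 76) (nat_lit 1078312396037) (nat_lit 76) (nat_lit 1072808284682) (nat_lit 1) (nat_lit 4) (nat_lit 2) (nat_lit 5) (nat_lit 2) (nat_lit 4) (nat_lit 365) (nat_lit 248) (nat_lit 167)) (XT.lf (nat_lit 0) (nat_lit 1519238638124) (nat_lit 76) (nat_lit 1160726158021) (nat_lit 76) (nat_lit 1155221245205) (nat_lit 1) (nat_lit 4) (nat_lit 2) (nat_lit 5) (nat_lit 2) (nat_lit 4) (nat_lit 366) (nat_lit 248) (nat_lit 166)))) (XT.nd (nat_lit 156) (nat_lit 0) (nat_lit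 0) (XT.nd (nat_lit 78) (nat_lit 0) (nat_lit 0) (XT.lf (nat_lit 0) (nat_lit 1647751870659) (nat_lit 76) (nat_lit 1249733971793) (nat_lit 76) (nat_lit 1244228316883) (nat_lit 1) (nat_lit 4) (nat_lit 2) (nat_lit 5) (nat_lit 2) (nat_lit 4) (nat_lit 367) (nat_lit 248) (nat_lit 165)) (XT.lf (nat_lit 0) (nat_lit 1786544360722) (nat_lit 76) (nat_lit 1345863291064) (nat_lit 76) (nat_lit 1340356949031) (nat_lit 1) (nat_lit 4) (nat_lit 2) (nat_lit 5) (nat_lit 2) (nat_lit 4) (nat_lit 368) (nat_lit 248) (nat_lit 164))) (XT.nd (nat_lit 78) (nat_lit 0) (nat_lit 0) (XT.lf (nat_lit 0) (nat_lit 1936438582328) (nat_lit 76) (nat_lit 1449683771060) (nat_lit 76) (nat_lit 1444176792802) (nat_lit 1) (nat_lit 4) (nat_lit 2) (nat_lit 5) (nat_lit 2) (nat_lit 4) (nat_lit 369) (nat_lit 248) (nat_lit 163)) (XT.lf (nat_lit 0) (nat_lit 2098322797531) (nat_lit 76) (nat_lit 1561810644254) (nat_lit 76) (nat_lit 1556303076899)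 (nat_lit 1) (nat_lit 4) (nat_lit 2) (nat_lit 5) (nat_lit 2) (nat_lit 4) (nat_lit 370) (nat_lit 248) (nat_lit 162))))) (XT.nd (nat_lit 33930) (nat_lit 0) (nat_lit 988) (XT.nd (nat_lit 33774) (nat_lit 0) (nat_lit 1292) (XT.nd (nat_lit 33696) (nat_lit 0) (nat_lit 1596) (XT.lf (nat_lit 0) (nat_lit 2273156320199) (nat_lit 76) (nat_lit 1682908366192) (nat_lit 76) (nat_lit 1677400253377) (nat_lit 1) (nat_lit 4) (nat_lit 2) (nat_lit 5) (nat_lit 2) (nat_lit 4) (nat_lit 371) (nat_lit 248) (nat_lit 161)) (XT.lf (nat_lit 0) (nat_lit 1656569918) (nat_lit 152) (nat_lit 1969265796) (nat_lit 0) (nat_lit 1656569918) (nat_lit 22) (nat_lit 5) (nat_lit 24) (nat_lit 4) (nat_lit 22) (nat_lit 4) (nat_lit 282) (nat_lit 249) (nat_lit 249))) (XT.nd (nat_lit 78) (nat_lit 152) (nat_lit 0) (XT.lf (nat_lit 0) (nat_lit 3626722133) (nat_lit 152) (nat_lit 4043856833) (nat_lit 152) (nat_lit 3343736632) (nat_lit 20) (nat_lit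 4) (nat_lit 22) (nat_lit 5) (nat_lit 22) (nat_lit 4) (nat_lit 283) (nat_lit 249) (nat_lit 248)) (XT.lf (nat_lit 0) (nat_lit 102696801) (nat_lit 76) (nat_lit 594936106) (nat_lit 152) (nat_lit 10811639425) (nat_lit 18) (nat_lit 5) (nat_lit 19) (nat_lit 5) (nat_lit 20) (nat_lit 4) (nat_lit 284) (nat_lit 249) (nat_lit 247)))) (XT.nd (nat_lit 156) (nat_lit 152) (nat_lit 0) (XT.nd (nat_lit 78) (nat_lit 152) (nat_lit 0) (XT.lf (nat_lit 0) (nat_lit 4920879647) (nat_lit 152) (nat_lit 3996584663) (nat_lit 0) (nat_lit 3116601986) (nat_lit 18) (nat_lit 5) (nat_lit 20) (nat_lit 4) (nat_lit 18) (nat_lit 4) (nat_lit 285) (nat_lit 249) (nat_lit 246)) (XT.lf (nat_lit 0) (nat_lit 3797480338) (nat_lit 152) (nat_lit 5566015712) (nat_lit 152) (nat_lit 3247128803) (nat_lit 16) (nat_lit 4) (nat_lit 18) (nat_lit 5) (nat_lit 18) (nat_lit 4) (nat_lit 286) (nat_lit 249) (nat_lit 245))) (XT.nd (nat_lit 78) (nat_lit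 76) (nat_lit 0) (XT.lf (nat_lit 0) (nat_lit 770406834) (nat_lit 228) (nat_lit 1192930737) (nat_lit 76) (nat_lit 11277353350) (nat_lit 15) (nat_lit 5) (nat_lit 18) (nat_lit 5) (nat_lit 16) (nat_lit 4) (nat_lit 287) (nat_lit 249) (nat_lit 244)) (XT.lf (nat_lit 0) (nat_lit 4943237084) (nat_lit 152) (nat_lit 7024260180) (nat_lit 0) (nat_lit 1946411678) (nat_lit 14) (nat_lit 5) (nat_lit 16) (nat_lit 4) (nat_lit 14) (nat_lit 4) (nat_lit 288) (nat_lit 249) (nat_lit 243))))))) (XT.nd (nat_lit 1248) (nat_lit 228) (nat_lit 0) (XT.nd (nat_lit 624) (nat_lit 228) (nat_lit 0) (XT.nd (nat_lit 312) (nat_lit 228) (nat_lit 0) (XT.nd (nat_lit 156) (nat_lit 152) (nat_lit 0) (XT.nd (nat_lit 78) (nat_lit 0) (nat_lit 0) (XT.lf (nat_lit 0) (nat_lit 669316850) (nat_lit 76) (nat_lit 8677602960) (nat_lit 76) (nat_lit 5302524393) (nat_lit 13) (nat_lit 4) (nat_lit 14) (nat_lit 5) (nat_lit 14) (nat_lit 4) (nat_lit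 289) (nat_lit 249) (nat_lit 242)) (XT.lf (nat_lit 0) (nat_lit 9026360975) (nat_lit 76) (nat_lit 5071683955) (nat_lit 76) (nat_lit 1346370981) (nat_lit 13) (nat_lit 4) (nat_lit 14) (nat_lit 5) (nat_lit 14) (nat_lit 4) (nat_lit 290) (nat_lit 249) (nat_lit 241))) (XT.nd (nat_lit 78) (nat_lit 0) (nat_lit 0) (XT.lf (nat_lit 0) (nat_lit 1413838114) (nat_lit 76) (nat_lit 1212816792) (nat_lit 152) (nat_lit 13683135282) (nat_lit 11) (nat_lit 5) (nat_lit 12) (nat_lit 5) (nat_lit 13) (nat_lit 4) (nat_lit 291) (nat_lit 249) (nat_lit 240)) (XT.lf (nat_lit 0) (nat_lit 6911145767) (nat_lit 152) (nat_lit 7441820142) (nat_lit 0) (nat_lit 2883484983) (nat_lit 11) (nat_lit 5) (nat_lit 13) (nat_lit 4) (nat_lit 11) (nat_lit 4) (nat_lit 292) (nat_lit 249) (nat_lit 239)))) (XT.nd (nat_lit 156) (nat_lit 152) (nat_lit 0) (XT.nd (nat_lit 78) (nat_lit 0) (nat_lit 0) (XT.lf (nat_lit 0) (nat_lit 277936112) (nat_lit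 76) (nat_lit 11127591183) (nat_lit 76) (nat_lit 6842497655) (nat_lit 10) (nat_lit 4) (nat_lit 11) (nat_lit 5) (nat_lit 11) (nat_lit 4) (nat_lit 293) (nat_lit 249) (nat_lit 238)) (XT.lf (nat_lit 0) (nat_lit 8733314569) (nat_lit 76) (nat_lit 7563893726) (nat_lit 76) (nat_lit 3040436545) (nat_lit 10) (nat_lit 4) (nat_lit 11) (nat_lit 5) (nat_lit 11) (nat_lit 4) (nat_lit 294) (nat_lit 249) (nat_lit 237))) (XT.nd (nat_lit 78) (nat_lit 76) (nat_lit 0) (XT.lf (nat_lit 0) (nat_lit 854917922) (nat_lit 152) (nat_lit 2965934988) (nat_lit 76) (nat_lit 16704255221) (nat_lit 9) (nat_lit 5) (nat_lit 11) (nat_lit 5) (nat_lit 10) (nat_lit 4) (nat_lit 295) (nat_lit 249) (nat_lit 236)) (XT.lf (nat_lit 0) (nat_lit 4884347685) (nat_lit 152) (nat_lit 16615695006) (nat_lit 0) (nat_lit 302382241) (nat_lit 8) (nat_lit 5) (nat_lit 10) (nat_lit 4) (nat_lit 8) (nat_lit 4) (nat_lit 296) (nat_lit 249) (nat_lit 235)))))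 (XT.nd (nat_lit 312) (nat_lit 152) (nat_lit 0) (XT.nd (nat_lit 156) (nat_lit 76) (nat_lit 0) (XT.nd (nat_lit 78) (nat_lit 0) (nat_lit 0) (XT.lf (nat_lit 0) (nat_lit 9274264511) (nat_lit 152) (nat_lit 9387620061) (nat_lit 0) (nat_lit 4517094667) (nat_lit 8) (nat_lit 5) (nat_lit 10) (nat_lit 4) (nat_lit 8) (nat_lit 4) (nat_lit 297) (nat_lit 249) (nat_lit 234)) (XT.lf (nat_lit 0) (nat_lit 13881753844) (nat_lit 152) (nat_lit 1832331171) (nat_lit 0) (nat_lit 8962357703) (nat_lit 8) (nat_lit 5) (nat_lit 10) (nat_lit 4) (nat_lit 8) (nat_lit 4) (nat_lit 298) (nat_lit 249) (nat_lit 233))) (XT.nd (nat_lit 78) (nat_lit 0) (nat_lit 0) (XT.lf (nat_lit 0) (nat_lit 6415892683) (nat_lit 76) (nat_lit 12472529016) (nat_lit 76) (nat_lit 7402923340) (nat_lit 7) (nat_lit 4) (nat_lit 8) (nat_lit 5) (nat_lit 8) (nat_lit 4) (nat_lit 299) (nat_lit 249) (nat_lit 232)) (XT.lf (nat_lit 0) (nat_lit 15201628143)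 (nat_lit 76) (nat_lit 9024087092) (nat_lit 76) (nat_lit 3815398515) (nat_lit 7) (nat_lit 4) (nat_lit 8) (nat_lit 5) (nat_lit 8) (nat_lit 4) (nat_lit 300) (nat_lit 249) (nat_lit 231)))) (XT.nd (nat_lit 156) (nat_lit 0) (nat_lit 0) (XT.nd (nat_lit 78) (nat_lit 152) (nat_lit 0) (XT.lf (nat_lit 0) (nat_lit 24480451513) (nat_lit 76) (nat_lit 5398423216) (nat_lit 76) (nat_lit 60954174) (nat_lit 7) (nat_lit 4) (nat_lit 8) (nat_lit 5) (nat_lit 8) (nat_lit 4) (nat_lit 301) (nat_lit 249) (nat_lit 230)) (XT.lf (nat_lit 0) (nat_lit 2331878239) (nat_lit 76) (nat_lit 1412635439) (nat_lit 152) (nat_lit 28242271685) (nat_lit 5) (nat_lit 5) (nat_lit 6) (nat_lit 5) (nat_lit 7) (nat_lit 4) (nat_lit 302) (nat_lit 249) (nat_lit 229))) (XT.nd (nat_lit 78) (nat_lit 0) (nat_lit 0) (XT.lf (nat_lit 0) (nat_lit 7969118678) (nat_lit 152) (nat_lit 23404494409) (nat_lit 0) (nat_lit 2814379137) (nat_lit 5) (nat_lit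 5) (nat_lit 7) (nat_lit 4) (nat_lit 5) (nat_lit 4) (nat_lit 303) (nat_lit 249) (nat_lit 228)) (XT.lf (nat_lit 0) (nat_lit 12471433551) (nat_lit 152) (nat_lit 16876701765) (nat_lit 0) (nat_lit 7222036524) (nat_lit 5) (nat_lit 5) (nat_lit 7) (nat_lit 4) (nat_lit 5) (nat_lit 4) (nat_lit 304) (nat_lit 249) (nat_lit 227)))))) (XT.nd (nat_lit 624) (nat_lit 152) (nat_lit 0) (XT.nd (nat_lit 312) (nat_lit 0) (nat_lit 0) (XT.nd (nat_lit 156) (nat_lit 76) (nat_lit 0) (XT.nd (nat_lit 78) (nat_lit 0) (nat_lit 0) (XT.lf (nat_lit 0) (nat_lit 17244164767) (nat_lit 152) (nat_lit 9998872062) (nat_lit 0) (nat_lit 11907121919) (nat_lit 5) (nat_lit 5) (nat_lit 7) (nat_lit 4) (nat_lit 5) (nat_lit 4) (nat_lit 305) (nat_lit 249) (nat_lit 226)) (XT.lf (nat_lit 0) (nat_lit 22315595176) (nat_lit 152) (nat_lit 2730247790) (nat_lit 0) (nat_lit 16897398791) (nat_lit 5) (nat_lit 5) (nat_lit 7) (nat_lit 4) (nat_lit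 5) (nat_lit 4) (nat_lit 306) (nat_lit 249) (nat_lit 225))) (XT.nd (nat_lit 78) (nat_lit 0) (nat_lit 0) (XT.lf (nat_lit 0) (nat_lit 5234073956) (nat_lit 76) (nat_lit 22607583347) (nat_lit 76) (nat_lit 17114244798) (nat_lit 4) (nat_lit 4) (nat_lit 5) (nat_lit 5) (nat_lit 5) (nat_lit 4) (nat_lit 307) (nat_lit 249) (nat_lit 224)) (XT.lf (nat_lit 0) (nat_lit 13846928278) (nat_lit 76) (nat_lit 19962804099) (nat_lit 76) (nat_lit 14399889472) (nat_lit 4) (nat_lit 4) (nat_lit 5) (nat_lit 5) (nat_lit 5) (nat_lit 4) (nat_lit 308) (nat_lit 249) (nat_lit 223)))) (XT.nd (nat_lit 156) (nat_lit 0) (nat_lit 0) (XT.nd (nat_lit 78) (nat_lit 0) (nat_lit 0) (XT.lf (nat_lit 0) (nat_lit 23015584300) (nat_lit 76) (nat_lit 17170482270) (nat_lit 76) (nat_lit 11543145348) (nat_lit 4) (nat_lit 4) (nat_lit 5) (nat_lit 5) (nat_lit 5) (nat_lit 4) (nat_lit 309) (nat_lit 249) (nat_lit 222)) (XT.lf (nat_lit 0) (nat_lit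 32794374799) (nat_lit 76) (nat_lit 14214070766) (nat_lit 76) (nat_lit 8527083571) (nat_lit 4) (nat_lit 4) (nat_lit 5) (nat_lit 5) (nat_lit 5) (nat_lit 4) (nat_lit 310) (nat_lit 249) (nat_lit 221))) (XT.nd (nat_lit 78) (nat_lit 0) (nat_lit 0) (XT.lf (nat_lit 0) (nat_lit 43241248164) (nat_lit 76) (nat_lit 11076050113) (nat_lit 76) (nat_lit 5333831184) (nat_lit 4) (nat_lit 4) (nat_lit 5) (nat_lit 5) (nat_lit 5) (nat_lit 4) (nat_lit 311) (nat_lit 249) (nat_lit 220)) (XT.lf (nat_lit 0) (nat_lit 54418111791) (nat_lit 76) (nat_lit 7737824632) (nat_lit 76) (nat_lit 1944465209) (nat_lit 4) (nat_lit 4) (nat_lit 5) (nat_lit 5) (nat_lit 5) (nat_lit 4) (nat_lit 312) (nat_lit 249) (nat_lit 219))))) (XT.nd (nat_lit 312) (nat_lit 0) (nat_lit 0) (XT.nd (nat_lit 156) (nat_lit 0) (nat_lit 0) (XT.nd (nat_lit 78) (nat_lit 76) (nat_lit 0) (XT.lf (nat_lit 0) (nat_lit 1578004561) (nat_lit 152) (nat_lit 2558462243)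 (nat_lit 76) (nat_lit 64770048944) (nat_lit 3) (nat_lit 5) (nat_lit 5) (nat_lit 5) (nat_lit 4) (nat_lit 4) (nat_lit 313) (nat_lit 249) (nat_lit 218)) (XT.lf (nat_lit 0) (nat_lit 5254369976) (nat_lit 76) (nat_lit 100883119) (nat_lit 152) (nat_lit 68731606642) (nat_lit 2) (nat_lit 5) (nat_lit 3) (nat_lit 5) (nat_lit 4) (nat_lit 4) (nat_lit 314) (nat_lit 249) (nat_lit 217))) (XT.nd (nat_lit 78) (nat_lit 0) (nat_lit 0) (XT.lf (nat_lit 0) (nat_lit 9560848491) (nat_lit 152) (nat_lit 66036116138) (nat_lit 0) (nat_lit 4074595309) (nat_lit 2) (nat_lit 5) (nat_lit 4) (nat_lit 4) (nat_lit 2) (nat_lit 4) (nat_lit 315) (nat_lit 249) (nat_lit 216)) (XT.lf (nat_lit 0) (nat_lit 14061070204) (nat_lit 152) (nat_lit 63105320410) (nat_lit 0) (nat_lit 8540011661) (nat_lit 2) (nat_lit 5) (nat_lit 4) (nat_lit 4) (nat_lit 2) (nat_lit 4) (nat_lit 316) (nat_lit 249) (nat_lit 215)))) (XT.nd (nat_lit 156) (nat_lit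 0) (nat_lit 0) (XT.nd (nat_lit 78) (nat_lit 0) (nat_lit 0) (XT.lf (nat_lit 0) (nat_lit 18880159975) (nat_lit 152) (nat_lit 60020308658) (nat_lit 0) (nat_lit 13326874245) (nat_lit 2) (nat_lit 5) (nat_lit 4) (nat_lit 4) (nat_lit 2) (nat_lit 4) (nat_lit 317) (nat_lit 249) (nat_lit 214)) (XT.lf (nat_lit 0) (nat_lit 24046675372) (nat_lit 152) (nat_lit 56762799331) (nat_lit 0) (nat_lit 18463549655) (nat_lit 2) (nat_lit 5) (nat_lit 4) (nat_lit 4) (nat_lit 2) (nat_lit 4) (nat_lit 318) (nat_lit 249) (nat_lit 213))) (XT.nd (nat_lit 78) (nat_lit 0) (nat_lit 0) (XT.lf (nat_lit 0) (nat_lit 29591232784) (nat_lit 152) (nat_lit 53313488670) (nat_lit 0) (nat_lit 23980477449) (nat_lit 2) (nat_lit 5) (nat_lit 4) (nat_lit 4) (nat_lit 2) (nat_lit 4) (nat_lit 319) (nat_lit 249) (nat_lit 212)) (XT.lf (nat_lit 0) (nat_lit 35546688845) (nat_lit 152) (nat_lit 49651936316) (nat_lit 0) (nat_lit 29910350531) (nat_lit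 2) (nat_lit 5) (nat_lit 4) (nat_lit 4) (nat_lit 2) (nat_lit 4) (nat_lit 320) (nat_lit 249) (nat_lit 211))))))))
noncomputable def xc33 : XT := (XT.nd (nat_lit 2418) (nat_lit 0) (nat_lit 0) (XT.nd (nat_lit 1170) (nat_lit 0) (nat_lit 0) (XT.nd (nat_lit 546) (nat_lit 76) (nat_lit 0) (XT.nd (nat_lit 234) (nat_lit 0) (nat_lit 0) (XT.nd (nat_lit 78) (nat_lit 0) (nat_lit 0) (XT.lf (nat_lit 0) (nat_lit 41948335149) (nat_lit 152) (nat_lit 45756444180) (nat_lit 0) (nat_lit 36288308891) (nat_lit 2) (nat_lit 5) (nat_lit 4) (nat_lit 4) (nat_lit 2) (nat_lit 4) (nat_lit 321) (nat_lit 249) (nat_lit 210)) (XT.nd (nat_lit 78) (nat_lit 0) (nat_lit 0) (XT.lf (nat_lit 0) (nat_lit 48834107377) (nat_lit 152) (nat_lit 41603927864) (nat_lit 0) (nat_lit 43152147837) (nat_lit 2) (nat_lit 5) (nat_lit 4) (nat_lit 4) (nat_lit 2) (nat_lit 4) (nat_lit 322) (nat_lit 249) (nat_lit 209)) (XT.lf (nat_lit 0) (nat_lit 56244810104)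 (nat_lit 152) (nat_lit 37169779865) (nat_lit 0) (nat_lit 50542541970) (nat_lit 2) (nat_lit 5) (nat_lit 4) (nat_lit 4) (nat_lit 2) (nat_lit 4) (nat_lit 323) (nat_lit 249) (nat_lit 208)))) (XT.nd (nat_lit 156) (nat_lit 0) (nat_lit 0) (XT.nd (nat_lit 78) (nat_lit 0) (nat_lit 0) (XT.lf (nat_lit 0) (nat_lit 64224358607) (nat_lit 152) (nat_lit 32427723750) (nat_lit 0) (nat_lit 58503286219) (nat_lit 2) (nat_lit 5) (nat_lit 4) (nat_lit 4) (nat_lit 2) (nat_lit 4) (nat_lit 324) (nat_lit 249) (nat_lit 207)) (XT.lf (nat_lit 0) (nat_lit 72820039098) (nat_lit 152) (nat_lit 27349658446) (nat_lit 0) (nat_lit 67081555365) (nat_lit 2) (nat_lit 5) (nat_lit 4) (nat_lit 4) (nat_lit 2) (nat_lit 4) (nat_lit 325) (nat_lit 249) (nat_lit 206))) (XT.nd (nat_lit 78) (nat_lit 0) (nat_lit 0) (XT.lf (nat_lit 0) (nat_lit 82082788944) (nat_lit 152) (nat_lit 21905491713) (nat_lit 0) (nat_lit 76328183594) (nat_lit 2)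 (nat_lit 5) (nat_lit 4) (nat_lit 4) (nat_lit 2) (nat_lit 4) (nat_lit 326) (nat_lit 249) (nat_lit 205)) (XT.lf (nat_lit 0) (nat_lit 92067498514) (nat_lit 152) (nat_lit 16062961824) (nat_lit 0) (nat_lit 86297965741) (nat_lit 2) (nat_lit 5) (nat_lit 4) (nat_lit 4) (nat_lit 2) (nat_lit 4) (nat_lit 327) (nat_lit 249) (nat_lit 204))))) (XT.nd (nat_lit 312) (nat_lit 0) (nat_lit 0) (XT.nd (nat_lit 156) (nat_lit 76) (nat_lit 0) (XT.nd (nat_lit 78) (nat_lit 0) (nat_lit 0) (XT.lf (nat_lit 0) (nat_lit 102833336458) (nat_lit 152) (nat_lit 9787446378) (nat_lit 0) (nat_lit 97049981997) (nat_lit 2) (nat_lit 5) (nat_lit 4) (nat_lit 4) (nat_lit 2) (nat_lit 4) (nat_lit 328) (nat_lit 249) (nat_lit 203)) (XT.lf (nat_lit 0) (nat_lit 114444100333) (nat_lit 152) (nat_lit 3041757136) (nat_lit 0) (nat_lit 108647948013) (nat_lit 2) (nat_lit 5) (nat_lit 4) (nat_lit 4) (nat_lit 2) (nat_lit 4) (nat_lit 329) (nat_lit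 249) (nat_lit 202))) (XT.nd (nat_lit 78) (nat_lit 0) (nat_lit 0) (XT.lf (nat_lit 0) (nat_lit 4435986359) (nat_lit 76) (nat_lit 122639293885) (nat_lit 76) (nat_lit 116831291695) (nat_lit 1) (nat_lit 4) (nat_lit 2) (nat_lit 5) (nat_lit 2) (nat_lit 4) (nat_lit 330) (nat_lit 249) (nat_lit 201)) (XT.lf (nat_lit 0) (nat_lit 12656176880) (nat_lit 76) (nat_lit 128129243161) (nat_lit 76) (nat_lit 122310268870) (nat_lit 1) (nat_lit 4) (nat_lit 2) (nat_lit 5) (nat_lit 2) (nat_lit 4) (nat_lit 331) (nat_lit 249) (nat_lit 200)))) (XT.nd (nat_lit 156) (nat_lit 0) (nat_lit 0) (XT.nd (nat_lit 78) (nat_lit 0) (nat_lit 0) (XT.lf (nat_lit 0) (nat_lit 21507353125) (nat_lit 76) (nat_lit 134071405361) (nat_lit 76) (nat_lit 128242271717) (nat_lit 1) (nat_lit 4) (nat_lit 2) (nat_lit 5) (nat_lit 2) (nat_lit 4) (nat_lit 332) (nat_lit 249) (nat_lit 199)) (XT.lf (nat_lit 0) (nat_lit 31041966509) (nat_lit 76) (nat_lit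 140500993297) (nat_lit 76) (nat_lit 134662452845) (nat_lit 1) (nat_lit 4) (nat_lit 2) (nat_lit 5) (nat_lit 2) (nat_lit 4) (nat_lit 333) (nat_lit 249) (nat_lit 198))) (XT.nd (nat_lit 78) (nat_lit 0) (nat_lit 0) (XT.lf (nat_lit 0) (nat_lit 41316518445) (nat_lit 76) (nat_lit 147456108232) (nat_lit 76) (nat_lit 141608857772) (nat_lit 1) (nat_lit 4) (nat_lit 2) (nat_lit 5) (nat_lit 2) (nat_lit 4) (nat_lit 334) (nat_lit 249) (nat_lit 197)) (XT.lf (nat_lit 0) (nat_lit 52391895166) (nat_lit 76) (nat_lit 154977965662) (nat_lit 76) (nat_lit 149122650380) (nat_lit 1) (nat_lit 4) (nat_lit 2) (nat_lit 5) (nat_lit 2) (nat_lit 4) (nat_lit 335) (nat_lit 249) (nat_lit 196)))))) (XT.nd (nat_lit 624) (nat_lit 0) (nat_lit 0) (XT.nd (nat_lit 312) (nat_lit 0) (nat_lit 0) (XT.nd (nat_lit 156) (nat_lit 0) (nat_lit 0) (XT.nd (nat_lit 78) (nat_lit 0) (nat_lit 0) (XT.lf (nat_lit 0) (nat_lit 64333728535) (nat_lit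 76) (nat_lit 163111139556) (nat_lit 76) (nat_lit 157248356846) (nat_lit 1) (nat_lit 4) (nat_lit 2) (nat_lit 5) (nat_lit 2) (nat_lit 4) (nat_lit 336) (nat_lit 249) (nat_lit 195)) (XT.lf (nat_lit 0) (nat_lit 77212784971) (nat_lit 76) (nat_lit 171903826501) (nat_lit 76) (nat_lit 166034129505) (nat_lit 1) (nat_lit 4) (nat_lit 2) (nat_lit 5) (nat_lit 2) (nat_lit 4) (nat_lit 337) (nat_lit 249) (nat_lit 194))) (XT.nd (nat_lit 78) (nat_lit 0) (nat_lit 0) (XT.lf (nat_lit 0) (nat_lit 91105384809) (nat_lit 76) (nat_lit 181408131307) (nat_lit 76) (nat_lit 175532032196) (nat_lit 1) (nat_lit 4) (nat_lit 2) (nat_lit 5) (nat_lit 2) (nat_lit 4) (nat_lit 338) (nat_lit 249) (nat_lit 193)) (XT.lf (nat_lit 0) (nat_lit 106093854566) (nat_lit 76) (nat_lit 191680375782) (nat_lit 76) (nat_lit 185798348786) (nat_lit 1) (nat_lit 4) (nat_lit 2) (nat_lit 5) (nat_lit 2) (nat_lit 4) (nat_lit 339) (nat_lit 249) (nat_lit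 192)))) (XT.nd (nat_lit 156) (nat_lit 0) (nat_lit 0) (XT.nd (nat_lit 78) (nat_lit 0) (nat_lit 0) (XT.lf (nat_lit 0) (nat_lit 122267014805) (nat_lit 76) (nat_lit 202781432486) (nat_lit 76) (nat_lit 196893916707) (nat_lit 1) (nat_lit 4) (nat_lit 2) (nat_lit 5) (nat_lit 2) (nat_lit 4) (nat_lit 340) (nat_lit 249) (nat_lit 191)) (XT.lf (nat_lit 0) (nat_lit 139720706474) (nat_lit 76) (nat_lit 214777085457) (nat_lit 76) (nat_lit 208884487472) (nat_lit 1) (nat_lit 4) (nat_lit 2) (nat_lit 5) (nat_lit 2) (nat_lit 4) (nat_lit 341) (nat_lit 249) (nat_lit 190))) (XT.nd (nat_lit 78) (nat_lit 0) (nat_lit 0) (XT.lf (nat_lit 0) (nat_lit 158558358857) (nat_lit 76) (nat_lit 227738420047) (nat_lit 76) (nat_lit 221841116316) (nat_lit 1) (nat_lit 4) (nat_lit 2) (nat_lit 5) (nat_lit 2) (nat_lit 4) (nat_lit 342) (nat_lit 249) (nat_lit 189)) (XT.lf (nat_lit 0) (nat_lit 178891602488) (nat_lit 76) (nat_lit 241742244164)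 (nat_lit 76) (nat_lit 235840583261) (nat_lit 1) (nat_lit 4) (nat_lit 2) (nat_lit 5) (nat_lit 2) (nat_lit 4) (nat_lit 343) (nat_lit 249) (nat_lit 188))))) (XT.nd (nat_lit 312) (nat_lit 0) (nat_lit 0) (XT.nd (nat_lit 156) (nat_lit 0) (nat_lit 0) (XT.nd (nat_lit 78) (nat_lit 0) (nat_lit 0) (XT.lf (nat_lit 0) (nat_lit 200840930661) (nat_lit 76) (nat_lit 256871543433) (nat_lit 76) (nat_lit 250965848111) (nat_lit 1) (nat_lit 4) (nat_lit 2) (nat_lit 5) (nat_lit 2) (nat_lit 4) (nat_lit 344) (nat_lit 249) (nat_lit 187)) (XT.lf (nat_lit 0) (nat_lit 224536413470) (nat_lit 76) (nat_lit 273215972961) (nat_lit 76) (nat_lit 267306542066) (nat_lit 1) (nat_lit 4) (nat_lit 2) (nat_lit 5) (nat_lit 2) (nat_lit 4) (nat_lit 345) (nat_lit 249) (nat_lit 186))) (XT.nd (nat_lit 78) (nat_lit 0) (nat_lit 0) (XT.lf (nat_lit 0) (nat_lit 250118468590) (nat_lit 76) (nat_lit 290872388627) (nat_lit 76) (nat_lit 284959498868)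 (nat_lit 1) (nat_lit 4) (nat_lit 2) (nat_lit 5) (nat_lit 2) (nat_lit 4) (nat_lit 346) (nat_lit 249) (nat_lit 185)) (XT.lf (nat_lit 0) (nat_lit 277738693386) (nat_lit 76) (nat_lit 309945421041) (nat_lit 76) (nat_lit 304029328630) (nat_lit 1) (nat_lit 4) (nat_lit 2) (nat_lit 5) (nat_lit 2) (nat_lit 4) (nat_lit 347) (nat_lit 249) (nat_lit 184)))) (XT.nd (nat_lit 156) (nat_lit 0) (nat_lit 0) (XT.nd (nat_lit 78) (nat_lit 0) (nat_lit 0) (XT.lf (nat_lit 0) (nat_lit 307560763263) (nat_lit 76) (nat_lit 330548095581) (nat_lit 76) (nat_lit 324629037752) (nat_lit 1) (nat_lit 4) (nat_lit 2) (nat_lit 5) (nat_lit 2) (nat_lit 4) (nat_lit 348) (nat_lit 249) (nat_lit 183)) (XT.lf (nat_lit 0) (nat_lit 339761401598) (nat_lit 76) (nat_lit 352802502170) (nat_lit 76) (nat_lit 346880698583) (nat_lit 1) (nat_lit 4) (nat_lit 2) (nat_lit 5) (nat_lit 2) (nat_lit 4) (nat_lit 349) (nat_lit 249) (nat_lit 182))) (XT.nd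 (nat_lit 78) (nat_lit 0) (nat_lit 0) (XT.lf (nat_lit 0) (nat_lit 374531426990) (nat_lit 76) (nat_lit 376840518773) (nat_lit 76) (nat_lit 370916172818) (nat_lit 1) (nat_lit 4) (nat_lit 2) (nat_lit 5) (nat_lit 2) (nat_lit 4) (nat_lit 350) (nat_lit 249) (nat_lit 181)) (XT.lf (nat_lit 0) (nat_lit 412076884032) (nat_lit 76) (nat_lit 402804592897) (nat_lit 76) (nat_lit 396877892897) (nat_lit 1) (nat_lit 4) (nat_lit 2) (nat_lit 5) (nat_lit 2) (nat_lit 4) (nat_lit 351) (nat_lit 249) (nat_lit 180))))))) (XT.nd (nat_lit 1248) (nat_lit 0) (nat_lit 0) (XT.nd (nat_lit 624) (nat_lit 0) (nat_lit 0) (XT.nd (nat_lit 312) (nat_lit 0) (nat_lit 0) (XT.nd (nat_lit 156) (nat_lit 0) (nat_lit 0) (XT.nd (nat_lit 78) (nat_lit 0) (nat_lit 0) (XT.lf (nat_lit 0) (nat_lit 452620264322) (nat_lit 76) (nat_lit 430848585720) (nat_lit 76) (nat_lit 424919706049) (nat_lit 1) (nat_lit 4) (nat_lit 2) (nat_lit 5) (nat_lit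 2) (nat_lit 4) (nat_lit 352) (nat_lit 249) (nat_lit 179)) (XT.lf (nat_lit 0) (nat_lit 496401824929) (nat_lit 76) (nat_lit 461138683867) (nat_lit 76) (nat_lit 455207785983) (nat_lit 1) (nat_lit 4) (nat_lit 2) (nat_lit 5) (nat_lit 2) (nat_lit 4) (nat_lit 353) (nat_lit 249) (nat_lit 178))) (XT.nd (nat_lit 78) (nat_lit 0) (nat_lit 0) (XT.lf (nat_lit 0) (nat_lit 543681012138) (nat_lit 76) (nat_lit 493854384217) (nat_lit 76) (nat_lit 487921617616) (nat_lit 1) (nat_lit 4) (nat_lit 2) (nat_lit 5) (nat_lit 2) (nat_lit 4) (nat_lit 354) (nat_lit 249) (nat_lit 177)) (XT.lf (nat_lit 0) (nat_lit 594737998909) (nat_lit 76) (nat_lit 529189557585) (nat_lit 76) (nat_lit 523255060691) (nat_lit 1) (nat_lit 4) (nat_lit 2) (nat_lit 5) (nat_lit 2) (nat_lit 4) (nat_lit 355) (nat_lit 249) (nat_lit 176)))) (XT.nd (nat_lit 156) (nat_lit 0) (nat_lit 0) (XT.nd (nat_lit 78) (nat_lit 0) (nat_lit 0) (XT.lf (nat_lit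 0) (nat_lit 649875345165) (nat_lit 76) (nat_lit 567353597592) (nat_lit 76) (nat_lit 561417498575) (nat_lit 1) (nat_lit 4) (nat_lit 2) (nat_lit 5) (nat_lit 2) (nat_lit 4) (nat_lit 356) (nat_lit 249) (nat_lit 175)) (XT.lf (nat_lit 0) (nat_lit 709419790735) (nat_lit 76) (nat_lit 608572661512) (nat_lit 76) (nat_lit 602635079047) (nat_lit 1) (nat_lit 4) (nat_lit 2) (nat_lit 5) (nat_lit 2) (nat_lit 4) (nat_lit 357) (nat_lit 249) (nat_lit 174))) (XT.nd (nat_lit 78) (nat_lit 0) (nat_lit 0) (XT.lf (nat_lit 0) (nat_lit 773724191593) (nat_lit 76) (nat_lit 653091010465) (nat_lit 76) (nat_lit 647152054437) (nat_lit 1) (nat_lit 4) (nat_lit 2) (nat_lit 5) (nat_lit 2) (nat_lit 4) (nat_lit 358) (nat_lit 249) (nat_lit 173)) (XT.lf (nat_lit 0) (nat_lit 843169610855) (nat_lit 76) (nat_lit 701172456888) (nat_lit 76) (nat_lit 695232229043) (nat_lit 1) (nat_lit 4) (nat_lit 2) (nat_lit 5) (nat_lit 2) (nat_lit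 4) (nat_lit 359) (nat_lit 249) (nat_lit 172))))) (XT.nd (nat_lit 312) (nat_lit 0) (nat_lit 0) (XT.nd (nat_lit 156) (nat_lit 0) (nat_lit 0) (XT.nd (nat_lit 78) (nat_lit 0) (nat_lit 0) (XT.lf (nat_lit 0) (nat_lit 918167576932) (nat_lit 76) (nat_lit 753101927872) (nat_lit 76) (nat_lit 747160522419) (nat_lit 1) (nat_lit 4) (nat_lit 2) (nat_lit 5) (nat_lit 2) (nat_lit 4) (nat_lit 360) (nat_lit 249) (nat_lit 171)) (XT.lf (nat_lit 0) (nat_lit 999162522214) (nat_lit 76) (nat_lit 809187153615) (nat_lit 76) (nat_lit 803244657784) (nat_lit 1) (nat_lit 4) (nat_lit 2) (nat_lit 5) (nat_lit 2) (nat_lit 4) (nat_lit 361) (nat_lit 249) (nat_lit 170))) (XT.nd (nat_lit 78) (nat_lit 0) (nat_lit 0) (XT.lf (nat_lit 0) (nat_lit 1086634416749) (nat_lit 76) (nat_lit 869760491010) (nat_lit 76) (nat_lit 863816985570) (nat_lit 1) (nat_lit 4) (nat_lit 2) (nat_lit 5) (nat_lit 2) (nat_lit 4) (nat_lit 362) (nat_lit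 249) (nat_lit 169)) (XT.lf (nat_lit 0) (nat_lit 1181101612504) (nat_lit 76) (nat_lit 935180893168) (nat_lit 76) (nat_lit 929236452904) (nat_lit 1) (nat_lit 4) (nat_lit 2) (nat_lit 5) (nat_lit 2) (nat_lit 4) (nat_lit 363) (nat_lit 249) (nat_lit 168)))) (XT.nd (nat_lit 156) (nat_lit 0) (nat_lit 0) (XT.nd (nat_lit 78) (nat_lit 0) (nat_lit 0) (XT.lf (nat_lit 0) (nat_lit 1283123915083) (nat_lit 76) (nat_lit 1005836036547) (nat_lit 76) (nat_lit 999890730705) (nat_lit 1) (nat_lit 4) (nat_lit 2) (nat_lit 5) (nat_lit 2) (nat_lit 4) (nat_lit 364) (nat_lit 249) (nat_lit 167)) (XT.lf (nat_lit 0) (nat_lit 1393305901094) (nat_lit 76) (nat_lit 1082144618291) (nat_lit 76) (nat_lit 1076198510989) (nat_lit 1) (nat_lit 4) (nat_lit 2) (nat_lit 5) (nat_lit 2) (nat_lit 4) (nat_lit 365) (nat_lit 249) (nat_lit 166))) (XT.nd (nat_lit 78) (nat_lit 0) (nat_lit 0) (XT.lf (nat_lit 0) (nat_lit 1512300500825) (nat_lit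 76) (nat_lit 1164558837404) (nat_lit 76) (nat_lit 1158611988009) (nat_lit 1) (nat_lit 4) (nat_lit 2) (nat_lit 5) (nat_lit 2) (nat_lit 4) (nat_lit 366) (nat_lit 249) (nat_lit 165)) (XT.lf (nat_lit 0) (nat_lit 1640812867459) (nat_lit 76) (nat_lit 1253567074444) (nat_lit 76) (nat_lit 1247619537926) (nat_lit 1) (nat_lit 4) (nat_lit 2) (nat_lit 5) (nat_lit 2) (nat_lit 4) (nat_lit 367) (nat_lit 249) (nat_lit 164)))))) (XT.nd (nat_lit 34086) (nat_lit 0) (nat_lit 836) (XT.nd (nat_lit 33774) (nat_lit 0) (nat_lit 1444) (XT.nd (nat_lit 156) (nat_lit 0) (nat_lit 0) (XT.nd (nat_lit 78) (nat_lit 0) (nat_lit 0) (XT.lf (nat_lit 0) (nat_lit 1779604555761) (nat_lit 76) (nat_lit 1349696785630) (nat_lit 76) (nat_lit 1343748612887) (nat_lit 1) (nat_lit 4) (nat_lit 2) (nat_lit 5) (nat_lit 2) (nat_lit 4) (nat_lit 368) (nat_lit 249) (nat_lit 163)) (XT.lf (nat_lit 0) (nat_lit 1929498034996) (nat_lit 76) (nat_lit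 1453517628510) (nat_lit 76) (nat_lit 1447568866669) (nat_lit 1) (nat_lit 4) (nat_lit 2) (nat_lit 5) (nat_lit 2) (nat_lit 4) (nat_lit 369) (nat_lit 249) (nat_lit 162))) (XT.nd (nat_lit 78) (nat_lit 0) (nat_lit 0) (XT.lf (nat_lit 0) (nat_lit 2091381562818) (nat_lit 76) (nat_lit 1565644837708) (nat_lit 76) (nat_lit 1559695530407) (nat_lit 1) (nat_lit 4) (nat_lit 2) (nat_lit 5) (nat_lit 2) (nat_lit 4) (nat_lit 370) (nat_lit 249) (nat_lit 161)) (XT.lf (nat_lit 0) (nat_lit 2266214449022) (nat_lit 76) (nat_lit 1686742870761) (nat_lit 76) (nat_lit 1680793058404) (nat_lit 1) (nat_lit 4) (nat_lit 2) (nat_lit 5) (nat_lit 2) (nat_lit 4) (nat_lit 371) (nat_lit 249) (nat_lit 160)))) (XT.nd (nat_lit 156) (nat_lit 304) (nat_lit 0) (XT.nd (nat_lit 78) (nat_lit 0) (nat_lit 0) (XT.lf (nat_lit 0) (nat_lit 873353372) (nat_lit 152) (nat_lit 2004582101) (nat_lit 152) (nat_lit 2004582101) (nat_lit 24) (nat_lit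 4) (nat_lit 26) (nat_lit 5) (nat_lit 26) (nat_lit 4) (nat_lit 280) (nat_lit 250) (nat_lit 250)) (XT.lf (nat_lit 0) (nat_lit 9192592618) (nat_lit 152) (nat_lit 890630995) (nat_lit 152) (nat_lit 74010793) (nat_lit 24) (nat_lit 4) (nat_lit 26) (nat_lit 5) (nat_lit 26) (nat_lit 4) (nat_lit 281) (nat_lit 250) (nat_lit 249))) (XT.nd (nat_lit 78) (nat_lit 152) (nat_lit 0) (XT.lf (nat_lit 0) (nat_lit 3948730540) (nat_lit 152) (nat_lit 4133440781) (nat_lit 0) (nat_lit 2492480522) (nat_lit 22) (nat_lit 5) (nat_lit 24) (nat_lit 4) (nat_lit 22) (nat_lit 4) (nat_lit 282) (nat_lit 250) (nat_lit 248)) (XT.lf (nat_lit 0) (nat_lit 3231574595) (nat_lit 152) (nat_lit 4953481476) (nat_lit 152) (nat_lit 2848972012) (nat_lit 20) (nat_lit 4) (nat_lit 22) (nat_lit 5) (nat_lit 22) (nat_lit 4) (nat_lit 283) (nat_lit 250) (nat_lit 247))))) (XT.nd (nat_lit 312) (nat_lit 228) (nat_lit 0) (XT.nd (nat_lit 156) (nat_lit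 228) (nat_lit 0) (XT.nd (nat_lit 78) (nat_lit 76) (nat_lit 0) (XT.lf (nat_lit 0) (nat_lit 1054649290) (nat_lit 228) (nat_lit 511079167) (nat_lit 76) (nat_lit 9971501020) (nat_lit 19) (nat_lit 5) (nat_lit 22) (nat_lit 5) (nat_lit 20) (nat_lit 4) (nat_lit 284) (nat_lit 250) (nat_lit 246)) (XT.lf (nat_lit 0) (nat_lit 5132969602) (nat_lit 152) (nat_lit 4826830591) (nat_lit 0) (nat_lit 2113962492) (nat_lit 18) (nat_lit 5) (nat_lit 20) (nat_lit 4) (nat_lit 18) (nat_lit 4) (nat_lit 285) (nat_lit 250) (nat_lit 245))) (XT.nd (nat_lit 78) (nat_lit 76) (nat_lit 0) (XT.lf (nat_lit 0) (nat_lit 2743930815) (nat_lit 152) (nat_lit 6706035758) (nat_lit 152) (nat_lit 3210538604) (nat_lit 16) (nat_lit 4) (nat_lit 18) (nat_lit 5) (nat_lit 18) (nat_lit 4) (nat_lit 286) (nat_lit 250) (nat_lit 244)) (XT.lf (nat_lit 0) (nat_lit 705680438) (nat_lit 228) (nat_lit 2468876328) (nat_lit 76) (nat_lit 10124018183)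 (nat_lit 15) (nat_lit 5) (nat_lit 18) (nat_lit 5) (nat_lit 16) (nat_lit 4) (nat_lit 287) (nat_lit 250) (nat_lit 243)))) (XT.nd (nat_lit 156) (nat_lit 152) (nat_lit 0) (XT.nd (nat_lit 78) (nat_lit 0) (nat_lit 0) (XT.lf (nat_lit 0) (nat_lit 4718388027) (nat_lit 152) (nat_lit 8571271415) (nat_lit 0) (nat_lit 695050015) (nat_lit 14) (nat_lit 5) (nat_lit 16) (nat_lit 4) (nat_lit 14) (nat_lit 4) (nat_lit 288) (nat_lit 250) (nat_lit 242)) (XT.lf (nat_lit 0) (nat_lit 9015370549) (nat_lit 152) (nat_lit 1071710827) (nat_lit 0) (nat_lit 4641798130) (nat_lit 14) (nat_lit 5) (nat_lit 16) (nat_lit 4) (nat_lit 14) (nat_lit 4) (nat_lit 289) (nat_lit 250) (nat_lit 241))) (XT.nd (nat_lit 78) (nat_lit 76) (nat_lit 0) (XT.lf (nat_lit 0) (nat_lit 7072428564) (nat_lit 76) (nat_lit 6579280294) (nat_lit 76) (nat_lit 1881416757) (nat_lit 13) (nat_lit 4) (nat_lit 14) (nat_lit 5) (nat_lit 14) (nat_lit 4) (nat_lit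 290) (nat_lit 250) (nat_lit 240)) (XT.lf (nat_lit 0) (nat_lit 2001020963) (nat_lit 152) (nat_lit 836009487) (nat_lit 76) (nat_lit 13571965546) (nat_lit 12) (nat_lit 5) (nat_lit 14) (nat_lit 5) (nat_lit 13) (nat_lit 4) (nat_lit 291) (nat_lit 250) (nat_lit 239))))))))
noncomputable def xc34 : XT := (XT.nd (nat_lit 2418) (nat_lit 76) (nat_lit 0) (XT.nd (nat_lit 1170) (nat_lit 228) (nat_lit 0) (XT.nd (nat_lit 546) (nat_lit 228) (nat_lit 0) (XT.nd (nat_lit 234) (nat_lit 152) (nat_lit 0) (XT.nd (nat_lit 78) (nat_lit 76) (nat_lit 0) (XT.lf (nat_lit 0) (nat_lit 6142497074) (nat_lit 152) (nat_lit 9947510087) (nat_lit 0) (nat_lit 1257163319) (nat_lit 11) (nat_lit 5) (nat_lit 13) (nat_lit 4) (nat_lit 11) (nat_lit 4) (nat_lit 292) (nat_lit 250) (nat_lit 238)) (XT.nd (nat_lit 78) (nat_lit 76) (nat_lit 0) (XT.lf (nat_lit 0) (nat_lit 10554048085) (nat_lit 152) (nat_lit 2381039440) (nat_lit 0) (nat_lit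 5430350678) (nat_lit 11) (nat_lit 5) (nat_lit 13) (nat_lit 4) (nat_lit 11) (nat_lit 4) (nat_lit 293) (nat_lit 250) (nat_lit 237)) (XT.lf (nat_lit 0) (nat_lit 5813104243) (nat_lit 76) (nat_lit 9498572392) (nat_lit 76) (nat_lit 4154167898) (nat_lit 10) (nat_lit 4) (nat_lit 11) (nat_lit 5) (nat_lit 11) (nat_lit 4) (nat_lit 294) (nat_lit 250) (nat_lit 236)))) (XT.nd (nat_lit 156) (nat_lit 0) (nat_lit 0) (XT.nd (nat_lit 78) (nat_lit 152) (nat_lit 0) (XT.lf (nat_lit 0) (nat_lit 14536547551) (nat_lit 76) (nat_lit 5836388478) (nat_lit 76) (nat_lit 287625571) (nat_lit 10) (nat_lit 4) (nat_lit 11) (nat_lit 5) (nat_lit 11) (nat_lit 4) (nat_lit 295) (nat_lit 250) (nat_lit 235)) (XT.lf (nat_lit 0) (nat_lit 1751643854) (nat_lit 76) (nat_lit 1849138604) (nat_lit 152) (nat_lit 18350131542) (nat_lit 8) (nat_lit 5) (nat_lit 9) (nat_lit 5) (nat_lit 10) (nat_lit 4) (nat_lit 296) (nat_lit 250) (nat_lit 234)))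 (XT.nd (nat_lit 78) (nat_lit 0) (nat_lit 0) (XT.lf (nat_lit 0) (nat_lit 7881986668) (nat_lit 152) (nat_lit 13047411859) (nat_lit 0) (nat_lit 2406812539) (nat_lit 8) (nat_lit 5) (nat_lit 10) (nat_lit 4) (nat_lit 8) (nat_lit 4) (nat_lit 297) (nat_lit 250) (nat_lit 233)) (XT.lf (nat_lit 0) (nat_lit 12429993790) (nat_lit 152) (nat_lit 5603871567) (nat_lit 0) (nat_lit 6804610127) (nat_lit 8) (nat_lit 5) (nat_lit 10) (nat_lit 4) (nat_lit 8) (nat_lit 4) (nat_lit 298) (nat_lit 250) (nat_lit 232))))) (XT.nd (nat_lit 312) (nat_lit 76) (nat_lit 0) (XT.nd (nat_lit 156) (nat_lit 76) (nat_lit 0) (XT.nd (nat_lit 78) (nat_lit 0) (nat_lit 0) (XT.lf (nat_lit 0) (nat_lit 2336830134) (nat_lit 76) (nat_lit 14946653837) (nat_lit 76) (nat_lit 9182187272) (nat_lit 7) (nat_lit 4) (nat_lit 8) (nat_lit 5) (nat_lit 8) (nat_lit 4) (nat_lit 299) (nat_lit 250) (nat_lit 231)) (XT.lf (nat_lit 0) (nat_lit 11021714187)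 (nat_lit 76) (nat_lit 11545641433) (nat_lit 76) (nat_lit 5652394403) (nat_lit 7) (nat_lit 4) (nat_lit 8) (nat_lit 5) (nat_lit 8) (nat_lit 4) (nat_lit 300) (nat_lit 250) (nat_lit 230))) (XT.nd (nat_lit 78) (nat_lit 76) (nat_lit 0) (XT.lf (nat_lit 0) (nat_lit 20207156625) (nat_lit 76) (nat_lit 7963893779) (nat_lit 76) (nat_lit 1951405578) (nat_lit 7) (nat_lit 4) (nat_lit 8) (nat_lit 5) (nat_lit 8) (nat_lit 4) (nat_lit 301) (nat_lit 250) (nat_lit 229)) (XT.lf (nat_lit 0) (nat_lit 1845528718) (nat_lit 152) (nat_lit 2284196958) (nat_lit 76) (nat_lit 28051600956) (nat_lit 6) (nat_lit 5) (nat_lit 8) (nat_lit 5) (nat_lit 7) (nat_lit 4) (nat_lit 302) (nat_lit 250) (nat_lit 228)))) (XT.nd (nat_lit 156) (nat_lit 0) (nat_lit 0) (XT.nd (nat_lit 78) (nat_lit 0) (nat_lit 0) (XT.lf (nat_lit 0) (nat_lit 5898847093) (nat_lit 152) (nat_lit 28362575207) (nat_lit 0) (nat_lit 134840817) (nat_lit 5) (nat_lit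 5) (nat_lit 7) (nat_lit 4) (nat_lit 5) (nat_lit 4) (nat_lit 303) (nat_lit 250) (nat_lit 227)) (XT.lf (nat_lit 0) (nat_lit 10358003866) (nat_lit 152) (nat_lit 21917564464) (nat_lit 0) (nat_lit 4506351770) (nat_lit 5) (nat_lit 5) (nat_lit 7) (nat_lit 4) (nat_lit 5) (nat_lit 4) (nat_lit 304) (nat_lit 250) (nat_lit 226))) (XT.nd (nat_lit 78) (nat_lit 0) (nat_lit 0) (XT.lf (nat_lit 0) (nat_lit 15090773878) (nat_lit 152) (nat_lit 15116384668) (nat_lit 0) (nat_lit 9157968245) (nat_lit 5) (nat_lit 5) (nat_lit 7) (nat_lit 4) (nat_lit 5) (nat_lit 4) (nat_lit 305) (nat_lit 250) (nat_lit 225)) (XT.lf (nat_lit 0) (nat_lit 20125203173) (nat_lit 152) (nat_lit 7918732532) (nat_lit 0) (nat_lit 14117255375) (nat_lit 5) (nat_lit 5) (nat_lit 7) (nat_lit 4) (nat_lit 5) (nat_lit 4) (nat_lit 306) (nat_lit 250) (nat_lit 224)))))) (XT.nd (nat_lit 624) (nat_lit 76) (nat_lit 0) (XT.nd (nat_lit 312) (nat_lit 76)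 (nat_lit 0) (XT.nd (nat_lit 156) (nat_lit 0) (nat_lit 0) (XT.nd (nat_lit 78) (nat_lit 76) (nat_lit 0) (XT.lf (nat_lit 0) (nat_lit 25491125405) (nat_lit 152) (nat_lit 281955303) (nat_lit 0) (nat_lit 19413601529) (nat_lit 5) (nat_lit 5) (nat_lit 7) (nat_lit 4) (nat_lit 5) (nat_lit 4) (nat_lit 307) (nat_lit 250) (nat_lit 223)) (XT.lf (nat_lit 0) (nat_lit 8252000479) (nat_lit 76) (nat_lit 23166798964) (nat_lit 76) (nat_lit 17024852794) (nat_lit 4) (nat_lit 4) (nat_lit 5) (nat_lit 5) (nat_lit 5) (nat_lit 4) (nat_lit 308) (nat_lit 250) (nat_lit 222))) (XT.nd (nat_lit 78) (nat_lit 0) (nat_lit 0) (XT.lf (nat_lit 0) (nat_lit 17361349768) (nat_lit 76) (nat_lit 20402984861) (nat_lit 76) (nat_lit 14201388418) (nat_lit 4) (nat_lit 4) (nat_lit 5) (nat_lit 5) (nat_lit 5) (nat_lit 4) (nat_lit 309) (nat_lit 250) (nat_lit 221)) (XT.lf (nat_lit 0) (nat_lit 27085226626) (nat_lit 76) (nat_lit 17472969401)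 (nat_lit 76) (nat_lit 11216141224) (nat_lit 4) (nat_lit 4) (nat_lit 5) (nat_lit 5) (nat_lit 5) (nat_lit 4) (nat_lit 310) (nat_lit 250) (nat_lit 220)))) (XT.nd (nat_lit 156) (nat_lit 76) (nat_lit 0) (XT.nd (nat_lit 78) (nat_lit 0) (nat_lit 0) (XT.lf (nat_lit 0) (nat_lit 37481254025) (nat_lit 76) (nat_lit 14359389529) (nat_lit 76) (nat_lit 8051420858) (nat_lit 4) (nat_lit 4) (nat_lit 5) (nat_lit 5) (nat_lit 5) (nat_lit 4) (nat_lit 311) (nat_lit 250) (nat_lit 219)) (XT.lf (nat_lit 0) (nat_lit 48611038056) (nat_lit 76) (nat_lit 11043794401) (nat_lit 76) (nat_lit 4688473420) (nat_lit 4) (nat_lit 4) (nat_lit 5) (nat_lit 5) (nat_lit 5) (nat_lit 4) (nat_lit 312) (nat_lit 250) (nat_lit 218))) (XT.nd (nat_lit 78) (nat_lit 76) (nat_lit 0) (XT.lf (nat_lit 0) (nat_lit 60540532992) (nat_lit 76) (nat_lit 7506536046) (nat_lit 76) (nat_lit 1107370334) (nat_lit 4) (nat_lit 4) (nat_lit 5) (nat_lit 5) (nat_lit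 5) (nat_lit 4) (nat_lit 313) (nat_lit 250) (nat_lit 217)) (XT.lf (nat_lit 0) (nat_lit 2577389013) (nat_lit 152) (nat_lit 1078793537) (nat_lit 76) (nat_lit 70692572742) (nat_lit 3) (nat_lit 5) (nat_lit 5) (nat_lit 5) (nat_lit 4) (nat_lit 4) (nat_lit 314) (nat_lit 250) (nat_lit 216))))) (XT.nd (nat_lit 312) (nat_lit 0) (nat_lit 0) (XT.nd (nat_lit 156) (nat_lit 0) (nat_lit 0) (XT.nd (nat_lit 78) (nat_lit 0) (nat_lit 0) (XT.lf (nat_lit 0) (nat_lit 6648092580) (nat_lit 152) (nat_lit 72645620083) (nat_lit 0) (nat_lit 650543991) (nat_lit 2) (nat_lit 5) (nat_lit 4) (nat_lit 4) (nat_lit 2) (nat_lit 4) (nat_lit 315) (nat_lit 250) (nat_lit 215)) (XT.lf (nat_lit 0) (nat_lit 11128530793) (nat_lit 152) (nat_lit 69753404949) (nat_lit 0) (nat_lit 5098755019) (nat_lit 2) (nat_lit 5) (nat_lit 4) (nat_lit 4) (nat_lit 2) (nat_lit 4) (nat_lit 316) (nat_lit 250) (nat_lit 214))) (XT.nd (nat_lit 78) (nat_lit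 0) (nat_lit 0) (XT.lf (nat_lit 0) (nat_lit 15929302509) (nat_lit 152) (nat_lit 66704115969) (nat_lit 0) (nat_lit 9869686747) (nat_lit 2) (nat_lit 5) (nat_lit 4) (nat_lit 4) (nat_lit 2) (nat_lit 4) (nat_lit 317) (nat_lit 250) (nat_lit 213)) (XT.lf (nat_lit 0) (nat_lit 21078856744) (nat_lit 152) (nat_lit 63479683282) (nat_lit 0) (nat_lit 14991611364) (nat_lit 2) (nat_lit 5) (nat_lit 4) (nat_lit 4) (nat_lit 2) (nat_lit 4) (nat_lit 318) (nat_lit 250) (nat_lit 212)))) (XT.nd (nat_lit 156) (nat_lit 0) (nat_lit 0) (XT.nd (nat_lit 78) (nat_lit 0) (nat_lit 0) (XT.lf (nat_lit 0) (nat_lit 26607709375) (nat_lit 152) (nat_lit 60060999140) (nat_lit 0) (nat_lit 20494881016) (nat_lit 2) (nat_lit 5) (nat_lit 4) (nat_lit 4) (nat_lit 2) (nat_lit 4) (nat_lit 319) (nat_lit 250) (nat_lit 211)) (XT.lf (nat_lit 0) (nat_lit 32548623974) (nat_lit 152) (nat_lit 56427804673) (nat_lit 0) (nat_lit 26412107670) (nat_lit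 2) (nat_lit 5) (nat_lit 4) (nat_lit 4) (nat_lit 2) (nat_lit 4) (nat_lit 320) (nat_lit 250) (nat_lit 210))) (XT.nd (nat_lit 78) (nat_lit 0) (nat_lit 0) (XT.lf (nat_lit 0) (nat_lit 38936805960) (nat_lit 152) (nat_lit 52558569841) (nat_lit 0) (nat_lit 32778356375) (nat_lit 2) (nat_lit 5) (nat_lit 4) (nat_lit 4) (nat_lit 2) (nat_lit 4) (nat_lit 321) (nat_lit 250) (nat_lit 209)) (XT.lf (nat_lit 0) (nat_lit 45810111226) (nat_lit 152) (nat_lit 48430365844) (nat_lit 0) (nat_lit 39631353048) (nat_lit 2) (nat_lit 5) (nat_lit 4) (nat_lit 4) (nat_lit 2) (nat_lit 4) (nat_lit 322) (nat_lit 250) (nat_lit 208))))))) (XT.nd (nat_lit 1248) (nat_lit 0) (nat_lit 0) (XT.nd (nat_lit 624) (nat_lit 76) (nat_lit 0) (XT.nd (nat_lit 312) (nat_lit 0) (nat_lit 0) (XT.nd (nat_lit 156) (nat_lit 0) (nat_lit 0) (XT.nd (nat_lit 78) (nat_lit 0) (nat_lit 0) (XT.lf (nat_lit 0) (nat_lit 53209270472) (nat_lit 152) (nat_lit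 44018729250) (nat_lit 0) (nat_lit 47011708039) (nat_lit 2) (nat_lit 5) (nat_lit 4) (nat_lit 4) (nat_lit 2) (nat_lit 4) (nat_lit 323) (nat_lit 250) (nat_lit 207)) (XT.lf (nat_lit 0) (nat_lit 61178130565) (nat_lit 152) (nat_lit 39297517029) (nat_lit 0) (nat_lit 54963156787) (nat_lit 2) (nat_lit 5) (nat_lit 4) (nat_lit 4) (nat_lit 2) (nat_lit 4) (nat_lit 324) (nat_lit 250) (nat_lit 206))) (XT.nd (nat_lit 78) (nat_lit 0) (nat_lit 0) (XT.lf (nat_lit 0) (nat_lit 69763914381) (nat_lit 152) (nat_lit 34238751627) (nat_lit 0) (nat_lit 63532818986) (nat_lit 2) (nat_lit 5) (nat_lit 4) (nat_lit 4) (nat_lit 2) (nat_lit 4) (nat_lit 325) (nat_lit 250) (nat_lit 205)) (XT.lf (nat_lit 0) (nat_lit 79017500639) (nat_lit 152) (nat_lit 28812455174) (nat_lit 0) (nat_lit 72771477821) (nat_lit 2) (nat_lit 5) (nat_lit 4) (nat_lit 4) (nat_lit 2) (nat_lit 4) (nat_lit 326) (nat_lit 250) (nat_lit 204)))) (XT.nd (nat_lit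 156) (nat_lit 0) (nat_lit 0) (XT.nd (nat_lit 78) (nat_lit 0) (nat_lit 0) (XT.lf (nat_lit 0) (nat_lit 88993725405) (nat_lit 152) (nat_lit 22986471840) (nat_lit 0) (nat_lit 82733880900) (nat_lit 2) (nat_lit 5) (nat_lit 4) (nat_lit 4) (nat_lit 2) (nat_lit 4) (nat_lit 327) (nat_lit 250) (nat_lit 203)) (XT.lf (nat_lit 0) (nat_lit 99751707048) (nat_lit 152) (nat_lit 16726277279) (nat_lit 0) (nat_lit 93479064684) (nat_lit 2) (nat_lit 5) (nat_lit 4) (nat_lit 4) (nat_lit 2) (nat_lit 4) (nat_lit 328) (nat_lit 250) (nat_lit 202))) (XT.nd (nat_lit 78) (nat_lit 0) (nat_lit 0) (XT.lf (nat_lit 0) (nat_lit 111355196572) (nat_lit 152) (nat_lit 9994774041) (nat_lit 0) (nat_lit 105070704337) (nat_lit 2) (nat_lit 5) (nat_lit 4) (nat_lit 4) (nat_lit 2) (nat_lit 4) (nat_lit 329) (nat_lit 250) (nat_lit 201)) (XT.lf (nat_lit 0) (nat_lit 123872955394) (nat_lit 152) (nat_lit 2752071737) (nat_lit 0) (nat_lit 117577491058)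 (nat_lit 2) (nat_lit 5) (nat_lit 4) (nat_lit 4) (nat_lit 2) (nat_lit 4) (nat_lit 330) (nat_lit 250) (nat_lit 200))))) (XT.nd (nat_lit 312) (nat_lit 0) (nat_lit 0) (XT.nd (nat_lit 156) (nat_lit 0) (nat_lit 0) (XT.nd (nat_lit 78) (nat_lit 0) (nat_lit 0) (XT.lf (nat_lit 0) (nat_lit 5310396909) (nat_lit 76) (nat_lit 132196481090) (nat_lit 76) (nat_lit 125890857401) (nat_lit 1) (nat_lit 4) (nat_lit 2) (nat_lit 5) (nat_lit 2) (nat_lit 4) (nat_lit 331) (nat_lit 250) (nat_lit 199)) (XT.lf (nat_lit 0) (nat_lit 14149718846) (nat_lit 76) (nat_lit 138144437886) (nat_lit 76) (nat_lit 131829407389) (nat_lit 1) (nat_lit 4) (nat_lit 2) (nat_lit 5) (nat_lit 2) (nat_lit 4) (nat_lit 332) (nat_lit 250) (nat_lit 198))) (XT.nd (nat_lit 78) (nat_lit 0) (nat_lit 0) (XT.lf (nat_lit 0) (nat_lit 23673356019) (nat_lit 76) (nat_lit 144579391190) (nat_lit 76) (nat_lit 138255650685) (nat_lit 1) (nat_lit 4) (nat_lit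 2) (nat_lit 5) (nat_lit 2) (nat_lit 4) (nat_lit 333) (nat_lit 250) (nat_lit 197)) (XT.lf (nat_lit 0) (nat_lit 33937744797) (nat_lit 76) (nat_lit 151539474058) (nat_lit 76) (nat_lit 145207668731) (nat_lit 1) (nat_lit 4) (nat_lit 2) (nat_lit 5) (nat_lit 2) (nat_lit 4) (nat_lit 334) (nat_lit 250) (nat_lit 196)))) (XT.nd (nat_lit 156) (nat_lit 0) (nat_lit 0) (XT.nd (nat_lit 78) (nat_lit 0) (nat_lit 0) (XT.lf (nat_lit 0) (nat_lit 45003711186) (nat_lit 76) (nat_lit 159065931425) (nat_lit 76) (nat_lit 152726658670) (nat_lit 1) (nat_lit 4) (nat_lit 2) (nat_lit 5) (nat_lit 2) (nat_lit 4) (nat_lit 335) (nat_lit 250) (nat_lit 195)) (XT.lf (nat_lit 0) (nat_lit 56936831285) (nat_lit 76) (nat_lit 167203364521) (nat_lit 76) (nat_lit 160857177481) (nat_lit 1) (nat_lit 4) (nat_lit 2) (nat_lit 5) (nat_lit 2) (nat_lit 4) (nat_lit 336) (nat_lit 250) (nat_lit 194))) (XT.nd (nat_lit 78) (nat_lit 0) (nat_lit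 0) (XT.lf (nat_lit 0) (nat_lit 69807819878) (nat_lit 76) (nat_lit 175999995170) (nat_lit 76) (nat_lit 169647406015) (nat_lit 1) (nat_lit 4) (nat_lit 2) (nat_lit 5) (nat_lit 2) (nat_lit 4) (nat_lit 337) (nat_lit 250) (nat_lit 193)) (XT.lf (nat_lit 0) (nat_lit 83692949491) (nat_lit 76) (nat_lit 185507951556) (nat_lit 76) (nat_lit 179149434515) (nat_lit 1) (nat_lit 4) (nat_lit 2) (nat_lit 5) (nat_lit 2) (nat_lit 4) (nat_lit 338) (nat_lit 250) (nat_lit 192)))))) (XT.nd (nat_lit 624) (nat_lit 0) (nat_lit 0) (XT.nd (nat_lit 312) (nat_lit 0) (nat_lit 0) (XT.nd (nat_lit 156) (nat_lit 0) (nat_lit 0) (XT.nd (nat_lit 78) (nat_lit 0) (nat_lit 0) (XT.lf (nat_lit 0) (nat_lit 98674502374) (nat_lit 76) (nat_lit 195783577122) (nat_lit 76) (nat_lit 189419571299) (nat_lit 1) (nat_lit 4) (nat_lit 2) (nat_lit 5) (nat_lit 2) (nat_lit 4) (nat_lit 339) (nat_lit 250) (nat_lit 191)) (XT.lf (nat_lit 0) (nat_lit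 114841258099) (nat_lit 76) (nat_lit 206887764466) (nat_lit 76) (nat_lit 200518676437) (nat_lit 1) (nat_lit 4) (nat_lit 2) (nat_lit 5) (nat_lit 2) (nat_lit 4) (nat_lit 340) (nat_lit 250) (nat_lit 190))) (XT.nd (nat_lit 78) (nat_lit 0) (nat_lit 0) (XT.lf (nat_lit 0) (nat_lit 132289019662) (nat_lit 76) (nat_lit 218886316178) (nat_lit 76) (nat_lit 212512522402) (nat_lit 1) (nat_lit 4) (nat_lit 2) (nat_lit 5) (nat_lit 2) (nat_lit 4) (nat_lit 341) (nat_lit 250) (nat_lit 189)) (XT.lf (nat_lit 0) (nat_lit 151121181208) (nat_lit 76) (nat_lit 231850334787) (nat_lit 76) (nat_lit 225472183839) (nat_lit 1) (nat_lit 4) (nat_lit 2) (nat_lit 5) (nat_lit 2) (nat_lit 4) (nat_lit 342) (nat_lit 250) (nat_lit 188)))) (XT.nd (nat_lit 156) (nat_lit 0) (nat_lit 0) (XT.nd (nat_lit 78) (nat_lit 0) (nat_lit 0) (XT.lf (nat_lit 0) (nat_lit 171449340729) (nat_lit 76) (nat_lit 245856644107) (nat_lit 76) (nat_lit 239474458741)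 (nat_lit 1) (nat_lit 4) (nat_lit 2) (nat_lit 5) (nat_lit 2) (nat_lit 4) (nat_lit 343) (nat_lit 250) (nat_lit 187)) (XT.lf (nat_lit 0) (nat_lit 193393961393) (nat_lit 76) (nat_lit 260988244491) (nat_lit 76) (nat_lit 254602323551) (nat_lit 1) (nat_lit 4) (nat_lit 2) (nat_lit 5) (nat_lit 2) (nat_lit 4) (nat_lit 344) (nat_lit 250) (nat_lit 186))) (XT.nd (nat_lit 78) (nat_lit 0) (nat_lit 0) (XT.lf (nat_lit 0) (nat_lit 217085085398) (nat_lit 76) (nat_lit 277334804680) (nat_lit 76) (nat_lit 270945424876) (nat_lit 1) (nat_lit 4) (nat_lit 2) (nat_lit 5) (nat_lit 2) (nat_lit 4) (nat_lit 345) (nat_lit 250) (nat_lit 185)) (XT.lf (nat_lit 0) (nat_lit 242663104588) (nat_lit 76) (nat_lit 294993193179) (nat_lit 76) (nat_lit 288600610724) (nat_lit 1) (nat_lit 4) (nat_lit 2) (nat_lit 5) (nat_lit 2) (nat_lit 4) (nat_lit 346) (nat_lit 250) (nat_lit 184))))) (XT.nd (nat_lit 312) (nat_lit 0) (nat_lit 0) (XT.nd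 (nat_lit 156) (nat_lit 0) (nat_lit 0) (XT.nd (nat_lit 78) (nat_lit 0) (nat_lit 0) (XT.lf (nat_lit 0) (nat_lit 270279592411) (nat_lit 76) (nat_lit 314068052292) (nat_lit 76) (nat_lit 307672504418) (nat_lit 1) (nat_lit 4) (nat_lit 2) (nat_lit 5) (nat_lit 2) (nat_lit 4) (nat_lit 347) (nat_lit 250) (nat_lit 183)) (XT.lf (nat_lit 0) (nat_lit 300098202129) (nat_lit 76) (nat_lit 334672418220) (nat_lit 76) (nat_lit 328274124588) (nat_lit 1) (nat_lit 4) (nat_lit 2) (nat_lit 5) (nat_lit 2) (nat_lit 4) (nat_lit 348) (nat_lit 250) (nat_lit 182))) (XT.nd (nat_lit 78) (nat_lit 0) (nat_lit 0) (XT.lf (nat_lit 0) (nat_lit 332295636613) (nat_lit 76) (nat_lit 356928390908) (nat_lit 76) (nat_lit 350527554909) (nat_lit 1) (nat_lit 4) (nat_lit 2) (nat_lit 5) (nat_lit 2) (nat_lit 4) (nat_lit 349) (nat_lit 250) (nat_lit 181)) (XT.lf (nat_lit 0) (nat_lit 367062695475) (nat_lit 76) (nat_lit 380967857604) (nat_lit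 76) (nat_lit 374564667559) (nat_lit 1) (nat_lit 4) (nat_lit 2) (nat_lit 5) (nat_lit 2) (nat_lit 4) (nat_lit 350) (nat_lit 250) (nat_lit 180)))) (XT.nd (nat_lit 156) (nat_lit 0) (nat_lit 0) (XT.nd (nat_lit 78) (nat_lit 0) (nat_lit 0) (XT.lf (nat_lit 0) (nat_lit 404605405731) (nat_lit 76) (nat_lit 406933274405) (nat_lit 76) (nat_lit 400527904690) (nat_lit 1) (nat_lit 4) (nat_lit 2) (nat_lit 5) (nat_lit 2) (nat_lit 4) (nat_lit 351) (nat_lit 250) (nat_lit 179)) (XT.lf (nat_lit 0) (nat_lit 445146242701) (nat_lit 76) (nat_lit 434978510449) (nat_lit 76) (nat_lit 428571122519) (nat_lit 1) (nat_lit 4) (nat_lit 2) (nat_lit 5) (nat_lit 2) (nat_lit 4) (nat_lit 352) (nat_lit 250) (nat_lit 178))) (XT.nd (nat_lit 78) (nat_lit 0) (nat_lit 0) (XT.lf (nat_lit 0) (nat_lit 488925448382) (nat_lit 76) (nat_lit 465269759726) (nat_lit 76) (nat_lit 458860503080) (nat_lit 1) (nat_lit 4) (nat_lit 2) (nat_lit 5)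 (nat_lit 2) (nat_lit 4) (nat_lit 353) (nat_lit 250) (nat_lit 177)) (XT.lf (nat_lit 0) (nat_lit 536202455103) (nat_lit 76) (nat_lit 497986525936) (nat_lit 76) (nat_lit 491575538997) (nat_lit 1) (nat_lit 4) (nat_lit 2) (nat_lit 5) (nat_lit 2) (nat_lit 4) (nat_lit 354) (nat_lit 250) (nat_lit 176))))))))
noncomputable def xc35 : XT := (XT.nd (nat_lit 35802) (nat_lit 0) (nat_lit 76) (XT.nd (nat_lit 1248) (nat_lit 0) (nat_lit 0) (XT.nd (nat_lit 624) (nat_lit 0) (nat_lit 0) (XT.nd (nat_lit 312) (nat_lit 0) (nat_lit 0) (XT.nd (nat_lit 156) (nat_lit 0) (nat_lit 0) (XT.nd (nat_lit 78) (nat_lit 0) (nat_lit 0) (XT.lf (nat_lit 0) (nat_lit 587257422904) (nat_lit 76) (nat_lit 533322686213) (nat_lit 76) (nat_lit 526910097151) (nat_lit 1) (nat_lit 4) (nat_lit 2) (nat_lit 5) (nat_lit 2) (nat_lit 4) (nat_lit 355) (nat_lit 250) (nat_lit 175)) (XT.lf (nat_lit 0) (nat_lit 642392899744) (nat_lit 76) (nat_lit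 571487640024) (nat_lit 76) (nat_lit 565073567515) (nat_lit 1) (nat_lit 4) (nat_lit 2) (nat_lit 5) (nat_lit 2) (nat_lit 4) (nat_lit 356) (nat_lit 250) (nat_lit 174))) (XT.nd (nat_lit 78) (nat_lit 0) (nat_lit 0) (XT.lf (nat_lit 0) (nat_lit 701935614373) (nat_lit 76) (nat_lit 612707550059) (nat_lit 76) (nat_lit 606292103987) (nat_lit 1) (nat_lit 4) (nat_lit 2) (nat_lit 5) (nat_lit 2) (nat_lit 4) (nat_lit 357) (nat_lit 250) (nat_lit 173)) (XT.lf (nat_lit 0) (nat_lit 766238412507) (nat_lit 76) (nat_lit 657226682451) (nat_lit 76) (nat_lit 650809964562) (nat_lit 1) (nat_lit 4) (nat_lit 2) (nat_lit 5) (nat_lit 2) (nat_lit 4) (nat_lit 358) (nat_lit 250) (nat_lit 172)))) (XT.nd (nat_lit 156) (nat_lit 0) (nat_lit 0) (XT.nd (nat_lit 78) (nat_lit 0) (nat_lit 0) (XT.lf (nat_lit 0) (nat_lit 835682347766) (nat_lit 76) (nat_lit 705308854282) (nat_lit 76) (nat_lit 698890958784) (nat_lit 1) (nat_lit 4)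 (nat_lit 2) (nat_lit 5) (nat_lit 2) (nat_lit 4) (nat_lit 359) (nat_lit 250) (nat_lit 171)) (XT.lf (nat_lit 0) (nat_lit 910678939766) (nat_lit 76) (nat_lit 757238996939) (nat_lit 76) (nat_lit 750820011063) (nat_lit 1) (nat_lit 4) (nat_lit 2) (nat_lit 5) (nat_lit 2) (nat_lit 4) (nat_lit 360) (nat_lit 250) (nat_lit 170))) (XT.nd (nat_lit 78) (nat_lit 0) (nat_lit 0) (XT.lf (nat_lit 0) (nat_lit 991672612755) (nat_lit 76) (nat_lit 813324844602) (nat_lit 76) (nat_lit 806904849116) (nat_lit 1) (nat_lit 4) (nat_lit 2) (nat_lit 5) (nat_lit 2) (nat_lit 4) (nat_lit 361) (nat_lit 250) (nat_lit 169)) (XT.lf (nat_lit 0) (nat_lit 1079143329240) (nat_lit 76) (nat_lit 873898757848) (nat_lit 76) (nat_lit 867477827540) (nat_lit 1) (nat_lit 4) (nat_lit 2) (nat_lit 5) (nat_lit 2) (nat_lit 4) (nat_lit 362) (nat_lit 250) (nat_lit 168))))) (XT.nd (nat_lit 312) (nat_lit 0) (nat_lit 0) (XT.nd (nat_lit 156) (nat_lit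 0) (nat_lit 0) (XT.nd (nat_lit 78) (nat_lit 0) (nat_lit 0) (XT.lf (nat_lit 0) (nat_lit 1173609434208) (nat_lit 76) (nat_lit 939319693202) (nat_lit 76) (nat_lit 932897897316) (nat_lit 1) (nat_lit 4) (nat_lit 2) (nat_lit 5) (nat_lit 2) (nat_lit 4) (nat_lit 363) (nat_lit 250) (nat_lit 167)) (XT.lf (nat_lit 0) (nat_lit 1275630726800) (nat_lit 76) (nat_lit 1009975330281) (nat_lit 76) (nat_lit 1003552732934) (nat_lit 1) (nat_lit 4) (nat_lit 2) (nat_lit 5) (nat_lit 2) (nat_lit 4) (nat_lit 364) (nat_lit 250) (nat_lit 166))) (XT.nd (nat_lit 78) (nat_lit 0) (nat_lit 0) (XT.lf (nat_lit 0) (nat_lit 1385811777637) (nat_lit 76) (nat_lit 1086284369154) (nat_lit 76) (nat_lit 1079861029715) (nat_lit 1) (nat_lit 4) (nat_lit 2) (nat_lit 5) (nat_lit 2) (nat_lit 4) (nat_lit 365) (nat_lit 250) (nat_lit 165)) (XT.lf (nat_lit 0) (nat_lit 1504805511466) (nat_lit 76) (nat_lit 1168699011536) (nat_lit 76) (nat_lit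 1162274984973) (nat_lit 1) (nat_lit 4) (nat_lit 2) (nat_lit 5) (nat_lit 2) (nat_lit 4) (nat_lit 366) (nat_lit 250) (nat_lit 164)))) (XT.nd (nat_lit 156) (nat_lit 0) (nat_lit 0) (XT.nd (nat_lit 78) (nat_lit 0) (nat_lit 0) (XT.lf (nat_lit 0) (nat_lit 1633317076340) (nat_lit 76) (nat_lit 1257707640490) (nat_lit 76) (nat_lit 1251282977702) (nat_lit 1) (nat_lit 4) (nat_lit 2) (nat_lit 5) (nat_lit 2) (nat_lit 4) (nat_lit 367) (nat_lit 250) (nat_lit 163)) (XT.lf (nat_lit 0) (nat_lit 1772108022271) (nat_lit 76) (nat_lit 1353837714561) (nat_lit 76) (nat_lit 1347412462675) (nat_lit 1) (nat_lit 4) (nat_lit 2) (nat_lit 5) (nat_lit 2) (nat_lit 4) (nat_lit 368) (nat_lit 250) (nat_lit 162))) (XT.nd (nat_lit 78) (nat_lit 0) (nat_lit 0) (XT.lf (nat_lit 0) (nat_lit 1922000814126) (nat_lit 76) (nat_lit 1457658893444) (nat_lit 76) (nat_lit 1451233096098) (nat_lit 1) (nat_lit 4) (nat_lit 2) (nat_lit 5) (nat_lit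 2) (nat_lit 4) (nat_lit 369) (nat_lit 250) (nat_lit 161)) (XT.lf (nat_lit 0) (nat_lit 2083883705484) (nat_lit 76) (nat_lit 1569786413757) (nat_lit 76) (nat_lit 1563360111355) (nat_lit 1) (nat_lit 4) (nat_lit 2) (nat_lit 5) (nat_lit 2) (nat_lit 4) (nat_lit 370) (nat_lit 250) (nat_lit 160)))))) (XT.nd (nat_lit 33930) (nat_lit 0) (nat_lit 760) (XT.nd (nat_lit 33618) (nat_lit 0) (nat_lit 1368) (XT.nd (nat_lit 33462) (nat_lit 0) (nat_lit 1748) (XT.nd (nat_lit 33384) (nat_lit 0) (nat_lit 2128) (XT.lf (nat_lit 0) (nat_lit 2258716002370) (nat_lit 76) (nat_lit 1690884734879) (nat_lit 76) (nat_lit 1684457964833) (nat_lit 1) (nat_lit 4) (nat_lit 2) (nat_lit 5) (nat_lit 2) (nat_lit 4) (nat_lit 371) (nat_lit 250) (nat_lit 159)) (XT.lf (nat_lit 0) (nat_lit 3226047373) (nat_lit 152) (nat_lit 656388238) (nat_lit 152) (nat_lit 656388238) (nat_lit 29) (nat_lit 4) (nat_lit 31) (nat_lit 5) (nat_lit 31)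 (nat_lit 4) (nat_lit 278) (nat_lit 251) (nat_lit 251))) (XT.nd (nat_lit 78) (nat_lit 152) (nat_lit 0) (XT.lf (nat_lit 0) (nat_lit 2531838986) (nat_lit 228) (nat_lit 5228536977) (nat_lit 0) (nat_lit 1649889167) (nat_lit 26) (nat_lit 5) (nat_lit 29) (nat_lit 4) (nat_lit 26) (nat_lit 4) (nat_lit 279) (nat_lit 251) (nat_lit 250)) (XT.lf (nat_lit 0) (nat_lit 1561740938) (nat_lit 152) (nat_lit 4955856211) (nat_lit 152) (nat_lit 3257286190) (nat_lit 24) (nat_lit 4) (nat_lit 26) (nat_lit 5) (nat_lit 26) (nat_lit 4) (nat_lit 280) (nat_lit 251) (nat_lit 249)))) (XT.nd (nat_lit 156) (nat_lit 228) (nat_lit 0) (XT.nd (nat_lit 78) (nat_lit 76) (nat_lit 0) (XT.lf (nat_lit 0) (nat_lit 529545436) (nat_lit 228) (nat_lit 1353245329) (nat_lit 76) (nat_lit 8292338030) (nat_lit 23) (nat_lit 5) (nat_lit 26) (nat_lit 5) (nat_lit 24) (nat_lit 4) (nat_lit 281) (nat_lit 251) (nat_lit 248)) (XT.lf (nat_lit 0) (nat_lit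 4403019094) (nat_lit 152) (nat_lit 4719323362) (nat_lit 0) (nat_lit 1481889429) (nat_lit 22) (nat_lit 5) (nat_lit 24) (nat_lit 4) (nat_lit 22) (nat_lit 4) (nat_lit 282) (nat_lit 251) (nat_lit 247))) (XT.nd (nat_lit 78) (nat_lit 76) (nat_lit 0) (XT.lf (nat_lit 0) (nat_lit 2438937903) (nat_lit 152) (nat_lit 6078000929) (nat_lit 152) (nat_lit 2556631036) (nat_lit 20) (nat_lit 4) (nat_lit 22) (nat_lit 5) (nat_lit 22) (nat_lit 4) (nat_lit 283) (nat_lit 251) (nat_lit 246)) (XT.lf (nat_lit 0) (nat_lit 1230025218) (nat_lit 228) (nat_lit 1518695426) (nat_lit 76) (nat_lit 8835820559) (nat_lit 19) (nat_lit 5) (nat_lit 22) (nat_lit 5) (nat_lit 20) (nat_lit 4) (nat_lit 284) (nat_lit 251) (nat_lit 245))))) (XT.nd (nat_lit 312) (nat_lit 228) (nat_lit 0) (XT.nd (nat_lit 156) (nat_lit 152) (nat_lit 0) (XT.nd (nat_lit 78) (nat_lit 152) (nat_lit 0) (XT.lf (nat_lit 0) (nat_lit 5153441147) (nat_lit 152)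 (nat_lit 6078345819) (nat_lit 0) (nat_lit 901814176) (nat_lit 18) (nat_lit 5) (nat_lit 20) (nat_lit 4) (nat_lit 18) (nat_lit 4) (nat_lit 285) (nat_lit 251) (nat_lit 244)) (XT.lf (nat_lit 0) (nat_lit 1260231238) (nat_lit 152) (nat_lit 8081670590) (nat_lit 152) (nat_lit 3388849133) (nat_lit 16) (nat_lit 4) (nat_lit 18) (nat_lit 5) (nat_lit 18) (nat_lit 4) (nat_lit 286) (nat_lit 251) (nat_lit 243))) (XT.nd (nat_lit 78) (nat_lit 76) (nat_lit 0) (XT.lf (nat_lit 0) (nat_lit 444172866) (nat_lit 228) (nat_lit 4177455307) (nat_lit 76) (nat_lit 8755011653) (nat_lit 15) (nat_lit 5) (nat_lit 18) (nat_lit 5) (nat_lit 16) (nat_lit 4) (nat_lit 287) (nat_lit 251) (nat_lit 242)) (XT.lf (nat_lit 0) (nat_lit 3478993571) (nat_lit 76) (nat_lit 828016813) (nat_lit 152) (nat_lit 9767852328) (nat_lit 14) (nat_lit 5) (nat_lit 15) (nat_lit 5) (nat_lit 16) (nat_lit 4) (nat_lit 288) (nat_lit 251) (nat_lit 241))))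 (XT.nd (nat_lit 156) (nat_lit 152) (nat_lit 0) (XT.nd (nat_lit 78) (nat_lit 76) (nat_lit 0) (XT.lf (nat_lit 0) (nat_lit 8500187308) (nat_lit 152) (nat_lit 3225037789) (nat_lit 0) (nat_lit 3102203570) (nat_lit 14) (nat_lit 5) (nat_lit 16) (nat_lit 4) (nat_lit 14) (nat_lit 4) (nat_lit 289) (nat_lit 251) (nat_lit 240)) (XT.lf (nat_lit 0) (nat_lit 4660831277) (nat_lit 76) (nat_lit 8340017797) (nat_lit 76) (nat_lit 2641764505) (nat_lit 13) (nat_lit 4) (nat_lit 14) (nat_lit 5) (nat_lit 14) (nat_lit 4) (nat_lit 290) (nat_lit 251) (nat_lit 239))) (XT.nd (nat_lit 78) (nat_lit 76) (nat_lit 0) (XT.lf (nat_lit 0) (nat_lit 1201532515) (nat_lit 152) (nat_lit 3477093025) (nat_lit 76) (nat_lit 11847568043) (nat_lit 12) (nat_lit 5) (nat_lit 14) (nat_lit 5) (nat_lit 13) (nat_lit 4) (nat_lit 291) (nat_lit 251) (nat_lit 238)) (XT.lf (nat_lit 0) (nat_lit 4519091360) (nat_lit 76) (nat_lit 650526313) (nat_lit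 152) (nat_lit 12308688893) (nat_lit 11) (nat_lit 5) (nat_lit 12) (nat_lit 5) (nat_lit 13) (nat_lit 4) (nat_lit 292) (nat_lit 251) (nat_lit 237))))))) (XT.nd (nat_lit 1248) (nat_lit 152) (nat_lit 0) (XT.nd (nat_lit 624) (nat_lit 228) (nat_lit 0) (XT.nd (nat_lit 312) (nat_lit 152) (nat_lit 0) (XT.nd (nat_lit 156) (nat_lit 76) (nat_lit 0) (XT.nd (nat_lit 78) (nat_lit 76) (nat_lit 0) (XT.lf (nat_lit 0) (nat_lit 9495017819) (nat_lit 152) (nat_lit 5506156901) (nat_lit 0) (nat_lit 3502353880) (nat_lit 11) (nat_lit 5) (nat_lit 13) (nat_lit 4) (nat_lit 11) (nat_lit 4) (nat_lit 293) (nat_lit 251) (nat_lit 236)) (XT.lf (nat_lit 0) (nat_lit 2397633398) (nat_lit 76) (nat_lit 11707587767) (nat_lit 76) (nat_lit 5510565415) (nat_lit 10) (nat_lit 4) (nat_lit 11) (nat_lit 5) (nat_lit 11) (nat_lit 4) (nat_lit 294) (nat_lit 251) (nat_lit 235))) (XT.nd (nat_lit 78) (nat_lit 76) (nat_lit 0) (XT.lf (nat_lit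 0) (nat_lit 11004604264) (nat_lit 76) (nat_lit 8098627863) (nat_lit 76) (nat_lit 1712384758) (nat_lit 10) (nat_lit 4) (nat_lit 11) (nat_lit 5) (nat_lit 11) (nat_lit 4) (nat_lit 295) (nat_lit 251) (nat_lit 234)) (XT.lf (nat_lit 0) (nat_lit 2145036990) (nat_lit 152) (nat_lit 2099770563) (nat_lit 76) (nat_lit 17872129402) (nat_lit 9) (nat_lit 5) (nat_lit 11) (nat_lit 5) (nat_lit 10) (nat_lit 4) (nat_lit 296) (nat_lit 251) (nat_lit 233)))) (XT.nd (nat_lit 156) (nat_lit 76) (nat_lit 0) (XT.nd (nat_lit 78) (nat_lit 0) (nat_lit 0) (XT.lf (nat_lit 0) (nat_lit 6254603599) (nat_lit 152) (nat_lit 17232424085) (nat_lit 0) (nat_lit 28979708) (nat_lit 8) (nat_lit 5) (nat_lit 10) (nat_lit 4) (nat_lit 8) (nat_lit 4) (nat_lit 297) (nat_lit 251) (nat_lit 232)) (XT.lf (nat_lit 0) (nat_lit 10747534600) (nat_lit 152) (nat_lit 9892354716) (nat_lit 0) (nat_lit 4382827807) (nat_lit 8) (nat_lit 5) (nat_lit 10)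 (nat_lit 4) (nat_lit 8) (nat_lit 4) (nat_lit 298) (nat_lit 251) (nat_lit 231))) (XT.nd (nat_lit 78) (nat_lit 76) (nat_lit 0) (XT.lf (nat_lit 0) (nat_lit 15493827551) (nat_lit 152) (nat_lit 2164357133) (nat_lit 0) (nat_lit 9000340294) (nat_lit 8) (nat_lit 5) (nat_lit 10) (nat_lit 4) (nat_lit 8) (nat_lit 4) (nat_lit 299) (nat_lit 251) (nat_lit 230)) (XT.lf (nat_lit 0) (nat_lit 6313174776) (nat_lit 76) (nat_lit 14360265863) (nat_lit 76) (nat_lit 7747537435) (nat_lit 7) (nat_lit 4) (nat_lit 8) (nat_lit 5) (nat_lit 8) (nat_lit 4) (nat_lit 300) (nat_lit 251) (nat_lit 229))))) (XT.nd (nat_lit 312) (nat_lit 76) (nat_lit 0) (XT.nd (nat_lit 156) (nat_lit 152) (nat_lit 0) (XT.nd (nat_lit 78) (nat_lit 0) (nat_lit 0) (XT.lf (nat_lit 0) (nat_lit 15412153388) (nat_lit 76) (nat_lit 10819181377) (nat_lit 76) (nat_lit 4096044457) (nat_lit 7) (nat_lit 4) (nat_lit 8) (nat_lit 5) (nat_lit 8) (nat_lit 4)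 (nat_lit 301) (nat_lit 251) (nat_lit 228)) (XT.lf (nat_lit 0) (nat_lit 25072527364) (nat_lit 76) (nat_lit 7073124382) (nat_lit 76) (nat_lit 247757377) (nat_lit 7) (nat_lit 4) (nat_lit 8) (nat_lit 5) (nat_lit 8) (nat_lit 4) (nat_lit 302) (nat_lit 251) (nat_lit 227))) (XT.nd (nat_lit 78) (nat_lit 0) (nat_lit 0) (XT.lf (nat_lit 0) (nat_lit 661446497) (nat_lit 76) (nat_lit 2983491477) (nat_lit 152) (nat_lit 30977750385) (nat_lit 5) (nat_lit 5) (nat_lit 6) (nat_lit 5) (nat_lit 7) (nat_lit 4) (nat_lit 303) (nat_lit 251) (nat_lit 226)) (XT.lf (nat_lit 0) (nat_lit 7992380503) (nat_lit 152) (nat_lit 27521127985) (nat_lit 0) (nat_lit 1503796881) (nat_lit 5) (nat_lit 5) (nat_lit 7) (nat_lit 4) (nat_lit 5) (nat_lit 4) (nat_lit 304) (nat_lit 251) (nat_lit 225)))) (XT.nd (nat_lit 156) (nat_lit 76) (nat_lit 0) (XT.nd (nat_lit 78) (nat_lit 0) (nat_lit 0) (XT.lf (nat_lit 0) (nat_lit 12688149400) (nat_lit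 152) (nat_lit 20790920326) (nat_lit 0) (nat_lit 6124423614) (nat_lit 5) (nat_lit 5) (nat_lit 7) (nat_lit 4) (nat_lit 5) (nat_lit 4) (nat_lit 305) (nat_lit 251) (nat_lit 224)) (XT.lf (nat_lit 0) (nat_lit 17688318404) (nat_lit 152) (nat_lit 13658983131) (nat_lit 0) (nat_lit 11055016540) (nat_lit 5) (nat_lit 5) (nat_lit 7) (nat_lit 4) (nat_lit 5) (nat_lit 4) (nat_lit 306) (nat_lit 251) (nat_lit 223))) (XT.nd (nat_lit 78) (nat_lit 76) (nat_lit 0) (XT.lf (nat_lit 0) (nat_lit 23022518144) (nat_lit 152) (nat_lit 6083053070) (nat_lit 0) (nat_lit 16324793986) (nat_lit 5) (nat_lit 5) (nat_lit 7) (nat_lit 4) (nat_lit 5) (nat_lit 4) (nat_lit 307) (nat_lit 251) (nat_lit 222)) (XT.lf (nat_lit 0) (nat_lit 2086120452) (nat_lit 76) (nat_lit 26686409490) (nat_lit 76) (nat_lit 19929035059) (nat_lit 4) (nat_lit 4) (nat_lit 5) (nat_lit 5) (nat_lit 5) (nat_lit 4) (nat_lit 308) (nat_lit 251) (nat_lit 221))))))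 (XT.nd (nat_lit 624) (nat_lit 0) (nat_lit 0) (XT.nd (nat_lit 312) (nat_lit 152) (nat_lit 0) (XT.nd (nat_lit 156) (nat_lit 0) (nat_lit 0) (XT.nd (nat_lit 78) (nat_lit 0) (nat_lit 0) (XT.lf (nat_lit 0) (nat_lit 11140556099) (nat_lit 76) (nat_lit 23948991431) (nat_lit 76) (nat_lit 17136385266) (nat_lit 4) (nat_lit 4) (nat_lit 5) (nat_lit 5) (nat_lit 5) (nat_lit 4) (nat_lit 309) (nat_lit 251) (nat_lit 220)) (XT.lf (nat_lit 0) (nat_lit 20813586992) (nat_lit 76) (nat_lit 21043416752) (nat_lit 76) (nat_lit 14179670093) (nat_lit 4) (nat_lit 4) (nat_lit 5) (nat_lit 5) (nat_lit 5) (nat_lit 4) (nat_lit 310) (nat_lit 251) (nat_lit 219))) (XT.nd (nat_lit 78) (nat_lit 0) (nat_lit 0) (XT.lf (nat_lit 0) (nat_lit 31162534795) (nat_lit 76) (nat_lit 17952467233) (nat_lit 76) (nat_lit 11041368264) (nat_lit 4) (nat_lit 4) (nat_lit 5) (nat_lit 5) (nat_lit 5) (nat_lit 4) (nat_lit 311) (nat_lit 251) (nat_lit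 218)) (XT.lf (nat_lit 0) (nat_lit 42248726606) (nat_lit 76) (nat_lit 14657826135) (nat_lit 76) (nat_lit 7702882435) (nat_lit 4) (nat_lit 4) (nat_lit 5) (nat_lit 5) (nat_lit 5) (nat_lit 4) (nat_lit 312) (nat_lit 251) (nat_lit 217)))) (XT.nd (nat_lit 156) (nat_lit 152) (nat_lit 0) (XT.nd (nat_lit 78) (nat_lit 0) (nat_lit 0) (XT.lf (nat_lit 0) (nat_lit 54137858376) (nat_lit 76) (nat_lit 11139969661) (nat_lit 76) (nat_lit 4144428987) (nat_lit 4) (nat_lit 4) (nat_lit 5) (nat_lit 5) (nat_lit 5) (nat_lit 4) (nat_lit 313) (nat_lit 251) (nat_lit 216)) (XT.lf (nat_lit 0) (nat_lit 66900384221) (nat_lit 76) (nat_lit 7378051252) (nat_lit 76) (nat_lit 344920788) (nat_lit 4) (nat_lit 4) (nat_lit 5) (nat_lit 5) (nat_lit 5) (nat_lit 4) (nat_lit 314) (nat_lit 251) (nat_lit 215))) (XT.nd (nat_lit 78) (nat_lit 0) (nat_lit 0) (XT.lf (nat_lit 0) (nat_lit 293647352) (nat_lit 76) (nat_lit 3245575328) (nat_lit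 152) (nat_lit 76696612814) (nat_lit 2) (nat_lit 5) (nat_lit 3) (nat_lit 5) (nat_lit 4) (nat_lit 4) (nat_lit 315) (nat_lit 251) (nat_lit 214)) (XT.lf (nat_lit 0) (nat_lit 7923286674) (nat_lit 152) (nat_lit 77007639616) (nat_lit 0) (nat_lit 1349061664) (nat_lit 2) (nat_lit 5) (nat_lit 4) (nat_lit 4) (nat_lit 2) (nat_lit 4) (nat_lit 316) (nat_lit 251) (nat_lit 213))))) (XT.nd (nat_lit 312) (nat_lit 0) (nat_lit 0) (XT.nd (nat_lit 156) (nat_lit 0) (nat_lit 0) (XT.nd (nat_lit 78) (nat_lit 0) (nat_lit 0) (XT.lf (nat_lit 0) (nat_lit 12707097227) (nat_lit 152) (nat_lit 73991427276) (nat_lit 0) (nat_lit 6105242599) (nat_lit 2) (nat_lit 5) (nat_lit 4) (nat_lit 4) (nat_lit 2) (nat_lit 4) (nat_lit 317) (nat_lit 251) (nat_lit 212)) (XT.lf (nat_lit 0) (nat_lit 17840946682) (nat_lit 152) (nat_lit 70797621108) (nat_lit 0) (nat_lit 11213509074) (nat_lit 2) (nat_lit 5) (nat_lit 4) (nat_lit 4) (nat_lit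 2) (nat_lit 4) (nat_lit 318) (nat_lit 251) (nat_lit 211))) (XT.nd (nat_lit 78) (nat_lit 0) (nat_lit 0) (XT.lf (nat_lit 0) (nat_lit 23355257850) (nat_lit 152) (nat_lit 67407294854) (nat_lit 0) (nat_lit 16704132299) (nat_lit 2) (nat_lit 5) (nat_lit 4) (nat_lit 4) (nat_lit 2) (nat_lit 4) (nat_lit 319) (nat_lit 251) (nat_lit 210)) (XT.lf (nat_lit 0) (nat_lit 29282708131) (nat_lit 152) (nat_lit 63800357691) (nat_lit 0) (nat_lit 22609649299) (nat_lit 2) (nat_lit 5) (nat_lit 4) (nat_lit 4) (nat_lit 2) (nat_lit 4) (nat_lit 320) (nat_lit 251) (nat_lit 209)))) (XT.nd (nat_lit 156) (nat_lit 0) (nat_lit 0) (XT.nd (nat_lit 78) (nat_lit 0) (nat_lit 0) (XT.lf (nat_lit 0) (nat_lit 35658423157) (nat_lit 152) (nat_lit 59955435177) (nat_lit 0) (nat_lit 28965055730) (nat_lit 2) (nat_lit 5) (nat_lit 4) (nat_lit 4) (nat_lit 2) (nat_lit 4) (nat_lit 321) (nat_lit 251) (nat_lit 208)) (XT.lf (nat_lit 0) (nat_lit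 42520184941) (nat_lit 152) (nat_lit 55849742585) (nat_lit 0) (nat_lit 35808013261) (nat_lit 2) (nat_lit 5) (nat_lit 4) (nat_lit 4) (nat_lit 2) (nat_lit 4) (nat_lit 322) (nat_lit 251) (nat_lit 207))) (XT.nd (nat_lit 78) (nat_lit 0) (nat_lit 0) (XT.lf (nat_lit 0) (nat_lit 49908655777) (nat_lit 152) (nat_lit 51458949886) (nat_lit 0) (nat_lit 43179072751) (nat_lit 2) (nat_lit 5) (nat_lit 4) (nat_lit 4) (nat_lit 2) (nat_lit 4) (nat_lit 323) (nat_lit 251) (nat_lit 206)) (XT.lf (nat_lit 0) (nat_lit 57867619195) (nat_lit 152) (nat_lit 46757037567) (nat_lit 0) (nat_lit 51121914552) (nat_lit 2) (nat_lit 5) (nat_lit 4) (nat_lit 4) (nat_lit 2) (nat_lit 4) (nat_lit 324) (nat_lit 251) (nat_lit 205))))))))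
noncomputable def xc36 : XT := (XT.nd (nat_lit 2418) (nat_lit 0) (nat_lit 0) (XT.nd (nat_lit 1170) (nat_lit 0) (nat_lit 0) (XT.nd (nat_lit 546) (nat_lit 76) (nat_lit 0) (XT.nd (nat_lit 234) (nat_lit 0) (nat_lit 0) (XT.nd (nat_lit 78) (nat_lit 0) (nat_lit 0) (XT.lf (nat_lit 0) (nat_lit 66444239423) (nat_lit 152) (nat_lit 41716142445) (nat_lit 0) (nat_lit 59683607357) (nat_lit 2) (nat_lit 5) (nat_lit 4) (nat_lit 4) (nat_lit 2) (nat_lit 4) (nat_lit 325) (nat_lit 251) (nat_lit 204)) (XT.nd (nat_lit 78) (nat_lit 0) (nat_lit 0) (XT.lf (nat_lit 0) (nat_lit 75689340877) (nat_lit 152) (nat_lit 36306392547) (nat_lit 0) (nat_lit 68914887123) (nat_lit 2) (nat_lit 5) (nat_lit 4) (nat_lit 4) (nat_lit 2) (nat_lit 4) (nat_lit 326) (nat_lit 251) (nat_lit 203)) (XT.lf (nat_lit 0) (nat_lit 85657709343) (nat_lit 152) (nat_lit 30495730097) (nat_lit 0) (nat_lit 78870457730) (nat_lit 2) (nat_lit 5) (nat_lit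 4) (nat_lit 4) (nat_lit 2) (nat_lit 4) (nat_lit 327) (nat_lit 251) (nat_lit 202)))) (XT.nd (nat_lit 156) (nat_lit 0) (nat_lit 0) (XT.nd (nat_lit 78) (nat_lit 0) (nat_lit 0) (XT.lf (nat_lit 0) (nat_lit 96408416635) (nat_lit 152) (nat_lit 24249721540) (nat_lit 0) (nat_lit 89609315152) (nat_lit 2) (nat_lit 5) (nat_lit 4) (nat_lit 4) (nat_lit 2) (nat_lit 4) (nat_lit 328) (nat_lit 251) (nat_lit 201)) (XT.lf (nat_lit 0) (nat_lit 108005170647) (nat_lit 152) (nat_lit 17531353491) (nat_lit 0) (nat_lit 101195097063) (nat_lit 2) (nat_lit 5) (nat_lit 4) (nat_lit 4) (nat_lit 2) (nat_lit 4) (nat_lit 329) (nat_lit 251) (nat_lit 200))) (XT.nd (nat_lit 78) (nat_lit 0) (nat_lit 0) (XT.lf (nat_lit 0) (nat_lit 120516692885) (nat_lit 152) (nat_lit 10300813399) (nat_lit 0) (nat_lit 113696459948) (nat_lit 2) (nat_lit 5) (nat_lit 4) (nat_lit 4) (nat_lit 2) (nat_lit 4) (nat_lit 330) (nat_lit 251) (nat_lit 199))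 (XT.lf (nat_lit 0) (nat_lit 134017125703) (nat_lit 152) (nat_lit 2515253620) (nat_lit 0) (nat_lit 127187485957) (nat_lit 2) (nat_lit 5) (nat_lit 4) (nat_lit 4) (nat_lit 2) (nat_lit 4) (nat_lit 331) (nat_lit 251) (nat_lit 198))))) (XT.nd (nat_lit 312) (nat_lit 0) (nat_lit 0) (XT.nd (nat_lit 156) (nat_lit 0) (nat_lit 0) (XT.nd (nat_lit 78) (nat_lit 0) (nat_lit 0) (XT.lf (nat_lit 0) (nat_lit 6180643307) (nat_lit 76) (nat_lit 142554472978) (nat_lit 76) (nat_lit 135716123225) (nat_lit 1) (nat_lit 4) (nat_lit 2) (nat_lit 5) (nat_lit 2) (nat_lit 4) (nat_lit 332) (nat_lit 251) (nat_lit 197)) (XT.lf (nat_lit 0) (nat_lit 15694117321) (nat_lit 76) (nat_lit 148994394214) (nat_lit 76) (nat_lit 142147979639) (nat_lit 1) (nat_lit 4) (nat_lit 2) (nat_lit 5) (nat_lit 2) (nat_lit 4) (nat_lit 333) (nat_lit 251) (nat_lit 196))) (XT.nd (nat_lit 78) (nat_lit 0) (nat_lit 0) (XT.lf (nat_lit 0) (nat_lit 25949095767)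 (nat_lit 76) (nat_lit 155959077019) (nat_lit 76) (nat_lit 149105195016) (nat_lit 1) (nat_lit 4) (nat_lit 2) (nat_lit 5) (nat_lit 2) (nat_lit 4) (nat_lit 334) (nat_lit 251) (nat_lit 195)) (XT.lf (nat_lit 0) (nat_lit 37006348886) (nat_lit 76) (nat_lit 163489793588) (nat_lit 76) (nat_lit 156628997300) (nat_lit 1) (nat_lit 4) (nat_lit 2) (nat_lit 5) (nat_lit 2) (nat_lit 4) (nat_lit 335) (nat_lit 251) (nat_lit 194)))) (XT.nd (nat_lit 156) (nat_lit 0) (nat_lit 0) (XT.nd (nat_lit 78) (nat_lit 0) (nat_lit 0) (XT.lf (nat_lit 0) (nat_lit 48931401142) (nat_lit 76) (nat_lit 171631170389) (nat_lit 76) (nat_lit 164763971985) (nat_lit 1) (nat_lit 4) (nat_lit 2) (nat_lit 5) (nat_lit 2) (nat_lit 4) (nat_lit 336) (nat_lit 251) (nat_lit 193)) (XT.lf (nat_lit 0) (nat_lit 61794919510) (nat_lit 76) (nat_lit 180431452617) (nat_lit 76) (nat_lit 173558326328) (nat_lit 1) (nat_lit 4) (nat_lit 2) (nat_lit 5) (nat_lit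 2) (nat_lit 4) (nat_lit 337) (nat_lit 251) (nat_lit 192))) (XT.nd (nat_lit 78) (nat_lit 0) (nat_lit 0) (XT.lf (nat_lit 0) (nat_lit 75673132249) (nat_lit 76) (nat_lit 189942790094) (nat_lit 76) (nat_lit 183064175023) (nat_lit 1) (nat_lit 4) (nat_lit 2) (nat_lit 5) (nat_lit 2) (nat_lit 4) (nat_lit 338) (nat_lit 251) (nat_lit 191)) (XT.lf (nat_lit 0) (nat_lit 90648280618) (nat_lit 76) (nat_lit 200221546301) (nat_lit 76) (nat_lit 193337849023) (nat_lit 1) (nat_lit 4) (nat_lit 2) (nat_lit 5) (nat_lit 2) (nat_lit 4) (nat_lit 339) (nat_lit 251) (nat_lit 190)))))) (XT.nd (nat_lit 624) (nat_lit 0) (nat_lit 0) (XT.nd (nat_lit 312) (nat_lit 0) (nat_lit 0) (XT.nd (nat_lit 156) (nat_lit 0) (nat_lit 0) (XT.nd (nat_lit 78) (nat_lit 0) (nat_lit 0) (XT.lf (nat_lit 0) (nat_lit 106809106237) (nat_lit 76) (nat_lit 211328632385) (nat_lit 76) (nat_lit 204440229362) (nat_lit 1) (nat_lit 4) (nat_lit 2) (nat_lit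 5) (nat_lit 2) (nat_lit 4) (nat_lit 340) (nat_lit 251) (nat_lit 189)) (XT.lf (nat_lit 0) (nat_lit 124251376963) (nat_lit 76) (nat_lit 223329868116) (nat_lit 76) (nat_lit 216437107921) (nat_lit 1) (nat_lit 4) (nat_lit 2) (nat_lit 5) (nat_lit 2) (nat_lit 4) (nat_lit 341) (nat_lit 251) (nat_lit 188))) (XT.nd (nat_lit 78) (nat_lit 0) (nat_lit 0) (XT.lf (nat_lit 0) (nat_lit 143078454398) (nat_lit 76) (nat_lit 236296371929) (nat_lit 76) (nat_lit 229399577314) (nat_lit 1) (nat_lit 4) (nat_lit 2) (nat_lit 5) (nat_lit 2) (nat_lit 4) (nat_lit 342) (nat_lit 251) (nat_lit 187)) (XT.lf (nat_lit 0) (nat_lit 163401906411) (nat_lit 76) (nat_lit 250304982363) (nat_lit 76) (nat_lit 243404452175) (nat_lit 1) (nat_lit 4) (nat_lit 2) (nat_lit 5) (nat_lit 2) (nat_lit 4) (nat_lit 343) (nat_lit 251) (nat_lit 186)))) (XT.nd (nat_lit 156) (nat_lit 0) (nat_lit 0) (XT.nd (nat_lit 78) (nat_lit 0) (nat_lit 0) (XT.lf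 (nat_lit 0) (nat_lit 185342168271) (nat_lit 76) (nat_lit 265438713408) (nat_lit 76) (nat_lit 258534724356) (nat_lit 1) (nat_lit 4) (nat_lit 2) (nat_lit 5) (nat_lit 2) (nat_lit 4) (nat_lit 344) (nat_lit 251) (nat_lit 185)) (XT.lf (nat_lit 0) (nat_lit 209029256345) (nat_lit 76) (nat_lit 281787246431) (nat_lit 76) (nat_lit 274880054728) (nat_lit 1) (nat_lit 4) (nat_lit 2) (nat_lit 5) (nat_lit 2) (nat_lit 4) (nat_lit 345) (nat_lit 251) (nat_lit 184))) (XT.nd (nat_lit 78) (nat_lit 0) (nat_lit 0) (XT.lf (nat_lit 0) (nat_lit 234603538563) (nat_lit 76) (nat_lit 299447461629) (nat_lit 76) (nat_lit 292537304507) (nat_lit 1) (nat_lit 4) (nat_lit 2) (nat_lit 5) (nat_lit 2) (nat_lit 4) (nat_lit 346) (nat_lit 251) (nat_lit 183)) (XT.lf (nat_lit 0) (nat_lit 262216566227) (nat_lit 76) (nat_lit 318524012129) (nat_lit 76) (nat_lit 311611109250) (nat_lit 1) (nat_lit 4) (nat_lit 2) (nat_lit 5) (nat_lit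 2) (nat_lit 4) (nat_lit 347) (nat_lit 251) (nat_lit 182))))) (XT.nd (nat_lit 312) (nat_lit 0) (nat_lit 0) (XT.nd (nat_lit 156) (nat_lit 0) (nat_lit 0) (XT.nd (nat_lit 78) (nat_lit 0) (nat_lit 0) (XT.lf (nat_lit 0) (nat_lit 292031972093) (nat_lit 76) (nat_lit 339129944157) (nat_lit 76) (nat_lit 332214498909) (nat_lit 1) (nat_lit 4) (nat_lit 2) (nat_lit 5) (nat_lit 2) (nat_lit 4) (nat_lit 348) (nat_lit 251) (nat_lit 181)) (XT.lf (nat_lit 0) (nat_lit 324226440048) (nat_lit 76) (nat_lit 361387366937) (nat_lit 76) (nat_lit 354469567645) (nat_lit 1) (nat_lit 4) (nat_lit 2) (nat_lit 5) (nat_lit 2) (nat_lit 4) (nat_lit 349) (nat_lit 251) (nat_lit 180))) (XT.nd (nat_lit 78) (nat_lit 0) (nat_lit 0) (XT.lf (nat_lit 0) (nat_lit 358990752124) (nat_lit 76) (nat_lit 385428176311) (nat_lit 76) (nat_lit 378508197347) (nat_lit 1) (nat_lit 4) (nat_lit 2) (nat_lit 5) (nat_lit 2) (nat_lit 4) (nat_lit 350)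 (nat_lit 251) (nat_lit 179)) (XT.lf (nat_lit 0) (nat_lit 396530919060) (nat_lit 76) (nat_lit 411394836332) (nat_lit 76) (nat_lit 404472839155) (nat_lit 1) (nat_lit 4) (nat_lit 2) (nat_lit 5) (nat_lit 2) (nat_lit 4) (nat_lit 351) (nat_lit 251) (nat_lit 178)))) (XT.nd (nat_lit 156) (nat_lit 0) (nat_lit 0) (XT.nd (nat_lit 78) (nat_lit 0) (nat_lit 0) (XT.lf (nat_lit 0) (nat_lit 437069401103) (nat_lit 76) (nat_lit 439441223506) (nat_lit 76) (nat_lit 432517357612) (nat_lit 1) (nat_lit 4) (nat_lit 2) (nat_lit 5) (nat_lit 2) (nat_lit 4) (nat_lit 352) (nat_lit 251) (nat_lit 177)) (XT.lf (nat_lit 0) (nat_lit 480846426296) (nat_lit 76) (nat_lit 469733538644) (nat_lit 76) (nat_lit 462807942457) (nat_lit 1) (nat_lit 4) (nat_lit 2) (nat_lit 5) (nat_lit 2) (nat_lit 4) (nat_lit 353) (nat_lit 251) (nat_lit 176))) (XT.nd (nat_lit 78) (nat_lit 0) (nat_lit 0) (XT.lf (nat_lit 0) (nat_lit 528121414048) (nat_lit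 76) (nat_lit 502451291763) (nat_lit 76) (nat_lit 495524093453) (nat_lit 1) (nat_lit 4) (nat_lit 2) (nat_lit 5) (nat_lit 2) (nat_lit 4) (nat_lit 354) (nat_lit 251) (nat_lit 175)) (XT.lf (nat_lit 0) (nat_lit 579174512433) (nat_lit 76) (nat_lit 537788365844) (nat_lit 76) (nat_lit 530859684086) (nat_lit 1) (nat_lit 4) (nat_lit 2) (nat_lit 5) (nat_lit 2) (nat_lit 4) (nat_lit 355) (nat_lit 251) (nat_lit 174))))))) (XT.nd (nat_lit 34398) (nat_lit 0) (nat_lit 836) (XT.nd (nat_lit 624) (nat_lit 0) (nat_lit 0) (XT.nd (nat_lit 312) (nat_lit 0) (nat_lit 0) (XT.nd (nat_lit 156) (nat_lit 0) (nat_lit 0) (XT.nd (nat_lit 78) (nat_lit 0) (nat_lit 0) (XT.lf (nat_lit 0) (nat_lit 634308258331) (nat_lit 76) (nat_lit 575954165770) (nat_lit 76) (nat_lit 569024110449) (nat_lit 1) (nat_lit 4) (nat_lit 2) (nat_lit 5) (nat_lit 2) (nat_lit 4) (nat_lit 356) (nat_lit 251) (nat_lit 173)) (XT.lf (nat_lit 0) (nat_lit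 693849370237) (nat_lit 76) (nat_lit 617174859244) (nat_lit 76) (nat_lit 610243532107) (nat_lit 1) (nat_lit 4) (nat_lit 2) (nat_lit 5) (nat_lit 2) (nat_lit 4) (nat_lit 357) (nat_lit 251) (nat_lit 172))) (XT.nd (nat_lit 78) (nat_lit 0) (nat_lit 0) (XT.lf (nat_lit 0) (nat_lit 758150684368) (nat_lit 76) (nat_lit 661694717044) (nat_lit 76) (nat_lit 654762212298) (nat_lit 1) (nat_lit 4) (nat_lit 2) (nat_lit 5) (nat_lit 2) (nat_lit 4) (nat_lit 358) (nat_lit 251) (nat_lit 171)) (XT.lf (nat_lit 0) (nat_lit 827593245550) (nat_lit 76) (nat_lit 709777560547) (nat_lit 76) (nat_lit 702843965423) (nat_lit 1) (nat_lit 4) (nat_lit 2) (nat_lit 5) (nat_lit 2) (nat_lit 4) (nat_lit 359) (nat_lit 251) (nat_lit 170)))) (XT.nd (nat_lit 156) (nat_lit 0) (nat_lit 0) (XT.nd (nat_lit 78) (nat_lit 0) (nat_lit 0) (XT.lf (nat_lit 0) (nat_lit 902588565256) (nat_lit 76) (nat_lit 761708325124) (nat_lit 76) (nat_lit 754773720391)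 (nat_lit 1) (nat_lit 4) (nat_lit 2) (nat_lit 5) (nat_lit 2) (nat_lit 4) (nat_lit 360) (nat_lit 251) (nat_lit 169)) (XT.lf (nat_lit 0) (nat_lit 983581060196) (nat_lit 76) (nat_lit 817794748638) (nat_lit 76) (nat_lit 810859209081) (nat_lit 1) (nat_lit 4) (nat_lit 2) (nat_lit 5) (nat_lit 2) (nat_lit 4) (nat_lit 361) (nat_lit 251) (nat_lit 168))) (XT.nd (nat_lit 78) (nat_lit 0) (nat_lit 0) (XT.lf (nat_lit 0) (nat_lit 1071050685895) (nat_lit 76) (nat_lit 878369195081) (nat_lit 76) (nat_lit 871432789947) (nat_lit 1) (nat_lit 4) (nat_lit 2) (nat_lit 5) (nat_lit 2) (nat_lit 4) (nat_lit 362) (nat_lit 251) (nat_lit 167)) (XT.lf (nat_lit 0) (nat_lit 1165515780875) (nat_lit 76) (nat_lit 943790624135) (nat_lit 76) (nat_lit 936853417540) (nat_lit 1) (nat_lit 4) (nat_lit 2) (nat_lit 5) (nat_lit 2) (nat_lit 4) (nat_lit 363) (nat_lit 251) (nat_lit 166))))) (XT.nd (nat_lit 312) (nat_lit 0) (nat_lit 0)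 (XT.nd (nat_lit 156) (nat_lit 0) (nat_lit 0) (XT.nd (nat_lit 78) (nat_lit 0) (nat_lit 0) (XT.lf (nat_lit 0) (nat_lit 1267536138293) (nat_lit 76) (nat_lit 1014446718343) (nat_lit 76) (nat_lit 1007508769655) (nat_lit 1) (nat_lit 4) (nat_lit 2) (nat_lit 5) (nat_lit 2) (nat_lit 4) (nat_lit 364) (nat_lit 251) (nat_lit 165)) (XT.lf (nat_lit 0) (nat_lit 1377716323229) (nat_lit 76) (nat_lit 1090756180484) (nat_lit 76) (nat_lit 1083817544673) (nat_lit 1) (nat_lit 4) (nat_lit 2) (nat_lit 5) (nat_lit 2) (nat_lit 4) (nat_lit 365) (nat_lit 251) (nat_lit 164))) (XT.nd (nat_lit 78) (nat_lit 0) (nat_lit 0) (XT.lf (nat_lit 0) (nat_lit 1496709255297) (nat_lit 76) (nat_lit 1173171214781) (nat_lit 76) (nat_lit 1166231942744) (nat_lit 1) (nat_lit 4) (nat_lit 2) (nat_lit 5) (nat_lit 2) (nat_lit 4) (nat_lit 366) (nat_lit 251) (nat_lit 163)) (XT.lf (nat_lit 0) (nat_lit 1625220077800) (nat_lit 76) (nat_lit 1262180206620)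 (nat_lit 76) (nat_lit 1255240345486) (nat_lit 1) (nat_lit 4) (nat_lit 2) (nat_lit 5) (nat_lit 2) (nat_lit 4) (nat_lit 367) (nat_lit 251) (nat_lit 162)))) (XT.nd (nat_lit 156) (nat_lit 0) (nat_lit 0) (XT.nd (nat_lit 78) (nat_lit 0) (nat_lit 0) (XT.lf (nat_lit 0) (nat_lit 1764010336350) (nat_lit 76) (nat_lit 1358310616694) (nat_lit 76) (nat_lit 1351370210099) (nat_lit 1) (nat_lit 4) (nat_lit 2) (nat_lit 5) (nat_lit 2) (nat_lit 4) (nat_lit 368) (nat_lit 251) (nat_lit 161)) (XT.lf (nat_lit 0) (nat_lit 1913902491741) (nat_lit 76) (nat_lit 1462132106692) (nat_lit 76) (nat_lit 1455191195042) (nat_lit 1) (nat_lit 4) (nat_lit 2) (nat_lit 5) (nat_lit 2) (nat_lit 4) (nat_lit 369) (nat_lit 251) (nat_lit 160))) (XT.nd (nat_lit 78) (nat_lit 0) (nat_lit 0) (XT.lf (nat_lit 0) (nat_lit 2075784793782) (nat_lit 76) (nat_lit 1574259915074) (nat_lit 76) (nat_lit 1567318535779) (nat_lit 1) (nat_lit 4) (nat_lit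 2) (nat_lit 5) (nat_lit 2) (nat_lit 4) (nat_lit 370) (nat_lit 251) (nat_lit 159)) (XT.lf (nat_lit 0) (nat_lit 2250616545003) (nat_lit 76) (nat_lit 1695358502927) (nat_lit 76) (nat_lit 1688416690628) (nat_lit 1) (nat_lit 4) (nat_lit 2) (nat_lit 5) (nat_lit 2) (nat_lit 4) (nat_lit 371) (nat_lit 251) (nat_lit 158)))))) (XT.nd (nat_lit 624) (nat_lit 608) (nat_lit 0) (XT.nd (nat_lit 312) (nat_lit 456) (nat_lit 0) (XT.nd (nat_lit 156) (nat_lit 380) (nat_lit 0) (XT.nd (nat_lit 78) (nat_lit 0) (nat_lit 0) (XT.lf (nat_lit 0) (nat_lit 483181201) (nat_lit 228) (nat_lit 3277197789) (nat_lit 0) (nat_lit 483181201) (nat_lit 31) (nat_lit 5) (nat_lit 34) (nat_lit 4) (nat_lit 31) (nat_lit 4) (nat_lit 276) (nat_lit 252) (nat_lit 252)) (XT.lf (nat_lit 0) (nat_lit 4713027693) (nat_lit 228) (nat_lit 374852662) (nat_lit 0) (nat_lit 3684321425) (nat_lit 31) (nat_lit 5) (nat_lit 34) (nat_lit 4) (nat_lit 31)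 (nat_lit 4) (nat_lit 277) (nat_lit 252) (nat_lit 251))) (XT.nd (nat_lit 78) (nat_lit 228) (nat_lit 0) (XT.lf (nat_lit 0) (nat_lit 6286672577) (nat_lit 152) (nat_lit 2390869333) (nat_lit 152) (nat_lit 409657260) (nat_lit 29) (nat_lit 4) (nat_lit 31) (nat_lit 5) (nat_lit 31) (nat_lit 4) (nat_lit 278) (nat_lit 252) (nat_lit 250)) (XT.lf (nat_lit 0) (nat_lit 3243532409) (nat_lit 228) (nat_lit 5594020157) (nat_lit 0) (nat_lit 592456584) (nat_lit 26) (nat_lit 5) (nat_lit 29) (nat_lit 4) (nat_lit 26) (nat_lit 4) (nat_lit 279) (nat_lit 252) (nat_lit 249)))) (XT.nd (nat_lit 156) (nat_lit 228) (nat_lit 0) (XT.nd (nat_lit 78) (nat_lit 76) (nat_lit 0) (XT.lf (nat_lit 0) (nat_lit 1005747427) (nat_lit 152) (nat_lit 6102972243) (nat_lit 152) (nat_lit 2695766601) (nat_lit 24) (nat_lit 4) (nat_lit 26) (nat_lit 5) (nat_lit 26) (nat_lit 4) (nat_lit 280) (nat_lit 252) (nat_lit 248)) (XT.lf (nat_lit 0) (nat_lit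 957038393) (nat_lit 228) (nat_lit 2116685983) (nat_lit 76) (nat_lit 7138584780) (nat_lit 23) (nat_lit 5) (nat_lit 26) (nat_lit 5) (nat_lit 24) (nat_lit 4) (nat_lit 281) (nat_lit 252) (nat_lit 247))) (XT.nd (nat_lit 78) (nat_lit 152) (nat_lit 0) (XT.lf (nat_lit 0) (nat_lit 4678697580) (nat_lit 152) (nat_lit 5699651234) (nat_lit 0) (nat_lit 275377869) (nat_lit 22) (nat_lit 5) (nat_lit 24) (nat_lit 4) (nat_lit 22) (nat_lit 4) (nat_lit 282) (nat_lit 252) (nat_lit 246)) (XT.lf (nat_lit 0) (nat_lit 1244114950) (nat_lit 152) (nat_lit 7424079011) (nat_lit 152) (nat_lit 2464981312) (nat_lit 20) (nat_lit 4) (nat_lit 22) (nat_lit 5) (nat_lit 22) (nat_lit 4) (nat_lit 283) (nat_lit 252) (nat_lit 245))))) (XT.nd (nat_lit 312) (nat_lit 304) (nat_lit 0) (XT.nd (nat_lit 156) (nat_lit 152) (nat_lit 0) (XT.nd (nat_lit 78) (nat_lit 76) (nat_lit 0) (XT.lf (nat_lit 0) (nat_lit 1222330095) (nat_lit 228) (nat_lit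 2931260348) (nat_lit 76) (nat_lit 7498095023) (nat_lit 19) (nat_lit 5) (nat_lit 22) (nat_lit 5) (nat_lit 20) (nat_lit 4) (nat_lit 284) (nat_lit 252) (nat_lit 244)) (XT.lf (nat_lit 0) (nat_lit 4440979705) (nat_lit 76) (nat_lit 554778322) (nat_lit 152) (nat_lit 7217110843) (nat_lit 18) (nat_lit 5) (nat_lit 19) (nat_lit 5) (nat_lit 20) (nat_lit 4) (nat_lit 285) (nat_lit 252) (nat_lit 243))) (XT.nd (nat_lit 78) (nat_lit 152) (nat_lit 0) (XT.lf (nat_lit 0) (nat_lit 9054592427) (nat_lit 152) (nat_lit 629274219) (nat_lit 0) (nat_lit 3136637354) (nat_lit 18) (nat_lit 5) (nat_lit 20) (nat_lit 4) (nat_lit 18) (nat_lit 4) (nat_lit 286) (nat_lit 252) (nat_lit 242)) (XT.lf (nat_lit 0) (nat_lit 7146127249) (nat_lit 152) (nat_lit 6312698708) (nat_lit 152) (nat_lit 16490476) (nat_lit 16) (nat_lit 4) (nat_lit 18) (nat_lit 5) (nat_lit 18) (nat_lit 4) (nat_lit 287) (nat_lit 252) (nat_lit 241)))) (XT.nd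 (nat_lit 156) (nat_lit 152) (nat_lit 0) (XT.nd (nat_lit 78) (nat_lit 0) (nat_lit 0) (XT.lf (nat_lit 0) (nat_lit 1070946007) (nat_lit 76) (nat_lit 2639336995) (nat_lit 152) (nat_lit 10474330617) (nat_lit 14) (nat_lit 5) (nat_lit 15) (nat_lit 5) (nat_lit 16) (nat_lit 4) (nat_lit 288) (nat_lit 252) (nat_lit 240)) (XT.lf (nat_lit 0) (nat_lit 7782220062) (nat_lit 152) (nat_lit 5836906428) (nat_lit 0) (nat_lit 1327836953) (nat_lit 14) (nat_lit 5) (nat_lit 16) (nat_lit 4) (nat_lit 14) (nat_lit 4) (nat_lit 289) (nat_lit 252) (nat_lit 239))) (XT.nd (nat_lit 78) (nat_lit 76) (nat_lit 0) (XT.lf (nat_lit 0) (nat_lit 1777278167) (nat_lit 76) (nat_lit 10364330464) (nat_lit 76) (nat_lit 3631919990) (nat_lit 13) (nat_lit 4) (nat_lit 14) (nat_lit 5) (nat_lit 14) (nat_lit 4) (nat_lit 290) (nat_lit 252) (nat_lit 238)) (XT.lf (nat_lit 0) (nat_lit 189449012) (nat_lit 152) (nat_lit 6595789272) (nat_lit 76)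 (nat_lit 9879559393) (nat_lit 12) (nat_lit 5) (nat_lit 14) (nat_lit 5) (nat_lit 13) (nat_lit 4) (nat_lit 291) (nat_lit 252) (nat_lit 237))))))))
noncomputable def xc37 : XT := (XT.nd (nat_lit 2418) (nat_lit 76) (nat_lit 0) (XT.nd (nat_lit 1170) (nat_lit 228) (nat_lit 0) (XT.nd (nat_lit 546) (nat_lit 228) (nat_lit 0) (XT.nd (nat_lit 234) (nat_lit 228) (nat_lit 0) (XT.nd (nat_lit 78) (nat_lit 0) (nat_lit 0) (XT.lf (nat_lit 0) (nat_lit 1111370289) (nat_lit 76) (nat_lit 2898041806) (nat_lit 152) (nat_lit 13619410575) (nat_lit 11) (nat_lit 5) (nat_lit 12) (nat_lit 5) (nat_lit 13) (nat_lit 4) (nat_lit 292) (nat_lit 252) (nat_lit 236)) (XT.nd (nat_lit 78) (nat_lit 0) (nat_lit 0) (XT.lf (nat_lit 0) (nat_lit 8215476392) (nat_lit 152) (nat_lit 9129838975) (nat_lit 0) (nat_lit 1318333839) (nat_lit 11) (nat_lit 5) (nat_lit 13) (nat_lit 4) (nat_lit 11) (nat_lit 4) (nat_lit 293) (nat_lit 252) (nat_lit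 235)) (XT.lf (nat_lit 0) (nat_lit 12707569330) (nat_lit 152) (nat_lit 1456634027) (nat_lit 0) (nat_lit 5621206025) (nat_lit 11) (nat_lit 5) (nat_lit 13) (nat_lit 4) (nat_lit 11) (nat_lit 4) (nat_lit 294) (nat_lit 252) (nat_lit 234)))) (XT.nd (nat_lit 156) (nat_lit 76) (nat_lit 0) (XT.nd (nat_lit 78) (nat_lit 76) (nat_lit 0) (XT.lf (nat_lit 0) (nat_lit 6965788219) (nat_lit 76) (nat_lit 10644351899) (nat_lit 76) (nat_lit 3382784193) (nat_lit 10) (nat_lit 4) (nat_lit 11) (nat_lit 5) (nat_lit 11) (nat_lit 4) (nat_lit 295) (nat_lit 252) (nat_lit 233)) (XT.lf (nat_lit 0) (nat_lit 502520452) (nat_lit 152) (nat_lit 6378551461) (nat_lit 76) (nat_lit 15420882862) (nat_lit 9) (nat_lit 5) (nat_lit 11) (nat_lit 5) (nat_lit 10) (nat_lit 4) (nat_lit 296) (nat_lit 252) (nat_lit 232))) (XT.nd (nat_lit 78) (nat_lit 0) (nat_lit 0) (XT.lf (nat_lit 0) (nat_lit 1680054480) (nat_lit 76) (nat_lit 2769011874)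 (nat_lit 152) (nat_lit 19265039739) (nat_lit 8) (nat_lit 5) (nat_lit 9) (nat_lit 5) (nat_lit 10) (nat_lit 4) (nat_lit 297) (nat_lit 252) (nat_lit 231)) (XT.lf (nat_lit 0) (nat_lit 8824406144) (nat_lit 152) (nat_lit 14723193853) (nat_lit 0) (nat_lit 1682659442) (nat_lit 8) (nat_lit 5) (nat_lit 10) (nat_lit 4) (nat_lit 8) (nat_lit 4) (nat_lit 298) (nat_lit 252) (nat_lit 230))))) (XT.nd (nat_lit 312) (nat_lit 152) (nat_lit 0) (XT.nd (nat_lit 156) (nat_lit 0) (nat_lit 0) (XT.nd (nat_lit 78) (nat_lit 76) (nat_lit 0) (XT.lf (nat_lit 0) (nat_lit 13523480199) (nat_lit 152) (nat_lit 7083905909) (nat_lit 0) (nat_lit 6262492326) (nat_lit 8) (nat_lit 5) (nat_lit 10) (nat_lit 4) (nat_lit 8) (nat_lit 4) (nat_lit 299) (nat_lit 252) (nat_lit 229)) (XT.lf (nat_lit 0) (nat_lit 1048107453) (nat_lit 76) (nat_lit 17484639637) (nat_lit 76) (nat_lit 10113243272) (nat_lit 7) (nat_lit 4) (nat_lit 8) (nat_lit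 5) (nat_lit 8) (nat_lit 4) (nat_lit 300) (nat_lit 252) (nat_lit 228))) (XT.nd (nat_lit 78) (nat_lit 0) (nat_lit 0) (XT.lf (nat_lit 0) (nat_lit 10067026967) (nat_lit 76) (nat_lit 13981206232) (nat_lit 76) (nat_lit 6507579782) (nat_lit 7) (nat_lit 4) (nat_lit 8) (nat_lit 5) (nat_lit 8) (nat_lit 4) (nat_lit 301) (nat_lit 252) (nat_lit 227)) (XT.lf (nat_lit 0) (nat_lit 19653272149) (nat_lit 76) (nat_lit 10270011350) (nat_lit 76) (nat_lit 2701727414) (nat_lit 7) (nat_lit 4) (nat_lit 8) (nat_lit 5) (nat_lit 8) (nat_lit 4) (nat_lit 302) (nat_lit 252) (nat_lit 226)))) (XT.nd (nat_lit 156) (nat_lit 0) (nat_lit 0) (XT.nd (nat_lit 78) (nat_lit 76) (nat_lit 0) (XT.lf (nat_lit 0) (nat_lit 1260491769) (nat_lit 152) (nat_lit 5034106877) (nat_lit 76) (nat_lit 28568694530) (nat_lit 6) (nat_lit 5) (nat_lit 8) (nat_lit 5) (nat_lit 7) (nat_lit 4) (nat_lit 303) (nat_lit 252) (nat_lit 225)) (XT.lf (nat_lit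 0) (nat_lit 3507815164) (nat_lit 76) (nat_lit 1898386017) (nat_lit 152) (nat_lit 31867868844) (nat_lit 5) (nat_lit 5) (nat_lit 6) (nat_lit 5) (nat_lit 7) (nat_lit 4) (nat_lit 304) (nat_lit 252) (nat_lit 224))) (XT.nd (nat_lit 78) (nat_lit 0) (nat_lit 0) (XT.lf (nat_lit 0) (nat_lit 10022053558) (nat_lit 152) (nat_lit 27056105913) (nat_lit 0) (nat_lit 2788511467) (nat_lit 5) (nat_lit 5) (nat_lit 7) (nat_lit 4) (nat_lit 5) (nat_lit 4) (nat_lit 305) (nat_lit 252) (nat_lit 223)) (XT.lf (nat_lit 0) (nat_lit 14990500070) (nat_lit 152) (nat_lit 19985015887) (nat_lit 0) (nat_lit 7692535685) (nat_lit 5) (nat_lit 5) (nat_lit 7) (nat_lit 4) (nat_lit 5) (nat_lit 4) (nat_lit 306) (nat_lit 252) (nat_lit 222)))))) (XT.nd (nat_lit 624) (nat_lit 152) (nat_lit 0) (XT.nd (nat_lit 312) (nat_lit 0) (nat_lit 0) (XT.nd (nat_lit 156) (nat_lit 76) (nat_lit 0) (XT.nd (nat_lit 78) (nat_lit 0) (nat_lit 0) (XT.lf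 (nat_lit 0) (nat_lit 20295327133) (nat_lit 152) (nat_lit 12465425795) (nat_lit 0) (nat_lit 12937712475) (nat_lit 5) (nat_lit 5) (nat_lit 7) (nat_lit 4) (nat_lit 5) (nat_lit 4) (nat_lit 307) (nat_lit 252) (nat_lit 221)) (XT.lf (nat_lit 0) (nat_lit 25967970760) (nat_lit 152) (nat_lit 4452775106) (nat_lit 0) (nat_lit 18555124368) (nat_lit 5) (nat_lit 5) (nat_lit 7) (nat_lit 4) (nat_lit 5) (nat_lit 4) (nat_lit 308) (nat_lit 252) (nat_lit 220))) (XT.nd (nat_lit 78) (nat_lit 0) (nat_lit 0) (XT.lf (nat_lit 0) (nat_lit 4316339330) (nat_lit 76) (nat_lit 27829515351) (nat_lit 76) (nat_lit 20365528465) (nat_lit 4) (nat_lit 4) (nat_lit 5) (nat_lit 5) (nat_lit 5) (nat_lit 4) (nat_lit 309) (nat_lit 252) (nat_lit 219)) (XT.lf (nat_lit 0) (nat_lit 13942290626) (nat_lit 76) (nat_lit 24946571025) (nat_lit 76) (nat_lit 17435231829) (nat_lit 4) (nat_lit 4) (nat_lit 5) (nat_lit 5) (nat_lit 5) (nat_lit 4)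 (nat_lit 310) (nat_lit 252) (nat_lit 218)))) (XT.nd (nat_lit 156) (nat_lit 0) (nat_lit 0) (XT.nd (nat_lit 78) (nat_lit 0) (nat_lit 0) (XT.lf (nat_lit 0) (nat_lit 24247646210) (nat_lit 76) (nat_lit 21876575536) (nat_lit 76) (nat_lit 14321391609) (nat_lit 4) (nat_lit 4) (nat_lit 5) (nat_lit 5) (nat_lit 5) (nat_lit 4) (nat_lit 311) (nat_lit 252) (nat_lit 217)) (XT.lf (nat_lit 0) (nat_lit 35293474855) (nat_lit 76) (nat_lit 18601336319) (nat_lit 76) (nat_lit 11005555418) (nat_lit 4) (nat_lit 4) (nat_lit 5) (nat_lit 5) (nat_lit 5) (nat_lit 4) (nat_lit 312) (nat_lit 252) (nat_lit 216))) (XT.nd (nat_lit 78) (nat_lit 0) (nat_lit 0) (XT.lf (nat_lit 0) (nat_lit 47145233323) (nat_lit 76) (nat_lit 15101444548) (nat_lit 76) (nat_lit 7468073857) (nat_lit 4) (nat_lit 4) (nat_lit 5) (nat_lit 5) (nat_lit 5) (nat_lit 4) (nat_lit 313) (nat_lit 252) (nat_lit 215)) (XT.lf (nat_lit 0) (nat_lit 59873154259)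 (nat_lit 76) (nat_lit 11356160124) (nat_lit 76) (nat_lit 3687984072) (nat_lit 4) (nat_lit 4) (nat_lit 5) (nat_lit 5) (nat_lit 5) (nat_lit 4) (nat_lit 314) (nat_lit 252) (nat_lit 214))))) (XT.nd (nat_lit 312) (nat_lit 0) (nat_lit 0) (XT.nd (nat_lit 156) (nat_lit 0) (nat_lit 0) (XT.nd (nat_lit 78) (nat_lit 76) (nat_lit 0) (XT.lf (nat_lit 0) (nat_lit 339250156) (nat_lit 152) (nat_lit 6994762912) (nat_lit 76) (nat_lit 73204136520) (nat_lit 3) (nat_lit 5) (nat_lit 5) (nat_lit 5) (nat_lit 4) (nat_lit 4) (nat_lit 315) (nat_lit 252) (nat_lit 213)) (XT.lf (nat_lit 0) (nat_lit 1620376723) (nat_lit 76) (nat_lit 2875113636) (nat_lit 152) (nat_lit 82105045384) (nat_lit 2) (nat_lit 5) (nat_lit 3) (nat_lit 5) (nat_lit 4) (nat_lit 4) (nat_lit 316) (nat_lit 252) (nat_lit 212))) (XT.nd (nat_lit 78) (nat_lit 0) (nat_lit 0) (XT.lf (nat_lit 0) (nat_lit 9194449581) (nat_lit 152) (nat_lit 81925426647) (nat_lit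 0) (nat_lit 2011233985) (nat_lit 2) (nat_lit 5) (nat_lit 4) (nat_lit 4) (nat_lit 2) (nat_lit 4) (nat_lit 317) (nat_lit 252) (nat_lit 211)) (XT.lf (nat_lit 0) (nat_lit 14313757572) (nat_lit 152) (nat_lit 78759978367) (nat_lit 0) (nat_lit 7106854033) (nat_lit 2) (nat_lit 5) (nat_lit 4) (nat_lit 4) (nat_lit 2) (nat_lit 4) (nat_lit 318) (nat_lit 252) (nat_lit 210)))) (XT.nd (nat_lit 156) (nat_lit 0) (nat_lit 0) (XT.nd (nat_lit 78) (nat_lit 0) (nat_lit 0) (XT.lf (nat_lit 0) (nat_lit 19814604423) (nat_lit 152) (nat_lit 75395909417) (nat_lit 0) (nat_lit 12585767602) (nat_lit 2) (nat_lit 5) (nat_lit 4) (nat_lit 4) (nat_lit 2) (nat_lit 4) (nat_lit 319) (nat_lit 252) (nat_lit 209)) (XT.lf (nat_lit 0) (nat_lit 25729587744) (nat_lit 152) (nat_lit 71813284572) (nat_lit 0) (nat_lit 18480442329) (nat_lit 2) (nat_lit 5) (nat_lit 4) (nat_lit 4) (nat_lit 2) (nat_lit 4) (nat_lit 320) (nat_lit 252) (nat_lit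 208))) (XT.nd (nat_lit 78) (nat_lit 0) (nat_lit 0) (XT.lf (nat_lit 0) (nat_lit 32093759287) (nat_lit 152) (nat_lit 67990873463) (nat_lit 0) (nat_lit 24825809618) (nat_lit 2) (nat_lit 5) (nat_lit 4) (nat_lit 4) (nat_lit 2) (nat_lit 4) (nat_lit 321) (nat_lit 252) (nat_lit 207)) (XT.lf (nat_lit 0) (nat_lit 38944832662) (nat_lit 152) (nat_lit 63906024766) (nat_lit 0) (nat_lit 31659471648) (nat_lit 2) (nat_lit 5) (nat_lit 4) (nat_lit 4) (nat_lit 2) (nat_lit 4) (nat_lit 322) (nat_lit 252) (nat_lit 206))))))) (XT.nd (nat_lit 1248) (nat_lit 0) (nat_lit 0) (XT.nd (nat_lit 624) (nat_lit 76) (nat_lit 0) (XT.nd (nat_lit 312) (nat_lit 0) (nat_lit 0) (XT.nd (nat_lit 156) (nat_lit 0) (nat_lit 0) (XT.nd (nat_lit 78) (nat_lit 0) (nat_lit 0) (XT.lf (nat_lit 0) (nat_lit 46323406823) (nat_lit 152) (nat_lit 59534531969) (nat_lit 0) (nat_lit 39021924192) (nat_lit 2) (nat_lit 5) (nat_lit 4) (nat_lit 4) (nat_lit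 2) (nat_lit 4) (nat_lit 323) (nat_lit 252) (nat_lit 205)) (XT.lf (nat_lit 0) (nat_lit 54273206652) (nat_lit 152) (nat_lit 54850489930) (nat_lit 0) (nat_lit 46956796598) (nat_lit 2) (nat_lit 5) (nat_lit 4) (nat_lit 4) (nat_lit 2) (nat_lit 4) (nat_lit 324) (nat_lit 252) (nat_lit 204))) (XT.nd (nat_lit 78) (nat_lit 0) (nat_lit 0) (XT.lf (nat_lit 0) (nat_lit 62841342076) (nat_lit 152) (nat_lit 49826141362) (nat_lit 0) (nat_lit 55511110334) (nat_lit 2) (nat_lit 5) (nat_lit 4) (nat_lit 4) (nat_lit 2) (nat_lit 4) (nat_lit 325) (nat_lit 252) (nat_lit 203)) (XT.lf (nat_lit 0) (nat_lit 72078587230) (nat_lit 152) (nat_lit 44431712349) (nat_lit 0) (nat_lit 64735557629) (nat_lit 2) (nat_lit 5) (nat_lit 4) (nat_lit 4) (nat_lit 2) (nat_lit 4) (nat_lit 326) (nat_lit 252) (nat_lit 202)))) (XT.nd (nat_lit 156) (nat_lit 0) (nat_lit 0) (XT.nd (nat_lit 78) (nat_lit 0) (nat_lit 0) (XT.lf (nat_lit 0) (nat_lit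 82039681344) (nat_lit 152) (nat_lit 38635235903) (nat_lit 0) (nat_lit 74684801874) (nat_lit 2) (nat_lit 5) (nat_lit 4) (nat_lit 4) (nat_lit 2) (nat_lit 4) (nat_lit 327) (nat_lit 252) (nat_lit 201)) (XT.lf (nat_lit 0) (nat_lit 92783653125) (nat_lit 152) (nat_lit 32402362535) (nat_lit 0) (nat_lit 85417801553) (nat_lit 2) (nat_lit 5) (nat_lit 4) (nat_lit 4) (nat_lit 2) (nat_lit 4) (nat_lit 328) (nat_lit 252) (nat_lit 200))) (XT.nd (nat_lit 78) (nat_lit 0) (nat_lit 0) (XT.lf (nat_lit 0) (nat_lit 104374170553) (nat_lit 152) (nat_lit 25696156698) (nat_lit 0) (nat_lit 96998159628) (nat_lit 2) (nat_lit 5) (nat_lit 4) (nat_lit 4) (nat_lit 2) (nat_lit 4) (nat_lit 329) (nat_lit 252) (nat_lit 199)) (XT.lf (nat_lit 0) (nat_lit 116879918176) (nat_lit 152) (nat_lit 18476877914) (nat_lit 0) (nat_lit 109494500443) (nat_lit 2) (nat_lit 5) (nat_lit 4) (nat_lit 4) (nat_lit 2) (nat_lit 4) (nat_lit 330) (nat_lit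 252) (nat_lit 198))))) (XT.nd (nat_lit 312) (nat_lit 0) (nat_lit 0) (XT.nd (nat_lit 156) (nat_lit 76) (nat_lit 0) (XT.nd (nat_lit 78) (nat_lit 0) (nat_lit 0) (XT.lf (nat_lit 0) (nat_lit 130375004128) (nat_lit 152) (nat_lit 10701745271) (nat_lit 0) (nat_lit 122980876387) (nat_lit 2) (nat_lit 5) (nat_lit 4) (nat_lit 4) (nat_lit 2) (nat_lit 4) (nat_lit 331) (nat_lit 252) (nat_lit 197)) (XT.lf (nat_lit 0) (nat_lit 144939399289) (nat_lit 152) (nat_lit 2324683910) (nat_lit 0) (nat_lit 137537206725) (nat_lit 2) (nat_lit 5) (nat_lit 4) (nat_lit 4) (nat_lit 2) (nat_lit 4) (nat_lit 332) (nat_lit 252) (nat_lit 196))) (XT.nd (nat_lit 78) (nat_lit 0) (nat_lit 0) (XT.lf (nat_lit 0) (nat_lit 7056966037) (nat_lit 76) (nat_lit 153772165350) (nat_lit 76) (nat_lit 146362505359) (nat_lit 1) (nat_lit 4) (nat_lit 2) (nat_lit 5) (nat_lit 2) (nat_lit 4) (nat_lit 333) (nat_lit 252) (nat_lit 195)) (XT.lf (nat_lit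 0) (nat_lit 17303231213) (nat_lit 76) (nat_lit 160741107357) (nat_lit 76) (nat_lit 153324533081) (nat_lit 1) (nat_lit 4) (nat_lit 2) (nat_lit 5) (nat_lit 2) (nat_lit 4) (nat_lit 334) (nat_lit 252) (nat_lit 194)))) (XT.nd (nat_lit 156) (nat_lit 0) (nat_lit 0) (XT.nd (nat_lit 78) (nat_lit 0) (nat_lit 0) (XT.lf (nat_lit 0) (nat_lit 28352416489) (nat_lit 76) (nat_lit 168275767631) (nat_lit 76) (nat_lit 160852791239) (nat_lit 1) (nat_lit 4) (nat_lit 2) (nat_lit 5) (nat_lit 2) (nat_lit 4) (nat_lit 335) (nat_lit 252) (nat_lit 193)) (XT.lf (nat_lit 0) (nat_lit 40269998520) (nat_lit 76) (nat_lit 176420796010) (nat_lit 76) (nat_lit 168991891733) (nat_lit 1) (nat_lit 4) (nat_lit 2) (nat_lit 5) (nat_lit 2) (nat_lit 4) (nat_lit 336) (nat_lit 252) (nat_lit 192))) (XT.nd (nat_lit 78) (nat_lit 0) (nat_lit 0) (XT.lf (nat_lit 0) (nat_lit 53126600014) (nat_lit 76) (nat_lit 185224459330) (nat_lit 76) (nat_lit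 177790066271) (nat_lit 1) (nat_lit 4) (nat_lit 2) (nat_lit 5) (nat_lit 2) (nat_lit 4) (nat_lit 337) (nat_lit 252) (nat_lit 191)) (XT.lf (nat_lit 0) (nat_lit 66998408238) (nat_lit 76) (nat_lit 194738927447) (nat_lit 76) (nat_lit 187299452182) (nat_lit 1) (nat_lit 4) (nat_lit 2) (nat_lit 5) (nat_lit 2) (nat_lit 4) (nat_lit 338) (nat_lit 252) (nat_lit 190)))))) (XT.nd (nat_lit 624) (nat_lit 0) (nat_lit 0) (XT.nd (nat_lit 312) (nat_lit 0) (nat_lit 0) (XT.nd (nat_lit 156) (nat_lit 0) (nat_lit 0) (XT.nd (nat_lit 78) (nat_lit 0) (nat_lit 0) (XT.lf (nat_lit 0) (nat_lit 81967626502) (nat_lit 76) (nat_lit 205020582395) (nat_lit 76) (nat_lit 197576401383) (nat_lit 1) (nat_lit 4) (nat_lit 2) (nat_lit 5) (nat_lit 2) (nat_lit 4) (nat_lit 339) (nat_lit 252) (nat_lit 189)) (XT.lf (nat_lit 0) (nat_lit 98122961283) (nat_lit 76) (nat_lit 216130352498) (nat_lit 76) (nat_lit 208681814314) (nat_lit 1) (nat_lit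 4) (nat_lit 2) (nat_lit 5) (nat_lit 2) (nat_lit 4) (nat_lit 340) (nat_lit 252) (nat_lit 188))) (XT.nd (nat_lit 78) (nat_lit 0) (nat_lit 0) (XT.lf (nat_lit 0) (nat_lit 115560147899) (nat_lit 76) (nat_lit 228134073433) (nat_lit 76) (nat_lit 220681500830) (nat_lit 1) (nat_lit 4) (nat_lit 2) (nat_lit 5) (nat_lit 2) (nat_lit 4) (nat_lit 341) (nat_lit 252) (nat_lit 187)) (XT.lf (nat_lit 0) (nat_lit 134382517826) (nat_lit 76) (nat_lit 241102878359) (nat_lit 76) (nat_lit 233646570183) (nat_lit 1) (nat_lit 4) (nat_lit 2) (nat_lit 5) (nat_lit 2) (nat_lit 4) (nat_lit 342) (nat_lit 252) (nat_lit 186)))) (XT.nd (nat_lit 156) (nat_lit 0) (nat_lit 0) (XT.nd (nat_lit 78) (nat_lit 0) (nat_lit 0) (XT.lf (nat_lit 0) (nat_lit 154701611034) (nat_lit 76) (nat_lit 255113619455) (nat_lit 76) (nat_lit 247653852415) (nat_lit 1) (nat_lit 4) (nat_lit 2) (nat_lit 5) (nat_lit 2) (nat_lit 4) (nat_lit 343) (nat_lit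 252) (nat_lit 185)) (XT.lf (nat_lit 0) (nat_lit 176637836964) (nat_lit 76) (nat_lit 270249323334) (nat_lit 76) (nat_lit 262786353642) (nat_lit 1) (nat_lit 4) (nat_lit 2) (nat_lit 5) (nat_lit 2) (nat_lit 4) (nat_lit 344) (nat_lit 252) (nat_lit 184))) (XT.nd (nat_lit 78) (nat_lit 0) (nat_lit 0) (XT.lf (nat_lit 0) (nat_lit 200321188066) (nat_lit 76) (nat_lit 286599683056) (nat_lit 76) (nat_lit 279133747946) (nat_lit 1) (nat_lit 4) (nat_lit 2) (nat_lit 5) (nat_lit 2) (nat_lit 4) (nat_lit 345) (nat_lit 252) (nat_lit 183)) (XT.lf (nat_lit 0) (nat_lit 225892010125) (nat_lit 76) (nat_lit 304261589641) (nat_lit 76) (nat_lit 296792908774) (nat_lit 1) (nat_lit 4) (nat_lit 2) (nat_lit 5) (nat_lit 2) (nat_lit 4) (nat_lit 346) (nat_lit 252) (nat_lit 182))))) (XT.nd (nat_lit 312) (nat_lit 0) (nat_lit 0) (XT.nd (nat_lit 156) (nat_lit 0) (nat_lit 0) (XT.nd (nat_lit 78) (nat_lit 0) (nat_lit 0) (XT.lf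 (nat_lit 0) (nat_lit 253501833937) (nat_lit 76) (nat_lit 323339706241) (nat_lit 76) (nat_lit 315868483005) (nat_lit 1) (nat_lit 4) (nat_lit 2) (nat_lit 5) (nat_lit 2) (nat_lit 4) (nat_lit 347) (nat_lit 252) (nat_lit 181)) (XT.lf (nat_lit 0) (nat_lit 283314273274) (nat_lit 76) (nat_lit 343947088360) (nat_lit 76) (nat_lit 336473511079) (nat_lit 1) (nat_lit 4) (nat_lit 2) (nat_lit 5) (nat_lit 2) (nat_lit 4) (nat_lit 348) (nat_lit 252) (nat_lit 180))) (XT.nd (nat_lit 78) (nat_lit 0) (nat_lit 0) (XT.lf (nat_lit 0) (nat_lit 315505994443) (nat_lit 76) (nat_lit 366205853819) (nat_lit 76) (nat_lit 358730096867) (nat_lit 1) (nat_lit 4) (nat_lit 2) (nat_lit 5) (nat_lit 2) (nat_lit 4) (nat_lit 349) (nat_lit 252) (nat_lit 179)) (XT.lf (nat_lit 0) (nat_lit 350267763199) (nat_lit 76) (nat_lit 390247906413) (nat_lit 76) (nat_lit 382770131247) (nat_lit 1) (nat_lit 4) (nat_lit 2) (nat_lit 5) (nat_lit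 2) (nat_lit 4) (nat_lit 350) (nat_lit 252) (nat_lit 178)))) (XT.nd (nat_lit 156) (nat_lit 0) (nat_lit 0) (XT.nd (nat_lit 78) (nat_lit 0) (nat_lit 0) (XT.lf (nat_lit 0) (nat_lit 387805575208) (nat_lit 76) (nat_lit 416215717564) (nat_lit 76) (nat_lit 408736073682) (nat_lit 1) (nat_lit 4) (nat_lit 2) (nat_lit 5) (nat_lit 2) (nat_lit 4) (nat_lit 351) (nat_lit 252) (nat_lit 177)) (XT.lf (nat_lit 0) (nat_lit 428341876764) (nat_lit 76) (nat_lit 444263170599) (nat_lit 76) (nat_lit 436781796423) (nat_lit 1) (nat_lit 4) (nat_lit 2) (nat_lit 5) (nat_lit 2) (nat_lit 4) (nat_lit 352) (nat_lit 252) (nat_lit 176))) (XT.nd (nat_lit 78) (nat_lit 0) (nat_lit 0) (XT.lf (nat_lit 0) (nat_lit 472116882987) (nat_lit 76) (nat_lit 474556472645) (nat_lit 76) (nat_lit 467073496347) (nat_lit 1) (nat_lit 4) (nat_lit 2) (nat_lit 5) (nat_lit 2) (nat_lit 4) (nat_lit 353) (nat_lit 252) (nat_lit 175)) (XT.lf (nat_lit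 0) (nat_lit 519390001322) (nat_lit 76) (nat_lit 507275139568) (nat_lit 76) (nat_lit 499790679822) (nat_lit 1) (nat_lit 4) (nat_lit 2) (nat_lit 5) (nat_lit 2) (nat_lit 4) (nat_lit 354) (nat_lit 252) (nat_lit 174))))))))
noncomputable def xc38 : XT := (XT.nd (nat_lit 35412) (nat_lit 0) (nat_lit 76) (XT.nd (nat_lit 1170) (nat_lit 0) (nat_lit 0) (XT.nd (nat_lit 546) (nat_lit 0) (nat_lit 0) (XT.nd (nat_lit 234) (nat_lit 0) (nat_lit 0) (XT.nd (nat_lit 78) (nat_lit 0) (nat_lit 0) (XT.lf (nat_lit 0) (nat_lit 570441368766) (nat_lit 76) (nat_lit 542613059764) (nat_lit 76) (nat_lit 535127226455) (nat_lit 1) (nat_lit 4) (nat_lit 2) (nat_lit 5) (nat_lit 2) (nat_lit 4) (nat_lit 355) (nat_lit 252) (nat_lit 173)) (XT.nd (nat_lit 78) (nat_lit 0) (nat_lit 0) (XT.lf (nat_lit 0) (nat_lit 625573511941) (nat_lit 76) (nat_lit 580779643129) (nat_lit 76) (nat_lit 573292538004) (nat_lit 1) (nat_lit 4) (nat_lit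 2) (nat_lit 5) (nat_lit 2) (nat_lit 4) (nat_lit 356) (nat_lit 252) (nat_lit 172)) (XT.lf (nat_lit 0) (nat_lit 685113139843) (nat_lit 76) (nat_lit 622001062011) (nat_lit 76) (nat_lit 614512779277) (nat_lit 1) (nat_lit 4) (nat_lit 2) (nat_lit 5) (nat_lit 2) (nat_lit 4) (nat_lit 357) (nat_lit 252) (nat_lit 171)))) (XT.nd (nat_lit 156) (nat_lit 0) (nat_lit 0) (XT.nd (nat_lit 78) (nat_lit 0) (nat_lit 0) (XT.lf (nat_lit 0) (nat_lit 749413079898) (nat_lit 76) (nat_lit 666521591484) (nat_lit 76) (nat_lit 659032218371) (nat_lit 1) (nat_lit 4) (nat_lit 2) (nat_lit 5) (nat_lit 2) (nat_lit 4) (nat_lit 358) (nat_lit 252) (nat_lit 170)) (XT.lf (nat_lit 0) (nat_lit 818854368786) (nat_lit 76) (nat_lit 714605056907) (nat_lit 76) (nat_lit 707114674185) (nat_lit 1) (nat_lit 4) (nat_lit 2) (nat_lit 5) (nat_lit 2) (nat_lit 4) (nat_lit 359) (nat_lit 252) (nat_lit 169))) (XT.nd (nat_lit 78) (nat_lit 0) (nat_lit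 0) (XT.lf (nat_lit 0) (nat_lit 893848510443) (nat_lit 76) (nat_lit 766536397335) (nat_lit 76) (nat_lit 759045079790) (nat_lit 1) (nat_lit 4) (nat_lit 2) (nat_lit 5) (nat_lit 2) (nat_lit 4) (nat_lit 360) (nat_lit 252) (nat_lit 168)) (XT.lf (nat_lit 0) (nat_lit 974839914596) (nat_lit 76) (nat_lit 822623354045) (nat_lit 76) (nat_lit 815131170923) (nat_lit 1) (nat_lit 4) (nat_lit 2) (nat_lit 5) (nat_lit 2) (nat_lit 4) (nat_lit 361) (nat_lit 252) (nat_lit 167))))) (XT.nd (nat_lit 312) (nat_lit 0) (nat_lit 0) (XT.nd (nat_lit 156) (nat_lit 0) (nat_lit 0) (XT.nd (nat_lit 78) (nat_lit 0) (nat_lit 0) (XT.lf (nat_lit 0) (nat_lit 1062308530307) (nat_lit 76) (nat_lit 883198294188) (nat_lit 76) (nat_lit 875705309605) (nat_lit 1) (nat_lit 4) (nat_lit 2) (nat_lit 5) (nat_lit 2) (nat_lit 4) (nat_lit 362) (nat_lit 252) (nat_lit 166)) (XT.lf (nat_lit 0) (nat_lit 1156772690114) (nat_lit 76) (nat_lit 948620180371)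 (nat_lit 76) (nat_lit 941126453695) (nat_lit 1) (nat_lit 4) (nat_lit 2) (nat_lit 5) (nat_lit 2) (nat_lit 4) (nat_lit 363) (nat_lit 252) (nat_lit 165))) (XT.nd (nat_lit 78) (nat_lit 0) (nat_lit 0) (XT.lf (nat_lit 0) (nat_lit 1258792181630) (nat_lit 76) (nat_lit 1019276697847) (nat_lit 76) (nat_lit 1011782284048) (nat_lit 1) (nat_lit 4) (nat_lit 2) (nat_lit 5) (nat_lit 2) (nat_lit 4) (nat_lit 364) (nat_lit 252) (nat_lit 164)) (XT.lf (nat_lit 0) (nat_lit 1368971564805) (nat_lit 76) (nat_lit 1095586551904) (nat_lit 76) (nat_lit 1088091501880) (nat_lit 1) (nat_lit 4) (nat_lit 2) (nat_lit 5) (nat_lit 2) (nat_lit 4) (nat_lit 365) (nat_lit 252) (nat_lit 163)))) (XT.nd (nat_lit 156) (nat_lit 0) (nat_lit 0) (XT.nd (nat_lit 78) (nat_lit 0) (nat_lit 0) (XT.lf (nat_lit 0) (nat_lit 1487963754503) (nat_lit 76) (nat_lit 1178001949084) (nat_lit 76) (nat_lit 1170506309962) (nat_lit 1) (nat_lit 4) (nat_lit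 2) (nat_lit 5) (nat_lit 2) (nat_lit 4) (nat_lit 366) (nat_lit 252) (nat_lit 162)) (XT.lf (nat_lit 0) (nat_lit 1616473889625) (nat_lit 76) (nat_lit 1267011276927) (nat_lit 76) (nat_lit 1259515092345) (nat_lit 1) (nat_lit 4) (nat_lit 2) (nat_lit 5) (nat_lit 2) (nat_lit 4) (nat_lit 367) (nat_lit 252) (nat_lit 161))) (XT.nd (nat_lit 78) (nat_lit 0) (nat_lit 0) (XT.lf (nat_lit 0) (nat_lit 1755263511712) (nat_lit 76) (nat_lit 1363141998116) (nat_lit 76) (nat_lit 1355645308477) (nat_lit 1) (nat_lit 4) (nat_lit 2) (nat_lit 5) (nat_lit 2) (nat_lit 4) (nat_lit 368) (nat_lit 252) (nat_lit 160)) (XT.lf (nat_lit 0) (nat_lit 1905155077785) (nat_lit 76) (nat_lit 1466963776183) (nat_lit 76) (nat_lit 1459466618900) (nat_lit 1) (nat_lit 4) (nat_lit 2) (nat_lit 5) (nat_lit 2) (nat_lit 4) (nat_lit 369) (nat_lit 252) (nat_lit 159)))))) (XT.nd (nat_lit 33618) (nat_lit 0) (nat_lit 1140) (XT.nd (nat_lit 33306)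 (nat_lit 0) (nat_lit 1900) (XT.nd (nat_lit 33150) (nat_lit 0) (nat_lit 2508) (XT.nd (nat_lit 78) (nat_lit 0) (nat_lit 0) (XT.lf (nat_lit 0) (nat_lit 2067036834161) (nat_lit 76) (nat_lit 1579091851296) (nat_lit 76) (nat_lit 1571594261009) (nat_lit 1) (nat_lit 4) (nat_lit 2) (nat_lit 5) (nat_lit 2) (nat_lit 4) (nat_lit 370) (nat_lit 252) (nat_lit 158)) (XT.lf (nat_lit 0) (nat_lit 2241868080136) (nat_lit 76) (nat_lit 1700190686122) (nat_lit 76) (nat_lit 1692692694905) (nat_lit 1) (nat_lit 4) (nat_lit 2) (nat_lit 5) (nat_lit 2) (nat_lit 4) (nat_lit 371) (nat_lit 252) (nat_lit 157))) (XT.nd (nat_lit 78) (nat_lit 228) (nat_lit 0) (XT.lf (nat_lit 0) (nat_lit 1496497036) (nat_lit 304) (nat_lit 997656279) (nat_lit 0) (nat_lit 1496497036) (nat_lit 37) (nat_lit 5) (nat_lit 41) (nat_lit 4) (nat_lit 37) (nat_lit 4) (nat_lit 274) (nat_lit 253) (nat_lit 253)) (XT.lf (nat_lit 0) (nat_lit 3975049925)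 (nat_lit 228) (nat_lit 2725092432) (nat_lit 228) (nat_lit 1525209440) (nat_lit 34) (nat_lit 4) (nat_lit 37) (nat_lit 5) (nat_lit 37) (nat_lit 4) (nat_lit 275) (nat_lit 253) (nat_lit 252)))) (XT.nd (nat_lit 156) (nat_lit 380) (nat_lit 0) (XT.nd (nat_lit 78) (nat_lit 0) (nat_lit 0) (XT.lf (nat_lit 0) (nat_lit 1767964271) (nat_lit 152) (nat_lit 193021321) (nat_lit 228) (nat_lit 6535735274) (nat_lit 31) (nat_lit 5) (nat_lit 33) (nat_lit 5) (nat_lit 34) (nat_lit 4) (nat_lit 276) (nat_lit 253) (nat_lit 251)) (XT.lf (nat_lit 0) (nat_lit 5590951540) (nat_lit 228) (nat_lit 701718595) (nat_lit 0) (nat_lit 2498736698) (nat_lit 31) (nat_lit 5) (nat_lit 34) (nat_lit 4) (nat_lit 31) (nat_lit 4) (nat_lit 277) (nat_lit 253) (nat_lit 250))) (XT.nd (nat_lit 78) (nat_lit 152) (nat_lit 0) (XT.lf (nat_lit 0) (nat_lit 307640337) (nat_lit 228) (nat_lit 3334272759) (nat_lit 76) (nat_lit 5473374018) (nat_lit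 28) (nat_lit 5) (nat_lit 31) (nat_lit 5) (nat_lit 29) (nat_lit 4) (nat_lit 278) (nat_lit 253) (nat_lit 249)) (XT.lf (nat_lit 0) (nat_lit 3124779237) (nat_lit 152) (nat_lit 680780426) (nat_lit 228) (nat_lit 5662744702) (nat_lit 26) (nat_lit 5) (nat_lit 28) (nat_lit 5) (nat_lit 29) (nat_lit 4) (nat_lit 279) (nat_lit 253) (nat_lit 248))))) (XT.nd (nat_lit 312) (nat_lit 456) (nat_lit 0) (XT.nd (nat_lit 156) (nat_lit 76) (nat_lit 0) (XT.nd (nat_lit 78) (nat_lit 76) (nat_lit 0) (XT.lf (nat_lit 0) (nat_lit 75431433) (nat_lit 152) (nat_lit 7457310025) (nat_lit 152) (nat_lit 2321277914) (nat_lit 24) (nat_lit 4) (nat_lit 26) (nat_lit 5) (nat_lit 26) (nat_lit 4) (nat_lit 280) (nat_lit 253) (nat_lit 247)) (XT.lf (nat_lit 0) (nat_lit 1214703690) (nat_lit 228) (nat_lit 3257707881) (nat_lit 76) (nat_lit 5796726644) (nat_lit 23) (nat_lit 5) (nat_lit 26) (nat_lit 5) (nat_lit 24) (nat_lit 4) (nat_lit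 281) (nat_lit 253) (nat_lit 246))) (XT.nd (nat_lit 78) (nat_lit 0) (nat_lit 0) (XT.lf (nat_lit 0) (nat_lit 3612184651) (nat_lit 76) (nat_lit 1193929019) (nat_lit 152) (nat_lit 5915018748) (nat_lit 22) (nat_lit 5) (nat_lit 23) (nat_lit 5) (nat_lit 24) (nat_lit 4) (nat_lit 282) (nat_lit 253) (nat_lit 245)) (XT.lf (nat_lit 0) (nat_lit 8648375188) (nat_lit 152) (nat_lit 341967301) (nat_lit 0) (nat_lit 2222162437) (nat_lit 22) (nat_lit 5) (nat_lit 24) (nat_lit 4) (nat_lit 22) (nat_lit 4) (nat_lit 283) (nat_lit 253) (nat_lit 244)))) (XT.nd (nat_lit 156) (nat_lit 152) (nat_lit 0) (XT.nd (nat_lit 78) (nat_lit 76) (nat_lit 0) (XT.lf (nat_lit 0) (nat_lit 1031518322) (nat_lit 228) (nat_lit 4757144685) (nat_lit 76) (nat_lit 5950397151) (nat_lit 19) (nat_lit 5) (nat_lit 22) (nat_lit 5) (nat_lit 20) (nat_lit 4) (nat_lit 284) (nat_lit 253) (nat_lit 243)) (XT.lf (nat_lit 0) (nat_lit 2378220933) (nat_lit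 76) (nat_lit 2295874362) (nat_lit 152) (nat_lit 7636731551) (nat_lit 18) (nat_lit 5) (nat_lit 19) (nat_lit 5) (nat_lit 20) (nat_lit 4) (nat_lit 285) (nat_lit 253) (nat_lit 242))) (XT.nd (nat_lit 78) (nat_lit 152) (nat_lit 0) (XT.lf (nat_lit 0) (nat_lit 8611449573) (nat_lit 152) (nat_lit 2883545967) (nat_lit 0) (nat_lit 1433291522) (nat_lit 18) (nat_lit 5) (nat_lit 20) (nat_lit 4) (nat_lit 18) (nat_lit 4) (nat_lit 286) (nat_lit 253) (nat_lit 241)) (XT.lf (nat_lit 0) (nat_lit 4641149712) (nat_lit 152) (nat_lit 8240578694) (nat_lit 152) (nat_lit 712186236) (nat_lit 16) (nat_lit 4) (nat_lit 18) (nat_lit 5) (nat_lit 18) (nat_lit 4) (nat_lit 287) (nat_lit 253) (nat_lit 240))))))) (XT.nd (nat_lit 1248) (nat_lit 380) (nat_lit 0) (XT.nd (nat_lit 624) (nat_lit 228) (nat_lit 0) (XT.nd (nat_lit 312) (nat_lit 228) (nat_lit 0) (XT.nd (nat_lit 156) (nat_lit 76) (nat_lit 0) (XT.nd (nat_lit 78) (nat_lit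 76) (nat_lit 0) (XT.lf (nat_lit 0) (nat_lit 2950507154) (nat_lit 228) (nat_lit 1715628695) (nat_lit 76) (nat_lit 9646409710) (nat_lit 15) (nat_lit 5) (nat_lit 18) (nat_lit 5) (nat_lit 16) (nat_lit 4) (nat_lit 288) (nat_lit 253) (nat_lit 239)) (XT.lf (nat_lit 0) (nat_lit 6146482220) (nat_lit 76) (nat_lit 728246313) (nat_lit 152) (nat_lit 8212062514) (nat_lit 14) (nat_lit 5) (nat_lit 15) (nat_lit 5) (nat_lit 16) (nat_lit 4) (nat_lit 289) (nat_lit 253) (nat_lit 238))) (XT.nd (nat_lit 78) (nat_lit 76) (nat_lit 0) (XT.lf (nat_lit 0) (nat_lit 11107263183) (nat_lit 152) (nat_lit 1515514194) (nat_lit 0) (nat_lit 3300799762) (nat_lit 14) (nat_lit 5) (nat_lit 16) (nat_lit 4) (nat_lit 14) (nat_lit 4) (nat_lit 290) (nat_lit 253) (nat_lit 237)) (XT.lf (nat_lit 0) (nat_lit 6586581252) (nat_lit 76) (nat_lit 9140883323) (nat_lit 76) (nat_lit 1096056249) (nat_lit 13) (nat_lit 4) (nat_lit 14) (nat_lit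 5) (nat_lit 14) (nat_lit 4) (nat_lit 291) (nat_lit 253) (nat_lit 236)))) (XT.nd (nat_lit 156) (nat_lit 76) (nat_lit 0) (XT.nd (nat_lit 78) (nat_lit 76) (nat_lit 0) (XT.lf (nat_lit 0) (nat_lit 2690742431) (nat_lit 152) (nat_lit 2668789902) (nat_lit 76) (nat_lit 12437219418) (nat_lit 12) (nat_lit 5) (nat_lit 14) (nat_lit 5) (nat_lit 13) (nat_lit 4) (nat_lit 292) (nat_lit 253) (nat_lit 235)) (XT.lf (nat_lit 0) (nat_lit 5542166158) (nat_lit 76) (nat_lit 1194400538) (nat_lit 152) (nat_lit 12107884155) (nat_lit 11) (nat_lit 5) (nat_lit 12) (nat_lit 5) (nat_lit 13) (nat_lit 4) (nat_lit 293) (nat_lit 253) (nat_lit 234))) (XT.nd (nat_lit 78) (nat_lit 76) (nat_lit 0) (XT.lf (nat_lit 0) (nat_lit 11143964582) (nat_lit 152) (nat_lit 5702804401) (nat_lit 0) (nat_lit 3126267059) (nat_lit 11) (nat_lit 5) (nat_lit 13) (nat_lit 4) (nat_lit 11) (nat_lit 4) (nat_lit 294) (nat_lit 253) (nat_lit 233)) (XT.lf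 (nat_lit 0) (nat_lit 2396165692) (nat_lit 76) (nat_lit 13488646359) (nat_lit 76) (nat_lit 5308722539) (nat_lit 10) (nat_lit 4) (nat_lit 11) (nat_lit 5) (nat_lit 11) (nat_lit 4) (nat_lit 295) (nat_lit 253) (nat_lit 232))))) (XT.nd (nat_lit 312) (nat_lit 76) (nat_lit 0) (XT.nd (nat_lit 156) (nat_lit 76) (nat_lit 0) (XT.nd (nat_lit 78) (nat_lit 76) (nat_lit 0) (XT.lf (nat_lit 0) (nat_lit 11275061008) (nat_lit 76) (nat_lit 9781357108) (nat_lit 76) (nat_lit 1451223754) (nat_lit 10) (nat_lit 4) (nat_lit 11) (nat_lit 5) (nat_lit 11) (nat_lit 4) (nat_lit 296) (nat_lit 253) (nat_lit 231)) (XT.lf (nat_lit 0) (nat_lit 2479778619) (nat_lit 152) (nat_lit 3311276726) (nat_lit 76) (nat_lit 18138617486) (nat_lit 9) (nat_lit 5) (nat_lit 11) (nat_lit 5) (nat_lit 10) (nat_lit 4) (nat_lit 297) (nat_lit 253) (nat_lit 230))) (XT.nd (nat_lit 78) (nat_lit 0) (nat_lit 0) (XT.lf (nat_lit 0) (nat_lit 5301446580)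 (nat_lit 76) (nat_lit 1380978083) (nat_lit 152) (nat_lit 18777250644) (nat_lit 8) (nat_lit 5) (nat_lit 9) (nat_lit 5) (nat_lit 10) (nat_lit 4) (nat_lit 298) (nat_lit 253) (nat_lit 229)) (XT.lf (nat_lit 0) (nat_lit 11304564961) (nat_lit 152) (nat_lit 12567866783) (nat_lit 0) (nat_lit 3233048395) (nat_lit 8) (nat_lit 5) (nat_lit 10) (nat_lit 4) (nat_lit 8) (nat_lit 4) (nat_lit 299) (nat_lit 253) (nat_lit 228)))) (XT.nd (nat_lit 156) (nat_lit 0) (nat_lit 0) (XT.nd (nat_lit 78) (nat_lit 76) (nat_lit 0) (XT.lf (nat_lit 0) (nat_lit 16248142250) (nat_lit 152) (nat_lit 4564338217) (nat_lit 0) (nat_lit 8074395599) (nat_lit 8) (nat_lit 5) (nat_lit 10) (nat_lit 4) (nat_lit 8) (nat_lit 4) (nat_lit 300) (nat_lit 253) (nat_lit 227)) (XT.lf (nat_lit 0) (nat_lit 4140102539) (nat_lit 76) (nat_lit 17468706271) (nat_lit 76) (nat_lit 9200302134) (nat_lit 7) (nat_lit 4) (nat_lit 8) (nat_lit 5) (nat_lit 8)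 (nat_lit 4) (nat_lit 301) (nat_lit 253) (nat_lit 226))) (XT.nd (nat_lit 78) (nat_lit 0) (nat_lit 0) (XT.lf (nat_lit 0) (nat_lit 13657709948) (nat_lit 76) (nat_lit 13789791123) (nat_lit 76) (nat_lit 5433741166) (nat_lit 7) (nat_lit 4) (nat_lit 8) (nat_lit 5) (nat_lit 8) (nat_lit 4) (nat_lit 302) (nat_lit 253) (nat_lit 225)) (XT.lf (nat_lit 0) (nat_lit 23804534683) (nat_lit 76) (nat_lit 9878731140) (nat_lit 76) (nat_lit 1441527645) (nat_lit 7) (nat_lit 4) (nat_lit 8) (nat_lit 5) (nat_lit 8) (nat_lit 4) (nat_lit 303) (nat_lit 253) (nat_lit 224)))))) (XT.nd (nat_lit 624) (nat_lit 152) (nat_lit 0) (XT.nd (nat_lit 312) (nat_lit 76) (nat_lit 0) (XT.nd (nat_lit 156) (nat_lit 0) (nat_lit 0) (XT.nd (nat_lit 78) (nat_lit 76) (nat_lit 0) (XT.lf (nat_lit 0) (nat_lit 2659928849) (nat_lit 152) (nat_lit 2979693652) (nat_lit 76) (nat_lit 31908050059) (nat_lit 6) (nat_lit 5) (nat_lit 8) (nat_lit 5) (nat_lit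 7) (nat_lit 4) (nat_lit 304) (nat_lit 253) (nat_lit 223)) (XT.lf (nat_lit 0) (nat_lit 6183376032) (nat_lit 76) (nat_lit 915324818) (nat_lit 152) (nat_lit 33055757223) (nat_lit 5) (nat_lit 5) (nat_lit 6) (nat_lit 5) (nat_lit 7) (nat_lit 4) (nat_lit 305) (nat_lit 253) (nat_lit 222))) (XT.nd (nat_lit 78) (nat_lit 0) (nat_lit 0) (XT.lf (nat_lit 0) (nat_lit 12015761100) (nat_lit 152) (nat_lit 26934318400) (nat_lit 0) (nat_lit 4009886997) (nat_lit 5) (nat_lit 5) (nat_lit 7) (nat_lit 4) (nat_lit 5) (nat_lit 4) (nat_lit 306) (nat_lit 253) (nat_lit 221)) (XT.lf (nat_lit 0) (nat_lit 17293391240) (nat_lit 152) (nat_lit 19466894948) (nat_lit 0) (nat_lit 9232285402) (nat_lit 5) (nat_lit 5) (nat_lit 7) (nat_lit 4) (nat_lit 5) (nat_lit 4) (nat_lit 307) (nat_lit 253) (nat_lit 220)))) (XT.nd (nat_lit 156) (nat_lit 76) (nat_lit 0) (XT.nd (nat_lit 78) (nat_lit 0) (nat_lit 0) (XT.lf (nat_lit 0) (nat_lit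 22940852530) (nat_lit 152) (nat_lit 11502546702) (nat_lit 0) (nat_lit 14828606198) (nat_lit 5) (nat_lit 5) (nat_lit 7) (nat_lit 4) (nat_lit 5) (nat_lit 4) (nat_lit 308) (nat_lit 253) (nat_lit 219)) (XT.lf (nat_lit 0) (nat_lit 28991611408) (nat_lit 152) (nat_lit 2994077525) (nat_lit 0) (nat_lit 20832012767) (nat_lit 5) (nat_lit 5) (nat_lit 7) (nat_lit 4) (nat_lit 5) (nat_lit 4) (nat_lit 309) (nat_lit 253) (nat_lit 218))) (XT.nd (nat_lit 78) (nat_lit 0) (nat_lit 0) (XT.lf (nat_lit 0) (nat_lit 6430618735) (nat_lit 76) (nat_lit 29205562023) (nat_lit 76) (nat_lit 21002118651) (nat_lit 4) (nat_lit 4) (nat_lit 5) (nat_lit 5) (nat_lit 5) (nat_lit 4) (nat_lit 310) (nat_lit 253) (nat_lit 217)) (XT.lf (nat_lit 0) (nat_lit 16695611152) (nat_lit 76) (nat_lit 26154968414) (nat_lit 76) (nat_lit 17910928069) (nat_lit 4) (nat_lit 4) (nat_lit 5) (nat_lit 5) (nat_lit 5) (nat_lit 4) (nat_lit 311) (nat_lit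 253) (nat_lit 216))))) (XT.nd (nat_lit 312) (nat_lit 152) (nat_lit 0) (XT.nd (nat_lit 156) (nat_lit 0) (nat_lit 0) (XT.nd (nat_lit 78) (nat_lit 0) (nat_lit 0) (XT.lf (nat_lit 0) (nat_lit 27704066495) (nat_lit 76) (nat_lit 22897693901) (nat_lit 76) (nat_lit 14616063765) (nat_lit 4) (nat_lit 4) (nat_lit 5) (nat_lit 5) (nat_lit 5) (nat_lit 4) (nat_lit 312) (nat_lit 253) (nat_lit 215)) (XT.lf (nat_lit 0) (nat_lit 39521220055) (nat_lit 76) (nat_lit 19414436115) (nat_lit 76) (nat_lit 11098000618) (nat_lit 4) (nat_lit 4) (nat_lit 5) (nat_lit 5) (nat_lit 5) (nat_lit 4) (nat_lit 313) (nat_lit 253) (nat_lit 214))) (XT.nd (nat_lit 78) (nat_lit 0) (nat_lit 0) (XT.lf (nat_lit 0) (nat_lit 52217099408) (nat_lit 76) (nat_lit 15684553529) (nat_lit 76) (nat_lit 7335890845) (nat_lit 4) (nat_lit 4) (nat_lit 5) (nat_lit 5) (nat_lit 5) (nat_lit 4) (nat_lit 314) (nat_lit 253) (nat_lit 213)) (XT.lf (nat_lit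 0) (nat_lit 65866939395) (nat_lit 76) (nat_lit 11685943135) (nat_lit 76) (nat_lit 3307440464) (nat_lit 4) (nat_lit 4) (nat_lit 5) (nat_lit 5) (nat_lit 5) (nat_lit 4) (nat_lit 315) (nat_lit 253) (nat_lit 212)))) (XT.nd (nat_lit 156) (nat_lit 0) (nat_lit 0) (XT.nd (nat_lit 78) (nat_lit 76) (nat_lit 0) (XT.lf (nat_lit 0) (nat_lit 960637362) (nat_lit 152) (nat_lit 6408006573) (nat_lit 76) (nat_lit 79564725065) (nat_lit 3) (nat_lit 5) (nat_lit 5) (nat_lit 5) (nat_lit 4) (nat_lit 4) (nat_lit 316) (nat_lit 253) (nat_lit 211)) (XT.lf (nat_lit 0) (nat_lit 2867323034) (nat_lit 76) (nat_lit 2564906918) (nat_lit 152) (nat_lit 88049909529) (nat_lit 2) (nat_lit 5) (nat_lit 3) (nat_lit 5) (nat_lit 4) (nat_lit 4) (nat_lit 317) (nat_lit 253) (nat_lit 210))) (XT.nd (nat_lit 78) (nat_lit 0) (nat_lit 0) (XT.lf (nat_lit 0) (nat_lit 10476387554) (nat_lit 152) (nat_lit 87413939399) (nat_lit 0) (nat_lit 2647310506)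 (nat_lit 2) (nat_lit 5) (nat_lit 4) (nat_lit 4) (nat_lit 2) (nat_lit 4) (nat_lit 318) (nat_lit 253) (nat_lit 209)) (XT.lf (nat_lit 0) (nat_lit 15964767444) (nat_lit 152) (nat_lit 84074182766) (nat_lit 0) (nat_lit 8115381802) (nat_lit 2) (nat_lit 5) (nat_lit 4) (nat_lit 4) (nat_lit 2) (nat_lit 4) (nat_lit 319) (nat_lit 253) (nat_lit 208))))))))
noncomputable def xc39 : XT := (XT.nd (nat_lit 2496) (nat_lit 0) (nat_lit 0) (XT.nd (nat_lit 1248) (nat_lit 0) (nat_lit 0) (XT.nd (nat_lit 624) (nat_lit 76) (nat_lit 0) (XT.nd (nat_lit 312) (nat_lit 0) (nat_lit 0) (XT.nd (nat_lit 156) (nat_lit 0) (nat_lit 0) (XT.nd (nat_lit 78) (nat_lit 0) (nat_lit 0) (XT.lf (nat_lit 0) (nat_lit 21868207282) (nat_lit 152) (nat_lit 80514069327) (nat_lit 0) (nat_lit 14000017386) (nat_lit 2) (nat_lit 5) (nat_lit 4) (nat_lit 4) (nat_lit 2) (nat_lit 4) (nat_lit 320) (nat_lit 253) (nat_lit 207)) (XT.lf (nat_lit 0) (nat_lit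 28221690416) (nat_lit 152) (nat_lit 76712502113) (nat_lit 0) (nat_lit 20336089174) (nat_lit 2) (nat_lit 5) (nat_lit 4) (nat_lit 4) (nat_lit 2) (nat_lit 4) (nat_lit 321) (nat_lit 253) (nat_lit 206))) (XT.nd (nat_lit 78) (nat_lit 0) (nat_lit 0) (XT.lf (nat_lit 0) (nat_lit 35062867116) (nat_lit 152) (nat_lit 72646953317) (nat_lit 0) (nat_lit 27161144257) (nat_lit 2) (nat_lit 5) (nat_lit 4) (nat_lit 4) (nat_lit 2) (nat_lit 4) (nat_lit 322) (nat_lit 253) (nat_lit 205)) (XT.lf (nat_lit 0) (nat_lit 42432277688) (nat_lit 152) (nat_lit 68293330800) (nat_lit 0) (nat_lit 34515627407) (nat_lit 2) (nat_lit 5) (nat_lit 4) (nat_lit 4) (nat_lit 2) (nat_lit 4) (nat_lit 323) (nat_lit 253) (nat_lit 204)))) (XT.nd (nat_lit 156) (nat_lit 0) (nat_lit 0) (XT.nd (nat_lit 78) (nat_lit 0) (nat_lit 0) (XT.lf (nat_lit 0) (nat_lit 50373592714) (nat_lit 152) (nat_lit 63625835316) (nat_lit 0) (nat_lit 42443120745)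 (nat_lit 2) (nat_lit 5) (nat_lit 4) (nat_lit 4) (nat_lit 2) (nat_lit 4) (nat_lit 324) (nat_lit 253) (nat_lit 203)) (XT.lf (nat_lit 0) (nat_lit 58933871838) (nat_lit 152) (nat_lit 58616807633) (nat_lit 0) (nat_lit 50990602010) (nat_lit 2) (nat_lit 5) (nat_lit 4) (nat_lit 4) (nat_lit 2) (nat_lit 4) (nat_lit 325) (nat_lit 253) (nat_lit 202))) (XT.nd (nat_lit 78) (nat_lit 0) (nat_lit 0) (XT.lf (nat_lit 0) (nat_lit 68163842640) (nat_lit 152) (nat_lit 53236564624) (nat_lit 0) (nat_lit 60208722942) (nat_lit 2) (nat_lit 5) (nat_lit 4) (nat_lit 4) (nat_lit 2) (nat_lit 4) (nat_lit 326) (nat_lit 253) (nat_lit 201)) (XT.lf (nat_lit 0) (nat_lit 78118201243) (nat_lit 152) (nat_lit 47453223367) (nat_lit 0) (nat_lit 70152109444) (nat_lit 2) (nat_lit 5) (nat_lit 4) (nat_lit 4) (nat_lit 2) (nat_lit 4) (nat_lit 327) (nat_lit 253) (nat_lit 200))))) (XT.nd (nat_lit 312) (nat_lit 76) (nat_lit 0) (XT.nd (nat_lit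 156) (nat_lit 0) (nat_lit 0) (XT.nd (nat_lit 78) (nat_lit 0) (nat_lit 0) (XT.lf (nat_lit 0) (nat_lit 88855936439) (nat_lit 152) (nat_lit 41232512211) (nat_lit 0) (nat_lit 80879685287) (nat_lit 2) (nat_lit 5) (nat_lit 4) (nat_lit 4) (nat_lit 2) (nat_lit 4) (nat_lit 328) (nat_lit 253) (nat_lit 199)) (XT.lf (nat_lit 0) (nat_lit 100440679252) (nat_lit 152) (nat_lit 34537567682) (nat_lit 0) (nat_lit 92455021292) (nat_lit 2) (nat_lit 5) (nat_lit 4) (nat_lit 4) (nat_lit 2) (nat_lit 4) (nat_lit 329) (nat_lit 253) (nat_lit 198))) (XT.nd (nat_lit 78) (nat_lit 0) (nat_lit 0) (XT.lf (nat_lit 0) (nat_lit 112941080010) (nat_lit 152) (nat_lit 27328716034) (nat_lit 0) (nat_lit 104946712041) (nat_lit 2) (nat_lit 5) (nat_lit 4) (nat_lit 4) (nat_lit 2) (nat_lit 4) (nat_lit 330) (nat_lit 253) (nat_lit 197)) (XT.lf (nat_lit 0) (nat_lit 126431215160) (nat_lit 152) (nat_lit 19563238147) (nat_lit 0) (nat_lit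 118428782369) (nat_lit 2) (nat_lit 5) (nat_lit 4) (nat_lit 4) (nat_lit 2) (nat_lit 4) (nat_lit 331) (nat_lit 253) (nat_lit 196)))) (XT.nd (nat_lit 156) (nat_lit 76) (nat_lit 0) (XT.nd (nat_lit 78) (nat_lit 0) (nat_lit 0) (XT.lf (nat_lit 0) (nat_lit 140991026245) (nat_lit 152) (nat_lit 11195116374) (nat_lit 0) (nat_lit 132981126027) (nat_lit 2) (nat_lit 5) (nat_lit 4) (nat_lit 4) (nat_lit 2) (nat_lit 4) (nat_lit 332) (nat_lit 253) (nat_lit 195)) (XT.lf (nat_lit 0) (nat_lit 156706793627) (nat_lit 152) (nat_lit 2174761846) (nat_lit 0) (nat_lit 148689979124) (nat_lit 2) (nat_lit 5) (nat_lit 4) (nat_lit 4) (nat_lit 2) (nat_lit 4) (nat_lit 333) (nat_lit 253) (nat_lit 194))) (XT.nd (nat_lit 78) (nat_lit 0) (nat_lit 0) (XT.lf (nat_lit 0) (nat_lit 7948916381) (nat_lit 76) (nat_lit 165913903028) (nat_lit 76) (nat_lit 157890686409) (nat_lit 1) (nat_lit 4) (nat_lit 2) (nat_lit 5) (nat_lit 2) (nat_lit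 4) (nat_lit 334) (nat_lit 253) (nat_lit 193)) (XT.lf (nat_lit 0) (nat_lit 18990631433) (nat_lit 76) (nat_lit 173452214881) (nat_lit 76) (nat_lit 165423070376) (nat_lit 1) (nat_lit 4) (nat_lit 2) (nat_lit 5) (nat_lit 2) (nat_lit 4) (nat_lit 335) (nat_lit 253) (nat_lit 192)))))) (XT.nd (nat_lit 624) (nat_lit 0) (nat_lit 0) (XT.nd (nat_lit 312) (nat_lit 0) (nat_lit 0) (XT.nd (nat_lit 156) (nat_lit 0) (nat_lit 0) (XT.nd (nat_lit 78) (nat_lit 0) (nat_lit 0) (XT.lf (nat_lit 0) (nat_lit 30901296589) (nat_lit 76) (nat_lit 181600624351) (nat_lit 76) (nat_lit 173565991065) (nat_lit 1) (nat_lit 4) (nat_lit 2) (nat_lit 5) (nat_lit 2) (nat_lit 4) (nat_lit 336) (nat_lit 253) (nat_lit 191)) (XT.lf (nat_lit 0) (nat_lit 43751493569) (nat_lit 76) (nat_lit 190407418311) (nat_lit 76) (nat_lit 182367702819) (nat_lit 1) (nat_lit 4) (nat_lit 2) (nat_lit 5) (nat_lit 2) (nat_lit 4) (nat_lit 337) (nat_lit 253)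 (nat_lit 190))) (XT.nd (nat_lit 78) (nat_lit 0) (nat_lit 0) (XT.lf (nat_lit 0) (nat_lit 57617371688) (nat_lit 76) (nat_lit 199924785169) (nat_lit 76) (nat_lit 191880363931) (nat_lit 1) (nat_lit 4) (nat_lit 2) (nat_lit 5) (nat_lit 2) (nat_lit 4) (nat_lit 338) (nat_lit 253) (nat_lit 189)) (XT.lf (nat_lit 0) (nat_lit 72581099113) (nat_lit 76) (nat_lit 210209124136) (nat_lit 76) (nat_lit 202160345725) (nat_lit 1) (nat_lit 4) (nat_lit 2) (nat_lit 5) (nat_lit 2) (nat_lit 4) (nat_lit 339) (nat_lit 253) (nat_lit 188)))) (XT.nd (nat_lit 156) (nat_lit 0) (nat_lit 0) (XT.nd (nat_lit 78) (nat_lit 0) (nat_lit 0) (XT.lf (nat_lit 0) (nat_lit 88731349785) (nat_lit 76) (nat_lit 221321379443) (nat_lit 76) (nat_lit 213268566613) (nat_lit 1) (nat_lit 4) (nat_lit 2) (nat_lit 5) (nat_lit 2) (nat_lit 4) (nat_lit 340) (nat_lit 253) (nat_lit 187)) (XT.lf (nat_lit 0) (nat_lit 106163828892) (nat_lit 76) (nat_lit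 233327401492) (nat_lit 76) (nat_lit 225270853089) (nat_lit 1) (nat_lit 4) (nat_lit 2) (nat_lit 5) (nat_lit 2) (nat_lit 4) (nat_lit 341) (nat_lit 253) (nat_lit 186))) (XT.nd (nat_lit 78) (nat_lit 0) (nat_lit 0) (XT.lf (nat_lit 0) (nat_lit 124981840015) (nat_lit 76) (nat_lit 246298337079) (nat_lit 76) (nat_lit 238238329812) (nat_lit 1) (nat_lit 4) (nat_lit 2) (nat_lit 5) (nat_lit 2) (nat_lit 4) (nat_lit 342) (nat_lit 253) (nat_lit 185)) (XT.lf (nat_lit 0) (nat_lit 145296897293) (nat_lit 76) (nat_lit 260311051009) (nat_lit 76) (nat_lit 252247841090) (nat_lit 1) (nat_lit 4) (nat_lit 2) (nat_lit 5) (nat_lit 2) (nat_lit 4) (nat_lit 343) (nat_lit 253) (nat_lit 184))))) (XT.nd (nat_lit 312) (nat_lit 0) (nat_lit 0) (XT.nd (nat_lit 156) (nat_lit 0) (nat_lit 0) (XT.nd (nat_lit 78) (nat_lit 0) (nat_lit 0) (XT.lf (nat_lit 0) (nat_lit 167229386250) (nat_lit 76) (nat_lit 275448581587) (nat_lit 76)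 (nat_lit 267382406249) (nat_lit 1) (nat_lit 4) (nat_lit 2) (nat_lit 5) (nat_lit 2) (nat_lit 4) (nat_lit 344) (nat_lit 253) (nat_lit 183)) (XT.lf (nat_lit 0) (nat_lit 190909277193) (nat_lit 76) (nat_lit 291800632696) (nat_lit 76) (nat_lit 283731711601) (nat_lit 1) (nat_lit 4) (nat_lit 2) (nat_lit 5) (nat_lit 2) (nat_lit 4) (nat_lit 345) (nat_lit 253) (nat_lit 182))) (XT.nd (nat_lit 78) (nat_lit 0) (nat_lit 0) (XT.lf (nat_lit 0) (nat_lit 216476895400) (nat_lit 76) (nat_lit 309464105381) (nat_lit 76) (nat_lit 301392641918) (nat_lit 1) (nat_lit 4) (nat_lit 2) (nat_lit 5) (nat_lit 2) (nat_lit 4) (nat_lit 346) (nat_lit 253) (nat_lit 181)) (XT.lf (nat_lit 0) (nat_lit 244083752684) (nat_lit 76) (nat_lit 328543672073) (nat_lit 76) (nat_lit 320469854565) (nat_lit 1) (nat_lit 4) (nat_lit 2) (nat_lit 5) (nat_lit 2) (nat_lit 4) (nat_lit 347) (nat_lit 253) (nat_lit 180)))) (XT.nd (nat_lit 156) (nat_lit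 0) (nat_lit 0) (XT.nd (nat_lit 78) (nat_lit 0) (nat_lit 0) (XT.lf (nat_lit 0) (nat_lit 273893445235) (nat_lit 76) (nat_lit 349152396870) (nat_lit 76) (nat_lit 341076399691) (nat_lit 1) (nat_lit 4) (nat_lit 2) (nat_lit 5) (nat_lit 2) (nat_lit 4) (nat_lit 348) (nat_lit 253) (nat_lit 179)) (XT.lf (nat_lit 0) (nat_lit 306082623083) (nat_lit 76) (nat_lit 371412405549) (nat_lit 76) (nat_lit 363334390156) (nat_lit 1) (nat_lit 4) (nat_lit 2) (nat_lit 5) (nat_lit 2) (nat_lit 4) (nat_lit 349) (nat_lit 253) (nat_lit 178))) (XT.nd (nat_lit 78) (nat_lit 0) (nat_lit 0) (XT.lf (nat_lit 0) (nat_lit 340842036912) (nat_lit 76) (nat_lit 395455609273) (nat_lit 76) (nat_lit 387375725164) (nat_lit 1) (nat_lit 4) (nat_lit 2) (nat_lit 5) (nat_lit 2) (nat_lit 4) (nat_lit 350) (nat_lit 253) (nat_lit 177)) (XT.lf (nat_lit 0) (nat_lit 378377668434) (nat_lit 76) (nat_lit 421424486285) (nat_lit 76) (nat_lit 413342871883)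 (nat_lit 1) (nat_lit 4) (nat_lit 2) (nat_lit 5) (nat_lit 2) (nat_lit 4) (nat_lit 351) (nat_lit 253) (nat_lit 176))))))) (XT.nd (nat_lit 1248) (nat_lit 0) (nat_lit 0) (XT.nd (nat_lit 624) (nat_lit 0) (nat_lit 0) (XT.nd (nat_lit 312) (nat_lit 0) (nat_lit 0) (XT.nd (nat_lit 156) (nat_lit 0) (nat_lit 0) (XT.nd (nat_lit 78) (nat_lit 0) (nat_lit 0) (XT.lf (nat_lit 0) (nat_lit 418911951020) (nat_lit 76) (nat_lit 449472926228) (nat_lit 76) (nat_lit 441389709703) (nat_lit 1) (nat_lit 4) (nat_lit 2) (nat_lit 5) (nat_lit 2) (nat_lit 4) (nat_lit 352) (nat_lit 253) (nat_lit 175)) (XT.lf (nat_lit 0) (nat_lit 462685087827) (nat_lit 76) (nat_lit 479767142079) (nat_lit 76) (nat_lit 471682442106) (nat_lit 1) (nat_lit 4) (nat_lit 2) (nat_lit 5) (nat_lit 2) (nat_lit 4) (nat_lit 353) (nat_lit 253) (nat_lit 174))) (XT.nd (nat_lit 78) (nat_lit 0) (nat_lit 0) (XT.lf (nat_lit 0) (nat_lit 509956475221) (nat_lit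 76) (nat_lit 512486655117) (nat_lit 76) (nat_lit 504400581581) (nat_lit 1) (nat_lit 4) (nat_lit 2) (nat_lit 5) (nat_lit 2) (nat_lit 4) (nat_lit 354) (nat_lit 253) (nat_lit 173)) (XT.lf (nat_lit 0) (nat_lit 561006239941) (nat_lit 76) (nat_lit 547825358752) (nat_lit 76) (nat_lit 539738013399) (nat_lit 1) (nat_lit 4) (nat_lit 2) (nat_lit 5) (nat_lit 2) (nat_lit 4) (nat_lit 355) (nat_lit 253) (nat_lit 172)))) (XT.nd (nat_lit 156) (nat_lit 0) (nat_lit 0) (XT.nd (nat_lit 78) (nat_lit 0) (nat_lit 0) (XT.lf (nat_lit 0) (nat_lit 616136899113) (nat_lit 76) (nat_lit 585992667525) (nat_lit 76) (nat_lit 577904144563) (nat_lit 1) (nat_lit 4) (nat_lit 2) (nat_lit 5) (nat_lit 2) (nat_lit 4) (nat_lit 356) (nat_lit 253) (nat_lit 171)) (XT.lf (nat_lit 0) (nat_lit 675675152938) (nat_lit 76) (nat_lit 627214758080) (nat_lit 76) (nat_lit 619125144740) (nat_lit 1) (nat_lit 4) (nat_lit 2) (nat_lit 5) (nat_lit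 2) (nat_lit 4) (nat_lit 357) (nat_lit 253) (nat_lit 170))) (XT.nd (nat_lit 78) (nat_lit 0) (nat_lit 0) (XT.lf (nat_lit 0) (nat_lit 739973820699) (nat_lit 76) (nat_lit 671735909472) (nat_lit 76) (nat_lit 663645286523) (nat_lit 1) (nat_lit 4) (nat_lit 2) (nat_lit 5) (nat_lit 2) (nat_lit 4) (nat_lit 358) (nat_lit 253) (nat_lit 169)) (XT.lf (nat_lit 0) (nat_lit 809413931538) (nat_lit 76) (nat_lit 719819950747) (nat_lit 76) (nat_lit 711728392974) (nat_lit 1) (nat_lit 4) (nat_lit 2) (nat_lit 5) (nat_lit 2) (nat_lit 4) (nat_lit 359) (nat_lit 253) (nat_lit 168))))) (XT.nd (nat_lit 312) (nat_lit 0) (nat_lit 0) (XT.nd (nat_lit 156) (nat_lit 0) (nat_lit 0) (XT.nd (nat_lit 78) (nat_lit 0) (nat_lit 0) (XT.lf (nat_lit 0) (nat_lit 884406982408) (nat_lit 76) (nat_lit 771751824371) (nat_lit 76) (nat_lit 763659401021) (nat_lit 1) (nat_lit 4) (nat_lit 2) (nat_lit 5) (nat_lit 2) (nat_lit 4) (nat_lit 360)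 (nat_lit 253) (nat_lit 167)) (XT.lf (nat_lit 0) (nat_lit 965397376574) (nat_lit 76) (nat_lit 827839274781) (nat_lit 76) (nat_lit 819746049971) (nat_lit 1) (nat_lit 4) (nat_lit 2) (nat_lit 5) (nat_lit 2) (nat_lit 4) (nat_lit 361) (nat_lit 253) (nat_lit 166))) (XT.nd (nat_lit 78) (nat_lit 0) (nat_lit 0) (XT.lf (nat_lit 0) (nat_lit 1052865057112) (nat_lit 76) (nat_lit 888414672053) (nat_lit 76) (nat_lit 880320705150) (nat_lit 1) (nat_lit 4) (nat_lit 2) (nat_lit 5) (nat_lit 2) (nat_lit 4) (nat_lit 362) (nat_lit 253) (nat_lit 165)) (XT.lf (nat_lit 0) (nat_lit 1147328351017) (nat_lit 76) (nat_lit 953836981505) (nat_lit 76) (nat_lit 945742327478) (nat_lit 1) (nat_lit 4) (nat_lit 2) (nat_lit 5) (nat_lit 2) (nat_lit 4) (nat_lit 363) (nat_lit 253) (nat_lit 164)))) (XT.nd (nat_lit 156) (nat_lit 0) (nat_lit 0) (XT.nd (nat_lit 78) (nat_lit 0) (nat_lit 0) (XT.lf (nat_lit 0) (nat_lit 1249347040772)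 (nat_lit 76) (nat_lit 1024493890895) (nat_lit 76) (nat_lit 1016398600644) (nat_lit 1) (nat_lit 4) (nat_lit 2) (nat_lit 5) (nat_lit 2) (nat_lit 4) (nat_lit 364) (nat_lit 253) (nat_lit 163)) (XT.lf (nat_lit 0) (nat_lit 1359525681576) (nat_lit 76) (nat_lit 1100804107836) (nat_lit 76) (nat_lit 1092708228487) (nat_lit 1) (nat_lit 4) (nat_lit 2) (nat_lit 5) (nat_lit 2) (nat_lit 4) (nat_lit 365) (nat_lit 253) (nat_lit 162))) (XT.nd (nat_lit 78) (nat_lit 0) (nat_lit 0) (XT.lf (nat_lit 0) (nat_lit 1478517183893) (nat_lit 76) (nat_lit 1183219841020) (nat_lit 76) (nat_lit 1175123416211) (nat_lit 1) (nat_lit 4) (nat_lit 2) (nat_lit 5) (nat_lit 2) (nat_lit 4) (nat_lit 366) (nat_lit 253) (nat_lit 161)) (XT.lf (nat_lit 0) (nat_lit 1607026682552) (nat_lit 76) (nat_lit 1272229479978) (nat_lit 76) (nat_lit 1264132550112) (nat_lit 1) (nat_lit 4) (nat_lit 2) (nat_lit 5) (nat_lit 2) (nat_lit 4) (nat_lit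 367) (nat_lit 253) (nat_lit 160)))))) (XT.nd (nat_lit 33462) (nat_lit 0) (nat_lit 1596) (XT.nd (nat_lit 33150) (nat_lit 0) (nat_lit 2508) (XT.nd (nat_lit 156) (nat_lit 0) (nat_lit 0) (XT.nd (nat_lit 78) (nat_lit 0) (nat_lit 0) (XT.lf (nat_lit 0) (nat_lit 1745815715321) (nat_lit 76) (nat_lit 1368360489235) (nat_lit 76) (nat_lit 1360263091725) (nat_lit 1) (nat_lit 4) (nat_lit 2) (nat_lit 5) (nat_lit 2) (nat_lit 4) (nat_lit 368) (nat_lit 253) (nat_lit 159)) (XT.lf (nat_lit 0) (nat_lit 1895706735729) (nat_lit 76) (nat_lit 1472182534034) (nat_lit 76) (nat_lit 1464084703520) (nat_lit 1) (nat_lit 4) (nat_lit 2) (nat_lit 5) (nat_lit 2) (nat_lit 4) (nat_lit 369) (nat_lit 253) (nat_lit 158))) (XT.nd (nat_lit 78) (nat_lit 0) (nat_lit 0) (XT.lf (nat_lit 0) (nat_lit 2057587986860) (nat_lit 76) (nat_lit 1584310856120) (nat_lit 76) (nat_lit 1576212624675) (nat_lit 1) (nat_lit 4) (nat_lit 2) (nat_lit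 5) (nat_lit 2) (nat_lit 4) (nat_lit 370) (nat_lit 253) (nat_lit 157)) (XT.lf (nat_lit 0) (nat_lit 2232418765016) (nat_lit 76) (nat_lit 1705409919624) (nat_lit 76) (nat_lit 1697311316948) (nat_lit 1) (nat_lit 4) (nat_lit 2) (nat_lit 5) (nat_lit 2) (nat_lit 4) (nat_lit 371) (nat_lit 253) (nat_lit 156)))) (XT.nd (nat_lit 156) (nat_lit 228) (nat_lit 0) (XT.nd (nat_lit 78) (nat_lit 304) (nat_lit 0) (XT.lf (nat_lit 0) (nat_lit 1139282876) (nat_lit 228) (nat_lit 1319719512) (nat_lit 228) (nat_lit 1319719512) (nat_lit 41) (nat_lit 4) (nat_lit 44) (nat_lit 5) (nat_lit 44) (nat_lit 4) (nat_lit 272) (nat_lit 254) (nat_lit 254)) (XT.lf (nat_lit 0) (nat_lit 122789261) (nat_lit 228) (nat_lit 609101499) (nat_lit 304) (nat_lit 7034043001) (nat_lit 37) (nat_lit 5) (nat_lit 40) (nat_lit 5) (nat_lit 41) (nat_lit 4) (nat_lit 273) (nat_lit 254) (nat_lit 253))) (XT.nd (nat_lit 78) (nat_lit 228) (nat_lit 0)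 (XT.lf (nat_lit 0) (nat_lit 4170690935) (nat_lit 304) (nat_lit 2145467987) (nat_lit 0) (nat_lit 1674934313) (nat_lit 37) (nat_lit 5) (nat_lit 41) (nat_lit 4) (nat_lit 37) (nat_lit 4) (nat_lit 274) (nat_lit 254) (nat_lit 252)) (XT.lf (nat_lit 0) (nat_lit 3670633554) (nat_lit 228) (nat_lit 4090461510) (nat_lit 228) (nat_lit 483702118) (nat_lit 34) (nat_lit 4) (nat_lit 37) (nat_lit 5) (nat_lit 37) (nat_lit 4) (nat_lit 275) (nat_lit 254) (nat_lit 251))))) (XT.nd (nat_lit 312) (nat_lit 304) (nat_lit 0) (XT.nd (nat_lit 156) (nat_lit 380) (nat_lit 0) (XT.nd (nat_lit 78) (nat_lit 0) (nat_lit 0) (XT.lf (nat_lit 0) (nat_lit 1251786983) (nat_lit 152) (nat_lit 1578622941) (nat_lit 228) (nat_lit 5693619696) (nat_lit 31) (nat_lit 5) (nat_lit 33) (nat_lit 5) (nat_lit 34) (nat_lit 4) (nat_lit 276) (nat_lit 254) (nat_lit 250)) (XT.lf (nat_lit 0) (nat_lit 6323295477) (nat_lit 228) (nat_lit 1357387444)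 (nat_lit 0) (nat_lit 1149247824) (nat_lit 31) (nat_lit 5) (nat_lit 34) (nat_lit 4) (nat_lit 31) (nat_lit 4) (nat_lit 277) (nat_lit 254) (nat_lit 249))) (XT.nd (nat_lit 78) (nat_lit 152) (nat_lit 0) (XT.lf (nat_lit 0) (nat_lit 847437781) (nat_lit 228) (nat_lit 4227997269) (nat_lit 76) (nat_lit 4086799499) (nat_lit 28) (nat_lit 5) (nat_lit 31) (nat_lit 5) (nat_lit 29) (nat_lit 4) (nat_lit 278) (nat_lit 254) (nat_lit 248)) (XT.lf (nat_lit 0) (nat_lit 2040302773) (nat_lit 152) (nat_lit 2184264748) (nat_lit 228) (nat_lit 5300544893) (nat_lit 26) (nat_lit 5) (nat_lit 28) (nat_lit 5) (nat_lit 29) (nat_lit 4) (nat_lit 279) (nat_lit 254) (nat_lit 247)))) (XT.nd (nat_lit 156) (nat_lit 76) (nat_lit 0) (XT.nd (nat_lit 78) (nat_lit 228) (nat_lit 0) (XT.lf (nat_lit 0) (nat_lit 7821870281) (nat_lit 228) (nat_lit 1172954328) (nat_lit 0) (nat_lit 926575955) (nat_lit 26) (nat_lit 5) (nat_lit 29) (nat_lit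 4) (nat_lit 26) (nat_lit 4) (nat_lit 280) (nat_lit 254) (nat_lit 246)) (XT.lf (nat_lit 0) (nat_lit 1304068230) (nat_lit 228) (nat_lit 4783072633) (nat_lit 76) (nat_lit 4258811871) (nat_lit 23) (nat_lit 5) (nat_lit 26) (nat_lit 5) (nat_lit 24) (nat_lit 4) (nat_lit 281) (nat_lit 254) (nat_lit 245))) (XT.nd (nat_lit 78) (nat_lit 0) (nat_lit 0) (XT.lf (nat_lit 0) (nat_lit 1869169088) (nat_lit 76) (nat_lit 2900293233) (nat_lit 152) (nat_lit 6038711016) (nat_lit 22) (nat_lit 5) (nat_lit 23) (nat_lit 5) (nat_lit 24) (nat_lit 4) (nat_lit 282) (nat_lit 254) (nat_lit 244)) (XT.lf (nat_lit 0) (nat_lit 8488648844) (nat_lit 152) (nat_lit 2263637601) (nat_lit 0) (nat_lit 557239779) (nat_lit 22) (nat_lit 5) (nat_lit 24) (nat_lit 4) (nat_lit 22) (nat_lit 4) (nat_lit 283) (nat_lit 254) (nat_lit 243))))))))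
noncomputable def xc40 : XT := (XT.nd (nat_lit 2418) (nat_lit 228) (nat_lit 0) (XT.nd (nat_lit 1170) (nat_lit 380) (nat_lit 0) (XT.nd (nat_lit 546) (nat_lit 380) (nat_lit 0) (XT.nd (nat_lit 234) (nat_lit 304) (nat_lit 0) (XT.nd (nat_lit 78) (nat_lit 76) (nat_lit 0) (XT.lf (nat_lit 0) (nat_lit 656459161) (nat_lit 228) (nat_lit 7007168494) (nat_lit 76) (nat_lit 4183555399) (nat_lit 19) (nat_lit 5) (nat_lit 22) (nat_lit 5) (nat_lit 20) (nat_lit 4) (nat_lit 284) (nat_lit 254) (nat_lit 242)) (XT.nd (nat_lit 78) (nat_lit 76) (nat_lit 0) (XT.lf (nat_lit 0) (nat_lit 4166616197) (nat_lit 228) (nat_lit 114555272) (nat_lit 76) (nat_lit 8148478543) (nat_lit 19) (nat_lit 5) (nat_lit 22) (nat_lit 5) (nat_lit 20) (nat_lit 4) (nat_lit 285) (nat_lit 254) (nat_lit 241)) (XT.lf (nat_lit 0) (nat_lit 7464470963) (nat_lit 76) (nat_lit 527760328) (nat_lit 152) (nat_lit 5063916843) (nat_lit 18) (nat_lit 5)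 (nat_lit 19) (nat_lit 5) (nat_lit 20) (nat_lit 4) (nat_lit 286) (nat_lit 254) (nat_lit 240)))) (XT.nd (nat_lit 156) (nat_lit 76) (nat_lit 0) (XT.nd (nat_lit 78) (nat_lit 76) (nat_lit 0) (XT.lf (nat_lit 0) (nat_lit 1681552070) (nat_lit 152) (nat_lit 10428837079) (nat_lit 152) (nat_lit 1623647699) (nat_lit 16) (nat_lit 4) (nat_lit 18) (nat_lit 5) (nat_lit 18) (nat_lit 4) (nat_lit 287) (nat_lit 254) (nat_lit 239)) (XT.lf (nat_lit 0) (nat_lit 2016932044) (nat_lit 228) (nat_lit 4910240281) (nat_lit 76) (nat_lit 7532744195) (nat_lit 15) (nat_lit 5) (nat_lit 18) (nat_lit 5) (nat_lit 16) (nat_lit 4) (nat_lit 288) (nat_lit 254) (nat_lit 238))) (XT.nd (nat_lit 78) (nat_lit 0) (nat_lit 0) (XT.lf (nat_lit 0) (nat_lit 2669792918) (nat_lit 76) (nat_lit 3125052859) (nat_lit 152) (nat_lit 9451093444) (nat_lit 14) (nat_lit 5) (nat_lit 15) (nat_lit 5) (nat_lit 16) (nat_lit 4) (nat_lit 289) (nat_lit 254)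 (nat_lit 237)) (XT.lf (nat_lit 0) (nat_lit 9908074212) (nat_lit 152) (nat_lit 5202965500) (nat_lit 0) (nat_lit 981297320) (nat_lit 14) (nat_lit 5) (nat_lit 16) (nat_lit 4) (nat_lit 14) (nat_lit 4) (nat_lit 290) (nat_lit 254) (nat_lit 236))))) (XT.nd (nat_lit 312) (nat_lit 152) (nat_lit 0) (XT.nd (nat_lit 156) (nat_lit 76) (nat_lit 0) (XT.nd (nat_lit 78) (nat_lit 76) (nat_lit 0) (XT.lf (nat_lit 0) (nat_lit 2598464211) (nat_lit 76) (nat_lit 11776801749) (nat_lit 76) (nat_lit 2629317772) (nat_lit 13) (nat_lit 4) (nat_lit 14) (nat_lit 5) (nat_lit 14) (nat_lit 4) (nat_lit 291) (nat_lit 254) (nat_lit 235)) (XT.lf (nat_lit 0) (nat_lit 1177453921) (nat_lit 152) (nat_lit 6902738233) (nat_lit 76) (nat_lit 9905164021) (nat_lit 12) (nat_lit 5) (nat_lit 14) (nat_lit 5) (nat_lit 13) (nat_lit 4) (nat_lit 292) (nat_lit 254) (nat_lit 234))) (XT.nd (nat_lit 78) (nat_lit 0) (nat_lit 0) (XT.lf (nat_lit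 0) (nat_lit 986195502) (nat_lit 76) (nat_lit 4074986538) (nat_lit 152) (nat_lit 13984890340) (nat_lit 11) (nat_lit 5) (nat_lit 12) (nat_lit 5) (nat_lit 13) (nat_lit 4) (nat_lit 293) (nat_lit 254) (nat_lit 233)) (XT.lf (nat_lit 0) (nat_lit 9347477974) (nat_lit 152) (nat_lit 10485979550) (nat_lit 0) (nat_lit 350933952) (nat_lit 11) (nat_lit 5) (nat_lit 13) (nat_lit 4) (nat_lit 11) (nat_lit 4) (nat_lit 294) (nat_lit 254) (nat_lit 232)))) (XT.nd (nat_lit 156) (nat_lit 76) (nat_lit 0) (XT.nd (nat_lit 78) (nat_lit 76) (nat_lit 0) (XT.lf (nat_lit 0) (nat_lit 13982712612) (nat_lit 152) (nat_lit 2594709745) (nat_lit 0) (nat_lit 4835959056) (nat_lit 11) (nat_lit 5) (nat_lit 13) (nat_lit 4) (nat_lit 11) (nat_lit 4) (nat_lit 295) (nat_lit 254) (nat_lit 231)) (XT.lf (nat_lit 0) (nat_lit 6061942031) (nat_lit 76) (nat_lit 12980198305) (nat_lit 76) (nat_lit 3694361847) (nat_lit 10) (nat_lit 4) (nat_lit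 11) (nat_lit 5) (nat_lit 11) (nat_lit 4) (nat_lit 296) (nat_lit 254) (nat_lit 230))) (XT.nd (nat_lit 78) (nat_lit 0) (nat_lit 0) (XT.lf (nat_lit 0) (nat_lit 304652984) (nat_lit 152) (nat_lit 8780938715) (nat_lit 76) (nat_lit 15080826748) (nat_lit 9) (nat_lit 5) (nat_lit 11) (nat_lit 5) (nat_lit 10) (nat_lit 4) (nat_lit 297) (nat_lit 254) (nat_lit 229)) (XT.lf (nat_lit 0) (nat_lit 4338874670) (nat_lit 152) (nat_lit 508998778) (nat_lit 76) (nat_lit 20862052559) (nat_lit 9) (nat_lit 5) (nat_lit 11) (nat_lit 5) (nat_lit 10) (nat_lit 4) (nat_lit 298) (nat_lit 254) (nat_lit 228)))))) (XT.nd (nat_lit 624) (nat_lit 76) (nat_lit 0) (XT.nd (nat_lit 312) (nat_lit 152) (nat_lit 0) (XT.nd (nat_lit 156) (nat_lit 76) (nat_lit 0) (XT.nd (nat_lit 78) (nat_lit 0) (nat_lit 0) (XT.lf (nat_lit 0) (nat_lit 8715092263) (nat_lit 76) (nat_lit 111522567) (nat_lit 152) (nat_lit 18539896852) (nat_lit 8) (nat_lit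 5) (nat_lit 9) (nat_lit 5) (nat_lit 10) (nat_lit 4) (nat_lit 299) (nat_lit 254) (nat_lit 227)) (XT.lf (nat_lit 0) (nat_lit 13730026116) (nat_lit 152) (nat_lit 10715629306) (nat_lit 0) (nat_lit 4705492162) (nat_lit 8) (nat_lit 5) (nat_lit 10) (nat_lit 4) (nat_lit 8) (nat_lit 4) (nat_lit 300) (nat_lit 254) (nat_lit 226))) (XT.nd (nat_lit 78) (nat_lit 76) (nat_lit 0) (XT.lf (nat_lit 0) (nat_lit 18956415813) (nat_lit 152) (nat_lit 2283497479) (nat_lit 0) (nat_lit 9844236038) (nat_lit 8) (nat_lit 5) (nat_lit 10) (nat_lit 4) (nat_lit 8) (nat_lit 4) (nat_lit 301) (nat_lit 254) (nat_lit 225)) (XT.lf (nat_lit 0) (nat_lit 7050311505) (nat_lit 76) (nat_lit 17653321655) (nat_lit 76) (nat_lit 8459988343) (nat_lit 7) (nat_lit 4) (nat_lit 8) (nat_lit 5) (nat_lit 8) (nat_lit 4) (nat_lit 302) (nat_lit 254) (nat_lit 224)))) (XT.nd (nat_lit 156) (nat_lit 152) (nat_lit 0) (XT.nd (nat_lit 78) (nat_lit 0)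 (nat_lit 0) (XT.lf (nat_lit 0) (nat_lit 17138290413) (nat_lit 76) (nat_lit 13769936341) (nat_lit 76) (nat_lit 4501460864) (nat_lit 7) (nat_lit 4) (nat_lit 8) (nat_lit 5) (nat_lit 8) (nat_lit 4) (nat_lit 303) (nat_lit 254) (nat_lit 223)) (XT.lf (nat_lit 0) (nat_lit 27919974930) (nat_lit 76) (nat_lit 9629179564) (nat_lit 76) (nat_lit 291128010) (nat_lit 7) (nat_lit 4) (nat_lit 8) (nat_lit 5) (nat_lit 8) (nat_lit 4) (nat_lit 304) (nat_lit 254) (nat_lit 222))) (XT.nd (nat_lit 78) (nat_lit 76) (nat_lit 0) (XT.lf (nat_lit 0) (nat_lit 3986061411) (nat_lit 152) (nat_lit 1111466113) (nat_lit 76) (nat_lit 35364209124) (nat_lit 6) (nat_lit 5) (nat_lit 8) (nat_lit 5) (nat_lit 7) (nat_lit 4) (nat_lit 305) (nat_lit 254) (nat_lit 221)) (XT.lf (nat_lit 0) (nat_lit 8731317423) (nat_lit 76) (nat_lit 15529473) (nat_lit 152) (nat_lit 34532915735) (nat_lit 5) (nat_lit 5) (nat_lit 6) (nat_lit 5) (nat_lit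 7) (nat_lit 4) (nat_lit 306) (nat_lit 254) (nat_lit 220))))) (XT.nd (nat_lit 312) (nat_lit 76) (nat_lit 0) (XT.nd (nat_lit 156) (nat_lit 0) (nat_lit 0) (XT.nd (nat_lit 78) (nat_lit 0) (nat_lit 0) (XT.lf (nat_lit 0) (nat_lit 13998921214) (nat_lit 152) (nat_lit 27128950716) (nat_lit 0) (nat_lit 5186554682) (nat_lit 5) (nat_lit 5) (nat_lit 7) (nat_lit 4) (nat_lit 5) (nat_lit 4) (nat_lit 307) (nat_lit 254) (nat_lit 219)) (XT.lf (nat_lit 0) (nat_lit 19623065526) (nat_lit 152) (nat_lit 19209326954) (nat_lit 0) (nat_lit 10763346684) (nat_lit 5) (nat_lit 5) (nat_lit 7) (nat_lit 4) (nat_lit 5) (nat_lit 4) (nat_lit 308) (nat_lit 254) (nat_lit 218))) (XT.nd (nat_lit 78) (nat_lit 0) (nat_lit 0) (XT.lf (nat_lit 0) (nat_lit 25652234609) (nat_lit 152) (nat_lit 10742269337) (nat_lit 0) (nat_lit 16748671036) (nat_lit 5) (nat_lit 5) (nat_lit 7) (nat_lit 4) (nat_lit 5) (nat_lit 4) (nat_lit 309) (nat_lit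 254) (nat_lit 217)) (XT.lf (nat_lit 0) (nat_lit 32122156873) (nat_lit 152) (nat_lit 1677602707) (nat_lit 0) (nat_lit 23177996327) (nat_lit 5) (nat_lit 5) (nat_lit 7) (nat_lit 4) (nat_lit 5) (nat_lit 4) (nat_lit 310) (nat_lit 254) (nat_lit 216)))) (XT.nd (nat_lit 156) (nat_lit 0) (nat_lit 0) (XT.nd (nat_lit 78) (nat_lit 0) (nat_lit 0) (XT.lf (nat_lit 0) (nat_lit 8461676822) (nat_lit 76) (nat_lit 30812999307) (nat_lit 76) (nat_lit 21831248970) (nat_lit 4) (nat_lit 4) (nat_lit 5) (nat_lit 5) (nat_lit 5) (nat_lit 4) (nat_lit 311) (nat_lit 254) (nat_lit 215)) (XT.lf (nat_lit 0) (nat_lit 19435527257) (nat_lit 76) (nat_lit 27572358778) (nat_lit 76) (nat_lit 18555803080) (nat_lit 4) (nat_lit 4) (nat_lit 5) (nat_lit 5) (nat_lit 5) (nat_lit 4) (nat_lit 312) (nat_lit 254) (nat_lit 214))) (XT.nd (nat_lit 78) (nat_lit 0) (nat_lit 0) (XT.lf (nat_lit 0) (nat_lit 31220639234) (nat_lit 76) (nat_lit 24104502830)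 (nat_lit 76) (nat_lit 15055719946) (nat_lit 4) (nat_lit 4) (nat_lit 5) (nat_lit 5) (nat_lit 5) (nat_lit 4) (nat_lit 313) (nat_lit 254) (nat_lit 213)) (XT.lf (nat_lit 0) (nat_lit 43886850455) (nat_lit 76) (nat_lit 20388881205) (nat_lit 76) (nat_lit 11310258333) (nat_lit 4) (nat_lit 4) (nat_lit 5) (nat_lit 5) (nat_lit 5) (nat_lit 4) (nat_lit 314) (nat_lit 254) (nat_lit 212))))))) (XT.nd (nat_lit 1248) (nat_lit 76) (nat_lit 0) (XT.nd (nat_lit 624) (nat_lit 0) (nat_lit 0) (XT.nd (nat_lit 312) (nat_lit 0) (nat_lit 0) (XT.nd (nat_lit 156) (nat_lit 152) (nat_lit 0) (XT.nd (nat_lit 78) (nat_lit 0) (nat_lit 0) (XT.lf (nat_lit 0) (nat_lit 57509219949) (nat_lit 76) (nat_lit 16403475405) (nat_lit 76) (nat_lit 7297222915) (nat_lit 4) (nat_lit 4) (nat_lit 5) (nat_lit 5) (nat_lit 5) (nat_lit 4) (nat_lit 315) (nat_lit 254) (nat_lit 211)) (XT.lf (nat_lit 0) (nat_lit 72168472868) (nat_lit 76) (nat_lit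 12124668209) (nat_lit 76) (nat_lit 2992832740) (nat_lit 4) (nat_lit 4) (nat_lit 5) (nat_lit 5) (nat_lit 5) (nat_lit 4) (nat_lit 316) (nat_lit 254) (nat_lit 210))) (XT.nd (nat_lit 78) (nat_lit 76) (nat_lit 0) (XT.lf (nat_lit 0) (nat_lit 1546959539) (nat_lit 152) (nat_lit 5937847569) (nat_lit 76) (nat_lit 86362222705) (nat_lit 3) (nat_lit 5) (nat_lit 5) (nat_lit 5) (nat_lit 4) (nat_lit 4) (nat_lit 317) (nat_lit 254) (nat_lit 209)) (XT.lf (nat_lit 0) (nat_lit 4054627405) (nat_lit 76) (nat_lit 2306951488) (nat_lit 152) (nat_lit 94559317685) (nat_lit 2) (nat_lit 5) (nat_lit 3) (nat_lit 5) (nat_lit 4) (nat_lit 4) (nat_lit 318) (nat_lit 254) (nat_lit 208)))) (XT.nd (nat_lit 156) (nat_lit 0) (nat_lit 0) (XT.nd (nat_lit 78) (nat_lit 0) (nat_lit 0) (XT.lf (nat_lit 0) (nat_lit 11782933063) (nat_lit 152) (nat_lit 93493541708) (nat_lit 0) (nat_lit 3266483722) (nat_lit 2) (nat_lit 5) (nat_lit 4) (nat_lit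 4) (nat_lit 2) (nat_lit 4) (nat_lit 319) (nat_lit 254) (nat_lit 207)) (XT.lf (nat_lit 0) (nat_lit 17675684492) (nat_lit 152) (nat_lit 89954272163) (nat_lit 0) (nat_lit 9141823805) (nat_lit 2) (nat_lit 5) (nat_lit 4) (nat_lit 4) (nat_lit 2) (nat_lit 4) (nat_lit 320) (nat_lit 254) (nat_lit 206))) (XT.nd (nat_lit 78) (nat_lit 0) (nat_lit 0) (XT.lf (nat_lit 0) (nat_lit 24019270951) (nat_lit 152) (nat_lit 86172004850) (nat_lit 0) (nat_lit 15469288647) (nat_lit 2) (nat_lit 5) (nat_lit 4) (nat_lit 4) (nat_lit 2) (nat_lit 4) (nat_lit 321) (nat_lit 254) (nat_lit 205)) (XT.lf (nat_lit 0) (nat_lit 30851284062) (nat_lit 152) (nat_lit 82124326335) (nat_lit 0) (nat_lit 22286374336) (nat_lit 2) (nat_lit 5) (nat_lit 4) (nat_lit 4) (nat_lit 2) (nat_lit 4) (nat_lit 322) (nat_lit 254) (nat_lit 204))))) (XT.nd (nat_lit 312) (nat_lit 0) (nat_lit 0) (XT.nd (nat_lit 156) (nat_lit 0) (nat_lit 0) (XT.nd (nat_lit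 78) (nat_lit 0) (nat_lit 0) (XT.lf (nat_lit 0) (nat_lit 38212209830) (nat_lit 152) (nat_lit 77787250372) (nat_lit 0) (nat_lit 29633478416) (nat_lit 2) (nat_lit 5) (nat_lit 4) (nat_lit 4) (nat_lit 2) (nat_lit 4) (nat_lit 323) (nat_lit 254) (nat_lit 203)) (XT.lf (nat_lit 0) (nat_lit 46145668556) (nat_lit 152) (nat_lit 73135075773) (nat_lit 0) (nat_lit 37554139283) (nat_lit 2) (nat_lit 5) (nat_lit 4) (nat_lit 4) (nat_lit 2) (nat_lit 4) (nat_lit 324) (nat_lit 254) (nat_lit 202))) (XT.nd (nat_lit 78) (nat_lit 0) (nat_lit 0) (XT.lf (nat_lit 0) (nat_lit 54698673328) (nat_lit 152) (nat_lit 68140234094) (nat_lit 0) (nat_lit 46095294185) (nat_lit 2) (nat_lit 5) (nat_lit 4) (nat_lit 4) (nat_lit 2) (nat_lit 4) (nat_lit 325) (nat_lit 254) (nat_lit 201)) (XT.lf (nat_lit 0) (nat_lit 63921908619) (nat_lit 152) (nat_lit 62773126274) (nat_lit 0) (nat_lit 55307557375) (nat_lit 2) (nat_lit 5) (nat_lit 4)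 (nat_lit 4) (nat_lit 2) (nat_lit 4) (nat_lit 326) (nat_lit 254) (nat_lit 200)))) (XT.nd (nat_lit 156) (nat_lit 0) (nat_lit 0) (XT.nd (nat_lit 78) (nat_lit 0) (nat_lit 0) (XT.lf (nat_lit 0) (nat_lit 73870030638) (nat_lit 152) (nat_lit 57001947229) (nat_lit 0) (nat_lit 65245520041) (nat_lit 2) (nat_lit 5) (nat_lit 4) (nat_lit 4) (nat_lit 2) (nat_lit 4) (nat_lit 327) (nat_lit 254) (nat_lit 199)) (XT.lf (nat_lit 0) (nat_lit 84601991220) (nat_lit 152) (nat_lit 50792497380) (nat_lit 0) (nat_lit 75968073814) (nat_lit 2) (nat_lit 5) (nat_lit 4) (nat_lit 4) (nat_lit 2) (nat_lit 4) (nat_lit 328) (nat_lit 254) (nat_lit 198))) (XT.nd (nat_lit 78) (nat_lit 0) (nat_lit 0) (XT.lf (nat_lit 0) (nat_lit 96181387167) (nat_lit 152) (nat_lit 44107979988) (nat_lit 0) (nat_lit 87538759753) (nat_lit 2) (nat_lit 5) (nat_lit 4) (nat_lit 4) (nat_lit 2) (nat_lit 4) (nat_lit 329) (nat_lit 254) (nat_lit 197)) (XT.lf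 (nat_lit 0) (nat_lit 108676837123) (nat_lit 152) (nat_lit 36908783096) (nat_lit 0) (nat_lit 100026144887) (nat_lit 2) (nat_lit 5) (nat_lit 4) (nat_lit 4) (nat_lit 2) (nat_lit 4) (nat_lit 330) (nat_lit 254) (nat_lit 196)))))) (XT.nd (nat_lit 624) (nat_lit 0) (nat_lit 0) (XT.nd (nat_lit 312) (nat_lit 76) (nat_lit 0) (XT.nd (nat_lit 156) (nat_lit 0) (nat_lit 0) (XT.nd (nat_lit 78) (nat_lit 0) (nat_lit 0) (XT.lf (nat_lit 0) (nat_lit 122162388197) (nat_lit 152) (nat_lit 29152244798) (nat_lit 0) (nat_lit 113504228534) (nat_lit 2) (nat_lit 5) (nat_lit 4) (nat_lit 4) (nat_lit 2) (nat_lit 4) (nat_lit 331) (nat_lit 254) (nat_lit 195)) (XT.lf (nat_lit 0) (nat_lit 136717954768) (nat_lit 152) (nat_lit 20792400422) (nat_lit 0) (nat_lit 128052880819) (nat_lit 2) (nat_lit 5) (nat_lit 4) (nat_lit 4) (nat_lit 2) (nat_lit 4) (nat_lit 332) (nat_lit 254) (nat_lit 194))) (XT.nd (nat_lit 78) (nat_lit 0) (nat_lit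 0) (XT.lf (nat_lit 0) (nat_lit 152429792044) (nat_lit 152) (nat_lit 11779710150) (nat_lit 0) (nat_lit 143758315980) (nat_lit 2) (nat_lit 5) (nat_lit 4) (nat_lit 4) (nat_lit 2) (nat_lit 4) (nat_lit 333) (nat_lit 254) (nat_lit 193)) (XT.lf (nat_lit 0) (nat_lit 169391007209) (nat_lit 152) (nat_lit 2060765447) (nat_lit 0) (nat_lit 160713603260) (nat_lit 2) (nat_lit 5) (nat_lit 4) (nat_lit 4) (nat_lit 2) (nat_lit 4) (nat_lit 334) (nat_lit 254) (nat_lit 192)))) (XT.nd (nat_lit 156) (nat_lit 0) (nat_lit 0) (XT.nd (nat_lit 78) (nat_lit 0) (nat_lit 0) (XT.lf (nat_lit 0) (nat_lit 8865516472) (nat_lit 76) (nat_lit 179049810580) (nat_lit 76) (nat_lit 170366917849) (nat_lit 1) (nat_lit 4) (nat_lit 2) (nat_lit 5) (nat_lit 2) (nat_lit 4) (nat_lit 335) (nat_lit 254) (nat_lit 191)) (XT.lf (nat_lit 0) (nat_lit 20769777114) (nat_lit 76) (nat_lit 187201350691) (nat_lit 76) (nat_lit 178513375754) (nat_lit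 1) (nat_lit 4) (nat_lit 2) (nat_lit 5) (nat_lit 2) (nat_lit 4) (nat_lit 336) (nat_lit 254) (nat_lit 190))) (XT.nd (nat_lit 78) (nat_lit 0) (nat_lit 0) (XT.lf (nat_lit 0) (nat_lit 33614043989) (nat_lit 76) (nat_lit 196011043392) (nat_lit 76) (nat_lit 187318362708) (nat_lit 1) (nat_lit 4) (nat_lit 2) (nat_lit 5) (nat_lit 2) (nat_lit 4) (nat_lit 337) (nat_lit 254) (nat_lit 189)) (XT.lf (nat_lit 0) (nat_lit 47474431270) (nat_lit 76) (nat_lit 205531094270) (nat_lit 76) (nat_lit 196834056413) (nat_lit 1) (nat_lit 4) (nat_lit 2) (nat_lit 5) (nat_lit 2) (nat_lit 4) (nat_lit 338) (nat_lit 254) (nat_lit 188))))) (XT.nd (nat_lit 312) (nat_lit 0) (nat_lit 0) (XT.nd (nat_lit 156) (nat_lit 0) (nat_lit 0) (XT.nd (nat_lit 78) (nat_lit 0) (nat_lit 0) (XT.lf (nat_lit 0) (nat_lit 62433074586) (nat_lit 76) (nat_lit 215817918440) (nat_lit 76) (nat_lit 207116846165) (nat_lit 1) (nat_lit 4) (nat_lit 2) (nat_lit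 5) (nat_lit 2) (nat_lit 4) (nat_lit 339) (nat_lit 254) (nat_lit 187)) (XT.lf (nat_lit 0) (nat_lit 78578617749) (nat_lit 76) (nat_lit 226932474861) (nat_lit 76) (nat_lit 218227667012) (nat_lit 1) (nat_lit 4) (nat_lit 2) (nat_lit 5) (nat_lit 2) (nat_lit 4) (nat_lit 340) (nat_lit 254) (nat_lit 186))) (XT.nd (nat_lit 78) (nat_lit 0) (nat_lit 0) (XT.lf (nat_lit 0) (nat_lit 96006738052) (nat_lit 76) (nat_lit 238940627570) (nat_lit 76) (nat_lit 230232360858) (nat_lit 1) (nat_lit 4) (nat_lit 2) (nat_lit 5) (nat_lit 2) (nat_lit 4) (nat_lit 341) (nat_lit 254) (nat_lit 185)) (XT.lf (nat_lit 0) (nat_lit 114820713244) (nat_lit 76) (nat_lit 251913535992) (nat_lit 76) (nat_lit 243202066628) (nat_lit 1) (nat_lit 4) (nat_lit 2) (nat_lit 5) (nat_lit 2) (nat_lit 4) (nat_lit 342) (nat_lit 254) (nat_lit 184)))) (XT.nd (nat_lit 156) (nat_lit 0) (nat_lit 0) (XT.nd (nat_lit 78) (nat_lit 0) (nat_lit 0) (XT.lf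 (nat_lit 0) (nat_lit 135132033550) (nat_lit 76) (nat_lit 265928076621) (nat_lit 76) (nat_lit 257213641838) (nat_lit 1) (nat_lit 4) (nat_lit 2) (nat_lit 5) (nat_lit 2) (nat_lit 4) (nat_lit 343) (nat_lit 254) (nat_lit 183)) (XT.lf (nat_lit 0) (nat_lit 157061062348) (nat_lit 76) (nat_lit 281067298586) (nat_lit 76) (nat_lit 272350118045) (nat_lit 1) (nat_lit 4) (nat_lit 2) (nat_lit 5) (nat_lit 2) (nat_lit 4) (nat_lit 344) (nat_lit 254) (nat_lit 182))) (XT.nd (nat_lit 78) (nat_lit 0) (nat_lit 0) (XT.lf (nat_lit 0) (nat_lit 180737749439) (nat_lit 76) (nat_lit 297420915795) (nat_lit 76) (nat_lit 288701192886) (nat_lit 1) (nat_lit 4) (nat_lit 2) (nat_lit 5) (nat_lit 2) (nat_lit 4) (nat_lit 345) (nat_lit 254) (nat_lit 181)) (XT.lf (nat_lit 0) (nat_lit 206302401118) (nat_lit 76) (nat_lit 315085838572) (nat_lit 76) (nat_lit 306363761619) (nat_lit 1) (nat_lit 4) (nat_lit 2) (nat_lit 5) (nat_lit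 2) (nat_lit 4) (nat_lit 346) (nat_lit 254) (nat_lit 180))))))))
noncomputable def xc41 : XT := (XT.nd (nat_lit 35100) (nat_lit 0) (nat_lit 304) (XT.nd (nat_lit 1170) (nat_lit 0) (nat_lit 0) (XT.nd (nat_lit 546) (nat_lit 0) (nat_lit 0) (XT.nd (nat_lit 234) (nat_lit 0) (nat_lit 0) (XT.nd (nat_lit 78) (nat_lit 0) (nat_lit 0) (XT.lf (nat_lit 0) (nat_lit 233906511615) (nat_lit 76) (nat_lit 334166747942) (nat_lit 76) (nat_lit 325442491317) (nat_lit 1) (nat_lit 4) (nat_lit 2) (nat_lit 5) (nat_lit 2) (nat_lit 4) (nat_lit 347) (nat_lit 254) (nat_lit 179)) (XT.nd (nat_lit 78) (nat_lit 0) (nat_lit 0) (XT.lf (nat_lit 0) (nat_lit 263713660845) (nat_lit 76) (nat_lit 354776715959) (nat_lit 76) (nat_lit 346050441121) (nat_lit 1) (nat_lit 4) (nat_lit 2) (nat_lit 5) (nat_lit 2) (nat_lit 4) (nat_lit 348) (nat_lit 254) (nat_lit 178)) (XT.lf (nat_lit 0) (nat_lit 295900483767) (nat_lit 76) (nat_lit 377037875768)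 (nat_lit 76) (nat_lit 368309732213) (nat_lit 1) (nat_lit 4) (nat_lit 2) (nat_lit 5) (nat_lit 2) (nat_lit 4) (nat_lit 349) (nat_lit 254) (nat_lit 177)))) (XT.nd (nat_lit 156) (nat_lit 0) (nat_lit 0) (XT.nd (nat_lit 78) (nat_lit 0) (nat_lit 0) (XT.lf (nat_lit 0) (nat_lit 330657717109) (nat_lit 76) (nat_lit 401082145353) (nat_lit 76) (nat_lit 392352271505) (nat_lit 1) (nat_lit 4) (nat_lit 2) (nat_lit 5) (nat_lit 2) (nat_lit 4) (nat_lit 350) (nat_lit 254) (nat_lit 176)) (XT.lf (nat_lit 0) (nat_lit 368191329661) (nat_lit 76) (nat_lit 427052009274) (nat_lit 76) (nat_lit 418320533303) (nat_lit 1) (nat_lit 4) (nat_lit 2) (nat_lit 5) (nat_lit 2) (nat_lit 4) (nat_lit 351) (nat_lit 254) (nat_lit 175))) (XT.nd (nat_lit 78) (nat_lit 0) (nat_lit 0) (XT.lf (nat_lit 0) (nat_lit 408723742830) (nat_lit 76) (nat_lit 455101363021) (nat_lit 76) (nat_lit 446368403602) (nat_lit 1) (nat_lit 4) (nat_lit 2) (nat_lit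 5) (nat_lit 2) (nat_lit 4) (nat_lit 352) (nat_lit 254) (nat_lit 174)) (XT.lf (nat_lit 0) (nat_lit 452495148696) (nat_lit 76) (nat_lit 485396424986) (nat_lit 76) (nat_lit 476662092005) (nat_lit 1) (nat_lit 4) (nat_lit 2) (nat_lit 5) (nat_lit 2) (nat_lit 4) (nat_lit 353) (nat_lit 254) (nat_lit 173))))) (XT.nd (nat_lit 312) (nat_lit 0) (nat_lit 0) (XT.nd (nat_lit 156) (nat_lit 0) (nat_lit 0) (XT.nd (nat_lit 78) (nat_lit 0) (nat_lit 0) (XT.lf (nat_lit 0) (nat_lit 499764933366) (nat_lit 76) (nat_lit 518116721463) (nat_lit 76) (nat_lit 509381116665) (nat_lit 1) (nat_lit 4) (nat_lit 2) (nat_lit 5) (nat_lit 2) (nat_lit 4) (nat_lit 354) (nat_lit 254) (nat_lit 172)) (XT.lf (nat_lit 0) (nat_lit 550813214084) (nat_lit 76) (nat_lit 553456150506) (nat_lit 76) (nat_lit 544719368099) (nat_lit 1) (nat_lit 4) (nat_lit 2) (nat_lit 5) (nat_lit 2) (nat_lit 4) (nat_lit 355) (nat_lit 254) (nat_lit 171))) (XT.nd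 (nat_lit 78) (nat_lit 0) (nat_lit 0) (XT.lf (nat_lit 0) (nat_lit 605942499179) (nat_lit 76) (nat_lit 591624130952) (nat_lit 76) (nat_lit 582886258167) (nat_lit 1) (nat_lit 4) (nat_lit 2) (nat_lit 5) (nat_lit 2) (nat_lit 4) (nat_lit 356) (nat_lit 254) (nat_lit 170)) (XT.lf (nat_lit 0) (nat_lit 665479480711) (nat_lit 76) (nat_lit 632846843426) (nat_lit 76) (nat_lit 624107961032) (nat_lit 1) (nat_lit 4) (nat_lit 2) (nat_lit 5) (nat_lit 2) (nat_lit 4) (nat_lit 357) (nat_lit 254) (nat_lit 169)))) (XT.nd (nat_lit 156) (nat_lit 0) (nat_lit 0) (XT.nd (nat_lit 78) (nat_lit 0) (nat_lit 0) (XT.lf (nat_lit 0) (nat_lit 729776970422) (nat_lit 76) (nat_lit 677368570670) (nat_lit 76) (nat_lit 668628753453) (nat_lit 1) (nat_lit 4) (nat_lit 2) (nat_lit 5) (nat_lit 2) (nat_lit 4) (nat_lit 358) (nat_lit 254) (nat_lit 168)) (XT.lf (nat_lit 0) (nat_lit 799215990475) (nat_lit 76) (nat_lit 725453145141) (nat_lit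 76) (nat_lit 716712462346) (nat_lit 1) (nat_lit 4) (nat_lit 2) (nat_lit 5) (nat_lit 2) (nat_lit 4) (nat_lit 359) (nat_lit 254) (nat_lit 167))) (XT.nd (nat_lit 78) (nat_lit 0) (nat_lit 0) (XT.lf (nat_lit 0) (nat_lit 874208031357) (nat_lit 76) (nat_lit 777385512465) (nat_lit 76) (nat_lit 768644028210) (nat_lit 1) (nat_lit 4) (nat_lit 2) (nat_lit 5) (nat_lit 2) (nat_lit 4) (nat_lit 360) (nat_lit 254) (nat_lit 166)) (XT.lf (nat_lit 0) (nat_lit 955197490349) (nat_lit 76) (nat_lit 833473420004) (nat_lit 76) (nat_lit 824731193656) (nat_lit 1) (nat_lit 4) (nat_lit 2) (nat_lit 5) (nat_lit 2) (nat_lit 4) (nat_lit 361) (nat_lit 254) (nat_lit 165)))))) (XT.nd (nat_lit 624) (nat_lit 0) (nat_lit 0) (XT.nd (nat_lit 312) (nat_lit 0) (nat_lit 0) (XT.nd (nat_lit 156) (nat_lit 0) (nat_lit 0) (XT.nd (nat_lit 78) (nat_lit 0) (nat_lit 0) (XT.lf (nat_lit 0) (nat_lit 1042664304985) (nat_lit 76) (nat_lit 894049240545)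 (nat_lit 76) (nat_lit 885306327073) (nat_lit 1) (nat_lit 4) (nat_lit 2) (nat_lit 5) (nat_lit 2) (nat_lit 4) (nat_lit 362) (nat_lit 254) (nat_lit 164)) (XT.lf (nat_lit 0) (nat_lit 1137126797130) (nat_lit 76) (nat_lit 959471941911) (nat_lit 76) (nat_lit 950728392214) (nat_lit 1) (nat_lit 4) (nat_lit 2) (nat_lit 5) (nat_lit 2) (nat_lit 4) (nat_lit 363) (nat_lit 254) (nat_lit 163))) (XT.nd (nat_lit 78) (nat_lit 0) (nat_lit 0) (XT.lf (nat_lit 0) (nat_lit 1239144744514) (nat_lit 76) (nat_lit 1030129214186) (nat_lit 76) (nat_lit 1021385075392) (nat_lit 1) (nat_lit 4) (nat_lit 2) (nat_lit 5) (nat_lit 2) (nat_lit 4) (nat_lit 364) (nat_lit 254) (nat_lit 162)) (XT.lf (nat_lit 0) (nat_lit 1349322697938) (nat_lit 76) (nat_lit 1106439767131) (nat_lit 76) (nat_lit 1097695082876) (nat_lit 1) (nat_lit 4) (nat_lit 2) (nat_lit 5) (nat_lit 2) (nat_lit 4) (nat_lit 365) (nat_lit 254) (nat_lit 161)))) (XT.nd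 (nat_lit 156) (nat_lit 0) (nat_lit 0) (XT.nd (nat_lit 78) (nat_lit 0) (nat_lit 0) (XT.lf (nat_lit 0) (nat_lit 1468313563791) (nat_lit 76) (nat_lit 1188855811430) (nat_lit 76) (nat_lit 1180110622119) (nat_lit 1) (nat_lit 4) (nat_lit 2) (nat_lit 5) (nat_lit 2) (nat_lit 4) (nat_lit 366) (nat_lit 254) (nat_lit 160)) (XT.lf (nat_lit 0) (nat_lit 1596822473131) (nat_lit 76) (nat_lit 1277865738456) (nat_lit 76) (nat_lit 1269120081501) (nat_lit 1) (nat_lit 4) (nat_lit 2) (nat_lit 5) (nat_lit 2) (nat_lit 4) (nat_lit 367) (nat_lit 254) (nat_lit 159))) (XT.nd (nat_lit 78) (nat_lit 0) (nat_lit 0) (XT.lf (nat_lit 0) (nat_lit 1735610960236) (nat_lit 76) (nat_lit 1373997014445) (nat_lit 76) (nat_lit 1365250924485) (nat_lit 1) (nat_lit 4) (nat_lit 2) (nat_lit 5) (nat_lit 2) (nat_lit 4) (nat_lit 368) (nat_lit 254) (nat_lit 158)) (XT.lf (nat_lit 0) (nat_lit 1885501475399) (nat_lit 76) (nat_lit 1477819306216)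 (nat_lit 76) (nat_lit 1469072815326) (nat_lit 1) (nat_lit 4) (nat_lit 2) (nat_lit 5) (nat_lit 2) (nat_lit 4) (nat_lit 369) (nat_lit 254) (nat_lit 157))))) (XT.nd (nat_lit 32994) (nat_lit 0) (nat_lit 2432) (XT.nd (nat_lit 32838) (nat_lit 0) (nat_lit 3268) (XT.nd (nat_lit 78) (nat_lit 0) (nat_lit 0) (XT.lf (nat_lit 0) (nat_lit 2047382258709) (nat_lit 76) (nat_lit 1589947856980) (nat_lit 76) (nat_lit 1581200994859) (nat_lit 1) (nat_lit 4) (nat_lit 2) (nat_lit 5) (nat_lit 2) (nat_lit 4) (nat_lit 370) (nat_lit 254) (nat_lit 156)) (XT.lf (nat_lit 0) (nat_lit 2222212603699) (nat_lit 76) (nat_lit 1711047132223) (nat_lit 76) (nat_lit 1702299926370) (nat_lit 1) (nat_lit 4) (nat_lit 2) (nat_lit 5) (nat_lit 2) (nat_lit 4) (nat_lit 371) (nat_lit 254) (nat_lit 155))) (XT.nd (nat_lit 78) (nat_lit 532) (nat_lit 0) (XT.lf (nat_lit 0) (nat_lit 3231938377) (nat_lit 380) (nat_lit 186647782) (nat_lit 380)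 (nat_lit 186647782) (nat_lit 51) (nat_lit 4) (nat_lit 56) (nat_lit 5) (nat_lit 56) (nat_lit 4) (nat_lit 270) (nat_lit 255) (nat_lit 255)) (XT.lf (nat_lit 0) (nat_lit 2926426459) (nat_lit 532) (nat_lit 3034549651) (nat_lit 0) (nat_lit 1414919456) (nat_lit 44) (nat_lit 5) (nat_lit 51) (nat_lit 4) (nat_lit 44) (nat_lit 4) (nat_lit 271) (nat_lit 255) (nat_lit 254)))) (XT.nd (nat_lit 156) (nat_lit 532) (nat_lit 0) (XT.nd (nat_lit 78) (nat_lit 76) (nat_lit 0) (XT.lf (nat_lit 0) (nat_lit 2140796226) (nat_lit 228) (nat_lit 4168841367) (nat_lit 228) (nat_lit 1257790843) (nat_lit 41) (nat_lit 4) (nat_lit 44) (nat_lit 5) (nat_lit 44) (nat_lit 4) (nat_lit 272) (nat_lit 255) (nat_lit 253)) (XT.lf (nat_lit 0) (nat_lit 1927245447) (nat_lit 304) (nat_lit 198253624) (nat_lit 76) (nat_lit 5657473646) (nat_lit 40) (nat_lit 5) (nat_lit 44) (nat_lit 5) (nat_lit 41) (nat_lit 4) (nat_lit 273) (nat_lit 255)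 (nat_lit 252))) (XT.nd (nat_lit 78) (nat_lit 304) (nat_lit 0) (XT.lf (nat_lit 0) (nat_lit 5215003845) (nat_lit 304) (nat_lit 2596824080) (nat_lit 0) (nat_lit 208700931) (nat_lit 37) (nat_lit 5) (nat_lit 41) (nat_lit 4) (nat_lit 37) (nat_lit 4) (nat_lit 274) (nat_lit 255) (nat_lit 251)) (XT.lf (nat_lit 0) (nat_lit 385311602) (nat_lit 304) (nat_lit 5233561048) (nat_lit 76) (nat_lit 2664150159) (nat_lit 33) (nat_lit 5) (nat_lit 37) (nat_lit 5) (nat_lit 34) (nat_lit 4) (nat_lit 275) (nat_lit 255) (nat_lit 250))))))) (XT.nd (nat_lit 1248) (nat_lit 684) (nat_lit 0) (XT.nd (nat_lit 624) (nat_lit 608) (nat_lit 0) (XT.nd (nat_lit 312) (nat_lit 304) (nat_lit 0) (XT.nd (nat_lit 156) (nat_lit 380) (nat_lit 0) (XT.nd (nat_lit 78) (nat_lit 0) (nat_lit 0) (XT.lf (nat_lit 0) (nat_lit 407556175) (nat_lit 152) (nat_lit 3147766498) (nat_lit 228) (nat_lit 5015842995) (nat_lit 31) (nat_lit 5) (nat_lit 33)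 (nat_lit 5) (nat_lit 34) (nat_lit 4) (nat_lit 276) (nat_lit 255) (nat_lit 249)) (XT.lf (nat_lit 0) (nat_lit 6532082127) (nat_lit 152) (nat_lit 391738512) (nat_lit 228) (nat_lit 1963427461) (nat_lit 31) (nat_lit 5) (nat_lit 33) (nat_lit 5) (nat_lit 34) (nat_lit 4) (nat_lit 277) (nat_lit 255) (nat_lit 248))) (XT.nd (nat_lit 78) (nat_lit 152) (nat_lit 0) (XT.lf (nat_lit 0) (nat_lit 1233426586) (nat_lit 228) (nat_lit 5477144002) (nat_lit 76) (nat_lit 2518537275) (nat_lit 28) (nat_lit 5) (nat_lit 31) (nat_lit 5) (nat_lit 29) (nat_lit 4) (nat_lit 278) (nat_lit 255) (nat_lit 247)) (XT.lf (nat_lit 0) (nat_lit 592331886) (nat_lit 152) (nat_lit 3895708204) (nat_lit 228) (nat_lit 5113929758) (nat_lit 26) (nat_lit 5) (nat_lit 28) (nat_lit 5) (nat_lit 29) (nat_lit 4) (nat_lit 279) (nat_lit 255) (nat_lit 246)))) (XT.nd (nat_lit 156) (nat_lit 76) (nat_lit 0) (XT.nd (nat_lit 78) (nat_lit 228) (nat_lit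 0) (XT.lf (nat_lit 0) (nat_lit 7202618559) (nat_lit 152) (nat_lit 775107165) (nat_lit 228) (nat_lit 2029310924) (nat_lit 26) (nat_lit 5) (nat_lit 28) (nat_lit 5) (nat_lit 29) (nat_lit 4) (nat_lit 280) (nat_lit 255) (nat_lit 245)) (XT.lf (nat_lit 0) (nat_lit 1225661583) (nat_lit 228) (nat_lit 6701819440) (nat_lit 76) (nat_lit 2515726891) (nat_lit 23) (nat_lit 5) (nat_lit 26) (nat_lit 5) (nat_lit 24) (nat_lit 4) (nat_lit 281) (nat_lit 255) (nat_lit 244))) (XT.nd (nat_lit 78) (nat_lit 76) (nat_lit 0) (XT.lf (nat_lit 0) (nat_lit 4568235147) (nat_lit 228) (nat_lit 263875673) (nat_lit 76) (nat_lit 6083277716) (nat_lit 23) (nat_lit 5) (nat_lit 26) (nat_lit 5) (nat_lit 24) (nat_lit 4) (nat_lit 282) (nat_lit 255) (nat_lit 243)) (XT.lf (nat_lit 0) (nat_lit 6796448101) (nat_lit 76) (nat_lit 1395255229) (nat_lit 152) (nat_lit 3232819987) (nat_lit 22) (nat_lit 5) (nat_lit 23) (nat_lit 5) (nat_lit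 24) (nat_lit 4) (nat_lit 283) (nat_lit 255) (nat_lit 242))))) (XT.nd (nat_lit 312) (nat_lit 304) (nat_lit 0) (XT.nd (nat_lit 156) (nat_lit 76) (nat_lit 0) (XT.nd (nat_lit 78) (nat_lit 0) (nat_lit 0) (XT.lf (nat_lit 0) (nat_lit 94930040) (nat_lit 228) (nat_lit 9694665248) (nat_lit 76) (nat_lit 2187099594) (nat_lit 19) (nat_lit 5) (nat_lit 22) (nat_lit 5) (nat_lit 20) (nat_lit 4) (nat_lit 284) (nat_lit 255) (nat_lit 241)) (XT.lf (nat_lit 0) (nat_lit 3535435532) (nat_lit 228) (nat_lit 2916666985) (nat_lit 76) (nat_lit 6112730220) (nat_lit 19) (nat_lit 5) (nat_lit 22) (nat_lit 5) (nat_lit 20) (nat_lit 4) (nat_lit 285) (nat_lit 255) (nat_lit 240))) (XT.nd (nat_lit 78) (nat_lit 0) (nat_lit 0) (XT.lf (nat_lit 0) (nat_lit 4403091700) (nat_lit 76) (nat_lit 2819840511) (nat_lit 152) (nat_lit 5979539576) (nat_lit 18) (nat_lit 5) (nat_lit 19) (nat_lit 5) (nat_lit 20) (nat_lit 4) (nat_lit 286) (nat_lit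 255) (nat_lit 239)) (XT.lf (nat_lit 0) (nat_lit 11182329738) (nat_lit 152) (nat_lit 1662651738) (nat_lit 0) (nat_lit 1048164535) (nat_lit 18) (nat_lit 5) (nat_lit 20) (nat_lit 4) (nat_lit 18) (nat_lit 4) (nat_lit 287) (nat_lit 255) (nat_lit 238)))) (XT.nd (nat_lit 156) (nat_lit 76) (nat_lit 0) (XT.nd (nat_lit 78) (nat_lit 0) (nat_lit 0) (XT.lf (nat_lit 0) (nat_lit 878269099) (nat_lit 228) (nat_lit 8585392839) (nat_lit 76) (nat_lit 5165998375) (nat_lit 15) (nat_lit 5) (nat_lit 18) (nat_lit 5) (nat_lit 16) (nat_lit 4) (nat_lit 288) (nat_lit 255) (nat_lit 237)) (XT.lf (nat_lit 0) (nat_lit 4533925003) (nat_lit 228) (nat_lit 1239061305) (nat_lit 76) (nat_lit 9652544555) (nat_lit 15) (nat_lit 5) (nat_lit 18) (nat_lit 5) (nat_lit 16) (nat_lit 4) (nat_lit 289) (nat_lit 255) (nat_lit 236))) (XT.nd (nat_lit 78) (nat_lit 0) (nat_lit 0) (XT.lf (nat_lit 0) (nat_lit 6844488520) (nat_lit 76) (nat_lit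 1690356424) (nat_lit 152) (nat_lit 7746130653) (nat_lit 14) (nat_lit 5) (nat_lit 15) (nat_lit 5) (nat_lit 16) (nat_lit 4) (nat_lit 290) (nat_lit 255) (nat_lit 235)) (XT.lf (nat_lit 0) (nat_lit 12846024405) (nat_lit 152) (nat_lit 1818060298) (nat_lit 0) (nat_lit 2541676210) (nat_lit 14) (nat_lit 5) (nat_lit 16) (nat_lit 4) (nat_lit 14) (nat_lit 4) (nat_lit 291) (nat_lit 255) (nat_lit 234)))))) (XT.nd (nat_lit 624) (nat_lit 228) (nat_lit 0) (XT.nd (nat_lit 312) (nat_lit 228) (nat_lit 0) (XT.nd (nat_lit 156) (nat_lit 76) (nat_lit 0) (XT.nd (nat_lit 78) (nat_lit 76) (nat_lit 0) (XT.lf (nat_lit 0) (nat_lit 6511252336) (nat_lit 76) (nat_lit 11089530929) (nat_lit 76) (nat_lit 595961982) (nat_lit 13) (nat_lit 4) (nat_lit 14) (nat_lit 5) (nat_lit 14) (nat_lit 4) (nat_lit 292) (nat_lit 255) (nat_lit 233)) (XT.lf (nat_lit 0) (nat_lit 3245226336) (nat_lit 152) (nat_lit 3918702567) (nat_lit 76) (nat_lit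 12100513110) (nat_lit 12) (nat_lit 5) (nat_lit 14) (nat_lit 5) (nat_lit 13) (nat_lit 4) (nat_lit 293) (nat_lit 255) (nat_lit 232))) (XT.nd (nat_lit 78) (nat_lit 0) (nat_lit 0) (XT.lf (nat_lit 0) (nat_lit 4511820431) (nat_lit 76) (nat_lit 2864535374) (nat_lit 152) (nat_lit 13038860985) (nat_lit 11) (nat_lit 5) (nat_lit 12) (nat_lit 5) (nat_lit 13) (nat_lit 4) (nat_lit 294) (nat_lit 255) (nat_lit 231)) (XT.lf (nat_lit 0) (nat_lit 11898267752) (nat_lit 152) (nat_lit 8024562536) (nat_lit 0) (nat_lit 1730481476) (nat_lit 11) (nat_lit 5) (nat_lit 13) (nat_lit 4) (nat_lit 11) (nat_lit 4) (nat_lit 295) (nat_lit 255) (nat_lit 230)))) (XT.nd (nat_lit 156) (nat_lit 152) (nat_lit 0) (XT.nd (nat_lit 78) (nat_lit 0) (nat_lit 0) (XT.lf (nat_lit 0) (nat_lit 266893628) (nat_lit 76) (nat_lit 16510291401) (nat_lit 76) (nat_lit 6213724660) (nat_lit 10) (nat_lit 4) (nat_lit 11) (nat_lit 5) (nat_lit 11) (nat_lit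 4) (nat_lit 296) (nat_lit 255) (nat_lit 229)) (XT.lf (nat_lit 0) (nat_lit 9525363687) (nat_lit 76) (nat_lit 12657554703) (nat_lit 76) (nat_lit 2241746790) (nat_lit 10) (nat_lit 4) (nat_lit 11) (nat_lit 5) (nat_lit 11) (nat_lit 4) (nat_lit 297) (nat_lit 255) (nat_lit 228))) (XT.nd (nat_lit 78) (nat_lit 76) (nat_lit 0) (XT.lf (nat_lit 0) (nat_lit 1866723149) (nat_lit 152) (nat_lit 6643432252) (nat_lit 76) (nat_lit 17465390735) (nat_lit 9) (nat_lit 5) (nat_lit 11) (nat_lit 5) (nat_lit 10) (nat_lit 4) (nat_lit 298) (nat_lit 255) (nat_lit 227)) (XT.lf (nat_lit 0) (nat_lit 2189417400) (nat_lit 76) (nat_lit 3973017161) (nat_lit 152) (nat_lit 21485086244) (nat_lit 8) (nat_lit 5) (nat_lit 9) (nat_lit 5) (nat_lit 10) (nat_lit 4) (nat_lit 299) (nat_lit 255) (nat_lit 226))))) (XT.nd (nat_lit 312) (nat_lit 152) (nat_lit 0) (XT.nd (nat_lit 156) (nat_lit 76) (nat_lit 0) (XT.nd (nat_lit 78) (nat_lit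 0) (nat_lit 0) (XT.lf (nat_lit 0) (nat_lit 10938269510) (nat_lit 152) (nat_lit 17494648488) (nat_lit 0) (nat_lit 1009469534) (nat_lit 8) (nat_lit 5) (nat_lit 10) (nat_lit 4) (nat_lit 8) (nat_lit 4) (nat_lit 300) (nat_lit 255) (nat_lit 225)) (XT.lf (nat_lit 0) (nat_lit 16132522820) (nat_lit 152) (nat_lit 9122890951) (nat_lit 0) (nat_lit 6122569305) (nat_lit 8) (nat_lit 5) (nat_lit 10) (nat_lit 4) (nat_lit 8) (nat_lit 4) (nat_lit 301) (nat_lit 255) (nat_lit 224))) (XT.nd (nat_lit 78) (nat_lit 76) (nat_lit 0) (XT.lf (nat_lit 0) (nat_lit 21680424091) (nat_lit 152) (nat_lit 197669222) (nat_lit 0) (nat_lit 11595328412) (nat_lit 8) (nat_lit 5) (nat_lit 10) (nat_lit 4) (nat_lit 8) (nat_lit 4) (nat_lit 302) (nat_lit 255) (nat_lit 223)) (XT.lf (nat_lit 0) (nat_lit 9825413897) (nat_lit 76) (nat_lit 18025737320) (nat_lit 76) (nat_lit 7871065563) (nat_lit 7) (nat_lit 4) (nat_lit 8) (nat_lit 5) (nat_lit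 8) (nat_lit 4) (nat_lit 303) (nat_lit 255) (nat_lit 222)))) (XT.nd (nat_lit 156) (nat_lit 76) (nat_lit 0) (XT.nd (nat_lit 78) (nat_lit 76) (nat_lit 0) (XT.lf (nat_lit 0) (nat_lit 20556647601) (nat_lit 76) (nat_lit 13908707112) (nat_lit 76) (nat_lit 3689613060) (nat_lit 7) (nat_lit 4) (nat_lit 8) (nat_lit 5) (nat_lit 8) (nat_lit 4) (nat_lit 304) (nat_lit 255) (nat_lit 221)) (XT.lf (nat_lit 0) (nat_lit 732178976) (nat_lit 152) (nat_lit 8755812052) (nat_lit 76) (nat_lit 31297017428) (nat_lit 6) (nat_lit 5) (nat_lit 8) (nat_lit 5) (nat_lit 7) (nat_lit 4) (nat_lit 305) (nat_lit 255) (nat_lit 220))) (XT.nd (nat_lit 78) (nat_lit 0) (nat_lit 0) (XT.lf (nat_lit 0) (nat_lit 637583672) (nat_lit 76) (nat_lit 4637204659) (nat_lit 152) (nat_lit 38345714621) (nat_lit 5) (nat_lit 5) (nat_lit 6) (nat_lit 5) (nat_lit 7) (nat_lit 4) (nat_lit 306) (nat_lit 255) (nat_lit 219)) (XT.lf (nat_lit 0) (nat_lit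 10392394272) (nat_lit 152) (nat_lit 35496997873) (nat_lit 0) (nat_lit 776545613) (nat_lit 5) (nat_lit 5) (nat_lit 7) (nat_lit 4) (nat_lit 5) (nat_lit 4) (nat_lit 307) (nat_lit 255) (nat_lit 218))))))))
noncomputable def xc42 : XT := (XT.nd (nat_lit 2418) (nat_lit 0) (nat_lit 0) (XT.nd (nat_lit 1170) (nat_lit 76) (nat_lit 0) (XT.nd (nat_lit 546) (nat_lit 152) (nat_lit 0) (XT.nd (nat_lit 234) (nat_lit 76) (nat_lit 0) (XT.nd (nat_lit 78) (nat_lit 0) (nat_lit 0) (XT.lf (nat_lit 0) (nat_lit 15994948789) (nat_lit 152) (nat_lit 27618785671) (nat_lit 0) (nat_lit 6335255398) (nat_lit 5) (nat_lit 5) (nat_lit 7) (nat_lit 4) (nat_lit 5) (nat_lit 4) (nat_lit 308) (nat_lit 255) (nat_lit 217)) (XT.nd (nat_lit 78) (nat_lit 0) (nat_lit 0) (XT.lf (nat_lit 0) (nat_lit 22004127321) (nat_lit 152) (nat_lit 19190072091) (nat_lit 0) (nat_lit 12303836957) (nat_lit 5) (nat_lit 5) (nat_lit 7) (nat_lit 4) (nat_lit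 5) (nat_lit 4) (nat_lit 309) (nat_lit 255) (nat_lit 216)) (XT.lf (nat_lit 0) (nat_lit 28455539816) (nat_lit 152) (nat_lit 10160909199) (nat_lit 0) (nat_lit 18717659662) (nat_lit 5) (nat_lit 5) (nat_lit 7) (nat_lit 4) (nat_lit 5) (nat_lit 4) (nat_lit 310) (nat_lit 255) (nat_lit 215)))) (XT.nd (nat_lit 156) (nat_lit 0) (nat_lit 0) (XT.nd (nat_lit 78) (nat_lit 76) (nat_lit 0) (XT.lf (nat_lit 0) (nat_lit 35387416866) (nat_lit 152) (nat_lit 477790845) (nat_lit 0) (nat_lit 25614731351) (nat_lit 5) (nat_lit 5) (nat_lit 7) (nat_lit 4) (nat_lit 5) (nat_lit 4) (nat_lit 311) (nat_lit 255) (nat_lit 214)) (XT.lf (nat_lit 0) (nat_lit 10438858387) (nat_lit 76) (nat_lit 32653032668) (nat_lit 76) (nat_lit 22848119967) (nat_lit 4) (nat_lit 4) (nat_lit 5) (nat_lit 5) (nat_lit 5) (nat_lit 4) (nat_lit 312) (nat_lit 255) (nat_lit 213))) (XT.nd (nat_lit 78) (nat_lit 0) (nat_lit 0) (XT.lf (nat_lit 0) (nat_lit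 22194302232) (nat_lit 76) (nat_lit 29199437681) (nat_lit 76) (nat_lit 19364684993) (nat_lit 4) (nat_lit 4) (nat_lit 5) (nat_lit 5) (nat_lit 5) (nat_lit 4) (nat_lit 313) (nat_lit 255) (nat_lit 212)) (XT.lf (nat_lit 0) (nat_lit 34833042960) (nat_lit 76) (nat_lit 25497020650) (nat_lit 76) (nat_lit 15634638343) (nat_lit 4) (nat_lit 4) (nat_lit 5) (nat_lit 5) (nat_lit 5) (nat_lit 4) (nat_lit 314) (nat_lit 255) (nat_lit 211))))) (XT.nd (nat_lit 312) (nat_lit 76) (nat_lit 0) (XT.nd (nat_lit 156) (nat_lit 76) (nat_lit 0) (XT.nd (nat_lit 78) (nat_lit 0) (nat_lit 0) (XT.lf (nat_lit 0) (nat_lit 48429976813) (nat_lit 76) (nat_lit 21523841325) (nat_lit 76) (nat_lit 11635876039) (nat_lit 4) (nat_lit 4) (nat_lit 5) (nat_lit 5) (nat_lit 5) (nat_lit 4) (nat_lit 315) (nat_lit 255) (nat_lit 210)) (XT.lf (nat_lit 0) (nat_lit 63065678213) (nat_lit 76) (nat_lit 17256354940) (nat_lit 76) (nat_lit 7344701710)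 (nat_lit 4) (nat_lit 4) (nat_lit 5) (nat_lit 5) (nat_lit 5) (nat_lit 4) (nat_lit 316) (nat_lit 255) (nat_lit 209))) (XT.nd (nat_lit 78) (nat_lit 76) (nat_lit 0) (XT.lf (nat_lit 0) (nat_lit 78826877243) (nat_lit 76) (nat_lit 12669272688) (nat_lit 76) (nat_lit 2735686176) (nat_lit 4) (nat_lit 4) (nat_lit 5) (nat_lit 5) (nat_lit 5) (nat_lit 4) (nat_lit 317) (nat_lit 255) (nat_lit 208)) (XT.lf (nat_lit 0) (nat_lit 2107505730) (nat_lit 152) (nat_lit 5570283185) (nat_lit 76) (nat_lit 93641844928) (nat_lit 3) (nat_lit 5) (nat_lit 5) (nat_lit 5) (nat_lit 4) (nat_lit 4) (nat_lit 318) (nat_lit 255) (nat_lit 207)))) (XT.nd (nat_lit 156) (nat_lit 0) (nat_lit 0) (XT.nd (nat_lit 78) (nat_lit 0) (nat_lit 0) (XT.lf (nat_lit 0) (nat_lit 5200258340) (nat_lit 76) (nat_lit 2094432861) (nat_lit 152) (nat_lit 101665742964) (nat_lit 2) (nat_lit 5) (nat_lit 3) (nat_lit 5) (nat_lit 4) (nat_lit 4) (nat_lit 319)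 (nat_lit 255) (nat_lit 206)) (XT.lf (nat_lit 0) (nat_lit 13127174794) (nat_lit 152) (nat_lit 100189835021) (nat_lit 0) (nat_lit 3877072289) (nat_lit 2) (nat_lit 5) (nat_lit 4) (nat_lit 4) (nat_lit 2) (nat_lit 4) (nat_lit 320) (nat_lit 255) (nat_lit 205))) (XT.nd (nat_lit 78) (nat_lit 0) (nat_lit 0) (XT.lf (nat_lit 0) (nat_lit 19461597664) (nat_lit 152) (nat_lit 96425437989) (nat_lit 0) (nat_lit 10196567737) (nat_lit 2) (nat_lit 5) (nat_lit 4) (nat_lit 4) (nat_lit 2) (nat_lit 4) (nat_lit 321) (nat_lit 255) (nat_lit 204)) (XT.lf (nat_lit 0) (nat_lit 26285125972) (nat_lit 152) (nat_lit 92394306028) (nat_lit 0) (nat_lit 17006274357) (nat_lit 2) (nat_lit 5) (nat_lit 4) (nat_lit 4) (nat_lit 2) (nat_lit 4) (nat_lit 322) (nat_lit 255) (nat_lit 203)))))) (XT.nd (nat_lit 624) (nat_lit 76) (nat_lit 0) (XT.nd (nat_lit 312) (nat_lit 0) (nat_lit 0) (XT.nd (nat_lit 156) (nat_lit 0) (nat_lit 0) (XT.nd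 (nat_lit 78) (nat_lit 0) (nat_lit 0) (XT.lf (nat_lit 0) (nat_lit 33638195440) (nat_lit 152) (nat_lit 88072550950) (nat_lit 0) (nat_lit 24346545966) (nat_lit 2) (nat_lit 5) (nat_lit 4) (nat_lit 4) (nat_lit 2) (nat_lit 4) (nat_lit 323) (nat_lit 255) (nat_lit 202)) (XT.lf (nat_lit 0) (nat_lit 41564379814) (nat_lit 152) (nat_lit 83434562355) (nat_lit 0) (nat_lit 32260880470) (nat_lit 2) (nat_lit 5) (nat_lit 4) (nat_lit 4) (nat_lit 2) (nat_lit 4) (nat_lit 324) (nat_lit 255) (nat_lit 201))) (XT.nd (nat_lit 78) (nat_lit 0) (nat_lit 0) (XT.lf (nat_lit 0) (nat_lit 50110649075) (nat_lit 152) (nat_lit 78452855865) (nat_lit 0) (nat_lit 40796177630) (nat_lit 2) (nat_lit 5) (nat_lit 4) (nat_lit 4) (nat_lit 2) (nat_lit 4) (nat_lit 325) (nat_lit 255) (nat_lit 200)) (XT.lf (nat_lit 0) (nat_lit 59327647782) (nat_lit 152) (nat_lit 73097910257) (nat_lit 0) (nat_lit 50003016984) (nat_lit 2) (nat_lit 5) (nat_lit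 4) (nat_lit 4) (nat_lit 2) (nat_lit 4) (nat_lit 326) (nat_lit 255) (nat_lit 199)))) (XT.nd (nat_lit 156) (nat_lit 0) (nat_lit 0) (XT.nd (nat_lit 78) (nat_lit 0) (nat_lit 0) (XT.lf (nat_lit 0) (nat_lit 69269995186) (nat_lit 152) (nat_lit 67337992519) (nat_lit 0) (nat_lit 59935957579) (nat_lit 2) (nat_lit 5) (nat_lit 4) (nat_lit 4) (nat_lit 2) (nat_lit 4) (nat_lit 327) (nat_lit 255) (nat_lit 198)) (XT.lf (nat_lit 0) (nat_lit 79996608902) (nat_lit 152) (nat_lit 61138969807) (nat_lit 0) (nat_lit 70653861287) (nat_lit 2) (nat_lit 5) (nat_lit 4) (nat_lit 4) (nat_lit 2) (nat_lit 4) (nat_lit 328) (nat_lit 255) (nat_lit 197))) (XT.nd (nat_lit 78) (nat_lit 0) (nat_lit 0) (XT.lf (nat_lit 0) (nat_lit 91571054047) (nat_lit 152) (nat_lit 54464107171) (nat_lit 0) (nat_lit 82220241611) (nat_lit 2) (nat_lit 5) (nat_lit 4) (nat_lit 4) (nat_lit 2) (nat_lit 4) (nat_lit 329) (nat_lit 255) (nat_lit 196))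 (XT.lf (nat_lit 0) (nat_lit 104061919927) (nat_lit 152) (nat_lit 47273849868) (nat_lit 0) (nat_lit 94703640063) (nat_lit 2) (nat_lit 5) (nat_lit 4) (nat_lit 4) (nat_lit 2) (nat_lit 4) (nat_lit 330) (nat_lit 255) (nat_lit 195))))) (XT.nd (nat_lit 312) (nat_lit 76) (nat_lit 0) (XT.nd (nat_lit 156) (nat_lit 0) (nat_lit 0) (XT.nd (nat_lit 78) (nat_lit 0) (nat_lit 0) (XT.lf (nat_lit 0) (nat_lit 117543226488) (nat_lit 152) (nat_lit 39525588967) (nat_lit 0) (nat_lit 108178032338) (nat_lit 2) (nat_lit 5) (nat_lit 4) (nat_lit 4) (nat_lit 2) (nat_lit 4) (nat_lit 331) (nat_lit 255) (nat_lit 194)) (XT.lf (nat_lit 0) (nat_lit 132094862953) (nat_lit 152) (nat_lit 31173408848) (nat_lit 0) (nat_lit 122723266687) (nat_lit 2) (nat_lit 5) (nat_lit 4) (nat_lit 4) (nat_lit 2) (nat_lit 4) (nat_lit 332) (nat_lit 255) (nat_lit 193))) (XT.nd (nat_lit 78) (nat_lit 0) (nat_lit 0) (XT.lf (nat_lit 0) (nat_lit 147803061242)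 (nat_lit 152) (nat_lit 22167815110) (nat_lit 0) (nat_lit 138425537091) (nat_lit 2) (nat_lit 5) (nat_lit 4) (nat_lit 4) (nat_lit 2) (nat_lit 4) (nat_lit 333) (nat_lit 255) (nat_lit 192)) (XT.lf (nat_lit 0) (nat_lit 164760906974) (nat_lit 152) (nat_lit 12455441272) (nat_lit 0) (nat_lit 155377894042) (nat_lit 2) (nat_lit 5) (nat_lit 4) (nat_lit 4) (nat_lit 2) (nat_lit 4) (nat_lit 334) (nat_lit 255) (nat_lit 191)))) (XT.nd (nat_lit 156) (nat_lit 0) (nat_lit 0) (XT.nd (nat_lit 78) (nat_lit 76) (nat_lit 0) (XT.lf (nat_lit 0) (nat_lit 183068891089) (nat_lit 152) (nat_lit 1978732525) (nat_lit 0) (nat_lit 173680795950) (nat_lit 2) (nat_lit 5) (nat_lit 4) (nat_lit 4) (nat_lit 2) (nat_lit 4) (nat_lit 335) (nat_lit 255) (nat_lit 190)) (XT.lf (nat_lit 0) (nat_lit 9815401463) (nat_lit 76) (nat_lit 193256164520) (nat_lit 76) (nat_lit 183863363635) (nat_lit 1) (nat_lit 4) (nat_lit 2) (nat_lit 5) (nat_lit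 2) (nat_lit 4) (nat_lit 336) (nat_lit 255) (nat_lit 189))) (XT.nd (nat_lit 78) (nat_lit 0) (nat_lit 0) (XT.lf (nat_lit 0) (nat_lit 22654177499) (nat_lit 76) (nat_lit 202068541240) (nat_lit 76) (nat_lit 192671383183) (nat_lit 1) (nat_lit 4) (nat_lit 2) (nat_lit 5) (nat_lit 2) (nat_lit 4) (nat_lit 337) (nat_lit 255) (nat_lit 188)) (XT.lf (nat_lit 0) (nat_lit 36509480671) (nat_lit 76) (nat_lit 211591077321) (nat_lit 76) (nat_lit 202189884845) (nat_lit 1) (nat_lit 4) (nat_lit 2) (nat_lit 5) (nat_lit 2) (nat_lit 4) (nat_lit 338) (nat_lit 255) (nat_lit 187))))))) (XT.nd (nat_lit 1248) (nat_lit 0) (nat_lit 0) (XT.nd (nat_lit 624) (nat_lit 0) (nat_lit 0) (XT.nd (nat_lit 312) (nat_lit 0) (nat_lit 0) (XT.nd (nat_lit 156) (nat_lit 0) (nat_lit 0) (XT.nd (nat_lit 78) (nat_lit 0) (nat_lit 0) (XT.lf (nat_lit 0) (nat_lit 51463416478) (nat_lit 76) (nat_lit 221880202605) (nat_lit 76) (nat_lit 212475274556)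 (nat_lit 1) (nat_lit 4) (nat_lit 2) (nat_lit 5) (nat_lit 2) (nat_lit 4) (nat_lit 339) (nat_lit 255) (nat_lit 186)) (XT.lf (nat_lit 0) (nat_lit 67604600837) (nat_lit 76) (nat_lit 232996889687) (nat_lit 76) (nat_lit 223588502774) (nat_lit 1) (nat_lit 4) (nat_lit 2) (nat_lit 5) (nat_lit 2) (nat_lit 4) (nat_lit 340) (nat_lit 255) (nat_lit 185))) (XT.nd (nat_lit 78) (nat_lit 0) (nat_lit 0) (XT.lf (nat_lit 0) (nat_lit 85028685209) (nat_lit 76) (nat_lit 245007015231) (nat_lit 76) (nat_lit 235595425666) (nat_lit 1) (nat_lit 4) (nat_lit 2) (nat_lit 5) (nat_lit 2) (nat_lit 4) (nat_lit 341) (nat_lit 255) (nat_lit 184)) (XT.lf (nat_lit 0) (nat_lit 103838923430) (nat_lit 76) (nat_lit 257981750351) (nat_lit 76) (nat_lit 248567195368) (nat_lit 1) (nat_lit 4) (nat_lit 2) (nat_lit 5) (nat_lit 2) (nat_lit 4) (nat_lit 342) (nat_lit 255) (nat_lit 183)))) (XT.nd (nat_lit 156) (nat_lit 0) (nat_lit 0) (XT.nd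 (nat_lit 78) (nat_lit 0) (nat_lit 0) (XT.lf (nat_lit 0) (nat_lit 124146783576) (nat_lit 76) (nat_lit 271997982367) (nat_lit 76) (nat_lit 262580681626) (nat_lit 1) (nat_lit 4) (nat_lit 2) (nat_lit 5) (nat_lit 2) (nat_lit 4) (nat_lit 343) (nat_lit 255) (nat_lit 182)) (XT.lf (nat_lit 0) (nat_lit 146072608523) (nat_lit 76) (nat_lit 287138770432) (nat_lit 76) (nat_lit 277718927322) (nat_lit 1) (nat_lit 4) (nat_lit 2) (nat_lit 5) (nat_lit 2) (nat_lit 4) (nat_lit 344) (nat_lit 255) (nat_lit 181))) (XT.nd (nat_lit 78) (nat_lit 0) (nat_lit 0) (XT.lf (nat_lit 0) (nat_lit 169746329085) (nat_lit 76) (nat_lit 303493837733) (nat_lit 76) (nat_lit 294071640579) (nat_lit 1) (nat_lit 4) (nat_lit 2) (nat_lit 5) (nat_lit 2) (nat_lit 4) (nat_lit 345) (nat_lit 255) (nat_lit 180)) (XT.lf (nat_lit 0) (nat_lit 195308233977) (nat_lit 76) (nat_lit 321160103188) (nat_lit 76) (nat_lit 311735726363) (nat_lit 1) (nat_lit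 4) (nat_lit 2) (nat_lit 5) (nat_lit 2) (nat_lit 4) (nat_lit 346) (nat_lit 255) (nat_lit 179))))) (XT.nd (nat_lit 312) (nat_lit 0) (nat_lit 0) (XT.nd (nat_lit 156) (nat_lit 0) (nat_lit 0) (XT.nd (nat_lit 78) (nat_lit 0) (nat_lit 0) (XT.lf (nat_lit 0) (nat_lit 222909801154) (nat_lit 76) (nat_lit 340242255778) (nat_lit 76) (nat_lit 330815860739) (nat_lit 1) (nat_lit 4) (nat_lit 2) (nat_lit 5) (nat_lit 2) (nat_lit 4) (nat_lit 347) (nat_lit 255) (nat_lit 178)) (XT.lf (nat_lit 0) (nat_lit 252714595458) (nat_lit 76) (nat_lit 360853374925) (nat_lit 76) (nat_lit 351425111170) (nat_lit 1) (nat_lit 4) (nat_lit 2) (nat_lit 5) (nat_lit 2) (nat_lit 4) (nat_lit 348) (nat_lit 255) (nat_lit 177))) (XT.nd (nat_lit 78) (nat_lit 0) (nat_lit 0) (XT.lf (nat_lit 0) (nat_lit 284899237892) (nat_lit 76) (nat_lit 383115600595) (nat_lit 76) (nat_lit 373685606547) (nat_lit 1) (nat_lit 4) (nat_lit 2) (nat_lit 5)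 (nat_lit 2) (nat_lit 4) (nat_lit 349) (nat_lit 255) (nat_lit 176)) (XT.lf (nat_lit 0) (nat_lit 319654452264) (nat_lit 76) (nat_lit 407160857089) (nat_lit 76) (nat_lit 397729260917) (nat_lit 1) (nat_lit 4) (nat_lit 2) (nat_lit 5) (nat_lit 2) (nat_lit 4) (nat_lit 350) (nat_lit 255) (nat_lit 175)))) (XT.nd (nat_lit 156) (nat_lit 0) (nat_lit 0) (XT.nd (nat_lit 78) (nat_lit 0) (nat_lit 0) (XT.lf (nat_lit 0) (nat_lit 357186195399) (nat_lit 76) (nat_lit 433131634813) (nat_lit 76) (nat_lit 423698555194) (nat_lit 1) (nat_lit 4) (nat_lit 2) (nat_lit 5) (nat_lit 2) (nat_lit 4) (nat_lit 351) (nat_lit 255) (nat_lit 174)) (XT.lf (nat_lit 0) (nat_lit 397716877628) (nat_lit 76) (nat_lit 461181834675) (nat_lit 76) (nat_lit 451747381493) (nat_lit 1) (nat_lit 4) (nat_lit 2) (nat_lit 5) (nat_lit 2) (nat_lit 4) (nat_lit 352) (nat_lit 255) (nat_lit 173))) (XT.nd (nat_lit 78) (nat_lit 0) (nat_lit 0) (XT.lf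 (nat_lit 0) (nat_lit 441486680770) (nat_lit 76) (nat_lit 491477680080) (nat_lit 76) (nat_lit 482041955081) (nat_lit 1) (nat_lit 4) (nat_lit 2) (nat_lit 5) (nat_lit 2) (nat_lit 4) (nat_lit 353) (nat_lit 255) (nat_lit 172)) (XT.lf (nat_lit 0) (nat_lit 488754981437) (nat_lit 76) (nat_lit 524198701965) (nat_lit 76) (nat_lit 514761799357) (nat_lit 1) (nat_lit 4) (nat_lit 2) (nat_lit 5) (nat_lit 2) (nat_lit 4) (nat_lit 354) (nat_lit 255) (nat_lit 171)))))) (XT.nd (nat_lit 624) (nat_lit 0) (nat_lit 0) (XT.nd (nat_lit 312) (nat_lit 0) (nat_lit 0) (XT.nd (nat_lit 156) (nat_lit 0) (nat_lit 0) (XT.nd (nat_lit 78) (nat_lit 0) (nat_lit 0) (XT.lf (nat_lit 0) (nat_lit 539801888078) (nat_lit 76) (nat_lit 559538802680) (nat_lit 76) (nat_lit 550100809695) (nat_lit 1) (nat_lit 4) (nat_lit 2) (nat_lit 5) (nat_lit 2) (nat_lit 4) (nat_lit 355) (nat_lit 255) (nat_lit 170)) (XT.lf (nat_lit 0) (nat_lit 594929900879)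 (nat_lit 76) (nat_lit 597707405046) (nat_lit 76) (nat_lit 588268402451) (nat_lit 1) (nat_lit 4) (nat_lit 2) (nat_lit 5) (nat_lit 2) (nat_lit 4) (nat_lit 356) (nat_lit 255) (nat_lit 169))) (XT.nd (nat_lit 78) (nat_lit 0) (nat_lit 0) (XT.lf (nat_lit 0) (nat_lit 654465704362) (nat_lit 76) (nat_lit 638930693372) (nat_lit 76) (nat_lit 629490755954) (nat_lit 1) (nat_lit 4) (nat_lit 2) (nat_lit 5) (nat_lit 2) (nat_lit 4) (nat_lit 357) (nat_lit 255) (nat_lit 168)) (XT.lf (nat_lit 0) (nat_lit 718762103287) (nat_lit 76) (nat_lit 683452953812) (nat_lit 76) (nat_lit 674012150816) (nat_lit 1) (nat_lit 4) (nat_lit 2) (nat_lit 5) (nat_lit 2) (nat_lit 4) (nat_lit 358) (nat_lit 255) (nat_lit 167)))) (XT.nd (nat_lit 156) (nat_lit 0) (nat_lit 0) (XT.nd (nat_lit 78) (nat_lit 0) (nat_lit 0) (XT.lf (nat_lit 0) (nat_lit 788200113352) (nat_lit 76) (nat_lit 731538021982) (nat_lit 76) (nat_lit 722096417526) (nat_lit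 1) (nat_lit 4) (nat_lit 2) (nat_lit 5) (nat_lit 2) (nat_lit 4) (nat_lit 359) (nat_lit 255) (nat_lit 166)) (XT.lf (nat_lit 0) (nat_lit 863191219060) (nat_lit 76) (nat_lit 783470846436) (nat_lit 76) (nat_lit 774028499887) (nat_lit 1) (nat_lit 4) (nat_lit 2) (nat_lit 5) (nat_lit 2) (nat_lit 4) (nat_lit 360) (nat_lit 255) (nat_lit 165))) (XT.nd (nat_lit 78) (nat_lit 0) (nat_lit 0) (XT.lf (nat_lit 0) (nat_lit 944179812151) (nat_lit 76) (nat_lit 839559177244) (nat_lit 76) (nat_lit 830116143571) (nat_lit 1) (nat_lit 4) (nat_lit 2) (nat_lit 5) (nat_lit 2) (nat_lit 4) (nat_lit 361) (nat_lit 255) (nat_lit 164)) (XT.lf (nat_lit 0) (nat_lit 1031645825026) (nat_lit 76) (nat_lit 900135389699) (nat_lit 76) (nat_lit 890691719801) (nat_lit 1) (nat_lit 4) (nat_lit 2) (nat_lit 5) (nat_lit 2) (nat_lit 4) (nat_lit 362) (nat_lit 255) (nat_lit 163))))) (XT.nd (nat_lit 312) (nat_lit 0) (nat_lit 0) (XT.nd (nat_lit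 156) (nat_lit 0) (nat_lit 0) (XT.nd (nat_lit 78) (nat_lit 0) (nat_lit 0) (XT.lf (nat_lit 0) (nat_lit 1126107574800) (nat_lit 76) (nat_lit 965558453949) (nat_lit 76) (nat_lit 956114194954) (nat_lit 1) (nat_lit 4) (nat_lit 2) (nat_lit 5) (nat_lit 2) (nat_lit 4) (nat_lit 363) (nat_lit 255) (nat_lit 162)) (XT.lf (nat_lit 0) (nat_lit 1228124834803) (nat_lit 76) (nat_lit 1036216062228) (nat_lit 76) (nat_lit 1026771257772) (nat_lit 1) (nat_lit 4) (nat_lit 2) (nat_lit 5) (nat_lit 2) (nat_lit 4) (nat_lit 364) (nat_lit 255) (nat_lit 161))) (XT.nd (nat_lit 78) (nat_lit 0) (nat_lit 0) (XT.lf (nat_lit 0) (nat_lit 1338302151764) (nat_lit 76) (nat_lit 1112526926287) (nat_lit 76) (nat_lit 1103081616776) (nat_lit 1) (nat_lit 4) (nat_lit 2) (nat_lit 5) (nat_lit 2) (nat_lit 4) (nat_lit 365) (nat_lit 255) (nat_lit 160)) (XT.lf (nat_lit 0) (nat_lit 1457292428299) (nat_lit 76) (nat_lit 1194943258655) (nat_lit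 76) (nat_lit 1185497481499) (nat_lit 1) (nat_lit 4) (nat_lit 2) (nat_lit 5) (nat_lit 2) (nat_lit 4) (nat_lit 366) (nat_lit 255) (nat_lit 159)))) (XT.nd (nat_lit 156) (nat_lit 0) (nat_lit 0) (XT.nd (nat_lit 78) (nat_lit 0) (nat_lit 0) (XT.lf (nat_lit 0) (nat_lit 1585800791974) (nat_lit 76) (nat_lit 1283953452413) (nat_lit 76) (nat_lit 1274507242252) (nat_lit 1) (nat_lit 4) (nat_lit 2) (nat_lit 5) (nat_lit 2) (nat_lit 4) (nat_lit 367) (nat_lit 255) (nat_lit 158)) (XT.lf (nat_lit 0) (nat_lit 1724588773834) (nat_lit 76) (nat_lit 1380084975374) (nat_lit 76) (nat_lit 1370638364284) (nat_lit 1) (nat_lit 4) (nat_lit 2) (nat_lit 5) (nat_lit 2) (nat_lit 4) (nat_lit 368) (nat_lit 255) (nat_lit 157))) (XT.nd (nat_lit 78) (nat_lit 0) (nat_lit 0) (XT.lf (nat_lit 0) (nat_lit 1874478821177) (nat_lit 76) (nat_lit 1483907495824) (nat_lit 76) (nat_lit 1474460513502) (nat_lit 1) (nat_lit 4) (nat_lit 2)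 (nat_lit 5) (nat_lit 2) (nat_lit 4) (nat_lit 369) (nat_lit 255) (nat_lit 156)) (XT.lf (nat_lit 0) (nat_lit 2036359171321) (nat_lit 76) (nat_lit 1596036258327) (nat_lit 76) (nat_lit 1586588932273) (nat_lit 1) (nat_lit 4) (nat_lit 2) (nat_lit 5) (nat_lit 2) (nat_lit 4) (nat_lit 370) (nat_lit 255) (nat_lit 155))))))))
noncomputable def xc43 : XT := (XT.nd (nat_lit 35022) (nat_lit 0) (nat_lit 76) (XT.nd (nat_lit 33774) (nat_lit 0) (nat_lit 684) (XT.nd (nat_lit 33150) (nat_lit 0) (nat_lit 1672) (XT.nd (nat_lit 32838) (nat_lit 0) (nat_lit 2736) (XT.nd (nat_lit 32682) (nat_lit 0) (nat_lit 3724) (XT.nd (nat_lit 32604) (nat_lit 0) (nat_lit 4180) (XT.lf (nat_lit 0) (nat_lit 2211189115231) (nat_lit 76) (nat_lit 1717135729626) (nat_lit 76) (nat_lit 1707688085301) (nat_lit 1) (nat_lit 4) (nat_lit 2) (nat_lit 5) (nat_lit 2) (nat_lit 4) (nat_lit 371) (nat_lit 255) (nat_lit 154)) (XT.lf (nat_lit 0)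 (nat_lit 949651671) (nat_lit 380) (nat_lit 1563678876) (nat_lit 0) (nat_lit 949651671) (nat_lit 56) (nat_lit 5) (nat_lit 61) (nat_lit 4) (nat_lit 56) (nat_lit 4) (nat_lit 268) (nat_lit 256) (nat_lit 256))) (XT.nd (nat_lit 78) (nat_lit 76) (nat_lit 0) (XT.lf (nat_lit 0) (nat_lit 1459341492) (nat_lit 380) (nat_lit 3682264274) (nat_lit 380) (nat_lit 1919242506) (nat_lit 51) (nat_lit 4) (nat_lit 56) (nat_lit 5) (nat_lit 56) (nat_lit 4) (nat_lit 269) (nat_lit 256) (nat_lit 255)) (XT.lf (nat_lit 0) (nat_lit 1197596706) (nat_lit 456) (nat_lit 904448181) (nat_lit 76) (nat_lit 5115984213) (nat_lit 50) (nat_lit 5) (nat_lit 56) (nat_lit 5) (nat_lit 51) (nat_lit 4) (nat_lit 270) (nat_lit 256) (nat_lit 254)))) (XT.nd (nat_lit 156) (nat_lit 304) (nat_lit 0) (XT.nd (nat_lit 78) (nat_lit 228) (nat_lit 0) (XT.lf (nat_lit 0) (nat_lit 4083128404) (nat_lit 456) (nat_lit 239027720) (nat_lit 532) (nat_lit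 3073496245) (nat_lit 44) (nat_lit 5) (nat_lit 50) (nat_lit 5) (nat_lit 51) (nat_lit 4) (nat_lit 271) (nat_lit 256) (nat_lit 253)) (XT.lf (nat_lit 0) (nat_lit 1726671235) (nat_lit 228) (nat_lit 5855060991) (nat_lit 228) (nat_lit 15709273) (nat_lit 41) (nat_lit 4) (nat_lit 44) (nat_lit 5) (nat_lit 44) (nat_lit 4) (nat_lit 272) (nat_lit 256) (nat_lit 252))) (XT.nd (nat_lit 78) (nat_lit 228) (nat_lit 0) (XT.lf (nat_lit 0) (nat_lit 3001429386) (nat_lit 304) (nat_lit 796261586) (nat_lit 76) (nat_lit 4021679461) (nat_lit 40) (nat_lit 5) (nat_lit 44) (nat_lit 5) (nat_lit 41) (nat_lit 4) (nat_lit 273) (nat_lit 256) (nat_lit 251)) (XT.lf (nat_lit 0) (nat_lit 4679054400) (nat_lit 228) (nat_lit 1488874388) (nat_lit 304) (nat_lit 1898988618) (nat_lit 37) (nat_lit 5) (nat_lit 40) (nat_lit 5) (nat_lit 41) (nat_lit 4) (nat_lit 274) (nat_lit 256) (nat_lit 250))))) (XT.nd (nat_lit 312) (nat_lit 380) (nat_lit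 0) (XT.nd (nat_lit 156) (nat_lit 380) (nat_lit 0) (XT.nd (nat_lit 78) (nat_lit 0) (nat_lit 0) (XT.lf (nat_lit 0) (nat_lit 1090544981) (nat_lit 304) (nat_lit 6230688426) (nat_lit 76) (nat_lit 1019158851) (nat_lit 33) (nat_lit 5) (nat_lit 37) (nat_lit 5) (nat_lit 34) (nat_lit 4) (nat_lit 275) (nat_lit 256) (nat_lit 249)) (XT.lf (nat_lit 0) (nat_lit 4158531667) (nat_lit 304) (nat_lit 731225938) (nat_lit 76) (nat_lit 3747169763) (nat_lit 33) (nat_lit 5) (nat_lit 37) (nat_lit 5) (nat_lit 34) (nat_lit 4) (nat_lit 276) (nat_lit 256) (nat_lit 248))) (XT.nd (nat_lit 78) (nat_lit 228) (nat_lit 0) (XT.lf (nat_lit 0) (nat_lit 5236597878) (nat_lit 152) (nat_lit 2183685721) (nat_lit 228) (nat_lit 1541479128) (nat_lit 31) (nat_lit 5) (nat_lit 33) (nat_lit 5) (nat_lit 34) (nat_lit 4) (nat_lit 277) (nat_lit 256) (nat_lit 247)) (XT.lf (nat_lit 0) (nat_lit 1467894093) (nat_lit 228) (nat_lit 7089115309)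 (nat_lit 76) (nat_lit 759293940) (nat_lit 28) (nat_lit 5) (nat_lit 31) (nat_lit 5) (nat_lit 29) (nat_lit 4) (nat_lit 278) (nat_lit 256) (nat_lit 246)))) (XT.nd (nat_lit 156) (nat_lit 228) (nat_lit 0) (XT.nd (nat_lit 78) (nat_lit 152) (nat_lit 0) (XT.lf (nat_lit 0) (nat_lit 4627065242) (nat_lit 228) (nat_lit 1166298765) (nat_lit 76) (nat_lit 3903605988) (nat_lit 28) (nat_lit 5) (nat_lit 31) (nat_lit 5) (nat_lit 29) (nat_lit 4) (nat_lit 279) (nat_lit 256) (nat_lit 245)) (XT.lf (nat_lit 0) (nat_lit 5268506922) (nat_lit 152) (nat_lit 2740791932) (nat_lit 228) (nat_lit 2101490841) (nat_lit 26) (nat_lit 5) (nat_lit 28) (nat_lit 5) (nat_lit 29) (nat_lit 4) (nat_lit 280) (nat_lit 256) (nat_lit 244))) (XT.nd (nat_lit 78) (nat_lit 0) (nat_lit 0) (XT.lf (nat_lit 0) (nat_lit 979019115) (nat_lit 228) (nat_lit 9025318651) (nat_lit 76) (nat_lit 557142311) (nat_lit 23) (nat_lit 5) (nat_lit 26) (nat_lit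 5) (nat_lit 24) (nat_lit 4) (nat_lit 281) (nat_lit 256) (nat_lit 243)) (XT.lf (nat_lit 0) (nat_lit 4249493638) (nat_lit 228) (nat_lit 2699221689) (nat_lit 76) (nat_lit 4090837723) (nat_lit 23) (nat_lit 5) (nat_lit 26) (nat_lit 5) (nat_lit 24) (nat_lit 4) (nat_lit 282) (nat_lit 256) (nat_lit 242)))))) (XT.nd (nat_lit 624) (nat_lit 304) (nat_lit 0) (XT.nd (nat_lit 312) (nat_lit 304) (nat_lit 0) (XT.nd (nat_lit 156) (nat_lit 304) (nat_lit 0) (XT.nd (nat_lit 78) (nat_lit 0) (nat_lit 0) (XT.lf (nat_lit 0) (nat_lit 4123845841) (nat_lit 76) (nat_lit 3618081458) (nat_lit 152) (nat_lit 3817358500) (nat_lit 22) (nat_lit 5) (nat_lit 23) (nat_lit 5) (nat_lit 24) (nat_lit 4) (nat_lit 283) (nat_lit 256) (nat_lit 241)) (XT.lf (nat_lit 0) (nat_lit 11436310627) (nat_lit 76) (nat_lit 17625421) (nat_lit 152) (nat_lit 671668571) (nat_lit 22) (nat_lit 5) (nat_lit 23) (nat_lit 5) (nat_lit 24) (nat_lit 4)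 (nat_lit 284) (nat_lit 256) (nat_lit 240))) (XT.nd (nat_lit 78) (nat_lit 76) (nat_lit 0) (XT.lf (nat_lit 0) (nat_lit 2719616701) (nat_lit 228) (nat_lit 6163687553) (nat_lit 76) (nat_lit 3838447551) (nat_lit 19) (nat_lit 5) (nat_lit 22) (nat_lit 5) (nat_lit 20) (nat_lit 4) (nat_lit 285) (nat_lit 256) (nat_lit 239)) (XT.lf (nat_lit 0) (nat_lit 881650529) (nat_lit 76) (nat_lit 5381057133) (nat_lit 152) (nat_lit 7108320332) (nat_lit 18) (nat_lit 5) (nat_lit 19) (nat_lit 5) (nat_lit 20) (nat_lit 4) (nat_lit 286) (nat_lit 256) (nat_lit 238)))) (XT.nd (nat_lit 156) (nat_lit 152) (nat_lit 0) (XT.nd (nat_lit 78) (nat_lit 152) (nat_lit 0) (XT.lf (nat_lit 0) (nat_lit 8641935619) (nat_lit 76) (nat_lit 1496038699) (nat_lit 152) (nat_lit 3930536779) (nat_lit 18) (nat_lit 5) (nat_lit 19) (nat_lit 5) (nat_lit 20) (nat_lit 4) (nat_lit 287) (nat_lit 256) (nat_lit 237)) (XT.lf (nat_lit 0) (nat_lit 2047006193)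 (nat_lit 152) (nat_lit 12277724151) (nat_lit 152) (nat_lit 497096070) (nat_lit 16) (nat_lit 4) (nat_lit 18) (nat_lit 5) (nat_lit 18) (nat_lit 4) (nat_lit 288) (nat_lit 256) (nat_lit 236))) (XT.nd (nat_lit 78) (nat_lit 76) (nat_lit 0) (XT.lf (nat_lit 0) (nat_lit 3129677290) (nat_lit 228) (nat_lit 5509262970) (nat_lit 76) (nat_lit 6984075305) (nat_lit 15) (nat_lit 5) (nat_lit 18) (nat_lit 5) (nat_lit 16) (nat_lit 4) (nat_lit 289) (nat_lit 256) (nat_lit 235)) (XT.lf (nat_lit 0) (nat_lit 2259043728) (nat_lit 76) (nat_lit 4711505573) (nat_lit 152) (nat_lit 9520772465) (nat_lit 14) (nat_lit 5) (nat_lit 15) (nat_lit 5) (nat_lit 16) (nat_lit 4) (nat_lit 290) (nat_lit 256) (nat_lit 234))))) (XT.nd (nat_lit 312) (nat_lit 152) (nat_lit 0) (XT.nd (nat_lit 156) (nat_lit 76) (nat_lit 0) (XT.nd (nat_lit 78) (nat_lit 76) (nat_lit 0) (XT.lf (nat_lit 0) (nat_lit 10788062835) (nat_lit 76) (nat_lit 381225658)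 (nat_lit 152) (nat_lit 6255867174) (nat_lit 14) (nat_lit 5) (nat_lit 15) (nat_lit 5) (nat_lit 16) (nat_lit 4) (nat_lit 291) (nat_lit 256) (nat_lit 233)) (XT.lf (nat_lit 0) (nat_lit 1363573315) (nat_lit 76) (nat_lit 14382179633) (nat_lit 76) (nat_lit 2684700017) (nat_lit 13) (nat_lit 4) (nat_lit 14) (nat_lit 5) (nat_lit 14) (nat_lit 4) (nat_lit 292) (nat_lit 256) (nat_lit 232))) (XT.nd (nat_lit 78) (nat_lit 0) (nat_lit 0) (XT.lf (nat_lit 0) (nat_lit 1215943764) (nat_lit 152) (nat_lit 9330542882) (nat_lit 76) (nat_lit 8959326717) (nat_lit 12) (nat_lit 5) (nat_lit 14) (nat_lit 5) (nat_lit 13) (nat_lit 4) (nat_lit 293) (nat_lit 256) (nat_lit 231)) (XT.lf (nat_lit 0) (nat_lit 5196867850) (nat_lit 152) (nat_lit 1200430317) (nat_lit 76) (nat_lit 14271345626) (nat_lit 12) (nat_lit 5) (nat_lit 14) (nat_lit 5) (nat_lit 13) (nat_lit 4) (nat_lit 294) (nat_lit 256) (nat_lit 230)))) (XT.nd (nat_lit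 156) (nat_lit 76) (nat_lit 0) (XT.nd (nat_lit 78) (nat_lit 0) (nat_lit 0) (XT.lf (nat_lit 0) (nat_lit 7827780888) (nat_lit 76) (nat_lit 1776439898) (nat_lit 152) (nat_lit 12311719022) (nat_lit 11) (nat_lit 5) (nat_lit 12) (nat_lit 5) (nat_lit 13) (nat_lit 4) (nat_lit 295) (nat_lit 256) (nat_lit 229)) (XT.lf (nat_lit 0) (nat_lit 14395903812) (nat_lit 152) (nat_lit 5837056193) (nat_lit 0) (nat_lit 3027590096) (nat_lit 11) (nat_lit 5) (nat_lit 13) (nat_lit 4) (nat_lit 11) (nat_lit 4) (nat_lit 296) (nat_lit 256) (nat_lit 228))) (XT.nd (nat_lit 78) (nat_lit 0) (nat_lit 0) (XT.lf (nat_lit 0) (nat_lit 3046084278) (nat_lit 76) (nat_lit 16570874466) (nat_lit 76) (nat_lit 5092152258) (nat_lit 10) (nat_lit 4) (nat_lit 11) (nat_lit 5) (nat_lit 11) (nat_lit 4) (nat_lit 297) (nat_lit 256) (nat_lit 227)) (XT.lf (nat_lit 0) (nat_lit 12840947559) (nat_lit 76) (nat_lit 12503269961) (nat_lit 76) (nat_lit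 922317668) (nat_lit 10) (nat_lit 4) (nat_lit 11) (nat_lit 5) (nat_lit 11) (nat_lit 4) (nat_lit 298) (nat_lit 256) (nat_lit 226))))))) (XT.nd (nat_lit 1248) (nat_lit 152) (nat_lit 0) (XT.nd (nat_lit 624) (nat_lit 152) (nat_lit 0) (XT.nd (nat_lit 312) (nat_lit 152) (nat_lit 0) (XT.nd (nat_lit 156) (nat_lit 0) (nat_lit 0) (XT.nd (nat_lit 78) (nat_lit 76) (nat_lit 0) (XT.lf (nat_lit 0) (nat_lit 3334389128) (nat_lit 152) (nat_lit 4740080391) (nat_lit 76) (nat_lit 19872651012) (nat_lit 9) (nat_lit 5) (nat_lit 11) (nat_lit 5) (nat_lit 10) (nat_lit 4) (nat_lit 299) (nat_lit 256) (nat_lit 225)) (XT.lf (nat_lit 0) (nat_lit 4737756057) (nat_lit 76) (nat_lit 3195422623) (nat_lit 152) (nat_lit 21822995095) (nat_lit 8) (nat_lit 5) (nat_lit 9) (nat_lit 5) (nat_lit 10) (nat_lit 4) (nat_lit 300) (nat_lit 256) (nat_lit 224))) (XT.nd (nat_lit 78) (nat_lit 0) (nat_lit 0) (XT.lf (nat_lit 0) (nat_lit 13020826084)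 (nat_lit 152) (nat_lit 16625712312) (nat_lit 0) (nat_lit 2053780587) (nat_lit 8) (nat_lit 5) (nat_lit 10) (nat_lit 4) (nat_lit 8) (nat_lit 4) (nat_lit 301) (nat_lit 256) (nat_lit 223)) (XT.lf (nat_lit 0) (nat_lit 18541175583) (nat_lit 152) (nat_lit 7752251806) (nat_lit 0) (nat_lit 7504554008) (nat_lit 8) (nat_lit 5) (nat_lit 10) (nat_lit 4) (nat_lit 8) (nat_lit 4) (nat_lit 302) (nat_lit 256) (nat_lit 222)))) (XT.nd (nat_lit 156) (nat_lit 76) (nat_lit 0) (XT.nd (nat_lit 78) (nat_lit 0) (nat_lit 0) (XT.lf (nat_lit 0) (nat_lit 1822569570) (nat_lit 76) (nat_lit 22671353639) (nat_lit 76) (nat_lit 11570309770) (nat_lit 7) (nat_lit 4) (nat_lit 8) (nat_lit 5) (nat_lit 8) (nat_lit 4) (nat_lit 303) (nat_lit 256) (nat_lit 221)) (XT.lf (nat_lit 0) (nat_lit 12507089560) (nat_lit 76) (nat_lit 18576292476) (nat_lit 76) (nat_lit 7415598333) (nat_lit 7) (nat_lit 4) (nat_lit 8) (nat_lit 5) (nat_lit 8)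 (nat_lit 4) (nat_lit 304) (nat_lit 256) (nat_lit 220))) (XT.nd (nat_lit 78) (nat_lit 76) (nat_lit 0) (XT.lf (nat_lit 0) (nat_lit 23956403994) (nat_lit 76) (nat_lit 14195937171) (nat_lit 76) (nat_lit 2980011295) (nat_lit 7) (nat_lit 4) (nat_lit 8) (nat_lit 5) (nat_lit 8) (nat_lit 4) (nat_lit 305) (nat_lit 256) (nat_lit 219)) (XT.lf (nat_lit 0) (nat_lit 1674557095) (nat_lit 152) (nat_lit 7783987611) (nat_lit 76) (nat_lit 34518018207) (nat_lit 6) (nat_lit 5) (nat_lit 8) (nat_lit 5) (nat_lit 7) (nat_lit 4) (nat_lit 306) (nat_lit 256) (nat_lit 218))))) (XT.nd (nat_lit 312) (nat_lit 76) (nat_lit 0) (XT.nd (nat_lit 156) (nat_lit 0) (nat_lit 0) (XT.nd (nat_lit 78) (nat_lit 0) (nat_lit 0) (XT.lf (nat_lit 0) (nat_lit 2318543330) (nat_lit 76) (nat_lit 4235765328) (nat_lit 152) (nat_lit 40486729776) (nat_lit 5) (nat_lit 5) (nat_lit 6) (nat_lit 5) (nat_lit 7) (nat_lit 4) (nat_lit 307) (nat_lit 256)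 (nat_lit 217)) (XT.lf (nat_lit 0) (nat_lit 12035002366) (nat_lit 152) (nat_lit 36780756682) (nat_lit 0) (nat_lit 1518091800) (nat_lit 5) (nat_lit 5) (nat_lit 7) (nat_lit 4) (nat_lit 5) (nat_lit 4) (nat_lit 308) (nat_lit 256) (nat_lit 216))) (XT.nd (nat_lit 78) (nat_lit 0) (nat_lit 0) (XT.lf (nat_lit 0) (nat_lit 18025671129) (nat_lit 152) (nat_lit 28387546840) (nat_lit 0) (nat_lit 7471170773) (nat_lit 5) (nat_lit 5) (nat_lit 7) (nat_lit 4) (nat_lit 5) (nat_lit 4) (nat_lit 309) (nat_lit 256) (nat_lit 215)) (XT.lf (nat_lit 0) (nat_lit 24459944949) (nat_lit 152) (nat_lit 19391257779) (nat_lit 0) (nat_lit 13870639232) (nat_lit 5) (nat_lit 5) (nat_lit 7) (nat_lit 4) (nat_lit 5) (nat_lit 4) (nat_lit 310) (nat_lit 256) (nat_lit 214)))) (XT.nd (nat_lit 156) (nat_lit 0) (nat_lit 0) (XT.nd (nat_lit 78) (nat_lit 76) (nat_lit 0) (XT.lf (nat_lit 0) (nat_lit 31375952855) (nat_lit 152) (nat_lit 9738578158)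 (nat_lit 0) (nat_lit 20754419951) (nat_lit 5) (nat_lit 5) (nat_lit 7) (nat_lit 4) (nat_lit 5) (nat_lit 4) (nat_lit 311) (nat_lit 256) (nat_lit 213)) (XT.lf (nat_lit 0) (nat_lit 660746293) (nat_lit 76) (nat_lit 38169823269) (nat_lit 76) (nat_lit 27518450378) (nat_lit 4) (nat_lit 4) (nat_lit 5) (nat_lit 5) (nat_lit 5) (nat_lit 4) (nat_lit 312) (nat_lit 256) (nat_lit 212))) (XT.nd (nat_lit 78) (nat_lit 0) (nat_lit 0) (XT.lf (nat_lit 0) (nat_lit 12388719646) (nat_lit 76) (nat_lit 34729432875) (nat_lit 76) (nat_lit 24050430367) (nat_lit 4) (nat_lit 4) (nat_lit 5) (nat_lit 5) (nat_lit 5) (nat_lit 4) (nat_lit 313) (nat_lit 256) (nat_lit 211)) (XT.lf (nat_lit 0) (nat_lit 25002024733) (nat_lit 76) (nat_lit 31039242319) (nat_lit 76) (nat_lit 20334656831) (nat_lit 4) (nat_lit 4) (nat_lit 5) (nat_lit 5) (nat_lit 5) (nat_lit 4) (nat_lit 314) (nat_lit 256) (nat_lit 210)))))) (XT.nd (nat_lit 624) (nat_lit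 0) (nat_lit 0) (XT.nd (nat_lit 312) (nat_lit 152) (nat_lit 0) (XT.nd (nat_lit 156) (nat_lit 0) (nat_lit 0) (XT.nd (nat_lit 78) (nat_lit 0) (nat_lit 0) (XT.lf (nat_lit 0) (nat_lit 38575407066) (nat_lit 76) (nat_lit 27077383805) (nat_lit 76) (nat_lit 16349110373) (nat_lit 4) (nat_lit 4) (nat_lit 5) (nat_lit 5) (nat_lit 5) (nat_lit 4) (nat_lit 315) (nat_lit 256) (nat_lit 209)) (XT.lf (nat_lit 0) (nat_lit 53189301503) (nat_lit 76) (nat_lit 22820379653) (nat_lit 76) (nat_lit 12070172939) (nat_lit 4) (nat_lit 4) (nat_lit 5) (nat_lit 5) (nat_lit 5) (nat_lit 4) (nat_lit 316) (nat_lit 256) (nat_lit 208))) (XT.nd (nat_lit 78) (nat_lit 0) (nat_lit 0) (XT.lf (nat_lit 0) (nat_lit 68930308901) (nat_lit 76) (nat_lit 18243003170) (nat_lit 76) (nat_lit 7472487863) (nat_lit 4) (nat_lit 4) (nat_lit 5) (nat_lit 5) (nat_lit 5) (nat_lit 4) (nat_lit 317) (nat_lit 256) (nat_lit 207)) (XT.lf (nat_lit 0) (nat_lit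 85891709303) (nat_lit 76) (nat_lit 13318129165) (nat_lit 76) (nat_lit 2528809603) (nat_lit 4) (nat_lit 4) (nat_lit 5) (nat_lit 5) (nat_lit 5) (nat_lit 4) (nat_lit 318) (nat_lit 256) (nat_lit 206)))) (XT.nd (nat_lit 156) (nat_lit 0) (nat_lit 0) (XT.nd (nat_lit 78) (nat_lit 76) (nat_lit 0) (XT.lf (nat_lit 0) (nat_lit 2650582721) (nat_lit 152) (nat_lit 5293518846) (nat_lit 76) (nat_lit 101450960361) (nat_lit 3) (nat_lit 5) (nat_lit 5) (nat_lit 5) (nat_lit 4) (nat_lit 4) (nat_lit 319) (nat_lit 256) (nat_lit 205)) (XT.lf (nat_lit 0) (nat_lit 6320377722) (nat_lit 76) (nat_lit 1921559895) (nat_lit 152) (nat_lit 109406066756) (nat_lit 2) (nat_lit 5) (nat_lit 3) (nat_lit 5) (nat_lit 4) (nat_lit 4) (nat_lit 320) (nat_lit 256) (nat_lit 204))) (XT.nd (nat_lit 78) (nat_lit 0) (nat_lit 0) (XT.lf (nat_lit 0) (nat_lit 14521662123) (nat_lit 152) (nat_lit 107533562613) (nat_lit 0) (nat_lit 4486680691)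 (nat_lit 2) (nat_lit 5) (nat_lit 4) (nat_lit 4) (nat_lit 2) (nat_lit 4) (nat_lit 321) (nat_lit 256) (nat_lit 203)) (XT.lf (nat_lit 0) (nat_lit 21337334130) (nat_lit 152) (nat_lit 103517751536) (nat_lit 0) (nat_lit 11289554839) (nat_lit 2) (nat_lit 5) (nat_lit 4) (nat_lit 4) (nat_lit 2) (nat_lit 4) (nat_lit 322) (nat_lit 256) (nat_lit 202))))) (XT.nd (nat_lit 312) (nat_lit 0) (nat_lit 0) (XT.nd (nat_lit 156) (nat_lit 0) (nat_lit 0) (XT.nd (nat_lit 78) (nat_lit 0) (nat_lit 0) (XT.lf (nat_lit 0) (nat_lit 28683129247) (nat_lit 152) (nat_lit 99210182463) (nat_lit 0) (nat_lit 18623500086) (nat_lit 2) (nat_lit 5) (nat_lit 4) (nat_lit 4) (nat_lit 2) (nat_lit 4) (nat_lit 323) (nat_lit 256) (nat_lit 201)) (XT.lf (nat_lit 0) (nat_lit 36602578110) (nat_lit 152) (nat_lit 94585329056) (nat_lit 0) (nat_lit 26531976848) (nat_lit 2) (nat_lit 5) (nat_lit 4) (nat_lit 4) (nat_lit 2) (nat_lit 4) (nat_lit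 324) (nat_lit 256) (nat_lit 200))) (XT.nd (nat_lit 78) (nat_lit 0) (nat_lit 0) (XT.lf (nat_lit 0) (nat_lit 45142610787) (nat_lit 152) (nat_lit 89615784778) (nat_lit 0) (nat_lit 35061850171) (nat_lit 2) (nat_lit 5) (nat_lit 4) (nat_lit 4) (nat_lit 2) (nat_lit 4) (nat_lit 325) (nat_lit 256) (nat_lit 199)) (XT.lf (nat_lit 0) (nat_lit 54353834878) (nat_lit 152) (nat_lit 84272100478) (nat_lit 0) (nat_lit 44263667455) (nat_lit 2) (nat_lit 5) (nat_lit 4) (nat_lit 4) (nat_lit 2) (nat_lit 4) (nat_lit 326) (nat_lit 256) (nat_lit 198)))) (XT.nd (nat_lit 156) (nat_lit 0) (nat_lit 0) (XT.nd (nat_lit 78) (nat_lit 0) (nat_lit 0) (XT.lf (nat_lit 0) (nat_lit 64290835417) (nat_lit 152) (nat_lit 78522609877) (nat_lit 0) (nat_lit 54191957985) (nat_lit 2) (nat_lit 5) (nat_lit 4) (nat_lit 4) (nat_lit 2) (nat_lit 4) (nat_lit 327) (nat_lit 256) (nat_lit 197)) (XT.lf (nat_lit 0) (nat_lit 75012498331) (nat_lit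 152) (nat_lit 72333241921) (nat_lit 0) (nat_lit 64905556077) (nat_lit 2) (nat_lit 5) (nat_lit 4) (nat_lit 4) (nat_lit 2) (nat_lit 4) (nat_lit 328) (nat_lit 256) (nat_lit 196))) (XT.nd (nat_lit 78) (nat_lit 0) (nat_lit 0) (XT.lf (nat_lit 0) (nat_lit 86582359401) (nat_lit 152) (nat_lit 65667318873) (nat_lit 0) (nat_lit 76467949719) (nat_lit 2) (nat_lit 5) (nat_lit 4) (nat_lit 4) (nat_lit 2) (nat_lit 4) (nat_lit 329) (nat_lit 256) (nat_lit 195)) (XT.lf (nat_lit 0) (nat_lit 99068980766) (nat_lit 152) (nat_lit 58485338968) (nat_lit 0) (nat_lit 88947656800) (nat_lit 2) (nat_lit 5) (nat_lit 4) (nat_lit 4) (nat_lit 2) (nat_lit 4) (nat_lit 330) (nat_lit 256) (nat_lit 194))))))))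
noncomputable def xc44 : XT := (XT.nd (nat_lit 2418) (nat_lit 0) (nat_lit 0) (XT.nd (nat_lit 1170) (nat_lit 0) (nat_lit 0) (XT.nd (nat_lit 546) (nat_lit 0) (nat_lit 0) (XT.nd (nat_lit 234) (nat_lit 76) (nat_lit 0) (XT.nd (nat_lit 78) (nat_lit 0) (nat_lit 0) (XT.lf (nat_lit 0) (nat_lit 112546357221) (nat_lit 152) (nat_lit 50744742324) (nat_lit 0) (nat_lit 102418631138) (nat_lit 2) (nat_lit 5) (nat_lit 4) (nat_lit 4) (nat_lit 2) (nat_lit 4) (nat_lit 331) (nat_lit 256) (nat_lit 193)) (XT.nd (nat_lit 78) (nat_lit 0) (nat_lit 0) (XT.lf (nat_lit 0) (nat_lit 127094354699) (nat_lit 152) (nat_lit 42399658738) (nat_lit 0) (nat_lit 116960700731) (nat_lit 2) (nat_lit 5) (nat_lit 4) (nat_lit 4) (nat_lit 2) (nat_lit 4) (nat_lit 332) (nat_lit 256) (nat_lit 192)) (XT.lf (nat_lit 0) (nat_lit 142799183555) (nat_lit 152) (nat_lit 33400635865) (nat_lit 0) (nat_lit 132660040806) (nat_lit 2) (nat_lit 5) (nat_lit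 4) (nat_lit 4) (nat_lit 2) (nat_lit 4) (nat_lit 333) (nat_lit 256) (nat_lit 191)))) (XT.nd (nat_lit 156) (nat_lit 76) (nat_lit 0) (XT.nd (nat_lit 78) (nat_lit 0) (nat_lit 0) (XT.lf (nat_lit 0) (nat_lit 159753909443) (nat_lit 152) (nat_lit 23694346161) (nat_lit 0) (nat_lit 149609684488) (nat_lit 2) (nat_lit 5) (nat_lit 4) (nat_lit 4) (nat_lit 2) (nat_lit 4) (nat_lit 334) (nat_lit 256) (nat_lit 190)) (XT.lf (nat_lit 0) (nat_lit 178059004813) (nat_lit 152) (nat_lit 13223270871) (nat_lit 0) (nat_lit 167910074111) (nat_lit 2) (nat_lit 5) (nat_lit 4) (nat_lit 4) (nat_lit 2) (nat_lit 4) (nat_lit 335) (nat_lit 256) (nat_lit 189))) (XT.nd (nat_lit 78) (nat_lit 76) (nat_lit 0) (XT.lf (nat_lit 0) (nat_lit 197822944302) (nat_lit 152) (nat_lit 1925359181) (nat_lit 0) (nat_lit 187669656427) (nat_lit 2) (nat_lit 5) (nat_lit 4) (nat_lit 4) (nat_lit 2) (nat_lit 4) (nat_lit 336) (nat_lit 256) (nat_lit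 188)) (XT.lf (nat_lit 0) (nat_lit 10806946743) (nat_lit 76) (nat_lit 208615808139) (nat_lit 76) (nat_lit 198458485845) (nat_lit 1) (nat_lit 4) (nat_lit 2) (nat_lit 5) (nat_lit 2) (nat_lit 4) (nat_lit 337) (nat_lit 256) (nat_lit 187))))) (XT.nd (nat_lit 312) (nat_lit 0) (nat_lit 0) (XT.nd (nat_lit 156) (nat_lit 0) (nat_lit 0) (XT.nd (nat_lit 78) (nat_lit 0) (nat_lit 0) (XT.lf (nat_lit 0) (nat_lit 24657542406) (nat_lit 76) (nat_lit 218140645333) (nat_lit 76) (nat_lit 207979587467) (nat_lit 1) (nat_lit 4) (nat_lit 2) (nat_lit 5) (nat_lit 2) (nat_lit 4) (nat_lit 338) (nat_lit 256) (nat_lit 186)) (XT.lf (nat_lit 0) (nat_lit 39607119408) (nat_lit 76) (nat_lit 228431901278) (nat_lit 76) (nat_lit 218267384548) (nat_lit 1) (nat_lit 4) (nat_lit 2) (nat_lit 5) (nat_lit 2) (nat_lit 4) (nat_lit 339) (nat_lit 256) (nat_lit 185))) (XT.nd (nat_lit 78) (nat_lit 0) (nat_lit 0) (XT.lf (nat_lit 0) (nat_lit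 55744267837) (nat_lit 76) (nat_lit 239550561195) (nat_lit 76) (nat_lit 229382841813) (nat_lit 1) (nat_lit 4) (nat_lit 2) (nat_lit 5) (nat_lit 2) (nat_lit 4) (nat_lit 340) (nat_lit 256) (nat_lit 184)) (XT.lf (nat_lit 0) (nat_lit 73164615237) (nat_lit 76) (nat_lit 251562513437) (nat_lit 76) (nat_lit 241391828637) (nat_lit 1) (nat_lit 4) (nat_lit 2) (nat_lit 5) (nat_lit 2) (nat_lit 4) (nat_lit 341) (nat_lit 256) (nat_lit 183)))) (XT.nd (nat_lit 156) (nat_lit 0) (nat_lit 0) (XT.nd (nat_lit 78) (nat_lit 0) (nat_lit 0) (XT.lf (nat_lit 0) (nat_lit 91971393298) (nat_lit 76) (nat_lit 264538939945) (nat_lit 76) (nat_lit 254365509387) (nat_lit 1) (nat_lit 4) (nat_lit 2) (nat_lit 5) (nat_lit 2) (nat_lit 4) (nat_lit 342) (nat_lit 256) (nat_lit 182)) (XT.lf (nat_lit 0) (nat_lit 112276049593) (nat_lit 76) (nat_lit 278556738061) (nat_lit 76) (nat_lit 268380765134) (nat_lit 1) (nat_lit 4) (nat_lit 2)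 (nat_lit 5) (nat_lit 2) (nat_lit 4) (nat_lit 343) (nat_lit 256) (nat_lit 181))) (XT.nd (nat_lit 78) (nat_lit 0) (nat_lit 0) (XT.lf (nat_lit 0) (nat_lit 134198908011) (nat_lit 76) (nat_lit 293698976217) (nat_lit 76) (nat_lit 283520649246) (nat_lit 1) (nat_lit 4) (nat_lit 2) (nat_lit 5) (nat_lit 2) (nat_lit 4) (nat_lit 344) (nat_lit 256) (nat_lit 180)) (XT.lf (nat_lit 0) (nat_lit 157869881787) (nat_lit 76) (nat_lit 310055386196) (nat_lit 76) (nat_lit 299874879554) (nat_lit 1) (nat_lit 4) (nat_lit 2) (nat_lit 5) (nat_lit 2) (nat_lit 4) (nat_lit 345) (nat_lit 256) (nat_lit 179)))))) (XT.nd (nat_lit 624) (nat_lit 0) (nat_lit 0) (XT.nd (nat_lit 312) (nat_lit 0) (nat_lit 0) (XT.nd (nat_lit 156) (nat_lit 0) (nat_lit 0) (XT.nd (nat_lit 78) (nat_lit 0) (nat_lit 0) (XT.lf (nat_lit 0) (nat_lit 183429243358) (nat_lit 76) (nat_lit 327722894872) (nat_lit 76) (nat_lit 317540370016) (nat_lit 1) (nat_lit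 4) (nat_lit 2) (nat_lit 5) (nat_lit 2) (nat_lit 4) (nat_lit 346) (nat_lit 256) (nat_lit 178)) (XT.lf (nat_lit 0) (nat_lit 211028455609) (nat_lit 76) (nat_lit 346806198592) (nat_lit 76) (nat_lit 336621805019) (nat_lit 1) (nat_lit 4) (nat_lit 2) (nat_lit 5) (nat_lit 2) (nat_lit 4) (nat_lit 347) (nat_lit 256) (nat_lit 177))) (XT.nd (nat_lit 78) (nat_lit 0) (nat_lit 0) (XT.lf (nat_lit 0) (nat_lit 240831069425) (nat_lit 76) (nat_lit 367418383600) (nat_lit 76) (nat_lit 357232259734) (nat_lit 1) (nat_lit 4) (nat_lit 2) (nat_lit 5) (nat_lit 2) (nat_lit 4) (nat_lit 348) (nat_lit 256) (nat_lit 176)) (XT.lf (nat_lit 0) (nat_lit 273013692890) (nat_lit 76) (nat_lit 389681596178) (nat_lit 76) (nat_lit 379493870189) (nat_lit 1) (nat_lit 4) (nat_lit 2) (nat_lit 5) (nat_lit 2) (nat_lit 4) (nat_lit 349) (nat_lit 256) (nat_lit 175)))) (XT.nd (nat_lit 156) (nat_lit 0) (nat_lit 0) (XT.nd (nat_lit 78) (nat_lit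 0) (nat_lit 0) (XT.lf (nat_lit 0) (nat_lit 307767037845) (nat_lit 76) (nat_lit 413727766475) (nat_lit 76) (nat_lit 403538557039) (nat_lit 1) (nat_lit 4) (nat_lit 2) (nat_lit 5) (nat_lit 2) (nat_lit 4) (nat_lit 350) (nat_lit 256) (nat_lit 174)) (XT.lf (nat_lit 0) (nat_lit 345297050040) (nat_lit 76) (nat_lit 439699390315) (nat_lit 76) (nat_lit 429508807316) (nat_lit 1) (nat_lit 4) (nat_lit 2) (nat_lit 5) (nat_lit 2) (nat_lit 4) (nat_lit 351) (nat_lit 256) (nat_lit 173))) (XT.nd (nat_lit 78) (nat_lit 0) (nat_lit 0) (XT.lf (nat_lit 0) (nat_lit 385826129545) (nat_lit 76) (nat_lit 467750373617) (nat_lit 76) (nat_lit 457558518801) (nat_lit 1) (nat_lit 4) (nat_lit 2) (nat_lit 5) (nat_lit 2) (nat_lit 4) (nat_lit 352) (nat_lit 256) (nat_lit 172)) (XT.lf (nat_lit 0) (nat_lit 429594448684) (nat_lit 76) (nat_lit 498046944429) (nat_lit 76) (nat_lit 487853912005) (nat_lit 1) (nat_lit 4) (nat_lit 2)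 (nat_lit 5) (nat_lit 2) (nat_lit 4) (nat_lit 353) (nat_lit 256) (nat_lit 171))))) (XT.nd (nat_lit 312) (nat_lit 0) (nat_lit 0) (XT.nd (nat_lit 156) (nat_lit 0) (nat_lit 0) (XT.nd (nat_lit 78) (nat_lit 0) (nat_lit 0) (XT.lf (nat_lit 0) (nat_lit 476861375274) (nat_lit 76) (nat_lit 530768637987) (nat_lit 76) (nat_lit 520574515184) (nat_lit 1) (nat_lit 4) (nat_lit 2) (nat_lit 5) (nat_lit 2) (nat_lit 4) (nat_lit 354) (nat_lit 256) (nat_lit 170)) (XT.lf (nat_lit 0) (nat_lit 527907009621) (nat_lit 76) (nat_lit 566109360622) (nat_lit 76) (nat_lit 555914228210) (nat_lit 1) (nat_lit 4) (nat_lit 2) (nat_lit 5) (nat_lit 2) (nat_lit 4) (nat_lit 355) (nat_lit 256) (nat_lit 169))) (XT.nd (nat_lit 78) (nat_lit 0) (nat_lit 0) (XT.lf (nat_lit 0) (nat_lit 583033844373) (nat_lit 76) (nat_lit 604278538839) (nat_lit 76) (nat_lit 594082471604) (nat_lit 1) (nat_lit 4) (nat_lit 2) (nat_lit 5) (nat_lit 2) (nat_lit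 4) (nat_lit 356) (nat_lit 256) (nat_lit 168)) (XT.lf (nat_lit 0) (nat_lit 642568557069) (nat_lit 76) (nat_lit 645502360361) (nat_lit 76) (nat_lit 635305427548) (nat_lit 1) (nat_lit 4) (nat_lit 2) (nat_lit 5) (nat_lit 2) (nat_lit 4) (nat_lit 357) (nat_lit 256) (nat_lit 167)))) (XT.nd (nat_lit 156) (nat_lit 0) (nat_lit 0) (XT.nd (nat_lit 78) (nat_lit 0) (nat_lit 0) (XT.lf (nat_lit 0) (nat_lit 706863946006) (nat_lit 76) (nat_lit 690025114501) (nat_lit 76) (nat_lit 679827380227) (nat_lit 1) (nat_lit 4) (nat_lit 2) (nat_lit 5) (nat_lit 2) (nat_lit 4) (nat_lit 358) (nat_lit 256) (nat_lit 166)) (XT.lf (nat_lit 0) (nat_lit 776301020898) (nat_lit 76) (nat_lit 738110639801) (nat_lit 76) (nat_lit 727912163434) (nat_lit 1) (nat_lit 4) (nat_lit 2) (nat_lit 5) (nat_lit 2) (nat_lit 4) (nat_lit 359) (nat_lit 256) (nat_lit 165))) (XT.nd (nat_lit 78) (nat_lit 0) (nat_lit 0) (XT.lf (nat_lit 0) (nat_lit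 851291260705) (nat_lit 76) (nat_lit 790043887522) (nat_lit 76) (nat_lit 779844724033) (nat_lit 1) (nat_lit 4) (nat_lit 2) (nat_lit 5) (nat_lit 2) (nat_lit 4) (nat_lit 360) (nat_lit 256) (nat_lit 164)) (XT.lf (nat_lit 0) (nat_lit 932279052034) (nat_lit 76) (nat_lit 846132610245) (nat_lit 76) (nat_lit 835932810530) (nat_lit 1) (nat_lit 4) (nat_lit 2) (nat_lit 5) (nat_lit 2) (nat_lit 4) (nat_lit 361) (nat_lit 256) (nat_lit 163))))))) (XT.nd (nat_lit 33618) (nat_lit 0) (nat_lit 1292) (XT.nd (nat_lit 624) (nat_lit 0) (nat_lit 0) (XT.nd (nat_lit 312) (nat_lit 0) (nat_lit 0) (XT.nd (nat_lit 156) (nat_lit 0) (nat_lit 0) (XT.nd (nat_lit 78) (nat_lit 0) (nat_lit 0) (XT.lf (nat_lit 0) (nat_lit 1019744322539) (nat_lit 76) (nat_lit 906709185584) (nat_lit 76) (nat_lit 896508796772) (nat_lit 1) (nat_lit 4) (nat_lit 2) (nat_lit 5) (nat_lit 2) (nat_lit 4) (nat_lit 362) (nat_lit 256) (nat_lit 162)) (XT.lf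 (nat_lit 0) (nat_lit 1114205384932) (nat_lit 76) (nat_lit 972132585839) (nat_lit 76) (nat_lit 961931651566) (nat_lit 1) (nat_lit 4) (nat_lit 2) (nat_lit 5) (nat_lit 2) (nat_lit 4) (nat_lit 363) (nat_lit 256) (nat_lit 161))) (XT.nd (nat_lit 78) (nat_lit 0) (nat_lit 0) (XT.lf (nat_lit 0) (nat_lit 1216222008472) (nat_lit 76) (nat_lit 1042790505232) (nat_lit 76) (nat_lit 1032589065903) (nat_lit 1) (nat_lit 4) (nat_lit 2) (nat_lit 5) (nat_lit 2) (nat_lit 4) (nat_lit 364) (nat_lit 256) (nat_lit 160)) (XT.lf (nat_lit 0) (nat_lit 1326398736114) (nat_lit 76) (nat_lit 1119101657360) (nat_lit 76) (nat_lit 1108899750387) (nat_lit 1) (nat_lit 4) (nat_lit 2) (nat_lit 5) (nat_lit 2) (nat_lit 4) (nat_lit 365) (nat_lit 256) (nat_lit 159)))) (XT.nd (nat_lit 156) (nat_lit 0) (nat_lit 0) (XT.nd (nat_lit 78) (nat_lit 0) (nat_lit 0) (XT.lf (nat_lit 0) (nat_lit 1445388466985) (nat_lit 76) (nat_lit 1201518256459)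 (nat_lit 76) (nat_lit 1191315916482) (nat_lit 1) (nat_lit 4) (nat_lit 2) (nat_lit 5) (nat_lit 2) (nat_lit 4) (nat_lit 366) (nat_lit 256) (nat_lit 158)) (XT.lf (nat_lit 0) (nat_lit 1573896325415) (nat_lit 76) (nat_lit 1290528697189) (nat_lit 76) (nat_lit 1280325956282) (nat_lit 1) (nat_lit 4) (nat_lit 2) (nat_lit 5) (nat_lit 2) (nat_lit 4) (nat_lit 367) (nat_lit 256) (nat_lit 157))) (XT.nd (nat_lit 78) (nat_lit 0) (nat_lit 0) (XT.lf (nat_lit 0) (nat_lit 1712683839454) (nat_lit 76) (nat_lit 1386660448829) (nat_lit 76) (nat_lit 1376457336691) (nat_lit 1) (nat_lit 4) (nat_lit 2) (nat_lit 5) (nat_lit 2) (nat_lit 4) (nat_lit 368) (nat_lit 256) (nat_lit 156)) (XT.lf (nat_lit 0) (nat_lit 1862573453631) (nat_lit 76) (nat_lit 1490483181018) (nat_lit 76) (nat_lit 1480279725147) (nat_lit 1) (nat_lit 4) (nat_lit 2) (nat_lit 5) (nat_lit 2) (nat_lit 4) (nat_lit 369) (nat_lit 256) (nat_lit 155)))))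 (XT.nd (nat_lit 32682) (nat_lit 0) (nat_lit 3268) (XT.nd (nat_lit 32526) (nat_lit 0) (nat_lit 4484) (XT.nd (nat_lit 78) (nat_lit 0) (nat_lit 0) (XT.lf (nat_lit 0) (nat_lit 2024453402696) (nat_lit 76) (nat_lit 1602612139577) (nat_lit 76) (nat_lit 1592408365435) (nat_lit 1) (nat_lit 4) (nat_lit 2) (nat_lit 5) (nat_lit 2) (nat_lit 4) (nat_lit 370) (nat_lit 256) (nat_lit 154)) (XT.lf (nat_lit 0) (nat_lit 2199282975235) (nat_lit 76) (nat_lit 1723711792408) (nat_lit 76) (nat_lit 1713507723570) (nat_lit 1) (nat_lit 4) (nat_lit 2) (nat_lit 5) (nat_lit 2) (nat_lit 4) (nat_lit 371) (nat_lit 256) (nat_lit 153))) (XT.nd (nat_lit 78) (nat_lit 76) (nat_lit 0) (XT.lf (nat_lit 0) (nat_lit 911546135) (nat_lit 228) (nat_lit 1221853500) (nat_lit 228) (nat_lit 1221853500) (nat_lit 61) (nat_lit 4) (nat_lit 64) (nat_lit 5) (nat_lit 64) (nat_lit 4) (nat_lit 266) (nat_lit 257) (nat_lit 257)) (XT.lf (nat_lit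 0) (nat_lit 643330016) (nat_lit 304) (nat_lit 718262155) (nat_lit 76) (nat_lit 5453069801) (nat_lit 60) (nat_lit 5) (nat_lit 64) (nat_lit 5) (nat_lit 61) (nat_lit 4) (nat_lit 267) (nat_lit 257) (nat_lit 256)))) (XT.nd (nat_lit 156) (nat_lit 532) (nat_lit 0) (XT.nd (nat_lit 78) (nat_lit 380) (nat_lit 0) (XT.lf (nat_lit 0) (nat_lit 3677814333) (nat_lit 380) (nat_lit 3247962454) (nat_lit 0) (nat_lit 10729055) (nat_lit 56) (nat_lit 5) (nat_lit 61) (nat_lit 4) (nat_lit 56) (nat_lit 4) (nat_lit 268) (nat_lit 257) (nat_lit 255)) (XT.lf (nat_lit 0) (nat_lit 1214834544) (nat_lit 380) (nat_lit 5583149484) (nat_lit 380) (nat_lit 283636643) (nat_lit 51) (nat_lit 4) (nat_lit 56) (nat_lit 5) (nat_lit 56) (nat_lit 4) (nat_lit 269) (nat_lit 257) (nat_lit 254))) (XT.nd (nat_lit 78) (nat_lit 456) (nat_lit 0) (XT.lf (nat_lit 0) (nat_lit 2637855380) (nat_lit 456) (nat_lit 1324280652) (nat_lit 76) (nat_lit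 3282995461) (nat_lit 50) (nat_lit 5) (nat_lit 56) (nat_lit 5) (nat_lit 51) (nat_lit 4) (nat_lit 270) (nat_lit 257) (nat_lit 253)) (XT.lf (nat_lit 0) (nat_lit 3528888417) (nat_lit 456) (nat_lit 2115078785) (nat_lit 532) (nat_lit 1788628826) (nat_lit 44) (nat_lit 5) (nat_lit 50) (nat_lit 5) (nat_lit 51) (nat_lit 4) (nat_lit 271) (nat_lit 257) (nat_lit 252)))))) (XT.nd (nat_lit 624) (nat_lit 760) (nat_lit 0) (XT.nd (nat_lit 312) (nat_lit 380) (nat_lit 0) (XT.nd (nat_lit 156) (nat_lit 532) (nat_lit 0) (XT.nd (nat_lit 78) (nat_lit 0) (nat_lit 0) (XT.lf (nat_lit 0) (nat_lit 1004384048) (nat_lit 228) (nat_lit 35911157) (nat_lit 304) (nat_lit 6605191377) (nat_lit 40) (nat_lit 5) (nat_lit 43) (nat_lit 5) (nat_lit 44) (nat_lit 5) (nat_lit 272) (nat_lit 257) (nat_lit 251)) (XT.lf (nat_lit 0) (nat_lit 3957855027) (nat_lit 304) (nat_lit 1680920790) (nat_lit 76) (nat_lit 2236803026) (nat_lit 40) (nat_lit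 5) (nat_lit 44) (nat_lit 5) (nat_lit 41) (nat_lit 4) (nat_lit 273) (nat_lit 257) (nat_lit 250))) (XT.nd (nat_lit 78) (nat_lit 304) (nat_lit 0) (XT.lf (nat_lit 0) (nat_lit 3635904471) (nat_lit 228) (nat_lit 3372686868) (nat_lit 304) (nat_lit 1124064148) (nat_lit 37) (nat_lit 5) (nat_lit 40) (nat_lit 5) (nat_lit 41) (nat_lit 4) (nat_lit 274) (nat_lit 257) (nat_lit 249)) (XT.lf (nat_lit 0) (nat_lit 836425893) (nat_lit 228) (nat_lit 844252315) (nat_lit 304) (nat_lit 6735873589) (nat_lit 33) (nat_lit 5) (nat_lit 36) (nat_lit 5) (nat_lit 37) (nat_lit 5) (nat_lit 275) (nat_lit 257) (nat_lit 248)))) (XT.nd (nat_lit 156) (nat_lit 228) (nat_lit 0) (XT.nd (nat_lit 78) (nat_lit 152) (nat_lit 0) (XT.lf (nat_lit 0) (nat_lit 4642969262) (nat_lit 304) (nat_lit 2172643505) (nat_lit 76) (nat_lit 1906143033) (nat_lit 33) (nat_lit 5) (nat_lit 37) (nat_lit 5) (nat_lit 34) (nat_lit 4) (nat_lit 276) (nat_lit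 257) (nat_lit 247)) (XT.lf (nat_lit 0) (nat_lit 3609836083) (nat_lit 152) (nat_lit 4176695394) (nat_lit 228) (nat_lit 1269712307) (nat_lit 31) (nat_lit 5) (nat_lit 33) (nat_lit 5) (nat_lit 34) (nat_lit 4) (nat_lit 277) (nat_lit 257) (nat_lit 246))) (XT.nd (nat_lit 78) (nat_lit 0) (nat_lit 0) (XT.lf (nat_lit 0) (nat_lit 318026898) (nat_lit 152) (nat_lit 1264616909) (nat_lit 228) (nat_lit 7839260769) (nat_lit 28) (nat_lit 5) (nat_lit 30) (nat_lit 5) (nat_lit 31) (nat_lit 5) (nat_lit 278) (nat_lit 257) (nat_lit 245)) (XT.lf (nat_lit 0) (nat_lit 4636218704) (nat_lit 228) (nat_lit 3259006795) (nat_lit 76) (nat_lit 1915950169) (nat_lit 28) (nat_lit 5) (nat_lit 31) (nat_lit 5) (nat_lit 29) (nat_lit 4) (nat_lit 279) (nat_lit 257) (nat_lit 244))))) (XT.nd (nat_lit 312) (nat_lit 304) (nat_lit 0) (XT.nd (nat_lit 156) (nat_lit 228) (nat_lit 0) (XT.nd (nat_lit 78) (nat_lit 76) (nat_lit 0) (XT.lf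 (nat_lit 0) (nat_lit 2959984153) (nat_lit 152) (nat_lit 4933335001) (nat_lit 228) (nat_lit 2341831998) (nat_lit 26) (nat_lit 5) (nat_lit 28) (nat_lit 5) (nat_lit 29) (nat_lit 4) (nat_lit 280) (nat_lit 257) (nat_lit 243)) (XT.lf (nat_lit 0) (nat_lit 630613375) (nat_lit 228) (nat_lit 1054849920) (nat_lit 76) (nat_lit 9010572073) (nat_lit 25) (nat_lit 5) (nat_lit 28) (nat_lit 5) (nat_lit 26) (nat_lit 5) (nat_lit 281) (nat_lit 257) (nat_lit 242))) (XT.nd (nat_lit 78) (nat_lit 76) (nat_lit 0) (XT.lf (nat_lit 0) (nat_lit 3766395393) (nat_lit 228) (nat_lit 5544804044) (nat_lit 76) (nat_lit 1873799511) (nat_lit 23) (nat_lit 5) (nat_lit 26) (nat_lit 5) (nat_lit 24) (nat_lit 4) (nat_lit 282) (nat_lit 257) (nat_lit 241)) (XT.lf (nat_lit 0) (nat_lit 1027480124) (nat_lit 76) (nat_lit 6095067952) (nat_lit 152) (nat_lit 4593192774) (nat_lit 22) (nat_lit 5) (nat_lit 23) (nat_lit 5) (nat_lit 24) (nat_lit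 4) (nat_lit 283) (nat_lit 257) (nat_lit 240)))) (XT.nd (nat_lit 156) (nat_lit 76) (nat_lit 0) (XT.nd (nat_lit 78) (nat_lit 228) (nat_lit 0) (XT.lf (nat_lit 0) (nat_lit 8246481914) (nat_lit 76) (nat_lit 2528592581) (nat_lit 152) (nat_lit 1511842536) (nat_lit 22) (nat_lit 5) (nat_lit 23) (nat_lit 5) (nat_lit 24) (nat_lit 4) (nat_lit 284) (nat_lit 257) (nat_lit 239)) (XT.lf (nat_lit 0) (nat_lit 1714325221) (nat_lit 228) (nat_lit 9874858580) (nat_lit 76) (nat_lit 1312153307) (nat_lit 19) (nat_lit 5) (nat_lit 22) (nat_lit 5) (nat_lit 20) (nat_lit 4) (nat_lit 285) (nat_lit 257) (nat_lit 238))) (XT.nd (nat_lit 78) (nat_lit 76) (nat_lit 0) (XT.lf (nat_lit 0) (nat_lit 5180920825) (nat_lit 228) (nat_lit 2964609276) (nat_lit 76) (nat_lit 5411281234) (nat_lit 19) (nat_lit 5) (nat_lit 22) (nat_lit 5) (nat_lit 20) (nat_lit 4) (nat_lit 286) (nat_lit 257) (nat_lit 237)) (XT.lf (nat_lit 0) (nat_lit 4550883112)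 (nat_lit 76) (nat_lit 4376922210) (nat_lit 152) (nat_lit 5336832289) (nat_lit 18) (nat_lit 5) (nat_lit 19) (nat_lit 5) (nat_lit 20) (nat_lit 4) (nat_lit 287) (nat_lit 257) (nat_lit 236))))))))
noncomputable def xc45 : XT := (XT.nd (nat_lit 2418) (nat_lit 228) (nat_lit 0) (XT.nd (nat_lit 1170) (nat_lit 304) (nat_lit 0) (XT.nd (nat_lit 546) (nat_lit 304) (nat_lit 0) (XT.nd (nat_lit 234) (nat_lit 228) (nat_lit 0) (XT.nd (nat_lit 78) (nat_lit 228) (nat_lit 0) (XT.lf (nat_lit 0) (nat_lit 12665420598) (nat_lit 76) (nat_lit 287370412) (nat_lit 152) (nat_lit 2078170768) (nat_lit 18) (nat_lit 5) (nat_lit 19) (nat_lit 5) (nat_lit 20) (nat_lit 4) (nat_lit 288) (nat_lit 257) (nat_lit 235)) (XT.nd (nat_lit 78) (nat_lit 0) (nat_lit 0) (XT.lf (nat_lit 0) (nat_lit 1509572586) (nat_lit 228) (nat_lit 10299670831) (nat_lit 76) (nat_lit 4035456876) (nat_lit 15) (nat_lit 5) (nat_lit 18) (nat_lit 5) (nat_lit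 16) (nat_lit 4) (nat_lit 289) (nat_lit 257) (nat_lit 234)) (XT.lf (nat_lit 0) (nat_lit 5250033179) (nat_lit 228) (nat_lit 2723871210) (nat_lit 76) (nat_lit 8747188383) (nat_lit 15) (nat_lit 5) (nat_lit 18) (nat_lit 5) (nat_lit 16) (nat_lit 4) (nat_lit 290) (nat_lit 257) (nat_lit 233)))) (XT.nd (nat_lit 156) (nat_lit 152) (nat_lit 0) (XT.nd (nat_lit 78) (nat_lit 0) (nat_lit 0) (XT.lf (nat_lit 0) (nat_lit 5584225776) (nat_lit 76) (nat_lit 3751056316) (nat_lit 152) (nat_lit 8328773215) (nat_lit 14) (nat_lit 5) (nat_lit 15) (nat_lit 5) (nat_lit 16) (nat_lit 4) (nat_lit 291) (nat_lit 257) (nat_lit 232)) (XT.lf (nat_lit 0) (nat_lit 13755941294) (nat_lit 152) (nat_lit 4140688871) (nat_lit 0) (nat_lit 785232611) (nat_lit 14) (nat_lit 5) (nat_lit 16) (nat_lit 4) (nat_lit 14) (nat_lit 4) (nat_lit 292) (nat_lit 257) (nat_lit 231))) (XT.nd (nat_lit 78) (nat_lit 76) (nat_lit 0) (XT.lf (nat_lit 0)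 (nat_lit 4413736972) (nat_lit 76) (nat_lit 14239271875) (nat_lit 76) (nat_lit 1118353658) (nat_lit 13) (nat_lit 4) (nat_lit 14) (nat_lit 5) (nat_lit 14) (nat_lit 4) (nat_lit 293) (nat_lit 257) (nat_lit 230)) (XT.lf (nat_lit 0) (nat_lit 2879907605) (nat_lit 152) (nat_lit 7269793299) (nat_lit 76) (nat_lit 10789768657) (nat_lit 12) (nat_lit 5) (nat_lit 14) (nat_lit 5) (nat_lit 13) (nat_lit 4) (nat_lit 294) (nat_lit 257) (nat_lit 229))))) (XT.nd (nat_lit 312) (nat_lit 152) (nat_lit 0) (XT.nd (nat_lit 156) (nat_lit 76) (nat_lit 0) (XT.nd (nat_lit 78) (nat_lit 0) (nat_lit 0) (XT.lf (nat_lit 0) (nat_lit 1371390556) (nat_lit 76) (nat_lit 5724846049) (nat_lit 152) (nat_lit 15105844514) (nat_lit 11) (nat_lit 5) (nat_lit 12) (nat_lit 5) (nat_lit 13) (nat_lit 4) (nat_lit 295) (nat_lit 257) (nat_lit 228)) (XT.lf (nat_lit 0) (nat_lit 10987452282) (nat_lit 76) (nat_lit 789218408) (nat_lit 152) (nat_lit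 11778951775) (nat_lit 11) (nat_lit 5) (nat_lit 12) (nat_lit 5) (nat_lit 13) (nat_lit 4) (nat_lit 296) (nat_lit 257) (nat_lit 227))) (XT.nd (nat_lit 78) (nat_lit 76) (nat_lit 0) (XT.lf (nat_lit 0) (nat_lit 16872828724) (nat_lit 152) (nat_lit 3878205063) (nat_lit 0) (nat_lit 4263170162) (nat_lit 11) (nat_lit 5) (nat_lit 13) (nat_lit 4) (nat_lit 11) (nat_lit 4) (nat_lit 297) (nat_lit 257) (nat_lit 226)) (XT.lf (nat_lit 0) (nat_lit 5654173593) (nat_lit 76) (nat_lit 16816091537) (nat_lit 76) (nat_lit 4111775489) (nat_lit 10) (nat_lit 4) (nat_lit 11) (nat_lit 5) (nat_lit 11) (nat_lit 4) (nat_lit 298) (nat_lit 257) (nat_lit 225)))) (XT.nd (nat_lit 156) (nat_lit 76) (nat_lit 0) (XT.nd (nat_lit 78) (nat_lit 0) (nat_lit 0) (XT.lf (nat_lit 0) (nat_lit 274400219) (nat_lit 152) (nat_lit 12221209410) (nat_lit 76) (nat_lit 15775582197) (nat_lit 9) (nat_lit 5) (nat_lit 11) (nat_lit 5) (nat_lit 10) (nat_lit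 4) (nat_lit 299) (nat_lit 257) (nat_lit 224)) (XT.lf (nat_lit 0) (nat_lit 4731394139) (nat_lit 152) (nat_lit 3031815594) (nat_lit 76) (nat_lit 22328400179) (nat_lit 9) (nat_lit 5) (nat_lit 11) (nat_lit 5) (nat_lit 10) (nat_lit 4) (nat_lit 300) (nat_lit 257) (nat_lit 223))) (XT.nd (nat_lit 78) (nat_lit 0) (nat_lit 0) (XT.lf (nat_lit 0) (nat_lit 7151400397) (nat_lit 76) (nat_lit 2511896701) (nat_lit 152) (nat_lit 22384937199) (nat_lit 8) (nat_lit 5) (nat_lit 9) (nat_lit 5) (nat_lit 10) (nat_lit 4) (nat_lit 301) (nat_lit 257) (nat_lit 222)) (XT.lf (nat_lit 0) (nat_lit 15097724521) (nat_lit 152) (nat_lit 16010889277) (nat_lit 0) (nat_lit 3044174847) (nat_lit 8) (nat_lit 5) (nat_lit 10) (nat_lit 4) (nat_lit 8) (nat_lit 4) (nat_lit 302) (nat_lit 257) (nat_lit 221)))))) (XT.nd (nat_lit 624) (nat_lit 76) (nat_lit 0) (XT.nd (nat_lit 312) (nat_lit 152) (nat_lit 0) (XT.nd (nat_lit 156) (nat_lit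 0) (nat_lit 0) (XT.nd (nat_lit 78) (nat_lit 76) (nat_lit 0) (XT.lf (nat_lit 0) (nat_lit 20983018102) (nat_lit 152) (nat_lit 6571617117) (nat_lit 0) (nat_lit 8869818156) (nat_lit 8) (nat_lit 5) (nat_lit 10) (nat_lit 4) (nat_lit 8) (nat_lit 4) (nat_lit 303) (nat_lit 257) (nat_lit 220)) (XT.lf (nat_lit 0) (nat_lit 3723599720) (nat_lit 76) (nat_lit 23659595421) (nat_lit 76) (nat_lit 11491163741) (nat_lit 7) (nat_lit 4) (nat_lit 8) (nat_lit 5) (nat_lit 8) (nat_lit 4) (nat_lit 304) (nat_lit 257) (nat_lit 219))) (XT.nd (nat_lit 78) (nat_lit 0) (nat_lit 0) (XT.lf (nat_lit 0) (nat_lit 15132864673) (nat_lit 76) (nat_lit 19298075032) (nat_lit 76) (nat_lit 7078502857) (nat_lit 7) (nat_lit 4) (nat_lit 8) (nat_lit 5) (nat_lit 8) (nat_lit 4) (nat_lit 305) (nat_lit 257) (nat_lit 218)) (XT.lf (nat_lit 0) (nat_lit 27377738488) (nat_lit 76) (nat_lit 14623907662) (nat_lit 76) (nat_lit 2356983177) (nat_lit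 7) (nat_lit 4) (nat_lit 8) (nat_lit 5) (nat_lit 8) (nat_lit 4) (nat_lit 306) (nat_lit 257) (nat_lit 217)))) (XT.nd (nat_lit 156) (nat_lit 0) (nat_lit 0) (XT.nd (nat_lit 78) (nat_lit 76) (nat_lit 0) (XT.lf (nat_lit 0) (nat_lit 2566240971) (nat_lit 152) (nat_lit 6972987994) (nat_lit 76) (nat_lit 37894376833) (nat_lit 6) (nat_lit 5) (nat_lit 8) (nat_lit 5) (nat_lit 7) (nat_lit 4) (nat_lit 307) (nat_lit 257) (nat_lit 216)) (XT.lf (nat_lit 0) (nat_lit 3901448748) (nat_lit 76) (nat_lit 3912404586) (nat_lit 152) (nat_lit 42931221987) (nat_lit 5) (nat_lit 5) (nat_lit 6) (nat_lit 5) (nat_lit 7) (nat_lit 4) (nat_lit 308) (nat_lit 257) (nat_lit 215))) (XT.nd (nat_lit 78) (nat_lit 0) (nat_lit 0) (XT.lf (nat_lit 0) (nat_lit 13693289998) (nat_lit 152) (nat_lit 38389197138) (nat_lit 0) (nat_lit 2222034462) (nat_lit 5) (nat_lit 5) (nat_lit 7) (nat_lit 4) (nat_lit 5) (nat_lit 4) (nat_lit 309) (nat_lit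 257) (nat_lit 214)) (XT.lf (nat_lit 0) (nat_lit 20111694674) (nat_lit 152) (nat_lit 29423346810) (nat_lit 0) (nat_lit 8608211952) (nat_lit 5) (nat_lit 5) (nat_lit 7) (nat_lit 4) (nat_lit 5) (nat_lit 4) (nat_lit 310) (nat_lit 257) (nat_lit 213))))) (XT.nd (nat_lit 312) (nat_lit 0) (nat_lit 0) (XT.nd (nat_lit 156) (nat_lit 76) (nat_lit 0) (XT.nd (nat_lit 78) (nat_lit 0) (nat_lit 0) (XT.lf (nat_lit 0) (nat_lit 27013008928) (nat_lit 152) (nat_lit 19798851201) (nat_lit 0) (nat_lit 15479686219) (nat_lit 5) (nat_lit 5) (nat_lit 7) (nat_lit 4) (nat_lit 5) (nat_lit 4) (nat_lit 311) (nat_lit 257) (nat_lit 212)) (XT.lf (nat_lit 0) (nat_lit 34438129438) (nat_lit 152) (nat_lit 9458676262) (nat_lit 0) (nat_lit 22877177111) (nat_lit 5) (nat_lit 5) (nat_lit 7) (nat_lit 4) (nat_lit 5) (nat_lit 4) (nat_lit 312) (nat_lit 257) (nat_lit 211))) (XT.nd (nat_lit 78) (nat_lit 0) (nat_lit 0) (XT.lf (nat_lit 0)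 (nat_lit 1745784319) (nat_lit 76) (nat_lit 40727258754) (nat_lit 76) (nat_lit 29140723447) (nat_lit 4) (nat_lit 4) (nat_lit 5) (nat_lit 5) (nat_lit 5) (nat_lit 4) (nat_lit 313) (nat_lit 257) (nat_lit 210)) (XT.lf (nat_lit 0) (nat_lit 14335537886) (nat_lit 76) (nat_lit 37048389009) (nat_lit 76) (nat_lit 25438165758) (nat_lit 4) (nat_lit 4) (nat_lit 5) (nat_lit 5) (nat_lit 5) (nat_lit 4) (nat_lit 314) (nat_lit 257) (nat_lit 209)))) (XT.nd (nat_lit 156) (nat_lit 0) (nat_lit 0) (XT.nd (nat_lit 78) (nat_lit 0) (nat_lit 0) (XT.lf (nat_lit 0) (nat_lit 27887113257) (nat_lit 76) (nat_lit 33097012727) (nat_lit 76) (nat_lit 21464856194) (nat_lit 4) (nat_lit 4) (nat_lit 5) (nat_lit 5) (nat_lit 5) (nat_lit 4) (nat_lit 315) (nat_lit 257) (nat_lit 208)) (XT.lf (nat_lit 0) (nat_lit 42480816062) (nat_lit 76) (nat_lit 28849714345) (nat_lit 76) (nat_lit 17197249218) (nat_lit 4) (nat_lit 4) (nat_lit 5)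 (nat_lit 5) (nat_lit 5) (nat_lit 4) (nat_lit 316) (nat_lit 257) (nat_lit 207))) (XT.nd (nat_lit 78) (nat_lit 0) (nat_lit 0) (XT.lf (nat_lit 0) (nat_lit 58203127504) (nat_lit 76) (nat_lit 24281324687) (nat_lit 76) (nat_lit 12610055307) (nat_lit 4) (nat_lit 4) (nat_lit 5) (nat_lit 5) (nat_lit 5) (nat_lit 4) (nat_lit 317) (nat_lit 257) (nat_lit 206)) (XT.lf (nat_lit 0) (nat_lit 75147216836) (nat_lit 76) (nat_lit 19364771815) (nat_lit 76) (nat_lit 7676091089) (nat_lit 4) (nat_lit 4) (nat_lit 5) (nat_lit 5) (nat_lit 5) (nat_lit 4) (nat_lit 318) (nat_lit 257) (nat_lit 205))))))) (XT.nd (nat_lit 1248) (nat_lit 76) (nat_lit 0) (XT.nd (nat_lit 624) (nat_lit 0) (nat_lit 0) (XT.nd (nat_lit 312) (nat_lit 0) (nat_lit 0) (XT.nd (nat_lit 156) (nat_lit 76) (nat_lit 0) (XT.nd (nat_lit 78) (nat_lit 76) (nat_lit 0) (XT.lf (nat_lit 0) (nat_lit 93413493475) (nat_lit 76) (nat_lit 14070920600) (nat_lit 76)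 (nat_lit 2366118258) (nat_lit 4) (nat_lit 4) (nat_lit 5) (nat_lit 5) (nat_lit 5) (nat_lit 4) (nat_lit 319) (nat_lit 257) (nat_lit 204)) (XT.lf (nat_lit 0) (nat_lit 3183682607) (nat_lit 152) (nat_lit 5097669941) (nat_lit 76) (nat_lit 109839471893) (nat_lit 3) (nat_lit 5) (nat_lit 5) (nat_lit 5) (nat_lit 4) (nat_lit 4) (nat_lit 320) (nat_lit 257) (nat_lit 203))) (XT.nd (nat_lit 78) (nat_lit 0) (nat_lit 0) (XT.lf (nat_lit 0) (nat_lit 7429659102) (nat_lit 76) (nat_lit 1783422895) (nat_lit 152) (nat_lit 117821673114) (nat_lit 2) (nat_lit 5) (nat_lit 3) (nat_lit 5) (nat_lit 4) (nat_lit 4) (nat_lit 321) (nat_lit 257) (nat_lit 202)) (XT.lf (nat_lit 0) (nat_lit 15978588290) (nat_lit 152) (nat_lit 115560579574) (nat_lit 0) (nat_lit 5102338927) (nat_lit 2) (nat_lit 5) (nat_lit 4) (nat_lit 4) (nat_lit 2) (nat_lit 4) (nat_lit 322) (nat_lit 257) (nat_lit 201)))) (XT.nd (nat_lit 156) (nat_lit 0) (nat_lit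 0) (XT.nd (nat_lit 78) (nat_lit 0) (nat_lit 0) (XT.lf (nat_lit 0) (nat_lit 23317647895) (nat_lit 152) (nat_lit 111266145690) (nat_lit 0) (nat_lit 12430426431) (nat_lit 2) (nat_lit 5) (nat_lit 4) (nat_lit 4) (nat_lit 2) (nat_lit 4) (nat_lit 323) (nat_lit 257) (nat_lit 200)) (XT.lf (nat_lit 0) (nat_lit 31230860174) (nat_lit 152) (nat_lit 106653454495) (nat_lit 0) (nat_lit 20333479356) (nat_lit 2) (nat_lit 5) (nat_lit 4) (nat_lit 4) (nat_lit 2) (nat_lit 4) (nat_lit 324) (nat_lit 257) (nat_lit 199))) (XT.nd (nat_lit 78) (nat_lit 0) (nat_lit 0) (XT.lf (nat_lit 0) (nat_lit 39765118236) (nat_lit 152) (nat_lit 101695171525) (nat_lit 0) (nat_lit 28858330610) (nat_lit 2) (nat_lit 5) (nat_lit 4) (nat_lit 4) (nat_lit 2) (nat_lit 4) (nat_lit 325) (nat_lit 257) (nat_lit 198)) (XT.lf (nat_lit 0) (nat_lit 48970995462) (nat_lit 152) (nat_lit 96361914361) (nat_lit 0) (nat_lit 38055497828) (nat_lit 2)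 (nat_lit 5) (nat_lit 4) (nat_lit 4) (nat_lit 2) (nat_lit 4) (nat_lit 326) (nat_lit 257) (nat_lit 197))))) (XT.nd (nat_lit 312) (nat_lit 0) (nat_lit 0) (XT.nd (nat_lit 156) (nat_lit 0) (nat_lit 0) (XT.nd (nat_lit 78) (nat_lit 0) (nat_lit 0) (XT.lf (nat_lit 0) (nat_lit 58903045199) (nat_lit 152) (nat_lit 90622078516) (nat_lit 0) (nat_lit 47979482743) (nat_lit 2) (nat_lit 5) (nat_lit 4) (nat_lit 4) (nat_lit 2) (nat_lit 4) (nat_lit 327) (nat_lit 257) (nat_lit 196)) (XT.lf (nat_lit 0) (nat_lit 69620124037) (nat_lit 152) (nat_lit 84441650149) (nat_lit 0) (nat_lit 58689094153) (nat_lit 2) (nat_lit 5) (nat_lit 4) (nat_lit 4) (nat_lit 2) (nat_lit 4) (nat_lit 328) (nat_lit 257) (nat_lit 195))) (XT.nd (nat_lit 78) (nat_lit 0) (nat_lit 0) (XT.lf (nat_lit 0) (nat_lit 81185740593) (nat_lit 152) (nat_lit 77784004498) (nat_lit 0) (nat_lit 70247796424) (nat_lit 2) (nat_lit 5) (nat_lit 4) (nat_lit 4)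 (nat_lit 2) (nat_lit 4) (nat_lit 329) (nat_lit 257) (nat_lit 194)) (XT.lf (nat_lit 0) (nat_lit 93668431852) (nat_lit 152) (nat_lit 70609688849) (nat_lit 0) (nat_lit 82724085568) (nat_lit 2) (nat_lit 5) (nat_lit 4) (nat_lit 4) (nat_lit 2) (nat_lit 4) (nat_lit 330) (nat_lit 257) (nat_lit 193)))) (XT.nd (nat_lit 156) (nat_lit 0) (nat_lit 0) (XT.nd (nat_lit 78) (nat_lit 0) (nat_lit 0) (XT.lf (nat_lit 0) (nat_lit 107142169320) (nat_lit 152) (nat_lit 62876188739) (nat_lit 0) (nat_lit 96191895150) (nat_lit 2) (nat_lit 5) (nat_lit 4) (nat_lit 4) (nat_lit 2) (nat_lit 4) (nat_lit 331) (nat_lit 257) (nat_lit 192)) (XT.lf (nat_lit 0) (nat_lit 121686797365) (nat_lit 152) (nat_lit 54537676019) (nat_lit 0) (nat_lit 110731034413) (nat_lit 2) (nat_lit 5) (nat_lit 4) (nat_lit 4) (nat_lit 2) (nat_lit 4) (nat_lit 332) (nat_lit 257) (nat_lit 191))) (XT.nd (nat_lit 78) (nat_lit 0) (nat_lit 0) (XT.lf (nat_lit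 0) (nat_lit 137388506377) (nat_lit 152) (nat_lit 45544737279) (nat_lit 0) (nat_lit 126427661219) (nat_lit 2) (nat_lit 5) (nat_lit 4) (nat_lit 4) (nat_lit 2) (nat_lit 4) (nat_lit 333) (nat_lit 257) (nat_lit 190)) (XT.lf (nat_lit 0) (nat_lit 154340343520) (nat_lit 152) (nat_lit 35844081032) (nat_lit 0) (nat_lit 143374792616) (nat_lit 2) (nat_lit 5) (nat_lit 4) (nat_lit 4) (nat_lit 2) (nat_lit 4) (nat_lit 334) (nat_lit 257) (nat_lit 189)))))) (XT.nd (nat_lit 624) (nat_lit 0) (nat_lit 0) (XT.nd (nat_lit 312) (nat_lit 0) (nat_lit 0) (XT.nd (nat_lit 156) (nat_lit 76) (nat_lit 0) (XT.nd (nat_lit 78) (nat_lit 0) (nat_lit 0) (XT.lf (nat_lit 0) (nat_lit 172642764125) (nat_lit 152) (nat_lit 25378221907) (nat_lit 0) (nat_lit 161672856048) (nat_lit 2) (nat_lit 5) (nat_lit 4) (nat_lit 4) (nat_lit 2) (nat_lit 4) (nat_lit 335) (nat_lit 257) (nat_lit 188)) (XT.lf (nat_lit 0) (nat_lit 192404226981) (nat_lit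 152) (nat_lit 14085139998) (nat_lit 0) (nat_lit 181430284485) (nat_lit 2) (nat_lit 5) (nat_lit 4) (nat_lit 4) (nat_lit 2) (nat_lit 4) (nat_lit 336) (nat_lit 257) (nat_lit 187))) (XT.nd (nat_lit 78) (nat_lit 76) (nat_lit 0) (XT.lf (nat_lit 0) (nat_lit 213741837053) (nat_lit 152) (nat_lit 1897913338) (nat_lit 0) (nat_lit 202764158984) (nat_lit 2) (nat_lit 5) (nat_lit 4) (nat_lit 4) (nat_lit 2) (nat_lit 4) (nat_lit 337) (nat_lit 257) (nat_lit 186)) (XT.lf (nat_lit 0) (nat_lit 11848382766) (nat_lit 76) (nat_lit 225218610561) (nat_lit 76) (nat_lit 214237473629) (nat_lit 1) (nat_lit 4) (nat_lit 2) (nat_lit 5) (nat_lit 2) (nat_lit 4) (nat_lit 338) (nat_lit 257) (nat_lit 185)))) (XT.nd (nat_lit 156) (nat_lit 0) (nat_lit 0) (XT.nd (nat_lit 78) (nat_lit 0) (nat_lit 0) (XT.lf (nat_lit 0) (nat_lit 26793923839) (nat_lit 76) (nat_lit 235511839341) (nat_lit 76) (nat_lit 224527499757) (nat_lit 1) (nat_lit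 4) (nat_lit 2) (nat_lit 5) (nat_lit 2) (nat_lit 4) (nat_lit 339) (nat_lit 257) (nat_lit 184)) (XT.lf (nat_lit 0) (nat_lit 42927335295) (nat_lit 76) (nat_lit 246632325956) (nat_lit 76) (nat_lit 235645020953) (nat_lit 1) (nat_lit 4) (nat_lit 2) (nat_lit 5) (nat_lit 2) (nat_lit 4) (nat_lit 340) (nat_lit 257) (nat_lit 183))) (XT.nd (nat_lit 78) (nat_lit 0) (nat_lit 0) (XT.lf (nat_lit 0) (nat_lit 60344222536) (nat_lit 76) (nat_lit 258645969586) (nat_lit 76) (nat_lit 247655918825) (nat_lit 1) (nat_lit 4) (nat_lit 2) (nat_lit 5) (nat_lit 2) (nat_lit 4) (nat_lit 341) (nat_lit 257) (nat_lit 182)) (XT.lf (nat_lit 0) (nat_lit 79147796745) (nat_lit 76) (nat_lit 271623962193) (nat_lit 76) (nat_lit 260631369064) (nat_lit 1) (nat_lit 4) (nat_lit 2) (nat_lit 5) (nat_lit 2) (nat_lit 4) (nat_lit 342) (nat_lit 257) (nat_lit 181))))) (XT.nd (nat_lit 312) (nat_lit 0) (nat_lit 0) (XT.nd (nat_lit 156) (nat_lit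 0) (nat_lit 0) (XT.nd (nat_lit 78) (nat_lit 0) (nat_lit 0) (XT.lf (nat_lit 0) (nat_lit 99449486511) (nat_lit 76) (nat_lit 285643210401) (nat_lit 76) (nat_lit 274648263227) (nat_lit 1) (nat_lit 4) (nat_lit 2) (nat_lit 5) (nat_lit 2) (nat_lit 4) (nat_lit 343) (nat_lit 257) (nat_lit 180)) (XT.lf (nat_lit 0) (nat_lit 121369598143) (nat_lit 76) (nat_lit 300786791235) (nat_lit 76) (nat_lit 289789664391) (nat_lit 1) (nat_lit 4) (nat_lit 2) (nat_lit 5) (nat_lit 2) (nat_lit 4) (nat_lit 344) (nat_lit 257) (nat_lit 179))) (XT.nd (nat_lit 78) (nat_lit 0) (nat_lit 0) (XT.lf (nat_lit 0) (nat_lit 145038028598) (nat_lit 76) (nat_lit 317144444435) (nat_lit 76) (nat_lit 306145299376) (nat_lit 1) (nat_lit 4) (nat_lit 2) (nat_lit 5) (nat_lit 2) (nat_lit 4) (nat_lit 345) (nat_lit 257) (nat_lit 178)) (XT.lf (nat_lit 0) (nat_lit 170595035243) (nat_lit 76) (nat_lit 334813104240) (nat_lit 76) (nat_lit 323812090465)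 (nat_lit 1) (nat_lit 4) (nat_lit 2) (nat_lit 5) (nat_lit 2) (nat_lit 4) (nat_lit 346) (nat_lit 257) (nat_lit 177)))) (XT.nd (nat_lit 156) (nat_lit 0) (nat_lit 0) (XT.nd (nat_lit 78) (nat_lit 0) (nat_lit 0) (XT.lf (nat_lit 0) (nat_lit 198192067006) (nat_lit 76) (nat_lit 353897473821) (nat_lit 76) (nat_lit 342894729753) (nat_lit 1) (nat_lit 4) (nat_lit 2) (nat_lit 5) (nat_lit 2) (nat_lit 4) (nat_lit 347) (nat_lit 257) (nat_lit 176)) (XT.lf (nat_lit 0) (nat_lit 227992661853) (nat_lit 76) (nat_lit 374510645738) (nat_lit 76) (nat_lit 363506299546) (nat_lit 1) (nat_lit 4) (nat_lit 2) (nat_lit 5) (nat_lit 2) (nat_lit 4) (nat_lit 348) (nat_lit 257) (nat_lit 175))) (XT.nd (nat_lit 78) (nat_lit 0) (nat_lit 0) (XT.lf (nat_lit 0) (nat_lit 260173415901) (nat_lit 76) (nat_lit 396774772120) (nat_lit 76) (nat_lit 385768942481) (nat_lit 1) (nat_lit 4) (nat_lit 2) (nat_lit 5) (nat_lit 2) (nat_lit 4) (nat_lit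 349) (nat_lit 257) (nat_lit 174)) (XT.lf (nat_lit 0) (nat_lit 294925029915) (nat_lit 76) (nat_lit 420821788532) (nat_lit 76) (nat_lit 409814585331) (nat_lit 1) (nat_lit 4) (nat_lit 2) (nat_lit 5) (nat_lit 2) (nat_lit 4) (nat_lit 350) (nat_lit 257) (nat_lit 173))))))))
noncomputable def xc46 : XT := (XT.nd (nat_lit 34632) (nat_lit 0) (nat_lit 456) (XT.nd (nat_lit 1170) (nat_lit 0) (nat_lit 0) (XT.nd (nat_lit 546) (nat_lit 0) (nat_lit 0) (XT.nd (nat_lit 234) (nat_lit 0) (nat_lit 0) (XT.nd (nat_lit 78) (nat_lit 0) (nat_lit 0) (XT.lf (nat_lit 0) (nat_lit 332453439386) (nat_lit 76) (nat_lit 446794195812) (nat_lit 76) (nat_lit 435785720793) (nat_lit 1) (nat_lit 4) (nat_lit 2) (nat_lit 5) (nat_lit 2) (nat_lit 4) (nat_lit 351) (nat_lit 257) (nat_lit 172)) (XT.nd (nat_lit 78) (nat_lit 0) (nat_lit 0) (XT.lf (nat_lit 0) (nat_lit 372981034888) (nat_lit 76) (nat_lit 474845904520) (nat_lit 76) (nat_lit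 463836251893) (nat_lit 1) (nat_lit 4) (nat_lit 2) (nat_lit 5) (nat_lit 2) (nat_lit 4) (nat_lit 352) (nat_lit 257) (nat_lit 171)) (XT.lf (nat_lit 0) (nat_lit 416747979950) (nat_lit 76) (nat_lit 505143147006) (nat_lit 76) (nat_lit 494132404001) (nat_lit 1) (nat_lit 4) (nat_lit 2) (nat_lit 5) (nat_lit 2) (nat_lit 4) (nat_lit 353) (nat_lit 257) (nat_lit 170)))) (XT.nd (nat_lit 156) (nat_lit 0) (nat_lit 0) (XT.nd (nat_lit 78) (nat_lit 0) (nat_lit 0) (XT.lf (nat_lit 0) (nat_lit 464013634247) (nat_lit 76) (nat_lit 537865462483) (nat_lit 76) (nat_lit 526853709869) (nat_lit 1) (nat_lit 4) (nat_lit 2) (nat_lit 5) (nat_lit 2) (nat_lit 4) (nat_lit 354) (nat_lit 257) (nat_lit 169)) (XT.lf (nat_lit 0) (nat_lit 515058090545) (nat_lit 76) (nat_lit 573206760970) (nat_lit 76) (nat_lit 562194073532) (nat_lit 1) (nat_lit 4) (nat_lit 2) (nat_lit 5) (nat_lit 2) (nat_lit 4) (nat_lit 355) (nat_lit 257) (nat_lit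 168))) (XT.nd (nat_lit 78) (nat_lit 0) (nat_lit 0) (XT.lf (nat_lit 0) (nat_lit 570183834510) (nat_lit 76) (nat_lit 611376472383) (nat_lit 76) (nat_lit 600362919368) (nat_lit 1) (nat_lit 4) (nat_lit 2) (nat_lit 5) (nat_lit 2) (nat_lit 4) (nat_lit 356) (nat_lit 257) (nat_lit 167)) (XT.lf (nat_lit 0) (nat_lit 629717537218) (nat_lit 76) (nat_lit 652600787605) (nat_lit 76) (nat_lit 641586433129) (nat_lit 1) (nat_lit 4) (nat_lit 2) (nat_lit 5) (nat_lit 2) (nat_lit 4) (nat_lit 357) (nat_lit 257) (nat_lit 166))))) (XT.nd (nat_lit 312) (nat_lit 0) (nat_lit 0) (XT.nd (nat_lit 156) (nat_lit 0) (nat_lit 0) (XT.nd (nat_lit 78) (nat_lit 0) (nat_lit 0) (XT.lf (nat_lit 0) (nat_lit 694011990982) (nat_lit 76) (nat_lit 697123998874) (nat_lit 76) (nat_lit 686108902305) (nat_lit 1) (nat_lit 4) (nat_lit 2) (nat_lit 5) (nat_lit 2) (nat_lit 4) (nat_lit 358) (nat_lit 257) (nat_lit 165)) (XT.lf (nat_lit 0) (nat_lit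 763448199972) (nat_lit 76) (nat_lit 745209947442) (nat_lit 76) (nat_lit 734194163750) (nat_lit 1) (nat_lit 4) (nat_lit 2) (nat_lit 5) (nat_lit 2) (nat_lit 4) (nat_lit 359) (nat_lit 257) (nat_lit 164))) (XT.nd (nat_lit 78) (nat_lit 0) (nat_lit 0) (XT.lf (nat_lit 0) (nat_lit 838437638018) (nat_lit 76) (nat_lit 797143587079) (nat_lit 76) (nat_lit 786127167162) (nat_lit 1) (nat_lit 4) (nat_lit 2) (nat_lit 5) (nat_lit 2) (nat_lit 4) (nat_lit 360) (nat_lit 257) (nat_lit 163)) (XT.lf (nat_lit 0) (nat_lit 919424686977) (nat_lit 76) (nat_lit 853232672685) (nat_lit 76) (nat_lit 842215663671) (nat_lit 1) (nat_lit 4) (nat_lit 2) (nat_lit 5) (nat_lit 2) (nat_lit 4) (nat_lit 361) (nat_lit 257) (nat_lit 162)))) (XT.nd (nat_lit 156) (nat_lit 0) (nat_lit 0) (XT.nd (nat_lit 78) (nat_lit 0) (nat_lit 0) (XT.lf (nat_lit 0) (nat_lit 1006889270101) (nat_lit 76) (nat_lit 913809584028) (nat_lit 76) (nat_lit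 902792029553) (nat_lit 1) (nat_lit 4) (nat_lit 2) (nat_lit 5) (nat_lit 2) (nat_lit 4) (nat_lit 362) (nat_lit 257) (nat_lit 161)) (XT.lf (nat_lit 0) (nat_lit 1101349696030) (nat_lit 76) (nat_lit 979233295398) (nat_lit 76) (nat_lit 968215235866) (nat_lit 1) (nat_lit 4) (nat_lit 2) (nat_lit 5) (nat_lit 2) (nat_lit 4) (nat_lit 363) (nat_lit 257) (nat_lit 160))) (XT.nd (nat_lit 78) (nat_lit 0) (nat_lit 0) (XT.lf (nat_lit 0) (nat_lit 1203365730253) (nat_lit 76) (nat_lit 1049891502860) (nat_lit 76) (nat_lit 1038872975684) (nat_lit 1) (nat_lit 4) (nat_lit 2) (nat_lit 5) (nat_lit 2) (nat_lit 4) (nat_lit 364) (nat_lit 257) (nat_lit 159)) (XT.lf (nat_lit 0) (nat_lit 1313541912230) (nat_lit 76) (nat_lit 1126202921719) (nat_lit 76) (nat_lit 1115183961539) (nat_lit 1) (nat_lit 4) (nat_lit 2) (nat_lit 5) (nat_lit 2) (nat_lit 4) (nat_lit 365) (nat_lit 257) (nat_lit 158)))))) (XT.nd (nat_lit 32838) (nat_lit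 0) (nat_lit 2964) (XT.nd (nat_lit 312) (nat_lit 0) (nat_lit 0) (XT.nd (nat_lit 156) (nat_lit 0) (nat_lit 0) (XT.nd (nat_lit 78) (nat_lit 0) (nat_lit 0) (XT.lf (nat_lit 0) (nat_lit 1432531137855) (nat_lit 76) (nat_lit 1208619767791) (nat_lit 76) (nat_lit 1197600406681) (nat_lit 1) (nat_lit 4) (nat_lit 2) (nat_lit 5) (nat_lit 2) (nat_lit 4) (nat_lit 366) (nat_lit 257) (nat_lit 157)) (XT.lf (nat_lit 0) (nat_lit 1561038528466) (nat_lit 76) (nat_lit 1297630437199) (nat_lit 76) (nat_lit 1286610704859) (nat_lit 1) (nat_lit 4) (nat_lit 2) (nat_lit 5) (nat_lit 2) (nat_lit 4) (nat_lit 367) (nat_lit 257) (nat_lit 156))) (XT.nd (nat_lit 78) (nat_lit 0) (nat_lit 0) (XT.lf (nat_lit 0) (nat_lit 1699825609339) (nat_lit 76) (nat_lit 1393762400579) (nat_lit 76) (nat_lit 1382742324505) (nat_lit 1) (nat_lit 4) (nat_lit 2) (nat_lit 5) (nat_lit 2) (nat_lit 4) (nat_lit 368) (nat_lit 257) (nat_lit 155)) (XT.lf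 (nat_lit 0) (nat_lit 1849714822436) (nat_lit 76) (nat_lit 1497585328823) (nat_lit 76) (nat_lit 1486564934478) (nat_lit 1) (nat_lit 4) (nat_lit 2) (nat_lit 5) (nat_lit 2) (nat_lit 4) (nat_lit 369) (nat_lit 257) (nat_lit 154)))) (XT.nd (nat_lit 32370) (nat_lit 0) (nat_lit 4788) (XT.nd (nat_lit 78) (nat_lit 0) (nat_lit 0) (XT.lf (nat_lit 0) (nat_lit 2011594400130) (nat_lit 76) (nat_lit 1609714468914) (nat_lit 76) (nat_lit 1598693779874) (nat_lit 1) (nat_lit 4) (nat_lit 2) (nat_lit 5) (nat_lit 2) (nat_lit 4) (nat_lit 370) (nat_lit 257) (nat_lit 153)) (XT.lf (nat_lit 0) (nat_lit 2186423628808) (nat_lit 76) (nat_lit 1730814289831) (nat_lit 76) (nat_lit 1719793327925) (nat_lit 1) (nat_lit 4) (nat_lit 2) (nat_lit 5) (nat_lit 2) (nat_lit 4) (nat_lit 371) (nat_lit 257) (nat_lit 152))) (XT.nd (nat_lit 78) (nat_lit 0) (nat_lit 0) (XT.lf (nat_lit 0) (nat_lit 138779873) (nat_lit 228) (nat_lit 3003295099)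 (nat_lit 0) (nat_lit 138779873) (nat_lit 64) (nat_lit 5) (nat_lit 67) (nat_lit 4) (nat_lit 64) (nat_lit 4) (nat_lit 264) (nat_lit 258) (nat_lit 258)) (XT.lf (nat_lit 0) (nat_lit 3307931501) (nat_lit 228) (nat_lit 2234403831) (nat_lit 0) (nat_lit 1087031823) (nat_lit 64) (nat_lit 5) (nat_lit 67) (nat_lit 4) (nat_lit 64) (nat_lit 4) (nat_lit 265) (nat_lit 258) (nat_lit 257))))) (XT.nd (nat_lit 312) (nat_lit 760) (nat_lit 0) (XT.nd (nat_lit 156) (nat_lit 760) (nat_lit 0) (XT.nd (nat_lit 78) (nat_lit 76) (nat_lit 0) (XT.lf (nat_lit 0) (nat_lit 1718154297) (nat_lit 228) (nat_lit 4640280652) (nat_lit 228) (nat_lit 362992384) (nat_lit 61) (nat_lit 4) (nat_lit 64) (nat_lit 5) (nat_lit 64) (nat_lit 4) (nat_lit 266) (nat_lit 258) (nat_lit 256)) (XT.lf (nat_lit 0) (nat_lit 2496651051) (nat_lit 304) (nat_lit 988317590) (nat_lit 76) (nat_lit 3346972922) (nat_lit 60) (nat_lit 5) (nat_lit 64) (nat_lit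 5) (nat_lit 61) (nat_lit 4) (nat_lit 267) (nat_lit 258) (nat_lit 255))) (XT.nd (nat_lit 78) (nat_lit 456) (nat_lit 0) (XT.lf (nat_lit 0) (nat_lit 3303042338) (nat_lit 304) (nat_lit 2104369144) (nat_lit 380) (nat_lit 1556732236) (nat_lit 56) (nat_lit 5) (nat_lit 60) (nat_lit 5) (nat_lit 61) (nat_lit 4) (nat_lit 268) (nat_lit 258) (nat_lit 254)) (XT.lf (nat_lit 0) (nat_lit 679184127) (nat_lit 380) (nat_lit 505476411) (nat_lit 456) (nat_lit 5935280799) (nat_lit 50) (nat_lit 5) (nat_lit 55) (nat_lit 5) (nat_lit 56) (nat_lit 5) (nat_lit 269) (nat_lit 258) (nat_lit 253)))) (XT.nd (nat_lit 156) (nat_lit 304) (nat_lit 0) (XT.nd (nat_lit 78) (nat_lit 456) (nat_lit 0) (XT.lf (nat_lit 0) (nat_lit 3974689079) (nat_lit 456) (nat_lit 1999598670) (nat_lit 76) (nat_lit 1318366139) (nat_lit 50) (nat_lit 5) (nat_lit 56) (nat_lit 5) (nat_lit 51) (nat_lit 4) (nat_lit 270) (nat_lit 258) (nat_lit 252)) (XT.lf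 (nat_lit 0) (nat_lit 2714027977) (nat_lit 456) (nat_lit 4149843928) (nat_lit 532) (nat_lit 625939228) (nat_lit 44) (nat_lit 5) (nat_lit 50) (nat_lit 5) (nat_lit 51) (nat_lit 4) (nat_lit 271) (nat_lit 258) (nat_lit 251))) (XT.nd (nat_lit 78) (nat_lit 228) (nat_lit 0) (XT.lf (nat_lit 0) (nat_lit 2025530931) (nat_lit 532) (nat_lit 47476420) (nat_lit 76) (nat_lit 5637290746) (nat_lit 43) (nat_lit 5) (nat_lit 50) (nat_lit 5) (nat_lit 44) (nat_lit 5) (nat_lit 272) (nat_lit 258) (nat_lit 250)) (XT.lf (nat_lit 0) (nat_lit 4802190078) (nat_lit 304) (nat_lit 2857473662) (nat_lit 76) (nat_lit 292267297) (nat_lit 40) (nat_lit 5) (nat_lit 44) (nat_lit 5) (nat_lit 41) (nat_lit 4) (nat_lit 273) (nat_lit 258) (nat_lit 249))))))) (XT.nd (nat_lit 1248) (nat_lit 684) (nat_lit 0) (XT.nd (nat_lit 624) (nat_lit 684) (nat_lit 0) (XT.nd (nat_lit 312) (nat_lit 456) (nat_lit 0) (XT.nd (nat_lit 156) (nat_lit 380)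 (nat_lit 0) (XT.nd (nat_lit 78) (nat_lit 76) (nat_lit 0) (XT.lf (nat_lit 0) (nat_lit 2293779616) (nat_lit 228) (nat_lit 5442910020) (nat_lit 304) (nat_lit 481865710) (nat_lit 37) (nat_lit 5) (nat_lit 40) (nat_lit 5) (nat_lit 41) (nat_lit 4) (nat_lit 274) (nat_lit 258) (nat_lit 248)) (XT.lf (nat_lit 0) (nat_lit 2188290439) (nat_lit 304) (nat_lit 749375969) (nat_lit 76) (nat_lit 5571959767) (nat_lit 36) (nat_lit 5) (nat_lit 40) (nat_lit 5) (nat_lit 37) (nat_lit 5) (nat_lit 275) (nat_lit 258) (nat_lit 247))) (XT.nd (nat_lit 78) (nat_lit 152) (nat_lit 0) (XT.lf (nat_lit 0) (nat_lit 4878020174) (nat_lit 228) (nat_lit 126732203) (nat_lit 304) (nat_lit 3821941578) (nat_lit 33) (nat_lit 5) (nat_lit 36) (nat_lit 5) (nat_lit 37) (nat_lit 5) (nat_lit 276) (nat_lit 258) (nat_lit 246)) (XT.lf (nat_lit 0) (nat_lit 1642156671) (nat_lit 152) (nat_lit 6382577958) (nat_lit 228) (nat_lit 1146516528) (nat_lit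 31) (nat_lit 5) (nat_lit 33) (nat_lit 5) (nat_lit 34) (nat_lit 4) (nat_lit 277) (nat_lit 258) (nat_lit 245)))) (XT.nd (nat_lit 156) (nat_lit 228) (nat_lit 0) (XT.nd (nat_lit 78) (nat_lit 152) (nat_lit 0) (XT.lf (nat_lit 0) (nat_lit 1620005190) (nat_lit 228) (nat_lit 1881309736) (nat_lit 76) (nat_lit 6041890466) (nat_lit 30) (nat_lit 5) (nat_lit 33) (nat_lit 5) (nat_lit 31) (nat_lit 5) (nat_lit 278) (nat_lit 258) (nat_lit 244)) (XT.lf (nat_lit 0) (nat_lit 4210848672) (nat_lit 152) (nat_lit 297618174) (nat_lit 228) (nat_lit 5437363826) (nat_lit 28) (nat_lit 5) (nat_lit 30) (nat_lit 5) (nat_lit 31) (nat_lit 5) (nat_lit 279) (nat_lit 258) (nat_lit 243))) (XT.nd (nat_lit 78) (nat_lit 76) (nat_lit 0) (XT.lf (nat_lit 0) (nat_lit 263370116) (nat_lit 152) (nat_lit 7365729218) (nat_lit 228) (nat_lit 2751758638) (nat_lit 26) (nat_lit 5) (nat_lit 28) (nat_lit 5) (nat_lit 29) (nat_lit 4) (nat_lit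 280) (nat_lit 258) (nat_lit 242)) (XT.lf (nat_lit 0) (nat_lit 177608228) (nat_lit 228) (nat_lit 3981324574) (nat_lit 76) (nat_lit 6688800069) (nat_lit 25) (nat_lit 5) (nat_lit 28) (nat_lit 5) (nat_lit 26) (nat_lit 5) (nat_lit 281) (nat_lit 258) (nat_lit 241))))) (XT.nd (nat_lit 312) (nat_lit 380) (nat_lit 0) (XT.nd (nat_lit 156) (nat_lit 152) (nat_lit 0) (XT.nd (nat_lit 78) (nat_lit 0) (nat_lit 0) (XT.lf (nat_lit 0) (nat_lit 2519217803) (nat_lit 152) (nat_lit 611568031) (nat_lit 228) (nat_lit 8220625646) (nat_lit 23) (nat_lit 5) (nat_lit 25) (nat_lit 5) (nat_lit 26) (nat_lit 5) (nat_lit 282) (nat_lit 258) (nat_lit 240)) (XT.lf (nat_lit 0) (nat_lit 6390284827) (nat_lit 228) (nat_lit 2385387598) (nat_lit 76) (nat_lit 3114312025) (nat_lit 23) (nat_lit 5) (nat_lit 26) (nat_lit 5) (nat_lit 24) (nat_lit 4) (nat_lit 283) (nat_lit 258) (nat_lit 239))) (XT.nd (nat_lit 78) (nat_lit 76) (nat_lit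 0) (XT.lf (nat_lit 0) (nat_lit 4621464095) (nat_lit 76) (nat_lit 5305881357) (nat_lit 152) (nat_lit 2543143897) (nat_lit 22) (nat_lit 5) (nat_lit 23) (nat_lit 5) (nat_lit 24) (nat_lit 4) (nat_lit 284) (nat_lit 258) (nat_lit 238)) (XT.lf (nat_lit 0) (nat_lit 575343403) (nat_lit 152) (nat_lit 957590831) (nat_lit 76) (nat_lit 11566779452) (nat_lit 21) (nat_lit 5) (nat_lit 23) (nat_lit 5) (nat_lit 22) (nat_lit 5) (nat_lit 285) (nat_lit 258) (nat_lit 237)))) (XT.nd (nat_lit 156) (nat_lit 228) (nat_lit 0) (XT.nd (nat_lit 78) (nat_lit 0) (nat_lit 0) (XT.lf (nat_lit 0) (nat_lit 3929003450) (nat_lit 228) (nat_lit 7246168303) (nat_lit 76) (nat_lit 2589123607) (nat_lit 19) (nat_lit 5) (nat_lit 22) (nat_lit 5) (nat_lit 20) (nat_lit 4) (nat_lit 286) (nat_lit 258) (nat_lit 236)) (XT.lf (nat_lit 0) (nat_lit 7519035428) (nat_lit 228) (nat_lit 36334533) (nat_lit 76) (nat_lit 6929367098) (nat_lit 19)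 (nat_lit 5) (nat_lit 22) (nat_lit 5) (nat_lit 20) (nat_lit 4) (nat_lit 287) (nat_lit 258) (nat_lit 235))) (XT.nd (nat_lit 78) (nat_lit 152) (nat_lit 0) (XT.lf (nat_lit 0) (nat_lit 8000259436) (nat_lit 76) (nat_lit 3497121002) (nat_lit 152) (nat_lit 3757474285) (nat_lit 18) (nat_lit 5) (nat_lit 19) (nat_lit 5) (nat_lit 20) (nat_lit 4) (nat_lit 288) (nat_lit 258) (nat_lit 234)) (XT.lf (nat_lit 0) (nat_lit 444039692) (nat_lit 152) (nat_lit 15293496206) (nat_lit 152) (nat_lit 353682351) (nat_lit 16) (nat_lit 4) (nat_lit 18) (nat_lit 5) (nat_lit 18) (nat_lit 4) (nat_lit 289) (nat_lit 258) (nat_lit 233)))))) (XT.nd (nat_lit 624) (nat_lit 304) (nat_lit 0) (XT.nd (nat_lit 312) (nat_lit 228) (nat_lit 0) (XT.nd (nat_lit 156) (nat_lit 76) (nat_lit 0) (XT.nd (nat_lit 78) (nat_lit 0) (nat_lit 0) (XT.lf (nat_lit 0) (nat_lit 3361802936) (nat_lit 228) (nat_lit 8136484499) (nat_lit 76) (nat_lit 5473466625)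 (nat_lit 15) (nat_lit 5) (nat_lit 18) (nat_lit 5) (nat_lit 16) (nat_lit 4) (nat_lit 290) (nat_lit 258) (nat_lit 232)) (XT.lf (nat_lit 0) (nat_lit 7273243744) (nat_lit 228) (nat_lit 175892020) (nat_lit 76) (nat_lit 10479531230) (nat_lit 15) (nat_lit 5) (nat_lit 18) (nat_lit 5) (nat_lit 16) (nat_lit 4) (nat_lit 291) (nat_lit 258) (nat_lit 231))) (XT.nd (nat_lit 78) (nat_lit 0) (nat_lit 0) (XT.lf (nat_lit 0) (nat_lit 8726830222) (nat_lit 76) (nat_lit 2904561858) (nat_lit 152) (nat_lit 7320125614) (nat_lit 14) (nat_lit 5) (nat_lit 15) (nat_lit 5) (nat_lit 16) (nat_lit 4) (nat_lit 292) (nat_lit 258) (nat_lit 230)) (XT.lf (nat_lit 0) (nat_lit 16316474627) (nat_lit 152) (nat_lit 1884950305) (nat_lit 0) (nat_lit 1856590516) (nat_lit 14) (nat_lit 5) (nat_lit 16) (nat_lit 4) (nat_lit 14) (nat_lit 4) (nat_lit 293) (nat_lit 258) (nat_lit 229)))) (XT.nd (nat_lit 156) (nat_lit 76) (nat_lit 0) (XT.nd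 (nat_lit 78) (nat_lit 0) (nat_lit 0) (XT.lf (nat_lit 0) (nat_lit 303235546) (nat_lit 152) (nat_lit 13957934639) (nat_lit 76) (nat_lit 6976809552) (nat_lit 12) (nat_lit 5) (nat_lit 14) (nat_lit 5) (nat_lit 13) (nat_lit 4) (nat_lit 294) (nat_lit 258) (nat_lit 228)) (XT.lf (nat_lit 0) (nat_lit 4453482946) (nat_lit 152) (nat_lit 5444661216) (nat_lit 76) (nat_lit 12607764796) (nat_lit 12) (nat_lit 5) (nat_lit 14) (nat_lit 5) (nat_lit 13) (nat_lit 4) (nat_lit 295) (nat_lit 258) (nat_lit 227))) (XT.nd (nat_lit 78) (nat_lit 0) (nat_lit 0) (XT.lf (nat_lit 0) (nat_lit 3826887840) (nat_lit 76) (nat_lit 5137151620) (nat_lit 152) (nat_lit 14909029882) (nat_lit 11) (nat_lit 5) (nat_lit 12) (nat_lit 5) (nat_lit 13) (nat_lit 4) (nat_lit 296) (nat_lit 258) (nat_lit 226)) (XT.lf (nat_lit 0) (nat_lit 13925390912) (nat_lit 152) (nat_lit 11306999039) (nat_lit 0) (nat_lit 110072095) (nat_lit 11) (nat_lit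 5) (nat_lit 13) (nat_lit 4) (nat_lit 11) (nat_lit 4) (nat_lit 297) (nat_lit 258) (nat_lit 225))))) (XT.nd (nat_lit 312) (nat_lit 152) (nat_lit 0) (XT.nd (nat_lit 156) (nat_lit 76) (nat_lit 0) (XT.nd (nat_lit 78) (nat_lit 76) (nat_lit 0) (XT.lf (nat_lit 0) (nat_lit 19358845528) (nat_lit 152) (nat_lit 2108715561) (nat_lit 0) (nat_lit 5455880890) (nat_lit 11) (nat_lit 5) (nat_lit 13) (nat_lit 4) (nat_lit 11) (nat_lit 4) (nat_lit 298) (nat_lit 258) (nat_lit 224)) (XT.lf (nat_lit 0) (nat_lit 8133601592) (nat_lit 76) (nat_lit 17235064656) (nat_lit 76) (nat_lit 3250946481) (nat_lit 10) (nat_lit 4) (nat_lit 11) (nat_lit 5) (nat_lit 11) (nat_lit 4) (nat_lit 299) (nat_lit 258) (nat_lit 223))) (XT.nd (nat_lit 78) (nat_lit 0) (nat_lit 0) (XT.lf (nat_lit 0) (nat_lit 1342883608) (nat_lit 152) (nat_lit 11266062433) (nat_lit 76) (nat_lit 17839422371) (nat_lit 9) (nat_lit 5) (nat_lit 11) (nat_lit 5)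 (nat_lit 10) (nat_lit 4) (nat_lit 300) (nat_lit 258) (nat_lit 222)) (XT.lf (nat_lit 0) (nat_lit 6078916199) (nat_lit 152) (nat_lit 1484690721) (nat_lit 76) (nat_lit 24857073674) (nat_lit 9) (nat_lit 5) (nat_lit 11) (nat_lit 5) (nat_lit 10) (nat_lit 4) (nat_lit 301) (nat_lit 258) (nat_lit 221)))) (XT.nd (nat_lit 156) (nat_lit 76) (nat_lit 0) (XT.nd (nat_lit 78) (nat_lit 0) (nat_lit 0) (XT.lf (nat_lit 0) (nat_lit 9467874445) (nat_lit 76) (nat_lit 1907670341) (nat_lit 152) (nat_lit 23160730886) (nat_lit 8) (nat_lit 5) (nat_lit 9) (nat_lit 5) (nat_lit 10) (nat_lit 4) (nat_lit 302) (nat_lit 258) (nat_lit 220)) (XT.lf (nat_lit 0) (nat_lit 17193087365) (nat_lit 152) (nat_lit 15624339277) (nat_lit 0) (nat_lit 3995949416) (nat_lit 8) (nat_lit 5) (nat_lit 10) (nat_lit 4) (nat_lit 8) (nat_lit 4) (nat_lit 303) (nat_lit 258) (nat_lit 219))) (XT.nd (nat_lit 78) (nat_lit 76) (nat_lit 0) (XT.lf (nat_lit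 0) (nat_lit 23483460367) (nat_lit 152) (nat_lit 5553438021) (nat_lit 0) (nat_lit 10235181924) (nat_lit 8) (nat_lit 5) (nat_lit 10) (nat_lit 4) (nat_lit 8) (nat_lit 4) (nat_lit 304) (nat_lit 258) (nat_lit 218)) (XT.lf (nat_lit 0) (nat_lit 5526309873) (nat_lit 76) (nat_lit 24844658572) (nat_lit 76) (nat_lit 11549027819) (nat_lit 7) (nat_lit 4) (nat_lit 8) (nat_lit 5) (nat_lit 8) (nat_lit 4) (nat_lit 305) (nat_lit 258) (nat_lit 217))))))))
noncomputable def xc47 : XT := (XT.nd (nat_lit 2496) (nat_lit 76) (nat_lit 0) (XT.nd (nat_lit 1248) (nat_lit 76) (nat_lit 0) (XT.nd (nat_lit 624) (nat_lit 152) (nat_lit 0) (XT.nd (nat_lit 312) (nat_lit 0) (nat_lit 0) (XT.nd (nat_lit 156) (nat_lit 152) (nat_lit 0) (XT.nd (nat_lit 78) (nat_lit 0) (nat_lit 0) (XT.lf (nat_lit 0) (nat_lit 17736847712) (nat_lit 76) (nat_lit 20186639106) (nat_lit 76) (nat_lit 6847163622) (nat_lit 7) (nat_lit 4) (nat_lit 8) (nat_lit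 5) (nat_lit 8) (nat_lit 4) (nat_lit 306) (nat_lit 258) (nat_lit 216)) (XT.lf (nat_lit 0) (nat_lit 30858100035) (nat_lit 76) (nat_lit 15187077748) (nat_lit 76) (nat_lit 1807005291) (nat_lit 7) (nat_lit 4) (nat_lit 8) (nat_lit 5) (nat_lit 8) (nat_lit 4) (nat_lit 307) (nat_lit 258) (nat_lit 215))) (XT.nd (nat_lit 78) (nat_lit 76) (nat_lit 0) (XT.lf (nat_lit 0) (nat_lit 3421162426) (nat_lit 152) (nat_lit 6301644399) (nat_lit 76) (nat_lit 41453119339) (nat_lit 6) (nat_lit 5) (nat_lit 8) (nat_lit 5) (nat_lit 7) (nat_lit 4) (nat_lit 308) (nat_lit 258) (nat_lit 214)) (XT.lf (nat_lit 0) (nat_lit 5411628735) (nat_lit 76) (nat_lit 3657648352) (nat_lit 152) (nat_lit 45684610203) (nat_lit 5) (nat_lit 5) (nat_lit 6) (nat_lit 5) (nat_lit 7) (nat_lit 4) (nat_lit 309) (nat_lit 258) (nat_lit 213)))) (XT.nd (nat_lit 156) (nat_lit 0) (nat_lit 0) (XT.nd (nat_lit 78) (nat_lit 0) (nat_lit 0) (XT.lf (nat_lit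 0) (nat_lit 15385021581) (nat_lit 152) (nat_lit 40316625709) (nat_lit 0) (nat_lit 2899193068) (nat_lit 5) (nat_lit 5) (nat_lit 7) (nat_lit 4) (nat_lit 5) (nat_lit 4) (nat_lit 310) (nat_lit 258) (nat_lit 212)) (XT.lf (nat_lit 0) (nat_lit 22272730603) (nat_lit 152) (nat_lit 30718226406) (nat_lit 0) (nat_lit 9759272471) (nat_lit 5) (nat_lit 5) (nat_lit 7) (nat_lit 4) (nat_lit 5) (nat_lit 4) (nat_lit 311) (nat_lit 258) (nat_lit 211))) (XT.nd (nat_lit 78) (nat_lit 0) (nat_lit 0) (XT.lf (nat_lit 0) (nat_lit 29685253675) (nat_lit 152) (nat_lit 20402214715) (nat_lit 0) (nat_lit 17146212564) (nat_lit 5) (nat_lit 5) (nat_lit 7) (nat_lit 4) (nat_lit 5) (nat_lit 4) (nat_lit 312) (nat_lit 258) (nat_lit 210)) (XT.lf (nat_lit 0) (nat_lit 37666516861) (nat_lit 152) (nat_lit 9307458713) (nat_lit 0) (nat_lit 25103787806) (nat_lit 5) (nat_lit 5) (nat_lit 7) (nat_lit 4) (nat_lit 5) (nat_lit 4) (nat_lit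 313) (nat_lit 258) (nat_lit 209))))) (XT.nd (nat_lit 312) (nat_lit 76) (nat_lit 0) (XT.nd (nat_lit 156) (nat_lit 0) (nat_lit 0) (XT.nd (nat_lit 78) (nat_lit 0) (nat_lit 0) (XT.lf (nat_lit 0) (nat_lit 2770373610) (nat_lit 76) (nat_lit 43560070476) (nat_lit 76) (nat_lit 30975408140) (nat_lit 4) (nat_lit 4) (nat_lit 5) (nat_lit 5) (nat_lit 5) (nat_lit 4) (nat_lit 314) (nat_lit 258) (nat_lit 208)) (XT.lf (nat_lit 0) (nat_lit 16301757348) (nat_lit 76) (nat_lit 39618399964) (nat_lit 76) (nat_lit 27013429034) (nat_lit 4) (nat_lit 4) (nat_lit 5) (nat_lit 5) (nat_lit 5) (nat_lit 4) (nat_lit 315) (nat_lit 258) (nat_lit 207))) (XT.nd (nat_lit 78) (nat_lit 0) (nat_lit 0) (XT.lf (nat_lit 0) (nat_lit 30876764198) (nat_lit 76) (nat_lit 35380088407) (nat_lit 76) (nat_lit 22756313223) (nat_lit 4) (nat_lit 4) (nat_lit 5) (nat_lit 5) (nat_lit 5) (nat_lit 4) (nat_lit 316) (nat_lit 258) (nat_lit 206)) (XT.lf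 (nat_lit 0) (nat_lit 46581764569) (nat_lit 76) (nat_lit 30820019883) (nat_lit 76) (nat_lit 18178833353) (nat_lit 4) (nat_lit 4) (nat_lit 5) (nat_lit 5) (nat_lit 5) (nat_lit 4) (nat_lit 317) (nat_lit 258) (nat_lit 205)))) (XT.nd (nat_lit 156) (nat_lit 76) (nat_lit 0) (XT.nd (nat_lit 78) (nat_lit 0) (nat_lit 0) (XT.lf (nat_lit 0) (nat_lit 63509825133) (nat_lit 76) (nat_lit 25911171764) (nat_lit 76) (nat_lit 13253863618) (nat_lit 4) (nat_lit 4) (nat_lit 5) (nat_lit 5) (nat_lit 5) (nat_lit 4) (nat_lit 318) (nat_lit 258) (nat_lit 204)) (XT.lf (nat_lit 0) (nat_lit 81761260320) (nat_lit 76) (nat_lit 20624454581) (nat_lit 76) (nat_lit 7952219011) (nat_lit 4) (nat_lit 4) (nat_lit 5) (nat_lit 5) (nat_lit 5) (nat_lit 4) (nat_lit 319) (nat_lit 258) (nat_lit 203))) (XT.nd (nat_lit 78) (nat_lit 76) (nat_lit 0) (XT.lf (nat_lit 0) (nat_lit 101444226784) (nat_lit 76) (nat_lit 14928539638) (nat_lit 76)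 (nat_lit 2242482381) (nat_lit 4) (nat_lit 4) (nat_lit 5) (nat_lit 5) (nat_lit 5) (nat_lit 4) (nat_lit 320) (nat_lit 258) (nat_lit 202)) (XT.lf (nat_lit 0) (nat_lit 3713628646) (nat_lit 152) (nat_lit 4974507531) (nat_lit 76) (nat_lit 118860198492) (nat_lit 3) (nat_lit 5) (nat_lit 5) (nat_lit 5) (nat_lit 4) (nat_lit 4) (nat_lit 321) (nat_lit 258) (nat_lit 201)))))) (XT.nd (nat_lit 624) (nat_lit 0) (nat_lit 0) (XT.nd (nat_lit 312) (nat_lit 0) (nat_lit 0) (XT.nd (nat_lit 156) (nat_lit 0) (nat_lit 0) (XT.nd (nat_lit 78) (nat_lit 0) (nat_lit 0) (XT.lf (nat_lit 0) (nat_lit 8541565406) (nat_lit 76) (nat_lit 1675872282) (nat_lit 152) (nat_lit 126958587535) (nat_lit 2) (nat_lit 5) (nat_lit 3) (nat_lit 5) (nat_lit 4) (nat_lit 4) (nat_lit 322) (nat_lit 258) (nat_lit 200)) (XT.lf (nat_lit 0) (nat_lit 17509955941) (nat_lit 152) (nat_lit 124311883376) (nat_lit 0) (nat_lit 5730625304) (nat_lit 2) (nat_lit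 5) (nat_lit 4) (nat_lit 4) (nat_lit 2) (nat_lit 4) (nat_lit 323) (nat_lit 258) (nat_lit 199))) (XT.nd (nat_lit 78) (nat_lit 0) (nat_lit 0) (XT.lf (nat_lit 0) (nat_lit 25417393604) (nat_lit 152) (nat_lit 119710453489) (nat_lit 0) (nat_lit 13628656160) (nat_lit 2) (nat_lit 5) (nat_lit 4) (nat_lit 4) (nat_lit 2) (nat_lit 4) (nat_lit 324) (nat_lit 258) (nat_lit 198)) (XT.lf (nat_lit 0) (nat_lit 33946304800) (nat_lit 152) (nat_lit 114762597655) (nat_lit 0) (nat_lit 22148857348) (nat_lit 2) (nat_lit 5) (nat_lit 4) (nat_lit 4) (nat_lit 2) (nat_lit 4) (nat_lit 325) (nat_lit 258) (nat_lit 197)))) (XT.nd (nat_lit 156) (nat_lit 0) (nat_lit 0) (XT.nd (nat_lit 78) (nat_lit 0) (nat_lit 0) (XT.lf (nat_lit 0) (nat_lit 43147231225) (nat_lit 152) (nat_lit 109438995247) (nat_lit 0) (nat_lit 31341718950) (nat_lit 2) (nat_lit 5) (nat_lit 4) (nat_lit 4) (nat_lit 2) (nat_lit 4) (nat_lit 326) (nat_lit 258)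 (nat_lit 196)) (XT.lf (nat_lit 0) (nat_lit 53074696886) (nat_lit 152) (nat_lit 103708098991) (nat_lit 0) (nat_lit 41261717183) (nat_lit 2) (nat_lit 5) (nat_lit 4) (nat_lit 4) (nat_lit 2) (nat_lit 4) (nat_lit 327) (nat_lit 258) (nat_lit 195))) (XT.nd (nat_lit 78) (nat_lit 0) (nat_lit 0) (XT.lf (nat_lit 0) (nat_lit 63787531210) (nat_lit 152) (nat_lit 97535948021) (nat_lit 0) (nat_lit 51967637222) (nat_lit 2) (nat_lit 5) (nat_lit 4) (nat_lit 4) (nat_lit 2) (nat_lit 4) (nat_lit 328) (nat_lit 258) (nat_lit 194)) (XT.lf (nat_lit 0) (nat_lit 75349217660) (nat_lit 152) (nat_lit 90885966627) (nat_lit 0) (nat_lit 63522921556) (nat_lit 2) (nat_lit 5) (nat_lit 4) (nat_lit 4) (nat_lit 2) (nat_lit 4) (nat_lit 329) (nat_lit 258) (nat_lit 193))))) (XT.nd (nat_lit 312) (nat_lit 0) (nat_lit 0) (XT.nd (nat_lit 156) (nat_lit 0) (nat_lit 0) (XT.nd (nat_lit 78) (nat_lit 0) (nat_lit 0) (XT.lf (nat_lit 0) (nat_lit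 87828269932) (nat_lit 152) (nat_lit 83718747512) (nat_lit 0) (nat_lit 75996045944) (nat_lit 2) (nat_lit 5) (nat_lit 4) (nat_lit 4) (nat_lit 2) (nat_lit 4) (nat_lit 330) (nat_lit 258) (nat_lit 192)) (XT.lf (nat_lit 0) (nat_lit 101298637967) (nat_lit 152) (nat_lit 75991818266) (nat_lit 0) (nat_lit 89460925197) (nat_lit 2) (nat_lit 5) (nat_lit 4) (nat_lit 4) (nat_lit 2) (nat_lit 4) (nat_lit 331) (nat_lit 258) (nat_lit 191))) (XT.nd (nat_lit 78) (nat_lit 0) (nat_lit 0) (XT.lf (nat_lit 0) (nat_lit 115840146168) (nat_lit 152) (nat_lit 67659389680) (nat_lit 0) (nat_lit 103997351191) (nat_lit 2) (nat_lit 5) (nat_lit 4) (nat_lit 4) (nat_lit 2) (nat_lit 4) (nat_lit 332) (nat_lit 258) (nat_lit 190)) (XT.lf (nat_lit 0) (nat_lit 131538966435) (nat_lit 152) (nat_lit 58672084398) (nat_lit 0) (nat_lit 119691465712) (nat_lit 2) (nat_lit 5) (nat_lit 4) (nat_lit 4) (nat_lit 2) (nat_lit 4) (nat_lit 333)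 (nat_lit 258) (nat_lit 189)))) (XT.nd (nat_lit 156) (nat_lit 0) (nat_lit 0) (XT.nd (nat_lit 78) (nat_lit 0) (nat_lit 0) (XT.lf (nat_lit 0) (nat_lit 148488128813) (nat_lit 152) (nat_lit 48976644315) (nat_lit 0) (nat_lit 136636270918) (nat_lit 2) (nat_lit 5) (nat_lit 4) (nat_lit 4) (nat_lit 2) (nat_lit 4) (nat_lit 334) (nat_lit 258) (nat_lit 188)) (XT.lf (nat_lit 0) (nat_lit 166788072785) (nat_lit 152) (nat_lit 38515614972) (nat_lit 0) (nat_lit 154932180471) (nat_lit 2) (nat_lit 5) (nat_lit 4) (nat_lit 4) (nat_lit 2) (nat_lit 4) (nat_lit 335) (nat_lit 258) (nat_lit 187))) (XT.nd (nat_lit 78) (nat_lit 0) (nat_lit 0) (XT.lf (nat_lit 0) (nat_lit 186547242462) (nat_lit 152) (nat_lit 27227005083) (nat_lit 0) (nat_lit 174687614575) (nat_lit 2) (nat_lit 5) (nat_lit 4) (nat_lit 4) (nat_lit 2) (nat_lit 4) (nat_lit 336) (nat_lit 258) (nat_lit 186)) (XT.lf (nat_lit 0) (nat_lit 207882729220) (nat_lit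 152) (nat_lit 15043919183) (nat_lit 0) (nat_lit 196019642469) (nat_lit 2) (nat_lit 5) (nat_lit 4) (nat_lit 4) (nat_lit 2) (nat_lit 4) (nat_lit 337) (nat_lit 258) (nat_lit 185))))))) (XT.nd (nat_lit 1248) (nat_lit 0) (nat_lit 0) (XT.nd (nat_lit 624) (nat_lit 0) (nat_lit 0) (XT.nd (nat_lit 312) (nat_lit 0) (nat_lit 0) (XT.nd (nat_lit 156) (nat_lit 0) (nat_lit 0) (XT.nd (nat_lit 78) (nat_lit 76) (nat_lit 0) (XT.lf (nat_lit 0) (nat_lit 230920965573) (nat_lit 152) (nat_lit 1894161206) (nat_lit 0) (nat_lit 219054676170) (nat_lit 2) (nat_lit 5) (nat_lit 4) (nat_lit 4) (nat_lit 2) (nat_lit 4) (nat_lit 338) (nat_lit 258) (nat_lit 184)) (XT.lf (nat_lit 0) (nat_lit 12947899721) (nat_lit 76) (nat_lit 243161971982) (nat_lit 76) (nat_lit 231292717160) (nat_lit 1) (nat_lit 4) (nat_lit 2) (nat_lit 5) (nat_lit 2) (nat_lit 4) (nat_lit 339) (nat_lit 258) (nat_lit 183))) (XT.nd (nat_lit 78) (nat_lit 0)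 (nat_lit 0) (XT.lf (nat_lit 0) (nat_lit 29077851018) (nat_lit 76) (nat_lit 254284149984) (nat_lit 76) (nat_lit 242412149405) (nat_lit 1) (nat_lit 4) (nat_lit 2) (nat_lit 5) (nat_lit 2) (nat_lit 4) (nat_lit 340) (nat_lit 258) (nat_lit 182)) (XT.lf (nat_lit 0) (nat_lit 46491534407) (nat_lit 76) (nat_lit 266299359713) (nat_lit 76) (nat_lit 254424816766) (nat_lit 1) (nat_lit 4) (nat_lit 2) (nat_lit 5) (nat_lit 2) (nat_lit 4) (nat_lit 341) (nat_lit 258) (nat_lit 181)))) (XT.nd (nat_lit 156) (nat_lit 0) (nat_lit 0) (XT.nd (nat_lit 78) (nat_lit 0) (nat_lit 0) (XT.lf (nat_lit 0) (nat_lit 65292142088) (nat_lit 76) (nat_lit 279278802413) (nat_lit 76) (nat_lit 267401905421) (nat_lit 1) (nat_lit 4) (nat_lit 2) (nat_lit 5) (nat_lit 2) (nat_lit 4) (nat_lit 342) (nat_lit 258) (nat_lit 180)) (XT.lf (nat_lit 0) (nat_lit 85591085067) (nat_lit 76) (nat_lit 293299393299) (nat_lit 76) (nat_lit 281420316636)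 (nat_lit 1) (nat_lit 4) (nat_lit 2) (nat_lit 5) (nat_lit 2) (nat_lit 4) (nat_lit 343) (nat_lit 258) (nat_lit 179))) (XT.nd (nat_lit 78) (nat_lit 0) (nat_lit 0) (XT.lf (nat_lit 0) (nat_lit 107508653378) (nat_lit 76) (nat_lit 308444217353) (nat_lit 76) (nat_lit 296563122476) (nat_lit 1) (nat_lit 4) (nat_lit 2) (nat_lit 5) (nat_lit 2) (nat_lit 4) (nat_lit 344) (nat_lit 258) (nat_lit 178)) (XT.lf (nat_lit 0) (nat_lit 131174728908) (nat_lit 76) (nat_lit 324803021683) (nat_lit 76) (nat_lit 312920058089) (nat_lit 1) (nat_lit 4) (nat_lit 2) (nat_lit 5) (nat_lit 2) (nat_lit 4) (nat_lit 345) (nat_lit 258) (nat_lit 177))))) (XT.nd (nat_lit 312) (nat_lit 0) (nat_lit 0) (XT.nd (nat_lit 156) (nat_lit 0) (nat_lit 0) (XT.nd (nat_lit 78) (nat_lit 0) (nat_lit 0) (XT.lf (nat_lit 0) (nat_lit 156729555065) (nat_lit 76) (nat_lit 342472747349) (nat_lit 76) (nat_lit 330588053462) (nat_lit 1) (nat_lit 4) (nat_lit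 2) (nat_lit 5) (nat_lit 2) (nat_lit 4) (nat_lit 346) (nat_lit 258) (nat_lit 176)) (XT.lf (nat_lit 0) (nat_lit 184324567858) (nat_lit 76) (nat_lit 361558103838) (nat_lit 76) (nat_lit 349671807828) (nat_lit 1) (nat_lit 4) (nat_lit 2) (nat_lit 5) (nat_lit 2) (nat_lit 4) (nat_lit 347) (nat_lit 258) (nat_lit 175))) (XT.nd (nat_lit 78) (nat_lit 0) (nat_lit 0) (XT.lf (nat_lit 0) (nat_lit 214123293289) (nat_lit 76) (nat_lit 382172189559) (nat_lit 76) (nat_lit 370284410102) (nat_lit 1) (nat_lit 4) (nat_lit 2) (nat_lit 5) (nat_lit 2) (nat_lit 4) (nat_lit 348) (nat_lit 258) (nat_lit 174)) (XT.lf (nat_lit 0) (nat_lit 246302316396) (nat_lit 76) (nat_lit 404437162056) (nat_lit 76) (nat_lit 392548009037) (nat_lit 1) (nat_lit 4) (nat_lit 2) (nat_lit 5) (nat_lit 2) (nat_lit 4) (nat_lit 349) (nat_lit 258) (nat_lit 173)))) (XT.nd (nat_lit 156) (nat_lit 0) (nat_lit 0) (XT.nd (nat_lit 78) (nat_lit 0) (nat_lit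 0) (XT.lf (nat_lit 0) (nat_lit 281052327686) (nat_lit 76) (nat_lit 428484961908) (nat_lit 76) (nat_lit 416594537071) (nat_lit 1) (nat_lit 4) (nat_lit 2) (nat_lit 5) (nat_lit 2) (nat_lit 4) (nat_lit 350) (nat_lit 258) (nat_lit 172)) (XT.lf (nat_lit 0) (nat_lit 318579253154) (nat_lit 76) (nat_lit 454458094595) (nat_lit 76) (nat_lit 442566492149) (nat_lit 1) (nat_lit 4) (nat_lit 2) (nat_lit 5) (nat_lit 2) (nat_lit 4) (nat_lit 351) (nat_lit 258) (nat_lit 171))) (XT.nd (nat_lit 78) (nat_lit 0) (nat_lit 0) (XT.lf (nat_lit 0) (nat_lit 359105474579) (nat_lit 76) (nat_lit 482510474976) (nat_lit 76) (nat_lit 470617782153) (nat_lit 1) (nat_lit 4) (nat_lit 2) (nat_lit 5) (nat_lit 2) (nat_lit 4) (nat_lit 352) (nat_lit 258) (nat_lit 170)) (XT.lf (nat_lit 0) (nat_lit 402871147348) (nat_lit 76) (nat_lit 512808339382) (nat_lit 76) (nat_lit 500914636949) (nat_lit 1) (nat_lit 4) (nat_lit 2) (nat_lit 5)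 (nat_lit 2) (nat_lit 4) (nat_lit 353) (nat_lit 258) (nat_lit 169)))))) (XT.nd (nat_lit 624) (nat_lit 0) (nat_lit 0) (XT.nd (nat_lit 312) (nat_lit 0) (nat_lit 0) (XT.nd (nat_lit 156) (nat_lit 0) (nat_lit 0) (XT.nd (nat_lit 78) (nat_lit 0) (nat_lit 0) (XT.lf (nat_lit 0) (nat_lit 450135623595) (nat_lit 76) (nat_lit 545531230711) (nat_lit 76) (nat_lit 533636593454) (nat_lit 1) (nat_lit 4) (nat_lit 2) (nat_lit 5) (nat_lit 2) (nat_lit 4) (nat_lit 354) (nat_lit 258) (nat_lit 168)) (XT.lf (nat_lit 0) (nat_lit 501178989106) (nat_lit 76) (nat_lit 580873062393) (nat_lit 76) (nat_lit 568977559559) (nat_lit 1) (nat_lit 4) (nat_lit 2) (nat_lit 5) (nat_lit 2) (nat_lit 4) (nat_lit 355) (nat_lit 258) (nat_lit 167))) (XT.nd (nat_lit 78) (nat_lit 0) (nat_lit 0) (XT.lf (nat_lit 0) (nat_lit 556303723084) (nat_lit 76) (nat_lit 619043267506) (nat_lit 76) (nat_lit 607146963212) (nat_lit 1) (nat_lit 4) (nat_lit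 2) (nat_lit 5) (nat_lit 2) (nat_lit 4) (nat_lit 356) (nat_lit 258) (nat_lit 166)) (XT.lf (nat_lit 0) (nat_lit 615836490619) (nat_lit 76) (nat_lit 660268039858) (nat_lit 76) (nat_lit 648370993470) (nat_lit 1) (nat_lit 4) (nat_lit 2) (nat_lit 5) (nat_lit 2) (nat_lit 4) (nat_lit 357) (nat_lit 258) (nat_lit 165)))) (XT.nd (nat_lit 156) (nat_lit 0) (nat_lit 0) (XT.nd (nat_lit 78) (nat_lit 0) (nat_lit 0) (XT.lf (nat_lit 0) (nat_lit 680130078481) (nat_lit 76) (nat_lit 704791674395) (nat_lit 76) (nat_lit 692893940884) (nat_lit 1) (nat_lit 4) (nat_lit 2) (nat_lit 5) (nat_lit 2) (nat_lit 4) (nat_lit 358) (nat_lit 258) (nat_lit 164)) (XT.lf (nat_lit 0) (nat_lit 749565485710) (nat_lit 76) (nat_lit 752878014878) (nat_lit 76) (nat_lit 740979645142) (nat_lit 1) (nat_lit 4) (nat_lit 2) (nat_lit 5) (nat_lit 2) (nat_lit 4) (nat_lit 359) (nat_lit 258) (nat_lit 163))) (XT.nd (nat_lit 78) (nat_lit 0) (nat_lit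 0) (XT.lf (nat_lit 0) (nat_lit 824554181385) (nat_lit 76) (nat_lit 804812017399) (nat_lit 76) (nat_lit 792913058565) (nat_lit 1) (nat_lit 4) (nat_lit 2) (nat_lit 5) (nat_lit 2) (nat_lit 4) (nat_lit 360) (nat_lit 258) (nat_lit 162)) (XT.lf (nat_lit 0) (nat_lit 905540542963) (nat_lit 76) (nat_lit 860901439009) (nat_lit 76) (nat_lit 849001934715) (nat_lit 1) (nat_lit 4) (nat_lit 2) (nat_lit 5) (nat_lit 2) (nat_lit 4) (nat_lit 361) (nat_lit 258) (nat_lit 161))))) (XT.nd (nat_lit 312) (nat_lit 0) (nat_lit 0) (XT.nd (nat_lit 156) (nat_lit 0) (nat_lit 0) (XT.nd (nat_lit 78) (nat_lit 0) (nat_lit 0) (XT.lf (nat_lit 0) (nat_lit 993004489624) (nat_lit 76) (nat_lit 921478661467) (nat_lit 76) (nat_lit 909578652117) (nat_lit 1) (nat_lit 4) (nat_lit 2) (nat_lit 5) (nat_lit 2) (nat_lit 4) (nat_lit 362) (nat_lit 258) (nat_lit 160)) (XT.lf (nat_lit 0) (nat_lit 1087464326235) (nat_lit 76) (nat_lit 986902660905)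 (nat_lit 76) (nat_lit 975002183911) (nat_lit 1) (nat_lit 4) (nat_lit 2) (nat_lit 5) (nat_lit 2) (nat_lit 4) (nat_lit 363) (nat_lit 258) (nat_lit 159))) (XT.nd (nat_lit 78) (nat_lit 0) (nat_lit 0) (XT.lf (nat_lit 0) (nat_lit 1189479814793) (nat_lit 76) (nat_lit 1057561135098) (nat_lit 76) (nat_lit 1045660225100) (nat_lit 1) (nat_lit 4) (nat_lit 2) (nat_lit 5) (nat_lit 2) (nat_lit 4) (nat_lit 364) (nat_lit 258) (nat_lit 158)) (XT.lf (nat_lit 0) (nat_lit 1299655491525) (nat_lit 76) (nat_lit 1133872800930) (nat_lit 76) (nat_lit 1121971490002) (nat_lit 1) (nat_lit 4) (nat_lit 2) (nat_lit 5) (nat_lit 2) (nat_lit 4) (nat_lit 365) (nat_lit 258) (nat_lit 157)))) (XT.nd (nat_lit 156) (nat_lit 0) (nat_lit 0) (XT.nd (nat_lit 78) (nat_lit 0) (nat_lit 0) (XT.lf (nat_lit 0) (nat_lit 1418644249330) (nat_lit 76) (nat_lit 1216289875680) (nat_lit 76) (nat_lit 1204388193521) (nat_lit 1) (nat_lit 4) (nat_lit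 2) (nat_lit 5) (nat_lit 2) (nat_lit 4) (nat_lit 366) (nat_lit 258) (nat_lit 156)) (XT.lf (nat_lit 0) (nat_lit 1547151206774) (nat_lit 76) (nat_lit 1305300756829) (nat_lit 76) (nat_lit 1293398730936) (nat_lit 1) (nat_lit 4) (nat_lit 2) (nat_lit 5) (nat_lit 2) (nat_lit 4) (nat_lit 367) (nat_lit 258) (nat_lit 155))) (XT.nd (nat_lit 78) (nat_lit 0) (nat_lit 0) (XT.lf (nat_lit 0) (nat_lit 1685937886568) (nat_lit 76) (nat_lit 1401432916263) (nat_lit 76) (nat_lit 1389530572100) (nat_lit 1) (nat_lit 4) (nat_lit 2) (nat_lit 5) (nat_lit 2) (nat_lit 4) (nat_lit 368) (nat_lit 258) (nat_lit 154)) (XT.lf (nat_lit 0) (nat_lit 1835826728294) (nat_lit 76) (nat_lit 1505256026039) (nat_lit 76) (nat_lit 1493353387181) (nat_lit 1) (nat_lit 4) (nat_lit 2) (nat_lit 5) (nat_lit 2) (nat_lit 4) (nat_lit 369) (nat_lit 258) (nat_lit 153))))))))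
noncomputable def xc48 : XT := (XT.nd (nat_lit 34476) (nat_lit 0) (nat_lit 152) (XT.nd (nat_lit 33228) (nat_lit 0) (nat_lit 1064) (XT.nd (nat_lit 32604) (nat_lit 0) (nat_lit 2660) (XT.nd (nat_lit 32292) (nat_lit 0) (nat_lit 4484) (XT.nd (nat_lit 78) (nat_lit 0) (nat_lit 0) (XT.lf (nat_lit 0) (nat_lit 1997705962127) (nat_lit 76) (nat_lit 1617385334216) (nat_lit 76) (nat_lit 1605482422492) (nat_lit 1) (nat_lit 4) (nat_lit 2) (nat_lit 5) (nat_lit 2) (nat_lit 4) (nat_lit 370) (nat_lit 258) (nat_lit 152)) (XT.nd (nat_lit 32136) (nat_lit 0) (nat_lit 5092) (XT.lf (nat_lit 0) (nat_lit 2172534872415) (nat_lit 76) (nat_lit 1738485310767) (nat_lit 76) (nat_lit 1726582146389) (nat_lit 1) (nat_lit 4) (nat_lit 2) (nat_lit 5) (nat_lit 2) (nat_lit 4) (nat_lit 371) (nat_lit 258) (nat_lit 151)) (XT.lf (nat_lit 0) (nat_lit 1592374743) (nat_lit 76) (nat_lit 49782899) (nat_lit 0) (nat_lit 1592374743) (nat_lit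 68) (nat_lit 5) (nat_lit 69) (nat_lit 0) (nat_lit 68) (nat_lit 4) (nat_lit 262) (nat_lit 259) (nat_lit 259)))) (XT.nd (nat_lit 156) (nat_lit 304) (nat_lit 0) (XT.nd (nat_lit 78) (nat_lit 228) (nat_lit 0) (XT.lf (nat_lit 0) (nat_lit 3404228866) (nat_lit 76) (nat_lit 2847581732) (nat_lit 76) (nat_lit 257124348) (nat_lit 67) (nat_lit 4) (nat_lit 68) (nat_lit 5) (nat_lit 68) (nat_lit 4) (nat_lit 263) (nat_lit 259) (nat_lit 258)) (XT.lf (nat_lit 0) (nat_lit 402155665) (nat_lit 152) (nat_lit 2189760056) (nat_lit 228) (nat_lit 3977157560) (nat_lit 64) (nat_lit 5) (nat_lit 66) (nat_lit 5) (nat_lit 67) (nat_lit 4) (nat_lit 264) (nat_lit 259) (nat_lit 257))) (XT.nd (nat_lit 78) (nat_lit 304) (nat_lit 0) (XT.lf (nat_lit 0) (nat_lit 4176195227) (nat_lit 152) (nat_lit 1297902821) (nat_lit 228) (nat_lit 1175067790) (nat_lit 64) (nat_lit 5) (nat_lit 66) (nat_lit 5) (nat_lit 67) (nat_lit 4) (nat_lit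 265) (nat_lit 259) (nat_lit 256)) (XT.lf (nat_lit 0) (nat_lit 1356070770) (nat_lit 228) (nat_lit 181745074) (nat_lit 304) (nat_lit 5212983996) (nat_lit 60) (nat_lit 5) (nat_lit 63) (nat_lit 5) (nat_lit 64) (nat_lit 5) (nat_lit 266) (nat_lit 259) (nat_lit 255))))) (XT.nd (nat_lit 312) (nat_lit 1064) (nat_lit 0) (XT.nd (nat_lit 156) (nat_lit 380) (nat_lit 0) (XT.nd (nat_lit 78) (nat_lit 380) (nat_lit 0) (XT.lf (nat_lit 0) (nat_lit 4260756059) (nat_lit 304) (nat_lit 1480572594) (nat_lit 76) (nat_lit 1129230984) (nat_lit 60) (nat_lit 5) (nat_lit 64) (nat_lit 5) (nat_lit 61) (nat_lit 4) (nat_lit 267) (nat_lit 259) (nat_lit 254)) (XT.lf (nat_lit 0) (nat_lit 36340268) (nat_lit 380) (nat_lit 4322875616) (nat_lit 76) (nat_lit 2653533732) (nat_lit 55) (nat_lit 5) (nat_lit 60) (nat_lit 5) (nat_lit 56) (nat_lit 5) (nat_lit 268) (nat_lit 259) (nat_lit 253))) (XT.nd (nat_lit 78) (nat_lit 380) (nat_lit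 0) (XT.lf (nat_lit 0) (nat_lit 2580573866) (nat_lit 380) (nat_lit 146827361) (nat_lit 76) (nat_lit 4448059121) (nat_lit 55) (nat_lit 5) (nat_lit 60) (nat_lit 5) (nat_lit 56) (nat_lit 5) (nat_lit 269) (nat_lit 259) (nat_lit 252)) (XT.lf (nat_lit 0) (nat_lit 4404886193) (nat_lit 380) (nat_lit 831122093) (nat_lit 456) (nat_lit 2123270532) (nat_lit 50) (nat_lit 5) (nat_lit 55) (nat_lit 5) (nat_lit 56) (nat_lit 5) (nat_lit 270) (nat_lit 259) (nat_lit 251)))) (XT.nd (nat_lit 156) (nat_lit 532) (nat_lit 0) (XT.nd (nat_lit 78) (nat_lit 0) (nat_lit 0) (XT.lf (nat_lit 0) (nat_lit 400379298) (nat_lit 532) (nat_lit 5944054637) (nat_lit 76) (nat_lit 1222391902) (nat_lit 43) (nat_lit 5) (nat_lit 50) (nat_lit 5) (nat_lit 44) (nat_lit 5) (nat_lit 271) (nat_lit 259) (nat_lit 250)) (XT.lf (nat_lit 0) (nat_lit 2932448582) (nat_lit 532) (nat_lit 1324856249) (nat_lit 76) (nat_lit 3536119395) (nat_lit 43)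 (nat_lit 5) (nat_lit 50) (nat_lit 5) (nat_lit 44) (nat_lit 5) (nat_lit 272) (nat_lit 259) (nat_lit 249))) (XT.nd (nat_lit 78) (nat_lit 304) (nat_lit 0) (XT.lf (nat_lit 0) (nat_lit 3666130726) (nat_lit 228) (nat_lit 1919470594) (nat_lit 304) (nat_lit 2459585085) (nat_lit 40) (nat_lit 5) (nat_lit 43) (nat_lit 5) (nat_lit 44) (nat_lit 5) (nat_lit 273) (nat_lit 259) (nat_lit 248)) (XT.lf (nat_lit 0) (nat_lit 29840943) (nat_lit 304) (nat_lit 7681154987) (nat_lit 76) (nat_lit 614069654) (nat_lit 36) (nat_lit 5) (nat_lit 40) (nat_lit 5) (nat_lit 37) (nat_lit 5) (nat_lit 274) (nat_lit 259) (nat_lit 247)))))) (XT.nd (nat_lit 624) (nat_lit 760) (nat_lit 0) (XT.nd (nat_lit 312) (nat_lit 380) (nat_lit 0) (XT.nd (nat_lit 156) (nat_lit 228) (nat_lit 0) (XT.nd (nat_lit 78) (nat_lit 228) (nat_lit 0) (XT.lf (nat_lit 0) (nat_lit 2599647054) (nat_lit 304) (nat_lit 2610391189) (nat_lit 76) (nat_lit 3411468117)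 (nat_lit 36) (nat_lit 5) (nat_lit 40) (nat_lit 5) (nat_lit 37) (nat_lit 5) (nat_lit 275) (nat_lit 259) (nat_lit 246)) (XT.lf (nat_lit 0) (nat_lit 2828315730) (nat_lit 228) (nat_lit 2467900447) (nat_lit 304) (nat_lit 3652132210) (nat_lit 33) (nat_lit 5) (nat_lit 36) (nat_lit 5) (nat_lit 37) (nat_lit 5) (nat_lit 276) (nat_lit 259) (nat_lit 245))) (XT.nd (nat_lit 78) (nat_lit 228) (nat_lit 0) (XT.lf (nat_lit 0) (nat_lit 8152612969) (nat_lit 304) (nat_lit 644179337) (nat_lit 76) (nat_lit 509369399) (nat_lit 33) (nat_lit 5) (nat_lit 37) (nat_lit 5) (nat_lit 34) (nat_lit 4) (nat_lit 277) (nat_lit 259) (nat_lit 244)) (XT.lf (nat_lit 0) (nat_lit 1529904783) (nat_lit 228) (nat_lit 4427724764) (nat_lit 76) (nat_lit 3727318649) (nat_lit 30) (nat_lit 5) (nat_lit 33) (nat_lit 5) (nat_lit 31) (nat_lit 5) (nat_lit 278) (nat_lit 259) (nat_lit 243)))) (XT.nd (nat_lit 156) (nat_lit 228) (nat_lit 0) (XT.nd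 (nat_lit 78) (nat_lit 0) (nat_lit 0) (XT.lf (nat_lit 0) (nat_lit 1442100790) (nat_lit 152) (nat_lit 2847929004) (nat_lit 228) (nat_lit 5807944994) (nat_lit 28) (nat_lit 5) (nat_lit 30) (nat_lit 5) (nat_lit 31) (nat_lit 5) (nat_lit 279) (nat_lit 259) (nat_lit 242)) (XT.lf (nat_lit 0) (nat_lit 7283311145) (nat_lit 228) (nat_lit 2695381130) (nat_lit 76) (nat_lit 564622329) (nat_lit 28) (nat_lit 5) (nat_lit 31) (nat_lit 5) (nat_lit 29) (nat_lit 4) (nat_lit 280) (nat_lit 259) (nat_lit 241))) (XT.nd (nat_lit 78) (nat_lit 76) (nat_lit 0) (XT.lf (nat_lit 0) (nat_lit 3686737444) (nat_lit 152) (nat_lit 6877012672) (nat_lit 228) (nat_lit 456955513) (nat_lit 26) (nat_lit 5) (nat_lit 28) (nat_lit 5) (nat_lit 29) (nat_lit 4) (nat_lit 281) (nat_lit 259) (nat_lit 240)) (XT.lf (nat_lit 0) (nat_lit 2403979980) (nat_lit 228) (nat_lit 1029058095) (nat_lit 76) (nat_lit 8101532187) (nat_lit 25) (nat_lit 5)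 (nat_lit 28) (nat_lit 5) (nat_lit 26) (nat_lit 5) (nat_lit 282) (nat_lit 259) (nat_lit 239))))) (XT.nd (nat_lit 312) (nat_lit 304) (nat_lit 0) (XT.nd (nat_lit 156) (nat_lit 228) (nat_lit 0) (XT.nd (nat_lit 78) (nat_lit 76) (nat_lit 0) (XT.lf (nat_lit 0) (nat_lit 5515898820) (nat_lit 228) (nat_lit 6186772463) (nat_lit 76) (nat_lit 382369818) (nat_lit 23) (nat_lit 5) (nat_lit 26) (nat_lit 5) (nat_lit 24) (nat_lit 4) (nat_lit 283) (nat_lit 259) (nat_lit 238)) (XT.lf (nat_lit 0) (nat_lit 539775584) (nat_lit 76) (nat_lit 8365949757) (nat_lit 152) (nat_lit 3771684068) (nat_lit 22) (nat_lit 5) (nat_lit 23) (nat_lit 5) (nat_lit 24) (nat_lit 4) (nat_lit 284) (nat_lit 259) (nat_lit 237))) (XT.nd (nat_lit 78) (nat_lit 228) (nat_lit 0) (XT.lf (nat_lit 0) (nat_lit 8001971313) (nat_lit 76) (nat_lit 4635708491) (nat_lit 152) (nat_lit 673975124) (nat_lit 22) (nat_lit 5) (nat_lit 23) (nat_lit 5) (nat_lit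 24) (nat_lit 4) (nat_lit 285) (nat_lit 259) (nat_lit 236)) (XT.lf (nat_lit 0) (nat_lit 1949838001) (nat_lit 152) (nat_lit 541518583) (nat_lit 228) (nat_lit 11504007433) (nat_lit 19) (nat_lit 5) (nat_lit 21) (nat_lit 5) (nat_lit 22) (nat_lit 5) (nat_lit 286) (nat_lit 259) (nat_lit 235)))) (XT.nd (nat_lit 156) (nat_lit 228) (nat_lit 0) (XT.nd (nat_lit 78) (nat_lit 76) (nat_lit 0) (XT.lf (nat_lit 0) (nat_lit 6024472741) (nat_lit 228) (nat_lit 4894895577) (nat_lit 76) (nat_lit 3801052908) (nat_lit 19) (nat_lit 5) (nat_lit 22) (nat_lit 5) (nat_lit 20) (nat_lit 4) (nat_lit 287) (nat_lit 259) (nat_lit 234)) (XT.lf (nat_lit 0) (nat_lit 2815456841) (nat_lit 76) (nat_lit 7022025277) (nat_lit 152) (nat_lit 5666341257) (nat_lit 18) (nat_lit 5) (nat_lit 19) (nat_lit 5) (nat_lit 20) (nat_lit 4) (nat_lit 288) (nat_lit 259) (nat_lit 233))) (XT.nd (nat_lit 78) (nat_lit 228) (nat_lit 0) (XT.lf (nat_lit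 0) (nat_lit 11285432519) (nat_lit 76) (nat_lit 2722402527) (nat_lit 152) (nat_lit 2337989421) (nat_lit 18) (nat_lit 5) (nat_lit 19) (nat_lit 5) (nat_lit 20) (nat_lit 4) (nat_lit 289) (nat_lit 259) (nat_lit 232)) (XT.lf (nat_lit 0) (nat_lit 1240339003) (nat_lit 228) (nat_lit 14123877401) (nat_lit 76) (nat_lit 1884921029) (nat_lit 15) (nat_lit 5) (nat_lit 18) (nat_lit 5) (nat_lit 16) (nat_lit 4) (nat_lit 290) (nat_lit 259) (nat_lit 231))))))) (XT.nd (nat_lit 1248) (nat_lit 304) (nat_lit 0) (XT.nd (nat_lit 624) (nat_lit 304) (nat_lit 0) (XT.nd (nat_lit 312) (nat_lit 152) (nat_lit 0) (XT.nd (nat_lit 156) (nat_lit 76) (nat_lit 0) (XT.nd (nat_lit 78) (nat_lit 76) (nat_lit 0) (XT.lf (nat_lit 0) (nat_lit 5115198939) (nat_lit 228) (nat_lit 6226395031) (nat_lit 76) (nat_lit 6867425229) (nat_lit 15) (nat_lit 5) (nat_lit 18) (nat_lit 5) (nat_lit 16) (nat_lit 4) (nat_lit 291) (nat_lit 259) (nat_lit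 230)) (XT.lf (nat_lit 0) (nat_lit 2296206060) (nat_lit 76) (nat_lit 6988613372) (nat_lit 152) (nat_lit 9962171918) (nat_lit 14) (nat_lit 5) (nat_lit 15) (nat_lit 5) (nat_lit 16) (nat_lit 4) (nat_lit 292) (nat_lit 259) (nat_lit 229))) (XT.nd (nat_lit 78) (nat_lit 76) (nat_lit 0) (XT.lf (nat_lit 0) (nat_lit 11736247544) (nat_lit 76) (nat_lit 2153920150) (nat_lit 152) (nat_lit 6469736471) (nat_lit 14) (nat_lit 5) (nat_lit 15) (nat_lit 5) (nat_lit 16) (nat_lit 4) (nat_lit 293) (nat_lit 259) (nat_lit 228)) (XT.lf (nat_lit 0) (nat_lit 191777251) (nat_lit 76) (nat_lit 18686392021) (nat_lit 76) (nat_lit 2682612644) (nat_lit 13) (nat_lit 4) (nat_lit 14) (nat_lit 5) (nat_lit 14) (nat_lit 4) (nat_lit 294) (nat_lit 259) (nat_lit 227)))) (XT.nd (nat_lit 156) (nat_lit 76) (nat_lit 0) (XT.nd (nat_lit 78) (nat_lit 0) (nat_lit 0) (XT.lf (nat_lit 0) (nat_lit 1571182105) (nat_lit 152) (nat_lit 12846129089)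 (nat_lit 76) (nat_lit 8419041952) (nat_lit 12) (nat_lit 5) (nat_lit 14) (nat_lit 5) (nat_lit 13) (nat_lit 4) (nat_lit 295) (nat_lit 259) (nat_lit 226)) (XT.lf (nat_lit 0) (nat_lit 5961324282) (nat_lit 152) (nat_lit 3816863446) (nat_lit 76) (nat_lit 14434985642) (nat_lit 12) (nat_lit 5) (nat_lit 14) (nat_lit 5) (nat_lit 13) (nat_lit 4) (nat_lit 296) (nat_lit 259) (nat_lit 225))) (XT.nd (nat_lit 78) (nat_lit 0) (nat_lit 0) (XT.lf (nat_lit 0) (nat_lit 6144172302) (nat_lit 76) (nat_lit 4651619881) (nat_lit 152) (nat_lit 14896949295) (nat_lit 11) (nat_lit 5) (nat_lit 12) (nat_lit 5) (nat_lit 13) (nat_lit 4) (nat_lit 297) (nat_lit 259) (nat_lit 224)) (XT.lf (nat_lit 0) (nat_lit 16091450432) (nat_lit 152) (nat_lit 10285868308) (nat_lit 0) (nat_lit 907449265) (nat_lit 11) (nat_lit 5) (nat_lit 13) (nat_lit 4) (nat_lit 11) (nat_lit 4) (nat_lit 298) (nat_lit 259) (nat_lit 223))))) (XT.nd (nat_lit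 312) (nat_lit 152) (nat_lit 0) (XT.nd (nat_lit 156) (nat_lit 76) (nat_lit 0) (XT.nd (nat_lit 78) (nat_lit 76) (nat_lit 0) (XT.lf (nat_lit 0) (nat_lit 21881653398) (nat_lit 152) (nat_lit 494365903) (nat_lit 0) (nat_lit 6622510067) (nat_lit 11) (nat_lit 5) (nat_lit 13) (nat_lit 4) (nat_lit 11) (nat_lit 4) (nat_lit 299) (nat_lit 259) (nat_lit 222)) (XT.lf (nat_lit 0) (nat_lit 10522196194) (nat_lit 76) (nat_lit 17819704702) (nat_lit 76) (nat_lit 2490985293) (nat_lit 10) (nat_lit 4) (nat_lit 11) (nat_lit 5) (nat_lit 11) (nat_lit 4) (nat_lit 300) (nat_lit 259) (nat_lit 221))) (XT.nd (nat_lit 78) (nat_lit 0) (nat_lit 0) (XT.lf (nat_lit 0) (nat_lit 2347546268) (nat_lit 152) (nat_lit 10510245464) (nat_lit 76) (nat_lit 19953984939) (nat_lit 9) (nat_lit 5) (nat_lit 11) (nat_lit 5) (nat_lit 10) (nat_lit 4) (nat_lit 301) (nat_lit 259) (nat_lit 220)) (XT.lf (nat_lit 0) (nat_lit 7395999839) (nat_lit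 152) (nat_lit 69112309) (nat_lit 76) (nat_lit 27482129178) (nat_lit 9) (nat_lit 5) (nat_lit 11) (nat_lit 5) (nat_lit 10) (nat_lit 4) (nat_lit 302) (nat_lit 259) (nat_lit 219)))) (XT.nd (nat_lit 156) (nat_lit 76) (nat_lit 0) (XT.nd (nat_lit 78) (nat_lit 0) (nat_lit 0) (XT.lf (nat_lit 0) (nat_lit 11720813674) (nat_lit 76) (nat_lit 1369973529) (nat_lit 152) (nat_lit 24143389348) (nat_lit 8) (nat_lit 5) (nat_lit 9) (nat_lit 5) (nat_lit 10) (nat_lit 4) (nat_lit 303) (nat_lit 259) (nat_lit 218)) (XT.lf (nat_lit 0) (nat_lit 19329461036) (nat_lit 152) (nat_lit 15444741545) (nat_lit 0) (nat_lit 4922827513) (nat_lit 8) (nat_lit 5) (nat_lit 10) (nat_lit 4) (nat_lit 8) (nat_lit 4) (nat_lit 304) (nat_lit 259) (nat_lit 217))) (XT.nd (nat_lit 78) (nat_lit 76) (nat_lit 0) (XT.lf (nat_lit 0) (nat_lit 26066698939) (nat_lit 152) (nat_lit 4674060401) (nat_lit 0) (nat_lit 11616220685) (nat_lit 8) (nat_lit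 5) (nat_lit 10) (nat_lit 4) (nat_lit 8) (nat_lit 4) (nat_lit 305) (nat_lit 259) (nat_lit 216)) (XT.lf (nat_lit 0) (nat_lit 7258557130) (nat_lit 76) (nat_lit 26225488731) (nat_lit 76) (nat_lit 11734413504) (nat_lit 7) (nat_lit 4) (nat_lit 8) (nat_lit 5) (nat_lit 8) (nat_lit 4) (nat_lit 306) (nat_lit 259) (nat_lit 215)))))) (XT.nd (nat_lit 624) (nat_lit 152) (nat_lit 0) (XT.nd (nat_lit 312) (nat_lit 0) (nat_lit 0) (XT.nd (nat_lit 156) (nat_lit 152) (nat_lit 0) (XT.nd (nat_lit 78) (nat_lit 0) (nat_lit 0) (XT.lf (nat_lit 0) (nat_lit 20350371889) (nat_lit 76) (nat_lit 21239771598) (nat_lit 76) (nat_lit 6711106581) (nat_lit 7) (nat_lit 4) (nat_lit 8) (nat_lit 5) (nat_lit 8) (nat_lit 4) (nat_lit 307) (nat_lit 259) (nat_lit 214)) (XT.lf (nat_lit 0) (nat_lit 34432837259) (nat_lit 76) (nat_lit 15881860046) (nat_lit 76) (nat_lit 1318389668) (nat_lit 7) (nat_lit 4) (nat_lit 8) (nat_lit 5) (nat_lit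 8) (nat_lit 4) (nat_lit 308) (nat_lit 259) (nat_lit 213))) (XT.nd (nat_lit 78) (nat_lit 76) (nat_lit 0) (XT.lf (nat_lit 0) (nat_lit 4251801732) (nat_lit 152) (nat_lit 5751949960) (nat_lit 76) (nat_lit 45221351362) (nat_lit 6) (nat_lit 5) (nat_lit 8) (nat_lit 5) (nat_lit 7) (nat_lit 4) (nat_lit 309) (nat_lit 259) (nat_lit 212)) (XT.lf (nat_lit 0) (nat_lit 6871705885) (nat_lit 76) (nat_lit 3463507305) (nat_lit 152) (nat_lit 48755437367) (nat_lit 5) (nat_lit 5) (nat_lit 6) (nat_lit 5) (nat_lit 7) (nat_lit 4) (nat_lit 310) (nat_lit 259) (nat_lit 211)))) (XT.nd (nat_lit 156) (nat_lit 0) (nat_lit 0) (XT.nd (nat_lit 78) (nat_lit 0) (nat_lit 0) (XT.lf (nat_lit 0) (nat_lit 17127027340) (nat_lit 152) (nat_lit 42561411183) (nat_lit 0) (nat_lit 3559279961) (nat_lit 5) (nat_lit 5) (nat_lit 7) (nat_lit 4) (nat_lit 5) (nat_lit 4) (nat_lit 311) (nat_lit 259) (nat_lit 210)) (XT.lf (nat_lit 0) (nat_lit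 24527886118) (nat_lit 152) (nat_lit 32267772869) (nat_lit 0) (nat_lit 10936450795) (nat_lit 5) (nat_lit 5) (nat_lit 7) (nat_lit 4) (nat_lit 5) (nat_lit 4) (nat_lit 312) (nat_lit 259) (nat_lit 209))) (XT.nd (nat_lit 78) (nat_lit 0) (nat_lit 0) (XT.lf (nat_lit 0) (nat_lit 32498349031) (nat_lit 152) (nat_lit 21193732957) (nat_lit 0) (nat_lit 18884980426) (nat_lit 5) (nat_lit 5) (nat_lit 7) (nat_lit 4) (nat_lit 5) (nat_lit 4) (nat_lit 313) (nat_lit 259) (nat_lit 208)) (XT.lf (nat_lit 0) (nat_lit 41085648452) (nat_lit 152) (nat_lit 9273667507) (nat_lit 0) (nat_lit 27451971253) (nat_lit 5) (nat_lit 5) (nat_lit 7) (nat_lit 4) (nat_lit 5) (nat_lit 4) (nat_lit 314) (nat_lit 259) (nat_lit 207))))) (XT.nd (nat_lit 312) (nat_lit 76) (nat_lit 0) (XT.nd (nat_lit 156) (nat_lit 0) (nat_lit 0) (XT.nd (nat_lit 78) (nat_lit 0) (nat_lit 0) (XT.lf (nat_lit 0) (nat_lit 3750685379) (nat_lit 76) (nat_lit 46680190776)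 (nat_lit 76) (nat_lit 33027709324) (nat_lit 4) (nat_lit 4) (nat_lit 5) (nat_lit 5) (nat_lit 5) (nat_lit 4) (nat_lit 315) (nat_lit 259) (nat_lit 206)) (XT.lf (nat_lit 0) (nat_lit 18308381158) (nat_lit 76) (nat_lit 42450200352) (nat_lit 76) (nat_lit 28780307554) (nat_lit 4) (nat_lit 4) (nat_lit 5) (nat_lit 5) (nat_lit 5) (nat_lit 4) (nat_lit 316) (nat_lit 259) (nat_lit 205))) (XT.nd (nat_lit 78) (nat_lit 0) (nat_lit 0) (XT.lf (nat_lit 0) (nat_lit 33997352762) (nat_lit 76) (nat_lit 37897836582) (nat_lit 76) (nat_lit 24211822167) (nat_lit 4) (nat_lit 4) (nat_lit 5) (nat_lit 5) (nat_lit 5) (nat_lit 4) (nat_lit 317) (nat_lit 259) (nat_lit 204)) (XT.lf (nat_lit 0) (nat_lit 50910571872) (nat_lit 76) (nat_lit 32996122494) (nat_lit 76) (nat_lit 19295180656) (nat_lit 4) (nat_lit 4) (nat_lit 5) (nat_lit 5) (nat_lit 5) (nat_lit 4) (nat_lit 318) (nat_lit 259) (nat_lit 203)))) (XT.nd (nat_lit 156)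 (nat_lit 76) (nat_lit 0) (XT.nd (nat_lit 78) (nat_lit 0) (nat_lit 0) (XT.lf (nat_lit 0) (nat_lit 69148264974) (nat_lit 76) (nat_lit 27716010895) (nat_lit 76) (nat_lit 14001247369) (nat_lit 4) (nat_lit 4) (nat_lit 5) (nat_lit 5) (nat_lit 5) (nat_lit 4) (nat_lit 319) (nat_lit 259) (nat_lit 202)) (XT.lf (nat_lit 0) (nat_lit 88818507285) (nat_lit 76) (nat_lit 22026212234) (nat_lit 76) (nat_lit 8298650849) (nat_lit 4) (nat_lit 4) (nat_lit 5) (nat_lit 5) (nat_lit 5) (nat_lit 4) (nat_lit 320) (nat_lit 259) (nat_lit 201))) (XT.nd (nat_lit 78) (nat_lit 76) (nat_lit 0) (XT.lf (nat_lit 0) (nat_lit 110037863204) (nat_lit 76) (nat_lit 15893009186) (nat_lit 76) (nat_lit 2153597931) (nat_lit 4) (nat_lit 4) (nat_lit 5) (nat_lit 5) (nat_lit 5) (nat_lit 4) (nat_lit 321) (nat_lit 259) (nat_lit 200)) (XT.lf (nat_lit 0) (nat_lit 4246702675) (nat_lit 152) (nat_lit 4917241791) (nat_lit 76) (nat_lit 128569262011)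 (nat_lit 3) (nat_lit 5) (nat_lit 5) (nat_lit 5) (nat_lit 4) (nat_lit 4) (nat_lit 322) (nat_lit 259) (nat_lit 199))))))))
noncomputable def xc49 : XT := (XT.nd (nat_lit 2418) (nat_lit 0) (nat_lit 0) (XT.nd (nat_lit 1170) (nat_lit 76) (nat_lit 0) (XT.nd (nat_lit 546) (nat_lit 0) (nat_lit 0) (XT.nd (nat_lit 234) (nat_lit 0) (nat_lit 0) (XT.nd (nat_lit 78) (nat_lit 0) (nat_lit 0) (XT.lf (nat_lit 0) (nat_lit 9668592263) (nat_lit 76) (nat_lit 1595414934) (nat_lit 152) (nat_lit 136867658429) (nat_lit 2) (nat_lit 5) (nat_lit 3) (nat_lit 5) (nat_lit 4) (nat_lit 4) (nat_lit 323) (nat_lit 259) (nat_lit 198)) (XT.nd (nat_lit 78) (nat_lit 0) (nat_lit 0) (XT.lf (nat_lit 0) (nat_lit 19127728228) (nat_lit 152) (nat_lit 133833700845) (nat_lit 0) (nat_lit 6377774971) (nat_lit 2) (nat_lit 5) (nat_lit 4) (nat_lit 4) (nat_lit 2) (nat_lit 4) (nat_lit 324) (nat_lit 259) (nat_lit 197)) (XT.lf (nat_lit 0) (nat_lit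 27651688623) (nat_lit 152) (nat_lit 128895499768) (nat_lit 0) (nat_lit 14893670544) (nat_lit 2) (nat_lit 5) (nat_lit 4) (nat_lit 4) (nat_lit 2) (nat_lit 4) (nat_lit 325) (nat_lit 259) (nat_lit 196)))) (XT.nd (nat_lit 156) (nat_lit 0) (nat_lit 0) (XT.nd (nat_lit 78) (nat_lit 0) (nat_lit 0) (XT.lf (nat_lit 0) (nat_lit 36848030971) (nat_lit 152) (nat_lit 123580836948) (nat_lit 0) (nat_lit 24082545465) (nat_lit 2) (nat_lit 5) (nat_lit 4) (nat_lit 4) (nat_lit 2) (nat_lit 4) (nat_lit 326) (nat_lit 259) (nat_lit 195)) (XT.lf (nat_lit 0) (nat_lit 46771252118) (nat_lit 152) (nat_lit 117858218090) (nat_lit 0) (nat_lit 33998852327) (nat_lit 2) (nat_lit 5) (nat_lit 4) (nat_lit 4) (nat_lit 2) (nat_lit 4) (nat_lit 327) (nat_lit 259) (nat_lit 194))) (XT.nd (nat_lit 78) (nat_lit 0) (nat_lit 0) (XT.lf (nat_lit 0) (nat_lit 57480156336) (nat_lit 152) (nat_lit 111693731376) (nat_lit 0) (nat_lit 44701354429)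 (nat_lit 2) (nat_lit 5) (nat_lit 4) (nat_lit 4) (nat_lit 2) (nat_lit 4) (nat_lit 328) (nat_lit 259) (nat_lit 193)) (XT.lf (nat_lit 0) (nat_lit 69038203799) (nat_lit 152) (nat_lit 105050846516) (nat_lit 0) (nat_lit 56253474006) (nat_lit 2) (nat_lit 5) (nat_lit 4) (nat_lit 4) (nat_lit 2) (nat_lit 4) (nat_lit 329) (nat_lit 259) (nat_lit 192))))) (XT.nd (nat_lit 312) (nat_lit 0) (nat_lit 0) (XT.nd (nat_lit 156) (nat_lit 0) (nat_lit 0) (XT.nd (nat_lit 78) (nat_lit 0) (nat_lit 0) (XT.lf (nat_lit 0) (nat_lit 81513886639) (nat_lit 152) (nat_lit 97890198266) (nat_lit 0) (nat_lit 68723668064) (nat_lit 2) (nat_lit 5) (nat_lit 4) (nat_lit 4) (nat_lit 2) (nat_lit 4) (nat_lit 330) (nat_lit 259) (nat_lit 191)) (XT.lf (nat_lit 0) (nat_lit 94981134829) (nat_lit 152) (nat_lit 90169353155) (nat_lit 0) (nat_lit 82185834049) (nat_lit 2) (nat_lit 5) (nat_lit 4) (nat_lit 4) (nat_lit 2) (nat_lit 4) (nat_lit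 331) (nat_lit 259) (nat_lit 190))) (XT.nd (nat_lit 78) (nat_lit 0) (nat_lit 0) (XT.lf (nat_lit 0) (nat_lit 109519754285) (nat_lit 152) (nat_lit 81842558026) (nat_lit 0) (nat_lit 96719747758) (nat_lit 2) (nat_lit 5) (nat_lit 4) (nat_lit 4) (nat_lit 2) (nat_lit 4) (nat_lit 332) (nat_lit 259) (nat_lit 189)) (XT.lf (nat_lit 0) (nat_lit 125215899787) (nat_lit 152) (nat_lit 72860468908) (nat_lit 0) (nat_lit 112411536088) (nat_lit 2) (nat_lit 5) (nat_lit 4) (nat_lit 4) (nat_lit 2) (nat_lit 4) (nat_lit 333) (nat_lit 259) (nat_lit 188)))) (XT.nd (nat_lit 156) (nat_lit 0) (nat_lit 0) (XT.nd (nat_lit 78) (nat_lit 0) (nat_lit 0) (XT.lf (nat_lit 0) (nat_lit 142162585533) (nat_lit 152) (nat_lit 63169858607) (nat_lit 0) (nat_lit 129354187414) (nat_lit 2) (nat_lit 5) (nat_lit 4) (nat_lit 4) (nat_lit 2) (nat_lit 4) (nat_lit 334) (nat_lit 259) (nat_lit 187)) (XT.lf (nat_lit 0) (nat_lit 160460236325) (nat_lit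 152) (nat_lit 52713301284) (nat_lit 0) (nat_lit 147648102634) (nat_lit 2) (nat_lit 5) (nat_lit 4) (nat_lit 4) (nat_lit 2) (nat_lit 4) (nat_lit 335) (nat_lit 259) (nat_lit 186))) (XT.nd (nat_lit 78) (nat_lit 0) (nat_lit 0) (XT.lf (nat_lit 0) (nat_lit 180217282688) (nat_lit 152) (nat_lit 41428832154) (nat_lit 0) (nat_lit 167401690133) (nat_lit 2) (nat_lit 5) (nat_lit 4) (nat_lit 4) (nat_lit 2) (nat_lit 4) (nat_lit 336) (nat_lit 259) (nat_lit 185)) (XT.lf (nat_lit 0) (nat_lit 201550803415) (nat_lit 152) (nat_lit 29249580290) (nat_lit 0) (nat_lit 188732008208) (nat_lit 2) (nat_lit 5) (nat_lit 4) (nat_lit 4) (nat_lit 2) (nat_lit 4) (nat_lit 337) (nat_lit 259) (nat_lit 184)))))) (XT.nd (nat_lit 624) (nat_lit 0) (nat_lit 0) (XT.nd (nat_lit 312) (nat_lit 0) (nat_lit 0) (XT.nd (nat_lit 156) (nat_lit 76) (nat_lit 0) (XT.nd (nat_lit 78) (nat_lit 0) (nat_lit 0) (XT.lf (nat_lit 0) (nat_lit 224587219368)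 (nat_lit 152) (nat_lit 16103372347) (nat_lit 0) (nat_lit 211765458743) (nat_lit 2) (nat_lit 5) (nat_lit 4) (nat_lit 4) (nat_lit 2) (nat_lit 4) (nat_lit 338) (nat_lit 259) (nat_lit 183)) (XT.lf (nat_lit 0) (nat_lit 249463042644) (nat_lit 152) (nat_lit 1912304871) (nat_lit 0) (nat_lit 236638536261) (nat_lit 2) (nat_lit 5) (nat_lit 4) (nat_lit 4) (nat_lit 2) (nat_lit 4) (nat_lit 339) (nat_lit 259) (nat_lit 182))) (XT.nd (nat_lit 78) (nat_lit 0) (nat_lit 0) (XT.lf (nat_lit 0) (nat_lit 14113743988) (nat_lit 76) (nat_lit 262551377421) (nat_lit 76) (nat_lit 249724328670) (nat_lit 1) (nat_lit 4) (nat_lit 2) (nat_lit 5) (nat_lit 2) (nat_lit 4) (nat_lit 340) (nat_lit 259) (nat_lit 181)) (XT.lf (nat_lit 0) (nat_lit 31524460848) (nat_lit 76) (nat_lit 274568037243) (nat_lit 76) (nat_lit 261738634447) (nat_lit 1) (nat_lit 4) (nat_lit 2) (nat_lit 5) (nat_lit 2) (nat_lit 4) (nat_lit 341) (nat_lit 259)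 (nat_lit 180)))) (XT.nd (nat_lit 156) (nat_lit 0) (nat_lit 0) (XT.nd (nat_lit 78) (nat_lit 0) (nat_lit 0) (XT.lf (nat_lit 0) (nat_lit 50322321742) (nat_lit 76) (nat_lit 287548822620) (nat_lit 76) (nat_lit 274717240153) (nat_lit 1) (nat_lit 4) (nat_lit 2) (nat_lit 5) (nat_lit 2) (nat_lit 4) (nat_lit 342) (nat_lit 259) (nat_lit 179)) (XT.lf (nat_lit 0) (nat_lit 70618721401) (nat_lit 76) (nat_lit 301570656726) (nat_lit 76) (nat_lit 288737056045) (nat_lit 1) (nat_lit 4) (nat_lit 2) (nat_lit 5) (nat_lit 2) (nat_lit 4) (nat_lit 343) (nat_lit 259) (nat_lit 178))) (XT.nd (nat_lit 78) (nat_lit 0) (nat_lit 0) (XT.lf (nat_lit 0) (nat_lit 92533934786) (nat_lit 76) (nat_lit 316716631911) (nat_lit 76) (nat_lit 303881162513) (nat_lit 1) (nat_lit 4) (nat_lit 2) (nat_lit 5) (nat_lit 2) (nat_lit 4) (nat_lit 344) (nat_lit 259) (nat_lit 177)) (XT.lf (nat_lit 0) (nat_lit 116197829828) (nat_lit 76) (nat_lit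 333076502101) (nat_lit 76) (nat_lit 320239302411) (nat_lit 1) (nat_lit 4) (nat_lit 2) (nat_lit 5) (nat_lit 2) (nat_lit 4) (nat_lit 345) (nat_lit 259) (nat_lit 176))))) (XT.nd (nat_lit 312) (nat_lit 0) (nat_lit 0) (XT.nd (nat_lit 156) (nat_lit 0) (nat_lit 0) (XT.nd (nat_lit 78) (nat_lit 0) (nat_lit 0) (XT.lf (nat_lit 0) (nat_lit 141750637016) (nat_lit 76) (nat_lit 350747214676) (nat_lit 76) (nat_lit 337908412862) (nat_lit 1) (nat_lit 4) (nat_lit 2) (nat_lit 5) (nat_lit 2) (nat_lit 4) (nat_lit 346) (nat_lit 259) (nat_lit 175)) (XT.lf (nat_lit 0) (nat_lit 169343780392) (nat_lit 76) (nat_lit 369833484969) (nat_lit 76) (nat_lit 356993199708) (nat_lit 1) (nat_lit 4) (nat_lit 2) (nat_lit 5) (nat_lit 2) (nat_lit 4) (nat_lit 347) (nat_lit 259) (nat_lit 174))) (XT.nd (nat_lit 78) (nat_lit 0) (nat_lit 0) (XT.lf (nat_lit 0) (nat_lit 199140774881) (nat_lit 76) (nat_lit 390448416805) (nat_lit 76)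 (nat_lit 377606757981) (nat_lit 1) (nat_lit 4) (nat_lit 2) (nat_lit 5) (nat_lit 2) (nat_lit 4) (nat_lit 348) (nat_lit 259) (nat_lit 173)) (XT.lf (nat_lit 0) (nat_lit 231318195265) (nat_lit 76) (nat_lit 412714172742) (nat_lit 76) (nat_lit 399871242101) (nat_lit 1) (nat_lit 4) (nat_lit 2) (nat_lit 5) (nat_lit 2) (nat_lit 4) (nat_lit 349) (nat_lit 259) (nat_lit 172)))) (XT.nd (nat_lit 156) (nat_lit 0) (nat_lit 0) (XT.nd (nat_lit 78) (nat_lit 0) (nat_lit 0) (XT.lf (nat_lit 0) (nat_lit 266066722553) (nat_lit 76) (nat_lit 436762698001) (nat_lit 76) (nat_lit 423918589751) (nat_lit 1) (nat_lit 4) (nat_lit 2) (nat_lit 5) (nat_lit 2) (nat_lit 4) (nat_lit 350) (nat_lit 259) (nat_lit 171)) (XT.lf (nat_lit 0) (nat_lit 303592273944) (nat_lit 76) (nat_lit 462736502361) (nat_lit 76) (nat_lit 449891303733) (nat_lit 1) (nat_lit 4) (nat_lit 2) (nat_lit 5) (nat_lit 2) (nat_lit 4) (nat_lit 351) (nat_lit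 259) (nat_lit 170))) (XT.nd (nat_lit 78) (nat_lit 0) (nat_lit 0) (XT.lf (nat_lit 0) (nat_lit 344117223075) (nat_lit 76) (nat_lit 490789504662) (nat_lit 76) (nat_lit 477943296425) (nat_lit 1) (nat_lit 4) (nat_lit 2) (nat_lit 5) (nat_lit 2) (nat_lit 4) (nat_lit 352) (nat_lit 259) (nat_lit 169)) (XT.lf (nat_lit 0) (nat_lit 387881717795) (nat_lit 76) (nat_lit 521087944919) (nat_lit 76) (nat_lit 508240801858) (nat_lit 1) (nat_lit 4) (nat_lit 2) (nat_lit 5) (nat_lit 2) (nat_lit 4) (nat_lit 353) (nat_lit 259) (nat_lit 168))))))) (XT.nd (nat_lit 1248) (nat_lit 0) (nat_lit 0) (XT.nd (nat_lit 624) (nat_lit 0) (nat_lit 0) (XT.nd (nat_lit 312) (nat_lit 0) (nat_lit 0) (XT.nd (nat_lit 156) (nat_lit 0) (nat_lit 0) (XT.nd (nat_lit 78) (nat_lit 0) (nat_lit 0) (XT.lf (nat_lit 0) (nat_lit 435145103255) (nat_lit 76) (nat_lit 553811369444) (nat_lit 76) (nat_lit 540963360806) (nat_lit 1) (nat_lit 4) (nat_lit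 2) (nat_lit 5) (nat_lit 2) (nat_lit 4) (nat_lit 354) (nat_lit 259) (nat_lit 167)) (XT.lf (nat_lit 0) (nat_lit 486187458779) (nat_lit 76) (nat_lit 589153694826) (nat_lit 76) (nat_lit 576304884728) (nat_lit 1) (nat_lit 4) (nat_lit 2) (nat_lit 5) (nat_lit 2) (nat_lit 4) (nat_lit 355) (nat_lit 259) (nat_lit 166))) (XT.nd (nat_lit 78) (nat_lit 0) (nat_lit 0) (XT.lf (nat_lit 0) (nat_lit 541311257583) (nat_lit 76) (nat_lit 627324357069) (nat_lit 76) (nat_lit 614474804877) (nat_lit 1) (nat_lit 4) (nat_lit 2) (nat_lit 5) (nat_lit 2) (nat_lit 4) (nat_lit 356) (nat_lit 259) (nat_lit 165)) (XT.lf (nat_lit 0) (nat_lit 600843159216) (nat_lit 76) (nat_lit 668549552688) (nat_lit 76) (nat_lit 655699313373) (nat_lit 1) (nat_lit 4) (nat_lit 2) (nat_lit 5) (nat_lit 2) (nat_lit 4) (nat_lit 357) (nat_lit 259) (nat_lit 164)))) (XT.nd (nat_lit 156) (nat_lit 0) (nat_lit 0) (XT.nd (nat_lit 78) (nat_lit 0) (nat_lit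 0) (XT.lf (nat_lit 0) (nat_lit 665135945317) (nat_lit 76) (nat_lit 713073579140) (nat_lit 76) (nat_lit 700222703600) (nat_lit 1) (nat_lit 4) (nat_lit 2) (nat_lit 5) (nat_lit 2) (nat_lit 4) (nat_lit 358) (nat_lit 259) (nat_lit 163)) (XT.lf (nat_lit 0) (nat_lit 734570610175) (nat_lit 76) (nat_lit 761160282507) (nat_lit 76) (nat_lit 748308817870) (nat_lit 1) (nat_lit 4) (nat_lit 2) (nat_lit 5) (nat_lit 2) (nat_lit 4) (nat_lit 359) (nat_lit 259) (nat_lit 162))) (XT.nd (nat_lit 78) (nat_lit 0) (nat_lit 0) (XT.lf (nat_lit 0) (nat_lit 809558618470) (nat_lit 76) (nat_lit 813094621032) (nat_lit 76) (nat_lit 800242610934) (nat_lit 1) (nat_lit 4) (nat_lit 2) (nat_lit 5) (nat_lit 2) (nat_lit 4) (nat_lit 360) (nat_lit 259) (nat_lit 161)) (XT.lf (nat_lit 0) (nat_lit 890544343585) (nat_lit 76) (nat_lit 869184353757) (nat_lit 76) (nat_lit 856331838603) (nat_lit 1) (nat_lit 4) (nat_lit 2) (nat_lit 5)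 (nat_lit 2) (nat_lit 4) (nat_lit 361) (nat_lit 259) (nat_lit 160))))) (XT.nd (nat_lit 312) (nat_lit 0) (nat_lit 0) (XT.nd (nat_lit 156) (nat_lit 0) (nat_lit 0) (XT.nd (nat_lit 78) (nat_lit 0) (nat_lit 0) (XT.lf (nat_lit 0) (nat_lit 978007700927) (nat_lit 76) (nat_lit 929761864284) (nat_lit 76) (nat_lit 916908881486) (nat_lit 1) (nat_lit 4) (nat_lit 2) (nat_lit 5) (nat_lit 2) (nat_lit 4) (nat_lit 362) (nat_lit 259) (nat_lit 159)) (XT.lf (nat_lit 0) (nat_lit 1072466991874) (nat_lit 76) (nat_lit 995186130453) (nat_lit 76) (nat_lit 982332714650) (nat_lit 1) (nat_lit 4) (nat_lit 2) (nat_lit 5) (nat_lit 2) (nat_lit 4) (nat_lit 363) (nat_lit 259) (nat_lit 158))) (XT.nd (nat_lit 78) (nat_lit 0) (nat_lit 0) (XT.lf (nat_lit 0) (nat_lit 1174481975186) (nat_lit 76) (nat_lit 1065844851619) (nat_lit 76) (nat_lit 1052991034887) (nat_lit 1) (nat_lit 4) (nat_lit 2) (nat_lit 5) (nat_lit 2) (nat_lit 4)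 (nat_lit 364) (nat_lit 259) (nat_lit 157)) (XT.lf (nat_lit 0) (nat_lit 1284657184098) (nat_lit 76) (nat_lit 1142156746130) (nat_lit 76) (nat_lit 1129302558166) (nat_lit 1) (nat_lit 4) (nat_lit 2) (nat_lit 5) (nat_lit 2) (nat_lit 4) (nat_lit 365) (nat_lit 259) (nat_lit 156)))) (XT.nd (nat_lit 156) (nat_lit 0) (nat_lit 0) (XT.nd (nat_lit 78) (nat_lit 0) (nat_lit 0) (XT.lf (nat_lit 0) (nat_lit 1403645508737) (nat_lit 76) (nat_lit 1224574032619) (nat_lit 76) (nat_lit 1211719500923) (nat_lit 1) (nat_lit 4) (nat_lit 2) (nat_lit 5) (nat_lit 2) (nat_lit 4) (nat_lit 366) (nat_lit 259) (nat_lit 155)) (XT.lf (nat_lit 0) (nat_lit 1532152065101) (nat_lit 76) (nat_lit 1313585109822) (nat_lit 76) (nat_lit 1300730259855) (nat_lit 1) (nat_lit 4) (nat_lit 2) (nat_lit 5) (nat_lit 2) (nat_lit 4) (nat_lit 367) (nat_lit 259) (nat_lit 154))) (XT.nd (nat_lit 78) (nat_lit 0) (nat_lit 0) (XT.lf (nat_lit 0) (nat_lit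 1670938373524) (nat_lit 76) (nat_lit 1409717450789) (nat_lit 76) (nat_lit 1396862306126) (nat_lit 1) (nat_lit 4) (nat_lit 2) (nat_lit 5) (nat_lit 2) (nat_lit 4) (nat_lit 368) (nat_lit 259) (nat_lit 153)) (XT.lf (nat_lit 0) (nat_lit 1820826871389) (nat_lit 76) (nat_lit 1513540728651) (nat_lit 76) (nat_lit 1500685311123) (nat_lit 1) (nat_lit 4) (nat_lit 2) (nat_lit 5) (nat_lit 2) (nat_lit 4) (nat_lit 369) (nat_lit 259) (nat_lit 152)))))) (XT.nd (nat_lit 32604) (nat_lit 0) (nat_lit 2888) (XT.nd (nat_lit 32292) (nat_lit 0) (nat_lit 4484) (XT.nd (nat_lit 32136) (nat_lit 0) (nat_lit 5092) (XT.nd (nat_lit 32058) (nat_lit 0) (nat_lit 5168) (XT.lf (nat_lit 0) (nat_lit 1982705786832) (nat_lit 76) (nat_lit 1625670192463) (nat_lit 76) (nat_lit 1612814522280) (nat_lit 1) (nat_lit 4) (nat_lit 2) (nat_lit 5) (nat_lit 2) (nat_lit 4) (nat_lit 370) (nat_lit 259) (nat_lit 151)) (XT.lf (nat_lit 0) (nat_lit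 1073741823) (nat_lit 0) (nat_lit 0) (nat_lit 0) (nat_lit 0) (nat_lit 69) (nat_lit 0) (nat_lit 1) (nat_lit 0) (nat_lit 1) (nat_lit 0) (nat_lit 260) (nat_lit 260) (nat_lit 260))) (XT.nd (nat_lit 78) (nat_lit 0) (nat_lit 0) (XT.lf (nat_lit 0) (nat_lit 2948842116) (nat_lit 76) (nat_lit 3349063076) (nat_lit 0) (nat_lit 151148142) (nat_lit 68) (nat_lit 5) (nat_lit 69) (nat_lit 0) (nat_lit 68) (nat_lit 4) (nat_lit 261) (nat_lit 260) (nat_lit 259)) (XT.lf (nat_lit 0) (nat_lit 5842491477) (nat_lit 76) (nat_lit 184159890) (nat_lit 0) (nat_lit 454340118) (nat_lit 68) (nat_lit 5) (nat_lit 69) (nat_lit 0) (nat_lit 68) (nat_lit 4) (nat_lit 262) (nat_lit 260) (nat_lit 258)))) (XT.nd (nat_lit 156) (nat_lit 304) (nat_lit 0) (XT.nd (nat_lit 78) (nat_lit 152) (nat_lit 0) (XT.lf (nat_lit 0) (nat_lit 2131373572) (nat_lit 152) (nat_lit 3353465979) (nat_lit 76) (nat_lit 1043078627) (nat_lit 66) (nat_lit 5)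 (nat_lit 68) (nat_lit 5) (nat_lit 67) (nat_lit 4) (nat_lit 263) (nat_lit 260) (nat_lit 257)) (XT.lf (nat_lit 0) (nat_lit 45850363) (nat_lit 152) (nat_lit 4787550142) (nat_lit 228) (nat_lit 1765473300) (nat_lit 64) (nat_lit 5) (nat_lit 66) (nat_lit 5) (nat_lit 67) (nat_lit 4) (nat_lit 264) (nat_lit 260) (nat_lit 256))) (XT.nd (nat_lit 78) (nat_lit 228) (nat_lit 0) (XT.lf (nat_lit 0) (nat_lit 862942027) (nat_lit 228) (nat_lit 2972341892) (nat_lit 76) (nat_lit 2851930690) (nat_lit 63) (nat_lit 5) (nat_lit 66) (nat_lit 5) (nat_lit 64) (nat_lit 5) (nat_lit 265) (nat_lit 260) (nat_lit 255)) (XT.lf (nat_lit 0) (nat_lit 714556451) (nat_lit 228) (nat_lit 2674264043) (nat_lit 304) (nat_lit 3408485540) (nat_lit 60) (nat_lit 5) (nat_lit 63) (nat_lit 5) (nat_lit 64) (nat_lit 5) (nat_lit 266) (nat_lit 260) (nat_lit 254))))) (XT.nd (nat_lit 312) (nat_lit 836) (nat_lit 0) (XT.nd (nat_lit 156) (nat_lit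 380) (nat_lit 0) (XT.nd (nat_lit 78) (nat_lit 380) (nat_lit 0) (XT.lf (nat_lit 0) (nat_lit 4699627086) (nat_lit 228) (nat_lit 1277188319) (nat_lit 304) (nat_lit 951472325) (nat_lit 60) (nat_lit 5) (nat_lit 63) (nat_lit 5) (nat_lit 64) (nat_lit 5) (nat_lit 267) (nat_lit 260) (nat_lit 253)) (XT.lf (nat_lit 0) (nat_lit 1458617076) (nat_lit 380) (nat_lit 5271096705) (nat_lit 76) (nat_lit 350186595) (nat_lit 55) (nat_lit 5) (nat_lit 60) (nat_lit 5) (nat_lit 56) (nat_lit 5) (nat_lit 268) (nat_lit 260) (nat_lit 252))) (XT.nd (nat_lit 78) (nat_lit 380) (nat_lit 0) (XT.lf (nat_lit 0) (nat_lit 3907525922) (nat_lit 380) (nat_lit 1180994992) (nat_lit 76) (nat_lit 2162054563) (nat_lit 55) (nat_lit 5) (nat_lit 60) (nat_lit 5) (nat_lit 56) (nat_lit 5) (nat_lit 269) (nat_lit 260) (nat_lit 251)) (XT.lf (nat_lit 0) (nat_lit 3232490447) (nat_lit 380) (nat_lit 3214010090) (nat_lit 456) (nat_lit 997523518)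 (nat_lit 50) (nat_lit 5) (nat_lit 55) (nat_lit 5) (nat_lit 56) (nat_lit 5) (nat_lit 270) (nat_lit 260) (nat_lit 250)))) (XT.nd (nat_lit 156) (nat_lit 304) (nat_lit 0) (XT.nd (nat_lit 78) (nat_lit 0) (nat_lit 0) (XT.lf (nat_lit 0) (nat_lit 217651990) (nat_lit 456) (nat_lit 1100578448) (nat_lit 532) (nat_lit 6343569837) (nat_lit 43) (nat_lit 5) (nat_lit 49) (nat_lit 5) (nat_lit 50) (nat_lit 5) (nat_lit 271) (nat_lit 260) (nat_lit 249)) (XT.lf (nat_lit 0) (nat_lit 3742267024) (nat_lit 532) (nat_lit 2885568454) (nat_lit 76) (nat_lit 1269454528) (nat_lit 43) (nat_lit 5) (nat_lit 50) (nat_lit 5) (nat_lit 44) (nat_lit 5) (nat_lit 272) (nat_lit 260) (nat_lit 248))) (XT.nd (nat_lit 78) (nat_lit 76) (nat_lit 0) (XT.lf (nat_lit 0) (nat_lit 1938351433) (nat_lit 228) (nat_lit 4339993195) (nat_lit 304) (nat_lit 1880303869) (nat_lit 40) (nat_lit 5) (nat_lit 43) (nat_lit 5) (nat_lit 44) (nat_lit 5)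 (nat_lit 273) (nat_lit 260) (nat_lit 247)) (XT.lf (nat_lit 0) (nat_lit 474822269) (nat_lit 304) (nat_lit 1310206958) (nat_lit 76) (nat_lit 6661007109) (nat_lit 39) (nat_lit 5) (nat_lit 43) (nat_lit 5) (nat_lit 40) (nat_lit 5) (nat_lit 274) (nat_lit 260) (nat_lit 246))))))))
noncomputable def xc50 : XT := (XT.nd (nat_lit 2418) (nat_lit 456) (nat_lit 0) (XT.nd (nat_lit 1170) (nat_lit 760) (nat_lit 0) (XT.nd (nat_lit 546) (nat_lit 608) (nat_lit 0) (XT.nd (nat_lit 234) (nat_lit 532) (nat_lit 0) (XT.nd (nat_lit 78) (nat_lit 228) (nat_lit 0) (XT.lf (nat_lit 0) (nat_lit 2897069661) (nat_lit 304) (nat_lit 4799489415) (nat_lit 76) (nat_lit 1057905556) (nat_lit 36) (nat_lit 5) (nat_lit 40) (nat_lit 5) (nat_lit 37) (nat_lit 5) (nat_lit 275) (nat_lit 260) (nat_lit 245)) (XT.nd (nat_lit 78) (nat_lit 0) (nat_lit 0) (XT.lf (nat_lit 0) (nat_lit 439969897) (nat_lit 228) (nat_lit 5030861173) (nat_lit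 304) (nat_lit 3620469484) (nat_lit 33) (nat_lit 5) (nat_lit 36) (nat_lit 5) (nat_lit 37) (nat_lit 5) (nat_lit 276) (nat_lit 260) (nat_lit 244)) (XT.lf (nat_lit 0) (nat_lit 6209810287) (nat_lit 228) (nat_lit 2042126308) (nat_lit 304) (nat_lit 1203357317) (nat_lit 33) (nat_lit 5) (nat_lit 36) (nat_lit 5) (nat_lit 37) (nat_lit 5) (nat_lit 277) (nat_lit 260) (nat_lit 243)))) (XT.nd (nat_lit 156) (nat_lit 304) (nat_lit 0) (XT.nd (nat_lit 78) (nat_lit 0) (nat_lit 0) (XT.lf (nat_lit 0) (nat_lit 1304160104) (nat_lit 228) (nat_lit 7352217047) (nat_lit 76) (nat_lit 1192207683) (nat_lit 30) (nat_lit 5) (nat_lit 33) (nat_lit 5) (nat_lit 31) (nat_lit 5) (nat_lit 278) (nat_lit 260) (nat_lit 242)) (XT.lf (nat_lit 0) (nat_lit 3972428305) (nat_lit 228) (nat_lit 1632150538) (nat_lit 76) (nat_lit 4664505551) (nat_lit 30) (nat_lit 5) (nat_lit 33) (nat_lit 5) (nat_lit 31) (nat_lit 5) (nat_lit 279) (nat_lit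 260) (nat_lit 241))) (XT.nd (nat_lit 78) (nat_lit 152) (nat_lit 0) (XT.lf (nat_lit 0) (nat_lit 4627519486) (nat_lit 152) (nat_lit 2227817057) (nat_lit 228) (nat_lit 3868032725) (nat_lit 28) (nat_lit 5) (nat_lit 30) (nat_lit 5) (nat_lit 31) (nat_lit 5) (nat_lit 280) (nat_lit 260) (nat_lit 240)) (XT.lf (nat_lit 0) (nat_lit 85975331) (nat_lit 152) (nat_lit 9858454981) (nat_lit 228) (nat_lit 1271744270) (nat_lit 26) (nat_lit 5) (nat_lit 28) (nat_lit 5) (nat_lit 29) (nat_lit 4) (nat_lit 281) (nat_lit 260) (nat_lit 239))))) (XT.nd (nat_lit 312) (nat_lit 304) (nat_lit 0) (XT.nd (nat_lit 156) (nat_lit 76) (nat_lit 0) (XT.nd (nat_lit 78) (nat_lit 152) (nat_lit 0) (XT.lf (nat_lit 0) (nat_lit 1579474673) (nat_lit 228) (nat_lit 4880323661) (nat_lit 76) (nat_lit 5275938042) (nat_lit 25) (nat_lit 5) (nat_lit 28) (nat_lit 5) (nat_lit 26) (nat_lit 5) (nat_lit 282) (nat_lit 260) (nat_lit 238)) (XT.lf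 (nat_lit 0) (nat_lit 1781916106) (nat_lit 152) (nat_lit 2753810694) (nat_lit 228) (nat_lit 7763018432) (nat_lit 23) (nat_lit 5) (nat_lit 25) (nat_lit 5) (nat_lit 26) (nat_lit 5) (nat_lit 283) (nat_lit 260) (nat_lit 237))) (XT.nd (nat_lit 78) (nat_lit 76) (nat_lit 0) (XT.lf (nat_lit 0) (nat_lit 7800907867) (nat_lit 228) (nat_lit 3821536084) (nat_lit 76) (nat_lit 1278719635) (nat_lit 23) (nat_lit 5) (nat_lit 26) (nat_lit 5) (nat_lit 24) (nat_lit 4) (nat_lit 284) (nat_lit 260) (nat_lit 236)) (XT.lf (nat_lit 0) (nat_lit 3370726233) (nat_lit 76) (nat_lit 8021667058) (nat_lit 152) (nat_lit 2154325938) (nat_lit 22) (nat_lit 5) (nat_lit 23) (nat_lit 5) (nat_lit 24) (nat_lit 4) (nat_lit 285) (nat_lit 260) (nat_lit 235)))) (XT.nd (nat_lit 156) (nat_lit 76) (nat_lit 0) (XT.nd (nat_lit 78) (nat_lit 152) (nat_lit 0) (XT.lf (nat_lit 0) (nat_lit 996567230) (nat_lit 152) (nat_lit 3044269767) (nat_lit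 76) (nat_lit 10199581097) (nat_lit 21) (nat_lit 5) (nat_lit 23) (nat_lit 5) (nat_lit 22) (nat_lit 5) (nat_lit 286) (nat_lit 260) (nat_lit 234)) (XT.lf (nat_lit 0) (nat_lit 4325811746) (nat_lit 228) (nat_lit 10281245097) (nat_lit 76) (nat_lit 374785825) (nat_lit 19) (nat_lit 5) (nat_lit 22) (nat_lit 5) (nat_lit 20) (nat_lit 4) (nat_lit 287) (nat_lit 260) (nat_lit 233))) (XT.nd (nat_lit 78) (nat_lit 76) (nat_lit 0) (XT.lf (nat_lit 0) (nat_lit 8033478756) (nat_lit 228) (nat_lit 2773656128) (nat_lit 76) (nat_lit 4966590685) (nat_lit 19) (nat_lit 5) (nat_lit 22) (nat_lit 5) (nat_lit 20) (nat_lit 4) (nat_lit 288) (nat_lit 260) (nat_lit 232)) (XT.lf (nat_lit 0) (nat_lit 5489908507) (nat_lit 76) (nat_lit 6607409378) (nat_lit 152) (nat_lit 4526979291) (nat_lit 18) (nat_lit 5) (nat_lit 19) (nat_lit 5) (nat_lit 20) (nat_lit 4) (nat_lit 289) (nat_lit 260) (nat_lit 231)))))) (XT.nd (nat_lit 624)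 (nat_lit 304) (nat_lit 0) (XT.nd (nat_lit 312) (nat_lit 152) (nat_lit 0) (XT.nd (nat_lit 156) (nat_lit 76) (nat_lit 0) (XT.nd (nat_lit 78) (nat_lit 228) (nat_lit 0) (XT.lf (nat_lit 0) (nat_lit 14456058897) (nat_lit 76) (nat_lit 2036141098) (nat_lit 152) (nat_lit 1050334809) (nat_lit 18) (nat_lit 5) (nat_lit 19) (nat_lit 5) (nat_lit 20) (nat_lit 4) (nat_lit 290) (nat_lit 260) (nat_lit 230)) (XT.lf (nat_lit 0) (nat_lit 2714058502) (nat_lit 228) (nat_lit 12882483678) (nat_lit 76) (nat_lit 2920975151) (nat_lit 15) (nat_lit 5) (nat_lit 18) (nat_lit 5) (nat_lit 16) (nat_lit 4) (nat_lit 291) (nat_lit 260) (nat_lit 229))) (XT.nd (nat_lit 78) (nat_lit 76) (nat_lit 0) (XT.lf (nat_lit 0) (nat_lit 6797092983) (nat_lit 228) (nat_lit 4528854860) (nat_lit 76) (nat_lit 8236504839) (nat_lit 15) (nat_lit 5) (nat_lit 18) (nat_lit 5) (nat_lit 16) (nat_lit 4) (nat_lit 292) (nat_lit 260) (nat_lit 228)) (XT.lf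 (nat_lit 0) (nat_lit 4619968197) (nat_lit 76) (nat_lit 6637511094) (nat_lit 152) (nat_lit 9429516790) (nat_lit 14) (nat_lit 5) (nat_lit 15) (nat_lit 5) (nat_lit 16) (nat_lit 4) (nat_lit 293) (nat_lit 260) (nat_lit 227)))) (XT.nd (nat_lit 156) (nat_lit 76) (nat_lit 0) (XT.nd (nat_lit 78) (nat_lit 76) (nat_lit 0) (XT.lf (nat_lit 0) (nat_lit 14656689619) (nat_lit 76) (nat_lit 1483463996) (nat_lit 152) (nat_lit 5756177535) (nat_lit 14) (nat_lit 5) (nat_lit 15) (nat_lit 5) (nat_lit 16) (nat_lit 4) (nat_lit 294) (nat_lit 260) (nat_lit 226)) (XT.lf (nat_lit 0) (nat_lit 2208767558) (nat_lit 76) (nat_lit 19300981180) (nat_lit 76) (nat_lit 1685019705) (nat_lit 13) (nat_lit 4) (nat_lit 14) (nat_lit 5) (nat_lit 14) (nat_lit 4) (nat_lit 295) (nat_lit 260) (nat_lit 225))) (XT.nd (nat_lit 78) (nat_lit 0) (nat_lit 0) (XT.lf (nat_lit 0) (nat_lit 2763138432) (nat_lit 152) (nat_lit 11963291020) (nat_lit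 76) (nat_lit 9850527958) (nat_lit 12) (nat_lit 5) (nat_lit 14) (nat_lit 5) (nat_lit 13) (nat_lit 4) (nat_lit 296) (nat_lit 260) (nat_lit 224)) (XT.lf (nat_lit 0) (nat_lit 7425509631) (nat_lit 152) (nat_lit 2353204748) (nat_lit 76) (nat_lit 16291601762) (nat_lit 12) (nat_lit 5) (nat_lit 14) (nat_lit 5) (nat_lit 13) (nat_lit 4) (nat_lit 297) (nat_lit 260) (nat_lit 223))))) (XT.nd (nat_lit 312) (nat_lit 152) (nat_lit 0) (XT.nd (nat_lit 156) (nat_lit 76) (nat_lit 0) (XT.nd (nat_lit 78) (nat_lit 0) (nat_lit 0) (XT.lf (nat_lit 0) (nat_lit 8359928853) (nat_lit 76) (nat_lit 4255141902) (nat_lit 152) (nat_lit 15055780875) (nat_lit 11) (nat_lit 5) (nat_lit 12) (nat_lit 5) (nat_lit 13) (nat_lit 4) (nat_lit 298) (nat_lit 260) (nat_lit 222)) (XT.lf (nat_lit 0) (nat_lit 18280711122) (nat_lit 152) (nat_lit 9457768418) (nat_lit 0) (nat_lit 1656118082) (nat_lit 11) (nat_lit 5) (nat_lit 13) (nat_lit 4)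 (nat_lit 11) (nat_lit 4) (nat_lit 299) (nat_lit 260) (nat_lit 221))) (XT.nd (nat_lit 78) (nat_lit 0) (nat_lit 0) (XT.lf (nat_lit 0) (nat_lit 1047142458) (nat_lit 76) (nat_lit 23445360953) (nat_lit 76) (nat_lit 6756345619) (nat_lit 10) (nat_lit 4) (nat_lit 11) (nat_lit 5) (nat_lit 11) (nat_lit 4) (nat_lit 300) (nat_lit 260) (nat_lit 220)) (XT.lf (nat_lit 0) (nat_lit 12853946576) (nat_lit 76) (nat_lit 18564412486) (nat_lit 76) (nat_lit 1815746879) (nat_lit 10) (nat_lit 4) (nat_lit 11) (nat_lit 5) (nat_lit 11) (nat_lit 4) (nat_lit 301) (nat_lit 260) (nat_lit 219)))) (XT.nd (nat_lit 156) (nat_lit 0) (nat_lit 0) (XT.nd (nat_lit 78) (nat_lit 76) (nat_lit 0) (XT.lf (nat_lit 0) (nat_lit 3304581769) (nat_lit 152) (nat_lit 9930367259) (nat_lit 76) (nat_lit 22139645966) (nat_lit 9) (nat_lit 5) (nat_lit 11) (nat_lit 5) (nat_lit 10) (nat_lit 4) (nat_lit 302) (nat_lit 260) (nat_lit 218)) (XT.lf (nat_lit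 0) (nat_lit 1306159035) (nat_lit 76) (nat_lit 7425185613) (nat_lit 152) (nat_lit 28951640884) (nat_lit 8) (nat_lit 5) (nat_lit 9) (nat_lit 5) (nat_lit 10) (nat_lit 4) (nat_lit 303) (nat_lit 260) (nat_lit 217))) (XT.nd (nat_lit 78) (nat_lit 0) (nat_lit 0) (XT.lf (nat_lit 0) (nat_lit 13940636924) (nat_lit 76) (nat_lit 887741474) (nat_lit 152) (nat_lit 25328804248) (nat_lit 8) (nat_lit 5) (nat_lit 9) (nat_lit 5) (nat_lit 10) (nat_lit 4) (nat_lit 304) (nat_lit 260) (nat_lit 216)) (XT.lf (nat_lit 0) (nat_lit 21528189902) (nat_lit 152) (nat_lit 15454716552) (nat_lit 0) (nat_lit 5837231684) (nat_lit 8) (nat_lit 5) (nat_lit 10) (nat_lit 4) (nat_lit 8) (nat_lit 4) (nat_lit 305) (nat_lit 260) (nat_lit 215))))))) (XT.nd (nat_lit 1248) (nat_lit 152) (nat_lit 0) (XT.nd (nat_lit 624) (nat_lit 76) (nat_lit 0) (XT.nd (nat_lit 312) (nat_lit 152) (nat_lit 0) (XT.nd (nat_lit 156) (nat_lit 0) (nat_lit 0)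 (XT.nd (nat_lit 78) (nat_lit 76) (nat_lit 0) (XT.lf (nat_lit 0) (nat_lit 28756082987) (nat_lit 152) (nat_lit 3913166422) (nat_lit 0) (nat_lit 13027534978) (nat_lit 8) (nat_lit 5) (nat_lit 10) (nat_lit 4) (nat_lit 8) (nat_lit 4) (nat_lit 306) (nat_lit 260) (nat_lit 214)) (XT.lf (nat_lit 0) (nat_lit 8945330922) (nat_lit 76) (nat_lit 27803343908) (nat_lit 76) (nat_lit 12039990538) (nat_lit 7) (nat_lit 4) (nat_lit 8) (nat_lit 5) (nat_lit 8) (nat_lit 4) (nat_lit 307) (nat_lit 260) (nat_lit 213))) (XT.nd (nat_lit 78) (nat_lit 0) (nat_lit 0) (XT.lf (nat_lit 0) (nat_lit 23002558326) (nat_lit 76) (nat_lit 22457301546) (nat_lit 76) (nat_lit 6661720990) (nat_lit 7) (nat_lit 4) (nat_lit 8) (nat_lit 5) (nat_lit 8) (nat_lit 4) (nat_lit 308) (nat_lit 260) (nat_lit 212)) (XT.lf (nat_lit 0) (nat_lit 38135757468) (nat_lit 76) (nat_lit 16706434979) (nat_lit 76) (nat_lit 881014436) (nat_lit 7) (nat_lit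 4) (nat_lit 8) (nat_lit 5) (nat_lit 8) (nat_lit 4) (nat_lit 309) (nat_lit 260) (nat_lit 211)))) (XT.nd (nat_lit 156) (nat_lit 0) (nat_lit 0) (XT.nd (nat_lit 78) (nat_lit 76) (nat_lit 0) (XT.lf (nat_lit 0) (nat_lit 5069437564) (nat_lit 152) (nat_lit 5308620026) (nat_lit 76) (nat_lit 49226561594) (nat_lit 6) (nat_lit 5) (nat_lit 8) (nat_lit 5) (nat_lit 7) (nat_lit 4) (nat_lit 310) (nat_lit 260) (nat_lit 210)) (XT.lf (nat_lit 0) (nat_lit 8302055226) (nat_lit 76) (nat_lit 3323275719) (nat_lit 152) (nat_lit 52155236509) (nat_lit 5) (nat_lit 5) (nat_lit 6) (nat_lit 5) (nat_lit 7) (nat_lit 4) (nat_lit 311) (nat_lit 260) (nat_lit 209))) (XT.nd (nat_lit 78) (nat_lit 0) (nat_lit 0) (XT.lf (nat_lit 0) (nat_lit 18935464589) (nat_lit 152) (nat_lit 45125665143) (nat_lit 0) (nat_lit 4211093215) (nat_lit 5) (nat_lit 5) (nat_lit 7) (nat_lit 4) (nat_lit 5) (nat_lit 4) (nat_lit 312) (nat_lit 260) (nat_lit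 208)) (XT.lf (nat_lit 0) (nat_lit 26895927250) (nat_lit 152) (nat_lit 34070806795) (nat_lit 0) (nat_lit 12151247282) (nat_lit 5) (nat_lit 5) (nat_lit 7) (nat_lit 4) (nat_lit 5) (nat_lit 4) (nat_lit 313) (nat_lit 260) (nat_lit 207))))) (XT.nd (nat_lit 312) (nat_lit 0) (nat_lit 0) (XT.nd (nat_lit 156) (nat_lit 76) (nat_lit 0) (XT.nd (nat_lit 78) (nat_lit 0) (nat_lit 0) (XT.lf (nat_lit 0) (nat_lit 35473967178) (nat_lit 152) (nat_lit 22168502053) (nat_lit 0) (nat_lit 20710482956) (nat_lit 5) (nat_lit 5) (nat_lit 7) (nat_lit 4) (nat_lit 5) (nat_lit 4) (nat_lit 314) (nat_lit 260) (nat_lit 206)) (XT.lf (nat_lit 0) (nat_lit 44720417203) (nat_lit 152) (nat_lit 9348218740) (nat_lit 0) (nat_lit 29939521635) (nat_lit 5) (nat_lit 5) (nat_lit 7) (nat_lit 4) (nat_lit 5) (nat_lit 4) (nat_lit 315) (nat_lit 260) (nat_lit 205))) (XT.nd (nat_lit 78) (nat_lit 0) (nat_lit 0) (XT.lf (nat_lit 0) (nat_lit 4701187637)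 (nat_lit 76) (nat_lit 50101947141) (nat_lit 76) (nat_lit 35304929956) (nat_lit 4) (nat_lit 4) (nat_lit 5) (nat_lit 5) (nat_lit 5) (nat_lit 4) (nat_lit 316) (nat_lit 260) (nat_lit 204)) (XT.lf (nat_lit 0) (nat_lit 20375317788) (nat_lit 76) (nat_lit 45556717401) (nat_lit 76) (nat_lit 30744772793) (nat_lit 4) (nat_lit 4) (nat_lit 5) (nat_lit 5) (nat_lit 5) (nat_lit 4) (nat_lit 317) (nat_lit 260) (nat_lit 203)))) (XT.nd (nat_lit 156) (nat_lit 0) (nat_lit 0) (XT.nd (nat_lit 78) (nat_lit 0) (nat_lit 0) (XT.lf (nat_lit 0) (nat_lit 37274794813) (nat_lit 76) (nat_lit 40661608898) (nat_lit 76) (nat_lit 25835842602) (nat_lit 4) (nat_lit 4) (nat_lit 5) (nat_lit 5) (nat_lit 5) (nat_lit 4) (nat_lit 318) (nat_lit 260) (nat_lit 202)) (XT.lf (nat_lit 0) (nat_lit 55499763762) (nat_lit 76) (nat_lit 35387613580) (nat_lit 76) (nat_lit 20549049426) (nat_lit 4) (nat_lit 4) (nat_lit 5) (nat_lit 5) (nat_lit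 5) (nat_lit 4) (nat_lit 319) (nat_lit 260) (nat_lit 201))) (XT.nd (nat_lit 78) (nat_lit 0) (nat_lit 0) (XT.lf (nat_lit 0) (nat_lit 75158224449) (nat_lit 76) (nat_lit 29703478143) (nat_lit 76) (nat_lit 14853064119) (nat_lit 4) (nat_lit 4) (nat_lit 5) (nat_lit 5) (nat_lit 5) (nat_lit 4) (nat_lit 320) (nat_lit 260) (nat_lit 200)) (XT.lf (nat_lit 0) (nat_lit 96366671458) (nat_lit 76) (nat_lit 23575518821) (nat_lit 76) (nat_lit 8714132695) (nat_lit 4) (nat_lit 4) (nat_lit 5) (nat_lit 5) (nat_lit 5) (nat_lit 4) (nat_lit 321) (nat_lit 260) (nat_lit 199)))))) (XT.nd (nat_lit 624) (nat_lit 0) (nat_lit 0) (XT.nd (nat_lit 312) (nat_lit 0) (nat_lit 0) (XT.nd (nat_lit 156) (nat_lit 76) (nat_lit 0) (XT.nd (nat_lit 78) (nat_lit 76) (nat_lit 0) (XT.lf (nat_lit 0) (nat_lit 119250784474) (nat_lit 76) (nat_lit 16967421780) (nat_lit 76) (nat_lit 2095876301) (nat_lit 4) (nat_lit 4) (nat_lit 5) (nat_lit 5)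 (nat_lit 5) (nat_lit 4) (nat_lit 322) (nat_lit 260) (nat_lit 198)) (XT.lf (nat_lit 0) (nat_lit 4788756907) (nat_lit 152) (nat_lit 4920337919) (nat_lit 76) (nat_lit 139026483047) (nat_lit 3) (nat_lit 5) (nat_lit 5) (nat_lit 5) (nat_lit 4) (nat_lit 4) (nat_lit 323) (nat_lit 260) (nat_lit 197))) (XT.nd (nat_lit 78) (nat_lit 0) (nat_lit 0) (XT.lf (nat_lit 0) (nat_lit 10822482272) (nat_lit 76) (nat_lit 1539125692) (nat_lit 152) (nat_lit 147604780201) (nat_lit 2) (nat_lit 5) (nat_lit 3) (nat_lit 5) (nat_lit 4) (nat_lit 4) (nat_lit 324) (nat_lit 260) (nat_lit 196)) (XT.lf (nat_lit 0) (nat_lit 20843968273) (nat_lit 152) (nat_lit 144177628394) (nat_lit 0) (nat_lit 7049776498) (nat_lit 2) (nat_lit 5) (nat_lit 4) (nat_lit 4) (nat_lit 2) (nat_lit 4) (nat_lit 325) (nat_lit 260) (nat_lit 195)))) (XT.nd (nat_lit 156) (nat_lit 0) (nat_lit 0) (XT.nd (nat_lit 78) (nat_lit 0) (nat_lit 0) (XT.lf (nat_lit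 0) (nat_lit 30036066108) (nat_lit 152) (nat_lit 138871242972) (nat_lit 0) (nat_lit 16234960048) (nat_lit 2) (nat_lit 5) (nat_lit 4) (nat_lit 4) (nat_lit 2) (nat_lit 4) (nat_lit 326) (nat_lit 260) (nat_lit 194)) (XT.lf (nat_lit 0) (nat_lit 39955357149) (nat_lit 152) (nat_lit 133156288371) (nat_lit 0) (nat_lit 26147848973) (nat_lit 2) (nat_lit 5) (nat_lit 4) (nat_lit 4) (nat_lit 2) (nat_lit 4) (nat_lit 327) (nat_lit 260) (nat_lit 193))) (XT.nd (nat_lit 78) (nat_lit 0) (nat_lit 0) (XT.lf (nat_lit 0) (nat_lit 50660622380) (nat_lit 152) (nat_lit 126998898191) (nat_lit 0) (nat_lit 36847186319) (nat_lit 2) (nat_lit 5) (nat_lit 4) (nat_lit 4) (nat_lit 2) (nat_lit 4) (nat_lit 328) (nat_lit 260) (nat_lit 192)) (XT.lf (nat_lit 0) (nat_lit 62215300410) (nat_lit 152) (nat_lit 120362584196) (nat_lit 0) (nat_lit 48396375567) (nat_lit 2) (nat_lit 5) (nat_lit 4) (nat_lit 4) (nat_lit 2) (nat_lit 4) (nat_lit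 329) (nat_lit 260) (nat_lit 191))))) (XT.nd (nat_lit 312) (nat_lit 0) (nat_lit 0) (XT.nd (nat_lit 156) (nat_lit 0) (nat_lit 0) (XT.nd (nat_lit 78) (nat_lit 0) (nat_lit 0) (XT.lf (nat_lit 0) (nat_lit 74687863405) (nat_lit 152) (nat_lit 113208020079) (nat_lit 0) (nat_lit 60863856356) (nat_lit 2) (nat_lit 5) (nat_lit 4) (nat_lit 4) (nat_lit 2) (nat_lit 4) (nat_lit 330) (nat_lit 260) (nat_lit 190)) (XT.lf (nat_lit 0) (nat_lit 88152222850) (nat_lit 152) (nat_lit 105492808425) (nat_lit 0) (nat_lit 74323510055) (nat_lit 2) (nat_lit 5) (nat_lit 4) (nat_lit 4) (nat_lit 2) (nat_lit 4) (nat_lit 331) (nat_lit 260) (nat_lit 189))) (XT.nd (nat_lit 78) (nat_lit 0) (nat_lit 0) (XT.lf (nat_lit 0) (nat_lit 102688167542) (nat_lit 152) (nat_lit 97171229461) (nat_lit 0) (nat_lit 88855097574) (nat_lit 2) (nat_lit 5) (nat_lit 4) (nat_lit 4) (nat_lit 2) (nat_lit 4) (nat_lit 332) (nat_lit 260) (nat_lit 188))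 (XT.lf (nat_lit 0) (nat_lit 118381836411) (nat_lit 152) (nat_lit 88193970125) (nat_lit 0) (nat_lit 104544732024) (nat_lit 2) (nat_lit 5) (nat_lit 4) (nat_lit 4) (nat_lit 2) (nat_lit 4) (nat_lit 333) (nat_lit 260) (nat_lit 187)))) (XT.nd (nat_lit 156) (nat_lit 0) (nat_lit 0) (XT.nd (nat_lit 78) (nat_lit 0) (nat_lit 0) (XT.lf (nat_lit 0) (nat_lit 135326228977) (nat_lit 152) (nat_lit 78507831844) (nat_lit 0) (nat_lit 121485389017) (nat_lit 2) (nat_lit 5) (nat_lit 4) (nat_lit 4) (nat_lit 2) (nat_lit 4) (nat_lit 334) (nat_lit 260) (nat_lit 186)) (XT.lf (nat_lit 0) (nat_lit 153621756456) (nat_lit 152) (nat_lit 68055415280) (nat_lit 0) (nat_lit 139777457632) (nat_lit 2) (nat_lit 5) (nat_lit 4) (nat_lit 4) (nat_lit 2) (nat_lit 4) (nat_lit 335) (nat_lit 260) (nat_lit 185))) (XT.nd (nat_lit 78) (nat_lit 0) (nat_lit 0) (XT.lf (nat_lit 0) (nat_lit 173376836787) (nat_lit 152) (nat_lit 56774780187)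 (nat_lit 0) (nat_lit 159529335312) (nat_lit 2) (nat_lit 5) (nat_lit 4) (nat_lit 4) (nat_lit 2) (nat_lit 4) (nat_lit 336) (nat_lit 260) (nat_lit 184)) (XT.lf (nat_lit 0) (nat_lit 194708537114) (nat_lit 152) (nat_lit 44599078357) (nat_lit 0) (nat_lit 180858070220) (nat_lit 2) (nat_lit 5) (nat_lit 4) (nat_lit 4) (nat_lit 2) (nat_lit 4) (nat_lit 337) (nat_lit 260) (nat_lit 183))))))))
noncomputable def xc51 : XT := (XT.nd (nat_lit 2496) (nat_lit 0) (nat_lit 0) (XT.nd (nat_lit 1248) (nat_lit 0) (nat_lit 0) (XT.nd (nat_lit 624) (nat_lit 0) (nat_lit 0) (XT.nd (nat_lit 312) (nat_lit 0) (nat_lit 0) (XT.nd (nat_lit 156) (nat_lit 76) (nat_lit 0) (XT.nd (nat_lit 78) (nat_lit 0) (nat_lit 0) (XT.lf (nat_lit 0) (nat_lit 217743267513) (nat_lit 152) (nat_lit 31456157482) (nat_lit 0) (nat_lit 203890054861) (nat_lit 2) (nat_lit 5) (nat_lit 4) (nat_lit 4) (nat_lit 2) (nat_lit 4) (nat_lit 338) (nat_lit 260)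 (nat_lit 182)) (XT.lf (nat_lit 0) (nat_lit 242617530089) (nat_lit 152) (nat_lit 17268133588) (nat_lit 0) (nat_lit 228761775069) (nat_lit 2) (nat_lit 5) (nat_lit 4) (nat_lit 4) (nat_lit 2) (nat_lit 4) (nat_lit 339) (nat_lit 260) (nat_lit 181))) (XT.nd (nat_lit 78) (nat_lit 76) (nat_lit 0) (XT.lf (nat_lit 0) (nat_lit 269478727881) (nat_lit 152) (nat_lit 1950929494) (nat_lit 0) (nat_lit 255620618816) (nat_lit 2) (nat_lit 5) (nat_lit 4) (nat_lit 4) (nat_lit 2) (nat_lit 4) (nat_lit 340) (nat_lit 260) (nat_lit 180)) (XT.lf (nat_lit 0) (nat_lit 15354308089) (nat_lit 76) (nat_lit 283501001745) (nat_lit 76) (nat_lit 269640713009) (nat_lit 1) (nat_lit 4) (nat_lit 2) (nat_lit 5) (nat_lit 2) (nat_lit 4) (nat_lit 341) (nat_lit 260) (nat_lit 179)))) (XT.nd (nat_lit 156) (nat_lit 0) (nat_lit 0) (XT.nd (nat_lit 78) (nat_lit 0) (nat_lit 0) (XT.lf (nat_lit 0) (nat_lit 34149625663) (nat_lit 76) (nat_lit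 296483030343) (nat_lit 76) (nat_lit 282620723393) (nat_lit 1) (nat_lit 4) (nat_lit 2) (nat_lit 5) (nat_lit 2) (nat_lit 4) (nat_lit 342) (nat_lit 260) (nat_lit 178)) (XT.lf (nat_lit 0) (nat_lit 54443670395) (nat_lit 76) (nat_lit 310506015579) (nat_lit 76) (nat_lit 296641839913) (nat_lit 1) (nat_lit 4) (nat_lit 2) (nat_lit 5) (nat_lit 2) (nat_lit 4) (nat_lit 343) (nat_lit 260) (nat_lit 177))) (XT.nd (nat_lit 78) (nat_lit 0) (nat_lit 0) (XT.lf (nat_lit 0) (nat_lit 76356703293) (nat_lit 76) (nat_lit 325653056624) (nat_lit 76) (nat_lit 311787150665) (nat_lit 1) (nat_lit 4) (nat_lit 2) (nat_lit 5) (nat_lit 2) (nat_lit 4) (nat_lit 344) (nat_lit 260) (nat_lit 176)) (XT.lf (nat_lit 0) (nat_lit 100018579365) (nat_lit 76) (nat_lit 342013913723) (nat_lit 76) (nat_lit 328146405640) (nat_lit 1) (nat_lit 4) (nat_lit 2) (nat_lit 5) (nat_lit 2) (nat_lit 4) (nat_lit 345) (nat_lit 260) (nat_lit 175)))))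 (XT.nd (nat_lit 312) (nat_lit 0) (nat_lit 0) (XT.nd (nat_lit 156) (nat_lit 0) (nat_lit 0) (XT.nd (nat_lit 78) (nat_lit 0) (nat_lit 0) (XT.lf (nat_lit 0) (nat_lit 125569517136) (nat_lit 76) (nat_lit 359685540102) (nat_lit 76) (nat_lit 345816548572) (nat_lit 1) (nat_lit 4) (nat_lit 2) (nat_lit 5) (nat_lit 2) (nat_lit 4) (nat_lit 346) (nat_lit 260) (nat_lit 174)) (XT.lf (nat_lit 0) (nat_lit 153160929571) (nat_lit 76) (nat_lit 378772656510) (nat_lit 76) (nat_lit 364902291418) (nat_lit 1) (nat_lit 4) (nat_lit 2) (nat_lit 5) (nat_lit 2) (nat_lit 4) (nat_lit 347) (nat_lit 260) (nat_lit 173))) (XT.nd (nat_lit 78) (nat_lit 0) (nat_lit 0) (XT.lf (nat_lit 0) (nat_lit 182956321337) (nat_lit 76) (nat_lit 399388371785) (nat_lit 76) (nat_lit 385516734876) (nat_lit 1) (nat_lit 4) (nat_lit 2) (nat_lit 5) (nat_lit 2) (nat_lit 4) (nat_lit 348) (nat_lit 260) (nat_lit 172)) (XT.lf (nat_lit 0) (nat_lit 215132257718)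 (nat_lit 76) (nat_lit 421654853129) (nat_lit 76) (nat_lit 407782038611) (nat_lit 1) (nat_lit 4) (nat_lit 2) (nat_lit 5) (nat_lit 2) (nat_lit 4) (nat_lit 349) (nat_lit 260) (nat_lit 171)))) (XT.nd (nat_lit 156) (nat_lit 0) (nat_lit 0) (XT.nd (nat_lit 78) (nat_lit 0) (nat_lit 0) (XT.lf (nat_lit 0) (nat_lit 249879410928) (nat_lit 76) (nat_lit 445704050061) (nat_lit 76) (nat_lit 431830145165) (nat_lit 1) (nat_lit 4) (nat_lit 2) (nat_lit 5) (nat_lit 2) (nat_lit 4) (nat_lit 350) (nat_lit 260) (nat_lit 170)) (XT.lf (nat_lit 0) (nat_lit 287403690026) (nat_lit 76) (nat_lit 471678476341) (nat_lit 76) (nat_lit 457803561835) (nat_lit 1) (nat_lit 4) (nat_lit 2) (nat_lit 5) (nat_lit 2) (nat_lit 4) (nat_lit 351) (nat_lit 260) (nat_lit 169))) (XT.nd (nat_lit 78) (nat_lit 0) (nat_lit 0) (XT.lf (nat_lit 0) (nat_lit 327927461108) (nat_lit 76) (nat_lit 499732054494) (nat_lit 76) (nat_lit 485856205165) (nat_lit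 1) (nat_lit 4) (nat_lit 2) (nat_lit 5) (nat_lit 2) (nat_lit 4) (nat_lit 352) (nat_lit 260) (nat_lit 168)) (XT.lf (nat_lit 0) (nat_lit 371690865041) (nat_lit 76) (nat_lit 530031027946) (nat_lit 76) (nat_lit 516154313040) (nat_lit 1) (nat_lit 4) (nat_lit 2) (nat_lit 5) (nat_lit 2) (nat_lit 4) (nat_lit 353) (nat_lit 260) (nat_lit 167)))))) (XT.nd (nat_lit 624) (nat_lit 0) (nat_lit 0) (XT.nd (nat_lit 312) (nat_lit 0) (nat_lit 0) (XT.nd (nat_lit 156) (nat_lit 0) (nat_lit 0) (XT.nd (nat_lit 78) (nat_lit 0) (nat_lit 0) (XT.lf (nat_lit 0) (nat_lit 418953240514) (nat_lit 76) (nat_lit 562754946171) (nat_lit 76) (nat_lit 548877429804) (nat_lit 1) (nat_lit 4) (nat_lit 2) (nat_lit 5) (nat_lit 2) (nat_lit 4) (nat_lit 354) (nat_lit 260) (nat_lit 166)) (XT.lf (nat_lit 0) (nat_lit 469994660864) (nat_lit 76) (nat_lit 598097728683) (nat_lit 76) (nat_lit 584219470223) (nat_lit 1) (nat_lit 4) (nat_lit 2)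 (nat_lit 5) (nat_lit 2) (nat_lit 4) (nat_lit 355) (nat_lit 260) (nat_lit 165))) (XT.nd (nat_lit 78) (nat_lit 0) (nat_lit 0) (XT.lf (nat_lit 0) (nat_lit 525117593766) (nat_lit 76) (nat_lit 636268814194) (nat_lit 76) (nat_lit 622389868611) (nat_lit 1) (nat_lit 4) (nat_lit 2) (nat_lit 5) (nat_lit 2) (nat_lit 4) (nat_lit 356) (nat_lit 260) (nat_lit 164)) (XT.lf (nat_lit 0) (nat_lit 584648693638) (nat_lit 76) (nat_lit 677494401728) (nat_lit 76) (nat_lit 663614819920) (nat_lit 1) (nat_lit 4) (nat_lit 2) (nat_lit 5) (nat_lit 2) (nat_lit 4) (nat_lit 357) (nat_lit 260) (nat_lit 163)))) (XT.nd (nat_lit 156) (nat_lit 0) (nat_lit 0) (XT.nd (nat_lit 78) (nat_lit 0) (nat_lit 0) (XT.lf (nat_lit 0) (nat_lit 648940737369) (nat_lit 76) (nat_lit 722018791064) (nat_lit 76) (nat_lit 708138620159) (nat_lit 1) (nat_lit 4) (nat_lit 2) (nat_lit 5) (nat_lit 2) (nat_lit 4) (nat_lit 358) (nat_lit 260) (nat_lit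 162)) (XT.lf (nat_lit 0) (nat_lit 718374714846) (nat_lit 76) (nat_lit 770105830435) (nat_lit 76) (nat_lit 756225114069) (nat_lit 1) (nat_lit 4) (nat_lit 2) (nat_lit 5) (nat_lit 2) (nat_lit 4) (nat_lit 359) (nat_lit 260) (nat_lit 161))) (XT.nd (nat_lit 78) (nat_lit 0) (nat_lit 0) (XT.lf (nat_lit 0) (nat_lit 793362086678) (nat_lit 76) (nat_lit 822040480075) (nat_lit 76) (nat_lit 808159258652) (nat_lit 1) (nat_lit 4) (nat_lit 2) (nat_lit 5) (nat_lit 2) (nat_lit 4) (nat_lit 360) (nat_lit 260) (nat_lit 160)) (XT.lf (nat_lit 0) (nat_lit 874347222474) (nat_lit 76) (nat_lit 878130500869) (nat_lit 76) (nat_lit 864248811802) (nat_lit 1) (nat_lit 4) (nat_lit 2) (nat_lit 5) (nat_lit 2) (nat_lit 4) (nat_lit 361) (nat_lit 260) (nat_lit 159))))) (XT.nd (nat_lit 312) (nat_lit 0) (nat_lit 0) (XT.nd (nat_lit 156) (nat_lit 0) (nat_lit 0) (XT.nd (nat_lit 78) (nat_lit 0) (nat_lit 0) (XT.lf (nat_lit 0) (nat_lit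 961810034152) (nat_lit 76) (nat_lit 938708278126) (nat_lit 76) (nat_lit 924826156056) (nat_lit 1) (nat_lit 4) (nat_lit 2) (nat_lit 5) (nat_lit 2) (nat_lit 4) (nat_lit 362) (nat_lit 260) (nat_lit 158)) (XT.lf (nat_lit 0) (nat_lit 1056268819853) (nat_lit 76) (nat_lit 1004132791268) (nat_lit 76) (nat_lit 990250268267) (nat_lit 1) (nat_lit 4) (nat_lit 2) (nat_lit 5) (nat_lit 2) (nat_lit 4) (nat_lit 363) (nat_lit 260) (nat_lit 157))) (XT.nd (nat_lit 78) (nat_lit 0) (nat_lit 0) (XT.lf (nat_lit 0) (nat_lit 1158283335345) (nat_lit 76) (nat_lit 1074791741113) (nat_lit 76) (nat_lit 1060908846881) (nat_lit 1) (nat_lit 4) (nat_lit 2) (nat_lit 5) (nat_lit 2) (nat_lit 4) (nat_lit 364) (nat_lit 260) (nat_lit 156)) (XT.lf (nat_lit 0) (nat_lit 1268458111091) (nat_lit 76) (nat_lit 1151103847363) (nat_lit 76) (nat_lit 1137220609398) (nat_lit 1) (nat_lit 4) (nat_lit 2) (nat_lit 5) (nat_lit 2) (nat_lit 4)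 (nat_lit 365) (nat_lit 260) (nat_lit 155)))) (XT.nd (nat_lit 156) (nat_lit 0) (nat_lit 0) (XT.nd (nat_lit 78) (nat_lit 0) (nat_lit 0) (XT.lf (nat_lit 0) (nat_lit 1387446034651) (nat_lit 76) (nat_lit 1233521329907) (nat_lit 76) (nat_lit 1219637773672) (nat_lit 1) (nat_lit 4) (nat_lit 2) (nat_lit 5) (nat_lit 2) (nat_lit 4) (nat_lit 366) (nat_lit 260) (nat_lit 154)) (XT.lf (nat_lit 0) (nat_lit 1515952219645) (nat_lit 76) (nat_lit 1322532588643) (nat_lit 76) (nat_lit 1308648737712) (nat_lit 1) (nat_lit 4) (nat_lit 2) (nat_lit 5) (nat_lit 2) (nat_lit 4) (nat_lit 367) (nat_lit 260) (nat_lit 153))) (XT.nd (nat_lit 78) (nat_lit 0) (nat_lit 0) (XT.lf (nat_lit 0) (nat_lit 1654738184206) (nat_lit 76) (nat_lit 1418665097695) (nat_lit 76) (nat_lit 1404780973898) (nat_lit 1) (nat_lit 4) (nat_lit 2) (nat_lit 5) (nat_lit 2) (nat_lit 4) (nat_lit 368) (nat_lit 260) (nat_lit 152)) (XT.lf (nat_lit 0) (nat_lit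 1804626363681) (nat_lit 76) (nat_lit 1522488531192) (nat_lit 76) (nat_lit 1508604154741) (nat_lit 1) (nat_lit 4) (nat_lit 2) (nat_lit 5) (nat_lit 2) (nat_lit 4) (nat_lit 369) (nat_lit 260) (nat_lit 151))))))) (XT.nd (nat_lit 33306) (nat_lit 0) (nat_lit 1216) (XT.nd (nat_lit 32682) (nat_lit 0) (nat_lit 2660) (XT.nd (nat_lit 32370) (nat_lit 0) (nat_lit 4408) (XT.nd (nat_lit 32214) (nat_lit 0) (nat_lit 4864) (XT.nd (nat_lit 32136) (nat_lit 0) (nat_lit 5092) (XT.lf (nat_lit 0) (nat_lit 1966504984318) (nat_lit 76) (nat_lit 1634618139110) (nat_lit 76) (nat_lit 1620733528721) (nat_lit 1) (nat_lit 4) (nat_lit 2) (nat_lit 5) (nat_lit 2) (nat_lit 4) (nat_lit 370) (nat_lit 260) (nat_lit 150)) (XT.lf (nat_lit 0) (nat_lit 1437093942) (nat_lit 0) (nat_lit 1437093942) (nat_lit 76) (nat_lit 359977594) (nat_lit 68) (nat_lit 5) (nat_lit 68) (nat_lit 3) (nat_lit 69) (nat_lit 0) (nat_lit 261) (nat_lit 261)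 (nat_lit 258))) (XT.nd (nat_lit 78) (nat_lit 0) (nat_lit 0) (XT.lf (nat_lit 0) (nat_lit 1891529776) (nat_lit 228) (nat_lit 546201604) (nat_lit 228) (nat_lit 4070490277) (nat_lit 65) (nat_lit 3) (nat_lit 68) (nat_lit 3) (nat_lit 68) (nat_lit 5) (nat_lit 262) (nat_lit 261) (nat_lit 257)) (XT.lf (nat_lit 76) (nat_lit 2721807451) (nat_lit 0) (nat_lit 1756281395) (nat_lit 228) (nat_lit 2088520901) (nat_lit 66) (nat_lit 5) (nat_lit 65) (nat_lit 3) (nat_lit 68) (nat_lit 5) (nat_lit 263) (nat_lit 261) (nat_lit 256)))) (XT.nd (nat_lit 156) (nat_lit 228) (nat_lit 0) (XT.nd (nat_lit 78) (nat_lit 0) (nat_lit 76) (XT.lf (nat_lit 0) (nat_lit 373276391) (nat_lit 228) (nat_lit 513923373) (nat_lit 304) (nat_lit 5761189622) (nat_lit 62) (nat_lit 5) (nat_lit 65) (nat_lit 3) (nat_lit 66) (nat_lit 5) (nat_lit 264) (nat_lit 261) (nat_lit 255)) (XT.lf (nat_lit 0) (nat_lit 2765894677) (nat_lit 228) (nat_lit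 3712310405) (nat_lit 76) (nat_lit 267387182) (nat_lit 63) (nat_lit 5) (nat_lit 66) (nat_lit 5) (nat_lit 64) (nat_lit 5) (nat_lit 265) (nat_lit 261) (nat_lit 254))) (XT.nd (nat_lit 78) (nat_lit 304) (nat_lit 0) (XT.lf (nat_lit 0) (nat_lit 5170148155) (nat_lit 228) (nat_lit 136889925) (nat_lit 76) (nat_lit 1558801882) (nat_lit 63) (nat_lit 5) (nat_lit 66) (nat_lit 5) (nat_lit 64) (nat_lit 5) (nat_lit 266) (nat_lit 261) (nat_lit 253)) (XT.lf (nat_lit 0) (nat_lit 618269730) (nat_lit 304) (nat_lit 3253867549) (nat_lit 76) (nat_lit 3131982438) (nat_lit 59) (nat_lit 5) (nat_lit 63) (nat_lit 5) (nat_lit 60) (nat_lit 5) (nat_lit 267) (nat_lit 261) (nat_lit 252))))) (XT.nd (nat_lit 312) (nat_lit 988) (nat_lit 0) (XT.nd (nat_lit 156) (nat_lit 456) (nat_lit 0) (XT.nd (nat_lit 78) (nat_lit 0) (nat_lit 0) (XT.lf (nat_lit 0) (nat_lit 637590007) (nat_lit 304) (nat_lit 2212009417) (nat_lit 380) (nat_lit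 4315133750) (nat_lit 55) (nat_lit 5) (nat_lit 59) (nat_lit 5) (nat_lit 60) (nat_lit 5) (nat_lit 268) (nat_lit 261) (nat_lit 251)) (XT.lf (nat_lit 0) (nat_lit 4876139840) (nat_lit 304) (nat_lit 287828166) (nat_lit 380) (nat_lit 2182516815) (nat_lit 55) (nat_lit 5) (nat_lit 59) (nat_lit 5) (nat_lit 60) (nat_lit 5) (nat_lit 269) (nat_lit 261) (nat_lit 250))) (XT.nd (nat_lit 78) (nat_lit 0) (nat_lit 0) (XT.lf (nat_lit 0) (nat_lit 28405097) (nat_lit 456) (nat_lit 5745814102) (nat_lit 76) (nat_lit 1775785174) (nat_lit 49) (nat_lit 5) (nat_lit 55) (nat_lit 5) (nat_lit 50) (nat_lit 5) (nat_lit 270) (nat_lit 261) (nat_lit 249)) (XT.lf (nat_lit 0) (nat_lit 2209359668) (nat_lit 456) (nat_lit 1427770384) (nat_lit 76) (nat_lit 4135771966) (nat_lit 49) (nat_lit 5) (nat_lit 55) (nat_lit 5) (nat_lit 50) (nat_lit 5) (nat_lit 271) (nat_lit 261) (nat_lit 248)))) (XT.nd (nat_lit 156) (nat_lit 532) (nat_lit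 0) (XT.nd (nat_lit 78) (nat_lit 0) (nat_lit 0) (XT.lf (nat_lit 0) (nat_lit 3251491596) (nat_lit 456) (nat_lit 1238069179) (nat_lit 532) (nat_lit 3530568115) (nat_lit 43) (nat_lit 5) (nat_lit 49) (nat_lit 5) (nat_lit 50) (nat_lit 5) (nat_lit 272) (nat_lit 261) (nat_lit 247)) (XT.lf (nat_lit 0) (nat_lit 6879317609) (nat_lit 532) (nat_lit 86569492) (nat_lit 76) (nat_lit 1327519184) (nat_lit 43) (nat_lit 5) (nat_lit 50) (nat_lit 5) (nat_lit 44) (nat_lit 5) (nat_lit 273) (nat_lit 261) (nat_lit 246))) (XT.nd (nat_lit 78) (nat_lit 228) (nat_lit 0) (XT.lf (nat_lit 0) (nat_lit 847053996) (nat_lit 304) (nat_lit 3562333760) (nat_lit 76) (nat_lit 4176345110) (nat_lit 39) (nat_lit 5) (nat_lit 43) (nat_lit 5) (nat_lit 40) (nat_lit 5) (nat_lit 274) (nat_lit 261) (nat_lit 245)) (XT.lf (nat_lit 0) (nat_lit 1538560014) (nat_lit 228) (nat_lit 1581803152) (nat_lit 304) (nat_lit 5785882332) (nat_lit 36)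 (nat_lit 5) (nat_lit 39) (nat_lit 5) (nat_lit 40) (nat_lit 5) (nat_lit 275) (nat_lit 261) (nat_lit 244)))))) (XT.nd (nat_lit 624) (nat_lit 608) (nat_lit 0) (XT.nd (nat_lit 312) (nat_lit 380) (nat_lit 0) (XT.nd (nat_lit 156) (nat_lit 228) (nat_lit 0) (XT.nd (nat_lit 78) (nat_lit 228) (nat_lit 0) (XT.lf (nat_lit 0) (nat_lit 5584975017) (nat_lit 304) (nat_lit 2186056618) (nat_lit 76) (nat_lit 1480938490) (nat_lit 36) (nat_lit 5) (nat_lit 40) (nat_lit 5) (nat_lit 37) (nat_lit 5) (nat_lit 276) (nat_lit 261) (nat_lit 243)) (XT.lf (nat_lit 0) (nat_lit 3396676098) (nat_lit 228) (nat_lit 4856287313) (nat_lit 304) (nat_lit 1372194572) (nat_lit 33) (nat_lit 5) (nat_lit 36) (nat_lit 5) (nat_lit 37) (nat_lit 5) (nat_lit 277) (nat_lit 261) (nat_lit 242))) (XT.nd (nat_lit 78) (nat_lit 152) (nat_lit 0) (XT.lf (nat_lit 0) (nat_lit 997753139) (nat_lit 304) (nat_lit 646164088) (nat_lit 76) (nat_lit 8386662196)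 (nat_lit 32) (nat_lit 5) (nat_lit 36) (nat_lit 5) (nat_lit 33) (nat_lit 5) (nat_lit 278) (nat_lit 261) (nat_lit 241)) (XT.lf (nat_lit 0) (nat_lit 3556762486) (nat_lit 228) (nat_lit 5023920144) (nat_lit 76) (nat_lit 1879252270) (nat_lit 30) (nat_lit 5) (nat_lit 33) (nat_lit 5) (nat_lit 31) (nat_lit 5) (nat_lit 279) (nat_lit 261) (nat_lit 240)))) (XT.nd (nat_lit 156) (nat_lit 228) (nat_lit 0) (XT.nd (nat_lit 78) (nat_lit 0) (nat_lit 0) (XT.lf (nat_lit 0) (nat_lit 987095045) (nat_lit 152) (nat_lit 5316005678) (nat_lit 228) (nat_lit 4622151325) (nat_lit 28) (nat_lit 5) (nat_lit 30) (nat_lit 5) (nat_lit 31) (nat_lit 5) (nat_lit 280) (nat_lit 261) (nat_lit 239)) (XT.lf (nat_lit 0) (nat_lit 7629794632) (nat_lit 152) (nat_lit 1679065169) (nat_lit 228) (nat_lit 2115963110) (nat_lit 28) (nat_lit 5) (nat_lit 30) (nat_lit 5) (nat_lit 31) (nat_lit 5) (nat_lit 281) (nat_lit 261) (nat_lit 238))) (XT.nd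 (nat_lit 78) (nat_lit 0) (nat_lit 0) (XT.lf (nat_lit 0) (nat_lit 591796707) (nat_lit 228) (nat_lit 9183422684) (nat_lit 76) (nat_lit 2185729502) (nat_lit 25) (nat_lit 5) (nat_lit 28) (nat_lit 5) (nat_lit 26) (nat_lit 5) (nat_lit 282) (nat_lit 261) (nat_lit 237)) (XT.lf (nat_lit 0) (nat_lit 3461919033) (nat_lit 228) (nat_lit 2674304934) (nat_lit 76) (nat_lit 6394702577) (nat_lit 25) (nat_lit 5) (nat_lit 28) (nat_lit 5) (nat_lit 26) (nat_lit 5) (nat_lit 283) (nat_lit 261) (nat_lit 236))))) (XT.nd (nat_lit 312) (nat_lit 304) (nat_lit 0) (XT.nd (nat_lit 156) (nat_lit 152) (nat_lit 0) (XT.nd (nat_lit 78) (nat_lit 0) (nat_lit 0) (XT.lf (nat_lit 0) (nat_lit 4455181239) (nat_lit 152) (nat_lit 2130273299) (nat_lit 228) (nat_lit 6559294605) (nat_lit 23) (nat_lit 5) (nat_lit 25) (nat_lit 5) (nat_lit 26) (nat_lit 5) (nat_lit 284) (nat_lit 261) (nat_lit 235)) (XT.lf (nat_lit 0) (nat_lit 10005687923)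 (nat_lit 228) (nat_lit 1675117188) (nat_lit 76) (nat_lit 2123267061) (nat_lit 23) (nat_lit 5) (nat_lit 26) (nat_lit 5) (nat_lit 24) (nat_lit 4) (nat_lit 285) (nat_lit 261) (nat_lit 234))) (XT.nd (nat_lit 78) (nat_lit 76) (nat_lit 0) (XT.lf (nat_lit 0) (nat_lit 6030446576) (nat_lit 76) (nat_lit 7794437220) (nat_lit 152) (nat_lit 681359208) (nat_lit 22) (nat_lit 5) (nat_lit 23) (nat_lit 5) (nat_lit 24) (nat_lit 4) (nat_lit 286) (nat_lit 261) (nat_lit 233)) (XT.lf (nat_lit 0) (nat_lit 2523521863) (nat_lit 152) (nat_lit 996416723) (nat_lit 76) (nat_lit 11741769114) (nat_lit 21) (nat_lit 5) (nat_lit 23) (nat_lit 5) (nat_lit 22) (nat_lit 5) (nat_lit 287) (nat_lit 261) (nat_lit 232)))) (XT.nd (nat_lit 156) (nat_lit 152) (nat_lit 0) (XT.nd (nat_lit 78) (nat_lit 0) (nat_lit 0) (XT.lf (nat_lit 0) (nat_lit 6085810200) (nat_lit 228) (nat_lit 8777049246) (nat_lit 76) (nat_lit 1202410861) (nat_lit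 19) (nat_lit 5) (nat_lit 22) (nat_lit 5) (nat_lit 20) (nat_lit 4) (nat_lit 288) (nat_lit 261) (nat_lit 231)) (XT.lf (nat_lit 0) (nat_lit 9985354756) (nat_lit 228) (nat_lit 841200971) (nat_lit 76) (nat_lit 6102475504) (nat_lit 19) (nat_lit 5) (nat_lit 22) (nat_lit 5) (nat_lit 20) (nat_lit 4) (nat_lit 289) (nat_lit 261) (nat_lit 230))) (XT.nd (nat_lit 78) (nat_lit 76) (nat_lit 0) (XT.lf (nat_lit 0) (nat_lit 8028908388) (nat_lit 76) (nat_lit 6298915433) (nat_lit 152) (nat_lit 3523680445) (nat_lit 18) (nat_lit 5) (nat_lit 19) (nat_lit 5) (nat_lit 20) (nat_lit 4) (nat_lit 290) (nat_lit 261) (nat_lit 229)) (XT.lf (nat_lit 0) (nat_lit 123449962) (nat_lit 152) (nat_lit 1297126810) (nat_lit 76) (nat_lit 17429984233) (nat_lit 17) (nat_lit 5) (nat_lit 19) (nat_lit 5) (nat_lit 18) (nat_lit 5) (nat_lit 291) (nat_lit 261) (nat_lit 228))))))))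
noncomputable def xc52 : XT := (XT.nd (nat_lit 2418) (nat_lit 228) (nat_lit 0) (XT.nd (nat_lit 1170) (nat_lit 304) (nat_lit 0) (XT.nd (nat_lit 546) (nat_lit 304) (nat_lit 0) (XT.nd (nat_lit 234) (nat_lit 152) (nat_lit 0) (XT.nd (nat_lit 78) (nat_lit 76) (nat_lit 0) (XT.lf (nat_lit 0) (nat_lit 4109588856) (nat_lit 228) (nat_lit 11880071471) (nat_lit 76) (nat_lit 3913621303) (nat_lit 15) (nat_lit 5) (nat_lit 18) (nat_lit 5) (nat_lit 16) (nat_lit 4) (nat_lit 292) (nat_lit 261) (nat_lit 227)) (XT.nd (nat_lit 78) (nat_lit 76) (nat_lit 0) (XT.lf (nat_lit 0) (nat_lit 8431976786) (nat_lit 228) (nat_lit 3008745747) (nat_lit 76) (nat_lit 9598173504) (nat_lit 15) (nat_lit 5) (nat_lit 18) (nat_lit 5) (nat_lit 16) (nat_lit 4) (nat_lit 293) (nat_lit 261) (nat_lit 226)) (XT.lf (nat_lit 0) (nat_lit 6824327015) (nat_lit 76) (nat_lit 6388169605) (nat_lit 152) (nat_lit 9043935676) (nat_lit 14) (nat_lit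 5) (nat_lit 15) (nat_lit 5) (nat_lit 16) (nat_lit 4) (nat_lit 294) (nat_lit 261) (nat_lit 225)))) (XT.nd (nat_lit 156) (nat_lit 76) (nat_lit 0) (XT.nd (nat_lit 78) (nat_lit 76) (nat_lit 0) (XT.lf (nat_lit 0) (nat_lit 17528077902) (nat_lit 76) (nat_lit 879601878) (nat_lit 152) (nat_lit 5161169463) (nat_lit 14) (nat_lit 5) (nat_lit 15) (nat_lit 5) (nat_lit 16) (nat_lit 4) (nat_lit 295) (nat_lit 261) (nat_lit 224)) (XT.lf (nat_lit 0) (nat_lit 4101559606) (nat_lit 76) (nat_lit 20090325276) (nat_lit 76) (nat_lit 780553491) (nat_lit 13) (nat_lit 4) (nat_lit 14) (nat_lit 5) (nat_lit 14) (nat_lit 4) (nat_lit 296) (nat_lit 261) (nat_lit 223))) (XT.nd (nat_lit 78) (nat_lit 0) (nat_lit 0) (XT.lf (nat_lit 0) (nat_lit 3898337105) (nat_lit 152) (nat_lit 11282384141) (nat_lit 76) (nat_lit 11288400999) (nat_lit 12) (nat_lit 5) (nat_lit 14) (nat_lit 5) (nat_lit 13) (nat_lit 4) (nat_lit 297) (nat_lit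 261) (nat_lit 222)) (XT.lf (nat_lit 0) (nat_lit 8865983363) (nat_lit 152) (nat_lit 1024822090) (nat_lit 76) (nat_lit 18196625093) (nat_lit 12) (nat_lit 5) (nat_lit 14) (nat_lit 5) (nat_lit 13) (nat_lit 4) (nat_lit 298) (nat_lit 261) (nat_lit 221))))) (XT.nd (nat_lit 312) (nat_lit 152) (nat_lit 0) (XT.nd (nat_lit 156) (nat_lit 76) (nat_lit 0) (XT.nd (nat_lit 78) (nat_lit 0) (nat_lit 0) (XT.lf (nat_lit 0) (nat_lit 10506966275) (nat_lit 76) (nat_lit 3936596147) (nat_lit 152) (nat_lit 15374677189) (nat_lit 11) (nat_lit 5) (nat_lit 12) (nat_lit 5) (nat_lit 13) (nat_lit 4) (nat_lit 299) (nat_lit 261) (nat_lit 220)) (XT.lf (nat_lit 0) (nat_lit 20516440179) (nat_lit 152) (nat_lit 8798949773) (nat_lit 0) (nat_lit 2368231051) (nat_lit 11) (nat_lit 5) (nat_lit 13) (nat_lit 4) (nat_lit 11) (nat_lit 4) (nat_lit 300) (nat_lit 261) (nat_lit 219))) (XT.nd (nat_lit 78) (nat_lit 0) (nat_lit 0) (XT.lf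 (nat_lit 0) (nat_lit 2510520046) (nat_lit 76) (nat_lit 24690555947) (nat_lit 76) (nat_lit 6487115085) (nat_lit 10) (nat_lit 4) (nat_lit 11) (nat_lit 5) (nat_lit 11) (nat_lit 4) (nat_lit 301) (nat_lit 261) (nat_lit 218)) (XT.lf (nat_lit 0) (nat_lit 15159675443) (nat_lit 76) (nat_lit 19465830409) (nat_lit 76) (nat_lit 1211249052) (nat_lit 10) (nat_lit 4) (nat_lit 11) (nat_lit 5) (nat_lit 11) (nat_lit 4) (nat_lit 302) (nat_lit 261) (nat_lit 217)))) (XT.nd (nat_lit 156) (nat_lit 0) (nat_lit 0) (XT.nd (nat_lit 78) (nat_lit 76) (nat_lit 0) (XT.lf (nat_lit 0) (nat_lit 4228440595) (nat_lit 152) (nat_lit 9506777227) (nat_lit 76) (nat_lit 24416083616) (nat_lit 9) (nat_lit 5) (nat_lit 11) (nat_lit 5) (nat_lit 10) (nat_lit 4) (nat_lit 303) (nat_lit 261) (nat_lit 216)) (XT.lf (nat_lit 0) (nat_lit 2597835236) (nat_lit 76) (nat_lit 7471209779) (nat_lit 152) (nat_lit 30576979332) (nat_lit 8) (nat_lit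 5) (nat_lit 9) (nat_lit 5) (nat_lit 10) (nat_lit 4) (nat_lit 304) (nat_lit 261) (nat_lit 215))) (XT.nd (nat_lit 78) (nat_lit 0) (nat_lit 0) (XT.lf (nat_lit 0) (nat_lit 16155131839) (nat_lit 76) (nat_lit 451362011) (nat_lit 152) (nat_lit 26715485604) (nat_lit 8) (nat_lit 5) (nat_lit 9) (nat_lit 5) (nat_lit 10) (nat_lit 4) (nat_lit 305) (nat_lit 261) (nat_lit 214)) (XT.lf (nat_lit 0) (nat_lit 23809748922) (nat_lit 152) (nat_lit 15640335717) (nat_lit 0) (nat_lit 6750521921) (nat_lit 8) (nat_lit 5) (nat_lit 10) (nat_lit 4) (nat_lit 8) (nat_lit 4) (nat_lit 306) (nat_lit 261) (nat_lit 213)))))) (XT.nd (nat_lit 624) (nat_lit 76) (nat_lit 0) (XT.nd (nat_lit 312) (nat_lit 152) (nat_lit 0) (XT.nd (nat_lit 156) (nat_lit 0) (nat_lit 0) (XT.nd (nat_lit 78) (nat_lit 76) (nat_lit 0) (XT.lf (nat_lit 0) (nat_lit 31574443540) (nat_lit 152) (nat_lit 3253295515) (nat_lit 0) (nat_lit 14482989353) (nat_lit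 8) (nat_lit 5) (nat_lit 10) (nat_lit 4) (nat_lit 8) (nat_lit 4) (nat_lit 307) (nat_lit 261) (nat_lit 212)) (XT.lf (nat_lit 0) (nat_lit 10609250624) (nat_lit 76) (nat_lit 29581637550) (nat_lit 76) (nat_lit 12460343376) (nat_lit 7) (nat_lit 4) (nat_lit 8) (nat_lit 5) (nat_lit 8) (nat_lit 4) (nat_lit 308) (nat_lit 261) (nat_lit 211))) (XT.nd (nat_lit 78) (nat_lit 0) (nat_lit 0) (XT.lf (nat_lit 0) (nat_lit 25720812278) (nat_lit 76) (nat_lit 23840946902) (nat_lit 76) (nat_lit 6692023110) (nat_lit 7) (nat_lit 4) (nat_lit 8) (nat_lit 5) (nat_lit 8) (nat_lit 4) (nat_lit 309) (nat_lit 261) (nat_lit 210)) (XT.lf (nat_lit 0) (nat_lit 41999626663) (nat_lit 76) (nat_lit 17660599066) (nat_lit 76) (nat_lit 486092295) (nat_lit 7) (nat_lit 4) (nat_lit 8) (nat_lit 5) (nat_lit 8) (nat_lit 4) (nat_lit 310) (nat_lit 261) (nat_lit 209)))) (XT.nd (nat_lit 156) (nat_lit 0) (nat_lit 0) (XT.nd (nat_lit 78) (nat_lit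 76) (nat_lit 0) (XT.lf (nat_lit 0) (nat_lit 5884364735) (nat_lit 152) (nat_lit 4958716065) (nat_lit 76) (nat_lit 53496907134) (nat_lit 6) (nat_lit 5) (nat_lit 8) (nat_lit 5) (nat_lit 7) (nat_lit 4) (nat_lit 311) (nat_lit 261) (nat_lit 208)) (XT.lf (nat_lit 0) (nat_lit 9721203243) (nat_lit 76) (nat_lit 3231359852) (nat_lit 152) (nat_lit 55898440883) (nat_lit 5) (nat_lit 5) (nat_lit 6) (nat_lit 5) (nat_lit 7) (nat_lit 4) (nat_lit 312) (nat_lit 261) (nat_lit 207))) (XT.nd (nat_lit 78) (nat_lit 0) (nat_lit 0) (XT.lf (nat_lit 0) (nat_lit 20826051981) (nat_lit 152) (nat_lit 48014988814) (nat_lit 0) (nat_lit 4862684768) (nat_lit 5) (nat_lit 5) (nat_lit 7) (nat_lit 4) (nat_lit 5) (nat_lit 4) (nat_lit 313) (nat_lit 261) (nat_lit 206)) (XT.lf (nat_lit 0) (nat_lit 29395518305) (nat_lit 152) (nat_lit 36129129172) (nat_lit 0) (nat_lit 13414739745) (nat_lit 5) (nat_lit 5) (nat_lit 7) (nat_lit 4) (nat_lit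 5) (nat_lit 4) (nat_lit 314) (nat_lit 261) (nat_lit 205))))) (XT.nd (nat_lit 312) (nat_lit 0) (nat_lit 0) (XT.nd (nat_lit 156) (nat_lit 76) (nat_lit 0) (XT.nd (nat_lit 78) (nat_lit 0) (nat_lit 0) (XT.lf (nat_lit 0) (nat_lit 38634029807) (nat_lit 152) (nat_lit 23324072804) (nat_lit 0) (nat_lit 22637129631) (nat_lit 5) (nat_lit 5) (nat_lit 7) (nat_lit 4) (nat_lit 5) (nat_lit 4) (nat_lit 315) (nat_lit 261) (nat_lit 204)) (XT.lf (nat_lit 0) (nat_lit 48596333222) (nat_lit 152) (nat_lit 9523937894) (nat_lit 0) (nat_lit 32584505623) (nat_lit 5) (nat_lit 5) (nat_lit 7) (nat_lit 4) (nat_lit 5) (nat_lit 4) (nat_lit 316) (nat_lit 261) (nat_lit 203))) (XT.nd (nat_lit 78) (nat_lit 0) (nat_lit 0) (XT.lf (nat_lit 0) (nat_lit 5634936479) (nat_lit 76) (nat_lit 53842048301) (nat_lit 76) (nat_lit 37816399015) (nat_lit 4) (nat_lit 4) (nat_lit 5) (nat_lit 5) (nat_lit 5) (nat_lit 4) (nat_lit 317) (nat_lit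 261) (nat_lit 202)) (XT.lf (nat_lit 0) (nat_lit 22521689351) (nat_lit 76) (nat_lit 48953056080) (nat_lit 76) (nat_lit 32914608934) (nat_lit 4) (nat_lit 4) (nat_lit 5) (nat_lit 5) (nat_lit 5) (nat_lit 4) (nat_lit 318) (nat_lit 261) (nat_lit 201)))) (XT.nd (nat_lit 156) (nat_lit 0) (nat_lit 0) (XT.nd (nat_lit 78) (nat_lit 0) (nat_lit 0) (XT.lf (nat_lit 0) (nat_lit 40734876676) (nat_lit 76) (nat_lit 43684723986) (nat_lit 76) (nat_lit 27634426971) (nat_lit 4) (nat_lit 4) (nat_lit 5) (nat_lit 5) (nat_lit 5) (nat_lit 4) (nat_lit 319) (nat_lit 261) (nat_lit 200)) (XT.lf (nat_lit 0) (nat_lit 60382428453) (nat_lit 76) (nat_lit 38005832275) (nat_lit 76) (nat_lit 21944563158) (nat_lit 4) (nat_lit 4) (nat_lit 5) (nat_lit 5) (nat_lit 5) (nat_lit 4) (nat_lit 320) (nat_lit 261) (nat_lit 199))) (XT.nd (nat_lit 78) (nat_lit 0) (nat_lit 0) (XT.lf (nat_lit 0) (nat_lit 81580774618) (nat_lit 76) (nat_lit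 31882728254) (nat_lit 76) (nat_lit 15811299784) (nat_lit 4) (nat_lit 4) (nat_lit 5) (nat_lit 5) (nat_lit 5) (nat_lit 4) (nat_lit 321) (nat_lit 261) (nat_lit 198)) (XT.lf (nat_lit 0) (nat_lit 104455535002) (nat_lit 76) (nat_lit 25279126863) (nat_lit 76) (nat_lit 9198291584) (nat_lit 4) (nat_lit 4) (nat_lit 5) (nat_lit 5) (nat_lit 5) (nat_lit 4) (nat_lit 322) (nat_lit 261) (nat_lit 197))))))) (XT.nd (nat_lit 1248) (nat_lit 76) (nat_lit 0) (XT.nd (nat_lit 624) (nat_lit 0) (nat_lit 0) (XT.nd (nat_lit 312) (nat_lit 0) (nat_lit 0) (XT.nd (nat_lit 156) (nat_lit 76) (nat_lit 0) (XT.nd (nat_lit 78) (nat_lit 76) (nat_lit 0) (XT.lf (nat_lit 0) (nat_lit 129142263738) (nat_lit 76) (nat_lit 18155895648) (nat_lit 76) (nat_lit 2066350362) (nat_lit 4) (nat_lit 4) (nat_lit 5) (nat_lit 5) (nat_lit 5) (nat_lit 4) (nat_lit 323) (nat_lit 261) (nat_lit 196)) (XT.lf (nat_lit 0) (nat_lit 5345312551) (nat_lit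 152) (nat_lit 4979360001) (nat_lit 76) (nat_lit 150295789684) (nat_lit 3) (nat_lit 5) (nat_lit 5) (nat_lit 5) (nat_lit 4) (nat_lit 4) (nat_lit 324) (nat_lit 261) (nat_lit 195))) (XT.nd (nat_lit 78) (nat_lit 0) (nat_lit 0) (XT.lf (nat_lit 0) (nat_lit 12014414793) (nat_lit 76) (nat_lit 1504571903) (nat_lit 152) (nat_lit 159231157385) (nat_lit 2) (nat_lit 5) (nat_lit 3) (nat_lit 5) (nat_lit 4) (nat_lit 4) (nat_lit 325) (nat_lit 261) (nat_lit 194)) (XT.lf (nat_lit 0) (nat_lit 22670969435) (nat_lit 152) (nat_lit 155400823132) (nat_lit 0) (nat_lit 7752458489) (nat_lit 2) (nat_lit 5) (nat_lit 4) (nat_lit 4) (nat_lit 2) (nat_lit 4) (nat_lit 326) (nat_lit 261) (nat_lit 193)))) (XT.nd (nat_lit 156) (nat_lit 0) (nat_lit 0) (XT.nd (nat_lit 78) (nat_lit 0) (nat_lit 0) (XT.lf (nat_lit 0) (nat_lit 32586621488) (nat_lit 152) (nat_lit 149692965064) (nat_lit 0) (nat_lit 17662182658) (nat_lit 2) (nat_lit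 5) (nat_lit 4) (nat_lit 4) (nat_lit 2) (nat_lit 4) (nat_lit 327) (nat_lit 261) (nat_lit 192)) (XT.lf (nat_lit 0) (nat_lit 43288517287) (nat_lit 152) (nat_lit 143542145749) (nat_lit 0) (nat_lit 28358589674) (nat_lit 2) (nat_lit 5) (nat_lit 4) (nat_lit 4) (nat_lit 2) (nat_lit 4) (nat_lit 328) (nat_lit 261) (nat_lit 191))) (XT.nd (nat_lit 78) (nat_lit 0) (nat_lit 0) (XT.lf (nat_lit 0) (nat_lit 54840075473) (nat_lit 152) (nat_lit 136911915888) (nat_lit 0) (nat_lit 39905065654) (nat_lit 2) (nat_lit 5) (nat_lit 4) (nat_lit 4) (nat_lit 2) (nat_lit 4) (nat_lit 329) (nat_lit 261) (nat_lit 190)) (XT.lf (nat_lit 0) (nat_lit 67309749723) (nat_lit 152) (nat_lit 129762985229) (nat_lit 0) (nat_lit 52370034158) (nat_lit 2) (nat_lit 5) (nat_lit 4) (nat_lit 4) (nat_lit 2) (nat_lit 4) (nat_lit 330) (nat_lit 261) (nat_lit 189))))) (XT.nd (nat_lit 312) (nat_lit 0) (nat_lit 0) (XT.nd (nat_lit 156) (nat_lit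 0) (nat_lit 0) (XT.nd (nat_lit 78) (nat_lit 0) (nat_lit 0) (XT.lf (nat_lit 0) (nat_lit 80771434404) (nat_lit 152) (nat_lit 122052989740) (nat_lit 0) (nat_lit 65827361666) (nat_lit 2) (nat_lit 5) (nat_lit 4) (nat_lit 4) (nat_lit 2) (nat_lit 4) (nat_lit 331) (nat_lit 261) (nat_lit 188)) (XT.lf (nat_lit 0) (nat_lit 95304902462) (nat_lit 152) (nat_lit 113736240557) (nat_lit 0) (nat_lit 80356795305) (nat_lit 2) (nat_lit 5) (nat_lit 4) (nat_lit 4) (nat_lit 2) (nat_lit 4) (nat_lit 332) (nat_lit 261) (nat_lit 187))) (XT.nd (nat_lit 78) (nat_lit 0) (nat_lit 0) (XT.lf (nat_lit 0) (nat_lit 110996278152) (nat_lit 152) (nat_lit 104763453241) (nat_lit 0) (nat_lit 96044435422) (nat_lit 2) (nat_lit 5) (nat_lit 4) (nat_lit 4) (nat_lit 2) (nat_lit 4) (nat_lit 333) (nat_lit 261) (nat_lit 186)) (XT.lf (nat_lit 0) (nat_lit 127938547404) (nat_lit 152) (nat_lit 95081455719) (nat_lit 0) (nat_lit 112983245811)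 (nat_lit 2) (nat_lit 5) (nat_lit 4) (nat_lit 4) (nat_lit 2) (nat_lit 4) (nat_lit 334) (nat_lit 261) (nat_lit 185)))) (XT.nd (nat_lit 156) (nat_lit 0) (nat_lit 0) (XT.nd (nat_lit 78) (nat_lit 0) (nat_lit 0) (XT.lf (nat_lit 0) (nat_lit 146232108851) (nat_lit 152) (nat_lit 84632873192) (nat_lit 0) (nat_lit 131273604606) (nat_lit 2) (nat_lit 5) (nat_lit 4) (nat_lit 4) (nat_lit 2) (nat_lit 4) (nat_lit 335) (nat_lit 261) (nat_lit 184)) (XT.lf (nat_lit 0) (nat_lit 165985368783) (nat_lit 152) (nat_lit 73355788133) (nat_lit 0) (nat_lit 151023899120) (nat_lit 2) (nat_lit 5) (nat_lit 4) (nat_lit 4) (nat_lit 2) (nat_lit 4) (nat_lit 336) (nat_lit 261) (nat_lit 183))) (XT.nd (nat_lit 78) (nat_lit 0) (nat_lit 0) (XT.lf (nat_lit 0) (nat_lit 187315383555) (nat_lit 152) (nat_lit 61183373371) (nat_lit 0) (nat_lit 172351168134) (nat_lit 2) (nat_lit 5) (nat_lit 4) (nat_lit 4) (nat_lit 2) (nat_lit 4) (nat_lit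 337) (nat_lit 261) (nat_lit 182)) (XT.lf (nat_lit 0) (nat_lit 210348553255) (nat_lit 152) (nat_lit 48043496078) (nat_lit 0) (nat_lit 195381795465) (nat_lit 2) (nat_lit 5) (nat_lit 4) (nat_lit 4) (nat_lit 2) (nat_lit 4) (nat_lit 338) (nat_lit 261) (nat_lit 181)))))) (XT.nd (nat_lit 624) (nat_lit 0) (nat_lit 0) (XT.nd (nat_lit 312) (nat_lit 0) (nat_lit 0) (XT.nd (nat_lit 156) (nat_lit 76) (nat_lit 0) (XT.nd (nat_lit 78) (nat_lit 0) (nat_lit 0) (XT.lf (nat_lit 0) (nat_lit 235221370739) (nat_lit 152) (nat_lit 33858290314) (nat_lit 0) (nat_lit 220252258905) (nat_lit 2) (nat_lit 5) (nat_lit 4) (nat_lit 4) (nat_lit 2) (nat_lit 4) (nat_lit 339) (nat_lit 261) (nat_lit 180)) (XT.lf (nat_lit 0) (nat_lit 262081230483) (nat_lit 152) (nat_lit 18543695602) (nat_lit 0) (nat_lit 247109938977) (nat_lit 2) (nat_lit 5) (nat_lit 4) (nat_lit 4) (nat_lit 2) (nat_lit 4) (nat_lit 340) (nat_lit 261) (nat_lit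 179))) (XT.nd (nat_lit 78) (nat_lit 76) (nat_lit 0) (XT.lf (nat_lit 0) (nat_lit 291087302024) (nat_lit 152) (nat_lit 2008958787) (nat_lit 0) (nat_lit 276113992305) (nat_lit 2) (nat_lit 5) (nat_lit 4) (nat_lit 4) (nat_lit 2) (nat_lit 4) (nat_lit 341) (nat_lit 261) (nat_lit 178)) (XT.lf (nat_lit 0) (nat_lit 16678215650) (nat_lit 76) (nat_lit 306134369033) (nat_lit 76) (nat_lit 291159190597) (nat_lit 1) (nat_lit 4) (nat_lit 2) (nat_lit 5) (nat_lit 2) (nat_lit 4) (nat_lit 342) (nat_lit 261) (nat_lit 177)))) (XT.nd (nat_lit 156) (nat_lit 0) (nat_lit 0) (XT.nd (nat_lit 78) (nat_lit 0) (nat_lit 0) (XT.lf (nat_lit 0) (nat_lit 36970079895) (nat_lit 76) (nat_lit 320158420130) (nat_lit 76) (nat_lit 305181511401) (nat_lit 1) (nat_lit 4) (nat_lit 2) (nat_lit 5) (nat_lit 2) (nat_lit 4) (nat_lit 343) (nat_lit 261) (nat_lit 176)) (XT.lf (nat_lit 0) (nat_lit 58881093823) (nat_lit 76) (nat_lit 335306448084)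 (nat_lit 76) (nat_lit 320327937232) (nat_lit 1) (nat_lit 4) (nat_lit 2) (nat_lit 5) (nat_lit 2) (nat_lit 4) (nat_lit 344) (nat_lit 261) (nat_lit 175))) (XT.nd (nat_lit 78) (nat_lit 0) (nat_lit 0) (XT.lf (nat_lit 0) (nat_lit 82541100478) (nat_lit 76) (nat_lit 351668218986) (nat_lit 76) (nat_lit 336688224687) (nat_lit 1) (nat_lit 4) (nat_lit 2) (nat_lit 5) (nat_lit 2) (nat_lit 4) (nat_lit 345) (nat_lit 261) (nat_lit 174)) (XT.lf (nat_lit 0) (nat_lit 108090307308) (nat_lit 76) (nat_lit 369340691480) (nat_lit 76) (nat_lit 354359323618) (nat_lit 1) (nat_lit 4) (nat_lit 2) (nat_lit 5) (nat_lit 2) (nat_lit 4) (nat_lit 346) (nat_lit 261) (nat_lit 173))))) (XT.nd (nat_lit 312) (nat_lit 0) (nat_lit 0) (XT.nd (nat_lit 156) (nat_lit 0) (nat_lit 0) (XT.nd (nat_lit 78) (nat_lit 0) (nat_lit 0) (XT.lf (nat_lit 0) (nat_lit 135680117020) (nat_lit 76) (nat_lit 388428591328) (nat_lit 76) (nat_lit 373445951649)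 (nat_lit 1) (nat_lit 4) (nat_lit 2) (nat_lit 5) (nat_lit 2) (nat_lit 4) (nat_lit 347) (nat_lit 261) (nat_lit 172)) (XT.lf (nat_lit 0) (nat_lit 165474024783) (nat_lit 76) (nat_lit 409045032010) (nat_lit 76) (nat_lit 394061214723) (nat_lit 1) (nat_lit 4) (nat_lit 2) (nat_lit 5) (nat_lit 2) (nat_lit 4) (nat_lit 348) (nat_lit 261) (nat_lit 171))) (XT.nd (nat_lit 78) (nat_lit 0) (nat_lit 0) (XT.lf (nat_lit 0) (nat_lit 197648587086) (nat_lit 76) (nat_lit 431312185028) (nat_lit 76) (nat_lit 416327277362) (nat_lit 1) (nat_lit 4) (nat_lit 2) (nat_lit 5) (nat_lit 2) (nat_lit 4) (nat_lit 349) (nat_lit 261) (nat_lit 170)) (XT.lf (nat_lit 0) (nat_lit 232394468004) (nat_lit 76) (nat_lit 455362003879) (nat_lit 76) (nat_lit 440376086604) (nat_lit 1) (nat_lit 4) (nat_lit 2) (nat_lit 5) (nat_lit 2) (nat_lit 4) (nat_lit 350) (nat_lit 261) (nat_lit 169)))) (XT.nd (nat_lit 156) (nat_lit 0) (nat_lit 0) (XT.nd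 (nat_lit 78) (nat_lit 0) (nat_lit 0) (XT.lf (nat_lit 0) (nat_lit 269917569052) (nat_lit 76) (nat_lit 481337006010) (nat_lit 76) (nat_lit 466350153912) (nat_lit 1) (nat_lit 4) (nat_lit 2) (nat_lit 5) (nat_lit 2) (nat_lit 4) (nat_lit 351) (nat_lit 261) (nat_lit 168)) (XT.lf (nat_lit 0) (nat_lit 310440249347) (nat_lit 76) (nat_lit 509391117359) (nat_lit 76) (nat_lit 494403399683) (nat_lit 1) (nat_lit 4) (nat_lit 2) (nat_lit 5) (nat_lit 2) (nat_lit 4) (nat_lit 352) (nat_lit 261) (nat_lit 167))) (XT.nd (nat_lit 78) (nat_lit 0) (nat_lit 0) (XT.lf (nat_lit 0) (nat_lit 354202643292) (nat_lit 76) (nat_lit 539690584512) (nat_lit 76) (nat_lit 524702065375) (nat_lit 1) (nat_lit 4) (nat_lit 2) (nat_lit 5) (nat_lit 2) (nat_lit 4) (nat_lit 353) (nat_lit 261) (nat_lit 166)) (XT.lf (nat_lit 0) (nat_lit 401464083592) (nat_lit 76) (nat_lit 572414959866) (nat_lit 76) (nat_lit 557425698636) (nat_lit 1) (nat_lit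 4) (nat_lit 2) (nat_lit 5) (nat_lit 2) (nat_lit 4) (nat_lit 354) (nat_lit 261) (nat_lit 165))))))))
noncomputable def xc53 : XT := (XT.nd (nat_lit 34554) (nat_lit 0) (nat_lit 532) (XT.nd (nat_lit 1170) (nat_lit 0) (nat_lit 0) (XT.nd (nat_lit 546) (nat_lit 0) (nat_lit 0) (XT.nd (nat_lit 234) (nat_lit 0) (nat_lit 0) (XT.nd (nat_lit 78) (nat_lit 0) (nat_lit 0) (XT.lf (nat_lit 0) (nat_lit 452504638040) (nat_lit 76) (nat_lit 607758165646) (nat_lit 76) (nat_lit 592768217293) (nat_lit 1) (nat_lit 4) (nat_lit 2) (nat_lit 5) (nat_lit 2) (nat_lit 4) (nat_lit 355) (nat_lit 261) (nat_lit 164)) (XT.nd (nat_lit 78) (nat_lit 0) (nat_lit 0) (XT.lf (nat_lit 0) (nat_lit 507626769182) (nat_lit 76) (nat_lit 645929643072) (nat_lit 76) (nat_lit 630939058493) (nat_lit 1) (nat_lit 4) (nat_lit 2) (nat_lit 5) (nat_lit 2) (nat_lit 4) (nat_lit 356) (nat_lit 261) (nat_lit 163)) (XT.lf (nat_lit 0) (nat_lit 567157126683)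 (nat_lit 76) (nat_lit 687155593490) (nat_lit 76) (nat_lit 672164419815) (nat_lit 1) (nat_lit 4) (nat_lit 2) (nat_lit 5) (nat_lit 2) (nat_lit 4) (nat_lit 357) (nat_lit 261) (nat_lit 162)))) (XT.nd (nat_lit 156) (nat_lit 0) (nat_lit 0) (XT.nd (nat_lit 78) (nat_lit 0) (nat_lit 0) (XT.lf (nat_lit 0) (nat_lit 631448483033) (nat_lit 76) (nat_lit 731680318830) (nat_lit 76) (nat_lit 716688599694) (nat_lit 1) (nat_lit 4) (nat_lit 2) (nat_lit 5) (nat_lit 2) (nat_lit 4) (nat_lit 358) (nat_lit 261) (nat_lit 161)) (XT.lf (nat_lit 0) (nat_lit 700881824047) (nat_lit 76) (nat_lit 779767669316) (nat_lit 76) (nat_lit 764775445124) (nat_lit 1) (nat_lit 4) (nat_lit 2) (nat_lit 5) (nat_lit 2) (nat_lit 4) (nat_lit 359) (nat_lit 261) (nat_lit 160))) (XT.nd (nat_lit 78) (nat_lit 0) (nat_lit 0) (XT.lf (nat_lit 0) (nat_lit 775868606560) (nat_lit 76) (nat_lit 831702607024) (nat_lit 76) (nat_lit 816709915188) (nat_lit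 1) (nat_lit 4) (nat_lit 2) (nat_lit 5) (nat_lit 2) (nat_lit 4) (nat_lit 360) (nat_lit 261) (nat_lit 159)) (XT.lf (nat_lit 0) (nat_lit 856853196692) (nat_lit 76) (nat_lit 887792894549) (nat_lit 76) (nat_lit 872799769709) (nat_lit 1) (nat_lit 4) (nat_lit 2) (nat_lit 5) (nat_lit 2) (nat_lit 4) (nat_lit 361) (nat_lit 261) (nat_lit 158))))) (XT.nd (nat_lit 312) (nat_lit 0) (nat_lit 0) (XT.nd (nat_lit 156) (nat_lit 0) (nat_lit 0) (XT.nd (nat_lit 78) (nat_lit 0) (nat_lit 0) (XT.lf (nat_lit 0) (nat_lit 944315503124) (nat_lit 76) (nat_lit 948370918780) (nat_lit 76) (nat_lit 933377393009) (nat_lit 1) (nat_lit 4) (nat_lit 2) (nat_lit 5) (nat_lit 2) (nat_lit 4) (nat_lit 362) (nat_lit 261) (nat_lit 157)) (XT.lf (nat_lit 0) (nat_lit 1038773821006) (nat_lit 76) (nat_lit 1013795660600) (nat_lit 76) (nat_lit 998801763598) (nat_lit 1) (nat_lit 4) (nat_lit 2) (nat_lit 5) (nat_lit 2) (nat_lit 4) (nat_lit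 363) (nat_lit 261) (nat_lit 156))) (XT.nd (nat_lit 78) (nat_lit 0) (nat_lit 0) (XT.lf (nat_lit 0) (nat_lit 1140787903332) (nat_lit 76) (nat_lit 1084454822184) (nat_lit 76) (nat_lit 1069460581450) (nat_lit 1) (nat_lit 4) (nat_lit 2) (nat_lit 5) (nat_lit 2) (nat_lit 4) (nat_lit 364) (nat_lit 261) (nat_lit 155)) (XT.lf (nat_lit 0) (nat_lit 1250962277998) (nat_lit 76) (nat_lit 1160767124489) (nat_lit 76) (nat_lit 1145772565484) (nat_lit 1) (nat_lit 4) (nat_lit 2) (nat_lit 5) (nat_lit 2) (nat_lit 4) (nat_lit 365) (nat_lit 261) (nat_lit 154)))) (XT.nd (nat_lit 156) (nat_lit 0) (nat_lit 0) (XT.nd (nat_lit 78) (nat_lit 0) (nat_lit 0) (XT.lf (nat_lit 0) (nat_lit 1369949830187) (nat_lit 76) (nat_lit 1243184788566) (nat_lit 76) (nat_lit 1228189934865) (nat_lit 1) (nat_lit 4) (nat_lit 2) (nat_lit 5) (nat_lit 2) (nat_lit 4) (nat_lit 366) (nat_lit 261) (nat_lit 153)) (XT.lf (nat_lit 0) (nat_lit 1498455671319)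 (nat_lit 76) (nat_lit 1332196215387) (nat_lit 76) (nat_lit 1317201088820) (nat_lit 1) (nat_lit 4) (nat_lit 2) (nat_lit 5) (nat_lit 2) (nat_lit 4) (nat_lit 367) (nat_lit 261) (nat_lit 152))) (XT.nd (nat_lit 78) (nat_lit 0) (nat_lit 0) (XT.lf (nat_lit 0) (nat_lit 1637241317491) (nat_lit 76) (nat_lit 1428328880074) (nat_lit 76) (nat_lit 1413333500854) (nat_lit 1) (nat_lit 4) (nat_lit 2) (nat_lit 5) (nat_lit 2) (nat_lit 4) (nat_lit 368) (nat_lit 261) (nat_lit 151)) (XT.lf (nat_lit 0) (nat_lit 1787129202160) (nat_lit 76) (nat_lit 1532152457678) (nat_lit 76) (nat_lit 1517156844518) (nat_lit 1) (nat_lit 4) (nat_lit 2) (nat_lit 5) (nat_lit 2) (nat_lit 4) (nat_lit 369) (nat_lit 261) (nat_lit 150)))))) (XT.nd (nat_lit 32760) (nat_lit 0) (nat_lit 2660) (XT.nd (nat_lit 32448) (nat_lit 0) (nat_lit 4408) (XT.nd (nat_lit 32292) (nat_lit 0) (nat_lit 4636) (XT.nd (nat_lit 32214) (nat_lit 0) (nat_lit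 4864) (XT.lf (nat_lit 0) (nat_lit 1949007549828) (nat_lit 76) (nat_lit 1644282199027) (nat_lit 76) (nat_lit 1629286369258) (nat_lit 1) (nat_lit 4) (nat_lit 2) (nat_lit 5) (nat_lit 2) (nat_lit 4) (nat_lit 370) (nat_lit 261) (nat_lit 149)) (XT.lf (nat_lit 0) (nat_lit 2170901769) (nat_lit 228) (nat_lit 553879812) (nat_lit 228) (nat_lit 553879812) (nat_lit 65) (nat_lit 3) (nat_lit 68) (nat_lit 3) (nat_lit 68) (nat_lit 5) (nat_lit 262) (nat_lit 262) (nat_lit 256))) (XT.nd (nat_lit 78) (nat_lit 0) (nat_lit 0) (XT.lf (nat_lit 0) (nat_lit 161349373) (nat_lit 228) (nat_lit 4566369316) (nat_lit 304) (nat_lit 1898740833) (nat_lit 62) (nat_lit 5) (nat_lit 65) (nat_lit 3) (nat_lit 66) (nat_lit 5) (nat_lit 263) (nat_lit 262) (nat_lit 255)) (XT.lf (nat_lit 0) (nat_lit 2406562682) (nat_lit 228) (nat_lit 1353358134) (nat_lit 304) (nat_lit 2953729017) (nat_lit 62) (nat_lit 5) (nat_lit 65) (nat_lit 3)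 (nat_lit 66) (nat_lit 5) (nat_lit 264) (nat_lit 262) (nat_lit 254)))) (XT.nd (nat_lit 156) (nat_lit 228) (nat_lit 0) (XT.nd (nat_lit 78) (nat_lit 0) (nat_lit 0) (XT.lf (nat_lit 76) (nat_lit 2091028400) (nat_lit 0) (nat_lit 2574742792) (nat_lit 304) (nat_lit 2156180575) (nat_lit 63) (nat_lit 5) (nat_lit 62) (nat_lit 5) (nat_lit 66) (nat_lit 5) (nat_lit 265) (nat_lit 262) (nat_lit 253)) (XT.lf (nat_lit 76) (nat_lit 5760963190) (nat_lit 0) (nat_lit 1178785060) (nat_lit 304) (nat_lit 13268025) (nat_lit 63) (nat_lit 5) (nat_lit 62) (nat_lit 5) (nat_lit 66) (nat_lit 5) (nat_lit 266) (nat_lit 262) (nat_lit 252))) (XT.nd (nat_lit 78) (nat_lit 0) (nat_lit 0) (XT.lf (nat_lit 0) (nat_lit 2066875481) (nat_lit 304) (nat_lit 4538956496) (nat_lit 76) (nat_lit 494537966) (nat_lit 59) (nat_lit 5) (nat_lit 63) (nat_lit 5) (nat_lit 60) (nat_lit 5) (nat_lit 267) (nat_lit 262) (nat_lit 251)) (XT.lf (nat_lit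 0) (nat_lit 4195926921) (nat_lit 304) (nat_lit 747570377) (nat_lit 76) (nat_lit 2325981686) (nat_lit 59) (nat_lit 5) (nat_lit 63) (nat_lit 5) (nat_lit 60) (nat_lit 5) (nat_lit 268) (nat_lit 262) (nat_lit 250))))) (XT.nd (nat_lit 312) (nat_lit 532) (nat_lit 0) (XT.nd (nat_lit 156) (nat_lit 456) (nat_lit 0) (XT.nd (nat_lit 78) (nat_lit 456) (nat_lit 0) (XT.lf (nat_lit 0) (nat_lit 3385163110) (nat_lit 304) (nat_lit 3024104533) (nat_lit 380) (nat_lit 1050335331) (nat_lit 55) (nat_lit 5) (nat_lit 59) (nat_lit 5) (nat_lit 60) (nat_lit 5) (nat_lit 269) (nat_lit 262) (nat_lit 249)) (XT.lf (nat_lit 0) (nat_lit 66149249) (nat_lit 380) (nat_lit 871626671) (nat_lit 456) (nat_lit 6736710960) (nat_lit 49) (nat_lit 5) (nat_lit 54) (nat_lit 5) (nat_lit 55) (nat_lit 5) (nat_lit 270) (nat_lit 262) (nat_lit 248))) (XT.nd (nat_lit 78) (nat_lit 456) (nat_lit 0) (XT.lf (nat_lit 0) (nat_lit 3024004253) (nat_lit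 456) (nat_lit 3339945701) (nat_lit 76) (nat_lit 1541242974) (nat_lit 49) (nat_lit 5) (nat_lit 55) (nat_lit 5) (nat_lit 50) (nat_lit 5) (nat_lit 271) (nat_lit 262) (nat_lit 247)) (XT.lf (nat_lit 0) (nat_lit 1169797794) (nat_lit 456) (nat_lit 4016043153) (nat_lit 532) (nat_lit 2976261248) (nat_lit 43) (nat_lit 5) (nat_lit 49) (nat_lit 5) (nat_lit 50) (nat_lit 5) (nat_lit 272) (nat_lit 262) (nat_lit 246)))) (XT.nd (nat_lit 156) (nat_lit 228) (nat_lit 0) (XT.nd (nat_lit 78) (nat_lit 304) (nat_lit 0) (XT.lf (nat_lit 0) (nat_lit 6097711272) (nat_lit 456) (nat_lit 1379505363) (nat_lit 532) (nat_lit 966230893) (nat_lit 43) (nat_lit 5) (nat_lit 49) (nat_lit 5) (nat_lit 50) (nat_lit 5) (nat_lit 273) (nat_lit 262) (nat_lit 245)) (XT.lf (nat_lit 0) (nat_lit 1117306015) (nat_lit 304) (nat_lit 6142076900) (nat_lit 76) (nat_lit 1488114963) (nat_lit 39) (nat_lit 5) (nat_lit 43) (nat_lit 5) (nat_lit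 40) (nat_lit 5) (nat_lit 274) (nat_lit 262) (nat_lit 244))) (XT.nd (nat_lit 78) (nat_lit 228) (nat_lit 0) (XT.lf (nat_lit 0) (nat_lit 3294959715) (nat_lit 304) (nat_lit 1183784788) (nat_lit 76) (nat_lit 4597075185) (nat_lit 39) (nat_lit 5) (nat_lit 43) (nat_lit 5) (nat_lit 40) (nat_lit 5) (nat_lit 275) (nat_lit 262) (nat_lit 243)) (XT.lf (nat_lit 0) (nat_lit 4257749205) (nat_lit 228) (nat_lit 1378514017) (nat_lit 304) (nat_lit 3795290889) (nat_lit 36) (nat_lit 5) (nat_lit 39) (nat_lit 5) (nat_lit 40) (nat_lit 5) (nat_lit 276) (nat_lit 262) (nat_lit 242))))))) (XT.nd (nat_lit 1248) (nat_lit 532) (nat_lit 0) (XT.nd (nat_lit 624) (nat_lit 760) (nat_lit 0) (XT.nd (nat_lit 312) (nat_lit 380) (nat_lit 0) (XT.nd (nat_lit 156) (nat_lit 152) (nat_lit 0) (XT.nd (nat_lit 78) (nat_lit 76) (nat_lit 0) (XT.lf (nat_lit 0) (nat_lit 219836439) (nat_lit 228) (nat_lit 7922967635) (nat_lit 304) (nat_lit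 1674988077) (nat_lit 33) (nat_lit 5) (nat_lit 36) (nat_lit 5) (nat_lit 37) (nat_lit 5) (nat_lit 277) (nat_lit 262) (nat_lit 241)) (XT.lf (nat_lit 0) (nat_lit 659170020) (nat_lit 304) (nat_lit 4072876246) (nat_lit 76) (nat_lit 5495940034) (nat_lit 32) (nat_lit 5) (nat_lit 36) (nat_lit 5) (nat_lit 33) (nat_lit 5) (nat_lit 278) (nat_lit 262) (nat_lit 240))) (XT.nd (nat_lit 78) (nat_lit 0) (nat_lit 0) (XT.lf (nat_lit 0) (nat_lit 1817353005) (nat_lit 152) (nat_lit 1217822222) (nat_lit 228) (nat_lit 7636913556) (nat_lit 30) (nat_lit 5) (nat_lit 32) (nat_lit 5) (nat_lit 33) (nat_lit 5) (nat_lit 279) (nat_lit 262) (nat_lit 239)) (XT.lf (nat_lit 0) (nat_lit 5683098387) (nat_lit 228) (nat_lit 2925427149) (nat_lit 76) (nat_lit 2536852373) (nat_lit 30) (nat_lit 5) (nat_lit 33) (nat_lit 5) (nat_lit 31) (nat_lit 5) (nat_lit 280) (nat_lit 262) (nat_lit 238)))) (XT.nd (nat_lit 156) (nat_lit 228) (nat_lit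 0) (XT.nd (nat_lit 78) (nat_lit 0) (nat_lit 0) (XT.lf (nat_lit 0) (nat_lit 3503167822) (nat_lit 152) (nat_lit 5068159047) (nat_lit 228) (nat_lit 3083115808) (nat_lit 28) (nat_lit 5) (nat_lit 30) (nat_lit 5) (nat_lit 31) (nat_lit 5) (nat_lit 281) (nat_lit 262) (nat_lit 237)) (XT.lf (nat_lit 0) (nat_lit 10496757067) (nat_lit 152) (nat_lit 1190124563) (nat_lit 228) (nat_lit 517825693) (nat_lit 28) (nat_lit 5) (nat_lit 30) (nat_lit 5) (nat_lit 31) (nat_lit 5) (nat_lit 282) (nat_lit 262) (nat_lit 236))) (XT.nd (nat_lit 78) (nat_lit 0) (nat_lit 0) (XT.lf (nat_lit 0) (nat_lit 2265146357) (nat_lit 228) (nat_lit 7513981110) (nat_lit 76) (nat_lit 3005670725) (nat_lit 25) (nat_lit 5) (nat_lit 28) (nat_lit 5) (nat_lit 26) (nat_lit 5) (nat_lit 283) (nat_lit 262) (nat_lit 235)) (XT.lf (nat_lit 0) (nat_lit 5244433586) (nat_lit 228) (nat_lit 662216561) (nat_lit 76) (nat_lit 7503577730) (nat_lit 25)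 (nat_lit 5) (nat_lit 28) (nat_lit 5) (nat_lit 26) (nat_lit 5) (nat_lit 284) (nat_lit 262) (nat_lit 234))))) (XT.nd (nat_lit 312) (nat_lit 304) (nat_lit 0) (XT.nd (nat_lit 156) (nat_lit 228) (nat_lit 0) (XT.nd (nat_lit 78) (nat_lit 76) (nat_lit 0) (XT.lf (nat_lit 0) (nat_lit 6981273246) (nat_lit 152) (nat_lit 1577236443) (nat_lit 228) (nat_lit 5519596043) (nat_lit 23) (nat_lit 5) (nat_lit 25) (nat_lit 5) (nat_lit 26) (nat_lit 5) (nat_lit 285) (nat_lit 262) (nat_lit 233)) (XT.lf (nat_lit 0) (nat_lit 308628634) (nat_lit 76) (nat_lit 11860138688) (nat_lit 152) (nat_lit 2628281933) (nat_lit 22) (nat_lit 5) (nat_lit 23) (nat_lit 5) (nat_lit 24) (nat_lit 4) (nat_lit 286) (nat_lit 262) (nat_lit 232))) (XT.nd (nat_lit 78) (nat_lit 152) (nat_lit 0) (XT.lf (nat_lit 0) (nat_lit 640970237) (nat_lit 152) (nat_lit 7014500811) (nat_lit 76) (nat_lit 7903479947) (nat_lit 21) (nat_lit 5) (nat_lit 23) (nat_lit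 5) (nat_lit 22) (nat_lit 5) (nat_lit 287) (nat_lit 262) (nat_lit 231)) (XT.lf (nat_lit 0) (nat_lit 935151572) (nat_lit 152) (nat_lit 3053508279) (nat_lit 228) (nat_lit 12391067398) (nat_lit 19) (nat_lit 5) (nat_lit 21) (nat_lit 5) (nat_lit 22) (nat_lit 5) (nat_lit 288) (nat_lit 262) (nat_lit 230)))) (XT.nd (nat_lit 156) (nat_lit 228) (nat_lit 0) (XT.nd (nat_lit 78) (nat_lit 76) (nat_lit 0) (XT.lf (nat_lit 0) (nat_lit 7784895107) (nat_lit 228) (nat_lit 7484446845) (nat_lit 76) (nat_lit 1982453326) (nat_lit 19) (nat_lit 5) (nat_lit 22) (nat_lit 5) (nat_lit 20) (nat_lit 4) (nat_lit 289) (nat_lit 262) (nat_lit 229)) (XT.lf (nat_lit 0) (nat_lit 987929033) (nat_lit 76) (nat_lit 10942439830) (nat_lit 152) (nat_lit 6259698300) (nat_lit 18) (nat_lit 5) (nat_lit 19) (nat_lit 5) (nat_lit 20) (nat_lit 4) (nat_lit 290) (nat_lit 262) (nat_lit 228))) (XT.nd (nat_lit 78) (nat_lit 228) (nat_lit 0) (XT.lf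 (nat_lit 0) (nat_lit 10471467287) (nat_lit 76) (nat_lit 6085161747) (nat_lit 152) (nat_lit 2634915424) (nat_lit 18) (nat_lit 5) (nat_lit 19) (nat_lit 5) (nat_lit 20) (nat_lit 4) (nat_lit 291) (nat_lit 262) (nat_lit 227)) (XT.lf (nat_lit 0) (nat_lit 338413320) (nat_lit 152) (nat_lit 832772162) (nat_lit 228) (nat_lit 19103128092) (nat_lit 15) (nat_lit 5) (nat_lit 17) (nat_lit 5) (nat_lit 18) (nat_lit 5) (nat_lit 292) (nat_lit 262) (nat_lit 226)))))) (XT.nd (nat_lit 624) (nat_lit 228) (nat_lit 0) (XT.nd (nat_lit 312) (nat_lit 228) (nat_lit 0) (XT.nd (nat_lit 156) (nat_lit 76) (nat_lit 0) (XT.nd (nat_lit 78) (nat_lit 0) (nat_lit 0) (XT.lf (nat_lit 0) (nat_lit 5448648895) (nat_lit 228) (nat_lit 11087498020) (nat_lit 76) (nat_lit 4877403858) (nat_lit 15) (nat_lit 5) (nat_lit 18) (nat_lit 5) (nat_lit 16) (nat_lit 4) (nat_lit 293) (nat_lit 262) (nat_lit 225)) (XT.lf (nat_lit 0) (nat_lit 10041991346)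 (nat_lit 228) (nat_lit 1635575807) (nat_lit 76) (nat_lit 10968520764) (nat_lit 15) (nat_lit 5) (nat_lit 18) (nat_lit 5) (nat_lit 16) (nat_lit 4) (nat_lit 294) (nat_lit 262) (nat_lit 224))) (XT.nd (nat_lit 78) (nat_lit 0) (nat_lit 0) (XT.lf (nat_lit 0) (nat_lit 8943285318) (nat_lit 76) (nat_lit 6230205360) (nat_lit 152) (nat_lit 8790133609) (nat_lit 14) (nat_lit 5) (nat_lit 15) (nat_lit 5) (nat_lit 16) (nat_lit 4) (nat_lit 295) (nat_lit 262) (nat_lit 223)) (XT.lf (nat_lit 0) (nat_lit 20386816858) (nat_lit 76) (nat_lit 330509090) (nat_lit 152) (nat_lit 4669139944) (nat_lit 14) (nat_lit 5) (nat_lit 15) (nat_lit 5) (nat_lit 16) (nat_lit 4) (nat_lit 296) (nat_lit 262) (nat_lit 222)))) (XT.nd (nat_lit 156) (nat_lit 76) (nat_lit 0) (XT.nd (nat_lit 78) (nat_lit 0) (nat_lit 0) (XT.lf (nat_lit 0) (nat_lit 45605352) (nat_lit 152) (nat_lit 21003635914) (nat_lit 76) (nat_lit 5854103219) (nat_lit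 12) (nat_lit 5) (nat_lit 14) (nat_lit 5) (nat_lit 13) (nat_lit 4) (nat_lit 297) (nat_lit 262) (nat_lit 221)) (XT.lf (nat_lit 0) (nat_lit 4993938297) (nat_lit 152) (nat_lit 10780679467) (nat_lit 76) (nat_lit 12748598254) (nat_lit 12) (nat_lit 5) (nat_lit 14) (nat_lit 5) (nat_lit 13) (nat_lit 4) (nat_lit 298) (nat_lit 262) (nat_lit 220))) (XT.nd (nat_lit 78) (nat_lit 0) (nat_lit 0) (XT.lf (nat_lit 0) (nat_lit 203653224) (nat_lit 76) (nat_lit 10102186508) (nat_lit 152) (nat_lit 19969456384) (nat_lit 11) (nat_lit 5) (nat_lit 12) (nat_lit 5) (nat_lit 13) (nat_lit 4) (nat_lit 299) (nat_lit 262) (nat_lit 219)) (XT.lf (nat_lit 0) (nat_lit 12614878783) (nat_lit 76) (nat_lit 3686574330) (nat_lit 152) (nat_lit 15845421122) (nat_lit 11) (nat_lit 5) (nat_lit 12) (nat_lit 5) (nat_lit 13) (nat_lit 4) (nat_lit 300) (nat_lit 262) (nat_lit 218))))) (XT.nd (nat_lit 312) (nat_lit 76) (nat_lit 0) (XT.nd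 (nat_lit 156) (nat_lit 76) (nat_lit 0) (XT.nd (nat_lit 78) (nat_lit 76) (nat_lit 0) (XT.lf (nat_lit 0) (nat_lit 22820711641) (nat_lit 152) (nat_lit 8289353994) (nat_lit 0) (nat_lit 3054623281) (nat_lit 11) (nat_lit 5) (nat_lit 13) (nat_lit 4) (nat_lit 11) (nat_lit 4) (nat_lit 301) (nat_lit 262) (nat_lit 217)) (XT.lf (nat_lit 0) (nat_lit 3894151595) (nat_lit 76) (nat_lit 26125304982) (nat_lit 76) (nat_lit 6311864313) (nat_lit 10) (nat_lit 4) (nat_lit 11) (nat_lit 5) (nat_lit 11) (nat_lit 4) (nat_lit 302) (nat_lit 262) (nat_lit 216))) (XT.nd (nat_lit 78) (nat_lit 76) (nat_lit 0) (XT.lf (nat_lit 0) (nat_lit 17467625353) (nat_lit 76) (nat_lit 20522638100) (nat_lit 76) (nat_lit 665352700) (nat_lit 10) (nat_lit 4) (nat_lit 11) (nat_lit 5) (nat_lit 11) (nat_lit 4) (nat_lit 303) (nat_lit 262) (nat_lit 215)) (XT.lf (nat_lit 0) (nat_lit 5132124179) (nat_lit 152) (nat_lit 9223064079) (nat_lit 76)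 (nat_lit 26802554438) (nat_lit 9) (nat_lit 5) (nat_lit 11) (nat_lit 5) (nat_lit 10) (nat_lit 4) (nat_lit 304) (nat_lit 262) (nat_lit 214)))) (XT.nd (nat_lit 156) (nat_lit 0) (nat_lit 0) (XT.nd (nat_lit 78) (nat_lit 0) (nat_lit 0) (XT.lf (nat_lit 0) (nat_lit 3823480537) (nat_lit 76) (nat_lit 7599092876) (nat_lit 152) (nat_lit 32430894175) (nat_lit 8) (nat_lit 5) (nat_lit 9) (nat_lit 5) (nat_lit 10) (nat_lit 4) (nat_lit 305) (nat_lit 262) (nat_lit 213)) (XT.lf (nat_lit 0) (nat_lit 18389966906) (nat_lit 76) (nat_lit 52458300) (nat_lit 152) (nat_lit 28304350838) (nat_lit 8) (nat_lit 5) (nat_lit 9) (nat_lit 5) (nat_lit 10) (nat_lit 4) (nat_lit 306) (nat_lit 262) (nat_lit 212))) (XT.nd (nat_lit 78) (nat_lit 0) (nat_lit 0) (XT.lf (nat_lit 0) (nat_lit 26194041719) (nat_lit 152) (nat_lit 15990706814) (nat_lit 0) (nat_lit 7673204023) (nat_lit 8) (nat_lit 5) (nat_lit 10) (nat_lit 4) (nat_lit 8)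 (nat_lit 4) (nat_lit 307) (nat_lit 262) (nat_lit 211)) (XT.lf (nat_lit 0) (nat_lit 34544392433) (nat_lit 152) (nat_lit 2679433452) (nat_lit 0) (nat_lit 15995925120) (nat_lit 8) (nat_lit 5) (nat_lit 10) (nat_lit 4) (nat_lit 8) (nat_lit 4) (nat_lit 308) (nat_lit 262) (nat_lit 210))))))))
noncomputable def xc54 : XT := (XT.nd (nat_lit 2418) (nat_lit 76) (nat_lit 0) (XT.nd (nat_lit 1170) (nat_lit 152) (nat_lit 0) (XT.nd (nat_lit 546) (nat_lit 76) (nat_lit 0) (XT.nd (nat_lit 234) (nat_lit 152) (nat_lit 0) (XT.nd (nat_lit 78) (nat_lit 0) (nat_lit 0) (XT.lf (nat_lit 0) (nat_lit 12270999272) (nat_lit 76) (nat_lit 31565817842) (nat_lit 76) (nat_lit 12991767550) (nat_lit 7) (nat_lit 4) (nat_lit 8) (nat_lit 5) (nat_lit 8) (nat_lit 4) (nat_lit 309) (nat_lit 262) (nat_lit 209)) (XT.nd (nat_lit 78) (nat_lit 0) (nat_lit 0) (XT.lf (nat_lit 0) (nat_lit 28531262999) (nat_lit 76) (nat_lit 25394194217)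 (nat_lit 76) (nat_lit 6796455980) (nat_lit 7) (nat_lit 4) (nat_lit 8) (nat_lit 5) (nat_lit 8) (nat_lit 4) (nat_lit 310) (nat_lit 262) (nat_lit 208)) (XT.lf (nat_lit 0) (nat_lit 46056620629) (nat_lit 76) (nat_lit 18745642883) (nat_lit 76) (nat_lit 125971365) (nat_lit 7) (nat_lit 4) (nat_lit 8) (nat_lit 5) (nat_lit 8) (nat_lit 4) (nat_lit 311) (nat_lit 262) (nat_lit 207)))) (XT.nd (nat_lit 156) (nat_lit 0) (nat_lit 0) (XT.nd (nat_lit 78) (nat_lit 76) (nat_lit 0) (XT.lf (nat_lit 0) (nat_lit 6706084563) (nat_lit 152) (nat_lit 4691324220) (nat_lit 76) (nat_lit 58061485333) (nat_lit 6) (nat_lit 5) (nat_lit 8) (nat_lit 5) (nat_lit 7) (nat_lit 4) (nat_lit 312) (nat_lit 262) (nat_lit 206)) (XT.lf (nat_lit 0) (nat_lit 11146176251) (nat_lit 76) (nat_lit 3183131737) (nat_lit 152) (nat_lit 60002333860) (nat_lit 5) (nat_lit 5) (nat_lit 6) (nat_lit 5) (nat_lit 7) (nat_lit 4) (nat_lit 313) (nat_lit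 262) (nat_lit 205))) (XT.nd (nat_lit 78) (nat_lit 0) (nat_lit 0) (XT.lf (nat_lit 0) (nat_lit 22814281394) (nat_lit 152) (nat_lit 51238278506) (nat_lit 0) (nat_lit 5521507587) (nat_lit 5) (nat_lit 5) (nat_lit 7) (nat_lit 4) (nat_lit 5) (nat_lit 4) (nat_lit 314) (nat_lit 262) (nat_lit 204)) (XT.lf (nat_lit 0) (nat_lit 32045442412) (nat_lit 152) (nat_lit 38447321160) (nat_lit 0) (nat_lit 14737741182) (nat_lit 5) (nat_lit 5) (nat_lit 7) (nat_lit 4) (nat_lit 5) (nat_lit 4) (nat_lit 315) (nat_lit 262) (nat_lit 203))))) (XT.nd (nat_lit 312) (nat_lit 0) (nat_lit 0) (XT.nd (nat_lit 156) (nat_lit 76) (nat_lit 0) (XT.nd (nat_lit 78) (nat_lit 0) (nat_lit 0) (XT.lf (nat_lit 0) (nat_lit 42000939824) (nat_lit 152) (nat_lit 24660240901) (nat_lit 0) (nat_lit 24679416906) (nat_lit 5) (nat_lit 5) (nat_lit 7) (nat_lit 4) (nat_lit 5) (nat_lit 4) (nat_lit 316) (nat_lit 262) (nat_lit 202)) (XT.lf (nat_lit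 0) (nat_lit 52739769169) (nat_lit 152) (nat_lit 9795336511) (nat_lit 0) (nat_lit 35405448392) (nat_lit 5) (nat_lit 5) (nat_lit 7) (nat_lit 4) (nat_lit 5) (nat_lit 4) (nat_lit 317) (nat_lit 262) (nat_lit 201))) (XT.nd (nat_lit 78) (nat_lit 0) (nat_lit 0) (XT.lf (nat_lit 0) (nat_lit 6563829675) (nat_lit 76) (nat_lit 57919598542) (nat_lit 76) (nat_lit 40573427896) (nat_lit 4) (nat_lit 4) (nat_lit 5) (nat_lit 5) (nat_lit 5) (nat_lit 4) (nat_lit 318) (nat_lit 262) (nat_lit 200)) (XT.lf (nat_lit 0) (nat_lit 24766108089) (nat_lit 76) (nat_lit 52656510174) (nat_lit 76) (nat_lit 35299367427) (nat_lit 4) (nat_lit 4) (nat_lit 5) (nat_lit 5) (nat_lit 5) (nat_lit 4) (nat_lit 319) (nat_lit 262) (nat_lit 199)))) (XT.nd (nat_lit 156) (nat_lit 0) (nat_lit 0) (XT.nd (nat_lit 78) (nat_lit 0) (nat_lit 0) (XT.lf (nat_lit 0) (nat_lit 44403559023) (nat_lit 76) (nat_lit 46982473764) (nat_lit 76) (nat_lit 29615171664)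 (nat_lit 4) (nat_lit 4) (nat_lit 5) (nat_lit 5) (nat_lit 5) (nat_lit 4) (nat_lit 320) (nat_lit 262) (nat_lit 198)) (XT.lf (nat_lit 0) (nat_lit 65592552556) (nat_lit 76) (nat_lit 40863865393) (nat_lit 76) (nat_lit 23487156484) (nat_lit 4) (nat_lit 4) (nat_lit 5) (nat_lit 5) (nat_lit 5) (nat_lit 4) (nat_lit 321) (nat_lit 262) (nat_lit 197))) (XT.nd (nat_lit 78) (nat_lit 0) (nat_lit 0) (XT.lf (nat_lit 0) (nat_lit 88458653094) (nat_lit 76) (nat_lit 34264426640) (nat_lit 76) (nat_lit 16879007723) (nat_lit 4) (nat_lit 4) (nat_lit 5) (nat_lit 5) (nat_lit 5) (nat_lit 4) (nat_lit 322) (nat_lit 262) (nat_lit 196)) (XT.lf (nat_lit 0) (nat_lit 113137363456) (nat_lit 76) (nat_lit 27145049721) (nat_lit 76) (nat_lit 9751565982) (nat_lit 4) (nat_lit 4) (nat_lit 5) (nat_lit 5) (nat_lit 5) (nat_lit 4) (nat_lit 323) (nat_lit 262) (nat_lit 195)))))) (XT.nd (nat_lit 624) (nat_lit 0) (nat_lit 0) (XT.nd (nat_lit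 312) (nat_lit 0) (nat_lit 0) (XT.nd (nat_lit 156) (nat_lit 76) (nat_lit 0) (XT.nd (nat_lit 78) (nat_lit 76) (nat_lit 0) (XT.lf (nat_lit 0) (nat_lit 139774927850) (nat_lit 76) (nat_lit 19463545735) (nat_lit 76) (nat_lit 2062594568) (nat_lit 4) (nat_lit 4) (nat_lit 5) (nat_lit 5) (nat_lit 5) (nat_lit 4) (nat_lit 324) (nat_lit 262) (nat_lit 194)) (XT.lf (nat_lit 0) (nat_lit 5921647338) (nat_lit 152) (nat_lit 5090838987) (nat_lit 76) (nat_lit 162445642840) (nat_lit 3) (nat_lit 5) (nat_lit 5) (nat_lit 5) (nat_lit 4) (nat_lit 4) (nat_lit 325) (nat_lit 262) (nat_lit 193))) (XT.nd (nat_lit 78) (nat_lit 0) (nat_lit 0) (XT.lf (nat_lit 0) (nat_lit 13255175264) (nat_lit 76) (nat_lit 1489749174) (nat_lit 152) (nat_lit 171813609825) (nat_lit 2) (nat_lit 5) (nat_lit 3) (nat_lit 5) (nat_lit 4) (nat_lit 4) (nat_lit 326) (nat_lit 262) (nat_lit 192)) (XT.lf (nat_lit 0) (nat_lit 24621378556) (nat_lit 152)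 (nat_lit 167566243292) (nat_lit 0) (nat_lit 8491567952) (nat_lit 2) (nat_lit 5) (nat_lit 4) (nat_lit 4) (nat_lit 2) (nat_lit 4) (nat_lit 327) (nat_lit 262) (nat_lit 191)))) (XT.nd (nat_lit 156) (nat_lit 0) (nat_lit 0) (XT.nd (nat_lit 78) (nat_lit 0) (nat_lit 0) (XT.lf (nat_lit 0) (nat_lit 35320154510) (nat_lit 152) (nat_lit 161421508111) (nat_lit 0) (nat_lit 19185261700) (nat_lit 2) (nat_lit 5) (nat_lit 4) (nat_lit 4) (nat_lit 2) (nat_lit 4) (nat_lit 328) (nat_lit 262) (nat_lit 190)) (XT.lf (nat_lit 0) (nat_lit 46868823950) (nat_lit 152) (nat_lit 154796911707) (nat_lit 0) (nat_lit 30729225394) (nat_lit 2) (nat_lit 5) (nat_lit 4) (nat_lit 4) (nat_lit 2) (nat_lit 4) (nat_lit 329) (nat_lit 262) (nat_lit 189))) (XT.nd (nat_lit 78) (nat_lit 0) (nat_lit 0) (XT.lf (nat_lit 0) (nat_lit 59335823436) (nat_lit 152) (nat_lit 147653197213) (nat_lit 0) (nat_lit 43191867707) (nat_lit 2) (nat_lit 5)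 (nat_lit 4) (nat_lit 4) (nat_lit 2) (nat_lit 4) (nat_lit 330) (nat_lit 262) (nat_lit 188)) (XT.lf (nat_lit 0) (nat_lit 72795031484) (nat_lit 152) (nat_lit 139948031505) (nat_lit 0) (nat_lit 56647041336) (nat_lit 2) (nat_lit 5) (nat_lit 4) (nat_lit 4) (nat_lit 2) (nat_lit 4) (nat_lit 331) (nat_lit 262) (nat_lit 187))))) (XT.nd (nat_lit 312) (nat_lit 0) (nat_lit 0) (XT.nd (nat_lit 156) (nat_lit 0) (nat_lit 0) (XT.nd (nat_lit 78) (nat_lit 0) (nat_lit 0) (XT.lf (nat_lit 0) (nat_lit 87326206363) (nat_lit 152) (nat_lit 131635754342) (nat_lit 0) (nat_lit 71174480642) (nat_lit 2) (nat_lit 5) (nat_lit 4) (nat_lit 4) (nat_lit 2) (nat_lit 4) (nat_lit 332) (nat_lit 262) (nat_lit 186)) (XT.lf (nat_lit 0) (nat_lit 103015458739) (nat_lit 152) (nat_lit 122667107786) (nat_lit 0) (nat_lit 86860274154) (nat_lit 2) (nat_lit 5) (nat_lit 4) (nat_lit 4) (nat_lit 2) (nat_lit 4) (nat_lit 333) (nat_lit 262) (nat_lit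 185))) (XT.nd (nat_lit 78) (nat_lit 0) (nat_lit 0) (XT.lf (nat_lit 0) (nat_lit 119955761960) (nat_lit 152) (nat_lit 112988944301) (nat_lit 0) (nat_lit 103797374723) (nat_lit 2) (nat_lit 5) (nat_lit 4) (nat_lit 4) (nat_lit 2) (nat_lit 4) (nat_lit 334) (nat_lit 262) (nat_lit 184)) (XT.lf (nat_lit 0) (nat_lit 138247503008) (nat_lit 152) (nat_lit 102543911807) (nat_lit 0) (nat_lit 122086150352) (nat_lit 2) (nat_lit 5) (nat_lit 4) (nat_lit 4) (nat_lit 2) (nat_lit 4) (nat_lit 335) (nat_lit 262) (nat_lit 183)))) (XT.nd (nat_lit 156) (nat_lit 0) (nat_lit 0) (XT.nd (nat_lit 78) (nat_lit 0) (nat_lit 0) (XT.lf (nat_lit 0) (nat_lit 157999077384) (nat_lit 152) (nat_lit 91270113816) (nat_lit 0) (nat_lit 141834978972) (nat_lit 2) (nat_lit 5) (nat_lit 4) (nat_lit 4) (nat_lit 2) (nat_lit 4) (nat_lit 336) (nat_lit 262) (nat_lit 182)) (XT.lf (nat_lit 0) (nat_lit 179327531457) (nat_lit 152) (nat_lit 79100742636)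 (nat_lit 0) (nat_lit 163160890676) (nat_lit 2) (nat_lit 5) (nat_lit 4) (nat_lit 4) (nat_lit 2) (nat_lit 4) (nat_lit 337) (nat_lit 262) (nat_lit 181))) (XT.nd (nat_lit 78) (nat_lit 0) (nat_lit 0) (XT.lf (nat_lit 0) (nat_lit 202359256065) (nat_lit 152) (nat_lit 65963683474) (nat_lit 0) (nat_lit 186190261239) (nat_lit 2) (nat_lit 5) (nat_lit 4) (nat_lit 4) (nat_lit 2) (nat_lit 4) (nat_lit 338) (nat_lit 262) (nat_lit 180)) (XT.lf (nat_lit 0) (nat_lit 227230735502) (nat_lit 152) (nat_lit 51781087092) (nat_lit 0) (nat_lit 211059561005) (nat_lit 2) (nat_lit 5) (nat_lit 4) (nat_lit 4) (nat_lit 2) (nat_lit 4) (nat_lit 339) (nat_lit 262) (nat_lit 179))))))) (XT.nd (nat_lit 1248) (nat_lit 0) (nat_lit 0) (XT.nd (nat_lit 624) (nat_lit 0) (nat_lit 0) (XT.nd (nat_lit 312) (nat_lit 0) (nat_lit 0) (XT.nd (nat_lit 156) (nat_lit 76) (nat_lit 0) (XT.nd (nat_lit 78) (nat_lit 0) (nat_lit 0) (XT.lf (nat_lit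 0) (nat_lit 254089356312) (nat_lit 152) (nat_lit 36468908472) (nat_lit 0) (nat_lit 237916163601) (nat_lit 2) (nat_lit 5) (nat_lit 4) (nat_lit 4) (nat_lit 2) (nat_lit 4) (nat_lit 340) (nat_lit 262) (nat_lit 178)) (XT.lf (nat_lit 0) (nat_lit 283094280693) (nat_lit 152) (nat_lit 19936408781) (nat_lit 0) (nat_lit 266919219266) (nat_lit 2) (nat_lit 5) (nat_lit 4) (nat_lit 4) (nat_lit 2) (nat_lit 4) (nat_lit 341) (nat_lit 262) (nat_lit 177))) (XT.nd (nat_lit 78) (nat_lit 76) (nat_lit 0) (XT.lf (nat_lit 0) (nat_lit 314417389679) (nat_lit 152) (nat_lit 2085617648) (nat_lit 0) (nat_lit 298240597958) (nat_lit 2) (nat_lit 5) (nat_lit 4) (nat_lit 4) (nat_lit 2) (nat_lit 4) (nat_lit 342) (nat_lit 262) (nat_lit 176)) (XT.lf (nat_lit 0) (nat_lit 18094402697) (nat_lit 76) (nat_lit 330585069815) (nat_lit 76) (nat_lit 314406675971) (nat_lit 1) (nat_lit 4) (nat_lit 2) (nat_lit 5) (nat_lit 2) (nat_lit 4)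 (nat_lit 343) (nat_lit 262) (nat_lit 175)))) (XT.nd (nat_lit 156) (nat_lit 0) (nat_lit 0) (XT.nd (nat_lit 78) (nat_lit 0) (nat_lit 0) (XT.lf (nat_lit 0) (nat_lit 40003547209) (nat_lit 76) (nat_lit 345734011573) (nat_lit 76) (nat_lit 329554134281) (nat_lit 1) (nat_lit 4) (nat_lit 2) (nat_lit 5) (nat_lit 2) (nat_lit 4) (nat_lit 344) (nat_lit 262) (nat_lit 174)) (XT.lf (nat_lit 0) (nat_lit 63661822923) (nat_lit 76) (nat_lit 362096628590) (nat_lit 76) (nat_lit 345915377737) (nat_lit 1) (nat_lit 4) (nat_lit 2) (nat_lit 5) (nat_lit 2) (nat_lit 4) (nat_lit 345) (nat_lit 262) (nat_lit 173))) (XT.nd (nat_lit 78) (nat_lit 0) (nat_lit 0) (XT.lf (nat_lit 0) (nat_lit 89209427030) (nat_lit 76) (nat_lit 379769884524) (nat_lit 76) (nat_lit 363587361853) (nat_lit 1) (nat_lit 4) (nat_lit 2) (nat_lit 5) (nat_lit 2) (nat_lit 4) (nat_lit 346) (nat_lit 262) (nat_lit 172)) (XT.lf (nat_lit 0) (nat_lit 116797752739)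 (nat_lit 76) (nat_lit 398858509778) (nat_lit 76) (nat_lit 382674809499) (nat_lit 1) (nat_lit 4) (nat_lit 2) (nat_lit 5) (nat_lit 2) (nat_lit 4) (nat_lit 347) (nat_lit 262) (nat_lit 171))))) (XT.nd (nat_lit 312) (nat_lit 0) (nat_lit 0) (XT.nd (nat_lit 156) (nat_lit 0) (nat_lit 0) (XT.nd (nat_lit 78) (nat_lit 0) (nat_lit 0) (XT.lf (nat_lit 0) (nat_lit 146590286424) (nat_lit 76) (nat_lit 419475622134) (nat_lit 76) (nat_lit 403290831477) (nat_lit 1) (nat_lit 4) (nat_lit 2) (nat_lit 5) (nat_lit 2) (nat_lit 4) (nat_lit 348) (nat_lit 262) (nat_lit 170)) (XT.lf (nat_lit 0) (nat_lit 178763576434) (nat_lit 76) (nat_lit 441743397071) (nat_lit 76) (nat_lit 425557596804) (nat_lit 1) (nat_lit 4) (nat_lit 2) (nat_lit 5) (nat_lit 2) (nat_lit 4) (nat_lit 349) (nat_lit 262) (nat_lit 169))) (XT.nd (nat_lit 78) (nat_lit 0) (nat_lit 0) (XT.lf (nat_lit 0) (nat_lit 213508279302) (nat_lit 76) (nat_lit 465793791774)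 (nat_lit 76) (nat_lit 449607056684) (nat_lit 1) (nat_lit 4) (nat_lit 2) (nat_lit 5) (nat_lit 2) (nat_lit 4) (nat_lit 350) (nat_lit 262) (nat_lit 168)) (XT.lf (nat_lit 0) (nat_lit 251030289563) (nat_lit 76) (nat_lit 491769327101) (nat_lit 76) (nat_lit 475581726434) (nat_lit 1) (nat_lit 4) (nat_lit 2) (nat_lit 5) (nat_lit 2) (nat_lit 4) (nat_lit 351) (nat_lit 262) (nat_lit 167)))) (XT.nd (nat_lit 156) (nat_lit 0) (nat_lit 0) (XT.nd (nat_lit 78) (nat_lit 0) (nat_lit 0) (XT.lf (nat_lit 0) (nat_lit 291551959871) (nat_lit 76) (nat_lit 519823932150) (nat_lit 76) (nat_lit 503635530022) (nat_lit 1) (nat_lit 4) (nat_lit 2) (nat_lit 5) (nat_lit 2) (nat_lit 4) (nat_lit 352) (nat_lit 262) (nat_lit 166)) (XT.lf (nat_lit 0) (nat_lit 335313418643) (nat_lit 76) (nat_lit 550123856432) (nat_lit 76) (nat_lit 533934712211) (nat_lit 1) (nat_lit 4) (nat_lit 2) (nat_lit 5) (nat_lit 2) (nat_lit 4) (nat_lit 353)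 (nat_lit 262) (nat_lit 165))) (XT.nd (nat_lit 78) (nat_lit 0) (nat_lit 0) (XT.lf (nat_lit 0) (nat_lit 382573993041) (nat_lit 76) (nat_lit 582848655054) (nat_lit 76) (nat_lit 566658823710) (nat_lit 1) (nat_lit 4) (nat_lit 2) (nat_lit 5) (nat_lit 2) (nat_lit 4) (nat_lit 354) (nat_lit 262) (nat_lit 164)) (XT.lf (nat_lit 0) (nat_lit 433613745728) (nat_lit 76) (nat_lit 618192252749) (nat_lit 76) (nat_lit 602001785180) (nat_lit 1) (nat_lit 4) (nat_lit 2) (nat_lit 5) (nat_lit 2) (nat_lit 4) (nat_lit 355) (nat_lit 262) (nat_lit 163)))))) (XT.nd (nat_lit 624) (nat_lit 0) (nat_lit 0) (XT.nd (nat_lit 312) (nat_lit 0) (nat_lit 0) (XT.nd (nat_lit 156) (nat_lit 0) (nat_lit 0) (XT.nd (nat_lit 78) (nat_lit 0) (nat_lit 0) (XT.lf (nat_lit 0) (nat_lit 488735134499) (nat_lit 76) (nat_lit 656364093059) (nat_lit 76) (nat_lit 640173036392) (nat_lit 1) (nat_lit 4) (nat_lit 2) (nat_lit 5) (nat_lit 2) (nat_lit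 4) (nat_lit 356) (nat_lit 262) (nat_lit 162)) (XT.lf (nat_lit 0) (nat_lit 548264804620) (nat_lit 76) (nat_lit 697590379481) (nat_lit 76) (nat_lit 681398777354) (nat_lit 1) (nat_lit 4) (nat_lit 2) (nat_lit 5) (nat_lit 2) (nat_lit 4) (nat_lit 357) (nat_lit 262) (nat_lit 161))) (XT.nd (nat_lit 78) (nat_lit 0) (nat_lit 0) (XT.lf (nat_lit 0) (nat_lit 612555524506) (nat_lit 76) (nat_lit 742115415936) (nat_lit 76) (nat_lit 725923308752) (nat_lit 1) (nat_lit 4) (nat_lit 2) (nat_lit 5) (nat_lit 2) (nat_lit 4) (nat_lit 358) (nat_lit 262) (nat_lit 160)) (XT.lf (nat_lit 0) (nat_lit 681988276202) (nat_lit 76) (nat_lit 790203054491) (nat_lit 76) (nat_lit 774010479663) (nat_lit 1) (nat_lit 4) (nat_lit 2) (nat_lit 5) (nat_lit 2) (nat_lit 4) (nat_lit 359) (nat_lit 262) (nat_lit 159)))) (XT.nd (nat_lit 156) (nat_lit 0) (nat_lit 0) (XT.nd (nat_lit 78) (nat_lit 0) (nat_lit 0) (XT.lf (nat_lit 0) (nat_lit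 756974513051) (nat_lit 76) (nat_lit 842138258930) (nat_lit 76) (nat_lit 825945251098) (nat_lit 1) (nat_lit 4) (nat_lit 2) (nat_lit 5) (nat_lit 2) (nat_lit 4) (nat_lit 360) (nat_lit 262) (nat_lit 158)) (XT.lf (nat_lit 0) (nat_lit 837958597937) (nat_lit 76) (nat_lit 898228793428) (nat_lit 76) (nat_lit 882035384666) (nat_lit 1) (nat_lit 4) (nat_lit 2) (nat_lit 5) (nat_lit 2) (nat_lit 4) (nat_lit 361) (nat_lit 262) (nat_lit 157))) (XT.nd (nat_lit 78) (nat_lit 0) (nat_lit 0) (XT.lf (nat_lit 0) (nat_lit 925420436549) (nat_lit 76) (nat_lit 958807046337) (nat_lit 76) (nat_lit 942613266344) (nat_lit 1) (nat_lit 4) (nat_lit 2) (nat_lit 5) (nat_lit 2) (nat_lit 4) (nat_lit 362) (nat_lit 262) (nat_lit 156)) (XT.lf (nat_lit 0) (nat_lit 1019878321265) (nat_lit 76) (nat_lit 1024231999897) (nat_lit 76) (nat_lit 1008037876171) (nat_lit 1) (nat_lit 4) (nat_lit 2) (nat_lit 5) (nat_lit 2) (nat_lit 4) (nat_lit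 363) (nat_lit 262) (nat_lit 155))))) (XT.nd (nat_lit 312) (nat_lit 0) (nat_lit 0) (XT.nd (nat_lit 156) (nat_lit 0) (nat_lit 0) (XT.nd (nat_lit 78) (nat_lit 0) (nat_lit 0) (XT.lf (nat_lit 0) (nat_lit 1121892002511) (nat_lit 76) (nat_lit 1094891357536) (nat_lit 76) (nat_lit 1078696915539) (nat_lit 1) (nat_lit 4) (nat_lit 2) (nat_lit 5) (nat_lit 2) (nat_lit 4) (nat_lit 364) (nat_lit 262) (nat_lit 154)) (XT.lf (nat_lit 0) (nat_lit 1232066005807) (nat_lit 76) (nat_lit 1171203841373) (nat_lit 76) (nat_lit 1155009104681) (nat_lit 1) (nat_lit 4) (nat_lit 2) (nat_lit 5) (nat_lit 2) (nat_lit 4) (nat_lit 365) (nat_lit 262) (nat_lit 153))) (XT.nd (nat_lit 78) (nat_lit 0) (nat_lit 0) (XT.lf (nat_lit 0) (nat_lit 1351053214134) (nat_lit 76) (nat_lit 1253621673536) (nat_lit 76) (nat_lit 1237426663977) (nat_lit 1) (nat_lit 4) (nat_lit 2) (nat_lit 5) (nat_lit 2) (nat_lit 4) (nat_lit 366) (nat_lit 262)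 (nat_lit 152)) (XT.lf (nat_lit 0) (nat_lit 1479558736876) (nat_lit 76) (nat_lit 1342633255992) (nat_lit 76) (nat_lit 1326437993779) (nat_lit 1) (nat_lit 4) (nat_lit 2) (nat_lit 5) (nat_lit 2) (nat_lit 4) (nat_lit 367) (nat_lit 262) (nat_lit 151)))) (XT.nd (nat_lit 156) (nat_lit 0) (nat_lit 0) (XT.nd (nat_lit 78) (nat_lit 0) (nat_lit 0) (XT.lf (nat_lit 0) (nat_lit 1618344088242) (nat_lit 76) (nat_lit 1438766064785) (nat_lit 76) (nat_lit 1422570568634) (nat_lit 1) (nat_lit 4) (nat_lit 2) (nat_lit 5) (nat_lit 2) (nat_lit 4) (nat_lit 368) (nat_lit 262) (nat_lit 150)) (XT.lf (nat_lit 0) (nat_lit 1768231699943) (nat_lit 76) (nat_lit 1542589775820) (nat_lit 76) (nat_lit 1526394063059) (nat_lit 1) (nat_lit 4) (nat_lit 2) (nat_lit 5) (nat_lit 2) (nat_lit 4) (nat_lit 369) (nat_lit 262) (nat_lit 149))) (XT.nd (nat_lit 32292) (nat_lit 0) (nat_lit 4636) (XT.lf (nat_lit 0) (nat_lit 1930109794863)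 (nat_lit 76) (nat_lit 1654719640718) (nat_lit 76) (nat_lit 1638523727392) (nat_lit 1) (nat_lit 4) (nat_lit 2) (nat_lit 5) (nat_lit 2) (nat_lit 4) (nat_lit 370) (nat_lit 262) (nat_lit 148)) (XT.lf (nat_lit 0) (nat_lit 568129478) (nat_lit 0) (nat_lit 568129478) (nat_lit 228) (nat_lit 2215832860) (nat_lit 62) (nat_lit 5) (nat_lit 62) (nat_lit 3) (nat_lit 65) (nat_lit 3) (nat_lit 263) (nat_lit 263) (nat_lit 254))))))))
noncomputable def xc55 : XT := (XT.nd (nat_lit 2496) (nat_lit 988) (nat_lit 0) (XT.nd (nat_lit 1248) (nat_lit 1292) (nat_lit 0) (XT.nd (nat_lit 624) (nat_lit 1292) (nat_lit 0) (XT.nd (nat_lit 312) (nat_lit 684) (nat_lit 0) (XT.nd (nat_lit 156) (nat_lit 304) (nat_lit 0) (XT.nd (nat_lit 78) (nat_lit 0) (nat_lit 0) (XT.lf (nat_lit 0) (nat_lit 4386600730) (nat_lit 228) (nat_lit 2390214926) (nat_lit 304) (nat_lit 25475000) (nat_lit 62) (nat_lit 5) (nat_lit 65) (nat_lit 3) (nat_lit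 66) (nat_lit 5) (nat_lit 264) (nat_lit 263) (nat_lit 253)) (XT.lf (nat_lit 76) (nat_lit 938529613) (nat_lit 0) (nat_lit 5583447712) (nat_lit 304) (nat_lit 398916515) (nat_lit 63) (nat_lit 5) (nat_lit 62) (nat_lit 5) (nat_lit 66) (nat_lit 5) (nat_lit 265) (nat_lit 263) (nat_lit 252))) (XT.nd (nat_lit 78) (nat_lit 0) (nat_lit 0) (XT.lf (nat_lit 0) (nat_lit 1563706199) (nat_lit 304) (nat_lit 2547196483) (nat_lit 380) (nat_lit 2945482451) (nat_lit 58) (nat_lit 5) (nat_lit 62) (nat_lit 5) (nat_lit 63) (nat_lit 5) (nat_lit 266) (nat_lit 263) (nat_lit 251)) (XT.lf (nat_lit 76) (nat_lit 1087900384) (nat_lit 0) (nat_lit 2420846797) (nat_lit 380) (nat_lit 3706034520) (nat_lit 59) (nat_lit 5) (nat_lit 58) (nat_lit 5) (nat_lit 63) (nat_lit 5) (nat_lit 267) (nat_lit 263) (nat_lit 250)))) (XT.nd (nat_lit 156) (nat_lit 380) (nat_lit 0) (XT.nd (nat_lit 78) (nat_lit 304) (nat_lit 0) (XT.lf (nat_lit 76)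 (nat_lit 5042733552) (nat_lit 0) (nat_lit 467585192) (nat_lit 380) (nat_lit 1884060503) (nat_lit 59) (nat_lit 5) (nat_lit 58) (nat_lit 5) (nat_lit 63) (nat_lit 5) (nat_lit 268) (nat_lit 263) (nat_lit 249)) (XT.lf (nat_lit 0) (nat_lit 1035203) (nat_lit 380) (nat_lit 5948076038) (nat_lit 76) (nat_lit 1645865774) (nat_lit 54) (nat_lit 5) (nat_lit 59) (nat_lit 5) (nat_lit 55) (nat_lit 5) (nat_lit 269) (nat_lit 263) (nat_lit 248))) (XT.nd (nat_lit 78) (nat_lit 380) (nat_lit 0) (XT.lf (nat_lit 0) (nat_lit 1862559707) (nat_lit 380) (nat_lit 1897072849) (nat_lit 76) (nat_lit 4054361398) (nat_lit 54) (nat_lit 5) (nat_lit 59) (nat_lit 5) (nat_lit 55) (nat_lit 5) (nat_lit 270) (nat_lit 263) (nat_lit 247)) (XT.lf (nat_lit 0) (nat_lit 2484797380) (nat_lit 380) (nat_lit 1308427515) (nat_lit 456) (nat_lit 4264133400) (nat_lit 49) (nat_lit 5) (nat_lit 54) (nat_lit 5) (nat_lit 55) (nat_lit 5) (nat_lit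 271) (nat_lit 263) (nat_lit 246))))) (XT.nd (nat_lit 312) (nat_lit 532) (nat_lit 0) (XT.nd (nat_lit 156) (nat_lit 304) (nat_lit 0) (XT.nd (nat_lit 78) (nat_lit 456) (nat_lit 0) (XT.lf (nat_lit 0) (nat_lit 5832219817) (nat_lit 456) (nat_lit 1150408221) (nat_lit 76) (nat_lit 1341664313) (nat_lit 49) (nat_lit 5) (nat_lit 55) (nat_lit 5) (nat_lit 50) (nat_lit 5) (nat_lit 272) (nat_lit 263) (nat_lit 245)) (XT.lf (nat_lit 0) (nat_lit 3657918977) (nat_lit 456) (nat_lit 4376577208) (nat_lit 532) (nat_lit 578452266) (nat_lit 43) (nat_lit 5) (nat_lit 49) (nat_lit 5) (nat_lit 50) (nat_lit 5) (nat_lit 273) (nat_lit 263) (nat_lit 244))) (XT.nd (nat_lit 78) (nat_lit 228) (nat_lit 0) (XT.lf (nat_lit 0) (nat_lit 1327237934) (nat_lit 532) (nat_lit 162681971) (nat_lit 76) (nat_lit 7439165424) (nat_lit 42) (nat_lit 5) (nat_lit 49) (nat_lit 5) (nat_lit 43) (nat_lit 5) (nat_lit 274) (nat_lit 263) (nat_lit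 243)) (XT.lf (nat_lit 0) (nat_lit 3410525125) (nat_lit 304) (nat_lit 4167206318) (nat_lit 76) (nat_lit 1687370147) (nat_lit 39) (nat_lit 5) (nat_lit 43) (nat_lit 5) (nat_lit 40) (nat_lit 5) (nat_lit 275) (nat_lit 263) (nat_lit 242)))) (XT.nd (nat_lit 156) (nat_lit 304) (nat_lit 0) (XT.nd (nat_lit 78) (nat_lit 0) (nat_lit 0) (XT.lf (nat_lit 0) (nat_lit 1057989899) (nat_lit 228) (nat_lit 4566598895) (nat_lit 304) (nat_lit 4006560785) (nat_lit 36) (nat_lit 5) (nat_lit 39) (nat_lit 5) (nat_lit 40) (nat_lit 5) (nat_lit 276) (nat_lit 263) (nat_lit 241)) (XT.lf (nat_lit 0) (nat_lit 6824110217) (nat_lit 228) (nat_lit 1206016170) (nat_lit 304) (nat_lit 1995465918) (nat_lit 36) (nat_lit 5) (nat_lit 39) (nat_lit 5) (nat_lit 40) (nat_lit 5) (nat_lit 277) (nat_lit 263) (nat_lit 240))) (XT.nd (nat_lit 78) (nat_lit 0) (nat_lit 0) (XT.lf (nat_lit 0) (nat_lit 195400192) (nat_lit 304) (nat_lit 7897987123)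 (nat_lit 76) (nat_lit 2355868301) (nat_lit 32) (nat_lit 5) (nat_lit 36) (nat_lit 5) (nat_lit 33) (nat_lit 5) (nat_lit 278) (nat_lit 263) (nat_lit 239)) (XT.lf (nat_lit 0) (nat_lit 2484028117) (nat_lit 304) (nat_lit 2153985176) (nat_lit 76) (nat_lit 6262433761) (nat_lit 32) (nat_lit 5) (nat_lit 36) (nat_lit 5) (nat_lit 33) (nat_lit 5) (nat_lit 279) (nat_lit 263) (nat_lit 238)))))) (XT.nd (nat_lit 624) (nat_lit 532) (nat_lit 0) (XT.nd (nat_lit 312) (nat_lit 228) (nat_lit 0) (XT.nd (nat_lit 156) (nat_lit 380) (nat_lit 0) (XT.nd (nat_lit 78) (nat_lit 0) (nat_lit 0) (XT.lf (nat_lit 0) (nat_lit 4150634031) (nat_lit 152) (nat_lit 820830102) (nat_lit 228) (nat_lit 6415202474) (nat_lit 30) (nat_lit 5) (nat_lit 32) (nat_lit 5) (nat_lit 33) (nat_lit 5) (nat_lit 280) (nat_lit 263) (nat_lit 237)) (XT.lf (nat_lit 0) (nat_lit 7716788527) (nat_lit 228) (nat_lit 1015765671) (nat_lit 76) (nat_lit 3174694185)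 (nat_lit 30) (nat_lit 5) (nat_lit 33) (nat_lit 5) (nat_lit 31) (nat_lit 5) (nat_lit 281) (nat_lit 263) (nat_lit 236))) (XT.nd (nat_lit 78) (nat_lit 228) (nat_lit 0) (XT.lf (nat_lit 0) (nat_lit 5872846122) (nat_lit 152) (nat_lit 4896513789) (nat_lit 228) (nat_lit 1693270197) (nat_lit 28) (nat_lit 5) (nat_lit 30) (nat_lit 5) (nat_lit 31) (nat_lit 5) (nat_lit 282) (nat_lit 263) (nat_lit 235)) (XT.lf (nat_lit 0) (nat_lit 191630539) (nat_lit 152) (nat_lit 721175407) (nat_lit 228) (nat_lit 12151099524) (nat_lit 25) (nat_lit 5) (nat_lit 27) (nat_lit 5) (nat_lit 28) (nat_lit 5) (nat_lit 283) (nat_lit 263) (nat_lit 234)))) (XT.nd (nat_lit 156) (nat_lit 76) (nat_lit 0) (XT.nd (nat_lit 78) (nat_lit 152) (nat_lit 0) (XT.lf (nat_lit 0) (nat_lit 3840396056) (nat_lit 228) (nat_lit 6053958148) (nat_lit 76) (nat_lit 3799178964) (nat_lit 25) (nat_lit 5) (nat_lit 28) (nat_lit 5) (nat_lit 26) (nat_lit 5)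 (nat_lit 284) (nat_lit 263) (nat_lit 233)) (XT.lf (nat_lit 0) (nat_lit 1256105925) (nat_lit 152) (nat_lit 5728867643) (nat_lit 228) (nat_lit 7390054975) (nat_lit 23) (nat_lit 5) (nat_lit 25) (nat_lit 5) (nat_lit 26) (nat_lit 5) (nat_lit 285) (nat_lit 263) (nat_lit 232))) (XT.nd (nat_lit 78) (nat_lit 76) (nat_lit 0) (XT.lf (nat_lit 0) (nat_lit 9399923860) (nat_lit 152) (nat_lit 1083166113) (nat_lit 228) (nat_lit 4619906756) (nat_lit 23) (nat_lit 5) (nat_lit 25) (nat_lit 5) (nat_lit 26) (nat_lit 5) (nat_lit 286) (nat_lit 263) (nat_lit 231)) (XT.lf (nat_lit 0) (nat_lit 2230627392) (nat_lit 76) (nat_lit 12119138777) (nat_lit 152) (nat_lit 1532442137) (nat_lit 22) (nat_lit 5) (nat_lit 23) (nat_lit 5) (nat_lit 24) (nat_lit 4) (nat_lit 287) (nat_lit 263) (nat_lit 230))))) (XT.nd (nat_lit 312) (nat_lit 228) (nat_lit 0) (XT.nd (nat_lit 156) (nat_lit 76) (nat_lit 0) (XT.nd (nat_lit 78) (nat_lit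 152) (nat_lit 0) (XT.lf (nat_lit 0) (nat_lit 1841105099) (nat_lit 152) (nat_lit 5756677945) (nat_lit 76) (nat_lit 9112256407) (nat_lit 21) (nat_lit 5) (nat_lit 23) (nat_lit 5) (nat_lit 22) (nat_lit 5) (nat_lit 288) (nat_lit 263) (nat_lit 229)) (XT.lf (nat_lit 0) (nat_lit 2782896428) (nat_lit 152) (nat_lit 2631251993) (nat_lit 228) (nat_lit 12185853638) (nat_lit 19) (nat_lit 5) (nat_lit 21) (nat_lit 5) (nat_lit 22) (nat_lit 5) (nat_lit 289) (nat_lit 263) (nat_lit 228))) (XT.nd (nat_lit 78) (nat_lit 76) (nat_lit 0) (XT.lf (nat_lit 0) (nat_lit 9446970059) (nat_lit 228) (nat_lit 6373011972) (nat_lit 76) (nat_lit 2727340399) (nat_lit 19) (nat_lit 5) (nat_lit 22) (nat_lit 5) (nat_lit 20) (nat_lit 4) (nat_lit 290) (nat_lit 263) (nat_lit 227)) (XT.lf (nat_lit 0) (nat_lit 2733858011) (nat_lit 76) (nat_lit 11153328610) (nat_lit 152) (nat_lit 5676530223) (nat_lit 18) (nat_lit 5) (nat_lit 19) (nat_lit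 5) (nat_lit 20) (nat_lit 4) (nat_lit 291) (nat_lit 263) (nat_lit 226)))) (XT.nd (nat_lit 156) (nat_lit 0) (nat_lit 0) (XT.nd (nat_lit 78) (nat_lit 228) (nat_lit 0) (XT.lf (nat_lit 0) (nat_lit 12852605647) (nat_lit 76) (nat_lit 5956690977) (nat_lit 152) (nat_lit 1842056861) (nat_lit 18) (nat_lit 5) (nat_lit 19) (nat_lit 5) (nat_lit 20) (nat_lit 4) (nat_lit 292) (nat_lit 263) (nat_lit 225)) (XT.lf (nat_lit 0) (nat_lit 1919909419) (nat_lit 152) (nat_lit 265174321) (nat_lit 228) (nat_lit 19636475356) (nat_lit 15) (nat_lit 5) (nat_lit 17) (nat_lit 5) (nat_lit 18) (nat_lit 5) (nat_lit 293) (nat_lit 263) (nat_lit 224))) (XT.nd (nat_lit 78) (nat_lit 0) (nat_lit 0) (XT.lf (nat_lit 0) (nat_lit 6750704156) (nat_lit 228) (nat_lit 10480174158) (nat_lit 76) (nat_lit 5825460407) (nat_lit 15) (nat_lit 5) (nat_lit 18) (nat_lit 5) (nat_lit 16) (nat_lit 4) (nat_lit 294) (nat_lit 263) (nat_lit 223)) (XT.lf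 (nat_lit 0) (nat_lit 11647353755) (nat_lit 228) (nat_lit 382788812) (nat_lit 76) (nat_lit 12362543389) (nat_lit 15) (nat_lit 5) (nat_lit 18) (nat_lit 5) (nat_lit 16) (nat_lit 4) (nat_lit 295) (nat_lit 263) (nat_lit 222))))))) (XT.nd (nat_lit 1248) (nat_lit 380) (nat_lit 0) (XT.nd (nat_lit 624) (nat_lit 228) (nat_lit 0) (XT.nd (nat_lit 312) (nat_lit 152) (nat_lit 0) (XT.nd (nat_lit 156) (nat_lit 152) (nat_lit 0) (XT.nd (nat_lit 78) (nat_lit 0) (nat_lit 0) (XT.lf (nat_lit 0) (nat_lit 11007352518) (nat_lit 76) (nat_lit 6155046847) (nat_lit 152) (nat_lit 8655452561) (nat_lit 14) (nat_lit 5) (nat_lit 15) (nat_lit 5) (nat_lit 16) (nat_lit 4) (nat_lit 296) (nat_lit 263) (nat_lit 221)) (XT.lf (nat_lit 0) (nat_lit 23096519894) (nat_lit 152) (nat_lit 4096895392) (nat_lit 0) (nat_lit 165426999) (nat_lit 14) (nat_lit 5) (nat_lit 16) (nat_lit 4) (nat_lit 14) (nat_lit 4) (nat_lit 297) (nat_lit 263)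 (nat_lit 220))) (XT.nd (nat_lit 78) (nat_lit 0) (nat_lit 0) (XT.lf (nat_lit 0) (nat_lit 774933617) (nat_lit 152) (nat_lit 21383653264) (nat_lit 76) (nat_lit 6838288120) (nat_lit 12) (nat_lit 5) (nat_lit 14) (nat_lit 5) (nat_lit 13) (nat_lit 4) (nat_lit 298) (nat_lit 263) (nat_lit 219)) (XT.lf (nat_lit 0) (nat_lit 6065379136) (nat_lit 152) (nat_lit 10439176858) (nat_lit 76) (nat_lit 14246131155) (nat_lit 12) (nat_lit 5) (nat_lit 14) (nat_lit 5) (nat_lit 13) (nat_lit 4) (nat_lit 299) (nat_lit 263) (nat_lit 218)))) (XT.nd (nat_lit 156) (nat_lit 76) (nat_lit 0) (XT.nd (nat_lit 78) (nat_lit 0) (nat_lit 0) (XT.lf (nat_lit 0) (nat_lit 1393422526) (nat_lit 76) (nat_lit 10387260032) (nat_lit 152) (nat_lit 20864021929) (nat_lit 11) (nat_lit 5) (nat_lit 12) (nat_lit 5) (nat_lit 13) (nat_lit 4) (nat_lit 300) (nat_lit 263) (nat_lit 217)) (XT.lf (nat_lit 0) (nat_lit 14710621904) (nat_lit 76) (nat_lit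 3497147131) (nat_lit 152) (nat_lit 16462137251) (nat_lit 11) (nat_lit 5) (nat_lit 12) (nat_lit 5) (nat_lit 13) (nat_lit 4) (nat_lit 301) (nat_lit 263) (nat_lit 216))) (XT.nd (nat_lit 78) (nat_lit 76) (nat_lit 0) (XT.lf (nat_lit 0) (nat_lit 25214746699) (nat_lit 152) (nat_lit 7912111572) (nat_lit 0) (nat_lit 3725033736) (nat_lit 11) (nat_lit 5) (nat_lit 13) (nat_lit 4) (nat_lit 11) (nat_lit 4) (nat_lit 302) (nat_lit 263) (nat_lit 215)) (XT.lf (nat_lit 0) (nat_lit 5219735458) (nat_lit 76) (nat_lit 27751941657) (nat_lit 76) (nat_lit 6221631721) (nat_lit 10) (nat_lit 4) (nat_lit 11) (nat_lit 5) (nat_lit 11) (nat_lit 4) (nat_lit 303) (nat_lit 263) (nat_lit 214))))) (XT.nd (nat_lit 312) (nat_lit 76) (nat_lit 0) (XT.nd (nat_lit 156) (nat_lit 76) (nat_lit 0) (XT.nd (nat_lit 78) (nat_lit 76) (nat_lit 0) (XT.lf (nat_lit 0) (nat_lit 19803972173) (nat_lit 76) (nat_lit 21735386441) (nat_lit 76) (nat_lit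 167486715) (nat_lit 10) (nat_lit 4) (nat_lit 11) (nat_lit 5) (nat_lit 11) (nat_lit 4) (nat_lit 304) (nat_lit 263) (nat_lit 213)) (XT.lf (nat_lit 0) (nat_lit 6027440630) (nat_lit 152) (nat_lit 9065628577) (nat_lit 76) (nat_lit 29318144367) (nat_lit 9) (nat_lit 5) (nat_lit 11) (nat_lit 5) (nat_lit 10) (nat_lit 4) (nat_lit 305) (nat_lit 263) (nat_lit 212))) (XT.nd (nat_lit 78) (nat_lit 0) (nat_lit 0) (XT.lf (nat_lit 0) (nat_lit 5001974276) (nat_lit 76) (nat_lit 7804230795) (nat_lit 152) (nat_lit 34517612362) (nat_lit 8) (nat_lit 5) (nat_lit 9) (nat_lit 5) (nat_lit 10) (nat_lit 4) (nat_lit 306) (nat_lit 263) (nat_lit 211)) (XT.lf (nat_lit 0) (nat_lit 20360450081) (nat_lit 152) (nat_lit 29789865612) (nat_lit 0) (nat_lit 300475765) (nat_lit 8) (nat_lit 5) (nat_lit 10) (nat_lit 4) (nat_lit 8) (nat_lit 4) (nat_lit 307) (nat_lit 263) (nat_lit 210)))) (XT.nd (nat_lit 156) (nat_lit 76) (nat_lit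 0) (XT.nd (nat_lit 78) (nat_lit 0) (nat_lit 0) (XT.lf (nat_lit 0) (nat_lit 28700670066) (nat_lit 152) (nat_lit 16497624744) (nat_lit 0) (nat_lit 8615112770) (nat_lit 8) (nat_lit 5) (nat_lit 10) (nat_lit 4) (nat_lit 8) (nat_lit 4) (nat_lit 308) (nat_lit 263) (nat_lit 209)) (XT.lf (nat_lit 0) (nat_lit 37688596614) (nat_lit 152) (nat_lit 2178659781) (nat_lit 0) (nat_lit 17579351375) (nat_lit 8) (nat_lit 5) (nat_lit 10) (nat_lit 4) (nat_lit 8) (nat_lit 4) (nat_lit 309) (nat_lit 263) (nat_lit 208))) (XT.nd (nat_lit 78) (nat_lit 0) (nat_lit 0) (XT.lf (nat_lit 0) (nat_lit 13949703046) (nat_lit 76) (nat_lit 33763279162) (nat_lit 76) (nat_lit 13632100641) (nat_lit 7) (nat_lit 4) (nat_lit 8) (nat_lit 5) (nat_lit 8) (nat_lit 4) (nat_lit 310) (nat_lit 263) (nat_lit 207)) (XT.lf (nat_lit 0) (nat_lit 31459156476) (nat_lit 76) (nat_lit 27122207432) (nat_lit 76) (nat_lit 6970720317) (nat_lit 7) (nat_lit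 4) (nat_lit 8) (nat_lit 5) (nat_lit 8) (nat_lit 4) (nat_lit 311) (nat_lit 263) (nat_lit 206)))))) (XT.nd (nat_lit 624) (nat_lit 152) (nat_lit 0) (XT.nd (nat_lit 312) (nat_lit 76) (nat_lit 0) (XT.nd (nat_lit 156) (nat_lit 76) (nat_lit 0) (XT.nd (nat_lit 78) (nat_lit 0) (nat_lit 0) (XT.lf (nat_lit 0) (nat_lit 195729473) (nat_lit 152) (nat_lit 19763174062) (nat_lit 76) (nat_lit 50137654804) (nat_lit 6) (nat_lit 5) (nat_lit 8) (nat_lit 5) (nat_lit 7) (nat_lit 4) (nat_lit 312) (nat_lit 263) (nat_lit 205)) (XT.lf (nat_lit 0) (nat_lit 7543472090) (nat_lit 152) (nat_lit 4497280765) (nat_lit 76) (nat_lit 62950596228) (nat_lit 6) (nat_lit 5) (nat_lit 8) (nat_lit 5) (nat_lit 7) (nat_lit 4) (nat_lit 313) (nat_lit 263) (nat_lit 204))) (XT.nd (nat_lit 78) (nat_lit 0) (nat_lit 0) (XT.lf (nat_lit 0) (nat_lit 12592805834) (nat_lit 76) (nat_lit 3174804821) (nat_lit 152) (nat_lit 64487035064) (nat_lit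 5) (nat_lit 5) (nat_lit 6) (nat_lit 5) (nat_lit 7) (nat_lit 4) (nat_lit 314) (nat_lit 263) (nat_lit 203)) (XT.lf (nat_lit 0) (nat_lit 24915611538) (nat_lit 152) (nat_lit 54807583059) (nat_lit 0) (nat_lit 6194545099) (nat_lit 5) (nat_lit 5) (nat_lit 7) (nat_lit 4) (nat_lit 5) (nat_lit 4) (nat_lit 315) (nat_lit 263) (nat_lit 202)))) (XT.nd (nat_lit 156) (nat_lit 76) (nat_lit 0) (XT.nd (nat_lit 78) (nat_lit 0) (nat_lit 0) (XT.lf (nat_lit 0) (nat_lit 34864807094) (nat_lit 152) (nat_lit 41032590439) (nat_lit 0) (nat_lit 16130942796) (nat_lit 5) (nat_lit 5) (nat_lit 7) (nat_lit 4) (nat_lit 5) (nat_lit 4) (nat_lit 316) (nat_lit 263) (nat_lit 201)) (XT.lf (nat_lit 0) (nat_lit 45597801389) (nat_lit 152) (nat_lit 26178878308) (nat_lit 0) (nat_lit 26852087221) (nat_lit 5) (nat_lit 5) (nat_lit 7) (nat_lit 4) (nat_lit 5) (nat_lit 4) (nat_lit 317) (nat_lit 263) (nat_lit 200))) (XT.nd (nat_lit 78)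 (nat_lit 76) (nat_lit 0) (XT.lf (nat_lit 0) (nat_lit 57178197350) (nat_lit 152) (nat_lit 10158424668) (nat_lit 0) (nat_lit 38421511081) (nat_lit 5) (nat_lit 5) (nat_lit 7) (nat_lit 4) (nat_lit 5) (nat_lit 4) (nat_lit 318) (nat_lit 263) (nat_lit 199)) (XT.lf (nat_lit 0) (nat_lit 7498828262) (nat_lit 76) (nat_lit 62356138285) (nat_lit 76) (nat_lit 43589292663) (nat_lit 4) (nat_lit 4) (nat_lit 5) (nat_lit 5) (nat_lit 5) (nat_lit 4) (nat_lit 319) (nat_lit 263) (nat_lit 198))))) (XT.nd (nat_lit 312) (nat_lit 152) (nat_lit 0) (XT.nd (nat_lit 156) (nat_lit 0) (nat_lit 0) (XT.nd (nat_lit 78) (nat_lit 0) (nat_lit 0) (XT.lf (nat_lit 0) (nat_lit 27126926563) (nat_lit 76) (nat_lit 56686597525) (nat_lit 76) (nat_lit 37910345094) (nat_lit 4) (nat_lit 4) (nat_lit 5) (nat_lit 5) (nat_lit 5) (nat_lit 4) (nat_lit 320) (nat_lit 263) (nat_lit 197)) (XT.lf (nat_lit 0) (nat_lit 48307260251) (nat_lit 76) (nat_lit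 50572151792) (nat_lit 76) (nat_lit 31787189354) (nat_lit 4) (nat_lit 4) (nat_lit 5) (nat_lit 5) (nat_lit 5) (nat_lit 4) (nat_lit 321) (nat_lit 263) (nat_lit 196))) (XT.nd (nat_lit 78) (nat_lit 0) (nat_lit 0) (XT.lf (nat_lit 0) (nat_lit 71165342415) (nat_lit 76) (nat_lit 43976567334) (nat_lit 76) (nat_lit 25183540074) (nat_lit 4) (nat_lit 4) (nat_lit 5) (nat_lit 5) (nat_lit 5) (nat_lit 4) (nat_lit 322) (nat_lit 263) (nat_lit 195)) (XT.lf (nat_lit 0) (nat_lit 95836628355) (nat_lit 76) (nat_lit 36860759206) (nat_lit 76) (nat_lit 18060264518) (nat_lit 4) (nat_lit 4) (nat_lit 5) (nat_lit 5) (nat_lit 5) (nat_lit 4) (nat_lit 323) (nat_lit 263) (nat_lit 194)))) (XT.nd (nat_lit 156) (nat_lit 152) (nat_lit 0) (XT.nd (nat_lit 78) (nat_lit 0) (nat_lit 0) (XT.lf (nat_lit 0) (nat_lit 122467318285) (nat_lit 76) (nat_lit 29182559657) (nat_lit 76) (nat_lit 10375150684) (nat_lit 4) (nat_lit 4) (nat_lit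 5) (nat_lit 5) (nat_lit 5) (nat_lit 4) (nat_lit 324) (nat_lit 263) (nat_lit 193)) (XT.lf (nat_lit 0) (nat_lit 151215223701) (nat_lit 76) (nat_lit 20896468244) (nat_lit 76) (nat_lit 2082657155) (nat_lit 4) (nat_lit 4) (nat_lit 5) (nat_lit 5) (nat_lit 5) (nat_lit 4) (nat_lit 325) (nat_lit 263) (nat_lit 192))) (XT.nd (nat_lit 78) (nat_lit 76) (nat_lit 0) (XT.lf (nat_lit 0) (nat_lit 6522873796) (nat_lit 152) (nat_lit 5252161478) (nat_lit 76) (nat_lit 175549481836) (nat_lit 3) (nat_lit 5) (nat_lit 5) (nat_lit 5) (nat_lit 4) (nat_lit 4) (nat_lit 326) (nat_lit 263) (nat_lit 191)) (XT.lf (nat_lit 0) (nat_lit 14555307467) (nat_lit 76) (nat_lit 1493026774) (nat_lit 152) (nat_lit 185424919332) (nat_lit 2) (nat_lit 5) (nat_lit 3) (nat_lit 5) (nat_lit 4) (nat_lit 4) (nat_lit 327) (nat_lit 263) (nat_lit 190))))))))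
noncomputable def xc56 : XT := (XT.nd (nat_lit 2418) (nat_lit 0) (nat_lit 0) (XT.nd (nat_lit 1170) (nat_lit 76) (nat_lit 0) (XT.nd (nat_lit 546) (nat_lit 0) (nat_lit 0) (XT.nd (nat_lit 234) (nat_lit 0) (nat_lit 0) (XT.nd (nat_lit 78) (nat_lit 0) (nat_lit 0) (XT.lf (nat_lit 0) (nat_lit 26708314121) (nat_lit 152) (nat_lit 180742937053) (nat_lit 0) (nat_lit 9272841933) (nat_lit 2) (nat_lit 5) (nat_lit 4) (nat_lit 4) (nat_lit 2) (nat_lit 4) (nat_lit 328) (nat_lit 263) (nat_lit 189)) (XT.nd (nat_lit 78) (nat_lit 0) (nat_lit 0) (XT.lf (nat_lit 0) (nat_lit 38254308797) (nat_lit 152) (nat_lit 174123556814) (nat_lit 0) (nat_lit 20814479437) (nat_lit 2) (nat_lit 5) (nat_lit 4) (nat_lit 4) (nat_lit 2) (nat_lit 4) (nat_lit 329) (nat_lit 263) (nat_lit 188)) (XT.lf (nat_lit 0) (nat_lit 50718831650) (nat_lit 152) (nat_lit 166984672101) (nat_lit 0) (nat_lit 33274967871) (nat_lit 2) (nat_lit 5) (nat_lit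 4) (nat_lit 4) (nat_lit 2) (nat_lit 4) (nat_lit 330) (nat_lit 263) (nat_lit 187)))) (XT.nd (nat_lit 156) (nat_lit 0) (nat_lit 0) (XT.nd (nat_lit 78) (nat_lit 0) (nat_lit 0) (XT.lf (nat_lit 0) (nat_lit 64175746518) (nat_lit 152) (nat_lit 159283978413) (nat_lit 0) (nat_lit 46728147166) (nat_lit 2) (nat_lit 5) (nat_lit 4) (nat_lit 4) (nat_lit 2) (nat_lit 4) (nat_lit 331) (nat_lit 263) (nat_lit 186)) (XT.lf (nat_lit 0) (nat_lit 78704798083) (nat_lit 152) (nat_lit 150975842010) (nat_lit 0) (nat_lit 61253739867) (nat_lit 2) (nat_lit 5) (nat_lit 4) (nat_lit 4) (nat_lit 2) (nat_lit 4) (nat_lit 332) (nat_lit 263) (nat_lit 185))) (XT.nd (nat_lit 78) (nat_lit 0) (nat_lit 0) (XT.lf (nat_lit 0) (nat_lit 94392084428) (nat_lit 152) (nat_lit 142011029490) (nat_lit 0) (nat_lit 76937823560) (nat_lit 2) (nat_lit 5) (nat_lit 4) (nat_lit 4) (nat_lit 2) (nat_lit 4) (nat_lit 333) (nat_lit 263) (nat_lit 184))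 (XT.lf (nat_lit 0) (nat_lit 111330567249) (nat_lit 152) (nat_lit 132336416039) (nat_lit 0) (nat_lit 93873340963) (nat_lit 2) (nat_lit 5) (nat_lit 4) (nat_lit 4) (nat_lit 2) (nat_lit 4) (nat_lit 334) (nat_lit 263) (nat_lit 183))))) (XT.nd (nat_lit 312) (nat_lit 0) (nat_lit 0) (XT.nd (nat_lit 156) (nat_lit 0) (nat_lit 0) (XT.nd (nat_lit 78) (nat_lit 0) (nat_lit 0) (XT.lf (nat_lit 0) (nat_lit 129620622742) (nat_lit 152) (nat_lit 121894670613) (nat_lit 0) (nat_lit 112160650698) (nat_lit 2) (nat_lit 5) (nat_lit 4) (nat_lit 4) (nat_lit 2) (nat_lit 4) (nat_lit 335) (nat_lit 263) (nat_lit 182)) (XT.lf (nat_lit 0) (nat_lit 149370636420) (nat_lit 152) (nat_lit 110623916204) (nat_lit 0) (nat_lit 131908122008) (nat_lit 2) (nat_lit 5) (nat_lit 4) (nat_lit 4) (nat_lit 2) (nat_lit 4) (nat_lit 336) (nat_lit 263) (nat_lit 181))) (XT.nd (nat_lit 78) (nat_lit 0) (nat_lit 0) (XT.lf (nat_lit 0) (nat_lit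 170697645401) (nat_lit 152) (nat_lit 98457363155) (nat_lit 0) (nat_lit 153232776944) (nat_lit 2) (nat_lit 5) (nat_lit 4) (nat_lit 4) (nat_lit 2) (nat_lit 4) (nat_lit 337) (nat_lit 263) (nat_lit 180)) (XT.lf (nat_lit 0) (nat_lit 193728031960) (nat_lit 152) (nat_lit 85322913374) (nat_lit 0) (nat_lit 176260983833) (nat_lit 2) (nat_lit 5) (nat_lit 4) (nat_lit 4) (nat_lit 2) (nat_lit 4) (nat_lit 338) (nat_lit 263) (nat_lit 179)))) (XT.nd (nat_lit 156) (nat_lit 0) (nat_lit 0) (XT.nd (nat_lit 78) (nat_lit 0) (nat_lit 0) (XT.lf (nat_lit 0) (nat_lit 218598272464) (nat_lit 152) (nat_lit 71142733085) (nat_lit 0) (nat_lit 201129206122) (nat_lit 2) (nat_lit 5) (nat_lit 4) (nat_lit 4) (nat_lit 2) (nat_lit 4) (nat_lit 339) (nat_lit 263) (nat_lit 178)) (XT.lf (nat_lit 0) (nat_lit 245455746113) (nat_lit 152) (nat_lit 55832791589) (nat_lit 0) (nat_lit 227984811055) (nat_lit 2) (nat_lit 5) (nat_lit 4)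 (nat_lit 4) (nat_lit 2) (nat_lit 4) (nat_lit 340) (nat_lit 263) (nat_lit 177))) (XT.nd (nat_lit 78) (nat_lit 0) (nat_lit 0) (XT.lf (nat_lit 0) (nat_lit 274459608309) (nat_lit 152) (nat_lit 39302363308) (nat_lit 0) (nat_lit 256986942958) (nat_lit 2) (nat_lit 5) (nat_lit 4) (nat_lit 4) (nat_lit 2) (nat_lit 4) (nat_lit 341) (nat_lit 263) (nat_lit 176)) (XT.lf (nat_lit 0) (nat_lit 305781733789) (nat_lit 152) (nat_lit 21453490148) (nat_lit 0) (nat_lit 288307466315) (nat_lit 2) (nat_lit 5) (nat_lit 4) (nat_lit 4) (nat_lit 2) (nat_lit 4) (nat_lit 342) (nat_lit 263) (nat_lit 175)))))) (XT.nd (nat_lit 624) (nat_lit 0) (nat_lit 0) (XT.nd (nat_lit 312) (nat_lit 0) (nat_lit 0) (XT.nd (nat_lit 156) (nat_lit 0) (nat_lit 0) (XT.nd (nat_lit 78) (nat_lit 76) (nat_lit 0) (XT.lf (nat_lit 0) (nat_lit 339607735150) (nat_lit 152) (nat_lit 2180401008) (nat_lit 0) (nat_lit 322131984228) (nat_lit 2) (nat_lit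 5) (nat_lit 4) (nat_lit 4) (nat_lit 2) (nat_lit 4) (nat_lit 343) (nat_lit 263) (nat_lit 174)) (XT.lf (nat_lit 0) (nat_lit 19612196508) (nat_lit 76) (nat_lit 356997540059) (nat_lit 76) (nat_lit 339520415575) (nat_lit 1) (nat_lit 4) (nat_lit 2) (nat_lit 5) (nat_lit 2) (nat_lit 4) (nat_lit 344) (nat_lit 263) (nat_lit 173))) (XT.nd (nat_lit 78) (nat_lit 0) (nat_lit 0) (XT.lf (nat_lit 0) (nat_lit 43268869498) (nat_lit 76) (nat_lit 373360940517) (nat_lit 76) (nat_lit 355882544215) (nat_lit 1) (nat_lit 4) (nat_lit 2) (nat_lit 5) (nat_lit 2) (nat_lit 4) (nat_lit 345) (nat_lit 263) (nat_lit 172)) (XT.lf (nat_lit 0) (nat_lit 68814989602) (nat_lit 76) (nat_lit 391034921857) (nat_lit 76) (nat_lit 373555347947) (nat_lit 1) (nat_lit 4) (nat_lit 2) (nat_lit 5) (nat_lit 2) (nat_lit 4) (nat_lit 346) (nat_lit 263) (nat_lit 171)))) (XT.nd (nat_lit 156) (nat_lit 0) (nat_lit 0) (XT.nd (nat_lit 78) (nat_lit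 0) (nat_lit 0) (XT.lf (nat_lit 0) (nat_lit 96401941234) (nat_lit 76) (nat_lit 410124218785) (nat_lit 76) (nat_lit 392643554497) (nat_lit 1) (nat_lit 4) (nat_lit 2) (nat_lit 5) (nat_lit 2) (nat_lit 4) (nat_lit 347) (nat_lit 263) (nat_lit 170)) (XT.lf (nat_lit 0) (nat_lit 126193202626) (nat_lit 76) (nat_lit 430741953060) (nat_lit 76) (nat_lit 413260279163) (nat_lit 1) (nat_lit 4) (nat_lit 2) (nat_lit 5) (nat_lit 2) (nat_lit 4) (nat_lit 348) (nat_lit 263) (nat_lit 169))) (XT.nd (nat_lit 78) (nat_lit 0) (nat_lit 0) (XT.lf (nat_lit 0) (nat_lit 158365314587) (nat_lit 76) (nat_lit 453010303849) (nat_lit 76) (nat_lit 435527695128) (nat_lit 1) (nat_lit 4) (nat_lit 2) (nat_lit 5) (nat_lit 2) (nat_lit 4) (nat_lit 349) (nat_lit 263) (nat_lit 168)) (XT.lf (nat_lit 0) (nat_lit 193108926668) (nat_lit 76) (nat_lit 477061231748) (nat_lit 76) (nat_lit 459577757450) (nat_lit 1) (nat_lit 4) (nat_lit 2)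 (nat_lit 5) (nat_lit 2) (nat_lit 4) (nat_lit 350) (nat_lit 263) (nat_lit 167))))) (XT.nd (nat_lit 312) (nat_lit 0) (nat_lit 0) (XT.nd (nat_lit 156) (nat_lit 0) (nat_lit 0) (XT.nd (nat_lit 78) (nat_lit 0) (nat_lit 0) (XT.lf (nat_lit 0) (nat_lit 230629926942) (nat_lit 76) (nat_lit 503037260775) (nat_lit 76) (nat_lit 485552985016) (nat_lit 1) (nat_lit 4) (nat_lit 2) (nat_lit 5) (nat_lit 2) (nat_lit 4) (nat_lit 351) (nat_lit 263) (nat_lit 166)) (XT.lf (nat_lit 0) (nat_lit 271150662076) (nat_lit 76) (nat_lit 531092322953) (nat_lit 76) (nat_lit 513607305101) (nat_lit 1) (nat_lit 4) (nat_lit 2) (nat_lit 5) (nat_lit 2) (nat_lit 4) (nat_lit 352) (nat_lit 263) (nat_lit 165))) (XT.nd (nat_lit 78) (nat_lit 0) (nat_lit 0) (XT.lf (nat_lit 0) (nat_lit 314911254946) (nat_lit 76) (nat_lit 561392670503) (nat_lit 76) (nat_lit 543906965528) (nat_lit 1) (nat_lit 4) (nat_lit 2) (nat_lit 5) (nat_lit 2) (nat_lit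 4) (nat_lit 353) (nat_lit 263) (nat_lit 164)) (XT.lf (nat_lit 0) (nat_lit 362171027583) (nat_lit 76) (nat_lit 594117861040) (nat_lit 76) (nat_lit 576631519840) (nat_lit 1) (nat_lit 4) (nat_lit 2) (nat_lit 5) (nat_lit 2) (nat_lit 4) (nat_lit 354) (nat_lit 263) (nat_lit 163)))) (XT.nd (nat_lit 156) (nat_lit 0) (nat_lit 0) (XT.nd (nat_lit 78) (nat_lit 0) (nat_lit 0) (XT.lf (nat_lit 0) (nat_lit 413210037900) (nat_lit 76) (nat_lit 629461821620) (nat_lit 76) (nat_lit 611974891322) (nat_lit 1) (nat_lit 4) (nat_lit 2) (nat_lit 5) (nat_lit 2) (nat_lit 4) (nat_lit 355) (nat_lit 263) (nat_lit 162)) (XT.lf (nat_lit 0) (nat_lit 468330739290) (nat_lit 76) (nat_lit 667633997933) (nat_lit 76) (nat_lit 650146522175) (nat_lit 1) (nat_lit 4) (nat_lit 2) (nat_lit 5) (nat_lit 2) (nat_lit 4) (nat_lit 356) (nat_lit 263) (nat_lit 161))) (XT.nd (nat_lit 78) (nat_lit 0) (nat_lit 0) (XT.lf (nat_lit 0) (nat_lit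 527859772947) (nat_lit 76) (nat_lit 708860595470) (nat_lit 76) (nat_lit 691372614656) (nat_lit 1) (nat_lit 4) (nat_lit 2) (nat_lit 5) (nat_lit 2) (nat_lit 4) (nat_lit 357) (nat_lit 263) (nat_lit 160)) (XT.lf (nat_lit 0) (nat_lit 592149903516) (nat_lit 76) (nat_lit 753385919994) (nat_lit 76) (nat_lit 735897471535) (nat_lit 1) (nat_lit 4) (nat_lit 2) (nat_lit 5) (nat_lit 2) (nat_lit 4) (nat_lit 358) (nat_lit 263) (nat_lit 159))))))) (XT.nd (nat_lit 33540) (nat_lit 0) (nat_lit 2052) (XT.nd (nat_lit 624) (nat_lit 0) (nat_lit 0) (XT.nd (nat_lit 312) (nat_lit 0) (nat_lit 0) (XT.nd (nat_lit 156) (nat_lit 0) (nat_lit 0) (XT.nd (nat_lit 78) (nat_lit 0) (nat_lit 0) (XT.lf (nat_lit 0) (nat_lit 661582109547) (nat_lit 76) (nat_lit 801473825280) (nat_lit 76) (nat_lit 783984943817) (nat_lit 1) (nat_lit 4) (nat_lit 2) (nat_lit 5) (nat_lit 2) (nat_lit 4) (nat_lit 359) (nat_lit 263) (nat_lit 158)) (XT.lf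 (nat_lit 0) (nat_lit 736567841150) (nat_lit 76) (nat_lit 853409276692) (nat_lit 76) (nat_lit 835919994299) (nat_lit 1) (nat_lit 4) (nat_lit 2) (nat_lit 5) (nat_lit 2) (nat_lit 4) (nat_lit 360) (nat_lit 263) (nat_lit 157))) (XT.nd (nat_lit 78) (nat_lit 0) (nat_lit 0) (XT.lf (nat_lit 0) (nat_lit 817551458217) (nat_lit 76) (nat_lit 909500039868) (nat_lit 76) (nat_lit 892010386244) (nat_lit 1) (nat_lit 4) (nat_lit 2) (nat_lit 5) (nat_lit 2) (nat_lit 4) (nat_lit 361) (nat_lit 263) (nat_lit 156)) (XT.lf (nat_lit 0) (nat_lit 905012863663) (nat_lit 76) (nat_lit 970078504516) (nat_lit 76) (nat_lit 952588507160) (nat_lit 1) (nat_lit 4) (nat_lit 2) (nat_lit 5) (nat_lit 2) (nat_lit 4) (nat_lit 362) (nat_lit 263) (nat_lit 155)))) (XT.nd (nat_lit 156) (nat_lit 0) (nat_lit 0) (XT.nd (nat_lit 78) (nat_lit 0) (nat_lit 0) (XT.lf (nat_lit 0) (nat_lit 999470347298) (nat_lit 76) (nat_lit 1035503654131) (nat_lit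 76) (nat_lit 1018013338504) (nat_lit 1) (nat_lit 4) (nat_lit 2) (nat_lit 5) (nat_lit 2) (nat_lit 4) (nat_lit 363) (nat_lit 263) (nat_lit 154)) (XT.lf (nat_lit 0) (nat_lit 1101483657174) (nat_lit 76) (nat_lit 1106163193303) (nat_lit 76) (nat_lit 1088672582980) (nat_lit 1) (nat_lit 4) (nat_lit 2) (nat_lit 5) (nat_lit 2) (nat_lit 4) (nat_lit 364) (nat_lit 263) (nat_lit 153))) (XT.nd (nat_lit 78) (nat_lit 0) (nat_lit 0) (XT.lf (nat_lit 0) (nat_lit 1211657316608) (nat_lit 76) (nat_lit 1182475845226) (nat_lit 76) (nat_lit 1164984962037) (nat_lit 1) (nat_lit 4) (nat_lit 2) (nat_lit 5) (nat_lit 2) (nat_lit 4) (nat_lit 365) (nat_lit 263) (nat_lit 152)) (XT.lf (nat_lit 0) (nat_lit 1330644206546) (nat_lit 76) (nat_lit 1264893833023) (nat_lit 76) (nat_lit 1247402697180) (nat_lit 1) (nat_lit 4) (nat_lit 2) (nat_lit 5) (nat_lit 2) (nat_lit 4) (nat_lit 366) (nat_lit 263) (nat_lit 151))))) (XT.nd (nat_lit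 32604) (nat_lit 0) (nat_lit 4256) (XT.nd (nat_lit 156) (nat_lit 0) (nat_lit 0) (XT.nd (nat_lit 78) (nat_lit 0) (nat_lit 0) (XT.lf (nat_lit 0) (nat_lit 1459149434482) (nat_lit 76) (nat_lit 1353905559585) (nat_lit 76) (nat_lit 1336414189804) (nat_lit 1) (nat_lit 4) (nat_lit 2) (nat_lit 5) (nat_lit 2) (nat_lit 4) (nat_lit 367) (nat_lit 263) (nat_lit 150)) (XT.lf (nat_lit 0) (nat_lit 1597934512879) (nat_lit 76) (nat_lit 1450038501811) (nat_lit 76) (nat_lit 1432546915419) (nat_lit 1) (nat_lit 4) (nat_lit 2) (nat_lit 5) (nat_lit 2) (nat_lit 4) (nat_lit 368) (nat_lit 263) (nat_lit 149))) (XT.nd (nat_lit 78) (nat_lit 0) (nat_lit 0) (XT.lf (nat_lit 0) (nat_lit 1747821871832) (nat_lit 76) (nat_lit 1553862336393) (nat_lit 76) (nat_lit 1536370549437) (nat_lit 1) (nat_lit 4) (nat_lit 2) (nat_lit 5) (nat_lit 2) (nat_lit 4) (nat_lit 369) (nat_lit 263) (nat_lit 148)) (XT.lf (nat_lit 0) (nat_lit 1909699732726)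 (nat_lit 76) (nat_lit 1665992315687) (nat_lit 76) (nat_lit 1648500343023) (nat_lit 1) (nat_lit 4) (nat_lit 2) (nat_lit 5) (nat_lit 2) (nat_lit 4) (nat_lit 370) (nat_lit 263) (nat_lit 147)))) (XT.nd (nat_lit 156) (nat_lit 0) (nat_lit 0) (XT.nd (nat_lit 78) (nat_lit 380) (nat_lit 0) (XT.lf (nat_lit 0) (nat_lit 1600527385) (nat_lit 0) (nat_lit 1600527385) (nat_lit 228) (nat_lit 253284379) (nat_lit 62) (nat_lit 5) (nat_lit 62) (nat_lit 3) (nat_lit 65) (nat_lit 3) (nat_lit 264) (nat_lit 264) (nat_lit 252)) (XT.lf (nat_lit 0) (nat_lit 1285244500) (nat_lit 380) (nat_lit 478333496) (nat_lit 380) (nat_lit 5273089327) (nat_lit 57) (nat_lit 3) (nat_lit 62) (nat_lit 3) (nat_lit 62) (nat_lit 5) (nat_lit 265) (nat_lit 264) (nat_lit 251))) (XT.nd (nat_lit 78) (nat_lit 0) (nat_lit 76) (XT.lf (nat_lit 76) (nat_lit 3052015048) (nat_lit 0) (nat_lit 35762866) (nat_lit 380) (nat_lit 4095137219) (nat_lit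 58) (nat_lit 5) (nat_lit 57) (nat_lit 3) (nat_lit 62) (nat_lit 5) (nat_lit 266) (nat_lit 264) (nat_lit 250)) (XT.lf (nat_lit 0) (nat_lit 4926021030) (nat_lit 304) (nat_lit 602313026) (nat_lit 380) (nat_lit 1821811589) (nat_lit 58) (nat_lit 5) (nat_lit 62) (nat_lit 5) (nat_lit 63) (nat_lit 5) (nat_lit 267) (nat_lit 264) (nat_lit 249)))))) (XT.nd (nat_lit 624) (nat_lit 836) (nat_lit 0) (XT.nd (nat_lit 312) (nat_lit 760) (nat_lit 0) (XT.nd (nat_lit 156) (nat_lit 304) (nat_lit 0) (XT.nd (nat_lit 78) (nat_lit 380) (nat_lit 0) (XT.lf (nat_lit 76) (nat_lit 3269195156) (nat_lit 0) (nat_lit 3568043252) (nat_lit 380) (nat_lit 700001741) (nat_lit 59) (nat_lit 5) (nat_lit 58) (nat_lit 5) (nat_lit 63) (nat_lit 5) (nat_lit 268) (nat_lit 264) (nat_lit 248)) (XT.lf (nat_lit 0) (nat_lit 971919839) (nat_lit 380) (nat_lit 389395112) (nat_lit 456) (nat_lit 6386790554) (nat_lit 53) (nat_lit 5) (nat_lit 58)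 (nat_lit 5) (nat_lit 59) (nat_lit 5) (nat_lit 269) (nat_lit 264) (nat_lit 247))) (XT.nd (nat_lit 78) (nat_lit 380) (nat_lit 0) (XT.lf (nat_lit 0) (nat_lit 2723503646) (nat_lit 380) (nat_lit 4131291781) (nat_lit 76) (nat_lit 1121335516) (nat_lit 54) (nat_lit 5) (nat_lit 59) (nat_lit 5) (nat_lit 55) (nat_lit 5) (nat_lit 270) (nat_lit 264) (nat_lit 246)) (XT.lf (nat_lit 0) (nat_lit 77862174) (nat_lit 380) (nat_lit 4456302329) (nat_lit 456) (nat_lit 3695128574) (nat_lit 49) (nat_lit 5) (nat_lit 54) (nat_lit 5) (nat_lit 55) (nat_lit 5) (nat_lit 271) (nat_lit 264) (nat_lit 245)))) (XT.nd (nat_lit 156) (nat_lit 304) (nat_lit 0) (XT.nd (nat_lit 78) (nat_lit 456) (nat_lit 0) (XT.lf (nat_lit 0) (nat_lit 4752645121) (nat_lit 380) (nat_lit 1727805685) (nat_lit 456) (nat_lit 2023375838) (nat_lit 49) (nat_lit 5) (nat_lit 54) (nat_lit 5) (nat_lit 55) (nat_lit 5) (nat_lit 272) (nat_lit 264) (nat_lit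 244)) (XT.lf (nat_lit 0) (nat_lit 909298607) (nat_lit 456) (nat_lit 7611551968) (nat_lit 532) (nat_lit 284751576) (nat_lit 43) (nat_lit 5) (nat_lit 49) (nat_lit 5) (nat_lit 50) (nat_lit 5) (nat_lit 273) (nat_lit 264) (nat_lit 243))) (XT.nd (nat_lit 78) (nat_lit 228) (nat_lit 0) (XT.lf (nat_lit 0) (nat_lit 1553343123) (nat_lit 532) (nat_lit 3164540172) (nat_lit 76) (nat_lit 4407668054) (nat_lit 42) (nat_lit 5) (nat_lit 49) (nat_lit 5) (nat_lit 43) (nat_lit 5) (nat_lit 274) (nat_lit 264) (nat_lit 242)) (XT.lf (nat_lit 0) (nat_lit 1931934556) (nat_lit 228) (nat_lit 1535741897) (nat_lit 304) (nat_lit 6007541844) (nat_lit 39) (nat_lit 5) (nat_lit 42) (nat_lit 5) (nat_lit 43) (nat_lit 5) (nat_lit 275) (nat_lit 264) (nat_lit 241))))) (XT.nd (nat_lit 312) (nat_lit 304) (nat_lit 0) (XT.nd (nat_lit 156) (nat_lit 304) (nat_lit 0) (XT.nd (nat_lit 78) (nat_lit 228) (nat_lit 0) (XT.lf (nat_lit 0)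 (nat_lit 5572800116) (nat_lit 304) (nat_lit 2386182331) (nat_lit 76) (nat_lit 1891123465) (nat_lit 39) (nat_lit 5) (nat_lit 43) (nat_lit 5) (nat_lit 40) (nat_lit 5) (nat_lit 276) (nat_lit 264) (nat_lit 240)) (XT.lf (nat_lit 0) (nat_lit 3203500457) (nat_lit 228) (nat_lit 4670094429) (nat_lit 304) (nat_lit 2379448387) (nat_lit 36) (nat_lit 5) (nat_lit 39) (nat_lit 5) (nat_lit 40) (nat_lit 5) (nat_lit 277) (nat_lit 264) (nat_lit 239))) (XT.nd (nat_lit 78) (nat_lit 304) (nat_lit 0) (XT.lf (nat_lit 0) (nat_lit 9278253262) (nat_lit 228) (nat_lit 1060060077) (nat_lit 304) (nat_lit 351735357) (nat_lit 36) (nat_lit 5) (nat_lit 39) (nat_lit 5) (nat_lit 40) (nat_lit 5) (nat_lit 278) (nat_lit 264) (nat_lit 238)) (XT.lf (nat_lit 0) (nat_lit 1851888221) (nat_lit 304) (nat_lit 6451380565) (nat_lit 76) (nat_lit 2846947510) (nat_lit 32) (nat_lit 5) (nat_lit 36) (nat_lit 5) (nat_lit 33) (nat_lit 5) (nat_lit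 279) (nat_lit 264) (nat_lit 237)))) (XT.nd (nat_lit 156) (nat_lit 152) (nat_lit 0) (XT.nd (nat_lit 78) (nat_lit 152) (nat_lit 0) (XT.lf (nat_lit 0) (nat_lit 4202061490) (nat_lit 304) (nat_lit 401817390) (nat_lit 76) (nat_lit 7043622670) (nat_lit 32) (nat_lit 5) (nat_lit 36) (nat_lit 5) (nat_lit 33) (nat_lit 5) (nat_lit 280) (nat_lit 264) (nat_lit 236)) (XT.lf (nat_lit 0) (nat_lit 6358450174) (nat_lit 152) (nat_lit 462612852) (nat_lit 228) (nat_lit 5357204537) (nat_lit 30) (nat_lit 5) (nat_lit 32) (nat_lit 5) (nat_lit 33) (nat_lit 5) (nat_lit 281) (nat_lit 264) (nat_lit 235))) (XT.nd (nat_lit 78) (nat_lit 0) (nat_lit 0) (XT.lf (nat_lit 0) (nat_lit 779858242) (nat_lit 152) (nat_lit 8926803211) (nat_lit 228) (nat_lit 3040418273) (nat_lit 28) (nat_lit 5) (nat_lit 30) (nat_lit 5) (nat_lit 31) (nat_lit 5) (nat_lit 282) (nat_lit 264) (nat_lit 234)) (XT.lf (nat_lit 0) (nat_lit 8134018869) (nat_lit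 152) (nat_lit 4793466390) (nat_lit 228) (nat_lit 425701226) (nat_lit 28) (nat_lit 5) (nat_lit 30) (nat_lit 5) (nat_lit 31) (nat_lit 5) (nat_lit 283) (nat_lit 264) (nat_lit 233))))))))
noncomputable def xc57 : XT := (XT.nd (nat_lit 2418) (nat_lit 380) (nat_lit 0) (XT.nd (nat_lit 1170) (nat_lit 608) (nat_lit 0) (XT.nd (nat_lit 546) (nat_lit 380) (nat_lit 0) (XT.nd (nat_lit 234) (nat_lit 304) (nat_lit 0) (XT.nd (nat_lit 78) (nat_lit 152) (nat_lit 0) (XT.lf (nat_lit 0) (nat_lit 2023825856) (nat_lit 152) (nat_lit 239816241) (nat_lit 228) (nat_lit 11740812135) (nat_lit 25) (nat_lit 5) (nat_lit 27) (nat_lit 5) (nat_lit 28) (nat_lit 5) (nat_lit 284) (nat_lit 264) (nat_lit 232)) (XT.nd (nat_lit 78) (nat_lit 152) (nat_lit 0) (XT.lf (nat_lit 0) (nat_lit 5342790628) (nat_lit 228) (nat_lit 4771178219) (nat_lit 76) (nat_lit 4577268442) (nat_lit 25) (nat_lit 5) (nat_lit 28) (nat_lit 5) (nat_lit 26)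 (nat_lit 5) (nat_lit 285) (nat_lit 264) (nat_lit 231)) (XT.lf (nat_lit 0) (nat_lit 3078954357) (nat_lit 152) (nat_lit 5612872197) (nat_lit 228) (nat_lit 6739354770) (nat_lit 23) (nat_lit 5) (nat_lit 25) (nat_lit 5) (nat_lit 26) (nat_lit 5) (nat_lit 286) (nat_lit 264) (nat_lit 230)))) (XT.nd (nat_lit 156) (nat_lit 228) (nat_lit 0) (XT.nd (nat_lit 78) (nat_lit 76) (nat_lit 0) (XT.lf (nat_lit 0) (nat_lit 11746695508) (nat_lit 152) (nat_lit 638055646) (nat_lit 228) (nat_lit 3839587627) (nat_lit 23) (nat_lit 5) (nat_lit 25) (nat_lit 5) (nat_lit 26) (nat_lit 5) (nat_lit 287) (nat_lit 264) (nat_lit 229)) (XT.lf (nat_lit 0) (nat_lit 4035713787) (nat_lit 76) (nat_lit 12497268124) (nat_lit 152) (nat_lit 535265259) (nat_lit 22) (nat_lit 5) (nat_lit 23) (nat_lit 5) (nat_lit 24) (nat_lit 4) (nat_lit 288) (nat_lit 264) (nat_lit 228))) (XT.nd (nat_lit 78) (nat_lit 152) (nat_lit 0) (XT.lf (nat_lit 0)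 (nat_lit 2973353420) (nat_lit 152) (nat_lit 4657727501) (nat_lit 76) (nat_lit 10335491090) (nat_lit 21) (nat_lit 5) (nat_lit 23) (nat_lit 5) (nat_lit 22) (nat_lit 5) (nat_lit 289) (nat_lit 264) (nat_lit 227)) (XT.lf (nat_lit 0) (nat_lit 4525532197) (nat_lit 152) (nat_lit 2270304151) (nat_lit 228) (nat_lit 12134916759) (nat_lit 19) (nat_lit 5) (nat_lit 21) (nat_lit 5) (nat_lit 22) (nat_lit 5) (nat_lit 290) (nat_lit 264) (nat_lit 226))))) (XT.nd (nat_lit 312) (nat_lit 76) (nat_lit 0) (XT.nd (nat_lit 156) (nat_lit 228) (nat_lit 0) (XT.nd (nat_lit 78) (nat_lit 76) (nat_lit 0) (XT.lf (nat_lit 0) (nat_lit 11093745619) (nat_lit 228) (nat_lit 5416640121) (nat_lit 76) (nat_lit 3448177500) (nat_lit 19) (nat_lit 5) (nat_lit 22) (nat_lit 5) (nat_lit 20) (nat_lit 4) (nat_lit 291) (nat_lit 264) (nat_lit 225)) (XT.lf (nat_lit 0) (nat_lit 4381660149) (nat_lit 76) (nat_lit 11475887759) (nat_lit 152)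 (nat_lit 5201345421) (nat_lit 18) (nat_lit 5) (nat_lit 19) (nat_lit 5) (nat_lit 20) (nat_lit 4) (nat_lit 292) (nat_lit 264) (nat_lit 224))) (XT.nd (nat_lit 78) (nat_lit 228) (nat_lit 0) (XT.lf (nat_lit 0) (nat_lit 15204048819) (nat_lit 76) (nat_lit 5905719644) (nat_lit 152) (nat_lit 1128951762) (nat_lit 18) (nat_lit 5) (nat_lit 19) (nat_lit 5) (nat_lit 20) (nat_lit 4) (nat_lit 293) (nat_lit 264) (nat_lit 223)) (XT.lf (nat_lit 0) (nat_lit 3155005897) (nat_lit 228) (nat_lit 20103260949) (nat_lit 76) (nat_lit 244478996) (nat_lit 15) (nat_lit 5) (nat_lit 18) (nat_lit 5) (nat_lit 16) (nat_lit 4) (nat_lit 294) (nat_lit 264) (nat_lit 222)))) (XT.nd (nat_lit 156) (nat_lit 0) (nat_lit 0) (XT.nd (nat_lit 78) (nat_lit 76) (nat_lit 0) (XT.lf (nat_lit 0) (nat_lit 8033355953) (nat_lit 228) (nat_lit 10037446370) (nat_lit 76) (nat_lit 6769775910) (nat_lit 15) (nat_lit 5) (nat_lit 18) (nat_lit 5) (nat_lit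 16) (nat_lit 4) (nat_lit 295) (nat_lit 264) (nat_lit 221)) (XT.lf (nat_lit 0) (nat_lit 813526296) (nat_lit 76) (nat_lit 12472769479) (nat_lit 152) (nat_lit 13000436511) (nat_lit 14) (nat_lit 5) (nat_lit 15) (nat_lit 5) (nat_lit 16) (nat_lit 4) (nat_lit 296) (nat_lit 264) (nat_lit 220))) (XT.nd (nat_lit 78) (nat_lit 0) (nat_lit 0) (XT.lf (nat_lit 0) (nat_lit 13044151602) (nat_lit 76) (nat_lit 6155702530) (nat_lit 152) (nat_lit 8629531653) (nat_lit 14) (nat_lit 5) (nat_lit 15) (nat_lit 5) (nat_lit 16) (nat_lit 4) (nat_lit 297) (nat_lit 264) (nat_lit 219)) (XT.lf (nat_lit 0) (nat_lit 25570435348) (nat_lit 152) (nat_lit 3315129778) (nat_lit 0) (nat_lit 611206376) (nat_lit 14) (nat_lit 5) (nat_lit 16) (nat_lit 4) (nat_lit 14) (nat_lit 4) (nat_lit 298) (nat_lit 264) (nat_lit 218)))))) (XT.nd (nat_lit 624) (nat_lit 228) (nat_lit 0) (XT.nd (nat_lit 312) (nat_lit 152) (nat_lit 0) (XT.nd (nat_lit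 156) (nat_lit 76) (nat_lit 0) (XT.nd (nat_lit 78) (nat_lit 0) (nat_lit 0) (XT.lf (nat_lit 0) (nat_lit 1459081802) (nat_lit 152) (nat_lit 21979570556) (nat_lit 76) (nat_lit 7827615096) (nat_lit 12) (nat_lit 5) (nat_lit 14) (nat_lit 5) (nat_lit 13) (nat_lit 4) (nat_lit 299) (nat_lit 264) (nat_lit 217)) (XT.lf (nat_lit 0) (nat_lit 7126677518) (nat_lit 152) (nat_lit 10242111962) (nat_lit 76) (nat_lit 15795325283) (nat_lit 12) (nat_lit 5) (nat_lit 14) (nat_lit 5) (nat_lit 13) (nat_lit 4) (nat_lit 300) (nat_lit 264) (nat_lit 216))) (XT.nd (nat_lit 78) (nat_lit 0) (nat_lit 0) (XT.lf (nat_lit 0) (nat_lit 2510963751) (nat_lit 76) (nat_lit 10769765700) (nat_lit 152) (nat_lit 21930442238) (nat_lit 11) (nat_lit 5) (nat_lit 12) (nat_lit 5) (nat_lit 13) (nat_lit 4) (nat_lit 301) (nat_lit 264) (nat_lit 215)) (XT.lf (nat_lit 0) (nat_lit 16819015567) (nat_lit 76) (nat_lit 3361664148) (nat_lit 152) (nat_lit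 17221051337) (nat_lit 11) (nat_lit 5) (nat_lit 12) (nat_lit 5) (nat_lit 13) (nat_lit 4) (nat_lit 302) (nat_lit 264) (nat_lit 214)))) (XT.nd (nat_lit 156) (nat_lit 76) (nat_lit 0) (XT.nd (nat_lit 78) (nat_lit 76) (nat_lit 0) (XT.lf (nat_lit 0) (nat_lit 27719219068) (nat_lit 152) (nat_lit 7653113126) (nat_lit 0) (nat_lit 4388297573) (nat_lit 11) (nat_lit 5) (nat_lit 13) (nat_lit 4) (nat_lit 11) (nat_lit 4) (nat_lit 303) (nat_lit 264) (nat_lit 213)) (XT.lf (nat_lit 0) (nat_lit 6506700213) (nat_lit 76) (nat_lit 29574816705) (nat_lit 76) (nat_lit 6209089850) (nat_lit 10) (nat_lit 4) (nat_lit 11) (nat_lit 5) (nat_lit 11) (nat_lit 4) (nat_lit 304) (nat_lit 264) (nat_lit 212))) (XT.nd (nat_lit 78) (nat_lit 0) (nat_lit 0) (XT.lf (nat_lit 0) (nat_lit 277002347) (nat_lit 152) (nat_lit 22821789159) (nat_lit 76) (nat_lit 21908700827) (nat_lit 9) (nat_lit 5) (nat_lit 11) (nat_lit 5) (nat_lit 10) (nat_lit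 4) (nat_lit 305) (nat_lit 264) (nat_lit 211)) (XT.lf (nat_lit 0) (nat_lit 6925227886) (nat_lit 152) (nat_lit 9023320024) (nat_lit 76) (nat_lit 31981999187) (nat_lit 9) (nat_lit 5) (nat_lit 11) (nat_lit 5) (nat_lit 10) (nat_lit 4) (nat_lit 306) (nat_lit 264) (nat_lit 210))))) (XT.nd (nat_lit 312) (nat_lit 152) (nat_lit 0) (XT.nd (nat_lit 156) (nat_lit 0) (nat_lit 0) (XT.nd (nat_lit 78) (nat_lit 0) (nat_lit 0) (XT.lf (nat_lit 0) (nat_lit 6150259188) (nat_lit 76) (nat_lit 8083242174) (nat_lit 152) (nat_lit 36843704696) (nat_lit 8) (nat_lit 5) (nat_lit 9) (nat_lit 5) (nat_lit 10) (nat_lit 4) (nat_lit 307) (nat_lit 264) (nat_lit 209)) (XT.lf (nat_lit 0) (nat_lit 22369938874) (nat_lit 152) (nat_lit 31457926514) (nat_lit 0) (nat_lit 628266071) (nat_lit 8) (nat_lit 5) (nat_lit 10) (nat_lit 4) (nat_lit 8) (nat_lit 4) (nat_lit 308) (nat_lit 264) (nat_lit 208))) (XT.nd (nat_lit 78) (nat_lit 0)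 (nat_lit 0) (XT.lf (nat_lit 0) (nat_lit 31349179955) (nat_lit 152) (nat_lit 17155278847) (nat_lit 0) (nat_lit 9585573871) (nat_lit 8) (nat_lit 5) (nat_lit 10) (nat_lit 4) (nat_lit 8) (nat_lit 4) (nat_lit 309) (nat_lit 264) (nat_lit 207)) (XT.lf (nat_lit 0) (nat_lit 41030032755) (nat_lit 152) (nat_lit 1739845270) (nat_lit 0) (nat_lit 19246118077) (nat_lit 8) (nat_lit 5) (nat_lit 10) (nat_lit 4) (nat_lit 8) (nat_lit 4) (nat_lit 310) (nat_lit 264) (nat_lit 206)))) (XT.nd (nat_lit 156) (nat_lit 76) (nat_lit 0) (XT.nd (nat_lit 78) (nat_lit 0) (nat_lit 0) (XT.lf (nat_lit 0) (nat_lit 15663264879) (nat_lit 76) (nat_lit 36183302307) (nat_lit 76) (nat_lit 14380583376) (nat_lit 7) (nat_lit 4) (nat_lit 8) (nat_lit 5) (nat_lit 8) (nat_lit 4) (nat_lit 311) (nat_lit 264) (nat_lit 205)) (XT.lf (nat_lit 0) (nat_lit 34529208984) (nat_lit 76) (nat_lit 29031762557) (nat_lit 76) (nat_lit 7211632279) (nat_lit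 7) (nat_lit 4) (nat_lit 8) (nat_lit 5) (nat_lit 8) (nat_lit 4) (nat_lit 312) (nat_lit 264) (nat_lit 204))) (XT.nd (nat_lit 78) (nat_lit 0) (nat_lit 0) (XT.lf (nat_lit 0) (nat_lit 489999648) (nat_lit 152) (nat_lit 20817052624) (nat_lit 76) (nat_lit 54374770955) (nat_lit 6) (nat_lit 5) (nat_lit 8) (nat_lit 5) (nat_lit 7) (nat_lit 4) (nat_lit 313) (nat_lit 264) (nat_lit 203)) (XT.lf (nat_lit 0) (nat_lit 8404923762) (nat_lit 152) (nat_lit 4368937890) (nat_lit 76) (nat_lit 68195999266) (nat_lit 6) (nat_lit 5) (nat_lit 8) (nat_lit 5) (nat_lit 7) (nat_lit 4) (nat_lit 314) (nat_lit 264) (nat_lit 202))))))) (XT.nd (nat_lit 1248) (nat_lit 76) (nat_lit 0) (XT.nd (nat_lit 624) (nat_lit 152) (nat_lit 0) (XT.nd (nat_lit 312) (nat_lit 76) (nat_lit 0) (XT.nd (nat_lit 156) (nat_lit 0) (nat_lit 0) (XT.nd (nat_lit 78) (nat_lit 0) (nat_lit 0) (XT.lf (nat_lit 0) (nat_lit 14075998034) (nat_lit 76) (nat_lit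 3203328426) (nat_lit 152) (nat_lit 69375519898) (nat_lit 5) (nat_lit 5) (nat_lit 6) (nat_lit 5) (nat_lit 7) (nat_lit 4) (nat_lit 315) (nat_lit 264) (nat_lit 201)) (XT.lf (nat_lit 0) (nat_lit 27145646840) (nat_lit 152) (nat_lit 58738007838) (nat_lit 0) (nat_lit 6888425670) (nat_lit 5) (nat_lit 5) (nat_lit 7) (nat_lit 4) (nat_lit 5) (nat_lit 4) (nat_lit 316) (nat_lit 264) (nat_lit 200))) (XT.nd (nat_lit 78) (nat_lit 0) (nat_lit 0) (XT.lf (nat_lit 0) (nat_lit 37873238309) (nat_lit 152) (nat_lit 43894658910) (nat_lit 0) (nat_lit 17605045037) (nat_lit 5) (nat_lit 5) (nat_lit 7) (nat_lit 4) (nat_lit 5) (nat_lit 4) (nat_lit 317) (nat_lit 264) (nat_lit 199)) (XT.lf (nat_lit 0) (nat_lit 49448631654) (nat_lit 152) (nat_lit 27883800828) (nat_lit 0) (nat_lit 29170279030) (nat_lit 5) (nat_lit 5) (nat_lit 7) (nat_lit 4) (nat_lit 5) (nat_lit 4) (nat_lit 318) (nat_lit 264) (nat_lit 198)))) (XT.nd (nat_lit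 156) (nat_lit 0) (nat_lit 0) (XT.nd (nat_lit 78) (nat_lit 76) (nat_lit 0) (XT.lf (nat_lit 0) (nat_lit 61940421800) (nat_lit 152) (nat_lit 10610554433) (nat_lit 0) (nat_lit 41652662366) (nat_lit 5) (nat_lit 5) (nat_lit 7) (nat_lit 4) (nat_lit 5) (nat_lit 4) (nat_lit 319) (nat_lit 264) (nat_lit 197)) (XT.lf (nat_lit 0) (nat_lit 8450151029) (nat_lit 76) (nat_lit 67175709474) (nat_lit 76) (nat_lit 46879240033) (nat_lit 4) (nat_lit 4) (nat_lit 5) (nat_lit 5) (nat_lit 5) (nat_lit 4) (nat_lit 320) (nat_lit 264) (nat_lit 196))) (XT.nd (nat_lit 78) (nat_lit 0) (nat_lit 0) (XT.lf (nat_lit 0) (nat_lit 29622466342) (nat_lit 76) (nat_lit 61065118036) (nat_lit 76) (nat_lit 40760583773) (nat_lit 4) (nat_lit 4) (nat_lit 5) (nat_lit 5) (nat_lit 5) (nat_lit 4) (nat_lit 321) (nat_lit 264) (nat_lit 195)) (XT.lf (nat_lit 0) (nat_lit 52473124085) (nat_lit 76) (nat_lit 54473102370) (nat_lit 76) (nat_lit 34161100679)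 (nat_lit 4) (nat_lit 4) (nat_lit 5) (nat_lit 5) (nat_lit 5) (nat_lit 4) (nat_lit 322) (nat_lit 264) (nat_lit 194))))) (XT.nd (nat_lit 312) (nat_lit 152) (nat_lit 0) (XT.nd (nat_lit 156) (nat_lit 0) (nat_lit 0) (XT.nd (nat_lit 78) (nat_lit 0) (nat_lit 0) (XT.lf (nat_lit 0) (nat_lit 77137535561) (nat_lit 76) (nat_lit 47360598679) (nat_lit 76) (nat_lit 27041682703) (nat_lit 4) (nat_lit 4) (nat_lit 5) (nat_lit 5) (nat_lit 5) (nat_lit 4) (nat_lit 323) (nat_lit 264) (nat_lit 193)) (XT.lf (nat_lit 0) (nat_lit 103761860246) (nat_lit 76) (nat_lit 39685458793) (nat_lit 76) (nat_lit 19360140701) (nat_lit 4) (nat_lit 4) (nat_lit 5) (nat_lit 5) (nat_lit 5) (nat_lit 4) (nat_lit 324) (nat_lit 264) (nat_lit 192))) (XT.nd (nat_lit 78) (nat_lit 0) (nat_lit 0) (XT.lf (nat_lit 0) (nat_lit 132503871917) (nat_lit 76) (nat_lit 31402200402) (nat_lit 76) (nat_lit 11070954425) (nat_lit 4) (nat_lit 4) (nat_lit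 5) (nat_lit 5) (nat_lit 5) (nat_lit 4) (nat_lit 325) (nat_lit 264) (nat_lit 191)) (XT.lf (nat_lit 0) (nat_lit 163533893606) (nat_lit 76) (nat_lit 22461737529) (nat_lit 76) (nat_lit 2125002770) (nat_lit 4) (nat_lit 4) (nat_lit 5) (nat_lit 5) (nat_lit 5) (nat_lit 4) (nat_lit 326) (nat_lit 264) (nat_lit 190)))) (XT.nd (nat_lit 156) (nat_lit 0) (nat_lit 0) (XT.nd (nat_lit 78) (nat_lit 76) (nat_lit 0) (XT.lf (nat_lit 0) (nat_lit 7154009829) (nat_lit 152) (nat_lit 5461476518) (nat_lit 76) (nat_lit 189686193785) (nat_lit 3) (nat_lit 5) (nat_lit 5) (nat_lit 5) (nat_lit 4) (nat_lit 4) (nat_lit 327) (nat_lit 264) (nat_lit 189)) (XT.lf (nat_lit 0) (nat_lit 15925251768) (nat_lit 76) (nat_lit 1513101346) (nat_lit 152) (nat_lit 200144218710) (nat_lit 2) (nat_lit 5) (nat_lit 3) (nat_lit 5) (nat_lit 4) (nat_lit 4) (nat_lit 328) (nat_lit 264) (nat_lit 188))) (XT.nd (nat_lit 78) (nat_lit 0) (nat_lit 0)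 (XT.lf (nat_lit 0) (nat_lit 28945481034) (nat_lit 152) (nat_lit 195006379475) (nat_lit 0) (nat_lit 10102073734) (nat_lit 2) (nat_lit 5) (nat_lit 4) (nat_lit 4) (nat_lit 2) (nat_lit 4) (nat_lit 329) (nat_lit 264) (nat_lit 187)) (XT.lf (nat_lit 0) (nat_lit 41407710707) (nat_lit 152) (nat_lit 187871966782) (nat_lit 0) (nat_lit 22560567834) (nat_lit 2) (nat_lit 5) (nat_lit 4) (nat_lit 4) (nat_lit 2) (nat_lit 4) (nat_lit 330) (nat_lit 264) (nat_lit 186)))))) (XT.nd (nat_lit 624) (nat_lit 76) (nat_lit 0) (XT.nd (nat_lit 312) (nat_lit 0) (nat_lit 0) (XT.nd (nat_lit 156) (nat_lit 0) (nat_lit 0) (XT.nd (nat_lit 78) (nat_lit 0) (nat_lit 0) (XT.lf (nat_lit 0) (nat_lit 54862502262) (nat_lit 152) (nat_lit 180175413854) (nat_lit 0) (nat_lit 36011900525) (nat_lit 2) (nat_lit 5) (nat_lit 4) (nat_lit 4) (nat_lit 2) (nat_lit 4) (nat_lit 331) (nat_lit 264) (nat_lit 185)) (XT.lf (nat_lit 0) (nat_lit 69389587795)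 (nat_lit 152) (nat_lit 171871111487) (nat_lit 0) (nat_lit 50535783407) (nat_lit 2) (nat_lit 5) (nat_lit 4) (nat_lit 4) (nat_lit 2) (nat_lit 4) (nat_lit 332) (nat_lit 264) (nat_lit 184))) (XT.nd (nat_lit 78) (nat_lit 0) (nat_lit 0) (XT.lf (nat_lit 0) (nat_lit 85075053741) (nat_lit 152) (nat_lit 162909849000) (nat_lit 0) (nat_lit 66218283934) (nat_lit 2) (nat_lit 5) (nat_lit 4) (nat_lit 4) (nat_lit 2) (nat_lit 4) (nat_lit 333) (nat_lit 264) (nat_lit 183)) (XT.lf (nat_lit 0) (nat_lit 102011851007) (nat_lit 152) (nat_lit 153238522618) (nat_lit 0) (nat_lit 83152335442) (nat_lit 2) (nat_lit 5) (nat_lit 4) (nat_lit 4) (nat_lit 2) (nat_lit 4) (nat_lit 334) (nat_lit 264) (nat_lit 182)))) (XT.nd (nat_lit 156) (nat_lit 0) (nat_lit 0) (XT.nd (nat_lit 78) (nat_lit 0) (nat_lit 0) (XT.lf (nat_lit 0) (nat_lit 120300345801) (nat_lit 152) (nat_lit 142799820774) (nat_lit 0) (nat_lit 101438287867) (nat_lit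 2) (nat_lit 5) (nat_lit 4) (nat_lit 4) (nat_lit 2) (nat_lit 4) (nat_lit 335) (nat_lit 264) (nat_lit 181)) (XT.lf (nat_lit 0) (nat_lit 140048914386) (nat_lit 152) (nat_lit 131531884496) (nat_lit 0) (nat_lit 121184502409) (nat_lit 2) (nat_lit 5) (nat_lit 4) (nat_lit 4) (nat_lit 2) (nat_lit 4) (nat_lit 336) (nat_lit 264) (nat_lit 180))) (XT.nd (nat_lit 78) (nat_lit 0) (nat_lit 0) (XT.lf (nat_lit 0) (nat_lit 161374585320) (nat_lit 152) (nat_lit 119367940828) (nat_lit 0) (nat_lit 142507993671) (nat_lit 2) (nat_lit 5) (nat_lit 4) (nat_lit 4) (nat_lit 2) (nat_lit 4) (nat_lit 337) (nat_lit 264) (nat_lit 179)) (XT.lf (nat_lit 0) (nat_lit 184403732946) (nat_lit 152) (nat_lit 106235907140) (nat_lit 0) (nat_lit 165535123083) (nat_lit 2) (nat_lit 5) (nat_lit 4) (nat_lit 4) (nat_lit 2) (nat_lit 4) (nat_lit 338) (nat_lit 264) (nat_lit 178))))) (XT.nd (nat_lit 312) (nat_lit 76) (nat_lit 0) (XT.nd (nat_lit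 156) (nat_lit 0) (nat_lit 0) (XT.nd (nat_lit 78) (nat_lit 0) (nat_lit 0) (XT.lf (nat_lit 0) (nat_lit 209272826289) (nat_lit 152) (nat_lit 92057963974) (nat_lit 0) (nat_lit 190402347710) (nat_lit 2) (nat_lit 5) (nat_lit 4) (nat_lit 4) (nat_lit 2) (nat_lit 4) (nat_lit 339) (nat_lit 264) (nat_lit 177)) (XT.lf (nat_lit 0) (nat_lit 236129237753) (nat_lit 152) (nat_lit 76750093889) (nat_lit 0) (nat_lit 217257028881) (nat_lit 2) (nat_lit 5) (nat_lit 4) (nat_lit 4) (nat_lit 2) (nat_lit 4) (nat_lit 340) (nat_lit 264) (nat_lit 176))) (XT.nd (nat_lit 78) (nat_lit 0) (nat_lit 0) (XT.lf (nat_lit 0) (nat_lit 265132116443) (nat_lit 152) (nat_lit 60221583581) (nat_lit 0) (nat_lit 246258305448) (nat_lit 2) (nat_lit 5) (nat_lit 4) (nat_lit 4) (nat_lit 2) (nat_lit 4) (nat_lit 341) (nat_lit 264) (nat_lit 175)) (XT.lf (nat_lit 0) (nat_lit 296453331271) (nat_lit 152) (nat_lit 42374486322) (nat_lit 0) (nat_lit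 277578036828) (nat_lit 2) (nat_lit 5) (nat_lit 4) (nat_lit 4) (nat_lit 2) (nat_lit 4) (nat_lit 342) (nat_lit 264) (nat_lit 174)))) (XT.nd (nat_lit 156) (nat_lit 76) (nat_lit 0) (XT.nd (nat_lit 78) (nat_lit 0) (nat_lit 0) (XT.lf (nat_lit 0) (nat_lit 330278489434) (nat_lit 152) (nat_lit 23103041534) (nat_lit 0) (nat_lit 311401821429) (nat_lit 2) (nat_lit 5) (nat_lit 4) (nat_lit 4) (nat_lit 2) (nat_lit 4) (nat_lit 343) (nat_lit 264) (nat_lit 173)) (XT.lf (nat_lit 0) (nat_lit 366808036316) (nat_lit 152) (nat_lit 2293048065) (nat_lit 0) (nat_lit 347930096493) (nat_lit 2) (nat_lit 5) (nat_lit 4) (nat_lit 4) (nat_lit 2) (nat_lit 4) (nat_lit 344) (nat_lit 264) (nat_lit 172))) (XT.nd (nat_lit 78) (nat_lit 0) (nat_lit 0) (XT.lf (nat_lit 0) (nat_lit 21241393074) (nat_lit 76) (nat_lit 385527906244) (nat_lit 76) (nat_lit 366648788813) (nat_lit 1) (nat_lit 4) (nat_lit 2) (nat_lit 5) (nat_lit 2) (nat_lit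 4) (nat_lit 345) (nat_lit 264) (nat_lit 171)) (XT.lf (nat_lit 0) (nat_lit 46786139101) (nat_lit 76) (nat_lit 403202559258) (nat_lit 76) (nat_lit 384322351448) (nat_lit 1) (nat_lit 4) (nat_lit 2) (nat_lit 5) (nat_lit 2) (nat_lit 4) (nat_lit 346) (nat_lit 264) (nat_lit 170))))))))
noncomputable def xc58 : XT := (XT.nd (nat_lit 34788) (nat_lit 0) (nat_lit 760) (XT.nd (nat_lit 1170) (nat_lit 0) (nat_lit 0) (XT.nd (nat_lit 546) (nat_lit 0) (nat_lit 0) (XT.nd (nat_lit 234) (nat_lit 0) (nat_lit 0) (XT.nd (nat_lit 78) (nat_lit 0) (nat_lit 0) (XT.lf (nat_lit 0) (nat_lit 74371818439) (nat_lit 76) (nat_lit 422292478105) (nat_lit 76) (nat_lit 403411260687) (nat_lit 1) (nat_lit 4) (nat_lit 2) (nat_lit 5) (nat_lit 2) (nat_lit 4) (nat_lit 347) (nat_lit 264) (nat_lit 169)) (XT.nd (nat_lit 78) (nat_lit 0) (nat_lit 0) (XT.lf (nat_lit 0) (nat_lit 104161901782) (nat_lit 76) (nat_lit 442910788232) (nat_lit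 76) (nat_lit 424028635990) (nat_lit 1) (nat_lit 4) (nat_lit 2) (nat_lit 5) (nat_lit 2) (nat_lit 4) (nat_lit 348) (nat_lit 264) (nat_lit 168)) (XT.lf (nat_lit 0) (nat_lit 136332922956) (nat_lit 76) (nat_lit 465179672217) (nat_lit 76) (nat_lit 446296654397) (nat_lit 1) (nat_lit 4) (nat_lit 2) (nat_lit 5) (nat_lit 2) (nat_lit 4) (nat_lit 349) (nat_lit 264) (nat_lit 167)))) (XT.nd (nat_lit 156) (nat_lit 0) (nat_lit 0) (XT.nd (nat_lit 78) (nat_lit 0) (nat_lit 0) (XT.lf (nat_lit 0) (nat_lit 171075525050) (nat_lit 76) (nat_lit 489231093816) (nat_lit 76) (nat_lit 470347274536) (nat_lit 1) (nat_lit 4) (nat_lit 2) (nat_lit 5) (nat_lit 2) (nat_lit 4) (nat_lit 350) (nat_lit 264) (nat_lit 166)) (XT.lf (nat_lit 0) (nat_lit 208595590150) (nat_lit 76) (nat_lit 515207579972) (nat_lit 76) (nat_lit 496323018599) (nat_lit 1) (nat_lit 4) (nat_lit 2) (nat_lit 5) (nat_lit 2) (nat_lit 4) (nat_lit 351) (nat_lit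 264) (nat_lit 165))) (XT.nd (nat_lit 78) (nat_lit 0) (nat_lit 0) (XT.lf (nat_lit 0) (nat_lit 249115459382) (nat_lit 76) (nat_lit 543263065418) (nat_lit 76) (nat_lit 524377816922) (nat_lit 1) (nat_lit 4) (nat_lit 2) (nat_lit 5) (nat_lit 2) (nat_lit 4) (nat_lit 352) (nat_lit 264) (nat_lit 164)) (XT.lf (nat_lit 0) (nat_lit 292875250491) (nat_lit 76) (nat_lit 573563804883) (nat_lit 76) (nat_lit 554677920162) (nat_lit 1) (nat_lit 4) (nat_lit 2) (nat_lit 5) (nat_lit 2) (nat_lit 4) (nat_lit 353) (nat_lit 264) (nat_lit 163))))) (XT.nd (nat_lit 312) (nat_lit 0) (nat_lit 0) (XT.nd (nat_lit 156) (nat_lit 0) (nat_lit 0) (XT.nd (nat_lit 78) (nat_lit 0) (nat_lit 0) (XT.lf (nat_lit 0) (nat_lit 340134280758) (nat_lit 76) (nat_lit 606289358305) (nat_lit 76) (nat_lit 587402884486) (nat_lit 1) (nat_lit 4) (nat_lit 2) (nat_lit 5) (nat_lit 2) (nat_lit 4) (nat_lit 354) (nat_lit 264) (nat_lit 162)) (XT.lf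 (nat_lit 0) (nat_lit 391172603694) (nat_lit 76) (nat_lit 641633654888) (nat_lit 76) (nat_lit 622746635608) (nat_lit 1) (nat_lit 4) (nat_lit 2) (nat_lit 5) (nat_lit 2) (nat_lit 4) (nat_lit 355) (nat_lit 264) (nat_lit 161))) (XT.nd (nat_lit 78) (nat_lit 0) (nat_lit 0) (XT.lf (nat_lit 0) (nat_lit 446292668620) (nat_lit 76) (nat_lit 679806142316) (nat_lit 76) (nat_lit 660918617980) (nat_lit 1) (nat_lit 4) (nat_lit 2) (nat_lit 5) (nat_lit 2) (nat_lit 4) (nat_lit 356) (nat_lit 264) (nat_lit 160)) (XT.lf (nat_lit 0) (nat_lit 505821112960) (nat_lit 76) (nat_lit 721033027922) (nat_lit 76) (nat_lit 702145035942) (nat_lit 1) (nat_lit 4) (nat_lit 2) (nat_lit 5) (nat_lit 2) (nat_lit 4) (nat_lit 357) (nat_lit 264) (nat_lit 159)))) (XT.nd (nat_lit 156) (nat_lit 0) (nat_lit 0) (XT.nd (nat_lit 78) (nat_lit 0) (nat_lit 0) (XT.lf (nat_lit 0) (nat_lit 570110697863) (nat_lit 76) (nat_lit 765558619177) (nat_lit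 76) (nat_lit 746670194192) (nat_lit 1) (nat_lit 4) (nat_lit 2) (nat_lit 5) (nat_lit 2) (nat_lit 4) (nat_lit 358) (nat_lit 264) (nat_lit 158)) (XT.lf (nat_lit 0) (nat_lit 639542398649) (nat_lit 76) (nat_lit 813646771435) (nat_lit 76) (nat_lit 794757945521) (nat_lit 1) (nat_lit 4) (nat_lit 2) (nat_lit 5) (nat_lit 2) (nat_lit 4) (nat_lit 359) (nat_lit 264) (nat_lit 157))) (XT.nd (nat_lit 78) (nat_lit 0) (nat_lit 0) (XT.lf (nat_lit 0) (nat_lit 714527662433) (nat_lit 76) (nat_lit 865582451526) (nat_lit 76) (nat_lit 846693254380) (nat_lit 1) (nat_lit 4) (nat_lit 2) (nat_lit 5) (nat_lit 2) (nat_lit 4) (nat_lit 360) (nat_lit 264) (nat_lit 156)) (XT.lf (nat_lit 0) (nat_lit 795510846333) (nat_lit 76) (nat_lit 921673426441) (nat_lit 76) (nat_lit 902783885563) (nat_lit 1) (nat_lit 4) (nat_lit 2) (nat_lit 5) (nat_lit 2) (nat_lit 4) (nat_lit 361) (nat_lit 264) (nat_lit 155)))))) (XT.nd (nat_lit 624)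 (nat_lit 0) (nat_lit 0) (XT.nd (nat_lit 312) (nat_lit 0) (nat_lit 0) (XT.nd (nat_lit 156) (nat_lit 0) (nat_lit 0) (XT.nd (nat_lit 78) (nat_lit 0) (nat_lit 0) (XT.lf (nat_lit 0) (nat_lit 882971850699) (nat_lit 76) (nat_lit 982252087145) (nat_lit 76) (nat_lit 963362227996) (nat_lit 1) (nat_lit 4) (nat_lit 2) (nat_lit 5) (nat_lit 2) (nat_lit 4) (nat_lit 362) (nat_lit 264) (nat_lit 154)) (XT.lf (nat_lit 0) (nat_lit 977428962964) (nat_lit 76) (nat_lit 1047677418292) (nat_lit 76) (nat_lit 1028787264448) (nat_lit 1) (nat_lit 4) (nat_lit 2) (nat_lit 5) (nat_lit 2) (nat_lit 4) (nat_lit 363) (nat_lit 264) (nat_lit 153))) (XT.nd (nat_lit 78) (nat_lit 0) (nat_lit 0) (XT.lf (nat_lit 0) (nat_lit 1079441928979) (nat_lit 76) (nat_lit 1118337125549) (nat_lit 76) (nat_lit 1099446698839) (nat_lit 1) (nat_lit 4) (nat_lit 2) (nat_lit 5) (nat_lit 2) (nat_lit 4) (nat_lit 364) (nat_lit 264) (nat_lit 152)) (XT.lf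 (nat_lit 0) (nat_lit 1189615270023) (nat_lit 76) (nat_lit 1194649933107) (nat_lit 76) (nat_lit 1175759253743) (nat_lit 1) (nat_lit 4) (nat_lit 2) (nat_lit 5) (nat_lit 2) (nat_lit 4) (nat_lit 365) (nat_lit 264) (nat_lit 151)))) (XT.nd (nat_lit 156) (nat_lit 0) (nat_lit 0) (XT.nd (nat_lit 78) (nat_lit 0) (nat_lit 0) (XT.lf (nat_lit 0) (nat_lit 1308601865154) (nat_lit 76) (nat_lit 1277068065011) (nat_lit 76) (nat_lit 1258177151708) (nat_lit 1) (nat_lit 4) (nat_lit 2) (nat_lit 5) (nat_lit 2) (nat_lit 4) (nat_lit 366) (nat_lit 264) (nat_lit 150)) (XT.lf (nat_lit 0) (nat_lit 1437106820122) (nat_lit 76) (nat_lit 1366079925005) (nat_lit 76) (nat_lit 1347188795092) (nat_lit 1) (nat_lit 4) (nat_lit 2) (nat_lit 5) (nat_lit 2) (nat_lit 4) (nat_lit 367) (nat_lit 264) (nat_lit 149))) (XT.nd (nat_lit 78) (nat_lit 0) (nat_lit 0) (XT.lf (nat_lit 0) (nat_lit 1575891645771) (nat_lit 76) (nat_lit 1462212990778)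 (nat_lit 76) (nat_lit 1443321660300) (nat_lit 1) (nat_lit 4) (nat_lit 2) (nat_lit 5) (nat_lit 2) (nat_lit 4) (nat_lit 368) (nat_lit 264) (nat_lit 148)) (XT.lf (nat_lit 0) (nat_lit 1725778770697) (nat_lit 76) (nat_lit 1566036939757) (nat_lit 76) (nat_lit 1547145423571) (nat_lit 1) (nat_lit 4) (nat_lit 2) (nat_lit 5) (nat_lit 2) (nat_lit 4) (nat_lit 369) (nat_lit 264) (nat_lit 147))))) (XT.nd (nat_lit 32682) (nat_lit 0) (nat_lit 3952) (XT.nd (nat_lit 32526) (nat_lit 0) (nat_lit 4256) (XT.nd (nat_lit 32448) (nat_lit 0) (nat_lit 4256) (XT.lf (nat_lit 0) (nat_lit 1887656414900) (nat_lit 76) (nat_lit 1678167024973) (nat_lit 76) (nat_lit 1659275336836) (nat_lit 1) (nat_lit 4) (nat_lit 2) (nat_lit 5) (nat_lit 2) (nat_lit 4) (nat_lit 370) (nat_lit 264) (nat_lit 146)) (XT.lf (nat_lit 0) (nat_lit 1482911917) (nat_lit 380) (nat_lit 1051260665) (nat_lit 380) (nat_lit 1051260665) (nat_lit 57) (nat_lit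 3) (nat_lit 62) (nat_lit 3) (nat_lit 62) (nat_lit 5) (nat_lit 265) (nat_lit 265) (nat_lit 250))) (XT.nd (nat_lit 78) (nat_lit 0) (nat_lit 0) (XT.lf (nat_lit 76) (nat_lit 1296939520) (nat_lit 0) (nat_lit 3349677286) (nat_lit 380) (nat_lit 2680526849) (nat_lit 58) (nat_lit 5) (nat_lit 57) (nat_lit 3) (nat_lit 62) (nat_lit 5) (nat_lit 266) (nat_lit 265) (nat_lit 249)) (XT.lf (nat_lit 76) (nat_lit 5000567869) (nat_lit 0) (nat_lit 1363520456) (nat_lit 380) (nat_lit 1140216193) (nat_lit 58) (nat_lit 5) (nat_lit 57) (nat_lit 3) (nat_lit 62) (nat_lit 5) (nat_lit 267) (nat_lit 265) (nat_lit 248)))) (XT.nd (nat_lit 156) (nat_lit 0) (nat_lit 0) (XT.nd (nat_lit 78) (nat_lit 0) (nat_lit 0) (XT.lf (nat_lit 0) (nat_lit 400932034) (nat_lit 380) (nat_lit 6459389278) (nat_lit 456) (nat_lit 842485796) (nat_lit 53) (nat_lit 5) (nat_lit 58) (nat_lit 5) (nat_lit 59) (nat_lit 5) (nat_lit 268) (nat_lit 265)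 (nat_lit 247)) (XT.lf (nat_lit 0) (nat_lit 1971554339) (nat_lit 380) (nat_lit 2645523764) (nat_lit 456) (nat_lit 3300763388) (nat_lit 53) (nat_lit 5) (nat_lit 58) (nat_lit 5) (nat_lit 59) (nat_lit 5) (nat_lit 269) (nat_lit 265) (nat_lit 246))) (XT.nd (nat_lit 78) (nat_lit 0) (nat_lit 76) (XT.lf (nat_lit 76) (nat_lit 1453830671) (nat_lit 0) (nat_lit 2121305515) (nat_lit 456) (nat_lit 4582768347) (nat_lit 54) (nat_lit 5) (nat_lit 53) (nat_lit 5) (nat_lit 59) (nat_lit 5) (nat_lit 270) (nat_lit 265) (nat_lit 245)) (XT.lf (nat_lit 0) (nat_lit 5275390819) (nat_lit 380) (nat_lit 2496234132) (nat_lit 76) (nat_lit 648457034) (nat_lit 54) (nat_lit 5) (nat_lit 59) (nat_lit 5) (nat_lit 55) (nat_lit 5) (nat_lit 271) (nat_lit 265) (nat_lit 244))))))) (XT.nd (nat_lit 1248) (nat_lit 912) (nat_lit 0) (XT.nd (nat_lit 624) (nat_lit 684) (nat_lit 0) (XT.nd (nat_lit 312) (nat_lit 760) (nat_lit 0) (XT.nd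 (nat_lit 156) (nat_lit 456) (nat_lit 0) (XT.nd (nat_lit 78) (nat_lit 76) (nat_lit 0) (XT.lf (nat_lit 0) (nat_lit 1999891101) (nat_lit 380) (nat_lit 5104199079) (nat_lit 456) (nat_lit 1600101606) (nat_lit 49) (nat_lit 5) (nat_lit 54) (nat_lit 5) (nat_lit 55) (nat_lit 5) (nat_lit 272) (nat_lit 265) (nat_lit 243)) (XT.lf (nat_lit 0) (nat_lit 26891071) (nat_lit 456) (nat_lit 2108211748) (nat_lit 76) (nat_lit 6879119255) (nat_lit 48) (nat_lit 5) (nat_lit 54) (nat_lit 5) (nat_lit 49) (nat_lit 5) (nat_lit 273) (nat_lit 265) (nat_lit 242))) (XT.nd (nat_lit 78) (nat_lit 0) (nat_lit 0) (XT.lf (nat_lit 0) (nat_lit 1695648690) (nat_lit 532) (nat_lit 6509623788) (nat_lit 76) (nat_lit 1140892724) (nat_lit 42) (nat_lit 5) (nat_lit 49) (nat_lit 5) (nat_lit 43) (nat_lit 5) (nat_lit 274) (nat_lit 265) (nat_lit 241)) (XT.lf (nat_lit 0) (nat_lit 3518162806) (nat_lit 532) (nat_lit 1555677558) (nat_lit 76)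 (nat_lit 4629461748) (nat_lit 42) (nat_lit 5) (nat_lit 49) (nat_lit 5) (nat_lit 43) (nat_lit 5) (nat_lit 275) (nat_lit 265) (nat_lit 240)))) (XT.nd (nat_lit 156) (nat_lit 532) (nat_lit 0) (XT.nd (nat_lit 78) (nat_lit 0) (nat_lit 0) (XT.lf (nat_lit 0) (nat_lit 3901375255) (nat_lit 228) (nat_lit 1591578395) (nat_lit 304) (nat_lit 4595777910) (nat_lit 39) (nat_lit 5) (nat_lit 42) (nat_lit 5) (nat_lit 43) (nat_lit 5) (nat_lit 276) (nat_lit 265) (nat_lit 239)) (XT.lf (nat_lit 0) (nat_lit 7638508368) (nat_lit 304) (nat_lit 764319294) (nat_lit 76) (nat_lit 2101367137) (nat_lit 39) (nat_lit 5) (nat_lit 43) (nat_lit 5) (nat_lit 40) (nat_lit 5) (nat_lit 277) (nat_lit 265) (nat_lit 238))) (XT.nd (nat_lit 78) (nat_lit 304) (nat_lit 0) (XT.lf (nat_lit 0) (nat_lit 5226645519) (nat_lit 228) (nat_lit 4819222921) (nat_lit 304) (nat_lit 900019226) (nat_lit 36) (nat_lit 5) (nat_lit 39) (nat_lit 5) (nat_lit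 40) (nat_lit 5) (nat_lit 278) (nat_lit 265) (nat_lit 237)) (XT.lf (nat_lit 0) (nat_lit 211754278) (nat_lit 228) (nat_lit 901222281) (nat_lit 304) (nat_lit 10311662701) (nat_lit 32) (nat_lit 5) (nat_lit 35) (nat_lit 5) (nat_lit 36) (nat_lit 5) (nat_lit 279) (nat_lit 265) (nat_lit 236))))) (XT.nd (nat_lit 312) (nat_lit 380) (nat_lit 0) (XT.nd (nat_lit 156) (nat_lit 152) (nat_lit 0) (XT.nd (nat_lit 78) (nat_lit 152) (nat_lit 0) (XT.lf (nat_lit 0) (nat_lit 3406808838) (nat_lit 304) (nat_lit 5185558973) (nat_lit 76) (nat_lit 3334142392) (nat_lit 32) (nat_lit 5) (nat_lit 36) (nat_lit 5) (nat_lit 33) (nat_lit 5) (nat_lit 280) (nat_lit 265) (nat_lit 235)) (XT.lf (nat_lit 0) (nat_lit 1280005339) (nat_lit 152) (nat_lit 4591569635) (nat_lit 228) (nat_lit 6598112675) (nat_lit 30) (nat_lit 5) (nat_lit 32) (nat_lit 5) (nat_lit 33) (nat_lit 5) (nat_lit 281) (nat_lit 265) (nat_lit 234))) (XT.nd (nat_lit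 78) (nat_lit 152) (nat_lit 0) (XT.lf (nat_lit 0) (nat_lit 8475292700) (nat_lit 152) (nat_lit 136209966) (nat_lit 228) (nat_lit 4438718028) (nat_lit 30) (nat_lit 5) (nat_lit 32) (nat_lit 5) (nat_lit 33) (nat_lit 5) (nat_lit 282) (nat_lit 265) (nat_lit 233)) (XT.lf (nat_lit 0) (nat_lit 2500899732) (nat_lit 152) (nat_lit 9182828484) (nat_lit 228) (nat_lit 1984549340) (nat_lit 28) (nat_lit 5) (nat_lit 30) (nat_lit 5) (nat_lit 31) (nat_lit 5) (nat_lit 283) (nat_lit 265) (nat_lit 232)))) (XT.nd (nat_lit 156) (nat_lit 152) (nat_lit 0) (XT.nd (nat_lit 78) (nat_lit 152) (nat_lit 0) (XT.lf (nat_lit 0) (nat_lit 705941627) (nat_lit 228) (nat_lit 4027516134) (nat_lit 76) (nat_lit 9595286714) (nat_lit 27) (nat_lit 5) (nat_lit 30) (nat_lit 5) (nat_lit 28) (nat_lit 5) (nat_lit 284) (nat_lit 265) (nat_lit 231)) (XT.lf (nat_lit 0) (nat_lit 3545136775) (nat_lit 228) (nat_lit 11296649116) (nat_lit 76) (nat_lit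 192987322) (nat_lit 25) (nat_lit 5) (nat_lit 28) (nat_lit 5) (nat_lit 26) (nat_lit 5) (nat_lit 285) (nat_lit 265) (nat_lit 230))) (XT.nd (nat_lit 78) (nat_lit 152) (nat_lit 0) (XT.lf (nat_lit 0) (nat_lit 6794873418) (nat_lit 228) (nat_lit 3637871979) (nat_lit 76) (nat_lit 5349961545) (nat_lit 25) (nat_lit 5) (nat_lit 28) (nat_lit 5) (nat_lit 26) (nat_lit 5) (nat_lit 286) (nat_lit 265) (nat_lit 229)) (XT.lf (nat_lit 0) (nat_lit 4801916760) (nat_lit 152) (nat_lit 5569528124) (nat_lit 228) (nat_lit 6213770125) (nat_lit 23) (nat_lit 5) (nat_lit 25) (nat_lit 5) (nat_lit 26) (nat_lit 5) (nat_lit 287) (nat_lit 265) (nat_lit 228)))))) (XT.nd (nat_lit 624) (nat_lit 304) (nat_lit 0) (XT.nd (nat_lit 312) (nat_lit 304) (nat_lit 0) (XT.nd (nat_lit 156) (nat_lit 152) (nat_lit 0) (XT.nd (nat_lit 78) (nat_lit 152) (nat_lit 0) (XT.lf (nat_lit 0) (nat_lit 14053696014) (nat_lit 152) (nat_lit 233198386)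 (nat_lit 228) (nat_lit 3160890723) (nat_lit 23) (nat_lit 5) (nat_lit 25) (nat_lit 5) (nat_lit 26) (nat_lit 5) (nat_lit 288) (nat_lit 265) (nat_lit 227)) (XT.lf (nat_lit 0) (nat_lit 362831666) (nat_lit 152) (nat_lit 12617265764) (nat_lit 76) (nat_lit 5380397126) (nat_lit 21) (nat_lit 5) (nat_lit 23) (nat_lit 5) (nat_lit 22) (nat_lit 5) (nat_lit 289) (nat_lit 265) (nat_lit 226))) (XT.nd (nat_lit 78) (nat_lit 152) (nat_lit 0) (XT.lf (nat_lit 0) (nat_lit 4055666063) (nat_lit 152) (nat_lit 3693338945) (nat_lit 76) (nat_lit 11586073664) (nat_lit 21) (nat_lit 5) (nat_lit 23) (nat_lit 5) (nat_lit 22) (nat_lit 5) (nat_lit 290) (nat_lit 265) (nat_lit 225)) (XT.lf (nat_lit 0) (nat_lit 6190733256) (nat_lit 152) (nat_lit 1962003928) (nat_lit 228) (nat_lit 12226247504) (nat_lit 19) (nat_lit 5) (nat_lit 21) (nat_lit 5) (nat_lit 22) (nat_lit 5) (nat_lit 291) (nat_lit 265) (nat_lit 224)))) (XT.nd (nat_lit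 156) (nat_lit 228) (nat_lit 0) (XT.nd (nat_lit 78) (nat_lit 76) (nat_lit 0) (XT.lf (nat_lit 0) (nat_lit 12745149551) (nat_lit 228) (nat_lit 4592930170) (nat_lit 76) (nat_lit 4154972945) (nat_lit 19) (nat_lit 5) (nat_lit 22) (nat_lit 5) (nat_lit 20) (nat_lit 4) (nat_lit 292) (nat_lit 265) (nat_lit 223)) (XT.lf (nat_lit 0) (nat_lit 5957410295) (nat_lit 76) (nat_lit 11905526733) (nat_lit 152) (nat_lit 4820721899) (nat_lit 18) (nat_lit 5) (nat_lit 19) (nat_lit 5) (nat_lit 20) (nat_lit 4) (nat_lit 293) (nat_lit 265) (nat_lit 222))) (XT.nd (nat_lit 78) (nat_lit 228) (nat_lit 0) (XT.lf (nat_lit 0) (nat_lit 17554833219) (nat_lit 76) (nat_lit 5925925321) (nat_lit 152) (nat_lit 481553870) (nat_lit 18) (nat_lit 5) (nat_lit 19) (nat_lit 5) (nat_lit 20) (nat_lit 4) (nat_lit 294) (nat_lit 265) (nat_lit 221)) (XT.lf (nat_lit 0) (nat_lit 4094994761) (nat_lit 228) (nat_lit 20525279490) (nat_lit 76) (nat_lit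 706887936) (nat_lit 15) (nat_lit 5) (nat_lit 18) (nat_lit 5) (nat_lit 16) (nat_lit 4) (nat_lit 295) (nat_lit 265) (nat_lit 220))))) (XT.nd (nat_lit 312) (nat_lit 228) (nat_lit 0) (XT.nd (nat_lit 156) (nat_lit 0) (nat_lit 0) (XT.nd (nat_lit 78) (nat_lit 76) (nat_lit 0) (XT.lf (nat_lit 0) (nat_lit 9312680348) (nat_lit 228) (nat_lit 9742069547) (nat_lit 76) (nat_lit 7721404853) (nat_lit 15) (nat_lit 5) (nat_lit 18) (nat_lit 5) (nat_lit 16) (nat_lit 4) (nat_lit 296) (nat_lit 265) (nat_lit 219)) (XT.lf (nat_lit 0) (nat_lit 1949174032) (nat_lit 76) (nat_lit 13015268755) (nat_lit 152) (nat_lit 13375325957) (nat_lit 14) (nat_lit 5) (nat_lit 15) (nat_lit 5) (nat_lit 16) (nat_lit 4) (nat_lit 297) (nat_lit 265) (nat_lit 218))) (XT.nd (nat_lit 78) (nat_lit 0) (nat_lit 0) (XT.lf (nat_lit 0) (nat_lit 15078948205) (nat_lit 76) (nat_lit 6226564027) (nat_lit 152) (nat_lit 8704018746) (nat_lit 14) (nat_lit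 5) (nat_lit 15) (nat_lit 5) (nat_lit 16) (nat_lit 4) (nat_lit 298) (nat_lit 265) (nat_lit 217)) (XT.lf (nat_lit 0) (nat_lit 28152930483) (nat_lit 152) (nat_lit 2629107955) (nat_lit 0) (nat_lit 1030940692) (nat_lit 14) (nat_lit 5) (nat_lit 16) (nat_lit 4) (nat_lit 14) (nat_lit 4) (nat_lit 299) (nat_lit 265) (nat_lit 216)))) (XT.nd (nat_lit 156) (nat_lit 76) (nat_lit 0) (XT.nd (nat_lit 78) (nat_lit 0) (nat_lit 0) (XT.lf (nat_lit 0) (nat_lit 2109204690) (nat_lit 152) (nat_lit 22782196344) (nat_lit 76) (nat_lit 8832994337) (nat_lit 12) (nat_lit 5) (nat_lit 14) (nat_lit 5) (nat_lit 13) (nat_lit 4) (nat_lit 300) (nat_lit 265) (nat_lit 215)) (XT.lf (nat_lit 0) (nat_lit 8190697223) (nat_lit 152) (nat_lit 10176536607) (nat_lit 76) (nat_lit 17410034670) (nat_lit 12) (nat_lit 5) (nat_lit 14) (nat_lit 5) (nat_lit 13) (nat_lit 4) (nat_lit 301) (nat_lit 265) (nat_lit 214))) (XT.nd (nat_lit 78) (nat_lit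 0) (nat_lit 0) (XT.lf (nat_lit 0) (nat_lit 3574381510) (nat_lit 76) (nat_lit 11246851814) (nat_lit 152) (nat_lit 23168158271) (nat_lit 11) (nat_lit 5) (nat_lit 12) (nat_lit 5) (nat_lit 13) (nat_lit 4) (nat_lit 302) (nat_lit 265) (nat_lit 213)) (XT.lf (nat_lit 0) (nat_lit 18963185570) (nat_lit 76) (nat_lit 3274583258) (nat_lit 152) (nat_lit 18120291605) (nat_lit 11) (nat_lit 5) (nat_lit 12) (nat_lit 5) (nat_lit 13) (nat_lit 4) (nat_lit 303) (nat_lit 265) (nat_lit 212))))))))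
noncomputable def xc59 : XT := (XT.nd (nat_lit 2496) (nat_lit 76) (nat_lit 0) (XT.nd (nat_lit 1248) (nat_lit 228) (nat_lit 0) (XT.nd (nat_lit 624) (nat_lit 228) (nat_lit 0) (XT.nd (nat_lit 312) (nat_lit 76) (nat_lit 0) (XT.nd (nat_lit 156) (nat_lit 76) (nat_lit 0) (XT.nd (nat_lit 78) (nat_lit 76) (nat_lit 0) (XT.lf (nat_lit 0) (nat_lit 30354531484) (nat_lit 152) (nat_lit 7500643923) (nat_lit 0) (nat_lit 5052513933) (nat_lit 11) (nat_lit 5) (nat_lit 13) (nat_lit 4) (nat_lit 11) (nat_lit 4) (nat_lit 304) (nat_lit 265) (nat_lit 211)) (XT.lf (nat_lit 0) (nat_lit 7772594529) (nat_lit 76) (nat_lit 31600198232) (nat_lit 76) (nat_lit 6268340693) (nat_lit 10) (nat_lit 4) (nat_lit 11) (nat_lit 5) (nat_lit 11) (nat_lit 4) (nat_lit 305) (nat_lit 265) (nat_lit 210))) (XT.nd (nat_lit 78) (nat_lit 0) (nat_lit 0) (XT.lf (nat_lit 0) (nat_lit 683969948) (nat_lit 152) (nat_lit 23936829664) (nat_lit 76)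 (nat_lit 23956214735) (nat_lit 9) (nat_lit 5) (nat_lit 11) (nat_lit 5) (nat_lit 10) (nat_lit 4) (nat_lit 306) (nat_lit 265) (nat_lit 209)) (XT.lf (nat_lit 0) (nat_lit 7835549278) (nat_lit 152) (nat_lit 9087127637) (nat_lit 76) (nat_lit 34813538605) (nat_lit 9) (nat_lit 5) (nat_lit 11) (nat_lit 5) (nat_lit 10) (nat_lit 4) (nat_lit 307) (nat_lit 265) (nat_lit 208)))) (XT.nd (nat_lit 156) (nat_lit 0) (nat_lit 0) (XT.nd (nat_lit 78) (nat_lit 0) (nat_lit 0) (XT.lf (nat_lit 0) (nat_lit 7283678216) (nat_lit 76) (nat_lit 8433839233) (nat_lit 152) (nat_lit 39417987204) (nat_lit 8) (nat_lit 5) (nat_lit 9) (nat_lit 5) (nat_lit 10) (nat_lit 4) (nat_lit 308) (nat_lit 265) (nat_lit 207)) (XT.lf (nat_lit 0) (nat_lit 24485882395) (nat_lit 152) (nat_lit 33361453342) (nat_lit 0) (nat_lit 938945949) (nat_lit 8) (nat_lit 5) (nat_lit 10) (nat_lit 4) (nat_lit 8) (nat_lit 4) (nat_lit 309) (nat_lit 265) (nat_lit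 206))) (XT.nd (nat_lit 78) (nat_lit 0) (nat_lit 0) (XT.lf (nat_lit 0) (nat_lit 34159288806) (nat_lit 152) (nat_lit 17960009216) (nat_lit 0) (nat_lit 10593548106) (nat_lit 8) (nat_lit 5) (nat_lit 10) (nat_lit 4) (nat_lit 8) (nat_lit 4) (nat_lit 310) (nat_lit 265) (nat_lit 205)) (XT.lf (nat_lit 0) (nat_lit 44592226537) (nat_lit 152) (nat_lit 1353392208) (nat_lit 0) (nat_lit 21009074491) (nat_lit 8) (nat_lit 5) (nat_lit 10) (nat_lit 4) (nat_lit 8) (nat_lit 4) (nat_lit 311) (nat_lit 265) (nat_lit 204))))) (XT.nd (nat_lit 312) (nat_lit 76) (nat_lit 0) (XT.nd (nat_lit 156) (nat_lit 76) (nat_lit 0) (XT.nd (nat_lit 78) (nat_lit 0) (nat_lit 0) (XT.lf (nat_lit 0) (nat_lit 17428659394) (nat_lit 76) (nat_lit 38837020687) (nat_lit 76) (nat_lit 15237747024) (nat_lit 7) (nat_lit 4) (nat_lit 8) (nat_lit 5) (nat_lit 8) (nat_lit 4) (nat_lit 312) (nat_lit 265) (nat_lit 203)) (XT.lf (nat_lit 0) (nat_lit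 37765928411) (nat_lit 76) (nat_lit 31131205594) (nat_lit 76) (nat_lit 7517004508) (nat_lit 7) (nat_lit 4) (nat_lit 8) (nat_lit 5) (nat_lit 8) (nat_lit 4) (nat_lit 313) (nat_lit 265) (nat_lit 202))) (XT.nd (nat_lit 78) (nat_lit 0) (nat_lit 0) (XT.lf (nat_lit 0) (nat_lit 768064347) (nat_lit 152) (nat_lit 22030448930) (nat_lit 76) (nat_lit 58918600168) (nat_lit 6) (nat_lit 5) (nat_lit 8) (nat_lit 5) (nat_lit 7) (nat_lit 4) (nat_lit 314) (nat_lit 265) (nat_lit 201)) (XT.lf (nat_lit 0) (nat_lit 9298488707) (nat_lit 152) (nat_lit 4299964121) (nat_lit 76) (nat_lit 73831167667) (nat_lit 6) (nat_lit 5) (nat_lit 8) (nat_lit 5) (nat_lit 7) (nat_lit 4) (nat_lit 315) (nat_lit 265) (nat_lit 200)))) (XT.nd (nat_lit 156) (nat_lit 0) (nat_lit 0) (XT.nd (nat_lit 78) (nat_lit 0) (nat_lit 0) (XT.lf (nat_lit 0) (nat_lit 15609972024) (nat_lit 76) (nat_lit 3266298420) (nat_lit 152) (nat_lit 74693670226) (nat_lit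 5) (nat_lit 5) (nat_lit 6) (nat_lit 5) (nat_lit 7) (nat_lit 4) (nat_lit 316) (nat_lit 265) (nat_lit 199)) (XT.lf (nat_lit 0) (nat_lit 29520304742) (nat_lit 152) (nat_lit 63047660721) (nat_lit 0) (nat_lit 7609524554) (nat_lit 5) (nat_lit 5) (nat_lit 7) (nat_lit 4) (nat_lit 5) (nat_lit 4) (nat_lit 317) (nat_lit 265) (nat_lit 198))) (XT.nd (nat_lit 78) (nat_lit 0) (nat_lit 0) (XT.lf (nat_lit 0) (nat_lit 41091066036) (nat_lit 152) (nat_lit 47045687415) (nat_lit 0) (nat_lit 19170879039) (nat_lit 5) (nat_lit 5) (nat_lit 7) (nat_lit 4) (nat_lit 5) (nat_lit 4) (nat_lit 318) (nat_lit 265) (nat_lit 197)) (XT.lf (nat_lit 0) (nat_lit 53578567244) (nat_lit 152) (nat_lit 29780667665) (nat_lit 0) (nat_lit 31649670240) (nat_lit 5) (nat_lit 5) (nat_lit 7) (nat_lit 4) (nat_lit 5) (nat_lit 4) (nat_lit 319) (nat_lit 265) (nat_lit 196)))))) (XT.nd (nat_lit 624) (nat_lit 152) (nat_lit 0) (XT.nd (nat_lit 312)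 (nat_lit 0) (nat_lit 0) (XT.nd (nat_lit 156) (nat_lit 0) (nat_lit 0) (XT.nd (nat_lit 78) (nat_lit 76) (nat_lit 0) (XT.lf (nat_lit 0) (nat_lit 67056808374) (nat_lit 152) (nat_lit 11150290242) (nat_lit 0) (nat_lit 45119846548) (nat_lit 5) (nat_lit 5) (nat_lit 7) (nat_lit 4) (nat_lit 5) (nat_lit 4) (nat_lit 320) (nat_lit 265) (nat_lit 195)) (XT.lf (nat_lit 0) (nat_lit 9427446125) (nat_lit 76) (nat_lit 72404944666) (nat_lit 76) (nat_lit 50460515412) (nat_lit 4) (nat_lit 4) (nat_lit 5) (nat_lit 5) (nat_lit 5) (nat_lit 4) (nat_lit 321) (nat_lit 265) (nat_lit 194))) (XT.nd (nat_lit 78) (nat_lit 0) (nat_lit 0) (XT.lf (nat_lit 0) (nat_lit 32271229403) (nat_lit 76) (nat_lit 65816233437) (nat_lit 76) (nat_lit 43864889898) (nat_lit 4) (nat_lit 4) (nat_lit 5) (nat_lit 5) (nat_lit 5) (nat_lit 4) (nat_lit 322) (nat_lit 265) (nat_lit 193)) (XT.lf (nat_lit 0) (nat_lit 56929275634) (nat_lit 76) (nat_lit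 58706789410) (nat_lit 76) (nat_lit 36749043754) (nat_lit 4) (nat_lit 4) (nat_lit 5) (nat_lit 5) (nat_lit 5) (nat_lit 4) (nat_lit 323) (nat_lit 265) (nat_lit 192)))) (XT.nd (nat_lit 156) (nat_lit 0) (nat_lit 0) (XT.nd (nat_lit 78) (nat_lit 0) (nat_lit 0) (XT.lf (nat_lit 0) (nat_lit 83547706575) (nat_lit 76) (nat_lit 51034482545) (nat_lit 76) (nat_lit 29070809005) (nat_lit 4) (nat_lit 4) (nat_lit 5) (nat_lit 5) (nat_lit 5) (nat_lit 4) (nat_lit 324) (nat_lit 265) (nat_lit 191)) (XT.lf (nat_lit 0) (nat_lit 112284261075) (nat_lit 76) (nat_lit 42753847323) (nat_lit 76) (nat_lit 20784685000) (nat_lit 4) (nat_lit 4) (nat_lit 5) (nat_lit 5) (nat_lit 5) (nat_lit 4) (nat_lit 325) (nat_lit 265) (nat_lit 190))) (XT.nd (nat_lit 78) (nat_lit 0) (nat_lit 0) (XT.lf (nat_lit 0) (nat_lit 143309229827) (nat_lit 76) (nat_lit 33815813310) (nat_lit 76) (nat_lit 11841568781) (nat_lit 4) (nat_lit 4) (nat_lit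 5) (nat_lit 5) (nat_lit 5) (nat_lit 4) (nat_lit 326) (nat_lit 265) (nat_lit 189)) (XT.lf (nat_lit 0) (nat_lit 176806464499) (nat_lit 76) (nat_lit 24167414380) (nat_lit 76) (nat_lit 2188464105) (nat_lit 4) (nat_lit 4) (nat_lit 5) (nat_lit 5) (nat_lit 5) (nat_lit 4) (nat_lit 327) (nat_lit 265) (nat_lit 188))))) (XT.nd (nat_lit 312) (nat_lit 0) (nat_lit 0) (XT.nd (nat_lit 156) (nat_lit 0) (nat_lit 0) (XT.nd (nat_lit 78) (nat_lit 76) (nat_lit 0) (XT.lf (nat_lit 0) (nat_lit 7820043004) (nat_lit 152) (nat_lit 5717617996) (nat_lit 76) (nat_lit 204940610381) (nat_lit 3) (nat_lit 5) (nat_lit 5) (nat_lit 5) (nat_lit 4) (nat_lit 4) (nat_lit 328) (nat_lit 265) (nat_lit 187)) (XT.lf (nat_lit 0) (nat_lit 17375471929) (nat_lit 76) (nat_lit 1548957779) (nat_lit 152) (nat_lit 216057424443) (nat_lit 2) (nat_lit 5) (nat_lit 3) (nat_lit 5) (nat_lit 4) (nat_lit 4) (nat_lit 329) (nat_lit 265) (nat_lit 186)))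 (XT.nd (nat_lit 78) (nat_lit 0) (nat_lit 0) (XT.lf (nat_lit 0) (nat_lit 31347283597) (nat_lit 152) (nat_lit 210438857817) (nat_lit 0) (nat_lit 10985174857) (nat_lit 2) (nat_lit 5) (nat_lit 4) (nat_lit 4) (nat_lit 2) (nat_lit 4) (nat_lit 330) (nat_lit 265) (nat_lit 185)) (XT.lf (nat_lit 0) (nat_lit 44800109120) (nat_lit 152) (nat_lit 202746138925) (nat_lit 0) (nat_lit 24434797728) (nat_lit 2) (nat_lit 5) (nat_lit 4) (nat_lit 4) (nat_lit 2) (nat_lit 4) (nat_lit 331) (nat_lit 265) (nat_lit 184)))) (XT.nd (nat_lit 156) (nat_lit 0) (nat_lit 0) (XT.nd (nat_lit 78) (nat_lit 0) (nat_lit 0) (XT.lf (nat_lit 0) (nat_lit 59325374254) (nat_lit 152) (nat_lit 194445386592) (nat_lit 0) (nat_lit 38957097444) (nat_lit 2) (nat_lit 5) (nat_lit 4) (nat_lit 4) (nat_lit 2) (nat_lit 4) (nat_lit 332) (nat_lit 265) (nat_lit 183)) (XT.lf (nat_lit 0) (nat_lit 75009154644) (nat_lit 152) (nat_lit 185487411174) (nat_lit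 0) (nat_lit 54638132077) (nat_lit 2) (nat_lit 5) (nat_lit 4) (nat_lit 4) (nat_lit 2) (nat_lit 4) (nat_lit 333) (nat_lit 265) (nat_lit 182))) (XT.nd (nat_lit 78) (nat_lit 0) (nat_lit 0) (XT.lf (nat_lit 0) (nat_lit 91944391211) (nat_lit 152) (nat_lit 175819128373) (nat_lit 0) (nat_lit 71570826275) (nat_lit 2) (nat_lit 5) (nat_lit 4) (nat_lit 4) (nat_lit 2) (nat_lit 4) (nat_lit 334) (nat_lit 265) (nat_lit 181)) (XT.lf (nat_lit 0) (nat_lit 110231440913) (nat_lit 152) (nat_lit 165383244661) (nat_lit 0) (nat_lit 89855521932) (nat_lit 2) (nat_lit 5) (nat_lit 4) (nat_lit 4) (nat_lit 2) (nat_lit 4) (nat_lit 335) (nat_lit 265) (nat_lit 180))))))) (XT.nd (nat_lit 1248) (nat_lit 0) (nat_lit 0) (XT.nd (nat_lit 624) (nat_lit 76) (nat_lit 0) (XT.nd (nat_lit 312) (nat_lit 0) (nat_lit 0) (XT.nd (nat_lit 156) (nat_lit 0) (nat_lit 0) (XT.nd (nat_lit 78) (nat_lit 0) (nat_lit 0) (XT.lf (nat_lit 0) (nat_lit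 129978671451) (nat_lit 152) (nat_lit 154117917763) (nat_lit 0) (nat_lit 109600572799) (nat_lit 2) (nat_lit 5) (nat_lit 4) (nat_lit 4) (nat_lit 2) (nat_lit 4) (nat_lit 336) (nat_lit 265) (nat_lit 179)) (XT.lf (nat_lit 0) (nat_lit 151303103451) (nat_lit 152) (nat_lit 141956390189) (nat_lit 0) (nat_lit 130922986585) (nat_lit 2) (nat_lit 5) (nat_lit 4) (nat_lit 4) (nat_lit 2) (nat_lit 4) (nat_lit 337) (nat_lit 265) (nat_lit 178))) (XT.nd (nat_lit 78) (nat_lit 0) (nat_lit 0) (XT.lf (nat_lit 0) (nat_lit 174331103917) (nat_lit 152) (nat_lit 128826593624) (nat_lit 0) (nat_lit 153949118335) (nat_lit 2) (nat_lit 5) (nat_lit 4) (nat_lit 4) (nat_lit 2) (nat_lit 4) (nat_lit 338) (nat_lit 265) (nat_lit 177)) (XT.lf (nat_lit 0) (nat_lit 199199135074) (nat_lit 152) (nat_lit 114650721869) (nat_lit 0) (nat_lit 178815419199) (nat_lit 2) (nat_lit 5) (nat_lit 4) (nat_lit 4) (nat_lit 2) (nat_lit 4) (nat_lit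 339) (nat_lit 265) (nat_lit 176)))) (XT.nd (nat_lit 156) (nat_lit 0) (nat_lit 0) (XT.nd (nat_lit 78) (nat_lit 0) (nat_lit 0) (XT.lf (nat_lit 0) (nat_lit 226054563033) (nat_lit 152) (nat_lit 99344769757) (nat_lit 0) (nat_lit 205669245034) (nat_lit 2) (nat_lit 5) (nat_lit 4) (nat_lit 4) (nat_lit 2) (nat_lit 4) (nat_lit 340) (nat_lit 265) (nat_lit 175)) (XT.lf (nat_lit 0) (nat_lit 255056531070) (nat_lit 152) (nat_lit 82818035349) (nat_lit 0) (nat_lit 234669729624) (nat_lit 2) (nat_lit 5) (nat_lit 4) (nat_lit 4) (nat_lit 2) (nat_lit 4) (nat_lit 341) (nat_lit 265) (nat_lit 174))) (XT.nd (nat_lit 78) (nat_lit 0) (nat_lit 0) (XT.lf (nat_lit 0) (nat_lit 286376902701) (nat_lit 152) (nat_lit 64972582442) (nat_lit 0) (nat_lit 265988727692) (nat_lit 2) (nat_lit 5) (nat_lit 4) (nat_lit 4) (nat_lit 2) (nat_lit 4) (nat_lit 342) (nat_lit 265) (nat_lit 173)) (XT.lf (nat_lit 0) (nat_lit 320201280126)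 (nat_lit 152) (nat_lit 45702660204) (nat_lit 0) (nat_lit 299811833301) (nat_lit 2) (nat_lit 5) (nat_lit 4) (nat_lit 4) (nat_lit 2) (nat_lit 4) (nat_lit 343) (nat_lit 265) (nat_lit 172))))) (XT.nd (nat_lit 312) (nat_lit 0) (nat_lit 0) (XT.nd (nat_lit 156) (nat_lit 76) (nat_lit 0) (XT.nd (nat_lit 78) (nat_lit 0) (nat_lit 0) (XT.lf (nat_lit 0) (nat_lit 356730104102) (nat_lit 152) (nat_lit 24894076502) (nat_lit 0) (nat_lit 336339479668) (nat_lit 2) (nat_lit 5) (nat_lit 4) (nat_lit 4) (nat_lit 2) (nat_lit 4) (nat_lit 344) (nat_lit 265) (nat_lit 171)) (XT.lf (nat_lit 0) (nat_lit 396179841733) (nat_lit 152) (nat_lit 2423521212) (nat_lit 0) (nat_lit 375788126921) (nat_lit 2) (nat_lit 5) (nat_lit 4) (nat_lit 4) (nat_lit 2) (nat_lit 4) (nat_lit 345) (nat_lit 265) (nat_lit 170))) (XT.nd (nat_lit 78) (nat_lit 0) (nat_lit 0) (XT.lf (nat_lit 0) (nat_lit 22992334188) (nat_lit 76) (nat_lit 416344901243)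 (nat_lit 76) (nat_lit 395952176822) (nat_lit 1) (nat_lit 4) (nat_lit 2) (nat_lit 5) (nat_lit 2) (nat_lit 4) (nat_lit 346) (nat_lit 265) (nat_lit 169)) (XT.lf (nat_lit 0) (nat_lit 50576835477) (nat_lit 76) (nat_lit 435435395942) (nat_lit 76) (nat_lit 415041736697) (nat_lit 1) (nat_lit 4) (nat_lit 2) (nat_lit 5) (nat_lit 2) (nat_lit 4) (nat_lit 347) (nat_lit 265) (nat_lit 168)))) (XT.nd (nat_lit 156) (nat_lit 0) (nat_lit 0) (XT.nd (nat_lit 78) (nat_lit 0) (nat_lit 0) (XT.lf (nat_lit 0) (nat_lit 80365828034) (nat_lit 76) (nat_lit 456054239265) (nat_lit 76) (nat_lit 435659714443) (nat_lit 1) (nat_lit 4) (nat_lit 2) (nat_lit 5) (nat_lit 2) (nat_lit 4) (nat_lit 348) (nat_lit 265) (nat_lit 167)) (XT.lf (nat_lit 0) (nat_lit 112535839220) (nat_lit 76) (nat_lit 478323616950) (nat_lit 76) (nat_lit 457928290667) (nat_lit 1) (nat_lit 4) (nat_lit 2) (nat_lit 5) (nat_lit 2) (nat_lit 4) (nat_lit 349)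 (nat_lit 265) (nat_lit 166))) (XT.nd (nat_lit 78) (nat_lit 0) (nat_lit 0) (XT.lf (nat_lit 0) (nat_lit 147277506140) (nat_lit 76) (nat_lit 502375495678) (nat_lit 76) (nat_lit 481979427302) (nat_lit 1) (nat_lit 4) (nat_lit 2) (nat_lit 5) (nat_lit 2) (nat_lit 4) (nat_lit 350) (nat_lit 265) (nat_lit 165)) (XT.lf (nat_lit 0) (nat_lit 184796705339) (nat_lit 76) (nat_lit 528352405102) (nat_lit 76) (nat_lit 507955649603) (nat_lit 1) (nat_lit 4) (nat_lit 2) (nat_lit 5) (nat_lit 2) (nat_lit 4) (nat_lit 351) (nat_lit 265) (nat_lit 164)))))) (XT.nd (nat_lit 624) (nat_lit 0) (nat_lit 0) (XT.nd (nat_lit 312) (nat_lit 0) (nat_lit 0) (XT.nd (nat_lit 156) (nat_lit 0) (nat_lit 0) (XT.nd (nat_lit 78) (nat_lit 0) (nat_lit 0) (XT.lf (nat_lit 0) (nat_lit 225315772811) (nat_lit 76) (nat_lit 556408282464) (nat_lit 76) (nat_lit 536010890739) (nat_lit 1) (nat_lit 4) (nat_lit 2) (nat_lit 5) (nat_lit 2) (nat_lit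 4) (nat_lit 352) (nat_lit 265) (nat_lit 163)) (XT.lf (nat_lit 0) (nat_lit 269074821549) (nat_lit 76) (nat_lit 586709384813) (nat_lit 76) (nat_lit 566311403991) (nat_lit 1) (nat_lit 4) (nat_lit 2) (nat_lit 5) (nat_lit 2) (nat_lit 4) (nat_lit 353) (nat_lit 265) (nat_lit 162))) (XT.nd (nat_lit 78) (nat_lit 0) (nat_lit 0) (XT.lf (nat_lit 0) (nat_lit 316333164434) (nat_lit 76) (nat_lit 619435274238) (nat_lit 76) (nat_lit 599036747956) (nat_lit 1) (nat_lit 4) (nat_lit 2) (nat_lit 5) (nat_lit 2) (nat_lit 4) (nat_lit 354) (nat_lit 265) (nat_lit 161)) (XT.lf (nat_lit 0) (nat_lit 367370850907) (nat_lit 76) (nat_lit 654779881936) (nat_lit 76) (nat_lit 634380850597) (nat_lit 1) (nat_lit 4) (nat_lit 2) (nat_lit 5) (nat_lit 2) (nat_lit 4) (nat_lit 355) (nat_lit 265) (nat_lit 160)))) (XT.nd (nat_lit 156) (nat_lit 0) (nat_lit 0) (XT.nd (nat_lit 78) (nat_lit 0) (nat_lit 0) (XT.lf (nat_lit 0) (nat_lit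 422490326515) (nat_lit 76) (nat_lit 692952657433) (nat_lit 76) (nat_lit 672553158450) (nat_lit 1) (nat_lit 4) (nat_lit 2) (nat_lit 5) (nat_lit 2) (nat_lit 4) (nat_lit 356) (nat_lit 265) (nat_lit 159)) (XT.lf (nat_lit 0) (nat_lit 482018225190) (nat_lit 76) (nat_lit 734179809770) (nat_lit 76) (nat_lit 713779877783) (nat_lit 1) (nat_lit 4) (nat_lit 2) (nat_lit 5) (nat_lit 2) (nat_lit 4) (nat_lit 357) (nat_lit 265) (nat_lit 158))) (XT.nd (nat_lit 78) (nat_lit 0) (nat_lit 0) (XT.lf (nat_lit 0) (nat_lit 546307304848) (nat_lit 76) (nat_lit 778705647997) (nat_lit 76) (nat_lit 758305315080) (nat_lit 1) (nat_lit 4) (nat_lit 2) (nat_lit 5) (nat_lit 2) (nat_lit 4) (nat_lit 358) (nat_lit 265) (nat_lit 157)) (XT.lf (nat_lit 0) (nat_lit 615738537814) (nat_lit 76) (nat_lit 826794028934) (nat_lit 76) (nat_lit 806393324786) (nat_lit 1) (nat_lit 4) (nat_lit 2) (nat_lit 5) (nat_lit 2) (nat_lit 4) (nat_lit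 359) (nat_lit 265) (nat_lit 156))))) (XT.nd (nat_lit 312) (nat_lit 0) (nat_lit 0) (XT.nd (nat_lit 156) (nat_lit 0) (nat_lit 0) (XT.nd (nat_lit 78) (nat_lit 0) (nat_lit 0) (XT.lf (nat_lit 0) (nat_lit 690723368432) (nat_lit 76) (nat_lit 878729920764) (nat_lit 76) (nat_lit 858328872883) (nat_lit 1) (nat_lit 4) (nat_lit 2) (nat_lit 5) (nat_lit 2) (nat_lit 4) (nat_lit 360) (nat_lit 265) (nat_lit 155)) (XT.lf (nat_lit 0) (nat_lit 771706151252) (nat_lit 76) (nat_lit 934821091735) (nat_lit 76) (nat_lit 914419725583) (nat_lit 1) (nat_lit 4) (nat_lit 2) (nat_lit 5) (nat_lit 2) (nat_lit 4) (nat_lit 361) (nat_lit 265) (nat_lit 154))) (XT.nd (nat_lit 78) (nat_lit 0) (nat_lit 0) (XT.lf (nat_lit 0) (nat_lit 859166784248) (nat_lit 76) (nat_lit 995399933971) (nat_lit 76) (nat_lit 974998273124) (nat_lit 1) (nat_lit 4) (nat_lit 2) (nat_lit 5) (nat_lit 2) (nat_lit 4) (nat_lit 362) (nat_lit 265) (nat_lit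 153)) (XT.lf (nat_lit 0) (nat_lit 953623552651) (nat_lit 76) (nat_lit 1060825433204) (nat_lit 76) (nat_lit 1040423499490) (nat_lit 1) (nat_lit 4) (nat_lit 2) (nat_lit 5) (nat_lit 2) (nat_lit 4) (nat_lit 363) (nat_lit 265) (nat_lit 152)))) (XT.nd (nat_lit 156) (nat_lit 0) (nat_lit 0) (XT.nd (nat_lit 78) (nat_lit 0) (nat_lit 0) (XT.lf (nat_lit 0) (nat_lit 1055636200276) (nat_lit 76) (nat_lit 1131485296095) (nat_lit 76) (nat_lit 1111083109728) (nat_lit 1) (nat_lit 4) (nat_lit 2) (nat_lit 5) (nat_lit 2) (nat_lit 4) (nat_lit 364) (nat_lit 265) (nat_lit 151)) (XT.lf (nat_lit 0) (nat_lit 1165809246514) (nat_lit 76) (nat_lit 1207798247760) (nat_lit 76) (nat_lit 1187395827454) (nat_lit 1) (nat_lit 4) (nat_lit 2) (nat_lit 5) (nat_lit 2) (nat_lit 4) (nat_lit 365) (nat_lit 265) (nat_lit 150))) (XT.nd (nat_lit 78) (nat_lit 0) (nat_lit 0) (XT.lf (nat_lit 0) (nat_lit 1284795568677) (nat_lit 76) (nat_lit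 1290216513095) (nat_lit 76) (nat_lit 1269813876179) (nat_lit 1) (nat_lit 4) (nat_lit 2) (nat_lit 5) (nat_lit 2) (nat_lit 4) (nat_lit 366) (nat_lit 265) (nat_lit 149)) (XT.lf (nat_lit 0) (nat_lit 1413300270897) (nat_lit 76) (nat_lit 1379228496637) (nat_lit 76) (nat_lit 1358825659157) (nat_lit 1) (nat_lit 4) (nat_lit 2) (nat_lit 5) (nat_lit 2) (nat_lit 4) (nat_lit 367) (nat_lit 265) (nat_lit 148))))))))
noncomputable def xc60 : XT := (XT.nd (nat_lit 34866) (nat_lit 0) (nat_lit 228) (XT.nd (nat_lit 33618) (nat_lit 0) (nat_lit 1368) (XT.nd (nat_lit 32994) (nat_lit 0) (nat_lit 2888) (XT.nd (nat_lit 32682) (nat_lit 0) (nat_lit 3876) (XT.nd (nat_lit 78) (nat_lit 0) (nat_lit 0) (XT.lf (nat_lit 0) (nat_lit 1552084862520) (nat_lit 76) (nat_lit 1475361676806) (nat_lit 76) (nat_lit 1454958653618) (nat_lit 1) (nat_lit 4) (nat_lit 2) (nat_lit 5) (nat_lit 2) (nat_lit 4) (nat_lit 368) (nat_lit 265)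 (nat_lit 147)) (XT.nd (nat_lit 78) (nat_lit 0) (nat_lit 0) (XT.lf (nat_lit 0) (nat_lit 1701971770755) (nat_lit 76) (nat_lit 1579185731708) (nat_lit 76) (nat_lit 1558782536568) (nat_lit 1) (nat_lit 4) (nat_lit 2) (nat_lit 5) (nat_lit 2) (nat_lit 4) (nat_lit 369) (nat_lit 265) (nat_lit 146)) (XT.lf (nat_lit 0) (nat_lit 1863849214318) (nat_lit 76) (nat_lit 1691315915000) (nat_lit 76) (nat_lit 1670912560645) (nat_lit 1) (nat_lit 4) (nat_lit 2) (nat_lit 5) (nat_lit 2) (nat_lit 4) (nat_lit 370) (nat_lit 265) (nat_lit 145)))) (XT.nd (nat_lit 156) (nat_lit 0) (nat_lit 0) (XT.nd (nat_lit 78) (nat_lit 380) (nat_lit 0) (XT.lf (nat_lit 0) (nat_lit 3095693630) (nat_lit 380) (nat_lit 325795995) (nat_lit 380) (nat_lit 325795995) (nat_lit 57) (nat_lit 3) (nat_lit 62) (nat_lit 3) (nat_lit 62) (nat_lit 5) (nat_lit 266) (nat_lit 266) (nat_lit 248)) (XT.lf (nat_lit 0) (nat_lit 137188389) (nat_lit 380) (nat_lit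 4703468180) (nat_lit 456) (nat_lit 2837895705) (nat_lit 52) (nat_lit 5) (nat_lit 57) (nat_lit 3) (nat_lit 58) (nat_lit 5) (nat_lit 267) (nat_lit 266) (nat_lit 247))) (XT.nd (nat_lit 78) (nat_lit 0) (nat_lit 76) (XT.lf (nat_lit 0) (nat_lit 1503630129) (nat_lit 380) (nat_lit 1063745305) (nat_lit 456) (nat_lit 5317112356) (nat_lit 52) (nat_lit 5) (nat_lit 57) (nat_lit 3) (nat_lit 58) (nat_lit 5) (nat_lit 268) (nat_lit 266) (nat_lit 246)) (XT.lf (nat_lit 0) (nat_lit 2923504694) (nat_lit 380) (nat_lit 5174489527) (nat_lit 456) (nat_lit 13785217) (nat_lit 53) (nat_lit 5) (nat_lit 58) (nat_lit 5) (nat_lit 59) (nat_lit 5) (nat_lit 269) (nat_lit 266) (nat_lit 245))))) (XT.nd (nat_lit 312) (nat_lit 684) (nat_lit 0) (XT.nd (nat_lit 156) (nat_lit 380) (nat_lit 0) (XT.nd (nat_lit 78) (nat_lit 0) (nat_lit 0) (XT.lf (nat_lit 0) (nat_lit 4435295442) (nat_lit 380) (nat_lit 1188970393) (nat_lit 456) (nat_lit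 2735102752) (nat_lit 53) (nat_lit 5) (nat_lit 58) (nat_lit 5) (nat_lit 59) (nat_lit 5) (nat_lit 270) (nat_lit 266) (nat_lit 244)) (XT.lf (nat_lit 76) (nat_lit 3196099605) (nat_lit 0) (nat_lit 2839352612) (nat_lit 456) (nat_lit 2594270932) (nat_lit 54) (nat_lit 5) (nat_lit 53) (nat_lit 5) (nat_lit 59) (nat_lit 5) (nat_lit 271) (nat_lit 266) (nat_lit 243))) (XT.nd (nat_lit 78) (nat_lit 456) (nat_lit 0) (XT.lf (nat_lit 0) (nat_lit 7698456791) (nat_lit 380) (nat_lit 1010781121) (nat_lit 76) (nat_lit 218007360) (nat_lit 54) (nat_lit 5) (nat_lit 59) (nat_lit 5) (nat_lit 55) (nat_lit 5) (nat_lit 272) (nat_lit 266) (nat_lit 242)) (XT.lf (nat_lit 0) (nat_lit 305394837) (nat_lit 456) (nat_lit 5448612290) (nat_lit 76) (nat_lit 3488627188) (nat_lit 48) (nat_lit 5) (nat_lit 54) (nat_lit 5) (nat_lit 49) (nat_lit 5) (nat_lit 273) (nat_lit 266) (nat_lit 241)))) (XT.nd (nat_lit 156) (nat_lit 228) (nat_lit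 0) (XT.nd (nat_lit 78) (nat_lit 456) (nat_lit 0) (XT.lf (nat_lit 0) (nat_lit 1831873399) (nat_lit 456) (nat_lit 656061864) (nat_lit 76) (nat_lit 7098148929) (nat_lit 48) (nat_lit 5) (nat_lit 54) (nat_lit 5) (nat_lit 49) (nat_lit 5) (nat_lit 274) (nat_lit 266) (nat_lit 240)) (XT.lf (nat_lit 0) (nat_lit 3535515616) (nat_lit 532) (nat_lit 5306295701) (nat_lit 76) (nat_lit 1111034744) (nat_lit 42) (nat_lit 5) (nat_lit 49) (nat_lit 5) (nat_lit 43) (nat_lit 5) (nat_lit 275) (nat_lit 266) (nat_lit 239))) (XT.nd (nat_lit 78) (nat_lit 228) (nat_lit 0) (XT.lf (nat_lit 0) (nat_lit 5377592711) (nat_lit 532) (nat_lit 83744735) (nat_lit 76) (nat_lit 4887661838) (nat_lit 42) (nat_lit 5) (nat_lit 49) (nat_lit 5) (nat_lit 43) (nat_lit 5) (nat_lit 276) (nat_lit 266) (nat_lit 238)) (XT.lf (nat_lit 0) (nat_lit 5769457441) (nat_lit 228) (nat_lit 1661443373) (nat_lit 304) (nat_lit 3341040210) (nat_lit 39)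 (nat_lit 5) (nat_lit 42) (nat_lit 5) (nat_lit 43) (nat_lit 5) (nat_lit 277) (nat_lit 266) (nat_lit 237)))))) (XT.nd (nat_lit 624) (nat_lit 608) (nat_lit 0) (XT.nd (nat_lit 312) (nat_lit 380) (nat_lit 0) (XT.nd (nat_lit 156) (nat_lit 228) (nat_lit 0) (XT.nd (nat_lit 78) (nat_lit 76) (nat_lit 0) (XT.lf (nat_lit 0) (nat_lit 767053781) (nat_lit 228) (nat_lit 8889772564) (nat_lit 304) (nat_lit 1571413766) (nat_lit 36) (nat_lit 5) (nat_lit 39) (nat_lit 5) (nat_lit 40) (nat_lit 5) (nat_lit 278) (nat_lit 266) (nat_lit 236)) (XT.lf (nat_lit 0) (nat_lit 436562174) (nat_lit 304) (nat_lit 4563807583) (nat_lit 76) (nat_lit 6711080579) (nat_lit 35) (nat_lit 5) (nat_lit 39) (nat_lit 5) (nat_lit 36) (nat_lit 5) (nat_lit 279) (nat_lit 266) (nat_lit 235))) (XT.nd (nat_lit 78) (nat_lit 0) (nat_lit 0) (XT.lf (nat_lit 0) (nat_lit 1778048477) (nat_lit 228) (nat_lit 720449060) (nat_lit 304) (nat_lit 9733448096)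 (nat_lit 32) (nat_lit 5) (nat_lit 35) (nat_lit 5) (nat_lit 36) (nat_lit 5) (nat_lit 280) (nat_lit 266) (nat_lit 234)) (XT.lf (nat_lit 0) (nat_lit 4885431699) (nat_lit 304) (nat_lit 4072684181) (nat_lit 76) (nat_lit 3823300980) (nat_lit 32) (nat_lit 5) (nat_lit 36) (nat_lit 5) (nat_lit 33) (nat_lit 5) (nat_lit 281) (nat_lit 266) (nat_lit 233)))) (XT.nd (nat_lit 156) (nat_lit 228) (nat_lit 0) (XT.nd (nat_lit 78) (nat_lit 0) (nat_lit 0) (XT.lf (nat_lit 0) (nat_lit 2871448833) (nat_lit 152) (nat_lit 4622402692) (nat_lit 228) (nat_lit 5878681251) (nat_lit 30) (nat_lit 5) (nat_lit 32) (nat_lit 5) (nat_lit 33) (nat_lit 5) (nat_lit 282) (nat_lit 266) (nat_lit 232)) (XT.lf (nat_lit 0) (nat_lit 10371554594) (nat_lit 228) (nat_lit 3478421073) (nat_lit 76) (nat_lit 156233404) (nat_lit 30) (nat_lit 5) (nat_lit 33) (nat_lit 5) (nat_lit 31) (nat_lit 5) (nat_lit 283) (nat_lit 266) (nat_lit 231))) (XT.nd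 (nat_lit 78) (nat_lit 76) (nat_lit 0) (XT.lf (nat_lit 0) (nat_lit 4122999172) (nat_lit 152) (nat_lit 9524691574) (nat_lit 228) (nat_lit 1029542372) (nat_lit 28) (nat_lit 5) (nat_lit 30) (nat_lit 5) (nat_lit 31) (nat_lit 5) (nat_lit 284) (nat_lit 266) (nat_lit 230)) (XT.lf (nat_lit 0) (nat_lit 1742098052) (nat_lit 228) (nat_lit 2979580493) (nat_lit 76) (nat_lit 10673134432) (nat_lit 27) (nat_lit 5) (nat_lit 30) (nat_lit 5) (nat_lit 28) (nat_lit 5) (nat_lit 285) (nat_lit 266) (nat_lit 229))))) (XT.nd (nat_lit 312) (nat_lit 304) (nat_lit 0) (XT.nd (nat_lit 156) (nat_lit 152) (nat_lit 0) (XT.nd (nat_lit 78) (nat_lit 0) (nat_lit 0) (XT.lf (nat_lit 0) (nat_lit 4777506550) (nat_lit 228) (nat_lit 10797602807) (nat_lit 76) (nat_lit 584825962) (nat_lit 25) (nat_lit 5) (nat_lit 28) (nat_lit 5) (nat_lit 26) (nat_lit 5) (nat_lit 286) (nat_lit 266) (nat_lit 228)) (XT.lf (nat_lit 0) (nat_lit 8216943692)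 (nat_lit 228) (nat_lit 2630032999) (nat_lit 76) (nat_lit 6126476667) (nat_lit 25) (nat_lit 5) (nat_lit 28) (nat_lit 5) (nat_lit 26) (nat_lit 5) (nat_lit 287) (nat_lit 266) (nat_lit 227))) (XT.nd (nat_lit 78) (nat_lit 0) (nat_lit 0) (XT.lf (nat_lit 0) (nat_lit 6452056088) (nat_lit 152) (nat_lit 5592959160) (nat_lit 228) (nat_lit 5798034778) (nat_lit 23) (nat_lit 5) (nat_lit 25) (nat_lit 5) (nat_lit 26) (nat_lit 5) (nat_lit 288) (nat_lit 266) (nat_lit 226)) (XT.lf (nat_lit 0) (nat_lit 16214536108) (nat_lit 228) (nat_lit 2432877743) (nat_lit 76) (nat_lit 132054236) (nat_lit 23) (nat_lit 5) (nat_lit 26) (nat_lit 5) (nat_lit 24) (nat_lit 4) (nat_lit 289) (nat_lit 266) (nat_lit 225)))) (XT.nd (nat_lit 156) (nat_lit 152) (nat_lit 0) (XT.nd (nat_lit 78) (nat_lit 0) (nat_lit 0) (XT.lf (nat_lit 0) (nat_lit 1173751134) (nat_lit 152) (nat_lit 12388677807) (nat_lit 76) (nat_lit 6203183792) (nat_lit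 21) (nat_lit 5) (nat_lit 23) (nat_lit 5) (nat_lit 22) (nat_lit 5) (nat_lit 290) (nat_lit 266) (nat_lit 224)) (XT.lf (nat_lit 0) (nat_lit 5104094288) (nat_lit 152) (nat_lit 2842538266) (nat_lit 76) (nat_lit 12876251127) (nat_lit 21) (nat_lit 5) (nat_lit 23) (nat_lit 5) (nat_lit 22) (nat_lit 5) (nat_lit 291) (nat_lit 266) (nat_lit 223))) (XT.nd (nat_lit 78) (nat_lit 0) (nat_lit 0) (XT.lf (nat_lit 0) (nat_lit 7803240274) (nat_lit 152) (nat_lit 1698932901) (nat_lit 228) (nat_lit 12450349881) (nat_lit 19) (nat_lit 5) (nat_lit 21) (nat_lit 5) (nat_lit 22) (nat_lit 5) (nat_lit 292) (nat_lit 266) (nat_lit 222)) (XT.lf (nat_lit 0) (nat_lit 14419686312) (nat_lit 228) (nat_lit 3882654399) (nat_lit 76) (nat_lit 4856833440) (nat_lit 19) (nat_lit 5) (nat_lit 22) (nat_lit 5) (nat_lit 20) (nat_lit 4) (nat_lit 293) (nat_lit 266) (nat_lit 221))))))) (XT.nd (nat_lit 1248) (nat_lit 304) (nat_lit 0) (XT.nd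 (nat_lit 624) (nat_lit 304) (nat_lit 0) (XT.nd (nat_lit 312) (nat_lit 228) (nat_lit 0) (XT.nd (nat_lit 156) (nat_lit 152) (nat_lit 0) (XT.nd (nat_lit 78) (nat_lit 76) (nat_lit 0) (XT.lf (nat_lit 0) (nat_lit 7484429502) (nat_lit 76) (nat_lit 12439217117) (nat_lit 152) (nat_lit 4523311102) (nat_lit 18) (nat_lit 5) (nat_lit 19) (nat_lit 5) (nat_lit 20) (nat_lit 4) (nat_lit 294) (nat_lit 266) (nat_lit 220)) (XT.lf (nat_lit 0) (nat_lit 106770360) (nat_lit 152) (nat_lit 5902576589) (nat_lit 76) (nat_lit 19822147246) (nat_lit 17) (nat_lit 5) (nat_lit 19) (nat_lit 5) (nat_lit 18) (nat_lit 5) (nat_lit 295) (nat_lit 266) (nat_lit 219))) (XT.nd (nat_lit 78) (nat_lit 0) (nat_lit 0) (XT.lf (nat_lit 0) (nat_lit 5012090563) (nat_lit 228) (nat_lit 21150290246) (nat_lit 76) (nat_lit 1143112000) (nat_lit 15) (nat_lit 5) (nat_lit 18) (nat_lit 5) (nat_lit 16) (nat_lit 4) (nat_lit 296) (nat_lit 266) (nat_lit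 218)) (XT.lf (nat_lit 0) (nat_lit 10603524610) (nat_lit 228) (nat_lit 9579757700) (nat_lit 76) (nat_lit 8690666342) (nat_lit 15) (nat_lit 5) (nat_lit 18) (nat_lit 5) (nat_lit 16) (nat_lit 4) (nat_lit 297) (nat_lit 266) (nat_lit 217)))) (XT.nd (nat_lit 156) (nat_lit 152) (nat_lit 0) (XT.nd (nat_lit 78) (nat_lit 0) (nat_lit 0) (XT.lf (nat_lit 0) (nat_lit 3022945431) (nat_lit 76) (nat_lit 13666124788) (nat_lit 152) (nat_lit 13875096997) (nat_lit 14) (nat_lit 5) (nat_lit 15) (nat_lit 5) (nat_lit 16) (nat_lit 4) (nat_lit 298) (nat_lit 266) (nat_lit 216)) (XT.lf (nat_lit 0) (nat_lit 17135113576) (nat_lit 76) (nat_lit 6363239642) (nat_lit 152) (nat_lit 8872326323) (nat_lit 14) (nat_lit 5) (nat_lit 15) (nat_lit 5) (nat_lit 16) (nat_lit 4) (nat_lit 299) (nat_lit 266) (nat_lit 215))) (XT.nd (nat_lit 78) (nat_lit 152) (nat_lit 0) (XT.lf (nat_lit 0) (nat_lit 30865436104) (nat_lit 152) (nat_lit 2023908294)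 (nat_lit 0) (nat_lit 1431349595) (nat_lit 14) (nat_lit 5) (nat_lit 16) (nat_lit 4) (nat_lit 14) (nat_lit 4) (nat_lit 300) (nat_lit 266) (nat_lit 214)) (XT.lf (nat_lit 0) (nat_lit 2735242457) (nat_lit 152) (nat_lit 23785379170) (nat_lit 76) (nat_lit 9864711072) (nat_lit 12) (nat_lit 5) (nat_lit 14) (nat_lit 5) (nat_lit 13) (nat_lit 4) (nat_lit 301) (nat_lit 266) (nat_lit 213))))) (XT.nd (nat_lit 312) (nat_lit 228) (nat_lit 0) (XT.nd (nat_lit 156) (nat_lit 0) (nat_lit 0) (XT.nd (nat_lit 78) (nat_lit 76) (nat_lit 0) (XT.lf (nat_lit 0) (nat_lit 9269380215) (nat_lit 152) (nat_lit 10231962423) (nat_lit 76) (nat_lit 19103834840) (nat_lit 12) (nat_lit 5) (nat_lit 14) (nat_lit 5) (nat_lit 13) (nat_lit 4) (nat_lit 302) (nat_lit 266) (nat_lit 212)) (XT.lf (nat_lit 0) (nat_lit 4599821621) (nat_lit 76) (nat_lit 11816957347) (nat_lit 152) (nat_lit 24578607378) (nat_lit 11) (nat_lit 5) (nat_lit 12)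 (nat_lit 5) (nat_lit 13) (nat_lit 4) (nat_lit 303) (nat_lit 266) (nat_lit 211))) (XT.nd (nat_lit 78) (nat_lit 0) (nat_lit 0) (XT.lf (nat_lit 0) (nat_lit 21164952999) (nat_lit 76) (nat_lit 3231325278) (nat_lit 152) (nat_lit 19159726457) (nat_lit 11) (nat_lit 5) (nat_lit 12) (nat_lit 5) (nat_lit 13) (nat_lit 4) (nat_lit 304) (nat_lit 266) (nat_lit 210)) (XT.lf (nat_lit 0) (nat_lit 33141068635) (nat_lit 152) (nat_lit 7445072791) (nat_lit 0) (nat_lit 5725192888) (nat_lit 11) (nat_lit 5) (nat_lit 13) (nat_lit 4) (nat_lit 11) (nat_lit 4) (nat_lit 305) (nat_lit 266) (nat_lit 209)))) (XT.nd (nat_lit 156) (nat_lit 76) (nat_lit 0) (XT.nd (nat_lit 78) (nat_lit 76) (nat_lit 0) (XT.lf (nat_lit 0) (nat_lit 9033426695) (nat_lit 76) (nat_lit 33836201221) (nat_lit 76) (nat_lit 6394742495) (nat_lit 10) (nat_lit 4) (nat_lit 11) (nat_lit 5) (nat_lit 11) (nat_lit 4) (nat_lit 306) (nat_lit 266) (nat_lit 208))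 (XT.lf (nat_lit 0) (nat_lit 1068597878) (nat_lit 152) (nat_lit 25242463084) (nat_lit 76) (nat_lit 26125470695) (nat_lit 9) (nat_lit 5) (nat_lit 11) (nat_lit 5) (nat_lit 10) (nat_lit 4) (nat_lit 307) (nat_lit 266) (nat_lit 207))) (XT.nd (nat_lit 78) (nat_lit 76) (nat_lit 0) (XT.lf (nat_lit 0) (nat_lit 8767865751) (nat_lit 152) (nat_lit 9249919188) (nat_lit 76) (nat_lit 37832657602) (nat_lit 9) (nat_lit 5) (nat_lit 11) (nat_lit 5) (nat_lit 10) (nat_lit 4) (nat_lit 308) (nat_lit 266) (nat_lit 206)) (XT.lf (nat_lit 0) (nat_lit 8416268129) (nat_lit 76) (nat_lit 8854720656) (nat_lit 152) (nat_lit 42251455443) (nat_lit 8) (nat_lit 5) (nat_lit 9) (nat_lit 5) (nat_lit 10) (nat_lit 4) (nat_lit 309) (nat_lit 266) (nat_lit 205)))))) (XT.nd (nat_lit 624) (nat_lit 76) (nat_lit 0) (XT.nd (nat_lit 312) (nat_lit 152) (nat_lit 0) (XT.nd (nat_lit 156) (nat_lit 76) (nat_lit 0) (XT.nd (nat_lit 78) (nat_lit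 0) (nat_lit 0) (XT.lf (nat_lit 0) (nat_lit 26724544148) (nat_lit 152) (nat_lit 35504728926) (nat_lit 0) (nat_lit 1237328593) (nat_lit 8) (nat_lit 5) (nat_lit 10) (nat_lit 4) (nat_lit 8) (nat_lit 4) (nat_lit 310) (nat_lit 266) (nat_lit 204)) (XT.lf (nat_lit 0) (nat_lit 37151097801) (nat_lit 152) (nat_lit 18910105617) (nat_lit 0) (nat_lit 11647760629) (nat_lit 8) (nat_lit 5) (nat_lit 10) (nat_lit 4) (nat_lit 8) (nat_lit 4) (nat_lit 311) (nat_lit 266) (nat_lit 203))) (XT.nd (nat_lit 78) (nat_lit 76) (nat_lit 0) (XT.lf (nat_lit 0) (nat_lit 48399480484) (nat_lit 152) (nat_lit 1011011421) (nat_lit 0) (nat_lit 22881215890) (nat_lit 8) (nat_lit 5) (nat_lit 10) (nat_lit 4) (nat_lit 8) (nat_lit 4) (nat_lit 312) (nat_lit 266) (nat_lit 202)) (XT.lf (nat_lit 0) (nat_lit 19262195394) (nat_lit 76) (nat_lit 41737410149) (nat_lit 76) (nat_lit 16205323867) (nat_lit 7) (nat_lit 4) (nat_lit 8) (nat_lit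 5) (nat_lit 8) (nat_lit 4) (nat_lit 313) (nat_lit 266) (nat_lit 201)))) (XT.nd (nat_lit 156) (nat_lit 76) (nat_lit 0) (XT.nd (nat_lit 78) (nat_lit 76) (nat_lit 0) (XT.lf (nat_lit 0) (nat_lit 41193909395) (nat_lit 76) (nat_lit 33430431493) (nat_lit 76) (nat_lit 7885547351) (nat_lit 7) (nat_lit 4) (nat_lit 8) (nat_lit 5) (nat_lit 8) (nat_lit 4) (nat_lit 314) (nat_lit 266) (nat_lit 200)) (XT.lf (nat_lit 0) (nat_lit 1034297498) (nat_lit 152) (nat_lit 23405395215) (nat_lit 76) (nat_lit 63798281200) (nat_lit 6) (nat_lit 5) (nat_lit 8) (nat_lit 5) (nat_lit 7) (nat_lit 4) (nat_lit 315) (nat_lit 266) (nat_lit 199))) (XT.nd (nat_lit 78) (nat_lit 76) (nat_lit 0) (XT.lf (nat_lit 0) (nat_lit 10231986324) (nat_lit 152) (nat_lit 4285174557) (nat_lit 76) (nat_lit 79891543505) (nat_lit 6) (nat_lit 5) (nat_lit 8) (nat_lit 5) (nat_lit 7) (nat_lit 4) (nat_lit 316) (nat_lit 266) (nat_lit 198)) (XT.lf (nat_lit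 0) (nat_lit 17208473272) (nat_lit 76) (nat_lit 3361881890) (nat_lit 152) (nat_lit 80470354461) (nat_lit 5) (nat_lit 5) (nat_lit 6) (nat_lit 5) (nat_lit 7) (nat_lit 4) (nat_lit 317) (nat_lit 266) (nat_lit 197))))) (XT.nd (nat_lit 312) (nat_lit 76) (nat_lit 0) (XT.nd (nat_lit 156) (nat_lit 0) (nat_lit 0) (XT.nd (nat_lit 78) (nat_lit 0) (nat_lit 0) (XT.lf (nat_lit 0) (nat_lit 32055974179) (nat_lit 152) (nat_lit 67757636349) (nat_lit 0) (nat_lit 8364055406) (nat_lit 5) (nat_lit 5) (nat_lit 7) (nat_lit 4) (nat_lit 5) (nat_lit 4) (nat_lit 318) (nat_lit 266) (nat_lit 196)) (XT.lf (nat_lit 0) (nat_lit 44539504149) (nat_lit 152) (nat_lit 50500233862) (nat_lit 0) (nat_lit 20839520555) (nat_lit 5) (nat_lit 5) (nat_lit 7) (nat_lit 4) (nat_lit 5) (nat_lit 4) (nat_lit 319) (nat_lit 266) (nat_lit 195))) (XT.nd (nat_lit 78) (nat_lit 0) (nat_lit 0) (XT.lf (nat_lit 0) (nat_lit 58014068208) (nat_lit 152)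 (nat_lit 31876909461) (nat_lit 0) (nat_lit 34306617185) (nat_lit 5) (nat_lit 5) (nat_lit 7) (nat_lit 4) (nat_lit 5) (nat_lit 4) (nat_lit 320) (nat_lit 266) (nat_lit 194)) (XT.lf (nat_lit 0) (nat_lit 72559515622) (nat_lit 152) (nat_lit 11777302706) (nat_lit 0) (nat_lit 48845150315) (nat_lit 5) (nat_lit 5) (nat_lit 7) (nat_lit 4) (nat_lit 5) (nat_lit 4) (nat_lit 321) (nat_lit 266) (nat_lit 193)))) (XT.nd (nat_lit 156) (nat_lit 0) (nat_lit 0) (XT.nd (nat_lit 78) (nat_lit 0) (nat_lit 0) (XT.lf (nat_lit 0) (nat_lit 10439943438) (nat_lit 76) (nat_lit 78073179090) (nat_lit 76) (nat_lit 54352411666) (nat_lit 4) (nat_lit 4) (nat_lit 5) (nat_lit 5) (nat_lit 5) (nat_lit 4) (nat_lit 322) (nat_lit 266) (nat_lit 192)) (XT.lf (nat_lit 0) (nat_lit 35092095924) (nat_lit 76) (nat_lit 70966568084) (nat_lit 76) (nat_lit 47239872776) (nat_lit 4) (nat_lit 4) (nat_lit 5) (nat_lit 5) (nat_lit 5) (nat_lit 4)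 (nat_lit 323) (nat_lit 266) (nat_lit 191))) (XT.nd (nat_lit 78) (nat_lit 0) (nat_lit 0) (XT.lf (nat_lit 0) (nat_lit 61705069694) (nat_lit 76) (nat_lit 63296884388) (nat_lit 76) (nat_lit 39564700298) (nat_lit 4) (nat_lit 4) (nat_lit 5) (nat_lit 5) (nat_lit 5) (nat_lit 4) (nat_lit 324) (nat_lit 266) (nat_lit 190)) (XT.lf (nat_lit 0) (nat_lit 90436571257) (nat_lit 76) (nat_lit 55018678025) (nat_lit 76) (nat_lit 31281411729) (nat_lit 4) (nat_lit 4) (nat_lit 5) (nat_lit 5) (nat_lit 5) (nat_lit 4) (nat_lit 325) (nat_lit 266) (nat_lit 189))))))))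
noncomputable def xc61 : XT := (XT.nd (nat_lit 2496) (nat_lit 0) (nat_lit 0) (XT.nd (nat_lit 1248) (nat_lit 76) (nat_lit 0) (XT.nd (nat_lit 624) (nat_lit 0) (nat_lit 0) (XT.nd (nat_lit 312) (nat_lit 76) (nat_lit 0) (XT.nd (nat_lit 156) (nat_lit 76) (nat_lit 0) (XT.nd (nat_lit 78) (nat_lit 0) (nat_lit 0) (XT.lf (nat_lit 0) (nat_lit 121456861365) (nat_lit 76) (nat_lit 46082892957) (nat_lit 76) (nat_lit 22340920914) (nat_lit 4) (nat_lit 4) (nat_lit 5) (nat_lit 5) (nat_lit 5) (nat_lit 4) (nat_lit 326) (nat_lit 266) (nat_lit 188)) (XT.lf (nat_lit 0) (nat_lit 154949763958) (nat_lit 76) (nat_lit 36436576382) (nat_lit 76) (nat_lit 12690247167) (nat_lit 4) (nat_lit 4) (nat_lit 5) (nat_lit 5) (nat_lit 5) (nat_lit 4) (nat_lit 327) (nat_lit 266) (nat_lit 187))) (XT.nd (nat_lit 78) (nat_lit 76) (nat_lit 0) (XT.lf (nat_lit 0) (nat_lit 191113755496) (nat_lit 76) (nat_lit 26022564945) (nat_lit 76) (nat_lit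 2272201311) (nat_lit 4) (nat_lit 4) (nat_lit 5) (nat_lit 5) (nat_lit 5) (nat_lit 4) (nat_lit 328) (nat_lit 266) (nat_lit 186)) (XT.lf (nat_lit 0) (nat_lit 8525989714) (nat_lit 152) (nat_lit 6020040601) (nat_lit 76) (nat_lit 221404035732) (nat_lit 3) (nat_lit 5) (nat_lit 5) (nat_lit 5) (nat_lit 4) (nat_lit 4) (nat_lit 329) (nat_lit 266) (nat_lit 185)))) (XT.nd (nat_lit 156) (nat_lit 0) (nat_lit 0) (XT.nd (nat_lit 78) (nat_lit 0) (nat_lit 0) (XT.lf (nat_lit 0) (nat_lit 18916572801) (nat_lit 76) (nat_lit 1599836271) (nat_lit 152) (nat_lit 233257714760) (nat_lit 2) (nat_lit 5) (nat_lit 3) (nat_lit 5) (nat_lit 4) (nat_lit 4) (nat_lit 330) (nat_lit 266) (nat_lit 184)) (XT.lf (nat_lit 0) (nat_lit 33928938096) (nat_lit 152) (nat_lit 227129906073) (nat_lit 0) (nat_lit 11928233723) (nat_lit 2) (nat_lit 5) (nat_lit 4) (nat_lit 4) (nat_lit 2) (nat_lit 4) (nat_lit 331) (nat_lit 266) (nat_lit 183)))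 (XT.nd (nat_lit 78) (nat_lit 0) (nat_lit 0) (XT.lf (nat_lit 0) (nat_lit 48452517675) (nat_lit 152) (nat_lit 218832440808) (nat_lit 0) (nat_lit 26449067544) (nat_lit 2) (nat_lit 5) (nat_lit 4) (nat_lit 4) (nat_lit 2) (nat_lit 4) (nat_lit 332) (nat_lit 266) (nat_lit 182)) (XT.lf (nat_lit 0) (nat_lit 64134737366) (nat_lit 152) (nat_lit 209877508972) (nat_lit 0) (nat_lit 42128744867) (nat_lit 2) (nat_lit 5) (nat_lit 4) (nat_lit 4) (nat_lit 2) (nat_lit 4) (nat_lit 333) (nat_lit 266) (nat_lit 181))))) (XT.nd (nat_lit 312) (nat_lit 0) (nat_lit 0) (XT.nd (nat_lit 156) (nat_lit 0) (nat_lit 0) (XT.nd (nat_lit 78) (nat_lit 0) (nat_lit 0) (XT.lf (nat_lit 0) (nat_lit 81068528841) (nat_lit 152) (nat_lit 200212044302) (nat_lit 0) (nat_lit 59060182297) (nat_lit 2) (nat_lit 5) (nat_lit 4) (nat_lit 4) (nat_lit 2) (nat_lit 4) (nat_lit 334) (nat_lit 266) (nat_lit 180)) (XT.lf (nat_lit 0) (nat_lit 99354240495)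 (nat_lit 152) (nat_lit 189778769970) (nat_lit 0) (nat_lit 77343714280) (nat_lit 2) (nat_lit 5) (nat_lit 4) (nat_lit 4) (nat_lit 2) (nat_lit 4) (nat_lit 335) (nat_lit 266) (nat_lit 179))) (XT.nd (nat_lit 78) (nat_lit 0) (nat_lit 0) (XT.lf (nat_lit 0) (nat_lit 119100232099) (nat_lit 152) (nat_lit 178515859166) (nat_lit 0) (nat_lit 97087687671) (nat_lit 2) (nat_lit 5) (nat_lit 4) (nat_lit 4) (nat_lit 2) (nat_lit 4) (nat_lit 336) (nat_lit 266) (nat_lit 178)) (XT.lf (nat_lit 0) (nat_lit 140423516939) (nat_lit 152) (nat_lit 166356568715) (nat_lit 0) (nat_lit 118409103793) (nat_lit 2) (nat_lit 5) (nat_lit 4) (nat_lit 4) (nat_lit 2) (nat_lit 4) (nat_lit 337) (nat_lit 266) (nat_lit 177)))) (XT.nd (nat_lit 156) (nat_lit 0) (nat_lit 0) (XT.nd (nat_lit 78) (nat_lit 0) (nat_lit 0) (XT.lf (nat_lit 0) (nat_lit 163450455219) (nat_lit 152) (nat_lit 153228843561) (nat_lit 0) (nat_lit 141434311781) (nat_lit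 2) (nat_lit 5) (nat_lit 4) (nat_lit 4) (nat_lit 2) (nat_lit 4) (nat_lit 338) (nat_lit 266) (nat_lit 176)) (XT.lf (nat_lit 0) (nat_lit 188317502871) (nat_lit 152) (nat_lit 139054889779) (nat_lit 0) (nat_lit 166299757309) (nat_lit 2) (nat_lit 5) (nat_lit 4) (nat_lit 4) (nat_lit 2) (nat_lit 4) (nat_lit 339) (nat_lit 266) (nat_lit 175))) (XT.nd (nat_lit 78) (nat_lit 0) (nat_lit 0) (XT.lf (nat_lit 0) (nat_lit 215172020177) (nat_lit 152) (nat_lit 123750713568) (nat_lit 0) (nat_lit 193152791168) (nat_lit 2) (nat_lit 5) (nat_lit 4) (nat_lit 4) (nat_lit 2) (nat_lit 4) (nat_lit 340) (nat_lit 266) (nat_lit 174)) (XT.lf (nat_lit 0) (nat_lit 244173145017) (nat_lit 152) (nat_lit 107225623512) (nat_lit 0) (nat_lit 222152542446) (nat_lit 2) (nat_lit 5) (nat_lit 4) (nat_lit 4) (nat_lit 2) (nat_lit 4) (nat_lit 341) (nat_lit 266) (nat_lit 173)))))) (XT.nd (nat_lit 624) (nat_lit 0) (nat_lit 0) (XT.nd (nat_lit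 312) (nat_lit 76) (nat_lit 0) (XT.nd (nat_lit 156) (nat_lit 0) (nat_lit 0) (XT.nd (nat_lit 78) (nat_lit 0) (nat_lit 0) (XT.lf (nat_lit 0) (nat_lit 275492735909) (nat_lit 152) (nat_lit 89381693154) (nat_lit 0) (nat_lit 253470861521) (nat_lit 2) (nat_lit 5) (nat_lit 4) (nat_lit 4) (nat_lit 2) (nat_lit 4) (nat_lit 342) (nat_lit 266) (nat_lit 172)) (XT.lf (nat_lit 0) (nat_lit 309316390429) (nat_lit 152) (nat_lit 70113180683) (nat_lit 0) (nat_lit 287293338432) (nat_lit 2) (nat_lit 5) (nat_lit 4) (nat_lit 4) (nat_lit 2) (nat_lit 4) (nat_lit 343) (nat_lit 266) (nat_lit 171))) (XT.nd (nat_lit 78) (nat_lit 0) (nat_lit 0) (XT.lf (nat_lit 0) (nat_lit 345844545048) (nat_lit 152) (nat_lit 49305902321) (nat_lit 0) (nat_lit 323820402673) (nat_lit 2) (nat_lit 5) (nat_lit 4) (nat_lit 4) (nat_lit 2) (nat_lit 4) (nat_lit 344) (nat_lit 266) (nat_lit 170)) (XT.lf (nat_lit 0) (nat_lit 385293662904) (nat_lit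 152) (nat_lit 26836555679) (nat_lit 0) (nat_lit 363268510919) (nat_lit 2) (nat_lit 5) (nat_lit 4) (nat_lit 4) (nat_lit 2) (nat_lit 4) (nat_lit 345) (nat_lit 266) (nat_lit 169)))) (XT.nd (nat_lit 156) (nat_lit 0) (nat_lit 0) (XT.nd (nat_lit 78) (nat_lit 76) (nat_lit 0) (XT.lf (nat_lit 0) (nat_lit 427897516547) (nat_lit 152) (nat_lit 2571989072) (nat_lit 0) (nat_lit 405871429739) (nat_lit 2) (nat_lit 5) (nat_lit 4) (nat_lit 4) (nat_lit 2) (nat_lit 4) (nat_lit 346) (nat_lit 266) (nat_lit 168)) (XT.lf (nat_lit 0) (nat_lit 24875985043) (nat_lit 76) (nat_lit 449630856254) (nat_lit 76) (nat_lit 427603903868) (nat_lit 1) (nat_lit 4) (nat_lit 2) (nat_lit 5) (nat_lit 2) (nat_lit 4) (nat_lit 347) (nat_lit 266) (nat_lit 167))) (XT.nd (nat_lit 78) (nat_lit 0) (nat_lit 0) (XT.lf (nat_lit 0) (nat_lit 54663967611) (nat_lit 76) (nat_lit 470250193277) (nat_lit 76) (nat_lit 448222439431) (nat_lit 1) (nat_lit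 4) (nat_lit 2) (nat_lit 5) (nat_lit 2) (nat_lit 4) (nat_lit 348) (nat_lit 266) (nat_lit 166)) (XT.lf (nat_lit 0) (nat_lit 86833043624) (nat_lit 76) (nat_lit 492520028090) (nat_lit 76) (nat_lit 470491532151) (nat_lit 1) (nat_lit 4) (nat_lit 2) (nat_lit 5) (nat_lit 2) (nat_lit 4) (nat_lit 349) (nat_lit 266) (nat_lit 165))))) (XT.nd (nat_lit 312) (nat_lit 0) (nat_lit 0) (XT.nd (nat_lit 156) (nat_lit 0) (nat_lit 0) (XT.nd (nat_lit 78) (nat_lit 0) (nat_lit 0) (XT.lf (nat_lit 0) (nat_lit 121573844643) (nat_lit 76) (nat_lit 516572330087) (nat_lit 76) (nat_lit 494543147025) (nat_lit 1) (nat_lit 4) (nat_lit 2) (nat_lit 5) (nat_lit 2) (nat_lit 4) (nat_lit 350) (nat_lit 266) (nat_lit 164)) (XT.lf (nat_lit 0) (nat_lit 159092242080) (nat_lit 76) (nat_lit 542549631426) (nat_lit 76) (nat_lit 520519812139) (nat_lit 1) (nat_lit 4) (nat_lit 2) (nat_lit 5) (nat_lit 2) (nat_lit 4) (nat_lit 351) (nat_lit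 266) (nat_lit 163))) (XT.nd (nat_lit 78) (nat_lit 0) (nat_lit 0) (XT.lf (nat_lit 0) (nat_lit 199610567181) (nat_lit 76) (nat_lit 570605871672) (nat_lit 76) (nat_lit 548575463287) (nat_lit 1) (nat_lit 4) (nat_lit 2) (nat_lit 5) (nat_lit 2) (nat_lit 4) (nat_lit 352) (nat_lit 266) (nat_lit 162)) (XT.lf (nat_lit 0) (nat_lit 243368928539) (nat_lit 76) (nat_lit 600907310025) (nat_lit 76) (nat_lit 578876356179) (nat_lit 1) (nat_lit 4) (nat_lit 2) (nat_lit 5) (nat_lit 2) (nat_lit 4) (nat_lit 353) (nat_lit 266) (nat_lit 161)))) (XT.nd (nat_lit 156) (nat_lit 0) (nat_lit 0) (XT.nd (nat_lit 78) (nat_lit 0) (nat_lit 0) (XT.lf (nat_lit 0) (nat_lit 290626634961) (nat_lit 76) (nat_lit 633633510564) (nat_lit 76) (nat_lit 611602051663) (nat_lit 1) (nat_lit 4) (nat_lit 2) (nat_lit 5) (nat_lit 2) (nat_lit 4) (nat_lit 354) (nat_lit 266) (nat_lit 160)) (XT.lf (nat_lit 0) (nat_lit 341663732115) (nat_lit 76)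 (nat_lit 668978406331) (nat_lit 76) (nat_lit 646946479785) (nat_lit 1) (nat_lit 4) (nat_lit 2) (nat_lit 5) (nat_lit 2) (nat_lit 4) (nat_lit 355) (nat_lit 266) (nat_lit 159))) (XT.nd (nat_lit 78) (nat_lit 0) (nat_lit 0) (XT.lf (nat_lit 0) (nat_lit 396782662059) (nat_lit 76) (nat_lit 707151448559) (nat_lit 76) (nat_lit 685119089009) (nat_lit 1) (nat_lit 4) (nat_lit 2) (nat_lit 5) (nat_lit 2) (nat_lit 4) (nat_lit 356) (nat_lit 266) (nat_lit 158)) (XT.lf (nat_lit 0) (nat_lit 456310055488) (nat_lit 76) (nat_lit 748378847869) (nat_lit 76) (nat_lit 726346087389) (nat_lit 1) (nat_lit 4) (nat_lit 2) (nat_lit 5) (nat_lit 2) (nat_lit 4) (nat_lit 357) (nat_lit 266) (nat_lit 157))))))) (XT.nd (nat_lit 33774) (nat_lit 0) (nat_lit 2052) (XT.nd (nat_lit 624) (nat_lit 0) (nat_lit 0) (XT.nd (nat_lit 312) (nat_lit 0) (nat_lit 0) (XT.nd (nat_lit 156) (nat_lit 0) (nat_lit 0) (XT.nd (nat_lit 78) (nat_lit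 0) (nat_lit 0) (XT.lf (nat_lit 0) (nat_lit 520598667327) (nat_lit 76) (nat_lit 792904914775) (nat_lit 76) (nat_lit 770871783064) (nat_lit 1) (nat_lit 4) (nat_lit 2) (nat_lit 5) (nat_lit 2) (nat_lit 4) (nat_lit 358) (nat_lit 266) (nat_lit 156)) (XT.lf (nat_lit 0) (nat_lit 590029467127) (nat_lit 76) (nat_lit 840993507451) (nat_lit 76) (nat_lit 818960032007) (nat_lit 1) (nat_lit 4) (nat_lit 2) (nat_lit 5) (nat_lit 2) (nat_lit 4) (nat_lit 359) (nat_lit 266) (nat_lit 155))) (XT.nd (nat_lit 78) (nat_lit 0) (nat_lit 0) (XT.lf (nat_lit 0) (nat_lit 665013896664) (nat_lit 76) (nat_lit 892929595336) (nat_lit 76) (nat_lit 870895801621) (nat_lit 1) (nat_lit 4) (nat_lit 2) (nat_lit 5) (nat_lit 2) (nat_lit 4) (nat_lit 360) (nat_lit 266) (nat_lit 154)) (XT.lf (nat_lit 0) (nat_lit 745996308114) (nat_lit 76) (nat_lit 949020947840) (nat_lit 76) (nat_lit 926986859429) (nat_lit 1) (nat_lit 4) (nat_lit 2)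 (nat_lit 5) (nat_lit 2) (nat_lit 4) (nat_lit 361) (nat_lit 266) (nat_lit 153)))) (XT.nd (nat_lit 156) (nat_lit 0) (nat_lit 0) (XT.nd (nat_lit 78) (nat_lit 0) (nat_lit 0) (XT.lf (nat_lit 0) (nat_lit 833456597249) (nat_lit 76) (nat_lit 1009599958161) (nat_lit 76) (nat_lit 987565596885) (nat_lit 1) (nat_lit 4) (nat_lit 2) (nat_lit 5) (nat_lit 2) (nat_lit 4) (nat_lit 362) (nat_lit 266) (nat_lit 152)) (XT.lf (nat_lit 0) (nat_lit 927913047262) (nat_lit 76) (nat_lit 1075025613029) (nat_lit 76) (nat_lit 1052990999099) (nat_lit 1) (nat_lit 4) (nat_lit 2) (nat_lit 5) (nat_lit 2) (nat_lit 4) (nat_lit 363) (nat_lit 266) (nat_lit 151))) (XT.nd (nat_lit 78) (nat_lit 0) (nat_lit 0) (XT.lf (nat_lit 0) (nat_lit 1029925400081) (nat_lit 76) (nat_lit 1145685620027) (nat_lit 76) (nat_lit 1123650772158) (nat_lit 1) (nat_lit 4) (nat_lit 2) (nat_lit 5) (nat_lit 2) (nat_lit 4) (nat_lit 364) (nat_lit 266) (nat_lit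 150)) (XT.lf (nat_lit 0) (nat_lit 1140098173351) (nat_lit 76) (nat_lit 1221998705123) (nat_lit 76) (nat_lit 1199963640644) (nat_lit 1) (nat_lit 4) (nat_lit 2) (nat_lit 5) (nat_lit 2) (nat_lit 4) (nat_lit 365) (nat_lit 266) (nat_lit 149))))) (XT.nd (nat_lit 312) (nat_lit 0) (nat_lit 0) (XT.nd (nat_lit 156) (nat_lit 0) (nat_lit 0) (XT.nd (nat_lit 78) (nat_lit 0) (nat_lit 0) (XT.lf (nat_lit 0) (nat_lit 1259084242766) (nat_lit 76) (nat_lit 1304417094006) (nat_lit 76) (nat_lit 1282381828963) (nat_lit 1) (nat_lit 4) (nat_lit 2) (nat_lit 5) (nat_lit 2) (nat_lit 4) (nat_lit 366) (nat_lit 266) (nat_lit 148)) (XT.lf (nat_lit 0) (nat_lit 1387588710959) (nat_lit 76) (nat_lit 1393429191944) (nat_lit 76) (nat_lit 1371393741193) (nat_lit 1) (nat_lit 4) (nat_lit 2) (nat_lit 5) (nat_lit 2) (nat_lit 4) (nat_lit 367) (nat_lit 266) (nat_lit 147))) (XT.nd (nat_lit 78) (nat_lit 0) (nat_lit 0) (XT.lf (nat_lit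 0) (nat_lit 1526373085890) (nat_lit 76) (nat_lit 1489562478036) (nat_lit 76) (nat_lit 1467526855333) (nat_lit 1) (nat_lit 4) (nat_lit 2) (nat_lit 5) (nat_lit 2) (nat_lit 4) (nat_lit 368) (nat_lit 266) (nat_lit 146)) (XT.lf (nat_lit 0) (nat_lit 1676259793486) (nat_lit 76) (nat_lit 1593386631014) (nat_lit 76) (nat_lit 1571350849096) (nat_lit 1) (nat_lit 4) (nat_lit 2) (nat_lit 5) (nat_lit 2) (nat_lit 4) (nat_lit 369) (nat_lit 266) (nat_lit 145)))) (XT.nd (nat_lit 32682) (nat_lit 0) (nat_lit 3876) (XT.nd (nat_lit 32604) (nat_lit 0) (nat_lit 3876) (XT.lf (nat_lit 0) (nat_lit 1838137051271) (nat_lit 76) (nat_lit 1705516905118) (nat_lit 76) (nat_lit 1683480975778) (nat_lit 1) (nat_lit 4) (nat_lit 2) (nat_lit 5) (nat_lit 2) (nat_lit 4) (nat_lit 370) (nat_lit 266) (nat_lit 144)) (XT.lf (nat_lit 0) (nat_lit 333548673) (nat_lit 0) (nat_lit 333548673) (nat_lit 380) (nat_lit 3270149285) (nat_lit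 52) (nat_lit 5) (nat_lit 52) (nat_lit 3) (nat_lit 57) (nat_lit 3) (nat_lit 267) (nat_lit 267) (nat_lit 246))) (XT.nd (nat_lit 78) (nat_lit 0) (nat_lit 0) (XT.lf (nat_lit 0) (nat_lit 2623591541) (nat_lit 380) (nat_lit 3588380569) (nat_lit 456) (nat_lit 1874817707) (nat_lit 52) (nat_lit 5) (nat_lit 57) (nat_lit 3) (nat_lit 58) (nat_lit 5) (nat_lit 268) (nat_lit 267) (nat_lit 245)) (XT.lf (nat_lit 76) (nat_lit 244267919) (nat_lit 0) (nat_lit 3677590307) (nat_lit 456) (nat_lit 4402134691) (nat_lit 53) (nat_lit 5) (nat_lit 52) (nat_lit 5) (nat_lit 58) (nat_lit 5) (nat_lit 269) (nat_lit 267) (nat_lit 244)))))) (XT.nd (nat_lit 624) (nat_lit 836) (nat_lit 0) (XT.nd (nat_lit 312) (nat_lit 608) (nat_lit 0) (XT.nd (nat_lit 156) (nat_lit 380) (nat_lit 0) (XT.nd (nat_lit 78) (nat_lit 0) (nat_lit 76) (XT.lf (nat_lit 76) (nat_lit 4518614418) (nat_lit 0) (nat_lit 793044080) (nat_lit 456) (nat_lit 3269852085)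 (nat_lit 53) (nat_lit 5) (nat_lit 52) (nat_lit 5) (nat_lit 58) (nat_lit 5) (nat_lit 270) (nat_lit 267) (nat_lit 243)) (XT.lf (nat_lit 76) (nat_lit 153814990) (nat_lit 0) (nat_lit 6617041027) (nat_lit 456) (nat_lit 2092442608) (nat_lit 54) (nat_lit 5) (nat_lit 53) (nat_lit 5) (nat_lit 59) (nat_lit 5) (nat_lit 271) (nat_lit 267) (nat_lit 242))) (XT.nd (nat_lit 78) (nat_lit 456) (nat_lit 0) (XT.lf (nat_lit 76) (nat_lit 4845788328) (nat_lit 0) (nat_lit 3536616267) (nat_lit 456) (nat_lit 782677761) (nat_lit 54) (nat_lit 5) (nat_lit 53) (nat_lit 5) (nat_lit 59) (nat_lit 5) (nat_lit 272) (nat_lit 267) (nat_lit 241)) (XT.lf (nat_lit 76) (nat_lit 353380038) (nat_lit 0) (nat_lit 164344034) (nat_lit 532) (nat_lit 8978930651) (nat_lit 48) (nat_lit 5) (nat_lit 47) (nat_lit 5) (nat_lit 54) (nat_lit 5) (nat_lit 273) (nat_lit 267) (nat_lit 240)))) (XT.nd (nat_lit 156) (nat_lit 228) (nat_lit 0) (XT.nd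 (nat_lit 78) (nat_lit 456) (nat_lit 0) (XT.lf (nat_lit 0) (nat_lit 1999114425) (nat_lit 456) (nat_lit 4383754213) (nat_lit 76) (nat_lit 3460958227) (nat_lit 48) (nat_lit 5) (nat_lit 54) (nat_lit 5) (nat_lit 49) (nat_lit 5) (nat_lit 274) (nat_lit 267) (nat_lit 239)) (XT.lf (nat_lit 0) (nat_lit 716895830) (nat_lit 456) (nat_lit 2824405840) (nat_lit 532) (nat_lit 6682310138) (nat_lit 42) (nat_lit 5) (nat_lit 48) (nat_lit 5) (nat_lit 49) (nat_lit 5) (nat_lit 275) (nat_lit 267) (nat_lit 238))) (XT.nd (nat_lit 78) (nat_lit 228) (nat_lit 0) (XT.lf (nat_lit 0) (nat_lit 5279446569) (nat_lit 532) (nat_lit 4252663221) (nat_lit 76) (nat_lit 1096068588) (nat_lit 42) (nat_lit 5) (nat_lit 49) (nat_lit 5) (nat_lit 43) (nat_lit 5) (nat_lit 276) (nat_lit 267) (nat_lit 237)) (XT.lf (nat_lit 0) (nat_lit 1345508016) (nat_lit 228) (nat_lit 5847512449) (nat_lit 304) (nat_lit 3869369848) (nat_lit 39) (nat_lit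 5) (nat_lit 42) (nat_lit 5) (nat_lit 43) (nat_lit 5) (nat_lit 277) (nat_lit 267) (nat_lit 236))))) (XT.nd (nat_lit 312) (nat_lit 304) (nat_lit 0) (XT.nd (nat_lit 156) (nat_lit 304) (nat_lit 0) (XT.nd (nat_lit 78) (nat_lit 228) (nat_lit 0) (XT.lf (nat_lit 0) (nat_lit 7565009377) (nat_lit 228) (nat_lit 1745095045) (nat_lit 304) (nat_lit 2217376983) (nat_lit 39) (nat_lit 5) (nat_lit 42) (nat_lit 5) (nat_lit 43) (nat_lit 5) (nat_lit 278) (nat_lit 267) (nat_lit 235)) (XT.lf (nat_lit 0) (nat_lit 2231012506) (nat_lit 228) (nat_lit 9422755653) (nat_lit 304) (nat_lit 371597673) (nat_lit 36) (nat_lit 5) (nat_lit 39) (nat_lit 5) (nat_lit 40) (nat_lit 5) (nat_lit 279) (nat_lit 267) (nat_lit 234))) (XT.nd (nat_lit 78) (nat_lit 228) (nat_lit 0) (XT.lf (nat_lit 0) (nat_lit 1637432384) (nat_lit 304) (nat_lit 3566089133) (nat_lit 76) (nat_lit 7348841320) (nat_lit 35) (nat_lit 5) (nat_lit 39) (nat_lit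 5) (nat_lit 36) (nat_lit 5) (nat_lit 280) (nat_lit 267) (nat_lit 233)) (XT.lf (nat_lit 0) (nat_lit 3248613563) (nat_lit 228) (nat_lit 561288857) (nat_lit 304) (nat_lit 9309151017) (nat_lit 32) (nat_lit 5) (nat_lit 35) (nat_lit 5) (nat_lit 36) (nat_lit 5) (nat_lit 281) (nat_lit 267) (nat_lit 232)))) (XT.nd (nat_lit 156) (nat_lit 152) (nat_lit 0) (XT.nd (nat_lit 78) (nat_lit 152) (nat_lit 0) (XT.lf (nat_lit 0) (nat_lit 6310283857) (nat_lit 304) (nat_lit 3088725673) (nat_lit 76) (nat_lit 4319860528) (nat_lit 32) (nat_lit 5) (nat_lit 36) (nat_lit 5) (nat_lit 33) (nat_lit 5) (nat_lit 282) (nat_lit 267) (nat_lit 231)) (XT.lf (nat_lit 0) (nat_lit 4377779167) (nat_lit 152) (nat_lit 4703706813) (nat_lit 228) (nat_lit 5279633812) (nat_lit 30) (nat_lit 5) (nat_lit 32) (nat_lit 5) (nat_lit 33) (nat_lit 5) (nat_lit 283) (nat_lit 267) (nat_lit 230))) (XT.nd (nat_lit 78) (nat_lit 152) (nat_lit 0) (XT.lf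 (nat_lit 0) (nat_lit 12122634959) (nat_lit 228) (nat_lit 2505868937) (nat_lit 76) (nat_lit 422488328) (nat_lit 30) (nat_lit 5) (nat_lit 33) (nat_lit 5) (nat_lit 31) (nat_lit 5) (nat_lit 284) (nat_lit 267) (nat_lit 229)) (XT.lf (nat_lit 0) (nat_lit 5671998451) (nat_lit 152) (nat_lit 9949935771) (nat_lit 228) (nat_lit 157026720) (nat_lit 28) (nat_lit 5) (nat_lit 30) (nat_lit 5) (nat_lit 31) (nat_lit 5) (nat_lit 285) (nat_lit 267) (nat_lit 228))))))))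
noncomputable def xc62 : XT := (XT.nd (nat_lit 2418) (nat_lit 380) (nat_lit 0) (XT.nd (nat_lit 1170) (nat_lit 608) (nat_lit 0) (XT.nd (nat_lit 546) (nat_lit 532) (nat_lit 0) (XT.nd (nat_lit 234) (nat_lit 304) (nat_lit 0) (XT.nd (nat_lit 78) (nat_lit 152) (nat_lit 0) (XT.lf (nat_lit 0) (nat_lit 2721384531) (nat_lit 228) (nat_lit 2043275351) (nat_lit 76) (nat_lit 11792952935) (nat_lit 27) (nat_lit 5) (nat_lit 30) (nat_lit 5) (nat_lit 28) (nat_lit 5) (nat_lit 286) (nat_lit 267) (nat_lit 227)) (XT.nd (nat_lit 78) (nat_lit 0) (nat_lit 0) (XT.lf (nat_lit 0) (nat_lit 5973114852) (nat_lit 228) (nat_lit 10458754792) (nat_lit 76) (nat_lit 954314075) (nat_lit 25) (nat_lit 5) (nat_lit 28) (nat_lit 5) (nat_lit 26) (nat_lit 5) (nat_lit 287) (nat_lit 267) (nat_lit 226)) (XT.lf (nat_lit 0) (nat_lit 9627454538) (nat_lit 228) (nat_lit 1726865046) (nat_lit 76) (nat_lit 6915392981) (nat_lit 25) (nat_lit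 5) (nat_lit 28) (nat_lit 5) (nat_lit 26) (nat_lit 5) (nat_lit 288) (nat_lit 267) (nat_lit 225)))) (XT.nd (nat_lit 156) (nat_lit 152) (nat_lit 0) (XT.nd (nat_lit 78) (nat_lit 0) (nat_lit 0) (XT.lf (nat_lit 0) (nat_lit 8053599507) (nat_lit 152) (nat_lit 5678486415) (nat_lit 228) (nat_lit 5479267000) (nat_lit 23) (nat_lit 5) (nat_lit 25) (nat_lit 5) (nat_lit 26) (nat_lit 5) (nat_lit 289) (nat_lit 267) (nat_lit 224)) (XT.lf (nat_lit 0) (nat_lit 18189637317) (nat_lit 228) (nat_lit 1575826383) (nat_lit 76) (nat_lit 460956815) (nat_lit 23) (nat_lit 5) (nat_lit 26) (nat_lit 5) (nat_lit 24) (nat_lit 4) (nat_lit 290) (nat_lit 267) (nat_lit 223))) (XT.nd (nat_lit 78) (nat_lit 0) (nat_lit 0) (XT.lf (nat_lit 0) (nat_lit 1937998392) (nat_lit 152) (nat_lit 12318412963) (nat_lit 76) (nat_lit 7035819579) (nat_lit 21) (nat_lit 5) (nat_lit 23) (nat_lit 5) (nat_lit 22) (nat_lit 5) (nat_lit 291) (nat_lit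 267) (nat_lit 222)) (XT.lf (nat_lit 0) (nat_lit 6133113652) (nat_lit 152) (nat_lit 2087201449) (nat_lit 76) (nat_lit 14217815183) (nat_lit 21) (nat_lit 5) (nat_lit 23) (nat_lit 5) (nat_lit 22) (nat_lit 5) (nat_lit 292) (nat_lit 267) (nat_lit 221))))) (XT.nd (nat_lit 312) (nat_lit 228) (nat_lit 0) (XT.nd (nat_lit 156) (nat_lit 152) (nat_lit 0) (XT.nd (nat_lit 78) (nat_lit 0) (nat_lit 0) (XT.lf (nat_lit 0) (nat_lit 9385359884) (nat_lit 152) (nat_lit 1474738360) (nat_lit 228) (nat_lit 12799946610) (nat_lit 19) (nat_lit 5) (nat_lit 21) (nat_lit 5) (nat_lit 22) (nat_lit 5) (nat_lit 293) (nat_lit 267) (nat_lit 220)) (XT.lf (nat_lit 0) (nat_lit 16134753669) (nat_lit 228) (nat_lit 3269303972) (nat_lit 76) (nat_lit 5562134795) (nat_lit 19) (nat_lit 5) (nat_lit 22) (nat_lit 5) (nat_lit 20) (nat_lit 4) (nat_lit 294) (nat_lit 267) (nat_lit 219))) (XT.nd (nat_lit 78) (nat_lit 76) (nat_lit 0) (XT.lf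 (nat_lit 0) (nat_lit 8983755178) (nat_lit 76) (nat_lit 13075342351) (nat_lit 152) (nat_lit 4299554806) (nat_lit 18) (nat_lit 5) (nat_lit 19) (nat_lit 5) (nat_lit 20) (nat_lit 4) (nat_lit 295) (nat_lit 267) (nat_lit 218)) (XT.lf (nat_lit 0) (nat_lit 630428693) (nat_lit 152) (nat_lit 5513163164) (nat_lit 76) (nat_lit 21712580448) (nat_lit 17) (nat_lit 5) (nat_lit 19) (nat_lit 5) (nat_lit 18) (nat_lit 5) (nat_lit 296) (nat_lit 267) (nat_lit 217)))) (XT.nd (nat_lit 156) (nat_lit 76) (nat_lit 0) (XT.nd (nat_lit 78) (nat_lit 0) (nat_lit 0) (XT.lf (nat_lit 0) (nat_lit 5918455804) (nat_lit 228) (nat_lit 21970389937) (nat_lit 76) (nat_lit 1560069386) (nat_lit 15) (nat_lit 5) (nat_lit 18) (nat_lit 5) (nat_lit 16) (nat_lit 4) (nat_lit 297) (nat_lit 267) (nat_lit 216)) (XT.lf (nat_lit 0) (nat_lit 11919767686) (nat_lit 228) (nat_lit 9538801716) (nat_lit 76) (nat_lit 9687316340) (nat_lit 15) (nat_lit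 5) (nat_lit 18) (nat_lit 5) (nat_lit 16) (nat_lit 4) (nat_lit 298) (nat_lit 267) (nat_lit 215))) (XT.nd (nat_lit 78) (nat_lit 0) (nat_lit 0) (XT.lf (nat_lit 0) (nat_lit 4051678765) (nat_lit 76) (nat_lit 14424739301) (nat_lit 152) (nat_lit 14496202976) (nat_lit 14) (nat_lit 5) (nat_lit 15) (nat_lit 5) (nat_lit 16) (nat_lit 4) (nat_lit 299) (nat_lit 267) (nat_lit 214)) (XT.lf (nat_lit 0) (nat_lit 19234531643) (nat_lit 76) (nat_lit 6562414119) (nat_lit 152) (nat_lit 9129425595) (nat_lit 14) (nat_lit 5) (nat_lit 15) (nat_lit 5) (nat_lit 16) (nat_lit 4) (nat_lit 300) (nat_lit 267) (nat_lit 213)))))) (XT.nd (nat_lit 624) (nat_lit 228) (nat_lit 0) (XT.nd (nat_lit 312) (nat_lit 152) (nat_lit 0) (XT.nd (nat_lit 156) (nat_lit 76) (nat_lit 0) (XT.nd (nat_lit 78) (nat_lit 152) (nat_lit 0) (XT.lf (nat_lit 0) (nat_lit 33729279345) (nat_lit 152) (nat_lit 1486636890) (nat_lit 0) (nat_lit 1818434421)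 (nat_lit 14) (nat_lit 5) (nat_lit 16) (nat_lit 4) (nat_lit 14) (nat_lit 4) (nat_lit 301) (nat_lit 267) (nat_lit 212)) (XT.lf (nat_lit 0) (nat_lit 3346124089) (nat_lit 152) (nat_lit 24985712178) (nat_lit 76) (nat_lit 10932589252) (nat_lit 12) (nat_lit 5) (nat_lit 14) (nat_lit 5) (nat_lit 13) (nat_lit 4) (nat_lit 302) (nat_lit 267) (nat_lit 211))) (XT.nd (nat_lit 78) (nat_lit 76) (nat_lit 0) (XT.lf (nat_lit 0) (nat_lit 10373951221) (nat_lit 152) (nat_lit 10400058930) (nat_lit 76) (nat_lit 20890198381) (nat_lit 12) (nat_lit 5) (nat_lit 14) (nat_lit 5) (nat_lit 13) (nat_lit 4) (nat_lit 303) (nat_lit 267) (nat_lit 210)) (XT.lf (nat_lit 0) (nat_lit 5601800484) (nat_lit 76) (nat_lit 12479698526) (nat_lit 152) (nat_lit 26165091824) (nat_lit 11) (nat_lit 5) (nat_lit 12) (nat_lit 5) (nat_lit 13) (nat_lit 4) (nat_lit 304) (nat_lit 267) (nat_lit 209)))) (XT.nd (nat_lit 156) (nat_lit 152) (nat_lit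 0) (XT.nd (nat_lit 78) (nat_lit 0) (nat_lit 0) (XT.lf (nat_lit 0) (nat_lit 23445179918) (nat_lit 76) (nat_lit 3228150367) (nat_lit 152) (nat_lit 20340834070) (nat_lit 11) (nat_lit 5) (nat_lit 12) (nat_lit 5) (nat_lit 13) (nat_lit 4) (nat_lit 305) (nat_lit 267) (nat_lit 208)) (XT.lf (nat_lit 0) (nat_lit 36099431143) (nat_lit 152) (nat_lit 7478587868) (nat_lit 0) (nat_lit 6413384794) (nat_lit 11) (nat_lit 5) (nat_lit 13) (nat_lit 4) (nat_lit 11) (nat_lit 4) (nat_lit 306) (nat_lit 267) (nat_lit 207))) (XT.nd (nat_lit 78) (nat_lit 76) (nat_lit 0) (XT.lf (nat_lit 0) (nat_lit 10303961431) (nat_lit 76) (nat_lit 36292743351) (nat_lit 76) (nat_lit 6584763721) (nat_lit 10) (nat_lit 4) (nat_lit 11) (nat_lit 5) (nat_lit 11) (nat_lit 4) (nat_lit 307) (nat_lit 267) (nat_lit 206)) (XT.lf (nat_lit 0) (nat_lit 1436930644) (nat_lit 152) (nat_lit 26739472483) (nat_lit 76) (nat_lit 28432208266) (nat_lit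 9) (nat_lit 5) (nat_lit 11) (nat_lit 5) (nat_lit 10) (nat_lit 4) (nat_lit 308) (nat_lit 267) (nat_lit 205))))) (XT.nd (nat_lit 312) (nat_lit 152) (nat_lit 0) (XT.nd (nat_lit 156) (nat_lit 0) (nat_lit 0) (XT.nd (nat_lit 78) (nat_lit 76) (nat_lit 0) (XT.lf (nat_lit 0) (nat_lit 9731188471) (nat_lit 152) (nat_lit 9506220456) (nat_lit 76) (nat_lit 41059918280) (nat_lit 9) (nat_lit 5) (nat_lit 11) (nat_lit 5) (nat_lit 10) (nat_lit 4) (nat_lit 309) (nat_lit 267) (nat_lit 204)) (XT.lf (nat_lit 0) (nat_lit 9561016473) (nat_lit 76) (nat_lit 9345483669) (nat_lit 152) (nat_lit 45357248545) (nat_lit 8) (nat_lit 5) (nat_lit 9) (nat_lit 5) (nat_lit 10) (nat_lit 4) (nat_lit 310) (nat_lit 267) (nat_lit 203))) (XT.nd (nat_lit 78) (nat_lit 0) (nat_lit 0) (XT.lf (nat_lit 0) (nat_lit 29102383505) (nat_lit 152) (nat_lit 37894455076) (nat_lit 0) (nat_lit 1527730319) (nat_lit 8) (nat_lit 5) (nat_lit 10) (nat_lit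 4) (nat_lit 8) (nat_lit 4) (nat_lit 311) (nat_lit 267) (nat_lit 202)) (XT.lf (nat_lit 0) (nat_lit 40345292870) (nat_lit 152) (nat_lit 20005643544) (nat_lit 0) (nat_lit 12756817997) (nat_lit 8) (nat_lit 5) (nat_lit 10) (nat_lit 4) (nat_lit 8) (nat_lit 4) (nat_lit 312) (nat_lit 267) (nat_lit 201)))) (XT.nd (nat_lit 156) (nat_lit 76) (nat_lit 0) (XT.nd (nat_lit 78) (nat_lit 76) (nat_lit 0) (XT.lf (nat_lit 0) (nat_lit 52477093780) (nat_lit 152) (nat_lit 705530740) (nat_lit 0) (nat_lit 24875821047) (nat_lit 8) (nat_lit 5) (nat_lit 10) (nat_lit 4) (nat_lit 8) (nat_lit 4) (nat_lit 313) (nat_lit 267) (nat_lit 200)) (XT.lf (nat_lit 0) (nat_lit 21179751314) (nat_lit 76) (nat_lit 44899300601) (nat_lit 76) (nat_lit 17286178000) (nat_lit 7) (nat_lit 4) (nat_lit 8) (nat_lit 5) (nat_lit 8) (nat_lit 4) (nat_lit 314) (nat_lit 267) (nat_lit 199))) (XT.nd (nat_lit 78) (nat_lit 76) (nat_lit 0) (XT.lf (nat_lit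 0) (nat_lit 44838107599) (nat_lit 76) (nat_lit 35940882345) (nat_lit 76) (nat_lit 8316787642) (nat_lit 7) (nat_lit 4) (nat_lit 8) (nat_lit 5) (nat_lit 8) (nat_lit 4) (nat_lit 315) (nat_lit 267) (nat_lit 198)) (XT.lf (nat_lit 0) (nat_lit 1292614002) (nat_lit 152) (nat_lit 24945616930) (nat_lit 76) (nat_lit 69044627422) (nat_lit 6) (nat_lit 5) (nat_lit 8) (nat_lit 5) (nat_lit 7) (nat_lit 4) (nat_lit 316) (nat_lit 267) (nat_lit 197))))))) (XT.nd (nat_lit 1248) (nat_lit 76) (nat_lit 0) (XT.nd (nat_lit 624) (nat_lit 152) (nat_lit 0) (XT.nd (nat_lit 312) (nat_lit 76) (nat_lit 0) (XT.nd (nat_lit 156) (nat_lit 0) (nat_lit 0) (XT.nd (nat_lit 78) (nat_lit 76) (nat_lit 0) (XT.lf (nat_lit 0) (nat_lit 11213112550) (nat_lit 152) (nat_lit 4320386760) (nat_lit 76) (nat_lit 86414796361) (nat_lit 6) (nat_lit 5) (nat_lit 8) (nat_lit 5) (nat_lit 7) (nat_lit 4) (nat_lit 317) (nat_lit 267) (nat_lit 196))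 (XT.lf (nat_lit 0) (nat_lit 18884965509) (nat_lit 76) (nat_lit 3488753905) (nat_lit 152) (nat_lit 86737535816) (nat_lit 5) (nat_lit 5) (nat_lit 6) (nat_lit 5) (nat_lit 7) (nat_lit 4) (nat_lit 318) (nat_lit 267) (nat_lit 195))) (XT.nd (nat_lit 78) (nat_lit 0) (nat_lit 0) (XT.lf (nat_lit 0) (nat_lit 34769667697) (nat_lit 152) (nat_lit 72892035640) (nat_lit 0) (nat_lit 9158153165) (nat_lit 5) (nat_lit 5) (nat_lit 7) (nat_lit 4) (nat_lit 5) (nat_lit 4) (nat_lit 319) (nat_lit 267) (nat_lit 194)) (XT.lf (nat_lit 0) (nat_lit 48240827059) (nat_lit 152) (nat_lit 54275241815) (nat_lit 0) (nat_lit 22622398242) (nat_lit 5) (nat_lit 5) (nat_lit 7) (nat_lit 4) (nat_lit 5) (nat_lit 4) (nat_lit 320) (nat_lit 267) (nat_lit 193)))) (XT.nd (nat_lit 156) (nat_lit 76) (nat_lit 0) (XT.nd (nat_lit 78) (nat_lit 0) (nat_lit 0) (XT.lf (nat_lit 0) (nat_lit 62783121977) (nat_lit 152) (nat_lit 34181681889) (nat_lit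 0) (nat_lit 37158291044) (nat_lit 5) (nat_lit 5) (nat_lit 7) (nat_lit 4) (nat_lit 5) (nat_lit 4) (nat_lit 321) (nat_lit 267) (nat_lit 192)) (XT.lf (nat_lit 0) (nat_lit 78482729013) (nat_lit 152) (nat_lit 12492282913) (nat_lit 0) (nat_lit 52851970196) (nat_lit 5) (nat_lit 5) (nat_lit 7) (nat_lit 4) (nat_lit 5) (nat_lit 4) (nat_lit 322) (nat_lit 267) (nat_lit 191))) (XT.nd (nat_lit 78) (nat_lit 0) (nat_lit 0) (XT.lf (nat_lit 0) (nat_lit 11496590921) (nat_lit 76) (nat_lit 84212585243) (nat_lit 76) (nat_lit 58576337643) (nat_lit 4) (nat_lit 4) (nat_lit 5) (nat_lit 5) (nat_lit 5) (nat_lit 4) (nat_lit 323) (nat_lit 267) (nat_lit 190)) (XT.lf (nat_lit 0) (nat_lit 38104511755) (nat_lit 76) (nat_lit 76545330407) (nat_lit 76) (nat_lit 50904000601) (nat_lit 4) (nat_lit 4) (nat_lit 5) (nat_lit 5) (nat_lit 5) (nat_lit 4) (nat_lit 324) (nat_lit 267) (nat_lit 189))))) (XT.nd (nat_lit 312) (nat_lit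 152) (nat_lit 0) (XT.nd (nat_lit 156) (nat_lit 0) (nat_lit 0) (XT.nd (nat_lit 78) (nat_lit 0) (nat_lit 0) (XT.lf (nat_lit 0) (nat_lit 66831334673) (nat_lit 76) (nat_lit 68269372988) (nat_lit 76) (nat_lit 42623337435) (nat_lit 4) (nat_lit 4) (nat_lit 5) (nat_lit 5) (nat_lit 5) (nat_lit 4) (nat_lit 325) (nat_lit 267) (nat_lit 188)) (XT.lf (nat_lit 0) (nat_lit 97847292702) (nat_lit 76) (nat_lit 59335670275) (nat_lit 76) (nat_lit 33685277550) (nat_lit 4) (nat_lit 4) (nat_lit 5) (nat_lit 5) (nat_lit 5) (nat_lit 4) (nat_lit 326) (nat_lit 267) (nat_lit 187))) (XT.nd (nat_lit 78) (nat_lit 0) (nat_lit 0) (XT.lf (nat_lit 0) (nat_lit 131336184112) (nat_lit 76) (nat_lit 49691281808) (nat_lit 76) (nat_lit 24036854664) (nat_lit 4) (nat_lit 4) (nat_lit 5) (nat_lit 5) (nat_lit 5) (nat_lit 4) (nat_lit 327) (nat_lit 267) (nat_lit 186)) (XT.lf (nat_lit 0) (nat_lit 167496461591) (nat_lit 76) (nat_lit 39279055654)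 (nat_lit 76) (nat_lit 13620892938) (nat_lit 4) (nat_lit 4) (nat_lit 5) (nat_lit 5) (nat_lit 5) (nat_lit 4) (nat_lit 328) (nat_lit 267) (nat_lit 185)))) (XT.nd (nat_lit 156) (nat_lit 76) (nat_lit 0) (XT.nd (nat_lit 78) (nat_lit 76) (nat_lit 0) (XT.lf (nat_lit 0) (nat_lit 206542408265) (nat_lit 76) (nat_lit 28037289734) (nat_lit 76) (nat_lit 2375668154) (nat_lit 4) (nat_lit 4) (nat_lit 5) (nat_lit 5) (nat_lit 5) (nat_lit 4) (nat_lit 329) (nat_lit 267) (nat_lit 184)) (XT.lf (nat_lit 0) (nat_lit 9276950294) (nat_lit 152) (nat_lit 6368767620) (nat_lit 76) (nat_lit 239174808968) (nat_lit 3) (nat_lit 5) (nat_lit 5) (nat_lit 5) (nat_lit 4) (nat_lit 4) (nat_lit 330) (nat_lit 267) (nat_lit 183))) (XT.nd (nat_lit 78) (nat_lit 0) (nat_lit 0) (XT.lf (nat_lit 0) (nat_lit 20559410900) (nat_lit 76) (nat_lit 1665204749) (nat_lit 152) (nat_lit 251846055159) (nat_lit 2) (nat_lit 5) (nat_lit 3) (nat_lit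 5) (nat_lit 4) (nat_lit 4) (nat_lit 331) (nat_lit 267) (nat_lit 182)) (XT.lf (nat_lit 0) (nat_lit 36706586315) (nat_lit 152) (nat_lit 245176790011) (nat_lit 0) (nat_lit 12937572047) (nat_lit 2) (nat_lit 5) (nat_lit 4) (nat_lit 4) (nat_lit 2) (nat_lit 4) (nat_lit 332) (nat_lit 267) (nat_lit 181)))))) (XT.nd (nat_lit 624) (nat_lit 76) (nat_lit 0) (XT.nd (nat_lit 312) (nat_lit 0) (nat_lit 0) (XT.nd (nat_lit 156) (nat_lit 0) (nat_lit 0) (XT.nd (nat_lit 78) (nat_lit 0) (nat_lit 0) (XT.lf (nat_lit 0) (nat_lit 52387360914) (nat_lit 152) (nat_lit 236224676306) (nat_lit 0) (nat_lit 28615992602) (nat_lit 2) (nat_lit 5) (nat_lit 4) (nat_lit 4) (nat_lit 2) (nat_lit 4) (nat_lit 333) (nat_lit 267) (nat_lit 180)) (XT.lf (nat_lit 0) (nat_lit 69319814341) (nat_lit 152) (nat_lit 226561821017) (nat_lit 0) (nat_lit 45546266358) (nat_lit 2) (nat_lit 5) (nat_lit 4) (nat_lit 4) (nat_lit 2) (nat_lit 4) (nat_lit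 334) (nat_lit 267) (nat_lit 179))) (XT.nd (nat_lit 78) (nat_lit 0) (nat_lit 0) (XT.lf (nat_lit 0) (nat_lit 87604287062) (nat_lit 152) (nat_lit 216130962779) (nat_lit 0) (nat_lit 63828720865) (nat_lit 2) (nat_lit 5) (nat_lit 4) (nat_lit 4) (nat_lit 2) (nat_lit 4) (nat_lit 335) (nat_lit 267) (nat_lit 178)) (XT.lf (nat_lit 0) (nat_lit 107349131506) (nat_lit 152) (nat_lit 204870289098) (nat_lit 0) (nat_lit 83571696592) (nat_lit 2) (nat_lit 5) (nat_lit 4) (nat_lit 4) (nat_lit 2) (nat_lit 4) (nat_lit 336) (nat_lit 267) (nat_lit 177)))) (XT.nd (nat_lit 156) (nat_lit 0) (nat_lit 0) (XT.nd (nat_lit 78) (nat_lit 0) (nat_lit 0) (XT.lf (nat_lit 0) (nat_lit 128671354160) (nat_lit 152) (nat_lit 192713070058) (nat_lit 0) (nat_lit 104892188953) (nat_lit 2) (nat_lit 5) (nat_lit 4) (nat_lit 4) (nat_lit 2) (nat_lit 4) (nat_lit 337) (nat_lit 267) (nat_lit 176)) (XT.lf (nat_lit 0) (nat_lit 151697308935)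 (nat_lit 152) (nat_lit 179587262877) (nat_lit 0) (nat_lit 127916541605) (nat_lit 2) (nat_lit 5) (nat_lit 4) (nat_lit 4) (nat_lit 2) (nat_lit 4) (nat_lit 338) (nat_lit 267) (nat_lit 175))) (XT.nd (nat_lit 78) (nat_lit 0) (nat_lit 0) (XT.lf (nat_lit 0) (nat_lit 176563445934) (nat_lit 152) (nat_lit 165415084995) (nat_lit 0) (nat_lit 152781195156) (nat_lit 2) (nat_lit 5) (nat_lit 4) (nat_lit 4) (nat_lit 2) (nat_lit 4) (nat_lit 339) (nat_lit 267) (nat_lit 174)) (XT.lf (nat_lit 0) (nat_lit 203417120043) (nat_lit 152) (nat_lit 150112553136) (nat_lit 0) (nat_lit 179633495703) (nat_lit 2) (nat_lit 5) (nat_lit 4) (nat_lit 4) (nat_lit 2) (nat_lit 4) (nat_lit 340) (nat_lit 267) (nat_lit 173))))) (XT.nd (nat_lit 312) (nat_lit 76) (nat_lit 0) (XT.nd (nat_lit 156) (nat_lit 0) (nat_lit 0) (XT.nd (nat_lit 78) (nat_lit 0) (nat_lit 0) (XT.lf (nat_lit 0) (nat_lit 232417464145) (nat_lit 152) (nat_lit 133588985630)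 (nat_lit 0) (nat_lit 208632567988) (nat_lit 2) (nat_lit 5) (nat_lit 4) (nat_lit 4) (nat_lit 2) (nat_lit 4) (nat_lit 341) (nat_lit 267) (nat_lit 172)) (XT.lf (nat_lit 0) (nat_lit 263736332131) (nat_lit 152) (nat_lit 115746465038) (nat_lit 0) (nat_lit 239950258366) (nat_lit 2) (nat_lit 5) (nat_lit 4) (nat_lit 4) (nat_lit 2) (nat_lit 4) (nat_lit 342) (nat_lit 267) (nat_lit 171))) (XT.nd (nat_lit 78) (nat_lit 0) (nat_lit 0) (XT.lf (nat_lit 0) (nat_lit 297559317294) (nat_lit 152) (nat_lit 96479257907) (nat_lit 0) (nat_lit 273772153150) (nat_lit 2) (nat_lit 5) (nat_lit 4) (nat_lit 4) (nat_lit 2) (nat_lit 4) (nat_lit 343) (nat_lit 267) (nat_lit 170)) (XT.lf (nat_lit 0) (nat_lit 334086852137) (nat_lit 152) (nat_lit 75673188194) (nat_lit 0) (nat_lit 310298678384) (nat_lit 2) (nat_lit 5) (nat_lit 4) (nat_lit 4) (nat_lit 2) (nat_lit 4) (nat_lit 344) (nat_lit 267) (nat_lit 169)))) (XT.nd (nat_lit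 156) (nat_lit 76) (nat_lit 0) (XT.nd (nat_lit 78) (nat_lit 0) (nat_lit 0) (XT.lf (nat_lit 0) (nat_lit 373535396127) (nat_lit 152) (nat_lit 53204960670) (nat_lit 0) (nat_lit 349746287551) (nat_lit 2) (nat_lit 5) (nat_lit 4) (nat_lit 4) (nat_lit 2) (nat_lit 4) (nat_lit 345) (nat_lit 267) (nat_lit 168)) (XT.lf (nat_lit 0) (nat_lit 416138718413) (nat_lit 152) (nat_lit 28941430284) (nat_lit 0) (nat_lit 392348744260) (nat_lit 2) (nat_lit 5) (nat_lit 4) (nat_lit 4) (nat_lit 2) (nat_lit 4) (nat_lit 346) (nat_lit 267) (nat_lit 167))) (XT.nd (nat_lit 78) (nat_lit 76) (nat_lit 0) (XT.lf (nat_lit 0) (nat_lit 462149283128) (nat_lit 152) (nat_lit 2738813153) (nat_lit 0) (nat_lit 438358507513) (nat_lit 2) (nat_lit 5) (nat_lit 4) (nat_lit 4) (nat_lit 2) (nat_lit 4) (nat_lit 347) (nat_lit 267) (nat_lit 166)) (XT.lf (nat_lit 0) (nat_lit 26904013194) (nat_lit 76) (nat_lit 485582774438) (nat_lit 76) (nat_lit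 461791256731) (nat_lit 1) (nat_lit 4) (nat_lit 2) (nat_lit 5) (nat_lit 2) (nat_lit 4) (nat_lit 348) (nat_lit 267) (nat_lit 165))))))))
noncomputable def xc63 : XT := (XT.nd (nat_lit 35100) (nat_lit 0) (nat_lit 608) (XT.nd (nat_lit 1248) (nat_lit 0) (nat_lit 0) (XT.nd (nat_lit 624) (nat_lit 0) (nat_lit 0) (XT.nd (nat_lit 312) (nat_lit 0) (nat_lit 0) (XT.nd (nat_lit 156) (nat_lit 0) (nat_lit 0) (XT.nd (nat_lit 78) (nat_lit 0) (nat_lit 0) (XT.lf (nat_lit 0) (nat_lit 59072223305) (nat_lit 76) (nat_lit 507853032520) (nat_lit 76) (nat_lit 484060827690) (nat_lit 1) (nat_lit 4) (nat_lit 2) (nat_lit 5) (nat_lit 2) (nat_lit 4) (nat_lit 349) (nat_lit 267) (nat_lit 164)) (XT.lf (nat_lit 0) (nat_lit 93812222563) (nat_lit 76) (nat_lit 531905726432) (nat_lit 76) (nat_lit 508112885376) (nat_lit 1) (nat_lit 4) (nat_lit 2) (nat_lit 5) (nat_lit 2) (nat_lit 4) (nat_lit 350) (nat_lit 267) (nat_lit 163)))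 (XT.nd (nat_lit 78) (nat_lit 0) (nat_lit 0) (XT.lf (nat_lit 0) (nat_lit 131329877630) (nat_lit 76) (nat_lit 557883390655) (nat_lit 76) (nat_lit 534089960502) (nat_lit 1) (nat_lit 4) (nat_lit 2) (nat_lit 5) (nat_lit 2) (nat_lit 4) (nat_lit 351) (nat_lit 267) (nat_lit 162)) (XT.lf (nat_lit 0) (nat_lit 171847515350) (nat_lit 76) (nat_lit 585939966904) (nat_lit 76) (nat_lit 562145991291) (nat_lit 1) (nat_lit 4) (nat_lit 2) (nat_lit 5) (nat_lit 2) (nat_lit 4) (nat_lit 352) (nat_lit 267) (nat_lit 161)))) (XT.nd (nat_lit 156) (nat_lit 0) (nat_lit 0) (XT.nd (nat_lit 78) (nat_lit 0) (nat_lit 0) (XT.lf (nat_lit 0) (nat_lit 215605240244) (nat_lit 76) (nat_lit 616241716372) (nat_lit 76) (nat_lit 592447235702) (nat_lit 1) (nat_lit 4) (nat_lit 2) (nat_lit 5) (nat_lit 2) (nat_lit 4) (nat_lit 353) (nat_lit 267) (nat_lit 160)) (XT.lf (nat_lit 0) (nat_lit 262862357349) (nat_lit 76) (nat_lit 648968204981)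 (nat_lit 76) (nat_lit 625173256667) (nat_lit 1) (nat_lit 4) (nat_lit 2) (nat_lit 5) (nat_lit 2) (nat_lit 4) (nat_lit 354) (nat_lit 267) (nat_lit 159))) (XT.nd (nat_lit 78) (nat_lit 0) (nat_lit 0) (XT.lf (nat_lit 0) (nat_lit 313898908838) (nat_lit 76) (nat_lit 684313367478) (nat_lit 76) (nat_lit 660517986160) (nat_lit 1) (nat_lit 4) (nat_lit 2) (nat_lit 5) (nat_lit 2) (nat_lit 4) (nat_lit 355) (nat_lit 267) (nat_lit 158)) (XT.lf (nat_lit 0) (nat_lit 369017333537) (nat_lit 76) (nat_lit 722486656679) (nat_lit 76) (nat_lit 698690874431) (nat_lit 1) (nat_lit 4) (nat_lit 2) (nat_lit 5) (nat_lit 2) (nat_lit 4) (nat_lit 356) (nat_lit 267) (nat_lit 157))))) (XT.nd (nat_lit 312) (nat_lit 0) (nat_lit 0) (XT.nd (nat_lit 156) (nat_lit 0) (nat_lit 0) (XT.nd (nat_lit 78) (nat_lit 0) (nat_lit 0) (XT.lf (nat_lit 0) (nat_lit 428544259146) (nat_lit 76) (nat_lit 763714284668) (nat_lit 76) (nat_lit 739918131188)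 (nat_lit 1) (nat_lit 4) (nat_lit 2) (nat_lit 5) (nat_lit 2) (nat_lit 4) (nat_lit 357) (nat_lit 267) (nat_lit 156)) (XT.lf (nat_lit 0) (nat_lit 492832437818) (nat_lit 76) (nat_lit 808240563313) (nat_lit 76) (nat_lit 784444066101) (nat_lit 1) (nat_lit 4) (nat_lit 2) (nat_lit 5) (nat_lit 2) (nat_lit 4) (nat_lit 358) (nat_lit 267) (nat_lit 155))) (XT.nd (nat_lit 78) (nat_lit 0) (nat_lit 0) (XT.lf (nat_lit 0) (nat_lit 562262836538) (nat_lit 76) (nat_lit 856329352044) (nat_lit 76) (nat_lit 832532536561) (nat_lit 1) (nat_lit 4) (nat_lit 2) (nat_lit 5) (nat_lit 2) (nat_lit 4) (nat_lit 359) (nat_lit 267) (nat_lit 154)) (XT.lf (nat_lit 0) (nat_lit 637246894705) (nat_lit 76) (nat_lit 908265621462) (nat_lit 76) (nat_lit 884468511283) (nat_lit 1) (nat_lit 4) (nat_lit 2) (nat_lit 5) (nat_lit 2) (nat_lit 4) (nat_lit 360) (nat_lit 267) (nat_lit 153)))) (XT.nd (nat_lit 156) (nat_lit 0) (nat_lit 0) (XT.nd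 (nat_lit 78) (nat_lit 0) (nat_lit 0) (XT.lf (nat_lit 0) (nat_lit 718228962294) (nat_lit 76) (nat_lit 964357142051) (nat_lit 76) (nat_lit 940559759006) (nat_lit 1) (nat_lit 4) (nat_lit 2) (nat_lit 5) (nat_lit 2) (nat_lit 4) (nat_lit 361) (nat_lit 267) (nat_lit 152)) (XT.lf (nat_lit 0) (nat_lit 805688933038) (nat_lit 76) (nat_lit 1024936308007) (nat_lit 76) (nat_lit 1001138672309) (nat_lit 1) (nat_lit 4) (nat_lit 2) (nat_lit 5) (nat_lit 2) (nat_lit 4) (nat_lit 362) (nat_lit 267) (nat_lit 151))) (XT.nd (nat_lit 78) (nat_lit 0) (nat_lit 0) (XT.lf (nat_lit 0) (nat_lit 900145088246) (nat_lit 76) (nat_lit 1090362106981) (nat_lit 76) (nat_lit 1066564237344) (nat_lit 1) (nat_lit 4) (nat_lit 2) (nat_lit 5) (nat_lit 2) (nat_lit 4) (nat_lit 363) (nat_lit 267) (nat_lit 150)) (XT.lf (nat_lit 0) (nat_lit 1002157168096) (nat_lit 76) (nat_lit 1161022247411) (nat_lit 76) (nat_lit 1137224161164) (nat_lit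 1) (nat_lit 4) (nat_lit 2) (nat_lit 5) (nat_lit 2) (nat_lit 4) (nat_lit 364) (nat_lit 267) (nat_lit 149)))))) (XT.nd (nat_lit 33228) (nat_lit 0) (nat_lit 3116) (XT.nd (nat_lit 312) (nat_lit 0) (nat_lit 0) (XT.nd (nat_lit 156) (nat_lit 0) (nat_lit 0) (XT.nd (nat_lit 78) (nat_lit 0) (nat_lit 0) (XT.lf (nat_lit 0) (nat_lit 1112329688617) (nat_lit 76) (nat_lit 1237335456054) (nat_lit 76) (nat_lit 1213537169243) (nat_lit 1) (nat_lit 4) (nat_lit 2) (nat_lit 5) (nat_lit 2) (nat_lit 4) (nat_lit 365) (nat_lit 267) (nat_lit 148)) (XT.lf (nat_lit 0) (nat_lit 1231315524006) (nat_lit 76) (nat_lit 1319753959334) (nat_lit 76) (nat_lit 1295955486814) (nat_lit 1) (nat_lit 4) (nat_lit 2) (nat_lit 5) (nat_lit 2) (nat_lit 4) (nat_lit 366) (nat_lit 267) (nat_lit 147))) (XT.nd (nat_lit 78) (nat_lit 0) (nat_lit 0) (XT.lf (nat_lit 0) (nat_lit 1359819775509) (nat_lit 76) (nat_lit 1408766163195) (nat_lit 76)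 (nat_lit 1384967518723) (nat_lit 1) (nat_lit 4) (nat_lit 2) (nat_lit 5) (nat_lit 2) (nat_lit 4) (nat_lit 367) (nat_lit 267) (nat_lit 146)) (XT.lf (nat_lit 0) (nat_lit 1498603949800) (nat_lit 76) (nat_lit 1504899547363) (nat_lit 76) (nat_lit 1481100743676) (nat_lit 1) (nat_lit 4) (nat_lit 2) (nat_lit 5) (nat_lit 2) (nat_lit 4) (nat_lit 368) (nat_lit 267) (nat_lit 145)))) (XT.nd (nat_lit 32760) (nat_lit 0) (nat_lit 3876) (XT.nd (nat_lit 78) (nat_lit 0) (nat_lit 0) (XT.lf (nat_lit 0) (nat_lit 1648490471618) (nat_lit 76) (nat_lit 1608723791152) (nat_lit 76) (nat_lit 1584924840045) (nat_lit 1) (nat_lit 4) (nat_lit 2) (nat_lit 5) (nat_lit 2) (nat_lit 4) (nat_lit 369) (nat_lit 267) (nat_lit 144)) (XT.lf (nat_lit 0) (nat_lit 1810367557387) (nat_lit 76) (nat_lit 1720854149340) (nat_lit 76) (nat_lit 1697055061732) (nat_lit 1) (nat_lit 4) (nat_lit 2) (nat_lit 5) (nat_lit 2) (nat_lit 4) (nat_lit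 370) (nat_lit 267) (nat_lit 143))) (XT.nd (nat_lit 78) (nat_lit 0) (nat_lit 0) (XT.lf (nat_lit 0) (nat_lit 940222715) (nat_lit 0) (nat_lit 940222715) (nat_lit 380) (nat_lit 2275273067) (nat_lit 52) (nat_lit 5) (nat_lit 52) (nat_lit 3) (nat_lit 57) (nat_lit 3) (nat_lit 268) (nat_lit 268) (nat_lit 244)) (XT.lf (nat_lit 0) (nat_lit 4955759455) (nat_lit 380) (nat_lit 2596845848) (nat_lit 456) (nat_lit 1004475917) (nat_lit 52) (nat_lit 5) (nat_lit 57) (nat_lit 3) (nat_lit 58) (nat_lit 5) (nat_lit 269) (nat_lit 268) (nat_lit 243))))) (XT.nd (nat_lit 312) (nat_lit 380) (nat_lit 0) (XT.nd (nat_lit 156) (nat_lit 380) (nat_lit 0) (XT.nd (nat_lit 78) (nat_lit 0) (nat_lit 0) (XT.lf (nat_lit 76) (nat_lit 1510044767) (nat_lit 0) (nat_lit 4720608729) (nat_lit 456) (nat_lit 2593294629) (nat_lit 53) (nat_lit 5) (nat_lit 52) (nat_lit 5) (nat_lit 58) (nat_lit 5) (nat_lit 270) (nat_lit 268) (nat_lit 242))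 (XT.lf (nat_lit 76) (nat_lit 6034025252) (nat_lit 0) (nat_lit 1549831308) (nat_lit 456) (nat_lit 1530504292) (nat_lit 53) (nat_lit 5) (nat_lit 52) (nat_lit 5) (nat_lit 58) (nat_lit 5) (nat_lit 271) (nat_lit 268) (nat_lit 241))) (XT.nd (nat_lit 78) (nat_lit 456) (nat_lit 0) (XT.lf (nat_lit 76) (nat_lit 1456861629) (nat_lit 0) (nat_lit 7581696389) (nat_lit 456) (nat_lit 390268716) (nat_lit 54) (nat_lit 5) (nat_lit 53) (nat_lit 5) (nat_lit 59) (nat_lit 5) (nat_lit 272) (nat_lit 268) (nat_lit 240)) (XT.lf (nat_lit 0) (nat_lit 841479864) (nat_lit 456) (nat_lit 3358106375) (nat_lit 532) (nat_lit 5564094942) (nat_lit 47) (nat_lit 5) (nat_lit 53) (nat_lit 5) (nat_lit 54) (nat_lit 5) (nat_lit 273) (nat_lit 268) (nat_lit 239)))) (XT.nd (nat_lit 156) (nat_lit 380) (nat_lit 0) (XT.nd (nat_lit 78) (nat_lit 0) (nat_lit 76) (XT.lf (nat_lit 76) (nat_lit 1635485189) (nat_lit 0) (nat_lit 476484639) (nat_lit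 532) (nat_lit 8015862201) (nat_lit 48) (nat_lit 5) (nat_lit 47) (nat_lit 5) (nat_lit 54) (nat_lit 5) (nat_lit 274) (nat_lit 268) (nat_lit 238)) (XT.lf (nat_lit 0) (nat_lit 3590188985) (nat_lit 456) (nat_lit 3447805836) (nat_lit 76) (nat_lit 3474838370) (nat_lit 48) (nat_lit 5) (nat_lit 54) (nat_lit 5) (nat_lit 49) (nat_lit 5) (nat_lit 275) (nat_lit 268) (nat_lit 237))) (XT.nd (nat_lit 78) (nat_lit 0) (nat_lit 0) (XT.lf (nat_lit 0) (nat_lit 2028322825) (nat_lit 456) (nat_lit 3151578156) (nat_lit 532) (nat_lit 5749464870) (nat_lit 42) (nat_lit 5) (nat_lit 48) (nat_lit 5) (nat_lit 49) (nat_lit 5) (nat_lit 276) (nat_lit 268) (nat_lit 236)) (XT.lf (nat_lit 0) (nat_lit 6954451218) (nat_lit 532) (nat_lit 3325612788) (nat_lit 76) (nat_lit 1094720352) (nat_lit 42) (nat_lit 5) (nat_lit 49) (nat_lit 5) (nat_lit 43) (nat_lit 5) (nat_lit 277) (nat_lit 268) (nat_lit 235))))))) (XT.nd (nat_lit 1248)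 (nat_lit 912) (nat_lit 0) (XT.nd (nat_lit 624) (nat_lit 684) (nat_lit 0) (XT.nd (nat_lit 312) (nat_lit 380) (nat_lit 0) (XT.nd (nat_lit 156) (nat_lit 304) (nat_lit 0) (XT.nd (nat_lit 78) (nat_lit 0) (nat_lit 0) (XT.lf (nat_lit 0) (nat_lit 2688329528) (nat_lit 228) (nat_lit 6269698817) (nat_lit 304) (nat_lit 2891006061) (nat_lit 39) (nat_lit 5) (nat_lit 42) (nat_lit 5) (nat_lit 43) (nat_lit 5) (nat_lit 278) (nat_lit 268) (nat_lit 234)) (XT.lf (nat_lit 0) (nat_lit 9313896119) (nat_lit 228) (nat_lit 1842466883) (nat_lit 304) (nat_lit 1202254758) (nat_lit 39) (nat_lit 5) (nat_lit 42) (nat_lit 5) (nat_lit 43) (nat_lit 5) (nat_lit 279) (nat_lit 268) (nat_lit 233))) (XT.nd (nat_lit 78) (nat_lit 0) (nat_lit 0) (XT.lf (nat_lit 0) (nat_lit 698329360) (nat_lit 304) (nat_lit 9306376504) (nat_lit 76) (nat_lit 2894569231) (nat_lit 35) (nat_lit 5) (nat_lit 39) (nat_lit 5) (nat_lit 36) (nat_lit 5) (nat_lit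 280) (nat_lit 268) (nat_lit 232)) (XT.lf (nat_lit 0) (nat_lit 2768037089) (nat_lit 304) (nat_lit 2682975151) (nat_lit 76) (nat_lit 8023232074) (nat_lit 35) (nat_lit 5) (nat_lit 39) (nat_lit 5) (nat_lit 36) (nat_lit 5) (nat_lit 281) (nat_lit 268) (nat_lit 231)))) (XT.nd (nat_lit 156) (nat_lit 152) (nat_lit 0) (XT.nd (nat_lit 78) (nat_lit 0) (nat_lit 0) (XT.lf (nat_lit 0) (nat_lit 4647323985) (nat_lit 228) (nat_lit 420324229) (nat_lit 304) (nat_lit 9022527709) (nat_lit 32) (nat_lit 5) (nat_lit 35) (nat_lit 5) (nat_lit 36) (nat_lit 5) (nat_lit 282) (nat_lit 268) (nat_lit 230)) (XT.lf (nat_lit 0) (nat_lit 7701610013) (nat_lit 304) (nat_lit 2212904280) (nat_lit 76) (nat_lit 4828940000) (nat_lit 32) (nat_lit 5) (nat_lit 36) (nat_lit 5) (nat_lit 33) (nat_lit 5) (nat_lit 283) (nat_lit 268) (nat_lit 229))) (XT.nd (nat_lit 78) (nat_lit 0) (nat_lit 0) (XT.lf (nat_lit 0) (nat_lit 5822492606) (nat_lit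 152) (nat_lit 4832671315) (nat_lit 228) (nat_lit 4785216161) (nat_lit 30) (nat_lit 5) (nat_lit 32) (nat_lit 5) (nat_lit 33) (nat_lit 5) (nat_lit 284) (nat_lit 268) (nat_lit 228)) (XT.lf (nat_lit 0) (nat_lit 13882360019) (nat_lit 228) (nat_lit 1633956917) (nat_lit 76) (nat_lit 673842480) (nat_lit 30) (nat_lit 5) (nat_lit 33) (nat_lit 5) (nat_lit 31) (nat_lit 5) (nat_lit 285) (nat_lit 268) (nat_lit 227))))) (XT.nd (nat_lit 312) (nat_lit 304) (nat_lit 0) (XT.nd (nat_lit 156) (nat_lit 152) (nat_lit 0) (XT.nd (nat_lit 78) (nat_lit 0) (nat_lit 0) (XT.lf (nat_lit 0) (nat_lit 616597102) (nat_lit 228) (nat_lit 9823782004) (nat_lit 76) (nat_lit 6537535003) (nat_lit 27) (nat_lit 5) (nat_lit 30) (nat_lit 5) (nat_lit 28) (nat_lit 5) (nat_lit 286) (nat_lit 268) (nat_lit 226)) (XT.lf (nat_lit 0) (nat_lit 3659190144) (nat_lit 228) (nat_lit 1199645832) (nat_lit 76) (nat_lit 12964413645) (nat_lit 27)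 (nat_lit 5) (nat_lit 30) (nat_lit 5) (nat_lit 28) (nat_lit 5) (nat_lit 287) (nat_lit 268) (nat_lit 225))) (XT.nd (nat_lit 78) (nat_lit 0) (nat_lit 0) (XT.lf (nat_lit 0) (nat_lit 7148330106) (nat_lit 228) (nat_lit 10264371293) (nat_lit 76) (nat_lit 1307324184) (nat_lit 25) (nat_lit 5) (nat_lit 28) (nat_lit 5) (nat_lit 26) (nat_lit 5) (nat_lit 288) (nat_lit 268) (nat_lit 224)) (XT.lf (nat_lit 0) (nat_lit 11043360220) (nat_lit 228) (nat_lit 910306951) (nat_lit 76) (nat_lit 7724795700) (nat_lit 25) (nat_lit 5) (nat_lit 28) (nat_lit 5) (nat_lit 26) (nat_lit 5) (nat_lit 289) (nat_lit 268) (nat_lit 223)))) (XT.nd (nat_lit 156) (nat_lit 152) (nat_lit 0) (XT.nd (nat_lit 78) (nat_lit 0) (nat_lit 0) (XT.lf (nat_lit 0) (nat_lit 9628424961) (nat_lit 152) (nat_lit 5822486284) (nat_lit 228) (nat_lit 5246645946) (nat_lit 23) (nat_lit 5) (nat_lit 25) (nat_lit 5) (nat_lit 26) (nat_lit 5) (nat_lit 290)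 (nat_lit 268) (nat_lit 222)) (XT.lf (nat_lit 0) (nat_lit 20226031143) (nat_lit 228) (nat_lit 800245049) (nat_lit 76) (nat_lit 770757092) (nat_lit 23) (nat_lit 5) (nat_lit 26) (nat_lit 5) (nat_lit 24) (nat_lit 4) (nat_lit 291) (nat_lit 268) (nat_lit 221))) (XT.nd (nat_lit 78) (nat_lit 0) (nat_lit 0) (XT.lf (nat_lit 0) (nat_lit 2667752912) (nat_lit 152) (nat_lit 12393941668) (nat_lit 76) (nat_lit 7887077706) (nat_lit 21) (nat_lit 5) (nat_lit 23) (nat_lit 5) (nat_lit 22) (nat_lit 5) (nat_lit 292) (nat_lit 268) (nat_lit 220)) (XT.lf (nat_lit 0) (nat_lit 7155905938) (nat_lit 152) (nat_lit 1411636517) (nat_lit 76) (nat_lit 15622270547) (nat_lit 21) (nat_lit 5) (nat_lit 23) (nat_lit 5) (nat_lit 22) (nat_lit 5) (nat_lit 293) (nat_lit 268) (nat_lit 219)))))) (XT.nd (nat_lit 624) (nat_lit 380) (nat_lit 0) (XT.nd (nat_lit 312) (nat_lit 228) (nat_lit 0) (XT.nd (nat_lit 156) (nat_lit 152) (nat_lit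 0) (XT.nd (nat_lit 78) (nat_lit 0) (nat_lit 0) (XT.lf (nat_lit 0) (nat_lit 10957399570) (nat_lit 152) (nat_lit 1283981854) (nat_lit 228) (nat_lit 13269731724) (nat_lit 19) (nat_lit 5) (nat_lit 21) (nat_lit 5) (nat_lit 22) (nat_lit 5) (nat_lit 294) (nat_lit 268) (nat_lit 218)) (XT.lf (nat_lit 0) (nat_lit 17906923240) (nat_lit 228) (nat_lit 2738699131) (nat_lit 76) (nat_lit 6278671663) (nat_lit 19) (nat_lit 5) (nat_lit 22) (nat_lit 5) (nat_lit 20) (nat_lit 4) (nat_lit 295) (nat_lit 268) (nat_lit 217))) (XT.nd (nat_lit 78) (nat_lit 76) (nat_lit 0) (XT.lf (nat_lit 0) (nat_lit 10474550342) (nat_lit 76) (nat_lit 13813574698) (nat_lit 152) (nat_lit 4141443416) (nat_lit 18) (nat_lit 5) (nat_lit 19) (nat_lit 5) (nat_lit 20) (nat_lit 4) (nat_lit 296) (nat_lit 268) (nat_lit 216)) (XT.lf (nat_lit 0) (nat_lit 1122492536) (nat_lit 152) (nat_lit 5215516327) (nat_lit 76) (nat_lit 23710784948) (nat_lit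 17) (nat_lit 5) (nat_lit 19) (nat_lit 5) (nat_lit 18) (nat_lit 5) (nat_lit 297) (nat_lit 268) (nat_lit 215)))) (XT.nd (nat_lit 156) (nat_lit 76) (nat_lit 0) (XT.nd (nat_lit 78) (nat_lit 0) (nat_lit 0) (XT.lf (nat_lit 0) (nat_lit 6825229589) (nat_lit 228) (nat_lit 22980487242) (nat_lit 76) (nat_lit 1963945947) (nat_lit 15) (nat_lit 5) (nat_lit 18) (nat_lit 5) (nat_lit 16) (nat_lit 4) (nat_lit 298) (nat_lit 268) (nat_lit 214)) (XT.lf (nat_lit 0) (nat_lit 13274550324) (nat_lit 228) (nat_lit 9609744845) (nat_lit 76) (nat_lit 10720700731) (nat_lit 15) (nat_lit 5) (nat_lit 18) (nat_lit 5) (nat_lit 16) (nat_lit 4) (nat_lit 299) (nat_lit 268) (nat_lit 213))) (XT.nd (nat_lit 78) (nat_lit 0) (nat_lit 0) (XT.lf (nat_lit 0) (nat_lit 5050451011) (nat_lit 76) (nat_lit 15291788173) (nat_lit 152) (nat_lit 15236744739) (nat_lit 14) (nat_lit 5) (nat_lit 15) (nat_lit 5) (nat_lit 16) (nat_lit 4) (nat_lit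 300) (nat_lit 268) (nat_lit 212)) (XT.lf (nat_lit 0) (nat_lit 21397958939) (nat_lit 76) (nat_lit 6821731071) (nat_lit 152) (nat_lit 9471673646) (nat_lit 14) (nat_lit 5) (nat_lit 15) (nat_lit 5) (nat_lit 16) (nat_lit 4) (nat_lit 301) (nat_lit 268) (nat_lit 211))))) (XT.nd (nat_lit 312) (nat_lit 152) (nat_lit 0) (XT.nd (nat_lit 156) (nat_lit 76) (nat_lit 0) (XT.nd (nat_lit 78) (nat_lit 152) (nat_lit 0) (XT.lf (nat_lit 0) (nat_lit 36765934752) (nat_lit 152) (nat_lit 1006130197) (nat_lit 0) (nat_lit 2197599896) (nat_lit 14) (nat_lit 5) (nat_lit 16) (nat_lit 4) (nat_lit 14) (nat_lit 4) (nat_lit 302) (nat_lit 268) (nat_lit 210)) (XT.lf (nat_lit 0) (nat_lit 3949944191) (nat_lit 152) (nat_lit 26382290923) (nat_lit 76) (nat_lit 12046137830) (nat_lit 12) (nat_lit 5) (nat_lit 14) (nat_lit 5) (nat_lit 13) (nat_lit 4) (nat_lit 303) (nat_lit 268) (nat_lit 209))) (XT.nd (nat_lit 78) (nat_lit 76) (nat_lit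 0) (XT.lf (nat_lit 0) (nat_lit 11515098962) (nat_lit 152) (nat_lit 10674398618) (nat_lit 76) (nat_lit 22782656324) (nat_lit 12) (nat_lit 5) (nat_lit 14) (nat_lit 5) (nat_lit 13) (nat_lit 4) (nat_lit 304) (nat_lit 268) (nat_lit 208)) (XT.lf (nat_lit 0) (nat_lit 6593491448) (nat_lit 76) (nat_lit 13235777248) (nat_lit 152) (nat_lit 27932678332) (nat_lit 11) (nat_lit 5) (nat_lit 12) (nat_lit 5) (nat_lit 13) (nat_lit 4) (nat_lit 305) (nat_lit 268) (nat_lit 207)))) (XT.nd (nat_lit 156) (nat_lit 152) (nat_lit 0) (XT.nd (nat_lit 78) (nat_lit 0) (nat_lit 0) (XT.lf (nat_lit 0) (nat_lit 25824078501) (nat_lit 76) (nat_lit 3262053174) (nat_lit 152) (nat_lit 21666600020) (nat_lit 11) (nat_lit 5) (nat_lit 12) (nat_lit 5) (nat_lit 13) (nat_lit 4) (nat_lit 306) (nat_lit 268) (nat_lit 206)) (XT.lf (nat_lit 0) (nat_lit 39250654682) (nat_lit 152) (nat_lit 7594972681) (nat_lit 0) (nat_lit 7123794806) (nat_lit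 11) (nat_lit 5) (nat_lit 13) (nat_lit 4) (nat_lit 11) (nat_lit 4) (nat_lit 307) (nat_lit 268) (nat_lit 205))) (XT.nd (nat_lit 78) (nat_lit 76) (nat_lit 0) (XT.lf (nat_lit 0) (nat_lit 11597980506) (nat_lit 76) (nat_lit 38981524643) (nat_lit 76) (nat_lit 6835860513) (nat_lit 10) (nat_lit 4) (nat_lit 11) (nat_lit 5) (nat_lit 11) (nat_lit 4) (nat_lit 308) (nat_lit 268) (nat_lit 204)) (XT.lf (nat_lit 0) (nat_lit 1794379040) (nat_lit 152) (nat_lit 28430767071) (nat_lit 76) (nat_lit 30892570177) (nat_lit 9) (nat_lit 5) (nat_lit 11) (nat_lit 5) (nat_lit 10) (nat_lit 4) (nat_lit 309) (nat_lit 268) (nat_lit 203))))))))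
noncomputable def xc64 : XT := (XT.nd (nat_lit 2418) (nat_lit 76) (nat_lit 0) (XT.nd (nat_lit 1170) (nat_lit 152) (nat_lit 0) (XT.nd (nat_lit 546) (nat_lit 228) (nat_lit 0) (XT.nd (nat_lit 234) (nat_lit 76) (nat_lit 0) (XT.nd (nat_lit 78) (nat_lit 76) (nat_lit 0) (XT.lf (nat_lit 0) (nat_lit 10734214978) (nat_lit 152) (nat_lit 9852029935) (nat_lit 76) (nat_lit 44516735122) (nat_lit 9) (nat_lit 5) (nat_lit 11) (nat_lit 5) (nat_lit 10) (nat_lit 4) (nat_lit 310) (nat_lit 268) (nat_lit 202)) (XT.nd (nat_lit 78) (nat_lit 0) (nat_lit 0) (XT.lf (nat_lit 0) (nat_lit 10730087514) (nat_lit 76) (nat_lit 9906552884) (nat_lit 152) (nat_lit 48750640385) (nat_lit 8) (nat_lit 5) (nat_lit 9) (nat_lit 5) (nat_lit 10) (nat_lit 4) (nat_lit 311) (nat_lit 268) (nat_lit 201)) (XT.lf (nat_lit 0) (nat_lit 31636229041) (nat_lit 152) (nat_lit 40539649888) (nat_lit 0) (nat_lit 1814056632) (nat_lit 8) (nat_lit 5)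 (nat_lit 10) (nat_lit 4) (nat_lit 8) (nat_lit 4) (nat_lit 312) (nat_lit 268) (nat_lit 200)))) (XT.nd (nat_lit 156) (nat_lit 76) (nat_lit 0) (XT.nd (nat_lit 78) (nat_lit 0) (nat_lit 0) (XT.lf (nat_lit 0) (nat_lit 43763337463) (nat_lit 152) (nat_lit 21248352811) (nat_lit 0) (nat_lit 13929315184) (nat_lit 8) (nat_lit 5) (nat_lit 10) (nat_lit 4) (nat_lit 8) (nat_lit 4) (nat_lit 313) (nat_lit 268) (nat_lit 199)) (XT.lf (nat_lit 0) (nat_lit 56851577174) (nat_lit 152) (nat_lit 430730406) (nat_lit 0) (nat_lit 27006582793) (nat_lit 8) (nat_lit 5) (nat_lit 10) (nat_lit 4) (nat_lit 8) (nat_lit 4) (nat_lit 314) (nat_lit 268) (nat_lit 198))) (XT.nd (nat_lit 78) (nat_lit 0) (nat_lit 0) (XT.lf (nat_lit 0) (nat_lit 23196988319) (nat_lit 76) (nat_lit 48339407921) (nat_lit 76) (nat_lit 18484254187) (nat_lit 7) (nat_lit 4) (nat_lit 8) (nat_lit 5) (nat_lit 8) (nat_lit 4) (nat_lit 315) (nat_lit 268) (nat_lit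 197)) (XT.lf (nat_lit 0) (nat_lit 48724097781) (nat_lit 76) (nat_lit 38675563370) (nat_lit 76) (nat_lit 8811002828) (nat_lit 7) (nat_lit 4) (nat_lit 8) (nat_lit 5) (nat_lit 8) (nat_lit 4) (nat_lit 316) (nat_lit 268) (nat_lit 196))))) (XT.nd (nat_lit 312) (nat_lit 76) (nat_lit 0) (XT.nd (nat_lit 156) (nat_lit 76) (nat_lit 0) (XT.nd (nat_lit 78) (nat_lit 0) (nat_lit 0) (XT.lf (nat_lit 0) (nat_lit 1546548418) (nat_lit 152) (nat_lit 26656449839) (nat_lit 76) (nat_lit 74690354446) (nat_lit 6) (nat_lit 5) (nat_lit 8) (nat_lit 5) (nat_lit 7) (nat_lit 4) (nat_lit 317) (nat_lit 268) (nat_lit 195)) (XT.lf (nat_lit 0) (nat_lit 12249536827) (nat_lit 152) (nat_lit 4402298770) (nat_lit 76) (nat_lit 93441088246) (nat_lit 6) (nat_lit 5) (nat_lit 8) (nat_lit 5) (nat_lit 7) (nat_lit 4) (nat_lit 318) (nat_lit 268) (nat_lit 194))) (XT.nd (nat_lit 78) (nat_lit 0) (nat_lit 0) (XT.lf (nat_lit 0) (nat_lit 20652805252)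 (nat_lit 76) (nat_lit 3646044772) (nat_lit 152) (nat_lit 93530407849) (nat_lit 5) (nat_lit 5) (nat_lit 6) (nat_lit 5) (nat_lit 7) (nat_lit 4) (nat_lit 319) (nat_lit 268) (nat_lit 193)) (XT.lf (nat_lit 0) (nat_lit 37679169426) (nat_lit 152) (nat_lit 78478018162) (nat_lit 0) (nat_lit 9997949902) (nat_lit 5) (nat_lit 5) (nat_lit 7) (nat_lit 4) (nat_lit 5) (nat_lit 4) (nat_lit 320) (nat_lit 268) (nat_lit 192)))) (XT.nd (nat_lit 156) (nat_lit 76) (nat_lit 0) (XT.nd (nat_lit 78) (nat_lit 0) (nat_lit 0) (XT.lf (nat_lit 0) (nat_lit 52218545365) (nat_lit 152) (nat_lit 58390057151) (nat_lit 0) (nat_lit 24531397957) (nat_lit 5) (nat_lit 5) (nat_lit 7) (nat_lit 4) (nat_lit 5) (nat_lit 4) (nat_lit 321) (nat_lit 268) (nat_lit 191)) (XT.lf (nat_lit 0) (nat_lit 67915449644) (nat_lit 152) (nat_lit 36705842357) (nat_lit 0) (nat_lit 40222813453) (nat_lit 5) (nat_lit 5) (nat_lit 7) (nat_lit 4) (nat_lit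 5) (nat_lit 4) (nat_lit 322) (nat_lit 268) (nat_lit 190))) (XT.nd (nat_lit 78) (nat_lit 76) (nat_lit 0) (XT.lf (nat_lit 0) (nat_lit 84862900954) (nat_lit 152) (nat_lit 13296874729) (nat_lit 0) (nat_lit 57165182557) (nat_lit 5) (nat_lit 5) (nat_lit 7) (nat_lit 4) (nat_lit 5) (nat_lit 4) (nat_lit 323) (nat_lit 268) (nat_lit 189)) (XT.lf (nat_lit 0) (nat_lit 12606177599) (nat_lit 76) (nat_lit 90858329911) (nat_lit 76) (nat_lit 63155905768) (nat_lit 4) (nat_lit 4) (nat_lit 5) (nat_lit 5) (nat_lit 5) (nat_lit 4) (nat_lit 324) (nat_lit 268) (nat_lit 188)))))) (XT.nd (nat_lit 624) (nat_lit 0) (nat_lit 0) (XT.nd (nat_lit 312) (nat_lit 152) (nat_lit 0) (XT.nd (nat_lit 156) (nat_lit 0) (nat_lit 0) (XT.nd (nat_lit 78) (nat_lit 0) (nat_lit 0) (XT.lf (nat_lit 0) (nat_lit 41328668439) (nat_lit 76) (nat_lit 82584454847) (nat_lit 76) (nat_lit 54877673532) (nat_lit 4) (nat_lit 4) (nat_lit 5) (nat_lit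 5) (nat_lit 5) (nat_lit 4) (nat_lit 325) (nat_lit 268) (nat_lit 187)) (XT.lf (nat_lit 0) (nat_lit 72340615285) (nat_lit 76) (nat_lit 73652680241) (nat_lit 76) (nat_lit 45941864507) (nat_lit 4) (nat_lit 4) (nat_lit 5) (nat_lit 5) (nat_lit 5) (nat_lit 4) (nat_lit 326) (nat_lit 268) (nat_lit 186))) (XT.nd (nat_lit 78) (nat_lit 0) (nat_lit 0) (XT.lf (nat_lit 0) (nat_lit 105825792635) (nat_lit 76) (nat_lit 64010077058) (nat_lit 76) (nat_lit 36295525751) (nat_lit 4) (nat_lit 4) (nat_lit 5) (nat_lit 5) (nat_lit 5) (nat_lit 4) (nat_lit 327) (nat_lit 268) (nat_lit 185)) (XT.lf (nat_lit 0) (nat_lit 141982631170) (nat_lit 76) (nat_lit 53599503946) (nat_lit 76) (nat_lit 25881493775) (nat_lit 4) (nat_lit 4) (nat_lit 5) (nat_lit 5) (nat_lit 5) (nat_lit 4) (nat_lit 328) (nat_lit 268) (nat_lit 184)))) (XT.nd (nat_lit 156) (nat_lit 152) (nat_lit 0) (XT.nd (nat_lit 78) (nat_lit 0) (nat_lit 0) (XT.lf (nat_lit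 0) (nat_lit 181025393638) (nat_lit 76) (nat_lit 42359268620) (nat_lit 76) (nat_lit 14638055797) (nat_lit 4) (nat_lit 4) (nat_lit 5) (nat_lit 5) (nat_lit 5) (nat_lit 4) (nat_lit 329) (nat_lit 268) (nat_lit 183)) (XT.lf (nat_lit 0) (nat_lit 223185444556) (nat_lit 76) (nat_lit 30222762277) (nat_lit 76) (nat_lit 2498584036) (nat_lit 4) (nat_lit 4) (nat_lit 5) (nat_lit 5) (nat_lit 5) (nat_lit 4) (nat_lit 330) (nat_lit 268) (nat_lit 182))) (XT.nd (nat_lit 78) (nat_lit 76) (nat_lit 0) (XT.lf (nat_lit 0) (nat_lit 10078161019) (nat_lit 152) (nat_lit 6764349079) (nat_lit 76) (nat_lit 258358905463) (nat_lit 3) (nat_lit 5) (nat_lit 5) (nat_lit 5) (nat_lit 4) (nat_lit 4) (nat_lit 331) (nat_lit 268) (nat_lit 181)) (XT.lf (nat_lit 0) (nat_lit 22315199673) (nat_lit 76) (nat_lit 1744735923) (nat_lit 152) (nat_lit 271931773881) (nat_lit 2) (nat_lit 5) (nat_lit 3) (nat_lit 5) (nat_lit 4) (nat_lit 4) (nat_lit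 332) (nat_lit 268) (nat_lit 180))))) (XT.nd (nat_lit 312) (nat_lit 0) (nat_lit 0) (XT.nd (nat_lit 156) (nat_lit 0) (nat_lit 0) (XT.nd (nat_lit 78) (nat_lit 0) (nat_lit 0) (XT.lf (nat_lit 0) (nat_lit 39697411206) (nat_lit 152) (nat_lit 264685044539) (nat_lit 0) (nat_lit 14019799714) (nat_lit 2) (nat_lit 5) (nat_lit 4) (nat_lit 4) (nat_lit 2) (nat_lit 4) (nat_lit 333) (nat_lit 268) (nat_lit 179)) (XT.lf (nat_lit 0) (nat_lit 56628625700) (nat_lit 152) (nat_lit 255024605344) (nat_lit 0) (nat_lit 30948995994) (nat_lit 2) (nat_lit 5) (nat_lit 4) (nat_lit 4) (nat_lit 2) (nat_lit 4) (nat_lit 334) (nat_lit 268) (nat_lit 178))) (XT.nd (nat_lit 78) (nat_lit 0) (nat_lit 0) (XT.lf (nat_lit 0) (nat_lit 74911951260) (nat_lit 152) (nat_lit 244595984229) (nat_lit 0) (nat_lit 49230452837) (nat_lit 2) (nat_lit 5) (nat_lit 4) (nat_lit 4) (nat_lit 2) (nat_lit 4) (nat_lit 335) (nat_lit 268) (nat_lit 177))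 (XT.lf (nat_lit 0) (nat_lit 94655733519) (nat_lit 152) (nat_lit 233337381959) (nat_lit 0) (nat_lit 68972504803) (nat_lit 2) (nat_lit 5) (nat_lit 4) (nat_lit 4) (nat_lit 2) (nat_lit 4) (nat_lit 336) (nat_lit 268) (nat_lit 176)))) (XT.nd (nat_lit 156) (nat_lit 0) (nat_lit 0) (XT.nd (nat_lit 78) (nat_lit 0) (nat_lit 0) (XT.lf (nat_lit 0) (nat_lit 115976972667) (nat_lit 152) (nat_lit 221182080891) (nat_lit 0) (nat_lit 90292141828) (nat_lit 2) (nat_lit 5) (nat_lit 4) (nat_lit 4) (nat_lit 2) (nat_lit 4) (nat_lit 337) (nat_lit 268) (nat_lit 175)) (XT.lf (nat_lit 0) (nat_lit 139002016790) (nat_lit 152) (nat_lit 208058049611) (nat_lit 0) (nat_lit 113315702503) (nat_lit 2) (nat_lit 5) (nat_lit 4) (nat_lit 4) (nat_lit 2) (nat_lit 4) (nat_lit 338) (nat_lit 268) (nat_lit 174))) (XT.nd (nat_lit 78) (nat_lit 0) (nat_lit 0) (XT.lf (nat_lit 0) (nat_lit 163867310591) (nat_lit 152) (nat_lit 193887516082)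 (nat_lit 0) (nat_lit 138179622742) (nat_lit 2) (nat_lit 5) (nat_lit 4) (nat_lit 4) (nat_lit 2) (nat_lit 4) (nat_lit 339) (nat_lit 268) (nat_lit 173)) (XT.lf (nat_lit 0) (nat_lit 190720203962) (nat_lit 152) (nat_lit 178586506771) (nat_lit 0) (nat_lit 165031244296) (nat_lit 2) (nat_lit 5) (nat_lit 4) (nat_lit 4) (nat_lit 2) (nat_lit 4) (nat_lit 340) (nat_lit 268) (nat_lit 172))))))) (XT.nd (nat_lit 1248) (nat_lit 0) (nat_lit 0) (XT.nd (nat_lit 624) (nat_lit 76) (nat_lit 0) (XT.nd (nat_lit 312) (nat_lit 0) (nat_lit 0) (XT.nd (nat_lit 156) (nat_lit 0) (nat_lit 0) (XT.nd (nat_lit 78) (nat_lit 0) (nat_lit 0) (XT.lf (nat_lit 0) (nat_lit 219719825158) (nat_lit 152) (nat_lit 162064349032) (nat_lit 0) (nat_lit 194029687884) (nat_lit 2) (nat_lit 5) (nat_lit 4) (nat_lit 4) (nat_lit 2) (nat_lit 4) (nat_lit 341) (nat_lit 268) (nat_lit 171)) (XT.lf (nat_lit 0) (nat_lit 251038023788) (nat_lit 152) (nat_lit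 144223133781) (nat_lit 0) (nat_lit 225346796135) (nat_lit 2) (nat_lit 5) (nat_lit 4) (nat_lit 4) (nat_lit 2) (nat_lit 4) (nat_lit 342) (nat_lit 268) (nat_lit 170))) (XT.nd (nat_lit 78) (nat_lit 0) (nat_lit 0) (XT.lf (nat_lit 0) (nat_lit 284860389175) (nat_lit 152) (nat_lit 124957135298) (nat_lit 0) (nat_lit 259168151913) (nat_lit 2) (nat_lit 5) (nat_lit 4) (nat_lit 4) (nat_lit 2) (nat_lit 4) (nat_lit 343) (nat_lit 268) (nat_lit 169)) (XT.lf (nat_lit 0) (nat_lit 321387350153) (nat_lit 152) (nat_lit 104152184703) (nat_lit 0) (nat_lit 295694178067) (nat_lit 2) (nat_lit 5) (nat_lit 4) (nat_lit 4) (nat_lit 2) (nat_lit 4) (nat_lit 344) (nat_lit 268) (nat_lit 168)))) (XT.nd (nat_lit 156) (nat_lit 0) (nat_lit 0) (XT.nd (nat_lit 78) (nat_lit 0) (nat_lit 0) (XT.lf (nat_lit 0) (nat_lit 360835362786) (nat_lit 152) (nat_lit 81684993401) (nat_lit 0) (nat_lit 335141325122) (nat_lit 2) (nat_lit 5) (nat_lit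 4) (nat_lit 4) (nat_lit 2) (nat_lit 4) (nat_lit 345) (nat_lit 268) (nat_lit 167)) (XT.lf (nat_lit 0) (nat_lit 403438193074) (nat_lit 152) (nat_lit 57422422479) (nat_lit 0) (nat_lit 377743353951) (nat_lit 2) (nat_lit 5) (nat_lit 4) (nat_lit 4) (nat_lit 2) (nat_lit 4) (nat_lit 346) (nat_lit 268) (nat_lit 166))) (XT.nd (nat_lit 78) (nat_lit 0) (nat_lit 0) (XT.lf (nat_lit 0) (nat_lit 449448302236) (nat_lit 152) (nat_lit 31220693740) (nat_lit 0) (nat_lit 423752721019) (nat_lit 2) (nat_lit 5) (nat_lit 4) (nat_lit 4) (nat_lit 2) (nat_lit 4) (nat_lit 347) (nat_lit 268) (nat_lit 165)) (XT.lf (nat_lit 0) (nat_lit 499138342768) (nat_lit 152) (nat_lit 2924537679) (nat_lit 0) (nat_lit 473442074428) (nat_lit 2) (nat_lit 5) (nat_lit 4) (nat_lit 4) (nat_lit 2) (nat_lit 4) (nat_lit 348) (nat_lit 268) (nat_lit 164))))) (XT.nd (nat_lit 312) (nat_lit 0) (nat_lit 0) (XT.nd (nat_lit 156) (nat_lit 0) (nat_lit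 0) (XT.nd (nat_lit 78) (nat_lit 0) (nat_lit 0) (XT.lf (nat_lit 0) (nat_lit 29088869699) (nat_lit 76) (nat_lit 524413492487) (nat_lit 76) (nat_lit 498716587922) (nat_lit 1) (nat_lit 4) (nat_lit 2) (nat_lit 5) (nat_lit 2) (nat_lit 4) (nat_lit 349) (nat_lit 268) (nat_lit 163)) (XT.lf (nat_lit 0) (nat_lit 63828126586) (nat_lit 76) (nat_lit 548466549283) (nat_lit 76) (nat_lit 522769055620) (nat_lit 1) (nat_lit 4) (nat_lit 2) (nat_lit 5) (nat_lit 2) (nat_lit 4) (nat_lit 350) (nat_lit 268) (nat_lit 162))) (XT.nd (nat_lit 78) (nat_lit 0) (nat_lit 0) (XT.lf (nat_lit 0) (nat_lit 101345094272) (nat_lit 76) (nat_lit 574444549510) (nat_lit 76) (nat_lit 548746510387) (nat_lit 1) (nat_lit 4) (nat_lit 2) (nat_lit 5) (nat_lit 2) (nat_lit 4) (nat_lit 351) (nat_lit 268) (nat_lit 161)) (XT.lf (nat_lit 0) (nat_lit 141862095529) (nat_lit 76) (nat_lit 602501436874) (nat_lit 76) (nat_lit 576802892695) (nat_lit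 1) (nat_lit 4) (nat_lit 2) (nat_lit 5) (nat_lit 2) (nat_lit 4) (nat_lit 352) (nat_lit 268) (nat_lit 160)))) (XT.nd (nat_lit 156) (nat_lit 0) (nat_lit 0) (XT.nd (nat_lit 78) (nat_lit 0) (nat_lit 0) (XT.lf (nat_lit 0) (nat_lit 185619231105) (nat_lit 76) (nat_lit 632803474411) (nat_lit 76) (nat_lit 607104462587) (nat_lit 1) (nat_lit 4) (nat_lit 2) (nat_lit 5) (nat_lit 2) (nat_lit 4) (nat_lit 353) (nat_lit 268) (nat_lit 159)) (XT.lf (nat_lit 0) (nat_lit 232875802544) (nat_lit 76) (nat_lit 665530229750) (nat_lit 76) (nat_lit 639830784922) (nat_lit 1) (nat_lit 4) (nat_lit 2) (nat_lit 5) (nat_lit 2) (nat_lit 4) (nat_lit 354) (nat_lit 268) (nat_lit 158))) (XT.nd (nat_lit 78) (nat_lit 0) (nat_lit 0) (XT.lf (nat_lit 0) (nat_lit 283911848788) (nat_lit 76) (nat_lit 700875639221) (nat_lit 76) (nat_lit 675175793463) (nat_lit 1) (nat_lit 4) (nat_lit 2) (nat_lit 5) (nat_lit 2) (nat_lit 4) (nat_lit 355)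 (nat_lit 268) (nat_lit 157)) (XT.lf (nat_lit 0) (nat_lit 339029805667) (nat_lit 76) (nat_lit 739049157100) (nat_lit 76) (nat_lit 713348940111) (nat_lit 1) (nat_lit 4) (nat_lit 2) (nat_lit 5) (nat_lit 2) (nat_lit 4) (nat_lit 356) (nat_lit 268) (nat_lit 156)))))) (XT.nd (nat_lit 624) (nat_lit 0) (nat_lit 0) (XT.nd (nat_lit 312) (nat_lit 0) (nat_lit 0) (XT.nd (nat_lit 156) (nat_lit 0) (nat_lit 0) (XT.nd (nat_lit 78) (nat_lit 0) (nat_lit 0) (XT.lf (nat_lit 0) (nat_lit 398556298110) (nat_lit 76) (nat_lit 780276996828) (nat_lit 76) (nat_lit 754576436106) (nat_lit 1) (nat_lit 4) (nat_lit 2) (nat_lit 5) (nat_lit 2) (nat_lit 4) (nat_lit 357) (nat_lit 268) (nat_lit 155)) (XT.lf (nat_lit 0) (nat_lit 462844075703) (nat_lit 76) (nat_lit 824803471528) (nat_lit 76) (nat_lit 799102592536) (nat_lit 1) (nat_lit 4) (nat_lit 2) (nat_lit 5) (nat_lit 2) (nat_lit 4) (nat_lit 358) (nat_lit 268) (nat_lit 154)))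 (XT.nd (nat_lit 78) (nat_lit 0) (nat_lit 0) (XT.lf (nat_lit 0) (nat_lit 532274103052) (nat_lit 76) (nat_lit 872892441792) (nat_lit 76) (nat_lit 847191268104) (nat_lit 1) (nat_lit 4) (nat_lit 2) (nat_lit 5) (nat_lit 2) (nat_lit 4) (nat_lit 359) (nat_lit 268) (nat_lit 153)) (XT.lf (nat_lit 0) (nat_lit 607257817358) (nat_lit 76) (nat_lit 924828879295) (nat_lit 76) (nat_lit 899127432741) (nat_lit 1) (nat_lit 4) (nat_lit 2) (nat_lit 5) (nat_lit 2) (nat_lit 4) (nat_lit 360) (nat_lit 268) (nat_lit 152)))) (XT.nd (nat_lit 156) (nat_lit 0) (nat_lit 0) (XT.nd (nat_lit 78) (nat_lit 0) (nat_lit 0) (XT.lf (nat_lit 0) (nat_lit 688239566556) (nat_lit 76) (nat_lit 980920555519) (nat_lit 76) (nat_lit 955218856311) (nat_lit 1) (nat_lit 4) (nat_lit 2) (nat_lit 5) (nat_lit 2) (nat_lit 4) (nat_lit 361) (nat_lit 268) (nat_lit 151)) (XT.lf (nat_lit 0) (nat_lit 775699242494) (nat_lit 76) (nat_lit 1041499865581)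 (nat_lit 76) (nat_lit 1015797932435) (nat_lit 1) (nat_lit 4) (nat_lit 2) (nat_lit 5) (nat_lit 2) (nat_lit 4) (nat_lit 362) (nat_lit 268) (nat_lit 150))) (XT.nd (nat_lit 78) (nat_lit 0) (nat_lit 0) (XT.lf (nat_lit 0) (nat_lit 870155124734) (nat_lit 76) (nat_lit 1106925797987) (nat_lit 76) (nat_lit 1081223648231) (nat_lit 1) (nat_lit 4) (nat_lit 2) (nat_lit 5) (nat_lit 2) (nat_lit 4) (nat_lit 363) (nat_lit 268) (nat_lit 149)) (XT.lf (nat_lit 0) (nat_lit 972166951836) (nat_lit 76) (nat_lit 1177586061965) (nat_lit 76) (nat_lit 1151883711644) (nat_lit 1) (nat_lit 4) (nat_lit 2) (nat_lit 5) (nat_lit 2) (nat_lit 4) (nat_lit 364) (nat_lit 268) (nat_lit 148))))) (XT.nd (nat_lit 312) (nat_lit 0) (nat_lit 0) (XT.nd (nat_lit 156) (nat_lit 0) (nat_lit 0) (XT.nd (nat_lit 78) (nat_lit 0) (nat_lit 0) (XT.lf (nat_lit 0) (nat_lit 1082339238331) (nat_lit 76) (nat_lit 1253899385005) (nat_lit 76) (nat_lit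 1228196848976) (nat_lit 1) (nat_lit 4) (nat_lit 2) (nat_lit 5) (nat_lit 2) (nat_lit 4) (nat_lit 365) (nat_lit 268) (nat_lit 147)) (XT.lf (nat_lit 0) (nat_lit 1201324857029) (nat_lit 76) (nat_lit 1336317994207) (nat_lit 76) (nat_lit 1310615286226) (nat_lit 1) (nat_lit 4) (nat_lit 2) (nat_lit 5) (nat_lit 2) (nat_lit 4) (nat_lit 366) (nat_lit 268) (nat_lit 146))) (XT.nd (nat_lit 78) (nat_lit 0) (nat_lit 0) (XT.lf (nat_lit 0) (nat_lit 1329828907891) (nat_lit 76) (nat_lit 1425330296144) (nat_lit 76) (nat_lit 1399627428948) (nat_lit 1) (nat_lit 4) (nat_lit 2) (nat_lit 5) (nat_lit 2) (nat_lit 4) (nat_lit 367) (nat_lit 268) (nat_lit 145)) (XT.lf (nat_lit 0) (nat_lit 1468612896405) (nat_lit 76) (nat_lit 1521463771123) (nat_lit 76) (nat_lit 1495760756506) (nat_lit 1) (nat_lit 4) (nat_lit 2) (nat_lit 5) (nat_lit 2) (nat_lit 4) (nat_lit 368) (nat_lit 268) (nat_lit 144)))) (XT.nd (nat_lit 32916)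 (nat_lit 0) (nat_lit 3876) (XT.nd (nat_lit 32838) (nat_lit 0) (nat_lit 3876) (XT.lf (nat_lit 0) (nat_lit 1618499246207) (nat_lit 76) (nat_lit 1625288098997) (nat_lit 76) (nat_lit 1599584947879) (nat_lit 1) (nat_lit 4) (nat_lit 2) (nat_lit 5) (nat_lit 2) (nat_lit 4) (nat_lit 369) (nat_lit 268) (nat_lit 143)) (XT.lf (nat_lit 0) (nat_lit 1512688601) (nat_lit 0) (nat_lit 1512688601) (nat_lit 380) (nat_lit 1380058835) (nat_lit 52) (nat_lit 5) (nat_lit 52) (nat_lit 3) (nat_lit 57) (nat_lit 3) (nat_lit 269) (nat_lit 269) (nat_lit 242))) (XT.nd (nat_lit 78) (nat_lit 0) (nat_lit 0) (XT.lf (nat_lit 0) (nat_lit 7171733749) (nat_lit 380) (nat_lit 1708395672) (nat_lit 456) (nat_lit 210067866) (nat_lit 52) (nat_lit 5) (nat_lit 57) (nat_lit 3) (nat_lit 58) (nat_lit 5) (nat_lit 270) (nat_lit 269) (nat_lit 241)) (XT.lf (nat_lit 76) (nat_lit 2699294349) (nat_lit 0) (nat_lit 5740242336) (nat_lit 456) (nat_lit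 948039717) (nat_lit 53) (nat_lit 5) (nat_lit 52) (nat_lit 5) (nat_lit 58) (nat_lit 5) (nat_lit 271) (nat_lit 269) (nat_lit 240))))))))
noncomputable def xc65 : XT := (XT.nd (nat_lit 2418) (nat_lit 912) (nat_lit 0) (XT.nd (nat_lit 1170) (nat_lit 1216) (nat_lit 0) (XT.nd (nat_lit 546) (nat_lit 912) (nat_lit 0) (XT.nd (nat_lit 234) (nat_lit 304) (nat_lit 0) (XT.nd (nat_lit 78) (nat_lit 0) (nat_lit 76) (XT.lf (nat_lit 0) (nat_lit 59407164) (nat_lit 456) (nat_lit 2207216823) (nat_lit 532) (nat_lit 7445017663) (nat_lit 46) (nat_lit 5) (nat_lit 52) (nat_lit 5) (nat_lit 53) (nat_lit 5) (nat_lit 272) (nat_lit 269) (nat_lit 239)) (XT.nd (nat_lit 78) (nat_lit 0) (nat_lit 0) (XT.lf (nat_lit 0) (nat_lit 1122267507) (nat_lit 456) (nat_lit 7408472608) (nat_lit 532) (nat_lit 1527061013) (nat_lit 47) (nat_lit 5) (nat_lit 53) (nat_lit 5) (nat_lit 54) (nat_lit 5) (nat_lit 273) (nat_lit 269) (nat_lit 238))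 (XT.lf (nat_lit 0) (nat_lit 2318680728) (nat_lit 456) (nat_lit 2523872612) (nat_lit 532) (nat_lit 5585423547) (nat_lit 47) (nat_lit 5) (nat_lit 53) (nat_lit 5) (nat_lit 54) (nat_lit 5) (nat_lit 274) (nat_lit 269) (nat_lit 237)))) (XT.nd (nat_lit 156) (nat_lit 380) (nat_lit 0) (XT.nd (nat_lit 78) (nat_lit 0) (nat_lit 76) (XT.lf (nat_lit 76) (nat_lit 2841285207) (nat_lit 0) (nat_lit 770941786) (nat_lit 532) (nat_lit 7215616344) (nat_lit 48) (nat_lit 5) (nat_lit 47) (nat_lit 5) (nat_lit 54) (nat_lit 5) (nat_lit 275) (nat_lit 269) (nat_lit 236)) (XT.lf (nat_lit 0) (nat_lit 5104380617) (nat_lit 456) (nat_lit 2620536413) (nat_lit 76) (nat_lit 3527348317) (nat_lit 48) (nat_lit 5) (nat_lit 54) (nat_lit 5) (nat_lit 49) (nat_lit 5) (nat_lit 276) (nat_lit 269) (nat_lit 235))) (XT.nd (nat_lit 78) (nat_lit 0) (nat_lit 0) (XT.lf (nat_lit 0) (nat_lit 3265756114) (nat_lit 456) (nat_lit 3490484113) (nat_lit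 532) (nat_lit 4951337287) (nat_lit 42) (nat_lit 5) (nat_lit 48) (nat_lit 5) (nat_lit 49) (nat_lit 5) (nat_lit 277) (nat_lit 269) (nat_lit 234)) (XT.lf (nat_lit 0) (nat_lit 8584751865) (nat_lit 532) (nat_lit 2505187624) (nat_lit 76) (nat_lit 1105965913) (nat_lit 42) (nat_lit 5) (nat_lit 49) (nat_lit 5) (nat_lit 43) (nat_lit 5) (nat_lit 278) (nat_lit 269) (nat_lit 233))))) (XT.nd (nat_lit 312) (nat_lit 380) (nat_lit 0) (XT.nd (nat_lit 156) (nat_lit 304) (nat_lit 0) (XT.nd (nat_lit 78) (nat_lit 0) (nat_lit 0) (XT.lf (nat_lit 0) (nat_lit 3962364402) (nat_lit 228) (nat_lit 6732167531) (nat_lit 304) (nat_lit 2018108413) (nat_lit 39) (nat_lit 5) (nat_lit 42) (nat_lit 5) (nat_lit 43) (nat_lit 5) (nat_lit 279) (nat_lit 269) (nat_lit 232)) (XT.lf (nat_lit 0) (nat_lit 11039534208) (nat_lit 228) (nat_lit 1953653871) (nat_lit 304) (nat_lit 276047978) (nat_lit 39) (nat_lit 5) (nat_lit 42) (nat_lit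 5) (nat_lit 43) (nat_lit 5) (nat_lit 280) (nat_lit 269) (nat_lit 231))) (XT.nd (nat_lit 78) (nat_lit 0) (nat_lit 0) (XT.lf (nat_lit 0) (nat_lit 1679760629) (nat_lit 304) (nat_lit 8969033743) (nat_lit 76) (nat_lit 3206212037) (nat_lit 35) (nat_lit 5) (nat_lit 39) (nat_lit 5) (nat_lit 36) (nat_lit 5) (nat_lit 281) (nat_lit 269) (nat_lit 230)) (XT.lf (nat_lit 0) (nat_lit 3846484611) (nat_lit 304) (nat_lit 1895897532) (nat_lit 76) (nat_lit 8739236257) (nat_lit 35) (nat_lit 5) (nat_lit 39) (nat_lit 5) (nat_lit 36) (nat_lit 5) (nat_lit 282) (nat_lit 269) (nat_lit 229)))) (XT.nd (nat_lit 156) (nat_lit 152) (nat_lit 0) (XT.nd (nat_lit 78) (nat_lit 0) (nat_lit 0) (XT.lf (nat_lit 0) (nat_lit 5995465645) (nat_lit 228) (nat_lit 294598541) (nat_lit 304) (nat_lit 8860108913) (nat_lit 32) (nat_lit 5) (nat_lit 35) (nat_lit 5) (nat_lit 36) (nat_lit 5) (nat_lit 283) (nat_lit 269) (nat_lit 228)) (XT.lf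 (nat_lit 0) (nat_lit 9077772635) (nat_lit 304) (nat_lit 1427214189) (nat_lit 76) (nat_lit 5355422063) (nat_lit 32) (nat_lit 5) (nat_lit 36) (nat_lit 5) (nat_lit 33) (nat_lit 5) (nat_lit 284) (nat_lit 269) (nat_lit 227))) (XT.nd (nat_lit 78) (nat_lit 0) (nat_lit 0) (XT.lf (nat_lit 0) (nat_lit 7226641729) (nat_lit 152) (nat_lit 5007237658) (nat_lit 228) (nat_lit 4382035206) (nat_lit 30) (nat_lit 5) (nat_lit 32) (nat_lit 5) (nat_lit 33) (nat_lit 5) (nat_lit 285) (nat_lit 269) (nat_lit 226)) (XT.lf (nat_lit 0) (nat_lit 15670172984) (nat_lit 228) (nat_lit 845279150) (nat_lit 76) (nat_lit 914268299) (nat_lit 30) (nat_lit 5) (nat_lit 33) (nat_lit 5) (nat_lit 31) (nat_lit 5) (nat_lit 286) (nat_lit 269) (nat_lit 225)))))) (XT.nd (nat_lit 624) (nat_lit 532) (nat_lit 0) (XT.nd (nat_lit 312) (nat_lit 304) (nat_lit 0) (XT.nd (nat_lit 156) (nat_lit 152) (nat_lit 0) (XT.nd (nat_lit 78) (nat_lit 0)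 (nat_lit 0) (XT.lf (nat_lit 0) (nat_lit 1332679362) (nat_lit 228) (nat_lit 9677192391) (nat_lit 76) (nat_lit 7271671577) (nat_lit 27) (nat_lit 5) (nat_lit 30) (nat_lit 5) (nat_lit 28) (nat_lit 5) (nat_lit 287) (nat_lit 269) (nat_lit 224)) (XT.lf (nat_lit 0) (nat_lit 4569290626) (nat_lit 228) (nat_lit 432198820) (nat_lit 76) (nat_lit 14197060971) (nat_lit 27) (nat_lit 5) (nat_lit 30) (nat_lit 5) (nat_lit 28) (nat_lit 5) (nat_lit 288) (nat_lit 269) (nat_lit 223))) (XT.nd (nat_lit 78) (nat_lit 0) (nat_lit 0) (XT.lf (nat_lit 0) (nat_lit 8318075514) (nat_lit 228) (nat_lit 10201532757) (nat_lit 76) (nat_lit 1649105748) (nat_lit 25) (nat_lit 5) (nat_lit 28) (nat_lit 5) (nat_lit 26) (nat_lit 5) (nat_lit 289) (nat_lit 269) (nat_lit 222)) (XT.lf (nat_lit 0) (nat_lit 12480420704) (nat_lit 228) (nat_lit 164623879) (nat_lit 76) (nat_lit 8562404939) (nat_lit 25) (nat_lit 5) (nat_lit 28) (nat_lit 5)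 (nat_lit 26) (nat_lit 5) (nat_lit 290) (nat_lit 269) (nat_lit 221)))) (XT.nd (nat_lit 156) (nat_lit 152) (nat_lit 0) (XT.nd (nat_lit 78) (nat_lit 0) (nat_lit 0) (XT.lf (nat_lit 0) (nat_lit 11196484874) (nat_lit 152) (nat_lit 6022270917) (nat_lit 228) (nat_lit 5091135496) (nat_lit 23) (nat_lit 5) (nat_lit 25) (nat_lit 5) (nat_lit 26) (nat_lit 5) (nat_lit 291) (nat_lit 269) (nat_lit 220)) (XT.lf (nat_lit 0) (nat_lit 22342418538) (nat_lit 228) (nat_lit 91247297) (nat_lit 76) (nat_lit 1066405769) (nat_lit 23) (nat_lit 5) (nat_lit 26) (nat_lit 5) (nat_lit 24) (nat_lit 4) (nat_lit 292) (nat_lit 269) (nat_lit 219))) (XT.nd (nat_lit 78) (nat_lit 0) (nat_lit 0) (XT.lf (nat_lit 0) (nat_lit 3373898324) (nat_lit 152) (nat_lit 12605326401) (nat_lit 76) (nat_lit 8765294061) (nat_lit 21) (nat_lit 5) (nat_lit 23) (nat_lit 5) (nat_lit 22) (nat_lit 5) (nat_lit 293) (nat_lit 269) (nat_lit 218)) (XT.lf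 (nat_lit 0) (nat_lit 8184605431) (nat_lit 152) (nat_lit 802224290) (nat_lit 76) (nat_lit 17100987504) (nat_lit 21) (nat_lit 5) (nat_lit 23) (nat_lit 5) (nat_lit 22) (nat_lit 5) (nat_lit 294) (nat_lit 269) (nat_lit 217))))) (XT.nd (nat_lit 312) (nat_lit 228) (nat_lit 0) (XT.nd (nat_lit 156) (nat_lit 152) (nat_lit 0) (XT.nd (nat_lit 78) (nat_lit 0) (nat_lit 0) (XT.lf (nat_lit 0) (nat_lit 12538047516) (nat_lit 152) (nat_lit 1122009409) (nat_lit 228) (nat_lit 13856163986) (nat_lit 19) (nat_lit 5) (nat_lit 21) (nat_lit 5) (nat_lit 22) (nat_lit 5) (nat_lit 295) (nat_lit 269) (nat_lit 216)) (XT.lf (nat_lit 0) (nat_lit 19752190814) (nat_lit 228) (nat_lit 2278654836) (nat_lit 76) (nat_lit 7013789542) (nat_lit 19) (nat_lit 5) (nat_lit 22) (nat_lit 5) (nat_lit 20) (nat_lit 4) (nat_lit 296) (nat_lit 269) (nat_lit 215))) (XT.nd (nat_lit 78) (nat_lit 76) (nat_lit 0) (XT.lf (nat_lit 0) (nat_lit 11974461172)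 (nat_lit 76) (nat_lit 14654776037) (nat_lit 152) (nat_lit 4042309837) (nat_lit 18) (nat_lit 5) (nat_lit 19) (nat_lit 5) (nat_lit 20) (nat_lit 4) (nat_lit 297) (nat_lit 269) (nat_lit 214)) (XT.lf (nat_lit 0) (nat_lit 1590918094) (nat_lit 152) (nat_lit 4999441541) (nat_lit 76) (nat_lit 25831582984) (nat_lit 17) (nat_lit 5) (nat_lit 19) (nat_lit 5) (nat_lit 18) (nat_lit 5) (nat_lit 298) (nat_lit 269) (nat_lit 213)))) (XT.nd (nat_lit 156) (nat_lit 76) (nat_lit 0) (XT.nd (nat_lit 78) (nat_lit 0) (nat_lit 0) (XT.lf (nat_lit 0) (nat_lit 7742730570) (nat_lit 228) (nat_lit 24178036399) (nat_lit 76) (nat_lit 2360320034) (nat_lit 15) (nat_lit 5) (nat_lit 18) (nat_lit 5) (nat_lit 16) (nat_lit 4) (nat_lit 299) (nat_lit 269) (nat_lit 212)) (XT.lf (nat_lit 0) (nat_lit 14680479733) (nat_lit 228) (nat_lit 9785107930) (nat_lit 76) (nat_lit 11799892355) (nat_lit 15) (nat_lit 5) (nat_lit 18) (nat_lit 5)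 (nat_lit 16) (nat_lit 4) (nat_lit 300) (nat_lit 269) (nat_lit 211))) (XT.nd (nat_lit 78) (nat_lit 0) (nat_lit 0) (XT.lf (nat_lit 0) (nat_lit 6032880392) (nat_lit 76) (nat_lit 16269134765) (nat_lit 152) (nat_lit 16096326914) (nat_lit 14) (nat_lit 5) (nat_lit 15) (nat_lit 5) (nat_lit 16) (nat_lit 4) (nat_lit 301) (nat_lit 269) (nat_lit 210)) (XT.lf (nat_lit 0) (nat_lit 23645345006) (nat_lit 76) (nat_lit 7139695055) (nat_lit 152) (nat_lit 9896669201) (nat_lit 14) (nat_lit 5) (nat_lit 15) (nat_lit 5) (nat_lit 16) (nat_lit 4) (nat_lit 302) (nat_lit 269) (nat_lit 209))))))) (XT.nd (nat_lit 1248) (nat_lit 304) (nat_lit 0) (XT.nd (nat_lit 624) (nat_lit 228) (nat_lit 0) (XT.nd (nat_lit 312) (nat_lit 152) (nat_lit 0) (XT.nd (nat_lit 156) (nat_lit 76) (nat_lit 0) (XT.nd (nat_lit 78) (nat_lit 152) (nat_lit 0) (XT.lf (nat_lit 0) (nat_lit 39997258452) (nat_lit 152) (nat_lit 572699450) (nat_lit 0)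 (nat_lit 2573760016) (nat_lit 14) (nat_lit 5) (nat_lit 16) (nat_lit 4) (nat_lit 14) (nat_lit 4) (nat_lit 303) (nat_lit 269) (nat_lit 208)) (XT.lf (nat_lit 0) (nat_lit 4554117174) (nat_lit 152) (nat_lit 27976517691) (nat_lit 76) (nat_lit 13214682627) (nat_lit 12) (nat_lit 5) (nat_lit 14) (nat_lit 5) (nat_lit 13) (nat_lit 4) (nat_lit 304) (nat_lit 269) (nat_lit 207))) (XT.nd (nat_lit 78) (nat_lit 76) (nat_lit 0) (XT.lf (nat_lit 0) (nat_lit 12703137849) (nat_lit 152) (nat_lit 11050242631) (nat_lit 76) (nat_lit 24794948247) (nat_lit 12) (nat_lit 5) (nat_lit 14) (nat_lit 5) (nat_lit 13) (nat_lit 4) (nat_lit 305) (nat_lit 269) (nat_lit 206)) (XT.lf (nat_lit 0) (nat_lit 7586974643) (nat_lit 76) (nat_lit 14086908666) (nat_lit 152) (nat_lit 29888125214) (nat_lit 11) (nat_lit 5) (nat_lit 12) (nat_lit 5) (nat_lit 13) (nat_lit 4) (nat_lit 306) (nat_lit 269) (nat_lit 205)))) (XT.nd (nat_lit 156)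 (nat_lit 152) (nat_lit 0) (XT.nd (nat_lit 78) (nat_lit 0) (nat_lit 0) (XT.lf (nat_lit 0) (nat_lit 28321489855) (nat_lit 76) (nat_lit 3330674130) (nat_lit 152) (nat_lit 23141439702) (nat_lit 11) (nat_lit 5) (nat_lit 12) (nat_lit 5) (nat_lit 13) (nat_lit 4) (nat_lit 307) (nat_lit 269) (nat_lit 204)) (XT.lf (nat_lit 0) (nat_lit 42616417831) (nat_lit 152) (nat_lit 7789417018) (nat_lit 0) (nat_lit 7862884971) (nat_lit 11) (nat_lit 5) (nat_lit 13) (nat_lit 4) (nat_lit 11) (nat_lit 4) (nat_lit 308) (nat_lit 269) (nat_lit 203))) (XT.nd (nat_lit 78) (nat_lit 76) (nat_lit 0) (XT.lf (nat_lit 0) (nat_lit 12928512842) (nat_lit 76) (nat_lit 41916028974) (nat_lit 76) (nat_lit 7146374498) (nat_lit 10) (nat_lit 4) (nat_lit 11) (nat_lit 5) (nat_lit 11) (nat_lit 4) (nat_lit 309) (nat_lit 269) (nat_lit 202)) (XT.lf (nat_lit 0) (nat_lit 2145828835) (nat_lit 152) (nat_lit 30321257921) (nat_lit 76) (nat_lit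 33523256698) (nat_lit 9) (nat_lit 5) (nat_lit 11) (nat_lit 5) (nat_lit 10) (nat_lit 4) (nat_lit 310) (nat_lit 269) (nat_lit 201))))) (XT.nd (nat_lit 312) (nat_lit 152) (nat_lit 0) (XT.nd (nat_lit 156) (nat_lit 0) (nat_lit 0) (XT.nd (nat_lit 78) (nat_lit 76) (nat_lit 0) (XT.lf (nat_lit 0) (nat_lit 11785451688) (nat_lit 152) (nat_lit 10284664074) (nat_lit 76) (nat_lit 48225556253) (nat_lit 9) (nat_lit 5) (nat_lit 11) (nat_lit 5) (nat_lit 10) (nat_lit 4) (nat_lit 311) (nat_lit 269) (nat_lit 200)) (XT.lf (nat_lit 0) (nat_lit 11935022055) (nat_lit 76) (nat_lit 10539123858) (nat_lit 152) (nat_lit 52449055775) (nat_lit 8) (nat_lit 5) (nat_lit 9) (nat_lit 5) (nat_lit 10) (nat_lit 4) (nat_lit 312) (nat_lit 269) (nat_lit 199))) (XT.nd (nat_lit 78) (nat_lit 0) (nat_lit 0) (XT.lf (nat_lit 0) (nat_lit 34343443257) (nat_lit 152) (nat_lit 43451579085) (nat_lit 0) (nat_lit 2099877224) (nat_lit 8) (nat_lit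 5) (nat_lit 10) (nat_lit 4) (nat_lit 8) (nat_lit 4) (nat_lit 313) (nat_lit 269) (nat_lit 198)) (XT.lf (nat_lit 0) (nat_lit 47427659916) (nat_lit 152) (nat_lit 22641514746) (nat_lit 0) (nat_lit 15173934530) (nat_lit 8) (nat_lit 5) (nat_lit 10) (nat_lit 4) (nat_lit 8) (nat_lit 4) (nat_lit 314) (nat_lit 269) (nat_lit 197)))) (XT.nd (nat_lit 156) (nat_lit 76) (nat_lit 0) (XT.nd (nat_lit 78) (nat_lit 76) (nat_lit 0) (XT.lf (nat_lit 0) (nat_lit 61550865807) (nat_lit 152) (nat_lit 181201533) (nat_lit 0) (nat_lit 29287733613) (nat_lit 8) (nat_lit 5) (nat_lit 10) (nat_lit 4) (nat_lit 8) (nat_lit 4) (nat_lit 315) (nat_lit 269) (nat_lit 196)) (XT.lf (nat_lit 0) (nat_lit 25329545138) (nat_lit 76) (nat_lit 52076385034) (nat_lit 76) (nat_lit 19804542832) (nat_lit 7) (nat_lit 4) (nat_lit 8) (nat_lit 5) (nat_lit 8) (nat_lit 4) (nat_lit 316) (nat_lit 269) (nat_lit 195))) (XT.nd (nat_lit 78) (nat_lit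 76) (nat_lit 0) (XT.lf (nat_lit 0) (nat_lit 52878319820) (nat_lit 76) (nat_lit 41649075549) (nat_lit 76) (nat_lit 9369168525) (nat_lit 7) (nat_lit 4) (nat_lit 8) (nat_lit 5) (nat_lit 8) (nat_lit 4) (nat_lit 317) (nat_lit 269) (nat_lit 194)) (XT.lf (nat_lit 0) (nat_lit 1799323471) (nat_lit 152) (nat_lit 28544781631) (nat_lit 76) (nat_lit 80770312594) (nat_lit 6) (nat_lit 5) (nat_lit 8) (nat_lit 5) (nat_lit 7) (nat_lit 4) (nat_lit 318) (nat_lit 269) (nat_lit 193)))))) (XT.nd (nat_lit 624) (nat_lit 152) (nat_lit 0) (XT.nd (nat_lit 312) (nat_lit 76) (nat_lit 0) (XT.nd (nat_lit 156) (nat_lit 0) (nat_lit 0) (XT.nd (nat_lit 78) (nat_lit 76) (nat_lit 0) (XT.lf (nat_lit 0) (nat_lit 13348991606) (nat_lit 152) (nat_lit 4528386195) (nat_lit 76) (nat_lit 101013347336) (nat_lit 6) (nat_lit 5) (nat_lit 8) (nat_lit 5) (nat_lit 7) (nat_lit 4) (nat_lit 319) (nat_lit 269) (nat_lit 192)) (XT.lf (nat_lit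 0) (nat_lit 22525402188) (nat_lit 76) (nat_lit 3833296389) (nat_lit 152) (nat_lit 100887556843) (nat_lit 5) (nat_lit 5) (nat_lit 6) (nat_lit 5) (nat_lit 7) (nat_lit 4) (nat_lit 320) (nat_lit 269) (nat_lit 191))) (XT.nd (nat_lit 78) (nat_lit 0) (nat_lit 0) (XT.lf (nat_lit 0) (nat_lit 40803180888) (nat_lit 152) (nat_lit 84545885532) (nat_lit 0) (nat_lit 10889645020) (nat_lit 5) (nat_lit 5) (nat_lit 7) (nat_lit 4) (nat_lit 5) (nat_lit 4) (nat_lit 321) (nat_lit 269) (nat_lit 190)) (XT.lf (nat_lit 0) (nat_lit 56497582614) (nat_lit 152) (nat_lit 62866470906) (nat_lit 0) (nat_lit 26578964539) (nat_lit 5) (nat_lit 5) (nat_lit 7) (nat_lit 4) (nat_lit 5) (nat_lit 4) (nat_lit 322) (nat_lit 269) (nat_lit 189)))) (XT.nd (nat_lit 156) (nat_lit 76) (nat_lit 0) (XT.nd (nat_lit 78) (nat_lit 0) (nat_lit 0) (XT.lf (nat_lit 0) (nat_lit 73442716744) (nat_lit 152) (nat_lit 39461947878) (nat_lit 0) (nat_lit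 43519392924) (nat_lit 5) (nat_lit 5) (nat_lit 7) (nat_lit 4) (nat_lit 5) (nat_lit 4) (nat_lit 323) (nat_lit 269) (nat_lit 188)) (XT.lf (nat_lit 0) (nat_lit 91738998890) (nat_lit 152) (nat_lit 14193622978) (nat_lit 0) (nat_lit 61811317897) (nat_lit 5) (nat_lit 5) (nat_lit 7) (nat_lit 4) (nat_lit 5) (nat_lit 4) (nat_lit 324) (nat_lit 269) (nat_lit 187))) (XT.nd (nat_lit 78) (nat_lit 0) (nat_lit 0) (XT.lf (nat_lit 0) (nat_lit 13777445645) (nat_lit 76) (nat_lit 98048753718) (nat_lit 76) (nat_lit 68117038306) (nat_lit 4) (nat_lit 4) (nat_lit 5) (nat_lit 5) (nat_lit 5) (nat_lit 4) (nat_lit 325) (nat_lit 269) (nat_lit 186)) (XT.lf (nat_lit 0) (nat_lit 44785678431) (nat_lit 76) (nat_lit 89118764396) (nat_lit 76) (nat_lit 59183313412) (nat_lit 4) (nat_lit 4) (nat_lit 5) (nat_lit 5) (nat_lit 5) (nat_lit 4) (nat_lit 326) (nat_lit 269) (nat_lit 185))))) (XT.nd (nat_lit 312) (nat_lit 152) (nat_lit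 0) (XT.nd (nat_lit 156) (nat_lit 0) (nat_lit 0) (XT.nd (nat_lit 78) (nat_lit 0) (nat_lit 0) (XT.lf (nat_lit 0) (nat_lit 78267416837) (nat_lit 76) (nat_lit 79477814255) (nat_lit 76) (nat_lit 49538904406) (nat_lit 4) (nat_lit 4) (nat_lit 5) (nat_lit 5) (nat_lit 5) (nat_lit 4) (nat_lit 327) (nat_lit 269) (nat_lit 184)) (XT.lf (nat_lit 0) (nat_lit 114421071166) (nat_lit 76) (nat_lit 69068771736) (nat_lit 76) (nat_lit 39126659235) (nat_lit 4) (nat_lit 4) (nat_lit 5) (nat_lit 5) (nat_lit 5) (nat_lit 4) (nat_lit 328) (nat_lit 269) (nat_lit 183))) (XT.nd (nat_lit 78) (nat_lit 0) (nat_lit 0) (XT.lf (nat_lit 0) (nat_lit 153460885294) (nat_lit 76) (nat_lit 57829953626) (nat_lit 76) (nat_lit 27884875707) (nat_lit 4) (nat_lit 4) (nat_lit 5) (nat_lit 5) (nat_lit 5) (nat_lit 4) (nat_lit 329) (nat_lit 269) (nat_lit 182)) (XT.lf (nat_lit 0) (nat_lit 195618206268) (nat_lit 76) (nat_lit 45694759520) (nat_lit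 76) (nat_lit 15746935844) (nat_lit 4) (nat_lit 4) (nat_lit 5) (nat_lit 5) (nat_lit 5) (nat_lit 4) (nat_lit 330) (nat_lit 269) (nat_lit 181)))) (XT.nd (nat_lit 156) (nat_lit 76) (nat_lit 0) (XT.nd (nat_lit 78) (nat_lit 76) (nat_lit 0) (XT.lf (nat_lit 0) (nat_lit 241142855249) (nat_lit 76) (nat_lit 32591277158) (nat_lit 76) (nat_lit 2640911113) (nat_lit 4) (nat_lit 4) (nat_lit 5) (nat_lit 5) (nat_lit 5) (nat_lit 4) (nat_lit 331) (nat_lit 269) (nat_lit 180)) (XT.lf (nat_lit 0) (nat_lit 10935043788) (nat_lit 152) (nat_lit 7207829010) (nat_lit 76) (nat_lit 279070580672) (nat_lit 3) (nat_lit 5) (nat_lit 5) (nat_lit 5) (nat_lit 4) (nat_lit 4) (nat_lit 332) (nat_lit 269) (nat_lit 179))) (XT.nd (nat_lit 78) (nat_lit 0) (nat_lit 0) (XT.lf (nat_lit 0) (nat_lit 24195611035) (nat_lit 76) (nat_lit 1838288385) (nat_lit 152) (nat_lit 293633190199) (nat_lit 2) (nat_lit 5) (nat_lit 3) (nat_lit 5) (nat_lit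 4) (nat_lit 4) (nat_lit 333) (nat_lit 269) (nat_lit 178)) (XT.lf (nat_lit 0) (nat_lit 42919755874) (nat_lit 152) (nat_lit 285769065633) (nat_lit 0) (nat_lit 15181868861) (nat_lit 2) (nat_lit 5) (nat_lit 4) (nat_lit 4) (nat_lit 2) (nat_lit 4) (nat_lit 334) (nat_lit 269) (nat_lit 177))))))))
noncomputable def xc66 : XT := (XT.nd (nat_lit 2418) (nat_lit 0) (nat_lit 0) (XT.nd (nat_lit 1170) (nat_lit 76) (nat_lit 0) (XT.nd (nat_lit 546) (nat_lit 0) (nat_lit 0) (XT.nd (nat_lit 234) (nat_lit 0) (nat_lit 0) (XT.nd (nat_lit 78) (nat_lit 0) (nat_lit 0) (XT.lf (nat_lit 0) (nat_lit 61202019249) (nat_lit 152) (nat_lit 275342515929) (nat_lit 0) (nat_lit 33462401942) (nat_lit 2) (nat_lit 5) (nat_lit 4) (nat_lit 4) (nat_lit 2) (nat_lit 4) (nat_lit 335) (nat_lit 269) (nat_lit 176)) (XT.nd (nat_lit 78) (nat_lit 0) (nat_lit 0) (XT.lf (nat_lit 0) (nat_lit 80944818002) (nat_lit 152) (nat_lit 264085831632)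 (nat_lit 0) (nat_lit 53203598572) (nat_lit 2) (nat_lit 5) (nat_lit 4) (nat_lit 4) (nat_lit 2) (nat_lit 4) (nat_lit 336) (nat_lit 269) (nat_lit 175)) (XT.lf (nat_lit 0) (nat_lit 102265146498) (nat_lit 152) (nat_lit 251932306464) (nat_lit 0) (nat_lit 74522443620) (nat_lit 2) (nat_lit 5) (nat_lit 4) (nat_lit 4) (nat_lit 2) (nat_lit 4) (nat_lit 337) (nat_lit 269) (nat_lit 174)))) (XT.nd (nat_lit 156) (nat_lit 0) (nat_lit 0) (XT.nd (nat_lit 78) (nat_lit 0) (nat_lit 0) (XT.lf (nat_lit 0) (nat_lit 125289347423) (nat_lit 152) (nat_lit 238809919537) (nat_lit 0) (nat_lit 97545270983) (nat_lit 2) (nat_lit 5) (nat_lit 4) (nat_lit 4) (nat_lit 2) (nat_lit 4) (nat_lit 338) (nat_lit 269) (nat_lit 173)) (XT.lf (nat_lit 0) (nat_lit 150153860486) (nat_lit 152) (nat_lit 224640908556) (nat_lit 0) (nat_lit 122408512229) (nat_lit 2) (nat_lit 5) (nat_lit 4) (nat_lit 4) (nat_lit 2) (nat_lit 4) (nat_lit 339)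 (nat_lit 269) (nat_lit 172))) (XT.nd (nat_lit 78) (nat_lit 0) (nat_lit 0) (XT.lf (nat_lit 0) (nat_lit 177006030951) (nat_lit 152) (nat_lit 209341309013) (nat_lit 0) (nat_lit 149259505086) (nat_lit 2) (nat_lit 5) (nat_lit 4) (nat_lit 4) (nat_lit 2) (nat_lit 4) (nat_lit 340) (nat_lit 269) (nat_lit 171)) (XT.lf (nat_lit 0) (nat_lit 206004982791) (nat_lit 152) (nat_lit 192820456614) (nat_lit 0) (nat_lit 178257366547) (nat_lit 2) (nat_lit 5) (nat_lit 4) (nat_lit 4) (nat_lit 2) (nat_lit 4) (nat_lit 341) (nat_lit 269) (nat_lit 170))))) (XT.nd (nat_lit 312) (nat_lit 0) (nat_lit 0) (XT.nd (nat_lit 156) (nat_lit 0) (nat_lit 0) (XT.nd (nat_lit 78) (nat_lit 0) (nat_lit 0) (XT.lf (nat_lit 0) (nat_lit 237322561645) (nat_lit 152) (nat_lit 174980450011) (nat_lit 0) (nat_lit 209573935792) (nat_lit 2) (nat_lit 5) (nat_lit 4) (nat_lit 4) (nat_lit 2) (nat_lit 4) (nat_lit 342) (nat_lit 269) (nat_lit 169))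 (XT.lf (nat_lit 0) (nat_lit 271144353167) (nat_lit 152) (nat_lit 155715570647) (nat_lit 0) (nat_lit 243394792490) (nat_lit 2) (nat_lit 5) (nat_lit 4) (nat_lit 4) (nat_lit 2) (nat_lit 4) (nat_lit 343) (nat_lit 269) (nat_lit 168))) (XT.nd (nat_lit 78) (nat_lit 0) (nat_lit 0) (XT.lf (nat_lit 0) (nat_lit 307670782787) (nat_lit 152) (nat_lit 134911656273) (nat_lit 0) (nat_lit 279920356533) (nat_lit 2) (nat_lit 5) (nat_lit 4) (nat_lit 4) (nat_lit 2) (nat_lit 4) (nat_lit 344) (nat_lit 269) (nat_lit 167)) (XT.lf (nat_lit 0) (nat_lit 347118303422) (nat_lit 152) (nat_lit 112445424434) (nat_lit 0) (nat_lit 319367075708) (nat_lit 2) (nat_lit 5) (nat_lit 4) (nat_lit 4) (nat_lit 2) (nat_lit 4) (nat_lit 345) (nat_lit 269) (nat_lit 166)))) (XT.nd (nat_lit 156) (nat_lit 0) (nat_lit 0) (XT.nd (nat_lit 78) (nat_lit 0) (nat_lit 0) (XT.lf (nat_lit 0) (nat_lit 389720678158) (nat_lit 152) (nat_lit 88183741905)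 (nat_lit 0) (nat_lit 361968708350) (nat_lit 2) (nat_lit 5) (nat_lit 4) (nat_lit 4) (nat_lit 2) (nat_lit 4) (nat_lit 346) (nat_lit 269) (nat_lit 165)) (XT.lf (nat_lit 0) (nat_lit 435730365510) (nat_lit 152) (nat_lit 61982835751) (nat_lit 0) (nat_lit 407977708580) (nat_lit 2) (nat_lit 5) (nat_lit 4) (nat_lit 4) (nat_lit 2) (nat_lit 4) (nat_lit 347) (nat_lit 269) (nat_lit 164))) (XT.nd (nat_lit 78) (nat_lit 0) (nat_lit 0) (XT.lf (nat_lit 0) (nat_lit 485420015479) (nat_lit 152) (nat_lit 33687441345) (nat_lit 0) (nat_lit 457666722323) (nat_lit 2) (nat_lit 5) (nat_lit 4) (nat_lit 4) (nat_lit 2) (nat_lit 4) (nat_lit 348) (nat_lit 269) (nat_lit 163)) (XT.lf (nat_lit 0) (nat_lit 539084085249) (nat_lit 152) (nat_lit 3129882273) (nat_lit 0) (nat_lit 511330202996) (nat_lit 2) (nat_lit 5) (nat_lit 4) (nat_lit 4) (nat_lit 2) (nat_lit 4) (nat_lit 349) (nat_lit 269) (nat_lit 162)))))) (XT.nd (nat_lit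 624) (nat_lit 0) (nat_lit 0) (XT.nd (nat_lit 312) (nat_lit 0) (nat_lit 0) (XT.nd (nat_lit 156) (nat_lit 0) (nat_lit 0) (XT.nd (nat_lit 78) (nat_lit 0) (nat_lit 0) (XT.lf (nat_lit 0) (nat_lit 31443873178) (nat_lit 76) (nat_lit 566352936850) (nat_lit 76) (nat_lit 538598509136) (nat_lit 1) (nat_lit 4) (nat_lit 2) (nat_lit 5) (nat_lit 2) (nat_lit 4) (nat_lit 350) (nat_lit 269) (nat_lit 161)) (XT.lf (nat_lit 0) (nat_lit 68960204401) (nat_lit 76) (nat_lit 592331248192) (nat_lit 76) (nat_lit 564576315422) (nat_lit 1) (nat_lit 4) (nat_lit 2) (nat_lit 5) (nat_lit 2) (nat_lit 4) (nat_lit 351) (nat_lit 269) (nat_lit 160))) (XT.nd (nat_lit 78) (nat_lit 0) (nat_lit 0) (XT.lf (nat_lit 0) (nat_lit 109476616340) (nat_lit 76) (nat_lit 620388423625) (nat_lit 76) (nat_lit 592633023211) (nat_lit 1) (nat_lit 4) (nat_lit 2) (nat_lit 5) (nat_lit 2) (nat_lit 4) (nat_lit 352) (nat_lit 269) (nat_lit 159)) (XT.lf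 (nat_lit 0) (nat_lit 153233206251) (nat_lit 76) (nat_lit 650690727893) (nat_lit 76) (nat_lit 622934894474) (nat_lit 1) (nat_lit 4) (nat_lit 2) (nat_lit 5) (nat_lit 2) (nat_lit 4) (nat_lit 353) (nat_lit 269) (nat_lit 158)))) (XT.nd (nat_lit 156) (nat_lit 0) (nat_lit 0) (XT.nd (nat_lit 78) (nat_lit 0) (nat_lit 0) (XT.lf (nat_lit 0) (nat_lit 200489272445) (nat_lit 76) (nat_lit 683417730205) (nat_lit 76) (nat_lit 655661495857) (nat_lit 1) (nat_lit 4) (nat_lit 2) (nat_lit 5) (nat_lit 2) (nat_lit 4) (nat_lit 354) (nat_lit 269) (nat_lit 157)) (XT.lf (nat_lit 0) (nat_lit 251524850870) (nat_lit 76) (nat_lit 718763368354) (nat_lit 76) (nat_lit 691006762775) (nat_lit 1) (nat_lit 4) (nat_lit 2) (nat_lit 5) (nat_lit 2) (nat_lit 4) (nat_lit 355) (nat_lit 269) (nat_lit 156))) (XT.nd (nat_lit 78) (nat_lit 0) (nat_lit 0) (XT.lf (nat_lit 0) (nat_lit 306642374582) (nat_lit 76) (nat_lit 756937097973) (nat_lit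 76) (nat_lit 729180148661) (nat_lit 1) (nat_lit 4) (nat_lit 2) (nat_lit 5) (nat_lit 2) (nat_lit 4) (nat_lit 356) (nat_lit 269) (nat_lit 155)) (XT.lf (nat_lit 0) (nat_lit 366168465945) (nat_lit 76) (nat_lit 798165133756) (nat_lit 76) (nat_lit 770407866173) (nat_lit 1) (nat_lit 4) (nat_lit 2) (nat_lit 5) (nat_lit 2) (nat_lit 4) (nat_lit 357) (nat_lit 269) (nat_lit 154))))) (XT.nd (nat_lit 312) (nat_lit 0) (nat_lit 0) (XT.nd (nat_lit 156) (nat_lit 0) (nat_lit 0) (XT.nd (nat_lit 78) (nat_lit 0) (nat_lit 0) (XT.lf (nat_lit 0) (nat_lit 430455872167) (nat_lit 76) (nat_lit 842691789989) (nat_lit 76) (nat_lit 814934227710) (nat_lit 1) (nat_lit 4) (nat_lit 2) (nat_lit 5) (nat_lit 2) (nat_lit 4) (nat_lit 358) (nat_lit 269) (nat_lit 153)) (XT.lf (nat_lit 0) (nat_lit 499885555655) (nat_lit 76) (nat_lit 890780928338) (nat_lit 76) (nat_lit 863023093193) (nat_lit 1) (nat_lit 4) (nat_lit 2) (nat_lit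 5) (nat_lit 2) (nat_lit 4) (nat_lit 359) (nat_lit 269) (nat_lit 152))) (XT.nd (nat_lit 78) (nat_lit 0) (nat_lit 0) (XT.lf (nat_lit 0) (nat_lit 574868951571) (nat_lit 76) (nat_lit 942717521476) (nat_lit 76) (nat_lit 914959433677) (nat_lit 1) (nat_lit 4) (nat_lit 2) (nat_lit 5) (nat_lit 2) (nat_lit 4) (nat_lit 360) (nat_lit 269) (nat_lit 151)) (XT.lf (nat_lit 0) (nat_lit 655850405963) (nat_lit 76) (nat_lit 998809341806) (nat_lit 76) (nat_lit 971051020069) (nat_lit 1) (nat_lit 4) (nat_lit 2) (nat_lit 5) (nat_lit 2) (nat_lit 4) (nat_lit 361) (nat_lit 269) (nat_lit 150)))) (XT.nd (nat_lit 156) (nat_lit 0) (nat_lit 0) (XT.nd (nat_lit 78) (nat_lit 0) (nat_lit 0) (XT.lf (nat_lit 0) (nat_lit 743309808933) (nat_lit 76) (nat_lit 1059388785300) (nat_lit 76) (nat_lit 1031630246953) (nat_lit 1) (nat_lit 4) (nat_lit 2) (nat_lit 5) (nat_lit 2) (nat_lit 4) (nat_lit 362) (nat_lit 269) (nat_lit 149)) (XT.lf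 (nat_lit 0) (nat_lit 837765438424) (nat_lit 76) (nat_lit 1124814841254) (nat_lit 76) (nat_lit 1097056102342) (nat_lit 1) (nat_lit 4) (nat_lit 2) (nat_lit 5) (nat_lit 2) (nat_lit 4) (nat_lit 363) (nat_lit 269) (nat_lit 148))) (XT.nd (nat_lit 78) (nat_lit 0) (nat_lit 0) (XT.lf (nat_lit 0) (nat_lit 939777031500) (nat_lit 76) (nat_lit 1195475219627) (nat_lit 76) (nat_lit 1167716295008) (nat_lit 1) (nat_lit 4) (nat_lit 2) (nat_lit 5) (nat_lit 2) (nat_lit 4) (nat_lit 364) (nat_lit 269) (nat_lit 147)) (XT.lf (nat_lit 0) (nat_lit 1049949101304) (nat_lit 76) (nat_lit 1271788648590) (nat_lit 76) (nat_lit 1244029552018) (nat_lit 1) (nat_lit 4) (nat_lit 2) (nat_lit 5) (nat_lit 2) (nat_lit 4) (nat_lit 365) (nat_lit 269) (nat_lit 146))))))) (XT.nd (nat_lit 34086) (nat_lit 0) (nat_lit 1368) (XT.nd (nat_lit 33462) (nat_lit 0) (nat_lit 2812) (XT.nd (nat_lit 33150) (nat_lit 0) (nat_lit 3420) (XT.nd (nat_lit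 156) (nat_lit 0) (nat_lit 0) (XT.nd (nat_lit 78) (nat_lit 0) (nat_lit 0) (XT.lf (nat_lit 0) (nat_lit 1168934519362) (nat_lit 76) (nat_lit 1354207355868) (nat_lit 76) (nat_lit 1326448100082) (nat_lit 1) (nat_lit 4) (nat_lit 2) (nat_lit 5) (nat_lit 2) (nat_lit 4) (nat_lit 366) (nat_lit 269) (nat_lit 145)) (XT.lf (nat_lit 0) (nat_lit 1297438384447) (nat_lit 76) (nat_lit 1443219748617) (nat_lit 76) (nat_lit 1415460345409) (nat_lit 1) (nat_lit 4) (nat_lit 2) (nat_lit 5) (nat_lit 2) (nat_lit 4) (nat_lit 367) (nat_lit 269) (nat_lit 144))) (XT.nd (nat_lit 78) (nat_lit 0) (nat_lit 0) (XT.lf (nat_lit 0) (nat_lit 1436222200945) (nat_lit 76) (nat_lit 1539353307681) (nat_lit 76) (nat_lit 1511593767972) (nat_lit 1) (nat_lit 4) (nat_lit 2) (nat_lit 5) (nat_lit 2) (nat_lit 4) (nat_lit 368) (nat_lit 269) (nat_lit 143)) (XT.lf (nat_lit 0) (nat_lit 1586108391472) (nat_lit 76) (nat_lit 1643177713411) (nat_lit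 76) (nat_lit 1615418047313) (nat_lit 1) (nat_lit 4) (nat_lit 2) (nat_lit 5) (nat_lit 2) (nat_lit 4) (nat_lit 369) (nat_lit 269) (nat_lit 142)))) (XT.nd (nat_lit 156) (nat_lit 456) (nat_lit 0) (XT.nd (nat_lit 78) (nat_lit 0) (nat_lit 0) (XT.lf (nat_lit 0) (nat_lit 2060013762) (nat_lit 0) (nat_lit 2060013762) (nat_lit 380) (nat_lit 566907234) (nat_lit 52) (nat_lit 5) (nat_lit 52) (nat_lit 3) (nat_lit 57) (nat_lit 3) (nat_lit 270) (nat_lit 270) (nat_lit 240)) (XT.lf (nat_lit 0) (nat_lit 8768011961) (nat_lit 0) (nat_lit 550643056) (nat_lit 380) (nat_lit 367854281) (nat_lit 52) (nat_lit 5) (nat_lit 52) (nat_lit 3) (nat_lit 57) (nat_lit 3) (nat_lit 271) (nat_lit 270) (nat_lit 239))) (XT.nd (nat_lit 78) (nat_lit 0) (nat_lit 0) (XT.lf (nat_lit 0) (nat_lit 536284776) (nat_lit 456) (nat_lit 6198912555) (nat_lit 532) (nat_lit 3280310378) (nat_lit 46) (nat_lit 5) (nat_lit 52) (nat_lit 5) (nat_lit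 53) (nat_lit 5) (nat_lit 272) (nat_lit 270) (nat_lit 238)) (XT.lf (nat_lit 0) (nat_lit 1461334646) (nat_lit 456) (nat_lit 1458046340) (nat_lit 532) (nat_lit 7453409812) (nat_lit 46) (nat_lit 5) (nat_lit 52) (nat_lit 5) (nat_lit 53) (nat_lit 5) (nat_lit 273) (nat_lit 270) (nat_lit 237))))) (XT.nd (nat_lit 312) (nat_lit 684) (nat_lit 0) (XT.nd (nat_lit 156) (nat_lit 0) (nat_lit 0) (XT.nd (nat_lit 78) (nat_lit 0) (nat_lit 0) (XT.lf (nat_lit 0) (nat_lit 2517495644) (nat_lit 456) (nat_lit 6979963126) (nat_lit 532) (nat_lit 1256819421) (nat_lit 47) (nat_lit 5) (nat_lit 53) (nat_lit 5) (nat_lit 54) (nat_lit 5) (nat_lit 274) (nat_lit 270) (nat_lit 236)) (XT.lf (nat_lit 0) (nat_lit 3712922165) (nat_lit 456) (nat_lit 1780238634) (nat_lit 532) (nat_lit 5668918103) (nat_lit 47) (nat_lit 5) (nat_lit 53) (nat_lit 5) (nat_lit 54) (nat_lit 5) (nat_lit 275) (nat_lit 270) (nat_lit 235))) (XT.nd (nat_lit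 78) (nat_lit 0) (nat_lit 76) (XT.lf (nat_lit 76) (nat_lit 3990193994) (nat_lit 0) (nat_lit 1052385969) (nat_lit 532) (nat_lit 6556999025) (nat_lit 48) (nat_lit 5) (nat_lit 47) (nat_lit 5) (nat_lit 54) (nat_lit 5) (nat_lit 276) (nat_lit 270) (nat_lit 234)) (XT.lf (nat_lit 0) (nat_lit 6564665664) (nat_lit 456) (nat_lit 1884454111) (nat_lit 76) (nat_lit 3616225893) (nat_lit 48) (nat_lit 5) (nat_lit 54) (nat_lit 5) (nat_lit 49) (nat_lit 5) (nat_lit 277) (nat_lit 270) (nat_lit 233)))) (XT.nd (nat_lit 156) (nat_lit 304) (nat_lit 0) (XT.nd (nat_lit 78) (nat_lit 0) (nat_lit 0) (XT.lf (nat_lit 0) (nat_lit 4448799407) (nat_lit 456) (nat_lit 3844122452) (nat_lit 532) (nat_lit 4268839355) (nat_lit 42) (nat_lit 5) (nat_lit 48) (nat_lit 5) (nat_lit 49) (nat_lit 5) (nat_lit 278) (nat_lit 270) (nat_lit 232)) (XT.lf (nat_lit 0) (nat_lit 10192266368) (nat_lit 532) (nat_lit 1774126137) (nat_lit 76) (nat_lit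 1129000741) (nat_lit 42) (nat_lit 5) (nat_lit 49) (nat_lit 5) (nat_lit 43) (nat_lit 5) (nat_lit 279) (nat_lit 270) (nat_lit 231))) (XT.nd (nat_lit 78) (nat_lit 76) (nat_lit 0) (XT.lf (nat_lit 0) (nat_lit 5187248368) (nat_lit 228) (nat_lit 7237212821) (nat_lit 304) (nat_lit 1232902308) (nat_lit 39) (nat_lit 5) (nat_lit 42) (nat_lit 5) (nat_lit 43) (nat_lit 5) (nat_lit 280) (nat_lit 270) (nat_lit 230)) (XT.lf (nat_lit 0) (nat_lit 549466454) (nat_lit 304) (nat_lit 1514411790) (nat_lit 76) (nat_lit 12198850449) (nat_lit 38) (nat_lit 5) (nat_lit 42) (nat_lit 5) (nat_lit 39) (nat_lit 5) (nat_lit 281) (nat_lit 270) (nat_lit 229)))))) (XT.nd (nat_lit 624) (nat_lit 456) (nat_lit 0) (XT.nd (nat_lit 312) (nat_lit 532) (nat_lit 0) (XT.nd (nat_lit 156) (nat_lit 228) (nat_lit 0) (XT.nd (nat_lit 78) (nat_lit 0) (nat_lit 0) (XT.lf (nat_lit 0) (nat_lit 2607664216) (nat_lit 304) (nat_lit 8759041969) (nat_lit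 76) (nat_lit 3531362349) (nat_lit 35) (nat_lit 5) (nat_lit 39) (nat_lit 5) (nat_lit 36) (nat_lit 5) (nat_lit 282) (nat_lit 270) (nat_lit 228)) (XT.lf (nat_lit 0) (nat_lit 4888946655) (nat_lit 304) (nat_lit 1188759638) (nat_lit 76) (nat_lit 9501943074) (nat_lit 35) (nat_lit 5) (nat_lit 39) (nat_lit 5) (nat_lit 36) (nat_lit 5) (nat_lit 283) (nat_lit 270) (nat_lit 227))) (XT.nd (nat_lit 78) (nat_lit 0) (nat_lit 0) (XT.lf (nat_lit 0) (nat_lit 7312170577) (nat_lit 228) (nat_lit 181548090) (nat_lit 304) (nat_lit 8810840626) (nat_lit 32) (nat_lit 5) (nat_lit 35) (nat_lit 5) (nat_lit 36) (nat_lit 5) (nat_lit 284) (nat_lit 270) (nat_lit 226)) (XT.lf (nat_lit 0) (nat_lit 10455600945) (nat_lit 304) (nat_lit 716012009) (nat_lit 76) (nat_lit 5904026321) (nat_lit 32) (nat_lit 5) (nat_lit 36) (nat_lit 5) (nat_lit 33) (nat_lit 5) (nat_lit 285) (nat_lit 270) (nat_lit 225)))) (XT.nd (nat_lit 156) (nat_lit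 380) (nat_lit 0) (XT.nd (nat_lit 78) (nat_lit 0) (nat_lit 0) (XT.lf (nat_lit 0) (nat_lit 8609256704) (nat_lit 152) (nat_lit 5226020236) (nat_lit 228) (nat_lit 4058731211) (nat_lit 30) (nat_lit 5) (nat_lit 32) (nat_lit 5) (nat_lit 33) (nat_lit 5) (nat_lit 286) (nat_lit 270) (nat_lit 224)) (XT.lf (nat_lit 0) (nat_lit 17504397388) (nat_lit 228) (nat_lit 124669040) (nat_lit 76) (nat_lit 1147319245) (nat_lit 30) (nat_lit 5) (nat_lit 33) (nat_lit 5) (nat_lit 31) (nat_lit 5) (nat_lit 287) (nat_lit 270) (nat_lit 223))) (XT.nd (nat_lit 78) (nat_lit 152) (nat_lit 0) (XT.lf (nat_lit 0) (nat_lit 2010928220) (nat_lit 228) (nat_lit 9651906042) (nat_lit 76) (nat_lit 8034418483) (nat_lit 27) (nat_lit 5) (nat_lit 30) (nat_lit 5) (nat_lit 28) (nat_lit 5) (nat_lit 288) (nat_lit 270) (nat_lit 222)) (XT.lf (nat_lit 0) (nat_lit 287867946) (nat_lit 152) (nat_lit 5183180373) (nat_lit 228) (nat_lit 15219485930)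 (nat_lit 25) (nat_lit 5) (nat_lit 27) (nat_lit 5) (nat_lit 28) (nat_lit 5) (nat_lit 289) (nat_lit 270) (nat_lit 221))))) (XT.nd (nat_lit 312) (nat_lit 228) (nat_lit 0) (XT.nd (nat_lit 156) (nat_lit 76) (nat_lit 0) (XT.nd (nat_lit 78) (nat_lit 152) (nat_lit 0) (XT.lf (nat_lit 0) (nat_lit 9496106432) (nat_lit 228) (nat_lit 10259777944) (nat_lit 76) (nat_lit 1984391229) (nat_lit 25) (nat_lit 5) (nat_lit 28) (nat_lit 5) (nat_lit 26) (nat_lit 5) (nat_lit 290) (nat_lit 270) (nat_lit 220)) (XT.lf (nat_lit 0) (nat_lit 551534568) (nat_lit 152) (nat_lit 13415199838) (nat_lit 228) (nat_lit 8897420724) (nat_lit 23) (nat_lit 5) (nat_lit 25) (nat_lit 5) (nat_lit 26) (nat_lit 5) (nat_lit 291) (nat_lit 270) (nat_lit 219))) (XT.nd (nat_lit 78) (nat_lit 76) (nat_lit 0) (XT.lf (nat_lit 0) (nat_lit 12776176501) (nat_lit 152) (nat_lit 6275988230) (nat_lit 228) (nat_lit 5005248932) (nat_lit 23) (nat_lit 5)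 (nat_lit 25) (nat_lit 5) (nat_lit 26) (nat_lit 5) (nat_lit 292) (nat_lit 270) (nat_lit 218)) (XT.lf (nat_lit 0) (nat_lit 593899990) (nat_lit 76) (nat_lit 23977411479) (nat_lit 152) (nat_lit 772708640) (nat_lit 22) (nat_lit 5) (nat_lit 23) (nat_lit 5) (nat_lit 24) (nat_lit 4) (nat_lit 293) (nat_lit 270) (nat_lit 217)))) (XT.nd (nat_lit 156) (nat_lit 152) (nat_lit 0) (XT.nd (nat_lit 78) (nat_lit 0) (nat_lit 0) (XT.lf (nat_lit 0) (nat_lit 4066242614) (nat_lit 152) (nat_lit 12944916265) (nat_lit 76) (nat_lit 9678494727) (nat_lit 21) (nat_lit 5) (nat_lit 23) (nat_lit 5) (nat_lit 22) (nat_lit 5) (nat_lit 294) (nat_lit 270) (nat_lit 216)) (XT.lf (nat_lit 0) (nat_lit 9230514998) (nat_lit 152) (nat_lit 247109410) (nat_lit 76) (nat_lit 18665341636) (nat_lit 21) (nat_lit 5) (nat_lit 23) (nat_lit 5) (nat_lit 22) (nat_lit 5) (nat_lit 295) (nat_lit 270) (nat_lit 215))) (XT.nd (nat_lit 78) (nat_lit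 0) (nat_lit 0) (XT.lf (nat_lit 0) (nat_lit 14144705841) (nat_lit 152) (nat_lit 984840299) (nat_lit 228) (nat_lit 14557295758) (nat_lit 19) (nat_lit 5) (nat_lit 21) (nat_lit 5) (nat_lit 22) (nat_lit 5) (nat_lit 296) (nat_lit 270) (nat_lit 214)) (XT.lf (nat_lit 0) (nat_lit 21686201568) (nat_lit 228) (nat_lit 1878693943) (nat_lit 76) (nat_lit 7774501884) (nat_lit 19) (nat_lit 5) (nat_lit 22) (nat_lit 5) (nat_lit 20) (nat_lit 4) (nat_lit 297) (nat_lit 270) (nat_lit 213))))))))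
noncomputable def xc67 : XT := (XT.nd (nat_lit 2496) (nat_lit 228) (nat_lit 0) (XT.nd (nat_lit 1248) (nat_lit 304) (nat_lit 0) (XT.nd (nat_lit 624) (nat_lit 304) (nat_lit 0) (XT.nd (nat_lit 312) (nat_lit 228) (nat_lit 0) (XT.nd (nat_lit 156) (nat_lit 152) (nat_lit 0) (XT.nd (nat_lit 78) (nat_lit 76) (nat_lit 0) (XT.lf (nat_lit 0) (nat_lit 13499930756) (nat_lit 76) (nat_lit 15600919577) (nat_lit 152) (nat_lit 3996653941) (nat_lit 18) (nat_lit 5) (nat_lit 19) (nat_lit 5) (nat_lit 20) (nat_lit 4) (nat_lit 298) (nat_lit 270) (nat_lit 212)) (XT.lf (nat_lit 0) (nat_lit 2042802443) (nat_lit 152) (nat_lit 4856430393) (nat_lit 76) (nat_lit 28090097997) (nat_lit 17) (nat_lit 5) (nat_lit 19) (nat_lit 5) (nat_lit 18) (nat_lit 5) (nat_lit 299) (nat_lit 270) (nat_lit 211))) (XT.nd (nat_lit 78) (nat_lit 0) (nat_lit 0) (XT.lf (nat_lit 0) (nat_lit 8680635481) (nat_lit 228) (nat_lit 25562819586) (nat_lit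 76) (nat_lit 2754271160) (nat_lit 15) (nat_lit 5) (nat_lit 18) (nat_lit 5) (nat_lit 16) (nat_lit 4) (nat_lit 300) (nat_lit 270) (nat_lit 210)) (XT.lf (nat_lit 0) (nat_lit 16149812987) (nat_lit 228) (nat_lit 10059157560) (nat_lit 76) (nat_lit 12933814783) (nat_lit 15) (nat_lit 5) (nat_lit 18) (nat_lit 5) (nat_lit 16) (nat_lit 4) (nat_lit 301) (nat_lit 270) (nat_lit 209)))) (XT.nd (nat_lit 156) (nat_lit 152) (nat_lit 0) (XT.nd (nat_lit 78) (nat_lit 0) (nat_lit 0) (XT.lf (nat_lit 0) (nat_lit 7011389853) (nat_lit 76) (nat_lit 17359763231) (nat_lit 152) (nat_lit 17075942015) (nat_lit 14) (nat_lit 5) (nat_lit 15) (nat_lit 5) (nat_lit 16) (nat_lit 4) (nat_lit 302) (nat_lit 270) (nat_lit 208)) (XT.lf (nat_lit 0) (nat_lit 25996119856) (nat_lit 76) (nat_lit 7515590738) (nat_lit 152) (nat_lit 10403133244) (nat_lit 14) (nat_lit 5) (nat_lit 15) (nat_lit 5) (nat_lit 16) (nat_lit 4) (nat_lit 303) (nat_lit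 270) (nat_lit 207))) (XT.nd (nat_lit 78) (nat_lit 152) (nat_lit 0) (XT.lf (nat_lit 0) (nat_lit 43445709326) (nat_lit 152) (nat_lit 177910842) (nat_lit 0) (nat_lit 2951430474) (nat_lit 14) (nat_lit 5) (nat_lit 16) (nat_lit 4) (nat_lit 14) (nat_lit 4) (nat_lit 304) (nat_lit 270) (nat_lit 206)) (XT.lf (nat_lit 0) (nat_lit 5165512261) (nat_lit 152) (nat_lit 29771946628) (nat_lit 76) (nat_lit 14447486327) (nat_lit 12) (nat_lit 5) (nat_lit 14) (nat_lit 5) (nat_lit 13) (nat_lit 4) (nat_lit 305) (nat_lit 270) (nat_lit 205))))) (XT.nd (nat_lit 312) (nat_lit 228) (nat_lit 0) (XT.nd (nat_lit 156) (nat_lit 0) (nat_lit 0) (XT.nd (nat_lit 78) (nat_lit 76) (nat_lit 0) (XT.lf (nat_lit 0) (nat_lit 13948153426) (nat_lit 152) (nat_lit 11524361599) (nat_lit 76) (nat_lit 26941163634) (nat_lit 12) (nat_lit 5) (nat_lit 14) (nat_lit 5) (nat_lit 13) (nat_lit 4) (nat_lit 306) (nat_lit 270) (nat_lit 204)) (XT.lf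 (nat_lit 0) (nat_lit 8593455830) (nat_lit 76) (nat_lit 15035765713) (nat_lit 152) (nat_lit 32039834195) (nat_lit 11) (nat_lit 5) (nat_lit 12) (nat_lit 5) (nat_lit 13) (nat_lit 4) (nat_lit 307) (nat_lit 270) (nat_lit 203))) (XT.nd (nat_lit 78) (nat_lit 0) (nat_lit 0) (XT.lf (nat_lit 0) (nat_lit 30957137947) (nat_lit 76) (nat_lit 3432224684) (nat_lit 152) (nat_lit 24771142808) (nat_lit 11) (nat_lit 5) (nat_lit 12) (nat_lit 5) (nat_lit 13) (nat_lit 4) (nat_lit 308) (nat_lit 270) (nat_lit 202)) (XT.lf (nat_lit 0) (nat_lit 46219241866) (nat_lit 152) (nat_lit 8058357864) (nat_lit 0) (nat_lit 8636965993) (nat_lit 11) (nat_lit 5) (nat_lit 13) (nat_lit 4) (nat_lit 11) (nat_lit 4) (nat_lit 309) (nat_lit 270) (nat_lit 201)))) (XT.nd (nat_lit 156) (nat_lit 76) (nat_lit 0) (XT.nd (nat_lit 78) (nat_lit 76) (nat_lit 0) (XT.lf (nat_lit 0) (nat_lit 14308038980) (nat_lit 76) (nat_lit 45111545825) (nat_lit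 76) (nat_lit 7515448263) (nat_lit 10) (nat_lit 4) (nat_lit 11) (nat_lit 5) (nat_lit 11) (nat_lit 4) (nat_lit 310) (nat_lit 270) (nat_lit 200)) (XT.lf (nat_lit 0) (nat_lit 2495735430) (nat_lit 152) (nat_lit 32417765725) (nat_lit 76) (nat_lit 36341674939) (nat_lit 9) (nat_lit 5) (nat_lit 11) (nat_lit 5) (nat_lit 10) (nat_lit 4) (nat_lit 311) (nat_lit 270) (nat_lit 199))) (XT.nd (nat_lit 78) (nat_lit 76) (nat_lit 0) (XT.lf (nat_lit 0) (nat_lit 12893325127) (nat_lit 152) (nat_lit 10802629025) (nat_lit 76) (nat_lit 52210043072) (nat_lit 9) (nat_lit 5) (nat_lit 11) (nat_lit 5) (nat_lit 10) (nat_lit 4) (nat_lit 312) (nat_lit 270) (nat_lit 198)) (XT.lf (nat_lit 0) (nat_lit 13186915333) (nat_lit 76) (nat_lit 11245119630) (nat_lit 152) (nat_lit 56472110004) (nat_lit 8) (nat_lit 5) (nat_lit 9) (nat_lit 5) (nat_lit 10) (nat_lit 4) (nat_lit 313) (nat_lit 270) (nat_lit 197)))))) (XT.nd (nat_lit 624)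 (nat_lit 76) (nat_lit 0) (XT.nd (nat_lit 312) (nat_lit 152) (nat_lit 0) (XT.nd (nat_lit 156) (nat_lit 76) (nat_lit 0) (XT.nd (nat_lit 78) (nat_lit 0) (nat_lit 0) (XT.lf (nat_lit 0) (nat_lit 37242081176) (nat_lit 152) (nat_lit 46643718106) (nat_lit 0) (nat_lit 2388491598) (nat_lit 8) (nat_lit 5) (nat_lit 10) (nat_lit 4) (nat_lit 8) (nat_lit 4) (nat_lit 314) (nat_lit 270) (nat_lit 196)) (XT.lf (nat_lit 0) (nat_lit 51361837949) (nat_lit 152) (nat_lit 24189884716) (nat_lit 0) (nat_lit 16499538363) (nat_lit 8) (nat_lit 5) (nat_lit 10) (nat_lit 4) (nat_lit 8) (nat_lit 4) (nat_lit 315) (nat_lit 270) (nat_lit 195))) (XT.nd (nat_lit 78) (nat_lit 0) (nat_lit 0) (XT.lf (nat_lit 0) (nat_lit 50291468) (nat_lit 76) (nat_lit 66555450558) (nat_lit 76) (nat_lit 31685086150) (nat_lit 7) (nat_lit 4) (nat_lit 8) (nat_lit 5) (nat_lit 8) (nat_lit 4) (nat_lit 316) (nat_lit 270) (nat_lit 194)) (XT.lf (nat_lit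 0) (nat_lit 27593218209) (nat_lit 76) (nat_lit 56130891308) (nat_lit 76) (nat_lit 21253059472) (nat_lit 7) (nat_lit 4) (nat_lit 8) (nat_lit 5) (nat_lit 8) (nat_lit 4) (nat_lit 317) (nat_lit 270) (nat_lit 193)))) (XT.nd (nat_lit 156) (nat_lit 76) (nat_lit 0) (XT.nd (nat_lit 78) (nat_lit 76) (nat_lit 0) (XT.lf (nat_lit 0) (nat_lit 57328316387) (nat_lit 76) (nat_lit 44877664067) (nat_lit 76) (nat_lit 9992917946) (nat_lit 7) (nat_lit 4) (nat_lit 8) (nat_lit 5) (nat_lit 8) (nat_lit 4) (nat_lit 318) (nat_lit 270) (nat_lit 192)) (XT.lf (nat_lit 0) (nat_lit 2053909934) (nat_lit 152) (nat_lit 30619015572) (nat_lit 76) (nat_lit 87321726518) (nat_lit 6) (nat_lit 5) (nat_lit 8) (nat_lit 5) (nat_lit 7) (nat_lit 4) (nat_lit 319) (nat_lit 270) (nat_lit 191))) (XT.nd (nat_lit 78) (nat_lit 76) (nat_lit 0) (XT.lf (nat_lit 0) (nat_lit 14519355922) (nat_lit 152) (nat_lit 4696815803) (nat_lit 76) (nat_lit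 109177553008) (nat_lit 6) (nat_lit 5) (nat_lit 8) (nat_lit 5) (nat_lit 7) (nat_lit 4) (nat_lit 320) (nat_lit 270) (nat_lit 190)) (XT.lf (nat_lit 0) (nat_lit 24516368275) (nat_lit 76) (nat_lit 4050426522) (nat_lit 152) (nat_lit 108851150866) (nat_lit 5) (nat_lit 5) (nat_lit 6) (nat_lit 5) (nat_lit 7) (nat_lit 4) (nat_lit 321) (nat_lit 270) (nat_lit 189))))) (XT.nd (nat_lit 312) (nat_lit 76) (nat_lit 0) (XT.nd (nat_lit 156) (nat_lit 0) (nat_lit 0) (XT.nd (nat_lit 78) (nat_lit 0) (nat_lit 0) (XT.lf (nat_lit 0) (nat_lit 44161466488) (nat_lit 152) (nat_lit 91129194507) (nat_lit 0) (nat_lit 11839571016) (nat_lit 5) (nat_lit 5) (nat_lit 7) (nat_lit 4) (nat_lit 5) (nat_lit 4) (nat_lit 322) (nat_lit 270) (nat_lit 188)) (XT.lf (nat_lit 0) (nat_lit 61104455083) (nat_lit 152) (nat_lit 67728786850) (nat_lit 0) (nat_lit 28778202438) (nat_lit 5) (nat_lit 5) (nat_lit 7) (nat_lit 4) (nat_lit 5) (nat_lit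 4) (nat_lit 323) (nat_lit 270) (nat_lit 187))) (XT.nd (nat_lit 78) (nat_lit 0) (nat_lit 0) (XT.lf (nat_lit 0) (nat_lit 79398750621) (nat_lit 152) (nat_lit 42464272478) (nat_lit 0) (nat_lit 47068463557) (nat_lit 5) (nat_lit 5) (nat_lit 7) (nat_lit 4) (nat_lit 5) (nat_lit 4) (nat_lit 324) (nat_lit 270) (nat_lit 186)) (XT.lf (nat_lit 0) (nat_lit 99152763743) (nat_lit 152) (nat_lit 15185935751) (nat_lit 0) (nat_lit 66818741107) (nat_lit 5) (nat_lit 5) (nat_lit 7) (nat_lit 4) (nat_lit 5) (nat_lit 4) (nat_lit 325) (nat_lit 270) (nat_lit 185)))) (XT.nd (nat_lit 156) (nat_lit 0) (nat_lit 0) (XT.nd (nat_lit 78) (nat_lit 0) (nat_lit 0) (XT.lf (nat_lit 0) (nat_lit 15019193626) (nat_lit 76) (nat_lit 105825573609) (nat_lit 76) (nat_lit 73488092109) (nat_lit 4) (nat_lit 4) (nat_lit 5) (nat_lit 5) (nat_lit 5) (nat_lit 4) (nat_lit 326) (nat_lit 270) (nat_lit 184)) (XT.lf (nat_lit 0) (nat_lit 48497747825)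 (nat_lit 76) (nat_lit 96186154061) (nat_lit 76) (nat_lit 63845469909) (nat_lit 4) (nat_lit 4) (nat_lit 5) (nat_lit 5) (nat_lit 5) (nat_lit 4) (nat_lit 327) (nat_lit 270) (nat_lit 183))) (XT.nd (nat_lit 78) (nat_lit 0) (nat_lit 0) (XT.lf (nat_lit 0) (nat_lit 84648453814) (nat_lit 76) (nat_lit 85778528759) (nat_lit 76) (nat_lit 53434879188) (nat_lit 4) (nat_lit 4) (nat_lit 5) (nat_lit 5) (nat_lit 5) (nat_lit 4) (nat_lit 328) (nat_lit 270) (nat_lit 182)) (XT.lf (nat_lit 0) (nat_lit 123685537998) (nat_lit 76) (nat_lit 74541022886) (nat_lit 76) (nat_lit 42194627557) (nat_lit 4) (nat_lit 4) (nat_lit 5) (nat_lit 5) (nat_lit 5) (nat_lit 4) (nat_lit 329) (nat_lit 270) (nat_lit 181))))))) (XT.nd (nat_lit 1248) (nat_lit 76) (nat_lit 0) (XT.nd (nat_lit 624) (nat_lit 0) (nat_lit 0) (XT.nd (nat_lit 312) (nat_lit 76) (nat_lit 0) (XT.nd (nat_lit 156) (nat_lit 76) (nat_lit 0) (XT.nd (nat_lit 78) (nat_lit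 0) (nat_lit 0) (XT.lf (nat_lit 0) (nat_lit 165840331246) (nat_lit 76) (nat_lit 62407043815) (nat_lit 76) (nat_lit 30058106118) (nat_lit 4) (nat_lit 4) (nat_lit 5) (nat_lit 5) (nat_lit 5) (nat_lit 4) (nat_lit 330) (nat_lit 270) (nat_lit 180)) (XT.lf (nat_lit 0) (nat_lit 211362639740) (nat_lit 76) (nat_lit 49304686485) (nat_lit 76) (nat_lit 16953394743) (nat_lit 4) (nat_lit 4) (nat_lit 5) (nat_lit 5) (nat_lit 5) (nat_lit 4) (nat_lit 331) (nat_lit 270) (nat_lit 179))) (XT.nd (nat_lit 78) (nat_lit 76) (nat_lit 0) (XT.lf (nat_lit 0) (nat_lit 260522225309) (nat_lit 76) (nat_lit 35156307296) (nat_lit 76) (nat_lit 2802835884) (nat_lit 4) (nat_lit 4) (nat_lit 5) (nat_lit 5) (nat_lit 5) (nat_lit 4) (nat_lit 332) (nat_lit 270) (nat_lit 178)) (XT.lf (nat_lit 0) (nat_lit 11853254259) (nat_lit 152) (nat_lit 7700720766) (nat_lit 76) (nat_lit 301433060778) (nat_lit 3) (nat_lit 5) (nat_lit 5) (nat_lit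 5) (nat_lit 4) (nat_lit 4) (nat_lit 333) (nat_lit 270) (nat_lit 177)))) (XT.nd (nat_lit 156) (nat_lit 0) (nat_lit 0) (XT.nd (nat_lit 78) (nat_lit 0) (nat_lit 0) (XT.lf (nat_lit 0) (nat_lit 26212874619) (nat_lit 76) (nat_lit 1945891227) (nat_lit 152) (nat_lit 317078298783) (nat_lit 2) (nat_lit 5) (nat_lit 3) (nat_lit 5) (nat_lit 4) (nat_lit 4) (nat_lit 334) (nat_lit 270) (nat_lit 176)) (XT.lf (nat_lit 0) (nat_lit 46393246985) (nat_lit 152) (nat_lit 308552759548) (nat_lit 0) (nat_lit 16431127878) (nat_lit 2) (nat_lit 5) (nat_lit 4) (nat_lit 4) (nat_lit 2) (nat_lit 4) (nat_lit 335) (nat_lit 270) (nat_lit 175))) (XT.nd (nat_lit 78) (nat_lit 0) (nat_lit 0) (XT.lf (nat_lit 0) (nat_lit 66135135086) (nat_lit 152) (nat_lit 297297851152) (nat_lit 0) (nat_lit 36171532531) (nat_lit 2) (nat_lit 5) (nat_lit 4) (nat_lit 4) (nat_lit 2) (nat_lit 4) (nat_lit 336) (nat_lit 270) (nat_lit 174)) (XT.lf (nat_lit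 0) (nat_lit 87454620384) (nat_lit 152) (nat_lit 285145970337) (nat_lit 0) (nat_lit 57489644267) (nat_lit 2) (nat_lit 5) (nat_lit 4) (nat_lit 4) (nat_lit 2) (nat_lit 4) (nat_lit 337) (nat_lit 270) (nat_lit 173))))) (XT.nd (nat_lit 312) (nat_lit 0) (nat_lit 0) (XT.nd (nat_lit 156) (nat_lit 0) (nat_lit 0) (XT.nd (nat_lit 78) (nat_lit 0) (nat_lit 0) (XT.lf (nat_lit 0) (nat_lit 110478040571) (nat_lit 152) (nat_lit 272025105958) (nat_lit 0) (nat_lit 80511792636) (nat_lit 2) (nat_lit 5) (nat_lit 4) (nat_lit 4) (nat_lit 2) (nat_lit 4) (nat_lit 338) (nat_lit 270) (nat_lit 172)) (XT.lf (nat_lit 0) (nat_lit 135341830729) (nat_lit 152) (nat_lit 257857504745) (nat_lit 0) (nat_lit 105374405186) (nat_lit 2) (nat_lit 5) (nat_lit 4) (nat_lit 4) (nat_lit 2) (nat_lit 4) (nat_lit 339) (nat_lit 270) (nat_lit 171))) (XT.nd (nat_lit 78) (nat_lit 0) (nat_lit 0) (XT.lf (nat_lit 0) (nat_lit 162193331837) (nat_lit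 152) (nat_lit 242559210542) (nat_lit 0) (nat_lit 132224815916) (nat_lit 2) (nat_lit 5) (nat_lit 4) (nat_lit 4) (nat_lit 2) (nat_lit 4) (nat_lit 340) (nat_lit 270) (nat_lit 170)) (XT.lf (nat_lit 0) (nat_lit 191191663901) (nat_lit 152) (nat_lit 226039566791) (nat_lit 0) (nat_lit 161222138371) (nat_lit 2) (nat_lit 5) (nat_lit 4) (nat_lit 4) (nat_lit 2) (nat_lit 4) (nat_lit 341) (nat_lit 270) (nat_lit 169)))) (XT.nd (nat_lit 156) (nat_lit 0) (nat_lit 0) (XT.nd (nat_lit 78) (nat_lit 0) (nat_lit 0) (XT.lf (nat_lit 0) (nat_lit 222508668890) (nat_lit 152) (nat_lit 208200679307) (nat_lit 0) (nat_lit 192538208535) (nat_lit 2) (nat_lit 5) (nat_lit 4) (nat_lit 4) (nat_lit 2) (nat_lit 4) (nat_lit 342) (nat_lit 270) (nat_lit 168)) (XT.lf (nat_lit 0) (nat_lit 256329929054) (nat_lit 152) (nat_lit 188936836163) (nat_lit 0) (nat_lit 226358603123) (nat_lit 2) (nat_lit 5) (nat_lit 4) (nat_lit 4) (nat_lit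 2) (nat_lit 4) (nat_lit 343) (nat_lit 270) (nat_lit 167))) (XT.nd (nat_lit 78) (nat_lit 0) (nat_lit 0) (XT.lf (nat_lit 0) (nat_lit 292855866677) (nat_lit 152) (nat_lit 168133881254) (nat_lit 0) (nat_lit 262883739285) (nat_lit 2) (nat_lit 5) (nat_lit 4) (nat_lit 4) (nat_lit 2) (nat_lit 4) (nat_lit 344) (nat_lit 270) (nat_lit 166)) (XT.lf (nat_lit 0) (nat_lit 332302931759) (nat_lit 152) (nat_lit 145668537807) (nat_lit 0) (nat_lit 302330062274) (nat_lit 2) (nat_lit 5) (nat_lit 4) (nat_lit 4) (nat_lit 2) (nat_lit 4) (nat_lit 345) (nat_lit 270) (nat_lit 165)))))) (XT.nd (nat_lit 624) (nat_lit 0) (nat_lit 0) (XT.nd (nat_lit 312) (nat_lit 76) (nat_lit 0) (XT.nd (nat_lit 156) (nat_lit 0) (nat_lit 0) (XT.nd (nat_lit 78) (nat_lit 0) (nat_lit 0) (XT.lf (nat_lit 0) (nat_lit 374904884686) (nat_lit 152) (nat_lit 121407677864) (nat_lit 0) (nat_lit 344931328078) (nat_lit 2) (nat_lit 5) (nat_lit 4) (nat_lit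 4) (nat_lit 2) (nat_lit 4) (nat_lit 346) (nat_lit 270) (nat_lit 164)) (XT.lf (nat_lit 0) (nat_lit 420914181475) (nat_lit 152) (nat_lit 95207533363) (nat_lit 0) (nat_lit 390939988642) (nat_lit 2) (nat_lit 5) (nat_lit 4) (nat_lit 4) (nat_lit 2) (nat_lit 4) (nat_lit 347) (nat_lit 270) (nat_lit 163))) (XT.nd (nat_lit 78) (nat_lit 0) (nat_lit 0) (XT.lf (nat_lit 0) (nat_lit 470603469811) (nat_lit 152) (nat_lit 66912844191) (nat_lit 0) (nat_lit 440628687880) (nat_lit 2) (nat_lit 5) (nat_lit 4) (nat_lit 4) (nat_lit 2) (nat_lit 4) (nat_lit 348) (nat_lit 270) (nat_lit 162)) (XT.lf (nat_lit 0) (nat_lit 524267204736) (nat_lit 152) (nat_lit 36355938115) (nat_lit 0) (nat_lit 494291877344) (nat_lit 2) (nat_lit 5) (nat_lit 4) (nat_lit 4) (nat_lit 2) (nat_lit 4) (nat_lit 349) (nat_lit 270) (nat_lit 161)))) (XT.nd (nat_lit 156) (nat_lit 0) (nat_lit 0) (XT.nd (nat_lit 78) (nat_lit 76) (nat_lit 0) (XT.lf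 (nat_lit 0) (nat_lit 582223393567) (nat_lit 152) (nat_lit 3355737172) (nat_lit 0) (nat_lit 552247561120) (nat_lit 2) (nat_lit 5) (nat_lit 4) (nat_lit 4) (nat_lit 2) (nat_lit 4) (nat_lit 350) (nat_lit 270) (nat_lit 160)) (XT.lf (nat_lit 0) (nat_lit 33983297559) (nat_lit 76) (nat_lit 611649481952) (nat_lit 76) (nat_lit 581673181861) (nat_lit 1) (nat_lit 4) (nat_lit 2) (nat_lit 5) (nat_lit 2) (nat_lit 4) (nat_lit 351) (nat_lit 270) (nat_lit 159))) (XT.nd (nat_lit 78) (nat_lit 0) (nat_lit 0) (XT.lf (nat_lit 0) (nat_lit 74499163833) (nat_lit 76) (nat_lit 639706924116) (nat_lit 76) (nat_lit 609730191020) (nat_lit 1) (nat_lit 4) (nat_lit 2) (nat_lit 5) (nat_lit 2) (nat_lit 4) (nat_lit 352) (nat_lit 270) (nat_lit 158)) (XT.lf (nat_lit 0) (nat_lit 118255248499) (nat_lit 76) (nat_lit 670009475357) (nat_lit 76) (nat_lit 640032341331) (nat_lit 1) (nat_lit 4) (nat_lit 2) (nat_lit 5) (nat_lit 2) (nat_lit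 4) (nat_lit 353) (nat_lit 270) (nat_lit 157))))) (XT.nd (nat_lit 312) (nat_lit 0) (nat_lit 0) (XT.nd (nat_lit 156) (nat_lit 0) (nat_lit 0) (XT.nd (nat_lit 78) (nat_lit 0) (nat_lit 0) (XT.lf (nat_lit 0) (nat_lit 165510846873) (nat_lit 76) (nat_lit 702736706348) (nat_lit 76) (nat_lit 672759201091) (nat_lit 1) (nat_lit 4) (nat_lit 2) (nat_lit 5) (nat_lit 2) (nat_lit 4) (nat_lit 354) (nat_lit 270) (nat_lit 156)) (XT.lf (nat_lit 0) (nat_lit 216545992131) (nat_lit 76) (nat_lit 738082556236) (nat_lit 76) (nat_lit 708104707246) (nat_lit 1) (nat_lit 4) (nat_lit 2) (nat_lit 5) (nat_lit 2) (nat_lit 4) (nat_lit 355) (nat_lit 270) (nat_lit 155))) (XT.nd (nat_lit 78) (nat_lit 0) (nat_lit 0) (XT.lf (nat_lit 0) (nat_lit 271663114764) (nat_lit 76) (nat_lit 776256481910) (nat_lit 76) (nat_lit 746278314649) (nat_lit 1) (nat_lit 4) (nat_lit 2) (nat_lit 5) (nat_lit 2) (nat_lit 4) (nat_lit 356) (nat_lit 270)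 (nat_lit 154)) (XT.lf (nat_lit 0) (nat_lit 331188834757) (nat_lit 76) (nat_lit 817484699225) (nat_lit 76) (nat_lit 787506237269) (nat_lit 1) (nat_lit 4) (nat_lit 2) (nat_lit 5) (nat_lit 2) (nat_lit 4) (nat_lit 357) (nat_lit 270) (nat_lit 153)))) (XT.nd (nat_lit 156) (nat_lit 0) (nat_lit 0) (XT.nd (nat_lit 78) (nat_lit 0) (nat_lit 0) (XT.lf (nat_lit 0) (nat_lit 395475897117) (nat_lit 76) (nat_lit 862011523543) (nat_lit 76) (nat_lit 832032788721) (nat_lit 1) (nat_lit 4) (nat_lit 2) (nat_lit 5) (nat_lit 2) (nat_lit 4) (nat_lit 358) (nat_lit 270) (nat_lit 152)) (XT.lf (nat_lit 0) (nat_lit 464905262215) (nat_lit 76) (nat_lit 910100817528) (nat_lit 76) (nat_lit 880121830052) (nat_lit 1) (nat_lit 4) (nat_lit 2) (nat_lit 5) (nat_lit 2) (nat_lit 4) (nat_lit 359) (nat_lit 270) (nat_lit 151))) (XT.nd (nat_lit 78) (nat_lit 0) (nat_lit 0) (XT.lf (nat_lit 0) (nat_lit 539888363325) (nat_lit 76) (nat_lit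 962037554772) (nat_lit 76) (nat_lit 932058333357) (nat_lit 1) (nat_lit 4) (nat_lit 2) (nat_lit 5) (nat_lit 2) (nat_lit 4) (nat_lit 360) (nat_lit 270) (nat_lit 150)) (XT.lf (nat_lit 0) (nat_lit 620869544749) (nat_lit 76) (nat_lit 1018129508533) (nat_lit 76) (nat_lit 988150070509) (nat_lit 1) (nat_lit 4) (nat_lit 2) (nat_lit 5) (nat_lit 2) (nat_lit 4) (nat_lit 361) (nat_lit 270) (nat_lit 149))))))))
noncomputable def xc68 : XT := (XT.nd (nat_lit 35334) (nat_lit 0) (nat_lit 304) (XT.nd (nat_lit 34086) (nat_lit 0) (nat_lit 1672) (XT.nd (nat_lit 546) (nat_lit 0) (nat_lit 0) (XT.nd (nat_lit 234) (nat_lit 0) (nat_lit 0) (XT.nd (nat_lit 78) (nat_lit 0) (nat_lit 0) (XT.lf (nat_lit 0) (nat_lit 708328694971) (nat_lit 76) (nat_lit 1078709075576) (nat_lit 76) (nat_lit 1048729436986) (nat_lit 1) (nat_lit 4) (nat_lit 2) (nat_lit 5) (nat_lit 2) (nat_lit 4) (nat_lit 362) (nat_lit 270) (nat_lit 148))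 (XT.nd (nat_lit 78) (nat_lit 0) (nat_lit 0) (XT.lf (nat_lit 0) (nat_lit 802784090436) (nat_lit 76) (nat_lit 1144135245925) (nat_lit 76) (nat_lit 1114155421628) (nat_lit 1) (nat_lit 4) (nat_lit 2) (nat_lit 5) (nat_lit 2) (nat_lit 4) (nat_lit 363) (nat_lit 270) (nat_lit 147)) (XT.lf (nat_lit 0) (nat_lit 904795466820) (nat_lit 76) (nat_lit 1214795730222) (nat_lit 76) (nat_lit 1184815733973) (nat_lit 1) (nat_lit 4) (nat_lit 2) (nat_lit 5) (nat_lit 2) (nat_lit 4) (nat_lit 364) (nat_lit 270) (nat_lit 146)))) (XT.nd (nat_lit 156) (nat_lit 0) (nat_lit 0) (XT.nd (nat_lit 78) (nat_lit 0) (nat_lit 0) (XT.lf (nat_lit 0) (nat_lit 1014967335985) (nat_lit 76) (nat_lit 1291109257261) (nat_lit 76) (nat_lit 1261129101797) (nat_lit 1) (nat_lit 4) (nat_lit 2) (nat_lit 5) (nat_lit 2) (nat_lit 4) (nat_lit 365) (nat_lit 270) (nat_lit 145)) (XT.lf (nat_lit 0) (nat_lit 1133952568265) (nat_lit 76) (nat_lit 1373528055350)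 (nat_lit 76) (nat_lit 1343547752465) (nat_lit 1) (nat_lit 4) (nat_lit 2) (nat_lit 5) (nat_lit 2) (nat_lit 4) (nat_lit 366) (nat_lit 270) (nat_lit 144))) (XT.nd (nat_lit 78) (nat_lit 0) (nat_lit 0) (XT.lf (nat_lit 0) (nat_lit 1262456261333) (nat_lit 76) (nat_lit 1462540532183) (nat_lit 76) (nat_lit 1432560092797) (nat_lit 1) (nat_lit 4) (nat_lit 2) (nat_lit 5) (nat_lit 2) (nat_lit 4) (nat_lit 367) (nat_lit 270) (nat_lit 143)) (XT.lf (nat_lit 0) (nat_lit 1401239918557) (nat_lit 76) (nat_lit 1558674169104) (nat_lit 76) (nat_lit 1528693603328) (nat_lit 1) (nat_lit 4) (nat_lit 2) (nat_lit 5) (nat_lit 2) (nat_lit 4) (nat_lit 368) (nat_lit 270) (nat_lit 142))))) (XT.nd (nat_lit 33228) (nat_lit 0) (nat_lit 3420) (XT.nd (nat_lit 33072) (nat_lit 0) (nat_lit 3344) (XT.nd (nat_lit 32994) (nat_lit 0) (nat_lit 3344) (XT.lf (nat_lit 0) (nat_lit 1551125961607) (nat_lit 76) (nat_lit 1662498646923) (nat_lit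 76) (nat_lit 1632517964119) (nat_lit 1) (nat_lit 4) (nat_lit 2) (nat_lit 5) (nat_lit 2) (nat_lit 4) (nat_lit 369) (nat_lit 270) (nat_lit 141)) (XT.lf (nat_lit 0) (nat_lit 170559500) (nat_lit 532) (nat_lit 2415084139) (nat_lit 532) (nat_lit 2415084139) (nat_lit 45) (nat_lit 3) (nat_lit 52) (nat_lit 3) (nat_lit 52) (nat_lit 5) (nat_lit 271) (nat_lit 271) (nat_lit 238))) (XT.nd (nat_lit 78) (nat_lit 0) (nat_lit 76) (XT.lf (nat_lit 0) (nat_lit 1015538467) (nat_lit 532) (nat_lit 228226773) (nat_lit 532) (nat_lit 9102985191) (nat_lit 45) (nat_lit 3) (nat_lit 52) (nat_lit 3) (nat_lit 52) (nat_lit 5) (nat_lit 272) (nat_lit 271) (nat_lit 237)) (XT.lf (nat_lit 0) (nat_lit 1872868030) (nat_lit 456) (nat_lit 5837651644) (nat_lit 532) (nat_lit 2999022927) (nat_lit 46) (nat_lit 5) (nat_lit 52) (nat_lit 5) (nat_lit 53) (nat_lit 5) (nat_lit 273) (nat_lit 271) (nat_lit 236)))) (XT.nd (nat_lit 156) (nat_lit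 0) (nat_lit 76) (XT.nd (nat_lit 78) (nat_lit 0) (nat_lit 76) (XT.lf (nat_lit 0) (nat_lit 2776093707) (nat_lit 456) (nat_lit 781010496) (nat_lit 532) (nat_lit 7546245298) (nat_lit 46) (nat_lit 5) (nat_lit 52) (nat_lit 5) (nat_lit 53) (nat_lit 5) (nat_lit 274) (nat_lit 271) (nat_lit 235)) (XT.lf (nat_lit 0) (nat_lit 3838105460) (nat_lit 456) (nat_lit 6662856670) (nat_lit 532) (nat_lit 1020939672) (nat_lit 47) (nat_lit 5) (nat_lit 53) (nat_lit 5) (nat_lit 54) (nat_lit 5) (nat_lit 275) (nat_lit 271) (nat_lit 234))) (XT.nd (nat_lit 78) (nat_lit 0) (nat_lit 0) (XT.lf (nat_lit 0) (nat_lit 5046261646) (nat_lit 456) (nat_lit 1112006329) (nat_lit 532) (nat_lit 5810926642) (nat_lit 47) (nat_lit 5) (nat_lit 53) (nat_lit 5) (nat_lit 54) (nat_lit 5) (nat_lit 276) (nat_lit 271) (nat_lit 233)) (XT.lf (nat_lit 76) (nat_lit 5099538088) (nat_lit 0) (nat_lit 1324993205) (nat_lit 532) (nat_lit 6022002511)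 (nat_lit 48) (nat_lit 5) (nat_lit 47) (nat_lit 5) (nat_lit 54) (nat_lit 5) (nat_lit 277) (nat_lit 271) (nat_lit 232)))))) (XT.nd (nat_lit 624) (nat_lit 684) (nat_lit 0) (XT.nd (nat_lit 312) (nat_lit 532) (nat_lit 0) (XT.nd (nat_lit 156) (nat_lit 228) (nat_lit 0) (XT.nd (nat_lit 78) (nat_lit 456) (nat_lit 0) (XT.lf (nat_lit 0) (nat_lit 7991703283) (nat_lit 456) (nat_lit 1224403500) (nat_lit 76) (nat_lit 3739791548) (nat_lit 48) (nat_lit 5) (nat_lit 54) (nat_lit 5) (nat_lit 49) (nat_lit 5) (nat_lit 278) (nat_lit 271) (nat_lit 231)) (XT.lf (nat_lit 0) (nat_lit 5594983542) (nat_lit 456) (nat_lit 4215437922) (nat_lit 532) (nat_lit 3685616638) (nat_lit 42) (nat_lit 5) (nat_lit 48) (nat_lit 5) (nat_lit 49) (nat_lit 5) (nat_lit 279) (nat_lit 271) (nat_lit 230))) (XT.nd (nat_lit 78) (nat_lit 228) (nat_lit 0) (XT.lf (nat_lit 0) (nat_lit 11797028982) (nat_lit 532) (nat_lit 1117465266) (nat_lit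 76) (nat_lit 1163214452) (nat_lit 42) (nat_lit 5) (nat_lit 49) (nat_lit 5) (nat_lit 43) (nat_lit 5) (nat_lit 280) (nat_lit 271) (nat_lit 229)) (XT.lf (nat_lit 0) (nat_lit 6380601706) (nat_lit 228) (nat_lit 7787444894) (nat_lit 304) (nat_lit 519930602) (nat_lit 39) (nat_lit 5) (nat_lit 42) (nat_lit 5) (nat_lit 43) (nat_lit 5) (nat_lit 281) (nat_lit 271) (nat_lit 228)))) (XT.nd (nat_lit 156) (nat_lit 228) (nat_lit 0) (XT.nd (nat_lit 78) (nat_lit 228) (nat_lit 0) (XT.lf (nat_lit 0) (nat_lit 1307316527) (nat_lit 304) (nat_lit 875537187) (nat_lit 76) (nat_lit 13162062811) (nat_lit 38) (nat_lit 5) (nat_lit 42) (nat_lit 5) (nat_lit 39) (nat_lit 5) (nat_lit 282) (nat_lit 271) (nat_lit 227)) (XT.lf (nat_lit 0) (nat_lit 3496595200) (nat_lit 304) (nat_lit 8664571163) (nat_lit 76) (nat_lit 3872730519) (nat_lit 35) (nat_lit 5) (nat_lit 39) (nat_lit 5) (nat_lit 36) (nat_lit 5) (nat_lit 283) (nat_lit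 271) (nat_lit 226))) (XT.nd (nat_lit 78) (nat_lit 228) (nat_lit 0) (XT.lf (nat_lit 0) (nat_lit 5909986319) (nat_lit 304) (nat_lit 547569516) (nat_lit 76) (nat_lit 10316597763) (nat_lit 35) (nat_lit 5) (nat_lit 39) (nat_lit 5) (nat_lit 36) (nat_lit 5) (nat_lit 284) (nat_lit 271) (nat_lit 225)) (XT.lf (nat_lit 0) (nat_lit 8614794840) (nat_lit 228) (nat_lit 78943735) (nat_lit 304) (nat_lit 8865779036) (nat_lit 32) (nat_lit 5) (nat_lit 35) (nat_lit 5) (nat_lit 36) (nat_lit 5) (nat_lit 285) (nat_lit 271) (nat_lit 224))))) (XT.nd (nat_lit 312) (nat_lit 304) (nat_lit 0) (XT.nd (nat_lit 156) (nat_lit 228) (nat_lit 0) (XT.nd (nat_lit 78) (nat_lit 152) (nat_lit 0) (XT.lf (nat_lit 0) (nat_lit 11850696567) (nat_lit 304) (nat_lit 65663241) (nat_lit 76) (nat_lit 6479375256) (nat_lit 32) (nat_lit 5) (nat_lit 36) (nat_lit 5) (nat_lit 33) (nat_lit 5) (nat_lit 286) (nat_lit 271) (nat_lit 223)) (XT.lf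 (nat_lit 0) (nat_lit 9987712292) (nat_lit 152) (nat_lit 5488240714) (nat_lit 228) (nat_lit 3805697532) (nat_lit 30) (nat_lit 5) (nat_lit 32) (nat_lit 5) (nat_lit 33) (nat_lit 5) (nat_lit 287) (nat_lit 271) (nat_lit 222))) (XT.nd (nat_lit 78) (nat_lit 76) (nat_lit 0) (XT.lf (nat_lit 0) (nat_lit 569635165) (nat_lit 152) (nat_lit 18846593730) (nat_lit 228) (nat_lit 820265965) (nat_lit 28) (nat_lit 5) (nat_lit 30) (nat_lit 5) (nat_lit 31) (nat_lit 5) (nat_lit 288) (nat_lit 271) (nat_lit 221)) (XT.lf (nat_lit 0) (nat_lit 2661886933) (nat_lit 228) (nat_lit 9738648940) (nat_lit 76) (nat_lit 8832361588) (nat_lit 27) (nat_lit 5) (nat_lit 30) (nat_lit 5) (nat_lit 28) (nat_lit 5) (nat_lit 289) (nat_lit 271) (nat_lit 220)))) (XT.nd (nat_lit 156) (nat_lit 152) (nat_lit 0) (XT.nd (nat_lit 78) (nat_lit 0) (nat_lit 0) (XT.lf (nat_lit 0) (nat_lit 978954825) (nat_lit 152) (nat_lit 5399626061) (nat_lit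 228) (nat_lit 15928748256) (nat_lit 25) (nat_lit 5) (nat_lit 27) (nat_lit 5) (nat_lit 28) (nat_lit 5) (nat_lit 290) (nat_lit 271) (nat_lit 219)) (XT.lf (nat_lit 0) (nat_lit 10695253859) (nat_lit 228) (nat_lit 10430802434) (nat_lit 76) (nat_lit 2317488397) (nat_lit 25) (nat_lit 5) (nat_lit 28) (nat_lit 5) (nat_lit 26) (nat_lit 5) (nat_lit 291) (nat_lit 271) (nat_lit 218))) (XT.nd (nat_lit 78) (nat_lit 0) (nat_lit 0) (XT.lf (nat_lit 0) (nat_lit 1228965515) (nat_lit 152) (nat_lit 14277245122) (nat_lit 228) (nat_lit 9152568637) (nat_lit 23) (nat_lit 5) (nat_lit 25) (nat_lit 5) (nat_lit 26) (nat_lit 5) (nat_lit 292) (nat_lit 271) (nat_lit 217)) (XT.lf (nat_lit 0) (nat_lit 14384667086) (nat_lit 152) (nat_lit 6582538859) (nat_lit 228) (nat_lit 4982848712) (nat_lit 23) (nat_lit 5) (nat_lit 25) (nat_lit 5) (nat_lit 26) (nat_lit 5) (nat_lit 293) (nat_lit 271) (nat_lit 216))))))) (XT.nd (nat_lit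 1248) (nat_lit 456) (nat_lit 0) (XT.nd (nat_lit 624) (nat_lit 304) (nat_lit 0) (XT.nd (nat_lit 312) (nat_lit 304) (nat_lit 0) (XT.nd (nat_lit 156) (nat_lit 152) (nat_lit 0) (XT.nd (nat_lit 78) (nat_lit 76) (nat_lit 0) (XT.lf (nat_lit 0) (nat_lit 1239522745) (nat_lit 76) (nat_lit 25678147199) (nat_lit 152) (nat_lit 422787399) (nat_lit 22) (nat_lit 5) (nat_lit 23) (nat_lit 5) (nat_lit 24) (nat_lit 4) (nat_lit 294) (nat_lit 271) (nat_lit 215)) (XT.lf (nat_lit 0) (nat_lit 4753709739) (nat_lit 152) (nat_lit 13407090285) (nat_lit 76) (nat_lit 10634510538) (nat_lit 21) (nat_lit 5) (nat_lit 23) (nat_lit 5) (nat_lit 22) (nat_lit 5) (nat_lit 295) (nat_lit 271) (nat_lit 214))) (XT.nd (nat_lit 78) (nat_lit 0) (nat_lit 0) (XT.lf (nat_lit 0) (nat_lit 277970842) (nat_lit 152) (nat_lit 10033011039) (nat_lit 228) (nat_lit 20055557620) (nat_lit 19) (nat_lit 5) (nat_lit 21) (nat_lit 5) (nat_lit 22) (nat_lit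 5) (nat_lit 296) (nat_lit 271) (nat_lit 213)) (XT.lf (nat_lit 0) (nat_lit 15793784471) (nat_lit 152) (nat_lit 869071741) (nat_lit 228) (nat_lit 15372632722) (nat_lit 19) (nat_lit 5) (nat_lit 21) (nat_lit 5) (nat_lit 22) (nat_lit 5) (nat_lit 297) (nat_lit 271) (nat_lit 212)))) (XT.nd (nat_lit 156) (nat_lit 228) (nat_lit 0) (XT.nd (nat_lit 78) (nat_lit 76) (nat_lit 0) (XT.lf (nat_lit 0) (nat_lit 23724454594) (nat_lit 228) (nat_lit 1529801118) (nat_lit 76) (nat_lit 8567594732) (nat_lit 19) (nat_lit 5) (nat_lit 22) (nat_lit 5) (nat_lit 20) (nat_lit 4) (nat_lit 298) (nat_lit 271) (nat_lit 211)) (XT.lf (nat_lit 0) (nat_lit 15066475876) (nat_lit 76) (nat_lit 16655030057) (nat_lit 152) (nat_lit 3999993352) (nat_lit 18) (nat_lit 5) (nat_lit 19) (nat_lit 5) (nat_lit 20) (nat_lit 4) (nat_lit 299) (nat_lit 271) (nat_lit 210))) (XT.nd (nat_lit 78) (nat_lit 152) (nat_lit 0) (XT.lf (nat_lit 0) (nat_lit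 2484528166) (nat_lit 152) (nat_lit 4779438591) (nat_lit 76) (nat_lit 30501904924) (nat_lit 17) (nat_lit 5) (nat_lit 19) (nat_lit 5) (nat_lit 18) (nat_lit 5) (nat_lit 300) (nat_lit 271) (nat_lit 209)) (XT.lf (nat_lit 0) (nat_lit 9648137131) (nat_lit 228) (nat_lit 27136772001) (nat_lit 76) (nat_lit 3150474927) (nat_lit 15) (nat_lit 5) (nat_lit 18) (nat_lit 5) (nat_lit 16) (nat_lit 4) (nat_lit 301) (nat_lit 271) (nat_lit 208))))) (XT.nd (nat_lit 312) (nat_lit 152) (nat_lit 0) (XT.nd (nat_lit 156) (nat_lit 76) (nat_lit 0) (XT.nd (nat_lit 78) (nat_lit 76) (nat_lit 0) (XT.lf (nat_lit 0) (nat_lit 17694622851) (nat_lit 228) (nat_lit 10427711320) (nat_lit 76) (nat_lit 14131355220) (nat_lit 15) (nat_lit 5) (nat_lit 18) (nat_lit 5) (nat_lit 16) (nat_lit 4) (nat_lit 302) (nat_lit 271) (nat_lit 207)) (XT.lf (nat_lit 0) (nat_lit 7997437384) (nat_lit 76) (nat_lit 18567729546) (nat_lit 152) (nat_lit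 18177878956) (nat_lit 14) (nat_lit 5) (nat_lit 15) (nat_lit 5) (nat_lit 16) (nat_lit 4) (nat_lit 303) (nat_lit 271) (nat_lit 206))) (XT.nd (nat_lit 78) (nat_lit 76) (nat_lit 0) (XT.lf (nat_lit 0) (nat_lit 28469454206) (nat_lit 76) (nat_lit 7949416939) (nat_lit 152) (nat_lit 10990811293) (nat_lit 14) (nat_lit 5) (nat_lit 15) (nat_lit 5) (nat_lit 16) (nat_lit 4) (nat_lit 304) (nat_lit 271) (nat_lit 205)) (XT.lf (nat_lit 0) (nat_lit 195377247) (nat_lit 76) (nat_lit 46943882267) (nat_lit 76) (nat_lit 3144131287) (nat_lit 13) (nat_lit 4) (nat_lit 14) (nat_lit 5) (nat_lit 14) (nat_lit 4) (nat_lit 305) (nat_lit 271) (nat_lit 204)))) (XT.nd (nat_lit 156) (nat_lit 76) (nat_lit 0) (XT.nd (nat_lit 78) (nat_lit 0) (nat_lit 0) (XT.lf (nat_lit 0) (nat_lit 5790572269) (nat_lit 152) (nat_lit 31774164912) (nat_lit 76) (nat_lit 15753858871) (nat_lit 12) (nat_lit 5) (nat_lit 14) (nat_lit 5) (nat_lit 13)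 (nat_lit 4) (nat_lit 306) (nat_lit 271) (nat_lit 203)) (XT.lf (nat_lit 0) (nat_lit 15260134429) (nat_lit 152) (nat_lit 12094886965) (nat_lit 76) (nat_lit 29235876759) (nat_lit 12) (nat_lit 5) (nat_lit 14) (nat_lit 5) (nat_lit 13) (nat_lit 4) (nat_lit 307) (nat_lit 271) (nat_lit 202))) (XT.nd (nat_lit 78) (nat_lit 0) (nat_lit 0) (XT.lf (nat_lit 0) (nat_lit 9623459059) (nat_lit 76) (nat_lit 16085938659) (nat_lit 152) (nat_lit 34397824569) (nat_lit 11) (nat_lit 5) (nat_lit 12) (nat_lit 5) (nat_lit 13) (nat_lit 4) (nat_lit 308) (nat_lit 271) (nat_lit 201)) (XT.lf (nat_lit 0) (nat_lit 33750863393) (nat_lit 76) (nat_lit 3565424593) (nat_lit 152) (nat_lit 26562837601) (nat_lit 11) (nat_lit 5) (nat_lit 12) (nat_lit 5) (nat_lit 13) (nat_lit 4) (nat_lit 309) (nat_lit 271) (nat_lit 200)))))) (XT.nd (nat_lit 624) (nat_lit 152) (nat_lit 0) (XT.nd (nat_lit 312) (nat_lit 152) (nat_lit 0) (XT.nd (nat_lit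 156) (nat_lit 76) (nat_lit 0) (XT.nd (nat_lit 78) (nat_lit 76) (nat_lit 0) (XT.lf (nat_lit 0) (nat_lit 50082685373) (nat_lit 152) (nat_lit 8399346353) (nat_lit 0) (nat_lit 9452280460) (nat_lit 11) (nat_lit 5) (nat_lit 13) (nat_lit 4) (nat_lit 11) (nat_lit 4) (nat_lit 310) (nat_lit 271) (nat_lit 199)) (XT.lf (nat_lit 0) (nat_lit 15748674133) (nat_lit 76) (nat_lit 48585211032) (nat_lit 76) (nat_lit 7942956249) (nat_lit 10) (nat_lit 4) (nat_lit 11) (nat_lit 5) (nat_lit 11) (nat_lit 4) (nat_lit 311) (nat_lit 271) (nat_lit 198))) (XT.nd (nat_lit 78) (nat_lit 0) (nat_lit 0) (XT.lf (nat_lit 0) (nat_lit 2848206582) (nat_lit 152) (nat_lit 34728957191) (nat_lit 76) (nat_lit 39366085155) (nat_lit 9) (nat_lit 5) (nat_lit 11) (nat_lit 5) (nat_lit 10) (nat_lit 4) (nat_lit 312) (nat_lit 271) (nat_lit 197)) (XT.lf (nat_lit 0) (nat_lit 14066284024) (nat_lit 152) (nat_lit 11405515466) (nat_lit 76) (nat_lit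 56495250427) (nat_lit 9) (nat_lit 5) (nat_lit 11) (nat_lit 5) (nat_lit 10) (nat_lit 4) (nat_lit 313) (nat_lit 271) (nat_lit 196)))) (XT.nd (nat_lit 156) (nat_lit 76) (nat_lit 0) (XT.nd (nat_lit 78) (nat_lit 0) (nat_lit 0) (XT.lf (nat_lit 0) (nat_lit 14496576646) (nat_lit 76) (nat_lit 12027158782) (nat_lit 152) (nat_lit 60841670443) (nat_lit 8) (nat_lit 5) (nat_lit 9) (nat_lit 5) (nat_lit 10) (nat_lit 4) (nat_lit 314) (nat_lit 271) (nat_lit 195)) (XT.lf (nat_lit 0) (nat_lit 40351045115) (nat_lit 152) (nat_lit 50131742213) (nat_lit 0) (nat_lit 2682986732) (nat_lit 8) (nat_lit 5) (nat_lit 10) (nat_lit 4) (nat_lit 8) (nat_lit 4) (nat_lit 315) (nat_lit 271) (nat_lit 194))) (XT.nd (nat_lit 78) (nat_lit 76) (nat_lit 0) (XT.lf (nat_lit 0) (nat_lit 55590782618) (nat_lit 152) (nat_lit 25899637214) (nat_lit 0) (nat_lit 17915256807) (nat_lit 8) (nat_lit 5) (nat_lit 10) (nat_lit 4) (nat_lit 8) (nat_lit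 4) (nat_lit 316) (nat_lit 271) (nat_lit 193)) (XT.lf (nat_lit 0) (nat_lit 274045767) (nat_lit 76) (nat_lit 71776549076) (nat_lit 76) (nat_lit 34094108981) (nat_lit 7) (nat_lit 4) (nat_lit 8) (nat_lit 5) (nat_lit 8) (nat_lit 4) (nat_lit 317) (nat_lit 271) (nat_lit 192))))) (XT.nd (nat_lit 312) (nat_lit 76) (nat_lit 0) (XT.nd (nat_lit 156) (nat_lit 76) (nat_lit 0) (XT.nd (nat_lit 78) (nat_lit 0) (nat_lit 0) (XT.lf (nat_lit 0) (nat_lit 30004130278) (nat_lit 76) (nat_lit 60525679719) (nat_lit 76) (nat_lit 22836837507) (nat_lit 7) (nat_lit 4) (nat_lit 8) (nat_lit 5) (nat_lit 8) (nat_lit 4) (nat_lit 318) (nat_lit 271) (nat_lit 191)) (XT.lf (nat_lit 0) (nat_lit 62102965598) (nat_lit 76) (nat_lit 48379281920) (nat_lit 76) (nat_lit 10684511824) (nat_lit 7) (nat_lit 4) (nat_lit 8) (nat_lit 5) (nat_lit 8) (nat_lit 4) (nat_lit 319) (nat_lit 271) (nat_lit 190))) (XT.nd (nat_lit 78) (nat_lit 0) (nat_lit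 0) (XT.lf (nat_lit 0) (nat_lit 2313079199) (nat_lit 152) (nat_lit 32889054144) (nat_lit 76) (nat_lit 94384444164) (nat_lit 6) (nat_lit 5) (nat_lit 8) (nat_lit 5) (nat_lit 7) (nat_lit 4) (nat_lit 320) (nat_lit 271) (nat_lit 189)) (XT.lf (nat_lit 0) (nat_lit 15768734460) (nat_lit 152) (nat_lit 4906373407) (nat_lit 76) (nat_lit 117983034586) (nat_lit 6) (nat_lit 5) (nat_lit 8) (nat_lit 5) (nat_lit 7) (nat_lit 4) (nat_lit 321) (nat_lit 271) (nat_lit 188)))) (XT.nd (nat_lit 156) (nat_lit 0) (nat_lit 0) (XT.nd (nat_lit 78) (nat_lit 0) (nat_lit 0) (XT.lf (nat_lit 0) (nat_lit 26639658115) (nat_lit 76) (nat_lit 4297700031) (nat_lit 152) (nat_lit 117467155724) (nat_lit 5) (nat_lit 5) (nat_lit 6) (nat_lit 5) (nat_lit 7) (nat_lit 4) (nat_lit 322) (nat_lit 271) (nat_lit 187)) (XT.lf (nat_lit 0) (nat_lit 47775000345) (nat_lit 152) (nat_lit 98264898837) (nat_lit 0) (nat_lit 12854255897) (nat_lit 5)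 (nat_lit 5) (nat_lit 7) (nat_lit 4) (nat_lit 5) (nat_lit 4) (nat_lit 323) (nat_lit 271) (nat_lit 186))) (XT.nd (nat_lit 78) (nat_lit 0) (nat_lit 0) (XT.lf (nat_lit 0) (nat_lit 66067456431) (nat_lit 152) (nat_lit 73003912732) (nat_lit 0) (nat_lit 31142976411) (nat_lit 5) (nat_lit 5) (nat_lit 7) (nat_lit 4) (nat_lit 5) (nat_lit 4) (nat_lit 324) (nat_lit 271) (nat_lit 185)) (XT.lf (nat_lit 0) (nat_lit 85819766358) (nat_lit 152) (nat_lit 45728842919) (nat_lit 0) (nat_lit 50891827473) (nat_lit 5) (nat_lit 5) (nat_lit 7) (nat_lit 4) (nat_lit 5) (nat_lit 4) (nat_lit 325) (nat_lit 271) (nat_lit 184))))))))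
noncomputable def xc69 : XT := (XT.nd (nat_lit 2418) (nat_lit 0) (nat_lit 0) (XT.nd (nat_lit 1170) (nat_lit 76) (nat_lit 0) (XT.nd (nat_lit 546) (nat_lit 152) (nat_lit 0) (XT.nd (nat_lit 234) (nat_lit 0) (nat_lit 0) (XT.nd (nat_lit 78) (nat_lit 76) (nat_lit 0) (XT.lf (nat_lit 0) (nat_lit 107148980849) (nat_lit 152) (nat_lit 16278059355) (nat_lit 0) (nat_lit 72217839313) (nat_lit 5) (nat_lit 5) (nat_lit 7) (nat_lit 4) (nat_lit 5) (nat_lit 4) (nat_lit 326) (nat_lit 271) (nat_lit 183)) (XT.nd (nat_lit 78) (nat_lit 0) (nat_lit 0) (XT.lf (nat_lit 0) (nat_lit 16340372746) (nat_lit 76) (nat_lit 114234108862) (nat_lit 76) (nat_lit 79300001907) (nat_lit 4) (nat_lit 4) (nat_lit 5) (nat_lit 5) (nat_lit 5) (nat_lit 4) (nat_lit 327) (nat_lit 271) (nat_lit 182)) (XT.lf (nat_lit 0) (nat_lit 52488348790) (nat_lit 76) (nat_lit 103827795797) (nat_lit 76) (nat_lit 68890943085) (nat_lit 4) (nat_lit 4) (nat_lit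 5) (nat_lit 5) (nat_lit 5) (nat_lit 4) (nat_lit 328) (nat_lit 271) (nat_lit 181)))) (XT.nd (nat_lit 156) (nat_lit 0) (nat_lit 0) (XT.nd (nat_lit 78) (nat_lit 0) (nat_lit 0) (XT.lf (nat_lit 0) (nat_lit 91522905248) (nat_lit 76) (nat_lit 92591504959) (nat_lit 76) (nat_lit 57652109878) (nat_lit 4) (nat_lit 4) (nat_lit 5) (nat_lit 5) (nat_lit 5) (nat_lit 4) (nat_lit 329) (nat_lit 271) (nat_lit 180)) (XT.lf (nat_lit 0) (nat_lit 133675358008) (nat_lit 76) (nat_lit 80458650920) (nat_lit 76) (nat_lit 45516901794) (nat_lit 4) (nat_lit 4) (nat_lit 5) (nat_lit 5) (nat_lit 5) (nat_lit 4) (nat_lit 330) (nat_lit 271) (nat_lit 179))) (XT.nd (nat_lit 78) (nat_lit 0) (nat_lit 0) (XT.lf (nat_lit 0) (nat_lit 179195499385) (nat_lit 76) (nat_lit 67357335286) (nat_lit 76) (nat_lit 32413406489) (nat_lit 4) (nat_lit 4) (nat_lit 5) (nat_lit 5) (nat_lit 5) (nat_lit 4) (nat_lit 331) (nat_lit 271) (nat_lit 178))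 (XT.lf (nat_lit 0) (nat_lit 228353078363) (nat_lit 76) (nat_lit 53209920631) (nat_lit 76) (nat_lit 18263973621) (nat_lit 4) (nat_lit 4) (nat_lit 5) (nat_lit 5) (nat_lit 5) (nat_lit 4) (nat_lit 332) (nat_lit 271) (nat_lit 177))))) (XT.nd (nat_lit 312) (nat_lit 0) (nat_lit 0) (XT.nd (nat_lit 156) (nat_lit 76) (nat_lit 0) (XT.nd (nat_lit 78) (nat_lit 76) (nat_lit 0) (XT.lf (nat_lit 0) (nat_lit 281439399115) (nat_lit 76) (nat_lit 37932570424) (nat_lit 76) (nat_lit 2984754697) (nat_lit 4) (nat_lit 4) (nat_lit 5) (nat_lit 5) (nat_lit 5) (nat_lit 4) (nat_lit 333) (nat_lit 271) (nat_lit 176)) (XT.lf (nat_lit 0) (nat_lit 12838729079) (nat_lit 152) (nat_lit 8244989535) (nat_lit 76) (nat_lit 325579284561) (nat_lit 3) (nat_lit 5) (nat_lit 5) (nat_lit 5) (nat_lit 4) (nat_lit 4) (nat_lit 334) (nat_lit 271) (nat_lit 175))) (XT.nd (nat_lit 78) (nat_lit 0) (nat_lit 0) (XT.lf (nat_lit 0) (nat_lit 28379876041)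 (nat_lit 76) (nat_lit 2067731739) (nat_lit 152) (nat_lit 342405513789) (nat_lit 2) (nat_lit 5) (nat_lit 3) (nat_lit 5) (nat_lit 4) (nat_lit 4) (nat_lit 335) (nat_lit 271) (nat_lit 174)) (XT.lf (nat_lit 0) (nat_lit 50138923686) (nat_lit 152) (nat_lit 333170252487) (nat_lit 0) (nat_lit 17775375917) (nat_lit 2) (nat_lit 5) (nat_lit 4) (nat_lit 4) (nat_lit 2) (nat_lit 4) (nat_lit 336) (nat_lit 271) (nat_lit 173)))) (XT.nd (nat_lit 156) (nat_lit 0) (nat_lit 0) (XT.nd (nat_lit 78) (nat_lit 0) (nat_lit 0) (XT.lf (nat_lit 0) (nat_lit 71457628246) (nat_lit 152) (nat_lit 321019894221) (nat_lit 0) (nat_lit 39092808660) (nat_lit 2) (nat_lit 5) (nat_lit 4) (nat_lit 4) (nat_lit 2) (nat_lit 4) (nat_lit 337) (nat_lit 271) (nat_lit 172)) (XT.lf (nat_lit 0) (nat_lit 94480325527) (nat_lit 152) (nat_lit 307900439609) (nat_lit 0) (nat_lit 62114328333) (nat_lit 2) (nat_lit 5) (nat_lit 4) (nat_lit 4) (nat_lit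 2) (nat_lit 4) (nat_lit 338) (nat_lit 271) (nat_lit 171))) (XT.nd (nat_lit 78) (nat_lit 0) (nat_lit 0) (XT.lf (nat_lit 0) (nat_lit 119343446328) (nat_lit 152) (nat_lit 293734143736) (nat_lit 0) (nat_lit 86976358755) (nat_lit 2) (nat_lit 5) (nat_lit 4) (nat_lit 4) (nat_lit 2) (nat_lit 4) (nat_lit 339) (nat_lit 271) (nat_lit 170)) (XT.lf (nat_lit 0) (nat_lit 146194327661) (nat_lit 152) (nat_lit 278437058181) (nat_lit 0) (nat_lit 113826230479) (nat_lit 2) (nat_lit 5) (nat_lit 4) (nat_lit 4) (nat_lit 2) (nat_lit 4) (nat_lit 340) (nat_lit 271) (nat_lit 169)))))) (XT.nd (nat_lit 624) (nat_lit 76) (nat_lit 0) (XT.nd (nat_lit 312) (nat_lit 0) (nat_lit 0) (XT.nd (nat_lit 156) (nat_lit 0) (nat_lit 0) (XT.nd (nat_lit 78) (nat_lit 0) (nat_lit 0) (XT.lf (nat_lit 0) (nat_lit 175192085859) (nat_lit 152) (nat_lit 261918533549) (nat_lit 0) (nat_lit 142823053854) (nat_lit 2) (nat_lit 5) (nat_lit 4) (nat_lit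 4) (nat_lit 2) (nat_lit 4) (nat_lit 341) (nat_lit 271) (nat_lit 168)) (XT.lf (nat_lit 0) (nat_lit 206508559491) (nat_lit 152) (nat_lit 244080682285) (nat_lit 0) (nat_lit 174138661907) (nat_lit 2) (nat_lit 5) (nat_lit 4) (nat_lit 4) (nat_lit 2) (nat_lit 4) (nat_lit 342) (nat_lit 271) (nat_lit 167))) (XT.nd (nat_lit 78) (nat_lit 0) (nat_lit 0) (XT.lf (nat_lit 0) (nat_lit 240329327658) (nat_lit 152) (nat_lit 224817798606) (nat_lit 0) (nat_lit 207958628614) (nat_lit 2) (nat_lit 5) (nat_lit 4) (nat_lit 4) (nat_lit 2) (nat_lit 4) (nat_lit 343) (nat_lit 271) (nat_lit 166)) (XT.lf (nat_lit 0) (nat_lit 276854809727) (nat_lit 152) (nat_lit 204015732089) (nat_lit 0) (nat_lit 244483368591) (nat_lit 2) (nat_lit 5) (nat_lit 4) (nat_lit 4) (nat_lit 2) (nat_lit 4) (nat_lit 344) (nat_lit 271) (nat_lit 165)))) (XT.nd (nat_lit 156) (nat_lit 0) (nat_lit 0) (XT.nd (nat_lit 78) (nat_lit 0) (nat_lit 0) (XT.lf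 (nat_lit 0) (nat_lit 316301453001) (nat_lit 152) (nat_lit 181551211228) (nat_lit 0) (nat_lit 283929324741) (nat_lit 2) (nat_lit 5) (nat_lit 4) (nat_lit 4) (nat_lit 2) (nat_lit 4) (nat_lit 345) (nat_lit 271) (nat_lit 164)) (XT.lf (nat_lit 0) (nat_lit 358903015364) (nat_lit 152) (nat_lit 157291112938) (nat_lit 0) (nat_lit 326530250879) (nat_lit 2) (nat_lit 5) (nat_lit 4) (nat_lit 4) (nat_lit 2) (nat_lit 4) (nat_lit 346) (nat_lit 271) (nat_lit 163))) (XT.nd (nat_lit 78) (nat_lit 0) (nat_lit 0) (XT.lf (nat_lit 0) (nat_lit 404911950521) (nat_lit 152) (nat_lit 131091673672) (nat_lit 0) (nat_lit 372538596938) (nat_lit 2) (nat_lit 5) (nat_lit 4) (nat_lit 4) (nat_lit 2) (nat_lit 4) (nat_lit 347) (nat_lit 271) (nat_lit 162)) (XT.lf (nat_lit 0) (nat_lit 454600904011) (nat_lit 152) (nat_lit 102797637495) (nat_lit 0) (nat_lit 422227004968) (nat_lit 2) (nat_lit 5) (nat_lit 4) (nat_lit 4) (nat_lit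 2) (nat_lit 4) (nat_lit 348) (nat_lit 271) (nat_lit 161))))) (XT.nd (nat_lit 312) (nat_lit 0) (nat_lit 0) (XT.nd (nat_lit 156) (nat_lit 76) (nat_lit 0) (XT.nd (nat_lit 78) (nat_lit 0) (nat_lit 0) (XT.lf (nat_lit 0) (nat_lit 508264328894) (nat_lit 152) (nat_lit 72241336044) (nat_lit 0) (nat_lit 475889924795) (nat_lit 2) (nat_lit 5) (nat_lit 4) (nat_lit 4) (nat_lit 2) (nat_lit 4) (nat_lit 349) (nat_lit 271) (nat_lit 160)) (XT.lf (nat_lit 0) (nat_lit 566220230650) (nat_lit 152) (nat_lit 39241694939) (nat_lit 0) (nat_lit 533845358907) (nat_lit 2) (nat_lit 5) (nat_lit 4) (nat_lit 4) (nat_lit 2) (nat_lit 4) (nat_lit 350) (nat_lit 271) (nat_lit 159))) (XT.nd (nat_lit 78) (nat_lit 76) (nat_lit 0) (XT.lf (nat_lit 0) (nat_lit 628812051660) (nat_lit 152) (nat_lit 3603160753) (nat_lit 0) (nat_lit 596436746912) (nat_lit 2) (nat_lit 5) (nat_lit 4) (nat_lit 4) (nat_lit 2) (nat_lit 4) (nat_lit 351)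 (nat_lit 271) (nat_lit 158)) (XT.lf (nat_lit 0) (nat_lit 36722464215) (nat_lit 76) (nat_lit 660571418350) (nat_lit 76) (nat_lit 628195712672) (nat_lit 1) (nat_lit 4) (nat_lit 2) (nat_lit 5) (nat_lit 2) (nat_lit 4) (nat_lit 352) (nat_lit 271) (nat_lit 157)))) (XT.nd (nat_lit 156) (nat_lit 0) (nat_lit 0) (XT.nd (nat_lit 78) (nat_lit 0) (nat_lit 0) (XT.lf (nat_lit 0) (nat_lit 80478081062) (nat_lit 76) (nat_lit 690874198269) (nat_lit 76) (nat_lit 658498121360) (nat_lit 1) (nat_lit 4) (nat_lit 2) (nat_lit 5) (nat_lit 2) (nat_lit 4) (nat_lit 353) (nat_lit 271) (nat_lit 156)) (XT.lf (nat_lit 0) (nat_lit 127733246270) (nat_lit 76) (nat_lit 723601641000) (nat_lit 76) (nat_lit 691225220358) (nat_lit 1) (nat_lit 4) (nat_lit 2) (nat_lit 5) (nat_lit 2) (nat_lit 4) (nat_lit 354) (nat_lit 271) (nat_lit 155))) (XT.nd (nat_lit 78) (nat_lit 0) (nat_lit 0) (XT.lf (nat_lit 0) (nat_lit 178767990448) (nat_lit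 76) (nat_lit 758947686943) (nat_lit 76) (nat_lit 726570948030) (nat_lit 1) (nat_lit 4) (nat_lit 2) (nat_lit 5) (nat_lit 2) (nat_lit 4) (nat_lit 355) (nat_lit 271) (nat_lit 154)) (XT.lf (nat_lit 0) (nat_lit 233884741710) (nat_lit 76) (nat_lit 797121794149) (nat_lit 76) (nat_lit 764744760541) (nat_lit 1) (nat_lit 4) (nat_lit 2) (nat_lit 5) (nat_lit 2) (nat_lit 4) (nat_lit 356) (nat_lit 271) (nat_lit 153))))))) (XT.nd (nat_lit 34242) (nat_lit 0) (nat_lit 1976) (XT.nd (nat_lit 624) (nat_lit 0) (nat_lit 0) (XT.nd (nat_lit 312) (nat_lit 0) (nat_lit 0) (XT.nd (nat_lit 156) (nat_lit 0) (nat_lit 0) (XT.nd (nat_lit 78) (nat_lit 0) (nat_lit 0) (XT.lf (nat_lit 0) (nat_lit 293410117842) (nat_lit 76) (nat_lit 838350179550) (nat_lit 76) (nat_lit 805972873076) (nat_lit 1) (nat_lit 4) (nat_lit 2) (nat_lit 5) (nat_lit 2) (nat_lit 4) (nat_lit 357) (nat_lit 271) (nat_lit 152)) (XT.lf (nat_lit 0) (nat_lit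 357696861812) (nat_lit 76) (nat_lit 882877159503) (nat_lit 76) (nat_lit 850499600375) (nat_lit 1) (nat_lit 4) (nat_lit 2) (nat_lit 5) (nat_lit 2) (nat_lit 4) (nat_lit 358) (nat_lit 271) (nat_lit 151))) (XT.nd (nat_lit 78) (nat_lit 0) (nat_lit 0) (XT.lf (nat_lit 0) (nat_lit 427125932104) (nat_lit 76) (nat_lit 930966597594) (nat_lit 76) (nat_lit 898588804527) (nat_lit 1) (nat_lit 4) (nat_lit 2) (nat_lit 5) (nat_lit 2) (nat_lit 4) (nat_lit 359) (nat_lit 271) (nat_lit 150)) (XT.lf (nat_lit 0) (nat_lit 502108760245) (nat_lit 76) (nat_lit 982903468270) (nat_lit 76) (nat_lit 950525458593) (nat_lit 1) (nat_lit 4) (nat_lit 2) (nat_lit 5) (nat_lit 2) (nat_lit 4) (nat_lit 360) (nat_lit 271) (nat_lit 149)))) (XT.nd (nat_lit 156) (nat_lit 0) (nat_lit 0) (XT.nd (nat_lit 78) (nat_lit 0) (nat_lit 0) (XT.lf (nat_lit 0) (nat_lit 583089688921) (nat_lit 76) (nat_lit 1038995545579) (nat_lit 76) (nat_lit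 1006617335338) (nat_lit 1) (nat_lit 4) (nat_lit 2) (nat_lit 5) (nat_lit 2) (nat_lit 4) (nat_lit 361) (nat_lit 271) (nat_lit 148)) (XT.lf (nat_lit 0) (nat_lit 670548605117) (nat_lit 76) (nat_lit 1099575227018) (nat_lit 76) (nat_lit 1067196831068) (nat_lit 1) (nat_lit 4) (nat_lit 2) (nat_lit 5) (nat_lit 2) (nat_lit 4) (nat_lit 362) (nat_lit 271) (nat_lit 147))) (XT.nd (nat_lit 78) (nat_lit 0) (nat_lit 0) (XT.lf (nat_lit 0) (nat_lit 765003783890) (nat_lit 76) (nat_lit 1165001503290) (nat_lit 76) (nat_lit 1132622935389) (nat_lit 1) (nat_lit 4) (nat_lit 2) (nat_lit 5) (nat_lit 2) (nat_lit 4) (nat_lit 363) (nat_lit 271) (nat_lit 146)) (XT.lf (nat_lit 0) (nat_lit 867014959635) (nat_lit 76) (nat_lit 1235662085662) (nat_lit 76) (nat_lit 1203283358547) (nat_lit 1) (nat_lit 4) (nat_lit 2) (nat_lit 5) (nat_lit 2) (nat_lit 4) (nat_lit 364) (nat_lit 271) (nat_lit 145))))) (XT.nd (nat_lit 312) (nat_lit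 0) (nat_lit 0) (XT.nd (nat_lit 156) (nat_lit 0) (nat_lit 0) (XT.nd (nat_lit 78) (nat_lit 0) (nat_lit 0) (XT.lf (nat_lit 0) (nat_lit 977186643022) (nat_lit 76) (nat_lit 1311975703513) (nat_lit 76) (nat_lit 1279596828976) (nat_lit 1) (nat_lit 4) (nat_lit 2) (nat_lit 5) (nat_lit 2) (nat_lit 4) (nat_lit 365) (nat_lit 271) (nat_lit 144)) (XT.lf (nat_lit 0) (nat_lit 1096171703286) (nat_lit 76) (nat_lit 1394394585687) (nat_lit 76) (nat_lit 1362015574649) (nat_lit 1) (nat_lit 4) (nat_lit 2) (nat_lit 5) (nat_lit 2) (nat_lit 4) (nat_lit 366) (nat_lit 271) (nat_lit 143))) (XT.nd (nat_lit 78) (nat_lit 0) (nat_lit 0) (XT.lf (nat_lit 0) (nat_lit 1224675237080) (nat_lit 76) (nat_lit 1483407140376) (nat_lit 76) (nat_lit 1451028002948) (nat_lit 1) (nat_lit 4) (nat_lit 2) (nat_lit 5) (nat_lit 2) (nat_lit 4) (nat_lit 367) (nat_lit 271) (nat_lit 142)) (XT.lf (nat_lit 0) (nat_lit 1363458746827) (nat_lit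 76) (nat_lit 1579540849385) (nat_lit 76) (nat_lit 1547161594930) (nat_lit 1) (nat_lit 4) (nat_lit 2) (nat_lit 5) (nat_lit 2) (nat_lit 4) (nat_lit 368) (nat_lit 271) (nat_lit 141)))) (XT.nd (nat_lit 33150) (nat_lit 0) (nat_lit 3344) (XT.nd (nat_lit 33072) (nat_lit 0) (nat_lit 3344) (XT.lf (nat_lit 0) (nat_lit 1513344653326) (nat_lit 76) (nat_lit 1683365393954) (nat_lit 76) (nat_lit 1650986031139) (nat_lit 1) (nat_lit 4) (nat_lit 2) (nat_lit 5) (nat_lit 2) (nat_lit 4) (nat_lit 369) (nat_lit 271) (nat_lit 140)) (XT.lf (nat_lit 0) (nat_lit 829087318) (nat_lit 532) (nat_lit 2259126197) (nat_lit 532) (nat_lit 2259126197) (nat_lit 45) (nat_lit 3) (nat_lit 52) (nat_lit 3) (nat_lit 52) (nat_lit 5) (nat_lit 272) (nat_lit 272) (nat_lit 236))) (XT.nd (nat_lit 78) (nat_lit 0) (nat_lit 76) (XT.lf (nat_lit 76) (nat_lit 421185747) (nat_lit 0) (nat_lit 1879953209) (nat_lit 532) (nat_lit 8773566539) (nat_lit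 46) (nat_lit 5) (nat_lit 45) (nat_lit 3) (nat_lit 52) (nat_lit 5) (nat_lit 273) (nat_lit 272) (nat_lit 235)) (XT.lf (nat_lit 0) (nat_lit 3131819962) (nat_lit 456) (nat_lit 5569775302) (nat_lit 532) (nat_lit 2772799114) (nat_lit 46) (nat_lit 5) (nat_lit 52) (nat_lit 5) (nat_lit 53) (nat_lit 5) (nat_lit 274) (nat_lit 272) (nat_lit 234)))))) (XT.nd (nat_lit 624) (nat_lit 836) (nat_lit 0) (XT.nd (nat_lit 312) (nat_lit 608) (nat_lit 0) (XT.nd (nat_lit 156) (nat_lit 0) (nat_lit 76) (XT.nd (nat_lit 78) (nat_lit 0) (nat_lit 76) (XT.lf (nat_lit 0) (nat_lit 4025146472) (nat_lit 456) (nat_lit 163039045) (nat_lit 532) (nat_lit 7718328583) (nat_lit 46) (nat_lit 5) (nat_lit 52) (nat_lit 5) (nat_lit 53) (nat_lit 5) (nat_lit 275) (nat_lit 272) (nat_lit 233)) (XT.lf (nat_lit 0) (nat_lit 5104696219) (nat_lit 456) (nat_lit 6445282060) (nat_lit 532) (nat_lit 814184374) (nat_lit 47) (nat_lit 5) (nat_lit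 53) (nat_lit 5) (nat_lit 54) (nat_lit 5) (nat_lit 276) (nat_lit 272) (nat_lit 232))) (XT.nd (nat_lit 78) (nat_lit 0) (nat_lit 0) (XT.lf (nat_lit 0) (nat_lit 6338427691) (nat_lit 456) (nat_lit 505963925) (nat_lit 532) (nat_lit 6008735521) (nat_lit 47) (nat_lit 5) (nat_lit 53) (nat_lit 5) (nat_lit 54) (nat_lit 5) (nat_lit 277) (nat_lit 272) (nat_lit 231)) (XT.lf (nat_lit 76) (nat_lit 6184909036) (nat_lit 0) (nat_lit 1592529321) (nat_lit 532) (nat_lit 5595363847) (nat_lit 48) (nat_lit 5) (nat_lit 47) (nat_lit 5) (nat_lit 54) (nat_lit 5) (nat_lit 278) (nat_lit 272) (nat_lit 230)))) (XT.nd (nat_lit 156) (nat_lit 304) (nat_lit 0) (XT.nd (nat_lit 78) (nat_lit 456) (nat_lit 0) (XT.lf (nat_lit 0) (nat_lit 9404242878) (nat_lit 456) (nat_lit 627219515) (nat_lit 76) (nat_lit 3896886038) (nat_lit 48) (nat_lit 5) (nat_lit 54) (nat_lit 5) (nat_lit 49) (nat_lit 5) (nat_lit 279) (nat_lit 272) (nat_lit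 229)) (XT.lf (nat_lit 0) (nat_lit 6720120104) (nat_lit 456) (nat_lit 4607358891) (nat_lit 532) (nat_lit 3187659157) (nat_lit 42) (nat_lit 5) (nat_lit 48) (nat_lit 5) (nat_lit 49) (nat_lit 5) (nat_lit 280) (nat_lit 272) (nat_lit 228))) (XT.nd (nat_lit 78) (nat_lit 304) (nat_lit 0) (XT.lf (nat_lit 0) (nat_lit 13417558537) (nat_lit 532) (nat_lit 522199455) (nat_lit 76) (nat_lit 1208169458) (nat_lit 42) (nat_lit 5) (nat_lit 49) (nat_lit 5) (nat_lit 43) (nat_lit 5) (nat_lit 281) (nat_lit 272) (nat_lit 227)) (XT.lf (nat_lit 0) (nat_lit 127576517) (nat_lit 304) (nat_lit 8254731635) (nat_lit 76) (nat_lit 7427314948) (nat_lit 38) (nat_lit 5) (nat_lit 42) (nat_lit 5) (nat_lit 39) (nat_lit 5) (nat_lit 282) (nat_lit 272) (nat_lit 226))))) (XT.nd (nat_lit 312) (nat_lit 380) (nat_lit 0) (XT.nd (nat_lit 156) (nat_lit 228) (nat_lit 0) (XT.nd (nat_lit 78) (nat_lit 228) (nat_lit 0) (XT.lf (nat_lit 0)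 (nat_lit 2023949823) (nat_lit 304) (nat_lit 293979042) (nat_lit 76) (nat_lit 14204143341) (nat_lit 38) (nat_lit 5) (nat_lit 42) (nat_lit 5) (nat_lit 39) (nat_lit 5) (nat_lit 283) (nat_lit 272) (nat_lit 225)) (XT.lf (nat_lit 0) (nat_lit 4359585716) (nat_lit 304) (nat_lit 8675986029) (nat_lit 76) (nat_lit 4233011222) (nat_lit 35) (nat_lit 5) (nat_lit 39) (nat_lit 5) (nat_lit 36) (nat_lit 5) (nat_lit 284) (nat_lit 272) (nat_lit 224))) (XT.nd (nat_lit 78) (nat_lit 0) (nat_lit 0) (XT.lf (nat_lit 0) (nat_lit 41975470) (nat_lit 228) (nat_lit 6881877506) (nat_lit 304) (nat_lit 11147683940) (nat_lit 32) (nat_lit 5) (nat_lit 35) (nat_lit 5) (nat_lit 36) (nat_lit 5) (nat_lit 285) (nat_lit 272) (nat_lit 223)) (XT.lf (nat_lit 0) (nat_lit 9904453421) (nat_lit 304) (nat_lit 9003037394) (nat_lit 76) (nat_lit 14400990) (nat_lit 32) (nat_lit 5) (nat_lit 36) (nat_lit 5) (nat_lit 33) (nat_lit 5) (nat_lit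 286) (nat_lit 272) (nat_lit 222)))) (XT.nd (nat_lit 156) (nat_lit 228) (nat_lit 0) (XT.nd (nat_lit 78) (nat_lit 0) (nat_lit 0) (XT.lf (nat_lit 0) (nat_lit 563974421) (nat_lit 152) (nat_lit 12727291699) (nat_lit 228) (nat_lit 6535643354) (nat_lit 30) (nat_lit 5) (nat_lit 32) (nat_lit 5) (nat_lit 33) (nat_lit 5) (nat_lit 287) (nat_lit 272) (nat_lit 221)) (XT.lf (nat_lit 0) (nat_lit 11378048764) (nat_lit 152) (nat_lit 5793674164) (nat_lit 228) (nat_lit 3614841112) (nat_lit 30) (nat_lit 5) (nat_lit 32) (nat_lit 5) (nat_lit 33) (nat_lit 5) (nat_lit 288) (nat_lit 272) (nat_lit 220))) (XT.nd (nat_lit 78) (nat_lit 76) (nat_lit 0) (XT.lf (nat_lit 0) (nat_lit 1225089182) (nat_lit 152) (nat_lit 20185871828) (nat_lit 228) (nat_lit 408209988) (nat_lit 28) (nat_lit 5) (nat_lit 30) (nat_lit 5) (nat_lit 31) (nat_lit 5) (nat_lit 289) (nat_lit 272) (nat_lit 219)) (XT.lf (nat_lit 0) (nat_lit 3295006317)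 (nat_lit 228) (nat_lit 9930112611) (nat_lit 76) (nat_lit 9672000607) (nat_lit 27) (nat_lit 5) (nat_lit 30) (nat_lit 5) (nat_lit 28) (nat_lit 5) (nat_lit 290) (nat_lit 272) (nat_lit 218))))))))
noncomputable def xc70 : XT := (XT.nd (nat_lit 2418) (nat_lit 380) (nat_lit 0) (XT.nd (nat_lit 1170) (nat_lit 608) (nat_lit 0) (XT.nd (nat_lit 546) (nat_lit 380) (nat_lit 0) (XT.nd (nat_lit 234) (nat_lit 304) (nat_lit 0) (XT.nd (nat_lit 78) (nat_lit 152) (nat_lit 0) (XT.lf (nat_lit 0) (nat_lit 1630022792) (nat_lit 152) (nat_lit 5661664096) (nat_lit 228) (nat_lit 16767265755) (nat_lit 25) (nat_lit 5) (nat_lit 27) (nat_lit 5) (nat_lit 28) (nat_lit 5) (nat_lit 291) (nat_lit 272) (nat_lit 217)) (XT.nd (nat_lit 78) (nat_lit 152) (nat_lit 0) (XT.lf (nat_lit 0) (nat_lit 11927639354) (nat_lit 228) (nat_lit 10708204090) (nat_lit 76) (nat_lit 2652360950) (nat_lit 25) (nat_lit 5) (nat_lit 28) (nat_lit 5)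 (nat_lit 26) (nat_lit 5) (nat_lit 292) (nat_lit 272) (nat_lit 216)) (XT.lf (nat_lit 0) (nat_lit 1870242446) (nat_lit 152) (nat_lit 15238379889) (nat_lit 228) (nat_lit 9493274004) (nat_lit 23) (nat_lit 5) (nat_lit 25) (nat_lit 5) (nat_lit 26) (nat_lit 5) (nat_lit 293) (nat_lit 272) (nat_lit 215)))) (XT.nd (nat_lit 156) (nat_lit 228) (nat_lit 0) (XT.nd (nat_lit 78) (nat_lit 76) (nat_lit 0) (XT.lf (nat_lit 0) (nat_lit 16038180906) (nat_lit 152) (nat_lit 6941507855) (nat_lit 228) (nat_lit 5018976494) (nat_lit 23) (nat_lit 5) (nat_lit 25) (nat_lit 5) (nat_lit 26) (nat_lit 5) (nat_lit 294) (nat_lit 272) (nat_lit 214)) (XT.lf (nat_lit 0) (nat_lit 1851468135) (nat_lit 76) (nat_lit 27545964478) (nat_lit 152) (nat_lit 103611478) (nat_lit 22) (nat_lit 5) (nat_lit 23) (nat_lit 5) (nat_lit 24) (nat_lit 4) (nat_lit 295) (nat_lit 272) (nat_lit 213))) (XT.nd (nat_lit 78) (nat_lit 152) (nat_lit 0) (XT.lf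 (nat_lit 0) (nat_lit 5444506961) (nat_lit 152) (nat_lit 13988042899) (nat_lit 76) (nat_lit 11641080909) (nat_lit 21) (nat_lit 5) (nat_lit 23) (nat_lit 5) (nat_lit 22) (nat_lit 5) (nat_lit 296) (nat_lit 272) (nat_lit 212)) (XT.lf (nat_lit 0) (nat_lit 779377179) (nat_lit 152) (nat_lit 10655507680) (nat_lit 228) (nat_lit 21336625658) (nat_lit 19) (nat_lit 5) (nat_lit 21) (nat_lit 5) (nat_lit 22) (nat_lit 5) (nat_lit 297) (nat_lit 272) (nat_lit 211))))) (XT.nd (nat_lit 312) (nat_lit 228) (nat_lit 0) (XT.nd (nat_lit 156) (nat_lit 152) (nat_lit 0) (XT.nd (nat_lit 78) (nat_lit 0) (nat_lit 0) (XT.lf (nat_lit 0) (nat_lit 17500961923) (nat_lit 152) (nat_lit 771797256) (nat_lit 228) (nat_lit 16303020589) (nat_lit 19) (nat_lit 5) (nat_lit 21) (nat_lit 5) (nat_lit 22) (nat_lit 5) (nat_lit 298) (nat_lit 272) (nat_lit 210)) (XT.lf (nat_lit 0) (nat_lit 25882490609) (nat_lit 228) (nat_lit 1224211666)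 (nat_lit 76) (nat_lit 9399721016) (nat_lit 19) (nat_lit 5) (nat_lit 22) (nat_lit 5) (nat_lit 20) (nat_lit 4) (nat_lit 299) (nat_lit 272) (nat_lit 209))) (XT.nd (nat_lit 78) (nat_lit 76) (nat_lit 0) (XT.lf (nat_lit 0) (nat_lit 16688932716) (nat_lit 76) (nat_lit 17821140378) (nat_lit 152) (nat_lit 4048736902) (nat_lit 18) (nat_lit 5) (nat_lit 19) (nat_lit 5) (nat_lit 20) (nat_lit 4) (nat_lit 300) (nat_lit 272) (nat_lit 208)) (XT.lf (nat_lit 0) (nat_lit 2921889122) (nat_lit 152) (nat_lit 4762697112) (nat_lit 76) (nat_lit 33083174505) (nat_lit 17) (nat_lit 5) (nat_lit 19) (nat_lit 5) (nat_lit 18) (nat_lit 5) (nat_lit 301) (nat_lit 272) (nat_lit 207)))) (XT.nd (nat_lit 156) (nat_lit 76) (nat_lit 0) (XT.nd (nat_lit 78) (nat_lit 0) (nat_lit 0) (XT.lf (nat_lit 0) (nat_lit 10654085161) (nat_lit 228) (nat_lit 28903844461) (nat_lit 76) (nat_lit 3553286304) (nat_lit 15) (nat_lit 5) (nat_lit 18)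 (nat_lit 5) (nat_lit 16) (nat_lit 4) (nat_lit 302) (nat_lit 272) (nat_lit 206)) (XT.lf (nat_lit 0) (nat_lit 19326949217) (nat_lit 228) (nat_lit 10887975170) (nat_lit 76) (nat_lit 15401468622) (nat_lit 15) (nat_lit 5) (nat_lit 18) (nat_lit 5) (nat_lit 16) (nat_lit 4) (nat_lit 303) (nat_lit 272) (nat_lit 205))) (XT.nd (nat_lit 78) (nat_lit 0) (nat_lit 0) (XT.lf (nat_lit 0) (nat_lit 9001718264) (nat_lit 76) (nat_lit 19898128412) (nat_lit 152) (nat_lit 19405653152) (nat_lit 14) (nat_lit 5) (nat_lit 15) (nat_lit 5) (nat_lit 16) (nat_lit 4) (nat_lit 304) (nat_lit 272) (nat_lit 204)) (XT.lf (nat_lit 0) (nat_lit 31084497477) (nat_lit 76) (nat_lit 8441833721) (nat_lit 152) (nat_lit 11660394603) (nat_lit 14) (nat_lit 5) (nat_lit 15) (nat_lit 5) (nat_lit 16) (nat_lit 4) (nat_lit 305) (nat_lit 272) (nat_lit 203)))))) (XT.nd (nat_lit 624) (nat_lit 228) (nat_lit 0) (XT.nd (nat_lit 312) (nat_lit 152)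 (nat_lit 0) (XT.nd (nat_lit 156) (nat_lit 76) (nat_lit 0) (XT.nd (nat_lit 78) (nat_lit 76) (nat_lit 0) (XT.lf (nat_lit 0) (nat_lit 551918697) (nat_lit 76) (nat_lit 50549460522) (nat_lit 76) (nat_lit 3189205270) (nat_lit 13) (nat_lit 4) (nat_lit 14) (nat_lit 5) (nat_lit 14) (nat_lit 4) (nat_lit 306) (nat_lit 272) (nat_lit 202)) (XT.lf (nat_lit 0) (nat_lit 6435418725) (nat_lit 152) (nat_lit 33990705918) (nat_lit 76) (nat_lit 17143260205) (nat_lit 12) (nat_lit 5) (nat_lit 14) (nat_lit 5) (nat_lit 13) (nat_lit 4) (nat_lit 307) (nat_lit 272) (nat_lit 201))) (XT.nd (nat_lit 78) (nat_lit 76) (nat_lit 0) (XT.lf (nat_lit 0) (nat_lit 16649093956) (nat_lit 152) (nat_lit 12761188860) (nat_lit 76) (nat_lit 31694277108) (nat_lit 12) (nat_lit 5) (nat_lit 14) (nat_lit 5) (nat_lit 13) (nat_lit 4) (nat_lit 308) (nat_lit 272) (nat_lit 200)) (XT.lf (nat_lit 0) (nat_lit 10686997275) (nat_lit 76) (nat_lit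 17241908135) (nat_lit 152) (nat_lit 36973727728) (nat_lit 11) (nat_lit 5) (nat_lit 12) (nat_lit 5) (nat_lit 13) (nat_lit 4) (nat_lit 309) (nat_lit 272) (nat_lit 199)))) (XT.nd (nat_lit 156) (nat_lit 152) (nat_lit 0) (XT.nd (nat_lit 78) (nat_lit 0) (nat_lit 0) (XT.lf (nat_lit 0) (nat_lit 36722841252) (nat_lit 76) (nat_lit 3729449656) (nat_lit 152) (nat_lit 28524973122) (nat_lit 11) (nat_lit 5) (nat_lit 12) (nat_lit 5) (nat_lit 13) (nat_lit 4) (nat_lit 310) (nat_lit 272) (nat_lit 198)) (XT.lf (nat_lit 0) (nat_lit 54231536277) (nat_lit 152) (nat_lit 8810937288) (nat_lit 0) (nat_lit 10315079141) (nat_lit 11) (nat_lit 5) (nat_lit 13) (nat_lit 4) (nat_lit 11) (nat_lit 4) (nat_lit 311) (nat_lit 272) (nat_lit 197))) (XT.nd (nat_lit 78) (nat_lit 76) (nat_lit 0) (XT.lf (nat_lit 0) (nat_lit 17262333526) (nat_lit 76) (nat_lit 52356065586) (nat_lit 76) (nat_lit 8429449097) (nat_lit 10) (nat_lit 4)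 (nat_lit 11) (nat_lit 5) (nat_lit 11) (nat_lit 4) (nat_lit 312) (nat_lit 272) (nat_lit 196)) (XT.lf (nat_lit 0) (nat_lit 3207075042) (nat_lit 152) (nat_lit 37265307209) (nat_lit 76) (nat_lit 42615745957) (nat_lit 9) (nat_lit 5) (nat_lit 11) (nat_lit 5) (nat_lit 10) (nat_lit 4) (nat_lit 313) (nat_lit 272) (nat_lit 195))))) (XT.nd (nat_lit 312) (nat_lit 152) (nat_lit 0) (XT.nd (nat_lit 156) (nat_lit 0) (nat_lit 0) (XT.nd (nat_lit 78) (nat_lit 76) (nat_lit 0) (XT.lf (nat_lit 0) (nat_lit 15312894091) (nat_lit 152) (nat_lit 12093913595) (nat_lit 76) (nat_lit 61107809340) (nat_lit 9) (nat_lit 5) (nat_lit 11) (nat_lit 5) (nat_lit 10) (nat_lit 4) (nat_lit 314) (nat_lit 272) (nat_lit 194)) (XT.lf (nat_lit 0) (nat_lit 15874673909) (nat_lit 76) (nat_lit 12888533800) (nat_lit 152) (nat_lit 65581939296) (nat_lit 8) (nat_lit 5) (nat_lit 9) (nat_lit 5) (nat_lit 10) (nat_lit 4) (nat_lit 315) (nat_lit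 272) (nat_lit 193))) (XT.nd (nat_lit 78) (nat_lit 0) (nat_lit 0) (XT.lf (nat_lit 0) (nat_lit 43690237644) (nat_lit 152) (nat_lit 53933542443) (nat_lit 0) (nat_lit 2986288055) (nat_lit 8) (nat_lit 5) (nat_lit 10) (nat_lit 4) (nat_lit 8) (nat_lit 4) (nat_lit 316) (nat_lit 272) (nat_lit 192)) (XT.lf (nat_lit 0) (nat_lit 60140923857) (nat_lit 152) (nat_lit 27778331203) (nat_lit 0) (nat_lit 19430572153) (nat_lit 8) (nat_lit 5) (nat_lit 10) (nat_lit 4) (nat_lit 8) (nat_lit 4) (nat_lit 317) (nat_lit 272) (nat_lit 191)))) (XT.nd (nat_lit 156) (nat_lit 76) (nat_lit 0) (XT.nd (nat_lit 78) (nat_lit 0) (nat_lit 0) (XT.lf (nat_lit 0) (nat_lit 484353329) (nat_lit 76) (nat_lit 77430077730) (nat_lit 76) (nat_lit 36713798141) (nat_lit 7) (nat_lit 4) (nat_lit 8) (nat_lit 5) (nat_lit 8) (nat_lit 4) (nat_lit 318) (nat_lit 272) (nat_lit 190)) (XT.lf (nat_lit 0) (nat_lit 32578890237) (nat_lit 76) (nat_lit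 65285701436) (nat_lit 76) (nat_lit 24563933065) (nat_lit 7) (nat_lit 4) (nat_lit 8) (nat_lit 5) (nat_lit 8) (nat_lit 4) (nat_lit 319) (nat_lit 272) (nat_lit 189))) (XT.nd (nat_lit 78) (nat_lit 76) (nat_lit 0) (XT.lf (nat_lit 0) (nat_lit 67232711676) (nat_lit 76) (nat_lit 52173668307) (nat_lit 76) (nat_lit 11446817730) (nat_lit 7) (nat_lit 4) (nat_lit 8) (nat_lit 5) (nat_lit 8) (nat_lit 4) (nat_lit 320) (nat_lit 272) (nat_lit 188)) (XT.lf (nat_lit 0) (nat_lit 2579449668) (nat_lit 152) (nat_lit 35366301012) (nat_lit 76) (nat_lit 102001197231) (nat_lit 6) (nat_lit 5) (nat_lit 8) (nat_lit 5) (nat_lit 7) (nat_lit 4) (nat_lit 321) (nat_lit 272) (nat_lit 187))))))) (XT.nd (nat_lit 1248) (nat_lit 76) (nat_lit 0) (XT.nd (nat_lit 624) (nat_lit 152) (nat_lit 0) (XT.nd (nat_lit 312) (nat_lit 76) (nat_lit 0) (XT.nd (nat_lit 156) (nat_lit 0) (nat_lit 0) (XT.nd (nat_lit 78) (nat_lit 76) (nat_lit 0)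 (XT.lf (nat_lit 0) (nat_lit 17105533340) (nat_lit 152) (nat_lit 5156404147) (nat_lit 76) (nat_lit 127482786181) (nat_lit 6) (nat_lit 5) (nat_lit 8) (nat_lit 5) (nat_lit 7) (nat_lit 4) (nat_lit 322) (nat_lit 272) (nat_lit 186)) (XT.lf (nat_lit 0) (nat_lit 28909702830) (nat_lit 76) (nat_lit 4575706181) (nat_lit 152) (nat_lit 126785578241) (nat_lit 5) (nat_lit 5) (nat_lit 6) (nat_lit 5) (nat_lit 7) (nat_lit 4) (nat_lit 323) (nat_lit 272) (nat_lit 185))) (XT.nd (nat_lit 78) (nat_lit 0) (nat_lit 0) (XT.lf (nat_lit 0) (nat_lit 51666116059) (nat_lit 152) (nat_lit 105993519387) (nat_lit 0) (nat_lit 13940483200) (nat_lit 5) (nat_lit 5) (nat_lit 7) (nat_lit 4) (nat_lit 5) (nat_lit 4) (nat_lit 324) (nat_lit 272) (nat_lit 184)) (XT.lf (nat_lit 0) (nat_lit 71416848952) (nat_lit 152) (nat_lit 78721474494) (nat_lit 0) (nat_lit 33688013441) (nat_lit 5) (nat_lit 5) (nat_lit 7) (nat_lit 4) (nat_lit 5)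 (nat_lit 4) (nat_lit 325) (nat_lit 272) (nat_lit 183)))) (XT.nd (nat_lit 156) (nat_lit 76) (nat_lit 0) (XT.nd (nat_lit 78) (nat_lit 0) (nat_lit 0) (XT.lf (nat_lit 0) (nat_lit 92744603228) (nat_lit 152) (nat_lit 49273491782) (nat_lit 0) (nat_lit 55012802298) (nat_lit 5) (nat_lit 5) (nat_lit 7) (nat_lit 4) (nat_lit 5) (nat_lit 4) (nat_lit 326) (nat_lit 272) (nat_lit 182)) (XT.lf (nat_lit 0) (nat_lit 115775765578) (nat_lit 152) (nat_lit 17475064686) (nat_lit 0) (nat_lit 78041218890) (nat_lit 5) (nat_lit 5) (nat_lit 7) (nat_lit 4) (nat_lit 5) (nat_lit 4) (nat_lit 327) (nat_lit 272) (nat_lit 181))) (XT.nd (nat_lit 78) (nat_lit 0) (nat_lit 0) (XT.lf (nat_lit 0) (nat_lit 17750177694) (nat_lit 76) (nat_lit 123323531470) (nat_lit 76) (nat_lit 85586442415) (nat_lit 4) (nat_lit 4) (nat_lit 5) (nat_lit 5) (nat_lit 5) (nat_lit 4) (nat_lit 328) (nat_lit 272) (nat_lit 180)) (XT.lf (nat_lit 0) (nat_lit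 56782393664) (nat_lit 76) (nat_lit 112088365664) (nat_lit 76) (nat_lit 74348922563) (nat_lit 4) (nat_lit 4) (nat_lit 5) (nat_lit 5) (nat_lit 5) (nat_lit 4) (nat_lit 329) (nat_lit 272) (nat_lit 179))))) (XT.nd (nat_lit 312) (nat_lit 152) (nat_lit 0) (XT.nd (nat_lit 156) (nat_lit 0) (nat_lit 0) (XT.nd (nat_lit 78) (nat_lit 0) (nat_lit 0) (XT.lf (nat_lit 0) (nat_lit 98932679307) (nat_lit 76) (nat_lit 99956553321) (nat_lit 76) (nat_lit 62214930550) (nat_lit 4) (nat_lit 4) (nat_lit 5) (nat_lit 5) (nat_lit 5) (nat_lit 4) (nat_lit 330) (nat_lit 272) (nat_lit 178)) (XT.lf (nat_lit 0) (nat_lit 144450814093) (nat_lit 76) (nat_lit 86856202221) (nat_lit 76) (nat_lit 49112561236) (nat_lit 4) (nat_lit 4) (nat_lit 5) (nat_lit 5) (nat_lit 5) (nat_lit 4) (nat_lit 331) (nat_lit 272) (nat_lit 177))) (XT.nd (nat_lit 78) (nat_lit 0) (nat_lit 0) (XT.lf (nat_lit 0) (nat_lit 193606535117) (nat_lit 76) (nat_lit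 72709680653) (nat_lit 76) (nat_lit 34964170951) (nat_lit 4) (nat_lit 4) (nat_lit 5) (nat_lit 5) (nat_lit 5) (nat_lit 4) (nat_lit 332) (nat_lit 272) (nat_lit 176)) (XT.lf (nat_lit 0) (nat_lit 246691135541) (nat_lit 76) (nat_lit 57433157378) (nat_lit 76) (nat_lit 19685917383) (nat_lit 4) (nat_lit 4) (nat_lit 5) (nat_lit 5) (nat_lit 5) (nat_lit 4) (nat_lit 333) (nat_lit 272) (nat_lit 175)))) (XT.nd (nat_lit 156) (nat_lit 76) (nat_lit 0) (XT.nd (nat_lit 78) (nat_lit 76) (nat_lit 0) (XT.lf (nat_lit 0) (nat_lit 304019190775) (nat_lit 76) (nat_lit 40936104851) (nat_lit 76) (nat_lit 3187262733) (nat_lit 4) (nat_lit 4) (nat_lit 5) (nat_lit 5) (nat_lit 5) (nat_lit 4) (nat_lit 334) (nat_lit 272) (nat_lit 174)) (XT.lf (nat_lit 0) (nat_lit 13897732822) (nat_lit 152) (nat_lit 8843041293) (nat_lit 76) (nat_lit 351652701160) (nat_lit 3) (nat_lit 5) (nat_lit 5) (nat_lit 5) (nat_lit 4) (nat_lit 4) (nat_lit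 335) (nat_lit 272) (nat_lit 173))) (XT.nd (nat_lit 78) (nat_lit 0) (nat_lit 0) (XT.lf (nat_lit 0) (nat_lit 30710255367) (nat_lit 76) (nat_lit 2204145832) (nat_lit 152) (nat_lit 369764476758) (nat_lit 2) (nat_lit 5) (nat_lit 3) (nat_lit 5) (nat_lit 4) (nat_lit 4) (nat_lit 336) (nat_lit 272) (nat_lit 172)) (XT.lf (nat_lit 0) (nat_lit 54179373093) (nat_lit 152) (nat_lit 359766664331) (nat_lit 0) (nat_lit 19222918515) (nat_lit 2) (nat_lit 5) (nat_lit 4) (nat_lit 4) (nat_lit 2) (nat_lit 4) (nat_lit 337) (nat_lit 272) (nat_lit 171)))))) (XT.nd (nat_lit 624) (nat_lit 76) (nat_lit 0) (XT.nd (nat_lit 312) (nat_lit 0) (nat_lit 0) (XT.nd (nat_lit 156) (nat_lit 0) (nat_lit 0) (XT.nd (nat_lit 78) (nat_lit 0) (nat_lit 0) (XT.lf (nat_lit 0) (nat_lit 77201401017) (nat_lit 152) (nat_lit 346648515059) (nat_lit 0) (nat_lit 42243856060) (nat_lit 2) (nat_lit 5) (nat_lit 4) (nat_lit 4) (nat_lit 2) (nat_lit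 4) (nat_lit 338) (nat_lit 272) (nat_lit 170)) (XT.lf (nat_lit 0) (nat_lit 102063902043) (nat_lit 152) (nat_lit 332483427834) (nat_lit 0) (nat_lit 67105347477) (nat_lit 2) (nat_lit 5) (nat_lit 4) (nat_lit 4) (nat_lit 2) (nat_lit 4) (nat_lit 339) (nat_lit 272) (nat_lit 169))) (XT.nd (nat_lit 78) (nat_lit 0) (nat_lit 0) (XT.lf (nat_lit 0) (nat_lit 128914209510) (nat_lit 152) (nat_lit 317187461398) (nat_lit 0) (nat_lit 93954720120) (nat_lit 2) (nat_lit 5) (nat_lit 4) (nat_lit 4) (nat_lit 2) (nat_lit 4) (nat_lit 340) (nat_lit 272) (nat_lit 168)) (XT.lf (nat_lit 0) (nat_lit 157911436351) (nat_lit 152) (nat_lit 300669972987) (nat_lit 0) (nat_lit 122951081384) (nat_lit 2) (nat_lit 5) (nat_lit 4) (nat_lit 4) (nat_lit 2) (nat_lit 4) (nat_lit 341) (nat_lit 272) (nat_lit 167)))) (XT.nd (nat_lit 156) (nat_lit 0) (nat_lit 0) (XT.nd (nat_lit 78) (nat_lit 0) (nat_lit 0) (XT.lf (nat_lit 0) (nat_lit 189227417985)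 (nat_lit 152) (nat_lit 282833081187) (nat_lit 0) (nat_lit 154266261557) (nat_lit 2) (nat_lit 5) (nat_lit 4) (nat_lit 4) (nat_lit 2) (nat_lit 4) (nat_lit 342) (nat_lit 272) (nat_lit 166)) (XT.lf (nat_lit 0) (nat_lit 223047730599) (nat_lit 152) (nat_lit 263571085901) (nat_lit 0) (nat_lit 188085832078) (nat_lit 2) (nat_lit 5) (nat_lit 4) (nat_lit 4) (nat_lit 2) (nat_lit 4) (nat_lit 343) (nat_lit 272) (nat_lit 165))) (XT.nd (nat_lit 78) (nat_lit 0) (nat_lit 0) (XT.lf (nat_lit 0) (nat_lit 259572790860) (nat_lit 152) (nat_lit 242769841969) (nat_lit 0) (nat_lit 224610205216) (nat_lit 2) (nat_lit 5) (nat_lit 4) (nat_lit 4) (nat_lit 2) (nat_lit 4) (nat_lit 344) (nat_lit 272) (nat_lit 164)) (XT.lf (nat_lit 0) (nat_lit 299019043570) (nat_lit 152) (nat_lit 220306082762) (nat_lit 0) (nat_lit 264055821701) (nat_lit 2) (nat_lit 5) (nat_lit 4) (nat_lit 4) (nat_lit 2) (nat_lit 4) (nat_lit 345) (nat_lit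 272) (nat_lit 163))))) (XT.nd (nat_lit 312) (nat_lit 76) (nat_lit 0) (XT.nd (nat_lit 156) (nat_lit 0) (nat_lit 0) (XT.nd (nat_lit 78) (nat_lit 0) (nat_lit 0) (XT.lf (nat_lit 0) (nat_lit 341620244301) (nat_lit 152) (nat_lit 196046689706) (nat_lit 0) (nat_lit 306656433334) (nat_lit 2) (nat_lit 5) (nat_lit 4) (nat_lit 4) (nat_lit 2) (nat_lit 4) (nat_lit 346) (nat_lit 272) (nat_lit 162)) (XT.lf (nat_lit 0) (nat_lit 387628844612) (nat_lit 152) (nat_lit 169847903435) (nat_lit 0) (nat_lit 352664488185) (nat_lit 2) (nat_lit 5) (nat_lit 4) (nat_lit 4) (nat_lit 2) (nat_lit 4) (nat_lit 347) (nat_lit 272) (nat_lit 161))) (XT.nd (nat_lit 78) (nat_lit 0) (nat_lit 0) (XT.lf (nat_lit 0) (nat_lit 437317488061) (nat_lit 152) (nat_lit 141554471883) (nat_lit 0) (nat_lit 402352626578) (nat_lit 2) (nat_lit 5) (nat_lit 4) (nat_lit 4) (nat_lit 2) (nat_lit 4) (nat_lit 348) (nat_lit 272) (nat_lit 160)) (XT.lf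 (nat_lit 0) (nat_lit 490980625868) (nat_lit 152) (nat_lit 110998730270) (nat_lit 0) (nat_lit 456015296740) (nat_lit 2) (nat_lit 5) (nat_lit 4) (nat_lit 4) (nat_lit 2) (nat_lit 4) (nat_lit 349) (nat_lit 272) (nat_lit 159)))) (XT.nd (nat_lit 156) (nat_lit 76) (nat_lit 0) (XT.nd (nat_lit 78) (nat_lit 0) (nat_lit 0) (XT.lf (nat_lit 0) (nat_lit 548936261813) (nat_lit 152) (nat_lit 77999607534) (nat_lit 0) (nat_lit 513970499681) (nat_lit 2) (nat_lit 5) (nat_lit 4) (nat_lit 4) (nat_lit 2) (nat_lit 4) (nat_lit 350) (nat_lit 272) (nat_lit 158)) (XT.lf (nat_lit 0) (nat_lit 611527836701) (nat_lit 152) (nat_lit 42361553318) (nat_lit 0) (nat_lit 576561673640) (nat_lit 2) (nat_lit 5) (nat_lit 4) (nat_lit 4) (nat_lit 2) (nat_lit 4) (nat_lit 351) (nat_lit 272) (nat_lit 157))) (XT.nd (nat_lit 78) (nat_lit 76) (nat_lit 0) (XT.lf (nat_lit 0) (nat_lit 679126263570) (nat_lit 152) (nat_lit 3873379154) (nat_lit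 0) (nat_lit 644159729277) (nat_lit 2) (nat_lit 5) (nat_lit 4) (nat_lit 4) (nat_lit 2) (nat_lit 4) (nat_lit 352) (nat_lit 272) (nat_lit 156)) (XT.lf (nat_lit 0) (nat_lit 39677839243) (nat_lit 76) (nat_lit 713408539433) (nat_lit 76) (nat_lit 678441661407) (nat_lit 1) (nat_lit 4) (nat_lit 2) (nat_lit 5) (nat_lit 2) (nat_lit 4) (nat_lit 353) (nat_lit 272) (nat_lit 155))))))))
noncomputable def xc71 : XT := (XT.nd (nat_lit 35568) (nat_lit 0) (nat_lit 456) (XT.nd (nat_lit 34320) (nat_lit 0) (nat_lit 2204) (XT.nd (nat_lit 624) (nat_lit 0) (nat_lit 0) (XT.nd (nat_lit 312) (nat_lit 0) (nat_lit 0) (XT.nd (nat_lit 156) (nat_lit 0) (nat_lit 0) (XT.nd (nat_lit 78) (nat_lit 0) (nat_lit 0) (XT.lf (nat_lit 0) (nat_lit 86932603371) (nat_lit 76) (nat_lit 746136178218) (nat_lit 76) (nat_lit 711168981921) (nat_lit 1) (nat_lit 4) (nat_lit 2) (nat_lit 5) (nat_lit 2) (nat_lit 4) (nat_lit 354) (nat_lit 272)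 (nat_lit 154)) (XT.lf (nat_lit 0) (nat_lit 137966976179) (nat_lit 76) (nat_lit 781482405694) (nat_lit 76) (nat_lit 746514914702) (nat_lit 1) (nat_lit 4) (nat_lit 2) (nat_lit 5) (nat_lit 2) (nat_lit 4) (nat_lit 355) (nat_lit 272) (nat_lit 153))) (XT.nd (nat_lit 78) (nat_lit 0) (nat_lit 0) (XT.lf (nat_lit 0) (nat_lit 193083383580) (nat_lit 76) (nat_lit 819656680986) (nat_lit 76) (nat_lit 784688917128) (nat_lit 1) (nat_lit 4) (nat_lit 2) (nat_lit 5) (nat_lit 2) (nat_lit 4) (nat_lit 356) (nat_lit 272) (nat_lit 152)) (XT.lf (nat_lit 0) (nat_lit 252608441321) (nat_lit 76) (nat_lit 860885222021) (nat_lit 76) (nat_lit 825917205509) (nat_lit 1) (nat_lit 4) (nat_lit 2) (nat_lit 5) (nat_lit 2) (nat_lit 4) (nat_lit 357) (nat_lit 272) (nat_lit 151)))) (XT.nd (nat_lit 156) (nat_lit 0) (nat_lit 0) (XT.nd (nat_lit 78) (nat_lit 0) (nat_lit 0) (XT.lf (nat_lit 0) (nat_lit 316894890486) (nat_lit 76) (nat_lit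 905412346081) (nat_lit 76) (nat_lit 870444095630) (nat_lit 1) (nat_lit 4) (nat_lit 2) (nat_lit 5) (nat_lit 2) (nat_lit 4) (nat_lit 358) (nat_lit 272) (nat_lit 150)) (XT.lf (nat_lit 0) (nat_lit 386323687810) (nat_lit 76) (nat_lit 953501917603) (nat_lit 76) (nat_lit 918533450543) (nat_lit 1) (nat_lit 4) (nat_lit 2) (nat_lit 5) (nat_lit 2) (nat_lit 4) (nat_lit 359) (nat_lit 272) (nat_lit 149))) (XT.nd (nat_lit 78) (nat_lit 0) (nat_lit 0) (XT.lf (nat_lit 0) (nat_lit 461306263203) (nat_lit 76) (nat_lit 1005438911827) (nat_lit 76) (nat_lit 970470244202) (nat_lit 1) (nat_lit 4) (nat_lit 2) (nat_lit 5) (nat_lit 2) (nat_lit 4) (nat_lit 360) (nat_lit 272) (nat_lit 148)) (XT.lf (nat_lit 0) (nat_lit 542286957852) (nat_lit 76) (nat_lit 1061531103533) (nat_lit 76) (nat_lit 1026562250199) (nat_lit 1) (nat_lit 4) (nat_lit 2) (nat_lit 5) (nat_lit 2) (nat_lit 4) (nat_lit 361) (nat_lit 272) (nat_lit 147)))))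 (XT.nd (nat_lit 312) (nat_lit 0) (nat_lit 0) (XT.nd (nat_lit 156) (nat_lit 0) (nat_lit 0) (XT.nd (nat_lit 78) (nat_lit 0) (nat_lit 0) (XT.lf (nat_lit 0) (nat_lit 629745657357) (nat_lit 76) (nat_lit 1122110890893) (nat_lit 76) (nat_lit 1087141865608) (nat_lit 1) (nat_lit 4) (nat_lit 2) (nat_lit 5) (nat_lit 2) (nat_lit 4) (nat_lit 362) (nat_lit 272) (nat_lit 146)) (XT.lf (nat_lit 0) (nat_lit 724200635491) (nat_lit 76) (nat_lit 1187537265242) (nat_lit 76) (nat_lit 1152568080742) (nat_lit 1) (nat_lit 4) (nat_lit 2) (nat_lit 5) (nat_lit 2) (nat_lit 4) (nat_lit 363) (nat_lit 272) (nat_lit 145))) (XT.nd (nat_lit 78) (nat_lit 0) (nat_lit 0) (XT.lf (nat_lit 0) (nat_lit 826211625458) (nat_lit 76) (nat_lit 1258197938426) (nat_lit 76) (nat_lit 1223228606505) (nat_lit 1) (nat_lit 4) (nat_lit 2) (nat_lit 5) (nat_lit 2) (nat_lit 4) (nat_lit 364) (nat_lit 272) (nat_lit 144)) (XT.lf (nat_lit 0) (nat_lit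 936383136828) (nat_lit 76) (nat_lit 1334511640361) (nat_lit 76) (nat_lit 1299542171939) (nat_lit 1) (nat_lit 4) (nat_lit 2) (nat_lit 5) (nat_lit 2) (nat_lit 4) (nat_lit 365) (nat_lit 272) (nat_lit 143)))) (XT.nd (nat_lit 156) (nat_lit 0) (nat_lit 0) (XT.nd (nat_lit 78) (nat_lit 0) (nat_lit 0) (XT.lf (nat_lit 0) (nat_lit 1055368037818) (nat_lit 76) (nat_lit 1416930600391) (nat_lit 76) (nat_lit 1381961005580) (nat_lit 1) (nat_lit 4) (nat_lit 2) (nat_lit 5) (nat_lit 2) (nat_lit 4) (nat_lit 366) (nat_lit 272) (nat_lit 142)) (XT.lf (nat_lit 0) (nat_lit 1183871424136) (nat_lit 76) (nat_lit 1505943227169) (nat_lit 76) (nat_lit 1470973515330) (nat_lit 1) (nat_lit 4) (nat_lit 2) (nat_lit 5) (nat_lit 2) (nat_lit 4) (nat_lit 367) (nat_lit 272) (nat_lit 141))) (XT.nd (nat_lit 78) (nat_lit 0) (nat_lit 0) (XT.lf (nat_lit 0) (nat_lit 1322654797331) (nat_lit 76) (nat_lit 1602077002928) (nat_lit 76)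 (nat_lit 1567107182730) (nat_lit 1) (nat_lit 4) (nat_lit 2) (nat_lit 5) (nat_lit 2) (nat_lit 4) (nat_lit 368) (nat_lit 272) (nat_lit 140)) (XT.lf (nat_lit 0) (nat_lit 1472540577392) (nat_lit 76) (nat_lit 1705901609301) (nat_lit 76) (nat_lit 1670931688770) (nat_lit 1) (nat_lit 4) (nat_lit 2) (nat_lit 5) (nat_lit 2) (nat_lit 4) (nat_lit 369) (nat_lit 272) (nat_lit 139)))))) (XT.nd (nat_lit 624) (nat_lit 1140) (nat_lit 0) (XT.nd (nat_lit 312) (nat_lit 0) (nat_lit 152) (XT.nd (nat_lit 156) (nat_lit 0) (nat_lit 76) (XT.nd (nat_lit 78) (nat_lit 0) (nat_lit 0) (XT.lf (nat_lit 0) (nat_lit 1448297584) (nat_lit 532) (nat_lit 2140503863) (nat_lit 532) (nat_lit 2140503863) (nat_lit 45) (nat_lit 3) (nat_lit 52) (nat_lit 3) (nat_lit 52) (nat_lit 5) (nat_lit 273) (nat_lit 273) (nat_lit 234)) (XT.lf (nat_lit 76) (nat_lit 1038428380) (nat_lit 0) (nat_lit 2484693956) (nat_lit 532) (nat_lit 8351582077)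 (nat_lit 46) (nat_lit 5) (nat_lit 45) (nat_lit 3) (nat_lit 52) (nat_lit 5) (nat_lit 274) (nat_lit 273) (nat_lit 233))) (XT.nd (nat_lit 78) (nat_lit 0) (nat_lit 0) (XT.lf (nat_lit 0) (nat_lit 4333259326) (nat_lit 456) (nat_lit 5385308909) (nat_lit 532) (nat_lit 2594978285) (nat_lit 46) (nat_lit 5) (nat_lit 52) (nat_lit 5) (nat_lit 53) (nat_lit 5) (nat_lit 275) (nat_lit 273) (nat_lit 232)) (XT.lf (nat_lit 76) (nat_lit 428743480) (nat_lit 0) (nat_lit 4809183192) (nat_lit 532) (nat_lit 7547321237) (nat_lit 47) (nat_lit 5) (nat_lit 46) (nat_lit 5) (nat_lit 53) (nat_lit 5) (nat_lit 276) (nat_lit 273) (nat_lit 231)))) (XT.nd (nat_lit 156) (nat_lit 0) (nat_lit 0) (XT.nd (nat_lit 78) (nat_lit 0) (nat_lit 0) (XT.lf (nat_lit 0) (nat_lit 6335724799) (nat_lit 456) (nat_lit 6317383411) (nat_lit 532) (nat_lit 632036483) (nat_lit 47) (nat_lit 5) (nat_lit 53) (nat_lit 5) (nat_lit 54) (nat_lit 5) (nat_lit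 277) (nat_lit 273) (nat_lit 230)) (XT.lf (nat_lit 76) (nat_lit 52013880) (nat_lit 0) (nat_lit 7556454593) (nat_lit 532) (nat_lit 6209706009) (nat_lit 48) (nat_lit 5) (nat_lit 47) (nat_lit 5) (nat_lit 54) (nat_lit 5) (nat_lit 278) (nat_lit 273) (nat_lit 229))) (XT.nd (nat_lit 78) (nat_lit 0) (nat_lit 76) (XT.lf (nat_lit 76) (nat_lit 7260469849) (nat_lit 0) (nat_lit 1858423315) (nat_lit 532) (nat_lit 5264187344) (nat_lit 48) (nat_lit 5) (nat_lit 47) (nat_lit 5) (nat_lit 54) (nat_lit 5) (nat_lit 279) (nat_lit 273) (nat_lit 228)) (XT.lf (nat_lit 0) (nat_lit 10819479540) (nat_lit 456) (nat_lit 81429770) (nat_lit 76) (nat_lit 4086818648) (nat_lit 48) (nat_lit 5) (nat_lit 54) (nat_lit 5) (nat_lit 49) (nat_lit 5) (nat_lit 280) (nat_lit 273) (nat_lit 227))))) (XT.nd (nat_lit 312) (nat_lit 380) (nat_lit 0) (XT.nd (nat_lit 156) (nat_lit 304) (nat_lit 0) (XT.nd (nat_lit 78) (nat_lit 228) (nat_lit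 0) (XT.lf (nat_lit 0) (nat_lit 7838609238) (nat_lit 456) (nat_lit 5022831977) (nat_lit 532) (nat_lit 2762967833) (nat_lit 42) (nat_lit 5) (nat_lit 48) (nat_lit 5) (nat_lit 49) (nat_lit 5) (nat_lit 281) (nat_lit 273) (nat_lit 226)) (XT.lf (nat_lit 0) (nat_lit 24224597) (nat_lit 228) (nat_lit 15047540049) (nat_lit 304) (nat_lit 1239941178) (nat_lit 39) (nat_lit 5) (nat_lit 42) (nat_lit 5) (nat_lit 43) (nat_lit 5) (nat_lit 282) (nat_lit 273) (nat_lit 225))) (XT.nd (nat_lit 78) (nat_lit 228) (nat_lit 0) (XT.lf (nat_lit 0) (nat_lit 704493726) (nat_lit 304) (nat_lit 8311775795) (nat_lit 76) (nat_lit 8011421908) (nat_lit 38) (nat_lit 5) (nat_lit 42) (nat_lit 5) (nat_lit 39) (nat_lit 5) (nat_lit 283) (nat_lit 273) (nat_lit 224)) (XT.lf (nat_lit 0) (nat_lit 253843868) (nat_lit 228) (nat_lit 2462859379) (nat_lit 304) (nat_lit 15083404190) (nat_lit 35) (nat_lit 5) (nat_lit 38) (nat_lit 5) (nat_lit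 39) (nat_lit 5) (nat_lit 284) (nat_lit 273) (nat_lit 223)))) (XT.nd (nat_lit 156) (nat_lit 152) (nat_lit 0) (XT.nd (nat_lit 78) (nat_lit 228) (nat_lit 0) (XT.lf (nat_lit 0) (nat_lit 5208406501) (nat_lit 304) (nat_lit 8785573462) (nat_lit 76) (nat_lit 4614915376) (nat_lit 35) (nat_lit 5) (nat_lit 39) (nat_lit 5) (nat_lit 36) (nat_lit 5) (nat_lit 285) (nat_lit 273) (nat_lit 222)) (XT.lf (nat_lit 0) (nat_lit 615027705) (nat_lit 228) (nat_lit 7339447563) (nat_lit 304) (nat_lit 11523564187) (nat_lit 32) (nat_lit 5) (nat_lit 35) (nat_lit 5) (nat_lit 36) (nat_lit 5) (nat_lit 286) (nat_lit 273) (nat_lit 221))) (XT.nd (nat_lit 78) (nat_lit 152) (nat_lit 0) (XT.lf (nat_lit 0) (nat_lit 11140282130) (nat_lit 304) (nat_lit 9161541092) (nat_lit 76) (nat_lit 97339087) (nat_lit 32) (nat_lit 5) (nat_lit 36) (nat_lit 5) (nat_lit 33) (nat_lit 5) (nat_lit 287) (nat_lit 273) (nat_lit 220)) (XT.lf (nat_lit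 0) (nat_lit 1156610420) (nat_lit 152) (nat_lit 13621747436) (nat_lit 228) (nat_lit 6599872394) (nat_lit 30) (nat_lit 5) (nat_lit 32) (nat_lit 5) (nat_lit 33) (nat_lit 5) (nat_lit 288) (nat_lit 273) (nat_lit 219))))))) (XT.nd (nat_lit 1248) (nat_lit 608) (nat_lit 0) (XT.nd (nat_lit 624) (nat_lit 456) (nat_lit 0) (XT.nd (nat_lit 312) (nat_lit 304) (nat_lit 0) (XT.nd (nat_lit 156) (nat_lit 228) (nat_lit 0) (XT.nd (nat_lit 78) (nat_lit 152) (nat_lit 0) (XT.lf (nat_lit 0) (nat_lit 12795253819) (nat_lit 152) (nat_lit 6142605506) (nat_lit 228) (nat_lit 3479378004) (nat_lit 30) (nat_lit 5) (nat_lit 32) (nat_lit 5) (nat_lit 33) (nat_lit 5) (nat_lit 289) (nat_lit 273) (nat_lit 218)) (XT.lf (nat_lit 0) (nat_lit 1845972863) (nat_lit 152) (nat_lit 21656323365) (nat_lit 228) (nat_lit 31335533) (nat_lit 28) (nat_lit 5) (nat_lit 30) (nat_lit 5) (nat_lit 31) (nat_lit 5) (nat_lit 290) (nat_lit 273) (nat_lit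 217))) (XT.nd (nat_lit 78) (nat_lit 152) (nat_lit 0) (XT.lf (nat_lit 0) (nat_lit 3918833528) (nat_lit 228) (nat_lit 10220725113) (nat_lit 76) (nat_lit 10559829664) (nat_lit 27) (nat_lit 5) (nat_lit 30) (nat_lit 5) (nat_lit 28) (nat_lit 5) (nat_lit 291) (nat_lit 273) (nat_lit 216)) (XT.lf (nat_lit 0) (nat_lit 2251466780) (nat_lit 152) (nat_lit 5968907881) (nat_lit 228) (nat_lit 17735033879) (nat_lit 25) (nat_lit 5) (nat_lit 27) (nat_lit 5) (nat_lit 28) (nat_lit 5) (nat_lit 292) (nat_lit 273) (nat_lit 215)))) (XT.nd (nat_lit 156) (nat_lit 152) (nat_lit 0) (XT.nd (nat_lit 78) (nat_lit 152) (nat_lit 0) (XT.lf (nat_lit 0) (nat_lit 13204865923) (nat_lit 228) (nat_lit 11087269077) (nat_lit 76) (nat_lit 2992699244) (nat_lit 25) (nat_lit 5) (nat_lit 28) (nat_lit 5) (nat_lit 26) (nat_lit 5) (nat_lit 293) (nat_lit 273) (nat_lit 214)) (XT.lf (nat_lit 0) (nat_lit 2485362262) (nat_lit 152) (nat_lit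 16302233509) (nat_lit 228) (nat_lit 9917087670) (nat_lit 23) (nat_lit 5) (nat_lit 25) (nat_lit 5) (nat_lit 26) (nat_lit 5) (nat_lit 294) (nat_lit 273) (nat_lit 213))) (XT.nd (nat_lit 78) (nat_lit 152) (nat_lit 0) (XT.lf (nat_lit 0) (nat_lit 17752254286) (nat_lit 152) (nat_lit 7353109250) (nat_lit 228) (nat_lit 5109709192) (nat_lit 23) (nat_lit 5) (nat_lit 25) (nat_lit 5) (nat_lit 26) (nat_lit 5) (nat_lit 295) (nat_lit 273) (nat_lit 212)) (XT.lf (nat_lit 0) (nat_lit 181197723) (nat_lit 152) (nat_lit 29403652113) (nat_lit 76) (nat_lit 2253062856) (nat_lit 21) (nat_lit 5) (nat_lit 23) (nat_lit 5) (nat_lit 22) (nat_lit 5) (nat_lit 296) (nat_lit 273) (nat_lit 211))))) (XT.nd (nat_lit 312) (nat_lit 304) (nat_lit 0) (XT.nd (nat_lit 156) (nat_lit 0) (nat_lit 0) (XT.nd (nat_lit 78) (nat_lit 152) (nat_lit 0) (XT.lf (nat_lit 0) (nat_lit 6146271600) (nat_lit 152) (nat_lit 14685606042) (nat_lit 76)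 (nat_lit 12705948938) (nat_lit 21) (nat_lit 5) (nat_lit 23) (nat_lit 5) (nat_lit 22) (nat_lit 5) (nat_lit 297) (nat_lit 273) (nat_lit 210)) (XT.lf (nat_lit 0) (nat_lit 1252537255) (nat_lit 152) (nat_lit 11353503643) (nat_lit 228) (nat_lit 22766312423) (nat_lit 19) (nat_lit 5) (nat_lit 21) (nat_lit 5) (nat_lit 22) (nat_lit 5) (nat_lit 298) (nat_lit 273) (nat_lit 209))) (XT.nd (nat_lit 78) (nat_lit 0) (nat_lit 0) (XT.lf (nat_lit 0) (nat_lit 19281418416) (nat_lit 152) (nat_lit 690536729) (nat_lit 228) (nat_lit 17350555488) (nat_lit 19) (nat_lit 5) (nat_lit 21) (nat_lit 5) (nat_lit 22) (nat_lit 5) (nat_lit 299) (nat_lit 273) (nat_lit 208)) (XT.lf (nat_lit 0) (nat_lit 28176066236) (nat_lit 228) (nat_lit 955230267) (nat_lit 76) (nat_lit 10277486339) (nat_lit 19) (nat_lit 5) (nat_lit 22) (nat_lit 5) (nat_lit 20) (nat_lit 4) (nat_lit 300) (nat_lit 273) (nat_lit 207)))) (XT.nd (nat_lit 156) (nat_lit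 152) (nat_lit 0) (XT.nd (nat_lit 78) (nat_lit 76) (nat_lit 0) (XT.lf (nat_lit 0) (nat_lit 18381676593) (nat_lit 76) (nat_lit 19104262950) (nat_lit 152) (nat_lit 4140077624) (nat_lit 18) (nat_lit 5) (nat_lit 19) (nat_lit 5) (nat_lit 20) (nat_lit 4) (nat_lit 301) (nat_lit 273) (nat_lit 206)) (XT.lf (nat_lit 0) (nat_lit 3360200183) (nat_lit 152) (nat_lit 4801551903) (nat_lit 76) (nat_lit 35850813707) (nat_lit 17) (nat_lit 5) (nat_lit 19) (nat_lit 5) (nat_lit 18) (nat_lit 5) (nat_lit 302) (nat_lit 273) (nat_lit 205))) (XT.nd (nat_lit 78) (nat_lit 0) (nat_lit 0) (XT.lf (nat_lit 0) (nat_lit 11707112472) (nat_lit 228) (nat_lit 30869899188) (nat_lit 76) (nat_lit 3966813083) (nat_lit 15) (nat_lit 5) (nat_lit 18) (nat_lit 5) (nat_lit 16) (nat_lit 4) (nat_lit 303) (nat_lit 273) (nat_lit 204)) (XT.lf (nat_lit 0) (nat_lit 21058938948) (nat_lit 228) (nat_lit 11438408712) (nat_lit 76) (nat_lit 16753274885)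 (nat_lit 15) (nat_lit 5) (nat_lit 18) (nat_lit 5) (nat_lit 16) (nat_lit 4) (nat_lit 304) (nat_lit 273) (nat_lit 203)))))) (XT.nd (nat_lit 624) (nat_lit 304) (nat_lit 0) (XT.nd (nat_lit 312) (nat_lit 76) (nat_lit 0) (XT.nd (nat_lit 156) (nat_lit 152) (nat_lit 0) (XT.nd (nat_lit 78) (nat_lit 0) (nat_lit 0) (XT.lf (nat_lit 0) (nat_lit 10034343629) (nat_lit 76) (nat_lit 21357074451) (nat_lit 152) (nat_lit 20763955780) (nat_lit 14) (nat_lit 5) (nat_lit 15) (nat_lit 5) (nat_lit 16) (nat_lit 4) (nat_lit 305) (nat_lit 273) (nat_lit 202)) (XT.lf (nat_lit 0) (nat_lit 33860597927) (nat_lit 76) (nat_lit 8994120943) (nat_lit 152) (nat_lit 12413458002) (nat_lit 14) (nat_lit 5) (nat_lit 15) (nat_lit 5) (nat_lit 16) (nat_lit 4) (nat_lit 306) (nat_lit 273) (nat_lit 201))) (XT.nd (nat_lit 78) (nat_lit 76) (nat_lit 0) (XT.lf (nat_lit 0) (nat_lit 888348658) (nat_lit 76) (nat_lit 54464874560) (nat_lit 76)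 (nat_lit 3267338503) (nat_lit 13) (nat_lit 4) (nat_lit 14) (nat_lit 5) (nat_lit 14) (nat_lit 4) (nat_lit 307) (nat_lit 273) (nat_lit 200)) (XT.lf (nat_lit 0) (nat_lit 7105945531) (nat_lit 152) (nat_lit 36430991038) (nat_lit 76) (nat_lit 18625397139) (nat_lit 12) (nat_lit 5) (nat_lit 14) (nat_lit 5) (nat_lit 13) (nat_lit 4) (nat_lit 308) (nat_lit 273) (nat_lit 199)))) (XT.nd (nat_lit 156) (nat_lit 0) (nat_lit 0) (XT.nd (nat_lit 78) (nat_lit 76) (nat_lit 0) (XT.lf (nat_lit 0) (nat_lit 18125181943) (nat_lit 152) (nat_lit 13523777160) (nat_lit 76) (nat_lit 34332297164) (nat_lit 12) (nat_lit 5) (nat_lit 14) (nat_lit 5) (nat_lit 13) (nat_lit 4) (nat_lit 309) (nat_lit 273) (nat_lit 198)) (XT.lf (nat_lit 0) (nat_lit 11793724453) (nat_lit 76) (nat_lit 18509030318) (nat_lit 152) (nat_lit 39780800495) (nat_lit 11) (nat_lit 5) (nat_lit 12) (nat_lit 5) (nat_lit 13) (nat_lit 4) (nat_lit 310) (nat_lit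 273) (nat_lit 197))) (XT.nd (nat_lit 78) (nat_lit 0) (nat_lit 0) (XT.lf (nat_lit 0) (nat_lit 39893786512) (nat_lit 76) (nat_lit 3923888529) (nat_lit 152) (nat_lit 30667317776) (nat_lit 11) (nat_lit 5) (nat_lit 12) (nat_lit 5) (nat_lit 13) (nat_lit 4) (nat_lit 311) (nat_lit 273) (nat_lit 196)) (XT.lf (nat_lit 0) (nat_lit 58692003688) (nat_lit 152) (nat_lit 9292598303) (nat_lit 0) (nat_lit 11231691717) (nat_lit 11) (nat_lit 5) (nat_lit 13) (nat_lit 4) (nat_lit 11) (nat_lit 4) (nat_lit 312) (nat_lit 273) (nat_lit 195))))) (XT.nd (nat_lit 312) (nat_lit 76) (nat_lit 0) (XT.nd (nat_lit 156) (nat_lit 76) (nat_lit 0) (XT.nd (nat_lit 78) (nat_lit 76) (nat_lit 0) (XT.lf (nat_lit 0) (nat_lit 18860883191) (nat_lit 76) (nat_lit 56445131828) (nat_lit 76) (nat_lit 8976109850) (nat_lit 10) (nat_lit 4) (nat_lit 11) (nat_lit 5) (nat_lit 11) (nat_lit 4) (nat_lit 313) (nat_lit 273) (nat_lit 194)) (XT.lf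 (nat_lit 0) (nat_lit 3575962661) (nat_lit 152) (nat_lit 40039084464) (nat_lit 76) (nat_lit 46111060152) (nat_lit 9) (nat_lit 5) (nat_lit 11) (nat_lit 5) (nat_lit 10) (nat_lit 4) (nat_lit 314) (nat_lit 273) (nat_lit 193))) (XT.nd (nat_lit 78) (nat_lit 76) (nat_lit 0) (XT.lf (nat_lit 0) (nat_lit 16641927114) (nat_lit 152) (nat_lit 12869345828) (nat_lit 76) (nat_lit 66076114197) (nat_lit 9) (nat_lit 5) (nat_lit 11) (nat_lit 5) (nat_lit 10) (nat_lit 4) (nat_lit 315) (nat_lit 273) (nat_lit 192)) (XT.lf (nat_lit 0) (nat_lit 17331865869) (nat_lit 76) (nat_lit 13833198737) (nat_lit 152) (nat_lit 70719556870) (nat_lit 8) (nat_lit 5) (nat_lit 9) (nat_lit 5) (nat_lit 10) (nat_lit 4) (nat_lit 316) (nat_lit 273) (nat_lit 191)))) (XT.nd (nat_lit 156) (nat_lit 76) (nat_lit 0) (XT.nd (nat_lit 78) (nat_lit 0) (nat_lit 0) (XT.lf (nat_lit 0) (nat_lit 47280714645) (nat_lit 152) (nat_lit 58069265664) (nat_lit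 0) (nat_lit 3301204804) (nat_lit 8) (nat_lit 5) (nat_lit 10) (nat_lit 4) (nat_lit 8) (nat_lit 4) (nat_lit 317) (nat_lit 273) (nat_lit 190)) (XT.lf (nat_lit 0) (nat_lit 65040399609) (nat_lit 152) (nat_lit 29834893834) (nat_lit 0) (nat_lit 21055400985) (nat_lit 8) (nat_lit 5) (nat_lit 10) (nat_lit 4) (nat_lit 8) (nat_lit 4) (nat_lit 318) (nat_lit 273) (nat_lit 189))) (XT.nd (nat_lit 78) (nat_lit 0) (nat_lit 0) (XT.lf (nat_lit 0) (nat_lit 684610426) (nat_lit 76) (nat_lit 83548527782) (nat_lit 76) (nat_lit 39558446952) (nat_lit 7) (nat_lit 4) (nat_lit 8) (nat_lit 5) (nat_lit 8) (nat_lit 4) (nat_lit 319) (nat_lit 273) (nat_lit 188)) (XT.lf (nat_lit 0) (nat_lit 35334746670) (nat_lit 76) (nat_lit 70438227768) (nat_lit 76) (nat_lit 26443441192) (nat_lit 7) (nat_lit 4) (nat_lit 8) (nat_lit 5) (nat_lit 8) (nat_lit 4) (nat_lit 320) (nat_lit 273) (nat_lit 187))))))))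
noncomputable def xc72 : XT := (XT.nd (nat_lit 2418) (nat_lit 76) (nat_lit 0) (XT.nd (nat_lit 1170) (nat_lit 152) (nat_lit 0) (XT.nd (nat_lit 546) (nat_lit 76) (nat_lit 0) (XT.nd (nat_lit 234) (nat_lit 76) (nat_lit 0) (XT.nd (nat_lit 78) (nat_lit 76) (nat_lit 0) (XT.lf (nat_lit 0) (nat_lit 72749796401) (nat_lit 76) (nat_lit 56282441602) (nat_lit 76) (nat_lit 12283297854) (nat_lit 7) (nat_lit 4) (nat_lit 8) (nat_lit 5) (nat_lit 8) (nat_lit 4) (nat_lit 321) (nat_lit 273) (nat_lit 186)) (XT.nd (nat_lit 78) (nat_lit 0) (nat_lit 0) (XT.lf (nat_lit 0) (nat_lit 2855527978) (nat_lit 152) (nat_lit 38063679971) (nat_lit 76) (nat_lit 110217875258) (nat_lit 6) (nat_lit 5) (nat_lit 8) (nat_lit 5) (nat_lit 7) (nat_lit 4) (nat_lit 322) (nat_lit 273) (nat_lit 185)) (XT.lf (nat_lit 0) (nat_lit 18538533727) (nat_lit 152) (nat_lit 5446763588) (nat_lit 76) (nat_lit 137733800046) (nat_lit 6) (nat_lit 5)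 (nat_lit 8) (nat_lit 5) (nat_lit 7) (nat_lit 4) (nat_lit 323) (nat_lit 273) (nat_lit 184)))) (XT.nd (nat_lit 156) (nat_lit 0) (nat_lit 0) (XT.nd (nat_lit 78) (nat_lit 0) (nat_lit 0) (XT.lf (nat_lit 0) (nat_lit 31341539470) (nat_lit 76) (nat_lit 4885341334) (nat_lit 152) (nat_lit 136860737650) (nat_lit 5) (nat_lit 5) (nat_lit 6) (nat_lit 5) (nat_lit 7) (nat_lit 4) (nat_lit 324) (nat_lit 273) (nat_lit 183)) (XT.lf (nat_lit 0) (nat_lit 55858660905) (nat_lit 152) (nat_lit 114359342367) (nat_lit 0) (nat_lit 15105350483) (nat_lit 5) (nat_lit 5) (nat_lit 7) (nat_lit 4) (nat_lit 5) (nat_lit 4) (nat_lit 325) (nat_lit 273) (nat_lit 182))) (XT.nd (nat_lit 78) (nat_lit 0) (nat_lit 0) (XT.lf (nat_lit 0) (nat_lit 77185063129) (nat_lit 152) (nat_lit 84913953036) (nat_lit 0) (nat_lit 36429006949) (nat_lit 5) (nat_lit 5) (nat_lit 7) (nat_lit 4) (nat_lit 5) (nat_lit 4) (nat_lit 326) (nat_lit 273) (nat_lit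 181)) (XT.lf (nat_lit 0) (nat_lit 100214973579) (nat_lit 152) (nat_lit 53117927219) (nat_lit 0) (nat_lit 59456375031) (nat_lit 5) (nat_lit 5) (nat_lit 7) (nat_lit 4) (nat_lit 5) (nat_lit 4) (nat_lit 327) (nat_lit 273) (nat_lit 180))))) (XT.nd (nat_lit 312) (nat_lit 0) (nat_lit 0) (XT.nd (nat_lit 156) (nat_lit 0) (nat_lit 0) (XT.nd (nat_lit 78) (nat_lit 76) (nat_lit 0) (XT.lf (nat_lit 0) (nat_lit 125084865799) (nat_lit 152) (nat_lit 18782844022) (nat_lit 0) (nat_lit 84323913206) (nat_lit 5) (nat_lit 5) (nat_lit 7) (nat_lit 4) (nat_lit 5) (nat_lit 4) (nat_lit 328) (nat_lit 273) (nat_lit 179)) (XT.lf (nat_lit 0) (nat_lit 19258133549) (nat_lit 76) (nat_lit 133147141953) (nat_lit 76) (nat_lit 92384009689) (nat_lit 4) (nat_lit 4) (nat_lit 5) (nat_lit 5) (nat_lit 5) (nat_lit 4) (nat_lit 329) (nat_lit 273) (nat_lit 178))) (XT.nd (nat_lit 78) (nat_lit 0) (nat_lit 0) (XT.lf (nat_lit 0) (nat_lit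 61406412601) (nat_lit 76) (nat_lit 121016294144) (nat_lit 76) (nat_lit 80251143666) (nat_lit 4) (nat_lit 4) (nat_lit 5) (nat_lit 5) (nat_lit 5) (nat_lit 4) (nat_lit 330) (nat_lit 273) (nat_lit 177)) (XT.lf (nat_lit 0) (nat_lit 106922689433) (nat_lit 76) (nat_lit 107916836131) (nat_lit 76) (nat_lit 67149816936) (nat_lit 4) (nat_lit 4) (nat_lit 5) (nat_lit 5) (nat_lit 5) (nat_lit 4) (nat_lit 331) (nat_lit 273) (nat_lit 176)))) (XT.nd (nat_lit 156) (nat_lit 0) (nat_lit 0) (XT.nd (nat_lit 78) (nat_lit 0) (nat_lit 0) (XT.lf (nat_lit 0) (nat_lit 156076690129) (nat_lit 76) (nat_lit 93771141495) (nat_lit 76) (nat_lit 53002392007) (nat_lit 4) (nat_lit 4) (nat_lit 5) (nat_lit 5) (nat_lit 5) (nat_lit 4) (nat_lit 332) (nat_lit 273) (nat_lit 175)) (XT.lf (nat_lit 0) (nat_lit 209159697657) (nat_lit 76) (nat_lit 78495383898) (nat_lit 76) (nat_lit 37725032287) (nat_lit 4) (nat_lit 4) (nat_lit 5) (nat_lit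 5) (nat_lit 5) (nat_lit 4) (nat_lit 333) (nat_lit 273) (nat_lit 174))) (XT.nd (nat_lit 78) (nat_lit 0) (nat_lit 0) (XT.lf (nat_lit 0) (nat_lit 266486277987) (nat_lit 76) (nat_lit 61999040332) (nat_lit 76) (nat_lit 21227205273) (nat_lit 4) (nat_lit 4) (nat_lit 5) (nat_lit 5) (nat_lit 5) (nat_lit 4) (nat_lit 334) (nat_lit 273) (nat_lit 173)) (XT.lf (nat_lit 0) (nat_lit 328396144187) (nat_lit 76) (nat_lit 44184354687) (nat_lit 76) (nat_lit 3411146066) (nat_lit 4) (nat_lit 4) (nat_lit 5) (nat_lit 5) (nat_lit 5) (nat_lit 4) (nat_lit 335) (nat_lit 273) (nat_lit 172)))))) (XT.nd (nat_lit 624) (nat_lit 0) (nat_lit 0) (XT.nd (nat_lit 312) (nat_lit 0) (nat_lit 0) (XT.nd (nat_lit 156) (nat_lit 0) (nat_lit 0) (XT.nd (nat_lit 78) (nat_lit 76) (nat_lit 0) (XT.lf (nat_lit 0) (nat_lit 15036905201) (nat_lit 152) (nat_lit 9497717618) (nat_lit 76) (nat_lit 379808128701) (nat_lit 3) (nat_lit 5) (nat_lit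 5) (nat_lit 5) (nat_lit 4) (nat_lit 4) (nat_lit 336) (nat_lit 273) (nat_lit 171)) (XT.lf (nat_lit 0) (nat_lit 33218506902) (nat_lit 76) (nat_lit 2355610861) (nat_lit 152) (nat_lit 399316932794) (nat_lit 2) (nat_lit 5) (nat_lit 3) (nat_lit 5) (nat_lit 4) (nat_lit 4) (nat_lit 337) (nat_lit 273) (nat_lit 170))) (XT.nd (nat_lit 78) (nat_lit 0) (nat_lit 0) (XT.lf (nat_lit 0) (nat_lit 58538873415) (nat_lit 152) (nat_lit 388498950534) (nat_lit 0) (nat_lit 20782624873) (nat_lit 2) (nat_lit 5) (nat_lit 4) (nat_lit 4) (nat_lit 2) (nat_lit 4) (nat_lit 338) (nat_lit 273) (nat_lit 169)) (XT.lf (nat_lit 0) (nat_lit 83400800575) (nat_lit 152) (nat_lit 374334982427) (nat_lit 0) (nat_lit 45643617210) (nat_lit 2) (nat_lit 5) (nat_lit 4) (nat_lit 4) (nat_lit 2) (nat_lit 4) (nat_lit 339) (nat_lit 273) (nat_lit 168)))) (XT.nd (nat_lit 156) (nat_lit 0) (nat_lit 0) (XT.nd (nat_lit 78) (nat_lit 0) (nat_lit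 0) (XT.lf (nat_lit 0) (nat_lit 110250576684) (nat_lit 152) (nat_lit 359040052212) (nat_lit 0) (nat_lit 72492527742) (nat_lit 2) (nat_lit 5) (nat_lit 4) (nat_lit 4) (nat_lit 2) (nat_lit 4) (nat_lit 340) (nat_lit 273) (nat_lit 167)) (XT.lf (nat_lit 0) (nat_lit 139247311528) (nat_lit 152) (nat_lit 342523523265) (nat_lit 0) (nat_lit 101488461125) (nat_lit 2) (nat_lit 5) (nat_lit 4) (nat_lit 4) (nat_lit 2) (nat_lit 4) (nat_lit 341) (nat_lit 273) (nat_lit 166))) (XT.nd (nat_lit 78) (nat_lit 0) (nat_lit 0) (XT.lf (nat_lit 0) (nat_lit 170562837608) (nat_lit 152) (nat_lit 324687519858) (nat_lit 0) (nat_lit 132803245113) (nat_lit 2) (nat_lit 5) (nat_lit 4) (nat_lit 4) (nat_lit 2) (nat_lit 4) (nat_lit 342) (nat_lit 273) (nat_lit 165)) (XT.lf (nat_lit 0) (nat_lit 204382728414) (nat_lit 152) (nat_lit 305426347157) (nat_lit 0) (nat_lit 166622448795) (nat_lit 2) (nat_lit 5) (nat_lit 4) (nat_lit 4)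 (nat_lit 2) (nat_lit 4) (nat_lit 343) (nat_lit 273) (nat_lit 164))))) (XT.nd (nat_lit 312) (nat_lit 0) (nat_lit 0) (XT.nd (nat_lit 156) (nat_lit 0) (nat_lit 0) (XT.nd (nat_lit 78) (nat_lit 0) (nat_lit 0) (XT.lf (nat_lit 0) (nat_lit 240907398112) (nat_lit 152) (nat_lit 284625864879) (nat_lit 0) (nat_lit 203146482268) (nat_lit 2) (nat_lit 5) (nat_lit 4) (nat_lit 4) (nat_lit 2) (nat_lit 4) (nat_lit 344) (nat_lit 273) (nat_lit 163)) (XT.lf (nat_lit 0) (nat_lit 280353289189) (nat_lit 152) (nat_lit 262162810906) (nat_lit 0) (nat_lit 242591784247) (nat_lit 2) (nat_lit 5) (nat_lit 4) (nat_lit 4) (nat_lit 2) (nat_lit 4) (nat_lit 345) (nat_lit 273) (nat_lit 162))) (XT.nd (nat_lit 78) (nat_lit 0) (nat_lit 0) (XT.lf (nat_lit 0) (nat_lit 322954155074) (nat_lit 152) (nat_lit 237904070845) (nat_lit 0) (nat_lit 285192104672) (nat_lit 2) (nat_lit 5) (nat_lit 4) (nat_lit 4) (nat_lit 2) (nat_lit 4) (nat_lit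 346) (nat_lit 273) (nat_lit 161)) (XT.lf (nat_lit 0) (nat_lit 368962445343) (nat_lit 152) (nat_lit 211705889200) (nat_lit 0) (nat_lit 331199889885) (nat_lit 2) (nat_lit 5) (nat_lit 4) (nat_lit 4) (nat_lit 2) (nat_lit 4) (nat_lit 347) (nat_lit 273) (nat_lit 160)))) (XT.nd (nat_lit 156) (nat_lit 0) (nat_lit 0) (XT.nd (nat_lit 78) (nat_lit 0) (nat_lit 0) (XT.lf (nat_lit 0) (nat_lit 418650801717) (nat_lit 152) (nat_lit 183413017485) (nat_lit 0) (nat_lit 380887778614) (nat_lit 2) (nat_lit 5) (nat_lit 4) (nat_lit 4) (nat_lit 2) (nat_lit 4) (nat_lit 348) (nat_lit 273) (nat_lit 159)) (XT.lf (nat_lit 0) (nat_lit 472313673713) (nat_lit 152) (nat_lit 152857794240) (nat_lit 0) (nat_lit 434550217606) (nat_lit 2) (nat_lit 5) (nat_lit 4) (nat_lit 4) (nat_lit 2) (nat_lit 4) (nat_lit 349) (nat_lit 273) (nat_lit 158))) (XT.nd (nat_lit 78) (nat_lit 0) (nat_lit 0) (XT.lf (nat_lit 0) (nat_lit 530269063537)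 (nat_lit 152) (nat_lit 119859151475) (nat_lit 0) (nat_lit 492505206500) (nat_lit 2) (nat_lit 5) (nat_lit 4) (nat_lit 4) (nat_lit 2) (nat_lit 4) (nat_lit 350) (nat_lit 273) (nat_lit 157)) (XT.lf (nat_lit 0) (nat_lit 592860410535) (nat_lit 152) (nat_lit 84221541677) (nat_lit 0) (nat_lit 555096182267) (nat_lit 2) (nat_lit 5) (nat_lit 4) (nat_lit 4) (nat_lit 2) (nat_lit 4) (nat_lit 351) (nat_lit 273) (nat_lit 156))))))) (XT.nd (nat_lit 1248) (nat_lit 0) (nat_lit 0) (XT.nd (nat_lit 624) (nat_lit 0) (nat_lit 0) (XT.nd (nat_lit 312) (nat_lit 0) (nat_lit 0) (XT.nd (nat_lit 156) (nat_lit 76) (nat_lit 0) (XT.nd (nat_lit 78) (nat_lit 0) (nat_lit 0) (XT.lf (nat_lit 0) (nat_lit 660458626394) (nat_lit 152) (nat_lit 45733779010) (nat_lit 0) (nat_lit 622694054394) (nat_lit 2) (nat_lit 5) (nat_lit 4) (nat_lit 4) (nat_lit 2) (nat_lit 4) (nat_lit 352) (nat_lit 273) (nat_lit 155)) (XT.lf (nat_lit 0) (nat_lit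 733464293134) (nat_lit 152) (nat_lit 4167787844) (nat_lit 0) (nat_lit 695699402862) (nat_lit 2) (nat_lit 5) (nat_lit 4) (nat_lit 4) (nat_lit 2) (nat_lit 4) (nat_lit 353) (nat_lit 273) (nat_lit 154))) (XT.nd (nat_lit 78) (nat_lit 0) (nat_lit 0) (XT.lf (nat_lit 0) (nat_lit 42867136591) (nat_lit 76) (nat_lit 770473856001) (nat_lit 76) (nat_lit 732708671035) (nat_lit 1) (nat_lit 4) (nat_lit 2) (nat_lit 5) (nat_lit 2) (nat_lit 4) (nat_lit 354) (nat_lit 273) (nat_lit 153)) (XT.lf (nat_lit 0) (nat_lit 93901165538) (nat_lit 76) (nat_lit 805820251563) (nat_lit 76) (nat_lit 768054793730) (nat_lit 1) (nat_lit 4) (nat_lit 2) (nat_lit 5) (nat_lit 2) (nat_lit 4) (nat_lit 355) (nat_lit 273) (nat_lit 152)))) (XT.nd (nat_lit 156) (nat_lit 0) (nat_lit 0) (XT.nd (nat_lit 78) (nat_lit 0) (nat_lit 0) (XT.lf (nat_lit 0) (nat_lit 149017254548) (nat_lit 76) (nat_lit 843994682489) (nat_lit 76) (nat_lit 806228972003)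 (nat_lit 1) (nat_lit 4) (nat_lit 2) (nat_lit 5) (nat_lit 2) (nat_lit 4) (nat_lit 356) (nat_lit 273) (nat_lit 151)) (XT.lf (nat_lit 0) (nat_lit 208542017484) (nat_lit 76) (nat_lit 885223367631) (nat_lit 76) (nat_lit 847457423206) (nat_lit 1) (nat_lit 4) (nat_lit 2) (nat_lit 5) (nat_lit 2) (nat_lit 4) (nat_lit 357) (nat_lit 273) (nat_lit 150))) (XT.nd (nat_lit 78) (nat_lit 0) (nat_lit 0) (XT.lf (nat_lit 0) (nat_lit 272828193680) (nat_lit 76) (nat_lit 929750625123) (nat_lit 76) (nat_lit 891984464087) (nat_lit 1) (nat_lit 4) (nat_lit 2) (nat_lit 5) (nat_lit 2) (nat_lit 4) (nat_lit 358) (nat_lit 273) (nat_lit 149)) (XT.lf (nat_lit 0) (nat_lit 342256738255) (nat_lit 76) (nat_lit 977840320193) (nat_lit 76) (nat_lit 940073958593) (nat_lit 1) (nat_lit 4) (nat_lit 2) (nat_lit 5) (nat_lit 2) (nat_lit 4) (nat_lit 359) (nat_lit 273) (nat_lit 148))))) (XT.nd (nat_lit 312) (nat_lit 0) (nat_lit 0) (XT.nd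 (nat_lit 156) (nat_lit 0) (nat_lit 0) (XT.nd (nat_lit 78) (nat_lit 0) (nat_lit 0) (XT.lf (nat_lit 0) (nat_lit 417239079622) (nat_lit 76) (nat_lit 1029777428813) (nat_lit 76) (nat_lit 992010881505) (nat_lit 1) (nat_lit 4) (nat_lit 2) (nat_lit 5) (nat_lit 2) (nat_lit 4) (nat_lit 360) (nat_lit 273) (nat_lit 147)) (XT.lf (nat_lit 0) (nat_lit 498219557581) (nat_lit 76) (nat_lit 1085869726441) (nat_lit 76) (nat_lit 1048103007181) (nat_lit 1) (nat_lit 4) (nat_lit 2) (nat_lit 5) (nat_lit 2) (nat_lit 4) (nat_lit 361) (nat_lit 273) (nat_lit 146))) (XT.nd (nat_lit 78) (nat_lit 0) (nat_lit 0) (XT.lf (nat_lit 0) (nat_lit 585678056445) (nat_lit 76) (nat_lit 1146449611878) (nat_lit 76) (nat_lit 1108682733403) (nat_lit 1) (nat_lit 4) (nat_lit 2) (nat_lit 5) (nat_lit 2) (nat_lit 4) (nat_lit 362) (nat_lit 273) (nat_lit 145)) (XT.lf (nat_lit 0) (nat_lit 680132848801) (nat_lit 76) (nat_lit 1211876077038)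 (nat_lit 76) (nat_lit 1174109051142) (nat_lit 1) (nat_lit 4) (nat_lit 2) (nat_lit 5) (nat_lit 2) (nat_lit 4) (nat_lit 363) (nat_lit 273) (nat_lit 144)))) (XT.nd (nat_lit 156) (nat_lit 0) (nat_lit 0) (XT.nd (nat_lit 78) (nat_lit 0) (nat_lit 0) (XT.lf (nat_lit 0) (nat_lit 782143666752) (nat_lit 76) (nat_lit 1282536834307) (nat_lit 76) (nat_lit 1244769671910) (nat_lit 1) (nat_lit 4) (nat_lit 2) (nat_lit 5) (nat_lit 2) (nat_lit 4) (nat_lit 364) (nat_lit 273) (nat_lit 143)) (XT.lf (nat_lit 0) (nat_lit 892315018848) (nat_lit 76) (nat_lit 1358850614098) (nat_lit 76) (nat_lit 1321083325311) (nat_lit 1) (nat_lit 4) (nat_lit 2) (nat_lit 5) (nat_lit 2) (nat_lit 4) (nat_lit 365) (nat_lit 273) (nat_lit 142))) (XT.nd (nat_lit 78) (nat_lit 0) (nat_lit 0) (XT.lf (nat_lit 0) (nat_lit 1011299772361) (nat_lit 76) (nat_lit 1441269646217) (nat_lit 76) (nat_lit 1403502240403) (nat_lit 1) (nat_lit 4) (nat_lit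 2) (nat_lit 5) (nat_lit 2) (nat_lit 4) (nat_lit 366) (nat_lit 273) (nat_lit 141)) (XT.lf (nat_lit 0) (nat_lit 1139803022127) (nat_lit 76) (nat_lit 1530282339744) (nat_lit 76) (nat_lit 1492514825572) (nat_lit 1) (nat_lit 4) (nat_lit 2) (nat_lit 5) (nat_lit 2) (nat_lit 4) (nat_lit 367) (nat_lit 273) (nat_lit 140)))))) (XT.nd (nat_lit 33852) (nat_lit 0) (nat_lit 2356) (XT.nd (nat_lit 33540) (nat_lit 0) (nat_lit 3420) (XT.nd (nat_lit 33384) (nat_lit 0) (nat_lit 3344) (XT.nd (nat_lit 33306) (nat_lit 0) (nat_lit 3344) (XT.lf (nat_lit 0) (nat_lit 1278586268885) (nat_lit 76) (nat_lit 1626416177308) (nat_lit 76) (nat_lit 1588648562802) (nat_lit 1) (nat_lit 4) (nat_lit 2) (nat_lit 5) (nat_lit 2) (nat_lit 4) (nat_lit 368) (nat_lit 273) (nat_lit 139)) (XT.lf (nat_lit 0) (nat_lit 2038169690) (nat_lit 532) (nat_lit 2055097714) (nat_lit 532) (nat_lit 2055097714) (nat_lit 45) (nat_lit 3) (nat_lit 52)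 (nat_lit 3) (nat_lit 52) (nat_lit 5) (nat_lit 274) (nat_lit 274) (nat_lit 232))) (XT.nd (nat_lit 78) (nat_lit 0) (nat_lit 76) (XT.lf (nat_lit 76) (nat_lit 1621800810) (nat_lit 0) (nat_lit 3072996643) (nat_lit 532) (nat_lit 8056171447) (nat_lit 46) (nat_lit 5) (nat_lit 45) (nat_lit 3) (nat_lit 52) (nat_lit 5) (nat_lit 275) (nat_lit 274) (nat_lit 231)) (XT.lf (nat_lit 0) (nat_lit 5495158212) (nat_lit 456) (nat_lit 5275968655) (nat_lit 532) (nat_lit 2459945581) (nat_lit 46) (nat_lit 5) (nat_lit 52) (nat_lit 5) (nat_lit 53) (nat_lit 5) (nat_lit 276) (nat_lit 274) (nat_lit 230)))) (XT.nd (nat_lit 156) (nat_lit 0) (nat_lit 76) (XT.nd (nat_lit 78) (nat_lit 0) (nat_lit 76) (XT.lf (nat_lit 76) (nat_lit 989532862) (nat_lit 0) (nat_lit 5434940168) (nat_lit 532) (nat_lit 7320028233) (nat_lit 47) (nat_lit 5) (nat_lit 46) (nat_lit 5) (nat_lit 53) (nat_lit 5) (nat_lit 277) (nat_lit 274) (nat_lit 229))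 (XT.lf (nat_lit 0) (nat_lit 7547875035) (nat_lit 456) (nat_lit 6271058366) (nat_lit 532) (nat_lit 470594394) (nat_lit 47) (nat_lit 5) (nat_lit 53) (nat_lit 5) (nat_lit 54) (nat_lit 5) (nat_lit 278) (nat_lit 274) (nat_lit 228))) (XT.nd (nat_lit 78) (nat_lit 0) (nat_lit 0) (XT.lf (nat_lit 76) (nat_lit 593923223) (nat_lit 0) (nat_lit 8289203968) (nat_lit 532) (nat_lit 5985366184) (nat_lit 48) (nat_lit 5) (nat_lit 47) (nat_lit 5) (nat_lit 54) (nat_lit 5) (nat_lit 279) (nat_lit 274) (nat_lit 227)) (XT.lf (nat_lit 76) (nat_lit 8339222466) (nat_lit 0) (nat_lit 2125831446) (nat_lit 532) (nat_lit 5017622048) (nat_lit 48) (nat_lit 5) (nat_lit 47) (nat_lit 5) (nat_lit 54) (nat_lit 5) (nat_lit 280) (nat_lit 274) (nat_lit 226))))) (XT.nd (nat_lit 312) (nat_lit 456) (nat_lit 0) (XT.nd (nat_lit 156) (nat_lit 304) (nat_lit 0) (XT.nd (nat_lit 78) (nat_lit 0) (nat_lit 0) (XT.lf (nat_lit 0) (nat_lit 445276276)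 (nat_lit 456) (nat_lit 11818798063) (nat_lit 532) (nat_lit 3874757233) (nat_lit 42) (nat_lit 5) (nat_lit 48) (nat_lit 5) (nat_lit 49) (nat_lit 5) (nat_lit 281) (nat_lit 274) (nat_lit 225)) (XT.lf (nat_lit 0) (nat_lit 8963708545) (nat_lit 456) (nat_lit 5464854329) (nat_lit 532) (nat_lit 2401268586) (nat_lit 42) (nat_lit 5) (nat_lit 48) (nat_lit 5) (nat_lit 49) (nat_lit 5) (nat_lit 282) (nat_lit 274) (nat_lit 224))) (XT.nd (nat_lit 78) (nat_lit 76) (nat_lit 0) (XT.lf (nat_lit 0) (nat_lit 555910469) (nat_lit 228) (nat_lit 16231779921) (nat_lit 304) (nat_lit 786772502) (nat_lit 39) (nat_lit 5) (nat_lit 42) (nat_lit 5) (nat_lit 43) (nat_lit 5) (nat_lit 283) (nat_lit 274) (nat_lit 223)) (XT.lf (nat_lit 0) (nat_lit 1246716638) (nat_lit 304) (nat_lit 8459455881) (nat_lit 76) (nat_lit 8643695198) (nat_lit 38) (nat_lit 5) (nat_lit 42) (nat_lit 5) (nat_lit 39) (nat_lit 5) (nat_lit 284) (nat_lit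 274) (nat_lit 222)))) (XT.nd (nat_lit 156) (nat_lit 228) (nat_lit 0) (XT.nd (nat_lit 78) (nat_lit 0) (nat_lit 0) (XT.lf (nat_lit 0) (nat_lit 778318115) (nat_lit 228) (nat_lit 2617720146) (nat_lit 304) (nat_lit 15790034582) (nat_lit 35) (nat_lit 5) (nat_lit 38) (nat_lit 5) (nat_lit 39) (nat_lit 5) (nat_lit 285) (nat_lit 274) (nat_lit 221)) (XT.lf (nat_lit 0) (nat_lit 6053794664) (nat_lit 304) (nat_lit 8987312129) (nat_lit 76) (nat_lit 5021199874) (nat_lit 35) (nat_lit 5) (nat_lit 39) (nat_lit 5) (nat_lit 36) (nat_lit 5) (nat_lit 286) (nat_lit 274) (nat_lit 220))) (XT.nd (nat_lit 78) (nat_lit 0) (nat_lit 0) (XT.lf (nat_lit 0) (nat_lit 1152650873) (nat_lit 228) (nat_lit 7846887882) (nat_lit 304) (nat_lit 12003118674) (nat_lit 32) (nat_lit 5) (nat_lit 35) (nat_lit 5) (nat_lit 36) (nat_lit 5) (nat_lit 287) (nat_lit 274) (nat_lit 219)) (XT.lf (nat_lit 0) (nat_lit 12411710834) (nat_lit 304)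 (nat_lit 9412863476) (nat_lit 76) (nat_lit 175244543) (nat_lit 32) (nat_lit 5) (nat_lit 36) (nat_lit 5) (nat_lit 33) (nat_lit 5) (nat_lit 288) (nat_lit 274) (nat_lit 218))))))))
noncomputable def xc73 : XT := (XT.nd (nat_lit 2418) (nat_lit 456) (nat_lit 0) (XT.nd (nat_lit 1170) (nat_lit 684) (nat_lit 0) (XT.nd (nat_lit 546) (nat_lit 456) (nat_lit 0) (XT.nd (nat_lit 234) (nat_lit 304) (nat_lit 0) (XT.nd (nat_lit 78) (nat_lit 228) (nat_lit 0) (XT.lf (nat_lit 0) (nat_lit 1718547729) (nat_lit 152) (nat_lit 14605410757) (nat_lit 228) (nat_lit 6734667373) (nat_lit 30) (nat_lit 5) (nat_lit 32) (nat_lit 5) (nat_lit 33) (nat_lit 5) (nat_lit 289) (nat_lit 274) (nat_lit 217)) (XT.nd (nat_lit 78) (nat_lit 228) (nat_lit 0) (XT.lf (nat_lit 0) (nat_lit 14253511601) (nat_lit 152) (nat_lit 6535794989) (nat_lit 228) (nat_lit 3393658974) (nat_lit 30) (nat_lit 5) (nat_lit 32) (nat_lit 5) (nat_lit 33) (nat_lit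 5) (nat_lit 290) (nat_lit 274) (nat_lit 216)) (XT.lf (nat_lit 0) (nat_lit 301393802) (nat_lit 228) (nat_lit 22955379454) (nat_lit 76) (nat_lit 2132298611) (nat_lit 27) (nat_lit 5) (nat_lit 30) (nat_lit 5) (nat_lit 28) (nat_lit 5) (nat_lit 291) (nat_lit 274) (nat_lit 215)))) (XT.nd (nat_lit 156) (nat_lit 152) (nat_lit 0) (XT.nd (nat_lit 78) (nat_lit 152) (nat_lit 0) (XT.lf (nat_lit 0) (nat_lit 4541176549) (nat_lit 228) (nat_lit 10606458820) (nat_lit 76) (nat_lit 11502411826) (nat_lit 27) (nat_lit 5) (nat_lit 30) (nat_lit 5) (nat_lit 28) (nat_lit 5) (nat_lit 292) (nat_lit 274) (nat_lit 214)) (XT.lf (nat_lit 0) (nat_lit 2852573632) (nat_lit 152) (nat_lit 6321515382) (nat_lit 228) (nat_lit 18833523543) (nat_lit 25) (nat_lit 5) (nat_lit 27) (nat_lit 5) (nat_lit 28) (nat_lit 5) (nat_lit 293) (nat_lit 274) (nat_lit 213))) (XT.nd (nat_lit 78) (nat_lit 152) (nat_lit 0) (XT.lf (nat_lit 0) (nat_lit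 14538188856) (nat_lit 228) (nat_lit 11564793008) (nat_lit 76) (nat_lit 3341982655) (nat_lit 25) (nat_lit 5) (nat_lit 28) (nat_lit 5) (nat_lit 26) (nat_lit 5) (nat_lit 294) (nat_lit 274) (nat_lit 212)) (XT.lf (nat_lit 0) (nat_lit 3083282824) (nat_lit 152) (nat_lit 17473338826) (nat_lit 228) (nat_lit 10422690405) (nat_lit 23) (nat_lit 5) (nat_lit 25) (nat_lit 5) (nat_lit 26) (nat_lit 5) (nat_lit 295) (nat_lit 274) (nat_lit 211))))) (XT.nd (nat_lit 312) (nat_lit 152) (nat_lit 0) (XT.nd (nat_lit 156) (nat_lit 152) (nat_lit 0) (XT.nd (nat_lit 78) (nat_lit 152) (nat_lit 0) (XT.lf (nat_lit 0) (nat_lit 19541963871) (nat_lit 152) (nat_lit 7818141913) (nat_lit 228) (nat_lit 5252037521) (nat_lit 23) (nat_lit 5) (nat_lit 25) (nat_lit 5) (nat_lit 26) (nat_lit 5) (nat_lit 296) (nat_lit 274) (nat_lit 210)) (XT.lf (nat_lit 0) (nat_lit 442178803) (nat_lit 152) (nat_lit 31365684755) (nat_lit 76) (nat_lit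 2556994511) (nat_lit 21) (nat_lit 5) (nat_lit 23) (nat_lit 5) (nat_lit 22) (nat_lit 5) (nat_lit 297) (nat_lit 274) (nat_lit 209))) (XT.nd (nat_lit 78) (nat_lit 152) (nat_lit 0) (XT.lf (nat_lit 0) (nat_lit 6866200423) (nat_lit 152) (nat_lit 15499103111) (nat_lit 76) (nat_lit 13836949507) (nat_lit 21) (nat_lit 5) (nat_lit 23) (nat_lit 5) (nat_lit 22) (nat_lit 5) (nat_lit 298) (nat_lit 274) (nat_lit 208)) (XT.lf (nat_lit 0) (nat_lit 1704943513) (nat_lit 152) (nat_lit 12129372538) (nat_lit 228) (nat_lit 24349925984) (nat_lit 19) (nat_lit 5) (nat_lit 21) (nat_lit 5) (nat_lit 22) (nat_lit 5) (nat_lit 299) (nat_lit 274) (nat_lit 207)))) (XT.nd (nat_lit 156) (nat_lit 152) (nat_lit 0) (XT.nd (nat_lit 78) (nat_lit 0) (nat_lit 0) (XT.lf (nat_lit 0) (nat_lit 21150046035) (nat_lit 152) (nat_lit 623176523) (nat_lit 228) (nat_lit 18518515267) (nat_lit 19) (nat_lit 5) (nat_lit 21) (nat_lit 5) (nat_lit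 22) (nat_lit 5) (nat_lit 300) (nat_lit 274) (nat_lit 206)) (XT.lf (nat_lit 0) (nat_lit 30621317841) (nat_lit 228) (nat_lit 717075358) (nat_lit 76) (nat_lit 11207527874) (nat_lit 19) (nat_lit 5) (nat_lit 22) (nat_lit 5) (nat_lit 20) (nat_lit 4) (nat_lit 301) (nat_lit 274) (nat_lit 205))) (XT.nd (nat_lit 78) (nat_lit 76) (nat_lit 0) (XT.lf (nat_lit 0) (nat_lit 20158820169) (nat_lit 76) (nat_lit 20510374340) (nat_lit 152) (nat_lit 4271902636) (nat_lit 18) (nat_lit 5) (nat_lit 19) (nat_lit 5) (nat_lit 20) (nat_lit 4) (nat_lit 302) (nat_lit 274) (nat_lit 204)) (XT.lf (nat_lit 0) (nat_lit 3804393367) (nat_lit 152) (nat_lit 4892328165) (nat_lit 76) (nat_lit 38822604149) (nat_lit 17) (nat_lit 5) (nat_lit 19) (nat_lit 5) (nat_lit 18) (nat_lit 5) (nat_lit 303) (nat_lit 274) (nat_lit 203)))))) (XT.nd (nat_lit 624) (nat_lit 228) (nat_lit 0) (XT.nd (nat_lit 312) (nat_lit 228) (nat_lit 0) (XT.nd (nat_lit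 156) (nat_lit 76) (nat_lit 0) (XT.nd (nat_lit 78) (nat_lit 0) (nat_lit 0) (XT.lf (nat_lit 0) (nat_lit 12815749797) (nat_lit 228) (nat_lit 33042635131) (nat_lit 76) (nat_lit 4394981068) (nat_lit 15) (nat_lit 5) (nat_lit 18) (nat_lit 5) (nat_lit 16) (nat_lit 4) (nat_lit 304) (nat_lit 274) (nat_lit 202)) (XT.lf (nat_lit 0) (nat_lit 22902976590) (nat_lit 228) (nat_lit 12078614749) (nat_lit 76) (nat_lit 18196150707) (nat_lit 15) (nat_lit 5) (nat_lit 18) (nat_lit 5) (nat_lit 16) (nat_lit 4) (nat_lit 305) (nat_lit 274) (nat_lit 201))) (XT.nd (nat_lit 78) (nat_lit 0) (nat_lit 0) (XT.lf (nat_lit 0) (nat_lit 11104999129) (nat_lit 76) (nat_lit 22951696448) (nat_lit 152) (nat_lit 22258620234) (nat_lit 14) (nat_lit 5) (nat_lit 15) (nat_lit 5) (nat_lit 16) (nat_lit 4) (nat_lit 306) (nat_lit 274) (nat_lit 200)) (XT.lf (nat_lit 0) (nat_lit 36817508733) (nat_lit 76) (nat_lit 9608146953) (nat_lit 152)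 (nat_lit 13252412411) (nat_lit 14) (nat_lit 5) (nat_lit 15) (nat_lit 5) (nat_lit 16) (nat_lit 4) (nat_lit 307) (nat_lit 274) (nat_lit 199)))) (XT.nd (nat_lit 156) (nat_lit 76) (nat_lit 0) (XT.nd (nat_lit 78) (nat_lit 76) (nat_lit 0) (XT.lf (nat_lit 0) (nat_lit 1209996511) (nat_lit 76) (nat_lit 58711859789) (nat_lit 76) (nat_lit 3376973878) (nat_lit 13) (nat_lit 4) (nat_lit 14) (nat_lit 5) (nat_lit 14) (nat_lit 4) (nat_lit 308) (nat_lit 274) (nat_lit 198)) (XT.lf (nat_lit 0) (nat_lit 7807903091) (nat_lit 152) (nat_lit 39106297350) (nat_lit 76) (nat_lit 20210315843) (nat_lit 12) (nat_lit 5) (nat_lit 14) (nat_lit 5) (nat_lit 13) (nat_lit 4) (nat_lit 309) (nat_lit 274) (nat_lit 197))) (XT.nd (nat_lit 78) (nat_lit 76) (nat_lit 0) (XT.lf (nat_lit 0) (nat_lit 19698790866) (nat_lit 152) (nat_lit 14384222878) (nat_lit 76) (nat_lit 37166739208) (nat_lit 12) (nat_lit 5) (nat_lit 14) (nat_lit 5)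 (nat_lit 13) (nat_lit 4) (nat_lit 310) (nat_lit 274) (nat_lit 196)) (XT.lf (nat_lit 0) (nat_lit 12953072372) (nat_lit 76) (nat_lit 19893533208) (nat_lit 152) (nat_lit 42833956020) (nat_lit 11) (nat_lit 5) (nat_lit 12) (nat_lit 5) (nat_lit 13) (nat_lit 4) (nat_lit 311) (nat_lit 274) (nat_lit 195))))) (XT.nd (nat_lit 312) (nat_lit 76) (nat_lit 0) (XT.nd (nat_lit 156) (nat_lit 152) (nat_lit 0) (XT.nd (nat_lit 78) (nat_lit 0) (nat_lit 0) (XT.lf (nat_lit 0) (nat_lit 43285150509) (nat_lit 76) (nat_lit 4148707448) (nat_lit 152) (nat_lit 33000973092) (nat_lit 11) (nat_lit 5) (nat_lit 12) (nat_lit 5) (nat_lit 13) (nat_lit 4) (nat_lit 312) (nat_lit 274) (nat_lit 194)) (XT.lf (nat_lit 0) (nat_lit 63491911743) (nat_lit 152) (nat_lit 9844636166) (nat_lit 0) (nat_lit 12208593177) (nat_lit 11) (nat_lit 5) (nat_lit 13) (nat_lit 4) (nat_lit 11) (nat_lit 4) (nat_lit 313) (nat_lit 274) (nat_lit 193)))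 (XT.nd (nat_lit 78) (nat_lit 76) (nat_lit 0) (XT.lf (nat_lit 0) (nat_lit 20556279036) (nat_lit 76) (nat_lit 60875506601) (nat_lit 76) (nat_lit 9584720607) (nat_lit 10) (nat_lit 4) (nat_lit 11) (nat_lit 5) (nat_lit 11) (nat_lit 4) (nat_lit 314) (nat_lit 274) (nat_lit 192)) (XT.lf (nat_lit 0) (nat_lit 3958337355) (nat_lit 152) (nat_lit 43064358578) (nat_lit 76) (nat_lit 49873722843) (nat_lit 9) (nat_lit 5) (nat_lit 11) (nat_lit 5) (nat_lit 10) (nat_lit 4) (nat_lit 315) (nat_lit 274) (nat_lit 191)))) (XT.nd (nat_lit 156) (nat_lit 0) (nat_lit 0) (XT.nd (nat_lit 78) (nat_lit 76) (nat_lit 0) (XT.lf (nat_lit 0) (nat_lit 18062445804) (nat_lit 152) (nat_lit 13734215122) (nat_lit 76) (nat_lit 71430516183) (nat_lit 9) (nat_lit 5) (nat_lit 11) (nat_lit 5) (nat_lit 10) (nat_lit 4) (nat_lit 316) (nat_lit 274) (nat_lit 190)) (XT.lf (nat_lit 0) (nat_lit 18878924439) (nat_lit 76) (nat_lit 14865765329)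 (nat_lit 152) (nat_lit 76283725011) (nat_lit 8) (nat_lit 5) (nat_lit 9) (nat_lit 5) (nat_lit 10) (nat_lit 4) (nat_lit 317) (nat_lit 274) (nat_lit 189))) (XT.nd (nat_lit 78) (nat_lit 0) (nat_lit 0) (XT.lf (nat_lit 0) (nat_lit 51144840190) (nat_lit 152) (nat_lit 62561377412) (nat_lit 0) (nat_lit 3630470688) (nat_lit 8) (nat_lit 5) (nat_lit 10) (nat_lit 4) (nat_lit 8) (nat_lit 4) (nat_lit 318) (nat_lit 274) (nat_lit 188)) (XT.lf (nat_lit 0) (nat_lit 70319250441) (nat_lit 152) (nat_lit 32079620984) (nat_lit 0) (nat_lit 22800175193) (nat_lit 8) (nat_lit 5) (nat_lit 10) (nat_lit 4) (nat_lit 8) (nat_lit 4) (nat_lit 319) (nat_lit 274) (nat_lit 187))))))) (XT.nd (nat_lit 1248) (nat_lit 152) (nat_lit 0) (XT.nd (nat_lit 624) (nat_lit 76) (nat_lit 0) (XT.nd (nat_lit 312) (nat_lit 76) (nat_lit 0) (XT.nd (nat_lit 156) (nat_lit 76) (nat_lit 0) (XT.nd (nat_lit 78) (nat_lit 0) (nat_lit 0) (XT.lf (nat_lit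 0) (nat_lit 877847050) (nat_lit 76) (nat_lit 90167289834) (nat_lit 76) (nat_lit 42643857414) (nat_lit 7) (nat_lit 4) (nat_lit 8) (nat_lit 5) (nat_lit 8) (nat_lit 4) (nat_lit 320) (nat_lit 274) (nat_lit 186)) (XT.lf (nat_lit 0) (nat_lit 38289737321) (nat_lit 76) (nat_lit 76012989535) (nat_lit 76) (nat_lit 28485522696) (nat_lit 7) (nat_lit 4) (nat_lit 8) (nat_lit 5) (nat_lit 8) (nat_lit 4) (nat_lit 321) (nat_lit 274) (nat_lit 185))) (XT.nd (nat_lit 78) (nat_lit 76) (nat_lit 0) (XT.lf (nat_lit 0) (nat_lit 78688493925) (nat_lit 76) (nat_lit 60729206880) (nat_lit 76) (nat_lit 13198004468) (nat_lit 7) (nat_lit 4) (nat_lit 8) (nat_lit 5) (nat_lit 8) (nat_lit 4) (nat_lit 322) (nat_lit 274) (nat_lit 184)) (XT.lf (nat_lit 0) (nat_lit 3143745883) (nat_lit 152) (nat_lit 40995669839) (nat_lit 76) (nat_lit 119083815436) (nat_lit 6) (nat_lit 5) (nat_lit 8) (nat_lit 5) (nat_lit 7) (nat_lit 4) (nat_lit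 323) (nat_lit 274) (nat_lit 183)))) (XT.nd (nat_lit 156) (nat_lit 0) (nat_lit 0) (XT.nd (nat_lit 78) (nat_lit 76) (nat_lit 0) (XT.lf (nat_lit 0) (nat_lit 20076964264) (nat_lit 152) (nat_lit 5777778259) (nat_lit 76) (nat_lit 148797420863) (nat_lit 6) (nat_lit 5) (nat_lit 8) (nat_lit 5) (nat_lit 7) (nat_lit 4) (nat_lit 324) (nat_lit 274) (nat_lit 182)) (XT.lf (nat_lit 0) (nat_lit 33950937742) (nat_lit 76) (nat_lit 5227796435) (nat_lit 152) (nat_lit 147751566099) (nat_lit 5) (nat_lit 5) (nat_lit 6) (nat_lit 5) (nat_lit 7) (nat_lit 4) (nat_lit 325) (nat_lit 274) (nat_lit 181))) (XT.nd (nat_lit 78) (nat_lit 0) (nat_lit 0) (XT.lf (nat_lit 0) (nat_lit 60378155871) (nat_lit 152) (nat_lit 123410645852) (nat_lit 0) (nat_lit 16356327071) (nat_lit 5) (nat_lit 5) (nat_lit 7) (nat_lit 4) (nat_lit 5) (nat_lit 4) (nat_lit 326) (nat_lit 274) (nat_lit 180)) (XT.lf (nat_lit 0) (nat_lit 83406907155) (nat_lit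 152) (nat_lit 91616843441) (nat_lit 0) (nat_lit 39382724309) (nat_lit 5) (nat_lit 5) (nat_lit 7) (nat_lit 4) (nat_lit 5) (nat_lit 4) (nat_lit 327) (nat_lit 274) (nat_lit 179))))) (XT.nd (nat_lit 312) (nat_lit 0) (nat_lit 0) (XT.nd (nat_lit 156) (nat_lit 76) (nat_lit 0) (XT.nd (nat_lit 78) (nat_lit 0) (nat_lit 0) (XT.lf (nat_lit 0) (nat_lit 108275726072) (nat_lit 152) (nat_lit 57283818954) (nat_lit 0) (nat_lit 64249363556) (nat_lit 5) (nat_lit 5) (nat_lit 7) (nat_lit 4) (nat_lit 5) (nat_lit 4) (nat_lit 328) (nat_lit 274) (nat_lit 178)) (XT.lf (nat_lit 0) (nat_lit 135131983402) (nat_lit 152) (nat_lit 20208117431) (nat_lit 0) (nat_lit 91103602672) (nat_lit 5) (nat_lit 5) (nat_lit 7) (nat_lit 4) (nat_lit 5) (nat_lit 4) (nat_lit 329) (nat_lit 274) (nat_lit 177))) (XT.nd (nat_lit 78) (nat_lit 0) (nat_lit 0) (XT.lf (nat_lit 0) (nat_lit 20874180014) (nat_lit 76) (nat_lit 143762671854) (nat_lit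 76) (nat_lit 99732422407) (nat_lit 4) (nat_lit 4) (nat_lit 5) (nat_lit 5) (nat_lit 5) (nat_lit 4) (nat_lit 330) (nat_lit 274) (nat_lit 176)) (XT.lf (nat_lit 0) (nat_lit 66388736518) (nat_lit 76) (nat_lit 130664040772) (nat_lit 76) (nat_lit 86632061032) (nat_lit 4) (nat_lit 4) (nat_lit 5) (nat_lit 5) (nat_lit 5) (nat_lit 4) (nat_lit 331) (nat_lit 274) (nat_lit 175)))) (XT.nd (nat_lit 156) (nat_lit 0) (nat_lit 0) (XT.nd (nat_lit 78) (nat_lit 0) (nat_lit 0) (XT.lf (nat_lit 0) (nat_lit 115541144318) (nat_lit 76) (nat_lit 116519111814) (nat_lit 76) (nat_lit 72485529951) (nat_lit 4) (nat_lit 4) (nat_lit 5) (nat_lit 5) (nat_lit 5) (nat_lit 4) (nat_lit 332) (nat_lit 274) (nat_lit 174)) (XT.lf (nat_lit 0) (nat_lit 168622676942) (nat_lit 76) (nat_lit 101244063178) (nat_lit 76) (nat_lit 57208997867) (nat_lit 4) (nat_lit 4) (nat_lit 5) (nat_lit 5) (nat_lit 5) (nat_lit 4) (nat_lit 333) (nat_lit 274)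 (nat_lit 173))) (XT.nd (nat_lit 78) (nat_lit 0) (nat_lit 0) (XT.lf (nat_lit 0) (nat_lit 225947891620) (nat_lit 76) (nat_lit 84748376057) (nat_lit 76) (nat_lit 40711937184) (nat_lit 4) (nat_lit 4) (nat_lit 5) (nat_lit 5) (nat_lit 5) (nat_lit 4) (nat_lit 334) (nat_lit 274) (nat_lit 172)) (XT.lf (nat_lit 0) (nat_lit 287856493328) (nat_lit 76) (nat_lit 66934298232) (nat_lit 76) (nat_lit 22896587542) (nat_lit 4) (nat_lit 4) (nat_lit 5) (nat_lit 5) (nat_lit 5) (nat_lit 4) (nat_lit 335) (nat_lit 274) (nat_lit 171)))))) (XT.nd (nat_lit 624) (nat_lit 0) (nat_lit 0) (XT.nd (nat_lit 312) (nat_lit 0) (nat_lit 0) (XT.nd (nat_lit 156) (nat_lit 76) (nat_lit 0) (XT.nd (nat_lit 78) (nat_lit 76) (nat_lit 0) (XT.lf (nat_lit 0) (nat_lit 354715347853) (nat_lit 76) (nat_lit 47696264797) (nat_lit 76) (nat_lit 3657376498) (nat_lit 4) (nat_lit 4) (nat_lit 5) (nat_lit 5) (nat_lit 5) (nat_lit 4) (nat_lit 336)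 (nat_lit 274) (nat_lit 170)) (XT.lf (nat_lit 0) (nat_lit 16263309052) (nat_lit 152) (nat_lit 10212295848) (nat_lit 76) (nat_lit 410212679074) (nat_lit 3) (nat_lit 5) (nat_lit 5) (nat_lit 5) (nat_lit 4) (nat_lit 4) (nat_lit 337) (nat_lit 274) (nat_lit 169))) (XT.nd (nat_lit 78) (nat_lit 0) (nat_lit 0) (XT.lf (nat_lit 0) (nat_lit 35920081338) (nat_lit 76) (nat_lit 2522740596) (nat_lit 152) (nat_lit 431237679989) (nat_lit 2) (nat_lit 5) (nat_lit 3) (nat_lit 5) (nat_lit 4) (nat_lit 4) (nat_lit 338) (nat_lit 274) (nat_lit 168)) (XT.lf (nat_lit 0) (nat_lit 63243545765) (nat_lit 152) (nat_lit 419536816728) (nat_lit 0) (nat_lit 22463987331) (nat_lit 2) (nat_lit 5) (nat_lit 4) (nat_lit 4) (nat_lit 2) (nat_lit 4) (nat_lit 339) (nat_lit 274) (nat_lit 167)))) (XT.nd (nat_lit 156) (nat_lit 0) (nat_lit 0) (XT.nd (nat_lit 78) (nat_lit 0) (nat_lit 0) (XT.lf (nat_lit 0) (nat_lit 90092829877) (nat_lit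 152) (nat_lit 404242845977) (nat_lit 0) (nat_lit 49312469982) (nat_lit 2) (nat_lit 5) (nat_lit 4) (nat_lit 4) (nat_lit 2) (nat_lit 4) (nat_lit 340) (nat_lit 274) (nat_lit 166)) (XT.lf (nat_lit 0) (nat_lit 119089109168) (nat_lit 152) (nat_lit 387727205422) (nat_lit 0) (nat_lit 78308007180) (nat_lit 2) (nat_lit 5) (nat_lit 4) (nat_lit 4) (nat_lit 2) (nat_lit 4) (nat_lit 341) (nat_lit 274) (nat_lit 165))) (XT.nd (nat_lit 78) (nat_lit 0) (nat_lit 0) (XT.lf (nat_lit 0) (nat_lit 150404213440) (nat_lit 152) (nat_lit 369892024600) (nat_lit 0) (nat_lit 109622424329) (nat_lit 2) (nat_lit 5) (nat_lit 4) (nat_lit 4) (nat_lit 2) (nat_lit 4) (nat_lit 342) (nat_lit 274) (nat_lit 164)) (XT.lf (nat_lit 0) (nat_lit 184223713682) (nat_lit 152) (nat_lit 350631613553) (nat_lit 0) (nat_lit 143441288345) (nat_lit 2) (nat_lit 5) (nat_lit 4) (nat_lit 4) (nat_lit 2) (nat_lit 4) (nat_lit 343) (nat_lit 274) (nat_lit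 163))))) (XT.nd (nat_lit 312) (nat_lit 0) (nat_lit 0) (XT.nd (nat_lit 156) (nat_lit 0) (nat_lit 0) (XT.nd (nat_lit 78) (nat_lit 0) (nat_lit 0) (XT.lf (nat_lit 0) (nat_lit 220748021747) (nat_lit 152) (nat_lit 329831836509) (nat_lit 0) (nat_lit 179965007313) (nat_lit 2) (nat_lit 5) (nat_lit 4) (nat_lit 4) (nat_lit 2) (nat_lit 4) (nat_lit 344) (nat_lit 274) (nat_lit 162)) (XT.lf (nat_lit 0) (nat_lit 260193577979) (nat_lit 152) (nat_lit 307369435531) (nat_lit 0) (nat_lit 219410018084) (nat_lit 2) (nat_lit 5) (nat_lit 4) (nat_lit 4) (nat_lit 2) (nat_lit 4) (nat_lit 345) (nat_lit 274) (nat_lit 161))) (XT.nd (nat_lit 78) (nat_lit 0) (nat_lit 0) (XT.lf (nat_lit 0) (nat_lit 302794133822) (nat_lit 152) (nat_lit 283111300096) (nat_lit 0) (nat_lit 262010068872) (nat_lit 2) (nat_lit 5) (nat_lit 4) (nat_lit 4) (nat_lit 2) (nat_lit 4) (nat_lit 346) (nat_lit 274) (nat_lit 160)) (XT.lf (nat_lit 0) (nat_lit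 348802137016) (nat_lit 152) (nat_lit 256913678288) (nat_lit 0) (nat_lit 308017604421) (nat_lit 2) (nat_lit 5) (nat_lit 4) (nat_lit 4) (nat_lit 2) (nat_lit 4) (nat_lit 347) (nat_lit 274) (nat_lit 159)))) (XT.nd (nat_lit 156) (nat_lit 0) (nat_lit 0) (XT.nd (nat_lit 78) (nat_lit 0) (nat_lit 0) (XT.lf (nat_lit 0) (nat_lit 398490227578) (nat_lit 152) (nat_lit 228621324942) (nat_lit 0) (nat_lit 357705261979) (nat_lit 2) (nat_lit 5) (nat_lit 4) (nat_lit 4) (nat_lit 2) (nat_lit 4) (nat_lit 348) (nat_lit 274) (nat_lit 158)) (XT.lf (nat_lit 0) (nat_lit 452152853453) (nat_lit 152) (nat_lit 198066581668) (nat_lit 0) (nat_lit 411367486924) (nat_lit 2) (nat_lit 5) (nat_lit 4) (nat_lit 4) (nat_lit 2) (nat_lit 4) (nat_lit 349) (nat_lit 274) (nat_lit 157))) (XT.nd (nat_lit 78) (nat_lit 0) (nat_lit 0) (XT.lf (nat_lit 0) (nat_lit 510108015387) (nat_lit 152) (nat_lit 165068383320) (nat_lit 0) (nat_lit 469322277626)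 (nat_lit 2) (nat_lit 5) (nat_lit 4) (nat_lit 4) (nat_lit 2) (nat_lit 4) (nat_lit 350) (nat_lit 274) (nat_lit 156)) (XT.lf (nat_lit 0) (nat_lit 572699151376) (nat_lit 152) (nat_lit 129431185020) (nat_lit 0) (nat_lit 531913069883) (nat_lit 2) (nat_lit 5) (nat_lit 4) (nat_lit 4) (nat_lit 2) (nat_lit 4) (nat_lit 351) (nat_lit 274) (nat_lit 155))))))))
noncomputable def xc74 : XT := (XT.nd (nat_lit 35724) (nat_lit 0) (nat_lit 532) (XT.nd (nat_lit 1170) (nat_lit 0) (nat_lit 0) (XT.nd (nat_lit 546) (nat_lit 0) (nat_lit 0) (XT.nd (nat_lit 234) (nat_lit 76) (nat_lit 0) (XT.nd (nat_lit 78) (nat_lit 0) (nat_lit 0) (XT.lf (nat_lit 0) (nat_lit 640297171856) (nat_lit 152) (nat_lit 90943803369) (nat_lit 0) (nat_lit 599510772092) (nat_lit 2) (nat_lit 5) (nat_lit 4) (nat_lit 4) (nat_lit 2) (nat_lit 4) (nat_lit 352) (nat_lit 274) (nat_lit 154)) (XT.nd (nat_lit 78) (nat_lit 0) (nat_lit 0) (XT.lf (nat_lit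 0) (nat_lit 713302657689) (nat_lit 152) (nat_lit 49378164996) (nat_lit 0) (nat_lit 672515963230) (nat_lit 2) (nat_lit 5) (nat_lit 4) (nat_lit 4) (nat_lit 2) (nat_lit 4) (nat_lit 353) (nat_lit 274) (nat_lit 153)) (XT.lf (nat_lit 0) (nat_lit 792148233977) (nat_lit 152) (nat_lit 4487955005) (nat_lit 0) (nat_lit 751361266651) (nat_lit 2) (nat_lit 5) (nat_lit 4) (nat_lit 4) (nat_lit 2) (nat_lit 4) (nat_lit 354) (nat_lit 274) (nat_lit 152)))) (XT.nd (nat_lit 156) (nat_lit 0) (nat_lit 0) (XT.nd (nat_lit 78) (nat_lit 0) (nat_lit 0) (XT.lf (nat_lit 0) (nat_lit 46309427793) (nat_lit 76) (nat_lit 832105448822) (nat_lit 76) (nat_lit 791318228842) (nat_lit 1) (nat_lit 4) (nat_lit 2) (nat_lit 5) (nat_lit 2) (nat_lit 4) (nat_lit 355) (nat_lit 274) (nat_lit 151)) (XT.lf (nat_lit 0) (nat_lit 101425221998) (nat_lit 76) (nat_lit 870280023855) (nat_lit 76) (nat_lit 829492569937) (nat_lit 1) (nat_lit 4)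 (nat_lit 2) (nat_lit 5) (nat_lit 2) (nat_lit 4) (nat_lit 356) (nat_lit 274) (nat_lit 150))) (XT.nd (nat_lit 78) (nat_lit 0) (nat_lit 0) (XT.lf (nat_lit 0) (nat_lit 160949711965) (nat_lit 76) (nat_lit 911508842428) (nat_lit 76) (nat_lit 870721171900) (nat_lit 1) (nat_lit 4) (nat_lit 2) (nat_lit 5) (nat_lit 2) (nat_lit 4) (nat_lit 357) (nat_lit 274) (nat_lit 149)) (XT.lf (nat_lit 0) (nat_lit 225235635413) (nat_lit 76) (nat_lit 956036223467) (nat_lit 76) (nat_lit 915248352375) (nat_lit 1) (nat_lit 4) (nat_lit 2) (nat_lit 5) (nat_lit 2) (nat_lit 4) (nat_lit 358) (nat_lit 274) (nat_lit 148))))) (XT.nd (nat_lit 312) (nat_lit 0) (nat_lit 0) (XT.nd (nat_lit 156) (nat_lit 0) (nat_lit 0) (XT.nd (nat_lit 78) (nat_lit 0) (nat_lit 0) (XT.lf (nat_lit 0) (nat_lit 294663945962) (nat_lit 76) (nat_lit 1004126032934) (nat_lit 76) (nat_lit 963337976133) (nat_lit 1) (nat_lit 4) (nat_lit 2) (nat_lit 5) (nat_lit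 2) (nat_lit 4) (nat_lit 359) (nat_lit 274) (nat_lit 147)) (XT.lf (nat_lit 0) (nat_lit 369646070638) (nat_lit 76) (nat_lit 1056063247476) (nat_lit 76) (nat_lit 1015275018724) (nat_lit 1) (nat_lit 4) (nat_lit 2) (nat_lit 5) (nat_lit 2) (nat_lit 4) (nat_lit 360) (nat_lit 274) (nat_lit 146))) (XT.nd (nat_lit 78) (nat_lit 0) (nat_lit 0) (XT.lf (nat_lit 0) (nat_lit 450626347956) (nat_lit 76) (nat_lit 1112155643181) (nat_lit 76) (nat_lit 1071367255213) (nat_lit 1) (nat_lit 4) (nat_lit 2) (nat_lit 5) (nat_lit 2) (nat_lit 4) (nat_lit 361) (nat_lit 274) (nat_lit 145)) (XT.lf (nat_lit 0) (nat_lit 538084661043) (nat_lit 76) (nat_lit 1172735619429) (nat_lit 76) (nat_lit 1131947084041) (nat_lit 1) (nat_lit 4) (nat_lit 2) (nat_lit 5) (nat_lit 2) (nat_lit 4) (nat_lit 362) (nat_lit 274) (nat_lit 144)))) (XT.nd (nat_lit 156) (nat_lit 0) (nat_lit 0) (XT.nd (nat_lit 78) (nat_lit 0) (nat_lit 0) (XT.lf (nat_lit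 0) (nat_lit 632539281383) (nat_lit 76) (nat_lit 1238162168674) (nat_lit 76) (nat_lit 1197373496785) (nat_lit 1) (nat_lit 4) (nat_lit 2) (nat_lit 5) (nat_lit 2) (nat_lit 4) (nat_lit 363) (nat_lit 274) (nat_lit 143)) (XT.lf (nat_lit 0) (nat_lit 734549940060) (nat_lit 76) (nat_lit 1308823003799) (nat_lit 76) (nat_lit 1268034205520) (nat_lit 1) (nat_lit 4) (nat_lit 2) (nat_lit 5) (nat_lit 2) (nat_lit 4) (nat_lit 364) (nat_lit 274) (nat_lit 142))) (XT.nd (nat_lit 78) (nat_lit 0) (nat_lit 0) (XT.lf (nat_lit 0) (nat_lit 844721144679) (nat_lit 76) (nat_lit 1385136855679) (nat_lit 76) (nat_lit 1344347940372) (nat_lit 1) (nat_lit 4) (nat_lit 2) (nat_lit 5) (nat_lit 2) (nat_lit 4) (nat_lit 365) (nat_lit 274) (nat_lit 141)) (XT.lf (nat_lit 0) (nat_lit 963705761640) (nat_lit 76) (nat_lit 1467555954547) (nat_lit 76) (nat_lit 1426766930882) (nat_lit 1) (nat_lit 4) (nat_lit 2) (nat_lit 5) (nat_lit 2)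 (nat_lit 4) (nat_lit 366) (nat_lit 274) (nat_lit 140)))))) (XT.nd (nat_lit 33930) (nat_lit 0) (nat_lit 2356) (XT.nd (nat_lit 33618) (nat_lit 0) (nat_lit 3420) (XT.nd (nat_lit 33462) (nat_lit 0) (nat_lit 3344) (XT.nd (nat_lit 78) (nat_lit 0) (nat_lit 0) (XT.lf (nat_lit 0) (nat_lit 1092208884969) (nat_lit 76) (nat_lit 1556568709879) (nat_lit 76) (nat_lit 1515779585881) (nat_lit 1) (nat_lit 4) (nat_lit 2) (nat_lit 5) (nat_lit 2) (nat_lit 4) (nat_lit 367) (nat_lit 274) (nat_lit 139)) (XT.lf (nat_lit 0) (nat_lit 1230992014656) (nat_lit 76) (nat_lit 1652702604669) (nat_lit 76) (nat_lit 1611913387771) (nat_lit 1) (nat_lit 4) (nat_lit 2) (nat_lit 5) (nat_lit 2) (nat_lit 4) (nat_lit 368) (nat_lit 274) (nat_lit 138))) (XT.nd (nat_lit 78) (nat_lit 0) (nat_lit 0) (XT.lf (nat_lit 0) (nat_lit 2607608981) (nat_lit 532) (nat_lit 1999472559) (nat_lit 532) (nat_lit 1999472559) (nat_lit 45) (nat_lit 3)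 (nat_lit 52) (nat_lit 3) (nat_lit 52) (nat_lit 5) (nat_lit 275) (nat_lit 275) (nat_lit 230)) (XT.lf (nat_lit 76) (nat_lit 2180469909) (nat_lit 0) (nat_lit 3652793138) (nat_lit 532) (nat_lit 7874587320) (nat_lit 46) (nat_lit 5) (nat_lit 45) (nat_lit 3) (nat_lit 52) (nat_lit 5) (nat_lit 276) (nat_lit 275) (nat_lit 229)))) (XT.nd (nat_lit 156) (nat_lit 0) (nat_lit 76) (XT.nd (nat_lit 78) (nat_lit 0) (nat_lit 0) (XT.lf (nat_lit 0) (nat_lit 6633706174) (nat_lit 456) (nat_lit 5234941753) (nat_lit 532) (nat_lit 2362990400) (nat_lit 46) (nat_lit 5) (nat_lit 52) (nat_lit 5) (nat_lit 53) (nat_lit 5) (nat_lit 277) (nat_lit 275) (nat_lit 228)) (XT.lf (nat_lit 76) (nat_lit 1520075724) (nat_lit 0) (nat_lit 6076373173) (nat_lit 532) (nat_lit 7193114456) (nat_lit 47) (nat_lit 5) (nat_lit 46) (nat_lit 5) (nat_lit 53) (nat_lit 5) (nat_lit 278) (nat_lit 275) (nat_lit 227))) (XT.nd (nat_lit 78) (nat_lit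 0) (nat_lit 0) (XT.lf (nat_lit 0) (nat_lit 8756379466) (nat_lit 456) (nat_lit 6299735732) (nat_lit 532) (nat_lit 326481823) (nat_lit 47) (nat_lit 5) (nat_lit 53) (nat_lit 5) (nat_lit 54) (nat_lit 5) (nat_lit 279) (nat_lit 275) (nat_lit 226)) (XT.lf (nat_lit 76) (nat_lit 1102469515) (nat_lit 0) (nat_lit 9062279421) (nat_lit 532) (nat_lit 5845954475) (nat_lit 48) (nat_lit 5) (nat_lit 47) (nat_lit 5) (nat_lit 54) (nat_lit 5) (nat_lit 280) (nat_lit 275) (nat_lit 225))))) (XT.nd (nat_lit 312) (nat_lit 532) (nat_lit 0) (XT.nd (nat_lit 156) (nat_lit 228) (nat_lit 0) (XT.nd (nat_lit 78) (nat_lit 380) (nat_lit 0) (XT.lf (nat_lit 76) (nat_lit 9433242147) (nat_lit 0) (nat_lit 2397693458) (nat_lit 532) (nat_lit 4846586438) (nat_lit 48) (nat_lit 5) (nat_lit 47) (nat_lit 5) (nat_lit 54) (nat_lit 5) (nat_lit 281) (nat_lit 275) (nat_lit 224)) (XT.lf (nat_lit 0) (nat_lit 942019274) (nat_lit 456) (nat_lit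 12801520236) (nat_lit 532) (nat_lit 3645166817) (nat_lit 42) (nat_lit 5) (nat_lit 48) (nat_lit 5) (nat_lit 49) (nat_lit 5) (nat_lit 282) (nat_lit 275) (nat_lit 223))) (XT.nd (nat_lit 78) (nat_lit 228) (nat_lit 0) (XT.lf (nat_lit 0) (nat_lit 10107769020) (nat_lit 456) (nat_lit 5936504090) (nat_lit 532) (nat_lit 2093767300) (nat_lit 42) (nat_lit 5) (nat_lit 48) (nat_lit 5) (nat_lit 49) (nat_lit 5) (nat_lit 283) (nat_lit 275) (nat_lit 222)) (XT.lf (nat_lit 0) (nat_lit 1054556749) (nat_lit 228) (nat_lit 17513549911) (nat_lit 304) (nat_lit 376151227) (nat_lit 39) (nat_lit 5) (nat_lit 42) (nat_lit 5) (nat_lit 43) (nat_lit 5) (nat_lit 284) (nat_lit 275) (nat_lit 221)))) (XT.nd (nat_lit 156) (nat_lit 228) (nat_lit 0) (XT.nd (nat_lit 78) (nat_lit 228) (nat_lit 0) (XT.lf (nat_lit 0) (nat_lit 1763003536) (nat_lit 304) (nat_lit 8692743578) (nat_lit 76) (nat_lit 9327783009) (nat_lit 38) (nat_lit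 5) (nat_lit 42) (nat_lit 5) (nat_lit 39) (nat_lit 5) (nat_lit 285) (nat_lit 275) (nat_lit 220)) (XT.lf (nat_lit 0) (nat_lit 1272825281) (nat_lit 228) (nat_lit 2790985509) (nat_lit 304) (nat_lit 16624531978) (nat_lit 35) (nat_lit 5) (nat_lit 38) (nat_lit 5) (nat_lit 39) (nat_lit 5) (nat_lit 286) (nat_lit 275) (nat_lit 219))) (XT.nd (nat_lit 78) (nat_lit 228) (nat_lit 0) (XT.lf (nat_lit 0) (nat_lit 6905652802) (nat_lit 304) (nat_lit 9276678436) (nat_lit 76) (nat_lit 5454695649) (nat_lit 35) (nat_lit 5) (nat_lit 39) (nat_lit 5) (nat_lit 36) (nat_lit 5) (nat_lit 287) (nat_lit 275) (nat_lit 218)) (XT.lf (nat_lit 0) (nat_lit 1663605185) (nat_lit 228) (nat_lit 8406295732) (nat_lit 304) (nat_lit 12584140932) (nat_lit 32) (nat_lit 5) (nat_lit 35) (nat_lit 5) (nat_lit 36) (nat_lit 5) (nat_lit 288) (nat_lit 275) (nat_lit 217))))))) (XT.nd (nat_lit 1248) (nat_lit 684) (nat_lit 0) (XT.nd (nat_lit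 624) (nat_lit 456) (nat_lit 0) (XT.nd (nat_lit 312) (nat_lit 304) (nat_lit 0) (XT.nd (nat_lit 156) (nat_lit 228) (nat_lit 0) (XT.nd (nat_lit 78) (nat_lit 152) (nat_lit 0) (XT.lf (nat_lit 0) (nat_lit 13730613178) (nat_lit 304) (nat_lit 9752997404) (nat_lit 76) (nat_lit 249379272) (nat_lit 32) (nat_lit 5) (nat_lit 36) (nat_lit 5) (nat_lit 33) (nat_lit 5) (nat_lit 289) (nat_lit 275) (nat_lit 216)) (XT.lf (nat_lit 0) (nat_lit 2258473655) (nat_lit 152) (nat_lit 15682900139) (nat_lit 228) (nat_lit 6936339587) (nat_lit 30) (nat_lit 5) (nat_lit 32) (nat_lit 5) (nat_lit 33) (nat_lit 5) (nat_lit 290) (nat_lit 275) (nat_lit 215))) (XT.nd (nat_lit 78) (nat_lit 228) (nat_lit 0) (XT.lf (nat_lit 0) (nat_lit 15766424111) (nat_lit 152) (nat_lit 6974451663) (nat_lit 228) (nat_lit 3353020974) (nat_lit 30) (nat_lit 5) (nat_lit 32) (nat_lit 5) (nat_lit 33) (nat_lit 5) (nat_lit 291) (nat_lit 275) (nat_lit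 214)) (XT.lf (nat_lit 0) (nat_lit 611464879) (nat_lit 228) (nat_lit 24391879901) (nat_lit 76) (nat_lit 2393434156) (nat_lit 27) (nat_lit 5) (nat_lit 30) (nat_lit 5) (nat_lit 28) (nat_lit 5) (nat_lit 292) (nat_lit 275) (nat_lit 213)))) (XT.nd (nat_lit 156) (nat_lit 152) (nat_lit 0) (XT.nd (nat_lit 78) (nat_lit 152) (nat_lit 0) (XT.lf (nat_lit 0) (nat_lit 5169248055) (nat_lit 228) (nat_lit 11084670054) (nat_lit 76) (nat_lit 12506448898) (nat_lit 27) (nat_lit 5) (nat_lit 30) (nat_lit 5) (nat_lit 28) (nat_lit 5) (nat_lit 293) (nat_lit 275) (nat_lit 212)) (XT.lf (nat_lit 0) (nat_lit 3441710173) (nat_lit 152) (nat_lit 6720150597) (nat_lit 228) (nat_lit 20065588618) (nat_lit 25) (nat_lit 5) (nat_lit 27) (nat_lit 5) (nat_lit 28) (nat_lit 5) (nat_lit 294) (nat_lit 275) (nat_lit 211))) (XT.nd (nat_lit 78) (nat_lit 152) (nat_lit 0) (XT.lf (nat_lit 0) (nat_lit 15938669942) (nat_lit 228) (nat_lit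 12138932556) (nat_lit 76) (nat_lit 3703534916) (nat_lit 25) (nat_lit 5) (nat_lit 28) (nat_lit 5) (nat_lit 26) (nat_lit 5) (nat_lit 295) (nat_lit 275) (nat_lit 210)) (XT.lf (nat_lit 0) (nat_lit 3672102155) (nat_lit 152) (nat_lit 18757116971) (nat_lit 228) (nat_lit 11009794150) (nat_lit 23) (nat_lit 5) (nat_lit 25) (nat_lit 5) (nat_lit 26) (nat_lit 5) (nat_lit 296) (nat_lit 275) (nat_lit 209))))) (XT.nd (nat_lit 312) (nat_lit 152) (nat_lit 0) (XT.nd (nat_lit 156) (nat_lit 152) (nat_lit 0) (XT.nd (nat_lit 78) (nat_lit 152) (nat_lit 0) (XT.lf (nat_lit 0) (nat_lit 21422132744) (nat_lit 152) (nat_lit 8337955339) (nat_lit 228) (nat_lit 5443763961) (nat_lit 23) (nat_lit 5) (nat_lit 25) (nat_lit 5) (nat_lit 26) (nat_lit 5) (nat_lit 297) (nat_lit 275) (nat_lit 208)) (XT.lf (nat_lit 0) (nat_lit 688874491) (nat_lit 152) (nat_lit 33540354893) (nat_lit 76) (nat_lit 2867595418) (nat_lit 21) (nat_lit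 5) (nat_lit 23) (nat_lit 5) (nat_lit 22) (nat_lit 5) (nat_lit 298) (nat_lit 275) (nat_lit 207))) (XT.nd (nat_lit 78) (nat_lit 152) (nat_lit 0) (XT.lf (nat_lit 0) (nat_lit 7611164405) (nat_lit 152) (nat_lit 16429230765) (nat_lit 76) (nat_lit 15042091899) (nat_lit 21) (nat_lit 5) (nat_lit 23) (nat_lit 5) (nat_lit 22) (nat_lit 5) (nat_lit 299) (nat_lit 275) (nat_lit 206)) (XT.lf (nat_lit 0) (nat_lit 2143296536) (nat_lit 152) (nat_lit 12986200911) (nat_lit 228) (nat_lit 26094137969) (nat_lit 19) (nat_lit 5) (nat_lit 21) (nat_lit 5) (nat_lit 22) (nat_lit 5) (nat_lit 300) (nat_lit 275) (nat_lit 205)))) (XT.nd (nat_lit 156) (nat_lit 152) (nat_lit 0) (XT.nd (nat_lit 78) (nat_lit 0) (nat_lit 0) (XT.lf (nat_lit 0) (nat_lit 23121640034) (nat_lit 152) (nat_lit 567918209) (nat_lit 228) (nat_lit 19811309365) (nat_lit 19) (nat_lit 5) (nat_lit 21) (nat_lit 5) (nat_lit 22) (nat_lit 5) (nat_lit 301) (nat_lit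 275) (nat_lit 204)) (XT.lf (nat_lit 0) (nat_lit 33234917562) (nat_lit 228) (nat_lit 504745459) (nat_lit 76) (nat_lit 12196587776) (nat_lit 19) (nat_lit 5) (nat_lit 22) (nat_lit 5) (nat_lit 20) (nat_lit 4) (nat_lit 302) (nat_lit 275) (nat_lit 203))) (XT.nd (nat_lit 78) (nat_lit 76) (nat_lit 0) (XT.lf (nat_lit 0) (nat_lit 22034393965) (nat_lit 76) (nat_lit 22046412067) (nat_lit 152) (nat_lit 4442717606) (nat_lit 18) (nat_lit 5) (nat_lit 19) (nat_lit 5) (nat_lit 20) (nat_lit 4) (nat_lit 303) (nat_lit 275) (nat_lit 202)) (XT.lf (nat_lit 0) (nat_lit 4259102492) (nat_lit 152) (nat_lit 5032215884) (nat_lit 76) (nat_lit 42017340246) (nat_lit 17) (nat_lit 5) (nat_lit 19) (nat_lit 5) (nat_lit 18) (nat_lit 5) (nat_lit 304) (nat_lit 275) (nat_lit 201)))))) (XT.nd (nat_lit 624) (nat_lit 228) (nat_lit 0) (XT.nd (nat_lit 312) (nat_lit 228) (nat_lit 0) (XT.nd (nat_lit 156) (nat_lit 76) (nat_lit 0) (XT.nd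 (nat_lit 78) (nat_lit 0) (nat_lit 0) (XT.lf (nat_lit 0) (nat_lit 13988530638) (nat_lit 228) (nat_lit 35431539775) (nat_lit 76) (nat_lit 4841592360) (nat_lit 15) (nat_lit 5) (nat_lit 18) (nat_lit 5) (nat_lit 16) (nat_lit 4) (nat_lit 305) (nat_lit 275) (nat_lit 200)) (XT.lf (nat_lit 0) (nat_lit 24871808103) (nat_lit 228) (nat_lit 12809250071) (nat_lit 76) (nat_lit 19739817585) (nat_lit 15) (nat_lit 5) (nat_lit 18) (nat_lit 5) (nat_lit 16) (nat_lit 4) (nat_lit 306) (nat_lit 275) (nat_lit 199))) (XT.nd (nat_lit 78) (nat_lit 0) (nat_lit 0) (XT.lf (nat_lit 0) (nat_lit 12223086997) (nat_lit 76) (nat_lit 24690143585) (nat_lit 152) (nat_lit 23896604083) (nat_lit 14) (nat_lit 5) (nat_lit 15) (nat_lit 5) (nat_lit 16) (nat_lit 4) (nat_lit 307) (nat_lit 275) (nat_lit 198)) (XT.lf (nat_lit 0) (nat_lit 39975583448) (nat_lit 76) (nat_lit 10286346321) (nat_lit 152) (nat_lit 14180470432) (nat_lit 14)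 (nat_lit 5) (nat_lit 15) (nat_lit 5) (nat_lit 16) (nat_lit 4) (nat_lit 308) (nat_lit 275) (nat_lit 197)))) (XT.nd (nat_lit 156) (nat_lit 76) (nat_lit 0) (XT.nd (nat_lit 78) (nat_lit 76) (nat_lit 0) (XT.lf (nat_lit 0) (nat_lit 1521628160) (nat_lit 76) (nat_lit 63314325774) (nat_lit 76) (nat_lit 3517029160) (nat_lit 13) (nat_lit 4) (nat_lit 14) (nat_lit 5) (nat_lit 14) (nat_lit 4) (nat_lit 309) (nat_lit 275) (nat_lit 196)) (XT.lf (nat_lit 0) (nat_lit 8546974568) (nat_lit 152) (nat_lit 42029748865) (nat_lit 76) (nat_lit 21908491361) (nat_lit 12) (nat_lit 5) (nat_lit 14) (nat_lit 5) (nat_lit 13) (nat_lit 4) (nat_lit 310) (nat_lit 275) (nat_lit 195))) (XT.nd (nat_lit 78) (nat_lit 76) (nat_lit 0) (XT.lf (nat_lit 0) (nat_lit 21380656385) (nat_lit 152) (nat_lit 15345097493) (nat_lit 76) (nat_lit 40215402651) (nat_lit 12) (nat_lit 5) (nat_lit 14) (nat_lit 5) (nat_lit 13) (nat_lit 4) (nat_lit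 311) (nat_lit 275) (nat_lit 194)) (XT.lf (nat_lit 0) (nat_lit 14174374713) (nat_lit 76) (nat_lit 21402523121) (nat_lit 152) (nat_lit 46149811292) (nat_lit 11) (nat_lit 5) (nat_lit 12) (nat_lit 5) (nat_lit 13) (nat_lit 4) (nat_lit 312) (nat_lit 275) (nat_lit 193))))) (XT.nd (nat_lit 312) (nat_lit 76) (nat_lit 0) (XT.nd (nat_lit 156) (nat_lit 152) (nat_lit 0) (XT.nd (nat_lit 78) (nat_lit 0) (nat_lit 0) (XT.lf (nat_lit 0) (nat_lit 46919311209) (nat_lit 76) (nat_lit 4404221874) (nat_lit 152) (nat_lit 35538401671) (nat_lit 11) (nat_lit 5) (nat_lit 12) (nat_lit 5) (nat_lit 13) (nat_lit 4) (nat_lit 313) (nat_lit 275) (nat_lit 192)) (XT.lf (nat_lit 0) (nat_lit 68660897537) (nat_lit 152) (nat_lit 10468138129) (nat_lit 0) (nat_lit 13252466951) (nat_lit 11) (nat_lit 5) (nat_lit 13) (nat_lit 4) (nat_lit 11) (nat_lit 4) (nat_lit 314) (nat_lit 275) (nat_lit 191))) (XT.nd (nat_lit 78) (nat_lit 76)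 (nat_lit 0) (XT.lf (nat_lit 0) (nat_lit 22360696646) (nat_lit 76) (nat_lit 65672471192) (nat_lit 76) (nat_lit 10257638490) (nat_lit 10) (nat_lit 4) (nat_lit 11) (nat_lit 5) (nat_lit 11) (nat_lit 4) (nat_lit 315) (nat_lit 275) (nat_lit 190)) (XT.lf (nat_lit 0) (nat_lit 4357564085) (nat_lit 152) (nat_lit 46357027290) (nat_lit 76) (nat_lit 53926873310) (nat_lit 9) (nat_lit 5) (nat_lit 11) (nat_lit 5) (nat_lit 10) (nat_lit 4) (nat_lit 316) (nat_lit 275) (nat_lit 189)))) (XT.nd (nat_lit 156) (nat_lit 0) (nat_lit 0) (XT.nd (nat_lit 78) (nat_lit 76) (nat_lit 0) (XT.lf (nat_lit 0) (nat_lit 19583885672) (nat_lit 152) (nat_lit 14691767169) (nat_lit 76) (nat_lit 77203524737) (nat_lit 9) (nat_lit 5) (nat_lit 11) (nat_lit 5) (nat_lit 10) (nat_lit 4) (nat_lit 317) (nat_lit 275) (nat_lit 188)) (XT.lf (nat_lit 0) (nat_lit 20526849248) (nat_lit 76) (nat_lit 15991506916) (nat_lit 152) (nat_lit 82306350646)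 (nat_lit 8) (nat_lit 5) (nat_lit 9) (nat_lit 5) (nat_lit 10) (nat_lit 4) (nat_lit 318) (nat_lit 275) (nat_lit 187))) (XT.nd (nat_lit 78) (nat_lit 0) (nat_lit 0) (XT.lf (nat_lit 0) (nat_lit 55306444872) (nat_lit 152) (nat_lit 67434746534) (nat_lit 0) (nat_lit 3976780685) (nat_lit 8) (nat_lit 5) (nat_lit 10) (nat_lit 4) (nat_lit 8) (nat_lit 4) (nat_lit 319) (nat_lit 275) (nat_lit 186)) (XT.lf (nat_lit 0) (nat_lit 76009621464) (nat_lit 152) (nat_lit 34524193375) (nat_lit 0) (nat_lit 24675922858) (nat_lit 8) (nat_lit 5) (nat_lit 10) (nat_lit 4) (nat_lit 8) (nat_lit 4) (nat_lit 320) (nat_lit 275) (nat_lit 185))))))))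
noncomputable def xc75 : XT := (XT.nd (nat_lit 2496) (nat_lit 76) (nat_lit 0) (XT.nd (nat_lit 1248) (nat_lit 152) (nat_lit 0) (XT.nd (nat_lit 624) (nat_lit 76) (nat_lit 0) (XT.nd (nat_lit 312) (nat_lit 76) (nat_lit 0) (XT.nd (nat_lit 156) (nat_lit 76) (nat_lit 0) (XT.nd (nat_lit 78) (nat_lit 0) (nat_lit 0) (XT.lf (nat_lit 0) (nat_lit 1066788627) (nat_lit 76) (nat_lit 97324842971) (nat_lit 76) (nat_lit 45987408793) (nat_lit 7) (nat_lit 4) (nat_lit 8) (nat_lit 5) (nat_lit 8) (nat_lit 4) (nat_lit 321) (nat_lit 275) (nat_lit 184)) (XT.lf (nat_lit 0) (nat_lit 41462836503) (nat_lit 76) (nat_lit 82042334207) (nat_lit 76) (nat_lit 30701441165) (nat_lit 7) (nat_lit 4) (nat_lit 8) (nat_lit 5) (nat_lit 8) (nat_lit 4) (nat_lit 322) (nat_lit 275) (nat_lit 183))) (XT.nd (nat_lit 78) (nat_lit 76) (nat_lit 0) (XT.lf (nat_lit 0) (nat_lit 85085351399) (nat_lit 76) (nat_lit 65539678162) (nat_lit 76) (nat_lit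 14195582467) (nat_lit 7) (nat_lit 4) (nat_lit 8) (nat_lit 5) (nat_lit 8) (nat_lit 4) (nat_lit 323) (nat_lit 275) (nat_lit 182)) (XT.lf (nat_lit 0) (nat_lit 3446493552) (nat_lit 152) (nat_lit 44178354523) (nat_lit 76) (nat_lit 128652110313) (nat_lit 6) (nat_lit 5) (nat_lit 8) (nat_lit 5) (nat_lit 7) (nat_lit 4) (nat_lit 324) (nat_lit 275) (nat_lit 181)))) (XT.nd (nat_lit 156) (nat_lit 0) (nat_lit 0) (XT.nd (nat_lit 78) (nat_lit 76) (nat_lit 0) (XT.lf (nat_lit 0) (nat_lit 21730573255) (nat_lit 152) (nat_lit 6150214498) (nat_lit 76) (nat_lit 160739723459) (nat_lit 6) (nat_lit 5) (nat_lit 8) (nat_lit 5) (nat_lit 7) (nat_lit 4) (nat_lit 325) (nat_lit 275) (nat_lit 180)) (XT.lf (nat_lit 0) (nat_lit 36754525719) (nat_lit 76) (nat_lit 5604548779) (nat_lit 152) (nat_lit 159521939532) (nat_lit 5) (nat_lit 5) (nat_lit 6) (nat_lit 5) (nat_lit 7) (nat_lit 4) (nat_lit 326) (nat_lit 275) (nat_lit 179)))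 (XT.nd (nat_lit 78) (nat_lit 0) (nat_lit 0) (XT.lf (nat_lit 0) (nat_lit 65251962947) (nat_lit 152) (nat_lit 133199955077) (nat_lit 0) (nat_lit 17701311759) (nat_lit 5) (nat_lit 5) (nat_lit 7) (nat_lit 4) (nat_lit 5) (nat_lit 4) (nat_lit 327) (nat_lit 275) (nat_lit 178)) (XT.lf (nat_lit 0) (nat_lit 90119788066) (nat_lit 152) (nat_lit 98868836803) (nat_lit 0) (nat_lit 42567118664) (nat_lit 5) (nat_lit 5) (nat_lit 7) (nat_lit 4) (nat_lit 5) (nat_lit 4) (nat_lit 328) (nat_lit 275) (nat_lit 177))))) (XT.nd (nat_lit 312) (nat_lit 0) (nat_lit 0) (XT.nd (nat_lit 156) (nat_lit 76) (nat_lit 0) (XT.nd (nat_lit 78) (nat_lit 0) (nat_lit 0) (XT.lf (nat_lit 0) (nat_lit 116975125213) (nat_lit 152) (nat_lit 61794900291) (nat_lit 0) (nat_lit 69420587094) (nat_lit 5) (nat_lit 5) (nat_lit 7) (nat_lit 4) (nat_lit 5) (nat_lit 4) (nat_lit 329) (nat_lit 275) (nat_lit 176)) (XT.lf (nat_lit 0) (nat_lit 145977117126)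 (nat_lit 152) (nat_lit 21758448141) (nat_lit 0) (nat_lit 98420848714) (nat_lit 5) (nat_lit 5) (nat_lit 7) (nat_lit 4) (nat_lit 5) (nat_lit 4) (nat_lit 330) (nat_lit 275) (nat_lit 175))) (XT.nd (nat_lit 78) (nat_lit 0) (nat_lit 0) (XT.lf (nat_lit 0) (nat_lit 22608754146) (nat_lit 76) (nat_lit 155232614395) (nat_lit 76) (nat_lit 107674743859) (nat_lit 4) (nat_lit 4) (nat_lit 5) (nat_lit 5) (nat_lit 5) (nat_lit 4) (nat_lit 331) (nat_lit 275) (nat_lit 174)) (XT.lf (nat_lit 0) (nat_lit 71759687042) (nat_lit 76) (nat_lit 141088394397) (nat_lit 76) (nat_lit 93529040415) (nat_lit 4) (nat_lit 4) (nat_lit 5) (nat_lit 5) (nat_lit 5) (nat_lit 4) (nat_lit 332) (nat_lit 275) (nat_lit 173)))) (XT.nd (nat_lit 156) (nat_lit 0) (nat_lit 0) (XT.nd (nat_lit 78) (nat_lit 0) (nat_lit 0) (XT.lf (nat_lit 0) (nat_lit 124839854014) (nat_lit 76) (nat_lit 125814002207) (nat_lit 76) (nat_lit 78253274662) (nat_lit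 4) (nat_lit 4) (nat_lit 5) (nat_lit 5) (nat_lit 5) (nat_lit 4) (nat_lit 333) (nat_lit 275) (nat_lit 172)) (XT.lf (nat_lit 0) (nat_lit 182163804199) (nat_lit 76) (nat_lit 109318922906) (nat_lit 76) (nat_lit 61756923544) (nat_lit 4) (nat_lit 4) (nat_lit 5) (nat_lit 5) (nat_lit 5) (nat_lit 4) (nat_lit 334) (nat_lit 275) (nat_lit 171))) (XT.nd (nat_lit 78) (nat_lit 0) (nat_lit 0) (XT.lf (nat_lit 0) (nat_lit 244071235081) (nat_lit 76) (nat_lit 91505407877) (nat_lit 76) (nat_lit 43942230906) (nat_lit 4) (nat_lit 4) (nat_lit 5) (nat_lit 5) (nat_lit 5) (nat_lit 4) (nat_lit 335) (nat_lit 275) (nat_lit 170)) (XT.lf (nat_lit 0) (nat_lit 310929005508) (nat_lit 76) (nat_lit 72267895549) (nat_lit 76) (nat_lit 24703628200) (nat_lit 4) (nat_lit 4) (nat_lit 5) (nat_lit 5) (nat_lit 5) (nat_lit 4) (nat_lit 336) (nat_lit 275) (nat_lit 169)))))) (XT.nd (nat_lit 624) (nat_lit 0) (nat_lit 0) (XT.nd (nat_lit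 312) (nat_lit 0) (nat_lit 0) (XT.nd (nat_lit 156) (nat_lit 76) (nat_lit 0) (XT.nd (nat_lit 78) (nat_lit 76) (nat_lit 0) (XT.lf (nat_lit 0) (nat_lit 383133309676) (nat_lit 76) (nat_lit 51492385850) (nat_lit 76) (nat_lit 3927108891) (nat_lit 4) (nat_lit 4) (nat_lit 5) (nat_lit 5) (nat_lit 5) (nat_lit 4) (nat_lit 337) (nat_lit 275) (nat_lit 168)) (XT.lf (nat_lit 0) (nat_lit 17584479601) (nat_lit 152) (nat_lit 10990494211) (nat_lit 76) (nat_lit 443046754508) (nat_lit 3) (nat_lit 5) (nat_lit 5) (nat_lit 5) (nat_lit 4) (nat_lit 4) (nat_lit 338) (nat_lit 275) (nat_lit 167))) (XT.nd (nat_lit 78) (nat_lit 0) (nat_lit 0) (XT.lf (nat_lit 0) (nat_lit 38831491244) (nat_lit 76) (nat_lit 2706282122) (nat_lit 152) (nat_lit 465715597485) (nat_lit 2) (nat_lit 5) (nat_lit 3) (nat_lit 5) (nat_lit 4) (nat_lit 4) (nat_lit 339) (nat_lit 275) (nat_lit 166)) (XT.lf (nat_lit 0) (nat_lit 68321515776) (nat_lit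 152) (nat_lit 453063711098) (nat_lit 0) (nat_lit 24277183535) (nat_lit 2) (nat_lit 5) (nat_lit 4) (nat_lit 4) (nat_lit 2) (nat_lit 4) (nat_lit 340) (nat_lit 275) (nat_lit 165)))) (XT.nd (nat_lit 156) (nat_lit 0) (nat_lit 0) (XT.nd (nat_lit 78) (nat_lit 0) (nat_lit 0) (XT.lf (nat_lit 0) (nat_lit 97317373258) (nat_lit 152) (nat_lit 436548893129) (nat_lit 0) (nat_lit 53272353894) (nat_lit 2) (nat_lit 5) (nat_lit 4) (nat_lit 4) (nat_lit 2) (nat_lit 4) (nat_lit 341) (nat_lit 275) (nat_lit 164)) (XT.lf (nat_lit 0) (nat_lit 128632086966) (nat_lit 152) (nat_lit 418714473961) (nat_lit 0) (nat_lit 84586431377) (nat_lit 2) (nat_lit 5) (nat_lit 4) (nat_lit 4) (nat_lit 2) (nat_lit 4) (nat_lit 342) (nat_lit 275) (nat_lit 163))) (XT.nd (nat_lit 78) (nat_lit 0) (nat_lit 0) (XT.lf (nat_lit 0) (nat_lit 162451225575) (nat_lit 152) (nat_lit 399454768148) (nat_lit 0) (nat_lit 118404980889) (nat_lit 2) (nat_lit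 5) (nat_lit 4) (nat_lit 4) (nat_lit 2) (nat_lit 4) (nat_lit 343) (nat_lit 275) (nat_lit 162)) (XT.lf (nat_lit 0) (nat_lit 198975198795) (nat_lit 152) (nat_lit 378655644099) (nat_lit 0) (nat_lit 154928408648) (nat_lit 2) (nat_lit 5) (nat_lit 4) (nat_lit 4) (nat_lit 2) (nat_lit 4) (nat_lit 344) (nat_lit 275) (nat_lit 161))))) (XT.nd (nat_lit 312) (nat_lit 0) (nat_lit 0) (XT.nd (nat_lit 156) (nat_lit 0) (nat_lit 0) (XT.nd (nat_lit 78) (nat_lit 0) (nat_lit 0) (XT.lf (nat_lit 0) (nat_lit 238420444985) (nat_lit 152) (nat_lit 356193847747) (nat_lit 0) (nat_lit 194373149782) (nat_lit 2) (nat_lit 5) (nat_lit 4) (nat_lit 4) (nat_lit 2) (nat_lit 4) (nat_lit 345) (nat_lit 275) (nat_lit 160)) (XT.lf (nat_lit 0) (nat_lit 281020713753) (nat_lit 152) (nat_lit 331936272149) (nat_lit 0) (nat_lit 236972950906) (nat_lit 2) (nat_lit 5) (nat_lit 4) (nat_lit 4) (nat_lit 2) (nat_lit 4) (nat_lit 346) (nat_lit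 275) (nat_lit 159))) (XT.nd (nat_lit 78) (nat_lit 0) (nat_lit 0) (XT.lf (nat_lit 0) (nat_lit 327028451135) (nat_lit 152) (nat_lit 305739168710) (nat_lit 0) (nat_lit 282980255284) (nat_lit 2) (nat_lit 5) (nat_lit 4) (nat_lit 4) (nat_lit 2) (nat_lit 4) (nat_lit 347) (nat_lit 275) (nat_lit 158)) (XT.lf (nat_lit 0) (nat_lit 376716295576) (nat_lit 152) (nat_lit 277447295335) (nat_lit 0) (nat_lit 332667698795) (nat_lit 2) (nat_lit 5) (nat_lit 4) (nat_lit 4) (nat_lit 2) (nat_lit 4) (nat_lit 348) (nat_lit 275) (nat_lit 157)))) (XT.nd (nat_lit 156) (nat_lit 0) (nat_lit 0) (XT.nd (nat_lit 78) (nat_lit 0) (nat_lit 0) (XT.lf (nat_lit 0) (nat_lit 430378693561) (nat_lit 152) (nat_lit 246892996478) (nat_lit 0) (nat_lit 386329725549) (nat_lit 2) (nat_lit 5) (nat_lit 4) (nat_lit 4) (nat_lit 2) (nat_lit 4) (nat_lit 349) (nat_lit 275) (nat_lit 156)) (XT.lf (nat_lit 0) (nat_lit 488333644486) (nat_lit 152)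 (nat_lit 213895209628) (nat_lit 0) (nat_lit 444284332741) (nat_lit 2) (nat_lit 5) (nat_lit 4) (nat_lit 4) (nat_lit 2) (nat_lit 4) (nat_lit 350) (nat_lit 275) (nat_lit 155))) (XT.nd (nat_lit 78) (nat_lit 0) (nat_lit 0) (XT.lf (nat_lit 0) (nat_lit 550924585096) (nat_lit 152) (nat_lit 178258392344) (nat_lit 0) (nat_lit 506874955080) (nat_lit 2) (nat_lit 5) (nat_lit 4) (nat_lit 4) (nat_lit 2) (nat_lit 4) (nat_lit 351) (nat_lit 275) (nat_lit 154)) (XT.lf (nat_lit 0) (nat_lit 618522424670) (nat_lit 152) (nat_lit 139771363486) (nat_lit 0) (nat_lit 574472499958) (nat_lit 2) (nat_lit 5) (nat_lit 4) (nat_lit 4) (nat_lit 2) (nat_lit 4) (nat_lit 352) (nat_lit 275) (nat_lit 153))))))) (XT.nd (nat_lit 34632) (nat_lit 0) (nat_lit 2204) (XT.nd (nat_lit 624) (nat_lit 0) (nat_lit 0) (XT.nd (nat_lit 312) (nat_lit 0) (nat_lit 0) (XT.nd (nat_lit 156) (nat_lit 76) (nat_lit 0) (XT.nd (nat_lit 78) (nat_lit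 0) (nat_lit 0) (XT.lf (nat_lit 0) (nat_lit 691527742997) (nat_lit 152) (nat_lit 98206051773) (nat_lit 0) (nat_lit 647477545419) (nat_lit 2) (nat_lit 5) (nat_lit 4) (nat_lit 4) (nat_lit 2) (nat_lit 4) (nat_lit 353) (nat_lit 275) (nat_lit 152)) (XT.lf (nat_lit 0) (nat_lit 770373164186) (nat_lit 152) (nat_lit 53316144245) (nat_lit 0) (nat_lit 726322713955) (nat_lit 2) (nat_lit 5) (nat_lit 4) (nat_lit 4) (nat_lit 2) (nat_lit 4) (nat_lit 354) (nat_lit 275) (nat_lit 151))) (XT.nd (nat_lit 78) (nat_lit 76) (nat_lit 0) (XT.lf (nat_lit 0) (nat_lit 855525920363) (nat_lit 152) (nat_lit 4835626637) (nat_lit 0) (nat_lit 811475236193) (nat_lit 2) (nat_lit 5) (nat_lit 4) (nat_lit 4) (nat_lit 2) (nat_lit 4) (nat_lit 355) (nat_lit 275) (nat_lit 150)) (XT.lf (nat_lit 0) (nat_lit 50025259069) (nat_lit 76) (nat_lit 898668470067) (nat_lit 76) (nat_lit 854617569287) (nat_lit 1) (nat_lit 4) (nat_lit 2) (nat_lit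 5) (nat_lit 2) (nat_lit 4) (nat_lit 356) (nat_lit 275) (nat_lit 149)))) (XT.nd (nat_lit 156) (nat_lit 0) (nat_lit 0) (XT.nd (nat_lit 78) (nat_lit 0) (nat_lit 0) (XT.lf (nat_lit 0) (nat_lit 109549496288) (nat_lit 76) (nat_lit 939897412189) (nat_lit 76) (nat_lit 895846310844) (nat_lit 1) (nat_lit 4) (nat_lit 2) (nat_lit 5) (nat_lit 2) (nat_lit 4) (nat_lit 357) (nat_lit 275) (nat_lit 148)) (XT.lf (nat_lit 0) (nat_lit 173835185710) (nat_lit 76) (nat_lit 984424907624) (nat_lit 76) (nat_lit 940373620571) (nat_lit 1) (nat_lit 4) (nat_lit 2) (nat_lit 5) (nat_lit 2) (nat_lit 4) (nat_lit 358) (nat_lit 275) (nat_lit 147))) (XT.nd (nat_lit 78) (nat_lit 0) (nat_lit 0) (XT.lf (nat_lit 0) (nat_lit 243263279568) (nat_lit 76) (nat_lit 1032514823013) (nat_lit 76) (nat_lit 988463364008) (nat_lit 1) (nat_lit 4) (nat_lit 2) (nat_lit 5) (nat_lit 2) (nat_lit 4) (nat_lit 359) (nat_lit 275) (nat_lit 146)) (XT.lf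 (nat_lit 0) (nat_lit 318245203603) (nat_lit 76) (nat_lit 1084452135631) (nat_lit 76) (nat_lit 1040400517412) (nat_lit 1) (nat_lit 4) (nat_lit 2) (nat_lit 5) (nat_lit 2) (nat_lit 4) (nat_lit 360) (nat_lit 275) (nat_lit 145))))) (XT.nd (nat_lit 312) (nat_lit 0) (nat_lit 0) (XT.nd (nat_lit 156) (nat_lit 0) (nat_lit 0) (XT.nd (nat_lit 78) (nat_lit 0) (nat_lit 0) (XT.lf (nat_lit 0) (nat_lit 399225295145) (nat_lit 76) (nat_lit 1140544622147) (nat_lit 76) (nat_lit 1096492856507) (nat_lit 1) (nat_lit 4) (nat_lit 2) (nat_lit 5) (nat_lit 2) (nat_lit 4) (nat_lit 361) (nat_lit 275) (nat_lit 144)) (XT.lf (nat_lit 0) (nat_lit 486683436215) (nat_lit 76) (nat_lit 1201124682481) (nat_lit 76) (nat_lit 1157072780339) (nat_lit 1) (nat_lit 4) (nat_lit 2) (nat_lit 5) (nat_lit 2) (nat_lit 4) (nat_lit 362) (nat_lit 275) (nat_lit 143))) (XT.nd (nat_lit 78) (nat_lit 0) (nat_lit 0) (XT.lf (nat_lit 0) (nat_lit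 581137897281) (nat_lit 76) (nat_lit 1266551309581) (nat_lit 76) (nat_lit 1222499281050) (nat_lit 1) (nat_lit 4) (nat_lit 2) (nat_lit 5) (nat_lit 2) (nat_lit 4) (nat_lit 363) (nat_lit 275) (nat_lit 142)) (XT.lf (nat_lit 0) (nat_lit 683148408481) (nat_lit 76) (nat_lit 1337212216795) (nat_lit 76) (nat_lit 1293160071236) (nat_lit 1) (nat_lit 4) (nat_lit 2) (nat_lit 5) (nat_lit 2) (nat_lit 4) (nat_lit 364) (nat_lit 275) (nat_lit 141)))) (XT.nd (nat_lit 156) (nat_lit 0) (nat_lit 0) (XT.nd (nat_lit 78) (nat_lit 0) (nat_lit 0) (XT.lf (nat_lit 0) (nat_lit 793319476549) (nat_lit 76) (nat_lit 1413526135424) (nat_lit 76) (nat_lit 1369473881507) (nat_lit 1) (nat_lit 4) (nat_lit 2) (nat_lit 5) (nat_lit 2) (nat_lit 4) (nat_lit 365) (nat_lit 275) (nat_lit 140)) (XT.lf (nat_lit 0) (nat_lit 912303967073) (nat_lit 76) (nat_lit 1495945296098) (nat_lit 76) (nat_lit 1451892941848) (nat_lit 1) (nat_lit 4)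 (nat_lit 2) (nat_lit 5) (nat_lit 2) (nat_lit 4) (nat_lit 366) (nat_lit 275) (nat_lit 139))) (XT.nd (nat_lit 78) (nat_lit 0) (nat_lit 0) (XT.lf (nat_lit 0) (nat_lit 1040806973330) (nat_lit 76) (nat_lit 1584958108656) (nat_lit 76) (nat_lit 1540905661506) (nat_lit 1) (nat_lit 4) (nat_lit 2) (nat_lit 5) (nat_lit 2) (nat_lit 4) (nat_lit 367) (nat_lit 275) (nat_lit 138)) (XT.lf (nat_lit 0) (nat_lit 1179589994617) (nat_lit 76) (nat_lit 1681092056433) (nat_lit 76) (nat_lit 1637039523264) (nat_lit 1) (nat_lit 4) (nat_lit 2) (nat_lit 5) (nat_lit 2) (nat_lit 4) (nat_lit 368) (nat_lit 275) (nat_lit 137)))))) (XT.nd (nat_lit 624) (nat_lit 912) (nat_lit 0) (XT.nd (nat_lit 312) (nat_lit 228) (nat_lit 0) (XT.nd (nat_lit 156) (nat_lit 0) (nat_lit 76) (XT.nd (nat_lit 78) (nat_lit 0) (nat_lit 0) (XT.lf (nat_lit 0) (nat_lit 3164627950) (nat_lit 532) (nat_lit 1970787556) (nat_lit 532) (nat_lit 1970787556)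 (nat_lit 45) (nat_lit 3) (nat_lit 52) (nat_lit 3) (nat_lit 52) (nat_lit 5) (nat_lit 276) (nat_lit 276) (nat_lit 228)) (XT.lf (nat_lit 76) (nat_lit 2722641584) (nat_lit 0) (nat_lit 4231330688) (nat_lit 532) (nat_lit 7796325702) (nat_lit 46) (nat_lit 5) (nat_lit 45) (nat_lit 3) (nat_lit 52) (nat_lit 5) (nat_lit 277) (nat_lit 276) (nat_lit 227))) (XT.nd (nat_lit 78) (nat_lit 0) (nat_lit 0) (XT.lf (nat_lit 0) (nat_lit 7763627039) (nat_lit 456) (nat_lit 5256699717) (nat_lit 532) (nat_lit 2300185643) (nat_lit 46) (nat_lit 5) (nat_lit 52) (nat_lit 5) (nat_lit 53) (nat_lit 5) (nat_lit 278) (nat_lit 276) (nat_lit 226)) (XT.lf (nat_lit 76) (nat_lit 2028667579) (nat_lit 0) (nat_lit 6739641628) (nat_lit 532) (nat_lit 7157695955) (nat_lit 47) (nat_lit 5) (nat_lit 46) (nat_lit 5) (nat_lit 53) (nat_lit 5) (nat_lit 279) (nat_lit 276) (nat_lit 225)))) (XT.nd (nat_lit 156) (nat_lit 380) (nat_lit 0) (XT.nd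 (nat_lit 78) (nat_lit 0) (nat_lit 0) (XT.lf (nat_lit 0) (nat_lit 9975300683) (nat_lit 456) (nat_lit 6398187068) (nat_lit 532) (nat_lit 196770359) (nat_lit 47) (nat_lit 5) (nat_lit 53) (nat_lit 5) (nat_lit 54) (nat_lit 5) (nat_lit 280) (nat_lit 276) (nat_lit 224)) (XT.lf (nat_lit 76) (nat_lit 1585928080) (nat_lit 0) (nat_lit 9881516863) (nat_lit 532) (nat_lit 5783588820) (nat_lit 48) (nat_lit 5) (nat_lit 47) (nat_lit 5) (nat_lit 54) (nat_lit 5) (nat_lit 281) (nat_lit 276) (nat_lit 223))) (XT.nd (nat_lit 78) (nat_lit 380) (nat_lit 0) (XT.lf (nat_lit 76) (nat_lit 10553883929) (nat_lit 0) (nat_lit 2676782165) (nat_lit 532) (nat_lit 4743533712) (nat_lit 48) (nat_lit 5) (nat_lit 47) (nat_lit 5) (nat_lit 54) (nat_lit 5) (nat_lit 282) (nat_lit 276) (nat_lit 222)) (XT.lf (nat_lit 0) (nat_lit 1412717661) (nat_lit 456) (nat_lit 13857550573) (nat_lit 532) (nat_lit 3474185003) (nat_lit 42) (nat_lit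 5) (nat_lit 48) (nat_lit 5) (nat_lit 49) (nat_lit 5) (nat_lit 283) (nat_lit 276) (nat_lit 221))))) (XT.nd (nat_lit 312) (nat_lit 380) (nat_lit 0) (XT.nd (nat_lit 156) (nat_lit 304) (nat_lit 0) (XT.nd (nat_lit 78) (nat_lit 228) (nat_lit 0) (XT.lf (nat_lit 0) (nat_lit 11282443176) (nat_lit 456) (nat_lit 6440969526) (nat_lit 532) (nat_lit 1832939832) (nat_lit 42) (nat_lit 5) (nat_lit 48) (nat_lit 5) (nat_lit 49) (nat_lit 5) (nat_lit 284) (nat_lit 276) (nat_lit 220)) (XT.lf (nat_lit 0) (nat_lit 1528301813) (nat_lit 228) (nat_lit 18900254271) (nat_lit 304) (nat_lit 239317) (nat_lit 39) (nat_lit 5) (nat_lit 42) (nat_lit 5) (nat_lit 43) (nat_lit 5) (nat_lit 285) (nat_lit 276) (nat_lit 219))) (XT.nd (nat_lit 78) (nat_lit 228) (nat_lit 0) (XT.lf (nat_lit 0) (nat_lit 2261167933) (nat_lit 304) (nat_lit 9007960070) (nat_lit 76) (nat_lit 10067654652) (nat_lit 38) (nat_lit 5) (nat_lit 42) (nat_lit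 5) (nat_lit 39) (nat_lit 5) (nat_lit 286) (nat_lit 276) (nat_lit 218)) (XT.lf (nat_lit 0) (nat_lit 1745228906) (nat_lit 228) (nat_lit 2983269623) (nat_lit 304) (nat_lit 17586948780) (nat_lit 35) (nat_lit 5) (nat_lit 38) (nat_lit 5) (nat_lit 39) (nat_lit 5) (nat_lit 287) (nat_lit 276) (nat_lit 217)))) (XT.nd (nat_lit 156) (nat_lit 152) (nat_lit 0) (XT.nd (nat_lit 78) (nat_lit 228) (nat_lit 0) (XT.lf (nat_lit 0) (nat_lit 7773223822) (nat_lit 304) (nat_lit 9650483952) (nat_lit 76) (nat_lit 5918334491) (nat_lit 35) (nat_lit 5) (nat_lit 39) (nat_lit 5) (nat_lit 36) (nat_lit 5) (nat_lit 288) (nat_lit 276) (nat_lit 216)) (XT.lf (nat_lit 0) (nat_lit 2155697580) (nat_lit 228) (nat_lit 9020206128) (nat_lit 304) (nat_lit 13265745975) (nat_lit 32) (nat_lit 5) (nat_lit 35) (nat_lit 5) (nat_lit 36) (nat_lit 5) (nat_lit 289) (nat_lit 276) (nat_lit 215))) (XT.nd (nat_lit 78) (nat_lit 152) (nat_lit 0)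 (XT.lf (nat_lit 0) (nat_lit 15108525091) (nat_lit 304) (nat_lit 10179246156) (nat_lit 76) (nat_lit 320868678) (nat_lit 32) (nat_lit 5) (nat_lit 36) (nat_lit 5) (nat_lit 33) (nat_lit 5) (nat_lit 290) (nat_lit 276) (nat_lit 214)) (XT.lf (nat_lit 0) (nat_lit 2784180790) (nat_lit 152) (nat_lit 16859562775) (nat_lit 228) (nat_lit 7202236830) (nat_lit 30) (nat_lit 5) (nat_lit 32) (nat_lit 5) (nat_lit 33) (nat_lit 5) (nat_lit 291) (nat_lit 276) (nat_lit 213))))))))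
noncomputable def xc76 : XT := (XT.nd (nat_lit 2418) (nat_lit 380) (nat_lit 0) (XT.nd (nat_lit 1170) (nat_lit 608) (nat_lit 0) (XT.nd (nat_lit 546) (nat_lit 608) (nat_lit 0) (XT.nd (nat_lit 234) (nat_lit 304) (nat_lit 0) (XT.nd (nat_lit 78) (nat_lit 228) (nat_lit 0) (XT.lf (nat_lit 0) (nat_lit 17347209561) (nat_lit 152) (nat_lit 7460213931) (nat_lit 228) (nat_lit 3353660869) (nat_lit 30) (nat_lit 5) (nat_lit 32) (nat_lit 5) (nat_lit 33) (nat_lit 5) (nat_lit 292) (nat_lit 276) (nat_lit 212)) (XT.nd (nat_lit 78) (nat_lit 0) (nat_lit 0) (XT.lf (nat_lit 0) (nat_lit 905546312) (nat_lit 228) (nat_lit 26000354856) (nat_lit 76) (nat_lit 2662542339) (nat_lit 27) (nat_lit 5) (nat_lit 30) (nat_lit 5) (nat_lit 28) (nat_lit 5) (nat_lit 293) (nat_lit 276) (nat_lit 211)) (XT.lf (nat_lit 0) (nat_lit 5809791828) (nat_lit 228) (nat_lit 11653966401) (nat_lit 76) (nat_lit 13578847634) (nat_lit 27) (nat_lit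 5) (nat_lit 30) (nat_lit 5) (nat_lit 28) (nat_lit 5) (nat_lit 294) (nat_lit 276) (nat_lit 210)))) (XT.nd (nat_lit 156) (nat_lit 152) (nat_lit 0) (XT.nd (nat_lit 78) (nat_lit 0) (nat_lit 0) (XT.lf (nat_lit 0) (nat_lit 4026486844) (nat_lit 152) (nat_lit 7165953646) (nat_lit 228) (nat_lit 21435396057) (nat_lit 25) (nat_lit 5) (nat_lit 27) (nat_lit 5) (nat_lit 28) (nat_lit 5) (nat_lit 295) (nat_lit 276) (nat_lit 209)) (XT.lf (nat_lit 0) (nat_lit 17417318044) (nat_lit 228) (nat_lit 12809083604) (nat_lit 76) (nat_lit 4080573580) (nat_lit 25) (nat_lit 5) (nat_lit 28) (nat_lit 5) (nat_lit 26) (nat_lit 5) (nat_lit 296) (nat_lit 276) (nat_lit 208))) (XT.nd (nat_lit 78) (nat_lit 0) (nat_lit 0) (XT.lf (nat_lit 0) (nat_lit 4259214553) (nat_lit 152) (nat_lit 20159873434) (nat_lit 228) (nat_lit 11679062346) (nat_lit 23) (nat_lit 5) (nat_lit 25) (nat_lit 5) (nat_lit 26) (nat_lit 5) (nat_lit 297) (nat_lit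 276) (nat_lit 207)) (XT.lf (nat_lit 0) (nat_lit 23407518388) (nat_lit 152) (nat_lit 8914424271) (nat_lit 228) (nat_lit 5683417545) (nat_lit 23) (nat_lit 5) (nat_lit 25) (nat_lit 5) (nat_lit 26) (nat_lit 5) (nat_lit 298) (nat_lit 276) (nat_lit 206))))) (XT.nd (nat_lit 312) (nat_lit 304) (nat_lit 0) (XT.nd (nat_lit 156) (nat_lit 152) (nat_lit 0) (XT.nd (nat_lit 78) (nat_lit 0) (nat_lit 0) (XT.lf (nat_lit 0) (nat_lit 925158476) (nat_lit 152) (nat_lit 35936730882) (nat_lit 76) (nat_lit 3187916414) (nat_lit 21) (nat_lit 5) (nat_lit 23) (nat_lit 5) (nat_lit 22) (nat_lit 5) (nat_lit 299) (nat_lit 276) (nat_lit 205)) (XT.lf (nat_lit 0) (nat_lit 8387811285) (nat_lit 152) (nat_lit 17477965150) (nat_lit 76) (nat_lit 16329638290) (nat_lit 21) (nat_lit 5) (nat_lit 23) (nat_lit 5) (nat_lit 22) (nat_lit 5) (nat_lit 300) (nat_lit 276) (nat_lit 204))) (XT.nd (nat_lit 78) (nat_lit 0) (nat_lit 0) (XT.lf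 (nat_lit 0) (nat_lit 2573640181) (nat_lit 152) (nat_lit 13927770655) (nat_lit 228) (nat_lit 28006958708) (nat_lit 19) (nat_lit 5) (nat_lit 21) (nat_lit 5) (nat_lit 22) (nat_lit 5) (nat_lit 301) (nat_lit 276) (nat_lit 203)) (XT.lf (nat_lit 0) (nat_lit 25211074869) (nat_lit 152) (nat_lit 523234695) (nat_lit 228) (nat_lit 21234445319) (nat_lit 19) (nat_lit 5) (nat_lit 21) (nat_lit 5) (nat_lit 22) (nat_lit 5) (nat_lit 302) (nat_lit 276) (nat_lit 202)))) (XT.nd (nat_lit 156) (nat_lit 228) (nat_lit 0) (XT.nd (nat_lit 78) (nat_lit 76) (nat_lit 0) (XT.lf (nat_lit 0) (nat_lit 36034223908) (nat_lit 228) (nat_lit 313904308) (nat_lit 76) (nat_lit 13251582349) (nat_lit 19) (nat_lit 5) (nat_lit 22) (nat_lit 5) (nat_lit 20) (nat_lit 4) (nat_lit 303) (nat_lit 276) (nat_lit 201)) (XT.lf (nat_lit 0) (nat_lit 24022512580) (nat_lit 76) (nat_lit 23720282595) (nat_lit 152) (nat_lit 4651583882) (nat_lit 18)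 (nat_lit 5) (nat_lit 19) (nat_lit 5) (nat_lit 20) (nat_lit 4) (nat_lit 304) (nat_lit 276) (nat_lit 200))) (XT.nd (nat_lit 78) (nat_lit 152) (nat_lit 0) (XT.lf (nat_lit 0) (nat_lit 4728738146) (nat_lit 152) (nat_lit 5219173699) (nat_lit 76) (nat_lit 45454968691) (nat_lit 17) (nat_lit 5) (nat_lit 19) (nat_lit 5) (nat_lit 18) (nat_lit 5) (nat_lit 305) (nat_lit 276) (nat_lit 199)) (XT.lf (nat_lit 0) (nat_lit 15234088447) (nat_lit 228) (nat_lit 38047864940) (nat_lit 76) (nat_lit 5310377917) (nat_lit 15) (nat_lit 5) (nat_lit 18) (nat_lit 5) (nat_lit 16) (nat_lit 4) (nat_lit 306) (nat_lit 276) (nat_lit 198)))))) (XT.nd (nat_lit 624) (nat_lit 304) (nat_lit 0) (XT.nd (nat_lit 312) (nat_lit 152) (nat_lit 0) (XT.nd (nat_lit 156) (nat_lit 76) (nat_lit 0) (XT.nd (nat_lit 78) (nat_lit 76) (nat_lit 0) (XT.lf (nat_lit 0) (nat_lit 26978659564) (nat_lit 228) (nat_lit 13631954876) (nat_lit 76) (nat_lit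 21394427221) (nat_lit 15) (nat_lit 5) (nat_lit 18) (nat_lit 5) (nat_lit 16) (nat_lit 4) (nat_lit 307) (nat_lit 276) (nat_lit 197)) (XT.lf (nat_lit 0) (nat_lit 13397854342) (nat_lit 76) (nat_lit 26581602860) (nat_lit 152) (nat_lit 25685985214) (nat_lit 14) (nat_lit 5) (nat_lit 15) (nat_lit 5) (nat_lit 16) (nat_lit 4) (nat_lit 308) (nat_lit 276) (nat_lit 196))) (XT.nd (nat_lit 78) (nat_lit 76) (nat_lit 0) (XT.lf (nat_lit 0) (nat_lit 43355963814) (nat_lit 76) (nat_lit 11031705683) (nat_lit 152) (nat_lit 15201623626) (nat_lit 14) (nat_lit 5) (nat_lit 15) (nat_lit 5) (nat_lit 16) (nat_lit 4) (nat_lit 309) (nat_lit 276) (nat_lit 195)) (XT.lf (nat_lit 0) (nat_lit 1827542164) (nat_lit 76) (nat_lit 68298468065) (nat_lit 76) (nat_lit 3686849459) (nat_lit 13) (nat_lit 4) (nat_lit 14) (nat_lit 5) (nat_lit 14) (nat_lit 4) (nat_lit 310) (nat_lit 276) (nat_lit 194)))) (XT.nd (nat_lit 156) (nat_lit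 76) (nat_lit 0) (XT.nd (nat_lit 78) (nat_lit 0) (nat_lit 0) (XT.lf (nat_lit 0) (nat_lit 9328845727) (nat_lit 152) (nat_lit 45216329500) (nat_lit 76) (nat_lit 23730915398) (nat_lit 12) (nat_lit 5) (nat_lit 14) (nat_lit 5) (nat_lit 13) (nat_lit 4) (nat_lit 311) (nat_lit 276) (nat_lit 193)) (XT.lf (nat_lit 0) (nat_lit 23181954446) (nat_lit 152) (nat_lit 16409928187) (nat_lit 76) (nat_lit 43497213315) (nat_lit 12) (nat_lit 5) (nat_lit 14) (nat_lit 5) (nat_lit 13) (nat_lit 4) (nat_lit 312) (nat_lit 276) (nat_lit 192))) (XT.nd (nat_lit 78) (nat_lit 0) (nat_lit 0) (XT.lf (nat_lit 0) (nat_lit 15466980857) (nat_lit 76) (nat_lit 23044000739) (nat_lit 152) (nat_lit 49746750577) (nat_lit 11) (nat_lit 5) (nat_lit 12) (nat_lit 5) (nat_lit 13) (nat_lit 4) (nat_lit 313) (nat_lit 276) (nat_lit 191)) (XT.lf (nat_lit 0) (nat_lit 50819759963) (nat_lit 76) (nat_lit 4691074225) (nat_lit 152) (nat_lit 38293468603)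 (nat_lit 11) (nat_lit 5) (nat_lit 12) (nat_lit 5) (nat_lit 13) (nat_lit 4) (nat_lit 314) (nat_lit 276) (nat_lit 190))))) (XT.nd (nat_lit 312) (nat_lit 152) (nat_lit 0) (XT.nd (nat_lit 156) (nat_lit 76) (nat_lit 0) (XT.nd (nat_lit 78) (nat_lit 76) (nat_lit 0) (XT.lf (nat_lit 0) (nat_lit 74230615065) (nat_lit 152) (nat_lit 11164926516) (nat_lit 0) (nat_lit 14370265746) (nat_lit 11) (nat_lit 5) (nat_lit 13) (nat_lit 4) (nat_lit 11) (nat_lit 4) (nat_lit 315) (nat_lit 276) (nat_lit 189)) (XT.lf (nat_lit 0) (nat_lit 24286653961) (nat_lit 76) (nat_lit 70863618050) (nat_lit 76) (nat_lit 10997779949) (nat_lit 10) (nat_lit 4) (nat_lit 11) (nat_lit 5) (nat_lit 11) (nat_lit 4) (nat_lit 316) (nat_lit 276) (nat_lit 188))) (XT.nd (nat_lit 78) (nat_lit 0) (nat_lit 0) (XT.lf (nat_lit 0) (nat_lit 4776950882) (nat_lit 152) (nat_lit 49934862471) (nat_lit 76) (nat_lit 58295252118) (nat_lit 9) (nat_lit 5)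 (nat_lit 11) (nat_lit 5) (nat_lit 10) (nat_lit 4) (nat_lit 317) (nat_lit 276) (nat_lit 187)) (XT.lf (nat_lit 0) (nat_lit 21216135110) (nat_lit 152) (nat_lit 15746065023) (nat_lit 76) (nat_lit 83430018700) (nat_lit 9) (nat_lit 5) (nat_lit 11) (nat_lit 5) (nat_lit 10) (nat_lit 4) (nat_lit 318) (nat_lit 276) (nat_lit 186)))) (XT.nd (nat_lit 156) (nat_lit 76) (nat_lit 0) (XT.nd (nat_lit 78) (nat_lit 0) (nat_lit 0) (XT.lf (nat_lit 0) (nat_lit 22286976315) (nat_lit 76) (nat_lit 17216369617) (nat_lit 152) (nat_lit 88822209550) (nat_lit 8) (nat_lit 5) (nat_lit 9) (nat_lit 5) (nat_lit 10) (nat_lit 4) (nat_lit 319) (nat_lit 276) (nat_lit 185)) (XT.lf (nat_lit 0) (nat_lit 59790989154) (nat_lit 152) (nat_lit 72716750990) (nat_lit 0) (nat_lit 4342824668) (nat_lit 8) (nat_lit 5) (nat_lit 10) (nat_lit 4) (nat_lit 8) (nat_lit 4) (nat_lit 320) (nat_lit 276) (nat_lit 184))) (XT.nd (nat_lit 78) (nat_lit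 76) (nat_lit 0) (XT.lf (nat_lit 0) (nat_lit 82145973304) (nat_lit 152) (nat_lit 37181707302) (nat_lit 0) (nat_lit 26694349954) (nat_lit 8) (nat_lit 5) (nat_lit 10) (nat_lit 4) (nat_lit 8) (nat_lit 4) (nat_lit 321) (nat_lit 276) (nat_lit 183)) (XT.lf (nat_lit 0) (nat_lit 1253909676) (nat_lit 76) (nat_lit 105062965140) (nat_lit 76) (nat_lit 49608139138) (nat_lit 7) (nat_lit 4) (nat_lit 8) (nat_lit 5) (nat_lit 8) (nat_lit 4) (nat_lit 322) (nat_lit 276) (nat_lit 182))))))) (XT.nd (nat_lit 1248) (nat_lit 152) (nat_lit 0) (XT.nd (nat_lit 624) (nat_lit 76) (nat_lit 0) (XT.nd (nat_lit 312) (nat_lit 76) (nat_lit 0) (XT.nd (nat_lit 156) (nat_lit 76) (nat_lit 0) (XT.nd (nat_lit 78) (nat_lit 0) (nat_lit 0) (XT.lf (nat_lit 0) (nat_lit 44874102274) (nat_lit 76) (nat_lit 88561401250) (nat_lit 76) (nat_lit 33103609830) (nat_lit 7) (nat_lit 4) (nat_lit 8) (nat_lit 5) (nat_lit 8) (nat_lit 4) (nat_lit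 323) (nat_lit 276) (nat_lit 181)) (XT.lf (nat_lit 0) (nat_lit 91979437707) (nat_lit 76) (nat_lit 70741815661) (nat_lit 76) (nat_lit 15281278483) (nat_lit 7) (nat_lit 4) (nat_lit 8) (nat_lit 5) (nat_lit 8) (nat_lit 4) (nat_lit 324) (nat_lit 276) (nat_lit 180))) (XT.nd (nat_lit 78) (nat_lit 0) (nat_lit 0) (XT.lf (nat_lit 0) (nat_lit 3766149935) (nat_lit 152) (nat_lit 47629487679) (nat_lit 76) (nat_lit 138979935552) (nat_lit 6) (nat_lit 5) (nat_lit 8) (nat_lit 5) (nat_lit 7) (nat_lit 4) (nat_lit 325) (nat_lit 276) (nat_lit 179)) (XT.lf (nat_lit 0) (nat_lit 23509701430) (nat_lit 152) (nat_lit 6565254615) (nat_lit 76) (nat_lit 173631916534) (nat_lit 6) (nat_lit 5) (nat_lit 8) (nat_lit 5) (nat_lit 7) (nat_lit 4) (nat_lit 326) (nat_lit 276) (nat_lit 178)))) (XT.nd (nat_lit 156) (nat_lit 0) (nat_lit 0) (XT.nd (nat_lit 78) (nat_lit 0) (nat_lit 0) (XT.lf (nat_lit 0) (nat_lit 39769916033) (nat_lit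 76) (nat_lit 6017357666) (nat_lit 152) (nat_lit 172241040497) (nat_lit 5) (nat_lit 5) (nat_lit 6) (nat_lit 5) (nat_lit 7) (nat_lit 4) (nat_lit 327) (nat_lit 276) (nat_lit 177)) (XT.lf (nat_lit 0) (nat_lit 70509461038) (nat_lit 152) (nat_lit 143784327305) (nat_lit 0) (nat_lit 19148691153) (nat_lit 5) (nat_lit 5) (nat_lit 7) (nat_lit 4) (nat_lit 5) (nat_lit 4) (nat_lit 328) (nat_lit 276) (nat_lit 176))) (XT.nd (nat_lit 78) (nat_lit 0) (nat_lit 0) (XT.lf (nat_lit 0) (nat_lit 97363946163) (nat_lit 152) (nat_lit 106712025063) (nat_lit 0) (nat_lit 46001445985) (nat_lit 5) (nat_lit 5) (nat_lit 7) (nat_lit 4) (nat_lit 5) (nat_lit 4) (nat_lit 329) (nat_lit 276) (nat_lit 175)) (XT.lf (nat_lit 0) (nat_lit 126365149166) (nat_lit 152) (nat_lit 66677086126) (nat_lit 0) (nat_lit 75001046865) (nat_lit 5) (nat_lit 5) (nat_lit 7) (nat_lit 4) (nat_lit 5) (nat_lit 4) (nat_lit 330) (nat_lit 276) (nat_lit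 174))))) (XT.nd (nat_lit 312) (nat_lit 0) (nat_lit 0) (XT.nd (nat_lit 156) (nat_lit 0) (nat_lit 0) (XT.nd (nat_lit 78) (nat_lit 76) (nat_lit 0) (XT.lf (nat_lit 0) (nat_lit 157684929029) (nat_lit 152) (nat_lit 23442266410) (nat_lit 0) (nat_lit 106319343280) (nat_lit 5) (nat_lit 5) (nat_lit 7) (nat_lit 4) (nat_lit 5) (nat_lit 4) (nat_lit 331) (nat_lit 276) (nat_lit 173)) (XT.lf (nat_lit 0) (nat_lit 24472872628) (nat_lit 76) (nat_lit 167624584994) (nat_lit 76) (nat_lit 116257625683) (nat_lit 4) (nat_lit 4) (nat_lit 5) (nat_lit 5) (nat_lit 5) (nat_lit 4) (nat_lit 332) (nat_lit 276) (nat_lit 172))) (XT.nd (nat_lit 78) (nat_lit 0) (nat_lit 0) (XT.lf (nat_lit 0) (nat_lit 77551775107) (nat_lit 76) (nat_lit 152350800623) (nat_lit 76) (nat_lit 100982569495) (nat_lit 4) (nat_lit 4) (nat_lit 5) (nat_lit 5) (nat_lit 5) (nat_lit 4) (nat_lit 333) (nat_lit 276) (nat_lit 171)) (XT.lf (nat_lit 0) (nat_lit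 134874554466) (nat_lit 76) (nat_lit 135856284119) (nat_lit 76) (nat_lit 84486875382) (nat_lit 4) (nat_lit 4) (nat_lit 5) (nat_lit 5) (nat_lit 5) (nat_lit 4) (nat_lit 334) (nat_lit 276) (nat_lit 170)))) (XT.nd (nat_lit 156) (nat_lit 0) (nat_lit 0) (XT.nd (nat_lit 78) (nat_lit 0) (nat_lit 0) (XT.lf (nat_lit 0) (nat_lit 196780901250) (nat_lit 76) (nat_lit 118043290197) (nat_lit 76) (nat_lit 66672791082) (nat_lit 4) (nat_lit 4) (nat_lit 5) (nat_lit 5) (nat_lit 5) (nat_lit 4) (nat_lit 335) (nat_lit 276) (nat_lit 169)) (XT.lf (nat_lit 0) (nat_lit 263637667882) (nat_lit 76) (nat_lit 98806260376) (nat_lit 76) (nat_lit 47434751652) (nat_lit 4) (nat_lit 4) (nat_lit 5) (nat_lit 5) (nat_lit 5) (nat_lit 4) (nat_lit 336) (nat_lit 276) (nat_lit 168))) (XT.nd (nat_lit 78) (nat_lit 0) (nat_lit 0) (XT.lf (nat_lit 0) (nat_lit 335841042611) (nat_lit 76) (nat_lit 78031197442) (nat_lit 76) (nat_lit 26658753894)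 (nat_lit 4) (nat_lit 4) (nat_lit 5) (nat_lit 5) (nat_lit 5) (nat_lit 4) (nat_lit 337) (nat_lit 276) (nat_lit 167)) (XT.lf (nat_lit 0) (nat_lit 413818897286) (nat_lit 76) (nat_lit 55594989911) (nat_lit 76) (nat_lit 4221680786) (nat_lit 4) (nat_lit 4) (nat_lit 5) (nat_lit 5) (nat_lit 5) (nat_lit 4) (nat_lit 338) (nat_lit 276) (nat_lit 166)))))) (XT.nd (nat_lit 624) (nat_lit 0) (nat_lit 0) (XT.nd (nat_lit 312) (nat_lit 0) (nat_lit 0) (XT.nd (nat_lit 156) (nat_lit 0) (nat_lit 0) (XT.nd (nat_lit 78) (nat_lit 76) (nat_lit 0) (XT.lf (nat_lit 0) (nat_lit 19008475473) (nat_lit 152) (nat_lit 11836481600) (nat_lit 76) (nat_lit 478505122018) (nat_lit 3) (nat_lit 5) (nat_lit 5) (nat_lit 5) (nat_lit 4) (nat_lit 4) (nat_lit 339) (nat_lit 276) (nat_lit 165)) (XT.lf (nat_lit 0) (nat_lit 41970420865) (nat_lit 76) (nat_lit 2907114492) (nat_lit 152) (nat_lit 502954758089) (nat_lit 2) (nat_lit 5) (nat_lit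 3) (nat_lit 5) (nat_lit 4) (nat_lit 4) (nat_lit 340) (nat_lit 276) (nat_lit 164))) (XT.nd (nat_lit 78) (nat_lit 0) (nat_lit 0) (XT.lf (nat_lit 0) (nat_lit 73803086102) (nat_lit 152) (nat_lit 489277900092) (nat_lit 0) (nat_lit 26233141841) (nat_lit 2) (nat_lit 5) (nat_lit 4) (nat_lit 4) (nat_lit 2) (nat_lit 4) (nat_lit 341) (nat_lit 276) (nat_lit 163)) (XT.lf (nat_lit 0) (nat_lit 105117438178) (nat_lit 152) (nat_lit 471444186159) (nat_lit 0) (nat_lit 57546904820) (nat_lit 2) (nat_lit 5) (nat_lit 4) (nat_lit 4) (nat_lit 2) (nat_lit 4) (nat_lit 342) (nat_lit 276) (nat_lit 162)))) (XT.nd (nat_lit 156) (nat_lit 0) (nat_lit 0) (XT.nd (nat_lit 78) (nat_lit 0) (nat_lit 0) (XT.lf (nat_lit 0) (nat_lit 138936241942) (nat_lit 152) (nat_lit 452185133341) (nat_lit 0) (nat_lit 91365163123) (nat_lit 2) (nat_lit 5) (nat_lit 4) (nat_lit 4) (nat_lit 2) (nat_lit 4) (nat_lit 343) (nat_lit 276) (nat_lit 161))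 (XT.lf (nat_lit 0) (nat_lit 175459905120) (nat_lit 152) (nat_lit 431386613917) (nat_lit 0) (nat_lit 127888321245) (nat_lit 2) (nat_lit 5) (nat_lit 4) (nat_lit 4) (nat_lit 2) (nat_lit 4) (nat_lit 344) (nat_lit 276) (nat_lit 160))) (XT.nd (nat_lit 78) (nat_lit 0) (nat_lit 0) (XT.lf (nat_lit 0) (nat_lit 214904864234) (nat_lit 152) (nat_lit 408925377402) (nat_lit 0) (nat_lit 167332812714) (nat_lit 2) (nat_lit 5) (nat_lit 4) (nat_lit 4) (nat_lit 2) (nat_lit 4) (nat_lit 345) (nat_lit 276) (nat_lit 159)) (XT.lf (nat_lit 0) (nat_lit 257504867191) (nat_lit 152) (nat_lit 384668320173) (nat_lit 0) (nat_lit 209932382667) (nat_lit 2) (nat_lit 5) (nat_lit 4) (nat_lit 4) (nat_lit 2) (nat_lit 4) (nat_lit 346) (nat_lit 276) (nat_lit 158))))) (XT.nd (nat_lit 312) (nat_lit 0) (nat_lit 0) (XT.nd (nat_lit 156) (nat_lit 0) (nat_lit 0) (XT.nd (nat_lit 78) (nat_lit 0) (nat_lit 0) (XT.lf (nat_lit 0) (nat_lit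 303512358452) (nat_lit 152) (nat_lit 358471696705) (nat_lit 0) (nat_lit 255939472999) (nat_lit 2) (nat_lit 5) (nat_lit 4) (nat_lit 4) (nat_lit 2) (nat_lit 4) (nat_lit 347) (nat_lit 276) (nat_lit 157)) (XT.lf (nat_lit 0) (nat_lit 353199975003) (nat_lit 152) (nat_lit 330180267747) (nat_lit 0) (nat_lit 305626718318) (nat_lit 2) (nat_lit 5) (nat_lit 4) (nat_lit 4) (nat_lit 2) (nat_lit 4) (nat_lit 348) (nat_lit 276) (nat_lit 156))) (XT.nd (nat_lit 78) (nat_lit 0) (nat_lit 0) (XT.lf (nat_lit 0) (nat_lit 406862161979) (nat_lit 152) (nat_lit 299626380388) (nat_lit 0) (nat_lit 359288561561) (nat_lit 2) (nat_lit 5) (nat_lit 4) (nat_lit 4) (nat_lit 2) (nat_lit 4) (nat_lit 349) (nat_lit 276) (nat_lit 155)) (XT.lf (nat_lit 0) (nat_lit 464816917524) (nat_lit 152) (nat_lit 266628974555) (nat_lit 0) (nat_lit 417242998836) (nat_lit 2) (nat_lit 5) (nat_lit 4) (nat_lit 4) (nat_lit 2) (nat_lit 4) (nat_lit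 350) (nat_lit 276) (nat_lit 154)))) (XT.nd (nat_lit 156) (nat_lit 0) (nat_lit 0) (XT.nd (nat_lit 78) (nat_lit 0) (nat_lit 0) (XT.lf (nat_lit 0) (nat_lit 527407677228) (nat_lit 152) (nat_lit 230992510063) (nat_lit 0) (nat_lit 479833463844) (nat_lit 2) (nat_lit 5) (nat_lit 4) (nat_lit 4) (nat_lit 2) (nat_lit 4) (nat_lit 351) (nat_lit 276) (nat_lit 153)) (XT.lf (nat_lit 0) (nat_lit 595005349296) (nat_lit 152) (nat_lit 192505807865) (nat_lit 0) (nat_lit 547430863046) (nat_lit 2) (nat_lit 5) (nat_lit 4) (nat_lit 4) (nat_lit 2) (nat_lit 4) (nat_lit 352) (nat_lit 276) (nat_lit 152))) (XT.nd (nat_lit 78) (nat_lit 0) (nat_lit 0) (XT.lf (nat_lit 0) (nat_lit 668010512525) (nat_lit 152) (nat_lit 150940798615) (nat_lit 0) (nat_lit 620435773621) (nat_lit 2) (nat_lit 5) (nat_lit 4) (nat_lit 4) (nat_lit 2) (nat_lit 4) (nat_lit 353) (nat_lit 276) (nat_lit 151)) (XT.lf (nat_lit 0) (nat_lit 746855790105)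 (nat_lit 152) (nat_lit 106051171146) (nat_lit 0) (nat_lit 699280817262) (nat_lit 2) (nat_lit 5) (nat_lit 4) (nat_lit 4) (nat_lit 2) (nat_lit 4) (nat_lit 354) (nat_lit 276) (nat_lit 150))))))))
noncomputable def xc77 : XT := (XT.nd (nat_lit 35880) (nat_lit 0) (nat_lit 456) (XT.nd (nat_lit 34632) (nat_lit 0) (nat_lit 2204) (XT.nd (nat_lit 546) (nat_lit 0) (nat_lit 0) (XT.nd (nat_lit 234) (nat_lit 0) (nat_lit 0) (XT.nd (nat_lit 78) (nat_lit 76) (nat_lit 0) (XT.lf (nat_lit 0) (nat_lit 832008413310) (nat_lit 152) (nat_lit 57570912851) (nat_lit 0) (nat_lit 784433223858) (nat_lit 2) (nat_lit 5) (nat_lit 4) (nat_lit 4) (nat_lit 2) (nat_lit 4) (nat_lit 355) (nat_lit 276) (nat_lit 149)) (XT.nd (nat_lit 78) (nat_lit 76) (nat_lit 0) (XT.lf (nat_lit 0) (nat_lit 923972990278) (nat_lit 152) (nat_lit 5212733311) (nat_lit 0) (nat_lit 876397600261) (nat_lit 2) (nat_lit 5) (nat_lit 4) (nat_lit 4) (nat_lit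 2) (nat_lit 4) (nat_lit 356) (nat_lit 276) (nat_lit 148)) (XT.lf (nat_lit 0) (nat_lit 54036776582) (nat_lit 76) (nat_lit 970557305474) (nat_lit 76) (nat_lit 922981729749) (nat_lit 1) (nat_lit 4) (nat_lit 2) (nat_lit 5) (nat_lit 2) (nat_lit 4) (nat_lit 357) (nat_lit 276) (nat_lit 147)))) (XT.nd (nat_lit 156) (nat_lit 0) (nat_lit 0) (XT.nd (nat_lit 78) (nat_lit 0) (nat_lit 0) (XT.lf (nat_lit 0) (nat_lit 118322249313) (nat_lit 76) (nat_lit 1015084906832) (nat_lit 76) (nat_lit 967509159155) (nat_lit 1) (nat_lit 4) (nat_lit 2) (nat_lit 5) (nat_lit 2) (nat_lit 4) (nat_lit 358) (nat_lit 276) (nat_lit 146)) (XT.lf (nat_lit 0) (nat_lit 187750142531) (nat_lit 76) (nat_lit 1063174920297) (nat_lit 76) (nat_lit 1015599013405) (nat_lit 1) (nat_lit 4) (nat_lit 2) (nat_lit 5) (nat_lit 2) (nat_lit 4) (nat_lit 359) (nat_lit 276) (nat_lit 145))) (XT.nd (nat_lit 78) (nat_lit 0) (nat_lit 0) (XT.lf (nat_lit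 0) (nat_lit 262731880789) (nat_lit 76) (nat_lit 1115112323727) (nat_lit 76) (nat_lit 1067536269414) (nat_lit 1) (nat_lit 4) (nat_lit 2) (nat_lit 5) (nat_lit 2) (nat_lit 4) (nat_lit 360) (nat_lit 276) (nat_lit 144)) (XT.lf (nat_lit 0) (nat_lit 343711800314) (nat_lit 76) (nat_lit 1171204894327) (nat_lit 76) (nat_lit 1123628703514) (nat_lit 1) (nat_lit 4) (nat_lit 2) (nat_lit 5) (nat_lit 2) (nat_lit 4) (nat_lit 361) (nat_lit 276) (nat_lit 143))))) (XT.nd (nat_lit 312) (nat_lit 0) (nat_lit 0) (XT.nd (nat_lit 156) (nat_lit 0) (nat_lit 0) (XT.nd (nat_lit 78) (nat_lit 0) (nat_lit 0) (XT.lf (nat_lit 0) (nat_lit 431169782110) (nat_lit 76) (nat_lit 1231785032517) (nat_lit 76) (nat_lit 1184208715313) (nat_lit 1) (nat_lit 4) (nat_lit 2) (nat_lit 5) (nat_lit 2) (nat_lit 4) (nat_lit 362) (nat_lit 276) (nat_lit 142)) (XT.lf (nat_lit 0) (nat_lit 525624095699) (nat_lit 76) (nat_lit 1297211731707) (nat_lit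 76) (nat_lit 1249635297475) (nat_lit 1) (nat_lit 4) (nat_lit 2) (nat_lit 5) (nat_lit 2) (nat_lit 4) (nat_lit 363) (nat_lit 276) (nat_lit 141))) (XT.nd (nat_lit 78) (nat_lit 0) (nat_lit 0) (XT.lf (nat_lit 0) (nat_lit 627634470347) (nat_lit 76) (nat_lit 1367872705670) (nat_lit 76) (nat_lit 1320296163080) (nat_lit 1) (nat_lit 4) (nat_lit 2) (nat_lit 5) (nat_lit 2) (nat_lit 4) (nat_lit 364) (nat_lit 276) (nat_lit 140)) (XT.lf (nat_lit 0) (nat_lit 737805411978) (nat_lit 76) (nat_lit 1444186686103) (nat_lit 76) (nat_lit 1396610043181) (nat_lit 1) (nat_lit 4) (nat_lit 2) (nat_lit 5) (nat_lit 2) (nat_lit 4) (nat_lit 365) (nat_lit 276) (nat_lit 139)))) (XT.nd (nat_lit 156) (nat_lit 0) (nat_lit 0) (XT.nd (nat_lit 78) (nat_lit 0) (nat_lit 0) (XT.lf (nat_lit 0) (nat_lit 856789785431) (nat_lit 76) (nat_lit 1526605904003) (nat_lit 76) (nat_lit 1479029168181) (nat_lit 1) (nat_lit 4) (nat_lit 2) (nat_lit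 5) (nat_lit 2) (nat_lit 4) (nat_lit 366) (nat_lit 276) (nat_lit 138)) (XT.lf (nat_lit 0) (nat_lit 985292683288) (nat_lit 76) (nat_lit 1615618769549) (nat_lit 76) (nat_lit 1568041947708) (nat_lit 1) (nat_lit 4) (nat_lit 2) (nat_lit 5) (nat_lit 2) (nat_lit 4) (nat_lit 367) (nat_lit 276) (nat_lit 137))) (XT.nd (nat_lit 33540) (nat_lit 0) (nat_lit 3344) (XT.lf (nat_lit 0) (nat_lit 1124075604206) (nat_lit 76) (nat_lit 1711752766389) (nat_lit 76) (nat_lit 1664175864901) (nat_lit 1) (nat_lit 4) (nat_lit 2) (nat_lit 5) (nat_lit 2) (nat_lit 4) (nat_lit 368) (nat_lit 276) (nat_lit 136)) (XT.lf (nat_lit 0) (nat_lit 3716503819) (nat_lit 532) (nat_lit 1966719757) (nat_lit 532) (nat_lit 1966719757) (nat_lit 45) (nat_lit 3) (nat_lit 52) (nat_lit 3) (nat_lit 52) (nat_lit 5) (nat_lit 277) (nat_lit 277) (nat_lit 226)))))) (XT.nd (nat_lit 624) (nat_lit 912) (nat_lit 0) (XT.nd (nat_lit 312) (nat_lit 228)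 (nat_lit 0) (XT.nd (nat_lit 156) (nat_lit 0) (nat_lit 76) (XT.nd (nat_lit 78) (nat_lit 0) (nat_lit 76) (XT.lf (nat_lit 76) (nat_lit 3255725615) (nat_lit 0) (nat_lit 4815305334) (nat_lit 532) (nat_lit 7812839883) (nat_lit 46) (nat_lit 5) (nat_lit 45) (nat_lit 3) (nat_lit 52) (nat_lit 5) (nat_lit 278) (nat_lit 277) (nat_lit 225)) (XT.lf (nat_lit 0) (nat_lit 8898455516) (nat_lit 456) (nat_lit 5336840139) (nat_lit 532) (nat_lit 2268284867) (nat_lit 46) (nat_lit 5) (nat_lit 52) (nat_lit 5) (nat_lit 53) (nat_lit 5) (nat_lit 279) (nat_lit 277) (nat_lit 224))) (XT.nd (nat_lit 78) (nat_lit 0) (nat_lit 76) (XT.lf (nat_lit 76) (nat_lit 2522738932) (nat_lit 0) (nat_lit 7430697904) (nat_lit 532) (nat_lit 7206591075) (nat_lit 47) (nat_lit 5) (nat_lit 46) (nat_lit 5) (nat_lit 53) (nat_lit 5) (nat_lit 280) (nat_lit 277) (nat_lit 223)) (XT.lf (nat_lit 0) (nat_lit 11217778493) (nat_lit 456) (nat_lit 6562367545)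 (nat_lit 532) (nat_lit 78912872) (nat_lit 47) (nat_lit 5) (nat_lit 53) (nat_lit 5) (nat_lit 54) (nat_lit 5) (nat_lit 281) (nat_lit 277) (nat_lit 222)))) (XT.nd (nat_lit 156) (nat_lit 380) (nat_lit 0) (XT.nd (nat_lit 78) (nat_lit 0) (nat_lit 0) (XT.lf (nat_lit 76) (nat_lit 2051674929) (nat_lit 0) (nat_lit 10752846759) (nat_lit 532) (nat_lit 5791850332) (nat_lit 48) (nat_lit 5) (nat_lit 47) (nat_lit 5) (nat_lit 54) (nat_lit 5) (nat_lit 282) (nat_lit 277) (nat_lit 221)) (XT.lf (nat_lit 76) (nat_lit 11711965572) (nat_lit 0) (nat_lit 2965747467) (nat_lit 532) (nat_lit 4702251970) (nat_lit 48) (nat_lit 5) (nat_lit 47) (nat_lit 5) (nat_lit 54) (nat_lit 5) (nat_lit 283) (nat_lit 277) (nat_lit 220))) (XT.nd (nat_lit 78) (nat_lit 0) (nat_lit 0) (XT.lf (nat_lit 0) (nat_lit 1864672698) (nat_lit 456) (nat_lit 14993511201) (nat_lit 532) (nat_lit 3355519014) (nat_lit 42) (nat_lit 5) (nat_lit 48) (nat_lit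 5) (nat_lit 49) (nat_lit 5) (nat_lit 284) (nat_lit 277) (nat_lit 219)) (XT.lf (nat_lit 0) (nat_lit 12498869764) (nat_lit 456) (nat_lit 6981577257) (nat_lit 532) (nat_lit 1612352066) (nat_lit 42) (nat_lit 5) (nat_lit 48) (nat_lit 5) (nat_lit 49) (nat_lit 5) (nat_lit 285) (nat_lit 277) (nat_lit 218))))) (XT.nd (nat_lit 312) (nat_lit 380) (nat_lit 0) (XT.nd (nat_lit 156) (nat_lit 228) (nat_lit 0) (XT.nd (nat_lit 78) (nat_lit 0) (nat_lit 0) (XT.lf (nat_lit 0) (nat_lit 330424942) (nat_lit 304) (nat_lit 20060487049) (nat_lit 76) (nat_lit 1644937652) (nat_lit 38) (nat_lit 5) (nat_lit 42) (nat_lit 5) (nat_lit 39) (nat_lit 5) (nat_lit 286) (nat_lit 277) (nat_lit 217)) (XT.lf (nat_lit 0) (nat_lit 2748237734) (nat_lit 304) (nat_lit 9402634088) (nat_lit 76) (nat_lit 10867622067) (nat_lit 38) (nat_lit 5) (nat_lit 42) (nat_lit 5) (nat_lit 39) (nat_lit 5) (nat_lit 287) (nat_lit 277) (nat_lit 216)))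 (XT.nd (nat_lit 78) (nat_lit 0) (nat_lit 0) (XT.lf (nat_lit 0) (nat_lit 2202557784) (nat_lit 228) (nat_lit 3195358210) (nat_lit 304) (nat_lit 18678793437) (nat_lit 35) (nat_lit 5) (nat_lit 38) (nat_lit 5) (nat_lit 39) (nat_lit 5) (nat_lit 288) (nat_lit 277) (nat_lit 215)) (XT.lf (nat_lit 0) (nat_lit 8665245305) (nat_lit 304) (nat_lit 10106740125) (nat_lit 76) (nat_lit 6415175041) (nat_lit 35) (nat_lit 5) (nat_lit 39) (nat_lit 5) (nat_lit 36) (nat_lit 5) (nat_lit 289) (nat_lit 277) (nat_lit 214)))) (XT.nd (nat_lit 156) (nat_lit 152) (nat_lit 0) (XT.nd (nat_lit 78) (nat_lit 0) (nat_lit 0) (XT.lf (nat_lit 0) (nat_lit 2635941435) (nat_lit 228) (nat_lit 9691588340) (nat_lit 304) (nat_lit 14048262313) (nat_lit 32) (nat_lit 5) (nat_lit 35) (nat_lit 5) (nat_lit 36) (nat_lit 5) (nat_lit 290) (nat_lit 277) (nat_lit 213)) (XT.lf (nat_lit 0) (nat_lit 16556801456) (nat_lit 304) (nat_lit 10690095587)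 (nat_lit 76) (nat_lit 390724613) (nat_lit 32) (nat_lit 5) (nat_lit 36) (nat_lit 5) (nat_lit 33) (nat_lit 5) (nat_lit 291) (nat_lit 277) (nat_lit 212))) (XT.nd (nat_lit 78) (nat_lit 0) (nat_lit 0) (XT.lf (nat_lit 0) (nat_lit 3302722217) (nat_lit 152) (nat_lit 18141481626) (nat_lit 228) (nat_lit 7530636348) (nat_lit 30) (nat_lit 5) (nat_lit 32) (nat_lit 5) (nat_lit 33) (nat_lit 5) (nat_lit 292) (nat_lit 277) (nat_lit 211)) (XT.lf (nat_lit 0) (nat_lit 19008881663) (nat_lit 152) (nat_lit 7995136442) (nat_lit 228) (nat_lit 3392528343) (nat_lit 30) (nat_lit 5) (nat_lit 32) (nat_lit 5) (nat_lit 33) (nat_lit 5) (nat_lit 293) (nat_lit 277) (nat_lit 210))))))) (XT.nd (nat_lit 1248) (nat_lit 532) (nat_lit 0) (XT.nd (nat_lit 624) (nat_lit 532) (nat_lit 0) (XT.nd (nat_lit 312) (nat_lit 304) (nat_lit 0) (XT.nd (nat_lit 156) (nat_lit 152) (nat_lit 0) (XT.nd (nat_lit 78) (nat_lit 0) (nat_lit 0) (XT.lf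 (nat_lit 0) (nat_lit 1188178840) (nat_lit 228) (nat_lit 27786422822) (nat_lit 76) (nat_lit 2942103897) (nat_lit 27) (nat_lit 5) (nat_lit 30) (nat_lit 5) (nat_lit 28) (nat_lit 5) (nat_lit 294) (nat_lit 277) (nat_lit 209)) (XT.lf (nat_lit 0) (nat_lit 6469194455) (nat_lit 228) (nat_lit 12314098137) (nat_lit 76) (nat_lit 14726783381) (nat_lit 27) (nat_lit 5) (nat_lit 30) (nat_lit 5) (nat_lit 28) (nat_lit 5) (nat_lit 295) (nat_lit 277) (nat_lit 208))) (XT.nd (nat_lit 78) (nat_lit 0) (nat_lit 0) (XT.lf (nat_lit 0) (nat_lit 4613900594) (nat_lit 152) (nat_lit 7660518519) (nat_lit 228) (nat_lit 22948376189) (nat_lit 25) (nat_lit 5) (nat_lit 27) (nat_lit 5) (nat_lit 28) (nat_lit 5) (nat_lit 296) (nat_lit 277) (nat_lit 207)) (XT.lf (nat_lit 0) (nat_lit 18985218668) (nat_lit 228) (nat_lit 13575782552) (nat_lit 76) (nat_lit 4476254610) (nat_lit 25) (nat_lit 5) (nat_lit 28) (nat_lit 5) (nat_lit 26)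 (nat_lit 5) (nat_lit 297) (nat_lit 277) (nat_lit 206)))) (XT.nd (nat_lit 156) (nat_lit 152) (nat_lit 0) (XT.nd (nat_lit 78) (nat_lit 0) (nat_lit 0) (XT.lf (nat_lit 0) (nat_lit 4851447110) (nat_lit 152) (nat_lit 21688804517) (nat_lit 228) (nat_lit 12432047026) (nat_lit 23) (nat_lit 5) (nat_lit 25) (nat_lit 5) (nat_lit 26) (nat_lit 5) (nat_lit 298) (nat_lit 277) (nat_lit 205)) (XT.lf (nat_lit 0) (nat_lit 25512985963) (nat_lit 152) (nat_lit 9549931183) (nat_lit 228) (nat_lit 5970183256) (nat_lit 23) (nat_lit 5) (nat_lit 25) (nat_lit 5) (nat_lit 26) (nat_lit 5) (nat_lit 299) (nat_lit 277) (nat_lit 204))) (XT.nd (nat_lit 78) (nat_lit 0) (nat_lit 0) (XT.lf (nat_lit 0) (nat_lit 1154498680) (nat_lit 152) (nat_lit 38565739652) (nat_lit 76) (nat_lit 3520893283) (nat_lit 21) (nat_lit 5) (nat_lit 23) (nat_lit 5) (nat_lit 22) (nat_lit 5) (nat_lit 300) (nat_lit 277) (nat_lit 203)) (XT.lf (nat_lit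 0) (nat_lit 9202657970) (nat_lit 152) (nat_lit 18648489676) (nat_lit 76) (nat_lit 17708179312) (nat_lit 21) (nat_lit 5) (nat_lit 23) (nat_lit 5) (nat_lit 22) (nat_lit 5) (nat_lit 301) (nat_lit 277) (nat_lit 202))))) (XT.nd (nat_lit 312) (nat_lit 304) (nat_lit 0) (XT.nd (nat_lit 156) (nat_lit 76) (nat_lit 0) (XT.nd (nat_lit 78) (nat_lit 0) (nat_lit 0) (XT.lf (nat_lit 0) (nat_lit 3001479203) (nat_lit 152) (nat_lit 14958550668) (nat_lit 228) (nat_lit 30097729482) (nat_lit 19) (nat_lit 5) (nat_lit 21) (nat_lit 5) (nat_lit 22) (nat_lit 5) (nat_lit 302) (nat_lit 277) (nat_lit 201)) (XT.lf (nat_lit 0) (nat_lit 27433468088) (nat_lit 152) (nat_lit 487832693) (nat_lit 228) (nat_lit 22794510276) (nat_lit 19) (nat_lit 5) (nat_lit 21) (nat_lit 5) (nat_lit 22) (nat_lit 5) (nat_lit 303) (nat_lit 277) (nat_lit 200))) (XT.nd (nat_lit 78) (nat_lit 76) (nat_lit 0) (XT.lf (nat_lit 0) (nat_lit 39037429020)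 (nat_lit 228) (nat_lit 140782095) (nat_lit 76) (nat_lit 14379668086) (nat_lit 19) (nat_lit 5) (nat_lit 22) (nat_lit 5) (nat_lit 20) (nat_lit 4) (nat_lit 304) (nat_lit 277) (nat_lit 199)) (XT.lf (nat_lit 0) (nat_lit 26137529548) (nat_lit 76) (nat_lit 25540879792) (nat_lit 152) (nat_lit 4898066617) (nat_lit 18) (nat_lit 5) (nat_lit 19) (nat_lit 5) (nat_lit 20) (nat_lit 4) (nat_lit 305) (nat_lit 277) (nat_lit 198)))) (XT.nd (nat_lit 156) (nat_lit 76) (nat_lit 0) (XT.nd (nat_lit 78) (nat_lit 152) (nat_lit 0) (XT.lf (nat_lit 0) (nat_lit 5217554564) (nat_lit 152) (nat_lit 5451848665) (nat_lit 76) (nat_lit 49156730748) (nat_lit 17) (nat_lit 5) (nat_lit 19) (nat_lit 5) (nat_lit 18) (nat_lit 5) (nat_lit 306) (nat_lit 277) (nat_lit 197)) (XT.lf (nat_lit 0) (nat_lit 16561247756) (nat_lit 228) (nat_lit 40904624506) (nat_lit 76) (nat_lit 5805045399) (nat_lit 15) (nat_lit 5) (nat_lit 18) (nat_lit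 5) (nat_lit 16) (nat_lit 4) (nat_lit 307) (nat_lit 277) (nat_lit 196))) (XT.nd (nat_lit 78) (nat_lit 76) (nat_lit 0) (XT.lf (nat_lit 0) (nat_lit 29237352545) (nat_lit 228) (nat_lit 14549298646) (nat_lit 76) (nat_lit 23170645518) (nat_lit 15) (nat_lit 5) (nat_lit 18) (nat_lit 5) (nat_lit 16) (nat_lit 4) (nat_lit 308) (nat_lit 277) (nat_lit 195)) (XT.lf (nat_lit 0) (nat_lit 14638510180) (nat_lit 76) (nat_lit 28636327067) (nat_lit 152) (nat_lit 27635971030) (nat_lit 14) (nat_lit 5) (nat_lit 15) (nat_lit 5) (nat_lit 16) (nat_lit 4) (nat_lit 309) (nat_lit 277) (nat_lit 194)))))) (XT.nd (nat_lit 624) (nat_lit 228) (nat_lit 0) (XT.nd (nat_lit 312) (nat_lit 152) (nat_lit 0) (XT.nd (nat_lit 156) (nat_lit 76) (nat_lit 0) (XT.nd (nat_lit 78) (nat_lit 76) (nat_lit 0) (XT.lf (nat_lit 0) (nat_lit 46980762670) (nat_lit 76) (nat_lit 11847756932) (nat_lit 152) (nat_lit 16320630368) (nat_lit 14) (nat_lit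 5) (nat_lit 15) (nat_lit 5) (nat_lit 16) (nat_lit 4) (nat_lit 310) (nat_lit 277) (nat_lit 193)) (XT.lf (nat_lit 0) (nat_lit 2131653418) (nat_lit 76) (nat_lit 73692897833) (nat_lit 76) (nat_lit 3886168100) (nat_lit 13) (nat_lit 4) (nat_lit 14) (nat_lit 5) (nat_lit 14) (nat_lit 4) (nat_lit 311) (nat_lit 277) (nat_lit 192))) (XT.nd (nat_lit 78) (nat_lit 0) (nat_lit 0) (XT.lf (nat_lit 0) (nat_lit 10159269635) (nat_lit 152) (nat_lit 48682916318) (nat_lit 76) (nat_lit 25689183493) (nat_lit 12) (nat_lit 5) (nat_lit 14) (nat_lit 5) (nat_lit 13) (nat_lit 4) (nat_lit 312) (nat_lit 277) (nat_lit 191)) (XT.lf (nat_lit 0) (nat_lit 25114396218) (nat_lit 152) (nat_lit 17583167310) (nat_lit 76) (nat_lit 47032355994) (nat_lit 12) (nat_lit 5) (nat_lit 14) (nat_lit 5) (nat_lit 13) (nat_lit 4) (nat_lit 313) (nat_lit 277) (nat_lit 190)))) (XT.nd (nat_lit 156) (nat_lit 76) (nat_lit 0) (XT.nd (nat_lit 78)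 (nat_lit 0) (nat_lit 0) (XT.lf (nat_lit 0) (nat_lit 16840361415) (nat_lit 76) (nat_lit 24826886169) (nat_lit 152) (nat_lit 53645004325) (nat_lit 11) (nat_lit 5) (nat_lit 12) (nat_lit 5) (nat_lit 13) (nat_lit 4) (nat_lit 314) (nat_lit 277) (nat_lit 189)) (XT.lf (nat_lit 0) (nat_lit 55011287140) (nat_lit 76) (nat_lit 5010216987) (nat_lit 152) (nat_lit 41281495815) (nat_lit 11) (nat_lit 5) (nat_lit 12) (nat_lit 5) (nat_lit 13) (nat_lit 4) (nat_lit 315) (nat_lit 277) (nat_lit 188))) (XT.nd (nat_lit 78) (nat_lit 76) (nat_lit 0) (XT.lf (nat_lit 0) (nat_lit 80234947094) (nat_lit 152) (nat_lit 11937525076) (nat_lit 0) (nat_lit 15569270956) (nat_lit 11) (nat_lit 5) (nat_lit 13) (nat_lit 4) (nat_lit 11) (nat_lit 4) (nat_lit 316) (nat_lit 277) (nat_lit 187)) (XT.lf (nat_lit 0) (nat_lit 26347128788) (nat_lit 76) (nat_lit 76478994499) (nat_lit 76) (nat_lit 11808612615) (nat_lit 10) (nat_lit 4) (nat_lit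 11) (nat_lit 5) (nat_lit 11) (nat_lit 4) (nat_lit 317) (nat_lit 277) (nat_lit 186))))) (XT.nd (nat_lit 312) (nat_lit 76) (nat_lit 0) (XT.nd (nat_lit 156) (nat_lit 76) (nat_lit 0) (XT.nd (nat_lit 78) (nat_lit 0) (nat_lit 0) (XT.lf (nat_lit 0) (nat_lit 5219790827) (nat_lit 152) (nat_lit 53817574135) (nat_lit 76) (nat_lit 63005364866) (nat_lit 9) (nat_lit 5) (nat_lit 11) (nat_lit 5) (nat_lit 10) (nat_lit 4) (nat_lit 318) (nat_lit 277) (nat_lit 185)) (XT.lf (nat_lit 0) (nat_lit 22969614691) (nat_lit 152) (nat_lit 16901974916) (nat_lit 76) (nat_lit 90147468880) (nat_lit 9) (nat_lit 5) (nat_lit 11) (nat_lit 5) (nat_lit 10) (nat_lit 4) (nat_lit 319) (nat_lit 277) (nat_lit 184))) (XT.nd (nat_lit 78) (nat_lit 0) (nat_lit 0) (XT.lf (nat_lit 0) (nat_lit 24171082506) (nat_lit 76) (nat_lit 18546990356) (nat_lit 152) (nat_lit 95869130734) (nat_lit 8) (nat_lit 5) (nat_lit 9) (nat_lit 5) (nat_lit 10)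 (nat_lit 4) (nat_lit 320) (nat_lit 277) (nat_lit 183)) (XT.lf (nat_lit 0) (nat_lit 64625733214) (nat_lit 152) (nat_lit 78437404456) (nat_lit 0) (nat_lit 4731318481) (nat_lit 8) (nat_lit 5) (nat_lit 10) (nat_lit 4) (nat_lit 8) (nat_lit 4) (nat_lit 321) (nat_lit 277) (nat_lit 182)))) (XT.nd (nat_lit 156) (nat_lit 0) (nat_lit 0) (XT.nd (nat_lit 78) (nat_lit 76) (nat_lit 0) (XT.lf (nat_lit 0) (nat_lit 88765303879) (nat_lit 152) (nat_lit 40066719244) (nat_lit 0) (nat_lit 28867923727) (nat_lit 8) (nat_lit 5) (nat_lit 10) (nat_lit 4) (nat_lit 8) (nat_lit 4) (nat_lit 322) (nat_lit 277) (nat_lit 181)) (XT.lf (nat_lit 0) (nat_lit 1441480646) (nat_lit 76) (nat_lit 113426965598) (nat_lit 76) (nat_lit 53526839688) (nat_lit 7) (nat_lit 4) (nat_lit 8) (nat_lit 5) (nat_lit 8) (nat_lit 4) (nat_lit 323) (nat_lit 277) (nat_lit 180))) (XT.nd (nat_lit 78) (nat_lit 0) (nat_lit 0) (XT.lf (nat_lit 0) (nat_lit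 48544825082) (nat_lit 76) (nat_lit 95608316357) (nat_lit 76) (nat_lit 35705648079) (nat_lit 7) (nat_lit 4) (nat_lit 8) (nat_lit 5) (nat_lit 8) (nat_lit 4) (nat_lit 324) (nat_lit 277) (nat_lit 179)) (XT.lf (nat_lit 0) (nat_lit 99412602562) (nat_lit 76) (nat_lit 76365978513) (nat_lit 76) (nat_lit 16460956190) (nat_lit 7) (nat_lit 4) (nat_lit 8) (nat_lit 5) (nat_lit 8) (nat_lit 4) (nat_lit 325) (nat_lit 277) (nat_lit 178))))))))
noncomputable def xc78 : XT := (XT.nd (nat_lit 2418) (nat_lit 76) (nat_lit 0) (XT.nd (nat_lit 1170) (nat_lit 76) (nat_lit 0) (XT.nd (nat_lit 546) (nat_lit 152) (nat_lit 0) (XT.nd (nat_lit 234) (nat_lit 0) (nat_lit 0) (XT.nd (nat_lit 78) (nat_lit 76) (nat_lit 0) (XT.lf (nat_lit 0) (nat_lit 4105110739) (nat_lit 152) (nat_lit 51368571655) (nat_lit 76) (nat_lit 150128900024) (nat_lit 6) (nat_lit 5) (nat_lit 8) (nat_lit 5) (nat_lit 7) (nat_lit 4) (nat_lit 326) (nat_lit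 277) (nat_lit 177)) (XT.nd (nat_lit 78) (nat_lit 76) (nat_lit 0) (XT.lf (nat_lit 0) (nat_lit 25425356071) (nat_lit 152) (nat_lit 7024479578) (nat_lit 76) (nat_lit 187550775068) (nat_lit 6) (nat_lit 5) (nat_lit 8) (nat_lit 5) (nat_lit 7) (nat_lit 4) (nat_lit 327) (nat_lit 277) (nat_lit 176)) (XT.lf (nat_lit 0) (nat_lit 43015833952) (nat_lit 76) (nat_lit 6468263584) (nat_lit 152) (nat_lit 185983754639) (nat_lit 5) (nat_lit 5) (nat_lit 6) (nat_lit 5) (nat_lit 7) (nat_lit 4) (nat_lit 328) (nat_lit 277) (nat_lit 175)))) (XT.nd (nat_lit 156) (nat_lit 0) (nat_lit 0) (XT.nd (nat_lit 78) (nat_lit 0) (nat_lit 0) (XT.lf (nat_lit 0) (nat_lit 76182231857) (nat_lit 152) (nat_lit 155225667300) (nat_lit 0) (nat_lit 20707399249) (nat_lit 5) (nat_lit 5) (nat_lit 7) (nat_lit 4) (nat_lit 5) (nat_lit 4) (nat_lit 329) (nat_lit 277) (nat_lit 174)) (XT.lf (nat_lit 0) (nat_lit 105182704389) (nat_lit 152) (nat_lit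 115192129485) (nat_lit 0) (nat_lit 49706388333) (nat_lit 5) (nat_lit 5) (nat_lit 7) (nat_lit 4) (nat_lit 5) (nat_lit 4) (nat_lit 330) (nat_lit 277) (nat_lit 173))) (XT.nd (nat_lit 78) (nat_lit 0) (nat_lit 0) (XT.lf (nat_lit 0) (nat_lit 136501807890) (nat_lit 152) (nat_lit 71958607106) (nat_lit 0) (nat_lit 81024118271) (nat_lit 5) (nat_lit 5) (nat_lit 7) (nat_lit 4) (nat_lit 5) (nat_lit 4) (nat_lit 331) (nat_lit 277) (nat_lit 172)) (XT.lf (nat_lit 0) (nat_lit 170325137046) (nat_lit 152) (nat_lit 25268901509) (nat_lit 0) (nat_lit 114846175610) (nat_lit 5) (nat_lit 5) (nat_lit 7) (nat_lit 4) (nat_lit 5) (nat_lit 4) (nat_lit 332) (nat_lit 277) (nat_lit 171))))) (XT.nd (nat_lit 312) (nat_lit 76) (nat_lit 0) (XT.nd (nat_lit 156) (nat_lit 0) (nat_lit 0) (XT.nd (nat_lit 78) (nat_lit 0) (nat_lit 0) (XT.lf (nat_lit 0) (nat_lit 26478214570) (nat_lit 76) (nat_lit 181011713529) (nat_lit 76) (nat_lit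 125531574485) (nat_lit 4) (nat_lit 4) (nat_lit 5) (nat_lit 5) (nat_lit 5) (nat_lit 4) (nat_lit 333) (nat_lit 277) (nat_lit 170)) (XT.lf (nat_lit 0) (nat_lit 83799909830) (nat_lit 76) (nat_lit 164517718132) (nat_lit 76) (nat_lit 109036488709) (nat_lit 4) (nat_lit 4) (nat_lit 5) (nat_lit 5) (nat_lit 5) (nat_lit 4) (nat_lit 334) (nat_lit 277) (nat_lit 169))) (XT.nd (nat_lit 78) (nat_lit 0) (nat_lit 0) (XT.lf (nat_lit 0) (nat_lit 145705252819) (nat_lit 76) (nat_lit 146705206717) (nat_lit 76) (nat_lit 91222967685) (nat_lit 4) (nat_lit 4) (nat_lit 5) (nat_lit 5) (nat_lit 5) (nat_lit 4) (nat_lit 335) (nat_lit 277) (nat_lit 168)) (XT.lf (nat_lit 0) (nat_lit 212561090011) (nat_lit 76) (nat_lit 127468623662) (nat_lit 76) (nat_lit 71985449807) (nat_lit 4) (nat_lit 4) (nat_lit 5) (nat_lit 5) (nat_lit 5) (nat_lit 4) (nat_lit 336) (nat_lit 277) (nat_lit 167)))) (XT.nd (nat_lit 156) (nat_lit 76) (nat_lit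 0) (XT.nd (nat_lit 78) (nat_lit 0) (nat_lit 0) (XT.lf (nat_lit 0) (nat_lit 284763604148) (nat_lit 76) (nat_lit 106693974400) (nat_lit 76) (nat_lit 51209934967) (nat_lit 4) (nat_lit 4) (nat_lit 5) (nat_lit 5) (nat_lit 5) (nat_lit 4) (nat_lit 337) (nat_lit 277) (nat_lit 166)) (XT.lf (nat_lit 0) (nat_lit 362740661978) (nat_lit 76) (nat_lit 84258149898) (nat_lit 76) (nat_lit 28773309005) (nat_lit 4) (nat_lit 4) (nat_lit 5) (nat_lit 5) (nat_lit 5) (nat_lit 4) (nat_lit 338) (nat_lit 277) (nat_lit 165))) (XT.nd (nat_lit 78) (nat_lit 76) (nat_lit 0) (XT.lf (nat_lit 0) (nat_lit 446954349771) (nat_lit 76) (nat_lit 60028197123) (nat_lit 76) (nat_lit 4542614137) (nat_lit 4) (nat_lit 4) (nat_lit 5) (nat_lit 5) (nat_lit 5) (nat_lit 4) (nat_lit 339) (nat_lit 277) (nat_lit 164)) (XT.lf (nat_lit 0) (nat_lit 20543931893) (nat_lit 152) (nat_lit 12754891771) (nat_lit 76) (nat_lit 516798072204) (nat_lit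 3) (nat_lit 5) (nat_lit 5) (nat_lit 5) (nat_lit 4) (nat_lit 4) (nat_lit 340) (nat_lit 277) (nat_lit 163)))))) (XT.nd (nat_lit 624) (nat_lit 0) (nat_lit 0) (XT.nd (nat_lit 312) (nat_lit 0) (nat_lit 0) (XT.nd (nat_lit 156) (nat_lit 0) (nat_lit 0) (XT.nd (nat_lit 78) (nat_lit 0) (nat_lit 0) (XT.lf (nat_lit 0) (nat_lit 45355841160) (nat_lit 76) (nat_lit 3126248981) (nat_lit 152) (nat_lit 543175631882) (nat_lit 2) (nat_lit 5) (nat_lit 3) (nat_lit 5) (nat_lit 4) (nat_lit 4) (nat_lit 341) (nat_lit 277) (nat_lit 162)) (XT.lf (nat_lit 0) (nat_lit 79720921009) (nat_lit 152) (nat_lit 528393633562) (nat_lit 0) (nat_lit 28343610424) (nat_lit 2) (nat_lit 5) (nat_lit 4) (nat_lit 4) (nat_lit 2) (nat_lit 4) (nat_lit 342) (nat_lit 277) (nat_lit 161))) (XT.nd (nat_lit 78) (nat_lit 0) (nat_lit 0) (XT.lf (nat_lit 0) (nat_lit 113539414731) (nat_lit 152) (nat_lit 509135185369) (nat_lit 0) (nat_lit 62161599090)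 (nat_lit 2) (nat_lit 5) (nat_lit 4) (nat_lit 4) (nat_lit 2) (nat_lit 4) (nat_lit 343) (nat_lit 277) (nat_lit 160)) (XT.lf (nat_lit 0) (nat_lit 150062790833) (nat_lit 152) (nat_lit 488337225783) (nat_lit 0) (nat_lit 98684507547) (nat_lit 2) (nat_lit 5) (nat_lit 4) (nat_lit 4) (nat_lit 2) (nat_lit 4) (nat_lit 344) (nat_lit 277) (nat_lit 159)))) (XT.nd (nat_lit 156) (nat_lit 0) (nat_lit 0) (XT.nd (nat_lit 78) (nat_lit 0) (nat_lit 0) (XT.lf (nat_lit 0) (nat_lit 189507484136) (nat_lit 152) (nat_lit 465876507637) (nat_lit 0) (nat_lit 138128767846) (nat_lit 2) (nat_lit 5) (nat_lit 4) (nat_lit 4) (nat_lit 2) (nat_lit 4) (nat_lit 345) (nat_lit 277) (nat_lit 158)) (XT.lf (nat_lit 0) (nat_lit 232107240972) (nat_lit 152) (nat_lit 441619930379) (nat_lit 0) (nat_lit 180728123752) (nat_lit 2) (nat_lit 5) (nat_lit 4) (nat_lit 4) (nat_lit 2) (nat_lit 4) (nat_lit 346) (nat_lit 277) (nat_lit 157))) (XT.nd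 (nat_lit 78) (nat_lit 0) (nat_lit 0) (XT.lf (nat_lit 0) (nat_lit 278114504343) (nat_lit 152) (nat_lit 415423751328) (nat_lit 0) (nat_lit 226735015892) (nat_lit 2) (nat_lit 5) (nat_lit 4) (nat_lit 4) (nat_lit 2) (nat_lit 4) (nat_lit 347) (nat_lit 277) (nat_lit 156)) (XT.lf (nat_lit 0) (nat_lit 327801909885) (nat_lit 152) (nat_lit 387132733868) (nat_lit 0) (nat_lit 276422077701) (nat_lit 2) (nat_lit 5) (nat_lit 4) (nat_lit 4) (nat_lit 2) (nat_lit 4) (nat_lit 348) (nat_lit 277) (nat_lit 155))))) (XT.nd (nat_lit 312) (nat_lit 0) (nat_lit 0) (XT.nd (nat_lit 156) (nat_lit 0) (nat_lit 0) (XT.nd (nat_lit 78) (nat_lit 0) (nat_lit 0) (XT.lf (nat_lit 0) (nat_lit 381463901482) (nat_lit 152) (nat_lit 356579227525) (nat_lit 0) (nat_lit 330083751027) (nat_lit 2) (nat_lit 5) (nat_lit 4) (nat_lit 4) (nat_lit 2) (nat_lit 4) (nat_lit 349) (nat_lit 277) (nat_lit 154)) (XT.lf (nat_lit 0) (nat_lit 439418476121)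 (nat_lit 152) (nat_lit 323582174484) (nat_lit 0) (nat_lit 388038030971) (nat_lit 2) (nat_lit 5) (nat_lit 4) (nat_lit 4) (nat_lit 2) (nat_lit 4) (nat_lit 350) (nat_lit 277) (nat_lit 153))) (XT.nd (nat_lit 78) (nat_lit 0) (nat_lit 0) (XT.lf (nat_lit 0) (nat_lit 502009068319) (nat_lit 152) (nat_lit 287946036653) (nat_lit 0) (nat_lit 450628350303) (nat_lit 2) (nat_lit 5) (nat_lit 4) (nat_lit 4) (nat_lit 2) (nat_lit 4) (nat_lit 351) (nat_lit 277) (nat_lit 152)) (XT.lf (nat_lit 0) (nat_lit 569606585288) (nat_lit 152) (nat_lit 249459636918) (nat_lit 0) (nat_lit 518225614618) (nat_lit 2) (nat_lit 5) (nat_lit 4) (nat_lit 4) (nat_lit 2) (nat_lit 4) (nat_lit 352) (nat_lit 277) (nat_lit 151)))) (XT.nd (nat_lit 156) (nat_lit 0) (nat_lit 0) (XT.nd (nat_lit 78) (nat_lit 0) (nat_lit 0) (XT.lf (nat_lit 0) (nat_lit 642611604908) (nat_lit 152) (nat_lit 207894907726) (nat_lit 0) (nat_lit 591230400299) (nat_lit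 2) (nat_lit 5) (nat_lit 4) (nat_lit 4) (nat_lit 2) (nat_lit 4) (nat_lit 353) (nat_lit 277) (nat_lit 150)) (XT.lf (nat_lit 0) (nat_lit 721456749516) (nat_lit 152) (nat_lit 163005539571) (nat_lit 0) (nat_lit 670075328298) (nat_lit 2) (nat_lit 5) (nat_lit 4) (nat_lit 4) (nat_lit 2) (nat_lit 4) (nat_lit 354) (nat_lit 277) (nat_lit 149))) (XT.nd (nat_lit 78) (nat_lit 0) (nat_lit 0) (XT.lf (nat_lit 0) (nat_lit 806609249599) (nat_lit 152) (nat_lit 114525521381) (nat_lit 0) (nat_lit 755227627816) (nat_lit 2) (nat_lit 5) (nat_lit 4) (nat_lit 4) (nat_lit 2) (nat_lit 4) (nat_lit 355) (nat_lit 277) (nat_lit 148)) (XT.lf (nat_lit 0) (nat_lit 898573712566) (nat_lit 152) (nat_lit 62167564160) (nat_lit 0) (nat_lit 847191905075) (nat_lit 2) (nat_lit 5) (nat_lit 4) (nat_lit 4) (nat_lit 2) (nat_lit 4) (nat_lit 356) (nat_lit 277) (nat_lit 147))))))) (XT.nd (nat_lit 34788) (nat_lit 0) (nat_lit 1824) (XT.nd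 (nat_lit 624) (nat_lit 0) (nat_lit 0) (XT.nd (nat_lit 312) (nat_lit 0) (nat_lit 0) (XT.nd (nat_lit 156) (nat_lit 0) (nat_lit 0) (XT.nd (nat_lit 78) (nat_lit 76) (nat_lit 0) (XT.lf (nat_lit 0) (nat_lit 997895113010) (nat_lit 152) (nat_lit 5621398532) (nat_lit 0) (nat_lit 946513133567) (nat_lit 2) (nat_lit 5) (nat_lit 4) (nat_lit 4) (nat_lit 2) (nat_lit 4) (nat_lit 357) (nat_lit 277) (nat_lit 146)) (XT.lf (nat_lit 0) (nat_lit 58367860673) (nat_lit 76) (nat_lit 1048197909975) (nat_lit 76) (nat_lit 996815771317) (nat_lit 1) (nat_lit 4) (nat_lit 2) (nat_lit 5) (nat_lit 2) (nat_lit 4) (nat_lit 358) (nat_lit 277) (nat_lit 145))) (XT.nd (nat_lit 78) (nat_lit 0) (nat_lit 0) (XT.lf (nat_lit 0) (nat_lit 127795568114) (nat_lit 76) (nat_lit 1096288014251) (nat_lit 76) (nat_lit 1044905728172) (nat_lit 1) (nat_lit 4) (nat_lit 2) (nat_lit 5) (nat_lit 2) (nat_lit 4) (nat_lit 359) (nat_lit 277) (nat_lit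 144)) (XT.lf (nat_lit 0) (nat_lit 202777134356) (nat_lit 76) (nat_lit 1148225501766) (nat_lit 76) (nat_lit 1096843079186) (nat_lit 1) (nat_lit 4) (nat_lit 2) (nat_lit 5) (nat_lit 2) (nat_lit 4) (nat_lit 360) (nat_lit 277) (nat_lit 143)))) (XT.nd (nat_lit 156) (nat_lit 0) (nat_lit 0) (XT.nd (nat_lit 78) (nat_lit 0) (nat_lit 0) (XT.lf (nat_lit 0) (nat_lit 283756894606) (nat_lit 76) (nat_lit 1204318150223) (nat_lit 76) (nat_lit 1152935601253) (nat_lit 1) (nat_lit 4) (nat_lit 2) (nat_lit 5) (nat_lit 2) (nat_lit 4) (nat_lit 361) (nat_lit 277) (nat_lit 142)) (XT.lf (nat_lit 0) (nat_lit 371214728926) (nat_lit 76) (nat_lit 1264898360501) (nat_lit 76) (nat_lit 1213515694504) (nat_lit 1) (nat_lit 4) (nat_lit 2) (nat_lit 5) (nat_lit 2) (nat_lit 4) (nat_lit 362) (nat_lit 277) (nat_lit 141))) (XT.nd (nat_lit 78) (nat_lit 0) (nat_lit 0) (XT.lf (nat_lit 0) (nat_lit 465668905963) (nat_lit 76) (nat_lit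 1330325126440) (nat_lit 76) (nat_lit 1278942352084) (nat_lit 1) (nat_lit 4) (nat_lit 2) (nat_lit 5) (nat_lit 2) (nat_lit 4) (nat_lit 363) (nat_lit 277) (nat_lit 140)) (XT.lf (nat_lit 0) (nat_lit 567679154174) (nat_lit 76) (nat_lit 1400986162208) (nat_lit 76) (nat_lit 1349603287519) (nat_lit 1) (nat_lit 4) (nat_lit 2) (nat_lit 5) (nat_lit 2) (nat_lit 4) (nat_lit 364) (nat_lit 277) (nat_lit 139))))) (XT.nd (nat_lit 33852) (nat_lit 0) (nat_lit 3344) (XT.nd (nat_lit 156) (nat_lit 0) (nat_lit 0) (XT.nd (nat_lit 78) (nat_lit 0) (nat_lit 0) (XT.lf (nat_lit 0) (nat_lit 677849978733) (nat_lit 76) (nat_lit 1477300199868) (nat_lit 76) (nat_lit 1425917232280) (nat_lit 1) (nat_lit 4) (nat_lit 2) (nat_lit 5) (nat_lit 2) (nat_lit 4) (nat_lit 365) (nat_lit 277) (nat_lit 138)) (XT.lf (nat_lit 0) (nat_lit 796834243786) (nat_lit 76) (nat_lit 1559719470756) (nat_lit 76) (nat_lit 1508336417148) (nat_lit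 1) (nat_lit 4) (nat_lit 2) (nat_lit 5) (nat_lit 2) (nat_lit 4) (nat_lit 366) (nat_lit 277) (nat_lit 137))) (XT.nd (nat_lit 78) (nat_lit 0) (nat_lit 0) (XT.lf (nat_lit 0) (nat_lit 925337041274) (nat_lit 76) (nat_lit 1648732385364) (nat_lit 76) (nat_lit 1597349252110) (nat_lit 1) (nat_lit 4) (nat_lit 2) (nat_lit 5) (nat_lit 2) (nat_lit 4) (nat_lit 367) (nat_lit 277) (nat_lit 136)) (XT.lf (nat_lit 0) (nat_lit 1064119869257) (nat_lit 76) (nat_lit 1744866427632) (nat_lit 76) (nat_lit 1693483220631) (nat_lit 1) (nat_lit 4) (nat_lit 2) (nat_lit 5) (nat_lit 2) (nat_lit 4) (nat_lit 368) (nat_lit 277) (nat_lit 135)))) (XT.nd (nat_lit 156) (nat_lit 0) (nat_lit 76) (XT.nd (nat_lit 78) (nat_lit 0) (nat_lit 0) (XT.lf (nat_lit 0) (nat_lit 4269916059) (nat_lit 532) (nat_lit 1985399242) (nat_lit 532) (nat_lit 1985399242) (nat_lit 45) (nat_lit 3) (nat_lit 52) (nat_lit 3) (nat_lit 52) (nat_lit 5) (nat_lit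 278) (nat_lit 278) (nat_lit 224)) (XT.lf (nat_lit 76) (nat_lit 3786479193) (nat_lit 0) (nat_lit 5410979170) (nat_lit 532) (nat_lit 7917297908) (nat_lit 46) (nat_lit 5) (nat_lit 45) (nat_lit 3) (nat_lit 52) (nat_lit 5) (nat_lit 279) (nat_lit 278) (nat_lit 223))) (XT.nd (nat_lit 78) (nat_lit 0) (nat_lit 0) (XT.lf (nat_lit 0) (nat_lit 10050779758) (nat_lit 456) (nat_lit 5471953026) (nat_lit 532) (nat_lit 2264634807) (nat_lit 46) (nat_lit 5) (nat_lit 52) (nat_lit 5) (nat_lit 53) (nat_lit 5) (nat_lit 280) (nat_lit 278) (nat_lit 222)) (XT.lf (nat_lit 76) (nat_lit 3009004159) (nat_lit 0) (nat_lit 8155370597) (nat_lit 532) (nat_lit 7334112397) (nat_lit 47) (nat_lit 5) (nat_lit 46) (nat_lit 5) (nat_lit 53) (nat_lit 5) (nat_lit 281) (nat_lit 278) (nat_lit 221)))))) (XT.nd (nat_lit 624) (nat_lit 760) (nat_lit 0) (XT.nd (nat_lit 312) (nat_lit 532) (nat_lit 0) (XT.nd (nat_lit 156) (nat_lit 304) (nat_lit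 0) (XT.nd (nat_lit 78) (nat_lit 0) (nat_lit 76) (XT.lf (nat_lit 76) (nat_lit 12466132932) (nat_lit 0) (nat_lit 30857420) (nat_lit 532) (nat_lit 6759166815) (nat_lit 47) (nat_lit 5) (nat_lit 46) (nat_lit 5) (nat_lit 53) (nat_lit 5) (nat_lit 282) (nat_lit 278) (nat_lit 220)) (XT.lf (nat_lit 76) (nat_lit 2506337560) (nat_lit 0) (nat_lit 11682354804) (nat_lit 532) (nat_lit 5865601656) (nat_lit 48) (nat_lit 5) (nat_lit 47) (nat_lit 5) (nat_lit 54) (nat_lit 5) (nat_lit 283) (nat_lit 278) (nat_lit 219))) (XT.nd (nat_lit 78) (nat_lit 380) (nat_lit 0) (XT.lf (nat_lit 76) (nat_lit 12917930815) (nat_lit 0) (nat_lit 3267155694) (nat_lit 532) (nat_lit 4717694440) (nat_lit 48) (nat_lit 5) (nat_lit 47) (nat_lit 5) (nat_lit 54) (nat_lit 5) (nat_lit 284) (nat_lit 278) (nat_lit 218)) (XT.lf (nat_lit 0) (nat_lit 2304430897) (nat_lit 456) (nat_lit 16216445957) (nat_lit 532) (nat_lit 3283939283) (nat_lit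 42) (nat_lit 5) (nat_lit 48) (nat_lit 5) (nat_lit 49) (nat_lit 5) (nat_lit 285) (nat_lit 278) (nat_lit 217)))) (XT.nd (nat_lit 156) (nat_lit 228) (nat_lit 0) (XT.nd (nat_lit 78) (nat_lit 304) (nat_lit 0) (XT.lf (nat_lit 0) (nat_lit 13767838959) (nat_lit 456) (nat_lit 7561819975) (nat_lit 532) (nat_lit 1426505738) (nat_lit 42) (nat_lit 5) (nat_lit 48) (nat_lit 5) (nat_lit 49) (nat_lit 5) (nat_lit 286) (nat_lit 278) (nat_lit 216)) (XT.lf (nat_lit 0) (nat_lit 640355573) (nat_lit 304) (nat_lit 21363508617) (nat_lit 76) (nat_lit 1771491037) (nat_lit 38) (nat_lit 5) (nat_lit 42) (nat_lit 5) (nat_lit 39) (nat_lit 5) (nat_lit 287) (nat_lit 278) (nat_lit 215))) (XT.nd (nat_lit 78) (nat_lit 228) (nat_lit 0) (XT.lf (nat_lit 0) (nat_lit 3230593638) (nat_lit 304) (nat_lit 9875384263) (nat_lit 76) (nat_lit 11732363659) (nat_lit 38) (nat_lit 5) (nat_lit 42) (nat_lit 5) (nat_lit 39) (nat_lit 5) (nat_lit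 288) (nat_lit 278) (nat_lit 214)) (XT.lf (nat_lit 0) (nat_lit 2651148007) (nat_lit 228) (nat_lit 3428204818) (nat_lit 304) (nat_lit 19902939808) (nat_lit 35) (nat_lit 5) (nat_lit 38) (nat_lit 5) (nat_lit 39) (nat_lit 5) (nat_lit 289) (nat_lit 278) (nat_lit 213))))) (XT.nd (nat_lit 312) (nat_lit 380) (nat_lit 0) (XT.nd (nat_lit 156) (nat_lit 152) (nat_lit 0) (XT.nd (nat_lit 78) (nat_lit 228) (nat_lit 0) (XT.lf (nat_lit 0) (nat_lit 9590086653) (nat_lit 304) (nat_lit 10644546702) (nat_lit 76) (nat_lit 6948428302) (nat_lit 35) (nat_lit 5) (nat_lit 39) (nat_lit 5) (nat_lit 36) (nat_lit 5) (nat_lit 290) (nat_lit 278) (nat_lit 212)) (XT.lf (nat_lit 0) (nat_lit 3110695392) (nat_lit 228) (nat_lit 10423847611) (nat_lit 304) (nat_lit 14933145812) (nat_lit 32) (nat_lit 5) (nat_lit 35) (nat_lit 5) (nat_lit 36) (nat_lit 5) (nat_lit 291) (nat_lit 278) (nat_lit 211))) (XT.nd (nat_lit 78) (nat_lit 152)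 (nat_lit 0) (XT.lf (nat_lit 0) (nat_lit 18086759116) (nat_lit 304) (nat_lit 11285109251) (nat_lit 76) (nat_lit 459865334) (nat_lit 32) (nat_lit 5) (nat_lit 36) (nat_lit 5) (nat_lit 33) (nat_lit 5) (nat_lit 292) (nat_lit 278) (nat_lit 210)) (XT.lf (nat_lit 0) (nat_lit 3820546788) (nat_lit 152) (nat_lit 19535490338) (nat_lit 228) (nat_lit 7920656334) (nat_lit 30) (nat_lit 5) (nat_lit 32) (nat_lit 5) (nat_lit 33) (nat_lit 5) (nat_lit 293) (nat_lit 278) (nat_lit 209)))) (XT.nd (nat_lit 156) (nat_lit 152) (nat_lit 0) (XT.nd (nat_lit 78) (nat_lit 228) (nat_lit 0) (XT.lf (nat_lit 0) (nat_lit 20764413301) (nat_lit 152) (nat_lit 8581682711) (nat_lit 228) (nat_lit 3467235312) (nat_lit 30) (nat_lit 5) (nat_lit 32) (nat_lit 5) (nat_lit 33) (nat_lit 5) (nat_lit 294) (nat_lit 278) (nat_lit 208)) (XT.lf (nat_lit 0) (nat_lit 1463436184) (nat_lit 228) (nat_lit 29757312966) (nat_lit 76) (nat_lit 3234535112)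 (nat_lit 27) (nat_lit 5) (nat_lit 30) (nat_lit 5) (nat_lit 28) (nat_lit 5) (nat_lit 295) (nat_lit 278) (nat_lit 207))) (XT.nd (nat_lit 78) (nat_lit 152) (nat_lit 0) (XT.lf (nat_lit 0) (nat_lit 7153584676) (nat_lit 228) (nat_lit 13065870727) (nat_lit 76) (nat_lit 15957762073) (nat_lit 27) (nat_lit 5) (nat_lit 30) (nat_lit 5) (nat_lit 28) (nat_lit 5) (nat_lit 296) (nat_lit 278) (nat_lit 206)) (XT.lf (nat_lit 0) (nat_lit 5210460175) (nat_lit 152) (nat_lit 8205877645) (nat_lit 228) (nat_lit 24611191112) (nat_lit 25) (nat_lit 5) (nat_lit 27) (nat_lit 5) (nat_lit 28) (nat_lit 5) (nat_lit 297) (nat_lit 278) (nat_lit 205))))))))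
noncomputable def xc79 : XT := (XT.nd (nat_lit 2496) (nat_lit 304) (nat_lit 0) (XT.nd (nat_lit 1248) (nat_lit 532) (nat_lit 0) (XT.nd (nat_lit 624) (nat_lit 456) (nat_lit 0) (XT.nd (nat_lit 312) (nat_lit 228) (nat_lit 0) (XT.nd (nat_lit 156) (nat_lit 152) (nat_lit 0) (XT.nd (nat_lit 78) (nat_lit 152) (nat_lit 0) (XT.lf (nat_lit 0) (nat_lit 20653654801) (nat_lit 228) (nat_lit 14440627958) (nat_lit 76) (nat_lit 4893712955) (nat_lit 25) (nat_lit 5) (nat_lit 28) (nat_lit 5) (nat_lit 26) (nat_lit 5) (nat_lit 298) (nat_lit 278) (nat_lit 204)) (XT.lf (nat_lit 0) (nat_lit 5455179642) (nat_lit 152) (nat_lit 23352013480) (nat_lit 228) (nat_lit 13271140702) (nat_lit 23) (nat_lit 5) (nat_lit 25) (nat_lit 5) (nat_lit 26) (nat_lit 5) (nat_lit 299) (nat_lit 278) (nat_lit 203))) (XT.nd (nat_lit 78) (nat_lit 152) (nat_lit 0) (XT.lf (nat_lit 0) (nat_lit 27753669991) (nat_lit 152) (nat_lit 10247355865)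 (nat_lit 228) (nat_lit 6303844133) (nat_lit 23) (nat_lit 5) (nat_lit 25) (nat_lit 5) (nat_lit 26) (nat_lit 5) (nat_lit 300) (nat_lit 278) (nat_lit 202)) (XT.lf (nat_lit 0) (nat_lit 1380026892) (nat_lit 152) (nat_lit 41440153745) (nat_lit 76) (nat_lit 3869388781) (nat_lit 21) (nat_lit 5) (nat_lit 23) (nat_lit 5) (nat_lit 22) (nat_lit 5) (nat_lit 301) (nat_lit 278) (nat_lit 201)))) (XT.nd (nat_lit 156) (nat_lit 76) (nat_lit 0) (XT.nd (nat_lit 78) (nat_lit 152) (nat_lit 0) (XT.lf (nat_lit 0) (nat_lit 10062174606) (nat_lit 152) (nat_lit 19945141925) (nat_lit 76) (nat_lit 19186707764) (nat_lit 21) (nat_lit 5) (nat_lit 23) (nat_lit 5) (nat_lit 22) (nat_lit 5) (nat_lit 302) (nat_lit 278) (nat_lit 200)) (XT.lf (nat_lit 0) (nat_lit 3431882011) (nat_lit 152) (nat_lit 16083696964) (nat_lit 228) (nat_lit 32377130555) (nat_lit 19) (nat_lit 5) (nat_lit 21) (nat_lit 5) (nat_lit 22) (nat_lit 5) (nat_lit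 303) (nat_lit 278) (nat_lit 199))) (XT.nd (nat_lit 78) (nat_lit 76) (nat_lit 0) (XT.lf (nat_lit 0) (nat_lit 29804334861) (nat_lit 152) (nat_lit 460620645) (nat_lit 228) (nat_lit 24499166204) (nat_lit 19) (nat_lit 5) (nat_lit 21) (nat_lit 5) (nat_lit 22) (nat_lit 5) (nat_lit 304) (nat_lit 278) (nat_lit 198)) (XT.lf (nat_lit 0) (nat_lit 18852602) (nat_lit 76) (nat_lit 42245305351) (nat_lit 152) (nat_lit 15569906352) (nat_lit 18) (nat_lit 5) (nat_lit 19) (nat_lit 5) (nat_lit 20) (nat_lit 4) (nat_lit 305) (nat_lit 278) (nat_lit 197))))) (XT.nd (nat_lit 312) (nat_lit 228) (nat_lit 0) (XT.nd (nat_lit 156) (nat_lit 152) (nat_lit 0) (XT.nd (nat_lit 78) (nat_lit 76) (nat_lit 0) (XT.lf (nat_lit 0) (nat_lit 28394183456) (nat_lit 76) (nat_lit 27518113301) (nat_lit 152) (nat_lit 5182192489) (nat_lit 18) (nat_lit 5) (nat_lit 19) (nat_lit 5) (nat_lit 20) (nat_lit 4) (nat_lit 306) (nat_lit 278) (nat_lit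 196)) (XT.lf (nat_lit 0) (nat_lit 5729709756) (nat_lit 152) (nat_lit 5729509821) (nat_lit 76) (nat_lit 53145308784) (nat_lit 17) (nat_lit 5) (nat_lit 19) (nat_lit 5) (nat_lit 18) (nat_lit 5) (nat_lit 307) (nat_lit 278) (nat_lit 195))) (XT.nd (nat_lit 78) (nat_lit 0) (nat_lit 0) (XT.lf (nat_lit 0) (nat_lit 17979110740) (nat_lit 228) (nat_lit 44016612410) (nat_lit 76) (nat_lit 6329323216) (nat_lit 15) (nat_lit 5) (nat_lit 18) (nat_lit 5) (nat_lit 16) (nat_lit 4) (nat_lit 308) (nat_lit 278) (nat_lit 194)) (XT.lf (nat_lit 0) (nat_lit 31662417752) (nat_lit 228) (nat_lit 15564740634) (nat_lit 76) (nat_lit 25079736220) (nat_lit 15) (nat_lit 5) (nat_lit 18) (nat_lit 5) (nat_lit 16) (nat_lit 4) (nat_lit 309) (nat_lit 278) (nat_lit 193)))) (XT.nd (nat_lit 156) (nat_lit 152) (nat_lit 0) (XT.nd (nat_lit 78) (nat_lit 0) (nat_lit 0) (XT.lf (nat_lit 0) (nat_lit 15954333356) (nat_lit 76) (nat_lit 30865672857)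 (nat_lit 152) (nat_lit 29756919872) (nat_lit 14) (nat_lit 5) (nat_lit 15) (nat_lit 5) (nat_lit 16) (nat_lit 4) (nat_lit 310) (nat_lit 278) (nat_lit 192)) (XT.lf (nat_lit 0) (nat_lit 50873244388) (nat_lit 76) (nat_lit 12738577139) (nat_lit 152) (nat_lit 17543013351) (nat_lit 14) (nat_lit 5) (nat_lit 15) (nat_lit 5) (nat_lit 16) (nat_lit 4) (nat_lit 311) (nat_lit 278) (nat_lit 191))) (XT.nd (nat_lit 78) (nat_lit 76) (nat_lit 0) (XT.lf (nat_lit 0) (nat_lit 2437566247) (nat_lit 76) (nat_lit 79528789470) (nat_lit 76) (nat_lit 4115074824) (nat_lit 13) (nat_lit 4) (nat_lit 14) (nat_lit 5) (nat_lit 14) (nat_lit 4) (nat_lit 312) (nat_lit 278) (nat_lit 190)) (XT.lf (nat_lit 0) (nat_lit 11044127332) (nat_lit 152) (nat_lit 52448331909) (nat_lit 76) (nat_lit 27795582630) (nat_lit 12) (nat_lit 5) (nat_lit 14) (nat_lit 5) (nat_lit 13) (nat_lit 4) (nat_lit 313) (nat_lit 278) (nat_lit 189)))))) (XT.nd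 (nat_lit 624) (nat_lit 228) (nat_lit 0) (XT.nd (nat_lit 312) (nat_lit 228) (nat_lit 0) (XT.nd (nat_lit 156) (nat_lit 0) (nat_lit 0) (XT.nd (nat_lit 78) (nat_lit 76) (nat_lit 0) (XT.lf (nat_lit 0) (nat_lit 27190322107) (nat_lit 152) (nat_lit 18870174663) (nat_lit 76) (nat_lit 50842411564) (nat_lit 12) (nat_lit 5) (nat_lit 14) (nat_lit 5) (nat_lit 13) (nat_lit 4) (nat_lit 314) (nat_lit 278) (nat_lit 188)) (XT.lf (nat_lit 0) (nat_lit 18304207347) (nat_lit 76) (nat_lit 26761052641) (nat_lit 152) (nat_lit 57866743304) (nat_lit 11) (nat_lit 5) (nat_lit 12) (nat_lit 5) (nat_lit 13) (nat_lit 4) (nat_lit 315) (nat_lit 278) (nat_lit 187))) (XT.nd (nat_lit 78) (nat_lit 0) (nat_lit 0) (XT.lf (nat_lit 0) (nat_lit 59520168832) (nat_lit 76) (nat_lit 5362900623) (nat_lit 152) (nat_lit 44519329029) (nat_lit 11) (nat_lit 5) (nat_lit 12) (nat_lit 5) (nat_lit 13) (nat_lit 4) (nat_lit 316) (nat_lit 278)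 (nat_lit 186)) (XT.lf (nat_lit 0) (nat_lit 86710226764) (nat_lit 152) (nat_lit 12789135825) (nat_lit 0) (nat_lit 16857151410) (nat_lit 11) (nat_lit 5) (nat_lit 13) (nat_lit 4) (nat_lit 11) (nat_lit 4) (nat_lit 317) (nat_lit 278) (nat_lit 185)))) (XT.nd (nat_lit 156) (nat_lit 76) (nat_lit 0) (XT.nd (nat_lit 78) (nat_lit 76) (nat_lit 0) (XT.lf (nat_lit 0) (nat_lit 28555672847) (nat_lit 76) (nat_lit 82551263823) (nat_lit 76) (nat_lit 12694154051) (nat_lit 10) (nat_lit 4) (nat_lit 11) (nat_lit 5) (nat_lit 11) (nat_lit 4) (nat_lit 318) (nat_lit 278) (nat_lit 184)) (XT.lf (nat_lit 0) (nat_lit 5689400734) (nat_lit 152) (nat_lit 58026891817) (nat_lit 76) (nat_lit 68085653948) (nat_lit 9) (nat_lit 5) (nat_lit 11) (nat_lit 5) (nat_lit 10) (nat_lit 4) (nat_lit 319) (nat_lit 278) (nat_lit 183))) (XT.nd (nat_lit 78) (nat_lit 76) (nat_lit 0) (XT.lf (nat_lit 0) (nat_lit 24855356682) (nat_lit 152) (nat_lit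 18165162308) (nat_lit 76) (nat_lit 97396173698) (nat_lit 9) (nat_lit 5) (nat_lit 11) (nat_lit 5) (nat_lit 10) (nat_lit 4) (nat_lit 320) (nat_lit 278) (nat_lit 182)) (XT.lf (nat_lit 0) (nat_lit 26191487287) (nat_lit 76) (nat_lit 19990721437) (nat_lit 152) (nat_lit 103488202020) (nat_lit 8) (nat_lit 5) (nat_lit 9) (nat_lit 5) (nat_lit 10) (nat_lit 4) (nat_lit 321) (nat_lit 278) (nat_lit 181))))) (XT.nd (nat_lit 312) (nat_lit 152) (nat_lit 0) (XT.nd (nat_lit 156) (nat_lit 76) (nat_lit 0) (XT.nd (nat_lit 78) (nat_lit 0) (nat_lit 0) (XT.lf (nat_lit 0) (nat_lit 69839914752) (nat_lit 152) (nat_lit 84629503625) (nat_lit 0) (nat_lit 5145033012) (nat_lit 8) (nat_lit 5) (nat_lit 10) (nat_lit 4) (nat_lit 8) (nat_lit 4) (nat_lit 322) (nat_lit 278) (nat_lit 180)) (XT.lf (nat_lit 0) (nat_lit 95907382709) (nat_lit 152) (nat_lit 43195303832) (nat_lit 0) (nat_lit 31209958600) (nat_lit 8) (nat_lit 5) (nat_lit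 10) (nat_lit 4) (nat_lit 8) (nat_lit 4) (nat_lit 323) (nat_lit 278) (nat_lit 179))) (XT.nd (nat_lit 78) (nat_lit 0) (nat_lit 0) (XT.lf (nat_lit 0) (nat_lit 1631608937) (nat_lit 76) (nat_lit 122465940444) (nat_lit 76) (nat_lit 57766162291) (nat_lit 7) (nat_lit 4) (nat_lit 8) (nat_lit 5) (nat_lit 8) (nat_lit 4) (nat_lit 324) (nat_lit 278) (nat_lit 178)) (XT.lf (nat_lit 0) (nat_lit 52497679458) (nat_lit 76) (nat_lit 103224405367) (nat_lit 76) (nat_lit 38522447543) (nat_lit 7) (nat_lit 4) (nat_lit 8) (nat_lit 5) (nat_lit 8) (nat_lit 4) (nat_lit 325) (nat_lit 278) (nat_lit 177)))) (XT.nd (nat_lit 156) (nat_lit 76) (nat_lit 0) (XT.nd (nat_lit 78) (nat_lit 76) (nat_lit 0) (XT.lf (nat_lit 0) (nat_lit 107429748146) (nat_lit 76) (nat_lit 82445093555) (nat_lit 76) (nat_lit 17741117517) (nat_lit 7) (nat_lit 4) (nat_lit 8) (nat_lit 5) (nat_lit 8) (nat_lit 4) (nat_lit 326) (nat_lit 278) (nat_lit 176))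 (XT.lf (nat_lit 0) (nat_lit 4465814531) (nat_lit 152) (nat_lit 55416950529) (nat_lit 76) (nat_lit 162165420555) (nat_lit 6) (nat_lit 5) (nat_lit 8) (nat_lit 5) (nat_lit 7) (nat_lit 4) (nat_lit 327) (nat_lit 278) (nat_lit 175))) (XT.nd (nat_lit 78) (nat_lit 76) (nat_lit 0) (XT.lf (nat_lit 0) (nat_lit 27489287272) (nat_lit 152) (nat_lit 7529857521) (nat_lit 76) (nat_lit 202579104230) (nat_lit 6) (nat_lit 5) (nat_lit 8) (nat_lit 5) (nat_lit 7) (nat_lit 4) (nat_lit 328) (nat_lit 278) (nat_lit 174)) (XT.lf (nat_lit 0) (nat_lit 46512248677) (nat_lit 76) (nat_lit 6959590672) (nat_lit 152) (nat_lit 200831102902) (nat_lit 5) (nat_lit 5) (nat_lit 6) (nat_lit 5) (nat_lit 7) (nat_lit 4) (nat_lit 329) (nat_lit 278) (nat_lit 173))))))) (XT.nd (nat_lit 1248) (nat_lit 76) (nat_lit 0) (XT.nd (nat_lit 624) (nat_lit 152) (nat_lit 0) (XT.nd (nat_lit 312) (nat_lit 76) (nat_lit 0) (XT.nd (nat_lit 156) (nat_lit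 0) (nat_lit 0) (XT.nd (nat_lit 78) (nat_lit 0) (nat_lit 0) (XT.lf (nat_lit 0) (nat_lit 82304257196) (nat_lit 152) (nat_lit 167591074774) (nat_lit 0) (nat_lit 22386978845) (nat_lit 5) (nat_lit 5) (nat_lit 7) (nat_lit 4) (nat_lit 5) (nat_lit 4) (nat_lit 330) (nat_lit 278) (nat_lit 172)) (XT.lf (nat_lit 0) (nat_lit 113622734435) (nat_lit 152) (nat_lit 124358753632) (nat_lit 0) (nat_lit 53704184267) (nat_lit 5) (nat_lit 5) (nat_lit 7) (nat_lit 4) (nat_lit 5) (nat_lit 4) (nat_lit 331) (nat_lit 278) (nat_lit 171))) (XT.nd (nat_lit 78) (nat_lit 0) (nat_lit 0) (XT.lf (nat_lit 0) (nat_lit 147445483720) (nat_lit 152) (nat_lit 77670160292) (nat_lit 0) (nat_lit 87525755944) (nat_lit 5) (nat_lit 5) (nat_lit 7) (nat_lit 4) (nat_lit 5) (nat_lit 4) (nat_lit 332) (nat_lit 278) (nat_lit 170)) (XT.lf (nat_lit 0) (nat_lit 183972936157) (nat_lit 152) (nat_lit 27248621610) (nat_lit 0) (nat_lit 124052118003)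 (nat_lit 5) (nat_lit 5) (nat_lit 7) (nat_lit 4) (nat_lit 5) (nat_lit 4) (nat_lit 333) (nat_lit 278) (nat_lit 169)))) (XT.nd (nat_lit 156) (nat_lit 0) (nat_lit 0) (XT.nd (nat_lit 78) (nat_lit 0) (nat_lit 0) (XT.lf (nat_lit 0) (nat_lit 28637205730) (nat_lit 76) (nat_lit 195473070480) (nat_lit 76) (nat_lit 135551242716) (nat_lit 4) (nat_lit 4) (nat_lit 5) (nat_lit 5) (nat_lit 5) (nat_lit 4) (nat_lit 334) (nat_lit 278) (nat_lit 168)) (XT.lf (nat_lit 0) (nat_lit 90541619279) (nat_lit 76) (nat_lit 177661005831) (nat_lit 76) (nat_lit 117738243244) (nat_lit 4) (nat_lit 4) (nat_lit 5) (nat_lit 5) (nat_lit 5) (nat_lit 4) (nat_lit 335) (nat_lit 278) (nat_lit 167))) (XT.nd (nat_lit 78) (nat_lit 0) (nat_lit 0) (XT.lf (nat_lit 0) (nat_lit 157396595879) (nat_lit 76) (nat_lit 158424836448) (nat_lit 76) (nat_lit 98501208283) (nat_lit 4) (nat_lit 4) (nat_lit 5) (nat_lit 5) (nat_lit 5) (nat_lit 4) (nat_lit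 336) (nat_lit 278) (nat_lit 166)) (XT.lf (nat_lit 0) (nat_lit 229598313171) (nat_lit 76) (nat_lit 137650570215) (nat_lit 76) (nat_lit 77726140590) (nat_lit 4) (nat_lit 4) (nat_lit 5) (nat_lit 5) (nat_lit 5) (nat_lit 4) (nat_lit 337) (nat_lit 278) (nat_lit 165))))) (XT.nd (nat_lit 312) (nat_lit 76) (nat_lit 0) (XT.nd (nat_lit 156) (nat_lit 76) (nat_lit 0) (XT.nd (nat_lit 78) (nat_lit 0) (nat_lit 0) (XT.lf (nat_lit 0) (nat_lit 307574633182) (nat_lit 76) (nat_lit 115215100371) (nat_lit 76) (nat_lit 55289928653) (nat_lit 4) (nat_lit 4) (nat_lit 5) (nat_lit 5) (nat_lit 5) (nat_lit 4) (nat_lit 338) (nat_lit 278) (nat_lit 164)) (XT.lf (nat_lit 0) (nat_lit 391787637809) (nat_lit 76) (nat_lit 90985475982) (nat_lit 76) (nat_lit 31059617141) (nat_lit 4) (nat_lit 4) (nat_lit 5) (nat_lit 5) (nat_lit 5) (nat_lit 4) (nat_lit 339) (nat_lit 278) (nat_lit 163))) (XT.nd (nat_lit 78) (nat_lit 76) (nat_lit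 0) (XT.lf (nat_lit 0) (nat_lit 482736367079) (nat_lit 76) (nat_lit 64818114089) (nat_lit 76) (nat_lit 4891619023) (nat_lit 4) (nat_lit 4) (nat_lit 5) (nat_lit 5) (nat_lit 5) (nat_lit 4) (nat_lit 340) (nat_lit 278) (nat_lit 162)) (XT.lf (nat_lit 0) (nat_lit 22200116524) (nat_lit 152) (nat_lit 13750841792) (nat_lit 76) (nat_lit 558152669372) (nat_lit 3) (nat_lit 5) (nat_lit 5) (nat_lit 5) (nat_lit 4) (nat_lit 4) (nat_lit 341) (nat_lit 278) (nat_lit 161)))) (XT.nd (nat_lit 156) (nat_lit 0) (nat_lit 0) (XT.nd (nat_lit 78) (nat_lit 0) (nat_lit 0) (XT.lf (nat_lit 0) (nat_lit 49008131007) (nat_lit 76) (nat_lit 3364830835) (nat_lit 152) (nat_lit 586616387805) (nat_lit 2) (nat_lit 5) (nat_lit 3) (nat_lit 5) (nat_lit 4) (nat_lit 4) (nat_lit 342) (nat_lit 278) (nat_lit 160)) (XT.lf (nat_lit 0) (nat_lit 86110244225) (nat_lit 152) (nat_lit 570642406022) (nat_lit 0) (nat_lit 30621230632) (nat_lit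 2) (nat_lit 5) (nat_lit 4) (nat_lit 4) (nat_lit 2) (nat_lit 4) (nat_lit 343) (nat_lit 278) (nat_lit 159))) (XT.nd (nat_lit 78) (nat_lit 0) (nat_lit 0) (XT.lf (nat_lit 0) (nat_lit 122633354516) (nat_lit 152) (nat_lit 549844964805) (nat_lit 0) (nat_lit 67143907919) (nat_lit 2) (nat_lit 5) (nat_lit 4) (nat_lit 4) (nat_lit 2) (nat_lit 4) (nat_lit 344) (nat_lit 278) (nat_lit 158)) (XT.lf (nat_lit 0) (nat_lit 162077801699) (nat_lit 152) (nat_lit 527384726630) (nat_lit 0) (nat_lit 106587954172) (nat_lit 2) (nat_lit 5) (nat_lit 4) (nat_lit 4) (nat_lit 2) (nat_lit 4) (nat_lit 345) (nat_lit 278) (nat_lit 157)))))) (XT.nd (nat_lit 624) (nat_lit 76) (nat_lit 0) (XT.nd (nat_lit 312) (nat_lit 0) (nat_lit 0) (XT.nd (nat_lit 156) (nat_lit 0) (nat_lit 0) (XT.nd (nat_lit 78) (nat_lit 0) (nat_lit 0) (XT.lf (nat_lit 0) (nat_lit 204677330644) (nat_lit 152) (nat_lit 503128593789) (nat_lit 0) (nat_lit 149187111886)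 (nat_lit 2) (nat_lit 5) (nat_lit 4) (nat_lit 4) (nat_lit 2) (nat_lit 4) (nat_lit 346) (nat_lit 278) (nat_lit 156)) (XT.lf (nat_lit 0) (nat_lit 250684383006) (nat_lit 152) (nat_lit 476932826235) (nat_lit 0) (nat_lit 195193820515) (nat_lit 2) (nat_lit 5) (nat_lit 4) (nat_lit 4) (nat_lit 2) (nat_lit 4) (nat_lit 347) (nat_lit 278) (nat_lit 155))) (XT.nd (nat_lit 78) (nat_lit 0) (nat_lit 0) (XT.lf (nat_lit 0) (nat_lit 300371593169) (nat_lit 152) (nat_lit 448642189792) (nat_lit 0) (nat_lit 244880712407) (nat_lit 2) (nat_lit 5) (nat_lit 4) (nat_lit 4) (nat_lit 2) (nat_lit 4) (nat_lit 348) (nat_lit 278) (nat_lit 154)) (XT.lf (nat_lit 0) (nat_lit 354033403859) (nat_lit 152) (nat_lit 418089036242) (nat_lit 0) (nat_lit 298542228402) (nat_lit 2) (nat_lit 5) (nat_lit 4) (nat_lit 4) (nat_lit 2) (nat_lit 4) (nat_lit 349) (nat_lit 278) (nat_lit 153)))) (XT.nd (nat_lit 156) (nat_lit 0) (nat_lit 0) (XT.nd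 (nat_lit 78) (nat_lit 0) (nat_lit 0) (XT.lf (nat_lit 0) (nat_lit 411987810992) (nat_lit 152) (nat_lit 385092309861) (nat_lit 0) (nat_lit 356496362669) (nat_lit 2) (nat_lit 5) (nat_lit 4) (nat_lit 4) (nat_lit 2) (nat_lit 4) (nat_lit 350) (nat_lit 278) (nat_lit 152)) (XT.lf (nat_lit 0) (nat_lit 474578248092) (nat_lit 152) (nat_lit 349456474493) (nat_lit 0) (nat_lit 419086547115) (nat_lit 2) (nat_lit 5) (nat_lit 4) (nat_lit 4) (nat_lit 2) (nat_lit 4) (nat_lit 351) (nat_lit 278) (nat_lit 151))) (XT.nd (nat_lit 78) (nat_lit 0) (nat_lit 0) (XT.lf (nat_lit 0) (nat_lit 542175621452) (nat_lit 152) (nat_lit 310970354817) (nat_lit 0) (nat_lit 486683686536) (nat_lit 2) (nat_lit 5) (nat_lit 4) (nat_lit 4) (nat_lit 2) (nat_lit 4) (nat_lit 352) (nat_lit 278) (nat_lit 150)) (XT.lf (nat_lit 0) (nat_lit 615180508100) (nat_lit 152) (nat_lit 269405884938) (nat_lit 0) (nat_lit 559688356575) (nat_lit 2) (nat_lit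 5) (nat_lit 4) (nat_lit 4) (nat_lit 2) (nat_lit 4) (nat_lit 353) (nat_lit 278) (nat_lit 149))))) (XT.nd (nat_lit 312) (nat_lit 76) (nat_lit 0) (XT.nd (nat_lit 156) (nat_lit 0) (nat_lit 0) (XT.nd (nat_lit 78) (nat_lit 0) (nat_lit 0) (XT.lf (nat_lit 0) (nat_lit 694025529587) (nat_lit 152) (nat_lit 224516756887) (nat_lit 0) (nat_lit 638533177496) (nat_lit 2) (nat_lit 5) (nat_lit 4) (nat_lit 4) (nat_lit 2) (nat_lit 4) (nat_lit 354) (nat_lit 278) (nat_lit 148)) (XT.lf (nat_lit 0) (nat_lit 779177915668) (nat_lit 152) (nat_lit 176036961017) (nat_lit 0) (nat_lit 723685377870) (nat_lit 2) (nat_lit 5) (nat_lit 4) (nat_lit 4) (nat_lit 2) (nat_lit 4) (nat_lit 355) (nat_lit 278) (nat_lit 147))) (XT.nd (nat_lit 78) (nat_lit 0) (nat_lit 0) (XT.lf (nat_lit 0) (nat_lit 871142273077) (nat_lit 152) (nat_lit 123679209647) (nat_lit 0) (nat_lit 815649563327) (nat_lit 2) (nat_lit 5) (nat_lit 4) (nat_lit 4)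 (nat_lit 2) (nat_lit 4) (nat_lit 356) (nat_lit 278) (nat_lit 146)) (XT.lf (nat_lit 0) (nat_lit 970463575784) (nat_lit 152) (nat_lit 67133234622) (nat_lit 0) (nat_lit 914970706819) (nat_lit 2) (nat_lit 5) (nat_lit 4) (nat_lit 4) (nat_lit 2) (nat_lit 4) (nat_lit 357) (nat_lit 278) (nat_lit 145)))) (XT.nd (nat_lit 156) (nat_lit 0) (nat_lit 0) (XT.nd (nat_lit 78) (nat_lit 76) (nat_lit 0) (XT.lf (nat_lit 0) (nat_lit 1077730394471) (nat_lit 152) (nat_lit 6063948682) (nat_lit 0) (nat_lit 1022237378085) (nat_lit 2) (nat_lit 5) (nat_lit 4) (nat_lit 4) (nat_lit 2) (nat_lit 4) (nat_lit 358) (nat_lit 278) (nat_lit 144)) (XT.lf (nat_lit 0) (nat_lit 63044269949) (nat_lit 76) (nat_lit 1132050330618) (nat_lit 76) (nat_lit 1076557177731) (nat_lit 1) (nat_lit 4) (nat_lit 2) (nat_lit 5) (nat_lit 2) (nat_lit 4) (nat_lit 359) (nat_lit 278) (nat_lit 143))) (XT.nd (nat_lit 78) (nat_lit 0) (nat_lit 0) (XT.lf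 (nat_lit 0) (nat_lit 138025676917) (nat_lit 76) (nat_lit 1183987895989) (nat_lit 76) (nat_lit 1128494616712) (nat_lit 1) (nat_lit 4) (nat_lit 2) (nat_lit 5) (nat_lit 2) (nat_lit 4) (nat_lit 360) (nat_lit 278) (nat_lit 142)) (XT.lf (nat_lit 0) (nat_lit 219005289691) (nat_lit 76) (nat_lit 1240080616535) (nat_lit 76) (nat_lit 1184587220230) (nat_lit 1) (nat_lit 4) (nat_lit 2) (nat_lit 5) (nat_lit 2) (nat_lit 4) (nat_lit 361) (nat_lit 278) (nat_lit 141))))))))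
noncomputable def xc80 : XT := (XT.nd (nat_lit 36036) (nat_lit 0) (nat_lit 304) (XT.nd (nat_lit 34788) (nat_lit 0) (nat_lit 1520) (XT.nd (nat_lit 34164) (nat_lit 0) (nat_lit 3116) (XT.nd (nat_lit 234) (nat_lit 0) (nat_lit 0) (XT.nd (nat_lit 78) (nat_lit 0) (nat_lit 0) (XT.lf (nat_lit 0) (nat_lit 306462987459) (nat_lit 76) (nat_lit 1300660893562) (nat_lit 76) (nat_lit 1245167388899) (nat_lit 1) (nat_lit 4) (nat_lit 2) (nat_lit 5) (nat_lit 2) (nat_lit 4) (nat_lit 362) (nat_lit 278) (nat_lit 140)) (XT.nd (nat_lit 78) (nat_lit 0) (nat_lit 0) (XT.lf (nat_lit 0) (nat_lit 400917038059) (nat_lit 76) (nat_lit 1366087721306) (nat_lit 76) (nat_lit 1310594116310) (nat_lit 1) (nat_lit 4) (nat_lit 2) (nat_lit 5) (nat_lit 2) (nat_lit 4) (nat_lit 363) (nat_lit 278) (nat_lit 139)) (XT.lf (nat_lit 0) (nat_lit 502927169199) (nat_lit 76) (nat_lit 1436748814300) (nat_lit 76) (nat_lit 1381255116404) (nat_lit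 1) (nat_lit 4) (nat_lit 2) (nat_lit 5) (nat_lit 2) (nat_lit 4) (nat_lit 364) (nat_lit 278) (nat_lit 138)))) (XT.nd (nat_lit 156) (nat_lit 0) (nat_lit 0) (XT.nd (nat_lit 78) (nat_lit 0) (nat_lit 0) (XT.lf (nat_lit 0) (nat_lit 613097885358) (nat_lit 76) (nat_lit 1513062904948) (nat_lit 76) (nat_lit 1457569121033) (nat_lit 1) (nat_lit 4) (nat_lit 2) (nat_lit 5) (nat_lit 2) (nat_lit 4) (nat_lit 365) (nat_lit 278) (nat_lit 137)) (XT.lf (nat_lit 0) (nat_lit 732082050041) (nat_lit 76) (nat_lit 1595482224898) (nat_lit 76) (nat_lit 1539988361336) (nat_lit 1) (nat_lit 4) (nat_lit 2) (nat_lit 5) (nat_lit 2) (nat_lit 4) (nat_lit 366) (nat_lit 278) (nat_lit 136))) (XT.nd (nat_lit 78) (nat_lit 0) (nat_lit 0) (XT.lf (nat_lit 0) (nat_lit 860584754594) (nat_lit 76) (nat_lit 1684495184935) (nat_lit 76) (nat_lit 1629001247626) (nat_lit 1) (nat_lit 4) (nat_lit 2) (nat_lit 5) (nat_lit 2) (nat_lit 4) (nat_lit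 367) (nat_lit 278) (nat_lit 135)) (XT.lf (nat_lit 0) (nat_lit 999367496525) (nat_lit 76) (nat_lit 1780629269267) (nat_lit 76) (nat_lit 1725135263673) (nat_lit 1) (nat_lit 4) (nat_lit 2) (nat_lit 5) (nat_lit 2) (nat_lit 4) (nat_lit 368) (nat_lit 278) (nat_lit 134))))) (XT.nd (nat_lit 312) (nat_lit 228) (nat_lit 0) (XT.nd (nat_lit 156) (nat_lit 0) (nat_lit 76) (XT.nd (nat_lit 78) (nat_lit 0) (nat_lit 0) (XT.lf (nat_lit 0) (nat_lit 4831066902) (nat_lit 532) (nat_lit 2025354213) (nat_lit 532) (nat_lit 2025354213) (nat_lit 45) (nat_lit 3) (nat_lit 52) (nat_lit 3) (nat_lit 52) (nat_lit 5) (nat_lit 279) (nat_lit 279) (nat_lit 222)) (XT.lf (nat_lit 76) (nat_lit 4321132378) (nat_lit 0) (nat_lit 6024283953) (nat_lit 532) (nat_lit 8104377586) (nat_lit 46) (nat_lit 5) (nat_lit 45) (nat_lit 3) (nat_lit 52) (nat_lit 5) (nat_lit 280) (nat_lit 279) (nat_lit 221))) (XT.nd (nat_lit 78) (nat_lit 0) (nat_lit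 0) (XT.lf (nat_lit 0) (nat_lit 11232455137) (nat_lit 456) (nat_lit 5659508374) (nat_lit 532) (nat_lit 2287101159) (nat_lit 46) (nat_lit 5) (nat_lit 52) (nat_lit 5) (nat_lit 53) (nat_lit 5) (nat_lit 281) (nat_lit 279) (nat_lit 220)) (XT.lf (nat_lit 76) (nat_lit 3493591187) (nat_lit 0) (nat_lit 8919440214) (nat_lit 532) (nat_lit 7535891145) (nat_lit 47) (nat_lit 5) (nat_lit 46) (nat_lit 5) (nat_lit 53) (nat_lit 5) (nat_lit 282) (nat_lit 279) (nat_lit 219)))) (XT.nd (nat_lit 156) (nat_lit 304) (nat_lit 0) (XT.nd (nat_lit 78) (nat_lit 0) (nat_lit 76) (XT.lf (nat_lit 76) (nat_lit 13689226062) (nat_lit 0) (nat_lit 136696355) (nat_lit 532) (nat_lit 6943464749) (nat_lit 47) (nat_lit 5) (nat_lit 46) (nat_lit 5) (nat_lit 53) (nat_lit 5) (nat_lit 283) (nat_lit 279) (nat_lit 218)) (XT.lf (nat_lit 76) (nat_lit 2955926044) (nat_lit 0) (nat_lit 12676339882) (nat_lit 532) (nat_lit 6000833411) (nat_lit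 48) (nat_lit 5) (nat_lit 47) (nat_lit 5) (nat_lit 54) (nat_lit 5) (nat_lit 284) (nat_lit 279) (nat_lit 217))) (XT.nd (nat_lit 78) (nat_lit 380) (nat_lit 0) (XT.lf (nat_lit 76) (nat_lit 14181996279) (nat_lit 0) (nat_lit 3583525088) (nat_lit 532) (nat_lit 4785835572) (nat_lit 48) (nat_lit 5) (nat_lit 47) (nat_lit 5) (nat_lit 54) (nat_lit 5) (nat_lit 285) (nat_lit 279) (nat_lit 216)) (XT.lf (nat_lit 0) (nat_lit 2737914641) (nat_lit 456) (nat_lit 17533869538) (nat_lit 532) (nat_lit 3255141006) (nat_lit 42) (nat_lit 5) (nat_lit 48) (nat_lit 5) (nat_lit 49) (nat_lit 5) (nat_lit 286) (nat_lit 279) (nat_lit 215)))))) (XT.nd (nat_lit 624) (nat_lit 684) (nat_lit 0) (XT.nd (nat_lit 312) (nat_lit 380) (nat_lit 0) (XT.nd (nat_lit 156) (nat_lit 228) (nat_lit 0) (XT.nd (nat_lit 78) (nat_lit 304) (nat_lit 0) (XT.lf (nat_lit 0) (nat_lit 15099941327) (nat_lit 456) (nat_lit 8185384003) (nat_lit 532) (nat_lit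 1270706365) (nat_lit 42) (nat_lit 5) (nat_lit 48) (nat_lit 5) (nat_lit 49) (nat_lit 5) (nat_lit 287) (nat_lit 279) (nat_lit 214)) (XT.lf (nat_lit 0) (nat_lit 934636690) (nat_lit 304) (nat_lit 22813829537) (nat_lit 76) (nat_lit 1908887937) (nat_lit 38) (nat_lit 5) (nat_lit 42) (nat_lit 5) (nat_lit 39) (nat_lit 5) (nat_lit 288) (nat_lit 279) (nat_lit 213))) (XT.nd (nat_lit 78) (nat_lit 228) (nat_lit 0) (XT.lf (nat_lit 0) (nat_lit 3714089899) (nat_lit 304) (nat_lit 10425822625) (nat_lit 76) (nat_lit 12666950546) (nat_lit 38) (nat_lit 5) (nat_lit 42) (nat_lit 5) (nat_lit 39) (nat_lit 5) (nat_lit 289) (nat_lit 279) (nat_lit 212)) (XT.lf (nat_lit 0) (nat_lit 3096766598) (nat_lit 228) (nat_lit 3682929268) (nat_lit 304) (nat_lit 21263558821) (nat_lit 35) (nat_lit 5) (nat_lit 38) (nat_lit 5) (nat_lit 39) (nat_lit 5) (nat_lit 290) (nat_lit 279) (nat_lit 211)))) (XT.nd (nat_lit 156) (nat_lit 152)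 (nat_lit 0) (XT.nd (nat_lit 78) (nat_lit 228) (nat_lit 0) (XT.lf (nat_lit 0) (nat_lit 10555871879) (nat_lit 304) (nat_lit 11264000841) (nat_lit 76) (nat_lit 7521483001) (nat_lit 35) (nat_lit 5) (nat_lit 39) (nat_lit 5) (nat_lit 36) (nat_lit 5) (nat_lit 291) (nat_lit 279) (nat_lit 210)) (XT.lf (nat_lit 0) (nat_lit 3585784428) (nat_lit 228) (nat_lit 11220831725) (nat_lit 304) (nat_lit 15922912801) (nat_lit 32) (nat_lit 5) (nat_lit 35) (nat_lit 5) (nat_lit 36) (nat_lit 5) (nat_lit 292) (nat_lit 279) (nat_lit 209))) (XT.nd (nat_lit 78) (nat_lit 152) (nat_lit 0) (XT.lf (nat_lit 0) (nat_lit 19709808851) (nat_lit 304) (nat_lit 11964843589) (nat_lit 76) (nat_lit 529132913) (nat_lit 32) (nat_lit 5) (nat_lit 36) (nat_lit 5) (nat_lit 33) (nat_lit 5) (nat_lit 293) (nat_lit 279) (nat_lit 208)) (XT.lf (nat_lit 0) (nat_lit 4343617480) (nat_lit 152) (nat_lit 21049195633) (nat_lit 228) (nat_lit 8372183564)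 (nat_lit 30) (nat_lit 5) (nat_lit 32) (nat_lit 5) (nat_lit 33) (nat_lit 5) (nat_lit 294) (nat_lit 279) (nat_lit 207))))) (XT.nd (nat_lit 312) (nat_lit 304) (nat_lit 0) (XT.nd (nat_lit 156) (nat_lit 152) (nat_lit 0) (XT.nd (nat_lit 78) (nat_lit 228) (nat_lit 0) (XT.lf (nat_lit 0) (nat_lit 22626887614) (nat_lit 152) (nat_lit 9222722946) (nat_lit 228) (nat_lit 3575979622) (nat_lit 30) (nat_lit 5) (nat_lit 32) (nat_lit 5) (nat_lit 33) (nat_lit 5) (nat_lit 295) (nat_lit 279) (nat_lit 206)) (XT.lf (nat_lit 0) (nat_lit 1735006138) (nat_lit 228) (nat_lit 31921828317) (nat_lit 76) (nat_lit 3542220164) (nat_lit 27) (nat_lit 5) (nat_lit 30) (nat_lit 5) (nat_lit 28) (nat_lit 5) (nat_lit 296) (nat_lit 279) (nat_lit 205))) (XT.nd (nat_lit 78) (nat_lit 152) (nat_lit 0) (XT.lf (nat_lit 0) (nat_lit 7868922431) (nat_lit 228) (nat_lit 13911075861) (nat_lit 76) (nat_lit 17279681412) (nat_lit 27) (nat_lit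 5) (nat_lit 30) (nat_lit 5) (nat_lit 28) (nat_lit 5) (nat_lit 297) (nat_lit 279) (nat_lit 204)) (XT.lf (nat_lit 0) (nat_lit 5822296588) (nat_lit 152) (nat_lit 8804492615) (nat_lit 228) (nat_lit 26431719484) (nat_lit 25) (nat_lit 5) (nat_lit 27) (nat_lit 5) (nat_lit 28) (nat_lit 5) (nat_lit 298) (nat_lit 279) (nat_lit 203)))) (XT.nd (nat_lit 156) (nat_lit 152) (nat_lit 0) (XT.nd (nat_lit 78) (nat_lit 152) (nat_lit 0) (XT.lf (nat_lit 0) (nat_lit 22434221052) (nat_lit 228) (nat_lit 15406220102) (nat_lit 76) (nat_lit 5336099888) (nat_lit 25) (nat_lit 5) (nat_lit 28) (nat_lit 5) (nat_lit 26) (nat_lit 5) (nat_lit 299) (nat_lit 279) (nat_lit 202)) (XT.lf (nat_lit 0) (nat_lit 6076450635) (nat_lit 152) (nat_lit 25158535843) (nat_lit 228) (nat_lit 14199541418) (nat_lit 23) (nat_lit 5) (nat_lit 25) (nat_lit 5) (nat_lit 26) (nat_lit 5) (nat_lit 300) (nat_lit 279) (nat_lit 201))) (XT.nd (nat_lit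 78) (nat_lit 152) (nat_lit 0) (XT.lf (nat_lit 0) (nat_lit 30145127129) (nat_lit 152) (nat_lit 11010071449) (nat_lit 228) (nat_lit 6684734497) (nat_lit 23) (nat_lit 5) (nat_lit 25) (nat_lit 5) (nat_lit 26) (nat_lit 5) (nat_lit 301) (nat_lit 279) (nat_lit 200)) (XT.lf (nat_lit 0) (nat_lit 1604599412) (nat_lit 152) (nat_lit 44574600373) (nat_lit 76) (nat_lit 4236230723) (nat_lit 21) (nat_lit 5) (nat_lit 23) (nat_lit 5) (nat_lit 22) (nat_lit 5) (nat_lit 302) (nat_lit 279) (nat_lit 199))))))) (XT.nd (nat_lit 1248) (nat_lit 456) (nat_lit 0) (XT.nd (nat_lit 624) (nat_lit 304) (nat_lit 0) (XT.nd (nat_lit 312) (nat_lit 228) (nat_lit 0) (XT.nd (nat_lit 156) (nat_lit 76) (nat_lit 0) (XT.nd (nat_lit 78) (nat_lit 152) (nat_lit 0) (XT.lf (nat_lit 0) (nat_lit 10972861878) (nat_lit 152) (nat_lit 21373377657) (nat_lit 76) (nat_lit 20774691459) (nat_lit 21) (nat_lit 5) (nat_lit 23) (nat_lit 5) (nat_lit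 22) (nat_lit 5) (nat_lit 303) (nat_lit 279) (nat_lit 198)) (XT.lf (nat_lit 0) (nat_lit 3869570836) (nat_lit 152) (nat_lit 17309060625) (nat_lit 228) (nat_lit 34857203876) (nat_lit 19) (nat_lit 5) (nat_lit 21) (nat_lit 5) (nat_lit 22) (nat_lit 5) (nat_lit 304) (nat_lit 279) (nat_lit 197))) (XT.nd (nat_lit 78) (nat_lit 76) (nat_lit 0) (XT.lf (nat_lit 0) (nat_lit 32339735598) (nat_lit 152) (nat_lit 440681318) (nat_lit 228) (nat_lit 26357157719) (nat_lit 19) (nat_lit 5) (nat_lit 21) (nat_lit 5) (nat_lit 22) (nat_lit 5) (nat_lit 305) (nat_lit 279) (nat_lit 196)) (XT.lf (nat_lit 0) (nat_lit 173741870) (nat_lit 76) (nat_lit 45563784525) (nat_lit 152) (nat_lit 16715758621) (nat_lit 18) (nat_lit 5) (nat_lit 19) (nat_lit 5) (nat_lit 20) (nat_lit 4) (nat_lit 306) (nat_lit 279) (nat_lit 195)))) (XT.nd (nat_lit 156) (nat_lit 152) (nat_lit 0) (XT.nd (nat_lit 78) (nat_lit 76) (nat_lit 0) (XT.lf (nat_lit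 0) (nat_lit 30807737633) (nat_lit 76) (nat_lit 29662946390) (nat_lit 152) (nat_lit 5504415816) (nat_lit 18) (nat_lit 5) (nat_lit 19) (nat_lit 5) (nat_lit 20) (nat_lit 4) (nat_lit 307) (nat_lit 279) (nat_lit 194)) (XT.lf (nat_lit 0) (nat_lit 6269320100) (nat_lit 152) (nat_lit 6051993774) (nat_lit 76) (nat_lit 57444978392) (nat_lit 17) (nat_lit 5) (nat_lit 19) (nat_lit 5) (nat_lit 18) (nat_lit 5) (nat_lit 308) (nat_lit 279) (nat_lit 193))) (XT.nd (nat_lit 78) (nat_lit 0) (nat_lit 0) (XT.lf (nat_lit 0) (nat_lit 19497140529) (nat_lit 228) (nat_lit 47400439641) (nat_lit 76) (nat_lit 6887001537) (nat_lit 15) (nat_lit 5) (nat_lit 18) (nat_lit 5) (nat_lit 16) (nat_lit 4) (nat_lit 309) (nat_lit 279) (nat_lit 192)) (XT.lf (nat_lit 0) (nat_lit 34269208329) (nat_lit 228) (nat_lit 16682603438) (nat_lit 76) (nat_lit 27133645176) (nat_lit 15) (nat_lit 5) (nat_lit 18) (nat_lit 5) (nat_lit 16) (nat_lit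 4) (nat_lit 310) (nat_lit 279) (nat_lit 191))))) (XT.nd (nat_lit 312) (nat_lit 76) (nat_lit 0) (XT.nd (nat_lit 156) (nat_lit 152) (nat_lit 0) (XT.nd (nat_lit 78) (nat_lit 0) (nat_lit 0) (XT.lf (nat_lit 0) (nat_lit 17354773270) (nat_lit 76) (nat_lit 33282148586) (nat_lit 152) (nat_lit 32060373974) (nat_lit 14) (nat_lit 5) (nat_lit 15) (nat_lit 5) (nat_lit 16) (nat_lit 4) (nat_lit 311) (nat_lit 279) (nat_lit 190)) (XT.lf (nat_lit 0) (nat_lit 55058005093) (nat_lit 76) (nat_lit 13708794699) (nat_lit 152) (nat_lit 18875066006) (nat_lit 14) (nat_lit 5) (nat_lit 15) (nat_lit 5) (nat_lit 16) (nat_lit 4) (nat_lit 312) (nat_lit 279) (nat_lit 189))) (XT.nd (nat_lit 78) (nat_lit 76) (nat_lit 0) (XT.lf (nat_lit 0) (nat_lit 2748638553) (nat_lit 76) (nat_lit 85840046512) (nat_lit 76) (nat_lit 4373990408) (nat_lit 13) (nat_lit 4) (nat_lit 14) (nat_lit 5) (nat_lit 14) (nat_lit 4) (nat_lit 313) (nat_lit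 279) (nat_lit 188)) (XT.lf (nat_lit 0) (nat_lit 11989485474) (nat_lit 152) (nat_lit 56533415099) (nat_lit 76) (nat_lit 30063180250) (nat_lit 12) (nat_lit 5) (nat_lit 14) (nat_lit 5) (nat_lit 13) (nat_lit 4) (nat_lit 314) (nat_lit 279) (nat_lit 187)))) (XT.nd (nat_lit 156) (nat_lit 0) (nat_lit 0) (XT.nd (nat_lit 78) (nat_lit 76) (nat_lit 0) (XT.lf (nat_lit 0) (nat_lit 29422795982) (nat_lit 152) (nat_lit 20277211449) (nat_lit 76) (nat_lit 54950499868) (nat_lit 12) (nat_lit 5) (nat_lit 14) (nat_lit 5) (nat_lit 13) (nat_lit 4) (nat_lit 315) (nat_lit 279) (nat_lit 186)) (XT.lf (nat_lit 0) (nat_lit 19868524232) (nat_lit 76) (nat_lit 28857368590) (nat_lit 152) (nat_lit 62436187907) (nat_lit 11) (nat_lit 5) (nat_lit 12) (nat_lit 5) (nat_lit 13) (nat_lit 4) (nat_lit 316) (nat_lit 279) (nat_lit 185))) (XT.nd (nat_lit 78) (nat_lit 0) (nat_lit 0) (XT.lf (nat_lit 0) (nat_lit 64374356687) (nat_lit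 76) (nat_lit 5750665763) (nat_lit 152) (nat_lit 48025417146) (nat_lit 11) (nat_lit 5) (nat_lit 12) (nat_lit 5) (nat_lit 13) (nat_lit 4) (nat_lit 317) (nat_lit 279) (nat_lit 184)) (XT.lf (nat_lit 0) (nat_lit 93695470747) (nat_lit 152) (nat_lit 13723625353) (nat_lit 0) (nat_lit 18242022201) (nat_lit 11) (nat_lit 5) (nat_lit 13) (nat_lit 4) (nat_lit 11) (nat_lit 4) (nat_lit 318) (nat_lit 279) (nat_lit 183)))))) (XT.nd (nat_lit 624) (nat_lit 152) (nat_lit 0) (XT.nd (nat_lit 312) (nat_lit 76) (nat_lit 0) (XT.nd (nat_lit 156) (nat_lit 76) (nat_lit 0) (XT.nd (nat_lit 78) (nat_lit 76) (nat_lit 0) (XT.lf (nat_lit 0) (nat_lit 30926523929) (nat_lit 76) (nat_lit 89115884274) (nat_lit 76) (nat_lit 13658976864) (nat_lit 10) (nat_lit 4) (nat_lit 11) (nat_lit 5) (nat_lit 11) (nat_lit 4) (nat_lit 319) (nat_lit 279) (nat_lit 182)) (XT.lf (nat_lit 0) (nat_lit 6189157252) (nat_lit 152) (nat_lit 62586662977)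 (nat_lit 76) (nat_lit 73566679697) (nat_lit 9) (nat_lit 5) (nat_lit 11) (nat_lit 5) (nat_lit 10) (nat_lit 4) (nat_lit 320) (nat_lit 279) (nat_lit 181))) (XT.nd (nat_lit 78) (nat_lit 76) (nat_lit 0) (XT.lf (nat_lit 0) (nat_lit 26885085642) (nat_lit 152) (nat_lit 19542097343) (nat_lit 76) (nat_lit 105219509662) (nat_lit 9) (nat_lit 5) (nat_lit 11) (nat_lit 5) (nat_lit 10) (nat_lit 4) (nat_lit 321) (nat_lit 279) (nat_lit 180)) (XT.lf (nat_lit 0) (nat_lit 28361153133) (nat_lit 76) (nat_lit 21555661468) (nat_lit 152) (nat_lit 111723997573) (nat_lit 8) (nat_lit 5) (nat_lit 9) (nat_lit 5) (nat_lit 10) (nat_lit 4) (nat_lit 322) (nat_lit 279) (nat_lit 179)))) (XT.nd (nat_lit 156) (nat_lit 76) (nat_lit 0) (XT.nd (nat_lit 78) (nat_lit 0) (nat_lit 0) (XT.lf (nat_lit 0) (nat_lit 75464936191) (nat_lit 152) (nat_lit 91328796367) (nat_lit 0) (nat_lit 5586821741) (nat_lit 8) (nat_lit 5) (nat_lit 10)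 (nat_lit 4) (nat_lit 8) (nat_lit 4) (nat_lit 323) (nat_lit 279) (nat_lit 178)) (XT.lf (nat_lit 0) (nat_lit 103614999491) (nat_lit 152) (nat_lit 46585124854) (nat_lit 0) (nat_lit 33734705370) (nat_lit 8) (nat_lit 5) (nat_lit 10) (nat_lit 4) (nat_lit 8) (nat_lit 4) (nat_lit 324) (nat_lit 279) (nat_lit 177))) (XT.nd (nat_lit 78) (nat_lit 0) (nat_lit 0) (XT.lf (nat_lit 0) (nat_lit 1826275030) (nat_lit 76) (nat_lit 132233052441) (nat_lit 76) (nat_lit 62350740106) (nat_lit 7) (nat_lit 4) (nat_lit 8) (nat_lit 5) (nat_lit 8) (nat_lit 4) (nat_lit 325) (nat_lit 279) (nat_lit 176)) (XT.lf (nat_lit 0) (nat_lit 56756880276) (nat_lit 76) (nat_lit 111454428872) (nat_lit 76) (nat_lit 41570247820) (nat_lit 7) (nat_lit 4) (nat_lit 8) (nat_lit 5) (nat_lit 8) (nat_lit 4) (nat_lit 326) (nat_lit 279) (nat_lit 175))))) (XT.nd (nat_lit 312) (nat_lit 0) (nat_lit 0) (XT.nd (nat_lit 156) (nat_lit 76) (nat_lit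 0) (XT.nd (nat_lit 78) (nat_lit 76) (nat_lit 0) (XT.lf (nat_lit 0) (nat_lit 116079115462) (nat_lit 76) (nat_lit 89014840924) (nat_lit 76) (nat_lit 19128929579) (nat_lit 7) (nat_lit 4) (nat_lit 8) (nat_lit 5) (nat_lit 8) (nat_lit 4) (nat_lit 327) (nat_lit 279) (nat_lit 174)) (XT.lf (nat_lit 0) (nat_lit 4850767392) (nat_lit 152) (nat_lit 59797917290) (nat_lit 76) (nat_lit 175161123789) (nat_lit 6) (nat_lit 5) (nat_lit 8) (nat_lit 5) (nat_lit 7) (nat_lit 4) (nat_lit 328) (nat_lit 279) (nat_lit 173))) (XT.nd (nat_lit 78) (nat_lit 76) (nat_lit 0) (XT.lf (nat_lit 0) (nat_lit 29714067012) (nat_lit 152) (nat_lit 8083737528) (nat_lit 76) (nat_lit 218806237743) (nat_lit 6) (nat_lit 5) (nat_lit 8) (nat_lit 5) (nat_lit 7) (nat_lit 4) (nat_lit 329) (nat_lit 279) (nat_lit 172)) (XT.lf (nat_lit 0) (nat_lit 50280509099) (nat_lit 76) (nat_lit 7493952235) (nat_lit 152) (nat_lit 216870711755) (nat_lit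 5) (nat_lit 5) (nat_lit 6) (nat_lit 5) (nat_lit 7) (nat_lit 4) (nat_lit 330) (nat_lit 279) (nat_lit 171)))) (XT.nd (nat_lit 156) (nat_lit 0) (nat_lit 0) (XT.nd (nat_lit 78) (nat_lit 0) (nat_lit 0) (XT.lf (nat_lit 0) (nat_lit 88912128970) (nat_lit 152) (nat_lit 180953225374) (nat_lit 0) (nat_lit 24197645364) (nat_lit 5) (nat_lit 5) (nat_lit 7) (nat_lit 4) (nat_lit 5) (nat_lit 4) (nat_lit 331) (nat_lit 279) (nat_lit 170)) (XT.lf (nat_lit 0) (nat_lit 122734341337) (nat_lit 152) (nat_lit 134265661901) (nat_lit 0) (nat_lit 58018767352) (nat_lit 5) (nat_lit 5) (nat_lit 7) (nat_lit 4) (nat_lit 5) (nat_lit 4) (nat_lit 332) (nat_lit 279) (nat_lit 169))) (XT.nd (nat_lit 78) (nat_lit 0) (nat_lit 0) (XT.lf (nat_lit 0) (nat_lit 159261296627) (nat_lit 152) (nat_lit 83845076800) (nat_lit 0) (nat_lit 94544713033) (nat_lit 5) (nat_lit 5) (nat_lit 7) (nat_lit 4) (nat_lit 5) (nat_lit 4) (nat_lit 333) (nat_lit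 279) (nat_lit 168)) (XT.lf (nat_lit 0) (nat_lit 198709450874) (nat_lit 152) (nat_lit 29392681417) (nat_lit 0) (nat_lit 133991932456) (nat_lit 5) (nat_lit 5) (nat_lit 7) (nat_lit 4) (nat_lit 5) (nat_lit 4) (nat_lit 334) (nat_lit 279) (nat_lit 167))))))))
noncomputable def xc81 : XT := (XT.nd (nat_lit 2418) (nat_lit 0) (nat_lit 0) (XT.nd (nat_lit 1170) (nat_lit 76) (nat_lit 0) (XT.nd (nat_lit 546) (nat_lit 152) (nat_lit 0) (XT.nd (nat_lit 234) (nat_lit 0) (nat_lit 0) (XT.nd (nat_lit 78) (nat_lit 0) (nat_lit 0) (XT.lf (nat_lit 0) (nat_lit 30963105023) (nat_lit 76) (nat_lit 211094129312) (nat_lit 76) (nat_lit 146375745317) (nat_lit 4) (nat_lit 4) (nat_lit 5) (nat_lit 5) (nat_lit 5) (nat_lit 4) (nat_lit 335) (nat_lit 279) (nat_lit 166)) (XT.nd (nat_lit 78) (nat_lit 0) (nat_lit 0) (XT.lf (nat_lit 0) (nat_lit 97817284779) (nat_lit 76) (nat_lit 191858342958) (nat_lit 76) (nat_lit 127139157503)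 (nat_lit 4) (nat_lit 4) (nat_lit 5) (nat_lit 5) (nat_lit 5) (nat_lit 4) (nat_lit 336) (nat_lit 279) (nat_lit 165)) (XT.lf (nat_lit 0) (nat_lit 170018264252) (nat_lit 76) (nat_lit 171084431383) (nat_lit 76) (nat_lit 106364503834) (nat_lit 4) (nat_lit 4) (nat_lit 5) (nat_lit 5) (nat_lit 5) (nat_lit 4) (nat_lit 337) (nat_lit 279) (nat_lit 164)))) (XT.nd (nat_lit 156) (nat_lit 0) (nat_lit 0) (XT.nd (nat_lit 78) (nat_lit 0) (nat_lit 0) (XT.lf (nat_lit 0) (nat_lit 247993901097) (nat_lit 76) (nat_lit 148649289924) (nat_lit 76) (nat_lit 83928675253) (nat_lit 4) (nat_lit 4) (nat_lit 5) (nat_lit 5) (nat_lit 5) (nat_lit 4) (nat_lit 338) (nat_lit 279) (nat_lit 163)) (XT.lf (nat_lit 0) (nat_lit 332206273163) (nat_lit 76) (nat_lit 124419969597) (nat_lit 76) (nat_lit 59698718700) (nat_lit 4) (nat_lit 4) (nat_lit 5) (nat_lit 5) (nat_lit 5) (nat_lit 4) (nat_lit 339) (nat_lit 279) (nat_lit 162))) (XT.nd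 (nat_lit 78) (nat_lit 0) (nat_lit 0) (XT.lf (nat_lit 0) (nat_lit 423154416728) (nat_lit 76) (nat_lit 98252889242) (nat_lit 76) (nat_lit 33531049248) (nat_lit 4) (nat_lit 4) (nat_lit 5) (nat_lit 5) (nat_lit 5) (nat_lit 4) (nat_lit 340) (nat_lit 279) (nat_lit 161)) (XT.lf (nat_lit 0) (nat_lit 521377283755) (nat_lit 76) (nat_lit 69992984681) (nat_lit 76) (nat_lit 5270599226) (nat_lit 4) (nat_lit 4) (nat_lit 5) (nat_lit 5) (nat_lit 5) (nat_lit 4) (nat_lit 341) (nat_lit 279) (nat_lit 160))))) (XT.nd (nat_lit 312) (nat_lit 0) (nat_lit 0) (XT.nd (nat_lit 156) (nat_lit 0) (nat_lit 0) (XT.nd (nat_lit 78) (nat_lit 76) (nat_lit 0) (XT.lf (nat_lit 0) (nat_lit 23986988398) (nat_lit 152) (nat_lit 14829954642) (nat_lit 76) (nat_lit 602814100508) (nat_lit 3) (nat_lit 5) (nat_lit 5) (nat_lit 5) (nat_lit 4) (nat_lit 4) (nat_lit 342) (nat_lit 279) (nat_lit 159)) (XT.lf (nat_lit 0) (nat_lit 52949205487)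 (nat_lit 76) (nat_lit 3624142417) (nat_lit 152) (nat_lit 633534300829) (nat_lit 2) (nat_lit 5) (nat_lit 3) (nat_lit 5) (nat_lit 4) (nat_lit 4) (nat_lit 343) (nat_lit 279) (nat_lit 158))) (XT.nd (nat_lit 78) (nat_lit 0) (nat_lit 0) (XT.lf (nat_lit 0) (nat_lit 93009051362) (nat_lit 152) (nat_lit 616274321288) (nat_lit 0) (nat_lit 33079615103) (nat_lit 2) (nat_lit 5) (nat_lit 4) (nat_lit 4) (nat_lit 2) (nat_lit 4) (nat_lit 344) (nat_lit 279) (nat_lit 157)) (XT.lf (nat_lit 0) (nat_lit 132453270655) (nat_lit 152) (nat_lit 593814527530) (nat_lit 0) (nat_lit 72523463164) (nat_lit 2) (nat_lit 5) (nat_lit 4) (nat_lit 4) (nat_lit 2) (nat_lit 4) (nat_lit 345) (nat_lit 279) (nat_lit 156)))) (XT.nd (nat_lit 156) (nat_lit 0) (nat_lit 0) (XT.nd (nat_lit 78) (nat_lit 0) (nat_lit 0) (XT.lf (nat_lit 0) (nat_lit 175052588591) (nat_lit 152) (nat_lit 569558806187) (nat_lit 0) (nat_lit 115122437368) (nat_lit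 2) (nat_lit 5) (nat_lit 4) (nat_lit 4) (nat_lit 2) (nat_lit 4) (nat_lit 346) (nat_lit 279) (nat_lit 155)) (XT.lf (nat_lit 0) (nat_lit 221059445574) (nat_lit 152) (nat_lit 543363419650) (nat_lit 0) (nat_lit 161128976080) (nat_lit 2) (nat_lit 5) (nat_lit 4) (nat_lit 4) (nat_lit 2) (nat_lit 4) (nat_lit 347) (nat_lit 279) (nat_lit 154))) (XT.nd (nat_lit 78) (nat_lit 0) (nat_lit 0) (XT.lf (nat_lit 0) (nat_lit 270746474830) (nat_lit 152) (nat_lit 515073135999) (nat_lit 0) (nat_lit 210815710641) (nat_lit 2) (nat_lit 5) (nat_lit 4) (nat_lit 4) (nat_lit 2) (nat_lit 4) (nat_lit 348) (nat_lit 279) (nat_lit 153)) (XT.lf (nat_lit 0) (nat_lit 324408118015) (nat_lit 152) (nat_lit 484520309109) (nat_lit 0) (nat_lit 264477080959) (nat_lit 2) (nat_lit 5) (nat_lit 4) (nat_lit 4) (nat_lit 2) (nat_lit 4) (nat_lit 349) (nat_lit 279) (nat_lit 152)))))) (XT.nd (nat_lit 624) (nat_lit 76) (nat_lit 0) (XT.nd (nat_lit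 312) (nat_lit 0) (nat_lit 0) (XT.nd (nat_lit 156) (nat_lit 0) (nat_lit 0) (XT.nd (nat_lit 78) (nat_lit 0) (nat_lit 0) (XT.lf (nat_lit 0) (nat_lit 382362370050) (nat_lit 152) (nat_lit 451523885191) (nat_lit 0) (nat_lit 322431080341) (nat_lit 2) (nat_lit 5) (nat_lit 4) (nat_lit 4) (nat_lit 2) (nat_lit 4) (nat_lit 350) (nat_lit 279) (nat_lit 151)) (XT.lf (nat_lit 0) (nat_lit 444952663540) (nat_lit 152) (nat_lit 415888329882) (nat_lit 0) (nat_lit 385021139892) (nat_lit 2) (nat_lit 5) (nat_lit 4) (nat_lit 4) (nat_lit 2) (nat_lit 4) (nat_lit 351) (nat_lit 279) (nat_lit 150))) (XT.nd (nat_lit 78) (nat_lit 0) (nat_lit 0) (XT.lf (nat_lit 0) (nat_lit 512549903929) (nat_lit 152) (nat_lit 377402469519) (nat_lit 0) (nat_lit 452618163671) (nat_lit 2) (nat_lit 5) (nat_lit 4) (nat_lit 4) (nat_lit 2) (nat_lit 4) (nat_lit 352) (nat_lit 279) (nat_lit 149)) (XT.lf (nat_lit 0) (nat_lit 585554667455) (nat_lit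 152) (nat_lit 335838239745) (nat_lit 0) (nat_lit 525622726632) (nat_lit 2) (nat_lit 5) (nat_lit 4) (nat_lit 4) (nat_lit 2) (nat_lit 4) (nat_lit 353) (nat_lit 279) (nat_lit 148)))) (XT.nd (nat_lit 156) (nat_lit 0) (nat_lit 0) (XT.nd (nat_lit 78) (nat_lit 0) (nat_lit 0) (XT.lf (nat_lit 0) (nat_lit 664399574939) (nat_lit 152) (nat_lit 290949334013) (nat_lit 0) (nat_lit 604467448409) (nat_lit 2) (nat_lit 5) (nat_lit 4) (nat_lit 4) (nat_lit 2) (nat_lit 4) (nat_lit 354) (nat_lit 279) (nat_lit 147)) (XT.lf (nat_lit 0) (nat_lit 749551855464) (nat_lit 152) (nat_lit 242469743994) (nat_lit 0) (nat_lit 689619556981) (nat_lit 2) (nat_lit 5) (nat_lit 4) (nat_lit 4) (nat_lit 2) (nat_lit 4) (nat_lit 355) (nat_lit 279) (nat_lit 146))) (XT.nd (nat_lit 78) (nat_lit 0) (nat_lit 0) (XT.lf (nat_lit 0) (nat_lit 841516115135) (nat_lit 152) (nat_lit 190112183227) (nat_lit 0) (nat_lit 781583657438) (nat_lit 2)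 (nat_lit 5) (nat_lit 4) (nat_lit 4) (nat_lit 2) (nat_lit 4) (nat_lit 356) (nat_lit 279) (nat_lit 145)) (XT.lf (nat_lit 0) (nat_lit 940837327343) (nat_lit 152) (nat_lit 133566384687) (nat_lit 0) (nat_lit 880904722225) (nat_lit 2) (nat_lit 5) (nat_lit 4) (nat_lit 4) (nat_lit 2) (nat_lit 4) (nat_lit 357) (nat_lit 279) (nat_lit 144))))) (XT.nd (nat_lit 312) (nat_lit 0) (nat_lit 0) (XT.nd (nat_lit 156) (nat_lit 76) (nat_lit 0) (XT.nd (nat_lit 78) (nat_lit 0) (nat_lit 0) (XT.lf (nat_lit 0) (nat_lit 1048104062235) (nat_lit 152) (nat_lit 72497262159) (nat_lit 0) (nat_lit 988171320616) (nat_lit 2) (nat_lit 5) (nat_lit 4) (nat_lit 4) (nat_lit 2) (nat_lit 4) (nat_lit 358) (nat_lit 279) (nat_lit 143)) (XT.lf (nat_lit 0) (nat_lit 1163951974536) (nat_lit 152) (nat_lit 6542924546) (nat_lit 0) (nat_lit 1104019106527) (nat_lit 2) (nat_lit 5) (nat_lit 4) (nat_lit 4) (nat_lit 2) (nat_lit 4) (nat_lit 359)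 (nat_lit 279) (nat_lit 142))) (XT.nd (nat_lit 78) (nat_lit 0) (nat_lit 0) (XT.lf (nat_lit 0) (nat_lit 68093796132) (nat_lit 76) (nat_lit 1222611431695) (nat_lit 76) (nat_lit 1162678446659) (nat_lit 1) (nat_lit 4) (nat_lit 2) (nat_lit 5) (nat_lit 2) (nat_lit 4) (nat_lit 360) (nat_lit 279) (nat_lit 141)) (XT.lf (nat_lit 0) (nat_lit 149073272355) (nat_lit 76) (nat_lit 1278704218990) (nat_lit 76) (nat_lit 1218771125595) (nat_lit 1) (nat_lit 4) (nat_lit 2) (nat_lit 5) (nat_lit 2) (nat_lit 4) (nat_lit 361) (nat_lit 279) (nat_lit 140)))) (XT.nd (nat_lit 156) (nat_lit 0) (nat_lit 0) (XT.nd (nat_lit 78) (nat_lit 0) (nat_lit 0) (XT.lf (nat_lit 0) (nat_lit 236530843685) (nat_lit 76) (nat_lit 1339284557822) (nat_lit 76) (nat_lit 1279351364094) (nat_lit 1) (nat_lit 4) (nat_lit 2) (nat_lit 5) (nat_lit 2) (nat_lit 4) (nat_lit 362) (nat_lit 279) (nat_lit 139)) (XT.lf (nat_lit 0) (nat_lit 330984777214)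 (nat_lit 76) (nat_lit 1404711442792) (nat_lit 76) (nat_lit 1344778156164) (nat_lit 1) (nat_lit 4) (nat_lit 2) (nat_lit 5) (nat_lit 2) (nat_lit 4) (nat_lit 363) (nat_lit 279) (nat_lit 138))) (XT.nd (nat_lit 78) (nat_lit 0) (nat_lit 0) (XT.lf (nat_lit 0) (nat_lit 432994799954) (nat_lit 76) (nat_lit 1475372588774) (nat_lit 76) (nat_lit 1415439216127) (nat_lit 1) (nat_lit 4) (nat_lit 2) (nat_lit 5) (nat_lit 2) (nat_lit 4) (nat_lit 364) (nat_lit 279) (nat_lit 137)) (XT.lf (nat_lit 0) (nat_lit 543165415744) (nat_lit 76) (nat_lit 1551686728485) (nat_lit 76) (nat_lit 1491753276191) (nat_lit 1) (nat_lit 4) (nat_lit 2) (nat_lit 5) (nat_lit 2) (nat_lit 4) (nat_lit 365) (nat_lit 279) (nat_lit 136))))))) (XT.nd (nat_lit 34944) (nat_lit 0) (nat_lit 1292) (XT.nd (nat_lit 34320) (nat_lit 0) (nat_lit 2584) (XT.nd (nat_lit 34008) (nat_lit 0) (nat_lit 3344) (XT.nd (nat_lit 156) (nat_lit 0) (nat_lit 0)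 (XT.nd (nat_lit 78) (nat_lit 0) (nat_lit 0) (XT.lf (nat_lit 0) (nat_lit 662149487492) (nat_lit 76) (nat_lit 1634106093863) (nat_lit 76) (nat_lit 1574172567822) (nat_lit 1) (nat_lit 4) (nat_lit 2) (nat_lit 5) (nat_lit 2) (nat_lit 4) (nat_lit 366) (nat_lit 279) (nat_lit 135)) (XT.lf (nat_lit 0) (nat_lit 790652105994) (nat_lit 76) (nat_lit 1723119095963) (nat_lit 76) (nat_lit 1663185501638) (nat_lit 1) (nat_lit 4) (nat_lit 2) (nat_lit 5) (nat_lit 2) (nat_lit 4) (nat_lit 367) (nat_lit 279) (nat_lit 134))) (XT.nd (nat_lit 33774) (nat_lit 0) (nat_lit 3344) (XT.lf (nat_lit 0) (nat_lit 929434768248) (nat_lit 76) (nat_lit 1819253219242) (nat_lit 76) (nat_lit 1759319561690) (nat_lit 1) (nat_lit 4) (nat_lit 2) (nat_lit 5) (nat_lit 2) (nat_lit 4) (nat_lit 368) (nat_lit 279) (nat_lit 133)) (XT.lf (nat_lit 0) (nat_lit 5405787471) (nat_lit 532) (nat_lit 2085464710) (nat_lit 532) (nat_lit 2085464710)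 (nat_lit 45) (nat_lit 3) (nat_lit 52) (nat_lit 3) (nat_lit 52) (nat_lit 5) (nat_lit 280) (nat_lit 280) (nat_lit 220)))) (XT.nd (nat_lit 156) (nat_lit 0) (nat_lit 76) (XT.nd (nat_lit 78) (nat_lit 0) (nat_lit 76) (XT.lf (nat_lit 76) (nat_lit 4865498251) (nat_lit 0) (nat_lit 6660913267) (nat_lit 532) (nat_lit 8370093915) (nat_lit 46) (nat_lit 5) (nat_lit 45) (nat_lit 3) (nat_lit 52) (nat_lit 5) (nat_lit 281) (nat_lit 280) (nat_lit 219)) (XT.lf (nat_lit 0) (nat_lit 12454793830) (nat_lit 456) (nat_lit 5897762103) (nat_lit 532) (nat_lit 2334005781) (nat_lit 46) (nat_lit 5) (nat_lit 52) (nat_lit 5) (nat_lit 53) (nat_lit 5) (nat_lit 282) (nat_lit 280) (nat_lit 218))) (XT.nd (nat_lit 78) (nat_lit 0) (nat_lit 0) (XT.lf (nat_lit 76) (nat_lit 3982154867) (nat_lit 0) (nat_lit 9728708711) (nat_lit 532) (nat_lit 7808729649) (nat_lit 47) (nat_lit 5) (nat_lit 46) (nat_lit 5) (nat_lit 53) (nat_lit 5)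 (nat_lit 283) (nat_lit 280) (nat_lit 217)) (XT.lf (nat_lit 76) (nat_lit 14977953392) (nat_lit 0) (nat_lit 236255471) (nat_lit 532) (nat_lit 7193356015) (nat_lit 47) (nat_lit 5) (nat_lit 46) (nat_lit 5) (nat_lit 53) (nat_lit 5) (nat_lit 284) (nat_lit 280) (nat_lit 216))))) (XT.nd (nat_lit 312) (nat_lit 532) (nat_lit 0) (XT.nd (nat_lit 156) (nat_lit 380) (nat_lit 0) (XT.nd (nat_lit 78) (nat_lit 0) (nat_lit 0) (XT.lf (nat_lit 76) (nat_lit 3405947349) (nat_lit 0) (nat_lit 13741370165) (nat_lit 532) (nat_lit 6194534877) (nat_lit 48) (nat_lit 5) (nat_lit 47) (nat_lit 5) (nat_lit 54) (nat_lit 5) (nat_lit 285) (nat_lit 280) (nat_lit 215)) (XT.lf (nat_lit 76) (nat_lit 15514284891) (nat_lit 0) (nat_lit 3917358106) (nat_lit 532) (nat_lit 4903549448) (nat_lit 48) (nat_lit 5) (nat_lit 47) (nat_lit 5) (nat_lit 54) (nat_lit 5) (nat_lit 286) (nat_lit 280) (nat_lit 214))) (XT.nd (nat_lit 78) (nat_lit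 0) (nat_lit 0) (XT.lf (nat_lit 0) (nat_lit 3170536008) (nat_lit 456) (nat_lit 18953818388) (nat_lit 532) (nat_lit 3265626516) (nat_lit 42) (nat_lit 5) (nat_lit 48) (nat_lit 5) (nat_lit 49) (nat_lit 5) (nat_lit 287) (nat_lit 280) (nat_lit 213)) (XT.lf (nat_lit 0) (nat_lit 16505703482) (nat_lit 456) (nat_lit 8856177026) (nat_lit 532) (nat_lit 1140950123) (nat_lit 42) (nat_lit 5) (nat_lit 48) (nat_lit 5) (nat_lit 49) (nat_lit 5) (nat_lit 288) (nat_lit 280) (nat_lit 212)))) (XT.nd (nat_lit 156) (nat_lit 228) (nat_lit 0) (XT.nd (nat_lit 78) (nat_lit 0) (nat_lit 0) (XT.lf (nat_lit 0) (nat_lit 1217786116) (nat_lit 304) (nat_lit 24417091104) (nat_lit 76) (nat_lit 2057893225) (nat_lit 38) (nat_lit 5) (nat_lit 42) (nat_lit 5) (nat_lit 39) (nat_lit 5) (nat_lit 289) (nat_lit 280) (nat_lit 211)) (XT.lf (nat_lit 0) (nat_lit 4204160138) (nat_lit 304) (nat_lit 11054476587) (nat_lit 76) (nat_lit 13676875343)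 (nat_lit 38) (nat_lit 5) (nat_lit 42) (nat_lit 5) (nat_lit 39) (nat_lit 5) (nat_lit 290) (nat_lit 280) (nat_lit 210))) (XT.nd (nat_lit 78) (nat_lit 0) (nat_lit 0) (XT.lf (nat_lit 0) (nat_lit 3544719474) (nat_lit 228) (nat_lit 3960818123) (nat_lit 304) (nat_lit 22766069990) (nat_lit 35) (nat_lit 5) (nat_lit 38) (nat_lit 5) (nat_lit 39) (nat_lit 5) (nat_lit 291) (nat_lit 280) (nat_lit 209)) (XT.lf (nat_lit 0) (nat_lit 11570590510) (nat_lit 304) (nat_lit 11966124341) (nat_lit 76) (nat_lit 8137931094) (nat_lit 35) (nat_lit 5) (nat_lit 39) (nat_lit 5) (nat_lit 36) (nat_lit 5) (nat_lit 292) (nat_lit 280) (nat_lit 208)))))) (XT.nd (nat_lit 624) (nat_lit 532) (nat_lit 0) (XT.nd (nat_lit 312) (nat_lit 380) (nat_lit 0) (XT.nd (nat_lit 156) (nat_lit 152) (nat_lit 0) (XT.nd (nat_lit 78) (nat_lit 0) (nat_lit 0) (XT.lf (nat_lit 0) (nat_lit 4066605862) (nat_lit 228) (nat_lit 12086842147) (nat_lit 304)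 (nat_lit 17021090239) (nat_lit 32) (nat_lit 5) (nat_lit 35) (nat_lit 5) (nat_lit 36) (nat_lit 5) (nat_lit 293) (nat_lit 280) (nat_lit 207)) (XT.lf (nat_lit 0) (nat_lit 21437578645) (nat_lit 304) (nat_lit 12730780732) (nat_lit 76) (nat_lit 599308500) (nat_lit 32) (nat_lit 5) (nat_lit 36) (nat_lit 5) (nat_lit 33) (nat_lit 5) (nat_lit 294) (nat_lit 280) (nat_lit 206))) (XT.nd (nat_lit 78) (nat_lit 0) (nat_lit 0) (XT.lf (nat_lit 0) (nat_lit 4877515442) (nat_lit 152) (nat_lit 22691006856) (nat_lit 228) (nat_lit 8885815180) (nat_lit 30) (nat_lit 5) (nat_lit 32) (nat_lit 5) (nat_lit 33) (nat_lit 5) (nat_lit 295) (nat_lit 280) (nat_lit 205)) (XT.lf (nat_lit 0) (nat_lit 24609639145) (nat_lit 152) (nat_lit 9921536683) (nat_lit 228) (nat_lit 3717481075) (nat_lit 30) (nat_lit 5) (nat_lit 32) (nat_lit 5) (nat_lit 33) (nat_lit 5) (nat_lit 296) (nat_lit 280) (nat_lit 204)))) (XT.nd (nat_lit 156) (nat_lit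 152) (nat_lit 0) (XT.nd (nat_lit 78) (nat_lit 0) (nat_lit 0) (XT.lf (nat_lit 0) (nat_lit 2006261241) (nat_lit 228) (nat_lit 34290329653) (nat_lit 76) (nat_lit 3867540715) (nat_lit 27) (nat_lit 5) (nat_lit 30) (nat_lit 5) (nat_lit 28) (nat_lit 5) (nat_lit 297) (nat_lit 280) (nat_lit 203)) (XT.lf (nat_lit 0) (nat_lit 8621079385) (nat_lit 228) (nat_lit 14852438847) (nat_lit 76) (nat_lit 18700891978) (nat_lit 27) (nat_lit 5) (nat_lit 30) (nat_lit 5) (nat_lit 28) (nat_lit 5) (nat_lit 298) (nat_lit 280) (nat_lit 202))) (XT.nd (nat_lit 78) (nat_lit 0) (nat_lit 0) (XT.lf (nat_lit 0) (nat_lit 6455261042) (nat_lit 152) (nat_lit 9459250478) (nat_lit 228) (nat_lit 28419056325) (nat_lit 25) (nat_lit 5) (nat_lit 27) (nat_lit 5) (nat_lit 28) (nat_lit 5) (nat_lit 299) (nat_lit 280) (nat_lit 201)) (XT.lf (nat_lit 0) (nat_lit 24338932903) (nat_lit 228) (nat_lit 16476116466) (nat_lit 76) (nat_lit 5806617764)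 (nat_lit 25) (nat_lit 5) (nat_lit 28) (nat_lit 5) (nat_lit 26) (nat_lit 5) (nat_lit 300) (nat_lit 280) (nat_lit 200))))) (XT.nd (nat_lit 312) (nat_lit 228) (nat_lit 0) (XT.nd (nat_lit 156) (nat_lit 152) (nat_lit 0) (XT.nd (nat_lit 78) (nat_lit 0) (nat_lit 0) (XT.lf (nat_lit 0) (nat_lit 6721051443) (nat_lit 152) (nat_lit 27118373447) (nat_lit 228) (nat_lit 15221229577) (nat_lit 23) (nat_lit 5) (nat_lit 25) (nat_lit 5) (nat_lit 26) (nat_lit 5) (nat_lit 301) (nat_lit 280) (nat_lit 199)) (XT.lf (nat_lit 0) (nat_lit 32703482445) (nat_lit 152) (nat_lit 11841946366) (nat_lit 228) (nat_lit 7113702929) (nat_lit 23) (nat_lit 5) (nat_lit 25) (nat_lit 5) (nat_lit 26) (nat_lit 5) (nat_lit 302) (nat_lit 280) (nat_lit 198))) (XT.nd (nat_lit 78) (nat_lit 0) (nat_lit 0) (XT.lf (nat_lit 0) (nat_lit 1830850054) (nat_lit 152) (nat_lit 47985590975) (nat_lit 76) (nat_lit 4624246842) (nat_lit 21) (nat_lit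 5) (nat_lit 23) (nat_lit 5) (nat_lit 22) (nat_lit 5) (nat_lit 303) (nat_lit 280) (nat_lit 197)) (XT.lf (nat_lit 0) (nat_lit 11941322948) (nat_lit 152) (nat_lit 22939750252) (nat_lit 76) (nat_lit 22482146092) (nat_lit 21) (nat_lit 5) (nat_lit 23) (nat_lit 5) (nat_lit 22) (nat_lit 5) (nat_lit 304) (nat_lit 280) (nat_lit 196)))) (XT.nd (nat_lit 156) (nat_lit 76) (nat_lit 0) (XT.nd (nat_lit 78) (nat_lit 0) (nat_lit 0) (XT.lf (nat_lit 0) (nat_lit 4319001270) (nat_lit 152) (nat_lit 18641203088) (nat_lit 228) (nat_lit 37551389647) (nat_lit 19) (nat_lit 5) (nat_lit 21) (nat_lit 5) (nat_lit 22) (nat_lit 5) (nat_lit 305) (nat_lit 280) (nat_lit 195)) (XT.lf (nat_lit 0) (nat_lit 35056418860) (nat_lit 152) (nat_lit 427248428) (nat_lit 228) (nat_lit 28378331690) (nat_lit 19) (nat_lit 5) (nat_lit 21) (nat_lit 5) (nat_lit 22) (nat_lit 5) (nat_lit 306) (nat_lit 280) (nat_lit 194))) (XT.nd (nat_lit 78)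 (nat_lit 0) (nat_lit 0) (XT.lf (nat_lit 0) (nat_lit 319140757) (nat_lit 76) (nat_lit 49156465087) (nat_lit 152) (nat_lit 17967508133) (nat_lit 18) (nat_lit 5) (nat_lit 19) (nat_lit 5) (nat_lit 20) (nat_lit 4) (nat_lit 307) (nat_lit 280) (nat_lit 193)) (XT.lf (nat_lit 0) (nat_lit 33394115474) (nat_lit 76) (nat_lit 31987443027) (nat_lit 152) (nat_lit 5865592064) (nat_lit 18) (nat_lit 5) (nat_lit 19) (nat_lit 5) (nat_lit 20) (nat_lit 4) (nat_lit 308) (nat_lit 280) (nat_lit 192))))))))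
noncomputable def xc82 : XT := (XT.nd (nat_lit 2418) (nat_lit 228) (nat_lit 0) (XT.nd (nat_lit 1170) (nat_lit 304) (nat_lit 0) (XT.nd (nat_lit 546) (nat_lit 304) (nat_lit 0) (XT.nd (nat_lit 234) (nat_lit 228) (nat_lit 0) (XT.nd (nat_lit 78) (nat_lit 152) (nat_lit 0) (XT.lf (nat_lit 0) (nat_lit 6840510395) (nat_lit 152) (nat_lit 6419660793) (nat_lit 76) (nat_lit 62081767425) (nat_lit 17) (nat_lit 5) (nat_lit 19) (nat_lit 5) (nat_lit 18) (nat_lit 5) (nat_lit 309) (nat_lit 280) (nat_lit 191)) (XT.nd (nat_lit 78) (nat_lit 0) (nat_lit 0) (XT.lf (nat_lit 0) (nat_lit 21125242471) (nat_lit 228) (nat_lit 51074589213) (nat_lit 76) (nat_lit 7481970973) (nat_lit 15) (nat_lit 5) (nat_lit 18) (nat_lit 5) (nat_lit 16) (nat_lit 4) (nat_lit 310) (nat_lit 280) (nat_lit 190)) (XT.lf (nat_lit 0) (nat_lit 37074014162) (nat_lit 228) (nat_lit 17908058381) (nat_lit 76) (nat_lit 29345086154) (nat_lit 15) (nat_lit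 5) (nat_lit 18) (nat_lit 5) (nat_lit 16) (nat_lit 4) (nat_lit 311) (nat_lit 280) (nat_lit 189)))) (XT.nd (nat_lit 156) (nat_lit 152) (nat_lit 0) (XT.nd (nat_lit 78) (nat_lit 0) (nat_lit 0) (XT.lf (nat_lit 0) (nat_lit 18849545089) (nat_lit 76) (nat_lit 35899471759) (nat_lit 152) (nat_lit 34559103509) (nat_lit 14) (nat_lit 5) (nat_lit 15) (nat_lit 5) (nat_lit 16) (nat_lit 4) (nat_lit 312) (nat_lit 280) (nat_lit 188)) (XT.lf (nat_lit 0) (nat_lit 59561154720) (nat_lit 76) (nat_lit 14763601318) (nat_lit 152) (nat_lit 20323867228) (nat_lit 14) (nat_lit 5) (nat_lit 15) (nat_lit 5) (nat_lit 16) (nat_lit 4) (nat_lit 313) (nat_lit 280) (nat_lit 187))) (XT.nd (nat_lit 78) (nat_lit 76) (nat_lit 0) (XT.lf (nat_lit 0) (nat_lit 3068038387) (nat_lit 76) (nat_lit 92663486416) (nat_lit 76) (nat_lit 4663646951) (nat_lit 13) (nat_lit 4) (nat_lit 14) (nat_lit 5) (nat_lit 14) (nat_lit 4) (nat_lit 314) (nat_lit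 280) (nat_lit 186)) (XT.lf (nat_lit 0) (nat_lit 13001651818) (nat_lit 152) (nat_lit 60961109430) (nat_lit 76) (nat_lit 32505915576) (nat_lit 12) (nat_lit 5) (nat_lit 14) (nat_lit 5) (nat_lit 13) (nat_lit 4) (nat_lit 315) (nat_lit 280) (nat_lit 185))))) (XT.nd (nat_lit 312) (nat_lit 228) (nat_lit 0) (XT.nd (nat_lit 156) (nat_lit 0) (nat_lit 0) (XT.nd (nat_lit 78) (nat_lit 76) (nat_lit 0) (XT.lf (nat_lit 0) (nat_lit 31825700684) (nat_lit 152) (nat_lit 21811444960) (nat_lit 76) (nat_lit 59381429585) (nat_lit 12) (nat_lit 5) (nat_lit 14) (nat_lit 5) (nat_lit 13) (nat_lit 4) (nat_lit 316) (nat_lit 280) (nat_lit 184)) (XT.lf (nat_lit 0) (nat_lit 21543723160) (nat_lit 76) (nat_lit 31127747975) (nat_lit 152) (nat_lit 67379732749) (nat_lit 11) (nat_lit 5) (nat_lit 12) (nat_lit 5) (nat_lit 13) (nat_lit 4) (nat_lit 317) (nat_lit 280) (nat_lit 183))) (XT.nd (nat_lit 78) (nat_lit 0) (nat_lit 0) (XT.lf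 (nat_lit 0) (nat_lit 69603672806) (nat_lit 76) (nat_lit 6175339300) (nat_lit 152) (nat_lit 51819904045) (nat_lit 11) (nat_lit 5) (nat_lit 12) (nat_lit 5) (nat_lit 13) (nat_lit 4) (nat_lit 318) (nat_lit 280) (nat_lit 182)) (XT.lf (nat_lit 0) (nat_lit 101232625761) (nat_lit 152) (nat_lit 14745519721) (nat_lit 0) (nat_lit 19732504242) (nat_lit 11) (nat_lit 5) (nat_lit 13) (nat_lit 4) (nat_lit 11) (nat_lit 4) (nat_lit 319) (nat_lit 280) (nat_lit 181)))) (XT.nd (nat_lit 156) (nat_lit 76) (nat_lit 0) (XT.nd (nat_lit 78) (nat_lit 76) (nat_lit 0) (XT.lf (nat_lit 0) (nat_lit 33474717562) (nat_lit 76) (nat_lit 96211306718) (nat_lit 76) (nat_lit 14708219781) (nat_lit 10) (nat_lit 4) (nat_lit 11) (nat_lit 5) (nat_lit 11) (nat_lit 4) (nat_lit 320) (nat_lit 280) (nat_lit 180)) (XT.lf (nat_lit 0) (nat_lit 6722530966) (nat_lit 152) (nat_lit 67522968283) (nat_lit 76) (nat_lit 79481312283) (nat_lit 9)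 (nat_lit 5) (nat_lit 11) (nat_lit 5) (nat_lit 10) (nat_lit 4) (nat_lit 321) (nat_lit 280) (nat_lit 179))) (XT.nd (nat_lit 78) (nat_lit 76) (nat_lit 0) (XT.lf (nat_lit 0) (nat_lit 29071300951) (nat_lit 152) (nat_lit 21040069083) (nat_lit 76) (nat_lit 113664198408) (nat_lit 9) (nat_lit 5) (nat_lit 11) (nat_lit 5) (nat_lit 10) (nat_lit 4) (nat_lit 322) (nat_lit 280) (nat_lit 178)) (XT.lf (nat_lit 0) (nat_lit 30693785835) (nat_lit 76) (nat_lit 23250692502) (nat_lit 152) (nat_lit 120624828381) (nat_lit 8) (nat_lit 5) (nat_lit 9) (nat_lit 5) (nat_lit 10) (nat_lit 4) (nat_lit 323) (nat_lit 280) (nat_lit 177)))))) (XT.nd (nat_lit 624) (nat_lit 76) (nat_lit 0) (XT.nd (nat_lit 312) (nat_lit 152) (nat_lit 0) (XT.nd (nat_lit 156) (nat_lit 76) (nat_lit 0) (XT.nd (nat_lit 78) (nat_lit 0) (nat_lit 0) (XT.lf (nat_lit 0) (nat_lit 81534562721) (nat_lit 152) (nat_lit 98574171109) (nat_lit 0) (nat_lit 6059647185)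 (nat_lit 8) (nat_lit 5) (nat_lit 10) (nat_lit 4) (nat_lit 8) (nat_lit 4) (nat_lit 324) (nat_lit 280) (nat_lit 176)) (XT.lf (nat_lit 0) (nat_lit 111934228742) (nat_lit 152) (nat_lit 50255519132) (nat_lit 0) (nat_lit 36457444489) (nat_lit 8) (nat_lit 5) (nat_lit 10) (nat_lit 4) (nat_lit 8) (nat_lit 4) (nat_lit 325) (nat_lit 280) (nat_lit 175))) (XT.nd (nat_lit 78) (nat_lit 0) (nat_lit 0) (XT.lf (nat_lit 0) (nat_lit 2027364498) (nat_lit 76) (nat_lit 142785836521) (nat_lit 76) (nat_lit 67307321975) (nat_lit 7) (nat_lit 4) (nat_lit 8) (nat_lit 5) (nat_lit 8) (nat_lit 4) (nat_lit 326) (nat_lit 280) (nat_lit 174)) (XT.lf (nat_lit 0) (nat_lit 61348345018) (nat_lit 76) (nat_lit 120346838630) (nat_lit 76) (nat_lit 44866721962) (nat_lit 7) (nat_lit 4) (nat_lit 8) (nat_lit 5) (nat_lit 8) (nat_lit 4) (nat_lit 327) (nat_lit 280) (nat_lit 173)))) (XT.nd (nat_lit 156) (nat_lit 76) (nat_lit 0) (XT.nd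 (nat_lit 78) (nat_lit 76) (nat_lit 0) (XT.lf (nat_lit 0) (nat_lit 125412587587) (nat_lit 76) (nat_lit 96113857317) (nat_lit 76) (nat_lit 20632257200) (nat_lit 7) (nat_lit 4) (nat_lit 8) (nat_lit 5) (nat_lit 8) (nat_lit 4) (nat_lit 328) (nat_lit 280) (nat_lit 172)) (XT.lf (nat_lit 0) (nat_lit 5262566523) (nat_lit 152) (nat_lit 64536835309) (nat_lit 76) (nat_lit 189193277743) (nat_lit 6) (nat_lit 5) (nat_lit 8) (nat_lit 5) (nat_lit 7) (nat_lit 4) (nat_lit 329) (nat_lit 280) (nat_lit 171))) (XT.nd (nat_lit 78) (nat_lit 76) (nat_lit 0) (XT.lf (nat_lit 0) (nat_lit 32113171762) (nat_lit 152) (nat_lit 8688848230) (nat_lit 76) (nat_lit 236328573847) (nat_lit 6) (nat_lit 5) (nat_lit 8) (nat_lit 5) (nat_lit 7) (nat_lit 4) (nat_lit 330) (nat_lit 280) (nat_lit 170)) (XT.lf (nat_lit 0) (nat_lit 54343485259) (nat_lit 76) (nat_lit 8074259145) (nat_lit 152) (nat_lit 234197323960) (nat_lit 5) (nat_lit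 5) (nat_lit 6) (nat_lit 5) (nat_lit 7) (nat_lit 4) (nat_lit 331) (nat_lit 280) (nat_lit 169))))) (XT.nd (nat_lit 312) (nat_lit 76) (nat_lit 0) (XT.nd (nat_lit 156) (nat_lit 0) (nat_lit 0) (XT.nd (nat_lit 78) (nat_lit 0) (nat_lit 0) (XT.lf (nat_lit 0) (nat_lit 96045273498) (nat_lit 152) (nat_lit 195390787088) (nat_lit 0) (nat_lit 26150353607) (nat_lit 5) (nat_lit 5) (nat_lit 7) (nat_lit 4) (nat_lit 5) (nat_lit 4) (nat_lit 332) (nat_lit 280) (nat_lit 168)) (XT.lf (nat_lit 0) (nat_lit 132571768468) (nat_lit 152) (nat_lit 144971084932) (nat_lit 0) (nat_lit 62675913753) (nat_lit 5) (nat_lit 5) (nat_lit 7) (nat_lit 4) (nat_lit 5) (nat_lit 4) (nat_lit 333) (nat_lit 280) (nat_lit 167))) (XT.nd (nat_lit 78) (nat_lit 0) (nat_lit 0) (XT.lf (nat_lit 0) (nat_lit 172019496491) (nat_lit 152) (nat_lit 90519507091) (nat_lit 0) (nat_lit 102122776199) (nat_lit 5) (nat_lit 5) (nat_lit 7) (nat_lit 4) (nat_lit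 5) (nat_lit 4) (nat_lit 334) (nat_lit 280) (nat_lit 166)) (XT.lf (nat_lit 0) (nat_lit 214622221882) (nat_lit 152) (nat_lit 31713377547) (nat_lit 0) (nat_lit 144724700129) (nat_lit 5) (nat_lit 5) (nat_lit 7) (nat_lit 4) (nat_lit 5) (nat_lit 4) (nat_lit 335) (nat_lit 280) (nat_lit 165)))) (XT.nd (nat_lit 156) (nat_lit 0) (nat_lit 0) (XT.nd (nat_lit 78) (nat_lit 0) (nat_lit 0) (XT.lf (nat_lit 0) (nat_lit 33470094127) (nat_lit 76) (nat_lit 227967267676) (nat_lit 76) (nat_lit 158069003831) (nat_lit 4) (nat_lit 4) (nat_lit 5) (nat_lit 5) (nat_lit 5) (nat_lit 4) (nat_lit 336) (nat_lit 280) (nat_lit 164)) (XT.lf (nat_lit 0) (nat_lit 105670390434) (nat_lit 76) (nat_lit 207193684487) (nat_lit 76) (nat_lit 137294733518) (nat_lit 4) (nat_lit 4) (nat_lit 5) (nat_lit 5) (nat_lit 5) (nat_lit 4) (nat_lit 337) (nat_lit 280) (nat_lit 163))) (XT.nd (nat_lit 78) (nat_lit 0) (nat_lit 0) (XT.lf (nat_lit 0)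 (nat_lit 183645394718) (nat_lit 76) (nat_lit 184758847090) (nat_lit 76) (nat_lit 114859259896) (nat_lit 4) (nat_lit 4) (nat_lit 5) (nat_lit 5) (nat_lit 5) (nat_lit 4) (nat_lit 338) (nat_lit 280) (nat_lit 162)) (XT.lf (nat_lit 0) (nat_lit 267857181079) (nat_lit 76) (nat_lit 160529808300) (nat_lit 76) (nat_lit 90629632009) (nat_lit 4) (nat_lit 4) (nat_lit 5) (nat_lit 5) (nat_lit 5) (nat_lit 4) (nat_lit 339) (nat_lit 280) (nat_lit 161))))))) (XT.nd (nat_lit 1248) (nat_lit 76) (nat_lit 0) (XT.nd (nat_lit 624) (nat_lit 0) (nat_lit 0) (XT.nd (nat_lit 312) (nat_lit 76) (nat_lit 0) (XT.nd (nat_lit 156) (nat_lit 76) (nat_lit 0) (XT.nd (nat_lit 78) (nat_lit 0) (nat_lit 0) (XT.lf (nat_lit 0) (nat_lit 358804782326) (nat_lit 76) (nat_lit 134362988629) (nat_lit 76) (nat_lit 64462266877) (nat_lit 4) (nat_lit 4) (nat_lit 5) (nat_lit 5) (nat_lit 5) (nat_lit 4) (nat_lit 340) (nat_lit 280) (nat_lit 160))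 (XT.lf (nat_lit 0) (nat_lit 457027147205) (nat_lit 76) (nat_lit 106103325441) (nat_lit 76) (nat_lit 36202098633) (nat_lit 4) (nat_lit 4) (nat_lit 5) (nat_lit 5) (nat_lit 5) (nat_lit 4) (nat_lit 341) (nat_lit 280) (nat_lit 159))) (XT.nd (nat_lit 78) (nat_lit 76) (nat_lit 0) (XT.lf (nat_lit 0) (nat_lit 563106334176) (nat_lit 76) (nat_lit 75583354066) (nat_lit 76) (nat_lit 5681659614) (nat_lit 4) (nat_lit 4) (nat_lit 5) (nat_lit 5) (nat_lit 5) (nat_lit 4) (nat_lit 342) (nat_lit 280) (nat_lit 158)) (XT.lf (nat_lit 0) (nat_lit 25915260357) (nat_lit 152) (nat_lit 15998385912) (nat_lit 76) (nat_lit 651047131142) (nat_lit 3) (nat_lit 5) (nat_lit 5) (nat_lit 5) (nat_lit 4) (nat_lit 4) (nat_lit 343) (nat_lit 280) (nat_lit 157)))) (XT.nd (nat_lit 156) (nat_lit 0) (nat_lit 0) (XT.nd (nat_lit 78) (nat_lit 0) (nat_lit 0) (XT.lf (nat_lit 0) (nat_lit 57202652214) (nat_lit 76) (nat_lit 3905607689) (nat_lit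 152) (nat_lit 684207272947) (nat_lit 2) (nat_lit 5) (nat_lit 3) (nat_lit 5) (nat_lit 4) (nat_lit 4) (nat_lit 344) (nat_lit 280) (nat_lit 156)) (XT.lf (nat_lit 0) (nat_lit 100458338228) (nat_lit 152) (nat_lit 665559568417) (nat_lit 0) (nat_lit 35733431174) (nat_lit 2) (nat_lit 5) (nat_lit 4) (nat_lit 4) (nat_lit 2) (nat_lit 4) (nat_lit 345) (nat_lit 280) (nat_lit 155))) (XT.nd (nat_lit 78) (nat_lit 0) (nat_lit 0) (XT.lf (nat_lit 0) (nat_lit 143057460785) (nat_lit 152) (nat_lit 641304228090) (nat_lit 0) (nat_lit 78332235461) (nat_lit 2) (nat_lit 5) (nat_lit 4) (nat_lit 4) (nat_lit 2) (nat_lit 4) (nat_lit 346) (nat_lit 280) (nat_lit 154)) (XT.lf (nat_lit 0) (nat_lit 189064136862) (nat_lit 152) (nat_lit 615109194346) (nat_lit 0) (nat_lit 124338616842) (nat_lit 2) (nat_lit 5) (nat_lit 4) (nat_lit 4) (nat_lit 2) (nat_lit 4) (nat_lit 347) (nat_lit 280) (nat_lit 153))))) (XT.nd (nat_lit 312)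 (nat_lit 0) (nat_lit 0) (XT.nd (nat_lit 156) (nat_lit 0) (nat_lit 0) (XT.nd (nat_lit 78) (nat_lit 0) (nat_lit 0) (XT.lf (nat_lit 0) (nat_lit 238750998612) (nat_lit 152) (nat_lit 586819237356) (nat_lit 0) (nat_lit 174025205726) (nat_lit 2) (nat_lit 5) (nat_lit 4) (nat_lit 4) (nat_lit 2) (nat_lit 4) (nat_lit 348) (nat_lit 280) (nat_lit 152)) (XT.lf (nat_lit 0) (nat_lit 292412486698) (nat_lit 152) (nat_lit 556266712929) (nat_lit 0) (nat_lit 227686441159) (nat_lit 2) (nat_lit 5) (nat_lit 4) (nat_lit 4) (nat_lit 2) (nat_lit 4) (nat_lit 349) (nat_lit 280) (nat_lit 151))) (XT.nd (nat_lit 78) (nat_lit 0) (nat_lit 0) (XT.lf (nat_lit 0) (nat_lit 350366595124) (nat_lit 152) (nat_lit 523270569070) (nat_lit 0) (nat_lit 285640315646) (nat_lit 2) (nat_lit 5) (nat_lit 4) (nat_lit 4) (nat_lit 2) (nat_lit 4) (nat_lit 350) (nat_lit 280) (nat_lit 150)) (XT.lf (nat_lit 0) (nat_lit 412956755643) (nat_lit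 152) (nat_lit 487635273073) (nat_lit 0) (nat_lit 348230259555) (nat_lit 2) (nat_lit 5) (nat_lit 4) (nat_lit 4) (nat_lit 2) (nat_lit 4) (nat_lit 351) (nat_lit 280) (nat_lit 149)))) (XT.nd (nat_lit 156) (nat_lit 0) (nat_lit 0) (XT.nd (nat_lit 78) (nat_lit 0) (nat_lit 0) (XT.lf (nat_lit 0) (nat_lit 480553872909) (nat_lit 152) (nat_lit 449149652815) (nat_lit 0) (nat_lit 415827176257) (nat_lit 2) (nat_lit 5) (nat_lit 4) (nat_lit 4) (nat_lit 2) (nat_lit 4) (nat_lit 352) (nat_lit 280) (nat_lit 148)) (XT.lf (nat_lit 0) (nat_lit 553558522434) (nat_lit 152) (nat_lit 407585645360) (nat_lit 0) (nat_lit 488831640073) (nat_lit 2) (nat_lit 5) (nat_lit 4) (nat_lit 4) (nat_lit 2) (nat_lit 4) (nat_lit 353) (nat_lit 280) (nat_lit 147))) (XT.nd (nat_lit 78) (nat_lit 0) (nat_lit 0) (XT.lf (nat_lit 0) (nat_lit 632403324361) (nat_lit 152) (nat_lit 362696945480) (nat_lit 0) (nat_lit 567676270048) (nat_lit 2)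 (nat_lit 5) (nat_lit 4) (nat_lit 4) (nat_lit 2) (nat_lit 4) (nat_lit 354) (nat_lit 280) (nat_lit 146)) (XT.lf (nat_lit 0) (nat_lit 717555507147) (nat_lit 152) (nat_lit 314217546064) (nat_lit 0) (nat_lit 652828293620) (nat_lit 2) (nat_lit 5) (nat_lit 4) (nat_lit 4) (nat_lit 2) (nat_lit 4) (nat_lit 355) (nat_lit 280) (nat_lit 145)))))) (XT.nd (nat_lit 624) (nat_lit 0) (nat_lit 0) (XT.nd (nat_lit 312) (nat_lit 76) (nat_lit 0) (XT.nd (nat_lit 156) (nat_lit 0) (nat_lit 0) (XT.nd (nat_lit 78) (nat_lit 0) (nat_lit 0) (XT.lf (nat_lit 0) (nat_lit 809519676320) (nat_lit 152) (nat_lit 261860161782) (nat_lit 0) (nat_lit 744792315372) (nat_lit 2) (nat_lit 5) (nat_lit 4) (nat_lit 4) (nat_lit 2) (nat_lit 4) (nat_lit 356) (nat_lit 280) (nat_lit 144)) (XT.lf (nat_lit 0) (nat_lit 908840804734) (nat_lit 152) (nat_lit 205314526652) (nat_lit 0) (nat_lit 844113307284) (nat_lit 2) (nat_lit 5) (nat_lit 4) (nat_lit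 4) (nat_lit 2) (nat_lit 4) (nat_lit 357) (nat_lit 280) (nat_lit 143))) (XT.nd (nat_lit 78) (nat_lit 0) (nat_lit 0) (XT.lf (nat_lit 0) (nat_lit 1016107462038) (nat_lit 152) (nat_lit 144245555431) (nat_lit 0) (nat_lit 951379838199) (nat_lit 2) (nat_lit 5) (nat_lit 4) (nat_lit 4) (nat_lit 2) (nat_lit 4) (nat_lit 358) (nat_lit 280) (nat_lit 142)) (XT.lf (nat_lit 0) (nat_lit 1131955302499) (nat_lit 152) (nat_lit 78291357918) (nat_lit 0) (nat_lit 1067227561632) (nat_lit 2) (nat_lit 5) (nat_lit 4) (nat_lit 4) (nat_lit 2) (nat_lit 4) (nat_lit 359) (nat_lit 280) (nat_lit 141)))) (XT.nd (nat_lit 156) (nat_lit 0) (nat_lit 0) (XT.nd (nat_lit 78) (nat_lit 76) (nat_lit 0) (XT.lf (nat_lit 0) (nat_lit 1257070831837) (nat_lit 152) (nat_lit 7061094423) (nat_lit 0) (nat_lit 1192342982611) (nat_lit 2) (nat_lit 5) (nat_lit 4) (nat_lit 4) (nat_lit 2) (nat_lit 4) (nat_lit 360) (nat_lit 280) (nat_lit 140))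 (XT.lf (nat_lit 0) (nat_lit 73546430642) (nat_lit 76) (nat_lit 1320417838195) (nat_lit 76) (nat_lit 1255689888637) (nat_lit 1) (nat_lit 4) (nat_lit 2) (nat_lit 5) (nat_lit 2) (nat_lit 4) (nat_lit 361) (nat_lit 280) (nat_lit 139))) (XT.nd (nat_lit 78) (nat_lit 0) (nat_lit 0) (XT.lf (nat_lit 0) (nat_lit 161003884901) (nat_lit 76) (nat_lit 1380998234254) (nat_lit 76) (nat_lit 1316270191796) (nat_lit 1) (nat_lit 4) (nat_lit 2) (nat_lit 5) (nat_lit 2) (nat_lit 4) (nat_lit 362) (nat_lit 280) (nat_lit 138)) (XT.lf (nat_lit 0) (nat_lit 255457710030) (nat_lit 76) (nat_lit 1446425172212) (nat_lit 76) (nat_lit 1381697043735) (nat_lit 1) (nat_lit 4) (nat_lit 2) (nat_lit 5) (nat_lit 2) (nat_lit 4) (nat_lit 363) (nat_lit 280) (nat_lit 137))))) (XT.nd (nat_lit 34164) (nat_lit 0) (nat_lit 3344) (XT.nd (nat_lit 156) (nat_lit 0) (nat_lit 0) (XT.nd (nat_lit 78) (nat_lit 0) (nat_lit 0) (XT.lf (nat_lit 0)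 (nat_lit 357467632400) (nat_lit 76) (nat_lit 1517086367256) (nat_lit 76) (nat_lit 1452358159132) (nat_lit 1) (nat_lit 4) (nat_lit 2) (nat_lit 5) (nat_lit 2) (nat_lit 4) (nat_lit 364) (nat_lit 280) (nat_lit 136)) (XT.lf (nat_lit 0) (nat_lit 467638155255) (nat_lit 76) (nat_lit 1593400552395) (nat_lit 76) (nat_lit 1528672270524) (nat_lit 1) (nat_lit 4) (nat_lit 2) (nat_lit 5) (nat_lit 2) (nat_lit 4) (nat_lit 365) (nat_lit 280) (nat_lit 135))) (XT.nd (nat_lit 78) (nat_lit 0) (nat_lit 0) (XT.lf (nat_lit 0) (nat_lit 586622140952) (nat_lit 76) (nat_lit 1675819959837) (nat_lit 76) (nat_lit 1611091609681) (nat_lit 1) (nat_lit 4) (nat_lit 2) (nat_lit 5) (nat_lit 2) (nat_lit 4) (nat_lit 366) (nat_lit 280) (nat_lit 134)) (XT.lf (nat_lit 0) (nat_lit 715124679777) (nat_lit 76) (nat_lit 1764833000885) (nat_lit 76) (nat_lit 1700104587502) (nat_lit 1) (nat_lit 4) (nat_lit 2) (nat_lit 5) (nat_lit 2) (nat_lit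 4) (nat_lit 367) (nat_lit 280) (nat_lit 133)))) (XT.nd (nat_lit 156) (nat_lit 0) (nat_lit 76) (XT.nd (nat_lit 78) (nat_lit 0) (nat_lit 0) (XT.lf (nat_lit 0) (nat_lit 5999631828) (nat_lit 532) (nat_lit 2164923767) (nat_lit 532) (nat_lit 2164923767) (nat_lit 45) (nat_lit 3) (nat_lit 52) (nat_lit 3) (nat_lit 52) (nat_lit 5) (nat_lit 281) (nat_lit 281) (nat_lit 218)) (XT.lf (nat_lit 76) (nat_lit 5425070144) (nat_lit 0) (nat_lit 7326405155) (nat_lit 532) (nat_lit 8711654552) (nat_lit 46) (nat_lit 5) (nat_lit 45) (nat_lit 3) (nat_lit 52) (nat_lit 5) (nat_lit 282) (nat_lit 281) (nat_lit 217))) (XT.nd (nat_lit 78) (nat_lit 0) (nat_lit 0) (XT.lf (nat_lit 0) (nat_lit 13728734163) (nat_lit 456) (nat_lit 6185677945) (nat_lit 532) (nat_lit 2404073748) (nat_lit 46) (nat_lit 5) (nat_lit 52) (nat_lit 5) (nat_lit 53) (nat_lit 5) (nat_lit 283) (nat_lit 281) (nat_lit 216)) (XT.lf (nat_lit 76) (nat_lit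 4479976557) (nat_lit 0) (nat_lit 10589064118) (nat_lit 532) (nat_lit 8150478100) (nat_lit 47) (nat_lit 5) (nat_lit 46) (nat_lit 5) (nat_lit 53) (nat_lit 5) (nat_lit 284) (nat_lit 281) (nat_lit 215))))))))
noncomputable def xc83 : XT := (XT.nd (nat_lit 2496) (nat_lit 760) (nat_lit 0) (XT.nd (nat_lit 1248) (nat_lit 988) (nat_lit 0) (XT.nd (nat_lit 624) (nat_lit 760) (nat_lit 0) (XT.nd (nat_lit 312) (nat_lit 532) (nat_lit 0) (XT.nd (nat_lit 156) (nat_lit 304) (nat_lit 0) (XT.nd (nat_lit 78) (nat_lit 0) (nat_lit 76) (XT.lf (nat_lit 76) (nat_lit 16342161239) (nat_lit 0) (nat_lit 331136196) (nat_lit 532) (nat_lit 7506833828) (nat_lit 47) (nat_lit 5) (nat_lit 46) (nat_lit 5) (nat_lit 53) (nat_lit 5) (nat_lit 285) (nat_lit 281) (nat_lit 214)) (XT.lf (nat_lit 76) (nat_lit 3861505460) (nat_lit 0) (nat_lit 14884338121) (nat_lit 532) (nat_lit 6444585659) (nat_lit 48) (nat_lit 5) (nat_lit 47) (nat_lit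 5) (nat_lit 54) (nat_lit 5) (nat_lit 286) (nat_lit 281) (nat_lit 213))) (XT.nd (nat_lit 78) (nat_lit 380) (nat_lit 0) (XT.lf (nat_lit 76) (nat_lit 16924948351) (nat_lit 0) (nat_lit 4271171147) (nat_lit 532) (nat_lit 5068507470) (nat_lit 48) (nat_lit 5) (nat_lit 47) (nat_lit 5) (nat_lit 54) (nat_lit 5) (nat_lit 287) (nat_lit 281) (nat_lit 212)) (XT.lf (nat_lit 0) (nat_lit 3607296341) (nat_lit 456) (nat_lit 20484903769) (nat_lit 532) (nat_lit 3312605571) (nat_lit 42) (nat_lit 5) (nat_lit 48) (nat_lit 5) (nat_lit 49) (nat_lit 5) (nat_lit 288) (nat_lit 281) (nat_lit 211)))) (XT.nd (nat_lit 156) (nat_lit 228) (nat_lit 0) (XT.nd (nat_lit 78) (nat_lit 304) (nat_lit 0) (XT.lf (nat_lit 0) (nat_lit 17995712957) (nat_lit 456) (nat_lit 9578356290) (nat_lit 532) (nat_lit 1033826998) (nat_lit 42) (nat_lit 5) (nat_lit 48) (nat_lit 5) (nat_lit 49) (nat_lit 5) (nat_lit 289) (nat_lit 281) (nat_lit 210))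 (XT.lf (nat_lit 0) (nat_lit 1493859974) (nat_lit 304) (nat_lit 26180262237) (nat_lit 76) (nat_lit 2219347603) (nat_lit 38) (nat_lit 5) (nat_lit 42) (nat_lit 5) (nat_lit 39) (nat_lit 5) (nat_lit 290) (nat_lit 281) (nat_lit 209))) (XT.nd (nat_lit 78) (nat_lit 228) (nat_lit 0) (XT.lf (nat_lit 0) (nat_lit 4705910513) (nat_lit 304) (nat_lit 11762727162) (nat_lit 76) (nat_lit 14768083629) (nat_lit 38) (nat_lit 5) (nat_lit 42) (nat_lit 5) (nat_lit 39) (nat_lit 5) (nat_lit 291) (nat_lit 281) (nat_lit 208)) (XT.lf (nat_lit 0) (nat_lit 3999946164) (nat_lit 228) (nat_lit 4263327017) (nat_lit 304) (nat_lit 24417110789) (nat_lit 35) (nat_lit 5) (nat_lit 38) (nat_lit 5) (nat_lit 39) (nat_lit 5) (nat_lit 292) (nat_lit 281) (nat_lit 207))))) (XT.nd (nat_lit 312) (nat_lit 380) (nat_lit 0) (XT.nd (nat_lit 156) (nat_lit 152) (nat_lit 0) (XT.nd (nat_lit 78) (nat_lit 228) (nat_lit 0) (XT.lf (nat_lit 0) (nat_lit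 12642198726) (nat_lit 304) (nat_lit 12752806806) (nat_lit 76) (nat_lit 8801593714) (nat_lit 35) (nat_lit 5) (nat_lit 39) (nat_lit 5) (nat_lit 36) (nat_lit 5) (nat_lit 293) (nat_lit 281) (nat_lit 206)) (XT.lf (nat_lit 0) (nat_lit 4558222637) (nat_lit 228) (nat_lit 13026649501) (nat_lit 304) (nat_lit 18232181105) (nat_lit 32) (nat_lit 5) (nat_lit 35) (nat_lit 5) (nat_lit 36) (nat_lit 5) (nat_lit 294) (nat_lit 281) (nat_lit 205))) (XT.nd (nat_lit 78) (nat_lit 152) (nat_lit 0) (XT.lf (nat_lit 0) (nat_lit 23282030313) (nat_lit 304) (nat_lit 13585276845) (nat_lit 76) (nat_lit 671125739) (nat_lit 32) (nat_lit 5) (nat_lit 36) (nat_lit 5) (nat_lit 33) (nat_lit 5) (nat_lit 295) (nat_lit 281) (nat_lit 204)) (XT.lf (nat_lit 0) (nat_lit 5427531976) (nat_lit 152) (nat_lit 24470172498) (nat_lit 228) (nat_lit 9462812879) (nat_lit 30) (nat_lit 5) (nat_lit 32) (nat_lit 5) (nat_lit 33) (nat_lit 5) (nat_lit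 296) (nat_lit 281) (nat_lit 203)))) (XT.nd (nat_lit 156) (nat_lit 152) (nat_lit 0) (XT.nd (nat_lit 78) (nat_lit 228) (nat_lit 0) (XT.lf (nat_lit 0) (nat_lit 26726387405) (nat_lit 152) (nat_lit 10681819889) (nat_lit 228) (nat_lit 3890928159) (nat_lit 30) (nat_lit 5) (nat_lit 32) (nat_lit 5) (nat_lit 33) (nat_lit 5) (nat_lit 297) (nat_lit 281) (nat_lit 202)) (XT.lf (nat_lit 0) (nat_lit 2280320622) (nat_lit 228) (nat_lit 36874738355) (nat_lit 76) (nat_lit 4212903280) (nat_lit 27) (nat_lit 5) (nat_lit 30) (nat_lit 5) (nat_lit 28) (nat_lit 5) (nat_lit 298) (nat_lit 281) (nat_lit 201))) (XT.nd (nat_lit 78) (nat_lit 152) (nat_lit 0) (XT.lf (nat_lit 0) (nat_lit 9415912477) (nat_lit 228) (nat_lit 15893580557) (nat_lit 76) (nat_lit 20230258993) (nat_lit 27) (nat_lit 5) (nat_lit 30) (nat_lit 5) (nat_lit 28) (nat_lit 5) (nat_lit 299) (nat_lit 281) (nat_lit 200)) (XT.lf (nat_lit 0) (nat_lit 7115012453)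 (nat_lit 152) (nat_lit 10173465186) (nat_lit 228) (nat_lit 30583526718) (nat_lit 25) (nat_lit 5) (nat_lit 27) (nat_lit 5) (nat_lit 28) (nat_lit 5) (nat_lit 300) (nat_lit 281) (nat_lit 199)))))) (XT.nd (nat_lit 624) (nat_lit 456) (nat_lit 0) (XT.nd (nat_lit 312) (nat_lit 228) (nat_lit 0) (XT.nd (nat_lit 156) (nat_lit 152) (nat_lit 0) (XT.nd (nat_lit 78) (nat_lit 152) (nat_lit 0) (XT.lf (nat_lit 0) (nat_lit 26380332657) (nat_lit 228) (nat_lit 17654801424) (nat_lit 76) (nat_lit 6308552778) (nat_lit 25) (nat_lit 5) (nat_lit 28) (nat_lit 5) (nat_lit 26) (nat_lit 5) (nat_lit 301) (nat_lit 281) (nat_lit 198)) (XT.lf (nat_lit 0) (nat_lit 7394610694) (nat_lit 152) (nat_lit 29242537027) (nat_lit 228) (nat_lit 16340955418) (nat_lit 23) (nat_lit 5) (nat_lit 25) (nat_lit 5) (nat_lit 26) (nat_lit 5) (nat_lit 302) (nat_lit 281) (nat_lit 197))) (XT.nd (nat_lit 78) (nat_lit 152) (nat_lit 0) (XT.lf (nat_lit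 0) (nat_lit 35445571351) (nat_lit 152) (nat_lit 12747351801) (nat_lit 228) (nat_lit 7592083861) (nat_lit 23) (nat_lit 5) (nat_lit 25) (nat_lit 5) (nat_lit 26) (nat_lit 5) (nat_lit 303) (nat_lit 281) (nat_lit 196)) (XT.lf (nat_lit 0) (nat_lit 2061236687) (nat_lit 152) (nat_lit 51691570088) (nat_lit 76) (nat_lit 5036297067) (nat_lit 21) (nat_lit 5) (nat_lit 23) (nat_lit 5) (nat_lit 22) (nat_lit 5) (nat_lit 304) (nat_lit 281) (nat_lit 195)))) (XT.nd (nat_lit 156) (nat_lit 76) (nat_lit 0) (XT.nd (nat_lit 78) (nat_lit 152) (nat_lit 0) (XT.lf (nat_lit 0) (nat_lit 12974331218) (nat_lit 152) (nat_lit 24651904193) (nat_lit 76) (nat_lit 24319708962) (nat_lit 21) (nat_lit 5) (nat_lit 23) (nat_lit 5) (nat_lit 22) (nat_lit 5) (nat_lit 305) (nat_lit 281) (nat_lit 194)) (XT.lf (nat_lit 0) (nat_lit 4784432867) (nat_lit 152) (nat_lit 20087418414) (nat_lit 228) (nat_lit 40474576146) (nat_lit 19) (nat_lit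 5) (nat_lit 21) (nat_lit 5) (nat_lit 22) (nat_lit 5) (nat_lit 306) (nat_lit 281) (nat_lit 193))) (XT.nd (nat_lit 78) (nat_lit 76) (nat_lit 0) (XT.lf (nat_lit 0) (nat_lit 37971961530) (nat_lit 152) (nat_lit 419686708) (nat_lit 228) (nat_lit 30573667972) (nat_lit 19) (nat_lit 5) (nat_lit 21) (nat_lit 5) (nat_lit 22) (nat_lit 5) (nat_lit 307) (nat_lit 281) (nat_lit 192)) (XT.lf (nat_lit 0) (nat_lit 457411675) (nat_lit 76) (nat_lit 53044038707) (nat_lit 152) (nat_lit 19331596731) (nat_lit 18) (nat_lit 5) (nat_lit 19) (nat_lit 5) (nat_lit 20) (nat_lit 4) (nat_lit 308) (nat_lit 281) (nat_lit 191))))) (XT.nd (nat_lit 312) (nat_lit 228) (nat_lit 0) (XT.nd (nat_lit 156) (nat_lit 152) (nat_lit 0) (XT.nd (nat_lit 78) (nat_lit 76) (nat_lit 0) (XT.lf (nat_lit 0) (nat_lit 36170033284) (nat_lit 76) (nat_lit 34504824037) (nat_lit 152) (nat_lit 6266957899) (nat_lit 18) (nat_lit 5) (nat_lit 19) (nat_lit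 5) (nat_lit 20) (nat_lit 4) (nat_lit 309) (nat_lit 281) (nat_lit 190)) (XT.lf (nat_lit 0) (nat_lit 7447460320) (nat_lit 152) (nat_lit 6833360128) (nat_lit 76) (nat_lit 67083623258) (nat_lit 17) (nat_lit 5) (nat_lit 19) (nat_lit 5) (nat_lit 18) (nat_lit 5) (nat_lit 310) (nat_lit 281) (nat_lit 189))) (XT.nd (nat_lit 78) (nat_lit 0) (nat_lit 0) (XT.lf (nat_lit 0) (nat_lit 22873844431) (nat_lit 228) (nat_lit 55059488450) (nat_lit 76) (nat_lit 8118259544) (nat_lit 15) (nat_lit 5) (nat_lit 18) (nat_lit 5) (nat_lit 16) (nat_lit 4) (nat_lit 311) (nat_lit 281) (nat_lit 188)) (XT.lf (nat_lit 0) (nat_lit 40094178408) (nat_lit 228) (nat_lit 19247121662) (nat_lit 76) (nat_lit 31727629059) (nat_lit 15) (nat_lit 5) (nat_lit 18) (nat_lit 5) (nat_lit 16) (nat_lit 4) (nat_lit 312) (nat_lit 281) (nat_lit 187)))) (XT.nd (nat_lit 156) (nat_lit 152) (nat_lit 0) (XT.nd (nat_lit 78) (nat_lit 0) (nat_lit 0)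 (XT.lf (nat_lit 0) (nat_lit 20448720936) (nat_lit 76) (nat_lit 38732636020) (nat_lit 152) (nat_lit 37267161366) (nat_lit 14) (nat_lit 5) (nat_lit 15) (nat_lit 5) (nat_lit 16) (nat_lit 4) (nat_lit 313) (nat_lit 281) (nat_lit 186)) (XT.lf (nat_lit 0) (nat_lit 64410502875) (nat_lit 76) (nat_lit 15908769536) (nat_lit 152) (nat_lit 21897303991) (nat_lit 14) (nat_lit 5) (nat_lit 15) (nat_lit 5) (nat_lit 16) (nat_lit 4) (nat_lit 314) (nat_lit 281) (nat_lit 185))) (XT.nd (nat_lit 78) (nat_lit 76) (nat_lit 0) (XT.lf (nat_lit 0) (nat_lit 3398794172) (nat_lit 76) (nat_lit 100039044910) (nat_lit 76) (nat_lit 4985073163) (nat_lit 13) (nat_lit 4) (nat_lit 14) (nat_lit 5) (nat_lit 14) (nat_lit 4) (nat_lit 315) (nat_lit 281) (nat_lit 184)) (XT.lf (nat_lit 0) (nat_lit 14087229356) (nat_lit 152) (nat_lit 65756569105) (nat_lit 76) (nat_lit 35138694126) (nat_lit 12) (nat_lit 5) (nat_lit 14) (nat_lit 5)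 (nat_lit 13) (nat_lit 4) (nat_lit 316) (nat_lit 281) (nat_lit 183))))))) (XT.nd (nat_lit 1248) (nat_lit 228) (nat_lit 0) (XT.nd (nat_lit 624) (nat_lit 228) (nat_lit 0) (XT.nd (nat_lit 312) (nat_lit 228) (nat_lit 0) (XT.nd (nat_lit 156) (nat_lit 0) (nat_lit 0) (XT.nd (nat_lit 78) (nat_lit 76) (nat_lit 0) (XT.lf (nat_lit 0) (nat_lit 34413835806) (nat_lit 152) (nat_lit 23480963261) (nat_lit 76) (nat_lit 64161856271) (nat_lit 12) (nat_lit 5) (nat_lit 14) (nat_lit 5) (nat_lit 13) (nat_lit 4) (nat_lit 317) (nat_lit 281) (nat_lit 182)) (XT.lf (nat_lit 0) (nat_lit 23340709516) (nat_lit 76) (nat_lit 33585208810) (nat_lit 152) (nat_lit 72726086857) (nat_lit 11) (nat_lit 5) (nat_lit 12) (nat_lit 5) (nat_lit 13) (nat_lit 4) (nat_lit 318) (nat_lit 281) (nat_lit 181))) (XT.nd (nat_lit 78) (nat_lit 0) (nat_lit 0) (XT.lf (nat_lit 0) (nat_lit 75240011540) (nat_lit 76) (nat_lit 6639034034) (nat_lit 152)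 (nat_lit 55924732932) (nat_lit 11) (nat_lit 5) (nat_lit 12) (nat_lit 5) (nat_lit 13) (nat_lit 4) (nat_lit 319) (nat_lit 281) (nat_lit 180)) (XT.lf (nat_lit 0) (nat_lit 109366830261) (nat_lit 152) (nat_lit 15860007269) (nat_lit 0) (nat_lit 21337785193) (nat_lit 11) (nat_lit 5) (nat_lit 13) (nat_lit 4) (nat_lit 11) (nat_lit 4) (nat_lit 320) (nat_lit 281) (nat_lit 179)))) (XT.nd (nat_lit 156) (nat_lit 76) (nat_lit 0) (XT.nd (nat_lit 78) (nat_lit 76) (nat_lit 0) (XT.lf (nat_lit 0) (nat_lit 36216199528) (nat_lit 76) (nat_lit 103879191796) (nat_lit 76) (nat_lit 15847604359) (nat_lit 10) (nat_lit 4) (nat_lit 11) (nat_lit 5) (nat_lit 11) (nat_lit 4) (nat_lit 321) (nat_lit 281) (nat_lit 178)) (XT.lf (nat_lit 0) (nat_lit 7293119053) (nat_lit 152) (nat_lit 72864253850) (nat_lit 76) (nat_lit 85864935759) (nat_lit 9) (nat_lit 5) (nat_lit 11) (nat_lit 5) (nat_lit 10) (nat_lit 4) (nat_lit 322) (nat_lit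 281) (nat_lit 177))) (XT.nd (nat_lit 78) (nat_lit 76) (nat_lit 0) (XT.lf (nat_lit 0) (nat_lit 31427362073) (nat_lit 152) (nat_lit 22667208039) (nat_lit 76) (nat_lit 122780592145) (nat_lit 9) (nat_lit 5) (nat_lit 11) (nat_lit 5) (nat_lit 10) (nat_lit 4) (nat_lit 323) (nat_lit 281) (nat_lit 176)) (XT.lf (nat_lit 0) (nat_lit 33203935866) (nat_lit 76) (nat_lit 25085523380) (nat_lit 152) (nat_lit 130243016813) (nat_lit 8) (nat_lit 5) (nat_lit 9) (nat_lit 5) (nat_lit 10) (nat_lit 4) (nat_lit 324) (nat_lit 281) (nat_lit 175))))) (XT.nd (nat_lit 312) (nat_lit 152) (nat_lit 0) (XT.nd (nat_lit 156) (nat_lit 76) (nat_lit 0) (XT.nd (nat_lit 78) (nat_lit 0) (nat_lit 0) (XT.lf (nat_lit 0) (nat_lit 88085132638) (nat_lit 152) (nat_lit 106407868029) (nat_lit 0) (nat_lit 6566606636) (nat_lit 8) (nat_lit 5) (nat_lit 10) (nat_lit 4) (nat_lit 8) (nat_lit 4) (nat_lit 325) (nat_lit 281) (nat_lit 174)) (XT.lf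 (nat_lit 0) (nat_lit 120914712318) (nat_lit 152) (nat_lit 54227593284) (nat_lit 0) (nat_lit 39394584193) (nat_lit 8) (nat_lit 5) (nat_lit 10) (nat_lit 4) (nat_lit 8) (nat_lit 4) (nat_lit 326) (nat_lit 281) (nat_lit 173))) (XT.nd (nat_lit 78) (nat_lit 0) (nat_lit 0) (XT.lf (nat_lit 0) (nat_lit 2236696546) (nat_lit 76) (nat_lit 154186532562) (nat_lit 76) (nat_lit 72664920989) (nat_lit 7) (nat_lit 4) (nat_lit 8) (nat_lit 5) (nat_lit 8) (nat_lit 4) (nat_lit 327) (nat_lit 281) (nat_lit 172)) (XT.lf (nat_lit 0) (nat_lit 66299863442) (nat_lit 76) (nat_lit 129954057127) (nat_lit 76) (nat_lit 48431071992) (nat_lit 7) (nat_lit 4) (nat_lit 8) (nat_lit 5) (nat_lit 8) (nat_lit 4) (nat_lit 328) (nat_lit 281) (nat_lit 171)))) (XT.nd (nat_lit 156) (nat_lit 76) (nat_lit 0) (XT.nd (nat_lit 78) (nat_lit 76) (nat_lit 0) (XT.lf (nat_lit 0) (nat_lit 135486012022) (nat_lit 76) (nat_lit 103783957945) (nat_lit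 76) (nat_lit 22259700993) (nat_lit 7) (nat_lit 4) (nat_lit 8) (nat_lit 5) (nat_lit 8) (nat_lit 4) (nat_lit 329) (nat_lit 281) (nat_lit 170)) (XT.lf (nat_lit 0) (nat_lit 5703923131) (nat_lit 152) (nat_lit 69661274448) (nat_lit 76) (nat_lit 204345255781) (nat_lit 6) (nat_lit 5) (nat_lit 8) (nat_lit 5) (nat_lit 7) (nat_lit 4) (nat_lit 330) (nat_lit 281) (nat_lit 169))) (XT.nd (nat_lit 78) (nat_lit 76) (nat_lit 0) (XT.lf (nat_lit 0) (nat_lit 34701069285) (nat_lit 152) (nat_lit 9348300824) (nat_lit 76) (nat_lit 255250152180) (nat_lit 6) (nat_lit 5) (nat_lit 8) (nat_lit 5) (nat_lit 7) (nat_lit 4) (nat_lit 331) (nat_lit 281) (nat_lit 168)) (XT.lf (nat_lit 0) (nat_lit 58725716680) (nat_lit 76) (nat_lit 8703731025) (nat_lit 152) (nat_lit 252913352730) (nat_lit 5) (nat_lit 5) (nat_lit 6) (nat_lit 5) (nat_lit 7) (nat_lit 4) (nat_lit 332) (nat_lit 281) (nat_lit 167)))))) (XT.nd (nat_lit 624) (nat_lit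 152) (nat_lit 0) (XT.nd (nat_lit 312) (nat_lit 76) (nat_lit 0) (XT.nd (nat_lit 156) (nat_lit 0) (nat_lit 0) (XT.nd (nat_lit 78) (nat_lit 0) (nat_lit 0) (XT.lf (nat_lit 0) (nat_lit 103746191512) (nat_lit 152) (nat_lit 210988874202) (nat_lit 0) (nat_lit 28256868019) (nat_lit 5) (nat_lit 5) (nat_lit 7) (nat_lit 4) (nat_lit 5) (nat_lit 4) (nat_lit 333) (nat_lit 281) (nat_lit 166)) (XT.lf (nat_lit 0) (nat_lit 143193524884) (nat_lit 152) (nat_lit 156538053344) (nat_lit 0) (nat_lit 67703399931) (nat_lit 5) (nat_lit 5) (nat_lit 7) (nat_lit 4) (nat_lit 5) (nat_lit 4) (nat_lit 334) (nat_lit 281) (nat_lit 165))) (XT.nd (nat_lit 78) (nat_lit 0) (nat_lit 0) (XT.lf (nat_lit 0) (nat_lit 185795884857) (nat_lit 152) (nat_lit 97732624711) (nat_lit 0) (nat_lit 110305017811) (nat_lit 5) (nat_lit 5) (nat_lit 7) (nat_lit 4) (nat_lit 5) (nat_lit 4) (nat_lit 335) (nat_lit 281) (nat_lit 164)) (XT.lf (nat_lit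 0) (nat_lit 231805729861) (nat_lit 152) (nat_lit 34224111689) (nat_lit 0) (nat_lit 156314175692) (nat_lit 5) (nat_lit 5) (nat_lit 7) (nat_lit 4) (nat_lit 5) (nat_lit 4) (nat_lit 336) (nat_lit 281) (nat_lit 163)))) (XT.nd (nat_lit 156) (nat_lit 0) (nat_lit 0) (XT.nd (nat_lit 78) (nat_lit 0) (nat_lit 0) (XT.lf (nat_lit 0) (nat_lit 36173370984) (nat_lit 76) (nat_lit 246192310286) (nat_lit 76) (nat_lit 170700119892) (nat_lit 4) (nat_lit 4) (nat_lit 5) (nat_lit 5) (nat_lit 5) (nat_lit 4) (nat_lit 337) (nat_lit 281) (nat_lit 162)) (XT.lf (nat_lit 0) (nat_lit 114147789563) (nat_lit 76) (nat_lit 223757754427) (nat_lit 76) (nat_lit 148264974935) (nat_lit 4) (nat_lit 4) (nat_lit 5) (nat_lit 5) (nat_lit 5) (nat_lit 4) (nat_lit 338) (nat_lit 281) (nat_lit 161))) (XT.nd (nat_lit 78) (nat_lit 0) (nat_lit 0) (XT.lf (nat_lit 0) (nat_lit 198359033605) (nat_lit 76) (nat_lit 199528976321) (nat_lit 76)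 (nat_lit 124035651369) (nat_lit 4) (nat_lit 4) (nat_lit 5) (nat_lit 5) (nat_lit 5) (nat_lit 4) (nat_lit 339) (nat_lit 281) (nat_lit 160)) (XT.lf (nat_lit 0) (nat_lit 289306132704) (nat_lit 76) (nat_lit 173362398024) (nat_lit 76) (nat_lit 97868568015) (nat_lit 4) (nat_lit 4) (nat_lit 5) (nat_lit 5) (nat_lit 5) (nat_lit 4) (nat_lit 340) (nat_lit 281) (nat_lit 159))))) (XT.nd (nat_lit 312) (nat_lit 76) (nat_lit 0) (XT.nd (nat_lit 156) (nat_lit 76) (nat_lit 0) (XT.nd (nat_lit 78) (nat_lit 0) (nat_lit 0) (XT.lf (nat_lit 0) (nat_lit 387528032633) (nat_lit 76) (nat_lit 145102958330) (nat_lit 76) (nat_lit 69608660677) (nat_lit 4) (nat_lit 4) (nat_lit 5) (nat_lit 5) (nat_lit 5) (nat_lit 4) (nat_lit 341) (nat_lit 281) (nat_lit 158)) (XT.lf (nat_lit 0) (nat_lit 493606789094) (nat_lit 76) (nat_lit 114583193894) (nat_lit 76) (nat_lit 39088463237) (nat_lit 4) (nat_lit 4) (nat_lit 5) (nat_lit 5) (nat_lit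 5) (nat_lit 4) (nat_lit 342) (nat_lit 281) (nat_lit 157))) (XT.nd (nat_lit 78) (nat_lit 76) (nat_lit 0) (XT.lf (nat_lit 0) (nat_lit 608171016940) (nat_lit 76) (nat_lit 81622246852) (nat_lit 76) (nat_lit 6127115265) (nat_lit 4) (nat_lit 4) (nat_lit 5) (nat_lit 5) (nat_lit 5) (nat_lit 4) (nat_lit 343) (nat_lit 281) (nat_lit 156)) (XT.lf (nat_lit 0) (nat_lit 27996465485) (nat_lit 152) (nat_lit 17262854607) (nat_lit 76) (nat_lit 703137676834) (nat_lit 3) (nat_lit 5) (nat_lit 5) (nat_lit 5) (nat_lit 4) (nat_lit 4) (nat_lit 344) (nat_lit 281) (nat_lit 155)))) (XT.nd (nat_lit 156) (nat_lit 0) (nat_lit 0) (XT.nd (nat_lit 78) (nat_lit 0) (nat_lit 0) (XT.lf (nat_lit 0) (nat_lit 61793876641) (nat_lit 76) (nat_lit 4210797970) (nat_lit 152) (nat_lit 738935476912) (nat_lit 2) (nat_lit 5) (nat_lit 3) (nat_lit 5) (nat_lit 4) (nat_lit 4) (nat_lit 345) (nat_lit 281) (nat_lit 154)) (XT.lf (nat_lit 0) (nat_lit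 108502346470) (nat_lit 152) (nat_lit 718790017556) (nat_lit 0) (nat_lit 38598490153) (nat_lit 2) (nat_lit 5) (nat_lit 4) (nat_lit 4) (nat_lit 2) (nat_lit 4) (nat_lit 346) (nat_lit 281) (nat_lit 153))) (XT.nd (nat_lit 78) (nat_lit 0) (nat_lit 0) (XT.lf (nat_lit 0) (nat_lit 154508855040) (nat_lit 152) (nat_lit 692595310472) (nat_lit 0) (nat_lit 84604725857) (nat_lit 2) (nat_lit 5) (nat_lit 4) (nat_lit 4) (nat_lit 2) (nat_lit 4) (nat_lit 347) (nat_lit 281) (nat_lit 152)) (XT.lf (nat_lit 0) (nat_lit 204195561692) (nat_lit 152) (nat_lit 664305655944) (nat_lit 0) (nat_lit 134291179856) (nat_lit 2) (nat_lit 5) (nat_lit 4) (nat_lit 4) (nat_lit 2) (nat_lit 4) (nat_lit 348) (nat_lit 281) (nat_lit 151))))))))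
noncomputable def xc84 : XT := (XT.nd (nat_lit 36348) (nat_lit 0) (nat_lit 532) (XT.nd (nat_lit 1170) (nat_lit 0) (nat_lit 0) (XT.nd (nat_lit 546) (nat_lit 76) (nat_lit 0) (XT.nd (nat_lit 234) (nat_lit 0) (nat_lit 0) (XT.nd (nat_lit 78) (nat_lit 0) (nat_lit 0) (XT.lf (nat_lit 0) (nat_lit 257856906169) (nat_lit 152) (nat_lit 633753411576) (nat_lit 0) (nat_lit 187952290394) (nat_lit 2) (nat_lit 5) (nat_lit 4) (nat_lit 4) (nat_lit 2) (nat_lit 4) (nat_lit 349) (nat_lit 281) (nat_lit 150)) (XT.nd (nat_lit 78) (nat_lit 0) (nat_lit 0) (XT.lf (nat_lit 0) (nat_lit 315810881623) (nat_lit 152) (nat_lit 600757527030) (nat_lit 0) (nat_lit 245906049238) (nat_lit 2) (nat_lit 5) (nat_lit 4) (nat_lit 4) (nat_lit 2) (nat_lit 4) (nat_lit 350) (nat_lit 281) (nat_lit 149)) (XT.lf (nat_lit 0) (nat_lit 378400919020) (nat_lit 152) (nat_lit 565122471138) (nat_lit 0) (nat_lit 308495886070) (nat_lit 2) (nat_lit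 5) (nat_lit 4) (nat_lit 4) (nat_lit 2) (nat_lit 4) (nat_lit 351) (nat_lit 281) (nat_lit 148)))) (XT.nd (nat_lit 156) (nat_lit 0) (nat_lit 0) (XT.nd (nat_lit 78) (nat_lit 0) (nat_lit 0) (XT.lf (nat_lit 0) (nat_lit 445997922285) (nat_lit 152) (nat_lit 526637073199) (nat_lit 0) (nat_lit 376092703627) (nat_lit 2) (nat_lit 5) (nat_lit 4) (nat_lit 4) (nat_lit 2) (nat_lit 4) (nat_lit 352) (nat_lit 281) (nat_lit 147)) (XT.lf (nat_lit 0) (nat_lit 519002466252) (nat_lit 152) (nat_lit 485073271596) (nat_lit 0) (nat_lit 449097075642) (nat_lit 2) (nat_lit 5) (nat_lit 4) (nat_lit 4) (nat_lit 2) (nat_lit 4) (nat_lit 353) (nat_lit 281) (nat_lit 146))) (XT.nd (nat_lit 78) (nat_lit 0) (nat_lit 0) (XT.lf (nat_lit 0) (nat_lit 597847170442) (nat_lit 152) (nat_lit 440184762319) (nat_lit 0) (nat_lit 527941620617) (nat_lit 2) (nat_lit 5) (nat_lit 4) (nat_lit 4) (nat_lit 2) (nat_lit 4) (nat_lit 354) (nat_lit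 281) (nat_lit 145)) (XT.lf (nat_lit 0) (nat_lit 682999262730) (nat_lit 152) (nat_lit 391705539387) (nat_lit 0) (nat_lit 613093565484) (nat_lit 2) (nat_lit 5) (nat_lit 4) (nat_lit 4) (nat_lit 2) (nat_lit 4) (nat_lit 355) (nat_lit 281) (nat_lit 144))))) (XT.nd (nat_lit 312) (nat_lit 76) (nat_lit 0) (XT.nd (nat_lit 156) (nat_lit 0) (nat_lit 0) (XT.nd (nat_lit 78) (nat_lit 0) (nat_lit 0) (XT.lf (nat_lit 0) (nat_lit 774963348108) (nat_lit 152) (nat_lit 339348318516) (nat_lit 0) (nat_lit 705057514361) (nat_lit 2) (nat_lit 5) (nat_lit 4) (nat_lit 4) (nat_lit 2) (nat_lit 4) (nat_lit 356) (nat_lit 281) (nat_lit 143)) (XT.lf (nat_lit 0) (nat_lit 874284398934) (nat_lit 152) (nat_lit 282802834693) (nat_lit 0) (nat_lit 804378438797) (nat_lit 2) (nat_lit 5) (nat_lit 4) (nat_lit 4) (nat_lit 2) (nat_lit 4) (nat_lit 357) (nat_lit 281) (nat_lit 142))) (XT.nd (nat_lit 78) (nat_lit 0) (nat_lit 0) (XT.lf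 (nat_lit 0) (nat_lit 981550984398) (nat_lit 152) (nat_lit 221734003571) (nat_lit 0) (nat_lit 911644907234) (nat_lit 2) (nat_lit 5) (nat_lit 4) (nat_lit 4) (nat_lit 2) (nat_lit 4) (nat_lit 358) (nat_lit 281) (nat_lit 141)) (XT.lf (nat_lit 0) (nat_lit 1097398758339) (nat_lit 152) (nat_lit 155779935779) (nat_lit 0) (nat_lit 1027492572817) (nat_lit 2) (nat_lit 5) (nat_lit 4) (nat_lit 4) (nat_lit 2) (nat_lit 4) (nat_lit 359) (nat_lit 281) (nat_lit 140)))) (XT.nd (nat_lit 156) (nat_lit 76) (nat_lit 0) (XT.nd (nat_lit 78) (nat_lit 0) (nat_lit 0) (XT.lf (nat_lit 0) (nat_lit 1222514226086) (nat_lit 152) (nat_lit 84549792397) (nat_lit 0) (nat_lit 1152607940231) (nat_lit 2) (nat_lit 5) (nat_lit 4) (nat_lit 4) (nat_lit 2) (nat_lit 4) (nat_lit 360) (nat_lit 281) (nat_lit 139)) (XT.lf (nat_lit 0) (nat_lit 1357638812631) (nat_lit 152) (nat_lit 7621468871) (nat_lit 0) (nat_lit 1287732433876) (nat_lit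 2) (nat_lit 5) (nat_lit 4) (nat_lit 4) (nat_lit 2) (nat_lit 4) (nat_lit 361) (nat_lit 281) (nat_lit 138))) (XT.nd (nat_lit 78) (nat_lit 0) (nat_lit 0) (XT.lf (nat_lit 0) (nat_lit 79434543943) (nat_lit 76) (nat_lit 1426049115015) (nat_lit 76) (nat_lit 1356142650241) (nat_lit 1) (nat_lit 4) (nat_lit 2) (nat_lit 5) (nat_lit 2) (nat_lit 4) (nat_lit 362) (nat_lit 281) (nat_lit 137)) (XT.lf (nat_lit 0) (nat_lit 173888268703) (nat_lit 76) (nat_lit 1491476102035) (nat_lit 76) (nat_lit 1421569557614) (nat_lit 1) (nat_lit 4) (nat_lit 2) (nat_lit 5) (nat_lit 2) (nat_lit 4) (nat_lit 363) (nat_lit 281) (nat_lit 136)))))) (XT.nd (nat_lit 34554) (nat_lit 0) (nat_lit 2584) (XT.nd (nat_lit 34242) (nat_lit 0) (nat_lit 3344) (XT.nd (nat_lit 156) (nat_lit 0) (nat_lit 0) (XT.nd (nat_lit 78) (nat_lit 0) (nat_lit 0) (XT.lf (nat_lit 0) (nat_lit 275898098138) (nat_lit 76) (nat_lit 1562137342508) (nat_lit 76)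 (nat_lit 1492230724339) (nat_lit 1) (nat_lit 4) (nat_lit 2) (nat_lit 5) (nat_lit 2) (nat_lit 4) (nat_lit 364) (nat_lit 281) (nat_lit 135)) (XT.lf (nat_lit 0) (nat_lit 386068534942) (nat_lit 76) (nat_lit 1638451569710) (nat_lit 76) (nat_lit 1568544883257) (nat_lit 1) (nat_lit 4) (nat_lit 2) (nat_lit 5) (nat_lit 2) (nat_lit 4) (nat_lit 365) (nat_lit 281) (nat_lit 134))) (XT.nd (nat_lit 78) (nat_lit 0) (nat_lit 0) (XT.lf (nat_lit 0) (nat_lit 505052440962) (nat_lit 76) (nat_lit 1720871016099) (nat_lit 76) (nat_lit 1650964266420) (nat_lit 1) (nat_lit 4) (nat_lit 2) (nat_lit 5) (nat_lit 2) (nat_lit 4) (nat_lit 366) (nat_lit 281) (nat_lit 133)) (XT.lf (nat_lit 0) (nat_lit 633554906012) (nat_lit 76) (nat_lit 1809884093209) (nat_lit 76) (nat_lit 1739977284987) (nat_lit 1) (nat_lit 4) (nat_lit 2) (nat_lit 5) (nat_lit 2) (nat_lit 4) (nat_lit 367) (nat_lit 281) (nat_lit 132)))) (XT.nd (nat_lit 156)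 (nat_lit 0) (nat_lit 76) (XT.nd (nat_lit 78) (nat_lit 0) (nat_lit 0) (XT.lf (nat_lit 0) (nat_lit 6617960878) (nat_lit 532) (nat_lit 2263205013) (nat_lit 532) (nat_lit 2263205013) (nat_lit 45) (nat_lit 3) (nat_lit 52) (nat_lit 3) (nat_lit 52) (nat_lit 5) (nat_lit 282) (nat_lit 282) (nat_lit 216)) (XT.lf (nat_lit 76) (nat_lit 6005108019) (nat_lit 0) (nat_lit 8026216835) (nat_lit 532) (nat_lit 9127339593) (nat_lit 46) (nat_lit 5) (nat_lit 45) (nat_lit 3) (nat_lit 52) (nat_lit 5) (nat_lit 283) (nat_lit 282) (nat_lit 215))) (XT.nd (nat_lit 78) (nat_lit 0) (nat_lit 0) (XT.lf (nat_lit 0) (nat_lit 15064993137) (nat_lit 456) (nat_lit 6522863176) (nat_lit 532) (nat_lit 2496388935) (nat_lit 46) (nat_lit 5) (nat_lit 52) (nat_lit 5) (nat_lit 53) (nat_lit 5) (nat_lit 284) (nat_lit 282) (nat_lit 214)) (XT.lf (nat_lit 76) (nat_lit 4992052066) (nat_lit 0) (nat_lit 11506541365) (nat_lit 532) (nat_lit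 8559932397) (nat_lit 47) (nat_lit 5) (nat_lit 46) (nat_lit 5) (nat_lit 53) (nat_lit 5) (nat_lit 285) (nat_lit 282) (nat_lit 213))))) (XT.nd (nat_lit 312) (nat_lit 532) (nat_lit 0) (XT.nd (nat_lit 156) (nat_lit 304) (nat_lit 0) (XT.nd (nat_lit 78) (nat_lit 0) (nat_lit 76) (XT.lf (nat_lit 76) (nat_lit 17791828012) (nat_lit 0) (nat_lit 422767942) (nat_lit 532) (nat_lit 7882765765) (nat_lit 47) (nat_lit 5) (nat_lit 46) (nat_lit 5) (nat_lit 53) (nat_lit 5) (nat_lit 286) (nat_lit 282) (nat_lit 212)) (XT.lf (nat_lit 76) (nat_lit 4327389480) (nat_lit 0) (nat_lit 16112515164) (nat_lit 532) (nat_lit 6749665536) (nat_lit 48) (nat_lit 5) (nat_lit 47) (nat_lit 5) (nat_lit 54) (nat_lit 5) (nat_lit 287) (nat_lit 282) (nat_lit 211))) (XT.nd (nat_lit 78) (nat_lit 380) (nat_lit 0) (XT.lf (nat_lit 76) (nat_lit 18424280870) (nat_lit 0) (nat_lit 4647522239) (nat_lit 532) (nat_lit 5279092720) (nat_lit 48)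 (nat_lit 5) (nat_lit 47) (nat_lit 5) (nat_lit 54) (nat_lit 5) (nat_lit 288) (nat_lit 282) (nat_lit 210)) (XT.lf (nat_lit 0) (nat_lit 4052873748) (nat_lit 456) (nat_lit 22136367462) (nat_lit 532) (nat_lit 3393911114) (nat_lit 42) (nat_lit 5) (nat_lit 48) (nat_lit 5) (nat_lit 49) (nat_lit 5) (nat_lit 289) (nat_lit 282) (nat_lit 209)))) (XT.nd (nat_lit 156) (nat_lit 228) (nat_lit 0) (XT.nd (nat_lit 78) (nat_lit 304) (nat_lit 0) (XT.lf (nat_lit 0) (nat_lit 19580734531) (nat_lit 456) (nat_lit 10356357563) (nat_lit 532) (nat_lit 946437878) (nat_lit 42) (nat_lit 5) (nat_lit 48) (nat_lit 5) (nat_lit 49) (nat_lit 5) (nat_lit 290) (nat_lit 282) (nat_lit 208)) (XT.lf (nat_lit 0) (nat_lit 1766533183) (nat_lit 304) (nat_lit 28111620668) (nat_lit 76) (nat_lit 2394171577) (nat_lit 38) (nat_lit 5) (nat_lit 42) (nat_lit 5) (nat_lit 39) (nat_lit 5) (nat_lit 291) (nat_lit 282) (nat_lit 207))) (XT.nd (nat_lit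 78) (nat_lit 228) (nat_lit 0) (XT.lf (nat_lit 0) (nat_lit 5224202253) (nat_lit 304) (nat_lit 12552761494) (nat_lit 76) (nat_lit 15947008251) (nat_lit 38) (nat_lit 5) (nat_lit 42) (nat_lit 5) (nat_lit 39) (nat_lit 5) (nat_lit 292) (nat_lit 282) (nat_lit 206)) (XT.lf (nat_lit 0) (nat_lit 4467103322) (nat_lit 228) (nat_lit 4592084746) (nat_lit 304) (nat_lit 26224522175) (nat_lit 35) (nat_lit 5) (nat_lit 38) (nat_lit 5) (nat_lit 39) (nat_lit 5) (nat_lit 293) (nat_lit 282) (nat_lit 205))))))) (XT.nd (nat_lit 1248) (nat_lit 760) (nat_lit 0) (XT.nd (nat_lit 624) (nat_lit 532) (nat_lit 0) (XT.nd (nat_lit 312) (nat_lit 380) (nat_lit 0) (XT.nd (nat_lit 156) (nat_lit 152) (nat_lit 0) (XT.nd (nat_lit 78) (nat_lit 228) (nat_lit 0) (XT.lf (nat_lit 0) (nat_lit 13778712633) (nat_lit 304) (nat_lit 13626762933) (nat_lit 76) (nat_lit 9516547798) (nat_lit 35) (nat_lit 5) (nat_lit 39) (nat_lit 5) (nat_lit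 36) (nat_lit 5) (nat_lit 294) (nat_lit 282) (nat_lit 204)) (XT.lf (nat_lit 0) (nat_lit 5065445868) (nat_lit 228) (nat_lit 14045513271) (nat_lit 304) (nat_lit 19561643494) (nat_lit 32) (nat_lit 5) (nat_lit 35) (nat_lit 5) (nat_lit 36) (nat_lit 5) (nat_lit 295) (nat_lit 282) (nat_lit 203))) (XT.nd (nat_lit 78) (nat_lit 152) (nat_lit 0) (XT.lf (nat_lit 0) (nat_lit 25255571284) (nat_lit 304) (nat_lit 14531524280) (nat_lit 76) (nat_lit 745282670) (nat_lit 32) (nat_lit 5) (nat_lit 36) (nat_lit 5) (nat_lit 33) (nat_lit 5) (nat_lit 296) (nat_lit 282) (nat_lit 202)) (XT.lf (nat_lit 0) (nat_lit 5998750393) (nat_lit 152) (nat_lit 26396823586) (nat_lit 228) (nat_lit 10105068092) (nat_lit 30) (nat_lit 5) (nat_lit 32) (nat_lit 5) (nat_lit 33) (nat_lit 5) (nat_lit 297) (nat_lit 282) (nat_lit 201)))) (XT.nd (nat_lit 156) (nat_lit 152) (nat_lit 0) (XT.nd (nat_lit 78) (nat_lit 228) (nat_lit 0) (XT.lf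 (nat_lit 0) (nat_lit 28991364933) (nat_lit 152) (nat_lit 11507696303) (nat_lit 228) (nat_lit 4095934062) (nat_lit 30) (nat_lit 5) (nat_lit 32) (nat_lit 5) (nat_lit 33) (nat_lit 5) (nat_lit 298) (nat_lit 282) (nat_lit 200)) (XT.lf (nat_lit 0) (nat_lit 2560104365) (nat_lit 228) (nat_lit 39688556870) (nat_lit 76) (nat_lit 4580764854) (nat_lit 27) (nat_lit 5) (nat_lit 30) (nat_lit 5) (nat_lit 28) (nat_lit 5) (nat_lit 299) (nat_lit 282) (nat_lit 199))) (XT.nd (nat_lit 78) (nat_lit 152) (nat_lit 0) (XT.lf (nat_lit 0) (nat_lit 10259331858) (nat_lit 228) (nat_lit 17038992415) (nat_lit 76) (nat_lit 21877225371) (nat_lit 27) (nat_lit 5) (nat_lit 30) (nat_lit 5) (nat_lit 28) (nat_lit 5) (nat_lit 300) (nat_lit 282) (nat_lit 198)) (XT.lf (nat_lit 0) (nat_lit 7807096274) (nat_lit 152) (nat_lit 10950883785) (nat_lit 228) (nat_lit 32936712531) (nat_lit 25) (nat_lit 5) (nat_lit 27) (nat_lit 5) (nat_lit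 28) (nat_lit 5) (nat_lit 301) (nat_lit 282) (nat_lit 197))))) (XT.nd (nat_lit 312) (nat_lit 228) (nat_lit 0) (XT.nd (nat_lit 156) (nat_lit 152) (nat_lit 0) (XT.nd (nat_lit 78) (nat_lit 152) (nat_lit 0) (XT.lf (nat_lit 0) (nat_lit 28571593565) (nat_lit 228) (nat_lit 18947668768) (nat_lit 76) (nat_lit 6845306268) (nat_lit 25) (nat_lit 5) (nat_lit 28) (nat_lit 5) (nat_lit 26) (nat_lit 5) (nat_lit 302) (nat_lit 282) (nat_lit 196)) (XT.lf (nat_lit 0) (nat_lit 8102670577) (nat_lit 152) (nat_lit 31543097143) (nat_lit 228) (nat_lit 17564236201) (nat_lit 23) (nat_lit 5) (nat_lit 25) (nat_lit 5) (nat_lit 26) (nat_lit 5) (nat_lit 303) (nat_lit 282) (nat_lit 195))) (XT.nd (nat_lit 78) (nat_lit 152) (nat_lit 0) (XT.lf (nat_lit 0) (nat_lit 38389079122) (nat_lit 152) (nat_lit 13731174347) (nat_lit 228) (nat_lit 8121676820) (nat_lit 23) (nat_lit 5) (nat_lit 25) (nat_lit 5) (nat_lit 26) (nat_lit 5) (nat_lit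 304) (nat_lit 282) (nat_lit 194)) (XT.lf (nat_lit 0) (nat_lit 2298082320) (nat_lit 152) (nat_lit 55712982659) (nat_lit 76) (nat_lit 5475303780) (nat_lit 21) (nat_lit 5) (nat_lit 23) (nat_lit 5) (nat_lit 22) (nat_lit 5) (nat_lit 305) (nat_lit 282) (nat_lit 193)))) (XT.nd (nat_lit 156) (nat_lit 76) (nat_lit 0) (XT.nd (nat_lit 78) (nat_lit 152) (nat_lit 0) (XT.lf (nat_lit 0) (nat_lit 14078895028) (nat_lit 152) (nat_lit 26518581495) (nat_lit 76) (nat_lit 26298714334) (nat_lit 21) (nat_lit 5) (nat_lit 23) (nat_lit 5) (nat_lit 22) (nat_lit 5) (nat_lit 306) (nat_lit 282) (nat_lit 192)) (XT.lf (nat_lit 0) (nat_lit 5269992275) (nat_lit 152) (nat_lit 21655762262) (nat_lit 228) (nat_lit 43643162374) (nat_lit 19) (nat_lit 5) (nat_lit 21) (nat_lit 5) (nat_lit 22) (nat_lit 5) (nat_lit 307) (nat_lit 282) (nat_lit 191))) (XT.nd (nat_lit 78) (nat_lit 76) (nat_lit 0) (XT.lf (nat_lit 0) (nat_lit 41104908063)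 (nat_lit 152) (nat_lit 417474956) (nat_lit 228) (nat_lit 32955320795) (nat_lit 19) (nat_lit 5) (nat_lit 21) (nat_lit 5) (nat_lit 22) (nat_lit 5) (nat_lit 308) (nat_lit 282) (nat_lit 190)) (XT.lf (nat_lit 0) (nat_lit 590660694) (nat_lit 76) (nat_lit 57249029922) (nat_lit 152) (nat_lit 20815271200) (nat_lit 18) (nat_lit 5) (nat_lit 19) (nat_lit 5) (nat_lit 20) (nat_lit 4) (nat_lit 309) (nat_lit 282) (nat_lit 189)))))) (XT.nd (nat_lit 624) (nat_lit 304) (nat_lit 0) (XT.nd (nat_lit 312) (nat_lit 228) (nat_lit 0) (XT.nd (nat_lit 156) (nat_lit 152) (nat_lit 0) (XT.nd (nat_lit 78) (nat_lit 76) (nat_lit 0) (XT.lf (nat_lit 0) (nat_lit 39153132322) (nat_lit 76) (nat_lit 37229532291) (nat_lit 152) (nat_lit 6710117060) (nat_lit 18) (nat_lit 5) (nat_lit 19) (nat_lit 5) (nat_lit 20) (nat_lit 4) (nat_lit 310) (nat_lit 282) (nat_lit 188)) (XT.lf (nat_lit 0) (nat_lit 8094448070) (nat_lit 152) (nat_lit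 7294403486) (nat_lit 76) (nat_lit 72480589558) (nat_lit 17) (nat_lit 5) (nat_lit 19) (nat_lit 5) (nat_lit 18) (nat_lit 5) (nat_lit 311) (nat_lit 282) (nat_lit 187))) (XT.nd (nat_lit 78) (nat_lit 0) (nat_lit 0) (XT.lf (nat_lit 0) (nat_lit 24753977090) (nat_lit 228) (nat_lit 59377598091) (nat_lit 76) (nat_lit 8800068466) (nat_lit 15) (nat_lit 5) (nat_lit 18) (nat_lit 5) (nat_lit 16) (nat_lit 4) (nat_lit 312) (nat_lit 282) (nat_lit 186)) (XT.lf (nat_lit 0) (nat_lit 43348217407) (nat_lit 228) (nat_lit 20706660437) (nat_lit 76) (nat_lit 34295791382) (nat_lit 15) (nat_lit 5) (nat_lit 18) (nat_lit 5) (nat_lit 16) (nat_lit 4) (nat_lit 313) (nat_lit 282) (nat_lit 185)))) (XT.nd (nat_lit 156) (nat_lit 152) (nat_lit 0) (XT.nd (nat_lit 78) (nat_lit 0) (nat_lit 0) (XT.lf (nat_lit 0) (nat_lit 22162818405) (nat_lit 76) (nat_lit 41797987747) (nat_lit 152) (nat_lit 40199948520) (nat_lit 14) (nat_lit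 5) (nat_lit 15) (nat_lit 5) (nat_lit 16) (nat_lit 4) (nat_lit 314) (nat_lit 282) (nat_lit 184)) (XT.lf (nat_lit 0) (nat_lit 69635750322) (nat_lit 76) (nat_lit 17150675584) (nat_lit 152) (nat_lit 23604101500) (nat_lit 14) (nat_lit 5) (nat_lit 15) (nat_lit 5) (nat_lit 16) (nat_lit 4) (nat_lit 315) (nat_lit 282) (nat_lit 183))) (XT.nd (nat_lit 78) (nat_lit 76) (nat_lit 0) (XT.lf (nat_lit 0) (nat_lit 3743839608) (nat_lit 76) (nat_lit 108010000791) (nat_lit 76) (nat_lit 5339584140) (nat_lit 13) (nat_lit 4) (nat_lit 14) (nat_lit 5) (nat_lit 14) (nat_lit 4) (nat_lit 316) (nat_lit 282) (nat_lit 182)) (XT.lf (nat_lit 0) (nat_lit 15253169803) (nat_lit 152) (nat_lit 70947282323) (nat_lit 76) (nat_lit 37977486247) (nat_lit 12) (nat_lit 5) (nat_lit 14) (nat_lit 5) (nat_lit 13) (nat_lit 4) (nat_lit 317) (nat_lit 282) (nat_lit 181))))) (XT.nd (nat_lit 312) (nat_lit 228) (nat_lit 0) (XT.nd (nat_lit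 156) (nat_lit 0) (nat_lit 0) (XT.nd (nat_lit 78) (nat_lit 76) (nat_lit 0) (XT.lf (nat_lit 0) (nat_lit 37203018688) (nat_lit 152) (nat_lit 25294799294) (nat_lit 76) (nat_lit 69320449764) (nat_lit 12) (nat_lit 5) (nat_lit 14) (nat_lit 5) (nat_lit 13) (nat_lit 4) (nat_lit 318) (nat_lit 282) (nat_lit 180)) (XT.lf (nat_lit 0) (nat_lit 25270970824) (nat_lit 76) (nat_lit 36243939949) (nat_lit 152) (nat_lit 78506429883) (nat_lit 11) (nat_lit 5) (nat_lit 12) (nat_lit 5) (nat_lit 13) (nat_lit 4) (nat_lit 319) (nat_lit 282) (nat_lit 179))) (XT.nd (nat_lit 78) (nat_lit 0) (nat_lit 0) (XT.lf (nat_lit 0) (nat_lit 81317550006) (nat_lit 76) (nat_lit 7144151603) (nat_lit 152) (nat_lit 60363763490) (nat_lit 11) (nat_lit 5) (nat_lit 12) (nat_lit 5) (nat_lit 13) (nat_lit 4) (nat_lit 320) (nat_lit 282) (nat_lit 178)) (XT.lf (nat_lit 0) (nat_lit 118146693177) (nat_lit 152) (nat_lit 17072948772) (nat_lit 0)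 (nat_lit 23067682333) (nat_lit 11) (nat_lit 5) (nat_lit 13) (nat_lit 4) (nat_lit 11) (nat_lit 4) (nat_lit 321) (nat_lit 282) (nat_lit 177)))) (XT.nd (nat_lit 156) (nat_lit 76) (nat_lit 0) (XT.nd (nat_lit 78) (nat_lit 76) (nat_lit 0) (XT.lf (nat_lit 0) (nat_lit 39167940415) (nat_lit 76) (nat_lit 112164647630) (nat_lit 76) (nat_lit 17083457115) (nat_lit 10) (nat_lit 4) (nat_lit 11) (nat_lit 5) (nat_lit 11) (nat_lit 4) (nat_lit 322) (nat_lit 282) (nat_lit 176)) (XT.lf (nat_lit 0) (nat_lit 7904676952) (nat_lit 152) (nat_lit 78641480667) (nat_lit 76) (nat_lit 92755665680) (nat_lit 9) (nat_lit 5) (nat_lit 11) (nat_lit 5) (nat_lit 10) (nat_lit 4) (nat_lit 323) (nat_lit 282) (nat_lit 175))) (XT.nd (nat_lit 78) (nat_lit 76) (nat_lit 0) (XT.lf (nat_lit 0) (nat_lit 33967577312) (nat_lit 152) (nat_lit 24432516635) (nat_lit 76) (nat_lit 132622979386) (nat_lit 9) (nat_lit 5) (nat_lit 11) (nat_lit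 5) (nat_lit 10) (nat_lit 4) (nat_lit 324) (nat_lit 282) (nat_lit 174)) (XT.lf (nat_lit 0) (nat_lit 35907101870) (nat_lit 76) (nat_lit 27070739287) (nat_lit 152) (nat_lit 140635196637) (nat_lit 8) (nat_lit 5) (nat_lit 9) (nat_lit 5) (nat_lit 10) (nat_lit 4) (nat_lit 325) (nat_lit 282) (nat_lit 173))))))))
noncomputable def xc85 : XT := (XT.nd (nat_lit 2418) (nat_lit 76) (nat_lit 0) (XT.nd (nat_lit 1170) (nat_lit 152) (nat_lit 0) (XT.nd (nat_lit 546) (nat_lit 152) (nat_lit 0) (XT.nd (nat_lit 234) (nat_lit 76) (nat_lit 0) (XT.nd (nat_lit 78) (nat_lit 76) (nat_lit 0) (XT.lf (nat_lit 0) (nat_lit 95155781469) (nat_lit 152) (nat_lit 114875712861) (nat_lit 0) (nat_lit 7110957523) (nat_lit 8) (nat_lit 5) (nat_lit 10) (nat_lit 4) (nat_lit 8) (nat_lit 4) (nat_lit 326) (nat_lit 282) (nat_lit 172)) (XT.nd (nat_lit 78) (nat_lit 76) (nat_lit 0) (XT.lf (nat_lit 0) (nat_lit 130609961729) (nat_lit 152)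 (nat_lit 58524333515) (nat_lit 0) (nat_lit 42563764220) (nat_lit 8) (nat_lit 5) (nat_lit 10) (nat_lit 4) (nat_lit 8) (nat_lit 4) (nat_lit 327) (nat_lit 282) (nat_lit 171)) (XT.lf (nat_lit 0) (nat_lit 2456049697) (nat_lit 76) (nat_lit 166502447210) (nat_lit 76) (nat_lit 78454977884) (nat_lit 7) (nat_lit 4) (nat_lit 8) (nat_lit 5) (nat_lit 8) (nat_lit 4) (nat_lit 328) (nat_lit 282) (nat_lit 170)))) (XT.nd (nat_lit 156) (nat_lit 76) (nat_lit 0) (XT.nd (nat_lit 78) (nat_lit 0) (nat_lit 0) (XT.lf (nat_lit 0) (nat_lit 71641276062) (nat_lit 76) (nat_lit 140332781738) (nat_lit 76) (nat_lit 52284134803) (nat_lit 7) (nat_lit 4) (nat_lit 8) (nat_lit 5) (nat_lit 8) (nat_lit 4) (nat_lit 329) (nat_lit 282) (nat_lit 169)) (XT.lf (nat_lit 0) (nat_lit 146359544414) (nat_lit 76) (nat_lit 112070378321) (nat_lit 76) (nat_lit 24020641009) (nat_lit 7) (nat_lit 4) (nat_lit 8) (nat_lit 5) (nat_lit 8) (nat_lit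 4) (nat_lit 330) (nat_lit 282) (nat_lit 168))) (XT.nd (nat_lit 78) (nat_lit 0) (nat_lit 0) (XT.lf (nat_lit 0) (nat_lit 6177684928) (nat_lit 152) (nat_lit 75201162270) (nat_lit 76) (nat_lit 220707035896) (nat_lit 6) (nat_lit 5) (nat_lit 8) (nat_lit 5) (nat_lit 7) (nat_lit 4) (nat_lit 331) (nat_lit 282) (nat_lit 167)) (XT.lf (nat_lit 0) (nat_lit 37493310335) (nat_lit 152) (nat_lit 10065596247) (nat_lit 76) (nat_lit 275683275144) (nat_lit 6) (nat_lit 5) (nat_lit 8) (nat_lit 5) (nat_lit 7) (nat_lit 4) (nat_lit 332) (nat_lit 282) (nat_lit 166))))) (XT.nd (nat_lit 312) (nat_lit 76) (nat_lit 0) (XT.nd (nat_lit 156) (nat_lit 0) (nat_lit 0) (XT.nd (nat_lit 78) (nat_lit 0) (nat_lit 0) (XT.lf (nat_lit 0) (nat_lit 63453568767) (nat_lit 76) (nat_lit 9385910122) (nat_lit 152) (nat_lit 273129482381) (nat_lit 5) (nat_lit 5) (nat_lit 6) (nat_lit 5) (nat_lit 7) (nat_lit 4) (nat_lit 333) (nat_lit 282)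 (nat_lit 165)) (XT.lf (nat_lit 0) (nat_lit 112060715479) (nat_lit 152) (nat_lit 227839541191) (nat_lit 0) (nat_lit 30529836976) (nat_lit 5) (nat_lit 5) (nat_lit 7) (nat_lit 4) (nat_lit 5) (nat_lit 4) (nat_lit 334) (nat_lit 282) (nat_lit 164))) (XT.nd (nat_lit 78) (nat_lit 0) (nat_lit 0) (XT.lf (nat_lit 0) (nat_lit 154662737103) (nat_lit 152) (nat_lit 169034761549) (nat_lit 0) (nat_lit 73131171477) (nat_lit 5) (nat_lit 5) (nat_lit 7) (nat_lit 4) (nat_lit 5) (nat_lit 4) (nat_lit 335) (nat_lit 282) (nat_lit 163)) (XT.lf (nat_lit 0) (nat_lit 200672268820) (nat_lit 152) (nat_lit 105526849445) (nat_lit 0) (nat_lit 119140066969) (nat_lit 5) (nat_lit 5) (nat_lit 7) (nat_lit 4) (nat_lit 5) (nat_lit 4) (nat_lit 336) (nat_lit 282) (nat_lit 162)))) (XT.nd (nat_lit 156) (nat_lit 0) (nat_lit 0) (XT.nd (nat_lit 78) (nat_lit 76) (nat_lit 0) (XT.lf (nat_lit 0) (nat_lit 250361959708) (nat_lit 152) (nat_lit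 36939461696) (nat_lit 0) (nat_lit 168829168759) (nat_lit 5) (nat_lit 5) (nat_lit 7) (nat_lit 4) (nat_lit 5) (nat_lit 4) (nat_lit 337) (nat_lit 282) (nat_lit 161)) (XT.lf (nat_lit 0) (nat_lit 39089247973) (nat_lit 76) (nat_lit 265877116574) (nat_lit 76) (nat_lit 184343780165) (nat_lit 4) (nat_lit 4) (nat_lit 5) (nat_lit 5) (nat_lit 5) (nat_lit 4) (nat_lit 338) (nat_lit 282) (nat_lit 160))) (XT.nd (nat_lit 78) (nat_lit 0) (nat_lit 0) (XT.lf (nat_lit 0) (nat_lit 123299989867) (nat_lit 76) (nat_lit 241648579841) (nat_lit 76) (nat_lit 160114738376) (nat_lit 4) (nat_lit 4) (nat_lit 5) (nat_lit 5) (nat_lit 5) (nat_lit 4) (nat_lit 339) (nat_lit 282) (nat_lit 159)) (XT.lf (nat_lit 0) (nat_lit 214246624015) (nat_lit 76) (nat_lit 215482225038) (nat_lit 76) (nat_lit 133947915928) (nat_lit 4) (nat_lit 4) (nat_lit 5) (nat_lit 5) (nat_lit 5) (nat_lit 4) (nat_lit 340) (nat_lit 282) (nat_lit 158))))))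 (XT.nd (nat_lit 624) (nat_lit 0) (nat_lit 0) (XT.nd (nat_lit 312) (nat_lit 152) (nat_lit 0) (XT.nd (nat_lit 156) (nat_lit 0) (nat_lit 0) (XT.nd (nat_lit 78) (nat_lit 0) (nat_lit 0) (XT.lf (nat_lit 0) (nat_lit 312468093433) (nat_lit 76) (nat_lit 187222992283) (nat_lit 76) (nat_lit 105688250169) (nat_lit 4) (nat_lit 4) (nat_lit 5) (nat_lit 5) (nat_lit 5) (nat_lit 4) (nat_lit 341) (nat_lit 282) (nat_lit 157)) (XT.lf (nat_lit 0) (nat_lit 418546451273) (nat_lit 76) (nat_lit 156703419457) (nat_lit 76) (nat_lit 75168276413) (nat_lit 4) (nat_lit 4) (nat_lit 5) (nat_lit 5) (nat_lit 5) (nat_lit 4) (nat_lit 342) (nat_lit 282) (nat_lit 156))) (XT.nd (nat_lit 78) (nat_lit 0) (nat_lit 0) (XT.lf (nat_lit 0) (nat_lit 533110310027) (nat_lit 76) (nat_lit 123742649832) (nat_lit 76) (nat_lit 42207135557) (nat_lit 4) (nat_lit 4) (nat_lit 5) (nat_lit 5) (nat_lit 5) (nat_lit 4) (nat_lit 343) (nat_lit 282)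 (nat_lit 155)) (XT.lf (nat_lit 0) (nat_lit 656838566634) (nat_lit 76) (nat_lit 88145360328) (nat_lit 76) (nat_lit 6609502320) (nat_lit 4) (nat_lit 4) (nat_lit 5) (nat_lit 5) (nat_lit 5) (nat_lit 4) (nat_lit 344) (nat_lit 282) (nat_lit 154)))) (XT.nd (nat_lit 156) (nat_lit 0) (nat_lit 0) (XT.nd (nat_lit 78) (nat_lit 76) (nat_lit 0) (XT.lf (nat_lit 0) (nat_lit 30243027974) (nat_lit 152) (nat_lit 18630678091) (nat_lit 76) (nat_lit 759394499624) (nat_lit 3) (nat_lit 5) (nat_lit 5) (nat_lit 5) (nat_lit 4) (nat_lit 4) (nat_lit 345) (nat_lit 282) (nat_lit 153)) (XT.lf (nat_lit 0) (nat_lit 66750257356) (nat_lit 76) (nat_lit 4541438956) (nat_lit 152) (nat_lit 798043132391) (nat_lit 2) (nat_lit 5) (nat_lit 3) (nat_lit 5) (nat_lit 4) (nat_lit 4) (nat_lit 346) (nat_lit 282) (nat_lit 152))) (XT.nd (nat_lit 78) (nat_lit 0) (nat_lit 0) (XT.lf (nat_lit 0) (nat_lit 117188828069) (nat_lit 152) (nat_lit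 776280945010) (nat_lit 0) (nat_lit 41691843032) (nat_lit 2) (nat_lit 5) (nat_lit 4) (nat_lit 4) (nat_lit 2) (nat_lit 4) (nat_lit 347) (nat_lit 282) (nat_lit 151)) (XT.lf (nat_lit 0) (nat_lit 166875391112) (nat_lit 152) (nat_lit 747991570541) (nat_lit 0) (nat_lit 91378172136) (nat_lit 2) (nat_lit 5) (nat_lit 4) (nat_lit 4) (nat_lit 2) (nat_lit 4) (nat_lit 348) (nat_lit 282) (nat_lit 150))))) (XT.nd (nat_lit 312) (nat_lit 0) (nat_lit 0) (XT.nd (nat_lit 156) (nat_lit 0) (nat_lit 0) (XT.nd (nat_lit 78) (nat_lit 0) (nat_lit 0) (XT.lf (nat_lit 0) (nat_lit 220536602617) (nat_lit 152) (nat_lit 717439585486) (nat_lit 0) (nat_lit 145039167031) (nat_lit 2) (nat_lit 5) (nat_lit 4) (nat_lit 4) (nat_lit 2) (nat_lit 4) (nat_lit 349) (nat_lit 282) (nat_lit 149)) (XT.lf (nat_lit 0) (nat_lit 278490454949) (nat_lit 152) (nat_lit 684443941045) (nat_lit 0) (nat_lit 202992818799) (nat_lit 2) (nat_lit 5) (nat_lit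 4) (nat_lit 4) (nat_lit 2) (nat_lit 4) (nat_lit 350) (nat_lit 282) (nat_lit 148))) (XT.nd (nat_lit 78) (nat_lit 0) (nat_lit 0) (XT.lf (nat_lit 0) (nat_lit 341080378344) (nat_lit 152) (nat_lit 648809107472) (nat_lit 0) (nat_lit 265582556486) (nat_lit 2) (nat_lit 5) (nat_lit 4) (nat_lit 4) (nat_lit 2) (nat_lit 4) (nat_lit 351) (nat_lit 282) (nat_lit 147)) (XT.lf (nat_lit 0) (nat_lit 408677276052) (nat_lit 152) (nat_lit 610323915385) (nat_lit 0) (nat_lit 333179282241) (nat_lit 2) (nat_lit 5) (nat_lit 4) (nat_lit 4) (nat_lit 2) (nat_lit 4) (nat_lit 352) (nat_lit 282) (nat_lit 146)))) (XT.nd (nat_lit 156) (nat_lit 0) (nat_lit 0) (XT.nd (nat_lit 78) (nat_lit 0) (nat_lit 0) (XT.lf (nat_lit 0) (nat_lit 481681722281) (nat_lit 152) (nat_lit 568760304385) (nat_lit 0) (nat_lit 406183569256) (nat_lit 2) (nat_lit 5) (nat_lit 4) (nat_lit 4) (nat_lit 2) (nat_lit 4) (nat_lit 353) (nat_lit 282) (nat_lit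 145)) (XT.lf (nat_lit 0) (nat_lit 560526335972) (nat_lit 152) (nat_lit 523871971592) (nat_lit 0) (nat_lit 485028035526) (nat_lit 2) (nat_lit 5) (nat_lit 4) (nat_lit 4) (nat_lit 2) (nat_lit 4) (nat_lit 354) (nat_lit 282) (nat_lit 144))) (XT.nd (nat_lit 78) (nat_lit 0) (nat_lit 0) (XT.lf (nat_lit 0) (nat_lit 645678344465) (nat_lit 152) (nat_lit 475392912071) (nat_lit 0) (nat_lit 570179907518) (nat_lit 2) (nat_lit 5) (nat_lit 4) (nat_lit 4) (nat_lit 2) (nat_lit 4) (nat_lit 355) (nat_lit 282) (nat_lit 143)) (XT.lf (nat_lit 0) (nat_lit 737642352256) (nat_lit 152) (nat_lit 423035842507) (nat_lit 0) (nat_lit 662143788919) (nat_lit 2) (nat_lit 5) (nat_lit 4) (nat_lit 4) (nat_lit 2) (nat_lit 4) (nat_lit 356) (nat_lit 282) (nat_lit 142))))))) (XT.nd (nat_lit 35256) (nat_lit 0) (nat_lit 1824) (XT.nd (nat_lit 624) (nat_lit 0) (nat_lit 0) (XT.nd (nat_lit 312) (nat_lit 76) (nat_lit 0) (XT.nd (nat_lit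 156) (nat_lit 0) (nat_lit 0) (XT.nd (nat_lit 78) (nat_lit 0) (nat_lit 0) (XT.lf (nat_lit 0) (nat_lit 836963331241) (nat_lit 152) (nat_lit 366490498783) (nat_lit 0) (nat_lit 761464650877) (nat_lit 2) (nat_lit 5) (nat_lit 4) (nat_lit 4) (nat_lit 2) (nat_lit 4) (nat_lit 357) (nat_lit 282) (nat_lit 141)) (XT.lf (nat_lit 0) (nat_lit 944229850186) (nat_lit 152) (nat_lit 305421797382) (nat_lit 0) (nat_lit 868731061463) (nat_lit 2) (nat_lit 5) (nat_lit 4) (nat_lit 4) (nat_lit 2) (nat_lit 4) (nat_lit 358) (nat_lit 282) (nat_lit 140))) (XT.nd (nat_lit 78) (nat_lit 0) (nat_lit 0) (XT.lf (nat_lit 0) (nat_lit 1060077562537) (nat_lit 152) (nat_lit 239467849702) (nat_lit 0) (nat_lit 984578673481) (nat_lit 2) (nat_lit 5) (nat_lit 4) (nat_lit 4) (nat_lit 2) (nat_lit 4) (nat_lit 359) (nat_lit 282) (nat_lit 139)) (XT.lf (nat_lit 0) (nat_lit 1185192973254) (nat_lit 152) (nat_lit 168237817535) (nat_lit 0)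 (nat_lit 1109693991298) (nat_lit 2) (nat_lit 5) (nat_lit 4) (nat_lit 4) (nat_lit 2) (nat_lit 4) (nat_lit 360) (nat_lit 282) (nat_lit 138)))) (XT.nd (nat_lit 156) (nat_lit 76) (nat_lit 0) (XT.nd (nat_lit 78) (nat_lit 0) (nat_lit 0) (XT.lf (nat_lit 0) (nat_lit 1320317506994) (nat_lit 152) (nat_lit 91309596986) (nat_lit 0) (nat_lit 1244818439020) (nat_lit 2) (nat_lit 5) (nat_lit 4) (nat_lit 4) (nat_lit 2) (nat_lit 4) (nat_lit 361) (nat_lit 282) (nat_lit 137)) (XT.lf (nat_lit 0) (nat_lit 1466251901736) (nat_lit 152) (nat_lit 8227317120) (nat_lit 0) (nat_lit 1390752754114) (nat_lit 2) (nat_lit 5) (nat_lit 4) (nat_lit 4) (nat_lit 2) (nat_lit 4) (nat_lit 362) (nat_lit 282) (nat_lit 136))) (XT.nd (nat_lit 78) (nat_lit 0) (nat_lit 0) (XT.lf (nat_lit 0) (nat_lit 85793078764) (nat_lit 76) (nat_lit 1540131200735) (nat_lit 76) (nat_lit 1464631979366) (nat_lit 1) (nat_lit 4) (nat_lit 2) (nat_lit 5)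 (nat_lit 2) (nat_lit 4) (nat_lit 363) (nat_lit 282) (nat_lit 135)) (XT.lf (nat_lit 0) (nat_lit 187802822148) (nat_lit 76) (nat_lit 1610792483271) (nat_lit 76) (nat_lit 1535293193618) (nat_lit 1) (nat_lit 4) (nat_lit 2) (nat_lit 5) (nat_lit 2) (nat_lit 4) (nat_lit 364) (nat_lit 282) (nat_lit 134))))) (XT.nd (nat_lit 34320) (nat_lit 0) (nat_lit 3344) (XT.nd (nat_lit 156) (nat_lit 0) (nat_lit 0) (XT.nd (nat_lit 78) (nat_lit 0) (nat_lit 0) (XT.lf (nat_lit 0) (nat_lit 297973179275) (nat_lit 76) (nat_lit 1687106749421) (nat_lit 76) (nat_lit 1611607396541) (nat_lit 1) (nat_lit 4) (nat_lit 2) (nat_lit 5) (nat_lit 2) (nat_lit 4) (nat_lit 365) (nat_lit 282) (nat_lit 133)) (XT.lf (nat_lit 0) (nat_lit 416957011520) (nat_lit 76) (nat_lit 1769526231872) (nat_lit 76) (nat_lit 1694026820449) (nat_lit 1) (nat_lit 4) (nat_lit 2) (nat_lit 5) (nat_lit 2) (nat_lit 4) (nat_lit 366) (nat_lit 282) (nat_lit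 132))) (XT.nd (nat_lit 34086) (nat_lit 0) (nat_lit 3344) (XT.lf (nat_lit 0) (nat_lit 545459408261) (nat_lit 76) (nat_lit 1858539342374) (nat_lit 76) (nat_lit 1783039876744) (nat_lit 1) (nat_lit 4) (nat_lit 2) (nat_lit 5) (nat_lit 2) (nat_lit 4) (nat_lit 367) (nat_lit 282) (nat_lit 131)) (XT.lf (nat_lit 0) (nat_lit 7266017865) (nat_lit 532) (nat_lit 2380035887) (nat_lit 532) (nat_lit 2380035887) (nat_lit 45) (nat_lit 3) (nat_lit 52) (nat_lit 3) (nat_lit 52) (nat_lit 5) (nat_lit 283) (nat_lit 283) (nat_lit 214)))) (XT.nd (nat_lit 156) (nat_lit 0) (nat_lit 76) (XT.nd (nat_lit 78) (nat_lit 0) (nat_lit 76) (XT.lf (nat_lit 76) (nat_lit 6610715789) (nat_lit 0) (nat_lit 8765792978) (nat_lit 532) (nat_lit 9616402513) (nat_lit 46) (nat_lit 5) (nat_lit 45) (nat_lit 3) (nat_lit 52) (nat_lit 5) (nat_lit 284) (nat_lit 283) (nat_lit 213)) (XT.lf (nat_lit 0) (nat_lit 16474205142) (nat_lit 456) (nat_lit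 6909516471) (nat_lit 532) (nat_lit 2610356983) (nat_lit 46) (nat_lit 5) (nat_lit 52) (nat_lit 5) (nat_lit 53) (nat_lit 5) (nat_lit 285) (nat_lit 283) (nat_lit 212))) (XT.nd (nat_lit 78) (nat_lit 0) (nat_lit 0) (XT.lf (nat_lit 76) (nat_lit 5523169819) (nat_lit 0) (nat_lit 12487380277) (nat_lit 532) (nat_lit 9036750350) (nat_lit 47) (nat_lit 5) (nat_lit 46) (nat_lit 5) (nat_lit 53) (nat_lit 5) (nat_lit 286) (nat_lit 283) (nat_lit 211)) (XT.lf (nat_lit 76) (nat_lit 19337168316) (nat_lit 0) (nat_lit 512437156) (nat_lit 532) (nat_lit 8320816064) (nat_lit 47) (nat_lit 5) (nat_lit 46) (nat_lit 5) (nat_lit 53) (nat_lit 5) (nat_lit 287) (nat_lit 283) (nat_lit 210)))))) (XT.nd (nat_lit 624) (nat_lit 760) (nat_lit 0) (XT.nd (nat_lit 312) (nat_lit 532) (nat_lit 0) (XT.nd (nat_lit 156) (nat_lit 380) (nat_lit 0) (XT.nd (nat_lit 78) (nat_lit 0) (nat_lit 0) (XT.lf (nat_lit 76) (nat_lit 4808151611) (nat_lit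 0) (nat_lit 17433606562) (nat_lit 532) (nat_lit 7109180123) (nat_lit 48) (nat_lit 5) (nat_lit 47) (nat_lit 5) (nat_lit 54) (nat_lit 5) (nat_lit 288) (nat_lit 283) (nat_lit 209)) (XT.lf (nat_lit 76) (nat_lit 20022826092) (nat_lit 0) (nat_lit 5049037153) (nat_lit 532) (nat_lit 5534328790) (nat_lit 48) (nat_lit 5) (nat_lit 47) (nat_lit 5) (nat_lit 54) (nat_lit 5) (nat_lit 289) (nat_lit 283) (nat_lit 208))) (XT.nd (nat_lit 78) (nat_lit 0) (nat_lit 0) (XT.lf (nat_lit 0) (nat_lit 4511700442) (nat_lit 456) (nat_lit 23918140534) (nat_lit 532) (nat_lit 3507928373) (nat_lit 42) (nat_lit 5) (nat_lit 48) (nat_lit 5) (nat_lit 49) (nat_lit 5) (nat_lit 290) (nat_lit 283) (nat_lit 207)) (XT.lf (nat_lit 0) (nat_lit 21271819954) (nat_lit 456) (nat_lit 11194925126) (nat_lit 532) (nat_lit 876323621) (nat_lit 42) (nat_lit 5) (nat_lit 48) (nat_lit 5) (nat_lit 49) (nat_lit 5) (nat_lit 291) (nat_lit 283) (nat_lit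 206)))) (XT.nd (nat_lit 156) (nat_lit 228) (nat_lit 0) (XT.nd (nat_lit 78) (nat_lit 0) (nat_lit 0) (XT.lf (nat_lit 0) (nat_lit 2039169634) (nat_lit 304) (nat_lit 30220750469) (nat_lit 76) (nat_lit 2583370055) (nat_lit 38) (nat_lit 5) (nat_lit 42) (nat_lit 5) (nat_lit 39) (nat_lit 5) (nat_lit 292) (nat_lit 283) (nat_lit 205)) (XT.lf (nat_lit 0) (nat_lit 5763725281) (nat_lit 304) (nat_lit 13427538106) (nat_lit 76) (nat_lit 17220606643) (nat_lit 38) (nat_lit 5) (nat_lit 42) (nat_lit 5) (nat_lit 39) (nat_lit 5) (nat_lit 293) (nat_lit 283) (nat_lit 204))) (XT.nd (nat_lit 78) (nat_lit 0) (nat_lit 0) (XT.lf (nat_lit 0) (nat_lit 4950638824) (nat_lit 228) (nat_lit 4948899029) (nat_lit 304) (nat_lit 28197348938) (nat_lit 35) (nat_lit 5) (nat_lit 38) (nat_lit 5) (nat_lit 39) (nat_lit 5) (nat_lit 294) (nat_lit 283) (nat_lit 203)) (XT.lf (nat_lit 0) (nat_lit 14988295318) (nat_lit 304) (nat_lit 14591502375)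 (nat_lit 76) (nat_lit 10287153676) (nat_lit 35) (nat_lit 5) (nat_lit 39) (nat_lit 5) (nat_lit 36) (nat_lit 5) (nat_lit 295) (nat_lit 283) (nat_lit 202))))) (XT.nd (nat_lit 312) (nat_lit 380) (nat_lit 0) (XT.nd (nat_lit 156) (nat_lit 152) (nat_lit 0) (XT.nd (nat_lit 78) (nat_lit 0) (nat_lit 0) (XT.lf (nat_lit 0) (nat_lit 5592908406) (nat_lit 228) (nat_lit 15149205610) (nat_lit 304) (nat_lit 21015882158) (nat_lit 32) (nat_lit 5) (nat_lit 35) (nat_lit 5) (nat_lit 36) (nat_lit 5) (nat_lit 296) (nat_lit 283) (nat_lit 201)) (XT.lf (nat_lit 0) (nat_lit 27371163203) (nat_lit 304) (nat_lit 15573526064) (nat_lit 76) (nat_lit 822452327) (nat_lit 32) (nat_lit 5) (nat_lit 36) (nat_lit 5) (nat_lit 33) (nat_lit 5) (nat_lit 297) (nat_lit 283) (nat_lit 200))) (XT.nd (nat_lit 78) (nat_lit 0) (nat_lit 0) (XT.lf (nat_lit 0) (nat_lit 6596119440) (nat_lit 152) (nat_lit 28482023939) (nat_lit 228) (nat_lit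 10815076919) (nat_lit 30) (nat_lit 5) (nat_lit 32) (nat_lit 5) (nat_lit 33) (nat_lit 5) (nat_lit 298) (nat_lit 283) (nat_lit 199)) (XT.lf (nat_lit 0) (nat_lit 31419441735) (nat_lit 152) (nat_lit 12403732808) (nat_lit 228) (nat_lit 4332500805) (nat_lit 30) (nat_lit 5) (nat_lit 32) (nat_lit 5) (nat_lit 33) (nat_lit 5) (nat_lit 299) (nat_lit 283) (nat_lit 198)))) (XT.nd (nat_lit 156) (nat_lit 152) (nat_lit 0) (XT.nd (nat_lit 78) (nat_lit 0) (nat_lit 0) (XT.lf (nat_lit 0) (nat_lit 2848381588) (nat_lit 228) (nat_lit 42746905692) (nat_lit 76) (nat_lit 4973657208) (nat_lit 27) (nat_lit 5) (nat_lit 30) (nat_lit 5) (nat_lit 28) (nat_lit 5) (nat_lit 300) (nat_lit 283) (nat_lit 197)) (XT.lf (nat_lit 0) (nat_lit 11157364401) (nat_lit 228) (nat_lit 18294023171) (nat_lit 76) (nat_lit 23651876702) (nat_lit 27) (nat_lit 5) (nat_lit 30) (nat_lit 5) (nat_lit 28) (nat_lit 5) (nat_lit 301) (nat_lit 283)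 (nat_lit 196))) (XT.nd (nat_lit 78) (nat_lit 0) (nat_lit 0) (XT.lf (nat_lit 0) (nat_lit 8537016192) (nat_lit 152) (nat_lit 11795697100) (nat_lit 228) (nat_lit 35491491505) (nat_lit 25) (nat_lit 5) (nat_lit 27) (nat_lit 5) (nat_lit 28) (nat_lit 5) (nat_lit 302) (nat_lit 283) (nat_lit 195)) (XT.lf (nat_lit 0) (nat_lit 30926623430) (nat_lit 228) (nat_lit 20361015904) (nat_lit 76) (nat_lit 7420424998) (nat_lit 25) (nat_lit 5) (nat_lit 28) (nat_lit 5) (nat_lit 26) (nat_lit 5) (nat_lit 303) (nat_lit 283) (nat_lit 194))))))))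
noncomputable def xc86 : XT := (XT.nd (nat_lit 2418) (nat_lit 304) (nat_lit 0) (XT.nd (nat_lit 1170) (nat_lit 532) (nat_lit 0) (XT.nd (nat_lit 546) (nat_lit 456) (nat_lit 0) (XT.nd (nat_lit 234) (nat_lit 228) (nat_lit 0) (XT.nd (nat_lit 78) (nat_lit 152) (nat_lit 0) (XT.lf (nat_lit 0) (nat_lit 8850756504) (nat_lit 152) (nat_lit 34033243434) (nat_lit 228) (nat_lit 18897362366) (nat_lit 23) (nat_lit 5) (nat_lit 25) (nat_lit 5) (nat_lit 26) (nat_lit 5) (nat_lit 304) (nat_lit 283) (nat_lit 193)) (XT.nd (nat_lit 78) (nat_lit 152) (nat_lit 0) (XT.lf (nat_lit 0) (nat_lit 41552679786) (nat_lit 152) (nat_lit 14798833591) (nat_lit 228) (nat_lit 8704732511) (nat_lit 23) (nat_lit 5) (nat_lit 25) (nat_lit 5) (nat_lit 26) (nat_lit 5) (nat_lit 305) (nat_lit 283) (nat_lit 192)) (XT.lf (nat_lit 0) (nat_lit 2543611603) (nat_lit 152) (nat_lit 60072359204) (nat_lit 76) (nat_lit 5944280540) (nat_lit 21)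 (nat_lit 5) (nat_lit 23) (nat_lit 5) (nat_lit 22) (nat_lit 5) (nat_lit 306) (nat_lit 283) (nat_lit 191)))) (XT.nd (nat_lit 156) (nat_lit 76) (nat_lit 0) (XT.nd (nat_lit 78) (nat_lit 152) (nat_lit 0) (XT.lf (nat_lit 0) (nat_lit 15262320240) (nat_lit 152) (nat_lit 28549640175) (nat_lit 76) (nat_lit 28431271164) (nat_lit 21) (nat_lit 5) (nat_lit 23) (nat_lit 5) (nat_lit 22) (nat_lit 5) (nat_lit 307) (nat_lit 283) (nat_lit 190)) (XT.lf (nat_lit 0) (nat_lit 5779730185) (nat_lit 152) (nat_lit 23355087420) (nat_lit 228) (nat_lit 47075133314) (nat_lit 19) (nat_lit 5) (nat_lit 21) (nat_lit 5) (nat_lit 22) (nat_lit 5) (nat_lit 308) (nat_lit 283) (nat_lit 189))) (XT.nd (nat_lit 78) (nat_lit 76) (nat_lit 0) (XT.lf (nat_lit 0) (nat_lit 44474910456) (nat_lit 152) (nat_lit 420191634) (nat_lit 228) (nat_lit 35536670486) (nat_lit 19) (nat_lit 5) (nat_lit 21) (nat_lit 5) (nat_lit 22) (nat_lit 5) (nat_lit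 309) (nat_lit 283) (nat_lit 188)) (XT.lf (nat_lit 0) (nat_lit 720780564) (nat_lit 76) (nat_lit 61795917438) (nat_lit 152) (nat_lit 22426606349) (nat_lit 18) (nat_lit 5) (nat_lit 19) (nat_lit 5) (nat_lit 20) (nat_lit 4) (nat_lit 310) (nat_lit 283) (nat_lit 187))))) (XT.nd (nat_lit 312) (nat_lit 228) (nat_lit 0) (XT.nd (nat_lit 156) (nat_lit 152) (nat_lit 0) (XT.nd (nat_lit 78) (nat_lit 76) (nat_lit 0) (XT.lf (nat_lit 0) (nat_lit 42362111624) (nat_lit 76) (nat_lit 40177307024) (nat_lit 152) (nat_lit 7197031473) (nat_lit 18) (nat_lit 5) (nat_lit 19) (nat_lit 5) (nat_lit 20) (nat_lit 4) (nat_lit 311) (nat_lit 283) (nat_lit 186)) (XT.lf (nat_lit 0) (nat_lit 8785891882) (nat_lit 152) (nat_lit 7804545740) (nat_lit 76) (nat_lit 78304993889) (nat_lit 17) (nat_lit 5) (nat_lit 19) (nat_lit 5) (nat_lit 18) (nat_lit 5) (nat_lit 312) (nat_lit 283) (nat_lit 185))) (XT.nd (nat_lit 78) (nat_lit 0) (nat_lit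 0) (XT.lf (nat_lit 0) (nat_lit 26777355189) (nat_lit 228) (nat_lit 64053518015) (nat_lit 76) (nat_lit 9531807276) (nat_lit 15) (nat_lit 5) (nat_lit 18) (nat_lit 5) (nat_lit 16) (nat_lit 4) (nat_lit 313) (nat_lit 283) (nat_lit 184)) (XT.lf (nat_lit 0) (nat_lit 46855945107) (nat_lit 228) (nat_lit 22294408157) (nat_lit 76) (nat_lit 37065133705) (nat_lit 15) (nat_lit 5) (nat_lit 18) (nat_lit 5) (nat_lit 16) (nat_lit 4) (nat_lit 314) (nat_lit 283) (nat_lit 183)))) (XT.nd (nat_lit 156) (nat_lit 152) (nat_lit 0) (XT.nd (nat_lit 78) (nat_lit 0) (nat_lit 0) (XT.lf (nat_lit 0) (nat_lit 24002887597) (nat_lit 76) (nat_lit 45113312401) (nat_lit 152) (nat_lit 43374289948) (nat_lit 14) (nat_lit 5) (nat_lit 15) (nat_lit 5) (nat_lit 16) (nat_lit 4) (nat_lit 315) (nat_lit 283) (nat_lit 182)) (XT.lf (nat_lit 0) (nat_lit 75268687866) (nat_lit 76) (nat_lit 18496327441) (nat_lit 152) (nat_lit 25453860682)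 (nat_lit 14) (nat_lit 5) (nat_lit 15) (nat_lit 5) (nat_lit 16) (nat_lit 4) (nat_lit 316) (nat_lit 283) (nat_lit 181))) (XT.nd (nat_lit 78) (nat_lit 76) (nat_lit 0) (XT.lf (nat_lit 0) (nat_lit 4106054168) (nat_lit 76) (nat_lit 116623222227) (nat_lit 76) (nat_lit 5728775154) (nat_lit 13) (nat_lit 4) (nat_lit 14) (nat_lit 5) (nat_lit 14) (nat_lit 4) (nat_lit 317) (nat_lit 283) (nat_lit 180)) (XT.lf (nat_lit 0) (nat_lit 16506827108) (nat_lit 152) (nat_lit 76563212105) (nat_lit 76) (nat_lit 41039430510) (nat_lit 12) (nat_lit 5) (nat_lit 14) (nat_lit 5) (nat_lit 13) (nat_lit 4) (nat_lit 318) (nat_lit 283) (nat_lit 179)))))) (XT.nd (nat_lit 624) (nat_lit 228) (nat_lit 0) (XT.nd (nat_lit 312) (nat_lit 228) (nat_lit 0) (XT.nd (nat_lit 156) (nat_lit 0) (nat_lit 0) (XT.nd (nat_lit 78) (nat_lit 76) (nat_lit 0) (XT.lf (nat_lit 0) (nat_lit 40210189554) (nat_lit 152) (nat_lit 27262963975) (nat_lit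 76) (nat_lit 74888072192) (nat_lit 12) (nat_lit 5) (nat_lit 14) (nat_lit 5) (nat_lit 13) (nat_lit 4) (nat_lit 319) (nat_lit 283) (nat_lit 178)) (XT.lf (nat_lit 0) (nat_lit 27346664733) (nat_lit 76) (nat_lit 39119376300) (nat_lit 152) (nat_lit 84754584944) (nat_lit 11) (nat_lit 5) (nat_lit 12) (nat_lit 5) (nat_lit 13) (nat_lit 4) (nat_lit 320) (nat_lit 283) (nat_lit 177))) (XT.nd (nat_lit 78) (nat_lit 0) (nat_lit 0) (XT.lf (nat_lit 0) (nat_lit 87872969047) (nat_lit 76) (nat_lit 7693388504) (nat_lit 152) (nat_lit 65162902226) (nat_lit 11) (nat_lit 5) (nat_lit 12) (nat_lit 5) (nat_lit 13) (nat_lit 4) (nat_lit 321) (nat_lit 283) (nat_lit 176)) (XT.lf (nat_lit 0) (nat_lit 127624591607) (nat_lit 152) (nat_lit 18390894517) (nat_lit 0) (nat_lit 24932707966) (nat_lit 11) (nat_lit 5) (nat_lit 13) (nat_lit 4) (nat_lit 11) (nat_lit 4) (nat_lit 322) (nat_lit 283) (nat_lit 175)))) (XT.nd (nat_lit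 156) (nat_lit 76) (nat_lit 0) (XT.nd (nat_lit 78) (nat_lit 76) (nat_lit 0) (XT.lf (nat_lit 0) (nat_lit 42348053397) (nat_lit 76) (nat_lit 121116489271) (nat_lit 76) (nat_lit 18422736913) (nat_lit 10) (nat_lit 4) (nat_lit 11) (nat_lit 5) (nat_lit 11) (nat_lit 4) (nat_lit 323) (nat_lit 283) (nat_lit 174)) (XT.lf (nat_lit 0) (nat_lit 8561149510) (nat_lit 152) (nat_lit 84888291669) (nat_lit 76) (nat_lit 100194581777) (nat_lit 9) (nat_lit 5) (nat_lit 11) (nat_lit 5) (nat_lit 10) (nat_lit 4) (nat_lit 324) (nat_lit 283) (nat_lit 173))) (XT.nd (nat_lit 78) (nat_lit 76) (nat_lit 0) (XT.lf (nat_lit 0) (nat_lit 36707296831) (nat_lit 152) (nat_lit 26345907363) (nat_lit 76) (nat_lit 143249912962) (nat_lit 9) (nat_lit 5) (nat_lit 11) (nat_lit 5) (nat_lit 10) (nat_lit 4) (nat_lit 325) (nat_lit 283) (nat_lit 172)) (XT.lf (nat_lit 0) (nat_lit 38819837316) (nat_lit 76) (nat_lit 29217857653) (nat_lit 152)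 (nat_lit 151862640007) (nat_lit 8) (nat_lit 5) (nat_lit 9) (nat_lit 5) (nat_lit 10) (nat_lit 4) (nat_lit 326) (nat_lit 283) (nat_lit 171))))) (XT.nd (nat_lit 312) (nat_lit 152) (nat_lit 0) (XT.nd (nat_lit 156) (nat_lit 76) (nat_lit 0) (XT.nd (nat_lit 78) (nat_lit 0) (nat_lit 0) (XT.lf (nat_lit 0) (nat_lit 102788681417) (nat_lit 152) (nat_lit 124027374306) (nat_lit 0) (nat_lit 7696142728) (nat_lit 8) (nat_lit 5) (nat_lit 10) (nat_lit 4) (nat_lit 8) (nat_lit 4) (nat_lit 327) (nat_lit 283) (nat_lit 170)) (XT.lf (nat_lit 0) (nat_lit 141077682215) (nat_lit 152) (nat_lit 63170728729) (nat_lit 0) (nat_lit 45983965917) (nat_lit 8) (nat_lit 5) (nat_lit 10) (nat_lit 4) (nat_lit 8) (nat_lit 4) (nat_lit 328) (nat_lit 283) (nat_lit 169))) (XT.nd (nat_lit 78) (nat_lit 0) (nat_lit 0) (XT.lf (nat_lit 0) (nat_lit 2687185103) (nat_lit 76) (nat_lit 179806346727) (nat_lit 76) (nat_lit 84711540051) (nat_lit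 7) (nat_lit 4) (nat_lit 8) (nat_lit 5) (nat_lit 8) (nat_lit 4) (nat_lit 329) (nat_lit 283) (nat_lit 168)) (XT.lf (nat_lit 0) (nat_lit 77404662804) (nat_lit 76) (nat_lit 151544315148) (nat_lit 76) (nat_lit 56448498863) (nat_lit 7) (nat_lit 4) (nat_lit 8) (nat_lit 5) (nat_lit 8) (nat_lit 4) (nat_lit 330) (nat_lit 283) (nat_lit 167)))) (XT.nd (nat_lit 156) (nat_lit 76) (nat_lit 0) (XT.nd (nat_lit 78) (nat_lit 76) (nat_lit 0) (XT.lf (nat_lit 0) (nat_lit 158098015984) (nat_lit 76) (nat_lit 121022037171) (nat_lit 76) (nat_lit 25925286063) (nat_lit 7) (nat_lit 4) (nat_lit 8) (nat_lit 5) (nat_lit 8) (nat_lit 4) (nat_lit 331) (nat_lit 283) (nat_lit 166)) (XT.lf (nat_lit 0) (nat_lit 6686858525) (nat_lit 152) (nat_lit 81188950953) (nat_lit 76) (nat_lit 238375738388) (nat_lit 6) (nat_lit 5) (nat_lit 8) (nat_lit 5) (nat_lit 7) (nat_lit 4) (nat_lit 332) (nat_lit 283) (nat_lit 165))) (XT.nd (nat_lit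 78) (nat_lit 76) (nat_lit 0) (XT.lf (nat_lit 0) (nat_lit 40506625905) (nat_lit 152) (nat_lit 10844636263) (nat_lit 76) (nat_lit 297749177544) (nat_lit 6) (nat_lit 5) (nat_lit 8) (nat_lit 5) (nat_lit 7) (nat_lit 4) (nat_lit 333) (nat_lit 283) (nat_lit 164)) (XT.lf (nat_lit 0) (nat_lit 68555398467) (nat_lit 76) (nat_lit 10124677834) (nat_lit 152) (nat_lit 294965318879) (nat_lit 5) (nat_lit 5) (nat_lit 6) (nat_lit 5) (nat_lit 7) (nat_lit 4) (nat_lit 334) (nat_lit 283) (nat_lit 163))))))) (XT.nd (nat_lit 1248) (nat_lit 76) (nat_lit 0) (XT.nd (nat_lit 624) (nat_lit 152) (nat_lit 0) (XT.nd (nat_lit 312) (nat_lit 76) (nat_lit 0) (XT.nd (nat_lit 156) (nat_lit 0) (nat_lit 0) (XT.nd (nat_lit 78) (nat_lit 0) (nat_lit 0) (XT.lf (nat_lit 0) (nat_lit 121038285892) (nat_lit 152) (nat_lit 246042319244) (nat_lit 0) (nat_lit 32982871668) (nat_lit 5) (nat_lit 5) (nat_lit 7) (nat_lit 4) (nat_lit 5) (nat_lit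 4) (nat_lit 335) (nat_lit 283) (nat_lit 162)) (XT.lf (nat_lit 0) (nat_lit 167047527529) (nat_lit 152) (nat_lit 182534963545) (nat_lit 0) (nat_lit 78991524207) (nat_lit 5) (nat_lit 5) (nat_lit 7) (nat_lit 4) (nat_lit 5) (nat_lit 4) (nat_lit 336) (nat_lit 283) (nat_lit 161))) (XT.nd (nat_lit 78) (nat_lit 0) (nat_lit 0) (XT.lf (nat_lit 0) (nat_lit 216736949824) (nat_lit 152) (nat_lit 113948090986) (nat_lit 0) (nat_lit 128680401041) (nat_lit 5) (nat_lit 5) (nat_lit 7) (nat_lit 4) (nat_lit 5) (nat_lit 4) (nat_lit 337) (nat_lit 283) (nat_lit 160)) (XT.lf (nat_lit 0) (nat_lit 270401008612) (nat_lit 152) (nat_lit 39875260840) (nat_lit 0) (nat_lit 182343954774) (nat_lit 5) (nat_lit 5) (nat_lit 7) (nat_lit 4) (nat_lit 5) (nat_lit 4) (nat_lit 338) (nat_lit 283) (nat_lit 159)))) (XT.nd (nat_lit 156) (nat_lit 0) (nat_lit 0) (XT.nd (nat_lit 78) (nat_lit 0) (nat_lit 0) (XT.lf (nat_lit 0) (nat_lit 42235255532)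 (nat_lit 76) (nat_lit 287138216511) (nat_lit 76) (nat_lit 199080695027) (nat_lit 4) (nat_lit 4) (nat_lit 5) (nat_lit 5) (nat_lit 5) (nat_lit 4) (nat_lit 339) (nat_lit 283) (nat_lit 158)) (XT.lf (nat_lit 0) (nat_lit 133181459169) (nat_lit 76) (nat_lit 260972068646) (nat_lit 76) (nat_lit 172914114159) (nat_lit 4) (nat_lit 4) (nat_lit 5) (nat_lit 5) (nat_lit 5) (nat_lit 4) (nat_lit 340) (nat_lit 283) (nat_lit 157))) (XT.nd (nat_lit 78) (nat_lit 0) (nat_lit 0) (XT.lf (nat_lit 0) (nat_lit 231402529966) (nat_lit 76) (nat_lit 232713027501) (nat_lit 76) (nat_lit 144654672084) (nat_lit 4) (nat_lit 4) (nat_lit 5) (nat_lit 5) (nat_lit 5) (nat_lit 4) (nat_lit 341) (nat_lit 283) (nat_lit 156)) (XT.lf (nat_lit 0) (nat_lit 337480518713) (nat_lit 76) (nat_lit 202193632092) (nat_lit 76) (nat_lit 114134905444) (nat_lit 4) (nat_lit 4) (nat_lit 5) (nat_lit 5) (nat_lit 5) (nat_lit 4) (nat_lit 342) (nat_lit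 283) (nat_lit 155))))) (XT.nd (nat_lit 312) (nat_lit 76) (nat_lit 0) (XT.nd (nat_lit 156) (nat_lit 76) (nat_lit 0) (XT.nd (nat_lit 78) (nat_lit 0) (nat_lit 0) (XT.lf (nat_lit 0) (nat_lit 452044035713) (nat_lit 76) (nat_lit 169233026742) (nat_lit 76) (nat_lit 81173956361) (nat_lit 4) (nat_lit 4) (nat_lit 5) (nat_lit 5) (nat_lit 5) (nat_lit 4) (nat_lit 343) (nat_lit 283) (nat_lit 154)) (XT.lf (nat_lit 0) (nat_lit 575771975883) (nat_lit 76) (nat_lit 133635889345) (nat_lit 76) (nat_lit 45576500692) (nat_lit 4) (nat_lit 4) (nat_lit 5) (nat_lit 5) (nat_lit 5) (nat_lit 4) (nat_lit 344) (nat_lit 283) (nat_lit 153))) (XT.nd (nat_lit 78) (nat_lit 76) (nat_lit 0) (XT.lf (nat_lit 0) (nat_lit 709397541829) (nat_lit 76) (nat_lit 95191273901) (nat_lit 76) (nat_lit 7131590553) (nat_lit 4) (nat_lit 4) (nat_lit 5) (nat_lit 5) (nat_lit 5) (nat_lit 4) (nat_lit 345) (nat_lit 283) (nat_lit 152)) (XT.lf (nat_lit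 0) (nat_lit 32668338911) (nat_lit 152) (nat_lit 20109811277) (nat_lit 76) (nat_lit 820151039569) (nat_lit 3) (nat_lit 5) (nat_lit 5) (nat_lit 5) (nat_lit 4) (nat_lit 4) (nat_lit 346) (nat_lit 283) (nat_lit 151)))) (XT.nd (nat_lit 156) (nat_lit 0) (nat_lit 0) (XT.nd (nat_lit 78) (nat_lit 0) (nat_lit 0) (XT.lf (nat_lit 0) (nat_lit 72101312397) (nat_lit 76) (nat_lit 4899418980) (nat_lit 152) (nat_lit 861880424997) (nat_lit 2) (nat_lit 5) (nat_lit 3) (nat_lit 5) (nat_lit 4) (nat_lit 4) (nat_lit 347) (nat_lit 283) (nat_lit 150)) (XT.lf (nat_lit 0) (nat_lit 126569330304) (nat_lit 152) (nat_lit 838372897677) (nat_lit 0) (nat_lit 45031883261) (nat_lit 2) (nat_lit 5) (nat_lit 4) (nat_lit 4) (nat_lit 2) (nat_lit 4) (nat_lit 348) (nat_lit 283) (nat_lit 149))) (XT.nd (nat_lit 78) (nat_lit 0) (nat_lit 0) (XT.lf (nat_lit 0) (nat_lit 180230418687) (nat_lit 152) (nat_lit 807821152727) (nat_lit 0) (nat_lit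 98692771080) (nat_lit 2) (nat_lit 5) (nat_lit 4) (nat_lit 4) (nat_lit 2) (nat_lit 4) (nat_lit 349) (nat_lit 283) (nat_lit 148)) (XT.lf (nat_lit 0) (nat_lit 238184157017) (nat_lit 152) (nat_lit 774825730605) (nat_lit 0) (nat_lit 156646323702) (nat_lit 2) (nat_lit 5) (nat_lit 4) (nat_lit 4) (nat_lit 2) (nat_lit 4) (nat_lit 350) (nat_lit 283) (nat_lit 147)))))) (XT.nd (nat_lit 624) (nat_lit 76) (nat_lit 0) (XT.nd (nat_lit 312) (nat_lit 0) (nat_lit 0) (XT.nd (nat_lit 156) (nat_lit 0) (nat_lit 0) (XT.nd (nat_lit 78) (nat_lit 0) (nat_lit 0) (XT.lf (nat_lit 0) (nat_lit 300773974855) (nat_lit 152) (nat_lit 739191102884) (nat_lit 0) (nat_lit 219235969588) (nat_lit 2) (nat_lit 5) (nat_lit 4) (nat_lit 4) (nat_lit 2) (nat_lit 4) (nat_lit 351) (nat_lit 283) (nat_lit 146)) (XT.lf (nat_lit 0) (nat_lit 368370774825) (nat_lit 152) (nat_lit 700706101400) (nat_lit 0) (nat_lit 286832610343) (nat_lit 2)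 (nat_lit 5) (nat_lit 4) (nat_lit 4) (nat_lit 2) (nat_lit 4) (nat_lit 352) (nat_lit 283) (nat_lit 145))) (XT.nd (nat_lit 78) (nat_lit 0) (nat_lit 0) (XT.lf (nat_lit 0) (nat_lit 441375130556) (nat_lit 152) (nat_lit 659142666884) (nat_lit 0) (nat_lit 359836818652) (nat_lit 2) (nat_lit 5) (nat_lit 4) (nat_lit 4) (nat_lit 2) (nat_lit 4) (nat_lit 353) (nat_lit 283) (nat_lit 144)) (XT.lf (nat_lit 0) (nat_lit 520219660452) (nat_lit 152) (nat_lit 614254497502) (nat_lit 0) (nat_lit 438681212048) (nat_lit 2) (nat_lit 5) (nat_lit 4) (nat_lit 4) (nat_lit 2) (nat_lit 4) (nat_lit 354) (nat_lit 283) (nat_lit 143)))) (XT.nd (nat_lit 156) (nat_lit 0) (nat_lit 0) (XT.nd (nat_lit 78) (nat_lit 0) (nat_lit 0) (XT.lf (nat_lit 0) (nat_lit 605371591358) (nat_lit 152) (nat_lit 565775589288) (nat_lit 0) (nat_lit 523833016564) (nat_lit 2) (nat_lit 5) (nat_lit 4) (nat_lit 4) (nat_lit 2) (nat_lit 4) (nat_lit 355)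 (nat_lit 283) (nat_lit 142)) (XT.lf (nat_lit 0) (nat_lit 697335527308) (nat_lit 152) (nat_lit 513418659823) (nat_lit 0) (nat_lit 615796835486) (nat_lit 2) (nat_lit 5) (nat_lit 4) (nat_lit 4) (nat_lit 2) (nat_lit 4) (nat_lit 356) (nat_lit 283) (nat_lit 141))) (XT.nd (nat_lit 78) (nat_lit 0) (nat_lit 0) (XT.lf (nat_lit 0) (nat_lit 796656439774) (nat_lit 152) (nat_lit 456873445821) (nat_lit 0) (nat_lit 715117639594) (nat_lit 2) (nat_lit 5) (nat_lit 4) (nat_lit 4) (nat_lit 2) (nat_lit 4) (nat_lit 357) (nat_lit 283) (nat_lit 140)) (XT.lf (nat_lit 0) (nat_lit 903922897128) (nat_lit 152) (nat_lit 395804864532) (nat_lit 0) (nat_lit 822383996615) (nat_lit 2) (nat_lit 5) (nat_lit 4) (nat_lit 4) (nat_lit 2) (nat_lit 4) (nat_lit 358) (nat_lit 283) (nat_lit 139))))) (XT.nd (nat_lit 312) (nat_lit 76) (nat_lit 0) (XT.nd (nat_lit 156) (nat_lit 0) (nat_lit 0) (XT.nd (nat_lit 78) (nat_lit 0) (nat_lit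 0) (XT.lf (nat_lit 0) (nat_lit 1019770552449) (nat_lit 152) (nat_lit 329851028067) (nat_lit 0) (nat_lit 938231559036) (nat_lit 2) (nat_lit 5) (nat_lit 4) (nat_lit 4) (nat_lit 2) (nat_lit 4) (nat_lit 359) (nat_lit 283) (nat_lit 138)) (XT.lf (nat_lit 0) (nat_lit 1144885910361) (nat_lit 152) (nat_lit 258621098877) (nat_lit 0) (nat_lit 1063346830929) (nat_lit 2) (nat_lit 5) (nat_lit 4) (nat_lit 4) (nat_lit 2) (nat_lit 4) (nat_lit 360) (nat_lit 283) (nat_lit 137))) (XT.nd (nat_lit 78) (nat_lit 0) (nat_lit 0) (XT.lf (nat_lit 0) (nat_lit 1280010395208) (nat_lit 152) (nat_lit 181692973677) (nat_lit 0) (nat_lit 1198471236130) (nat_lit 2) (nat_lit 5) (nat_lit 4) (nat_lit 4) (nat_lit 2) (nat_lit 4) (nat_lit 361) (nat_lit 283) (nat_lit 136)) (XT.lf (nat_lit 0) (nat_lit 1425944744678) (nat_lit 152) (nat_lit 98610782096) (nat_lit 0) (nat_lit 1344405511852) (nat_lit 2) (nat_lit 5) (nat_lit 4) (nat_lit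 4) (nat_lit 2) (nat_lit 4) (nat_lit 362) (nat_lit 283) (nat_lit 135)))) (XT.nd (nat_lit 156) (nat_lit 0) (nat_lit 0) (XT.nd (nat_lit 78) (nat_lit 76) (nat_lit 0) (XT.lf (nat_lit 0) (nat_lit 1583553754916) (nat_lit 152) (nat_lit 8882185222) (nat_lit 0) (nat_lit 1502014453805) (nat_lit 2) (nat_lit 5) (nat_lit 4) (nat_lit 4) (nat_lit 2) (nat_lit 4) (nat_lit 363) (nat_lit 283) (nat_lit 134)) (XT.lf (nat_lit 0) (nat_lit 92659758351) (nat_lit 76) (nat_lit 1663340116306) (nat_lit 76) (nat_lit 1581800751969) (nat_lit 1) (nat_lit 4) (nat_lit 2) (nat_lit 5) (nat_lit 2) (nat_lit 4) (nat_lit 364) (nat_lit 283) (nat_lit 133))) (XT.nd (nat_lit 78) (nat_lit 0) (nat_lit 0) (XT.lf (nat_lit 0) (nat_lit 202830041703) (nat_lit 76) (nat_lit 1739654418518) (nat_lit 76) (nat_lit 1658114995639) (nat_lit 1) (nat_lit 4) (nat_lit 2) (nat_lit 5) (nat_lit 2) (nat_lit 4) (nat_lit 365) (nat_lit 283) (nat_lit 132))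 (XT.lf (nat_lit 0) (nat_lit 321813805639) (nat_lit 76) (nat_lit 1822073934361) (nat_lit 76) (nat_lit 1740534457275) (nat_lit 1) (nat_lit 4) (nat_lit 2) (nat_lit 5) (nat_lit 2) (nat_lit 4) (nat_lit 366) (nat_lit 283) (nat_lit 131))))))))
noncomputable def xc87 : XT := (XT.nd (nat_lit 36582) (nat_lit 0) (nat_lit 228) (XT.nd (nat_lit 35334) (nat_lit 0) (nat_lit 1064) (XT.nd (nat_lit 34710) (nat_lit 0) (nat_lit 2356) (XT.nd (nat_lit 34398) (nat_lit 0) (nat_lit 3420) (XT.nd (nat_lit 34242) (nat_lit 0) (nat_lit 3344) (XT.nd (nat_lit 34164) (nat_lit 0) (nat_lit 3344) (XT.lf (nat_lit 0) (nat_lit 450316139129) (nat_lit 76) (nat_lit 1911087075780) (nat_lit 76) (nat_lit 1829547548503) (nat_lit 1) (nat_lit 4) (nat_lit 2) (nat_lit 5) (nat_lit 2) (nat_lit 4) (nat_lit 367) (nat_lit 283) (nat_lit 130)) (XT.lf (nat_lit 0) (nat_lit 7948996925) (nat_lit 532) (nat_lit 2515375721) (nat_lit 532) (nat_lit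 2515375721) (nat_lit 45) (nat_lit 3) (nat_lit 52) (nat_lit 3) (nat_lit 52) (nat_lit 5) (nat_lit 284) (nat_lit 284) (nat_lit 212))) (XT.nd (nat_lit 78) (nat_lit 0) (nat_lit 76) (XT.lf (nat_lit 76) (nat_lit 7246911125) (nat_lit 0) (nat_lit 9550628772) (nat_lit 532) (nat_lit 10178989536) (nat_lit 46) (nat_lit 5) (nat_lit 45) (nat_lit 3) (nat_lit 52) (nat_lit 5) (nat_lit 285) (nat_lit 284) (nat_lit 211)) (XT.lf (nat_lit 0) (nat_lit 17967049435) (nat_lit 456) (nat_lit 7346386364) (nat_lit 532) (nat_lit 2745674682) (nat_lit 46) (nat_lit 5) (nat_lit 52) (nat_lit 5) (nat_lit 53) (nat_lit 5) (nat_lit 286) (nat_lit 284) (nat_lit 210)))) (XT.nd (nat_lit 156) (nat_lit 0) (nat_lit 76) (XT.nd (nat_lit 78) (nat_lit 0) (nat_lit 0) (XT.lf (nat_lit 76) (nat_lit 6077980870) (nat_lit 0) (nat_lit 13538081606) (nat_lit 532) (nat_lit 9581383932) (nat_lit 47) (nat_lit 5) (nat_lit 46) (nat_lit 5) (nat_lit 53)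 (nat_lit 5) (nat_lit 287) (nat_lit 284) (nat_lit 209)) (XT.lf (nat_lit 76) (nat_lit 20988732026) (nat_lit 0) (nat_lit 601312598) (nat_lit 532) (nat_lit 8821382788) (nat_lit 47) (nat_lit 5) (nat_lit 46) (nat_lit 5) (nat_lit 53) (nat_lit 5) (nat_lit 288) (nat_lit 284) (nat_lit 208))) (XT.nd (nat_lit 78) (nat_lit 0) (nat_lit 0) (XT.lf (nat_lit 76) (nat_lit 5308176659) (nat_lit 0) (nat_lit 18855807249) (nat_lit 532) (nat_lit 7523200322) (nat_lit 48) (nat_lit 5) (nat_lit 47) (nat_lit 5) (nat_lit 54) (nat_lit 5) (nat_lit 289) (nat_lit 284) (nat_lit 207)) (XT.lf (nat_lit 76) (nat_lit 21731478957) (nat_lit 0) (nat_lit 5478434349) (nat_lit 532) (nat_lit 5833821194) (nat_lit 48) (nat_lit 5) (nat_lit 47) (nat_lit 5) (nat_lit 54) (nat_lit 5) (nat_lit 290) (nat_lit 284) (nat_lit 206))))) (XT.nd (nat_lit 312) (nat_lit 456) (nat_lit 0) (XT.nd (nat_lit 156) (nat_lit 304) (nat_lit 0) (XT.nd (nat_lit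 78) (nat_lit 0) (nat_lit 0) (XT.lf (nat_lit 0) (nat_lit 4988031534) (nat_lit 456) (nat_lit 25840905627) (nat_lit 532) (nat_lit 3653535526) (nat_lit 42) (nat_lit 5) (nat_lit 48) (nat_lit 5) (nat_lit 49) (nat_lit 5) (nat_lit 291) (nat_lit 284) (nat_lit 205)) (XT.lf (nat_lit 0) (nat_lit 23080412825) (nat_lit 456) (nat_lit 12099143072) (nat_lit 532) (nat_lit 821404402) (nat_lit 42) (nat_lit 5) (nat_lit 48) (nat_lit 5) (nat_lit 49) (nat_lit 5) (nat_lit 292) (nat_lit 284) (nat_lit 204))) (XT.nd (nat_lit 78) (nat_lit 0) (nat_lit 0) (XT.lf (nat_lit 0) (nat_lit 2314883619) (nat_lit 304) (nat_lit 32518554666) (nat_lit 76) (nat_lit 2788037560) (nat_lit 38) (nat_lit 5) (nat_lit 42) (nat_lit 5) (nat_lit 39) (nat_lit 5) (nat_lit 293) (nat_lit 284) (nat_lit 203)) (XT.lf (nat_lit 0) (nat_lit 6329064428) (nat_lit 304) (nat_lit 14390763525) (nat_lit 76) (nat_lit 18596401379) (nat_lit 38) (nat_lit 5) (nat_lit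 42) (nat_lit 5) (nat_lit 39) (nat_lit 5) (nat_lit 294) (nat_lit 284) (nat_lit 202)))) (XT.nd (nat_lit 156) (nat_lit 228) (nat_lit 0) (XT.nd (nat_lit 78) (nat_lit 0) (nat_lit 0) (XT.lf (nat_lit 0) (nat_lit 5454858000) (nat_lit 228) (nat_lit 5335763886) (nat_lit 304) (nat_lit 30345853750) (nat_lit 35) (nat_lit 5) (nat_lit 38) (nat_lit 5) (nat_lit 39) (nat_lit 5) (nat_lit 295) (nat_lit 284) (nat_lit 201)) (XT.lf (nat_lit 0) (nat_lit 16279339116) (nat_lit 304) (nat_lit 15651310911) (nat_lit 76) (nat_lit 11118083836) (nat_lit 35) (nat_lit 5) (nat_lit 39) (nat_lit 5) (nat_lit 36) (nat_lit 5) (nat_lit 296) (nat_lit 284) (nat_lit 200))) (XT.nd (nat_lit 78) (nat_lit 0) (nat_lit 0) (XT.lf (nat_lit 0) (nat_lit 6145130918) (nat_lit 228) (nat_lit 16344039244) (nat_lit 304) (nat_lit 22602251483) (nat_lit 32) (nat_lit 5) (nat_lit 35) (nat_lit 5) (nat_lit 36) (nat_lit 5) (nat_lit 297) (nat_lit 284)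 (nat_lit 199)) (XT.lf (nat_lit 0) (nat_lit 29642428804) (nat_lit 304) (nat_lit 16716081539) (nat_lit 76) (nat_lit 903292275) (nat_lit 32) (nat_lit 5) (nat_lit 36) (nat_lit 5) (nat_lit 33) (nat_lit 5) (nat_lit 298) (nat_lit 284) (nat_lit 198)))))) (XT.nd (nat_lit 624) (nat_lit 608) (nat_lit 0) (XT.nd (nat_lit 312) (nat_lit 304) (nat_lit 0) (XT.nd (nat_lit 156) (nat_lit 228) (nat_lit 0) (XT.nd (nat_lit 78) (nat_lit 0) (nat_lit 0) (XT.lf (nat_lit 0) (nat_lit 7224519742) (nat_lit 152) (nat_lit 30737827337) (nat_lit 228) (nat_lit 11595923831) (nat_lit 30) (nat_lit 5) (nat_lit 32) (nat_lit 5) (nat_lit 33) (nat_lit 5) (nat_lit 299) (nat_lit 284) (nat_lit 197)) (XT.lf (nat_lit 0) (nat_lit 34026247765) (nat_lit 152) (nat_lit 13374958732) (nat_lit 228) (nat_lit 4600990461) (nat_lit 30) (nat_lit 5) (nat_lit 32) (nat_lit 5) (nat_lit 33) (nat_lit 5) (nat_lit 300) (nat_lit 284) (nat_lit 196))) (XT.nd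 (nat_lit 78) (nat_lit 0) (nat_lit 0) (XT.lf (nat_lit 0) (nat_lit 3147813221) (nat_lit 228) (nat_lit 46066576075) (nat_lit 76) (nat_lit 5394210249) (nat_lit 27) (nat_lit 5) (nat_lit 30) (nat_lit 5) (nat_lit 28) (nat_lit 5) (nat_lit 301) (nat_lit 284) (nat_lit 195)) (XT.lf (nat_lit 0) (nat_lit 12116213836) (nat_lit 228) (nat_lit 19664876439) (nat_lit 76) (nat_lit 25565008749) (nat_lit 27) (nat_lit 5) (nat_lit 30) (nat_lit 5) (nat_lit 28) (nat_lit 5) (nat_lit 302) (nat_lit 284) (nat_lit 194)))) (XT.nd (nat_lit 156) (nat_lit 152) (nat_lit 0) (XT.nd (nat_lit 78) (nat_lit 0) (nat_lit 0) (XT.lf (nat_lit 0) (nat_lit 9310300032) (nat_lit 152) (nat_lit 12712554697) (nat_lit 228) (nat_lit 38262088236) (nat_lit 25) (nat_lit 5) (nat_lit 27) (nat_lit 5) (nat_lit 28) (nat_lit 5) (nat_lit 303) (nat_lit 284) (nat_lit 193)) (XT.lf (nat_lit 0) (nat_lit 33460168925) (nat_lit 228) (nat_lit 21902048783) (nat_lit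 76) (nat_lit 8037630867) (nat_lit 25) (nat_lit 5) (nat_lit 28) (nat_lit 5) (nat_lit 26) (nat_lit 5) (nat_lit 304) (nat_lit 284) (nat_lit 192))) (XT.nd (nat_lit 78) (nat_lit 0) (nat_lit 0) (XT.lf (nat_lit 0) (nat_lit 9644441408) (nat_lit 152) (nat_lit 36727352257) (nat_lit 228) (nat_lit 20347412045) (nat_lit 23) (nat_lit 5) (nat_lit 25) (nat_lit 5) (nat_lit 26) (nat_lit 5) (nat_lit 305) (nat_lit 284) (nat_lit 191)) (XT.lf (nat_lit 0) (nat_lit 44956176005) (nat_lit 152) (nat_lit 15956304489) (nat_lit 228) (nat_lit 9343945084) (nat_lit 23) (nat_lit 5) (nat_lit 25) (nat_lit 5) (nat_lit 26) (nat_lit 5) (nat_lit 306) (nat_lit 284) (nat_lit 190))))) (XT.nd (nat_lit 312) (nat_lit 304) (nat_lit 0) (XT.nd (nat_lit 156) (nat_lit 152) (nat_lit 0) (XT.nd (nat_lit 78) (nat_lit 0) (nat_lit 0) (XT.lf (nat_lit 0) (nat_lit 2799983503) (nat_lit 152) (nat_lit 64794418459) (nat_lit 76) (nat_lit 6446359727)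 (nat_lit 21) (nat_lit 5) (nat_lit 23) (nat_lit 5) (nat_lit 22) (nat_lit 5) (nat_lit 307) (nat_lit 284) (nat_lit 189)) (XT.lf (nat_lit 0) (nat_lit 16532271573) (nat_lit 152) (nat_lit 30756084090) (nat_lit 76) (nat_lit 30730343916) (nat_lit 21) (nat_lit 5) (nat_lit 23) (nat_lit 5) (nat_lit 22) (nat_lit 5) (nat_lit 308) (nat_lit 284) (nat_lit 188))) (XT.nd (nat_lit 78) (nat_lit 0) (nat_lit 0) (XT.lf (nat_lit 0) (nat_lit 6317673182) (nat_lit 152) (nat_lit 25195085786) (nat_lit 228) (nat_lit 50790147708) (nat_lit 19) (nat_lit 5) (nat_lit 21) (nat_lit 5) (nat_lit 22) (nat_lit 5) (nat_lit 309) (nat_lit 284) (nat_lit 187)) (XT.lf (nat_lit 0) (nat_lit 48102870498) (nat_lit 152) (nat_lit 427502680) (nat_lit 228) (nat_lit 38332385356) (nat_lit 19) (nat_lit 5) (nat_lit 21) (nat_lit 5) (nat_lit 22) (nat_lit 5) (nat_lit 310) (nat_lit 284) (nat_lit 186)))) (XT.nd (nat_lit 156) (nat_lit 228) (nat_lit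 0) (XT.nd (nat_lit 78) (nat_lit 0) (nat_lit 0) (XT.lf (nat_lit 0) (nat_lit 849488117) (nat_lit 76) (nat_lit 66711268749) (nat_lit 152) (nat_lit 24174535828) (nat_lit 18) (nat_lit 5) (nat_lit 19) (nat_lit 5) (nat_lit 20) (nat_lit 4) (nat_lit 311) (nat_lit 284) (nat_lit 185)) (XT.lf (nat_lit 0) (nat_lit 45816863062) (nat_lit 76) (nat_lit 43365267435) (nat_lit 152) (nat_lit 7730017112) (nat_lit 18) (nat_lit 5) (nat_lit 19) (nat_lit 5) (nat_lit 20) (nat_lit 4) (nat_lit 312) (nat_lit 284) (nat_lit 184))) (XT.nd (nat_lit 78) (nat_lit 152) (nat_lit 0) (XT.lf (nat_lit 0) (nat_lit 9526390090) (nat_lit 152) (nat_lit 8365972136) (nat_lit 76) (nat_lit 84591647487) (nat_lit 17) (nat_lit 5) (nat_lit 19) (nat_lit 5) (nat_lit 18) (nat_lit 5) (nat_lit 313) (nat_lit 284) (nat_lit 183)) (XT.lf (nat_lit 0) (nat_lit 28956460556) (nat_lit 228) (nat_lit 69114109535) (nat_lit 76) (nat_lit 10318128721) (nat_lit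 15) (nat_lit 5) (nat_lit 18) (nat_lit 5) (nat_lit 16) (nat_lit 4) (nat_lit 314) (nat_lit 284) (nat_lit 182))))))) (XT.nd (nat_lit 1248) (nat_lit 228) (nat_lit 0) (XT.nd (nat_lit 624) (nat_lit 304) (nat_lit 0) (XT.nd (nat_lit 312) (nat_lit 152) (nat_lit 0) (XT.nd (nat_lit 156) (nat_lit 76) (nat_lit 0) (XT.nd (nat_lit 78) (nat_lit 76) (nat_lit 0) (XT.lf (nat_lit 0) (nat_lit 50638603078) (nat_lit 228) (nat_lit 24018988661) (nat_lit 76) (nat_lit 40052360015) (nat_lit 15) (nat_lit 5) (nat_lit 18) (nat_lit 5) (nat_lit 16) (nat_lit 4) (nat_lit 315) (nat_lit 284) (nat_lit 181)) (XT.lf (nat_lit 0) (nat_lit 25980597788) (nat_lit 76) (nat_lit 48697930921) (nat_lit 152) (nat_lit 46808521164) (nat_lit 14) (nat_lit 5) (nat_lit 15) (nat_lit 5) (nat_lit 16) (nat_lit 4) (nat_lit 316) (nat_lit 284) (nat_lit 180))) (XT.nd (nat_lit 78) (nat_lit 76) (nat_lit 0) (XT.lf (nat_lit 0) (nat_lit 81343404362) (nat_lit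 76) (nat_lit 19953398014) (nat_lit 152) (nat_lit 27457102888) (nat_lit 14) (nat_lit 5) (nat_lit 15) (nat_lit 5) (nat_lit 16) (nat_lit 4) (nat_lit 317) (nat_lit 284) (nat_lit 179)) (XT.lf (nat_lit 0) (nat_lit 4488299983) (nat_lit 76) (nat_lit 125929435776) (nat_lit 76) (nat_lit 6154519110) (nat_lit 13) (nat_lit 4) (nat_lit 14) (nat_lit 5) (nat_lit 14) (nat_lit 4) (nat_lit 318) (nat_lit 284) (nat_lit 178)))) (XT.nd (nat_lit 156) (nat_lit 76) (nat_lit 0) (XT.nd (nat_lit 78) (nat_lit 0) (nat_lit 0) (XT.lf (nat_lit 0) (nat_lit 17856011582) (nat_lit 152) (nat_lit 82636954942) (nat_lit 76) (nat_lit 44342942772) (nat_lit 12) (nat_lit 5) (nat_lit 14) (nat_lit 5) (nat_lit 13) (nat_lit 4) (nat_lit 319) (nat_lit 284) (nat_lit 177)) (XT.lf (nat_lit 0) (nat_lit 43453521668) (nat_lit 152) (nat_lit 29396488007) (nat_lit 76) (nat_lit 80897967802) (nat_lit 12) (nat_lit 5) (nat_lit 14) (nat_lit 5) (nat_lit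 13) (nat_lit 4) (nat_lit 320) (nat_lit 284) (nat_lit 176))) (XT.nd (nat_lit 78) (nat_lit 0) (nat_lit 0) (XT.lf (nat_lit 0) (nat_lit 29580708134) (nat_lit 76) (nat_lit 42228282675) (nat_lit 152) (nat_lit 91507208829) (nat_lit 11) (nat_lit 5) (nat_lit 12) (nat_lit 5) (nat_lit 13) (nat_lit 4) (nat_lit 321) (nat_lit 284) (nat_lit 175)) (XT.lf (nat_lit 0) (nat_lit 94945686407) (nat_lit 76) (nat_lit 8289745021) (nat_lit 152) (nat_lit 70350246525) (nat_lit 11) (nat_lit 5) (nat_lit 12) (nat_lit 5) (nat_lit 13) (nat_lit 4) (nat_lit 322) (nat_lit 284) (nat_lit 174))))) (XT.nd (nat_lit 312) (nat_lit 152) (nat_lit 0) (XT.nd (nat_lit 156) (nat_lit 76) (nat_lit 0) (XT.nd (nat_lit 78) (nat_lit 76) (nat_lit 0) (XT.lf (nat_lit 0) (nat_lit 137856989470) (nat_lit 152) (nat_lit 19821107988) (nat_lit 0) (nat_lit 26944137914) (nat_lit 11) (nat_lit 5) (nat_lit 13) (nat_lit 4) (nat_lit 11) (nat_lit 4) (nat_lit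 323) (nat_lit 284) (nat_lit 173)) (XT.lf (nat_lit 0) (nat_lit 45775916314) (nat_lit 76) (nat_lit 130787521230) (nat_lit 76) (nat_lit 19873067551) (nat_lit 10) (nat_lit 4) (nat_lit 11) (nat_lit 5) (nat_lit 11) (nat_lit 4) (nat_lit 324) (nat_lit 284) (nat_lit 172))) (XT.nd (nat_lit 78) (nat_lit 0) (nat_lit 0) (XT.lf (nat_lit 0) (nat_lit 9266701965) (nat_lit 152) (nat_lit 91641197037) (nat_lit 76) (nat_lit 108225977230) (nat_lit 9) (nat_lit 5) (nat_lit 11) (nat_lit 5) (nat_lit 10) (nat_lit 4) (nat_lit 325) (nat_lit 284) (nat_lit 171)) (XT.lf (nat_lit 0) (nat_lit 39663010666) (nat_lit 152) (nat_lit 28418248503) (nat_lit 76) (nat_lit 154724562398) (nat_lit 9) (nat_lit 5) (nat_lit 11) (nat_lit 5) (nat_lit 10) (nat_lit 4) (nat_lit 326) (nat_lit 284) (nat_lit 170)))) (XT.nd (nat_lit 156) (nat_lit 76) (nat_lit 0) (XT.nd (nat_lit 78) (nat_lit 0) (nat_lit 0) (XT.lf (nat_lit 0) (nat_lit 41959861284)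 (nat_lit 76) (nat_lit 31539390538) (nat_lit 152) (nat_lit 163991613176) (nat_lit 8) (nat_lit 5) (nat_lit 9) (nat_lit 5) (nat_lit 10) (nat_lit 4) (nat_lit 327) (nat_lit 284) (nat_lit 169)) (XT.lf (nat_lit 0) (nat_lit 111029297734) (nat_lit 152) (nat_lit 133916646225) (nat_lit 0) (nat_lit 8325816146) (nat_lit 8) (nat_lit 5) (nat_lit 10) (nat_lit 4) (nat_lit 8) (nat_lit 4) (nat_lit 328) (nat_lit 284) (nat_lit 168))) (XT.nd (nat_lit 78) (nat_lit 76) (nat_lit 0) (XT.lf (nat_lit 0) (nat_lit 152380120684) (nat_lit 152) (nat_lit 68193907374) (nat_lit 0) (nat_lit 49675629486) (nat_lit 8) (nat_lit 5) (nat_lit 10) (nat_lit 4) (nat_lit 8) (nat_lit 4) (nat_lit 329) (nat_lit 284) (nat_lit 167)) (XT.lf (nat_lit 0) (nat_lit 2931867928) (nat_lit 76) (nat_lit 194176883049) (nat_lit 76) (nat_lit 91471457029) (nat_lit 7) (nat_lit 4) (nat_lit 8) (nat_lit 5) (nat_lit 8) (nat_lit 4) (nat_lit 330) (nat_lit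 284) (nat_lit 166)))))) (XT.nd (nat_lit 624) (nat_lit 76) (nat_lit 0) (XT.nd (nat_lit 312) (nat_lit 76) (nat_lit 0) (XT.nd (nat_lit 156) (nat_lit 76) (nat_lit 0) (XT.nd (nat_lit 78) (nat_lit 0) (nat_lit 0) (XT.lf (nat_lit 0) (nat_lit 83624543251) (nat_lit 76) (nat_lit 163654923863) (nat_lit 76) (nat_lit 60948632265) (nat_lit 7) (nat_lit 4) (nat_lit 8) (nat_lit 5) (nat_lit 8) (nat_lit 4) (nat_lit 331) (nat_lit 284) (nat_lit 165)) (XT.lf (nat_lit 0) (nat_lit 170771327098) (nat_lit 76) (nat_lit 130691821908) (nat_lit 76) (nat_lit 27984728849) (nat_lit 7) (nat_lit 4) (nat_lit 8) (nat_lit 5) (nat_lit 8) (nat_lit 4) (nat_lit 332) (nat_lit 284) (nat_lit 164))) (XT.nd (nat_lit 78) (nat_lit 0) (nat_lit 0) (XT.lf (nat_lit 0) (nat_lit 7234631969) (nat_lit 152) (nat_lit 87659800655) (nat_lit 76) (nat_lit 257456205227) (nat_lit 6) (nat_lit 5) (nat_lit 8) (nat_lit 5) (nat_lit 7) (nat_lit 4) (nat_lit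 333) (nat_lit 284) (nat_lit 163)) (XT.lf (nat_lit 0) (nat_lit 43759030757) (nat_lit 152) (nat_lit 11689738300) (nat_lit 76) (nat_lit 321578748569) (nat_lit 6) (nat_lit 5) (nat_lit 8) (nat_lit 5) (nat_lit 7) (nat_lit 4) (nat_lit 334) (nat_lit 284) (nat_lit 162)))) (XT.nd (nat_lit 156) (nat_lit 0) (nat_lit 0) (XT.nd (nat_lit 78) (nat_lit 0) (nat_lit 0) (XT.lf (nat_lit 0) (nat_lit 74061730377) (nat_lit 76) (nat_lit 10924273890) (nat_lit 152) (nat_lit 318550094036) (nat_lit 5) (nat_lit 5) (nat_lit 6) (nat_lit 5) (nat_lit 7) (nat_lit 4) (nat_lit 335) (nat_lit 284) (nat_lit 161)) (XT.lf (nat_lit 0) (nat_lit 130732248262) (nat_lit 152) (nat_lit 265704798368) (nat_lit 0) (nat_lit 35630630116) (nat_lit 5) (nat_lit 5) (nat_lit 7) (nat_lit 4) (nat_lit 5) (nat_lit 4) (nat_lit 336) (nat_lit 284) (nat_lit 160))) (XT.nd (nat_lit 78) (nat_lit 0) (nat_lit 0) (XT.lf (nat_lit 0) (nat_lit 180421421859)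 (nat_lit 152) (nat_lit 197118402837) (nat_lit 0) (nat_lit 85319298657) (nat_lit 5) (nat_lit 5) (nat_lit 7) (nat_lit 4) (nat_lit 5) (nat_lit 4) (nat_lit 337) (nat_lit 284) (nat_lit 159)) (XT.lf (nat_lit 0) (nat_lit 234085250373) (nat_lit 152) (nat_lit 123046014383) (nat_lit 0) (nat_lit 138982659526) (nat_lit 5) (nat_lit 5) (nat_lit 7) (nat_lit 4) (nat_lit 5) (nat_lit 4) (nat_lit 338) (nat_lit 284) (nat_lit 158))))) (XT.nd (nat_lit 312) (nat_lit 0) (nat_lit 0) (XT.nd (nat_lit 156) (nat_lit 0) (nat_lit 0) (XT.nd (nat_lit 78) (nat_lit 76) (nat_lit 0) (XT.lf (nat_lit 0) (nat_lit 292041741674) (nat_lit 152) (nat_lit 43048685521) (nat_lit 0) (nat_lit 196938717824) (nat_lit 5) (nat_lit 5) (nat_lit 7) (nat_lit 4) (nat_lit 5) (nat_lit 4) (nat_lit 339) (nat_lit 284) (nat_lit 157)) (XT.lf (nat_lit 0) (nat_lit 45630252004) (nat_lit 76) (nat_lit 310101498292) (nat_lit 76) (nat_lit 214998073512) (nat_lit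 4) (nat_lit 4) (nat_lit 5) (nat_lit 5) (nat_lit 5) (nat_lit 4) (nat_lit 340) (nat_lit 284) (nat_lit 156))) (XT.nd (nat_lit 78) (nat_lit 0) (nat_lit 0) (XT.lf (nat_lit 0) (nat_lit 143850953708) (nat_lit 76) (nat_lit 281842634564) (nat_lit 76) (nat_lit 186738838553) (nat_lit 4) (nat_lit 4) (nat_lit 5) (nat_lit 5) (nat_lit 5) (nat_lit 4) (nat_lit 341) (nat_lit 284) (nat_lit 155)) (XT.lf (nat_lit 0) (nat_lit 249928600702) (nat_lit 76) (nat_lit 251323403430) (nat_lit 76) (nat_lit 156219263686) (nat_lit 4) (nat_lit 4) (nat_lit 5) (nat_lit 5) (nat_lit 5) (nat_lit 4) (nat_lit 342) (nat_lit 284) (nat_lit 154)))) (XT.nd (nat_lit 156) (nat_lit 0) (nat_lit 0) (XT.nd (nat_lit 78) (nat_lit 0) (nat_lit 0) (XT.lf (nat_lit 0) (nat_lit 364491801264) (nat_lit 76) (nat_lit 218362950186) (nat_lit 76) (nat_lit 123258492170) (nat_lit 4) (nat_lit 4) (nat_lit 5) (nat_lit 5) (nat_lit 5) (nat_lit 4) (nat_lit 343)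 (nat_lit 284) (nat_lit 153)) (XT.lf (nat_lit 0) (nat_lit 488219448435) (nat_lit 76) (nat_lit 182765953628) (nat_lit 76) (nat_lit 87661200917) (nat_lit 4) (nat_lit 4) (nat_lit 5) (nat_lit 5) (nat_lit 5) (nat_lit 4) (nat_lit 344) (nat_lit 284) (nat_lit 152))) (XT.nd (nat_lit 78) (nat_lit 0) (nat_lit 0) (XT.lf (nat_lit 0) (nat_lit 621844743087) (nat_lit 76) (nat_lit 144321468591) (nat_lit 76) (nat_lit 49216443014) (nat_lit 4) (nat_lit 4) (nat_lit 5) (nat_lit 5) (nat_lit 5) (nat_lit 4) (nat_lit 345) (nat_lit 284) (nat_lit 151)) (XT.lf (nat_lit 0) (nat_lit 766159538818) (nat_lit 76) (nat_lit 102801675904) (nat_lit 76) (nat_lit 7696397674) (nat_lit 4) (nat_lit 4) (nat_lit 5) (nat_lit 5) (nat_lit 5) (nat_lit 4) (nat_lit 346) (nat_lit 284) (nat_lit 150))))))))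
noncomputable def xc88 : XT := (XT.nd (nat_lit 36582) (nat_lit 0) (nat_lit 608) (XT.nd (nat_lit 1170) (nat_lit 76) (nat_lit 0) (XT.nd (nat_lit 546) (nat_lit 0) (nat_lit 0) (XT.nd (nat_lit 234) (nat_lit 0) (nat_lit 0) (XT.nd (nat_lit 78) (nat_lit 76) (nat_lit 0) (XT.lf (nat_lit 0) (nat_lit 35286837487) (nat_lit 152) (nat_lit 21708890194) (nat_lit 76) (nat_lit 885767392260) (nat_lit 3) (nat_lit 5) (nat_lit 5) (nat_lit 5) (nat_lit 4) (nat_lit 4) (nat_lit 347) (nat_lit 284) (nat_lit 149)) (XT.nd (nat_lit 78) (nat_lit 0) (nat_lit 0) (XT.lf (nat_lit 0) (nat_lit 77878877652) (nat_lit 76) (nat_lit 5286798516) (nat_lit 152) (nat_lit 930825579517) (nat_lit 2) (nat_lit 5) (nat_lit 3) (nat_lit 5) (nat_lit 4) (nat_lit 4) (nat_lit 348) (nat_lit 284) (nat_lit 148)) (XT.lf (nat_lit 0) (nat_lit 136699502919) (nat_lit 152) (nat_lit 905433707772) (nat_lit 0) (nat_lit 48638457230) (nat_lit 2) (nat_lit 5)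 (nat_lit 4) (nat_lit 4) (nat_lit 2) (nat_lit 4) (nat_lit 349) (nat_lit 284) (nat_lit 147)))) (XT.nd (nat_lit 156) (nat_lit 0) (nat_lit 0) (XT.nd (nat_lit 78) (nat_lit 0) (nat_lit 0) (XT.lf (nat_lit 0) (nat_lit 194653135692) (nat_lit 152) (nat_lit 872438491501) (nat_lit 0) (nat_lit 106591918051) (nat_lit 2) (nat_lit 5) (nat_lit 4) (nat_lit 4) (nat_lit 2) (nat_lit 4) (nat_lit 350) (nat_lit 284) (nat_lit 146)) (XT.lf (nat_lit 0) (nat_lit 257242855792) (nat_lit 152) (nat_lit 836804054383) (nat_lit 0) (nat_lit 169181478936) (nat_lit 2) (nat_lit 5) (nat_lit 4) (nat_lit 4) (nat_lit 2) (nat_lit 4) (nat_lit 351) (nat_lit 284) (nat_lit 145))) (XT.nd (nat_lit 78) (nat_lit 0) (nat_lit 0) (XT.lf (nat_lit 0) (nat_lit 324839565263) (nat_lit 152) (nat_lit 798319229383) (nat_lit 0) (nat_lit 236778040987) (nat_lit 2) (nat_lit 5) (nat_lit 4) (nat_lit 4) (nat_lit 2) (nat_lit 4) (nat_lit 352) (nat_lit 284)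 (nat_lit 144)) (XT.lf (nat_lit 0) (nat_lit 397843837199) (nat_lit 152) (nat_lit 756755958278) (nat_lit 0) (nat_lit 309782176422) (nat_lit 2) (nat_lit 5) (nat_lit 4) (nat_lit 4) (nat_lit 2) (nat_lit 4) (nat_lit 353) (nat_lit 284) (nat_lit 143))))) (XT.nd (nat_lit 312) (nat_lit 0) (nat_lit 0) (XT.nd (nat_lit 156) (nat_lit 0) (nat_lit 0) (XT.nd (nat_lit 78) (nat_lit 0) (nat_lit 0) (XT.lf (nat_lit 0) (nat_lit 476688289508) (nat_lit 152) (nat_lit 711867940204) (nat_lit 0) (nat_lit 388626502341) (nat_lit 2) (nat_lit 5) (nat_lit 4) (nat_lit 4) (nat_lit 2) (nat_lit 4) (nat_lit 354) (nat_lit 284) (nat_lit 142)) (XT.lf (nat_lit 0) (nat_lit 561840148573) (nat_lit 152) (nat_lit 663389172089) (nat_lit 0) (nat_lit 473778244378) (nat_lit 2) (nat_lit 5) (nat_lit 4) (nat_lit 4) (nat_lit 2) (nat_lit 4) (nat_lit 355) (nat_lit 284) (nat_lit 141))) (XT.nd (nat_lit 78) (nat_lit 0) (nat_lit 0) (XT.lf (nat_lit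 0) (nat_lit 653804018004) (nat_lit 152) (nat_lit 611032372345) (nat_lit 0) (nat_lit 565742005451) (nat_lit 2) (nat_lit 5) (nat_lit 4) (nat_lit 4) (nat_lit 2) (nat_lit 4) (nat_lit 356) (nat_lit 284) (nat_lit 140)) (XT.lf (nat_lit 0) (nat_lit 753124868879) (nat_lit 152) (nat_lit 554487278455) (nat_lit 0) (nat_lit 665062755993) (nat_lit 2) (nat_lit 5) (nat_lit 4) (nat_lit 4) (nat_lit 2) (nat_lit 4) (nat_lit 357) (nat_lit 284) (nat_lit 139)))) (XT.nd (nat_lit 156) (nat_lit 0) (nat_lit 0) (XT.nd (nat_lit 78) (nat_lit 0) (nat_lit 0) (XT.lf (nat_lit 0) (nat_lit 860391269203) (nat_lit 152) (nat_lit 493418808381) (nat_lit 0) (nat_lit 772329063417) (nat_lit 2) (nat_lit 5) (nat_lit 4) (nat_lit 4) (nat_lit 2) (nat_lit 4) (nat_lit 358) (nat_lit 284) (nat_lit 138)) (XT.lf (nat_lit 0) (nat_lit 976238871719) (nat_lit 152) (nat_lit 427465074892) (nat_lit 0) (nat_lit 888176579915) (nat_lit 2) (nat_lit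 5) (nat_lit 4) (nat_lit 4) (nat_lit 2) (nat_lit 4) (nat_lit 359) (nat_lit 284) (nat_lit 137))) (XT.nd (nat_lit 78) (nat_lit 0) (nat_lit 0) (XT.lf (nat_lit 0) (nat_lit 1101354180738) (nat_lit 152) (nat_lit 356235241051) (nat_lit 0) (nat_lit 1013291809287) (nat_lit 2) (nat_lit 5) (nat_lit 4) (nat_lit 4) (nat_lit 2) (nat_lit 4) (nat_lit 360) (nat_lit 284) (nat_lit 136)) (XT.lf (nat_lit 0) (nat_lit 1236478620314) (nat_lit 152) (nat_lit 279307204138) (nat_lit 0) (nat_lit 1148416175115) (nat_lit 2) (nat_lit 5) (nat_lit 4) (nat_lit 4) (nat_lit 2) (nat_lit 4) (nat_lit 361) (nat_lit 284) (nat_lit 135)))))) (XT.nd (nat_lit 34788) (nat_lit 0) (nat_lit 2812) (XT.nd (nat_lit 312) (nat_lit 0) (nat_lit 0) (XT.nd (nat_lit 156) (nat_lit 76) (nat_lit 0) (XT.nd (nat_lit 78) (nat_lit 0) (nat_lit 0) (XT.lf (nat_lit 0) (nat_lit 1382412927866) (nat_lit 152) (nat_lit 196225094304) (nat_lit 0) (nat_lit 1294350414382)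 (nat_lit 2) (nat_lit 5) (nat_lit 4) (nat_lit 4) (nat_lit 2) (nat_lit 4) (nat_lit 362) (nat_lit 284) (nat_lit 134)) (XT.lf (nat_lit 0) (nat_lit 1540021899290) (nat_lit 152) (nat_lit 106496573120) (nat_lit 0) (nat_lit 1451959322580) (nat_lit 2) (nat_lit 5) (nat_lit 4) (nat_lit 4) (nat_lit 2) (nat_lit 4) (nat_lit 363) (nat_lit 284) (nat_lit 133))) (XT.nd (nat_lit 78) (nat_lit 76) (nat_lit 0) (XT.lf (nat_lit 0) (nat_lit 1710239513677) (nat_lit 152) (nat_lit 9589916017) (nat_lit 0) (nat_lit 1622176878424) (nat_lit 2) (nat_lit 5) (nat_lit 4) (nat_lit 4) (nat_lit 2) (nat_lit 4) (nat_lit 364) (nat_lit 284) (nat_lit 132)) (XT.lf (nat_lit 0) (nat_lit 100075311041) (nat_lit 76) (nat_lit 1796405970597) (nat_lit 76) (nat_lit 1708343281138) (nat_lit 1) (nat_lit 4) (nat_lit 2) (nat_lit 5) (nat_lit 2) (nat_lit 4) (nat_lit 365) (nat_lit 284) (nat_lit 131)))) (XT.nd (nat_lit 34320) (nat_lit 0) (nat_lit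 3344) (XT.nd (nat_lit 78) (nat_lit 0) (nat_lit 0) (XT.lf (nat_lit 0) (nat_lit 219059011726) (nat_lit 76) (nat_lit 1878825517358) (nat_lit 76) (nat_lit 1790762777707) (nat_lit 1) (nat_lit 4) (nat_lit 2) (nat_lit 5) (nat_lit 2) (nat_lit 4) (nat_lit 366) (nat_lit 284) (nat_lit 130)) (XT.lf (nat_lit 0) (nat_lit 347561286652) (nat_lit 76) (nat_lit 1967838687404) (nat_lit 76) (nat_lit 1879775901280) (nat_lit 1) (nat_lit 4) (nat_lit 2) (nat_lit 5) (nat_lit 2) (nat_lit 4) (nat_lit 367) (nat_lit 284) (nat_lit 129))) (XT.nd (nat_lit 78) (nat_lit 0) (nat_lit 0) (XT.lf (nat_lit 0) (nat_lit 8672106006) (nat_lit 532) (nat_lit 2669398099) (nat_lit 532) (nat_lit 2669398099) (nat_lit 45) (nat_lit 3) (nat_lit 52) (nat_lit 3) (nat_lit 52) (nat_lit 5) (nat_lit 285) (nat_lit 285) (nat_lit 210)) (XT.lf (nat_lit 76) (nat_lit 7918689113) (nat_lit 0) (nat_lit 10386328899) (nat_lit 532) (nat_lit 10816075178)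 (nat_lit 46) (nat_lit 5) (nat_lit 45) (nat_lit 3) (nat_lit 52) (nat_lit 5) (nat_lit 286) (nat_lit 285) (nat_lit 209))))) (XT.nd (nat_lit 312) (nat_lit 608) (nat_lit 0) (XT.nd (nat_lit 156) (nat_lit 0) (nat_lit 0) (XT.nd (nat_lit 78) (nat_lit 0) (nat_lit 0) (XT.lf (nat_lit 0) (nat_lit 19554368706) (nat_lit 456) (nat_lit 7834739055) (nat_lit 532) (nat_lit 2902304943) (nat_lit 46) (nat_lit 5) (nat_lit 52) (nat_lit 5) (nat_lit 53) (nat_lit 5) (nat_lit 287) (nat_lit 285) (nat_lit 208)) (XT.lf (nat_lit 76) (nat_lit 6661062159) (nat_lit 0) (nat_lit 14665461902) (nat_lit 532) (nat_lit 10195025609) (nat_lit 47) (nat_lit 5) (nat_lit 46) (nat_lit 5) (nat_lit 53) (nat_lit 5) (nat_lit 288) (nat_lit 285) (nat_lit 207))) (XT.nd (nat_lit 78) (nat_lit 0) (nat_lit 76) (XT.lf (nat_lit 76) (nat_lit 22757499866) (nat_lit 0) (nat_lit 690467391) (nat_lit 532) (nat_lit 9385548006) (nat_lit 47) (nat_lit 5) (nat_lit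 46) (nat_lit 5) (nat_lit 53) (nat_lit 5) (nat_lit 289) (nat_lit 285) (nat_lit 206)) (XT.lf (nat_lit 76) (nat_lit 5831744474) (nat_lit 0) (nat_lit 20387859074) (nat_lit 532) (nat_lit 7992413849) (nat_lit 48) (nat_lit 5) (nat_lit 47) (nat_lit 5) (nat_lit 54) (nat_lit 5) (nat_lit 290) (nat_lit 285) (nat_lit 205)))) (XT.nd (nat_lit 156) (nat_lit 304) (nat_lit 0) (XT.nd (nat_lit 78) (nat_lit 380) (nat_lit 0) (XT.lf (nat_lit 76) (nat_lit 23561584016) (nat_lit 0) (nat_lit 5938549138) (nat_lit 532) (nat_lit 6177709761) (nat_lit 48) (nat_lit 5) (nat_lit 47) (nat_lit 5) (nat_lit 54) (nat_lit 5) (nat_lit 291) (nat_lit 285) (nat_lit 204)) (XT.lf (nat_lit 0) (nat_lit 5486006718) (nat_lit 456) (nat_lit 27916163203) (nat_lit 532) (nat_lit 3830054378) (nat_lit 42) (nat_lit 5) (nat_lit 48) (nat_lit 5) (nat_lit 49) (nat_lit 5) (nat_lit 292) (nat_lit 285) (nat_lit 203))) (XT.nd (nat_lit 78) (nat_lit 304)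 (nat_lit 0) (XT.lf (nat_lit 0) (nat_lit 25018450167) (nat_lit 456) (nat_lit 13074468153) (nat_lit 532) (nat_lit 779927875) (nat_lit 42) (nat_lit 5) (nat_lit 48) (nat_lit 5) (nat_lit 49) (nat_lit 5) (nat_lit 293) (nat_lit 285) (nat_lit 202)) (XT.lf (nat_lit 0) (nat_lit 2596593868) (nat_lit 304) (nat_lit 35017281975) (nat_lit 76) (nat_lit 3009364087) (nat_lit 38) (nat_lit 5) (nat_lit 42) (nat_lit 5) (nat_lit 39) (nat_lit 5) (nat_lit 294) (nat_lit 285) (nat_lit 201))))))) (XT.nd (nat_lit 1248) (nat_lit 760) (nat_lit 0) (XT.nd (nat_lit 624) (nat_lit 608) (nat_lit 0) (XT.nd (nat_lit 312) (nat_lit 380) (nat_lit 0) (XT.nd (nat_lit 156) (nat_lit 228) (nat_lit 0) (XT.nd (nat_lit 78) (nat_lit 228) (nat_lit 0) (XT.lf (nat_lit 0) (nat_lit 6924759545) (nat_lit 304) (nat_lit 15446879176) (nat_lit 76) (nat_lit 20082524158) (nat_lit 38) (nat_lit 5) (nat_lit 42) (nat_lit 5) (nat_lit 39) (nat_lit 5) (nat_lit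 295) (nat_lit 285) (nat_lit 200)) (XT.lf (nat_lit 0) (nat_lit 5983983326) (nat_lit 228) (nat_lit 5754868597) (nat_lit 304) (nat_lit 32681544082) (nat_lit 35) (nat_lit 5) (nat_lit 38) (nat_lit 5) (nat_lit 39) (nat_lit 5) (nat_lit 296) (nat_lit 285) (nat_lit 199))) (XT.nd (nat_lit 78) (nat_lit 228) (nat_lit 0) (XT.lf (nat_lit 0) (nat_lit 17660544418) (nat_lit 304) (nat_lit 16811241870) (nat_lit 76) (nat_lit 12014353129) (nat_lit 35) (nat_lit 5) (nat_lit 39) (nat_lit 5) (nat_lit 36) (nat_lit 5) (nat_lit 297) (nat_lit 285) (nat_lit 198)) (XT.lf (nat_lit 0) (nat_lit 6726581789) (nat_lit 228) (nat_lit 17636899476) (nat_lit 304) (nat_lit 24329069078) (nat_lit 32) (nat_lit 5) (nat_lit 35) (nat_lit 5) (nat_lit 36) (nat_lit 5) (nat_lit 298) (nat_lit 285) (nat_lit 197)))) (XT.nd (nat_lit 156) (nat_lit 228) (nat_lit 0) (XT.nd (nat_lit 78) (nat_lit 152) (nat_lit 0) (XT.lf (nat_lit 0) (nat_lit 32083758417)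 (nat_lit 304) (nat_lit 17964782148) (nat_lit 76) (nat_lit 988453258) (nat_lit 32) (nat_lit 5) (nat_lit 36) (nat_lit 5) (nat_lit 33) (nat_lit 5) (nat_lit 299) (nat_lit 285) (nat_lit 196)) (XT.lf (nat_lit 0) (nat_lit 7888824554) (nat_lit 152) (nat_lit 33177341763) (nat_lit 228) (nat_lit 12451273284) (nat_lit 30) (nat_lit 5) (nat_lit 32) (nat_lit 5) (nat_lit 33) (nat_lit 5) (nat_lit 300) (nat_lit 285) (nat_lit 195))) (XT.nd (nat_lit 78) (nat_lit 228) (nat_lit 0) (XT.lf (nat_lit 0) (nat_lit 36828295024) (nat_lit 152) (nat_lit 14426888986) (nat_lit 228) (nat_lit 4902102611) (nat_lit 30) (nat_lit 5) (nat_lit 32) (nat_lit 5) (nat_lit 33) (nat_lit 5) (nat_lit 301) (nat_lit 285) (nat_lit 194)) (XT.lf (nat_lit 0) (nat_lit 3460990392) (nat_lit 228) (nat_lit 49666097916) (nat_lit 76) (nat_lit 5845174764) (nat_lit 27) (nat_lit 5) (nat_lit 30) (nat_lit 5) (nat_lit 28) (nat_lit 5) (nat_lit 302) (nat_lit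 285) (nat_lit 193))))) (XT.nd (nat_lit 312) (nat_lit 304) (nat_lit 0) (XT.nd (nat_lit 156) (nat_lit 152) (nat_lit 0) (XT.nd (nat_lit 78) (nat_lit 152) (nat_lit 0) (XT.lf (nat_lit 0) (nat_lit 13142318456) (nat_lit 228) (nat_lit 21158618179) (nat_lit 76) (nat_lit 27628198056) (nat_lit 27) (nat_lit 5) (nat_lit 30) (nat_lit 5) (nat_lit 28) (nat_lit 5) (nat_lit 303) (nat_lit 285) (nat_lit 192)) (XT.lf (nat_lit 0) (nat_lit 10132561058) (nat_lit 152) (nat_lit 13706583960) (nat_lit 228) (nat_lit 41264136751) (nat_lit 25) (nat_lit 5) (nat_lit 27) (nat_lit 5) (nat_lit 28) (nat_lit 5) (nat_lit 304) (nat_lit 285) (nat_lit 191))) (XT.nd (nat_lit 78) (nat_lit 152) (nat_lit 0) (XT.lf (nat_lit 0) (nat_lit 36187921756) (nat_lit 228) (nat_lit 23578896848) (nat_lit 76) (nat_lit 8700850414) (nat_lit 25) (nat_lit 5) (nat_lit 28) (nat_lit 5) (nat_lit 26) (nat_lit 5) (nat_lit 305) (nat_lit 285) (nat_lit 190))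 (XT.lf (nat_lit 0) (nat_lit 10489405828) (nat_lit 152) (nat_lit 39641062856) (nat_lit 228) (nat_lit 21922273501) (nat_lit 23) (nat_lit 5) (nat_lit 25) (nat_lit 5) (nat_lit 26) (nat_lit 5) (nat_lit 306) (nat_lit 285) (nat_lit 189)))) (XT.nd (nat_lit 156) (nat_lit 152) (nat_lit 0) (XT.nd (nat_lit 78) (nat_lit 152) (nat_lit 0) (XT.lf (nat_lit 0) (nat_lit 48620641482) (nat_lit 152) (nat_lit 17210144421) (nat_lit 228) (nat_lit 10042450036) (nat_lit 23) (nat_lit 5) (nat_lit 25) (nat_lit 5) (nat_lit 26) (nat_lit 5) (nat_lit 307) (nat_lit 285) (nat_lit 188)) (XT.lf (nat_lit 0) (nat_lit 3069320807) (nat_lit 152) (nat_lit 69906187400) (nat_lit 76) (nat_lit 6984819486) (nat_lit 21) (nat_lit 5) (nat_lit 23) (nat_lit 5) (nat_lit 22) (nat_lit 5) (nat_lit 308) (nat_lit 285) (nat_lit 187))) (XT.nd (nat_lit 78) (nat_lit 152) (nat_lit 0) (XT.lf (nat_lit 0) (nat_lit 17896833506) (nat_lit 152) (nat_lit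 33150103655) (nat_lit 76) (nat_lit 33209837153) (nat_lit 21) (nat_lit 5) (nat_lit 23) (nat_lit 5) (nat_lit 22) (nat_lit 5) (nat_lit 309) (nat_lit 285) (nat_lit 186)) (XT.lf (nat_lit 0) (nat_lit 6887871486) (nat_lit 152) (nat_lit 27186336830) (nat_lit 228) (nat_lit 54809638442) (nat_lit 19) (nat_lit 5) (nat_lit 21) (nat_lit 5) (nat_lit 22) (nat_lit 5) (nat_lit 310) (nat_lit 285) (nat_lit 185)))))) (XT.nd (nat_lit 624) (nat_lit 380) (nat_lit 0) (XT.nd (nat_lit 312) (nat_lit 228) (nat_lit 0) (XT.nd (nat_lit 156) (nat_lit 76) (nat_lit 0) (XT.nd (nat_lit 78) (nat_lit 76) (nat_lit 0) (XT.lf (nat_lit 0) (nat_lit 52011085739) (nat_lit 152) (nat_lit 439151210) (nat_lit 228) (nat_lit 41358493700) (nat_lit 19) (nat_lit 5) (nat_lit 21) (nat_lit 5) (nat_lit 22) (nat_lit 5) (nat_lit 311) (nat_lit 285) (nat_lit 184)) (XT.lf (nat_lit 0) (nat_lit 978356896) (nat_lit 76) (nat_lit 72023888628) (nat_lit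 152) (nat_lit 26068890473) (nat_lit 18) (nat_lit 5) (nat_lit 19) (nat_lit 5) (nat_lit 20) (nat_lit 4) (nat_lit 312) (nat_lit 285) (nat_lit 183))) (XT.nd (nat_lit 78) (nat_lit 76) (nat_lit 0) (XT.lf (nat_lit 0) (nat_lit 49538610004) (nat_lit 76) (nat_lit 46812005847) (nat_lit 152) (nat_lit 8311744203) (nat_lit 18) (nat_lit 5) (nat_lit 19) (nat_lit 5) (nat_lit 20) (nat_lit 4) (nat_lit 313) (nat_lit 285) (nat_lit 182)) (XT.lf (nat_lit 0) (nat_lit 10320760263) (nat_lit 152) (nat_lit 8981291347) (nat_lit 76) (nat_lit 91378058579) (nat_lit 17) (nat_lit 5) (nat_lit 19) (nat_lit 5) (nat_lit 18) (nat_lit 5) (nat_lit 314) (nat_lit 285) (nat_lit 181)))) (XT.nd (nat_lit 156) (nat_lit 76) (nat_lit 0) (XT.nd (nat_lit 78) (nat_lit 0) (nat_lit 0) (XT.lf (nat_lit 0) (nat_lit 31304627736) (nat_lit 228) (nat_lit 74588634456) (nat_lit 76) (nat_lit 11163963846) (nat_lit 15) (nat_lit 5) (nat_lit 18) (nat_lit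 5) (nat_lit 16) (nat_lit 4) (nat_lit 315) (nat_lit 285) (nat_lit 180)) (XT.lf (nat_lit 0) (nat_lit 54718997191) (nat_lit 228) (nat_lit 25889948641) (nat_lit 76) (nat_lit 43275423656) (nat_lit 15) (nat_lit 5) (nat_lit 18) (nat_lit 5) (nat_lit 16) (nat_lit 4) (nat_lit 316) (nat_lit 285) (nat_lit 179))) (XT.nd (nat_lit 78) (nat_lit 0) (nat_lit 0) (XT.lf (nat_lit 0) (nat_lit 28108324747) (nat_lit 76) (nat_lit 52572806485) (nat_lit 152) (nat_lit 50522585590) (nat_lit 14) (nat_lit 5) (nat_lit 15) (nat_lit 5) (nat_lit 16) (nat_lit 4) (nat_lit 317) (nat_lit 285) (nat_lit 178)) (XT.lf (nat_lit 0) (nat_lit 87896505539) (nat_lit 76) (nat_lit 21530263457) (nat_lit 152) (nat_lit 29625321798) (nat_lit 14) (nat_lit 5) (nat_lit 15) (nat_lit 5) (nat_lit 16) (nat_lit 4) (nat_lit 318) (nat_lit 285) (nat_lit 177))))) (XT.nd (nat_lit 312) (nat_lit 152) (nat_lit 0) (XT.nd (nat_lit 156) (nat_lit 76) (nat_lit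 0) (XT.nd (nat_lit 78) (nat_lit 76) (nat_lit 0) (XT.lf (nat_lit 0) (nat_lit 4893455787) (nat_lit 76) (nat_lit 135983519524) (nat_lit 76) (nat_lit 6618967353) (nat_lit 13) (nat_lit 4) (nat_lit 14) (nat_lit 5) (nat_lit 14) (nat_lit 4) (nat_lit 319) (nat_lit 285) (nat_lit 176)) (XT.lf (nat_lit 0) (nat_lit 19309045240) (nat_lit 152) (nat_lit 89203917739) (nat_lit 76) (nat_lit 47907831744) (nat_lit 12) (nat_lit 5) (nat_lit 14) (nat_lit 5) (nat_lit 13) (nat_lit 4) (nat_lit 320) (nat_lit 285) (nat_lit 175))) (XT.nd (nat_lit 78) (nat_lit 76) (nat_lit 0) (XT.lf (nat_lit 0) (nat_lit 46952537413) (nat_lit 152) (nat_lit 31707472235) (nat_lit 76) (nat_lit 87385965921) (nat_lit 12) (nat_lit 5) (nat_lit 14) (nat_lit 5) (nat_lit 13) (nat_lit 4) (nat_lit 321) (nat_lit 285) (nat_lit 174)) (XT.lf (nat_lit 0) (nat_lit 31986868337) (nat_lit 76) (nat_lit 45588846619) (nat_lit 152) (nat_lit 98804000462) (nat_lit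 11) (nat_lit 5) (nat_lit 12) (nat_lit 5) (nat_lit 13) (nat_lit 4) (nat_lit 322) (nat_lit 285) (nat_lit 173)))) (XT.nd (nat_lit 156) (nat_lit 152) (nat_lit 0) (XT.nd (nat_lit 78) (nat_lit 0) (nat_lit 0) (XT.lf (nat_lit 0) (nat_lit 102578103867) (nat_lit 76) (nat_lit 8936536965) (nat_lit 152) (nat_lit 75956243030) (nat_lit 11) (nat_lit 5) (nat_lit 12) (nat_lit 5) (nat_lit 13) (nat_lit 4) (nat_lit 323) (nat_lit 285) (nat_lit 172)) (XT.lf (nat_lit 0) (nat_lit 148904779196) (nat_lit 152) (nat_lit 21371595932) (nat_lit 0) (nat_lit 29114083652) (nat_lit 11) (nat_lit 5) (nat_lit 13) (nat_lit 4) (nat_lit 11) (nat_lit 4) (nat_lit 324) (nat_lit 285) (nat_lit 171))) (XT.nd (nat_lit 78) (nat_lit 76) (nat_lit 0) (XT.lf (nat_lit 0) (nat_lit 49472299157) (nat_lit 76) (nat_lit 141234844617) (nat_lit 76) (nat_lit 21442775510) (nat_lit 10) (nat_lit 4) (nat_lit 11) (nat_lit 5) (nat_lit 11) (nat_lit 4) (nat_lit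 325) (nat_lit 285) (nat_lit 170)) (XT.lf (nat_lit 0) (nat_lit 10025751167) (nat_lit 152) (nat_lit 98939778495) (nat_lit 76) (nat_lit 116897626149) (nat_lit 9) (nat_lit 5) (nat_lit 11) (nat_lit 5) (nat_lit 10) (nat_lit 4) (nat_lit 326) (nat_lit 285) (nat_lit 169))))))))
noncomputable def xc89 : XT := (XT.nd (nat_lit 2418) (nat_lit 76) (nat_lit 0) (XT.nd (nat_lit 1170) (nat_lit 152) (nat_lit 0) (XT.nd (nat_lit 546) (nat_lit 228) (nat_lit 0) (XT.nd (nat_lit 234) (nat_lit 76) (nat_lit 0) (XT.nd (nat_lit 78) (nat_lit 76) (nat_lit 0) (XT.lf (nat_lit 0) (nat_lit 42852452486) (nat_lit 152) (nat_lit 30661417360) (nat_lit 76) (nat_lit 167115092891) (nat_lit 9) (nat_lit 5) (nat_lit 11) (nat_lit 5) (nat_lit 10) (nat_lit 4) (nat_lit 327) (nat_lit 285) (nat_lit 168)) (XT.nd (nat_lit 78) (nat_lit 0) (nat_lit 0) (XT.lf (nat_lit 0) (nat_lit 45346174348) (nat_lit 76) (nat_lit 34048913756) (nat_lit 152)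 (nat_lit 177093762848) (nat_lit 8) (nat_lit 5) (nat_lit 9) (nat_lit 5) (nat_lit 10) (nat_lit 4) (nat_lit 328) (nat_lit 285) (nat_lit 167)) (XT.lf (nat_lit 0) (nat_lit 119926663675) (nat_lit 152) (nat_lit 144601756022) (nat_lit 0) (nat_lit 9003868749) (nat_lit 8) (nat_lit 5) (nat_lit 10) (nat_lit 4) (nat_lit 8) (nat_lit 4) (nat_lit 329) (nat_lit 285) (nat_lit 166)))) (XT.nd (nat_lit 156) (nat_lit 0) (nat_lit 0) (XT.nd (nat_lit 78) (nat_lit 76) (nat_lit 0) (XT.lf (nat_lit 0) (nat_lit 164584439711) (nat_lit 152) (nat_lit 73623288574) (nat_lit 0) (nat_lit 53660779207) (nat_lit 8) (nat_lit 5) (nat_lit 10) (nat_lit 4) (nat_lit 8) (nat_lit 4) (nat_lit 330) (nat_lit 285) (nat_lit 165)) (XT.lf (nat_lit 0) (nat_lit 3191887198) (nat_lit 76) (nat_lit 209699055456) (nat_lit 76) (nat_lit 98774593493) (nat_lit 7) (nat_lit 4) (nat_lit 8) (nat_lit 5) (nat_lit 8) (nat_lit 4) (nat_lit 331) (nat_lit 285)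 (nat_lit 164))) (XT.nd (nat_lit 78) (nat_lit 0) (nat_lit 0) (XT.lf (nat_lit 0) (nat_lit 90338089892) (nat_lit 76) (nat_lit 176736226812) (nat_lit 76) (nat_lit 65811022755) (nat_lit 7) (nat_lit 4) (nat_lit 8) (nat_lit 5) (nat_lit 8) (nat_lit 4) (nat_lit 332) (nat_lit 285) (nat_lit 163)) (XT.lf (nat_lit 0) (nat_lit 184454869544) (nat_lit 76) (nat_lit 141136898253) (nat_lit 76) (nat_lit 30211007073) (nat_lit 7) (nat_lit 4) (nat_lit 8) (nat_lit 5) (nat_lit 8) (nat_lit 4) (nat_lit 333) (nat_lit 285) (nat_lit 162))))) (XT.nd (nat_lit 312) (nat_lit 76) (nat_lit 0) (XT.nd (nat_lit 156) (nat_lit 76) (nat_lit 0) (XT.nd (nat_lit 78) (nat_lit 0) (nat_lit 0) (XT.lf (nat_lit 0) (nat_lit 7824397693) (nat_lit 152) (nat_lit 94651780203) (nat_lit 76) (nat_lit 278061624628) (nat_lit 6) (nat_lit 5) (nat_lit 8) (nat_lit 5) (nat_lit 7) (nat_lit 4) (nat_lit 334) (nat_lit 285) (nat_lit 161)) (XT.lf (nat_lit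 0) (nat_lit 47269933927) (nat_lit 152) (nat_lit 12605653934) (nat_lit 76) (nat_lit 347313310476) (nat_lit 6) (nat_lit 5) (nat_lit 8) (nat_lit 5) (nat_lit 7) (nat_lit 4) (nat_lit 335) (nat_lit 285) (nat_lit 160))) (XT.nd (nat_lit 78) (nat_lit 0) (nat_lit 0) (XT.lf (nat_lit 0) (nat_lit 80005444555) (nat_lit 76) (nat_lit 11789318193) (nat_lit 152) (nat_lit 344023427387) (nat_lit 5) (nat_lit 5) (nat_lit 6) (nat_lit 5) (nat_lit 7) (nat_lit 4) (nat_lit 336) (nat_lit 285) (nat_lit 159)) (XT.lf (nat_lit 0) (nat_lit 141200172685) (nat_lit 152) (nat_lit 286943258356) (nat_lit 0) (nat_lit 38488906927) (nat_lit 5) (nat_lit 5) (nat_lit 7) (nat_lit 4) (nat_lit 5) (nat_lit 4) (nat_lit 337) (nat_lit 285) (nat_lit 158)))) (XT.nd (nat_lit 156) (nat_lit 76) (nat_lit 0) (XT.nd (nat_lit 78) (nat_lit 0) (nat_lit 0) (XT.lf (nat_lit 0) (nat_lit 194863787981) (nat_lit 152) (nat_lit 212871278877) (nat_lit 0)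 (nat_lit 92152089218) (nat_lit 5) (nat_lit 5) (nat_lit 7) (nat_lit 4) (nat_lit 5) (nat_lit 4) (nat_lit 338) (nat_lit 285) (nat_lit 157)) (XT.lf (nat_lit 0) (nat_lit 252820081859) (nat_lit 152) (nat_lit 132874328695) (nat_lit 0) (nat_lit 150107982166) (nat_lit 5) (nat_lit 5) (nat_lit 7) (nat_lit 4) (nat_lit 5) (nat_lit 4) (nat_lit 339) (nat_lit 285) (nat_lit 156))) (XT.nd (nat_lit 78) (nat_lit 76) (nat_lit 0) (XT.lf (nat_lit 0) (nat_lit 315412499023) (nat_lit 152) (nat_lit 46478351808) (nat_lit 0) (nat_lit 212700028099) (nat_lit 5) (nat_lit 5) (nat_lit 7) (nat_lit 4) (nat_lit 5) (nat_lit 4) (nat_lit 340) (nat_lit 285) (nat_lit 155)) (XT.lf (nat_lit 0) (nat_lit 49294540503) (nat_lit 76) (nat_lit 334902951884) (nat_lit 76) (nat_lit 232190137227) (nat_lit 4) (nat_lit 4) (nat_lit 5) (nat_lit 5) (nat_lit 5) (nat_lit 4) (nat_lit 341) (nat_lit 285) (nat_lit 154)))))) (XT.nd (nat_lit 624) (nat_lit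 0) (nat_lit 0) (XT.nd (nat_lit 312) (nat_lit 152) (nat_lit 0) (XT.nd (nat_lit 156) (nat_lit 0) (nat_lit 0) (XT.nd (nat_lit 78) (nat_lit 0) (nat_lit 0) (XT.lf (nat_lit 0) (nat_lit 155371871058) (nat_lit 76) (nat_lit 304383872856) (nat_lit 76) (nat_lit 201670739928) (nat_lit 4) (nat_lit 4) (nat_lit 5) (nat_lit 5) (nat_lit 5) (nat_lit 4) (nat_lit 342) (nat_lit 285) (nat_lit 153)) (XT.lf (nat_lit 0) (nat_lit 269934778623) (nat_lit 76) (nat_lit 271423560451) (nat_lit 76) (nat_lit 168710132828) (nat_lit 4) (nat_lit 4) (nat_lit 5) (nat_lit 5) (nat_lit 5) (nat_lit 4) (nat_lit 343) (nat_lit 285) (nat_lit 152))) (XT.nd (nat_lit 78) (nat_lit 0) (nat_lit 0) (XT.lf (nat_lit 0) (nat_lit 393662154499) (nat_lit 76) (nat_lit 235826694299) (nat_lit 76) (nat_lit 133112993810) (nat_lit 4) (nat_lit 4) (nat_lit 5) (nat_lit 5) (nat_lit 5) (nat_lit 4) (nat_lit 344) (nat_lit 285) (nat_lit 151)) (XT.lf (nat_lit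 0) (nat_lit 527287197953) (nat_lit 76) (nat_lit 197382330009) (nat_lit 76) (nat_lit 94668376866) (nat_lit 4) (nat_lit 4) (nat_lit 5) (nat_lit 5) (nat_lit 5) (nat_lit 4) (nat_lit 345) (nat_lit 285) (nat_lit 150)))) (XT.nd (nat_lit 156) (nat_lit 152) (nat_lit 0) (XT.nd (nat_lit 78) (nat_lit 0) (nat_lit 0) (XT.lf (nat_lit 0) (nat_lit 671601761092) (nat_lit 76) (nat_lit 155862649125) (nat_lit 76) (nat_lit 53148462044) (nat_lit 4) (nat_lit 4) (nat_lit 5) (nat_lit 5) (nat_lit 5) (nat_lit 4) (nat_lit 346) (nat_lit 285) (nat_lit 149)) (XT.lf (nat_lit 0) (nat_lit 827461041330) (nat_lit 76) (nat_lit 111021609095) (nat_lit 76) (nat_lit 8307205403) (nat_lit 4) (nat_lit 4) (nat_lit 5) (nat_lit 5) (nat_lit 5) (nat_lit 4) (nat_lit 347) (nat_lit 285) (nat_lit 148))) (XT.nd (nat_lit 78) (nat_lit 76) (nat_lit 0) (XT.lf (nat_lit 0) (nat_lit 38114098155) (nat_lit 152) (nat_lit 23437280092) (nat_lit 76)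 (nat_lit 956632444071) (nat_lit 3) (nat_lit 5) (nat_lit 5) (nat_lit 5) (nat_lit 4) (nat_lit 4) (nat_lit 348) (nat_lit 285) (nat_lit 147)) (XT.lf (nat_lit 0) (nat_lit 84117298516) (nat_lit 76) (nat_lit 5705820945) (nat_lit 152) (nat_lit 1005287099576) (nat_lit 2) (nat_lit 5) (nat_lit 3) (nat_lit 5) (nat_lit 4) (nat_lit 4) (nat_lit 349) (nat_lit 285) (nat_lit 146))))) (XT.nd (nat_lit 312) (nat_lit 0) (nat_lit 0) (XT.nd (nat_lit 156) (nat_lit 0) (nat_lit 0) (XT.nd (nat_lit 78) (nat_lit 0) (nat_lit 0) (XT.lf (nat_lit 0) (nat_lit 147639429365) (nat_lit 152) (nat_lit 977860669723) (nat_lit 0) (nat_lit 52532983147) (nat_lit 2) (nat_lit 5) (nat_lit 4) (nat_lit 4) (nat_lit 2) (nat_lit 4) (nat_lit 350) (nat_lit 285) (nat_lit 145)) (XT.lf (nat_lit 0) (nat_lit 210229058967) (nat_lit 152) (nat_lit 942226409089) (nat_lit 0) (nat_lit 115122465327) (nat_lit 2) (nat_lit 5) (nat_lit 4) (nat_lit 4) (nat_lit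 2) (nat_lit 4) (nat_lit 351) (nat_lit 285) (nat_lit 144))) (XT.nd (nat_lit 78) (nat_lit 0) (nat_lit 0) (XT.lf (nat_lit 0) (nat_lit 277825684643) (nat_lit 152) (nat_lit 903741747500) (nat_lit 0) (nat_lit 182718954503) (nat_lit 2) (nat_lit 5) (nat_lit 4) (nat_lit 4) (nat_lit 2) (nat_lit 4) (nat_lit 352) (nat_lit 285) (nat_lit 143)) (XT.lf (nat_lit 0) (nat_lit 350829878992) (nat_lit 152) (nat_lit 862178627703) (nat_lit 0) (nat_lit 255723022462) (nat_lit 2) (nat_lit 5) (nat_lit 4) (nat_lit 4) (nat_lit 2) (nat_lit 4) (nat_lit 353) (nat_lit 285) (nat_lit 142)))) (XT.nd (nat_lit 156) (nat_lit 0) (nat_lit 0) (XT.nd (nat_lit 78) (nat_lit 0) (nat_lit 0) (XT.lf (nat_lit 0) (nat_lit 429674259460) (nat_lit 152) (nat_lit 817290749727) (nat_lit 0) (nat_lit 334567285902) (nat_lit 2) (nat_lit 5) (nat_lit 4) (nat_lit 4) (nat_lit 2) (nat_lit 4) (nat_lit 354) (nat_lit 285) (nat_lit 141)) (XT.lf (nat_lit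 0) (nat_lit 514826052006) (nat_lit 152) (nat_lit 768812111333) (nat_lit 0) (nat_lit 419718970090) (nat_lit 2) (nat_lit 5) (nat_lit 4) (nat_lit 4) (nat_lit 2) (nat_lit 4) (nat_lit 355) (nat_lit 285) (nat_lit 140))) (XT.nd (nat_lit 78) (nat_lit 0) (nat_lit 0) (XT.lf (nat_lit 0) (nat_lit 606789859846) (nat_lit 152) (nat_lit 716455431701) (nat_lit 0) (nat_lit 511682677597) (nat_lit 2) (nat_lit 5) (nat_lit 4) (nat_lit 4) (nat_lit 2) (nat_lit 4) (nat_lit 356) (nat_lit 285) (nat_lit 139)) (XT.lf (nat_lit 0) (nat_lit 706110653692) (nat_lit 152) (nat_lit 659910449026) (nat_lit 0) (nat_lit 611003378542) (nat_lit 2) (nat_lit 5) (nat_lit 4) (nat_lit 4) (nat_lit 2) (nat_lit 4) (nat_lit 357) (nat_lit 285) (nat_lit 138))))))) (XT.nd (nat_lit 35490) (nat_lit 0) (nat_lit 1672) (XT.nd (nat_lit 624) (nat_lit 76) (nat_lit 0) (XT.nd (nat_lit 312) (nat_lit 0) (nat_lit 0) (XT.nd (nat_lit 156) (nat_lit 0) (nat_lit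 0) (XT.nd (nat_lit 78) (nat_lit 0) (nat_lit 0) (XT.lf (nat_lit 0) (nat_lit 813377001211) (nat_lit 152) (nat_lit 598842081929) (nat_lit 0) (nat_lit 718269640043) (nat_lit 2) (nat_lit 5) (nat_lit 4) (nat_lit 4) (nat_lit 2) (nat_lit 4) (nat_lit 358) (nat_lit 285) (nat_lit 137)) (XT.lf (nat_lit 0) (nat_lit 929224554834) (nat_lit 152) (nat_lit 532888443790) (nat_lit 0) (nat_lit 834117114019) (nat_lit 2) (nat_lit 5) (nat_lit 4) (nat_lit 4) (nat_lit 2) (nat_lit 4) (nat_lit 359) (nat_lit 285) (nat_lit 136))) (XT.nd (nat_lit 78) (nat_lit 0) (nat_lit 0) (XT.lf (nat_lit 0) (nat_lit 1054339818581) (nat_lit 152) (nat_lit 461658698235) (nat_lit 0) (nat_lit 959232304019) (nat_lit 2) (nat_lit 5) (nat_lit 4) (nat_lit 4) (nat_lit 2) (nat_lit 4) (nat_lit 360) (nat_lit 285) (nat_lit 135)) (XT.lf (nat_lit 0) (nat_lit 1189464216238) (nat_lit 152) (nat_lit 384730743068) (nat_lit 0) (nat_lit 1094356633392)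 (nat_lit 2) (nat_lit 5) (nat_lit 4) (nat_lit 4) (nat_lit 2) (nat_lit 4) (nat_lit 361) (nat_lit 285) (nat_lit 134)))) (XT.nd (nat_lit 156) (nat_lit 0) (nat_lit 0) (XT.nd (nat_lit 78) (nat_lit 0) (nat_lit 0) (XT.lf (nat_lit 0) (nat_lit 1335398484977) (nat_lit 152) (nat_lit 301648708925) (nat_lit 0) (nat_lit 1240290838904) (nat_lit 2) (nat_lit 5) (nat_lit 4) (nat_lit 4) (nat_lit 2) (nat_lit 4) (nat_lit 362) (nat_lit 285) (nat_lit 133)) (XT.lf (nat_lit 0) (nat_lit 1493007420463) (nat_lit 152) (nat_lit 211920257826) (nat_lit 0) (nat_lit 1397899715847) (nat_lit 2) (nat_lit 5) (nat_lit 4) (nat_lit 4) (nat_lit 2) (nat_lit 4) (nat_lit 363) (nat_lit 285) (nat_lit 132))) (XT.nd (nat_lit 78) (nat_lit 0) (nat_lit 0) (XT.lf (nat_lit 0) (nat_lit 1663225001574) (nat_lit 152) (nat_lit 115013665616) (nat_lit 0) (nat_lit 1568117242752) (nat_lit 2) (nat_lit 5) (nat_lit 4) (nat_lit 4) (nat_lit 2) (nat_lit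 4) (nat_lit 364) (nat_lit 285) (nat_lit 131)) (XT.lf (nat_lit 0) (nat_lit 1847059925087) (nat_lit 152) (nat_lit 10354671008) (nat_lit 0) (nat_lit 1751952116074) (nat_lit 2) (nat_lit 5) (nat_lit 4) (nat_lit 4) (nat_lit 2) (nat_lit 4) (nat_lit 365) (nat_lit 285) (nat_lit 130))))) (XT.nd (nat_lit 34554) (nat_lit 0) (nat_lit 3420) (XT.nd (nat_lit 34398) (nat_lit 0) (nat_lit 3344) (XT.nd (nat_lit 78) (nat_lit 0) (nat_lit 0) (XT.lf (nat_lit 0) (nat_lit 108083712486) (nat_lit 76) (nat_lit 1940117286539) (nat_lit 76) (nat_lit 1845009431052) (nat_lit 1) (nat_lit 4) (nat_lit 2) (nat_lit 5) (nat_lit 2) (nat_lit 4) (nat_lit 366) (nat_lit 285) (nat_lit 129)) (XT.lf (nat_lit 0) (nat_lit 236585933185) (nat_lit 76) (nat_lit 2029130483093) (nat_lit 76) (nat_lit 1934022584575) (nat_lit 1) (nat_lit 4) (nat_lit 2) (nat_lit 5) (nat_lit 2) (nat_lit 4) (nat_lit 367) (nat_lit 285) (nat_lit 128))) (XT.nd (nat_lit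 78) (nat_lit 0) (nat_lit 0) (XT.lf (nat_lit 0) (nat_lit 9440625282) (nat_lit 532) (nat_lit 2842476970) (nat_lit 532) (nat_lit 2842476970) (nat_lit 45) (nat_lit 3) (nat_lit 52) (nat_lit 3) (nat_lit 52) (nat_lit 5) (nat_lit 286) (nat_lit 286) (nat_lit 208)) (XT.lf (nat_lit 76) (nat_lit 8631080930) (nat_lit 0) (nat_lit 11278663388) (nat_lit 532) (nat_lit 11529412015) (nat_lit 46) (nat_lit 5) (nat_lit 45) (nat_lit 3) (nat_lit 52) (nat_lit 5) (nat_lit 287) (nat_lit 286) (nat_lit 207)))) (XT.nd (nat_lit 156) (nat_lit 0) (nat_lit 0) (XT.nd (nat_lit 78) (nat_lit 0) (nat_lit 0) (XT.lf (nat_lit 0) (nat_lit 21247280717) (nat_lit 456) (nat_lit 8376334522) (nat_lit 532) (nat_lit 3080456663) (nat_lit 46) (nat_lit 5) (nat_lit 52) (nat_lit 5) (nat_lit 53) (nat_lit 5) (nat_lit 288) (nat_lit 286) (nat_lit 206)) (XT.lf (nat_lit 76) (nat_lit 7276974241) (nat_lit 0) (nat_lit 15876707914) (nat_lit 532) (nat_lit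 10879567096) (nat_lit 47) (nat_lit 5) (nat_lit 46) (nat_lit 5) (nat_lit 53) (nat_lit 5) (nat_lit 289) (nat_lit 286) (nat_lit 205))) (XT.nd (nat_lit 78) (nat_lit 0) (nat_lit 76) (XT.lf (nat_lit 76) (nat_lit 24654976808) (nat_lit 0) (nat_lit 780898357) (nat_lit 532) (nat_lit 10015039475) (nat_lit 47) (nat_lit 5) (nat_lit 46) (nat_lit 5) (nat_lit 53) (nat_lit 5) (nat_lit 290) (nat_lit 286) (nat_lit 204)) (XT.lf (nat_lit 76) (nat_lit 6383086572) (nat_lit 0) (nat_lit 22039110060) (nat_lit 532) (nat_lit 8518087393) (nat_lit 48) (nat_lit 5) (nat_lit 47) (nat_lit 5) (nat_lit 54) (nat_lit 5) (nat_lit 291) (nat_lit 286) (nat_lit 203)))))) (XT.nd (nat_lit 624) (nat_lit 684) (nat_lit 0) (XT.nd (nat_lit 312) (nat_lit 456) (nat_lit 0) (XT.nd (nat_lit 156) (nat_lit 304) (nat_lit 0) (XT.nd (nat_lit 78) (nat_lit 380) (nat_lit 0) (XT.lf (nat_lit 76) (nat_lit 25525031608) (nat_lit 0) (nat_lit 6432357385)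 (nat_lit 532) (nat_lit 6566630650) (nat_lit 48) (nat_lit 5) (nat_lit 47) (nat_lit 5) (nat_lit 54) (nat_lit 5) (nat_lit 292) (nat_lit 286) (nat_lit 202)) (XT.lf (nat_lit 0) (nat_lit 6009706067) (nat_lit 456) (nat_lit 30156302217) (nat_lit 532) (nat_lit 4037209766) (nat_lit 42) (nat_lit 5) (nat_lit 48) (nat_lit 5) (nat_lit 49) (nat_lit 5) (nat_lit 293) (nat_lit 286) (nat_lit 201))) (XT.nd (nat_lit 78) (nat_lit 304) (nat_lit 0) (XT.lf (nat_lit 0) (nat_lit 27098462117) (nat_lit 456) (nat_lit 14126764455) (nat_lit 532) (nat_lit 750424917) (nat_lit 42) (nat_lit 5) (nat_lit 48) (nat_lit 5) (nat_lit 49) (nat_lit 5) (nat_lit 294) (nat_lit 286) (nat_lit 200)) (XT.lf (nat_lit 0) (nat_lit 2887071343) (nat_lit 304) (nat_lit 37730566912) (nat_lit 76) (nat_lit 3248641611) (nat_lit 38) (nat_lit 5) (nat_lit 42) (nat_lit 5) (nat_lit 39) (nat_lit 5) (nat_lit 295) (nat_lit 286) (nat_lit 199)))) (XT.nd (nat_lit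 156) (nat_lit 228) (nat_lit 0) (XT.nd (nat_lit 78) (nat_lit 228) (nat_lit 0) (XT.lf (nat_lit 0) (nat_lit 7555360648) (nat_lit 304) (nat_lit 16601057640) (nat_lit 76) (nat_lit 21687763496) (nat_lit 38) (nat_lit 5) (nat_lit 42) (nat_lit 5) (nat_lit 39) (nat_lit 5) (nat_lit 296) (nat_lit 286) (nat_lit 198)) (XT.lf (nat_lit 0) (nat_lit 6542208752) (nat_lit 228) (nat_lit 6208608222) (nat_lit 304) (nat_lit 35217211325) (nat_lit 35) (nat_lit 5) (nat_lit 38) (nat_lit 5) (nat_lit 39) (nat_lit 5) (nat_lit 297) (nat_lit 286) (nat_lit 197))) (XT.nd (nat_lit 78) (nat_lit 228) (nat_lit 0) (XT.lf (nat_lit 0) (nat_lit 19140996144) (nat_lit 304) (nat_lit 18077116944) (nat_lit 76) (nat_lit 12981350648) (nat_lit 35) (nat_lit 5) (nat_lit 39) (nat_lit 5) (nat_lit 36) (nat_lit 5) (nat_lit 298) (nat_lit 286) (nat_lit 196)) (XT.lf (nat_lit 0) (nat_lit 7341731992) (nat_lit 228) (nat_lit 19035280355) (nat_lit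 304) (nat_lit 26205639354) (nat_lit 32) (nat_lit 5) (nat_lit 35) (nat_lit 5) (nat_lit 36) (nat_lit 5) (nat_lit 299) (nat_lit 286) (nat_lit 195))))) (XT.nd (nat_lit 312) (nat_lit 304) (nat_lit 0) (XT.nd (nat_lit 156) (nat_lit 228) (nat_lit 0) (XT.nd (nat_lit 78) (nat_lit 152) (nat_lit 0) (XT.lf (nat_lit 0) (nat_lit 34710417346) (nat_lit 304) (nat_lit 19326016577) (nat_lit 76) (nat_lit 1078587132) (nat_lit 32) (nat_lit 5) (nat_lit 36) (nat_lit 5) (nat_lit 33) (nat_lit 5) (nat_lit 300) (nat_lit 286) (nat_lit 194)) (XT.lf (nat_lit 0) (nat_lit 8593955924) (nat_lit 152) (nat_lit 35814800915) (nat_lit 228) (nat_lit 13385368586) (nat_lit 30) (nat_lit 5) (nat_lit 32) (nat_lit 5) (nat_lit 33) (nat_lit 5) (nat_lit 301) (nat_lit 286) (nat_lit 193))) (XT.nd (nat_lit 78) (nat_lit 228) (nat_lit 0) (XT.lf (nat_lit 0) (nat_lit 39843100668) (nat_lit 152) (nat_lit 15565551040) (nat_lit 228) (nat_lit 5236857338)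 (nat_lit 30) (nat_lit 5) (nat_lit 32) (nat_lit 5) (nat_lit 33) (nat_lit 5) (nat_lit 302) (nat_lit 286) (nat_lit 192)) (XT.lf (nat_lit 0) (nat_lit 3790469172) (nat_lit 228) (nat_lit 53565822439) (nat_lit 76) (nat_lit 6329444863) (nat_lit 27) (nat_lit 5) (nat_lit 30) (nat_lit 5) (nat_lit 28) (nat_lit 5) (nat_lit 303) (nat_lit 286) (nat_lit 191)))) (XT.nd (nat_lit 156) (nat_lit 152) (nat_lit 0) (XT.nd (nat_lit 78) (nat_lit 152) (nat_lit 0) (XT.lf (nat_lit 0) (nat_lit 14242407218) (nat_lit 228) (nat_lit 22783193458) (nat_lit 76) (nat_lit 29853876232) (nat_lit 27) (nat_lit 5) (nat_lit 30) (nat_lit 5) (nat_lit 28) (nat_lit 5) (nat_lit 304) (nat_lit 286) (nat_lit 190)) (XT.lf (nat_lit 0) (nat_lit 11009555710) (nat_lit 152) (nat_lit 14783413220) (nat_lit 228) (nat_lit 44514754536) (nat_lit 25) (nat_lit 5) (nat_lit 27) (nat_lit 5) (nat_lit 28) (nat_lit 5) (nat_lit 305) (nat_lit 286) (nat_lit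 189))) (XT.nd (nat_lit 78) (nat_lit 152) (nat_lit 0) (XT.lf (nat_lit 0) (nat_lit 39126627751) (nat_lit 228) (nat_lit 25400637405) (nat_lit 76) (nat_lit 9414244475) (nat_lit 25) (nat_lit 5) (nat_lit 28) (nat_lit 5) (nat_lit 26) (nat_lit 5) (nat_lit 306) (nat_lit 286) (nat_lit 188)) (XT.lf (nat_lit 0) (nat_lit 11391494773) (nat_lit 152) (nat_lit 42791362303) (nat_lit 228) (nat_lit 23630675146) (nat_lit 23) (nat_lit 5) (nat_lit 25) (nat_lit 5) (nat_lit 26) (nat_lit 5) (nat_lit 307) (nat_lit 286) (nat_lit 187))))))))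
noncomputable def xc90 : XT := (XT.nd (nat_lit 2418) (nat_lit 304) (nat_lit 0) (XT.nd (nat_lit 1170) (nat_lit 532) (nat_lit 0) (XT.nd (nat_lit 546) (nat_lit 456) (nat_lit 0) (XT.nd (nat_lit 234) (nat_lit 228) (nat_lit 0) (XT.nd (nat_lit 78) (nat_lit 152) (nat_lit 0) (XT.lf (nat_lit 0) (nat_lit 52568567317) (nat_lit 152) (nat_lit 18567524881) (nat_lit 228) (nat_lit 10803827302) (nat_lit 23) (nat_lit 5) (nat_lit 25) (nat_lit 5) (nat_lit 26) (nat_lit 5) (nat_lit 308) (nat_lit 286) (nat_lit 186)) (XT.nd (nat_lit 78) (nat_lit 0) (nat_lit 0) (XT.lf (nat_lit 0) (nat_lit 3353737034) (nat_lit 152) (nat_lit 75437138724) (nat_lit 76) (nat_lit 7563110344) (nat_lit 21) (nat_lit 5) (nat_lit 23) (nat_lit 5) (nat_lit 22) (nat_lit 5) (nat_lit 309) (nat_lit 286) (nat_lit 185)) (XT.lf (nat_lit 0) (nat_lit 19364571448) (nat_lit 152) (nat_lit 35745127069) (nat_lit 76) (nat_lit 35884684587) (nat_lit 21) (nat_lit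 5) (nat_lit 23) (nat_lit 5) (nat_lit 22) (nat_lit 5) (nat_lit 310) (nat_lit 286) (nat_lit 184)))) (XT.nd (nat_lit 156) (nat_lit 76) (nat_lit 0) (XT.nd (nat_lit 78) (nat_lit 0) (nat_lit 0) (XT.lf (nat_lit 0) (nat_lit 7494443428) (nat_lit 152) (nat_lit 29340362587) (nat_lit 228) (nat_lit 59156925736) (nat_lit 19) (nat_lit 5) (nat_lit 21) (nat_lit 5) (nat_lit 22) (nat_lit 5) (nat_lit 311) (nat_lit 286) (nat_lit 183)) (XT.lf (nat_lit 0) (nat_lit 56223400583) (nat_lit 152) (nat_lit 454948872) (nat_lit 228) (nat_lit 44632465991) (nat_lit 19) (nat_lit 5) (nat_lit 21) (nat_lit 5) (nat_lit 22) (nat_lit 5) (nat_lit 312) (nat_lit 286) (nat_lit 182))) (XT.nd (nat_lit 78) (nat_lit 0) (nat_lit 0) (XT.lf (nat_lit 0) (nat_lit 1108845723) (nat_lit 76) (nat_lit 77764982141) (nat_lit 152) (nat_lit 28120444046) (nat_lit 18) (nat_lit 5) (nat_lit 19) (nat_lit 5) (nat_lit 20) (nat_lit 4) (nat_lit 313) (nat_lit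 286) (nat_lit 181)) (XT.lf (nat_lit 0) (nat_lit 53550050911) (nat_lit 76) (nat_lit 50537690781) (nat_lit 152) (nat_lit 8945241456) (nat_lit 18) (nat_lit 5) (nat_lit 19) (nat_lit 5) (nat_lit 20) (nat_lit 4) (nat_lit 314) (nat_lit 286) (nat_lit 180))))) (XT.nd (nat_lit 312) (nat_lit 152) (nat_lit 0) (XT.nd (nat_lit 156) (nat_lit 76) (nat_lit 0) (XT.nd (nat_lit 78) (nat_lit 152) (nat_lit 0) (XT.lf (nat_lit 0) (nat_lit 11174077947) (nat_lit 152) (nat_lit 9653533887) (nat_lit 76) (nat_lit 98704660683) (nat_lit 17) (nat_lit 5) (nat_lit 19) (nat_lit 5) (nat_lit 18) (nat_lit 5) (nat_lit 315) (nat_lit 286) (nat_lit 179)) (XT.lf (nat_lit 0) (nat_lit 33836133016) (nat_lit 228) (nat_lit 80508911219) (nat_lit 76) (nat_lit 12074557658) (nat_lit 15) (nat_lit 5) (nat_lit 18) (nat_lit 5) (nat_lit 16) (nat_lit 4) (nat_lit 316) (nat_lit 286) (nat_lit 178))) (XT.nd (nat_lit 78) (nat_lit 76) (nat_lit 0)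 (XT.lf (nat_lit 0) (nat_lit 59121642023) (nat_lit 228) (nat_lit 27917798242) (nat_lit 76) (nat_lit 46753639682) (nat_lit 15) (nat_lit 5) (nat_lit 18) (nat_lit 5) (nat_lit 16) (nat_lit 4) (nat_lit 317) (nat_lit 286) (nat_lit 177)) (XT.lf (nat_lit 0) (nat_lit 30399239642) (nat_lit 76) (nat_lit 56760662118) (nat_lit 152) (nat_lit 54538143066) (nat_lit 14) (nat_lit 5) (nat_lit 15) (nat_lit 5) (nat_lit 16) (nat_lit 4) (nat_lit 318) (nat_lit 286) (nat_lit 176)))) (XT.nd (nat_lit 156) (nat_lit 76) (nat_lit 0) (XT.nd (nat_lit 78) (nat_lit 76) (nat_lit 0) (XT.lf (nat_lit 0) (nat_lit 94967345349) (nat_lit 76) (nat_lit 23236046676) (nat_lit 152) (nat_lit 31971042568) (nat_lit 14) (nat_lit 5) (nat_lit 15) (nat_lit 5) (nat_lit 16) (nat_lit 4) (nat_lit 319) (nat_lit 286) (nat_lit 175)) (XT.lf (nat_lit 0) (nat_lit 5324448543) (nat_lit 76) (nat_lit 146844821872) (nat_lit 76) (nat_lit 7124553598) (nat_lit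 13) (nat_lit 4) (nat_lit 14) (nat_lit 5) (nat_lit 14) (nat_lit 4) (nat_lit 320) (nat_lit 286) (nat_lit 174))) (XT.nd (nat_lit 78) (nat_lit 0) (nat_lit 0) (XT.lf (nat_lit 0) (nat_lit 20874818870) (nat_lit 152) (nat_lit 96302513740) (nat_lit 76) (nat_lit 51755421890) (nat_lit 12) (nat_lit 5) (nat_lit 14) (nat_lit 5) (nat_lit 13) (nat_lit 4) (nat_lit 321) (nat_lit 286) (nat_lit 173)) (XT.lf (nat_lit 0) (nat_lit 50728231156) (nat_lit 152) (nat_lit 34209146478) (nat_lit 76) (nat_lit 94390698386) (nat_lit 12) (nat_lit 5) (nat_lit 14) (nat_lit 5) (nat_lit 13) (nat_lit 4) (nat_lit 322) (nat_lit 286) (nat_lit 172)))))) (XT.nd (nat_lit 624) (nat_lit 228) (nat_lit 0) (XT.nd (nat_lit 312) (nat_lit 152) (nat_lit 0) (XT.nd (nat_lit 156) (nat_lit 76) (nat_lit 0) (XT.nd (nat_lit 78) (nat_lit 0) (nat_lit 0) (XT.lf (nat_lit 0) (nat_lit 34579857200) (nat_lit 76) (nat_lit 49220780591) (nat_lit 152) (nat_lit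 106687928632) (nat_lit 11) (nat_lit 5) (nat_lit 12) (nat_lit 5) (nat_lit 13) (nat_lit 4) (nat_lit 323) (nat_lit 286) (nat_lit 171)) (XT.lf (nat_lit 0) (nat_lit 110815870136) (nat_lit 76) (nat_lit 9637410147) (nat_lit 152) (nat_lit 82013861114) (nat_lit 11) (nat_lit 5) (nat_lit 12) (nat_lit 5) (nat_lit 13) (nat_lit 4) (nat_lit 324) (nat_lit 286) (nat_lit 170))) (XT.nd (nat_lit 78) (nat_lit 76) (nat_lit 0) (XT.lf (nat_lit 0) (nat_lit 160833648644) (nat_lit 152) (nat_lit 23051144684) (nat_lit 0) (nat_lit 31455568629) (nat_lit 11) (nat_lit 5) (nat_lit 13) (nat_lit 4) (nat_lit 11) (nat_lit 4) (nat_lit 325) (nat_lit 286) (nat_lit 169)) (XT.lf (nat_lit 0) (nat_lit 53459497988) (nat_lit 76) (nat_lit 152520190562) (nat_lit 76) (nat_lit 23140932938) (nat_lit 10) (nat_lit 4) (nat_lit 11) (nat_lit 5) (nat_lit 11) (nat_lit 4) (nat_lit 326) (nat_lit 286) (nat_lit 168)))) (XT.nd (nat_lit 156) (nat_lit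 76) (nat_lit 0) (XT.nd (nat_lit 78) (nat_lit 0) (nat_lit 0) (XT.lf (nat_lit 0) (nat_lit 10842997341) (nat_lit 152) (nat_lit 106826913531) (nat_lit 76) (nat_lit 126261070964) (nat_lit 9) (nat_lit 5) (nat_lit 11) (nat_lit 5) (nat_lit 10) (nat_lit 4) (nat_lit 327) (nat_lit 286) (nat_lit 167)) (XT.lf (nat_lit 0) (nat_lit 46294709871) (nat_lit 152) (nat_lit 33088361078) (nat_lit 76) (nat_lit 180495073213) (nat_lit 9) (nat_lit 5) (nat_lit 11) (nat_lit 5) (nat_lit 10) (nat_lit 4) (nat_lit 328) (nat_lit 286) (nat_lit 166))) (XT.nd (nat_lit 78) (nat_lit 0) (nat_lit 0) (XT.lf (nat_lit 0) (nat_lit 48999180507) (nat_lit 76) (nat_lit 36761143022) (nat_lit 152) (nat_lit 191246535324) (nat_lit 8) (nat_lit 5) (nat_lit 9) (nat_lit 5) (nat_lit 10) (nat_lit 4) (nat_lit 329) (nat_lit 286) (nat_lit 165)) (XT.lf (nat_lit 0) (nat_lit 129533675817) (nat_lit 152) (nat_lit 156145700773) (nat_lit 0) (nat_lit 9734455436)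 (nat_lit 8) (nat_lit 5) (nat_lit 10) (nat_lit 4) (nat_lit 8) (nat_lit 4) (nat_lit 330) (nat_lit 286) (nat_lit 164))))) (XT.nd (nat_lit 312) (nat_lit 152) (nat_lit 0) (XT.nd (nat_lit 156) (nat_lit 0) (nat_lit 0) (XT.nd (nat_lit 78) (nat_lit 76) (nat_lit 0) (XT.lf (nat_lit 0) (nat_lit 177763119932) (nat_lit 152) (nat_lit 79490748205) (nat_lit 0) (nat_lit 57963157458) (nat_lit 8) (nat_lit 5) (nat_lit 10) (nat_lit 4) (nat_lit 8) (nat_lit 4) (nat_lit 331) (nat_lit 286) (nat_lit 163)) (XT.lf (nat_lit 0) (nat_lit 3469074452) (nat_lit 76) (nat_lit 226464710485) (nat_lit 76) (nat_lit 106664060888) (nat_lit 7) (nat_lit 4) (nat_lit 8) (nat_lit 5) (nat_lit 8) (nat_lit 4) (nat_lit 332) (nat_lit 286) (nat_lit 162))) (XT.nd (nat_lit 78) (nat_lit 0) (nat_lit 0) (XT.lf (nat_lit 0) (nat_lit 97585355860) (nat_lit 76) (nat_lit 190865616246) (nat_lit 76) (nat_lit 71064330423) (nat_lit 7) (nat_lit 4) (nat_lit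 8) (nat_lit 5) (nat_lit 8) (nat_lit 4) (nat_lit 333) (nat_lit 286) (nat_lit 161)) (XT.lf (nat_lit 0) (nat_lit 199229980198) (nat_lit 76) (nat_lit 152419045751) (nat_lit 76) (nat_lit 32617170831) (nat_lit 7) (nat_lit 4) (nat_lit 8) (nat_lit 5) (nat_lit 8) (nat_lit 4) (nat_lit 334) (nat_lit 286) (nat_lit 160)))) (XT.nd (nat_lit 156) (nat_lit 76) (nat_lit 0) (XT.nd (nat_lit 78) (nat_lit 0) (nat_lit 0) (XT.lf (nat_lit 0) (nat_lit 8459776091) (nat_lit 152) (nat_lit 102206086110) (nat_lit 76) (nat_lit 300314204618) (nat_lit 6) (nat_lit 5) (nat_lit 8) (nat_lit 5) (nat_lit 7) (nat_lit 4) (nat_lit 335) (nat_lit 286) (nat_lit 159)) (XT.lf (nat_lit 0) (nat_lit 51060256958) (nat_lit 152) (nat_lit 13597590962) (nat_lit 76) (nat_lit 375105458666) (nat_lit 6) (nat_lit 5) (nat_lit 8) (nat_lit 5) (nat_lit 7) (nat_lit 4) (nat_lit 336) (nat_lit 286) (nat_lit 158))) (XT.nd (nat_lit 78) (nat_lit 0) (nat_lit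 0) (XT.lf (nat_lit 0) (nat_lit 86421977297) (nat_lit 76) (nat_lit 12724835384) (nat_lit 152) (nat_lit 371536150197) (nat_lit 5) (nat_lit 5) (nat_lit 6) (nat_lit 5) (nat_lit 7) (nat_lit 4) (nat_lit 337) (nat_lit 286) (nat_lit 157)) (XT.lf (nat_lit 0) (nat_lit 152504197957) (nat_lit 152) (nat_lit 309883352185) (nat_lit 0) (nat_lit 41574729359) (nat_lit 5) (nat_lit 5) (nat_lit 7) (nat_lit 4) (nat_lit 5) (nat_lit 4) (nat_lit 338) (nat_lit 286) (nat_lit 156))))))) (XT.nd (nat_lit 1248) (nat_lit 76) (nat_lit 0) (XT.nd (nat_lit 624) (nat_lit 152) (nat_lit 0) (XT.nd (nat_lit 312) (nat_lit 0) (nat_lit 0) (XT.nd (nat_lit 156) (nat_lit 76) (nat_lit 0) (XT.nd (nat_lit 78) (nat_lit 0) (nat_lit 0) (XT.lf (nat_lit 0) (nat_lit 210460309035) (nat_lit 152) (nat_lit 229886752633) (nat_lit 0) (nat_lit 99530469206) (nat_lit 5) (nat_lit 5) (nat_lit 7) (nat_lit 4) (nat_lit 5) (nat_lit 4) (nat_lit 339) (nat_lit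 286) (nat_lit 155)) (XT.lf (nat_lit 0) (nat_lit 273052556940) (nat_lit 152) (nat_lit 143491100403) (nat_lit 0) (nat_lit 162122373378) (nat_lit 5) (nat_lit 5) (nat_lit 7) (nat_lit 4) (nat_lit 5) (nat_lit 4) (nat_lit 340) (nat_lit 286) (nat_lit 154))) (XT.nd (nat_lit 78) (nat_lit 76) (nat_lit 0) (XT.lf (nat_lit 0) (nat_lit 340651858698) (nat_lit 152) (nat_lit 50184421260) (nat_lit 0) (nat_lit 229721356865) (nat_lit 5) (nat_lit 5) (nat_lit 7) (nat_lit 4) (nat_lit 5) (nat_lit 4) (nat_lit 341) (nat_lit 286) (nat_lit 153)) (XT.lf (nat_lit 0) (nat_lit 53249993608) (nat_lit 76) (nat_lit 361689472781) (nat_lit 76) (nat_lit 250758676253) (nat_lit 4) (nat_lit 4) (nat_lit 5) (nat_lit 5) (nat_lit 5) (nat_lit 4) (nat_lit 342) (nat_lit 286) (nat_lit 152)))) (XT.nd (nat_lit 156) (nat_lit 0) (nat_lit 0) (XT.nd (nat_lit 78) (nat_lit 0) (nat_lit 0) (XT.lf (nat_lit 0) (nat_lit 167812629877) (nat_lit 76)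 (nat_lit 328729290783) (nat_lit 76) (nat_lit 217798221388) (nat_lit 4) (nat_lit 4) (nat_lit 5) (nat_lit 5) (nat_lit 5) (nat_lit 4) (nat_lit 343) (nat_lit 286) (nat_lit 151)) (XT.lf (nat_lit 0) (nat_lit 291539754555) (nat_lit 76) (nat_lit 293132545378) (nat_lit 76) (nat_lit 182201223330) (nat_lit 4) (nat_lit 4) (nat_lit 5) (nat_lit 5) (nat_lit 5) (nat_lit 4) (nat_lit 344) (nat_lit 286) (nat_lit 150))) (XT.nd (nat_lit 78) (nat_lit 0) (nat_lit 0) (XT.lf (nat_lit 0) (nat_lit 425164565417) (nat_lit 76) (nat_lit 254688292891) (nat_lit 76) (nat_lit 143756736904) (nat_lit 4) (nat_lit 4) (nat_lit 5) (nat_lit 5) (nat_lit 5) (nat_lit 4) (nat_lit 345) (nat_lit 286) (nat_lit 149)) (XT.lf (nat_lit 0) (nat_lit 569478913195) (nat_lit 76) (nat_lit 213168715528) (nat_lit 76) (nat_lit 102236942931) (nat_lit 4) (nat_lit 4) (nat_lit 5) (nat_lit 5) (nat_lit 5) (nat_lit 4) (nat_lit 346) (nat_lit 286) (nat_lit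 148))))) (XT.nd (nat_lit 312) (nat_lit 0) (nat_lit 0) (XT.nd (nat_lit 156) (nat_lit 152) (nat_lit 0) (XT.nd (nat_lit 78) (nat_lit 0) (nat_lit 0) (XT.lf (nat_lit 0) (nat_lit 725337994022) (nat_lit 76) (nat_lit 168327771350) (nat_lit 76) (nat_lit 57395798189) (nat_lit 4) (nat_lit 4) (nat_lit 5) (nat_lit 5) (nat_lit 5) (nat_lit 4) (nat_lit 347) (nat_lit 286) (nat_lit 147)) (XT.lf (nat_lit 0) (nat_lit 893665417268) (nat_lit 76) (nat_lit 119899736243) (nat_lit 76) (nat_lit 8967577374) (nat_lit 4) (nat_lit 4) (nat_lit 5) (nat_lit 5) (nat_lit 5) (nat_lit 4) (nat_lit 348) (nat_lit 286) (nat_lit 146))) (XT.nd (nat_lit 78) (nat_lit 76) (nat_lit 0) (XT.lf (nat_lit 0) (nat_lit 41166924283) (nat_lit 152) (nat_lit 25305128311) (nat_lit 76) (nat_lit 1033166177825) (nat_lit 3) (nat_lit 5) (nat_lit 5) (nat_lit 5) (nat_lit 4) (nat_lit 4) (nat_lit 349) (nat_lit 286) (nat_lit 145)) (XT.lf (nat_lit 0) (nat_lit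 90853635973) (nat_lit 76) (nat_lit 6158924607) (nat_lit 152) (nat_lit 1085706186967) (nat_lit 2) (nat_lit 5) (nat_lit 3) (nat_lit 5) (nat_lit 4) (nat_lit 4) (nat_lit 350) (nat_lit 286) (nat_lit 144)))) (XT.nd (nat_lit 156) (nat_lit 0) (nat_lit 0) (XT.nd (nat_lit 78) (nat_lit 0) (nat_lit 0) (XT.lf (nat_lit 0) (nat_lit 159453984103) (nat_lit 152) (nat_lit 1056082892067) (nat_lit 0) (nat_lit 56738579050) (nat_lit 2) (nat_lit 5) (nat_lit 4) (nat_lit 4) (nat_lit 2) (nat_lit 4) (nat_lit 351) (nat_lit 286) (nat_lit 143)) (XT.lf (nat_lit 0) (nat_lit 227050532192) (nat_lit 152) (nat_lit 1017598381786) (nat_lit 0) (nat_lit 124335000749) (nat_lit 2) (nat_lit 5) (nat_lit 4) (nat_lit 4) (nat_lit 2) (nat_lit 4) (nat_lit 352) (nat_lit 286) (nat_lit 142))) (XT.nd (nat_lit 78) (nat_lit 0) (nat_lit 0) (XT.lf (nat_lit 0) (nat_lit 300054654700) (nat_lit 152) (nat_lit 976035402087) (nat_lit 0) (nat_lit 197339006230)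 (nat_lit 2) (nat_lit 5) (nat_lit 4) (nat_lit 4) (nat_lit 2) (nat_lit 4) (nat_lit 353) (nat_lit 286) (nat_lit 141)) (XT.lf (nat_lit 0) (nat_lit 378898968649) (nat_lit 152) (nat_lit 931147653832) (nat_lit 0) (nat_lit 276183211820) (nat_lit 2) (nat_lit 5) (nat_lit 4) (nat_lit 4) (nat_lit 2) (nat_lit 4) (nat_lit 354) (nat_lit 286) (nat_lit 140)))))) (XT.nd (nat_lit 624) (nat_lit 76) (nat_lit 0) (XT.nd (nat_lit 312) (nat_lit 0) (nat_lit 0) (XT.nd (nat_lit 156) (nat_lit 0) (nat_lit 0) (XT.nd (nat_lit 78) (nat_lit 0) (nat_lit 0) (XT.lf (nat_lit 0) (nat_lit 464050699604) (nat_lit 152) (nat_lit 882669135551) (nat_lit 0) (nat_lit 361334842443) (nat_lit 2) (nat_lit 5) (nat_lit 4) (nat_lit 4) (nat_lit 2) (nat_lit 4) (nat_lit 355) (nat_lit 286) (nat_lit 139)) (XT.lf (nat_lit 0) (nat_lit 556014450414) (nat_lit 152) (nat_lit 830312567134) (nat_lit 0) (nat_lit 453298500353) (nat_lit 2) (nat_lit 5) (nat_lit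 4) (nat_lit 4) (nat_lit 2) (nat_lit 4) (nat_lit 356) (nat_lit 286) (nat_lit 138))) (XT.nd (nat_lit 78) (nat_lit 0) (nat_lit 0) (XT.lf (nat_lit 0) (nat_lit 655335191455) (nat_lit 152) (nat_lit 773767687436) (nat_lit 0) (nat_lit 552619155375) (nat_lit 2) (nat_lit 5) (nat_lit 4) (nat_lit 4) (nat_lit 2) (nat_lit 4) (nat_lit 357) (nat_lit 286) (nat_lit 137)) (XT.lf (nat_lit 0) (nat_lit 762601490081) (nat_lit 152) (nat_lit 712699415688) (nat_lit 0) (nat_lit 659885374354) (nat_lit 2) (nat_lit 5) (nat_lit 4) (nat_lit 4) (nat_lit 2) (nat_lit 4) (nat_lit 358) (nat_lit 286) (nat_lit 136)))) (XT.nd (nat_lit 156) (nat_lit 0) (nat_lit 0) (XT.nd (nat_lit 78) (nat_lit 0) (nat_lit 0) (XT.lf (nat_lit 0) (nat_lit 878448998432) (nat_lit 152) (nat_lit 646745865835) (nat_lit 0) (nat_lit 775732808958) (nat_lit 2) (nat_lit 5) (nat_lit 4) (nat_lit 4) (nat_lit 2) (nat_lit 4) (nat_lit 359) (nat_lit 286) (nat_lit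 135)) (XT.lf (nat_lit 0) (nat_lit 1003564220261) (nat_lit 152) (nat_lit 575516202026) (nat_lit 0) (nat_lit 900847962502) (nat_lit 2) (nat_lit 5) (nat_lit 4) (nat_lit 4) (nat_lit 2) (nat_lit 4) (nat_lit 360) (nat_lit 286) (nat_lit 134))) (XT.nd (nat_lit 78) (nat_lit 0) (nat_lit 0) (XT.lf (nat_lit 0) (nat_lit 1138688579105) (nat_lit 152) (nat_lit 498588322550) (nat_lit 0) (nat_lit 1035972258120) (nat_lit 2) (nat_lit 5) (nat_lit 4) (nat_lit 4) (nat_lit 2) (nat_lit 4) (nat_lit 361) (nat_lit 286) (nat_lit 133)) (XT.lf (nat_lit 0) (nat_lit 1284622811906) (nat_lit 152) (nat_lit 415506358491) (nat_lit 0) (nat_lit 1181906432377) (nat_lit 2) (nat_lit 5) (nat_lit 4) (nat_lit 4) (nat_lit 2) (nat_lit 4) (nat_lit 362) (nat_lit 286) (nat_lit 132))))) (XT.nd (nat_lit 312) (nat_lit 76) (nat_lit 0) (XT.nd (nat_lit 156) (nat_lit 0) (nat_lit 0) (XT.nd (nat_lit 78) (nat_lit 0) (nat_lit 0) (XT.lf (nat_lit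 0) (nat_lit 1442231714116) (nat_lit 152) (nat_lit 325777972285) (nat_lit 0) (nat_lit 1339515280381) (nat_lit 2) (nat_lit 5) (nat_lit 4) (nat_lit 4) (nat_lit 2) (nat_lit 4) (nat_lit 363) (nat_lit 286) (nat_lit 131)) (XT.lf (nat_lit 0) (nat_lit 1612449264416) (nat_lit 152) (nat_lit 228871440161) (nat_lit 0) (nat_lit 1509732780490) (nat_lit 2) (nat_lit 5) (nat_lit 4) (nat_lit 4) (nat_lit 2) (nat_lit 4) (nat_lit 364) (nat_lit 286) (nat_lit 130))) (XT.nd (nat_lit 78) (nat_lit 0) (nat_lit 0) (XT.lf (nat_lit 0) (nat_lit 1796284159400) (nat_lit 152) (nat_lit 124212501189) (nat_lit 0) (nat_lit 1693567629001) (nat_lit 2) (nat_lit 5) (nat_lit 4) (nat_lit 4) (nat_lit 2) (nat_lit 4) (nat_lit 365) (nat_lit 286) (nat_lit 129)) (XT.lf (nat_lit 0) (nat_lit 1994825791039) (nat_lit 152) (nat_lit 11180954248) (nat_lit 0) (nat_lit 1892109217609) (nat_lit 2) (nat_lit 5) (nat_lit 4) (nat_lit 4) (nat_lit 2)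 (nat_lit 4) (nat_lit 366) (nat_lit 286) (nat_lit 128)))) (XT.nd (nat_lit 34476) (nat_lit 0) (nat_lit 3344) (XT.nd (nat_lit 34398) (nat_lit 0) (nat_lit 3344) (XT.lf (nat_lit 0) (nat_lit 116732447004) (nat_lit 76) (nat_lit 2095325673487) (nat_lit 76) (nat_lit 1992609060214) (nat_lit 1) (nat_lit 4) (nat_lit 2) (nat_lit 5) (nat_lit 2) (nat_lit 4) (nat_lit 367) (nat_lit 286) (nat_lit 127)) (XT.lf (nat_lit 0) (nat_lit 10259962062) (nat_lit 532) (nat_lit 3035176074) (nat_lit 532) (nat_lit 3035176074) (nat_lit 45) (nat_lit 3) (nat_lit 52) (nat_lit 3) (nat_lit 52) (nat_lit 5) (nat_lit 287) (nat_lit 287) (nat_lit 206))) (XT.nd (nat_lit 78) (nat_lit 0) (nat_lit 76) (XT.lf (nat_lit 76) (nat_lit 9389208598) (nat_lit 0) (nat_lit 12233621219) (nat_lit 532) (nat_lit 12321493048) (nat_lit 46) (nat_lit 5) (nat_lit 45) (nat_lit 3) (nat_lit 52) (nat_lit 5) (nat_lit 288) (nat_lit 287) (nat_lit 205)) (XT.lf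 (nat_lit 0) (nat_lit 23057284809) (nat_lit 456) (nat_lit 8973410028) (nat_lit 532) (nat_lit 3280568885) (nat_lit 46) (nat_lit 5) (nat_lit 52) (nat_lit 5) (nat_lit 53) (nat_lit 5) (nat_lit 289) (nat_lit 287) (nat_lit 204))))))))
noncomputable def xc91 : XT := (XT.nd (nat_lit 2496) (nat_lit 836) (nat_lit 0) (XT.nd (nat_lit 1248) (nat_lit 1064) (nat_lit 0) (XT.nd (nat_lit 624) (nat_lit 836) (nat_lit 0) (XT.nd (nat_lit 312) (nat_lit 608) (nat_lit 0) (XT.nd (nat_lit 156) (nat_lit 0) (nat_lit 76) (XT.nd (nat_lit 78) (nat_lit 0) (nat_lit 0) (XT.lf (nat_lit 76) (nat_lit 7930314544) (nat_lit 0) (nat_lit 17179431190) (nat_lit 532) (nat_lit 11637569158) (nat_lit 47) (nat_lit 5) (nat_lit 46) (nat_lit 5) (nat_lit 53) (nat_lit 5) (nat_lit 290) (nat_lit 287) (nat_lit 203)) (XT.lf (nat_lit 76) (nat_lit 26693284549) (nat_lit 0) (nat_lit 873543043) (nat_lit 532) (nat_lit 10712202534) (nat_lit 47) (nat_lit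 5) (nat_lit 46) (nat_lit 5) (nat_lit 53) (nat_lit 5) (nat_lit 291) (nat_lit 287) (nat_lit 202))) (XT.nd (nat_lit 78) (nat_lit 0) (nat_lit 0) (XT.lf (nat_lit 76) (nat_lit 6966438007) (nat_lit 0) (nat_lit 23819576194) (nat_lit 532) (nat_lit 9102038188) (nat_lit 48) (nat_lit 5) (nat_lit 47) (nat_lit 5) (nat_lit 54) (nat_lit 5) (nat_lit 292) (nat_lit 287) (nat_lit 201)) (XT.lf (nat_lit 76) (nat_lit 27634353127) (nat_lit 0) (nat_lit 6962999058) (nat_lit 532) (nat_lit 7001686845) (nat_lit 48) (nat_lit 5) (nat_lit 47) (nat_lit 5) (nat_lit 54) (nat_lit 5) (nat_lit 293) (nat_lit 287) (nat_lit 200)))) (XT.nd (nat_lit 156) (nat_lit 304) (nat_lit 0) (XT.nd (nat_lit 78) (nat_lit 0) (nat_lit 0) (XT.lf (nat_lit 0) (nat_lit 6563201012) (nat_lit 456) (nat_lit 32574675700) (nat_lit 532) (nat_lit 4275096559) (nat_lit 42) (nat_lit 5) (nat_lit 48) (nat_lit 5) (nat_lit 49) (nat_lit 5) (nat_lit 294) (nat_lit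 287) (nat_lit 199)) (XT.lf (nat_lit 0) (nat_lit 29333670994) (nat_lit 456) (nat_lit 15262340154) (nat_lit 532) (nat_lit 731671885) (nat_lit 42) (nat_lit 5) (nat_lit 48) (nat_lit 5) (nat_lit 49) (nat_lit 5) (nat_lit 295) (nat_lit 287) (nat_lit 198))) (XT.nd (nat_lit 78) (nat_lit 0) (nat_lit 0) (XT.lf (nat_lit 0) (nat_lit 3188981809) (nat_lit 304) (nat_lit 40673482754) (nat_lit 76) (nat_lit 3507271277) (nat_lit 38) (nat_lit 5) (nat_lit 42) (nat_lit 5) (nat_lit 39) (nat_lit 5) (nat_lit 296) (nat_lit 287) (nat_lit 197)) (XT.lf (nat_lit 0) (nat_lit 8225479090) (nat_lit 304) (nat_lit 17859207519) (nat_lit 76) (nat_lit 23421616369) (nat_lit 38) (nat_lit 5) (nat_lit 42) (nat_lit 5) (nat_lit 39) (nat_lit 5) (nat_lit 297) (nat_lit 287) (nat_lit 196))))) (XT.nd (nat_lit 312) (nat_lit 380) (nat_lit 0) (XT.nd (nat_lit 156) (nat_lit 228) (nat_lit 0) (XT.nd (nat_lit 78) (nat_lit 0) (nat_lit 0) (XT.lf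 (nat_lit 0) (nat_lit 7133749684) (nat_lit 228) (nat_lit 6699595694) (nat_lit 304) (nat_lit 37966981678) (nat_lit 35) (nat_lit 5) (nat_lit 38) (nat_lit 5) (nat_lit 39) (nat_lit 5) (nat_lit 298) (nat_lit 287) (nat_lit 195)) (XT.lf (nat_lit 0) (nat_lit 20730238947) (nat_lit 304) (nat_lit 19455535721) (nat_lit 76) (nat_lit 14024873505) (nat_lit 35) (nat_lit 5) (nat_lit 39) (nat_lit 5) (nat_lit 36) (nat_lit 5) (nat_lit 299) (nat_lit 287) (nat_lit 194))) (XT.nd (nat_lit 78) (nat_lit 0) (nat_lit 0) (XT.lf (nat_lit 0) (nat_lit 7995105926) (nat_lit 228) (nat_lit 20547325109) (nat_lit 304) (nat_lit 28242286619) (nat_lit 32) (nat_lit 5) (nat_lit 35) (nat_lit 5) (nat_lit 36) (nat_lit 5) (nat_lit 300) (nat_lit 287) (nat_lit 193)) (XT.lf (nat_lit 0) (nat_lit 37538655273) (nat_lit 304) (nat_lit 20806984611) (nat_lit 76) (nat_lit 1174354225) (nat_lit 32) (nat_lit 5) (nat_lit 36) (nat_lit 5) (nat_lit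 33) (nat_lit 5) (nat_lit 301) (nat_lit 287) (nat_lit 192)))) (XT.nd (nat_lit 156) (nat_lit 228) (nat_lit 0) (XT.nd (nat_lit 78) (nat_lit 0) (nat_lit 0) (XT.lf (nat_lit 0) (nat_lit 9344937252) (nat_lit 152) (nat_lit 38665643262) (nat_lit 228) (nat_lit 14403037441) (nat_lit 30) (nat_lit 5) (nat_lit 32) (nat_lit 5) (nat_lit 33) (nat_lit 5) (nat_lit 302) (nat_lit 287) (nat_lit 191)) (XT.lf (nat_lit 0) (nat_lit 43089312475) (nat_lit 152) (nat_lit 16797515747) (nat_lit 228) (nat_lit 5606583117) (nat_lit 30) (nat_lit 5) (nat_lit 32) (nat_lit 5) (nat_lit 33) (nat_lit 5) (nat_lit 303) (nat_lit 287) (nat_lit 190))) (XT.nd (nat_lit 78) (nat_lit 0) (nat_lit 0) (XT.lf (nat_lit 0) (nat_lit 4138802341) (nat_lit 228) (nat_lit 57788019553) (nat_lit 76) (nat_lit 6850080388) (nat_lit 27) (nat_lit 5) (nat_lit 30) (nat_lit 5) (nat_lit 28) (nat_lit 5) (nat_lit 304) (nat_lit 287) (nat_lit 189)) (XT.lf (nat_lit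 0) (nat_lit 15423555013) (nat_lit 228) (nat_lit 24547452007) (nat_lit 76) (nat_lit 32255408493) (nat_lit 27) (nat_lit 5) (nat_lit 30) (nat_lit 5) (nat_lit 28) (nat_lit 5) (nat_lit 305) (nat_lit 287) (nat_lit 188)))))) (XT.nd (nat_lit 624) (nat_lit 456) (nat_lit 0) (XT.nd (nat_lit 312) (nat_lit 304) (nat_lit 0) (XT.nd (nat_lit 156) (nat_lit 152) (nat_lit 0) (XT.nd (nat_lit 78) (nat_lit 0) (nat_lit 0) (XT.lf (nat_lit 0) (nat_lit 11947238691) (nat_lit 152) (nat_lit 15949198884) (nat_lit 228) (nat_lit 48032628010) (nat_lit 25) (nat_lit 5) (nat_lit 27) (nat_lit 5) (nat_lit 28) (nat_lit 5) (nat_lit 306) (nat_lit 287) (nat_lit 187)) (XT.lf (nat_lit 0) (nat_lit 42294199891) (nat_lit 228) (nat_lit 27377329008) (nat_lit 76) (nat_lit 10182238309) (nat_lit 25) (nat_lit 5) (nat_lit 28) (nat_lit 5) (nat_lit 26) (nat_lit 5) (nat_lit 307) (nat_lit 287) (nat_lit 186))) (XT.nd (nat_lit 78) (nat_lit 0)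 (nat_lit 0) (XT.lf (nat_lit 0) (nat_lit 12356772240) (nat_lit 152) (nat_lit 46196679534) (nat_lit 228) (nat_lit 25482222919) (nat_lit 23) (nat_lit 5) (nat_lit 25) (nat_lit 5) (nat_lit 26) (nat_lit 5) (nat_lit 308) (nat_lit 287) (nat_lit 185)) (XT.lf (nat_lit 0) (nat_lit 56824013708) (nat_lit 152) (nat_lit 20036267840) (nat_lit 228) (nat_lit 11632109191) (nat_lit 23) (nat_lit 5) (nat_lit 25) (nat_lit 5) (nat_lit 26) (nat_lit 5) (nat_lit 309) (nat_lit 287) (nat_lit 184)))) (XT.nd (nat_lit 156) (nat_lit 152) (nat_lit 0) (XT.nd (nat_lit 78) (nat_lit 0) (nat_lit 0) (XT.lf (nat_lit 0) (nat_lit 3655361239) (nat_lit 152) (nat_lit 81419346045) (nat_lit 76) (nat_lit 8184881822) (nat_lit 21) (nat_lit 5) (nat_lit 23) (nat_lit 5) (nat_lit 22) (nat_lit 5) (nat_lit 310) (nat_lit 287) (nat_lit 183)) (XT.lf (nat_lit 0) (nat_lit 20944593870) (nat_lit 152) (nat_lit 38555881887) (nat_lit 76) (nat_lit 38770943289)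 (nat_lit 21) (nat_lit 5) (nat_lit 23) (nat_lit 5) (nat_lit 22) (nat_lit 5) (nat_lit 311) (nat_lit 287) (nat_lit 182))) (XT.nd (nat_lit 78) (nat_lit 0) (nat_lit 0) (XT.lf (nat_lit 0) (nat_lit 8141617406) (nat_lit 152) (nat_lit 31669689340) (nat_lit 228) (nat_lit 63857343494) (nat_lit 19) (nat_lit 5) (nat_lit 21) (nat_lit 5) (nat_lit 22) (nat_lit 5) (nat_lit 312) (nat_lit 287) (nat_lit 181)) (XT.lf (nat_lit 0) (nat_lit 60765363837) (nat_lit 152) (nat_lit 474768621) (nat_lit 228) (nat_lit 48173307436) (nat_lit 19) (nat_lit 5) (nat_lit 21) (nat_lit 5) (nat_lit 22) (nat_lit 5) (nat_lit 313) (nat_lit 287) (nat_lit 180))))) (XT.nd (nat_lit 312) (nat_lit 152) (nat_lit 0) (XT.nd (nat_lit 156) (nat_lit 228) (nat_lit 0) (XT.nd (nat_lit 78) (nat_lit 0) (nat_lit 0) (XT.lf (nat_lit 0) (nat_lit 1242323850) (nat_lit 76) (nat_lit 83968332996) (nat_lit 152) (nat_lit 30340966345) (nat_lit 18) (nat_lit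 5) (nat_lit 19) (nat_lit 5) (nat_lit 20) (nat_lit 4) (nat_lit 314) (nat_lit 287) (nat_lit 179)) (XT.lf (nat_lit 0) (nat_lit 57875509122) (nat_lit 76) (nat_lit 54564180380) (nat_lit 152) (nat_lit 9633904083) (nat_lit 18) (nat_lit 5) (nat_lit 19) (nat_lit 5) (nat_lit 20) (nat_lit 4) (nat_lit 315) (nat_lit 287) (nat_lit 178))) (XT.nd (nat_lit 78) (nat_lit 152) (nat_lit 0) (XT.lf (nat_lit 0) (nat_lit 12091715485) (nat_lit 152) (nat_lit 10386155446) (nat_lit 76) (nat_lit 106615057388) (nat_lit 17) (nat_lit 5) (nat_lit 19) (nat_lit 5) (nat_lit 18) (nat_lit 5) (nat_lit 316) (nat_lit 287) (nat_lit 177)) (XT.lf (nat_lit 0) (nat_lit 36566287599) (nat_lit 228) (nat_lit 86909488663) (nat_lit 76) (nat_lit 13055505727) (nat_lit 15) (nat_lit 5) (nat_lit 18) (nat_lit 5) (nat_lit 16) (nat_lit 4) (nat_lit 317) (nat_lit 287) (nat_lit 176)))) (XT.nd (nat_lit 156) (nat_lit 76) (nat_lit 0) (XT.nd (nat_lit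 78) (nat_lit 76) (nat_lit 0) (XT.lf (nat_lit 0) (nat_lit 63872914071) (nat_lit 228) (nat_lit 30114059644) (nat_lit 76) (nat_lit 50507804427) (nat_lit 15) (nat_lit 5) (nat_lit 18) (nat_lit 5) (nat_lit 16) (nat_lit 4) (nat_lit 318) (nat_lit 287) (nat_lit 175)) (XT.lf (nat_lit 0) (nat_lit 32867400449) (nat_lit 76) (nat_lit 61286109663) (nat_lit 152) (nat_lit 58878689906) (nat_lit 14) (nat_lit 5) (nat_lit 15) (nat_lit 5) (nat_lit 16) (nat_lit 4) (nat_lit 319) (nat_lit 287) (nat_lit 174))) (XT.nd (nat_lit 78) (nat_lit 76) (nat_lit 0) (XT.lf (nat_lit 0) (nat_lit 102598271528) (nat_lit 76) (nat_lit 25080666128) (nat_lit 152) (nat_lit 34507888376) (nat_lit 14) (nat_lit 5) (nat_lit 15) (nat_lit 5) (nat_lit 16) (nat_lit 4) (nat_lit 320) (nat_lit 287) (nat_lit 173)) (XT.lf (nat_lit 0) (nat_lit 5784283279) (nat_lit 76) (nat_lit 158577507747) (nat_lit 76) (nat_lit 7674000788) (nat_lit 13) (nat_lit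 4) (nat_lit 14) (nat_lit 5) (nat_lit 14) (nat_lit 4) (nat_lit 321) (nat_lit 287) (nat_lit 172))))))) (XT.nd (nat_lit 1248) (nat_lit 304) (nat_lit 0) (XT.nd (nat_lit 624) (nat_lit 228) (nat_lit 0) (XT.nd (nat_lit 312) (nat_lit 152) (nat_lit 0) (XT.nd (nat_lit 156) (nat_lit 76) (nat_lit 0) (XT.nd (nat_lit 78) (nat_lit 0) (nat_lit 0) (XT.lf (nat_lit 0) (nat_lit 22562851370) (nat_lit 152) (nat_lit 103974378231) (nat_lit 76) (nat_lit 55908684522) (nat_lit 12) (nat_lit 5) (nat_lit 14) (nat_lit 5) (nat_lit 13) (nat_lit 4) (nat_lit 322) (nat_lit 287) (nat_lit 171)) (XT.lf (nat_lit 0) (nat_lit 54803199825) (nat_lit 152) (nat_lit 36915936893) (nat_lit 76) (nat_lit 101953832850) (nat_lit 12) (nat_lit 5) (nat_lit 14) (nat_lit 5) (nat_lit 13) (nat_lit 4) (nat_lit 323) (nat_lit 287) (nat_lit 170))) (XT.nd (nat_lit 78) (nat_lit 0) (nat_lit 0) (XT.lf (nat_lit 0) (nat_lit 37375429071) (nat_lit 76) (nat_lit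 53145433987) (nat_lit 152) (nat_lit 115205480183) (nat_lit 11) (nat_lit 5) (nat_lit 12) (nat_lit 5) (nat_lit 13) (nat_lit 4) (nat_lit 324) (nat_lit 287) (nat_lit 169)) (XT.lf (nat_lit 0) (nat_lit 119708161316) (nat_lit 76) (nat_lit 10396357541) (nat_lit 152) (nat_lit 88558782282) (nat_lit 11) (nat_lit 5) (nat_lit 12) (nat_lit 5) (nat_lit 13) (nat_lit 4) (nat_lit 325) (nat_lit 287) (nat_lit 168)))) (XT.nd (nat_lit 156) (nat_lit 76) (nat_lit 0) (XT.nd (nat_lit 78) (nat_lit 76) (nat_lit 0) (XT.lf (nat_lit 0) (nat_lit 173714475578) (nat_lit 152) (nat_lit 24869362697) (nat_lit 0) (nat_lit 33982609358) (nat_lit 11) (nat_lit 5) (nat_lit 13) (nat_lit 4) (nat_lit 11) (nat_lit 4) (nat_lit 326) (nat_lit 287) (nat_lit 167)) (XT.lf (nat_lit 0) (nat_lit 57761476362) (nat_lit 76) (nat_lit 164710281780) (nat_lit 76) (nat_lit 24977405951) (nat_lit 10) (nat_lit 4) (nat_lit 11) (nat_lit 5) (nat_lit 11)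 (nat_lit 4) (nat_lit 327) (nat_lit 287) (nat_lit 166))) (XT.nd (nat_lit 78) (nat_lit 0) (nat_lit 0) (XT.lf (nat_lit 0) (nat_lit 11723456745) (nat_lit 152) (nat_lit 115349020622) (nat_lit 76) (nat_lit 136371931540) (nat_lit 9) (nat_lit 5) (nat_lit 11) (nat_lit 5) (nat_lit 10) (nat_lit 4) (nat_lit 328) (nat_lit 287) (nat_lit 165)) (XT.lf (nat_lit 0) (nat_lit 50010341861) (nat_lit 152) (nat_lit 35713165158) (nat_lit 76) (nat_lit 194943915088) (nat_lit 9) (nat_lit 5) (nat_lit 11) (nat_lit 5) (nat_lit 10) (nat_lit 4) (nat_lit 329) (nat_lit 287) (nat_lit 164))))) (XT.nd (nat_lit 312) (nat_lit 76) (nat_lit 0) (XT.nd (nat_lit 156) (nat_lit 76) (nat_lit 0) (XT.nd (nat_lit 78) (nat_lit 0) (nat_lit 0) (XT.lf (nat_lit 0) (nat_lit 52940816088) (nat_lit 76) (nat_lit 39692017459) (nat_lit 152) (nat_lit 206533630791) (nat_lit 8) (nat_lit 5) (nat_lit 9) (nat_lit 5) (nat_lit 10) (nat_lit 4) (nat_lit 330)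 (nat_lit 287) (nat_lit 163)) (XT.lf (nat_lit 0) (nat_lit 139907411590) (nat_lit 152) (nat_lit 168616612895) (nat_lit 0) (nat_lit 10522022902) (nat_lit 8) (nat_lit 5) (nat_lit 10) (nat_lit 4) (nat_lit 8) (nat_lit 4) (nat_lit 331) (nat_lit 287) (nat_lit 162))) (XT.nd (nat_lit 78) (nat_lit 76) (nat_lit 0) (XT.lf (nat_lit 0) (nat_lit 191994393331) (nat_lit 152) (nat_lit 85830800710) (nat_lit 0) (nat_lit 62608368417) (nat_lit 8) (nat_lit 5) (nat_lit 10) (nat_lit 4) (nat_lit 8) (nat_lit 4) (nat_lit 332) (nat_lit 287) (nat_lit 161)) (XT.lf (nat_lit 0) (nat_lit 3765321498) (nat_lit 76) (nat_lit 244573082962) (nat_lit 76) (nat_lit 115186468951) (nat_lit 7) (nat_lit 4) (nat_lit 8) (nat_lit 5) (nat_lit 8) (nat_lit 4) (nat_lit 333) (nat_lit 287) (nat_lit 160)))) (XT.nd (nat_lit 156) (nat_lit 76) (nat_lit 0) (XT.nd (nat_lit 78) (nat_lit 0) (nat_lit 0) (XT.lf (nat_lit 0) (nat_lit 105409518671) (nat_lit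 76) (nat_lit 206126713359) (nat_lit 76) (nat_lit 76739553887) (nat_lit 7) (nat_lit 4) (nat_lit 8) (nat_lit 5) (nat_lit 8) (nat_lit 4) (nat_lit 334) (nat_lit 287) (nat_lit 159)) (XT.lf (nat_lit 0) (nat_lit 215184428930) (nat_lit 76) (nat_lit 164605021090) (nat_lit 76) (nat_lit 35217356563) (nat_lit 7) (nat_lit 4) (nat_lit 8) (nat_lit 5) (nat_lit 8) (nat_lit 4) (nat_lit 335) (nat_lit 287) (nat_lit 158))) (XT.nd (nat_lit 78) (nat_lit 0) (nat_lit 0) (XT.lf (nat_lit 0) (nat_lit 9144639954) (nat_lit 152) (nat_lit 110367281067) (nat_lit 76) (nat_lit 324345899646) (nat_lit 6) (nat_lit 5) (nat_lit 8) (nat_lit 5) (nat_lit 7) (nat_lit 4) (nat_lit 336) (nat_lit 287) (nat_lit 157)) (XT.lf (nat_lit 0) (nat_lit 55152560641) (nat_lit 152) (nat_lit 14671239043) (nat_lit 76) (nat_lit 405119968192) (nat_lit 6) (nat_lit 5) (nat_lit 8) (nat_lit 5) (nat_lit 7) (nat_lit 4) (nat_lit 337) (nat_lit 287) (nat_lit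 156)))))) (XT.nd (nat_lit 624) (nat_lit 152) (nat_lit 0) (XT.nd (nat_lit 312) (nat_lit 76) (nat_lit 0) (XT.nd (nat_lit 156) (nat_lit 0) (nat_lit 0) (XT.nd (nat_lit 78) (nat_lit 0) (nat_lit 0) (XT.lf (nat_lit 0) (nat_lit 93349536217) (nat_lit 76) (nat_lit 13736282207) (nat_lit 152) (nat_lit 401251196378) (nat_lit 5) (nat_lit 5) (nat_lit 6) (nat_lit 5) (nat_lit 7) (nat_lit 4) (nat_lit 338) (nat_lit 287) (nat_lit 155)) (XT.lf (nat_lit 0) (nat_lit 164711402326) (nat_lit 152) (nat_lit 334660845773) (nat_lit 0) (nat_lit 44906460347) (nat_lit 5) (nat_lit 5) (nat_lit 7) (nat_lit 4) (nat_lit 5) (nat_lit 4) (nat_lit 339) (nat_lit 287) (nat_lit 154))) (XT.nd (nat_lit 78) (nat_lit 0) (nat_lit 0) (XT.lf (nat_lit 0) (nat_lit 227303493510) (nat_lit 152) (nat_lit 248265494151) (nat_lit 0) (nat_lit 107498233260) (nat_lit 5) (nat_lit 5) (nat_lit 7) (nat_lit 4) (nat_lit 5) (nat_lit 4) (nat_lit 340) (nat_lit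 287) (nat_lit 153)) (XT.lf (nat_lit 0) (nat_lit 294902650155) (nat_lit 152) (nat_lit 154959093349) (nat_lit 0) (nat_lit 175097095209) (nat_lit 5) (nat_lit 5) (nat_lit 7) (nat_lit 4) (nat_lit 5) (nat_lit 4) (nat_lit 341) (nat_lit 287) (nat_lit 152)))) (XT.nd (nat_lit 156) (nat_lit 0) (nat_lit 0) (XT.nd (nat_lit 78) (nat_lit 76) (nat_lit 0) (XT.lf (nat_lit 0) (nat_lit 367909459856) (nat_lit 152) (nat_lit 54188716548) (nat_lit 0) (nat_lit 248103632044) (nat_lit 5) (nat_lit 5) (nat_lit 7) (nat_lit 4) (nat_lit 5) (nat_lit 4) (nat_lit 342) (nat_lit 287) (nat_lit 151)) (XT.lf (nat_lit 0) (nat_lit 57520186739) (nat_lit 76) (nat_lit 390619730694) (nat_lit 76) (nat_lit 270813650229) (nat_lit 4) (nat_lit 4) (nat_lit 5) (nat_lit 5) (nat_lit 5) (nat_lit 4) (nat_lit 343) (nat_lit 287) (nat_lit 150))) (XT.nd (nat_lit 78) (nat_lit 0) (nat_lit 0) (XT.lf (nat_lit 0) (nat_lit 181247078825) (nat_lit 76)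 (nat_lit 355023097093) (nat_lit 76) (nat_lit 235216782688) (nat_lit 4) (nat_lit 4) (nat_lit 5) (nat_lit 5) (nat_lit 5) (nat_lit 4) (nat_lit 344) (nat_lit 287) (nat_lit 149)) (XT.lf (nat_lit 0) (nat_lit 314871674325) (nat_lit 76) (nat_lit 316578948126) (nat_lit 76) (nat_lit 196772417112) (nat_lit 4) (nat_lit 4) (nat_lit 5) (nat_lit 5) (nat_lit 5) (nat_lit 4) (nat_lit 345) (nat_lit 287) (nat_lit 148))))) (XT.nd (nat_lit 312) (nat_lit 152) (nat_lit 0) (XT.nd (nat_lit 156) (nat_lit 0) (nat_lit 0) (XT.nd (nat_lit 78) (nat_lit 0) (nat_lit 0) (XT.lf (nat_lit 0) (nat_lit 459185822693) (nat_lit 76) (nat_lit 275059466616) (nat_lit 76) (nat_lit 155252735037) (nat_lit 4) (nat_lit 4) (nat_lit 5) (nat_lit 5) (nat_lit 5) (nat_lit 4) (nat_lit 346) (nat_lit 287) (nat_lit 147)) (XT.lf (nat_lit 0) (nat_lit 615044718882) (nat_lit 76) (nat_lit 230218611191) (nat_lit 76) (nat_lit 110411693904) (nat_lit 4)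 (nat_lit 4) (nat_lit 5) (nat_lit 5) (nat_lit 5) (nat_lit 4) (nat_lit 347) (nat_lit 287) (nat_lit 146))) (XT.nd (nat_lit 78) (nat_lit 0) (nat_lit 0) (XT.lf (nat_lit 0) (nat_lit 783371971166) (nat_lit 76) (nat_lit 181790658262) (nat_lit 76) (nat_lit 61983569024) (nat_lit 4) (nat_lit 4) (nat_lit 5) (nat_lit 5) (nat_lit 5) (nat_lit 4) (nat_lit 348) (nat_lit 287) (nat_lit 145)) (XT.lf (nat_lit 0) (nat_lit 965165074373) (nat_lit 76) (nat_lit 129488627369) (nat_lit 76) (nat_lit 9681378915) (nat_lit 4) (nat_lit 4) (nat_lit 5) (nat_lit 5) (nat_lit 5) (nat_lit 4) (nat_lit 349) (nat_lit 287) (nat_lit 144)))) (XT.nd (nat_lit 156) (nat_lit 0) (nat_lit 0) (XT.nd (nat_lit 78) (nat_lit 76) (nat_lit 0) (XT.lf (nat_lit 0) (nat_lit 44463448901) (nat_lit 152) (nat_lit 27323422159) (nat_lit 76) (nat_lit 1115822162577) (nat_lit 3) (nat_lit 5) (nat_lit 5) (nat_lit 5) (nat_lit 4) (nat_lit 4) (nat_lit 350) (nat_lit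 287) (nat_lit 143)) (XT.lf (nat_lit 0) (nat_lit 98127888422) (nat_lit 76) (nat_lit 6648756191) (nat_lit 152) (nat_lit 1172559354957) (nat_lit 2) (nat_lit 5) (nat_lit 3) (nat_lit 5) (nat_lit 4) (nat_lit 4) (nat_lit 351) (nat_lit 287) (nat_lit 142))) (XT.nd (nat_lit 78) (nat_lit 0) (nat_lit 0) (XT.lf (nat_lit 0) (nat_lit 172213218116) (nat_lit 152) (nat_lit 1140563838219) (nat_lit 0) (nat_lit 61280200741) (nat_lit 2) (nat_lit 5) (nat_lit 4) (nat_lit 4) (nat_lit 2) (nat_lit 4) (nat_lit 352) (nat_lit 287) (nat_lit 141)) (XT.lf (nat_lit 0) (nat_lit 245217274105) (nat_lit 152) (nat_lit 1099000988242) (nat_lit 0) (nat_lit 134284148371) (nat_lit 2) (nat_lit 5) (nat_lit 4) (nat_lit 4) (nat_lit 2) (nat_lit 4) (nat_lit 353) (nat_lit 287) (nat_lit 140))))))))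
noncomputable def xc92 : XT := (XT.nd (nat_lit 36894) (nat_lit 0) (nat_lit 304) (XT.nd (nat_lit 35646) (nat_lit 0) (nat_lit 1900) (XT.nd (nat_lit 546) (nat_lit 0) (nat_lit 0) (XT.nd (nat_lit 234) (nat_lit 0) (nat_lit 0) (XT.nd (nat_lit 78) (nat_lit 0) (nat_lit 0) (XT.lf (nat_lit 0) (nat_lit 324061526463) (nat_lit 152) (nat_lit 1054113360099) (nat_lit 0) (nat_lit 213128300397) (nat_lit 2) (nat_lit 5) (nat_lit 4) (nat_lit 4) (nat_lit 2) (nat_lit 4) (nat_lit 354) (nat_lit 287) (nat_lit 139)) (XT.nd (nat_lit 78) (nat_lit 0) (nat_lit 0) (XT.lf (nat_lit 0) (nat_lit 409213200388) (nat_lit 152) (nat_lit 1005634953033) (nat_lit 0) (nat_lit 298279881422) (nat_lit 2) (nat_lit 5) (nat_lit 4) (nat_lit 4) (nat_lit 2) (nat_lit 4) (nat_lit 355) (nat_lit 287) (nat_lit 138)) (XT.lf (nat_lit 0) (nat_lit 501176898394) (nat_lit 152) (nat_lit 953278487593) (nat_lit 0) (nat_lit 390243493408) (nat_lit 2) (nat_lit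 5) (nat_lit 4) (nat_lit 4) (nat_lit 2) (nat_lit 4) (nat_lit 356) (nat_lit 287) (nat_lit 137)))) (XT.nd (nat_lit 156) (nat_lit 0) (nat_lit 0) (XT.nd (nat_lit 78) (nat_lit 0) (nat_lit 0) (XT.lf (nat_lit 0) (nat_lit 600497590541) (nat_lit 152) (nat_lit 896733703244) (nat_lit 0) (nat_lit 489564105909) (nat_lit 2) (nat_lit 5) (nat_lit 4) (nat_lit 4) (nat_lit 2) (nat_lit 4) (nat_lit 357) (nat_lit 287) (nat_lit 136)) (XT.lf (nat_lit 0) (nat_lit 707763843896) (nat_lit 152) (nat_lit 835665519782) (nat_lit 0) (nat_lit 596830285516) (nat_lit 2) (nat_lit 5) (nat_lit 4) (nat_lit 4) (nat_lit 2) (nat_lit 4) (nat_lit 358) (nat_lit 287) (nat_lit 135))) (XT.nd (nat_lit 78) (nat_lit 0) (nat_lit 0) (XT.lf (nat_lit 0) (nat_lit 823611310328) (nat_lit 152) (nat_lit 769712051675) (nat_lit 0) (nat_lit 712677683664) (nat_lit 2) (nat_lit 5) (nat_lit 4) (nat_lit 4) (nat_lit 2) (nat_lit 4) (nat_lit 359) (nat_lit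 287) (nat_lit 134)) (XT.lf (nat_lit 0) (nat_lit 948726493344) (nat_lit 152) (nat_lit 698482463557) (nat_lit 0) (nat_lit 837792803454) (nat_lit 2) (nat_lit 5) (nat_lit 4) (nat_lit 4) (nat_lit 2) (nat_lit 4) (nat_lit 360) (nat_lit 287) (nat_lit 133))))) (XT.nd (nat_lit 312) (nat_lit 0) (nat_lit 0) (XT.nd (nat_lit 156) (nat_lit 0) (nat_lit 0) (XT.nd (nat_lit 78) (nat_lit 0) (nat_lit 0) (XT.lf (nat_lit 0) (nat_lit 1083850816250) (nat_lit 152) (nat_lit 621554654166) (nat_lit 0) (nat_lit 972917067817) (nat_lit 2) (nat_lit 5) (nat_lit 4) (nat_lit 4) (nat_lit 2) (nat_lit 4) (nat_lit 361) (nat_lit 287) (nat_lit 132)) (XT.lf (nat_lit 0) (nat_lit 1229785015775) (nat_lit 152) (nat_lit 538472755000) (nat_lit 0) (nat_lit 1118851213135) (nat_lit 2) (nat_lit 5) (nat_lit 4) (nat_lit 4) (nat_lit 2) (nat_lit 4) (nat_lit 362) (nat_lit 287) (nat_lit 131))) (XT.nd (nat_lit 78) (nat_lit 0) (nat_lit 0) (XT.lf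 (nat_lit 0) (nat_lit 1387393887174) (nat_lit 152) (nat_lit 448744428880) (nat_lit 0) (nat_lit 1276460034343) (nat_lit 2) (nat_lit 5) (nat_lit 4) (nat_lit 4) (nat_lit 2) (nat_lit 4) (nat_lit 363) (nat_lit 287) (nat_lit 130)) (XT.lf (nat_lit 0) (nat_lit 1557611408945) (nat_lit 152) (nat_lit 351837952391) (nat_lit 0) (nat_lit 1446677509641) (nat_lit 2) (nat_lit 5) (nat_lit 4) (nat_lit 4) (nat_lit 2) (nat_lit 4) (nat_lit 364) (nat_lit 287) (nat_lit 129)))) (XT.nd (nat_lit 34632) (nat_lit 0) (nat_lit 3268) (XT.nd (nat_lit 78) (nat_lit 0) (nat_lit 0) (XT.lf (nat_lit 0) (nat_lit 1741446277514) (nat_lit 152) (nat_lit 247179064933) (nat_lit 0) (nat_lit 1630512335179) (nat_lit 2) (nat_lit 5) (nat_lit 4) (nat_lit 4) (nat_lit 2) (nat_lit 4) (nat_lit 365) (nat_lit 287) (nat_lit 128)) (XT.lf (nat_lit 0) (nat_lit 1939987884693) (nat_lit 152) (nat_lit 134147565690) (nat_lit 0) (nat_lit 1829053902515)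 (nat_lit 2) (nat_lit 5) (nat_lit 4) (nat_lit 4) (nat_lit 2) (nat_lit 4) (nat_lit 366) (nat_lit 287) (nat_lit 127))) (XT.nd (nat_lit 78) (nat_lit 0) (nat_lit 0) (XT.lf (nat_lit 0) (nat_lit 11135703093) (nat_lit 532) (nat_lit 3248241314) (nat_lit 532) (nat_lit 3248241314) (nat_lit 45) (nat_lit 3) (nat_lit 52) (nat_lit 3) (nat_lit 52) (nat_lit 5) (nat_lit 288) (nat_lit 288) (nat_lit 204)) (XT.lf (nat_lit 76) (nat_lit 10198336707) (nat_lit 0) (nat_lit 13257462460) (nat_lit 532) (nat_lit 13195525311) (nat_lit 46) (nat_lit 5) (nat_lit 45) (nat_lit 3) (nat_lit 52) (nat_lit 5) (nat_lit 289) (nat_lit 288) (nat_lit 203)))))) (XT.nd (nat_lit 624) (nat_lit 836) (nat_lit 0) (XT.nd (nat_lit 312) (nat_lit 608) (nat_lit 0) (XT.nd (nat_lit 156) (nat_lit 0) (nat_lit 0) (XT.nd (nat_lit 78) (nat_lit 0) (nat_lit 0) (XT.lf (nat_lit 0) (nat_lit 24996364880) (nat_lit 456) (nat_lit 9628670299) (nat_lit 532)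 (nat_lit 3503298766) (nat_lit 46) (nat_lit 5) (nat_lit 52) (nat_lit 5) (nat_lit 53) (nat_lit 5) (nat_lit 290) (nat_lit 288) (nat_lit 202)) (XT.lf (nat_lit 76) (nat_lit 8625767111) (nat_lit 0) (nat_lit 18581723480) (nat_lit 532) (nat_lit 12472241266) (nat_lit 47) (nat_lit 5) (nat_lit 46) (nat_lit 5) (nat_lit 53) (nat_lit 5) (nat_lit 291) (nat_lit 288) (nat_lit 201))) (XT.nd (nat_lit 78) (nat_lit 0) (nat_lit 76) (XT.lf (nat_lit 76) (nat_lit 28885254168) (nat_lit 0) (nat_lit 969294814) (nat_lit 532) (nat_lit 11479981122) (nat_lit 47) (nat_lit 5) (nat_lit 46) (nat_lit 5) (nat_lit 53) (nat_lit 5) (nat_lit 292) (nat_lit 288) (nat_lit 200)) (XT.lf (nat_lit 76) (nat_lit 7586085446) (nat_lit 0) (nat_lit 25740006254) (nat_lit 532) (nat_lit 9746613969) (nat_lit 48) (nat_lit 5) (nat_lit 47) (nat_lit 5) (nat_lit 54) (nat_lit 5) (nat_lit 293) (nat_lit 288) (nat_lit 199)))) (XT.nd (nat_lit 156) (nat_lit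 304) (nat_lit 0) (XT.nd (nat_lit 78) (nat_lit 380) (nat_lit 0) (XT.lf (nat_lit 76) (nat_lit 29902816561) (nat_lit 0) (nat_lit 7533801913) (nat_lit 532) (nat_lit 7484426169) (nat_lit 48) (nat_lit 5) (nat_lit 47) (nat_lit 5) (nat_lit 54) (nat_lit 5) (nat_lit 294) (nat_lit 288) (nat_lit 198)) (XT.lf (nat_lit 0) (nat_lit 7150601452) (nat_lit 456) (nat_lit 35185681740) (nat_lit 532) (nat_lit 4544153334) (nat_lit 42) (nat_lit 5) (nat_lit 48) (nat_lit 5) (nat_lit 49) (nat_lit 5) (nat_lit 295) (nat_lit 288) (nat_lit 197))) (XT.nd (nat_lit 78) (nat_lit 304) (nat_lit 0) (XT.lf (nat_lit 0) (nat_lit 31738090931) (nat_lit 456) (nat_lit 16487986610) (nat_lit 532) (nat_lit 722658459) (nat_lit 42) (nat_lit 5) (nat_lit 48) (nat_lit 5) (nat_lit 49) (nat_lit 5) (nat_lit 296) (nat_lit 288) (nat_lit 196)) (XT.lf (nat_lit 0) (nat_lit 3504924048) (nat_lit 304) (nat_lit 43862606994) (nat_lit 76) (nat_lit 3786771308)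 (nat_lit 38) (nat_lit 5) (nat_lit 42) (nat_lit 5) (nat_lit 39) (nat_lit 5) (nat_lit 297) (nat_lit 288) (nat_lit 195))))) (XT.nd (nat_lit 312) (nat_lit 380) (nat_lit 0) (XT.nd (nat_lit 156) (nat_lit 228) (nat_lit 0) (XT.nd (nat_lit 78) (nat_lit 228) (nat_lit 0) (XT.lf (nat_lit 0) (nat_lit 8939835653) (nat_lit 304) (nat_lit 19227986360) (nat_lit 76) (nat_lit 25294344131) (nat_lit 38) (nat_lit 5) (nat_lit 42) (nat_lit 5) (nat_lit 39) (nat_lit 5) (nat_lit 298) (nat_lit 288) (nat_lit 194)) (XT.lf (nat_lit 0) (nat_lit 7762889502) (nat_lit 228) (nat_lit 7230675501) (nat_lit 304) (nat_lit 40946378490) (nat_lit 35) (nat_lit 5) (nat_lit 38) (nat_lit 5) (nat_lit 39) (nat_lit 5) (nat_lit 299) (nat_lit 288) (nat_lit 193))) (XT.nd (nat_lit 78) (nat_lit 228) (nat_lit 0) (XT.lf (nat_lit 0) (nat_lit 22438352088) (nat_lit 304) (nat_lit 20953893378) (nat_lit 76) (nat_lit 15151162772) (nat_lit 35) (nat_lit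 5) (nat_lit 39) (nat_lit 5) (nat_lit 36) (nat_lit 5) (nat_lit 300) (nat_lit 288) (nat_lit 192)) (XT.lf (nat_lit 0) (nat_lit 8691329090) (nat_lit 228) (nat_lit 22181870999) (nat_lit 304) (nat_lit 30450397357) (nat_lit 32) (nat_lit 5) (nat_lit 35) (nat_lit 5) (nat_lit 36) (nat_lit 5) (nat_lit 301) (nat_lit 288) (nat_lit 191)))) (XT.nd (nat_lit 156) (nat_lit 228) (nat_lit 0) (XT.nd (nat_lit 78) (nat_lit 152) (nat_lit 0) (XT.lf (nat_lit 0) (nat_lit 40585818803) (nat_lit 304) (nat_lit 22415719228) (nat_lit 76) (nat_lit 1276430239) (nat_lit 32) (nat_lit 5) (nat_lit 36) (nat_lit 5) (nat_lit 33) (nat_lit 5) (nat_lit 302) (nat_lit 288) (nat_lit 190)) (XT.lf (nat_lit 0) (nat_lit 10146943115) (nat_lit 152) (nat_lit 41746599004) (nat_lit 228) (nat_lit 15509703763) (nat_lit 30) (nat_lit 5) (nat_lit 32) (nat_lit 5) (nat_lit 33) (nat_lit 5) (nat_lit 303) (nat_lit 288) (nat_lit 189))) (XT.nd (nat_lit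 78) (nat_lit 228) (nat_lit 0) (XT.lf (nat_lit 0) (nat_lit 46586837920) (nat_lit 152) (nat_lit 18129932082) (nat_lit 228) (nat_lit 6012909143) (nat_lit 30) (nat_lit 5) (nat_lit 32) (nat_lit 5) (nat_lit 33) (nat_lit 5) (nat_lit 304) (nat_lit 288) (nat_lit 188)) (XT.lf (nat_lit 0) (nat_lit 4508568767) (nat_lit 228) (nat_lit 62356989888) (nat_lit 76) (nat_lit 7410329563) (nat_lit 27) (nat_lit 5) (nat_lit 30) (nat_lit 5) (nat_lit 28) (nat_lit 5) (nat_lit 305) (nat_lit 288) (nat_lit 187))))))) (XT.nd (nat_lit 1248) (nat_lit 608) (nat_lit 0) (XT.nd (nat_lit 624) (nat_lit 380) (nat_lit 0) (XT.nd (nat_lit 312) (nat_lit 304) (nat_lit 0) (XT.nd (nat_lit 156) (nat_lit 152) (nat_lit 0) (XT.nd (nat_lit 78) (nat_lit 152) (nat_lit 0) (XT.lf (nat_lit 0) (nat_lit 16693237784) (nat_lit 228) (nat_lit 26461182214) (nat_lit 76) (nat_lit 34847177047) (nat_lit 27) (nat_lit 5) (nat_lit 30) (nat_lit 5) (nat_lit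 28) (nat_lit 5) (nat_lit 306) (nat_lit 288) (nat_lit 186)) (XT.lf (nat_lit 0) (nat_lit 12951816247) (nat_lit 152) (nat_lit 17210656577) (nat_lit 228) (nat_lit 51838109574) (nat_lit 25) (nat_lit 5) (nat_lit 27) (nat_lit 5) (nat_lit 28) (nat_lit 5) (nat_lit 307) (nat_lit 288) (nat_lit 185))) (XT.nd (nat_lit 78) (nat_lit 152) (nat_lit 0) (XT.lf (nat_lit 0) (nat_lit 45709836293) (nat_lit 228) (nat_lit 29520053575) (nat_lit 76) (nat_lit 11009552521) (nat_lit 25) (nat_lit 5) (nat_lit 28) (nat_lit 5) (nat_lit 26) (nat_lit 5) (nat_lit 308) (nat_lit 288) (nat_lit 184)) (XT.lf (nat_lit 0) (nat_lit 13391574209) (nat_lit 152) (nat_lit 49876988868) (nat_lit 228) (nat_lit 27487444925) (nat_lit 23) (nat_lit 5) (nat_lit 25) (nat_lit 5) (nat_lit 26) (nat_lit 5) (nat_lit 309) (nat_lit 288) (nat_lit 183)))) (XT.nd (nat_lit 156) (nat_lit 152) (nat_lit 0) (XT.nd (nat_lit 78) (nat_lit 152) (nat_lit 0) (XT.lf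 (nat_lit 0) (nat_lit 61412768314) (nat_lit 152) (nat_lit 21624886833) (nat_lit 228) (nat_lit 12531792901) (nat_lit 23) (nat_lit 5) (nat_lit 25) (nat_lit 5) (nat_lit 26) (nat_lit 5) (nat_lit 310) (nat_lit 288) (nat_lit 182)) (XT.lf (nat_lit 0) (nat_lit 3976361162) (nat_lit 152) (nat_lit 87887657295) (nat_lit 76) (nat_lit 8854009345) (nat_lit 21) (nat_lit 5) (nat_lit 23) (nat_lit 5) (nat_lit 22) (nat_lit 5) (nat_lit 311) (nat_lit 288) (nat_lit 181))) (XT.nd (nat_lit 78) (nat_lit 152) (nat_lit 0) (XT.lf (nat_lit 0) (nat_lit 22646616031) (nat_lit 152) (nat_lit 41598466851) (nat_lit 76) (nat_lit 41885893731) (nat_lit 21) (nat_lit 5) (nat_lit 23) (nat_lit 5) (nat_lit 22) (nat_lit 5) (nat_lit 312) (nat_lit 288) (nat_lit 180)) (XT.lf (nat_lit 0) (nat_lit 8833771991) (nat_lit 152) (nat_lit 34187916189) (nat_lit 228) (nat_lit 68938379275) (nat_lit 19) (nat_lit 5) (nat_lit 21) (nat_lit 5) (nat_lit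 22) (nat_lit 5) (nat_lit 313) (nat_lit 288) (nat_lit 179))))) (XT.nd (nat_lit 312) (nat_lit 228) (nat_lit 0) (XT.nd (nat_lit 156) (nat_lit 76) (nat_lit 0) (XT.nd (nat_lit 78) (nat_lit 76) (nat_lit 0) (XT.lf (nat_lit 0) (nat_lit 65664394048) (nat_lit 152) (nat_lit 498538724) (nat_lit 228) (nat_lit 52001661200) (nat_lit 19) (nat_lit 5) (nat_lit 21) (nat_lit 5) (nat_lit 22) (nat_lit 5) (nat_lit 314) (nat_lit 288) (nat_lit 178)) (XT.lf (nat_lit 0) (nat_lit 1380093219) (nat_lit 76) (nat_lit 90670498095) (nat_lit 152) (nat_lit 32743283754) (nat_lit 18) (nat_lit 5) (nat_lit 19) (nat_lit 5) (nat_lit 20) (nat_lit 4) (nat_lit 315) (nat_lit 288) (nat_lit 177))) (XT.nd (nat_lit 78) (nat_lit 76) (nat_lit 0) (XT.lf (nat_lit 0) (nat_lit 62541090094) (nat_lit 76) (nat_lit 58915146717) (nat_lit 152) (nat_lit 10381505393) (nat_lit 18) (nat_lit 5) (nat_lit 19) (nat_lit 5) (nat_lit 20) (nat_lit 4) (nat_lit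 316) (nat_lit 288) (nat_lit 176)) (XT.lf (nat_lit 0) (nat_lit 13079381345) (nat_lit 152) (nat_lit 11183044836) (nat_lit 76) (nat_lit 115156285169) (nat_lit 17) (nat_lit 5) (nat_lit 19) (nat_lit 5) (nat_lit 18) (nat_lit 5) (nat_lit 317) (nat_lit 288) (nat_lit 175)))) (XT.nd (nat_lit 156) (nat_lit 76) (nat_lit 0) (XT.nd (nat_lit 78) (nat_lit 0) (nat_lit 0) (XT.lf (nat_lit 0) (nat_lit 39511535687) (nat_lit 228) (nat_lit 93827838073) (nat_lit 76) (nat_lit 14112792084) (nat_lit 15) (nat_lit 5) (nat_lit 18) (nat_lit 5) (nat_lit 16) (nat_lit 4) (nat_lit 318) (nat_lit 288) (nat_lit 174)) (XT.lf (nat_lit 0) (nat_lit 69001214864) (nat_lit 228) (nat_lit 32491323599) (nat_lit 76) (nat_lit 54560323133) (nat_lit 15) (nat_lit 5) (nat_lit 18) (nat_lit 5) (nat_lit 16) (nat_lit 4) (nat_lit 319) (nat_lit 288) (nat_lit 173))) (XT.nd (nat_lit 78) (nat_lit 0) (nat_lit 0) (XT.lf (nat_lit 0) (nat_lit 35527846699)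 (nat_lit 76) (nat_lit 66175790768) (nat_lit 152) (nat_lit 63569691027) (nat_lit 14) (nat_lit 5) (nat_lit 15) (nat_lit 5) (nat_lit 16) (nat_lit 4) (nat_lit 320) (nat_lit 288) (nat_lit 172)) (XT.lf (nat_lit 0) (nat_lit 110834887153) (nat_lit 76) (nat_lit 27074890096) (nat_lit 152) (nat_lit 37250654565) (nat_lit 14) (nat_lit 5) (nat_lit 15) (nat_lit 5) (nat_lit 16) (nat_lit 4) (nat_lit 321) (nat_lit 288) (nat_lit 171)))))) (XT.nd (nat_lit 624) (nat_lit 228) (nat_lit 0) (XT.nd (nat_lit 312) (nat_lit 152) (nat_lit 0) (XT.nd (nat_lit 156) (nat_lit 76) (nat_lit 0) (XT.nd (nat_lit 78) (nat_lit 76) (nat_lit 0) (XT.lf (nat_lit 0) (nat_lit 6276071597) (nat_lit 76) (nat_lit 171250934126) (nat_lit 76) (nat_lit 8270330746) (nat_lit 13) (nat_lit 4) (nat_lit 14) (nat_lit 5) (nat_lit 14) (nat_lit 4) (nat_lit 322) (nat_lit 288) (nat_lit 170)) (XT.lf (nat_lit 0) (nat_lit 24383351865) (nat_lit 152) (nat_lit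 112264605061) (nat_lit 76) (nat_lit 60392377982) (nat_lit 12) (nat_lit 5) (nat_lit 14) (nat_lit 5) (nat_lit 13) (nat_lit 4) (nat_lit 323) (nat_lit 288) (nat_lit 169))) (XT.nd (nat_lit 78) (nat_lit 76) (nat_lit 0) (XT.lf (nat_lit 0) (nat_lit 59201782094) (nat_lit 152) (nat_lit 39843542003) (nat_lit 76) (nat_lit 110120323457) (nat_lit 12) (nat_lit 5) (nat_lit 14) (nat_lit 5) (nat_lit 13) (nat_lit 4) (nat_lit 324) (nat_lit 288) (nat_lit 168)) (XT.lf (nat_lit 0) (nat_lit 40390483369) (nat_lit 76) (nat_lit 57385915542) (nat_lit 152) (nat_lit 124406929967) (nat_lit 11) (nat_lit 5) (nat_lit 12) (nat_lit 5) (nat_lit 13) (nat_lit 4) (nat_lit 325) (nat_lit 288) (nat_lit 167)))) (XT.nd (nat_lit 156) (nat_lit 152) (nat_lit 0) (XT.nd (nat_lit 78) (nat_lit 0) (nat_lit 0) (XT.lf (nat_lit 0) (nat_lit 129307980863) (nat_lit 76) (nat_lit 11217739140) (nat_lit 152) (nat_lit 95629606502) (nat_lit 11) (nat_lit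 5) (nat_lit 12) (nat_lit 5) (nat_lit 13) (nat_lit 4) (nat_lit 326) (nat_lit 288) (nat_lit 166)) (XT.lf (nat_lit 0) (nat_lit 187623752144) (nat_lit 152) (nat_lit 26836729304) (nat_lit 0) (nat_lit 36710301815) (nat_lit 11) (nat_lit 5) (nat_lit 13) (nat_lit 4) (nat_lit 11) (nat_lit 4) (nat_lit 327) (nat_lit 288) (nat_lit 165))) (XT.nd (nat_lit 78) (nat_lit 76) (nat_lit 0) (XT.lf (nat_lit 0) (nat_lit 62404015300) (nat_lit 76) (nat_lit 177877224327) (nat_lit 76) (nat_lit 26962908421) (nat_lit 10) (nat_lit 4) (nat_lit 11) (nat_lit 5) (nat_lit 11) (nat_lit 4) (nat_lit 328) (nat_lit 288) (nat_lit 164)) (XT.lf (nat_lit 0) (nat_lit 12672495507) (nat_lit 152) (nat_lit 124556326711) (nat_lit 76) (nat_lit 147290237932) (nat_lit 9) (nat_lit 5) (nat_lit 11) (nat_lit 5) (nat_lit 10) (nat_lit 4) (nat_lit 329) (nat_lit 288) (nat_lit 163))))) (XT.nd (nat_lit 312) (nat_lit 152) (nat_lit 0) (XT.nd (nat_lit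 156) (nat_lit 0) (nat_lit 0) (XT.nd (nat_lit 78) (nat_lit 76) (nat_lit 0) (XT.lf (nat_lit 0) (nat_lit 54021504601) (nat_lit 152) (nat_lit 38551129888) (nat_lit 76) (nat_lit 210547346692) (nat_lit 9) (nat_lit 5) (nat_lit 11) (nat_lit 5) (nat_lit 10) (nat_lit 4) (nat_lit 330) (nat_lit 288) (nat_lit 162)) (XT.lf (nat_lit 0) (nat_lit 57194686605) (nat_lit 76) (nat_lit 42858790888) (nat_lit 152) (nat_lit 223045495329) (nat_lit 8) (nat_lit 5) (nat_lit 9) (nat_lit 5) (nat_lit 10) (nat_lit 4) (nat_lit 331) (nat_lit 288) (nat_lit 161))) (XT.nd (nat_lit 78) (nat_lit 0) (nat_lit 0) (XT.lf (nat_lit 0) (nat_lit 151109471003) (nat_lit 152) (nat_lit 182088157342) (nat_lit 0) (nat_lit 11371338773) (nat_lit 8) (nat_lit 5) (nat_lit 10) (nat_lit 4) (nat_lit 8) (nat_lit 4) (nat_lit 332) (nat_lit 288) (nat_lit 160)) (XT.lf (nat_lit 0) (nat_lit 207362710061) (nat_lit 152) (nat_lit 92680797559) (nat_lit 0)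 (nat_lit 67624032371) (nat_lit 8) (nat_lit 5) (nat_lit 10) (nat_lit 4) (nat_lit 8) (nat_lit 4) (nat_lit 333) (nat_lit 288) (nat_lit 159)))) (XT.nd (nat_lit 156) (nat_lit 76) (nat_lit 0) (XT.nd (nat_lit 78) (nat_lit 0) (nat_lit 0) (XT.lf (nat_lit 0) (nat_lit 4082597535) (nat_lit 76) (nat_lit 264131381278) (nat_lit 76) (nat_lit 124392198532) (nat_lit 7) (nat_lit 4) (nat_lit 8) (nat_lit 5) (nat_lit 8) (nat_lit 4) (nat_lit 334) (nat_lit 288) (nat_lit 158)) (XT.lf (nat_lit 0) (nat_lit 113857141569) (nat_lit 76) (nat_lit 222609861242) (nat_lit 76) (nat_lit 82870210851) (nat_lit 7) (nat_lit 4) (nat_lit 8) (nat_lit 5) (nat_lit 8) (nat_lit 4) (nat_lit 335) (nat_lit 288) (nat_lit 157))) (XT.nd (nat_lit 78) (nat_lit 76) (nat_lit 0) (XT.lf (nat_lit 0) (nat_lit 232412943804) (nat_lit 76) (nat_lit 177766951309) (nat_lit 76) (nat_lit 38026867914) (nat_lit 7) (nat_lit 4) (nat_lit 8) (nat_lit 5) (nat_lit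 8) (nat_lit 4) (nat_lit 336) (nat_lit 288) (nat_lit 156)) (XT.lf (nat_lit 0) (nat_lit 9883139970) (nat_lit 152) (nat_lit 119183553186) (nat_lit 76) (nat_lit 350299194611) (nat_lit 6) (nat_lit 5) (nat_lit 8) (nat_lit 5) (nat_lit 7) (nat_lit 4) (nat_lit 337) (nat_lit 288) (nat_lit 155))))))))
noncomputable def xc93 : XT := (XT.nd (nat_lit 36972) (nat_lit 0) (nat_lit 912) (XT.nd (nat_lit 1170) (nat_lit 0) (nat_lit 0) (XT.nd (nat_lit 546) (nat_lit 152) (nat_lit 0) (XT.nd (nat_lit 234) (nat_lit 76) (nat_lit 0) (XT.nd (nat_lit 78) (nat_lit 76) (nat_lit 0) (XT.lf (nat_lit 0) (nat_lit 59571181066) (nat_lit 152) (nat_lit 15832798938) (nat_lit 76) (nat_lit 437534772122) (nat_lit 6) (nat_lit 5) (nat_lit 8) (nat_lit 5) (nat_lit 7) (nat_lit 4) (nat_lit 338) (nat_lit 288) (nat_lit 154)) (XT.nd (nat_lit 78) (nat_lit 0) (nat_lit 0) (XT.lf (nat_lit 0) (nat_lit 100829331020) (nat_lit 76) (nat_lit 14829577781)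 (nat_lit 152) (nat_lit 433344565550) (nat_lit 5) (nat_lit 5) (nat_lit 6) (nat_lit 5) (nat_lit 7) (nat_lit 4) (nat_lit 339) (nat_lit 288) (nat_lit 153)) (XT.lf (nat_lit 0) (nat_lit 177894203172) (nat_lit 152) (nat_lit 361422418349) (nat_lit 0) (nat_lit 48503909135) (nat_lit 5) (nat_lit 5) (nat_lit 7) (nat_lit 4) (nat_lit 5) (nat_lit 4) (nat_lit 340) (nat_lit 288) (nat_lit 152)))) (XT.nd (nat_lit 156) (nat_lit 76) (nat_lit 0) (XT.nd (nat_lit 78) (nat_lit 0) (nat_lit 0) (XT.lf (nat_lit 0) (nat_lit 245493225453) (nat_lit 152) (nat_lit 268116275271) (nat_lit 0) (nat_lit 116102658551) (nat_lit 5) (nat_lit 5) (nat_lit 7) (nat_lit 4) (nat_lit 5) (nat_lit 4) (nat_lit 341) (nat_lit 288) (nat_lit 151)) (XT.lf (nat_lit 0) (nat_lit 318499910744) (nat_lit 152) (nat_lit 167346137102) (nat_lit 0) (nat_lit 189109091187) (nat_lit 5) (nat_lit 5) (nat_lit 7) (nat_lit 4) (nat_lit 5) (nat_lit 4) (nat_lit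 342) (nat_lit 288) (nat_lit 150))) (XT.nd (nat_lit 78) (nat_lit 76) (nat_lit 0) (XT.lf (nat_lit 0) (nat_lit 397346891253) (nat_lit 152) (nat_lit 58514847469) (nat_lit 0) (nat_lit 267955837757) (nat_lit 5) (nat_lit 5) (nat_lit 7) (nat_lit 4) (nat_lit 5) (nat_lit 4) (nat_lit 343) (nat_lit 288) (nat_lit 149)) (XT.lf (nat_lit 0) (nat_lit 62130541084) (nat_lit 76) (nat_lit 421865108268) (nat_lit 76) (nat_lit 292473838163) (nat_lit 4) (nat_lit 4) (nat_lit 5) (nat_lit 5) (nat_lit 5) (nat_lit 4) (nat_lit 344) (nat_lit 288) (nat_lit 148))))) (XT.nd (nat_lit 312) (nat_lit 152) (nat_lit 0) (XT.nd (nat_lit 156) (nat_lit 0) (nat_lit 0) (XT.nd (nat_lit 78) (nat_lit 0) (nat_lit 0) (XT.lf (nat_lit 0) (nat_lit 195754937174) (nat_lit 76) (nat_lit 383421055154) (nat_lit 76) (nat_lit 254029584485) (nat_lit 4) (nat_lit 4) (nat_lit 5) (nat_lit 5) (nat_lit 5) (nat_lit 4) (nat_lit 345) (nat_lit 288) (nat_lit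 147)) (XT.lf (nat_lit 0) (nat_lit 340068900903) (nat_lit 76) (nat_lit 341901662397) (nat_lit 76) (nat_lit 212510006019) (nat_lit 4) (nat_lit 4) (nat_lit 5) (nat_lit 5) (nat_lit 5) (nat_lit 4) (nat_lit 346) (nat_lit 288) (nat_lit 146))) (XT.nd (nat_lit 78) (nat_lit 0) (nat_lit 0) (XT.lf (nat_lit 0) (nat_lit 495927626130) (nat_lit 76) (nat_lit 297060889150) (nat_lit 76) (nat_lit 167669060820) (nat_lit 4) (nat_lit 4) (nat_lit 5) (nat_lit 5) (nat_lit 5) (nat_lit 4) (nat_lit 347) (nat_lit 288) (nat_lit 145)) (XT.lf (nat_lit 0) (nat_lit 664254720116) (nat_lit 76) (nat_lit 248633012312) (nat_lit 76) (nat_lit 119241024768) (nat_lit 4) (nat_lit 4) (nat_lit 5) (nat_lit 5) (nat_lit 5) (nat_lit 4) (nat_lit 348) (nat_lit 288) (nat_lit 144)))) (XT.nd (nat_lit 156) (nat_lit 152) (nat_lit 0) (XT.nd (nat_lit 78) (nat_lit 0) (nat_lit 0) (XT.lf (nat_lit 0) (nat_lit 846047676752) (nat_lit 76) (nat_lit 196331051874)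 (nat_lit 76) (nat_lit 66938916908) (nat_lit 4) (nat_lit 4) (nat_lit 5) (nat_lit 5) (nat_lit 5) (nat_lit 4) (nat_lit 349) (nat_lit 288) (nat_lit 143)) (XT.lf (nat_lit 0) (nat_lit 1042383787631) (nat_lit 76) (nat_lit 139845070290) (nat_lit 76) (nat_lit 10452798824) (nat_lit 4) (nat_lit 4) (nat_lit 5) (nat_lit 5) (nat_lit 5) (nat_lit 4) (nat_lit 350) (nat_lit 288) (nat_lit 142))) (XT.nd (nat_lit 78) (nat_lit 76) (nat_lit 0) (XT.lf (nat_lit 0) (nat_lit 48023243156) (nat_lit 152) (nat_lit 29504052090) (nat_lit 76) (nat_lit 1205090242275) (nat_lit 3) (nat_lit 5) (nat_lit 5) (nat_lit 5) (nat_lit 4) (nat_lit 4) (nat_lit 351) (nat_lit 288) (nat_lit 141)) (XT.lf (nat_lit 0) (nat_lit 105983230582) (nat_lit 76) (nat_lit 7178185507) (nat_lit 152) (nat_lit 1266361251015) (nat_lit 2) (nat_lit 5) (nat_lit 3) (nat_lit 5) (nat_lit 4) (nat_lit 4) (nat_lit 352) (nat_lit 288) (nat_lit 140)))))) (XT.nd (nat_lit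 624) (nat_lit 0) (nat_lit 0) (XT.nd (nat_lit 312) (nat_lit 0) (nat_lit 0) (XT.nd (nat_lit 156) (nat_lit 0) (nat_lit 0) (XT.nd (nat_lit 78) (nat_lit 0) (nat_lit 0) (XT.lf (nat_lit 0) (nat_lit 185992774953) (nat_lit 152) (nat_lit 1231804071122) (nat_lit 0) (nat_lit 66184790468) (nat_lit 2) (nat_lit 5) (nat_lit 4) (nat_lit 4) (nat_lit 2) (nat_lit 4) (nat_lit 353) (nat_lit 288) (nat_lit 139)) (XT.lf (nat_lit 0) (nat_lit 264836970281) (nat_lit 152) (nat_lit 1186916554195) (nat_lit 0) (nat_lit 145028892897) (nat_lit 2) (nat_lit 5) (nat_lit 4) (nat_lit 4) (nat_lit 2) (nat_lit 4) (nat_lit 354) (nat_lit 288) (nat_lit 138))) (XT.nd (nat_lit 78) (nat_lit 0) (nat_lit 0) (XT.lf (nat_lit 0) (nat_lit 349988591402) (nat_lit 152) (nat_lit 1138438250105) (nat_lit 0) (nat_lit 230180427998) (nat_lit 2) (nat_lit 5) (nat_lit 4) (nat_lit 4) (nat_lit 2) (nat_lit 4) (nat_lit 355) (nat_lit 288) (nat_lit 137))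 (XT.lf (nat_lit 0) (nat_lit 441952240514) (nat_lit 152) (nat_lit 1086081880015) (nat_lit 0) (nat_lit 322143997463) (nat_lit 2) (nat_lit 5) (nat_lit 4) (nat_lit 4) (nat_lit 2) (nat_lit 4) (nat_lit 356) (nat_lit 288) (nat_lit 136)))) (XT.nd (nat_lit 156) (nat_lit 0) (nat_lit 0) (XT.nd (nat_lit 78) (nat_lit 0) (nat_lit 0) (XT.lf (nat_lit 0) (nat_lit 541272887389) (nat_lit 152) (nat_lit 1029537183951) (nat_lit 0) (nat_lit 421464570592) (nat_lit 2) (nat_lit 5) (nat_lit 4) (nat_lit 4) (nat_lit 2) (nat_lit 4) (nat_lit 357) (nat_lit 288) (nat_lit 135)) (XT.lf (nat_lit 0) (nat_lit 648539098826) (nat_lit 152) (nat_lit 968469082236) (nat_lit 0) (nat_lit 528730713744) (nat_lit 2) (nat_lit 5) (nat_lit 4) (nat_lit 4) (nat_lit 2) (nat_lit 4) (nat_lit 358) (nat_lit 288) (nat_lit 134))) (XT.nd (nat_lit 78) (nat_lit 0) (nat_lit 0) (XT.lf (nat_lit 0) (nat_lit 764386526445) (nat_lit 152) (nat_lit 902515689820)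 (nat_lit 0) (nat_lit 644578078137) (nat_lit 2) (nat_lit 5) (nat_lit 4) (nat_lit 4) (nat_lit 2) (nat_lit 4) (nat_lit 359) (nat_lit 288) (nat_lit 133)) (XT.lf (nat_lit 0) (nat_lit 889501673523) (nat_lit 152) (nat_lit 831286171787) (nat_lit 0) (nat_lit 769693166672) (nat_lit 2) (nat_lit 5) (nat_lit 4) (nat_lit 4) (nat_lit 2) (nat_lit 4) (nat_lit 360) (nat_lit 288) (nat_lit 132))))) (XT.nd (nat_lit 312) (nat_lit 0) (nat_lit 0) (XT.nd (nat_lit 156) (nat_lit 0) (nat_lit 0) (XT.nd (nat_lit 78) (nat_lit 0) (nat_lit 0) (XT.lf (nat_lit 0) (nat_lit 1024625963153) (nat_lit 152) (nat_lit 754358427288) (nat_lit 0) (nat_lit 904817402096) (nat_lit 2) (nat_lit 5) (nat_lit 4) (nat_lit 4) (nat_lit 2) (nat_lit 4) (nat_lit 361) (nat_lit 288) (nat_lit 131)) (XT.lf (nat_lit 0) (nat_lit 1170560131866) (nat_lit 152) (nat_lit 671276588208) (nat_lit 0) (nat_lit 1050751520618) (nat_lit 2) (nat_lit 5) (nat_lit 4)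 (nat_lit 4) (nat_lit 2) (nat_lit 4) (nat_lit 362) (nat_lit 288) (nat_lit 130))) (XT.nd (nat_lit 78) (nat_lit 0) (nat_lit 0) (XT.lf (nat_lit 0) (nat_lit 1328168974737) (nat_lit 152) (nat_lit 581548317723) (nat_lit 0) (nat_lit 1208360317015) (nat_lit 2) (nat_lit 5) (nat_lit 4) (nat_lit 4) (nat_lit 2) (nat_lit 4) (nat_lit 363) (nat_lit 288) (nat_lit 129)) (XT.lf (nat_lit 0) (nat_lit 1498386470092) (nat_lit 152) (nat_lit 484641892749) (nat_lit 0) (nat_lit 1378577769340) (nat_lit 2) (nat_lit 5) (nat_lit 4) (nat_lit 4) (nat_lit 2) (nat_lit 4) (nat_lit 364) (nat_lit 288) (nat_lit 128)))) (XT.nd (nat_lit 34710) (nat_lit 0) (nat_lit 3268) (XT.nd (nat_lit 78) (nat_lit 0) (nat_lit 0) (XT.lf (nat_lit 0) (nat_lit 1682221314202) (nat_lit 152) (nat_lit 379983052988) (nat_lit 0) (nat_lit 1562412573606) (nat_lit 2) (nat_lit 5) (nat_lit 4) (nat_lit 4) (nat_lit 2) (nat_lit 4) (nat_lit 365) (nat_lit 288)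 (nat_lit 127)) (XT.lf (nat_lit 0) (nat_lit 1880762898734) (nat_lit 152) (nat_lit 266951597911) (nat_lit 0) (nat_lit 1760954121246) (nat_lit 2) (nat_lit 5) (nat_lit 4) (nat_lit 4) (nat_lit 2) (nat_lit 4) (nat_lit 366) (nat_lit 288) (nat_lit 126))) (XT.nd (nat_lit 78) (nat_lit 0) (nat_lit 0) (XT.lf (nat_lit 0) (nat_lit 12073665021) (nat_lit 532) (nat_lit 3482595779) (nat_lit 532) (nat_lit 3482595779) (nat_lit 45) (nat_lit 3) (nat_lit 52) (nat_lit 3) (nat_lit 52) (nat_lit 5) (nat_lit 289) (nat_lit 289) (nat_lit 202)) (XT.lf (nat_lit 76) (nat_lit 11063921940) (nat_lit 0) (nat_lit 14356769628) (nat_lit 532) (nat_lit 14155413579) (nat_lit 46) (nat_lit 5) (nat_lit 45) (nat_lit 3) (nat_lit 52) (nat_lit 5) (nat_lit 290) (nat_lit 289) (nat_lit 201))))))) (XT.nd (nat_lit 1248) (nat_lit 988) (nat_lit 0) (XT.nd (nat_lit 624) (nat_lit 836) (nat_lit 0) (XT.nd (nat_lit 312) (nat_lit 608) (nat_lit 0)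 (XT.nd (nat_lit 156) (nat_lit 0) (nat_lit 0) (XT.nd (nat_lit 78) (nat_lit 0) (nat_lit 0) (XT.lf (nat_lit 0) (nat_lit 27077090262) (nat_lit 456) (nat_lit 10345283770) (nat_lit 532) (nat_lit 3749512915) (nat_lit 46) (nat_lit 5) (nat_lit 52) (nat_lit 5) (nat_lit 53) (nat_lit 5) (nat_lit 291) (nat_lit 289) (nat_lit 200)) (XT.lf (nat_lit 76) (nat_lit 9368149643) (nat_lit 0) (nat_lit 20092213513) (nat_lit 532) (nat_lit 13387430182) (nat_lit 47) (nat_lit 5) (nat_lit 46) (nat_lit 5) (nat_lit 53) (nat_lit 5) (nat_lit 292) (nat_lit 289) (nat_lit 199))) (XT.nd (nat_lit 78) (nat_lit 0) (nat_lit 76) (XT.lf (nat_lit 76) (nat_lit 31244520022) (nat_lit 0) (nat_lit 1069016321) (nat_lit 532) (nat_lit 12321907033) (nat_lit 47) (nat_lit 5) (nat_lit 46) (nat_lit 5) (nat_lit 53) (nat_lit 5) (nat_lit 293) (nat_lit 289) (nat_lit 198)) (XT.lf (nat_lit 76) (nat_lit 8246412266) (nat_lit 0) (nat_lit 27811950209)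 (nat_lit 532) (nat_lit 10454680472) (nat_lit 48) (nat_lit 5) (nat_lit 47) (nat_lit 5) (nat_lit 54) (nat_lit 5) (nat_lit 294) (nat_lit 289) (nat_lit 197)))) (XT.nd (nat_lit 156) (nat_lit 304) (nat_lit 0) (XT.nd (nat_lit 78) (nat_lit 380) (nat_lit 0) (XT.lf (nat_lit 76) (nat_lit 32344523353) (nat_lit 0) (nat_lit 8148305561) (nat_lit 532) (nat_lit 8016825989) (nat_lit 48) (nat_lit 5) (nat_lit 47) (nat_lit 5) (nat_lit 54) (nat_lit 5) (nat_lit 295) (nat_lit 289) (nat_lit 196)) (XT.lf (nat_lit 0) (nat_lit 7776099807) (nat_lit 456) (nat_lit 38004850394) (nat_lit 532) (nat_lit 4845141919) (nat_lit 42) (nat_lit 5) (nat_lit 48) (nat_lit 5) (nat_lit 49) (nat_lit 5) (nat_lit 296) (nat_lit 289) (nat_lit 195))) (XT.nd (nat_lit 78) (nat_lit 304) (nat_lit 0) (XT.lf (nat_lit 0) (nat_lit 34326629167) (nat_lit 456) (nat_lit 17811020090) (nat_lit 532) (nat_lit 722560320) (nat_lit 42) (nat_lit 5) (nat_lit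 48) (nat_lit 5) (nat_lit 49) (nat_lit 5) (nat_lit 297) (nat_lit 289) (nat_lit 194)) (XT.lf (nat_lit 0) (nat_lit 3837464487) (nat_lit 304) (nat_lit 47316099108) (nat_lit 76) (nat_lit 4088785653) (nat_lit 38) (nat_lit 5) (nat_lit 42) (nat_lit 5) (nat_lit 39) (nat_lit 5) (nat_lit 298) (nat_lit 289) (nat_lit 193))))) (XT.nd (nat_lit 312) (nat_lit 380) (nat_lit 0) (XT.nd (nat_lit 156) (nat_lit 228) (nat_lit 0) (XT.nd (nat_lit 78) (nat_lit 228) (nat_lit 0) (XT.lf (nat_lit 0) (nat_lit 9703306316) (nat_lit 304) (nat_lit 20714821154) (nat_lit 76) (nat_lit 27317032995) (nat_lit 38) (nat_lit 5) (nat_lit 42) (nat_lit 5) (nat_lit 39) (nat_lit 5) (nat_lit 299) (nat_lit 289) (nat_lit 192)) (XT.lf (nat_lit 0) (nat_lit 8434023407) (nat_lit 228) (nat_lit 7804939000) (nat_lit 304) (nat_lit 44172395935) (nat_lit 35) (nat_lit 5) (nat_lit 38) (nat_lit 5) (nat_lit 39) (nat_lit 5) (nat_lit 300) (nat_lit 289)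 (nat_lit 191))) (XT.nd (nat_lit 78) (nat_lit 228) (nat_lit 0) (XT.lf (nat_lit 0) (nat_lit 24276024873) (nat_lit 304) (nat_lit 22580406151) (nat_lit 76) (nat_lit 16366941826) (nat_lit 35) (nat_lit 5) (nat_lit 39) (nat_lit 5) (nat_lit 36) (nat_lit 5) (nat_lit 301) (nat_lit 289) (nat_lit 190)) (XT.lf (nat_lit 0) (nat_lit 9435173388) (nat_lit 228) (nat_lit 23948498767) (nat_lit 304) (nat_lit 32842471506) (nat_lit 32) (nat_lit 5) (nat_lit 35) (nat_lit 5) (nat_lit 36) (nat_lit 5) (nat_lit 302) (nat_lit 289) (nat_lit 189)))) (XT.nd (nat_lit 156) (nat_lit 228) (nat_lit 0) (XT.nd (nat_lit 78) (nat_lit 152) (nat_lit 0) (XT.lf (nat_lit 0) (nat_lit 43870468179) (nat_lit 304) (nat_lit 24161116553) (nat_lit 76) (nat_lit 1385512831) (nat_lit 32) (nat_lit 5) (nat_lit 36) (nat_lit 5) (nat_lit 33) (nat_lit 5) (nat_lit 303) (nat_lit 289) (nat_lit 188)) (XT.lf (nat_lit 0) (nat_lit 11005347126) (nat_lit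 152) (nat_lit 45075785327) (nat_lit 228) (nat_lit 16711405412) (nat_lit 30) (nat_lit 5) (nat_lit 32) (nat_lit 5) (nat_lit 33) (nat_lit 5) (nat_lit 304) (nat_lit 289) (nat_lit 187))) (XT.nd (nat_lit 78) (nat_lit 228) (nat_lit 0) (XT.lf (nat_lit 0) (nat_lit 50356978067) (nat_lit 152) (nat_lit 19570565911) (nat_lit 228) (nat_lit 6457761642) (nat_lit 30) (nat_lit 5) (nat_lit 32) (nat_lit 5) (nat_lit 33) (nat_lit 5) (nat_lit 305) (nat_lit 289) (nat_lit 186)) (XT.lf (nat_lit 0) (nat_lit 4902400907) (nat_lit 228) (nat_lit 67299191715) (nat_lit 76) (nat_lit 8013652107) (nat_lit 27) (nat_lit 5) (nat_lit 30) (nat_lit 5) (nat_lit 28) (nat_lit 5) (nat_lit 306) (nat_lit 289) (nat_lit 185)))))) (XT.nd (nat_lit 624) (nat_lit 380) (nat_lit 0) (XT.nd (nat_lit 312) (nat_lit 304) (nat_lit 0) (XT.nd (nat_lit 156) (nat_lit 152) (nat_lit 0) (XT.nd (nat_lit 78) (nat_lit 152) (nat_lit 0) (XT.lf (nat_lit 0)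 (nat_lit 18059388138) (nat_lit 228) (nat_lit 28535153307) (nat_lit 76) (nat_lit 37644669895) (nat_lit 27) (nat_lit 5) (nat_lit 30) (nat_lit 5) (nat_lit 28) (nat_lit 5) (nat_lit 307) (nat_lit 289) (nat_lit 184)) (XT.lf (nat_lit 0) (nat_lit 14029798361) (nat_lit 152) (nat_lit 18575096364) (nat_lit 228) (nat_lit 55953326484) (nat_lit 25) (nat_lit 5) (nat_lit 27) (nat_lit 5) (nat_lit 28) (nat_lit 5) (nat_lit 308) (nat_lit 289) (nat_lit 183))) (XT.nd (nat_lit 78) (nat_lit 152) (nat_lit 0) (XT.lf (nat_lit 0) (nat_lit 49394144125) (nat_lit 228) (nat_lit 31840967057) (nat_lit 76) (nat_lit 11901235059) (nat_lit 25) (nat_lit 5) (nat_lit 28) (nat_lit 5) (nat_lit 26) (nat_lit 5) (nat_lit 309) (nat_lit 289) (nat_lit 182)) (XT.lf (nat_lit 0) (nat_lit 14502560803) (nat_lit 152) (nat_lit 53853923501) (nat_lit 228) (nat_lit 29657843272) (nat_lit 23) (nat_lit 5) (nat_lit 25) (nat_lit 5) (nat_lit 26) (nat_lit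 5) (nat_lit 310) (nat_lit 289) (nat_lit 181)))) (XT.nd (nat_lit 156) (nat_lit 152) (nat_lit 0) (XT.nd (nat_lit 78) (nat_lit 152) (nat_lit 0) (XT.lf (nat_lit 0) (nat_lit 66362512609) (nat_lit 152) (nat_lit 23342632895) (nat_lit 228) (nat_lit 13507857401) (nat_lit 23) (nat_lit 5) (nat_lit 25) (nat_lit 5) (nat_lit 26) (nat_lit 5) (nat_lit 311) (nat_lit 289) (nat_lit 180)) (XT.lf (nat_lit 0) (nat_lit 4318965103) (nat_lit 152) (nat_lit 94879886928) (nat_lit 76) (nat_lit 9574621739) (nat_lit 21) (nat_lit 5) (nat_lit 23) (nat_lit 5) (nat_lit 22) (nat_lit 5) (nat_lit 312) (nat_lit 289) (nat_lit 179))) (XT.nd (nat_lit 78) (nat_lit 152) (nat_lit 0) (XT.lf (nat_lit 0) (nat_lit 24481025913) (nat_lit 152) (nat_lit 44890434059) (nat_lit 76) (nat_lit 45248146384) (nat_lit 21) (nat_lit 5) (nat_lit 23) (nat_lit 5) (nat_lit 22) (nat_lit 5) (nat_lit 313) (nat_lit 289) (nat_lit 178)) (XT.lf (nat_lit 0)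 (nat_lit 9575474773) (nat_lit 152) (nat_lit 36909790793) (nat_lit 228) (nat_lit 74429828476) (nat_lit 19) (nat_lit 5) (nat_lit 21) (nat_lit 5) (nat_lit 22) (nat_lit 5) (nat_lit 314) (nat_lit 289) (nat_lit 177))))) (XT.nd (nat_lit 312) (nat_lit 228) (nat_lit 0) (XT.nd (nat_lit 156) (nat_lit 76) (nat_lit 0) (XT.nd (nat_lit 78) (nat_lit 76) (nat_lit 0) (XT.lf (nat_lit 0) (nat_lit 70949953926) (nat_lit 152) (nat_lit 526237849) (nat_lit 228) (nat_lit 56139922669) (nat_lit 19) (nat_lit 5) (nat_lit 21) (nat_lit 5) (nat_lit 22) (nat_lit 5) (nat_lit 315) (nat_lit 289) (nat_lit 176)) (XT.lf (nat_lit 0) (nat_lit 1523408308) (nat_lit 76) (nat_lit 97911019338) (nat_lit 152) (nat_lit 35341347366) (nat_lit 18) (nat_lit 5) (nat_lit 19) (nat_lit 5) (nat_lit 20) (nat_lit 4) (nat_lit 316) (nat_lit 289) (nat_lit 175))) (XT.nd (nat_lit 78) (nat_lit 76) (nat_lit 0) (XT.lf (nat_lit 0) (nat_lit 67574847331)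 (nat_lit 76) (nat_lit 63616211598) (nat_lit 152) (nat_lit 11192211853) (nat_lit 18) (nat_lit 5) (nat_lit 19) (nat_lit 5) (nat_lit 20) (nat_lit 4) (nat_lit 317) (nat_lit 289) (nat_lit 174)) (XT.lf (nat_lit 0) (nat_lit 14143160367) (nat_lit 152) (nat_lit 12048536292) (nat_lit 76) (nat_lit 124379095931) (nat_lit 17) (nat_lit 5) (nat_lit 19) (nat_lit 5) (nat_lit 18) (nat_lit 5) (nat_lit 318) (nat_lit 289) (nat_lit 173)))) (XT.nd (nat_lit 156) (nat_lit 76) (nat_lit 0) (XT.nd (nat_lit 78) (nat_lit 0) (nat_lit 0) (XT.lf (nat_lit 0) (nat_lit 42689558233) (nat_lit 228) (nat_lit 101304564362) (nat_lit 76) (nat_lit 15252828739) (nat_lit 15) (nat_lit 5) (nat_lit 18) (nat_lit 5) (nat_lit 16) (nat_lit 4) (nat_lit 319) (nat_lit 289) (nat_lit 172)) (XT.lf (nat_lit 0) (nat_lit 74537145100) (nat_lit 228) (nat_lit 35063313971) (nat_lit 76) (nat_lit 58935346472) (nat_lit 15) (nat_lit 5) (nat_lit 18) (nat_lit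 5) (nat_lit 16) (nat_lit 4) (nat_lit 320) (nat_lit 289) (nat_lit 171))) (XT.nd (nat_lit 78) (nat_lit 0) (nat_lit 0) (XT.lf (nat_lit 0) (nat_lit 38396698419) (nat_lit 76) (nat_lit 71458530582) (nat_lit 152) (nat_lit 68638724752) (nat_lit 14) (nat_lit 5) (nat_lit 15) (nat_lit 5) (nat_lit 16) (nat_lit 4) (nat_lit 321) (nat_lit 289) (nat_lit 170)) (XT.lf (nat_lit 0) (nat_lit 119726329961) (nat_lit 76) (nat_lit 29230396631) (nat_lit 152) (nat_lit 40215390674) (nat_lit 14) (nat_lit 5) (nat_lit 15) (nat_lit 5) (nat_lit 16) (nat_lit 4) (nat_lit 322) (nat_lit 289) (nat_lit 169))))))))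
noncomputable def xc94 : XT := (XT.nd (nat_lit 2418) (nat_lit 0) (nat_lit 0) (XT.nd (nat_lit 1170) (nat_lit 380) (nat_lit 0) (XT.nd (nat_lit 546) (nat_lit 228) (nat_lit 0) (XT.nd (nat_lit 234) (nat_lit 152) (nat_lit 0) (XT.nd (nat_lit 78) (nat_lit 76) (nat_lit 0) (XT.lf (nat_lit 0) (nat_lit 6803059293) (nat_lit 76) (nat_lit 184940057003) (nat_lit 76) (nat_lit 8916876526) (nat_lit 13) (nat_lit 4) (nat_lit 14) (nat_lit 5) (nat_lit 14) (nat_lit 4) (nat_lit 323) (nat_lit 289) (nat_lit 168)) (XT.nd (nat_lit 78) (nat_lit 0) (nat_lit 0) (XT.lf (nat_lit 0) (nat_lit 26347285091) (nat_lit 152) (nat_lit 121222005094) (nat_lit 76) (nat_lit 65233197830) (nat_lit 12) (nat_lit 5) (nat_lit 14) (nat_lit 5) (nat_lit 13) (nat_lit 4) (nat_lit 324) (nat_lit 289) (nat_lit 167)) (XT.lf (nat_lit 0) (nat_lit 63950207140) (nat_lit 152) (nat_lit 43009017611) (nat_lit 76) (nat_lit 118938680455) (nat_lit 12) (nat_lit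 5) (nat_lit 14) (nat_lit 5) (nat_lit 13) (nat_lit 4) (nat_lit 325) (nat_lit 289) (nat_lit 166)))) (XT.nd (nat_lit 156) (nat_lit 76) (nat_lit 0) (XT.nd (nat_lit 78) (nat_lit 0) (nat_lit 0) (XT.lf (nat_lit 0) (nat_lit 43643172632) (nat_lit 76) (nat_lit 61967226744) (nat_lit 152) (nat_lit 134346634029) (nat_lit 11) (nat_lit 5) (nat_lit 12) (nat_lit 5) (nat_lit 13) (nat_lit 4) (nat_lit 326) (nat_lit 289) (nat_lit 165)) (XT.lf (nat_lit 0) (nat_lit 139672480992) (nat_lit 76) (nat_lit 12106304530) (nat_lit 152) (nat_lit 103268076564) (nat_lit 11) (nat_lit 5) (nat_lit 12) (nat_lit 5) (nat_lit 13) (nat_lit 4) (nat_lit 327) (nat_lit 289) (nat_lit 164))) (XT.nd (nat_lit 78) (nat_lit 76) (nat_lit 0) (XT.lf (nat_lit 0) (nat_lit 202644041993) (nat_lit 152) (nat_lit 28964649808) (nat_lit 0) (nat_lit 39654913777) (nat_lit 11) (nat_lit 5) (nat_lit 13) (nat_lit 4) (nat_lit 11) (nat_lit 4) (nat_lit 328)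 (nat_lit 289) (nat_lit 163)) (XT.lf (nat_lit 0) (nat_lit 67414872900) (nat_lit 76) (nat_lit 192098931769) (nat_lit 76) (nat_lit 29109061460) (nat_lit 10) (nat_lit 4) (nat_lit 11) (nat_lit 5) (nat_lit 11) (nat_lit 4) (nat_lit 329) (nat_lit 289) (nat_lit 162))))) (XT.nd (nat_lit 312) (nat_lit 76) (nat_lit 0) (XT.nd (nat_lit 156) (nat_lit 76) (nat_lit 0) (XT.nd (nat_lit 78) (nat_lit 0) (nat_lit 0) (XT.lf (nat_lit 0) (nat_lit 13695864954) (nat_lit 152) (nat_lit 134503158326) (nat_lit 76) (nat_lit 159080788815) (nat_lit 9) (nat_lit 5) (nat_lit 11) (nat_lit 5) (nat_lit 10) (nat_lit 4) (nat_lit 330) (nat_lit 289) (nat_lit 161)) (XT.lf (nat_lit 0) (nat_lit 58352085901) (nat_lit 152) (nat_lit 41618854981) (nat_lit 76) (nat_lit 227397923176) (nat_lit 9) (nat_lit 5) (nat_lit 11) (nat_lit 5) (nat_lit 10) (nat_lit 4) (nat_lit 331) (nat_lit 289) (nat_lit 160))) (XT.nd (nat_lit 78) (nat_lit 0) (nat_lit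 0) (XT.lf (nat_lit 0) (nat_lit 61786212519) (nat_lit 76) (nat_lit 46280131362) (nat_lit 152) (nat_lit 240879853469) (nat_lit 8) (nat_lit 5) (nat_lit 9) (nat_lit 5) (nat_lit 10) (nat_lit 4) (nat_lit 332) (nat_lit 289) (nat_lit 159)) (XT.lf (nat_lit 0) (nat_lit 163206344668) (nat_lit 152) (nat_lit 196639962514) (nat_lit 0) (nat_lit 12287522246) (nat_lit 8) (nat_lit 5) (nat_lit 10) (nat_lit 4) (nat_lit 8) (nat_lit 4) (nat_lit 333) (nat_lit 289) (nat_lit 158)))) (XT.nd (nat_lit 156) (nat_lit 0) (nat_lit 0) (XT.nd (nat_lit 78) (nat_lit 76) (nat_lit 0) (XT.lf (nat_lit 0) (nat_lit 223959241667) (nat_lit 152) (nat_lit 100081143387) (nat_lit 0) (nat_lit 73039951600) (nat_lit 8) (nat_lit 5) (nat_lit 10) (nat_lit 4) (nat_lit 8) (nat_lit 4) (nat_lit 334) (nat_lit 289) (nat_lit 157)) (XT.lf (nat_lit 0) (nat_lit 4422965897) (nat_lit 76) (nat_lit 285255420311) (nat_lit 76) (nat_lit 134335697241) (nat_lit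 7) (nat_lit 4) (nat_lit 8) (nat_lit 5) (nat_lit 8) (nat_lit 4) (nat_lit 335) (nat_lit 289) (nat_lit 156))) (XT.nd (nat_lit 78) (nat_lit 0) (nat_lit 0) (XT.lf (nat_lit 0) (nat_lit 122978454154) (nat_lit 76) (nat_lit 240412658040) (nat_lit 76) (nat_lit 89492534040) (nat_lit 7) (nat_lit 4) (nat_lit 8) (nat_lit 5) (nat_lit 8) (nat_lit 4) (nat_lit 336) (nat_lit 289) (nat_lit 155)) (XT.lf (nat_lit 0) (nat_lit 251017776771) (nat_lit 76) (nat_lit 191982759172) (nat_lit 76) (nat_lit 41062263941) (nat_lit 7) (nat_lit 4) (nat_lit 8) (nat_lit 5) (nat_lit 8) (nat_lit 4) (nat_lit 337) (nat_lit 289) (nat_lit 154)))))) (XT.nd (nat_lit 624) (nat_lit 152) (nat_lit 0) (XT.nd (nat_lit 312) (nat_lit 76) (nat_lit 0) (XT.nd (nat_lit 156) (nat_lit 76) (nat_lit 0) (XT.nd (nat_lit 78) (nat_lit 0) (nat_lit 0) (XT.lf (nat_lit 0) (nat_lit 10679731514) (nat_lit 152) (nat_lit 128706997414) (nat_lit 76) (nat_lit 378327950990)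 (nat_lit 6) (nat_lit 5) (nat_lit 8) (nat_lit 5) (nat_lit 7) (nat_lit 4) (nat_lit 338) (nat_lit 289) (nat_lit 153)) (XT.lf (nat_lit 0) (nat_lit 64342375872) (nat_lit 152) (nat_lit 17089015421) (nat_lit 76) (nat_lit 472542017605) (nat_lit 6) (nat_lit 5) (nat_lit 8) (nat_lit 5) (nat_lit 7) (nat_lit 4) (nat_lit 339) (nat_lit 289) (nat_lit 152))) (XT.nd (nat_lit 78) (nat_lit 0) (nat_lit 0) (XT.lf (nat_lit 0) (nat_lit 108905821455) (nat_lit 76) (nat_lit 16011136903) (nat_lit 152) (nat_lit 468006363871) (nat_lit 5) (nat_lit 5) (nat_lit 6) (nat_lit 5) (nat_lit 7) (nat_lit 4) (nat_lit 340) (nat_lit 289) (nat_lit 151)) (XT.lf (nat_lit 0) (nat_lit 192130788002) (nat_lit 152) (nat_lit 390326528101) (nat_lit 0) (nat_lit 52388450227) (nat_lit 5) (nat_lit 5) (nat_lit 7) (nat_lit 4) (nat_lit 5) (nat_lit 4) (nat_lit 341) (nat_lit 289) (nat_lit 150)))) (XT.nd (nat_lit 156) (nat_lit 76) (nat_lit 0) (XT.nd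 (nat_lit 78) (nat_lit 0) (nat_lit 0) (XT.lf (nat_lit 0) (nat_lit 265137358098) (nat_lit 152) (nat_lit 289556610889) (nat_lit 0) (nat_lit 125394786384) (nat_lit 5) (nat_lit 5) (nat_lit 7) (nat_lit 4) (nat_lit 5) (nat_lit 4) (nat_lit 342) (nat_lit 289) (nat_lit 149)) (XT.lf (nat_lit 0) (nat_lit 343984231944) (nat_lit 152) (nat_lit 180725525845) (nat_lit 0) (nat_lit 204241443621) (nat_lit 5) (nat_lit 5) (nat_lit 7) (nat_lit 4) (nat_lit 5) (nat_lit 4) (nat_lit 343) (nat_lit 289) (nat_lit 148))) (XT.nd (nat_lit 78) (nat_lit 76) (nat_lit 0) (XT.lf (nat_lit 0) (nat_lit 429138650276) (nat_lit 152) (nat_lit 63188348021) (nat_lit 0) (nat_lit 289395661387) (nat_lit 5) (nat_lit 5) (nat_lit 7) (nat_lit 4) (nat_lit 5) (nat_lit 4) (nat_lit 344) (nat_lit 289) (nat_lit 147)) (XT.lf (nat_lit 0) (nat_lit 67108477002) (nat_lit 76) (nat_lit 455610715350) (nat_lit 76) (nat_lit 315867540754) (nat_lit 4) (nat_lit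 4) (nat_lit 5) (nat_lit 5) (nat_lit 5) (nat_lit 4) (nat_lit 345) (nat_lit 289) (nat_lit 146))))) (XT.nd (nat_lit 312) (nat_lit 152) (nat_lit 0) (XT.nd (nat_lit 156) (nat_lit 0) (nat_lit 0) (XT.nd (nat_lit 78) (nat_lit 0) (nat_lit 0) (XT.lf (nat_lit 0) (nat_lit 211422269770) (nat_lit 76) (nat_lit 414091404771) (nat_lit 76) (nat_lit 274348058223) (nat_lit 4) (nat_lit 4) (nat_lit 5) (nat_lit 5) (nat_lit 5) (nat_lit 4) (nat_lit 346) (nat_lit 289) (nat_lit 145)) (XT.lf (nat_lit 0) (nat_lit 367280836699) (nat_lit 76) (nat_lit 369250707615) (nat_lit 76) (nat_lit 229507201852) (nat_lit 4) (nat_lit 4) (nat_lit 5) (nat_lit 5) (nat_lit 5) (nat_lit 4) (nat_lit 347) (nat_lit 289) (nat_lit 144))) (XT.nd (nat_lit 78) (nat_lit 0) (nat_lit 0) (XT.lf (nat_lit 0) (nat_lit 535607784113) (nat_lit 76) (nat_lit 320822901232) (nat_lit 76) (nat_lit 181079248048) (nat_lit 4) (nat_lit 4) (nat_lit 5) (nat_lit 5)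 (nat_lit 5) (nat_lit 4) (nat_lit 348) (nat_lit 289) (nat_lit 143)) (XT.lf (nat_lit 0) (nat_lit 717400605034) (nat_lit 76) (nat_lit 268521006029) (nat_lit 76) (nat_lit 128777216344) (nat_lit 4) (nat_lit 4) (nat_lit 5) (nat_lit 5) (nat_lit 5) (nat_lit 4) (nat_lit 349) (nat_lit 289) (nat_lit 142)))) (XT.nd (nat_lit 156) (nat_lit 152) (nat_lit 0) (XT.nd (nat_lit 78) (nat_lit 0) (nat_lit 0) (XT.lf (nat_lit 0) (nat_lit 913736590251) (nat_lit 76) (nat_lit 212035084849) (nat_lit 76) (nat_lit 72291168775) (nat_lit 4) (nat_lit 4) (nat_lit 5) (nat_lit 5) (nat_lit 5) (nat_lit 4) (nat_lit 350) (nat_lit 289) (nat_lit 141)) (XT.lf (nat_lit 0) (nat_lit 1125779212270) (nat_lit 76) (nat_lit 151030406308) (nat_lit 76) (nat_lit 11286373205) (nat_lit 4) (nat_lit 4) (nat_lit 5) (nat_lit 5) (nat_lit 5) (nat_lit 4) (nat_lit 351) (nat_lit 289) (nat_lit 140))) (XT.nd (nat_lit 78) (nat_lit 76) (nat_lit 0) (XT.lf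 (nat_lit 0) (nat_lit 51867433150) (nat_lit 152) (nat_lit 31859880509) (nat_lit 76) (nat_lit 1301499439273) (nat_lit 3) (nat_lit 5) (nat_lit 5) (nat_lit 5) (nat_lit 4) (nat_lit 4) (nat_lit 352) (nat_lit 289) (nat_lit 139)) (XT.lf (nat_lit 0) (nat_lit 114466270961) (nat_lit 76) (nat_lit 7750321709) (nat_lit 152) (nat_lit 1367667705675) (nat_lit 2) (nat_lit 5) (nat_lit 3) (nat_lit 5) (nat_lit 4) (nat_lit 4) (nat_lit 353) (nat_lit 289) (nat_lit 138))))))) (XT.nd (nat_lit 35880) (nat_lit 0) (nat_lit 1900) (XT.nd (nat_lit 624) (nat_lit 0) (nat_lit 0) (XT.nd (nat_lit 312) (nat_lit 0) (nat_lit 0) (XT.nd (nat_lit 156) (nat_lit 0) (nat_lit 0) (XT.nd (nat_lit 78) (nat_lit 0) (nat_lit 0) (XT.lf (nat_lit 0) (nat_lit 200874339770) (nat_lit 152) (nat_lit 1330344218010) (nat_lit 0) (nat_lit 71481437276) (nat_lit 2) (nat_lit 5) (nat_lit 4) (nat_lit 4) (nat_lit 2) (nat_lit 4) (nat_lit 354) (nat_lit 289)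 (nat_lit 137)) (XT.lf (nat_lit 0) (nat_lit 286025911998) (nat_lit 152) (nat_lit 1281866009270) (nat_lit 0) (nat_lit 156632929856) (nat_lit 2) (nat_lit 5) (nat_lit 4) (nat_lit 4) (nat_lit 2) (nat_lit 4) (nat_lit 355) (nat_lit 289) (nat_lit 136))) (XT.nd (nat_lit 78) (nat_lit 0) (nat_lit 0) (XT.lf (nat_lit 0) (nat_lit 377989515838) (nat_lit 152) (nat_lit 1229509727465) (nat_lit 0) (nat_lit 248596459949) (nat_lit 2) (nat_lit 5) (nat_lit 4) (nat_lit 4) (nat_lit 2) (nat_lit 4) (nat_lit 356) (nat_lit 289) (nat_lit 135)) (XT.lf (nat_lit 0) (nat_lit 477310120795) (nat_lit 152) (nat_lit 1172965113148) (nat_lit 0) (nat_lit 347916996623) (nat_lit 2) (nat_lit 5) (nat_lit 4) (nat_lit 4) (nat_lit 2) (nat_lit 4) (nat_lit 357) (nat_lit 289) (nat_lit 134)))) (XT.nd (nat_lit 156) (nat_lit 0) (nat_lit 0) (XT.nd (nat_lit 78) (nat_lit 0) (nat_lit 0) (XT.lf (nat_lit 0) (nat_lit 584576293418) (nat_lit 152)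 (nat_lit 1111897087123) (nat_lit 0) (nat_lit 455183106019) (nat_lit 2) (nat_lit 5) (nat_lit 4) (nat_lit 4) (nat_lit 2) (nat_lit 4) (nat_lit 358) (nat_lit 289) (nat_lit 133)) (XT.lf (nat_lit 0) (nat_lit 700423685100) (nat_lit 152) (nat_lit 1045943764792) (nat_lit 0) (nat_lit 571030439158) (nat_lit 2) (nat_lit 5) (nat_lit 4) (nat_lit 4) (nat_lit 2) (nat_lit 4) (nat_lit 359) (nat_lit 289) (nat_lit 132))) (XT.nd (nat_lit 78) (nat_lit 0) (nat_lit 0) (XT.lf (nat_lit 0) (nat_lit 825538798902) (nat_lit 152) (nat_lit 974714311652) (nat_lit 0) (nat_lit 696145498753) (nat_lit 2) (nat_lit 5) (nat_lit 4) (nat_lit 4) (nat_lit 2) (nat_lit 4) (nat_lit 360) (nat_lit 289) (nat_lit 131)) (XT.lf (nat_lit 0) (nat_lit 960663057721) (nat_lit 152) (nat_lit 897786627239) (nat_lit 0) (nat_lit 831269707381) (nat_lit 2) (nat_lit 5) (nat_lit 4) (nat_lit 4) (nat_lit 2) (nat_lit 4) (nat_lit 361) (nat_lit 289) (nat_lit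 130))))) (XT.nd (nat_lit 312) (nat_lit 0) (nat_lit 0) (XT.nd (nat_lit 156) (nat_lit 0) (nat_lit 0) (XT.nd (nat_lit 78) (nat_lit 0) (nat_lit 0) (XT.lf (nat_lit 0) (nat_lit 1106597197905) (nat_lit 152) (nat_lit 814704843794) (nat_lit 0) (nat_lit 977203801092) (nat_lit 2) (nat_lit 5) (nat_lit 4) (nat_lit 4) (nat_lit 2) (nat_lit 4) (nat_lit 362) (nat_lit 289) (nat_lit 129)) (XT.lf (nat_lit 0) (nat_lit 1264206014360) (nat_lit 152) (nat_lit 724976624823) (nat_lit 0) (nat_lit 1134812574516) (nat_lit 2) (nat_lit 5) (nat_lit 4) (nat_lit 4) (nat_lit 2) (nat_lit 4) (nat_lit 363) (nat_lit 289) (nat_lit 128))) (XT.nd (nat_lit 78) (nat_lit 0) (nat_lit 0) (XT.lf (nat_lit 0) (nat_lit 1434423485257) (nat_lit 152) (nat_lit 628070247547) (nat_lit 0) (nat_lit 1305030005570) (nat_lit 2) (nat_lit 5) (nat_lit 4) (nat_lit 4) (nat_lit 2) (nat_lit 4) (nat_lit 364) (nat_lit 289) (nat_lit 127)) (XT.lf (nat_lit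 0) (nat_lit 1618258306719) (nat_lit 152) (nat_lit 523411451952) (nat_lit 0) (nat_lit 1488864790140) (nat_lit 2) (nat_lit 5) (nat_lit 4) (nat_lit 4) (nat_lit 2) (nat_lit 4) (nat_lit 365) (nat_lit 289) (nat_lit 126)))) (XT.nd (nat_lit 34788) (nat_lit 0) (nat_lit 3268) (XT.nd (nat_lit 34710) (nat_lit 0) (nat_lit 3268) (XT.lf (nat_lit 0) (nat_lit 1816799870282) (nat_lit 152) (nat_lit 410380037768) (nat_lit 0) (nat_lit 1687406319544) (nat_lit 2) (nat_lit 5) (nat_lit 4) (nat_lit 4) (nat_lit 2) (nat_lit 4) (nat_lit 366) (nat_lit 289) (nat_lit 125)) (XT.lf (nat_lit 0) (nat_lit 13079943751) (nat_lit 532) (nat_lit 3739337152) (nat_lit 532) (nat_lit 3739337152) (nat_lit 45) (nat_lit 3) (nat_lit 52) (nat_lit 3) (nat_lit 52) (nat_lit 5) (nat_lit 290) (nat_lit 290) (nat_lit 200))) (XT.nd (nat_lit 78) (nat_lit 0) (nat_lit 76) (XT.lf (nat_lit 76) (nat_lit 11991661121) (nat_lit 0) (nat_lit 15538498931)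 (nat_lit 532) (nat_lit 15205753253) (nat_lit 46) (nat_lit 5) (nat_lit 45) (nat_lit 3) (nat_lit 52) (nat_lit 5) (nat_lit 291) (nat_lit 290) (nat_lit 199)) (XT.lf (nat_lit 0) (nat_lit 29312715810) (nat_lit 456) (nat_lit 11126884392) (nat_lit 532) (nat_lit 4020281775) (nat_lit 46) (nat_lit 5) (nat_lit 52) (nat_lit 5) (nat_lit 53) (nat_lit 5) (nat_lit 292) (nat_lit 290) (nat_lit 198)))))) (XT.nd (nat_lit 624) (nat_lit 836) (nat_lit 0) (XT.nd (nat_lit 312) (nat_lit 608) (nat_lit 0) (XT.nd (nat_lit 156) (nat_lit 0) (nat_lit 76) (XT.nd (nat_lit 78) (nat_lit 0) (nat_lit 0) (XT.lf (nat_lit 76) (nat_lit 10162458578) (nat_lit 0) (nat_lit 21720125707) (nat_lit 532) (nat_lit 14387616654) (nat_lit 47) (nat_lit 5) (nat_lit 46) (nat_lit 5) (nat_lit 53) (nat_lit 5) (nat_lit 293) (nat_lit 290) (nat_lit 197)) (XT.lf (nat_lit 76) (nat_lit 33785615850) (nat_lit 0) (nat_lit 1173551619) (nat_lit 532) (nat_lit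 13242096686) (nat_lit 47) (nat_lit 5) (nat_lit 46) (nat_lit 5) (nat_lit 53) (nat_lit 5) (nat_lit 294) (nat_lit 290) (nat_lit 196))) (XT.nd (nat_lit 78) (nat_lit 0) (nat_lit 0) (XT.lf (nat_lit 76) (nat_lit 8951941421) (nat_lit 0) (nat_lit 30047831684) (nat_lit 532) (nat_lit 11229615768) (nat_lit 48) (nat_lit 5) (nat_lit 47) (nat_lit 5) (nat_lit 54) (nat_lit 5) (nat_lit 295) (nat_lit 290) (nat_lit 195)) (XT.lf (nat_lit 76) (nat_lit 34974507604) (nat_lit 0) (nat_lit 8810286170) (nat_lit 532) (nat_lit 8601283974) (nat_lit 48) (nat_lit 5) (nat_lit 47) (nat_lit 5) (nat_lit 54) (nat_lit 5) (nat_lit 296) (nat_lit 290) (nat_lit 194)))) (XT.nd (nat_lit 156) (nat_lit 304) (nat_lit 0) (XT.nd (nat_lit 78) (nat_lit 0) (nat_lit 0) (XT.lf (nat_lit 0) (nat_lit 8444012756) (nat_lit 456) (nat_lit 41048937084) (nat_lit 532) (nat_lit 5179132147) (nat_lit 42) (nat_lit 5) (nat_lit 48) (nat_lit 5) (nat_lit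 49) (nat_lit 5) (nat_lit 297) (nat_lit 290) (nat_lit 193)) (XT.lf (nat_lit 0) (nat_lit 37115190023) (nat_lit 456) (nat_lit 19239326381) (nat_lit 532) (nat_lit 730715955) (nat_lit 42) (nat_lit 5) (nat_lit 48) (nat_lit 5) (nat_lit 49) (nat_lit 5) (nat_lit 298) (nat_lit 290) (nat_lit 192))) (XT.nd (nat_lit 78) (nat_lit 0) (nat_lit 0) (XT.lf (nat_lit 0) (nat_lit 4189168878) (nat_lit 304) (nat_lit 51053790634) (nat_lit 76) (nat_lit 4415093444) (nat_lit 38) (nat_lit 5) (nat_lit 42) (nat_lit 5) (nat_lit 39) (nat_lit 5) (nat_lit 299) (nat_lit 290) (nat_lit 191)) (XT.lf (nat_lit 0) (nat_lit 10520966406) (nat_lit 304) (nat_lit 22327936102) (nat_lit 76) (nat_lit 29501659467) (nat_lit 38) (nat_lit 5) (nat_lit 42) (nat_lit 5) (nat_lit 39) (nat_lit 5) (nat_lit 300) (nat_lit 290) (nat_lit 190))))) (XT.nd (nat_lit 312) (nat_lit 380) (nat_lit 0) (XT.nd (nat_lit 156) (nat_lit 228) (nat_lit 0) (XT.nd (nat_lit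 78) (nat_lit 0) (nat_lit 0) (XT.lf (nat_lit 0) (nat_lit 9151700309) (nat_lit 228) (nat_lit 8425741406) (nat_lit 304) (nat_lit 47663584014) (nat_lit 35) (nat_lit 5) (nat_lit 38) (nat_lit 5) (nat_lit 39) (nat_lit 5) (nat_lit 301) (nat_lit 290) (nat_lit 189)) (XT.lf (nat_lit 0) (nat_lit 26254633455) (nat_lit 304) (nat_lit 24344144286) (nat_lit 76) (nat_lit 17679457349) (nat_lit 35) (nat_lit 5) (nat_lit 39) (nat_lit 5) (nat_lit 36) (nat_lit 5) (nat_lit 302) (nat_lit 290) (nat_lit 188))) (XT.nd (nat_lit 78) (nat_lit 0) (nat_lit 0) (XT.lf (nat_lit 0) (nat_lit 10231600746) (nat_lit 228) (nat_lit 25857586905) (nat_lit 304) (nat_lit 35432182635) (nat_lit 32) (nat_lit 5) (nat_lit 35) (nat_lit 5) (nat_lit 36) (nat_lit 5) (nat_lit 303) (nat_lit 290) (nat_lit 187)) (XT.lf (nat_lit 0) (nat_lit 47412499213) (nat_lit 304) (nat_lit 26052973458) (nat_lit 76) (nat_lit 1502327942) (nat_lit 32) (nat_lit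 5) (nat_lit 36) (nat_lit 5) (nat_lit 33) (nat_lit 5) (nat_lit 304) (nat_lit 290) (nat_lit 186)))) (XT.nd (nat_lit 156) (nat_lit 228) (nat_lit 0) (XT.nd (nat_lit 78) (nat_lit 0) (nat_lit 0) (XT.lf (nat_lit 0) (nat_lit 11925768519) (nat_lit 152) (nat_lit 48672810433) (nat_lit 228) (nat_lit 18014817629) (nat_lit 30) (nat_lit 5) (nat_lit 32) (nat_lit 5) (nat_lit 33) (nat_lit 5) (nat_lit 305) (nat_lit 290) (nat_lit 185)) (XT.lf (nat_lit 0) (nat_lit 54422567445) (nat_lit 152) (nat_lit 21127842924) (nat_lit 228) (nat_lit 6943363855) (nat_lit 30) (nat_lit 5) (nat_lit 32) (nat_lit 5) (nat_lit 33) (nat_lit 5) (nat_lit 306) (nat_lit 290) (nat_lit 184))) (XT.nd (nat_lit 78) (nat_lit 0) (nat_lit 0) (XT.lf (nat_lit 0) (nat_lit 5323010879) (nat_lit 228) (nat_lit 72643383085) (nat_lit 76) (nat_lit 8663743058) (nat_lit 27) (nat_lit 5) (nat_lit 30) (nat_lit 5) (nat_lit 28) (nat_lit 5) (nat_lit 307) (nat_lit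 290) (nat_lit 183)) (XT.lf (nat_lit 0) (nat_lit 19530452059) (nat_lit 228) (nat_lit 30781165601) (nat_lit 76) (nat_lit 40664575692) (nat_lit 27) (nat_lit 5) (nat_lit 30) (nat_lit 5) (nat_lit 28) (nat_lit 5) (nat_lit 308) (nat_lit 290) (nat_lit 182))))))))
noncomputable def xc95 : XT := (XT.nd (nat_lit 2496) (nat_lit 304) (nat_lit 0) (XT.nd (nat_lit 1248) (nat_lit 532) (nat_lit 0) (XT.nd (nat_lit 624) (nat_lit 456) (nat_lit 0) (XT.nd (nat_lit 312) (nat_lit 304) (nat_lit 0) (XT.nd (nat_lit 156) (nat_lit 152) (nat_lit 0) (XT.nd (nat_lit 78) (nat_lit 0) (nat_lit 0) (XT.lf (nat_lit 0) (nat_lit 15188050555) (nat_lit 152) (nat_lit 20050462151) (nat_lit 228) (nat_lit 60402301916) (nat_lit 25) (nat_lit 5) (nat_lit 27) (nat_lit 5) (nat_lit 28) (nat_lit 5) (nat_lit 309) (nat_lit 290) (nat_lit 181)) (XT.lf (nat_lit 0) (nat_lit 53369270415) (nat_lit 228) (nat_lit 34353358616) (nat_lit 76) (nat_lit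 12862694577) (nat_lit 25) (nat_lit 5) (nat_lit 28) (nat_lit 5) (nat_lit 26) (nat_lit 5) (nat_lit 310) (nat_lit 290) (nat_lit 180))) (XT.nd (nat_lit 78) (nat_lit 0) (nat_lit 0) (XT.lf (nat_lit 0) (nat_lit 15696768288) (nat_lit 152) (nat_lit 58150899525) (nat_lit 228) (nat_lit 32005953204) (nat_lit 23) (nat_lit 5) (nat_lit 25) (nat_lit 5) (nat_lit 26) (nat_lit 5) (nat_lit 311) (nat_lit 290) (nat_lit 179)) (XT.lf (nat_lit 0) (nat_lit 71702997526) (nat_lit 152) (nat_lit 25199545511) (nat_lit 228) (nat_lit 14565784577) (nat_lit 23) (nat_lit 5) (nat_lit 25) (nat_lit 5) (nat_lit 26) (nat_lit 5) (nat_lit 312) (nat_lit 290) (nat_lit 178)))) (XT.nd (nat_lit 156) (nat_lit 152) (nat_lit 0) (XT.nd (nat_lit 78) (nat_lit 0) (nat_lit 0) (XT.lf (nat_lit 0) (nat_lit 4685482867) (nat_lit 152) (nat_lit 102437027753) (nat_lit 76) (nat_lit 10351129585) (nat_lit 21) (nat_lit 5) (nat_lit 23) (nat_lit 5) (nat_lit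 22) (nat_lit 5) (nat_lit 313) (nat_lit 290) (nat_lit 177)) (XT.lf (nat_lit 0) (nat_lit 26458952945) (nat_lit 152) (nat_lit 48450881627) (nat_lit 76) (nat_lit 48877755600) (nat_lit 21) (nat_lit 5) (nat_lit 23) (nat_lit 5) (nat_lit 22) (nat_lit 5) (nat_lit 314) (nat_lit 290) (nat_lit 176))) (XT.nd (nat_lit 78) (nat_lit 0) (nat_lit 0) (XT.lf (nat_lit 0) (nat_lit 10371520490) (nat_lit 152) (nat_lit 39851292600) (nat_lit 228) (nat_lit 80363963434) (nat_lit 19) (nat_lit 5) (nat_lit 21) (nat_lit 5) (nat_lit 22) (nat_lit 5) (nat_lit 315) (nat_lit 290) (nat_lit 175)) (XT.lf (nat_lit 0) (nat_lit 76653735180) (nat_lit 152) (nat_lit 557891083) (nat_lit 228) (nat_lit 60612365260) (nat_lit 19) (nat_lit 5) (nat_lit 21) (nat_lit 5) (nat_lit 22) (nat_lit 5) (nat_lit 316) (nat_lit 290) (nat_lit 174))))) (XT.nd (nat_lit 312) (nat_lit 152) (nat_lit 0) (XT.nd (nat_lit 156) (nat_lit 228) (nat_lit 0) (XT.nd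 (nat_lit 78) (nat_lit 0) (nat_lit 0) (XT.lf (nat_lit 0) (nat_lit 1673493963) (nat_lit 76) (nat_lit 105732653796) (nat_lit 152) (nat_lit 38150308885) (nat_lit 18) (nat_lit 5) (nat_lit 19) (nat_lit 5) (nat_lit 20) (nat_lit 4) (nat_lit 317) (nat_lit 290) (nat_lit 173)) (XT.lf (nat_lit 0) (nat_lit 73006958256) (nat_lit 76) (nat_lit 68695094555) (nat_lit 152) (nat_lit 12070601514) (nat_lit 18) (nat_lit 5) (nat_lit 19) (nat_lit 5) (nat_lit 20) (nat_lit 4) (nat_lit 318) (nat_lit 290) (nat_lit 172))) (XT.nd (nat_lit 78) (nat_lit 152) (nat_lit 0) (XT.lf (nat_lit 0) (nat_lit 15289555340) (nat_lit 152) (nat_lit 12987425942) (nat_lit 76) (nat_lit 134338261010) (nat_lit 17) (nat_lit 5) (nat_lit 19) (nat_lit 5) (nat_lit 18) (nat_lit 5) (nat_lit 319) (nat_lit 290) (nat_lit 171)) (XT.lf (nat_lit 0) (nat_lit 46119383121) (nat_lit 228) (nat_lit 109383637367) (nat_lit 76) (nat_lit 16482497158) (nat_lit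 15) (nat_lit 5) (nat_lit 18) (nat_lit 5) (nat_lit 16) (nat_lit 4) (nat_lit 320) (nat_lit 290) (nat_lit 170)))) (XT.nd (nat_lit 156) (nat_lit 76) (nat_lit 0) (XT.nd (nat_lit 78) (nat_lit 76) (nat_lit 0) (XT.lf (nat_lit 0) (nat_lit 80513690995) (nat_lit 228) (nat_lit 37844960437) (nat_lit 76) (nat_lit 63658916893) (nat_lit 15) (nat_lit 5) (nat_lit 18) (nat_lit 5) (nat_lit 16) (nat_lit 4) (nat_lit 321) (nat_lit 290) (nat_lit 169)) (XT.lf (nat_lit 0) (nat_lit 41491260067) (nat_lit 76) (nat_lit 77165504999) (nat_lit 152) (nat_lit 74115641014) (nat_lit 14) (nat_lit 5) (nat_lit 15) (nat_lit 5) (nat_lit 16) (nat_lit 4) (nat_lit 322) (nat_lit 290) (nat_lit 168))) (XT.nd (nat_lit 78) (nat_lit 76) (nat_lit 0) (XT.lf (nat_lit 0) (nat_lit 129325571335) (nat_lit 76) (nat_lit 31559839444) (nat_lit 152) (nat_lit 43419490707) (nat_lit 14) (nat_lit 5) (nat_lit 15) (nat_lit 5) (nat_lit 16) (nat_lit 4)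 (nat_lit 323) (nat_lit 290) (nat_lit 167)) (XT.lf (nat_lit 0) (nat_lit 7368653461) (nat_lit 76) (nat_lit 199725872115) (nat_lit 76) (nat_lit 9617297396) (nat_lit 13) (nat_lit 4) (nat_lit 14) (nat_lit 5) (nat_lit 14) (nat_lit 4) (nat_lit 324) (nat_lit 290) (nat_lit 166)))))) (XT.nd (nat_lit 624) (nat_lit 228) (nat_lit 0) (XT.nd (nat_lit 312) (nat_lit 152) (nat_lit 0) (XT.nd (nat_lit 156) (nat_lit 76) (nat_lit 0) (XT.nd (nat_lit 78) (nat_lit 0) (nat_lit 0) (XT.lf (nat_lit 0) (nat_lit 28466440564) (nat_lit 152) (nat_lit 130899387953) (nat_lit 76) (nat_lit 70459938028) (nat_lit 12) (nat_lit 5) (nat_lit 14) (nat_lit 5) (nat_lit 13) (nat_lit 4) (nat_lit 325) (nat_lit 290) (nat_lit 165)) (XT.lf (nat_lit 0) (nat_lit 69076753957) (nat_lit 152) (nat_lit 46430870920) (nat_lit 76) (nat_lit 128461260420) (nat_lit 12) (nat_lit 5) (nat_lit 14) (nat_lit 5) (nat_lit 13) (nat_lit 4) (nat_lit 326) (nat_lit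 290) (nat_lit 164))) (XT.nd (nat_lit 78) (nat_lit 0) (nat_lit 0) (XT.lf (nat_lit 0) (nat_lit 47153016869) (nat_lit 76) (nat_lit 66916406975) (nat_lit 152) (nat_lit 145083347660) (nat_lit 11) (nat_lit 5) (nat_lit 12) (nat_lit 5) (nat_lit 13) (nat_lit 4) (nat_lit 327) (nat_lit 290) (nat_lit 163)) (XT.lf (nat_lit 0) (nat_lit 150863307645) (nat_lit 76) (nat_lit 13067218236) (nat_lit 152) (nat_lit 111519321679) (nat_lit 11) (nat_lit 5) (nat_lit 12) (nat_lit 5) (nat_lit 13) (nat_lit 4) (nat_lit 328) (nat_lit 290) (nat_lit 162)))) (XT.nd (nat_lit 156) (nat_lit 76) (nat_lit 0) (XT.nd (nat_lit 78) (nat_lit 76) (nat_lit 0) (XT.lf (nat_lit 0) (nat_lit 218864472826) (nat_lit 152) (nat_lit 31265517060) (nat_lit 0) (nat_lit 42833983676) (nat_lit 11) (nat_lit 5) (nat_lit 13) (nat_lit 4) (nat_lit 11) (nat_lit 4) (nat_lit 329) (nat_lit 290) (nat_lit 161)) (XT.lf (nat_lit 0) (nat_lit 72823954686) (nat_lit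 76) (nat_lit 207459584219) (nat_lit 76) (nat_lit 31428458844) (nat_lit 10) (nat_lit 4) (nat_lit 11) (nat_lit 5) (nat_lit 11) (nat_lit 4) (nat_lit 330) (nat_lit 290) (nat_lit 160))) (XT.nd (nat_lit 78) (nat_lit 0) (nat_lit 0) (XT.lf (nat_lit 0) (nat_lit 14799738717) (nat_lit 152) (nat_lit 145248257939) (nat_lit 76) (nat_lit 171813537799) (nat_lit 9) (nat_lit 5) (nat_lit 11) (nat_lit 5) (nat_lit 10) (nat_lit 4) (nat_lit 331) (nat_lit 290) (nat_lit 159)) (XT.lf (nat_lit 0) (nat_lit 63027849595) (nat_lit 152) (nat_lit 44934332775) (nat_lit 76) (nat_lit 245595577288) (nat_lit 9) (nat_lit 5) (nat_lit 11) (nat_lit 5) (nat_lit 10) (nat_lit 4) (nat_lit 332) (nat_lit 290) (nat_lit 158))))) (XT.nd (nat_lit 312) (nat_lit 76) (nat_lit 0) (XT.nd (nat_lit 156) (nat_lit 76) (nat_lit 0) (XT.nd (nat_lit 78) (nat_lit 0) (nat_lit 0) (XT.lf (nat_lit 0) (nat_lit 66742784921) (nat_lit 76) (nat_lit 49976229459)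 (nat_lit 152) (nat_lit 260142284368) (nat_lit 8) (nat_lit 5) (nat_lit 9) (nat_lit 5) (nat_lit 10) (nat_lit 4) (nat_lit 333) (nat_lit 290) (nat_lit 157)) (XT.lf (nat_lit 0) (nat_lit 176269810391) (nat_lit 152) (nat_lit 212358087314) (nat_lit 0) (nat_lit 13276076470) (nat_lit 8) (nat_lit 5) (nat_lit 10) (nat_lit 4) (nat_lit 8) (nat_lit 4) (nat_lit 334) (nat_lit 290) (nat_lit 156))) (XT.nd (nat_lit 78) (nat_lit 76) (nat_lit 0) (XT.lf (nat_lit 0) (nat_lit 241882423731) (nat_lit 152) (nat_lit 108075530969) (nat_lit 0) (nat_lit 78888288880) (nat_lit 8) (nat_lit 5) (nat_lit 10) (nat_lit 4) (nat_lit 8) (nat_lit 4) (nat_lit 335) (nat_lit 290) (nat_lit 155)) (XT.lf (nat_lit 0) (nat_lit 4788600631) (nat_lit 76) (nat_lit 308070305695) (nat_lit 76) (nat_lit 145075799613) (nat_lit 7) (nat_lit 4) (nat_lit 8) (nat_lit 5) (nat_lit 8) (nat_lit 4) (nat_lit 336) (nat_lit 290) (nat_lit 154)))) (XT.nd (nat_lit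 156) (nat_lit 76) (nat_lit 0) (XT.nd (nat_lit 78) (nat_lit 0) (nat_lit 0) (XT.lf (nat_lit 0) (nat_lit 132827654062) (nat_lit 76) (nat_lit 259640533423) (nat_lit 76) (nat_lit 96645683609) (nat_lit 7) (nat_lit 4) (nat_lit 8) (nat_lit 5) (nat_lit 8) (nat_lit 4) (nat_lit 337) (nat_lit 290) (nat_lit 153)) (XT.lf (nat_lit 0) (nat_lit 271109313335) (nat_lit 76) (nat_lit 207336623183) (nat_lit 76) (nat_lit 44341455098) (nat_lit 7) (nat_lit 4) (nat_lit 8) (nat_lit 5) (nat_lit 8) (nat_lit 4) (nat_lit 338) (nat_lit 290) (nat_lit 152))) (XT.nd (nat_lit 78) (nat_lit 0) (nat_lit 0) (XT.lf (nat_lit 0) (nat_lit 11539202924) (nat_lit 152) (nat_lit 138993920696) (nat_lit 76) (nat_lit 408598320137) (nat_lit 6) (nat_lit 5) (nat_lit 8) (nat_lit 5) (nat_lit 7) (nat_lit 4) (nat_lit 339) (nat_lit 290) (nat_lit 151)) (XT.lf (nat_lit 0) (nat_lit 69494481580) (nat_lit 152) (nat_lit 18447213959) (nat_lit 76) (nat_lit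 510349205928) (nat_lit 6) (nat_lit 5) (nat_lit 8) (nat_lit 5) (nat_lit 7) (nat_lit 4) (nat_lit 340) (nat_lit 290) (nat_lit 150))))))) (XT.nd (nat_lit 1248) (nat_lit 0) (nat_lit 0) (XT.nd (nat_lit 624) (nat_lit 152) (nat_lit 0) (XT.nd (nat_lit 312) (nat_lit 76) (nat_lit 0) (XT.nd (nat_lit 156) (nat_lit 0) (nat_lit 0) (XT.nd (nat_lit 78) (nat_lit 0) (nat_lit 0) (XT.lf (nat_lit 0) (nat_lit 117626983975) (nat_lit 76) (nat_lit 17287906541) (nat_lit 152) (nat_lit 505441928774) (nat_lit 5) (nat_lit 5) (nat_lit 6) (nat_lit 5) (nat_lit 7) (nat_lit 4) (nat_lit 341) (nat_lit 290) (nat_lit 149)) (XT.lf (nat_lit 0) (nat_lit 207505579383) (nat_lit 152) (nat_lit 421544348124) (nat_lit 0) (nat_lit 56583151384) (nat_lit 5) (nat_lit 5) (nat_lit 7) (nat_lit 4) (nat_lit 5) (nat_lit 4) (nat_lit 342) (nat_lit 290) (nat_lit 148))) (XT.nd (nat_lit 78) (nat_lit 0) (nat_lit 0) (XT.lf (nat_lit 0) (nat_lit 286352354468)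 (nat_lit 152) (nat_lit 312713452515) (nat_lit 0) (nat_lit 135429725904) (nat_lit 5) (nat_lit 5) (nat_lit 7) (nat_lit 4) (nat_lit 5) (nat_lit 4) (nat_lit 343) (nat_lit 290) (nat_lit 147)) (XT.lf (nat_lit 0) (nat_lit 371506681354) (nat_lit 152) (nat_lit 195176450093) (nat_lit 0) (nat_lit 220583867082) (nat_lit 5) (nat_lit 5) (nat_lit 7) (nat_lit 4) (nat_lit 5) (nat_lit 4) (nat_lit 344) (nat_lit 290) (nat_lit 146)))) (XT.nd (nat_lit 156) (nat_lit 0) (nat_lit 0) (XT.nd (nat_lit 78) (nat_lit 76) (nat_lit 0) (XT.lf (nat_lit 0) (nat_lit 463473178274) (nat_lit 152) (nat_lit 68236825289) (nat_lit 0) (nat_lit 312550192050) (nat_lit 5) (nat_lit 5) (nat_lit 7) (nat_lit 4) (nat_lit 5) (nat_lit 4) (nat_lit 345) (nat_lit 290) (nat_lit 145)) (XT.lf (nat_lit 0) (nat_lit 72483578886) (nat_lit 76) (nat_lit 492056484805) (nat_lit 76) (nat_lit 341133339366) (nat_lit 4) (nat_lit 4) (nat_lit 5) (nat_lit 5)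 (nat_lit 5) (nat_lit 4) (nat_lit 346) (nat_lit 290) (nat_lit 144))) (XT.nd (nat_lit 78) (nat_lit 0) (nat_lit 0) (XT.lf (nat_lit 0) (nat_lit 228341999244) (nat_lit 76) (nat_lit 447215858103) (nat_lit 76) (nat_lit 296292565244) (nat_lit 4) (nat_lit 4) (nat_lit 5) (nat_lit 5) (nat_lit 5) (nat_lit 4) (nat_lit 347) (nat_lit 290) (nat_lit 143)) (XT.lf (nat_lit 0) (nat_lit 396668810943) (nat_lit 76) (nat_lit 398788116956) (nat_lit 76) (nat_lit 247864687596) (nat_lit 4) (nat_lit 4) (nat_lit 5) (nat_lit 5) (nat_lit 5) (nat_lit 4) (nat_lit 348) (nat_lit 290) (nat_lit 142))))) (XT.nd (nat_lit 312) (nat_lit 152) (nat_lit 0) (XT.nd (nat_lit 156) (nat_lit 0) (nat_lit 0) (XT.nd (nat_lit 78) (nat_lit 0) (nat_lit 0) (XT.lf (nat_lit 0) (nat_lit 578461506202) (nat_lit 76) (nat_lit 346486282157) (nat_lit 76) (nat_lit 195562726406) (nat_lit 4) (nat_lit 4) (nat_lit 5) (nat_lit 5) (nat_lit 5) (nat_lit 4) (nat_lit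 349) (nat_lit 290) (nat_lit 141)) (XT.lf (nat_lit 0) (nat_lit 774797375065) (nat_lit 76) (nat_lit 290000416906) (nat_lit 76) (nat_lit 139076744128) (nat_lit 4) (nat_lit 4) (nat_lit 5) (nat_lit 5) (nat_lit 5) (nat_lit 4) (nat_lit 350) (nat_lit 290) (nat_lit 140))) (XT.nd (nat_lit 78) (nat_lit 0) (nat_lit 0) (XT.lf (nat_lit 0) (nat_lit 986839889350) (nat_lit 76) (nat_lit 228995790150) (nat_lit 76) (nat_lit 78072009013) (nat_lit 4) (nat_lit 4) (nat_lit 5) (nat_lit 5) (nat_lit 5) (nat_lit 4) (nat_lit 351) (nat_lit 290) (nat_lit 139)) (XT.lf (nat_lit 0) (nat_lit 1215845597288) (nat_lit 76) (nat_lit 163110892991) (nat_lit 76) (nat_lit 12187011522) (nat_lit 4) (nat_lit 4) (nat_lit 5) (nat_lit 5) (nat_lit 5) (nat_lit 4) (nat_lit 352) (nat_lit 290) (nat_lit 138)))) (XT.nd (nat_lit 156) (nat_lit 0) (nat_lit 0) (XT.nd (nat_lit 78) (nat_lit 76) (nat_lit 0) (XT.lf (nat_lit 0) (nat_lit 56018825865)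 (nat_lit 152) (nat_lit 34404816569) (nat_lit 76) (nat_lit 1405621089903) (nat_lit 3) (nat_lit 5) (nat_lit 5) (nat_lit 5) (nat_lit 4) (nat_lit 4) (nat_lit 353) (nat_lit 290) (nat_lit 137)) (XT.lf (nat_lit 0) (nat_lit 123627329439) (nat_lit 76) (nat_lit 8368531054) (nat_lit 152) (nat_lit 1477079025575) (nat_lit 2) (nat_lit 5) (nat_lit 3) (nat_lit 5) (nat_lit 4) (nat_lit 4) (nat_lit 354) (nat_lit 290) (nat_lit 136))) (XT.nd (nat_lit 78) (nat_lit 0) (nat_lit 0) (XT.lf (nat_lit 0) (nat_lit 216946124076) (nat_lit 152) (nat_lit 1436768172802) (nat_lit 0) (nat_lit 77201549969) (nat_lit 2) (nat_lit 5) (nat_lit 4) (nat_lit 4) (nat_lit 2) (nat_lit 4) (nat_lit 355) (nat_lit 290) (nat_lit 135)) (XT.lf (nat_lit 0) (nat_lit 308909685998) (nat_lit 152) (nat_lit 1384411972744) (nat_lit 0) (nat_lit 169165043607) (nat_lit 2) (nat_lit 5) (nat_lit 4) (nat_lit 4) (nat_lit 2) (nat_lit 4) (nat_lit 356) (nat_lit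 290) (nat_lit 134)))))) (XT.nd (nat_lit 624) (nat_lit 0) (nat_lit 0) (XT.nd (nat_lit 312) (nat_lit 0) (nat_lit 0) (XT.nd (nat_lit 156) (nat_lit 0) (nat_lit 0) (XT.nd (nat_lit 78) (nat_lit 0) (nat_lit 0) (XT.lf (nat_lit 0) (nat_lit 408230252143) (nat_lit 152) (nat_lit 1327867434118) (nat_lit 0) (nat_lit 268485546525) (nat_lit 2) (nat_lit 5) (nat_lit 4) (nat_lit 4) (nat_lit 2) (nat_lit 4) (nat_lit 357) (nat_lit 290) (nat_lit 133)) (XT.lf (nat_lit 0) (nat_lit 515496388827) (nat_lit 152) (nat_lit 1266799478178) (nat_lit 0) (nat_lit 375751624667) (nat_lit 2) (nat_lit 5) (nat_lit 4) (nat_lit 4) (nat_lit 2) (nat_lit 4) (nat_lit 358) (nat_lit 290) (nat_lit 132))) (XT.nd (nat_lit 78) (nat_lit 0) (nat_lit 0) (XT.lf (nat_lit 0) (nat_lit 631343747233) (nat_lit 152) (nat_lit 1200846220739) (nat_lit 0) (nat_lit 491598928866) (nat_lit 2) (nat_lit 5) (nat_lit 4) (nat_lit 4) (nat_lit 2) (nat_lit 4) (nat_lit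 359) (nat_lit 290) (nat_lit 131)) (XT.lf (nat_lit 0) (nat_lit 756458830224) (nat_lit 152) (nat_lit 1129616827685) (nat_lit 0) (nat_lit 616713961666) (nat_lit 2) (nat_lit 5) (nat_lit 4) (nat_lit 4) (nat_lit 2) (nat_lit 4) (nat_lit 360) (nat_lit 290) (nat_lit 130)))) (XT.nd (nat_lit 156) (nat_lit 0) (nat_lit 0) (XT.nd (nat_lit 78) (nat_lit 0) (nat_lit 0) (XT.lf (nat_lit 0) (nat_lit 891583060514) (nat_lit 152) (nat_lit 1052689198907) (nat_lit 0) (nat_lit 751838145483) (nat_lit 2) (nat_lit 5) (nat_lit 4) (nat_lit 4) (nat_lit 2) (nat_lit 4) (nat_lit 361) (nat_lit 290) (nat_lit 129)) (XT.lf (nat_lit 0) (nat_lit 1037517174283) (nat_lit 152) (nat_lit 969607466977) (nat_lit 0) (nat_lit 897772216221) (nat_lit 2) (nat_lit 5) (nat_lit 4) (nat_lit 4) (nat_lit 2) (nat_lit 4) (nat_lit 362) (nat_lit 290) (nat_lit 128))) (XT.nd (nat_lit 78) (nat_lit 0) (nat_lit 0) (XT.lf (nat_lit 0) (nat_lit 1195125966279)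 (nat_lit 152) (nat_lit 879879295704) (nat_lit 0) (nat_lit 1055380968373) (nat_lit 2) (nat_lit 5) (nat_lit 4) (nat_lit 4) (nat_lit 2) (nat_lit 4) (nat_lit 363) (nat_lit 290) (nat_lit 127)) (XT.lf (nat_lit 0) (nat_lit 1365343414528) (nat_lit 152) (nat_lit 782972962593) (nat_lit 0) (nat_lit 1225598379731) (nat_lit 2) (nat_lit 5) (nat_lit 4) (nat_lit 4) (nat_lit 2) (nat_lit 4) (nat_lit 364) (nat_lit 290) (nat_lit 126))))) (XT.nd (nat_lit 35022) (nat_lit 0) (nat_lit 3344) (XT.nd (nat_lit 34866) (nat_lit 0) (nat_lit 3268) (XT.nd (nat_lit 78) (nat_lit 0) (nat_lit 0) (XT.lf (nat_lit 0) (nat_lit 1549178215021) (nat_lit 152) (nat_lit 678314207891) (nat_lit 0) (nat_lit 1409433146065) (nat_lit 2) (nat_lit 5) (nat_lit 4) (nat_lit 4) (nat_lit 2) (nat_lit 4) (nat_lit 365) (nat_lit 290) (nat_lit 125)) (XT.lf (nat_lit 0) (nat_lit 1747719759168) (nat_lit 152) (nat_lit 565282831572) (nat_lit 0) (nat_lit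 1607974658582) (nat_lit 2) (nat_lit 5) (nat_lit 4) (nat_lit 4) (nat_lit 2) (nat_lit 4) (nat_lit 366) (nat_lit 290) (nat_lit 124))) (XT.nd (nat_lit 78) (nat_lit 0) (nat_lit 0) (XT.lf (nat_lit 0) (nat_lit 14160963332) (nat_lit 532) (nat_lit 4019737305) (nat_lit 532) (nat_lit 4019737305) (nat_lit 45) (nat_lit 3) (nat_lit 52) (nat_lit 3) (nat_lit 52) (nat_lit 5) (nat_lit 291) (nat_lit 291) (nat_lit 198)) (XT.lf (nat_lit 76) (nat_lit 12987538443) (nat_lit 0) (nat_lit 16810031977) (nat_lit 532) (nat_lit 16351831644) (nat_lit 46) (nat_lit 5) (nat_lit 45) (nat_lit 3) (nat_lit 52) (nat_lit 5) (nat_lit 292) (nat_lit 291) (nat_lit 197)))) (XT.nd (nat_lit 156) (nat_lit 0) (nat_lit 0) (XT.nd (nat_lit 78) (nat_lit 0) (nat_lit 0) (XT.lf (nat_lit 0) (nat_lit 31717282394) (nat_lit 456) (nat_lit 11977578628) (nat_lit 532) (nat_lit 4316876733) (nat_lit 46) (nat_lit 5) (nat_lit 52) (nat_lit 5) (nat_lit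 53) (nat_lit 5) (nat_lit 293) (nat_lit 291) (nat_lit 196)) (XT.lf (nat_lit 76) (nat_lit 11013912880) (nat_lit 0) (nat_lit 23475341313) (nat_lit 532) (nat_lit 15477919588) (nat_lit 47) (nat_lit 5) (nat_lit 46) (nat_lit 5) (nat_lit 53) (nat_lit 5) (nat_lit 294) (nat_lit 291) (nat_lit 195))) (XT.nd (nat_lit 78) (nat_lit 0) (nat_lit 76) (XT.lf (nat_lit 76) (nat_lit 36524074022) (nat_lit 0) (nat_lit 1283737184) (nat_lit 532) (nat_lit 14245254792) (nat_lit 47) (nat_lit 5) (nat_lit 46) (nat_lit 5) (nat_lit 53) (nat_lit 5) (nat_lit 295) (nat_lit 291) (nat_lit 194)) (XT.lf (nat_lit 76) (nat_lit 9707376719) (nat_lit 0) (nat_lit 32461025038) (nat_lit 532) (nat_lit 12075310868) (nat_lit 48) (nat_lit 5) (nat_lit 47) (nat_lit 5) (nat_lit 54) (nat_lit 5) (nat_lit 296) (nat_lit 291) (nat_lit 193))))))))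
noncomputable def xc96 : XT := (XT.nd (nat_lit 2418) (nat_lit 760) (nat_lit 0) (XT.nd (nat_lit 1170) (nat_lit 988) (nat_lit 0) (XT.nd (nat_lit 546) (nat_lit 760) (nat_lit 0) (XT.nd (nat_lit 234) (nat_lit 532) (nat_lit 0) (XT.nd (nat_lit 78) (nat_lit 380) (nat_lit 0) (XT.lf (nat_lit 76) (nat_lit 37808838568) (nat_lit 0) (nat_lit 9523782045) (nat_lit 532) (nat_lit 9240614321) (nat_lit 48) (nat_lit 5) (nat_lit 47) (nat_lit 5) (nat_lit 54) (nat_lit 5) (nat_lit 297) (nat_lit 291) (nat_lit 192)) (XT.nd (nat_lit 78) (nat_lit 0) (nat_lit 0) (XT.lf (nat_lit 0) (nat_lit 9158821297) (nat_lit 456) (nat_lit 44336023054) (nat_lit 532) (nat_lit 5547491245) (nat_lit 42) (nat_lit 5) (nat_lit 48) (nat_lit 5) (nat_lit 49) (nat_lit 5) (nat_lit 298) (nat_lit 291) (nat_lit 191)) (XT.lf (nat_lit 0) (nat_lit 40120782560) (nat_lit 456) (nat_lit 20781408605) (nat_lit 532) (nat_lit 746607052) (nat_lit 42) (nat_lit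 5) (nat_lit 48) (nat_lit 5) (nat_lit 49) (nat_lit 5) (nat_lit 299) (nat_lit 291) (nat_lit 190)))) (XT.nd (nat_lit 156) (nat_lit 228) (nat_lit 0) (XT.nd (nat_lit 78) (nat_lit 0) (nat_lit 0) (XT.lf (nat_lit 0) (nat_lit 4562631633) (nat_lit 304) (nat_lit 55097287640) (nat_lit 76) (nat_lit 4767619282) (nat_lit 38) (nat_lit 5) (nat_lit 42) (nat_lit 5) (nat_lit 39) (nat_lit 5) (nat_lit 300) (nat_lit 291) (nat_lit 189)) (XT.lf (nat_lit 0) (nat_lit 11398133760) (nat_lit 304) (nat_lit 24076387431) (nat_lit 76) (nat_lit 31861161079) (nat_lit 38) (nat_lit 5) (nat_lit 42) (nat_lit 5) (nat_lit 39) (nat_lit 5) (nat_lit 301) (nat_lit 291) (nat_lit 188))) (XT.nd (nat_lit 78) (nat_lit 0) (nat_lit 0) (XT.lf (nat_lit 0) (nat_lit 9920663347) (nat_lit 228) (nat_lit 9096720545) (nat_lit 304) (nat_lit 51440145018) (nat_lit 35) (nat_lit 5) (nat_lit 38) (nat_lit 5) (nat_lit 39) (nat_lit 5) (nat_lit 302) (nat_lit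 291) (nat_lit 187)) (XT.lf (nat_lit 0) (nat_lit 28386319797) (nat_lit 304) (nat_lit 26255072299) (nat_lit 76) (nat_lit 19096523280) (nat_lit 35) (nat_lit 5) (nat_lit 39) (nat_lit 5) (nat_lit 36) (nat_lit 5) (nat_lit 303) (nat_lit 291) (nat_lit 186))))) (XT.nd (nat_lit 312) (nat_lit 380) (nat_lit 0) (XT.nd (nat_lit 156) (nat_lit 152) (nat_lit 0) (XT.nd (nat_lit 78) (nat_lit 0) (nat_lit 0) (XT.lf (nat_lit 0) (nat_lit 11085805664) (nat_lit 228) (nat_lit 27920371016) (nat_lit 304) (nat_lit 38234447068) (nat_lit 32) (nat_lit 5) (nat_lit 35) (nat_lit 5) (nat_lit 36) (nat_lit 5) (nat_lit 304) (nat_lit 291) (nat_lit 185)) (XT.lf (nat_lit 0) (nat_lit 51233271423) (nat_lit 304) (nat_lit 28102032650) (nat_lit 76) (nat_lit 1627635992) (nat_lit 32) (nat_lit 5) (nat_lit 36) (nat_lit 5) (nat_lit 33) (nat_lit 5) (nat_lit 305) (nat_lit 291) (nat_lit 184))) (XT.nd (nat_lit 78) (nat_lit 0) (nat_lit 0)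 (XT.lf (nat_lit 0) (nat_lit 12914118087) (nat_lit 152) (nat_lit 52558886879) (nat_lit 228) (nat_lit 19427282004) (nat_lit 30) (nat_lit 5) (nat_lit 32) (nat_lit 5) (nat_lit 33) (nat_lit 5) (nat_lit 306) (nat_lit 291) (nat_lit 183)) (XT.lf (nat_lit 0) (nat_lit 58808121068) (nat_lit 152) (nat_lit 22810895924) (nat_lit 228) (nat_lit 7472239412) (nat_lit 30) (nat_lit 5) (nat_lit 32) (nat_lit 5) (nat_lit 33) (nat_lit 5) (nat_lit 307) (nat_lit 291) (nat_lit 182)))) (XT.nd (nat_lit 156) (nat_lit 152) (nat_lit 0) (XT.nd (nat_lit 78) (nat_lit 0) (nat_lit 0) (XT.lf (nat_lit 0) (nat_lit 5773215518) (nat_lit 228) (nat_lit 78420779685) (nat_lit 76) (nat_lit 9364557508) (nat_lit 27) (nat_lit 5) (nat_lit 30) (nat_lit 5) (nat_lit 28) (nat_lit 5) (nat_lit 308) (nat_lit 291) (nat_lit 181)) (XT.lf (nat_lit 0) (nat_lit 21115447269) (nat_lit 228) (nat_lit 33212108806) (nat_lit 76) (nat_lit 43924885271) (nat_lit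 27) (nat_lit 5) (nat_lit 30) (nat_lit 5) (nat_lit 28) (nat_lit 5) (nat_lit 309) (nat_lit 291) (nat_lit 180))) (XT.nd (nat_lit 78) (nat_lit 0) (nat_lit 0) (XT.lf (nat_lit 0) (nat_lit 16433845907) (nat_lit 152) (nat_lit 21645375389) (nat_lit 228) (nat_lit 65211088705) (nat_lit 25) (nat_lit 5) (nat_lit 27) (nat_lit 5) (nat_lit 28) (nat_lit 5) (nat_lit 310) (nat_lit 291) (nat_lit 179)) (XT.lf (nat_lit 0) (nat_lit 57659040752) (nat_lit 228) (nat_lit 37071718350) (nat_lit 76) (nat_lit 13899735446) (nat_lit 25) (nat_lit 5) (nat_lit 28) (nat_lit 5) (nat_lit 26) (nat_lit 5) (nat_lit 311) (nat_lit 291) (nat_lit 178)))))) (XT.nd (nat_lit 624) (nat_lit 456) (nat_lit 0) (XT.nd (nat_lit 312) (nat_lit 228) (nat_lit 0) (XT.nd (nat_lit 156) (nat_lit 152) (nat_lit 0) (XT.nd (nat_lit 78) (nat_lit 0) (nat_lit 0) (XT.lf (nat_lit 0) (nat_lit 16981661517) (nat_lit 152) (nat_lit 62793251102) (nat_lit 228) (nat_lit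 34545409631) (nat_lit 23) (nat_lit 5) (nat_lit 25) (nat_lit 5) (nat_lit 26) (nat_lit 5) (nat_lit 312) (nat_lit 291) (nat_lit 177)) (XT.lf (nat_lit 0) (nat_lit 77466229705) (nat_lit 152) (nat_lit 27206508796) (nat_lit 228) (nat_lit 15711584537) (nat_lit 23) (nat_lit 5) (nat_lit 25) (nat_lit 5) (nat_lit 26) (nat_lit 5) (nat_lit 313) (nat_lit 291) (nat_lit 176))) (XT.nd (nat_lit 78) (nat_lit 0) (nat_lit 0) (XT.lf (nat_lit 0) (nat_lit 5078326088) (nat_lit 152) (nat_lit 110603483346) (nat_lit 76) (nat_lit 11188254679) (nat_lit 21) (nat_lit 5) (nat_lit 23) (nat_lit 5) (nat_lit 22) (nat_lit 5) (nat_lit 314) (nat_lit 291) (nat_lit 175)) (XT.lf (nat_lit 0) (nat_lit 28592340099) (nat_lit 152) (nat_lit 52300557133) (nat_lit 76) (nat_lit 52796341537) (nat_lit 21) (nat_lit 5) (nat_lit 23) (nat_lit 5) (nat_lit 22) (nat_lit 5) (nat_lit 315) (nat_lit 291) (nat_lit 174)))) (XT.nd (nat_lit 156) (nat_lit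 76) (nat_lit 0) (XT.nd (nat_lit 78) (nat_lit 0) (nat_lit 0) (XT.lf (nat_lit 0) (nat_lit 11226968925) (nat_lit 152) (nat_lit 43029723977) (nat_lit 228) (nat_lit 86775718265) (nat_lit 19) (nat_lit 5) (nat_lit 21) (nat_lit 5) (nat_lit 22) (nat_lit 5) (nat_lit 316) (nat_lit 291) (nat_lit 173)) (XT.lf (nat_lit 0) (nat_lit 82809855102) (nat_lit 152) (nat_lit 593566786) (nat_lit 228) (nat_lit 65445278329) (nat_lit 19) (nat_lit 5) (nat_lit 21) (nat_lit 5) (nat_lit 22) (nat_lit 5) (nat_lit 317) (nat_lit 291) (nat_lit 172))) (XT.nd (nat_lit 78) (nat_lit 0) (nat_lit 0) (XT.lf (nat_lit 0) (nat_lit 1831561572) (nat_lit 76) (nat_lit 114181623534) (nat_lit 152) (nat_lit 41186604626) (nat_lit 18) (nat_lit 5) (nat_lit 19) (nat_lit 5) (nat_lit 20) (nat_lit 4) (nat_lit 318) (nat_lit 291) (nat_lit 171)) (XT.lf (nat_lit 0) (nat_lit 78869911297) (nat_lit 76) (nat_lit 74181773817) (nat_lit 152) (nat_lit 13021685775)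 (nat_lit 18) (nat_lit 5) (nat_lit 19) (nat_lit 5) (nat_lit 20) (nat_lit 4) (nat_lit 319) (nat_lit 291) (nat_lit 170))))) (XT.nd (nat_lit 312) (nat_lit 152) (nat_lit 0) (XT.nd (nat_lit 156) (nat_lit 76) (nat_lit 0) (XT.nd (nat_lit 78) (nat_lit 152) (nat_lit 0) (XT.lf (nat_lit 0) (nat_lit 16525530246) (nat_lit 152) (nat_lit 14004992331) (nat_lit 76) (nat_lit 145092898540) (nat_lit 17) (nat_lit 5) (nat_lit 19) (nat_lit 5) (nat_lit 18) (nat_lit 5) (nat_lit 320) (nat_lit 291) (nat_lit 169)) (XT.lf (nat_lit 0) (nat_lit 49821502554) (nat_lit 228) (nat_lit 118112644420) (nat_lit 76) (nat_lit 17809192026) (nat_lit 15) (nat_lit 5) (nat_lit 18) (nat_lit 5) (nat_lit 16) (nat_lit 4) (nat_lit 321) (nat_lit 291) (nat_lit 168))) (XT.nd (nat_lit 78) (nat_lit 76) (nat_lit 0) (XT.lf (nat_lit 0) (nat_lit 86966424037) (nat_lit 228) (nat_lit 40852479553) (nat_lit 76) (nat_lit 68759125703) (nat_lit 15) (nat_lit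 5) (nat_lit 18) (nat_lit 5) (nat_lit 16) (nat_lit 4) (nat_lit 322) (nat_lit 291) (nat_lit 167)) (XT.lf (nat_lit 0) (nat_lit 44830130295) (nat_lit 76) (nat_lit 83330422327) (nat_lit 152) (nat_lit 80032733757) (nat_lit 14) (nat_lit 5) (nat_lit 15) (nat_lit 5) (nat_lit 16) (nat_lit 4) (nat_lit 323) (nat_lit 291) (nat_lit 166)))) (XT.nd (nat_lit 156) (nat_lit 76) (nat_lit 0) (XT.nd (nat_lit 78) (nat_lit 76) (nat_lit 0) (XT.lf (nat_lit 0) (nat_lit 139689736877) (nat_lit 76) (nat_lit 34076920052) (nat_lit 152) (nat_lit 46881792058) (nat_lit 14) (nat_lit 5) (nat_lit 15) (nat_lit 5) (nat_lit 16) (nat_lit 4) (nat_lit 324) (nat_lit 291) (nat_lit 165)) (XT.lf (nat_lit 0) (nat_lit 7976449427) (nat_lit 76) (nat_lit 215695891946) (nat_lit 76) (nat_lit 10375596438) (nat_lit 13) (nat_lit 4) (nat_lit 14) (nat_lit 5) (nat_lit 14) (nat_lit 4) (nat_lit 325) (nat_lit 291) (nat_lit 164))) (XT.nd (nat_lit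 78) (nat_lit 0) (nat_lit 0) (XT.lf (nat_lit 0) (nat_lit 30753506037) (nat_lit 152) (nat_lit 141353868527) (nat_lit 76) (nat_lit 76103664115) (nat_lit 12) (nat_lit 5) (nat_lit 14) (nat_lit 5) (nat_lit 13) (nat_lit 4) (nat_lit 326) (nat_lit 291) (nat_lit 163)) (XT.lf (nat_lit 0) (nat_lit 74611922262) (nat_lit 152) (nat_lit 50129164239) (nat_lit 76) (nat_lit 138744578888) (nat_lit 12) (nat_lit 5) (nat_lit 14) (nat_lit 5) (nat_lit 13) (nat_lit 4) (nat_lit 327) (nat_lit 291) (nat_lit 162))))))) (XT.nd (nat_lit 1248) (nat_lit 228) (nat_lit 0) (XT.nd (nat_lit 624) (nat_lit 228) (nat_lit 0) (XT.nd (nat_lit 312) (nat_lit 152) (nat_lit 0) (XT.nd (nat_lit 156) (nat_lit 76) (nat_lit 0) (XT.nd (nat_lit 78) (nat_lit 0) (nat_lit 0) (XT.lf (nat_lit 0) (nat_lit 50941025046) (nat_lit 76) (nat_lit 72262691148) (nat_lit 152) (nat_lit 156680570093) (nat_lit 11) (nat_lit 5) (nat_lit 12) (nat_lit 5) (nat_lit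 13) (nat_lit 4) (nat_lit 328) (nat_lit 291) (nat_lit 161)) (XT.lf (nat_lit 0) (nat_lit 162946971170) (nat_lit 76) (nat_lit 14106087931) (nat_lit 152) (nat_lit 120432121691) (nat_lit 11) (nat_lit 5) (nat_lit 12) (nat_lit 5) (nat_lit 13) (nat_lit 4) (nat_lit 329) (nat_lit 291) (nat_lit 160))) (XT.nd (nat_lit 78) (nat_lit 76) (nat_lit 0) (XT.lf (nat_lit 0) (nat_lit 236381267376) (nat_lit 152) (nat_lit 33752779745) (nat_lit 0) (nat_lit 46266426648) (nat_lit 11) (nat_lit 5) (nat_lit 13) (nat_lit 4) (nat_lit 11) (nat_lit 4) (nat_lit 330) (nat_lit 291) (nat_lit 159)) (XT.lf (nat_lit 0) (nat_lit 78663495851) (nat_lit 76) (nat_lit 224050124884) (nat_lit 76) (nat_lit 33934738695) (nat_lit 10) (nat_lit 4) (nat_lit 11) (nat_lit 5) (nat_lit 11) (nat_lit 4) (nat_lit 331) (nat_lit 291) (nat_lit 158)))) (XT.nd (nat_lit 156) (nat_lit 76) (nat_lit 0) (XT.nd (nat_lit 78) (nat_lit 0) (nat_lit 0) (XT.lf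 (nat_lit 0) (nat_lit 15990751909) (nat_lit 152) (nat_lit 156855127274) (nat_lit 76) (nat_lit 185564009951) (nat_lit 9) (nat_lit 5) (nat_lit 11) (nat_lit 5) (nat_lit 10) (nat_lit 4) (nat_lit 332) (nat_lit 291) (nat_lit 157)) (XT.lf (nat_lit 0) (nat_lit 68076590612) (nat_lit 152) (nat_lit 48517050415) (nat_lit 76) (nat_lit 265248213405) (nat_lit 9) (nat_lit 5) (nat_lit 11) (nat_lit 5) (nat_lit 10) (nat_lit 4) (nat_lit 333) (nat_lit 291) (nat_lit 156))) (XT.nd (nat_lit 78) (nat_lit 0) (nat_lit 0) (XT.lf (nat_lit 0) (nat_lit 72093932165) (nat_lit 76) (nat_lit 53968915939) (nat_lit 152) (nat_lit 280946844949) (nat_lit 8) (nat_lit 5) (nat_lit 9) (nat_lit 5) (nat_lit 10) (nat_lit 4) (nat_lit 334) (nat_lit 291) (nat_lit 155)) (XT.lf (nat_lit 0) (nat_lit 190377360713) (nat_lit 152) (nat_lit 229335526994) (nat_lit 0) (nat_lit 14342922914) (nat_lit 8) (nat_lit 5) (nat_lit 10) (nat_lit 4) (nat_lit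 8) (nat_lit 4) (nat_lit 335) (nat_lit 291) (nat_lit 154))))) (XT.nd (nat_lit 312) (nat_lit 152) (nat_lit 0) (XT.nd (nat_lit 156) (nat_lit 0) (nat_lit 0) (XT.nd (nat_lit 78) (nat_lit 76) (nat_lit 0) (XT.lf (nat_lit 0) (nat_lit 261238541232) (nat_lit 152) (nat_lit 116711196312) (nat_lit 0) (nat_lit 85203759700) (nat_lit 8) (nat_lit 5) (nat_lit 10) (nat_lit 4) (nat_lit 8) (nat_lit 4) (nat_lit 336) (nat_lit 291) (nat_lit 153)) (XT.lf (nat_lit 0) (nat_lit 5181803104) (nat_lit 76) (nat_lit 332711173428) (nat_lit 76) (nat_lit 156676073625) (nat_lit 7) (nat_lit 4) (nat_lit 8) (nat_lit 5) (nat_lit 8) (nat_lit 4) (nat_lit 337) (nat_lit 291) (nat_lit 152))) (XT.nd (nat_lit 78) (nat_lit 0) (nat_lit 0) (XT.lf (nat_lit 0) (nat_lit 143463231593) (nat_lit 76) (nat_lit 280407371724) (nat_lit 76) (nat_lit 104371977225) (nat_lit 7) (nat_lit 4) (nat_lit 8) (nat_lit 5) (nat_lit 8) (nat_lit 4) (nat_lit 338)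 (nat_lit 291) (nat_lit 151)) (XT.lf (nat_lit 0) (nat_lit 292806729888) (nat_lit 76) (nat_lit 223919474915) (nat_lit 76) (nat_lit 47883807550) (nat_lit 7) (nat_lit 4) (nat_lit 8) (nat_lit 5) (nat_lit 8) (nat_lit 4) (nat_lit 339) (nat_lit 291) (nat_lit 150)))) (XT.nd (nat_lit 156) (nat_lit 76) (nat_lit 0) (XT.nd (nat_lit 78) (nat_lit 0) (nat_lit 0) (XT.lf (nat_lit 0) (nat_lit 12466705490) (nat_lit 152) (nat_lit 150105172597) (nat_lit 76) (nat_lit 441289729187) (nat_lit 6) (nat_lit 5) (nat_lit 8) (nat_lit 5) (nat_lit 7) (nat_lit 4) (nat_lit 340) (nat_lit 291) (nat_lit 149)) (XT.lf (nat_lit 0) (nat_lit 75058083006) (nat_lit 152) (nat_lit 19915341303) (nat_lit 76) (nat_lit 551180423364) (nat_lit 6) (nat_lit 5) (nat_lit 8) (nat_lit 5) (nat_lit 7) (nat_lit 4) (nat_lit 341) (nat_lit 291) (nat_lit 148))) (XT.nd (nat_lit 78) (nat_lit 0) (nat_lit 0) (XT.lf (nat_lit 0) (nat_lit 127044598802) (nat_lit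 76) (nat_lit 18667405702) (nat_lit 152) (nat_lit 545873044216) (nat_lit 5) (nat_lit 5) (nat_lit 6) (nat_lit 5) (nat_lit 7) (nat_lit 4) (nat_lit 342) (nat_lit 291) (nat_lit 147)) (XT.lf (nat_lit 0) (nat_lit 224109736588) (nat_lit 152) (nat_lit 455260778155) (nat_lit 0) (nat_lit 61112911466) (nat_lit 5) (nat_lit 5) (nat_lit 7) (nat_lit 4) (nat_lit 5) (nat_lit 4) (nat_lit 343) (nat_lit 291) (nat_lit 146)))))) (XT.nd (nat_lit 624) (nat_lit 152) (nat_lit 0) (XT.nd (nat_lit 312) (nat_lit 0) (nat_lit 0) (XT.nd (nat_lit 156) (nat_lit 76) (nat_lit 0) (XT.nd (nat_lit 78) (nat_lit 0) (nat_lit 0) (XT.lf (nat_lit 0) (nat_lit 309263978802) (nat_lit 152) (nat_lit 337723938142) (nat_lit 0) (nat_lit 146266981728) (nat_lit 5) (nat_lit 5) (nat_lit 7) (nat_lit 4) (nat_lit 5) (nat_lit 4) (nat_lit 344) (nat_lit 291) (nat_lit 145)) (XT.lf (nat_lit 0) (nat_lit 401230397322) (nat_lit 152) (nat_lit 210784463717)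 (nat_lit 0) (nat_lit 238233241034) (nat_lit 5) (nat_lit 5) (nat_lit 7) (nat_lit 4) (nat_lit 5) (nat_lit 4) (nat_lit 345) (nat_lit 291) (nat_lit 144))) (XT.nd (nat_lit 78) (nat_lit 76) (nat_lit 0) (XT.lf (nat_lit 0) (nat_lit 500553978332) (nat_lit 152) (nat_lit 73690120957) (nat_lit 0) (nat_lit 337556674622) (nat_lit 5) (nat_lit 5) (nat_lit 7) (nat_lit 4) (nat_lit 5) (nat_lit 4) (nat_lit 346) (nat_lit 291) (nat_lit 143)) (XT.lf (nat_lit 0) (nat_lit 78287772505) (nat_lit 76) (nat_lit 531418356321) (nat_lit 76) (nat_lit 368420916110) (nat_lit 4) (nat_lit 4) (nat_lit 5) (nat_lit 5) (nat_lit 5) (nat_lit 4) (nat_lit 347) (nat_lit 291) (nat_lit 142)))) (XT.nd (nat_lit 156) (nat_lit 0) (nat_lit 0) (XT.nd (nat_lit 78) (nat_lit 0) (nat_lit 0) (XT.lf (nat_lit 0) (nat_lit 246614458543) (nat_lit 76) (nat_lit 482990675577) (nat_lit 76) (nat_lit 319993108977) (nat_lit 4) (nat_lit 4) (nat_lit 5) (nat_lit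 5) (nat_lit 5) (nat_lit 4) (nat_lit 348) (nat_lit 291) (nat_lit 141)) (XT.lf (nat_lit 0) (nat_lit 428407037447) (nat_lit 76) (nat_lit 430688896707) (nat_lit 76) (nat_lit 267691213079) (nat_lit 4) (nat_lit 4) (nat_lit 5) (nat_lit 5) (nat_lit 5) (nat_lit 4) (nat_lit 349) (nat_lit 291) (nat_lit 140))) (XT.nd (nat_lit 78) (nat_lit 0) (nat_lit 0) (XT.lf (nat_lit 0) (nat_lit 624742798576) (nat_lit 76) (nat_lit 374203083242) (nat_lit 76) (nat_lit 211205291256) (nat_lit 4) (nat_lit 4) (nat_lit 5) (nat_lit 5) (nat_lit 5) (nat_lit 4) (nat_lit 350) (nat_lit 291) (nat_lit 139)) (XT.lf (nat_lit 0) (nat_lit 836785213106) (nat_lit 76) (nat_lit 313198504437) (nat_lit 76) (nat_lit 150200612118) (nat_lit 4) (nat_lit 4) (nat_lit 5) (nat_lit 5) (nat_lit 5) (nat_lit 4) (nat_lit 351) (nat_lit 291) (nat_lit 138))))) (XT.nd (nat_lit 312) (nat_lit 0) (nat_lit 0) (XT.nd (nat_lit 156) (nat_lit 152) (nat_lit 0)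 (XT.nd (nat_lit 78) (nat_lit 0) (nat_lit 0) (XT.lf (nat_lit 0) (nat_lit 1065790828679) (nat_lit 76) (nat_lit 247313651676) (nat_lit 76) (nat_lit 84315666457) (nat_lit 4) (nat_lit 4) (nat_lit 5) (nat_lit 5) (nat_lit 5) (nat_lit 4) (nat_lit 352) (nat_lit 291) (nat_lit 137)) (XT.lf (nat_lit 0) (nat_lit 1313116715609) (nat_lit 76) (nat_lit 176158096202) (nat_lit 76) (nat_lit 13160024964) (nat_lit 4) (nat_lit 4) (nat_lit 5) (nat_lit 5) (nat_lit 5) (nat_lit 4) (nat_lit 353) (nat_lit 291) (nat_lit 136))) (XT.nd (nat_lit 78) (nat_lit 76) (nat_lit 0) (XT.lf (nat_lit 0) (nat_lit 60502044951) (nat_lit 152) (nat_lit 37153897385) (nat_lit 76) (nat_lit 1518072230702) (nat_lit 3) (nat_lit 5) (nat_lit 5) (nat_lit 5) (nat_lit 4) (nat_lit 4) (nat_lit 354) (nat_lit 291) (nat_lit 135)) (XT.lf (nat_lit 0) (nat_lit 133520736645) (nat_lit 76) (nat_lit 9036456276) (nat_lit 152) (nat_lit 1595243550164) (nat_lit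 2) (nat_lit 5) (nat_lit 3) (nat_lit 5) (nat_lit 4) (nat_lit 4) (nat_lit 355) (nat_lit 291) (nat_lit 134)))) (XT.nd (nat_lit 156) (nat_lit 0) (nat_lit 0) (XT.nd (nat_lit 78) (nat_lit 0) (nat_lit 0) (XT.lf (nat_lit 0) (nat_lit 234303389040) (nat_lit 152) (nat_lit 1551706555082) (nat_lit 0) (nat_lit 83379043747) (nat_lit 2) (nat_lit 5) (nat_lit 4) (nat_lit 4) (nat_lit 2) (nat_lit 4) (nat_lit 356) (nat_lit 291) (nat_lit 133)) (XT.lf (nat_lit 0) (nat_lit 333623919246) (nat_lit 152) (nat_lit 1495162086541) (nat_lit 0) (nat_lit 182699515410) (nat_lit 2) (nat_lit 5) (nat_lit 4) (nat_lit 4) (nat_lit 2) (nat_lit 4) (nat_lit 357) (nat_lit 291) (nat_lit 132))) (XT.nd (nat_lit 78) (nat_lit 0) (nat_lit 0) (XT.lf (nat_lit 0) (nat_lit 440890022655) (nat_lit 152) (nat_lit 1434094195494) (nat_lit 0) (nat_lit 289965564612) (nat_lit 2) (nat_lit 5) (nat_lit 4) (nat_lit 4) (nat_lit 2) (nat_lit 4) (nat_lit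 358) (nat_lit 291) (nat_lit 131)) (XT.lf (nat_lit 0) (nat_lit 556737350249) (nat_lit 152) (nat_lit 1368140998141) (nat_lit 0) (nat_lit 405812842016) (nat_lit 2) (nat_lit 5) (nat_lit 4) (nat_lit 4) (nat_lit 2) (nat_lit 4) (nat_lit 359) (nat_lit 291) (nat_lit 130))))))))
noncomputable def xc97 : XT := (XT.nd (nat_lit 37206) (nat_lit 0) (nat_lit 228) (XT.nd (nat_lit 35958) (nat_lit 0) (nat_lit 1444) (XT.nd (nat_lit 35334) (nat_lit 0) (nat_lit 3040) (XT.nd (nat_lit 234) (nat_lit 0) (nat_lit 0) (XT.nd (nat_lit 78) (nat_lit 0) (nat_lit 0) (XT.lf (nat_lit 0) (nat_lit 681852404711) (nat_lit 152) (nat_lit 1296911660722) (nat_lit 0) (nat_lit 530927850004) (nat_lit 2) (nat_lit 5) (nat_lit 4) (nat_lit 4) (nat_lit 2) (nat_lit 4) (nat_lit 360) (nat_lit 291) (nat_lit 129)) (XT.nd (nat_lit 78) (nat_lit 0) (nat_lit 0) (XT.lf (nat_lit 0) (nat_lit 816976608586) (nat_lit 152) (nat_lit 1219984083459) (nat_lit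 0) (nat_lit 666052010848) (nat_lit 2) (nat_lit 5) (nat_lit 4) (nat_lit 4) (nat_lit 2) (nat_lit 4) (nat_lit 361) (nat_lit 291) (nat_lit 128)) (XT.lf (nat_lit 0) (nat_lit 962910697896) (nat_lit 152) (nat_lit 1136902399226) (nat_lit 0) (nat_lit 811986060315) (nat_lit 2) (nat_lit 5) (nat_lit 4) (nat_lit 4) (nat_lit 2) (nat_lit 4) (nat_lit 362) (nat_lit 291) (nat_lit 127)))) (XT.nd (nat_lit 156) (nat_lit 0) (nat_lit 0) (XT.nd (nat_lit 78) (nat_lit 0) (nat_lit 0) (XT.lf (nat_lit 0) (nat_lit 1120519467245) (nat_lit 152) (nat_lit 1047174272119) (nat_lit 0) (nat_lit 969594792772) (nat_lit 2) (nat_lit 5) (nat_lit 4) (nat_lit 4) (nat_lit 2) (nat_lit 4) (nat_lit 363) (nat_lit 291) (nat_lit 126)) (XT.lf (nat_lit 0) (nat_lit 1290736894525) (nat_lit 152) (nat_lit 950267979901) (nat_lit 0) (nat_lit 1139812185892) (nat_lit 2) (nat_lit 5) (nat_lit 4) (nat_lit 4) (nat_lit 2) (nat_lit 4) (nat_lit 364) (nat_lit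 291) (nat_lit 125))) (XT.nd (nat_lit 78) (nat_lit 0) (nat_lit 0) (XT.lf (nat_lit 0) (nat_lit 1474571675601) (nat_lit 152) (nat_lit 845609263064) (nat_lit 0) (nat_lit 1323646935340) (nat_lit 2) (nat_lit 5) (nat_lit 4) (nat_lit 4) (nat_lit 2) (nat_lit 4) (nat_lit 365) (nat_lit 291) (nat_lit 124)) (XT.lf (nat_lit 0) (nat_lit 1673113201770) (nat_lit 152) (nat_lit 732577921803) (nat_lit 0) (nat_lit 1522188432223) (nat_lit 2) (nat_lit 5) (nat_lit 4) (nat_lit 4) (nat_lit 2) (nat_lit 4) (nat_lit 366) (nat_lit 291) (nat_lit 123))))) (XT.nd (nat_lit 312) (nat_lit 228) (nat_lit 0) (XT.nd (nat_lit 156) (nat_lit 0) (nat_lit 76) (XT.nd (nat_lit 78) (nat_lit 0) (nat_lit 0) (XT.lf (nat_lit 0) (nat_lit 15323524968) (nat_lit 532) (nat_lit 4325243913) (nat_lit 532) (nat_lit 4325243913) (nat_lit 45) (nat_lit 3) (nat_lit 52) (nat_lit 3) (nat_lit 52) (nat_lit 5) (nat_lit 292) (nat_lit 292) (nat_lit 196))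 (XT.lf (nat_lit 76) (nat_lit 14057872479) (nat_lit 0) (nat_lit 18179228509) (nat_lit 532) (nat_lit 17599637067) (nat_lit 46) (nat_lit 5) (nat_lit 45) (nat_lit 3) (nat_lit 52) (nat_lit 5) (nat_lit 293) (nat_lit 292) (nat_lit 195))) (XT.nd (nat_lit 78) (nat_lit 0) (nat_lit 0) (XT.lf (nat_lit 0) (nat_lit 34305718929) (nat_lit 456) (nat_lit 12901957316) (nat_lit 532) (nat_lit 4640769753) (nat_lit 46) (nat_lit 5) (nat_lit 52) (nat_lit 5) (nat_lit 53) (nat_lit 5) (nat_lit 294) (nat_lit 292) (nat_lit 194)) (XT.lf (nat_lit 76) (nat_lit 11927997118) (nat_lit 0) (nat_lit 25368462539) (nat_lit 532) (nat_lit 16664107203) (nat_lit 47) (nat_lit 5) (nat_lit 46) (nat_lit 5) (nat_lit 53) (nat_lit 5) (nat_lit 295) (nat_lit 292) (nat_lit 193)))) (XT.nd (nat_lit 156) (nat_lit 304) (nat_lit 0) (XT.nd (nat_lit 78) (nat_lit 0) (nat_lit 76) (XT.lf (nat_lit 76) (nat_lit 39476528839) (nat_lit 0) (nat_lit 1400412011)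 (nat_lit 532) (nat_lit 15336684480) (nat_lit 47) (nat_lit 5) (nat_lit 46) (nat_lit 5) (nat_lit 53) (nat_lit 5) (nat_lit 296) (nat_lit 292) (nat_lit 192)) (XT.lf (nat_lit 76) (nat_lit 10517643112) (nat_lit 0) (nat_lit 35065937579) (nat_lit 532) (nat_lit 12996176134) (nat_lit 48) (nat_lit 5) (nat_lit 47) (nat_lit 5) (nat_lit 54) (nat_lit 5) (nat_lit 297) (nat_lit 292) (nat_lit 191))) (XT.nd (nat_lit 78) (nat_lit 380) (nat_lit 0) (XT.lf (nat_lit 76) (nat_lit 40864727372) (nat_lit 0) (nat_lit 10293120292) (nat_lit 532) (nat_lit 9938049019) (nat_lit 48) (nat_lit 5) (nat_lit 47) (nat_lit 5) (nat_lit 54) (nat_lit 5) (nat_lit 298) (nat_lit 292) (nat_lit 190)) (XT.lf (nat_lit 0) (nat_lit 9925209718) (nat_lit 456) (nat_lit 47885623523) (nat_lit 532) (nat_lit 5951877416) (nat_lit 42) (nat_lit 5) (nat_lit 48) (nat_lit 5) (nat_lit 49) (nat_lit 5) (nat_lit 299) (nat_lit 292) (nat_lit 189)))))) (XT.nd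 (nat_lit 624) (nat_lit 684) (nat_lit 0) (XT.nd (nat_lit 312) (nat_lit 380) (nat_lit 0) (XT.nd (nat_lit 156) (nat_lit 228) (nat_lit 0) (XT.nd (nat_lit 78) (nat_lit 304) (nat_lit 0) (XT.lf (nat_lit 0) (nat_lit 43361632865) (nat_lit 456) (nat_lit 22446438538) (nat_lit 532) (nat_lit 769841979) (nat_lit 42) (nat_lit 5) (nat_lit 48) (nat_lit 5) (nat_lit 49) (nat_lit 5) (nat_lit 300) (nat_lit 292) (nat_lit 188)) (XT.lf (nat_lit 0) (nat_lit 4960503314) (nat_lit 304) (nat_lit 59470085874) (nat_lit 76) (nat_lit 5148444431) (nat_lit 38) (nat_lit 5) (nat_lit 42) (nat_lit 5) (nat_lit 39) (nat_lit 5) (nat_lit 301) (nat_lit 292) (nat_lit 187))) (XT.nd (nat_lit 78) (nat_lit 228) (nat_lit 0) (XT.lf (nat_lit 0) (nat_lit 12340411452) (nat_lit 304) (nat_lit 25970105113) (nat_lit 76) (nat_lit 34409512860) (nat_lit 38) (nat_lit 5) (nat_lit 42) (nat_lit 5) (nat_lit 39) (nat_lit 5) (nat_lit 302) (nat_lit 292)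 (nat_lit 186)) (XT.lf (nat_lit 0) (nat_lit 10745889643) (nat_lit 228) (nat_lit 9821817437) (nat_lit 304) (nat_lit 55524041704) (nat_lit 35) (nat_lit 5) (nat_lit 38) (nat_lit 5) (nat_lit 39) (nat_lit 5) (nat_lit 303) (nat_lit 292) (nat_lit 185)))) (XT.nd (nat_lit 156) (nat_lit 152) (nat_lit 0) (XT.nd (nat_lit 78) (nat_lit 228) (nat_lit 0) (XT.lf (nat_lit 0) (nat_lit 30684073516) (nat_lit 304) (nat_lit 28324096456) (nat_lit 76) (nat_lit 20626567968) (nat_lit 35) (nat_lit 5) (nat_lit 39) (nat_lit 5) (nat_lit 36) (nat_lit 5) (nat_lit 304) (nat_lit 292) (nat_lit 184)) (XT.lf (nat_lit 0) (nat_lit 12003257272) (nat_lit 228) (nat_lit 30149008549) (nat_lit 304) (nat_lit 41265502064) (nat_lit 32) (nat_lit 5) (nat_lit 35) (nat_lit 5) (nat_lit 36) (nat_lit 5) (nat_lit 305) (nat_lit 292) (nat_lit 183))) (XT.nd (nat_lit 78) (nat_lit 152) (nat_lit 0) (XT.lf (nat_lit 0) (nat_lit 55355743385) (nat_lit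 304) (nat_lit 30320035209) (nat_lit 76) (nat_lit 1762238002) (nat_lit 32) (nat_lit 5) (nat_lit 36) (nat_lit 5) (nat_lit 33) (nat_lit 5) (nat_lit 306) (nat_lit 292) (nat_lit 182)) (XT.lf (nat_lit 0) (nat_lit 13976644041) (nat_lit 152) (nat_lit 56756954835) (nat_lit 228) (nat_lit 20956840906) (nat_lit 30) (nat_lit 5) (nat_lit 32) (nat_lit 5) (nat_lit 33) (nat_lit 5) (nat_lit 307) (nat_lit 292) (nat_lit 181))))) (XT.nd (nat_lit 312) (nat_lit 304) (nat_lit 0) (XT.nd (nat_lit 156) (nat_lit 152) (nat_lit 0) (XT.nd (nat_lit 78) (nat_lit 228) (nat_lit 0) (XT.lf (nat_lit 0) (nat_lit 63539989742) (nat_lit 152) (nat_lit 24629616678) (nat_lit 228) (nat_lit 8047218881) (nat_lit 30) (nat_lit 5) (nat_lit 32) (nat_lit 5) (nat_lit 33) (nat_lit 5) (nat_lit 308) (nat_lit 292) (nat_lit 180)) (XT.lf (nat_lit 0) (nat_lit 6255960764) (nat_lit 228) (nat_lit 84665229057) (nat_lit 76) (nat_lit 10120336482) (nat_lit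 27) (nat_lit 5) (nat_lit 30) (nat_lit 5) (nat_lit 28) (nat_lit 5) (nat_lit 309) (nat_lit 292) (nat_lit 179))) (XT.nd (nat_lit 78) (nat_lit 152) (nat_lit 0) (XT.lf (nat_lit 0) (nat_lit 22824023795) (nat_lit 228) (nat_lit 35842028434) (nat_lit 76) (nat_lit 47445000513) (nat_lit 27) (nat_lit 5) (nat_lit 30) (nat_lit 5) (nat_lit 28) (nat_lit 5) (nat_lit 310) (nat_lit 292) (nat_lit 178)) (XT.lf (nat_lit 0) (nat_lit 17774917870) (nat_lit 152) (nat_lit 23369183290) (nat_lit 228) (nat_lit 70407916333) (nat_lit 25) (nat_lit 5) (nat_lit 27) (nat_lit 5) (nat_lit 28) (nat_lit 5) (nat_lit 311) (nat_lit 292) (nat_lit 177)))) (XT.nd (nat_lit 156) (nat_lit 152) (nat_lit 0) (XT.nd (nat_lit 78) (nat_lit 152) (nat_lit 0) (XT.lf (nat_lit 0) (nat_lit 62289106865) (nat_lit 228) (nat_lit 40011813710) (nat_lit 76) (nat_lit 15018594686) (nat_lit 25) (nat_lit 5) (nat_lit 28) (nat_lit 5) (nat_lit 26) (nat_lit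 5) (nat_lit 312) (nat_lit 292) (nat_lit 176)) (XT.lf (nat_lit 0) (nat_lit 18365187380) (nat_lit 152) (nat_lit 67808377527) (nat_lit 228) (nat_lit 37291021285) (nat_lit 23) (nat_lit 5) (nat_lit 25) (nat_lit 5) (nat_lit 26) (nat_lit 5) (nat_lit 313) (nat_lit 292) (nat_lit 175))) (XT.nd (nat_lit 78) (nat_lit 152) (nat_lit 0) (XT.lf (nat_lit 0) (nat_lit 83686669693) (nat_lit 152) (nat_lit 29375313145) (nat_lit 228) (nat_lit 16951825082) (nat_lit 23) (nat_lit 5) (nat_lit 25) (nat_lit 5) (nat_lit 26) (nat_lit 5) (nat_lit 314) (nat_lit 292) (nat_lit 174)) (XT.lf (nat_lit 0) (nat_lit 5500028210) (nat_lit 152) (nat_lit 119427322177) (nat_lit 76) (nat_lit 12091060876) (nat_lit 21) (nat_lit 5) (nat_lit 23) (nat_lit 5) (nat_lit 22) (nat_lit 5) (nat_lit 315) (nat_lit 292) (nat_lit 173))))))) (XT.nd (nat_lit 1248) (nat_lit 456) (nat_lit 0) (XT.nd (nat_lit 624) (nat_lit 304) (nat_lit 0) (XT.nd (nat_lit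 312) (nat_lit 228) (nat_lit 0) (XT.nd (nat_lit 156) (nat_lit 76) (nat_lit 0) (XT.nd (nat_lit 78) (nat_lit 152) (nat_lit 0) (XT.lf (nat_lit 0) (nat_lit 30894019932) (nat_lit 152) (nat_lit 56461972224) (nat_lit 76) (nat_lit 57027220918) (nat_lit 21) (nat_lit 5) (nat_lit 23) (nat_lit 5) (nat_lit 22) (nat_lit 5) (nat_lit 316) (nat_lit 292) (nat_lit 172)) (XT.lf (nat_lit 0) (nat_lit 12147183020) (nat_lit 152) (nat_lit 46463809687) (nat_lit 228) (nat_lit 93702890401) (nat_lit 19) (nat_lit 5) (nat_lit 21) (nat_lit 5) (nat_lit 22) (nat_lit 5) (nat_lit 317) (nat_lit 292) (nat_lit 171))) (XT.nd (nat_lit 78) (nat_lit 76) (nat_lit 0) (XT.lf (nat_lit 0) (nat_lit 89455066270) (nat_lit 152) (nat_lit 633374158) (nat_lit 228) (nat_lit 70667117887) (nat_lit 19) (nat_lit 5) (nat_lit 21) (nat_lit 5) (nat_lit 22) (nat_lit 5) (nat_lit 318) (nat_lit 292) (nat_lit 170)) (XT.lf (nat_lit 0) (nat_lit 1998823887)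 (nat_lit 76) (nat_lit 123307886471) (nat_lit 152) (nat_lit 44468047940) (nat_lit 18) (nat_lit 5) (nat_lit 19) (nat_lit 5) (nat_lit 20) (nat_lit 4) (nat_lit 319) (nat_lit 292) (nat_lit 169)))) (XT.nd (nat_lit 156) (nat_lit 152) (nat_lit 0) (XT.nd (nat_lit 78) (nat_lit 76) (nat_lit 0) (XT.lf (nat_lit 0) (nat_lit 85198705488) (nat_lit 76) (nat_lit 80108661143) (nat_lit 152) (nat_lit 14050934474) (nat_lit 18) (nat_lit 5) (nat_lit 19) (nat_lit 5) (nat_lit 20) (nat_lit 4) (nat_lit 320) (nat_lit 292) (nat_lit 168)) (XT.lf (nat_lit 0) (nat_lit 17858555587) (nat_lit 152) (nat_lit 15107020930) (nat_lit 76) (nat_lit 156706826179) (nat_lit 17) (nat_lit 5) (nat_lit 19) (nat_lit 5) (nat_lit 18) (nat_lit 5) (nat_lit 321) (nat_lit 292) (nat_lit 167))) (XT.nd (nat_lit 78) (nat_lit 0) (nat_lit 0) (XT.lf (nat_lit 0) (nat_lit 53817998465) (nat_lit 228) (nat_lit 127543065493) (nat_lit 76) (nat_lit 19240867627)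 (nat_lit 15) (nat_lit 5) (nat_lit 18) (nat_lit 5) (nat_lit 16) (nat_lit 4) (nat_lit 322) (nat_lit 292) (nat_lit 166)) (XT.lf (nat_lit 0) (nat_lit 93933715466) (nat_lit 228) (nat_lit 44103464509) (nat_lit 76) (nat_lit 74266281907) (nat_lit 15) (nat_lit 5) (nat_lit 18) (nat_lit 5) (nat_lit 16) (nat_lit 4) (nat_lit 323) (nat_lit 292) (nat_lit 165))))) (XT.nd (nat_lit 312) (nat_lit 76) (nat_lit 0) (XT.nd (nat_lit 156) (nat_lit 152) (nat_lit 0) (XT.nd (nat_lit 78) (nat_lit 0) (nat_lit 0) (XT.lf (nat_lit 0) (nat_lit 48433318344) (nat_lit 76) (nat_lit 89989720421) (nat_lit 152) (nat_lit 86424928471) (nat_lit 14) (nat_lit 5) (nat_lit 15) (nat_lit 5) (nat_lit 16) (nat_lit 4) (nat_lit 324) (nat_lit 292) (nat_lit 164)) (XT.lf (nat_lit 0) (nat_lit 150880450666) (nat_lit 76) (nat_lit 36796466534) (nat_lit 152) (nat_lit 50622683583) (nat_lit 14) (nat_lit 5) (nat_lit 15) (nat_lit 5) (nat_lit 16) (nat_lit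 4) (nat_lit 325) (nat_lit 292) (nat_lit 163))) (XT.nd (nat_lit 78) (nat_lit 76) (nat_lit 0) (XT.lf (nat_lit 0) (nat_lit 8630257846) (nat_lit 76) (nat_lit 232944661776) (nat_lit 76) (nat_lit 11196140767) (nat_lit 13) (nat_lit 4) (nat_lit 14) (nat_lit 5) (nat_lit 14) (nat_lit 4) (nat_lit 326) (nat_lit 292) (nat_lit 162)) (XT.lf (nat_lit 0) (nat_lit 33222145768) (nat_lit 152) (nat_lit 152647199903) (nat_lit 76) (nat_lit 82197899498) (nat_lit 12) (nat_lit 5) (nat_lit 14) (nat_lit 5) (nat_lit 13) (nat_lit 4) (nat_lit 327) (nat_lit 292) (nat_lit 161)))) (XT.nd (nat_lit 156) (nat_lit 0) (nat_lit 0) (XT.nd (nat_lit 78) (nat_lit 76) (nat_lit 0) (XT.lf (nat_lit 0) (nat_lit 80588616087) (nat_lit 152) (nat_lit 54125628762) (nat_lit 76) (nat_lit 149849647286) (nat_lit 12) (nat_lit 5) (nat_lit 14) (nat_lit 5) (nat_lit 13) (nat_lit 4) (nat_lit 328) (nat_lit 292) (nat_lit 160)) (XT.lf (nat_lit 0) (nat_lit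 55029824562) (nat_lit 76) (nat_lit 78037680732) (nat_lit 152) (nat_lit 169206917809) (nat_lit 11) (nat_lit 5) (nat_lit 12) (nat_lit 5) (nat_lit 13) (nat_lit 4) (nat_lit 329) (nat_lit 292) (nat_lit 159))) (XT.nd (nat_lit 78) (nat_lit 0) (nat_lit 0) (XT.lf (nat_lit 0) (nat_lit 175995245079) (nat_lit 76) (nat_lit 15228995607) (nat_lit 152) (nat_lit 130059193379) (nat_lit 11) (nat_lit 5) (nat_lit 12) (nat_lit 5) (nat_lit 13) (nat_lit 4) (nat_lit 330) (nat_lit 292) (nat_lit 158)) (XT.lf (nat_lit 0) (nat_lit 255298316025) (nat_lit 152) (nat_lit 36441017659) (nat_lit 0) (nat_lit 49972648425) (nat_lit 11) (nat_lit 5) (nat_lit 13) (nat_lit 4) (nat_lit 11) (nat_lit 4) (nat_lit 331) (nat_lit 292) (nat_lit 157)))))) (XT.nd (nat_lit 624) (nat_lit 152) (nat_lit 0) (XT.nd (nat_lit 312) (nat_lit 76) (nat_lit 0) (XT.nd (nat_lit 156) (nat_lit 76) (nat_lit 0) (XT.nd (nat_lit 78) (nat_lit 76) (nat_lit 0)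 (XT.lf (nat_lit 0) (nat_lit 84968256580) (nat_lit 76) (nat_lit 241968797020) (nat_lit 76) (nat_lit 36642661775) (nat_lit 10) (nat_lit 4) (nat_lit 11) (nat_lit 5) (nat_lit 11) (nat_lit 4) (nat_lit 332) (nat_lit 292) (nat_lit 156)) (XT.lf (nat_lit 0) (nat_lit 17276042663) (nat_lit 152) (nat_lit 169392399509) (nat_lit 76) (nat_lit 200413751056) (nat_lit 9) (nat_lit 5) (nat_lit 11) (nat_lit 5) (nat_lit 10) (nat_lit 4) (nat_lit 333) (nat_lit 292) (nat_lit 155))) (XT.nd (nat_lit 78) (nat_lit 76) (nat_lit 0) (XT.lf (nat_lit 0) (nat_lit 73528301751) (nat_lit 152) (nat_lit 52388101535) (nat_lit 76) (nat_lit 286472348540) (nat_lit 9) (nat_lit 5) (nat_lit 11) (nat_lit 5) (nat_lit 10) (nat_lit 4) (nat_lit 334) (nat_lit 292) (nat_lit 154)) (XT.lf (nat_lit 0) (nat_lit 77871498565) (nat_lit 76) (nat_lit 58281789403) (nat_lit 152) (nat_lit 303416743634) (nat_lit 8) (nat_lit 5) (nat_lit 9) (nat_lit 5)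 (nat_lit 10) (nat_lit 4) (nat_lit 335) (nat_lit 292) (nat_lit 153)))) (XT.nd (nat_lit 156) (nat_lit 76) (nat_lit 0) (XT.nd (nat_lit 78) (nat_lit 0) (nat_lit 0) (XT.lf (nat_lit 0) (nat_lit 205612664017) (nat_lit 152) (nat_lit 247672760696) (nat_lit 0) (nat_lit 15494437959) (nat_lit 8) (nat_lit 5) (nat_lit 10) (nat_lit 4) (nat_lit 8) (nat_lit 4) (nat_lit 336) (nat_lit 292) (nat_lit 152)) (XT.lf (nat_lit 0) (nat_lit 282142360130) (nat_lit 152) (nat_lit 126039195296) (nat_lit 0) (nat_lit 92023839377) (nat_lit 8) (nat_lit 5) (nat_lit 10) (nat_lit 4) (nat_lit 8) (nat_lit 4) (nat_lit 337) (nat_lit 292) (nat_lit 151))) (XT.nd (nat_lit 78) (nat_lit 0) (nat_lit 0) (XT.lf (nat_lit 0) (nat_lit 5605018839) (nat_lit 76) (nat_lit 359323989179) (nat_lit 76) (nat_lit 169205195559) (nat_lit 7) (nat_lit 4) (nat_lit 8) (nat_lit 5) (nat_lit 8) (nat_lit 4) (nat_lit 338) (nat_lit 292) (nat_lit 150)) (XT.lf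 (nat_lit 0) (nat_lit 154948319274) (nat_lit 76) (nat_lit 302836185422) (nat_lit 76) (nat_lit 112717139148) (nat_lit 7) (nat_lit 4) (nat_lit 8) (nat_lit 5) (nat_lit 8) (nat_lit 4) (nat_lit 339) (nat_lit 292) (nat_lit 149))))) (XT.nd (nat_lit 312) (nat_lit 0) (nat_lit 0) (XT.nd (nat_lit 156) (nat_lit 76) (nat_lit 0) (XT.nd (nat_lit 78) (nat_lit 76) (nat_lit 0) (XT.lf (nat_lit 0) (nat_lit 316238702681) (nat_lit 76) (nat_lit 241829536575) (nat_lit 76) (nat_lit 51710256363) (nat_lit 7) (nat_lit 4) (nat_lit 8) (nat_lit 5) (nat_lit 8) (nat_lit 4) (nat_lit 340) (nat_lit 292) (nat_lit 148)) (XT.lf (nat_lit 0) (nat_lit 13467785355) (nat_lit 152) (nat_lit 162106503282) (nat_lit 76) (nat_lit 476595945450) (nat_lit 6) (nat_lit 5) (nat_lit 8) (nat_lit 5) (nat_lit 7) (nat_lit 4) (nat_lit 341) (nat_lit 292) (nat_lit 147))) (XT.nd (nat_lit 78) (nat_lit 76) (nat_lit 0) (XT.lf (nat_lit 0) (nat_lit 81066195781)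 (nat_lit 152) (nat_lit 21502010160) (nat_lit 76) (nat_lit 595277670130) (nat_lit 6) (nat_lit 5) (nat_lit 8) (nat_lit 5) (nat_lit 7) (nat_lit 4) (nat_lit 342) (nat_lit 292) (nat_lit 146)) (XT.lf (nat_lit 0) (nat_lit 137214559116) (nat_lit 76) (nat_lit 20157768869) (nat_lit 152) (nat_lit 589539253614) (nat_lit 5) (nat_lit 5) (nat_lit 6) (nat_lit 5) (nat_lit 7) (nat_lit 4) (nat_lit 343) (nat_lit 292) (nat_lit 145)))) (XT.nd (nat_lit 156) (nat_lit 0) (nat_lit 0) (XT.nd (nat_lit 78) (nat_lit 0) (nat_lit 0) (XT.lf (nat_lit 0) (nat_lit 242041696974) (nat_lit 152) (nat_lit 491675538024) (nat_lit 0) (nat_lit 66004608968) (nat_lit 5) (nat_lit 5) (nat_lit 7) (nat_lit 4) (nat_lit 5) (nat_lit 4) (nat_lit 344) (nat_lit 292) (nat_lit 144)) (XT.lf (nat_lit 0) (nat_lit 334008042902) (nat_lit 152) (nat_lit 364736202839) (nat_lit 0) (nat_lit 157970807475) (nat_lit 5) (nat_lit 5) (nat_lit 7) (nat_lit 4)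 (nat_lit 5) (nat_lit 4) (nat_lit 345) (nat_lit 292) (nat_lit 143))) (XT.nd (nat_lit 78) (nat_lit 0) (nat_lit 0) (XT.lf (nat_lit 0) (nat_lit 433331556697) (nat_lit 152) (nat_lit 227641989004) (nat_lit 0) (nat_lit 257294184769) (nat_lit 5) (nat_lit 5) (nat_lit 7) (nat_lit 4) (nat_lit 5) (nat_lit 4) (nat_lit 346) (nat_lit 292) (nat_lit 142)) (XT.lf (nat_lit 0) (nat_lit 540600822144) (nat_lit 152) (nat_lit 79580486365) (nat_lit 0) (nat_lit 364563323826) (nat_lit 5) (nat_lit 5) (nat_lit 7) (nat_lit 4) (nat_lit 5) (nat_lit 4) (nat_lit 347) (nat_lit 292) (nat_lit 141))))))))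
noncomputable def xc98 : XT := (XT.nd (nat_lit 37284) (nat_lit 0) (nat_lit 456) (XT.nd (nat_lit 1170) (nat_lit 0) (nat_lit 0) (XT.nd (nat_lit 546) (nat_lit 152) (nat_lit 0) (XT.nd (nat_lit 234) (nat_lit 0) (nat_lit 0) (XT.nd (nat_lit 78) (nat_lit 0) (nat_lit 0) (XT.lf (nat_lit 0) (nat_lit 84555515934) (nat_lit 76) (nat_lit 573929555221) (nat_lit 76) (nat_lit 397891939875) (nat_lit 4) (nat_lit 4) (nat_lit 5) (nat_lit 5) (nat_lit 5) (nat_lit 4) (nat_lit 348) (nat_lit 292) (nat_lit 140)) (XT.nd (nat_lit 78) (nat_lit 0) (nat_lit 0) (XT.lf (nat_lit 0) (nat_lit 266347987105) (nat_lit 76) (nat_lit 521627828137) (nat_lit 76) (nat_lit 345590104432) (nat_lit 4) (nat_lit 4) (nat_lit 5) (nat_lit 5) (nat_lit 5) (nat_lit 4) (nat_lit 349) (nat_lit 292) (nat_lit 139)) (XT.lf (nat_lit 0) (nat_lit 462683648479) (nat_lit 76) (nat_lit 465142062622) (nat_lit 76) (nat_lit 289104238585) (nat_lit 4) (nat_lit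 4) (nat_lit 5) (nat_lit 5) (nat_lit 5) (nat_lit 4) (nat_lit 350) (nat_lit 292) (nat_lit 138)))) (XT.nd (nat_lit 156) (nat_lit 0) (nat_lit 0) (XT.nd (nat_lit 78) (nat_lit 0) (nat_lit 0) (XT.lf (nat_lit 0) (nat_lit 674725970644) (nat_lit 76) (nat_lit 404137528215) (nat_lit 76) (nat_lit 228099611278) (nat_lit 4) (nat_lit 4) (nat_lit 5) (nat_lit 5) (nat_lit 5) (nat_lit 4) (nat_lit 351) (nat_lit 292) (nat_lit 137)) (XT.lf (nat_lit 0) (nat_lit 903731500693) (nat_lit 76) (nat_lit 338252716564) (nat_lit 76) (nat_lit 162214713608) (nat_lit 4) (nat_lit 4) (nat_lit 5) (nat_lit 5) (nat_lit 5) (nat_lit 4) (nat_lit 352) (nat_lit 292) (nat_lit 136))) (XT.nd (nat_lit 78) (nat_lit 0) (nat_lit 0) (XT.lf (nat_lit 0) (nat_lit 1151057308435) (nat_lit 76) (nat_lit 267097199155) (nat_lit 76) (nat_lit 91059116552) (nat_lit 4) (nat_lit 4) (nat_lit 5) (nat_lit 5) (nat_lit 5) (nat_lit 4) (nat_lit 353) (nat_lit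 292) (nat_lit 135)) (XT.lf (nat_lit 0) (nat_lit 1418169028285) (nat_lit 76) (nat_lit 190249313662) (nat_lit 76) (nat_lit 14211157312) (nat_lit 4) (nat_lit 4) (nat_lit 5) (nat_lit 5) (nat_lit 5) (nat_lit 4) (nat_lit 354) (nat_lit 292) (nat_lit 134))))) (XT.nd (nat_lit 312) (nat_lit 0) (nat_lit 0) (XT.nd (nat_lit 156) (nat_lit 0) (nat_lit 0) (XT.nd (nat_lit 78) (nat_lit 76) (nat_lit 0) (XT.lf (nat_lit 0) (nat_lit 65343677183) (nat_lit 152) (nat_lit 40123376091) (nat_lit 76) (nat_lit 1639519255392) (nat_lit 3) (nat_lit 5) (nat_lit 5) (nat_lit 5) (nat_lit 4) (nat_lit 4) (nat_lit 355) (nat_lit 292) (nat_lit 133)) (XT.lf (nat_lit 0) (nat_lit 144205156938) (nat_lit 76) (nat_lit 9758037676) (nat_lit 152) (nat_lit 1722861493148) (nat_lit 2) (nat_lit 5) (nat_lit 3) (nat_lit 5) (nat_lit 4) (nat_lit 4) (nat_lit 356) (nat_lit 292) (nat_lit 132))) (XT.nd (nat_lit 78) (nat_lit 0) (nat_lit 0) (XT.lf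 (nat_lit 0) (nat_lit 253049010504) (nat_lit 152) (nat_lit 1675840446135) (nat_lit 0) (nat_lit 90050541612) (nat_lit 2) (nat_lit 5) (nat_lit 4) (nat_lit 4) (nat_lit 2) (nat_lit 4) (nat_lit 357) (nat_lit 292) (nat_lit 131)) (XT.lf (nat_lit 0) (nat_lit 360315083102) (nat_lit 152) (nat_lit 1614772615174) (nat_lit 0) (nat_lit 197316564018) (nat_lit 2) (nat_lit 5) (nat_lit 4) (nat_lit 4) (nat_lit 2) (nat_lit 4) (nat_lit 358) (nat_lit 292) (nat_lit 130)))) (XT.nd (nat_lit 156) (nat_lit 0) (nat_lit 0) (XT.nd (nat_lit 78) (nat_lit 0) (nat_lit 0) (XT.lf (nat_lit 0) (nat_lit 476162382167) (nat_lit 152) (nat_lit 1548819473457) (nat_lit 0) (nat_lit 313163816611) (nat_lit 2) (nat_lit 5) (nat_lit 4) (nat_lit 4) (nat_lit 2) (nat_lit 4) (nat_lit 359) (nat_lit 292) (nat_lit 129)) (XT.lf (nat_lit 0) (nat_lit 601277410214) (nat_lit 152) (nat_lit 1477590187551) (nat_lit 0) (nat_lit 438278801626) (nat_lit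 2) (nat_lit 5) (nat_lit 4) (nat_lit 4) (nat_lit 2) (nat_lit 4) (nat_lit 360) (nat_lit 292) (nat_lit 128))) (XT.nd (nat_lit 78) (nat_lit 0) (nat_lit 0) (XT.lf (nat_lit 0) (nat_lit 736401589629) (nat_lit 152) (nat_lit 1400662657986) (nat_lit 0) (nat_lit 573402941198) (nat_lit 2) (nat_lit 5) (nat_lit 4) (nat_lit 4) (nat_lit 2) (nat_lit 4) (nat_lit 361) (nat_lit 292) (nat_lit 127)) (XT.lf (nat_lit 0) (nat_lit 882335656292) (nat_lit 152) (nat_lit 1317581017919) (nat_lit 0) (nat_lit 719336970969) (nat_lit 2) (nat_lit 5) (nat_lit 4) (nat_lit 4) (nat_lit 2) (nat_lit 4) (nat_lit 362) (nat_lit 292) (nat_lit 126)))))) (XT.nd (nat_lit 35490) (nat_lit 0) (nat_lit 2508) (XT.nd (nat_lit 35178) (nat_lit 0) (nat_lit 3268) (XT.nd (nat_lit 156) (nat_lit 0) (nat_lit 0) (XT.nd (nat_lit 78) (nat_lit 0) (nat_lit 0) (XT.lf (nat_lit 0) (nat_lit 1039944404671) (nat_lit 152) (nat_lit 1227852931705) (nat_lit 0)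 (nat_lit 876945685189) (nat_lit 2) (nat_lit 5) (nat_lit 4) (nat_lit 4) (nat_lit 2) (nat_lit 4) (nat_lit 363) (nat_lit 292) (nat_lit 125)) (XT.lf (nat_lit 0) (nat_lit 1210161812535) (nat_lit 152) (nat_lit 1130946677351) (nat_lit 0) (nat_lit 1047163061424) (nat_lit 2) (nat_lit 5) (nat_lit 4) (nat_lit 4) (nat_lit 2) (nat_lit 4) (nat_lit 364) (nat_lit 292) (nat_lit 124))) (XT.nd (nat_lit 78) (nat_lit 0) (nat_lit 0) (XT.lf (nat_lit 0) (nat_lit 1393996575634) (nat_lit 152) (nat_lit 1026287995574) (nat_lit 0) (nat_lit 1230997795237) (nat_lit 2) (nat_lit 5) (nat_lit 4) (nat_lit 4) (nat_lit 2) (nat_lit 4) (nat_lit 365) (nat_lit 292) (nat_lit 123)) (XT.lf (nat_lit 0) (nat_lit 1592538085156) (nat_lit 152) (nat_lit 913256686776) (nat_lit 0) (nat_lit 1429539277642) (nat_lit 2) (nat_lit 5) (nat_lit 4) (nat_lit 4) (nat_lit 2) (nat_lit 4) (nat_lit 366) (nat_lit 292) (nat_lit 122)))) (XT.nd (nat_lit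 156) (nat_lit 0) (nat_lit 76) (XT.nd (nat_lit 78) (nat_lit 0) (nat_lit 0) (XT.lf (nat_lit 0) (nat_lit 16574856699) (nat_lit 532) (nat_lit 4657483955) (nat_lit 532) (nat_lit 4657483955) (nat_lit 45) (nat_lit 3) (nat_lit 52) (nat_lit 3) (nat_lit 52) (nat_lit 5) (nat_lit 293) (nat_lit 293) (nat_lit 194)) (XT.lf (nat_lit 76) (nat_lit 15209363526) (nat_lit 0) (nat_lit 19654480691) (nat_lit 532) (nat_lit 18955875257) (nat_lit 46) (nat_lit 5) (nat_lit 45) (nat_lit 3) (nat_lit 52) (nat_lit 5) (nat_lit 294) (nat_lit 293) (nat_lit 193))) (XT.nd (nat_lit 78) (nat_lit 0) (nat_lit 0) (XT.lf (nat_lit 0) (nat_lit 37093946971) (nat_lit 456) (nat_lit 13905112185) (nat_lit 532) (nat_lit 4993635312) (nat_lit 46) (nat_lit 5) (nat_lit 52) (nat_lit 5) (nat_lit 53) (nat_lit 5) (nat_lit 295) (nat_lit 293) (nat_lit 192)) (XT.lf (nat_lit 76) (nat_lit 12910504383) (nat_lit 0) (nat_lit 27410880146) (nat_lit 532)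 (nat_lit 17952614764) (nat_lit 47) (nat_lit 5) (nat_lit 46) (nat_lit 5) (nat_lit 53) (nat_lit 5) (nat_lit 296) (nat_lit 293) (nat_lit 191))))) (XT.nd (nat_lit 312) (nat_lit 532) (nat_lit 0) (XT.nd (nat_lit 156) (nat_lit 304) (nat_lit 0) (XT.nd (nat_lit 78) (nat_lit 0) (nat_lit 76) (XT.lf (nat_lit 76) (nat_lit 42660824754) (nat_lit 0) (nat_lit 1524427013) (nat_lit 532) (nat_lit 16522303483) (nat_lit 47) (nat_lit 5) (nat_lit 46) (nat_lit 5) (nat_lit 53) (nat_lit 5) (nat_lit 297) (nat_lit 293) (nat_lit 190)) (XT.lf (nat_lit 76) (nat_lit 11387926522) (nat_lit 0) (nat_lit 37878097477) (nat_lit 532) (nat_lit 13997153143) (nat_lit 48) (nat_lit 5) (nat_lit 47) (nat_lit 5) (nat_lit 54) (nat_lit 5) (nat_lit 298) (nat_lit 293) (nat_lit 189))) (XT.nd (nat_lit 78) (nat_lit 380) (nat_lit 0) (XT.lf (nat_lit 76) (nat_lit 44160638859) (nat_lit 0) (nat_lit 11122944815) (nat_lit 532) (nat_lit 10697243791)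 (nat_lit 48) (nat_lit 5) (nat_lit 47) (nat_lit 5) (nat_lit 54) (nat_lit 5) (nat_lit 299) (nat_lit 293) (nat_lit 188)) (XT.lf (nat_lit 0) (nat_lit 10748103997) (nat_lit 456) (nat_lit 51718804186) (nat_lit 532) (nat_lit 6394237205) (nat_lit 42) (nat_lit 5) (nat_lit 48) (nat_lit 5) (nat_lit 49) (nat_lit 5) (nat_lit 300) (nat_lit 293) (nat_lit 187)))) (XT.nd (nat_lit 156) (nat_lit 228) (nat_lit 0) (XT.nd (nat_lit 78) (nat_lit 304) (nat_lit 0) (XT.lf (nat_lit 0) (nat_lit 46857301921) (nat_lit 456) (nat_lit 24244311753) (nat_lit 532) (nat_lit 800141925) (nat_lit 42) (nat_lit 5) (nat_lit 48) (nat_lit 5) (nat_lit 49) (nat_lit 5) (nat_lit 301) (nat_lit 293) (nat_lit 186)) (XT.lf (nat_lit 0) (nat_lit 5385516719) (nat_lit 304) (nat_lit 64197698937) (nat_lit 76) (nat_lit 5559818962) (nat_lit 38) (nat_lit 5) (nat_lit 42) (nat_lit 5) (nat_lit 39) (nat_lit 5) (nat_lit 302) (nat_lit 293) (nat_lit 185)))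 (XT.nd (nat_lit 78) (nat_lit 228) (nat_lit 0) (XT.lf (nat_lit 0) (nat_lit 13353730608) (nat_lit 304) (nat_lit 28019941478) (nat_lit 76) (nat_lit 37161809978) (nat_lit 38) (nat_lit 5) (nat_lit 42) (nat_lit 5) (nat_lit 39) (nat_lit 5) (nat_lit 303) (nat_lit 293) (nat_lit 184)) (XT.lf (nat_lit 0) (nat_lit 11632629769) (nat_lit 228) (nat_lit 10605298812) (nat_lit 304) (nat_lit 59939117548) (nat_lit 35) (nat_lit 5) (nat_lit 38) (nat_lit 5) (nat_lit 39) (nat_lit 5) (nat_lit 304) (nat_lit 293) (nat_lit 183))))))) (XT.nd (nat_lit 1248) (nat_lit 760) (nat_lit 0) (XT.nd (nat_lit 624) (nat_lit 532) (nat_lit 0) (XT.nd (nat_lit 312) (nat_lit 380) (nat_lit 0) (XT.nd (nat_lit 156) (nat_lit 152) (nat_lit 0) (XT.nd (nat_lit 78) (nat_lit 228) (nat_lit 0) (XT.lf (nat_lit 0) (nat_lit 33161817346) (nat_lit 304) (nat_lit 30563119486) (nat_lit 76) (nat_lit 22278684853) (nat_lit 35) (nat_lit 5) (nat_lit 39)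 (nat_lit 5) (nat_lit 36) (nat_lit 5) (nat_lit 305) (nat_lit 293) (nat_lit 182)) (XT.lf (nat_lit 0) (nat_lit 12989741410) (nat_lit 228) (nat_lit 32556649270) (nat_lit 304) (nat_lit 44542993284) (nat_lit 32) (nat_lit 5) (nat_lit 35) (nat_lit 5) (nat_lit 36) (nat_lit 5) (nat_lit 306) (nat_lit 293) (nat_lit 181))) (XT.nd (nat_lit 78) (nat_lit 152) (nat_lit 0) (XT.lf (nat_lit 0) (nat_lit 59804616306) (nat_lit 304) (nat_lit 32719780642) (nat_lit 76) (nat_lit 1906981729) (nat_lit 32) (nat_lit 5) (nat_lit 36) (nat_lit 5) (nat_lit 33) (nat_lit 5) (nat_lit 307) (nat_lit 293) (nat_lit 180)) (XT.lf (nat_lit 0) (nat_lit 15119978331) (nat_lit 152) (nat_lit 61291815925) (nat_lit 228) (nat_lit 22612277360) (nat_lit 30) (nat_lit 5) (nat_lit 32) (nat_lit 5) (nat_lit 33) (nat_lit 5) (nat_lit 308) (nat_lit 293) (nat_lit 179)))) (XT.nd (nat_lit 156) (nat_lit 152) (nat_lit 0) (XT.nd (nat_lit 78) (nat_lit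 228) (nat_lit 0) (XT.lf (nat_lit 0) (nat_lit 68646524816) (nat_lit 152) (nat_lit 26594712589) (nat_lit 228) (nat_lit 8671449337) (nat_lit 30) (nat_lit 5) (nat_lit 32) (nat_lit 5) (nat_lit 33) (nat_lit 5) (nat_lit 309) (nat_lit 293) (nat_lit 178)) (XT.lf (nat_lit 0) (nat_lit 6774345722) (nat_lit 228) (nat_lit 91413401941) (nat_lit 76) (nat_lit 10935634160) (nat_lit 27) (nat_lit 5) (nat_lit 30) (nat_lit 5) (nat_lit 28) (nat_lit 5) (nat_lit 310) (nat_lit 293) (nat_lit 177))) (XT.nd (nat_lit 78) (nat_lit 152) (nat_lit 0) (XT.lf (nat_lit 0) (nat_lit 24666527270) (nat_lit 228) (nat_lit 38686200486) (nat_lit 76) (nat_lit 51245851257) (nat_lit 27) (nat_lit 5) (nat_lit 30) (nat_lit 5) (nat_lit 28) (nat_lit 5) (nat_lit 311) (nat_lit 293) (nat_lit 176)) (XT.lf (nat_lit 0) (nat_lit 19219514428) (nat_lit 152) (nat_lit 25232011737) (nat_lit 228) (nat_lit 76023351878) (nat_lit 25) (nat_lit 5) (nat_lit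 27) (nat_lit 5) (nat_lit 28) (nat_lit 5) (nat_lit 312) (nat_lit 293) (nat_lit 175))))) (XT.nd (nat_lit 312) (nat_lit 228) (nat_lit 0) (XT.nd (nat_lit 156) (nat_lit 152) (nat_lit 0) (XT.nd (nat_lit 78) (nat_lit 152) (nat_lit 0) (XT.lf (nat_lit 0) (nat_lit 67287104116) (nat_lit 228) (nat_lit 43190774832) (nat_lit 76) (nat_lit 16225981098) (nat_lit 25) (nat_lit 5) (nat_lit 28) (nat_lit 5) (nat_lit 26) (nat_lit 5) (nat_lit 313) (nat_lit 293) (nat_lit 174)) (XT.lf (nat_lit 0) (nat_lit 19855829789) (nat_lit 152) (nat_lit 73225902957) (nat_lit 228) (nat_lit 40258852786) (nat_lit 23) (nat_lit 5) (nat_lit 25) (nat_lit 5) (nat_lit 26) (nat_lit 5) (nat_lit 314) (nat_lit 293) (nat_lit 173))) (XT.nd (nat_lit 78) (nat_lit 152) (nat_lit 0) (XT.lf (nat_lit 0) (nat_lit 90401443471) (nat_lit 152) (nat_lit 31718722666) (nat_lit 228) (nat_lit 18293665345) (nat_lit 23) (nat_lit 5) (nat_lit 25) (nat_lit 5)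 (nat_lit 26) (nat_lit 5) (nat_lit 315) (nat_lit 293) (nat_lit 172)) (XT.lf (nat_lit 0) (nat_lit 5953264379) (nat_lit 152) (nat_lit 128960554729) (nat_lit 76) (nat_lit 13064986540) (nat_lit 21) (nat_lit 5) (nat_lit 23) (nat_lit 5) (nat_lit 22) (nat_lit 5) (nat_lit 316) (nat_lit 293) (nat_lit 171)))) (XT.nd (nat_lit 156) (nat_lit 76) (nat_lit 0) (XT.nd (nat_lit 78) (nat_lit 152) (nat_lit 0) (XT.lf (nat_lit 0) (nat_lit 33377795149) (nat_lit 152) (nat_lit 60959528871) (nat_lit 76) (nat_lit 61595547475) (nat_lit 21) (nat_lit 5) (nat_lit 23) (nat_lit 5) (nat_lit 22) (nat_lit 5) (nat_lit 317) (nat_lit 293) (nat_lit 170)) (XT.lf (nat_lit 0) (nat_lit 13137867625) (nat_lit 152) (nat_lit 50173805231) (nat_lit 228) (nat_lit 101186359865) (nat_lit 19) (nat_lit 5) (nat_lit 21) (nat_lit 5) (nat_lit 22) (nat_lit 5) (nat_lit 318) (nat_lit 293) (nat_lit 169))) (XT.nd (nat_lit 78) (nat_lit 76) (nat_lit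 0) (XT.lf (nat_lit 0) (nat_lit 96628980797) (nat_lit 152) (nat_lit 677461469) (nat_lit 228) (nat_lit 76308670866) (nat_lit 19) (nat_lit 5) (nat_lit 21) (nat_lit 5) (nat_lit 22) (nat_lit 5) (nat_lit 319) (nat_lit 293) (nat_lit 168)) (XT.lf (nat_lit 0) (nat_lit 2176508768) (nat_lit 76) (nat_lit 133165429814) (nat_lit 152) (nat_lit 48013930513) (nat_lit 18) (nat_lit 5) (nat_lit 19) (nat_lit 5) (nat_lit 20) (nat_lit 4) (nat_lit 320) (nat_lit 293) (nat_lit 167)))))) (XT.nd (nat_lit 624) (nat_lit 304) (nat_lit 0) (XT.nd (nat_lit 312) (nat_lit 228) (nat_lit 0) (XT.nd (nat_lit 156) (nat_lit 152) (nat_lit 0) (XT.nd (nat_lit 78) (nat_lit 76) (nat_lit 0) (XT.lf (nat_lit 0) (nat_lit 92031063936) (nat_lit 76) (nat_lit 86510791466) (nat_lit 152) (nat_lit 15164304359) (nat_lit 18) (nat_lit 5) (nat_lit 19) (nat_lit 5) (nat_lit 20) (nat_lit 4) (nat_lit 321) (nat_lit 293) (nat_lit 166)) (XT.lf (nat_lit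 0) (nat_lit 19296656118) (nat_lit 152) (nat_lit 16299832616) (nat_lit 76) (nat_lit 169248941337) (nat_lit 17) (nat_lit 5) (nat_lit 19) (nat_lit 5) (nat_lit 18) (nat_lit 5) (nat_lit 322) (nat_lit 293) (nat_lit 165))) (XT.nd (nat_lit 78) (nat_lit 0) (nat_lit 0) (XT.lf (nat_lit 0) (nat_lit 58132676773) (nat_lit 228) (nat_lit 137730572391) (nat_lit 76) (nat_lit 20786087174) (nat_lit 15) (nat_lit 5) (nat_lit 18) (nat_lit 5) (nat_lit 16) (nat_lit 4) (nat_lit 323) (nat_lit 293) (nat_lit 164)) (XT.lf (nat_lit 0) (nat_lit 101456966806) (nat_lit 228) (nat_lit 47616983947) (nat_lit 76) (nat_lit 80213093846) (nat_lit 15) (nat_lit 5) (nat_lit 18) (nat_lit 5) (nat_lit 16) (nat_lit 4) (nat_lit 324) (nat_lit 293) (nat_lit 163)))) (XT.nd (nat_lit 156) (nat_lit 152) (nat_lit 0) (XT.nd (nat_lit 78) (nat_lit 0) (nat_lit 0) (XT.lf (nat_lit 0) (nat_lit 52322367921) (nat_lit 76) (nat_lit 97182780349) (nat_lit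 152) (nat_lit 93329985860) (nat_lit 14) (nat_lit 5) (nat_lit 15) (nat_lit 5) (nat_lit 16) (nat_lit 4) (nat_lit 325) (nat_lit 293) (nat_lit 162)) (XT.lf (nat_lit 0) (nat_lit 162964205340) (nat_lit 76) (nat_lit 39734519315) (nat_lit 152) (nat_lit 54664223373) (nat_lit 14) (nat_lit 5) (nat_lit 15) (nat_lit 5) (nat_lit 16) (nat_lit 4) (nat_lit 326) (nat_lit 293) (nat_lit 161))) (XT.nd (nat_lit 78) (nat_lit 76) (nat_lit 0) (XT.lf (nat_lit 0) (nat_lit 9334132232) (nat_lit 76) (nat_lit 251574317773) (nat_lit 76) (nat_lit 12083684407) (nat_lit 13) (nat_lit 4) (nat_lit 14) (nat_lit 5) (nat_lit 14) (nat_lit 4) (nat_lit 327) (nat_lit 293) (nat_lit 160)) (XT.lf (nat_lit 0) (nat_lit 35887084138) (nat_lit 152) (nat_lit 164846134583) (nat_lit 76) (nat_lit 88778825983) (nat_lit 12) (nat_lit 5) (nat_lit 14) (nat_lit 5) (nat_lit 13) (nat_lit 4) (nat_lit 328) (nat_lit 293) (nat_lit 159))))) (XT.nd (nat_lit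 312) (nat_lit 228) (nat_lit 0) (XT.nd (nat_lit 156) (nat_lit 0) (nat_lit 0) (XT.nd (nat_lit 78) (nat_lit 76) (nat_lit 0) (XT.lf (nat_lit 0) (nat_lit 87042341215) (nat_lit 152) (nat_lit 58443788959) (nat_lit 76) (nat_lit 161842336221) (nat_lit 12) (nat_lit 5) (nat_lit 14) (nat_lit 5) (nat_lit 13) (nat_lit 4) (nat_lit 329) (nat_lit 293) (nat_lit 158)) (XT.lf (nat_lit 0) (nat_lit 59443799615) (nat_lit 76) (nat_lit 84275529117) (nat_lit 152) (nat_lit 182736528598) (nat_lit 11) (nat_lit 5) (nat_lit 12) (nat_lit 5) (nat_lit 13) (nat_lit 4) (nat_lit 330) (nat_lit 293) (nat_lit 157))) (XT.nd (nat_lit 78) (nat_lit 0) (nat_lit 0) (XT.lf (nat_lit 0) (nat_lit 190085595322) (nat_lit 76) (nat_lit 16442531854) (nat_lit 152) (nat_lit 140457500483) (nat_lit 11) (nat_lit 5) (nat_lit 12) (nat_lit 5) (nat_lit 13) (nat_lit 4) (nat_lit 331) (nat_lit 293) (nat_lit 156)) (XT.lf (nat_lit 0) (nat_lit 275727794527)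 (nat_lit 152) (nat_lit 39346024325) (nat_lit 0) (nat_lit 53974667814) (nat_lit 11) (nat_lit 5) (nat_lit 13) (nat_lit 4) (nat_lit 11) (nat_lit 4) (nat_lit 332) (nat_lit 293) (nat_lit 155)))) (XT.nd (nat_lit 156) (nat_lit 76) (nat_lit 0) (XT.nd (nat_lit 78) (nat_lit 76) (nat_lit 0) (XT.lf (nat_lit 0) (nat_lit 91775731734) (nat_lit 76) (nat_lit 261321724432) (nat_lit 76) (nat_lit 39568196789) (nat_lit 10) (nat_lit 4) (nat_lit 11) (nat_lit 5) (nat_lit 11) (nat_lit 4) (nat_lit 333) (nat_lit 293) (nat_lit 154)) (XT.lf (nat_lit 0) (nat_lit 18663296345) (nat_lit 152) (nat_lit 182934242476) (nat_lit 76) (nat_lit 216450812310) (nat_lit 9) (nat_lit 5) (nat_lit 11) (nat_lit 5) (nat_lit 10) (nat_lit 4) (nat_lit 334) (nat_lit 293) (nat_lit 153))) (XT.nd (nat_lit 78) (nat_lit 76) (nat_lit 0) (XT.lf (nat_lit 0) (nat_lit 79415353177) (nat_lit 152) (nat_lit 56570307997) (nat_lit 76) (nat_lit 309393804173)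 (nat_lit 9) (nat_lit 5) (nat_lit 11) (nat_lit 5) (nat_lit 10) (nat_lit 4) (nat_lit 335) (nat_lit 293) (nat_lit 152)) (XT.lf (nat_lit 0) (nat_lit 84109836272) (nat_lit 76) (nat_lit 62940354665) (nat_lit 152) (nat_lit 327685068627) (nat_lit 8) (nat_lit 5) (nat_lit 9) (nat_lit 5) (nat_lit 10) (nat_lit 4) (nat_lit 336) (nat_lit 293) (nat_lit 151))))))))
noncomputable def xc99 : XT := (XT.nd (nat_lit 37518) (nat_lit 0) (nat_lit 836) (XT.nd (nat_lit 1248) (nat_lit 152) (nat_lit 0) (XT.nd (nat_lit 624) (nat_lit 76) (nat_lit 0) (XT.nd (nat_lit 312) (nat_lit 152) (nat_lit 0) (XT.nd (nat_lit 156) (nat_lit 76) (nat_lit 0) (XT.nd (nat_lit 78) (nat_lit 0) (nat_lit 0) (XT.lf (nat_lit 0) (nat_lit 222066061953) (nat_lit 152) (nat_lit 267478343848) (nat_lit 0) (nat_lit 16737491978) (nat_lit 8) (nat_lit 5) (nat_lit 10) (nat_lit 4) (nat_lit 8) (nat_lit 4) (nat_lit 337) (nat_lit 293) (nat_lit 150)) (XT.lf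 (nat_lit 0) (nat_lit 304717808954) (nat_lit 152) (nat_lit 136114703417) (nat_lit 0) (nat_lit 99388986325) (nat_lit 8) (nat_lit 5) (nat_lit 10) (nat_lit 4) (nat_lit 8) (nat_lit 4) (nat_lit 338) (nat_lit 293) (nat_lit 149))) (XT.nd (nat_lit 78) (nat_lit 0) (nat_lit 0) (XT.lf (nat_lit 0) (nat_lit 6060854748) (nat_lit 76) (nat_lit 388066411980) (nat_lit 76) (nat_lit 182737355412) (nat_lit 7) (nat_lit 4) (nat_lit 8) (nat_lit 5) (nat_lit 8) (nat_lit 4) (nat_lit 339) (nat_lit 293) (nat_lit 148)) (XT.lf (nat_lit 0) (nat_lit 167351068522) (nat_lit 76) (nat_lit 327059842910) (nat_lit 76) (nat_lit 121730569732) (nat_lit 7) (nat_lit 4) (nat_lit 8) (nat_lit 5) (nat_lit 8) (nat_lit 4) (nat_lit 340) (nat_lit 293) (nat_lit 147)))) (XT.nd (nat_lit 156) (nat_lit 76) (nat_lit 0) (XT.nd (nat_lit 78) (nat_lit 76) (nat_lit 0) (XT.lf (nat_lit 0) (nat_lit 341544172698) (nat_lit 76) (nat_lit 261172901959) (nat_lit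 76) (nat_lit 55843428216) (nat_lit 7) (nat_lit 4) (nat_lit 8) (nat_lit 5) (nat_lit 8) (nat_lit 4) (nat_lit 341) (nat_lit 293) (nat_lit 146)) (XT.lf (nat_lit 0) (nat_lit 14548417568) (nat_lit 152) (nat_lit 175068950908) (nat_lit 76) (nat_lit 514726225620) (nat_lit 6) (nat_lit 5) (nat_lit 8) (nat_lit 5) (nat_lit 7) (nat_lit 4) (nat_lit 342) (nat_lit 293) (nat_lit 145))) (XT.nd (nat_lit 78) (nat_lit 76) (nat_lit 0) (XT.lf (nat_lit 0) (nat_lit 87554463096) (nat_lit 152) (nat_lit 23216548161) (nat_lit 76) (nat_lit 642902295345) (nat_lit 6) (nat_lit 5) (nat_lit 8) (nat_lit 5) (nat_lit 7) (nat_lit 4) (nat_lit 343) (nat_lit 293) (nat_lit 144)) (XT.lf (nat_lit 0) (nat_lit 148197204308) (nat_lit 76) (nat_lit 21767793252) (nat_lit 152) (nat_lit 636699278214) (nat_lit 5) (nat_lit 5) (nat_lit 6) (nat_lit 5) (nat_lit 7) (nat_lit 4) (nat_lit 344) (nat_lit 293) (nat_lit 143))))) (XT.nd (nat_lit 312)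 (nat_lit 76) (nat_lit 0) (XT.nd (nat_lit 156) (nat_lit 0) (nat_lit 0) (XT.nd (nat_lit 78) (nat_lit 0) (nat_lit 0) (XT.lf (nat_lit 0) (nat_lit 261407760321) (nat_lit 152) (nat_lit 531004349255) (nat_lit 0) (nat_lit 71287262138) (nat_lit 5) (nat_lit 5) (nat_lit 7) (nat_lit 4) (nat_lit 5) (nat_lit 4) (nat_lit 345) (nat_lit 293) (nat_lit 142)) (XT.lf (nat_lit 0) (nat_lit 360731211880) (nat_lit 152) (nat_lit 393910254797) (nat_lit 0) (nat_lit 170610587306) (nat_lit 5) (nat_lit 5) (nat_lit 7) (nat_lit 4) (nat_lit 5) (nat_lit 4) (nat_lit 346) (nat_lit 293) (nat_lit 141))) (XT.nd (nat_lit 78) (nat_lit 0) (nat_lit 0) (XT.lf (nat_lit 0) (nat_lit 468000419700) (nat_lit 152) (nat_lit 245848862691) (nat_lit 0) (nat_lit 277879678099) (nat_lit 5) (nat_lit 5) (nat_lit 7) (nat_lit 4) (nat_lit 5) (nat_lit 4) (nat_lit 347) (nat_lit 293) (nat_lit 140)) (XT.lf (nat_lit 0) (nat_lit 583851053163) (nat_lit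 152) (nat_lit 85942772095) (nat_lit 0) (nat_lit 393730203203) (nat_lit 5) (nat_lit 5) (nat_lit 7) (nat_lit 4) (nat_lit 5) (nat_lit 4) (nat_lit 348) (nat_lit 293) (nat_lit 139)))) (XT.nd (nat_lit 156) (nat_lit 0) (nat_lit 0) (XT.nd (nat_lit 78) (nat_lit 0) (nat_lit 0) (XT.lf (nat_lit 0) (nat_lit 91324005245) (nat_lit 76) (nat_lit 619841973817) (nat_lit 76) (nat_lit 429721023525) (nat_lit 4) (nat_lit 4) (nat_lit 5) (nat_lit 5) (nat_lit 5) (nat_lit 4) (nat_lit 349) (nat_lit 293) (nat_lit 138)) (XT.lf (nat_lit 0) (nat_lit 287659574254) (nat_lit 76) (nat_lit 563356252701) (nat_lit 76) (nat_lit 373235209509) (nat_lit 4) (nat_lit 4) (nat_lit 5) (nat_lit 5) (nat_lit 5) (nat_lit 4) (nat_lit 350) (nat_lit 293) (nat_lit 137))) (XT.nd (nat_lit 78) (nat_lit 0) (nat_lit 0) (XT.lf (nat_lit 0) (nat_lit 499701810896) (nat_lit 76) (nat_lit 502351759404) (nat_lit 76) (nat_lit 312230630193) (nat_lit 4)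 (nat_lit 4) (nat_lit 5) (nat_lit 5) (nat_lit 5) (nat_lit 4) (nat_lit 351) (nat_lit 293) (nat_lit 136)) (XT.lf (nat_lit 0) (nat_lit 728707261757) (nat_lit 76) (nat_lit 436466985817) (nat_lit 76) (nat_lit 246345776959) (nat_lit 4) (nat_lit 4) (nat_lit 5) (nat_lit 5) (nat_lit 5) (nat_lit 4) (nat_lit 352) (nat_lit 293) (nat_lit 135)))))) (XT.nd (nat_lit 624) (nat_lit 0) (nat_lit 0) (XT.nd (nat_lit 312) (nat_lit 76) (nat_lit 0) (XT.nd (nat_lit 156) (nat_lit 76) (nat_lit 0) (XT.nd (nat_lit 78) (nat_lit 0) (nat_lit 0) (XT.lf (nat_lit 0) (nat_lit 976032996176) (nat_lit 76) (nat_lit 365311503653) (nat_lit 76) (nat_lit 175190221047) (nat_lit 4) (nat_lit 4) (nat_lit 5) (nat_lit 5) (nat_lit 5) (nat_lit 4) (nat_lit 353) (nat_lit 293) (nat_lit 134)) (XT.lf (nat_lit 0) (nat_lit 1243144648135) (nat_lit 76) (nat_lit 288463650794) (nat_lit 76) (nat_lit 98342299904) (nat_lit 4) (nat_lit 4) (nat_lit 5)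 (nat_lit 5) (nat_lit 5) (nat_lit 4) (nat_lit 354) (nat_lit 293) (nat_lit 133))) (XT.nd (nat_lit 78) (nat_lit 76) (nat_lit 0) (XT.lf (nat_lit 0) (nat_lit 1531625101497) (nat_lit 76) (nat_lit 205468032557) (nat_lit 76) (nat_lit 15346618441) (nat_lit 4) (nat_lit 4) (nat_lit 5) (nat_lit 5) (nat_lit 5) (nat_lit 4) (nat_lit 355) (nat_lit 293) (nat_lit 132)) (XT.lf (nat_lit 0) (nat_lit 70572430477) (nat_lit 152) (nat_lit 43330817265) (nat_lit 76) (nat_lit 1770681864268) (nat_lit 3) (nat_lit 5) (nat_lit 5) (nat_lit 5) (nat_lit 4) (nat_lit 4) (nat_lit 356) (nat_lit 293) (nat_lit 131)))) (XT.nd (nat_lit 156) (nat_lit 0) (nat_lit 0) (XT.nd (nat_lit 78) (nat_lit 0) (nat_lit 0) (XT.lf (nat_lit 0) (nat_lit 155743936915) (nat_lit 76) (nat_lit 10537536056) (nat_lit 152) (nat_lit 1860689091415) (nat_lit 2) (nat_lit 5) (nat_lit 3) (nat_lit 5) (nat_lit 4) (nat_lit 4) (nat_lit 357) (nat_lit 293) (nat_lit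 130)) (XT.lf (nat_lit 0) (nat_lit 273294089044) (nat_lit 152) (nat_lit 1809905424149) (nat_lit 0) (nat_lit 97255591770) (nat_lit 2) (nat_lit 5) (nat_lit 4) (nat_lit 4) (nat_lit 2) (nat_lit 4) (nat_lit 358) (nat_lit 293) (nat_lit 129))) (XT.nd (nat_lit 78) (nat_lit 0) (nat_lit 0) (XT.lf (nat_lit 0) (nat_lit 389141361694) (nat_lit 152) (nat_lit 1743952333946) (nat_lit 0) (nat_lit 213102821389) (nat_lit 2) (nat_lit 5) (nat_lit 4) (nat_lit 4) (nat_lit 2) (nat_lit 4) (nat_lit 359) (nat_lit 293) (nat_lit 128)) (XT.lf (nat_lit 0) (nat_lit 514256365282) (nat_lit 152) (nat_lit 1672723095739) (nat_lit 0) (nat_lit 338217785133) (nat_lit 2) (nat_lit 5) (nat_lit 4) (nat_lit 4) (nat_lit 2) (nat_lit 4) (nat_lit 360) (nat_lit 293) (nat_lit 127))))) (XT.nd (nat_lit 312) (nat_lit 0) (nat_lit 0) (XT.nd (nat_lit 156) (nat_lit 0) (nat_lit 0) (XT.nd (nat_lit 78) (nat_lit 0) (nat_lit 0) (XT.lf (nat_lit 0)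 (nat_lit 649380522050) (nat_lit 152) (nat_lit 1595795610339) (nat_lit 0) (nat_lit 473341905009) (nat_lit 2) (nat_lit 5) (nat_lit 4) (nat_lit 4) (nat_lit 2) (nat_lit 4) (nat_lit 361) (nat_lit 293) (nat_lit 126)) (XT.lf (nat_lit 0) (nat_lit 795314567744) (nat_lit 152) (nat_lit 1512714011165) (nat_lit 0) (nat_lit 619275916544) (nat_lit 2) (nat_lit 5) (nat_lit 4) (nat_lit 4) (nat_lit 2) (nat_lit 4) (nat_lit 362) (nat_lit 293) (nat_lit 125))) (XT.nd (nat_lit 78) (nat_lit 0) (nat_lit 0) (XT.lf (nat_lit 0) (nat_lit 952923296707) (nat_lit 152) (nat_lit 1422985962816) (nat_lit 0) (nat_lit 776884613878) (nat_lit 2) (nat_lit 5) (nat_lit 4) (nat_lit 4) (nat_lit 2) (nat_lit 4) (nat_lit 363) (nat_lit 293) (nat_lit 124)) (XT.lf (nat_lit 0) (nat_lit 1123140686592) (nat_lit 152) (nat_lit 1326079743522) (nat_lit 0) (nat_lit 947101974478) (nat_lit 2) (nat_lit 5) (nat_lit 4) (nat_lit 4) (nat_lit 2) (nat_lit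 4) (nat_lit 364) (nat_lit 293) (nat_lit 123)))) (XT.nd (nat_lit 35178) (nat_lit 0) (nat_lit 3268) (XT.nd (nat_lit 35100) (nat_lit 0) (nat_lit 3268) (XT.lf (nat_lit 0) (nat_lit 1306975433045) (nat_lit 152) (nat_lit 1221421094207) (nat_lit 0) (nat_lit 1130936693813) (nat_lit 2) (nat_lit 5) (nat_lit 4) (nat_lit 4) (nat_lit 2) (nat_lit 4) (nat_lit 365) (nat_lit 293) (nat_lit 122)) (XT.lf (nat_lit 0) (nat_lit 17922664279) (nat_lit 532) (nat_lit 5018268995) (nat_lit 532) (nat_lit 5018268995) (nat_lit 45) (nat_lit 3) (nat_lit 52) (nat_lit 3) (nat_lit 52) (nat_lit 5) (nat_lit 294) (nat_lit 294) (nat_lit 192))) (XT.nd (nat_lit 78) (nat_lit 0) (nat_lit 76) (XT.lf (nat_lit 76) (nat_lit 16449141799) (nat_lit 0) (nat_lit 21244769445) (nat_lit 532) (nat_lit 20427992761) (nat_lit 46) (nat_lit 5) (nat_lit 45) (nat_lit 3) (nat_lit 52) (nat_lit 5) (nat_lit 295) (nat_lit 294) (nat_lit 191)) (XT.lf (nat_lit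 0) (nat_lit 40098988901) (nat_lit 456) (nat_lit 14992656862) (nat_lit 532) (nat_lit 5377354514) (nat_lit 46) (nat_lit 5) (nat_lit 52) (nat_lit 5) (nat_lit 53) (nat_lit 5) (nat_lit 296) (nat_lit 294) (nat_lit 190))))))) (XT.nd (nat_lit 1248) (nat_lit 1064) (nat_lit 0) (XT.nd (nat_lit 624) (nat_lit 836) (nat_lit 0) (XT.nd (nat_lit 312) (nat_lit 608) (nat_lit 0) (XT.nd (nat_lit 156) (nat_lit 0) (nat_lit 76) (XT.nd (nat_lit 78) (nat_lit 0) (nat_lit 0) (XT.lf (nat_lit 76) (nat_lit 13967579556) (nat_lit 0) (nat_lit 29614845040) (nat_lit 532) (nat_lit 19350568617) (nat_lit 47) (nat_lit 5) (nat_lit 46) (nat_lit 5) (nat_lit 53) (nat_lit 5) (nat_lit 297) (nat_lit 294) (nat_lit 189)) (XT.lf (nat_lit 76) (nat_lit 46096130384) (nat_lit 0) (nat_lit 1656653843) (nat_lit 532) (nat_lit 17808666162) (nat_lit 47) (nat_lit 5) (nat_lit 46) (nat_lit 5) (nat_lit 53) (nat_lit 5) (nat_lit 298) (nat_lit 294)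 (nat_lit 188))) (XT.nd (nat_lit 78) (nat_lit 0) (nat_lit 0) (XT.lf (nat_lit 76) (nat_lit 12323713697) (nat_lit 0) (nat_lit 40914247960) (nat_lit 532) (nat_lit 15083731738) (nat_lit 48) (nat_lit 5) (nat_lit 47) (nat_lit 5) (nat_lit 54) (nat_lit 5) (nat_lit 299) (nat_lit 294) (nat_lit 187)) (XT.lf (nat_lit 76) (nat_lit 47716409461) (nat_lit 0) (nat_lit 12018245849) (nat_lit 532) (nat_lit 11522288427) (nat_lit 48) (nat_lit 5) (nat_lit 47) (nat_lit 5) (nat_lit 54) (nat_lit 5) (nat_lit 300) (nat_lit 294) (nat_lit 186)))) (XT.nd (nat_lit 156) (nat_lit 304) (nat_lit 0) (XT.nd (nat_lit 78) (nat_lit 0) (nat_lit 0) (XT.lf (nat_lit 0) (nat_lit 11632710119) (nat_lit 456) (nat_lit 55858306791) (nat_lit 532) (nat_lit 6876806355) (nat_lit 42) (nat_lit 5) (nat_lit 48) (nat_lit 5) (nat_lit 49) (nat_lit 5) (nat_lit 301) (nat_lit 294) (nat_lit 185)) (XT.lf (nat_lit 0) (nat_lit 50628809966) (nat_lit 456)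 (nat_lit 26185706943) (nat_lit 532) (nat_lit 837329366) (nat_lit 42) (nat_lit 5) (nat_lit 48) (nat_lit 5) (nat_lit 49) (nat_lit 5) (nat_lit 302) (nat_lit 294) (nat_lit 184))) (XT.nd (nat_lit 78) (nat_lit 0) (nat_lit 0) (XT.lf (nat_lit 0) (nat_lit 5840511982) (nat_lit 304) (nat_lit 69307799996) (nat_lit 76) (nat_lit 6004174933) (nat_lit 38) (nat_lit 5) (nat_lit 42) (nat_lit 5) (nat_lit 39) (nat_lit 5) (nat_lit 303) (nat_lit 294) (nat_lit 183)) (XT.lf (nat_lit 0) (nat_lit 14444393803) (nat_lit 304) (nat_lit 30237726745) (nat_lit 76) (nat_lit 40134357048) (nat_lit 38) (nat_lit 5) (nat_lit 42) (nat_lit 5) (nat_lit 39) (nat_lit 5) (nat_lit 304) (nat_lit 294) (nat_lit 182))))) (XT.nd (nat_lit 312) (nat_lit 380) (nat_lit 0) (XT.nd (nat_lit 156) (nat_lit 228) (nat_lit 0) (XT.nd (nat_lit 78) (nat_lit 0) (nat_lit 0) (XT.lf (nat_lit 0) (nat_lit 12586447416) (nat_lit 228) (nat_lit 11451781686) (nat_lit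 304) (nat_lit 64711229555) (nat_lit 35) (nat_lit 5) (nat_lit 38) (nat_lit 5) (nat_lit 39) (nat_lit 5) (nat_lit 305) (nat_lit 294) (nat_lit 181)) (XT.lf (nat_lit 0) (nat_lit 35834496915) (nat_lit 304) (nat_lit 32985102612) (nat_lit 76) (nat_lit 24062686987) (nat_lit 35) (nat_lit 5) (nat_lit 39) (nat_lit 5) (nat_lit 36) (nat_lit 5) (nat_lit 306) (nat_lit 294) (nat_lit 180))) (XT.nd (nat_lit 78) (nat_lit 0) (nat_lit 0) (XT.lf (nat_lit 0) (nat_lit 14051403195) (nat_lit 228) (nat_lit 35157511833) (nat_lit 304) (nat_lit 48086071854) (nat_lit 32) (nat_lit 5) (nat_lit 35) (nat_lit 5) (nat_lit 36) (nat_lit 5) (nat_lit 307) (nat_lit 294) (nat_lit 179)) (XT.lf (nat_lit 0) (nat_lit 64606486854) (nat_lit 304) (nat_lit 35315194554) (nat_lit 76) (nat_lit 2062767879) (nat_lit 32) (nat_lit 5) (nat_lit 36) (nat_lit 5) (nat_lit 33) (nat_lit 5) (nat_lit 308) (nat_lit 294) (nat_lit 178)))) (XT.nd (nat_lit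 156) (nat_lit 228) (nat_lit 0) (XT.nd (nat_lit 78) (nat_lit 0) (nat_lit 0) (XT.lf (nat_lit 0) (nat_lit 16351183907) (nat_lit 152) (nat_lit 66190278400) (nat_lit 228) (nat_lit 24403160425) (nat_lit 30) (nat_lit 5) (nat_lit 32) (nat_lit 5) (nat_lit 33) (nat_lit 5) (nat_lit 309) (nat_lit 294) (nat_lit 177)) (XT.lf (nat_lit 0) (nat_lit 74158253570) (nat_lit 152) (nat_lit 28717768486) (nat_lit 228) (nat_lit 9348406836) (nat_lit 30) (nat_lit 5) (nat_lit 32) (nat_lit 5) (nat_lit 33) (nat_lit 5) (nat_lit 310) (nat_lit 294) (nat_lit 176))) (XT.nd (nat_lit 78) (nat_lit 0) (nat_lit 0) (XT.lf (nat_lit 0) (nat_lit 7331646687) (nat_lit 228) (nat_lit 98705001667) (nat_lit 76) (nat_lit 11815346655) (nat_lit 27) (nat_lit 5) (nat_lit 30) (nat_lit 5) (nat_lit 28) (nat_lit 5) (nat_lit 311) (nat_lit 294) (nat_lit 175)) (XT.lf (nat_lit 0) (nat_lit 26654065477) (nat_lit 228) (nat_lit 41761214646) (nat_lit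 76) (nat_lit 55350020989) (nat_lit 27) (nat_lit 5) (nat_lit 30) (nat_lit 5) (nat_lit 28) (nat_lit 5) (nat_lit 312) (nat_lit 294) (nat_lit 174)))))) (XT.nd (nat_lit 624) (nat_lit 456) (nat_lit 0) (XT.nd (nat_lit 312) (nat_lit 304) (nat_lit 0) (XT.nd (nat_lit 156) (nat_lit 152) (nat_lit 0) (XT.nd (nat_lit 78) (nat_lit 0) (nat_lit 0) (XT.lf (nat_lit 0) (nat_lit 20776454123) (nat_lit 152) (nat_lit 27244823176) (nat_lit 228) (nat_lit 82090475720) (nat_lit 25) (nat_lit 5) (nat_lit 27) (nat_lit 5) (nat_lit 28) (nat_lit 5) (nat_lit 313) (nat_lit 294) (nat_lit 173)) (XT.lf (nat_lit 0) (nat_lit 72682819960) (nat_lit 228) (nat_lit 46627189103) (nat_lit 76) (nat_lit 17529116888) (nat_lit 25) (nat_lit 5) (nat_lit 28) (nat_lit 5) (nat_lit 26) (nat_lit 5) (nat_lit 314) (nat_lit 294) (nat_lit 172))) (XT.nd (nat_lit 78) (nat_lit 0) (nat_lit 0) (XT.lf (nat_lit 0) (nat_lit 21462666731) (nat_lit 152) (nat_lit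 79077849702) (nat_lit 228) (nat_lit 43466314950) (nat_lit 23) (nat_lit 5) (nat_lit 25) (nat_lit 5) (nat_lit 26) (nat_lit 5) (nat_lit 315) (nat_lit 294) (nat_lit 171)) (XT.lf (nat_lit 0) (nat_lit 97650568725) (nat_lit 152) (nat_lit 34250548729) (nat_lit 228) (nat_lit 19744893704) (nat_lit 23) (nat_lit 5) (nat_lit 25) (nat_lit 5) (nat_lit 26) (nat_lit 5) (nat_lit 316) (nat_lit 294) (nat_lit 170)))) (XT.nd (nat_lit 156) (nat_lit 152) (nat_lit 0) (XT.nd (nat_lit 78) (nat_lit 0) (nat_lit 0) (XT.lf (nat_lit 0) (nat_lit 6440871476) (nat_lit 152) (nat_lit 139259435097) (nat_lit 76) (nat_lit 14115878874) (nat_lit 21) (nat_lit 5) (nat_lit 23) (nat_lit 5) (nat_lit 22) (nat_lit 5) (nat_lit 317) (nat_lit 294) (nat_lit 169)) (XT.lf (nat_lit 0) (nat_lit 36058524267) (nat_lit 152) (nat_lit 65819657838) (nat_lit 76) (nat_lit 66528462950) (nat_lit 21) (nat_lit 5) (nat_lit 23) (nat_lit 5) (nat_lit 22)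 (nat_lit 5) (nat_lit 318) (nat_lit 294) (nat_lit 168))) (XT.nd (nat_lit 78) (nat_lit 0) (nat_lit 0) (XT.lf (nat_lit 0) (nat_lit 14205109281) (nat_lit 152) (nat_lit 54181614629) (nat_lit 228) (nat_lit 109270327496) (nat_lit 19) (nat_lit 5) (nat_lit 21) (nat_lit 5) (nat_lit 22) (nat_lit 5) (nat_lit 319) (nat_lit 294) (nat_lit 167)) (XT.lf (nat_lit 0) (nat_lit 104374310599) (nat_lit 152) (nat_lit 726014850) (nat_lit 228) (nat_lit 82403233833) (nat_lit 19) (nat_lit 5) (nat_lit 21) (nat_lit 5) (nat_lit 22) (nat_lit 5) (nat_lit 320) (nat_lit 294) (nat_lit 166))))) (XT.nd (nat_lit 312) (nat_lit 152) (nat_lit 0) (XT.nd (nat_lit 156) (nat_lit 228) (nat_lit 0) (XT.nd (nat_lit 78) (nat_lit 0) (nat_lit 0) (XT.lf (nat_lit 0) (nat_lit 2365872070) (nat_lit 76) (nat_lit 143812587747) (nat_lit 152) (nat_lit 51845133035) (nat_lit 18) (nat_lit 5) (nat_lit 19) (nat_lit 5) (nat_lit 20) (nat_lit 4) (nat_lit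 321) (nat_lit 294) (nat_lit 165)) (XT.lf (nat_lit 0) (nat_lit 99407662570) (nat_lit 76) (nat_lit 93426028439) (nat_lit 152) (nat_lit 16368271006) (nat_lit 18) (nat_lit 5) (nat_lit 19) (nat_lit 5) (nat_lit 20) (nat_lit 4) (nat_lit 322) (nat_lit 294) (nat_lit 164))) (XT.nd (nat_lit 78) (nat_lit 152) (nat_lit 0) (XT.lf (nat_lit 0) (nat_lit 20848461382) (nat_lit 152) (nat_lit 17590316148) (nat_lit 76) (nat_lit 182793631219) (nat_lit 17) (nat_lit 5) (nat_lit 19) (nat_lit 5) (nat_lit 18) (nat_lit 5) (nat_lit 323) (nat_lit 294) (nat_lit 163)) (XT.lf (nat_lit 0) (nat_lit 62791211381) (nat_lit 228) (nat_lit 148735353624) (nat_lit 76) (nat_lit 22454075432) (nat_lit 15) (nat_lit 5) (nat_lit 18) (nat_lit 5) (nat_lit 16) (nat_lit 4) (nat_lit 324) (nat_lit 294) (nat_lit 162)))) (XT.nd (nat_lit 156) (nat_lit 76) (nat_lit 0) (XT.nd (nat_lit 78) (nat_lit 76) (nat_lit 0) (XT.lf (nat_lit 0) (nat_lit 109580857915)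 (nat_lit 228) (nat_lit 51413690294) (nat_lit 76) (nat_lit 86634864764) (nat_lit 15) (nat_lit 5) (nat_lit 18) (nat_lit 5) (nat_lit 16) (nat_lit 4) (nat_lit 325) (nat_lit 294) (nat_lit 161)) (XT.lf (nat_lit 0) (nat_lit 56520489411) (nat_lit 76) (nat_lit 104952157830) (nat_lit 152) (nat_lit 100788722788) (nat_lit 14) (nat_lit 5) (nat_lit 15) (nat_lit 5) (nat_lit 16) (nat_lit 4) (nat_lit 326) (nat_lit 294) (nat_lit 160))) (XT.nd (nat_lit 78) (nat_lit 76) (nat_lit 0) (XT.lf (nat_lit 0) (nat_lit 176012760337) (nat_lit 76) (nat_lit 42908424428) (nat_lit 152) (nat_lit 59030266853) (nat_lit 14) (nat_lit 5) (nat_lit 15) (nat_lit 5) (nat_lit 16) (nat_lit 4) (nat_lit 327) (nat_lit 294) (nat_lit 159)) (XT.lf (nat_lit 0) (nat_lit 10092397240) (nat_lit 76) (nat_lit 271695190368) (nat_lit 76) (nat_lit 13043393887) (nat_lit 13) (nat_lit 4) (nat_lit 14) (nat_lit 5) (nat_lit 14) (nat_lit 4) (nat_lit 328)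 (nat_lit 294) (nat_lit 158))))))))
noncomputable def xc100 : XT := (XT.nd (nat_lit 2418) (nat_lit 0) (nat_lit 0) (XT.nd (nat_lit 1170) (nat_lit 304) (nat_lit 0) (XT.nd (nat_lit 546) (nat_lit 228) (nat_lit 0) (XT.nd (nat_lit 234) (nat_lit 152) (nat_lit 0) (XT.nd (nat_lit 78) (nat_lit 76) (nat_lit 0) (XT.lf (nat_lit 0) (nat_lit 38764195166) (nat_lit 152) (nat_lit 178022815995) (nat_lit 76) (nat_lit 95885499796) (nat_lit 12) (nat_lit 5) (nat_lit 14) (nat_lit 5) (nat_lit 13) (nat_lit 4) (nat_lit 329) (nat_lit 294) (nat_lit 157)) (XT.nd (nat_lit 78) (nat_lit 76) (nat_lit 0) (XT.lf (nat_lit 0) (nat_lit 94011417677) (nat_lit 152) (nat_lit 63109098229) (nat_lit 76) (nat_lit 174793767317) (nat_lit 12) (nat_lit 5) (nat_lit 14) (nat_lit 5) (nat_lit 13) (nat_lit 4) (nat_lit 330) (nat_lit 294) (nat_lit 156)) (XT.lf (nat_lit 0) (nat_lit 64209239359) (nat_lit 76) (nat_lit 91013142372) (nat_lit 152)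 (nat_lit 197349498694) (nat_lit 11) (nat_lit 5) (nat_lit 12) (nat_lit 5) (nat_lit 13) (nat_lit 4) (nat_lit 331) (nat_lit 294) (nat_lit 155)))) (XT.nd (nat_lit 156) (nat_lit 152) (nat_lit 0) (XT.nd (nat_lit 78) (nat_lit 0) (nat_lit 0) (XT.lf (nat_lit 0) (nat_lit 205301642740) (nat_lit 76) (nat_lit 17753833407) (nat_lit 152) (nat_lit 151688589233) (nat_lit 11) (nat_lit 5) (nat_lit 12) (nat_lit 5) (nat_lit 13) (nat_lit 4) (nat_lit 332) (nat_lit 294) (nat_lit 154)) (XT.lf (nat_lit 0) (nat_lit 297790830520) (nat_lit 152) (nat_lit 42484897331) (nat_lit 0) (nat_lit 58296248504) (nat_lit 11) (nat_lit 5) (nat_lit 13) (nat_lit 4) (nat_lit 11) (nat_lit 4) (nat_lit 333) (nat_lit 294) (nat_lit 153))) (XT.nd (nat_lit 78) (nat_lit 76) (nat_lit 0) (XT.lf (nat_lit 0) (nat_lit 99126376201) (nat_lit 76) (nat_lit 282223538905) (nat_lit 76) (nat_lit 42728613156) (nat_lit 10) (nat_lit 4) (nat_lit 11) (nat_lit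 5) (nat_lit 11) (nat_lit 4) (nat_lit 334) (nat_lit 294) (nat_lit 152)) (XT.lf (nat_lit 0) (nat_lit 20160792724) (nat_lit 152) (nat_lit 197560795151) (nat_lit 76) (nat_lit 233770273359) (nat_lit 9) (nat_lit 5) (nat_lit 11) (nat_lit 5) (nat_lit 10) (nat_lit 4) (nat_lit 335) (nat_lit 294) (nat_lit 151))))) (XT.nd (nat_lit 312) (nat_lit 152) (nat_lit 0) (XT.nd (nat_lit 156) (nat_lit 0) (nat_lit 0) (XT.nd (nat_lit 78) (nat_lit 76) (nat_lit 0) (XT.lf (nat_lit 0) (nat_lit 85772685758) (nat_lit 152) (nat_lit 61088352337) (nat_lit 76) (nat_lit 334148453012) (nat_lit 9) (nat_lit 5) (nat_lit 11) (nat_lit 5) (nat_lit 10) (nat_lit 4) (nat_lit 336) (nat_lit 294) (nat_lit 150)) (XT.lf (nat_lit 0) (nat_lit 90846011567) (nat_lit 76) (nat_lit 67972172638) (nat_lit 152) (nat_lit 353895574993) (nat_lit 8) (nat_lit 5) (nat_lit 9) (nat_lit 5) (nat_lit 10) (nat_lit 4) (nat_lit 337) (nat_lit 294) (nat_lit 149)))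 (XT.nd (nat_lit 78) (nat_lit 0) (nat_lit 0) (XT.lf (nat_lit 0) (nat_lit 239835106181) (nat_lit 152) (nat_lit 288869548853) (nat_lit 0) (nat_lit 18079491149) (nat_lit 8) (nat_lit 5) (nat_lit 10) (nat_lit 4) (nat_lit 8) (nat_lit 4) (nat_lit 338) (nat_lit 294) (nat_lit 148)) (XT.lf (nat_lit 0) (nat_lit 329098714477) (nat_lit 152) (nat_lit 146997340335) (nat_lit 0) (nat_lit 107342882835) (nat_lit 8) (nat_lit 5) (nat_lit 10) (nat_lit 4) (nat_lit 8) (nat_lit 4) (nat_lit 339) (nat_lit 294) (nat_lit 147)))) (XT.nd (nat_lit 156) (nat_lit 76) (nat_lit 0) (XT.nd (nat_lit 78) (nat_lit 0) (nat_lit 0) (XT.lf (nat_lit 0) (nat_lit 6552096930) (nat_lit 76) (nat_lit 419108727396) (nat_lit 76) (nat_lit 197352695190) (nat_lit 7) (nat_lit 4) (nat_lit 8) (nat_lit 5) (nat_lit 8) (nat_lit 4) (nat_lit 340) (nat_lit 294) (nat_lit 146)) (XT.lf (nat_lit 0) (nat_lit 180745055672) (nat_lit 76) (nat_lit 353221854841)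 (nat_lit 76) (nat_lit 131465636926) (nat_lit 7) (nat_lit 4) (nat_lit 8) (nat_lit 5) (nat_lit 8) (nat_lit 4) (nat_lit 341) (nat_lit 294) (nat_lit 145))) (XT.nd (nat_lit 78) (nat_lit 76) (nat_lit 0) (XT.lf (nat_lit 0) (nat_lit 368873171021) (nat_lit 76) (nat_lit 282064164206) (nat_lit 76) (nat_lit 60307774340) (nat_lit 7) (nat_lit 4) (nat_lit 8) (nat_lit 5) (nat_lit 8) (nat_lit 4) (nat_lit 342) (nat_lit 294) (nat_lit 144)) (XT.lf (nat_lit 0) (nat_lit 15715042503) (nat_lit 152) (nat_lit 189069260674) (nat_lit 76) (nat_lit 555906556637) (nat_lit 6) (nat_lit 5) (nat_lit 8) (nat_lit 5) (nat_lit 7) (nat_lit 4) (nat_lit 343) (nat_lit 294) (nat_lit 143)))))) (XT.nd (nat_lit 624) (nat_lit 152) (nat_lit 0) (XT.nd (nat_lit 312) (nat_lit 76) (nat_lit 0) (XT.nd (nat_lit 156) (nat_lit 0) (nat_lit 0) (XT.nd (nat_lit 78) (nat_lit 76) (nat_lit 0) (XT.lf (nat_lit 0) (nat_lit 94561367856) (nat_lit 152)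 (nat_lit 25069051359) (nat_lit 76) (nat_lit 694336546536) (nat_lit 6) (nat_lit 5) (nat_lit 8) (nat_lit 5) (nat_lit 7) (nat_lit 4) (nat_lit 344) (nat_lit 294) (nat_lit 142)) (XT.lf (nat_lit 0) (nat_lit 160057679265) (nat_lit 76) (nat_lit 23506990094) (nat_lit 152) (nat_lit 687632549270) (nat_lit 5) (nat_lit 5) (nat_lit 6) (nat_lit 5) (nat_lit 7) (nat_lit 4) (nat_lit 345) (nat_lit 294) (nat_lit 141))) (XT.nd (nat_lit 78) (nat_lit 0) (nat_lit 0) (XT.lf (nat_lit 0) (nat_lit 282322719615) (nat_lit 152) (nat_lit 573480211762) (nat_lit 0) (nat_lit 76992201658) (nat_lit 5) (nat_lit 5) (nat_lit 7) (nat_lit 4) (nat_lit 5) (nat_lit 4) (nat_lit 346) (nat_lit 294) (nat_lit 140)) (XT.lf (nat_lit 0) (nat_lit 389591874078) (nat_lit 152) (nat_lit 425418922001) (nat_lit 0) (nat_lit 184261247763) (nat_lit 5) (nat_lit 5) (nat_lit 7) (nat_lit 4) (nat_lit 5) (nat_lit 4) (nat_lit 347) (nat_lit 294) (nat_lit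 139)))) (XT.nd (nat_lit 156) (nat_lit 76) (nat_lit 0) (XT.nd (nat_lit 78) (nat_lit 0) (nat_lit 0) (XT.lf (nat_lit 0) (nat_lit 505442458136) (nat_lit 152) (nat_lit 265512926170) (nat_lit 0) (nat_lit 300111731488) (nat_lit 5) (nat_lit 5) (nat_lit 7) (nat_lit 4) (nat_lit 5) (nat_lit 4) (nat_lit 348) (nat_lit 294) (nat_lit 138)) (XT.lf (nat_lit 0) (nat_lit 630560993767) (nat_lit 152) (nat_lit 92814633180) (nat_lit 0) (nat_lit 425230174219) (nat_lit 5) (nat_lit 5) (nat_lit 7) (nat_lit 4) (nat_lit 5) (nat_lit 4) (nat_lit 349) (nat_lit 294) (nat_lit 137))) (XT.nd (nat_lit 78) (nat_lit 0) (nat_lit 0) (XT.lf (nat_lit 0) (nat_lit 98633396203) (nat_lit 76) (nat_lit 669427663495) (nat_lit 76) (nat_lit 464096757928) (nat_lit 4) (nat_lit 4) (nat_lit 5) (nat_lit 5) (nat_lit 5) (nat_lit 4) (nat_lit 350) (nat_lit 294) (nat_lit 136)) (XT.lf (nat_lit 0) (nat_lit 310675553656) (nat_lit 76) (nat_lit 608423208262)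 (nat_lit 76) (nat_lit 403092223048) (nat_lit 4) (nat_lit 4) (nat_lit 5) (nat_lit 5) (nat_lit 5) (nat_lit 4) (nat_lit 351) (nat_lit 294) (nat_lit 135))))) (XT.nd (nat_lit 312) (nat_lit 152) (nat_lit 0) (XT.nd (nat_lit 156) (nat_lit 0) (nat_lit 0) (XT.nd (nat_lit 78) (nat_lit 0) (nat_lit 0) (XT.lf (nat_lit 0) (nat_lit 539680931194) (nat_lit 76) (nat_lit 542538469920) (nat_lit 76) (nat_lit 337207410959) (nat_lit 4) (nat_lit 4) (nat_lit 5) (nat_lit 5) (nat_lit 5) (nat_lit 4) (nat_lit 352) (nat_lit 294) (nat_lit 134)) (XT.lf (nat_lit 0) (nat_lit 787006597722) (nat_lit 76) (nat_lit 471383020389) (nat_lit 76) (nat_lit 266051893144) (nat_lit 4) (nat_lit 4) (nat_lit 5) (nat_lit 5) (nat_lit 5) (nat_lit 4) (nat_lit 353) (nat_lit 294) (nat_lit 133))) (XT.nd (nat_lit 78) (nat_lit 0) (nat_lit 0) (XT.lf (nat_lit 0) (nat_lit 1054118186819) (nat_lit 76) (nat_lit 394535197747) (nat_lit 76) (nat_lit 189204007276)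 (nat_lit 4) (nat_lit 4) (nat_lit 5) (nat_lit 5) (nat_lit 5) (nat_lit 4) (nat_lit 354) (nat_lit 294) (nat_lit 132)) (XT.lf (nat_lit 0) (nat_lit 1342598581975) (nat_lit 76) (nat_lit 311539607489) (nat_lit 76) (nat_lit 106208358475) (nat_lit 4) (nat_lit 4) (nat_lit 5) (nat_lit 5) (nat_lit 5) (nat_lit 4) (nat_lit 355) (nat_lit 294) (nat_lit 131)))) (XT.nd (nat_lit 156) (nat_lit 76) (nat_lit 0) (XT.nd (nat_lit 78) (nat_lit 76) (nat_lit 0) (XT.lf (nat_lit 0) (nat_lit 1654157296644) (nat_lit 76) (nat_lit 221904423895) (nat_lit 76) (nat_lit 16573120674) (nat_lit 4) (nat_lit 4) (nat_lit 5) (nat_lit 5) (nat_lit 5) (nat_lit 4) (nat_lit 356) (nat_lit 294) (nat_lit 130)) (XT.lf (nat_lit 0) (nat_lit 76219304407) (nat_lit 152) (nat_lit 46795200245) (nat_lit 76) (nat_lit 1912337329429) (nat_lit 3) (nat_lit 5) (nat_lit 5) (nat_lit 5) (nat_lit 4) (nat_lit 4) (nat_lit 357) (nat_lit 294) (nat_lit 129)))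 (XT.nd (nat_lit 78) (nat_lit 0) (nat_lit 0) (XT.lf (nat_lit 0) (nat_lit 168205481551) (nat_lit 76) (nat_lit 11379557601) (nat_lit 152) (nat_lit 2009543086025) (nat_lit 2) (nat_lit 5) (nat_lit 3) (nat_lit 5) (nat_lit 4) (nat_lit 4) (nat_lit 358) (nat_lit 294) (nat_lit 128)) (XT.lf (nat_lit 0) (nat_lit 295158608709) (nat_lit 152) (nat_lit 1954695922488) (nat_lit 0) (nat_lit 105036902305) (nat_lit 2) (nat_lit 5) (nat_lit 4) (nat_lit 4) (nat_lit 2) (nat_lit 4) (nat_lit 359) (nat_lit 294) (nat_lit 127))))))) (XT.nd (nat_lit 36348) (nat_lit 0) (nat_lit 1292) (XT.nd (nat_lit 35724) (nat_lit 0) (nat_lit 2736) (XT.nd (nat_lit 312) (nat_lit 0) (nat_lit 0) (XT.nd (nat_lit 156) (nat_lit 0) (nat_lit 0) (XT.nd (nat_lit 78) (nat_lit 0) (nat_lit 0) (XT.lf (nat_lit 0) (nat_lit 420273589649) (nat_lit 152) (nat_lit 1883466728446) (nat_lit 0) (nat_lit 230151846353) (nat_lit 2) (nat_lit 5) (nat_lit 4) (nat_lit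 4) (nat_lit 2) (nat_lit 4) (nat_lit 360) (nat_lit 294) (nat_lit 126)) (XT.lf (nat_lit 0) (nat_lit 555397725448) (nat_lit 152) (nat_lit 1806539283939) (nat_lit 0) (nat_lit 365275947993) (nat_lit 2) (nat_lit 5) (nat_lit 4) (nat_lit 4) (nat_lit 2) (nat_lit 4) (nat_lit 361) (nat_lit 294) (nat_lit 125))) (XT.nd (nat_lit 78) (nat_lit 0) (nat_lit 0) (XT.lf (nat_lit 0) (nat_lit 701331751725) (nat_lit 152) (nat_lit 1723457722629) (nat_lit 0) (nat_lit 511209942641) (nat_lit 2) (nat_lit 5) (nat_lit 4) (nat_lit 4) (nat_lit 2) (nat_lit 4) (nat_lit 362) (nat_lit 294) (nat_lit 124)) (XT.lf (nat_lit 0) (nat_lit 858940462710) (nat_lit 152) (nat_lit 1633729709339) (nat_lit 0) (nat_lit 668818624340) (nat_lit 2) (nat_lit 5) (nat_lit 4) (nat_lit 4) (nat_lit 2) (nat_lit 4) (nat_lit 363) (nat_lit 294) (nat_lit 123)))) (XT.nd (nat_lit 35256) (nat_lit 0) (nat_lit 3268) (XT.nd (nat_lit 78) (nat_lit 0) (nat_lit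 0) (XT.lf (nat_lit 0) (nat_lit 1029157835950) (nat_lit 152) (nat_lit 1536823522508) (nat_lit 0) (nat_lit 839035970463) (nat_lit 2) (nat_lit 5) (nat_lit 4) (nat_lit 4) (nat_lit 2) (nat_lit 4) (nat_lit 364) (nat_lit 294) (nat_lit 122)) (XT.lf (nat_lit 0) (nat_lit 1212992566989) (nat_lit 152) (nat_lit 1432164903251) (nat_lit 0) (nat_lit 1022870676394) (nat_lit 2) (nat_lit 5) (nat_lit 4) (nat_lit 4) (nat_lit 2) (nat_lit 4) (nat_lit 365) (nat_lit 294) (nat_lit 121))) (XT.nd (nat_lit 78) (nat_lit 0) (nat_lit 0) (XT.lf (nat_lit 0) (nat_lit 19375183735) (nat_lit 532) (nat_lit 5409602192) (nat_lit 532) (nat_lit 5409602192) (nat_lit 45) (nat_lit 3) (nat_lit 52) (nat_lit 3) (nat_lit 52) (nat_lit 5) (nat_lit 295) (nat_lit 295) (nat_lit 190)) (XT.lf (nat_lit 76) (nat_lit 17784816963) (nat_lit 0) (nat_lit 22959723342) (nat_lit 532) (nat_lit 22024207048) (nat_lit 46) (nat_lit 5) (nat_lit 45) (nat_lit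 3) (nat_lit 52) (nat_lit 5) (nat_lit 296) (nat_lit 295) (nat_lit 189))))) (XT.nd (nat_lit 312) (nat_lit 608) (nat_lit 0) (XT.nd (nat_lit 156) (nat_lit 0) (nat_lit 0) (XT.nd (nat_lit 78) (nat_lit 0) (nat_lit 0) (XT.lf (nat_lit 0) (nat_lit 43339080657) (nat_lit 456) (nat_lit 16170752283) (nat_lit 532) (nat_lit 5794021250) (nat_lit 46) (nat_lit 5) (nat_lit 52) (nat_lit 5) (nat_lit 53) (nat_lit 5) (nat_lit 297) (nat_lit 295) (nat_lit 188)) (XT.lf (nat_lit 76) (nat_lit 15105763373) (nat_lit 0) (nat_lit 31993544374) (nat_lit 532) (nat_lit 20865816328) (nat_lit 47) (nat_lit 5) (nat_lit 46) (nat_lit 5) (nat_lit 53) (nat_lit 5) (nat_lit 298) (nat_lit 295) (nat_lit 187))) (XT.nd (nat_lit 78) (nat_lit 0) (nat_lit 76) (XT.lf (nat_lit 76) (nat_lit 49803059197) (nat_lit 0) (nat_lit 1797993308) (nat_lit 532) (nat_lit 19202991142) (nat_lit 47) (nat_lit 5) (nat_lit 46) (nat_lit 5) (nat_lit 53) (nat_lit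 5) (nat_lit 299) (nat_lit 295) (nat_lit 186)) (XT.lf (nat_lit 76) (nat_lit 13330832546) (nat_lit 0) (nat_lit 44192448398) (nat_lit 532) (nat_lit 16261972067) (nat_lit 48) (nat_lit 5) (nat_lit 47) (nat_lit 5) (nat_lit 54) (nat_lit 5) (nat_lit 300) (nat_lit 295) (nat_lit 185)))) (XT.nd (nat_lit 156) (nat_lit 304) (nat_lit 0) (XT.nd (nat_lit 78) (nat_lit 380) (nat_lit 0) (XT.lf (nat_lit 76) (nat_lit 51553371989) (nat_lit 0) (nat_lit 12984391259) (nat_lit 532) (nat_lit 12417721307) (nat_lit 48) (nat_lit 5) (nat_lit 47) (nat_lit 5) (nat_lit 54) (nat_lit 5) (nat_lit 301) (nat_lit 295) (nat_lit 184)) (XT.lf (nat_lit 0) (nat_lit 12584552754) (nat_lit 456) (nat_lit 60328684529) (nat_lit 532) (nat_lit 7402113907) (nat_lit 42) (nat_lit 5) (nat_lit 48) (nat_lit 5) (nat_lit 49) (nat_lit 5) (nat_lit 302) (nat_lit 295) (nat_lit 183))) (XT.nd (nat_lit 78) (nat_lit 304) (nat_lit 0) (XT.lf (nat_lit 0)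 (nat_lit 54698768305) (nat_lit 456) (nat_lit 28282149790) (nat_lit 532) (nat_lit 881318534) (nat_lit 42) (nat_lit 5) (nat_lit 48) (nat_lit 5) (nat_lit 49) (nat_lit 5) (nat_lit 303) (nat_lit 295) (nat_lit 182)) (XT.lf (nat_lit 0) (nat_lit 6328461039) (nat_lit 304) (nat_lit 74830377651) (nat_lit 76) (nat_lit 6484140660) (nat_lit 38) (nat_lit 5) (nat_lit 42) (nat_lit 5) (nat_lit 39) (nat_lit 5) (nat_lit 304) (nat_lit 295) (nat_lit 181)))))) (XT.nd (nat_lit 624) (nat_lit 608) (nat_lit 0) (XT.nd (nat_lit 312) (nat_lit 380) (nat_lit 0) (XT.nd (nat_lit 156) (nat_lit 228) (nat_lit 0) (XT.nd (nat_lit 78) (nat_lit 228) (nat_lit 0) (XT.lf (nat_lit 0) (nat_lit 15619119473) (nat_lit 304) (nat_lit 32636331603) (nat_lit 76) (nat_lit 43344764624) (nat_lit 38) (nat_lit 5) (nat_lit 42) (nat_lit 5) (nat_lit 39) (nat_lit 5) (nat_lit 305) (nat_lit 295) (nat_lit 180)) (XT.lf (nat_lit 0) (nat_lit 13613259699)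 (nat_lit 228) (nat_lit 12366260099) (nat_lit 304) (nat_lit 69868394211) (nat_lit 35) (nat_lit 5) (nat_lit 38) (nat_lit 5) (nat_lit 39) (nat_lit 5) (nat_lit 306) (nat_lit 295) (nat_lit 179))) (XT.nd (nat_lit 78) (nat_lit 228) (nat_lit 0) (XT.lf (nat_lit 0) (nat_lit 38718175548) (nat_lit 304) (nat_lit 35604135073) (nat_lit 76) (nat_lit 25989165720) (nat_lit 35) (nat_lit 5) (nat_lit 39) (nat_lit 5) (nat_lit 36) (nat_lit 5) (nat_lit 307) (nat_lit 295) (nat_lit 178)) (XT.lf (nat_lit 0) (nat_lit 15194790547) (nat_lit 228) (nat_lit 37966966879) (nat_lit 304) (nat_lit 51915501419) (nat_lit 32) (nat_lit 5) (nat_lit 35) (nat_lit 5) (nat_lit 36) (nat_lit 5) (nat_lit 308) (nat_lit 295) (nat_lit 177)))) (XT.nd (nat_lit 156) (nat_lit 228) (nat_lit 0) (XT.nd (nat_lit 78) (nat_lit 152) (nat_lit 0) (XT.lf (nat_lit 0) (nat_lit 69790010297) (nat_lit 304) (nat_lit 38121404169) (nat_lit 76) (nat_lit 2230556467)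 (nat_lit 32) (nat_lit 5) (nat_lit 36) (nat_lit 5) (nat_lit 33) (nat_lit 5) (nat_lit 309) (nat_lit 295) (nat_lit 176)) (XT.lf (nat_lit 0) (nat_lit 17677803406) (nat_lit 152) (nat_lit 71481314459) (nat_lit 228) (nat_lit 26339896177) (nat_lit 30) (nat_lit 5) (nat_lit 32) (nat_lit 5) (nat_lit 33) (nat_lit 5) (nat_lit 310) (nat_lit 295) (nat_lit 175))) (XT.nd (nat_lit 78) (nat_lit 228) (nat_lit 0) (XT.lf (nat_lit 0) (nat_lit 80108066436) (nat_lit 152) (nat_lit 31011313841) (nat_lit 228) (nat_lit 10081911715) (nat_lit 30) (nat_lit 5) (nat_lit 32) (nat_lit 5) (nat_lit 33) (nat_lit 5) (nat_lit 311) (nat_lit 295) (nat_lit 174)) (XT.lf (nat_lit 0) (nat_lit 7931341407) (nat_lit 228) (nat_lit 106582992653) (nat_lit 76) (nat_lit 12764742564) (nat_lit 27) (nat_lit 5) (nat_lit 30) (nat_lit 5) (nat_lit 28) (nat_lit 5) (nat_lit 312) (nat_lit 295) (nat_lit 173))))) (XT.nd (nat_lit 312) (nat_lit 304) (nat_lit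 0) (XT.nd (nat_lit 156) (nat_lit 152) (nat_lit 0) (XT.nd (nat_lit 78) (nat_lit 152) (nat_lit 0) (XT.lf (nat_lit 0) (nat_lit 28798578665) (nat_lit 228) (nat_lit 45085066311) (nat_lit 76) (nat_lit 59781882091) (nat_lit 27) (nat_lit 5) (nat_lit 30) (nat_lit 5) (nat_lit 28) (nat_lit 5) (nat_lit 313) (nat_lit 295) (nat_lit 172)) (XT.lf (nat_lit 0) (nat_lit 22455184427) (nat_lit 152) (nat_lit 29419479761) (nat_lit 228) (nat_lit 88645072910) (nat_lit 25) (nat_lit 5) (nat_lit 27) (nat_lit 5) (nat_lit 28) (nat_lit 5) (nat_lit 314) (nat_lit 295) (nat_lit 171))) (XT.nd (nat_lit 78) (nat_lit 152) (nat_lit 0) (XT.lf (nat_lit 0) (nat_lit 78508374496) (nat_lit 228) (nat_lit 50341205353) (nat_lit 76) (nat_lit 18935782061) (nat_lit 25) (nat_lit 5) (nat_lit 28) (nat_lit 5) (nat_lit 26) (nat_lit 5) (nat_lit 315) (nat_lit 295) (nat_lit 170)) (XT.lf (nat_lit 0) (nat_lit 23195429861) (nat_lit 152) (nat_lit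 85398826057) (nat_lit 228) (nat_lit 46932263786) (nat_lit 23) (nat_lit 5) (nat_lit 25) (nat_lit 5) (nat_lit 26) (nat_lit 5) (nat_lit 316) (nat_lit 295) (nat_lit 169)))) (XT.nd (nat_lit 156) (nat_lit 152) (nat_lit 0) (XT.nd (nat_lit 78) (nat_lit 152) (nat_lit 0) (XT.lf (nat_lit 0) (nat_lit 105477197364) (nat_lit 152) (nat_lit 36985730015) (nat_lit 228) (nat_lit 21313970052) (nat_lit 23) (nat_lit 5) (nat_lit 25) (nat_lit 5) (nat_lit 26) (nat_lit 5) (nat_lit 317) (nat_lit 295) (nat_lit 168)) (XT.lf (nat_lit 0) (nat_lit 6965868514) (nat_lit 152) (nat_lit 150384788662) (nat_lit 76) (nat_lit 15250030367) (nat_lit 21) (nat_lit 5) (nat_lit 23) (nat_lit 5) (nat_lit 22) (nat_lit 5) (nat_lit 318) (nat_lit 295) (nat_lit 167))) (XT.nd (nat_lit 78) (nat_lit 152) (nat_lit 0) (XT.lf (nat_lit 0) (nat_lit 38952212987) (nat_lit 152) (nat_lit 71070970054) (nat_lit 76) (nat_lit 71855259599) (nat_lit 21)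 (nat_lit 5) (nat_lit 23) (nat_lit 5) (nat_lit 22) (nat_lit 5) (nat_lit 319) (nat_lit 295) (nat_lit 166)) (XT.lf (nat_lit 0) (nat_lit 15355417411) (nat_lit 152) (nat_lit 58510918302) (nat_lit 228) (nat_lit 118002573416) (nat_lit 19) (nat_lit 5) (nat_lit 21) (nat_lit 5) (nat_lit 22) (nat_lit 5) (nat_lit 320) (nat_lit 295) (nat_lit 165))))))))
noncomputable def xc101 : XT := (XT.nd (nat_lit 2418) (nat_lit 152) (nat_lit 0) (XT.nd (nat_lit 1170) (nat_lit 456) (nat_lit 0) (XT.nd (nat_lit 546) (nat_lit 304) (nat_lit 0) (XT.nd (nat_lit 234) (nat_lit 304) (nat_lit 0) (XT.nd (nat_lit 78) (nat_lit 76) (nat_lit 0) (XT.lf (nat_lit 0) (nat_lit 112737125250) (nat_lit 152) (nat_lit 779257614) (nat_lit 228) (nat_lit 88986807096) (nat_lit 19) (nat_lit 5) (nat_lit 21) (nat_lit 5) (nat_lit 22) (nat_lit 5) (nat_lit 321) (nat_lit 295) (nat_lit 164)) (XT.nd (nat_lit 78) (nat_lit 0) (nat_lit 0) (XT.lf (nat_lit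 0) (nat_lit 2568209908) (nat_lit 76) (nat_lit 155312385189) (nat_lit 152) (nat_lit 55984245805) (nat_lit 18) (nat_lit 5) (nat_lit 19) (nat_lit 5) (nat_lit 20) (nat_lit 4) (nat_lit 322) (nat_lit 295) (nat_lit 163)) (XT.lf (nat_lit 0) (nat_lit 107372375643) (nat_lit 76) (nat_lit 100895287030) (nat_lit 152) (nat_lit 17669864285) (nat_lit 18) (nat_lit 5) (nat_lit 19) (nat_lit 5) (nat_lit 20) (nat_lit 4) (nat_lit 323) (nat_lit 295) (nat_lit 162)))) (XT.nd (nat_lit 156) (nat_lit 76) (nat_lit 0) (XT.nd (nat_lit 78) (nat_lit 152) (nat_lit 0) (XT.lf (nat_lit 0) (nat_lit 22523259396) (nat_lit 152) (nat_lit 18985964727) (nat_lit 76) (nat_lit 197421215144) (nat_lit 17) (nat_lit 5) (nat_lit 19) (nat_lit 5) (nat_lit 18) (nat_lit 5) (nat_lit 324) (nat_lit 295) (nat_lit 161)) (XT.lf (nat_lit 0) (nat_lit 67821298814) (nat_lit 228) (nat_lit 160622466758) (nat_lit 76) (nat_lit 24254774994) (nat_lit 15)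 (nat_lit 5) (nat_lit 18) (nat_lit 5) (nat_lit 16) (nat_lit 4) (nat_lit 325) (nat_lit 295) (nat_lit 160))) (XT.nd (nat_lit 78) (nat_lit 76) (nat_lit 0) (XT.lf (nat_lit 0) (nat_lit 118353614069) (nat_lit 228) (nat_lit 55515938150) (nat_lit 76) (nat_lit 93569703508) (nat_lit 15) (nat_lit 5) (nat_lit 18) (nat_lit 5) (nat_lit 16) (nat_lit 4) (nat_lit 326) (nat_lit 295) (nat_lit 159)) (XT.lf (nat_lit 0) (nat_lit 61052701314) (nat_lit 76) (nat_lit 113343833760) (nat_lit 152) (nat_lit 108845251731) (nat_lit 14) (nat_lit 5) (nat_lit 15) (nat_lit 5) (nat_lit 16) (nat_lit 4) (nat_lit 327) (nat_lit 295) (nat_lit 158))))) (XT.nd (nat_lit 312) (nat_lit 152) (nat_lit 0) (XT.nd (nat_lit 156) (nat_lit 76) (nat_lit 0) (XT.nd (nat_lit 78) (nat_lit 76) (nat_lit 0) (XT.lf (nat_lit 0) (nat_lit 190103570748) (nat_lit 76) (nat_lit 46336934774) (nat_lit 152) (nat_lit 63746605906) (nat_lit 14) (nat_lit 5) (nat_lit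 15) (nat_lit 5) (nat_lit 16) (nat_lit 4) (nat_lit 328) (nat_lit 295) (nat_lit 157)) (XT.lf (nat_lit 0) (nat_lit 10909677933) (nat_lit 76) (nat_lit 293426456467) (nat_lit 76) (nat_lit 14080876652) (nat_lit 13) (nat_lit 4) (nat_lit 14) (nat_lit 5) (nat_lit 14) (nat_lit 4) (nat_lit 329) (nat_lit 295) (nat_lit 156))) (XT.nd (nat_lit 78) (nat_lit 0) (nat_lit 0) (XT.lf (nat_lit 0) (nat_lit 41870598524) (nat_lit 152) (nat_lit 192255202527) (nat_lit 76) (nat_lit 103560084408) (nat_lit 12) (nat_lit 5) (nat_lit 14) (nat_lit 5) (nat_lit 13) (nat_lit 4) (nat_lit 330) (nat_lit 295) (nat_lit 155)) (XT.lf (nat_lit 0) (nat_lit 101537208632) (nat_lit 152) (nat_lit 68149086506) (nat_lit 76) (nat_lit 188780735951) (nat_lit 12) (nat_lit 5) (nat_lit 14) (nat_lit 5) (nat_lit 13) (nat_lit 4) (nat_lit 331) (nat_lit 295) (nat_lit 154)))) (XT.nd (nat_lit 156) (nat_lit 76) (nat_lit 0) (XT.nd (nat_lit 78) (nat_lit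 0) (nat_lit 0) (XT.lf (nat_lit 0) (nat_lit 69354496834) (nat_lit 76) (nat_lit 98290396544) (nat_lit 152) (nat_lit 213132355545) (nat_lit 11) (nat_lit 5) (nat_lit 12) (nat_lit 5) (nat_lit 13) (nat_lit 4) (nat_lit 332) (nat_lit 295) (nat_lit 153)) (XT.lf (nat_lit 0) (nat_lit 221733661498) (nat_lit 76) (nat_lit 19170624137) (nat_lit 152) (nat_lit 163818951330) (nat_lit 11) (nat_lit 5) (nat_lit 12) (nat_lit 5) (nat_lit 13) (nat_lit 4) (nat_lit 333) (nat_lit 295) (nat_lit 152))) (XT.nd (nat_lit 78) (nat_lit 76) (nat_lit 0) (XT.lf (nat_lit 0) (nat_lit 321618222846) (nat_lit 152) (nat_lit 45876136872) (nat_lit 0) (nat_lit 62963041034) (nat_lit 11) (nat_lit 5) (nat_lit 13) (nat_lit 4) (nat_lit 11) (nat_lit 4) (nat_lit 334) (nat_lit 295) (nat_lit 151)) (XT.lf (nat_lit 0) (nat_lit 107063847347) (nat_lit 76) (nat_lit 304798058263) (nat_lit 76) (nat_lit 46142581756) (nat_lit 10) (nat_lit 4) (nat_lit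 11) (nat_lit 5) (nat_lit 11) (nat_lit 4) (nat_lit 335) (nat_lit 295) (nat_lit 150)))))) (XT.nd (nat_lit 624) (nat_lit 228) (nat_lit 0) (XT.nd (nat_lit 312) (nat_lit 76) (nat_lit 0) (XT.nd (nat_lit 156) (nat_lit 76) (nat_lit 0) (XT.nd (nat_lit 78) (nat_lit 0) (nat_lit 0) (XT.lf (nat_lit 0) (nat_lit 21777456444) (nat_lit 152) (nat_lit 213358639968) (nat_lit 76) (nat_lit 252474806806) (nat_lit 9) (nat_lit 5) (nat_lit 11) (nat_lit 5) (nat_lit 10) (nat_lit 4) (nat_lit 336) (nat_lit 295) (nat_lit 149)) (XT.lf (nat_lit 0) (nat_lit 92638019416) (nat_lit 152) (nat_lit 65968921639) (nat_lit 76) (nat_lit 360883025158) (nat_lit 9) (nat_lit 5) (nat_lit 11) (nat_lit 5) (nat_lit 10) (nat_lit 4) (nat_lit 337) (nat_lit 295) (nat_lit 148))) (XT.nd (nat_lit 78) (nat_lit 0) (nat_lit 0) (XT.lf (nat_lit 0) (nat_lit 98120026848) (nat_lit 76) (nat_lit 73407022581) (nat_lit 152) (nat_lit 382203535187) (nat_lit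 8) (nat_lit 5) (nat_lit 9) (nat_lit 5) (nat_lit 10) (nat_lit 4) (nat_lit 338) (nat_lit 295) (nat_lit 147)) (XT.lf (nat_lit 0) (nat_lit 259025137645) (nat_lit 152) (nat_lit 311973057803) (nat_lit 0) (nat_lit 19528422297) (nat_lit 8) (nat_lit 5) (nat_lit 10) (nat_lit 4) (nat_lit 8) (nat_lit 4) (nat_lit 339) (nat_lit 295) (nat_lit 146)))) (XT.nd (nat_lit 156) (nat_lit 0) (nat_lit 0) (XT.nd (nat_lit 78) (nat_lit 76) (nat_lit 0) (XT.lf (nat_lit 0) (nat_lit 355429595866) (nat_lit 152) (nat_lit 158751521119) (nat_lit 0) (nat_lit 115932694810) (nat_lit 8) (nat_lit 5) (nat_lit 10) (nat_lit 4) (nat_lit 8) (nat_lit 4) (nat_lit 340) (nat_lit 295) (nat_lit 145)) (XT.lf (nat_lit 0) (nat_lit 7081729192) (nat_lit 76) (nat_lit 452634855679) (nat_lit 76) (nat_lit 213137782671) (nat_lit 7) (nat_lit 4) (nat_lit 8) (nat_lit 5) (nat_lit 8) (nat_lit 4) (nat_lit 341) (nat_lit 295) (nat_lit 144))) (XT.nd (nat_lit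 78) (nat_lit 0) (nat_lit 0) (XT.lf (nat_lit 0) (nat_lit 195209719855) (nat_lit 76) (nat_lit 381477223683) (nat_lit 76) (nat_lit 141979991460) (nat_lit 7) (nat_lit 4) (nat_lit 8) (nat_lit 5) (nat_lit 8) (nat_lit 4) (nat_lit 342) (nat_lit 295) (nat_lit 143)) (XT.lf (nat_lit 0) (nat_lit 398387709637) (nat_lit 76) (nat_lit 304627094060) (nat_lit 76) (nat_lit 65129714416) (nat_lit 7) (nat_lit 4) (nat_lit 8) (nat_lit 5) (nat_lit 8) (nat_lit 4) (nat_lit 343) (nat_lit 295) (nat_lit 142))))) (XT.nd (nat_lit 312) (nat_lit 76) (nat_lit 0) (XT.nd (nat_lit 156) (nat_lit 76) (nat_lit 0) (XT.nd (nat_lit 78) (nat_lit 0) (nat_lit 0) (XT.lf (nat_lit 0) (nat_lit 16974604896) (nat_lit 152) (nat_lit 204190337958) (nat_lit 76) (nat_lit 600380995578) (nat_lit 6) (nat_lit 5) (nat_lit 8) (nat_lit 5) (nat_lit 7) (nat_lit 4) (nat_lit 344) (nat_lit 295) (nat_lit 141)) (XT.lf (nat_lit 0) (nat_lit 102128461538) (nat_lit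 152) (nat_lit 27070442534) (nat_lit 76) (nat_lit 749885242861) (nat_lit 6) (nat_lit 5) (nat_lit 8) (nat_lit 5) (nat_lit 7) (nat_lit 4) (nat_lit 345) (nat_lit 295) (nat_lit 140))) (XT.nd (nat_lit 78) (nat_lit 0) (nat_lit 0) (XT.lf (nat_lit 0) (nat_lit 172866321910) (nat_lit 76) (nat_lit 25385640336) (nat_lit 152) (nat_lit 742640863087) (nat_lit 5) (nat_lit 5) (nat_lit 6) (nat_lit 5) (nat_lit 7) (nat_lit 4) (nat_lit 346) (nat_lit 295) (nat_lit 139)) (XT.lf (nat_lit 0) (nat_lit 304910542043) (nat_lit 152) (nat_lit 619354783166) (nat_lit 0) (nat_lit 83153256931) (nat_lit 5) (nat_lit 5) (nat_lit 7) (nat_lit 4) (nat_lit 5) (nat_lit 4) (nat_lit 347) (nat_lit 295) (nat_lit 138)))) (XT.nd (nat_lit 156) (nat_lit 76) (nat_lit 0) (XT.nd (nat_lit 78) (nat_lit 0) (nat_lit 0) (XT.lf (nat_lit 0) (nat_lit 420761080355) (nat_lit 152) (nat_lit 459448875079) (nat_lit 0) (nat_lit 199003702343) (nat_lit 5)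 (nat_lit 5) (nat_lit 7) (nat_lit 4) (nat_lit 5) (nat_lit 4) (nat_lit 348) (nat_lit 295) (nat_lit 137)) (XT.lf (nat_lit 0) (nat_lit 545879573630) (nat_lit 152) (nat_lit 286750663335) (nat_lit 0) (nat_lit 324122109599) (nat_lit 5) (nat_lit 5) (nat_lit 7) (nat_lit 4) (nat_lit 5) (nat_lit 4) (nat_lit 349) (nat_lit 295) (nat_lit 136))) (XT.nd (nat_lit 78) (nat_lit 76) (nat_lit 0) (XT.lf (nat_lit 0) (nat_lit 681007464791) (nat_lit 152) (nat_lit 100236751124) (nat_lit 0) (nat_lit 459249921113) (nat_lit 5) (nat_lit 5) (nat_lit 7) (nat_lit 4) (nat_lit 5) (nat_lit 4) (nat_lit 350) (nat_lit 295) (nat_lit 135)) (XT.lf (nat_lit 0) (nat_lit 106527043326) (nat_lit 76) (nat_lit 722980446338) (nat_lit 76) (nat_lit 501222828912) (nat_lit 4) (nat_lit 4) (nat_lit 5) (nat_lit 5) (nat_lit 5) (nat_lit 4) (nat_lit 351) (nat_lit 295) (nat_lit 134))))))) (XT.nd (nat_lit 36426) (nat_lit 0) (nat_lit 1900) (XT.nd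 (nat_lit 624) (nat_lit 0) (nat_lit 0) (XT.nd (nat_lit 312) (nat_lit 152) (nat_lit 0) (XT.nd (nat_lit 156) (nat_lit 0) (nat_lit 0) (XT.nd (nat_lit 78) (nat_lit 0) (nat_lit 0) (XT.lf (nat_lit 0) (nat_lit 335532352973) (nat_lit 76) (nat_lit 657095740630) (nat_lit 76) (nat_lit 435338054920) (nat_lit 4) (nat_lit 4) (nat_lit 5) (nat_lit 5) (nat_lit 5) (nat_lit 4) (nat_lit 352) (nat_lit 295) (nat_lit 133)) (XT.lf (nat_lit 0) (nat_lit 582857956639) (nat_lit 76) (nat_lit 585940321316) (nat_lit 76) (nat_lit 364182572380) (nat_lit 4) (nat_lit 4) (nat_lit 5) (nat_lit 5) (nat_lit 5) (nat_lit 4) (nat_lit 353) (nat_lit 295) (nat_lit 132))) (XT.nd (nat_lit 78) (nat_lit 0) (nat_lit 0) (XT.lf (nat_lit 0) (nat_lit 849969487530) (nat_lit 76) (nat_lit 509092526653) (nat_lit 76) (nat_lit 287334719174) (nat_lit 4) (nat_lit 4) (nat_lit 5) (nat_lit 5) (nat_lit 5) (nat_lit 4) (nat_lit 354) (nat_lit 295) (nat_lit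 131)) (XT.lf (nat_lit 0) (nat_lit 1138449828792) (nat_lit 76) (nat_lit 426096962301) (nat_lit 76) (nat_lit 204339100615) (nat_lit 4) (nat_lit 4) (nat_lit 5) (nat_lit 5) (nat_lit 5) (nat_lit 4) (nat_lit 355) (nat_lit 295) (nat_lit 130)))) (XT.nd (nat_lit 156) (nat_lit 152) (nat_lit 0) (XT.nd (nat_lit 78) (nat_lit 0) (nat_lit 0) (XT.lf (nat_lit 0) (nat_lit 1450008493559) (nat_lit 76) (nat_lit 336461802694) (nat_lit 76) (nat_lit 114703890817) (nat_lit 4) (nat_lit 4) (nat_lit 5) (nat_lit 5) (nat_lit 5) (nat_lit 4) (nat_lit 356) (nat_lit 295) (nat_lit 129)) (XT.lf (nat_lit 0) (nat_lit 1786491755400) (nat_lit 76) (nat_lit 239655876515) (nat_lit 76) (nat_lit 17897918166) (nat_lit 4) (nat_lit 4) (nat_lit 5) (nat_lit 5) (nat_lit 5) (nat_lit 4) (nat_lit 357) (nat_lit 295) (nat_lit 128))) (XT.nd (nat_lit 78) (nat_lit 76) (nat_lit 0) (XT.lf (nat_lit 0) (nat_lit 82317774249) (nat_lit 152) (nat_lit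 50537030941) (nat_lit 76) (nat_lit 2065325101122) (nat_lit 3) (nat_lit 5) (nat_lit 5) (nat_lit 5) (nat_lit 4) (nat_lit 4) (nat_lit 358) (nat_lit 295) (nat_lit 127)) (XT.lf (nat_lit 0) (nat_lit 181663660201) (nat_lit 76) (nat_lit 12289080868) (nat_lit 152) (nat_lit 2170305561797) (nat_lit 2) (nat_lit 5) (nat_lit 3) (nat_lit 5) (nat_lit 4) (nat_lit 4) (nat_lit 359) (nat_lit 295) (nat_lit 126))))) (XT.nd (nat_lit 312) (nat_lit 0) (nat_lit 0) (XT.nd (nat_lit 156) (nat_lit 0) (nat_lit 0) (XT.nd (nat_lit 78) (nat_lit 0) (nat_lit 0) (XT.lf (nat_lit 0) (nat_lit 318772148350) (nat_lit 152) (nat_lit 2111069936827) (nat_lit 0) (nat_lit 113440594539) (nat_lit 2) (nat_lit 5) (nat_lit 4) (nat_lit 4) (nat_lit 2) (nat_lit 4) (nat_lit 360) (nat_lit 295) (nat_lit 125)) (XT.lf (nat_lit 0) (nat_lit 453896264732) (nat_lit 152) (nat_lit 2034142530185) (nat_lit 0) (nat_lit 248564679292) (nat_lit 2) (nat_lit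 5) (nat_lit 4) (nat_lit 4) (nat_lit 2) (nat_lit 4) (nat_lit 361) (nat_lit 295) (nat_lit 124))) (XT.nd (nat_lit 78) (nat_lit 0) (nat_lit 0) (XT.lf (nat_lit 0) (nat_lit 599830273031) (nat_lit 152) (nat_lit 1951061003935) (nat_lit 0) (nat_lit 394498658306) (nat_lit 2) (nat_lit 5) (nat_lit 4) (nat_lit 4) (nat_lit 2) (nat_lit 4) (nat_lit 362) (nat_lit 295) (nat_lit 123)) (XT.lf (nat_lit 0) (nat_lit 757438967370) (nat_lit 152) (nat_lit 1861333023107) (nat_lit 0) (nat_lit 552107325528) (nat_lit 2) (nat_lit 5) (nat_lit 4) (nat_lit 4) (nat_lit 2) (nat_lit 4) (nat_lit 363) (nat_lit 295) (nat_lit 122)))) (XT.nd (nat_lit 35334) (nat_lit 0) (nat_lit 3268) (XT.nd (nat_lit 78) (nat_lit 0) (nat_lit 0) (XT.lf (nat_lit 0) (nat_lit 927656325196) (nat_lit 152) (nat_lit 1764426866334) (nat_lit 0) (nat_lit 722324658246) (nat_lit 2) (nat_lit 5) (nat_lit 4) (nat_lit 4) (nat_lit 2) (nat_lit 4) (nat_lit 364)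 (nat_lit 295) (nat_lit 121)) (XT.lf (nat_lit 0) (nat_lit 1111491041964) (nat_lit 152) (nat_lit 1659768274909) (nat_lit 0) (nat_lit 906159351765) (nat_lit 2) (nat_lit 5) (nat_lit 4) (nat_lit 4) (nat_lit 2) (nat_lit 4) (nat_lit 365) (nat_lit 295) (nat_lit 120))) (XT.nd (nat_lit 78) (nat_lit 0) (nat_lit 0) (XT.lf (nat_lit 0) (nat_lit 20941236083) (nat_lit 532) (nat_lit 5833686963) (nat_lit 532) (nat_lit 5833686963) (nat_lit 45) (nat_lit 3) (nat_lit 52) (nat_lit 3) (nat_lit 52) (nat_lit 5) (nat_lit 296) (nat_lit 296) (nat_lit 188)) (XT.lf (nat_lit 76) (nat_lit 19224529463) (nat_lit 0) (nat_lit 24809680515) (nat_lit 532) (nat_lit 23753543188) (nat_lit 46) (nat_lit 5) (nat_lit 45) (nat_lit 3) (nat_lit 52) (nat_lit 5) (nat_lit 297) (nat_lit 296) (nat_lit 187)))))) (XT.nd (nat_lit 624) (nat_lit 836) (nat_lit 0) (XT.nd (nat_lit 312) (nat_lit 608) (nat_lit 0) (XT.nd (nat_lit 156) (nat_lit 0) (nat_lit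 0) (XT.nd (nat_lit 78) (nat_lit 0) (nat_lit 0) (XT.lf (nat_lit 0) (nat_lit 46833789967) (nat_lit 456) (nat_lit 17446136465) (nat_lit 532) (nat_lit 6245950336) (nat_lit 46) (nat_lit 5) (nat_lit 52) (nat_lit 5) (nat_lit 53) (nat_lit 5) (nat_lit 298) (nat_lit 296) (nat_lit 186)) (XT.lf (nat_lit 76) (nat_lit 16332037761) (nat_lit 0) (nat_lit 34561182699) (nat_lit 532) (nat_lit 22506962826) (nat_lit 47) (nat_lit 5) (nat_lit 46) (nat_lit 5) (nat_lit 53) (nat_lit 5) (nat_lit 299) (nat_lit 296) (nat_lit 185))) (XT.nd (nat_lit 78) (nat_lit 0) (nat_lit 76) (XT.lf (nat_lit 76) (nat_lit 53803797745) (nat_lit 0) (nat_lit 1949383491) (nat_lit 532) (nat_lit 20713194499) (nat_lit 47) (nat_lit 5) (nat_lit 46) (nat_lit 5) (nat_lit 53) (nat_lit 5) (nat_lit 300) (nat_lit 296) (nat_lit 184)) (XT.lf (nat_lit 76) (nat_lit 14415493382) (nat_lit 0) (nat_lit 47732182920) (nat_lit 532) (nat_lit 17538531504) (nat_lit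 48) (nat_lit 5) (nat_lit 47) (nat_lit 5) (nat_lit 54) (nat_lit 5) (nat_lit 301) (nat_lit 296) (nat_lit 183)))) (XT.nd (nat_lit 156) (nat_lit 304) (nat_lit 0) (XT.nd (nat_lit 78) (nat_lit 380) (nat_lit 0) (XT.lf (nat_lit 76) (nat_lit 55694488260) (nat_lit 0) (nat_lit 14027159828) (nat_lit 532) (nat_lit 13388547966) (nat_lit 48) (nat_lit 5) (nat_lit 47) (nat_lit 5) (nat_lit 54) (nat_lit 5) (nat_lit 302) (nat_lit 296) (nat_lit 182)) (XT.lf (nat_lit 0) (nat_lit 13609514698) (nat_lit 456) (nat_lit 65156448079) (nat_lit 532) (nat_lit 7972989333) (nat_lit 42) (nat_lit 5) (nat_lit 48) (nat_lit 5) (nat_lit 49) (nat_lit 5) (nat_lit 303) (nat_lit 296) (nat_lit 181))) (XT.nd (nat_lit 78) (nat_lit 304) (nat_lit 0) (XT.lf (nat_lit 0) (nat_lit 59091519514) (nat_lit 456) (nat_lit 30546081762) (nat_lit 532) (nat_lit 932107640) (nat_lit 42) (nat_lit 5) (nat_lit 48) (nat_lit 5) (nat_lit 49) (nat_lit 5)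 (nat_lit 304) (nat_lit 296) (nat_lit 180)) (XT.lf (nat_lit 0) (nat_lit 6852491779) (nat_lit 304) (nat_lit 80797906677) (nat_lit 76) (nat_lit 7002556183) (nat_lit 38) (nat_lit 5) (nat_lit 42) (nat_lit 5) (nat_lit 39) (nat_lit 5) (nat_lit 305) (nat_lit 296) (nat_lit 179))))) (XT.nd (nat_lit 312) (nat_lit 380) (nat_lit 0) (XT.nd (nat_lit 156) (nat_lit 228) (nat_lit 0) (XT.nd (nat_lit 78) (nat_lit 228) (nat_lit 0) (XT.lf (nat_lit 0) (nat_lit 16885087787) (nat_lit 304) (nat_lit 35229737032) (nat_lit 76) (nat_lit 46812053451) (nat_lit 38) (nat_lit 5) (nat_lit 42) (nat_lit 5) (nat_lit 39) (nat_lit 5) (nat_lit 306) (nat_lit 296) (nat_lit 178)) (XT.lf (nat_lit 0) (nat_lit 14719378508) (nat_lit 228) (nat_lit 13354134191) (nat_lit 304) (nat_lit 75440947274) (nat_lit 35) (nat_lit 5) (nat_lit 38) (nat_lit 5) (nat_lit 39) (nat_lit 5) (nat_lit 307) (nat_lit 296) (nat_lit 177))) (XT.nd (nat_lit 78)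 (nat_lit 228) (nat_lit 0) (XT.lf (nat_lit 0) (nat_lit 41830134804) (nat_lit 304) (nat_lit 38435511363) (nat_lit 76) (nat_lit 28069553928) (nat_lit 35) (nat_lit 5) (nat_lit 39) (nat_lit 5) (nat_lit 36) (nat_lit 5) (nat_lit 308) (nat_lit 296) (nat_lit 176)) (XT.lf (nat_lit 0) (nat_lit 16426899079) (nat_lit 228) (nat_lit 41001627127) (nat_lit 304) (nat_lit 56053775669) (nat_lit 32) (nat_lit 5) (nat_lit 35) (nat_lit 5) (nat_lit 36) (nat_lit 5) (nat_lit 309) (nat_lit 296) (nat_lit 175)))) (XT.nd (nat_lit 156) (nat_lit 228) (nat_lit 0) (XT.nd (nat_lit 78) (nat_lit 152) (nat_lit 0) (XT.lf (nat_lit 0) (nat_lit 75386075057) (nat_lit 304) (nat_lit 41154821965) (nat_lit 76) (nat_lit 2411373376) (nat_lit 32) (nat_lit 5) (nat_lit 36) (nat_lit 5) (nat_lit 33) (nat_lit 5) (nat_lit 310) (nat_lit 296) (nat_lit 174)) (XT.lf (nat_lit 0) (nat_lit 19107909696) (nat_lit 152) (nat_lit 77196230613) (nat_lit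 228) (nat_lit 28433784475) (nat_lit 30) (nat_lit 5) (nat_lit 32) (nat_lit 5) (nat_lit 33) (nat_lit 5) (nat_lit 311) (nat_lit 296) (nat_lit 173))) (XT.nd (nat_lit 78) (nat_lit 228) (nat_lit 0) (XT.lf (nat_lit 0) (nat_lit 86531417323) (nat_lit 152) (nat_lit 33488895798) (nat_lit 228) (nat_lit 10876146692) (nat_lit 30) (nat_lit 5) (nat_lit 32) (nat_lit 5) (nat_lit 33) (nat_lit 5) (nat_lit 312) (nat_lit 296) (nat_lit 172)) (XT.lf (nat_lit 0) (nat_lit 8577133859) (nat_lit 228) (nat_lit 115093849189) (nat_lit 76) (nat_lit 13789495510) (nat_lit 27) (nat_lit 5) (nat_lit 30) (nat_lit 5) (nat_lit 28) (nat_lit 5) (nat_lit 313) (nat_lit 296) (nat_lit 171))))))))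
noncomputable def xc102 : XT := (XT.nd (nat_lit 2418) (nat_lit 380) (nat_lit 0) (XT.nd (nat_lit 1170) (nat_lit 532) (nat_lit 0) (XT.nd (nat_lit 546) (nat_lit 532) (nat_lit 0) (XT.nd (nat_lit 234) (nat_lit 304) (nat_lit 0) (XT.nd (nat_lit 78) (nat_lit 152) (nat_lit 0) (XT.lf (nat_lit 0) (nat_lit 31112914161) (nat_lit 228) (nat_lit 48677257842) (nat_lit 76) (nat_lit 64567741492) (nat_lit 27) (nat_lit 5) (nat_lit 30) (nat_lit 5) (nat_lit 28) (nat_lit 5) (nat_lit 314) (nat_lit 296) (nat_lit 170)) (XT.nd (nat_lit 78) (nat_lit 0) (nat_lit 0) (XT.lf (nat_lit 0) (nat_lit 24265842987) (nat_lit 152) (nat_lit 31768812088) (nat_lit 228) (nat_lit 95725841236) (nat_lit 25) (nat_lit 5) (nat_lit 27) (nat_lit 5) (nat_lit 28) (nat_lit 5) (nat_lit 315) (nat_lit 296) (nat_lit 169)) (XT.lf (nat_lit 0) (nat_lit 84798414260) (nat_lit 228) (nat_lit 54354648148) (nat_lit 76) (nat_lit 20454361894) (nat_lit 25)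 (nat_lit 5) (nat_lit 28) (nat_lit 5) (nat_lit 26) (nat_lit 5) (nat_lit 316) (nat_lit 296) (nat_lit 168)))) (XT.nd (nat_lit 156) (nat_lit 152) (nat_lit 0) (XT.nd (nat_lit 78) (nat_lit 0) (nat_lit 0) (XT.lf (nat_lit 0) (nat_lit 25064567159) (nat_lit 152) (nat_lit 92226229723) (nat_lit 228) (nat_lit 50677108641) (nat_lit 23) (nat_lit 5) (nat_lit 25) (nat_lit 5) (nat_lit 26) (nat_lit 5) (nat_lit 317) (nat_lit 296) (nat_lit 167)) (XT.lf (nat_lit 0) (nat_lit 113927875846) (nat_lit 152) (nat_lit 39940419509) (nat_lit 228) (nat_lit 23010072612) (nat_lit 23) (nat_lit 5) (nat_lit 25) (nat_lit 5) (nat_lit 26) (nat_lit 5) (nat_lit 318) (nat_lit 296) (nat_lit 166))) (XT.nd (nat_lit 78) (nat_lit 0) (nat_lit 0) (XT.lf (nat_lit 0) (nat_lit 7531477605) (nat_lit 152) (nat_lit 162402367671) (nat_lit 76) (nat_lit 16474217623) (nat_lit 21) (nat_lit 5) (nat_lit 23) (nat_lit 5) (nat_lit 22) (nat_lit 5) (nat_lit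 319) (nat_lit 296) (nat_lit 165)) (XT.lf (nat_lit 0) (nat_lit 42076111886) (nat_lit 152) (nat_lit 76744421655) (nat_lit 76) (nat_lit 77607555207) (nat_lit 21) (nat_lit 5) (nat_lit 23) (nat_lit 5) (nat_lit 22) (nat_lit 5) (nat_lit 320) (nat_lit 296) (nat_lit 164))))) (XT.nd (nat_lit 312) (nat_lit 304) (nat_lit 0) (XT.nd (nat_lit 156) (nat_lit 76) (nat_lit 0) (XT.nd (nat_lit 78) (nat_lit 0) (nat_lit 0) (XT.lf (nat_lit 0) (nat_lit 16595767288) (nat_lit 152) (nat_lit 63187311745) (nat_lit 228) (nat_lit 127434737211) (nat_lit 19) (nat_lit 5) (nat_lit 21) (nat_lit 5) (nat_lit 22) (nat_lit 5) (nat_lit 321) (nat_lit 296) (nat_lit 163)) (XT.lf (nat_lit 0) (nat_lit 121767129052) (nat_lit 152) (nat_lit 837450055) (nat_lit 228) (nat_lit 96098305295) (nat_lit 19) (nat_lit 5) (nat_lit 21) (nat_lit 5) (nat_lit 22) (nat_lit 5) (nat_lit 322) (nat_lit 296) (nat_lit 162))) (XT.nd (nat_lit 78) (nat_lit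 0) (nat_lit 0) (XT.lf (nat_lit 0) (nat_lit 2784870468) (nat_lit 76) (nat_lit 167732909630) (nat_lit 152) (nat_lit 60455699914) (nat_lit 18) (nat_lit 5) (nat_lit 19) (nat_lit 5) (nat_lit 20) (nat_lit 4) (nat_lit 323) (nat_lit 296) (nat_lit 161)) (XT.lf (nat_lit 0) (nat_lit 115972539552) (nat_lit 76) (nat_lit 108962774461) (nat_lit 152) (nat_lit 19076707543) (nat_lit 18) (nat_lit 5) (nat_lit 19) (nat_lit 5) (nat_lit 20) (nat_lit 4) (nat_lit 324) (nat_lit 296) (nat_lit 160)))) (XT.nd (nat_lit 156) (nat_lit 76) (nat_lit 0) (XT.nd (nat_lit 78) (nat_lit 152) (nat_lit 0) (XT.lf (nat_lit 0) (nat_lit 24331053878) (nat_lit 152) (nat_lit 20494916741) (nat_lit 76) (nat_lit 213218421811) (nat_lit 17) (nat_lit 5) (nat_lit 19) (nat_lit 5) (nat_lit 18) (nat_lit 5) (nat_lit 325) (nat_lit 296) (nat_lit 159)) (XT.lf (nat_lit 0) (nat_lit 73252824498) (nat_lit 228) (nat_lit 173462220240) (nat_lit 76) (nat_lit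 26198906590) (nat_lit 15) (nat_lit 5) (nat_lit 18) (nat_lit 5) (nat_lit 16) (nat_lit 4) (nat_lit 326) (nat_lit 296) (nat_lit 158))) (XT.nd (nat_lit 78) (nat_lit 76) (nat_lit 0) (XT.lf (nat_lit 0) (nat_lit 127827293731) (nat_lit 228) (nat_lit 59947913334) (nat_lit 76) (nat_lit 101058751636) (nat_lit 15) (nat_lit 5) (nat_lit 18) (nat_lit 5) (nat_lit 16) (nat_lit 4) (nat_lit 327) (nat_lit 296) (nat_lit 157)) (XT.lf (nat_lit 0) (nat_lit 65945981848) (nat_lit 76) (nat_lit 122407485268) (nat_lit 152) (nat_lit 117547240114) (nat_lit 14) (nat_lit 5) (nat_lit 15) (nat_lit 5) (nat_lit 16) (nat_lit 4) (nat_lit 328) (nat_lit 296) (nat_lit 156)))))) (XT.nd (nat_lit 624) (nat_lit 228) (nat_lit 0) (XT.nd (nat_lit 312) (nat_lit 152) (nat_lit 0) (XT.nd (nat_lit 156) (nat_lit 76) (nat_lit 0) (XT.nd (nat_lit 78) (nat_lit 76) (nat_lit 0) (XT.lf (nat_lit 0) (nat_lit 205320249397) (nat_lit 76) (nat_lit 50040319933)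 (nat_lit 152) (nat_lit 68841119789) (nat_lit 14) (nat_lit 5) (nat_lit 15) (nat_lit 5) (nat_lit 16) (nat_lit 4) (nat_lit 329) (nat_lit 296) (nat_lit 155)) (XT.lf (nat_lit 0) (nat_lit 11790930318) (nat_lit 76) (nat_lit 316896844305) (nat_lit 76) (nat_lit 15202212401) (nat_lit 13) (nat_lit 4) (nat_lit 14) (nat_lit 5) (nat_lit 14) (nat_lit 4) (nat_lit 330) (nat_lit 296) (nat_lit 154))) (XT.nd (nat_lit 78) (nat_lit 0) (nat_lit 0) (XT.lf (nat_lit 0) (nat_lit 45224762648) (nat_lit 152) (nat_lit 207627526525) (nat_lit 76) (nat_lit 111848101575) (nat_lit 12) (nat_lit 5) (nat_lit 14) (nat_lit 5) (nat_lit 13) (nat_lit 4) (nat_lit 331) (nat_lit 296) (nat_lit 153)) (XT.lf (nat_lit 0) (nat_lit 109664367028) (nat_lit 152) (nat_lit 73593520645) (nat_lit 76) (nat_lit 203886167433) (nat_lit 12) (nat_lit 5) (nat_lit 14) (nat_lit 5) (nat_lit 13) (nat_lit 4) (nat_lit 332) (nat_lit 296) (nat_lit 152)))) (XT.nd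 (nat_lit 156) (nat_lit 76) (nat_lit 0) (XT.nd (nat_lit 78) (nat_lit 0) (nat_lit 0) (XT.lf (nat_lit 0) (nat_lit 74910159672) (nat_lit 76) (nat_lit 106150372765) (nat_lit 152) (nat_lit 230178568950) (nat_lit 11) (nat_lit 5) (nat_lit 12) (nat_lit 5) (nat_lit 13) (nat_lit 4) (nat_lit 333) (nat_lit 296) (nat_lit 151)) (XT.lf (nat_lit 0) (nat_lit 239479116539) (nat_lit 76) (nat_lit 20701259714) (nat_lit 152) (nat_lit 176920416475) (nat_lit 11) (nat_lit 5) (nat_lit 12) (nat_lit 5) (nat_lit 13) (nat_lit 4) (nat_lit 334) (nat_lit 296) (nat_lit 150))) (XT.nd (nat_lit 78) (nat_lit 76) (nat_lit 0) (XT.lf (nat_lit 0) (nat_lit 347351217954) (nat_lit 152) (nat_lit 49539752988) (nat_lit 0) (nat_lit 68002735765) (nat_lit 11) (nat_lit 5) (nat_lit 13) (nat_lit 4) (nat_lit 11) (nat_lit 4) (nat_lit 335) (nat_lit 296) (nat_lit 149)) (XT.lf (nat_lit 0) (nat_lit 115635266049) (nat_lit 76) (nat_lit 329179019048)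 (nat_lit 76) (nat_lit 49830284205) (nat_lit 10) (nat_lit 4) (nat_lit 11) (nat_lit 5) (nat_lit 11) (nat_lit 4) (nat_lit 336) (nat_lit 296) (nat_lit 148))))) (XT.nd (nat_lit 312) (nat_lit 76) (nat_lit 0) (XT.nd (nat_lit 156) (nat_lit 76) (nat_lit 0) (XT.nd (nat_lit 78) (nat_lit 0) (nat_lit 0) (XT.lf (nat_lit 0) (nat_lit 23522911106) (nat_lit 152) (nat_lit 230421313679) (nat_lit 76) (nat_lit 272675287560) (nat_lit 9) (nat_lit 5) (nat_lit 11) (nat_lit 5) (nat_lit 10) (nat_lit 4) (nat_lit 337) (nat_lit 296) (nat_lit 147)) (XT.lf (nat_lit 0) (nat_lit 100052077772) (nat_lit 152) (nat_lit 71240863624) (nat_lit 76) (nat_lit 389755978475) (nat_lit 9) (nat_lit 5) (nat_lit 11) (nat_lit 5) (nat_lit 10) (nat_lit 4) (nat_lit 338) (nat_lit 296) (nat_lit 146))) (XT.nd (nat_lit 78) (nat_lit 0) (nat_lit 0) (XT.lf (nat_lit 0) (nat_lit 105975059686) (nat_lit 76) (nat_lit 79277077641) (nat_lit 152) (nat_lit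 412776658018) (nat_lit 8) (nat_lit 5) (nat_lit 9) (nat_lit 5) (nat_lit 10) (nat_lit 4) (nat_lit 339) (nat_lit 296) (nat_lit 145)) (XT.lf (nat_lit 0) (nat_lit 279749911833) (nat_lit 152) (nat_lit 336925711276) (nat_lit 0) (nat_lit 21092901033) (nat_lit 8) (nat_lit 5) (nat_lit 10) (nat_lit 4) (nat_lit 8) (nat_lit 4) (nat_lit 340) (nat_lit 296) (nat_lit 144)))) (XT.nd (nat_lit 156) (nat_lit 0) (nat_lit 0) (XT.nd (nat_lit 78) (nat_lit 76) (nat_lit 0) (XT.lf (nat_lit 0) (nat_lit 383866522032) (nat_lit 152) (nat_lit 171446836188) (nat_lit 0) (nat_lit 125209352017) (nat_lit 8) (nat_lit 5) (nat_lit 10) (nat_lit 4) (nat_lit 8) (nat_lit 4) (nat_lit 341) (nat_lit 296) (nat_lit 143)) (XT.lf (nat_lit 0) (nat_lit 7652952462) (nat_lit 76) (nat_lit 488843440850) (nat_lit 76) (nat_lit 230186123414) (nat_lit 7) (nat_lit 4) (nat_lit 8) (nat_lit 5) (nat_lit 8) (nat_lit 4) (nat_lit 342) (nat_lit 296) (nat_lit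 142))) (XT.nd (nat_lit 78) (nat_lit 0) (nat_lit 0) (XT.lf (nat_lit 0) (nat_lit 210830835346) (nat_lit 76) (nat_lit 411993361500) (nat_lit 76) (nat_lit 153335907563) (nat_lit 7) (nat_lit 4) (nat_lit 8) (nat_lit 5) (nat_lit 8) (nat_lit 4) (nat_lit 343) (nat_lit 296) (nat_lit 141)) (XT.lf (nat_lit 0) (nat_lit 430262742984) (nat_lit 76) (nat_lit 328995372624) (nat_lit 76) (nat_lit 70337792298) (nat_lit 7) (nat_lit 4) (nat_lit 8) (nat_lit 5) (nat_lit 8) (nat_lit 4) (nat_lit 344) (nat_lit 296) (nat_lit 140))))))) (XT.nd (nat_lit 1248) (nat_lit 0) (nat_lit 0) (XT.nd (nat_lit 624) (nat_lit 152) (nat_lit 0) (XT.nd (nat_lit 312) (nat_lit 76) (nat_lit 0) (XT.nd (nat_lit 156) (nat_lit 76) (nat_lit 0) (XT.nd (nat_lit 78) (nat_lit 0) (nat_lit 0) (XT.lf (nat_lit 0) (nat_lit 18334595745) (nat_lit 152) (nat_lit 220521738204) (nat_lit 76) (nat_lit 648413116523) (nat_lit 6) (nat_lit 5) (nat_lit 8) (nat_lit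 5) (nat_lit 7) (nat_lit 4) (nat_lit 345) (nat_lit 296) (nat_lit 139)) (XT.lf (nat_lit 0) (nat_lit 110300611106) (nat_lit 152) (nat_lit 29232534611) (nat_lit 76) (nat_lit 809877582010) (nat_lit 6) (nat_lit 5) (nat_lit 8) (nat_lit 5) (nat_lit 7) (nat_lit 4) (nat_lit 346) (nat_lit 296) (nat_lit 138))) (XT.nd (nat_lit 78) (nat_lit 0) (nat_lit 0) (XT.lf (nat_lit 0) (nat_lit 186699081283) (nat_lit 76) (nat_lit 27414854932) (nat_lit 152) (nat_lit 802050168722) (nat_lit 5) (nat_lit 5) (nat_lit 6) (nat_lit 5) (nat_lit 7) (nat_lit 4) (nat_lit 347) (nat_lit 296) (nat_lit 137)) (XT.lf (nat_lit 0) (nat_lit 329305104250) (nat_lit 152) (nat_lit 668899868892) (nat_lit 0) (nat_lit 89806957078) (nat_lit 5) (nat_lit 5) (nat_lit 7) (nat_lit 4) (nat_lit 5) (nat_lit 4) (nat_lit 348) (nat_lit 296) (nat_lit 136)))) (XT.nd (nat_lit 156) (nat_lit 76) (nat_lit 0) (XT.nd (nat_lit 78) (nat_lit 0) (nat_lit 0) (XT.lf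 (nat_lit 0) (nat_lit 454423558306) (nat_lit 152) (nat_lit 496201732375) (nat_lit 0) (nat_lit 214925331487) (nat_lit 5) (nat_lit 5) (nat_lit 7) (nat_lit 4) (nat_lit 5) (nat_lit 4) (nat_lit 349) (nat_lit 296) (nat_lit 135)) (XT.lf (nat_lit 0) (nat_lit 589551413152) (nat_lit 152) (nat_lit 309687889818) (nat_lit 0) (nat_lit 350053112586) (nat_lit 5) (nat_lit 5) (nat_lit 7) (nat_lit 4) (nat_lit 5) (nat_lit 4) (nat_lit 350) (nat_lit 296) (nat_lit 134))) (XT.nd (nat_lit 78) (nat_lit 76) (nat_lit 0) (XT.lf (nat_lit 0) (nat_lit 735489426447) (nat_lit 152) (nat_lit 108253074006) (nat_lit 0) (nat_lit 495991057597) (nat_lit 5) (nat_lit 5) (nat_lit 7) (nat_lit 4) (nat_lit 5) (nat_lit 4) (nat_lit 351) (nat_lit 296) (nat_lit 133)) (XT.lf (nat_lit 0) (nat_lit 115051757742) (nat_lit 76) (nat_lit 780817655847) (nat_lit 76) (nat_lit 541319223770) (nat_lit 4) (nat_lit 4) (nat_lit 5) (nat_lit 5) (nat_lit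 5) (nat_lit 4) (nat_lit 352) (nat_lit 296) (nat_lit 132))))) (XT.nd (nat_lit 312) (nat_lit 152) (nat_lit 0) (XT.nd (nat_lit 156) (nat_lit 0) (nat_lit 0) (XT.nd (nat_lit 78) (nat_lit 0) (nat_lit 0) (XT.lf (nat_lit 0) (nat_lit 362377303201) (nat_lit 76) (nat_lit 709662264512) (nat_lit 76) (nat_lit 470163773892) (nat_lit 4) (nat_lit 4) (nat_lit 5) (nat_lit 5) (nat_lit 5) (nat_lit 4) (nat_lit 353) (nat_lit 296) (nat_lit 131)) (XT.lf (nat_lit 0) (nat_lit 629488780198) (nat_lit 76) (nat_lit 632814495755) (nat_lit 76) (nat_lit 393315950928) (nat_lit 4) (nat_lit 4) (nat_lit 5) (nat_lit 5) (nat_lit 5) (nat_lit 4) (nat_lit 354) (nat_lit 296) (nat_lit 130))) (XT.nd (nat_lit 78) (nat_lit 0) (nat_lit 0) (XT.lf (nat_lit 0) (nat_lit 917969071558) (nat_lit 76) (nat_lit 549818955390) (nat_lit 76) (nat_lit 310320360372) (nat_lit 4) (nat_lit 4) (nat_lit 5) (nat_lit 5) (nat_lit 5) (nat_lit 4) (nat_lit 355)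 (nat_lit 296) (nat_lit 129)) (XT.lf (nat_lit 0) (nat_lit 1229527690119) (nat_lit 76) (nat_lit 460183817993) (nat_lit 76) (nat_lit 220685176502) (nat_lit 4) (nat_lit 4) (nat_lit 5) (nat_lit 5) (nat_lit 5) (nat_lit 4) (nat_lit 356) (nat_lit 296) (nat_lit 128)))) (XT.nd (nat_lit 156) (nat_lit 152) (nat_lit 0) (XT.nd (nat_lit 78) (nat_lit 0) (nat_lit 0) (XT.lf (nat_lit 0) (nat_lit 1566010909177) (nat_lit 76) (nat_lit 363377912380) (nat_lit 76) (nat_lit 123879227858) (nat_lit 4) (nat_lit 4) (nat_lit 5) (nat_lit 5) (nat_lit 5) (nat_lit 4) (nat_lit 357) (nat_lit 296) (nat_lit 127)) (XT.lf (nat_lit 0) (nat_lit 1929412703362) (nat_lit 76) (nat_lit 258827573924) (nat_lit 76) (nat_lit 19328849559) (nat_lit 4) (nat_lit 4) (nat_lit 5) (nat_lit 5) (nat_lit 5) (nat_lit 4) (nat_lit 358) (nat_lit 296) (nat_lit 126))) (XT.nd (nat_lit 78) (nat_lit 76) (nat_lit 0) (XT.lf (nat_lit 0) (nat_lit 88903989647)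 (nat_lit 152) (nat_lit 54578462789) (nat_lit 76) (nat_lit 2230551782513) (nat_lit 3) (nat_lit 5) (nat_lit 5) (nat_lit 5) (nat_lit 4) (nat_lit 4) (nat_lit 359) (nat_lit 296) (nat_lit 125)) (XT.lf (nat_lit 0) (nat_lit 196198244894) (nat_lit 76) (nat_lit 13271486024) (nat_lit 152) (nat_lit 2343929174171) (nat_lit 2) (nat_lit 5) (nat_lit 3) (nat_lit 5) (nat_lit 4) (nat_lit 4) (nat_lit 360) (nat_lit 296) (nat_lit 124)))))) (XT.nd (nat_lit 35880) (nat_lit 0) (nat_lit 2736) (XT.nd (nat_lit 312) (nat_lit 0) (nat_lit 0) (XT.nd (nat_lit 156) (nat_lit 0) (nat_lit 0) (XT.nd (nat_lit 78) (nat_lit 0) (nat_lit 0) (XT.lf (nat_lit 0) (nat_lit 344274649765) (nat_lit 152) (nat_lit 2279954109054) (nat_lit 0) (nat_lit 122516476575) (nat_lit 2) (nat_lit 5) (nat_lit 4) (nat_lit 4) (nat_lit 2) (nat_lit 4) (nat_lit 361) (nat_lit 296) (nat_lit 123)) (XT.lf (nat_lit 0) (nat_lit 490208641418) (nat_lit 152) (nat_lit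 2196872615267) (nat_lit 0) (nat_lit 268450441111) (nat_lit 2) (nat_lit 5) (nat_lit 4) (nat_lit 4) (nat_lit 2) (nat_lit 4) (nat_lit 362) (nat_lit 296) (nat_lit 122))) (XT.nd (nat_lit 78) (nat_lit 0) (nat_lit 0) (XT.lf (nat_lit 0) (nat_lit 647817320343) (nat_lit 152) (nat_lit 2107144664497) (nat_lit 0) (nat_lit 426059094928) (nat_lit 2) (nat_lit 5) (nat_lit 4) (nat_lit 4) (nat_lit 2) (nat_lit 4) (nat_lit 363) (nat_lit 296) (nat_lit 121)) (XT.lf (nat_lit 0) (nat_lit 818034663898) (nat_lit 152) (nat_lit 2010238535556) (nat_lit 0) (nat_lit 596276415235) (nat_lit 2) (nat_lit 5) (nat_lit 4) (nat_lit 4) (nat_lit 2) (nat_lit 4) (nat_lit 364) (nat_lit 296) (nat_lit 120)))) (XT.nd (nat_lit 35412) (nat_lit 0) (nat_lit 3268) (XT.nd (nat_lit 35334) (nat_lit 0) (nat_lit 3268) (XT.lf (nat_lit 0) (nat_lit 1001869367451) (nat_lit 152) (nat_lit 1905579969900) (nat_lit 0) (nat_lit 780111097262) (nat_lit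 2) (nat_lit 5) (nat_lit 4) (nat_lit 4) (nat_lit 2) (nat_lit 4) (nat_lit 365) (nat_lit 296) (nat_lit 119)) (XT.lf (nat_lit 0) (nat_lit 22630284669) (nat_lit 532) (nat_lit 6292937300) (nat_lit 532) (nat_lit 6292937300) (nat_lit 45) (nat_lit 3) (nat_lit 52) (nat_lit 3) (nat_lit 52) (nat_lit 5) (nat_lit 297) (nat_lit 297) (nat_lit 186))) (XT.nd (nat_lit 78) (nat_lit 0) (nat_lit 76) (XT.lf (nat_lit 76) (nat_lit 20777004116) (nat_lit 0) (nat_lit 26805754086) (nat_lit 532) (nat_lit 25625877035) (nat_lit 46) (nat_lit 5) (nat_lit 45) (nat_lit 3) (nat_lit 52) (nat_lit 5) (nat_lit 298) (nat_lit 297) (nat_lit 185)) (XT.lf (nat_lit 0) (nat_lit 50604141019) (nat_lit 456) (nat_lit 18826158657) (nat_lit 532) (nat_lit 6735687565) (nat_lit 46) (nat_lit 5) (nat_lit 52) (nat_lit 5) (nat_lit 53) (nat_lit 5) (nat_lit 299) (nat_lit 297) (nat_lit 184))))) (XT.nd (nat_lit 312) (nat_lit 608) (nat_lit 0) (XT.nd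 (nat_lit 156) (nat_lit 0) (nat_lit 76) (XT.nd (nat_lit 78) (nat_lit 0) (nat_lit 0) (XT.lf (nat_lit 76) (nat_lit 17653872830) (nat_lit 0) (nat_lit 37333068721) (nat_lit 532) (nat_lit 24283412506) (nat_lit 47) (nat_lit 5) (nat_lit 46) (nat_lit 5) (nat_lit 53) (nat_lit 5) (nat_lit 300) (nat_lit 297) (nat_lit 183)) (XT.lf (nat_lit 76) (nat_lit 58122242351) (nat_lit 0) (nat_lit 2111807694) (nat_lit 532) (nat_lit 22347928443) (nat_lit 47) (nat_lit 5) (nat_lit 46) (nat_lit 5) (nat_lit 53) (nat_lit 5) (nat_lit 301) (nat_lit 297) (nat_lit 182))) (XT.nd (nat_lit 78) (nat_lit 0) (nat_lit 0) (XT.lf (nat_lit 76) (nat_lit 15584331475) (nat_lit 0) (nat_lit 51554477246) (nat_lit 532) (nat_lit 18920696390) (nat_lit 48) (nat_lit 5) (nat_lit 47) (nat_lit 5) (nat_lit 54) (nat_lit 5) (nat_lit 302) (nat_lit 297) (nat_lit 181)) (XT.lf (nat_lit 76) (nat_lit 60164490490) (nat_lit 0) (nat_lit 15152776774) (nat_lit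 532) (nat_lit 14440263624) (nat_lit 48) (nat_lit 5) (nat_lit 47) (nat_lit 5) (nat_lit 54) (nat_lit 5) (nat_lit 303) (nat_lit 297) (nat_lit 180)))) (XT.nd (nat_lit 156) (nat_lit 304) (nat_lit 0) (XT.nd (nat_lit 78) (nat_lit 0) (nat_lit 0) (XT.lf (nat_lit 0) (nat_lit 14713877489) (nat_lit 456) (nat_lit 70370223175) (nat_lit 532) (nat_lit 8592572575) (nat_lit 42) (nat_lit 5) (nat_lit 48) (nat_lit 5) (nat_lit 49) (nat_lit 5) (nat_lit 304) (nat_lit 297) (nat_lit 179)) (XT.lf (nat_lit 0) (nat_lit 63833287015) (nat_lit 456) (nat_lit 32990934274) (nat_lit 532) (nat_lit 989772636) (nat_lit 42) (nat_lit 5) (nat_lit 48) (nat_lit 5) (nat_lit 49) (nat_lit 5) (nat_lit 305) (nat_lit 297) (nat_lit 178))) (XT.nd (nat_lit 78) (nat_lit 0) (nat_lit 0) (XT.lf (nat_lit 0) (nat_lit 7415912192) (nat_lit 304) (nat_lit 87245534490) (nat_lit 76) (nat_lit 7562489990) (nat_lit 38) (nat_lit 5) (nat_lit 42) (nat_lit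 5) (nat_lit 39) (nat_lit 5) (nat_lit 306) (nat_lit 297) (nat_lit 177)) (XT.lf (nat_lit 0) (nat_lit 18249988394) (nat_lit 304) (nat_lit 38033111623) (nat_lit 76) (nat_lit 50556767091) (nat_lit 38) (nat_lit 5) (nat_lit 42) (nat_lit 5) (nat_lit 39) (nat_lit 5) (nat_lit 307) (nat_lit 297) (nat_lit 176))))))))
noncomputable def xc103 : XT := (XT.nd (nat_lit 2496) (nat_lit 532) (nat_lit 0) (XT.nd (nat_lit 1248) (nat_lit 760) (nat_lit 0) (XT.nd (nat_lit 624) (nat_lit 608) (nat_lit 0) (XT.nd (nat_lit 312) (nat_lit 380) (nat_lit 0) (XT.nd (nat_lit 156) (nat_lit 228) (nat_lit 0) (XT.nd (nat_lit 78) (nat_lit 0) (nat_lit 0) (XT.lf (nat_lit 0) (nat_lit 15911553303) (nat_lit 228) (nat_lit 14421241747) (nat_lit 304) (nat_lit 81461718191) (nat_lit 35) (nat_lit 5) (nat_lit 38) (nat_lit 5) (nat_lit 39) (nat_lit 5) (nat_lit 308) (nat_lit 297) (nat_lit 175)) (XT.lf (nat_lit 0) (nat_lit 45188981470) (nat_lit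 304) (nat_lit 41495816506) (nat_lit 76) (nat_lit 30316194160) (nat_lit 35) (nat_lit 5) (nat_lit 39) (nat_lit 5) (nat_lit 36) (nat_lit 5) (nat_lit 309) (nat_lit 297) (nat_lit 174))) (XT.nd (nat_lit 78) (nat_lit 0) (nat_lit 0) (XT.lf (nat_lit 0) (nat_lit 17755218776) (nat_lit 228) (nat_lit 44279444967) (nat_lit 304) (nat_lit 60525246906) (nat_lit 32) (nat_lit 5) (nat_lit 35) (nat_lit 5) (nat_lit 36) (nat_lit 5) (nat_lit 310) (nat_lit 297) (nat_lit 173)) (XT.lf (nat_lit 0) (nat_lit 81427989814) (nat_lit 304) (nat_lit 44433237782) (nat_lit 76) (nat_lit 2606317189) (nat_lit 32) (nat_lit 5) (nat_lit 36) (nat_lit 5) (nat_lit 33) (nat_lit 5) (nat_lit 311) (nat_lit 297) (nat_lit 172)))) (XT.nd (nat_lit 156) (nat_lit 228) (nat_lit 0) (XT.nd (nat_lit 78) (nat_lit 0) (nat_lit 0) (XT.lf (nat_lit 0) (nat_lit 20650158743) (nat_lit 152) (nat_lit 83368852070) (nat_lit 228) (nat_lit 30697081715) (nat_lit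 30) (nat_lit 5) (nat_lit 32) (nat_lit 5) (nat_lit 33) (nat_lit 5) (nat_lit 312) (nat_lit 297) (nat_lit 171)) (XT.lf (nat_lit 0) (nat_lit 93466538367) (nat_lit 152) (nat_lit 36165158395) (nat_lit 228) (nat_lit 11735677762) (nat_lit 30) (nat_lit 5) (nat_lit 32) (nat_lit 5) (nat_lit 33) (nat_lit 5) (nat_lit 313) (nat_lit 297) (nat_lit 170))) (XT.nd (nat_lit 78) (nat_lit 0) (nat_lit 0) (XT.lf (nat_lit 0) (nat_lit 9272979755) (nat_lit 228) (nat_lit 124287825852) (nat_lit 76) (nat_lit 14895718885) (nat_lit 27) (nat_lit 5) (nat_lit 30) (nat_lit 5) (nat_lit 28) (nat_lit 5) (nat_lit 314) (nat_lit 297) (nat_lit 169)) (XT.lf (nat_lit 0) (nat_lit 33610905801) (nat_lit 228) (nat_lit 52558909513) (nat_lit 76) (nat_lit 69735997603) (nat_lit 27) (nat_lit 5) (nat_lit 30) (nat_lit 5) (nat_lit 28) (nat_lit 5) (nat_lit 315) (nat_lit 297) (nat_lit 168))))) (XT.nd (nat_lit 312) (nat_lit 304) (nat_lit 0) (XT.nd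 (nat_lit 156) (nat_lit 152) (nat_lit 0) (XT.nd (nat_lit 78) (nat_lit 0) (nat_lit 0) (XT.lf (nat_lit 0) (nat_lit 26219322193) (nat_lit 152) (nat_lit 34306693895) (nat_lit 228) (nat_lit 103374617119) (nat_lit 25) (nat_lit 5) (nat_lit 27) (nat_lit 5) (nat_lit 28) (nat_lit 5) (nat_lit 316) (nat_lit 297) (nat_lit 167)) (XT.lf (nat_lit 0) (nat_lit 91590320497) (nat_lit 228) (nat_lit 58691142742) (nat_lit 76) (nat_lit 22093897804) (nat_lit 25) (nat_lit 5) (nat_lit 28) (nat_lit 5) (nat_lit 26) (nat_lit 5) (nat_lit 317) (nat_lit 297) (nat_lit 166))) (XT.nd (nat_lit 78) (nat_lit 0) (nat_lit 0) (XT.lf (nat_lit 0) (nat_lit 27081309099) (nat_lit 152) (nat_lit 99600468002) (nat_lit 228) (nat_lit 54722930069) (nat_lit 23) (nat_lit 5) (nat_lit 25) (nat_lit 5) (nat_lit 26) (nat_lit 5) (nat_lit 318) (nat_lit 297) (nat_lit 165)) (XT.lf (nat_lit 0) (nat_lit 123052824958) (nat_lit 152) (nat_lit 43132078905)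 (nat_lit 228) (nat_lit 24843149473) (nat_lit 23) (nat_lit 5) (nat_lit 25) (nat_lit 5) (nat_lit 26) (nat_lit 5) (nat_lit 319) (nat_lit 297) (nat_lit 164)))) (XT.nd (nat_lit 156) (nat_lit 152) (nat_lit 0) (XT.nd (nat_lit 78) (nat_lit 0) (nat_lit 0) (XT.lf (nat_lit 0) (nat_lit 8141145685) (nat_lit 152) (nat_lit 175383236711) (nat_lit 76) (nat_lit 17795742847) (nat_lit 21) (nat_lit 5) (nat_lit 23) (nat_lit 5) (nat_lit 22) (nat_lit 5) (nat_lit 320) (nat_lit 297) (nat_lit 163)) (XT.lf (nat_lit 0) (nat_lit 45448821088) (nat_lit 152) (nat_lit 82873493560) (nat_lit 76) (nat_lit 83819481674) (nat_lit 21) (nat_lit 5) (nat_lit 23) (nat_lit 5) (nat_lit 22) (nat_lit 5) (nat_lit 321) (nat_lit 297) (nat_lit 162))) (XT.nd (nat_lit 78) (nat_lit 0) (nat_lit 0) (XT.lf (nat_lit 0) (nat_lit 17933645136) (nat_lit 152) (nat_lit 68238455788) (nat_lit 228) (nat_lit 137622621402) (nat_lit 19) (nat_lit 5) (nat_lit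 21) (nat_lit 5) (nat_lit 22) (nat_lit 5) (nat_lit 322) (nat_lit 297) (nat_lit 161)) (XT.lf (nat_lit 0) (nat_lit 131517959066) (nat_lit 152) (nat_lit 900889674) (nat_lit 228) (nat_lit 103779785658) (nat_lit 19) (nat_lit 5) (nat_lit 21) (nat_lit 5) (nat_lit 22) (nat_lit 5) (nat_lit 323) (nat_lit 297) (nat_lit 160)))))) (XT.nd (nat_lit 624) (nat_lit 304) (nat_lit 0) (XT.nd (nat_lit 312) (nat_lit 152) (nat_lit 0) (XT.nd (nat_lit 156) (nat_lit 228) (nat_lit 0) (XT.nd (nat_lit 78) (nat_lit 0) (nat_lit 0) (XT.lf (nat_lit 0) (nat_lit 3017265529) (nat_lit 76) (nat_lit 181147713205) (nat_lit 152) (nat_lit 65285909717) (nat_lit 18) (nat_lit 5) (nat_lit 19) (nat_lit 5) (nat_lit 20) (nat_lit 4) (nat_lit 324) (nat_lit 297) (nat_lit 159)) (XT.lf (nat_lit 0) (nat_lit 125259236628) (nat_lit 76) (nat_lit 117676250867) (nat_lit 152) (nat_lit 20597060637) (nat_lit 18) (nat_lit 5) (nat_lit 19) (nat_lit 5)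 (nat_lit 20) (nat_lit 4) (nat_lit 325) (nat_lit 297) (nat_lit 158))) (XT.nd (nat_lit 78) (nat_lit 152) (nat_lit 0) (XT.lf (nat_lit 0) (nat_lit 26282625406) (nat_lit 152) (nat_lit 22126000851) (nat_lit 76) (nat_lit 230278904347) (nat_lit 17) (nat_lit 5) (nat_lit 19) (nat_lit 5) (nat_lit 18) (nat_lit 5) (nat_lit 326) (nat_lit 297) (nat_lit 157)) (XT.lf (nat_lit 0) (nat_lit 79118041695) (nat_lit 228) (nat_lit 187330586870) (nat_lit 76) (nat_lit 28298033790) (nat_lit 15) (nat_lit 5) (nat_lit 18) (nat_lit 5) (nat_lit 16) (nat_lit 4) (nat_lit 327) (nat_lit 297) (nat_lit 156)))) (XT.nd (nat_lit 156) (nat_lit 76) (nat_lit 0) (XT.nd (nat_lit 78) (nat_lit 76) (nat_lit 0) (XT.lf (nat_lit 0) (nat_lit 138058098745) (nat_lit 228) (nat_lit 64735773262) (nat_lit 76) (nat_lit 109146428317) (nat_lit 15) (nat_lit 5) (nat_lit 18) (nat_lit 5) (nat_lit 16) (nat_lit 4) (nat_lit 328) (nat_lit 297) (nat_lit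 155)) (XT.lf (nat_lit 0) (nat_lit 71229431683) (nat_lit 76) (nat_lit 132196778884) (nat_lit 152) (nat_lit 126946191000) (nat_lit 14) (nat_lit 5) (nat_lit 15) (nat_lit 5) (nat_lit 16) (nat_lit 4) (nat_lit 329) (nat_lit 297) (nat_lit 154))) (XT.nd (nat_lit 78) (nat_lit 76) (nat_lit 0) (XT.lf (nat_lit 0) (nat_lit 221753064985) (nat_lit 76) (nat_lit 54040485152) (nat_lit 152) (nat_lit 74343938703) (nat_lit 14) (nat_lit 5) (nat_lit 15) (nat_lit 5) (nat_lit 16) (nat_lit 4) (nat_lit 330) (nat_lit 297) (nat_lit 153)) (XT.lf (nat_lit 0) (nat_lit 12741473390) (nat_lit 76) (nat_lit 342245395108) (nat_lit 76) (nat_lit 16413987486) (nat_lit 13) (nat_lit 4) (nat_lit 14) (nat_lit 5) (nat_lit 14) (nat_lit 4) (nat_lit 331) (nat_lit 297) (nat_lit 152))))) (XT.nd (nat_lit 312) (nat_lit 152) (nat_lit 0) (XT.nd (nat_lit 156) (nat_lit 76) (nat_lit 0) (XT.nd (nat_lit 78) (nat_lit 0) (nat_lit 0) (XT.lf (nat_lit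 0) (nat_lit 48846615609) (nat_lit 152) (nat_lit 224230790886) (nat_lit 76) (nat_lit 120798702115) (nat_lit 12) (nat_lit 5) (nat_lit 14) (nat_lit 5) (nat_lit 13) (nat_lit 4) (nat_lit 332) (nat_lit 297) (nat_lit 151)) (XT.lf (nat_lit 0) (nat_lit 118441101529) (nat_lit 152) (nat_lit 79474578443) (nat_lit 76) (nat_lit 220199609359) (nat_lit 12) (nat_lit 5) (nat_lit 14) (nat_lit 5) (nat_lit 13) (nat_lit 4) (nat_lit 333) (nat_lit 297) (nat_lit 150))) (XT.nd (nat_lit 78) (nat_lit 0) (nat_lit 0) (XT.lf (nat_lit 0) (nat_lit 80909233670) (nat_lit 76) (nat_lit 114639611517) (nat_lit 152) (nat_lit 248589103575) (nat_lit 11) (nat_lit 5) (nat_lit 12) (nat_lit 5) (nat_lit 13) (nat_lit 4) (nat_lit 334) (nat_lit 297) (nat_lit 149)) (XT.lf (nat_lit 0) (nat_lit 258643243292) (nat_lit 76) (nat_lit 22354776168) (nat_lit 152) (nat_lit 191070576746) (nat_lit 11) (nat_lit 5) (nat_lit 12) (nat_lit 5) (nat_lit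 13) (nat_lit 4) (nat_lit 335) (nat_lit 297) (nat_lit 148)))) (XT.nd (nat_lit 156) (nat_lit 76) (nat_lit 0) (XT.nd (nat_lit 78) (nat_lit 76) (nat_lit 0) (XT.lf (nat_lit 0) (nat_lit 375142348038) (nat_lit 152) (nat_lit 53497382101) (nat_lit 0) (nat_lit 73445227815) (nat_lit 11) (nat_lit 5) (nat_lit 13) (nat_lit 4) (nat_lit 11) (nat_lit 4) (nat_lit 336) (nat_lit 297) (nat_lit 147)) (XT.lf (nat_lit 0) (nat_lit 124891497924) (nat_lit 76) (nat_lit 355510868113) (nat_lit 76) (nat_lit 53813531280) (nat_lit 10) (nat_lit 4) (nat_lit 11) (nat_lit 5) (nat_lit 11) (nat_lit 4) (nat_lit 337) (nat_lit 297) (nat_lit 146))) (XT.nd (nat_lit 78) (nat_lit 0) (nat_lit 0) (XT.lf (nat_lit 0) (nat_lit 25407537330) (nat_lit 152) (nat_lit 248849859749) (nat_lit 76) (nat_lit 294491450661) (nat_lit 9) (nat_lit 5) (nat_lit 11) (nat_lit 5) (nat_lit 10) (nat_lit 4) (nat_lit 338) (nat_lit 297) (nat_lit 145)) (XT.lf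 (nat_lit 0) (nat_lit 108058830415) (nat_lit 152) (nat_lit 76935355840) (nat_lit 76) (nat_lit 420938438324) (nat_lit 9) (nat_lit 5) (nat_lit 11) (nat_lit 5) (nat_lit 10) (nat_lit 4) (nat_lit 339) (nat_lit 297) (nat_lit 144))))))) (XT.nd (nat_lit 1248) (nat_lit 152) (nat_lit 0) (XT.nd (nat_lit 624) (nat_lit 152) (nat_lit 0) (XT.nd (nat_lit 312) (nat_lit 76) (nat_lit 0) (XT.nd (nat_lit 156) (nat_lit 76) (nat_lit 0) (XT.nd (nat_lit 78) (nat_lit 0) (nat_lit 0) (XT.lf (nat_lit 0) (nat_lit 114457720401) (nat_lit 76) (nat_lit 85617094722) (nat_lit 152) (nat_lit 445796081482) (nat_lit 8) (nat_lit 5) (nat_lit 9) (nat_lit 5) (nat_lit 10) (nat_lit 4) (nat_lit 340) (nat_lit 297) (nat_lit 143)) (XT.lf (nat_lit 0) (nat_lit 302132273758) (nat_lit 152) (nat_lit 363875317603) (nat_lit 0) (nat_lit 22782223506) (nat_lit 8) (nat_lit 5) (nat_lit 10) (nat_lit 4) (nat_lit 8) (nat_lit 4) (nat_lit 341) (nat_lit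 297) (nat_lit 142))) (XT.nd (nat_lit 78) (nat_lit 76) (nat_lit 0) (XT.lf (nat_lit 0) (nat_lit 414578037294) (nat_lit 152) (nat_lit 185158462180) (nat_lit 0) (nat_lit 135227850541) (nat_lit 8) (nat_lit 5) (nat_lit 10) (nat_lit 4) (nat_lit 8) (nat_lit 4) (nat_lit 342) (nat_lit 297) (nat_lit 141)) (XT.lf (nat_lit 0) (nat_lit 8269205235) (nat_lit 76) (nat_lit 527949027158) (nat_lit 76) (nat_lit 248598714015) (nat_lit 7) (nat_lit 4) (nat_lit 8) (nat_lit 5) (nat_lit 8) (nat_lit 4) (nat_lit 343) (nat_lit 297) (nat_lit 140)))) (XT.nd (nat_lit 156) (nat_lit 76) (nat_lit 0) (XT.nd (nat_lit 78) (nat_lit 0) (nat_lit 0) (XT.lf (nat_lit 0) (nat_lit 227701021226) (nat_lit 76) (nat_lit 444951081383) (nat_lit 76) (nat_lit 165600651213) (nat_lit 7) (nat_lit 4) (nat_lit 8) (nat_lit 5) (nat_lit 8) (nat_lit 4) (nat_lit 344) (nat_lit 297) (nat_lit 139)) (XT.lf (nat_lit 0) (nat_lit 464687205990) (nat_lit 76)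 (nat_lit 355313382956) (nat_lit 76) (nat_lit 75962844426) (nat_lit 7) (nat_lit 4) (nat_lit 8) (nat_lit 5) (nat_lit 8) (nat_lit 4) (nat_lit 345) (nat_lit 297) (nat_lit 138))) (XT.nd (nat_lit 78) (nat_lit 0) (nat_lit 0) (XT.lf (nat_lit 0) (nat_lit 19803097335) (nat_lit 152) (nat_lit 238160196404) (nat_lit 76) (nat_lit 700287572993) (nat_lit 6) (nat_lit 5) (nat_lit 8) (nat_lit 5) (nat_lit 7) (nat_lit 4) (nat_lit 346) (nat_lit 297) (nat_lit 137)) (XT.lf (nat_lit 0) (nat_lit 119126265486) (nat_lit 152) (nat_lit 31568099550) (nat_lit 76) (nat_lit 874669091486) (nat_lit 6) (nat_lit 5) (nat_lit 8) (nat_lit 5) (nat_lit 7) (nat_lit 4) (nat_lit 347) (nat_lit 297) (nat_lit 136))))) (XT.nd (nat_lit 312) (nat_lit 76) (nat_lit 0) (XT.nd (nat_lit 156) (nat_lit 0) (nat_lit 0) (XT.nd (nat_lit 78) (nat_lit 0) (nat_lit 0) (XT.lf (nat_lit 0) (nat_lit 201637968709) (nat_lit 76) (nat_lit 29606640180) (nat_lit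 152) (nat_lit 866212498910) (nat_lit 5) (nat_lit 5) (nat_lit 6) (nat_lit 5) (nat_lit 7) (nat_lit 4) (nat_lit 348) (nat_lit 297) (nat_lit 135)) (XT.lf (nat_lit 0) (nat_lit 355650986222) (nat_lit 152) (nat_lit 722409031819) (nat_lit 0) (nat_lit 96992747863) (nat_lit 5) (nat_lit 5) (nat_lit 7) (nat_lit 4) (nat_lit 5) (nat_lit 4) (nat_lit 349) (nat_lit 297) (nat_lit 134))) (XT.nd (nat_lit 78) (nat_lit 0) (nat_lit 0) (XT.lf (nat_lit 0) (nat_lit 490778807444) (nat_lit 152) (nat_lit 535895253757) (nat_lit 0) (nat_lit 232120500800) (nat_lit 5) (nat_lit 5) (nat_lit 7) (nat_lit 4) (nat_lit 5) (nat_lit 4) (nat_lit 350) (nat_lit 297) (nat_lit 133)) (XT.lf (nat_lit 0) (nat_lit 636716789605) (nat_lit 152) (nat_lit 334460497663) (nat_lit 0) (nat_lit 378058419736) (nat_lit 5) (nat_lit 5) (nat_lit 7) (nat_lit 4) (nat_lit 5) (nat_lit 4) (nat_lit 351) (nat_lit 297) (nat_lit 132)))) (XT.nd (nat_lit 156)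 (nat_lit 0) (nat_lit 0) (XT.nd (nat_lit 78) (nat_lit 76) (nat_lit 0) (XT.lf (nat_lit 0) (nat_lit 794329750379) (nat_lit 152) (nat_lit 116911076093) (nat_lit 0) (nat_lit 535671321967) (nat_lit 5) (nat_lit 5) (nat_lit 7) (nat_lit 4) (nat_lit 5) (nat_lit 4) (nat_lit 352) (nat_lit 297) (nat_lit 131)) (XT.lf (nat_lit 0) (nat_lit 124258085389) (nat_lit 76) (nat_lit 843282017048) (nat_lit 76) (nat_lit 584623534429) (nat_lit 4) (nat_lit 4) (nat_lit 5) (nat_lit 5) (nat_lit 5) (nat_lit 4) (nat_lit 353) (nat_lit 297) (nat_lit 130))) (XT.nd (nat_lit 78) (nat_lit 0) (nat_lit 0) (XT.lf (nat_lit 0) (nat_lit 391369512483) (nat_lit 76) (nat_lit 766434272278) (nat_lit 76) (nat_lit 507775739468) (nat_lit 4) (nat_lit 4) (nat_lit 5) (nat_lit 5) (nat_lit 5) (nat_lit 4) (nat_lit 354) (nat_lit 297) (nat_lit 129)) (XT.lf (nat_lit 0) (nat_lit 679849757638) (nat_lit 76) (nat_lit 683438754123) (nat_lit 76) (nat_lit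 424780174840) (nat_lit 4) (nat_lit 4) (nat_lit 5) (nat_lit 5) (nat_lit 5) (nat_lit 4) (nat_lit 355) (nat_lit 297) (nat_lit 128)))))) (XT.nd (nat_lit 624) (nat_lit 0) (nat_lit 0) (XT.nd (nat_lit 312) (nat_lit 152) (nat_lit 0) (XT.nd (nat_lit 156) (nat_lit 0) (nat_lit 0) (XT.nd (nat_lit 78) (nat_lit 0) (nat_lit 0) (XT.lf (nat_lit 0) (nat_lit 991408333416) (nat_lit 76) (nat_lit 593803637292) (nat_lit 76) (nat_lit 335145014977) (nat_lit 4) (nat_lit 4) (nat_lit 5) (nat_lit 5) (nat_lit 5) (nat_lit 4) (nat_lit 356) (nat_lit 297) (nat_lit 127)) (XT.lf (nat_lit 0) (nat_lit 1327891512860) (nat_lit 76) (nat_lit 496997750720) (nat_lit 76) (nat_lit 238339088563) (nat_lit 4) (nat_lit 4) (nat_lit 5) (nat_lit 5) (nat_lit 5) (nat_lit 4) (nat_lit 357) (nat_lit 297) (nat_lit 126))) (XT.nd (nat_lit 78) (nat_lit 0) (nat_lit 0) (XT.lf (nat_lit 0) (nat_lit 1691293270366) (nat_lit 76) (nat_lit 392447429896)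 (nat_lit 76) (nat_lit 133788730846) (nat_lit 4) (nat_lit 4) (nat_lit 5) (nat_lit 5) (nat_lit 5) (nat_lit 4) (nat_lit 358) (nat_lit 297) (nat_lit 125)) (XT.lf (nat_lit 0) (nat_lit 2083767097830) (nat_lit 76) (nat_lit 279533117362) (nat_lit 76) (nat_lit 20874384153) (nat_lit 4) (nat_lit 4) (nat_lit 5) (nat_lit 5) (nat_lit 5) (nat_lit 4) (nat_lit 359) (nat_lit 297) (nat_lit 124)))) (XT.nd (nat_lit 156) (nat_lit 0) (nat_lit 0) (XT.nd (nat_lit 78) (nat_lit 76) (nat_lit 0) (XT.lf (nat_lit 0) (nat_lit 96016989082) (nat_lit 152) (nat_lit 58943427546) (nat_lit 76) (nat_lit 2408996502361) (nat_lit 3) (nat_lit 5) (nat_lit 5) (nat_lit 5) (nat_lit 4) (nat_lit 4) (nat_lit 360) (nat_lit 297) (nat_lit 123)) (XT.lf (nat_lit 0) (nat_lit 211895383530) (nat_lit 76) (nat_lit 14332586495) (nat_lit 152) (nat_lit 2531442794309) (nat_lit 2) (nat_lit 5) (nat_lit 3) (nat_lit 5) (nat_lit 4) (nat_lit 4) (nat_lit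 361) (nat_lit 297) (nat_lit 122))) (XT.nd (nat_lit 78) (nat_lit 0) (nat_lit 0) (XT.lf (nat_lit 0) (nat_lit 371817247215) (nat_lit 152) (nat_lit 2462349218026) (nat_lit 0) (nat_lit 132318338659) (nat_lit 2) (nat_lit 5) (nat_lit 4) (nat_lit 4) (nat_lit 2) (nat_lit 4) (nat_lit 362) (nat_lit 297) (nat_lit 121)) (XT.lf (nat_lit 0) (nat_lit 529425911869) (nat_lit 152) (nat_lit 2372621295088) (nat_lit 0) (nat_lit 289926980065) (nat_lit 2) (nat_lit 5) (nat_lit 4) (nat_lit 4) (nat_lit 2) (nat_lit 4) (nat_lit 363) (nat_lit 297) (nat_lit 120))))) (XT.nd (nat_lit 35724) (nat_lit 0) (nat_lit 3344) (XT.nd (nat_lit 35568) (nat_lit 0) (nat_lit 3268) (XT.nd (nat_lit 35490) (nat_lit 0) (nat_lit 3268) (XT.lf (nat_lit 0) (nat_lit 699643242210) (nat_lit 152) (nat_lit 2275715191916) (nat_lit 0) (nat_lit 460144288879) (nat_lit 2) (nat_lit 5) (nat_lit 4) (nat_lit 4) (nat_lit 2) (nat_lit 4) (nat_lit 364) (nat_lit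 297) (nat_lit 119)) (XT.lf (nat_lit 0) (nat_lit 24452495593) (nat_lit 532) (nat_lit 6789989722) (nat_lit 532) (nat_lit 6789989722) (nat_lit 45) (nat_lit 3) (nat_lit 52) (nat_lit 3) (nat_lit 52) (nat_lit 5) (nat_lit 298) (nat_lit 298) (nat_lit 184))) (XT.nd (nat_lit 78) (nat_lit 0) (nat_lit 76) (XT.lf (nat_lit 76) (nat_lit 22451606401) (nat_lit 0) (nat_lit 28959901596) (nat_lit 532) (nat_lit 27651984913) (nat_lit 46) (nat_lit 5) (nat_lit 45) (nat_lit 3) (nat_lit 52) (nat_lit 5) (nat_lit 299) (nat_lit 298) (nat_lit 183)) (XT.lf (nat_lit 0) (nat_lit 54672746523) (nat_lit 456) (nat_lit 20318817943) (nat_lit 532) (nat_lit 7266021653) (nat_lit 46) (nat_lit 5) (nat_lit 52) (nat_lit 5) (nat_lit 53) (nat_lit 5) (nat_lit 300) (nat_lit 298) (nat_lit 182)))) (XT.nd (nat_lit 156) (nat_lit 0) (nat_lit 76) (XT.nd (nat_lit 78) (nat_lit 0) (nat_lit 0) (XT.lf (nat_lit 76) (nat_lit 19079275977) (nat_lit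 0) (nat_lit 40325708222) (nat_lit 532) (nat_lit 26205417343) (nat_lit 47) (nat_lit 5) (nat_lit 46) (nat_lit 5) (nat_lit 53) (nat_lit 5) (nat_lit 301) (nat_lit 298) (nat_lit 181)) (XT.lf (nat_lit 76) (nat_lit 62784145183) (nat_lit 0) (nat_lit 2286302313) (nat_lit 532) (nat_lit 24116625530) (nat_lit 47) (nat_lit 5) (nat_lit 46) (nat_lit 5) (nat_lit 53) (nat_lit 5) (nat_lit 302) (nat_lit 298) (nat_lit 180))) (XT.nd (nat_lit 78) (nat_lit 0) (nat_lit 0) (XT.lf (nat_lit 76) (nat_lit 16844451298) (nat_lit 0) (nat_lit 55682024463) (nat_lit 532) (nat_lit 20416418601) (nat_lit 48) (nat_lit 5) (nat_lit 47) (nat_lit 5) (nat_lit 54) (nat_lit 5) (nat_lit 303) (nat_lit 298) (nat_lit 179)) (XT.lf (nat_lit 76) (nat_lit 64990032418) (nat_lit 0) (nat_lit 16367951728) (nat_lit 532) (nat_lit 15578879621) (nat_lit 48) (nat_lit 5) (nat_lit 47) (nat_lit 5) (nat_lit 54) (nat_lit 5) (nat_lit 304) (nat_lit 298)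 (nat_lit 178))))))))
noncomputable def xc104 : XT := (XT.nd (nat_lit 2418) (nat_lit 684) (nat_lit 0) (XT.nd (nat_lit 1170) (nat_lit 912) (nat_lit 0) (XT.nd (nat_lit 546) (nat_lit 684) (nat_lit 0) (XT.nd (nat_lit 234) (nat_lit 456) (nat_lit 0) (XT.nd (nat_lit 78) (nat_lit 304) (nat_lit 0) (XT.lf (nat_lit 0) (nat_lit 15904363559) (nat_lit 456) (nat_lit 76000920632) (nat_lit 532) (nat_lit 9264326885) (nat_lit 42) (nat_lit 5) (nat_lit 48) (nat_lit 5) (nat_lit 49) (nat_lit 5) (nat_lit 305) (nat_lit 298) (nat_lit 177)) (XT.nd (nat_lit 78) (nat_lit 304) (nat_lit 0) (XT.lf (nat_lit 0) (nat_lit 68952335042) (nat_lit 456) (nat_lit 35631208649) (nat_lit 532) (nat_lit 1054462321) (nat_lit 42) (nat_lit 5) (nat_lit 48) (nat_lit 5) (nat_lit 49) (nat_lit 5) (nat_lit 306) (nat_lit 298) (nat_lit 176)) (XT.lf (nat_lit 0) (nat_lit 8022234782) (nat_lit 304) (nat_lit 94211284313) (nat_lit 76) (nat_lit 8167257119)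 (nat_lit 38) (nat_lit 5) (nat_lit 42) (nat_lit 5) (nat_lit 39) (nat_lit 5) (nat_lit 307) (nat_lit 298) (nat_lit 175)))) (XT.nd (nat_lit 156) (nat_lit 228) (nat_lit 0) (XT.nd (nat_lit 78) (nat_lit 228) (nat_lit 0) (XT.lf (nat_lit 0) (nat_lit 19722070442) (nat_lit 304) (nat_lit 41062896723) (nat_lit 76) (nat_lit 54601093578) (nat_lit 38) (nat_lit 5) (nat_lit 42) (nat_lit 5) (nat_lit 39) (nat_lit 5) (nat_lit 308) (nat_lit 298) (nat_lit 174)) (XT.lf (nat_lit 0) (nat_lit 17197015731) (nat_lit 228) (nat_lit 15573892407) (nat_lit 304) (nat_lit 87966220063) (nat_lit 35) (nat_lit 5) (nat_lit 38) (nat_lit 5) (nat_lit 39) (nat_lit 5) (nat_lit 309) (nat_lit 298) (nat_lit 173))) (XT.nd (nat_lit 78) (nat_lit 228) (nat_lit 0) (XT.lf (nat_lit 0) (nat_lit 48814761752) (nat_lit 304) (nat_lit 44803019751) (nat_lit 76) (nat_lit 32742412118) (nat_lit 35) (nat_lit 5) (nat_lit 39) (nat_lit 5) (nat_lit 36)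 (nat_lit 5) (nat_lit 310) (nat_lit 298) (nat_lit 172)) (XT.lf (nat_lit 0) (nat_lit 19187782859) (nat_lit 228) (nat_lit 47819818113) (nat_lit 304) (nat_lit 65356266302) (nat_lit 32) (nat_lit 5) (nat_lit 35) (nat_lit 5) (nat_lit 36) (nat_lit 5) (nat_lit 311) (nat_lit 298) (nat_lit 171))))) (XT.nd (nat_lit 312) (nat_lit 304) (nat_lit 0) (XT.nd (nat_lit 156) (nat_lit 228) (nat_lit 0) (XT.nd (nat_lit 78) (nat_lit 152) (nat_lit 0) (XT.lf (nat_lit 0) (nat_lit 87951684376) (nat_lit 304) (nat_lit 47975919833) (nat_lit 76) (nat_lit 2816566342) (nat_lit 32) (nat_lit 5) (nat_lit 36) (nat_lit 5) (nat_lit 33) (nat_lit 5) (nat_lit 312) (nat_lit 298) (nat_lit 170)) (XT.lf (nat_lit 0) (nat_lit 22313845200) (nat_lit 152) (nat_lit 90035722211) (nat_lit 228) (nat_lit 33143069858) (nat_lit 30) (nat_lit 5) (nat_lit 32) (nat_lit 5) (nat_lit 33) (nat_lit 5) (nat_lit 313) (nat_lit 298) (nat_lit 169))) (XT.nd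 (nat_lit 78) (nat_lit 228) (nat_lit 0) (XT.lf (nat_lit 0) (nat_lit 100954670471) (nat_lit 152) (nat_lit 39055928452) (nat_lit 228) (nat_lit 12665477915) (nat_lit 30) (nat_lit 5) (nat_lit 32) (nat_lit 5) (nat_lit 33) (nat_lit 5) (nat_lit 314) (nat_lit 298) (nat_lit 168)) (XT.lf (nat_lit 0) (nat_lit 10023113050) (nat_lit 228) (nat_lit 134219251034) (nat_lit 76) (nat_lit 16090003055) (nat_lit 27) (nat_lit 5) (nat_lit 30) (nat_lit 5) (nat_lit 28) (nat_lit 5) (nat_lit 315) (nat_lit 298) (nat_lit 167)))) (XT.nd (nat_lit 156) (nat_lit 152) (nat_lit 0) (XT.nd (nat_lit 78) (nat_lit 152) (nat_lit 0) (XT.lf (nat_lit 0) (nat_lit 36307458741) (nat_lit 228) (nat_lit 56752880713) (nat_lit 76) (nat_lit 75317309502) (nat_lit 27) (nat_lit 5) (nat_lit 30) (nat_lit 5) (nat_lit 28) (nat_lit 5) (nat_lit 316) (nat_lit 298) (nat_lit 166)) (XT.lf (nat_lit 0) (nat_lit 28327337591) (nat_lit 152) (nat_lit 37048123131)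 (nat_lit 228) (nat_lit 111636620598) (nat_lit 25) (nat_lit 5) (nat_lit 27) (nat_lit 5) (nat_lit 28) (nat_lit 5) (nat_lit 317) (nat_lit 298) (nat_lit 165))) (XT.nd (nat_lit 78) (nat_lit 152) (nat_lit 0) (XT.lf (nat_lit 0) (nat_lit 98924433223) (nat_lit 228) (nat_lit 63376251328) (nat_lit 76) (nat_lit 23864141931) (nat_lit 25) (nat_lit 5) (nat_lit 28) (nat_lit 5) (nat_lit 26) (nat_lit 5) (nat_lit 318) (nat_lit 298) (nat_lit 164)) (XT.lf (nat_lit 0) (nat_lit 29257738868) (nat_lit 152) (nat_lit 107565196030) (nat_lit 228) (nat_lit 59093608041) (nat_lit 23) (nat_lit 5) (nat_lit 25) (nat_lit 5) (nat_lit 26) (nat_lit 5) (nat_lit 319) (nat_lit 298) (nat_lit 163)))))) (XT.nd (nat_lit 624) (nat_lit 456) (nat_lit 0) (XT.nd (nat_lit 312) (nat_lit 152) (nat_lit 0) (XT.nd (nat_lit 156) (nat_lit 152) (nat_lit 0) (XT.nd (nat_lit 78) (nat_lit 152) (nat_lit 0) (XT.lf (nat_lit 0) (nat_lit 132906240808)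 (nat_lit 152) (nat_lit 46579580947) (nat_lit 228) (nat_lit 26823975104) (nat_lit 23) (nat_lit 5) (nat_lit 25) (nat_lit 5) (nat_lit 26) (nat_lit 5) (nat_lit 320) (nat_lit 298) (nat_lit 162)) (XT.lf (nat_lit 0) (nat_lit 8798567201) (nat_lit 152) (nat_lit 189404190252) (nat_lit 76) (nat_lit 19222478248) (nat_lit 21) (nat_lit 5) (nat_lit 23) (nat_lit 5) (nat_lit 22) (nat_lit 5) (nat_lit 321) (nat_lit 298) (nat_lit 161))) (XT.nd (nat_lit 78) (nat_lit 152) (nat_lit 0) (XT.lf (nat_lit 0) (nat_lit 49090402573) (nat_lit 152) (nat_lit 89494386567) (nat_lit 76) (nat_lit 90527888331) (nat_lit 21) (nat_lit 5) (nat_lit 23) (nat_lit 5) (nat_lit 22) (nat_lit 5) (nat_lit 322) (nat_lit 298) (nat_lit 160)) (XT.lf (nat_lit 0) (nat_lit 19377095718) (nat_lit 152) (nat_lit 73694239301) (nat_lit 228) (nat_lit 148626519947) (nat_lit 19) (nat_lit 5) (nat_lit 21) (nat_lit 5) (nat_lit 22) (nat_lit 5) (nat_lit 323)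 (nat_lit 298) (nat_lit 159)))) (XT.nd (nat_lit 156) (nat_lit 76) (nat_lit 0) (XT.nd (nat_lit 78) (nat_lit 76) (nat_lit 0) (XT.lf (nat_lit 0) (nat_lit 142047505951) (nat_lit 152) (nat_lit 969911820) (nat_lit 228) (nat_lit 112076695207) (nat_lit 19) (nat_lit 5) (nat_lit 21) (nat_lit 5) (nat_lit 22) (nat_lit 5) (nat_lit 324) (nat_lit 298) (nat_lit 158)) (XT.lf (nat_lit 0) (nat_lit 3266881874) (nat_lit 76) (nat_lit 195636247343) (nat_lit 152) (nat_lit 70503427393) (nat_lit 18) (nat_lit 5) (nat_lit 19) (nat_lit 5) (nat_lit 20) (nat_lit 4) (nat_lit 325) (nat_lit 298) (nat_lit 157))) (XT.nd (nat_lit 78) (nat_lit 76) (nat_lit 0) (XT.lf (nat_lit 0) (nat_lit 135287600653) (nat_lit 76) (nat_lit 127087311197) (nat_lit 152) (nat_lit 22239867061) (nat_lit 18) (nat_lit 5) (nat_lit 19) (nat_lit 5) (nat_lit 20) (nat_lit 4) (nat_lit 326) (nat_lit 298) (nat_lit 156)) (XT.lf (nat_lit 0) (nat_lit 28389596908)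 (nat_lit 152) (nat_lit 23888785627) (nat_lit 76) (nat_lit 248703796249) (nat_lit 17) (nat_lit 5) (nat_lit 19) (nat_lit 5) (nat_lit 18) (nat_lit 5) (nat_lit 327) (nat_lit 298) (nat_lit 155))))) (XT.nd (nat_lit 312) (nat_lit 228) (nat_lit 0) (XT.nd (nat_lit 156) (nat_lit 76) (nat_lit 0) (XT.nd (nat_lit 78) (nat_lit 0) (nat_lit 0) (XT.lf (nat_lit 0) (nat_lit 85451764212) (nat_lit 228) (nat_lit 202309651284) (nat_lit 76) (nat_lit 30564632558) (nat_lit 15) (nat_lit 5) (nat_lit 18) (nat_lit 5) (nat_lit 16) (nat_lit 4) (nat_lit 328) (nat_lit 298) (nat_lit 154)) (XT.lf (nat_lit 0) (nat_lit 149106708850) (nat_lit 228) (nat_lit 69907799441) (nat_lit 76) (nat_lit 117880694494) (nat_lit 15) (nat_lit 5) (nat_lit 18) (nat_lit 5) (nat_lit 16) (nat_lit 4) (nat_lit 329) (nat_lit 298) (nat_lit 153))) (XT.nd (nat_lit 78) (nat_lit 0) (nat_lit 0) (XT.lf (nat_lit 0) (nat_lit 76934448844) (nat_lit 76) (nat_lit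 142769687513) (nat_lit 152) (nat_lit 137097746772) (nat_lit 14) (nat_lit 5) (nat_lit 15) (nat_lit 5) (nat_lit 16) (nat_lit 4) (nat_lit 330) (nat_lit 298) (nat_lit 152)) (XT.lf (nat_lit 0) (nat_lit 239499479282) (nat_lit 76) (nat_lit 58361100185) (nat_lit 152) (nat_lit 80287620922) (nat_lit 14) (nat_lit 5) (nat_lit 15) (nat_lit 5) (nat_lit 16) (nat_lit 4) (nat_lit 331) (nat_lit 298) (nat_lit 151)))) (XT.nd (nat_lit 156) (nat_lit 76) (nat_lit 0) (XT.nd (nat_lit 78) (nat_lit 76) (nat_lit 0) (XT.lf (nat_lit 0) (nat_lit 13767022955) (nat_lit 76) (nat_lit 369622286026) (nat_lit 76) (nat_lit 17723332559) (nat_lit 13) (nat_lit 4) (nat_lit 14) (nat_lit 5) (nat_lit 14) (nat_lit 4) (nat_lit 332) (nat_lit 298) (nat_lit 150)) (XT.lf (nat_lit 0) (nat_lit 52757664431) (nat_lit 152) (nat_lit 242163306144) (nat_lit 76) (nat_lit 130464958035) (nat_lit 12) (nat_lit 5) (nat_lit 14) (nat_lit 5) (nat_lit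 13) (nat_lit 4) (nat_lit 333) (nat_lit 298) (nat_lit 149))) (XT.nd (nat_lit 78) (nat_lit 76) (nat_lit 0) (XT.lf (nat_lit 0) (nat_lit 127919463330) (nat_lit 152) (nat_lit 85827037300) (nat_lit 76) (nat_lit 237817763062) (nat_lit 12) (nat_lit 5) (nat_lit 14) (nat_lit 5) (nat_lit 13) (nat_lit 4) (nat_lit 334) (nat_lit 298) (nat_lit 148)) (XT.lf (nat_lit 0) (nat_lit 87387340353) (nat_lit 76) (nat_lit 123808387547) (nat_lit 152) (nat_lit 268473016078) (nat_lit 11) (nat_lit 5) (nat_lit 12) (nat_lit 5) (nat_lit 13) (nat_lit 4) (nat_lit 335) (nat_lit 298) (nat_lit 147))))))) (XT.nd (nat_lit 1248) (nat_lit 228) (nat_lit 0) (XT.nd (nat_lit 624) (nat_lit 228) (nat_lit 0) (XT.nd (nat_lit 312) (nat_lit 76) (nat_lit 0) (XT.nd (nat_lit 156) (nat_lit 152) (nat_lit 0) (XT.nd (nat_lit 78) (nat_lit 0) (nat_lit 0) (XT.lf (nat_lit 0) (nat_lit 279339673117) (nat_lit 76) (nat_lit 24140942622) (nat_lit 152)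 (nat_lit 206353245308) (nat_lit 11) (nat_lit 5) (nat_lit 12) (nat_lit 5) (nat_lit 13) (nat_lit 4) (nat_lit 336) (nat_lit 298) (nat_lit 146)) (XT.lf (nat_lit 0) (nat_lit 405156335888) (nat_lit 152) (nat_lit 57772413473) (nat_lit 0) (nat_lit 79322794934) (nat_lit 11) (nat_lit 5) (nat_lit 13) (nat_lit 4) (nat_lit 11) (nat_lit 4) (nat_lit 337) (nat_lit 298) (nat_lit 145))) (XT.nd (nat_lit 78) (nat_lit 76) (nat_lit 0) (XT.lf (nat_lit 0) (nat_lit 134887456468) (nat_lit 76) (nat_lit 383949617826) (nat_lit 76) (nat_lit 58115891164) (nat_lit 10) (nat_lit 4) (nat_lit 11) (nat_lit 5) (nat_lit 11) (nat_lit 4) (nat_lit 338) (nat_lit 298) (nat_lit 144)) (XT.lf (nat_lit 0) (nat_lit 27442535151) (nat_lit 152) (nat_lit 268753425497) (nat_lit 76) (nat_lit 318052601502) (nat_lit 9) (nat_lit 5) (nat_lit 11) (nat_lit 5) (nat_lit 10) (nat_lit 4) (nat_lit 339) (nat_lit 298) (nat_lit 143)))) (XT.nd (nat_lit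 156) (nat_lit 0) (nat_lit 0) (XT.nd (nat_lit 78) (nat_lit 76) (nat_lit 0) (XT.lf (nat_lit 0) (nat_lit 116705754288) (nat_lit 152) (nat_lit 83086088908) (nat_lit 76) (nat_lit 454615212268) (nat_lit 9) (nat_lit 5) (nat_lit 11) (nat_lit 5) (nat_lit 10) (nat_lit 4) (nat_lit 340) (nat_lit 298) (nat_lit 142)) (XT.lf (nat_lit 0) (nat_lit 123618329752) (nat_lit 76) (nat_lit 92464619767) (nat_lit 152) (nat_lit 481457445318) (nat_lit 8) (nat_lit 5) (nat_lit 9) (nat_lit 5) (nat_lit 10) (nat_lit 4) (nat_lit 341) (nat_lit 298) (nat_lit 141))) (XT.nd (nat_lit 78) (nat_lit 0) (nat_lit 0) (XT.lf (nat_lit 0) (nat_lit 326304886676) (nat_lit 152) (nat_lit 392981527361) (nat_lit 0) (nat_lit 24606422093) (nat_lit 8) (nat_lit 5) (nat_lit 10) (nat_lit 4) (nat_lit 8) (nat_lit 4) (nat_lit 342) (nat_lit 298) (nat_lit 140)) (XT.lf (nat_lit 0) (nat_lit 447746160849) (nat_lit 152) (nat_lit 199967606144) (nat_lit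 0) (nat_lit 146047579238) (nat_lit 8) (nat_lit 5) (nat_lit 10) (nat_lit 4) (nat_lit 8) (nat_lit 4) (nat_lit 343) (nat_lit 298) (nat_lit 139))))) (XT.nd (nat_lit 312) (nat_lit 76) (nat_lit 0) (XT.nd (nat_lit 156) (nat_lit 76) (nat_lit 0) (XT.nd (nat_lit 78) (nat_lit 0) (nat_lit 0) (XT.lf (nat_lit 0) (nat_lit 8934185220) (nat_lit 76) (nat_lit 570183329852) (nat_lit 76) (nat_lit 268484639882) (nat_lit 7) (nat_lit 4) (nat_lit 8) (nat_lit 5) (nat_lit 8) (nat_lit 4) (nat_lit 344) (nat_lit 298) (nat_lit 138)) (XT.lf (nat_lit 0) (nat_lit 245920291412) (nat_lit 76) (nat_lit 480545668377) (nat_lit 76) (nat_lit 178846878074) (nat_lit 7) (nat_lit 4) (nat_lit 8) (nat_lit 5) (nat_lit 8) (nat_lit 4) (nat_lit 345) (nat_lit 298) (nat_lit 137))) (XT.nd (nat_lit 78) (nat_lit 76) (nat_lit 0) (XT.lf (nat_lit 0) (nat_lit 501865134772) (nat_lit 76) (nat_lit 383737065150) (nat_lit 76) (nat_lit 82038181947)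 (nat_lit 7) (nat_lit 4) (nat_lit 8) (nat_lit 5) (nat_lit 8) (nat_lit 4) (nat_lit 346) (nat_lit 298) (nat_lit 136)) (XT.lf (nat_lit 0) (nat_lit 21388831687) (nat_lit 152) (nat_lit 257210199310) (nat_lit 76) (nat_lit 756311785235) (nat_lit 6) (nat_lit 5) (nat_lit 8) (nat_lit 5) (nat_lit 7) (nat_lit 4) (nat_lit 347) (nat_lit 298) (nat_lit 135)))) (XT.nd (nat_lit 156) (nat_lit 0) (nat_lit 0) (XT.nd (nat_lit 78) (nat_lit 76) (nat_lit 0) (XT.lf (nat_lit 0) (nat_lit 128657743174) (nat_lit 152) (nat_lit 34090943064) (nat_lit 76) (nat_lit 944643735845) (nat_lit 6) (nat_lit 5) (nat_lit 8) (nat_lit 5) (nat_lit 7) (nat_lit 4) (nat_lit 348) (nat_lit 298) (nat_lit 134)) (XT.lf (nat_lit 0) (nat_lit 217771544720) (nat_lit 76) (nat_lit 31973968422) (nat_lit 152) (nat_lit 935508055656) (nat_lit 5) (nat_lit 5) (nat_lit 6) (nat_lit 5) (nat_lit 7) (nat_lit 4) (nat_lit 349) (nat_lit 298) (nat_lit 133))) (XT.nd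 (nat_lit 78) (nat_lit 0) (nat_lit 0) (XT.lf (nat_lit 0) (nat_lit 384104328521) (nat_lit 152) (nat_lit 780199331024) (nat_lit 0) (nat_lit 104753225835) (nat_lit 5) (nat_lit 5) (nat_lit 7) (nat_lit 4) (nat_lit 5) (nat_lit 4) (nat_lit 350) (nat_lit 298) (nat_lit 132)) (XT.lf (nat_lit 0) (nat_lit 530042281855) (nat_lit 152) (nat_lit 578764630224) (nat_lit 0) (nat_lit 250691120627) (nat_lit 5) (nat_lit 5) (nat_lit 7) (nat_lit 4) (nat_lit 5) (nat_lit 4) (nat_lit 351) (nat_lit 298) (nat_lit 131)))))) (XT.nd (nat_lit 624) (nat_lit 152) (nat_lit 0) (XT.nd (nat_lit 312) (nat_lit 0) (nat_lit 0) (XT.nd (nat_lit 156) (nat_lit 76) (nat_lit 0) (XT.nd (nat_lit 78) (nat_lit 0) (nat_lit 0) (XT.lf (nat_lit 0) (nat_lit 687655215937) (nat_lit 152) (nat_lit 361215259852) (nat_lit 0) (nat_lit 408304000502) (nat_lit 5) (nat_lit 5) (nat_lit 7) (nat_lit 4) (nat_lit 5) (nat_lit 4) (nat_lit 352) (nat_lit 298) (nat_lit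 130)) (XT.lf (nat_lit 0) (nat_lit 857877133338) (nat_lit 152) (nat_lit 126262038455) (nat_lit 0) (nat_lit 578525867712) (nat_lit 5) (nat_lit 5) (nat_lit 7) (nat_lit 4) (nat_lit 5) (nat_lit 4) (nat_lit 353) (nat_lit 298) (nat_lit 129))) (XT.nd (nat_lit 78) (nat_lit 0) (nat_lit 0) (XT.lf (nat_lit 0) (nat_lit 134200607244) (nat_lit 76) (nat_lit 910743677121) (nat_lit 76) (nat_lit 631392365021) (nat_lit 4) (nat_lit 4) (nat_lit 5) (nat_lit 5) (nat_lit 5) (nat_lit 4) (nat_lit 354) (nat_lit 298) (nat_lit 128)) (XT.lf (nat_lit 0) (nat_lit 422680809615) (nat_lit 76) (nat_lit 827748179531) (nat_lit 76) (nat_lit 548396824401) (nat_lit 4) (nat_lit 4) (nat_lit 5) (nat_lit 5) (nat_lit 5) (nat_lit 4) (nat_lit 355) (nat_lit 298) (nat_lit 127)))) (XT.nd (nat_lit 156) (nat_lit 0) (nat_lit 0) (XT.nd (nat_lit 78) (nat_lit 0) (nat_lit 0) (XT.lf (nat_lit 0) (nat_lit 734239345779) (nat_lit 76) (nat_lit 738113081741)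 (nat_lit 76) (nat_lit 458761686767) (nat_lit 4) (nat_lit 4) (nat_lit 5) (nat_lit 5) (nat_lit 5) (nat_lit 4) (nat_lit 356) (nat_lit 298) (nat_lit 126)) (XT.lf (nat_lit 0) (nat_lit 1070722488544) (nat_lit 76) (nat_lit 641307212801) (nat_lit 76) (nat_lit 361955780935) (nat_lit 4) (nat_lit 4) (nat_lit 5) (nat_lit 5) (nat_lit 5) (nat_lit 4) (nat_lit 357) (nat_lit 298) (nat_lit 125))) (XT.nd (nat_lit 78) (nat_lit 0) (nat_lit 0) (XT.lf (nat_lit 0) (nat_lit 1434124212087) (nat_lit 76) (nat_lit 536756908301) (nat_lit 76) (nat_lit 257405442277) (nat_lit 4) (nat_lit 4) (nat_lit 5) (nat_lit 5) (nat_lit 5) (nat_lit 4) (nat_lit 358) (nat_lit 298) (nat_lit 124)) (XT.lf (nat_lit 0) (nat_lit 1826598008105) (nat_lit 76) (nat_lit 423842610883) (nat_lit 76) (nat_lit 144491113230) (nat_lit 4) (nat_lit 4) (nat_lit 5) (nat_lit 5) (nat_lit 5) (nat_lit 4) (nat_lit 359) (nat_lit 298) (nat_lit 123))))) (XT.nd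 (nat_lit 312) (nat_lit 0) (nat_lit 0) (XT.nd (nat_lit 156) (nat_lit 76) (nat_lit 0) (XT.nd (nat_lit 78) (nat_lit 76) (nat_lit 0) (XT.lf (nat_lit 0) (nat_lit 2250469647239) (nat_lit 76) (nat_lit 301895198784) (nat_lit 76) (nat_lit 22543671845) (nat_lit 4) (nat_lit 4) (nat_lit 5) (nat_lit 5) (nat_lit 5) (nat_lit 4) (nat_lit 360) (nat_lit 298) (nat_lit 122)) (XT.lf (nat_lit 0) (nat_lit 103698931424) (nat_lit 152) (nat_lit 63657776693) (nat_lit 76) (nat_lit 2601716717447) (nat_lit 3) (nat_lit 5) (nat_lit 5) (nat_lit 5) (nat_lit 4) (nat_lit 4) (nat_lit 361) (nat_lit 298) (nat_lit 121))) (XT.nd (nat_lit 78) (nat_lit 0) (nat_lit 0) (XT.lf (nat_lit 0) (nat_lit 228848110787) (nat_lit 76) (nat_lit 15478663228) (nat_lit 152) (nat_lit 2733957605890) (nat_lit 2) (nat_lit 5) (nat_lit 3) (nat_lit 5) (nat_lit 4) (nat_lit 4) (nat_lit 362) (nat_lit 298) (nat_lit 120)) (XT.lf (nat_lit 0) (nat_lit 401563163231)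 (nat_lit 152) (nat_lit 2659336109727) (nat_lit 0) (nat_lit 142904272109) (nat_lit 2) (nat_lit 5) (nat_lit 4) (nat_lit 4) (nat_lit 2) (nat_lit 4) (nat_lit 363) (nat_lit 298) (nat_lit 119)))) (XT.nd (nat_lit 35646) (nat_lit 0) (nat_lit 3268) (XT.nd (nat_lit 35568) (nat_lit 0) (nat_lit 3268) (XT.lf (nat_lit 0) (nat_lit 571780481336) (nat_lit 152) (nat_lit 2562430030416) (nat_lit 0) (nat_lit 313121570282) (nat_lit 2) (nat_lit 5) (nat_lit 4) (nat_lit 4) (nat_lit 2) (nat_lit 4) (nat_lit 364) (nat_lit 298) (nat_lit 118)) (XT.lf (nat_lit 0) (nat_lit 26418801680) (nat_lit 532) (nat_lit 7327716882) (nat_lit 532) (nat_lit 7327716882) (nat_lit 45) (nat_lit 3) (nat_lit 52) (nat_lit 3) (nat_lit 52) (nat_lit 5) (nat_lit 299) (nat_lit 299) (nat_lit 182))) (XT.nd (nat_lit 78) (nat_lit 0) (nat_lit 76) (XT.lf (nat_lit 76) (nat_lit 24258401885) (nat_lit 0) (nat_lit 31284998921) (nat_lit 532) (nat_lit 29843599909)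 (nat_lit 46) (nat_lit 5) (nat_lit 45) (nat_lit 3) (nat_lit 52) (nat_lit 5) (nat_lit 300) (nat_lit 299) (nat_lit 181)) (XT.lf (nat_lit 0) (nat_lit 59063948124) (nat_lit 456) (nat_lit 21932806398) (nat_lit 532) (nat_lit 7839998072) (nat_lit 46) (nat_lit 5) (nat_lit 52) (nat_lit 5) (nat_lit 53) (nat_lit 5) (nat_lit 301) (nat_lit 299) (nat_lit 180))))))))
noncomputable def xc105 : XT := (XT.nd (nat_lit 2418) (nat_lit 912) (nat_lit 0) (XT.nd (nat_lit 1170) (nat_lit 988) (nat_lit 0) (XT.nd (nat_lit 546) (nat_lit 836) (nat_lit 0) (XT.nd (nat_lit 234) (nat_lit 608) (nat_lit 0) (XT.nd (nat_lit 78) (nat_lit 0) (nat_lit 0) (XT.lf (nat_lit 76) (nat_lit 20616843466) (nat_lit 0) (nat_lit 43556903772) (nat_lit 532) (nat_lit 28284131112) (nat_lit 47) (nat_lit 5) (nat_lit 46) (nat_lit 5) (nat_lit 53) (nat_lit 5) (nat_lit 302) (nat_lit 299) (nat_lit 179)) (XT.nd (nat_lit 78) (nat_lit 0) (nat_lit 76) (XT.lf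 (nat_lit 76) (nat_lit 67817270698) (nat_lit 0) (nat_lit 2473964731) (nat_lit 532) (nat_lit 26029548517) (nat_lit 47) (nat_lit 5) (nat_lit 46) (nat_lit 5) (nat_lit 53) (nat_lit 5) (nat_lit 303) (nat_lit 299) (nat_lit 178)) (XT.lf (nat_lit 76) (nat_lit 18203472854) (nat_lit 0) (nat_lit 60139320505) (nat_lit 532) (nat_lit 22034357004) (nat_lit 48) (nat_lit 5) (nat_lit 47) (nat_lit 5) (nat_lit 54) (nat_lit 5) (nat_lit 304) (nat_lit 299) (nat_lit 177)))) (XT.nd (nat_lit 156) (nat_lit 304) (nat_lit 0) (XT.nd (nat_lit 78) (nat_lit 380) (nat_lit 0) (XT.lf (nat_lit 76) (nat_lit 70199851172) (nat_lit 0) (nat_lit 17679919427) (nat_lit 532) (nat_lit 16810953801) (nat_lit 48) (nat_lit 5) (nat_lit 47) (nat_lit 5) (nat_lit 54) (nat_lit 5) (nat_lit 305) (nat_lit 299) (nat_lit 176)) (XT.lf (nat_lit 0) (nat_lit 17188180296) (nat_lit 456) (nat_lit 82081919868) (nat_lit 532) (nat_lit 9992054402) (nat_lit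 42) (nat_lit 5) (nat_lit 48) (nat_lit 5) (nat_lit 49) (nat_lit 5) (nat_lit 306) (nat_lit 299) (nat_lit 175))) (XT.nd (nat_lit 78) (nat_lit 304) (nat_lit 0) (XT.lf (nat_lit 0) (nat_lit 74479140042) (nat_lit 456) (nat_lit 38482562364) (nat_lit 532) (nat_lit 1126394645) (nat_lit 42) (nat_lit 5) (nat_lit 48) (nat_lit 5) (nat_lit 49) (nat_lit 5) (nat_lit 307) (nat_lit 299) (nat_lit 174)) (XT.lf (nat_lit 0) (nat_lit 8675201506) (nat_lit 304) (nat_lit 101736276104) (nat_lit 76) (nat_lit 8820438725) (nat_lit 38) (nat_lit 5) (nat_lit 42) (nat_lit 5) (nat_lit 39) (nat_lit 5) (nat_lit 308) (nat_lit 299) (nat_lit 173))))) (XT.nd (nat_lit 312) (nat_lit 380) (nat_lit 0) (XT.nd (nat_lit 156) (nat_lit 228) (nat_lit 0) (XT.nd (nat_lit 78) (nat_lit 228) (nat_lit 0) (XT.lf (nat_lit 0) (nat_lit 21310195282) (nat_lit 304) (nat_lit 44336899800) (nat_lit 76) (nat_lit 58968996839) (nat_lit 38) (nat_lit 5) (nat_lit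 42) (nat_lit 5) (nat_lit 39) (nat_lit 5) (nat_lit 309) (nat_lit 299) (nat_lit 172)) (XT.lf (nat_lit 0) (nat_lit 18583526443) (nat_lit 228) (nat_lit 16818904727) (nat_lit 304) (nat_lit 94992856159) (nat_lit 35) (nat_lit 5) (nat_lit 38) (nat_lit 5) (nat_lit 39) (nat_lit 5) (nat_lit 310) (nat_lit 299) (nat_lit 171))) (XT.nd (nat_lit 78) (nat_lit 228) (nat_lit 0) (XT.lf (nat_lit 0) (nat_lit 52729083436) (nat_lit 304) (nat_lit 48376577110) (nat_lit 76) (nat_lit 35362595919) (nat_lit 35) (nat_lit 5) (nat_lit 39) (nat_lit 5) (nat_lit 36) (nat_lit 5) (nat_lit 311) (nat_lit 299) (nat_lit 170)) (XT.lf (nat_lit 0) (nat_lit 20733219222) (nat_lit 228) (nat_lit 51643703930) (nat_lit 304) (nat_lit 70575336573) (nat_lit 32) (nat_lit 5) (nat_lit 35) (nat_lit 5) (nat_lit 36) (nat_lit 5) (nat_lit 312) (nat_lit 299) (nat_lit 169)))) (XT.nd (nat_lit 156) (nat_lit 228) (nat_lit 0) (XT.nd (nat_lit 78) (nat_lit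 152) (nat_lit 0) (XT.lf (nat_lit 0) (nat_lit 94995925588) (nat_lit 304) (nat_lit 51803725097) (nat_lit 76) (nat_lit 3043386659) (nat_lit 32) (nat_lit 5) (nat_lit 36) (nat_lit 5) (nat_lit 33) (nat_lit 5) (nat_lit 313) (nat_lit 299) (nat_lit 168)) (XT.lf (nat_lit 0) (nat_lit 24108961181) (nat_lit 152) (nat_lit 97236318308) (nat_lit 228) (nat_lit 35786132051) (nat_lit 30) (nat_lit 5) (nat_lit 32) (nat_lit 5) (nat_lit 33) (nat_lit 5) (nat_lit 314) (nat_lit 299) (nat_lit 167))) (XT.nd (nat_lit 78) (nat_lit 228) (nat_lit 0) (XT.lf (nat_lit 0) (nat_lit 109040311113) (nat_lit 152) (nat_lit 42178308579) (nat_lit 228) (nat_lit 13670953744) (nat_lit 30) (nat_lit 5) (nat_lit 32) (nat_lit 5) (nat_lit 33) (nat_lit 5) (nat_lit 315) (nat_lit 299) (nat_lit 166)) (XT.lf (nat_lit 0) (nat_lit 10832073646) (nat_lit 228) (nat_lit 144946845228) (nat_lit 76) (nat_lit 17379455236) (nat_lit 27) (nat_lit 5) (nat_lit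 30) (nat_lit 5) (nat_lit 28) (nat_lit 5) (nat_lit 316) (nat_lit 299) (nat_lit 165)))))) (XT.nd (nat_lit 624) (nat_lit 380) (nat_lit 0) (XT.nd (nat_lit 312) (nat_lit 304) (nat_lit 0) (XT.nd (nat_lit 156) (nat_lit 152) (nat_lit 0) (XT.nd (nat_lit 78) (nat_lit 152) (nat_lit 0) (XT.lf (nat_lit 0) (nat_lit 39218640210) (nat_lit 228) (nat_lit 61283902014) (nat_lit 76) (nat_lit 81344779389) (nat_lit 27) (nat_lit 5) (nat_lit 30) (nat_lit 5) (nat_lit 28) (nat_lit 5) (nat_lit 317) (nat_lit 299) (nat_lit 164)) (XT.lf (nat_lit 0) (nat_lit 30602500612) (nat_lit 152) (nat_lit 40009309850) (nat_lit 228) (nat_lit 120560720778) (nat_lit 25) (nat_lit 5) (nat_lit 27) (nat_lit 5) (nat_lit 28) (nat_lit 5) (nat_lit 318) (nat_lit 299) (nat_lit 163))) (XT.nd (nat_lit 78) (nat_lit 152) (nat_lit 0) (XT.lf (nat_lit 0) (nat_lit 106844292447) (nat_lit 228) (nat_lit 68437621295) (nat_lit 76) (nat_lit 25775615795)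 (nat_lit 25) (nat_lit 5) (nat_lit 28) (nat_lit 5) (nat_lit 26) (nat_lit 5) (nat_lit 319) (nat_lit 299) (nat_lit 162)) (XT.lf (nat_lit 0) (nat_lit 31606867100) (nat_lit 152) (nat_lit 116167574425) (nat_lit 228) (nat_lit 63814961197) (nat_lit 23) (nat_lit 5) (nat_lit 25) (nat_lit 5) (nat_lit 26) (nat_lit 5) (nat_lit 320) (nat_lit 299) (nat_lit 161)))) (XT.nd (nat_lit 156) (nat_lit 152) (nat_lit 0) (XT.nd (nat_lit 78) (nat_lit 152) (nat_lit 0) (XT.lf (nat_lit 0) (nat_lit 143546618890) (nat_lit 152) (nat_lit 50303320305) (nat_lit 228) (nat_lit 28964212105) (nat_lit 23) (nat_lit 5) (nat_lit 25) (nat_lit 5) (nat_lit 26) (nat_lit 5) (nat_lit 321) (nat_lit 299) (nat_lit 160)) (XT.lf (nat_lit 0) (nat_lit 9507707946) (nat_lit 152) (nat_lit 204548204660) (nat_lit 76) (nat_lit 20762913659) (nat_lit 21) (nat_lit 5) (nat_lit 23) (nat_lit 5) (nat_lit 22) (nat_lit 5) (nat_lit 322) (nat_lit 299) (nat_lit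 159))) (XT.nd (nat_lit 78) (nat_lit 152) (nat_lit 0) (XT.lf (nat_lit 0) (nat_lit 53022500861) (nat_lit 152) (nat_lit 96646233037) (nat_lit 76) (nat_lit 97772561203) (nat_lit 21) (nat_lit 5) (nat_lit 23) (nat_lit 5) (nat_lit 22) (nat_lit 5) (nat_lit 323) (nat_lit 299) (nat_lit 158)) (XT.lf (nat_lit 0) (nat_lit 20934772783) (nat_lit 152) (nat_lit 79586955272) (nat_lit 228) (nat_lit 160511573670) (nat_lit 19) (nat_lit 5) (nat_lit 21) (nat_lit 5) (nat_lit 22) (nat_lit 5) (nat_lit 324) (nat_lit 299) (nat_lit 157))))) (XT.nd (nat_lit 312) (nat_lit 228) (nat_lit 0) (XT.nd (nat_lit 156) (nat_lit 76) (nat_lit 0) (XT.nd (nat_lit 78) (nat_lit 76) (nat_lit 0) (XT.lf (nat_lit 0) (nat_lit 153418259581) (nat_lit 152) (nat_lit 1044890716) (nat_lit 228) (nat_lit 121038138348) (nat_lit 19) (nat_lit 5) (nat_lit 21) (nat_lit 5) (nat_lit 22) (nat_lit 5) (nat_lit 325) (nat_lit 299) (nat_lit 156)) (XT.lf (nat_lit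 0) (nat_lit 3535292697) (nat_lit 76) (nat_lit 211284332558) (nat_lit 152) (nat_lit 76139110448) (nat_lit 18) (nat_lit 5) (nat_lit 19) (nat_lit 5) (nat_lit 20) (nat_lit 4) (nat_lit 326) (nat_lit 299) (nat_lit 155))) (XT.nd (nat_lit 78) (nat_lit 76) (nat_lit 0) (XT.lf (nat_lit 0) (nat_lit 146117145995) (nat_lit 76) (nat_lit 137251690007) (nat_lit 152) (nat_lit 24014805373) (nat_lit 18) (nat_lit 5) (nat_lit 19) (nat_lit 5) (nat_lit 20) (nat_lit 4) (nat_lit 327) (nat_lit 299) (nat_lit 154)) (XT.lf (nat_lit 0) (nat_lit 30664503917) (nat_lit 152) (nat_lit 25793633940) (nat_lit 76) (nat_lit 268602311501) (nat_lit 17) (nat_lit 5) (nat_lit 19) (nat_lit 5) (nat_lit 18) (nat_lit 5) (nat_lit 328) (nat_lit 299) (nat_lit 153)))) (XT.nd (nat_lit 156) (nat_lit 76) (nat_lit 0) (XT.nd (nat_lit 78) (nat_lit 0) (nat_lit 0) (XT.lf (nat_lit 0) (nat_lit 92291574057) (nat_lit 228) (nat_lit 218488094052) (nat_lit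 76) (nat_lit 33012166044) (nat_lit 15) (nat_lit 5) (nat_lit 18) (nat_lit 5) (nat_lit 16) (nat_lit 4) (nat_lit 329) (nat_lit 299) (nat_lit 152)) (XT.lf (nat_lit 0) (nat_lit 161038642510) (nat_lit 228) (nat_lit 75494562902) (nat_lit 76) (nat_lit 127313337907) (nat_lit 15) (nat_lit 5) (nat_lit 18) (nat_lit 5) (nat_lit 16) (nat_lit 4) (nat_lit 330) (nat_lit 299) (nat_lit 151))) (XT.nd (nat_lit 78) (nat_lit 0) (nat_lit 0) (XT.lf (nat_lit 0) (nat_lit 83094916879) (nat_lit 76) (nat_lit 154188833089) (nat_lit 152) (nat_lit 148062017552) (nat_lit 14) (nat_lit 5) (nat_lit 15) (nat_lit 5) (nat_lit 16) (nat_lit 4) (nat_lit 331) (nat_lit 299) (nat_lit 150)) (XT.lf (nat_lit 0) (nat_lit 258664726632) (nat_lit 76) (nat_lit 63027738732) (nat_lit 152) (nat_lit 86707344520) (nat_lit 14) (nat_lit 5) (nat_lit 15) (nat_lit 5) (nat_lit 16) (nat_lit 4) (nat_lit 332) (nat_lit 299) (nat_lit 149))))))) (XT.nd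 (nat_lit 1248) (nat_lit 304) (nat_lit 0) (XT.nd (nat_lit 624) (nat_lit 228) (nat_lit 0) (XT.nd (nat_lit 312) (nat_lit 152) (nat_lit 0) (XT.nd (nat_lit 156) (nat_lit 76) (nat_lit 0) (XT.nd (nat_lit 78) (nat_lit 76) (nat_lit 0) (XT.lf (nat_lit 0) (nat_lit 14873727464) (nat_lit 76) (nat_lit 399189719208) (nat_lit 76) (nat_lit 19137963631) (nat_lit 13) (nat_lit 4) (nat_lit 14) (nat_lit 5) (nat_lit 14) (nat_lit 4) (nat_lit 333) (nat_lit 299) (nat_lit 148)) (XT.lf (nat_lit 0) (nat_lit 56981123584) (nat_lit 152) (nat_lit 261531271174) (nat_lit 76) (nat_lit 140904177783) (nat_lit 12) (nat_lit 5) (nat_lit 14) (nat_lit 5) (nat_lit 13) (nat_lit 4) (nat_lit 334) (nat_lit 299) (nat_lit 147))) (XT.nd (nat_lit 78) (nat_lit 76) (nat_lit 0) (XT.lf (nat_lit 0) (nat_lit 138155655580) (nat_lit 152) (nat_lit 92688478561) (nat_lit 76) (nat_lit 256845057354) (nat_lit 12) (nat_lit 5) (nat_lit 14) (nat_lit 5)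 (nat_lit 13) (nat_lit 4) (nat_lit 335) (nat_lit 299) (nat_lit 146)) (XT.lf (nat_lit 0) (nat_lit 94382929768) (nat_lit 76) (nat_lit 133711007032) (nat_lit 152) (nat_lit 289948100347) (nat_lit 11) (nat_lit 5) (nat_lit 12) (nat_lit 5) (nat_lit 13) (nat_lit 4) (nat_lit 336) (nat_lit 299) (nat_lit 145)))) (XT.nd (nat_lit 156) (nat_lit 152) (nat_lit 0) (XT.nd (nat_lit 78) (nat_lit 0) (nat_lit 0) (XT.lf (nat_lit 0) (nat_lit 301691108250) (nat_lit 76) (nat_lit 26070318477) (nat_lit 152) (nat_lit 222858952140) (nat_lit 11) (nat_lit 5) (nat_lit 12) (nat_lit 5) (nat_lit 13) (nat_lit 4) (nat_lit 337) (nat_lit 299) (nat_lit 144)) (XT.lf (nat_lit 0) (nat_lit 437571071845) (nat_lit 152) (nat_lit 62390126307) (nat_lit 0) (nat_lit 85670289390) (nat_lit 11) (nat_lit 5) (nat_lit 13) (nat_lit 4) (nat_lit 11) (nat_lit 4) (nat_lit 338) (nat_lit 299) (nat_lit 143))) (XT.nd (nat_lit 78) (nat_lit 76) (nat_lit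 0) (XT.lf (nat_lit 0) (nat_lit 145682429932) (nat_lit 76) (nat_lit 414663769921) (nat_lit 76) (nat_lit 62762828251) (nat_lit 10) (nat_lit 4) (nat_lit 11) (nat_lit 5) (nat_lit 11) (nat_lit 4) (nat_lit 339) (nat_lit 299) (nat_lit 142)) (XT.lf (nat_lit 0) (nat_lit 29639991148) (nat_lit 152) (nat_lit 290249907500) (nat_lit 76) (nat_lit 343498382657) (nat_lit 9) (nat_lit 5) (nat_lit 11) (nat_lit 5) (nat_lit 10) (nat_lit 4) (nat_lit 340) (nat_lit 299) (nat_lit 141))))) (XT.nd (nat_lit 312) (nat_lit 152) (nat_lit 0) (XT.nd (nat_lit 156) (nat_lit 0) (nat_lit 0) (XT.nd (nat_lit 78) (nat_lit 76) (nat_lit 0) (XT.lf (nat_lit 0) (nat_lit 126044115728) (nat_lit 152) (nat_lit 89729464875) (nat_lit 76) (nat_lit 490985885764) (nat_lit 9) (nat_lit 5) (nat_lit 11) (nat_lit 5) (nat_lit 10) (nat_lit 4) (nat_lit 341) (nat_lit 299) (nat_lit 140)) (XT.lf (nat_lit 0) (nat_lit 133511218388) (nat_lit 76) (nat_lit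 99860209674) (nat_lit 152) (nat_lit 519972049617) (nat_lit 8) (nat_lit 5) (nat_lit 9) (nat_lit 5) (nat_lit 10) (nat_lit 4) (nat_lit 342) (nat_lit 299) (nat_lit 139))) (XT.nd (nat_lit 78) (nat_lit 0) (nat_lit 0) (XT.lf (nat_lit 0) (nat_lit 352411018881) (nat_lit 152) (nat_lit 424416778244) (nat_lit 0) (nat_lit 26576325354) (nat_lit 8) (nat_lit 5) (nat_lit 10) (nat_lit 4) (nat_lit 8) (nat_lit 4) (nat_lit 343) (nat_lit 299) (nat_lit 138)) (XT.lf (nat_lit 0) (nat_lit 483567466004) (nat_lit 152) (nat_lit 215961985649) (nat_lit 0) (nat_lit 157732672145) (nat_lit 8) (nat_lit 5) (nat_lit 10) (nat_lit 4) (nat_lit 8) (nat_lit 4) (nat_lit 344) (nat_lit 299) (nat_lit 137)))) (XT.nd (nat_lit 156) (nat_lit 76) (nat_lit 0) (XT.nd (nat_lit 78) (nat_lit 0) (nat_lit 0) (XT.lf (nat_lit 0) (nat_lit 9651872341) (nat_lit 76) (nat_lit 615796607798) (nat_lit 76) (nat_lit 289961721039) (nat_lit 7) (nat_lit 4)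 (nat_lit 8) (nat_lit 5) (nat_lit 8) (nat_lit 4) (nat_lit 345) (nat_lit 299) (nat_lit 136)) (XT.lf (nat_lit 0) (nat_lit 265596648339) (nat_lit 76) (nat_lit 518988036252) (nat_lit 76) (nat_lit 193153063474) (nat_lit 7) (nat_lit 4) (nat_lit 8) (nat_lit 5) (nat_lit 8) (nat_lit 4) (nat_lit 346) (nat_lit 299) (nat_lit 135))) (XT.nd (nat_lit 78) (nat_lit 76) (nat_lit 0) (XT.lf (nat_lit 0) (nat_lit 542016876679) (nat_lit 76) (nat_lit 414434839997) (nat_lit 76) (nat_lit 88599787572) (nat_lit 7) (nat_lit 4) (nat_lit 8) (nat_lit 5) (nat_lit 8) (nat_lit 4) (nat_lit 347) (nat_lit 299) (nat_lit 134)) (XT.lf (nat_lit 0) (nat_lit 23101212713) (nat_lit 152) (nat_lit 277784603728) (nat_lit 76) (nat_lit 816817762350) (nat_lit 6) (nat_lit 5) (nat_lit 8) (nat_lit 5) (nat_lit 7) (nat_lit 4) (nat_lit 348) (nat_lit 299) (nat_lit 133)))))) (XT.nd (nat_lit 624) (nat_lit 152) (nat_lit 0) (XT.nd (nat_lit 312) (nat_lit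 76) (nat_lit 0) (XT.nd (nat_lit 156) (nat_lit 0) (nat_lit 0) (XT.nd (nat_lit 78) (nat_lit 76) (nat_lit 0) (XT.lf (nat_lit 0) (nat_lit 138951542712) (nat_lit 152) (nat_lit 36815985614) (nat_lit 76) (nat_lit 1020216192394) (nat_lit 6) (nat_lit 5) (nat_lit 8) (nat_lit 5) (nat_lit 7) (nat_lit 4) (nat_lit 349) (nat_lit 299) (nat_lit 132)) (XT.lf (nat_lit 0) (nat_lit 235195444664) (nat_lit 76) (nat_lit 34530854541) (nat_lit 152) (nat_lit 1010347462826) (nat_lit 5) (nat_lit 5) (nat_lit 6) (nat_lit 5) (nat_lit 7) (nat_lit 4) (nat_lit 350) (nat_lit 299) (nat_lit 131))) (XT.nd (nat_lit 78) (nat_lit 0) (nat_lit 0) (XT.lf (nat_lit 0) (nat_lit 414833757966) (nat_lit 152) (nat_lit 842613199883) (nat_lit 0) (nat_lit 113134391089) (nat_lit 5) (nat_lit 5) (nat_lit 7) (nat_lit 4) (nat_lit 5) (nat_lit 4) (nat_lit 351) (nat_lit 299) (nat_lit 130)) (XT.lf (nat_lit 0) (nat_lit 572446667332) (nat_lit 152)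 (nat_lit 625063876917) (nat_lit 0) (nat_lit 270747250265) (nat_lit 5) (nat_lit 5) (nat_lit 7) (nat_lit 4) (nat_lit 5) (nat_lit 4) (nat_lit 352) (nat_lit 299) (nat_lit 129)))) (XT.nd (nat_lit 156) (nat_lit 76) (nat_lit 0) (XT.nd (nat_lit 78) (nat_lit 0) (nat_lit 0) (XT.lf (nat_lit 0) (nat_lit 742668561850) (nat_lit 152) (nat_lit 390110699413) (nat_lit 0) (nat_lit 440969098309) (nat_lit 5) (nat_lit 5) (nat_lit 7) (nat_lit 4) (nat_lit 5) (nat_lit 4) (nat_lit 353) (nat_lit 299) (nat_lit 128)) (XT.lf (nat_lit 0) (nat_lit 926508163855) (nat_lit 152) (nat_lit 136361352247) (nat_lit 0) (nat_lit 624808657284) (nat_lit 5) (nat_lit 5) (nat_lit 7) (nat_lit 4) (nat_lit 5) (nat_lit 4) (nat_lit 354) (nat_lit 299) (nat_lit 127))) (XT.nd (nat_lit 78) (nat_lit 0) (nat_lit 0) (XT.lf (nat_lit 0) (nat_lit 144938263354) (nat_lit 76) (nat_lit 983602398578) (nat_lit 76) (nat_lit 681902852163) (nat_lit 4) (nat_lit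 4) (nat_lit 5) (nat_lit 5) (nat_lit 5) (nat_lit 4) (nat_lit 355) (nat_lit 299) (nat_lit 126)) (XT.lf (nat_lit 0) (nat_lit 456496762839) (nat_lit 76) (nat_lit 893967318419) (nat_lit 76) (nat_lit 592267735112) (nat_lit 4) (nat_lit 4) (nat_lit 5) (nat_lit 5) (nat_lit 5) (nat_lit 4) (nat_lit 356) (nat_lit 299) (nat_lit 125))))) (XT.nd (nat_lit 312) (nat_lit 152) (nat_lit 0) (XT.nd (nat_lit 156) (nat_lit 0) (nat_lit 0) (XT.nd (nat_lit 78) (nat_lit 0) (nat_lit 0) (XT.lf (nat_lit 0) (nat_lit 792979871640) (nat_lit 76) (nat_lit 797161465804) (nat_lit 76) (nat_lit 495461848338) (nat_lit 4) (nat_lit 4) (nat_lit 5) (nat_lit 5) (nat_lit 5) (nat_lit 4) (nat_lit 357) (nat_lit 299) (nat_lit 124)) (XT.lf (nat_lit 0) (nat_lit 1156381563737) (nat_lit 76) (nat_lit 692611176421) (nat_lit 76) (nat_lit 390911527326) (nat_lit 4) (nat_lit 4) (nat_lit 5) (nat_lit 5) (nat_lit 5) (nat_lit 4) (nat_lit 358) (nat_lit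 299) (nat_lit 123))) (XT.nd (nat_lit 78) (nat_lit 0) (nat_lit 0) (XT.lf (nat_lit 0) (nat_lit 1548855330637) (nat_lit 76) (nat_lit 579696892999) (nat_lit 76) (nat_lit 277997214618) (nat_lit 4) (nat_lit 4) (nat_lit 5) (nat_lit 5) (nat_lit 5) (nat_lit 4) (nat_lit 359) (nat_lit 299) (nat_lit 122)) (XT.lf (nat_lit 0) (nat_lit 1972726942811) (nat_lit 76) (nat_lit 457749493859) (nat_lit 76) (nat_lit 156049788362) (nat_lit 4) (nat_lit 4) (nat_lit 5) (nat_lit 5) (nat_lit 5) (nat_lit 4) (nat_lit 360) (nat_lit 299) (nat_lit 121)))) (XT.nd (nat_lit 156) (nat_lit 76) (nat_lit 0) (XT.nd (nat_lit 78) (nat_lit 76) (nat_lit 0) (XT.lf (nat_lit 0) (nat_lit 2430508232036) (nat_lit 76) (nat_lit 326046327747) (nat_lit 76) (nat_lit 24346597141) (nat_lit 4) (nat_lit 4) (nat_lit 5) (nat_lit 5) (nat_lit 5) (nat_lit 4) (nat_lit 361) (nat_lit 299) (nat_lit 120)) (XT.lf (nat_lit 0) (nat_lit 111995345952) (nat_lit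 152) (nat_lit 68749434273) (nat_lit 76) (nat_lit 2809854479137) (nat_lit 3) (nat_lit 5) (nat_lit 5) (nat_lit 5) (nat_lit 4) (nat_lit 4) (nat_lit 362) (nat_lit 299) (nat_lit 119))) (XT.nd (nat_lit 78) (nat_lit 0) (nat_lit 0) (XT.lf (nat_lit 0) (nat_lit 247156899785) (nat_lit 76) (nat_lit 16716501736) (nat_lit 152) (nat_lit 2952673689700) (nat_lit 2) (nat_lit 5) (nat_lit 3) (nat_lit 5) (nat_lit 4) (nat_lit 4) (nat_lit 363) (nat_lit 299) (nat_lit 118)) (XT.lf (nat_lit 0) (nat_lit 433688676028) (nat_lit 152) (nat_lit 2872082101951) (nat_lit 0) (nat_lit 154337013703) (nat_lit 2) (nat_lit 5) (nat_lit 4) (nat_lit 4) (nat_lit 2) (nat_lit 4) (nat_lit 364) (nat_lit 299) (nat_lit 117))))))))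
noncomputable def xc106 : XT := (XT.nd (nat_lit 2418) (nat_lit 836) (nat_lit 0) (XT.nd (nat_lit 1170) (nat_lit 1292) (nat_lit 0) (XT.nd (nat_lit 546) (nat_lit 988) (nat_lit 0) (XT.nd (nat_lit 234) (nat_lit 0) (nat_lit 76) (XT.nd (nat_lit 78) (nat_lit 0) (nat_lit 0) (XT.lf (nat_lit 0) (nat_lit 28540970457) (nat_lit 532) (nat_lit 7909242860) (nat_lit 532) (nat_lit 7909242860) (nat_lit 45) (nat_lit 3) (nat_lit 52) (nat_lit 3) (nat_lit 52) (nat_lit 5) (nat_lit 300) (nat_lit 300) (nat_lit 180)) (XT.nd (nat_lit 78) (nat_lit 0) (nat_lit 76) (XT.lf (nat_lit 76) (nat_lit 26208219244) (nat_lit 0) (nat_lit 33794919203) (nat_lit 532) (nat_lit 32213474907) (nat_lit 46) (nat_lit 5) (nat_lit 45) (nat_lit 3) (nat_lit 52) (nat_lit 5) (nat_lit 301) (nat_lit 300) (nat_lit 179)) (XT.lf (nat_lit 0) (nat_lit 63803966133) (nat_lit 456) (nat_lit 23677556956) (nat_lit 532) (nat_lit 8460934790) (nat_lit 46) (nat_lit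 5) (nat_lit 52) (nat_lit 5) (nat_lit 53) (nat_lit 5) (nat_lit 302) (nat_lit 300) (nat_lit 178)))) (XT.nd (nat_lit 156) (nat_lit 0) (nat_lit 76) (XT.nd (nat_lit 78) (nat_lit 0) (nat_lit 0) (XT.lf (nat_lit 76) (nat_lit 22275814925) (nat_lit 0) (nat_lit 47045861846) (nat_lit 532) (nat_lit 30531669884) (nat_lit 47) (nat_lit 5) (nat_lit 46) (nat_lit 5) (nat_lit 53) (nat_lit 5) (nat_lit 303) (nat_lit 300) (nat_lit 177)) (XT.lf (nat_lit 76) (nat_lit 73251563447) (nat_lit 0) (nat_lit 2675961328) (nat_lit 532) (nat_lit 28097845994) (nat_lit 47) (nat_lit 5) (nat_lit 46) (nat_lit 5) (nat_lit 53) (nat_lit 5) (nat_lit 304) (nat_lit 300) (nat_lit 176))) (XT.nd (nat_lit 78) (nat_lit 0) (nat_lit 0) (XT.lf (nat_lit 76) (nat_lit 19669580461) (nat_lit 0) (nat_lit 64952810183) (nat_lit 532) (nat_lit 23783923907) (nat_lit 48) (nat_lit 5) (nat_lit 47) (nat_lit 5) (nat_lit 54) (nat_lit 5) (nat_lit 305) (nat_lit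 300) (nat_lit 175)) (XT.lf (nat_lit 76) (nat_lit 75824940912) (nat_lit 0) (nat_lit 19096483386) (nat_lit 532) (nat_lit 18143624866) (nat_lit 48) (nat_lit 5) (nat_lit 47) (nat_lit 5) (nat_lit 54) (nat_lit 5) (nat_lit 306) (nat_lit 300) (nat_lit 174))))) (XT.nd (nat_lit 312) (nat_lit 456) (nat_lit 0) (XT.nd (nat_lit 156) (nat_lit 304) (nat_lit 0) (XT.nd (nat_lit 78) (nat_lit 0) (nat_lit 0) (XT.lf (nat_lit 0) (nat_lit 18573066384) (nat_lit 456) (nat_lit 88649266998) (nat_lit 532) (nat_lit 10779914437) (nat_lit 42) (nat_lit 5) (nat_lit 48) (nat_lit 5) (nat_lit 49) (nat_lit 5) (nat_lit 307) (nat_lit 300) (nat_lit 173)) (XT.lf (nat_lit 0) (nat_lit 80446574638) (nat_lit 456) (nat_lit 41561902113) (nat_lit 532) (nat_lit 1205854072) (nat_lit 42) (nat_lit 5) (nat_lit 48) (nat_lit 5) (nat_lit 49) (nat_lit 5) (nat_lit 308) (nat_lit 300) (nat_lit 172))) (XT.nd (nat_lit 78) (nat_lit 0) (nat_lit 0)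 (XT.lf (nat_lit 0) (nat_lit 9378809483) (nat_lit 304) (nat_lit 109864966470) (nat_lit 76) (nat_lit 9525903244) (nat_lit 38) (nat_lit 5) (nat_lit 42) (nat_lit 5) (nat_lit 39) (nat_lit 5) (nat_lit 309) (nat_lit 300) (nat_lit 171)) (XT.lf (nat_lit 0) (nat_lit 23023892253) (nat_lit 304) (nat_lit 47874396485) (nat_lit 76) (nat_lit 63686358643) (nat_lit 38) (nat_lit 5) (nat_lit 42) (nat_lit 5) (nat_lit 39) (nat_lit 5) (nat_lit 310) (nat_lit 300) (nat_lit 170)))) (XT.nd (nat_lit 156) (nat_lit 228) (nat_lit 0) (XT.nd (nat_lit 78) (nat_lit 0) (nat_lit 0) (XT.lf (nat_lit 0) (nat_lit 20079424483) (nat_lit 228) (nat_lit 18163646295) (nat_lit 304) (nat_lit 102583144127) (nat_lit 35) (nat_lit 5) (nat_lit 38) (nat_lit 5) (nat_lit 39) (nat_lit 5) (nat_lit 311) (nat_lit 300) (nat_lit 169)) (XT.lf (nat_lit 0) (nat_lit 56955246826) (nat_lit 304) (nat_lit 52237543281) (nat_lit 76) (nat_lit 38192281603)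 (nat_lit 35) (nat_lit 5) (nat_lit 39) (nat_lit 5) (nat_lit 36) (nat_lit 5) (nat_lit 312) (nat_lit 300) (nat_lit 168))) (XT.nd (nat_lit 78) (nat_lit 0) (nat_lit 0) (XT.lf (nat_lit 0) (nat_lit 22400804859) (nat_lit 228) (nat_lit 55773743084) (nat_lit 304) (nat_lit 76213277909) (nat_lit 32) (nat_lit 5) (nat_lit 35) (nat_lit 5) (nat_lit 36) (nat_lit 5) (nat_lit 313) (nat_lit 300) (nat_lit 167)) (XT.lf (nat_lit 0) (nat_lit 102602549620) (nat_lit 304) (nat_lit 55939219673) (nat_lit 76) (nat_lit 3288139321) (nat_lit 32) (nat_lit 5) (nat_lit 36) (nat_lit 5) (nat_lit 33) (nat_lit 5) (nat_lit 314) (nat_lit 300) (nat_lit 166)))))) (XT.nd (nat_lit 624) (nat_lit 608) (nat_lit 0) (XT.nd (nat_lit 312) (nat_lit 304) (nat_lit 0) (XT.nd (nat_lit 156) (nat_lit 228) (nat_lit 0) (XT.nd (nat_lit 78) (nat_lit 0) (nat_lit 0) (XT.lf (nat_lit 0) (nat_lit 26046258636) (nat_lit 152) (nat_lit 105013284745) (nat_lit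 228) (nat_lit 38641835203) (nat_lit 30) (nat_lit 5) (nat_lit 32) (nat_lit 5) (nat_lit 33) (nat_lit 5) (nat_lit 315) (nat_lit 300) (nat_lit 165)) (XT.lf (nat_lit 0) (nat_lit 117771480966) (nat_lit 152) (nat_lit 45550777870) (nat_lit 228) (nat_lit 14757975034) (nat_lit 30) (nat_lit 5) (nat_lit 32) (nat_lit 5) (nat_lit 33) (nat_lit 5) (nat_lit 316) (nat_lit 300) (nat_lit 164))) (XT.nd (nat_lit 78) (nat_lit 0) (nat_lit 0) (XT.lf (nat_lit 0) (nat_lit 11704736547) (nat_lit 228) (nat_lit 156534065849) (nat_lit 76) (nat_lit 18771742327) (nat_lit 27) (nat_lit 5) (nat_lit 30) (nat_lit 5) (nat_lit 28) (nat_lit 5) (nat_lit 317) (nat_lit 300) (nat_lit 163)) (XT.lf (nat_lit 0) (nat_lit 42361776806) (nat_lit 228) (nat_lit 66178718807) (nat_lit 76) (nat_lit 87854149400) (nat_lit 27) (nat_lit 5) (nat_lit 30) (nat_lit 5) (nat_lit 28) (nat_lit 5) (nat_lit 318) (nat_lit 300) (nat_lit 162)))) (XT.nd (nat_lit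 156) (nat_lit 152) (nat_lit 0) (XT.nd (nat_lit 78) (nat_lit 0) (nat_lit 0) (XT.lf (nat_lit 0) (nat_lit 33058396146) (nat_lit 152) (nat_lit 43207771433) (nat_lit 228) (nat_lit 130199723272) (nat_lit 25) (nat_lit 5) (nat_lit 27) (nat_lit 5) (nat_lit 28) (nat_lit 5) (nat_lit 319) (nat_lit 300) (nat_lit 161)) (XT.lf (nat_lit 0) (nat_lit 115396898056) (nat_lit 228) (nat_lit 73905146311) (nat_lit 76) (nat_lit 27839673383) (nat_lit 25) (nat_lit 5) (nat_lit 28) (nat_lit 5) (nat_lit 26) (nat_lit 5) (nat_lit 320) (nat_lit 300) (nat_lit 160))) (XT.nd (nat_lit 78) (nat_lit 0) (nat_lit 0) (XT.lf (nat_lit 0) (nat_lit 34142711670) (nat_lit 152) (nat_lit 125458547862) (nat_lit 228) (nat_lit 68914897900) (nat_lit 23) (nat_lit 5) (nat_lit 25) (nat_lit 5) (nat_lit 26) (nat_lit 5) (nat_lit 321) (nat_lit 300) (nat_lit 159)) (XT.lf (nat_lit 0) (nat_lit 155037103217) (nat_lit 152) (nat_lit 54325333599) (nat_lit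 228) (nat_lit 31276478525) (nat_lit 23) (nat_lit 5) (nat_lit 25) (nat_lit 5) (nat_lit 26) (nat_lit 5) (nat_lit 322) (nat_lit 300) (nat_lit 158))))) (XT.nd (nat_lit 312) (nat_lit 304) (nat_lit 0) (XT.nd (nat_lit 156) (nat_lit 152) (nat_lit 0) (XT.nd (nat_lit 78) (nat_lit 0) (nat_lit 0) (XT.lf (nat_lit 0) (nat_lit 10272830213) (nat_lit 152) (nat_lit 220904927277) (nat_lit 76) (nat_lit 22426207683) (nat_lit 21) (nat_lit 5) (nat_lit 23) (nat_lit 5) (nat_lit 22) (nat_lit 5) (nat_lit 323) (nat_lit 300) (nat_lit 157)) (XT.lf (nat_lit 0) (nat_lit 57268472811) (nat_lit 152) (nat_lit 104371326350) (nat_lit 76) (nat_lit 105596459555) (nat_lit 21) (nat_lit 5) (nat_lit 23) (nat_lit 5) (nat_lit 22) (nat_lit 5) (nat_lit 324) (nat_lit 300) (nat_lit 156))) (XT.nd (nat_lit 78) (nat_lit 0) (nat_lit 0) (XT.lf (nat_lit 0) (nat_lit 22615992711) (nat_lit 152) (nat_lit 85951491277) (nat_lit 228) (nat_lit 173348154679)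 (nat_lit 19) (nat_lit 5) (nat_lit 21) (nat_lit 5) (nat_lit 22) (nat_lit 5) (nat_lit 325) (nat_lit 300) (nat_lit 155)) (XT.lf (nat_lit 0) (nat_lit 165697681557) (nat_lit 152) (nat_lit 1126240848) (nat_lit 228) (nat_lit 130717166375) (nat_lit 19) (nat_lit 5) (nat_lit 21) (nat_lit 5) (nat_lit 22) (nat_lit 5) (nat_lit 326) (nat_lit 300) (nat_lit 154)))) (XT.nd (nat_lit 156) (nat_lit 228) (nat_lit 0) (XT.nd (nat_lit 78) (nat_lit 0) (nat_lit 0) (XT.lf (nat_lit 0) (nat_lit 3824169160) (nat_lit 76) (nat_lit 228184666120) (nat_lit 152) (nat_lit 82226303124) (nat_lit 18) (nat_lit 5) (nat_lit 19) (nat_lit 5) (nat_lit 20) (nat_lit 4) (nat_lit 327) (nat_lit 300) (nat_lit 153)) (XT.lf (nat_lit 0) (nat_lit 157812122348) (nat_lit 76) (nat_lit 148229590908) (nat_lit 152) (nat_lit 25932345211) (nat_lit 18) (nat_lit 5) (nat_lit 19) (nat_lit 5) (nat_lit 20) (nat_lit 4) (nat_lit 328) (nat_lit 300) (nat_lit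 152))) (XT.nd (nat_lit 78) (nat_lit 152) (nat_lit 0) (XT.lf (nat_lit 0) (nat_lit 33120870041) (nat_lit 152) (nat_lit 27851762397) (nat_lit 76) (nat_lit 290092392470) (nat_lit 17) (nat_lit 5) (nat_lit 19) (nat_lit 5) (nat_lit 18) (nat_lit 5) (nat_lit 329) (nat_lit 300) (nat_lit 151)) (XT.lf (nat_lit 0) (nat_lit 99678045307) (nat_lit 228) (nat_lit 235961715192) (nat_lit 76) (nat_lit 35655165118) (nat_lit 15) (nat_lit 5) (nat_lit 18) (nat_lit 5) (nat_lit 16) (nat_lit 4) (nat_lit 330) (nat_lit 300) (nat_lit 150))))))) (XT.nd (nat_lit 1248) (nat_lit 228) (nat_lit 0) (XT.nd (nat_lit 624) (nat_lit 304) (nat_lit 0) (XT.nd (nat_lit 312) (nat_lit 152) (nat_lit 0) (XT.nd (nat_lit 156) (nat_lit 76) (nat_lit 0) (XT.nd (nat_lit 78) (nat_lit 76) (nat_lit 0) (XT.lf (nat_lit 0) (nat_lit 173924646249) (nat_lit 228) (nat_lit 81529103504) (nat_lit 76) (nat_lit 137500280670) (nat_lit 15) (nat_lit 5) (nat_lit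 18) (nat_lit 5) (nat_lit 16) (nat_lit 4) (nat_lit 331) (nat_lit 300) (nat_lit 149)) (XT.lf (nat_lit 0) (nat_lit 89747407458) (nat_lit 76) (nat_lit 166521856896) (nat_lit 152) (nat_lit 159903936294) (nat_lit 14) (nat_lit 5) (nat_lit 15) (nat_lit 5) (nat_lit 16) (nat_lit 4) (nat_lit 332) (nat_lit 300) (nat_lit 148))) (XT.nd (nat_lit 78) (nat_lit 76) (nat_lit 0) (XT.lf (nat_lit 0) (nat_lit 279362439234) (nat_lit 76) (nat_lit 68068029275) (nat_lit 152) (nat_lit 93641114802) (nat_lit 14) (nat_lit 5) (nat_lit 15) (nat_lit 5) (nat_lit 16) (nat_lit 4) (nat_lit 333) (nat_lit 300) (nat_lit 147)) (XT.lf (nat_lit 0) (nat_lit 16068206142) (nat_lit 76) (nat_lit 431122882255) (nat_lit 76) (nat_lit 20666226774) (nat_lit 13) (nat_lit 4) (nat_lit 14) (nat_lit 5) (nat_lit 14) (nat_lit 4) (nat_lit 334) (nat_lit 300) (nat_lit 146)))) (XT.nd (nat_lit 156) (nat_lit 76) (nat_lit 0) (XT.nd (nat_lit 78) (nat_lit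 0) (nat_lit 0) (XT.lf (nat_lit 0) (nat_lit 61542053455) (nat_lit 152) (nat_lit 282449400902) (nat_lit 76) (nat_lit 152178246493) (nat_lit 12) (nat_lit 5) (nat_lit 14) (nat_lit 5) (nat_lit 13) (nat_lit 4) (nat_lit 335) (nat_lit 300) (nat_lit 145)) (XT.lf (nat_lit 0) (nat_lit 149210367272) (nat_lit 152) (nat_lit 100099508729) (nat_lit 76) (nat_lit 277394267949) (nat_lit 12) (nat_lit 5) (nat_lit 14) (nat_lit 5) (nat_lit 13) (nat_lit 4) (nat_lit 336) (nat_lit 300) (nat_lit 144))) (XT.nd (nat_lit 78) (nat_lit 0) (nat_lit 0) (XT.lf (nat_lit 0) (nat_lit 101937509783) (nat_lit 76) (nat_lit 144406128748) (nat_lit 152) (nat_lit 313141584678) (nat_lit 11) (nat_lit 5) (nat_lit 12) (nat_lit 5) (nat_lit 13) (nat_lit 4) (nat_lit 337) (nat_lit 300) (nat_lit 143)) (XT.lf (nat_lit 0) (nat_lit 325830050274) (nat_lit 76) (nat_lit 28154315393) (nat_lit 152) (nat_lit 240685479702) (nat_lit 11) (nat_lit 5)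 (nat_lit 12) (nat_lit 5) (nat_lit 13) (nat_lit 4) (nat_lit 338) (nat_lit 300) (nat_lit 142))))) (XT.nd (nat_lit 312) (nat_lit 152) (nat_lit 0) (XT.nd (nat_lit 156) (nat_lit 76) (nat_lit 0) (XT.nd (nat_lit 78) (nat_lit 76) (nat_lit 0) (XT.lf (nat_lit 0) (nat_lit 472578668676) (nat_lit 152) (nat_lit 67377838260) (nat_lit 0) (nat_lit 92525345037) (nat_lit 11) (nat_lit 5) (nat_lit 13) (nat_lit 4) (nat_lit 11) (nat_lit 4) (nat_lit 339) (nat_lit 300) (nat_lit 141)) (XT.lf (nat_lit 0) (nat_lit 157340433917) (nat_lit 76) (nat_lit 447835313446) (nat_lit 76) (nat_lit 67781853306) (nat_lit 10) (nat_lit 4) (nat_lit 11) (nat_lit 5) (nat_lit 11) (nat_lit 4) (nat_lit 340) (nat_lit 300) (nat_lit 140))) (XT.nd (nat_lit 78) (nat_lit 0) (nat_lit 0) (XT.lf (nat_lit 0) (nat_lit 32012950716) (nat_lit 152) (nat_lit 313466649040) (nat_lit 76) (nat_lit 370979601894) (nat_lit 9) (nat_lit 5) (nat_lit 11) (nat_lit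 5) (nat_lit 10) (nat_lit 4) (nat_lit 341) (nat_lit 300) (nat_lit 139)) (XT.lf (nat_lit 0) (nat_lit 136129274871) (nat_lit 152) (nat_lit 96904811824) (nat_lit 76) (nat_lit 530266005351) (nat_lit 9) (nat_lit 5) (nat_lit 11) (nat_lit 5) (nat_lit 10) (nat_lit 4) (nat_lit 342) (nat_lit 300) (nat_lit 138)))) (XT.nd (nat_lit 156) (nat_lit 76) (nat_lit 0) (XT.nd (nat_lit 78) (nat_lit 0) (nat_lit 0) (XT.lf (nat_lit 0) (nat_lit 144195049891) (nat_lit 76) (nat_lit 107847672131) (nat_lit 152) (nat_lit 561568106345) (nat_lit 8) (nat_lit 5) (nat_lit 9) (nat_lit 5) (nat_lit 10) (nat_lit 4) (nat_lit 343) (nat_lit 300) (nat_lit 137)) (XT.lf (nat_lit 0) (nat_lit 380605393250) (nat_lit 152) (nat_lit 458367315886) (nat_lit 0) (nat_lit 28703622649) (nat_lit 8) (nat_lit 5) (nat_lit 10) (nat_lit 4) (nat_lit 8) (nat_lit 4) (nat_lit 344) (nat_lit 300) (nat_lit 136))) (XT.nd (nat_lit 78) (nat_lit 76) (nat_lit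 0) (XT.lf (nat_lit 0) (nat_lit 522254245561) (nat_lit 152) (nat_lit 233236347633) (nat_lit 0) (nat_lit 170352388941) (nat_lit 8) (nat_lit 5) (nat_lit 10) (nat_lit 4) (nat_lit 8) (nat_lit 4) (nat_lit 345) (nat_lit 300) (nat_lit 135)) (XT.lf (nat_lit 0) (nat_lit 10426553253) (nat_lit 76) (nat_lit 665059146057) (nat_lit 76) (nat_lit 313157209791) (nat_lit 7) (nat_lit 4) (nat_lit 8) (nat_lit 5) (nat_lit 8) (nat_lit 4) (nat_lit 346) (nat_lit 300) (nat_lit 134)))))) (XT.nd (nat_lit 624) (nat_lit 76) (nat_lit 0) (XT.nd (nat_lit 312) (nat_lit 76) (nat_lit 0) (XT.nd (nat_lit 156) (nat_lit 76) (nat_lit 0) (XT.nd (nat_lit 78) (nat_lit 0) (nat_lit 0) (XT.lf (nat_lit 0) (nat_lit 286846723840) (nat_lit 76) (nat_lit 560505976963) (nat_lit 76) (nat_lit 208603966949) (nat_lit 7) (nat_lit 4) (nat_lit 8) (nat_lit 5) (nat_lit 8) (nat_lit 4) (nat_lit 347) (nat_lit 300) (nat_lit 133)) (XT.lf (nat_lit 0) (nat_lit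 585380396844) (nat_lit 76) (nat_lit 447588606650) (nat_lit 76) (nat_lit 95686528352) (nat_lit 7) (nat_lit 4) (nat_lit 8) (nat_lit 5) (nat_lit 8) (nat_lit 4) (nat_lit 348) (nat_lit 300) (nat_lit 132))) (XT.nd (nat_lit 78) (nat_lit 0) (nat_lit 0) (XT.lf (nat_lit 0) (nat_lit 24950402400) (nat_lit 152) (nat_lit 300005304530) (nat_lit 76) (nat_lit 882164070081) (nat_lit 6) (nat_lit 5) (nat_lit 8) (nat_lit 5) (nat_lit 7) (nat_lit 4) (nat_lit 349) (nat_lit 300) (nat_lit 131)) (XT.lf (nat_lit 0) (nat_lit 150068677861) (nat_lit 152) (nat_lit 39759350115) (nat_lit 76) (nat_lit 1101834308843) (nat_lit 6) (nat_lit 5) (nat_lit 8) (nat_lit 5) (nat_lit 7) (nat_lit 4) (nat_lit 350) (nat_lit 300) (nat_lit 130)))) (XT.nd (nat_lit 156) (nat_lit 0) (nat_lit 0) (XT.nd (nat_lit 78) (nat_lit 0) (nat_lit 0) (XT.lf (nat_lit 0) (nat_lit 254012946121) (nat_lit 76) (nat_lit 37292438683) (nat_lit 152) (nat_lit 1091174199081)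 (nat_lit 5) (nat_lit 5) (nat_lit 6) (nat_lit 5) (nat_lit 7) (nat_lit 4) (nat_lit 351) (nat_lit 300) (nat_lit 129)) (XT.lf (nat_lit 0) (nat_lit 448021387241) (nat_lit 152) (nat_lit 910020474646) (nat_lit 0) (nat_lit 122185920143) (nat_lit 5) (nat_lit 5) (nat_lit 7) (nat_lit 4) (nat_lit 5) (nat_lit 4) (nat_lit 352) (nat_lit 300) (nat_lit 128))) (XT.nd (nat_lit 78) (nat_lit 0) (nat_lit 0) (XT.lf (nat_lit 0) (nat_lit 618243260569) (nat_lit 152) (nat_lit 675067337785) (nat_lit 0) (nat_lit 292407750441) (nat_lit 5) (nat_lit 5) (nat_lit 7) (nat_lit 4) (nat_lit 5) (nat_lit 4) (nat_lit 353) (nat_lit 300) (nat_lit 127)) (XT.lf (nat_lit 0) (nat_lit 802082842955) (nat_lit 152) (nat_lit 421318028251) (nat_lit 0) (nat_lit 476247292984) (nat_lit 5) (nat_lit 5) (nat_lit 7) (nat_lit 4) (nat_lit 5) (nat_lit 4) (nat_lit 354) (nat_lit 300) (nat_lit 126))))) (XT.nd (nat_lit 312) (nat_lit 0) (nat_lit 0) (XT.nd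 (nat_lit 156) (nat_lit 0) (nat_lit 0) (XT.nd (nat_lit 78) (nat_lit 76) (nat_lit 0) (XT.lf (nat_lit 0) (nat_lit 1000629554146) (nat_lit 152) (nat_lit 147268846431) (nat_lit 0) (nat_lit 674793967283) (nat_lit 5) (nat_lit 5) (nat_lit 7) (nat_lit 4) (nat_lit 5) (nat_lit 4) (nat_lit 355) (nat_lit 300) (nat_lit 125)) (XT.lf (nat_lit 0) (nat_lit 156534702621) (nat_lit 76) (nat_lit 1062289927988) (nat_lit 76) (nat_lit 736454306965) (nat_lit 4) (nat_lit 4) (nat_lit 5) (nat_lit 5) (nat_lit 5) (nat_lit 4) (nat_lit 356) (nat_lit 300) (nat_lit 124))) (XT.nd (nat_lit 78) (nat_lit 0) (nat_lit 0) (XT.lf (nat_lit 0) (nat_lit 493017779976) (nat_lit 76) (nat_lit 965484090489) (nat_lit 76) (nat_lit 639648437837) (nat_lit 4) (nat_lit 4) (nat_lit 5) (nat_lit 5) (nat_lit 5) (nat_lit 4) (nat_lit 357) (nat_lit 300) (nat_lit 123)) (XT.lf (nat_lit 0) (nat_lit 856419442955) (nat_lit 76) (nat_lit 860933815102) (nat_lit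 76) (nat_lit 535098133164) (nat_lit 4) (nat_lit 4) (nat_lit 5) (nat_lit 5) (nat_lit 5) (nat_lit 4) (nat_lit 358) (nat_lit 300) (nat_lit 122)))) (XT.nd (nat_lit 156) (nat_lit 0) (nat_lit 0) (XT.nd (nat_lit 78) (nat_lit 0) (nat_lit 0) (XT.lf (nat_lit 0) (nat_lit 1248893182894) (nat_lit 76) (nat_lit 748019544639) (nat_lit 76) (nat_lit 422183835585) (nat_lit 4) (nat_lit 4) (nat_lit 5) (nat_lit 5) (nat_lit 5) (nat_lit 4) (nat_lit 359) (nat_lit 300) (nat_lit 121)) (XT.lf (nat_lit 0) (nat_lit 1672764770105) (nat_lit 76) (nat_lit 626072157499) (nat_lit 76) (nat_lit 300236423337) (nat_lit 4) (nat_lit 4) (nat_lit 5) (nat_lit 5) (nat_lit 5) (nat_lit 4) (nat_lit 360) (nat_lit 300) (nat_lit 120))) (XT.nd (nat_lit 78) (nat_lit 0) (nat_lit 0) (XT.lf (nat_lit 0) (nat_lit 2130546036215) (nat_lit 76) (nat_lit 494369002498) (nat_lit 76) (nat_lit 168533245087) (nat_lit 4) (nat_lit 4) (nat_lit 5) (nat_lit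 5) (nat_lit 5) (nat_lit 4) (nat_lit 361) (nat_lit 300) (nat_lit 119)) (XT.lf (nat_lit 0) (nat_lit 2624949759097) (nat_lit 76) (nat_lit 352129616494) (nat_lit 76) (nat_lit 26293837558) (nat_lit 4) (nat_lit 4) (nat_lit 5) (nat_lit 5) (nat_lit 5) (nat_lit 4) (nat_lit 362) (nat_lit 300) (nat_lit 118))))))))
noncomputable def xc107 : XT := (XT.nd (nat_lit 38142) (nat_lit 0) (nat_lit 152) (XT.nd (nat_lit 36894) (nat_lit 0) (nat_lit 1140) (XT.nd (nat_lit 36270) (nat_lit 0) (nat_lit 2280) (XT.nd (nat_lit 35958) (nat_lit 0) (nat_lit 3344) (XT.nd (nat_lit 35802) (nat_lit 0) (nat_lit 3268) (XT.nd (nat_lit 78) (nat_lit 76) (nat_lit 0) (XT.lf (nat_lit 0) (nat_lit 120955402309) (nat_lit 152) (nat_lit 74248562065) (nat_lit 76) (nat_lit 3034643201232) (nat_lit 3) (nat_lit 5) (nat_lit 5) (nat_lit 5) (nat_lit 4) (nat_lit 4) (nat_lit 363) (nat_lit 300) (nat_lit 117)) (XT.lf (nat_lit 0) (nat_lit 266930257783)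 (nat_lit 76) (nat_lit 18053432171) (nat_lit 152) (nat_lit 3188887135065) (nat_lit 2) (nat_lit 5) (nat_lit 3) (nat_lit 5) (nat_lit 4) (nat_lit 4) (nat_lit 364) (nat_lit 300) (nat_lit 116))) (XT.nd (nat_lit 78) (nat_lit 0) (nat_lit 0) (XT.lf (nat_lit 0) (nat_lit 30831676628) (nat_lit 532) (nat_lit 8537960192) (nat_lit 532) (nat_lit 8537960192) (nat_lit 45) (nat_lit 3) (nat_lit 52) (nat_lit 3) (nat_lit 52) (nat_lit 5) (nat_lit 301) (nat_lit 301) (nat_lit 178)) (XT.lf (nat_lit 76) (nat_lit 28312717326) (nat_lit 0) (nat_lit 36504617308) (nat_lit 532) (nat_lit 34775452596) (nat_lit 46) (nat_lit 5) (nat_lit 45) (nat_lit 3) (nat_lit 52) (nat_lit 5) (nat_lit 302) (nat_lit 301) (nat_lit 177)))) (XT.nd (nat_lit 156) (nat_lit 0) (nat_lit 0) (XT.nd (nat_lit 78) (nat_lit 0) (nat_lit 0) (XT.lf (nat_lit 0) (nat_lit 68921059624) (nat_lit 456) (nat_lit 25563296187) (nat_lit 532) (nat_lit 9132439950) (nat_lit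 46) (nat_lit 5) (nat_lit 52) (nat_lit 5) (nat_lit 53) (nat_lit 5) (nat_lit 303) (nat_lit 301) (nat_lit 176)) (XT.lf (nat_lit 76) (nat_lit 24066131132) (nat_lit 0) (nat_lit 50813308032) (nat_lit 532) (nat_lit 32961179025) (nat_lit 47) (nat_lit 5) (nat_lit 46) (nat_lit 5) (nat_lit 53) (nat_lit 5) (nat_lit 304) (nat_lit 301) (nat_lit 175))) (XT.nd (nat_lit 78) (nat_lit 0) (nat_lit 76) (XT.lf (nat_lit 76) (nat_lit 79119328349) (nat_lit 0) (nat_lit 2893535678) (nat_lit 532) (nat_lit 30333613999) (nat_lit 47) (nat_lit 5) (nat_lit 46) (nat_lit 5) (nat_lit 53) (nat_lit 5) (nat_lit 305) (nat_lit 301) (nat_lit 174)) (XT.lf (nat_lit 76) (nat_lit 21251574348) (nat_lit 0) (nat_lit 70151044632) (nat_lit 532) (nat_lit 25675336672) (nat_lit 48) (nat_lit 5) (nat_lit 47) (nat_lit 5) (nat_lit 54) (nat_lit 5) (nat_lit 306) (nat_lit 301) (nat_lit 173))))) (XT.nd (nat_lit 312) (nat_lit 456) (nat_lit 0) (XT.nd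 (nat_lit 156) (nat_lit 304) (nat_lit 0) (XT.nd (nat_lit 78) (nat_lit 380) (nat_lit 0) (XT.lf (nat_lit 76) (nat_lit 81898739380) (nat_lit 0) (nat_lit 20626062829) (nat_lit 532) (nat_lit 19584650831) (nat_lit 48) (nat_lit 5) (nat_lit 47) (nat_lit 5) (nat_lit 54) (nat_lit 5) (nat_lit 307) (nat_lit 301) (nat_lit 172)) (XT.lf (nat_lit 0) (nat_lit 20067340762) (nat_lit 456) (nat_lit 95741888691) (nat_lit 532) (nat_lit 11632444495) (nat_lit 42) (nat_lit 5) (nat_lit 48) (nat_lit 5) (nat_lit 49) (nat_lit 5) (nat_lit 308) (nat_lit 301) (nat_lit 171))) (XT.nd (nat_lit 78) (nat_lit 304) (nat_lit 0) (XT.lf (nat_lit 0) (nat_lit 86890105301) (nat_lit 456) (nat_lit 44887484220) (nat_lit 532) (nat_lit 1293189900) (nat_lit 42) (nat_lit 5) (nat_lit 48) (nat_lit 5) (nat_lit 49) (nat_lit 5) (nat_lit 309) (nat_lit 301) (nat_lit 170)) (XT.lf (nat_lit 0) (nat_lit 10137337713) (nat_lit 304) (nat_lit 118645408881)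 (nat_lit 76) (nat_lit 10287829260) (nat_lit 38) (nat_lit 5) (nat_lit 42) (nat_lit 5) (nat_lit 39) (nat_lit 5) (nat_lit 310) (nat_lit 301) (nat_lit 169)))) (XT.nd (nat_lit 156) (nat_lit 228) (nat_lit 0) (XT.nd (nat_lit 78) (nat_lit 228) (nat_lit 0) (XT.lf (nat_lit 0) (nat_lit 24873417959) (nat_lit 304) (nat_lit 51696241809) (nat_lit 76) (nat_lit 68781131923) (nat_lit 38) (nat_lit 5) (nat_lit 42) (nat_lit 5) (nat_lit 39) (nat_lit 5) (nat_lit 311) (nat_lit 301) (nat_lit 168)) (XT.lf (nat_lit 0) (nat_lit 21693679612) (nat_lit 228) (nat_lit 19616077153) (nat_lit 304) (nat_lit 110781959130) (nat_lit 35) (nat_lit 5) (nat_lit 38) (nat_lit 5) (nat_lit 39) (nat_lit 5) (nat_lit 312) (nat_lit 301) (nat_lit 167))) (XT.nd (nat_lit 78) (nat_lit 228) (nat_lit 0) (XT.lf (nat_lit 0) (nat_lit 61518385292) (nat_lit 304) (nat_lit 56408693522) (nat_lit 76) (nat_lit 41248245416) (nat_lit 35) (nat_lit 5) (nat_lit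 39) (nat_lit 5) (nat_lit 36) (nat_lit 5) (nat_lit 313) (nat_lit 301) (nat_lit 166)) (XT.lf (nat_lit 0) (nat_lit 24200523654) (nat_lit 228) (nat_lit 60234393251) (nat_lit 304) (nat_lit 82303408051) (nat_lit 32) (nat_lit 5) (nat_lit 35) (nat_lit 5) (nat_lit 36) (nat_lit 5) (nat_lit 314) (nat_lit 301) (nat_lit 165)))))) (XT.nd (nat_lit 624) (nat_lit 456) (nat_lit 0) (XT.nd (nat_lit 312) (nat_lit 304) (nat_lit 0) (XT.nd (nat_lit 156) (nat_lit 228) (nat_lit 0) (XT.nd (nat_lit 78) (nat_lit 152) (nat_lit 0) (XT.lf (nat_lit 0) (nat_lit 110816712081) (nat_lit 304) (nat_lit 60406809723) (nat_lit 76) (nat_lit 3552289343) (nat_lit 32) (nat_lit 5) (nat_lit 36) (nat_lit 5) (nat_lit 33) (nat_lit 5) (nat_lit 315) (nat_lit 301) (nat_lit 164)) (XT.lf (nat_lit 0) (nat_lit 28137315774) (nat_lit 152) (nat_lit 113412685122) (nat_lit 228) (nat_lit 41727019973) (nat_lit 30) (nat_lit 5) (nat_lit 32) (nat_lit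 5) (nat_lit 33) (nat_lit 5) (nat_lit 316) (nat_lit 301) (nat_lit 163))) (XT.nd (nat_lit 78) (nat_lit 228) (nat_lit 0) (XT.lf (nat_lit 0) (nat_lit 127200010968) (nat_lit 152) (nat_lit 49193300838) (nat_lit 228) (nat_lit 15932907438) (nat_lit 30) (nat_lit 5) (nat_lit 32) (nat_lit 5) (nat_lit 33) (nat_lit 5) (nat_lit 317) (nat_lit 301) (nat_lit 162)) (XT.lf (nat_lit 0) (nat_lit 12646342674) (nat_lit 228) (nat_lit 169049480592) (nat_lit 76) (nat_lit 20275136954) (nat_lit 27) (nat_lit 5) (nat_lit 30) (nat_lit 5) (nat_lit 28) (nat_lit 5) (nat_lit 318) (nat_lit 301) (nat_lit 161)))) (XT.nd (nat_lit 156) (nat_lit 152) (nat_lit 0) (XT.nd (nat_lit 78) (nat_lit 152) (nat_lit 0) (XT.lf (nat_lit 0) (nat_lit 45755558953) (nat_lit 228) (nat_lit 71466247307) (nat_lit 76) (nat_lit 94884013982) (nat_lit 27) (nat_lit 5) (nat_lit 30) (nat_lit 5) (nat_lit 28) (nat_lit 5) (nat_lit 319) (nat_lit 301) (nat_lit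 160)) (XT.lf (nat_lit 0) (nat_lit 35709665475) (nat_lit 152) (nat_lit 46662435667) (nat_lit 228) (nat_lit 140610681272) (nat_lit 25) (nat_lit 5) (nat_lit 27) (nat_lit 5) (nat_lit 28) (nat_lit 5) (nat_lit 320) (nat_lit 301) (nat_lit 159))) (XT.nd (nat_lit 78) (nat_lit 152) (nat_lit 0) (XT.lf (nat_lit 0) (nat_lit 124632989933) (nat_lit 228) (nat_lit 79811141103) (nat_lit 76) (nat_lit 30068569068) (nat_lit 25) (nat_lit 5) (nat_lit 28) (nat_lit 5) (nat_lit 26) (nat_lit 5) (nat_lit 321) (nat_lit 301) (nat_lit 158)) (XT.lf (nat_lit 0) (nat_lit 36880383063) (nat_lit 152) (nat_lit 135493146200) (nat_lit 228) (nat_lit 74423579966) (nat_lit 23) (nat_lit 5) (nat_lit 25) (nat_lit 5) (nat_lit 26) (nat_lit 5) (nat_lit 322) (nat_lit 301) (nat_lit 157))))) (XT.nd (nat_lit 312) (nat_lit 152) (nat_lit 0) (XT.nd (nat_lit 156) (nat_lit 152) (nat_lit 0) (XT.nd (nat_lit 78) (nat_lit 152) (nat_lit 0) (XT.lf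 (nat_lit 0) (nat_lit 167445862640) (nat_lit 152) (nat_lit 58669429276) (nat_lit 228) (nat_lit 33774421097) (nat_lit 23) (nat_lit 5) (nat_lit 25) (nat_lit 5) (nat_lit 26) (nat_lit 5) (nat_lit 323) (nat_lit 301) (nat_lit 156)) (XT.lf (nat_lit 0) (nat_lit 11098519483) (nat_lit 152) (nat_lit 238571205413) (nat_lit 76) (nat_lit 24222242682) (nat_lit 21) (nat_lit 5) (nat_lit 23) (nat_lit 5) (nat_lit 22) (nat_lit 5) (nat_lit 324) (nat_lit 301) (nat_lit 155))) (XT.nd (nat_lit 78) (nat_lit 152) (nat_lit 0) (XT.lf (nat_lit 0) (nat_lit 61853527352) (nat_lit 152) (nat_lit 112715369453) (nat_lit 76) (nat_lit 114045971120) (nat_lit 21) (nat_lit 5) (nat_lit 23) (nat_lit 5) (nat_lit 22) (nat_lit 5) (nat_lit 325) (nat_lit 301) (nat_lit 154)) (XT.lf (nat_lit 0) (nat_lit 24430791766) (nat_lit 152) (nat_lit 92825535462) (nat_lit 228) (nat_lit 187212282015) (nat_lit 19) (nat_lit 5) (nat_lit 21) (nat_lit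 5) (nat_lit 22) (nat_lit 5) (nat_lit 326) (nat_lit 301) (nat_lit 153)))) (XT.nd (nat_lit 156) (nat_lit 76) (nat_lit 0) (XT.nd (nat_lit 78) (nat_lit 76) (nat_lit 0) (XT.lf (nat_lit 0) (nat_lit 178958606857) (nat_lit 152) (nat_lit 1214418711) (nat_lit 228) (nat_lit 141171090575) (nat_lit 19) (nat_lit 5) (nat_lit 21) (nat_lit 5) (nat_lit 22) (nat_lit 5) (nat_lit 327) (nat_lit 301) (nat_lit 152)) (XT.lf (nat_lit 0) (nat_lit 4135292204) (nat_lit 76) (nat_lit 246437370614) (nat_lit 152) (nat_lit 88801032752) (nat_lit 18) (nat_lit 5) (nat_lit 19) (nat_lit 5) (nat_lit 20) (nat_lit 4) (nat_lit 328) (nat_lit 301) (nat_lit 151))) (XT.nd (nat_lit 78) (nat_lit 76) (nat_lit 0) (XT.lf (nat_lit 0) (nat_lit 170441897239) (nat_lit 76) (nat_lit 160086042630) (nat_lit 152) (nat_lit 28003808178) (nat_lit 18) (nat_lit 5) (nat_lit 19) (nat_lit 5) (nat_lit 20) (nat_lit 4) (nat_lit 329) (nat_lit 301) (nat_lit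 150)) (XT.lf (nat_lit 0) (nat_lit 35773288109) (nat_lit 152) (nat_lit 30075306117) (nat_lit 76) (nat_lit 313301409424) (nat_lit 17) (nat_lit 5) (nat_lit 19) (nat_lit 5) (nat_lit 18) (nat_lit 5) (nat_lit 330) (nat_lit 301) (nat_lit 149))))))) (XT.nd (nat_lit 1248) (nat_lit 304) (nat_lit 0) (XT.nd (nat_lit 624) (nat_lit 228) (nat_lit 0) (XT.nd (nat_lit 312) (nat_lit 228) (nat_lit 0) (XT.nd (nat_lit 156) (nat_lit 76) (nat_lit 0) (XT.nd (nat_lit 78) (nat_lit 0) (nat_lit 0) (XT.lf (nat_lit 0) (nat_lit 107654985542) (nat_lit 228) (nat_lit 254834000158) (nat_lit 76) (nat_lit 38509315115) (nat_lit 15) (nat_lit 5) (nat_lit 18) (nat_lit 5) (nat_lit 16) (nat_lit 4) (nat_lit 331) (nat_lit 301) (nat_lit 148)) (XT.lf (nat_lit 0) (nat_lit 187841114810) (nat_lit 228) (nat_lit 88047124146) (nat_lit 76) (nat_lit 148501911261) (nat_lit 15) (nat_lit 5) (nat_lit 18) (nat_lit 5) (nat_lit 16) (nat_lit 4) (nat_lit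 332) (nat_lit 301) (nat_lit 147))) (XT.nd (nat_lit 78) (nat_lit 0) (nat_lit 0) (XT.lf (nat_lit 0) (nat_lit 96931398640) (nat_lit 76) (nat_lit 179841819747) (nat_lit 152) (nat_lit 172693642605) (nat_lit 14) (nat_lit 5) (nat_lit 15) (nat_lit 5) (nat_lit 16) (nat_lit 4) (nat_lit 333) (nat_lit 301) (nat_lit 146)) (XT.lf (nat_lit 0) (nat_lit 301715321951) (nat_lit 76) (nat_lit 73511818191) (nat_lit 152) (nat_lit 101129988622) (nat_lit 14) (nat_lit 5) (nat_lit 15) (nat_lit 5) (nat_lit 16) (nat_lit 4) (nat_lit 334) (nat_lit 301) (nat_lit 145)))) (XT.nd (nat_lit 156) (nat_lit 76) (nat_lit 0) (XT.nd (nat_lit 78) (nat_lit 76) (nat_lit 0) (XT.lf (nat_lit 0) (nat_lit 17357589657) (nat_lit 76) (nat_lit 465610985736) (nat_lit 76) (nat_lit 22317146703) (nat_lit 13) (nat_lit 4) (nat_lit 14) (nat_lit 5) (nat_lit 14) (nat_lit 4) (nat_lit 335) (nat_lit 301) (nat_lit 144)) (XT.lf (nat_lit 0) (nat_lit 66467509626)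 (nat_lit 152) (nat_lit 305041604718) (nat_lit 76) (nat_lit 164353993256) (nat_lit 12) (nat_lit 5) (nat_lit 14) (nat_lit 5) (nat_lit 13) (nat_lit 4) (nat_lit 336) (nat_lit 301) (nat_lit 143))) (XT.nd (nat_lit 78) (nat_lit 76) (nat_lit 0) (XT.lf (nat_lit 0) (nat_lit 161149133592) (nat_lit 152) (nat_lit 108103998819) (nat_lit 76) (nat_lit 299587186277) (nat_lit 12) (nat_lit 5) (nat_lit 14) (nat_lit 5) (nat_lit 13) (nat_lit 4) (nat_lit 337) (nat_lit 301) (nat_lit 142)) (XT.lf (nat_lit 0) (nat_lit 110095893310) (nat_lit 76) (nat_lit 155957111121) (nat_lit 152) (nat_lit 338190884963) (nat_lit 11) (nat_lit 5) (nat_lit 12) (nat_lit 5) (nat_lit 13) (nat_lit 4) (nat_lit 338) (nat_lit 301) (nat_lit 141))))) (XT.nd (nat_lit 312) (nat_lit 76) (nat_lit 0) (XT.nd (nat_lit 156) (nat_lit 152) (nat_lit 0) (XT.nd (nat_lit 78) (nat_lit 0) (nat_lit 0) (XT.lf (nat_lit 0) (nat_lit 351899586466) (nat_lit 76)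 (nat_lit 30405264396) (nat_lit 152) (nat_lit 259938441699) (nat_lit 11) (nat_lit 5) (nat_lit 12) (nat_lit 5) (nat_lit 13) (nat_lit 4) (nat_lit 339) (nat_lit 301) (nat_lit 140)) (XT.lf (nat_lit 0) (nat_lit 510386600615) (nat_lit 152) (nat_lit 72765066220) (nat_lit 0) (nat_lit 99928600773) (nat_lit 11) (nat_lit 5) (nat_lit 13) (nat_lit 4) (nat_lit 11) (nat_lit 4) (nat_lit 340) (nat_lit 301) (nat_lit 139))) (XT.nd (nat_lit 78) (nat_lit 76) (nat_lit 0) (XT.lf (nat_lit 0) (nat_lit 169930591805) (nat_lit 76) (nat_lit 483660802729) (nat_lit 76) (nat_lit 73202685859) (nat_lit 10) (nat_lit 4) (nat_lit 11) (nat_lit 5) (nat_lit 11) (nat_lit 4) (nat_lit 341) (nat_lit 301) (nat_lit 138)) (XT.lf (nat_lit 0) (nat_lit 34575495925) (nat_lit 152) (nat_lit 338541193703) (nat_lit 76) (nat_lit 400659126273) (nat_lit 9) (nat_lit 5) (nat_lit 11) (nat_lit 5) (nat_lit 10) (nat_lit 4) (nat_lit 342) (nat_lit 301)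 (nat_lit 137)))) (XT.nd (nat_lit 156) (nat_lit 0) (nat_lit 0) (XT.nd (nat_lit 78) (nat_lit 76) (nat_lit 0) (XT.lf (nat_lit 0) (nat_lit 147021014224) (nat_lit 152) (nat_lit 104654615973) (nat_lit 76) (nat_lit 572688356360) (nat_lit 9) (nat_lit 5) (nat_lit 11) (nat_lit 5) (nat_lit 10) (nat_lit 4) (nat_lit 343) (nat_lit 301) (nat_lit 136)) (XT.lf (nat_lit 0) (nat_lit 155733169343) (nat_lit 76) (nat_lit 116474324793) (nat_lit 152) (nat_lit 606492091169) (nat_lit 8) (nat_lit 5) (nat_lit 9) (nat_lit 5) (nat_lit 10) (nat_lit 4) (nat_lit 344) (nat_lit 301) (nat_lit 135))) (XT.nd (nat_lit 78) (nat_lit 0) (nat_lit 0) (XT.lf (nat_lit 0) (nat_lit 411055104595) (nat_lit 152) (nat_lit 495034296650) (nat_lit 0) (nat_lit 31000933780) (nat_lit 8) (nat_lit 5) (nat_lit 10) (nat_lit 4) (nat_lit 8) (nat_lit 4) (nat_lit 345) (nat_lit 301) (nat_lit 134)) (XT.lf (nat_lit 0) (nat_lit 564035770285) (nat_lit 152)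 (nat_lit 251893029049) (nat_lit 0) (nat_lit 183981525723) (nat_lit 8) (nat_lit 5) (nat_lit 10) (nat_lit 4) (nat_lit 8) (nat_lit 4) (nat_lit 346) (nat_lit 301) (nat_lit 133)))))) (XT.nd (nat_lit 624) (nat_lit 76) (nat_lit 0) (XT.nd (nat_lit 312) (nat_lit 76) (nat_lit 0) (XT.nd (nat_lit 156) (nat_lit 76) (nat_lit 0) (XT.nd (nat_lit 78) (nat_lit 0) (nat_lit 0) (XT.lf (nat_lit 0) (nat_lit 11262847545) (nat_lit 76) (nat_lit 718262857195) (nat_lit 76) (nat_lit 338208544349) (nat_lit 7) (nat_lit 4) (nat_lit 8) (nat_lit 5) (nat_lit 8) (nat_lit 4) (nat_lit 347) (nat_lit 301) (nat_lit 132)) (XT.lf (nat_lit 0) (nat_lit 309796471035) (nat_lit 76) (nat_lit 605345510169) (nat_lit 76) (nat_lit 225291134097) (nat_lit 7) (nat_lit 4) (nat_lit 8) (nat_lit 5) (nat_lit 8) (nat_lit 4) (nat_lit 348) (nat_lit 301) (nat_lit 131))) (XT.nd (nat_lit 78) (nat_lit 76) (nat_lit 0) (XT.lf (nat_lit 0) (nat_lit 632212689044)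 (nat_lit 76) (nat_lit 483394820228) (nat_lit 76) (nat_lit 103340385613) (nat_lit 7) (nat_lit 4) (nat_lit 8) (nat_lit 5) (nat_lit 8) (nat_lit 4) (nat_lit 349) (nat_lit 301) (nat_lit 130)) (XT.lf (nat_lit 0) (nat_lit 26947371381) (nat_lit 152) (nat_lit 324003956348) (nat_lit 76) (nat_lit 952737955926) (nat_lit 6) (nat_lit 5) (nat_lit 8) (nat_lit 5) (nat_lit 7) (nat_lit 4) (nat_lit 350) (nat_lit 301) (nat_lit 129)))) (XT.nd (nat_lit 156) (nat_lit 0) (nat_lit 0) (XT.nd (nat_lit 78) (nat_lit 76) (nat_lit 0) (XT.lf (nat_lit 0) (nat_lit 162075039487) (nat_lit 152) (nat_lit 42938456879) (nat_lit 76) (nat_lit 1189981757476) (nat_lit 6) (nat_lit 5) (nat_lit 8) (nat_lit 5) (nat_lit 7) (nat_lit 4) (nat_lit 351) (nat_lit 301) (nat_lit 128)) (XT.lf (nat_lit 0) (nat_lit 274335581506) (nat_lit 76) (nat_lit 40275075701) (nat_lit 152) (nat_lit 1178467225568) (nat_lit 5) (nat_lit 5) (nat_lit 6) (nat_lit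 5) (nat_lit 7) (nat_lit 4) (nat_lit 352) (nat_lit 301) (nat_lit 127))) (XT.nd (nat_lit 78) (nat_lit 0) (nat_lit 0) (XT.lf (nat_lit 0) (nat_lit 483863894377) (nat_lit 152) (nat_lit 982820585502) (nat_lit 0) (nat_lit 131961460565) (nat_lit 5) (nat_lit 5) (nat_lit 7) (nat_lit 4) (nat_lit 5) (nat_lit 4) (nat_lit 353) (nat_lit 301) (nat_lit 126)) (XT.lf (nat_lit 0) (nat_lit 667703458597) (nat_lit 152) (nat_lit 729071310812) (nat_lit 0) (nat_lit 315800987893) (nat_lit 5) (nat_lit 5) (nat_lit 7) (nat_lit 4) (nat_lit 5) (nat_lit 4) (nat_lit 354) (nat_lit 301) (nat_lit 125))))) (XT.nd (nat_lit 312) (nat_lit 0) (nat_lit 0) (XT.nd (nat_lit 156) (nat_lit 76) (nat_lit 0) (XT.nd (nat_lit 78) (nat_lit 0) (nat_lit 0) (XT.lf (nat_lit 0) (nat_lit 866250152968) (nat_lit 152) (nat_lit 455022161256) (nat_lit 0) (nat_lit 514347648104) (nat_lit 5) (nat_lit 5) (nat_lit 7) (nat_lit 4) (nat_lit 5) (nat_lit 4)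 (nat_lit 355) (nat_lit 301) (nat_lit 124)) (XT.lf (nat_lit 0) (nat_lit 1080680550493) (nat_lit 152) (nat_lit 159049141872) (nat_lit 0) (nat_lit 728778014001) (nat_lit 5) (nat_lit 5) (nat_lit 7) (nat_lit 4) (nat_lit 5) (nat_lit 4) (nat_lit 356) (nat_lit 301) (nat_lit 123))) (XT.nd (nat_lit 78) (nat_lit 0) (nat_lit 0) (XT.lf (nat_lit 0) (nat_lit 169058660413) (nat_lit 76) (nat_lit 1147272554260) (nat_lit 76) (nat_lit 795369988482) (nat_lit 4) (nat_lit 4) (nat_lit 5) (nat_lit 5) (nat_lit 5) (nat_lit 4) (nat_lit 357) (nat_lit 301) (nat_lit 122)) (XT.lf (nat_lit 0) (nat_lit 532460296432) (nat_lit 76) (nat_lit 1042722291833) (nat_lit 76) (nat_lit 690819698938) (nat_lit 4) (nat_lit 4) (nat_lit 5) (nat_lit 5) (nat_lit 5) (nat_lit 4) (nat_lit 358) (nat_lit 301) (nat_lit 121)))) (XT.nd (nat_lit 156) (nat_lit 0) (nat_lit 0) (XT.nd (nat_lit 78) (nat_lit 0) (nat_lit 0) (XT.lf (nat_lit 0) (nat_lit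 924934011408) (nat_lit 76) (nat_lit 929808033370) (nat_lit 76) (nat_lit 577905415367) (nat_lit 4) (nat_lit 4) (nat_lit 5) (nat_lit 5) (nat_lit 5) (nat_lit 4) (nat_lit 359) (nat_lit 301) (nat_lit 120)) (XT.lf (nat_lit 0) (nat_lit 1348805575505) (nat_lit 76) (nat_lit 807860657340) (nat_lit 76) (nat_lit 455958016089) (nat_lit 4) (nat_lit 4) (nat_lit 5) (nat_lit 5) (nat_lit 5) (nat_lit 4) (nat_lit 360) (nat_lit 301) (nat_lit 119))) (XT.nd (nat_lit 78) (nat_lit 0) (nat_lit 0) (XT.lf (nat_lit 0) (nat_lit 1806586820212) (nat_lit 76) (nat_lit 676157512626) (nat_lit 76) (nat_lit 324254849849) (nat_lit 4) (nat_lit 4) (nat_lit 5) (nat_lit 5) (nat_lit 5) (nat_lit 4) (nat_lit 361) (nat_lit 301) (nat_lit 118)) (XT.lf (nat_lit 0) (nat_lit 2300990523278) (nat_lit 76) (nat_lit 533918136149) (nat_lit 76) (nat_lit 182015453440) (nat_lit 4) (nat_lit 4) (nat_lit 5) (nat_lit 5) (nat_lit 5) (nat_lit 4) (nat_lit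 362) (nat_lit 301) (nat_lit 117))))))))
noncomputable def xc108 : XT := (XT.nd (nat_lit 38220) (nat_lit 0) (nat_lit 0) (XT.nd (nat_lit 36972) (nat_lit 0) (nat_lit 988) (XT.nd (nat_lit 36348) (nat_lit 0) (nat_lit 2128) (XT.nd (nat_lit 36036) (nat_lit 0) (nat_lit 3192) (XT.nd (nat_lit 35880) (nat_lit 0) (nat_lit 3116) (XT.lf (nat_lit 0) (nat_lit 2834946484423) (nat_lit 76) (nat_lit 380299627899) (nat_lit 76) (nat_lit 28396926734) (nat_lit 4) (nat_lit 4) (nat_lit 5) (nat_lit 5) (nat_lit 5) (nat_lit 4) (nat_lit 363) (nat_lit 301) (nat_lit 116)) (XT.nd (nat_lit 78) (nat_lit 0) (nat_lit 0) (XT.lf (nat_lit 0) (nat_lit 33304579530) (nat_lit 532) (nat_lit 9217548708) (nat_lit 532) (nat_lit 9217548708) (nat_lit 45) (nat_lit 3) (nat_lit 52) (nat_lit 3) (nat_lit 52) (nat_lit 5) (nat_lit 302) (nat_lit 302) (nat_lit 176)) (XT.lf (nat_lit 76) (nat_lit 30584456714) (nat_lit 0) (nat_lit 39430220376)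 (nat_lit 532) (nat_lit 37544542727) (nat_lit 46) (nat_lit 5) (nat_lit 45) (nat_lit 3) (nat_lit 52) (nat_lit 5) (nat_lit 303) (nat_lit 302) (nat_lit 175)))) (XT.nd (nat_lit 156) (nat_lit 0) (nat_lit 0) (XT.nd (nat_lit 78) (nat_lit 0) (nat_lit 0) (XT.lf (nat_lit 0) (nat_lit 74445697926) (nat_lit 456) (nat_lit 27601102231) (nat_lit 532) (nat_lit 9858431559) (nat_lit 46) (nat_lit 5) (nat_lit 52) (nat_lit 5) (nat_lit 53) (nat_lit 5) (nat_lit 304) (nat_lit 302) (nat_lit 174)) (XT.lf (nat_lit 76) (nat_lit 25998495535) (nat_lit 0) (nat_lit 54881611049) (nat_lit 532) (nat_lit 35586906982) (nat_lit 47) (nat_lit 5) (nat_lit 46) (nat_lit 5) (nat_lit 53) (nat_lit 5) (nat_lit 305) (nat_lit 302) (nat_lit 173))) (XT.nd (nat_lit 78) (nat_lit 0) (nat_lit 76) (XT.lf (nat_lit 76) (nat_lit 85455424537) (nat_lit 0) (nat_lit 3128017026) (nat_lit 532) (nat_lit 32749963891) (nat_lit 47) (nat_lit 5) (nat_lit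 46) (nat_lit 5) (nat_lit 53) (nat_lit 5) (nat_lit 306) (nat_lit 302) (nat_lit 172)) (XT.lf (nat_lit 76) (nat_lit 22958925476) (nat_lit 0) (nat_lit 75764851140) (nat_lit 532) (nat_lit 27719674694) (nat_lit 48) (nat_lit 5) (nat_lit 47) (nat_lit 5) (nat_lit 54) (nat_lit 5) (nat_lit 307) (nat_lit 302) (nat_lit 171))))) (XT.nd (nat_lit 312) (nat_lit 456) (nat_lit 0) (XT.nd (nat_lit 156) (nat_lit 304) (nat_lit 0) (XT.nd (nat_lit 78) (nat_lit 380) (nat_lit 0) (XT.lf (nat_lit 76) (nat_lit 88457328512) (nat_lit 0) (nat_lit 22277743168) (nat_lit 532) (nat_lit 21142451682) (nat_lit 48) (nat_lit 5) (nat_lit 47) (nat_lit 5) (nat_lit 54) (nat_lit 5) (nat_lit 308) (nat_lit 302) (nat_lit 170)) (XT.lf (nat_lit 0) (nat_lit 21679954589) (nat_lit 456) (nat_lit 103401823062) (nat_lit 532) (nat_lit 12554584039) (nat_lit 42) (nat_lit 5) (nat_lit 48) (nat_lit 5) (nat_lit 49) (nat_lit 5) (nat_lit 309) (nat_lit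 302) (nat_lit 169))) (XT.nd (nat_lit 78) (nat_lit 304) (nat_lit 0) (XT.lf (nat_lit 0) (nat_lit 93848004991) (nat_lit 456) (nat_lit 48479023028) (nat_lit 532) (nat_lit 1388815447) (nat_lit 42) (nat_lit 5) (nat_lit 48) (nat_lit 5) (nat_lit 49) (nat_lit 5) (nat_lit 310) (nat_lit 302) (nat_lit 168)) (XT.lf (nat_lit 0) (nat_lit 10955375031) (nat_lit 304) (nat_lit 128129535670) (nat_lit 76) (nat_lit 11110730220) (nat_lit 38) (nat_lit 5) (nat_lit 42) (nat_lit 5) (nat_lit 39) (nat_lit 5) (nat_lit 311) (nat_lit 302) (nat_lit 167)))) (XT.nd (nat_lit 156) (nat_lit 228) (nat_lit 0) (XT.nd (nat_lit 78) (nat_lit 228) (nat_lit 0) (XT.lf (nat_lit 0) (nat_lit 26869819452) (nat_lit 304) (nat_lit 55824991227) (nat_lit 76) (nat_lit 74283506384) (nat_lit 38) (nat_lit 5) (nat_lit 42) (nat_lit 5) (nat_lit 39) (nat_lit 5) (nat_lit 312) (nat_lit 302) (nat_lit 166)) (XT.lf (nat_lit 0) (nat_lit 23435947960) (nat_lit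 228) (nat_lit 21184796756) (nat_lit 304) (nat_lit 119637797302) (nat_lit 35) (nat_lit 5) (nat_lit 38) (nat_lit 5) (nat_lit 39) (nat_lit 5) (nat_lit 313) (nat_lit 302) (nat_lit 165))) (XT.nd (nat_lit 78) (nat_lit 228) (nat_lit 0) (XT.lf (nat_lit 0) (nat_lit 66445616335) (nat_lit 304) (nat_lit 60914656132) (nat_lit 76) (nat_lit 44548603407) (nat_lit 35) (nat_lit 5) (nat_lit 39) (nat_lit 5) (nat_lit 36) (nat_lit 5) (nat_lit 314) (nat_lit 302) (nat_lit 164)) (XT.lf (nat_lit 0) (nat_lit 26143127965) (nat_lit 228) (nat_lit 65052073654) (nat_lit 304) (nat_lit 88881737544) (nat_lit 32) (nat_lit 5) (nat_lit 35) (nat_lit 5) (nat_lit 36) (nat_lit 5) (nat_lit 315) (nat_lit 302) (nat_lit 163)))))) (XT.nd (nat_lit 624) (nat_lit 456) (nat_lit 0) (XT.nd (nat_lit 312) (nat_lit 304) (nat_lit 0) (XT.nd (nat_lit 156) (nat_lit 228) (nat_lit 0) (XT.nd (nat_lit 78) (nat_lit 152) (nat_lit 0) (XT.lf (nat_lit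 0) (nat_lit 119687157493) (nat_lit 304) (nat_lit 65232883715) (nat_lit 76) (nat_lit 3837414599) (nat_lit 32) (nat_lit 5) (nat_lit 36) (nat_lit 5) (nat_lit 33) (nat_lit 5) (nat_lit 316) (nat_lit 302) (nat_lit 162)) (XT.lf (nat_lit 0) (nat_lit 30394608004) (nat_lit 152) (nat_lit 122484274690) (nat_lit 228) (nat_lit 45059898609) (nat_lit 30) (nat_lit 5) (nat_lit 32) (nat_lit 5) (nat_lit 33) (nat_lit 5) (nat_lit 317) (nat_lit 302) (nat_lit 161))) (XT.nd (nat_lit 78) (nat_lit 228) (nat_lit 0) (XT.lf (nat_lit 0) (nat_lit 137381851631) (nat_lit 152) (nat_lit 53127445236) (nat_lit 228) (nat_lit 17202648401) (nat_lit 30) (nat_lit 5) (nat_lit 32) (nat_lit 5) (nat_lit 33) (nat_lit 5) (nat_lit 318) (nat_lit 302) (nat_lit 160)) (XT.lf (nat_lit 0) (nat_lit 13662531571) (nat_lit 228) (nat_lit 182567171442) (nat_lit 76) (nat_lit 21898567012) (nat_lit 27) (nat_lit 5) (nat_lit 30) (nat_lit 5) (nat_lit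 28) (nat_lit 5) (nat_lit 319) (nat_lit 302) (nat_lit 159)))) (XT.nd (nat_lit 156) (nat_lit 152) (nat_lit 0) (XT.nd (nat_lit 78) (nat_lit 152) (nat_lit 0) (XT.lf (nat_lit 0) (nat_lit 49420153192) (nat_lit 228) (nat_lit 77177743760) (nat_lit 76) (nat_lit 102476049084) (nat_lit 27) (nat_lit 5) (nat_lit 30) (nat_lit 5) (nat_lit 28) (nat_lit 5) (nat_lit 320) (nat_lit 302) (nat_lit 158)) (XT.lf (nat_lit 0) (nat_lit 38572095124) (nat_lit 152) (nat_lit 50393752296) (nat_lit 228) (nat_lit 151855232050) (nat_lit 25) (nat_lit 5) (nat_lit 27) (nat_lit 5) (nat_lit 28) (nat_lit 5) (nat_lit 321) (nat_lit 302) (nat_lit 157))) (XT.nd (nat_lit 78) (nat_lit 152) (nat_lit 0) (XT.lf (nat_lit 0) (nat_lit 134607350005) (nat_lit 228) (nat_lit 86190530923) (nat_lit 76) (nat_lit 32475530772) (nat_lit 25) (nat_lit 5) (nat_lit 28) (nat_lit 5) (nat_lit 26) (nat_lit 5) (nat_lit 322) (nat_lit 302) (nat_lit 156)) (XT.lf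 (nat_lit 0) (nat_lit 39836175899) (nat_lit 152) (nat_lit 146330809924) (nat_lit 228) (nat_lit 80373599965) (nat_lit 23) (nat_lit 5) (nat_lit 25) (nat_lit 5) (nat_lit 26) (nat_lit 5) (nat_lit 323) (nat_lit 302) (nat_lit 155))))) (XT.nd (nat_lit 312) (nat_lit 152) (nat_lit 0) (XT.nd (nat_lit 156) (nat_lit 152) (nat_lit 0) (XT.nd (nat_lit 78) (nat_lit 152) (nat_lit 0) (XT.lf (nat_lit 0) (nat_lit 180846496643) (nat_lit 152) (nat_lit 63361328088) (nat_lit 228) (nat_lit 36472794787) (nat_lit 23) (nat_lit 5) (nat_lit 25) (nat_lit 5) (nat_lit 26) (nat_lit 5) (nat_lit 324) (nat_lit 302) (nat_lit 154)) (XT.lf (nat_lit 0) (nat_lit 11989712816) (nat_lit 152) (nat_lit 257651658323) (nat_lit 76) (nat_lit 26161683949) (nat_lit 21) (nat_lit 5) (nat_lit 23) (nat_lit 5) (nat_lit 22) (nat_lit 5) (nat_lit 325) (nat_lit 302) (nat_lit 153))) (XT.nd (nat_lit 78) (nat_lit 152) (nat_lit 0) (XT.lf (nat_lit 0)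 (nat_lit 66804875997) (nat_lit 152) (nat_lit 121727743895) (nat_lit 76) (nat_lit 123171187562) (nat_lit 21) (nat_lit 5) (nat_lit 23) (nat_lit 5) (nat_lit 22) (nat_lit 5) (nat_lit 326) (nat_lit 302) (nat_lit 152)) (XT.lf (nat_lit 0) (nat_lit 26389987307) (nat_lit 152) (nat_lit 100249799221) (nat_lit 228) (nat_lit 202186070956) (nat_lit 19) (nat_lit 5) (nat_lit 21) (nat_lit 5) (nat_lit 22) (nat_lit 5) (nat_lit 327) (nat_lit 302) (nat_lit 151)))) (XT.nd (nat_lit 156) (nat_lit 76) (nat_lit 0) (XT.nd (nat_lit 78) (nat_lit 76) (nat_lit 0) (XT.lf (nat_lit 0) (nat_lit 193279677072) (nat_lit 152) (nat_lit 1309924913) (nat_lit 228) (nat_lit 152461820766) (nat_lit 19) (nat_lit 5) (nat_lit 21) (nat_lit 5) (nat_lit 22) (nat_lit 5) (nat_lit 328) (nat_lit 302) (nat_lit 150)) (XT.lf (nat_lit 0) (nat_lit 4470564750) (nat_lit 76) (nat_lit 266150586605) (nat_lit 152) (nat_lit 95902222178) (nat_lit 18)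 (nat_lit 5) (nat_lit 19) (nat_lit 5) (nat_lit 20) (nat_lit 4) (nat_lit 329) (nat_lit 302) (nat_lit 149))) (XT.nd (nat_lit 78) (nat_lit 76) (nat_lit 0) (XT.lf (nat_lit 0) (nat_lit 184081368620) (nat_lit 76) (nat_lit 172891283764) (nat_lit 152) (nat_lit 30241433948) (nat_lit 18) (nat_lit 5) (nat_lit 19) (nat_lit 5) (nat_lit 20) (nat_lit 4) (nat_lit 330) (nat_lit 302) (nat_lit 148)) (XT.lf (nat_lit 0) (nat_lit 38637507524) (nat_lit 152) (nat_lit 32477389187) (nat_lit 76) (nat_lit 338366915831) (nat_lit 17) (nat_lit 5) (nat_lit 19) (nat_lit 5) (nat_lit 18) (nat_lit 5) (nat_lit 331) (nat_lit 302) (nat_lit 147))))))) (XT.nd (nat_lit 1248) (nat_lit 304) (nat_lit 0) (XT.nd (nat_lit 624) (nat_lit 228) (nat_lit 0) (XT.nd (nat_lit 312) (nat_lit 228) (nat_lit 0) (XT.nd (nat_lit 156) (nat_lit 76) (nat_lit 0) (XT.nd (nat_lit 78) (nat_lit 0) (nat_lit 0) (XT.lf (nat_lit 0) (nat_lit 116269696294) (nat_lit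 228) (nat_lit 275216731616) (nat_lit 76) (nat_lit 41591549340) (nat_lit 15) (nat_lit 5) (nat_lit 18) (nat_lit 5) (nat_lit 16) (nat_lit 4) (nat_lit 332) (nat_lit 302) (nat_lit 146)) (XT.lf (nat_lit 0) (nat_lit 202870544651) (nat_lit 228) (nat_lit 95087200972) (nat_lit 76) (nat_lit 160383442881) (nat_lit 15) (nat_lit 5) (nat_lit 18) (nat_lit 5) (nat_lit 16) (nat_lit 4) (nat_lit 333) (nat_lit 302) (nat_lit 145))) (XT.nd (nat_lit 78) (nat_lit 0) (nat_lit 0) (XT.lf (nat_lit 0) (nat_lit 104689510140) (nat_lit 76) (nat_lit 194227634377) (nat_lit 152) (nat_lit 186506897566) (nat_lit 14) (nat_lit 5) (nat_lit 15) (nat_lit 5) (nat_lit 16) (nat_lit 4) (nat_lit 334) (nat_lit 302) (nat_lit 144)) (XT.lf (nat_lit 0) (nat_lit 325855880679) (nat_lit 76) (nat_lit 79391346100) (nat_lit 152) (nat_lit 109218316927) (nat_lit 14) (nat_lit 5) (nat_lit 15) (nat_lit 5) (nat_lit 16) (nat_lit 4) (nat_lit 335) (nat_lit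 302) (nat_lit 143)))) (XT.nd (nat_lit 156) (nat_lit 76) (nat_lit 0) (XT.nd (nat_lit 78) (nat_lit 76) (nat_lit 0) (XT.lf (nat_lit 0) (nat_lit 18749563620) (nat_lit 76) (nat_lit 502858383885) (nat_lit 76) (nat_lit 24100479505) (nat_lit 13) (nat_lit 4) (nat_lit 14) (nat_lit 5) (nat_lit 14) (nat_lit 4) (nat_lit 336) (nat_lit 302) (nat_lit 142)) (XT.lf (nat_lit 0) (nat_lit 71786703858) (nat_lit 152) (nat_lit 329441719569) (nat_lit 76) (nat_lit 177503587617) (nat_lit 12) (nat_lit 5) (nat_lit 14) (nat_lit 5) (nat_lit 13) (nat_lit 4) (nat_lit 337) (nat_lit 302) (nat_lit 141))) (XT.nd (nat_lit 78) (nat_lit 76) (nat_lit 0) (XT.lf (nat_lit 0) (nat_lit 174042724892) (nat_lit 152) (nat_lit 116749343238) (nat_lit 76) (nat_lit 323555341642) (nat_lit 12) (nat_lit 5) (nat_lit 14) (nat_lit 5) (nat_lit 13) (nat_lit 4) (nat_lit 338) (nat_lit 302) (nat_lit 140)) (XT.lf (nat_lit 0) (nat_lit 118906464933)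 (nat_lit 76) (nat_lit 168432387206) (nat_lit 152) (nat_lit 365244418372) (nat_lit 11) (nat_lit 5) (nat_lit 12) (nat_lit 5) (nat_lit 13) (nat_lit 4) (nat_lit 339) (nat_lit 302) (nat_lit 139))))) (XT.nd (nat_lit 312) (nat_lit 76) (nat_lit 0) (XT.nd (nat_lit 156) (nat_lit 152) (nat_lit 0) (XT.nd (nat_lit 78) (nat_lit 0) (nat_lit 0) (XT.lf (nat_lit 0) (nat_lit 380054238715) (nat_lit 76) (nat_lit 32836488506) (nat_lit 152) (nat_lit 280731908343) (nat_lit 11) (nat_lit 5) (nat_lit 12) (nat_lit 5) (nat_lit 13) (nat_lit 4) (nat_lit 340) (nat_lit 302) (nat_lit 138)) (XT.lf (nat_lit 0) (nat_lit 551218933367) (nat_lit 152) (nat_lit 78583700273) (nat_lit 0) (nat_lit 107923941761) (nat_lit 11) (nat_lit 5) (nat_lit 13) (nat_lit 4) (nat_lit 11) (nat_lit 4) (nat_lit 341) (nat_lit 302) (nat_lit 137))) (XT.nd (nat_lit 78) (nat_lit 76) (nat_lit 0) (XT.lf (nat_lit 0) (nat_lit 183527545300) (nat_lit 76) (nat_lit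 522352521720) (nat_lit 76) (nat_lit 79057429782) (nat_lit 10) (nat_lit 4) (nat_lit 11) (nat_lit 5) (nat_lit 11) (nat_lit 4) (nat_lit 342) (nat_lit 302) (nat_lit 136)) (XT.lf (nat_lit 0) (nat_lit 37342829454) (nat_lit 152) (nat_lit 365622099573) (nat_lit 76) (nat_lit 432712847654) (nat_lit 9) (nat_lit 5) (nat_lit 11) (nat_lit 5) (nat_lit 10) (nat_lit 4) (nat_lit 343) (nat_lit 302) (nat_lit 135)))) (XT.nd (nat_lit 156) (nat_lit 0) (nat_lit 0) (XT.nd (nat_lit 78) (nat_lit 76) (nat_lit 0) (XT.lf (nat_lit 0) (nat_lit 158783893376) (nat_lit 152) (nat_lit 113024772634) (nat_lit 76) (nat_lit 618504342720) (nat_lit 9) (nat_lit 5) (nat_lit 11) (nat_lit 5) (nat_lit 10) (nat_lit 4) (nat_lit 344) (nat_lit 302) (nat_lit 134)) (XT.lf (nat_lit 0) (nat_lit 168193979492) (nat_lit 76) (nat_lit 125791275313) (nat_lit 152) (nat_lit 655010203589) (nat_lit 8) (nat_lit 5) (nat_lit 9) (nat_lit 5) (nat_lit 10)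 (nat_lit 4) (nat_lit 345) (nat_lit 302) (nat_lit 133))) (XT.nd (nat_lit 78) (nat_lit 0) (nat_lit 0) (XT.lf (nat_lit 0) (nat_lit 443940610258) (nat_lit 152) (nat_lit 534634978905) (nat_lit 0) (nat_lit 33481884100) (nat_lit 8) (nat_lit 5) (nat_lit 10) (nat_lit 4) (nat_lit 8) (nat_lit 4) (nat_lit 346) (nat_lit 302) (nat_lit 132)) (XT.lf (nat_lit 0) (nat_lit 609159647922) (nat_lit 152) (nat_lit 272042562597) (nat_lit 0) (nat_lit 198700858537) (nat_lit 8) (nat_lit 5) (nat_lit 10) (nat_lit 4) (nat_lit 8) (nat_lit 4) (nat_lit 347) (nat_lit 302) (nat_lit 131)))))) (XT.nd (nat_lit 624) (nat_lit 76) (nat_lit 0) (XT.nd (nat_lit 312) (nat_lit 76) (nat_lit 0) (XT.nd (nat_lit 156) (nat_lit 76) (nat_lit 0) (XT.nd (nat_lit 78) (nat_lit 0) (nat_lit 0) (XT.lf (nat_lit 0) (nat_lit 12165735800) (nat_lit 76) (nat_lit 775723010817) (nat_lit 76) (nat_lit 365264162889) (nat_lit 7) (nat_lit 4) (nat_lit 8) (nat_lit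 5) (nat_lit 8) (nat_lit 4) (nat_lit 348) (nat_lit 302) (nat_lit 130)) (XT.lf (nat_lit 0) (nat_lit 334581911358) (nat_lit 76) (nat_lit 653772340840) (nat_lit 76) (nat_lit 243313438706) (nat_lit 7) (nat_lit 4) (nat_lit 8) (nat_lit 5) (nat_lit 8) (nat_lit 4) (nat_lit 349) (nat_lit 302) (nat_lit 129))) (XT.nd (nat_lit 78) (nat_lit 76) (nat_lit 0) (XT.lf (nat_lit 0) (nat_lit 682791299205) (nat_lit 76) (nat_lit 522065655715) (nat_lit 76) (nat_lit 111606703389) (nat_lit 7) (nat_lit 4) (nat_lit 8) (nat_lit 5) (nat_lit 8) (nat_lit 4) (nat_lit 350) (nat_lit 302) (nat_lit 128)) (XT.lf (nat_lit 0) (nat_lit 29103964237) (nat_lit 152) (nat_lit 349922753184) (nat_lit 76) (nat_lit 1028957644182) (nat_lit 6) (nat_lit 5) (nat_lit 8) (nat_lit 5) (nat_lit 7) (nat_lit 4) (nat_lit 351) (nat_lit 302) (nat_lit 127)))) (XT.nd (nat_lit 156) (nat_lit 0) (nat_lit 0) (XT.nd (nat_lit 78) (nat_lit 76) (nat_lit 0)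 (XT.lf (nat_lit 0) (nat_lit 175041786299) (nat_lit 152) (nat_lit 46372126326) (nat_lit 76) (nat_lit 1285180901575) (nat_lit 6) (nat_lit 5) (nat_lit 8) (nat_lit 5) (nat_lit 7) (nat_lit 4) (nat_lit 352) (nat_lit 302) (nat_lit 126)) (XT.lf (nat_lit 0) (nat_lit 296283799506) (nat_lit 76) (nat_lit 43496431829) (nat_lit 152) (nat_lit 1272743823915) (nat_lit 5) (nat_lit 5) (nat_lit 6) (nat_lit 5) (nat_lit 7) (nat_lit 4) (nat_lit 353) (nat_lit 302) (nat_lit 125))) (XT.nd (nat_lit 78) (nat_lit 0) (nat_lit 0) (XT.lf (nat_lit 0) (nat_lit 522573688504) (nat_lit 152) (nat_lit 1061444923087) (nat_lit 0) (nat_lit 142518949092) (nat_lit 5) (nat_lit 5) (nat_lit 7) (nat_lit 4) (nat_lit 5) (nat_lit 4) (nat_lit 354) (nat_lit 302) (nat_lit 124)) (XT.lf (nat_lit 0) (nat_lit 721120367300) (nat_lit 152) (nat_lit 787395803404) (nat_lit 0) (nat_lit 341065596259) (nat_lit 5) (nat_lit 5) (nat_lit 7) (nat_lit 4)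 (nat_lit 5) (nat_lit 4) (nat_lit 355) (nat_lit 302) (nat_lit 123))))) (XT.nd (nat_lit 312) (nat_lit 0) (nat_lit 0) (XT.nd (nat_lit 156) (nat_lit 76) (nat_lit 0) (XT.nd (nat_lit 78) (nat_lit 0) (nat_lit 0) (XT.lf (nat_lit 0) (nat_lit 935550750404) (nat_lit 152) (nat_lit 491422811681) (nat_lit 0) (nat_lit 555495950078) (nat_lit 5) (nat_lit 5) (nat_lit 7) (nat_lit 4) (nat_lit 5) (nat_lit 4) (nat_lit 356) (nat_lit 302) (nat_lit 122)) (XT.lf (nat_lit 0) (nat_lit 1167135536384) (nat_lit 152) (nat_lit 171772033892) (nat_lit 0) (nat_lit 787080708940) (nat_lit 5) (nat_lit 5) (nat_lit 7) (nat_lit 4) (nat_lit 5) (nat_lit 4) (nat_lit 357) (nat_lit 302) (nat_lit 121))) (XT.nd (nat_lit 78) (nat_lit 0) (nat_lit 0) (XT.lf (nat_lit 0) (nat_lit 182584366263) (nat_lit 76) (nat_lit 1239053871661) (nat_lit 76) (nat_lit 858999019110) (nat_lit 4) (nat_lit 4) (nat_lit 5) (nat_lit 5) (nat_lit 5) (nat_lit 4)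 (nat_lit 358) (nat_lit 302) (nat_lit 120)) (XT.lf (nat_lit 0) (nat_lit 575058058125) (nat_lit 76) (nat_lit 1126139624309) (nat_lit 76) (nat_lit 746084748509) (nat_lit 4) (nat_lit 4) (nat_lit 5) (nat_lit 5) (nat_lit 5) (nat_lit 4) (nat_lit 359) (nat_lit 302) (nat_lit 119)))) (XT.nd (nat_lit 156) (nat_lit 0) (nat_lit 0) (XT.nd (nat_lit 78) (nat_lit 0) (nat_lit 0) (XT.lf (nat_lit 0) (nat_lit 998929600820) (nat_lit 76) (nat_lit 1004192258567) (nat_lit 76) (nat_lit 624137361241) (nat_lit 4) (nat_lit 4) (nat_lit 5) (nat_lit 5) (nat_lit 5) (nat_lit 4) (nat_lit 360) (nat_lit 302) (nat_lit 118)) (XT.lf (nat_lit 0) (nat_lit 1456710825711) (nat_lit 76) (nat_lit 872489123379) (nat_lit 76) (nat_lit 492434206122) (nat_lit 4) (nat_lit 4) (nat_lit 5) (nat_lit 5) (nat_lit 5) (nat_lit 4) (nat_lit 361) (nat_lit 302) (nat_lit 117))) (XT.nd (nat_lit 78) (nat_lit 0) (nat_lit 0) (XT.lf (nat_lit 0) (nat_lit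 1951114510427) (nat_lit 76) (nat_lit 730249755721) (nat_lit 76) (nat_lit 350194820009) (nat_lit 4) (nat_lit 4) (nat_lit 5) (nat_lit 5) (nat_lit 5) (nat_lit 4) (nat_lit 362) (nat_lit 302) (nat_lit 116)) (XT.lf (nat_lit 0) (nat_lit 2485070454582) (nat_lit 76) (nat_lit 576631255638) (nat_lit 76) (nat_lit 196576302837) (nat_lit 4) (nat_lit 4) (nat_lit 5) (nat_lit 5) (nat_lit 5) (nat_lit 4) (nat_lit 363) (nat_lit 302) (nat_lit 115))))))))
noncomputable def xc109 : XT := (XT.nd (nat_lit 2418) (nat_lit 836) (nat_lit 0) (XT.nd (nat_lit 1170) (nat_lit 1292) (nat_lit 0) (XT.nd (nat_lit 546) (nat_lit 988) (nat_lit 0) (XT.nd (nat_lit 234) (nat_lit 0) (nat_lit 76) (XT.nd (nat_lit 78) (nat_lit 0) (nat_lit 0) (XT.lf (nat_lit 0) (nat_lit 35974406087) (nat_lit 532) (nat_lit 9951996244) (nat_lit 532) (nat_lit 9951996244) (nat_lit 45) (nat_lit 3) (nat_lit 52) (nat_lit 3) (nat_lit 52) (nat_lit 5) (nat_lit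 303) (nat_lit 303) (nat_lit 174)) (XT.nd (nat_lit 78) (nat_lit 0) (nat_lit 76) (XT.lf (nat_lit 76) (nat_lit 33036976284) (nat_lit 0) (nat_lit 42589125046) (nat_lit 532) (nat_lit 40537006971) (nat_lit 46) (nat_lit 5) (nat_lit 45) (nat_lit 3) (nat_lit 52) (nat_lit 5) (nat_lit 304) (nat_lit 303) (nat_lit 173)) (XT.lf (nat_lit 0) (nat_lit 80410744648) (nat_lit 456) (nat_lit 29802968143) (nat_lit 532) (nat_lit 10643159251) (nat_lit 46) (nat_lit 5) (nat_lit 52) (nat_lit 5) (nat_lit 53) (nat_lit 5) (nat_lit 305) (nat_lit 303) (nat_lit 172)))) (XT.nd (nat_lit 156) (nat_lit 0) (nat_lit 76) (XT.nd (nat_lit 78) (nat_lit 0) (nat_lit 0) (XT.lf (nat_lit 76) (nat_lit 28084439919) (nat_lit 0) (nat_lit 59274916316) (nat_lit 532) (nat_lit 38424286181) (nat_lit 47) (nat_lit 5) (nat_lit 46) (nat_lit 5) (nat_lit 53) (nat_lit 5) (nat_lit 306) (nat_lit 303) (nat_lit 171)) (XT.lf (nat_lit 76) (nat_lit 92297474001)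 (nat_lit 0) (nat_lit 3380829114) (nat_lit 532) (nat_lit 35361096781) (nat_lit 47) (nat_lit 5) (nat_lit 46) (nat_lit 5) (nat_lit 53) (nat_lit 5) (nat_lit 307) (nat_lit 303) (nat_lit 170))) (XT.nd (nat_lit 78) (nat_lit 0) (nat_lit 0) (XT.lf (nat_lit 76) (nat_lit 24801833941) (nat_lit 0) (nat_lit 81827516373) (nat_lit 532) (nat_lit 29928941989) (nat_lit 48) (nat_lit 5) (nat_lit 47) (nat_lit 5) (nat_lit 54) (nat_lit 5) (nat_lit 308) (nat_lit 303) (nat_lit 169)) (XT.lf (nat_lit 76) (nat_lit 95539650374) (nat_lit 0) (nat_lit 24061330345) (nat_lit 532) (nat_lit 22826156446) (nat_lit 48) (nat_lit 5) (nat_lit 47) (nat_lit 5) (nat_lit 54) (nat_lit 5) (nat_lit 309) (nat_lit 303) (nat_lit 168))))) (XT.nd (nat_lit 312) (nat_lit 456) (nat_lit 0) (XT.nd (nat_lit 156) (nat_lit 304) (nat_lit 0) (XT.nd (nat_lit 78) (nat_lit 0) (nat_lit 0) (XT.lf (nat_lit 0) (nat_lit 23420546573) (nat_lit 456) (nat_lit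 111674468973) (nat_lit 532) (nat_lit 13551701091) (nat_lit 42) (nat_lit 5) (nat_lit 48) (nat_lit 5) (nat_lit 49) (nat_lit 5) (nat_lit 310) (nat_lit 303) (nat_lit 167)) (XT.lf (nat_lit 0) (nat_lit 101361582072) (nat_lit 456) (nat_lit 52357807894) (nat_lit 532) (nat_lit 1493208025) (nat_lit 42) (nat_lit 5) (nat_lit 48) (nat_lit 5) (nat_lit 49) (nat_lit 5) (nat_lit 311) (nat_lit 303) (nat_lit 166))) (XT.nd (nat_lit 78) (nat_lit 0) (nat_lit 0) (XT.lf (nat_lit 0) (nat_lit 11837849530) (nat_lit 304) (nat_lit 138373463406) (nat_lit 76) (nat_lit 11999481144) (nat_lit 38) (nat_lit 5) (nat_lit 42) (nat_lit 5) (nat_lit 39) (nat_lit 5) (nat_lit 312) (nat_lit 303) (nat_lit 165)) (XT.lf (nat_lit 0) (nat_lit 29025001764) (nat_lit 304) (nat_lit 60285032083) (nat_lit 76) (nat_lit 80226087363) (nat_lit 38) (nat_lit 5) (nat_lit 42) (nat_lit 5) (nat_lit 39) (nat_lit 5) (nat_lit 313) (nat_lit 303) (nat_lit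 164)))) (XT.nd (nat_lit 156) (nat_lit 228) (nat_lit 0) (XT.nd (nat_lit 78) (nat_lit 0) (nat_lit 0) (XT.lf (nat_lit 0) (nat_lit 25316631393) (nat_lit 228) (nat_lit 22879094755) (nat_lit 304) (nat_lit 129203061004) (nat_lit 35) (nat_lit 5) (nat_lit 38) (nat_lit 5) (nat_lit 39) (nat_lit 5) (nat_lit 314) (nat_lit 303) (nat_lit 163)) (XT.lf (nat_lit 0) (nat_lit 71766204101) (nat_lit 304) (nat_lit 65782056270) (nat_lit 76) (nat_lit 48112918942) (nat_lit 35) (nat_lit 5) (nat_lit 39) (nat_lit 5) (nat_lit 36) (nat_lit 5) (nat_lit 315) (nat_lit 303) (nat_lit 162))) (XT.nd (nat_lit 78) (nat_lit 0) (nat_lit 0) (XT.lf (nat_lit 0) (nat_lit 28240204419) (nat_lit 228) (nat_lit 70255321288) (nat_lit 304) (nat_lit 95987181254) (nat_lit 32) (nat_lit 5) (nat_lit 35) (nat_lit 5) (nat_lit 36) (nat_lit 5) (nat_lit 316) (nat_lit 303) (nat_lit 161)) (XT.lf (nat_lit 0) (nat_lit 129266509762) (nat_lit 304) (nat_lit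 70445966757) (nat_lit 76) (nat_lit 4145215474) (nat_lit 32) (nat_lit 5) (nat_lit 36) (nat_lit 5) (nat_lit 33) (nat_lit 5) (nat_lit 317) (nat_lit 303) (nat_lit 160)))))) (XT.nd (nat_lit 624) (nat_lit 608) (nat_lit 0) (XT.nd (nat_lit 312) (nat_lit 304) (nat_lit 0) (XT.nd (nat_lit 156) (nat_lit 228) (nat_lit 0) (XT.nd (nat_lit 78) (nat_lit 0) (nat_lit 0) (XT.lf (nat_lit 0) (nat_lit 32831583852) (nat_lit 152) (nat_lit 132281794749) (nat_lit 228) (nat_lit 48660161210) (nat_lit 30) (nat_lit 5) (nat_lit 32) (nat_lit 5) (nat_lit 33) (nat_lit 5) (nat_lit 318) (nat_lit 303) (nat_lit 159)) (XT.lf (nat_lit 0) (nat_lit 148377406436) (nat_lit 152) (nat_lit 57376509452) (nat_lit 228) (nat_lit 18574666488) (nat_lit 30) (nat_lit 5) (nat_lit 32) (nat_lit 5) (nat_lit 33) (nat_lit 5) (nat_lit 319) (nat_lit 303) (nat_lit 158))) (XT.nd (nat_lit 78) (nat_lit 0) (nat_lit 0) (XT.lf (nat_lit 0) (nat_lit 14759376247)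 (nat_lit 228) (nat_lit 197167171702) (nat_lit 76) (nat_lit 23651669024) (nat_lit 27) (nat_lit 5) (nat_lit 30) (nat_lit 5) (nat_lit 28) (nat_lit 5) (nat_lit 320) (nat_lit 303) (nat_lit 157)) (XT.lf (nat_lit 0) (nat_lit 53377322994) (nat_lit 228) (nat_lit 83346987840) (nat_lit 76) (nat_lit 110675259540) (nat_lit 27) (nat_lit 5) (nat_lit 30) (nat_lit 5) (nat_lit 28) (nat_lit 5) (nat_lit 321) (nat_lit 303) (nat_lit 156)))) (XT.nd (nat_lit 156) (nat_lit 152) (nat_lit 0) (XT.nd (nat_lit 78) (nat_lit 0) (nat_lit 0) (XT.lf (nat_lit 0) (nat_lit 41662712195) (nat_lit 152) (nat_lit 54423813673) (nat_lit 228) (nat_lit 163999960866) (nat_lit 25) (nat_lit 5) (nat_lit 27) (nat_lit 5) (nat_lit 28) (nat_lit 5) (nat_lit 322) (nat_lit 303) (nat_lit 155)) (XT.lf (nat_lit 0) (nat_lit 145379128059) (nat_lit 228) (nat_lit 93081056775) (nat_lit 76) (nat_lit 35074838819) (nat_lit 25) (nat_lit 5) (nat_lit 28)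 (nat_lit 5) (nat_lit 26) (nat_lit 5) (nat_lit 323) (nat_lit 303) (nat_lit 154))) (XT.nd (nat_lit 78) (nat_lit 0) (nat_lit 0) (XT.lf (nat_lit 0) (nat_lit 43027667185) (nat_lit 152) (nat_lit 158035741820) (nat_lit 228) (nat_lit 86800173149) (nat_lit 23) (nat_lit 5) (nat_lit 25) (nat_lit 5) (nat_lit 26) (nat_lit 5) (nat_lit 324) (nat_lit 303) (nat_lit 153)) (XT.lf (nat_lit 0) (nat_lit 195318473054) (nat_lit 152) (nat_lit 68428814985) (nat_lit 228) (nat_lit 39387549098) (nat_lit 23) (nat_lit 5) (nat_lit 25) (nat_lit 5) (nat_lit 26) (nat_lit 5) (nat_lit 325) (nat_lit 303) (nat_lit 152))))) (XT.nd (nat_lit 312) (nat_lit 304) (nat_lit 0) (XT.nd (nat_lit 156) (nat_lit 152) (nat_lit 0) (XT.nd (nat_lit 78) (nat_lit 0) (nat_lit 0) (XT.lf (nat_lit 0) (nat_lit 12951729153) (nat_lit 152) (nat_lit 278259295513) (nat_lit 76) (nat_lit 28256043436) (nat_lit 21) (nat_lit 5) (nat_lit 23) (nat_lit 5) (nat_lit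 22) (nat_lit 5) (nat_lit 326) (nat_lit 303) (nat_lit 151)) (XT.lf (nat_lit 0) (nat_lit 72151895070) (nat_lit 152) (nat_lit 131461800929) (nat_lit 76) (nat_lit 133026201799) (nat_lit 21) (nat_lit 5) (nat_lit 23) (nat_lit 5) (nat_lit 22) (nat_lit 5) (nat_lit 327) (nat_lit 303) (nat_lit 150))) (XT.nd (nat_lit 78) (nat_lit 0) (nat_lit 0) (XT.lf (nat_lit 0) (nat_lit 28505243390) (nat_lit 152) (nat_lit 108268257886) (nat_lit 228) (nat_lit 218358218618) (nat_lit 19) (nat_lit 5) (nat_lit 21) (nat_lit 5) (nat_lit 22) (nat_lit 5) (nat_lit 328) (nat_lit 303) (nat_lit 149)) (XT.lf (nat_lit 0) (nat_lit 208745807811) (nat_lit 152) (nat_lit 1413306616) (nat_lit 228) (nat_lit 164656231229) (nat_lit 19) (nat_lit 5) (nat_lit 21) (nat_lit 5) (nat_lit 22) (nat_lit 5) (nat_lit 329) (nat_lit 303) (nat_lit 148)))) (XT.nd (nat_lit 156) (nat_lit 228) (nat_lit 0) (XT.nd (nat_lit 78) (nat_lit 0) (nat_lit 0) (XT.lf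 (nat_lit 0) (nat_lit 4832024376) (nat_lit 76) (nat_lit 287441112907) (nat_lit 152) (nat_lit 103571919504) (nat_lit 18) (nat_lit 5) (nat_lit 19) (nat_lit 5) (nat_lit 20) (nat_lit 4) (nat_lit 330) (nat_lit 303) (nat_lit 147)) (XT.lf (nat_lit 0) (nat_lit 198811410004) (nat_lit 76) (nat_lit 186721178478) (nat_lit 152) (nat_lit 32658451953) (nat_lit 18) (nat_lit 5) (nat_lit 19) (nat_lit 5) (nat_lit 20) (nat_lit 4) (nat_lit 331) (nat_lit 303) (nat_lit 146))) (XT.nd (nat_lit 78) (nat_lit 152) (nat_lit 0) (XT.lf (nat_lit 0) (nat_lit 41730528330) (nat_lit 152) (nat_lit 35072201190) (nat_lit 76) (nat_lit 365437463930) (nat_lit 17) (nat_lit 5) (nat_lit 19) (nat_lit 5) (nat_lit 18) (nat_lit 5) (nat_lit 332) (nat_lit 303) (nat_lit 145)) (XT.lf (nat_lit 0) (nat_lit 125573254086) (nat_lit 228) (nat_lit 297230650603) (nat_lit 76) (nat_lit 44920149879) (nat_lit 15) (nat_lit 5) (nat_lit 18) (nat_lit 5)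 (nat_lit 16) (nat_lit 4) (nat_lit 333) (nat_lit 303) (nat_lit 144))))))) (XT.nd (nat_lit 1248) (nat_lit 228) (nat_lit 0) (XT.nd (nat_lit 624) (nat_lit 304) (nat_lit 0) (XT.nd (nat_lit 312) (nat_lit 152) (nat_lit 0) (XT.nd (nat_lit 156) (nat_lit 76) (nat_lit 0) (XT.nd (nat_lit 78) (nat_lit 76) (nat_lit 0) (XT.lf (nat_lit 0) (nat_lit 219102023491) (nat_lit 228) (nat_lit 102691010807) (nat_lit 76) (nat_lit 173215300340) (nat_lit 15) (nat_lit 5) (nat_lit 18) (nat_lit 5) (nat_lit 16) (nat_lit 4) (nat_lit 334) (nat_lit 303) (nat_lit 143)) (XT.lf (nat_lit 0) (nat_lit 113067757037) (nat_lit 76) (nat_lit 209764532584) (nat_lit 152) (nat_lit 201425531978) (nat_lit 14) (nat_lit 5) (nat_lit 15) (nat_lit 5) (nat_lit 16) (nat_lit 4) (nat_lit 335) (nat_lit 303) (nat_lit 142))) (XT.nd (nat_lit 78) (nat_lit 76) (nat_lit 0) (XT.lf (nat_lit 0) (nat_lit 351927208620) (nat_lit 76) (nat_lit 85741438470) (nat_lit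 152) (nat_lit 117954006917) (nat_lit 14) (nat_lit 5) (nat_lit 15) (nat_lit 5) (nat_lit 16) (nat_lit 4) (nat_lit 336) (nat_lit 303) (nat_lit 141)) (XT.lf (nat_lit 0) (nat_lit 20252415189) (nat_lit 76) (nat_lit 543085785125) (nat_lit 76) (nat_lit 26026769807) (nat_lit 13) (nat_lit 4) (nat_lit 14) (nat_lit 5) (nat_lit 14) (nat_lit 4) (nat_lit 337) (nat_lit 303) (nat_lit 140)))) (XT.nd (nat_lit 156) (nat_lit 76) (nat_lit 0) (XT.nd (nat_lit 78) (nat_lit 0) (nat_lit 0) (XT.lf (nat_lit 0) (nat_lit 77531177771) (nat_lit 152) (nat_lit 355794302055) (nat_lit 76) (nat_lit 191704967647) (nat_lit 12) (nat_lit 5) (nat_lit 14) (nat_lit 5) (nat_lit 13) (nat_lit 4) (nat_lit 338) (nat_lit 303) (nat_lit 139)) (XT.lf (nat_lit 0) (nat_lit 187967566592) (nat_lit 152) (nat_lit 126086739697) (nat_lit 76) (nat_lit 349440781030) (nat_lit 12) (nat_lit 5) (nat_lit 14) (nat_lit 5) (nat_lit 13) (nat_lit 4) (nat_lit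 339) (nat_lit 303) (nat_lit 138))) (XT.nd (nat_lit 78) (nat_lit 0) (nat_lit 0) (XT.lf (nat_lit 0) (nat_lit 128421468545) (nat_lit 76) (nat_lit 181905869811) (nat_lit 152) (nat_lit 394462482312) (nat_lit 11) (nat_lit 5) (nat_lit 12) (nat_lit 5) (nat_lit 13) (nat_lit 4) (nat_lit 340) (nat_lit 303) (nat_lit 137)) (XT.lf (nat_lit 0) (nat_lit 410460880051) (nat_lit 76) (nat_lit 35462381316) (nat_lit 152) (nat_lit 303189081816) (nat_lit 11) (nat_lit 5) (nat_lit 12) (nat_lit 5) (nat_lit 13) (nat_lit 4) (nat_lit 341) (nat_lit 303) (nat_lit 136))))) (XT.nd (nat_lit 312) (nat_lit 152) (nat_lit 0) (XT.nd (nat_lit 156) (nat_lit 76) (nat_lit 0) (XT.nd (nat_lit 78) (nat_lit 76) (nat_lit 0) (XT.lf (nat_lit 0) (nat_lit 595317652343) (nat_lit 152) (nat_lit 84868191866) (nat_lit 0) (nat_lit 116558759817) (nat_lit 11) (nat_lit 5) (nat_lit 13) (nat_lit 4) (nat_lit 11) (nat_lit 4) (nat_lit 342) (nat_lit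 303) (nat_lit 135)) (XT.lf (nat_lit 0) (nat_lit 198211897544) (nat_lit 76) (nat_lit 564139741610) (nat_lit 76) (nat_lit 85380763066) (nat_lit 10) (nat_lit 4) (nat_lit 11) (nat_lit 5) (nat_lit 11) (nat_lit 4) (nat_lit 343) (nat_lit 303) (nat_lit 134))) (XT.nd (nat_lit 78) (nat_lit 0) (nat_lit 0) (XT.lf (nat_lit 0) (nat_lit 40331365082) (nat_lit 152) (nat_lit 394869818819) (nat_lit 76) (nat_lit 467330725328) (nat_lit 9) (nat_lit 5) (nat_lit 11) (nat_lit 5) (nat_lit 10) (nat_lit 4) (nat_lit 344) (nat_lit 303) (nat_lit 133)) (XT.lf (nat_lit 0) (nat_lit 171487631949) (nat_lit 152) (nat_lit 122064857482) (nat_lit 76) (nat_lit 667985477046) (nat_lit 9) (nat_lit 5) (nat_lit 11) (nat_lit 5) (nat_lit 10) (nat_lit 4) (nat_lit 345) (nat_lit 303) (nat_lit 132)))) (XT.nd (nat_lit 156) (nat_lit 76) (nat_lit 0) (XT.nd (nat_lit 78) (nat_lit 0) (nat_lit 0) (XT.lf (nat_lit 0) (nat_lit 181651346789) (nat_lit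 76) (nat_lit 135853723889) (nat_lit 152) (nat_lit 707409944025) (nat_lit 8) (nat_lit 5) (nat_lit 9) (nat_lit 5) (nat_lit 10) (nat_lit 4) (nat_lit 346) (nat_lit 303) (nat_lit 131)) (XT.lf (nat_lit 0) (nat_lit 479456799833) (nat_lit 152) (nat_lit 577404009833) (nat_lit 0) (nat_lit 36161185528) (nat_lit 8) (nat_lit 5) (nat_lit 10) (nat_lit 4) (nat_lit 8) (nat_lit 4) (nat_lit 347) (nat_lit 303) (nat_lit 130))) (XT.nd (nat_lit 78) (nat_lit 76) (nat_lit 0) (XT.lf (nat_lit 0) (nat_lit 657893290824) (nat_lit 152) (nat_lit 293804331138) (nat_lit 0) (nat_lit 214597622313) (nat_lit 8) (nat_lit 5) (nat_lit 10) (nat_lit 4) (nat_lit 8) (nat_lit 4) (nat_lit 348) (nat_lit 303) (nat_lit 129)) (XT.lf (nat_lit 0) (nat_lit 13140589702) (nat_lit 76) (nat_lit 837780101550) (nat_lit 76) (nat_lit 394484382848) (nat_lit 7) (nat_lit 4) (nat_lit 8) (nat_lit 5) (nat_lit 8) (nat_lit 4) (nat_lit 349) (nat_lit 303)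 (nat_lit 128)))))) (XT.nd (nat_lit 624) (nat_lit 76) (nat_lit 0) (XT.nd (nat_lit 312) (nat_lit 76) (nat_lit 0) (XT.nd (nat_lit 156) (nat_lit 76) (nat_lit 0) (XT.nd (nat_lit 78) (nat_lit 0) (nat_lit 0) (XT.lf (nat_lit 0) (nat_lit 361349941154) (nat_lit 76) (nat_lit 706073433541) (nat_lit 76) (nat_lit 262777668365) (nat_lit 7) (nat_lit 4) (nat_lit 8) (nat_lit 5) (nat_lit 8) (nat_lit 4) (nat_lit 350) (nat_lit 303) (nat_lit 127)) (XT.lf (nat_lit 0) (nat_lit 737415970629) (nat_lit 76) (nat_lit 563830265055) (nat_lit 76) (nat_lit 120534456848) (nat_lit 7) (nat_lit 4) (nat_lit 8) (nat_lit 5) (nat_lit 8) (nat_lit 4) (nat_lit 351) (nat_lit 303) (nat_lit 126))) (XT.nd (nat_lit 78) (nat_lit 0) (nat_lit 0) (XT.lf (nat_lit 0) (nat_lit 31432969944) (nat_lit 152) (nat_lit 377915270565) (nat_lit 76) (nat_lit 1111274814515) (nat_lit 6) (nat_lit 5) (nat_lit 8) (nat_lit 5) (nat_lit 7) (nat_lit 4) (nat_lit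 352) (nat_lit 303) (nat_lit 125)) (XT.lf (nat_lit 0) (nat_lit 189045766766) (nat_lit 152) (nat_lit 50080690068) (nat_lit 76) (nat_lit 1387995891107) (nat_lit 6) (nat_lit 5) (nat_lit 8) (nat_lit 5) (nat_lit 7) (nat_lit 4) (nat_lit 353) (nat_lit 303) (nat_lit 124)))) (XT.nd (nat_lit 156) (nat_lit 0) (nat_lit 0) (XT.nd (nat_lit 78) (nat_lit 0) (nat_lit 0) (XT.lf (nat_lit 0) (nat_lit 319987679290) (nat_lit 76) (nat_lit 46975589166) (nat_lit 152) (nat_lit 1374562661363) (nat_lit 5) (nat_lit 5) (nat_lit 6) (nat_lit 5) (nat_lit 7) (nat_lit 4) (nat_lit 354) (nat_lit 303) (nat_lit 123)) (XT.lf (nat_lit 0) (nat_lit 564380168783) (nat_lit 152) (nat_lit 1146359394458) (nat_lit 0) (nat_lit 153920955144) (nat_lit 5) (nat_lit 5) (nat_lit 7) (nat_lit 4) (nat_lit 5) (nat_lit 4) (nat_lit 355) (nat_lit 303) (nat_lit 122))) (XT.nd (nat_lit 78) (nat_lit 0) (nat_lit 0) (XT.lf (nat_lit 0) (nat_lit 778810538535)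 (nat_lit 152) (nat_lit 850386428347) (nat_lit 0) (nat_lit 368351297780) (nat_lit 5) (nat_lit 5) (nat_lit 7) (nat_lit 4) (nat_lit 5) (nat_lit 4) (nat_lit 356) (nat_lit 303) (nat_lit 121)) (XT.lf (nat_lit 0) (nat_lit 1010395312151) (nat_lit 152) (nat_lit 530735674273) (nat_lit 0) (nat_lit 599936046287) (nat_lit 5) (nat_lit 5) (nat_lit 7) (nat_lit 4) (nat_lit 5) (nat_lit 4) (nat_lit 357) (nat_lit 303) (nat_lit 120))))) (XT.nd (nat_lit 312) (nat_lit 0) (nat_lit 0) (XT.nd (nat_lit 156) (nat_lit 0) (nat_lit 0) (XT.nd (nat_lit 78) (nat_lit 76) (nat_lit 0) (XT.lf (nat_lit 0) (nat_lit 1260506843845) (nat_lit 152) (nat_lit 185512905546) (nat_lit 0) (nat_lit 850047554733) (nat_lit 5) (nat_lit 5) (nat_lit 7) (nat_lit 4) (nat_lit 5) (nat_lit 4) (nat_lit 358) (nat_lit 303) (nat_lit 119)) (XT.lf (nat_lit 0) (nat_lit 197191984063) (nat_lit 76) (nat_lit 1338177763922) (nat_lit 76) (nat_lit 927718453284)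 (nat_lit 4) (nat_lit 4) (nat_lit 5) (nat_lit 5) (nat_lit 5) (nat_lit 4) (nat_lit 359) (nat_lit 303) (nat_lit 118))) (XT.nd (nat_lit 78) (nat_lit 0) (nat_lit 0) (XT.lf (nat_lit 0) (nat_lit 621063506941) (nat_lit 76) (nat_lit 1216230407705) (nat_lit 76) (nat_lit 805771077136) (nat_lit 4) (nat_lit 4) (nat_lit 5) (nat_lit 5) (nat_lit 5) (nat_lit 4) (nat_lit 360) (nat_lit 303) (nat_lit 117)) (XT.lf (nat_lit 0) (nat_lit 1078844713483) (nat_lit 76) (nat_lit 1084527281337) (nat_lit 76) (nat_lit 674067932312) (nat_lit 4) (nat_lit 4) (nat_lit 5) (nat_lit 5) (nat_lit 5) (nat_lit 4) (nat_lit 361) (nat_lit 303) (nat_lit 116)))) (XT.nd (nat_lit 36114) (nat_lit 0) (nat_lit 3116) (XT.nd (nat_lit 78) (nat_lit 0) (nat_lit 0) (XT.lf (nat_lit 0) (nat_lit 1573248381210) (nat_lit 76) (nat_lit 942287921846) (nat_lit 76) (nat_lit 531828555733) (nat_lit 4) (nat_lit 4) (nat_lit 5) (nat_lit 5) (nat_lit 5) (nat_lit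 4) (nat_lit 362) (nat_lit 303) (nat_lit 115)) (XT.lf (nat_lit 0) (nat_lit 2107204309634) (nat_lit 76) (nat_lit 788669429324) (nat_lit 76) (nat_lit 378210047389) (nat_lit 4) (nat_lit 4) (nat_lit 5) (nat_lit 5) (nat_lit 5) (nat_lit 4) (nat_lit 363) (nat_lit 303) (nat_lit 114))) (XT.nd (nat_lit 78) (nat_lit 0) (nat_lit 0) (XT.lf (nat_lit 0) (nat_lit 38857039811) (nat_lit 532) (nat_lit 10745621340) (nat_lit 532) (nat_lit 10745621340) (nat_lit 45) (nat_lit 3) (nat_lit 52) (nat_lit 3) (nat_lit 52) (nat_lit 5) (nat_lit 304) (nat_lit 304) (nat_lit 172)) (XT.lf (nat_lit 76) (nat_lit 35684875258) (nat_lit 0) (nat_lit 46000101963) (nat_lit 532) (nat_lit 43770451776) (nat_lit 46) (nat_lit 5) (nat_lit 45) (nat_lit 3) (nat_lit 52) (nat_lit 5) (nat_lit 305) (nat_lit 304) (nat_lit 171))))))))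
noncomputable def xc110 : XT := (XT.nd (nat_lit 2418) (nat_lit 760) (nat_lit 0) (XT.nd (nat_lit 1170) (nat_lit 1216) (nat_lit 0) (XT.nd (nat_lit 546) (nat_lit 912) (nat_lit 0) (XT.nd (nat_lit 234) (nat_lit 304) (nat_lit 0) (XT.nd (nat_lit 78) (nat_lit 0) (nat_lit 0) (XT.lf (nat_lit 0) (nat_lit 86851655393) (nat_lit 456) (nat_lit 32181871004) (nat_lit 532) (nat_lit 11491228217) (nat_lit 46) (nat_lit 5) (nat_lit 52) (nat_lit 5) (nat_lit 53) (nat_lit 5) (nat_lit 306) (nat_lit 304) (nat_lit 170)) (XT.nd (nat_lit 78) (nat_lit 0) (nat_lit 0) (XT.lf (nat_lit 76) (nat_lit 30336394650) (nat_lit 0) (nat_lit 64019289923) (nat_lit 532) (nat_lit 41490021464) (nat_lit 47) (nat_lit 5) (nat_lit 46) (nat_lit 5) (nat_lit 53) (nat_lit 5) (nat_lit 307) (nat_lit 304) (nat_lit 169)) (XT.lf (nat_lit 76) (nat_lit 99686086307) (nat_lit 0) (nat_lit 3653499425) (nat_lit 532) (nat_lit 38182384883) (nat_lit 47)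 (nat_lit 5) (nat_lit 46) (nat_lit 5) (nat_lit 53) (nat_lit 5) (nat_lit 308) (nat_lit 304) (nat_lit 168)))) (XT.nd (nat_lit 156) (nat_lit 380) (nat_lit 0) (XT.nd (nat_lit 78) (nat_lit 0) (nat_lit 0) (XT.lf (nat_lit 76) (nat_lit 26791291380) (nat_lit 0) (nat_lit 88374984093) (nat_lit 532) (nat_lit 32316135709) (nat_lit 48) (nat_lit 5) (nat_lit 47) (nat_lit 5) (nat_lit 54) (nat_lit 5) (nat_lit 309) (nat_lit 304) (nat_lit 167)) (XT.lf (nat_lit 76) (nat_lit 103187739740) (nat_lit 0) (nat_lit 25987409375) (nat_lit 532) (nat_lit 24645654852) (nat_lit 48) (nat_lit 5) (nat_lit 47) (nat_lit 5) (nat_lit 54) (nat_lit 5) (nat_lit 310) (nat_lit 304) (nat_lit 166))) (XT.nd (nat_lit 78) (nat_lit 0) (nat_lit 0) (XT.lf (nat_lit 0) (nat_lit 25299502041) (nat_lit 456) (nat_lit 120608855216) (nat_lit 532) (nat_lit 14629621754) (nat_lit 42) (nat_lit 5) (nat_lit 48) (nat_lit 5) (nat_lit 49) (nat_lit 5) (nat_lit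 311) (nat_lit 304) (nat_lit 165)) (XT.lf (nat_lit 0) (nat_lit 109475426917) (nat_lit 456) (nat_lit 56546829493) (nat_lit 532) (nat_lit 1606909645) (nat_lit 42) (nat_lit 5) (nat_lit 48) (nat_lit 5) (nat_lit 49) (nat_lit 5) (nat_lit 312) (nat_lit 304) (nat_lit 164))))) (XT.nd (nat_lit 312) (nat_lit 380) (nat_lit 0) (XT.nd (nat_lit 156) (nat_lit 228) (nat_lit 0) (XT.nd (nat_lit 78) (nat_lit 0) (nat_lit 0) (XT.lf (nat_lit 0) (nat_lit 12790059674) (nat_lit 304) (nat_lit 149437823402) (nat_lit 76) (nat_lit 12959347477) (nat_lit 38) (nat_lit 5) (nat_lit 42) (nat_lit 5) (nat_lit 39) (nat_lit 5) (nat_lit 313) (nat_lit 304) (nat_lit 163)) (XT.lf (nat_lit 0) (nat_lit 31351800221) (nat_lit 304) (nat_lit 65102726246) (nat_lit 76) (nat_lit 86644089020) (nat_lit 38) (nat_lit 5) (nat_lit 42) (nat_lit 5) (nat_lit 39) (nat_lit 5) (nat_lit 314) (nat_lit 304) (nat_lit 162))) (XT.nd (nat_lit 78) (nat_lit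 0) (nat_lit 0) (XT.lf (nat_lit 0) (nat_lit 27346940981) (nat_lit 228) (nat_lit 24709005891) (nat_lit 304) (nat_lit 139534367543) (nat_lit 35) (nat_lit 5) (nat_lit 38) (nat_lit 5) (nat_lit 39) (nat_lit 5) (nat_lit 315) (nat_lit 304) (nat_lit 161)) (XT.lf (nat_lit 0) (nat_lit 77511734363) (nat_lit 304) (nat_lit 71039671910) (nat_lit 76) (nat_lit 51962318765) (nat_lit 35) (nat_lit 5) (nat_lit 39) (nat_lit 5) (nat_lit 36) (nat_lit 5) (nat_lit 316) (nat_lit 304) (nat_lit 160)))) (XT.nd (nat_lit 156) (nat_lit 152) (nat_lit 0) (XT.nd (nat_lit 78) (nat_lit 0) (nat_lit 0) (XT.lf (nat_lit 0) (nat_lit 30504244347) (nat_lit 228) (nat_lit 75874959733) (nat_lit 304) (nat_lit 103661787362) (nat_lit 32) (nat_lit 5) (nat_lit 35) (nat_lit 5) (nat_lit 36) (nat_lit 5) (nat_lit 317) (nat_lit 304) (nat_lit 159)) (XT.lf (nat_lit 0) (nat_lit 139611585403) (nat_lit 304) (nat_lit 76076887877) (nat_lit 76) (nat_lit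 4477525190) (nat_lit 32) (nat_lit 5) (nat_lit 36) (nat_lit 5) (nat_lit 33) (nat_lit 5) (nat_lit 318) (nat_lit 304) (nat_lit 158))) (XT.nd (nat_lit 78) (nat_lit 0) (nat_lit 0) (XT.lf (nat_lit 0) (nat_lit 35462746370) (nat_lit 152) (nat_lit 142863290733) (nat_lit 228) (nat_lit 52549090972) (nat_lit 30) (nat_lit 5) (nat_lit 32) (nat_lit 5) (nat_lit 33) (nat_lit 5) (nat_lit 319) (nat_lit 304) (nat_lit 157)) (XT.lf (nat_lit 0) (nat_lit 160251891367) (nat_lit 152) (nat_lit 61965660212) (nat_lit 228) (nat_lit 20057044312) (nat_lit 30) (nat_lit 5) (nat_lit 32) (nat_lit 5) (nat_lit 33) (nat_lit 5) (nat_lit 320) (nat_lit 304) (nat_lit 156)))))) (XT.nd (nat_lit 624) (nat_lit 532) (nat_lit 0) (XT.nd (nat_lit 312) (nat_lit 304) (nat_lit 0) (XT.nd (nat_lit 156) (nat_lit 152) (nat_lit 0) (XT.nd (nat_lit 78) (nat_lit 0) (nat_lit 0) (XT.lf (nat_lit 0) (nat_lit 15943420372) (nat_lit 228) (nat_lit 212935938568)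 (nat_lit 76) (nat_lit 25544845629) (nat_lit 27) (nat_lit 5) (nat_lit 30) (nat_lit 5) (nat_lit 28) (nat_lit 5) (nat_lit 321) (nat_lit 304) (nat_lit 155)) (XT.lf (nat_lit 0) (nat_lit 57650558856) (nat_lit 228) (nat_lit 90010481246) (nat_lit 76) (nat_lit 119530246120) (nat_lit 27) (nat_lit 5) (nat_lit 30) (nat_lit 5) (nat_lit 28) (nat_lit 5) (nat_lit 322) (nat_lit 304) (nat_lit 154))) (XT.nd (nat_lit 78) (nat_lit 0) (nat_lit 0) (XT.lf (nat_lit 0) (nat_lit 44999886802) (nat_lit 152) (nat_lit 58776485222) (nat_lit 228) (nat_lit 177116794370) (nat_lit 25) (nat_lit 5) (nat_lit 27) (nat_lit 5) (nat_lit 28) (nat_lit 5) (nat_lit 323) (nat_lit 304) (nat_lit 153)) (XT.lf (nat_lit 0) (nat_lit 157012193260) (nat_lit 228) (nat_lit 100523497573) (nat_lit 76) (nat_lit 37881910960) (nat_lit 25) (nat_lit 5) (nat_lit 28) (nat_lit 5) (nat_lit 26) (nat_lit 5) (nat_lit 324) (nat_lit 304) (nat_lit 152)))) (XT.nd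 (nat_lit 156) (nat_lit 152) (nat_lit 0) (XT.nd (nat_lit 78) (nat_lit 0) (nat_lit 0) (XT.lf (nat_lit 0) (nat_lit 46473821930) (nat_lit 152) (nat_lit 170677286952) (nat_lit 228) (nat_lit 93741345082) (nat_lit 23) (nat_lit 5) (nat_lit 25) (nat_lit 5) (nat_lit 26) (nat_lit 5) (nat_lit 325) (nat_lit 304) (nat_lit 151)) (XT.lf (nat_lit 0) (nat_lit 210947600316) (nat_lit 152) (nat_lit 73901903320) (nat_lit 228) (nat_lit 42535921621) (nat_lit 23) (nat_lit 5) (nat_lit 25) (nat_lit 5) (nat_lit 26) (nat_lit 5) (nat_lit 326) (nat_lit 304) (nat_lit 150))) (XT.nd (nat_lit 78) (nat_lit 0) (nat_lit 0) (XT.lf (nat_lit 0) (nat_lit 13990301738) (nat_lit 152) (nat_lit 300516185008) (nat_lit 76) (nat_lit 30517748422) (nat_lit 21) (nat_lit 5) (nat_lit 23) (nat_lit 5) (nat_lit 22) (nat_lit 5) (nat_lit 327) (nat_lit 304) (nat_lit 149)) (XT.lf (nat_lit 0) (nat_lit 77926300613) (nat_lit 152) (nat_lit 141975176350)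 (nat_lit 76) (nat_lit 143669428972) (nat_lit 21) (nat_lit 5) (nat_lit 23) (nat_lit 5) (nat_lit 22) (nat_lit 5) (nat_lit 328) (nat_lit 304) (nat_lit 148))))) (XT.nd (nat_lit 312) (nat_lit 304) (nat_lit 0) (XT.nd (nat_lit 156) (nat_lit 76) (nat_lit 0) (XT.nd (nat_lit 78) (nat_lit 0) (nat_lit 0) (XT.lf (nat_lit 0) (nat_lit 30789141170) (nat_lit 152) (nat_lit 116928410841) (nat_lit 228) (nat_lit 235824528702) (nat_lit 19) (nat_lit 5) (nat_lit 21) (nat_lit 5) (nat_lit 22) (nat_lit 5) (nat_lit 329) (nat_lit 304) (nat_lit 147)) (XT.lf (nat_lit 0) (nat_lit 225448693092) (nat_lit 152) (nat_lit 1525160335) (nat_lit 228) (nat_lit 177826556203) (nat_lit 19) (nat_lit 5) (nat_lit 21) (nat_lit 5) (nat_lit 22) (nat_lit 5) (nat_lit 330) (nat_lit 304) (nat_lit 146))) (XT.nd (nat_lit 78) (nat_lit 0) (nat_lit 0) (XT.lf (nat_lit 0) (nat_lit 5221856599) (nat_lit 76) (nat_lit 310435098247) (nat_lit 152) (nat_lit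 111855546480) (nat_lit 18) (nat_lit 5) (nat_lit 19) (nat_lit 5) (nat_lit 20) (nat_lit 4) (nat_lit 331) (nat_lit 304) (nat_lit 145)) (XT.lf (nat_lit 0) (nat_lit 214719350834) (nat_lit 76) (nat_lit 201657665634) (nat_lit 152) (nat_lit 35269159050) (nat_lit 18) (nat_lit 5) (nat_lit 19) (nat_lit 5) (nat_lit 20) (nat_lit 4) (nat_lit 332) (nat_lit 304) (nat_lit 144)))) (XT.nd (nat_lit 156) (nat_lit 76) (nat_lit 0) (XT.nd (nat_lit 78) (nat_lit 152) (nat_lit 0) (XT.lf (nat_lit 0) (nat_lit 45070702596) (nat_lit 152) (nat_lit 37875080224) (nat_lit 76) (nat_lit 394673485421) (nat_lit 17) (nat_lit 5) (nat_lit 19) (nat_lit 5) (nat_lit 18) (nat_lit 5) (nat_lit 333) (nat_lit 304) (nat_lit 143)) (XT.lf (nat_lit 0) (nat_lit 135620813735) (nat_lit 228) (nat_lit 321006170945) (nat_lit 76) (nat_lit 48514856340) (nat_lit 15) (nat_lit 5) (nat_lit 18) (nat_lit 5) (nat_lit 16) (nat_lit 4) (nat_lit 334) (nat_lit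 304) (nat_lit 142))) (XT.nd (nat_lit 78) (nat_lit 76) (nat_lit 0) (XT.lf (nat_lit 0) (nat_lit 236631758816) (nat_lit 228) (nat_lit 110903577128) (nat_lit 76) (nat_lit 187073537767) (nat_lit 15) (nat_lit 5) (nat_lit 18) (nat_lit 5) (nat_lit 16) (nat_lit 4) (nat_lit 335) (nat_lit 304) (nat_lit 141)) (XT.lf (nat_lit 0) (nat_lit 122115823420) (nat_lit 76) (nat_lit 226544569897) (nat_lit 152) (nat_lit 217537930680) (nat_lit 14) (nat_lit 5) (nat_lit 15) (nat_lit 5) (nat_lit 16) (nat_lit 4) (nat_lit 336) (nat_lit 304) (nat_lit 140))))))) (XT.nd (nat_lit 1248) (nat_lit 228) (nat_lit 0) (XT.nd (nat_lit 624) (nat_lit 228) (nat_lit 0) (XT.nd (nat_lit 312) (nat_lit 152) (nat_lit 0) (XT.nd (nat_lit 156) (nat_lit 76) (nat_lit 0) (XT.nd (nat_lit 78) (nat_lit 76) (nat_lit 0) (XT.lf (nat_lit 0) (nat_lit 380083835143) (nat_lit 76) (nat_lit 92599711609) (nat_lit 152) (nat_lit 127388805382) (nat_lit 14)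 (nat_lit 5) (nat_lit 15) (nat_lit 5) (nat_lit 16) (nat_lit 4) (nat_lit 337) (nat_lit 304) (nat_lit 139)) (XT.lf (nat_lit 0) (nat_lit 21875083095) (nat_lit 76) (nat_lit 586531559570) (nat_lit 76) (nat_lit 28107412714) (nat_lit 13) (nat_lit 4) (nat_lit 14) (nat_lit 5) (nat_lit 14) (nat_lit 4) (nat_lit 338) (nat_lit 304) (nat_lit 138))) (XT.nd (nat_lit 78) (nat_lit 0) (nat_lit 0) (XT.lf (nat_lit 0) (nat_lit 83734990240) (nat_lit 152) (nat_lit 384255484182) (nat_lit 76) (nat_lit 207042302149) (nat_lit 12) (nat_lit 5) (nat_lit 14) (nat_lit 5) (nat_lit 13) (nat_lit 4) (nat_lit 339) (nat_lit 304) (nat_lit 137)) (XT.lf (nat_lit 0) (nat_lit 203006192519) (nat_lit 152) (nat_lit 136171491801) (nat_lit 76) (nat_lit 377396911188) (nat_lit 12) (nat_lit 5) (nat_lit 14) (nat_lit 5) (nat_lit 13) (nat_lit 4) (nat_lit 340) (nat_lit 304) (nat_lit 136)))) (XT.nd (nat_lit 156) (nat_lit 76) (nat_lit 0) (XT.nd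 (nat_lit 78) (nat_lit 0) (nat_lit 0) (XT.lf (nat_lit 0) (nat_lit 138697317732) (nat_lit 76) (nat_lit 196457389145) (nat_lit 152) (nat_lit 426018203865) (nat_lit 11) (nat_lit 5) (nat_lit 12) (nat_lit 5) (nat_lit 13) (nat_lit 4) (nat_lit 341) (nat_lit 304) (nat_lit 135)) (XT.lf (nat_lit 0) (nat_lit 443299724254) (nat_lit 76) (nat_lit 38298491961) (nat_lit 152) (nat_lit 327443025924) (nat_lit 11) (nat_lit 5) (nat_lit 12) (nat_lit 5) (nat_lit 13) (nat_lit 4) (nat_lit 342) (nat_lit 304) (nat_lit 134))) (XT.nd (nat_lit 78) (nat_lit 76) (nat_lit 0) (XT.lf (nat_lit 0) (nat_lit 642944097029) (nat_lit 152) (nat_lit 91655757273) (nat_lit 0) (nat_lit 125884234535) (nat_lit 11) (nat_lit 5) (nat_lit 13) (nat_lit 4) (nat_lit 11) (nat_lit 4) (nat_lit 343) (nat_lit 304) (nat_lit 133)) (XT.lf (nat_lit 0) (nat_lit 214070691443) (nat_lit 76) (nat_lit 609270079163) (nat_lit 76) (nat_lit 92210142922) (nat_lit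 10) (nat_lit 4) (nat_lit 11) (nat_lit 5) (nat_lit 11) (nat_lit 4) (nat_lit 344) (nat_lit 304) (nat_lit 132))))) (XT.nd (nat_lit 312) (nat_lit 76) (nat_lit 0) (XT.nd (nat_lit 156) (nat_lit 76) (nat_lit 0) (XT.nd (nat_lit 78) (nat_lit 0) (nat_lit 0) (XT.lf (nat_lit 0) (nat_lit 43558825310) (nat_lit 152) (nat_lit 426457647878) (nat_lit 76) (nat_lit 504717911974) (nat_lit 9) (nat_lit 5) (nat_lit 11) (nat_lit 5) (nat_lit 10) (nat_lit 4) (nat_lit 345) (nat_lit 304) (nat_lit 131)) (XT.lf (nat_lit 0) (nat_lit 185207523081) (nat_lit 152) (nat_lit 131828419741) (nat_lit 76) (nat_lit 721424989858) (nat_lit 9) (nat_lit 5) (nat_lit 11) (nat_lit 5) (nat_lit 10) (nat_lit 4) (nat_lit 346) (nat_lit 304) (nat_lit 130))) (XT.nd (nat_lit 78) (nat_lit 0) (nat_lit 0) (XT.lf (nat_lit 0) (nat_lit 196185039699) (nat_lit 76) (nat_lit 146721290105) (nat_lit 152) (nat_lit 764001817177) (nat_lit 8) (nat_lit 5) (nat_lit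 9) (nat_lit 5) (nat_lit 10) (nat_lit 4) (nat_lit 347) (nat_lit 304) (nat_lit 129)) (XT.lf (nat_lit 0) (nat_lit 517814150365) (nat_lit 152) (nat_lit 623594815372) (nat_lit 0) (nat_lit 39054723975) (nat_lit 8) (nat_lit 5) (nat_lit 10) (nat_lit 4) (nat_lit 8) (nat_lit 4) (nat_lit 348) (nat_lit 304) (nat_lit 128)))) (XT.nd (nat_lit 156) (nat_lit 0) (nat_lit 0) (XT.nd (nat_lit 78) (nat_lit 76) (nat_lit 0) (XT.lf (nat_lit 0) (nat_lit 710525500891) (nat_lit 152) (nat_lit 317307274622) (nat_lit 0) (nat_lit 231766028028) (nat_lit 8) (nat_lit 5) (nat_lit 10) (nat_lit 4) (nat_lit 8) (nat_lit 4) (nat_lit 349) (nat_lit 304) (nat_lit 127)) (XT.lf (nat_lit 0) (nat_lit 14193204366) (nat_lit 76) (nat_lit 904801866557) (nat_lit 76) (nat_lit 426042350663) (nat_lit 7) (nat_lit 4) (nat_lit 8) (nat_lit 5) (nat_lit 8) (nat_lit 4) (nat_lit 350) (nat_lit 304) (nat_lit 126))) (XT.nd (nat_lit 78) (nat_lit 0) (nat_lit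 0) (XT.lf (nat_lit 0) (nat_lit 390259202638) (nat_lit 76) (nat_lit 762558712745) (nat_lit 76) (nat_lit 283799157008) (nat_lit 7) (nat_lit 4) (nat_lit 8) (nat_lit 5) (nat_lit 8) (nat_lit 4) (nat_lit 351) (nat_lit 304) (nat_lit 125)) (XT.lf (nat_lit 0) (nat_lit 796410420680) (nat_lit 76) (nat_lit 608936134890) (nat_lit 76) (nat_lit 130176542260) (nat_lit 7) (nat_lit 4) (nat_lit 8) (nat_lit 5) (nat_lit 8) (nat_lit 4) (nat_lit 352) (nat_lit 304) (nat_lit 124)))))) (XT.nd (nat_lit 624) (nat_lit 0) (nat_lit 0) (XT.nd (nat_lit 312) (nat_lit 76) (nat_lit 0) (XT.nd (nat_lit 156) (nat_lit 76) (nat_lit 0) (XT.nd (nat_lit 78) (nat_lit 0) (nat_lit 0) (XT.lf (nat_lit 0) (nat_lit 33948197875) (nat_lit 152) (nat_lit 408147375207) (nat_lit 76) (nat_lit 1200177278755) (nat_lit 6) (nat_lit 5) (nat_lit 8) (nat_lit 5) (nat_lit 7) (nat_lit 4) (nat_lit 353) (nat_lit 304) (nat_lit 123)) (XT.lf (nat_lit 0) (nat_lit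 204169974714) (nat_lit 152) (nat_lit 54086111011) (nat_lit 76) (nat_lit 1499036005988) (nat_lit 6) (nat_lit 5) (nat_lit 8) (nat_lit 5) (nat_lit 7) (nat_lit 4) (nat_lit 354) (nat_lit 304) (nat_lit 122))) (XT.nd (nat_lit 78) (nat_lit 0) (nat_lit 0) (XT.lf (nat_lit 0) (nat_lit 345587701712) (nat_lit 76) (nat_lit 50733158583) (nat_lit 152) (nat_lit 1484527101171) (nat_lit 5) (nat_lit 5) (nat_lit 6) (nat_lit 5) (nat_lit 7) (nat_lit 4) (nat_lit 355) (nat_lit 304) (nat_lit 121)) (XT.lf (nat_lit 0) (nat_lit 609531084000) (nat_lit 152) (nat_lit 1238067183673) (nat_lit 0) (nat_lit 166235051759) (nat_lit 5) (nat_lit 5) (nat_lit 7) (nat_lit 4) (nat_lit 5) (nat_lit 4) (nat_lit 356) (nat_lit 304) (nat_lit 120)))) (XT.nd (nat_lit 156) (nat_lit 76) (nat_lit 0) (XT.nd (nat_lit 78) (nat_lit 0) (nat_lit 0) (XT.lf (nat_lit 0) (nat_lit 841115846168) (nat_lit 152) (nat_lit 918416451558) (nat_lit 0) (nat_lit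 397819790679) (nat_lit 5) (nat_lit 5) (nat_lit 7) (nat_lit 4) (nat_lit 5) (nat_lit 4) (nat_lit 357) (nat_lit 304) (nat_lit 119)) (XT.lf (nat_lit 0) (nat_lit 1091227367262) (nat_lit 152) (nat_lit 573193703162) (nat_lit 0) (nat_lit 647931290247) (nat_lit 5) (nat_lit 5) (nat_lit 7) (nat_lit 4) (nat_lit 5) (nat_lit 4) (nat_lit 358) (nat_lit 304) (nat_lit 118))) (XT.nd (nat_lit 78) (nat_lit 76) (nat_lit 0) (XT.lf (nat_lit 0) (nat_lit 1361347789629) (nat_lit 152) (nat_lit 200353174052) (nat_lit 0) (nat_lit 918051692682) (nat_lit 5) (nat_lit 5) (nat_lit 7) (nat_lit 4) (nat_lit 5) (nat_lit 4) (nat_lit 359) (nat_lit 304) (nat_lit 117)) (XT.lf (nat_lit 0) (nat_lit 212968087386) (nat_lit 76) (nat_lit 1445231627120) (nat_lit 76) (nat_lit 1001935511718) (nat_lit 4) (nat_lit 4) (nat_lit 5) (nat_lit 5) (nat_lit 5) (nat_lit 4) (nat_lit 360) (nat_lit 304) (nat_lit 116))))) (XT.nd (nat_lit 36426) (nat_lit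 0) (nat_lit 3192) (XT.nd (nat_lit 36270) (nat_lit 0) (nat_lit 3116) (XT.nd (nat_lit 78) (nat_lit 0) (nat_lit 0) (XT.lf (nat_lit 0) (nat_lit 670749276939) (nat_lit 76) (nat_lit 1313528508919) (nat_lit 76) (nat_lit 870232376429) (nat_lit 4) (nat_lit 4) (nat_lit 5) (nat_lit 5) (nat_lit 5) (nat_lit 4) (nat_lit 361) (nat_lit 304) (nat_lit 115)) (XT.lf (nat_lit 0) (nat_lit 1165152928934) (nat_lit 76) (nat_lit 1171289156989) (nat_lit 76) (nat_lit 727993008677) (nat_lit 4) (nat_lit 4) (nat_lit 5) (nat_lit 5) (nat_lit 5) (nat_lit 4) (nat_lit 362) (nat_lit 304) (nat_lit 114))) (XT.nd (nat_lit 78) (nat_lit 0) (nat_lit 0) (XT.lf (nat_lit 0) (nat_lit 41969616402) (nat_lit 532) (nat_lit 11603098034) (nat_lit 532) (nat_lit 11603098034) (nat_lit 45) (nat_lit 3) (nat_lit 52) (nat_lit 3) (nat_lit 52) (nat_lit 5) (nat_lit 305) (nat_lit 305) (nat_lit 170)) (XT.lf (nat_lit 76) (nat_lit 38543901280) (nat_lit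 0) (nat_lit 49683408229) (nat_lit 532) (nat_lit 47263929694) (nat_lit 46) (nat_lit 5) (nat_lit 45) (nat_lit 3) (nat_lit 52) (nat_lit 5) (nat_lit 306) (nat_lit 305) (nat_lit 169)))) (XT.nd (nat_lit 156) (nat_lit 0) (nat_lit 0) (XT.nd (nat_lit 78) (nat_lit 0) (nat_lit 0) (XT.lf (nat_lit 0) (nat_lit 93806690408) (nat_lit 456) (nat_lit 34751847133) (nat_lit 532) (nat_lit 12407625434) (nat_lit 46) (nat_lit 5) (nat_lit 52) (nat_lit 5) (nat_lit 53) (nat_lit 5) (nat_lit 307) (nat_lit 305) (nat_lit 168)) (XT.lf (nat_lit 76) (nat_lit 32767763987) (nat_lit 0) (nat_lit 69142873841) (nat_lit 532) (nat_lit 44802186477) (nat_lit 47) (nat_lit 5) (nat_lit 46) (nat_lit 5) (nat_lit 53) (nat_lit 5) (nat_lit 308) (nat_lit 305) (nat_lit 167))) (XT.nd (nat_lit 78) (nat_lit 0) (nat_lit 76) (XT.lf (nat_lit 76) (nat_lit 107665100773) (nat_lit 0) (nat_lit 3947668939) (nat_lit 532) (nat_lit 41230460207) (nat_lit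 47) (nat_lit 5) (nat_lit 46) (nat_lit 5) (nat_lit 53) (nat_lit 5) (nat_lit 309) (nat_lit 305) (nat_lit 166)) (XT.lf (nat_lit 76) (nat_lit 28939147779) (nat_lit 0) (nat_lit 95446068564) (nat_lit 532) (nat_lit 34895320908) (nat_lit 48) (nat_lit 5) (nat_lit 47) (nat_lit 5) (nat_lit 54) (nat_lit 5) (nat_lit 310) (nat_lit 305) (nat_lit 165))))))))
noncomputable def xc111 : XT := (XT.nd (nat_lit 2496) (nat_lit 532) (nat_lit 0) (XT.nd (nat_lit 1248) (nat_lit 912) (nat_lit 0) (XT.nd (nat_lit 624) (nat_lit 684) (nat_lit 0) (XT.nd (nat_lit 312) (nat_lit 456) (nat_lit 0) (XT.nd (nat_lit 156) (nat_lit 304) (nat_lit 0) (XT.nd (nat_lit 78) (nat_lit 380) (nat_lit 0) (XT.lf (nat_lit 76) (nat_lit 111446974742) (nat_lit 0) (nat_lit 28067407443) (nat_lit 532) (nat_lit 26611653853) (nat_lit 48) (nat_lit 5) (nat_lit 47) (nat_lit 5) (nat_lit 54) (nat_lit 5) (nat_lit 311) (nat_lit 305) (nat_lit 164)) (XT.lf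 (nat_lit 0) (nat_lit 27328016167) (nat_lit 456) (nat_lit 130257931196) (nat_lit 532) (nat_lit 15794662770) (nat_lit 42) (nat_lit 5) (nat_lit 48) (nat_lit 5) (nat_lit 49) (nat_lit 5) (nat_lit 312) (nat_lit 305) (nat_lit 163))) (XT.nd (nat_lit 78) (nat_lit 304) (nat_lit 0) (XT.lf (nat_lit 0) (nat_lit 118237677703) (nat_lit 456) (nat_lit 61070916188) (nat_lit 532) (nat_lit 1730528412) (nat_lit 42) (nat_lit 5) (nat_lit 48) (nat_lit 5) (nat_lit 49) (nat_lit 5) (nat_lit 313) (nat_lit 305) (nat_lit 162)) (XT.lf (nat_lit 0) (nat_lit 13817707333) (nat_lit 304) (nat_lit 161388119271) (nat_lit 76) (nat_lit 13996016264) (nat_lit 38) (nat_lit 5) (nat_lit 42) (nat_lit 5) (nat_lit 39) (nat_lit 5) (nat_lit 314) (nat_lit 305) (nat_lit 161)))) (XT.nd (nat_lit 156) (nat_lit 228) (nat_lit 0) (XT.nd (nat_lit 78) (nat_lit 228) (nat_lit 0) (XT.lf (nat_lit 0) (nat_lit 33864058022) (nat_lit 304) (nat_lit 70306564712)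 (nat_lit 76) (nat_lit 93575542984) (nat_lit 38) (nat_lit 5) (nat_lit 42) (nat_lit 5) (nat_lit 39) (nat_lit 5) (nat_lit 315) (nat_lit 305) (nat_lit 160)) (XT.lf (nat_lit 0) (nat_lit 29538965016) (nat_lit 228) (nat_lit 26685369328) (nat_lit 304) (nat_lit 150692883115) (nat_lit 35) (nat_lit 5) (nat_lit 38) (nat_lit 5) (nat_lit 39) (nat_lit 5) (nat_lit 316) (nat_lit 305) (nat_lit 159))) (XT.nd (nat_lit 78) (nat_lit 228) (nat_lit 0) (XT.lf (nat_lit 0) (nat_lit 83716303027) (nat_lit 304) (nat_lit 76718602812) (nat_lit 76) (nat_lit 56119618316) (nat_lit 35) (nat_lit 5) (nat_lit 39) (nat_lit 5) (nat_lit 36) (nat_lit 5) (nat_lit 317) (nat_lit 305) (nat_lit 158)) (XT.lf (nat_lit 0) (nat_lit 32948719332) (nat_lit 228) (nat_lit 81944281564) (nat_lit 304) (nat_lit 111950985158) (nat_lit 32) (nat_lit 5) (nat_lit 35) (nat_lit 5) (nat_lit 36) (nat_lit 5) (nat_lit 318) (nat_lit 305) (nat_lit 157)))))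 (XT.nd (nat_lit 312) (nat_lit 304) (nat_lit 0) (XT.nd (nat_lit 156) (nat_lit 228) (nat_lit 0) (XT.nd (nat_lit 78) (nat_lit 152) (nat_lit 0) (XT.lf (nat_lit 0) (nat_lit 150783731423) (nat_lit 304) (nat_lit 82158961215) (nat_lit 76) (nat_lit 4836320894) (nat_lit 32) (nat_lit 5) (nat_lit 36) (nat_lit 5) (nat_lit 33) (nat_lit 5) (nat_lit 319) (nat_lit 305) (nat_lit 156)) (XT.lf (nat_lit 0) (nat_lit 38303740540) (nat_lit 152) (nat_lit 154291455847) (nat_lit 228) (nat_lit 56749689088) (nat_lit 30) (nat_lit 5) (nat_lit 32) (nat_lit 5) (nat_lit 33) (nat_lit 5) (nat_lit 320) (nat_lit 305) (nat_lit 155))) (XT.nd (nat_lit 78) (nat_lit 228) (nat_lit 0) (XT.lf (nat_lit 0) (nat_lit 173075722731) (nat_lit 152) (nat_lit 66922081413) (nat_lit 228) (nat_lit 21658525300) (nat_lit 30) (nat_lit 5) (nat_lit 32) (nat_lit 5) (nat_lit 33) (nat_lit 5) (nat_lit 321) (nat_lit 305) (nat_lit 154)) (XT.lf (nat_lit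 0) (nat_lit 17221718096) (nat_lit 228) (nat_lit 229966864004) (nat_lit 76) (nat_lit 27589327554) (nat_lit 27) (nat_lit 5) (nat_lit 30) (nat_lit 5) (nat_lit 28) (nat_lit 5) (nat_lit 322) (nat_lit 305) (nat_lit 153)))) (XT.nd (nat_lit 156) (nat_lit 152) (nat_lit 0) (XT.nd (nat_lit 78) (nat_lit 152) (nat_lit 0) (XT.lf (nat_lit 0) (nat_lit 62265218467) (nat_lit 228) (nat_lit 97207662663) (nat_lit 76) (nat_lit 129093493842) (nat_lit 27) (nat_lit 5) (nat_lit 30) (nat_lit 5) (nat_lit 28) (nat_lit 5) (nat_lit 323) (nat_lit 305) (nat_lit 152)) (XT.lf (nat_lit 0) (nat_lit 48603442245) (nat_lit 152) (nat_lit 63477546474) (nat_lit 228) (nat_lit 191283425844) (nat_lit 25) (nat_lit 5) (nat_lit 27) (nat_lit 5) (nat_lit 28) (nat_lit 5) (nat_lit 324) (nat_lit 305) (nat_lit 151))) (XT.nd (nat_lit 78) (nat_lit 152) (nat_lit 0) (XT.lf (nat_lit 0) (nat_lit 169575513505) (nat_lit 228) (nat_lit 108561910521)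 (nat_lit 76) (nat_lit 40913394079) (nat_lit 25) (nat_lit 5) (nat_lit 28) (nat_lit 5) (nat_lit 26) (nat_lit 5) (nat_lit 325) (nat_lit 305) (nat_lit 150)) (XT.lf (nat_lit 0) (nat_lit 50195106774) (nat_lit 152) (nat_lit 184330343182) (nat_lit 228) (nat_lit 101238216202) (nat_lit 23) (nat_lit 5) (nat_lit 25) (nat_lit 5) (nat_lit 26) (nat_lit 5) (nat_lit 326) (nat_lit 305) (nat_lit 149)))))) (XT.nd (nat_lit 624) (nat_lit 456) (nat_lit 0) (XT.nd (nat_lit 312) (nat_lit 152) (nat_lit 0) (XT.nd (nat_lit 156) (nat_lit 152) (nat_lit 0) (XT.nd (nat_lit 78) (nat_lit 152) (nat_lit 0) (XT.lf (nat_lit 0) (nat_lit 227826537128) (nat_lit 152) (nat_lit 79813012321) (nat_lit 228) (nat_lit 45936539344) (nat_lit 23) (nat_lit 5) (nat_lit 25) (nat_lit 5) (nat_lit 26) (nat_lit 5) (nat_lit 327) (nat_lit 305) (nat_lit 148)) (XT.lf (nat_lit 0) (nat_lit 15111612856) (nat_lit 152) (nat_lit 324554175499) (nat_lit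 76) (nat_lit 32960215545) (nat_lit 21) (nat_lit 5) (nat_lit 23) (nat_lit 5) (nat_lit 22) (nat_lit 5) (nat_lit 328) (nat_lit 305) (nat_lit 147))) (XT.nd (nat_lit 78) (nat_lit 152) (nat_lit 0) (XT.lf (nat_lit 0) (nat_lit 84162337050) (nat_lit 152) (nat_lit 153330130912) (nat_lit 76) (nat_lit 155163952964) (nat_lit 21) (nat_lit 5) (nat_lit 23) (nat_lit 5) (nat_lit 22) (nat_lit 5) (nat_lit 329) (nat_lit 305) (nat_lit 146)) (XT.lf (nat_lit 0) (nat_lit 33255254552) (nat_lit 152) (nat_lit 126281562587) (nat_lit 228) (nat_lit 254688478476) (nat_lit 19) (nat_lit 5) (nat_lit 21) (nat_lit 5) (nat_lit 22) (nat_lit 5) (nat_lit 330) (nat_lit 305) (nat_lit 145)))) (XT.nd (nat_lit 156) (nat_lit 76) (nat_lit 0) (XT.nd (nat_lit 78) (nat_lit 76) (nat_lit 0) (XT.lf (nat_lit 0) (nat_lit 243487349732) (nat_lit 152) (nat_lit 1646135087) (nat_lit 228) (nat_lit 192050817253) (nat_lit 19) (nat_lit 5) (nat_lit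 21) (nat_lit 5) (nat_lit 22) (nat_lit 5) (nat_lit 331) (nat_lit 305) (nat_lit 144)) (XT.lf (nat_lit 0) (nat_lit 5642408859) (nat_lit 76) (nat_lit 335268788401) (nat_lit 152) (nat_lit 120802166995) (nat_lit 18) (nat_lit 5) (nat_lit 19) (nat_lit 5) (nat_lit 20) (nat_lit 4) (nat_lit 332) (nat_lit 305) (nat_lit 143))) (XT.nd (nat_lit 78) (nat_lit 76) (nat_lit 0) (XT.lf (nat_lit 0) (nat_lit 231899494949) (nat_lit 76) (nat_lit 217789243972) (nat_lit 152) (nat_lit 38089003623) (nat_lit 18) (nat_lit 5) (nat_lit 19) (nat_lit 5) (nat_lit 20) (nat_lit 4) (nat_lit 333) (nat_lit 305) (nat_lit 142)) (XT.lf (nat_lit 0) (nat_lit 48677843714) (nat_lit 152) (nat_lit 40902602880) (nat_lit 76) (nat_lit 426248242493) (nat_lit 17) (nat_lit 5) (nat_lit 19) (nat_lit 5) (nat_lit 18) (nat_lit 5) (nat_lit 334) (nat_lit 305) (nat_lit 141))))) (XT.nd (nat_lit 312) (nat_lit 228) (nat_lit 0) (XT.nd (nat_lit 156) (nat_lit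 76) (nat_lit 0) (XT.nd (nat_lit 78) (nat_lit 0) (nat_lit 0) (XT.lf (nat_lit 0) (nat_lit 146471935728) (nat_lit 228) (nat_lit 346684151155) (nat_lit 76) (nat_lit 52396983180) (nat_lit 15) (nat_lit 5) (nat_lit 18) (nat_lit 5) (nat_lit 16) (nat_lit 4) (nat_lit 335) (nat_lit 305) (nat_lit 140)) (XT.lf (nat_lit 0) (nat_lit 255563648498) (nat_lit 228) (nat_lit 119773536015) (nat_lit 76) (nat_lit 202040289614) (nat_lit 15) (nat_lit 5) (nat_lit 18) (nat_lit 5) (nat_lit 16) (nat_lit 4) (nat_lit 336) (nat_lit 305) (nat_lit 139))) (XT.nd (nat_lit 78) (nat_lit 0) (nat_lit 0) (XT.lf (nat_lit 0) (nat_lit 131887357658) (nat_lit 76) (nat_lit 244667170731) (nat_lit 152) (nat_lit 234939555794) (nat_lit 14) (nat_lit 5) (nat_lit 15) (nat_lit 5) (nat_lit 16) (nat_lit 4) (nat_lit 337) (nat_lit 305) (nat_lit 138)) (XT.lf (nat_lit 0) (nat_lit 410492642292) (nat_lit 76) (nat_lit 100006795243) (nat_lit 152) (nat_lit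 137578604867) (nat_lit 14) (nat_lit 5) (nat_lit 15) (nat_lit 5) (nat_lit 16) (nat_lit 4) (nat_lit 338) (nat_lit 305) (nat_lit 137)))) (XT.nd (nat_lit 156) (nat_lit 76) (nat_lit 0) (XT.nd (nat_lit 78) (nat_lit 76) (nat_lit 0) (XT.lf (nat_lit 0) (nat_lit 23627211392) (nat_lit 76) (nat_lit 633453151237) (nat_lit 76) (nat_lit 30354720857) (nat_lit 13) (nat_lit 4) (nat_lit 14) (nat_lit 5) (nat_lit 14) (nat_lit 4) (nat_lit 339) (nat_lit 305) (nat_lit 136)) (XT.lf (nat_lit 0) (nat_lit 90434919645) (nat_lit 152) (nat_lit 414993897850) (nat_lit 76) (nat_lit 223606489724) (nat_lit 12) (nat_lit 5) (nat_lit 14) (nat_lit 5) (nat_lit 13) (nat_lit 4) (nat_lit 340) (nat_lit 305) (nat_lit 135))) (XT.nd (nat_lit 78) (nat_lit 76) (nat_lit 0) (XT.lf (nat_lit 0) (nat_lit 219247734388) (nat_lit 152) (nat_lit 147063336083) (nat_lit 76) (nat_lit 407589407974) (nat_lit 12) (nat_lit 5) (nat_lit 14) (nat_lit 5)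 (nat_lit 13) (nat_lit 4) (nat_lit 341) (nat_lit 305) (nat_lit 134)) (XT.lf (nat_lit 0) (nat_lit 149794930742) (nat_lit 76) (nat_lit 212173165591) (nat_lit 152) (nat_lit 460098565325) (nat_lit 11) (nat_lit 5) (nat_lit 12) (nat_lit 5) (nat_lit 13) (nat_lit 4) (nat_lit 342) (nat_lit 305) (nat_lit 133))))))) (XT.nd (nat_lit 1248) (nat_lit 76) (nat_lit 0) (XT.nd (nat_lit 624) (nat_lit 228) (nat_lit 0) (XT.nd (nat_lit 312) (nat_lit 76) (nat_lit 0) (XT.nd (nat_lit 156) (nat_lit 152) (nat_lit 0) (XT.nd (nat_lit 78) (nat_lit 0) (nat_lit 0) (XT.lf (nat_lit 0) (nat_lit 478765394409) (nat_lit 76) (nat_lit 41361616978) (nat_lit 152) (nat_lit 353637454249) (nat_lit 11) (nat_lit 5) (nat_lit 12) (nat_lit 5) (nat_lit 13) (nat_lit 4) (nat_lit 343) (nat_lit 305) (nat_lit 132)) (XT.lf (nat_lit 0) (nat_lit 694380509992) (nat_lit 152) (nat_lit 98986597534) (nat_lit 0) (nat_lit 135955636820) (nat_lit 11) (nat_lit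 5) (nat_lit 13) (nat_lit 4) (nat_lit 11) (nat_lit 4) (nat_lit 344) (nat_lit 305) (nat_lit 131))) (XT.nd (nat_lit 78) (nat_lit 76) (nat_lit 0) (XT.lf (nat_lit 0) (nat_lit 231197926059) (nat_lit 76) (nat_lit 658010963809) (nat_lit 76) (nat_lit 99586027411) (nat_lit 10) (nat_lit 4) (nat_lit 11) (nat_lit 5) (nat_lit 11) (nat_lit 4) (nat_lit 345) (nat_lit 305) (nat_lit 130)) (XT.lf (nat_lit 0) (nat_lit 47044346683) (nat_lit 152) (nat_lit 460572753838) (nat_lit 76) (nat_lit 545095969606) (nat_lit 9) (nat_lit 5) (nat_lit 11) (nat_lit 5) (nat_lit 10) (nat_lit 4) (nat_lit 346) (nat_lit 305) (nat_lit 129)))) (XT.nd (nat_lit 156) (nat_lit 0) (nat_lit 0) (XT.nd (nat_lit 78) (nat_lit 76) (nat_lit 0) (XT.lf (nat_lit 0) (nat_lit 200024879879) (nat_lit 152) (nat_lit 142373298997) (nat_lit 76) (nat_lit 779139567448) (nat_lit 9) (nat_lit 5) (nat_lit 11) (nat_lit 5) (nat_lit 10) (nat_lit 4) (nat_lit 347)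 (nat_lit 305) (nat_lit 128)) (XT.lf (nat_lit 0) (nat_lit 211881201900) (nat_lit 76) (nat_lit 158458366003) (nat_lit 152) (nat_lit 825121171768) (nat_lit 8) (nat_lit 5) (nat_lit 9) (nat_lit 5) (nat_lit 10) (nat_lit 4) (nat_lit 348) (nat_lit 305) (nat_lit 127))) (XT.nd (nat_lit 78) (nat_lit 0) (nat_lit 0) (XT.lf (nat_lit 0) (nat_lit 559239973876) (nat_lit 152) (nat_lit 673481101521) (nat_lit 0) (nat_lit 42179653680) (nat_lit 8) (nat_lit 5) (nat_lit 10) (nat_lit 4) (nat_lit 8) (nat_lit 4) (nat_lit 349) (nat_lit 305) (nat_lit 126)) (XT.lf (nat_lit 0) (nat_lit 767368181224) (nat_lit 152) (nat_lit 342690653739) (nat_lit 0) (nat_lit 250307821184) (nat_lit 8) (nat_lit 5) (nat_lit 10) (nat_lit 4) (nat_lit 8) (nat_lit 4) (nat_lit 350) (nat_lit 305) (nat_lit 125))))) (XT.nd (nat_lit 312) (nat_lit 76) (nat_lit 0) (XT.nd (nat_lit 156) (nat_lit 76) (nat_lit 0) (XT.nd (nat_lit 78) (nat_lit 0) (nat_lit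 0) (XT.lf (nat_lit 0) (nat_lit 15329833115) (nat_lit 76) (nat_lit 977185464512) (nat_lit 76) (nat_lit 460125067581) (nat_lit 7) (nat_lit 4) (nat_lit 8) (nat_lit 5) (nat_lit 8) (nat_lit 4) (nat_lit 351) (nat_lit 305) (nat_lit 124)) (XT.lf (nat_lit 0) (nat_lit 421481024405) (nat_lit 76) (nat_lit 823562899237) (nat_lit 76) (nat_lit 306502468147) (nat_lit 7) (nat_lit 4) (nat_lit 8) (nat_lit 5) (nat_lit 8) (nat_lit 4) (nat_lit 352) (nat_lit 305) (nat_lit 123))) (XT.nd (nat_lit 78) (nat_lit 76) (nat_lit 0) (XT.lf (nat_lit 0) (nat_lit 860124259478) (nat_lit 76) (nat_lit 657650552970) (nat_lit 76) (nat_lit 140590090251) (nat_lit 7) (nat_lit 4) (nat_lit 8) (nat_lit 5) (nat_lit 8) (nat_lit 4) (nat_lit 353) (nat_lit 305) (nat_lit 122)) (XT.lf (nat_lit 0) (nat_lit 36664559823) (nat_lit 152) (nat_lit 440798207573) (nat_lit 76) (nat_lit 1296191871789) (nat_lit 6) (nat_lit 5) (nat_lit 8) (nat_lit 5)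 (nat_lit 7) (nat_lit 4) (nat_lit 354) (nat_lit 305) (nat_lit 121)))) (XT.nd (nat_lit 156) (nat_lit 0) (nat_lit 0) (XT.nd (nat_lit 78) (nat_lit 76) (nat_lit 0) (XT.lf (nat_lit 0) (nat_lit 220504041319) (nat_lit 152) (nat_lit 58412113178) (nat_lit 76) (nat_lit 1618959266775) (nat_lit 6) (nat_lit 5) (nat_lit 8) (nat_lit 5) (nat_lit 7) (nat_lit 4) (nat_lit 355) (nat_lit 305) (nat_lit 120)) (XT.lf (nat_lit 0) (nat_lit 373235582115) (nat_lit 76) (nat_lit 54791401704) (nat_lit 152) (nat_lit 1603288777922) (nat_lit 5) (nat_lit 5) (nat_lit 6) (nat_lit 5) (nat_lit 7) (nat_lit 4) (nat_lit 356) (nat_lit 305) (nat_lit 119))) (XT.nd (nat_lit 78) (nat_lit 0) (nat_lit 0) (XT.lf (nat_lit 0) (nat_lit 658294000859) (nat_lit 152) (nat_lit 1337111733314) (nat_lit 0) (nat_lit 179534216157) (nat_lit 5) (nat_lit 5) (nat_lit 7) (nat_lit 4) (nat_lit 5) (nat_lit 4) (nat_lit 357) (nat_lit 305) (nat_lit 118)) (XT.lf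 (nat_lit 0) (nat_lit 908405512138) (nat_lit 152) (nat_lit 991889003744) (nat_lit 0) (nat_lit 429645707504) (nat_lit 5) (nat_lit 5) (nat_lit 7) (nat_lit 4) (nat_lit 5) (nat_lit 4) (nat_lit 358) (nat_lit 305) (nat_lit 117)))))) (XT.nd (nat_lit 36816) (nat_lit 0) (nat_lit 2356) (XT.nd (nat_lit 36504) (nat_lit 0) (nat_lit 3116) (XT.nd (nat_lit 156) (nat_lit 76) (nat_lit 0) (XT.nd (nat_lit 78) (nat_lit 0) (nat_lit 0) (XT.lf (nat_lit 0) (nat_lit 1178525925418) (nat_lit 152) (nat_lit 619048492065) (nat_lit 0) (nat_lit 699766102329) (nat_lit 5) (nat_lit 5) (nat_lit 7) (nat_lit 4) (nat_lit 5) (nat_lit 4) (nat_lit 359) (nat_lit 305) (nat_lit 116)) (XT.lf (nat_lit 0) (nat_lit 1470255954258) (nat_lit 152) (nat_lit 216380773023) (nat_lit 0) (nat_lit 991496114080) (nat_lit 5) (nat_lit 5) (nat_lit 7) (nat_lit 4) (nat_lit 5) (nat_lit 4) (nat_lit 360) (nat_lit 305) (nat_lit 115))) (XT.nd (nat_lit 78)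 (nat_lit 0) (nat_lit 0) (XT.lf (nat_lit 0) (nat_lit 230006172750) (nat_lit 76) (nat_lit 1560849850435) (nat_lit 76) (nat_lit 1082089994435) (nat_lit 4) (nat_lit 4) (nat_lit 5) (nat_lit 5) (nat_lit 5) (nat_lit 4) (nat_lit 361) (nat_lit 305) (nat_lit 114)) (XT.lf (nat_lit 0) (nat_lit 724409810179) (nat_lit 76) (nat_lit 1418610505507) (nat_lit 76) (nat_lit 939850634857) (nat_lit 4) (nat_lit 4) (nat_lit 5) (nat_lit 5) (nat_lit 5) (nat_lit 4) (nat_lit 362) (nat_lit 305) (nat_lit 113)))) (XT.nd (nat_lit 156) (nat_lit 0) (nat_lit 76) (XT.nd (nat_lit 78) (nat_lit 0) (nat_lit 0) (XT.lf (nat_lit 0) (nat_lit 45330626563) (nat_lit 532) (nat_lit 12529482868) (nat_lit 532) (nat_lit 12529482868) (nat_lit 45) (nat_lit 3) (nat_lit 52) (nat_lit 3) (nat_lit 52) (nat_lit 5) (nat_lit 306) (nat_lit 306) (nat_lit 168)) (XT.lf (nat_lit 76) (nat_lit 41631045071) (nat_lit 0) (nat_lit 53660908483) (nat_lit 532)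 (nat_lit 51038049707) (nat_lit 46) (nat_lit 5) (nat_lit 45) (nat_lit 3) (nat_lit 52) (nat_lit 5) (nat_lit 307) (nat_lit 306) (nat_lit 167))) (XT.nd (nat_lit 78) (nat_lit 0) (nat_lit 0) (XT.lf (nat_lit 0) (nat_lit 101317143493) (nat_lit 456) (nat_lit 37528073821) (nat_lit 532) (nat_lit 13397748295) (nat_lit 46) (nat_lit 5) (nat_lit 52) (nat_lit 5) (nat_lit 53) (nat_lit 5) (nat_lit 308) (nat_lit 306) (nat_lit 166)) (XT.lf (nat_lit 76) (nat_lit 35393006922) (nat_lit 0) (nat_lit 74676053341) (nat_lit 532) (nat_lit 48380328555) (nat_lit 47) (nat_lit 5) (nat_lit 46) (nat_lit 5) (nat_lit 53) (nat_lit 5) (nat_lit 309) (nat_lit 306) (nat_lit 165))))) (XT.nd (nat_lit 312) (nat_lit 532) (nat_lit 0) (XT.nd (nat_lit 156) (nat_lit 304) (nat_lit 0) (XT.nd (nat_lit 78) (nat_lit 0) (nat_lit 76) (XT.lf (nat_lit 76) (nat_lit 116281847552) (nat_lit 0) (nat_lit 4265102448) (nat_lit 532) (nat_lit 44523311060)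 (nat_lit 47) (nat_lit 5) (nat_lit 46) (nat_lit 5) (nat_lit 53) (nat_lit 5) (nat_lit 310) (nat_lit 306) (nat_lit 164)) (XT.lf (nat_lit 76) (nat_lit 31258183142) (nat_lit 0) (nat_lit 103082684898) (nat_lit 532) (nat_lit 37681711963) (nat_lit 48) (nat_lit 5) (nat_lit 47) (nat_lit 5) (nat_lit 54) (nat_lit 5) (nat_lit 311) (nat_lit 306) (nat_lit 163))) (XT.nd (nat_lit 78) (nat_lit 380) (nat_lit 0) (XT.lf (nat_lit 76) (nat_lit 120366347111) (nat_lit 0) (nat_lit 30313661936) (nat_lit 532) (nat_lit 28735739293) (nat_lit 48) (nat_lit 5) (nat_lit 47) (nat_lit 5) (nat_lit 54) (nat_lit 5) (nat_lit 312) (nat_lit 306) (nat_lit 162)) (XT.lf (nat_lit 0) (nat_lit 29518161749) (nat_lit 456) (nat_lit 140678880817) (nat_lit 532) (nat_lit 17053667269) (nat_lit 42) (nat_lit 5) (nat_lit 48) (nat_lit 5) (nat_lit 49) (nat_lit 5) (nat_lit 313) (nat_lit 306) (nat_lit 161)))) (XT.nd (nat_lit 156) (nat_lit 228)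 (nat_lit 0) (XT.nd (nat_lit 78) (nat_lit 304) (nat_lit 0) (XT.lf (nat_lit 0) (nat_lit 127700307001) (nat_lit 456) (nat_lit 65956881267) (nat_lit 532) (nat_lit 1864740572) (nat_lit 42) (nat_lit 5) (nat_lit 48) (nat_lit 5) (nat_lit 49) (nat_lit 5) (nat_lit 314) (nat_lit 306) (nat_lit 160)) (XT.lf (nat_lit 0) (nat_lit 14926932978) (nat_lit 304) (nat_lit 174295113597) (nat_lit 76) (nat_lit 15115629826) (nat_lit 38) (nat_lit 5) (nat_lit 42) (nat_lit 5) (nat_lit 39) (nat_lit 5) (nat_lit 315) (nat_lit 306) (nat_lit 159))) (XT.nd (nat_lit 78) (nat_lit 228) (nat_lit 0) (XT.lf (nat_lit 0) (nat_lit 36576709569) (nat_lit 304) (nat_lit 75927335060) (nat_lit 76) (nat_lit 101061523701) (nat_lit 38) (nat_lit 5) (nat_lit 42) (nat_lit 5) (nat_lit 39) (nat_lit 5) (nat_lit 316) (nat_lit 306) (nat_lit 158)) (XT.lf (nat_lit 0) (nat_lit 31905741988) (nat_lit 228) (nat_lit 28819892775) (nat_lit 304) (nat_lit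 162744683936) (nat_lit 35) (nat_lit 5) (nat_lit 38) (nat_lit 5) (nat_lit 39) (nat_lit 5) (nat_lit 317) (nat_lit 306) (nat_lit 157))))))))
noncomputable def xc112 : XT := (XT.nd (nat_lit 2418) (nat_lit 380) (nat_lit 0) (XT.nd (nat_lit 1170) (nat_lit 760) (nat_lit 0) (XT.nd (nat_lit 546) (nat_lit 608) (nat_lit 0) (XT.nd (nat_lit 234) (nat_lit 380) (nat_lit 0) (XT.nd (nat_lit 78) (nat_lit 228) (nat_lit 0) (XT.lf (nat_lit 0) (nat_lit 90416719337) (nat_lit 304) (nat_lit 82852453476) (nat_lit 76) (nat_lit 60609457029) (nat_lit 35) (nat_lit 5) (nat_lit 39) (nat_lit 5) (nat_lit 36) (nat_lit 5) (nat_lit 318) (nat_lit 306) (nat_lit 156)) (XT.nd (nat_lit 78) (nat_lit 0) (nat_lit 0) (XT.lf (nat_lit 0) (nat_lit 35588162350) (nat_lit 228) (nat_lit 88499245431) (nat_lit 304) (nat_lit 120903853071) (nat_lit 32) (nat_lit 5) (nat_lit 35) (nat_lit 5) (nat_lit 36) (nat_lit 5) (nat_lit 319) (nat_lit 306)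 (nat_lit 155)) (XT.lf (nat_lit 0) (nat_lit 162849189871) (nat_lit 304) (nat_lit 88728182149) (nat_lit 76) (nat_lit 5223735558) (nat_lit 32) (nat_lit 5) (nat_lit 36) (nat_lit 5) (nat_lit 33) (nat_lit 5) (nat_lit 320) (nat_lit 306) (nat_lit 154)))) (XT.nd (nat_lit 156) (nat_lit 228) (nat_lit 0) (XT.nd (nat_lit 78) (nat_lit 0) (nat_lit 0) (XT.lf (nat_lit 0) (nat_lit 41371447241) (nat_lit 152) (nat_lit 166634002301) (nat_lit 228) (nat_lit 61286809995) (nat_lit 30) (nat_lit 5) (nat_lit 32) (nat_lit 5) (nat_lit 33) (nat_lit 5) (nat_lit 321) (nat_lit 306) (nat_lit 153)) (XT.lf (nat_lit 0) (nat_lit 186924935604) (nat_lit 152) (nat_lit 72275134950) (nat_lit 228) (nat_lit 23388564527) (nat_lit 30) (nat_lit 5) (nat_lit 32) (nat_lit 5) (nat_lit 33) (nat_lit 5) (nat_lit 322) (nat_lit 306) (nat_lit 152))) (XT.nd (nat_lit 78) (nat_lit 0) (nat_lit 0) (XT.lf (nat_lit 0) (nat_lit 18601876750) (nat_lit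 228) (nat_lit 248360826936) (nat_lit 76) (nat_lit 29797240455) (nat_lit 27) (nat_lit 5) (nat_lit 30) (nat_lit 5) (nat_lit 28) (nat_lit 5) (nat_lit 323) (nat_lit 306) (nat_lit 151)) (XT.lf (nat_lit 0) (nat_lit 67248677802) (nat_lit 228) (nat_lit 104981140317) (nat_lit 76) (nat_lit 139421683253) (nat_lit 27) (nat_lit 5) (nat_lit 30) (nat_lit 5) (nat_lit 28) (nat_lit 5) (nat_lit 324) (nat_lit 306) (nat_lit 150))))) (XT.nd (nat_lit 312) (nat_lit 304) (nat_lit 0) (XT.nd (nat_lit 156) (nat_lit 152) (nat_lit 0) (XT.nd (nat_lit 78) (nat_lit 0) (nat_lit 0) (XT.lf (nat_lit 0) (nat_lit 52494773607) (nat_lit 152) (nat_lit 68554843500) (nat_lit 228) (nat_lit 206583774744) (nat_lit 25) (nat_lit 5) (nat_lit 27) (nat_lit 5) (nat_lit 28) (nat_lit 5) (nat_lit 325) (nat_lit 306) (nat_lit 149)) (XT.lf (nat_lit 0) (nat_lit 183143564860) (nat_lit 228) (nat_lit 117243891090) (nat_lit 76) (nat_lit 44187263139)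 (nat_lit 25) (nat_lit 5) (nat_lit 28) (nat_lit 5) (nat_lit 26) (nat_lit 5) (nat_lit 326) (nat_lit 306) (nat_lit 148))) (XT.nd (nat_lit 78) (nat_lit 0) (nat_lit 0) (XT.lf (nat_lit 0) (nat_lit 54213612341) (nat_lit 152) (nat_lit 199075804651) (nat_lit 228) (nat_lit 109335184604) (nat_lit 23) (nat_lit 5) (nat_lit 25) (nat_lit 5) (nat_lit 26) (nat_lit 5) (nat_lit 327) (nat_lit 306) (nat_lit 147)) (XT.lf (nat_lit 0) (nat_lit 246055342528) (nat_lit 152) (nat_lit 86197158875) (nat_lit 228) (nat_lit 49609528330) (nat_lit 23) (nat_lit 5) (nat_lit 25) (nat_lit 5) (nat_lit 26) (nat_lit 5) (nat_lit 328) (nat_lit 306) (nat_lit 146)))) (XT.nd (nat_lit 156) (nat_lit 152) (nat_lit 0) (XT.nd (nat_lit 78) (nat_lit 0) (nat_lit 0) (XT.lf (nat_lit 0) (nat_lit 16322331133) (nat_lit 152) (nat_lit 350515676627) (nat_lit 76) (nat_lit 35597930635) (nat_lit 21) (nat_lit 5) (nat_lit 23) (nat_lit 5) (nat_lit 22)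 (nat_lit 5) (nat_lit 329) (nat_lit 306) (nat_lit 145)) (XT.lf (nat_lit 0) (nat_lit 90896980725) (nat_lit 152) (nat_lit 165593918318) (nat_lit 76) (nat_lit 167577900541) (nat_lit 21) (nat_lit 5) (nat_lit 23) (nat_lit 5) (nat_lit 22) (nat_lit 5) (nat_lit 330) (nat_lit 306) (nat_lit 144))) (XT.nd (nat_lit 78) (nat_lit 0) (nat_lit 0) (XT.lf (nat_lit 0) (nat_lit 35918231577) (nat_lit 152) (nat_lit 136383126414) (nat_lit 228) (nat_lit 275061831340) (nat_lit 19) (nat_lit 5) (nat_lit 21) (nat_lit 5) (nat_lit 22) (nat_lit 5) (nat_lit 331) (nat_lit 306) (nat_lit 143)) (XT.lf (nat_lit 0) (nat_lit 262968704989) (nat_lit 152) (nat_lit 1776935912) (nat_lit 228) (nat_lit 207413285028) (nat_lit 19) (nat_lit 5) (nat_lit 21) (nat_lit 5) (nat_lit 22) (nat_lit 5) (nat_lit 332) (nat_lit 306) (nat_lit 142)))))) (XT.nd (nat_lit 624) (nat_lit 304) (nat_lit 0) (XT.nd (nat_lit 312) (nat_lit 152) (nat_lit 0) (XT.nd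 (nat_lit 156) (nat_lit 228) (nat_lit 0) (XT.nd (nat_lit 78) (nat_lit 0) (nat_lit 0) (XT.lf (nat_lit 0) (nat_lit 6096205315) (nat_lit 76) (nat_lit 362089333221) (nat_lit 152) (nat_lit 130464777252) (nat_lit 18) (nat_lit 5) (nat_lit 19) (nat_lit 5) (nat_lit 20) (nat_lit 4) (nat_lit 333) (nat_lit 306) (nat_lit 141)) (XT.lf (nat_lit 0) (nat_lit 250453680238) (nat_lit 76) (nat_lit 235211496219) (nat_lit 152) (nat_lit 41134676595) (nat_lit 18) (nat_lit 5) (nat_lit 19) (nat_lit 5) (nat_lit 20) (nat_lit 4) (nat_lit 334) (nat_lit 306) (nat_lit 140))) (XT.nd (nat_lit 78) (nat_lit 152) (nat_lit 0) (XT.lf (nat_lit 0) (nat_lit 52573344282) (nat_lit 152) (nat_lit 44172681684) (nat_lit 76) (nat_lit 460348854839) (nat_lit 17) (nat_lit 5) (nat_lit 19) (nat_lit 5) (nat_lit 18) (nat_lit 5) (nat_lit 335) (nat_lit 306) (nat_lit 139)) (XT.lf (nat_lit 0) (nat_lit 158190939639) (nat_lit 228) (nat_lit 374416728355)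 (nat_lit 76) (nat_lit 56589546304) (nat_lit 15) (nat_lit 5) (nat_lit 18) (nat_lit 5) (nat_lit 16) (nat_lit 4) (nat_lit 336) (nat_lit 306) (nat_lit 138)))) (XT.nd (nat_lit 156) (nat_lit 76) (nat_lit 0) (XT.nd (nat_lit 78) (nat_lit 76) (nat_lit 0) (XT.lf (nat_lit 0) (nat_lit 276009896907) (nat_lit 228) (nat_lit 129353423626) (nat_lit 76) (nat_lit 218204257662) (nat_lit 15) (nat_lit 5) (nat_lit 18) (nat_lit 5) (nat_lit 16) (nat_lit 4) (nat_lit 337) (nat_lit 306) (nat_lit 137)) (XT.lf (nat_lit 0) (nat_lit 142440291028) (nat_lit 76) (nat_lit 264239717265) (nat_lit 152) (nat_lit 253733511974) (nat_lit 14) (nat_lit 5) (nat_lit 15) (nat_lit 5) (nat_lit 16) (nat_lit 4) (nat_lit 338) (nat_lit 306) (nat_lit 136))) (XT.nd (nat_lit 78) (nat_lit 76) (nat_lit 0) (XT.lf (nat_lit 0) (nat_lit 443333854376) (nat_lit 76) (nat_lit 108006573006) (nat_lit 152) (nat_lit 148583774476) (nat_lit 14) (nat_lit 5)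 (nat_lit 15) (nat_lit 5) (nat_lit 16) (nat_lit 4) (nat_lit 339) (nat_lit 306) (nat_lit 135)) (XT.lf (nat_lit 0) (nat_lit 25519207275) (nat_lit 76) (nat_lit 684128603354) (nat_lit 76) (nat_lit 32781996953) (nat_lit 13) (nat_lit 4) (nat_lit 14) (nat_lit 5) (nat_lit 14) (nat_lit 4) (nat_lit 340) (nat_lit 306) (nat_lit 134))))) (XT.nd (nat_lit 312) (nat_lit 152) (nat_lit 0) (XT.nd (nat_lit 156) (nat_lit 76) (nat_lit 0) (XT.nd (nat_lit 78) (nat_lit 0) (nat_lit 0) (XT.lf (nat_lit 0) (nat_lit 97670682168) (nat_lit 152) (nat_lit 448191673510) (nat_lit 76) (nat_lit 241495697690) (nat_lit 12) (nat_lit 5) (nat_lit 14) (nat_lit 5) (nat_lit 13) (nat_lit 4) (nat_lit 341) (nat_lit 306) (nat_lit 133)) (XT.lf (nat_lit 0) (nat_lit 236788450317) (nat_lit 152) (nat_lit 158826795407) (nat_lit 76) (nat_lit 440197198380) (nat_lit 12) (nat_lit 5) (nat_lit 14) (nat_lit 5) (nat_lit 13) (nat_lit 4) (nat_lit 342)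 (nat_lit 306) (nat_lit 132))) (XT.nd (nat_lit 78) (nat_lit 0) (nat_lit 0) (XT.lf (nat_lit 0) (nat_lit 161780092066) (nat_lit 76) (nat_lit 229146320376) (nat_lit 152) (nat_lit 496905511894) (nat_lit 11) (nat_lit 5) (nat_lit 12) (nat_lit 5) (nat_lit 13) (nat_lit 4) (nat_lit 343) (nat_lit 306) (nat_lit 131)) (XT.lf (nat_lit 0) (nat_lit 517068076763) (nat_lit 76) (nat_lit 44669899612) (nat_lit 152) (nat_lit 381927581462) (nat_lit 11) (nat_lit 5) (nat_lit 12) (nat_lit 5) (nat_lit 13) (nat_lit 4) (nat_lit 344) (nat_lit 306) (nat_lit 130)))) (XT.nd (nat_lit 156) (nat_lit 76) (nat_lit 0) (XT.nd (nat_lit 78) (nat_lit 76) (nat_lit 0) (XT.lf (nat_lit 0) (nat_lit 749931709708) (nat_lit 152) (nat_lit 106904136173) (nat_lit 0) (nat_lit 146832656629) (nat_lit 11) (nat_lit 5) (nat_lit 13) (nat_lit 4) (nat_lit 11) (nat_lit 4) (nat_lit 345) (nat_lit 306) (nat_lit 129)) (XT.lf (nat_lit 0) (nat_lit 249695114139)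 (nat_lit 76) (nat_lit 710651222183) (nat_lit 76) (nat_lit 107552114898) (nat_lit 10) (nat_lit 4) (nat_lit 11) (nat_lit 5) (nat_lit 11) (nat_lit 4) (nat_lit 346) (nat_lit 306) (nat_lit 128))) (XT.nd (nat_lit 78) (nat_lit 0) (nat_lit 0) (XT.lf (nat_lit 0) (nat_lit 50808593447) (nat_lit 152) (nat_lit 497417283105) (nat_lit 76) (nat_lit 588704182732) (nat_lit 9) (nat_lit 5) (nat_lit 11) (nat_lit 5) (nat_lit 10) (nat_lit 4) (nat_lit 347) (nat_lit 306) (nat_lit 127)) (XT.lf (nat_lit 0) (nat_lit 216027517519) (nat_lit 152) (nat_lit 153761967508) (nat_lit 76) (nat_lit 841471228730) (nat_lit 9) (nat_lit 5) (nat_lit 11) (nat_lit 5) (nat_lit 10) (nat_lit 4) (nat_lit 348) (nat_lit 306) (nat_lit 126))))))) (XT.nd (nat_lit 37518) (nat_lit 0) (nat_lit 1748) (XT.nd (nat_lit 624) (nat_lit 152) (nat_lit 0) (XT.nd (nat_lit 312) (nat_lit 76) (nat_lit 0) (XT.nd (nat_lit 156) (nat_lit 76) (nat_lit 0) (XT.nd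 (nat_lit 78) (nat_lit 0) (nat_lit 0) (XT.lf (nat_lit 0) (nat_lit 228832863196) (nat_lit 76) (nat_lit 171134497465) (nat_lit 152) (nat_lit 891130187541) (nat_lit 8) (nat_lit 5) (nat_lit 9) (nat_lit 5) (nat_lit 10) (nat_lit 4) (nat_lit 349) (nat_lit 306) (nat_lit 125)) (XT.lf (nat_lit 0) (nat_lit 603979764621) (nat_lit 152) (nat_lit 727358475891) (nat_lit 0) (nat_lit 45554499043) (nat_lit 8) (nat_lit 5) (nat_lit 10) (nat_lit 4) (nat_lit 8) (nat_lit 4) (nat_lit 350) (nat_lit 306) (nat_lit 124))) (XT.nd (nat_lit 78) (nat_lit 76) (nat_lit 0) (XT.lf (nat_lit 0) (nat_lit 828758184643) (nat_lit 152) (nat_lit 370104874787) (nat_lit 0) (nat_lit 270332884906) (nat_lit 8) (nat_lit 5) (nat_lit 10) (nat_lit 4) (nat_lit 8) (nat_lit 4) (nat_lit 351) (nat_lit 306) (nat_lit 123)) (XT.lf (nat_lit 0) (nat_lit 16557224909) (nat_lit 76) (nat_lit 1055359828963) (nat_lit 76) (nat_lit 496934497597) (nat_lit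 7) (nat_lit 4) (nat_lit 8) (nat_lit 5) (nat_lit 8) (nat_lit 4) (nat_lit 352) (nat_lit 306) (nat_lit 122)))) (XT.nd (nat_lit 156) (nat_lit 76) (nat_lit 0) (XT.nd (nat_lit 78) (nat_lit 0) (nat_lit 0) (XT.lf (nat_lit 0) (nat_lit 455200437047) (nat_lit 76) (nat_lit 889447493482) (nat_lit 76) (nat_lit 331022132830) (nat_lit 7) (nat_lit 4) (nat_lit 8) (nat_lit 5) (nat_lit 8) (nat_lit 4) (nat_lit 353) (nat_lit 306) (nat_lit 121)) (XT.lf (nat_lit 0) (nat_lit 928935061986) (nat_lit 76) (nat_lit 710262191935) (nat_lit 76) (nat_lit 151836804166) (nat_lit 7) (nat_lit 4) (nat_lit 8) (nat_lit 5) (nat_lit 8) (nat_lit 4) (nat_lit 354) (nat_lit 306) (nat_lit 120))) (XT.nd (nat_lit 78) (nat_lit 0) (nat_lit 0) (XT.lf (nat_lit 0) (nat_lit 39598158523) (nat_lit 152) (nat_lit 476061243147) (nat_lit 76) (nat_lit 1399887573669) (nat_lit 6) (nat_lit 5) (nat_lit 8) (nat_lit 5) (nat_lit 7) (nat_lit 4) (nat_lit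 355) (nat_lit 306) (nat_lit 119)) (XT.lf (nat_lit 0) (nat_lit 238144766397) (nat_lit 152) (nat_lit 63084322018) (nat_lit 76) (nat_lit 1748476334171) (nat_lit 6) (nat_lit 5) (nat_lit 8) (nat_lit 5) (nat_lit 7) (nat_lit 4) (nat_lit 356) (nat_lit 306) (nat_lit 118))))) (XT.nd (nat_lit 312) (nat_lit 76) (nat_lit 0) (XT.nd (nat_lit 156) (nat_lit 0) (nat_lit 0) (XT.nd (nat_lit 78) (nat_lit 0) (nat_lit 0) (XT.lf (nat_lit 0) (nat_lit 403095169652) (nat_lit 76) (nat_lit 59174362705) (nat_lit 152) (nat_lit 1731551458909) (nat_lit 5) (nat_lit 5) (nat_lit 6) (nat_lit 5) (nat_lit 7) (nat_lit 4) (nat_lit 357) (nat_lit 306) (nat_lit 117)) (XT.lf (nat_lit 0) (nat_lit 710957889703) (nat_lit 152) (nat_lit 1444079964629) (nat_lit 0) (nat_lit 193897262311) (nat_lit 5) (nat_lit 5) (nat_lit 7) (nat_lit 4) (nat_lit 5) (nat_lit 4) (nat_lit 358) (nat_lit 306) (nat_lit 116))) (XT.nd (nat_lit 78) (nat_lit 0) (nat_lit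 0) (XT.lf (nat_lit 0) (nat_lit 981078294568) (nat_lit 152) (nat_lit 1071239469090) (nat_lit 0) (nat_lit 464017650088) (nat_lit 5) (nat_lit 5) (nat_lit 7) (nat_lit 4) (nat_lit 5) (nat_lit 4) (nat_lit 359) (nat_lit 306) (nat_lit 115)) (XT.lf (nat_lit 0) (nat_lit 1272808315616) (nat_lit 152) (nat_lit 668571764992) (nat_lit 0) (nat_lit 755747655314) (nat_lit 5) (nat_lit 5) (nat_lit 7) (nat_lit 4) (nat_lit 5) (nat_lit 4) (nat_lit 360) (nat_lit 306) (nat_lit 114)))) (XT.nd (nat_lit 36426) (nat_lit 0) (nat_lit 3116) (XT.nd (nat_lit 78) (nat_lit 76) (nat_lit 0) (XT.lf (nat_lit 0) (nat_lit 1587876723344) (nat_lit 152) (nat_lit 233690673347) (nat_lit 0) (nat_lit 1070816048391) (nat_lit 5) (nat_lit 5) (nat_lit 7) (nat_lit 4) (nat_lit 5) (nat_lit 4) (nat_lit 361) (nat_lit 306) (nat_lit 113)) (XT.lf (nat_lit 0) (nat_lit 248407213871) (nat_lit 76) (nat_lit 1685717575391) (nat_lit 76) (nat_lit 1168656886874)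 (nat_lit 4) (nat_lit 4) (nat_lit 5) (nat_lit 5) (nat_lit 5) (nat_lit 4) (nat_lit 362) (nat_lit 306) (nat_lit 112))) (XT.nd (nat_lit 78) (nat_lit 0) (nat_lit 0) (XT.lf (nat_lit 0) (nat_lit 48960026661) (nat_lit 532) (nat_lit 13530244268) (nat_lit 532) (nat_lit 13530244268) (nat_lit 45) (nat_lit 3) (nat_lit 52) (nat_lit 3) (nat_lit 52) (nat_lit 5) (nat_lit 307) (nat_lit 307) (nat_lit 166)) (XT.lf (nat_lit 76) (nat_lit 44964642264) (nat_lit 0) (nat_lit 57956205370) (nat_lit 532) (nat_lit 55115097145) (nat_lit 46) (nat_lit 5) (nat_lit 45) (nat_lit 3) (nat_lit 52) (nat_lit 5) (nat_lit 308) (nat_lit 307) (nat_lit 165)))))) (XT.nd (nat_lit 624) (nat_lit 836) (nat_lit 0) (XT.nd (nat_lit 312) (nat_lit 608) (nat_lit 0) (XT.nd (nat_lit 156) (nat_lit 0) (nat_lit 0) (XT.nd (nat_lit 78) (nat_lit 0) (nat_lit 0) (XT.lf (nat_lit 0) (nat_lit 109427588577) (nat_lit 456) (nat_lit 40526958029) (nat_lit 532)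 (nat_lit 14467435807) (nat_lit 46) (nat_lit 5) (nat_lit 52) (nat_lit 5) (nat_lit 53) (nat_lit 5) (nat_lit 309) (nat_lit 307) (nat_lit 164)) (XT.lf (nat_lit 76) (nat_lit 38227724066) (nat_lit 0) (nat_lit 80651637602) (nat_lit 532) (nat_lit 52245582651) (nat_lit 47) (nat_lit 5) (nat_lit 46) (nat_lit 5) (nat_lit 53) (nat_lit 5) (nat_lit 310) (nat_lit 307) (nat_lit 163))) (XT.nd (nat_lit 78) (nat_lit 0) (nat_lit 76) (XT.lf (nat_lit 76) (nat_lit 125587429237) (nat_lit 0) (nat_lit 4607699527) (nat_lit 532) (nat_lit 48080386882) (nat_lit 47) (nat_lit 5) (nat_lit 46) (nat_lit 5) (nat_lit 53) (nat_lit 5) (nat_lit 311) (nat_lit 307) (nat_lit 162)) (XT.lf (nat_lit 76) (nat_lit 33762184450) (nat_lit 0) (nat_lit 111330097744) (nat_lit 532) (nat_lit 40691761079) (nat_lit 48) (nat_lit 5) (nat_lit 47) (nat_lit 5) (nat_lit 54) (nat_lit 5) (nat_lit 312) (nat_lit 307) (nat_lit 161)))) (XT.nd (nat_lit 156)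 (nat_lit 304) (nat_lit 0) (XT.nd (nat_lit 78) (nat_lit 380) (nat_lit 0) (XT.lf (nat_lit 76) (nat_lit 129998753635) (nat_lit 0) (nat_lit 32739493829) (nat_lit 532) (nat_lit 31030443028) (nat_lit 48) (nat_lit 5) (nat_lit 47) (nat_lit 5) (nat_lit 54) (nat_lit 5) (nat_lit 313) (nat_lit 307) (nat_lit 160)) (XT.lf (nat_lit 0) (nat_lit 31882961988) (nat_lit 456) (nat_lit 151933461452) (nat_lit 532) (nat_lit 18414043879) (nat_lit 42) (nat_lit 5) (nat_lit 48) (nat_lit 5) (nat_lit 49) (nat_lit 5) (nat_lit 314) (nat_lit 307) (nat_lit 159))) (XT.nd (nat_lit 78) (nat_lit 304) (nat_lit 0) (XT.lf (nat_lit 0) (nat_lit 137919430912) (nat_lit 456) (nat_lit 71233681925) (nat_lit 532) (nat_lit 2010293177) (nat_lit 42) (nat_lit 5) (nat_lit 48) (nat_lit 5) (nat_lit 49) (nat_lit 5) (nat_lit 315) (nat_lit 307) (nat_lit 158)) (XT.lf (nat_lit 0) (nat_lit 16124353270) (nat_lit 304) (nat_lit 188235245991) (nat_lit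 76) (nat_lit 16324822137) (nat_lit 38) (nat_lit 5) (nat_lit 42) (nat_lit 5) (nat_lit 39) (nat_lit 5) (nat_lit 316) (nat_lit 307) (nat_lit 157))))) (XT.nd (nat_lit 312) (nat_lit 380) (nat_lit 0) (XT.nd (nat_lit 156) (nat_lit 228) (nat_lit 0) (XT.nd (nat_lit 78) (nat_lit 228) (nat_lit 0) (XT.lf (nat_lit 0) (nat_lit 39505870088) (nat_lit 304) (nat_lit 81998302704) (nat_lit 76) (nat_lit 109146391823) (nat_lit 38) (nat_lit 5) (nat_lit 42) (nat_lit 5) (nat_lit 39) (nat_lit 5) (nat_lit 317) (nat_lit 307) (nat_lit 156)) (XT.lf (nat_lit 0) (nat_lit 34461339010) (nat_lit 228) (nat_lit 31125221766) (nat_lit 304) (nat_lit 175761146658) (nat_lit 35) (nat_lit 5) (nat_lit 38) (nat_lit 5) (nat_lit 39) (nat_lit 5) (nat_lit 318) (nat_lit 307) (nat_lit 155))) (XT.nd (nat_lit 78) (nat_lit 228) (nat_lit 0) (XT.lf (nat_lit 0) (nat_lit 97652724980) (nat_lit 304) (nat_lit 89477531131) (nat_lit 76) (nat_lit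 65458444427) (nat_lit 35) (nat_lit 5) (nat_lit 39) (nat_lit 5) (nat_lit 36) (nat_lit 5) (nat_lit 319) (nat_lit 307) (nat_lit 154)) (XT.lf (nat_lit 0) (nat_lit 38438255008) (nat_lit 228) (nat_lit 95578688959) (nat_lit 304) (nat_lit 130573408489) (nat_lit 32) (nat_lit 5) (nat_lit 35) (nat_lit 5) (nat_lit 36) (nat_lit 5) (nat_lit 320) (nat_lit 307) (nat_lit 153)))) (XT.nd (nat_lit 156) (nat_lit 228) (nat_lit 0) (XT.nd (nat_lit 78) (nat_lit 152) (nat_lit 0) (XT.lf (nat_lit 0) (nat_lit 175879491260) (nat_lit 304) (nat_lit 95823439495) (nat_lit 76) (nat_lit 5642070782) (nat_lit 32) (nat_lit 5) (nat_lit 36) (nat_lit 5) (nat_lit 33) (nat_lit 5) (nat_lit 321) (nat_lit 307) (nat_lit 152)) (XT.lf (nat_lit 0) (nat_lit 44684084367) (nat_lit 152) (nat_lit 179964062322) (nat_lit 228) (nat_lit 66187307761) (nat_lit 30) (nat_lit 5) (nat_lit 32) (nat_lit 5) (nat_lit 33) (nat_lit 5) (nat_lit 322) (nat_lit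 307) (nat_lit 151))) (XT.nd (nat_lit 78) (nat_lit 228) (nat_lit 0) (XT.lf (nat_lit 0) (nat_lit 201881635403) (nat_lit 152) (nat_lit 78056534484) (nat_lit 228) (nat_lit 25257383918) (nat_lit 30) (nat_lit 5) (nat_lit 32) (nat_lit 5) (nat_lit 33) (nat_lit 5) (nat_lit 323) (nat_lit 307) (nat_lit 150)) (XT.lf (nat_lit 0) (nat_lit 20092102685) (nat_lit 228) (nat_lit 268226789981) (nat_lit 76) (nat_lit 32181677010) (nat_lit 27) (nat_lit 5) (nat_lit 30) (nat_lit 5) (nat_lit 28) (nat_lit 5) (nat_lit 324) (nat_lit 307) (nat_lit 149))))))))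
noncomputable def xc113 : XT := (XT.nd (nat_lit 2418) (nat_lit 152) (nat_lit 0) (XT.nd (nat_lit 1170) (nat_lit 532) (nat_lit 0) (XT.nd (nat_lit 546) (nat_lit 532) (nat_lit 0) (XT.nd (nat_lit 234) (nat_lit 304) (nat_lit 0) (XT.nd (nat_lit 78) (nat_lit 152) (nat_lit 0) (XT.lf (nat_lit 0) (nat_lit 72630494058) (nat_lit 228) (nat_lit 113376943477) (nat_lit 76) (nat_lit 150576026542) (nat_lit 27) (nat_lit 5) (nat_lit 30) (nat_lit 5) (nat_lit 28) (nat_lit 5) (nat_lit 325) (nat_lit 307) (nat_lit 148)) (XT.nd (nat_lit 78) (nat_lit 0) (nat_lit 0) (XT.lf (nat_lit 0) (nat_lit 56696975509) (nat_lit 152) (nat_lit 74038453638) (nat_lit 228) (nat_lit 223108483267) (nat_lit 25) (nat_lit 5) (nat_lit 27) (nat_lit 5) (nat_lit 28) (nat_lit 5) (nat_lit 326) (nat_lit 307) (nat_lit 147)) (XT.lf (nat_lit 0) (nat_lit 197796773536) (nat_lit 228) (nat_lit 126620854133) (nat_lit 76) (nat_lit 47722927946) (nat_lit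 25) (nat_lit 5) (nat_lit 28) (nat_lit 5) (nat_lit 26) (nat_lit 5) (nat_lit 327) (nat_lit 307) (nat_lit 146)))) (XT.nd (nat_lit 156) (nat_lit 152) (nat_lit 0) (XT.nd (nat_lit 78) (nat_lit 0) (nat_lit 0) (XT.lf (nat_lit 0) (nat_lit 58553185060) (nat_lit 152) (nat_lit 215001040846) (nat_lit 228) (nat_lit 118080208482) (nat_lit 23) (nat_lit 5) (nat_lit 25) (nat_lit 5) (nat_lit 26) (nat_lit 5) (nat_lit 328) (nat_lit 307) (nat_lit 145)) (XT.lf (nat_lit 0) (nat_lit 265742069682) (nat_lit 152) (nat_lit 93092164755) (nat_lit 228) (nat_lit 53576632365) (nat_lit 23) (nat_lit 5) (nat_lit 25) (nat_lit 5) (nat_lit 26) (nat_lit 5) (nat_lit 329) (nat_lit 307) (nat_lit 144))) (XT.nd (nat_lit 78) (nat_lit 0) (nat_lit 0) (XT.lf (nat_lit 0) (nat_lit 17629651615) (nat_lit 152) (nat_lit 378554501991) (nat_lit 76) (nat_lit 38446534845) (nat_lit 21) (nat_lit 5) (nat_lit 23) (nat_lit 5) (nat_lit 22) (nat_lit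 5) (nat_lit 330) (nat_lit 307) (nat_lit 143)) (XT.lf (nat_lit 0) (nat_lit 98170159546) (nat_lit 152) (nat_lit 178839182926) (nat_lit 76) (nat_lit 180984845325) (nat_lit 21) (nat_lit 5) (nat_lit 23) (nat_lit 5) (nat_lit 22) (nat_lit 5) (nat_lit 331) (nat_lit 307) (nat_lit 142))))) (XT.nd (nat_lit 312) (nat_lit 304) (nat_lit 0) (XT.nd (nat_lit 156) (nat_lit 76) (nat_lit 0) (XT.nd (nat_lit 78) (nat_lit 0) (nat_lit 0) (XT.lf (nat_lit 0) (nat_lit 38793882027) (nat_lit 152) (nat_lit 147292952469) (nat_lit 228) (nat_lit 297065298584) (nat_lit 19) (nat_lit 5) (nat_lit 21) (nat_lit 5) (nat_lit 22) (nat_lit 5) (nat_lit 332) (nat_lit 307) (nat_lit 141)) (XT.lf (nat_lit 0) (nat_lit 284008230947) (nat_lit 152) (nat_lit 1918327769) (nat_lit 228) (nat_lit 224004978142) (nat_lit 19) (nat_lit 5) (nat_lit 21) (nat_lit 5) (nat_lit 22) (nat_lit 5) (nat_lit 333) (nat_lit 307) (nat_lit 140))) (XT.nd (nat_lit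 78) (nat_lit 0) (nat_lit 0) (XT.lf (nat_lit 0) (nat_lit 6585962567) (nat_lit 76) (nat_lit 391055658332) (nat_lit 152) (nat_lit 140900619323) (nat_lit 18) (nat_lit 5) (nat_lit 19) (nat_lit 5) (nat_lit 20) (nat_lit 4) (nat_lit 334) (nat_lit 307) (nat_lit 139)) (XT.lf (nat_lit 0) (nat_lit 270491882829) (nat_lit 76) (nat_lit 254027655225) (nat_lit 152) (nat_lit 44424209881) (nat_lit 18) (nat_lit 5) (nat_lit 19) (nat_lit 5) (nat_lit 20) (nat_lit 4) (nat_lit 335) (nat_lit 307) (nat_lit 138)))) (XT.nd (nat_lit 156) (nat_lit 76) (nat_lit 0) (XT.nd (nat_lit 78) (nat_lit 152) (nat_lit 0) (XT.lf (nat_lit 0) (nat_lit 56780303278) (nat_lit 152) (nat_lit 47704670579) (nat_lit 76) (nat_lit 497177408757) (nat_lit 17) (nat_lit 5) (nat_lit 19) (nat_lit 5) (nat_lit 18) (nat_lit 5) (nat_lit 336) (nat_lit 307) (nat_lit 137)) (XT.lf (nat_lit 0) (nat_lit 170847285671) (nat_lit 228) (nat_lit 404368219151) (nat_lit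 76) (nat_lit 61117399711) (nat_lit 15) (nat_lit 5) (nat_lit 18) (nat_lit 5) (nat_lit 16) (nat_lit 4) (nat_lit 337) (nat_lit 307) (nat_lit 136))) (XT.nd (nat_lit 78) (nat_lit 76) (nat_lit 0) (XT.lf (nat_lit 0) (nat_lit 298091680198) (nat_lit 228) (nat_lit 139699986894) (nat_lit 76) (nat_lit 235661236889) (nat_lit 15) (nat_lit 5) (nat_lit 18) (nat_lit 5) (nat_lit 16) (nat_lit 4) (nat_lit 338) (nat_lit 307) (nat_lit 135)) (XT.lf (nat_lit 0) (nat_lit 153837181626) (nat_lit 76) (nat_lit 285378185520) (nat_lit 152) (nat_lit 274031157024) (nat_lit 14) (nat_lit 5) (nat_lit 15) (nat_lit 5) (nat_lit 16) (nat_lit 4) (nat_lit 339) (nat_lit 307) (nat_lit 134)))))) (XT.nd (nat_lit 624) (nat_lit 228) (nat_lit 0) (XT.nd (nat_lit 312) (nat_lit 152) (nat_lit 0) (XT.nd (nat_lit 156) (nat_lit 76) (nat_lit 0) (XT.nd (nat_lit 78) (nat_lit 76) (nat_lit 0) (XT.lf (nat_lit 0) (nat_lit 478802106537) (nat_lit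 76) (nat_lit 116646442249) (nat_lit 152) (nat_lit 160469517260) (nat_lit 14) (nat_lit 5) (nat_lit 15) (nat_lit 5) (nat_lit 16) (nat_lit 4) (nat_lit 340) (nat_lit 307) (nat_lit 133)) (XT.lf (nat_lit 0) (nat_lit 27562303332) (nat_lit 76) (nat_lit 738858205768) (nat_lit 76) (nat_lit 35403612288) (nat_lit 13) (nat_lit 4) (nat_lit 14) (nat_lit 5) (nat_lit 14) (nat_lit 4) (nat_lit 341) (nat_lit 307) (nat_lit 132))) (XT.nd (nat_lit 78) (nat_lit 0) (nat_lit 0) (XT.lf (nat_lit 0) (nat_lit 105485167461) (nat_lit 152) (nat_lit 484045518906) (nat_lit 76) (nat_lit 260815944031) (nat_lit 12) (nat_lit 5) (nat_lit 14) (nat_lit 5) (nat_lit 13) (nat_lit 4) (nat_lit 342) (nat_lit 307) (nat_lit 131)) (XT.lf (nat_lit 0) (nat_lit 255732295527) (nat_lit 152) (nat_lit 171531560814) (nat_lit 76) (nat_lit 475413521033) (nat_lit 12) (nat_lit 5) (nat_lit 14) (nat_lit 5) (nat_lit 13) (nat_lit 4) (nat_lit 343) (nat_lit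 307) (nat_lit 130)))) (XT.nd (nat_lit 156) (nat_lit 76) (nat_lit 0) (XT.nd (nat_lit 78) (nat_lit 0) (nat_lit 0) (XT.lf (nat_lit 0) (nat_lit 174723842766) (nat_lit 76) (nat_lit 247477427187) (nat_lit 152) (nat_lit 536657148099) (nat_lit 11) (nat_lit 5) (nat_lit 12) (nat_lit 5) (nat_lit 13) (nat_lit 4) (nat_lit 344) (nat_lit 307) (nat_lit 129)) (XT.lf (nat_lit 0) (nat_lit 558434766732) (nat_lit 76) (nat_lit 48242937120) (nat_lit 152) (nat_lit 412481042843) (nat_lit 11) (nat_lit 5) (nat_lit 12) (nat_lit 5) (nat_lit 13) (nat_lit 4) (nat_lit 345) (nat_lit 307) (nat_lit 128))) (XT.nd (nat_lit 78) (nat_lit 76) (nat_lit 0) (XT.lf (nat_lit 0) (nat_lit 809926897134) (nat_lit 152) (nat_lit 115455276082) (nat_lit 0) (nat_lit 158579756868) (nat_lit 11) (nat_lit 5) (nat_lit 13) (nat_lit 4) (nat_lit 11) (nat_lit 4) (nat_lit 346) (nat_lit 307) (nat_lit 127)) (XT.lf (nat_lit 0) (nat_lit 269671884103)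 (nat_lit 76) (nat_lit 767502789496) (nat_lit 76) (nat_lit 116155602757) (nat_lit 10) (nat_lit 4) (nat_lit 11) (nat_lit 5) (nat_lit 11) (nat_lit 4) (nat_lit 347) (nat_lit 307) (nat_lit 126))))) (XT.nd (nat_lit 312) (nat_lit 76) (nat_lit 0) (XT.nd (nat_lit 156) (nat_lit 76) (nat_lit 0) (XT.nd (nat_lit 78) (nat_lit 0) (nat_lit 0) (XT.lf (nat_lit 0) (nat_lit 54873880228) (nat_lit 152) (nat_lit 537209558894) (nat_lit 76) (nat_lit 635800976504) (nat_lit 9) (nat_lit 5) (nat_lit 11) (nat_lit 5) (nat_lit 10) (nat_lit 4) (nat_lit 348) (nat_lit 307) (nat_lit 125)) (XT.lf (nat_lit 0) (nat_lit 233310273833) (nat_lit 152) (nat_lit 166061900039) (nat_lit 76) (nat_lit 908789352171) (nat_lit 9) (nat_lit 5) (nat_lit 11) (nat_lit 5) (nat_lit 10) (nat_lit 4) (nat_lit 349) (nat_lit 307) (nat_lit 124))) (XT.nd (nat_lit 78) (nat_lit 0) (nat_lit 0) (XT.lf (nat_lit 0) (nat_lit 247140491176) (nat_lit 76) (nat_lit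 184824796170) (nat_lit 152) (nat_lit 962420021295) (nat_lit 8) (nat_lit 5) (nat_lit 9) (nat_lit 5) (nat_lit 10) (nat_lit 4) (nat_lit 350) (nat_lit 307) (nat_lit 123)) (XT.lf (nat_lit 0) (nat_lit 652298654051) (nat_lit 152) (nat_lit 785546199099) (nat_lit 0) (nat_lit 49199264546) (nat_lit 8) (nat_lit 5) (nat_lit 10) (nat_lit 4) (nat_lit 8) (nat_lit 4) (nat_lit 351) (nat_lit 307) (nat_lit 122)))) (XT.nd (nat_lit 156) (nat_lit 0) (nat_lit 0) (XT.nd (nat_lit 78) (nat_lit 76) (nat_lit 0) (XT.lf (nat_lit 0) (nat_lit 895059310026) (nat_lit 152) (nat_lit 399712380637) (nat_lit 0) (nat_lit 291959891235) (nat_lit 8) (nat_lit 5) (nat_lit 10) (nat_lit 4) (nat_lit 8) (nat_lit 4) (nat_lit 352) (nat_lit 307) (nat_lit 121)) (XT.lf (nat_lit 0) (nat_lit 17882664651) (nat_lit 76) (nat_lit 1139788210007) (nat_lit 76) (nat_lit 536688764100) (nat_lit 7) (nat_lit 4) (nat_lit 8) (nat_lit 5) (nat_lit 8) (nat_lit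 4) (nat_lit 353) (nat_lit 307) (nat_lit 120))) (XT.nd (nat_lit 78) (nat_lit 0) (nat_lit 0) (XT.lf (nat_lit 0) (nat_lit 491617269927) (nat_lit 76) (nat_lit 960602917707) (nat_lit 76) (nat_lit 357503446692) (nat_lit 7) (nat_lit 4) (nat_lit 8) (nat_lit 5) (nat_lit 8) (nat_lit 4) (nat_lit 354) (nat_lit 307) (nat_lit 119)) (XT.lf (nat_lit 0) (nat_lit 1003250605756) (nat_lit 76) (nat_lit 767082819834) (nat_lit 76) (nat_lit 163983325570) (nat_lit 7) (nat_lit 4) (nat_lit 8) (nat_lit 5) (nat_lit 8) (nat_lit 4) (nat_lit 355) (nat_lit 307) (nat_lit 118))))))) (XT.nd (nat_lit 37674) (nat_lit 0) (nat_lit 1064) (XT.nd (nat_lit 37050) (nat_lit 0) (nat_lit 2508) (XT.nd (nat_lit 312) (nat_lit 0) (nat_lit 0) (XT.nd (nat_lit 156) (nat_lit 76) (nat_lit 0) (XT.nd (nat_lit 78) (nat_lit 0) (nat_lit 0) (XT.lf (nat_lit 0) (nat_lit 42766383217) (nat_lit 152) (nat_lit 514145438697) (nat_lit 76) (nat_lit 1511878881464)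 (nat_lit 6) (nat_lit 5) (nat_lit 8) (nat_lit 5) (nat_lit 7) (nat_lit 4) (nat_lit 356) (nat_lit 307) (nat_lit 117)) (XT.lf (nat_lit 0) (nat_lit 257196692164) (nat_lit 152) (nat_lit 68130416019) (nat_lit 76) (nat_lit 1888354720442) (nat_lit 6) (nat_lit 5) (nat_lit 8) (nat_lit 5) (nat_lit 7) (nat_lit 4) (nat_lit 357) (nat_lit 307) (nat_lit 116))) (XT.nd (nat_lit 78) (nat_lit 0) (nat_lit 0) (XT.lf (nat_lit 0) (nat_lit 435343418485) (nat_lit 76) (nat_lit 63908010678) (nat_lit 152) (nat_lit 1870075214471) (nat_lit 5) (nat_lit 5) (nat_lit 6) (nat_lit 5) (nat_lit 7) (nat_lit 4) (nat_lit 358) (nat_lit 307) (nat_lit 115)) (XT.lf (nat_lit 0) (nat_lit 767834837044) (nat_lit 152) (nat_lit 1559605755361) (nat_lit 0) (nat_lit 209409308095) (nat_lit 5) (nat_lit 5) (nat_lit 7) (nat_lit 4) (nat_lit 5) (nat_lit 4) (nat_lit 359) (nat_lit 307) (nat_lit 114)))) (XT.nd (nat_lit 36582) (nat_lit 0) (nat_lit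 3040) (XT.nd (nat_lit 78) (nat_lit 0) (nat_lit 0) (XT.lf (nat_lit 0) (nat_lit 1059564850878) (nat_lit 152) (nat_lit 1156938065100) (nat_lit 0) (nat_lit 501139307280) (nat_lit 5) (nat_lit 5) (nat_lit 7) (nat_lit 4) (nat_lit 5) (nat_lit 4) (nat_lit 360) (nat_lit 307) (nat_lit 113)) (XT.lf (nat_lit 0) (nat_lit 1374633251926) (nat_lit 152) (nat_lit 722056986268) (nat_lit 0) (nat_lit 816207694762) (nat_lit 5) (nat_lit 5) (nat_lit 7) (nat_lit 4) (nat_lit 5) (nat_lit 4) (nat_lit 361) (nat_lit 307) (nat_lit 112))) (XT.nd (nat_lit 78) (nat_lit 0) (nat_lit 0) (XT.lf (nat_lit 0) (nat_lit 52879357921) (nat_lit 532) (nat_lit 14611294442) (nat_lit 532) (nat_lit 14611294442) (nat_lit 45) (nat_lit 3) (nat_lit 52) (nat_lit 3) (nat_lit 52) (nat_lit 5) (nat_lit 308) (nat_lit 308) (nat_lit 164)) (XT.lf (nat_lit 76) (nat_lit 48564483044) (nat_lit 0) (nat_lit 62594780168) (nat_lit 532) (nat_lit 59519163851)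 (nat_lit 46) (nat_lit 5) (nat_lit 45) (nat_lit 3) (nat_lit 52) (nat_lit 5) (nat_lit 309) (nat_lit 308) (nat_lit 163))))) (XT.nd (nat_lit 312) (nat_lit 608) (nat_lit 0) (XT.nd (nat_lit 156) (nat_lit 0) (nat_lit 0) (XT.nd (nat_lit 78) (nat_lit 0) (nat_lit 0) (XT.lf (nat_lit 0) (nat_lit 118186145462) (nat_lit 456) (nat_lit 43766232558) (nat_lit 532) (nat_lit 15623002524) (nat_lit 46) (nat_lit 5) (nat_lit 52) (nat_lit 5) (nat_lit 53) (nat_lit 5) (nat_lit 310) (nat_lit 308) (nat_lit 162)) (XT.lf (nat_lit 76) (nat_lit 41288751140) (nat_lit 0) (nat_lit 87105054613) (nat_lit 532) (nat_lit 56420794946) (nat_lit 47) (nat_lit 5) (nat_lit 46) (nat_lit 5) (nat_lit 53) (nat_lit 5) (nat_lit 311) (nat_lit 308) (nat_lit 161))) (XT.nd (nat_lit 78) (nat_lit 0) (nat_lit 76) (XT.lf (nat_lit 76) (nat_lit 135637024639) (nat_lit 0) (nat_lit 4977506232) (nat_lit 532) (nat_lit 51922711983) (nat_lit 47) (nat_lit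 5) (nat_lit 46) (nat_lit 5) (nat_lit 53) (nat_lit 5) (nat_lit 312) (nat_lit 308) (nat_lit 160)) (XT.lf (nat_lit 76) (nat_lit 36466028424) (nat_lit 0) (nat_lit 120237189765) (nat_lit 532) (nat_lit 43943254365) (nat_lit 48) (nat_lit 5) (nat_lit 47) (nat_lit 5) (nat_lit 54) (nat_lit 5) (nat_lit 313) (nat_lit 308) (nat_lit 159)))) (XT.nd (nat_lit 156) (nat_lit 304) (nat_lit 0) (XT.nd (nat_lit 78) (nat_lit 380) (nat_lit 0) (XT.lf (nat_lit 76) (nat_lit 140401310610) (nat_lit 0) (nat_lit 35359286856) (nat_lit 532) (nat_lit 33509315877) (nat_lit 48) (nat_lit 5) (nat_lit 47) (nat_lit 5) (nat_lit 54) (nat_lit 5) (nat_lit 314) (nat_lit 308) (nat_lit 158)) (XT.lf (nat_lit 0) (nat_lit 34436468716) (nat_lit 456) (nat_lit 164088369995) (nat_lit 532) (nat_lit 19883809389) (nat_lit 42) (nat_lit 5) (nat_lit 48) (nat_lit 5) (nat_lit 49) (nat_lit 5) (nat_lit 315) (nat_lit 308) (nat_lit 157))) (XT.nd (nat_lit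 78) (nat_lit 304) (nat_lit 0) (XT.lf (nat_lit 0) (nat_lit 148955642579) (nat_lit 456) (nat_lit 76932590949) (nat_lit 532) (nat_lit 2168007372) (nat_lit 42) (nat_lit 5) (nat_lit 48) (nat_lit 5) (nat_lit 49) (nat_lit 5) (nat_lit 316) (nat_lit 308) (nat_lit 156)) (XT.lf (nat_lit 0) (nat_lit 17417101303) (nat_lit 304) (nat_lit 203291084966) (nat_lit 76) (nat_lit 17630758117) (nat_lit 38) (nat_lit 5) (nat_lit 42) (nat_lit 5) (nat_lit 39) (nat_lit 5) (nat_lit 317) (nat_lit 308) (nat_lit 155)))))) (XT.nd (nat_lit 624) (nat_lit 608) (nat_lit 0) (XT.nd (nat_lit 312) (nat_lit 380) (nat_lit 0) (XT.nd (nat_lit 156) (nat_lit 228) (nat_lit 0) (XT.nd (nat_lit 78) (nat_lit 228) (nat_lit 0) (XT.lf (nat_lit 0) (nat_lit 42668932076) (nat_lit 304) (nat_lit 88555407009) (nat_lit 76) (nat_lit 117878057067) (nat_lit 38) (nat_lit 5) (nat_lit 42) (nat_lit 5) (nat_lit 39) (nat_lit 5) (nat_lit 318) (nat_lit 308)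 (nat_lit 154)) (XT.lf (nat_lit 0) (nat_lit 37220936171) (nat_lit 228) (nat_lit 33615014515) (nat_lit 304) (nat_lit 189819370359) (nat_lit 35) (nat_lit 5) (nat_lit 38) (nat_lit 5) (nat_lit 39) (nat_lit 5) (nat_lit 319) (nat_lit 308) (nat_lit 153))) (XT.nd (nat_lit 78) (nat_lit 228) (nat_lit 0) (XT.lf (nat_lit 0) (nat_lit 105467230440) (nat_lit 304) (nat_lit 96633059906) (nat_lit 76) (nat_lit 70695317886) (nat_lit 35) (nat_lit 5) (nat_lit 39) (nat_lit 5) (nat_lit 36) (nat_lit 5) (nat_lit 320) (nat_lit 308) (nat_lit 152)) (XT.lf (nat_lit 0) (nat_lit 41515921435) (nat_lit 228) (nat_lit 103224558744) (nat_lit 304) (nat_lit 141016921061) (nat_lit 32) (nat_lit 5) (nat_lit 35) (nat_lit 5) (nat_lit 36) (nat_lit 5) (nat_lit 321) (nat_lit 308) (nat_lit 151)))) (XT.nd (nat_lit 156) (nat_lit 228) (nat_lit 0) (XT.nd (nat_lit 78) (nat_lit 152) (nat_lit 0) (XT.lf (nat_lit 0) (nat_lit 189951879195) (nat_lit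 304) (nat_lit 103486745017) (nat_lit 76) (nat_lit 6093810569) (nat_lit 32) (nat_lit 5) (nat_lit 36) (nat_lit 5) (nat_lit 33) (nat_lit 5) (nat_lit 322) (nat_lit 308) (nat_lit 150)) (XT.lf (nat_lit 0) (nat_lit 48261315700) (nat_lit 152) (nat_lit 194360621325) (nat_lit 228) (nat_lit 71480194445) (nat_lit 30) (nat_lit 5) (nat_lit 32) (nat_lit 5) (nat_lit 33) (nat_lit 5) (nat_lit 323) (nat_lit 308) (nat_lit 149))) (XT.nd (nat_lit 78) (nat_lit 228) (nat_lit 0) (XT.lf (nat_lit 0) (nat_lit 218034485294) (nat_lit 152) (nat_lit 84300533184) (nat_lit 228) (nat_lit 27276032097) (nat_lit 30) (nat_lit 5) (nat_lit 32) (nat_lit 5) (nat_lit 33) (nat_lit 5) (nat_lit 324) (nat_lit 308) (nat_lit 148)) (XT.lf (nat_lit 0) (nat_lit 21701250558) (nat_lit 228) (nat_lit 289682444230) (nat_lit 76) (nat_lit 34756774716) (nat_lit 27) (nat_lit 5) (nat_lit 30) (nat_lit 5) (nat_lit 28) (nat_lit 5) (nat_lit 325) (nat_lit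 308) (nat_lit 147))))) (XT.nd (nat_lit 312) (nat_lit 304) (nat_lit 0) (XT.nd (nat_lit 156) (nat_lit 152) (nat_lit 0) (XT.nd (nat_lit 78) (nat_lit 152) (nat_lit 0) (XT.lf (nat_lit 0) (nat_lit 78442581415) (nat_lit 228) (nat_lit 122444794373) (nat_lit 76) (nat_lit 162622630467) (nat_lit 27) (nat_lit 5) (nat_lit 30) (nat_lit 5) (nat_lit 28) (nat_lit 5) (nat_lit 326) (nat_lit 308) (nat_lit 146)) (XT.lf (nat_lit 0) (nat_lit 61234979788) (nat_lit 152) (nat_lit 79960863483) (nat_lit 228) (nat_lit 240955452861) (nat_lit 25) (nat_lit 5) (nat_lit 27) (nat_lit 5) (nat_lit 28) (nat_lit 5) (nat_lit 327) (nat_lit 308) (nat_lit 145))) (XT.nd (nat_lit 78) (nat_lit 152) (nat_lit 0) (XT.lf (nat_lit 0) (nat_lit 213621993031) (nat_lit 228) (nat_lit 136748337755) (nat_lit 76) (nat_lit 51541348393) (nat_lit 25) (nat_lit 5) (nat_lit 28) (nat_lit 5) (nat_lit 26) (nat_lit 5) (nat_lit 328) (nat_lit 308) (nat_lit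 144)) (XT.lf (nat_lit 0) (nat_lit 63239569265) (nat_lit 152) (nat_lit 232200414085) (nat_lit 228) (nat_lit 127525089761) (nat_lit 23) (nat_lit 5) (nat_lit 25) (nat_lit 5) (nat_lit 26) (nat_lit 5) (nat_lit 329) (nat_lit 308) (nat_lit 143)))) (XT.nd (nat_lit 156) (nat_lit 152) (nat_lit 0) (XT.nd (nat_lit 78) (nat_lit 152) (nat_lit 0) (XT.lf (nat_lit 0) (nat_lit 287003406923) (nat_lit 152) (nat_lit 100538880501) (nat_lit 228) (nat_lit 57861341287) (nat_lit 23) (nat_lit 5) (nat_lit 25) (nat_lit 5) (nat_lit 26) (nat_lit 5) (nat_lit 330) (nat_lit 308) (nat_lit 142)) (XT.lf (nat_lit 0) (nat_lit 19041338896) (nat_lit 152) (nat_lit 408836779875) (nat_lit 76) (nat_lit 41522917577) (nat_lit 21) (nat_lit 5) (nat_lit 23) (nat_lit 5) (nat_lit 22) (nat_lit 5) (nat_lit 331) (nat_lit 308) (nat_lit 141))) (XT.nd (nat_lit 78) (nat_lit 152) (nat_lit 0) (XT.lf (nat_lit 0) (nat_lit 106024990042) (nat_lit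 152) (nat_lit 193144389528) (nat_lit 76) (nat_lit 195464244010) (nat_lit 21) (nat_lit 5) (nat_lit 23) (nat_lit 5) (nat_lit 22) (nat_lit 5) (nat_lit 332) (nat_lit 308) (nat_lit 140)) (XT.lf (nat_lit 0) (nat_lit 41899271811) (nat_lit 152) (nat_lit 159075682171) (nat_lit 228) (nat_lit 320829254240) (nat_lit 19) (nat_lit 5) (nat_lit 21) (nat_lit 5) (nat_lit 22) (nat_lit 5) (nat_lit 333) (nat_lit 308) (nat_lit 139))))))))
noncomputable def xc114 : XT := (XT.nd (nat_lit 38922) (nat_lit 0) (nat_lit 608) (XT.nd (nat_lit 1170) (nat_lit 380) (nat_lit 0) (XT.nd (nat_lit 546) (nat_lit 304) (nat_lit 0) (XT.nd (nat_lit 234) (nat_lit 304) (nat_lit 0) (XT.nd (nat_lit 78) (nat_lit 76) (nat_lit 0) (XT.lf (nat_lit 0) (nat_lit 306730629443) (nat_lit 152) (nat_lit 2071139827) (nat_lit 228) (nat_lit 241924202106) (nat_lit 19) (nat_lit 5) (nat_lit 21) (nat_lit 5) (nat_lit 22) (nat_lit 5) (nat_lit 334) (nat_lit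 308) (nat_lit 138)) (XT.nd (nat_lit 78) (nat_lit 0) (nat_lit 0) (XT.lf (nat_lit 0) (nat_lit 7114606399) (nat_lit 76) (nat_lit 422339406654) (nat_lit 152) (nat_lit 152171519941) (nat_lit 18) (nat_lit 5) (nat_lit 19) (nat_lit 5) (nat_lit 20) (nat_lit 4) (nat_lit 335) (nat_lit 308) (nat_lit 137)) (XT.lf (nat_lit 0) (nat_lit 292132869406) (nat_lit 76) (nat_lit 274349215472) (nat_lit 152) (nat_lit 47977082850) (nat_lit 18) (nat_lit 5) (nat_lit 19) (nat_lit 5) (nat_lit 20) (nat_lit 4) (nat_lit 336) (nat_lit 308) (nat_lit 136)))) (XT.nd (nat_lit 156) (nat_lit 76) (nat_lit 0) (XT.nd (nat_lit 78) (nat_lit 152) (nat_lit 0) (XT.lf (nat_lit 0) (nat_lit 61323663286) (nat_lit 152) (nat_lit 51519479033) (nat_lit 76) (nat_lit 536952154897) (nat_lit 17) (nat_lit 5) (nat_lit 19) (nat_lit 5) (nat_lit 18) (nat_lit 5) (nat_lit 337) (nat_lit 308) (nat_lit 135)) (XT.lf (nat_lit 0) (nat_lit 184515986615) (nat_lit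 228) (nat_lit 436716092774) (nat_lit 76) (nat_lit 66007382996) (nat_lit 15) (nat_lit 5) (nat_lit 18) (nat_lit 5) (nat_lit 16) (nat_lit 4) (nat_lit 338) (nat_lit 308) (nat_lit 134))) (XT.nd (nat_lit 78) (nat_lit 76) (nat_lit 0) (XT.lf (nat_lit 0) (nat_lit 321939864698) (nat_lit 228) (nat_lit 150874519262) (nat_lit 76) (nat_lit 254514683348) (nat_lit 15) (nat_lit 5) (nat_lit 18) (nat_lit 5) (nat_lit 16) (nat_lit 4) (nat_lit 339) (nat_lit 308) (nat_lit 133)) (XT.lf (nat_lit 0) (nat_lit 166145585611) (nat_lit 76) (nat_lit 308207832400) (nat_lit 152) (nat_lit 295952761462) (nat_lit 14) (nat_lit 5) (nat_lit 15) (nat_lit 5) (nat_lit 16) (nat_lit 4) (nat_lit 340) (nat_lit 308) (nat_lit 132))))) (XT.nd (nat_lit 312) (nat_lit 152) (nat_lit 0) (XT.nd (nat_lit 156) (nat_lit 76) (nat_lit 0) (XT.nd (nat_lit 78) (nat_lit 76) (nat_lit 0) (XT.lf (nat_lit 0) (nat_lit 517107598629) (nat_lit 76) (nat_lit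 125977594702) (nat_lit 152) (nat_lit 173306256304) (nat_lit 14) (nat_lit 5) (nat_lit 15) (nat_lit 5) (nat_lit 16) (nat_lit 4) (nat_lit 341) (nat_lit 308) (nat_lit 131)) (XT.lf (nat_lit 0) (nat_lit 29768624598) (nat_lit 76) (nat_lit 797966274219) (nat_lit 76) (nat_lit 38235091582) (nat_lit 13) (nat_lit 4) (nat_lit 14) (nat_lit 5) (nat_lit 14) (nat_lit 4) (nat_lit 342) (nat_lit 308) (nat_lit 130))) (XT.nd (nat_lit 78) (nat_lit 0) (nat_lit 0) (XT.lf (nat_lit 0) (nat_lit 113924693066) (nat_lit 152) (nat_lit 522767884284) (nat_lit 76) (nat_lit 281681725834) (nat_lit 12) (nat_lit 5) (nat_lit 14) (nat_lit 5) (nat_lit 13) (nat_lit 4) (nat_lit 343) (nat_lit 308) (nat_lit 129)) (XT.lf (nat_lit 0) (nat_lit 276191538622) (nat_lit 152) (nat_lit 185252904072) (nat_lit 76) (nat_lit 513447071494) (nat_lit 12) (nat_lit 5) (nat_lit 14) (nat_lit 5) (nat_lit 13) (nat_lit 4) (nat_lit 344) (nat_lit 308) (nat_lit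 128)))) (XT.nd (nat_lit 156) (nat_lit 76) (nat_lit 0) (XT.nd (nat_lit 78) (nat_lit 0) (nat_lit 0) (XT.lf (nat_lit 0) (nat_lit 188702901880) (nat_lit 76) (nat_lit 267275107971) (nat_lit 152) (nat_lit 579589030006) (nat_lit 11) (nat_lit 5) (nat_lit 12) (nat_lit 5) (nat_lit 13) (nat_lit 4) (nat_lit 345) (nat_lit 308) (nat_lit 127)) (XT.lf (nat_lit 0) (nat_lit 603110614453) (nat_lit 76) (nat_lit 52101896728) (nat_lit 152) (nat_lit 445478887437) (nat_lit 11) (nat_lit 5) (nat_lit 12) (nat_lit 5) (nat_lit 13) (nat_lit 4) (nat_lit 346) (nat_lit 308) (nat_lit 126))) (XT.nd (nat_lit 78) (nat_lit 76) (nat_lit 0) (XT.lf (nat_lit 0) (nat_lit 874721606732) (nat_lit 152) (nat_lit 124690677092) (nat_lit 0) (nat_lit 171266555549) (nat_lit 11) (nat_lit 5) (nat_lit 13) (nat_lit 4) (nat_lit 11) (nat_lit 4) (nat_lit 347) (nat_lit 308) (nat_lit 125)) (XT.lf (nat_lit 0) (nat_lit 291246630058) (nat_lit 76)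 (nat_lit 828902557871) (nat_lit 76) (nat_lit 125447466845) (nat_lit 10) (nat_lit 4) (nat_lit 11) (nat_lit 5) (nat_lit 11) (nat_lit 4) (nat_lit 348) (nat_lit 308) (nat_lit 124)))))) (XT.nd (nat_lit 624) (nat_lit 152) (nat_lit 0) (XT.nd (nat_lit 312) (nat_lit 76) (nat_lit 0) (XT.nd (nat_lit 156) (nat_lit 76) (nat_lit 0) (XT.nd (nat_lit 78) (nat_lit 0) (nat_lit 0) (XT.lf (nat_lit 0) (nat_lit 59264304454) (nat_lit 152) (nat_lit 580185374652) (nat_lit 76) (nat_lit 686665448275) (nat_lit 9) (nat_lit 5) (nat_lit 11) (nat_lit 5) (nat_lit 10) (nat_lit 4) (nat_lit 349) (nat_lit 308) (nat_lit 123)) (XT.lf (nat_lit 0) (nat_lit 251975571487) (nat_lit 152) (nat_lit 179345973382) (nat_lit 76) (nat_lit 981492864836) (nat_lit 9) (nat_lit 5) (nat_lit 11) (nat_lit 5) (nat_lit 10) (nat_lit 4) (nat_lit 350) (nat_lit 308) (nat_lit 122))) (XT.nd (nat_lit 78) (nat_lit 0) (nat_lit 0) (XT.lf (nat_lit 0) (nat_lit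 266912586886) (nat_lit 76) (nat_lit 199610384552) (nat_lit 152) (nat_lit 1039413124671) (nat_lit 8) (nat_lit 5) (nat_lit 9) (nat_lit 5) (nat_lit 10) (nat_lit 4) (nat_lit 351) (nat_lit 308) (nat_lit 121)) (XT.lf (nat_lit 0) (nat_lit 704482982126) (nat_lit 152) (nat_lit 848389076386) (nat_lit 0) (nat_lit 53135553430) (nat_lit 8) (nat_lit 5) (nat_lit 10) (nat_lit 4) (nat_lit 8) (nat_lit 4) (nat_lit 352) (nat_lit 308) (nat_lit 120)))) (XT.nd (nat_lit 156) (nat_lit 0) (nat_lit 0) (XT.nd (nat_lit 78) (nat_lit 76) (nat_lit 0) (XT.lf (nat_lit 0) (nat_lit 966664458301) (nat_lit 152) (nat_lit 431688613087) (nat_lit 0) (nat_lit 315317004496) (nat_lit 8) (nat_lit 5) (nat_lit 10) (nat_lit 4) (nat_lit 8) (nat_lit 4) (nat_lit 353) (nat_lit 308) (nat_lit 119)) (XT.lf (nat_lit 0) (nat_lit 19314016634) (nat_lit 76) (nat_lit 1230970919351) (nat_lit 76) (nat_lit 579623442299) (nat_lit 7) (nat_lit 4) (nat_lit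 8) (nat_lit 5) (nat_lit 8) (nat_lit 4) (nat_lit 354) (nat_lit 308) (nat_lit 118))) (XT.nd (nat_lit 78) (nat_lit 0) (nat_lit 0) (XT.lf (nat_lit 0) (nat_lit 530947335605) (nat_lit 76) (nat_lit 1037450829405) (nat_lit 76) (nat_lit 386103330827) (nat_lit 7) (nat_lit 4) (nat_lit 8) (nat_lit 5) (nat_lit 8) (nat_lit 4) (nat_lit 355) (nat_lit 308) (nat_lit 117)) (XT.lf (nat_lit 0) (nat_lit 1083511287628) (nat_lit 76) (nat_lit 828449147533) (nat_lit 76) (nat_lit 177101629022) (nat_lit 7) (nat_lit 4) (nat_lit 8) (nat_lit 5) (nat_lit 8) (nat_lit 4) (nat_lit 356) (nat_lit 308) (nat_lit 116))))) (XT.nd (nat_lit 312) (nat_lit 0) (nat_lit 0) (XT.nd (nat_lit 156) (nat_lit 76) (nat_lit 0) (XT.nd (nat_lit 78) (nat_lit 0) (nat_lit 0) (XT.lf (nat_lit 0) (nat_lit 46188012814) (nat_lit 152) (nat_lit 555276470311) (nat_lit 76) (nat_lit 1632829450813) (nat_lit 6) (nat_lit 5) (nat_lit 8) (nat_lit 5) (nat_lit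 7) (nat_lit 4) (nat_lit 357) (nat_lit 308) (nat_lit 115)) (XT.lf (nat_lit 0) (nat_lit 277772722852) (nat_lit 152) (nat_lit 73580290520) (nat_lit 76) (nat_lit 2039423337737) (nat_lit 6) (nat_lit 5) (nat_lit 8) (nat_lit 5) (nat_lit 7) (nat_lit 4) (nat_lit 358) (nat_lit 308) (nat_lit 114))) (XT.nd (nat_lit 78) (nat_lit 0) (nat_lit 0) (XT.lf (nat_lit 0) (nat_lit 470171436598) (nat_lit 76) (nat_lit 69020393437) (nat_lit 152) (nat_lit 2019680922000) (nat_lit 5) (nat_lit 5) (nat_lit 6) (nat_lit 5) (nat_lit 7) (nat_lit 4) (nat_lit 359) (nat_lit 308) (nat_lit 113)) (XT.lf (nat_lit 0) (nat_lit 829261895068) (nat_lit 152) (nat_lit 1684373695867) (nat_lit 0) (nat_lit 226162279766) (nat_lit 5) (nat_lit 5) (nat_lit 7) (nat_lit 4) (nat_lit 5) (nat_lit 4) (nat_lit 360) (nat_lit 308) (nat_lit 112)))) (XT.nd (nat_lit 36660) (nat_lit 0) (nat_lit 3040) (XT.nd (nat_lit 36582) (nat_lit 0) (nat_lit 3040) (XT.lf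 (nat_lit 0) (nat_lit 1144330289931) (nat_lit 152) (nat_lit 1249492628898) (nat_lit 0) (nat_lit 541230662068) (nat_lit 5) (nat_lit 5) (nat_lit 7) (nat_lit 4) (nat_lit 5) (nat_lit 4) (nat_lit 361) (nat_lit 308) (nat_lit 111)) (XT.lf (nat_lit 0) (nat_lit 57111874873) (nat_lit 532) (nat_lit 15779023986) (nat_lit 532) (nat_lit 15779023986) (nat_lit 45) (nat_lit 3) (nat_lit 52) (nat_lit 3) (nat_lit 52) (nat_lit 5) (nat_lit 309) (nat_lit 309) (nat_lit 162))) (XT.nd (nat_lit 78) (nat_lit 0) (nat_lit 76) (XT.lf (nat_lit 76) (nat_lit 52451930267) (nat_lit 0) (nat_lit 67604144446) (nat_lit 532) (nat_lit 64276289325) (nat_lit 46) (nat_lit 5) (nat_lit 45) (nat_lit 3) (nat_lit 52) (nat_lit 5) (nat_lit 310) (nat_lit 309) (nat_lit 161)) (XT.lf (nat_lit 0) (nat_lit 127644766349) (nat_lit 456) (nat_lit 47265060216) (nat_lit 532) (nat_lit 16871275384) (nat_lit 46) (nat_lit 5) (nat_lit 52) (nat_lit 5) (nat_lit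 53) (nat_lit 5) (nat_lit 311) (nat_lit 309) (nat_lit 160))))))) (XT.nd (nat_lit 1248) (nat_lit 1064) (nat_lit 0) (XT.nd (nat_lit 624) (nat_lit 836) (nat_lit 0) (XT.nd (nat_lit 312) (nat_lit 608) (nat_lit 0) (XT.nd (nat_lit 156) (nat_lit 0) (nat_lit 76) (XT.nd (nat_lit 78) (nat_lit 0) (nat_lit 0) (XT.lf (nat_lit 76) (nat_lit 44594259623) (nat_lit 0) (nat_lit 94074561522) (nat_lit 532) (nat_lit 60930656829) (nat_lit 47) (nat_lit 5) (nat_lit 46) (nat_lit 5) (nat_lit 53) (nat_lit 5) (nat_lit 312) (nat_lit 309) (nat_lit 159)) (XT.lf (nat_lit 76) (nat_lit 146490216603) (nat_lit 0) (nat_lit 5376727601) (nat_lit 532) (nat_lit 56073008838) (nat_lit 47) (nat_lit 5) (nat_lit 46) (nat_lit 5) (nat_lit 53) (nat_lit 5) (nat_lit 313) (nat_lit 309) (nat_lit 158))) (XT.nd (nat_lit 78) (nat_lit 0) (nat_lit 0) (XT.lf (nat_lit 76) (nat_lit 39385770591) (nat_lit 0) (nat_lit 129856751540) (nat_lit 532) (nat_lit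 47455416017) (nat_lit 48) (nat_lit 5) (nat_lit 47) (nat_lit 5) (nat_lit 54) (nat_lit 5) (nat_lit 314) (nat_lit 309) (nat_lit 157)) (XT.lf (nat_lit 76) (nat_lit 151635693137) (nat_lit 0) (nat_lit 38188572946) (nat_lit 532) (nat_lit 36187006798) (nat_lit 48) (nat_lit 5) (nat_lit 47) (nat_lit 5) (nat_lit 54) (nat_lit 5) (nat_lit 315) (nat_lit 309) (nat_lit 156)))) (XT.nd (nat_lit 156) (nat_lit 304) (nat_lit 0) (XT.nd (nat_lit 78) (nat_lit 0) (nat_lit 0) (XT.lf (nat_lit 0) (nat_lit 37193846577) (nat_lit 456) (nat_lit 177215638178) (nat_lit 532) (nat_lit 21471635196) (nat_lit 42) (nat_lit 5) (nat_lit 48) (nat_lit 5) (nat_lit 49) (nat_lit 5) (nat_lit 316) (nat_lit 309) (nat_lit 155)) (XT.lf (nat_lit 0) (nat_lit 160874372100) (nat_lit 456) (nat_lit 83087382097) (nat_lit 532) (nat_lit 2338782273) (nat_lit 42) (nat_lit 5) (nat_lit 48) (nat_lit 5) (nat_lit 49) (nat_lit 5) (nat_lit 317) (nat_lit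 309) (nat_lit 154))) (XT.nd (nat_lit 78) (nat_lit 0) (nat_lit 0) (XT.lf (nat_lit 0) (nat_lit 18812869760) (nat_lit 304) (nat_lit 219551816289) (nat_lit 76) (nat_lit 19041176080) (nat_lit 38) (nat_lit 5) (nat_lit 42) (nat_lit 5) (nat_lit 39) (nat_lit 5) (nat_lit 318) (nat_lit 309) (nat_lit 153)) (XT.lf (nat_lit 0) (nat_lit 46084669191) (nat_lit 304) (nat_lit 95637473390) (nat_lit 76) (nat_lit 127308262107) (nat_lit 38) (nat_lit 5) (nat_lit 42) (nat_lit 5) (nat_lit 39) (nat_lit 5) (nat_lit 319) (nat_lit 309) (nat_lit 152))))) (XT.nd (nat_lit 312) (nat_lit 380) (nat_lit 0) (XT.nd (nat_lit 156) (nat_lit 228) (nat_lit 0) (XT.nd (nat_lit 78) (nat_lit 0) (nat_lit 0) (XT.lf (nat_lit 0) (nat_lit 40200917341) (nat_lit 228) (nat_lit 36304022782) (nat_lit 304) (nat_lit 205002632580) (nat_lit 35) (nat_lit 5) (nat_lit 38) (nat_lit 5) (nat_lit 39) (nat_lit 5) (nat_lit 320) (nat_lit 309) (nat_lit 151))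 (XT.lf (nat_lit 0) (nat_lit 113906570006) (nat_lit 304) (nat_lit 104361412418) (nat_lit 76) (nat_lit 76351112989) (nat_lit 35) (nat_lit 5) (nat_lit 39) (nat_lit 5) (nat_lit 36) (nat_lit 5) (nat_lit 321) (nat_lit 309) (nat_lit 150))) (XT.nd (nat_lit 78) (nat_lit 0) (nat_lit 0) (XT.lf (nat_lit 0) (nat_lit 44839429398) (nat_lit 228) (nat_lit 111482158791) (nat_lit 304) (nat_lit 152296251335) (nat_lit 32) (nat_lit 5) (nat_lit 35) (nat_lit 5) (nat_lit 36) (nat_lit 5) (nat_lit 322) (nat_lit 309) (nat_lit 149)) (XT.lf (nat_lit 0) (nat_lit 205149768757) (nat_lit 304) (nat_lit 111763481568) (nat_lit 76) (nat_lit 6581636166) (nat_lit 32) (nat_lit 5) (nat_lit 36) (nat_lit 5) (nat_lit 33) (nat_lit 5) (nat_lit 323) (nat_lit 309) (nat_lit 148)))) (XT.nd (nat_lit 156) (nat_lit 228) (nat_lit 0) (XT.nd (nat_lit 78) (nat_lit 0) (nat_lit 0) (XT.lf (nat_lit 0) (nat_lit 52124368233) (nat_lit 152) (nat_lit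 209908985791) (nat_lit 228) (nat_lit 77196811358) (nat_lit 30) (nat_lit 5) (nat_lit 32) (nat_lit 5) (nat_lit 33) (nat_lit 5) (nat_lit 324) (nat_lit 309) (nat_lit 147)) (XT.lf (nat_lit 0) (nat_lit 235479232337) (nat_lit 152) (nat_lit 91044126543) (nat_lit 228) (nat_lit 29456449255) (nat_lit 30) (nat_lit 5) (nat_lit 32) (nat_lit 5) (nat_lit 33) (nat_lit 5) (nat_lit 325) (nat_lit 309) (nat_lit 146))) (XT.nd (nat_lit 78) (nat_lit 0) (nat_lit 0) (XT.lf (nat_lit 0) (nat_lit 23438876374) (nat_lit 228) (nat_lit 312854905896) (nat_lit 76) (nat_lit 37537799842) (nat_lit 27) (nat_lit 5) (nat_lit 30) (nat_lit 5) (nat_lit 28) (nat_lit 5) (nat_lit 326) (nat_lit 309) (nat_lit 145)) (XT.lf (nat_lit 0) (nat_lit 84719400679) (nat_lit 228) (nat_lit 132238402115) (nat_lit 76) (nat_lit 175632888264) (nat_lit 27) (nat_lit 5) (nat_lit 30) (nat_lit 5) (nat_lit 28) (nat_lit 5) (nat_lit 327) (nat_lit 309) (nat_lit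 144)))))) (XT.nd (nat_lit 624) (nat_lit 456) (nat_lit 0) (XT.nd (nat_lit 312) (nat_lit 304) (nat_lit 0) (XT.nd (nat_lit 156) (nat_lit 152) (nat_lit 0) (XT.nd (nat_lit 78) (nat_lit 0) (nat_lit 0) (XT.lf (nat_lit 0) (nat_lit 66135703959) (nat_lit 152) (nat_lit 86357161191) (nat_lit 228) (nat_lit 260230423840) (nat_lit 25) (nat_lit 5) (nat_lit 27) (nat_lit 5) (nat_lit 28) (nat_lit 5) (nat_lit 328) (nat_lit 309) (nat_lit 143)) (XT.lf (nat_lit 0) (nat_lit 230713019287) (nat_lit 228) (nat_lit 147686331740) (nat_lit 76) (nat_lit 55665158845) (nat_lit 25) (nat_lit 5) (nat_lit 28) (nat_lit 5) (nat_lit 26) (nat_lit 5) (nat_lit 329) (nat_lit 309) (nat_lit 142))) (XT.nd (nat_lit 78) (nat_lit 0) (nat_lit 0) (XT.lf (nat_lit 0) (nat_lit 68300560423) (nat_lit 152) (nat_lit 250775838477) (nat_lit 228) (nat_lit 137725780584) (nat_lit 23) (nat_lit 5) (nat_lit 25) (nat_lit 5) (nat_lit 26) (nat_lit 5) (nat_lit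 330) (nat_lit 309) (nat_lit 141)) (XT.lf (nat_lit 0) (nat_lit 309965369863) (nat_lit 152) (nat_lit 108581427298) (nat_lit 228) (nat_lit 62489029740) (nat_lit 23) (nat_lit 5) (nat_lit 25) (nat_lit 5) (nat_lit 26) (nat_lit 5) (nat_lit 331) (nat_lit 309) (nat_lit 140)))) (XT.nd (nat_lit 156) (nat_lit 152) (nat_lit 0) (XT.nd (nat_lit 78) (nat_lit 0) (nat_lit 0) (XT.lf (nat_lit 0) (nat_lit 20565773537) (nat_lit 152) (nat_lit 441541937050) (nat_lit 76) (nat_lit 44845316780) (nat_lit 21) (nat_lit 5) (nat_lit 23) (nat_lit 5) (nat_lit 22) (nat_lit 5) (nat_lit 332) (nat_lit 309) (nat_lit 139)) (XT.lf (nat_lit 0) (nat_lit 114508033255) (nat_lit 152) (nat_lit 208594287713) (nat_lit 76) (nat_lit 211101907416) (nat_lit 21) (nat_lit 5) (nat_lit 23) (nat_lit 5) (nat_lit 22) (nat_lit 5) (nat_lit 333) (nat_lit 309) (nat_lit 138))) (XT.nd (nat_lit 78) (nat_lit 0) (nat_lit 0) (XT.lf (nat_lit 0) (nat_lit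 45252824686) (nat_lit 152) (nat_lit 171801131037) (nat_lit 228) (nat_lit 346494507276) (nat_lit 19) (nat_lit 5) (nat_lit 21) (nat_lit 5) (nat_lit 22) (nat_lit 5) (nat_lit 334) (nat_lit 309) (nat_lit 137)) (XT.lf (nat_lit 0) (nat_lit 331270571586) (nat_lit 152) (nat_lit 2236270173) (nat_lit 228) (nat_lit 261277131512) (nat_lit 19) (nat_lit 5) (nat_lit 21) (nat_lit 5) (nat_lit 22) (nat_lit 5) (nat_lit 335) (nat_lit 309) (nat_lit 136))))) (XT.nd (nat_lit 312) (nat_lit 152) (nat_lit 0) (XT.nd (nat_lit 156) (nat_lit 228) (nat_lit 0) (XT.nd (nat_lit 78) (nat_lit 0) (nat_lit 0) (XT.lf (nat_lit 0) (nat_lit 7685289680) (nat_lit 76) (nat_lit 456125955325) (nat_lit 152) (nat_lit 164344256517) (nat_lit 18) (nat_lit 5) (nat_lit 19) (nat_lit 5) (nat_lit 20) (nat_lit 4) (nat_lit 336) (nat_lit 309) (nat_lit 135)) (XT.lf (nat_lit 0) (nat_lit 315504901523) (nat_lit 76) (nat_lit 296296593579) (nat_lit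 152) (nat_lit 51814337422) (nat_lit 18) (nat_lit 5) (nat_lit 19) (nat_lit 5) (nat_lit 20) (nat_lit 4) (nat_lit 337) (nat_lit 309) (nat_lit 134))) (XT.nd (nat_lit 78) (nat_lit 152) (nat_lit 0) (XT.lf (nat_lit 0) (nat_lit 66230358599) (nat_lit 152) (nat_lit 55639695456) (nat_lit 76) (nat_lit 579908801773) (nat_lit 17) (nat_lit 5) (nat_lit 19) (nat_lit 5) (nat_lit 18) (nat_lit 5) (nat_lit 338) (nat_lit 309) (nat_lit 133)) (XT.lf (nat_lit 0) (nat_lit 199278052659) (nat_lit 228) (nat_lit 471652022248) (nat_lit 76) (nat_lit 71288480588) (nat_lit 15) (nat_lit 5) (nat_lit 18) (nat_lit 5) (nat_lit 16) (nat_lit 4) (nat_lit 339) (nat_lit 309) (nat_lit 132)))) (XT.nd (nat_lit 156) (nat_lit 76) (nat_lit 0) (XT.nd (nat_lit 78) (nat_lit 76) (nat_lit 0) (XT.lf (nat_lit 0) (nat_lit 347695782683) (nat_lit 228) (nat_lit 162943223445) (nat_lit 76) (nat_lit 274876327416) (nat_lit 15) (nat_lit 5) (nat_lit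 18) (nat_lit 5) (nat_lit 16) (nat_lit 4) (nat_lit 340) (nat_lit 309) (nat_lit 131)) (XT.lf (nat_lit 0) (nat_lit 179438457986) (nat_lit 76) (nat_lit 332863937764) (nat_lit 152) (nat_lit 319628220956) (nat_lit 14) (nat_lit 5) (nat_lit 15) (nat_lit 5) (nat_lit 16) (nat_lit 4) (nat_lit 341) (nat_lit 309) (nat_lit 130))) (XT.nd (nat_lit 78) (nat_lit 76) (nat_lit 0) (XT.lf (nat_lit 0) (nat_lit 558477341267) (nat_lit 76) (nat_lit 136055319659) (nat_lit 152) (nat_lit 187170051786) (nat_lit 14) (nat_lit 5) (nat_lit 15) (nat_lit 5) (nat_lit 16) (nat_lit 4) (nat_lit 342) (nat_lit 309) (nat_lit 129)) (XT.lf (nat_lit 0) (nat_lit 32151260826) (nat_lit 76) (nat_lit 861803072032) (nat_lit 76) (nat_lit 41293204731) (nat_lit 13) (nat_lit 4) (nat_lit 14) (nat_lit 5) (nat_lit 14) (nat_lit 4) (nat_lit 343) (nat_lit 309) (nat_lit 128))))))))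
noncomputable def xc115 : XT := (XT.nd (nat_lit 39078) (nat_lit 0) (nat_lit 228) (XT.nd (nat_lit 1248) (nat_lit 76) (nat_lit 0) (XT.nd (nat_lit 624) (nat_lit 228) (nat_lit 0) (XT.nd (nat_lit 312) (nat_lit 152) (nat_lit 0) (XT.nd (nat_lit 156) (nat_lit 76) (nat_lit 0) (XT.nd (nat_lit 78) (nat_lit 0) (nat_lit 0) (XT.lf (nat_lit 0) (nat_lit 123039279116) (nat_lit 152) (nat_lit 564588220946) (nat_lit 76) (nat_lit 304216697954) (nat_lit 12) (nat_lit 5) (nat_lit 14) (nat_lit 5) (nat_lit 13) (nat_lit 4) (nat_lit 344) (nat_lit 309) (nat_lit 127)) (XT.lf (nat_lit 0) (nat_lit 298287427085) (nat_lit 152) (nat_lit 200072123360) (nat_lit 76) (nat_lit 554523239115) (nat_lit 12) (nat_lit 5) (nat_lit 14) (nat_lit 5) (nat_lit 13) (nat_lit 4) (nat_lit 345) (nat_lit 309) (nat_lit 126))) (XT.nd (nat_lit 78) (nat_lit 0) (nat_lit 0) (XT.lf (nat_lit 0) (nat_lit 203800121421) (nat_lit 76) (nat_lit 288656676460)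 (nat_lit 152) (nat_lit 625955560894) (nat_lit 11) (nat_lit 5) (nat_lit 12) (nat_lit 5) (nat_lit 13) (nat_lit 4) (nat_lit 346) (nat_lit 309) (nat_lit 125)) (XT.lf (nat_lit 0) (nat_lit 651360377860) (nat_lit 76) (nat_lit 56269640920) (nat_lit 152) (nat_lit 481116650735) (nat_lit 11) (nat_lit 5) (nat_lit 12) (nat_lit 5) (nat_lit 13) (nat_lit 4) (nat_lit 347) (nat_lit 309) (nat_lit 124)))) (XT.nd (nat_lit 156) (nat_lit 76) (nat_lit 0) (XT.nd (nat_lit 78) (nat_lit 76) (nat_lit 0) (XT.lf (nat_lit 0) (nat_lit 944699813517) (nat_lit 152) (nat_lit 134665055850) (nat_lit 0) (nat_lit 184968238474) (nat_lit 11) (nat_lit 5) (nat_lit 13) (nat_lit 4) (nat_lit 11) (nat_lit 4) (nat_lit 348) (nat_lit 309) (nat_lit 123)) (XT.lf (nat_lit 0) (nat_lit 314547213709) (nat_lit 76) (nat_lit 895214372595) (nat_lit 76) (nat_lit 135482763393) (nat_lit 10) (nat_lit 4) (nat_lit 11) (nat_lit 5) (nat_lit 11) (nat_lit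 4) (nat_lit 349) (nat_lit 309) (nat_lit 122))) (XT.nd (nat_lit 78) (nat_lit 0) (nat_lit 0) (XT.lf (nat_lit 0) (nat_lit 64005889318) (nat_lit 152) (nat_lit 626599391049) (nat_lit 76) (nat_lit 741599021629) (nat_lit 9) (nat_lit 5) (nat_lit 11) (nat_lit 5) (nat_lit 10) (nat_lit 4) (nat_lit 350) (nat_lit 309) (nat_lit 121)) (XT.lf (nat_lit 0) (nat_lit 272134025083) (nat_lit 152) (nat_lit 193692897942) (nat_lit 76) (nat_lit 1060012606516) (nat_lit 9) (nat_lit 5) (nat_lit 11) (nat_lit 5) (nat_lit 10) (nat_lit 4) (nat_lit 351) (nat_lit 309) (nat_lit 120))))) (XT.nd (nat_lit 312) (nat_lit 76) (nat_lit 0) (XT.nd (nat_lit 156) (nat_lit 76) (nat_lit 0) (XT.nd (nat_lit 78) (nat_lit 0) (nat_lit 0) (XT.lf (nat_lit 0) (nat_lit 288266328076) (nat_lit 76) (nat_lit 215578876399) (nat_lit 152) (nat_lit 1122565747410) (nat_lit 8) (nat_lit 5) (nat_lit 9) (nat_lit 5) (nat_lit 10) (nat_lit 4) (nat_lit 352)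 (nat_lit 309) (nat_lit 119)) (XT.lf (nat_lit 0) (nat_lit 760841994282) (nat_lit 152) (nat_lit 916259500644) (nat_lit 0) (nat_lit 57386695817) (nat_lit 8) (nat_lit 5) (nat_lit 10) (nat_lit 4) (nat_lit 8) (nat_lit 4) (nat_lit 353) (nat_lit 309) (nat_lit 118))) (XT.nd (nat_lit 78) (nat_lit 76) (nat_lit 0) (XT.lf (nat_lit 0) (nat_lit 1043997960878) (nat_lit 152) (nat_lit 466223052271) (nat_lit 0) (nat_lit 340542640887) (nat_lit 8) (nat_lit 5) (nat_lit 10) (nat_lit 4) (nat_lit 8) (nat_lit 4) (nat_lit 354) (nat_lit 309) (nat_lit 117)) (XT.lf (nat_lit 0) (nat_lit 20859771376) (nat_lit 76) (nat_lit 1329448295012) (nat_lit 76) (nat_lit 625992955089) (nat_lit 7) (nat_lit 4) (nat_lit 8) (nat_lit 5) (nat_lit 8) (nat_lit 4) (nat_lit 355) (nat_lit 309) (nat_lit 116)))) (XT.nd (nat_lit 156) (nat_lit 76) (nat_lit 0) (XT.nd (nat_lit 78) (nat_lit 0) (nat_lit 0) (XT.lf (nat_lit 0) (nat_lit 573423708946)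 (nat_lit 76) (nat_lit 1120446619936) (nat_lit 76) (nat_lit 416991261558) (nat_lit 7) (nat_lit 4) (nat_lit 8) (nat_lit 5) (nat_lit 8) (nat_lit 4) (nat_lit 356) (nat_lit 309) (nat_lit 115)) (XT.lf (nat_lit 0) (nat_lit 1170192733686) (nat_lit 76) (nat_lit 894724823945) (nat_lit 76) (nat_lit 191269448479) (nat_lit 7) (nat_lit 4) (nat_lit 8) (nat_lit 5) (nat_lit 8) (nat_lit 4) (nat_lit 357) (nat_lit 309) (nat_lit 114))) (XT.nd (nat_lit 78) (nat_lit 0) (nat_lit 0) (XT.lf (nat_lit 0) (nat_lit 49883327279) (nat_lit 152) (nat_lit 599698070547) (nat_lit 76) (nat_lit 1763456028784) (nat_lit 6) (nat_lit 5) (nat_lit 8) (nat_lit 5) (nat_lit 7) (nat_lit 4) (nat_lit 358) (nat_lit 309) (nat_lit 113)) (XT.lf (nat_lit 0) (nat_lit 299994793865) (nat_lit 152) (nat_lit 79466234698) (nat_lit 76) (nat_lit 2202577410225) (nat_lit 6) (nat_lit 5) (nat_lit 8) (nat_lit 5) (nat_lit 7) (nat_lit 4) (nat_lit 359) (nat_lit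 309) (nat_lit 112)))))) (XT.nd (nat_lit 37206) (nat_lit 0) (nat_lit 2052) (XT.nd (nat_lit 36894) (nat_lit 0) (nat_lit 3116) (XT.nd (nat_lit 36738) (nat_lit 0) (nat_lit 3040) (XT.nd (nat_lit 78) (nat_lit 0) (nat_lit 0) (XT.lf (nat_lit 0) (nat_lit 507785618461) (nat_lit 76) (nat_lit 74541803637) (nat_lit 152) (nat_lit 2181255130303) (nat_lit 5) (nat_lit 5) (nat_lit 6) (nat_lit 5) (nat_lit 7) (nat_lit 4) (nat_lit 360) (nat_lit 309) (nat_lit 111)) (XT.lf (nat_lit 0) (nat_lit 895603079064) (nat_lit 152) (nat_lit 1819123145786) (nat_lit 0) (nat_lit 244255456782) (nat_lit 5) (nat_lit 5) (nat_lit 7) (nat_lit 4) (nat_lit 5) (nat_lit 4) (nat_lit 361) (nat_lit 309) (nat_lit 110))) (XT.nd (nat_lit 78) (nat_lit 0) (nat_lit 0) (XT.lf (nat_lit 0) (nat_lit 61682683846) (nat_lit 532) (nat_lit 17040339379) (nat_lit 532) (nat_lit 17040339379) (nat_lit 45) (nat_lit 3) (nat_lit 52) (nat_lit 3) (nat_lit 52)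 (nat_lit 5) (nat_lit 310) (nat_lit 310) (nat_lit 160)) (XT.lf (nat_lit 76) (nat_lit 56650046777) (nat_lit 0) (nat_lit 73014003664) (nat_lit 532) (nat_lit 69414613634) (nat_lit 46) (nat_lit 5) (nat_lit 45) (nat_lit 3) (nat_lit 52) (nat_lit 5) (nat_lit 311) (nat_lit 310) (nat_lit 159)))) (XT.nd (nat_lit 156) (nat_lit 0) (nat_lit 0) (XT.nd (nat_lit 78) (nat_lit 0) (nat_lit 0) (XT.lf (nat_lit 0) (nat_lit 137859544889) (nat_lit 456) (nat_lit 51044146594) (nat_lit 532) (nat_lit 18219633672) (nat_lit 46) (nat_lit 5) (nat_lit 52) (nat_lit 5) (nat_lit 53) (nat_lit 5) (nat_lit 312) (nat_lit 310) (nat_lit 158)) (XT.lf (nat_lit 76) (nat_lit 48163865201) (nat_lit 0) (nat_lit 101601471694) (nat_lit 532) (nat_lit 65801850020) (nat_lit 47) (nat_lit 5) (nat_lit 46) (nat_lit 5) (nat_lit 53) (nat_lit 5) (nat_lit 313) (nat_lit 310) (nat_lit 157))) (XT.nd (nat_lit 78) (nat_lit 0) (nat_lit 76) (XT.lf (nat_lit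 76) (nat_lit 158211345790) (nat_lit 0) (nat_lit 5807741041) (nat_lit 532) (nat_lit 60555831623) (nat_lit 47) (nat_lit 5) (nat_lit 46) (nat_lit 5) (nat_lit 53) (nat_lit 5) (nat_lit 314) (nat_lit 310) (nat_lit 156)) (XT.lf (nat_lit 76) (nat_lit 42538741199) (nat_lit 0) (nat_lit 140245794572) (nat_lit 532) (nat_lit 51249021198) (nat_lit 48) (nat_lit 5) (nat_lit 47) (nat_lit 5) (nat_lit 54) (nat_lit 5) (nat_lit 315) (nat_lit 310) (nat_lit 155))))) (XT.nd (nat_lit 312) (nat_lit 456) (nat_lit 0) (XT.nd (nat_lit 156) (nat_lit 304) (nat_lit 0) (XT.nd (nat_lit 78) (nat_lit 380) (nat_lit 0) (XT.lf (nat_lit 76) (nat_lit 163768501330) (nat_lit 0) (nat_lit 41244124438) (nat_lit 532) (nat_lit 39079348730) (nat_lit 48) (nat_lit 5) (nat_lit 47) (nat_lit 5) (nat_lit 54) (nat_lit 5) (nat_lit 316) (nat_lit 310) (nat_lit 154)) (XT.lf (nat_lit 0) (nat_lit 40171463669) (nat_lit 456) (nat_lit 191393059485)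 (nat_lit 532) (nat_lit 23186897782) (nat_lit 42) (nat_lit 5) (nat_lit 48) (nat_lit 5) (nat_lit 49) (nat_lit 5) (nat_lit 317) (nat_lit 310) (nat_lit 153))) (XT.nd (nat_lit 78) (nat_lit 304) (nat_lit 0) (XT.lf (nat_lit 0) (nat_lit 173746274985) (nat_lit 456) (nat_lit 89734530307) (nat_lit 532) (nat_lit 2523599456) (nat_lit 42) (nat_lit 5) (nat_lit 48) (nat_lit 5) (nat_lit 49) (nat_lit 5) (nat_lit 318) (nat_lit 310) (nat_lit 152)) (XT.lf (nat_lit 0) (nat_lit 20319957256) (nat_lit 304) (nat_lit 237113770685) (nat_lit 76) (nat_lit 20564433569) (nat_lit 38) (nat_lit 5) (nat_lit 42) (nat_lit 5) (nat_lit 39) (nat_lit 5) (nat_lit 319) (nat_lit 310) (nat_lit 151)))) (XT.nd (nat_lit 156) (nat_lit 228) (nat_lit 0) (XT.nd (nat_lit 78) (nat_lit 228) (nat_lit 0) (XT.lf (nat_lit 0) (nat_lit 49773348204) (nat_lit 304) (nat_lit 103286442644) (nat_lit 76) (nat_lit 137492889189) (nat_lit 38) (nat_lit 5)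 (nat_lit 42) (nat_lit 5) (nat_lit 39) (nat_lit 5) (nat_lit 320) (nat_lit 310) (nat_lit 150)) (XT.lf (nat_lit 0) (nat_lit 43418967989) (nat_lit 228) (nat_lit 39208179229) (nat_lit 304) (nat_lit 221400882103) (nat_lit 35) (nat_lit 5) (nat_lit 38) (nat_lit 5) (nat_lit 39) (nat_lit 5) (nat_lit 321) (nat_lit 310) (nat_lit 149))) (XT.nd (nat_lit 78) (nat_lit 228) (nat_lit 0) (XT.lf (nat_lit 0) (nat_lit 123020776960) (nat_lit 304) (nat_lit 112708360150) (nat_lit 76) (nat_lit 82459347494) (nat_lit 35) (nat_lit 5) (nat_lit 39) (nat_lit 5) (nat_lit 36) (nat_lit 5) (nat_lit 322) (nat_lit 310) (nat_lit 148)) (XT.lf (nat_lit 0) (nat_lit 48428499258) (nat_lit 228) (nat_lit 120400418863) (nat_lit 304) (nat_lit 164478216692) (nat_lit 32) (nat_lit 5) (nat_lit 35) (nat_lit 5) (nat_lit 36) (nat_lit 5) (nat_lit 323) (nat_lit 310) (nat_lit 147))))))) (XT.nd (nat_lit 1248) (nat_lit 684) (nat_lit 0) (XT.nd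 (nat_lit 624) (nat_lit 456) (nat_lit 0) (XT.nd (nat_lit 312) (nat_lit 304) (nat_lit 0) (XT.nd (nat_lit 156) (nat_lit 228) (nat_lit 0) (XT.nd (nat_lit 78) (nat_lit 152) (nat_lit 0) (XT.lf (nat_lit 0) (nat_lit 221563241365) (nat_lit 304) (nat_lit 120702671333) (nat_lit 76) (nat_lit 7108442052) (nat_lit 32) (nat_lit 5) (nat_lit 36) (nat_lit 5) (nat_lit 33) (nat_lit 5) (nat_lit 324) (nat_lit 310) (nat_lit 146)) (XT.lf (nat_lit 0) (nat_lit 56296158636) (nat_lit 152) (nat_lit 226701288640) (nat_lit 228) (nat_lit 83371014220) (nat_lit 30) (nat_lit 5) (nat_lit 32) (nat_lit 5) (nat_lit 33) (nat_lit 5) (nat_lit 325) (nat_lit 310) (nat_lit 145))) (XT.nd (nat_lit 78) (nat_lit 228) (nat_lit 0) (XT.lf (nat_lit 0) (nat_lit 254319275502) (nat_lit 152) (nat_lit 98327271468) (nat_lit 228) (nat_lit 31811537375) (nat_lit 30) (nat_lit 5) (nat_lit 32) (nat_lit 5) (nat_lit 33) (nat_lit 5) (nat_lit 326) (nat_lit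 310) (nat_lit 144)) (XT.lf (nat_lit 0) (nat_lit 25315294586) (nat_lit 228) (nat_lit 337881468915) (nat_lit 76) (nat_lit 40541238052) (nat_lit 27) (nat_lit 5) (nat_lit 30) (nat_lit 5) (nat_lit 28) (nat_lit 5) (nat_lit 327) (nat_lit 310) (nat_lit 143)))) (XT.nd (nat_lit 156) (nat_lit 152) (nat_lit 0) (XT.nd (nat_lit 78) (nat_lit 152) (nat_lit 0) (XT.lf (nat_lit 0) (nat_lit 91498163939) (nat_lit 228) (nat_lit 142815780347) (nat_lit 76) (nat_lit 189683902864) (nat_lit 27) (nat_lit 5) (nat_lit 30) (nat_lit 5) (nat_lit 28) (nat_lit 5) (nat_lit 328) (nat_lit 310) (nat_lit 142)) (XT.lf (nat_lit 0) (nat_lit 71428211328) (nat_lit 152) (nat_lit 93265244229) (nat_lit 228) (nat_lit 281047601531) (nat_lit 25) (nat_lit 5) (nat_lit 27) (nat_lit 5) (nat_lit 28) (nat_lit 5) (nat_lit 329) (nat_lit 310) (nat_lit 141))) (XT.nd (nat_lit 78) (nat_lit 152) (nat_lit 0) (XT.lf (nat_lit 0) (nat_lit 249171146919)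 (nat_lit 228) (nat_lit 159499632453) (nat_lit 76) (nat_lit 60118802435) (nat_lit 25) (nat_lit 5) (nat_lit 28) (nat_lit 5) (nat_lit 26) (nat_lit 5) (nat_lit 330) (nat_lit 310) (nat_lit 140)) (XT.lf (nat_lit 0) (nat_lit 73766170429) (nat_lit 152) (nat_lit 270837383663) (nat_lit 228) (nat_lit 148742714466) (nat_lit 23) (nat_lit 5) (nat_lit 25) (nat_lit 5) (nat_lit 26) (nat_lit 5) (nat_lit 331) (nat_lit 310) (nat_lit 139))))) (XT.nd (nat_lit 312) (nat_lit 152) (nat_lit 0) (XT.nd (nat_lit 156) (nat_lit 152) (nat_lit 0) (XT.nd (nat_lit 78) (nat_lit 152) (nat_lit 0) (XT.lf (nat_lit 0) (nat_lit 334764048686) (nat_lit 152) (nat_lit 117267458248) (nat_lit 228) (nat_lit 67487107152) (nat_lit 23) (nat_lit 5) (nat_lit 25) (nat_lit 5) (nat_lit 26) (nat_lit 5) (nat_lit 332) (nat_lit 310) (nat_lit 138)) (XT.lf (nat_lit 0) (nat_lit 22212002095) (nat_lit 152) (nat_lit 476863761479) (nat_lit 76) (nat_lit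 48433427201) (nat_lit 21) (nat_lit 5) (nat_lit 23) (nat_lit 5) (nat_lit 22) (nat_lit 5) (nat_lit 333) (nat_lit 310) (nat_lit 137))) (XT.nd (nat_lit 78) (nat_lit 152) (nat_lit 0) (XT.lf (nat_lit 0) (nat_lit 123669570985) (nat_lit 152) (nat_lit 225280413568) (nat_lit 76) (nat_lit 227990509157) (nat_lit 21) (nat_lit 5) (nat_lit 23) (nat_lit 5) (nat_lit 22) (nat_lit 5) (nat_lit 334) (nat_lit 310) (nat_lit 136)) (XT.lf (nat_lit 0) (nat_lit 48874431945) (nat_lit 152) (nat_lit 185544702225) (nat_lit 228) (nat_lit 374213135671) (nat_lit 19) (nat_lit 5) (nat_lit 21) (nat_lit 5) (nat_lit 22) (nat_lit 5) (nat_lit 335) (nat_lit 310) (nat_lit 135)))) (XT.nd (nat_lit 156) (nat_lit 76) (nat_lit 0) (XT.nd (nat_lit 78) (nat_lit 76) (nat_lit 0) (XT.lf (nat_lit 0) (nat_lit 357773496279) (nat_lit 152) (nat_lit 2414690957) (nat_lit 228) (nat_lit 282178438897) (nat_lit 19) (nat_lit 5) (nat_lit 21) (nat_lit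 5) (nat_lit 22) (nat_lit 5) (nat_lit 336) (nat_lit 310) (nat_lit 134)) (XT.lf (nat_lit 0) (nat_lit 8301411525) (nat_lit 76) (nat_lit 492615514037) (nat_lit 152) (nat_lit 177490952542) (nat_lit 18) (nat_lit 5) (nat_lit 19) (nat_lit 5) (nat_lit 20) (nat_lit 4) (nat_lit 337) (nat_lit 310) (nat_lit 133))) (XT.nd (nat_lit 78) (nat_lit 76) (nat_lit 0) (XT.lf (nat_lit 0) (nat_lit 340746496117) (nat_lit 76) (nat_lit 319999841701) (nat_lit 152) (nat_lit 55958702475) (nat_lit 18) (nat_lit 5) (nat_lit 19) (nat_lit 5) (nat_lit 20) (nat_lit 4) (nat_lit 338) (nat_lit 310) (nat_lit 132)) (XT.lf (nat_lit 0) (nat_lit 71529475088) (nat_lit 152) (nat_lit 60089720630) (nat_lit 76) (nat_lit 626301912709) (nat_lit 17) (nat_lit 5) (nat_lit 19) (nat_lit 5) (nat_lit 18) (nat_lit 5) (nat_lit 339) (nat_lit 310) (nat_lit 131)))))) (XT.nd (nat_lit 624) (nat_lit 228) (nat_lit 0) (XT.nd (nat_lit 312) (nat_lit 228)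 (nat_lit 0) (XT.nd (nat_lit 156) (nat_lit 76) (nat_lit 0) (XT.nd (nat_lit 78) (nat_lit 0) (nat_lit 0) (XT.lf (nat_lit 0) (nat_lit 215220971696) (nat_lit 228) (nat_lit 509383019807) (nat_lit 76) (nat_lit 76991993665) (nat_lit 15) (nat_lit 5) (nat_lit 18) (nat_lit 5) (nat_lit 16) (nat_lit 4) (nat_lit 340) (nat_lit 310) (nat_lit 130)) (XT.lf (nat_lit 0) (nat_lit 375512070135) (nat_lit 228) (nat_lit 175977603338) (nat_lit 76) (nat_lit 296866836044) (nat_lit 15) (nat_lit 5) (nat_lit 18) (nat_lit 5) (nat_lit 16) (nat_lit 4) (nat_lit 341) (nat_lit 310) (nat_lit 129))) (XT.nd (nat_lit 78) (nat_lit 0) (nat_lit 0) (XT.lf (nat_lit 0) (nat_lit 193794585317) (nat_lit 76) (nat_lit 359492605915) (nat_lit 152) (nat_lit 345197825834) (nat_lit 14) (nat_lit 5) (nat_lit 15) (nat_lit 5) (nat_lit 16) (nat_lit 4) (nat_lit 342) (nat_lit 310) (nat_lit 128)) (XT.lf (nat_lit 0) (nat_lit 603156501431) (nat_lit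 76) (nat_lit 146939331463) (nat_lit 152) (nat_lit 202143051487) (nat_lit 14) (nat_lit 5) (nat_lit 15) (nat_lit 5) (nat_lit 16) (nat_lit 4) (nat_lit 343) (nat_lit 310) (nat_lit 127)))) (XT.nd (nat_lit 156) (nat_lit 76) (nat_lit 0) (XT.nd (nat_lit 78) (nat_lit 76) (nat_lit 0) (XT.lf (nat_lit 0) (nat_lit 34724344427) (nat_lit 76) (nat_lit 930746885590) (nat_lit 76) (nat_lit 44596065964) (nat_lit 13) (nat_lit 4) (nat_lit 14) (nat_lit 5) (nat_lit 14) (nat_lit 4) (nat_lit 344) (nat_lit 310) (nat_lit 126)) (XT.lf (nat_lit 0) (nat_lit 132882944939) (nat_lit 152) (nat_lit 609754340624) (nat_lit 76) (nat_lit 328554405922) (nat_lit 12) (nat_lit 5) (nat_lit 14) (nat_lit 5) (nat_lit 13) (nat_lit 4) (nat_lit 345) (nat_lit 310) (nat_lit 125))) (XT.nd (nat_lit 78) (nat_lit 76) (nat_lit 0) (XT.lf (nat_lit 0) (nat_lit 322150905969) (nat_lit 152) (nat_lit 216077024713) (nat_lit 76) (nat_lit 598885442810)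 (nat_lit 12) (nat_lit 5) (nat_lit 14) (nat_lit 5) (nat_lit 13) (nat_lit 4) (nat_lit 346) (nat_lit 310) (nat_lit 124)) (XT.lf (nat_lit 0) (nat_lit 220104977664) (nat_lit 76) (nat_lit 311748833219) (nat_lit 152) (nat_lit 676031498638) (nat_lit 11) (nat_lit 5) (nat_lit 12) (nat_lit 5) (nat_lit 13) (nat_lit 4) (nat_lit 347) (nat_lit 310) (nat_lit 123))))) (XT.nd (nat_lit 312) (nat_lit 76) (nat_lit 0) (XT.nd (nat_lit 156) (nat_lit 152) (nat_lit 0) (XT.nd (nat_lit 78) (nat_lit 0) (nat_lit 0) (XT.lf (nat_lit 0) (nat_lit 703469991911) (nat_lit 76) (nat_lit 60770862788) (nat_lit 152) (nat_lit 519605513231) (nat_lit 11) (nat_lit 5) (nat_lit 12) (nat_lit 5) (nat_lit 13) (nat_lit 4) (nat_lit 348) (nat_lit 310) (nat_lit 122)) (XT.lf (nat_lit 0) (nat_lit 1020276208618) (nat_lit 152) (nat_lit 145437509796) (nat_lit 0) (nat_lit 199766004891) (nat_lit 11) (nat_lit 5) (nat_lit 13) (nat_lit 4) (nat_lit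 11) (nat_lit 4) (nat_lit 349) (nat_lit 310) (nat_lit 121))) (XT.nd (nat_lit 78) (nat_lit 76) (nat_lit 0) (XT.lf (nat_lit 0) (nat_lit 339711722327) (nat_lit 76) (nat_lit 966831188122) (nat_lit 76) (nat_lit 146320955109) (nat_lit 10) (nat_lit 4) (nat_lit 11) (nat_lit 5) (nat_lit 11) (nat_lit 4) (nat_lit 350) (nat_lit 310) (nat_lit 120)) (XT.lf (nat_lit 0) (nat_lit 69126738127) (nat_lit 152) (nat_lit 676726644824) (nat_lit 76) (nat_lit 800927232704) (nat_lit 9) (nat_lit 5) (nat_lit 11) (nat_lit 5) (nat_lit 10) (nat_lit 4) (nat_lit 351) (nat_lit 310) (nat_lit 119)))) (XT.nd (nat_lit 156) (nat_lit 0) (nat_lit 0) (XT.nd (nat_lit 78) (nat_lit 76) (nat_lit 0) (XT.lf (nat_lit 0) (nat_lit 293905096779) (nat_lit 152) (nat_lit 209187683936) (nat_lit 76) (nat_lit 1144813882949) (nat_lit 9) (nat_lit 5) (nat_lit 11) (nat_lit 5) (nat_lit 10) (nat_lit 4) (nat_lit 352) (nat_lit 310) (nat_lit 118)) (XT.lf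 (nat_lit 0) (nat_lit 311328263813) (nat_lit 76) (nat_lit 232824895945) (nat_lit 152) (nat_lit 1212370640917) (nat_lit 8) (nat_lit 5) (nat_lit 9) (nat_lit 5) (nat_lit 10) (nat_lit 4) (nat_lit 353) (nat_lit 310) (nat_lit 117))) (XT.nd (nat_lit 78) (nat_lit 0) (nat_lit 0) (XT.lf (nat_lit 0) (nat_lit 821709674115) (nat_lit 152) (nat_lit 989559658970) (nat_lit 0) (nat_lit 61977887067) (nat_lit 8) (nat_lit 5) (nat_lit 10) (nat_lit 4) (nat_lit 8) (nat_lit 4) (nat_lit 354) (nat_lit 310) (nat_lit 116)) (XT.lf (nat_lit 0) (nat_lit 1127518094314) (nat_lit 152) (nat_lit 503520339299) (nat_lit 0) (nat_lit 367786288810) (nat_lit 8) (nat_lit 5) (nat_lit 10) (nat_lit 4) (nat_lit 8) (nat_lit 4) (nat_lit 355) (nat_lit 310) (nat_lit 115))))))))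
noncomputable def xc116 : XT := (XT.nd (nat_lit 39156) (nat_lit 0) (nat_lit 0) (XT.nd (nat_lit 37908) (nat_lit 0) (nat_lit 988) (XT.nd (nat_lit 37284) (nat_lit 0) (nat_lit 2432) (XT.nd (nat_lit 234) (nat_lit 76) (nat_lit 0) (XT.nd (nat_lit 78) (nat_lit 0) (nat_lit 0) (XT.lf (nat_lit 0) (nat_lit 22529096134) (nat_lit 76) (nat_lit 1435803903222) (nat_lit 76) (nat_lit 676072080630) (nat_lit 7) (nat_lit 4) (nat_lit 8) (nat_lit 5) (nat_lit 8) (nat_lit 4) (nat_lit 356) (nat_lit 310) (nat_lit 114)) (XT.nd (nat_lit 78) (nat_lit 0) (nat_lit 0) (XT.lf (nat_lit 0) (nat_lit 619298108484) (nat_lit 76) (nat_lit 1210082113058) (nat_lit 76) (nat_lit 450350274644) (nat_lit 7) (nat_lit 4) (nat_lit 8) (nat_lit 5) (nat_lit 8) (nat_lit 4) (nat_lit 357) (nat_lit 310) (nat_lit 113)) (XT.lf (nat_lit 0) (nat_lit 1263808617957) (nat_lit 76) (nat_lit 966302590904) (nat_lit 76) (nat_lit 206570737840) (nat_lit 7)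 (nat_lit 4) (nat_lit 8) (nat_lit 5) (nat_lit 8) (nat_lit 4) (nat_lit 358) (nat_lit 310) (nat_lit 112)))) (XT.nd (nat_lit 36894) (nat_lit 0) (nat_lit 2964) (XT.nd (nat_lit 78) (nat_lit 0) (nat_lit 0) (XT.lf (nat_lit 0) (nat_lit 53874227892) (nat_lit 152) (nat_lit 647673472613) (nat_lit 76) (nat_lit 1904532701336) (nat_lit 6) (nat_lit 5) (nat_lit 8) (nat_lit 5) (nat_lit 7) (nat_lit 4) (nat_lit 359) (nat_lit 310) (nat_lit 111)) (XT.lf (nat_lit 0) (nat_lit 323994594440) (nat_lit 152) (nat_lit 85823122754) (nat_lit 76) (nat_lit 2378783779199) (nat_lit 6) (nat_lit 5) (nat_lit 8) (nat_lit 5) (nat_lit 7) (nat_lit 4) (nat_lit 360) (nat_lit 310) (nat_lit 110))) (XT.nd (nat_lit 78) (nat_lit 0) (nat_lit 0) (XT.lf (nat_lit 0) (nat_lit 66618892333) (nat_lit 532) (nat_lit 18402703596) (nat_lit 532) (nat_lit 18402703596) (nat_lit 45) (nat_lit 3) (nat_lit 52) (nat_lit 3) (nat_lit 52) (nat_lit 5) (nat_lit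 311) (nat_lit 311) (nat_lit 158)) (XT.lf (nat_lit 76) (nat_lit 61183732693) (nat_lit 0) (nat_lit 78856433682) (nat_lit 532) (nat_lit 74964542982) (nat_lit 46) (nat_lit 5) (nat_lit 45) (nat_lit 3) (nat_lit 52) (nat_lit 5) (nat_lit 312) (nat_lit 311) (nat_lit 157))))) (XT.nd (nat_lit 312) (nat_lit 608) (nat_lit 0) (XT.nd (nat_lit 156) (nat_lit 0) (nat_lit 0) (XT.nd (nat_lit 78) (nat_lit 0) (nat_lit 0) (XT.lf (nat_lit 0) (nat_lit 148891049591) (nat_lit 456) (nat_lit 55125862101) (nat_lit 532) (nat_lit 19676052323) (nat_lit 46) (nat_lit 5) (nat_lit 52) (nat_lit 5) (nat_lit 53) (nat_lit 5) (nat_lit 313) (nat_lit 311) (nat_lit 156)) (XT.lf (nat_lit 76) (nat_lit 52018744657) (nat_lit 0) (nat_lit 109730399830) (nat_lit 532) (nat_lit 71063203649) (nat_lit 47) (nat_lit 5) (nat_lit 46) (nat_lit 5) (nat_lit 53) (nat_lit 5) (nat_lit 314) (nat_lit 311) (nat_lit 155))) (XT.nd (nat_lit 78) (nat_lit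 0) (nat_lit 76) (XT.lf (nat_lit 76) (nat_lit 170869892564) (nat_lit 0) (nat_lit 6273110695) (nat_lit 532) (nat_lit 65397710771) (nat_lit 47) (nat_lit 5) (nat_lit 46) (nat_lit 5) (nat_lit 53) (nat_lit 5) (nat_lit 315) (nat_lit 311) (nat_lit 154)) (XT.lf (nat_lit 76) (nat_lit 45943648589) (nat_lit 0) (nat_lit 151465889301) (nat_lit 532) (nat_lit 55346518253) (nat_lit 48) (nat_lit 5) (nat_lit 47) (nat_lit 5) (nat_lit 54) (nat_lit 5) (nat_lit 316) (nat_lit 311) (nat_lit 153)))) (XT.nd (nat_lit 156) (nat_lit 304) (nat_lit 0) (XT.nd (nat_lit 78) (nat_lit 380) (nat_lit 0) (XT.lf (nat_lit 76) (nat_lit 176871655598) (nat_lit 0) (nat_lit 44544053619) (nat_lit 532) (nat_lit 42203451591) (nat_lit 48) (nat_lit 5) (nat_lit 47) (nat_lit 5) (nat_lit 54) (nat_lit 5) (nat_lit 317) (nat_lit 311) (nat_lit 152)) (XT.lf (nat_lit 0) (nat_lit 43386989204) (nat_lit 456) (nat_lit 206704650208) (nat_lit 532) (nat_lit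 25039733494) (nat_lit 42) (nat_lit 5) (nat_lit 48) (nat_lit 5) (nat_lit 49) (nat_lit 5) (nat_lit 318) (nat_lit 311) (nat_lit 151))) (XT.nd (nat_lit 78) (nat_lit 304) (nat_lit 0) (XT.lf (nat_lit 0) (nat_lit 187647651466) (nat_lit 456) (nat_lit 96913427883) (nat_lit 532) (nat_lit 2723528052) (nat_lit 42) (nat_lit 5) (nat_lit 48) (nat_lit 5) (nat_lit 49) (nat_lit 5) (nat_lit 319) (nat_lit 311) (nat_lit 150)) (XT.lf (nat_lit 0) (nat_lit 21947318168) (nat_lit 304) (nat_lit 256080993991) (nat_lit 76) (nat_lit 22209556878) (nat_lit 38) (nat_lit 5) (nat_lit 42) (nat_lit 5) (nat_lit 39) (nat_lit 5) (nat_lit 320) (nat_lit 311) (nat_lit 149)))))) (XT.nd (nat_lit 624) (nat_lit 608) (nat_lit 0) (XT.nd (nat_lit 312) (nat_lit 380) (nat_lit 0) (XT.nd (nat_lit 156) (nat_lit 228) (nat_lit 0) (XT.nd (nat_lit 78) (nat_lit 228) (nat_lit 0) (XT.lf (nat_lit 0) (nat_lit 53756849700) (nat_lit 304) (nat_lit 111547618843)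 (nat_lit 76) (nat_lit 148492291272) (nat_lit 38) (nat_lit 5) (nat_lit 42) (nat_lit 5) (nat_lit 39) (nat_lit 5) (nat_lit 321) (nat_lit 311) (nat_lit 148)) (XT.lf (nat_lit 0) (nat_lit 46894180610) (nat_lit 228) (nat_lit 42344691784) (nat_lit 304) (nat_lit 239111271359) (nat_lit 35) (nat_lit 5) (nat_lit 38) (nat_lit 5) (nat_lit 39) (nat_lit 5) (nat_lit 322) (nat_lit 311) (nat_lit 147))) (XT.nd (nat_lit 78) (nat_lit 228) (nat_lit 0) (XT.lf (nat_lit 0) (nat_lit 132863880606) (nat_lit 304) (nat_lit 121723344068) (nat_lit 76) (nat_lit 89056220007) (nat_lit 35) (nat_lit 5) (nat_lit 39) (nat_lit 5) (nat_lit 36) (nat_lit 5) (nat_lit 323) (nat_lit 311) (nat_lit 146)) (XT.lf (nat_lit 0) (nat_lit 52304421438) (nat_lit 228) (nat_lit 130032184341) (nat_lit 304) (nat_lit 177634986760) (nat_lit 32) (nat_lit 5) (nat_lit 35) (nat_lit 5) (nat_lit 36) (nat_lit 5) (nat_lit 324) (nat_lit 311) (nat_lit 145))))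 (XT.nd (nat_lit 156) (nat_lit 228) (nat_lit 0) (XT.nd (nat_lit 78) (nat_lit 152) (nat_lit 0) (XT.lf (nat_lit 0) (nat_lit 239289579058) (nat_lit 304) (nat_lit 130357265732) (nat_lit 76) (nat_lit 7677353178) (nat_lit 32) (nat_lit 5) (nat_lit 36) (nat_lit 5) (nat_lit 33) (nat_lit 5) (nat_lit 325) (nat_lit 311) (nat_lit 144)) (XT.lf (nat_lit 0) (nat_lit 60801429639) (nat_lit 152) (nat_lit 244837035065) (nat_lit 228) (nat_lit 90039373302) (nat_lit 30) (nat_lit 5) (nat_lit 32) (nat_lit 5) (nat_lit 33) (nat_lit 5) (nat_lit 326) (nat_lit 311) (nat_lit 143))) (XT.nd (nat_lit 78) (nat_lit 228) (nat_lit 0) (XT.lf (nat_lit 0) (nat_lit 274666278942) (nat_lit 152) (nat_lit 106193122939) (nat_lit 228) (nat_lit 34355236239) (nat_lit 30) (nat_lit 5) (nat_lit 32) (nat_lit 5) (nat_lit 33) (nat_lit 5) (nat_lit 327) (nat_lit 311) (nat_lit 142)) (XT.lf (nat_lit 0) (nat_lit 27341639640) (nat_lit 228) (nat_lit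 364910417969) (nat_lit 76) (nat_lit 43784892225) (nat_lit 27) (nat_lit 5) (nat_lit 30) (nat_lit 5) (nat_lit 28) (nat_lit 5) (nat_lit 328) (nat_lit 311) (nat_lit 141))))) (XT.nd (nat_lit 312) (nat_lit 304) (nat_lit 0) (XT.nd (nat_lit 156) (nat_lit 152) (nat_lit 0) (XT.nd (nat_lit 78) (nat_lit 152) (nat_lit 0) (XT.lf (nat_lit 0) (nat_lit 98819055469) (nat_lit 228) (nat_lit 154239590497) (nat_lit 76) (nat_lit 204858943917) (nat_lit 27) (nat_lit 5) (nat_lit 30) (nat_lit 5) (nat_lit 28) (nat_lit 5) (nat_lit 329) (nat_lit 311) (nat_lit 140)) (XT.lf (nat_lit 0) (nat_lit 77143883745) (nat_lit 152) (nat_lit 100726043794) (nat_lit 228) (nat_lit 303530332651) (nat_lit 25) (nat_lit 5) (nat_lit 27) (nat_lit 5) (nat_lit 28) (nat_lit 5) (nat_lit 330) (nat_lit 311) (nat_lit 139))) (XT.nd (nat_lit 78) (nat_lit 152) (nat_lit 0) (XT.lf (nat_lit 0) (nat_lit 269105769819) (nat_lit 228) (nat_lit 172258226312)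 (nat_lit 76) (nat_lit 64928676042) (nat_lit 25) (nat_lit 5) (nat_lit 28) (nat_lit 5) (nat_lit 26) (nat_lit 5) (nat_lit 331) (nat_lit 311) (nat_lit 138)) (XT.lf (nat_lit 0) (nat_lit 79668805946) (nat_lit 152) (nat_lit 292503926918) (nat_lit 228) (nat_lit 160641164061) (nat_lit 23) (nat_lit 5) (nat_lit 25) (nat_lit 5) (nat_lit 26) (nat_lit 5) (nat_lit 332) (nat_lit 311) (nat_lit 137)))) (XT.nd (nat_lit 156) (nat_lit 152) (nat_lit 0) (XT.nd (nat_lit 78) (nat_lit 152) (nat_lit 0) (XT.lf (nat_lit 0) (nat_lit 361546415065) (nat_lit 152) (nat_lit 126648440613) (nat_lit 228) (nat_lit 72885179834) (nat_lit 23) (nat_lit 5) (nat_lit 25) (nat_lit 5) (nat_lit 26) (nat_lit 5) (nat_lit 333) (nat_lit 311) (nat_lit 136)) (XT.lf (nat_lit 0) (nat_lit 23989791031) (nat_lit 152) (nat_lit 515011550211) (nat_lit 76) (nat_lit 52308517254) (nat_lit 21) (nat_lit 5) (nat_lit 23) (nat_lit 5) (nat_lit 22) (nat_lit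 5) (nat_lit 334) (nat_lit 311) (nat_lit 135))) (XT.nd (nat_lit 78) (nat_lit 152) (nat_lit 0) (XT.lf (nat_lit 0) (nat_lit 133563904042) (nat_lit 152) (nat_lit 243301631666) (nat_lit 76) (nat_lit 246230134961) (nat_lit 21) (nat_lit 5) (nat_lit 23) (nat_lit 5) (nat_lit 22) (nat_lit 5) (nat_lit 335) (nat_lit 311) (nat_lit 134)) (XT.lf (nat_lit 0) (nat_lit 52785570729) (nat_lit 152) (nat_lit 200387833190) (nat_lit 228) (nat_lit 404149387325) (nat_lit 19) (nat_lit 5) (nat_lit 21) (nat_lit 5) (nat_lit 22) (nat_lit 5) (nat_lit 336) (nat_lit 311) (nat_lit 133))))))) (XT.nd (nat_lit 1248) (nat_lit 228) (nat_lit 0) (XT.nd (nat_lit 624) (nat_lit 380) (nat_lit 0) (XT.nd (nat_lit 312) (nat_lit 228) (nat_lit 0) (XT.nd (nat_lit 156) (nat_lit 76) (nat_lit 0) (XT.nd (nat_lit 78) (nat_lit 76) (nat_lit 0) (XT.lf (nat_lit 0) (nat_lit 386396472489) (nat_lit 152) (nat_lit 2607454000) (nat_lit 228) (nat_lit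 304751974008) (nat_lit 19) (nat_lit 5) (nat_lit 21) (nat_lit 5) (nat_lit 22) (nat_lit 5) (nat_lit 337) (nat_lit 311) (nat_lit 132)) (XT.lf (nat_lit 0) (nat_lit 8966637847) (nat_lit 76) (nat_lit 532024311304) (nat_lit 152) (nat_lit 191689504726) (nat_lit 18) (nat_lit 5) (nat_lit 19) (nat_lit 5) (nat_lit 20) (nat_lit 4) (nat_lit 338) (nat_lit 311) (nat_lit 131))) (XT.nd (nat_lit 78) (nat_lit 76) (nat_lit 0) (XT.lf (nat_lit 0) (nat_lit 368007246733) (nat_lit 76) (nat_lit 345599418059) (nat_lit 152) (nat_lit 60434728285) (nat_lit 18) (nat_lit 5) (nat_lit 19) (nat_lit 5) (nat_lit 20) (nat_lit 4) (nat_lit 339) (nat_lit 311) (nat_lit 130)) (XT.lf (nat_lit 0) (nat_lit 77252422774) (nat_lit 152) (nat_lit 64895911944) (nat_lit 76) (nat_lit 676406414486) (nat_lit 17) (nat_lit 5) (nat_lit 19) (nat_lit 5) (nat_lit 18) (nat_lit 5) (nat_lit 340) (nat_lit 311) (nat_lit 129)))) (XT.nd (nat_lit 156) (nat_lit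 76) (nat_lit 0) (XT.nd (nat_lit 78) (nat_lit 0) (nat_lit 0) (XT.lf (nat_lit 0) (nat_lit 232439227985) (nat_lit 228) (nat_lit 550132663260) (nat_lit 76) (nat_lit 83151725783) (nat_lit 15) (nat_lit 5) (nat_lit 18) (nat_lit 5) (nat_lit 16) (nat_lit 4) (nat_lit 341) (nat_lit 311) (nat_lit 128)) (XT.lf (nat_lit 0) (nat_lit 405553571443) (nat_lit 228) (nat_lit 190054887409) (nat_lit 76) (nat_lit 320616527950) (nat_lit 15) (nat_lit 5) (nat_lit 18) (nat_lit 5) (nat_lit 16) (nat_lit 4) (nat_lit 342) (nat_lit 311) (nat_lit 127))) (XT.nd (nat_lit 78) (nat_lit 0) (nat_lit 0) (XT.lf (nat_lit 0) (nat_lit 209299052941) (nat_lit 76) (nat_lit 388251631270) (nat_lit 152) (nat_lit 372813092232) (nat_lit 14) (nat_lit 5) (nat_lit 15) (nat_lit 5) (nat_lit 16) (nat_lit 4) (nat_lit 343) (nat_lit 311) (nat_lit 126)) (XT.lf (nat_lit 0) (nat_lit 651409855618) (nat_lit 76) (nat_lit 158694123241) (nat_lit 152) (nat_lit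 218313977394) (nat_lit 14) (nat_lit 5) (nat_lit 15) (nat_lit 5) (nat_lit 16) (nat_lit 4) (nat_lit 344) (nat_lit 311) (nat_lit 125))))) (XT.nd (nat_lit 312) (nat_lit 152) (nat_lit 0) (XT.nd (nat_lit 156) (nat_lit 76) (nat_lit 0) (XT.nd (nat_lit 78) (nat_lit 76) (nat_lit 0) (XT.lf (nat_lit 0) (nat_lit 37503134517) (nat_lit 76) (nat_lit 1005206265891) (nat_lit 76) (nat_lit 48163240999) (nat_lit 13) (nat_lit 4) (nat_lit 14) (nat_lit 5) (nat_lit 14) (nat_lit 4) (nat_lit 345) (nat_lit 311) (nat_lit 124)) (XT.lf (nat_lit 0) (nat_lit 143514029347) (nat_lit 152) (nat_lit 658533883692) (nat_lit 76) (nat_lit 354839077438) (nat_lit 12) (nat_lit 5) (nat_lit 14) (nat_lit 5) (nat_lit 13) (nat_lit 4) (nat_lit 346) (nat_lit 311) (nat_lit 123))) (XT.nd (nat_lit 78) (nat_lit 76) (nat_lit 0) (XT.lf (nat_lit 0) (nat_lit 347923394014) (nat_lit 152) (nat_lit 233362442077) (nat_lit 76) (nat_lit 646796573644)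 (nat_lit 12) (nat_lit 5) (nat_lit 14) (nat_lit 5) (nat_lit 13) (nat_lit 4) (nat_lit 347) (nat_lit 311) (nat_lit 122)) (XT.lf (nat_lit 0) (nat_lit 237714101638) (nat_lit 76) (nat_lit 336688416353) (nat_lit 152) (nat_lit 730113583750) (nat_lit 11) (nat_lit 5) (nat_lit 12) (nat_lit 5) (nat_lit 13) (nat_lit 4) (nat_lit 348) (nat_lit 311) (nat_lit 121)))) (XT.nd (nat_lit 156) (nat_lit 152) (nat_lit 0) (XT.nd (nat_lit 78) (nat_lit 0) (nat_lit 0) (XT.lf (nat_lit 0) (nat_lit 759748263266) (nat_lit 76) (nat_lit 65632232253) (nat_lit 152) (nat_lit 561173551716) (nat_lit 11) (nat_lit 5) (nat_lit 12) (nat_lit 5) (nat_lit 13) (nat_lit 4) (nat_lit 349) (nat_lit 311) (nat_lit 120)) (XT.lf (nat_lit 0) (nat_lit 1101898656833) (nat_lit 152) (nat_lit 157071867129) (nat_lit 0) (nat_lit 215747548776) (nat_lit 11) (nat_lit 5) (nat_lit 13) (nat_lit 4) (nat_lit 11) (nat_lit 4) (nat_lit 350) (nat_lit 311) (nat_lit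 119))) (XT.nd (nat_lit 78) (nat_lit 76) (nat_lit 0) (XT.lf (nat_lit 0) (nat_lit 366889287275) (nat_lit 76) (nat_lit 1044177396580) (nat_lit 76) (nat_lit 158026263415) (nat_lit 10) (nat_lit 4) (nat_lit 11) (nat_lit 5) (nat_lit 11) (nat_lit 4) (nat_lit 351) (nat_lit 311) (nat_lit 118)) (XT.lf (nat_lit 0) (nat_lit 74657200963) (nat_lit 152) (nat_lit 730864178408) (nat_lit 76) (nat_lit 865001659387) (nat_lit 9) (nat_lit 5) (nat_lit 11) (nat_lit 5) (nat_lit 10) (nat_lit 4) (nat_lit 352) (nat_lit 311) (nat_lit 117)))))) (XT.nd (nat_lit 37440) (nat_lit 0) (nat_lit 2736) (XT.nd (nat_lit 312) (nat_lit 152) (nat_lit 0) (XT.nd (nat_lit 156) (nat_lit 0) (nat_lit 0) (XT.nd (nat_lit 78) (nat_lit 76) (nat_lit 0) (XT.lf (nat_lit 0) (nat_lit 317417804323) (nat_lit 152) (nat_lit 225922144946) (nat_lit 76) (nat_lit 1236399223276) (nat_lit 9) (nat_lit 5) (nat_lit 11) (nat_lit 5) (nat_lit 10) (nat_lit 4)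 (nat_lit 353) (nat_lit 311) (nat_lit 116)) (XT.lf (nat_lit 0) (nat_lit 336235064606) (nat_lit 76) (nat_lit 251450638507) (nat_lit 152) (nat_lit 1309359978160) (nat_lit 8) (nat_lit 5) (nat_lit 9) (nat_lit 5) (nat_lit 10) (nat_lit 4) (nat_lit 354) (nat_lit 311) (nat_lit 115))) (XT.nd (nat_lit 78) (nat_lit 0) (nat_lit 0) (XT.lf (nat_lit 0) (nat_lit 887446722641) (nat_lit 152) (nat_lit 1068723915805) (nat_lit 0) (nat_lit 66936337155) (nat_lit 8) (nat_lit 5) (nat_lit 10) (nat_lit 4) (nat_lit 8) (nat_lit 4) (nat_lit 355) (nat_lit 311) (nat_lit 114)) (XT.lf (nat_lit 0) (nat_lit 1217719796115) (nat_lit 152) (nat_lit 543801488774) (nat_lit 0) (nat_lit 397209394806) (nat_lit 8) (nat_lit 5) (nat_lit 10) (nat_lit 4) (nat_lit 8) (nat_lit 4) (nat_lit 356) (nat_lit 311) (nat_lit 113)))) (XT.nd (nat_lit 156) (nat_lit 76) (nat_lit 0) (XT.nd (nat_lit 78) (nat_lit 0) (nat_lit 0) (XT.lf (nat_lit 0) (nat_lit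 24331889401) (nat_lit 76) (nat_lit 1550667996523) (nat_lit 76) (nat_lit 730157580564) (nat_lit 7) (nat_lit 4) (nat_lit 8) (nat_lit 5) (nat_lit 8) (nat_lit 4) (nat_lit 357) (nat_lit 311) (nat_lit 112)) (XT.lf (nat_lit 0) (nat_lit 668842388252) (nat_lit 76) (nat_lit 1306888479365) (nat_lit 76) (nat_lit 486378049841) (nat_lit 7) (nat_lit 4) (nat_lit 8) (nat_lit 5) (nat_lit 8) (nat_lit 4) (nat_lit 358) (nat_lit 311) (nat_lit 111))) (XT.nd (nat_lit 78) (nat_lit 76) (nat_lit 0) (XT.lf (nat_lit 0) (nat_lit 1364913706550) (nat_lit 76) (nat_lit 1043606610456) (nat_lit 76) (nat_lit 223096168371) (nat_lit 7) (nat_lit 4) (nat_lit 8) (nat_lit 5) (nat_lit 8) (nat_lit 4) (nat_lit 359) (nat_lit 311) (nat_lit 110)) (XT.lf (nat_lit 0) (nat_lit 58184367109) (nat_lit 152) (nat_lit 699486970126) (nat_lit 76) (nat_lit 2056895480551) (nat_lit 6) (nat_lit 5) (nat_lit 8) (nat_lit 5) (nat_lit 7) (nat_lit 4) (nat_lit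 360) (nat_lit 311) (nat_lit 109))))) (XT.nd (nat_lit 312) (nat_lit 228) (nat_lit 0) (XT.nd (nat_lit 156) (nat_lit 0) (nat_lit 76) (XT.nd (nat_lit 78) (nat_lit 0) (nat_lit 0) (XT.lf (nat_lit 0) (nat_lit 71949770128) (nat_lit 532) (nat_lit 19874180057) (nat_lit 532) (nat_lit 19874180057) (nat_lit 45) (nat_lit 3) (nat_lit 52) (nat_lit 3) (nat_lit 52) (nat_lit 5) (nat_lit 312) (nat_lit 312) (nat_lit 156)) (XT.lf (nat_lit 76) (nat_lit 66079873502) (nat_lit 0) (nat_lit 85166071254) (nat_lit 532) (nat_lit 80958928863) (nat_lit 46) (nat_lit 5) (nat_lit 45) (nat_lit 3) (nat_lit 52) (nat_lit 5) (nat_lit 313) (nat_lit 312) (nat_lit 155))) (XT.nd (nat_lit 78) (nat_lit 0) (nat_lit 0) (XT.lf (nat_lit 0) (nat_lit 160804683619) (nat_lit 456) (nat_lit 59534373953) (nat_lit 532) (nat_lit 21249148817) (nat_lit 46) (nat_lit 5) (nat_lit 52) (nat_lit 5) (nat_lit 53) (nat_lit 5) (nat_lit 314) (nat_lit 312)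 (nat_lit 154)) (XT.lf (nat_lit 76) (nat_lit 56181761925) (nat_lit 0) (nat_lit 118509526604) (nat_lit 532) (nat_lit 76745864218) (nat_lit 47) (nat_lit 5) (nat_lit 46) (nat_lit 5) (nat_lit 53) (nat_lit 5) (nat_lit 315) (nat_lit 312) (nat_lit 153)))) (XT.nd (nat_lit 156) (nat_lit 304) (nat_lit 0) (XT.nd (nat_lit 78) (nat_lit 0) (nat_lit 76) (XT.lf (nat_lit 76) (nat_lit 184540889243) (nat_lit 0) (nat_lit 6775602872) (nat_lit 532) (nat_lit 70627309370) (nat_lit 47) (nat_lit 5) (nat_lit 46) (nat_lit 5) (nat_lit 53) (nat_lit 5) (nat_lit 316) (nat_lit 312) (nat_lit 152)) (XT.lf (nat_lit 76) (nat_lit 49620690626) (nat_lit 0) (nat_lit 163583530098) (nat_lit 532) (nat_lit 59772160974) (nat_lit 48) (nat_lit 5) (nat_lit 47) (nat_lit 5) (nat_lit 54) (nat_lit 5) (nat_lit 317) (nat_lit 312) (nat_lit 151))) (XT.nd (nat_lit 78) (nat_lit 380) (nat_lit 0) (XT.lf (nat_lit 76) (nat_lit 191022823369) (nat_lit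 0) (nat_lit 48107920180) (nat_lit 532) (nat_lit 45577802960) (nat_lit 48) (nat_lit 5) (nat_lit 47) (nat_lit 5) (nat_lit 54) (nat_lit 5) (nat_lit 318) (nat_lit 312) (nat_lit 150)) (XT.lf (nat_lit 0) (nat_lit 46859498788) (nat_lit 456) (nat_lit 223241147365) (nat_lit 532) (nat_lit 27041097951) (nat_lit 42) (nat_lit 5) (nat_lit 48) (nat_lit 5) (nat_lit 49) (nat_lit 5) (nat_lit 319) (nat_lit 312) (nat_lit 149))))))))
noncomputable def xc117 : XT := (XT.nd (nat_lit 2418) (nat_lit 304) (nat_lit 0) (XT.nd (nat_lit 1170) (nat_lit 912) (nat_lit 0) (XT.nd (nat_lit 546) (nat_lit 684) (nat_lit 0) (XT.nd (nat_lit 234) (nat_lit 456) (nat_lit 0) (XT.nd (nat_lit 78) (nat_lit 304) (nat_lit 0) (XT.lf (nat_lit 0) (nat_lit 202660899182) (nat_lit 456) (nat_lit 104666617985) (nat_lit 532) (nat_lit 2939730460) (nat_lit 42) (nat_lit 5) (nat_lit 48) (nat_lit 5) (nat_lit 49) (nat_lit 5) (nat_lit 320) (nat_lit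 312) (nat_lit 148)) (XT.nd (nat_lit 78) (nat_lit 0) (nat_lit 0) (XT.lf (nat_lit 0) (nat_lit 23704616251) (nat_lit 304) (nat_lit 276565863128) (nat_lit 76) (nat_lit 23986294528) (nat_lit 38) (nat_lit 5) (nat_lit 42) (nat_lit 5) (nat_lit 39) (nat_lit 5) (nat_lit 321) (nat_lit 312) (nat_lit 147)) (XT.lf (nat_lit 0) (nat_lit 58058798259) (nat_lit 304) (nat_lit 120469937256) (nat_lit 76) (nat_lit 160371649667) (nat_lit 38) (nat_lit 5) (nat_lit 42) (nat_lit 5) (nat_lit 39) (nat_lit 5) (nat_lit 322) (nat_lit 312) (nat_lit 146)))) (XT.nd (nat_lit 156) (nat_lit 228) (nat_lit 0) (XT.nd (nat_lit 78) (nat_lit 0) (nat_lit 0) (XT.lf (nat_lit 0) (nat_lit 50647168404) (nat_lit 228) (nat_lit 45732145570) (nat_lit 304) (nat_lit 258238731613) (nat_lit 35) (nat_lit 5) (nat_lit 38) (nat_lit 5) (nat_lit 39) (nat_lit 5) (nat_lit 323) (nat_lit 312) (nat_lit 145)) (XT.lf (nat_lit 0) (nat_lit 143494226899) (nat_lit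 304) (nat_lit 131459767068) (nat_lit 76) (nat_lit 96180824530) (nat_lit 35) (nat_lit 5) (nat_lit 39) (nat_lit 5) (nat_lit 36) (nat_lit 5) (nat_lit 324) (nat_lit 312) (nat_lit 144))) (XT.nd (nat_lit 78) (nat_lit 0) (nat_lit 0) (XT.lf (nat_lit 0) (nat_lit 56490183108) (nat_lit 228) (nat_lit 140434529295) (nat_lit 304) (nat_lit 191844510609) (nat_lit 32) (nat_lit 5) (nat_lit 35) (nat_lit 5) (nat_lit 36) (nat_lit 5) (nat_lit 325) (nat_lit 312) (nat_lit 143)) (XT.lf (nat_lit 0) (nat_lit 258433841390) (nat_lit 304) (nat_lit 140784458695) (nat_lit 76) (nat_lit 8291743560) (nat_lit 32) (nat_lit 5) (nat_lit 36) (nat_lit 5) (nat_lit 33) (nat_lit 5) (nat_lit 326) (nat_lit 312) (nat_lit 142))))) (XT.nd (nat_lit 312) (nat_lit 304) (nat_lit 0) (XT.nd (nat_lit 156) (nat_lit 228) (nat_lit 0) (XT.nd (nat_lit 78) (nat_lit 0) (nat_lit 0) (XT.lf (nat_lit 0) (nat_lit 65666897159) (nat_lit 152) (nat_lit 264423692087)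 (nat_lit 228) (nat_lit 97241389716) (nat_lit 30) (nat_lit 5) (nat_lit 32) (nat_lit 5) (nat_lit 33) (nat_lit 5) (nat_lit 327) (nat_lit 312) (nat_lit 141)) (XT.lf (nat_lit 0) (nat_lit 296640834173) (nat_lit 152) (nat_lit 114688289642) (nat_lit 228) (nat_lit 37102605648) (nat_lit 30) (nat_lit 5) (nat_lit 32) (nat_lit 5) (nat_lit 33) (nat_lit 5) (nat_lit 328) (nat_lit 312) (nat_lit 140))) (XT.nd (nat_lit 78) (nat_lit 0) (nat_lit 0) (XT.lf (nat_lit 0) (nat_lit 29529932306) (nat_lit 228) (nat_lit 394101906704) (nat_lit 76) (nat_lit 47287988069) (nat_lit 27) (nat_lit 5) (nat_lit 30) (nat_lit 5) (nat_lit 28) (nat_lit 5) (nat_lit 329) (nat_lit 312) (nat_lit 139)) (XT.lf (nat_lit 0) (nat_lit 106725470179) (nat_lit 228) (nat_lit 166577512643) (nat_lit 76) (nat_lit 221247941343) (nat_lit 27) (nat_lit 5) (nat_lit 30) (nat_lit 5) (nat_lit 28) (nat_lit 5) (nat_lit 330) (nat_lit 312) (nat_lit 138))))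 (XT.nd (nat_lit 156) (nat_lit 152) (nat_lit 0) (XT.nd (nat_lit 78) (nat_lit 0) (nat_lit 0) (XT.lf (nat_lit 0) (nat_lit 83316608018) (nat_lit 152) (nat_lit 108783767237) (nat_lit 228) (nat_lit 327811835907) (nat_lit 25) (nat_lit 5) (nat_lit 27) (nat_lit 5) (nat_lit 28) (nat_lit 5) (nat_lit 331) (nat_lit 312) (nat_lit 137)) (XT.lf (nat_lit 0) (nat_lit 290635029712) (nat_lit 228) (nat_lit 186037704087) (nat_lit 76) (nat_lit 70123286837) (nat_lit 25) (nat_lit 5) (nat_lit 28) (nat_lit 5) (nat_lit 26) (nat_lit 5) (nat_lit 332) (nat_lit 312) (nat_lit 136))) (XT.nd (nat_lit 78) (nat_lit 0) (nat_lit 0) (XT.lf (nat_lit 0) (nat_lit 86043460871) (nat_lit 152) (nat_lit 315903857465) (nat_lit 228) (nat_lit 173491627657) (nat_lit 23) (nat_lit 5) (nat_lit 25) (nat_lit 5) (nat_lit 26) (nat_lit 5) (nat_lit 333) (nat_lit 312) (nat_lit 135)) (XT.lf (nat_lit 0) (nat_lit 390471193501) (nat_lit 152) (nat_lit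 136779960671) (nat_lit 228) (nat_lit 78715226138) (nat_lit 23) (nat_lit 5) (nat_lit 25) (nat_lit 5) (nat_lit 26) (nat_lit 5) (nat_lit 334) (nat_lit 312) (nat_lit 134)))))) (XT.nd (nat_lit 624) (nat_lit 304) (nat_lit 0) (XT.nd (nat_lit 312) (nat_lit 304) (nat_lit 0) (XT.nd (nat_lit 156) (nat_lit 152) (nat_lit 0) (XT.nd (nat_lit 78) (nat_lit 0) (nat_lit 0) (XT.lf (nat_lit 0) (nat_lit 25909684849) (nat_lit 152) (nat_lit 556211349239) (nat_lit 76) (nat_lit 56493555182) (nat_lit 21) (nat_lit 5) (nat_lit 23) (nat_lit 5) (nat_lit 22) (nat_lit 5) (nat_lit 335) (nat_lit 312) (nat_lit 133)) (XT.lf (nat_lit 0) (nat_lit 144249674268) (nat_lit 152) (nat_lit 262764720543) (nat_lit 76) (nat_lit 265928875894) (nat_lit 21) (nat_lit 5) (nat_lit 23) (nat_lit 5) (nat_lit 22) (nat_lit 5) (nat_lit 336) (nat_lit 312) (nat_lit 132))) (XT.nd (nat_lit 78) (nat_lit 0) (nat_lit 0) (XT.lf (nat_lit 0) (nat_lit 57009431672)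 (nat_lit 152) (nat_lit 216418478147) (nat_lit 228) (nat_lit 436480653125) (nat_lit 19) (nat_lit 5) (nat_lit 21) (nat_lit 5) (nat_lit 22) (nat_lit 5) (nat_lit 337) (nat_lit 312) (nat_lit 131)) (XT.lf (nat_lit 0) (nat_lit 417309130367) (nat_lit 152) (nat_lit 2815696896) (nat_lit 228) (nat_lit 329131497498) (nat_lit 19) (nat_lit 5) (nat_lit 21) (nat_lit 5) (nat_lit 22) (nat_lit 5) (nat_lit 338) (nat_lit 312) (nat_lit 130)))) (XT.nd (nat_lit 156) (nat_lit 228) (nat_lit 0) (XT.nd (nat_lit 78) (nat_lit 0) (nat_lit 0) (XT.lf (nat_lit 0) (nat_lit 9684923437) (nat_lit 76) (nat_lit 574585875673) (nat_lit 152) (nat_lit 207024044375) (nat_lit 18) (nat_lit 5) (nat_lit 19) (nat_lit 5) (nat_lit 20) (nat_lit 4) (nat_lit 339) (nat_lit 312) (nat_lit 129)) (XT.lf (nat_lit 0) (nat_lit 397448710325) (nat_lit 76) (nat_lit 373247019156) (nat_lit 152) (nat_lit 65268931798) (nat_lit 18) (nat_lit 5) (nat_lit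 19) (nat_lit 5) (nat_lit 20) (nat_lit 4) (nat_lit 340) (nat_lit 312) (nat_lit 128))) (XT.nd (nat_lit 78) (nat_lit 152) (nat_lit 0) (XT.lf (nat_lit 0) (nat_lit 83433122150) (nat_lit 152) (nat_lit 70086739275) (nat_lit 76) (nat_lit 730519226650) (nat_lit 17) (nat_lit 5) (nat_lit 19) (nat_lit 5) (nat_lit 18) (nat_lit 5) (nat_lit 341) (nat_lit 312) (nat_lit 127)) (XT.lf (nat_lit 0) (nat_lit 251034862239) (nat_lit 228) (nat_lit 594142420583) (nat_lit 76) (nat_lit 89804183311) (nat_lit 15) (nat_lit 5) (nat_lit 18) (nat_lit 5) (nat_lit 16) (nat_lit 4) (nat_lit 342) (nat_lit 312) (nat_lit 126))))) (XT.nd (nat_lit 312) (nat_lit 152) (nat_lit 0) (XT.nd (nat_lit 156) (nat_lit 76) (nat_lit 0) (XT.nd (nat_lit 78) (nat_lit 76) (nat_lit 0) (XT.lf (nat_lit 0) (nat_lit 437998316433) (nat_lit 228) (nat_lit 205258486052) (nat_lit 76) (nat_lit 346266145988) (nat_lit 15) (nat_lit 5) (nat_lit 18) (nat_lit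 5) (nat_lit 16) (nat_lit 4) (nat_lit 343) (nat_lit 312) (nat_lit 125)) (XT.lf (nat_lit 0) (nat_lit 226043749466) (nat_lit 76) (nat_lit 419311433309) (nat_lit 152) (nat_lit 402637659785) (nat_lit 14) (nat_lit 5) (nat_lit 15) (nat_lit 5) (nat_lit 16) (nat_lit 4) (nat_lit 344) (nat_lit 312) (nat_lit 124))) (XT.nd (nat_lit 78) (nat_lit 76) (nat_lit 0) (XT.lf (nat_lit 0) (nat_lit 703523359151) (nat_lit 76) (nat_lit 171389348968) (nat_lit 152) (nat_lit 235778651302) (nat_lit 14) (nat_lit 5) (nat_lit 15) (nat_lit 5) (nat_lit 16) (nat_lit 4) (nat_lit 345) (nat_lit 312) (nat_lit 123)) (XT.lf (nat_lit 0) (nat_lit 40504107617) (nat_lit 76) (nat_lit 1085622449479) (nat_lit 76) (nat_lit 52015862830) (nat_lit 13) (nat_lit 4) (nat_lit 14) (nat_lit 5) (nat_lit 14) (nat_lit 4) (nat_lit 346) (nat_lit 312) (nat_lit 122)))) (XT.nd (nat_lit 156) (nat_lit 76) (nat_lit 0) (XT.nd (nat_lit 78) (nat_lit 0) (nat_lit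 0) (XT.lf (nat_lit 0) (nat_lit 154995536478) (nat_lit 152) (nat_lit 711215904932) (nat_lit 76) (nat_lit 383226477161) (nat_lit 12) (nat_lit 5) (nat_lit 14) (nat_lit 5) (nat_lit 13) (nat_lit 4) (nat_lit 347) (nat_lit 312) (nat_lit 121)) (XT.lf (nat_lit 0) (nat_lit 375757621816) (nat_lit 152) (nat_lit 252030799058) (nat_lit 76) (nat_lit 698540552802) (nat_lit 12) (nat_lit 5) (nat_lit 14) (nat_lit 5) (nat_lit 13) (nat_lit 4) (nat_lit 348) (nat_lit 312) (nat_lit 120))) (XT.nd (nat_lit 78) (nat_lit 0) (nat_lit 0) (XT.lf (nat_lit 0) (nat_lit 256731851993) (nat_lit 76) (nat_lit 363623212293) (nat_lit 152) (nat_lit 788522297696) (nat_lit 11) (nat_lit 5) (nat_lit 12) (nat_lit 5) (nat_lit 13) (nat_lit 4) (nat_lit 349) (nat_lit 312) (nat_lit 119)) (XT.lf (nat_lit 0) (nat_lit 820528700460) (nat_lit 76) (nat_lit 70882554010) (nat_lit 152) (nat_lit 606067090711) (nat_lit 11) (nat_lit 5) (nat_lit 12)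 (nat_lit 5) (nat_lit 13) (nat_lit 4) (nat_lit 350) (nat_lit 312) (nat_lit 118))))))) (XT.nd (nat_lit 38220) (nat_lit 0) (nat_lit 1216) (XT.nd (nat_lit 624) (nat_lit 0) (nat_lit 0) (XT.nd (nat_lit 312) (nat_lit 152) (nat_lit 0) (XT.nd (nat_lit 156) (nat_lit 76) (nat_lit 0) (XT.nd (nat_lit 78) (nat_lit 76) (nat_lit 0) (XT.lf (nat_lit 0) (nat_lit 1190050850756) (nat_lit 152) (nat_lit 169637064843) (nat_lit 0) (nat_lit 233007578582) (nat_lit 11) (nat_lit 5) (nat_lit 13) (nat_lit 4) (nat_lit 11) (nat_lit 4) (nat_lit 351) (nat_lit 312) (nat_lit 117)) (XT.lf (nat_lit 0) (nat_lit 396240967948) (nat_lit 76) (nat_lit 1127711342600) (nat_lit 76) (nat_lit 170668048899) (nat_lit 10) (nat_lit 4) (nat_lit 11) (nat_lit 5) (nat_lit 11) (nat_lit 4) (nat_lit 352) (nat_lit 312) (nat_lit 116))) (XT.nd (nat_lit 78) (nat_lit 0) (nat_lit 0) (XT.lf (nat_lit 0) (nat_lit 80630054634) (nat_lit 152) (nat_lit 789332799991)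 (nat_lit 76) (nat_lit 934202004815) (nat_lit 9) (nat_lit 5) (nat_lit 11) (nat_lit 5) (nat_lit 10) (nat_lit 4) (nat_lit 353) (nat_lit 312) (nat_lit 115)) (XT.lf (nat_lit 0) (nat_lit 342811485701) (nat_lit 152) (nat_lit 243995441828) (nat_lit 76) (nat_lit 1335311358062) (nat_lit 9) (nat_lit 5) (nat_lit 11) (nat_lit 5) (nat_lit 10) (nat_lit 4) (nat_lit 354) (nat_lit 312) (nat_lit 114)))) (XT.nd (nat_lit 156) (nat_lit 76) (nat_lit 0) (XT.nd (nat_lit 78) (nat_lit 0) (nat_lit 0) (XT.lf (nat_lit 0) (nat_lit 363134332469) (nat_lit 76) (nat_lit 271566476013) (nat_lit 152) (nat_lit 1414108507182) (nat_lit 8) (nat_lit 5) (nat_lit 9) (nat_lit 5) (nat_lit 10) (nat_lit 4) (nat_lit 355) (nat_lit 312) (nat_lit 113)) (XT.lf (nat_lit 0) (nat_lit 958442695876) (nat_lit 152) (nat_lit 1154221386783) (nat_lit 0) (nat_lit 72291431989) (nat_lit 8) (nat_lit 5) (nat_lit 10) (nat_lit 4) (nat_lit 8) (nat_lit 4)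 (nat_lit 356) (nat_lit 312) (nat_lit 112))) (XT.nd (nat_lit 78) (nat_lit 76) (nat_lit 0) (XT.lf (nat_lit 0) (nat_lit 1315137597789) (nat_lit 152) (nat_lit 587305198351) (nat_lit 0) (nat_lit 428986320337) (nat_lit 8) (nat_lit 5) (nat_lit 10) (nat_lit 4) (nat_lit 8) (nat_lit 4) (nat_lit 357) (nat_lit 312) (nat_lit 111)) (XT.lf (nat_lit 0) (nat_lit 26278839710) (nat_lit 76) (nat_lit 1674721248525) (nat_lit 76) (nat_lit 788569958513) (nat_lit 7) (nat_lit 4) (nat_lit 8) (nat_lit 5) (nat_lit 8) (nat_lit 4) (nat_lit 358) (nat_lit 312) (nat_lit 110))))) (XT.nd (nat_lit 37284) (nat_lit 0) (nat_lit 2964) (XT.nd (nat_lit 37128) (nat_lit 0) (nat_lit 2888) (XT.nd (nat_lit 37050) (nat_lit 0) (nat_lit 2888) (XT.lf (nat_lit 0) (nat_lit 722350148901) (nat_lit 76) (nat_lit 1411439383900) (nat_lit 76) (nat_lit 525288082258) (nat_lit 7) (nat_lit 4) (nat_lit 8) (nat_lit 5) (nat_lit 8) (nat_lit 4) (nat_lit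 359) (nat_lit 312) (nat_lit 109)) (XT.lf (nat_lit 0) (nat_lit 77706923213) (nat_lit 532) (nat_lit 21463480180) (nat_lit 532) (nat_lit 21463480180) (nat_lit 45) (nat_lit 3) (nat_lit 52) (nat_lit 3) (nat_lit 52) (nat_lit 5) (nat_lit 313) (nat_lit 313) (nat_lit 154))) (XT.nd (nat_lit 78) (nat_lit 0) (nat_lit 76) (XT.lf (nat_lit 76) (nat_lit 71367499831) (nat_lit 0) (nat_lit 91980319640) (nat_lit 532) (nat_lit 87433261864) (nat_lit 46) (nat_lit 5) (nat_lit 45) (nat_lit 3) (nat_lit 52) (nat_lit 5) (nat_lit 314) (nat_lit 313) (nat_lit 153)) (XT.lf (nat_lit 0) (nat_lit 173671073107) (nat_lit 456) (nat_lit 64295788893) (nat_lit 532) (nat_lit 22948233937) (nat_lit 46) (nat_lit 5) (nat_lit 52) (nat_lit 5) (nat_lit 53) (nat_lit 5) (nat_lit 315) (nat_lit 313) (nat_lit 152)))) (XT.nd (nat_lit 156) (nat_lit 0) (nat_lit 76) (XT.nd (nat_lit 78) (nat_lit 0) (nat_lit 0) (XT.lf (nat_lit 76) (nat_lit 60677604058)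 (nat_lit 0) (nat_lit 127990884400) (nat_lit 532) (nat_lit 82883479408) (nat_lit 47) (nat_lit 5) (nat_lit 46) (nat_lit 5) (nat_lit 53) (nat_lit 5) (nat_lit 316) (nat_lit 313) (nat_lit 151)) (XT.lf (nat_lit 76) (nat_lit 199305365178) (nat_lit 0) (nat_lit 7318202646) (nat_lit 532) (nat_lit 76275592317) (nat_lit 47) (nat_lit 5) (nat_lit 46) (nat_lit 5) (nat_lit 53) (nat_lit 5) (nat_lit 317) (nat_lit 313) (nat_lit 150))) (XT.nd (nat_lit 78) (nat_lit 0) (nat_lit 0) (XT.lf (nat_lit 76) (nat_lit 53591674879) (nat_lit 0) (nat_lit 176670529424) (nat_lit 532) (nat_lit 64552151669) (nat_lit 48) (nat_lit 5) (nat_lit 47) (nat_lit 5) (nat_lit 54) (nat_lit 5) (nat_lit 318) (nat_lit 313) (nat_lit 149)) (XT.lf (nat_lit 76) (nat_lit 206305879797) (nat_lit 0) (nat_lit 51956847237) (nat_lit 532) (nat_lit 49222377027) (nat_lit 48) (nat_lit 5) (nat_lit 47) (nat_lit 5) (nat_lit 54) (nat_lit 5) (nat_lit 319)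 (nat_lit 313) (nat_lit 148)))))) (XT.nd (nat_lit 624) (nat_lit 684) (nat_lit 0) (XT.nd (nat_lit 312) (nat_lit 456) (nat_lit 0) (XT.nd (nat_lit 156) (nat_lit 304) (nat_lit 0) (XT.nd (nat_lit 78) (nat_lit 0) (nat_lit 0) (XT.lf (nat_lit 0) (nat_lit 50609587949) (nat_lit 456) (nat_lit 241100546443) (nat_lit 532) (nat_lit 29202830383) (nat_lit 42) (nat_lit 5) (nat_lit 48) (nat_lit 5) (nat_lit 49) (nat_lit 5) (nat_lit 320) (nat_lit 313) (nat_lit 147)) (XT.lf (nat_lit 0) (nat_lit 218875001912) (nat_lit 456) (nat_lit 113040046765) (nat_lit 532) (nat_lit 3173468708) (nat_lit 42) (nat_lit 5) (nat_lit 48) (nat_lit 5) (nat_lit 49) (nat_lit 5) (nat_lit 321) (nat_lit 313) (nat_lit 146))) (XT.nd (nat_lit 78) (nat_lit 0) (nat_lit 0) (XT.lf (nat_lit 0) (nat_lit 25602282387) (nat_lit 304) (nat_lit 298689751536) (nat_lit 76) (nat_lit 25905175027) (nat_lit 38) (nat_lit 5) (nat_lit 42) (nat_lit 5) (nat_lit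 39) (nat_lit 5) (nat_lit 322) (nat_lit 313) (nat_lit 145)) (XT.lf (nat_lit 0) (nat_lit 62704702894) (nat_lit 304) (nat_lit 130106253863) (nat_lit 76) (nat_lit 173201360286) (nat_lit 38) (nat_lit 5) (nat_lit 42) (nat_lit 5) (nat_lit 39) (nat_lit 5) (nat_lit 323) (nat_lit 313) (nat_lit 144)))) (XT.nd (nat_lit 156) (nat_lit 228) (nat_lit 0) (XT.nd (nat_lit 78) (nat_lit 0) (nat_lit 0) (XT.lf (nat_lit 0) (nat_lit 54700187885) (nat_lit 228) (nat_lit 49390613001) (nat_lit 304) (nat_lit 278896594327) (nat_lit 35) (nat_lit 5) (nat_lit 38) (nat_lit 5) (nat_lit 39) (nat_lit 5) (nat_lit 324) (nat_lit 313) (nat_lit 143)) (XT.lf (nat_lit 0) (nat_lit 154974824589) (nat_lit 304) (nat_lit 141975309985) (nat_lit 76) (nat_lit 103875382160) (nat_lit 35) (nat_lit 5) (nat_lit 39) (nat_lit 5) (nat_lit 36) (nat_lit 5) (nat_lit 325) (nat_lit 313) (nat_lit 142))) (XT.nd (nat_lit 78) (nat_lit 0) (nat_lit 0) (XT.lf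 (nat_lit 0) (nat_lit 61010604852) (nat_lit 228) (nat_lit 151669094628) (nat_lit 304) (nat_lit 207190978271) (nat_lit 32) (nat_lit 5) (nat_lit 35) (nat_lit 5) (nat_lit 36) (nat_lit 5) (nat_lit 326) (nat_lit 313) (nat_lit 141)) (XT.lf (nat_lit 0) (nat_lit 279109488352) (nat_lit 304) (nat_lit 152046025151) (nat_lit 76) (nat_lit 8955256337) (nat_lit 32) (nat_lit 5) (nat_lit 36) (nat_lit 5) (nat_lit 33) (nat_lit 5) (nat_lit 327) (nat_lit 313) (nat_lit 140))))) (XT.nd (nat_lit 312) (nat_lit 304) (nat_lit 0) (XT.nd (nat_lit 156) (nat_lit 228) (nat_lit 0) (XT.nd (nat_lit 78) (nat_lit 0) (nat_lit 0) (XT.lf (nat_lit 0) (nat_lit 70921409038) (nat_lit 152) (nat_lit 285577325295) (nat_lit 228) (nat_lit 105019729143) (nat_lit 30) (nat_lit 5) (nat_lit 32) (nat_lit 5) (nat_lit 33) (nat_lit 5) (nat_lit 328) (nat_lit 313) (nat_lit 139)) (XT.lf (nat_lit 0) (nat_lit 320373175080) (nat_lit 152) (nat_lit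 123863110073) (nat_lit 228) (nat_lit 40069914330) (nat_lit 30) (nat_lit 5) (nat_lit 32) (nat_lit 5) (nat_lit 33) (nat_lit 5) (nat_lit 329) (nat_lit 313) (nat_lit 138))) (XT.nd (nat_lit 78) (nat_lit 0) (nat_lit 0) (XT.lf (nat_lit 0) (nat_lit 31893151217) (nat_lit 228) (nat_lit 425628906376) (nat_lit 76) (nat_lit 51071288145) (nat_lit 27) (nat_lit 5) (nat_lit 30) (nat_lit 5) (nat_lit 28) (nat_lit 5) (nat_lit 330) (nat_lit 313) (nat_lit 137)) (XT.lf (nat_lit 0) (nat_lit 115264271058) (nat_lit 228) (nat_lit 179902646187) (nat_lit 76) (nat_lit 238948018345) (nat_lit 27) (nat_lit 5) (nat_lit 30) (nat_lit 5) (nat_lit 28) (nat_lit 5) (nat_lit 331) (nat_lit 313) (nat_lit 136)))) (XT.nd (nat_lit 156) (nat_lit 152) (nat_lit 0) (XT.nd (nat_lit 78) (nat_lit 0) (nat_lit 0) (XT.lf (nat_lit 0) (nat_lit 89982977103) (nat_lit 152) (nat_lit 117486159923) (nat_lit 228) (nat_lit 354035991151) (nat_lit 25)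 (nat_lit 5) (nat_lit 27) (nat_lit 5) (nat_lit 28) (nat_lit 5) (nat_lit 332) (nat_lit 313) (nat_lit 135)) (XT.lf (nat_lit 0) (nat_lit 313886516509) (nat_lit 228) (nat_lit 200919708471) (nat_lit 76) (nat_lit 75733421313) (nat_lit 25) (nat_lit 5) (nat_lit 28) (nat_lit 5) (nat_lit 26) (nat_lit 5) (nat_lit 333) (nat_lit 313) (nat_lit 134))) (XT.nd (nat_lit 78) (nat_lit 0) (nat_lit 0) (XT.lf (nat_lit 0) (nat_lit 92927924064) (nat_lit 152) (nat_lit 341175837182) (nat_lit 228) (nat_lit 187370246682) (nat_lit 23) (nat_lit 5) (nat_lit 25) (nat_lit 5) (nat_lit 26) (nat_lit 5) (nat_lit 334) (nat_lit 313) (nat_lit 133)) (XT.lf (nat_lit 0) (nat_lit 421709802244) (nat_lit 152) (nat_lit 147722053006) (nat_lit 228) (nat_lit 85011785722) (nat_lit 23) (nat_lit 5) (nat_lit 25) (nat_lit 5) (nat_lit 26) (nat_lit 5) (nat_lit 335) (nat_lit 313) (nat_lit 132))))))))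
noncomputable def xc118 : XT := (XT.nd (nat_lit 39468) (nat_lit 0) (nat_lit 304) (XT.nd (nat_lit 1170) (nat_lit 304) (nat_lit 0) (XT.nd (nat_lit 546) (nat_lit 456) (nat_lit 0) (XT.nd (nat_lit 234) (nat_lit 152) (nat_lit 0) (XT.nd (nat_lit 78) (nat_lit 152) (nat_lit 0) (XT.lf (nat_lit 0) (nat_lit 27983068806) (nat_lit 152) (nat_lit 600707292682) (nat_lit 76) (nat_lit 61013345278) (nat_lit 21) (nat_lit 5) (nat_lit 23) (nat_lit 5) (nat_lit 22) (nat_lit 5) (nat_lit 336) (nat_lit 313) (nat_lit 131)) (XT.nd (nat_lit 78) (nat_lit 152) (nat_lit 0) (XT.lf (nat_lit 0) (nat_lit 155790212255) (nat_lit 152) (nat_lit 283785005135) (nat_lit 76) (nat_lit 287203469004) (nat_lit 21) (nat_lit 5) (nat_lit 23) (nat_lit 5) (nat_lit 22) (nat_lit 5) (nat_lit 337) (nat_lit 313) (nat_lit 130)) (XT.lf (nat_lit 0) (nat_lit 61571056649) (nat_lit 152) (nat_lit 233731629154) (nat_lit 228) (nat_lit 471398517939) (nat_lit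 19) (nat_lit 5) (nat_lit 21) (nat_lit 5) (nat_lit 22) (nat_lit 5) (nat_lit 338) (nat_lit 313) (nat_lit 129)))) (XT.nd (nat_lit 156) (nat_lit 76) (nat_lit 0) (XT.nd (nat_lit 78) (nat_lit 76) (nat_lit 0) (XT.lf (nat_lit 0) (nat_lit 450694666763) (nat_lit 152) (nat_lit 3040649644) (nat_lit 228) (nat_lit 355461473376) (nat_lit 19) (nat_lit 5) (nat_lit 21) (nat_lit 5) (nat_lit 22) (nat_lit 5) (nat_lit 339) (nat_lit 313) (nat_lit 128)) (XT.lf (nat_lit 0) (nat_lit 10460535694) (nat_lit 76) (nat_lit 620552419479) (nat_lit 152) (nat_lit 223585435749) (nat_lit 18) (nat_lit 5) (nat_lit 19) (nat_lit 5) (nat_lit 20) (nat_lit 4) (nat_lit 340) (nat_lit 313) (nat_lit 127))) (XT.nd (nat_lit 78) (nat_lit 76) (nat_lit 0) (XT.lf (nat_lit 0) (nat_lit 429245364912) (nat_lit 76) (nat_lit 403106478607) (nat_lit 152) (nat_lit 70489953587) (nat_lit 18) (nat_lit 5) (nat_lit 19) (nat_lit 5) (nat_lit 20) (nat_lit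 4) (nat_lit 341) (nat_lit 313) (nat_lit 126)) (XT.lf (nat_lit 0) (nat_lit 90108205353) (nat_lit 152) (nat_lit 75692953430) (nat_lit 76) (nat_lit 788961021131) (nat_lit 17) (nat_lit 5) (nat_lit 19) (nat_lit 5) (nat_lit 18) (nat_lit 5) (nat_lit 342) (nat_lit 313) (nat_lit 125))))) (XT.nd (nat_lit 312) (nat_lit 228) (nat_lit 0) (XT.nd (nat_lit 156) (nat_lit 76) (nat_lit 0) (XT.nd (nat_lit 78) (nat_lit 0) (nat_lit 0) (XT.lf (nat_lit 0) (nat_lit 271118076472) (nat_lit 228) (nat_lit 641673080573) (nat_lit 76) (nat_lit 96988791866) (nat_lit 15) (nat_lit 5) (nat_lit 18) (nat_lit 5) (nat_lit 16) (nat_lit 4) (nat_lit 343) (nat_lit 313) (nat_lit 124)) (XT.lf (nat_lit 0) (nat_lit 473038575501) (nat_lit 228) (nat_lit 221678485625) (nat_lit 76) (nat_lit 373967691269) (nat_lit 15) (nat_lit 5) (nat_lit 18) (nat_lit 5) (nat_lit 16) (nat_lit 4) (nat_lit 344) (nat_lit 313) (nat_lit 123))) (XT.nd (nat_lit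 78) (nat_lit 0) (nat_lit 0) (XT.lf (nat_lit 0) (nat_lit 244127911538) (nat_lit 76) (nat_lit 452856066370) (nat_lit 152) (nat_lit 434848261194) (nat_lit 14) (nat_lit 5) (nat_lit 15) (nat_lit 5) (nat_lit 16) (nat_lit 4) (nat_lit 345) (nat_lit 313) (nat_lit 122)) (XT.lf (nat_lit 0) (nat_lit 759805840952) (nat_lit 76) (nat_lit 185100236141) (nat_lit 152) (nat_lit 254640562506) (nat_lit 14) (nat_lit 5) (nat_lit 15) (nat_lit 5) (nat_lit 16) (nat_lit 4) (nat_lit 346) (nat_lit 313) (nat_lit 121)))) (XT.nd (nat_lit 156) (nat_lit 76) (nat_lit 0) (XT.nd (nat_lit 78) (nat_lit 76) (nat_lit 0) (XT.lf (nat_lit 0) (nat_lit 43745055515) (nat_lit 76) (nat_lit 1172471973075) (nat_lit 76) (nat_lit 56176756813) (nat_lit 13) (nat_lit 4) (nat_lit 14) (nat_lit 5) (nat_lit 14) (nat_lit 4) (nat_lit 347) (nat_lit 313) (nat_lit 120)) (XT.lf (nat_lit 0) (nat_lit 167395509287) (nat_lit 152) (nat_lit 768112586229)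 (nat_lit 76) (nat_lit 413884829839) (nat_lit 12) (nat_lit 5) (nat_lit 14) (nat_lit 5) (nat_lit 13) (nat_lit 4) (nat_lit 348) (nat_lit 313) (nat_lit 119))) (XT.nd (nat_lit 78) (nat_lit 76) (nat_lit 0) (XT.lf (nat_lit 0) (nat_lit 405818537015) (nat_lit 152) (nat_lit 272192715670) (nat_lit 76) (nat_lit 754424014161) (nat_lit 12) (nat_lit 5) (nat_lit 14) (nat_lit 5) (nat_lit 13) (nat_lit 4) (nat_lit 349) (nat_lit 313) (nat_lit 118)) (XT.lf (nat_lit 0) (nat_lit 277270933609) (nat_lit 76) (nat_lit 392712831477) (nat_lit 152) (nat_lit 851603761936) (nat_lit 11) (nat_lit 5) (nat_lit 12) (nat_lit 5) (nat_lit 13) (nat_lit 4) (nat_lit 350) (nat_lit 313) (nat_lit 117)))))) (XT.nd (nat_lit 624) (nat_lit 76) (nat_lit 0) (XT.nd (nat_lit 312) (nat_lit 76) (nat_lit 0) (XT.nd (nat_lit 156) (nat_lit 152) (nat_lit 0) (XT.nd (nat_lit 78) (nat_lit 0) (nat_lit 0) (XT.lf (nat_lit 0) (nat_lit 886171490438) (nat_lit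 76) (nat_lit 76552938147) (nat_lit 152) (nat_lit 654552162065) (nat_lit 11) (nat_lit 5) (nat_lit 12) (nat_lit 5) (nat_lit 13) (nat_lit 4) (nat_lit 351) (nat_lit 313) (nat_lit 116)) (XT.lf (nat_lit 0) (nat_lit 1285255177198) (nat_lit 152) (nat_lit 183207557074) (nat_lit 0) (nat_lit 251648378544) (nat_lit 11) (nat_lit 5) (nat_lit 13) (nat_lit 4) (nat_lit 11) (nat_lit 4) (nat_lit 352) (nat_lit 313) (nat_lit 115))) (XT.nd (nat_lit 78) (nat_lit 76) (nat_lit 0) (XT.lf (nat_lit 0) (nat_lit 427940706366) (nat_lit 76) (nat_lit 1217928039354) (nat_lit 76) (nat_lit 184321222245) (nat_lit 10) (nat_lit 4) (nat_lit 11) (nat_lit 5) (nat_lit 11) (nat_lit 4) (nat_lit 353) (nat_lit 313) (nat_lit 114)) (XT.lf (nat_lit 0) (nat_lit 87080696998) (nat_lit 152) (nat_lit 852478984441) (nat_lit 76) (nat_lit 1008938347537) (nat_lit 9) (nat_lit 5) (nat_lit 11) (nat_lit 5) (nat_lit 10) (nat_lit 4) (nat_lit 354)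 (nat_lit 313) (nat_lit 113)))) (XT.nd (nat_lit 156) (nat_lit 0) (nat_lit 0) (XT.nd (nat_lit 78) (nat_lit 76) (nat_lit 0) (XT.lf (nat_lit 0) (nat_lit 370236624920) (nat_lit 152) (nat_lit 263514670185) (nat_lit 76) (nat_lit 1442136435537) (nat_lit 9) (nat_lit 5) (nat_lit 11) (nat_lit 5) (nat_lit 10) (nat_lit 4) (nat_lit 355) (nat_lit 313) (nat_lit 112)) (XT.lf (nat_lit 0) (nat_lit 392185475753) (nat_lit 76) (nat_lit 293291610988) (nat_lit 152) (nat_lit 1527236956934) (nat_lit 8) (nat_lit 5) (nat_lit 9) (nat_lit 5) (nat_lit 10) (nat_lit 4) (nat_lit 356) (nat_lit 313) (nat_lit 111))) (XT.nd (nat_lit 78) (nat_lit 0) (nat_lit 0) (XT.lf (nat_lit 0) (nat_lit 1035118313383) (nat_lit 152) (nat_lit 1246558718537) (nat_lit 0) (nat_lit 78074907610) (nat_lit 8) (nat_lit 5) (nat_lit 10) (nat_lit 4) (nat_lit 8) (nat_lit 4) (nat_lit 357) (nat_lit 313) (nat_lit 110)) (XT.lf (nat_lit 0) (nat_lit 1420348792498)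 (nat_lit 152) (nat_lit 634289263119) (nat_lit 0) (nat_lit 463305375095) (nat_lit 8) (nat_lit 5) (nat_lit 10) (nat_lit 4) (nat_lit 8) (nat_lit 4) (nat_lit 358) (nat_lit 313) (nat_lit 109))))) (XT.nd (nat_lit 37362) (nat_lit 0) (nat_lit 2964) (XT.nd (nat_lit 37206) (nat_lit 0) (nat_lit 2888) (XT.nd (nat_lit 37128) (nat_lit 0) (nat_lit 2888) (XT.lf (nat_lit 0) (nat_lit 28381489100) (nat_lit 76) (nat_lit 1808698787468) (nat_lit 76) (nat_lit 851655359296) (nat_lit 7) (nat_lit 4) (nat_lit 8) (nat_lit 5) (nat_lit 8) (nat_lit 4) (nat_lit 359) (nat_lit 313) (nat_lit 108)) (XT.lf (nat_lit 0) (nat_lit 83924481421) (nat_lit 532) (nat_lit 23180014799) (nat_lit 532) (nat_lit 23180014799) (nat_lit 45) (nat_lit 3) (nat_lit 52) (nat_lit 3) (nat_lit 52) (nat_lit 5) (nat_lit 314) (nat_lit 314) (nat_lit 152))) (XT.nd (nat_lit 78) (nat_lit 0) (nat_lit 76) (XT.lf (nat_lit 76) (nat_lit 77077959872) (nat_lit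 0) (nat_lit 99339570560) (nat_lit 532) (nat_lit 94425881226) (nat_lit 46) (nat_lit 5) (nat_lit 45) (nat_lit 3) (nat_lit 52) (nat_lit 5) (nat_lit 315) (nat_lit 314) (nat_lit 151)) (XT.lf (nat_lit 0) (nat_lit 187566486320) (nat_lit 456) (nat_lit 69438307478) (nat_lit 532) (nat_lit 24783366669) (nat_lit 46) (nat_lit 5) (nat_lit 52) (nat_lit 5) (nat_lit 53) (nat_lit 5) (nat_lit 316) (nat_lit 314) (nat_lit 150)))) (XT.nd (nat_lit 156) (nat_lit 0) (nat_lit 76) (XT.nd (nat_lit 78) (nat_lit 0) (nat_lit 0) (XT.lf (nat_lit 76) (nat_lit 65532927934) (nat_lit 0) (nat_lit 138230665841) (nat_lit 532) (nat_lit 89512396832) (nat_lit 47) (nat_lit 5) (nat_lit 46) (nat_lit 5) (nat_lit 53) (nat_lit 5) (nat_lit 317) (nat_lit 314) (nat_lit 149)) (XT.lf (nat_lit 76) (nat_lit 215250827311) (nat_lit 0) (nat_lit 7904131718) (nat_lit 532) (nat_lit 82376009213) (nat_lit 47) (nat_lit 5) (nat_lit 46) (nat_lit 5)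 (nat_lit 53) (nat_lit 5) (nat_lit 318) (nat_lit 314) (nat_lit 148))) (XT.nd (nat_lit 78) (nat_lit 0) (nat_lit 0) (XT.lf (nat_lit 76) (nat_lit 57880148276) (nat_lit 0) (nat_lit 190804443484) (nat_lit 532) (nat_lit 69714795868) (nat_lit 48) (nat_lit 5) (nat_lit 47) (nat_lit 5) (nat_lit 54) (nat_lit 5) (nat_lit 319) (nat_lit 314) (nat_lit 147)) (XT.lf (nat_lit 76) (nat_lit 222811405187) (nat_lit 0) (nat_lit 56113646596) (nat_lit 532) (nat_lit 53158752435) (nat_lit 48) (nat_lit 5) (nat_lit 47) (nat_lit 5) (nat_lit 54) (nat_lit 5) (nat_lit 320) (nat_lit 314) (nat_lit 146))))))) (XT.nd (nat_lit 1248) (nat_lit 912) (nat_lit 0) (XT.nd (nat_lit 624) (nat_lit 684) (nat_lit 0) (XT.nd (nat_lit 312) (nat_lit 456) (nat_lit 0) (XT.nd (nat_lit 156) (nat_lit 304) (nat_lit 0) (XT.nd (nat_lit 78) (nat_lit 0) (nat_lit 0) (XT.lf (nat_lit 0) (nat_lit 54659494610) (nat_lit 456) (nat_lit 260388682140) (nat_lit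 532) (nat_lit 31537723306) (nat_lit 42) (nat_lit 5) (nat_lit 48) (nat_lit 5) (nat_lit 49) (nat_lit 5) (nat_lit 321) (nat_lit 314) (nat_lit 145)) (XT.lf (nat_lit 0) (nat_lit 236386057273) (nat_lit 456) (nat_lit 122083335675) (nat_lit 532) (nat_lit 3426111475) (nat_lit 42) (nat_lit 5) (nat_lit 48) (nat_lit 5) (nat_lit 49) (nat_lit 5) (nat_lit 322) (nat_lit 314) (nat_lit 144))) (XT.nd (nat_lit 78) (nat_lit 0) (nat_lit 0) (XT.lf (nat_lit 0) (nat_lit 27651576805) (nat_lit 304) (nat_lit 322583747980) (nat_lit 76) (nat_lit 27977569257) (nat_lit 38) (nat_lit 5) (nat_lit 42) (nat_lit 5) (nat_lit 39) (nat_lit 5) (nat_lit 323) (nat_lit 314) (nat_lit 143)) (XT.lf (nat_lit 0) (nat_lit 67722108595) (nat_lit 304) (nat_lit 140513658173) (nat_lit 76) (nat_lit 187057450801) (nat_lit 38) (nat_lit 5) (nat_lit 42) (nat_lit 5) (nat_lit 39) (nat_lit 5) (nat_lit 324) (nat_lit 314) (nat_lit 142)))) (XT.nd (nat_lit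 156) (nat_lit 228) (nat_lit 0) (XT.nd (nat_lit 78) (nat_lit 0) (nat_lit 0) (XT.lf (nat_lit 0) (nat_lit 59077271168) (nat_lit 228) (nat_lit 53341772693) (nat_lit 304) (nat_lit 301207262361) (nat_lit 35) (nat_lit 5) (nat_lit 38) (nat_lit 5) (nat_lit 39) (nat_lit 5) (nat_lit 325) (nat_lit 314) (nat_lit 141)) (XT.lf (nat_lit 0) (nat_lit 167373718939) (nat_lit 304) (nat_lit 153332273015) (nat_lit 76) (nat_lit 112185491324) (nat_lit 35) (nat_lit 5) (nat_lit 39) (nat_lit 5) (nat_lit 36) (nat_lit 5) (nat_lit 326) (nat_lit 314) (nat_lit 140))) (XT.nd (nat_lit 78) (nat_lit 0) (nat_lit 0) (XT.lf (nat_lit 0) (nat_lit 65892488129) (nat_lit 228) (nat_lit 163802453294) (nat_lit 304) (nat_lit 223765319302) (nat_lit 32) (nat_lit 5) (nat_lit 35) (nat_lit 5) (nat_lit 36) (nat_lit 5) (nat_lit 327) (nat_lit 314) (nat_lit 139)) (XT.lf (nat_lit 0) (nat_lit 301439053018) (nat_lit 304) (nat_lit 164208686725)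 (nat_lit 76) (nat_lit 9671825414) (nat_lit 32) (nat_lit 5) (nat_lit 36) (nat_lit 5) (nat_lit 33) (nat_lit 5) (nat_lit 328) (nat_lit 314) (nat_lit 138))))) (XT.nd (nat_lit 312) (nat_lit 304) (nat_lit 0) (XT.nd (nat_lit 156) (nat_lit 228) (nat_lit 0) (XT.nd (nat_lit 78) (nat_lit 0) (nat_lit 0) (XT.lf (nat_lit 0) (nat_lit 76596116366) (nat_lit 152) (nat_lit 308423286558) (nat_lit 228) (nat_lit 113420474355) (nat_lit 30) (nat_lit 5) (nat_lit 32) (nat_lit 5) (nat_lit 33) (nat_lit 5) (nat_lit 329) (nat_lit 314) (nat_lit 137)) (XT.lf (nat_lit 0) (nat_lit 346003950017) (nat_lit 152) (nat_lit 133771950768) (nat_lit 228) (nat_lit 43274736070) (nat_lit 30) (nat_lit 5) (nat_lit 32) (nat_lit 5) (nat_lit 33) (nat_lit 5) (nat_lit 330) (nat_lit 314) (nat_lit 136))) (XT.nd (nat_lit 78) (nat_lit 0) (nat_lit 0) (XT.lf (nat_lit 0) (nat_lit 34445310041) (nat_lit 228) (nat_lit 459678230490) (nat_lit 76) (nat_lit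 55157214988) (nat_lit 27) (nat_lit 5) (nat_lit 30) (nat_lit 5) (nat_lit 28) (nat_lit 5) (nat_lit 331) (nat_lit 314) (nat_lit 135)) (XT.lf (nat_lit 0) (nat_lit 124486067120) (nat_lit 228) (nat_lit 194293942700) (nat_lit 76) (nat_lit 258064067027) (nat_lit 27) (nat_lit 5) (nat_lit 30) (nat_lit 5) (nat_lit 28) (nat_lit 5) (nat_lit 332) (nat_lit 314) (nat_lit 134)))) (XT.nd (nat_lit 156) (nat_lit 152) (nat_lit 0) (XT.nd (nat_lit 78) (nat_lit 0) (nat_lit 0) (XT.lf (nat_lit 0) (nat_lit 97182507283) (nat_lit 152) (nat_lit 126884788062) (nat_lit 228) (nat_lit 382358191748) (nat_lit 25) (nat_lit 5) (nat_lit 27) (nat_lit 5) (nat_lit 28) (nat_lit 5) (nat_lit 333) (nat_lit 314) (nat_lit 133)) (XT.lf (nat_lit 0) (nat_lit 338998024610) (nat_lit 228) (nat_lit 216992417571) (nat_lit 76) (nat_lit 81792327811) (nat_lit 25) (nat_lit 5) (nat_lit 28) (nat_lit 5) (nat_lit 26) (nat_lit 5) (nat_lit 334) (nat_lit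 314) (nat_lit 132))) (XT.nd (nat_lit 78) (nat_lit 0) (nat_lit 0) (XT.lf (nat_lit 0) (nat_lit 100363003603) (nat_lit 152) (nat_lit 368469622194) (nat_lit 228) (nat_lit 202359256688) (nat_lit 23) (nat_lit 5) (nat_lit 25) (nat_lit 5) (nat_lit 26) (nat_lit 5) (nat_lit 335) (nat_lit 314) (nat_lit 131)) (XT.lf (nat_lit 0) (nat_lit 455447369399) (nat_lit 152) (nat_lit 159539556171) (nat_lit 228) (nat_lit 91812164017) (nat_lit 23) (nat_lit 5) (nat_lit 25) (nat_lit 5) (nat_lit 26) (nat_lit 5) (nat_lit 336) (nat_lit 314) (nat_lit 130)))))) (XT.nd (nat_lit 624) (nat_lit 304) (nat_lit 0) (XT.nd (nat_lit 312) (nat_lit 304) (nat_lit 0) (XT.nd (nat_lit 156) (nat_lit 152) (nat_lit 0) (XT.nd (nat_lit 78) (nat_lit 0) (nat_lit 0) (XT.lf (nat_lit 0) (nat_lit 30222236575) (nat_lit 152) (nat_lit 648763049197) (nat_lit 76) (nat_lit 65894674974) (nat_lit 21) (nat_lit 5) (nat_lit 23) (nat_lit 5) (nat_lit 22)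 (nat_lit 5) (nat_lit 337) (nat_lit 314) (nat_lit 129)) (XT.lf (nat_lit 0) (nat_lit 168253912814) (nat_lit 152) (nat_lit 306487039897) (nat_lit 76) (nat_lit 310179989185) (nat_lit 21) (nat_lit 5) (nat_lit 23) (nat_lit 5) (nat_lit 22) (nat_lit 5) (nat_lit 338) (nat_lit 314) (nat_lit 128))) (XT.nd (nat_lit 78) (nat_lit 0) (nat_lit 0) (XT.lf (nat_lit 0) (nat_lit 66497487446) (nat_lit 152) (nat_lit 252429878927) (nat_lit 228) (nat_lit 509109895743) (nat_lit 19) (nat_lit 5) (nat_lit 21) (nat_lit 5) (nat_lit 22) (nat_lit 5) (nat_lit 339) (nat_lit 314) (nat_lit 127)) (XT.lf (nat_lit 0) (nat_lit 486750931090) (nat_lit 152) (nat_lit 3283641838) (nat_lit 228) (nat_lit 383897924920) (nat_lit 19) (nat_lit 5) (nat_lit 21) (nat_lit 5) (nat_lit 22) (nat_lit 5) (nat_lit 340) (nat_lit 314) (nat_lit 126)))) (XT.nd (nat_lit 156) (nat_lit 228) (nat_lit 0) (XT.nd (nat_lit 78) (nat_lit 0) (nat_lit 0) (XT.lf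 (nat_lit 0) (nat_lit 11298080181) (nat_lit 76) (nat_lit 670196333332) (nat_lit 152) (nat_lit 241471814354) (nat_lit 18) (nat_lit 5) (nat_lit 19) (nat_lit 5) (nat_lit 20) (nat_lit 4) (nat_lit 341) (nat_lit 314) (nat_lit 125)) (XT.lf (nat_lit 0) (nat_lit 463585643764) (nat_lit 76) (nat_lit 435354737910) (nat_lit 152) (nat_lit 76128727416) (nat_lit 18) (nat_lit 5) (nat_lit 19) (nat_lit 5) (nat_lit 20) (nat_lit 4) (nat_lit 342) (nat_lit 314) (nat_lit 124))) (XT.nd (nat_lit 78) (nat_lit 152) (nat_lit 0) (XT.lf (nat_lit 0) (nat_lit 97317233378) (nat_lit 152) (nat_lit 81747768145) (nat_lit 76) (nat_lit 852078122600) (nat_lit 17) (nat_lit 5) (nat_lit 19) (nat_lit 5) (nat_lit 18) (nat_lit 5) (nat_lit 343) (nat_lit 314) (nat_lit 123)) (XT.lf (nat_lit 0) (nat_lit 292807887176) (nat_lit 228) (nat_lit 693006298027) (nat_lit 76) (nat_lit 104748130032) (nat_lit 15) (nat_lit 5) (nat_lit 18) (nat_lit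 5) (nat_lit 16) (nat_lit 4) (nat_lit 344) (nat_lit 314) (nat_lit 122))))) (XT.nd (nat_lit 312) (nat_lit 152) (nat_lit 0) (XT.nd (nat_lit 156) (nat_lit 76) (nat_lit 0) (XT.nd (nat_lit 78) (nat_lit 76) (nat_lit 0) (XT.lf (nat_lit 0) (nat_lit 510881999121) (nat_lit 228) (nat_lit 239412182074) (nat_lit 76) (nat_lit 403885323994) (nat_lit 15) (nat_lit 5) (nat_lit 18) (nat_lit 5) (nat_lit 16) (nat_lit 4) (nat_lit 345) (nat_lit 314) (nat_lit 121)) (XT.lf (nat_lit 0) (nat_lit 263658712117) (nat_lit 76) (nat_lit 489084310249) (nat_lit 152) (nat_lit 469635769404) (nat_lit 14) (nat_lit 5) (nat_lit 15) (nat_lit 5) (nat_lit 16) (nat_lit 4) (nat_lit 346) (nat_lit 314) (nat_lit 120))) (XT.nd (nat_lit 78) (nat_lit 76) (nat_lit 0) (XT.lf (nat_lit 0) (nat_lit 820590833835) (nat_lit 76) (nat_lit 199908031486) (nat_lit 152) (nat_lit 275011480945) (nat_lit 14) (nat_lit 5) (nat_lit 15) (nat_lit 5) (nat_lit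 16) (nat_lit 4) (nat_lit 347) (nat_lit 314) (nat_lit 119)) (XT.lf (nat_lit 0) (nat_lit 47245190897) (nat_lit 76) (nat_lit 1266269497414) (nat_lit 76) (nat_lit 60670575820) (nat_lit 13) (nat_lit 4) (nat_lit 14) (nat_lit 5) (nat_lit 14) (nat_lit 4) (nat_lit 348) (nat_lit 314) (nat_lit 118)))) (XT.nd (nat_lit 156) (nat_lit 76) (nat_lit 0) (XT.nd (nat_lit 78) (nat_lit 0) (nat_lit 0) (XT.lf (nat_lit 0) (nat_lit 180787432858) (nat_lit 152) (nat_lit 829561086356) (nat_lit 76) (nat_lit 446995817277) (nat_lit 12) (nat_lit 5) (nat_lit 14) (nat_lit 5) (nat_lit 13) (nat_lit 4) (nat_lit 349) (nat_lit 314) (nat_lit 117)) (XT.lf (nat_lit 0) (nat_lit 438284281854) (nat_lit 152) (nat_lit 293967663692) (nat_lit 76) (nat_lit 814778121453) (nat_lit 12) (nat_lit 5) (nat_lit 14) (nat_lit 5) (nat_lit 13) (nat_lit 4) (nat_lit 350) (nat_lit 314) (nat_lit 116))) (XT.nd (nat_lit 78) (nat_lit 0) (nat_lit 0) (XT.lf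 (nat_lit 0) (nat_lit 299453065651) (nat_lit 76) (nat_lit 424129654121) (nat_lit 152) (nat_lit 919731788906) (nat_lit 11) (nat_lit 5) (nat_lit 12) (nat_lit 5) (nat_lit 13) (nat_lit 4) (nat_lit 351) (nat_lit 314) (nat_lit 115)) (XT.lf (nat_lit 0) (nat_lit 957065633148) (nat_lit 76) (nat_lit 82676984426) (nat_lit 152) (nat_lit 706916081340) (nat_lit 11) (nat_lit 5) (nat_lit 12) (nat_lit 5) (nat_lit 13) (nat_lit 4) (nat_lit 352) (nat_lit 314) (nat_lit 114))))))))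
noncomputable def xc119 : XT := (XT.nd (nat_lit 39624) (nat_lit 0) (nat_lit 0) (XT.nd (nat_lit 38376) (nat_lit 0) (nat_lit 988) (XT.nd (nat_lit 37752) (nat_lit 0) (nat_lit 2584) (XT.nd (nat_lit 312) (nat_lit 76) (nat_lit 0) (XT.nd (nat_lit 156) (nat_lit 76) (nat_lit 0) (XT.nd (nat_lit 78) (nat_lit 76) (nat_lit 0) (XT.lf (nat_lit 0) (nat_lit 1388075812895) (nat_lit 152) (nat_lit 197863756156) (nat_lit 0) (nat_lit 271780414873) (nat_lit 11) (nat_lit 5) (nat_lit 13) (nat_lit 4) (nat_lit 11) (nat_lit 4) (nat_lit 353) (nat_lit 314) (nat_lit 113)) (XT.lf (nat_lit 0) (nat_lit 462176358094) (nat_lit 76) (nat_lit 1315362101901) (nat_lit 76) (nat_lit 199066688057) (nat_lit 10) (nat_lit 4) (nat_lit 11) (nat_lit 5) (nat_lit 11) (nat_lit 4) (nat_lit 354) (nat_lit 314) (nat_lit 112))) (XT.nd (nat_lit 78) (nat_lit 0) (nat_lit 0) (XT.lf (nat_lit 0) (nat_lit 94047356797) (nat_lit 152) (nat_lit 920676926354)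 (nat_lit 76) (nat_lit 1089653571664) (nat_lit 9) (nat_lit 5) (nat_lit 11) (nat_lit 5) (nat_lit 10) (nat_lit 4) (nat_lit 355) (nat_lit 314) (nat_lit 111)) (XT.lf (nat_lit 0) (nat_lit 399855743840) (nat_lit 152) (nat_lit 284595494871) (nat_lit 76) (nat_lit 1557507495124) (nat_lit 9) (nat_lit 5) (nat_lit 11) (nat_lit 5) (nat_lit 10) (nat_lit 4) (nat_lit 356) (nat_lit 314) (nat_lit 110)))) (XT.nd (nat_lit 156) (nat_lit 0) (nat_lit 0) (XT.nd (nat_lit 78) (nat_lit 0) (nat_lit 0) (XT.lf (nat_lit 0) (nat_lit 423560653908) (nat_lit 76) (nat_lit 316754782883) (nat_lit 152) (nat_lit 1649415715596) (nat_lit 8) (nat_lit 5) (nat_lit 9) (nat_lit 5) (nat_lit 10) (nat_lit 4) (nat_lit 357) (nat_lit 314) (nat_lit 109)) (XT.lf (nat_lit 0) (nat_lit 1117927951496) (nat_lit 152) (nat_lit 1346283090926) (nat_lit 0) (nat_lit 84321038303) (nat_lit 8) (nat_lit 5) (nat_lit 10) (nat_lit 4) (nat_lit 8) (nat_lit 4)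 (nat_lit 358) (nat_lit 314) (nat_lit 108))) (XT.nd (nat_lit 37206) (nat_lit 0) (nat_lit 2812) (XT.lf (nat_lit 0) (nat_lit 1533976856123) (nat_lit 152) (nat_lit 685032103155) (nat_lit 0) (nat_lit 500369932958) (nat_lit 8) (nat_lit 5) (nat_lit 10) (nat_lit 4) (nat_lit 8) (nat_lit 4) (nat_lit 359) (nat_lit 314) (nat_lit 107)) (XT.lf (nat_lit 0) (nat_lit 90639301004) (nat_lit 532) (nat_lit 25033949767) (nat_lit 532) (nat_lit 25033949767) (nat_lit 45) (nat_lit 3) (nat_lit 52) (nat_lit 3) (nat_lit 52) (nat_lit 5) (nat_lit 315) (nat_lit 315) (nat_lit 150))))) (XT.nd (nat_lit 312) (nat_lit 228) (nat_lit 0) (XT.nd (nat_lit 156) (nat_lit 0) (nat_lit 76) (XT.nd (nat_lit 78) (nat_lit 0) (nat_lit 76) (XT.lf (nat_lit 76) (nat_lit 83245105489) (nat_lit 0) (nat_lit 107287443808) (nat_lit 532) (nat_lit 101978201391) (nat_lit 46) (nat_lit 5) (nat_lit 45) (nat_lit 3) (nat_lit 52) (nat_lit 5) (nat_lit 316)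 (nat_lit 315) (nat_lit 149)) (XT.lf (nat_lit 0) (nat_lit 202573286162) (nat_lit 456) (nat_lit 74992390829) (nat_lit 532) (nat_lit 26765413590) (nat_lit 46) (nat_lit 5) (nat_lit 52) (nat_lit 5) (nat_lit 53) (nat_lit 5) (nat_lit 317) (nat_lit 315) (nat_lit 148))) (XT.nd (nat_lit 78) (nat_lit 0) (nat_lit 0) (XT.lf (nat_lit 76) (nat_lit 70776518575) (nat_lit 0) (nat_lit 149289556943) (nat_lit 532) (nat_lit 96671878867) (nat_lit 47) (nat_lit 5) (nat_lit 46) (nat_lit 5) (nat_lit 53) (nat_lit 5) (nat_lit 318) (nat_lit 315) (nat_lit 147)) (XT.lf (nat_lit 76) (nat_lit 232471779056) (nat_lit 0) (nat_lit 8536867657) (nat_lit 532) (nat_lit 88964692069) (nat_lit 47) (nat_lit 5) (nat_lit 46) (nat_lit 5) (nat_lit 53) (nat_lit 5) (nat_lit 319) (nat_lit 315) (nat_lit 146)))) (XT.nd (nat_lit 156) (nat_lit 380) (nat_lit 0) (XT.nd (nat_lit 78) (nat_lit 0) (nat_lit 0) (XT.lf (nat_lit 76) (nat_lit 62511536995)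 (nat_lit 0) (nat_lit 206069031907) (nat_lit 532) (nat_lit 75290669579) (nat_lit 48) (nat_lit 5) (nat_lit 47) (nat_lit 5) (nat_lit 54) (nat_lit 5) (nat_lit 320) (nat_lit 315) (nat_lit 145)) (XT.lf (nat_lit 76) (nat_lit 240637222099) (nat_lit 0) (nat_lit 60602954012) (nat_lit 532) (nat_lit 57410239706) (nat_lit 48) (nat_lit 5) (nat_lit 47) (nat_lit 5) (nat_lit 54) (nat_lit 5) (nat_lit 321) (nat_lit 315) (nat_lit 144))) (XT.nd (nat_lit 78) (nat_lit 0) (nat_lit 0) (XT.lf (nat_lit 0) (nat_lit 59033231223) (nat_lit 456) (nat_lit 281219855572) (nat_lit 532) (nat_lit 34059597902) (nat_lit 42) (nat_lit 5) (nat_lit 48) (nat_lit 5) (nat_lit 49) (nat_lit 5) (nat_lit 322) (nat_lit 315) (nat_lit 143)) (XT.lf (nat_lit 0) (nat_lit 255297846526) (nat_lit 456) (nat_lit 131850075547) (nat_lit 532) (nat_lit 3699141811) (nat_lit 42) (nat_lit 5) (nat_lit 48) (nat_lit 5) (nat_lit 49) (nat_lit 5) (nat_lit 323)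 (nat_lit 315) (nat_lit 142)))))) (XT.nd (nat_lit 624) (nat_lit 684) (nat_lit 0) (XT.nd (nat_lit 312) (nat_lit 380) (nat_lit 0) (XT.nd (nat_lit 156) (nat_lit 228) (nat_lit 0) (XT.nd (nat_lit 78) (nat_lit 0) (nat_lit 0) (XT.lf (nat_lit 0) (nat_lit 29864656163) (nat_lit 304) (nat_lit 348389433004) (nat_lit 76) (nat_lit 30215757846) (nat_lit 38) (nat_lit 5) (nat_lit 42) (nat_lit 5) (nat_lit 39) (nat_lit 5) (nat_lit 324) (nat_lit 315) (nat_lit 141)) (XT.lf (nat_lit 0) (nat_lit 73140759888) (nat_lit 304) (nat_lit 151753811185) (nat_lit 76) (nat_lit 202022031169) (nat_lit 38) (nat_lit 5) (nat_lit 42) (nat_lit 5) (nat_lit 39) (nat_lit 5) (nat_lit 325) (nat_lit 315) (nat_lit 140))) (XT.nd (nat_lit 78) (nat_lit 0) (nat_lit 0) (XT.lf (nat_lit 0) (nat_lit 63804368716) (nat_lit 228) (nat_lit 57609037908) (nat_lit 304) (nat_lit 325302934988) (nat_lit 35) (nat_lit 5) (nat_lit 38) (nat_lit 5) (nat_lit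 39) (nat_lit 5) (nat_lit 326) (nat_lit 315) (nat_lit 139)) (XT.lf (nat_lit 0) (nat_lit 180764395246) (nat_lit 304) (nat_lit 165597944560) (nat_lit 76) (nat_lit 121160398009) (nat_lit 35) (nat_lit 5) (nat_lit 39) (nat_lit 5) (nat_lit 36) (nat_lit 5) (nat_lit 327) (nat_lit 315) (nat_lit 138)))) (XT.nd (nat_lit 156) (nat_lit 152) (nat_lit 0) (XT.nd (nat_lit 78) (nat_lit 0) (nat_lit 0) (XT.lf (nat_lit 0) (nat_lit 71164774430) (nat_lit 228) (nat_lit 176906504748) (nat_lit 304) (nat_lit 241665741322) (nat_lit 32) (nat_lit 5) (nat_lit 35) (nat_lit 5) (nat_lit 36) (nat_lit 5) (nat_lit 328) (nat_lit 315) (nat_lit 137)) (XT.lf (nat_lit 0) (nat_lit 325554867931) (nat_lit 304) (nat_lit 177344506801) (nat_lit 76) (nat_lit 10445698822) (nat_lit 32) (nat_lit 5) (nat_lit 36) (nat_lit 5) (nat_lit 33) (nat_lit 5) (nat_lit 329) (nat_lit 315) (nat_lit 136))) (XT.nd (nat_lit 78) (nat_lit 0) (nat_lit 0) (XT.lf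 (nat_lit 0) (nat_lit 82724658389) (nat_lit 152) (nat_lit 333096956788) (nat_lit 228) (nat_lit 122493398037) (nat_lit 30) (nat_lit 5) (nat_lit 32) (nat_lit 5) (nat_lit 33) (nat_lit 5) (nat_lit 330) (nat_lit 315) (nat_lit 135)) (XT.lf (nat_lit 0) (nat_lit 373685055568) (nat_lit 152) (nat_lit 144473528408) (nat_lit 228) (nat_lit 46736053598) (nat_lit 30) (nat_lit 5) (nat_lit 32) (nat_lit 5) (nat_lit 33) (nat_lit 5) (nat_lit 331) (nat_lit 315) (nat_lit 134))))) (XT.nd (nat_lit 312) (nat_lit 304) (nat_lit 0) (XT.nd (nat_lit 156) (nat_lit 152) (nat_lit 0) (XT.nd (nat_lit 78) (nat_lit 0) (nat_lit 0) (XT.lf (nat_lit 0) (nat_lit 37201540749) (nat_lit 228) (nat_lit 496451641539) (nat_lit 76) (nat_lit 59569984052) (nat_lit 27) (nat_lit 5) (nat_lit 30) (nat_lit 5) (nat_lit 28) (nat_lit 5) (nat_lit 332) (nat_lit 315) (nat_lit 133)) (XT.lf (nat_lit 0) (nat_lit 134445513512) (nat_lit 228) (nat_lit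 209836673496) (nat_lit 76) (nat_lit 278709370042) (nat_lit 27) (nat_lit 5) (nat_lit 30) (nat_lit 5) (nat_lit 28) (nat_lit 5) (nat_lit 333) (nat_lit 315) (nat_lit 132))) (XT.nd (nat_lit 78) (nat_lit 0) (nat_lit 0) (XT.lf (nat_lit 0) (nat_lit 104957872623) (nat_lit 152) (nat_lit 137035344208) (nat_lit 228) (nat_lit 412946265217) (nat_lit 25) (nat_lit 5) (nat_lit 27) (nat_lit 5) (nat_lit 28) (nat_lit 5) (nat_lit 334) (nat_lit 315) (nat_lit 131)) (XT.lf (nat_lit 0) (nat_lit 366118369648) (nat_lit 228) (nat_lit 234351067169) (nat_lit 76) (nat_lit 88335913618) (nat_lit 25) (nat_lit 5) (nat_lit 28) (nat_lit 5) (nat_lit 26) (nat_lit 5) (nat_lit 335) (nat_lit 315) (nat_lit 130)))) (XT.nd (nat_lit 156) (nat_lit 152) (nat_lit 0) (XT.nd (nat_lit 78) (nat_lit 0) (nat_lit 0) (XT.lf (nat_lit 0) (nat_lit 108392768869) (nat_lit 152) (nat_lit 397946950233) (nat_lit 228) (nat_lit 218547474479) (nat_lit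 23) (nat_lit 5) (nat_lit 25) (nat_lit 5) (nat_lit 26) (nat_lit 5) (nat_lit 336) (nat_lit 315) (nat_lit 129)) (XT.lf (nat_lit 0) (nat_lit 491883830227) (nat_lit 152) (nat_lit 172302496834) (nat_lit 228) (nat_lit 99156653116) (nat_lit 23) (nat_lit 5) (nat_lit 25) (nat_lit 5) (nat_lit 26) (nat_lit 5) (nat_lit 337) (nat_lit 315) (nat_lit 128))) (XT.nd (nat_lit 78) (nat_lit 0) (nat_lit 0) (XT.lf (nat_lit 0) (nat_lit 32640463259) (nat_lit 152) (nat_lit 700663384199) (nat_lit 76) (nat_lit 71166473657) (nat_lit 21) (nat_lit 5) (nat_lit 23) (nat_lit 5) (nat_lit 22) (nat_lit 5) (nat_lit 338) (nat_lit 315) (nat_lit 127)) (XT.lf (nat_lit 0) (nat_lit 181714640430) (nat_lit 152) (nat_lit 331005346669) (nat_lit 76) (nat_lit 334994596362) (nat_lit 21) (nat_lit 5) (nat_lit 23) (nat_lit 5) (nat_lit 22) (nat_lit 5) (nat_lit 339) (nat_lit 315) (nat_lit 126))))))) (XT.nd (nat_lit 1248) (nat_lit 152) (nat_lit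 0) (XT.nd (nat_lit 624) (nat_lit 304) (nat_lit 0) (XT.nd (nat_lit 312) (nat_lit 304) (nat_lit 0) (XT.nd (nat_lit 156) (nat_lit 76) (nat_lit 0) (XT.nd (nat_lit 78) (nat_lit 0) (nat_lit 0) (XT.lf (nat_lit 0) (nat_lit 71817926243) (nat_lit 152) (nat_lit 272624028707) (nat_lit 228) (nat_lit 549838255619) (nat_lit 19) (nat_lit 5) (nat_lit 21) (nat_lit 5) (nat_lit 22) (nat_lit 5) (nat_lit 340) (nat_lit 315) (nat_lit 125)) (XT.lf (nat_lit 0) (nat_lit 525691597986) (nat_lit 152) (nat_lit 3546110468) (nat_lit 228) (nat_lit 414609359115) (nat_lit 19) (nat_lit 5) (nat_lit 21) (nat_lit 5) (nat_lit 22) (nat_lit 5) (nat_lit 341) (nat_lit 315) (nat_lit 124))) (XT.nd (nat_lit 78) (nat_lit 0) (nat_lit 0) (XT.lf (nat_lit 0) (nat_lit 12202528131) (nat_lit 76) (nat_lit 723811800197) (nat_lit 152) (nat_lit 260789168337) (nat_lit 18) (nat_lit 5) (nat_lit 19) (nat_lit 5) (nat_lit 20) (nat_lit 4) (nat_lit 342)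 (nat_lit 315) (nat_lit 123)) (XT.lf (nat_lit 0) (nat_lit 500673052242) (nat_lit 76) (nat_lit 470182894904) (nat_lit 152) (nat_lit 82218663419) (nat_lit 18) (nat_lit 5) (nat_lit 19) (nat_lit 5) (nat_lit 20) (nat_lit 4) (nat_lit 343) (nat_lit 315) (nat_lit 122)))) (XT.nd (nat_lit 156) (nat_lit 76) (nat_lit 0) (XT.nd (nat_lit 78) (nat_lit 152) (nat_lit 0) (XT.lf (nat_lit 0) (nat_lit 105102930634) (nat_lit 152) (nat_lit 88287056710) (nat_lit 76) (nat_lit 920244560833) (nat_lit 17) (nat_lit 5) (nat_lit 19) (nat_lit 5) (nat_lit 18) (nat_lit 5) (nat_lit 344) (nat_lit 315) (nat_lit 121)) (XT.lf (nat_lit 0) (nat_lit 316232830724) (nat_lit 228) (nat_lit 748446262610) (nat_lit 76) (nat_lit 113128181753) (nat_lit 15) (nat_lit 5) (nat_lit 18) (nat_lit 5) (nat_lit 16) (nat_lit 4) (nat_lit 345) (nat_lit 315) (nat_lit 120))) (XT.nd (nat_lit 78) (nat_lit 76) (nat_lit 0) (XT.lf (nat_lit 0) (nat_lit 551752848471)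 (nat_lit 228) (nat_lit 258564657326) (nat_lit 76) (nat_lit 436196336319) (nat_lit 15) (nat_lit 5) (nat_lit 18) (nat_lit 5) (nat_lit 16) (nat_lit 4) (nat_lit 346) (nat_lit 315) (nat_lit 119)) (XT.lf (nat_lit 0) (nat_lit 284751895760) (nat_lit 76) (nat_lit 528210848082) (nat_lit 152) (nat_lit 507206328584) (nat_lit 14) (nat_lit 5) (nat_lit 15) (nat_lit 5) (nat_lit 16) (nat_lit 4) (nat_lit 347) (nat_lit 315) (nat_lit 118))))) (XT.nd (nat_lit 312) (nat_lit 152) (nat_lit 0) (XT.nd (nat_lit 156) (nat_lit 76) (nat_lit 0) (XT.nd (nat_lit 78) (nat_lit 76) (nat_lit 0) (XT.lf (nat_lit 0) (nat_lit 886238551166) (nat_lit 76) (nat_lit 215900482350) (nat_lit 152) (nat_lit 297012119446) (nat_lit 14) (nat_lit 5) (nat_lit 15) (nat_lit 5) (nat_lit 16) (nat_lit 4) (nat_lit 348) (nat_lit 315) (nat_lit 117)) (XT.lf (nat_lit 0) (nat_lit 51025261365) (nat_lit 76) (nat_lit 1367570857012) (nat_lit 76) (nat_lit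 65523946218) (nat_lit 13) (nat_lit 4) (nat_lit 14) (nat_lit 5) (nat_lit 14) (nat_lit 4) (nat_lit 349) (nat_lit 315) (nat_lit 116))) (XT.nd (nat_lit 78) (nat_lit 0) (nat_lit 0) (XT.lf (nat_lit 0) (nat_lit 195250669966) (nat_lit 152) (nat_lit 895925538790) (nat_lit 76) (nat_lit 482755655028) (nat_lit 12) (nat_lit 5) (nat_lit 14) (nat_lit 5) (nat_lit 13) (nat_lit 4) (nat_lit 350) (nat_lit 315) (nat_lit 115)) (XT.lf (nat_lit 0) (nat_lit 473347248920) (nat_lit 152) (nat_lit 317484674496) (nat_lit 76) (nat_lit 879960530770) (nat_lit 12) (nat_lit 5) (nat_lit 14) (nat_lit 5) (nat_lit 13) (nat_lit 4) (nat_lit 351) (nat_lit 315) (nat_lit 114)))) (XT.nd (nat_lit 156) (nat_lit 76) (nat_lit 0) (XT.nd (nat_lit 78) (nat_lit 0) (nat_lit 0) (XT.lf (nat_lit 0) (nat_lit 323409703010) (nat_lit 76) (nat_lit 458059851661) (nat_lit 152) (nat_lit 993310097120) (nat_lit 11) (nat_lit 5) (nat_lit 12) (nat_lit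 5) (nat_lit 13) (nat_lit 4) (nat_lit 352) (nat_lit 315) (nat_lit 113)) (XT.lf (nat_lit 0) (nat_lit 1033631246862) (nat_lit 76) (nat_lit 89290981338) (nat_lit 152) (nat_lit 763469150349) (nat_lit 11) (nat_lit 5) (nat_lit 12) (nat_lit 5) (nat_lit 13) (nat_lit 4) (nat_lit 353) (nat_lit 315) (nat_lit 112))) (XT.nd (nat_lit 78) (nat_lit 76) (nat_lit 0) (XT.lf (nat_lit 0) (nat_lit 1499122067845) (nat_lit 152) (nat_lit 213692509012) (nat_lit 0) (nat_lit 293522990421) (nat_lit 11) (nat_lit 5) (nat_lit 13) (nat_lit 4) (nat_lit 11) (nat_lit 4) (nat_lit 354) (nat_lit 315) (nat_lit 111)) (XT.lf (nat_lit 0) (nat_lit 499150805577) (nat_lit 76) (nat_lit 1420590915216) (nat_lit 76) (nat_lit 214991824227) (nat_lit 10) (nat_lit 4) (nat_lit 11) (nat_lit 5) (nat_lit 11) (nat_lit 4) (nat_lit 355) (nat_lit 315) (nat_lit 110)))))) (XT.nd (nat_lit 37908) (nat_lit 0) (nat_lit 2052) (XT.nd (nat_lit 37596) (nat_lit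 0) (nat_lit 2812) (XT.nd (nat_lit 156) (nat_lit 76) (nat_lit 0) (XT.nd (nat_lit 78) (nat_lit 0) (nat_lit 0) (XT.lf (nat_lit 0) (nat_lit 101571320273) (nat_lit 152) (nat_lit 994330757380) (nat_lit 76) (nat_lit 1176825991420) (nat_lit 9) (nat_lit 5) (nat_lit 11) (nat_lit 5) (nat_lit 10) (nat_lit 4) (nat_lit 356) (nat_lit 315) (nat_lit 109)) (XT.lf (nat_lit 0) (nat_lit 431844365320) (nat_lit 152) (nat_lit 307362835311) (nat_lit 76) (nat_lit 1682108218829) (nat_lit 9) (nat_lit 5) (nat_lit 11) (nat_lit 5) (nat_lit 10) (nat_lit 4) (nat_lit 357) (nat_lit 315) (nat_lit 108))) (XT.nd (nat_lit 37362) (nat_lit 0) (nat_lit 2812) (XT.lf (nat_lit 0) (nat_lit 457445797797) (nat_lit 76) (nat_lit 342095030926) (nat_lit 152) (nat_lit 1781368803183) (nat_lit 8) (nat_lit 5) (nat_lit 9) (nat_lit 5) (nat_lit 10) (nat_lit 4) (nat_lit 358) (nat_lit 315) (nat_lit 107)) (XT.lf (nat_lit 0) (nat_lit 97891183312)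 (nat_lit 532) (nat_lit 27036266044) (nat_lit 532) (nat_lit 27036266044) (nat_lit 45) (nat_lit 3) (nat_lit 52) (nat_lit 3) (nat_lit 52) (nat_lit 5) (nat_lit 316) (nat_lit 316) (nat_lit 148)))) (XT.nd (nat_lit 156) (nat_lit 0) (nat_lit 76) (XT.nd (nat_lit 78) (nat_lit 0) (nat_lit 76) (XT.lf (nat_lit 76) (nat_lit 89905493100) (nat_lit 0) (nat_lit 115871045969) (nat_lit 532) (nat_lit 110134956875) (nat_lit 46) (nat_lit 5) (nat_lit 45) (nat_lit 3) (nat_lit 52) (nat_lit 5) (nat_lit 317) (nat_lit 316) (nat_lit 147)) (XT.lf (nat_lit 0) (nat_lit 218780418720) (nat_lit 456) (nat_lit 80990940834) (nat_lit 532) (nat_lit 28906113058) (nat_lit 46) (nat_lit 5) (nat_lit 52) (nat_lit 5) (nat_lit 53) (nat_lit 5) (nat_lit 318) (nat_lit 316) (nat_lit 146))) (XT.nd (nat_lit 78) (nat_lit 0) (nat_lit 0) (XT.lf (nat_lit 76) (nat_lit 76439460024) (nat_lit 0) (nat_lit 161233096870) (nat_lit 532) (nat_lit 104404334841)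 (nat_lit 47) (nat_lit 5) (nat_lit 46) (nat_lit 5) (nat_lit 53) (nat_lit 5) (nat_lit 319) (nat_lit 316) (nat_lit 145)) (XT.lf (nat_lit 76) (nat_lit 251070280606) (nat_lit 0) (nat_lit 9220164637) (nat_lit 532) (nat_lit 96080668976) (nat_lit 47) (nat_lit 5) (nat_lit 46) (nat_lit 5) (nat_lit 53) (nat_lit 5) (nat_lit 320) (nat_lit 316) (nat_lit 144))))) (XT.nd (nat_lit 312) (nat_lit 532) (nat_lit 0) (XT.nd (nat_lit 156) (nat_lit 380) (nat_lit 0) (XT.nd (nat_lit 78) (nat_lit 0) (nat_lit 0) (XT.lf (nat_lit 76) (nat_lit 67513297452) (nat_lit 0) (nat_lit 222554754172) (nat_lit 532) (nat_lit 81312800068) (nat_lit 48) (nat_lit 5) (nat_lit 47) (nat_lit 5) (nat_lit 54) (nat_lit 5) (nat_lit 321) (nat_lit 316) (nat_lit 143)) (XT.lf (nat_lit 76) (nat_lit 259888975328) (nat_lit 0) (nat_lit 65451375252) (nat_lit 532) (nat_lit 62002018995) (nat_lit 48) (nat_lit 5) (nat_lit 47) (nat_lit 5) (nat_lit 54)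 (nat_lit 5) (nat_lit 322) (nat_lit 316) (nat_lit 142))) (XT.nd (nat_lit 78) (nat_lit 0) (nat_lit 0) (XT.lf (nat_lit 0) (nat_lit 63756727379) (nat_lit 456) (nat_lit 303717511627) (nat_lit 532) (nat_lit 36783385566) (nat_lit 42) (nat_lit 5) (nat_lit 48) (nat_lit 5) (nat_lit 49) (nat_lit 5) (nat_lit 323) (nat_lit 316) (nat_lit 141)) (XT.lf (nat_lit 0) (nat_lit 275722449857) (nat_lit 456) (nat_lit 142398144192) (nat_lit 532) (nat_lit 3994165593) (nat_lit 42) (nat_lit 5) (nat_lit 48) (nat_lit 5) (nat_lit 49) (nat_lit 5) (nat_lit 324) (nat_lit 316) (nat_lit 140)))) (XT.nd (nat_lit 156) (nat_lit 228) (nat_lit 0) (XT.nd (nat_lit 78) (nat_lit 0) (nat_lit 0) (XT.lf (nat_lit 0) (nat_lit 32254645883) (nat_lit 304) (nat_lit 376259717605) (nat_lit 76) (nat_lit 32633003941) (nat_lit 38) (nat_lit 5) (nat_lit 42) (nat_lit 5) (nat_lit 39) (nat_lit 5) (nat_lit 325) (nat_lit 316) (nat_lit 139)) (XT.lf (nat_lit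 0) (nat_lit 78992777370) (nat_lit 304) (nat_lit 163893310488) (nat_lit 76) (nat_lit 218183780206) (nat_lit 38) (nat_lit 5) (nat_lit 42) (nat_lit 5) (nat_lit 39) (nat_lit 5) (nat_lit 326) (nat_lit 316) (nat_lit 138))) (XT.nd (nat_lit 78) (nat_lit 0) (nat_lit 0) (XT.lf (nat_lit 0) (nat_lit 68909503410) (nat_lit 228) (nat_lit 62217695267) (nat_lit 304) (nat_lit 351326391014) (nat_lit 35) (nat_lit 5) (nat_lit 38) (nat_lit 5) (nat_lit 39) (nat_lit 5) (nat_lit 327) (nat_lit 316) (nat_lit 137)) (XT.lf (nat_lit 0) (nat_lit 195226214554) (nat_lit 304) (nat_lit 178844999692) (nat_lit 76) (nat_lit 130853287616) (nat_lit 35) (nat_lit 5) (nat_lit 39) (nat_lit 5) (nat_lit 36) (nat_lit 5) (nat_lit 328) (nat_lit 316) (nat_lit 136))))))))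
noncomputable def xc120 : XT := (XT.nd (nat_lit 39780) (nat_lit 0) (nat_lit 380) (XT.nd (nat_lit 1170) (nat_lit 684) (nat_lit 0) (XT.nd (nat_lit 546) (nat_lit 532) (nat_lit 0) (XT.nd (nat_lit 234) (nat_lit 380) (nat_lit 0) (XT.nd (nat_lit 78) (nat_lit 152) (nat_lit 0) (XT.lf (nat_lit 0) (nat_lit 76858717059) (nat_lit 228) (nat_lit 191058900978) (nat_lit 304) (nat_lit 260998311735) (nat_lit 32) (nat_lit 5) (nat_lit 35) (nat_lit 5) (nat_lit 36) (nat_lit 5) (nat_lit 329) (nat_lit 316) (nat_lit 135)) (XT.nd (nat_lit 78) (nat_lit 152) (nat_lit 0) (XT.lf (nat_lit 0) (nat_lit 351599849504) (nat_lit 304) (nat_lit 191531317292) (nat_lit 76) (nat_lit 11281463931) (nat_lit 32) (nat_lit 5) (nat_lit 36) (nat_lit 5) (nat_lit 33) (nat_lit 5) (nat_lit 330) (nat_lit 316) (nat_lit 134)) (XT.lf (nat_lit 0) (nat_lit 89343362124) (nat_lit 152) (nat_lit 359744548126) (nat_lit 228) (nat_lit 132292257513) (nat_lit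 30) (nat_lit 5) (nat_lit 32) (nat_lit 5) (nat_lit 33) (nat_lit 5) (nat_lit 331) (nat_lit 316) (nat_lit 133)))) (XT.nd (nat_lit 156) (nat_lit 152) (nat_lit 0) (XT.nd (nat_lit 78) (nat_lit 228) (nat_lit 0) (XT.lf (nat_lit 0) (nat_lit 403580536924) (nat_lit 152) (nat_lit 156031257713) (nat_lit 228) (nat_lit 50474370879) (nat_lit 30) (nat_lit 5) (nat_lit 32) (nat_lit 5) (nat_lit 33) (nat_lit 5) (nat_lit 332) (nat_lit 316) (nat_lit 132)) (XT.lf (nat_lit 0) (nat_lit 40178183474) (nat_lit 228) (nat_lit 536167046361) (nat_lit 76) (nat_lit 64335747270) (nat_lit 27) (nat_lit 5) (nat_lit 30) (nat_lit 5) (nat_lit 28) (nat_lit 5) (nat_lit 333) (nat_lit 316) (nat_lit 131))) (XT.nd (nat_lit 78) (nat_lit 152) (nat_lit 0) (XT.lf (nat_lit 0) (nat_lit 145201635580) (nat_lit 228) (nat_lit 226622934690) (nat_lit 76) (nat_lit 301006271954) (nat_lit 27) (nat_lit 5) (nat_lit 30) (nat_lit 5) (nat_lit 28) (nat_lit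 5) (nat_lit 334) (nat_lit 316) (nat_lit 130)) (XT.lf (nat_lit 0) (nat_lit 113355158088) (nat_lit 152) (nat_lit 147997977215) (nat_lit 228) (nat_lit 445981467574) (nat_lit 25) (nat_lit 5) (nat_lit 27) (nat_lit 5) (nat_lit 28) (nat_lit 5) (nat_lit 335) (nat_lit 316) (nat_lit 129))))) (XT.nd (nat_lit 312) (nat_lit 228) (nat_lit 0) (XT.nd (nat_lit 156) (nat_lit 152) (nat_lit 0) (XT.nd (nat_lit 78) (nat_lit 152) (nat_lit 0) (XT.lf (nat_lit 0) (nat_lit 395408270521) (nat_lit 228) (nat_lit 253098514846) (nat_lit 76) (nat_lit 95402957816) (nat_lit 25) (nat_lit 5) (nat_lit 28) (nat_lit 5) (nat_lit 26) (nat_lit 5) (nat_lit 336) (nat_lit 316) (nat_lit 128)) (XT.lf (nat_lit 0) (nat_lit 117064811931) (nat_lit 152) (nat_lit 429782499001) (nat_lit 228) (nat_lit 236030824269) (nat_lit 23) (nat_lit 5) (nat_lit 25) (nat_lit 5) (nat_lit 26) (nat_lit 5) (nat_lit 337) (nat_lit 316) (nat_lit 127))) (XT.nd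 (nat_lit 78) (nat_lit 152) (nat_lit 0) (XT.lf (nat_lit 0) (nat_lit 531235112156) (nat_lit 152) (nat_lit 186086504682) (nat_lit 228) (nat_lit 107088770395) (nat_lit 23) (nat_lit 5) (nat_lit 25) (nat_lit 5) (nat_lit 26) (nat_lit 5) (nat_lit 338) (nat_lit 316) (nat_lit 126)) (XT.lf (nat_lit 0) (nat_lit 35252084200) (nat_lit 152) (nat_lit 756715847138) (nat_lit 76) (nat_lit 76859984181) (nat_lit 21) (nat_lit 5) (nat_lit 23) (nat_lit 5) (nat_lit 22) (nat_lit 5) (nat_lit 339) (nat_lit 316) (nat_lit 125)))) (XT.nd (nat_lit 156) (nat_lit 76) (nat_lit 0) (XT.nd (nat_lit 78) (nat_lit 152) (nat_lit 0) (XT.lf (nat_lit 0) (nat_lit 196252167109) (nat_lit 152) (nat_lit 357485211628) (nat_lit 76) (nat_lit 361794342433) (nat_lit 21) (nat_lit 5) (nat_lit 23) (nat_lit 5) (nat_lit 22) (nat_lit 5) (nat_lit 340) (nat_lit 316) (nat_lit 124)) (XT.lf (nat_lit 0) (nat_lit 77563908870) (nat_lit 152) (nat_lit 294433744784)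 (nat_lit 228) (nat_lit 593824945884) (nat_lit 19) (nat_lit 5) (nat_lit 21) (nat_lit 5) (nat_lit 22) (nat_lit 5) (nat_lit 341) (nat_lit 316) (nat_lit 123))) (XT.nd (nat_lit 78) (nat_lit 76) (nat_lit 0) (XT.lf (nat_lit 0) (nat_lit 567747433720) (nat_lit 152) (nat_lit 3829608361) (nat_lit 228) (nat_lit 447777765081) (nat_lit 19) (nat_lit 5) (nat_lit 21) (nat_lit 5) (nat_lit 22) (nat_lit 5) (nat_lit 342) (nat_lit 316) (nat_lit 122)) (XT.lf (nat_lit 0) (nat_lit 13179246101) (nat_lit 76) (nat_lit 781716538622) (nat_lit 152) (nat_lit 281651966444) (nat_lit 18) (nat_lit 5) (nat_lit 19) (nat_lit 5) (nat_lit 20) (nat_lit 4) (nat_lit 343) (nat_lit 316) (nat_lit 121)))))) (XT.nd (nat_lit 624) (nat_lit 228) (nat_lit 0) (XT.nd (nat_lit 312) (nat_lit 228) (nat_lit 0) (XT.nd (nat_lit 156) (nat_lit 152) (nat_lit 0) (XT.nd (nat_lit 78) (nat_lit 76) (nat_lit 0) (XT.lf (nat_lit 0) (nat_lit 540727373940)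 (nat_lit 76) (nat_lit 507797336134) (nat_lit 152) (nat_lit 88795845973) (nat_lit 18) (nat_lit 5) (nat_lit 19) (nat_lit 5) (nat_lit 20) (nat_lit 4) (nat_lit 344) (nat_lit 316) (nat_lit 120)) (XT.lf (nat_lit 0) (nat_lit 113511438219) (nat_lit 152) (nat_lit 95349564382) (nat_lit 76) (nat_lit 993864287243) (nat_lit 17) (nat_lit 5) (nat_lit 19) (nat_lit 5) (nat_lit 18) (nat_lit 5) (nat_lit 345) (nat_lit 316) (nat_lit 119))) (XT.nd (nat_lit 78) (nat_lit 0) (nat_lit 0) (XT.lf (nat_lit 0) (nat_lit 341531725164) (nat_lit 228) (nat_lit 808321501290) (nat_lit 76) (nat_lit 122178608890) (nat_lit 15) (nat_lit 5) (nat_lit 18) (nat_lit 5) (nat_lit 16) (nat_lit 4) (nat_lit 346) (nat_lit 316) (nat_lit 118)) (XT.lf (nat_lit 0) (nat_lit 595893324480) (nat_lit 228) (nat_lit 279249401831) (nat_lit 76) (nat_lit 471092203037) (nat_lit 15) (nat_lit 5) (nat_lit 18) (nat_lit 5) (nat_lit 16) (nat_lit 4) (nat_lit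 347) (nat_lit 316) (nat_lit 117)))) (XT.nd (nat_lit 156) (nat_lit 152) (nat_lit 0) (XT.nd (nat_lit 78) (nat_lit 0) (nat_lit 0) (XT.lf (nat_lit 0) (nat_lit 307532464665) (nat_lit 76) (nat_lit 570467538471) (nat_lit 152) (nat_lit 547782575636) (nat_lit 14) (nat_lit 5) (nat_lit 15) (nat_lit 5) (nat_lit 16) (nat_lit 4) (nat_lit 348) (nat_lit 316) (nat_lit 116)) (XT.lf (nat_lit 0) (nat_lit 957138021596) (nat_lit 76) (nat_lit 233172356625) (nat_lit 152) (nat_lit 320772848970) (nat_lit 14) (nat_lit 5) (nat_lit 15) (nat_lit 5) (nat_lit 16) (nat_lit 4) (nat_lit 349) (nat_lit 316) (nat_lit 115))) (XT.nd (nat_lit 78) (nat_lit 76) (nat_lit 0) (XT.lf (nat_lit 0) (nat_lit 55107672531) (nat_lit 76) (nat_lit 1476976353939) (nat_lit 76) (nat_lit 70765625575) (nat_lit 13) (nat_lit 4) (nat_lit 14) (nat_lit 5) (nat_lit 14) (nat_lit 4) (nat_lit 350) (nat_lit 316) (nat_lit 114)) (XT.lf (nat_lit 0) (nat_lit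 210870931450) (nat_lit 152) (nat_lit 967599209402) (nat_lit 76) (nat_lit 521376255209) (nat_lit 12) (nat_lit 5) (nat_lit 14) (nat_lit 5) (nat_lit 13) (nat_lit 4) (nat_lit 351) (nat_lit 316) (nat_lit 113))))) (XT.nd (nat_lit 312) (nat_lit 152) (nat_lit 0) (XT.nd (nat_lit 156) (nat_lit 0) (nat_lit 0) (XT.nd (nat_lit 78) (nat_lit 76) (nat_lit 0) (XT.lf (nat_lit 0) (nat_lit 511215221322) (nat_lit 152) (nat_lit 342883103556) (nat_lit 76) (nat_lit 950357510063) (nat_lit 12) (nat_lit 5) (nat_lit 14) (nat_lit 5) (nat_lit 13) (nat_lit 4) (nat_lit 352) (nat_lit 316) (nat_lit 112)) (XT.lf (nat_lit 0) (nat_lit 349282815419) (nat_lit 76) (nat_lit 494704489940) (nat_lit 152) (nat_lit 1072774703503) (nat_lit 11) (nat_lit 5) (nat_lit 12) (nat_lit 5) (nat_lit 13) (nat_lit 4) (nat_lit 353) (nat_lit 316) (nat_lit 111))) (XT.nd (nat_lit 78) (nat_lit 0) (nat_lit 0) (XT.lf (nat_lit 0) (nat_lit 1116322057878)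 (nat_lit 76) (nat_lit 96434121091) (nat_lit 152) (nat_lit 824546495908) (nat_lit 11) (nat_lit 5) (nat_lit 12) (nat_lit 5) (nat_lit 13) (nat_lit 4) (nat_lit 354) (nat_lit 316) (nat_lit 110)) (XT.lf (nat_lit 0) (nat_lit 1619051996096) (nat_lit 152) (nat_lit 230787611690) (nat_lit 0) (nat_lit 317004951703) (nat_lit 11) (nat_lit 5) (nat_lit 13) (nat_lit 4) (nat_lit 11) (nat_lit 4) (nat_lit 355) (nat_lit 316) (nat_lit 109)))) (XT.nd (nat_lit 156) (nat_lit 0) (nat_lit 0) (XT.nd (nat_lit 78) (nat_lit 76) (nat_lit 0) (XT.lf (nat_lit 0) (nat_lit 539083160521) (nat_lit 76) (nat_lit 1534238055686) (nat_lit 76) (nat_lit 232190999663) (nat_lit 10) (nat_lit 4) (nat_lit 11) (nat_lit 5) (nat_lit 11) (nat_lit 4) (nat_lit 356) (nat_lit 316) (nat_lit 108)) (XT.lf (nat_lit 0) (nat_lit 109697175870) (nat_lit 152) (nat_lit 1073876940980) (nat_lit 76) (nat_lit 1270972185636) (nat_lit 9) (nat_lit 5) (nat_lit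 11) (nat_lit 5) (nat_lit 10) (nat_lit 4) (nat_lit 357) (nat_lit 316) (nat_lit 107))) (XT.nd (nat_lit 37440) (nat_lit 0) (nat_lit 2736) (XT.lf (nat_lit 0) (nat_lit 466392053412) (nat_lit 152) (nat_lit 331951605664) (nat_lit 76) (nat_lit 1816676982727) (nat_lit 9) (nat_lit 5) (nat_lit 11) (nat_lit 5) (nat_lit 10) (nat_lit 4) (nat_lit 358) (nat_lit 316) (nat_lit 106)) (XT.lf (nat_lit 0) (nat_lit 105723110889) (nat_lit 532) (nat_lit 29198824644) (nat_lit 532) (nat_lit 29198824644) (nat_lit 45) (nat_lit 3) (nat_lit 52) (nat_lit 3) (nat_lit 52) (nat_lit 5) (nat_lit 317) (nat_lit 317) (nat_lit 146))))))) (XT.nd (nat_lit 1248) (nat_lit 1216) (nat_lit 0) (XT.nd (nat_lit 624) (nat_lit 912) (nat_lit 0) (XT.nd (nat_lit 312) (nat_lit 228) (nat_lit 0) (XT.nd (nat_lit 156) (nat_lit 0) (nat_lit 76) (XT.nd (nat_lit 78) (nat_lit 0) (nat_lit 76) (XT.lf (nat_lit 76) (nat_lit 97098600562) (nat_lit 0) (nat_lit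 125141249756) (nat_lit 532) (nat_lit 118944466878) (nat_lit 46) (nat_lit 5) (nat_lit 45) (nat_lit 3) (nat_lit 52) (nat_lit 5) (nat_lit 318) (nat_lit 317) (nat_lit 145)) (XT.lf (nat_lit 0) (nat_lit 236283940751) (nat_lit 456) (nat_lit 87469494854) (nat_lit 532) (nat_lit 31218144611) (nat_lit 46) (nat_lit 5) (nat_lit 52) (nat_lit 5) (nat_lit 53) (nat_lit 5) (nat_lit 319) (nat_lit 317) (nat_lit 144))) (XT.nd (nat_lit 78) (nat_lit 0) (nat_lit 0) (XT.lf (nat_lit 76) (nat_lit 82555319813) (nat_lit 0) (nat_lit 174132066440) (nat_lit 532) (nat_lit 112755571945) (nat_lit 47) (nat_lit 5) (nat_lit 46) (nat_lit 5) (nat_lit 53) (nat_lit 5) (nat_lit 320) (nat_lit 317) (nat_lit 143)) (XT.lf (nat_lit 76) (nat_lit 271156553968) (nat_lit 0) (nat_lit 9958075790) (nat_lit 532) (nat_lit 103766095009) (nat_lit 47) (nat_lit 5) (nat_lit 46) (nat_lit 5) (nat_lit 53) (nat_lit 5) (nat_lit 321) (nat_lit 317) (nat_lit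 142)))) (XT.nd (nat_lit 156) (nat_lit 380) (nat_lit 0) (XT.nd (nat_lit 78) (nat_lit 0) (nat_lit 0) (XT.lf (nat_lit 76) (nat_lit 72915079268) (nat_lit 0) (nat_lit 240359305727) (nat_lit 532) (nat_lit 87816861215) (nat_lit 48) (nat_lit 5) (nat_lit 47) (nat_lit 5) (nat_lit 54) (nat_lit 5) (nat_lit 322) (nat_lit 317) (nat_lit 141)) (XT.lf (nat_lit 76) (nat_lit 280680758187) (nat_lit 0) (nat_lit 70687643810) (nat_lit 532) (nat_lit 66961288979) (nat_lit 48) (nat_lit 5) (nat_lit 47) (nat_lit 5) (nat_lit 54) (nat_lit 5) (nat_lit 323) (nat_lit 317) (nat_lit 140))) (XT.nd (nat_lit 78) (nat_lit 0) (nat_lit 0) (XT.lf (nat_lit 0) (nat_lit 68857983726) (nat_lit 456) (nat_lit 328014970522) (nat_lit 532) (nat_lit 39725216075) (nat_lit 42) (nat_lit 5) (nat_lit 48) (nat_lit 5) (nat_lit 49) (nat_lit 5) (nat_lit 324) (nat_lit 317) (nat_lit 139)) (XT.lf (nat_lit 0) (nat_lit 297780910806) (nat_lit 456) (nat_lit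 153790049399) (nat_lit 532) (nat_lit 4312920751) (nat_lit 42) (nat_lit 5) (nat_lit 48) (nat_lit 5) (nat_lit 49) (nat_lit 5) (nat_lit 325) (nat_lit 317) (nat_lit 138))))) (XT.nd (nat_lit 312) (nat_lit 380) (nat_lit 0) (XT.nd (nat_lit 156) (nat_lit 228) (nat_lit 0) (XT.nd (nat_lit 78) (nat_lit 0) (nat_lit 0) (XT.lf (nat_lit 0) (nat_lit 34835718193) (nat_lit 304) (nat_lit 406359749095) (nat_lit 76) (nat_lit 35243631796) (nat_lit 38) (nat_lit 5) (nat_lit 42) (nat_lit 5) (nat_lit 39) (nat_lit 5) (nat_lit 326) (nat_lit 317) (nat_lit 137)) (XT.lf (nat_lit 0) (nat_lit 85312848300) (nat_lit 304) (nat_lit 177004084662) (nat_lit 76) (nat_lit 235638471085) (nat_lit 38) (nat_lit 5) (nat_lit 42) (nat_lit 5) (nat_lit 39) (nat_lit 5) (nat_lit 327) (nat_lit 317) (nat_lit 136))) (XT.nd (nat_lit 78) (nat_lit 0) (nat_lit 0) (XT.lf (nat_lit 0) (nat_lit 74422936863) (nat_lit 228) (nat_lit 67195054585) (nat_lit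 304) (nat_lit 379431834623) (nat_lit 35) (nat_lit 5) (nat_lit 38) (nat_lit 5) (nat_lit 39) (nat_lit 5) (nat_lit 328) (nat_lit 317) (nat_lit 135)) (XT.lf (nat_lit 0) (nat_lit 210844884153) (nat_lit 304) (nat_lit 193151930573) (nat_lit 76) (nat_lit 141321600151) (nat_lit 35) (nat_lit 5) (nat_lit 39) (nat_lit 5) (nat_lit 36) (nat_lit 5) (nat_lit 329) (nat_lit 317) (nat_lit 134)))) (XT.nd (nat_lit 156) (nat_lit 152) (nat_lit 0) (XT.nd (nat_lit 78) (nat_lit 0) (nat_lit 0) (XT.lf (nat_lit 0) (nat_lit 83008066579) (nat_lit 228) (nat_lit 206343506618) (nat_lit 304) (nat_lit 281877586060) (nat_lit 32) (nat_lit 5) (nat_lit 35) (nat_lit 5) (nat_lit 36) (nat_lit 5) (nat_lit 330) (nat_lit 317) (nat_lit 133)) (XT.lf (nat_lit 0) (nat_lit 379728345129) (nat_lit 304) (nat_lit 206853179626) (nat_lit 76) (nat_lit 12184074670) (nat_lit 32) (nat_lit 5) (nat_lit 36) (nat_lit 5) (nat_lit 33) (nat_lit 5) (nat_lit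 331) (nat_lit 317) (nat_lit 132))) (XT.nd (nat_lit 78) (nat_lit 0) (nat_lit 0) (XT.lf (nat_lit 0) (nat_lit 96491457864) (nat_lit 152) (nat_lit 388523970339) (nat_lit 228) (nat_lit 142875113107) (nat_lit 30) (nat_lit 5) (nat_lit 32) (nat_lit 5) (nat_lit 33) (nat_lit 5) (nat_lit 332) (nat_lit 317) (nat_lit 131)) (XT.lf (nat_lit 0) (nat_lit 435867560220) (nat_lit 152) (nat_lit 168513627184) (nat_lit 228) (nat_lit 54511834432) (nat_lit 30) (nat_lit 5) (nat_lit 32) (nat_lit 5) (nat_lit 33) (nat_lit 5) (nat_lit 333) (nat_lit 317) (nat_lit 130)))))) (XT.nd (nat_lit 624) (nat_lit 532) (nat_lit 0) (XT.nd (nat_lit 312) (nat_lit 304) (nat_lit 0) (XT.nd (nat_lit 156) (nat_lit 152) (nat_lit 0) (XT.nd (nat_lit 78) (nat_lit 0) (nat_lit 0) (XT.lf (nat_lit 0) (nat_lit 43392883510) (nat_lit 228) (nat_lit 579059787213) (nat_lit 76) (nat_lit 69482748078) (nat_lit 27) (nat_lit 5) (nat_lit 30) (nat_lit 5)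 (nat_lit 28) (nat_lit 5) (nat_lit 334) (nat_lit 317) (nat_lit 129)) (XT.lf (nat_lit 0) (nat_lit 156818178795) (nat_lit 228) (nat_lit 244752192745) (nat_lit 76) (nat_lit 325086904291) (nat_lit 27) (nat_lit 5) (nat_lit 30) (nat_lit 5) (nat_lit 28) (nat_lit 5) (nat_lit 335) (nat_lit 317) (nat_lit 128))) (XT.nd (nat_lit 78) (nat_lit 0) (nat_lit 0) (XT.lf (nat_lit 0) (nat_lit 122424132854) (nat_lit 152) (nat_lit 159837648615) (nat_lit 228) (nat_lit 481659557288) (nat_lit 25) (nat_lit 5) (nat_lit 27) (nat_lit 5) (nat_lit 28) (nat_lit 5) (nat_lit 336) (nat_lit 317) (nat_lit 127)) (XT.lf (nat_lit 0) (nat_lit 427041301933) (nat_lit 228) (nat_lit 273345849313) (nat_lit 76) (nat_lit 103035341140) (nat_lit 25) (nat_lit 5) (nat_lit 28) (nat_lit 5) (nat_lit 26) (nat_lit 5) (nat_lit 337) (nat_lit 317) (nat_lit 126)))) (XT.nd (nat_lit 156) (nat_lit 152) (nat_lit 0) (XT.nd (nat_lit 78) (nat_lit 0) (nat_lit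 0) (XT.lf (nat_lit 0) (nat_lit 126430529765) (nat_lit 152) (nat_lit 464164921237) (nat_lit 228) (nat_lit 254912905978) (nat_lit 23) (nat_lit 5) (nat_lit 25) (nat_lit 5) (nat_lit 26) (nat_lit 5) (nat_lit 338) (nat_lit 317) (nat_lit 125)) (XT.lf (nat_lit 0) (nat_lit 573734414536) (nat_lit 152) (nat_lit 200973260534) (nat_lit 228) (nat_lit 115655516256) (nat_lit 23) (nat_lit 5) (nat_lit 25) (nat_lit 5) (nat_lit 26) (nat_lit 5) (nat_lit 339) (nat_lit 317) (nat_lit 124))) (XT.nd (nat_lit 78) (nat_lit 0) (nat_lit 0) (XT.lf (nat_lit 0) (nat_lit 38072580051) (nat_lit 152) (nat_lit 817252593822) (nat_lit 76) (nat_lit 83008948066) (nat_lit 21) (nat_lit 5) (nat_lit 23) (nat_lit 5) (nat_lit 22) (nat_lit 5) (nat_lit 340) (nat_lit 317) (nat_lit 123)) (XT.lf (nat_lit 0) (nat_lit 211952645214) (nat_lit 152) (nat_lit 386083546070) (nat_lit 76) (nat_lit 390738042745) (nat_lit 21) (nat_lit 5) (nat_lit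 23) (nat_lit 5) (nat_lit 22) (nat_lit 5) (nat_lit 341) (nat_lit 317) (nat_lit 122))))) (XT.nd (nat_lit 312) (nat_lit 304) (nat_lit 0) (XT.nd (nat_lit 156) (nat_lit 76) (nat_lit 0) (XT.nd (nat_lit 78) (nat_lit 0) (nat_lit 0) (XT.lf (nat_lit 0) (nat_lit 83769491853) (nat_lit 152) (nat_lit 317988267567) (nat_lit 228) (nat_lit 641330624182) (nat_lit 19) (nat_lit 5) (nat_lit 21) (nat_lit 5) (nat_lit 22) (nat_lit 5) (nat_lit 342) (nat_lit 317) (nat_lit 121)) (XT.lf (nat_lit 0) (nat_lit 613167663856) (nat_lit 152) (nat_lit 4135813326) (nat_lit 228) (nat_lit 483599692423) (nat_lit 19) (nat_lit 5) (nat_lit 21) (nat_lit 5) (nat_lit 22) (nat_lit 5) (nat_lit 343) (nat_lit 317) (nat_lit 120))) (XT.nd (nat_lit 78) (nat_lit 0) (nat_lit 0) (XT.lf (nat_lit 0) (nat_lit 14234027936) (nat_lit 76) (nat_lit 844253685450) (nat_lit 152) (nat_lit 304183836241) (nat_lit 18) (nat_lit 5) (nat_lit 19) (nat_lit 5)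 (nat_lit 20) (nat_lit 4) (nat_lit 344) (nat_lit 317) (nat_lit 119)) (XT.lf (nat_lit 0) (nat_lit 583985973250) (nat_lit 76) (nat_lit 548420959820) (nat_lit 152) (nat_lit 95899247431) (nat_lit 18) (nat_lit 5) (nat_lit 19) (nat_lit 5) (nat_lit 20) (nat_lit 4) (nat_lit 345) (nat_lit 317) (nat_lit 118)))) (XT.nd (nat_lit 156) (nat_lit 76) (nat_lit 0) (XT.nd (nat_lit 78) (nat_lit 152) (nat_lit 0) (XT.lf (nat_lit 0) (nat_lit 122592587446) (nat_lit 152) (nat_lit 102977137845) (nat_lit 76) (nat_lit 1073373568720) (nat_lit 17) (nat_lit 5) (nat_lit 19) (nat_lit 5) (nat_lit 18) (nat_lit 5) (nat_lit 346) (nat_lit 317) (nat_lit 117)) (XT.lf (nat_lit 0) (nat_lit 368854492929) (nat_lit 228) (nat_lit 872986825022) (nat_lit 76) (nat_lit 131953045576) (nat_lit 15) (nat_lit 5) (nat_lit 18) (nat_lit 5) (nat_lit 16) (nat_lit 4) (nat_lit 347) (nat_lit 317) (nat_lit 116))) (XT.nd (nat_lit 78) (nat_lit 76) (nat_lit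 0) (XT.lf (nat_lit 0) (nat_lit 643565003171) (nat_lit 228) (nat_lit 301588986966) (nat_lit 76) (nat_lit 508779716293) (nat_lit 15) (nat_lit 5) (nat_lit 18) (nat_lit 5) (nat_lit 16) (nat_lit 4) (nat_lit 348) (nat_lit 317) (nat_lit 115)) (XT.lf (nat_lit 0) (nat_lit 332135419557) (nat_lit 76) (nat_lit 616104789407) (nat_lit 152) (nat_lit 591604959435) (nat_lit 14) (nat_lit 5) (nat_lit 15) (nat_lit 5) (nat_lit 16) (nat_lit 4) (nat_lit 349) (nat_lit 317) (nat_lit 114))))))))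
noncomputable def xc121 : XT := (XT.nd (nat_lit 39936) (nat_lit 0) (nat_lit 76) (XT.nd (nat_lit 38688) (nat_lit 0) (nat_lit 988) (XT.nd (nat_lit 546) (nat_lit 76) (nat_lit 0) (XT.nd (nat_lit 234) (nat_lit 76) (nat_lit 0) (XT.nd (nat_lit 78) (nat_lit 152) (nat_lit 0) (XT.lf (nat_lit 0) (nat_lit 1033709394546) (nat_lit 76) (nat_lit 251826004284) (nat_lit 152) (nat_lit 346434471098) (nat_lit 14) (nat_lit 5) (nat_lit 15) (nat_lit 5) (nat_lit 16) (nat_lit 4) (nat_lit 350) (nat_lit 317) (nat_lit 113)) (XT.nd (nat_lit 78) (nat_lit 76) (nat_lit 0) (XT.lf (nat_lit 0) (nat_lit 59516620916) (nat_lit 76) (nat_lit 1595134315105) (nat_lit 76) (nat_lit 76426672997) (nat_lit 13) (nat_lit 4) (nat_lit 14) (nat_lit 5) (nat_lit 14) (nat_lit 4) (nat_lit 351) (nat_lit 317) (nat_lit 112)) (XT.lf (nat_lit 0) (nat_lit 227740784195) (nat_lit 152) (nat_lit 1045006826802) (nat_lit 76) (nat_lit 563086482322) (nat_lit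 12) (nat_lit 5) (nat_lit 14) (nat_lit 5) (nat_lit 13) (nat_lit 4) (nat_lit 352) (nat_lit 317) (nat_lit 111)))) (XT.nd (nat_lit 156) (nat_lit 0) (nat_lit 0) (XT.nd (nat_lit 78) (nat_lit 76) (nat_lit 0) (XT.lf (nat_lit 0) (nat_lit 552112604055) (nat_lit 152) (nat_lit 370313456145) (nat_lit 76) (nat_lit 1026386228179) (nat_lit 12) (nat_lit 5) (nat_lit 14) (nat_lit 5) (nat_lit 13) (nat_lit 4) (nat_lit 353) (nat_lit 317) (nat_lit 110)) (XT.lf (nat_lit 0) (nat_lit 377225728862) (nat_lit 76) (nat_lit 534280720660) (nat_lit 152) (nat_lit 1158596507126) (nat_lit 11) (nat_lit 5) (nat_lit 12) (nat_lit 5) (nat_lit 13) (nat_lit 4) (nat_lit 354) (nat_lit 317) (nat_lit 109))) (XT.nd (nat_lit 78) (nat_lit 0) (nat_lit 0) (XT.lf (nat_lit 0) (nat_lit 1205628089369) (nat_lit 76) (nat_lit 104148731820) (nat_lit 152) (nat_lit 890510055713) (nat_lit 11) (nat_lit 5) (nat_lit 12) (nat_lit 5) (nat_lit 13) (nat_lit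 4) (nat_lit 355) (nat_lit 317) (nat_lit 108)) (XT.lf (nat_lit 0) (nat_lit 1748576295380) (nat_lit 152) (nat_lit 249250365102) (nat_lit 0) (nat_lit 342365452476) (nat_lit 11) (nat_lit 5) (nat_lit 13) (nat_lit 4) (nat_lit 11) (nat_lit 4) (nat_lit 356) (nat_lit 317) (nat_lit 107))))) (XT.nd (nat_lit 37830) (nat_lit 0) (nat_lit 2736) (XT.nd (nat_lit 37674) (nat_lit 0) (nat_lit 2660) (XT.nd (nat_lit 37596) (nat_lit 0) (nat_lit 2660) (XT.lf (nat_lit 0) (nat_lit 582210062417) (nat_lit 76) (nat_lit 1656976986331) (nat_lit 76) (nat_lit 250766133457) (nat_lit 10) (nat_lit 4) (nat_lit 11) (nat_lit 5) (nat_lit 11) (nat_lit 4) (nat_lit 357) (nat_lit 317) (nat_lit 106)) (XT.lf (nat_lit 0) (nat_lit 114181502379) (nat_lit 532) (nat_lit 31534436821) (nat_lit 532) (nat_lit 31534436821) (nat_lit 45) (nat_lit 3) (nat_lit 52) (nat_lit 3) (nat_lit 52) (nat_lit 5) (nat_lit 318) (nat_lit 318) (nat_lit 144)))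 (XT.nd (nat_lit 78) (nat_lit 0) (nat_lit 76) (XT.lf (nat_lit 76) (nat_lit 104867061322) (nat_lit 0) (nat_lit 135152995646) (nat_lit 532) (nat_lit 128458921222) (nat_lit 46) (nat_lit 5) (nat_lit 45) (nat_lit 3) (nat_lit 52) (nat_lit 5) (nat_lit 319) (nat_lit 318) (nat_lit 143)) (XT.lf (nat_lit 0) (nat_lit 255187589252) (nat_lit 456) (nat_lit 94466436091) (nat_lit 532) (nat_lit 33715203954) (nat_lit 46) (nat_lit 5) (nat_lit 52) (nat_lit 5) (nat_lit 53) (nat_lit 5) (nat_lit 320) (nat_lit 318) (nat_lit 142)))) (XT.nd (nat_lit 156) (nat_lit 0) (nat_lit 76) (XT.nd (nat_lit 78) (nat_lit 0) (nat_lit 0) (XT.lf (nat_lit 76) (nat_lit 89160348096) (nat_lit 0) (nat_lit 188062907665) (nat_lit 532) (nat_lit 121775066325) (nat_lit 47) (nat_lit 5) (nat_lit 46) (nat_lit 5) (nat_lit 53) (nat_lit 5) (nat_lit 321) (nat_lit 318) (nat_lit 141)) (XT.lf (nat_lit 76) (nat_lit 292849636339) (nat_lit 0) (nat_lit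 10754977325) (nat_lit 532) (nat_lit 112066501707) (nat_lit 47) (nat_lit 5) (nat_lit 46) (nat_lit 5) (nat_lit 53) (nat_lit 5) (nat_lit 322) (nat_lit 318) (nat_lit 140))) (XT.nd (nat_lit 78) (nat_lit 0) (nat_lit 0) (XT.lf (nat_lit 76) (nat_lit 78748901195) (nat_lit 0) (nat_lit 259588196979) (nat_lit 532) (nat_lit 94841384616) (nat_lit 48) (nat_lit 5) (nat_lit 47) (nat_lit 5) (nat_lit 54) (nat_lit 5) (nat_lit 323) (nat_lit 318) (nat_lit 139)) (XT.lf (nat_lit 76) (nat_lit 303135788828) (nat_lit 0) (nat_lit 76342791236) (nat_lit 532) (nat_lit 72317427750) (nat_lit 48) (nat_lit 5) (nat_lit 47) (nat_lit 5) (nat_lit 54) (nat_lit 5) (nat_lit 324) (nat_lit 318) (nat_lit 138)))))) (XT.nd (nat_lit 624) (nat_lit 684) (nat_lit 0) (XT.nd (nat_lit 312) (nat_lit 456) (nat_lit 0) (XT.nd (nat_lit 156) (nat_lit 304) (nat_lit 0) (XT.nd (nat_lit 78) (nat_lit 0) (nat_lit 0) (XT.lf (nat_lit 0) (nat_lit 74367238128)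 (nat_lit 456) (nat_lit 354256217859) (nat_lit 532) (nat_lit 42902512908) (nat_lit 42) (nat_lit 5) (nat_lit 48) (nat_lit 5) (nat_lit 49) (nat_lit 5) (nat_lit 325) (nat_lit 318) (nat_lit 137)) (XT.lf (nat_lit 0) (nat_lit 321603953766) (nat_lit 456) (nat_lit 166093299365) (nat_lit 532) (nat_lit 4657287325) (nat_lit 42) (nat_lit 5) (nat_lit 48) (nat_lit 5) (nat_lit 49) (nat_lit 5) (nat_lit 326) (nat_lit 318) (nat_lit 136))) (XT.nd (nat_lit 78) (nat_lit 0) (nat_lit 0) (XT.lf (nat_lit 0) (nat_lit 37623176335) (nat_lit 304) (nat_lit 438867889518) (nat_lit 76) (nat_lit 38063111657) (nat_lit 38) (nat_lit 5) (nat_lit 42) (nat_lit 5) (nat_lit 39) (nat_lit 5) (nat_lit 327) (nat_lit 318) (nat_lit 135)) (XT.lf (nat_lit 0) (nat_lit 92138432355) (nat_lit 304) (nat_lit 191163819301) (nat_lit 76) (nat_lit 254489538881) (nat_lit 38) (nat_lit 5) (nat_lit 42) (nat_lit 5) (nat_lit 39) (nat_lit 5) (nat_lit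 328) (nat_lit 318) (nat_lit 134)))) (XT.nd (nat_lit 156) (nat_lit 228) (nat_lit 0) (XT.nd (nat_lit 78) (nat_lit 0) (nat_lit 0) (XT.lf (nat_lit 0) (nat_lit 80377348956) (nat_lit 228) (nat_lit 72570610680) (nat_lit 304) (nat_lit 409785808971) (nat_lit 35) (nat_lit 5) (nat_lit 38) (nat_lit 5) (nat_lit 39) (nat_lit 5) (nat_lit 329) (nat_lit 318) (nat_lit 133)) (XT.lf (nat_lit 0) (nat_lit 227712965657) (nat_lit 304) (nat_lit 208603511378) (nat_lit 76) (nat_lit 152627370623) (nat_lit 35) (nat_lit 5) (nat_lit 39) (nat_lit 5) (nat_lit 36) (nat_lit 5) (nat_lit 330) (nat_lit 318) (nat_lit 132))) (XT.nd (nat_lit 78) (nat_lit 0) (nat_lit 0) (XT.lf (nat_lit 0) (nat_lit 89649271024) (nat_lit 228) (nat_lit 222850895893) (nat_lit 304) (nat_lit 304427286588) (nat_lit 32) (nat_lit 5) (nat_lit 35) (nat_lit 5) (nat_lit 36) (nat_lit 5) (nat_lit 331) (nat_lit 318) (nat_lit 131)) (XT.lf (nat_lit 0) (nat_lit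 410107047979) (nat_lit 304) (nat_lit 223400882685) (nat_lit 76) (nat_lit 13158880911) (nat_lit 32) (nat_lit 5) (nat_lit 36) (nat_lit 5) (nat_lit 33) (nat_lit 5) (nat_lit 332) (nat_lit 318) (nat_lit 130))))) (XT.nd (nat_lit 312) (nat_lit 304) (nat_lit 0) (XT.nd (nat_lit 156) (nat_lit 228) (nat_lit 0) (XT.nd (nat_lit 78) (nat_lit 0) (nat_lit 0) (XT.lf (nat_lit 0) (nat_lit 104211311847) (nat_lit 152) (nat_lit 419605766535) (nat_lit 228) (nat_lit 154304672047) (nat_lit 30) (nat_lit 5) (nat_lit 32) (nat_lit 5) (nat_lit 33) (nat_lit 5) (nat_lit 333) (nat_lit 318) (nat_lit 129)) (XT.lf (nat_lit 0) (nat_lit 470737462588) (nat_lit 152) (nat_lit 181994604923) (nat_lit 228) (nat_lit 58872364420) (nat_lit 30) (nat_lit 5) (nat_lit 32) (nat_lit 5) (nat_lit 33) (nat_lit 5) (nat_lit 334) (nat_lit 318) (nat_lit 128))) (XT.nd (nat_lit 78) (nat_lit 0) (nat_lit 0) (XT.lf (nat_lit 0) (nat_lit 46864696014)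 (nat_lit 228) (nat_lit 625384036191) (nat_lit 76) (nat_lit 75041488832) (nat_lit 27) (nat_lit 5) (nat_lit 30) (nat_lit 5) (nat_lit 28) (nat_lit 5) (nat_lit 335) (nat_lit 318) (nat_lit 127)) (XT.lf (nat_lit 0) (nat_lit 169363986638) (nat_lit 228) (nat_lit 264331873721) (nat_lit 76) (nat_lit 351093968585) (nat_lit 27) (nat_lit 5) (nat_lit 30) (nat_lit 5) (nat_lit 28) (nat_lit 5) (nat_lit 336) (nat_lit 318) (nat_lit 126)))) (XT.nd (nat_lit 156) (nat_lit 152) (nat_lit 0) (XT.nd (nat_lit 78) (nat_lit 0) (nat_lit 0) (XT.lf (nat_lit 0) (nat_lit 132218545409) (nat_lit 152) (nat_lit 172624517520) (nat_lit 228) (nat_lit 520191955193) (nat_lit 25) (nat_lit 5) (nat_lit 27) (nat_lit 5) (nat_lit 28) (nat_lit 5) (nat_lit 337) (nat_lit 318) (nat_lit 125)) (XT.lf (nat_lit 0) (nat_lit 461204923107) (nat_lit 228) (nat_lit 295213048533) (nat_lit 76) (nat_lit 111278294202) (nat_lit 25) (nat_lit 5) (nat_lit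 28) (nat_lit 5) (nat_lit 26) (nat_lit 5) (nat_lit 338) (nat_lit 318) (nat_lit 124))) (XT.nd (nat_lit 78) (nat_lit 0) (nat_lit 0) (XT.lf (nat_lit 0) (nat_lit 136545429005) (nat_lit 152) (nat_lit 501297962601) (nat_lit 228) (nat_lit 275305609039) (nat_lit 23) (nat_lit 5) (nat_lit 25) (nat_lit 5) (nat_lit 26) (nat_lit 5) (nat_lit 339) (nat_lit 318) (nat_lit 123)) (XT.lf (nat_lit 0) (nat_lit 619633590716) (nat_lit 152) (nat_lit 217050980326) (nat_lit 228) (nat_lit 124907652540) (nat_lit 23) (nat_lit 5) (nat_lit 25) (nat_lit 5) (nat_lit 26) (nat_lit 5) (nat_lit 340) (nat_lit 318) (nat_lit 122))))))) (XT.nd (nat_lit 38922) (nat_lit 0) (nat_lit 1444) (XT.nd (nat_lit 624) (nat_lit 304) (nat_lit 0) (XT.nd (nat_lit 312) (nat_lit 304) (nat_lit 0) (XT.nd (nat_lit 156) (nat_lit 152) (nat_lit 0) (XT.nd (nat_lit 78) (nat_lit 0) (nat_lit 0) (XT.lf (nat_lit 0) (nat_lit 41118668618) (nat_lit 152) (nat_lit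 882632354580) (nat_lit 76) (nat_lit 89649805501) (nat_lit 21) (nat_lit 5) (nat_lit 23) (nat_lit 5) (nat_lit 22) (nat_lit 5) (nat_lit 341) (nat_lit 318) (nat_lit 121)) (XT.lf (nat_lit 0) (nat_lit 228909118093) (nat_lit 152) (nat_lit 416969816100) (nat_lit 76) (nat_lit 421997217267) (nat_lit 21) (nat_lit 5) (nat_lit 23) (nat_lit 5) (nat_lit 22) (nat_lit 5) (nat_lit 342) (nat_lit 318) (nat_lit 120))) (XT.nd (nat_lit 78) (nat_lit 0) (nat_lit 0) (XT.lf (nat_lit 0) (nat_lit 90471454385) (nat_lit 152) (nat_lit 343427177394) (nat_lit 228) (nat_lit 692636802020) (nat_lit 19) (nat_lit 5) (nat_lit 21) (nat_lit 5) (nat_lit 22) (nat_lit 5) (nat_lit 343) (nat_lit 318) (nat_lit 119)) (XT.lf (nat_lit 0) (nat_lit 662221450283) (nat_lit 152) (nat_lit 4466538043) (nat_lit 228) (nat_lit 522287415875) (nat_lit 19) (nat_lit 5) (nat_lit 21) (nat_lit 5) (nat_lit 22) (nat_lit 5) (nat_lit 344) (nat_lit 318) (nat_lit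 118)))) (XT.nd (nat_lit 156) (nat_lit 228) (nat_lit 0) (XT.nd (nat_lit 78) (nat_lit 0) (nat_lit 0) (XT.lf (nat_lit 0) (nat_lit 15373129240) (nat_lit 76) (nat_lit 911793829170) (nat_lit 152) (nat_lit 328518296640) (nat_lit 18) (nat_lit 5) (nat_lit 19) (nat_lit 5) (nat_lit 20) (nat_lit 4) (nat_lit 345) (nat_lit 318) (nat_lit 117)) (XT.lf (nat_lit 0) (nat_lit 630705202101) (nat_lit 76) (nat_lit 592294496684) (nat_lit 152) (nat_lit 103570958984) (nat_lit 18) (nat_lit 5) (nat_lit 19) (nat_lit 5) (nat_lit 20) (nat_lit 4) (nat_lit 346) (nat_lit 318) (nat_lit 116))) (XT.nd (nat_lit 78) (nat_lit 152) (nat_lit 0) (XT.lf (nat_lit 0) (nat_lit 132400195205) (nat_lit 152) (nat_lit 111214973063) (nat_lit 76) (nat_lit 1159243572956) (nat_lit 17) (nat_lit 5) (nat_lit 19) (nat_lit 5) (nat_lit 18) (nat_lit 5) (nat_lit 347) (nat_lit 318) (nat_lit 115)) (XT.lf (nat_lit 0) (nat_lit 398363049338) (nat_lit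 228) (nat_lit 942825431198) (nat_lit 76) (nat_lit 142509416086) (nat_lit 15) (nat_lit 5) (nat_lit 18) (nat_lit 5) (nat_lit 16) (nat_lit 4) (nat_lit 348) (nat_lit 318) (nat_lit 114))))) (XT.nd (nat_lit 312) (nat_lit 152) (nat_lit 0) (XT.nd (nat_lit 156) (nat_lit 76) (nat_lit 0) (XT.nd (nat_lit 78) (nat_lit 76) (nat_lit 0) (XT.lf (nat_lit 0) (nat_lit 695050385809) (nat_lit 228) (nat_lit 325715791271) (nat_lit 76) (nat_lit 549482211063) (nat_lit 15) (nat_lit 5) (nat_lit 18) (nat_lit 5) (nat_lit 16) (nat_lit 4) (nat_lit 349) (nat_lit 318) (nat_lit 113)) (XT.lf (nat_lit 0) (nat_lit 358706559809) (nat_lit 76) (nat_lit 665393042122) (nat_lit 152) (nat_lit 638933165644) (nat_lit 14) (nat_lit 5) (nat_lit 15) (nat_lit 5) (nat_lit 16) (nat_lit 4) (nat_lit 350) (nat_lit 318) (nat_lit 112))) (XT.nd (nat_lit 78) (nat_lit 76) (nat_lit 0) (XT.lf (nat_lit 0) (nat_lit 1116406430079) (nat_lit 76) (nat_lit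 271971963851) (nat_lit 152) (nat_lit 374149052355) (nat_lit 14) (nat_lit 5) (nat_lit 15) (nat_lit 5) (nat_lit 16) (nat_lit 4) (nat_lit 351) (nat_lit 318) (nat_lit 111)) (XT.lf (nat_lit 0) (nat_lit 64278237440) (nat_lit 76) (nat_lit 1722744934157) (nat_lit 76) (nat_lit 82540633120) (nat_lit 13) (nat_lit 4) (nat_lit 14) (nat_lit 5) (nat_lit 14) (nat_lit 4) (nat_lit 352) (nat_lit 318) (nat_lit 110)))) (XT.nd (nat_lit 156) (nat_lit 76) (nat_lit 0) (XT.nd (nat_lit 78) (nat_lit 0) (nat_lit 0) (XT.lf (nat_lit 0) (nat_lit 245960199734) (nat_lit 152) (nat_lit 1128607099154) (nat_lit 76) (nat_lit 608133509529) (nat_lit 12) (nat_lit 5) (nat_lit 14) (nat_lit 5) (nat_lit 13) (nat_lit 4) (nat_lit 353) (nat_lit 318) (nat_lit 109)) (XT.lf (nat_lit 0) (nat_lit 596281753864) (nat_lit 152) (nat_lit 399938279125) (nat_lit 76) (nat_lit 1108497227009) (nat_lit 12) (nat_lit 5) (nat_lit 14) (nat_lit 5) (nat_lit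 13) (nat_lit 4) (nat_lit 354) (nat_lit 318) (nat_lit 108))) (XT.nd (nat_lit 78) (nat_lit 0) (nat_lit 0) (XT.lf (nat_lit 0) (nat_lit 407404034265) (nat_lit 76) (nat_lit 577023068166) (nat_lit 152) (nat_lit 1251284079671) (nat_lit 11) (nat_lit 5) (nat_lit 12) (nat_lit 5) (nat_lit 13) (nat_lit 4) (nat_lit 355) (nat_lit 318) (nat_lit 107)) (XT.lf (nat_lit 0) (nat_lit 1302078565309) (nat_lit 76) (nat_lit 112480528378) (nat_lit 152) (nat_lit 961750723109) (nat_lit 11) (nat_lit 5) (nat_lit 12) (nat_lit 5) (nat_lit 13) (nat_lit 4) (nat_lit 356) (nat_lit 318) (nat_lit 106)))))) (XT.nd (nat_lit 624) (nat_lit 912) (nat_lit 0) (XT.nd (nat_lit 312) (nat_lit 228) (nat_lit 0) (XT.nd (nat_lit 156) (nat_lit 0) (nat_lit 76) (XT.nd (nat_lit 78) (nat_lit 0) (nat_lit 0) (XT.lf (nat_lit 0) (nat_lit 123316487778) (nat_lit 532) (nat_lit 34056939884) (nat_lit 532) (nat_lit 34056939884) (nat_lit 45) (nat_lit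 3) (nat_lit 52) (nat_lit 3) (nat_lit 52) (nat_lit 5) (nat_lit 319) (nat_lit 319) (nat_lit 142)) (XT.lf (nat_lit 76) (nat_lit 113256917239) (nat_lit 0) (nat_lit 145965617594) (nat_lit 532) (nat_lit 138734689270) (nat_lit 46) (nat_lit 5) (nat_lit 45) (nat_lit 3) (nat_lit 52) (nat_lit 5) (nat_lit 320) (nat_lit 319) (nat_lit 141))) (XT.nd (nat_lit 78) (nat_lit 0) (nat_lit 0) (XT.lf (nat_lit 0) (nat_lit 275603396496) (nat_lit 456) (nat_lit 102023220841) (nat_lit 532) (nat_lit 36412084000) (nat_lit 46) (nat_lit 5) (nat_lit 52) (nat_lit 5) (nat_lit 53) (nat_lit 5) (nat_lit 321) (nat_lit 319) (nat_lit 140)) (XT.lf (nat_lit 76) (nat_lit 96293692660) (nat_lit 0) (nat_lit 203108176827) (nat_lit 532) (nat_lit 131516255981) (nat_lit 47) (nat_lit 5) (nat_lit 46) (nat_lit 5) (nat_lit 53) (nat_lit 5) (nat_lit 322) (nat_lit 319) (nat_lit 139)))) (XT.nd (nat_lit 156) (nat_lit 304) (nat_lit 0) (XT.nd (nat_lit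 78) (nat_lit 0) (nat_lit 76) (XT.lf (nat_lit 76) (nat_lit 316278085688) (nat_lit 0) (nat_lit 11615594537) (nat_lit 532) (nat_lit 121031066612) (nat_lit 47) (nat_lit 5) (nat_lit 46) (nat_lit 5) (nat_lit 53) (nat_lit 5) (nat_lit 323) (nat_lit 319) (nat_lit 138)) (XT.lf (nat_lit 76) (nat_lit 85049341056) (nat_lit 0) (nat_lit 280355378590) (nat_lit 532) (nat_lit 102427987656) (nat_lit 48) (nat_lit 5) (nat_lit 47) (nat_lit 5) (nat_lit 54) (nat_lit 5) (nat_lit 324) (nat_lit 319) (nat_lit 137))) (XT.nd (nat_lit 78) (nat_lit 380) (nat_lit 0) (XT.lf (nat_lit 76) (nat_lit 327387140607) (nat_lit 0) (nat_lit 82450331065) (nat_lit 532) (nat_lit 78102166665) (nat_lit 48) (nat_lit 5) (nat_lit 47) (nat_lit 5) (nat_lit 54) (nat_lit 5) (nat_lit 325) (nat_lit 319) (nat_lit 136)) (XT.lf (nat_lit 0) (nat_lit 80317145045) (nat_lit 456) (nat_lit 382596757893) (nat_lit 532) (nat_lit 46334096268) (nat_lit 42)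 (nat_lit 5) (nat_lit 48) (nat_lit 5) (nat_lit 49) (nat_lit 5) (nat_lit 326) (nat_lit 319) (nat_lit 135))))) (XT.nd (nat_lit 312) (nat_lit 380) (nat_lit 0) (XT.nd (nat_lit 156) (nat_lit 228) (nat_lit 0) (XT.nd (nat_lit 78) (nat_lit 304) (nat_lit 0) (XT.lf (nat_lit 0) (nat_lit 347332758833) (nat_lit 456) (nat_lit 179380802763) (nat_lit 532) (nat_lit 5029298392) (nat_lit 42) (nat_lit 5) (nat_lit 48) (nat_lit 5) (nat_lit 49) (nat_lit 5) (nat_lit 327) (nat_lit 319) (nat_lit 134)) (XT.lf (nat_lit 0) (nat_lit 40633545433) (nat_lit 304) (nat_lit 473976772407) (nat_lit 76) (nat_lit 41108151431) (nat_lit 38) (nat_lit 5) (nat_lit 42) (nat_lit 5) (nat_lit 39) (nat_lit 5) (nat_lit 328) (nat_lit 319) (nat_lit 133))) (XT.nd (nat_lit 78) (nat_lit 228) (nat_lit 0) (XT.lf (nat_lit 0) (nat_lit 99509983788) (nat_lit 304) (nat_lit 206456417185) (nat_lit 76) (nat_lit 274848693511) (nat_lit 38) (nat_lit 5)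 (nat_lit 42) (nat_lit 5) (nat_lit 39) (nat_lit 5) (nat_lit 329) (nat_lit 319) (nat_lit 132)) (XT.lf (nat_lit 0) (nat_lit 86808031679) (nat_lit 228) (nat_lit 78376218149) (nat_lit 304) (nat_lit 442568182930) (nat_lit 35) (nat_lit 5) (nat_lit 38) (nat_lit 5) (nat_lit 39) (nat_lit 5) (nat_lit 330) (nat_lit 319) (nat_lit 131)))) (XT.nd (nat_lit 156) (nat_lit 152) (nat_lit 0) (XT.nd (nat_lit 78) (nat_lit 228) (nat_lit 0) (XT.lf (nat_lit 0) (nat_lit 245930423666) (nat_lit 304) (nat_lit 225291300483) (nat_lit 76) (nat_lit 164837596675) (nat_lit 35) (nat_lit 5) (nat_lit 39) (nat_lit 5) (nat_lit 36) (nat_lit 5) (nat_lit 331) (nat_lit 319) (nat_lit 130)) (XT.lf (nat_lit 0) (nat_lit 96821692060) (nat_lit 228) (nat_lit 240678889329) (nat_lit 304) (nat_lit 328781035396) (nat_lit 32) (nat_lit 5) (nat_lit 35) (nat_lit 5) (nat_lit 36) (nat_lit 5) (nat_lit 332) (nat_lit 319) (nat_lit 129))) (XT.nd (nat_lit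 78) (nat_lit 152) (nat_lit 0) (XT.lf (nat_lit 0) (nat_lit 442915984965) (nat_lit 304) (nat_lit 241272480640) (nat_lit 76) (nat_lit 14211660201) (nat_lit 32) (nat_lit 5) (nat_lit 36) (nat_lit 5) (nat_lit 33) (nat_lit 5) (nat_lit 333) (nat_lit 319) (nat_lit 128)) (XT.lf (nat_lit 0) (nat_lit 112548677489) (nat_lit 152) (nat_lit 453174123751) (nat_lit 228) (nat_lit 166648659915) (nat_lit 30) (nat_lit 5) (nat_lit 32) (nat_lit 5) (nat_lit 33) (nat_lit 5) (nat_lit 334) (nat_lit 319) (nat_lit 127))))))))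
noncomputable def xc122 : XT := (XT.nd (nat_lit 40170) (nat_lit 0) (nat_lit 76) (XT.nd (nat_lit 1170) (nat_lit 304) (nat_lit 0) (XT.nd (nat_lit 546) (nat_lit 608) (nat_lit 0) (XT.nd (nat_lit 234) (nat_lit 304) (nat_lit 0) (XT.nd (nat_lit 78) (nat_lit 228) (nat_lit 0) (XT.lf (nat_lit 0) (nat_lit 508396886164) (nat_lit 152) (nat_lit 196554076922) (nat_lit 228) (nat_lit 63581796262) (nat_lit 30) (nat_lit 5) (nat_lit 32) (nat_lit 5) (nat_lit 33) (nat_lit 5) (nat_lit 335) (nat_lit 319) (nat_lit 126)) (XT.nd (nat_lit 78) (nat_lit 0) (nat_lit 0) (XT.lf (nat_lit 0) (nat_lit 50614199046) (nat_lit 228) (nat_lit 675414301268) (nat_lit 76) (nat_lit 81044911597) (nat_lit 27) (nat_lit 5) (nat_lit 30) (nat_lit 5) (nat_lit 28) (nat_lit 5) (nat_lit 336) (nat_lit 319) (nat_lit 125)) (XT.lf (nat_lit 0) (nat_lit 182913408672) (nat_lit 228) (nat_lit 285477999712) (nat_lit 76) (nat_lit 379181582052) (nat_lit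 27) (nat_lit 5) (nat_lit 30) (nat_lit 5) (nat_lit 28) (nat_lit 5) (nat_lit 337) (nat_lit 319) (nat_lit 124)))) (XT.nd (nat_lit 156) (nat_lit 152) (nat_lit 0) (XT.nd (nat_lit 78) (nat_lit 0) (nat_lit 0) (XT.lf (nat_lit 0) (nat_lit 142796442216) (nat_lit 152) (nat_lit 186434356335) (nat_lit 228) (nat_lit 561806997242) (nat_lit 25) (nat_lit 5) (nat_lit 27) (nat_lit 5) (nat_lit 28) (nat_lit 5) (nat_lit 338) (nat_lit 319) (nat_lit 123)) (XT.lf (nat_lit 0) (nat_lit 498101588748) (nat_lit 228) (nat_lit 318829690559) (nat_lit 76) (nat_lit 120180665566) (nat_lit 25) (nat_lit 5) (nat_lit 28) (nat_lit 5) (nat_lit 26) (nat_lit 5) (nat_lit 339) (nat_lit 319) (nat_lit 122))) (XT.nd (nat_lit 78) (nat_lit 0) (nat_lit 0) (XT.lf (nat_lit 0) (nat_lit 147469455009) (nat_lit 152) (nat_lit 541401669006) (nat_lit 228) (nat_lit 297329775340) (nat_lit 23) (nat_lit 5) (nat_lit 25) (nat_lit 5) (nat_lit 26) (nat_lit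 5) (nat_lit 340) (nat_lit 319) (nat_lit 121)) (XT.lf (nat_lit 0) (nat_lit 669204640643) (nat_lit 152) (nat_lit 234414937823) (nat_lit 228) (nat_lit 134900003241) (nat_lit 23) (nat_lit 5) (nat_lit 25) (nat_lit 5) (nat_lit 26) (nat_lit 5) (nat_lit 341) (nat_lit 319) (nat_lit 120))))) (XT.nd (nat_lit 312) (nat_lit 304) (nat_lit 0) (XT.nd (nat_lit 156) (nat_lit 152) (nat_lit 0) (XT.nd (nat_lit 78) (nat_lit 0) (nat_lit 0) (XT.lf (nat_lit 0) (nat_lit 44408404017) (nat_lit 152) (nat_lit 953242559931) (nat_lit 76) (nat_lit 96821911332) (nat_lit 21) (nat_lit 5) (nat_lit 23) (nat_lit 5) (nat_lit 22) (nat_lit 5) (nat_lit 342) (nat_lit 319) (nat_lit 119)) (XT.lf (nat_lit 0) (nat_lit 247222071531) (nat_lit 152) (nat_lit 450327046745) (nat_lit 76) (nat_lit 455757107046) (nat_lit 21) (nat_lit 5) (nat_lit 23) (nat_lit 5) (nat_lit 22) (nat_lit 5) (nat_lit 343) (nat_lit 319) (nat_lit 118))) (XT.nd (nat_lit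 78) (nat_lit 0) (nat_lit 0) (XT.lf (nat_lit 0) (nat_lit 97709516401) (nat_lit 152) (nat_lit 370901221633) (nat_lit 228) (nat_lit 748047512902) (nat_lit 19) (nat_lit 5) (nat_lit 21) (nat_lit 5) (nat_lit 22) (nat_lit 5) (nat_lit 344) (nat_lit 319) (nat_lit 117)) (XT.lf (nat_lit 0) (nat_lit 715199486366) (nat_lit 152) (nat_lit 4823740759) (nat_lit 228) (nat_lit 564070193146) (nat_lit 19) (nat_lit 5) (nat_lit 21) (nat_lit 5) (nat_lit 22) (nat_lit 5) (nat_lit 345) (nat_lit 319) (nat_lit 116)))) (XT.nd (nat_lit 156) (nat_lit 228) (nat_lit 0) (XT.nd (nat_lit 78) (nat_lit 0) (nat_lit 0) (XT.lf (nat_lit 0) (nat_lit 16603304571) (nat_lit 76) (nat_lit 984737205947) (nat_lit 152) (nat_lit 354799549037) (nat_lit 18) (nat_lit 5) (nat_lit 19) (nat_lit 5) (nat_lit 20) (nat_lit 4) (nat_lit 346) (nat_lit 319) (nat_lit 115)) (XT.lf (nat_lit 0) (nat_lit 681161919186) (nat_lit 76) (nat_lit 639677936458)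 (nat_lit 152) (nat_lit 111856440023) (nat_lit 18) (nat_lit 5) (nat_lit 19) (nat_lit 5) (nat_lit 20) (nat_lit 4) (nat_lit 347) (nat_lit 319) (nat_lit 114))) (XT.nd (nat_lit 78) (nat_lit 152) (nat_lit 0) (XT.lf (nat_lit 0) (nat_lit 142992382942) (nat_lit 152) (nat_lit 120111883006) (nat_lit 76) (nat_lit 1251983160593) (nat_lit 17) (nat_lit 5) (nat_lit 19) (nat_lit 5) (nat_lit 18) (nat_lit 5) (nat_lit 348) (nat_lit 319) (nat_lit 113)) (XT.lf (nat_lit 0) (nat_lit 430232262159) (nat_lit 228) (nat_lit 1018251174349) (nat_lit 76) (nat_lit 153910278139) (nat_lit 15) (nat_lit 5) (nat_lit 18) (nat_lit 5) (nat_lit 16) (nat_lit 4) (nat_lit 349) (nat_lit 319) (nat_lit 112)))))) (XT.nd (nat_lit 38376) (nat_lit 0) (nat_lit 2356) (XT.nd (nat_lit 312) (nat_lit 152) (nat_lit 0) (XT.nd (nat_lit 156) (nat_lit 76) (nat_lit 0) (XT.nd (nat_lit 78) (nat_lit 76) (nat_lit 0) (XT.lf (nat_lit 0) (nat_lit 750654573038)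 (nat_lit 228) (nat_lit 351772784808) (nat_lit 76) (nat_lit 593440888657) (nat_lit 15) (nat_lit 5) (nat_lit 18) (nat_lit 5) (nat_lit 16) (nat_lit 4) (nat_lit 350) (nat_lit 319) (nat_lit 111)) (XT.lf (nat_lit 0) (nat_lit 387403347528) (nat_lit 76) (nat_lit 718624373663) (nat_lit 152) (nat_lit 690047655534) (nat_lit 14) (nat_lit 5) (nat_lit 15) (nat_lit 5) (nat_lit 16) (nat_lit 4) (nat_lit 351) (nat_lit 319) (nat_lit 110))) (XT.nd (nat_lit 78) (nat_lit 76) (nat_lit 0) (XT.lf (nat_lit 0) (nat_lit 1205719187943) (nat_lit 76) (nat_lit 293729617414) (nat_lit 152) (nat_lit 404080825283) (nat_lit 14) (nat_lit 5) (nat_lit 15) (nat_lit 5) (nat_lit 16) (nat_lit 4) (nat_lit 352) (nat_lit 319) (nat_lit 109)) (XT.lf (nat_lit 0) (nat_lit 69420742364) (nat_lit 76) (nat_lit 1860564420730) (nat_lit 76) (nat_lit 89143734835) (nat_lit 13) (nat_lit 4) (nat_lit 14) (nat_lit 5) (nat_lit 14) (nat_lit 4) (nat_lit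 353) (nat_lit 319) (nat_lit 108)))) (XT.nd (nat_lit 156) (nat_lit 76) (nat_lit 0) (XT.nd (nat_lit 78) (nat_lit 0) (nat_lit 0) (XT.lf (nat_lit 0) (nat_lit 265637146717) (nat_lit 152) (nat_lit 1218895432354) (nat_lit 76) (nat_lit 656784283417) (nat_lit 12) (nat_lit 5) (nat_lit 14) (nat_lit 5) (nat_lit 13) (nat_lit 4) (nat_lit 354) (nat_lit 319) (nat_lit 107)) (XT.lf (nat_lit 0) (nat_lit 643984415473) (nat_lit 152) (nat_lit 431933124109) (nat_lit 76) (nat_lit 1197177091397) (nat_lit 12) (nat_lit 5) (nat_lit 14) (nat_lit 5) (nat_lit 13) (nat_lit 4) (nat_lit 355) (nat_lit 319) (nat_lit 106))) (XT.nd (nat_lit 37830) (nat_lit 0) (nat_lit 2584) (XT.lf (nat_lit 0) (nat_lit 439996568849) (nat_lit 76) (nat_lit 623184819186) (nat_lit 152) (nat_lit 1351386679137) (nat_lit 11) (nat_lit 5) (nat_lit 12) (nat_lit 5) (nat_lit 13) (nat_lit 4) (nat_lit 356) (nat_lit 319) (nat_lit 105)) (XT.lf (nat_lit 0)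 (nat_lit 133182205642) (nat_lit 532) (nat_lit 36781279127) (nat_lit 532) (nat_lit 36781279127) (nat_lit 45) (nat_lit 3) (nat_lit 52) (nat_lit 3) (nat_lit 52) (nat_lit 5) (nat_lit 320) (nat_lit 320) (nat_lit 140))))) (XT.nd (nat_lit 312) (nat_lit 228) (nat_lit 0) (XT.nd (nat_lit 156) (nat_lit 0) (nat_lit 76) (XT.nd (nat_lit 78) (nat_lit 0) (nat_lit 76) (XT.lf (nat_lit 76) (nat_lit 122317891580) (nat_lit 0) (nat_lit 157643194759) (nat_lit 532) (nat_lit 149832653669) (nat_lit 46) (nat_lit 5) (nat_lit 45) (nat_lit 3) (nat_lit 52) (nat_lit 5) (nat_lit 321) (nat_lit 320) (nat_lit 139)) (XT.lf (nat_lit 0) (nat_lit 297652354177) (nat_lit 456) (nat_lit 110184624001) (nat_lit 532) (nat_lit 39324762422) (nat_lit 46) (nat_lit 5) (nat_lit 52) (nat_lit 5) (nat_lit 53) (nat_lit 5) (nat_lit 322) (nat_lit 320) (nat_lit 138))) (XT.nd (nat_lit 78) (nat_lit 0) (nat_lit 0) (XT.lf (nat_lit 76) (nat_lit 103997631073)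 (nat_lit 0) (nat_lit 219357033775) (nat_lit 532) (nat_lit 142036857171) (nat_lit 47) (nat_lit 5) (nat_lit 46) (nat_lit 5) (nat_lit 53) (nat_lit 5) (nat_lit 323) (nat_lit 320) (nat_lit 137)) (XT.lf (nat_lit 76) (nat_lit 341580742729) (nat_lit 0) (nat_lit 12545029880) (nat_lit 532) (nat_lit 130712904451) (nat_lit 47) (nat_lit 5) (nat_lit 46) (nat_lit 5) (nat_lit 53) (nat_lit 5) (nat_lit 324) (nat_lit 320) (nat_lit 136)))) (XT.nd (nat_lit 156) (nat_lit 380) (nat_lit 0) (XT.nd (nat_lit 78) (nat_lit 0) (nat_lit 0) (XT.lf (nat_lit 76) (nat_lit 91853740814) (nat_lit 0) (nat_lit 302783916776) (nat_lit 532) (nat_lit 110621619905) (nat_lit 48) (nat_lit 5) (nat_lit 47) (nat_lit 5) (nat_lit 54) (nat_lit 5) (nat_lit 325) (nat_lit 320) (nat_lit 135)) (XT.lf (nat_lit 76) (nat_lit 353578530812) (nat_lit 0) (nat_lit 89046457456) (nat_lit 532) (nat_lit 84349778180) (nat_lit 48) (nat_lit 5) (nat_lit 47)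 (nat_lit 5) (nat_lit 54) (nat_lit 5) (nat_lit 326) (nat_lit 320) (nat_lit 134))) (XT.nd (nat_lit 78) (nat_lit 0) (nat_lit 0) (XT.lf (nat_lit 0) (nat_lit 86742969210) (nat_lit 456) (nat_lit 413204535052) (nat_lit 532) (nat_lit 50040294415) (nat_lit 42) (nat_lit 5) (nat_lit 48) (nat_lit 5) (nat_lit 49) (nat_lit 5) (nat_lit 327) (nat_lit 320) (nat_lit 133)) (XT.lf (nat_lit 0) (nat_lit 375119798578) (nat_lit 456) (nat_lit 193731300806) (nat_lit 532) (nat_lit 5431151936) (nat_lit 42) (nat_lit 5) (nat_lit 48) (nat_lit 5) (nat_lit 49) (nat_lit 5) (nat_lit 328) (nat_lit 320) (nat_lit 132))))))) (XT.nd (nat_lit 1248) (nat_lit 684) (nat_lit 0) (XT.nd (nat_lit 624) (nat_lit 684) (nat_lit 0) (XT.nd (nat_lit 312) (nat_lit 380) (nat_lit 0) (XT.nd (nat_lit 156) (nat_lit 228) (nat_lit 0) (XT.nd (nat_lit 78) (nat_lit 0) (nat_lit 0) (XT.lf (nat_lit 0) (nat_lit 43884670590) (nat_lit 304) (nat_lit 511894444145)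 (nat_lit 76) (nat_lit 44396795694) (nat_lit 38) (nat_lit 5) (nat_lit 42) (nat_lit 5) (nat_lit 39) (nat_lit 5) (nat_lit 329) (nat_lit 320) (nat_lit 131)) (XT.lf (nat_lit 0) (nat_lit 107471191307) (nat_lit 304) (nat_lit 222972495324) (nat_lit 76) (nat_lit 296836581722) (nat_lit 38) (nat_lit 5) (nat_lit 42) (nat_lit 5) (nat_lit 39) (nat_lit 5) (nat_lit 330) (nat_lit 320) (nat_lit 130))) (XT.nd (nat_lit 78) (nat_lit 0) (nat_lit 0) (XT.lf (nat_lit 0) (nat_lit 93753098431) (nat_lit 228) (nat_lit 84646280120) (nat_lit 304) (nat_lit 477973216818) (nat_lit 35) (nat_lit 5) (nat_lit 38) (nat_lit 5) (nat_lit 39) (nat_lit 5) (nat_lit 331) (nat_lit 320) (nat_lit 129)) (XT.lf (nat_lit 0) (nat_lit 265605218291) (nat_lit 304) (nat_lit 243314182879) (nat_lit 76) (nat_lit 178024635619) (nat_lit 35) (nat_lit 5) (nat_lit 39) (nat_lit 5) (nat_lit 36) (nat_lit 5) (nat_lit 332) (nat_lit 320) (nat_lit 128))))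 (XT.nd (nat_lit 156) (nat_lit 152) (nat_lit 0) (XT.nd (nat_lit 78) (nat_lit 0) (nat_lit 0) (XT.lf (nat_lit 0) (nat_lit 104567838393) (nat_lit 228) (nat_lit 259933133401) (nat_lit 304) (nat_lit 355083146040) (nat_lit 32) (nat_lit 5) (nat_lit 35) (nat_lit 5) (nat_lit 36) (nat_lit 5) (nat_lit 333) (nat_lit 320) (nat_lit 127)) (XT.lf (nat_lit 0) (nat_lit 478349583677) (nat_lit 304) (nat_lit 260573873861) (nat_lit 76) (nat_lit 15348652016) (nat_lit 32) (nat_lit 5) (nat_lit 36) (nat_lit 5) (nat_lit 33) (nat_lit 5) (nat_lit 334) (nat_lit 320) (nat_lit 126))) (XT.nd (nat_lit 78) (nat_lit 0) (nat_lit 0) (XT.lf (nat_lit 0) (nat_lit 121552966659) (nat_lit 152) (nat_lit 489427964396) (nat_lit 228) (nat_lit 179980221865) (nat_lit 30) (nat_lit 5) (nat_lit 32) (nat_lit 5) (nat_lit 33) (nat_lit 5) (nat_lit 335) (nat_lit 320) (nat_lit 125)) (XT.lf (nat_lit 0) (nat_lit 549069002771) (nat_lit 152) (nat_lit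 212278320432) (nat_lit 228) (nat_lit 68668033627) (nat_lit 30) (nat_lit 5) (nat_lit 32) (nat_lit 5) (nat_lit 33) (nat_lit 5) (nat_lit 336) (nat_lit 320) (nat_lit 124))))) (XT.nd (nat_lit 312) (nat_lit 304) (nat_lit 0) (XT.nd (nat_lit 156) (nat_lit 152) (nat_lit 0) (XT.nd (nat_lit 78) (nat_lit 0) (nat_lit 0) (XT.lf (nat_lit 0) (nat_lit 54663615621) (nat_lit 228) (nat_lit 729447052863) (nat_lit 76) (nat_lit 87528593395) (nat_lit 27) (nat_lit 5) (nat_lit 30) (nat_lit 5) (nat_lit 28) (nat_lit 5) (nat_lit 337) (nat_lit 320) (nat_lit 123)) (XT.lf (nat_lit 0) (nat_lit 197546741228) (nat_lit 228) (nat_lit 308315876258) (nat_lit 76) (nat_lit 409516190904) (nat_lit 27) (nat_lit 5) (nat_lit 30) (nat_lit 5) (nat_lit 28) (nat_lit 5) (nat_lit 338) (nat_lit 320) (nat_lit 122))) (XT.nd (nat_lit 78) (nat_lit 0) (nat_lit 0) (XT.lf (nat_lit 0) (nat_lit 154220511824) (nat_lit 152) (nat_lit 201348999744)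 (nat_lit 228) (nat_lit 606751287503) (nat_lit 25) (nat_lit 5) (nat_lit 27) (nat_lit 5) (nat_lit 28) (nat_lit 5) (nat_lit 339) (nat_lit 320) (nat_lit 121)) (XT.lf (nat_lit 0) (nat_lit 537949948867) (nat_lit 228) (nat_lit 344335721276) (nat_lit 76) (nat_lit 129795211257) (nat_lit 25) (nat_lit 5) (nat_lit 28) (nat_lit 5) (nat_lit 26) (nat_lit 5) (nat_lit 340) (nat_lit 320) (nat_lit 120)))) (XT.nd (nat_lit 156) (nat_lit 152) (nat_lit 0) (XT.nd (nat_lit 78) (nat_lit 0) (nat_lit 0) (XT.lf (nat_lit 0) (nat_lit 159267347214) (nat_lit 152) (nat_lit 584713690555) (nat_lit 228) (nat_lit 321115915236) (nat_lit 23) (nat_lit 5) (nat_lit 25) (nat_lit 5) (nat_lit 26) (nat_lit 5) (nat_lit 341) (nat_lit 320) (nat_lit 119)) (XT.lf (nat_lit 0) (nat_lit 722741322825) (nat_lit 152) (nat_lit 253168029172) (nat_lit 228) (nat_lit 145691779305) (nat_lit 23) (nat_lit 5) (nat_lit 25) (nat_lit 5) (nat_lit 26) (nat_lit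 5) (nat_lit 342) (nat_lit 320) (nat_lit 118))) (XT.nd (nat_lit 78) (nat_lit 0) (nat_lit 0) (XT.lf (nat_lit 0) (nat_lit 47961283737) (nat_lit 152) (nat_lit 1029501636352) (nat_lit 76) (nat_lit 104567768311) (nat_lit 21) (nat_lit 5) (nat_lit 23) (nat_lit 5) (nat_lit 22) (nat_lit 5) (nat_lit 343) (nat_lit 320) (nat_lit 117)) (XT.lf (nat_lit 0) (nat_lit 267000029289) (nat_lit 152) (nat_lit 486352906435) (nat_lit 76) (nat_lit 492217771974) (nat_lit 21) (nat_lit 5) (nat_lit 23) (nat_lit 5) (nat_lit 22) (nat_lit 5) (nat_lit 344) (nat_lit 320) (nat_lit 116)))))) (XT.nd (nat_lit 624) (nat_lit 152) (nat_lit 0) (XT.nd (nat_lit 312) (nat_lit 304) (nat_lit 0) (XT.nd (nat_lit 156) (nat_lit 76) (nat_lit 0) (XT.nd (nat_lit 78) (nat_lit 0) (nat_lit 0) (XT.lf (nat_lit 0) (nat_lit 105526574065) (nat_lit 152) (nat_lit 400573207949) (nat_lit 228) (nat_lit 807891113935) (nat_lit 19) (nat_lit 5) (nat_lit 21)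 (nat_lit 5) (nat_lit 22) (nat_lit 5) (nat_lit 345) (nat_lit 320) (nat_lit 115)) (XT.lf (nat_lit 0) (nat_lit 772415719675) (nat_lit 152) (nat_lit 5209536859) (nat_lit 228) (nat_lit 609195623414) (nat_lit 19) (nat_lit 5) (nat_lit 21) (nat_lit 5) (nat_lit 22) (nat_lit 5) (nat_lit 346) (nat_lit 320) (nat_lit 114))) (XT.nd (nat_lit 78) (nat_lit 0) (nat_lit 0) (XT.lf (nat_lit 0) (nat_lit 17931847564) (nat_lit 76) (nat_lit 1063516071348) (nat_lit 152) (nat_lit 383183331775) (nat_lit 18) (nat_lit 5) (nat_lit 19) (nat_lit 5) (nat_lit 20) (nat_lit 4) (nat_lit 347) (nat_lit 320) (nat_lit 113)) (XT.lf (nat_lit 0) (nat_lit 735655130710) (nat_lit 76) (nat_lit 690852068528) (nat_lit 152) (nat_lit 120804787461) (nat_lit 18) (nat_lit 5) (nat_lit 19) (nat_lit 5) (nat_lit 20) (nat_lit 4) (nat_lit 348) (nat_lit 320) (nat_lit 112)))) (XT.nd (nat_lit 156) (nat_lit 76) (nat_lit 0) (XT.nd (nat_lit 78) (nat_lit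 152) (nat_lit 0) (XT.lf (nat_lit 0) (nat_lit 154431921144) (nat_lit 152) (nat_lit 129720586817) (nat_lit 76) (nat_lit 1352141900717) (nat_lit 17) (nat_lit 5) (nat_lit 19) (nat_lit 5) (nat_lit 18) (nat_lit 5) (nat_lit 349) (nat_lit 320) (nat_lit 111)) (XT.lf (nat_lit 0) (nat_lit 464650987914) (nat_lit 228) (nat_lit 1099711018516) (nat_lit 76) (nat_lit 166223193639) (nat_lit 15) (nat_lit 5) (nat_lit 18) (nat_lit 5) (nat_lit 16) (nat_lit 4) (nat_lit 350) (nat_lit 320) (nat_lit 110))) (XT.nd (nat_lit 78) (nat_lit 76) (nat_lit 0) (XT.lf (nat_lit 0) (nat_lit 810707072939) (nat_lit 228) (nat_lit 379914376314) (nat_lit 76) (nat_lit 640916246092) (nat_lit 15) (nat_lit 5) (nat_lit 18) (nat_lit 5) (nat_lit 16) (nat_lit 4) (nat_lit 351) (nat_lit 320) (nat_lit 109)) (XT.lf (nat_lit 0) (nat_lit 418395840755) (nat_lit 76) (nat_lit 776114227681) (nat_lit 152) (nat_lit 745251327920) (nat_lit 14) (nat_lit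 5) (nat_lit 15) (nat_lit 5) (nat_lit 16) (nat_lit 4) (nat_lit 352) (nat_lit 320) (nat_lit 108))))) (XT.nd (nat_lit 38298) (nat_lit 0) (nat_lit 2584) (XT.nd (nat_lit 38142) (nat_lit 0) (nat_lit 2508) (XT.nd (nat_lit 156) (nat_lit 152) (nat_lit 0) (XT.lf (nat_lit 0) (nat_lit 1302176931705) (nat_lit 76) (nat_lit 317227898034) (nat_lit 152) (nat_lit 436407161623) (nat_lit 14) (nat_lit 5) (nat_lit 15) (nat_lit 5) (nat_lit 16) (nat_lit 4) (nat_lit 353) (nat_lit 320) (nat_lit 107)) (XT.lf (nat_lit 0) (nat_lit 286888230769) (nat_lit 152) (nat_lit 1316406865696) (nat_lit 76) (nat_lit 709327105931) (nat_lit 12) (nat_lit 5) (nat_lit 14) (nat_lit 5) (nat_lit 13) (nat_lit 4) (nat_lit 355) (nat_lit 320) (nat_lit 105))) (XT.nd (nat_lit 78) (nat_lit 0) (nat_lit 0) (XT.lf (nat_lit 0) (nat_lit 143837124036) (nat_lit 532) (nat_lit 39723596316) (nat_lit 532) (nat_lit 39723596316) (nat_lit 45) (nat_lit 3)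 (nat_lit 52) (nat_lit 3) (nat_lit 52) (nat_lit 5) (nat_lit 321) (nat_lit 321) (nat_lit 138)) (XT.lf (nat_lit 76) (nat_lit 132103683814) (nat_lit 0) (nat_lit 170254931338) (nat_lit 532) (nat_lit 161818570881) (nat_lit 46) (nat_lit 5) (nat_lit 45) (nat_lit 3) (nat_lit 52) (nat_lit 5) (nat_lit 322) (nat_lit 321) (nat_lit 137)))) (XT.nd (nat_lit 156) (nat_lit 0) (nat_lit 0) (XT.nd (nat_lit 78) (nat_lit 0) (nat_lit 0) (XT.lf (nat_lit 0) (nat_lit 321465130611) (nat_lit 456) (nat_lit 118999004254) (nat_lit 532) (nat_lit 42470496247) (nat_lit 46) (nat_lit 5) (nat_lit 52) (nat_lit 5) (nat_lit 53) (nat_lit 5) (nat_lit 323) (nat_lit 321) (nat_lit 136)) (XT.lf (nat_lit 76) (nat_lit 112317821361) (nat_lit 0) (nat_lit 236905770346) (nat_lit 532) (nat_lit 153399206217) (nat_lit 47) (nat_lit 5) (nat_lit 46) (nat_lit 5) (nat_lit 53) (nat_lit 5) (nat_lit 324) (nat_lit 321) (nat_lit 135))) (XT.nd (nat_lit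 78) (nat_lit 0) (nat_lit 76) (XT.lf (nat_lit 76) (nat_lit 368907553815) (nat_lit 0) (nat_lit 13548793261) (nat_lit 532) (nat_lit 141169381689) (nat_lit 47) (nat_lit 5) (nat_lit 46) (nat_lit 5) (nat_lit 53) (nat_lit 5) (nat_lit 325) (nat_lit 321) (nat_lit 134)) (XT.lf (nat_lit 76) (nat_lit 99202428003) (nat_lit 0) (nat_lit 327006722623) (nat_lit 532) (nat_lit 119470829295) (nat_lit 48) (nat_lit 5) (nat_lit 47) (nat_lit 5) (nat_lit 54) (nat_lit 5) (nat_lit 326) (nat_lit 321) (nat_lit 133))))))))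
noncomputable def xc123 : XT := (XT.nd (nat_lit 40560) (nat_lit 0) (nat_lit 0) (XT.nd (nat_lit 1248) (nat_lit 684) (nat_lit 0) (XT.nd (nat_lit 624) (nat_lit 684) (nat_lit 0) (XT.nd (nat_lit 312) (nat_lit 456) (nat_lit 0) (XT.nd (nat_lit 156) (nat_lit 304) (nat_lit 0) (XT.nd (nat_lit 78) (nat_lit 380) (nat_lit 0) (XT.lf (nat_lit 76) (nat_lit 381865172466) (nat_lit 0) (nat_lit 96170259705) (nat_lit 532) (nat_lit 91097278765) (nat_lit 48) (nat_lit 5) (nat_lit 47) (nat_lit 5) (nat_lit 54) (nat_lit 5) (nat_lit 327) (nat_lit 321) (nat_lit 132)) (XT.lf (nat_lit 0) (nat_lit 93682794744) (nat_lit 456) (nat_lit 446260929172) (nat_lit 532) (nat_lit 54043063961) (nat_lit 42) (nat_lit 5) (nat_lit 48) (nat_lit 5) (nat_lit 49) (nat_lit 5) (nat_lit 328) (nat_lit 321) (nat_lit 131))) (XT.nd (nat_lit 78) (nat_lit 304) (nat_lit 0) (XT.lf (nat_lit 0) (nat_lit 405129741721) (nat_lit 456) (nat_lit 209229833867)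 (nat_lit 532) (nat_lit 5865223713) (nat_lit 42) (nat_lit 5) (nat_lit 48) (nat_lit 5) (nat_lit 49) (nat_lit 5) (nat_lit 329) (nat_lit 321) (nat_lit 130)) (XT.lf (nat_lit 0) (nat_lit 47395822771) (nat_lit 304) (nat_lit 552845596680) (nat_lit 76) (nat_lit 47948532618) (nat_lit 38) (nat_lit 5) (nat_lit 42) (nat_lit 5) (nat_lit 39) (nat_lit 5) (nat_lit 330) (nat_lit 321) (nat_lit 129)))) (XT.nd (nat_lit 156) (nat_lit 228) (nat_lit 0) (XT.nd (nat_lit 78) (nat_lit 228) (nat_lit 0) (XT.lf (nat_lit 0) (nat_lit 116069237106) (nat_lit 304) (nat_lit 240809921805) (nat_lit 76) (nat_lit 320583502027) (nat_lit 38) (nat_lit 5) (nat_lit 42) (nat_lit 5) (nat_lit 39) (nat_lit 5) (nat_lit 331) (nat_lit 321) (nat_lit 128)) (XT.lf (nat_lit 0) (nat_lit 101253710004) (nat_lit 228) (nat_lit 91417952110) (nat_lit 304) (nat_lit 516210713440) (nat_lit 35) (nat_lit 5) (nat_lit 38) (nat_lit 5) (nat_lit 39) (nat_lit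 5) (nat_lit 332) (nat_lit 321) (nat_lit 127))) (XT.nd (nat_lit 78) (nat_lit 228) (nat_lit 0) (XT.lf (nat_lit 0) (nat_lit 286853945023) (nat_lit 304) (nat_lit 262778956018) (nat_lit 76) (nat_lit 192266633225) (nat_lit 35) (nat_lit 5) (nat_lit 39) (nat_lit 5) (nat_lit 36) (nat_lit 5) (nat_lit 333) (nat_lit 321) (nat_lit 126)) (XT.lf (nat_lit 0) (nat_lit 112933617804) (nat_lit 228) (nat_lit 280727726568) (nat_lit 304) (nat_lit 383489478633) (nat_lit 32) (nat_lit 5) (nat_lit 35) (nat_lit 5) (nat_lit 36) (nat_lit 5) (nat_lit 334) (nat_lit 321) (nat_lit 125))))) (XT.nd (nat_lit 312) (nat_lit 304) (nat_lit 0) (XT.nd (nat_lit 156) (nat_lit 228) (nat_lit 0) (XT.nd (nat_lit 78) (nat_lit 152) (nat_lit 0) (XT.lf (nat_lit 0) (nat_lit 516617824646) (nat_lit 304) (nat_lit 281419436350) (nat_lit 76) (nat_lit 16576594759) (nat_lit 32) (nat_lit 5) (nat_lit 36) (nat_lit 5) (nat_lit 33) (nat_lit 5) (nat_lit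 335) (nat_lit 321) (nat_lit 124)) (XT.lf (nat_lit 0) (nat_lit 131277542616) (nat_lit 152) (nat_lit 528582125026) (nat_lit 228) (nat_lit 194378355970) (nat_lit 30) (nat_lit 5) (nat_lit 32) (nat_lit 5) (nat_lit 33) (nat_lit 5) (nat_lit 336) (nat_lit 321) (nat_lit 123))) (XT.nd (nat_lit 78) (nat_lit 228) (nat_lit 0) (XT.lf (nat_lit 0) (nat_lit 592994836534) (nat_lit 152) (nat_lit 229260515213) (nat_lit 228) (nat_lit 74161213683) (nat_lit 30) (nat_lit 5) (nat_lit 32) (nat_lit 5) (nat_lit 33) (nat_lit 5) (nat_lit 337) (nat_lit 321) (nat_lit 122)) (XT.lf (nat_lit 0) (nat_lit 59036945484) (nat_lit 228) (nat_lit 787802480582) (nat_lit 76) (nat_lit 94530957059) (nat_lit 27) (nat_lit 5) (nat_lit 30) (nat_lit 5) (nat_lit 28) (nat_lit 5) (nat_lit 338) (nat_lit 321) (nat_lit 121)))) (XT.nd (nat_lit 156) (nat_lit 152) (nat_lit 0) (XT.nd (nat_lit 78) (nat_lit 152) (nat_lit 0) (XT.lf (nat_lit 0) (nat_lit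 213350703316) (nat_lit 228) (nat_lit 332980834775) (nat_lit 76) (nat_lit 442277556725) (nat_lit 27) (nat_lit 5) (nat_lit 30) (nat_lit 5) (nat_lit 28) (nat_lit 5) (nat_lit 339) (nat_lit 321) (nat_lit 120)) (XT.lf (nat_lit 0) (nat_lit 166558456465) (nat_lit 152) (nat_lit 217456829618) (nat_lit 228) (nat_lit 655291159434) (nat_lit 25) (nat_lit 5) (nat_lit 27) (nat_lit 5) (nat_lit 28) (nat_lit 5) (nat_lit 340) (nat_lit 321) (nat_lit 119))) (XT.nd (nat_lit 78) (nat_lit 152) (nat_lit 0) (XT.lf (nat_lit 0) (nat_lit 580986144552) (nat_lit 228) (nat_lit 371882283602) (nat_lit 76) (nat_lit 140178907414) (nat_lit 25) (nat_lit 5) (nat_lit 28) (nat_lit 5) (nat_lit 26) (nat_lit 5) (nat_lit 341) (nat_lit 321) (nat_lit 118)) (XT.lf (nat_lit 0) (nat_lit 172009022890) (nat_lit 152) (nat_lit 631490689803) (nat_lit 228) (nat_lit 346804980866) (nat_lit 23) (nat_lit 5) (nat_lit 25) (nat_lit 5) (nat_lit 26)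 (nat_lit 5) (nat_lit 342) (nat_lit 321) (nat_lit 117)))))) (XT.nd (nat_lit 624) (nat_lit 228) (nat_lit 0) (XT.nd (nat_lit 312) (nat_lit 152) (nat_lit 0) (XT.nd (nat_lit 156) (nat_lit 152) (nat_lit 0) (XT.nd (nat_lit 78) (nat_lit 152) (nat_lit 0) (XT.lf (nat_lit 0) (nat_lit 780560895224) (nat_lit 152) (nat_lit 273421382620) (nat_lit 228) (nat_lit 157346929437) (nat_lit 23) (nat_lit 5) (nat_lit 25) (nat_lit 5) (nat_lit 26) (nat_lit 5) (nat_lit 343) (nat_lit 321) (nat_lit 116)) (XT.lf (nat_lit 0) (nat_lit 51798364247) (nat_lit 152) (nat_lit 1111861485733) (nat_lit 76) (nat_lit 112933279002) (nat_lit 21) (nat_lit 5) (nat_lit 23) (nat_lit 5) (nat_lit 22) (nat_lit 5) (nat_lit 344) (nat_lit 321) (nat_lit 115))) (XT.nd (nat_lit 78) (nat_lit 152) (nat_lit 0) (XT.lf (nat_lit 0) (nat_lit 288360196272) (nat_lit 152) (nat_lit 525260878276) (nat_lit 76) (nat_lit 531595276348) (nat_lit 21) (nat_lit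 5) (nat_lit 23) (nat_lit 5) (nat_lit 22) (nat_lit 5) (nat_lit 345) (nat_lit 321) (nat_lit 114)) (XT.lf (nat_lit 0) (nat_lit 113968954064) (nat_lit 152) (nat_lit 432618969066) (nat_lit 228) (nat_lit 872522231583) (nat_lit 19) (nat_lit 5) (nat_lit 21) (nat_lit 5) (nat_lit 22) (nat_lit 5) (nat_lit 346) (nat_lit 321) (nat_lit 113)))) (XT.nd (nat_lit 156) (nat_lit 76) (nat_lit 0) (XT.nd (nat_lit 78) (nat_lit 76) (nat_lit 0) (XT.lf (nat_lit 0) (nat_lit 834209212503) (nat_lit 152) (nat_lit 5626211364) (nat_lit 228) (nat_lit 657931114521) (nat_lit 19) (nat_lit 5) (nat_lit 21) (nat_lit 5) (nat_lit 22) (nat_lit 5) (nat_lit 347) (nat_lit 321) (nat_lit 112)) (XT.lf (nat_lit 0) (nat_lit 19366634247) (nat_lit 76) (nat_lit 1148597261827) (nat_lit 152) (nat_lit 413837842980) (nat_lit 18) (nat_lit 5) (nat_lit 19) (nat_lit 5) (nat_lit 20) (nat_lit 4) (nat_lit 348) (nat_lit 321) (nat_lit 111))) (XT.nd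 (nat_lit 78) (nat_lit 76) (nat_lit 0) (XT.lf (nat_lit 0) (nat_lit 794507762350) (nat_lit 76) (nat_lit 746120145835) (nat_lit 152) (nat_lit 130469026627) (nat_lit 18) (nat_lit 5) (nat_lit 19) (nat_lit 5) (nat_lit 20) (nat_lit 4) (nat_lit 349) (nat_lit 321) (nat_lit 110)) (XT.lf (nat_lit 0) (nat_lit 166786601350) (nat_lit 152) (nat_lit 140098022146) (nat_lit 76) (nat_lit 1460313327601) (nat_lit 17) (nat_lit 5) (nat_lit 19) (nat_lit 5) (nat_lit 18) (nat_lit 5) (nat_lit 350) (nat_lit 321) (nat_lit 109))))) (XT.nd (nat_lit 38376) (nat_lit 0) (nat_lit 2356) (XT.nd (nat_lit 156) (nat_lit 76) (nat_lit 0) (XT.nd (nat_lit 78) (nat_lit 0) (nat_lit 0) (XT.lf (nat_lit 0) (nat_lit 501823191075) (nat_lit 228) (nat_lit 1187687685849) (nat_lit 76) (nat_lit 179521129076) (nat_lit 15) (nat_lit 5) (nat_lit 18) (nat_lit 5) (nat_lit 16) (nat_lit 4) (nat_lit 351) (nat_lit 321) (nat_lit 108)) (XT.lf (nat_lit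 0) (nat_lit 875563753707) (nat_lit 228) (nat_lit 410307328134) (nat_lit 76) (nat_lit 692189619803) (nat_lit 15) (nat_lit 5) (nat_lit 18) (nat_lit 5) (nat_lit 16) (nat_lit 4) (nat_lit 352) (nat_lit 321) (nat_lit 107))) (XT.nd (nat_lit 78) (nat_lit 0) (nat_lit 0) (XT.lf (nat_lit 0) (nat_lit 451867701280) (nat_lit 76) (nat_lit 838203283699) (nat_lit 152) (nat_lit 804871314078) (nat_lit 14) (nat_lit 5) (nat_lit 15) (nat_lit 5) (nat_lit 16) (nat_lit 4) (nat_lit 353) (nat_lit 321) (nat_lit 106)) (XT.lf (nat_lit 0) (nat_lit 1406351265190) (nat_lit 76) (nat_lit 342606053768) (nat_lit 152) (nat_lit 471319623372) (nat_lit 14) (nat_lit 5) (nat_lit 15) (nat_lit 5) (nat_lit 16) (nat_lit 4) (nat_lit 354) (nat_lit 321) (nat_lit 105)))) (XT.nd (nat_lit 156) (nat_lit 0) (nat_lit 76) (XT.nd (nat_lit 78) (nat_lit 0) (nat_lit 0) (XT.lf (nat_lit 0) (nat_lit 155344387120) (nat_lit 532) (nat_lit 42901325293)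 (nat_lit 532) (nat_lit 42901325293) (nat_lit 45) (nat_lit 3) (nat_lit 52) (nat_lit 3) (nat_lit 52) (nat_lit 5) (nat_lit 322) (nat_lit 322) (nat_lit 136)) (XT.lf (nat_lit 76) (nat_lit 142672287939) (nat_lit 0) (nat_lit 183875566757) (nat_lit 532) (nat_lit 174763460632) (nat_lit 46) (nat_lit 5) (nat_lit 45) (nat_lit 3) (nat_lit 52) (nat_lit 5) (nat_lit 323) (nat_lit 322) (nat_lit 135))) (XT.nd (nat_lit 78) (nat_lit 0) (nat_lit 0) (XT.lf (nat_lit 0) (nat_lit 347182845261) (nat_lit 456) (nat_lit 128518590518) (nat_lit 532) (nat_lit 45867924040) (nat_lit 46) (nat_lit 5) (nat_lit 52) (nat_lit 5) (nat_lit 53) (nat_lit 5) (nat_lit 324) (nat_lit 322) (nat_lit 134)) (XT.lf (nat_lit 76) (nat_lit 121303572689) (nat_lit 0) (nat_lit 255858381039) (nat_lit 532) (nat_lit 165670628716) (nat_lit 47) (nat_lit 5) (nat_lit 46) (nat_lit 5) (nat_lit 53) (nat_lit 5) (nat_lit 325) (nat_lit 322) (nat_lit 133)))))))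 (XT.nd (nat_lit 1248) (nat_lit 836) (nat_lit 0) (XT.nd (nat_lit 624) (nat_lit 760) (nat_lit 0) (XT.nd (nat_lit 312) (nat_lit 532) (nat_lit 0) (XT.nd (nat_lit 156) (nat_lit 304) (nat_lit 0) (XT.nd (nat_lit 78) (nat_lit 0) (nat_lit 76) (XT.lf (nat_lit 76) (nat_lit 398420459619) (nat_lit 0) (nat_lit 14632834745) (nat_lit 532) (nat_lit 152462456300) (nat_lit 47) (nat_lit 5) (nat_lit 46) (nat_lit 5) (nat_lit 53) (nat_lit 5) (nat_lit 326) (nat_lit 322) (nat_lit 132)) (XT.lf (nat_lit 76) (nat_lit 107138954825) (nat_lit 0) (nat_lit 353167339741) (nat_lit 532) (nat_lit 129028049649) (nat_lit 48) (nat_lit 5) (nat_lit 47) (nat_lit 5) (nat_lit 54) (nat_lit 5) (nat_lit 327) (nat_lit 322) (nat_lit 131))) (XT.nd (nat_lit 78) (nat_lit 380) (nat_lit 0) (XT.lf (nat_lit 76) (nat_lit 412414694209) (nat_lit 0) (nat_lit 103863953916) (nat_lit 532) (nat_lit 98384648113) (nat_lit 48) (nat_lit 5) (nat_lit 47)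 (nat_lit 5) (nat_lit 54) (nat_lit 5) (nat_lit 328) (nat_lit 322) (nat_lit 130)) (XT.lf (nat_lit 0) (nat_lit 101177750970) (nat_lit 456) (nat_lit 481961830355) (nat_lit 532) (nat_lit 58366119840) (nat_lit 42) (nat_lit 5) (nat_lit 48) (nat_lit 5) (nat_lit 49) (nat_lit 5) (nat_lit 329) (nat_lit 322) (nat_lit 129)))) (XT.nd (nat_lit 156) (nat_lit 228) (nat_lit 0) (XT.nd (nat_lit 78) (nat_lit 304) (nat_lit 0) (XT.lf (nat_lit 0) (nat_lit 437540429064) (nat_lit 456) (nat_lit 225968245437) (nat_lit 532) (nat_lit 6334081204) (nat_lit 42) (nat_lit 5) (nat_lit 48) (nat_lit 5) (nat_lit 49) (nat_lit 5) (nat_lit 330) (nat_lit 322) (nat_lit 128)) (XT.lf (nat_lit 0) (nat_lit 51187813125) (nat_lit 304) (nat_lit 597072898910) (nat_lit 76) (nat_lit 51784409456) (nat_lit 38) (nat_lit 5) (nat_lit 42) (nat_lit 5) (nat_lit 39) (nat_lit 5) (nat_lit 331) (nat_lit 322) (nat_lit 127))) (XT.nd (nat_lit 78) (nat_lit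 228) (nat_lit 0) (XT.lf (nat_lit 0) (nat_lit 125355076568) (nat_lit 304) (nat_lit 260074395638) (nat_lit 76) (nat_lit 346230176845) (nat_lit 38) (nat_lit 5) (nat_lit 42) (nat_lit 5) (nat_lit 39) (nat_lit 5) (nat_lit 332) (nat_lit 322) (nat_lit 126)) (XT.lf (nat_lit 0) (nat_lit 109354318617) (nat_lit 228) (nat_lit 98731362200) (nat_lit 304) (nat_lit 557507261254) (nat_lit 35) (nat_lit 5) (nat_lit 38) (nat_lit 5) (nat_lit 39) (nat_lit 5) (nat_lit 333) (nat_lit 322) (nat_lit 125))))) (XT.nd (nat_lit 312) (nat_lit 380) (nat_lit 0) (XT.nd (nat_lit 156) (nat_lit 152) (nat_lit 0) (XT.nd (nat_lit 78) (nat_lit 228) (nat_lit 0) (XT.lf (nat_lit 0) (nat_lit 309802525773) (nat_lit 304) (nat_lit 283800962579) (nat_lit 76) (nat_lit 207647986823) (nat_lit 35) (nat_lit 5) (nat_lit 39) (nat_lit 5) (nat_lit 36) (nat_lit 5) (nat_lit 334) (nat_lit 322) (nat_lit 124)) (XT.lf (nat_lit 0) (nat_lit 121968609303)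 (nat_lit 228) (nat_lit 303185895391) (nat_lit 304) (nat_lit 414168363354) (nat_lit 32) (nat_lit 5) (nat_lit 35) (nat_lit 5) (nat_lit 36) (nat_lit 5) (nat_lit 335) (nat_lit 322) (nat_lit 123))) (XT.nd (nat_lit 78) (nat_lit 152) (nat_lit 0) (XT.lf (nat_lit 0) (nat_lit 557947485764) (nat_lit 304) (nat_lit 303932693402) (nat_lit 76) (nat_lit 17902765706) (nat_lit 32) (nat_lit 5) (nat_lit 36) (nat_lit 5) (nat_lit 33) (nat_lit 5) (nat_lit 336) (nat_lit 322) (nat_lit 122)) (XT.lf (nat_lit 0) (nat_lit 141780036341) (nat_lit 152) (nat_lit 570868629422) (nat_lit 228) (nat_lit 209928381268) (nat_lit 30) (nat_lit 5) (nat_lit 32) (nat_lit 5) (nat_lit 33) (nat_lit 5) (nat_lit 337) (nat_lit 322) (nat_lit 121)))) (XT.nd (nat_lit 156) (nat_lit 152) (nat_lit 0) (XT.nd (nat_lit 78) (nat_lit 228) (nat_lit 0) (XT.lf (nat_lit 0) (nat_lit 640434692267) (nat_lit 152) (nat_lit 247601295684) (nat_lit 228) (nat_lit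 80093885612) (nat_lit 30) (nat_lit 5) (nat_lit 32) (nat_lit 5) (nat_lit 33) (nat_lit 5) (nat_lit 338) (nat_lit 322) (nat_lit 120)) (XT.lf (nat_lit 0) (nat_lit 63760107410) (nat_lit 228) (nat_lit 850826390526) (nat_lit 76) (nat_lit 102093498947) (nat_lit 27) (nat_lit 5) (nat_lit 30) (nat_lit 5) (nat_lit 28) (nat_lit 5) (nat_lit 339) (nat_lit 322) (nat_lit 119))) (XT.nd (nat_lit 78) (nat_lit 152) (nat_lit 0) (XT.lf (nat_lit 0) (nat_lit 230418950587) (nat_lit 228) (nat_lit 359619034425) (nat_lit 76) (nat_lit 477659821747) (nat_lit 27) (nat_lit 5) (nat_lit 30) (nat_lit 5) (nat_lit 28) (nat_lit 5) (nat_lit 340) (nat_lit 322) (nat_lit 118)) (XT.lf (nat_lit 0) (nat_lit 179883393352) (nat_lit 152) (nat_lit 234853298738) (nat_lit 228) (nat_lit 707714254084) (nat_lit 25) (nat_lit 5) (nat_lit 27) (nat_lit 5) (nat_lit 28) (nat_lit 5) (nat_lit 341) (nat_lit 322) (nat_lit 117)))))) (XT.nd (nat_lit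 624) (nat_lit 304) (nat_lit 0) (XT.nd (nat_lit 312) (nat_lit 228) (nat_lit 0) (XT.nd (nat_lit 156) (nat_lit 152) (nat_lit 0) (XT.nd (nat_lit 78) (nat_lit 152) (nat_lit 0) (XT.lf (nat_lit 0) (nat_lit 627465207391) (nat_lit 228) (nat_lit 401632613053) (nat_lit 76) (nat_lit 151393287957) (nat_lit 25) (nat_lit 5) (nat_lit 28) (nat_lit 5) (nat_lit 26) (nat_lit 5) (nat_lit 342) (nat_lit 322) (nat_lit 116)) (XT.lf (nat_lit 0) (nat_lit 185769991548) (nat_lit 152) (nat_lit 682009862685) (nat_lit 228) (nat_lit 374549201362) (nat_lit 23) (nat_lit 5) (nat_lit 25) (nat_lit 5) (nat_lit 26) (nat_lit 5) (nat_lit 343) (nat_lit 322) (nat_lit 115))) (XT.nd (nat_lit 78) (nat_lit 152) (nat_lit 0) (XT.lf (nat_lit 0) (nat_lit 843005995385) (nat_lit 152) (nat_lit 295295017024) (nat_lit 228) (nat_lit 169934519002) (nat_lit 23) (nat_lit 5) (nat_lit 25) (nat_lit 5) (nat_lit 26) (nat_lit 5) (nat_lit 344) (nat_lit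 322) (nat_lit 114)) (XT.lf (nat_lit 0) (nat_lit 55942385831) (nat_lit 152) (nat_lit 1200810163228) (nat_lit 76) (nat_lit 121968017818) (nat_lit 21) (nat_lit 5) (nat_lit 23) (nat_lit 5) (nat_lit 22) (nat_lit 5) (nat_lit 345) (nat_lit 322) (nat_lit 113)))) (XT.nd (nat_lit 156) (nat_lit 76) (nat_lit 0) (XT.nd (nat_lit 78) (nat_lit 152) (nat_lit 0) (XT.lf (nat_lit 0) (nat_lit 311429153125) (nat_lit 152) (nat_lit 567281525053) (nat_lit 76) (nat_lit 574122969286) (nat_lit 21) (nat_lit 5) (nat_lit 23) (nat_lit 5) (nat_lit 22) (nat_lit 5) (nat_lit 346) (nat_lit 322) (nat_lit 112)) (XT.lf (nat_lit 0) (nat_lit 123086688217) (nat_lit 152) (nat_lit 467228404699) (nat_lit 228) (nat_lit 942323863105) (nat_lit 19) (nat_lit 5) (nat_lit 21) (nat_lit 5) (nat_lit 22) (nat_lit 5) (nat_lit 347) (nat_lit 322) (nat_lit 111))) (XT.nd (nat_lit 78) (nat_lit 76) (nat_lit 0) (XT.lf (nat_lit 0) (nat_lit 900946151196)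 (nat_lit 152) (nat_lit 6076232446) (nat_lit 228) (nat_lit 710565467567) (nat_lit 19) (nat_lit 5) (nat_lit 21) (nat_lit 5) (nat_lit 22) (nat_lit 5) (nat_lit 348) (nat_lit 322) (nat_lit 110)) (XT.lf (nat_lit 0) (nat_lit 20916169786) (nat_lit 76) (nat_lit 1240484961130) (nat_lit 152) (nat_lit 446944737242) (nat_lit 18) (nat_lit 5) (nat_lit 19) (nat_lit 5) (nat_lit 20) (nat_lit 4) (nat_lit 349) (nat_lit 322) (nat_lit 109))))) (XT.nd (nat_lit 38532) (nat_lit 0) (nat_lit 2356) (XT.nd (nat_lit 156) (nat_lit 228) (nat_lit 0) (XT.nd (nat_lit 78) (nat_lit 76) (nat_lit 0) (XT.lf (nat_lit 0) (nat_lit 858068572967) (nat_lit 76) (nat_lit 805809681907) (nat_lit 152) (nat_lit 140906425446) (nat_lit 18) (nat_lit 5) (nat_lit 19) (nat_lit 5) (nat_lit 20) (nat_lit 4) (nat_lit 350) (nat_lit 322) (nat_lit 108)) (XT.lf (nat_lit 0) (nat_lit 180129637924) (nat_lit 152) (nat_lit 151305682490) (nat_lit 76) (nat_lit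 1577138457960) (nat_lit 17) (nat_lit 5) (nat_lit 19) (nat_lit 5) (nat_lit 18) (nat_lit 5) (nat_lit 351) (nat_lit 322) (nat_lit 107))) (XT.nd (nat_lit 156) (nat_lit 76) (nat_lit 0) (XT.lf (nat_lit 0) (nat_lit 541969152780) (nat_lit 228) (nat_lit 1282702517121) (nat_lit 76) (nat_lit 193882887943) (nat_lit 15) (nat_lit 5) (nat_lit 18) (nat_lit 5) (nat_lit 16) (nat_lit 4) (nat_lit 352) (nat_lit 322) (nat_lit 106)) (XT.lf (nat_lit 0) (nat_lit 488017283076) (nat_lit 76) (nat_lit 905259475923) (nat_lit 152) (nat_lit 869260916258) (nat_lit 14) (nat_lit 5) (nat_lit 15) (nat_lit 5) (nat_lit 16) (nat_lit 4) (nat_lit 354) (nat_lit 322) (nat_lit 104)))) (XT.nd (nat_lit 156) (nat_lit 0) (nat_lit 76) (XT.nd (nat_lit 78) (nat_lit 0) (nat_lit 0) (XT.lf (nat_lit 0) (nat_lit 167772189427) (nat_lit 532) (nat_lit 46333295232) (nat_lit 532) (nat_lit 46333295232) (nat_lit 45) (nat_lit 3) (nat_lit 52) (nat_lit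 3) (nat_lit 52) (nat_lit 5) (nat_lit 323) (nat_lit 323) (nat_lit 134)) (XT.lf (nat_lit 76) (nat_lit 154086336252) (nat_lit 0) (nat_lit 198585818640) (nat_lit 532) (nat_lit 188744026577) (nat_lit 46) (nat_lit 5) (nat_lit 45) (nat_lit 3) (nat_lit 52) (nat_lit 5) (nat_lit 324) (nat_lit 323) (nat_lit 133))) (XT.nd (nat_lit 78) (nat_lit 0) (nat_lit 0) (XT.lf (nat_lit 0) (nat_lit 374957905154) (nat_lit 456) (nat_lit 138799791342) (nat_lit 532) (nat_lit 49537176287) (nat_lit 46) (nat_lit 5) (nat_lit 52) (nat_lit 5) (nat_lit 53) (nat_lit 5) (nat_lit 325) (nat_lit 323) (nat_lit 132)) (XT.lf (nat_lit 76) (nat_lit 131008137670) (nat_lit 0) (nat_lit 276327179322) (nat_lit 532) (nat_lit 178923838342) (nat_lit 47) (nat_lit 5) (nat_lit 46) (nat_lit 5) (nat_lit 53) (nat_lit 5) (nat_lit 326) (nat_lit 323) (nat_lit 131))))))))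
noncomputable def xc124 : XT := (XT.nd (nat_lit 40872) (nat_lit 0) (nat_lit 0) (XT.nd (nat_lit 1170) (nat_lit 684) (nat_lit 0) (XT.nd (nat_lit 546) (nat_lit 836) (nat_lit 0) (XT.nd (nat_lit 234) (nat_lit 608) (nat_lit 0) (XT.nd (nat_lit 78) (nat_lit 0) (nat_lit 76) (XT.lf (nat_lit 76) (nat_lit 430294354876) (nat_lit 0) (nat_lit 15803579857) (nat_lit 532) (nat_lit 164659044776) (nat_lit 47) (nat_lit 5) (nat_lit 46) (nat_lit 5) (nat_lit 53) (nat_lit 5) (nat_lit 327) (nat_lit 323) (nat_lit 130)) (XT.nd (nat_lit 78) (nat_lit 0) (nat_lit 0) (XT.lf (nat_lit 76) (nat_lit 115710356346) (nat_lit 0) (nat_lit 381420794915) (nat_lit 532) (nat_lit 139349911256) (nat_lit 48) (nat_lit 5) (nat_lit 47) (nat_lit 5) (nat_lit 54) (nat_lit 5) (nat_lit 328) (nat_lit 323) (nat_lit 129)) (XT.lf (nat_lit 76) (nat_lit 445408133760) (nat_lit 0) (nat_lit 112173133186) (nat_lit 532) (nat_lit 106255065921) (nat_lit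 48) (nat_lit 5) (nat_lit 47) (nat_lit 5) (nat_lit 54) (nat_lit 5) (nat_lit 329) (nat_lit 323) (nat_lit 128)))) (XT.nd (nat_lit 156) (nat_lit 304) (nat_lit 0) (XT.nd (nat_lit 78) (nat_lit 0) (nat_lit 0) (XT.lf (nat_lit 0) (nat_lit 109272256237) (nat_lit 456) (nat_lit 520518799802) (nat_lit 532) (nat_lit 63035075718) (nat_lit 42) (nat_lit 5) (nat_lit 48) (nat_lit 5) (nat_lit 49) (nat_lit 5) (nat_lit 330) (nat_lit 323) (nat_lit 127)) (XT.lf (nat_lit 0) (nat_lit 472543927454) (nat_lit 456) (nat_lit 244045726385) (nat_lit 532) (nat_lit 6840498711) (nat_lit 42) (nat_lit 5) (nat_lit 48) (nat_lit 5) (nat_lit 49) (nat_lit 5) (nat_lit 331) (nat_lit 323) (nat_lit 126))) (XT.nd (nat_lit 78) (nat_lit 0) (nat_lit 0) (XT.lf (nat_lit 0) (nat_lit 55283116408) (nat_lit 304) (nat_lit 644838434608) (nat_lit 76) (nat_lit 55927157264) (nat_lit 38) (nat_lit 5) (nat_lit 42) (nat_lit 5) (nat_lit 39) (nat_lit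 5) (nat_lit 332) (nat_lit 323) (nat_lit 125)) (XT.lf (nat_lit 0) (nat_lit 135383740317) (nat_lit 304) (nat_lit 280880073016) (nat_lit 76) (nat_lit 373928586411) (nat_lit 38) (nat_lit 5) (nat_lit 42) (nat_lit 5) (nat_lit 39) (nat_lit 5) (nat_lit 333) (nat_lit 323) (nat_lit 124))))) (XT.nd (nat_lit 312) (nat_lit 380) (nat_lit 0) (XT.nd (nat_lit 156) (nat_lit 228) (nat_lit 0) (XT.nd (nat_lit 78) (nat_lit 0) (nat_lit 0) (XT.lf (nat_lit 0) (nat_lit 118102931436) (nat_lit 228) (nat_lit 106629848816) (nat_lit 304) (nat_lit 602107577012) (nat_lit 35) (nat_lit 5) (nat_lit 38) (nat_lit 5) (nat_lit 39) (nat_lit 5) (nat_lit 334) (nat_lit 323) (nat_lit 123)) (XT.lf (nat_lit 0) (nat_lit 334586955157) (nat_lit 304) (nat_lit 306504773879) (nat_lit 76) (nat_lit 224259845437) (nat_lit 35) (nat_lit 5) (nat_lit 39) (nat_lit 5) (nat_lit 36) (nat_lit 5) (nat_lit 335) (nat_lit 323) (nat_lit 122))) (XT.nd (nat_lit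 78) (nat_lit 0) (nat_lit 0) (XT.lf (nat_lit 0) (nat_lit 131726357027) (nat_lit 228) (nat_lit 327440724754) (nat_lit 304) (nat_lit 447301597882) (nat_lit 32) (nat_lit 5) (nat_lit 35) (nat_lit 5) (nat_lit 36) (nat_lit 5) (nat_lit 336) (nat_lit 323) (nat_lit 121)) (XT.lf (nat_lit 0) (nat_lit 602583486225) (nat_lit 304) (nat_lit 328247053510) (nat_lit 76) (nat_lit 19335024142) (nat_lit 32) (nat_lit 5) (nat_lit 36) (nat_lit 5) (nat_lit 33) (nat_lit 5) (nat_lit 337) (nat_lit 323) (nat_lit 120)))) (XT.nd (nat_lit 156) (nat_lit 228) (nat_lit 0) (XT.nd (nat_lit 78) (nat_lit 0) (nat_lit 0) (XT.lf (nat_lit 0) (nat_lit 153122688147) (nat_lit 152) (nat_lit 616538063530) (nat_lit 228) (nat_lit 226722443282) (nat_lit 30) (nat_lit 5) (nat_lit 32) (nat_lit 5) (nat_lit 33) (nat_lit 5) (nat_lit 338) (nat_lit 323) (nat_lit 119)) (XT.lf (nat_lit 0) (nat_lit 691669698111) (nat_lit 152) (nat_lit 267409347259)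 (nat_lit 228) (nat_lit 86501203417) (nat_lit 30) (nat_lit 5) (nat_lit 32) (nat_lit 5) (nat_lit 33) (nat_lit 5) (nat_lit 339) (nat_lit 323) (nat_lit 118))) (XT.nd (nat_lit 78) (nat_lit 0) (nat_lit 0) (XT.lf (nat_lit 0) (nat_lit 68861092860) (nat_lit 228) (nat_lit 918892254422) (nat_lit 76) (nat_lit 110261034866) (nat_lit 27) (nat_lit 5) (nat_lit 30) (nat_lit 5) (nat_lit 28) (nat_lit 5) (nat_lit 340) (nat_lit 323) (nat_lit 117)) (XT.lf (nat_lit 0) (nat_lit 248852630392) (nat_lit 228) (nat_lit 388388328156) (nat_lit 76) (nat_lit 515872659342) (nat_lit 27) (nat_lit 5) (nat_lit 30) (nat_lit 5) (nat_lit 28) (nat_lit 5) (nat_lit 341) (nat_lit 323) (nat_lit 116)))))) (XT.nd (nat_lit 624) (nat_lit 76) (nat_lit 0) (XT.nd (nat_lit 312) (nat_lit 304) (nat_lit 0) (XT.nd (nat_lit 156) (nat_lit 152) (nat_lit 0) (XT.nd (nat_lit 78) (nat_lit 0) (nat_lit 0) (XT.lf (nat_lit 0) (nat_lit 194274288046) (nat_lit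 152) (nat_lit 253641496407) (nat_lit 228) (nat_lit 764331224569) (nat_lit 25) (nat_lit 5) (nat_lit 27) (nat_lit 5) (nat_lit 28) (nat_lit 5) (nat_lit 342) (nat_lit 323) (nat_lit 115)) (XT.lf (nat_lit 0) (nat_lit 677662570824) (nat_lit 228) (nat_lit 433763004986) (nat_lit 76) (nat_lit 163504809250) (nat_lit 25) (nat_lit 5) (nat_lit 28) (nat_lit 5) (nat_lit 26) (nat_lit 5) (nat_lit 343) (nat_lit 323) (nat_lit 114))) (XT.nd (nat_lit 78) (nat_lit 0) (nat_lit 0) (XT.lf (nat_lit 0) (nat_lit 200631802486) (nat_lit 152) (nat_lit 736570581139) (nat_lit 228) (nat_lit 404512984887) (nat_lit 23) (nat_lit 5) (nat_lit 25) (nat_lit 5) (nat_lit 26) (nat_lit 5) (nat_lit 344) (nat_lit 323) (nat_lit 113)) (XT.lf (nat_lit 0) (nat_lit 910446670955) (nat_lit 152) (nat_lit 318918553052) (nat_lit 228) (nat_lit 183529139240) (nat_lit 23) (nat_lit 5) (nat_lit 25) (nat_lit 5) (nat_lit 26) (nat_lit 5) (nat_lit 345)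 (nat_lit 323) (nat_lit 112)))) (XT.nd (nat_lit 156) (nat_lit 152) (nat_lit 0) (XT.nd (nat_lit 78) (nat_lit 0) (nat_lit 0) (XT.lf (nat_lit 0) (nat_lit 60417907393) (nat_lit 152) (nat_lit 1296874769355) (nat_lit 76) (nat_lit 131725524828) (nat_lit 21) (nat_lit 5) (nat_lit 23) (nat_lit 5) (nat_lit 22) (nat_lit 5) (nat_lit 346) (nat_lit 323) (nat_lit 111)) (XT.lf (nat_lit 0) (nat_lit 336343606390) (nat_lit 152) (nat_lit 612663855455) (nat_lit 76) (nat_lit 620052867555) (nat_lit 21) (nat_lit 5) (nat_lit 23) (nat_lit 5) (nat_lit 22) (nat_lit 5) (nat_lit 347) (nat_lit 323) (nat_lit 110))) (XT.nd (nat_lit 78) (nat_lit 0) (nat_lit 0) (XT.lf (nat_lit 0) (nat_lit 132933810026) (nat_lit 152) (nat_lit 504606606865) (nat_lit 228) (nat_lit 1017709646120) (nat_lit 19) (nat_lit 5) (nat_lit 21) (nat_lit 5) (nat_lit 22) (nat_lit 5) (nat_lit 348) (nat_lit 323) (nat_lit 109)) (XT.lf (nat_lit 0) (nat_lit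 973022016210) (nat_lit 152) (nat_lit 6562266033) (nat_lit 228) (nat_lit 767410588275) (nat_lit 19) (nat_lit 5) (nat_lit 21) (nat_lit 5) (nat_lit 22) (nat_lit 5) (nat_lit 349) (nat_lit 323) (nat_lit 108))))) (XT.nd (nat_lit 38766) (nat_lit 0) (nat_lit 2128) (XT.nd (nat_lit 38610) (nat_lit 0) (nat_lit 2052) (XT.nd (nat_lit 78) (nat_lit 0) (nat_lit 0) (XT.lf (nat_lit 0) (nat_lit 22589638951) (nat_lit 76) (nat_lit 1339723688025) (nat_lit 152) (nat_lit 482700202044) (nat_lit 18) (nat_lit 5) (nat_lit 19) (nat_lit 5) (nat_lit 20) (nat_lit 4) (nat_lit 350) (nat_lit 323) (nat_lit 107)) (XT.lf (nat_lit 0) (nat_lit 926714221381) (nat_lit 76) (nat_lit 870274391648) (nat_lit 152) (nat_lit 152178833762) (nat_lit 18) (nat_lit 5) (nat_lit 19) (nat_lit 5) (nat_lit 20) (nat_lit 4) (nat_lit 351) (nat_lit 323) (nat_lit 106))) (XT.nd (nat_lit 78) (nat_lit 0) (nat_lit 0) (XT.lf (nat_lit 0) (nat_lit 181194180063)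 (nat_lit 532) (nat_lit 50039842181) (nat_lit 532) (nat_lit 50039842181) (nat_lit 45) (nat_lit 3) (nat_lit 52) (nat_lit 3) (nat_lit 52) (nat_lit 5) (nat_lit 324) (nat_lit 324) (nat_lit 132)) (XT.lf (nat_lit 76) (nat_lit 166413470586) (nat_lit 0) (nat_lit 214472861208) (nat_lit 532) (nat_lit 203843110685) (nat_lit 46) (nat_lit 5) (nat_lit 45) (nat_lit 3) (nat_lit 52) (nat_lit 5) (nat_lit 325) (nat_lit 324) (nat_lit 131)))) (XT.nd (nat_lit 156) (nat_lit 0) (nat_lit 0) (XT.nd (nat_lit 78) (nat_lit 0) (nat_lit 0) (XT.lf (nat_lit 0) (nat_lit 404954908169) (nat_lit 456) (nat_lit 149903529094) (nat_lit 532) (nat_lit 53499994631) (nat_lit 46) (nat_lit 5) (nat_lit 52) (nat_lit 5) (nat_lit 53) (nat_lit 5) (nat_lit 326) (nat_lit 324) (nat_lit 130)) (XT.lf (nat_lit 76) (nat_lit 141489028023) (nat_lit 0) (nat_lit 298433463236) (nat_lit 532) (nat_lit 193237367606) (nat_lit 47) (nat_lit 5) (nat_lit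 46) (nat_lit 5) (nat_lit 53) (nat_lit 5) (nat_lit 327) (nat_lit 324) (nat_lit 129))) (XT.nd (nat_lit 78) (nat_lit 0) (nat_lit 76) (XT.lf (nat_lit 76) (nat_lit 464718124877) (nat_lit 0) (nat_lit 17067967697) (nat_lit 532) (nat_lit 177831418539) (nat_lit 47) (nat_lit 5) (nat_lit 46) (nat_lit 5) (nat_lit 53) (nat_lit 5) (nat_lit 328) (nat_lit 324) (nat_lit 128)) (XT.lf (nat_lit 76) (nat_lit 124967429312) (nat_lit 0) (nat_lit 411934516802) (nat_lit 532) (nat_lit 150497576341) (nat_lit 48) (nat_lit 5) (nat_lit 47) (nat_lit 5) (nat_lit 54) (nat_lit 5) (nat_lit 329) (nat_lit 324) (nat_lit 127))))))) (XT.nd (nat_lit 1248) (nat_lit 380) (nat_lit 0) (XT.nd (nat_lit 624) (nat_lit 684) (nat_lit 0) (XT.nd (nat_lit 312) (nat_lit 456) (nat_lit 0) (XT.nd (nat_lit 156) (nat_lit 304) (nat_lit 0) (XT.nd (nat_lit 78) (nat_lit 380) (nat_lit 0) (XT.lf (nat_lit 76) (nat_lit 481041010810) (nat_lit 0) (nat_lit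 121147037817) (nat_lit 532) (nat_lit 114755167662) (nat_lit 48) (nat_lit 5) (nat_lit 47) (nat_lit 5) (nat_lit 54) (nat_lit 5) (nat_lit 330) (nat_lit 324) (nat_lit 126)) (XT.lf (nat_lit 0) (nat_lit 118014281241) (nat_lit 456) (nat_lit 562160323520) (nat_lit 532) (nat_lit 68077595673) (nat_lit 42) (nat_lit 5) (nat_lit 48) (nat_lit 5) (nat_lit 49) (nat_lit 5) (nat_lit 331) (nat_lit 324) (nat_lit 125))) (XT.nd (nat_lit 78) (nat_lit 304) (nat_lit 0) (XT.lf (nat_lit 0) (nat_lit 510347668043) (nat_lit 456) (nat_lit 263569402769) (nat_lit 532) (nat_lit 7387473699) (nat_lit 42) (nat_lit 5) (nat_lit 48) (nat_lit 5) (nat_lit 49) (nat_lit 5) (nat_lit 332) (nat_lit 324) (nat_lit 124)) (XT.lf (nat_lit 0) (nat_lit 59706004262) (nat_lit 304) (nat_lit 696425255421) (nat_lit 76) (nat_lit 60401325603) (nat_lit 38) (nat_lit 5) (nat_lit 42) (nat_lit 5) (nat_lit 39) (nat_lit 5) (nat_lit 333) (nat_lit 324)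 (nat_lit 123)))) (XT.nd (nat_lit 156) (nat_lit 228) (nat_lit 0) (XT.nd (nat_lit 78) (nat_lit 228) (nat_lit 0) (XT.lf (nat_lit 0) (nat_lit 146214660413) (nat_lit 304) (nat_lit 303350243713) (nat_lit 76) (nat_lit 403842869396) (nat_lit 38) (nat_lit 5) (nat_lit 42) (nat_lit 5) (nat_lit 39) (nat_lit 5) (nat_lit 334) (nat_lit 324) (nat_lit 122)) (XT.lf (nat_lit 0) (nat_lit 127551395142) (nat_lit 228) (nat_lit 115160217552) (nat_lit 304) (nat_lit 650275955857) (nat_lit 35) (nat_lit 5) (nat_lit 38) (nat_lit 5) (nat_lit 39) (nat_lit 5) (nat_lit 335) (nat_lit 324) (nat_lit 121))) (XT.nd (nat_lit 78) (nat_lit 228) (nat_lit 0) (XT.lf (nat_lit 0) (nat_lit 361354106461) (nat_lit 304) (nat_lit 331024927988) (nat_lit 76) (nat_lit 242200649933) (nat_lit 35) (nat_lit 5) (nat_lit 39) (nat_lit 5) (nat_lit 36) (nat_lit 5) (nat_lit 336) (nat_lit 324) (nat_lit 120)) (XT.lf (nat_lit 0) (nat_lit 142264687623)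 (nat_lit 228) (nat_lit 353635946496) (nat_lit 304) (nat_lit 483085524631) (nat_lit 32) (nat_lit 5) (nat_lit 35) (nat_lit 5) (nat_lit 36) (nat_lit 5) (nat_lit 337) (nat_lit 324) (nat_lit 119))))) (XT.nd (nat_lit 312) (nat_lit 304) (nat_lit 0) (XT.nd (nat_lit 156) (nat_lit 228) (nat_lit 0) (XT.nd (nat_lit 78) (nat_lit 152) (nat_lit 0) (XT.lf (nat_lit 0) (nat_lit 650790337963) (nat_lit 304) (nat_lit 354506598858) (nat_lit 76) (nat_lit 20881857949) (nat_lit 32) (nat_lit 5) (nat_lit 36) (nat_lit 5) (nat_lit 33) (nat_lit 5) (nat_lit 338) (nat_lit 324) (nat_lit 118)) (XT.lf (nat_lit 0) (nat_lit 165372716590) (nat_lit 152) (nat_lit 665861060391) (nat_lit 228) (nat_lit 244860060000) (nat_lit 30) (nat_lit 5) (nat_lit 32) (nat_lit 5) (nat_lit 33) (nat_lit 5) (nat_lit 339) (nat_lit 324) (nat_lit 117))) (XT.nd (nat_lit 78) (nat_lit 228) (nat_lit 0) (XT.lf (nat_lit 0) (nat_lit 747003471544) (nat_lit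 152) (nat_lit 288802050390) (nat_lit 228) (nat_lit 93421134186) (nat_lit 30) (nat_lit 5) (nat_lit 32) (nat_lit 5) (nat_lit 33) (nat_lit 5) (nat_lit 340) (nat_lit 324) (nat_lit 116)) (XT.lf (nat_lit 0) (nat_lit 74370131916) (nat_lit 228) (nat_lit 992403422718) (nat_lit 76) (nat_lit 119081965669) (nat_lit 27) (nat_lit 5) (nat_lit 30) (nat_lit 5) (nat_lit 28) (nat_lit 5) (nat_lit 341) (nat_lit 324) (nat_lit 115)))) (XT.nd (nat_lit 156) (nat_lit 152) (nat_lit 0) (XT.nd (nat_lit 78) (nat_lit 152) (nat_lit 0) (XT.lf (nat_lit 0) (nat_lit 268760981218) (nat_lit 228) (nat_lit 419459198058) (nat_lit 76) (nat_lit 557142516547) (nat_lit 27) (nat_lit 5) (nat_lit 30) (nat_lit 5) (nat_lit 28) (nat_lit 5) (nat_lit 342) (nat_lit 324) (nat_lit 114)) (XT.lf (nat_lit 0) (nat_lit 209816422469) (nat_lit 152) (nat_lit 273932759339) (nat_lit 228) (nat_lit 825477576921) (nat_lit 25) (nat_lit 5) (nat_lit 27)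 (nat_lit 5) (nat_lit 28) (nat_lit 5) (nat_lit 343) (nat_lit 324) (nat_lit 113))) (XT.nd (nat_lit 78) (nat_lit 152) (nat_lit 0) (XT.lf (nat_lit 0) (nat_lit 731875702382) (nat_lit 228) (nat_lit 468463859248) (nat_lit 76) (nat_lit 176585243935) (nat_lit 25) (nat_lit 5) (nat_lit 28) (nat_lit 5) (nat_lit 26) (nat_lit 5) (nat_lit 344) (nat_lit 324) (nat_lit 112)) (XT.lf (nat_lit 0) (nat_lit 216682528110) (nat_lit 152) (nat_lit 795496167135) (nat_lit 228) (nat_lit 436873892861) (nat_lit 23) (nat_lit 5) (nat_lit 25) (nat_lit 5) (nat_lit 26) (nat_lit 5) (nat_lit 345) (nat_lit 324) (nat_lit 111)))))) (XT.nd (nat_lit 39156) (nat_lit 0) (nat_lit 1520) (XT.nd (nat_lit 312) (nat_lit 76) (nat_lit 0) (XT.nd (nat_lit 156) (nat_lit 152) (nat_lit 0) (XT.nd (nat_lit 78) (nat_lit 152) (nat_lit 0) (XT.lf (nat_lit 0) (nat_lit 983282572617) (nat_lit 152) (nat_lit 344431981283) (nat_lit 228) (nat_lit 198211349253)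 (nat_lit 23) (nat_lit 5) (nat_lit 25) (nat_lit 5) (nat_lit 26) (nat_lit 5) (nat_lit 346) (nat_lit 324) (nat_lit 110)) (XT.lf (nat_lit 0) (nat_lit 65251452036) (nat_lit 152) (nat_lit 1400624573494) (nat_lit 76) (nat_lit 142263623041) (nat_lit 21) (nat_lit 5) (nat_lit 23) (nat_lit 5) (nat_lit 22) (nat_lit 5) (nat_lit 347) (nat_lit 324) (nat_lit 109))) (XT.nd (nat_lit 78) (nat_lit 152) (nat_lit 0) (XT.lf (nat_lit 0) (nat_lit 363251198652) (nat_lit 152) (nat_lit 661676799622) (nat_lit 76) (nat_lit 669657149022) (nat_lit 21) (nat_lit 5) (nat_lit 23) (nat_lit 5) (nat_lit 22) (nat_lit 5) (nat_lit 348) (nat_lit 324) (nat_lit 108)) (XT.lf (nat_lit 0) (nat_lit 143568674938) (nat_lit 152) (nat_lit 544975075220) (nat_lit 228) (nat_lit 1099126309756) (nat_lit 19) (nat_lit 5) (nat_lit 21) (nat_lit 5) (nat_lit 22) (nat_lit 5) (nat_lit 349) (nat_lit 324) (nat_lit 107)))) (XT.nd (nat_lit 38688) (nat_lit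 0) (nat_lit 2052) (XT.nd (nat_lit 78) (nat_lit 76) (nat_lit 0) (XT.lf (nat_lit 0) (nat_lit 1050863925756) (nat_lit 152) (nat_lit 7087191581) (nat_lit 228) (nat_lit 828803335288) (nat_lit 19) (nat_lit 5) (nat_lit 21) (nat_lit 5) (nat_lit 22) (nat_lit 5) (nat_lit 350) (nat_lit 324) (nat_lit 106)) (XT.lf (nat_lit 0) (nat_lit 24396960601) (nat_lit 76) (nat_lit 1446901523057) (nat_lit 152) (nat_lit 521316120319) (nat_lit 18) (nat_lit 5) (nat_lit 19) (nat_lit 5) (nat_lit 20) (nat_lit 4) (nat_lit 351) (nat_lit 324) (nat_lit 105))) (XT.nd (nat_lit 78) (nat_lit 0) (nat_lit 0) (XT.lf (nat_lit 0) (nat_lit 195689899209) (nat_lit 532) (nat_lit 54042929529) (nat_lit 532) (nat_lit 54042929529) (nat_lit 45) (nat_lit 3) (nat_lit 52) (nat_lit 3) (nat_lit 52) (nat_lit 5) (nat_lit 325) (nat_lit 325) (nat_lit 130)) (XT.lf (nat_lit 76) (nat_lit 179726743220) (nat_lit 0) (nat_lit 231630841920) (nat_lit 532)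 (nat_lit 220150184009) (nat_lit 46) (nat_lit 5) (nat_lit 45) (nat_lit 3) (nat_lit 52) (nat_lit 5) (nat_lit 326) (nat_lit 325) (nat_lit 129))))) (XT.nd (nat_lit 312) (nat_lit 608) (nat_lit 0) (XT.nd (nat_lit 156) (nat_lit 0) (nat_lit 0) (XT.nd (nat_lit 78) (nat_lit 0) (nat_lit 0) (XT.lf (nat_lit 0) (nat_lit 437351618555) (nat_lit 456) (nat_lit 161895600896) (nat_lit 532) (nat_lit 57779860664) (nat_lit 46) (nat_lit 5) (nat_lit 52) (nat_lit 5) (nat_lit 53) (nat_lit 5) (nat_lit 327) (nat_lit 325) (nat_lit 128)) (XT.lf (nat_lit 76) (nat_lit 152808355460) (nat_lit 0) (nat_lit 322308234231) (nat_lit 532) (nat_lit 208696033108) (nat_lit 47) (nat_lit 5) (nat_lit 46) (nat_lit 5) (nat_lit 53) (nat_lit 5) (nat_lit 328) (nat_lit 325) (nat_lit 127))) (XT.nd (nat_lit 78) (nat_lit 0) (nat_lit 76) (XT.lf (nat_lit 76) (nat_lit 501895764862) (nat_lit 0) (nat_lit 18433492091) (nat_lit 532) (nat_lit 192057632109)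 (nat_lit 47) (nat_lit 5) (nat_lit 46) (nat_lit 5) (nat_lit 53) (nat_lit 5) (nat_lit 329) (nat_lit 325) (nat_lit 126)) (XT.lf (nat_lit 76) (nat_lit 134965033240) (nat_lit 0) (nat_lit 444889328124) (nat_lit 532) (nat_lit 162537101399) (nat_lit 48) (nat_lit 5) (nat_lit 47) (nat_lit 5) (nat_lit 54) (nat_lit 5) (nat_lit 330) (nat_lit 325) (nat_lit 125)))) (XT.nd (nat_lit 156) (nat_lit 304) (nat_lit 0) (XT.nd (nat_lit 78) (nat_lit 380) (nat_lit 0) (XT.lf (nat_lit 76) (nat_lit 519524485734) (nat_lit 0) (nat_lit 130838847118) (nat_lit 532) (nat_lit 123935320844) (nat_lit 48) (nat_lit 5) (nat_lit 47) (nat_lit 5) (nat_lit 54) (nat_lit 5) (nat_lit 331) (nat_lit 325) (nat_lit 124)) (XT.lf (nat_lit 0) (nat_lit 127455633363) (nat_lit 456) (nat_lit 607133166321) (nat_lit 532) (nat_lit 73523558041) (nat_lit 42) (nat_lit 5) (nat_lit 48) (nat_lit 5) (nat_lit 49) (nat_lit 5) (nat_lit 332) (nat_lit 325)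 (nat_lit 123))) (XT.nd (nat_lit 78) (nat_lit 304) (nat_lit 0) (XT.lf (nat_lit 0) (nat_lit 551175675583) (nat_lit 456) (nat_lit 284654970656) (nat_lit 532) (nat_lit 7978244478) (nat_lit 42) (nat_lit 5) (nat_lit 48) (nat_lit 5) (nat_lit 49) (nat_lit 5) (nat_lit 333) (nat_lit 325) (nat_lit 122)) (XT.lf (nat_lit 0) (nat_lit 64482689113) (nat_lit 304) (nat_lit 752139058128) (nat_lit 76) (nat_lit 65233428015) (nat_lit 38) (nat_lit 5) (nat_lit 42) (nat_lit 5) (nat_lit 39) (nat_lit 5) (nat_lit 334) (nat_lit 325) (nat_lit 121))))))))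
noncomputable def xc125 : XT := (XT.nd (nat_lit 41184) (nat_lit 0) (nat_lit 152) (XT.nd (nat_lit 39936) (nat_lit 0) (nat_lit 836) (XT.nd (nat_lit 624) (nat_lit 608) (nat_lit 0) (XT.nd (nat_lit 312) (nat_lit 380) (nat_lit 0) (XT.nd (nat_lit 156) (nat_lit 228) (nat_lit 0) (XT.nd (nat_lit 78) (nat_lit 228) (nat_lit 0) (XT.lf (nat_lit 0) (nat_lit 157912022608) (nat_lit 304) (nat_lit 327618061611) (nat_lit 76) (nat_lit 436150295580) (nat_lit 38) (nat_lit 5) (nat_lit 42) (nat_lit 5) (nat_lit 39) (nat_lit 5) (nat_lit 335) (nat_lit 325) (nat_lit 120)) (XT.lf (nat_lit 0) (nat_lit 137755703248) (nat_lit 228) (nat_lit 124373018522) (nat_lit 304) (nat_lit 702297837438) (nat_lit 35) (nat_lit 5) (nat_lit 38) (nat_lit 5) (nat_lit 39) (nat_lit 5) (nat_lit 336) (nat_lit 325) (nat_lit 119))) (XT.nd (nat_lit 78) (nat_lit 228) (nat_lit 0) (XT.lf (nat_lit 0) (nat_lit 390262602067) (nat_lit 304) (nat_lit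 357506726925) (nat_lit 76) (nat_lit 261576716384) (nat_lit 35) (nat_lit 5) (nat_lit 39) (nat_lit 5) (nat_lit 36) (nat_lit 5) (nat_lit 337) (nat_lit 325) (nat_lit 118)) (XT.lf (nat_lit 0) (nat_lit 153646052991) (nat_lit 228) (nat_lit 381926791148) (nat_lit 304) (nat_lit 521732194207) (nat_lit 32) (nat_lit 5) (nat_lit 35) (nat_lit 5) (nat_lit 36) (nat_lit 5) (nat_lit 338) (nat_lit 325) (nat_lit 117)))) (XT.nd (nat_lit 156) (nat_lit 228) (nat_lit 0) (XT.nd (nat_lit 78) (nat_lit 152) (nat_lit 0) (XT.lf (nat_lit 0) (nat_lit 702853713182) (nat_lit 304) (nat_lit 382866939067) (nat_lit 76) (nat_lit 22552433913) (nat_lit 32) (nat_lit 5) (nat_lit 36) (nat_lit 5) (nat_lit 33) (nat_lit 5) (nat_lit 339) (nat_lit 325) (nat_lit 116)) (XT.lf (nat_lit 0) (nat_lit 178602716865) (nat_lit 152) (nat_lit 719129903880) (nat_lit 228) (nat_lit 264448711556) (nat_lit 30) (nat_lit 5) (nat_lit 32) (nat_lit 5) (nat_lit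 33) (nat_lit 5) (nat_lit 340) (nat_lit 325) (nat_lit 115))) (XT.nd (nat_lit 78) (nat_lit 228) (nat_lit 0) (XT.lf (nat_lit 0) (nat_lit 806763918663) (nat_lit 152) (nat_lit 311906176141) (nat_lit 228) (nat_lit 100894683028) (nat_lit 30) (nat_lit 5) (nat_lit 32) (nat_lit 5) (nat_lit 33) (nat_lit 5) (nat_lit 341) (nat_lit 325) (nat_lit 114)) (XT.lf (nat_lit 0) (nat_lit 80319872465) (nat_lit 228) (nat_lit 1071795514729) (nat_lit 76) (nat_lit 128608564087) (nat_lit 27) (nat_lit 5) (nat_lit 30) (nat_lit 5) (nat_lit 28) (nat_lit 5) (nat_lit 342) (nat_lit 325) (nat_lit 113))))) (XT.nd (nat_lit 312) (nat_lit 304) (nat_lit 0) (XT.nd (nat_lit 156) (nat_lit 152) (nat_lit 0) (XT.nd (nat_lit 78) (nat_lit 152) (nat_lit 0) (XT.lf (nat_lit 0) (nat_lit 290261980082) (nat_lit 228) (nat_lit 453015765563) (nat_lit 76) (nat_lit 601713955986) (nat_lit 27) (nat_lit 5) (nat_lit 30) (nat_lit 5) (nat_lit 28) (nat_lit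 5) (nat_lit 343) (nat_lit 325) (nat_lit 112)) (XT.lf (nat_lit 0) (nat_lit 226601900344) (nat_lit 152) (nat_lit 295847331405) (nat_lit 228) (nat_lit 891515658236) (nat_lit 25) (nat_lit 5) (nat_lit 27) (nat_lit 5) (nat_lit 28) (nat_lit 5) (nat_lit 344) (nat_lit 325) (nat_lit 111))) (XT.nd (nat_lit 78) (nat_lit 152) (nat_lit 0) (XT.lf (nat_lit 0) (nat_lit 790425866506) (nat_lit 228) (nat_lit 505940808405) (nat_lit 76) (nat_lit 190712106269) (nat_lit 25) (nat_lit 5) (nat_lit 28) (nat_lit 5) (nat_lit 26) (nat_lit 5) (nat_lit 345) (nat_lit 325) (nat_lit 110)) (XT.lf (nat_lit 0) (nat_lit 234017285901) (nat_lit 152) (nat_lit 859135808642) (nat_lit 228) (nat_lit 471823692137) (nat_lit 23) (nat_lit 5) (nat_lit 25) (nat_lit 5) (nat_lit 26) (nat_lit 5) (nat_lit 346) (nat_lit 325) (nat_lit 109)))) (XT.nd (nat_lit 156) (nat_lit 152) (nat_lit 0) (XT.nd (nat_lit 78) (nat_lit 152) (nat_lit 0) (XT.lf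 (nat_lit 0) (nat_lit 1061945322447) (nat_lit 152) (nat_lit 371986491763) (nat_lit 228) (nat_lit 214068153348) (nat_lit 23) (nat_lit 5) (nat_lit 25) (nat_lit 5) (nat_lit 26) (nat_lit 5) (nat_lit 347) (nat_lit 325) (nat_lit 108)) (XT.lf (nat_lit 0) (nat_lit 70471664264) (nat_lit 152) (nat_lit 1512674387273) (nat_lit 76) (nat_lit 153644761090) (nat_lit 21) (nat_lit 5) (nat_lit 23) (nat_lit 5) (nat_lit 22) (nat_lit 5) (nat_lit 348) (nat_lit 325) (nat_lit 107))) (XT.nd (nat_lit 78) (nat_lit 152) (nat_lit 0) (XT.lf (nat_lit 0) (nat_lit 392311383494) (nat_lit 152) (nat_lit 714610802759) (nat_lit 76) (nat_lit 723229765578) (nat_lit 21) (nat_lit 5) (nat_lit 23) (nat_lit 5) (nat_lit 22) (nat_lit 5) (nat_lit 349) (nat_lit 325) (nat_lit 106)) (XT.lf (nat_lit 0) (nat_lit 155054306202) (nat_lit 152) (nat_lit 588573029632) (nat_lit 228) (nat_lit 1187056321898) (nat_lit 19) (nat_lit 5) (nat_lit 21)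 (nat_lit 5) (nat_lit 22) (nat_lit 5) (nat_lit 350) (nat_lit 325) (nat_lit 105)))))) (XT.nd (nat_lit 624) (nat_lit 912) (nat_lit 0) (XT.nd (nat_lit 312) (nat_lit 228) (nat_lit 0) (XT.nd (nat_lit 156) (nat_lit 0) (nat_lit 76) (XT.nd (nat_lit 78) (nat_lit 0) (nat_lit 0) (XT.lf (nat_lit 0) (nat_lit 211345249531) (nat_lit 532) (nat_lit 58366278136) (nat_lit 532) (nat_lit 58366278136) (nat_lit 45) (nat_lit 3) (nat_lit 52) (nat_lit 3) (nat_lit 52) (nat_lit 5) (nat_lit 326) (nat_lit 326) (nat_lit 128)) (XT.lf (nat_lit 76) (nat_lit 194105049847) (nat_lit 0) (nat_lit 250161439431) (nat_lit 532) (nat_lit 237761876772) (nat_lit 46) (nat_lit 5) (nat_lit 45) (nat_lit 3) (nat_lit 52) (nat_lit 5) (nat_lit 327) (nat_lit 326) (nat_lit 127))) (XT.nd (nat_lit 78) (nat_lit 0) (nat_lit 0) (XT.lf (nat_lit 0) (nat_lit 472340020444) (nat_lit 456) (nat_lit 174847068477) (nat_lit 532) (nat_lit 62402135030) (nat_lit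 46) (nat_lit 5) (nat_lit 52) (nat_lit 5) (nat_lit 53) (nat_lit 5) (nat_lit 328) (nat_lit 326) (nat_lit 126)) (XT.lf (nat_lit 76) (nat_lit 165033199819) (nat_lit 0) (nat_lit 348092973505) (nat_lit 532) (nat_lit 225391438060) (nat_lit 47) (nat_lit 5) (nat_lit 46) (nat_lit 5) (nat_lit 53) (nat_lit 5) (nat_lit 329) (nat_lit 326) (nat_lit 125)))) (XT.nd (nat_lit 156) (nat_lit 304) (nat_lit 0) (XT.nd (nat_lit 78) (nat_lit 0) (nat_lit 76) (XT.lf (nat_lit 76) (nat_lit 542047588942) (nat_lit 0) (nat_lit 19908246029) (nat_lit 532) (nat_lit 207421985551) (nat_lit 47) (nat_lit 5) (nat_lit 46) (nat_lit 5) (nat_lit 53) (nat_lit 5) (nat_lit 330) (nat_lit 326) (nat_lit 124)) (XT.lf (nat_lit 76) (nat_lit 145762415582) (nat_lit 0) (nat_lit 480480517222) (nat_lit 532) (nat_lit 175539828557) (nat_lit 48) (nat_lit 5) (nat_lit 47) (nat_lit 5) (nat_lit 54) (nat_lit 5) (nat_lit 331) (nat_lit 326) (nat_lit 123)))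 (XT.nd (nat_lit 78) (nat_lit 380) (nat_lit 0) (XT.lf (nat_lit 76) (nat_lit 561086610966) (nat_lit 0) (nat_lit 141305994562) (nat_lit 532) (nat_lit 133849923406) (nat_lit 48) (nat_lit 5) (nat_lit 47) (nat_lit 5) (nat_lit 54) (nat_lit 5) (nat_lit 332) (nat_lit 326) (nat_lit 122)) (XT.lf (nat_lit 0) (nat_lit 137652263750) (nat_lit 456) (nat_lit 655703834133) (nat_lit 532) (nat_lit 79405232391) (nat_lit 42) (nat_lit 5) (nat_lit 48) (nat_lit 5) (nat_lit 49) (nat_lit 5) (nat_lit 333) (nat_lit 326) (nat_lit 121))))) (XT.nd (nat_lit 312) (nat_lit 380) (nat_lit 0) (XT.nd (nat_lit 156) (nat_lit 228) (nat_lit 0) (XT.nd (nat_lit 78) (nat_lit 304) (nat_lit 0) (XT.lf (nat_lit 0) (nat_lit 595269896035) (nat_lit 456) (nat_lit 307427381740) (nat_lit 532) (nat_lit 8616309320) (nat_lit 42) (nat_lit 5) (nat_lit 48) (nat_lit 5) (nat_lit 49) (nat_lit 5) (nat_lit 334) (nat_lit 326) (nat_lit 120)) (XT.lf (nat_lit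 0) (nat_lit 69641479577) (nat_lit 304) (nat_lit 812309996113) (nat_lit 76) (nat_lit 70452099138) (nat_lit 38) (nat_lit 5) (nat_lit 42) (nat_lit 5) (nat_lit 39) (nat_lit 5) (nat_lit 335) (nat_lit 326) (nat_lit 119))) (XT.nd (nat_lit 78) (nat_lit 228) (nat_lit 0) (XT.lf (nat_lit 0) (nat_lit 170545146763) (nat_lit 304) (nat_lit 353827333702) (nat_lit 76) (nat_lit 471042316340) (nat_lit 38) (nat_lit 5) (nat_lit 42) (nat_lit 5) (nat_lit 39) (nat_lit 5) (nat_lit 336) (nat_lit 326) (nat_lit 118)) (XT.lf (nat_lit 0) (nat_lit 148776327971) (nat_lit 228) (nat_lit 134322845914) (nat_lit 304) (nat_lit 758481497349) (nat_lit 35) (nat_lit 5) (nat_lit 38) (nat_lit 5) (nat_lit 39) (nat_lit 5) (nat_lit 337) (nat_lit 326) (nat_lit 117)))) (XT.nd (nat_lit 156) (nat_lit 152) (nat_lit 0) (XT.nd (nat_lit 78) (nat_lit 228) (nat_lit 0) (XT.lf (nat_lit 0) (nat_lit 421483753484) (nat_lit 304) (nat_lit 386107097639)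 (nat_lit 76) (nat_lit 282502866088) (nat_lit 35) (nat_lit 5) (nat_lit 39) (nat_lit 5) (nat_lit 36) (nat_lit 5) (nat_lit 338) (nat_lit 326) (nat_lit 116)) (XT.lf (nat_lit 0) (nat_lit 165937900432) (nat_lit 228) (nat_lit 412480907803) (nat_lit 304) (nat_lit 563470621943) (nat_lit 32) (nat_lit 5) (nat_lit 35) (nat_lit 5) (nat_lit 36) (nat_lit 5) (nat_lit 339) (nat_lit 326) (nat_lit 115))) (XT.nd (nat_lit 78) (nat_lit 152) (nat_lit 0) (XT.lf (nat_lit 0) (nat_lit 759082137279) (nat_lit 304) (nat_lit 413496133270) (nat_lit 76) (nat_lit 24356652056) (nat_lit 32) (nat_lit 5) (nat_lit 36) (nat_lit 5) (nat_lit 33) (nat_lit 5) (nat_lit 340) (nat_lit 326) (nat_lit 114)) (XT.lf (nat_lit 0) (nat_lit 192891091063) (nat_lit 152) (nat_lit 776660260746) (nat_lit 228) (nat_lit 285604477098) (nat_lit 30) (nat_lit 5) (nat_lit 32) (nat_lit 5) (nat_lit 33) (nat_lit 5) (nat_lit 341) (nat_lit 326) (nat_lit 113)))))))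 (XT.nd (nat_lit 40092) (nat_lit 0) (nat_lit 152) (XT.nd (nat_lit 39468) (nat_lit 0) (nat_lit 1596) (XT.nd (nat_lit 312) (nat_lit 304) (nat_lit 0) (XT.nd (nat_lit 156) (nat_lit 152) (nat_lit 0) (XT.nd (nat_lit 78) (nat_lit 228) (nat_lit 0) (XT.lf (nat_lit 0) (nat_lit 871305177387) (nat_lit 152) (nat_lit 336858637414) (nat_lit 228) (nat_lit 108966136020) (nat_lit 30) (nat_lit 5) (nat_lit 32) (nat_lit 5) (nat_lit 33) (nat_lit 5) (nat_lit 342) (nat_lit 326) (nat_lit 112)) (XT.lf (nat_lit 0) (nat_lit 86745573713) (nat_lit 228) (nat_lit 1157539000038) (nat_lit 76) (nat_lit 138897284506) (nat_lit 27) (nat_lit 5) (nat_lit 30) (nat_lit 5) (nat_lit 28) (nat_lit 5) (nat_lit 343) (nat_lit 326) (nat_lit 111))) (XT.nd (nat_lit 78) (nat_lit 152) (nat_lit 0) (XT.lf (nat_lit 0) (nat_lit 313483041684) (nat_lit 228) (nat_lit 489256882485) (nat_lit 76) (nat_lit 649851105142) (nat_lit 27) (nat_lit 5) (nat_lit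 30) (nat_lit 5) (nat_lit 28) (nat_lit 5) (nat_lit 344) (nat_lit 326) (nat_lit 110)) (XT.lf (nat_lit 0) (nat_lit 244730193041) (nat_lit 152) (nat_lit 319515076181) (nat_lit 228) (nat_lit 962836803865) (nat_lit 25) (nat_lit 5) (nat_lit 27) (nat_lit 5) (nat_lit 28) (nat_lit 5) (nat_lit 345) (nat_lit 326) (nat_lit 109)))) (XT.nd (nat_lit 156) (nat_lit 152) (nat_lit 0) (XT.nd (nat_lit 78) (nat_lit 152) (nat_lit 0) (XT.lf (nat_lit 0) (nat_lit 853660028361) (nat_lit 228) (nat_lit 546415936261) (nat_lit 76) (nat_lit 205969111482) (nat_lit 25) (nat_lit 5) (nat_lit 28) (nat_lit 5) (nat_lit 26) (nat_lit 5) (nat_lit 346) (nat_lit 326) (nat_lit 108)) (XT.lf (nat_lit 0) (nat_lit 252738802126) (nat_lit 152) (nat_lit 927866628868) (nat_lit 228) (nat_lit 509569491354) (nat_lit 23) (nat_lit 5) (nat_lit 25) (nat_lit 5) (nat_lit 26) (nat_lit 5) (nat_lit 347) (nat_lit 326) (nat_lit 107))) (XT.nd (nat_lit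 78) (nat_lit 152) (nat_lit 0) (XT.lf (nat_lit 0) (nat_lit 1146901071718) (nat_lit 152) (nat_lit 401745369932) (nat_lit 228) (nat_lit 231193516584) (nat_lit 23) (nat_lit 5) (nat_lit 25) (nat_lit 5) (nat_lit 26) (nat_lit 5) (nat_lit 348) (nat_lit 326) (nat_lit 106)) (XT.lf (nat_lit 0) (nat_lit 76109479766) (nat_lit 152) (nat_lit 1633688207853) (nat_lit 76) (nat_lit 165936383306) (nat_lit 21) (nat_lit 5) (nat_lit 23) (nat_lit 5) (nat_lit 22) (nat_lit 5) (nat_lit 349) (nat_lit 326) (nat_lit 105))))) (XT.nd (nat_lit 312) (nat_lit 228) (nat_lit 0) (XT.nd (nat_lit 156) (nat_lit 0) (nat_lit 76) (XT.nd (nat_lit 78) (nat_lit 0) (nat_lit 0) (XT.lf (nat_lit 0) (nat_lit 228253005284) (nat_lit 532) (nat_lit 63035506865) (nat_lit 532) (nat_lit 63035506865) (nat_lit 45) (nat_lit 3) (nat_lit 52) (nat_lit 3) (nat_lit 52) (nat_lit 5) (nat_lit 327) (nat_lit 327) (nat_lit 126)) (XT.lf (nat_lit 76) (nat_lit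 209633597156) (nat_lit 0) (nat_lit 270174466174) (nat_lit 532) (nat_lit 256782550888) (nat_lit 46) (nat_lit 5) (nat_lit 45) (nat_lit 3) (nat_lit 52) (nat_lit 5) (nat_lit 328) (nat_lit 327) (nat_lit 125))) (XT.nd (nat_lit 78) (nat_lit 0) (nat_lit 0) (XT.lf (nat_lit 0) (nat_lit 510127455622) (nat_lit 456) (nat_lit 188834679213) (nat_lit 532) (nat_lit 67394207679) (nat_lit 46) (nat_lit 5) (nat_lit 52) (nat_lit 5) (nat_lit 53) (nat_lit 5) (nat_lit 329) (nat_lit 327) (nat_lit 124)) (XT.lf (nat_lit 76) (nat_lit 178236006629) (nat_lit 0) (nat_lit 375940480431) (nat_lit 532) (nat_lit 243422515024) (nat_lit 47) (nat_lit 5) (nat_lit 46) (nat_lit 5) (nat_lit 53) (nat_lit 5) (nat_lit 330) (nat_lit 327) (nat_lit 123)))) (XT.nd (nat_lit 156) (nat_lit 304) (nat_lit 0) (XT.nd (nat_lit 78) (nat_lit 0) (nat_lit 76) (XT.lf (nat_lit 76) (nat_lit 585411535709) (nat_lit 0) (nat_lit 21500969643) (nat_lit 532)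 (nat_lit 224015523950) (nat_lit 47) (nat_lit 5) (nat_lit 46) (nat_lit 5) (nat_lit 53) (nat_lit 5) (nat_lit 331) (nat_lit 327) (nat_lit 122)) (XT.lf (nat_lit 76) (nat_lit 157423562879) (nat_lit 0) (nat_lit 518918995335) (nat_lit 532) (nat_lit 189582808262) (nat_lit 48) (nat_lit 5) (nat_lit 47) (nat_lit 5) (nat_lit 54) (nat_lit 5) (nat_lit 332) (nat_lit 327) (nat_lit 121))) (XT.nd (nat_lit 78) (nat_lit 380) (nat_lit 0) (XT.lf (nat_lit 76) (nat_lit 605973682482) (nat_lit 0) (nat_lit 152610508141) (nat_lit 532) (nat_lit 144557726001) (nat_lit 48) (nat_lit 5) (nat_lit 47) (nat_lit 5) (nat_lit 54) (nat_lit 5) (nat_lit 333) (nat_lit 327) (nat_lit 120)) (XT.lf (nat_lit 0) (nat_lit 148664598930) (nat_lit 456) (nat_lit 708160153299) (nat_lit 532) (nat_lit 85757470690) (nat_lit 42) (nat_lit 5) (nat_lit 48) (nat_lit 5) (nat_lit 49) (nat_lit 5) (nat_lit 334) (nat_lit 327) (nat_lit 119)))))) (XT.nd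 (nat_lit 624) (nat_lit 532) (nat_lit 0) (XT.nd (nat_lit 312) (nat_lit 380) (nat_lit 0) (XT.nd (nat_lit 156) (nat_lit 228) (nat_lit 0) (XT.nd (nat_lit 78) (nat_lit 304) (nat_lit 0) (XT.lf (nat_lit 0) (nat_lit 642891630384) (nat_lit 456) (nat_lit 332021583794) (nat_lit 532) (nat_lit 9305447128) (nat_lit 42) (nat_lit 5) (nat_lit 48) (nat_lit 5) (nat_lit 49) (nat_lit 5) (nat_lit 335) (nat_lit 327) (nat_lit 118)) (XT.lf (nat_lit 0) (nat_lit 75212948264) (nat_lit 304) (nat_lit 877294635767) (nat_lit 76) (nat_lit 76088264396) (nat_lit 38) (nat_lit 5) (nat_lit 42) (nat_lit 5) (nat_lit 39) (nat_lit 5) (nat_lit 336) (nat_lit 327) (nat_lit 117))) (XT.nd (nat_lit 78) (nat_lit 228) (nat_lit 0) (XT.lf (nat_lit 0) (nat_lit 184188897690) (nat_lit 304) (nat_lit 382133372217) (nat_lit 76) (nat_lit 508725699172) (nat_lit 38) (nat_lit 5) (nat_lit 42) (nat_lit 5) (nat_lit 39) (nat_lit 5) (nat_lit 337) (nat_lit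 327) (nat_lit 116)) (XT.lf (nat_lit 0) (nat_lit 160678578638) (nat_lit 228) (nat_lit 145068661507) (nat_lit 304) (nat_lit 819159873889) (nat_lit 35) (nat_lit 5) (nat_lit 38) (nat_lit 5) (nat_lit 39) (nat_lit 5) (nat_lit 338) (nat_lit 327) (nat_lit 115)))) (XT.nd (nat_lit 156) (nat_lit 152) (nat_lit 0) (XT.nd (nat_lit 78) (nat_lit 228) (nat_lit 0) (XT.lf (nat_lit 0) (nat_lit 455202576577) (nat_lit 304) (nat_lit 416995521897) (nat_lit 76) (nat_lit 305103106001) (nat_lit 35) (nat_lit 5) (nat_lit 39) (nat_lit 5) (nat_lit 36) (nat_lit 5) (nat_lit 339) (nat_lit 327) (nat_lit 114)) (XT.lf (nat_lit 0) (nat_lit 179213072385) (nat_lit 228) (nat_lit 445479357591) (nat_lit 304) (nat_lit 608548144983) (nat_lit 32) (nat_lit 5) (nat_lit 35) (nat_lit 5) (nat_lit 36) (nat_lit 5) (nat_lit 340) (nat_lit 327) (nat_lit 113))) (XT.nd (nat_lit 78) (nat_lit 152) (nat_lit 0) (XT.lf (nat_lit 0) (nat_lit 819808817180)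 (nat_lit 304) (nat_lit 446575685966) (nat_lit 76) (nat_lit 26305204307) (nat_lit 32) (nat_lit 5) (nat_lit 36) (nat_lit 5) (nat_lit 33) (nat_lit 5) (nat_lit 341) (nat_lit 327) (nat_lit 112)) (XT.lf (nat_lit 0) (nat_lit 208322512820) (nat_lit 152) (nat_lit 838793051218) (nat_lit 228) (nat_lit 308452722626) (nat_lit 30) (nat_lit 5) (nat_lit 32) (nat_lit 5) (nat_lit 33) (nat_lit 5) (nat_lit 342) (nat_lit 327) (nat_lit 111))))) (XT.nd (nat_lit 312) (nat_lit 152) (nat_lit 0) (XT.nd (nat_lit 156) (nat_lit 152) (nat_lit 0) (XT.nd (nat_lit 78) (nat_lit 228) (nat_lit 0) (XT.lf (nat_lit 0) (nat_lit 941009716089) (nat_lit 152) (nat_lit 363807300270) (nat_lit 228) (nat_lit 117683322606) (nat_lit 30) (nat_lit 5) (nat_lit 32) (nat_lit 5) (nat_lit 33) (nat_lit 5) (nat_lit 343) (nat_lit 327) (nat_lit 110)) (XT.lf (nat_lit 0) (nat_lit 93685315160) (nat_lit 228) (nat_lit 1250141986408) (nat_lit 76) (nat_lit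 150009097524) (nat_lit 27) (nat_lit 5) (nat_lit 30) (nat_lit 5) (nat_lit 28) (nat_lit 5) (nat_lit 344) (nat_lit 327) (nat_lit 109))) (XT.nd (nat_lit 78) (nat_lit 152) (nat_lit 0) (XT.lf (nat_lit 0) (nat_lit 338561773491) (nat_lit 228) (nat_lit 528397309349) (nat_lit 76) (nat_lit 701839221569) (nat_lit 27) (nat_lit 5) (nat_lit 30) (nat_lit 5) (nat_lit 28) (nat_lit 5) (nat_lit 345) (nat_lit 327) (nat_lit 108)) (XT.lf (nat_lit 0) (nat_lit 264308729086) (nat_lit 152) (nat_lit 345076246494) (nat_lit 228) (nat_lit 1039863656414) (nat_lit 25) (nat_lit 5) (nat_lit 27) (nat_lit 5) (nat_lit 28) (nat_lit 5) (nat_lit 346) (nat_lit 327) (nat_lit 107)))) (XT.nd (nat_lit 156) (nat_lit 0) (nat_lit 0) (XT.nd (nat_lit 78) (nat_lit 152) (nat_lit 0) (XT.lf (nat_lit 0) (nat_lit 921952909963) (nat_lit 228) (nat_lit 590129093864) (nat_lit 76) (nat_lit 222446671875) (nat_lit 25) (nat_lit 5) (nat_lit 28) (nat_lit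 5) (nat_lit 26) (nat_lit 5) (nat_lit 347) (nat_lit 327) (nat_lit 106)) (XT.lf (nat_lit 0) (nat_lit 272958020625) (nat_lit 152) (nat_lit 1002095921056) (nat_lit 228) (nat_lit 550334968226) (nat_lit 23) (nat_lit 5) (nat_lit 25) (nat_lit 5) (nat_lit 26) (nat_lit 5) (nat_lit 348) (nat_lit 327) (nat_lit 105))) (XT.nd (nat_lit 39000) (nat_lit 0) (nat_lit 1672) (XT.lf (nat_lit 0) (nat_lit 1238653263315) (nat_lit 152) (nat_lit 433884964229) (nat_lit 228) (nat_lit 249688921581) (nat_lit 23) (nat_lit 5) (nat_lit 25) (nat_lit 5) (nat_lit 26) (nat_lit 5) (nat_lit 349) (nat_lit 327) (nat_lit 104)) (XT.lf (nat_lit 0) (nat_lit 246513362124) (nat_lit 532) (nat_lit 68078284381) (nat_lit 532) (nat_lit 68078284381) (nat_lit 45) (nat_lit 3) (nat_lit 52) (nat_lit 3) (nat_lit 52) (nat_lit 5) (nat_lit 328) (nat_lit 328) (nat_lit 124))))))))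
noncomputable def xc126 : XT := (XT.nd (nat_lit 41496) (nat_lit 0) (nat_lit 152) (XT.nd (nat_lit 1170) (nat_lit 380) (nat_lit 0) (XT.nd (nat_lit 546) (nat_lit 912) (nat_lit 0) (XT.nd (nat_lit 234) (nat_lit 228) (nat_lit 0) (XT.nd (nat_lit 78) (nat_lit 0) (nat_lit 76) (XT.lf (nat_lit 76) (nat_lit 226404407804) (nat_lit 0) (nat_lit 291788519137) (nat_lit 532) (nat_lit 277324918311) (nat_lit 46) (nat_lit 5) (nat_lit 45) (nat_lit 3) (nat_lit 52) (nat_lit 5) (nat_lit 329) (nat_lit 328) (nat_lit 123)) (XT.nd (nat_lit 78) (nat_lit 0) (nat_lit 0) (XT.lf (nat_lit 0) (nat_lit 550937852297) (nat_lit 456) (nat_lit 203941320884) (nat_lit 532) (nat_lit 72785660142) (nat_lit 46) (nat_lit 5) (nat_lit 52) (nat_lit 5) (nat_lit 53) (nat_lit 5) (nat_lit 330) (nat_lit 328) (nat_lit 122)) (XT.lf (nat_lit 76) (nat_lit 192495016467) (nat_lit 0) (nat_lit 406015778062) (nat_lit 532) (nat_lit 262896112110) (nat_lit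 47) (nat_lit 5) (nat_lit 46) (nat_lit 5) (nat_lit 53) (nat_lit 5) (nat_lit 331) (nat_lit 328) (nat_lit 121)))) (XT.nd (nat_lit 156) (nat_lit 304) (nat_lit 0) (XT.nd (nat_lit 78) (nat_lit 0) (nat_lit 76) (XT.lf (nat_lit 76) (nat_lit 632244578296) (nat_lit 0) (nat_lit 23221102025) (nat_lit 532) (nat_lit 241936576870) (nat_lit 47) (nat_lit 5) (nat_lit 46) (nat_lit 5) (nat_lit 53) (nat_lit 5) (nat_lit 332) (nat_lit 328) (nat_lit 120)) (XT.lf (nat_lit 76) (nat_lit 170017579982) (nat_lit 0) (nat_lit 560432546456) (nat_lit 532) (nat_lit 204749255815) (nat_lit 48) (nat_lit 5) (nat_lit 47) (nat_lit 5) (nat_lit 54) (nat_lit 5) (nat_lit 333) (nat_lit 328) (nat_lit 119))) (XT.nd (nat_lit 78) (nat_lit 380) (nat_lit 0) (XT.lf (nat_lit 76) (nat_lit 654451699370) (nat_lit 0) (nat_lit 164819377954) (nat_lit 532) (nat_lit 156122180092) (nat_lit 48) (nat_lit 5) (nat_lit 47) (nat_lit 5) (nat_lit 54) (nat_lit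 5) (nat_lit 334) (nat_lit 328) (nat_lit 118)) (XT.lf (nat_lit 0) (nat_lit 160557898942) (nat_lit 456) (nat_lit 764812976225) (nat_lit 532) (nat_lit 92617913773) (nat_lit 42) (nat_lit 5) (nat_lit 48) (nat_lit 5) (nat_lit 49) (nat_lit 5) (nat_lit 335) (nat_lit 328) (nat_lit 117))))) (XT.nd (nat_lit 312) (nat_lit 380) (nat_lit 0) (XT.nd (nat_lit 156) (nat_lit 228) (nat_lit 0) (XT.nd (nat_lit 78) (nat_lit 304) (nat_lit 0) (XT.lf (nat_lit 0) (nat_lit 694323083127) (nat_lit 456) (nat_lit 358583320370) (nat_lit 532) (nat_lit 10049739776) (nat_lit 42) (nat_lit 5) (nat_lit 48) (nat_lit 5) (nat_lit 49) (nat_lit 5) (nat_lit 336) (nat_lit 328) (nat_lit 116)) (XT.lf (nat_lit 0) (nat_lit 81230113001) (nat_lit 304) (nat_lit 947478069423) (nat_lit 76) (nat_lit 82175323255) (nat_lit 38) (nat_lit 5) (nat_lit 42) (nat_lit 5) (nat_lit 39) (nat_lit 5) (nat_lit 337) (nat_lit 328) (nat_lit 115))) (XT.nd (nat_lit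 78) (nat_lit 228) (nat_lit 0) (XT.lf (nat_lit 0) (nat_lit 198924128835) (nat_lit 304) (nat_lit 412703914953) (nat_lit 76) (nat_lit 549423752983) (nat_lit 38) (nat_lit 5) (nat_lit 42) (nat_lit 5) (nat_lit 39) (nat_lit 5) (nat_lit 338) (nat_lit 328) (nat_lit 114)) (XT.lf (nat_lit 0) (nat_lit 173532988754) (nat_lit 228) (nat_lit 156674144071) (nat_lit 304) (nat_lit 884692540988) (nat_lit 35) (nat_lit 5) (nat_lit 38) (nat_lit 5) (nat_lit 39) (nat_lit 5) (nat_lit 339) (nat_lit 328) (nat_lit 113)))) (XT.nd (nat_lit 156) (nat_lit 152) (nat_lit 0) (XT.nd (nat_lit 78) (nat_lit 228) (nat_lit 0) (XT.lf (nat_lit 0) (nat_lit 491618887997) (nat_lit 304) (nat_lit 450355040575) (nat_lit 76) (nat_lit 329511363591) (nat_lit 35) (nat_lit 5) (nat_lit 39) (nat_lit 5) (nat_lit 36) (nat_lit 5) (nat_lit 340) (nat_lit 328) (nat_lit 112)) (XT.lf (nat_lit 0) (nat_lit 193550238134) (nat_lit 228) (nat_lit 481117686620)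 (nat_lit 304) (nat_lit 657231887944) (nat_lit 32) (nat_lit 5) (nat_lit 35) (nat_lit 5) (nat_lit 36) (nat_lit 5) (nat_lit 341) (nat_lit 328) (nat_lit 111))) (XT.nd (nat_lit 78) (nat_lit 152) (nat_lit 0) (XT.lf (nat_lit 0) (nat_lit 885393615934) (nat_lit 304) (nat_lit 482301622561) (nat_lit 76) (nat_lit 28409637873) (nat_lit 32) (nat_lit 5) (nat_lit 36) (nat_lit 5) (nat_lit 33) (nat_lit 5) (nat_lit 342) (nat_lit 328) (nat_lit 110)) (XT.lf (nat_lit 0) (nat_lit 224988429134) (nat_lit 152) (nat_lit 905896469262) (nat_lit 228) (nat_lit 333128843866) (nat_lit 30) (nat_lit 5) (nat_lit 32) (nat_lit 5) (nat_lit 33) (nat_lit 5) (nat_lit 343) (nat_lit 328) (nat_lit 109)))))) (XT.nd (nat_lit 39702) (nat_lit 0) (nat_lit 988) (XT.nd (nat_lit 312) (nat_lit 0) (nat_lit 0) (XT.nd (nat_lit 156) (nat_lit 152) (nat_lit 0) (XT.nd (nat_lit 78) (nat_lit 228) (nat_lit 0) (XT.lf (nat_lit 0) (nat_lit 1016290600125)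 (nat_lit 152) (nat_lit 392911860169) (nat_lit 228) (nat_lit 127097898998) (nat_lit 30) (nat_lit 5) (nat_lit 32) (nat_lit 5) (nat_lit 33) (nat_lit 5) (nat_lit 344) (nat_lit 328) (nat_lit 108)) (XT.lf (nat_lit 0) (nat_lit 101180222293) (nat_lit 228) (nat_lit 1350153230752) (nat_lit 76) (nat_lit 162009851266) (nat_lit 27) (nat_lit 5) (nat_lit 30) (nat_lit 5) (nat_lit 28) (nat_lit 5) (nat_lit 345) (nat_lit 328) (nat_lit 107))) (XT.nd (nat_lit 78) (nat_lit 152) (nat_lit 0) (XT.lf (nat_lit 0) (nat_lit 365646791222) (nat_lit 228) (nat_lit 570668988015) (nat_lit 76) (nat_lit 757986383314) (nat_lit 27) (nat_lit 5) (nat_lit 30) (nat_lit 5) (nat_lit 28) (nat_lit 5) (nat_lit 346) (nat_lit 328) (nat_lit 106)) (XT.lf (nat_lit 0) (nat_lit 285453530810) (nat_lit 152) (nat_lit 372682315537) (nat_lit 228) (nat_lit 1123052670257) (nat_lit 25) (nat_lit 5) (nat_lit 27) (nat_lit 5) (nat_lit 28) (nat_lit 5)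 (nat_lit 347) (nat_lit 328) (nat_lit 105)))) (XT.nd (nat_lit 39234) (nat_lit 0) (nat_lit 1520) (XT.nd (nat_lit 39156) (nat_lit 0) (nat_lit 1520) (XT.lf (nat_lit 0) (nat_lit 995709210776) (nat_lit 228) (nat_lit 637339320809) (nat_lit 76) (nat_lit 240242432609) (nat_lit 25) (nat_lit 5) (nat_lit 28) (nat_lit 5) (nat_lit 26) (nat_lit 5) (nat_lit 348) (nat_lit 328) (nat_lit 104)) (XT.lf (nat_lit 0) (nat_lit 266234530904) (nat_lit 532) (nat_lit 73524493090) (nat_lit 532) (nat_lit 73524493090) (nat_lit 45) (nat_lit 3) (nat_lit 52) (nat_lit 3) (nat_lit 52) (nat_lit 5) (nat_lit 329) (nat_lit 329) (nat_lit 122))) (XT.nd (nat_lit 78) (nat_lit 0) (nat_lit 76) (XT.lf (nat_lit 76) (nat_lit 244516865774) (nat_lit 0) (nat_lit 315131682689) (nat_lit 532) (nat_lit 299510708888) (nat_lit 46) (nat_lit 5) (nat_lit 45) (nat_lit 3) (nat_lit 52) (nat_lit 5) (nat_lit 330) (nat_lit 329) (nat_lit 121)) (XT.lf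 (nat_lit 0) (nat_lit 595013052142) (nat_lit 456) (nat_lit 220256512815) (nat_lit 532) (nat_lit 78608440807) (nat_lit 46) (nat_lit 5) (nat_lit 52) (nat_lit 5) (nat_lit 53) (nat_lit 5) (nat_lit 331) (nat_lit 329) (nat_lit 120))))) (XT.nd (nat_lit 312) (nat_lit 608) (nat_lit 0) (XT.nd (nat_lit 156) (nat_lit 0) (nat_lit 76) (XT.nd (nat_lit 78) (nat_lit 0) (nat_lit 0) (XT.lf (nat_lit 76) (nat_lit 207894728645) (nat_lit 0) (nat_lit 438497091058) (nat_lit 532) (nat_lit 283927626083) (nat_lit 47) (nat_lit 5) (nat_lit 46) (nat_lit 5) (nat_lit 53) (nat_lit 5) (nat_lit 332) (nat_lit 329) (nat_lit 119)) (XT.lf (nat_lit 76) (nat_lit 682824247208) (nat_lit 0) (nat_lit 25078837179) (nat_lit 532) (nat_lit 261291340986) (nat_lit 47) (nat_lit 5) (nat_lit 46) (nat_lit 5) (nat_lit 53) (nat_lit 5) (nat_lit 333) (nat_lit 329) (nat_lit 118))) (XT.nd (nat_lit 78) (nat_lit 0) (nat_lit 0) (XT.lf (nat_lit 76)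 (nat_lit 183619099612) (nat_lit 0) (nat_lit 605267177174) (nat_lit 532) (nat_lit 221129044438) (nat_lit 48) (nat_lit 5) (nat_lit 47) (nat_lit 5) (nat_lit 54) (nat_lit 5) (nat_lit 334) (nat_lit 329) (nat_lit 117)) (XT.lf (nat_lit 76) (nat_lit 706807940163) (nat_lit 0) (nat_lit 178004953192) (nat_lit 532) (nat_lit 168611813904) (nat_lit 48) (nat_lit 5) (nat_lit 47) (nat_lit 5) (nat_lit 54) (nat_lit 5) (nat_lit 335) (nat_lit 329) (nat_lit 116)))) (XT.nd (nat_lit 156) (nat_lit 304) (nat_lit 0) (XT.nd (nat_lit 78) (nat_lit 0) (nat_lit 0) (XT.lf (nat_lit 0) (nat_lit 173402644110) (nat_lit 456) (nat_lit 825998023464) (nat_lit 532) (nat_lit 100027214354) (nat_lit 42) (nat_lit 5) (nat_lit 48) (nat_lit 5) (nat_lit 49) (nat_lit 5) (nat_lit 336) (nat_lit 329) (nat_lit 115)) (XT.lf (nat_lit 0) (nat_lit 749869034641) (nat_lit 456) (nat_lit 387269994463) (nat_lit 532) (nat_lit 10853596254) (nat_lit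 42) (nat_lit 5) (nat_lit 48) (nat_lit 5) (nat_lit 49) (nat_lit 5) (nat_lit 337) (nat_lit 329) (nat_lit 114))) (XT.nd (nat_lit 78) (nat_lit 0) (nat_lit 0) (XT.lf (nat_lit 0) (nat_lit 87728632532) (nat_lit 304) (nat_lit 1023276197346) (nat_lit 76) (nat_lit 88749347151) (nat_lit 38) (nat_lit 5) (nat_lit 42) (nat_lit 5) (nat_lit 39) (nat_lit 5) (nat_lit 338) (nat_lit 329) (nat_lit 113)) (XT.lf (nat_lit 0) (nat_lit 214838161448) (nat_lit 304) (nat_lit 445720119232) (nat_lit 76) (nat_lit 593377651403) (nat_lit 38) (nat_lit 5) (nat_lit 42) (nat_lit 5) (nat_lit 39) (nat_lit 5) (nat_lit 339) (nat_lit 329) (nat_lit 112))))))) (XT.nd (nat_lit 40482) (nat_lit 0) (nat_lit 228) (XT.nd (nat_lit 39858) (nat_lit 0) (nat_lit 1140) (XT.nd (nat_lit 312) (nat_lit 380) (nat_lit 0) (XT.nd (nat_lit 156) (nat_lit 228) (nat_lit 0) (XT.nd (nat_lit 78) (nat_lit 0) (nat_lit 0) (XT.lf (nat_lit 0) (nat_lit 187415734015)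 (nat_lit 228) (nat_lit 169208066718) (nat_lit 304) (nat_lit 955467838976) (nat_lit 35) (nat_lit 5) (nat_lit 38) (nat_lit 5) (nat_lit 39) (nat_lit 5) (nat_lit 340) (nat_lit 329) (nat_lit 111)) (XT.lf (nat_lit 0) (nat_lit 530948489310) (nat_lit 304) (nat_lit 486383338305) (nat_lit 76) (nat_lit 355872280488) (nat_lit 35) (nat_lit 5) (nat_lit 39) (nat_lit 5) (nat_lit 36) (nat_lit 5) (nat_lit 341) (nat_lit 329) (nat_lit 110))) (XT.nd (nat_lit 78) (nat_lit 0) (nat_lit 0) (XT.lf (nat_lit 0) (nat_lit 209034360029) (nat_lit 228) (nat_lit 519607084765) (nat_lit 304) (nat_lit 709810345840) (nat_lit 32) (nat_lit 5) (nat_lit 35) (nat_lit 5) (nat_lit 36) (nat_lit 5) (nat_lit 342) (nat_lit 329) (nat_lit 109)) (XT.lf (nat_lit 0) (nat_lit 956225185267) (nat_lit 304) (nat_lit 520885650957) (nat_lit 76) (nat_lit 30682423668) (nat_lit 32) (nat_lit 5) (nat_lit 36) (nat_lit 5) (nat_lit 33) (nat_lit 5) (nat_lit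 343) (nat_lit 329) (nat_lit 108)))) (XT.nd (nat_lit 156) (nat_lit 228) (nat_lit 0) (XT.nd (nat_lit 78) (nat_lit 0) (nat_lit 0) (XT.lf (nat_lit 0) (nat_lit 242987602306) (nat_lit 152) (nat_lit 978368164467) (nat_lit 228) (nat_lit 359779068583) (nat_lit 30) (nat_lit 5) (nat_lit 32) (nat_lit 5) (nat_lit 33) (nat_lit 5) (nat_lit 344) (nat_lit 329) (nat_lit 107)) (XT.lf (nat_lit 0) (nat_lit 1097593939654) (nat_lit 152) (nat_lit 424344788301) (nat_lit 228) (nat_lit 137265654257) (nat_lit 30) (nat_lit 5) (nat_lit 32) (nat_lit 5) (nat_lit 33) (nat_lit 5) (nat_lit 345) (nat_lit 329) (nat_lit 106))) (XT.nd (nat_lit 78) (nat_lit 0) (nat_lit 0) (XT.lf (nat_lit 0) (nat_lit 109274710309) (nat_lit 228) (nat_lit 1458165390988) (nat_lit 76) (nat_lit 174970661607) (nat_lit 27) (nat_lit 5) (nat_lit 30) (nat_lit 5) (nat_lit 28) (nat_lit 5) (nat_lit 346) (nat_lit 329) (nat_lit 105)) (XT.lf (nat_lit 0) (nat_lit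 394898599550) (nat_lit 228) (nat_lit 616322416108) (nat_lit 76) (nat_lit 818625314572) (nat_lit 27) (nat_lit 5) (nat_lit 30) (nat_lit 5) (nat_lit 28) (nat_lit 5) (nat_lit 347) (nat_lit 329) (nat_lit 104))))) (XT.nd (nat_lit 312) (nat_lit 228) (nat_lit 0) (XT.nd (nat_lit 156) (nat_lit 0) (nat_lit 76) (XT.nd (nat_lit 78) (nat_lit 0) (nat_lit 0) (XT.lf (nat_lit 0) (nat_lit 287533378947) (nat_lit 532) (nat_lit 79406406206) (nat_lit 532) (nat_lit 79406406206) (nat_lit 45) (nat_lit 3) (nat_lit 52) (nat_lit 3) (nat_lit 52) (nat_lit 5) (nat_lit 330) (nat_lit 330) (nat_lit 120)) (XT.lf (nat_lit 76) (nat_lit 264078305352) (nat_lit 0) (nat_lit 340342287624) (nat_lit 532) (nat_lit 323471391656) (nat_lit 46) (nat_lit 5) (nat_lit 45) (nat_lit 3) (nat_lit 52) (nat_lit 5) (nat_lit 331) (nat_lit 330) (nat_lit 119))) (XT.nd (nat_lit 78) (nat_lit 0) (nat_lit 0) (XT.lf (nat_lit 0) (nat_lit 642614243485)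 (nat_lit 456) (nat_lit 237876936326) (nat_lit 532) (nat_lit 84897054218) (nat_lit 46) (nat_lit 5) (nat_lit 52) (nat_lit 5) (nat_lit 53) (nat_lit 5) (nat_lit 332) (nat_lit 330) (nat_lit 118)) (XT.lf (nat_lit 76) (nat_lit 224526401981) (nat_lit 0) (nat_lit 473576901853) (nat_lit 532) (nat_lit 306641686138) (nat_lit 47) (nat_lit 5) (nat_lit 46) (nat_lit 5) (nat_lit 53) (nat_lit 5) (nat_lit 333) (nat_lit 330) (nat_lit 117)))) (XT.nd (nat_lit 156) (nat_lit 304) (nat_lit 0) (XT.nd (nat_lit 78) (nat_lit 0) (nat_lit 76) (XT.lf (nat_lit 76) (nat_lit 737450274989) (nat_lit 0) (nat_lit 27085184441) (nat_lit 532) (nat_lit 282194509347) (nat_lit 47) (nat_lit 5) (nat_lit 46) (nat_lit 5) (nat_lit 53) (nat_lit 5) (nat_lit 334) (nat_lit 330) (nat_lit 116)) (XT.lf (nat_lit 76) (nat_lit 198308724658) (nat_lit 0) (nat_lit 653688574498) (nat_lit 532) (nat_lit 238819237813) (nat_lit 48) (nat_lit 5) (nat_lit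 47) (nat_lit 5) (nat_lit 54) (nat_lit 5) (nat_lit 335) (nat_lit 330) (nat_lit 115))) (XT.nd (nat_lit 78) (nat_lit 380) (nat_lit 0) (XT.lf (nat_lit 76) (nat_lit 763352665263) (nat_lit 0) (nat_lit 192245370881) (nat_lit 532) (nat_lit 182100638480) (nat_lit 48) (nat_lit 5) (nat_lit 47) (nat_lit 5) (nat_lit 54) (nat_lit 5) (nat_lit 336) (nat_lit 330) (nat_lit 114)) (XT.lf (nat_lit 0) (nat_lit 187274952735) (nat_lit 456) (nat_lit 892077873179) (nat_lit 532) (nat_lit 108029277888) (nat_lit 42) (nat_lit 5) (nat_lit 48) (nat_lit 5) (nat_lit 49) (nat_lit 5) (nat_lit 337) (nat_lit 330) (nat_lit 113)))))) (XT.nd (nat_lit 624) (nat_lit 0) (nat_lit 0) (XT.nd (nat_lit 312) (nat_lit 380) (nat_lit 0) (XT.nd (nat_lit 156) (nat_lit 228) (nat_lit 0) (XT.nd (nat_lit 78) (nat_lit 304) (nat_lit 0) (XT.lf (nat_lit 0) (nat_lit 809858647317) (nat_lit 456) (nat_lit 418251601277) (nat_lit 532) (nat_lit 11721778755)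 (nat_lit 42) (nat_lit 5) (nat_lit 48) (nat_lit 5) (nat_lit 49) (nat_lit 5) (nat_lit 338) (nat_lit 330) (nat_lit 112)) (XT.lf (nat_lit 0) (nat_lit 94747017862) (nat_lit 304) (nat_lit 1105138192285) (nat_lit 76) (nat_lit 95849293238) (nat_lit 38) (nat_lit 5) (nat_lit 42) (nat_lit 5) (nat_lit 39) (nat_lit 5) (nat_lit 339) (nat_lit 330) (nat_lit 111))) (XT.nd (nat_lit 78) (nat_lit 228) (nat_lit 0) (XT.lf (nat_lit 0) (nat_lit 232025302075) (nat_lit 304) (nat_lit 481377635391) (nat_lit 76) (nat_lit 640847861955) (nat_lit 38) (nat_lit 5) (nat_lit 42) (nat_lit 5) (nat_lit 39) (nat_lit 5) (nat_lit 340) (nat_lit 330) (nat_lit 110)) (XT.lf (nat_lit 0) (nat_lit 202409083751) (nat_lit 228) (nat_lit 182744704443) (nat_lit 304) (nat_lit 1031905175824) (nat_lit 35) (nat_lit 5) (nat_lit 38) (nat_lit 5) (nat_lit 39) (nat_lit 5) (nat_lit 341) (nat_lit 330) (nat_lit 109)))) (XT.nd (nat_lit 156) (nat_lit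 152) (nat_lit 0) (XT.nd (nat_lit 78) (nat_lit 228) (nat_lit 0) (XT.lf (nat_lit 0) (nat_lit 573424445849) (nat_lit 304) (nat_lit 525293914907) (nat_lit 76) (nat_lit 384342069623) (nat_lit 35) (nat_lit 5) (nat_lit 39) (nat_lit 5) (nat_lit 36) (nat_lit 5) (nat_lit 342) (nat_lit 330) (nat_lit 108)) (XT.lf (nat_lit 0) (nat_lit 225757197004) (nat_lit 228) (nat_lit 561175637155) (nat_lit 304) (nat_lit 766595093655) (nat_lit 32) (nat_lit 5) (nat_lit 35) (nat_lit 5) (nat_lit 36) (nat_lit 5) (nat_lit 343) (nat_lit 330) (nat_lit 107))) (XT.nd (nat_lit 78) (nat_lit 152) (nat_lit 0) (XT.lf (nat_lit 0) (nat_lit 1032723268726) (nat_lit 304) (nat_lit 562556416092) (nat_lit 76) (nat_lit 33137030219) (nat_lit 32) (nat_lit 5) (nat_lit 36) (nat_lit 5) (nat_lit 33) (nat_lit 5) (nat_lit 344) (nat_lit 330) (nat_lit 106)) (XT.lf (nat_lit 0) (nat_lit 262426695231) (nat_lit 152) (nat_lit 1056637598475) (nat_lit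 228) (nat_lit 388561323087) (nat_lit 30) (nat_lit 5) (nat_lit 32) (nat_lit 5) (nat_lit 33) (nat_lit 5) (nat_lit 345) (nat_lit 330) (nat_lit 105))))) (XT.nd (nat_lit 39702) (nat_lit 0) (nat_lit 1216) (XT.nd (nat_lit 39546) (nat_lit 0) (nat_lit 1140) (XT.nd (nat_lit 39468) (nat_lit 0) (nat_lit 1140) (XT.lf (nat_lit 0) (nat_lit 1185401533290) (nat_lit 152) (nat_lit 458292353634) (nat_lit 228) (nat_lit 148246840874) (nat_lit 30) (nat_lit 5) (nat_lit 32) (nat_lit 5) (nat_lit 33) (nat_lit 5) (nat_lit 346) (nat_lit 330) (nat_lit 104)) (XT.lf (nat_lit 0) (nat_lit 310536122626) (nat_lit 532) (nat_lit 85758878981) (nat_lit 532) (nat_lit 85758878981) (nat_lit 45) (nat_lit 3) (nat_lit 52) (nat_lit 3) (nat_lit 52) (nat_lit 5) (nat_lit 331) (nat_lit 331) (nat_lit 118))) (XT.nd (nat_lit 78) (nat_lit 0) (nat_lit 76) (XT.lf (nat_lit 76) (nat_lit 285204647213) (nat_lit 0) (nat_lit 367569730921) (nat_lit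 532) (nat_lit 349348953860) (nat_lit 46) (nat_lit 5) (nat_lit 45) (nat_lit 3) (nat_lit 52) (nat_lit 5) (nat_lit 332) (nat_lit 331) (nat_lit 117)) (XT.lf (nat_lit 0) (nat_lit 694023509139) (nat_lit 456) (nat_lit 256907007630) (nat_lit 532) (nat_lit 91688765526) (nat_lit 46) (nat_lit 5) (nat_lit 52) (nat_lit 5) (nat_lit 53) (nat_lit 5) (nat_lit 333) (nat_lit 331) (nat_lit 116)))) (XT.nd (nat_lit 156) (nat_lit 0) (nat_lit 76) (XT.nd (nat_lit 78) (nat_lit 0) (nat_lit 0) (XT.lf (nat_lit 76) (nat_lit 242488595626) (nat_lit 0) (nat_lit 511463091305) (nat_lit 532) (nat_lit 331172892402) (nat_lit 47) (nat_lit 5) (nat_lit 46) (nat_lit 5) (nat_lit 53) (nat_lit 5) (nat_lit 334) (nat_lit 331) (nat_lit 115)) (XT.lf (nat_lit 76) (nat_lit 796446372438) (nat_lit 0) (nat_lit 29252033736) (nat_lit 532) (nat_lit 304769950995) (nat_lit 47) (nat_lit 5) (nat_lit 46) (nat_lit 5) (nat_lit 53) (nat_lit 5) (nat_lit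 335) (nat_lit 331) (nat_lit 114))) (XT.nd (nat_lit 78) (nat_lit 0) (nat_lit 0) (XT.lf (nat_lit 76) (nat_lit 214173505859) (nat_lit 0) (nat_lit 705983680304) (nat_lit 532) (nat_lit 257924665229) (nat_lit 48) (nat_lit 5) (nat_lit 47) (nat_lit 5) (nat_lit 54) (nat_lit 5) (nat_lit 336) (nat_lit 331) (nat_lit 113)) (XT.lf (nat_lit 76) (nat_lit 824420955547) (nat_lit 0) (nat_lit 207625018929) (nat_lit 532) (nat_lit 196668586217) (nat_lit 48) (nat_lit 5) (nat_lit 47) (nat_lit 5) (nat_lit 54) (nat_lit 5) (nat_lit 337) (nat_lit 331) (nat_lit 112))))))))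
noncomputable def xc127 : XT := (XT.nd (nat_lit 81666) (nat_lit 0) (nat_lit 228) (XT.nd (nat_lit 40794) (nat_lit 0) (nat_lit 0) (XT.nd (nat_lit 40170) (nat_lit 0) (nat_lit 760) (XT.nd (nat_lit 312) (nat_lit 456) (nat_lit 0) (XT.nd (nat_lit 156) (nat_lit 304) (nat_lit 0) (XT.nd (nat_lit 78) (nat_lit 0) (nat_lit 0) (XT.lf (nat_lit 0) (nat_lit 202257032198) (nat_lit 456) (nat_lit 963444109752) (nat_lit 532) (nat_lit 116671522712) (nat_lit 42) (nat_lit 5) (nat_lit 48) (nat_lit 5) (nat_lit 49) (nat_lit 5) (nat_lit 338) (nat_lit 331) (nat_lit 111)) (XT.lf (nat_lit 0) (nat_lit 874647416180) (nat_lit 456) (nat_lit 451711735600) (nat_lit 532) (nat_lit 12659430865) (nat_lit 42) (nat_lit 5) (nat_lit 48) (nat_lit 5) (nat_lit 49) (nat_lit 5) (nat_lit 339) (nat_lit 331) (nat_lit 110))) (XT.nd (nat_lit 78) (nat_lit 0) (nat_lit 0) (XT.lf (nat_lit 0) (nat_lit 102326860505) (nat_lit 304) (nat_lit 1193549161205)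 (nat_lit 76) (nat_lit 103517235253) (nat_lit 38) (nat_lit 5) (nat_lit 42) (nat_lit 5) (nat_lit 39) (nat_lit 5) (nat_lit 340) (nat_lit 331) (nat_lit 109)) (XT.lf (nat_lit 0) (nat_lit 250587401439) (nat_lit 304) (nat_lit 519887766165) (nat_lit 76) (nat_lit 692115689574) (nat_lit 38) (nat_lit 5) (nat_lit 42) (nat_lit 5) (nat_lit 39) (nat_lit 5) (nat_lit 341) (nat_lit 331) (nat_lit 108)))) (XT.nd (nat_lit 156) (nat_lit 228) (nat_lit 0) (XT.nd (nat_lit 78) (nat_lit 0) (nat_lit 0) (XT.lf (nat_lit 0) (nat_lit 218601888482) (nat_lit 228) (nat_lit 197364274272) (nat_lit 304) (nat_lit 1114457512497) (nat_lit 35) (nat_lit 5) (nat_lit 38) (nat_lit 5) (nat_lit 39) (nat_lit 5) (nat_lit 342) (nat_lit 331) (nat_lit 107)) (XT.lf (nat_lit 0) (nat_lit 619298467870) (nat_lit 304) (nat_lit 567317350542) (nat_lit 76) (nat_lit 415089440934) (nat_lit 35) (nat_lit 5) (nat_lit 39) (nat_lit 5) (nat_lit 36) (nat_lit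 5) (nat_lit 343) (nat_lit 331) (nat_lit 106))) (XT.nd (nat_lit 78) (nat_lit 0) (nat_lit 0) (XT.lf (nat_lit 0) (nat_lit 243817848358) (nat_lit 228) (nat_lit 606069675790) (nat_lit 304) (nat_lit 827922632687) (nat_lit 32) (nat_lit 5) (nat_lit 35) (nat_lit 5) (nat_lit 36) (nat_lit 5) (nat_lit 344) (nat_lit 331) (nat_lit 105)) (XT.lf (nat_lit 0) (nat_lit 1115341189069) (nat_lit 304) (nat_lit 607560854841) (nat_lit 76) (nat_lit 35788003489) (nat_lit 32) (nat_lit 5) (nat_lit 36) (nat_lit 5) (nat_lit 33) (nat_lit 5) (nat_lit 345) (nat_lit 331) (nat_lit 104))))) (XT.nd (nat_lit 312) (nat_lit 228) (nat_lit 0) (XT.nd (nat_lit 156) (nat_lit 0) (nat_lit 76) (XT.nd (nat_lit 78) (nat_lit 0) (nat_lit 0) (XT.lf (nat_lit 0) (nat_lit 335379075333) (nat_lit 532) (nat_lit 92619555245) (nat_lit 532) (nat_lit 92619555245) (nat_lit 45) (nat_lit 3) (nat_lit 52) (nat_lit 3) (nat_lit 52) (nat_lit 5) (nat_lit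 332) (nat_lit 332) (nat_lit 116)) (XT.lf (nat_lit 76) (nat_lit 308021085375) (nat_lit 0) (nat_lit 396975361082) (nat_lit 532) (nat_lit 377296742316) (nat_lit 46) (nat_lit 5) (nat_lit 45) (nat_lit 3) (nat_lit 52) (nat_lit 5) (nat_lit 333) (nat_lit 332) (nat_lit 115))) (XT.nd (nat_lit 78) (nat_lit 0) (nat_lit 0) (XT.lf (nat_lit 0) (nat_lit 749545498046) (nat_lit 456) (nat_lit 277459496565) (nat_lit 532) (nat_lit 99023821303) (nat_lit 46) (nat_lit 5) (nat_lit 52) (nat_lit 5) (nat_lit 53) (nat_lit 5) (nat_lit 334) (nat_lit 332) (nat_lit 114)) (XT.lf (nat_lit 76) (nat_lit 261887753137) (nat_lit 0) (nat_lit 552380170591) (nat_lit 532) (nat_lit 357666613516) (nat_lit 47) (nat_lit 5) (nat_lit 46) (nat_lit 5) (nat_lit 53) (nat_lit 5) (nat_lit 335) (nat_lit 332) (nat_lit 113)))) (XT.nd (nat_lit 156) (nat_lit 304) (nat_lit 0) (XT.nd (nat_lit 78) (nat_lit 0) (nat_lit 76) (XT.lf (nat_lit 76) (nat_lit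 860162146919) (nat_lit 0) (nat_lit 31592226048) (nat_lit 532) (nat_lit 329151444966) (nat_lit 47) (nat_lit 5) (nat_lit 46) (nat_lit 5) (nat_lit 53) (nat_lit 5) (nat_lit 336) (nat_lit 332) (nat_lit 112)) (XT.lf (nat_lit 76) (nat_lit 231307457683) (nat_lit 0) (nat_lit 762462391744) (nat_lit 532) (nat_lit 278558542761) (nat_lit 48) (nat_lit 5) (nat_lit 47) (nat_lit 5) (nat_lit 54) (nat_lit 5) (nat_lit 337) (nat_lit 332) (nat_lit 111))) (XT.nd (nat_lit 78) (nat_lit 380) (nat_lit 0) (XT.lf (nat_lit 76) (nat_lit 890374698061) (nat_lit 0) (nat_lit 224235036198) (nat_lit 532) (nat_lit 212401984516) (nat_lit 48) (nat_lit 5) (nat_lit 47) (nat_lit 5) (nat_lit 54) (nat_lit 5) (nat_lit 338) (nat_lit 332) (nat_lit 110)) (XT.lf (nat_lit 0) (nat_lit 218437666143) (nat_lit 456) (nat_lit 1040519644292) (nat_lit 532) (nat_lit 126005161019) (nat_lit 42) (nat_lit 5) (nat_lit 48) (nat_lit 5) (nat_lit 49)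 (nat_lit 5) (nat_lit 339) (nat_lit 332) (nat_lit 109)))))) (XT.nd (nat_lit 40248) (nat_lit 0) (nat_lit 456) (XT.nd (nat_lit 312) (nat_lit 228) (nat_lit 0) (XT.nd (nat_lit 156) (nat_lit 228) (nat_lit 0) (XT.nd (nat_lit 78) (nat_lit 304) (nat_lit 0) (XT.lf (nat_lit 0) (nat_lit 944619275556) (nat_lit 456) (nat_lit 487848679782) (nat_lit 532) (nat_lit 13672108009) (nat_lit 42) (nat_lit 5) (nat_lit 48) (nat_lit 5) (nat_lit 49) (nat_lit 5) (nat_lit 340) (nat_lit 332) (nat_lit 108)) (XT.lf (nat_lit 0) (nat_lit 110513078973) (nat_lit 304) (nat_lit 1289033019974) (nat_lit 76) (nat_lit 111798612835) (nat_lit 38) (nat_lit 5) (nat_lit 42) (nat_lit 5) (nat_lit 39) (nat_lit 5) (nat_lit 341) (nat_lit 332) (nat_lit 107))) (XT.nd (nat_lit 78) (nat_lit 228) (nat_lit 0) (XT.lf (nat_lit 0) (nat_lit 270634458024) (nat_lit 304) (nat_lit 561478718822) (nat_lit 76) (nat_lit 747484943594) (nat_lit 38) (nat_lit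 5) (nat_lit 42) (nat_lit 5) (nat_lit 39) (nat_lit 5) (nat_lit 342) (nat_lit 332) (nat_lit 106)) (XT.lf (nat_lit 0) (nat_lit 236090106460) (nat_lit 228) (nat_lit 213153410618) (nat_lit 304) (nat_lit 1203614047145) (nat_lit 35) (nat_lit 5) (nat_lit 38) (nat_lit 5) (nat_lit 39) (nat_lit 5) (nat_lit 343) (nat_lit 332) (nat_lit 105)))) (XT.nd (nat_lit 39780) (nat_lit 0) (nat_lit 988) (XT.nd (nat_lit 78) (nat_lit 228) (nat_lit 0) (XT.lf (nat_lit 0) (nat_lit 668842402187) (nat_lit 304) (nat_lit 612702672093) (nat_lit 76) (nat_lit 448296601130) (nat_lit 35) (nat_lit 5) (nat_lit 39) (nat_lit 5) (nat_lit 36) (nat_lit 5) (nat_lit 344) (nat_lit 332) (nat_lit 104)) (XT.lf (nat_lit 0) (nat_lit 263323341037) (nat_lit 228) (nat_lit 654555239276) (nat_lit 304) (nat_lit 894156384608) (nat_lit 32) (nat_lit 5) (nat_lit 35) (nat_lit 5) (nat_lit 36) (nat_lit 5) (nat_lit 345) (nat_lit 332) (nat_lit 103)))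 (XT.nd (nat_lit 78) (nat_lit 0) (nat_lit 0) (XT.lf (nat_lit 0) (nat_lit 362209455284) (nat_lit 532) (nat_lit 100029090468) (nat_lit 532) (nat_lit 100029090468) (nat_lit 45) (nat_lit 3) (nat_lit 52) (nat_lit 3) (nat_lit 52) (nat_lit 5) (nat_lit 333) (nat_lit 333) (nat_lit 114)) (XT.lf (nat_lit 76) (nat_lit 332662829120) (nat_lit 0) (nat_lit 428733434282) (nat_lit 532) (nat_lit 407480372087) (nat_lit 46) (nat_lit 5) (nat_lit 45) (nat_lit 3) (nat_lit 52) (nat_lit 5) (nat_lit 334) (nat_lit 333) (nat_lit 113))))) (XT.nd (nat_lit 312) (nat_lit 608) (nat_lit 0) (XT.nd (nat_lit 156) (nat_lit 0) (nat_lit 0) (XT.nd (nat_lit 78) (nat_lit 0) (nat_lit 0) (XT.lf (nat_lit 0) (nat_lit 809509230633) (nat_lit 456) (nat_lit 299656194840) (nat_lit 532) (nat_lit 106945688029) (nat_lit 46) (nat_lit 5) (nat_lit 52) (nat_lit 5) (nat_lit 53) (nat_lit 5) (nat_lit 335) (nat_lit 333) (nat_lit 112)) (XT.lf (nat_lit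 76) (nat_lit 282838833282) (nat_lit 0) (nat_lit 596570611657) (nat_lit 532) (nat_lit 386279848053) (nat_lit 47) (nat_lit 5) (nat_lit 46) (nat_lit 5) (nat_lit 53) (nat_lit 5) (nat_lit 336) (nat_lit 333) (nat_lit 111))) (XT.nd (nat_lit 78) (nat_lit 0) (nat_lit 76) (XT.lf (nat_lit 76) (nat_lit 928975174131) (nat_lit 0) (nat_lit 34119629520) (nat_lit 532) (nat_lit 355483473022) (nat_lit 47) (nat_lit 5) (nat_lit 46) (nat_lit 5) (nat_lit 53) (nat_lit 5) (nat_lit 337) (nat_lit 333) (nat_lit 110)) (XT.lf (nat_lit 76) (nat_lit 249812115472) (nat_lit 0) (nat_lit 823459397672) (nat_lit 532) (nat_lit 300843144147) (nat_lit 48) (nat_lit 5) (nat_lit 47) (nat_lit 5) (nat_lit 54) (nat_lit 5) (nat_lit 338) (nat_lit 333) (nat_lit 109)))) (XT.nd (nat_lit 156) (nat_lit 304) (nat_lit 0) (XT.nd (nat_lit 78) (nat_lit 380) (nat_lit 0) (XT.lf (nat_lit 76) (nat_lit 961604730549) (nat_lit 0) (nat_lit 242173852601)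 (nat_lit 532) (nat_lit 229394067318) (nat_lit 48) (nat_lit 5) (nat_lit 47) (nat_lit 5) (nat_lit 54) (nat_lit 5) (nat_lit 339) (nat_lit 333) (nat_lit 108)) (XT.lf (nat_lit 0) (nat_lit 235912740621) (nat_lit 456) (nat_lit 1123761220774) (nat_lit 532) (nat_lit 136085502304) (nat_lit 42) (nat_lit 5) (nat_lit 48) (nat_lit 5) (nat_lit 49) (nat_lit 5) (nat_lit 340) (nat_lit 333) (nat_lit 107))) (XT.nd (nat_lit 78) (nat_lit 304) (nat_lit 0) (XT.lf (nat_lit 0) (nat_lit 1020188874255) (nat_lit 456) (nat_lit 526876578737) (nat_lit 532) (nat_lit 14765810357) (nat_lit 42) (nat_lit 5) (nat_lit 48) (nat_lit 5) (nat_lit 49) (nat_lit 5) (nat_lit 341) (nat_lit 333) (nat_lit 106)) (XT.lf (nat_lit 0) (nat_lit 119354184985) (nat_lit 304) (nat_lit 1392155598020) (nat_lit 76) (nat_lit 120742500800) (nat_lit 38) (nat_lit 5) (nat_lit 42) (nat_lit 5) (nat_lit 39) (nat_lit 5) (nat_lit 342) (nat_lit 333) (nat_lit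 105))))))) (XT.nd (nat_lit 80964) (nat_lit 0) (nat_lit 532) (XT.nd (nat_lit 40404) (nat_lit 0) (nat_lit 228) (XT.nd (nat_lit 40092) (nat_lit 0) (nat_lit 836) (XT.nd (nat_lit 39936) (nat_lit 0) (nat_lit 760) (XT.nd (nat_lit 78) (nat_lit 228) (nat_lit 0) (XT.lf (nat_lit 0) (nat_lit 292285269939) (nat_lit 304) (nat_lit 606396957483) (nat_lit 76) (nat_lit 807283738098) (nat_lit 38) (nat_lit 5) (nat_lit 42) (nat_lit 5) (nat_lit 39) (nat_lit 5) (nat_lit 343) (nat_lit 333) (nat_lit 104)) (XT.lf (nat_lit 0) (nat_lit 254977372331) (nat_lit 228) (nat_lit 230205678671) (nat_lit 304) (nat_lit 1299903114031) (nat_lit 35) (nat_lit 5) (nat_lit 38) (nat_lit 5) (nat_lit 39) (nat_lit 5) (nat_lit 344) (nat_lit 333) (nat_lit 103))) (XT.nd (nat_lit 78) (nat_lit 0) (nat_lit 0) (XT.lf (nat_lit 0) (nat_lit 391186257938) (nat_lit 532) (nat_lit 108031392674) (nat_lit 532) (nat_lit 108031392674) (nat_lit 45) (nat_lit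 3) (nat_lit 52) (nat_lit 3) (nat_lit 52) (nat_lit 5) (nat_lit 334) (nat_lit 334) (nat_lit 112)) (XT.lf (nat_lit 76) (nat_lit 359275904245) (nat_lit 0) (nat_lit 463032147016) (nat_lit 532) (nat_lit 440078707878) (nat_lit 46) (nat_lit 5) (nat_lit 45) (nat_lit 3) (nat_lit 52) (nat_lit 5) (nat_lit 335) (nat_lit 334) (nat_lit 111)))) (XT.nd (nat_lit 156) (nat_lit 0) (nat_lit 0) (XT.nd (nat_lit 78) (nat_lit 0) (nat_lit 0) (XT.lf (nat_lit 0) (nat_lit 874270048595) (nat_lit 456) (nat_lit 323628637743) (nat_lit 532) (nat_lit 115501309654) (nat_lit 46) (nat_lit 5) (nat_lit 52) (nat_lit 5) (nat_lit 53) (nat_lit 5) (nat_lit 336) (nat_lit 334) (nat_lit 110)) (XT.lf (nat_lit 76) (nat_lit 305465991295) (nat_lit 0) (nat_lit 644296284098) (nat_lit 532) (nat_lit 417182154840) (nat_lit 47) (nat_lit 5) (nat_lit 46) (nat_lit 5) (nat_lit 53) (nat_lit 5) (nat_lit 337) (nat_lit 334) (nat_lit 109))) (XT.nd (nat_lit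 78) (nat_lit 0) (nat_lit 76) (XT.lf (nat_lit 76) (nat_lit 1003293235607) (nat_lit 0) (nat_lit 36849221648) (nat_lit 532) (nat_lit 383922075811) (nat_lit 47) (nat_lit 5) (nat_lit 46) (nat_lit 5) (nat_lit 53) (nat_lit 5) (nat_lit 338) (nat_lit 334) (nat_lit 108)) (XT.lf (nat_lit 76) (nat_lit 269797137158) (nat_lit 0) (nat_lit 889336161993) (nat_lit 532) (nat_lit 324910525346) (nat_lit 48) (nat_lit 5) (nat_lit 47) (nat_lit 5) (nat_lit 54) (nat_lit 5) (nat_lit 339) (nat_lit 334) (nat_lit 107))))) (XT.nd (nat_lit 40248) (nat_lit 0) (nat_lit 532) (XT.nd (nat_lit 156) (nat_lit 304) (nat_lit 0) (XT.nd (nat_lit 78) (nat_lit 380) (nat_lit 0) (XT.lf (nat_lit 76) (nat_lit 1038533157556) (nat_lit 0) (nat_lit 261547772390) (nat_lit 532) (nat_lit 247745527581) (nat_lit 48) (nat_lit 5) (nat_lit 47) (nat_lit 5) (nat_lit 54) (nat_lit 5) (nat_lit 340) (nat_lit 334) (nat_lit 106)) (XT.lf (nat_lit 0) (nat_lit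 254785812329) (nat_lit 456) (nat_lit 1213662122670) (nat_lit 532) (nat_lit 146972281106) (nat_lit 42) (nat_lit 5) (nat_lit 48) (nat_lit 5) (nat_lit 49) (nat_lit 5) (nat_lit 341) (nat_lit 334) (nat_lit 105))) (XT.nd (nat_lit 78) (nat_lit 304) (nat_lit 0) (XT.lf (nat_lit 0) (nat_lit 1101804032768) (nat_lit 456) (nat_lit 569026708957) (nat_lit 532) (nat_lit 15947018350) (nat_lit 42) (nat_lit 5) (nat_lit 48) (nat_lit 5) (nat_lit 49) (nat_lit 5) (nat_lit 342) (nat_lit 334) (nat_lit 104)) (XT.lf (nat_lit 0) (nat_lit 128902570963) (nat_lit 304) (nat_lit 1503527991376) (nat_lit 76) (nat_lit 130401899954) (nat_lit 38) (nat_lit 5) (nat_lit 42) (nat_lit 5) (nat_lit 39) (nat_lit 5) (nat_lit 343) (nat_lit 334) (nat_lit 103)))) (XT.nd (nat_lit 156) (nat_lit 0) (nat_lit 76) (XT.nd (nat_lit 78) (nat_lit 0) (nat_lit 0) (XT.lf (nat_lit 0) (nat_lit 422481198209) (nat_lit 532) (nat_lit 116673882627) (nat_lit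 532) (nat_lit 116673882627) (nat_lit 45) (nat_lit 3) (nat_lit 52) (nat_lit 3) (nat_lit 52) (nat_lit 5) (nat_lit 335) (nat_lit 335) (nat_lit 110)) (XT.lf (nat_lit 76) (nat_lit 388018018419) (nat_lit 0) (nat_lit 500074751349) (nat_lit 532) (nat_lit 475284923939) (nat_lit 46) (nat_lit 5) (nat_lit 45) (nat_lit 3) (nat_lit 52) (nat_lit 5) (nat_lit 336) (nat_lit 335) (nat_lit 109))) (XT.nd (nat_lit 78) (nat_lit 0) (nat_lit 0) (XT.lf (nat_lit 0) (nat_lit 944211720652) (nat_lit 456) (nat_lit 349518883595) (nat_lit 532) (nat_lit 124741385776) (nat_lit 46) (nat_lit 5) (nat_lit 52) (nat_lit 5) (nat_lit 53) (nat_lit 5) (nat_lit 337) (nat_lit 335) (nat_lit 108)) (XT.lf (nat_lit 76) (nat_lit 329903314622) (nat_lit 0) (nat_lit 695840006979) (nat_lit 532) (nat_lit 450556657733) (nat_lit 47) (nat_lit 5) (nat_lit 46) (nat_lit 5) (nat_lit 53) (nat_lit 5) (nat_lit 338) (nat_lit 335) (nat_lit 107)))))) (XT.nd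 (nat_lit 40716) (nat_lit 0) (nat_lit 228) (XT.nd (nat_lit 40404) (nat_lit 0) (nat_lit 228) (XT.nd (nat_lit 156) (nat_lit 304) (nat_lit 0) (XT.nd (nat_lit 78) (nat_lit 0) (nat_lit 76) (XT.lf (nat_lit 76) (nat_lit 1083556735219) (nat_lit 0) (nat_lit 39797178041) (nat_lit 532) (nat_lit 414635777530) (nat_lit 47) (nat_lit 5) (nat_lit 46) (nat_lit 5) (nat_lit 53) (nat_lit 5) (nat_lit 339) (nat_lit 335) (nat_lit 106)) (XT.lf (nat_lit 76) (nat_lit 291380953097) (nat_lit 0) (nat_lit 960483065675) (nat_lit 532) (nat_lit 350903307075) (nat_lit 48) (nat_lit 5) (nat_lit 47) (nat_lit 5) (nat_lit 54) (nat_lit 5) (nat_lit 340) (nat_lit 335) (nat_lit 105))) (XT.nd (nat_lit 78) (nat_lit 380) (nat_lit 0) (XT.lf (nat_lit 76) (nat_lit 1121615851795) (nat_lit 0) (nat_lit 282471604110) (nat_lit 532) (nat_lit 267565113956) (nat_lit 48) (nat_lit 5) (nat_lit 47) (nat_lit 5) (nat_lit 54) (nat_lit 5) (nat_lit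 341) (nat_lit 335) (nat_lit 104)) (XT.lf (nat_lit 0) (nat_lit 275168722290) (nat_lit 456) (nat_lit 1310755096114) (nat_lit 532) (nat_lit 158730010968) (nat_lit 42) (nat_lit 5) (nat_lit 48) (nat_lit 5) (nat_lit 49) (nat_lit 5) (nat_lit 342) (nat_lit 335) (nat_lit 103)))) (XT.nd (nat_lit 156) (nat_lit 0) (nat_lit 76) (XT.nd (nat_lit 78) (nat_lit 0) (nat_lit 0) (XT.lf (nat_lit 0) (nat_lit 456279728047) (nat_lit 532) (nat_lit 126007774839) (nat_lit 532) (nat_lit 126007774839) (nat_lit 45) (nat_lit 3) (nat_lit 52) (nat_lit 3) (nat_lit 52) (nat_lit 5) (nat_lit 336) (nat_lit 336) (nat_lit 108)) (XT.lf (nat_lit 76) (nat_lit 419059495758) (nat_lit 0) (nat_lit 540080759382) (nat_lit 532) (nat_lit 513307648778) (nat_lit 46) (nat_lit 5) (nat_lit 45) (nat_lit 3) (nat_lit 52) (nat_lit 5) (nat_lit 337) (nat_lit 336) (nat_lit 107))) (XT.nd (nat_lit 78) (nat_lit 0) (nat_lit 0) (XT.lf (nat_lit 0) (nat_lit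 1019748716748) (nat_lit 456) (nat_lit 377480355559) (nat_lit 532) (nat_lit 134720672075) (nat_lit 46) (nat_lit 5) (nat_lit 52) (nat_lit 5) (nat_lit 53) (nat_lit 5) (nat_lit 338) (nat_lit 336) (nat_lit 106)) (XT.lf (nat_lit 76) (nat_lit 356295617536) (nat_lit 0) (nat_lit 751507224816) (nat_lit 532) (nat_lit 486601130773) (nat_lit 47) (nat_lit 5) (nat_lit 46) (nat_lit 5) (nat_lit 53) (nat_lit 5) (nat_lit 339) (nat_lit 336) (nat_lit 105))))) (XT.nd (nat_lit 40560) (nat_lit 0) (nat_lit 0) (XT.nd (nat_lit 40404) (nat_lit 76) (nat_lit 0) (XT.nd (nat_lit 78) (nat_lit 0) (nat_lit 76) (XT.lf (nat_lit 76) (nat_lit 1170241308985) (nat_lit 0) (nat_lit 42980968283) (nat_lit 532) (nat_lit 447806584566) (nat_lit 47) (nat_lit 5) (nat_lit 46) (nat_lit 5) (nat_lit 53) (nat_lit 5) (nat_lit 340) (nat_lit 336) (nat_lit 104)) (XT.lf (nat_lit 76) (nat_lit 314691467895) (nat_lit 0) (nat_lit 1037321720122) (nat_lit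 532) (nat_lit 378975519945) (nat_lit 48) (nat_lit 5) (nat_lit 47) (nat_lit 5) (nat_lit 54) (nat_lit 5) (nat_lit 341) (nat_lit 336) (nat_lit 103))) (XT.nd (nat_lit 78) (nat_lit 0) (nat_lit 0) (XT.lf (nat_lit 0) (nat_lit 492782135424) (nat_lit 532) (nat_lit 136088381052) (nat_lit 532) (nat_lit 136088381052) (nat_lit 45) (nat_lit 3) (nat_lit 52) (nat_lit 3) (nat_lit 52) (nat_lit 5) (nat_lit 337) (nat_lit 337) (nat_lit 106)) (XT.lf (nat_lit 76) (nat_lit 452584286168) (nat_lit 0) (nat_lit 583287244074) (nat_lit 532) (nat_lit 554372201460) (nat_lit 46) (nat_lit 5) (nat_lit 45) (nat_lit 3) (nat_lit 52) (nat_lit 5) (nat_lit 338) (nat_lit 337) (nat_lit 105)))) (XT.nd (nat_lit 40560) (nat_lit 76) (nat_lit 0) (XT.nd (nat_lit 78) (nat_lit 0) (nat_lit 0) (XT.lf (nat_lit 0) (nat_lit 1101328664194) (nat_lit 456) (nat_lit 407678750804) (nat_lit 532) (nat_lit 145498304783) (nat_lit 46) (nat_lit 5) (nat_lit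 52) (nat_lit 5) (nat_lit 53) (nat_lit 5) (nat_lit 339) (nat_lit 337) (nat_lit 104)) (XT.lf (nat_lit 76) (nat_lit 384799299298) (nat_lit 0) (nat_lit 811627817615) (nat_lit 532) (nat_lit 525529170155) (nat_lit 47) (nat_lit 5) (nat_lit 46) (nat_lit 5) (nat_lit 53) (nat_lit 5) (nat_lit 340) (nat_lit 337) (nat_lit 103))) (XT.nd (nat_lit 78) (nat_lit 0) (nat_lit 0) (XT.lf (nat_lit 0) (nat_lit 532204731236) (nat_lit 532) (nat_lit 146975438013) (nat_lit 532) (nat_lit 146975438013) (nat_lit 45) (nat_lit 3) (nat_lit 52) (nat_lit 3) (nat_lit 52) (nat_lit 5) (nat_lit 338) (nat_lit 338) (nat_lit 104)) (XT.lf (nat_lit 76) (nat_lit 488791055425) (nat_lit 0) (nat_lit 629950244126) (nat_lit 532) (nat_lit 598721926804) (nat_lit 46) (nat_lit 5) (nat_lit 45) (nat_lit 3) (nat_lit 52) (nat_lit 5) (nat_lit 339) (nat_lit 338) (nat_lit 103))))))))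

set_option maxRecDepth 10000000 in
noncomputable def Tp : PT := (PT.nd (nat_lit 5374902) (PT.nd (nat_lit 5090202) (PT.nd (nat_lit 4805736) pc0 pc1) (PT.nd (nat_lit 202410) pc2 pc3)) (PT.nd (nat_lit 201474) (PT.nd (nat_lit 120666) pc4 pc5) (PT.nd (nat_lit 121446) pc6 pc7)))

set_option maxRecDepth 10000000 in
noncomputable def Tx : XT := (XT.nd (nat_lit 8319168) (nat_lit 0) (nat_lit 76) XT.nil (XT.nd (nat_lit 5442996) (nat_lit 0) (nat_lit 0) (XT.nd (nat_lit 2595996) (nat_lit 0) (nat_lit 0) (XT.nd (nat_lit 1786200) (nat_lit 0) (nat_lit 0) (XT.nd (nat_lit 1257048) (nat_lit 0) (nat_lit 0) (XT.nd (nat_lit 890604) (nat_lit 0) (nat_lit 0) (XT.nd (nat_lit 608244) (nat_lit 0) (nat_lit 0) (XT.nd (nat_lit 406068) (nat_lit 0) (nat_lit 0) (XT.nd (nat_lit 283920) (nat_lit 0) (nat_lit 0) xc0 xc1) (XT.nd (nat_lit 120744) (nat_lit 0) (nat_lit 0) xc2 xc3)) (XT.nd (nat_lit 123318) (nat_lit 0) (nat_lit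 0) (XT.nd (nat_lit 80730) (nat_lit 0) (nat_lit 0) xc4 xc5) (XT.nd (nat_lit 79794) (nat_lit 0) (nat_lit 0) xc6 xc7))) (XT.nd (nat_lit 202878) (nat_lit 0) (nat_lit 0) (XT.nd (nat_lit 83460) (nat_lit 0) (nat_lit 0) (XT.nd (nat_lit 41808) (nat_lit 0) (nat_lit 0) xc8 xc9) (XT.nd (nat_lit 41574) (nat_lit 0) (nat_lit 0) xc10 xc11)) (XT.nd (nat_lit 82056) (nat_lit 0) (nat_lit 0) (XT.nd (nat_lit 41106) (nat_lit 0) (nat_lit 0) xc12 xc13) (XT.nd (nat_lit 40794) (nat_lit 0) (nat_lit 0) xc14 xc15)))) (XT.nd (nat_lit 285168) (nat_lit 0) (nat_lit 0) (XT.nd (nat_lit 161070) (nat_lit 0) (nat_lit 0) (XT.nd (nat_lit 80808) (nat_lit 0) (nat_lit 0) (XT.nd (nat_lit 40482) (nat_lit 0) (nat_lit 0) xc16 xc17) (XT.nd (nat_lit 40170) (nat_lit 0) (nat_lit 0) xc18 xc19)) (XT.nd (nat_lit 44772) (nat_lit 0) (nat_lit 0) (XT.nd (nat_lit 39858) (nat_lit 0) (nat_lit 0) xc20 xc21) (XT.nd (nat_lit 39702) (nat_lit 0) (nat_lit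 0) xc22 xc23))) (XT.nd (nat_lit 122694) (nat_lit 0) (nat_lit 0) (XT.nd (nat_lit 78624) (nat_lit 0) (nat_lit 0) (XT.nd (nat_lit 39390) (nat_lit 0) (nat_lit 0) xc24 xc25) (XT.nd (nat_lit 39078) (nat_lit 0) (nat_lit 0) xc26 xc27)) (XT.nd (nat_lit 77688) (nat_lit 0) (nat_lit 0) (XT.nd (nat_lit 38922) (nat_lit 0) (nat_lit 0) xc28 xc29) (XT.nd (nat_lit 38610) (nat_lit 0) (nat_lit 0) xc30 xc31))))) (XT.nd (nat_lit 408096) (nat_lit 0) (nat_lit 0) (XT.nd (nat_lit 238836) (nat_lit 0) (nat_lit 0) (XT.nd (nat_lit 120120) (nat_lit 0) (nat_lit 0) (XT.nd (nat_lit 76908) (nat_lit 0) (nat_lit 0) (XT.nd (nat_lit 38532) (nat_lit 0) (nat_lit 0) xc32 xc33) (XT.nd (nat_lit 4914) (nat_lit 0) (nat_lit 0) xc34 xc35)) (XT.nd (nat_lit 42978) (nat_lit 0) (nat_lit 0) (XT.nd (nat_lit 38064) (nat_lit 0) (nat_lit 0) xc36 xc37) (XT.nd (nat_lit 37908) (nat_lit 0) (nat_lit 0) xc38 xc39))) (XT.nd (nat_lit 84942) (nat_lit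 0) (nat_lit 0) (XT.nd (nat_lit 42510) (nat_lit 0) (nat_lit 0) (XT.nd (nat_lit 4914) (nat_lit 0) (nat_lit 0) xc40 xc41) (XT.nd (nat_lit 4914) (nat_lit 0) (nat_lit 0) xc42 xc43)) (XT.nd (nat_lit 42198) (nat_lit 0) (nat_lit 0) (XT.nd (nat_lit 37284) (nat_lit 0) (nat_lit 0) xc44 xc45) (XT.nd (nat_lit 37128) (nat_lit 0) (nat_lit 0) xc46 xc47)))) (XT.nd (nat_lit 199914) (nat_lit 0) (nat_lit 0) (XT.nd (nat_lit 115830) (nat_lit 0) (nat_lit 0) (XT.nd (nat_lit 73866) (nat_lit 0) (nat_lit 0) (XT.nd (nat_lit 36972) (nat_lit 0) (nat_lit 0) xc48 xc49) (XT.nd (nat_lit 4914) (nat_lit 76) (nat_lit 0) xc50 xc51)) (XT.nd (nat_lit 41964) (nat_lit 0) (nat_lit 0) (XT.nd (nat_lit 4914) (nat_lit 0) (nat_lit 0) xc52 xc53) (XT.nd (nat_lit 37128) (nat_lit 0) (nat_lit 76) xc54 xc55))) (XT.nd (nat_lit 84396) (nat_lit 0) (nat_lit 0) (XT.nd (nat_lit 42120) (nat_lit 0) (nat_lit 0) (XT.nd (nat_lit 37206) (nat_lit 0)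 (nat_lit 0) xc56 xc57) (XT.nd (nat_lit 37284) (nat_lit 0) (nat_lit 0) xc58 xc59)) (XT.nd (nat_lit 74880) (nat_lit 0) (nat_lit 0) (XT.nd (nat_lit 37362) (nat_lit 0) (nat_lit 0) xc60 xc61) (XT.nd (nat_lit 4914) (nat_lit 0) (nat_lit 0) xc62 xc63)))))) (XT.nd (nat_lit 933660) (nat_lit 0) (nat_lit 76) (XT.nd (nat_lit 410436) (nat_lit 0) (nat_lit 0) (XT.nd (nat_lit 204048) (nat_lit 0) (nat_lit 0) (XT.nd (nat_lit 85332) (nat_lit 0) (nat_lit 0) (XT.nd (nat_lit 42588) (nat_lit 0) (nat_lit 0) (XT.nd (nat_lit 37674) (nat_lit 0) (nat_lit 76) xc64 xc65) (XT.nd (nat_lit 37752) (nat_lit 0) (nat_lit 0) xc66 xc67)) (XT.nd (nat_lit 75738) (nat_lit 0) (nat_lit 0) (XT.nd (nat_lit 37830) (nat_lit 0) (nat_lit 0) xc68 xc69) (XT.nd (nat_lit 4914) (nat_lit 0) (nat_lit 0) xc70 xc71))) (XT.nd (nat_lit 119652) (nat_lit 0) (nat_lit 0) (XT.nd (nat_lit 43056) (nat_lit 0) (nat_lit 0) (XT.nd (nat_lit 38142) (nat_lit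 0) (nat_lit 76) xc72 xc73) (XT.nd (nat_lit 38220) (nat_lit 0) (nat_lit 0) xc74 xc75)) (XT.nd (nat_lit 43290) (nat_lit 0) (nat_lit 0) (XT.nd (nat_lit 4914) (nat_lit 76) (nat_lit 0) xc76 xc77) (XT.nd (nat_lit 38454) (nat_lit 0) (nat_lit 0) xc78 xc79)))) (XT.nd (nat_lit 242658) (nat_lit 0) (nat_lit 0) (XT.nd (nat_lit 120900) (nat_lit 0) (nat_lit 0) (XT.nd (nat_lit 77142) (nat_lit 0) (nat_lit 0) (XT.nd (nat_lit 38532) (nat_lit 0) (nat_lit 0) xc80 xc81) (XT.nd (nat_lit 38766) (nat_lit 0) (nat_lit 76) xc82 xc83)) (XT.nd (nat_lit 77766) (nat_lit 0) (nat_lit 0) (XT.nd (nat_lit 38844) (nat_lit 0) (nat_lit 0) xc84 xc85) (XT.nd (nat_lit 4914) (nat_lit 0) (nat_lit 0) xc86 xc87))) (XT.nd (nat_lit 122460) (nat_lit 0) (nat_lit 76) (XT.nd (nat_lit 78234) (nat_lit 0) (nat_lit 0) (XT.nd (nat_lit 39078) (nat_lit 0) (nat_lit 0) xc88 xc89) (XT.nd (nat_lit 39234) (nat_lit 0) (nat_lit 76) xc90 xc91)) (XT.nd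 (nat_lit 78858) (nat_lit 0) (nat_lit 0) (XT.nd (nat_lit 39390) (nat_lit 0) (nat_lit 0) xc92 xc93) (XT.nd (nat_lit 39546) (nat_lit 0) (nat_lit 0) xc94 xc95))))) (XT.nd (nat_lit 611208) (nat_lit 0) (nat_lit 152) (XT.nd (nat_lit 285090) (nat_lit 0) (nat_lit 0) (XT.nd (nat_lit 124410) (nat_lit 0) (nat_lit 0) (XT.nd (nat_lit 44616) (nat_lit 0) (nat_lit 0) (XT.nd (nat_lit 4914) (nat_lit 0) (nat_lit 0) xc96 xc97) (XT.nd (nat_lit 39780) (nat_lit 0) (nat_lit 0) xc98 xc99)) (XT.nd (nat_lit 80106) (nat_lit 0) (nat_lit 0) (XT.nd (nat_lit 40014) (nat_lit 0) (nat_lit 0) xc100 xc101) (XT.nd (nat_lit 40170) (nat_lit 0) (nat_lit 0) xc102 xc103))) (XT.nd (nat_lit 126438) (nat_lit 0) (nat_lit 152) (XT.nd (nat_lit 80886) (nat_lit 0) (nat_lit 0) (XT.nd (nat_lit 40404) (nat_lit 0) (nat_lit 0) xc104 xc105) (XT.nd (nat_lit 4914) (nat_lit 152) (nat_lit 0) xc106 xc107)) (XT.nd (nat_lit 117468) (nat_lit 0) (nat_lit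 0) (XT.nd (nat_lit 76596) (nat_lit 0) (nat_lit 0) xc108 xc109) (XT.nd (nat_lit 41028) (nat_lit 0) (nat_lit 0) xc110 xc111)))) (XT.nd (nat_lit 407238) (nat_lit 0) (nat_lit 380) (XT.nd (nat_lit 165516) (nat_lit 0) (nat_lit 152) (XT.nd (nat_lit 82524) (nat_lit 0) (nat_lit 76) (XT.nd (nat_lit 41184) (nat_lit 0) (nat_lit 76) xc112 xc113) (XT.nd (nat_lit 41418) (nat_lit 0) (nat_lit 0) xc114 xc115)) (XT.nd (nat_lit 120354) (nat_lit 0) (nat_lit 76) (XT.nd (nat_lit 78468) (nat_lit 0) (nat_lit 76) xc116 xc117) (XT.nd (nat_lit 41964) (nat_lit 0) (nat_lit 76) xc118 xc119))) (XT.nd (nat_lit 284310) (nat_lit 0) (nat_lit 684) (XT.nd (nat_lit 122382) (nat_lit 0) (nat_lit 152) (XT.nd (nat_lit 42276) (nat_lit 0) (nat_lit 76) xc120 xc121) (XT.nd (nat_lit 80652) (nat_lit 0) (nat_lit 228) xc122 xc123)) (XT.nd (nat_lit 203346) (nat_lit 0) (nat_lit 532) (XT.nd (nat_lit 81900) (nat_lit 0) (nat_lit 76) xc124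 xc125) (XT.nd (nat_lit 122616) (nat_lit 0) (nat_lit 532) xc126 xc127))))))) XT.nil))

set_option maxRecDepth 10000000 in
noncomputable def Te : XT := XT.nil

set_option maxRecDepth 10000000 in
noncomputable def Tz : ZL := (ZL.cons (nat_lit 76) (nat_lit 3) (nat_lit 110501548903352529814) (ZL.cons (nat_lit 152) (nat_lit 6) (nat_lit 213318302268590324664) (ZL.cons (nat_lit 228) (nat_lit 6) (nat_lit 206255462191840718698) (ZL.cons (nat_lit 304) (nat_lit 3) (nat_lit 102830438041974612283) (ZL.cons (nat_lit 380) (nat_lit 6) (nat_lit 198627594908951144256) (ZL.cons (nat_lit 456) (nat_lit 6) (nat_lit 192176780040336835856) (ZL.cons (nat_lit 532) (nat_lit 3) (nat_lit 95813118673922355828) (ZL.cons (nat_lit 608) (nat_lit 6) (nat_lit 185209899982233382782) (ZL.cons (nat_lit 684) (nat_lit 6) (nat_lit 179340560072172794198) (ZL.cons (nat_lit 760) (nat_lit 3) (nat_lit 89415399159932635897) (ZL.cons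 (nat_lit 836) (nat_lit 6) (nat_lit 173001672969307358530) (ZL.cons (nat_lit 912) (nat_lit 6) (nat_lit 167687980965519299798) (ZL.cons (nat_lit 988) (nat_lit 3) (nat_lit 83607989671506167304) (ZL.cons (nat_lit 1064) (nat_lit 6) (nat_lit 161949193601428196370) (ZL.cons (nat_lit 1140) (nat_lit 6) (nat_lit 157170105162382593364) (ZL.cons (nat_lit 1216) (nat_lit 3) (nat_lit 78366533311512146131) (ZL.cons (nat_lit 1292) (nat_lit 6) (nat_lit 152850393501792292390) (ZL.cons (nat_lit 1368) (nat_lit 6) (nat_lit 152008689648213342118) (ZL.cons (nat_lit 1444) (nat_lit 6) (nat_lit 147748066368996466234) (ZL.cons (nat_lit 1520) (nat_lit 3) (nat_lit 73671700527387908532) (ZL.cons (nat_lit 1596) (nat_lit 6) (nat_lit 143925948647422749786) (ZL.cons (nat_lit 1672) (nat_lit 6) (nat_lit 143146593227442240276) (ZL.cons (nat_lit 1748) (nat_lit 6) (nat_lit 139393396193902486856) (ZL.cons (nat_lit 1824) (nat_lit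 3) (nat_lit 69509353044071313258) (ZL.cons (nat_lit 1900) (nat_lit 6) (nat_lit 136061568786550395298) (ZL.cons (nat_lit 1976) (nat_lit 6) (nat_lit 135339943397679553162) (ZL.cons (nat_lit 2052) (nat_lit 6) (nat_lit 133131366842972027286) (ZL.cons (nat_lit 2128) (nat_lit 6) (nat_lit 132088505080850276076) (ZL.cons (nat_lit 2204) (nat_lit 3) (nat_lit 65870784898869647140) (ZL.cons (nat_lit 2280) (nat_lit 6) (nat_lit 129245123355036547696) (ZL.cons (nat_lit 2356) (nat_lit 6) (nat_lit 128576951698674656826) (ZL.cons (nat_lit 2432) (nat_lit 6) (nat_lit 126792948550752064442) (ZL.cons (nat_lit 2508) (nat_lit 6) (nat_lit 125827335808046739248) (ZL.cons (nat_lit 2584) (nat_lit 3) (nat_lit 62753049717397915087) (ZL.cons (nat_lit 2660) (nat_lit 6) (nat_lit 124717449261749214560) (ZL.cons (nat_lit 2736) (nat_lit 6) (nat_lit 123476428105762931658) (ZL.cons (nat_lit 2812) (nat_lit 6) (nat_lit 122857750646168588260)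 (ZL.cons (nat_lit 2888) (nat_lit 6) (nat_lit 123006326232982055240) (ZL.cons (nat_lit 2964) (nat_lit 6) (nat_lit 121510297286920811494) (ZL.cons (nat_lit 3040) (nat_lit 6) (nat_lit 120616211414045510388) (ZL.cons (nat_lit 3116) (nat_lit 3) (nat_lit 60159385163851038032) (ZL.cons (nat_lit 3192) (nat_lit 6) (nat_lit 119917292205927240270) (ZL.cons (nat_lit 3268) (nat_lit 6) (nat_lit 118768198542976978320) (ZL.cons (nat_lit 3344) (nat_lit 6) (nat_lit 118195349043352586288) (ZL.cons (nat_lit 3420) (nat_lit 3) (nat_lit 58559904887605864442) (ZL.cons (nat_lit 3496) (nat_lit 6) (nat_lit 117293363792249457920) (ZL.cons (nat_lit 3572) (nat_lit 6) (nat_lit 117815054311611757506) (ZL.cons (nat_lit 3648) (nat_lit 6) (nat_lit 118687972832672626450) (ZL.cons (nat_lit 3724) (nat_lit 6) (nat_lit 117302760845578882240) (ZL.cons (nat_lit 3800) (nat_lit 6) (nat_lit 116474903555879529364) (ZL.cons (nat_lit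 3876) (nat_lit 3) (nat_lit 58099747571299285828) (ZL.cons (nat_lit 3952) (nat_lit 6) (nat_lit 115126097966333798438) (ZL.cons (nat_lit 4028) (nat_lit 6) (nat_lit 115487090321772274838) (ZL.cons (nat_lit 4104) (nat_lit 6) (nat_lit 116211214246607381574) (ZL.cons (nat_lit 4180) (nat_lit 6) (nat_lit 115147238632764546438) (ZL.cons (nat_lit 4256) (nat_lit 6) (nat_lit 114616822429408627886) (ZL.cons (nat_lit 4332) (nat_lit 3) (nat_lit 56726811265353388533) (ZL.cons (nat_lit 4408) (nat_lit 6) (nat_lit 113641060869107524430) (ZL.cons (nat_lit 4484) (nat_lit 6) (nat_lit 114204486630018807980) (ZL.cons (nat_lit 4560) (nat_lit 6) (nat_lit 113437952102519407168) (ZL.cons (nat_lit 4636) (nat_lit 3) (nat_lit 56591472156222223162) (ZL.cons (nat_lit 4712) (nat_lit 6) (nat_lit 112266026519823937382) (ZL.cons (nat_lit 4788) (nat_lit 6) (nat_lit 112655898263697491896) (ZL.cons (nat_lit 4864) (nat_lit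 6) (nat_lit 112164772149479048792) (ZL.cons (nat_lit 4940) (nat_lit 3) (nat_lit 55676919461111027703) (ZL.cons (nat_lit 5016) (nat_lit 6) (nat_lit 111556272327694862556) (ZL.cons (nat_lit 5092) (nat_lit 3) (nat_lit 55660077001775690148) (ZL.cons (nat_lit 5168) (nat_lit 6) (nat_lit 110899092520167941424) (ZL.cons (nat_lit 5244) (nat_lit 1) (nat_lit 18446744073709551617) ZL.nil)))))))))))))))))))))))))))))))))))))))))))))))))))))))))))))))))))))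

noncomputable def vl : XL := ⟨(nat_lit 0), (nat_lit 76), (nat_lit 230075448), (nat_lit 152), (nat_lit 159374174), (nat_lit 152), (nat_lit 159374174), (nat_lit 1), (nat_lit 4), (nat_lit 2), (nat_lit 5), (nat_lit 2), (nat_lit 4), (nat_lit 0), (nat_lit 0), (nat_lit 0)⟩

noncomputable def cp0 : Nat := (nat_lit 1370491683581258591231616566502162741234905480081168023741929406147637128909885172816447983840904050980236278526865105262228288032162959633369122869930359557683366026394319942399267099247080503129322513158418826239100619543873791877561329374194786152587412724792502137172446990359197522970914817054948267257219732647381392825900469065063916333034222597466082029927273075321642727812447044998163632194354158315585956387706487104084950416548844907274555539916255776774165352376032076568421395113299834829008430836437936285833429997680670820750985147037969940636807470297299674271415355494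8779528249065365446810548103181687637756750871316224717154714575044912770619409379339709734353226655936824107896111687767876388796479996270725644124357589447814070082750329624070193921141752034528671296948796022875315951977744671878213895301731069487399552147367868885089792604048101181122109995312671521073814196450121843768486234560396768860245586782988042397935885318310269091104665927120699197578412801056382729392152309757335388376027609339542473855512028999944363751486148800823248655268479982896982747000397307767543495108669732987844808820833487299592834430607488274117136626512413679511229689990120330999346345370340727923011291111105789244793953348588056242117585318433092695068182866510398739498382982037486307380758165045114487564374612285604398625563304223031516921270410516292113348591286663732015128438154000120819140571368693265045882945614617141792986627212856838258702517908761953329881283850533528887686250520735603630038473926608942531637879086806670329058265890759422884950909414744583569408)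

noncomputable def cp1 : Nat := (nat_lit 15893443073364781411663333540667558256631983508613866143856153322973181929848760226973648223324952018654763589845388437888174624752768891318661207857142081583398964735246852344214919076799328001914547827004191160526144811076624709238561644766067506704806271514676320711596507356859213236364730445007819678584863322923208535107474314303218210557275149179904233334953953246793271680167972599316743989762003743886102787048822184614733154719908507327542825400512520222105122471165041943342808388686660642063452353113692634237001651148500674507682245418509415020446039616839013632221167782171936121233466371370973016126558593041641844851608648455256014595550188093585769235318727470833393603386204903371733127925009422924980606009777730402425458922339283555911004069770524230597071592349316235354237740752322982718927263495563789871245978871027889152085593957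384769587637433807822158400666549325236633945018227414321222204336994686424784193704296879759090909696914143326020559802487654740275885743559804225020514392048180889153136403888071990099714862251774848990150591745623908200318820639337923902445033987393570494617597986755934512275894752000232704171226490670901085132616602086736568496214644534266462479014745358862423992207343833105426922539451771274801983385163504974557332600516413506839871130294079844262615613671389807834993578488240166539074040644101110737522306957300150540381535546641090266563128484969854887902891141914443701926884572174140576369587574589595903569322563424624037863220905843283952756402070579004036327816711375732703027926431550818752263999184247494446886269851336179712)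

noncomputable def rc0 : Nat := (nat_lit 15344312957980296503812279830297226808783101609228714909894870096666602554921508522513559597115084223044487942743841422383925441737351861704049424396230256026118950600113913736051679283104250039555419859923613437790280997933739263277018094013431148626382669557767424868883097024167070093866352691387428771883217364563004759146451026929741787003711836397513668738323123112238177943271937438498931950326308808307824051847732057912003353938165540390030561067005547497479827901487970171703472899778896515953772751979747319100664745704905584876785605865622689144409724978390348349588169158018723090608912909652760881231760967833402833705923862605154614307500375112437515419085062872133706124015764173360168486188861954288225868290152507303562265840511717169951843360987581082633325295955693158802624989358512678731121585026361590051542590262400913358527932709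205313192161427087282765572440262421289852804835182868637072155970368922197759042277956014347205466949583233752290492688441286478783634249352341883002834957619301163923727456175461617429745427910835636430865999795858932662031009336318053449980338334189999722071062003544923827171121672857858043019675113154237803608289006533593629547040181249206660371047678822168760496834789248480797329659541896255127510941280058940740818644607930629279279644307396457225143170048985162801123005362961106115370442499009192613671826888298165129543878496049658735774870981286079555551999848159343828816573256959263624414718228810360988308198845142696290720412636243771982557967365415087441388235336840934437673851793346107847763987049872534201209605105505009664)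

noncomputable def rc1 : Nat := (nat_lit 15893443073364781411663333540667558256631983508613866143856153322973181929848760226973648223324952018654763589845388437888174624752768891318661207857142081583398964735246852344214919076799328001914547827004191160526144811076624709238561644766067506704806271514676320711596507356859213236364730445007819678584863322923208535107474314303218210557275149179904233334953953246793271680167972599316743989762003743886102787048822184614733154719908507327542825400512520222105122471165041943342808388686660642063452353113692634237001651148500674507682245418509415020446039616839013632221167782171936121233466371370973016126558593041641844851608648455256014595550188093585769235318727470833393603386204903371733127925009422924980606009777730402425458922339283555911004069770524230597071592349316235354237740752322982718927263495563789871245978871027889152085593957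384769587637433807822158400666549325236633945018227414321222204336994686424784193704296879759090909696914143326020559802487654740275885743559804225020514392048180889153136403888071990099714862251774848990150591745623908200318820639337923902445033987393570494617597986755934512275894752000232704171226490670901085132616602086736568496214644534266462479014745358862423992207343833105426922539451771274801983385163504974557332600516413506839871130294079844262615613671389807834993578488240166539074040644101110737522306957300150540381535546641090266563128484969854887902891141914443701926884572174140576369587574589595903569322563424624037863220905843283952756402070579004036327816711375732703027926431550818752263999184247494446886269851336179712)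

end Vale.Agent.Lib.P154.PChain.BM.S2
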