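import Vale.Agent.Lib.P154.PChain.BM.R2_0

set_option linter.all false

namespace Vale.Agent.Lib.P154.PChain.BM.S3

open Vale.Agent.Lib.P154.Chain

noncomputable def pc0 : PT := (PT.nd (nat_lit 4521738) (PT.nd (nat_lit 4359264) (PT.nd (nat_lit 4237584) (PT.nd (nat_lit 4196946) (PT.nd (nat_lit 4196868) (PT.nd (nat_lit 4156308) PT.nil (PT.lf (nat_lit 76) (nat_lit 3) (nat_lit 1) (nat_lit 1) (nat_lit 144) (nat_lit 102) (nat_lit 144))) (PT.lf (nat_lit 152) (nat_lit 6) (nat_lit 2) (nat_lit 3) (nat_lit 143) (nat_lit 103) (nat_lit 144))) (PT.nd (nat_lit 40482) (PT.lf (nat_lit 152) (nat_lit 6) (nat_lit 2) (nat_lit 1) (nat_lit 144) (nat_lit 103) (nat_lit 143)) (PT.nd (nat_lit 78) (PT.lf (nat_lit 228) (nat_lit 6) (nat_lit 3) (nat_lit 3) (nat_lit 142) (nat_lit 104) (nat_lit 144)) (PT.lf (nat_lit 304) (nat_lit 3) (nat_lit 4) (nat_lit 1) (nat_lit 143) (nat_lit 104) (nat_lit 143))))) (PT.nd (nat_lit 81042)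 (PT.nd (nat_lit 40482) (PT.lf (nat_lit 228) (nat_lit 6) (nat_lit 3) (nat_lit 1) (nat_lit 144) (nat_lit 104) (nat_lit 142)) (PT.nd (nat_lit 78) (PT.lf (nat_lit 380) (nat_lit 6) (nat_lit 5) (nat_lit 3) (nat_lit 142) (nat_lit 105) (nat_lit 143)) (PT.lf (nat_lit 380) (nat_lit 6) (nat_lit 5) (nat_lit 1) (nat_lit 143) (nat_lit 105) (nat_lit 142)))) (PT.nd (nat_lit 78) (PT.lf (nat_lit 456) (nat_lit 6) (nat_lit 6) (nat_lit 3) (nat_lit 141) (nat_lit 106) (nat_lit 143)) (PT.nd (nat_lit 78) (PT.lf (nat_lit 532) (nat_lit 3) (nat_lit 7) (nat_lit 1) (nat_lit 142) (nat_lit 106) (nat_lit 142)) (PT.lf (nat_lit 456) (nat_lit 6) (nat_lit 6) (nat_lit 1) (nat_lit 143) (nat_lit 106) (nat_lit 141)))))) (PT.nd (nat_lit 81198) (PT.nd (nat_lit 40560) (PT.nd (nat_lit 78) (PT.lf (nat_lit 608) (nat_lit 6) (nat_lit 8) (nat_lit 3) (nat_lit 141) (nat_lit 107) (nat_lit 142)) (PT.lf (nat_lit 608) (nat_lit 6) (nat_lit 8)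 (nat_lit 1) (nat_lit 142) (nat_lit 107) (nat_lit 141))) (PT.nd (nat_lit 78) (PT.lf (nat_lit 684) (nat_lit 6) (nat_lit 9) (nat_lit 3) (nat_lit 140) (nat_lit 108) (nat_lit 142)) (PT.nd (nat_lit 78) (PT.lf (nat_lit 760) (nat_lit 3) (nat_lit 10) (nat_lit 1) (nat_lit 141) (nat_lit 108) (nat_lit 141)) (PT.lf (nat_lit 684) (nat_lit 6) (nat_lit 9) (nat_lit 1) (nat_lit 142) (nat_lit 108) (nat_lit 140))))) (PT.nd (nat_lit 40638) (PT.nd (nat_lit 78) (PT.lf (nat_lit 836) (nat_lit 6) (nat_lit 11) (nat_lit 3) (nat_lit 140) (nat_lit 109) (nat_lit 141)) (PT.nd (nat_lit 40482) (PT.lf (nat_lit 836) (nat_lit 6) (nat_lit 11) (nat_lit 1) (nat_lit 141) (nat_lit 109) (nat_lit 140)) (PT.lf (nat_lit 912) (nat_lit 6) (nat_lit 12) (nat_lit 3) (nat_lit 139) (nat_lit 110) (nat_lit 141)))) (PT.nd (nat_lit 78) (PT.lf (nat_lit 988) (nat_lit 3) (nat_lit 13) (nat_lit 1) (nat_lit 140) (nat_lit 110) (nat_lit 140)) (PT.nd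 (nat_lit 40482) (PT.lf (nat_lit 912) (nat_lit 6) (nat_lit 12) (nat_lit 1) (nat_lit 141) (nat_lit 110) (nat_lit 139)) (PT.lf (nat_lit 1064) (nat_lit 6) (nat_lit 14) (nat_lit 3) (nat_lit 139) (nat_lit 111) (nat_lit 140))))))) (PT.nd (nat_lit 162240) (PT.nd (nat_lit 81120) (PT.nd (nat_lit 40560) (PT.nd (nat_lit 40482) (PT.lf (nat_lit 1064) (nat_lit 6) (nat_lit 14) (nat_lit 1) (nat_lit 140) (nat_lit 111) (nat_lit 139)) (PT.lf (nat_lit 1140) (nat_lit 6) (nat_lit 15) (nat_lit 3) (nat_lit 138) (nat_lit 112) (nat_lit 140))) (PT.nd (nat_lit 78) (PT.lf (nat_lit 1216) (nat_lit 3) (nat_lit 16) (nat_lit 1) (nat_lit 139) (nat_lit 112) (nat_lit 139)) (PT.nd (nat_lit 40404) (PT.lf (nat_lit 1140) (nat_lit 6) (nat_lit 15) (nat_lit 1) (nat_lit 140) (nat_lit 112) (nat_lit 138)) (PT.lf (nat_lit 1292) (nat_lit 6) (nat_lit 17) (nat_lit 3) (nat_lit 137) (nat_lit 113) (nat_lit 140))))) (PT.nd (nat_lit 40560) (PT.nd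 (nat_lit 78) (PT.lf (nat_lit 1368) (nat_lit 6) (nat_lit 18) (nat_lit 3) (nat_lit 138) (nat_lit 113) (nat_lit 139)) (PT.nd (nat_lit 78) (PT.lf (nat_lit 1368) (nat_lit 6) (nat_lit 18) (nat_lit 1) (nat_lit 139) (nat_lit 113) (nat_lit 138)) (PT.lf (nat_lit 1292) (nat_lit 6) (nat_lit 17) (nat_lit 1) (nat_lit 140) (nat_lit 113) (nat_lit 137)))) (PT.nd (nat_lit 78) (PT.lf (nat_lit 1444) (nat_lit 6) (nat_lit 19) (nat_lit 3) (nat_lit 137) (nat_lit 114) (nat_lit 139)) (PT.nd (nat_lit 78) (PT.lf (nat_lit 1520) (nat_lit 3) (nat_lit 20) (nat_lit 1) (nat_lit 138) (nat_lit 114) (nat_lit 138)) (PT.lf (nat_lit 1444) (nat_lit 6) (nat_lit 19) (nat_lit 1) (nat_lit 139) (nat_lit 114) (nat_lit 137)))))) (PT.nd (nat_lit 40716) (PT.nd (nat_lit 156) (PT.nd (nat_lit 78) (PT.lf (nat_lit 1596) (nat_lit 6) (nat_lit 21) (nat_lit 3) (nat_lit 136) (nat_lit 115) (nat_lit 139)) (PT.lf (nat_lit 1672) (nat_lit 6) (nat_lit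 22) (nat_lit 3) (nat_lit 137) (nat_lit 115) (nat_lit 138))) (PT.nd (nat_lit 78) (PT.lf (nat_lit 1672) (nat_lit 6) (nat_lit 22) (nat_lit 1) (nat_lit 138) (nat_lit 115) (nat_lit 137)) (PT.nd (nat_lit 40404) (PT.lf (nat_lit 1596) (nat_lit 6) (nat_lit 21) (nat_lit 1) (nat_lit 139) (nat_lit 115) (nat_lit 136)) (PT.lf (nat_lit 1748) (nat_lit 6) (nat_lit 23) (nat_lit 3) (nat_lit 136) (nat_lit 116) (nat_lit 138))))) (PT.nd (nat_lit 40560) (PT.nd (nat_lit 78) (PT.lf (nat_lit 1824) (nat_lit 3) (nat_lit 24) (nat_lit 1) (nat_lit 137) (nat_lit 116) (nat_lit 137)) (PT.nd (nat_lit 40404) (PT.lf (nat_lit 1748) (nat_lit 6) (nat_lit 23) (nat_lit 1) (nat_lit 138) (nat_lit 116) (nat_lit 136)) (PT.lf (nat_lit 1900) (nat_lit 6) (nat_lit 25) (nat_lit 3) (nat_lit 135) (nat_lit 117) (nat_lit 138)))) (PT.nd (nat_lit 78) (PT.lf (nat_lit 1976) (nat_lit 6) (nat_lit 26) (nat_lit 3) (nat_lit 136) (nat_lit 117) (nat_lit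 137)) (PT.nd (nat_lit 78) (PT.lf (nat_lit 1976) (nat_lit 6) (nat_lit 26) (nat_lit 1) (nat_lit 137) (nat_lit 117) (nat_lit 136)) (PT.lf (nat_lit 1900) (nat_lit 6) (nat_lit 25) (nat_lit 1) (nat_lit 138) (nat_lit 117) (nat_lit 135))))))))
noncomputable def pc1 : PT := (PT.nd (nat_lit 162474) (PT.nd (nat_lit 81354) (PT.nd (nat_lit 40638) (PT.nd (nat_lit 156) (PT.nd (nat_lit 78) (PT.lf (nat_lit 2052) (nat_lit 6) (nat_lit 27) (nat_lit 3) (nat_lit 134) (nat_lit 118) (nat_lit 138)) (PT.lf (nat_lit 2128) (nat_lit 6) (nat_lit 28) (nat_lit 3) (nat_lit 135) (nat_lit 118) (nat_lit 137))) (PT.nd (nat_lit 78) (PT.lf (nat_lit 2204) (nat_lit 3) (nat_lit 29) (nat_lit 1) (nat_lit 136) (nat_lit 118) (nat_lit 136)) (PT.nd (nat_lit 78) (PT.lf (nat_lit 2128) (nat_lit 6) (nat_lit 28) (nat_lit 1) (nat_lit 137) (nat_lit 118) (nat_lit 135)) (PT.lf (nat_lit 2052) (nat_lit 6) (nat_lit 27) (nat_lit 1) (nat_lit 138)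 (nat_lit 118) (nat_lit 134))))) (PT.nd (nat_lit 234) (PT.nd (nat_lit 78) (PT.lf (nat_lit 2280) (nat_lit 6) (nat_lit 30) (nat_lit 3) (nat_lit 134) (nat_lit 119) (nat_lit 137)) (PT.nd (nat_lit 78) (PT.lf (nat_lit 2356) (nat_lit 6) (nat_lit 31) (nat_lit 3) (nat_lit 135) (nat_lit 119) (nat_lit 136)) (PT.lf (nat_lit 2356) (nat_lit 6) (nat_lit 31) (nat_lit 1) (nat_lit 136) (nat_lit 119) (nat_lit 135)))) (PT.nd (nat_lit 40326) (PT.lf (nat_lit 2280) (nat_lit 6) (nat_lit 30) (nat_lit 1) (nat_lit 137) (nat_lit 119) (nat_lit 134)) (PT.nd (nat_lit 78) (PT.lf (nat_lit 2432) (nat_lit 6) (nat_lit 32) (nat_lit 3) (nat_lit 133) (nat_lit 120) (nat_lit 137)) (PT.lf (nat_lit 2508) (nat_lit 6) (nat_lit 33) (nat_lit 3) (nat_lit 134) (nat_lit 120) (nat_lit 136)))))) (PT.nd (nat_lit 40560) (PT.nd (nat_lit 156) (PT.nd (nat_lit 78) (PT.lf (nat_lit 2584) (nat_lit 3) (nat_lit 34) (nat_lit 1) (nat_lit 135) (nat_lit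 120) (nat_lit 135)) (PT.lf (nat_lit 2508) (nat_lit 6) (nat_lit 33) (nat_lit 1) (nat_lit 136) (nat_lit 120) (nat_lit 134))) (PT.nd (nat_lit 40248) (PT.lf (nat_lit 2432) (nat_lit 6) (nat_lit 32) (nat_lit 1) (nat_lit 137) (nat_lit 120) (nat_lit 133)) (PT.nd (nat_lit 78) (PT.lf (nat_lit 2660) (nat_lit 6) (nat_lit 35) (nat_lit 3) (nat_lit 132) (nat_lit 121) (nat_lit 137)) (PT.lf (nat_lit 2736) (nat_lit 6) (nat_lit 36) (nat_lit 3) (nat_lit 133) (nat_lit 121) (nat_lit 136))))) (PT.nd (nat_lit 234) (PT.nd (nat_lit 78) (PT.lf (nat_lit 2812) (nat_lit 6) (nat_lit 37) (nat_lit 3) (nat_lit 134) (nat_lit 121) (nat_lit 135)) (PT.nd (nat_lit 78) (PT.lf (nat_lit 2812) (nat_lit 6) (nat_lit 37) (nat_lit 1) (nat_lit 135) (nat_lit 121) (nat_lit 134)) (PT.lf (nat_lit 2736) (nat_lit 6) (nat_lit 36) (nat_lit 1) (nat_lit 136) (nat_lit 121) (nat_lit 133)))) (PT.nd (nat_lit 40170) (PT.lf (nat_lit 2660) (nat_lit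 6) (nat_lit 35) (nat_lit 1) (nat_lit 137) (nat_lit 121) (nat_lit 132)) (PT.nd (nat_lit 78) (PT.lf (nat_lit 2888) (nat_lit 6) (nat_lit 38) (nat_lit 3) (nat_lit 131) (nat_lit 122) (nat_lit 137)) (PT.lf (nat_lit 2964) (nat_lit 6) (nat_lit 39) (nat_lit 3) (nat_lit 132) (nat_lit 122) (nat_lit 136))))))) (PT.nd (nat_lit 81042) (PT.nd (nat_lit 40482) (PT.nd (nat_lit 156) (PT.nd (nat_lit 78) (PT.lf (nat_lit 3040) (nat_lit 6) (nat_lit 40) (nat_lit 3) (nat_lit 133) (nat_lit 122) (nat_lit 135)) (PT.lf (nat_lit 3116) (nat_lit 3) (nat_lit 41) (nat_lit 1) (nat_lit 134) (nat_lit 122) (nat_lit 134))) (PT.nd (nat_lit 78) (PT.lf (nat_lit 3040) (nat_lit 6) (nat_lit 40) (nat_lit 1) (nat_lit 135) (nat_lit 122) (nat_lit 133)) (PT.nd (nat_lit 78) (PT.lf (nat_lit 2964) (nat_lit 6) (nat_lit 39) (nat_lit 1) (nat_lit 136) (nat_lit 122) (nat_lit 132)) (PT.lf (nat_lit 2888) (nat_lit 6) (nat_lit 38) (nat_lit 1) (nat_lit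 137) (nat_lit 122) (nat_lit 131))))) (PT.nd (nat_lit 234) (PT.nd (nat_lit 78) (PT.lf (nat_lit 3192) (nat_lit 6) (nat_lit 42) (nat_lit 3) (nat_lit 131) (nat_lit 123) (nat_lit 136)) (PT.nd (nat_lit 78) (PT.lf (nat_lit 3268) (nat_lit 6) (nat_lit 43) (nat_lit 3) (nat_lit 132) (nat_lit 123) (nat_lit 135)) (PT.lf (nat_lit 3344) (nat_lit 6) (nat_lit 44) (nat_lit 3) (nat_lit 133) (nat_lit 123) (nat_lit 134)))) (PT.nd (nat_lit 78) (PT.lf (nat_lit 3344) (nat_lit 6) (nat_lit 44) (nat_lit 1) (nat_lit 134) (nat_lit 123) (nat_lit 133)) (PT.nd (nat_lit 78) (PT.lf (nat_lit 3268) (nat_lit 6) (nat_lit 43) (nat_lit 1) (nat_lit 135) (nat_lit 123) (nat_lit 132)) (PT.lf (nat_lit 3192) (nat_lit 6) (nat_lit 42) (nat_lit 1) (nat_lit 136) (nat_lit 123) (nat_lit 131)))))) (PT.nd (nat_lit 468) (PT.nd (nat_lit 234) (PT.nd (nat_lit 78) (PT.lf (nat_lit 3648) (nat_lit 6) (nat_lit 48) (nat_lit 3) (nat_lit 130) (nat_lit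 124) (nat_lit 136)) (PT.nd (nat_lit 78) (PT.lf (nat_lit 3724) (nat_lit 6) (nat_lit 49) (nat_lit 3) (nat_lit 131) (nat_lit 124) (nat_lit 135)) (PT.lf (nat_lit 3800) (nat_lit 6) (nat_lit 50) (nat_lit 3) (nat_lit 132) (nat_lit 124) (nat_lit 134)))) (PT.nd (nat_lit 78) (PT.lf (nat_lit 3876) (nat_lit 3) (nat_lit 51) (nat_lit 1) (nat_lit 133) (nat_lit 124) (nat_lit 133)) (PT.nd (nat_lit 78) (PT.lf (nat_lit 3800) (nat_lit 6) (nat_lit 50) (nat_lit 1) (nat_lit 134) (nat_lit 124) (nat_lit 132)) (PT.lf (nat_lit 3724) (nat_lit 6) (nat_lit 49) (nat_lit 1) (nat_lit 135) (nat_lit 124) (nat_lit 131))))) (PT.nd (nat_lit 40248) (PT.nd (nat_lit 40092) (PT.lf (nat_lit 3648) (nat_lit 6) (nat_lit 48) (nat_lit 1) (nat_lit 136) (nat_lit 124) (nat_lit 130)) (PT.nd (nat_lit 78) (PT.lf (nat_lit 3572) (nat_lit 6) (nat_lit 47) (nat_lit 3) (nat_lit 129) (nat_lit 125) (nat_lit 136)) (PT.lf (nat_lit 4104) (nat_lit 6)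 (nat_lit 54) (nat_lit 3) (nat_lit 130) (nat_lit 125) (nat_lit 135)))) (PT.nd (nat_lit 78) (PT.lf (nat_lit 4180) (nat_lit 6) (nat_lit 55) (nat_lit 3) (nat_lit 131) (nat_lit 125) (nat_lit 134)) (PT.nd (nat_lit 78) (PT.lf (nat_lit 4256) (nat_lit 6) (nat_lit 56) (nat_lit 3) (nat_lit 132) (nat_lit 125) (nat_lit 133)) (PT.lf (nat_lit 4256) (nat_lit 6) (nat_lit 56) (nat_lit 1) (nat_lit 133) (nat_lit 125) (nat_lit 132))))))))
noncomputable def pc2 : PT := (PT.nd (nat_lit 121290) (PT.nd (nat_lit 40794) (PT.nd (nat_lit 40326) (PT.nd (nat_lit 156) (PT.nd (nat_lit 78) (PT.lf (nat_lit 4180) (nat_lit 6) (nat_lit 55) (nat_lit 1) (nat_lit 134) (nat_lit 125) (nat_lit 131)) (PT.lf (nat_lit 4104) (nat_lit 6) (nat_lit 54) (nat_lit 1) (nat_lit 135) (nat_lit 125) (nat_lit 130))) (PT.nd (nat_lit 40014) (PT.lf (nat_lit 3572) (nat_lit 6) (nat_lit 47) (nat_lit 1) (nat_lit 136) (nat_lit 125) (nat_lit 129)) (PT.nd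 (nat_lit 78) (PT.lf (nat_lit 3496) (nat_lit 6) (nat_lit 46) (nat_lit 3) (nat_lit 128) (nat_lit 126) (nat_lit 136)) (PT.lf (nat_lit 4028) (nat_lit 6) (nat_lit 53) (nat_lit 3) (nat_lit 129) (nat_lit 126) (nat_lit 135))))) (PT.nd (nat_lit 234) (PT.nd (nat_lit 78) (PT.lf (nat_lit 4484) (nat_lit 6) (nat_lit 59) (nat_lit 3) (nat_lit 130) (nat_lit 126) (nat_lit 134)) (PT.nd (nat_lit 78) (PT.lf (nat_lit 4560) (nat_lit 6) (nat_lit 60) (nat_lit 3) (nat_lit 131) (nat_lit 126) (nat_lit 133)) (PT.lf (nat_lit 4636) (nat_lit 3) (nat_lit 61) (nat_lit 1) (nat_lit 132) (nat_lit 126) (nat_lit 132)))) (PT.nd (nat_lit 78) (PT.lf (nat_lit 4560) (nat_lit 6) (nat_lit 60) (nat_lit 1) (nat_lit 133) (nat_lit 126) (nat_lit 131)) (PT.nd (nat_lit 78) (PT.lf (nat_lit 4484) (nat_lit 6) (nat_lit 59) (nat_lit 1) (nat_lit 134) (nat_lit 126) (nat_lit 130)) (PT.lf (nat_lit 4028) (nat_lit 6) (nat_lit 53) (nat_lit 1) (nat_lit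 135) (nat_lit 126) (nat_lit 129)))))) (PT.nd (nat_lit 40248) (PT.nd (nat_lit 40014) (PT.nd (nat_lit 39936) (PT.lf (nat_lit 3496) (nat_lit 6) (nat_lit 46) (nat_lit 1) (nat_lit 136) (nat_lit 126) (nat_lit 128)) (PT.lf (nat_lit 3420) (nat_lit 3) (nat_lit 45) (nat_lit 3) (nat_lit 127) (nat_lit 127) (nat_lit 136))) (PT.nd (nat_lit 78) (PT.lf (nat_lit 3952) (nat_lit 6) (nat_lit 52) (nat_lit 3) (nat_lit 128) (nat_lit 127) (nat_lit 135)) (PT.nd (nat_lit 78) (PT.lf (nat_lit 4408) (nat_lit 6) (nat_lit 58) (nat_lit 3) (nat_lit 129) (nat_lit 127) (nat_lit 134)) (PT.lf (nat_lit 4788) (nat_lit 6) (nat_lit 63) (nat_lit 3) (nat_lit 130) (nat_lit 127) (nat_lit 133))))) (PT.nd (nat_lit 234) (PT.nd (nat_lit 78) (PT.lf (nat_lit 4864) (nat_lit 6) (nat_lit 64) (nat_lit 3) (nat_lit 131) (nat_lit 127) (nat_lit 132)) (PT.nd (nat_lit 78) (PT.lf (nat_lit 4864) (nat_lit 6) (nat_lit 64) (nat_lit 1) (nat_lit 132) (nat_lit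 127) (nat_lit 131)) (PT.lf (nat_lit 4788) (nat_lit 6) (nat_lit 63) (nat_lit 1) (nat_lit 133) (nat_lit 127) (nat_lit 130)))) (PT.nd (nat_lit 78) (PT.lf (nat_lit 4408) (nat_lit 6) (nat_lit 58) (nat_lit 1) (nat_lit 134) (nat_lit 127) (nat_lit 129)) (PT.nd (nat_lit 78) (PT.lf (nat_lit 3952) (nat_lit 6) (nat_lit 52) (nat_lit 1) (nat_lit 135) (nat_lit 127) (nat_lit 128)) (PT.lf (nat_lit 3420) (nat_lit 3) (nat_lit 45) (nat_lit 0) (nat_lit 136) (nat_lit 127) (nat_lit 127))))))) (PT.nd (nat_lit 40560) (PT.nd (nat_lit 390) (PT.nd (nat_lit 156) (PT.nd (nat_lit 78) (PT.lf (nat_lit 3496) (nat_lit 6) (nat_lit 46) (nat_lit 5) (nat_lit 126) (nat_lit 128) (nat_lit 136)) (PT.lf (nat_lit 3952) (nat_lit 6) (nat_lit 52) (nat_lit 5) (nat_lit 127) (nat_lit 128) (nat_lit 135))) (PT.nd (nat_lit 78) (PT.lf (nat_lit 4332) (nat_lit 3) (nat_lit 57) (nat_lit 3) (nat_lit 128) (nat_lit 128) (nat_lit 134)) (PT.nd (nat_lit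 78) (PT.lf (nat_lit 4712) (nat_lit 6) (nat_lit 62) (nat_lit 3) (nat_lit 129) (nat_lit 128) (nat_lit 133)) (PT.lf (nat_lit 5016) (nat_lit 6) (nat_lit 66) (nat_lit 3) (nat_lit 130) (nat_lit 128) (nat_lit 132))))) (PT.nd (nat_lit 234) (PT.nd (nat_lit 78) (PT.lf (nat_lit 5092) (nat_lit 3) (nat_lit 67) (nat_lit 1) (nat_lit 131) (nat_lit 128) (nat_lit 131)) (PT.nd (nat_lit 78) (PT.lf (nat_lit 5016) (nat_lit 6) (nat_lit 66) (nat_lit 1) (nat_lit 132) (nat_lit 128) (nat_lit 130)) (PT.lf (nat_lit 4712) (nat_lit 6) (nat_lit 62) (nat_lit 1) (nat_lit 133) (nat_lit 128) (nat_lit 129)))) (PT.nd (nat_lit 78) (PT.lf (nat_lit 4332) (nat_lit 3) (nat_lit 57) (nat_lit 0) (nat_lit 134) (nat_lit 128) (nat_lit 128)) (PT.nd (nat_lit 78) (PT.lf (nat_lit 3952) (nat_lit 6) (nat_lit 52) (nat_lit 0) (nat_lit 135) (nat_lit 128) (nat_lit 127)) (PT.lf (nat_lit 3496) (nat_lit 6) (nat_lit 46) (nat_lit 0) (nat_lit 136) (nat_lit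 128) (nat_lit 126)))))) (PT.nd (nat_lit 468) (PT.nd (nat_lit 234) (PT.nd (nat_lit 78) (PT.lf (nat_lit 3572) (nat_lit 6) (nat_lit 47) (nat_lit 5) (nat_lit 125) (nat_lit 129) (nat_lit 136)) (PT.nd (nat_lit 78) (PT.lf (nat_lit 4028) (nat_lit 6) (nat_lit 53) (nat_lit 5) (nat_lit 126) (nat_lit 129) (nat_lit 135)) (PT.lf (nat_lit 4408) (nat_lit 6) (nat_lit 58) (nat_lit 5) (nat_lit 127) (nat_lit 129) (nat_lit 134)))) (PT.nd (nat_lit 78) (PT.lf (nat_lit 4712) (nat_lit 6) (nat_lit 62) (nat_lit 5) (nat_lit 128) (nat_lit 129) (nat_lit 133)) (PT.nd (nat_lit 78) (PT.lf (nat_lit 4940) (nat_lit 3) (nat_lit 65) (nat_lit 3) (nat_lit 129) (nat_lit 129) (nat_lit 132)) (PT.lf (nat_lit 5168) (nat_lit 6) (nat_lit 68) (nat_lit 3) (nat_lit 130) (nat_lit 129) (nat_lit 131))))) (PT.nd (nat_lit 234) (PT.nd (nat_lit 78) (PT.lf (nat_lit 5168) (nat_lit 6) (nat_lit 68) (nat_lit 1) (nat_lit 131) (nat_lit 129) (nat_lit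 130)) (PT.nd (nat_lit 78) (PT.lf (nat_lit 4940) (nat_lit 3) (nat_lit 65) (nat_lit 0) (nat_lit 132) (nat_lit 129) (nat_lit 129)) (PT.lf (nat_lit 4712) (nat_lit 6) (nat_lit 62) (nat_lit 0) (nat_lit 133) (nat_lit 129) (nat_lit 128)))) (PT.nd (nat_lit 78) (PT.lf (nat_lit 4408) (nat_lit 6) (nat_lit 58) (nat_lit 0) (nat_lit 134) (nat_lit 129) (nat_lit 127)) (PT.nd (nat_lit 78) (PT.lf (nat_lit 4028) (nat_lit 6) (nat_lit 53) (nat_lit 0) (nat_lit 135) (nat_lit 129) (nat_lit 126)) (PT.lf (nat_lit 3572) (nat_lit 6) (nat_lit 47) (nat_lit 0) (nat_lit 136) (nat_lit 129) (nat_lit 125))))))))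
noncomputable def pc3 : PT := (PT.nd (nat_lit 41184) (PT.nd (nat_lit 858) (PT.nd (nat_lit 390) (PT.nd (nat_lit 156) (PT.nd (nat_lit 78) (PT.lf (nat_lit 3648) (nat_lit 6) (nat_lit 48) (nat_lit 5) (nat_lit 124) (nat_lit 130) (nat_lit 136)) (PT.lf (nat_lit 4104) (nat_lit 6) (nat_lit 54) (nat_lit 5) (nat_lit 125) (nat_lit 130) (nat_lit 135))) (PT.nd (nat_lit 78) (PT.lf (nat_lit 4484) (nat_lit 6) (nat_lit 59) (nat_lit 5) (nat_lit 126) (nat_lit 130) (nat_lit 134)) (PT.nd (nat_lit 78) (PT.lf (nat_lit 4788) (nat_lit 6) (nat_lit 63) (nat_lit 5) (nat_lit 127) (nat_lit 130) (nat_lit 133)) (PT.lf (nat_lit 5016) (nat_lit 6) (nat_lit 66) (nat_lit 5) (nat_lit 128) (nat_lit 130) (nat_lit 132))))) (PT.nd (nat_lit 234) (PT.nd (nat_lit 78) (PT.lf (nat_lit 5168) (nat_lit 6) (nat_lit 68) (nat_lit 5) (nat_lit 129) (nat_lit 130) (nat_lit 131)) (PT.nd (nat_lit 78) (PT.lf (nat_lit 5244) (nat_lit 1) (nat_lit 69)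 (nat_lit 0) (nat_lit 130) (nat_lit 130) (nat_lit 130)) (PT.lf (nat_lit 5168) (nat_lit 6) (nat_lit 68) (nat_lit 0) (nat_lit 131) (nat_lit 130) (nat_lit 129)))) (PT.nd (nat_lit 78) (PT.lf (nat_lit 5016) (nat_lit 6) (nat_lit 66) (nat_lit 0) (nat_lit 132) (nat_lit 130) (nat_lit 128)) (PT.nd (nat_lit 78) (PT.lf (nat_lit 4788) (nat_lit 6) (nat_lit 63) (nat_lit 0) (nat_lit 133) (nat_lit 130) (nat_lit 127)) (PT.lf (nat_lit 4484) (nat_lit 6) (nat_lit 59) (nat_lit 0) (nat_lit 134) (nat_lit 130) (nat_lit 126)))))) (PT.nd (nat_lit 39858) (PT.nd (nat_lit 39624) (PT.nd (nat_lit 78) (PT.lf (nat_lit 4104) (nat_lit 6) (nat_lit 54) (nat_lit 0) (nat_lit 135) (nat_lit 130) (nat_lit 125)) (PT.lf (nat_lit 3648) (nat_lit 6) (nat_lit 48) (nat_lit 0) (nat_lit 136) (nat_lit 130) (nat_lit 124))) (PT.nd (nat_lit 78) (PT.lf (nat_lit 2888) (nat_lit 6) (nat_lit 38) (nat_lit 5) (nat_lit 122) (nat_lit 131) (nat_lit 137))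 (PT.nd (nat_lit 78) (PT.lf (nat_lit 3192) (nat_lit 6) (nat_lit 42) (nat_lit 5) (nat_lit 123) (nat_lit 131) (nat_lit 136)) (PT.lf (nat_lit 3724) (nat_lit 6) (nat_lit 49) (nat_lit 5) (nat_lit 124) (nat_lit 131) (nat_lit 135))))) (PT.nd (nat_lit 234) (PT.nd (nat_lit 78) (PT.lf (nat_lit 4180) (nat_lit 6) (nat_lit 55) (nat_lit 5) (nat_lit 125) (nat_lit 131) (nat_lit 134)) (PT.nd (nat_lit 78) (PT.lf (nat_lit 4560) (nat_lit 6) (nat_lit 60) (nat_lit 5) (nat_lit 126) (nat_lit 131) (nat_lit 133)) (PT.lf (nat_lit 4864) (nat_lit 6) (nat_lit 64) (nat_lit 5) (nat_lit 127) (nat_lit 131) (nat_lit 132)))) (PT.nd (nat_lit 78) (PT.lf (nat_lit 5092) (nat_lit 3) (nat_lit 67) (nat_lit 4) (nat_lit 128) (nat_lit 131) (nat_lit 131)) (PT.nd (nat_lit 78) (PT.lf (nat_lit 5168) (nat_lit 6) (nat_lit 68) (nat_lit 4) (nat_lit 129) (nat_lit 131) (nat_lit 130)) (PT.lf (nat_lit 5168) (nat_lit 6) (nat_lit 68) (nat_lit 2)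 (nat_lit 130) (nat_lit 131) (nat_lit 129))))))) (PT.nd (nat_lit 40170) (PT.nd (nat_lit 390) (PT.nd (nat_lit 156) (PT.nd (nat_lit 78) (PT.lf (nat_lit 5092) (nat_lit 3) (nat_lit 67) (nat_lit 0) (nat_lit 131) (nat_lit 131) (nat_lit 128)) (PT.lf (nat_lit 4864) (nat_lit 6) (nat_lit 64) (nat_lit 0) (nat_lit 132) (nat_lit 131) (nat_lit 127))) (PT.nd (nat_lit 78) (PT.lf (nat_lit 4560) (nat_lit 6) (nat_lit 60) (nat_lit 0) (nat_lit 133) (nat_lit 131) (nat_lit 126)) (PT.nd (nat_lit 78) (PT.lf (nat_lit 4180) (nat_lit 6) (nat_lit 55) (nat_lit 0) (nat_lit 134) (nat_lit 131) (nat_lit 125)) (PT.lf (nat_lit 3724) (nat_lit 6) (nat_lit 49) (nat_lit 0) (nat_lit 135) (nat_lit 131) (nat_lit 124))))) (PT.nd (nat_lit 39546) (PT.nd (nat_lit 78) (PT.lf (nat_lit 3192) (nat_lit 6) (nat_lit 42) (nat_lit 0) (nat_lit 136) (nat_lit 131) (nat_lit 123)) (PT.nd (nat_lit 39390) (PT.lf (nat_lit 2888) (nat_lit 6) (nat_lit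 38) (nat_lit 0) (nat_lit 137) (nat_lit 131) (nat_lit 122)) (PT.lf (nat_lit 2660) (nat_lit 6) (nat_lit 35) (nat_lit 5) (nat_lit 121) (nat_lit 132) (nat_lit 137)))) (PT.nd (nat_lit 78) (PT.lf (nat_lit 2964) (nat_lit 6) (nat_lit 39) (nat_lit 5) (nat_lit 122) (nat_lit 132) (nat_lit 136)) (PT.nd (nat_lit 78) (PT.lf (nat_lit 3268) (nat_lit 6) (nat_lit 43) (nat_lit 5) (nat_lit 123) (nat_lit 132) (nat_lit 135)) (PT.lf (nat_lit 3800) (nat_lit 6) (nat_lit 50) (nat_lit 5) (nat_lit 124) (nat_lit 132) (nat_lit 134)))))) (PT.nd (nat_lit 468) (PT.nd (nat_lit 234) (PT.nd (nat_lit 78) (PT.lf (nat_lit 4256) (nat_lit 6) (nat_lit 56) (nat_lit 5) (nat_lit 125) (nat_lit 132) (nat_lit 133)) (PT.nd (nat_lit 78) (PT.lf (nat_lit 4636) (nat_lit 3) (nat_lit 61) (nat_lit 4) (nat_lit 126) (nat_lit 132) (nat_lit 132)) (PT.lf (nat_lit 4864) (nat_lit 6) (nat_lit 64) (nat_lit 4) (nat_lit 127) (nat_lit 132) (nat_lit 131))))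 (PT.nd (nat_lit 78) (PT.lf (nat_lit 5016) (nat_lit 6) (nat_lit 66) (nat_lit 4) (nat_lit 128) (nat_lit 132) (nat_lit 130)) (PT.nd (nat_lit 78) (PT.lf (nat_lit 4940) (nat_lit 3) (nat_lit 65) (nat_lit 2) (nat_lit 129) (nat_lit 132) (nat_lit 129)) (PT.lf (nat_lit 5016) (nat_lit 6) (nat_lit 66) (nat_lit 2) (nat_lit 130) (nat_lit 132) (nat_lit 128))))) (PT.nd (nat_lit 234) (PT.nd (nat_lit 78) (PT.lf (nat_lit 4864) (nat_lit 6) (nat_lit 64) (nat_lit 2) (nat_lit 131) (nat_lit 132) (nat_lit 127)) (PT.nd (nat_lit 78) (PT.lf (nat_lit 4636) (nat_lit 3) (nat_lit 61) (nat_lit 0) (nat_lit 132) (nat_lit 132) (nat_lit 126)) (PT.lf (nat_lit 4256) (nat_lit 6) (nat_lit 56) (nat_lit 0) (nat_lit 133) (nat_lit 132) (nat_lit 125)))) (PT.nd (nat_lit 78) (PT.lf (nat_lit 3800) (nat_lit 6) (nat_lit 50) (nat_lit 0) (nat_lit 134) (nat_lit 132) (nat_lit 124)) (PT.nd (nat_lit 78) (PT.lf (nat_lit 3268) (nat_lit 6) (nat_lit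 43) (nat_lit 0) (nat_lit 135) (nat_lit 132) (nat_lit 123)) (PT.lf (nat_lit 2964) (nat_lit 6) (nat_lit 39) (nat_lit 0) (nat_lit 136) (nat_lit 132) (nat_lit 122))))))))
noncomputable def pc4 : PT := (PT.nd (nat_lit 80028) (PT.nd (nat_lit 40092) (PT.nd (nat_lit 39624) (PT.nd (nat_lit 39390) (PT.nd (nat_lit 39312) (PT.lf (nat_lit 2660) (nat_lit 6) (nat_lit 35) (nat_lit 0) (nat_lit 137) (nat_lit 132) (nat_lit 121)) (PT.lf (nat_lit 2432) (nat_lit 6) (nat_lit 32) (nat_lit 5) (nat_lit 120) (nat_lit 133) (nat_lit 137))) (PT.nd (nat_lit 78) (PT.lf (nat_lit 2736) (nat_lit 6) (nat_lit 36) (nat_lit 5) (nat_lit 121) (nat_lit 133) (nat_lit 136)) (PT.nd (nat_lit 78) (PT.lf (nat_lit 3040) (nat_lit 6) (nat_lit 40) (nat_lit 5) (nat_lit 122) (nat_lit 133) (nat_lit 135)) (PT.lf (nat_lit 3344) (nat_lit 6) (nat_lit 44) (nat_lit 5) (nat_lit 123) (nat_lit 133) (nat_lit 134))))) (PT.nd (nat_lit 234) (PT.nd (nat_lit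 78) (PT.lf (nat_lit 3876) (nat_lit 3) (nat_lit 51) (nat_lit 4) (nat_lit 124) (nat_lit 133) (nat_lit 133)) (PT.nd (nat_lit 78) (PT.lf (nat_lit 4256) (nat_lit 6) (nat_lit 56) (nat_lit 4) (nat_lit 125) (nat_lit 133) (nat_lit 132)) (PT.lf (nat_lit 4560) (nat_lit 6) (nat_lit 60) (nat_lit 4) (nat_lit 126) (nat_lit 133) (nat_lit 131)))) (PT.nd (nat_lit 78) (PT.lf (nat_lit 4788) (nat_lit 6) (nat_lit 63) (nat_lit 4) (nat_lit 127) (nat_lit 133) (nat_lit 130)) (PT.nd (nat_lit 78) (PT.lf (nat_lit 4712) (nat_lit 6) (nat_lit 62) (nat_lit 4) (nat_lit 128) (nat_lit 133) (nat_lit 129)) (PT.lf (nat_lit 4712) (nat_lit 6) (nat_lit 62) (nat_lit 2) (nat_lit 129) (nat_lit 133) (nat_lit 128)))))) (PT.nd (nat_lit 390) (PT.nd (nat_lit 156) (PT.nd (nat_lit 78) (PT.lf (nat_lit 4788) (nat_lit 6) (nat_lit 63) (nat_lit 2) (nat_lit 130) (nat_lit 133) (nat_lit 127)) (PT.lf (nat_lit 4560) (nat_lit 6) (nat_lit 60) (nat_lit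 2) (nat_lit 131) (nat_lit 133) (nat_lit 126))) (PT.nd (nat_lit 78) (PT.lf (nat_lit 4256) (nat_lit 6) (nat_lit 56) (nat_lit 2) (nat_lit 132) (nat_lit 133) (nat_lit 125)) (PT.nd (nat_lit 78) (PT.lf (nat_lit 3876) (nat_lit 3) (nat_lit 51) (nat_lit 0) (nat_lit 133) (nat_lit 133) (nat_lit 124)) (PT.lf (nat_lit 3344) (nat_lit 6) (nat_lit 44) (nat_lit 0) (nat_lit 134) (nat_lit 133) (nat_lit 123))))) (PT.nd (nat_lit 39312) (PT.nd (nat_lit 78) (PT.lf (nat_lit 3040) (nat_lit 6) (nat_lit 40) (nat_lit 0) (nat_lit 135) (nat_lit 133) (nat_lit 122)) (PT.nd (nat_lit 78) (PT.lf (nat_lit 2736) (nat_lit 6) (nat_lit 36) (nat_lit 0) (nat_lit 136) (nat_lit 133) (nat_lit 121)) (PT.lf (nat_lit 2432) (nat_lit 6) (nat_lit 32) (nat_lit 0) (nat_lit 137) (nat_lit 133) (nat_lit 120)))) (PT.nd (nat_lit 78) (PT.lf (nat_lit 2052) (nat_lit 6) (nat_lit 27) (nat_lit 5) (nat_lit 118) (nat_lit 134) (nat_lit 138)) (PT.nd (nat_lit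 78) (PT.lf (nat_lit 2280) (nat_lit 6) (nat_lit 30) (nat_lit 5) (nat_lit 119) (nat_lit 134) (nat_lit 137)) (PT.lf (nat_lit 2508) (nat_lit 6) (nat_lit 33) (nat_lit 5) (nat_lit 120) (nat_lit 134) (nat_lit 136))))))) (PT.nd (nat_lit 858) (PT.nd (nat_lit 390) (PT.nd (nat_lit 156) (PT.nd (nat_lit 78) (PT.lf (nat_lit 2812) (nat_lit 6) (nat_lit 37) (nat_lit 5) (nat_lit 121) (nat_lit 134) (nat_lit 135)) (PT.lf (nat_lit 3116) (nat_lit 3) (nat_lit 41) (nat_lit 4) (nat_lit 122) (nat_lit 134) (nat_lit 134))) (PT.nd (nat_lit 78) (PT.lf (nat_lit 3344) (nat_lit 6) (nat_lit 44) (nat_lit 4) (nat_lit 123) (nat_lit 134) (nat_lit 133)) (PT.nd (nat_lit 78) (PT.lf (nat_lit 3800) (nat_lit 6) (nat_lit 50) (nat_lit 4) (nat_lit 124) (nat_lit 134) (nat_lit 132)) (PT.lf (nat_lit 4180) (nat_lit 6) (nat_lit 55) (nat_lit 4) (nat_lit 125) (nat_lit 134) (nat_lit 131))))) (PT.nd (nat_lit 234) (PT.nd (nat_lit 78) (PT.lf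 (nat_lit 4484) (nat_lit 6) (nat_lit 59) (nat_lit 4) (nat_lit 126) (nat_lit 134) (nat_lit 130)) (PT.nd (nat_lit 78) (PT.lf (nat_lit 4408) (nat_lit 6) (nat_lit 58) (nat_lit 4) (nat_lit 127) (nat_lit 134) (nat_lit 129)) (PT.lf (nat_lit 4332) (nat_lit 3) (nat_lit 57) (nat_lit 2) (nat_lit 128) (nat_lit 134) (nat_lit 128)))) (PT.nd (nat_lit 78) (PT.lf (nat_lit 4408) (nat_lit 6) (nat_lit 58) (nat_lit 2) (nat_lit 129) (nat_lit 134) (nat_lit 127)) (PT.nd (nat_lit 78) (PT.lf (nat_lit 4484) (nat_lit 6) (nat_lit 59) (nat_lit 2) (nat_lit 130) (nat_lit 134) (nat_lit 126)) (PT.lf (nat_lit 4180) (nat_lit 6) (nat_lit 55) (nat_lit 2) (nat_lit 131) (nat_lit 134) (nat_lit 125)))))) (PT.nd (nat_lit 390) (PT.nd (nat_lit 156) (PT.nd (nat_lit 78) (PT.lf (nat_lit 3800) (nat_lit 6) (nat_lit 50) (nat_lit 2) (nat_lit 132) (nat_lit 134) (nat_lit 124)) (PT.lf (nat_lit 3344) (nat_lit 6) (nat_lit 44) (nat_lit 2) (nat_lit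 133) (nat_lit 134) (nat_lit 123))) (PT.nd (nat_lit 78) (PT.lf (nat_lit 3116) (nat_lit 3) (nat_lit 41) (nat_lit 0) (nat_lit 134) (nat_lit 134) (nat_lit 122)) (PT.nd (nat_lit 78) (PT.lf (nat_lit 2812) (nat_lit 6) (nat_lit 37) (nat_lit 0) (nat_lit 135) (nat_lit 134) (nat_lit 121)) (PT.lf (nat_lit 2508) (nat_lit 6) (nat_lit 33) (nat_lit 0) (nat_lit 136) (nat_lit 134) (nat_lit 120))))) (PT.nd (nat_lit 39156) (PT.nd (nat_lit 78) (PT.lf (nat_lit 2280) (nat_lit 6) (nat_lit 30) (nat_lit 0) (nat_lit 137) (nat_lit 134) (nat_lit 119)) (PT.nd (nat_lit 39000) (PT.lf (nat_lit 2052) (nat_lit 6) (nat_lit 27) (nat_lit 0) (nat_lit 138) (nat_lit 134) (nat_lit 118)) (PT.lf (nat_lit 1900) (nat_lit 6) (nat_lit 25) (nat_lit 5) (nat_lit 117) (nat_lit 135) (nat_lit 138)))) (PT.nd (nat_lit 78) (PT.lf (nat_lit 2128) (nat_lit 6) (nat_lit 28) (nat_lit 5) (nat_lit 118) (nat_lit 135) (nat_lit 137)) (PT.nd (nat_lit 78)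 (PT.lf (nat_lit 2356) (nat_lit 6) (nat_lit 31) (nat_lit 5) (nat_lit 119) (nat_lit 135) (nat_lit 136)) (PT.lf (nat_lit 2584) (nat_lit 3) (nat_lit 34) (nat_lit 4) (nat_lit 120) (nat_lit 135) (nat_lit 135))))))))
noncomputable def pc5 : PT := (PT.nd (nat_lit 40482) (PT.nd (nat_lit 858) (PT.nd (nat_lit 390) (PT.nd (nat_lit 156) (PT.nd (nat_lit 78) (PT.lf (nat_lit 2812) (nat_lit 6) (nat_lit 37) (nat_lit 4) (nat_lit 121) (nat_lit 135) (nat_lit 134)) (PT.lf (nat_lit 3040) (nat_lit 6) (nat_lit 40) (nat_lit 4) (nat_lit 122) (nat_lit 135) (nat_lit 133))) (PT.nd (nat_lit 78) (PT.lf (nat_lit 3268) (nat_lit 6) (nat_lit 43) (nat_lit 4) (nat_lit 123) (nat_lit 135) (nat_lit 132)) (PT.nd (nat_lit 78) (PT.lf (nat_lit 3724) (nat_lit 6) (nat_lit 49) (nat_lit 4) (nat_lit 124) (nat_lit 135) (nat_lit 131)) (PT.lf (nat_lit 4104) (nat_lit 6) (nat_lit 54) (nat_lit 4) (nat_lit 125) (nat_lit 135) (nat_lit 130)))))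 (PT.nd (nat_lit 234) (PT.nd (nat_lit 78) (PT.lf (nat_lit 4028) (nat_lit 6) (nat_lit 53) (nat_lit 4) (nat_lit 126) (nat_lit 135) (nat_lit 129)) (PT.nd (nat_lit 78) (PT.lf (nat_lit 3952) (nat_lit 6) (nat_lit 52) (nat_lit 4) (nat_lit 127) (nat_lit 135) (nat_lit 128)) (PT.lf (nat_lit 3952) (nat_lit 6) (nat_lit 52) (nat_lit 2) (nat_lit 128) (nat_lit 135) (nat_lit 127)))) (PT.nd (nat_lit 78) (PT.lf (nat_lit 4028) (nat_lit 6) (nat_lit 53) (nat_lit 2) (nat_lit 129) (nat_lit 135) (nat_lit 126)) (PT.nd (nat_lit 78) (PT.lf (nat_lit 4104) (nat_lit 6) (nat_lit 54) (nat_lit 2) (nat_lit 130) (nat_lit 135) (nat_lit 125)) (PT.lf (nat_lit 3724) (nat_lit 6) (nat_lit 49) (nat_lit 2) (nat_lit 131) (nat_lit 135) (nat_lit 124)))))) (PT.nd (nat_lit 390) (PT.nd (nat_lit 156) (PT.nd (nat_lit 78) (PT.lf (nat_lit 3268) (nat_lit 6) (nat_lit 43) (nat_lit 2) (nat_lit 132) (nat_lit 135) (nat_lit 123)) (PT.lf (nat_lit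 3040) (nat_lit 6) (nat_lit 40) (nat_lit 2) (nat_lit 133) (nat_lit 135) (nat_lit 122))) (PT.nd (nat_lit 78) (PT.lf (nat_lit 2812) (nat_lit 6) (nat_lit 37) (nat_lit 2) (nat_lit 134) (nat_lit 135) (nat_lit 121)) (PT.nd (nat_lit 78) (PT.lf (nat_lit 2584) (nat_lit 3) (nat_lit 34) (nat_lit 0) (nat_lit 135) (nat_lit 135) (nat_lit 120)) (PT.lf (nat_lit 2356) (nat_lit 6) (nat_lit 31) (nat_lit 0) (nat_lit 136) (nat_lit 135) (nat_lit 119))))) (PT.nd (nat_lit 39000) (PT.nd (nat_lit 78) (PT.lf (nat_lit 2128) (nat_lit 6) (nat_lit 28) (nat_lit 0) (nat_lit 137) (nat_lit 135) (nat_lit 118)) (PT.nd (nat_lit 38844) (PT.lf (nat_lit 1900) (nat_lit 6) (nat_lit 25) (nat_lit 0) (nat_lit 138) (nat_lit 135) (nat_lit 117)) (PT.lf (nat_lit 1596) (nat_lit 6) (nat_lit 21) (nat_lit 5) (nat_lit 115) (nat_lit 136) (nat_lit 139)))) (PT.nd (nat_lit 78) (PT.lf (nat_lit 1748) (nat_lit 6) (nat_lit 23) (nat_lit 5) (nat_lit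 116) (nat_lit 136) (nat_lit 138)) (PT.nd (nat_lit 78) (PT.lf (nat_lit 1976) (nat_lit 6) (nat_lit 26) (nat_lit 5) (nat_lit 117) (nat_lit 136) (nat_lit 137)) (PT.lf (nat_lit 2204) (nat_lit 3) (nat_lit 29) (nat_lit 4) (nat_lit 118) (nat_lit 136) (nat_lit 136))))))) (PT.nd (nat_lit 858) (PT.nd (nat_lit 390) (PT.nd (nat_lit 156) (PT.nd (nat_lit 78) (PT.lf (nat_lit 2356) (nat_lit 6) (nat_lit 31) (nat_lit 4) (nat_lit 119) (nat_lit 136) (nat_lit 135)) (PT.lf (nat_lit 2508) (nat_lit 6) (nat_lit 33) (nat_lit 4) (nat_lit 120) (nat_lit 136) (nat_lit 134))) (PT.nd (nat_lit 78) (PT.lf (nat_lit 2736) (nat_lit 6) (nat_lit 36) (nat_lit 4) (nat_lit 121) (nat_lit 136) (nat_lit 133)) (PT.nd (nat_lit 78) (PT.lf (nat_lit 2964) (nat_lit 6) (nat_lit 39) (nat_lit 4) (nat_lit 122) (nat_lit 136) (nat_lit 132)) (PT.lf (nat_lit 3192) (nat_lit 6) (nat_lit 42) (nat_lit 4) (nat_lit 123) (nat_lit 136) (nat_lit 131)))))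 (PT.nd (nat_lit 234) (PT.nd (nat_lit 78) (PT.lf (nat_lit 3648) (nat_lit 6) (nat_lit 48) (nat_lit 4) (nat_lit 124) (nat_lit 136) (nat_lit 130)) (PT.nd (nat_lit 78) (PT.lf (nat_lit 3572) (nat_lit 6) (nat_lit 47) (nat_lit 4) (nat_lit 125) (nat_lit 136) (nat_lit 129)) (PT.lf (nat_lit 3496) (nat_lit 6) (nat_lit 46) (nat_lit 4) (nat_lit 126) (nat_lit 136) (nat_lit 128)))) (PT.nd (nat_lit 78) (PT.lf (nat_lit 3420) (nat_lit 3) (nat_lit 45) (nat_lit 2) (nat_lit 127) (nat_lit 136) (nat_lit 127)) (PT.nd (nat_lit 78) (PT.lf (nat_lit 3496) (nat_lit 6) (nat_lit 46) (nat_lit 2) (nat_lit 128) (nat_lit 136) (nat_lit 126)) (PT.lf (nat_lit 3572) (nat_lit 6) (nat_lit 47) (nat_lit 2) (nat_lit 129) (nat_lit 136) (nat_lit 125)))))) (PT.nd (nat_lit 468) (PT.nd (nat_lit 234) (PT.nd (nat_lit 78) (PT.lf (nat_lit 3648) (nat_lit 6) (nat_lit 48) (nat_lit 2) (nat_lit 130) (nat_lit 136) (nat_lit 124)) (PT.nd (nat_lit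 78) (PT.lf (nat_lit 3192) (nat_lit 6) (nat_lit 42) (nat_lit 2) (nat_lit 131) (nat_lit 136) (nat_lit 123)) (PT.lf (nat_lit 2964) (nat_lit 6) (nat_lit 39) (nat_lit 2) (nat_lit 132) (nat_lit 136) (nat_lit 122)))) (PT.nd (nat_lit 78) (PT.lf (nat_lit 2736) (nat_lit 6) (nat_lit 36) (nat_lit 2) (nat_lit 133) (nat_lit 136) (nat_lit 121)) (PT.nd (nat_lit 78) (PT.lf (nat_lit 2508) (nat_lit 6) (nat_lit 33) (nat_lit 2) (nat_lit 134) (nat_lit 136) (nat_lit 120)) (PT.lf (nat_lit 2356) (nat_lit 6) (nat_lit 31) (nat_lit 2) (nat_lit 135) (nat_lit 136) (nat_lit 119))))) (PT.nd (nat_lit 234) (PT.nd (nat_lit 78) (PT.lf (nat_lit 2204) (nat_lit 3) (nat_lit 29) (nat_lit 0) (nat_lit 136) (nat_lit 136) (nat_lit 118)) (PT.nd (nat_lit 78) (PT.lf (nat_lit 1976) (nat_lit 6) (nat_lit 26) (nat_lit 0) (nat_lit 137) (nat_lit 136) (nat_lit 117)) (PT.lf (nat_lit 1748) (nat_lit 6) (nat_lit 23) (nat_lit 0) (nat_lit 138) (nat_lit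 136) (nat_lit 116)))) (PT.nd (nat_lit 38610) (PT.lf (nat_lit 1596) (nat_lit 6) (nat_lit 21) (nat_lit 0) (nat_lit 139) (nat_lit 136) (nat_lit 115)) (PT.nd (nat_lit 78) (PT.lf (nat_lit 1292) (nat_lit 6) (nat_lit 17) (nat_lit 5) (nat_lit 113) (nat_lit 137) (nat_lit 140)) (PT.lf (nat_lit 1444) (nat_lit 6) (nat_lit 19) (nat_lit 5) (nat_lit 114) (nat_lit 137) (nat_lit 139))))))))
noncomputable def pc6 : PT := (PT.nd (nat_lit 40716) (PT.nd (nat_lit 1482) (PT.nd (nat_lit 390) (PT.nd (nat_lit 156) (PT.nd (nat_lit 78) (PT.lf (nat_lit 1672) (nat_lit 6) (nat_lit 22) (nat_lit 5) (nat_lit 115) (nat_lit 137) (nat_lit 138)) (PT.lf (nat_lit 1824) (nat_lit 3) (nat_lit 24) (nat_lit 4) (nat_lit 116) (nat_lit 137) (nat_lit 137))) (PT.nd (nat_lit 78) (PT.lf (nat_lit 1976) (nat_lit 6) (nat_lit 26) (nat_lit 4) (nat_lit 117) (nat_lit 137) (nat_lit 136)) (PT.nd (nat_lit 78) (PT.lf (nat_lit 2128) (nat_lit 6) (nat_lit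 28) (nat_lit 4) (nat_lit 118) (nat_lit 137) (nat_lit 135)) (PT.lf (nat_lit 2280) (nat_lit 6) (nat_lit 30) (nat_lit 4) (nat_lit 119) (nat_lit 137) (nat_lit 134))))) (PT.nd (nat_lit 858) (PT.nd (nat_lit 78) (PT.lf (nat_lit 2432) (nat_lit 6) (nat_lit 32) (nat_lit 4) (nat_lit 120) (nat_lit 137) (nat_lit 133)) (PT.nd (nat_lit 78) (PT.lf (nat_lit 2660) (nat_lit 6) (nat_lit 35) (nat_lit 4) (nat_lit 121) (nat_lit 137) (nat_lit 132)) (PT.lf (nat_lit 2888) (nat_lit 6) (nat_lit 38) (nat_lit 4) (nat_lit 122) (nat_lit 137) (nat_lit 131)))) (PT.nd (nat_lit 78) (PT.lf (nat_lit 2888) (nat_lit 6) (nat_lit 38) (nat_lit 2) (nat_lit 131) (nat_lit 137) (nat_lit 122)) (PT.nd (nat_lit 78) (PT.lf (nat_lit 2660) (nat_lit 6) (nat_lit 35) (nat_lit 2) (nat_lit 132) (nat_lit 137) (nat_lit 121)) (PT.lf (nat_lit 2432) (nat_lit 6) (nat_lit 32) (nat_lit 2) (nat_lit 133) (nat_lit 137) (nat_lit 120)))))) (PT.nd (nat_lit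 390) (PT.nd (nat_lit 156) (PT.nd (nat_lit 78) (PT.lf (nat_lit 2280) (nat_lit 6) (nat_lit 30) (nat_lit 2) (nat_lit 134) (nat_lit 137) (nat_lit 119)) (PT.lf (nat_lit 2128) (nat_lit 6) (nat_lit 28) (nat_lit 2) (nat_lit 135) (nat_lit 137) (nat_lit 118))) (PT.nd (nat_lit 78) (PT.lf (nat_lit 1976) (nat_lit 6) (nat_lit 26) (nat_lit 2) (nat_lit 136) (nat_lit 137) (nat_lit 117)) (PT.nd (nat_lit 78) (PT.lf (nat_lit 1824) (nat_lit 3) (nat_lit 24) (nat_lit 0) (nat_lit 137) (nat_lit 137) (nat_lit 116)) (PT.lf (nat_lit 1672) (nat_lit 6) (nat_lit 22) (nat_lit 0) (nat_lit 138) (nat_lit 137) (nat_lit 115))))) (PT.nd (nat_lit 38610) (PT.nd (nat_lit 78) (PT.lf (nat_lit 1444) (nat_lit 6) (nat_lit 19) (nat_lit 0) (nat_lit 139) (nat_lit 137) (nat_lit 114)) (PT.nd (nat_lit 38454) (PT.lf (nat_lit 1292) (nat_lit 6) (nat_lit 17) (nat_lit 0) (nat_lit 140) (nat_lit 137) (nat_lit 113)) (PT.lf (nat_lit 1140) (nat_lit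 6) (nat_lit 15) (nat_lit 5) (nat_lit 112) (nat_lit 138) (nat_lit 140)))) (PT.nd (nat_lit 78) (PT.lf (nat_lit 1368) (nat_lit 6) (nat_lit 18) (nat_lit 5) (nat_lit 113) (nat_lit 138) (nat_lit 139)) (PT.nd (nat_lit 78) (PT.lf (nat_lit 1520) (nat_lit 3) (nat_lit 20) (nat_lit 4) (nat_lit 114) (nat_lit 138) (nat_lit 138)) (PT.lf (nat_lit 1672) (nat_lit 6) (nat_lit 22) (nat_lit 4) (nat_lit 115) (nat_lit 138) (nat_lit 137))))))) (PT.nd (nat_lit 40248) (PT.nd (nat_lit 1560) (PT.nd (nat_lit 156) (PT.nd (nat_lit 78) (PT.lf (nat_lit 1748) (nat_lit 6) (nat_lit 23) (nat_lit 4) (nat_lit 116) (nat_lit 138) (nat_lit 136)) (PT.lf (nat_lit 1900) (nat_lit 6) (nat_lit 25) (nat_lit 4) (nat_lit 117) (nat_lit 138) (nat_lit 135))) (PT.nd (nat_lit 1248) (PT.lf (nat_lit 2052) (nat_lit 6) (nat_lit 27) (nat_lit 4) (nat_lit 118) (nat_lit 138) (nat_lit 134)) (PT.nd (nat_lit 78) (PT.lf (nat_lit 2052) (nat_lit 6) (nat_lit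 27) (nat_lit 2) (nat_lit 134) (nat_lit 138) (nat_lit 118)) (PT.lf (nat_lit 1900) (nat_lit 6) (nat_lit 25) (nat_lit 2) (nat_lit 135) (nat_lit 138) (nat_lit 117))))) (PT.nd (nat_lit 234) (PT.nd (nat_lit 78) (PT.lf (nat_lit 1748) (nat_lit 6) (nat_lit 23) (nat_lit 2) (nat_lit 136) (nat_lit 138) (nat_lit 116)) (PT.nd (nat_lit 78) (PT.lf (nat_lit 1672) (nat_lit 6) (nat_lit 22) (nat_lit 2) (nat_lit 137) (nat_lit 138) (nat_lit 115)) (PT.lf (nat_lit 1520) (nat_lit 3) (nat_lit 20) (nat_lit 0) (nat_lit 138) (nat_lit 138) (nat_lit 114)))) (PT.nd (nat_lit 78) (PT.lf (nat_lit 1368) (nat_lit 6) (nat_lit 18) (nat_lit 0) (nat_lit 139) (nat_lit 138) (nat_lit 113)) (PT.nd (nat_lit 38298) (PT.lf (nat_lit 1140) (nat_lit 6) (nat_lit 15) (nat_lit 0) (nat_lit 140) (nat_lit 138) (nat_lit 112)) (PT.lf (nat_lit 912) (nat_lit 6) (nat_lit 12) (nat_lit 5) (nat_lit 110) (nat_lit 139) (nat_lit 141)))))) (PT.nd (nat_lit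 2028) (PT.nd (nat_lit 234) (PT.nd (nat_lit 78) (PT.lf (nat_lit 1064) (nat_lit 6) (nat_lit 14) (nat_lit 5) (nat_lit 111) (nat_lit 139) (nat_lit 140)) (PT.nd (nat_lit 78) (PT.lf (nat_lit 1216) (nat_lit 3) (nat_lit 16) (nat_lit 4) (nat_lit 112) (nat_lit 139) (nat_lit 139)) (PT.lf (nat_lit 1368) (nat_lit 6) (nat_lit 18) (nat_lit 4) (nat_lit 113) (nat_lit 139) (nat_lit 138)))) (PT.nd (nat_lit 78) (PT.lf (nat_lit 1444) (nat_lit 6) (nat_lit 19) (nat_lit 4) (nat_lit 114) (nat_lit 139) (nat_lit 137)) (PT.nd (nat_lit 1638) (PT.lf (nat_lit 1596) (nat_lit 6) (nat_lit 21) (nat_lit 4) (nat_lit 115) (nat_lit 139) (nat_lit 136)) (PT.lf (nat_lit 1596) (nat_lit 6) (nat_lit 21) (nat_lit 2) (nat_lit 136) (nat_lit 139) (nat_lit 115))))) (PT.nd (nat_lit 234) (PT.nd (nat_lit 78) (PT.lf (nat_lit 1444) (nat_lit 6) (nat_lit 19) (nat_lit 2) (nat_lit 137) (nat_lit 139) (nat_lit 114)) (PT.nd (nat_lit 78) (PT.lf (nat_lit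 1368) (nat_lit 6) (nat_lit 18) (nat_lit 2) (nat_lit 138) (nat_lit 139) (nat_lit 113)) (PT.lf (nat_lit 1216) (nat_lit 3) (nat_lit 16) (nat_lit 0) (nat_lit 139) (nat_lit 139) (nat_lit 112)))) (PT.nd (nat_lit 78) (PT.lf (nat_lit 1064) (nat_lit 6) (nat_lit 14) (nat_lit 0) (nat_lit 140) (nat_lit 139) (nat_lit 111)) (PT.nd (nat_lit 38064) (PT.lf (nat_lit 912) (nat_lit 6) (nat_lit 12) (nat_lit 0) (nat_lit 141) (nat_lit 139) (nat_lit 110)) (PT.lf (nat_lit 684) (nat_lit 6) (nat_lit 9) (nat_lit 5) (nat_lit 108) (nat_lit 140) (nat_lit 142))))))))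
noncomputable def pc7 : PT := (PT.nd (nat_lit 80964) (PT.nd (nat_lit 40404) (PT.nd (nat_lit 2184) (PT.nd (nat_lit 156) (PT.nd (nat_lit 78) (PT.lf (nat_lit 836) (nat_lit 6) (nat_lit 11) (nat_lit 5) (nat_lit 109) (nat_lit 140) (nat_lit 141)) (PT.lf (nat_lit 988) (nat_lit 3) (nat_lit 13) (nat_lit 4) (nat_lit 110) (nat_lit 140) (nat_lit 140))) (PT.nd (nat_lit 78) (PT.lf (nat_lit 1064) (nat_lit 6) (nat_lit 14) (nat_lit 4) (nat_lit 111) (nat_lit 140) (nat_lit 139)) (PT.nd (nat_lit 78) (PT.lf (nat_lit 1140) (nat_lit 6) (nat_lit 15) (nat_lit 4) (nat_lit 112) (nat_lit 140) (nat_lit 138)) (PT.lf (nat_lit 1292) (nat_lit 6) (nat_lit 17) (nat_lit 4) (nat_lit 113) (nat_lit 140) (nat_lit 137))))) (PT.nd (nat_lit 234) (PT.nd (nat_lit 78) (PT.lf (nat_lit 1292) (nat_lit 6) (nat_lit 17) (nat_lit 2) (nat_lit 137) (nat_lit 140) (nat_lit 113)) (PT.nd (nat_lit 78) (PT.lf (nat_lit 1140) (nat_lit 6) (nat_lit 15)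 (nat_lit 2) (nat_lit 138) (nat_lit 140) (nat_lit 112)) (PT.lf (nat_lit 1064) (nat_lit 6) (nat_lit 14) (nat_lit 2) (nat_lit 139) (nat_lit 140) (nat_lit 111)))) (PT.nd (nat_lit 78) (PT.lf (nat_lit 988) (nat_lit 3) (nat_lit 13) (nat_lit 0) (nat_lit 140) (nat_lit 140) (nat_lit 110)) (PT.nd (nat_lit 78) (PT.lf (nat_lit 836) (nat_lit 6) (nat_lit 11) (nat_lit 0) (nat_lit 141) (nat_lit 140) (nat_lit 109)) (PT.lf (nat_lit 684) (nat_lit 6) (nat_lit 9) (nat_lit 0) (nat_lit 142) (nat_lit 140) (nat_lit 108)))))) (PT.nd (nat_lit 2574) (PT.nd (nat_lit 156) (PT.nd (nat_lit 78) (PT.lf (nat_lit 456) (nat_lit 6) (nat_lit 6) (nat_lit 5) (nat_lit 106) (nat_lit 141) (nat_lit 143)) (PT.lf (nat_lit 608) (nat_lit 6) (nat_lit 8) (nat_lit 5) (nat_lit 107) (nat_lit 141) (nat_lit 142))) (PT.nd (nat_lit 78) (PT.lf (nat_lit 760) (nat_lit 3) (nat_lit 10) (nat_lit 4) (nat_lit 108) (nat_lit 141) (nat_lit 141)) (PT.nd (nat_lit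 78) (PT.lf (nat_lit 836) (nat_lit 6) (nat_lit 11) (nat_lit 4) (nat_lit 109) (nat_lit 141) (nat_lit 140)) (PT.lf (nat_lit 912) (nat_lit 6) (nat_lit 12) (nat_lit 4) (nat_lit 110) (nat_lit 141) (nat_lit 139))))) (PT.nd (nat_lit 234) (PT.nd (nat_lit 78) (PT.lf (nat_lit 912) (nat_lit 6) (nat_lit 12) (nat_lit 2) (nat_lit 139) (nat_lit 141) (nat_lit 110)) (PT.nd (nat_lit 78) (PT.lf (nat_lit 836) (nat_lit 6) (nat_lit 11) (nat_lit 2) (nat_lit 140) (nat_lit 141) (nat_lit 109)) (PT.lf (nat_lit 760) (nat_lit 3) (nat_lit 10) (nat_lit 0) (nat_lit 141) (nat_lit 141) (nat_lit 108)))) (PT.nd (nat_lit 78) (PT.lf (nat_lit 608) (nat_lit 6) (nat_lit 8) (nat_lit 0) (nat_lit 142) (nat_lit 141) (nat_lit 107)) (PT.nd (nat_lit 37596) (PT.lf (nat_lit 456) (nat_lit 6) (nat_lit 6) (nat_lit 0) (nat_lit 143) (nat_lit 141) (nat_lit 106)) (PT.lf (nat_lit 228) (nat_lit 6) (nat_lit 3) (nat_lit 5) (nat_lit 104) (nat_lit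 142) (nat_lit 144))))))) (PT.nd (nat_lit 40638) (PT.nd (nat_lit 2808) (PT.nd (nat_lit 156) (PT.nd (nat_lit 78) (PT.lf (nat_lit 380) (nat_lit 6) (nat_lit 5) (nat_lit 5) (nat_lit 105) (nat_lit 142) (nat_lit 143)) (PT.lf (nat_lit 532) (nat_lit 3) (nat_lit 7) (nat_lit 4) (nat_lit 106) (nat_lit 142) (nat_lit 142))) (PT.nd (nat_lit 78) (PT.lf (nat_lit 608) (nat_lit 6) (nat_lit 8) (nat_lit 4) (nat_lit 107) (nat_lit 142) (nat_lit 141)) (PT.nd (nat_lit 2496) (PT.lf (nat_lit 684) (nat_lit 6) (nat_lit 9) (nat_lit 4) (nat_lit 108) (nat_lit 142) (nat_lit 140)) (PT.lf (nat_lit 684) (nat_lit 6) (nat_lit 9) (nat_lit 2) (nat_lit 140) (nat_lit 142) (nat_lit 108))))) (PT.nd (nat_lit 234) (PT.nd (nat_lit 78) (PT.lf (nat_lit 608) (nat_lit 6) (nat_lit 8) (nat_lit 2) (nat_lit 141) (nat_lit 142) (nat_lit 107)) (PT.nd (nat_lit 78) (PT.lf (nat_lit 532) (nat_lit 3) (nat_lit 7) (nat_lit 0) (nat_lit 142) (nat_lit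 142) (nat_lit 106)) (PT.lf (nat_lit 380) (nat_lit 6) (nat_lit 5) (nat_lit 0) (nat_lit 143) (nat_lit 142) (nat_lit 105)))) (PT.nd (nat_lit 37440) (PT.lf (nat_lit 228) (nat_lit 6) (nat_lit 3) (nat_lit 0) (nat_lit 144) (nat_lit 142) (nat_lit 104)) (PT.nd (nat_lit 78) (PT.lf (nat_lit 152) (nat_lit 6) (nat_lit 2) (nat_lit 5) (nat_lit 103) (nat_lit 143) (nat_lit 144)) (PT.lf (nat_lit 304) (nat_lit 3) (nat_lit 4) (nat_lit 4) (nat_lit 104) (nat_lit 143) (nat_lit 143)))))) (PT.nd (nat_lit 40404) (PT.nd (nat_lit 2886) (PT.nd (nat_lit 78) (PT.lf (nat_lit 380) (nat_lit 6) (nat_lit 5) (nat_lit 4) (nat_lit 105) (nat_lit 143) (nat_lit 142)) (PT.nd (nat_lit 2730) (PT.lf (nat_lit 456) (nat_lit 6) (nat_lit 6) (nat_lit 4) (nat_lit 106) (nat_lit 143) (nat_lit 141)) (PT.lf (nat_lit 456) (nat_lit 6) (nat_lit 6) (nat_lit 2) (nat_lit 141) (nat_lit 143) (nat_lit 106)))) (PT.nd (nat_lit 78) (PT.lf (nat_lit 380)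 (nat_lit 6) (nat_lit 5) (nat_lit 2) (nat_lit 142) (nat_lit 143) (nat_lit 105)) (PT.nd (nat_lit 78) (PT.lf (nat_lit 304) (nat_lit 3) (nat_lit 4) (nat_lit 0) (nat_lit 143) (nat_lit 143) (nat_lit 104)) (PT.lf (nat_lit 152) (nat_lit 6) (nat_lit 2) (nat_lit 0) (nat_lit 144) (nat_lit 143) (nat_lit 103))))) (PT.nd (nat_lit 3120) (PT.nd (nat_lit 78) (PT.lf (nat_lit 76) (nat_lit 3) (nat_lit 1) (nat_lit 4) (nat_lit 102) (nat_lit 144) (nat_lit 144)) (PT.nd (nat_lit 78) (PT.lf (nat_lit 152) (nat_lit 6) (nat_lit 2) (nat_lit 4) (nat_lit 103) (nat_lit 144) (nat_lit 143)) (PT.lf (nat_lit 228) (nat_lit 6) (nat_lit 3) (nat_lit 4) (nat_lit 104) (nat_lit 144) (nat_lit 142)))) (PT.nd (nat_lit 78) (PT.lf (nat_lit 228) (nat_lit 6) (nat_lit 3) (nat_lit 2) (nat_lit 142) (nat_lit 144) (nat_lit 104)) (PT.nd (nat_lit 78) (PT.lf (nat_lit 152) (nat_lit 6) (nat_lit 2) (nat_lit 2) (nat_lit 143) (nat_lit 144) (nat_lit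 103)) (PT.lf (nat_lit 76) (nat_lit 3) (nat_lit 1) (nat_lit 0) (nat_lit 144) (nat_lit 144) (nat_lit 102))))))))
noncomputable def xc0 : XT := (XT.nd (nat_lit 162006) (nat_lit 0) (nat_lit 0) (XT.nd (nat_lit 81276) (nat_lit 0) (nat_lit 0) (XT.nd (nat_lit 40716) (nat_lit 0) (nat_lit 0) (XT.nd (nat_lit 40482) (nat_lit 0) (nat_lit 0) (XT.nd (nat_lit 78) (nat_lit 0) (nat_lit 0) (XT.lf (nat_lit 0) (nat_lit 128027718912) (nat_lit 76) (nat_lit 215838007239) (nat_lit 76) (nat_lit 215838007239) (nat_lit 1) (nat_lit 4) (nat_lit 2) (nat_lit 5) (nat_lit 2) (nat_lit 4) (nat_lit 350) (nat_lit 215) (nat_lit 215)) (XT.lf (nat_lit 0) (nat_lit 279099355808) (nat_lit 76) (nat_lit 464922198073) (nat_lit 76) (nat_lit 464871862396) (nat_lit 1) (nat_lit 4) (nat_lit 2) (nat_lit 5) (nat_lit 2) (nat_lit 4) (nat_lit 351) (nat_lit 215) (nat_lit 214))) (XT.nd (nat_lit 78) (nat_lit 0) (nat_lit 0) (XT.lf (nat_lit 0) (nat_lit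 107328444835) (nat_lit 76) (nat_lit 186295345964) (nat_lit 76) (nat_lit 186295345964) (nat_lit 1) (nat_lit 4) (nat_lit 2) (nat_lit 5) (nat_lit 2) (nat_lit 4) (nat_lit 348) (nat_lit 216) (nat_lit 216)) (XT.nd (nat_lit 78) (nat_lit 0) (nat_lit 0) (XT.lf (nat_lit 0) (nat_lit 234593682437) (nat_lit 76) (nat_lit 401007017913) (nat_lit 76) (nat_lit 400952655382) (nat_lit 1) (nat_lit 4) (nat_lit 2) (nat_lit 5) (nat_lit 2) (nat_lit 4) (nat_lit 349) (nat_lit 216) (nat_lit 215)) (XT.lf (nat_lit 0) (nat_lit 255990640789) (nat_lit 76) (nat_lit 431761605745) (nat_lit 76) (nat_lit 431656907538) (nat_lit 1) (nat_lit 4) (nat_lit 2) (nat_lit 5) (nat_lit 2) (nat_lit 4) (nat_lit 350) (nat_lit 216) (nat_lit 214))))) (XT.nd (nat_lit 40326) (nat_lit 0) (nat_lit 0) (XT.nd (nat_lit 40248) (nat_lit 0) (nat_lit 0) (XT.lf (nat_lit 0) (nat_lit 278974561514) (nat_lit 76) (nat_lit 465036704835) (nat_lit 76) (nat_lit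 464885399519) (nat_lit 1) (nat_lit 4) (nat_lit 2) (nat_lit 5) (nat_lit 2) (nat_lit 4) (nat_lit 351) (nat_lit 216) (nat_lit 213)) (XT.lf (nat_lit 0) (nat_lit 89387378524) (nat_lit 76) (nat_lit 161067199075) (nat_lit 76) (nat_lit 161067199075) (nat_lit 1) (nat_lit 4) (nat_lit 2) (nat_lit 5) (nat_lit 2) (nat_lit 4) (nat_lit 346) (nat_lit 217) (nat_lit 217))) (XT.nd (nat_lit 78) (nat_lit 0) (nat_lit 0) (XT.lf (nat_lit 0) (nat_lit 196062118532) (nat_lit 76) (nat_lit 346402946282) (nat_lit 76) (nat_lit 346344234749) (nat_lit 1) (nat_lit 4) (nat_lit 2) (nat_lit 5) (nat_lit 2) (nat_lit 4) (nat_lit 347) (nat_lit 217) (nat_lit 216)) (XT.nd (nat_lit 78) (nat_lit 0) (nat_lit 0) (XT.lf (nat_lit 0) (nat_lit 214586908871) (nat_lit 76) (nat_lit 372683130496) (nat_lit 76) (nat_lit 372570056431) (nat_lit 1) (nat_lit 4) (nat_lit 2) (nat_lit 5) (nat_lit 2) (nat_lit 4) (nat_lit 348) (nat_lit 217) (nat_lit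 215)) (XT.lf (nat_lit 0) (nat_lit 234458904601) (nat_lit 76) (nat_lit 401130685215) (nat_lit 76) (nat_lit 400967275474) (nat_lit 1) (nat_lit 4) (nat_lit 2) (nat_lit 5) (nat_lit 2) (nat_lit 4) (nat_lit 349) (nat_lit 217) (nat_lit 214)))))) (XT.nd (nat_lit 40404) (nat_lit 0) (nat_lit 0) (XT.nd (nat_lit 40170) (nat_lit 0) (nat_lit 0) (XT.nd (nat_lit 78) (nat_lit 0) (nat_lit 0) (XT.lf (nat_lit 0) (nat_lit 255795865695) (nat_lit 76) (nat_lit 431914188543) (nat_lit 76) (nat_lit 431704171694) (nat_lit 1) (nat_lit 4) (nat_lit 2) (nat_lit 5) (nat_lit 2) (nat_lit 4) (nat_lit 350) (nat_lit 217) (nat_lit 213)) (XT.lf (nat_lit 0) (nat_lit 278724233406) (nat_lit 76) (nat_lit 465216061239) (nat_lit 76) (nat_lit 464962889660) (nat_lit 1) (nat_lit 4) (nat_lit 2) (nat_lit 5) (nat_lit 2) (nat_lit 4) (nat_lit 351) (nat_lit 217) (nat_lit 212))) (XT.nd (nat_lit 78) (nat_lit 0) (nat_lit 0) (XT.lf (nat_lit 0)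 (nat_lit 73795448797) (nat_lit 76) (nat_lit 139546046737) (nat_lit 76) (nat_lit 139546046737) (nat_lit 1) (nat_lit 4) (nat_lit 2) (nat_lit 5) (nat_lit 2) (nat_lit 4) (nat_lit 344) (nat_lit 218) (nat_lit 218)) (XT.nd (nat_lit 78) (nat_lit 0) (nat_lit 0) (XT.lf (nat_lit 0) (nat_lit 162622380795) (nat_lit 76) (nat_lit 299797080935) (nat_lit 76) (nat_lit 299733672479) (nat_lit 1) (nat_lit 4) (nat_lit 2) (nat_lit 5) (nat_lit 2) (nat_lit 4) (nat_lit 345) (nat_lit 218) (nat_lit 217)) (XT.lf (nat_lit 0) (nat_lit 178699177784) (nat_lit 76) (nat_lit 322234231802) (nat_lit 76) (nat_lit 322112111813) (nat_lit 1) (nat_lit 4) (nat_lit 2) (nat_lit 5) (nat_lit 2) (nat_lit 4) (nat_lit 346) (nat_lit 218) (nat_lit 216))))) (XT.nd (nat_lit 234) (nat_lit 0) (nat_lit 0) (XT.nd (nat_lit 78) (nat_lit 0) (nat_lit 0) (XT.lf (nat_lit 0) (nat_lit 195916558468) (nat_lit 76) (nat_lit 346536506969) (nat_lit 76) (nat_lit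 346360024448) (nat_lit 1) (nat_lit 4) (nat_lit 2) (nat_lit 5) (nat_lit 2) (nat_lit 4) (nat_lit 347) (nat_lit 218) (nat_lit 215)) (XT.nd (nat_lit 78) (nat_lit 0) (nat_lit 0) (XT.lf (nat_lit 0) (nat_lit 214376551771) (nat_lit 76) (nat_lit 372847919917) (nat_lit 76) (nat_lit 372621101720) (nat_lit 1) (nat_lit 4) (nat_lit 2) (nat_lit 5) (nat_lit 2) (nat_lit 4) (nat_lit 348) (nat_lit 218) (nat_lit 214)) (XT.lf (nat_lit 0) (nat_lit 234188550244) (nat_lit 76) (nat_lit 401324390132) (nat_lit 76) (nat_lit 401050964827) (nat_lit 1) (nat_lit 4) (nat_lit 2) (nat_lit 5) (nat_lit 2) (nat_lit 4) (nat_lit 349) (nat_lit 218) (nat_lit 213)))) (XT.nd (nat_lit 78) (nat_lit 0) (nat_lit 0) (XT.lf (nat_lit 0) (nat_lit 255469958323) (nat_lit 76) (nat_lit 432134667067) (nat_lit 76) (nat_lit 431818087031) (nat_lit 1) (nat_lit 4) (nat_lit 2) (nat_lit 5) (nat_lit 2) (nat_lit 4) (nat_lit 350) (nat_lit 218) (nat_lit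 212)) (XT.nd (nat_lit 39936) (nat_lit 0) (nat_lit 0) (XT.lf (nat_lit 0) (nat_lit 278346888057) (nat_lit 76) (nat_lit 465461330140) (nat_lit 76) (nat_lit 465104792021) (nat_lit 1) (nat_lit 4) (nat_lit 2) (nat_lit 5) (nat_lit 2) (nat_lit 4) (nat_lit 351) (nat_lit 218) (nat_lit 211)) (XT.lf (nat_lit 0) (nat_lit 60200696490) (nat_lit 76) (nat_lit 121211678124) (nat_lit 76) (nat_lit 121211678124) (nat_lit 1) (nat_lit 4) (nat_lit 2) (nat_lit 5) (nat_lit 2) (nat_lit 4) (nat_lit 342) (nat_lit 219) (nat_lit 219))))))) (XT.nd (nat_lit 40560) (nat_lit 0) (nat_lit 0) (XT.nd (nat_lit 390) (nat_lit 0) (nat_lit 0) (XT.nd (nat_lit 156) (nat_lit 0) (nat_lit 0) (XT.nd (nat_lit 78) (nat_lit 0) (nat_lit 0) (XT.lf (nat_lit 0) (nat_lit 133515652724) (nat_lit 76) (nat_lit 260065054330) (nat_lit 76) (nat_lit 259996573197) (nat_lit 1) (nat_lit 4) (nat_lit 2) (nat_lit 5) (nat_lit 2) (nat_lit 4) (nat_lit 343) (nat_lit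 219) (nat_lit 218)) (XT.lf (nat_lit 0) (nat_lit 147509271989) (nat_lit 76) (nat_lit 279199913819) (nat_lit 76) (nat_lit 279068024230) (nat_lit 1) (nat_lit 4) (nat_lit 2) (nat_lit 5) (nat_lit 2) (nat_lit 4) (nat_lit 344) (nat_lit 219) (nat_lit 217))) (XT.nd (nat_lit 78) (nat_lit 0) (nat_lit 0) (XT.lf (nat_lit 0) (nat_lit 162465175927) (nat_lit 76) (nat_lit 299941326477) (nat_lit 76) (nat_lit 299750725355) (nat_lit 1) (nat_lit 4) (nat_lit 2) (nat_lit 5) (nat_lit 2) (nat_lit 4) (nat_lit 345) (nat_lit 219) (nat_lit 216)) (XT.nd (nat_lit 78) (nat_lit 0) (nat_lit 0) (XT.lf (nat_lit 0) (nat_lit 178471992116) (nat_lit 76) (nat_lit 322412204378) (nat_lit 76) (nat_lit 322167240724) (nat_lit 1) (nat_lit 4) (nat_lit 2) (nat_lit 5) (nat_lit 2) (nat_lit 4) (nat_lit 346) (nat_lit 219) (nat_lit 215)) (XT.lf (nat_lit 0) (nat_lit 195624575763) (nat_lit 76) (nat_lit 346745708279) (nat_lit 76) (nat_lit 346450408949)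 (nat_lit 1) (nat_lit 4) (nat_lit 2) (nat_lit 5) (nat_lit 2) (nat_lit 4) (nat_lit 347) (nat_lit 219) (nat_lit 214))))) (XT.nd (nat_lit 234) (nat_lit 0) (nat_lit 0) (XT.nd (nat_lit 78) (nat_lit 0) (nat_lit 0) (XT.lf (nat_lit 0) (nat_lit 214024571809) (nat_lit 76) (nat_lit 373086036723) (nat_lit 76) (nat_lit 372744130285) (nat_lit 1) (nat_lit 4) (nat_lit 2) (nat_lit 5) (nat_lit 2) (nat_lit 4) (nat_lit 348) (nat_lit 219) (nat_lit 213)) (XT.nd (nat_lit 78) (nat_lit 0) (nat_lit 0) (XT.lf (nat_lit 0) (nat_lit 233781017267) (nat_lit 76) (nat_lit 401589280545) (nat_lit 76) (nat_lit 401204219377) (nat_lit 1) (nat_lit 4) (nat_lit 2) (nat_lit 5) (nat_lit 2) (nat_lit 4) (nat_lit 349) (nat_lit 219) (nat_lit 212)) (XT.lf (nat_lit 0) (nat_lit 255010987370) (nat_lit 76) (nat_lit 432424347856) (nat_lit 76) (nat_lit 431999328605) (nat_lit 1) (nat_lit 4) (nat_lit 2) (nat_lit 5) (nat_lit 2) (nat_lit 4) (nat_lit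 350) (nat_lit 219) (nat_lit 211)))) (XT.nd (nat_lit 39780) (nat_lit 0) (nat_lit 0) (XT.lf (nat_lit 0) (nat_lit 277840289347) (nat_lit 76) (nat_lit 465773964981) (nat_lit 76) (nat_lit 465311947505) (nat_lit 1) (nat_lit 4) (nat_lit 2) (nat_lit 5) (nat_lit 2) (nat_lit 4) (nat_lit 351) (nat_lit 219) (nat_lit 210)) (XT.nd (nat_lit 78) (nat_lit 0) (nat_lit 0) (XT.lf (nat_lit 0) (nat_lit 48300027063) (nat_lit 76) (nat_lit 105618786969) (nat_lit 76) (nat_lit 105618786969) (nat_lit 1) (nat_lit 4) (nat_lit 2) (nat_lit 5) (nat_lit 2) (nat_lit 4) (nat_lit 340) (nat_lit 220) (nat_lit 220)) (XT.lf (nat_lit 0) (nat_lit 108088778626) (nat_lit 76) (nat_lit 226244235802) (nat_lit 76) (nat_lit 226170276178) (nat_lit 1) (nat_lit 4) (nat_lit 2) (nat_lit 5) (nat_lit 2) (nat_lit 4) (nat_lit 341) (nat_lit 220) (nat_lit 219)))))) (XT.nd (nat_lit 390) (nat_lit 0) (nat_lit 0) (XT.nd (nat_lit 156) (nat_lit 0) (nat_lit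 0) (XT.nd (nat_lit 78) (nat_lit 0) (nat_lit 0) (XT.lf (nat_lit 0) (nat_lit 120313237327) (nat_lit 76) (nat_lit 242539802220) (nat_lit 76) (nat_lit 242397361465) (nat_lit 1) (nat_lit 4) (nat_lit 2) (nat_lit 5) (nat_lit 2) (nat_lit 4) (nat_lit 342) (nat_lit 220) (nat_lit 218)) (XT.lf (nat_lit 0) (nat_lit 133345871466) (nat_lit 76) (nat_lit 260220839514) (nat_lit 76) (nat_lit 260014990302) (nat_lit 1) (nat_lit 4) (nat_lit 2) (nat_lit 5) (nat_lit 2) (nat_lit 4) (nat_lit 343) (nat_lit 220) (nat_lit 217))) (XT.nd (nat_lit 78) (nat_lit 0) (nat_lit 0) (XT.lf (nat_lit 0) (nat_lit 147263911467) (nat_lit 76) (nat_lit 279392124201) (nat_lit 76) (nat_lit 279127563455) (nat_lit 1) (nat_lit 4) (nat_lit 2) (nat_lit 5) (nat_lit 2) (nat_lit 4) (nat_lit 344) (nat_lit 220) (nat_lit 216)) (XT.nd (nat_lit 78) (nat_lit 0) (nat_lit 0) (XT.lf (nat_lit 0) (nat_lit 162149834605) (nat_lit 76) (nat_lit 300167263892)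 (nat_lit 76) (nat_lit 299848340615) (nat_lit 1) (nat_lit 4) (nat_lit 2) (nat_lit 5) (nat_lit 2) (nat_lit 4) (nat_lit 345) (nat_lit 220) (nat_lit 215)) (XT.lf (nat_lit 0) (nat_lit 178091853757) (nat_lit 76) (nat_lit 322669370528) (nat_lit 76) (nat_lit 322300111574) (nat_lit 1) (nat_lit 4) (nat_lit 2) (nat_lit 5) (nat_lit 2) (nat_lit 4) (nat_lit 346) (nat_lit 220) (nat_lit 214))))) (XT.nd (nat_lit 234) (nat_lit 0) (nat_lit 0) (XT.nd (nat_lit 78) (nat_lit 0) (nat_lit 0) (XT.lf (nat_lit 0) (nat_lit 195184440148) (nat_lit 76) (nat_lit 347031789925) (nat_lit 76) (nat_lit 346615923863) (nat_lit 1) (nat_lit 4) (nat_lit 2) (nat_lit 5) (nat_lit 2) (nat_lit 4) (nat_lit 347) (nat_lit 220) (nat_lit 213)) (XT.nd (nat_lit 78) (nat_lit 0) (nat_lit 0) (XT.lf (nat_lit 0) (nat_lit 213528883179) (nat_lit 76) (nat_lit 373398891976) (nat_lit 76) (nat_lit 372939871184) (nat_lit 1) (nat_lit 4) (nat_lit 2) (nat_lit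 5) (nat_lit 2) (nat_lit 4) (nat_lit 348) (nat_lit 220) (nat_lit 212)) (XT.lf (nat_lit 0) (nat_lit 233233890660) (nat_lit 76) (nat_lit 401926926174) (nat_lit 76) (nat_lit 401427947300) (nat_lit 1) (nat_lit 4) (nat_lit 2) (nat_lit 5) (nat_lit 2) (nat_lit 4) (nat_lit 349) (nat_lit 220) (nat_lit 211)))) (XT.nd (nat_lit 78) (nat_lit 0) (nat_lit 0) (XT.lf (nat_lit 0) (nat_lit 254416233006) (nat_lit 76) (nat_lit 432784947538) (nat_lit 76) (nat_lit 432248970438) (nat_lit 1) (nat_lit 4) (nat_lit 2) (nat_lit 5) (nat_lit 2) (nat_lit 4) (nat_lit 350) (nat_lit 220) (nat_lit 210)) (XT.nd (nat_lit 39624) (nat_lit 0) (nat_lit 0) (XT.lf (nat_lit 0) (nat_lit 277201435209) (nat_lit 76) (nat_lit 466155818415) (nat_lit 76) (nat_lit 465585583700) (nat_lit 1) (nat_lit 4) (nat_lit 2) (nat_lit 5) (nat_lit 2) (nat_lit 4) (nat_lit 351) (nat_lit 220) (nat_lit 209)) (XT.lf (nat_lit 0) (nat_lit 37832131812) (nat_lit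 76) (nat_lit 92386340848) (nat_lit 76) (nat_lit 92386340848) (nat_lit 1) (nat_lit 4) (nat_lit 2) (nat_lit 5) (nat_lit 2) (nat_lit 4) (nat_lit 338) (nat_lit 221) (nat_lit 221))))))))
noncomputable def xc1 : XT := (XT.nd (nat_lit 41028) (nat_lit 0) (nat_lit 0) (XT.nd (nat_lit 780) (nat_lit 0) (nat_lit 0) (XT.nd (nat_lit 390) (nat_lit 0) (nat_lit 0) (XT.nd (nat_lit 156) (nat_lit 0) (nat_lit 0) (XT.nd (nat_lit 78) (nat_lit 0) (nat_lit 0) (XT.lf (nat_lit 0) (nat_lit 85778982497) (nat_lit 76) (nat_lit 197510764657) (nat_lit 76) (nat_lit 197430888264) (nat_lit 1) (nat_lit 4) (nat_lit 2) (nat_lit 5) (nat_lit 2) (nat_lit 4) (nat_lit 339) (nat_lit 221) (nat_lit 220)) (XT.lf (nat_lit 0) (nat_lit 96504846021) (nat_lit 76) (nat_lit 211363335588) (nat_lit 76) (nat_lit 211209499572) (nat_lit 1) (nat_lit 4) (nat_lit 2) (nat_lit 5) (nat_lit 2) (nat_lit 4) (nat_lit 340) (nat_lit 221) (nat_lit 219))) (XT.nd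 (nat_lit 78) (nat_lit 0) (nat_lit 0) (XT.lf (nat_lit 0) (nat_lit 107905414867) (nat_lit 76) (nat_lit 226412483801) (nat_lit 76) (nat_lit 226190166652) (nat_lit 1) (nat_lit 4) (nat_lit 2) (nat_lit 5) (nat_lit 2) (nat_lit 4) (nat_lit 341) (nat_lit 221) (nat_lit 218)) (XT.nd (nat_lit 78) (nat_lit 0) (nat_lit 0) (XT.lf (nat_lit 0) (nat_lit 120048247963) (nat_lit 76) (nat_lit 242747389432) (nat_lit 76) (nat_lit 242461663827) (nat_lit 1) (nat_lit 4) (nat_lit 2) (nat_lit 5) (nat_lit 2) (nat_lit 4) (nat_lit 342) (nat_lit 221) (nat_lit 217)) (XT.lf (nat_lit 0) (nat_lit 133005302838) (nat_lit 76) (nat_lit 260464851923) (nat_lit 76) (nat_lit 260120414784) (nat_lit 1) (nat_lit 4) (nat_lit 2) (nat_lit 5) (nat_lit 2) (nat_lit 4) (nat_lit 343) (nat_lit 221) (nat_lit 216))))) (XT.nd (nat_lit 156) (nat_lit 0) (nat_lit 0) (XT.nd (nat_lit 78) (nat_lit 0) (nat_lit 0) (XT.lf (nat_lit 0) (nat_lit 146853362040)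 (nat_lit 76) (nat_lit 279669863643) (nat_lit 76) (nat_lit 279271063973) (nat_lit 1) (nat_lit 4) (nat_lit 2) (nat_lit 5) (nat_lit 2) (nat_lit 4) (nat_lit 344) (nat_lit 221) (nat_lit 215)) (XT.lf (nat_lit 0) (nat_lit 161674488141) (nat_lit 76) (nat_lit 300476232069) (nat_lit 76) (nat_lit 300027096723) (nat_lit 1) (nat_lit 4) (nat_lit 2) (nat_lit 5) (nat_lit 2) (nat_lit 4) (nat_lit 345) (nat_lit 221) (nat_lit 214))) (XT.nd (nat_lit 78) (nat_lit 0) (nat_lit 0) (XT.lf (nat_lit 0) (nat_lit 177556510036) (nat_lit 76) (nat_lit 323007254200) (nat_lit 76) (nat_lit 322511511746) (nat_lit 1) (nat_lit 4) (nat_lit 2) (nat_lit 5) (nat_lit 2) (nat_lit 4) (nat_lit 346) (nat_lit 221) (nat_lit 213)) (XT.nd (nat_lit 78) (nat_lit 0) (nat_lit 0) (XT.lf (nat_lit 0) (nat_lit 194593543412) (nat_lit 76) (nat_lit 347396447204) (nat_lit 76) (nat_lit 346857550020) (nat_lit 1) (nat_lit 4) (nat_lit 2) (nat_lit 5) (nat_lit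 2) (nat_lit 4) (nat_lit 347) (nat_lit 221) (nat_lit 212)) (XT.lf (nat_lit 0) (nat_lit 212886548466) (nat_lit 76) (nat_lit 373788339632) (nat_lit 76) (nat_lit 373209484364) (nat_lit 1) (nat_lit 4) (nat_lit 2) (nat_lit 5) (nat_lit 2) (nat_lit 4) (nat_lit 348) (nat_lit 221) (nat_lit 211)))))) (XT.nd (nat_lit 39780) (nat_lit 0) (nat_lit 0) (XT.nd (nat_lit 156) (nat_lit 0) (nat_lit 0) (XT.nd (nat_lit 78) (nat_lit 0) (nat_lit 0) (XT.lf (nat_lit 0) (nat_lit 232543928191) (nat_lit 76) (nat_lit 402339327883) (nat_lit 76) (nat_lit 401723474390) (nat_lit 1) (nat_lit 4) (nat_lit 2) (nat_lit 5) (nat_lit 2) (nat_lit 4) (nat_lit 349) (nat_lit 221) (nat_lit 210)) (XT.lf (nat_lit 0) (nat_lit 253682170762) (nat_lit 76) (nat_lit 433218602999) (nat_lit 76) (nat_lit 432568491890) (nat_lit 1) (nat_lit 4) (nat_lit 2) (nat_lit 5) (nat_lit 2) (nat_lit 4) (nat_lit 350) (nat_lit 221) (nat_lit 209))) (XT.nd (nat_lit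 39468) (nat_lit 0) (nat_lit 0) (XT.lf (nat_lit 0) (nat_lit 276426539841) (nat_lit 76) (nat_lit 466609153277) (nat_lit 76) (nat_lit 465927322153) (nat_lit 1) (nat_lit 4) (nat_lit 2) (nat_lit 5) (nat_lit 2) (nat_lit 4) (nat_lit 351) (nat_lit 221) (nat_lit 208)) (XT.nd (nat_lit 78) (nat_lit 0) (nat_lit 0) (XT.lf (nat_lit 0) (nat_lit 28571410333) (nat_lit 76) (nat_lit 81188471471) (nat_lit 76) (nat_lit 81188471471) (nat_lit 1) (nat_lit 4) (nat_lit 2) (nat_lit 5) (nat_lit 2) (nat_lit 4) (nat_lit 336) (nat_lit 222) (nat_lit 222)) (XT.lf (nat_lit 0) (nat_lit 66100750326) (nat_lit 76) (nat_lit 173159868277) (nat_lit 76) (nat_lit 173073601772) (nat_lit 1) (nat_lit 4) (nat_lit 2) (nat_lit 5) (nat_lit 2) (nat_lit 4) (nat_lit 337) (nat_lit 222) (nat_lit 221))))) (XT.nd (nat_lit 234) (nat_lit 0) (nat_lit 0) (XT.nd (nat_lit 78) (nat_lit 0) (nat_lit 0) (XT.lf (nat_lit 0) (nat_lit 75561438870) (nat_lit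 76) (nat_lit 184908504279) (nat_lit 76) (nat_lit 184742361381) (nat_lit 1) (nat_lit 4) (nat_lit 2) (nat_lit 5) (nat_lit 2) (nat_lit 4) (nat_lit 338) (nat_lit 222) (nat_lit 220)) (XT.nd (nat_lit 78) (nat_lit 0) (nat_lit 0) (XT.lf (nat_lit 0) (nat_lit 85580949638) (nat_lit 76) (nat_lit 197692472496) (nat_lit 76) (nat_lit 197452369975) (nat_lit 1) (nat_lit 4) (nat_lit 2) (nat_lit 5) (nat_lit 2) (nat_lit 4) (nat_lit 339) (nat_lit 222) (nat_lit 219)) (XT.lf (nat_lit 0) (nat_lit 96218657508) (nat_lit 76) (nat_lit 211587529777) (nat_lit 76) (nat_lit 211278946124) (nat_lit 1) (nat_lit 4) (nat_lit 2) (nat_lit 5) (nat_lit 2) (nat_lit 4) (nat_lit 340) (nat_lit 222) (nat_lit 218)))) (XT.nd (nat_lit 78) (nat_lit 0) (nat_lit 0) (XT.lf (nat_lit 0) (nat_lit 107537600750) (nat_lit 76) (nat_lit 226676017202) (nat_lit 76) (nat_lit 226304025092) (nat_lit 1) (nat_lit 4) (nat_lit 2) (nat_lit 5) (nat_lit 2)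 (nat_lit 4) (nat_lit 341) (nat_lit 222) (nat_lit 217)) (XT.nd (nat_lit 78) (nat_lit 0) (nat_lit 0) (XT.lf (nat_lit 0) (nat_lit 119604854582) (nat_lit 76) (nat_lit 243047348030) (nat_lit 76) (nat_lit 242616644387) (nat_lit 1) (nat_lit 4) (nat_lit 2) (nat_lit 5) (nat_lit 2) (nat_lit 4) (nat_lit 342) (nat_lit 222) (nat_lit 216)) (XT.lf (nat_lit 0) (nat_lit 132491928657) (nat_lit 76) (nat_lit 260798537554) (nat_lit 76) (nat_lit 260313471380) (nat_lit 1) (nat_lit 4) (nat_lit 2) (nat_lit 5) (nat_lit 2) (nat_lit 4) (nat_lit 343) (nat_lit 222) (nat_lit 215))))))) (XT.nd (nat_lit 40092) (nat_lit 0) (nat_lit 0) (XT.nd (nat_lit 390) (nat_lit 0) (nat_lit 0) (XT.nd (nat_lit 156) (nat_lit 0) (nat_lit 0) (XT.nd (nat_lit 78) (nat_lit 0) (nat_lit 0) (XT.lf (nat_lit 0) (nat_lit 146275190822) (nat_lit 76) (nat_lit 280034778009) (nat_lit 76) (nat_lit 279499376158) (nat_lit 1) (nat_lit 4) (nat_lit 2) (nat_lit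 5) (nat_lit 2) (nat_lit 4) (nat_lit 344) (nat_lit 222) (nat_lit 214)) (XT.lf (nat_lit 0) (nat_lit 161036319666) (nat_lit 76) (nat_lit 300870061931) (nat_lit 76) (nat_lit 300288052972) (nat_lit 1) (nat_lit 4) (nat_lit 2) (nat_lit 5) (nat_lit 2) (nat_lit 4) (nat_lit 345) (nat_lit 222) (nat_lit 213))) (XT.nd (nat_lit 78) (nat_lit 0) (nat_lit 0) (XT.lf (nat_lit 0) (nat_lit 176862788547) (nat_lit 76) (nat_lit 323427857669) (nat_lit 76) (nat_lit 322802693980) (nat_lit 1) (nat_lit 4) (nat_lit 2) (nat_lit 5) (nat_lit 2) (nat_lit 4) (nat_lit 346) (nat_lit 222) (nat_lit 212)) (XT.nd (nat_lit 78) (nat_lit 0) (nat_lit 0) (XT.lf (nat_lit 0) (nat_lit 193848383945) (nat_lit 76) (nat_lit 347841841049) (nat_lit 76) (nat_lit 347176719277) (nat_lit 1) (nat_lit 4) (nat_lit 2) (nat_lit 5) (nat_lit 2) (nat_lit 4) (nat_lit 347) (nat_lit 222) (nat_lit 211)) (XT.lf (nat_lit 0) (nat_lit 212093761243) (nat_lit 76)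 (nat_lit 374256687530) (nat_lit 76) (nat_lit 373554567532) (nat_lit 1) (nat_lit 4) (nat_lit 2) (nat_lit 5) (nat_lit 2) (nat_lit 4) (nat_lit 348) (nat_lit 222) (nat_lit 210))))) (XT.nd (nat_lit 39468) (nat_lit 0) (nat_lit 0) (XT.nd (nat_lit 78) (nat_lit 0) (nat_lit 0) (XT.lf (nat_lit 0) (nat_lit 231707041193) (nat_lit 76) (nat_lit 402828929533) (nat_lit 76) (nat_lit 402092551920) (nat_lit 1) (nat_lit 4) (nat_lit 2) (nat_lit 5) (nat_lit 2) (nat_lit 4) (nat_lit 349) (nat_lit 222) (nat_lit 209)) (XT.nd (nat_lit 78) (nat_lit 0) (nat_lit 0) (XT.lf (nat_lit 0) (nat_lit 252804450640) (nat_lit 76) (nat_lit 433727884049) (nat_lit 76) (nat_lit 432959786421) (nat_lit 1) (nat_lit 4) (nat_lit 2) (nat_lit 5) (nat_lit 2) (nat_lit 4) (nat_lit 350) (nat_lit 222) (nat_lit 208)) (XT.lf (nat_lit 0) (nat_lit 275511011270) (nat_lit 76) (nat_lit 467136655994) (nat_lit 76) (nat_lit 466339187982) (nat_lit 1) (nat_lit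 4) (nat_lit 2) (nat_lit 5) (nat_lit 2) (nat_lit 4) (nat_lit 351) (nat_lit 222) (nat_lit 207)))) (XT.nd (nat_lit 78) (nat_lit 0) (nat_lit 0) (XT.lf (nat_lit 0) (nat_lit 20322750712) (nat_lit 76) (nat_lit 71746669350) (nat_lit 76) (nat_lit 71746669350) (nat_lit 1) (nat_lit 4) (nat_lit 2) (nat_lit 5) (nat_lit 2) (nat_lit 4) (nat_lit 334) (nat_lit 223) (nat_lit 223)) (XT.nd (nat_lit 78) (nat_lit 0) (nat_lit 0) (XT.lf (nat_lit 0) (nat_lit 48634565865) (nat_lit 76) (nat_lit 152588997286) (nat_lit 76) (nat_lit 152495829461) (nat_lit 1) (nat_lit 4) (nat_lit 2) (nat_lit 5) (nat_lit 2) (nat_lit 4) (nat_lit 335) (nat_lit 223) (nat_lit 222)) (XT.lf (nat_lit 0) (nat_lit 57031769933) (nat_lit 76) (nat_lit 162523631332) (nat_lit 76) (nat_lit 162344197003) (nat_lit 1) (nat_lit 4) (nat_lit 2) (nat_lit 5) (nat_lit 2) (nat_lit 4) (nat_lit 336) (nat_lit 223) (nat_lit 221)))))) (XT.nd (nat_lit 390) (nat_lit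 0) (nat_lit 0) (XT.nd (nat_lit 156) (nat_lit 0) (nat_lit 0) (XT.nd (nat_lit 78) (nat_lit 0) (nat_lit 0) (XT.lf (nat_lit 0) (nat_lit 65886874838) (nat_lit 76) (nat_lit 173356112744) (nat_lit 76) (nat_lit 173096802021) (nat_lit 1) (nat_lit 4) (nat_lit 2) (nat_lit 5) (nat_lit 2) (nat_lit 4) (nat_lit 337) (nat_lit 223) (nat_lit 220)) (XT.lf (nat_lit 0) (nat_lit 75252355276) (nat_lit 76) (nat_lit 185150634003) (nat_lit 76) (nat_lit 184817363657) (nat_lit 1) (nat_lit 4) (nat_lit 2) (nat_lit 5) (nat_lit 2) (nat_lit 4) (nat_lit 338) (nat_lit 223) (nat_lit 219))) (XT.nd (nat_lit 78) (nat_lit 0) (nat_lit 0) (XT.lf (nat_lit 0) (nat_lit 85183710391) (nat_lit 76) (nat_lit 197977088569) (nat_lit 76) (nat_lit 197575337091) (nat_lit 1) (nat_lit 4) (nat_lit 2) (nat_lit 5) (nat_lit 2) (nat_lit 4) (nat_lit 339) (nat_lit 223) (nat_lit 218)) (XT.nd (nat_lit 78) (nat_lit 0) (nat_lit 0) (XT.lf (nat_lit 0) (nat_lit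 95739792656) (nat_lit 76) (nat_lit 211911485062) (nat_lit 76) (nat_lit 211446325128) (nat_lit 1) (nat_lit 4) (nat_lit 2) (nat_lit 5) (nat_lit 2) (nat_lit 4) (nat_lit 340) (nat_lit 223) (nat_lit 217)) (XT.lf (nat_lit 0) (nat_lit 106983156634) (nat_lit 76) (nat_lit 227036397684) (nat_lit 76) (nat_lit 226512526216) (nat_lit 1) (nat_lit 4) (nat_lit 2) (nat_lit 5) (nat_lit 2) (nat_lit 4) (nat_lit 341) (nat_lit 223) (nat_lit 216))))) (XT.nd (nat_lit 234) (nat_lit 0) (nat_lit 0) (XT.nd (nat_lit 78) (nat_lit 0) (nat_lit 0) (XT.lf (nat_lit 0) (nat_lit 118980429666) (nat_lit 76) (nat_lit 243441455545) (nat_lit 76) (nat_lit 242863221546) (nat_lit 1) (nat_lit 4) (nat_lit 2) (nat_lit 5) (nat_lit 2) (nat_lit 4) (nat_lit 342) (nat_lit 223) (nat_lit 215)) (XT.nd (nat_lit 78) (nat_lit 0) (nat_lit 0) (XT.lf (nat_lit 0) (nat_lit 131802706704) (nat_lit 76) (nat_lit 261223873805) (nat_lit 76) (nat_lit 260595304129)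 (nat_lit 1) (nat_lit 4) (nat_lit 2) (nat_lit 5) (nat_lit 2) (nat_lit 4) (nat_lit 343) (nat_lit 223) (nat_lit 214)) (XT.lf (nat_lit 0) (nat_lit 145525971613) (nat_lit 76) (nat_lit 280489029755) (nat_lit 76) (nat_lit 279813852971) (nat_lit 1) (nat_lit 4) (nat_lit 2) (nat_lit 5) (nat_lit 2) (nat_lit 4) (nat_lit 344) (nat_lit 223) (nat_lit 213)))) (XT.nd (nat_lit 78) (nat_lit 0) (nat_lit 0) (XT.lf (nat_lit 0) (nat_lit 160231547442) (nat_lit 76) (nat_lit 301351087284) (nat_lit 76) (nat_lit 300632755770) (nat_lit 1) (nat_lit 4) (nat_lit 2) (nat_lit 5) (nat_lit 2) (nat_lit 4) (nat_lit 345) (nat_lit 223) (nat_lit 212)) (XT.nd (nat_lit 78) (nat_lit 0) (nat_lit 0) (XT.lf (nat_lit 0) (nat_lit 176006578346) (nat_lit 76) (nat_lit 323933673399) (nat_lit 76) (nat_lit 323175383801) (nat_lit 1) (nat_lit 4) (nat_lit 2) (nat_lit 5) (nat_lit 2) (nat_lit 4) (nat_lit 346) (nat_lit 223) (nat_lit 211)) (XT.lf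 (nat_lit 0) (nat_lit 192944545988) (nat_lit 76) (nat_lit 348370610832) (nat_lit 76) (nat_lit 347575323009) (nat_lit 1) (nat_lit 4) (nat_lit 2) (nat_lit 5) (nat_lit 2) (nat_lit 4) (nat_lit 347) (nat_lit 223) (nat_lit 210))))))))
noncomputable def xc2 : XT := (XT.nd (nat_lit 40716) (nat_lit 0) (nat_lit 0) (XT.nd (nat_lit 39858) (nat_lit 0) (nat_lit 0) (XT.nd (nat_lit 39468) (nat_lit 0) (nat_lit 0) (XT.nd (nat_lit 156) (nat_lit 0) (nat_lit 0) (XT.nd (nat_lit 78) (nat_lit 0) (nat_lit 0) (XT.lf (nat_lit 0) (nat_lit 211145823511) (nat_lit 76) (nat_lit 374806711064) (nat_lit 76) (nat_lit 373977165626) (nat_lit 1) (nat_lit 4) (nat_lit 2) (nat_lit 5) (nat_lit 2) (nat_lit 4) (nat_lit 348) (nat_lit 223) (nat_lit 209)) (XT.lf (nat_lit 0) (nat_lit 230718270336) (nat_lit 76) (nat_lit 403398632468) (nat_lit 76) (nat_lit 402537367015) (nat_lit 1) (nat_lit 4) (nat_lit 2) (nat_lit 5) (nat_lit 2) (nat_lit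 4) (nat_lit 349) (nat_lit 223) (nat_lit 208))) (XT.nd (nat_lit 78) (nat_lit 0) (nat_lit 0) (XT.lf (nat_lit 0) (nat_lit 251777871335) (nat_lit 76) (nat_lit 434315808651) (nat_lit 76) (nat_lit 433425172814) (nat_lit 1) (nat_lit 4) (nat_lit 2) (nat_lit 5) (nat_lit 2) (nat_lit 4) (nat_lit 350) (nat_lit 223) (nat_lit 207)) (XT.nd (nat_lit 39156) (nat_lit 0) (nat_lit 0) (XT.lf (nat_lit 0) (nat_lit 274449424142) (nat_lit 76) (nat_lit 467741452510) (nat_lit 76) (nat_lit 466823621873) (nat_lit 1) (nat_lit 4) (nat_lit 2) (nat_lit 5) (nat_lit 2) (nat_lit 4) (nat_lit 351) (nat_lit 223) (nat_lit 206)) (XT.lf (nat_lit 0) (nat_lit 12917044322) (nat_lit 76) (nat_lit 63823097137) (nat_lit 76) (nat_lit 63823097137) (nat_lit 1) (nat_lit 4) (nat_lit 2) (nat_lit 5) (nat_lit 2) (nat_lit 4) (nat_lit 332) (nat_lit 224) (nat_lit 224))))) (XT.nd (nat_lit 156) (nat_lit 0) (nat_lit 0) (XT.nd (nat_lit 78) (nat_lit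 0) (nat_lit 0) (XT.lf (nat_lit 0) (nat_lit 33017234008) (nat_lit 76) (nat_lit 135283376626) (nat_lit 76) (nat_lit 135182755375) (nat_lit 1) (nat_lit 4) (nat_lit 2) (nat_lit 5) (nat_lit 2) (nat_lit 4) (nat_lit 333) (nat_lit 224) (nat_lit 223)) (XT.lf (nat_lit 0) (nat_lit 40525566631) (nat_lit 76) (nat_lit 143651762160) (nat_lit 76) (nat_lit 143457973084) (nat_lit 1) (nat_lit 4) (nat_lit 2) (nat_lit 5) (nat_lit 2) (nat_lit 4) (nat_lit 334) (nat_lit 224) (nat_lit 222))) (XT.nd (nat_lit 78) (nat_lit 0) (nat_lit 0) (XT.lf (nat_lit 0) (nat_lit 48403580337) (nat_lit 76) (nat_lit 152800941310) (nat_lit 76) (nat_lit 152520885730) (nat_lit 1) (nat_lit 4) (nat_lit 2) (nat_lit 5) (nat_lit 2) (nat_lit 4) (nat_lit 335) (nat_lit 224) (nat_lit 221)) (XT.nd (nat_lit 78) (nat_lit 0) (nat_lit 0) (XT.lf (nat_lit 0) (nat_lit 56697959651) (nat_lit 76) (nat_lit 162785131434) (nat_lit 76) (nat_lit 162425199461)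 (nat_lit 1) (nat_lit 4) (nat_lit 2) (nat_lit 5) (nat_lit 2) (nat_lit 4) (nat_lit 336) (nat_lit 224) (nat_lit 220)) (XT.lf (nat_lit 0) (nat_lit 65457856451) (nat_lit 76) (nat_lit 173663498103) (nat_lit 76) (nat_lit 173229606506) (nat_lit 1) (nat_lit 4) (nat_lit 2) (nat_lit 5) (nat_lit 2) (nat_lit 4) (nat_lit 337) (nat_lit 224) (nat_lit 219)))))) (XT.nd (nat_lit 390) (nat_lit 0) (nat_lit 0) (XT.nd (nat_lit 156) (nat_lit 0) (nat_lit 0) (XT.nd (nat_lit 78) (nat_lit 0) (nat_lit 0) (XT.lf (nat_lit 0) (nat_lit 74735181236) (nat_lit 76) (nat_lit 185500505711) (nat_lit 76) (nat_lit 184998132982) (nat_lit 1) (nat_lit 4) (nat_lit 2) (nat_lit 5) (nat_lit 2) (nat_lit 4) (nat_lit 338) (nat_lit 224) (nat_lit 218)) (XT.lf (nat_lit 0) (nat_lit 84584910745) (nat_lit 76) (nat_lit 198366299490) (nat_lit 76) (nat_lit 197800518304) (nat_lit 1) (nat_lit 4) (nat_lit 2) (nat_lit 5) (nat_lit 2) (nat_lit 4) (nat_lit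 339) (nat_lit 224) (nat_lit 217))) (XT.nd (nat_lit 78) (nat_lit 0) (nat_lit 0) (XT.lf (nat_lit 0) (nat_lit 95065413747) (nat_lit 76) (nat_lit 212337121179) (nat_lit 76) (nat_lit 211712628460) (nat_lit 1) (nat_lit 4) (nat_lit 2) (nat_lit 5) (nat_lit 2) (nat_lit 4) (nat_lit 340) (nat_lit 224) (nat_lit 216)) (XT.nd (nat_lit 78) (nat_lit 0) (nat_lit 0) (XT.lf (nat_lit 0) (nat_lit 106238796925) (nat_lit 76) (nat_lit 227495760835) (nat_lit 76) (nat_lit 226816905585) (nat_lit 1) (nat_lit 4) (nat_lit 2) (nat_lit 5) (nat_lit 2) (nat_lit 4) (nat_lit 341) (nat_lit 224) (nat_lit 215)) (XT.lf (nat_lit 0) (nat_lit 118171272920) (nat_lit 76) (nat_lit 243932047431) (nat_lit 76) (nat_lit 243202856504) (nat_lit 1) (nat_lit 4) (nat_lit 2) (nat_lit 5) (nat_lit 2) (nat_lit 4) (nat_lit 342) (nat_lit 224) (nat_lit 214))))) (XT.nd (nat_lit 234) (nat_lit 0) (nat_lit 0) (XT.nd (nat_lit 78) (nat_lit 0) (nat_lit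 0) (XT.lf (nat_lit 0) (nat_lit 130933552702) (nat_lit 76) (nat_lit 261743381186) (nat_lit 76) (nat_lit 260967583151) (nat_lit 1) (nat_lit 4) (nat_lit 2) (nat_lit 5) (nat_lit 2) (nat_lit 4) (nat_lit 343) (nat_lit 224) (nat_lit 213)) (XT.nd (nat_lit 78) (nat_lit 0) (nat_lit 0) (XT.lf (nat_lit 0) (nat_lit 144601264595) (nat_lit 76) (nat_lit 281035310743) (nat_lit 76) (nat_lit 280216357978) (nat_lit 1) (nat_lit 4) (nat_lit 2) (nat_lit 5) (nat_lit 2) (nat_lit 4) (nat_lit 344) (nat_lit 224) (nat_lit 212)) (XT.lf (nat_lit 0) (nat_lit 159255402448) (nat_lit 76) (nat_lit 301922158649) (nat_lit 76) (nat_lit 301063247801) (nat_lit 1) (nat_lit 4) (nat_lit 2) (nat_lit 5) (nat_lit 2) (nat_lit 4) (nat_lit 345) (nat_lit 224) (nat_lit 211)))) (XT.nd (nat_lit 78) (nat_lit 0) (nat_lit 0) (XT.lf (nat_lit 0) (nat_lit 174982805595) (nat_lit 76) (nat_lit 324527698816) (nat_lit 76) (nat_lit 323631789743) (nat_lit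 1) (nat_lit 4) (nat_lit 2) (nat_lit 5) (nat_lit 2) (nat_lit 4) (nat_lit 346) (nat_lit 224) (nat_lit 210)) (XT.nd (nat_lit 78) (nat_lit 0) (nat_lit 0) (XT.lf (nat_lit 0) (nat_lit 191876673463) (nat_lit 76) (nat_lit 348985890001) (nat_lit 76) (nat_lit 348055723312) (nat_lit 1) (nat_lit 4) (nat_lit 2) (nat_lit 5) (nat_lit 2) (nat_lit 4) (nat_lit 347) (nat_lit 224) (nat_lit 209)) (XT.lf (nat_lit 0) (nat_lit 210037117861) (nat_lit 76) (nat_lit 375441669634) (nat_lit 76) (nat_lit 374479782930) (nat_lit 1) (nat_lit 4) (nat_lit 2) (nat_lit 5) (nat_lit 2) (nat_lit 4) (nat_lit 348) (nat_lit 224) (nat_lit 208))))))) (XT.nd (nat_lit 39780) (nat_lit 0) (nat_lit 0) (XT.nd (nat_lit 39312) (nat_lit 0) (nat_lit 0) (XT.nd (nat_lit 156) (nat_lit 0) (nat_lit 0) (XT.nd (nat_lit 78) (nat_lit 0) (nat_lit 0) (XT.lf (nat_lit 0) (nat_lit 229571756238) (nat_lit 76) (nat_lit 404051812705) (nat_lit 76) (nat_lit 403060555617)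 (nat_lit 1) (nat_lit 4) (nat_lit 2) (nat_lit 5) (nat_lit 2) (nat_lit 4) (nat_lit 349) (nat_lit 224) (nat_lit 207)) (XT.lf (nat_lit 0) (nat_lit 250596349414) (nat_lit 76) (nat_lit 434985860802) (nat_lit 76) (nat_lit 433967408914) (nat_lit 1) (nat_lit 4) (nat_lit 2) (nat_lit 5) (nat_lit 2) (nat_lit 4) (nat_lit 350) (nat_lit 224) (nat_lit 206))) (XT.nd (nat_lit 39000) (nat_lit 0) (nat_lit 0) (XT.lf (nat_lit 0) (nat_lit 273235487570) (nat_lit 76) (nat_lit 468427126803) (nat_lit 76) (nat_lit 467383494545) (nat_lit 1) (nat_lit 4) (nat_lit 2) (nat_lit 5) (nat_lit 2) (nat_lit 4) (nat_lit 351) (nat_lit 224) (nat_lit 205)) (XT.nd (nat_lit 78) (nat_lit 0) (nat_lit 0) (XT.lf (nat_lit 0) (nat_lit 6207329637) (nat_lit 76) (nat_lit 57214862466) (nat_lit 76) (nat_lit 57214862466) (nat_lit 1) (nat_lit 4) (nat_lit 2) (nat_lit 5) (nat_lit 2) (nat_lit 4) (nat_lit 330) (nat_lit 225) (nat_lit 225)) (XT.lf (nat_lit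 0) (nat_lit 18933563752) (nat_lit 76) (nat_lit 120803628681) (nat_lit 76) (nat_lit 120694957730) (nat_lit 1) (nat_lit 4) (nat_lit 2) (nat_lit 5) (nat_lit 2) (nat_lit 4) (nat_lit 331) (nat_lit 225) (nat_lit 224))))) (XT.nd (nat_lit 234) (nat_lit 0) (nat_lit 0) (XT.nd (nat_lit 78) (nat_lit 0) (nat_lit 0) (XT.lf (nat_lit 0) (nat_lit 25704559067) (nat_lit 76) (nat_lit 127817291612) (nat_lit 76) (nat_lit 127607999410) (nat_lit 1) (nat_lit 4) (nat_lit 2) (nat_lit 5) (nat_lit 2) (nat_lit 4) (nat_lit 332) (nat_lit 225) (nat_lit 223)) (XT.nd (nat_lit 78) (nat_lit 0) (nat_lit 0) (XT.lf (nat_lit 0) (nat_lit 32767769638) (nat_lit 76) (nat_lit 135512276172) (nat_lit 76) (nat_lit 135209816145) (nat_lit 1) (nat_lit 4) (nat_lit 2) (nat_lit 5) (nat_lit 2) (nat_lit 4) (nat_lit 333) (nat_lit 225) (nat_lit 222)) (XT.lf (nat_lit 0) (nat_lit 40165051527) (nat_lit 76) (nat_lit 143934182270) (nat_lit 76) (nat_lit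 143545455739) (nat_lit 1) (nat_lit 4) (nat_lit 2) (nat_lit 5) (nat_lit 2) (nat_lit 4) (nat_lit 334) (nat_lit 225) (nat_lit 221)))) (XT.nd (nat_lit 78) (nat_lit 0) (nat_lit 0) (XT.lf (nat_lit 0) (nat_lit 47940240479) (nat_lit 76) (nat_lit 153132917498) (nat_lit 76) (nat_lit 152664314573) (nat_lit 1) (nat_lit 4) (nat_lit 2) (nat_lit 5) (nat_lit 2) (nat_lit 4) (nat_lit 335) (nat_lit 225) (nat_lit 220)) (XT.nd (nat_lit 78) (nat_lit 0) (nat_lit 0) (XT.lf (nat_lit 0) (nat_lit 56139411688) (nat_lit 76) (nat_lit 163162992879) (nat_lit 76) (nat_lit 162620430331) (nat_lit 1) (nat_lit 4) (nat_lit 2) (nat_lit 5) (nat_lit 2) (nat_lit 4) (nat_lit 336) (nat_lit 225) (nat_lit 219)) (XT.lf (nat_lit 0) (nat_lit 64811152834) (nat_lit 76) (nat_lit 174083845897) (nat_lit 76) (nat_lit 173472802216) (nat_lit 1) (nat_lit 4) (nat_lit 2) (nat_lit 5) (nat_lit 2) (nat_lit 4) (nat_lit 337) (nat_lit 225) (nat_lit 218))))))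 (XT.nd (nat_lit 390) (nat_lit 0) (nat_lit 0) (XT.nd (nat_lit 156) (nat_lit 0) (nat_lit 0) (XT.nd (nat_lit 78) (nat_lit 0) (nat_lit 0) (XT.lf (nat_lit 0) (nat_lit 74006852014) (nat_lit 76) (nat_lit 185960192717) (nat_lit 76) (nat_lit 185285740581) (nat_lit 1) (nat_lit 4) (nat_lit 2) (nat_lit 5) (nat_lit 2) (nat_lit 4) (nat_lit 338) (nat_lit 225) (nat_lit 217)) (XT.lf (nat_lit 0) (nat_lit 83781002260) (nat_lit 76) (nat_lit 198862411693) (nat_lit 76) (nat_lit 198129248023) (nat_lit 1) (nat_lit 4) (nat_lit 2) (nat_lit 5) (nat_lit 2) (nat_lit 4) (nat_lit 339) (nat_lit 225) (nat_lit 216))) (XT.nd (nat_lit 78) (nat_lit 0) (nat_lit 0) (XT.lf (nat_lit 0) (nat_lit 94191524462) (nat_lit 76) (nat_lit 212866960416) (nat_lit 76) (nat_lit 212079434215) (nat_lit 1) (nat_lit 4) (nat_lit 2) (nat_lit 5) (nat_lit 2) (nat_lit 4) (nat_lit 340) (nat_lit 225) (nat_lit 215)) (XT.nd (nat_lit 78) (nat_lit 0) (nat_lit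 0) (XT.lf (nat_lit 0) (nat_lit 105300110603) (nat_lit 76) (nat_lit 228056828806) (nat_lit 76) (nat_lit 227218966929) (nat_lit 1) (nat_lit 4) (nat_lit 2) (nat_lit 5) (nat_lit 2) (nat_lit 4) (nat_lit 341) (nat_lit 225) (nat_lit 214)) (XT.lf (nat_lit 0) (nat_lit 117172589342) (nat_lit 76) (nat_lit 244522030898) (nat_lit 76) (nat_lit 243637561912) (nat_lit 1) (nat_lit 4) (nat_lit 2) (nat_lit 5) (nat_lit 2) (nat_lit 4) (nat_lit 342) (nat_lit 225) (nat_lit 213))))) (XT.nd (nat_lit 234) (nat_lit 0) (nat_lit 0) (XT.nd (nat_lit 78) (nat_lit 0) (nat_lit 0) (XT.lf (nat_lit 0) (nat_lit 129879316109) (nat_lit 76) (nat_lit 262360138260) (nat_lit 76) (nat_lit 261432514544) (nat_lit 1) (nat_lit 4) (nat_lit 2) (nat_lit 5) (nat_lit 2) (nat_lit 4) (nat_lit 343) (nat_lit 225) (nat_lit 212)) (XT.nd (nat_lit 78) (nat_lit 0) (nat_lit 0) (XT.lf (nat_lit 0) (nat_lit 143495590025) (nat_lit 76) (nat_lit 281676858194)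 (nat_lit 76) (nat_lit 280709276395) (nat_lit 1) (nat_lit 4) (nat_lit 2) (nat_lit 5) (nat_lit 2) (nat_lit 4) (nat_lit 344) (nat_lit 225) (nat_lit 211)) (XT.lf (nat_lit 0) (nat_lit 158102100121) (nat_lit 76) (nat_lit 302586660152) (nat_lit 76) (nat_lit 301582080128) (nat_lit 1) (nat_lit 4) (nat_lit 2) (nat_lit 5) (nat_lit 2) (nat_lit 4) (nat_lit 345) (nat_lit 225) (nat_lit 210)))) (XT.nd (nat_lit 78) (nat_lit 0) (nat_lit 0) (XT.lf (nat_lit 0) (nat_lit 173785403493) (nat_lit 76) (nat_lit 325213454071) (nat_lit 76) (nat_lit 324174616431) (nat_lit 1) (nat_lit 4) (nat_lit 2) (nat_lit 5) (nat_lit 2) (nat_lit 4) (nat_lit 346) (nat_lit 225) (nat_lit 209)) (XT.nd (nat_lit 78) (nat_lit 0) (nat_lit 0) (XT.lf (nat_lit 0) (nat_lit 190638438237) (nat_lit 76) (nat_lit 349691324657) (nat_lit 76) (nat_lit 348620767002) (nat_lit 1) (nat_lit 4) (nat_lit 2) (nat_lit 5) (nat_lit 2) (nat_lit 4) (nat_lit 347)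 (nat_lit 225) (nat_lit 208)) (XT.lf (nat_lit 0) (nat_lit 208761074186) (nat_lit 76) (nat_lit 376165325957) (nat_lit 76) (nat_lit 375065397918) (nat_lit 1) (nat_lit 4) (nat_lit 2) (nat_lit 5) (nat_lit 2) (nat_lit 4) (nat_lit 348) (nat_lit 225) (nat_lit 207))))))))
noncomputable def xc3 : XT := (XT.nd (nat_lit 40404) (nat_lit 0) (nat_lit 0) (XT.nd (nat_lit 39546) (nat_lit 0) (nat_lit 0) (XT.nd (nat_lit 39156) (nat_lit 0) (nat_lit 0) (XT.nd (nat_lit 156) (nat_lit 0) (nat_lit 0) (XT.nd (nat_lit 78) (nat_lit 0) (nat_lit 0) (XT.lf (nat_lit 0) (nat_lit 228260704740) (nat_lit 76) (nat_lit 404792340941) (nat_lit 76) (nat_lit 403665218102) (nat_lit 1) (nat_lit 4) (nat_lit 2) (nat_lit 5) (nat_lit 2) (nat_lit 4) (nat_lit 349) (nat_lit 225) (nat_lit 206)) (XT.lf (nat_lit 0) (nat_lit 249252883265) (nat_lit 76) (nat_lit 435742011181) (nat_lit 76) (nat_lit 434589707972) (nat_lit 1) (nat_lit 4) (nat_lit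 2) (nat_lit 5) (nat_lit 2) (nat_lit 4) (nat_lit 350) (nat_lit 225) (nat_lit 205))) (XT.nd (nat_lit 38844) (nat_lit 0) (nat_lit 0) (XT.lf (nat_lit 0) (nat_lit 271862007856) (nat_lit 76) (nat_lit 469197742129) (nat_lit 76) (nat_lit 468022123762) (nat_lit 1) (nat_lit 4) (nat_lit 2) (nat_lit 5) (nat_lit 2) (nat_lit 4) (nat_lit 351) (nat_lit 225) (nat_lit 204)) (XT.nd (nat_lit 78) (nat_lit 0) (nat_lit 0) (XT.lf (nat_lit 0) (nat_lit 65474453) (nat_lit 76) (nat_lit 51749113841) (nat_lit 76) (nat_lit 51749113841) (nat_lit 1) (nat_lit 4) (nat_lit 2) (nat_lit 5) (nat_lit 2) (nat_lit 4) (nat_lit 328) (nat_lit 226) (nat_lit 226)) (XT.lf (nat_lit 0) (nat_lit 6109215093) (nat_lit 76) (nat_lit 108775173712) (nat_lit 76) (nat_lit 108657809085) (nat_lit 1) (nat_lit 4) (nat_lit 2) (nat_lit 5) (nat_lit 2) (nat_lit 4) (nat_lit 329) (nat_lit 226) (nat_lit 225))))) (XT.nd (nat_lit 156) (nat_lit 0) (nat_lit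 0) (XT.nd (nat_lit 78) (nat_lit 0) (nat_lit 0) (XT.lf (nat_lit 0) (nat_lit 12274767333) (nat_lit 76) (nat_lit 114614510056) (nat_lit 76) (nat_lit 114388474478) (nat_lit 1) (nat_lit 4) (nat_lit 2) (nat_lit 5) (nat_lit 2) (nat_lit 4) (nat_lit 330) (nat_lit 226) (nat_lit 224)) (XT.lf (nat_lit 0) (nat_lit 18664142233) (nat_lit 76) (nat_lit 121050840190) (nat_lit 76) (nat_lit 120724183361) (nat_lit 1) (nat_lit 4) (nat_lit 2) (nat_lit 5) (nat_lit 2) (nat_lit 4) (nat_lit 331) (nat_lit 226) (nat_lit 223))) (XT.nd (nat_lit 78) (nat_lit 0) (nat_lit 0) (XT.lf (nat_lit 0) (nat_lit 25315202755) (nat_lit 76) (nat_lit 128122305330) (nat_lit 76) (nat_lit 127702480676) (nat_lit 1) (nat_lit 4) (nat_lit 2) (nat_lit 5) (nat_lit 2) (nat_lit 4) (nat_lit 332) (nat_lit 226) (nat_lit 222)) (XT.nd (nat_lit 78) (nat_lit 0) (nat_lit 0) (XT.lf (nat_lit 0) (nat_lit 32267362591) (nat_lit 76) (nat_lit 135870810455) (nat_lit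 76) (nat_lit 135364719296) (nat_lit 1) (nat_lit 4) (nat_lit 2) (nat_lit 5) (nat_lit 2) (nat_lit 4) (nat_lit 333) (nat_lit 226) (nat_lit 221)) (XT.lf (nat_lit 0) (nat_lit 39561819727) (nat_lit 76) (nat_lit 144342272631) (nat_lit 76) (nat_lit 143756305079) (nat_lit 1) (nat_lit 4) (nat_lit 2) (nat_lit 5) (nat_lit 2) (nat_lit 4) (nat_lit 334) (nat_lit 226) (nat_lit 220)))))) (XT.nd (nat_lit 390) (nat_lit 0) (nat_lit 0) (XT.nd (nat_lit 156) (nat_lit 0) (nat_lit 0) (XT.nd (nat_lit 78) (nat_lit 0) (nat_lit 0) (XT.lf (nat_lit 0) (nat_lit 47241800573) (nat_lit 76) (nat_lit 153586893116) (nat_lit 76) (nat_lit 152926965941) (nat_lit 1) (nat_lit 4) (nat_lit 2) (nat_lit 5) (nat_lit 2) (nat_lit 4) (nat_lit 335) (nat_lit 226) (nat_lit 219)) (XT.lf (nat_lit 0) (nat_lit 55352816128) (nat_lit 76) (nat_lit 163659454846) (nat_lit 76) (nat_lit 162931046538) (nat_lit 1) (nat_lit 4) (nat_lit 2) (nat_lit 5) (nat_lit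 2) (nat_lit 4) (nat_lit 336) (nat_lit 226) (nat_lit 218))) (XT.nd (nat_lit 78) (nat_lit 0) (nat_lit 0) (XT.lf (nat_lit 0) (nat_lit 63942931670) (nat_lit 76) (nat_lit 174619647076) (nat_lit 76) (nat_lit 173827830312) (nat_lit 1) (nat_lit 4) (nat_lit 2) (nat_lit 5) (nat_lit 2) (nat_lit 4) (nat_lit 337) (nat_lit 226) (nat_lit 217)) (XT.nd (nat_lit 78) (nat_lit 0) (nat_lit 0) (XT.lf (nat_lit 0) (nat_lit 73063051586) (nat_lit 76) (nat_lit 186532419093) (nat_lit 76) (nat_lit 185681890796) (nat_lit 1) (nat_lit 4) (nat_lit 2) (nat_lit 5) (nat_lit 2) (nat_lit 4) (nat_lit 338) (nat_lit 226) (nat_lit 216)) (XT.lf (nat_lit 0) (nat_lit 82767221032) (nat_lit 76) (nat_lit 199468365102) (nat_lit 76) (nat_lit 198563474274) (nat_lit 1) (nat_lit 4) (nat_lit 2) (nat_lit 5) (nat_lit 2) (nat_lit 4) (nat_lit 339) (nat_lit 226) (nat_lit 215))))) (XT.nd (nat_lit 234) (nat_lit 0) (nat_lit 0) (XT.nd (nat_lit 78)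 (nat_lit 0) (nat_lit 0) (XT.lf (nat_lit 0) (nat_lit 93112946197) (nat_lit 76) (nat_lit 213504142561) (nat_lit 76) (nat_lit 212548916056) (nat_lit 1) (nat_lit 4) (nat_lit 2) (nat_lit 5) (nat_lit 2) (nat_lit 4) (nat_lit 340) (nat_lit 226) (nat_lit 214)) (XT.nd (nat_lit 78) (nat_lit 0) (nat_lit 0) (XT.lf (nat_lit 0) (nat_lit 104161535082) (nat_lit 76) (nat_lit 228722926446) (nat_lit 76) (nat_lit 227721092833) (nat_lit 1) (nat_lit 4) (nat_lit 2) (nat_lit 5) (nat_lit 2) (nat_lit 4) (nat_lit 341) (nat_lit 226) (nat_lit 213)) (XT.lf (nat_lit 0) (nat_lit 115978460806) (nat_lit 76) (nat_lit 245214902145) (nat_lit 76) (nat_lit 244169913802) (nat_lit 1) (nat_lit 4) (nat_lit 2) (nat_lit 5) (nat_lit 2) (nat_lit 4) (nat_lit 342) (nat_lit 226) (nat_lit 212)))) (XT.nd (nat_lit 78) (nat_lit 0) (nat_lit 0) (XT.lf (nat_lit 0) (nat_lit 128633749595) (nat_lit 76) (nat_lit 263077799883) (nat_lit 76) (nat_lit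 261992853457) (nat_lit 1) (nat_lit 4) (nat_lit 2) (nat_lit 5) (nat_lit 2) (nat_lit 4) (nat_lit 343) (nat_lit 226) (nat_lit 211)) (XT.nd (nat_lit 78) (nat_lit 0) (nat_lit 0) (XT.lf (nat_lit 0) (nat_lit 142202395755) (nat_lit 76) (nat_lit 282417473870) (nat_lit 76) (nat_lit 281295529219) (nat_lit 1) (nat_lit 4) (nat_lit 2) (nat_lit 5) (nat_lit 2) (nat_lit 4) (nat_lit 344) (nat_lit 226) (nat_lit 210)) (XT.lf (nat_lit 0) (nat_lit 156764806076) (nat_lit 76) (nat_lit 303348529580) (nat_lit 76) (nat_lit 302192327313) (nat_lit 1) (nat_lit 4) (nat_lit 2) (nat_lit 5) (nat_lit 2) (nat_lit 4) (nat_lit 345) (nat_lit 226) (nat_lit 209))))))) (XT.nd (nat_lit 39468) (nat_lit 0) (nat_lit 0) (XT.nd (nat_lit 390) (nat_lit 0) (nat_lit 0) (XT.nd (nat_lit 156) (nat_lit 0) (nat_lit 0) (XT.nd (nat_lit 78) (nat_lit 0) (nat_lit 0) (XT.lf (nat_lit 0) (nat_lit 172407276324) (nat_lit 76) (nat_lit 325995002900) (nat_lit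 76) (nat_lit 324807080618) (nat_lit 1) (nat_lit 4) (nat_lit 2) (nat_lit 5) (nat_lit 2) (nat_lit 4) (nat_lit 346) (nat_lit 226) (nat_lit 208)) (XT.lf (nat_lit 0) (nat_lit 189222502619) (nat_lit 76) (nat_lit 350491095152) (nat_lit 76) (nat_lit 349273802487) (nat_lit 1) (nat_lit 4) (nat_lit 2) (nat_lit 5) (nat_lit 2) (nat_lit 4) (nat_lit 347) (nat_lit 226) (nat_lit 207))) (XT.nd (nat_lit 78) (nat_lit 0) (nat_lit 0) (XT.lf (nat_lit 0) (nat_lit 207310130746) (nat_lit 76) (nat_lit 376981968366) (nat_lit 76) (nat_lit 375737480900) (nat_lit 1) (nat_lit 4) (nat_lit 2) (nat_lit 5) (nat_lit 2) (nat_lit 4) (nat_lit 348) (nat_lit 226) (nat_lit 206)) (XT.nd (nat_lit 78) (nat_lit 0) (nat_lit 0) (XT.lf (nat_lit 0) (nat_lit 226777346649) (nat_lit 76) (nat_lit 405624605493) (nat_lit 76) (nat_lit 404354937657) (nat_lit 1) (nat_lit 4) (nat_lit 2) (nat_lit 5) (nat_lit 2) (nat_lit 4) (nat_lit 349) (nat_lit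 226) (nat_lit 205)) (XT.lf (nat_lit 0) (nat_lit 247739511609) (nat_lit 76) (nat_lit 436588740679) (nat_lit 76) (nat_lit 435295757685) (nat_lit 1) (nat_lit 4) (nat_lit 2) (nat_lit 5) (nat_lit 2) (nat_lit 4) (nat_lit 350) (nat_lit 226) (nat_lit 204))))) (XT.nd (nat_lit 38844) (nat_lit 0) (nat_lit 0) (XT.nd (nat_lit 38688) (nat_lit 0) (nat_lit 76) (XT.lf (nat_lit 0) (nat_lit 270320845861) (nat_lit 76) (nat_lit 470057865096) (nat_lit 76) (nat_lit 468743293993) (nat_lit 1) (nat_lit 4) (nat_lit 2) (nat_lit 5) (nat_lit 2) (nat_lit 4) (nat_lit 351) (nat_lit 226) (nat_lit 203)) (XT.nd (nat_lit 78) (nat_lit 0) (nat_lit 0) (XT.lf (nat_lit 0) (nat_lit 41745916000) (nat_lit 152) (nat_lit 5440784339) (nat_lit 0) (nat_lit 41745916000) (nat_lit 2) (nat_lit 5) (nat_lit 4) (nat_lit 4) (nat_lit 2) (nat_lit 4) (nat_lit 326) (nat_lit 227) (nat_lit 227)) (XT.lf (nat_lit 0) (nat_lit 93272619050) (nat_lit 152)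 (nat_lit 5513167761) (nat_lit 0) (nat_lit 93145865252) (nat_lit 2) (nat_lit 5) (nat_lit 4) (nat_lit 4) (nat_lit 2) (nat_lit 4) (nat_lit 327) (nat_lit 227) (nat_lit 226)))) (XT.nd (nat_lit 78) (nat_lit 76) (nat_lit 0) (XT.lf (nat_lit 0) (nat_lit 103677975581) (nat_lit 152) (nat_lit 19489964) (nat_lit 0) (nat_lit 103433857156) (nat_lit 2) (nat_lit 5) (nat_lit 4) (nat_lit 4) (nat_lit 2) (nat_lit 4) (nat_lit 328) (nat_lit 227) (nat_lit 225)) (XT.nd (nat_lit 78) (nat_lit 0) (nat_lit 0) (XT.lf (nat_lit 0) (nat_lit 5818239852) (nat_lit 76) (nat_lit 109042162142) (nat_lit 76) (nat_lit 108689372767) (nat_lit 1) (nat_lit 4) (nat_lit 2) (nat_lit 5) (nat_lit 2) (nat_lit 4) (nat_lit 329) (nat_lit 227) (nat_lit 224)) (XT.lf (nat_lit 0) (nat_lit 11854262515) (nat_lit 76) (nat_lit 114943924872) (nat_lit 76) (nat_lit 114490514246) (nat_lit 1) (nat_lit 4) (nat_lit 2) (nat_lit 5) (nat_lit 2) (nat_lit 4)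 (nat_lit 330) (nat_lit 227) (nat_lit 223)))))) (XT.nd (nat_lit 390) (nat_lit 0) (nat_lit 0) (XT.nd (nat_lit 156) (nat_lit 0) (nat_lit 0) (XT.nd (nat_lit 78) (nat_lit 0) (nat_lit 0) (XT.lf (nat_lit 0) (nat_lit 18123702622) (nat_lit 76) (nat_lit 121438057216) (nat_lit 76) (nat_lit 120891478765) (nat_lit 1) (nat_lit 4) (nat_lit 2) (nat_lit 5) (nat_lit 2) (nat_lit 4) (nat_lit 331) (nat_lit 227) (nat_lit 222)) (XT.lf (nat_lit 0) (nat_lit 24663712410) (nat_lit 76) (nat_lit 128563042920) (nat_lit 76) (nat_lit 127930197964) (nat_lit 1) (nat_lit 4) (nat_lit 2) (nat_lit 5) (nat_lit 2) (nat_lit 4) (nat_lit 332) (nat_lit 227) (nat_lit 221))) (XT.nd (nat_lit 78) (nat_lit 0) (nat_lit 0) (XT.lf (nat_lit 0) (nat_lit 31513047493) (nat_lit 76) (nat_lit 136361104122) (nat_lit 76) (nat_lit 135648382773) (nat_lit 1) (nat_lit 4) (nat_lit 2) (nat_lit 5) (nat_lit 2) (nat_lit 4) (nat_lit 333) (nat_lit 227) (nat_lit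 220)) (XT.nd (nat_lit 78) (nat_lit 0) (nat_lit 0) (XT.lf (nat_lit 0) (nat_lit 38712296522) (nat_lit 76) (nat_lit 144878451555) (nat_lit 76) (nat_lit 144091770583) (nat_lit 1) (nat_lit 4) (nat_lit 2) (nat_lit 5) (nat_lit 2) (nat_lit 4) (nat_lit 334) (nat_lit 227) (nat_lit 219)) (XT.lf (nat_lit 0) (nat_lit 46304121716) (nat_lit 76) (nat_lit 154165558389) (nat_lit 76) (nat_lit 153310396284) (nat_lit 1) (nat_lit 4) (nat_lit 2) (nat_lit 5) (nat_lit 2) (nat_lit 4) (nat_lit 335) (nat_lit 227) (nat_lit 218))))) (XT.nd (nat_lit 234) (nat_lit 0) (nat_lit 0) (XT.nd (nat_lit 78) (nat_lit 0) (nat_lit 0) (XT.lf (nat_lit 0) (nat_lit 54333511666) (nat_lit 76) (nat_lit 164277459331) (nat_lit 76) (nat_lit 163358888770) (nat_lit 1) (nat_lit 4) (nat_lit 2) (nat_lit 5) (nat_lit 2) (nat_lit 4) (nat_lit 336) (nat_lit 227) (nat_lit 217)) (XT.nd (nat_lit 78) (nat_lit 0) (nat_lit 0) (XT.lf (nat_lit 0) (nat_lit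 62848047944) (nat_lit 76) (nat_lit 175274076758) (nat_lit 76) (nat_lit 174296794664) (nat_lit 1) (nat_lit 4) (nat_lit 2) (nat_lit 5) (nat_lit 2) (nat_lit 4) (nat_lit 337) (nat_lit 227) (nat_lit 216)) (XT.lf (nat_lit 0) (nat_lit 71898187060) (nat_lit 76) (nat_lit 187220575809) (nat_lit 76) (nat_lit 186188931184) (nat_lit 1) (nat_lit 4) (nat_lit 2) (nat_lit 5) (nat_lit 2) (nat_lit 4) (nat_lit 338) (nat_lit 227) (nat_lit 215)))) (XT.nd (nat_lit 78) (nat_lit 0) (nat_lit 0) (XT.lf (nat_lit 0) (nat_lit 81537559469) (nat_lit 76) (nat_lit 200187750553) (nat_lit 76) (nat_lit 199105770251) (nat_lit 1) (nat_lit 4) (nat_lit 2) (nat_lit 5) (nat_lit 2) (nat_lit 4) (nat_lit 339) (nat_lit 227) (nat_lit 214)) (XT.nd (nat_lit 78) (nat_lit 0) (nat_lit 0) (XT.lf (nat_lit 0) (nat_lit 91823287378) (nat_lit 76) (nat_lit 214252443507) (nat_lit 76) (nat_lit 213123856097) (nat_lit 1) (nat_lit 4) (nat_lit 2) (nat_lit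 5) (nat_lit 2) (nat_lit 4) (nat_lit 340) (nat_lit 227) (nat_lit 213)) (XT.lf (nat_lit 0) (nat_lit 102816323247) (nat_lit 76) (nat_lit 229498001000) (nat_lit 76) (nat_lit 228326258859) (nat_lit 1) (nat_lit 4) (nat_lit 2) (nat_lit 5) (nat_lit 2) (nat_lit 4) (nat_lit 341) (nat_lit 227) (nat_lit 212))))))))
noncomputable def xc4 : XT := (XT.nd (nat_lit 40092) (nat_lit 0) (nat_lit 0) (XT.nd (nat_lit 39234) (nat_lit 0) (nat_lit 0) (XT.nd (nat_lit 390) (nat_lit 0) (nat_lit 0) (XT.nd (nat_lit 156) (nat_lit 0) (nat_lit 0) (XT.nd (nat_lit 78) (nat_lit 0) (nat_lit 0) (XT.lf (nat_lit 0) (nat_lit 114581810994) (nat_lit 76) (nat_lit 246014767075) (nat_lit 76) (nat_lit 244803066852) (nat_lit 1) (nat_lit 4) (nat_lit 2) (nat_lit 5) (nat_lit 2) (nat_lit 4) (nat_lit 342) (nat_lit 227) (nat_lit 211)) (XT.lf (nat_lit 0) (nat_lit 127189472028) (nat_lit 76) (nat_lit 263900618866) (nat_lit 76) (nat_lit 262651920417)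 (nat_lit 1) (nat_lit 4) (nat_lit 2) (nat_lit 5) (nat_lit 2) (nat_lit 4) (nat_lit 343) (nat_lit 227) (nat_lit 210))) (XT.nd (nat_lit 78) (nat_lit 0) (nat_lit 0) (XT.lf (nat_lit 0) (nat_lit 140714018413) (nat_lit 76) (nat_lit 283261546605) (nat_lit 76) (nat_lit 281978590540) (nat_lit 1) (nat_lit 4) (nat_lit 2) (nat_lit 5) (nat_lit 2) (nat_lit 4) (nat_lit 344) (nat_lit 227) (nat_lit 209)) (XT.nd (nat_lit 78) (nat_lit 0) (nat_lit 0) (XT.lf (nat_lit 0) (nat_lit 155235595610) (nat_lit 76) (nat_lit 304212281715) (nat_lit 76) (nat_lit 302897605636) (nat_lit 1) (nat_lit 4) (nat_lit 2) (nat_lit 5) (nat_lit 2) (nat_lit 4) (nat_lit 345) (nat_lit 227) (nat_lit 208)) (XT.lf (nat_lit 0) (nat_lit 170840257409) (nat_lit 76) (nat_lit 326876976702) (nat_lit 76) (nat_lit 325532930239) (nat_lit 1) (nat_lit 4) (nat_lit 2) (nat_lit 5) (nat_lit 2) (nat_lit 4) (nat_lit 346) (nat_lit 227) (nat_lit 207))))) (XT.nd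 (nat_lit 156) (nat_lit 0) (nat_lit 0) (XT.nd (nat_lit 78) (nat_lit 0) (nat_lit 0) (XT.lf (nat_lit 0) (nat_lit 187620475881) (nat_lit 76) (nat_lit 351389940868) (nat_lit 76) (nat_lit 350018699605) (nat_lit 1) (nat_lit 4) (nat_lit 2) (nat_lit 5) (nat_lit 2) (nat_lit 4) (nat_lit 347) (nat_lit 227) (nat_lit 206)) (XT.lf (nat_lit 0) (nat_lit 205675689357) (nat_lit 76) (nat_lit 377896436224) (nat_lit 76) (nat_lit 376500014591) (nat_lit 1) (nat_lit 4) (nat_lit 2) (nat_lit 5) (nat_lit 2) (nat_lit 4) (nat_lit 348) (nat_lit 227) (nat_lit 205))) (XT.nd (nat_lit 78) (nat_lit 0) (nat_lit 0) (XT.lf (nat_lit 0) (nat_lit 225112891695) (nat_lit 76) (nat_lit 406553538298) (nat_lit 76) (nat_lit 405133801507) (nat_lit 1) (nat_lit 4) (nat_lit 2) (nat_lit 5) (nat_lit 2) (nat_lit 4) (nat_lit 349) (nat_lit 227) (nat_lit 204)) (XT.nd (nat_lit 78) (nat_lit 0) (nat_lit 0) (XT.lf (nat_lit 0) (nat_lit 246047266315)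 (nat_lit 76) (nat_lit 437531066953) (nat_lit 76) (nat_lit 436089742053) (nat_lit 1) (nat_lit 4) (nat_lit 2) (nat_lit 5) (nat_lit 2) (nat_lit 4) (nat_lit 350) (nat_lit 227) (nat_lit 203)) (XT.lf (nat_lit 0) (nat_lit 268602868773) (nat_lit 76) (nat_lit 471012592731) (nat_lit 76) (nat_lit 469551278841) (nat_lit 1) (nat_lit 4) (nat_lit 2) (nat_lit 5) (nat_lit 2) (nat_lit 4) (nat_lit 351) (nat_lit 227) (nat_lit 202)))))) (XT.nd (nat_lit 390) (nat_lit 76) (nat_lit 0) (XT.nd (nat_lit 156) (nat_lit 0) (nat_lit 0) (XT.nd (nat_lit 78) (nat_lit 0) (nat_lit 0) (XT.lf (nat_lit 0) (nat_lit 32900459531) (nat_lit 152) (nat_lit 10599326846) (nat_lit 0) (nat_lit 32900459531) (nat_lit 2) (nat_lit 5) (nat_lit 4) (nat_lit 4) (nat_lit 2) (nat_lit 4) (nat_lit 324) (nat_lit 228) (nat_lit 228)) (XT.lf (nat_lit 0) (nat_lit 74414548315) (nat_lit 152) (nat_lit 16156505462) (nat_lit 0) (nat_lit 74277654214) (nat_lit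 2) (nat_lit 5) (nat_lit 4) (nat_lit 4) (nat_lit 2) (nat_lit 4) (nat_lit 325) (nat_lit 228) (nat_lit 227))) (XT.nd (nat_lit 78) (nat_lit 0) (nat_lit 0) (XT.lf (nat_lit 0) (nat_lit 83546742948) (nat_lit 152) (nat_lit 11039516183) (nat_lit 0) (nat_lit 83283095049) (nat_lit 2) (nat_lit 5) (nat_lit 4) (nat_lit 4) (nat_lit 2) (nat_lit 4) (nat_lit 326) (nat_lit 228) (nat_lit 226)) (XT.nd (nat_lit 78) (nat_lit 0) (nat_lit 0) (XT.lf (nat_lit 0) (nat_lit 93251619669) (nat_lit 152) (nat_lit 5817362955) (nat_lit 0) (nat_lit 92870607143) (nat_lit 2) (nat_lit 5) (nat_lit 4) (nat_lit 4) (nat_lit 2) (nat_lit 4) (nat_lit 327) (nat_lit 228) (nat_lit 225)) (XT.lf (nat_lit 0) (nat_lit 103586688859) (nat_lit 152) (nat_lit 459099684) (nat_lit 0) (nat_lit 103097005382) (nat_lit 2) (nat_lit 5) (nat_lit 4) (nat_lit 4) (nat_lit 2) (nat_lit 4) (nat_lit 328) (nat_lit 228) (nat_lit 224))))) (XT.nd (nat_lit 234) (nat_lit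 0) (nat_lit 0) (XT.nd (nat_lit 78) (nat_lit 0) (nat_lit 0) (XT.lf (nat_lit 0) (nat_lit 5234565073) (nat_lit 76) (nat_lit 109460356529) (nat_lit 76) (nat_lit 108870051802) (nat_lit 1) (nat_lit 4) (nat_lit 2) (nat_lit 5) (nat_lit 2) (nat_lit 4) (nat_lit 329) (nat_lit 228) (nat_lit 223)) (XT.nd (nat_lit 78) (nat_lit 0) (nat_lit 0) (XT.lf (nat_lit 0) (nat_lit 11150652943) (nat_lit 76) (nat_lit 115419921469) (nat_lit 76) (nat_lit 114736448916) (nat_lit 1) (nat_lit 4) (nat_lit 2) (nat_lit 5) (nat_lit 2) (nat_lit 4) (nat_lit 330) (nat_lit 228) (nat_lit 222)) (XT.lf (nat_lit 0) (nat_lit 17309042316) (nat_lit 76) (nat_lit 121967574376) (nat_lit 76) (nat_lit 121197835319) (nat_lit 1) (nat_lit 4) (nat_lit 2) (nat_lit 5) (nat_lit 2) (nat_lit 4) (nat_lit 331) (nat_lit 228) (nat_lit 221)))) (XT.nd (nat_lit 78) (nat_lit 0) (nat_lit 0) (XT.lf (nat_lit 0) (nat_lit 23746227350) (nat_lit 76) (nat_lit 129142116158)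 (nat_lit 76) (nat_lit 128292500708) (nat_lit 1) (nat_lit 4) (nat_lit 2) (nat_lit 5) (nat_lit 2) (nat_lit 4) (nat_lit 332) (nat_lit 228) (nat_lit 220)) (XT.nd (nat_lit 78) (nat_lit 0) (nat_lit 0) (XT.lf (nat_lit 0) (nat_lit 30500354327) (nat_lit 76) (nat_lit 136986062617) (nat_lit 76) (nat_lit 136062487544) (nat_lit 1) (nat_lit 4) (nat_lit 2) (nat_lit 5) (nat_lit 2) (nat_lit 4) (nat_lit 333) (nat_lit 228) (nat_lit 219)) (XT.lf (nat_lit 0) (nat_lit 37611447703) (nat_lit 76) (nat_lit 145545896399) (nat_lit 76) (nat_lit 144553840194) (nat_lit 1) (nat_lit 4) (nat_lit 2) (nat_lit 5) (nat_lit 2) (nat_lit 4) (nat_lit 334) (nat_lit 228) (nat_lit 218))))))) (XT.nd (nat_lit 858) (nat_lit 0) (nat_lit 0) (XT.nd (nat_lit 390) (nat_lit 0) (nat_lit 0) (XT.nd (nat_lit 156) (nat_lit 0) (nat_lit 0) (XT.nd (nat_lit 78) (nat_lit 0) (nat_lit 0) (XT.lf (nat_lit 0) (nat_lit 45121647291) (nat_lit 76) (nat_lit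 154872342446) (nat_lit 76) (nat_lit 153816877784) (nat_lit 1) (nat_lit 4) (nat_lit 2) (nat_lit 5) (nat_lit 2) (nat_lit 4) (nat_lit 335) (nat_lit 228) (nat_lit 217)) (XT.lf (nat_lit 0) (nat_lit 53075457978) (nat_lit 76) (nat_lit 165020668585) (nat_lit 76) (nat_lit 163906492389) (nat_lit 1) (nat_lit 4) (nat_lit 2) (nat_lit 5) (nat_lit 2) (nat_lit 4) (nat_lit 336) (nat_lit 228) (nat_lit 216))) (XT.nd (nat_lit 78) (nat_lit 0) (nat_lit 0) (XT.lf (nat_lit 0) (nat_lit 61520013456) (nat_lit 76) (nat_lit 176051013045) (nat_lit 76) (nat_lit 174882474319) (nat_lit 1) (nat_lit 4) (nat_lit 2) (nat_lit 5) (nat_lit 2) (nat_lit 4) (nat_lit 337) (nat_lit 228) (nat_lit 215)) (XT.nd (nat_lit 78) (nat_lit 0) (nat_lit 0) (XT.lf (nat_lit 0) (nat_lit 70505355535) (nat_lit 76) (nat_lit 188028740831) (nat_lit 76) (nat_lit 186809866428) (nat_lit 1) (nat_lit 4) (nat_lit 2) (nat_lit 5) (nat_lit 2) (nat_lit 4) (nat_lit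 338) (nat_lit 228) (nat_lit 214)) (XT.lf (nat_lit 0) (nat_lit 80084730688) (nat_lit 76) (nat_lit 201024831071) (nat_lit 76) (nat_lit 199759349559) (nat_lit 1) (nat_lit 4) (nat_lit 2) (nat_lit 5) (nat_lit 2) (nat_lit 4) (nat_lit 339) (nat_lit 228) (nat_lit 213))))) (XT.nd (nat_lit 234) (nat_lit 0) (nat_lit 0) (XT.nd (nat_lit 78) (nat_lit 0) (nat_lit 0) (XT.lf (nat_lit 0) (nat_lit 90314905581) (nat_lit 76) (nat_lit 215116297631) (nat_lit 76) (nat_lit 213807661390) (nat_lit 1) (nat_lit 4) (nat_lit 2) (nat_lit 5) (nat_lit 2) (nat_lit 4) (nat_lit 340) (nat_lit 228) (nat_lit 212)) (XT.nd (nat_lit 78) (nat_lit 0) (nat_lit 0) (XT.lf (nat_lit 0) (nat_lit 101256503474) (nat_lit 76) (nat_lit 230386645501) (nat_lit 76) (nat_lit 229038051176) (nat_lit 1) (nat_lit 4) (nat_lit 2) (nat_lit 5) (nat_lit 2) (nat_lit 4) (nat_lit 341) (nat_lit 228) (nat_lit 211)) (XT.lf (nat_lit 0) (nat_lit 112974363465) (nat_lit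 76) (nat_lit 246926365629) (nat_lit 76) (nat_lit 245540773079) (nat_lit 1) (nat_lit 4) (nat_lit 2) (nat_lit 5) (nat_lit 2) (nat_lit 4) (nat_lit 342) (nat_lit 228) (nat_lit 210)))) (XT.nd (nat_lit 78) (nat_lit 0) (nat_lit 0) (XT.lf (nat_lit 0) (nat_lit 125537924723) (nat_lit 76) (nat_lit 264833471172) (nat_lit 76) (nat_lit 263413621006) (nat_lit 1) (nat_lit 4) (nat_lit 2) (nat_lit 5) (nat_lit 2) (nat_lit 4) (nat_lit 343) (nat_lit 228) (nat_lit 209)) (XT.nd (nat_lit 78) (nat_lit 0) (nat_lit 0) (XT.lf (nat_lit 0) (nat_lit 139021637984) (nat_lit 76) (nat_lit 284214078311) (nat_lit 76) (nat_lit 282762508131) (nat_lit 1) (nat_lit 4) (nat_lit 2) (nat_lit 5) (nat_lit 2) (nat_lit 4) (nat_lit 344) (nat_lit 228) (nat_lit 208)) (XT.lf (nat_lit 0) (nat_lit 153505406732) (nat_lit 76) (nat_lit 305183035089) (nat_lit 76) (nat_lit 303702094524) (nat_lit 1) (nat_lit 4) (nat_lit 2) (nat_lit 5) (nat_lit 2)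 (nat_lit 4) (nat_lit 345) (nat_lit 228) (nat_lit 207)))))) (XT.nd (nat_lit 390) (nat_lit 0) (nat_lit 0) (XT.nd (nat_lit 156) (nat_lit 0) (nat_lit 0) (XT.nd (nat_lit 78) (nat_lit 0) (nat_lit 0) (XT.lf (nat_lit 0) (nat_lit 169075060709) (nat_lit 76) (nat_lit 327864601989) (nat_lit 76) (nat_lit 326356466625) (nat_lit 1) (nat_lit 4) (nat_lit 2) (nat_lit 5) (nat_lit 2) (nat_lit 4) (nat_lit 346) (nat_lit 228) (nat_lit 206)) (XT.lf (nat_lit 0) (nat_lit 185822864530) (nat_lit 76) (nat_lit 352393188298) (nat_lit 76) (nat_lit 350859872563) (nat_lit 1) (nat_lit 4) (nat_lit 2) (nat_lit 5) (nat_lit 2) (nat_lit 4) (nat_lit 347) (nat_lit 228) (nat_lit 205))) (XT.nd (nat_lit 78) (nat_lit 0) (nat_lit 0) (XT.lf (nat_lit 0) (nat_lit 203848064440) (nat_lit 76) (nat_lit 378914148601) (nat_lit 76) (nat_lit 377357517708) (nat_lit 1) (nat_lit 4) (nat_lit 2) (nat_lit 5) (nat_lit 2) (nat_lit 4) (nat_lit 348) (nat_lit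 228) (nat_lit 204)) (XT.nd (nat_lit 78) (nat_lit 0) (nat_lit 0) (XT.lf (nat_lit 0) (nat_lit 223257476440) (nat_lit 76) (nat_lit 407584644143) (nat_lit 76) (nat_lit 406006425142) (nat_lit 1) (nat_lit 4) (nat_lit 2) (nat_lit 5) (nat_lit 2) (nat_lit 4) (nat_lit 349) (nat_lit 228) (nat_lit 203)) (XT.lf (nat_lit 0) (nat_lit 244166119266) (nat_lit 76) (nat_lit 438574574159) (nat_lit 76) (nat_lit 436976366168) (nat_lit 1) (nat_lit 4) (nat_lit 2) (nat_lit 5) (nat_lit 2) (nat_lit 4) (nat_lit 350) (nat_lit 228) (nat_lit 202))))) (XT.nd (nat_lit 38532) (nat_lit 0) (nat_lit 76) (XT.nd (nat_lit 38376) (nat_lit 0) (nat_lit 76) (XT.lf (nat_lit 0) (nat_lit 266697895987) (nat_lit 76) (nat_lit 472067582678) (nat_lit 76) (nat_lit 470450866363) (nat_lit 1) (nat_lit 4) (nat_lit 2) (nat_lit 5) (nat_lit 2) (nat_lit 4) (nat_lit 351) (nat_lit 228) (nat_lit 201)) (XT.nd (nat_lit 78) (nat_lit 0) (nat_lit 0) (XT.lf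 (nat_lit 0) (nat_lit 25085711529) (nat_lit 152) (nat_lit 15496724090) (nat_lit 0) (nat_lit 25085711529) (nat_lit 2) (nat_lit 5) (nat_lit 4) (nat_lit 4) (nat_lit 2) (nat_lit 4) (nat_lit 322) (nat_lit 229) (nat_lit 229)) (XT.lf (nat_lit 0) (nat_lit 57802657089) (nat_lit 152) (nat_lit 26195840268) (nat_lit 0) (nat_lit 57654811460) (nat_lit 2) (nat_lit 5) (nat_lit 4) (nat_lit 4) (nat_lit 2) (nat_lit 4) (nat_lit 323) (nat_lit 229) (nat_lit 228)))) (XT.nd (nat_lit 78) (nat_lit 0) (nat_lit 0) (XT.lf (nat_lit 0) (nat_lit 65860222885) (nat_lit 152) (nat_lit 21369236996) (nat_lit 0) (nat_lit 65575483155) (nat_lit 2) (nat_lit 5) (nat_lit 4) (nat_lit 4) (nat_lit 2) (nat_lit 4) (nat_lit 324) (nat_lit 229) (nat_lit 227)) (XT.nd (nat_lit 78) (nat_lit 0) (nat_lit 0) (XT.lf (nat_lit 0) (nat_lit 74391868983) (nat_lit 152) (nat_lit 16485036271) (nat_lit 0) (nat_lit 73980375456) (nat_lit 2) (nat_lit 5) (nat_lit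 4) (nat_lit 4) (nat_lit 2) (nat_lit 4) (nat_lit 325) (nat_lit 229) (nat_lit 226)) (XT.lf (nat_lit 0) (nat_lit 83448153288) (nat_lit 152) (nat_lit 11514294681) (nat_lit 0) (nat_lit 82919295134) (nat_lit 2) (nat_lit 5) (nat_lit 4) (nat_lit 4) (nat_lit 2) (nat_lit 4) (nat_lit 326) (nat_lit 229) (nat_lit 225))))))))
noncomputable def xc5 : XT := (XT.nd (nat_lit 1638) (nat_lit 0) (nat_lit 0) (XT.nd (nat_lit 780) (nat_lit 0) (nat_lit 0) (XT.nd (nat_lit 390) (nat_lit 0) (nat_lit 0) (XT.nd (nat_lit 156) (nat_lit 76) (nat_lit 0) (XT.nd (nat_lit 78) (nat_lit 0) (nat_lit 0) (XT.lf (nat_lit 0) (nat_lit 93082742668) (nat_lit 152) (nat_lit 6427555979) (nat_lit 0) (nat_lit 92445213563) (nat_lit 2) (nat_lit 5) (nat_lit 4) (nat_lit 4) (nat_lit 2) (nat_lit 4) (nat_lit 327) (nat_lit 229) (nat_lit 224)) (XT.lf (nat_lit 0) (nat_lit 103352730988) (nat_lit 152) (nat_lit 1194676529) (nat_lit 0) (nat_lit 102614580631)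 (nat_lit 2) (nat_lit 5) (nat_lit 4) (nat_lit 4) (nat_lit 2) (nat_lit 4) (nat_lit 328) (nat_lit 229) (nat_lit 223))) (XT.nd (nat_lit 78) (nat_lit 0) (nat_lit 0) (XT.lf (nat_lit 0) (nat_lit 4354731942) (nat_lit 76) (nat_lit 110032235063) (nat_lit 76) (nat_lit 109200916881) (nat_lit 1) (nat_lit 4) (nat_lit 2) (nat_lit 5) (nat_lit 2) (nat_lit 4) (nat_lit 329) (nat_lit 229) (nat_lit 222)) (XT.nd (nat_lit 78) (nat_lit 0) (nat_lit 0) (XT.lf (nat_lit 0) (nat_lit 10159769078) (nat_lit 76) (nat_lit 116045320566) (nat_lit 76) (nat_lit 115127735880) (nat_lit 1) (nat_lit 4) (nat_lit 2) (nat_lit 5) (nat_lit 2) (nat_lit 4) (nat_lit 330) (nat_lit 229) (nat_lit 221)) (XT.lf (nat_lit 0) (nat_lit 16215333696) (nat_lit 76) (nat_lit 122642529551) (nat_lit 76) (nat_lit 121645068472) (nat_lit 1) (nat_lit 4) (nat_lit 2) (nat_lit 5) (nat_lit 2) (nat_lit 4) (nat_lit 331) (nat_lit 229) (nat_lit 220))))) (XT.nd (nat_lit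 156) (nat_lit 0) (nat_lit 0) (XT.nd (nat_lit 78) (nat_lit 0) (nat_lit 0) (XT.lf (nat_lit 0) (nat_lit 22557310625) (nat_lit 76) (nat_lit 129862956590) (nat_lit 76) (nat_lit 128791535888) (nat_lit 1) (nat_lit 4) (nat_lit 2) (nat_lit 5) (nat_lit 2) (nat_lit 4) (nat_lit 332) (nat_lit 229) (nat_lit 219)) (XT.lf (nat_lit 0) (nat_lit 29223281948) (nat_lit 76) (nat_lit 137749389398) (nat_lit 76) (nat_lit 136609487563) (nat_lit 1) (nat_lit 4) (nat_lit 2) (nat_lit 5) (nat_lit 2) (nat_lit 4) (nat_lit 333) (nat_lit 229) (nat_lit 218))) (XT.nd (nat_lit 78) (nat_lit 0) (nat_lit 0) (XT.lf (nat_lit 0) (nat_lit 36252749720) (nat_lit 76) (nat_lit 146348562393) (nat_lit 76) (nat_lit 145145252102) (nat_lit 1) (nat_lit 4) (nat_lit 2) (nat_lit 5) (nat_lit 2) (nat_lit 4) (nat_lit 334) (nat_lit 229) (nat_lit 217)) (XT.nd (nat_lit 78) (nat_lit 0) (nat_lit 0) (XT.lf (nat_lit 0) (nat_lit 43687370044) (nat_lit 76)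 (nat_lit 155711433636) (nat_lit 76) (nat_lit 154449411811) (nat_lit 1) (nat_lit 4) (nat_lit 2) (nat_lit 5) (nat_lit 2) (nat_lit 4) (nat_lit 335) (nat_lit 229) (nat_lit 216)) (XT.lf (nat_lit 0) (nat_lit 51571199931) (nat_lit 76) (nat_lit 165893486809) (nat_lit 76) (nat_lit 164577102453) (nat_lit 1) (nat_lit 4) (nat_lit 2) (nat_lit 5) (nat_lit 2) (nat_lit 4) (nat_lit 336) (nat_lit 229) (nat_lit 215)))))) (XT.nd (nat_lit 390) (nat_lit 0) (nat_lit 0) (XT.nd (nat_lit 156) (nat_lit 0) (nat_lit 0) (XT.nd (nat_lit 78) (nat_lit 0) (nat_lit 0) (XT.lf (nat_lit 0) (nat_lit 59950958372) (nat_lit 76) (nat_lit 176955060004) (nat_lit 76) (nat_lit 175588339972) (nat_lit 1) (nat_lit 4) (nat_lit 2) (nat_lit 5) (nat_lit 2) (nat_lit 4) (nat_lit 337) (nat_lit 229) (nat_lit 214)) (XT.lf (nat_lit 0) (nat_lit 68876303195) (nat_lit 76) (nat_lit 188961703286) (nat_lit 76) (nat_lit 187548376145) (nat_lit 1) (nat_lit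 4) (nat_lit 2) (nat_lit 5) (nat_lit 2) (nat_lit 4) (nat_lit 338) (nat_lit 229) (nat_lit 213))) (XT.nd (nat_lit 78) (nat_lit 0) (nat_lit 0) (XT.lf (nat_lit 0) (nat_lit 78400125333) (nat_lit 76) (nat_lit 201984567132) (nat_lit 76) (nat_lit 200528085261) (nat_lit 1) (nat_lit 4) (nat_lit 2) (nat_lit 5) (nat_lit 2) (nat_lit 4) (nat_lit 339) (nat_lit 229) (nat_lit 212)) (XT.nd (nat_lit 78) (nat_lit 0) (nat_lit 0) (XT.lf (nat_lit 0) (nat_lit 88578862249) (nat_lit 76) (nat_lit 216100824069) (nat_lit 76) (nat_lit 214604384116) (nat_lit 1) (nat_lit 4) (nat_lit 2) (nat_lit 5) (nat_lit 2) (nat_lit 4) (nat_lit 340) (nat_lit 229) (nat_lit 211)) (XT.lf (nat_lit 0) (nat_lit 99472832385) (nat_lit 76) (nat_lit 231394125991) (nat_lit 76) (nat_lit 229860687812) (nat_lit 1) (nat_lit 4) (nat_lit 2) (nat_lit 5) (nat_lit 2) (nat_lit 4) (nat_lit 341) (nat_lit 229) (nat_lit 210))))) (XT.nd (nat_lit 234) (nat_lit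 0) (nat_lit 0) (XT.nd (nat_lit 78) (nat_lit 0) (nat_lit 0) (XT.lf (nat_lit 0) (nat_lit 111146592601) (nat_lit 76) (nat_lit 247955099871) (nat_lit 76) (nat_lit 246387404077) (nat_lit 1) (nat_lit 4) (nat_lit 2) (nat_lit 5) (nat_lit 2) (nat_lit 4) (nat_lit 342) (nat_lit 229) (nat_lit 209)) (XT.nd (nat_lit 78) (nat_lit 0) (nat_lit 0) (XT.lf (nat_lit 0) (nat_lit 123669320736) (nat_lit 76) (nat_lit 265881884815) (nat_lit 76) (nat_lit 264282469006) (nat_lit 1) (nat_lit 4) (nat_lit 2) (nat_lit 5) (nat_lit 2) (nat_lit 4) (nat_lit 343) (nat_lit 229) (nat_lit 208)) (XT.lf (nat_lit 0) (nat_lit 137115225548) (nat_lit 76) (nat_lit 285280713621) (nat_lit 76) (nat_lit 283651927428) (nat_lit 1) (nat_lit 4) (nat_lit 2) (nat_lit 5) (nat_lit 2) (nat_lit 4) (nat_lit 344) (nat_lit 229) (nat_lit 207)))) (XT.nd (nat_lit 78) (nat_lit 0) (nat_lit 0) (XT.lf (nat_lit 0) (nat_lit 151563986473) (nat_lit 76) (nat_lit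 306266542312) (nat_lit 76) (nat_lit 304610561319) (nat_lit 1) (nat_lit 4) (nat_lit 2) (nat_lit 5) (nat_lit 2) (nat_lit 4) (nat_lit 345) (nat_lit 229) (nat_lit 206)) (XT.nd (nat_lit 78) (nat_lit 0) (nat_lit 0) (XT.lf (nat_lit 0) (nat_lit 167101225799) (nat_lit 76) (nat_lit 328963731355) (nat_lit 76) (nat_lit 327282569992) (nat_lit 1) (nat_lit 4) (nat_lit 2) (nat_lit 5) (nat_lit 2) (nat_lit 4) (nat_lit 346) (nat_lit 229) (nat_lit 205)) (XT.lf (nat_lit 0) (nat_lit 183819016054) (nat_lit 76) (nat_lit 353506782611) (nat_lit 76) (nat_lit 351802306090) (nat_lit 1) (nat_lit 4) (nat_lit 2) (nat_lit 5) (nat_lit 2) (nat_lit 4) (nat_lit 347) (nat_lit 229) (nat_lit 204))))))) (XT.nd (nat_lit 39000) (nat_lit 0) (nat_lit 0) (XT.nd (nat_lit 38532) (nat_lit 0) (nat_lit 76) (XT.nd (nat_lit 156) (nat_lit 0) (nat_lit 0) (XT.nd (nat_lit 78) (nat_lit 0) (nat_lit 0) (XT.lf (nat_lit 0) (nat_lit 201816425626)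 (nat_lit 76) (nat_lit 380041136383) (nat_lit 76) (nat_lit 378315071752) (nat_lit 1) (nat_lit 4) (nat_lit 2) (nat_lit 5) (nat_lit 2) (nat_lit 4) (nat_lit 348) (nat_lit 229) (nat_lit 203)) (XT.lf (nat_lit 0) (nat_lit 221200105831) (nat_lit 76) (nat_lit 408724033286) (nat_lit 76) (nat_lit 406977979666) (nat_lit 1) (nat_lit 4) (nat_lit 2) (nat_lit 5) (nat_lit 2) (nat_lit 4) (nat_lit 349) (nat_lit 229) (nat_lit 202))) (XT.nd (nat_lit 78) (nat_lit 0) (nat_lit 0) (XT.lf (nat_lit 0) (nat_lit 242084922921) (nat_lit 76) (nat_lit 439725446043) (nat_lit 76) (nat_lit 437960884099) (nat_lit 1) (nat_lit 4) (nat_lit 2) (nat_lit 5) (nat_lit 2) (nat_lit 4) (nat_lit 350) (nat_lit 229) (nat_lit 201)) (XT.nd (nat_lit 38220) (nat_lit 0) (nat_lit 76) (XT.lf (nat_lit 0) (nat_lit 264594638775) (nat_lit 76) (nat_lit 473229086729) (nat_lit 76) (nat_lit 471447387448) (nat_lit 1) (nat_lit 4) (nat_lit 2) (nat_lit 5)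 (nat_lit 2) (nat_lit 4) (nat_lit 351) (nat_lit 229) (nat_lit 200)) (XT.lf (nat_lit 0) (nat_lit 18136134325) (nat_lit 152) (nat_lit 20208213644) (nat_lit 0) (nat_lit 18136134325) (nat_lit 2) (nat_lit 5) (nat_lit 4) (nat_lit 4) (nat_lit 2) (nat_lit 4) (nat_lit 320) (nat_lit 230) (nat_lit 230))))) (XT.nd (nat_lit 234) (nat_lit 0) (nat_lit 0) (XT.nd (nat_lit 78) (nat_lit 0) (nat_lit 0) (XT.lf (nat_lit 0) (nat_lit 43080971944) (nat_lit 152) (nat_lit 35790491002) (nat_lit 0) (nat_lit 42921298664) (nat_lit 2) (nat_lit 5) (nat_lit 4) (nat_lit 4) (nat_lit 2) (nat_lit 4) (nat_lit 321) (nat_lit 230) (nat_lit 229)) (XT.nd (nat_lit 78) (nat_lit 0) (nat_lit 0) (XT.lf (nat_lit 0) (nat_lit 50235471186) (nat_lit 152) (nat_lit 31177678150) (nat_lit 0) (nat_lit 49927952278) (nat_lit 2) (nat_lit 5) (nat_lit 4) (nat_lit 4) (nat_lit 2) (nat_lit 4) (nat_lit 322) (nat_lit 230) (nat_lit 228)) (XT.lf (nat_lit 0)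 (nat_lit 57778163411) (nat_lit 152) (nat_lit 26550653542) (nat_lit 0) (nat_lit 57333750401) (nat_lit 2) (nat_lit 5) (nat_lit 4) (nat_lit 4) (nat_lit 2) (nat_lit 4) (nat_lit 323) (nat_lit 230) (nat_lit 227)))) (XT.nd (nat_lit 78) (nat_lit 0) (nat_lit 0) (XT.lf (nat_lit 0) (nat_lit 65753746052) (nat_lit 152) (nat_lit 21881997774) (nat_lit 0) (nat_lit 65182579246) (nat_lit 2) (nat_lit 5) (nat_lit 4) (nat_lit 4) (nat_lit 2) (nat_lit 4) (nat_lit 324) (nat_lit 230) (nat_lit 226)) (XT.nd (nat_lit 78) (nat_lit 0) (nat_lit 0) (XT.lf (nat_lit 0) (nat_lit 74209481823) (nat_lit 152) (nat_lit 17144044737) (nat_lit 0) (nat_lit 73520950389) (nat_lit 2) (nat_lit 5) (nat_lit 4) (nat_lit 4) (nat_lit 2) (nat_lit 4) (nat_lit 325) (nat_lit 230) (nat_lit 225)) (XT.lf (nat_lit 0) (nat_lit 83195478787) (nat_lit 152) (nat_lit 12308717674) (nat_lit 0) (nat_lit 82398276402) (nat_lit 2) (nat_lit 5) (nat_lit 4) (nat_lit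 4) (nat_lit 2) (nat_lit 4) (nat_lit 326) (nat_lit 230) (nat_lit 224)))))) (XT.nd (nat_lit 390) (nat_lit 0) (nat_lit 0) (XT.nd (nat_lit 156) (nat_lit 76) (nat_lit 0) (XT.nd (nat_lit 78) (nat_lit 0) (nat_lit 0) (XT.lf (nat_lit 0) (nat_lit 92764987297) (nat_lit 152) (nat_lit 7347362793) (nat_lit 0) (nat_lit 91867163661) (nat_lit 2) (nat_lit 5) (nat_lit 4) (nat_lit 4) (nat_lit 2) (nat_lit 4) (nat_lit 327) (nat_lit 230) (nat_lit 223)) (XT.lf (nat_lit 0) (nat_lit 102974715550) (nat_lit 152) (nat_lit 2230579474) (nat_lit 0) (nat_lit 101983724089) (nat_lit 2) (nat_lit 5) (nat_lit 4) (nat_lit 4) (nat_lit 2) (nat_lit 4) (nat_lit 328) (nat_lit 230) (nat_lit 222))) (XT.nd (nat_lit 78) (nat_lit 0) (nat_lit 0) (XT.lf (nat_lit 0) (nat_lit 3173526633) (nat_lit 76) (nat_lit 110761186652) (nat_lit 76) (nat_lit 109683928686) (nat_lit 1) (nat_lit 4) (nat_lit 2) (nat_lit 5) (nat_lit 2) (nat_lit 4) (nat_lit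 329) (nat_lit 230) (nat_lit 221)) (XT.nd (nat_lit 78) (nat_lit 0) (nat_lit 0) (XT.lf (nat_lit 0) (nat_lit 8875739015) (nat_lit 76) (nat_lit 116823828232) (nat_lit 76) (nat_lit 115666693874) (nat_lit 1) (nat_lit 4) (nat_lit 2) (nat_lit 5) (nat_lit 2) (nat_lit 4) (nat_lit 330) (nat_lit 230) (nat_lit 220)) (XT.lf (nat_lit 0) (nat_lit 14836095528) (nat_lit 76) (nat_lit 123466922475) (nat_lit 76) (nat_lit 122235828493) (nat_lit 1) (nat_lit 4) (nat_lit 2) (nat_lit 5) (nat_lit 2) (nat_lit 4) (nat_lit 331) (nat_lit 230) (nat_lit 219))))) (XT.nd (nat_lit 234) (nat_lit 0) (nat_lit 0) (XT.nd (nat_lit 78) (nat_lit 0) (nat_lit 0) (XT.lf (nat_lit 0) (nat_lit 21089916803) (nat_lit 76) (nat_lit 130729835863) (nat_lit 76) (nat_lit 129430260749) (nat_lit 1) (nat_lit 4) (nat_lit 2) (nat_lit 5) (nat_lit 2) (nat_lit 4) (nat_lit 332) (nat_lit 230) (nat_lit 218)) (XT.nd (nat_lit 78) (nat_lit 0) (nat_lit 0) (XT.lf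 (nat_lit 0) (nat_lit 27674262522) (nat_lit 76) (nat_lit 138655607884) (nat_lit 76) (nat_lit 137292624313) (nat_lit 1) (nat_lit 4) (nat_lit 2) (nat_lit 5) (nat_lit 2) (nat_lit 4) (nat_lit 333) (nat_lit 230) (nat_lit 217)) (XT.lf (nat_lit 0) (nat_lit 34628151029) (nat_lit 76) (nat_lit 147291206075) (nat_lit 76) (nat_lit 145869510971) (nat_lit 1) (nat_lit 4) (nat_lit 2) (nat_lit 5) (nat_lit 2) (nat_lit 4) (nat_lit 334) (nat_lit 230) (nat_lit 216)))) (XT.nd (nat_lit 78) (nat_lit 0) (nat_lit 0) (XT.lf (nat_lit 0) (nat_lit 41992790554) (nat_lit 76) (nat_lit 156687804352) (nat_lit 76) (nat_lit 155211746717) (nat_lit 1) (nat_lit 4) (nat_lit 2) (nat_lit 5) (nat_lit 2) (nat_lit 4) (nat_lit 335) (nat_lit 230) (nat_lit 215)) (XT.nd (nat_lit 78) (nat_lit 0) (nat_lit 0) (XT.lf (nat_lit 0) (nat_lit 49811823404) (nat_lit 76) (nat_lit 166901086259) (nat_lit 76) (nat_lit 165374692948) (nat_lit 1) (nat_lit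 4) (nat_lit 2) (nat_lit 5) (nat_lit 2) (nat_lit 4) (nat_lit 336) (nat_lit 230) (nat_lit 214)) (XT.lf (nat_lit 0) (nat_lit 58131584589) (nat_lit 76) (nat_lit 177991574950) (nat_lit 76) (nat_lit 176418574530) (nat_lit 1) (nat_lit 4) (nat_lit 2) (nat_lit 5) (nat_lit 2) (nat_lit 4) (nat_lit 337) (nat_lit 230) (nat_lit 213))))))))
noncomputable def xc6 : XT := (XT.nd (nat_lit 39624) (nat_lit 0) (nat_lit 0) (XT.nd (nat_lit 780) (nat_lit 0) (nat_lit 0) (XT.nd (nat_lit 390) (nat_lit 0) (nat_lit 0) (XT.nd (nat_lit 156) (nat_lit 0) (nat_lit 0) (XT.nd (nat_lit 78) (nat_lit 0) (nat_lit 0) (XT.lf (nat_lit 0) (nat_lit 67001376397) (nat_lit 76) (nat_lit 190024991839) (nat_lit 76) (nat_lit 188408836689) (nat_lit 1) (nat_lit 4) (nat_lit 2) (nat_lit 5) (nat_lit 2) (nat_lit 4) (nat_lit 338) (nat_lit 230) (nat_lit 212)) (XT.lf (nat_lit 0) (nat_lit 76473760557) (nat_lit 76) (nat_lit 203072646062) (nat_lit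 76) (nat_lit 201416532829) (nat_lit 1) (nat_lit 4) (nat_lit 2) (nat_lit 5) (nat_lit 2) (nat_lit 4) (nat_lit 339) (nat_lit 230) (nat_lit 211))) (XT.nd (nat_lit 78) (nat_lit 0) (nat_lit 0) (XT.lf (nat_lit 0) (nat_lit 86604869717) (nat_lit 76) (nat_lit 217211857052) (nat_lit 76) (nat_lit 215518745593) (nat_lit 1) (nat_lit 4) (nat_lit 2) (nat_lit 5) (nat_lit 2) (nat_lit 4) (nat_lit 340) (nat_lit 230) (nat_lit 210)) (XT.nd (nat_lit 78) (nat_lit 0) (nat_lit 0) (XT.lf (nat_lit 0) (nat_lit 97454740079) (nat_lit 76) (nat_lit 232526412726) (nat_lit 76) (nat_lit 230799043652) (nat_lit 1) (nat_lit 4) (nat_lit 2) (nat_lit 5) (nat_lit 2) (nat_lit 4) (nat_lit 341) (nat_lit 230) (nat_lit 209)) (XT.lf (nat_lit 0) (nat_lit 109087667170) (nat_lit 76) (nat_lit 249107066006) (nat_lit 76) (nat_lit 247347976918) (nat_lit 1) (nat_lit 4) (nat_lit 2) (nat_lit 5) (nat_lit 2) (nat_lit 4) (nat_lit 342) (nat_lit 230)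 (nat_lit 208))))) (XT.nd (nat_lit 156) (nat_lit 0) (nat_lit 0) (XT.nd (nat_lit 78) (nat_lit 0) (nat_lit 0) (XT.lf (nat_lit 0) (nat_lit 121572586856) (nat_lit 76) (nat_lit 267052072617) (nat_lit 76) (nat_lit 265263613144) (nat_lit 1) (nat_lit 4) (nat_lit 2) (nat_lit 5) (nat_lit 2) (nat_lit 4) (nat_lit 343) (nat_lit 230) (nat_lit 207)) (XT.lf (nat_lit 0) (nat_lit 134983483845) (nat_lit 76) (nat_lit 286467773337) (nat_lit 76) (nat_lit 284652119064) (nat_lit 1) (nat_lit 4) (nat_lit 2) (nat_lit 5) (nat_lit 2) (nat_lit 4) (nat_lit 344) (nat_lit 230) (nat_lit 206))) (XT.nd (nat_lit 78) (nat_lit 0) (nat_lit 0) (XT.lf (nat_lit 0) (nat_lit 149399830120) (nat_lit 76) (nat_lit 307469224170) (nat_lit 76) (nat_lit 305628389527) (nat_lit 1) (nat_lit 4) (nat_lit 2) (nat_lit 5) (nat_lit 2) (nat_lit 4) (nat_lit 345) (nat_lit 230) (nat_lit 205)) (XT.nd (nat_lit 78) (nat_lit 0) (nat_lit 0) (XT.lf (nat_lit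 0) (nat_lit 164907055880) (nat_lit 76) (nat_lit 330180878160) (nat_lit 76) (nat_lit 328316728359) (nat_lit 1) (nat_lit 4) (nat_lit 2) (nat_lit 5) (nat_lit 2) (nat_lit 4) (nat_lit 346) (nat_lit 230) (nat_lit 204)) (XT.lf (nat_lit 0) (nat_lit 181597055797) (nat_lit 76) (nat_lit 354737322885) (nat_lit 76) (nat_lit 352851584975) (nat_lit 1) (nat_lit 4) (nat_lit 2) (nat_lit 5) (nat_lit 2) (nat_lit 4) (nat_lit 347) (nat_lit 230) (nat_lit 203)))))) (XT.nd (nat_lit 38376) (nat_lit 0) (nat_lit 76) (XT.nd (nat_lit 156) (nat_lit 0) (nat_lit 0) (XT.nd (nat_lit 78) (nat_lit 0) (nat_lit 0) (XT.lf (nat_lit 0) (nat_lit 199568733574) (nat_lit 76) (nat_lit 381284078017) (nat_lit 76) (nat_lit 379378351117) (nat_lit 1) (nat_lit 4) (nat_lit 2) (nat_lit 5) (nat_lit 2) (nat_lit 4) (nat_lit 348) (nat_lit 230) (nat_lit 202)) (XT.lf (nat_lit 0) (nat_lit 218928588043) (nat_lit 76) (nat_lit 409978457661) (nat_lit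 76) (nat_lit 408054222438) (nat_lit 1) (nat_lit 4) (nat_lit 2) (nat_lit 5) (nat_lit 2) (nat_lit 4) (nat_lit 349) (nat_lit 230) (nat_lit 201))) (XT.nd (nat_lit 78) (nat_lit 0) (nat_lit 0) (XT.lf (nat_lit 0) (nat_lit 239791344266) (nat_lit 76) (nat_lit 440990502586) (nat_lit 76) (nat_lit 439049130025) (nat_lit 1) (nat_lit 4) (nat_lit 2) (nat_lit 5) (nat_lit 2) (nat_lit 4) (nat_lit 350) (nat_lit 230) (nat_lit 200)) (XT.nd (nat_lit 38064) (nat_lit 0) (nat_lit 76) (XT.lf (nat_lit 0) (nat_lit 262280633392) (nat_lit 76) (nat_lit 474503987871) (nat_lit 76) (nat_lit 472546747406) (nat_lit 1) (nat_lit 4) (nat_lit 2) (nat_lit 5) (nat_lit 2) (nat_lit 4) (nat_lit 351) (nat_lit 230) (nat_lit 199)) (XT.lf (nat_lit 0) (nat_lit 11908326403) (nat_lit 152) (nat_lit 24801338179) (nat_lit 0) (nat_lit 11908326403) (nat_lit 2) (nat_lit 5) (nat_lit 4) (nat_lit 4) (nat_lit 2) (nat_lit 4) (nat_lit 318) (nat_lit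 231) (nat_lit 231))))) (XT.nd (nat_lit 234) (nat_lit 0) (nat_lit 0) (XT.nd (nat_lit 78) (nat_lit 0) (nat_lit 0) (XT.lf (nat_lit 0) (nat_lit 29941460577) (nat_lit 152) (nat_lit 45082899961) (nat_lit 0) (nat_lit 29769013435) (nat_lit 2) (nat_lit 5) (nat_lit 4) (nat_lit 4) (nat_lit 2) (nat_lit 4) (nat_lit 319) (nat_lit 231) (nat_lit 230)) (XT.nd (nat_lit 78) (nat_lit 0) (nat_lit 0) (XT.lf (nat_lit 0) (nat_lit 36341440629) (nat_lit 152) (nat_lit 40615395654) (nat_lit 0) (nat_lit 36009320208) (nat_lit 2) (nat_lit 5) (nat_lit 4) (nat_lit 4) (nat_lit 2) (nat_lit 4) (nat_lit 320) (nat_lit 231) (nat_lit 229)) (XT.lf (nat_lit 0) (nat_lit 43054518771) (nat_lit 152) (nat_lit 36173689338) (nat_lit 0) (nat_lit 42574552721) (nat_lit 2) (nat_lit 5) (nat_lit 4) (nat_lit 4) (nat_lit 2) (nat_lit 4) (nat_lit 321) (nat_lit 231) (nat_lit 228)))) (XT.nd (nat_lit 78) (nat_lit 0) (nat_lit 0) (XT.lf (nat_lit 0)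 (nat_lit 50120476207) (nat_lit 152) (nat_lit 31731459789) (nat_lit 0) (nat_lit 49503616056) (nat_lit 2) (nat_lit 5) (nat_lit 4) (nat_lit 4) (nat_lit 2) (nat_lit 4) (nat_lit 322) (nat_lit 231) (nat_lit 227)) (XT.nd (nat_lit 78) (nat_lit 0) (nat_lit 0) (XT.lf (nat_lit 0) (nat_lit 57581185278) (nat_lit 152) (nat_lit 27262382685) (nat_lit 0) (nat_lit 56837571329) (nat_lit 2) (nat_lit 5) (nat_lit 4) (nat_lit 4) (nat_lit 2) (nat_lit 4) (nat_lit 323) (nat_lit 231) (nat_lit 226)) (XT.lf (nat_lit 0) (nat_lit 65480857591) (nat_lit 152) (nat_lit 22739974606) (nat_lit 0) (nat_lit 64619879016) (nat_lit 2) (nat_lit 5) (nat_lit 4) (nat_lit 4) (nat_lit 2) (nat_lit 4) (nat_lit 324) (nat_lit 231) (nat_lit 225))))))) (XT.nd (nat_lit 858) (nat_lit 0) (nat_lit 0) (XT.nd (nat_lit 390) (nat_lit 0) (nat_lit 0) (XT.nd (nat_lit 156) (nat_lit 76) (nat_lit 0) (XT.nd (nat_lit 78) (nat_lit 0) (nat_lit 0) (XT.lf (nat_lit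 0) (nat_lit 73866306022) (nat_lit 152) (nat_lit 18137436097) (nat_lit 0) (nat_lit 72896656495) (nat_lit 2) (nat_lit 5) (nat_lit 4) (nat_lit 4) (nat_lit 2) (nat_lit 4) (nat_lit 325) (nat_lit 231) (nat_lit 224)) (XT.lf (nat_lit 0) (nat_lit 82787222115) (nat_lit 152) (nat_lit 13427492854) (nat_lit 0) (nat_lit 81716951337) (nat_lit 2) (nat_lit 5) (nat_lit 4) (nat_lit 4) (nat_lit 2) (nat_lit 4) (nat_lit 326) (nat_lit 231) (nat_lit 223))) (XT.nd (nat_lit 78) (nat_lit 76) (nat_lit 0) (XT.lf (nat_lit 0) (nat_lit 92296470558) (nat_lit 152) (nat_lit 8582234104) (nat_lit 0) (nat_lit 91133031956) (nat_lit 2) (nat_lit 5) (nat_lit 4) (nat_lit 4) (nat_lit 2) (nat_lit 4) (nat_lit 327) (nat_lit 231) (nat_lit 222)) (XT.nd (nat_lit 78) (nat_lit 76) (nat_lit 0) (XT.lf (nat_lit 0) (nat_lit 102450402454) (nat_lit 152) (nat_lit 3572947203) (nat_lit 0) (nat_lit 101200697347) (nat_lit 2) (nat_lit 5) (nat_lit 4)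 (nat_lit 4) (nat_lit 2) (nat_lit 4) (nat_lit 328) (nat_lit 231) (nat_lit 221)) (XT.lf (nat_lit 0) (nat_lit 1683949411) (nat_lit 76) (nat_lit 111651531009) (nat_lit 76) (nat_lit 110321949509) (nat_lit 1) (nat_lit 4) (nat_lit 2) (nat_lit 5) (nat_lit 2) (nat_lit 4) (nat_lit 329) (nat_lit 231) (nat_lit 220))))) (XT.nd (nat_lit 234) (nat_lit 0) (nat_lit 0) (XT.nd (nat_lit 78) (nat_lit 0) (nat_lit 0) (XT.lf (nat_lit 0) (nat_lit 7290953688) (nat_lit 76) (nat_lit 117760057847) (nat_lit 76) (nat_lit 116356516724) (nat_lit 1) (nat_lit 4) (nat_lit 2) (nat_lit 5) (nat_lit 2) (nat_lit 4) (nat_lit 330) (nat_lit 231) (nat_lit 219)) (XT.nd (nat_lit 78) (nat_lit 0) (nat_lit 0) (XT.lf (nat_lit 0) (nat_lit 13163154547) (nat_lit 76) (nat_lit 124445638439) (nat_lit 76) (nat_lit 122973616183) (nat_lit 1) (nat_lit 4) (nat_lit 2) (nat_lit 5) (nat_lit 2) (nat_lit 4) (nat_lit 331) (nat_lit 231) (nat_lit 218)) (XT.lf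 (nat_lit 0) (nat_lit 19335350217) (nat_lit 76) (nat_lit 131747891039) (nat_lit 76) (nat_lit 130212460327) (nat_lit 1) (nat_lit 4) (nat_lit 2) (nat_lit 5) (nat_lit 2) (nat_lit 4) (nat_lit 332) (nat_lit 231) (nat_lit 217)))) (XT.nd (nat_lit 78) (nat_lit 0) (nat_lit 0) (XT.lf (nat_lit 0) (nat_lit 25844116672) (nat_lit 76) (nat_lit 139710088257) (nat_lit 76) (nat_lit 138115946011) (nat_lit 1) (nat_lit 4) (nat_lit 2) (nat_lit 5) (nat_lit 2) (nat_lit 4) (nat_lit 333) (nat_lit 231) (nat_lit 216)) (XT.nd (nat_lit 78) (nat_lit 0) (nat_lit 0) (XT.lf (nat_lit 0) (nat_lit 32728024380) (nat_lit 76) (nat_lit 148379413482) (nat_lit 76) (nat_lit 146730908705) (nat_lit 1) (nat_lit 4) (nat_lit 2) (nat_lit 5) (nat_lit 2) (nat_lit 4) (nat_lit 334) (nat_lit 231) (nat_lit 215)) (XT.lf (nat_lit 0) (nat_lit 40027866868) (nat_lit 76) (nat_lit 157807240493) (nat_lit 76) (nat_lit 156108400040) (nat_lit 1) (nat_lit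 4) (nat_lit 2) (nat_lit 5) (nat_lit 2) (nat_lit 4) (nat_lit 335) (nat_lit 231) (nat_lit 214)))))) (XT.nd (nat_lit 390) (nat_lit 0) (nat_lit 0) (XT.nd (nat_lit 156) (nat_lit 0) (nat_lit 0) (XT.nd (nat_lit 78) (nat_lit 0) (nat_lit 0) (XT.lf (nat_lit 0) (nat_lit 47786902461) (nat_lit 76) (nat_lit 168049437897) (nat_lit 76) (nat_lit 166303990335) (nat_lit 1) (nat_lit 4) (nat_lit 2) (nat_lit 5) (nat_lit 2) (nat_lit 4) (nat_lit 336) (nat_lit 231) (nat_lit 213)) (XT.lf (nat_lit 0) (nat_lit 56051110631) (nat_lit 76) (nat_lit 179166700194) (nat_lit 76) (nat_lit 177378097903) (nat_lit 1) (nat_lit 4) (nat_lit 2) (nat_lit 5) (nat_lit 2) (nat_lit 4) (nat_lit 337) (nat_lit 231) (nat_lit 212))) (XT.nd (nat_lit 78) (nat_lit 0) (nat_lit 0) (XT.lf (nat_lit 0) (nat_lit 64869464462) (nat_lit 76) (nat_lit 191224907459) (nat_lit 76) (nat_lit 189396347085) (nat_lit 1) (nat_lit 4) (nat_lit 2) (nat_lit 5) (nat_lit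 2) (nat_lit 4) (nat_lit 338) (nat_lit 231) (nat_lit 211)) (XT.nd (nat_lit 78) (nat_lit 0) (nat_lit 0) (XT.lf (nat_lit 0) (nat_lit 74294220866) (nat_lit 76) (nat_lit 204295515735) (nat_lit 76) (nat_lit 202429957135) (nat_lit 1) (nat_lit 4) (nat_lit 2) (nat_lit 5) (nat_lit 2) (nat_lit 4) (nat_lit 339) (nat_lit 231) (nat_lit 210)) (XT.lf (nat_lit 0) (nat_lit 84381230251) (nat_lit 76) (nat_lit 218455980477) (nat_lit 76) (nat_lit 216556164261) (nat_lit 1) (nat_lit 4) (nat_lit 2) (nat_lit 5) (nat_lit 2) (nat_lit 4) (nat_lit 340) (nat_lit 231) (nat_lit 209))))) (XT.nd (nat_lit 234) (nat_lit 0) (nat_lit 0) (XT.nd (nat_lit 78) (nat_lit 0) (nat_lit 0) (XT.lf (nat_lit 0) (nat_lit 95190267489) (nat_lit 76) (nat_lit 233790215552) (nat_lit 76) (nat_lit 231858679321) (nat_lit 1) (nat_lit 4) (nat_lit 2) (nat_lit 5) (nat_lit 2) (nat_lit 4) (nat_lit 341) (nat_lit 231) (nat_lit 208)) (XT.nd (nat_lit 78)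 (nat_lit 0) (nat_lit 0) (XT.lf (nat_lit 0) (nat_lit 106785386131) (nat_lit 76) (nat_lit 250389090499) (nat_lit 76) (nat_lit 248428183885) (nat_lit 1) (nat_lit 4) (nat_lit 2) (nat_lit 5) (nat_lit 2) (nat_lit 4) (nat_lit 342) (nat_lit 231) (nat_lit 207)) (XT.lf (nat_lit 0) (nat_lit 119235297994) (nat_lit 76) (nat_lit 268350969023) (nat_lit 76) (nat_lit 266362867609) (nat_lit 1) (nat_lit 4) (nat_lit 2) (nat_lit 5) (nat_lit 2) (nat_lit 4) (nat_lit 343) (nat_lit 231) (nat_lit 206)))) (XT.nd (nat_lit 78) (nat_lit 0) (nat_lit 0) (XT.lf (nat_lit 0) (nat_lit 132613780333) (nat_lit 76) (nat_lit 287782291886) (nat_lit 76) (nat_lit 285769010101) (nat_lit 1) (nat_lit 4) (nat_lit 2) (nat_lit 5) (nat_lit 2) (nat_lit 4) (nat_lit 344) (nat_lit 231) (nat_lit 205)) (XT.nd (nat_lit 78) (nat_lit 0) (nat_lit 0) (XT.lf (nat_lit 0) (nat_lit 147000113042) (nat_lit 76) (nat_lit 308798207666) (nat_lit 76) (nat_lit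 306761610724) (nat_lit 1) (nat_lit 4) (nat_lit 2) (nat_lit 5) (nat_lit 2) (nat_lit 4) (nat_lit 345) (nat_lit 231) (nat_lit 204)) (XT.lf (nat_lit 0) (nat_lit 162479548463) (nat_lit 76) (nat_lit 331523255125) (nat_lit 76) (nat_lit 329465070074) (nat_lit 1) (nat_lit 4) (nat_lit 2) (nat_lit 5) (nat_lit 2) (nat_lit 4) (nat_lit 346) (nat_lit 231) (nat_lit 203))))))))
noncomputable def xc7 : XT := (XT.nd (nat_lit 39468) (nat_lit 0) (nat_lit 0) (XT.nd (nat_lit 38610) (nat_lit 0) (nat_lit 0) (XT.nd (nat_lit 38220) (nat_lit 0) (nat_lit 76) (XT.nd (nat_lit 156) (nat_lit 0) (nat_lit 0) (XT.nd (nat_lit 78) (nat_lit 0) (nat_lit 0) (XT.lf (nat_lit 0) (nat_lit 179143816586) (nat_lit 76) (nat_lit 356092101210) (nat_lit 76) (nat_lit 354013927169) (nat_lit 1) (nat_lit 4) (nat_lit 2) (nat_lit 5) (nat_lit 2) (nat_lit 4) (nat_lit 347) (nat_lit 231) (nat_lit 202)) (XT.lf (nat_lit 0) (nat_lit 197091668627) (nat_lit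 76) (nat_lit 382650339083) (nat_lit 76) (nat_lit 380553656718) (nat_lit 1) (nat_lit 4) (nat_lit 2) (nat_lit 5) (nat_lit 2) (nat_lit 4) (nat_lit 348) (nat_lit 231) (nat_lit 201))) (XT.nd (nat_lit 78) (nat_lit 0) (nat_lit 0) (XT.lf (nat_lit 0) (nat_lit 216429462229) (nat_lit 76) (nat_lit 411355350895) (nat_lit 76) (nat_lit 409241531193) (nat_lit 1) (nat_lit 4) (nat_lit 2) (nat_lit 5) (nat_lit 2) (nat_lit 4) (nat_lit 349) (nat_lit 231) (nat_lit 200)) (XT.nd (nat_lit 78) (nat_lit 0) (nat_lit 0) (XT.lf (nat_lit 0) (nat_lit 237271791724) (nat_lit 76) (nat_lit 442377240419) (nat_lit 76) (nat_lit 440247552813) (nat_lit 1) (nat_lit 4) (nat_lit 2) (nat_lit 5) (nat_lit 2) (nat_lit 4) (nat_lit 350) (nat_lit 231) (nat_lit 199)) (XT.lf (nat_lit 0) (nat_lit 259742167213) (nat_lit 76) (nat_lit 475899841075) (nat_lit 76) (nat_lit 473755460964) (nat_lit 1) (nat_lit 4) (nat_lit 2) (nat_lit 5) (nat_lit 2)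 (nat_lit 4) (nat_lit 351) (nat_lit 231) (nat_lit 198))))) (XT.nd (nat_lit 156) (nat_lit 0) (nat_lit 0) (XT.nd (nat_lit 78) (nat_lit 0) (nat_lit 0) (XT.lf (nat_lit 0) (nat_lit 6277746059) (nat_lit 152) (nat_lit 29337286320) (nat_lit 0) (nat_lit 6277746059) (nat_lit 2) (nat_lit 5) (nat_lit 4) (nat_lit 4) (nat_lit 2) (nat_lit 4) (nat_lit 316) (nat_lit 232) (nat_lit 232)) (XT.lf (nat_lit 0) (nat_lit 18116965076) (nat_lit 152) (nat_lit 54201508705) (nat_lit 0) (nat_lit 17930722163) (nat_lit 2) (nat_lit 5) (nat_lit 4) (nat_lit 4) (nat_lit 2) (nat_lit 4) (nat_lit 317) (nat_lit 232) (nat_lit 231))) (XT.nd (nat_lit 78) (nat_lit 0) (nat_lit 0) (XT.lf (nat_lit 0) (nat_lit 23891358544) (nat_lit 152) (nat_lit 49817562193) (nat_lit 0) (nat_lit 23532668489) (nat_lit 2) (nat_lit 5) (nat_lit 4) (nat_lit 4) (nat_lit 2) (nat_lit 4) (nat_lit 318) (nat_lit 232) (nat_lit 230)) (XT.nd (nat_lit 78) (nat_lit 0)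 (nat_lit 0) (XT.lf (nat_lit 0) (nat_lit 29912891151) (nat_lit 152) (nat_lit 45496754163) (nat_lit 0) (nat_lit 29394527817) (nat_lit 2) (nat_lit 5) (nat_lit 4) (nat_lit 4) (nat_lit 2) (nat_lit 4) (nat_lit 319) (nat_lit 232) (nat_lit 229)) (XT.lf (nat_lit 0) (nat_lit 36217246052) (nat_lit 152) (nat_lit 41213479825) (nat_lit 0) (nat_lit 35551037089) (nat_lit 2) (nat_lit 5) (nat_lit 4) (nat_lit 4) (nat_lit 2) (nat_lit 4) (nat_lit 320) (nat_lit 232) (nat_lit 228)))))) (XT.nd (nat_lit 390) (nat_lit 76) (nat_lit 0) (XT.nd (nat_lit 156) (nat_lit 0) (nat_lit 0) (XT.nd (nat_lit 78) (nat_lit 0) (nat_lit 0) (XT.lf (nat_lit 0) (nat_lit 42841782388) (nat_lit 152) (nat_lit 36942356813) (nat_lit 0) (nat_lit 42038679323) (nat_lit 2) (nat_lit 5) (nat_lit 4) (nat_lit 4) (nat_lit 2) (nat_lit 4) (nat_lit 321) (nat_lit 232) (nat_lit 227)) (XT.lf (nat_lit 0) (nat_lit 49825756670) (nat_lit 152) (nat_lit 32658074768)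 (nat_lit 0) (nat_lit 48895899808) (nat_lit 2) (nat_lit 5) (nat_lit 4) (nat_lit 4) (nat_lit 2) (nat_lit 4) (nat_lit 322) (nat_lit 232) (nat_lit 226))) (XT.nd (nat_lit 78) (nat_lit 0) (nat_lit 0) (XT.lf (nat_lit 0) (nat_lit 57210555412) (nat_lit 152) (nat_lit 28335245353) (nat_lit 0) (nat_lit 56163333923) (nat_lit 2) (nat_lit 5) (nat_lit 4) (nat_lit 4) (nat_lit 2) (nat_lit 4) (nat_lit 323) (nat_lit 232) (nat_lit 225)) (XT.nd (nat_lit 78) (nat_lit 0) (nat_lit 0) (XT.lf (nat_lit 0) (nat_lit 65039940385) (nat_lit 152) (nat_lit 23948251801) (nat_lit 0) (nat_lit 63884047945) (nat_lit 2) (nat_lit 5) (nat_lit 4) (nat_lit 4) (nat_lit 2) (nat_lit 4) (nat_lit 324) (nat_lit 232) (nat_lit 224)) (XT.lf (nat_lit 0) (nat_lit 73360307944) (nat_lit 152) (nat_lit 19471097113) (nat_lit 0) (nat_lit 72103794253) (nat_lit 2) (nat_lit 5) (nat_lit 4) (nat_lit 4) (nat_lit 2) (nat_lit 4) (nat_lit 325) (nat_lit 232)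 (nat_lit 223))))) (XT.nd (nat_lit 234) (nat_lit 76) (nat_lit 0) (XT.nd (nat_lit 78) (nat_lit 0) (nat_lit 0) (XT.lf (nat_lit 0) (nat_lit 82220963971) (nat_lit 152) (nat_lit 14877250001) (nat_lit 0) (nat_lit 80871282456) (nat_lit 2) (nat_lit 5) (nat_lit 4) (nat_lit 4) (nat_lit 2) (nat_lit 4) (nat_lit 326) (nat_lit 232) (nat_lit 222)) (XT.nd (nat_lit 78) (nat_lit 0) (nat_lit 0) (XT.lf (nat_lit 0) (nat_lit 91674416058) (nat_lit 152) (nat_lit 10139487669) (nat_lit 0) (nat_lit 90238468037) (nat_lit 2) (nat_lit 5) (nat_lit 4) (nat_lit 4) (nat_lit 2) (nat_lit 4) (nat_lit 327) (nat_lit 232) (nat_lit 221)) (XT.lf (nat_lit 0) (nat_lit 101776684660) (nat_lit 152) (nat_lit 5229734486) (nat_lit 0) (nat_lit 100260860247) (nat_lit 2) (nat_lit 5) (nat_lit 4) (nat_lit 4) (nat_lit 2) (nat_lit 4) (nat_lit 328) (nat_lit 232) (nat_lit 220)))) (XT.nd (nat_lit 78) (nat_lit 76) (nat_lit 0) (XT.lf (nat_lit 0) (nat_lit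 112587635074) (nat_lit 152) (nat_lit 118895621) (nat_lit 0) (nat_lit 110997851038) (nat_lit 2) (nat_lit 5) (nat_lit 4) (nat_lit 4) (nat_lit 2) (nat_lit 4) (nat_lit 329) (nat_lit 232) (nat_lit 219)) (XT.nd (nat_lit 78) (nat_lit 0) (nat_lit 0) (XT.lf (nat_lit 0) (nat_lit 5396021775) (nat_lit 76) (nat_lit 118859557438) (nat_lit 76) (nat_lit 117201292269) (nat_lit 1) (nat_lit 4) (nat_lit 2) (nat_lit 5) (nat_lit 2) (nat_lit 4) (nat_lit 330) (nat_lit 232) (nat_lit 218)) (XT.lf (nat_lit 0) (nat_lit 11186597030) (nat_lit 76) (nat_lit 125584477242) (nat_lit 76) (nat_lit 123862803616) (nat_lit 1) (nat_lit 4) (nat_lit 2) (nat_lit 5) (nat_lit 2) (nat_lit 4) (nat_lit 331) (nat_lit 232) (nat_lit 217))))))) (XT.nd (nat_lit 858) (nat_lit 0) (nat_lit 0) (XT.nd (nat_lit 390) (nat_lit 0) (nat_lit 0) (XT.nd (nat_lit 156) (nat_lit 0) (nat_lit 0) (XT.nd (nat_lit 78) (nat_lit 0) (nat_lit 0) (XT.lf (nat_lit 0)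 (nat_lit 17283213436) (nat_lit 76) (nat_lit 132923155039) (nat_lit 76) (nat_lit 131142769880) (nat_lit 1) (nat_lit 4) (nat_lit 2) (nat_lit 5) (nat_lit 2) (nat_lit 4) (nat_lit 332) (nat_lit 232) (nat_lit 216)) (XT.lf (nat_lit 0) (nat_lit 23721999091) (nat_lit 76) (nat_lit 140919079290) (nat_lit 76) (nat_lit 139084331600) (nat_lit 1) (nat_lit 4) (nat_lit 2) (nat_lit 5) (nat_lit 2) (nat_lit 4) (nat_lit 333) (nat_lit 232) (nat_lit 215))) (XT.nd (nat_lit 78) (nat_lit 0) (nat_lit 0) (XT.lf (nat_lit 0) (nat_lit 30541109762) (nat_lit 76) (nat_lit 149619633250) (nat_lit 76) (nat_lit 147734549883) (nat_lit 1) (nat_lit 4) (nat_lit 2) (nat_lit 5) (nat_lit 2) (nat_lit 4) (nat_lit 334) (nat_lit 232) (nat_lit 214)) (XT.nd (nat_lit 78) (nat_lit 0) (nat_lit 0) (XT.lf (nat_lit 0) (nat_lit 37780954994) (nat_lit 76) (nat_lit 159076375757) (nat_lit 76) (nat_lit 157144685282) (nat_lit 1) (nat_lit 4) (nat_lit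 2) (nat_lit 5) (nat_lit 2) (nat_lit 4) (nat_lit 335) (nat_lit 232) (nat_lit 213)) (XT.lf (nat_lit 0) (nat_lit 45484437572) (nat_lit 76) (nat_lit 169345346767) (nat_lit 76) (nat_lit 167370501562) (nat_lit 1) (nat_lit 4) (nat_lit 2) (nat_lit 5) (nat_lit 2) (nat_lit 4) (nat_lit 336) (nat_lit 232) (nat_lit 212))))) (XT.nd (nat_lit 234) (nat_lit 0) (nat_lit 0) (XT.nd (nat_lit 78) (nat_lit 0) (nat_lit 0) (XT.lf (nat_lit 0) (nat_lit 53697207765) (nat_lit 76) (nat_lit 180487399441) (nat_lit 76) (nat_lit 178472596153) (nat_lit 1) (nat_lit 4) (nat_lit 2) (nat_lit 5) (nat_lit 2) (nat_lit 4) (nat_lit 337) (nat_lit 232) (nat_lit 211)) (XT.nd (nat_lit 78) (nat_lit 0) (nat_lit 0) (XT.lf (nat_lit 0) (nat_lit 62467933839) (nat_lit 76) (nat_lit 192568560759) (nat_lit 76) (nat_lit 190516759246) (nat_lit 1) (nat_lit 4) (nat_lit 2) (nat_lit 5) (nat_lit 2) (nat_lit 4) (nat_lit 338) (nat_lit 232) (nat_lit 210))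 (XT.lf (nat_lit 0) (nat_lit 71848590469) (nat_lit 76) (nat_lit 205660422787) (nat_lit 76) (nat_lit 203574363658) (nat_lit 1) (nat_lit 4) (nat_lit 2) (nat_lit 5) (nat_lit 2) (nat_lit 4) (nat_lit 339) (nat_lit 232) (nat_lit 209)))) (XT.nd (nat_lit 78) (nat_lit 0) (nat_lit 0) (XT.lf (nat_lit 0) (nat_lit 81894766729) (nat_lit 76) (nat_lit 219840566929) (nat_lit 76) (nat_lit 217722787786) (nat_lit 1) (nat_lit 4) (nat_lit 2) (nat_lit 5) (nat_lit 2) (nat_lit 4) (nat_lit 340) (nat_lit 232) (nat_lit 208)) (XT.nd (nat_lit 78) (nat_lit 0) (nat_lit 0) (XT.lf (nat_lit 0) (nat_lit 92665995518) (nat_lit 76) (nat_lit 235193023671) (nat_lit 76) (nat_lit 233045874143) (nat_lit 1) (nat_lit 4) (nat_lit 2) (nat_lit 5) (nat_lit 2) (nat_lit 4) (nat_lit 341) (nat_lit 232) (nat_lit 207)) (XT.lf (nat_lit 0) (nat_lit 104226106338) (nat_lit 76) (nat_lit 251808770532) (nat_lit 76) (nat_lit 249634426205) (nat_lit 1)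 (nat_lit 4) (nat_lit 2) (nat_lit 5) (nat_lit 2) (nat_lit 4) (nat_lit 342) (nat_lit 232) (nat_lit 206)))))) (XT.nd (nat_lit 390) (nat_lit 0) (nat_lit 0) (XT.nd (nat_lit 156) (nat_lit 0) (nat_lit 0) (XT.nd (nat_lit 78) (nat_lit 0) (nat_lit 0) (XT.lf (nat_lit 0) (nat_lit 116643603550) (nat_lit 76) (nat_lit 269786271199) (nat_lit 76) (nat_lit 267586746501) (nat_lit 1) (nat_lit 4) (nat_lit 2) (nat_lit 5) (nat_lit 2) (nat_lit 4) (nat_lit 343) (nat_lit 232) (nat_lit 205)) (XT.lf (nat_lit 0) (nat_lit 129992072323) (nat_lit 76) (nat_lit 289232059008) (nat_lit 76) (nat_lit 287009219152) (nat_lit 1) (nat_lit 4) (nat_lit 2) (nat_lit 5) (nat_lit 2) (nat_lit 4) (nat_lit 344) (nat_lit 232) (nat_lit 204))) (XT.nd (nat_lit 78) (nat_lit 0) (nat_lit 0) (XT.lf (nat_lit 0) (nat_lit 144350614693) (nat_lit 76) (nat_lit 310261368258) (nat_lit 76) (nat_lit 308016940293) (nat_lit 1) (nat_lit 4) (nat_lit 2) (nat_lit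 5) (nat_lit 2) (nat_lit 4) (nat_lit 345) (nat_lit 232) (nat_lit 203)) (XT.nd (nat_lit 78) (nat_lit 0) (nat_lit 0) (XT.lf (nat_lit 0) (nat_lit 159804318320) (nat_lit 76) (nat_lit 332998817077) (nat_lit 76) (nat_lit 330734400122) (nat_lit 1) (nat_lit 4) (nat_lit 2) (nat_lit 5) (nat_lit 2) (nat_lit 4) (nat_lit 346) (nat_lit 232) (nat_lit 202)) (XT.lf (nat_lit 0) (nat_lit 176444760707) (nat_lit 76) (nat_lit 357579145903) (nat_lit 76) (nat_lit 355296220625) (nat_lit 1) (nat_lit 4) (nat_lit 2) (nat_lit 5) (nat_lit 2) (nat_lit 4) (nat_lit 347) (nat_lit 232) (nat_lit 201))))) (XT.nd (nat_lit 234) (nat_lit 0) (nat_lit 0) (XT.nd (nat_lit 78) (nat_lit 0) (nat_lit 0) (XT.lf (nat_lit 0) (nat_lit 194370551881) (nat_lit 76) (nat_lit 384148015944) (nat_lit 76) (nat_lit 381847953328) (nat_lit 1) (nat_lit 4) (nat_lit 2) (nat_lit 5) (nat_lit 2) (nat_lit 4) (nat_lit 348) (nat_lit 232) (nat_lit 200)) (XT.nd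 (nat_lit 78) (nat_lit 0) (nat_lit 0) (XT.lf (nat_lit 0) (nat_lit 213687918755) (nat_lit 76) (nat_lit 412862872355) (nat_lit 76) (nat_lit 410546941835) (nat_lit 1) (nat_lit 4) (nat_lit 2) (nat_lit 5) (nat_lit 2) (nat_lit 4) (nat_lit 349) (nat_lit 232) (nat_lit 199)) (XT.lf (nat_lit 0) (nat_lit 234511334612) (nat_lit 76) (nat_lit 443893877250) (nat_lit 76) (nat_lit 441563254225) (nat_lit 1) (nat_lit 4) (nat_lit 2) (nat_lit 5) (nat_lit 2) (nat_lit 4) (nat_lit 350) (nat_lit 232) (nat_lit 198)))) (XT.nd (nat_lit 37752) (nat_lit 0) (nat_lit 76) (XT.lf (nat_lit 0) (nat_lit 256964197474) (nat_lit 76) (nat_lit 477424918063) (nat_lit 76) (nat_lit 475080690868) (nat_lit 1) (nat_lit 4) (nat_lit 2) (nat_lit 5) (nat_lit 2) (nat_lit 4) (nat_lit 351) (nat_lit 232) (nat_lit 197)) (XT.nd (nat_lit 78) (nat_lit 0) (nat_lit 0) (XT.lf (nat_lit 0) (nat_lit 1135892992) (nat_lit 152) (nat_lit 33872061652) (nat_lit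 0) (nat_lit 1135892992) (nat_lit 2) (nat_lit 5) (nat_lit 4) (nat_lit 4) (nat_lit 2) (nat_lit 4) (nat_lit 314) (nat_lit 233) (nat_lit 233)) (XT.lf (nat_lit 0) (nat_lit 7375125139) (nat_lit 152) (nat_lit 63263261044) (nat_lit 0) (nat_lit 7173982793) (nat_lit 2) (nat_lit 5) (nat_lit 4) (nat_lit 4) (nat_lit 2) (nat_lit 4) (nat_lit 315) (nat_lit 233) (nat_lit 232))))))))
noncomputable def xc8 : XT := (XT.nd (nat_lit 1638) (nat_lit 0) (nat_lit 0) (XT.nd (nat_lit 780) (nat_lit 76) (nat_lit 0) (XT.nd (nat_lit 390) (nat_lit 0) (nat_lit 0) (XT.nd (nat_lit 156) (nat_lit 0) (nat_lit 0) (XT.nd (nat_lit 78) (nat_lit 0) (nat_lit 0) (XT.lf (nat_lit 0) (nat_lit 12636174313) (nat_lit 152) (nat_lit 58906649342) (nat_lit 0) (nat_lit 12248789054) (nat_lit 2) (nat_lit 5) (nat_lit 4) (nat_lit 4) (nat_lit 2) (nat_lit 4) (nat_lit 316) (nat_lit 233) (nat_lit 231)) (XT.lf (nat_lit 0) (nat_lit 18086110096) (nat_lit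 152) (nat_lit 54648471243) (nat_lit 0) (nat_lit 17526277694) (nat_lit 2) (nat_lit 5) (nat_lit 4) (nat_lit 4) (nat_lit 2) (nat_lit 4) (nat_lit 317) (nat_lit 233) (nat_lit 230))) (XT.nd (nat_lit 78) (nat_lit 0) (nat_lit 0) (XT.lf (nat_lit 0) (nat_lit 23757228401) (nat_lit 152) (nat_lit 50463493098) (nat_lit 0) (nat_lit 23037722720) (nat_lit 2) (nat_lit 5) (nat_lit 4) (nat_lit 4) (nat_lit 2) (nat_lit 4) (nat_lit 318) (nat_lit 233) (nat_lit 229)) (XT.nd (nat_lit 78) (nat_lit 0) (nat_lit 0) (XT.lf (nat_lit 0) (nat_lit 29683135857) (nat_lit 152) (nat_lit 46326915036) (nat_lit 0) (nat_lit 28815784547) (nat_lit 2) (nat_lit 5) (nat_lit 4) (nat_lit 4) (nat_lit 2) (nat_lit 4) (nat_lit 319) (nat_lit 233) (nat_lit 228)) (XT.lf (nat_lit 0) (nat_lit 35898948951) (nat_lit 152) (nat_lit 42214224002) (nat_lit 0) (nat_lit 34894703541) (nat_lit 2) (nat_lit 5) (nat_lit 4) (nat_lit 4) (nat_lit 2) (nat_lit 4)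 (nat_lit 320) (nat_lit 233) (nat_lit 227))))) (XT.nd (nat_lit 156) (nat_lit 0) (nat_lit 0) (XT.nd (nat_lit 78) (nat_lit 0) (nat_lit 0) (XT.lf (nat_lit 0) (nat_lit 42441502133) (nat_lit 152) (nat_lit 38101048494) (nat_lit 0) (nat_lit 41310502925) (nat_lit 2) (nat_lit 5) (nat_lit 4) (nat_lit 4) (nat_lit 2) (nat_lit 4) (nat_lit 321) (nat_lit 233) (nat_lit 226)) (XT.lf (nat_lit 0) (nat_lit 49349566087) (nat_lit 152) (nat_lit 33963014139) (nat_lit 0) (nat_lit 48101202252) (nat_lit 2) (nat_lit 5) (nat_lit 4) (nat_lit 4) (nat_lit 2) (nat_lit 4) (nat_lit 322) (nat_lit 233) (nat_lit 225))) (XT.nd (nat_lit 78) (nat_lit 0) (nat_lit 0) (XT.lf (nat_lit 0) (nat_lit 56664077488) (nat_lit 152) (nat_lit 29775599251) (nat_lit 0) (nat_lit 55307042702) (nat_lit 2) (nat_lit 5) (nat_lit 4) (nat_lit 4) (nat_lit 2) (nat_lit 4) (nat_lit 323) (nat_lit 233) (nat_lit 224)) (XT.nd (nat_lit 78) (nat_lit 0) (nat_lit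 0) (XT.lf (nat_lit 0) (nat_lit 64428381590) (nat_lit 152) (nat_lit 25513989520) (nat_lit 0) (nat_lit 62970725553) (nat_lit 2) (nat_lit 5) (nat_lit 4) (nat_lit 4) (nat_lit 2) (nat_lit 4) (nat_lit 324) (nat_lit 233) (nat_lit 223)) (XT.lf (nat_lit 0) (nat_lit 72688489084) (nat_lit 152) (nat_lit 21152930962) (nat_lit 0) (nat_lit 71137665222) (nat_lit 2) (nat_lit 5) (nat_lit 4) (nat_lit 4) (nat_lit 2) (nat_lit 4) (nat_lit 325) (nat_lit 233) (nat_lit 222)))))) (XT.nd (nat_lit 390) (nat_lit 0) (nat_lit 0) (XT.nd (nat_lit 156) (nat_lit 76) (nat_lit 0) (XT.nd (nat_lit 78) (nat_lit 0) (nat_lit 0) (XT.lf (nat_lit 0) (nat_lit 81493348754) (nat_lit 152) (nat_lit 16666580268) (nat_lit 0) (nat_lit 79856258387) (nat_lit 2) (nat_lit 5) (nat_lit 4) (nat_lit 4) (nat_lit 2) (nat_lit 4) (nat_lit 326) (nat_lit 233) (nat_lit 221)) (XT.lf (nat_lit 0) (nat_lit 90895137546) (nat_lit 152) (nat_lit 12028351655) (nat_lit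 0) (nat_lit 89178170787) (nat_lit 2) (nat_lit 5) (nat_lit 4) (nat_lit 4) (nat_lit 2) (nat_lit 4) (nat_lit 327) (nat_lit 233) (nat_lit 220))) (XT.nd (nat_lit 78) (nat_lit 76) (nat_lit 0) (XT.lf (nat_lit 0) (nat_lit 100949569766) (nat_lit 152) (nat_lit 7210759324) (nat_lit 0) (nat_lit 99158643383) (nat_lit 2) (nat_lit 5) (nat_lit 4) (nat_lit 4) (nat_lit 2) (nat_lit 4) (nat_lit 328) (nat_lit 233) (nat_lit 219)) (XT.nd (nat_lit 78) (nat_lit 76) (nat_lit 0) (XT.lf (nat_lit 0) (nat_lit 111716227233) (nat_lit 152) (nat_lit 2185254581) (nat_lit 0) (nat_lit 109856819717) (nat_lit 2) (nat_lit 5) (nat_lit 4) (nat_lit 4) (nat_lit 2) (nat_lit 4) (nat_lit 329) (nat_lit 233) (nat_lit 218)) (XT.lf (nat_lit 0) (nat_lit 3179714051) (nat_lit 76) (nat_lit 120128842557) (nat_lit 76) (nat_lit 118206026586) (nat_lit 1) (nat_lit 4) (nat_lit 2) (nat_lit 5) (nat_lit 2) (nat_lit 4) (nat_lit 330) (nat_lit 233) (nat_lit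 217))))) (XT.nd (nat_lit 234) (nat_lit 0) (nat_lit 0) (XT.nd (nat_lit 78) (nat_lit 0) (nat_lit 0) (XT.lf (nat_lit 0) (nat_lit 8894710042) (nat_lit 76) (nat_lit 126890187557) (nat_lit 76) (nat_lit 124908660052) (nat_lit 1) (nat_lit 4) (nat_lit 2) (nat_lit 5) (nat_lit 2) (nat_lit 4) (nat_lit 331) (nat_lit 233) (nat_lit 216)) (XT.nd (nat_lit 78) (nat_lit 0) (nat_lit 0) (XT.lf (nat_lit 0) (nat_lit 14921345649) (nat_lit 76) (nat_lit 134262592388) (nat_lit 76) (nat_lit 132226702352) (nat_lit 1) (nat_lit 4) (nat_lit 2) (nat_lit 5) (nat_lit 2) (nat_lit 4) (nat_lit 332) (nat_lit 233) (nat_lit 215)) (XT.lf (nat_lit 0) (nat_lit 21295334267) (nat_lit 76) (nat_lit 142289745374) (nat_lit 76) (nat_lit 140203519661) (nat_lit 1) (nat_lit 4) (nat_lit 2) (nat_lit 5) (nat_lit 2) (nat_lit 4) (nat_lit 333) (nat_lit 233) (nat_lit 214)))) (XT.nd (nat_lit 78) (nat_lit 0) (nat_lit 0) (XT.lf (nat_lit 0) (nat_lit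 28054447682) (nat_lit 76) (nat_lit 151019214830) (nat_lit 76) (nat_lit 148886382009) (nat_lit 1) (nat_lit 4) (nat_lit 2) (nat_lit 5) (nat_lit 2) (nat_lit 4) (nat_lit 334) (nat_lit 233) (nat_lit 213)) (XT.nd (nat_lit 78) (nat_lit 0) (nat_lit 0) (XT.lf (nat_lit 0) (nat_lit 35238739898) (nat_lit 76) (nat_lit 160502730944) (nat_lit 76) (nat_lit 158326743393) (nat_lit 1) (nat_lit 4) (nat_lit 2) (nat_lit 5) (nat_lit 2) (nat_lit 4) (nat_lit 335) (nat_lit 233) (nat_lit 212)) (XT.lf (nat_lit 0) (nat_lit 42890784499) (nat_lit 76) (nat_lit 170796492331) (nat_lit 76) (nat_lit 168580546696) (nat_lit 1) (nat_lit 4) (nat_lit 2) (nat_lit 5) (nat_lit 2) (nat_lit 4) (nat_lit 336) (nat_lit 233) (nat_lit 211))))))) (XT.nd (nat_lit 858) (nat_lit 0) (nat_lit 0) (XT.nd (nat_lit 390) (nat_lit 0) (nat_lit 0) (XT.nd (nat_lit 156) (nat_lit 0) (nat_lit 0) (XT.nd (nat_lit 78) (nat_lit 0) (nat_lit 0) (XT.lf (nat_lit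 0) (nat_lit 51055926935) (nat_lit 76) (nat_lit 181961499057) (nat_lit 76) (nat_lit 179708555198) (nat_lit 1) (nat_lit 4) (nat_lit 2) (nat_lit 5) (nat_lit 2) (nat_lit 4) (nat_lit 337) (nat_lit 233) (nat_lit 210)) (XT.lf (nat_lit 0) (nat_lit 59782553235) (nat_lit 76) (nat_lit 194063914127) (nat_lit 76) (nat_lit 191776712652) (nat_lit 1) (nat_lit 4) (nat_lit 2) (nat_lit 5) (nat_lit 2) (nat_lit 4) (nat_lit 338) (nat_lit 233) (nat_lit 209))) (XT.nd (nat_lit 78) (nat_lit 0) (nat_lit 0) (XT.lf (nat_lit 0) (nat_lit 69122376740) (nat_lit 76) (nat_lit 207175455556) (nat_lit 76) (nat_lit 204856534066) (nat_lit 1) (nat_lit 4) (nat_lit 2) (nat_lit 5) (nat_lit 2) (nat_lit 4) (nat_lit 339) (nat_lit 233) (nat_lit 208)) (XT.nd (nat_lit 78) (nat_lit 0) (nat_lit 0) (XT.lf (nat_lit 0) (nat_lit 79130744552) (nat_lit 76) (nat_lit 221373821365) (nat_lit 76) (nat_lit 219025529491) (nat_lit 1) (nat_lit 4) (nat_lit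 2) (nat_lit 5) (nat_lit 2) (nat_lit 4) (nat_lit 340) (nat_lit 233) (nat_lit 207)) (XT.lf (nat_lit 0) (nat_lit 89866965518) (nat_lit 76) (nat_lit 236743150020) (nat_lit 76) (nat_lit 234367663347) (nat_lit 1) (nat_lit 4) (nat_lit 2) (nat_lit 5) (nat_lit 2) (nat_lit 4) (nat_lit 341) (nat_lit 233) (nat_lit 206))))) (XT.nd (nat_lit 234) (nat_lit 0) (nat_lit 0) (XT.nd (nat_lit 78) (nat_lit 0) (nat_lit 0) (XT.lf (nat_lit 0) (nat_lit 101394661687) (nat_lit 76) (nat_lit 253374519024) (nat_lit 76) (nat_lit 250973851980) (nat_lit 1) (nat_lit 4) (nat_lit 2) (nat_lit 5) (nat_lit 2) (nat_lit 4) (nat_lit 342) (nat_lit 233) (nat_lit 205)) (XT.nd (nat_lit 78) (nat_lit 0) (nat_lit 0) (XT.lf (nat_lit 0) (nat_lit 113782145334) (nat_lit 76) (nat_lit 271366484637) (nat_lit 76) (nat_lit 268942502436) (nat_lit 1) (nat_lit 4) (nat_lit 2) (nat_lit 5) (nat_lit 2) (nat_lit 4) (nat_lit 343) (nat_lit 233) (nat_lit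 204)) (XT.lf (nat_lit 0) (nat_lit 127102823768) (nat_lit 76) (nat_lit 290825665916) (nat_lit 76) (nat_lit 288380095605) (nat_lit 1) (nat_lit 4) (nat_lit 2) (nat_lit 5) (nat_lit 2) (nat_lit 4) (nat_lit 344) (nat_lit 233) (nat_lit 203)))) (XT.nd (nat_lit 78) (nat_lit 0) (nat_lit 0) (XT.lf (nat_lit 0) (nat_lit 141435634344) (nat_lit 76) (nat_lit 311867376526) (nat_lit 76) (nat_lit 309401817225) (nat_lit 1) (nat_lit 4) (nat_lit 2) (nat_lit 5) (nat_lit 2) (nat_lit 4) (nat_lit 345) (nat_lit 233) (nat_lit 202)) (XT.nd (nat_lit 78) (nat_lit 0) (nat_lit 0) (XT.lf (nat_lit 0) (nat_lit 156865512235) (nat_lit 76) (nat_lit 334616308086) (nat_lit 76) (nat_lit 332132240461) (nat_lit 1) (nat_lit 4) (nat_lit 2) (nat_lit 5) (nat_lit 2) (nat_lit 4) (nat_lit 346) (nat_lit 233) (nat_lit 201)) (XT.lf (nat_lit 0) (nat_lit 173483893755) (nat_lit 76) (nat_lit 359207269080) (nat_lit 76) (nat_lit 356706064118) (nat_lit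 1) (nat_lit 4) (nat_lit 2) (nat_lit 5) (nat_lit 2) (nat_lit 4) (nat_lit 347) (nat_lit 233) (nat_lit 200)))))) (XT.nd (nat_lit 37908) (nat_lit 0) (nat_lit 76) (XT.nd (nat_lit 156) (nat_lit 0) (nat_lit 0) (XT.nd (nat_lit 78) (nat_lit 0) (nat_lit 0) (XT.lf (nat_lit 0) (nat_lit 191389258201) (nat_lit 76) (nat_lit 385785983720) (nat_lit 76) (nat_lit 383268910854) (nat_lit 1) (nat_lit 4) (nat_lit 2) (nat_lit 5) (nat_lit 2) (nat_lit 4) (nat_lit 348) (nat_lit 233) (nat_lit 199)) (XT.lf (nat_lit 0) (nat_lit 210687711437) (nat_lit 76) (nat_lit 414509955502) (nat_lit 76) (nat_lit 411978190132) (nat_lit 1) (nat_lit 4) (nat_lit 2) (nat_lit 5) (nat_lit 2) (nat_lit 4) (nat_lit 349) (nat_lit 233) (nat_lit 198))) (XT.nd (nat_lit 78) (nat_lit 0) (nat_lit 0) (XT.lf (nat_lit 0) (nat_lit 231493614667) (nat_lit 76) (nat_lit 445549400554) (nat_lit 76) (nat_lit 443004031013) (nat_lit 1) (nat_lit 4) (nat_lit 2)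 (nat_lit 5) (nat_lit 2) (nat_lit 4) (nat_lit 350) (nat_lit 233) (nat_lit 197)) (XT.nd (nat_lit 37596) (nat_lit 0) (nat_lit 228) (XT.lf (nat_lit 0) (nat_lit 253930262133) (nat_lit 76) (nat_lit 479088256328) (nat_lit 76) (nat_lit 476530290332) (nat_lit 1) (nat_lit 4) (nat_lit 2) (nat_lit 5) (nat_lit 2) (nat_lit 4) (nat_lit 351) (nat_lit 233) (nat_lit 196)) (XT.lf (nat_lit 0) (nat_lit 24114178370) (nat_lit 76) (nat_lit 3553858270) (nat_lit 76) (nat_lit 3553858270) (nat_lit 4) (nat_lit 4) (nat_lit 5) (nat_lit 5) (nat_lit 5) (nat_lit 4) (nat_lit 312) (nat_lit 234) (nat_lit 234))))) (XT.nd (nat_lit 234) (nat_lit 0) (nat_lit 0) (XT.nd (nat_lit 78) (nat_lit 152) (nat_lit 0) (XT.lf (nat_lit 0) (nat_lit 62069467862) (nat_lit 76) (nat_lit 2667653611) (nat_lit 76) (nat_lit 2439558190) (nat_lit 4) (nat_lit 4) (nat_lit 5) (nat_lit 5) (nat_lit 5) (nat_lit 4) (nat_lit 313) (nat_lit 234) (nat_lit 233))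 (XT.nd (nat_lit 78) (nat_lit 0) (nat_lit 0) (XT.lf (nat_lit 0) (nat_lit 2358922756) (nat_lit 152) (nat_lit 67994766144) (nat_lit 0) (nat_lit 1940546676) (nat_lit 2) (nat_lit 5) (nat_lit 4) (nat_lit 4) (nat_lit 2) (nat_lit 4) (nat_lit 314) (nat_lit 234) (nat_lit 232)) (XT.lf (nat_lit 0) (nat_lit 7341801760) (nat_lit 152) (nat_lit 63745980585) (nat_lit 0) (nat_lit 6737182767) (nat_lit 2) (nat_lit 5) (nat_lit 4) (nat_lit 4) (nat_lit 2) (nat_lit 4) (nat_lit 315) (nat_lit 234) (nat_lit 231)))) (XT.nd (nat_lit 78) (nat_lit 0) (nat_lit 0) (XT.lf (nat_lit 0) (nat_lit 12491313759) (nat_lit 152) (nat_lit 59604254719) (nat_lit 0) (nat_lit 11714247624) (nat_lit 2) (nat_lit 5) (nat_lit 4) (nat_lit 4) (nat_lit 2) (nat_lit 4) (nat_lit 316) (nat_lit 234) (nat_lit 230)) (XT.nd (nat_lit 78) (nat_lit 0) (nat_lit 0) (XT.lf (nat_lit 0) (nat_lit 17837974378) (nat_lit 152) (nat_lit 55545044986) (nat_lit 0) (nat_lit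 16901234963) (nat_lit 2) (nat_lit 5) (nat_lit 4) (nat_lit 4) (nat_lit 2) (nat_lit 4) (nat_lit 317) (nat_lit 234) (nat_lit 229)) (XT.lf (nat_lit 0) (nat_lit 23413467532) (nat_lit 152) (nat_lit 51544296809) (nat_lit 0) (nat_lit 22328882488) (nat_lit 2) (nat_lit 5) (nat_lit 4) (nat_lit 4) (nat_lit 2) (nat_lit 4) (nat_lit 318) (nat_lit 234) (nat_lit 228))))))))
noncomputable def xc9 : XT := (XT.nd (nat_lit 1638) (nat_lit 0) (nat_lit 0) (XT.nd (nat_lit 780) (nat_lit 76) (nat_lit 0) (XT.nd (nat_lit 390) (nat_lit 0) (nat_lit 0) (XT.nd (nat_lit 156) (nat_lit 0) (nat_lit 0) (XT.nd (nat_lit 78) (nat_lit 0) (nat_lit 0) (XT.lf (nat_lit 0) (nat_lit 29250833181) (nat_lit 152) (nat_lit 47578302052) (nat_lit 0) (nat_lit 28029354037) (nat_lit 2) (nat_lit 5) (nat_lit 4) (nat_lit 4) (nat_lit 2) (nat_lit 4) (nat_lit 319) (nat_lit 234) (nat_lit 227)) (XT.lf (nat_lit 0) (nat_lit 35384663122) (nat_lit 152) (nat_lit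 43623558522) (nat_lit 0) (nat_lit 34036430180) (nat_lit 2) (nat_lit 5) (nat_lit 4) (nat_lit 4) (nat_lit 2) (nat_lit 4) (nat_lit 320) (nat_lit 234) (nat_lit 226))) (XT.nd (nat_lit 78) (nat_lit 0) (nat_lit 0) (XT.lf (nat_lit 0) (nat_lit 41851305975) (nat_lit 152) (nat_lit 39656630703) (nat_lit 0) (nat_lit 40385708406) (nat_lit 2) (nat_lit 5) (nat_lit 4) (nat_lit 4) (nat_lit 2) (nat_lit 4) (nat_lit 321) (nat_lit 234) (nat_lit 225)) (XT.nd (nat_lit 78) (nat_lit 0) (nat_lit 0) (XT.lf (nat_lit 0) (nat_lit 48689082588) (nat_lit 152) (nat_lit 35654010875) (nat_lit 0) (nat_lit 47114814069) (nat_lit 2) (nat_lit 5) (nat_lit 4) (nat_lit 4) (nat_lit 2) (nat_lit 4) (nat_lit 322) (nat_lit 234) (nat_lit 224)) (XT.lf (nat_lit 0) (nat_lit 55938513119) (nat_lit 152) (nat_lit 31591979808) (nat_lit 0) (nat_lit 54263623348) (nat_lit 2) (nat_lit 5) (nat_lit 4) (nat_lit 4) (nat_lit 2) (nat_lit 4) (nat_lit 323)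 (nat_lit 234) (nat_lit 223))))) (XT.nd (nat_lit 156) (nat_lit 0) (nat_lit 0) (XT.nd (nat_lit 78) (nat_lit 0) (nat_lit 0) (XT.lf (nat_lit 0) (nat_lit 63642557155) (nat_lit 152) (nat_lit 27446466208) (nat_lit 0) (nat_lit 61874499560) (nat_lit 2) (nat_lit 5) (nat_lit 4) (nat_lit 4) (nat_lit 2) (nat_lit 4) (nat_lit 324) (nat_lit 234) (nat_lit 222)) (XT.lf (nat_lit 0) (nat_lit 71846868292) (nat_lit 152) (nat_lit 23192904067) (nat_lit 0) (nat_lit 69992544191) (nat_lit 2) (nat_lit 5) (nat_lit 4) (nat_lit 4) (nat_lit 2) (nat_lit 4) (nat_lit 325) (nat_lit 234) (nat_lit 221))) (XT.nd (nat_lit 78) (nat_lit 0) (nat_lit 0) (XT.lf (nat_lit 0) (nat_lit 80600064668) (nat_lit 152) (nat_lit 18806087093) (nat_lit 0) (nat_lit 78665864174) (nat_lit 2) (nat_lit 5) (nat_lit 4) (nat_lit 4) (nat_lit 2) (nat_lit 4) (nat_lit 326) (nat_lit 234) (nat_lit 220)) (XT.nd (nat_lit 78) (nat_lit 0) (nat_lit 0) (XT.lf (nat_lit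 0) (nat_lit 89954017078) (nat_lit 152) (nat_lit 14260019331) (nat_lit 0) (nat_lit 87945856961) (nat_lit 2) (nat_lit 5) (nat_lit 4) (nat_lit 4) (nat_lit 2) (nat_lit 4) (nat_lit 327) (nat_lit 234) (nat_lit 219)) (XT.lf (nat_lit 0) (nat_lit 99964156350) (nat_lit 152) (nat_lit 9527761123) (nat_lit 0) (nat_lit 97887515100) (nat_lit 2) (nat_lit 5) (nat_lit 4) (nat_lit 4) (nat_lit 2) (nat_lit 4) (nat_lit 328) (nat_lit 234) (nat_lit 218)))))) (XT.nd (nat_lit 390) (nat_lit 0) (nat_lit 0) (XT.nd (nat_lit 156) (nat_lit 0) (nat_lit 0) (XT.nd (nat_lit 78) (nat_lit 76) (nat_lit 0) (XT.lf (nat_lit 0) (nat_lit 110689801828) (nat_lit 152) (nat_lit 4581269455) (nat_lit 0) (nat_lit 108549752123) (nat_lit 2) (nat_lit 5) (nat_lit 4) (nat_lit 4) (nat_lit 2) (nat_lit 4) (nat_lit 329) (nat_lit 234) (nat_lit 217)) (XT.lf (nat_lit 0) (nat_lit 628896841) (nat_lit 76) (nat_lit 121575434895) (nat_lit 76) (nat_lit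 119376673656) (nat_lit 1) (nat_lit 4) (nat_lit 2) (nat_lit 5) (nat_lit 2) (nat_lit 4) (nat_lit 330) (nat_lit 234) (nat_lit 216))) (XT.nd (nat_lit 78) (nat_lit 0) (nat_lit 0) (XT.lf (nat_lit 0) (nat_lit 6273912032) (nat_lit 76) (nat_lit 128370506929) (nat_lit 76) (nat_lit 126117383159) (nat_lit 1) (nat_lit 4) (nat_lit 2) (nat_lit 5) (nat_lit 2) (nat_lit 4) (nat_lit 331) (nat_lit 234) (nat_lit 215)) (XT.nd (nat_lit 78) (nat_lit 0) (nat_lit 0) (XT.lf (nat_lit 0) (nat_lit 12235750601) (nat_lit 76) (nat_lit 135774140495) (nat_lit 76) (nat_lit 133470681048) (nat_lit 1) (nat_lit 4) (nat_lit 2) (nat_lit 5) (nat_lit 2) (nat_lit 4) (nat_lit 332) (nat_lit 234) (nat_lit 214)) (XT.lf (nat_lit 0) (nat_lit 18549741963) (nat_lit 76) (nat_lit 143830208976) (nat_lit 76) (nat_lit 141480142421) (nat_lit 1) (nat_lit 4) (nat_lit 2) (nat_lit 5) (nat_lit 2) (nat_lit 4) (nat_lit 333) (nat_lit 234) (nat_lit 213)))))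 (XT.nd (nat_lit 234) (nat_lit 0) (nat_lit 0) (XT.nd (nat_lit 78) (nat_lit 0) (nat_lit 0) (XT.lf (nat_lit 0) (nat_lit 25253302363) (nat_lit 76) (nat_lit 152586452038) (nat_lit 76) (nat_lit 150193230754) (nat_lit 1) (nat_lit 4) (nat_lit 2) (nat_lit 5) (nat_lit 2) (nat_lit 4) (nat_lit 334) (nat_lit 234) (nat_lit 212)) (XT.nd (nat_lit 78) (nat_lit 0) (nat_lit 0) (XT.lf (nat_lit 0) (nat_lit 32386156602) (nat_lit 76) (nat_lit 162094758529) (nat_lit 76) (nat_lit 159661579161) (nat_lit 1) (nat_lit 4) (nat_lit 2) (nat_lit 5) (nat_lit 2) (nat_lit 4) (nat_lit 335) (nat_lit 234) (nat_lit 211)) (XT.lf (nat_lit 0) (nat_lit 39990573447) (nat_lit 76) (nat_lit 172411473968) (nat_lit 76) (nat_lit 169941296375) (nat_lit 1) (nat_lit 4) (nat_lit 2) (nat_lit 5) (nat_lit 2) (nat_lit 4) (nat_lit 336) (nat_lit 234) (nat_lit 210)))) (XT.nd (nat_lit 78) (nat_lit 0) (nat_lit 0) (XT.lf (nat_lit 0) (nat_lit 48111616109)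 (nat_lit 76) (nat_lit 183597734448) (nat_lit 76) (nat_lit 181093299239) (nat_lit 1) (nat_lit 4) (nat_lit 2) (nat_lit 5) (nat_lit 2) (nat_lit 4) (nat_lit 337) (nat_lit 234) (nat_lit 209)) (XT.nd (nat_lit 78) (nat_lit 0) (nat_lit 0) (XT.lf (nat_lit 0) (nat_lit 56797409284) (nat_lit 76) (nat_lit 195719828918) (nat_lit 76) (nat_lit 193183673694) (nat_lit 1) (nat_lit 4) (nat_lit 2) (nat_lit 5) (nat_lit 2) (nat_lit 4) (nat_lit 338) (nat_lit 234) (nat_lit 208)) (XT.lf (nat_lit 0) (nat_lit 66099424341) (nat_lit 76) (nat_lit 208849592013) (nat_lit 76) (nat_lit 206284066405) (nat_lit 1) (nat_lit 4) (nat_lit 2) (nat_lit 5) (nat_lit 2) (nat_lit 4) (nat_lit 339) (nat_lit 234) (nat_lit 207))))))) (XT.nd (nat_lit 38298) (nat_lit 0) (nat_lit 76) (XT.nd (nat_lit 390) (nat_lit 0) (nat_lit 0) (XT.nd (nat_lit 156) (nat_lit 0) (nat_lit 0) (XT.nd (nat_lit 78) (nat_lit 0) (nat_lit 0) (XT.lf (nat_lit 0) (nat_lit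 76072784330) (nat_lit 76) (nat_lit 223064829736) (nat_lit 76) (nat_lit 220472109329) (nat_lit 1) (nat_lit 4) (nat_lit 2) (nat_lit 5) (nat_lit 2) (nat_lit 4) (nat_lit 340) (nat_lit 234) (nat_lit 206)) (XT.lf (nat_lit 0) (nat_lit 86776590645) (nat_lit 76) (nat_lit 238449780534) (nat_lit 76) (nat_lit 235831879756) (nat_lit 1) (nat_lit 4) (nat_lit 2) (nat_lit 5) (nat_lit 2) (nat_lit 4) (nat_lit 341) (nat_lit 234) (nat_lit 205))) (XT.nd (nat_lit 78) (nat_lit 0) (nat_lit 0) (XT.lf (nat_lit 0) (nat_lit 98274273249) (nat_lit 76) (nat_lit 255095614485) (nat_lit 76) (nat_lit 252454398549) (nat_lit 1) (nat_lit 4) (nat_lit 2) (nat_lit 5) (nat_lit 2) (nat_lit 4) (nat_lit 342) (nat_lit 234) (nat_lit 204)) (XT.nd (nat_lit 78) (nat_lit 0) (nat_lit 0) (XT.lf (nat_lit 0) (nat_lit 110633966557) (nat_lit 76) (nat_lit 273100973567) (nat_lit 76) (nat_lit 270438169522) (nat_lit 1) (nat_lit 4) (nat_lit 2) (nat_lit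 5) (nat_lit 2) (nat_lit 4) (nat_lit 343) (nat_lit 234) (nat_lit 203)) (XT.lf (nat_lit 0) (nat_lit 123928913196) (nat_lit 76) (nat_lit 292572556206) (nat_lit 76) (nat_lit 289889763171) (nat_lit 1) (nat_lit 4) (nat_lit 2) (nat_lit 5) (nat_lit 2) (nat_lit 4) (nat_lit 344) (nat_lit 234) (nat_lit 202))))) (XT.nd (nat_lit 234) (nat_lit 0) (nat_lit 0) (XT.nd (nat_lit 78) (nat_lit 0) (nat_lit 0) (XT.lf (nat_lit 0) (nat_lit 138237898036) (nat_lit 76) (nat_lit 313625749557) (nat_lit 76) (nat_lit 310924448198) (nat_lit 1) (nat_lit 4) (nat_lit 2) (nat_lit 5) (nat_lit 2) (nat_lit 4) (nat_lit 345) (nat_lit 234) (nat_lit 201)) (XT.nd (nat_lit 78) (nat_lit 0) (nat_lit 0) (XT.lf (nat_lit 0) (nat_lit 153645715060) (nat_lit 76) (nat_lit 336385313285) (nat_lit 76) (nat_lit 333666874589) (nat_lit 1) (nat_lit 4) (nat_lit 2) (nat_lit 5) (nat_lit 2) (nat_lit 4) (nat_lit 346) (nat_lit 234) (nat_lit 200)) (XT.lf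 (nat_lit 0) (nat_lit 170243669851) (nat_lit 76) (nat_lit 360986118878) (nat_lit 76) (nat_lit 358251812278) (nat_lit 1) (nat_lit 4) (nat_lit 2) (nat_lit 5) (nat_lit 2) (nat_lit 4) (nat_lit 347) (nat_lit 234) (nat_lit 199)))) (XT.nd (nat_lit 78) (nat_lit 0) (nat_lit 0) (XT.lf (nat_lit 0) (nat_lit 188130120660) (nat_lit 76) (nat_lit 387573948889) (nat_lit 76) (nat_lit 384824949785) (nat_lit 1) (nat_lit 4) (nat_lit 2) (nat_lit 5) (nat_lit 2) (nat_lit 4) (nat_lit 348) (nat_lit 234) (nat_lit 198)) (XT.nd (nat_lit 78) (nat_lit 0) (nat_lit 0) (XT.lf (nat_lit 0) (nat_lit 207411061269) (nat_lit 76) (nat_lit 416306360828) (nat_lit 76) (nat_lit 413543757553) (nat_lit 1) (nat_lit 4) (nat_lit 2) (nat_lit 5) (nat_lit 2) (nat_lit 4) (nat_lit 349) (nat_lit 234) (nat_lit 197)) (XT.lf (nat_lit 0) (nat_lit 228200749104) (nat_lit 76) (nat_lit 447353620840) (nat_lit 76) (nat_lit 444578421111) (nat_lit 1) (nat_lit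 4) (nat_lit 2) (nat_lit 5) (nat_lit 2) (nat_lit 4) (nat_lit 350) (nat_lit 234) (nat_lit 196)))))) (XT.nd (nat_lit 390) (nat_lit 0) (nat_lit 0) (XT.nd (nat_lit 156) (nat_lit 152) (nat_lit 0) (XT.nd (nat_lit 78) (nat_lit 0) (nat_lit 0) (XT.lf (nat_lit 0) (nat_lit 11177918282) (nat_lit 76) (nat_lit 7919816606) (nat_lit 76) (nat_lit 7919816606) (nat_lit 4) (nat_lit 4) (nat_lit 5) (nat_lit 5) (nat_lit 5) (nat_lit 4) (nat_lit 310) (nat_lit 235) (nat_lit 235)) (XT.lf (nat_lit 0) (nat_lit 34925773479) (nat_lit 76) (nat_lit 11697429196) (nat_lit 76) (nat_lit 11451086141) (nat_lit 4) (nat_lit 4) (nat_lit 5) (nat_lit 5) (nat_lit 5) (nat_lit 4) (nat_lit 311) (nat_lit 235) (nat_lit 234))) (XT.nd (nat_lit 78) (nat_lit 152) (nat_lit 0) (XT.lf (nat_lit 0) (nat_lit 47975626548) (nat_lit 76) (nat_lit 7474625094) (nat_lit 76) (nat_lit 7000186620) (nat_lit 4) (nat_lit 4) (nat_lit 5) (nat_lit 5) (nat_lit 5)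 (nat_lit 4) (nat_lit 312) (nat_lit 235) (nat_lit 233)) (XT.nd (nat_lit 78) (nat_lit 152) (nat_lit 0) (XT.lf (nat_lit 0) (nat_lit 61582728233) (nat_lit 76) (nat_lit 3146196885) (nat_lit 76) (nat_lit 2460558947) (nat_lit 4) (nat_lit 4) (nat_lit 5) (nat_lit 5) (nat_lit 5) (nat_lit 4) (nat_lit 313) (nat_lit 235) (nat_lit 232)) (XT.lf (nat_lit 0) (nat_lit 2202473357) (nat_lit 152) (nat_lit 68748179950) (nat_lit 0) (nat_lit 1363241931) (nat_lit 2) (nat_lit 5) (nat_lit 4) (nat_lit 4) (nat_lit 2) (nat_lit 4) (nat_lit 314) (nat_lit 235) (nat_lit 231))))) (XT.nd (nat_lit 234) (nat_lit 0) (nat_lit 0) (XT.nd (nat_lit 78) (nat_lit 0) (nat_lit 0) (XT.lf (nat_lit 0) (nat_lit 7073815185) (nat_lit 152) (nat_lit 64714280227) (nat_lit 0) (nat_lit 6062136617) (nat_lit 2) (nat_lit 5) (nat_lit 4) (nat_lit 4) (nat_lit 2) (nat_lit 4) (nat_lit 315) (nat_lit 235) (nat_lit 230)) (XT.nd (nat_lit 78) (nat_lit 0) (nat_lit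 0) (XT.lf (nat_lit 0) (nat_lit 12120052020) (nat_lit 152) (nat_lit 60771522728) (nat_lit 0) (nat_lit 10948700173) (nat_lit 2) (nat_lit 5) (nat_lit 4) (nat_lit 4) (nat_lit 2) (nat_lit 4) (nat_lit 316) (nat_lit 235) (nat_lit 229)) (XT.lf (nat_lit 0) (nat_lit 17371087488) (nat_lit 152) (nat_lit 56896542963) (nat_lit 0) (nat_lit 16051890012) (nat_lit 2) (nat_lit 5) (nat_lit 4) (nat_lit 4) (nat_lit 2) (nat_lit 4) (nat_lit 317) (nat_lit 235) (nat_lit 228)))) (XT.nd (nat_lit 78) (nat_lit 0) (nat_lit 0) (XT.lf (nat_lit 0) (nat_lit 22858038836) (nat_lit 152) (nat_lit 53066378091) (nat_lit 0) (nat_lit 21401947259) (nat_lit 2) (nat_lit 5) (nat_lit 4) (nat_lit 4) (nat_lit 2) (nat_lit 4) (nat_lit 318) (nat_lit 235) (nat_lit 227)) (XT.nd (nat_lit 78) (nat_lit 0) (nat_lit 0) (XT.lf (nat_lit 0) (nat_lit 28613421331) (nat_lit 152) (nat_lit 49258330838) (nat_lit 0) (nat_lit 27030575957) (nat_lit 2) (nat_lit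 5) (nat_lit 4) (nat_lit 4) (nat_lit 2) (nat_lit 4) (nat_lit 319) (nat_lit 235) (nat_lit 226)) (XT.lf (nat_lit 0) (nat_lit 34671340944) (nat_lit 152) (nat_lit 45449834997) (nat_lit 0) (nat_lit 32971130942) (nat_lit 2) (nat_lit 5) (nat_lit 4) (nat_lit 4) (nat_lit 2) (nat_lit 4) (nat_lit 320) (nat_lit 235) (nat_lit 225))))))))
noncomputable def xc10 : XT := (XT.nd (nat_lit 1638) (nat_lit 0) (nat_lit 0) (XT.nd (nat_lit 780) (nat_lit 76) (nat_lit 0) (XT.nd (nat_lit 390) (nat_lit 0) (nat_lit 0) (XT.nd (nat_lit 156) (nat_lit 0) (nat_lit 0) (XT.nd (nat_lit 78) (nat_lit 0) (nat_lit 0) (XT.lf (nat_lit 0) (nat_lit 41067696456) (nat_lit 152) (nat_lit 41618321705) (nat_lit 0) (nat_lit 39258815504) (nat_lit 2) (nat_lit 5) (nat_lit 4) (nat_lit 4) (nat_lit 2) (nat_lit 4) (nat_lit 321) (nat_lit 235) (nat_lit 224)) (XT.lf (nat_lit 0) (nat_lit 47840392199) (nat_lit 152) (nat_lit 37741085698) (nat_lit 0)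 (nat_lit 45930889995) (nat_lit 2) (nat_lit 5) (nat_lit 4) (nat_lit 4) (nat_lit 2) (nat_lit 4) (nat_lit 322) (nat_lit 235) (nat_lit 223))) (XT.nd (nat_lit 78) (nat_lit 0) (nat_lit 0) (XT.lf (nat_lit 0) (nat_lit 55029562663) (nat_lit 152) (nat_lit 33795150762) (nat_lit 0) (nat_lit 53026892635) (nat_lit 2) (nat_lit 5) (nat_lit 4) (nat_lit 4) (nat_lit 2) (nat_lit 4) (nat_lit 323) (nat_lit 235) (nat_lit 222)) (XT.nd (nat_lit 78) (nat_lit 0) (nat_lit 0) (XT.lf (nat_lit 0) (nat_lit 62677810343) (nat_lit 152) (nat_lit 29757133579) (nat_lit 0) (nat_lit 60588873810) (nat_lit 2) (nat_lit 5) (nat_lit 4) (nat_lit 4) (nat_lit 2) (nat_lit 4) (nat_lit 324) (nat_lit 235) (nat_lit 221)) (XT.lf (nat_lit 0) (nat_lit 70830458185) (nat_lit 152) (nat_lit 25603105158) (nat_lit 0) (nat_lit 68661645259) (nat_lit 2) (nat_lit 5) (nat_lit 4) (nat_lit 4) (nat_lit 2) (nat_lit 4) (nat_lit 325) (nat_lit 235) (nat_lit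 220))))) (XT.nd (nat_lit 156) (nat_lit 0) (nat_lit 0) (XT.nd (nat_lit 78) (nat_lit 0) (nat_lit 0) (XT.lf (nat_lit 0) (nat_lit 79535818178) (nat_lit 152) (nat_lit 21308449035) (nat_lit 0) (nat_lit 77293045629) (nat_lit 2) (nat_lit 5) (nat_lit 4) (nat_lit 4) (nat_lit 2) (nat_lit 4) (nat_lit 326) (nat_lit 235) (nat_lit 219)) (XT.lf (nat_lit 0) (nat_lit 88845477641) (nat_lit 152) (nat_lit 16847715395) (nat_lit 0) (nat_lit 86534223959) (nat_lit 2) (nat_lit 5) (nat_lit 4) (nat_lit 4) (nat_lit 2) (nat_lit 4) (nat_lit 327) (nat_lit 235) (nat_lit 218))) (XT.nd (nat_lit 78) (nat_lit 0) (nat_lit 0) (XT.lf (nat_lit 0) (nat_lit 98814604925) (nat_lit 152) (nat_lit 12194470262) (nat_lit 0) (nat_lit 96439942787) (nat_lit 2) (nat_lit 5) (nat_lit 4) (nat_lit 4) (nat_lit 2) (nat_lit 4) (nat_lit 328) (nat_lit 235) (nat_lit 217)) (XT.nd (nat_lit 78) (nat_lit 0) (nat_lit 0) (XT.lf (nat_lit 0) (nat_lit 109502276340)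 (nat_lit 152) (nat_lit 7321138850) (nat_lit 0) (nat_lit 107068902669) (nat_lit 2) (nat_lit 5) (nat_lit 4) (nat_lit 4) (nat_lit 2) (nat_lit 4) (nat_lit 329) (nat_lit 235) (nat_lit 216)) (XT.lf (nat_lit 0) (nat_lit 120971826236) (nat_lit 152) (nat_lit 2198842157) (nat_lit 0) (nat_lit 118484090034) (nat_lit 2) (nat_lit 5) (nat_lit 4) (nat_lit 4) (nat_lit 2) (nat_lit 4) (nat_lit 330) (nat_lit 235) (nat_lit 215)))))) (XT.nd (nat_lit 390) (nat_lit 0) (nat_lit 0) (XT.nd (nat_lit 156) (nat_lit 0) (nat_lit 0) (XT.nd (nat_lit 78) (nat_lit 0) (nat_lit 0) (XT.lf (nat_lit 0) (nat_lit 3308672344) (nat_lit 76) (nat_lit 130034207619) (nat_lit 76) (nat_lit 127496135740) (nat_lit 1) (nat_lit 4) (nat_lit 2) (nat_lit 5) (nat_lit 2) (nat_lit 4) (nat_lit 331) (nat_lit 235) (nat_lit 214)) (XT.lf (nat_lit 0) (nat_lit 9210513657) (nat_lit 76) (nat_lit 137466756680) (nat_lit 76) (nat_lit 134882077693) (nat_lit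 1) (nat_lit 4) (nat_lit 2) (nat_lit 5) (nat_lit 2) (nat_lit 4) (nat_lit 332) (nat_lit 235) (nat_lit 213))) (XT.nd (nat_lit 78) (nat_lit 0) (nat_lit 0) (XT.lf (nat_lit 0) (nat_lit 15468952004) (nat_lit 76) (nat_lit 145549598768) (nat_lit 76) (nat_lit 142921765051) (nat_lit 1) (nat_lit 4) (nat_lit 2) (nat_lit 5) (nat_lit 2) (nat_lit 4) (nat_lit 333) (nat_lit 235) (nat_lit 212)) (XT.nd (nat_lit 78) (nat_lit 0) (nat_lit 0) (XT.lf (nat_lit 0) (nat_lit 22121074427) (nat_lit 76) (nat_lit 154330632207) (nat_lit 76) (nat_lit 151662840407) (nat_lit 1) (nat_lit 4) (nat_lit 2) (nat_lit 5) (nat_lit 2) (nat_lit 4) (nat_lit 334) (nat_lit 235) (nat_lit 211)) (XT.lf (nat_lit 0) (nat_lit 29206300910) (nat_lit 76) (nat_lit 163861892751) (nat_lit 76) (nat_lit 161157102725) (nat_lit 1) (nat_lit 4) (nat_lit 2) (nat_lit 5) (nat_lit 2) (nat_lit 4) (nat_lit 335) (nat_lit 235) (nat_lit 210))))) (XT.nd (nat_lit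 234) (nat_lit 0) (nat_lit 0) (XT.nd (nat_lit 78) (nat_lit 0) (nat_lit 0) (XT.lf (nat_lit 0) (nat_lit 36766617980) (nat_lit 76) (nat_lit 174199861942) (nat_lit 76) (nat_lit 171460814301) (nat_lit 1) (nat_lit 4) (nat_lit 2) (nat_lit 5) (nat_lit 2) (nat_lit 4) (nat_lit 336) (nat_lit 235) (nat_lit 209)) (XT.nd (nat_lit 78) (nat_lit 0) (nat_lit 0) (XT.lf (nat_lit 0) (nat_lit 44846827517) (nat_lit 76) (nat_lit 185405801822) (nat_lit 76) (nat_lit 182635034166) (nat_lit 1) (nat_lit 4) (nat_lit 2) (nat_lit 5) (nat_lit 2) (nat_lit 4) (nat_lit 337) (nat_lit 235) (nat_lit 208)) (XT.lf (nat_lit 0) (nat_lit 53494812244) (nat_lit 76) (nat_lit 197546117959) (nat_lit 76) (nat_lit 194745979919) (nat_lit 1) (nat_lit 4) (nat_lit 2) (nat_lit 5) (nat_lit 2) (nat_lit 4) (nat_lit 338) (nat_lit 235) (nat_lit 207)))) (XT.nd (nat_lit 78) (nat_lit 0) (nat_lit 0) (XT.lf (nat_lit 0) (nat_lit 62761819477) (nat_lit 76)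 (nat_lit 210692752968) (nat_lit 76) (nat_lit 207865420128) (nat_lit 1) (nat_lit 4) (nat_lit 2) (nat_lit 5) (nat_lit 2) (nat_lit 4) (nat_lit 339) (nat_lit 235) (nat_lit 206)) (XT.nd (nat_lit 78) (nat_lit 0) (nat_lit 0) (XT.lf (nat_lit 0) (nat_lit 72702764816) (nat_lit 76) (nat_lit 224923612834) (nat_lit 76) (nat_lit 222071099623) (nat_lit 1) (nat_lit 4) (nat_lit 2) (nat_lit 5) (nat_lit 2) (nat_lit 4) (nat_lit 340) (nat_lit 235) (nat_lit 205)) (XT.lf (nat_lit 0) (nat_lit 83376557565) (nat_lit 76) (nat_lit 240323028578) (nat_lit 76) (nat_lit 237447200210) (nat_lit 1) (nat_lit 4) (nat_lit 2) (nat_lit 5) (nat_lit 2) (nat_lit 4) (nat_lit 341) (nat_lit 235) (nat_lit 204))))))) (XT.nd (nat_lit 38142) (nat_lit 0) (nat_lit 76) (XT.nd (nat_lit 390) (nat_lit 0) (nat_lit 0) (XT.nd (nat_lit 156) (nat_lit 0) (nat_lit 0) (XT.nd (nat_lit 78) (nat_lit 0) (nat_lit 0) (XT.lf (nat_lit 0) (nat_lit 94846449831)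 (nat_lit 76) (nat_lit 256982255998) (nat_lit 76) (nat_lit 254084839521) (nat_lit 1) (nat_lit 4) (nat_lit 2) (nat_lit 5) (nat_lit 2) (nat_lit 4) (nat_lit 342) (nat_lit 235) (nat_lit 203)) (XT.lf (nat_lit 0) (nat_lit 107180411344) (nat_lit 76) (nat_lit 275000016441) (nat_lit 76) (nat_lit 272082610974) (nat_lit 1) (nat_lit 4) (nat_lit 2) (nat_lit 5) (nat_lit 2) (nat_lit 4) (nat_lit 343) (nat_lit 235) (nat_lit 202))) (XT.nd (nat_lit 78) (nat_lit 0) (nat_lit 0) (XT.lf (nat_lit 0) (nat_lit 120451532247) (nat_lit 76) (nat_lit 294483081820) (nat_lit 76) (nat_lit 291547168029) (nat_lit 1) (nat_lit 4) (nat_lit 2) (nat_lit 5) (nat_lit 2) (nat_lit 4) (nat_lit 344) (nat_lit 235) (nat_lit 201)) (XT.nd (nat_lit 78) (nat_lit 0) (nat_lit 0) (XT.lf (nat_lit 0) (nat_lit 134738456220) (nat_lit 76) (nat_lit 315546907339) (nat_lit 76) (nat_lit 312593856211) (nat_lit 1) (nat_lit 4) (nat_lit 2) (nat_lit 5) (nat_lit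 2) (nat_lit 4) (nat_lit 345) (nat_lit 235) (nat_lit 200)) (XT.lf (nat_lit 0) (nat_lit 150125846516) (nat_lit 76) (nat_lit 338316315667) (nat_lit 76) (nat_lit 335347396634) (nat_lit 1) (nat_lit 4) (nat_lit 2) (nat_lit 5) (nat_lit 2) (nat_lit 4) (nat_lit 346) (nat_lit 235) (nat_lit 199))))) (XT.nd (nat_lit 234) (nat_lit 0) (nat_lit 0) (XT.nd (nat_lit 78) (nat_lit 0) (nat_lit 0) (XT.lf (nat_lit 0) (nat_lit 166704887670) (nat_lit 76) (nat_lit 362926236630) (nat_lit 76) (nat_lit 359942625093) (nat_lit 1) (nat_lit 4) (nat_lit 2) (nat_lit 5) (nat_lit 2) (nat_lit 4) (nat_lit 347) (nat_lit 235) (nat_lit 198)) (XT.nd (nat_lit 78) (nat_lit 0) (nat_lit 0) (XT.lf (nat_lit 0) (nat_lit 184573825852) (nat_lit 76) (nat_lit 389522506798) (nat_lit 76) (nat_lit 386525291091) (nat_lit 1) (nat_lit 4) (nat_lit 2) (nat_lit 5) (nat_lit 2) (nat_lit 4) (nat_lit 348) (nat_lit 235) (nat_lit 197)) (XT.lf (nat_lit 0)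 (nat_lit 203838551065) (nat_lit 76) (nat_lit 418262733698) (nat_lit 76) (nat_lit 415252921536) (nat_lit 1) (nat_lit 4) (nat_lit 2) (nat_lit 5) (nat_lit 2) (nat_lit 4) (nat_lit 349) (nat_lit 235) (nat_lit 196)))) (XT.nd (nat_lit 37362) (nat_lit 0) (nat_lit 228) (XT.lf (nat_lit 0) (nat_lit 224613224645) (nat_lit 76) (nat_lit 449317229785) (nat_lit 76) (nat_lit 446295754240) (nat_lit 1) (nat_lit 4) (nat_lit 2) (nat_lit 5) (nat_lit 2) (nat_lit 4) (nat_lit 350) (nat_lit 235) (nat_lit 195)) (XT.nd (nat_lit 78) (nat_lit 76) (nat_lit 0) (XT.lf (nat_lit 0) (nat_lit 11390730779) (nat_lit 152) (nat_lit 651002823) (nat_lit 0) (nat_lit 11390730779) (nat_lit 5) (nat_lit 5) (nat_lit 7) (nat_lit 4) (nat_lit 5) (nat_lit 4) (nat_lit 308) (nat_lit 236) (nat_lit 236)) (XT.lf (nat_lit 0) (nat_lit 10191327288) (nat_lit 76) (nat_lit 20191834038) (nat_lit 76) (nat_lit 19925783540) (nat_lit 4) (nat_lit 4) (nat_lit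 5) (nat_lit 5) (nat_lit 5) (nat_lit 4) (nat_lit 309) (nat_lit 236) (nat_lit 235)))))) (XT.nd (nat_lit 390) (nat_lit 0) (nat_lit 0) (XT.nd (nat_lit 156) (nat_lit 152) (nat_lit 0) (XT.nd (nat_lit 78) (nat_lit 0) (nat_lit 0) (XT.lf (nat_lit 0) (nat_lit 22082887957) (nat_lit 76) (nat_lit 16235894450) (nat_lit 76) (nat_lit 15723500897) (nat_lit 4) (nat_lit 4) (nat_lit 5) (nat_lit 5) (nat_lit 5) (nat_lit 4) (nat_lit 310) (nat_lit 236) (nat_lit 234)) (XT.lf (nat_lit 0) (nat_lit 34400094680) (nat_lit 76) (nat_lit 12214255931) (nat_lit 76) (nat_lit 11473766958) (nat_lit 4) (nat_lit 4) (nat_lit 5) (nat_lit 5) (nat_lit 5) (nat_lit 4) (nat_lit 311) (nat_lit 236) (nat_lit 233))) (XT.nd (nat_lit 78) (nat_lit 152) (nat_lit 0) (XT.lf (nat_lit 0) (nat_lit 47215938311) (nat_lit 76) (nat_lit 8103086551) (nat_lit 76) (nat_lit 7151398115) (nat_lit 4) (nat_lit 4) (nat_lit 5) (nat_lit 5) (nat_lit 5) (nat_lit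 4) (nat_lit 312) (nat_lit 236) (nat_lit 232)) (XT.nd (nat_lit 78) (nat_lit 152) (nat_lit 0) (XT.lf (nat_lit 0) (nat_lit 60606364592) (nat_lit 76) (nat_lit 3878023824) (nat_lit 76) (nat_lit 2730780329) (nat_lit 4) (nat_lit 4) (nat_lit 5) (nat_lit 5) (nat_lit 5) (nat_lit 4) (nat_lit 313) (nat_lit 236) (nat_lit 231)) (XT.lf (nat_lit 0) (nat_lit 1801510679) (nat_lit 152) (nat_lit 70008829400) (nat_lit 0) (nat_lit 536450684) (nat_lit 2) (nat_lit 5) (nat_lit 4) (nat_lit 4) (nat_lit 2) (nat_lit 4) (nat_lit 314) (nat_lit 236) (nat_lit 230))))) (XT.nd (nat_lit 234) (nat_lit 0) (nat_lit 0) (XT.nd (nat_lit 78) (nat_lit 0) (nat_lit 0) (XT.lf (nat_lit 0) (nat_lit 6569577344) (nat_lit 152) (nat_lit 66173898043) (nat_lit 0) (nat_lit 5144844070) (nat_lit 2) (nat_lit 5) (nat_lit 4) (nat_lit 4) (nat_lit 2) (nat_lit 4) (nat_lit 315) (nat_lit 236) (nat_lit 229)) (XT.nd (nat_lit 78) (nat_lit 0) (nat_lit 0)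 (XT.lf (nat_lit 0) (nat_lit 11520189028) (nat_lit 152) (nat_lit 62415370512) (nat_lit 0) (nat_lit 9947610125) (nat_lit 2) (nat_lit 5) (nat_lit 4) (nat_lit 4) (nat_lit 2) (nat_lit 4) (nat_lit 316) (nat_lit 236) (nat_lit 228)) (XT.lf (nat_lit 0) (nat_lit 16682682690) (nat_lit 152) (nat_lit 58710974052) (nat_lit 0) (nat_lit 14973209686) (nat_lit 2) (nat_lit 5) (nat_lit 4) (nat_lit 4) (nat_lit 2) (nat_lit 4) (nat_lit 317) (nat_lit 236) (nat_lit 227)))) (XT.nd (nat_lit 78) (nat_lit 0) (nat_lit 0) (XT.lf (nat_lit 0) (nat_lit 22087650884) (nat_lit 152) (nat_lit 55038756684) (nat_lit 0) (nat_lit 20251424082) (nat_lit 2) (nat_lit 5) (nat_lit 4) (nat_lit 4) (nat_lit 2) (nat_lit 4) (nat_lit 318) (nat_lit 236) (nat_lit 226)) (XT.nd (nat_lit 78) (nat_lit 0) (nat_lit 0) (XT.lf (nat_lit 0) (nat_lit 27767123051) (nat_lit 152) (nat_lit 51376957120) (nat_lit 0) (nat_lit 25813531622) (nat_lit 2) (nat_lit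 5) (nat_lit 4) (nat_lit 4) (nat_lit 2) (nat_lit 4) (nat_lit 319) (nat_lit 236) (nat_lit 225)) (XT.lf (nat_lit 0) (nat_lit 33754755323) (nat_lit 152) (nat_lit 47703875806) (nat_lit 0) (nat_lit 31692492943) (nat_lit 2) (nat_lit 5) (nat_lit 4) (nat_lit 4) (nat_lit 2) (nat_lit 4) (nat_lit 320) (nat_lit 236) (nat_lit 224))))))))
noncomputable def xc11 : XT := (XT.nd (nat_lit 1638) (nat_lit 0) (nat_lit 0) (XT.nd (nat_lit 780) (nat_lit 76) (nat_lit 0) (XT.nd (nat_lit 390) (nat_lit 0) (nat_lit 0) (XT.nd (nat_lit 156) (nat_lit 0) (nat_lit 0) (XT.nd (nat_lit 78) (nat_lit 0) (nat_lit 0) (XT.lf (nat_lit 0) (nat_lit 40086029964) (nat_lit 152) (nat_lit 43997746335) (nat_lit 0) (nat_lit 37923146334) (nat_lit 2) (nat_lit 5) (nat_lit 4) (nat_lit 4) (nat_lit 2) (nat_lit 4) (nat_lit 321) (nat_lit 236) (nat_lit 223)) (XT.lf (nat_lit 0) (nat_lit 46798465641) (nat_lit 152) (nat_lit 40236606458) (nat_lit 0)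 (nat_lit 44542414185) (nat_lit 2) (nat_lit 5) (nat_lit 4) (nat_lit 4) (nat_lit 2) (nat_lit 4) (nat_lit 322) (nat_lit 236) (nat_lit 222))) (XT.nd (nat_lit 78) (nat_lit 0) (nat_lit 0) (XT.lf (nat_lit 0) (nat_lit 53931839749) (nat_lit 152) (nat_lit 36398167940) (nat_lit 0) (nat_lit 51589521788) (nat_lit 2) (nat_lit 5) (nat_lit 4) (nat_lit 4) (nat_lit 2) (nat_lit 4) (nat_lit 323) (nat_lit 236) (nat_lit 221)) (XT.nd (nat_lit 78) (nat_lit 0) (nat_lit 0) (XT.lf (nat_lit 0) (nat_lit 61528424134) (nat_lit 152) (nat_lit 32459684476) (nat_lit 0) (nat_lit 59106229781) (nat_lit 2) (nat_lit 5) (nat_lit 4) (nat_lit 4) (nat_lit 2) (nat_lit 4) (nat_lit 324) (nat_lit 236) (nat_lit 220)) (XT.lf (nat_lit 0) (nat_lit 69633235594) (nat_lit 152) (nat_lit 28397816907) (nat_lit 0) (nat_lit 67137081617) (nat_lit 2) (nat_lit 5) (nat_lit 4) (nat_lit 4) (nat_lit 2) (nat_lit 4) (nat_lit 325) (nat_lit 236) (nat_lit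 219))))) (XT.nd (nat_lit 156) (nat_lit 0) (nat_lit 0) (XT.nd (nat_lit 78) (nat_lit 0) (nat_lit 0) (XT.lf (nat_lit 0) (nat_lit 78294302640) (nat_lit 152) (nat_lit 24188494906) (nat_lit 0) (nat_lit 75729667530) (nat_lit 2) (nat_lit 5) (nat_lit 4) (nat_lit 4) (nat_lit 2) (nat_lit 4) (nat_lit 326) (nat_lit 236) (nat_lit 218)) (XT.lf (nat_lit 0) (nat_lit 87562950114) (nat_lit 152) (nat_lit 19806774342) (nat_lit 0) (nat_lit 84934906549) (nat_lit 2) (nat_lit 5) (nat_lit 4) (nat_lit 4) (nat_lit 2) (nat_lit 4) (nat_lit 327) (nat_lit 236) (nat_lit 217))) (XT.nd (nat_lit 78) (nat_lit 0) (nat_lit 0) (XT.lf (nat_lit 0) (nat_lit 97494103335) (nat_lit 152) (nat_lit 15226689465) (nat_lit 0) (nat_lit 94807348236) (nat_lit 2) (nat_lit 5) (nat_lit 4) (nat_lit 4) (nat_lit 2) (nat_lit 4) (nat_lit 328) (nat_lit 236) (nat_lit 216)) (XT.nd (nat_lit 78) (nat_lit 0) (nat_lit 0) (XT.lf (nat_lit 0) (nat_lit 108146613580)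 (nat_lit 152) (nat_lit 10421099029) (nat_lit 0) (nat_lit 105405495951) (nat_lit 2) (nat_lit 5) (nat_lit 4) (nat_lit 4) (nat_lit 2) (nat_lit 4) (nat_lit 329) (nat_lit 236) (nat_lit 215)) (XT.lf (nat_lit 0) (nat_lit 119583606838) (nat_lit 152) (nat_lit 5361525464) (nat_lit 0) (nat_lit 116792153531) (nat_lit 2) (nat_lit 5) (nat_lit 4) (nat_lit 4) (nat_lit 2) (nat_lit 4) (nat_lit 330) (nat_lit 236) (nat_lit 214)))))) (XT.nd (nat_lit 390) (nat_lit 0) (nat_lit 0) (XT.nd (nat_lit 156) (nat_lit 0) (nat_lit 0) (XT.nd (nat_lit 78) (nat_lit 76) (nat_lit 0) (XT.lf (nat_lit 0) (nat_lit 131872857882) (nat_lit 152) (nat_lit 17986109) (nat_lit 0) (nat_lit 129034797467) (nat_lit 2) (nat_lit 5) (nat_lit 4) (nat_lit 4) (nat_lit 2) (nat_lit 4) (nat_lit 331) (nat_lit 236) (nat_lit 213)) (XT.lf (nat_lit 0) (nat_lit 5827707486) (nat_lit 76) (nat_lit 139350471263) (nat_lit 76) (nat_lit 136469256118) (nat_lit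 1) (nat_lit 4) (nat_lit 2) (nat_lit 5) (nat_lit 2) (nat_lit 4) (nat_lit 332) (nat_lit 236) (nat_lit 212))) (XT.nd (nat_lit 78) (nat_lit 0) (nat_lit 0) (XT.lf (nat_lit 0) (nat_lit 12034707856) (nat_lit 76) (nat_lit 147458103728) (nat_lit 76) (nat_lit 144536930500) (nat_lit 1) (nat_lit 4) (nat_lit 2) (nat_lit 5) (nat_lit 2) (nat_lit 4) (nat_lit 333) (nat_lit 236) (nat_lit 211)) (XT.nd (nat_lit 78) (nat_lit 0) (nat_lit 0) (XT.lf (nat_lit 0) (nat_lit 18639202522) (nat_lit 76) (nat_lit 156262091219) (nat_lit 76) (nat_lit 153303919766) (nat_lit 1) (nat_lit 4) (nat_lit 2) (nat_lit 5) (nat_lit 2) (nat_lit 4) (nat_lit 334) (nat_lit 236) (nat_lit 210)) (XT.lf (nat_lit 0) (nat_lit 25680329230) (nat_lit 76) (nat_lit 165814605515) (nat_lit 76) (nat_lit 162822176446) (nat_lit 1) (nat_lit 4) (nat_lit 2) (nat_lit 5) (nat_lit 2) (nat_lit 4) (nat_lit 335) (nat_lit 236) (nat_lit 209))))) (XT.nd (nat_lit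 234) (nat_lit 0) (nat_lit 0) (XT.nd (nat_lit 78) (nat_lit 0) (nat_lit 0) (XT.lf (nat_lit 0) (nat_lit 33199813176) (nat_lit 76) (nat_lit 176172254107) (nat_lit 76) (nat_lit 173148105023) (nat_lit 1) (nat_lit 4) (nat_lit 2) (nat_lit 5) (nat_lit 2) (nat_lit 4) (nat_lit 336) (nat_lit 236) (nat_lit 208)) (XT.nd (nat_lit 78) (nat_lit 0) (nat_lit 0) (XT.lf (nat_lit 0) (nat_lit 41242214265) (nat_lit 76) (nat_lit 187396415653) (nat_lit 76) (nat_lit 184342896186) (nat_lit 1) (nat_lit 4) (nat_lit 2) (nat_lit 5) (nat_lit 2) (nat_lit 4) (nat_lit 337) (nat_lit 236) (nat_lit 207)) (XT.lf (nat_lit 0) (nat_lit 49855191169) (nat_lit 76) (nat_lit 199553603704) (nat_lit 76) (nat_lit 196472889437) (nat_lit 1) (nat_lit 4) (nat_lit 2) (nat_lit 5) (nat_lit 2) (nat_lit 4) (nat_lit 338) (nat_lit 236) (nat_lit 206)))) (XT.nd (nat_lit 78) (nat_lit 0) (nat_lit 0) (XT.lf (nat_lit 0) (nat_lit 59089783751) (nat_lit 76)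 (nat_lit 212715860855) (nat_lit 76) (nat_lit 209609966218) (nat_lit 1) (nat_lit 4) (nat_lit 2) (nat_lit 5) (nat_lit 2) (nat_lit 4) (nat_lit 339) (nat_lit 236) (nat_lit 205)) (XT.nd (nat_lit 78) (nat_lit 0) (nat_lit 0) (XT.lf (nat_lit 0) (nat_lit 69000715525) (nat_lit 76) (nat_lit 226961185668) (nat_lit 76) (nat_lit 223831975873) (nat_lit 1) (nat_lit 4) (nat_lit 2) (nat_lit 5) (nat_lit 2) (nat_lit 4) (nat_lit 340) (nat_lit 236) (nat_lit 204)) (XT.lf (nat_lit 0) (nat_lit 79646717935) (nat_lit 76) (nat_lit 242373994882) (nat_lit 76) (nat_lit 239223196977) (nat_lit 1) (nat_lit 4) (nat_lit 2) (nat_lit 5) (nat_lit 2) (nat_lit 4) (nat_lit 341) (nat_lit 236) (nat_lit 203))))))) (XT.nd (nat_lit 37986) (nat_lit 0) (nat_lit 76) (XT.nd (nat_lit 390) (nat_lit 0) (nat_lit 0) (XT.nd (nat_lit 156) (nat_lit 0) (nat_lit 0) (XT.nd (nat_lit 78) (nat_lit 0) (nat_lit 0) (XT.lf (nat_lit 0) (nat_lit 91090878406)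 (nat_lit 76) (nat_lit 259045623662) (nat_lit 76) (nat_lit 255874836767) (nat_lit 1) (nat_lit 4) (nat_lit 2) (nat_lit 5) (nat_lit 2) (nat_lit 4) (nat_lit 342) (nat_lit 236) (nat_lit 202)) (XT.lf (nat_lit 0) (nat_lit 103401014183) (nat_lit 76) (nat_lit 277074866845) (nat_lit 76) (nat_lit 273885571627) (nat_lit 1) (nat_lit 4) (nat_lit 2) (nat_lit 5) (nat_lit 2) (nat_lit 4) (nat_lit 343) (nat_lit 236) (nat_lit 201))) (XT.nd (nat_lit 78) (nat_lit 0) (nat_lit 0) (XT.lf (nat_lit 0) (nat_lit 116650074220) (nat_lit 76) (nat_lit 296568564393) (nat_lit 76) (nat_lit 293362131838) (nat_lit 1) (nat_lit 4) (nat_lit 2) (nat_lit 5) (nat_lit 2) (nat_lit 4) (nat_lit 344) (nat_lit 236) (nat_lit 200)) (XT.nd (nat_lit 78) (nat_lit 0) (nat_lit 0) (XT.lf (nat_lit 0) (nat_lit 130916571465) (nat_lit 76) (nat_lit 317642234511) (nat_lit 76) (nat_lit 314419934051) (nat_lit 1) (nat_lit 4) (nat_lit 2) (nat_lit 5) (nat_lit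 2) (nat_lit 4) (nat_lit 345) (nat_lit 236) (nat_lit 199)) (XT.lf (nat_lit 0) (nat_lit 146285048123) (nat_lit 76) (nat_lit 340420758209) (nat_lit 76) (nat_lit 337183765245) (nat_lit 1) (nat_lit 4) (nat_lit 2) (nat_lit 5) (nat_lit 2) (nat_lit 4) (nat_lit 346) (nat_lit 236) (nat_lit 198))))) (XT.nd (nat_lit 234) (nat_lit 0) (nat_lit 0) (XT.nd (nat_lit 78) (nat_lit 0) (nat_lit 0) (XT.lf (nat_lit 0) (nat_lit 162846576650) (nat_lit 76) (nat_lit 365039119330) (nat_lit 76) (nat_lit 361788522195) (nat_lit 1) (nat_lit 4) (nat_lit 2) (nat_lit 5) (nat_lit 2) (nat_lit 4) (nat_lit 347) (nat_lit 236) (nat_lit 197)) (XT.nd (nat_lit 78) (nat_lit 0) (nat_lit 0) (XT.lf (nat_lit 0) (nat_lit 180699299436) (nat_lit 76) (nat_lit 391643204459) (nat_lit 76) (nat_lit 388380010870) (nat_lit 1) (nat_lit 4) (nat_lit 2) (nat_lit 5) (nat_lit 2) (nat_lit 4) (nat_lit 348) (nat_lit 236) (nat_lit 196)) (XT.lf (nat_lit 0)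 (nat_lit 199949010394) (nat_lit 76) (nat_lit 420390667433) (nat_lit 76) (nat_lit 417115810460) (nat_lit 1) (nat_lit 4) (nat_lit 2) (nat_lit 5) (nat_lit 2) (nat_lit 4) (nat_lit 349) (nat_lit 236) (nat_lit 195)))) (XT.nd (nat_lit 37206) (nat_lit 0) (nat_lit 304) (XT.lf (nat_lit 0) (nat_lit 220709781886) (nat_lit 76) (nat_lit 451451863589) (nat_lit 76) (nat_lit 448166207187) (nat_lit 1) (nat_lit 4) (nat_lit 2) (nat_lit 5) (nat_lit 2) (nat_lit 4) (nat_lit 350) (nat_lit 236) (nat_lit 194)) (XT.nd (nat_lit 78) (nat_lit 0) (nat_lit 0) (XT.lf (nat_lit 0) (nat_lit 4546208396) (nat_lit 152) (nat_lit 11279875162) (nat_lit 0) (nat_lit 4546208396) (nat_lit 5) (nat_lit 5) (nat_lit 7) (nat_lit 4) (nat_lit 5) (nat_lit 4) (nat_lit 306) (nat_lit 237) (nat_lit 237)) (XT.lf (nat_lit 0) (nat_lit 15889483210) (nat_lit 152) (nat_lit 12191518501) (nat_lit 0) (nat_lit 15602148672) (nat_lit 5) (nat_lit 5) (nat_lit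 7) (nat_lit 4) (nat_lit 5) (nat_lit 4) (nat_lit 307) (nat_lit 237) (nat_lit 236)))))) (XT.nd (nat_lit 390) (nat_lit 152) (nat_lit 0) (XT.nd (nat_lit 156) (nat_lit 0) (nat_lit 0) (XT.nd (nat_lit 78) (nat_lit 76) (nat_lit 0) (XT.lf (nat_lit 0) (nat_lit 22919241612) (nat_lit 152) (nat_lit 1587355198) (nat_lit 0) (nat_lit 22365856575) (nat_lit 5) (nat_lit 5) (nat_lit 7) (nat_lit 4) (nat_lit 5) (nat_lit 4) (nat_lit 308) (nat_lit 237) (nat_lit 235)) (XT.lf (nat_lit 0) (nat_lit 9623594184) (nat_lit 76) (nat_lit 20750006913) (nat_lit 76) (nat_lit 19950278822) (nat_lit 4) (nat_lit 4) (nat_lit 5) (nat_lit 5) (nat_lit 5) (nat_lit 4) (nat_lit 309) (nat_lit 237) (nat_lit 234))) (XT.nd (nat_lit 78) (nat_lit 0) (nat_lit 0) (XT.lf (nat_lit 0) (nat_lit 21262424661) (nat_lit 76) (nat_lit 16914632823) (nat_lit 76) (nat_lit 15886809311) (nat_lit 4) (nat_lit 4) (nat_lit 5) (nat_lit 5) (nat_lit 5) (nat_lit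 4) (nat_lit 310) (nat_lit 237) (nat_lit 233)) (XT.nd (nat_lit 78) (nat_lit 0) (nat_lit 0) (XT.lf (nat_lit 0) (nat_lit 33345621947) (nat_lit 76) (nat_lit 13004629026) (nat_lit 76) (nat_lit 11765606051) (nat_lit 4) (nat_lit 4) (nat_lit 5) (nat_lit 5) (nat_lit 5) (nat_lit 4) (nat_lit 311) (nat_lit 237) (nat_lit 232)) (XT.lf (nat_lit 0) (nat_lit 45944790175) (nat_lit 76) (nat_lit 8996825128) (nat_lit 76) (nat_lit 7562247094) (nat_lit 4) (nat_lit 4) (nat_lit 5) (nat_lit 5) (nat_lit 5) (nat_lit 4) (nat_lit 312) (nat_lit 237) (nat_lit 231))))) (XT.nd (nat_lit 234) (nat_lit 0) (nat_lit 0) (XT.nd (nat_lit 78) (nat_lit 152) (nat_lit 0) (XT.lf (nat_lit 0) (nat_lit 59134591081) (nat_lit 76) (nat_lit 4867471181) (nat_lit 76) (nat_lit 3251823648) (nat_lit 4) (nat_lit 4) (nat_lit 5) (nat_lit 5) (nat_lit 5) (nat_lit 4) (nat_lit 313) (nat_lit 237) (nat_lit 230)) (XT.nd (nat_lit 78) (nat_lit 0) (nat_lit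 0) (XT.lf (nat_lit 0) (nat_lit 599706873) (nat_lit 76) (nat_lit 562737687) (nat_lit 152) (nat_lit 71230233232) (nat_lit 2) (nat_lit 5) (nat_lit 3) (nat_lit 5) (nat_lit 4) (nat_lit 4) (nat_lit 314) (nat_lit 237) (nat_lit 229)) (XT.lf (nat_lit 0) (nat_lit 5826100162) (nat_lit 152) (nat_lit 68133483619) (nat_lit 0) (nat_lit 3979869317) (nat_lit 2) (nat_lit 5) (nat_lit 4) (nat_lit 4) (nat_lit 2) (nat_lit 4) (nat_lit 315) (nat_lit 237) (nat_lit 228)))) (XT.nd (nat_lit 78) (nat_lit 0) (nat_lit 0) (XT.lf (nat_lit 0) (nat_lit 10688170040) (nat_lit 152) (nat_lit 64545539392) (nat_lit 0) (nat_lit 8705045094) (nat_lit 2) (nat_lit 5) (nat_lit 4) (nat_lit 4) (nat_lit 2) (nat_lit 4) (nat_lit 316) (nat_lit 237) (nat_lit 227)) (XT.nd (nat_lit 78) (nat_lit 0) (nat_lit 0) (XT.lf (nat_lit 0) (nat_lit 15768680547) (nat_lit 152) (nat_lit 60999090437) (nat_lit 0) (nat_lit 13658801804) (nat_lit 2) (nat_lit 5)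 (nat_lit 4) (nat_lit 4) (nat_lit 2) (nat_lit 4) (nat_lit 317) (nat_lit 237) (nat_lit 226)) (XT.lf (nat_lit 0) (nat_lit 21097738413) (nat_lit 152) (nat_lit 57473120758) (nat_lit 0) (nat_lit 18870495043) (nat_lit 2) (nat_lit 5) (nat_lit 4) (nat_lit 4) (nat_lit 2) (nat_lit 4) (nat_lit 318) (nat_lit 237) (nat_lit 225))))))))
noncomputable def xc12 : XT := (XT.nd (nat_lit 1638) (nat_lit 0) (nat_lit 0) (XT.nd (nat_lit 780) (nat_lit 76) (nat_lit 0) (XT.nd (nat_lit 390) (nat_lit 0) (nat_lit 0) (XT.nd (nat_lit 156) (nat_lit 0) (nat_lit 0) (XT.nd (nat_lit 78) (nat_lit 0) (nat_lit 0) (XT.lf (nat_lit 0) (nat_lit 26706923239) (nat_lit 152) (nat_lit 53946735720) (nat_lit 0) (nat_lit 24371008918) (nat_lit 2) (nat_lit 5) (nat_lit 4) (nat_lit 4) (nat_lit 2) (nat_lit 4) (nat_lit 319) (nat_lit 237) (nat_lit 224)) (XT.lf (nat_lit 0) (nat_lit 32629474640) (nat_lit 152) (nat_lit 50399038227) (nat_lit 0) (nat_lit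 30192939068) (nat_lit 2) (nat_lit 5) (nat_lit 4) (nat_lit 4) (nat_lit 2) (nat_lit 4) (nat_lit 320) (nat_lit 237) (nat_lit 223))) (XT.nd (nat_lit 78) (nat_lit 0) (nat_lit 0) (XT.lf (nat_lit 0) (nat_lit 38900489216) (nat_lit 152) (nat_lit 46809004887) (nat_lit 0) (nat_lit 36370785819) (nat_lit 2) (nat_lit 5) (nat_lit 4) (nat_lit 4) (nat_lit 2) (nat_lit 4) (nat_lit 321) (nat_lit 237) (nat_lit 222)) (XT.nd (nat_lit 78) (nat_lit 0) (nat_lit 0) (XT.lf (nat_lit 0) (nat_lit 45557128536) (nat_lit 152) (nat_lit 43155361428) (nat_lit 0) (nat_lit 42941158634) (nat_lit 2) (nat_lit 5) (nat_lit 4) (nat_lit 4) (nat_lit 2) (nat_lit 4) (nat_lit 322) (nat_lit 237) (nat_lit 221)) (XT.lf (nat_lit 0) (nat_lit 52638839350) (nat_lit 152) (nat_lit 39416456629) (nat_lit 0) (nat_lit 49942993055) (nat_lit 2) (nat_lit 5) (nat_lit 4) (nat_lit 4) (nat_lit 2) (nat_lit 4) (nat_lit 323) (nat_lit 237) (nat_lit 220)))))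 (XT.nd (nat_lit 156) (nat_lit 0) (nat_lit 0) (XT.nd (nat_lit 78) (nat_lit 0) (nat_lit 0) (XT.lf (nat_lit 0) (nat_lit 60187587352) (nat_lit 152) (nat_lit 35570134017) (nat_lit 0) (nat_lit 57417781434) (nat_lit 2) (nat_lit 5) (nat_lit 4) (nat_lit 4) (nat_lit 2) (nat_lit 4) (nat_lit 324) (nat_lit 237) (nat_lit 219)) (XT.lf (nat_lit 0) (nat_lit 68248105864) (nat_lit 152) (nat_lit 31593600570) (nat_lit 0) (nat_lit 65409818814) (nat_lit 2) (nat_lit 5) (nat_lit 4) (nat_lit 4) (nat_lit 2) (nat_lit 4) (nat_lit 325) (nat_lit 237) (nat_lit 218))) (XT.nd (nat_lit 78) (nat_lit 0) (nat_lit 0) (XT.lf (nat_lit 0) (nat_lit 76868160922) (nat_lit 152) (nat_lit 27463291644) (nat_lit 0) (nat_lit 73966465415) (nat_lit 2) (nat_lit 5) (nat_lit 4) (nat_lit 4) (nat_lit 2) (nat_lit 4) (nat_lit 326) (nat_lit 237) (nat_lit 217)) (XT.nd (nat_lit 78) (nat_lit 0) (nat_lit 0) (XT.lf (nat_lit 0) (nat_lit 86098834333) (nat_lit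 152) (nat_lit 23154731336) (nat_lit 0) (nat_lit 83138427293) (nat_lit 2) (nat_lit 5) (nat_lit 4) (nat_lit 4) (nat_lit 2) (nat_lit 4) (nat_lit 327) (nat_lit 237) (nat_lit 216)) (XT.lf (nat_lit 0) (nat_lit 95994826385) (nat_lit 152) (nat_lit 18642387436) (nat_lit 0) (nat_lit 92980056813) (nat_lit 2) (nat_lit 5) (nat_lit 4) (nat_lit 4) (nat_lit 2) (nat_lit 4) (nat_lit 328) (nat_lit 237) (nat_lit 215)))))) (XT.nd (nat_lit 390) (nat_lit 0) (nat_lit 0) (XT.nd (nat_lit 156) (nat_lit 76) (nat_lit 0) (XT.nd (nat_lit 78) (nat_lit 0) (nat_lit 0) (XT.lf (nat_lit 0) (nat_lit 106614779992) (nat_lit 152) (nat_lit 13899520127) (nat_lit 0) (nat_lit 103549674744) (nat_lit 2) (nat_lit 5) (nat_lit 4) (nat_lit 4) (nat_lit 2) (nat_lit 4) (nat_lit 329) (nat_lit 237) (nat_lit 214)) (XT.lf (nat_lit 0) (nat_lit 118021628214) (nat_lit 152) (nat_lit 8898023531) (nat_lit 0) (nat_lit 114909915857) (nat_lit 2) (nat_lit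 5) (nat_lit 4) (nat_lit 4) (nat_lit 2) (nat_lit 4) (nat_lit 330) (nat_lit 237) (nat_lit 213))) (XT.nd (nat_lit 78) (nat_lit 76) (nat_lit 0) (XT.lf (nat_lit 0) (nat_lit 130282967187) (nat_lit 152) (nat_lit 3608259148) (nat_lit 0) (nat_lit 127128100101) (nat_lit 2) (nat_lit 5) (nat_lit 4) (nat_lit 4) (nat_lit 2) (nat_lit 4) (nat_lit 331) (nat_lit 237) (nat_lit 212)) (XT.nd (nat_lit 78) (nat_lit 0) (nat_lit 0) (XT.lf (nat_lit 0) (nat_lit 2067285829) (nat_lit 76) (nat_lit 141436446995) (nat_lit 76) (nat_lit 138241621826) (nat_lit 1) (nat_lit 4) (nat_lit 2) (nat_lit 5) (nat_lit 2) (nat_lit 4) (nat_lit 332) (nat_lit 237) (nat_lit 211)) (XT.lf (nat_lit 0) (nat_lit 8226658443) (nat_lit 76) (nat_lit 149567033513) (nat_lit 76) (nat_lit 146335210118) (nat_lit 1) (nat_lit 4) (nat_lit 2) (nat_lit 5) (nat_lit 2) (nat_lit 4) (nat_lit 333) (nat_lit 237) (nat_lit 210))))) (XT.nd (nat_lit 234) (nat_lit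 0) (nat_lit 0) (XT.nd (nat_lit 78) (nat_lit 0) (nat_lit 0) (XT.lf (nat_lit 0) (nat_lit 14787053334) (nat_lit 76) (nat_lit 158392274757) (nat_lit 76) (nat_lit 155126193746) (nat_lit 1) (nat_lit 4) (nat_lit 2) (nat_lit 5) (nat_lit 2) (nat_lit 4) (nat_lit 334) (nat_lit 237) (nat_lit 209)) (XT.nd (nat_lit 78) (nat_lit 0) (nat_lit 0) (XT.lf (nat_lit 0) (nat_lit 21787346918) (nat_lit 76) (nat_lit 167964468452) (nat_lit 76) (nat_lit 164666667428) (nat_lit 1) (nat_lit 4) (nat_lit 2) (nat_lit 5) (nat_lit 2) (nat_lit 4) (nat_lit 335) (nat_lit 237) (nat_lit 208)) (XT.lf (nat_lit 0) (nat_lit 29269022415) (nat_lit 76) (nat_lit 178340338711) (nat_lit 76) (nat_lit 175013167302) (nat_lit 1) (nat_lit 4) (nat_lit 2) (nat_lit 5) (nat_lit 2) (nat_lit 4) (nat_lit 336) (nat_lit 237) (nat_lit 207)))) (XT.nd (nat_lit 78) (nat_lit 0) (nat_lit 0) (XT.lf (nat_lit 0) (nat_lit 37276415681) (nat_lit 76) (nat_lit 189581372172)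 (nat_lit 76) (nat_lit 186227005963) (nat_lit 1) (nat_lit 4) (nat_lit 2) (nat_lit 5) (nat_lit 2) (nat_lit 4) (nat_lit 337) (nat_lit 237) (nat_lit 206)) (XT.nd (nat_lit 78) (nat_lit 0) (nat_lit 0) (XT.lf (nat_lit 0) (nat_lit 45856977934) (nat_lit 76) (nat_lit 201754182365) (nat_lit 76) (nat_lit 198374635786) (nat_lit 1) (nat_lit 4) (nat_lit 2) (nat_lit 5) (nat_lit 2) (nat_lit 4) (nat_lit 338) (nat_lit 237) (nat_lit 205)) (XT.lf (nat_lit 0) (nat_lit 55061556951) (nat_lit 76) (nat_lit 214930904463) (nat_lit 76) (nat_lit 211528042726) (nat_lit 1) (nat_lit 4) (nat_lit 2) (nat_lit 5) (nat_lit 2) (nat_lit 4) (nat_lit 339) (nat_lit 237) (nat_lit 204))))))) (XT.nd (nat_lit 37830) (nat_lit 0) (nat_lit 152) (XT.nd (nat_lit 390) (nat_lit 0) (nat_lit 0) (XT.nd (nat_lit 156) (nat_lit 0) (nat_lit 0) (XT.nd (nat_lit 78) (nat_lit 0) (nat_lit 0) (XT.lf (nat_lit 0) (nat_lit 64944698386) (nat_lit 76) (nat_lit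 229189622745) (nat_lit 76) (nat_lit 225765172899) (nat_lit 1) (nat_lit 4) (nat_lit 2) (nat_lit 5) (nat_lit 2) (nat_lit 4) (nat_lit 340) (nat_lit 237) (nat_lit 203)) (XT.lf (nat_lit 0) (nat_lit 75564969002) (nat_lit 76) (nat_lit 244614833319) (nat_lit 76) (nat_lit 241170394483) (nat_lit 1) (nat_lit 4) (nat_lit 2) (nat_lit 5) (nat_lit 2) (nat_lit 4) (nat_lit 341) (nat_lit 237) (nat_lit 202))) (XT.nd (nat_lit 78) (nat_lit 0) (nat_lit 0) (XT.lf (nat_lit 0) (nat_lit 86985303736) (nat_lit 76) (nat_lit 261297944840) (nat_lit 76) (nat_lit 257834997680) (nat_lit 1) (nat_lit 4) (nat_lit 2) (nat_lit 5) (nat_lit 2) (nat_lit 4) (nat_lit 342) (nat_lit 237) (nat_lit 201)) (XT.nd (nat_lit 78) (nat_lit 0) (nat_lit 0) (XT.lf (nat_lit 0) (nat_lit 99273378647) (nat_lit 76) (nat_lit 279337820191) (nat_lit 76) (nat_lit 275857735695) (nat_lit 1) (nat_lit 4) (nat_lit 2) (nat_lit 5) (nat_lit 2) (nat_lit 4) (nat_lit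 343) (nat_lit 237) (nat_lit 200)) (XT.lf (nat_lit 0) (nat_lit 112502011955) (nat_lit 76) (nat_lit 298841362338) (nat_lit 76) (nat_lit 295345409937) (nat_lit 1) (nat_lit 4) (nat_lit 2) (nat_lit 5) (nat_lit 2) (nat_lit 4) (nat_lit 344) (nat_lit 237) (nat_lit 199))))) (XT.nd (nat_lit 234) (nat_lit 0) (nat_lit 0) (XT.nd (nat_lit 78) (nat_lit 0) (nat_lit 0) (XT.lf (nat_lit 0) (nat_lit 126749595563) (nat_lit 76) (nat_lit 319924147827) (nat_lit 76) (nat_lit 316413502921) (nat_lit 1) (nat_lit 4) (nat_lit 2) (nat_lit 5) (nat_lit 2) (nat_lit 4) (nat_lit 345) (nat_lit 237) (nat_lit 198)) (XT.nd (nat_lit 78) (nat_lit 0) (nat_lit 0) (XT.lf (nat_lit 0) (nat_lit 142100559594) (nat_lit 76) (nat_lit 342711111682) (nat_lit 76) (nat_lit 339186862606) (nat_lit 1) (nat_lit 4) (nat_lit 2) (nat_lit 5) (nat_lit 2) (nat_lit 4) (nat_lit 346) (nat_lit 237) (nat_lit 197)) (XT.lf (nat_lit 0) (nat_lit 158645872725)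 (nat_lit 76) (nat_lit 367337287764) (nat_lit 76) (nat_lit 363800442233) (nat_lit 1) (nat_lit 4) (nat_lit 2) (nat_lit 5) (nat_lit 2) (nat_lit 4) (nat_lit 347) (nat_lit 237) (nat_lit 196)))) (XT.nd (nat_lit 78) (nat_lit 0) (nat_lit 0) (XT.lf (nat_lit 0) (nat_lit 176483581256) (nat_lit 76) (nat_lit 393948608967) (nat_lit 76) (nat_lit 390400100053) (nat_lit 1) (nat_lit 4) (nat_lit 2) (nat_lit 5) (nat_lit 2) (nat_lit 4) (nat_lit 348) (nat_lit 237) (nat_lit 195)) (XT.nd (nat_lit 78) (nat_lit 0) (nat_lit 0) (XT.lf (nat_lit 0) (nat_lit 195719390126) (nat_lit 76) (nat_lit 422702772010) (nat_lit 76) (nat_lit 419143463667) (nat_lit 1) (nat_lit 4) (nat_lit 2) (nat_lit 5) (nat_lit 2) (nat_lit 4) (nat_lit 349) (nat_lit 237) (nat_lit 194)) (XT.lf (nat_lit 0) (nat_lit 216467289314) (nat_lit 76) (nat_lit 453770171934) (nat_lit 76) (nat_lit 450200864120) (nat_lit 1) (nat_lit 4) (nat_lit 2) (nat_lit 5) (nat_lit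 2) (nat_lit 4) (nat_lit 350) (nat_lit 237) (nat_lit 193)))))) (XT.nd (nat_lit 390) (nat_lit 152) (nat_lit 0) (XT.nd (nat_lit 156) (nat_lit 0) (nat_lit 0) (XT.nd (nat_lit 78) (nat_lit 152) (nat_lit 0) (XT.lf (nat_lit 0) (nat_lit 14343085002) (nat_lit 76) (nat_lit 1711371660) (nat_lit 76) (nat_lit 1711371660) (nat_lit 7) (nat_lit 4) (nat_lit 8) (nat_lit 5) (nat_lit 8) (nat_lit 4) (nat_lit 304) (nat_lit 238) (nat_lit 238)) (XT.lf (nat_lit 0) (nat_lit 2798084745) (nat_lit 152) (nat_lit 32753492042) (nat_lit 0) (nat_lit 2487763443) (nat_lit 5) (nat_lit 5) (nat_lit 7) (nat_lit 4) (nat_lit 5) (nat_lit 4) (nat_lit 305) (nat_lit 238) (nat_lit 237))) (XT.nd (nat_lit 78) (nat_lit 0) (nat_lit 0) (XT.lf (nat_lit 0) (nat_lit 9241219248) (nat_lit 152) (nat_lit 22867927840) (nat_lit 0) (nat_lit 8643563408) (nat_lit 5) (nat_lit 5) (nat_lit 7) (nat_lit 4) (nat_lit 5) (nat_lit 4) (nat_lit 306) (nat_lit 238)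 (nat_lit 236)) (XT.nd (nat_lit 78) (nat_lit 0) (nat_lit 0) (XT.lf (nat_lit 0) (nat_lit 15888731181) (nat_lit 152) (nat_lit 12785045567) (nat_lit 0) (nat_lit 15025024842) (nat_lit 5) (nat_lit 5) (nat_lit 7) (nat_lit 4) (nat_lit 5) (nat_lit 4) (nat_lit 307) (nat_lit 238) (nat_lit 235)) (XT.lf (nat_lit 0) (nat_lit 22780013206) (nat_lit 152) (nat_lit 2445094811) (nat_lit 0) (nat_lit 21669963813) (nat_lit 5) (nat_lit 5) (nat_lit 7) (nat_lit 4) (nat_lit 5) (nat_lit 4) (nat_lit 308) (nat_lit 238) (nat_lit 234))))) (XT.nd (nat_lit 234) (nat_lit 76) (nat_lit 0) (XT.nd (nat_lit 78) (nat_lit 0) (nat_lit 0) (XT.lf (nat_lit 0) (nat_lit 8484763634) (nat_lit 76) (nat_lit 21603609855) (nat_lit 76) (nat_lit 20265465042) (nat_lit 4) (nat_lit 4) (nat_lit 5) (nat_lit 5) (nat_lit 5) (nat_lit 4) (nat_lit 309) (nat_lit 238) (nat_lit 233)) (XT.nd (nat_lit 78) (nat_lit 0) (nat_lit 0) (XT.lf (nat_lit 0) (nat_lit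 19889584673) (nat_lit 76) (nat_lit 17879870486) (nat_lit 76) (nat_lit 16330526210) (nat_lit 4) (nat_lit 4) (nat_lit 5) (nat_lit 5) (nat_lit 5) (nat_lit 4) (nat_lit 310) (nat_lit 238) (nat_lit 232)) (XT.lf (nat_lit 0) (nat_lit 31756106555) (nat_lit 76) (nat_lit 14073232172) (nat_lit 76) (nat_lit 12328332836) (nat_lit 4) (nat_lit 4) (nat_lit 5) (nat_lit 5) (nat_lit 5) (nat_lit 4) (nat_lit 311) (nat_lit 238) (nat_lit 231)))) (XT.nd (nat_lit 78) (nat_lit 76) (nat_lit 0) (XT.lf (nat_lit 0) (nat_lit 44154649407) (nat_lit 76) (nat_lit 10161137054) (nat_lit 76) (nat_lit 8235168219) (nat_lit 4) (nat_lit 4) (nat_lit 5) (nat_lit 5) (nat_lit 5) (nat_lit 4) (nat_lit 312) (nat_lit 238) (nat_lit 230)) (XT.nd (nat_lit 78) (nat_lit 76) (nat_lit 0) (XT.lf (nat_lit 0) (nat_lit 57158686078) (nat_lit 76) (nat_lit 6120402348) (nat_lit 76) (nat_lit 4026776570) (nat_lit 4) (nat_lit 4) (nat_lit 5) (nat_lit 5)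 (nat_lit 5) (nat_lit 4) (nat_lit 313) (nat_lit 238) (nat_lit 229)) (XT.lf (nat_lit 0) (nat_lit 311481736) (nat_lit 152) (nat_lit 1610326128) (nat_lit 76) (nat_lit 70528520693) (nat_lit 3) (nat_lit 5) (nat_lit 5) (nat_lit 5) (nat_lit 4) (nat_lit 4) (nat_lit 314) (nat_lit 238) (nat_lit 228))))))))
noncomputable def xc13 : XT := (XT.nd (nat_lit 1638) (nat_lit 0) (nat_lit 0) (XT.nd (nat_lit 780) (nat_lit 76) (nat_lit 0) (XT.nd (nat_lit 390) (nat_lit 0) (nat_lit 0) (XT.nd (nat_lit 156) (nat_lit 0) (nat_lit 0) (XT.nd (nat_lit 78) (nat_lit 0) (nat_lit 0) (XT.lf (nat_lit 0) (nat_lit 4838977848) (nat_lit 152) (nat_lit 70604649314) (nat_lit 0) (nat_lit 2560308806) (nat_lit 2) (nat_lit 5) (nat_lit 4) (nat_lit 4) (nat_lit 2) (nat_lit 4) (nat_lit 315) (nat_lit 238) (nat_lit 227)) (XT.lf (nat_lit 0) (nat_lit 9619064572) (nat_lit 152) (nat_lit 67174652592) (nat_lit 0) (nat_lit 7213641732) (nat_lit 2)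 (nat_lit 5) (nat_lit 4) (nat_lit 4) (nat_lit 2) (nat_lit 4) (nat_lit 316) (nat_lit 238) (nat_lit 226))) (XT.nd (nat_lit 78) (nat_lit 0) (nat_lit 0) (XT.lf (nat_lit 0) (nat_lit 14623664751) (nat_lit 152) (nat_lit 63774451325) (nat_lit 0) (nat_lit 12100877284) (nat_lit 2) (nat_lit 5) (nat_lit 4) (nat_lit 4) (nat_lit 2) (nat_lit 4) (nat_lit 317) (nat_lit 238) (nat_lit 225)) (XT.nd (nat_lit 78) (nat_lit 0) (nat_lit 0) (XT.lf (nat_lit 0) (nat_lit 19882435276) (nat_lit 152) (nat_lit 60383896173) (nat_lit 0) (nat_lit 17250976858) (nat_lit 2) (nat_lit 5) (nat_lit 4) (nat_lit 4) (nat_lit 2) (nat_lit 4) (nat_lit 318) (nat_lit 238) (nat_lit 224)) (XT.lf (nat_lit 0) (nat_lit 25426539231) (nat_lit 152) (nat_lit 56982894956) (nat_lit 0) (nat_lit 22694459563) (nat_lit 2) (nat_lit 5) (nat_lit 4) (nat_lit 4) (nat_lit 2) (nat_lit 4) (nat_lit 319) (nat_lit 238) (nat_lit 223))))) (XT.nd (nat_lit 156) (nat_lit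 0) (nat_lit 0) (XT.nd (nat_lit 78) (nat_lit 0) (nat_lit 0) (XT.lf (nat_lit 0) (nat_lit 31288830566) (nat_lit 152) (nat_lit 53551293594) (nat_lit 0) (nat_lit 28463583073) (nat_lit 2) (nat_lit 5) (nat_lit 4) (nat_lit 4) (nat_lit 2) (nat_lit 4) (nat_lit 320) (nat_lit 238) (nat_lit 222)) (XT.lf (nat_lit 0) (nat_lit 37504048785) (nat_lit 152) (nat_lit 50068756671) (nat_lit 0) (nat_lit 34592534787) (nat_lit 2) (nat_lit 5) (nat_lit 4) (nat_lit 4) (nat_lit 2) (nat_lit 4) (nat_lit 321) (nat_lit 238) (nat_lit 221))) (XT.nd (nat_lit 78) (nat_lit 0) (nat_lit 0) (XT.lf (nat_lit 0) (nat_lit 44109024811) (nat_lit 152) (nat_lit 46514646932) (nat_lit 0) (nat_lit 41117634420) (nat_lit 2) (nat_lit 5) (nat_lit 4) (nat_lit 4) (nat_lit 2) (nat_lit 4) (nat_lit 322) (nat_lit 238) (nat_lit 220)) (XT.nd (nat_lit 78) (nat_lit 0) (nat_lit 0) (XT.lf (nat_lit 0) (nat_lit 51142899242) (nat_lit 152) (nat_lit 42867902984)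 (nat_lit 0) (nat_lit 48077549227) (nat_lit 2) (nat_lit 5) (nat_lit 4) (nat_lit 4) (nat_lit 2) (nat_lit 4) (nat_lit 323) (nat_lit 238) (nat_lit 219)) (XT.lf (nat_lit 0) (nat_lit 58647354297) (nat_lit 152) (nat_lit 39106914494) (nat_lit 0) (nat_lit 55513523150) (nat_lit 2) (nat_lit 5) (nat_lit 4) (nat_lit 4) (nat_lit 2) (nat_lit 4) (nat_lit 324) (nat_lit 238) (nat_lit 218)))))) (XT.nd (nat_lit 390) (nat_lit 76) (nat_lit 0) (XT.nd (nat_lit 156) (nat_lit 0) (nat_lit 0) (XT.nd (nat_lit 78) (nat_lit 0) (nat_lit 0) (XT.lf (nat_lit 0) (nat_lit 66666860821) (nat_lit 152) (nat_lit 35209394123) (nat_lit 0) (nat_lit 63469621218) (nat_lit 2) (nat_lit 5) (nat_lit 4) (nat_lit 4) (nat_lit 2) (nat_lit 4) (nat_lit 325) (nat_lit 238) (nat_lit 217)) (XT.lf (nat_lit 0) (nat_lit 75248941816) (nat_lit 152) (nat_lit 31152245453) (nat_lit 0) (nat_lit 71992990679) (nat_lit 2) (nat_lit 5) (nat_lit 4) (nat_lit 4)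 (nat_lit 2) (nat_lit 4) (nat_lit 326) (nat_lit 238) (nat_lit 216))) (XT.nd (nat_lit 78) (nat_lit 0) (nat_lit 0) (XT.lf (nat_lit 0) (nat_lit 84444454057) (nat_lit 152) (nat_lit 26911426122) (nat_lit 0) (nat_lit 81134140390) (nat_lit 2) (nat_lit 5) (nat_lit 4) (nat_lit 4) (nat_lit 2) (nat_lit 4) (nat_lit 327) (nat_lit 238) (nat_lit 215)) (XT.nd (nat_lit 78) (nat_lit 0) (nat_lit 0) (XT.lf (nat_lit 0) (nat_lit 94307889470) (nat_lit 152) (nat_lit 22461805348) (nat_lit 0) (nat_lit 90947240126) (nat_lit 2) (nat_lit 5) (nat_lit 4) (nat_lit 4) (nat_lit 2) (nat_lit 4) (nat_lit 328) (nat_lit 238) (nat_lit 214)) (XT.lf (nat_lit 0) (nat_lit 104897698042) (nat_lit 152) (nat_lit 17777015010) (nat_lit 0) (nat_lit 101490441589) (nat_lit 2) (nat_lit 5) (nat_lit 4) (nat_lit 4) (nat_lit 2) (nat_lit 4) (nat_lit 329) (nat_lit 238) (nat_lit 213))))) (XT.nd (nat_lit 234) (nat_lit 76) (nat_lit 0) (XT.nd (nat_lit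 78) (nat_lit 0) (nat_lit 0) (XT.lf (nat_lit 0) (nat_lit 116276634194) (nat_lit 152) (nat_lit 12829293385) (nat_lit 0) (nat_lit 112826223011) (nat_lit 2) (nat_lit 5) (nat_lit 4) (nat_lit 4) (nat_lit 2) (nat_lit 4) (nat_lit 330) (nat_lit 238) (nat_lit 212)) (XT.nd (nat_lit 78) (nat_lit 0) (nat_lit 0) (XT.lf (nat_lit 0) (nat_lit 128512128658) (nat_lit 152) (nat_lit 7589320642) (nat_lit 0) (nat_lit 125021759392) (nat_lit 2) (nat_lit 5) (nat_lit 4) (nat_lit 4) (nat_lit 2) (nat_lit 4) (nat_lit 331) (nat_lit 238) (nat_lit 211)) (XT.lf (nat_lit 0) (nat_lit 141676688069) (nat_lit 152) (nat_lit 2026045092) (nat_lit 0) (nat_lit 138149320578) (nat_lit 2) (nat_lit 5) (nat_lit 4) (nat_lit 4) (nat_lit 2) (nat_lit 4) (nat_lit 332) (nat_lit 238) (nat_lit 210)))) (XT.nd (nat_lit 78) (nat_lit 0) (nat_lit 0) (XT.lf (nat_lit 0) (nat_lit 4022237545) (nat_lit 76) (nat_lit 151888885486) (nat_lit 76) (nat_lit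 148327260379) (nat_lit 1) (nat_lit 4) (nat_lit 2) (nat_lit 5) (nat_lit 2) (nat_lit 4) (nat_lit 333) (nat_lit 238) (nat_lit 209)) (XT.nd (nat_lit 78) (nat_lit 0) (nat_lit 0) (XT.lf (nat_lit 0) (nat_lit 10541799312) (nat_lit 76) (nat_lit 160733806130) (nat_lit 76) (nat_lit 157140461008) (nat_lit 1) (nat_lit 4) (nat_lit 2) (nat_lit 5) (nat_lit 2) (nat_lit 4) (nat_lit 334) (nat_lit 238) (nat_lit 208)) (XT.lf (nat_lit 0) (nat_lit 17504284447) (nat_lit 76) (nat_lit 170324221492) (nat_lit 76) (nat_lit 166701505987) (nat_lit 1) (nat_lit 4) (nat_lit 2) (nat_lit 5) (nat_lit 2) (nat_lit 4) (nat_lit 335) (nat_lit 238) (nat_lit 207))))))) (XT.nd (nat_lit 858) (nat_lit 0) (nat_lit 0) (XT.nd (nat_lit 390) (nat_lit 0) (nat_lit 0) (XT.nd (nat_lit 156) (nat_lit 0) (nat_lit 0) (XT.nd (nat_lit 78) (nat_lit 0) (nat_lit 0) (XT.lf (nat_lit 0) (nat_lit 24950952122) (nat_lit 76) (nat_lit 180716963665) (nat_lit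 76) (nat_lit 177067053360) (nat_lit 1) (nat_lit 4) (nat_lit 2) (nat_lit 5) (nat_lit 2) (nat_lit 4) (nat_lit 336) (nat_lit 238) (nat_lit 206)) (XT.lf (nat_lit 0) (nat_lit 32925930737) (nat_lit 76) (nat_lit 191973619268) (nat_lit 76) (nat_lit 188298528592) (nat_lit 1) (nat_lit 4) (nat_lit 2) (nat_lit 5) (nat_lit 2) (nat_lit 4) (nat_lit 337) (nat_lit 238) (nat_lit 205))) (XT.nd (nat_lit 78) (nat_lit 0) (nat_lit 0) (XT.lf (nat_lit 0) (nat_lit 41476479424) (nat_lit 76) (nat_lit 204160894408) (nat_lit 76) (nat_lit 200462488574) (nat_lit 1) (nat_lit 4) (nat_lit 2) (nat_lit 5) (nat_lit 2) (nat_lit 4) (nat_lit 338) (nat_lit 238) (nat_lit 204)) (XT.nd (nat_lit 78) (nat_lit 0) (nat_lit 0) (XT.lf (nat_lit 0) (nat_lit 50653268103) (nat_lit 76) (nat_lit 217351009975) (nat_lit 76) (nat_lit 213631016033) (nat_lit 1) (nat_lit 4) (nat_lit 2) (nat_lit 5) (nat_lit 2) (nat_lit 4) (nat_lit 339) (nat_lit 238)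 (nat_lit 203)) (XT.lf (nat_lit 0) (nat_lit 60510677743) (nat_lit 76) (nat_lit 231622129617) (nat_lit 76) (nat_lit 227882146685) (nat_lit 1) (nat_lit 4) (nat_lit 2) (nat_lit 5) (nat_lit 2) (nat_lit 4) (nat_lit 340) (nat_lit 238) (nat_lit 202))))) (XT.nd (nat_lit 234) (nat_lit 0) (nat_lit 0) (XT.nd (nat_lit 78) (nat_lit 0) (nat_lit 0) (XT.lf (nat_lit 0) (nat_lit 71107122623) (nat_lit 76) (nat_lit 247058822932) (nat_lit 76) (nat_lit 243300331676) (nat_lit 1) (nat_lit 4) (nat_lit 2) (nat_lit 5) (nat_lit 2) (nat_lit 4) (nat_lit 341) (nat_lit 238) (nat_lit 201)) (XT.nd (nat_lit 78) (nat_lit 0) (nat_lit 0) (XT.lf (nat_lit 0) (nat_lit 82505396491) (nat_lit 76) (nat_lit 263752566621) (nat_lit 76) (nat_lit 259976938028) (nat_lit 1) (nat_lit 4) (nat_lit 2) (nat_lit 5) (nat_lit 2) (nat_lit 4) (nat_lit 342) (nat_lit 238) (nat_lit 200)) (XT.lf (nat_lit 0) (nat_lit 94773044673) (nat_lit 76) (nat_lit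 281802286572) (nat_lit 76) (nat_lit 278010790074) (nat_lit 1) (nat_lit 4) (nat_lit 2) (nat_lit 5) (nat_lit 2) (nat_lit 4) (nat_lit 343) (nat_lit 238) (nat_lit 199)))) (XT.nd (nat_lit 78) (nat_lit 0) (nat_lit 0) (XT.lf (nat_lit 0) (nat_lit 107982764344) (nat_lit 76) (nat_lit 301314944089) (nat_lit 76) (nat_lit 297508755087) (nat_lit 1) (nat_lit 4) (nat_lit 2) (nat_lit 5) (nat_lit 2) (nat_lit 4) (nat_lit 344) (nat_lit 238) (nat_lit 198)) (XT.nd (nat_lit 78) (nat_lit 0) (nat_lit 0) (XT.lf (nat_lit 0) (nat_lit 122212835324) (nat_lit 76) (nat_lit 322406169735) (nat_lit 76) (nat_lit 318586376563) (nat_lit 1) (nat_lit 4) (nat_lit 2) (nat_lit 5) (nat_lit 2) (nat_lit 4) (nat_lit 345) (nat_lit 238) (nat_lit 197)) (XT.lf (nat_lit 0) (nat_lit 137547583960) (nat_lit 76) (nat_lit 345200948551) (nat_lit 76) (nat_lit 341368558924) (nat_lit 1) (nat_lit 4) (nat_lit 2) (nat_lit 5) (nat_lit 2) (nat_lit 4)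 (nat_lit 346) (nat_lit 238) (nat_lit 196)))))) (XT.nd (nat_lit 37206) (nat_lit 0) (nat_lit 304) (XT.nd (nat_lit 156) (nat_lit 0) (nat_lit 0) (XT.nd (nat_lit 78) (nat_lit 0) (nat_lit 0) (XT.lf (nat_lit 0) (nat_lit 154077882836) (nat_lit 76) (nat_lit 369834360707) (nat_lit 76) (nat_lit 365990307697) (nat_lit 1) (nat_lit 4) (nat_lit 2) (nat_lit 5) (nat_lit 2) (nat_lit 4) (nat_lit 347) (nat_lit 238) (nat_lit 195)) (XT.lf (nat_lit 0) (nat_lit 171901689279) (nat_lit 76) (nat_lit 396452381980) (nat_lit 76) (nat_lit 392597529540) (nat_lit 1) (nat_lit 4) (nat_lit 2) (nat_lit 5) (nat_lit 2) (nat_lit 4) (nat_lit 348) (nat_lit 238) (nat_lit 194))) (XT.nd (nat_lit 78) (nat_lit 0) (nat_lit 0) (XT.lf (nat_lit 0) (nat_lit 191124625845) (nat_lit 76) (nat_lit 425212748791) (nat_lit 76) (nat_lit 421347896880) (nat_lit 1) (nat_lit 4) (nat_lit 2) (nat_lit 5) (nat_lit 2) (nat_lit 4) (nat_lit 349) (nat_lit 238)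 (nat_lit 193)) (XT.nd (nat_lit 36894) (nat_lit 0) (nat_lit 456) (XT.lf (nat_lit 0) (nat_lit 211860606233) (nat_lit 76) (nat_lit 456285892944) (nat_lit 76) (nat_lit 452411782263) (nat_lit 1) (nat_lit 4) (nat_lit 2) (nat_lit 5) (nat_lit 2) (nat_lit 4) (nat_lit 350) (nat_lit 238) (nat_lit 192)) (XT.lf (nat_lit 0) (nat_lit 627810859) (nat_lit 76) (nat_lit 7457064581) (nat_lit 76) (nat_lit 7457064581) (nat_lit 7) (nat_lit 4) (nat_lit 8) (nat_lit 5) (nat_lit 8) (nat_lit 4) (nat_lit 302) (nat_lit 239) (nat_lit 239))))) (XT.nd (nat_lit 234) (nat_lit 0) (nat_lit 0) (XT.nd (nat_lit 78) (nat_lit 152) (nat_lit 0) (XT.lf (nat_lit 0) (nat_lit 14604638568) (nat_lit 76) (nat_lit 9482603875) (nat_lit 76) (nat_lit 9130699519) (nat_lit 7) (nat_lit 4) (nat_lit 8) (nat_lit 5) (nat_lit 8) (nat_lit 4) (nat_lit 303) (nat_lit 239) (nat_lit 238)) (XT.nd (nat_lit 78) (nat_lit 152) (nat_lit 0) (XT.lf (nat_lit 0)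 (nat_lit 28375608187) (nat_lit 76) (nat_lit 3921028335) (nat_lit 76) (nat_lit 3243286613) (nat_lit 7) (nat_lit 4) (nat_lit 8) (nat_lit 5) (nat_lit 8) (nat_lit 4) (nat_lit 304) (nat_lit 239) (nat_lit 237)) (XT.lf (nat_lit 0) (nat_lit 2797272553) (nat_lit 152) (nat_lit 33394501274) (nat_lit 0) (nat_lit 1864469707) (nat_lit 5) (nat_lit 5) (nat_lit 7) (nat_lit 4) (nat_lit 5) (nat_lit 4) (nat_lit 305) (nat_lit 239) (nat_lit 236)))) (XT.nd (nat_lit 78) (nat_lit 0) (nat_lit 0) (XT.lf (nat_lit 0) (nat_lit 9090852570) (nat_lit 152) (nat_lit 23794286622) (nat_lit 0) (nat_lit 7891999226) (nat_lit 5) (nat_lit 5) (nat_lit 7) (nat_lit 4) (nat_lit 5) (nat_lit 4) (nat_lit 306) (nat_lit 239) (nat_lit 235)) (XT.nd (nat_lit 78) (nat_lit 0) (nat_lit 0) (XT.lf (nat_lit 0) (nat_lit 15599888127) (nat_lit 152) (nat_lit 13975616897) (nat_lit 0) (nat_lit 14154691728) (nat_lit 5) (nat_lit 5) (nat_lit 7) (nat_lit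 4) (nat_lit 5) (nat_lit 4) (nat_lit 307) (nat_lit 239) (nat_lit 234)) (XT.lf (nat_lit 0) (nat_lit 22362951285) (nat_lit 152) (nat_lit 3880307389) (nat_lit 0) (nat_lit 20689659466) (nat_lit 5) (nat_lit 5) (nat_lit 7) (nat_lit 4) (nat_lit 5) (nat_lit 4) (nat_lit 308) (nat_lit 239) (nat_lit 233))))))))
noncomputable def xc14 : XT := (XT.nd (nat_lit 1638) (nat_lit 76) (nat_lit 0) (XT.nd (nat_lit 780) (nat_lit 0) (nat_lit 0) (XT.nd (nat_lit 390) (nat_lit 152) (nat_lit 0) (XT.nd (nat_lit 156) (nat_lit 0) (nat_lit 0) (XT.nd (nat_lit 78) (nat_lit 0) (nat_lit 0) (XT.lf (nat_lit 0) (nat_lit 6768087010) (nat_lit 76) (nat_lit 22757701253) (nat_lit 76) (nat_lit 20873209970) (nat_lit 4) (nat_lit 4) (nat_lit 5) (nat_lit 5) (nat_lit 5) (nat_lit 4) (nat_lit 309) (nat_lit 239) (nat_lit 232)) (XT.lf (nat_lit 0) (nat_lit 17956232645) (nat_lit 76) (nat_lit 19137327366) (nat_lit 76) (nat_lit 17057281025) (nat_lit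 4) (nat_lit 4) (nat_lit 5) (nat_lit 5) (nat_lit 5) (nat_lit 4) (nat_lit 310) (nat_lit 239) (nat_lit 231))) (XT.nd (nat_lit 78) (nat_lit 0) (nat_lit 0) (XT.lf (nat_lit 0) (nat_lit 29622129152) (nat_lit 76) (nat_lit 15426397831) (nat_lit 76) (nat_lit 13165281991) (nat_lit 4) (nat_lit 4) (nat_lit 5) (nat_lit 5) (nat_lit 5) (nat_lit 4) (nat_lit 311) (nat_lit 239) (nat_lit 230)) (XT.nd (nat_lit 78) (nat_lit 0) (nat_lit 0) (XT.lf (nat_lit 0) (nat_lit 41834907768) (nat_lit 76) (nat_lit 11602921954) (nat_lit 76) (nat_lit 9174149171) (nat_lit 4) (nat_lit 4) (nat_lit 5) (nat_lit 5) (nat_lit 5) (nat_lit 4) (nat_lit 312) (nat_lit 239) (nat_lit 229)) (XT.lf (nat_lit 0) (nat_lit 54666940517) (nat_lit 76) (nat_lit 7644242101) (nat_lit 76) (nat_lit 5060231407) (nat_lit 4) (nat_lit 4) (nat_lit 5) (nat_lit 5) (nat_lit 5) (nat_lit 4) (nat_lit 313) (nat_lit 239) (nat_lit 228))))) (XT.nd (nat_lit 156) (nat_lit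 0) (nat_lit 0) (XT.nd (nat_lit 78) (nat_lit 152) (nat_lit 0) (XT.lf (nat_lit 0) (nat_lit 68194269072) (nat_lit 76) (nat_lit 3526899427) (nat_lit 76) (nat_lit 799149927) (nat_lit 4) (nat_lit 4) (nat_lit 5) (nat_lit 5) (nat_lit 5) (nat_lit 4) (nat_lit 314) (nat_lit 239) (nat_lit 227)) (XT.lf (nat_lit 0) (nat_lit 3602360788) (nat_lit 152) (nat_lit 73602039073) (nat_lit 0) (nat_lit 877750324) (nat_lit 2) (nat_lit 5) (nat_lit 4) (nat_lit 4) (nat_lit 2) (nat_lit 4) (nat_lit 315) (nat_lit 239) (nat_lit 226))) (XT.nd (nat_lit 78) (nat_lit 0) (nat_lit 0) (XT.lf (nat_lit 0) (nat_lit 8306537184) (nat_lit 152) (nat_lit 70318290040) (nat_lit 0) (nat_lit 5464562093) (nat_lit 2) (nat_lit 5) (nat_lit 4) (nat_lit 4) (nat_lit 2) (nat_lit 4) (nat_lit 316) (nat_lit 239) (nat_lit 225)) (XT.nd (nat_lit 78) (nat_lit 0) (nat_lit 0) (XT.lf (nat_lit 0) (nat_lit 13240850022) (nat_lit 152) (nat_lit 67053503300) (nat_lit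 0) (nat_lit 10290203980) (nat_lit 2) (nat_lit 5) (nat_lit 4) (nat_lit 4) (nat_lit 2) (nat_lit 4) (nat_lit 317) (nat_lit 239) (nat_lit 224)) (XT.lf (nat_lit 0) (nat_lit 18434539676) (nat_lit 152) (nat_lit 63788331969) (nat_lit 0) (nat_lit 15383272383) (nat_lit 2) (nat_lit 5) (nat_lit 4) (nat_lit 4) (nat_lit 2) (nat_lit 4) (nat_lit 318) (nat_lit 239) (nat_lit 223)))))) (XT.nd (nat_lit 390) (nat_lit 0) (nat_lit 0) (XT.nd (nat_lit 156) (nat_lit 0) (nat_lit 0) (XT.nd (nat_lit 78) (nat_lit 0) (nat_lit 0) (XT.lf (nat_lit 0) (nat_lit 23918383566) (nat_lit 152) (nat_lit 60503426883) (nat_lit 0) (nat_lit 20773948448) (nat_lit 2) (nat_lit 5) (nat_lit 4) (nat_lit 4) (nat_lit 2) (nat_lit 4) (nat_lit 319) (nat_lit 239) (nat_lit 222)) (XT.lf (nat_lit 0) (nat_lit 29724878544) (nat_lit 152) (nat_lit 57179321939) (nat_lit 0) (nat_lit 26494176921) (nat_lit 2) (nat_lit 5) (nat_lit 4) (nat_lit 4) (nat_lit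 2) (nat_lit 4) (nat_lit 320) (nat_lit 239) (nat_lit 221))) (XT.nd (nat_lit 78) (nat_lit 0) (nat_lit 0) (XT.lf (nat_lit 0) (nat_lit 35888433469) (nat_lit 152) (nat_lit 53796318736) (nat_lit 0) (nat_lit 32577855454) (nat_lit 2) (nat_lit 5) (nat_lit 4) (nat_lit 4) (nat_lit 2) (nat_lit 4) (nat_lit 321) (nat_lit 239) (nat_lit 220)) (XT.nd (nat_lit 78) (nat_lit 0) (nat_lit 0) (XT.lf (nat_lit 0) (nat_lit 42445573112) (nat_lit 152) (nat_lit 50334369847) (nat_lit 0) (nat_lit 39061035473) (nat_lit 2) (nat_lit 5) (nat_lit 4) (nat_lit 4) (nat_lit 2) (nat_lit 4) (nat_lit 322) (nat_lit 239) (nat_lit 219)) (XT.lf (nat_lit 0) (nat_lit 49435154596) (nat_lit 152) (nat_lit 46772960022) (nat_lit 0) (nat_lit 45982135824) (nat_lit 2) (nat_lit 5) (nat_lit 4) (nat_lit 4) (nat_lit 2) (nat_lit 4) (nat_lit 323) (nat_lit 239) (nat_lit 218))))) (XT.nd (nat_lit 234) (nat_lit 0) (nat_lit 0) (XT.nd (nat_lit 78) (nat_lit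 0) (nat_lit 0) (XT.lf (nat_lit 0) (nat_lit 56898597662) (nat_lit 152) (nat_lit 43090984608) (nat_lit 0) (nat_lit 53382170435) (nat_lit 2) (nat_lit 5) (nat_lit 4) (nat_lit 4) (nat_lit 2) (nat_lit 4) (nat_lit 324) (nat_lit 239) (nat_lit 217)) (XT.nd (nat_lit 78) (nat_lit 0) (nat_lit 0) (XT.lf (nat_lit 0) (nat_lit 64880130123) (nat_lit 152) (nat_lit 39266624492) (nat_lit 0) (nat_lit 61304991362) (nat_lit 2) (nat_lit 5) (nat_lit 4) (nat_lit 4) (nat_lit 2) (nat_lit 4) (nat_lit 325) (nat_lit 239) (nat_lit 216)) (XT.lf (nat_lit 0) (nat_lit 73427049949) (nat_lit 152) (nat_lit 35277216799) (nat_lit 0) (nat_lit 69797548656) (nat_lit 2) (nat_lit 5) (nat_lit 4) (nat_lit 4) (nat_lit 2) (nat_lit 4) (nat_lit 326) (nat_lit 239) (nat_lit 215)))) (XT.nd (nat_lit 78) (nat_lit 0) (nat_lit 0) (XT.lf (nat_lit 0) (nat_lit 82590005552) (nat_lit 152) (nat_lit 31099120595) (nat_lit 0) (nat_lit 78910168583) (nat_lit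 2) (nat_lit 5) (nat_lit 4) (nat_lit 4) (nat_lit 2) (nat_lit 4) (nat_lit 327) (nat_lit 239) (nat_lit 214)) (XT.nd (nat_lit 78) (nat_lit 0) (nat_lit 0) (XT.lf (nat_lit 0) (nat_lit 92423295929) (nat_lit 152) (nat_lit 26707576791) (nat_lit 0) (nat_lit 88696851851) (nat_lit 2) (nat_lit 5) (nat_lit 4) (nat_lit 4) (nat_lit 2) (nat_lit 4) (nat_lit 328) (nat_lit 239) (nat_lit 213)) (XT.lf (nat_lit 0) (nat_lit 102985192430) (nat_lit 152) (nat_lit 22076561424) (nat_lit 0) (nat_lit 99215593623) (nat_lit 2) (nat_lit 5) (nat_lit 4) (nat_lit 4) (nat_lit 2) (nat_lit 4) (nat_lit 329) (nat_lit 239) (nat_lit 212))))))) (XT.nd (nat_lit 858) (nat_lit 0) (nat_lit 0) (XT.nd (nat_lit 390) (nat_lit 0) (nat_lit 0) (XT.nd (nat_lit 156) (nat_lit 76) (nat_lit 0) (XT.nd (nat_lit 78) (nat_lit 0) (nat_lit 0) (XT.lf (nat_lit 0) (nat_lit 114338284073) (nat_lit 152) (nat_lit 17178631439) (nat_lit 0) (nat_lit 110528727183)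 (nat_lit 2) (nat_lit 5) (nat_lit 4) (nat_lit 4) (nat_lit 2) (nat_lit 4) (nat_lit 330) (nat_lit 239) (nat_lit 211)) (XT.lf (nat_lit 0) (nat_lit 126549848436) (nat_lit 152) (nat_lit 11984762068) (nat_lit 0) (nat_lit 122703293321) (nat_lit 2) (nat_lit 5) (nat_lit 4) (nat_lit 4) (nat_lit 2) (nat_lit 4) (nat_lit 331) (nat_lit 239) (nat_lit 210))) (XT.nd (nat_lit 78) (nat_lit 76) (nat_lit 0) (XT.lf (nat_lit 0) (nat_lit 139692250346) (nat_lit 152) (nat_lit 6464174824) (nat_lit 0) (nat_lit 135811437615) (nat_lit 2) (nat_lit 5) (nat_lit 4) (nat_lit 4) (nat_lit 2) (nat_lit 4) (nat_lit 332) (nat_lit 239) (nat_lit 209)) (XT.nd (nat_lit 78) (nat_lit 76) (nat_lit 0) (XT.lf (nat_lit 0) (nat_lit 153843370703) (nat_lit 152) (nat_lit 584155116) (nat_lit 0) (nat_lit 149930837957) (nat_lit 2) (nat_lit 5) (nat_lit 4) (nat_lit 4) (nat_lit 2) (nat_lit 4) (nat_lit 333) (nat_lit 239) (nat_lit 208)) (XT.lf (nat_lit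 0) (nat_lit 5878283395) (nat_lit 76) (nat_lit 163300561080) (nat_lit 76) (nat_lit 159358657950) (nat_lit 1) (nat_lit 4) (nat_lit 2) (nat_lit 5) (nat_lit 2) (nat_lit 4) (nat_lit 334) (nat_lit 239) (nat_lit 207))))) (XT.nd (nat_lit 234) (nat_lit 0) (nat_lit 0) (XT.nd (nat_lit 78) (nat_lit 0) (nat_lit 0) (XT.lf (nat_lit 0) (nat_lit 12805760708) (nat_lit 76) (nat_lit 172907848357) (nat_lit 76) (nat_lit 168938750427) (nat_lit 1) (nat_lit 4) (nat_lit 2) (nat_lit 5) (nat_lit 2) (nat_lit 4) (nat_lit 335) (nat_lit 239) (nat_lit 206)) (XT.nd (nat_lit 78) (nat_lit 0) (nat_lit 0) (XT.lf (nat_lit 0) (nat_lit 20220013731) (nat_lit 76) (nat_lit 183316212672) (nat_lit 76) (nat_lit 179321934371) (nat_lit 1) (nat_lit 4) (nat_lit 2) (nat_lit 5) (nat_lit 2) (nat_lit 4) (nat_lit 336) (nat_lit 239) (nat_lit 205)) (XT.lf (nat_lit 0) (nat_lit 28164978781) (nat_lit 76) (nat_lit 194587333221) (nat_lit 76) (nat_lit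 190569739763) (nat_lit 1) (nat_lit 4) (nat_lit 2) (nat_lit 5) (nat_lit 2) (nat_lit 4) (nat_lit 337) (nat_lit 239) (nat_lit 204)))) (XT.nd (nat_lit 78) (nat_lit 0) (nat_lit 0) (XT.lf (nat_lit 0) (nat_lit 36687737130) (nat_lit 76) (nat_lit 206788001830) (nat_lit 76) (nat_lit 202748820263) (nat_lit 1) (nat_lit 4) (nat_lit 2) (nat_lit 5) (nat_lit 2) (nat_lit 4) (nat_lit 338) (nat_lit 239) (nat_lit 203)) (XT.nd (nat_lit 78) (nat_lit 0) (nat_lit 0) (XT.lf (nat_lit 0) (nat_lit 45838794014) (nat_lit 76) (nat_lit 219990518758) (nat_lit 76) (nat_lit 215931348201) (nat_lit 1) (nat_lit 4) (nat_lit 2) (nat_lit 5) (nat_lit 2) (nat_lit 4) (nat_lit 339) (nat_lit 239) (nat_lit 202)) (XT.lf (nat_lit 0) (nat_lit 55672377917) (nat_lit 76) (nat_lit 234273121141) (nat_lit 76) (nat_lit 230195442260) (nat_lit 1) (nat_lit 4) (nat_lit 2) (nat_lit 5) (nat_lit 2) (nat_lit 4) (nat_lit 340) (nat_lit 239) (nat_lit 201))))))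 (XT.nd (nat_lit 390) (nat_lit 0) (nat_lit 0) (XT.nd (nat_lit 156) (nat_lit 0) (nat_lit 0) (XT.nd (nat_lit 78) (nat_lit 0) (nat_lit 0) (XT.lf (nat_lit 0) (nat_lit 66246761931) (nat_lit 76) (nat_lit 249720446624) (nat_lit 76) (nat_lit 245625630406) (nat_lit 1) (nat_lit 4) (nat_lit 2) (nat_lit 5) (nat_lit 2) (nat_lit 4) (nat_lit 341) (nat_lit 239) (nat_lit 200)) (XT.lf (nat_lit 0) (nat_lit 77624609070) (nat_lit 76) (nat_lit 266424034912) (nat_lit 76) (nat_lit 262313350790) (nat_lit 1) (nat_lit 4) (nat_lit 2) (nat_lit 5) (nat_lit 2) (nat_lit 4) (nat_lit 342) (nat_lit 239) (nat_lit 199))) (XT.nd (nat_lit 78) (nat_lit 0) (nat_lit 0) (XT.lf (nat_lit 0) (nat_lit 89873343615) (nat_lit 76) (nat_lit 284482870233) (nat_lit 76) (nat_lit 280357493607) (nat_lit 1) (nat_lit 4) (nat_lit 2) (nat_lit 5) (nat_lit 2) (nat_lit 4) (nat_lit 343) (nat_lit 239) (nat_lit 198)) (XT.nd (nat_lit 78) (nat_lit 0) (nat_lit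 0) (XT.lf (nat_lit 0) (nat_lit 103065550659) (nat_lit 76) (nat_lit 304003967908) (nat_lit 76) (nat_lit 299864987111) (nat_lit 1) (nat_lit 4) (nat_lit 2) (nat_lit 5) (nat_lit 2) (nat_lit 4) (nat_lit 344) (nat_lit 239) (nat_lit 197)) (XT.lf (nat_lit 0) (nat_lit 117279406244) (nat_lit 76) (nat_lit 325103008515) (nat_lit 76) (nat_lit 320951431263) (nat_lit 1) (nat_lit 4) (nat_lit 2) (nat_lit 5) (nat_lit 2) (nat_lit 4) (nat_lit 345) (nat_lit 239) (nat_lit 196))))) (XT.nd (nat_lit 234) (nat_lit 0) (nat_lit 0) (XT.nd (nat_lit 78) (nat_lit 0) (nat_lit 0) (XT.lf (nat_lit 0) (nat_lit 132599140624) (nat_lit 76) (nat_lit 347905023405) (nat_lit 76) (nat_lit 343741782770) (nat_lit 1) (nat_lit 4) (nat_lit 2) (nat_lit 5) (nat_lit 2) (nat_lit 4) (nat_lit 346) (nat_lit 239) (nat_lit 195)) (XT.nd (nat_lit 78) (nat_lit 0) (nat_lit 0) (XT.lf (nat_lit 0) (nat_lit 149115537412) (nat_lit 76) (nat_lit 372545135630)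 (nat_lit 76) (nat_lit 368371095566) (nat_lit 1) (nat_lit 4) (nat_lit 2) (nat_lit 5) (nat_lit 2) (nat_lit 4) (nat_lit 347) (nat_lit 239) (nat_lit 194)) (XT.lf (nat_lit 0) (nat_lit 166926471551) (nat_lit 76) (nat_lit 399169360671) (nat_lit 76) (nat_lit 394985321135) (nat_lit 1) (nat_lit 4) (nat_lit 2) (nat_lit 5) (nat_lit 2) (nat_lit 4) (nat_lit 348) (nat_lit 239) (nat_lit 193)))) (XT.nd (nat_lit 78) (nat_lit 0) (nat_lit 0) (XT.lf (nat_lit 0) (nat_lit 186137489317) (nat_lit 76) (nat_lit 427935471711) (nat_lit 76) (nat_lit 423742173405) (nat_lit 1) (nat_lit 4) (nat_lit 2) (nat_lit 5) (nat_lit 2) (nat_lit 4) (nat_lit 349) (nat_lit 239) (nat_lit 192)) (XT.nd (nat_lit 36738) (nat_lit 0) (nat_lit 532) (XT.lf (nat_lit 0) (nat_lit 206862433780) (nat_lit 76) (nat_lit 459013934595) (nat_lit 76) (nat_lit 454812063354) (nat_lit 1) (nat_lit 4) (nat_lit 2) (nat_lit 5) (nat_lit 2) (nat_lit 4) (nat_lit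 350) (nat_lit 239) (nat_lit 191)) (XT.lf (nat_lit 0) (nat_lit 986263741) (nat_lit 152) (nat_lit 11678217307) (nat_lit 0) (nat_lit 986263741) (nat_lit 8) (nat_lit 5) (nat_lit 10) (nat_lit 4) (nat_lit 8) (nat_lit 4) (nat_lit 300) (nat_lit 240) (nat_lit 240))))))))
noncomputable def xc15 : XT := (XT.nd (nat_lit 1638) (nat_lit 76) (nat_lit 0) (XT.nd (nat_lit 780) (nat_lit 152) (nat_lit 0) (XT.nd (nat_lit 390) (nat_lit 76) (nat_lit 0) (XT.nd (nat_lit 156) (nat_lit 152) (nat_lit 0) (XT.nd (nat_lit 78) (nat_lit 76) (nat_lit 0) (XT.lf (nat_lit 0) (nat_lit 9060759051) (nat_lit 152) (nat_lit 11374456739) (nat_lit 0) (nat_lit 8680702346) (nat_lit 8) (nat_lit 5) (nat_lit 10) (nat_lit 4) (nat_lit 8) (nat_lit 4) (nat_lit 301) (nat_lit 240) (nat_lit 239)) (XT.lf (nat_lit 0) (nat_lit 920214956) (nat_lit 76) (nat_lit 15452276979) (nat_lit 76) (nat_lit 14720315919) (nat_lit 7) (nat_lit 4) (nat_lit 8) (nat_lit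 5) (nat_lit 8) (nat_lit 4) (nat_lit 302) (nat_lit 240) (nat_lit 238))) (XT.nd (nat_lit 78) (nat_lit 152) (nat_lit 0) (XT.lf (nat_lit 0) (nat_lit 13958669989) (nat_lit 76) (nat_lit 10167132350) (nat_lit 76) (nat_lit 9109333923) (nat_lit 7) (nat_lit 4) (nat_lit 8) (nat_lit 5) (nat_lit 8) (nat_lit 4) (nat_lit 303) (nat_lit 240) (nat_lit 237)) (XT.nd (nat_lit 78) (nat_lit 152) (nat_lit 0) (XT.lf (nat_lit 0) (nat_lit 27442082370) (nat_lit 76) (nat_lit 4741094458) (nat_lit 76) (nat_lit 3381594766) (nat_lit 7) (nat_lit 4) (nat_lit 8) (nat_lit 5) (nat_lit 8) (nat_lit 4) (nat_lit 304) (nat_lit 240) (nat_lit 236)) (XT.lf (nat_lit 0) (nat_lit 2485322054) (nat_lit 152) (nat_lit 34680318310) (nat_lit 0) (nat_lit 924509944) (nat_lit 5) (nat_lit 5) (nat_lit 7) (nat_lit 4) (nat_lit 5) (nat_lit 4) (nat_lit 305) (nat_lit 240) (nat_lit 235))))) (XT.nd (nat_lit 156) (nat_lit 76) (nat_lit 0) (XT.nd (nat_lit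 78) (nat_lit 0) (nat_lit 0) (XT.lf (nat_lit 0) (nat_lit 8640425696) (nat_lit 152) (nat_lit 25344316206) (nat_lit 0) (nat_lit 6833270531) (nat_lit 5) (nat_lit 5) (nat_lit 7) (nat_lit 4) (nat_lit 5) (nat_lit 4) (nat_lit 306) (nat_lit 240) (nat_lit 234)) (XT.lf (nat_lit 0) (nat_lit 15021242386) (nat_lit 152) (nat_lit 15770287728) (nat_lit 0) (nat_lit 12985991801) (nat_lit 5) (nat_lit 5) (nat_lit 7) (nat_lit 4) (nat_lit 5) (nat_lit 4) (nat_lit 307) (nat_lit 240) (nat_lit 233))) (XT.nd (nat_lit 78) (nat_lit 76) (nat_lit 0) (XT.lf (nat_lit 0) (nat_lit 21665584371) (nat_lit 152) (nat_lit 5901497894) (nat_lit 0) (nat_lit 19419134323) (nat_lit 5) (nat_lit 5) (nat_lit 7) (nat_lit 4) (nat_lit 5) (nat_lit 4) (nat_lit 308) (nat_lit 240) (nat_lit 232)) (XT.nd (nat_lit 78) (nat_lit 0) (nat_lit 0) (XT.lf (nat_lit 0) (nat_lit 4463391414) (nat_lit 76) (nat_lit 24219120165) (nat_lit 76) (nat_lit 21777115058)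 (nat_lit 4) (nat_lit 4) (nat_lit 5) (nat_lit 5) (nat_lit 5) (nat_lit 4) (nat_lit 309) (nat_lit 240) (nat_lit 231)) (XT.lf (nat_lit 0) (nat_lit 15450911675) (nat_lit 76) (nat_lit 20694455059) (nat_lit 76) (nat_lit 18071380452) (nat_lit 4) (nat_lit 4) (nat_lit 5) (nat_lit 5) (nat_lit 5) (nat_lit 4) (nat_lit 310) (nat_lit 240) (nat_lit 230)))))) (XT.nd (nat_lit 390) (nat_lit 0) (nat_lit 0) (XT.nd (nat_lit 156) (nat_lit 152) (nat_lit 0) (XT.nd (nat_lit 78) (nat_lit 0) (nat_lit 0) (XT.lf (nat_lit 0) (nat_lit 26931043946) (nat_lit 76) (nat_lit 17072144765) (nat_lit 76) (nat_lit 14281413215) (nat_lit 4) (nat_lit 4) (nat_lit 5) (nat_lit 5) (nat_lit 5) (nat_lit 4) (nat_lit 311) (nat_lit 240) (nat_lit 229)) (XT.lf (nat_lit 0) (nat_lit 38971818640) (nat_lit 76) (nat_lit 13330723740) (nat_lit 76) (nat_lit 10384754280) (nat_lit 4) (nat_lit 4) (nat_lit 5) (nat_lit 5) (nat_lit 5) (nat_lit 4) (nat_lit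 312) (nat_lit 240) (nat_lit 228))) (XT.nd (nat_lit 78) (nat_lit 152) (nat_lit 0) (XT.lf (nat_lit 0) (nat_lit 51644588498) (nat_lit 76) (nat_lit 9448020602) (nat_lit 76) (nat_lit 6358312336) (nat_lit 4) (nat_lit 4) (nat_lit 5) (nat_lit 5) (nat_lit 5) (nat_lit 4) (nat_lit 313) (nat_lit 240) (nat_lit 227)) (XT.nd (nat_lit 78) (nat_lit 152) (nat_lit 0) (XT.lf (nat_lit 0) (nat_lit 65024451413) (nat_lit 76) (nat_lit 5401026739) (nat_lit 76) (nat_lit 2178226985) (nat_lit 4) (nat_lit 4) (nat_lit 5) (nat_lit 5) (nat_lit 5) (nat_lit 4) (nat_lit 314) (nat_lit 240) (nat_lit 226)) (XT.lf (nat_lit 0) (nat_lit 1012891365) (nat_lit 76) (nat_lit 1113413013) (nat_lit 152) (nat_lit 76047385690) (nat_lit 2) (nat_lit 5) (nat_lit 3) (nat_lit 5) (nat_lit 4) (nat_lit 4) (nat_lit 315) (nat_lit 240) (nat_lit 225))))) (XT.nd (nat_lit 234) (nat_lit 0) (nat_lit 0) (XT.nd (nat_lit 78) (nat_lit 0) (nat_lit 0) (XT.lf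 (nat_lit 0) (nat_lit 6742809936) (nat_lit 152) (nat_lit 73995080700) (nat_lit 0) (nat_lit 3447441260) (nat_lit 2) (nat_lit 5) (nat_lit 4) (nat_lit 4) (nat_lit 2) (nat_lit 4) (nat_lit 316) (nat_lit 240) (nat_lit 224)) (XT.nd (nat_lit 78) (nat_lit 0) (nat_lit 0) (XT.lf (nat_lit 0) (nat_lit 11612041904) (nat_lit 152) (nat_lit 70855677781) (nat_lit 0) (nat_lit 8216051976) (nat_lit 2) (nat_lit 5) (nat_lit 4) (nat_lit 4) (nat_lit 2) (nat_lit 4) (nat_lit 317) (nat_lit 240) (nat_lit 223)) (XT.lf (nat_lit 0) (nat_lit 16745471492) (nat_lit 152) (nat_lit 67706602581) (nat_lit 0) (nat_lit 13256313740) (nat_lit 2) (nat_lit 5) (nat_lit 4) (nat_lit 4) (nat_lit 2) (nat_lit 4) (nat_lit 318) (nat_lit 240) (nat_lit 222)))) (XT.nd (nat_lit 78) (nat_lit 0) (nat_lit 0) (XT.lf (nat_lit 0) (nat_lit 22173519025) (nat_lit 152) (nat_lit 64529193912) (nat_lit 0) (nat_lit 18598094768) (nat_lit 2) (nat_lit 5) (nat_lit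 4) (nat_lit 4) (nat_lit 2) (nat_lit 4) (nat_lit 319) (nat_lit 240) (nat_lit 221)) (XT.nd (nat_lit 78) (nat_lit 0) (nat_lit 0) (XT.lf (nat_lit 0) (nat_lit 27928350709) (nat_lit 152) (nat_lit 61304622688) (nat_lit 0) (nat_lit 24273050059) (nat_lit 2) (nat_lit 5) (nat_lit 4) (nat_lit 4) (nat_lit 2) (nat_lit 4) (nat_lit 320) (nat_lit 240) (nat_lit 220)) (XT.lf (nat_lit 0) (nat_lit 34044069251) (nat_lit 152) (nat_lit 58013780336) (nat_lit 0) (nat_lit 30314808978) (nat_lit 2) (nat_lit 5) (nat_lit 4) (nat_lit 4) (nat_lit 2) (nat_lit 4) (nat_lit 321) (nat_lit 240) (nat_lit 219))))))) (XT.nd (nat_lit 858) (nat_lit 76) (nat_lit 0) (XT.nd (nat_lit 390) (nat_lit 0) (nat_lit 0) (XT.nd (nat_lit 156) (nat_lit 0) (nat_lit 0) (XT.nd (nat_lit 78) (nat_lit 0) (nat_lit 0) (XT.lf (nat_lit 0) (nat_lit 40556915946) (nat_lit 152) (nat_lit 54637165570) (nat_lit 0) (nat_lit 36759174540) (nat_lit 2) (nat_lit 5)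 (nat_lit 4) (nat_lit 4) (nat_lit 2) (nat_lit 4) (nat_lit 322) (nat_lit 240) (nat_lit 218)) (XT.lf (nat_lit 0) (nat_lit 47505485442) (nat_lit 152) (nat_lit 51154768820) (nat_lit 0) (nat_lit 43644335580) (nat_lit 2) (nat_lit 5) (nat_lit 4) (nat_lit 4) (nat_lit 2) (nat_lit 4) (nat_lit 323) (nat_lit 240) (nat_lit 217))) (XT.nd (nat_lit 78) (nat_lit 0) (nat_lit 0) (XT.lf (nat_lit 0) (nat_lit 54930954446) (nat_lit 152) (nat_lit 47545953661) (nat_lit 0) (nat_lit 51011093050) (nat_lit 2) (nat_lit 5) (nat_lit 4) (nat_lit 4) (nat_lit 2) (nat_lit 4) (nat_lit 324) (nat_lit 240) (nat_lit 216)) (XT.nd (nat_lit 78) (nat_lit 0) (nat_lit 0) (XT.lf (nat_lit 0) (nat_lit 62877325737) (nat_lit 152) (nat_lit 43789334522) (nat_lit 0) (nat_lit 58903101810) (nat_lit 2) (nat_lit 5) (nat_lit 4) (nat_lit 4) (nat_lit 2) (nat_lit 4) (nat_lit 325) (nat_lit 240) (nat_lit 215)) (XT.lf (nat_lit 0) (nat_lit 71391688924)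 (nat_lit 152) (nat_lit 39862649956) (nat_lit 0) (nat_lit 67367129320) (nat_lit 2) (nat_lit 5) (nat_lit 4) (nat_lit 4) (nat_lit 2) (nat_lit 4) (nat_lit 326) (nat_lit 240) (nat_lit 214))))) (XT.nd (nat_lit 234) (nat_lit 0) (nat_lit 0) (XT.nd (nat_lit 78) (nat_lit 0) (nat_lit 0) (XT.lf (nat_lit 0) (nat_lit 80524499491) (nat_lit 152) (nat_lit 35742630722) (nat_lit 0) (nat_lit 76453332779) (nat_lit 2) (nat_lit 5) (nat_lit 4) (nat_lit 4) (nat_lit 2) (nat_lit 4) (nat_lit 327) (nat_lit 240) (nat_lit 213)) (XT.nd (nat_lit 78) (nat_lit 0) (nat_lit 0) (XT.lf (nat_lit 0) (nat_lit 90329877798) (nat_lit 152) (nat_lit 31404861890) (nat_lit 0) (nat_lit 86215556357) (nat_lit 2) (nat_lit 5) (nat_lit 4) (nat_lit 4) (nat_lit 2) (nat_lit 4) (nat_lit 328) (nat_lit 240) (nat_lit 212)) (XT.lf (nat_lit 0) (nat_lit 100865929790) (nat_lit 152) (nat_lit 26823638163) (nat_lit 0) (nat_lit 96711650266) (nat_lit 2) (nat_lit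 5) (nat_lit 4) (nat_lit 4) (nat_lit 2) (nat_lit 4) (nat_lit 329) (nat_lit 240) (nat_lit 211)))) (XT.nd (nat_lit 78) (nat_lit 0) (nat_lit 0) (XT.lf (nat_lit 0) (nat_lit 112195091332) (nat_lit 152) (nat_lit 21971811550) (nat_lit 0) (nat_lit 108003813582) (nat_lit 2) (nat_lit 5) (nat_lit 4) (nat_lit 4) (nat_lit 2) (nat_lit 4) (nat_lit 330) (nat_lit 240) (nat_lit 210)) (XT.nd (nat_lit 78) (nat_lit 0) (nat_lit 0) (XT.lf (nat_lit 0) (nat_lit 124384498194) (nat_lit 152) (nat_lit 16820630484) (nat_lit 0) (nat_lit 120158962828) (nat_lit 2) (nat_lit 5) (nat_lit 4) (nat_lit 4) (nat_lit 2) (nat_lit 4) (nat_lit 331) (nat_lit 240) (nat_lit 209)) (XT.lf (nat_lit 0) (nat_lit 137506383899) (nat_lit 152) (nat_lit 11339569450) (nat_lit 0) (nat_lit 133249128519) (nat_lit 2) (nat_lit 5) (nat_lit 4) (nat_lit 4) (nat_lit 2) (nat_lit 4) (nat_lit 332) (nat_lit 240) (nat_lit 208)))))) (XT.nd (nat_lit 390) (nat_lit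 0) (nat_lit 0) (XT.nd (nat_lit 156) (nat_lit 0) (nat_lit 0) (XT.nd (nat_lit 78) (nat_lit 76) (nat_lit 0) (XT.lf (nat_lit 0) (nat_lit 151638507770) (nat_lit 152) (nat_lit 5496148084) (nat_lit 0) (nat_lit 147351882006) (nat_lit 2) (nat_lit 5) (nat_lit 4) (nat_lit 4) (nat_lit 2) (nat_lit 4) (nat_lit 333) (nat_lit 240) (nat_lit 207)) (XT.lf (nat_lit 0) (nat_lit 768869934) (nat_lit 76) (nat_lit 166107750007) (nat_lit 76) (nat_lit 161793929442) (nat_lit 1) (nat_lit 4) (nat_lit 2) (nat_lit 5) (nat_lit 2) (nat_lit 4) (nat_lit 334) (nat_lit 240) (nat_lit 206))) (XT.nd (nat_lit 78) (nat_lit 0) (nat_lit 0) (XT.lf (nat_lit 0) (nat_lit 7663932595) (nat_lit 76) (nat_lit 175730659426) (nat_lit 76) (nat_lit 171391658491) (nat_lit 1) (nat_lit 4) (nat_lit 2) (nat_lit 5) (nat_lit 2) (nat_lit 4) (nat_lit 335) (nat_lit 240) (nat_lit 205)) (XT.nd (nat_lit 78) (nat_lit 0) (nat_lit 0) (XT.lf (nat_lit 0) (nat_lit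 15048172053) (nat_lit 76) (nat_lit 186153488688) (nat_lit 76) (nat_lit 181791172595) (nat_lit 1) (nat_lit 4) (nat_lit 2) (nat_lit 5) (nat_lit 2) (nat_lit 4) (nat_lit 336) (nat_lit 240) (nat_lit 204)) (XT.lf (nat_lit 0) (nat_lit 22965346764) (nat_lit 76) (nat_lit 197438002706) (nat_lit 76) (nat_lit 193054098505) (nat_lit 1) (nat_lit 4) (nat_lit 2) (nat_lit 5) (nat_lit 2) (nat_lit 4) (nat_lit 337) (nat_lit 240) (nat_lit 203))))) (XT.nd (nat_lit 234) (nat_lit 0) (nat_lit 0) (XT.nd (nat_lit 78) (nat_lit 0) (nat_lit 0) (XT.lf (nat_lit 0) (nat_lit 31462373318) (nat_lit 76) (nat_lit 209651072676) (nat_lit 76) (nat_lit 205247179485) (nat_lit 1) (nat_lit 4) (nat_lit 2) (nat_lit 5) (nat_lit 2) (nat_lit 4) (nat_lit 338) (nat_lit 240) (nat_lit 202)) (XT.nd (nat_lit 78) (nat_lit 0) (nat_lit 0) (XT.lf (nat_lit 0) (nat_lit 40589604466) (nat_lit 76) (nat_lit 222865072345) (nat_lit 76) (nat_lit 218442670830)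 (nat_lit 1) (nat_lit 4) (nat_lit 2) (nat_lit 5) (nat_lit 2) (nat_lit 4) (nat_lit 339) (nat_lit 240) (nat_lit 201)) (XT.lf (nat_lit 0) (nat_lit 50401127503) (nat_lit 76) (nat_lit 237158306895) (nat_lit 76) (nat_lit 232718768043) (nat_lit 1) (nat_lit 4) (nat_lit 2) (nat_lit 5) (nat_lit 2) (nat_lit 4) (nat_lit 340) (nat_lit 240) (nat_lit 200)))) (XT.nd (nat_lit 78) (nat_lit 0) (nat_lit 0) (XT.lf (nat_lit 0) (nat_lit 60955084788) (nat_lit 76) (nat_lit 252615476978) (nat_lit 76) (nat_lit 248160070221) (nat_lit 1) (nat_lit 4) (nat_lit 2) (nat_lit 5) (nat_lit 2) (nat_lit 4) (nat_lit 341) (nat_lit 240) (nat_lit 199)) (XT.nd (nat_lit 78) (nat_lit 0) (nat_lit 0) (XT.lf (nat_lit 0) (nat_lit 72314018291) (nat_lit 76) (nat_lit 269328180636) (nat_lit 76) (nat_lit 264858081375) (nat_lit 1) (nat_lit 4) (nat_lit 2) (nat_lit 5) (nat_lit 2) (nat_lit 4) (nat_lit 342) (nat_lit 240) (nat_lit 198)) (XT.lf (nat_lit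 0) (nat_lit 84545240208) (nat_lit 76) (nat_lit 287395456115) (nat_lit 76) (nat_lit 282911752683) (nat_lit 1) (nat_lit 4) (nat_lit 2) (nat_lit 5) (nat_lit 2) (nat_lit 4) (nat_lit 343) (nat_lit 240) (nat_lit 197))))))))
noncomputable def xc16 : XT := (XT.nd (nat_lit 38142) (nat_lit 0) (nat_lit 76) (XT.nd (nat_lit 37284) (nat_lit 0) (nat_lit 228) (XT.nd (nat_lit 390) (nat_lit 0) (nat_lit 0) (XT.nd (nat_lit 156) (nat_lit 0) (nat_lit 0) (XT.nd (nat_lit 78) (nat_lit 0) (nat_lit 0) (XT.lf (nat_lit 0) (nat_lit 97721231857) (nat_lit 76) (nat_lit 306924368750) (nat_lit 76) (nat_lit 302428068864) (nat_lit 1) (nat_lit 4) (nat_lit 2) (nat_lit 5) (nat_lit 2) (nat_lit 4) (nat_lit 344) (nat_lit 240) (nat_lit 196)) (XT.lf (nat_lit 0) (nat_lit 111920073186) (nat_lit 76) (nat_lit 328030645431) (nat_lit 76) (nat_lit 323522682162) (nat_lit 1) (nat_lit 4) (nat_lit 2) (nat_lit 5) (nat_lit 2) (nat_lit 4) (nat_lit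 345) (nat_lit 240) (nat_lit 195))) (XT.nd (nat_lit 78) (nat_lit 0) (nat_lit 0) (XT.lf (nat_lit 0) (nat_lit 127225905478) (nat_lit 76) (nat_lit 350839360391) (nat_lit 76) (nat_lit 346320597692) (nat_lit 1) (nat_lit 4) (nat_lit 2) (nat_lit 5) (nat_lit 2) (nat_lit 4) (nat_lit 346) (nat_lit 240) (nat_lit 194)) (XT.nd (nat_lit 78) (nat_lit 0) (nat_lit 0) (XT.lf (nat_lit 0) (nat_lit 143729429962) (nat_lit 76) (nat_lit 375485676384) (nat_lit 76) (nat_lit 370956914214) (nat_lit 1) (nat_lit 4) (nat_lit 2) (nat_lit 5) (nat_lit 2) (nat_lit 4) (nat_lit 347) (nat_lit 240) (nat_lit 193)) (XT.lf (nat_lit 0) (nat_lit 161528445302) (nat_lit 76) (nat_lit 402115645654) (nat_lit 76) (nat_lit 397577624714) (nat_lit 1) (nat_lit 4) (nat_lit 2) (nat_lit 5) (nat_lit 2) (nat_lit 4) (nat_lit 348) (nat_lit 240) (nat_lit 192))))) (XT.nd (nat_lit 36660) (nat_lit 0) (nat_lit 532) (XT.nd (nat_lit 78) (nat_lit 0) (nat_lit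 0) (XT.lf (nat_lit 0) (nat_lit 180728427142) (nat_lit 76) (nat_lit 430887075425) (nat_lit 76) (nat_lit 426340481550) (nat_lit 1) (nat_lit 4) (nat_lit 2) (nat_lit 5) (nat_lit 2) (nat_lit 4) (nat_lit 349) (nat_lit 240) (nat_lit 191)) (XT.lf (nat_lit 0) (nat_lit 201443153155) (nat_lit 76) (nat_lit 461970463060) (nat_lit 76) (nat_lit 457415931282) (nat_lit 1) (nat_lit 4) (nat_lit 2) (nat_lit 5) (nat_lit 2) (nat_lit 4) (nat_lit 350) (nat_lit 240) (nat_lit 190))) (XT.nd (nat_lit 78) (nat_lit 152) (nat_lit 0) (XT.lf (nat_lit 0) (nat_lit 1084619626) (nat_lit 76) (nat_lit 5476415617) (nat_lit 76) (nat_lit 5476415617) (nat_lit 10) (nat_lit 4) (nat_lit 11) (nat_lit 5) (nat_lit 11) (nat_lit 4) (nat_lit 298) (nat_lit 241) (nat_lit 241)) (XT.nd (nat_lit 78) (nat_lit 152) (nat_lit 0) (XT.lf (nat_lit 0) (nat_lit 16290875431) (nat_lit 76) (nat_lit 4882330225) (nat_lit 76) (nat_lit 4451345922) (nat_lit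 10) (nat_lit 4) (nat_lit 11) (nat_lit 5) (nat_lit 11) (nat_lit 4) (nat_lit 299) (nat_lit 241) (nat_lit 240)) (XT.lf (nat_lit 0) (nat_lit 2197143392) (nat_lit 152) (nat_lit 23707079998) (nat_lit 0) (nat_lit 1406625447) (nat_lit 8) (nat_lit 5) (nat_lit 10) (nat_lit 4) (nat_lit 8) (nat_lit 4) (nat_lit 300) (nat_lit 241) (nat_lit 239)))))) (XT.nd (nat_lit 390) (nat_lit 76) (nat_lit 0) (XT.nd (nat_lit 156) (nat_lit 228) (nat_lit 0) (XT.nd (nat_lit 78) (nat_lit 0) (nat_lit 0) (XT.lf (nat_lit 0) (nat_lit 9113295949) (nat_lit 152) (nat_lit 12049773774) (nat_lit 0) (nat_lit 7970873647) (nat_lit 8) (nat_lit 5) (nat_lit 10) (nat_lit 4) (nat_lit 8) (nat_lit 4) (nat_lit 301) (nat_lit 241) (nat_lit 238)) (XT.lf (nat_lit 0) (nat_lit 16251329281) (nat_lit 152) (nat_lit 85176603) (nat_lit 0) (nat_lit 14783069613) (nat_lit 8) (nat_lit 5) (nat_lit 10) (nat_lit 4) (nat_lit 8) (nat_lit 4) (nat_lit 302) (nat_lit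 241) (nat_lit 237))) (XT.nd (nat_lit 78) (nat_lit 152) (nat_lit 0) (XT.lf (nat_lit 0) (nat_lit 12662904868) (nat_lit 76) (nat_lit 11188341410) (nat_lit 76) (nat_lit 9418380477) (nat_lit 7) (nat_lit 4) (nat_lit 8) (nat_lit 5) (nat_lit 8) (nat_lit 4) (nat_lit 303) (nat_lit 241) (nat_lit 236)) (XT.nd (nat_lit 78) (nat_lit 152) (nat_lit 0) (XT.lf (nat_lit 0) (nat_lit 25880060548) (nat_lit 76) (nat_lit 5887801339) (nat_lit 76) (nat_lit 3838487383) (nat_lit 7) (nat_lit 4) (nat_lit 8) (nat_lit 5) (nat_lit 8) (nat_lit 4) (nat_lit 304) (nat_lit 241) (nat_lit 235)) (XT.lf (nat_lit 0) (nat_lit 1516979801) (nat_lit 76) (nat_lit 348851400) (nat_lit 152) (nat_lit 36275157955) (nat_lit 5) (nat_lit 5) (nat_lit 6) (nat_lit 5) (nat_lit 7) (nat_lit 4) (nat_lit 305) (nat_lit 241) (nat_lit 234))))) (XT.nd (nat_lit 234) (nat_lit 76) (nat_lit 0) (XT.nd (nat_lit 78) (nat_lit 0) (nat_lit 0) (XT.lf (nat_lit 0)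 (nat_lit 7887269429) (nat_lit 152) (nat_lit 27527201951) (nat_lit 0) (nat_lit 5461103376) (nat_lit 5) (nat_lit 5) (nat_lit 7) (nat_lit 4) (nat_lit 5) (nat_lit 4) (nat_lit 306) (nat_lit 241) (nat_lit 233)) (XT.nd (nat_lit 78) (nat_lit 0) (nat_lit 0) (XT.lf (nat_lit 0) (nat_lit 14149364946) (nat_lit 152) (nat_lit 18179693147) (nat_lit 0) (nat_lit 11511999430) (nat_lit 5) (nat_lit 5) (nat_lit 7) (nat_lit 4) (nat_lit 5) (nat_lit 4) (nat_lit 307) (nat_lit 241) (nat_lit 232)) (XT.lf (nat_lit 0) (nat_lit 20683779920) (nat_lit 152) (nat_lit 8520643751) (nat_lit 0) (nat_lit 17850859345) (nat_lit 5) (nat_lit 5) (nat_lit 7) (nat_lit 4) (nat_lit 5) (nat_lit 4) (nat_lit 308) (nat_lit 241) (nat_lit 231)))) (XT.nd (nat_lit 78) (nat_lit 0) (nat_lit 0) (XT.lf (nat_lit 0) (nat_lit 1557019392) (nat_lit 76) (nat_lit 25996526853) (nat_lit 76) (nat_lit 22982536779) (nat_lit 4) (nat_lit 4) (nat_lit 5) (nat_lit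 5) (nat_lit 5) (nat_lit 4) (nat_lit 309) (nat_lit 241) (nat_lit 230)) (XT.nd (nat_lit 78) (nat_lit 0) (nat_lit 0) (XT.lf (nat_lit 0) (nat_lit 12358775417) (nat_lit 76) (nat_lit 22560480987) (nat_lit 76) (nat_lit 19378833970) (nat_lit 4) (nat_lit 4) (nat_lit 5) (nat_lit 5) (nat_lit 5) (nat_lit 4) (nat_lit 310) (nat_lit 241) (nat_lit 229)) (XT.lf (nat_lit 0) (nat_lit 23666903765) (nat_lit 76) (nat_lit 19020225546) (nat_lit 76) (nat_lit 15683340618) (nat_lit 4) (nat_lit 4) (nat_lit 5) (nat_lit 5) (nat_lit 5) (nat_lit 4) (nat_lit 311) (nat_lit 241) (nat_lit 228))))))) (XT.nd (nat_lit 858) (nat_lit 0) (nat_lit 0) (XT.nd (nat_lit 390) (nat_lit 0) (nat_lit 0) (XT.nd (nat_lit 156) (nat_lit 152) (nat_lit 0) (XT.nd (nat_lit 78) (nat_lit 0) (nat_lit 0) (XT.lf (nat_lit 0) (nat_lit 35548415569) (nat_lit 76) (nat_lit 15354781237) (nat_lit 76) (nat_lit 11874157503) (nat_lit 4) (nat_lit 4) (nat_lit 5)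 (nat_lit 5) (nat_lit 5) (nat_lit 4) (nat_lit 312) (nat_lit 241) (nat_lit 227)) (XT.lf (nat_lit 0) (nat_lit 48073719787) (nat_lit 76) (nat_lit 11542426909) (nat_lit 76) (nat_lit 7928711689) (nat_lit 4) (nat_lit 4) (nat_lit 5) (nat_lit 5) (nat_lit 5) (nat_lit 4) (nat_lit 313) (nat_lit 241) (nat_lit 226))) (XT.nd (nat_lit 78) (nat_lit 152) (nat_lit 0) (XT.lf (nat_lit 0) (nat_lit 61317040444) (nat_lit 76) (nat_lit 7560570833) (nat_lit 76) (nat_lit 3823622754) (nat_lit 4) (nat_lit 4) (nat_lit 5) (nat_lit 5) (nat_lit 5) (nat_lit 4) (nat_lit 314) (nat_lit 241) (nat_lit 225)) (XT.nd (nat_lit 78) (nat_lit 76) (nat_lit 0) (XT.lf (nat_lit 0) (nat_lit 450538901) (nat_lit 152) (nat_lit 2927447829) (nat_lit 76) (nat_lit 74898687481) (nat_lit 3) (nat_lit 5) (nat_lit 5) (nat_lit 5) (nat_lit 4) (nat_lit 4) (nat_lit 315) (nat_lit 241) (nat_lit 224)) (XT.lf (nat_lit 0) (nat_lit 4918616297) (nat_lit 152)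 (nat_lit 78226812961) (nat_lit 0) (nat_lit 1150325925) (nat_lit 2) (nat_lit 5) (nat_lit 4) (nat_lit 4) (nat_lit 2) (nat_lit 4) (nat_lit 316) (nat_lit 241) (nat_lit 223))))) (XT.nd (nat_lit 234) (nat_lit 0) (nat_lit 0) (XT.nd (nat_lit 78) (nat_lit 0) (nat_lit 0) (XT.lf (nat_lit 0) (nat_lit 9727588199) (nat_lit 152) (nat_lit 75203506173) (nat_lit 0) (nat_lit 5866130002) (nat_lit 2) (nat_lit 5) (nat_lit 4) (nat_lit 4) (nat_lit 2) (nat_lit 4) (nat_lit 317) (nat_lit 241) (nat_lit 222)) (XT.nd (nat_lit 78) (nat_lit 0) (nat_lit 0) (XT.lf (nat_lit 0) (nat_lit 14805221430) (nat_lit 152) (nat_lit 72161927390) (nat_lit 0) (nat_lit 10857496728) (nat_lit 2) (nat_lit 5) (nat_lit 4) (nat_lit 4) (nat_lit 2) (nat_lit 4) (nat_lit 318) (nat_lit 241) (nat_lit 221)) (XT.lf (nat_lit 0) (nat_lit 20181605669) (nat_lit 152) (nat_lit 69084052441) (nat_lit 0) (nat_lit 16154004574) (nat_lit 2) (nat_lit 5) (nat_lit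 4) (nat_lit 4) (nat_lit 2) (nat_lit 4) (nat_lit 319) (nat_lit 241) (nat_lit 220)))) (XT.nd (nat_lit 78) (nat_lit 0) (nat_lit 0) (XT.lf (nat_lit 0) (nat_lit 25888600970) (nat_lit 152) (nat_lit 65951642068) (nat_lit 0) (nat_lit 21787040252) (nat_lit 2) (nat_lit 5) (nat_lit 4) (nat_lit 4) (nat_lit 2) (nat_lit 4) (nat_lit 320) (nat_lit 241) (nat_lit 219)) (XT.nd (nat_lit 78) (nat_lit 0) (nat_lit 0) (XT.lf (nat_lit 0) (nat_lit 31960026565) (nat_lit 152) (nat_lit 62746133838) (nat_lit 0) (nat_lit 27789984714) (nat_lit 2) (nat_lit 5) (nat_lit 4) (nat_lit 4) (nat_lit 2) (nat_lit 4) (nat_lit 321) (nat_lit 241) (nat_lit 218)) (XT.lf (nat_lit 0) (nat_lit 38431861272) (nat_lit 152) (nat_lit 59448532148) (nat_lit 0) (nat_lit 34198410965) (nat_lit 2) (nat_lit 5) (nat_lit 4) (nat_lit 4) (nat_lit 2) (nat_lit 4) (nat_lit 322) (nat_lit 241) (nat_lit 217)))))) (XT.nd (nat_lit 390) (nat_lit 0) (nat_lit 0)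 (XT.nd (nat_lit 156) (nat_lit 0) (nat_lit 0) (XT.nd (nat_lit 78) (nat_lit 0) (nat_lit 0) (XT.lf (nat_lit 0) (nat_lit 45342456705) (nat_lit 152) (nat_lit 56039295653) (nat_lit 0) (nat_lit 41050294864) (nat_lit 2) (nat_lit 5) (nat_lit 4) (nat_lit 4) (nat_lit 2) (nat_lit 4) (nat_lit 323) (nat_lit 241) (nat_lit 216)) (XT.lf (nat_lit 0) (nat_lit 52732764539) (nat_lit 152) (nat_lit 52498221471) (nat_lit 0) (nat_lit 48386240167) (nat_lit 2) (nat_lit 5) (nat_lit 4) (nat_lit 4) (nat_lit 2) (nat_lit 4) (nat_lit 324) (nat_lit 241) (nat_lit 215))) (XT.nd (nat_lit 78) (nat_lit 0) (nat_lit 0) (XT.lf (nat_lit 0) (nat_lit 60646579192) (nat_lit 152) (nat_lit 48804325459) (nat_lit 0) (nat_lit 56249719143) (nat_lit 2) (nat_lit 5) (nat_lit 4) (nat_lit 4) (nat_lit 2) (nat_lit 4) (nat_lit 325) (nat_lit 241) (nat_lit 214)) (XT.nd (nat_lit 78) (nat_lit 0) (nat_lit 0) (XT.lf (nat_lit 0) (nat_lit 69130797343) (nat_lit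 152) (nat_lit 44935717863) (nat_lit 0) (nat_lit 64687330186) (nat_lit 2) (nat_lit 5) (nat_lit 4) (nat_lit 4) (nat_lit 2) (nat_lit 4) (nat_lit 326) (nat_lit 241) (nat_lit 213)) (XT.lf (nat_lit 0) (nat_lit 78235695840) (nat_lit 152) (nat_lit 40869473600) (nat_lit 0) (nat_lit 73749073953) (nat_lit 2) (nat_lit 5) (nat_lit 4) (nat_lit 4) (nat_lit 2) (nat_lit 4) (nat_lit 327) (nat_lit 241) (nat_lit 212))))) (XT.nd (nat_lit 234) (nat_lit 0) (nat_lit 0) (XT.nd (nat_lit 78) (nat_lit 0) (nat_lit 0) (XT.lf (nat_lit 0) (nat_lit 88015229638) (nat_lit 152) (nat_lit 36581496409) (nat_lit 0) (nat_lit 83488649668) (nat_lit 2) (nat_lit 5) (nat_lit 4) (nat_lit 4) (nat_lit 2) (nat_lit 4) (nat_lit 328) (nat_lit 241) (nat_lit 211)) (XT.nd (nat_lit 78) (nat_lit 0) (nat_lit 0) (XT.lf (nat_lit 0) (nat_lit 98527351529) (nat_lit 152) (nat_lit 32046376053) (nat_lit 0) (nat_lit 93963773334) (nat_lit 2) (nat_lit 5)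 (nat_lit 4) (nat_lit 4) (nat_lit 2) (nat_lit 4) (nat_lit 329) (nat_lit 241) (nat_lit 210)) (XT.lf (nat_lit 0) (nat_lit 109834355569) (nat_lit 152) (nat_lit 27237237746) (nat_lit 0) (nat_lit 105236519758) (nat_lit 2) (nat_lit 5) (nat_lit 4) (nat_lit 4) (nat_lit 2) (nat_lit 4) (nat_lit 330) (nat_lit 241) (nat_lit 209)))) (XT.nd (nat_lit 78) (nat_lit 0) (nat_lit 0) (XT.lf (nat_lit 0) (nat_lit 122003246226) (nat_lit 152) (nat_lit 22125582890) (nat_lit 0) (nat_lit 117373690401) (nat_lit 2) (nat_lit 5) (nat_lit 4) (nat_lit 4) (nat_lit 2) (nat_lit 4) (nat_lit 331) (nat_lit 241) (nat_lit 208)) (XT.nd (nat_lit 78) (nat_lit 0) (nat_lit 0) (XT.lf (nat_lit 0) (nat_lit 135106135446) (nat_lit 152) (nat_lit 16681120197) (nat_lit 0) (nat_lit 130447209236) (nat_lit 2) (nat_lit 5) (nat_lit 4) (nat_lit 4) (nat_lit 2) (nat_lit 4) (nat_lit 332) (nat_lit 241) (nat_lit 207)) (XT.lf (nat_lit 0) (nat_lit 149220669978)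 (nat_lit 152) (nat_lit 10871586186) (nat_lit 0) (nat_lit 144534548969) (nat_lit 2) (nat_lit 5) (nat_lit 4) (nat_lit 4) (nat_lit 2) (nat_lit 4) (nat_lit 333) (nat_lit 241) (nat_lit 206))))))))
noncomputable def xc17 : XT := (XT.nd (nat_lit 37986) (nat_lit 0) (nat_lit 76) (XT.nd (nat_lit 780) (nat_lit 0) (nat_lit 0) (XT.nd (nat_lit 390) (nat_lit 0) (nat_lit 0) (XT.nd (nat_lit 156) (nat_lit 0) (nat_lit 0) (XT.nd (nat_lit 78) (nat_lit 76) (nat_lit 0) (XT.lf (nat_lit 0) (nat_lit 164430491510) (nat_lit 152) (nat_lit 4662553986) (nat_lit 0) (nat_lit 159719190130) (nat_lit 2) (nat_lit 5) (nat_lit 4) (nat_lit 4) (nat_lit 2) (nat_lit 4) (nat_lit 334) (nat_lit 241) (nat_lit 205)) (XT.lf (nat_lit 0) (nat_lit 2048330017) (nat_lit 76) (nat_lit 178809382470) (nat_lit 76) (nat_lit 174074765933) (nat_lit 1) (nat_lit 4) (nat_lit 2) (nat_lit 5) (nat_lit 2) (nat_lit 4) (nat_lit 335) (nat_lit 241) (nat_lit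 204))) (XT.nd (nat_lit 78) (nat_lit 0) (nat_lit 0) (XT.lf (nat_lit 0) (nat_lit 9404779137) (nat_lit 76) (nat_lit 189245605201) (nat_lit 76) (nat_lit 184489400555) (nat_lit 1) (nat_lit 4) (nat_lit 2) (nat_lit 5) (nat_lit 2) (nat_lit 4) (nat_lit 336) (nat_lit 241) (nat_lit 203)) (XT.nd (nat_lit 78) (nat_lit 0) (nat_lit 0) (XT.lf (nat_lit 0) (nat_lit 17296222053) (nat_lit 76) (nat_lit 200542520580) (nat_lit 76) (nat_lit 195766326944) (nat_lit 1) (nat_lit 4) (nat_lit 2) (nat_lit 5) (nat_lit 2) (nat_lit 4) (nat_lit 337) (nat_lit 241) (nat_lit 202)) (XT.lf (nat_lit 0) (nat_lit 25769422871) (nat_lit 76) (nat_lit 212767073291) (nat_lit 76) (nat_lit 207972371330) (nat_lit 1) (nat_lit 4) (nat_lit 2) (nat_lit 5) (nat_lit 2) (nat_lit 4) (nat_lit 338) (nat_lit 241) (nat_lit 201))))) (XT.nd (nat_lit 156) (nat_lit 0) (nat_lit 0) (XT.nd (nat_lit 78) (nat_lit 0) (nat_lit 0) (XT.lf (nat_lit 0) (nat_lit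 34874593153) (nat_lit 76) (nat_lit 225991705127) (nat_lit 76) (nat_lit 221179865830) (nat_lit 1) (nat_lit 4) (nat_lit 2) (nat_lit 5) (nat_lit 2) (nat_lit 4) (nat_lit 339) (nat_lit 241) (nat_lit 200)) (XT.lf (nat_lit 0) (nat_lit 44665689461) (nat_lit 76) (nat_lit 240294784278) (nat_lit 76) (nat_lit 235467077076) (nat_lit 1) (nat_lit 4) (nat_lit 2) (nat_lit 5) (nat_lit 2) (nat_lit 4) (nat_lit 340) (nat_lit 241) (nat_lit 199))) (XT.nd (nat_lit 78) (nat_lit 0) (nat_lit 0) (XT.lf (nat_lit 0) (nat_lit 55200733109) (nat_lit 76) (nat_lit 255761069730) (nat_lit 76) (nat_lit 250918670024) (nat_lit 1) (nat_lit 4) (nat_lit 2) (nat_lit 5) (nat_lit 2) (nat_lit 4) (nat_lit 341) (nat_lit 241) (nat_lit 198)) (XT.nd (nat_lit 78) (nat_lit 0) (nat_lit 0) (XT.lf (nat_lit 0) (nat_lit 66542153984) (nat_lit 76) (nat_lit 272482213546) (nat_lit 76) (nat_lit 267626209669) (nat_lit 1) (nat_lit 4) (nat_lit 2) (nat_lit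 5) (nat_lit 2) (nat_lit 4) (nat_lit 342) (nat_lit 241) (nat_lit 197)) (XT.lf (nat_lit 0) (nat_lit 78757160506) (nat_lit 76) (nat_lit 290557303985) (nat_lit 76) (nat_lit 285688703654) (nat_lit 1) (nat_lit 4) (nat_lit 2) (nat_lit 5) (nat_lit 2) (nat_lit 4) (nat_lit 343) (nat_lit 241) (nat_lit 196)))))) (XT.nd (nat_lit 390) (nat_lit 0) (nat_lit 0) (XT.nd (nat_lit 156) (nat_lit 0) (nat_lit 0) (XT.nd (nat_lit 78) (nat_lit 0) (nat_lit 0) (XT.lf (nat_lit 0) (nat_lit 91918137899) (nat_lit 76) (nat_lit 310093452695) (nat_lit 76) (nat_lit 305213188980) (nat_lit 1) (nat_lit 4) (nat_lit 2) (nat_lit 5) (nat_lit 2) (nat_lit 4) (nat_lit 344) (nat_lit 241) (nat_lit 195)) (XT.lf (nat_lit 0) (nat_lit 106103077140) (nat_lit 76) (nat_lit 331206429445) (nat_lit 76) (nat_lit 326315366302) (nat_lit 1) (nat_lit 4) (nat_lit 2) (nat_lit 5) (nat_lit 2) (nat_lit 4) (nat_lit 345) (nat_lit 241) (nat_lit 194))) (XT.nd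 (nat_lit 78) (nat_lit 0) (nat_lit 0) (XT.lf (nat_lit 0) (nat_lit 121396037129) (nat_lit 76) (nat_lit 354021348173) (nat_lit 76) (nat_lit 349120285557) (nat_lit 1) (nat_lit 4) (nat_lit 2) (nat_lit 5) (nat_lit 2) (nat_lit 4) (nat_lit 346) (nat_lit 241) (nat_lit 193)) (XT.nd (nat_lit 78) (nat_lit 0) (nat_lit 0) (XT.lf (nat_lit 0) (nat_lit 137887642813) (nat_lit 76) (nat_lit 378673408395) (nat_lit 76) (nat_lit 373763087010) (nat_lit 1) (nat_lit 4) (nat_lit 2) (nat_lit 5) (nat_lit 2) (nat_lit 4) (nat_lit 347) (nat_lit 241) (nat_lit 192)) (XT.lf (nat_lit 0) (nat_lit 155675622227) (nat_lit 76) (nat_lit 405308696395) (nat_lit 76) (nat_lit 400389802075) (nat_lit 1) (nat_lit 4) (nat_lit 2) (nat_lit 5) (nat_lit 2) (nat_lit 4) (nat_lit 348) (nat_lit 241) (nat_lit 191))))) (XT.nd (nat_lit 36582) (nat_lit 0) (nat_lit 684) (XT.nd (nat_lit 78) (nat_lit 0) (nat_lit 0) (XT.lf (nat_lit 0) (nat_lit 174865385618)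 (nat_lit 76) (nat_lit 434085050918) (nat_lit 76) (nat_lit 429158218695) (nat_lit 1) (nat_lit 4) (nat_lit 2) (nat_lit 5) (nat_lit 2) (nat_lit 4) (nat_lit 349) (nat_lit 241) (nat_lit 190)) (XT.nd (nat_lit 36426) (nat_lit 0) (nat_lit 912) (XT.lf (nat_lit 0) (nat_lit 195570650102) (nat_lit 76) (nat_lit 465172998507) (nat_lit 76) (nat_lit 460238816374) (nat_lit 1) (nat_lit 4) (nat_lit 2) (nat_lit 5) (nat_lit 2) (nat_lit 4) (nat_lit 350) (nat_lit 241) (nat_lit 189)) (XT.lf (nat_lit 0) (nat_lit 9412385537) (nat_lit 76) (nat_lit 627071226) (nat_lit 76) (nat_lit 627071226) (nat_lit 13) (nat_lit 4) (nat_lit 14) (nat_lit 5) (nat_lit 14) (nat_lit 4) (nat_lit 296) (nat_lit 242) (nat_lit 242)))) (XT.nd (nat_lit 78) (nat_lit 76) (nat_lit 0) (XT.lf (nat_lit 0) (nat_lit 5949610356) (nat_lit 152) (nat_lit 11215587808) (nat_lit 0) (nat_lit 5484147309) (nat_lit 11) (nat_lit 5) (nat_lit 13) (nat_lit 4) (nat_lit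 11) (nat_lit 4) (nat_lit 297) (nat_lit 242) (nat_lit 241)) (XT.nd (nat_lit 78) (nat_lit 0) (nat_lit 0) (XT.lf (nat_lit 0) (nat_lit 1816122872) (nat_lit 76) (nat_lit 11582376927) (nat_lit 76) (nat_lit 10685929577) (nat_lit 10) (nat_lit 4) (nat_lit 11) (nat_lit 5) (nat_lit 11) (nat_lit 4) (nat_lit 298) (nat_lit 242) (nat_lit 240)) (XT.lf (nat_lit 0) (nat_lit 15610799439) (nat_lit 76) (nat_lit 5663804291) (nat_lit 76) (nat_lit 4368297402) (nat_lit 10) (nat_lit 4) (nat_lit 11) (nat_lit 5) (nat_lit 11) (nat_lit 4) (nat_lit 299) (nat_lit 242) (nat_lit 239))))))) (XT.nd (nat_lit 858) (nat_lit 152) (nat_lit 0) (XT.nd (nat_lit 390) (nat_lit 228) (nat_lit 0) (XT.nd (nat_lit 156) (nat_lit 76) (nat_lit 0) (XT.nd (nat_lit 78) (nat_lit 0) (nat_lit 0) (XT.lf (nat_lit 0) (nat_lit 2081804231) (nat_lit 152) (nat_lit 24761094047) (nat_lit 0) (nat_lit 496083790) (nat_lit 8) (nat_lit 5) (nat_lit 10) (nat_lit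 4) (nat_lit 8) (nat_lit 4) (nat_lit 300) (nat_lit 242) (nat_lit 238)) (XT.lf (nat_lit 0) (nat_lit 8838624370) (nat_lit 152) (nat_lit 13404409722) (nat_lit 0) (nat_lit 6927066562) (nat_lit 8) (nat_lit 5) (nat_lit 10) (nat_lit 4) (nat_lit 8) (nat_lit 4) (nat_lit 301) (nat_lit 242) (nat_lit 237))) (XT.nd (nat_lit 78) (nat_lit 76) (nat_lit 0) (XT.lf (nat_lit 0) (nat_lit 15829127686) (nat_lit 152) (nat_lit 1718166161) (nat_lit 0) (nat_lit 13615868613) (nat_lit 8) (nat_lit 5) (nat_lit 10) (nat_lit 4) (nat_lit 8) (nat_lit 4) (nat_lit 302) (nat_lit 242) (nat_lit 236)) (XT.nd (nat_lit 78) (nat_lit 0) (nat_lit 0) (XT.lf (nat_lit 0) (nat_lit 10709664598) (nat_lit 76) (nat_lit 12552282663) (nat_lit 76) (nat_lit 10059670567) (nat_lit 7) (nat_lit 4) (nat_lit 8) (nat_lit 5) (nat_lit 8) (nat_lit 4) (nat_lit 303) (nat_lit 242) (nat_lit 235)) (XT.lf (nat_lit 0) (nat_lit 23680286294) (nat_lit 76) (nat_lit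 7367944279) (nat_lit 76) (nat_lit 4616671976) (nat_lit 7) (nat_lit 4) (nat_lit 8) (nat_lit 5) (nat_lit 8) (nat_lit 4) (nat_lit 304) (nat_lit 242) (nat_lit 234))))) (XT.nd (nat_lit 234) (nat_lit 76) (nat_lit 0) (XT.nd (nat_lit 78) (nat_lit 76) (nat_lit 0) (XT.lf (nat_lit 0) (nat_lit 966171825) (nat_lit 152) (nat_lit 1010120252) (nat_lit 76) (nat_lit 36231217123) (nat_lit 6) (nat_lit 5) (nat_lit 8) (nat_lit 5) (nat_lit 7) (nat_lit 4) (nat_lit 305) (nat_lit 242) (nat_lit 233)) (XT.nd (nat_lit 78) (nat_lit 0) (nat_lit 0) (XT.lf (nat_lit 0) (nat_lit 6826920621) (nat_lit 152) (nat_lit 30355879477) (nat_lit 0) (nat_lit 3767366400) (nat_lit 5) (nat_lit 5) (nat_lit 7) (nat_lit 4) (nat_lit 5) (nat_lit 4) (nat_lit 306) (nat_lit 242) (nat_lit 232)) (XT.lf (nat_lit 0) (nat_lit 12979089126) (nat_lit 152) (nat_lit 21218111112) (nat_lit 0) (nat_lit 9723979846) (nat_lit 5) (nat_lit 5) (nat_lit 7) (nat_lit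 4) (nat_lit 5) (nat_lit 4) (nat_lit 307) (nat_lit 242) (nat_lit 231)))) (XT.nd (nat_lit 78) (nat_lit 76) (nat_lit 0) (XT.lf (nat_lit 0) (nat_lit 19411719829) (nat_lit 152) (nat_lit 11753265825) (nat_lit 0) (nat_lit 15975541051) (nat_lit 5) (nat_lit 5) (nat_lit 7) (nat_lit 4) (nat_lit 5) (nat_lit 4) (nat_lit 308) (nat_lit 242) (nat_lit 230)) (XT.nd (nat_lit 78) (nat_lit 76) (nat_lit 0) (XT.lf (nat_lit 0) (nat_lit 26162932024) (nat_lit 152) (nat_lit 1905255646) (nat_lit 0) (nat_lit 22559096302) (nat_lit 5) (nat_lit 5) (nat_lit 7) (nat_lit 4) (nat_lit 5) (nat_lit 4) (nat_lit 309) (nat_lit 242) (nat_lit 229)) (XT.lf (nat_lit 0) (nat_lit 8661500100) (nat_lit 76) (nat_lit 24746463084) (nat_lit 76) (nat_lit 20987389452) (nat_lit 4) (nat_lit 4) (nat_lit 5) (nat_lit 5) (nat_lit 5) (nat_lit 4) (nat_lit 310) (nat_lit 242) (nat_lit 228)))))) (XT.nd (nat_lit 390) (nat_lit 152) (nat_lit 0) (XT.nd (nat_lit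 156) (nat_lit 0) (nat_lit 0) (XT.nd (nat_lit 78) (nat_lit 0) (nat_lit 0) (XT.lf (nat_lit 0) (nat_lit 19810365558) (nat_lit 76) (nat_lit 21282184358) (nat_lit 76) (nat_lit 17379371919) (nat_lit 4) (nat_lit 4) (nat_lit 5) (nat_lit 5) (nat_lit 5) (nat_lit 4) (nat_lit 311) (nat_lit 242) (nat_lit 227)) (XT.lf (nat_lit 0) (nat_lit 31544411722) (nat_lit 76) (nat_lit 17687088859) (nat_lit 76) (nat_lit 13651184934) (nat_lit 4) (nat_lit 4) (nat_lit 5) (nat_lit 5) (nat_lit 5) (nat_lit 4) (nat_lit 312) (nat_lit 242) (nat_lit 226))) (XT.nd (nat_lit 78) (nat_lit 0) (nat_lit 0) (XT.lf (nat_lit 0) (nat_lit 43933173681) (nat_lit 76) (nat_lit 13939872319) (nat_lit 76) (nat_lit 9780735535) (nat_lit 4) (nat_lit 4) (nat_lit 5) (nat_lit 5) (nat_lit 5) (nat_lit 4) (nat_lit 313) (nat_lit 242) (nat_lit 225)) (XT.nd (nat_lit 78) (nat_lit 0) (nat_lit 0) (XT.lf (nat_lit 0) (nat_lit 57050066320) (nat_lit 76) (nat_lit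 10018329009) (nat_lit 76) (nat_lit 5745087727) (nat_lit 4) (nat_lit 4) (nat_lit 5) (nat_lit 5) (nat_lit 5) (nat_lit 4) (nat_lit 314) (nat_lit 242) (nat_lit 224)) (XT.lf (nat_lit 0) (nat_lit 70972819374) (nat_lit 76) (nat_lit 5899220155) (nat_lit 76) (nat_lit 1520326559) (nat_lit 4) (nat_lit 4) (nat_lit 5) (nat_lit 5) (nat_lit 5) (nat_lit 4) (nat_lit 315) (nat_lit 242) (nat_lit 223))))) (XT.nd (nat_lit 234) (nat_lit 0) (nat_lit 0) (XT.nd (nat_lit 78) (nat_lit 0) (nat_lit 0) (XT.lf (nat_lit 0) (nat_lit 1358355972) (nat_lit 76) (nat_lit 1488022459) (nat_lit 152) (nat_lit 81573773496) (nat_lit 2) (nat_lit 5) (nat_lit 3) (nat_lit 5) (nat_lit 4) (nat_lit 4) (nat_lit 316) (nat_lit 242) (nat_lit 222)) (XT.nd (nat_lit 78) (nat_lit 0) (nat_lit 0) (XT.lf (nat_lit 0) (nat_lit 7576321775) (nat_lit 152) (nat_lit 80122753384) (nat_lit 0) (nat_lit 3226512592) (nat_lit 2) (nat_lit 5) (nat_lit 4) (nat_lit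 4) (nat_lit 2) (nat_lit 4) (nat_lit 317) (nat_lit 242) (nat_lit 221)) (XT.lf (nat_lit 0) (nat_lit 12602291712) (nat_lit 152) (nat_lit 77180708320) (nat_lit 0) (nat_lit 8172606136) (nat_lit 2) (nat_lit 5) (nat_lit 4) (nat_lit 4) (nat_lit 2) (nat_lit 4) (nat_lit 318) (nat_lit 242) (nat_lit 220)))) (XT.nd (nat_lit 78) (nat_lit 0) (nat_lit 0) (XT.lf (nat_lit 0) (nat_lit 17930839568) (nat_lit 152) (nat_lit 74194994223) (nat_lit 0) (nat_lit 13427194369) (nat_lit 2) (nat_lit 5) (nat_lit 4) (nat_lit 4) (nat_lit 2) (nat_lit 4) (nat_lit 319) (nat_lit 242) (nat_lit 219)) (XT.nd (nat_lit 78) (nat_lit 0) (nat_lit 0) (XT.lf (nat_lit 0) (nat_lit 23593541922) (nat_lit 152) (nat_lit 71147917972) (nat_lit 0) (nat_lit 19021415590) (nat_lit 2) (nat_lit 5) (nat_lit 4) (nat_lit 4) (nat_lit 2) (nat_lit 4) (nat_lit 320) (nat_lit 242) (nat_lit 218)) (XT.lf (nat_lit 0) (nat_lit 29623955529) (nat_lit 152) (nat_lit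 68021422818) (nat_lit 0) (nat_lit 24988420741) (nat_lit 2) (nat_lit 5) (nat_lit 4) (nat_lit 4) (nat_lit 2) (nat_lit 4) (nat_lit 321) (nat_lit 242) (nat_lit 217))))))))
noncomputable def xc18 : XT := (XT.nd (nat_lit 1638) (nat_lit 0) (nat_lit 0) (XT.nd (nat_lit 780) (nat_lit 76) (nat_lit 0) (XT.nd (nat_lit 390) (nat_lit 0) (nat_lit 0) (XT.nd (nat_lit 156) (nat_lit 0) (nat_lit 0) (XT.nd (nat_lit 78) (nat_lit 0) (nat_lit 0) (XT.lf (nat_lit 0) (nat_lit 36057816173) (nat_lit 152) (nat_lit 64796981383) (nat_lit 0) (nat_lit 31363569851) (nat_lit 2) (nat_lit 5) (nat_lit 4) (nat_lit 4) (nat_lit 2) (nat_lit 4) (nat_lit 322) (nat_lit 242) (nat_lit 216)) (XT.lf (nat_lit 0) (nat_lit 42933250436) (nat_lit 152) (nat_lit 61455485865) (nat_lit 0) (nat_lit 38184641583) (nat_lit 2) (nat_lit 5) (nat_lit 4) (nat_lit 4) (nat_lit 2) (nat_lit 4) (nat_lit 323) (nat_lit 242) (nat_lit 215))) (XT.nd (nat_lit 78)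 (nat_lit 0) (nat_lit 0) (XT.lf (nat_lit 0) (nat_lit 50291001631) (nat_lit 152) (nat_lit 57977134811) (nat_lit 0) (nat_lit 45492057102) (nat_lit 2) (nat_lit 5) (nat_lit 4) (nat_lit 4) (nat_lit 2) (nat_lit 4) (nat_lit 324) (nat_lit 242) (nat_lit 214)) (XT.nd (nat_lit 78) (nat_lit 0) (nat_lit 0) (XT.lf (nat_lit 0) (nat_lit 58174671249) (nat_lit 152) (nat_lit 54341315768) (nat_lit 0) (nat_lit 53329119611) (nat_lit 2) (nat_lit 5) (nat_lit 4) (nat_lit 4) (nat_lit 2) (nat_lit 4) (nat_lit 325) (nat_lit 242) (nat_lit 213)) (XT.lf (nat_lit 0) (nat_lit 66630977329) (nat_lit 152) (nat_lit 50526483144) (nat_lit 0) (nat_lit 61742270962) (nat_lit 2) (nat_lit 5) (nat_lit 4) (nat_lit 4) (nat_lit 2) (nat_lit 4) (nat_lit 326) (nat_lit 242) (nat_lit 212))))) (XT.nd (nat_lit 156) (nat_lit 0) (nat_lit 0) (XT.nd (nat_lit 78) (nat_lit 0) (nat_lit 0) (XT.lf (nat_lit 0) (nat_lit 75710031318) (nat_lit 152) (nat_lit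 46510030521) (nat_lit 0) (nat_lit 70781366867) (nat_lit 2) (nat_lit 5) (nat_lit 4) (nat_lit 4) (nat_lit 2) (nat_lit 4) (nat_lit 327) (nat_lit 242) (nat_lit 211)) (XT.lf (nat_lit 0) (nat_lit 85465635014) (nat_lit 152) (nat_lit 42268156700) (nat_lit 0) (nat_lit 80499972339) (nat_lit 2) (nat_lit 5) (nat_lit 4) (nat_lit 4) (nat_lit 2) (nat_lit 4) (nat_lit 328) (nat_lit 242) (nat_lit 210))) (XT.nd (nat_lit 78) (nat_lit 0) (nat_lit 0) (XT.lf (nat_lit 0) (nat_lit 95955599404) (nat_lit 152) (nat_lit 37775724651) (nat_lit 0) (nat_lit 90955679113) (nat_lit 2) (nat_lit 5) (nat_lit 4) (nat_lit 4) (nat_lit 2) (nat_lit 4) (nat_lit 329) (nat_lit 242) (nat_lit 209)) (XT.nd (nat_lit 78) (nat_lit 0) (nat_lit 0) (XT.lf (nat_lit 0) (nat_lit 107242087239) (nat_lit 152) (nat_lit 33006112553) (nat_lit 0) (nat_lit 102210446933) (nat_lit 2) (nat_lit 5) (nat_lit 4) (nat_lit 4) (nat_lit 2) (nat_lit 4) (nat_lit 330)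 (nat_lit 242) (nat_lit 208)) (XT.lf (nat_lit 0) (nat_lit 119391981411) (nat_lit 152) (nat_lit 27931056040) (nat_lit 0) (nat_lit 114330970721) (nat_lit 2) (nat_lit 5) (nat_lit 4) (nat_lit 4) (nat_lit 2) (nat_lit 4) (nat_lit 331) (nat_lit 242) (nat_lit 207)))))) (XT.nd (nat_lit 390) (nat_lit 0) (nat_lit 0) (XT.nd (nat_lit 156) (nat_lit 76) (nat_lit 0) (XT.nd (nat_lit 78) (nat_lit 0) (nat_lit 0) (XT.lf (nat_lit 0) (nat_lit 132477281292) (nat_lit 152) (nat_lit 22520480701) (nat_lit 0) (nat_lit 127389075802) (nat_lit 2) (nat_lit 5) (nat_lit 4) (nat_lit 4) (nat_lit 2) (nat_lit 4) (nat_lit 332) (nat_lit 242) (nat_lit 206)) (XT.lf (nat_lit 0) (nat_lit 146575529399) (nat_lit 152) (nat_lit 16742323869) (nat_lit 0) (nat_lit 141462143539) (nat_lit 2) (nat_lit 5) (nat_lit 4) (nat_lit 4) (nat_lit 2) (nat_lit 4) (nat_lit 333) (nat_lit 242) (nat_lit 205))) (XT.nd (nat_lit 78) (nat_lit 76) (nat_lit 0)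 (XT.lf (nat_lit 0) (nat_lit 161770270908) (nat_lit 152) (nat_lit 10562344613) (nat_lit 0) (nat_lit 156633569889) (nat_lit 2) (nat_lit 5) (nat_lit 4) (nat_lit 4) (nat_lit 2) (nat_lit 4) (nat_lit 334) (nat_lit 242) (nat_lit 204)) (XT.nd (nat_lit 78) (nat_lit 76) (nat_lit 0) (XT.lf (nat_lit 0) (nat_lit 178151548730) (nat_lit 152) (nat_lit 3943920836) (nat_lit 0) (nat_lit 172993259602) (nat_lit 2) (nat_lit 5) (nat_lit 4) (nat_lit 4) (nat_lit 2) (nat_lit 4) (nat_lit 335) (nat_lit 242) (nat_lit 203)) (XT.lf (nat_lit 0) (nat_lit 3256392654) (nat_lit 76) (nat_lit 192610885865) (nat_lit 76) (nat_lit 187432607748) (nat_lit 1) (nat_lit 4) (nat_lit 2) (nat_lit 5) (nat_lit 2) (nat_lit 4) (nat_lit 336) (nat_lit 242) (nat_lit 202))))) (XT.nd (nat_lit 234) (nat_lit 0) (nat_lit 0) (XT.nd (nat_lit 78) (nat_lit 0) (nat_lit 0) (XT.lf (nat_lit 0) (nat_lit 11124009834) (nat_lit 76) (nat_lit 203919283985) (nat_lit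 76) (nat_lit 198722497544) (nat_lit 1) (nat_lit 4) (nat_lit 2) (nat_lit 5) (nat_lit 2) (nat_lit 4) (nat_lit 337) (nat_lit 242) (nat_lit 201)) (XT.nd (nat_lit 78) (nat_lit 0) (nat_lit 0) (XT.lf (nat_lit 0) (nat_lit 19575149786) (nat_lit 76) (nat_lit 216154468863) (nat_lit 76) (nat_lit 210940545085) (nat_lit 1) (nat_lit 4) (nat_lit 2) (nat_lit 5) (nat_lit 2) (nat_lit 4) (nat_lit 338) (nat_lit 242) (nat_lit 200)) (XT.lf (nat_lit 0) (nat_lit 28659893339) (nat_lit 76) (nat_lit 229388945299) (nat_lit 76) (nat_lit 224159153617) (nat_lit 1) (nat_lit 4) (nat_lit 2) (nat_lit 5) (nat_lit 2) (nat_lit 4) (nat_lit 339) (nat_lit 242) (nat_lit 199)))) (XT.nd (nat_lit 78) (nat_lit 0) (nat_lit 0) (XT.lf (nat_lit 0) (nat_lit 38432076010) (nat_lit 76) (nat_lit 243701139820) (nat_lit 76) (nat_lit 238456655633) (nat_lit 1) (nat_lit 4) (nat_lit 2) (nat_lit 5) (nat_lit 2) (nat_lit 4) (nat_lit 340) (nat_lit 242)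 (nat_lit 198)) (XT.nd (nat_lit 78) (nat_lit 0) (nat_lit 0) (XT.lf (nat_lit 0) (nat_lit 48949607030) (nat_lit 76) (nat_lit 259175865430) (nat_lit 76) (nat_lit 253917777072) (nat_lit 1) (nat_lit 4) (nat_lit 2) (nat_lit 5) (nat_lit 2) (nat_lit 4) (nat_lit 341) (nat_lit 242) (nat_lit 197)) (XT.lf (nat_lit 0) (nat_lit 60274812510) (nat_lit 76) (nat_lit 275904824206) (nat_lit 76) (nat_lit 270634139395) (nat_lit 1) (nat_lit 4) (nat_lit 2) (nat_lit 5) (nat_lit 2) (nat_lit 4) (nat_lit 342) (nat_lit 242) (nat_lit 196))))))) (XT.nd (nat_lit 37050) (nat_lit 0) (nat_lit 304) (XT.nd (nat_lit 390) (nat_lit 0) (nat_lit 0) (XT.nd (nat_lit 156) (nat_lit 0) (nat_lit 0) (XT.nd (nat_lit 78) (nat_lit 0) (nat_lit 0) (XT.lf (nat_lit 0) (nat_lit 72474804777) (nat_lit 76) (nat_lit 293987150720) (nat_lit 76) (nat_lit 288704802525) (nat_lit 1) (nat_lit 4) (nat_lit 2) (nat_lit 5) (nat_lit 2) (nat_lit 4) (nat_lit 343)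 (nat_lit 242) (nat_lit 195)) (XT.lf (nat_lit 0) (nat_lit 85621880082) (nat_lit 76) (nat_lit 313529999499) (nat_lit 76) (nat_lit 308236851875) (nat_lit 1) (nat_lit 4) (nat_lit 2) (nat_lit 5) (nat_lit 2) (nat_lit 4) (nat_lit 344) (nat_lit 242) (nat_lit 194))) (XT.nd (nat_lit 78) (nat_lit 0) (nat_lit 0) (XT.lf (nat_lit 0) (nat_lit 99793947019) (nat_lit 76) (nat_lit 334649180017) (nat_lit 76) (nat_lit 329346032921) (nat_lit 1) (nat_lit 4) (nat_lit 2) (nat_lit 5) (nat_lit 2) (nat_lit 4) (nat_lit 345) (nat_lit 242) (nat_lit 193)) (XT.nd (nat_lit 78) (nat_lit 0) (nat_lit 0) (XT.lf (nat_lit 0) (nat_lit 115074988208) (nat_lit 76) (nat_lit 357469842974) (nat_lit 76) (nat_lit 352157437108) (nat_lit 1) (nat_lit 4) (nat_lit 2) (nat_lit 5) (nat_lit 2) (nat_lit 4) (nat_lit 346) (nat_lit 242) (nat_lit 192)) (XT.lf (nat_lit 0) (nat_lit 131555557967) (nat_lit 76) (nat_lit 382127221927) (nat_lit 76) (nat_lit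 376806243126) (nat_lit 1) (nat_lit 4) (nat_lit 2) (nat_lit 5) (nat_lit 2) (nat_lit 4) (nat_lit 347) (nat_lit 242) (nat_lit 191))))) (XT.nd (nat_lit 36426) (nat_lit 0) (nat_lit 912) (XT.nd (nat_lit 78) (nat_lit 0) (nat_lit 0) (XT.lf (nat_lit 0) (nat_lit 149333318930) (nat_lit 76) (nat_lit 408767434678) (nat_lit 76) (nat_lit 403438517975) (nat_lit 1) (nat_lit 4) (nat_lit 2) (nat_lit 5) (nat_lit 2) (nat_lit 4) (nat_lit 348) (nat_lit 242) (nat_lit 190)) (XT.nd (nat_lit 78) (nat_lit 0) (nat_lit 0) (XT.lf (nat_lit 0) (nat_lit 168513620794) (nat_lit 76) (nat_lit 437548349155) (nat_lit 76) (nat_lit 432212082541) (nat_lit 1) (nat_lit 4) (nat_lit 2) (nat_lit 5) (nat_lit 2) (nat_lit 4) (nat_lit 349) (nat_lit 242) (nat_lit 189)) (XT.lf (nat_lit 0) (nat_lit 189210124605) (nat_lit 76) (nat_lit 468640518924) (nat_lit 76) (nat_lit 463297446838) (nat_lit 1) (nat_lit 4) (nat_lit 2) (nat_lit 5) (nat_lit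 2) (nat_lit 4) (nat_lit 350) (nat_lit 242) (nat_lit 188)))) (XT.nd (nat_lit 78) (nat_lit 76) (nat_lit 0) (XT.lf (nat_lit 0) (nat_lit 2398338278) (nat_lit 152) (nat_lit 4698560307) (nat_lit 0) (nat_lit 2398338278) (nat_lit 14) (nat_lit 5) (nat_lit 16) (nat_lit 4) (nat_lit 14) (nat_lit 4) (nat_lit 294) (nat_lit 243) (nat_lit 243)) (XT.nd (nat_lit 78) (nat_lit 0) (nat_lit 0) (XT.lf (nat_lit 0) (nat_lit 4188353975) (nat_lit 76) (nat_lit 8227618305) (nat_lit 76) (nat_lit 7699783209) (nat_lit 13) (nat_lit 4) (nat_lit 14) (nat_lit 5) (nat_lit 14) (nat_lit 4) (nat_lit 295) (nat_lit 243) (nat_lit 242)) (XT.lf (nat_lit 0) (nat_lit 18480823292) (nat_lit 76) (nat_lit 1939115314) (nat_lit 76) (nat_lit 922544019) (nat_lit 13) (nat_lit 4) (nat_lit 14) (nat_lit 5) (nat_lit 14) (nat_lit 4) (nat_lit 296) (nat_lit 243) (nat_lit 241)))))) (XT.nd (nat_lit 390) (nat_lit 228) (nat_lit 0) (XT.nd (nat_lit 156)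 (nat_lit 152) (nat_lit 0) (XT.nd (nat_lit 78) (nat_lit 76) (nat_lit 0) (XT.lf (nat_lit 0) (nat_lit 6070587599) (nat_lit 152) (nat_lit 11926561866) (nat_lit 0) (nat_lit 4671440159) (nat_lit 11) (nat_lit 5) (nat_lit 13) (nat_lit 4) (nat_lit 11) (nat_lit 4) (nat_lit 297) (nat_lit 243) (nat_lit 240)) (XT.lf (nat_lit 0) (nat_lit 754681189) (nat_lit 76) (nat_lit 12578297293) (nat_lit 76) (nat_lit 10780090313) (nat_lit 10) (nat_lit 4) (nat_lit 11) (nat_lit 5) (nat_lit 11) (nat_lit 4) (nat_lit 298) (nat_lit 243) (nat_lit 239))) (XT.nd (nat_lit 78) (nat_lit 152) (nat_lit 0) (XT.lf (nat_lit 0) (nat_lit 14246617374) (nat_lit 76) (nat_lit 6800399078) (nat_lit 76) (nat_lit 4632692524) (nat_lit 10) (nat_lit 4) (nat_lit 11) (nat_lit 5) (nat_lit 11) (nat_lit 4) (nat_lit 299) (nat_lit 243) (nat_lit 238)) (XT.nd (nat_lit 78) (nat_lit 0) (nat_lit 0) (XT.lf (nat_lit 0) (nat_lit 848386154) (nat_lit 76) (nat_lit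 789770891) (nat_lit 152) (nat_lit 25747282416) (nat_lit 8) (nat_lit 5) (nat_lit 9) (nat_lit 5) (nat_lit 10) (nat_lit 4) (nat_lit 300) (nat_lit 243) (nat_lit 237)) (XT.lf (nat_lit 0) (nat_lit 8235116630) (nat_lit 152) (nat_lit 15446392056) (nat_lit 0) (nat_lit 5543095566) (nat_lit 8) (nat_lit 5) (nat_lit 10) (nat_lit 4) (nat_lit 8) (nat_lit 4) (nat_lit 301) (nat_lit 243) (nat_lit 236))))) (XT.nd (nat_lit 234) (nat_lit 152) (nat_lit 0) (XT.nd (nat_lit 78) (nat_lit 76) (nat_lit 0) (XT.lf (nat_lit 0) (nat_lit 15089018080) (nat_lit 152) (nat_lit 4017883320) (nat_lit 0) (nat_lit 12117643992) (nat_lit 8) (nat_lit 5) (nat_lit 10) (nat_lit 4) (nat_lit 8) (nat_lit 4) (nat_lit 302) (nat_lit 243) (nat_lit 235)) (XT.nd (nat_lit 78) (nat_lit 0) (nat_lit 0) (XT.lf (nat_lit 0) (nat_lit 8087374422) (nat_lit 76) (nat_lit 14267038725) (nat_lit 76) (nat_lit 11037004430) (nat_lit 7) (nat_lit 4) (nat_lit 8)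 (nat_lit 5) (nat_lit 8) (nat_lit 4) (nat_lit 303) (nat_lit 243) (nat_lit 234)) (XT.lf (nat_lit 0) (nat_lit 20829723911) (nat_lit 76) (nat_lit 9190294495) (nat_lit 76) (nat_lit 5720760009) (nat_lit 7) (nat_lit 4) (nat_lit 8) (nat_lit 5) (nat_lit 8) (nat_lit 4) (nat_lit 304) (nat_lit 243) (nat_lit 233)))) (XT.nd (nat_lit 78) (nat_lit 152) (nat_lit 0) (XT.lf (nat_lit 0) (nat_lit 34151825999) (nat_lit 76) (nat_lit 3914629098) (nat_lit 76) (nat_lit 223335175) (nat_lit 7) (nat_lit 4) (nat_lit 8) (nat_lit 5) (nat_lit 8) (nat_lit 4) (nat_lit 305) (nat_lit 243) (nat_lit 232)) (XT.nd (nat_lit 78) (nat_lit 0) (nat_lit 0) (XT.lf (nat_lit 0) (nat_lit 5453095723) (nat_lit 152) (nat_lit 33847111317) (nat_lit 0) (nat_lit 1742022643) (nat_lit 5) (nat_lit 5) (nat_lit 7) (nat_lit 4) (nat_lit 5) (nat_lit 4) (nat_lit 306) (nat_lit 243) (nat_lit 231)) (XT.lf (nat_lit 0) (nat_lit 11503479958) (nat_lit 152) (nat_lit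 24903547062) (nat_lit 0) (nat_lit 7611337379) (nat_lit 5) (nat_lit 5) (nat_lit 7) (nat_lit 4) (nat_lit 5) (nat_lit 4) (nat_lit 307) (nat_lit 243) (nat_lit 230))))))))
noncomputable def xc19 : XT := (XT.nd (nat_lit 1638) (nat_lit 76) (nat_lit 0) (XT.nd (nat_lit 780) (nat_lit 0) (nat_lit 0) (XT.nd (nat_lit 390) (nat_lit 152) (nat_lit 0) (XT.nd (nat_lit 156) (nat_lit 76) (nat_lit 0) (XT.nd (nat_lit 78) (nat_lit 0) (nat_lit 0) (XT.lf (nat_lit 0) (nat_lit 17841865967) (nat_lit 152) (nat_lit 15618520395) (nat_lit 0) (nat_lit 13782066444) (nat_lit 5) (nat_lit 5) (nat_lit 7) (nat_lit 4) (nat_lit 5) (nat_lit 4) (nat_lit 308) (nat_lit 243) (nat_lit 229)) (XT.lf (nat_lit 0) (nat_lit 24505814556) (nat_lit 152) (nat_lit 5937008938) (nat_lit 0) (nat_lit 20290777122) (nat_lit 5) (nat_lit 5) (nat_lit 7) (nat_lit 4) (nat_lit 5) (nat_lit 4) (nat_lit 309) (nat_lit 243) (nat_lit 228))) (XT.nd (nat_lit 78)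 (nat_lit 0) (nat_lit 0) (XT.lf (nat_lit 0) (nat_lit 4337175945) (nat_lit 76) (nat_lit 27265355316) (nat_lit 76) (nat_lit 22906579076) (nat_lit 4) (nat_lit 4) (nat_lit 5) (nat_lit 5) (nat_lit 5) (nat_lit 4) (nat_lit 310) (nat_lit 243) (nat_lit 227)) (XT.nd (nat_lit 78) (nat_lit 0) (nat_lit 0) (XT.lf (nat_lit 0) (nat_lit 15338575763) (nat_lit 76) (nat_lit 23871425400) (nat_lit 76) (nat_lit 19379557674) (nat_lit 4) (nat_lit 4) (nat_lit 5) (nat_lit 5) (nat_lit 5) (nat_lit 4) (nat_lit 311) (nat_lit 243) (nat_lit 226)) (XT.lf (nat_lit 0) (nat_lit 26936079669) (nat_lit 76) (nat_lit 20341467689) (nat_lit 76) (nat_lit 15726367104) (nat_lit 4) (nat_lit 4) (nat_lit 5) (nat_lit 5) (nat_lit 5) (nat_lit 4) (nat_lit 312) (nat_lit 243) (nat_lit 225))))) (XT.nd (nat_lit 156) (nat_lit 152) (nat_lit 0) (XT.nd (nat_lit 78) (nat_lit 0) (nat_lit 0) (XT.lf (nat_lit 0) (nat_lit 39198413610) (nat_lit 76) (nat_lit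 16654563915) (nat_lit 76) (nat_lit 11925358832) (nat_lit 4) (nat_lit 4) (nat_lit 5) (nat_lit 5) (nat_lit 5) (nat_lit 4) (nat_lit 313) (nat_lit 243) (nat_lit 224)) (XT.lf (nat_lit 0) (nat_lit 52198243270) (nat_lit 76) (nat_lit 12788865760) (nat_lit 76) (nat_lit 7954008362) (nat_lit 4) (nat_lit 4) (nat_lit 5) (nat_lit 5) (nat_lit 5) (nat_lit 4) (nat_lit 314) (nat_lit 243) (nat_lit 223))) (XT.nd (nat_lit 78) (nat_lit 152) (nat_lit 0) (XT.lf (nat_lit 0) (nat_lit 66012604676) (nat_lit 76) (nat_lit 8721465381) (nat_lit 76) (nat_lit 3788781768) (nat_lit 4) (nat_lit 4) (nat_lit 5) (nat_lit 5) (nat_lit 5) (nat_lit 4) (nat_lit 315) (nat_lit 243) (nat_lit 222)) (XT.nd (nat_lit 78) (nat_lit 76) (nat_lit 0) (XT.lf (nat_lit 0) (nat_lit 575959939) (nat_lit 152) (nat_lit 3842545566) (nat_lit 76) (nat_lit 80137646612) (nat_lit 3) (nat_lit 5) (nat_lit 5) (nat_lit 5) (nat_lit 4) (nat_lit 4) (nat_lit 316)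 (nat_lit 243) (nat_lit 221)) (XT.lf (nat_lit 0) (nat_lit 5145494386) (nat_lit 152) (nat_lit 85642570508) (nat_lit 0) (nat_lit 281557571) (nat_lit 2) (nat_lit 5) (nat_lit 4) (nat_lit 4) (nat_lit 2) (nat_lit 4) (nat_lit 317) (nat_lit 243) (nat_lit 220)))))) (XT.nd (nat_lit 390) (nat_lit 0) (nat_lit 0) (XT.nd (nat_lit 156) (nat_lit 0) (nat_lit 0) (XT.nd (nat_lit 78) (nat_lit 0) (nat_lit 0) (XT.lf (nat_lit 0) (nat_lit 10123627940) (nat_lit 152) (nat_lit 82792686297) (nat_lit 0) (nat_lit 5185731502) (nat_lit 2) (nat_lit 5) (nat_lit 4) (nat_lit 4) (nat_lit 2) (nat_lit 4) (nat_lit 318) (nat_lit 243) (nat_lit 219)) (XT.lf (nat_lit 0) (nat_lit 15407882849) (nat_lit 152) (nat_lit 79892306321) (nat_lit 0) (nat_lit 10401505278) (nat_lit 2) (nat_lit 5) (nat_lit 4) (nat_lit 4) (nat_lit 2) (nat_lit 4) (nat_lit 319) (nat_lit 243) (nat_lit 218))) (XT.nd (nat_lit 78) (nat_lit 0) (nat_lit 0) (XT.lf (nat_lit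 0) (nat_lit 21029573215) (nat_lit 152) (nat_lit 76924243146) (nat_lit 0) (nat_lit 15959787188) (nat_lit 2) (nat_lit 5) (nat_lit 4) (nat_lit 4) (nat_lit 2) (nat_lit 4) (nat_lit 320) (nat_lit 243) (nat_lit 217)) (XT.nd (nat_lit 78) (nat_lit 0) (nat_lit 0) (XT.lf (nat_lit 0) (nat_lit 27022012758) (nat_lit 152) (nat_lit 73870908247) (nat_lit 0) (nat_lit 21893515198) (nat_lit 2) (nat_lit 5) (nat_lit 4) (nat_lit 4) (nat_lit 2) (nat_lit 4) (nat_lit 321) (nat_lit 243) (nat_lit 216)) (XT.lf (nat_lit 0) (nat_lit 33420712233) (nat_lit 152) (nat_lit 70714207789) (nat_lit 0) (nat_lit 28237852141) (nat_lit 2) (nat_lit 5) (nat_lit 4) (nat_lit 4) (nat_lit 2) (nat_lit 4) (nat_lit 322) (nat_lit 243) (nat_lit 215))))) (XT.nd (nat_lit 234) (nat_lit 0) (nat_lit 0) (XT.nd (nat_lit 78) (nat_lit 0) (nat_lit 0) (XT.lf (nat_lit 0) (nat_lit 40263589857) (nat_lit 152) (nat_lit 67435435399) (nat_lit 0) (nat_lit 35030394089)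 (nat_lit 2) (nat_lit 5) (nat_lit 4) (nat_lit 4) (nat_lit 2) (nat_lit 4) (nat_lit 323) (nat_lit 243) (nat_lit 214)) (XT.nd (nat_lit 78) (nat_lit 0) (nat_lit 0) (XT.lf (nat_lit 0) (nat_lit 47591196017) (nat_lit 152) (nat_lit 64015161314) (nat_lit 0) (nat_lit 42311393140) (nat_lit 2) (nat_lit 5) (nat_lit 4) (nat_lit 4) (nat_lit 2) (nat_lit 4) (nat_lit 324) (nat_lit 243) (nat_lit 213)) (XT.lf (nat_lit 0) (nat_lit 55446953564) (nat_lit 152) (nat_lit 60433117243) (nat_lit 0) (nat_lit 50123995958) (nat_lit 2) (nat_lit 5) (nat_lit 4) (nat_lit 4) (nat_lit 2) (nat_lit 4) (nat_lit 325) (nat_lit 243) (nat_lit 212)))) (XT.nd (nat_lit 78) (nat_lit 0) (nat_lit 0) (XT.lf (nat_lit 0) (nat_lit 63877415136) (nat_lit 152) (nat_lit 56668076259) (nat_lit 0) (nat_lit 58514499446) (nat_lit 2) (nat_lit 5) (nat_lit 4) (nat_lit 4) (nat_lit 2) (nat_lit 4) (nat_lit 326) (nat_lit 243) (nat_lit 211)) (XT.nd (nat_lit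 78) (nat_lit 0) (nat_lit 0) (XT.lf (nat_lit 0) (nat_lit 72932539023) (nat_lit 152) (nat_lit 52697727007) (nat_lit 0) (nat_lit 67532625108) (nat_lit 2) (nat_lit 5) (nat_lit 4) (nat_lit 4) (nat_lit 2) (nat_lit 4) (nat_lit 327) (nat_lit 243) (nat_lit 210)) (XT.lf (nat_lit 0) (nat_lit 82665985218) (nat_lit 152) (nat_lit 48498541493) (nat_lit 0) (nat_lit 77231813688) (nat_lit 2) (nat_lit 5) (nat_lit 4) (nat_lit 4) (nat_lit 2) (nat_lit 4) (nat_lit 328) (nat_lit 243) (nat_lit 209))))))) (XT.nd (nat_lit 858) (nat_lit 0) (nat_lit 0) (XT.nd (nat_lit 390) (nat_lit 76) (nat_lit 0) (XT.nd (nat_lit 156) (nat_lit 0) (nat_lit 0) (XT.nd (nat_lit 78) (nat_lit 0) (nat_lit 0) (XT.lf (nat_lit 0) (nat_lit 93135433403) (nat_lit 152) (nat_lit 44045635653) (nat_lit 0) (nat_lit 87669541858) (nat_lit 2) (nat_lit 5) (nat_lit 4) (nat_lit 4) (nat_lit 2) (nat_lit 4) (nat_lit 329) (nat_lit 243) (nat_lit 208)) (XT.lf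 (nat_lit 0) (nat_lit 104402924753) (nat_lit 152) (nat_lit 39312621897) (nat_lit 0) (nat_lit 98907662824) (nat_lit 2) (nat_lit 5) (nat_lit 4) (nat_lit 4) (nat_lit 2) (nat_lit 4) (nat_lit 330) (nat_lit 243) (nat_lit 207))) (XT.nd (nat_lit 78) (nat_lit 0) (nat_lit 0) (XT.lf (nat_lit 0) (nat_lit 116535229586) (nat_lit 152) (nat_lit 34271452738) (nat_lit 0) (nat_lit 111012772856) (nat_lit 2) (nat_lit 5) (nat_lit 4) (nat_lit 4) (nat_lit 2) (nat_lit 4) (nat_lit 331) (nat_lit 243) (nat_lit 206)) (XT.nd (nat_lit 78) (nat_lit 0) (nat_lit 0) (XT.lf (nat_lit 0) (nat_lit 129604243042) (nat_lit 152) (nat_lit 28892254579) (nat_lit 0) (nat_lit 124056605942) (nat_lit 2) (nat_lit 5) (nat_lit 4) (nat_lit 4) (nat_lit 2) (nat_lit 4) (nat_lit 332) (nat_lit 243) (nat_lit 205)) (XT.lf (nat_lit 0) (nat_lit 143687411126) (nat_lit 152) (nat_lit 23143150690) (nat_lit 0) (nat_lit 138116458869) (nat_lit 2) (nat_lit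 5) (nat_lit 4) (nat_lit 4) (nat_lit 2) (nat_lit 4) (nat_lit 333) (nat_lit 243) (nat_lit 204))))) (XT.nd (nat_lit 234) (nat_lit 76) (nat_lit 0) (XT.nd (nat_lit 78) (nat_lit 0) (nat_lit 0) (XT.lf (nat_lit 0) (nat_lit 158868189650) (nat_lit 152) (nat_lit 16990072309) (nat_lit 0) (nat_lit 153275649284) (nat_lit 2) (nat_lit 5) (nat_lit 4) (nat_lit 4) (nat_lit 2) (nat_lit 4) (nat_lit 334) (nat_lit 243) (nat_lit 203)) (XT.nd (nat_lit 78) (nat_lit 0) (nat_lit 0) (XT.lf (nat_lit 0) (nat_lit 175236538783) (nat_lit 152) (nat_lit 10396556748) (nat_lit 0) (nat_lit 169624009427) (nat_lit 2) (nat_lit 5) (nat_lit 4) (nat_lit 4) (nat_lit 2) (nat_lit 4) (nat_lit 335) (nat_lit 243) (nat_lit 202)) (XT.lf (nat_lit 0) (nat_lit 192889456149) (nat_lit 152) (nat_lit 3323531322) (nat_lit 0) (nat_lit 187258418469) (nat_lit 2) (nat_lit 5) (nat_lit 4) (nat_lit 4) (nat_lit 2) (nat_lit 4) (nat_lit 336) (nat_lit 243)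 (nat_lit 201)))) (XT.nd (nat_lit 78) (nat_lit 0) (nat_lit 0) (XT.lf (nat_lit 0) (nat_lit 4412134035) (nat_lit 76) (nat_lit 207588303371) (nat_lit 76) (nat_lit 201940128354) (nat_lit 1) (nat_lit 4) (nat_lit 2) (nat_lit 5) (nat_lit 2) (nat_lit 4) (nat_lit 337) (nat_lit 243) (nat_lit 200)) (XT.nd (nat_lit 78) (nat_lit 0) (nat_lit 0) (XT.lf (nat_lit 0) (nat_lit 12842847258) (nat_lit 76) (nat_lit 219833332849) (nat_lit 76) (nat_lit 214169289927) (nat_lit 1) (nat_lit 4) (nat_lit 2) (nat_lit 5) (nat_lit 2) (nat_lit 4) (nat_lit 338) (nat_lit 243) (nat_lit 199)) (XT.lf (nat_lit 0) (nat_lit 21908677174) (nat_lit 76) (nat_lit 233076924655) (nat_lit 76) (nat_lit 227398189229) (nat_lit 1) (nat_lit 4) (nat_lit 2) (nat_lit 5) (nat_lit 2) (nat_lit 4) (nat_lit 339) (nat_lit 243) (nat_lit 198)))))) (XT.nd (nat_lit 390) (nat_lit 0) (nat_lit 0) (XT.nd (nat_lit 156) (nat_lit 0) (nat_lit 0) (XT.nd (nat_lit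 78) (nat_lit 0) (nat_lit 0) (XT.lf (nat_lit 0) (nat_lit 31663347218) (nat_lit 76) (nat_lit 247397559333) (nat_lit 76) (nat_lit 241705219737) (nat_lit 1) (nat_lit 4) (nat_lit 2) (nat_lit 5) (nat_lit 2) (nat_lit 4) (nat_lit 340) (nat_lit 243) (nat_lit 197)) (XT.lf (nat_lit 0) (nat_lit 42164662843) (nat_lit 76) (nat_lit 262880099903) (nat_lit 76) (nat_lit 257175163853) (nat_lit 1) (nat_lit 4) (nat_lit 2) (nat_lit 5) (nat_lit 2) (nat_lit 4) (nat_lit 341) (nat_lit 243) (nat_lit 196))) (XT.nd (nat_lit 78) (nat_lit 0) (nat_lit 0) (XT.lf (nat_lit 0) (nat_lit 53474854067) (nat_lit 76) (nat_lit 279616294755) (nat_lit 76) (nat_lit 273899695320) (nat_lit 1) (nat_lit 4) (nat_lit 2) (nat_lit 5) (nat_lit 2) (nat_lit 4) (nat_lit 342) (nat_lit 243) (nat_lit 195)) (XT.nd (nat_lit 78) (nat_lit 0) (nat_lit 0) (XT.lf (nat_lit 0) (nat_lit 65660944246) (nat_lit 76) (nat_lit 297705321338) (nat_lit 76) (nat_lit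 291977922474) (nat_lit 1) (nat_lit 4) (nat_lit 2) (nat_lit 5) (nat_lit 2) (nat_lit 4) (nat_lit 343) (nat_lit 243) (nat_lit 194)) (XT.lf (nat_lit 0) (nat_lit 78795147247) (nat_lit 76) (nat_lit 317254373884) (nat_lit 76) (nat_lit 311516975549) (nat_lit 1) (nat_lit 4) (nat_lit 2) (nat_lit 5) (nat_lit 2) (nat_lit 4) (nat_lit 344) (nat_lit 243) (nat_lit 193))))) (XT.nd (nat_lit 234) (nat_lit 0) (nat_lit 0) (XT.nd (nat_lit 78) (nat_lit 0) (nat_lit 0) (XT.lf (nat_lit 0) (nat_lit 92955295385) (nat_lit 76) (nat_lit 338379298632) (nat_lit 76) (nat_lit 332632641527) (nat_lit 1) (nat_lit 4) (nat_lit 2) (nat_lit 5) (nat_lit 2) (nat_lit 4) (nat_lit 345) (nat_lit 243) (nat_lit 192)) (XT.nd (nat_lit 78) (nat_lit 0) (nat_lit 0) (XT.lf (nat_lit 0) (nat_lit 108225300648) (nat_lit 76) (nat_lit 361205280319) (nat_lit 76) (nat_lit 355450050279) (nat_lit 1) (nat_lit 4) (nat_lit 2) (nat_lit 5) (nat_lit 2) (nat_lit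 4) (nat_lit 346) (nat_lit 243) (nat_lit 191)) (XT.lf (nat_lit 0) (nat_lit 124695651957) (nat_lit 76) (nat_lit 385867584023) (nat_lit 76) (nat_lit 380104416080) (nat_lit 1) (nat_lit 4) (nat_lit 2) (nat_lit 5) (nat_lit 2) (nat_lit 4) (nat_lit 347) (nat_lit 243) (nat_lit 190)))) (XT.nd (nat_lit 78) (nat_lit 0) (nat_lit 0) (XT.lf (nat_lit 0) (nat_lit 142463951393) (nat_lit 76) (nat_lit 412512356729) (nat_lit 76) (nat_lit 406741838876) (nat_lit 1) (nat_lit 4) (nat_lit 2) (nat_lit 5) (nat_lit 2) (nat_lit 4) (nat_lit 348) (nat_lit 243) (nat_lit 189)) (XT.nd (nat_lit 78) (nat_lit 0) (nat_lit 0) (XT.lf (nat_lit 0) (nat_lit 161635492582) (nat_lit 76) (nat_lit 441297493386) (nat_lit 76) (nat_lit 435520170061) (nat_lit 1) (nat_lit 4) (nat_lit 2) (nat_lit 5) (nat_lit 2) (nat_lit 4) (nat_lit 349) (nat_lit 243) (nat_lit 188)) (XT.lf (nat_lit 0) (nat_lit 182323884659) (nat_lit 76) (nat_lit 472393572581)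 (nat_lit 76) (nat_lit 466609947893) (nat_lit 1) (nat_lit 4) (nat_lit 2) (nat_lit 5) (nat_lit 2) (nat_lit 4) (nat_lit 350) (nat_lit 243) (nat_lit 187))))))))
noncomputable def xc20 : XT := (XT.nd (nat_lit 1638) (nat_lit 152) (nat_lit 0) (XT.nd (nat_lit 780) (nat_lit 304) (nat_lit 0) (XT.nd (nat_lit 390) (nat_lit 380) (nat_lit 0) (XT.nd (nat_lit 156) (nat_lit 228) (nat_lit 0) (XT.nd (nat_lit 78) (nat_lit 76) (nat_lit 0) (XT.lf (nat_lit 0) (nat_lit 4063504624) (nat_lit 152) (nat_lit 370752037) (nat_lit 0) (nat_lit 4063504624) (nat_lit 17) (nat_lit 5) (nat_lit 19) (nat_lit 4) (nat_lit 17) (nat_lit 4) (nat_lit 292) (nat_lit 244) (nat_lit 244)) (XT.lf (nat_lit 0) (nat_lit 13451142525) (nat_lit 76) (nat_lit 2552389418) (nat_lit 76) (nat_lit 1953824420) (nat_lit 16) (nat_lit 4) (nat_lit 17) (nat_lit 5) (nat_lit 17) (nat_lit 4) (nat_lit 293) (nat_lit 244) (nat_lit 243))) (XT.nd (nat_lit 78) (nat_lit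 76) (nat_lit 0) (XT.lf (nat_lit 0) (nat_lit 5170783231) (nat_lit 152) (nat_lit 9756695064) (nat_lit 0) (nat_lit 4072886233) (nat_lit 14) (nat_lit 5) (nat_lit 16) (nat_lit 4) (nat_lit 14) (nat_lit 4) (nat_lit 294) (nat_lit 244) (nat_lit 242)) (XT.nd (nat_lit 78) (nat_lit 0) (nat_lit 0) (XT.lf (nat_lit 0) (nat_lit 3472942588) (nat_lit 76) (nat_lit 9124526761) (nat_lit 76) (nat_lit 7537893564) (nat_lit 13) (nat_lit 4) (nat_lit 14) (nat_lit 5) (nat_lit 14) (nat_lit 4) (nat_lit 295) (nat_lit 244) (nat_lit 241)) (XT.lf (nat_lit 0) (nat_lit 17446941736) (nat_lit 76) (nat_lit 2981521702) (nat_lit 76) (nat_lit 942354987) (nat_lit 13) (nat_lit 4) (nat_lit 14) (nat_lit 5) (nat_lit 14) (nat_lit 4) (nat_lit 296) (nat_lit 244) (nat_lit 240))))) (XT.nd (nat_lit 156) (nat_lit 228) (nat_lit 0) (XT.nd (nat_lit 78) (nat_lit 0) (nat_lit 0) (XT.lf (nat_lit 0) (nat_lit 5847795941) (nat_lit 152) (nat_lit 13352723163)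 (nat_lit 0) (nat_lit 3506672863) (nat_lit 11) (nat_lit 5) (nat_lit 13) (nat_lit 4) (nat_lit 11) (nat_lit 4) (nat_lit 297) (nat_lit 244) (nat_lit 239)) (XT.lf (nat_lit 0) (nat_lit 12941064801) (nat_lit 152) (nat_lit 988685417) (nat_lit 0) (nat_lit 10230442150) (nat_lit 11) (nat_lit 5) (nat_lit 13) (nat_lit 4) (nat_lit 11) (nat_lit 4) (nat_lit 298) (nat_lit 244) (nat_lit 238))) (XT.nd (nat_lit 78) (nat_lit 152) (nat_lit 0) (XT.lf (nat_lit 0) (nat_lit 12190245195) (nat_lit 76) (nat_lit 8298849963) (nat_lit 76) (nat_lit 5246098076) (nat_lit 10) (nat_lit 4) (nat_lit 11) (nat_lit 5) (nat_lit 11) (nat_lit 4) (nat_lit 299) (nat_lit 244) (nat_lit 237)) (XT.nd (nat_lit 78) (nat_lit 76) (nat_lit 0) (XT.lf (nat_lit 0) (nat_lit 889861333) (nat_lit 152) (nat_lit 1545322482) (nat_lit 76) (nat_lit 25013998078) (nat_lit 9) (nat_lit 5) (nat_lit 11) (nat_lit 5) (nat_lit 10) (nat_lit 4) (nat_lit 300) (nat_lit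 244) (nat_lit 236)) (XT.lf (nat_lit 0) (nat_lit 7299196389) (nat_lit 152) (nat_lit 18187821411) (nat_lit 0) (nat_lit 3810759351) (nat_lit 8) (nat_lit 5) (nat_lit 10) (nat_lit 4) (nat_lit 8) (nat_lit 4) (nat_lit 301) (nat_lit 244) (nat_lit 235)))))) (XT.nd (nat_lit 390) (nat_lit 76) (nat_lit 0) (XT.nd (nat_lit 156) (nat_lit 152) (nat_lit 0) (XT.nd (nat_lit 78) (nat_lit 76) (nat_lit 0) (XT.lf (nat_lit 0) (nat_lit 14026614628) (nat_lit 152) (nat_lit 6997956031) (nat_lit 0) (nat_lit 10279517383) (nat_lit 8) (nat_lit 5) (nat_lit 10) (nat_lit 4) (nat_lit 8) (nat_lit 4) (nat_lit 302) (nat_lit 244) (nat_lit 234)) (XT.lf (nat_lit 0) (nat_lit 4780494841) (nat_lit 76) (nat_lit 16342771113) (nat_lit 76) (nat_lit 12356173676) (nat_lit 7) (nat_lit 4) (nat_lit 8) (nat_lit 5) (nat_lit 8) (nat_lit 4) (nat_lit 303) (nat_lit 244) (nat_lit 233))) (XT.nd (nat_lit 78) (nat_lit 152) (nat_lit 0) (XT.lf (nat_lit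 0) (nat_lit 17311481176) (nat_lit 76) (nat_lit 11365651100) (nat_lit 76) (nat_lit 7157294226) (nat_lit 7) (nat_lit 4) (nat_lit 8) (nat_lit 5) (nat_lit 8) (nat_lit 4) (nat_lit 304) (nat_lit 244) (nat_lit 232)) (XT.nd (nat_lit 78) (nat_lit 152) (nat_lit 0) (XT.lf (nat_lit 0) (nat_lit 30437876640) (nat_lit 76) (nat_lit 6182230348) (nat_lit 76) (nat_lit 1768540663) (nat_lit 7) (nat_lit 4) (nat_lit 8) (nat_lit 5) (nat_lit 8) (nat_lit 4) (nat_lit 305) (nat_lit 244) (nat_lit 231)) (XT.lf (nat_lit 0) (nat_lit 3120106258) (nat_lit 76) (nat_lit 647659067) (nat_lit 152) (nat_lit 37384038959) (nat_lit 5) (nat_lit 5) (nat_lit 6) (nat_lit 5) (nat_lit 7) (nat_lit 4) (nat_lit 306) (nat_lit 244) (nat_lit 230))))) (XT.nd (nat_lit 234) (nat_lit 76) (nat_lit 0) (XT.nd (nat_lit 78) (nat_lit 0) (nat_lit 0) (XT.lf (nat_lit 0) (nat_lit 9713793092) (nat_lit 152) (nat_lit 29257840617) (nat_lit 0) (nat_lit 5161552664)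 (nat_lit 5) (nat_lit 5) (nat_lit 7) (nat_lit 4) (nat_lit 5) (nat_lit 4) (nat_lit 307) (nat_lit 244) (nat_lit 229)) (XT.nd (nat_lit 78) (nat_lit 0) (nat_lit 0) (XT.lf (nat_lit 0) (nat_lit 15964915495) (nat_lit 152) (nat_lit 20139312673) (nat_lit 0) (nat_lit 11257437156) (nat_lit 5) (nat_lit 5) (nat_lit 7) (nat_lit 4) (nat_lit 5) (nat_lit 4) (nat_lit 308) (nat_lit 244) (nat_lit 228)) (XT.lf (nat_lit 0) (nat_lit 22548064448) (nat_lit 152) (nat_lit 10611966700) (nat_lit 0) (nat_lit 17696847303) (nat_lit 5) (nat_lit 5) (nat_lit 7) (nat_lit 4) (nat_lit 5) (nat_lit 4) (nat_lit 309) (nat_lit 244) (nat_lit 227)))) (XT.nd (nat_lit 78) (nat_lit 76) (nat_lit 0) (XT.lf (nat_lit 0) (nat_lit 29502251205) (nat_lit 152) (nat_lit 619344351) (nat_lit 0) (nat_lit 24517942573) (nat_lit 5) (nat_lit 5) (nat_lit 7) (nat_lit 4) (nat_lit 5) (nat_lit 4) (nat_lit 310) (nat_lit 244) (nat_lit 226)) (XT.nd (nat_lit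 78) (nat_lit 0) (nat_lit 0) (XT.lf (nat_lit 0) (nat_lit 10225034887) (nat_lit 76) (nat_lit 26803292324) (nat_lit 76) (nat_lit 21695750834) (nat_lit 4) (nat_lit 4) (nat_lit 5) (nat_lit 5) (nat_lit 5) (nat_lit 4) (nat_lit 311) (nat_lit 244) (nat_lit 225)) (XT.lf (nat_lit 0) (nat_lit 21696110775) (nat_lit 76) (nat_lit 23333647380) (nat_lit 76) (nat_lit 18112001391) (nat_lit 4) (nat_lit 4) (nat_lit 5) (nat_lit 5) (nat_lit 5) (nat_lit 4) (nat_lit 312) (nat_lit 244) (nat_lit 224))))))) (XT.nd (nat_lit 858) (nat_lit 0) (nat_lit 0) (XT.nd (nat_lit 390) (nat_lit 76) (nat_lit 0) (XT.nd (nat_lit 156) (nat_lit 76) (nat_lit 0) (XT.nd (nat_lit 78) (nat_lit 0) (nat_lit 0) (XT.lf (nat_lit 0) (nat_lit 33841381737) (nat_lit 76) (nat_lit 19702588759) (nat_lit 76) (nat_lit 14375290457) (nat_lit 4) (nat_lit 4) (nat_lit 5) (nat_lit 5) (nat_lit 5) (nat_lit 4) (nat_lit 313) (nat_lit 244) (nat_lit 223)) (XT.lf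 (nat_lit 0) (nat_lit 46732819749) (nat_lit 76) (nat_lit 15888599079) (nat_lit 76) (nat_lit 10463474561) (nat_lit 4) (nat_lit 4) (nat_lit 5) (nat_lit 5) (nat_lit 5) (nat_lit 4) (nat_lit 314) (nat_lit 244) (nat_lit 222))) (XT.nd (nat_lit 78) (nat_lit 76) (nat_lit 0) (XT.lf (nat_lit 0) (nat_lit 60446818519) (nat_lit 76) (nat_lit 11869076919) (nat_lit 76) (nat_lit 6353372571) (nat_lit 4) (nat_lit 4) (nat_lit 5) (nat_lit 5) (nat_lit 5) (nat_lit 4) (nat_lit 315) (nat_lit 244) (nat_lit 221)) (XT.nd (nat_lit 78) (nat_lit 76) (nat_lit 0) (XT.lf (nat_lit 0) (nat_lit 75064646187) (nat_lit 76) (nat_lit 7620202888) (nat_lit 76) (nat_lit 2020628327) (nat_lit 4) (nat_lit 4) (nat_lit 5) (nat_lit 5) (nat_lit 5) (nat_lit 4) (nat_lit 316) (nat_lit 244) (nat_lit 220)) (XT.lf (nat_lit 0) (nat_lit 2478483823) (nat_lit 152) (nat_lit 596340328) (nat_lit 76) (nat_lit 88152468771) (nat_lit 3) (nat_lit 5) (nat_lit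 5) (nat_lit 5) (nat_lit 4) (nat_lit 4) (nat_lit 317) (nat_lit 244) (nat_lit 219))))) (XT.nd (nat_lit 234) (nat_lit 0) (nat_lit 0) (XT.nd (nat_lit 78) (nat_lit 0) (nat_lit 0) (XT.lf (nat_lit 0) (nat_lit 7354541737) (nat_lit 152) (nat_lit 89031117484) (nat_lit 0) (nat_lit 1879172827) (nat_lit 2) (nat_lit 5) (nat_lit 4) (nat_lit 4) (nat_lit 2) (nat_lit 4) (nat_lit 318) (nat_lit 244) (nat_lit 218)) (XT.nd (nat_lit 78) (nat_lit 0) (nat_lit 0) (XT.lf (nat_lit 0) (nat_lit 12597784657) (nat_lit 152) (nat_lit 86209750585) (nat_lit 0) (nat_lit 7059007291) (nat_lit 2) (nat_lit 5) (nat_lit 4) (nat_lit 4) (nat_lit 2) (nat_lit 4) (nat_lit 319) (nat_lit 244) (nat_lit 217)) (XT.lf (nat_lit 0) (nat_lit 18181500959) (nat_lit 152) (nat_lit 83314847665) (nat_lit 0) (nat_lit 12584012060) (nat_lit 2) (nat_lit 5) (nat_lit 4) (nat_lit 4) (nat_lit 2) (nat_lit 4) (nat_lit 320) (nat_lit 244) (nat_lit 216)))) (XT.nd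 (nat_lit 78) (nat_lit 0) (nat_lit 0) (XT.lf (nat_lit 0) (nat_lit 24138779333) (nat_lit 152) (nat_lit 80329253743) (nat_lit 0) (nat_lit 18486927904) (nat_lit 2) (nat_lit 5) (nat_lit 4) (nat_lit 4) (nat_lit 2) (nat_lit 4) (nat_lit 321) (nat_lit 244) (nat_lit 215)) (XT.nd (nat_lit 78) (nat_lit 0) (nat_lit 0) (XT.lf (nat_lit 0) (nat_lit 30504922169) (nat_lit 152) (nat_lit 77235276412) (nat_lit 0) (nat_lit 24802735063) (nat_lit 2) (nat_lit 5) (nat_lit 4) (nat_lit 4) (nat_lit 2) (nat_lit 4) (nat_lit 322) (nat_lit 244) (nat_lit 214)) (XT.lf (nat_lit 0) (nat_lit 37317654758) (nat_lit 152) (nat_lit 74014580991) (nat_lit 0) (nat_lit 31568860543) (nat_lit 2) (nat_lit 5) (nat_lit 4) (nat_lit 4) (nat_lit 2) (nat_lit 4) (nat_lit 323) (nat_lit 244) (nat_lit 213)))))) (XT.nd (nat_lit 390) (nat_lit 0) (nat_lit 0) (XT.nd (nat_lit 156) (nat_lit 0) (nat_lit 0) (XT.nd (nat_lit 78) (nat_lit 0) (nat_lit 0) (XT.lf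 (nat_lit 0) (nat_lit 44617348848) (nat_lit 152) (nat_lit 70648081878) (nat_lit 0) (nat_lit 38825399903) (nat_lit 2) (nat_lit 5) (nat_lit 4) (nat_lit 4) (nat_lit 2) (nat_lit 4) (nat_lit 324) (nat_lit 244) (nat_lit 212)) (XT.lf (nat_lit 0) (nat_lit 52447261886) (nat_lit 152) (nat_lit 67115829448) (nat_lit 0) (nat_lit 46615354858) (nat_lit 2) (nat_lit 5) (nat_lit 4) (nat_lit 4) (nat_lit 2) (nat_lit 4) (nat_lit 325) (nat_lit 244) (nat_lit 211))) (XT.nd (nat_lit 78) (nat_lit 0) (nat_lit 0) (XT.lf (nat_lit 0) (nat_lit 60853793356) (nat_lit 152) (nat_lit 63396891834) (nat_lit 0) (nat_lit 54984888103) (nat_lit 2) (nat_lit 5) (nat_lit 4) (nat_lit 4) (nat_lit 2) (nat_lit 4) (nat_lit 326) (nat_lit 244) (nat_lit 210)) (XT.nd (nat_lit 78) (nat_lit 0) (nat_lit 0) (XT.lf (nat_lit 0) (nat_lit 69886759742) (nat_lit 152) (nat_lit 59469230889) (nat_lit 0) (nat_lit 63983596873) (nat_lit 2) (nat_lit 5) (nat_lit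 4) (nat_lit 4) (nat_lit 2) (nat_lit 4) (nat_lit 327) (nat_lit 244) (nat_lit 209)) (XT.lf (nat_lit 0) (nat_lit 79599689733) (nat_lit 152) (nat_lit 55309571584) (nat_lit 0) (nat_lit 73664806849) (nat_lit 2) (nat_lit 5) (nat_lit 4) (nat_lit 4) (nat_lit 2) (nat_lit 4) (nat_lit 328) (nat_lit 244) (nat_lit 208))))) (XT.nd (nat_lit 234) (nat_lit 0) (nat_lit 0) (XT.nd (nat_lit 78) (nat_lit 0) (nat_lit 0) (XT.lf (nat_lit 0) (nat_lit 90050141432) (nat_lit 152) (nat_lit 50893264087) (nat_lit 0) (nat_lit 84085888165) (nat_lit 2) (nat_lit 5) (nat_lit 4) (nat_lit 4) (nat_lit 2) (nat_lit 4) (nat_lit 329) (nat_lit 244) (nat_lit 207)) (XT.nd (nat_lit 78) (nat_lit 0) (nat_lit 0) (XT.lf (nat_lit 0) (nat_lit 101300043443) (nat_lit 152) (nat_lit 46194137685) (nat_lit 0) (nat_lit 95308595375) (nat_lit 2) (nat_lit 5) (nat_lit 4) (nat_lit 4) (nat_lit 2) (nat_lit 4) (nat_lit 330) (nat_lit 244) (nat_lit 206)) (XT.lf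 (nat_lit 0) (nat_lit 113416061851) (nat_lit 152) (nat_lit 41184345705) (nat_lit 0) (nat_lit 107399433413) (nat_lit 2) (nat_lit 5) (nat_lit 4) (nat_lit 4) (nat_lit 2) (nat_lit 4) (nat_lit 331) (nat_lit 244) (nat_lit 205)))) (XT.nd (nat_lit 78) (nat_lit 0) (nat_lit 0) (XT.lf (nat_lit 0) (nat_lit 126469995284) (nat_lit 152) (nat_lit 35834200490) (nat_lit 0) (nat_lit 120430051688) (nat_lit 2) (nat_lit 5) (nat_lit 4) (nat_lit 4) (nat_lit 2) (nat_lit 4) (nat_lit 332) (nat_lit 244) (nat_lit 204)) (XT.nd (nat_lit 78) (nat_lit 0) (nat_lit 0) (XT.lf (nat_lit 0) (nat_lit 140539200384) (nat_lit 152) (nat_lit 30111997475) (nat_lit 0) (nat_lit 134477668680) (nat_lit 2) (nat_lit 5) (nat_lit 4) (nat_lit 4) (nat_lit 2) (nat_lit 4) (nat_lit 333) (nat_lit 244) (nat_lit 203)) (XT.lf (nat_lit 0) (nat_lit 155707050219) (nat_lit 152) (nat_lit 23983827311) (nat_lit 0) (nat_lit 149625529525) (nat_lit 2) (nat_lit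 5) (nat_lit 4) (nat_lit 4) (nat_lit 2) (nat_lit 4) (nat_lit 334) (nat_lit 244) (nat_lit 202))))))))
noncomputable def xc21 : XT := (XT.nd (nat_lit 37518) (nat_lit 0) (nat_lit 228) (XT.nd (nat_lit 780) (nat_lit 0) (nat_lit 0) (XT.nd (nat_lit 390) (nat_lit 0) (nat_lit 0) (XT.nd (nat_lit 156) (nat_lit 76) (nat_lit 0) (XT.nd (nat_lit 78) (nat_lit 0) (nat_lit 0) (XT.lf (nat_lit 0) (nat_lit 172063428344) (nat_lit 152) (nat_lit 17413374913) (nat_lit 0) (nat_lit 165963399325) (nat_lit 2) (nat_lit 5) (nat_lit 4) (nat_lit 4) (nat_lit 2) (nat_lit 4) (nat_lit 335) (nat_lit 244) (nat_lit 201)) (XT.lf (nat_lit 0) (nat_lit 189705261443) (nat_lit 152) (nat_lit 10361704269) (nat_lit 0) (nat_lit 183588095087) (nat_lit 2) (nat_lit 5) (nat_lit 4) (nat_lit 4) (nat_lit 2) (nat_lit 4) (nat_lit 336) (nat_lit 244) (nat_lit 200))) (XT.nd (nat_lit 78) (nat_lit 76) (nat_lit 0) (XT.lf (nat_lit 0) (nat_lit 208737093712)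 (nat_lit 152) (nat_lit 2787027700) (nat_lit 0) (nat_lit 202604059452) (nat_lit 2) (nat_lit 5) (nat_lit 4) (nat_lit 4) (nat_lit 2) (nat_lit 4) (nat_lit 337) (nat_lit 244) (nat_lit 199)) (XT.nd (nat_lit 78) (nat_lit 0) (nat_lit 0) (XT.lf (nat_lit 0) (nat_lit 5532620163) (nat_lit 76) (nat_lit 223825465923) (nat_lit 76) (nat_lit 217677739159) (nat_lit 1) (nat_lit 4) (nat_lit 2) (nat_lit 5) (nat_lit 2) (nat_lit 4) (nat_lit 338) (nat_lit 244) (nat_lit 198)) (XT.lf (nat_lit 0) (nat_lit 14580937451) (nat_lit 76) (nat_lit 237077497887) (nat_lit 76) (nat_lit 230916166952) (nat_lit 1) (nat_lit 4) (nat_lit 2) (nat_lit 5) (nat_lit 2) (nat_lit 4) (nat_lit 339) (nat_lit 244) (nat_lit 197))))) (XT.nd (nat_lit 156) (nat_lit 0) (nat_lit 0) (XT.nd (nat_lit 78) (nat_lit 0) (nat_lit 0) (XT.lf (nat_lit 0) (nat_lit 24319392100) (nat_lit 76) (nat_lit 251405947525) (nat_lit 76) (nat_lit 245232020136) (nat_lit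 1) (nat_lit 4) (nat_lit 2) (nat_lit 5) (nat_lit 2) (nat_lit 4) (nat_lit 340) (nat_lit 244) (nat_lit 196)) (XT.lf (nat_lit 0) (nat_lit 34805693470) (nat_lit 76) (nat_lit 266895724170) (nat_lit 76) (nat_lit 260710133398) (nat_lit 1) (nat_lit 4) (nat_lit 2) (nat_lit 5) (nat_lit 2) (nat_lit 4) (nat_lit 341) (nat_lit 244) (nat_lit 195))) (XT.nd (nat_lit 78) (nat_lit 0) (nat_lit 0) (XT.lf (nat_lit 0) (nat_lit 46101982606) (nat_lit 76) (nat_lit 283638619091) (nat_lit 76) (nat_lit 277442228889) (nat_lit 1) (nat_lit 4) (nat_lit 2) (nat_lit 5) (nat_lit 2) (nat_lit 4) (nat_lit 342) (nat_lit 244) (nat_lit 194)) (XT.nd (nat_lit 78) (nat_lit 0) (nat_lit 0) (XT.lf (nat_lit 0) (nat_lit 58275200481) (nat_lit 76) (nat_lit 301733849442) (nat_lit 76) (nat_lit 295527459768) (nat_lit 1) (nat_lit 4) (nat_lit 2) (nat_lit 5) (nat_lit 2) (nat_lit 4) (nat_lit 343) (nat_lit 244) (nat_lit 193)) (XT.lf (nat_lit 0)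 (nat_lit 71397484682) (nat_lit 76) (nat_lit 321288646218) (nat_lit 76) (nat_lit 315072997774) (nat_lit 1) (nat_lit 4) (nat_lit 2) (nat_lit 5) (nat_lit 2) (nat_lit 4) (nat_lit 344) (nat_lit 244) (nat_lit 192)))))) (XT.nd (nat_lit 390) (nat_lit 0) (nat_lit 0) (XT.nd (nat_lit 156) (nat_lit 0) (nat_lit 0) (XT.nd (nat_lit 78) (nat_lit 0) (nat_lit 0) (XT.lf (nat_lit 0) (nat_lit 85546596894) (nat_lit 76) (nat_lit 342418889696) (nat_lit 76) (nat_lit 336194668317) (nat_lit 1) (nat_lit 4) (nat_lit 2) (nat_lit 5) (nat_lit 2) (nat_lit 4) (nat_lit 345) (nat_lit 244) (nat_lit 191)) (XT.lf (nat_lit 0) (nat_lit 100806383707) (nat_lit 76) (nat_lit 365249796134) (nat_lit 76) (nat_lit 359017636853) (nat_lit 1) (nat_lit 4) (nat_lit 2) (nat_lit 5) (nat_lit 2) (nat_lit 4) (nat_lit 346) (nat_lit 244) (nat_lit 190))) (XT.nd (nat_lit 78) (nat_lit 0) (nat_lit 0) (XT.lf (nat_lit 0) (nat_lit 117267273489) (nat_lit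 76) (nat_lit 389916659793) (nat_lit 76) (nat_lit 383677150601) (nat_lit 1) (nat_lit 4) (nat_lit 2) (nat_lit 5) (nat_lit 2) (nat_lit 4) (nat_lit 347) (nat_lit 244) (nat_lit 189)) (XT.nd (nat_lit 78) (nat_lit 0) (nat_lit 0) (XT.lf (nat_lit 0) (nat_lit 135026812251) (nat_lit 76) (nat_lit 416565654679) (nat_lit 76) (nat_lit 410319340015) (nat_lit 1) (nat_lit 4) (nat_lit 2) (nat_lit 5) (nat_lit 2) (nat_lit 4) (nat_lit 348) (nat_lit 244) (nat_lit 188)) (XT.lf (nat_lit 0) (nat_lit 154190241706) (nat_lit 76) (nat_lit 445354700761) (nat_lit 76) (nat_lit 439102084734) (nat_lit 1) (nat_lit 4) (nat_lit 2) (nat_lit 5) (nat_lit 2) (nat_lit 4) (nat_lit 349) (nat_lit 244) (nat_lit 187))))) (XT.nd (nat_lit 36114) (nat_lit 0) (nat_lit 988) (XT.nd (nat_lit 35958) (nat_lit 0) (nat_lit 1216) (XT.lf (nat_lit 0) (nat_lit 174871122916) (nat_lit 76) (nat_lit 476454399796) (nat_lit 76) (nat_lit 470195949173) (nat_lit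 1) (nat_lit 4) (nat_lit 2) (nat_lit 5) (nat_lit 2) (nat_lit 4) (nat_lit 350) (nat_lit 244) (nat_lit 186)) (XT.nd (nat_lit 78) (nat_lit 152) (nat_lit 0) (XT.lf (nat_lit 0) (nat_lit 1926946224) (nat_lit 152) (nat_lit 2858893744) (nat_lit 152) (nat_lit 2858893744) (nat_lit 19) (nat_lit 4) (nat_lit 21) (nat_lit 5) (nat_lit 21) (nat_lit 4) (nat_lit 290) (nat_lit 245) (nat_lit 245)) (XT.lf (nat_lit 0) (nat_lit 1301216629) (nat_lit 152) (nat_lit 14158114175) (nat_lit 0) (nat_lit 654766431) (nat_lit 17) (nat_lit 5) (nat_lit 19) (nat_lit 4) (nat_lit 17) (nat_lit 4) (nat_lit 291) (nat_lit 245) (nat_lit 244)))) (XT.nd (nat_lit 78) (nat_lit 228) (nat_lit 0) (XT.lf (nat_lit 0) (nat_lit 8579464456) (nat_lit 152) (nat_lit 1091414110) (nat_lit 0) (nat_lit 7334449260) (nat_lit 17) (nat_lit 5) (nat_lit 19) (nat_lit 4) (nat_lit 17) (nat_lit 4) (nat_lit 292) (nat_lit 245) (nat_lit 243)) (XT.nd (nat_lit 78)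 (nat_lit 152) (nat_lit 0) (XT.lf (nat_lit 0) (nat_lit 12754959513) (nat_lit 76) (nat_lit 3510533278) (nat_lit 76) (nat_lit 1711291232) (nat_lit 16) (nat_lit 4) (nat_lit 17) (nat_lit 5) (nat_lit 17) (nat_lit 4) (nat_lit 293) (nat_lit 245) (nat_lit 242)) (XT.lf (nat_lit 0) (nat_lit 5197423182) (nat_lit 152) (nat_lit 10837549224) (nat_lit 0) (nat_lit 2995123129) (nat_lit 14) (nat_lit 5) (nat_lit 16) (nat_lit 4) (nat_lit 14) (nat_lit 4) (nat_lit 294) (nat_lit 245) (nat_lit 241))))))) (XT.nd (nat_lit 858) (nat_lit 228) (nat_lit 0) (XT.nd (nat_lit 390) (nat_lit 228) (nat_lit 0) (XT.nd (nat_lit 156) (nat_lit 228) (nat_lit 0) (XT.nd (nat_lit 78) (nat_lit 0) (nat_lit 0) (XT.lf (nat_lit 0) (nat_lit 2037880340) (nat_lit 76) (nat_lit 10395823592) (nat_lit 76) (nat_lit 7740990021) (nat_lit 13) (nat_lit 4) (nat_lit 14) (nat_lit 5) (nat_lit 14) (nat_lit 4) (nat_lit 295) (nat_lit 245) (nat_lit 240)) (XT.lf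 (nat_lit 0) (nat_lit 15716999702) (nat_lit 76) (nat_lit 4387538840) (nat_lit 76) (nat_lit 1313692753) (nat_lit 13) (nat_lit 4) (nat_lit 14) (nat_lit 5) (nat_lit 14) (nat_lit 4) (nat_lit 296) (nat_lit 245) (nat_lit 239))) (XT.nd (nat_lit 78) (nat_lit 76) (nat_lit 0) (XT.lf (nat_lit 0) (nat_lit 5279915134) (nat_lit 152) (nat_lit 15502523025) (nat_lit 0) (nat_lit 1982943096) (nat_lit 11) (nat_lit 5) (nat_lit 13) (nat_lit 4) (nat_lit 11) (nat_lit 4) (nat_lit 297) (nat_lit 245) (nat_lit 238)) (XT.nd (nat_lit 78) (nat_lit 76) (nat_lit 0) (XT.lf (nat_lit 0) (nat_lit 12227499426) (nat_lit 152) (nat_lit 3409828610) (nat_lit 0) (nat_lit 8588398153) (nat_lit 11) (nat_lit 5) (nat_lit 13) (nat_lit 4) (nat_lit 11) (nat_lit 4) (nat_lit 298) (nat_lit 245) (nat_lit 237)) (XT.lf (nat_lit 0) (nat_lit 9429496992) (nat_lit 76) (nat_lit 10168036654) (nat_lit 76) (nat_lit 6212149053) (nat_lit 10) (nat_lit 4)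 (nat_lit 11) (nat_lit 5) (nat_lit 11) (nat_lit 4) (nat_lit 299) (nat_lit 245) (nat_lit 236))))) (XT.nd (nat_lit 234) (nat_lit 76) (nat_lit 0) (XT.nd (nat_lit 78) (nat_lit 152) (nat_lit 0) (XT.lf (nat_lit 0) (nat_lit 22917856366) (nat_lit 76) (nat_lit 4431112629) (nat_lit 76) (nat_lit 181904353) (nat_lit 10) (nat_lit 4) (nat_lit 11) (nat_lit 5) (nat_lit 11) (nat_lit 4) (nat_lit 300) (nat_lit 245) (nat_lit 235)) (XT.nd (nat_lit 78) (nat_lit 0) (nat_lit 0) (XT.lf (nat_lit 0) (nat_lit 6025317451) (nat_lit 152) (nat_lit 21644943296) (nat_lit 0) (nat_lit 1719792219) (nat_lit 8) (nat_lit 5) (nat_lit 10) (nat_lit 4) (nat_lit 8) (nat_lit 4) (nat_lit 301) (nat_lit 245) (nat_lit 234)) (XT.lf (nat_lit 0) (nat_lit 12635621607) (nat_lit 152) (nat_lit 10676043986) (nat_lit 0) (nat_lit 8090596183) (nat_lit 8) (nat_lit 5) (nat_lit 10) (nat_lit 4) (nat_lit 8) (nat_lit 4) (nat_lit 302) (nat_lit 245) (nat_lit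 233)))) (XT.nd (nat_lit 78) (nat_lit 0) (nat_lit 0) (XT.lf (nat_lit 0) (nat_lit 769429533) (nat_lit 76) (nat_lit 18791780463) (nat_lit 76) (nat_lit 14024995603) (nat_lit 7) (nat_lit 4) (nat_lit 8) (nat_lit 5) (nat_lit 8) (nat_lit 4) (nat_lit 303) (nat_lit 245) (nat_lit 232)) (XT.nd (nat_lit 78) (nat_lit 0) (nat_lit 0) (XT.lf (nat_lit 0) (nat_lit 13104709244) (nat_lit 76) (nat_lit 13906905095) (nat_lit 76) (nat_lit 8934787423) (nat_lit 7) (nat_lit 4) (nat_lit 8) (nat_lit 5) (nat_lit 8) (nat_lit 4) (nat_lit 304) (nat_lit 245) (nat_lit 231)) (XT.lf (nat_lit 0) (nat_lit 26049894870) (nat_lit 76) (nat_lit 8808896052) (nat_lit 76) (nat_lit 3646655406) (nat_lit 7) (nat_lit 4) (nat_lit 8) (nat_lit 5) (nat_lit 8) (nat_lit 4) (nat_lit 305) (nat_lit 245) (nat_lit 230)))))) (XT.nd (nat_lit 390) (nat_lit 76) (nat_lit 0) (XT.nd (nat_lit 156) (nat_lit 0) (nat_lit 0) (XT.nd (nat_lit 78) (nat_lit 76) (nat_lit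 0) (XT.lf (nat_lit 0) (nat_lit 1810862242) (nat_lit 152) (nat_lit 1626012838) (nat_lit 76) (nat_lit 37840168551) (nat_lit 6) (nat_lit 5) (nat_lit 8) (nat_lit 5) (nat_lit 7) (nat_lit 4) (nat_lit 306) (nat_lit 245) (nat_lit 229)) (XT.lf (nat_lit 0) (nat_lit 7599422976) (nat_lit 152) (nat_lit 34306795000) (nat_lit 0) (nat_lit 2360108460) (nat_lit 5) (nat_lit 5) (nat_lit 7) (nat_lit 4) (nat_lit 5) (nat_lit 4) (nat_lit 307) (nat_lit 245) (nat_lit 228))) (XT.nd (nat_lit 78) (nat_lit 0) (nat_lit 0) (XT.lf (nat_lit 0) (nat_lit 13769745743) (nat_lit 152) (nat_lit 25342432540) (nat_lit 0) (nat_lit 8386692421) (nat_lit 5) (nat_lit 5) (nat_lit 7) (nat_lit 4) (nat_lit 5) (nat_lit 4) (nat_lit 308) (nat_lit 245) (nat_lit 227)) (XT.nd (nat_lit 78) (nat_lit 0) (nat_lit 0) (XT.lf (nat_lit 0) (nat_lit 20278080219) (nat_lit 152) (nat_lit 15957832385) (nat_lit 0) (nat_lit 14761935410) (nat_lit 5) (nat_lit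 5) (nat_lit 7) (nat_lit 4) (nat_lit 5) (nat_lit 4) (nat_lit 309) (nat_lit 245) (nat_lit 226)) (XT.lf (nat_lit 0) (nat_lit 27162994312) (nat_lit 152) (nat_lit 6097382089) (nat_lit 0) (nat_lit 21523616644) (nat_lit 5) (nat_lit 5) (nat_lit 7) (nat_lit 4) (nat_lit 5) (nat_lit 4) (nat_lit 310) (nat_lit 245) (nat_lit 225))))) (XT.nd (nat_lit 234) (nat_lit 0) (nat_lit 0) (XT.nd (nat_lit 78) (nat_lit 0) (nat_lit 0) (XT.lf (nat_lit 0) (nat_lit 4439440464) (nat_lit 76) (nat_lit 30095159156) (nat_lit 76) (nat_lit 24341676989) (nat_lit 4) (nat_lit 4) (nat_lit 5) (nat_lit 5) (nat_lit 5) (nat_lit 4) (nat_lit 311) (nat_lit 245) (nat_lit 224)) (XT.nd (nat_lit 78) (nat_lit 0) (nat_lit 0) (XT.lf (nat_lit 0) (nat_lit 15793453372) (nat_lit 76) (nat_lit 26681359365) (nat_lit 76) (nat_lit 20822224885) (nat_lit 4) (nat_lit 4) (nat_lit 5) (nat_lit 5) (nat_lit 5) (nat_lit 4) (nat_lit 312) (nat_lit 245) (nat_lit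 223)) (XT.lf (nat_lit 0) (nat_lit 27830332687) (nat_lit 76) (nat_lit 23102009221) (nat_lit 76) (nat_lit 17145048525) (nat_lit 4) (nat_lit 4) (nat_lit 5) (nat_lit 5) (nat_lit 5) (nat_lit 4) (nat_lit 313) (nat_lit 245) (nat_lit 222)))) (XT.nd (nat_lit 78) (nat_lit 0) (nat_lit 0) (XT.lf (nat_lit 0) (nat_lit 40621408063) (nat_lit 76) (nat_lit 19335897759) (nat_lit 76) (nat_lit 13288357233) (nat_lit 4) (nat_lit 4) (nat_lit 5) (nat_lit 5) (nat_lit 5) (nat_lit 4) (nat_lit 314) (nat_lit 245) (nat_lit 221)) (XT.nd (nat_lit 78) (nat_lit 0) (nat_lit 0) (XT.lf (nat_lit 0) (nat_lit 54242478466) (nat_lit 76) (nat_lit 15360707283) (nat_lit 76) (nat_lit 9229296544) (nat_lit 4) (nat_lit 4) (nat_lit 5) (nat_lit 5) (nat_lit 5) (nat_lit 4) (nat_lit 315) (nat_lit 245) (nat_lit 220)) (XT.lf (nat_lit 0) (nat_lit 68774261350) (nat_lit 76) (nat_lit 11152881107) (nat_lit 76) (nat_lit 4943812764) (nat_lit 4) (nat_lit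 4) (nat_lit 5) (nat_lit 5) (nat_lit 5) (nat_lit 4) (nat_lit 316) (nat_lit 245) (nat_lit 219))))))))
noncomputable def xc22 : XT := (XT.nd (nat_lit 1638) (nat_lit 76) (nat_lit 0) (XT.nd (nat_lit 780) (nat_lit 0) (nat_lit 0) (XT.nd (nat_lit 390) (nat_lit 0) (nat_lit 0) (XT.nd (nat_lit 156) (nat_lit 0) (nat_lit 0) (XT.nd (nat_lit 78) (nat_lit 152) (nat_lit 0) (XT.lf (nat_lit 0) (nat_lit 84302870983) (nat_lit 76) (nat_lit 6687483966) (nat_lit 76) (nat_lit 406510433) (nat_lit 4) (nat_lit 4) (nat_lit 5) (nat_lit 5) (nat_lit 5) (nat_lit 4) (nat_lit 317) (nat_lit 245) (nat_lit 218)) (XT.lf (nat_lit 0) (nat_lit 2482040076) (nat_lit 76) (nat_lit 1825078210) (nat_lit 152) (nat_lit 94136386740) (nat_lit 2) (nat_lit 5) (nat_lit 3) (nat_lit 5) (nat_lit 4) (nat_lit 4) (nat_lit 318) (nat_lit 245) (nat_lit 217))) (XT.nd (nat_lit 78) (nat_lit 0) (nat_lit 0) (XT.lf (nat_lit 0) (nat_lit 9483892558) (nat_lit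 152) (nat_lit 93184763721) (nat_lit 0) (nat_lit 3379893014) (nat_lit 2) (nat_lit 5) (nat_lit 4) (nat_lit 4) (nat_lit 2) (nat_lit 4) (nat_lit 319) (nat_lit 245) (nat_lit 216)) (XT.nd (nat_lit 78) (nat_lit 0) (nat_lit 0) (XT.lf (nat_lit 0) (nat_lit 15032447691) (nat_lit 152) (nat_lit 90357601778) (nat_lit 0) (nat_lit 8874085616) (nat_lit 2) (nat_lit 5) (nat_lit 4) (nat_lit 4) (nat_lit 2) (nat_lit 4) (nat_lit 320) (nat_lit 245) (nat_lit 215)) (XT.lf (nat_lit 0) (nat_lit 20957169427) (nat_lit 152) (nat_lit 87434730983) (nat_lit 0) (nat_lit 14748471674) (nat_lit 2) (nat_lit 5) (nat_lit 4) (nat_lit 4) (nat_lit 2) (nat_lit 4) (nat_lit 321) (nat_lit 245) (nat_lit 214))))) (XT.nd (nat_lit 156) (nat_lit 0) (nat_lit 0) (XT.nd (nat_lit 78) (nat_lit 0) (nat_lit 0) (XT.lf (nat_lit 0) (nat_lit 27293167227) (nat_lit 152) (nat_lit 84398830622) (nat_lit 0) (nat_lit 21037862366) (nat_lit 2) (nat_lit 5) (nat_lit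 4) (nat_lit 4) (nat_lit 2) (nat_lit 4) (nat_lit 322) (nat_lit 245) (nat_lit 213)) (XT.lf (nat_lit 0) (nat_lit 34077987745) (nat_lit 152) (nat_lit 81231910173) (nat_lit 0) (nat_lit 27779528155) (nat_lit 2) (nat_lit 5) (nat_lit 4) (nat_lit 4) (nat_lit 2) (nat_lit 4) (nat_lit 323) (nat_lit 245) (nat_lit 212))) (XT.nd (nat_lit 78) (nat_lit 0) (nat_lit 0) (XT.lf (nat_lit 0) (nat_lit 41351837326) (nat_lit 152) (nat_lit 77915202700) (nat_lit 0) (nat_lit 35013419653) (nat_lit 2) (nat_lit 5) (nat_lit 4) (nat_lit 4) (nat_lit 2) (nat_lit 4) (nat_lit 324) (nat_lit 245) (nat_lit 211)) (XT.nd (nat_lit 78) (nat_lit 0) (nat_lit 0) (XT.lf (nat_lit 0) (nat_lit 49157820263) (nat_lit 152) (nat_lit 74429053640) (nat_lit 0) (nat_lit 42782404364) (nat_lit 2) (nat_lit 5) (nat_lit 4) (nat_lit 4) (nat_lit 2) (nat_lit 4) (nat_lit 325) (nat_lit 245) (nat_lit 210)) (XT.lf (nat_lit 0) (nat_lit 57542194232) (nat_lit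 152) (nat_lit 70752804333) (nat_lit 0) (nat_lit 51132520718) (nat_lit 2) (nat_lit 5) (nat_lit 4) (nat_lit 4) (nat_lit 2) (nat_lit 4) (nat_lit 326) (nat_lit 245) (nat_lit 209)))))) (XT.nd (nat_lit 390) (nat_lit 0) (nat_lit 0) (XT.nd (nat_lit 156) (nat_lit 0) (nat_lit 0) (XT.nd (nat_lit 78) (nat_lit 0) (nat_lit 0) (XT.lf (nat_lit 0) (nat_lit 66554644413) (nat_lit 152) (nat_lit 66864669598) (nat_lit 0) (nat_lit 60113250884) (nat_lit 2) (nat_lit 5) (nat_lit 4) (nat_lit 4) (nat_lit 2) (nat_lit 4) (nat_lit 327) (nat_lit 245) (nat_lit 208)) (XT.lf (nat_lit 0) (nat_lit 76248577918) (nat_lit 152) (nat_lit 62741608635) (nat_lit 0) (nat_lit 69777814005) (nat_lit 2) (nat_lit 5) (nat_lit 4) (nat_lit 4) (nat_lit 2) (nat_lit 4) (nat_lit 328) (nat_lit 245) (nat_lit 207))) (XT.nd (nat_lit 78) (nat_lit 0) (nat_lit 0) (XT.lf (nat_lit 0) (nat_lit 86681440279) (nat_lit 152) (nat_lit 58359188491) (nat_lit 0)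 (nat_lit 80183481566) (nat_lit 2) (nat_lit 5) (nat_lit 4) (nat_lit 4) (nat_lit 2) (nat_lit 4) (nat_lit 329) (nat_lit 245) (nat_lit 206)) (XT.nd (nat_lit 78) (nat_lit 0) (nat_lit 0) (XT.lf (nat_lit 0) (nat_lit 97915055865) (nat_lit 152) (nat_lit 53691439269) (nat_lit 0) (nat_lit 91391916781) (nat_lit 2) (nat_lit 5) (nat_lit 4) (nat_lit 4) (nat_lit 2) (nat_lit 4) (nat_lit 330) (nat_lit 245) (nat_lit 205)) (XT.lf (nat_lit 0) (nat_lit 110015994250) (nat_lit 152) (nat_lit 48710700233) (nat_lit 0) (nat_lit 103469540008) (nat_lit 2) (nat_lit 5) (nat_lit 4) (nat_lit 4) (nat_lit 2) (nat_lit 4) (nat_lit 331) (nat_lit 245) (nat_lit 204))))) (XT.nd (nat_lit 234) (nat_lit 0) (nat_lit 0) (XT.nd (nat_lit 78) (nat_lit 0) (nat_lit 0) (XT.lf (nat_lit 0) (nat_lit 123055964698) (nat_lit 152) (nat_lit 43387455892) (nat_lit 0) (nat_lit 116487922348) (nat_lit 2) (nat_lit 5) (nat_lit 4) (nat_lit 4) (nat_lit 2)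 (nat_lit 4) (nat_lit 332) (nat_lit 245) (nat_lit 203)) (XT.nd (nat_lit 78) (nat_lit 0) (nat_lit 0) (XT.lf (nat_lit 0) (nat_lit 137112241110) (nat_lit 152) (nat_lit 37690161094) (nat_lit 0) (nat_lit 130524209770) (nat_lit 2) (nat_lit 5) (nat_lit 4) (nat_lit 4) (nat_lit 2) (nat_lit 4) (nat_lit 333) (nat_lit 245) (nat_lit 202)) (XT.lf (nat_lit 0) (nat_lit 152268119936) (nat_lit 152) (nat_lit 31585054093) (nat_lit 0) (nat_lit 145661580272) (nat_lit 2) (nat_lit 5) (nat_lit 4) (nat_lit 4) (nat_lit 2) (nat_lit 4) (nat_lit 334) (nat_lit 245) (nat_lit 201)))) (XT.nd (nat_lit 78) (nat_lit 0) (nat_lit 0) (XT.lf (nat_lit 0) (nat_lit 168613413794) (nat_lit 152) (nat_lit 25035956477) (nat_lit 0) (nat_lit 161989736793) (nat_lit 2) (nat_lit 5) (nat_lit 4) (nat_lit 4) (nat_lit 2) (nat_lit 4) (nat_lit 335) (nat_lit 245) (nat_lit 200)) (XT.nd (nat_lit 78) (nat_lit 0) (nat_lit 0) (XT.lf (nat_lit 0) (nat_lit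 186244983683) (nat_lit 152) (nat_lit 18004058778) (nat_lit 0) (nat_lit 179605438777) (nat_lit 2) (nat_lit 5) (nat_lit 4) (nat_lit 4) (nat_lit 2) (nat_lit 4) (nat_lit 336) (nat_lit 245) (nat_lit 199)) (XT.lf (nat_lit 0) (nat_lit 205267312980) (nat_lit 152) (nat_lit 10447690492) (nat_lit 0) (nat_lit 198613075570) (nat_lit 2) (nat_lit 5) (nat_lit 4) (nat_lit 4) (nat_lit 2) (nat_lit 4) (nat_lit 337) (nat_lit 245) (nat_lit 198))))))) (XT.nd (nat_lit 858) (nat_lit 0) (nat_lit 0) (XT.nd (nat_lit 390) (nat_lit 0) (nat_lit 0) (XT.nd (nat_lit 156) (nat_lit 0) (nat_lit 0) (XT.nd (nat_lit 78) (nat_lit 76) (nat_lit 0) (XT.lf (nat_lit 0) (nat_lit 225793126600) (nat_lit 152) (nat_lit 2322073139) (nat_lit 0) (nat_lit 219125285019) (nat_lit 2) (nat_lit 5) (nat_lit 4) (nat_lit 4) (nat_lit 2) (nat_lit 4) (nat_lit 338) (nat_lit 245) (nat_lit 197)) (XT.lf (nat_lit 0) (nat_lit 6633250528) (nat_lit 76) (nat_lit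 241414372095) (nat_lit 76) (nat_lit 234733934061) (nat_lit 1) (nat_lit 4) (nat_lit 2) (nat_lit 5) (nat_lit 2) (nat_lit 4) (nat_lit 339) (nat_lit 245) (nat_lit 196))) (XT.nd (nat_lit 78) (nat_lit 0) (nat_lit 0) (XT.lf (nat_lit 0) (nat_lit 16356690922) (nat_lit 76) (nat_lit 255750057809) (nat_lit 76) (nat_lit 249057956390) (nat_lit 1) (nat_lit 4) (nat_lit 2) (nat_lit 5) (nat_lit 2) (nat_lit 4) (nat_lit 340) (nat_lit 245) (nat_lit 195)) (XT.nd (nat_lit 78) (nat_lit 0) (nat_lit 0) (XT.lf (nat_lit 0) (nat_lit 26829090203) (nat_lit 76) (nat_lit 271246534523) (nat_lit 76) (nat_lit 264543633675) (nat_lit 1) (nat_lit 4) (nat_lit 2) (nat_lit 5) (nat_lit 2) (nat_lit 4) (nat_lit 341) (nat_lit 245) (nat_lit 194)) (XT.lf (nat_lit 0) (nat_lit 38112507035) (nat_lit 76) (nat_lit 287995633211) (nat_lit 76) (nat_lit 281282732892) (nat_lit 1) (nat_lit 4) (nat_lit 2) (nat_lit 5) (nat_lit 2) (nat_lit 4) (nat_lit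 342) (nat_lit 245) (nat_lit 193))))) (XT.nd (nat_lit 234) (nat_lit 0) (nat_lit 0) (XT.nd (nat_lit 78) (nat_lit 0) (nat_lit 0) (XT.lf (nat_lit 0) (nat_lit 50273806111) (nat_lit 76) (nat_lit 306096607791) (nat_lit 76) (nat_lit 299374448702) (nat_lit 1) (nat_lit 4) (nat_lit 2) (nat_lit 5) (nat_lit 2) (nat_lit 4) (nat_lit 343) (nat_lit 245) (nat_lit 192)) (XT.nd (nat_lit 78) (nat_lit 0) (nat_lit 0) (XT.lf (nat_lit 0) (nat_lit 63385054386) (nat_lit 76) (nat_lit 325656723298) (nat_lit 76) (nat_lit 318925991274) (nat_lit 1) (nat_lit 4) (nat_lit 2) (nat_lit 5) (nat_lit 2) (nat_lit 4) (nat_lit 344) (nat_lit 245) (nat_lit 191)) (XT.lf (nat_lit 0) (nat_lit 77523948148) (nat_lit 76) (nat_lit 346791891527) (nat_lit 76) (nat_lit 340053221600) (nat_lit 1) (nat_lit 4) (nat_lit 2) (nat_lit 5) (nat_lit 2) (nat_lit 4) (nat_lit 345) (nat_lit 245) (nat_lit 190)))) (XT.nd (nat_lit 78) (nat_lit 0) (nat_lit 0)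 (XT.lf (nat_lit 0) (nat_lit 92774273434) (nat_lit 76) (nat_lit 369627357920) (nat_lit 76) (nat_lit 362881338083) (nat_lit 1) (nat_lit 4) (nat_lit 2) (nat_lit 5) (nat_lit 2) (nat_lit 4) (nat_lit 346) (nat_lit 245) (nat_lit 189)) (XT.nd (nat_lit 78) (nat_lit 0) (nat_lit 0) (XT.lf (nat_lit 0) (nat_lit 109226402542) (nat_lit 76) (nat_lit 394298443758) (nat_lit 76) (nat_lit 387545618449) (nat_lit 1) (nat_lit 4) (nat_lit 2) (nat_lit 5) (nat_lit 2) (nat_lit 4) (nat_lit 347) (nat_lit 245) (nat_lit 188)) (XT.lf (nat_lit 0) (nat_lit 126977829569) (nat_lit 76) (nat_lit 420951348070) (nat_lit 76) (nat_lit 414192221398) (nat_lit 1) (nat_lit 4) (nat_lit 2) (nat_lit 5) (nat_lit 2) (nat_lit 4) (nat_lit 348) (nat_lit 245) (nat_lit 187)))))) (XT.nd (nat_lit 36114) (nat_lit 0) (nat_lit 912) (XT.nd (nat_lit 35880) (nat_lit 0) (nat_lit 1368) (XT.nd (nat_lit 78) (nat_lit 0) (nat_lit 0) (XT.lf (nat_lit 0) (nat_lit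 146133748158) (nat_lit 76) (nat_lit 449744013992) (nat_lit 76) (nat_lit 442979052724) (nat_lit 1) (nat_lit 4) (nat_lit 2) (nat_lit 5) (nat_lit 2) (nat_lit 4) (nat_lit 349) (nat_lit 245) (nat_lit 186)) (XT.lf (nat_lit 0) (nat_lit 166807674864) (nat_lit 76) (nat_lit 480847064729) (nat_lit 76) (nat_lit 474076701057) (nat_lit 1) (nat_lit 4) (nat_lit 2) (nat_lit 5) (nat_lit 2) (nat_lit 4) (nat_lit 350) (nat_lit 245) (nat_lit 185))) (XT.nd (nat_lit 78) (nat_lit 304) (nat_lit 0) (XT.lf (nat_lit 0) (nat_lit 2723608325) (nat_lit 152) (nat_lit 2095480856) (nat_lit 152) (nat_lit 2095480856) (nat_lit 23) (nat_lit 4) (nat_lit 25) (nat_lit 5) (nat_lit 25) (nat_lit 4) (nat_lit 288) (nat_lit 246) (nat_lit 246)) (XT.nd (nat_lit 78) (nat_lit 152) (nat_lit 0) (XT.lf (nat_lit 0) (nat_lit 2813404286) (nat_lit 152) (nat_lit 9640841911) (nat_lit 0) (nat_lit 2080329762) (nat_lit 21) (nat_lit 5) (nat_lit 23) (nat_lit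 4) (nat_lit 21) (nat_lit 4) (nat_lit 289) (nat_lit 246) (nat_lit 245)) (XT.lf (nat_lit 0) (nat_lit 3502515029) (nat_lit 152) (nat_lit 6604405484) (nat_lit 152) (nat_lit 5192558252) (nat_lit 19) (nat_lit 4) (nat_lit 21) (nat_lit 5) (nat_lit 21) (nat_lit 4) (nat_lit 290) (nat_lit 246) (nat_lit 244))))) (XT.nd (nat_lit 234) (nat_lit 228) (nat_lit 0) (XT.nd (nat_lit 78) (nat_lit 76) (nat_lit 0) (XT.lf (nat_lit 0) (nat_lit 1242683285) (nat_lit 76) (nat_lit 358791722) (nat_lit 152) (nat_lit 14532737069) (nat_lit 17) (nat_lit 5) (nat_lit 18) (nat_lit 5) (nat_lit 19) (nat_lit 4) (nat_lit 291) (nat_lit 246) (nat_lit 243)) (XT.nd (nat_lit 78) (nat_lit 76) (nat_lit 0) (XT.lf (nat_lit 0) (nat_lit 8694496099) (nat_lit 152) (nat_lit 2143217754) (nat_lit 0) (nat_lit 6197087839) (nat_lit 17) (nat_lit 5) (nat_lit 19) (nat_lit 4) (nat_lit 17) (nat_lit 4) (nat_lit 292) (nat_lit 246) (nat_lit 242)) (XT.lf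 (nat_lit 0) (nat_lit 11358467962) (nat_lit 76) (nat_lit 4833933889) (nat_lit 76) (nat_lit 1823352620) (nat_lit 16) (nat_lit 4) (nat_lit 17) (nat_lit 5) (nat_lit 17) (nat_lit 4) (nat_lit 293) (nat_lit 246) (nat_lit 241)))) (XT.nd (nat_lit 78) (nat_lit 76) (nat_lit 0) (XT.lf (nat_lit 0) (nat_lit 4876754277) (nat_lit 152) (nat_lit 12646088156) (nat_lit 0) (nat_lit 1557000502) (nat_lit 14) (nat_lit 5) (nat_lit 16) (nat_lit 4) (nat_lit 14) (nat_lit 4) (nat_lit 294) (nat_lit 246) (nat_lit 240)) (XT.nd (nat_lit 78) (nat_lit 76) (nat_lit 0) (XT.lf (nat_lit 0) (nat_lit 11925662425) (nat_lit 152) (nat_lit 121325280) (nat_lit 0) (nat_lit 8186896134) (nat_lit 14) (nat_lit 5) (nat_lit 16) (nat_lit 4) (nat_lit 14) (nat_lit 4) (nat_lit 295) (nat_lit 246) (nat_lit 239)) (XT.lf (nat_lit 0) (nat_lit 13280745681) (nat_lit 76) (nat_lit 6165498682) (nat_lit 76) (nat_lit 2038757838) (nat_lit 13) (nat_lit 4)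 (nat_lit 14) (nat_lit 5) (nat_lit 14) (nat_lit 4) (nat_lit 296) (nat_lit 246) (nat_lit 238))))))))
noncomputable def xc23 : XT := (XT.nd (nat_lit 1638) (nat_lit 152) (nat_lit 0) (XT.nd (nat_lit 780) (nat_lit 228) (nat_lit 0) (XT.nd (nat_lit 390) (nat_lit 76) (nat_lit 0) (XT.nd (nat_lit 156) (nat_lit 228) (nat_lit 0) (XT.nd (nat_lit 78) (nat_lit 0) (nat_lit 0) (XT.lf (nat_lit 0) (nat_lit 4363579959) (nat_lit 152) (nat_lit 18388701005) (nat_lit 0) (nat_lit 91221350) (nat_lit 11) (nat_lit 5) (nat_lit 13) (nat_lit 4) (nat_lit 11) (nat_lit 4) (nat_lit 297) (nat_lit 246) (nat_lit 237)) (XT.lf (nat_lit 0) (nat_lit 11176271132) (nat_lit 152) (nat_lit 6547250416) (nat_lit 0) (nat_lit 6587126193) (nat_lit 11) (nat_lit 5) (nat_lit 13) (nat_lit 4) (nat_lit 11) (nat_lit 4) (nat_lit 298) (nat_lit 246) (nat_lit 236))) (XT.nd (nat_lit 78) (nat_lit 152) (nat_lit 0) (XT.lf (nat_lit 0) (nat_lit 5948012776)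 (nat_lit 76) (nat_lit 12419035813) (nat_lit 76) (nat_lit 7536570200) (nat_lit 10) (nat_lit 4) (nat_lit 11) (nat_lit 5) (nat_lit 11) (nat_lit 4) (nat_lit 299) (nat_lit 246) (nat_lit 235)) (XT.nd (nat_lit 78) (nat_lit 152) (nat_lit 0) (XT.lf (nat_lit 0) (nat_lit 19213848932) (nat_lit 76) (nat_lit 6785511687) (nat_lit 76) (nat_lit 1631452857) (nat_lit 10) (nat_lit 4) (nat_lit 11) (nat_lit 5) (nat_lit 11) (nat_lit 4) (nat_lit 300) (nat_lit 246) (nat_lit 234)) (XT.lf (nat_lit 0) (nat_lit 3651164700) (nat_lit 76) (nat_lit 766737119) (nat_lit 152) (nat_lit 25083478153) (nat_lit 8) (nat_lit 5) (nat_lit 9) (nat_lit 5) (nat_lit 10) (nat_lit 4) (nat_lit 301) (nat_lit 246) (nat_lit 233))))) (XT.nd (nat_lit 156) (nat_lit 76) (nat_lit 0) (XT.nd (nat_lit 78) (nat_lit 0) (nat_lit 0) (XT.lf (nat_lit 0) (nat_lit 10907796094) (nat_lit 152) (nat_lit 15073943262) (nat_lit 0) (nat_lit 5537909009) (nat_lit 8)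 (nat_lit 5) (nat_lit 10) (nat_lit 4) (nat_lit 8) (nat_lit 4) (nat_lit 302) (nat_lit 246) (nat_lit 232)) (XT.lf (nat_lit 0) (nat_lit 17720965082) (nat_lit 152) (nat_lit 3842539081) (nat_lit 0) (nat_lit 12145745185) (nat_lit 8) (nat_lit 5) (nat_lit 10) (nat_lit 4) (nat_lit 8) (nat_lit 4) (nat_lit 303) (nat_lit 246) (nat_lit 231))) (XT.nd (nat_lit 78) (nat_lit 0) (nat_lit 0) (XT.lf (nat_lit 0) (nat_lit 8184479096) (nat_lit 76) (nat_lit 16829115764) (nat_lit 76) (nat_lit 11063772893) (nat_lit 7) (nat_lit 4) (nat_lit 8) (nat_lit 5) (nat_lit 8) (nat_lit 4) (nat_lit 304) (nat_lit 246) (nat_lit 230)) (XT.nd (nat_lit 78) (nat_lit 0) (nat_lit 0) (XT.lf (nat_lit 0) (nat_lit 20961877835) (nat_lit 76) (nat_lit 11810191636) (nat_lit 76) (nat_lit 5868808974) (nat_lit 7) (nat_lit 4) (nat_lit 8) (nat_lit 5) (nat_lit 8) (nat_lit 4) (nat_lit 305) (nat_lit 246) (nat_lit 229)) (XT.lf (nat_lit 0) (nat_lit 34438323359)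 (nat_lit 76) (nat_lit 6542065267) (nat_lit 76) (nat_lit 437682799) (nat_lit 7) (nat_lit 4) (nat_lit 8) (nat_lit 5) (nat_lit 8) (nat_lit 4) (nat_lit 306) (nat_lit 246) (nat_lit 228)))))) (XT.nd (nat_lit 390) (nat_lit 76) (nat_lit 0) (XT.nd (nat_lit 156) (nat_lit 0) (nat_lit 0) (XT.nd (nat_lit 78) (nat_lit 0) (nat_lit 0) (XT.lf (nat_lit 0) (nat_lit 4324532718) (nat_lit 76) (nat_lit 836365297) (nat_lit 152) (nat_lit 39257022648) (nat_lit 5) (nat_lit 5) (nat_lit 6) (nat_lit 5) (nat_lit 7) (nat_lit 4) (nat_lit 307) (nat_lit 246) (nat_lit 227)) (XT.lf (nat_lit 0) (nat_lit 11243348299) (nat_lit 152) (nat_lit 31258713297) (nat_lit 0) (nat_lit 5152820418) (nat_lit 5) (nat_lit 5) (nat_lit 7) (nat_lit 4) (nat_lit 5) (nat_lit 4) (nat_lit 308) (nat_lit 246) (nat_lit 226))) (XT.nd (nat_lit 78) (nat_lit 0) (nat_lit 0) (XT.lf (nat_lit 0) (nat_lit 17682410111) (nat_lit 152) (nat_lit 22006285196) (nat_lit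 0) (nat_lit 11468649371) (nat_lit 5) (nat_lit 5) (nat_lit 7) (nat_lit 4) (nat_lit 5) (nat_lit 4) (nat_lit 309) (nat_lit 246) (nat_lit 225)) (XT.nd (nat_lit 78) (nat_lit 0) (nat_lit 0) (XT.lf (nat_lit 0) (nat_lit 24503182848) (nat_lit 152) (nat_lit 12268216432) (nat_lit 0) (nat_lit 18175317610) (nat_lit 5) (nat_lit 5) (nat_lit 7) (nat_lit 4) (nat_lit 5) (nat_lit 4) (nat_lit 310) (nat_lit 246) (nat_lit 224)) (XT.lf (nat_lit 0) (nat_lit 31746085905) (nat_lit 152) (nat_lit 1986799931) (nat_lit 0) (nat_lit 25312568353) (nat_lit 5) (nat_lit 5) (nat_lit 7) (nat_lit 4) (nat_lit 5) (nat_lit 4) (nat_lit 311) (nat_lit 246) (nat_lit 223))))) (XT.nd (nat_lit 234) (nat_lit 0) (nat_lit 0) (XT.nd (nat_lit 78) (nat_lit 0) (nat_lit 0) (XT.lf (nat_lit 0) (nat_lit 9193128751) (nat_lit 76) (nat_lit 30404441939) (nat_lit 76) (nat_lit 23873098171) (nat_lit 4) (nat_lit 4) (nat_lit 5) (nat_lit 5) (nat_lit 5) (nat_lit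 4) (nat_lit 312) (nat_lit 246) (nat_lit 222)) (XT.nd (nat_lit 78) (nat_lit 0) (nat_lit 0) (XT.lf (nat_lit 0) (nat_lit 21129645430) (nat_lit 76) (nat_lit 26872970013) (nat_lit 76) (nat_lit 20251046415) (nat_lit 4) (nat_lit 4) (nat_lit 5) (nat_lit 5) (nat_lit 5) (nat_lit 4) (nat_lit 313) (nat_lit 246) (nat_lit 221)) (XT.lf (nat_lit 0) (nat_lit 33827792439) (nat_lit 76) (nat_lit 23151190235) (nat_lit 76) (nat_lit 16445396425) (nat_lit 4) (nat_lit 4) (nat_lit 5) (nat_lit 5) (nat_lit 5) (nat_lit 4) (nat_lit 314) (nat_lit 246) (nat_lit 220)))) (XT.nd (nat_lit 78) (nat_lit 0) (nat_lit 0) (XT.lf (nat_lit 0) (nat_lit 47362818057) (nat_lit 76) (nat_lit 19217047614) (nat_lit 76) (nat_lit 12433596199) (nat_lit 4) (nat_lit 4) (nat_lit 5) (nat_lit 5) (nat_lit 5) (nat_lit 4) (nat_lit 315) (nat_lit 246) (nat_lit 219)) (XT.nd (nat_lit 78) (nat_lit 0) (nat_lit 0) (XT.lf (nat_lit 0) (nat_lit 61814929844)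 (nat_lit 76) (nat_lit 15047228712) (nat_lit 76) (nat_lit 8191872107) (nat_lit 4) (nat_lit 4) (nat_lit 5) (nat_lit 5) (nat_lit 5) (nat_lit 4) (nat_lit 316) (nat_lit 246) (nat_lit 218)) (XT.lf (nat_lit 0) (nat_lit 77269769943) (nat_lit 76) (nat_lit 10617023490) (nat_lit 76) (nat_lit 3695088007) (nat_lit 4) (nat_lit 4) (nat_lit 5) (nat_lit 5) (nat_lit 5) (nat_lit 4) (nat_lit 317) (nat_lit 246) (nat_lit 217))))))) (XT.nd (nat_lit 858) (nat_lit 0) (nat_lit 0) (XT.nd (nat_lit 390) (nat_lit 0) (nat_lit 0) (XT.nd (nat_lit 156) (nat_lit 0) (nat_lit 0) (XT.nd (nat_lit 78) (nat_lit 76) (nat_lit 0) (XT.lf (nat_lit 0) (nat_lit 1048728026) (nat_lit 152) (nat_lit 4833690139) (nat_lit 76) (nat_lit 92752433850) (nat_lit 3) (nat_lit 5) (nat_lit 5) (nat_lit 5) (nat_lit 4) (nat_lit 4) (nat_lit 318) (nat_lit 246) (nat_lit 216)) (XT.lf (nat_lit 0) (nat_lit 5378976698) (nat_lit 76) (nat_lit 679384252) (nat_lit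 152) (nat_lit 100189901980) (nat_lit 2) (nat_lit 5) (nat_lit 3) (nat_lit 5) (nat_lit 4) (nat_lit 4) (nat_lit 319) (nat_lit 246) (nat_lit 215))) (XT.nd (nat_lit 78) (nat_lit 0) (nat_lit 0) (XT.lf (nat_lit 0) (nat_lit 11563752353) (nat_lit 152) (nat_lit 98094240324) (nat_lit 0) (nat_lit 4808023104) (nat_lit 2) (nat_lit 5) (nat_lit 4) (nat_lit 4) (nat_lit 2) (nat_lit 4) (nat_lit 320) (nat_lit 246) (nat_lit 214)) (XT.nd (nat_lit 78) (nat_lit 0) (nat_lit 0) (XT.lf (nat_lit 0) (nat_lit 17458329053) (nat_lit 152) (nat_lit 95229446499) (nat_lit 0) (nat_lit 10655992695) (nat_lit 2) (nat_lit 5) (nat_lit 4) (nat_lit 4) (nat_lit 2) (nat_lit 4) (nat_lit 321) (nat_lit 246) (nat_lit 213)) (XT.lf (nat_lit 0) (nat_lit 23766414783) (nat_lit 152) (nat_lit 92247321109) (nat_lit 0) (nat_lit 16920923696) (nat_lit 2) (nat_lit 5) (nat_lit 4) (nat_lit 4) (nat_lit 2) (nat_lit 4) (nat_lit 322) (nat_lit 246) (nat_lit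 212))))) (XT.nd (nat_lit 234) (nat_lit 0) (nat_lit 0) (XT.nd (nat_lit 78) (nat_lit 0) (nat_lit 0) (XT.lf (nat_lit 0) (nat_lit 30525390792) (nat_lit 152) (nat_lit 89130192301) (nat_lit 0) (nat_lit 23639941622) (nat_lit 2) (nat_lit 5) (nat_lit 4) (nat_lit 4) (nat_lit 2) (nat_lit 4) (nat_lit 323) (nat_lit 246) (nat_lit 211)) (XT.nd (nat_lit 78) (nat_lit 0) (nat_lit 0) (XT.lf (nat_lit 0) (nat_lit 37775310272) (nat_lit 152) (nat_lit 85859588199) (nat_lit 0) (nat_lit 30852862876) (nat_lit 2) (nat_lit 5) (nat_lit 4) (nat_lit 4) (nat_lit 2) (nat_lit 4) (nat_lit 324) (nat_lit 246) (nat_lit 210)) (XT.lf (nat_lit 0) (nat_lit 45559135707) (nat_lit 152) (nat_lit 82416127446) (nat_lit 0) (nat_lit 38602430696) (nat_lit 2) (nat_lit 5) (nat_lit 4) (nat_lit 4) (nat_lit 2) (nat_lit 4) (nat_lit 325) (nat_lit 246) (nat_lit 209)))) (XT.nd (nat_lit 78) (nat_lit 0) (nat_lit 0) (XT.lf (nat_lit 0) (nat_lit 53922993472)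 (nat_lit 152) (nat_lit 78779404348) (nat_lit 0) (nat_lit 46934568446) (nat_lit 2) (nat_lit 5) (nat_lit 4) (nat_lit 4) (nat_lit 2) (nat_lit 4) (nat_lit 326) (nat_lit 246) (nat_lit 208)) (XT.nd (nat_lit 78) (nat_lit 0) (nat_lit 0) (XT.lf (nat_lit 0) (nat_lit 62916447167) (nat_lit 152) (nat_lit 74927867955) (nat_lit 0) (nat_lit 55898651757) (nat_lit 2) (nat_lit 5) (nat_lit 4) (nat_lit 4) (nat_lit 2) (nat_lit 4) (nat_lit 327) (nat_lit 246) (nat_lit 207)) (XT.lf (nat_lit 0) (nat_lit 72592791333) (nat_lit 152) (nat_lit 70838694346) (nat_lit 0) (nat_lit 65547801123) (nat_lit 2) (nat_lit 5) (nat_lit 4) (nat_lit 4) (nat_lit 2) (nat_lit 4) (nat_lit 328) (nat_lit 246) (nat_lit 206)))))) (XT.nd (nat_lit 390) (nat_lit 0) (nat_lit 0) (XT.nd (nat_lit 156) (nat_lit 0) (nat_lit 0) (XT.nd (nat_lit 78) (nat_lit 0) (nat_lit 0) (XT.lf (nat_lit 0) (nat_lit 83009367269) (nat_lit 152) (nat_lit 66487651381) (nat_lit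 0) (nat_lit 75939196689) (nat_lit 2) (nat_lit 5) (nat_lit 4) (nat_lit 4) (nat_lit 2) (nat_lit 4) (nat_lit 329) (nat_lit 246) (nat_lit 205)) (XT.lf (nat_lit 0) (nat_lit 94227902832) (nat_lit 152) (nat_lit 61848955103) (nat_lit 0) (nat_lit 87134417094) (nat_lit 2) (nat_lit 5) (nat_lit 4) (nat_lit 4) (nat_lit 2) (nat_lit 4) (nat_lit 330) (nat_lit 246) (nat_lit 204))) (XT.nd (nat_lit 78) (nat_lit 0) (nat_lit 0) (XT.lf (nat_lit 0) (nat_lit 106314878233) (nat_lit 152) (nat_lit 56895116941) (nat_lit 0) (nat_lit 99199804386) (nat_lit 2) (nat_lit 5) (nat_lit 4) (nat_lit 4) (nat_lit 2) (nat_lit 4) (nat_lit 331) (nat_lit 246) (nat_lit 203)) (XT.nd (nat_lit 78) (nat_lit 0) (nat_lit 0) (XT.lf (nat_lit 0) (nat_lit 119341919993) (nat_lit 152) (nat_lit 51596780817) (nat_lit 0) (nat_lit 112206857156) (nat_lit 2) (nat_lit 5) (nat_lit 4) (nat_lit 4) (nat_lit 2) (nat_lit 4) (nat_lit 332) (nat_lit 246) (nat_lit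 202)) (XT.lf (nat_lit 0) (nat_lit 133386225396) (nat_lit 152) (nat_lit 45922549183) (nat_lit 0) (nat_lit 126232654235) (nat_lit 2) (nat_lit 5) (nat_lit 4) (nat_lit 4) (nat_lit 2) (nat_lit 4) (nat_lit 333) (nat_lit 246) (nat_lit 201))))) (XT.nd (nat_lit 234) (nat_lit 0) (nat_lit 0) (XT.nd (nat_lit 78) (nat_lit 0) (nat_lit 0) (XT.lf (nat_lit 0) (nat_lit 148531019955) (nat_lit 152) (nat_lit 39838796963) (nat_lit 0) (nat_lit 141360311457) (nat_lit 2) (nat_lit 5) (nat_lit 4) (nat_lit 4) (nat_lit 2) (nat_lit 4) (nat_lit 334) (nat_lit 246) (nat_lit 200)) (XT.nd (nat_lit 78) (nat_lit 0) (nat_lit 0) (XT.lf (nat_lit 0) (nat_lit 164866050602) (nat_lit 152) (nat_lit 33309472292) (nat_lit 0) (nat_lit 157679474200) (nat_lit 2) (nat_lit 5) (nat_lit 4) (nat_lit 4) (nat_lit 2) (nat_lit 4) (nat_lit 335) (nat_lit 246) (nat_lit 199)) (XT.lf (nat_lit 0) (nat_lit 182488117519) (nat_lit 152) (nat_lit 26295882876)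 (nat_lit 0) (nat_lit 175286848612) (nat_lit 2) (nat_lit 5) (nat_lit 4) (nat_lit 4) (nat_lit 2) (nat_lit 4) (nat_lit 336) (nat_lit 246) (nat_lit 198)))) (XT.nd (nat_lit 78) (nat_lit 0) (nat_lit 0) (XT.lf (nat_lit 0) (nat_lit 201501647767) (nat_lit 152) (nat_lit 18756466703) (nat_lit 0) (nat_lit 194286774690) (nat_lit 2) (nat_lit 5) (nat_lit 4) (nat_lit 4) (nat_lit 2) (nat_lit 4) (nat_lit 337) (nat_lit 246) (nat_lit 197)) (XT.nd (nat_lit 78) (nat_lit 0) (nat_lit 0) (XT.lf (nat_lit 0) (nat_lit 222019314120) (nat_lit 152) (nat_lit 10646545752) (nat_lit 0) (nat_lit 214791844589) (nat_lit 2) (nat_lit 5) (nat_lit 4) (nat_lit 4) (nat_lit 2) (nat_lit 4) (nat_lit 338) (nat_lit 246) (nat_lit 196)) (XT.lf (nat_lit 0) (nat_lit 244162702748) (nat_lit 152) (nat_lit 1918061232) (nat_lit 0) (nat_lit 236923569833) (nat_lit 2) (nat_lit 5) (nat_lit 4) (nat_lit 4) (nat_lit 2) (nat_lit 4) (nat_lit 339) (nat_lit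 246) (nat_lit 195))))))))
noncomputable def xc24 : XT := (XT.nd (nat_lit 37206) (nat_lit 0) (nat_lit 228) (XT.nd (nat_lit 780) (nat_lit 0) (nat_lit 0) (XT.nd (nat_lit 390) (nat_lit 0) (nat_lit 0) (XT.nd (nat_lit 156) (nat_lit 0) (nat_lit 0) (XT.nd (nat_lit 78) (nat_lit 0) (nat_lit 0) (XT.lf (nat_lit 0) (nat_lit 7728057306) (nat_lit 76) (nat_lit 260455633058) (nat_lit 76) (nat_lit 253205700714) (nat_lit 1) (nat_lit 4) (nat_lit 2) (nat_lit 5) (nat_lit 2) (nat_lit 4) (nat_lit 340) (nat_lit 246) (nat_lit 194)) (XT.lf (nat_lit 0) (nat_lit 18187584284) (nat_lit 76) (nat_lit 275958313540) (nat_lit 76) (nat_lit 268698381724) (nat_lit 1) (nat_lit 4) (nat_lit 2) (nat_lit 5) (nat_lit 2) (nat_lit 4) (nat_lit 341) (nat_lit 246) (nat_lit 193))) (XT.nd (nat_lit 78) (nat_lit 0) (nat_lit 0) (XT.lf (nat_lit 0) (nat_lit 29459082316) (nat_lit 76) (nat_lit 292713156457) (nat_lit 76) (nat_lit 285443965871)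 (nat_lit 1) (nat_lit 4) (nat_lit 2) (nat_lit 5) (nat_lit 2) (nat_lit 4) (nat_lit 342) (nat_lit 246) (nat_lit 192)) (XT.nd (nat_lit 78) (nat_lit 0) (nat_lit 0) (XT.lf (nat_lit 0) (nat_lit 41609345465) (nat_lit 76) (nat_lit 310819449768) (nat_lit 76) (nat_lit 303541686247) (nat_lit 1) (nat_lit 4) (nat_lit 2) (nat_lit 5) (nat_lit 2) (nat_lit 4) (nat_lit 343) (nat_lit 246) (nat_lit 191)) (XT.lf (nat_lit 0) (nat_lit 54710375291) (nat_lit 76) (nat_lit 330384490026) (nat_lit 76) (nat_lit 323098788602) (nat_lit 1) (nat_lit 4) (nat_lit 2) (nat_lit 5) (nat_lit 2) (nat_lit 4) (nat_lit 344) (nat_lit 246) (nat_lit 190))))) (XT.nd (nat_lit 156) (nat_lit 0) (nat_lit 0) (XT.nd (nat_lit 78) (nat_lit 0) (nat_lit 0) (XT.lf (nat_lit 0) (nat_lit 68839807526) (nat_lit 76) (nat_lit 351524218210) (nat_lit 76) (nat_lit 344231166876) (nat_lit 1) (nat_lit 4) (nat_lit 2) (nat_lit 5) (nat_lit 2) (nat_lit 4) (nat_lit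 345) (nat_lit 246) (nat_lit 189)) (XT.lf (nat_lit 0) (nat_lit 84081372138) (nat_lit 76) (nat_lit 374363906782) (nat_lit 76) (nat_lit 367064049976) (nat_lit 1) (nat_lit 4) (nat_lit 2) (nat_lit 5) (nat_lit 2) (nat_lit 4) (nat_lit 346) (nat_lit 246) (nat_lit 188))) (XT.nd (nat_lit 78) (nat_lit 0) (nat_lit 0) (XT.lf (nat_lit 0) (nat_lit 100525389511) (nat_lit 76) (nat_lit 399038902047) (nat_lit 76) (nat_lit 391732743878) (nat_lit 1) (nat_lit 4) (nat_lit 2) (nat_lit 5) (nat_lit 2) (nat_lit 4) (nat_lit 347) (nat_lit 246) (nat_lit 187)) (XT.nd (nat_lit 78) (nat_lit 0) (nat_lit 0) (XT.lf (nat_lit 0) (nat_lit 118269305672) (nat_lit 76) (nat_lit 425695426198) (nat_lit 76) (nat_lit 418383433433) (nat_lit 1) (nat_lit 4) (nat_lit 2) (nat_lit 5) (nat_lit 2) (nat_lit 4) (nat_lit 348) (nat_lit 246) (nat_lit 186)) (XT.lf (nat_lit 0) (nat_lit 137418269756) (nat_lit 76) (nat_lit 454491443822) (nat_lit 76)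 (nat_lit 447174048654) (nat_lit 1) (nat_lit 4) (nat_lit 2) (nat_lit 5) (nat_lit 2) (nat_lit 4) (nat_lit 349) (nat_lit 246) (nat_lit 185)))))) (XT.nd (nat_lit 35958) (nat_lit 0) (nat_lit 988) (XT.nd (nat_lit 35724) (nat_lit 0) (nat_lit 1520) (XT.nd (nat_lit 35646) (nat_lit 0) (nat_lit 1976) (XT.lf (nat_lit 0) (nat_lit 158085757105) (nat_lit 76) (nat_lit 485597597987) (nat_lit 76) (nat_lit 478275200594) (nat_lit 1) (nat_lit 4) (nat_lit 2) (nat_lit 5) (nat_lit 2) (nat_lit 4) (nat_lit 350) (nat_lit 246) (nat_lit 184)) (XT.lf (nat_lit 0) (nat_lit 2497425779) (nat_lit 152) (nat_lit 1895236995) (nat_lit 152) (nat_lit 1895236995) (nat_lit 27) (nat_lit 4) (nat_lit 29) (nat_lit 5) (nat_lit 29) (nat_lit 4) (nat_lit 286) (nat_lit 247) (nat_lit 247))) (XT.nd (nat_lit 78) (nat_lit 304) (nat_lit 0) (XT.lf (nat_lit 0) (nat_lit 3091319483) (nat_lit 152) (nat_lit 7830348027) (nat_lit 0) (nat_lit 2260012972)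 (nat_lit 25) (nat_lit 5) (nat_lit 27) (nat_lit 4) (nat_lit 25) (nat_lit 4) (nat_lit 287) (nat_lit 247) (nat_lit 246)) (XT.nd (nat_lit 78) (nat_lit 152) (nat_lit 0) (XT.lf (nat_lit 0) (nat_lit 5106100448) (nat_lit 152) (nat_lit 5167014284) (nat_lit 152) (nat_lit 3565979523) (nat_lit 23) (nat_lit 4) (nat_lit 25) (nat_lit 5) (nat_lit 25) (nat_lit 4) (nat_lit 288) (nat_lit 247) (nat_lit 245)) (XT.lf (nat_lit 0) (nat_lit 3205041012) (nat_lit 152) (nat_lit 10348314697) (nat_lit 0) (nat_lit 1001473293) (nat_lit 21) (nat_lit 5) (nat_lit 23) (nat_lit 4) (nat_lit 21) (nat_lit 4) (nat_lit 289) (nat_lit 247) (nat_lit 244))))) (XT.nd (nat_lit 234) (nat_lit 228) (nat_lit 0) (XT.nd (nat_lit 78) (nat_lit 152) (nat_lit 0) (XT.lf (nat_lit 0) (nat_lit 2446300536) (nat_lit 152) (nat_lit 7857666269) (nat_lit 152) (nat_lit 5025605303) (nat_lit 19) (nat_lit 4) (nat_lit 21) (nat_lit 5) (nat_lit 21) (nat_lit 4)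 (nat_lit 290) (nat_lit 247) (nat_lit 243)) (XT.nd (nat_lit 78) (nat_lit 76) (nat_lit 0) (XT.lf (nat_lit 0) (nat_lit 1571192133) (nat_lit 228) (nat_lit 193055285) (nat_lit 76) (nat_lit 14409619973) (nat_lit 18) (nat_lit 5) (nat_lit 21) (nat_lit 5) (nat_lit 19) (nat_lit 4) (nat_lit 291) (nat_lit 247) (nat_lit 242)) (XT.lf (nat_lit 0) (nat_lit 8472785846) (nat_lit 152) (nat_lit 3903147919) (nat_lit 0) (nat_lit 4708185066) (nat_lit 17) (nat_lit 5) (nat_lit 19) (nat_lit 4) (nat_lit 17) (nat_lit 4) (nat_lit 292) (nat_lit 247) (nat_lit 241)))) (XT.nd (nat_lit 78) (nat_lit 152) (nat_lit 0) (XT.lf (nat_lit 0) (nat_lit 9253392365) (nat_lit 76) (nat_lit 6530433626) (nat_lit 76) (nat_lit 2290672652) (nat_lit 16) (nat_lit 4) (nat_lit 17) (nat_lit 5) (nat_lit 17) (nat_lit 4) (nat_lit 293) (nat_lit 247) (nat_lit 240)) (XT.nd (nat_lit 78) (nat_lit 0) (nat_lit 0) (XT.lf (nat_lit 0) (nat_lit 3952638464)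 (nat_lit 76) (nat_lit 258270111) (nat_lit 152) (nat_lit 14938791337) (nat_lit 14) (nat_lit 5) (nat_lit 15) (nat_lit 5) (nat_lit 16) (nat_lit 4) (nat_lit 294) (nat_lit 247) (nat_lit 239)) (XT.lf (nat_lit 0) (nat_lit 11111751460) (nat_lit 152) (nat_lit 2932564207) (nat_lit 0) (nat_lit 6266896797) (nat_lit 14) (nat_lit 5) (nat_lit 16) (nat_lit 4) (nat_lit 14) (nat_lit 4) (nat_lit 295) (nat_lit 247) (nat_lit 238))))))) (XT.nd (nat_lit 858) (nat_lit 228) (nat_lit 0) (XT.nd (nat_lit 390) (nat_lit 228) (nat_lit 0) (XT.nd (nat_lit 156) (nat_lit 76) (nat_lit 0) (XT.nd (nat_lit 78) (nat_lit 152) (nat_lit 0) (XT.lf (nat_lit 0) (nat_lit 10123742611) (nat_lit 76) (nat_lit 8325937285) (nat_lit 76) (nat_lit 3121846925) (nat_lit 13) (nat_lit 4) (nat_lit 14) (nat_lit 5) (nat_lit 14) (nat_lit 4) (nat_lit 296) (nat_lit 247) (nat_lit 237)) (XT.lf (nat_lit 0) (nat_lit 876743385) (nat_lit 76) (nat_lit 2251773390)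 (nat_lit 152) (nat_lit 19811743485) (nat_lit 11) (nat_lit 5) (nat_lit 12) (nat_lit 5) (nat_lit 13) (nat_lit 4) (nat_lit 297) (nat_lit 247) (nat_lit 236))) (XT.nd (nat_lit 78) (nat_lit 76) (nat_lit 0) (XT.lf (nat_lit 0) (nat_lit 9781150418) (nat_lit 152) (nat_lit 10419542964) (nat_lit 0) (nat_lit 4214766881) (nat_lit 11) (nat_lit 5) (nat_lit 13) (nat_lit 4) (nat_lit 11) (nat_lit 4) (nat_lit 298) (nat_lit 247) (nat_lit 235)) (XT.nd (nat_lit 78) (nat_lit 0) (nat_lit 0) (XT.lf (nat_lit 0) (nat_lit 1725161531) (nat_lit 76) (nat_lit 15065186695) (nat_lit 76) (nat_lit 9227209941) (nat_lit 10) (nat_lit 4) (nat_lit 11) (nat_lit 5) (nat_lit 11) (nat_lit 4) (nat_lit 299) (nat_lit 247) (nat_lit 234)) (XT.lf (nat_lit 0) (nat_lit 14784957670) (nat_lit 76) (nat_lit 9527403216) (nat_lit 76) (nat_lit 3437951261) (nat_lit 10) (nat_lit 4) (nat_lit 11) (nat_lit 5) (nat_lit 11) (nat_lit 4) (nat_lit 300) (nat_lit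 247) (nat_lit 233))))) (XT.nd (nat_lit 234) (nat_lit 76) (nat_lit 0) (XT.nd (nat_lit 78) (nat_lit 76) (nat_lit 0) (XT.lf (nat_lit 0) (nat_lit 2508374712) (nat_lit 152) (nat_lit 1180131202) (nat_lit 76) (nat_lit 25941864439) (nat_lit 9) (nat_lit 5) (nat_lit 11) (nat_lit 5) (nat_lit 10) (nat_lit 4) (nat_lit 301) (nat_lit 247) (nat_lit 232)) (XT.nd (nat_lit 78) (nat_lit 0) (nat_lit 0) (XT.lf (nat_lit 0) (nat_lit 8832899124) (nat_lit 152) (nat_lit 20217715483) (nat_lit 0) (nat_lit 2606328823) (nat_lit 8) (nat_lit 5) (nat_lit 10) (nat_lit 4) (nat_lit 8) (nat_lit 4) (nat_lit 302) (nat_lit 247) (nat_lit 231)) (XT.lf (nat_lit 0) (nat_lit 15553099177) (nat_lit 152) (nat_lit 9161721293) (nat_lit 0) (nat_lit 9136405902) (nat_lit 8) (nat_lit 5) (nat_lit 10) (nat_lit 4) (nat_lit 8) (nat_lit 4) (nat_lit 303) (nat_lit 247) (nat_lit 230)))) (XT.nd (nat_lit 78) (nat_lit 0) (nat_lit 0) (XT.lf (nat_lit 0)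 (nat_lit 2521633812) (nat_lit 76) (nat_lit 20149599910) (nat_lit 76) (nat_lit 13556866845) (nat_lit 7) (nat_lit 4) (nat_lit 8) (nat_lit 5) (nat_lit 8) (nat_lit 4) (nat_lit 304) (nat_lit 247) (nat_lit 229)) (XT.nd (nat_lit 78) (nat_lit 0) (nat_lit 0) (XT.lf (nat_lit 0) (nat_lit 15143674323) (nat_lit 76) (nat_lit 15203902556) (nat_lit 76) (nat_lit 8448169685) (nat_lit 7) (nat_lit 4) (nat_lit 8) (nat_lit 5) (nat_lit 8) (nat_lit 4) (nat_lit 305) (nat_lit 247) (nat_lit 228)) (XT.lf (nat_lit 0) (nat_lit 28476269636) (nat_lit 76) (nat_lit 10003578755) (nat_lit 76) (nat_lit 3096920137) (nat_lit 7) (nat_lit 4) (nat_lit 8) (nat_lit 5) (nat_lit 8) (nat_lit 4) (nat_lit 306) (nat_lit 247) (nat_lit 227)))))) (XT.nd (nat_lit 390) (nat_lit 76) (nat_lit 0) (XT.nd (nat_lit 156) (nat_lit 0) (nat_lit 0) (XT.nd (nat_lit 78) (nat_lit 76) (nat_lit 0) (XT.lf (nat_lit 0) (nat_lit 2447662140) (nat_lit 152) (nat_lit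 2028697290) (nat_lit 76) (nat_lit 40109313238) (nat_lit 6) (nat_lit 5) (nat_lit 8) (nat_lit 5) (nat_lit 7) (nat_lit 4) (nat_lit 307) (nat_lit 247) (nat_lit 226)) (XT.lf (nat_lit 0) (nat_lit 8370751918) (nat_lit 152) (nat_lit 37923214388) (nat_lit 0) (nat_lit 1536657461) (nat_lit 5) (nat_lit 5) (nat_lit 7) (nat_lit 4) (nat_lit 5) (nat_lit 4) (nat_lit 308) (nat_lit 247) (nat_lit 225))) (XT.nd (nat_lit 78) (nat_lit 0) (nat_lit 0) (XT.lf (nat_lit 0) (nat_lit 14745672374) (nat_lit 152) (nat_lit 28793167818) (nat_lit 0) (nat_lit 7797473418) (nat_lit 5) (nat_lit 5) (nat_lit 7) (nat_lit 4) (nat_lit 5) (nat_lit 4) (nat_lit 309) (nat_lit 247) (nat_lit 224)) (XT.nd (nat_lit 78) (nat_lit 0) (nat_lit 0) (XT.lf (nat_lit 0) (nat_lit 21507054967) (nat_lit 152) (nat_lit 19168415286) (nat_lit 0) (nat_lit 14453203698) (nat_lit 5) (nat_lit 5) (nat_lit 7) (nat_lit 4) (nat_lit 5) (nat_lit 4) (nat_lit 310) (nat_lit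 247) (nat_lit 223)) (XT.lf (nat_lit 0) (nat_lit 28694967150) (nat_lit 152) (nat_lit 8991921223) (nat_lit 0) (nat_lit 21543289664) (nat_lit 5) (nat_lit 5) (nat_lit 7) (nat_lit 4) (nat_lit 5) (nat_lit 4) (nat_lit 311) (nat_lit 247) (nat_lit 222))))) (XT.nd (nat_lit 234) (nat_lit 0) (nat_lit 0) (XT.nd (nat_lit 78) (nat_lit 0) (nat_lit 0) (XT.lf (nat_lit 0) (nat_lit 1856023877) (nat_lit 76) (nat_lit 34524957813) (nat_lit 76) (nat_lit 27282700498) (nat_lit 4) (nat_lit 4) (nat_lit 5) (nat_lit 5) (nat_lit 5) (nat_lit 4) (nat_lit 312) (nat_lit 247) (nat_lit 221)) (XT.nd (nat_lit 78) (nat_lit 0) (nat_lit 0) (XT.lf (nat_lit 0) (nat_lit 13699612188) (nat_lit 76) (nat_lit 31037817571) (nat_lit 76) (nat_lit 23711690043) (nat_lit 4) (nat_lit 4) (nat_lit 5) (nat_lit 5) (nat_lit 5) (nat_lit 4) (nat_lit 313) (nat_lit 247) (nat_lit 220)) (XT.lf (nat_lit 0) (nat_lit 26311714413) (nat_lit 76) (nat_lit 27357085648)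 (nat_lit 76) (nat_lit 19953300516) (nat_lit 4) (nat_lit 4) (nat_lit 5) (nat_lit 5) (nat_lit 5) (nat_lit 4) (nat_lit 314) (nat_lit 247) (nat_lit 219)))) (XT.nd (nat_lit 78) (nat_lit 0) (nat_lit 0) (XT.lf (nat_lit 0) (nat_lit 39767068935) (nat_lit 76) (nat_lit 23460950300) (nat_lit 76) (nat_lit 15985259978) (nat_lit 4) (nat_lit 4) (nat_lit 5) (nat_lit 5) (nat_lit 5) (nat_lit 4) (nat_lit 315) (nat_lit 247) (nat_lit 218)) (XT.nd (nat_lit 78) (nat_lit 0) (nat_lit 0) (XT.lf (nat_lit 0) (nat_lit 54145411188) (nat_lit 76) (nat_lit 19326323318) (nat_lit 76) (nat_lit 11784054117) (nat_lit 4) (nat_lit 4) (nat_lit 5) (nat_lit 5) (nat_lit 5) (nat_lit 4) (nat_lit 316) (nat_lit 247) (nat_lit 217)) (XT.lf (nat_lit 0) (nat_lit 69531946163) (nat_lit 76) (nat_lit 14928703207) (nat_lit 76) (nat_lit 7324786896) (nat_lit 4) (nat_lit 4) (nat_lit 5) (nat_lit 5) (nat_lit 5) (nat_lit 4) (nat_lit 317) (nat_lit 247)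 (nat_lit 216))))))))
noncomputable def xc25 : XT := (XT.nd (nat_lit 1638) (nat_lit 76) (nat_lit 0) (XT.nd (nat_lit 780) (nat_lit 0) (nat_lit 0) (XT.nd (nat_lit 390) (nat_lit 0) (nat_lit 0) (XT.nd (nat_lit 156) (nat_lit 76) (nat_lit 0) (XT.nd (nat_lit 78) (nat_lit 76) (nat_lit 0) (XT.lf (nat_lit 0) (nat_lit 86017853327) (nat_lit 76) (nat_lit 10242029998) (nat_lit 76) (nat_lit 2581033029) (nat_lit 4) (nat_lit 4) (nat_lit 5) (nat_lit 5) (nat_lit 5) (nat_lit 4) (nat_lit 318) (nat_lit 247) (nat_lit 215)) (XT.lf (nat_lit 0) (nat_lit 2396092962) (nat_lit 152) (nat_lit 2801858855) (nat_lit 76) (nat_lit 101264154988) (nat_lit 3) (nat_lit 5) (nat_lit 5) (nat_lit 5) (nat_lit 4) (nat_lit 4) (nat_lit 319) (nat_lit 247) (nat_lit 214))) (XT.nd (nat_lit 78) (nat_lit 0) (nat_lit 0) (XT.lf (nat_lit 0) (nat_lit 7754859714) (nat_lit 152) (nat_lit 106570610050) (nat_lit 0) (nat_lit 361729340) (nat_lit 2) (nat_lit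 5) (nat_lit 4) (nat_lit 4) (nat_lit 2) (nat_lit 4) (nat_lit 320) (nat_lit 247) (nat_lit 213)) (XT.nd (nat_lit 78) (nat_lit 0) (nat_lit 0) (XT.lf (nat_lit 0) (nat_lit 13621524344) (nat_lit 152) (nat_lit 103759591197) (nat_lit 0) (nat_lit 6185239240) (nat_lit 2) (nat_lit 5) (nat_lit 4) (nat_lit 4) (nat_lit 2) (nat_lit 4) (nat_lit 321) (nat_lit 247) (nat_lit 212)) (XT.lf (nat_lit 0) (nat_lit 19903765565) (nat_lit 152) (nat_lit 100827257448) (nat_lit 0) (nat_lit 12427522377) (nat_lit 2) (nat_lit 5) (nat_lit 4) (nat_lit 4) (nat_lit 2) (nat_lit 4) (nat_lit 322) (nat_lit 247) (nat_lit 211))))) (XT.nd (nat_lit 156) (nat_lit 0) (nat_lit 0) (XT.nd (nat_lit 78) (nat_lit 0) (nat_lit 0) (XT.lf (nat_lit 0) (nat_lit 26638811473) (nat_lit 152) (nat_lit 97756232010) (nat_lit 0) (nat_lit 19125570060) (nat_lit 2) (nat_lit 5) (nat_lit 4) (nat_lit 4) (nat_lit 2) (nat_lit 4) (nat_lit 323) (nat_lit 247) (nat_lit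 210)) (XT.lf (nat_lit 0) (nat_lit 33866573451) (nat_lit 152) (nat_lit 94528316214) (nat_lit 0) (nat_lit 26319074423) (nat_lit 2) (nat_lit 5) (nat_lit 4) (nat_lit 4) (nat_lit 2) (nat_lit 4) (nat_lit 324) (nat_lit 247) (nat_lit 209))) (XT.nd (nat_lit 78) (nat_lit 0) (nat_lit 0) (XT.lf (nat_lit 0) (nat_lit 41629882682) (nat_lit 152) (nat_lit 91124381671) (nat_lit 0) (nat_lit 34050663639) (nat_lit 2) (nat_lit 5) (nat_lit 4) (nat_lit 4) (nat_lit 2) (nat_lit 4) (nat_lit 325) (nat_lit 247) (nat_lit 208)) (XT.nd (nat_lit 78) (nat_lit 0) (nat_lit 0) (XT.lf (nat_lit 0) (nat_lit 49974743961) (nat_lit 152) (nat_lit 87524256916) (nat_lit 0) (nat_lit 42366154534) (nat_lit 2) (nat_lit 5) (nat_lit 4) (nat_lit 4) (nat_lit 2) (nat_lit 4) (nat_lit 326) (nat_lit 247) (nat_lit 207)) (XT.lf (nat_lit 0) (nat_lit 58950608317) (nat_lit 152) (nat_lit 83706607876) (nat_lit 0) (nat_lit 51314824090) (nat_lit 2) (nat_lit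 5) (nat_lit 4) (nat_lit 4) (nat_lit 2) (nat_lit 4) (nat_lit 327) (nat_lit 247) (nat_lit 206)))))) (XT.nd (nat_lit 390) (nat_lit 0) (nat_lit 0) (XT.nd (nat_lit 156) (nat_lit 0) (nat_lit 0) (XT.nd (nat_lit 78) (nat_lit 0) (nat_lit 0) (XT.lf (nat_lit 0) (nat_lit 68610666058) (nat_lit 152) (nat_lit 79648811446) (nat_lit 0) (nat_lit 60949701461) (nat_lit 2) (nat_lit 5) (nat_lit 4) (nat_lit 4) (nat_lit 2) (nat_lit 4) (nat_lit 328) (nat_lit 247) (nat_lit 205)) (XT.lf (nat_lit 0) (nat_lit 79012161971) (nat_lit 152) (nat_lit 75326821426) (nat_lit 0) (nat_lit 71327882216) (nat_lit 2) (nat_lit 5) (nat_lit 4) (nat_lit 4) (nat_lit 2) (nat_lit 4) (nat_lit 329) (nat_lit 247) (nat_lit 204))) (XT.nd (nat_lit 78) (nat_lit 0) (nat_lit 0) (XT.lf (nat_lit 0) (nat_lit 90216734550) (nat_lit 152) (nat_lit 70715026022) (nat_lit 0) (nat_lit 82510866686) (nat_lit 2) (nat_lit 5) (nat_lit 4) (nat_lit 4) (nat_lit 2)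 (nat_lit 4) (nat_lit 330) (nat_lit 247) (nat_lit 203)) (XT.nd (nat_lit 78) (nat_lit 0) (nat_lit 0) (XT.lf (nat_lit 0) (nat_lit 102290781262) (nat_lit 152) (nat_lit 65786096077) (nat_lit 0) (nat_lit 94564924408) (nat_lit 2) (nat_lit 5) (nat_lit 4) (nat_lit 4) (nat_lit 2) (nat_lit 4) (nat_lit 331) (nat_lit 247) (nat_lit 202)) (XT.lf (nat_lit 0) (nat_lit 115305852013) (nat_lit 152) (nat_lit 60510823116) (nat_lit 0) (nat_lit 107561486835) (nat_lit 2) (nat_lit 5) (nat_lit 4) (nat_lit 4) (nat_lit 2) (nat_lit 4) (nat_lit 332) (nat_lit 247) (nat_lit 201))))) (XT.nd (nat_lit 234) (nat_lit 0) (nat_lit 0) (XT.nd (nat_lit 78) (nat_lit 0) (nat_lit 0) (XT.lf (nat_lit 0) (nat_lit 129339073149) (nat_lit 152) (nat_lit 54857946263) (nat_lit 0) (nat_lit 121577570634) (nat_lit 2) (nat_lit 5) (nat_lit 4) (nat_lit 4) (nat_lit 2) (nat_lit 4) (nat_lit 333) (nat_lit 247) (nat_lit 200)) (XT.nd (nat_lit 78) (nat_lit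 0) (nat_lit 0) (XT.lf (nat_lit 0) (nat_lit 144473604498) (nat_lit 152) (nat_lit 48793966989) (nat_lit 0) (nat_lit 136696234079) (nat_lit 2) (nat_lit 5) (nat_lit 4) (nat_lit 4) (nat_lit 2) (nat_lit 4) (nat_lit 334) (nat_lit 247) (nat_lit 199)) (XT.lf (nat_lit 0) (nat_lit 160799132173) (nat_lit 152) (nat_lit 42282950601) (nat_lit 0) (nat_lit 153007069250) (nat_lit 2) (nat_lit 5) (nat_lit 4) (nat_lit 4) (nat_lit 2) (nat_lit 4) (nat_lit 335) (nat_lit 247) (nat_lit 198)))) (XT.nd (nat_lit 78) (nat_lit 0) (nat_lit 0) (XT.lf (nat_lit 0) (nat_lit 178412400041) (nat_lit 152) (nat_lit 35286313299) (nat_lit 0) (nat_lit 170606732947) (nat_lit 2) (nat_lit 5) (nat_lit 4) (nat_lit 4) (nat_lit 2) (nat_lit 4) (nat_lit 336) (nat_lit 247) (nat_lit 197)) (XT.nd (nat_lit 78) (nat_lit 0) (nat_lit 0) (XT.lf (nat_lit 0) (nat_lit 197417783022) (nat_lit 152) (nat_lit 27762593528) (nat_lit 0) (nat_lit 189599519474)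 (nat_lit 2) (nat_lit 5) (nat_lit 4) (nat_lit 4) (nat_lit 2) (nat_lit 4) (nat_lit 337) (nat_lit 247) (nat_lit 196)) (XT.lf (nat_lit 0) (nat_lit 217927905609) (nat_lit 152) (nat_lit 19667206282) (nat_lit 0) (nat_lit 210097978677) (nat_lit 2) (nat_lit 5) (nat_lit 4) (nat_lit 4) (nat_lit 2) (nat_lit 4) (nat_lit 338) (nat_lit 247) (nat_lit 195))))))) (XT.nd (nat_lit 858) (nat_lit 0) (nat_lit 0) (XT.nd (nat_lit 390) (nat_lit 0) (nat_lit 0) (XT.nd (nat_lit 156) (nat_lit 76) (nat_lit 0) (XT.nd (nat_lit 78) (nat_lit 0) (nat_lit 0) (XT.lf (nat_lit 0) (nat_lit 240064309269) (nat_lit 152) (nat_lit 10952178896) (nat_lit 0) (nat_lit 232223582907) (nat_lit 2) (nat_lit 5) (nat_lit 4) (nat_lit 4) (nat_lit 2) (nat_lit 4) (nat_lit 339) (nat_lit 247) (nat_lit 194)) (XT.lf (nat_lit 0) (nat_lit 263958172689) (nat_lit 152) (nat_lit 1565866763) (nat_lit 0) (nat_lit 256107446856) (nat_lit 2) (nat_lit 5) (nat_lit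 4) (nat_lit 4) (nat_lit 2) (nat_lit 4) (nat_lit 340) (nat_lit 247) (nat_lit 193))) (XT.nd (nat_lit 78) (nat_lit 0) (nat_lit 0) (XT.lf (nat_lit 0) (nat_lit 8829966787) (nat_lit 76) (nat_lit 281058982875) (nat_lit 76) (nat_lit 273198998273) (nat_lit 1) (nat_lit 4) (nat_lit 2) (nat_lit 5) (nat_lit 2) (nat_lit 4) (nat_lit 341) (nat_lit 247) (nat_lit 192)) (XT.nd (nat_lit 78) (nat_lit 0) (nat_lit 0) (XT.lf (nat_lit 0) (nat_lit 20090428893) (nat_lit 76) (nat_lit 297819144524) (nat_lit 76) (nat_lit 289950586986) (nat_lit 1) (nat_lit 4) (nat_lit 2) (nat_lit 5) (nat_lit 2) (nat_lit 4) (nat_lit 342) (nat_lit 247) (nat_lit 191)) (XT.lf (nat_lit 0) (nat_lit 32230473593) (nat_lit 76) (nat_lit 315930362586) (nat_lit 76) (nat_lit 308053867145) (nat_lit 1) (nat_lit 4) (nat_lit 2) (nat_lit 5) (nat_lit 2) (nat_lit 4) (nat_lit 343) (nat_lit 247) (nat_lit 190))))) (XT.nd (nat_lit 234) (nat_lit 0) (nat_lit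 0) (XT.nd (nat_lit 78) (nat_lit 0) (nat_lit 0) (XT.lf (nat_lit 0) (nat_lit 45322041891) (nat_lit 76) (nat_lit 335499962798) (nat_lit 76) (nat_lit 327616117447) (nat_lit 1) (nat_lit 4) (nat_lit 2) (nat_lit 5) (nat_lit 2) (nat_lit 4) (nat_lit 344) (nat_lit 247) (nat_lit 189)) (XT.nd (nat_lit 78) (nat_lit 0) (nat_lit 0) (XT.lf (nat_lit 0) (nat_lit 59442713452) (nat_lit 76) (nat_lit 356643913161) (nat_lit 76) (nat_lit 348753262338) (nat_lit 1) (nat_lit 4) (nat_lit 2) (nat_lit 5) (nat_lit 2) (nat_lit 4) (nat_lit 345) (nat_lit 247) (nat_lit 188)) (XT.lf (nat_lit 0) (nat_lit 74676166330) (nat_lit 76) (nat_lit 379487511160) (nat_lit 76) (nat_lit 371590558974) (nat_lit 1) (nat_lit 4) (nat_lit 2) (nat_lit 5) (nat_lit 2) (nat_lit 4) (nat_lit 346) (nat_lit 247) (nat_lit 187)))) (XT.nd (nat_lit 78) (nat_lit 0) (nat_lit 0) (XT.lf (nat_lit 0) (nat_lit 91112672837) (nat_lit 76) (nat_lit 404166126264)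 (nat_lit 76) (nat_lit 396263339482) (nat_lit 1) (nat_lit 4) (nat_lit 2) (nat_lit 5) (nat_lit 2) (nat_lit 4) (nat_lit 347) (nat_lit 247) (nat_lit 186)) (XT.nd (nat_lit 78) (nat_lit 0) (nat_lit 0) (XT.lf (nat_lit 0) (nat_lit 108849634493) (nat_lit 76) (nat_lit 430826002117) (nat_lit 76) (nat_lit 422917812932) (nat_lit 1) (nat_lit 4) (nat_lit 2) (nat_lit 5) (nat_lit 2) (nat_lit 4) (nat_lit 348) (nat_lit 247) (nat_lit 185)) (XT.lf (nat_lit 0) (nat_lit 127992159220) (nat_lit 76) (nat_lit 459625123170) (nat_lit 76) (nat_lit 451711931759) (nat_lit 1) (nat_lit 4) (nat_lit 2) (nat_lit 5) (nat_lit 2) (nat_lit 4) (nat_lit 349) (nat_lit 247) (nat_lit 184)))))) (XT.nd (nat_lit 35802) (nat_lit 0) (nat_lit 1140) (XT.nd (nat_lit 35568) (nat_lit 0) (nat_lit 1824) (XT.nd (nat_lit 35490) (nat_lit 0) (nat_lit 2356) (XT.lf (nat_lit 0) (nat_lit 148653684202) (nat_lit 76) (nat_lit 490734150880) (nat_lit 76)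 (nat_lit 482816327779) (nat_lit 1) (nat_lit 4) (nat_lit 2) (nat_lit 5) (nat_lit 2) (nat_lit 4) (nat_lit 350) (nat_lit 247) (nat_lit 183)) (XT.lf (nat_lit 0) (nat_lit 1618454020) (nat_lit 152) (nat_lit 2065212824) (nat_lit 152) (nat_lit 2065212824) (nat_lit 32) (nat_lit 4) (nat_lit 34) (nat_lit 5) (nat_lit 34) (nat_lit 4) (nat_lit 284) (nat_lit 248) (nat_lit 248))) (XT.nd (nat_lit 78) (nat_lit 304) (nat_lit 0) (XT.lf (nat_lit 0) (nat_lit 2558357281) (nat_lit 228) (nat_lit 7845758064) (nat_lit 0) (nat_lit 1615655697) (nat_lit 29) (nat_lit 5) (nat_lit 32) (nat_lit 4) (nat_lit 29) (nat_lit 4) (nat_lit 285) (nat_lit 248) (nat_lit 247)) (XT.nd (nat_lit 78) (nat_lit 152) (nat_lit 0) (XT.lf (nat_lit 0) (nat_lit 4664201251) (nat_lit 152) (nat_lit 4868544807) (nat_lit 152) (nat_lit 3052971388) (nat_lit 27) (nat_lit 4) (nat_lit 29) (nat_lit 5) (nat_lit 29) (nat_lit 4) (nat_lit 286) (nat_lit 248)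 (nat_lit 246)) (XT.lf (nat_lit 0) (nat_lit 3591758243) (nat_lit 152) (nat_lit 8517160604) (nat_lit 0) (nat_lit 1092912450) (nat_lit 25) (nat_lit 5) (nat_lit 27) (nat_lit 4) (nat_lit 25) (nat_lit 4) (nat_lit 287) (nat_lit 248) (nat_lit 245))))) (XT.nd (nat_lit 234) (nat_lit 228) (nat_lit 0) (XT.nd (nat_lit 78) (nat_lit 304) (nat_lit 0) (XT.lf (nat_lit 0) (nat_lit 4080730409) (nat_lit 152) (nat_lit 6499921255) (nat_lit 152) (nat_lit 3288364119) (nat_lit 23) (nat_lit 4) (nat_lit 25) (nat_lit 5) (nat_lit 25) (nat_lit 4) (nat_lit 288) (nat_lit 248) (nat_lit 244)) (XT.nd (nat_lit 78) (nat_lit 152) (nat_lit 0) (XT.lf (nat_lit 0) (nat_lit 2820727628) (nat_lit 76) (nat_lit 443761481) (nat_lit 152) (nat_lit 11330619578) (nat_lit 21) (nat_lit 5) (nat_lit 22) (nat_lit 5) (nat_lit 23) (nat_lit 4) (nat_lit 289) (nat_lit 248) (nat_lit 243)) (XT.lf (nat_lit 0) (nat_lit 678989921) (nat_lit 152) (nat_lit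 9484996575) (nat_lit 152) (nat_lit 5215939290) (nat_lit 19) (nat_lit 4) (nat_lit 21) (nat_lit 5) (nat_lit 21) (nat_lit 4) (nat_lit 290) (nat_lit 248) (nat_lit 242)))) (XT.nd (nat_lit 78) (nat_lit 152) (nat_lit 0) (XT.lf (nat_lit 0) (nat_lit 1227236579) (nat_lit 228) (nat_lit 2292053956) (nat_lit 76) (nat_lit 12713155242) (nat_lit 18) (nat_lit 5) (nat_lit 21) (nat_lit 5) (nat_lit 19) (nat_lit 4) (nat_lit 291) (nat_lit 248) (nat_lit 241)) (XT.nd (nat_lit 78) (nat_lit 76) (nat_lit 0) (XT.lf (nat_lit 0) (nat_lit 7913019858) (nat_lit 152) (nat_lit 6381633820) (nat_lit 0) (nat_lit 2858917812) (nat_lit 17) (nat_lit 5) (nat_lit 19) (nat_lit 4) (nat_lit 17) (nat_lit 4) (nat_lit 292) (nat_lit 248) (nat_lit 240)) (XT.lf (nat_lit 0) (nat_lit 6427258200) (nat_lit 76) (nat_lit 8610085819) (nat_lit 76) (nat_lit 3116020631) (nat_lit 16) (nat_lit 4) (nat_lit 17) (nat_lit 5) (nat_lit 17) (nat_lit 4) (nat_lit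 293) (nat_lit 248) (nat_lit 239))))))))
noncomputable def xc26 : XT := (XT.nd (nat_lit 1638) (nat_lit 152) (nat_lit 0) (XT.nd (nat_lit 780) (nat_lit 304) (nat_lit 0) (XT.nd (nat_lit 390) (nat_lit 228) (nat_lit 0) (XT.nd (nat_lit 156) (nat_lit 228) (nat_lit 0) (XT.nd (nat_lit 78) (nat_lit 0) (nat_lit 0) (XT.lf (nat_lit 0) (nat_lit 705956383) (nat_lit 76) (nat_lit 2517163056) (nat_lit 152) (nat_lit 16015602038) (nat_lit 14) (nat_lit 5) (nat_lit 15) (nat_lit 5) (nat_lit 16) (nat_lit 4) (nat_lit 294) (nat_lit 248) (nat_lit 238)) (XT.lf (nat_lit 0) (nat_lit 9955330838) (nat_lit 152) (nat_lit 6477720532) (nat_lit 0) (nat_lit 3975677553) (nat_lit 14) (nat_lit 5) (nat_lit 16) (nat_lit 4) (nat_lit 14) (nat_lit 4) (nat_lit 295) (nat_lit 248) (nat_lit 237))) (XT.nd (nat_lit 78) (nat_lit 152) (nat_lit 0) (XT.lf (nat_lit 0) (nat_lit 6227282327) (nat_lit 76) (nat_lit 10881657248) (nat_lit 76) (nat_lit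 4569378318) (nat_lit 13) (nat_lit 4) (nat_lit 14) (nat_lit 5) (nat_lit 14) (nat_lit 4) (nat_lit 296) (nat_lit 248) (nat_lit 236)) (XT.nd (nat_lit 78) (nat_lit 76) (nat_lit 0) (XT.lf (nat_lit 0) (nat_lit 1593922590) (nat_lit 152) (nat_lit 3352724327) (nat_lit 76) (nat_lit 18108255759) (nat_lit 12) (nat_lit 5) (nat_lit 14) (nat_lit 5) (nat_lit 13) (nat_lit 4) (nat_lit 297) (nat_lit 248) (nat_lit 235)) (XT.lf (nat_lit 0) (nat_lit 8033869903) (nat_lit 152) (nat_lit 15049653174) (nat_lit 0) (nat_lit 1457261791) (nat_lit 11) (nat_lit 5) (nat_lit 13) (nat_lit 4) (nat_lit 11) (nat_lit 4) (nat_lit 298) (nat_lit 248) (nat_lit 234))))) (XT.nd (nat_lit 156) (nat_lit 152) (nat_lit 0) (XT.nd (nat_lit 78) (nat_lit 76) (nat_lit 0) (XT.lf (nat_lit 0) (nat_lit 14909050597) (nat_lit 152) (nat_lit 3159610070) (nat_lit 0) (nat_lit 8080967285) (nat_lit 11) (nat_lit 5) (nat_lit 13) (nat_lit 4) (nat_lit 11) (nat_lit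 4) (nat_lit 299) (nat_lit 248) (nat_lit 233)) (XT.lf (nat_lit 0) (nat_lit 9604937297) (nat_lit 76) (nat_lit 12673035462) (nat_lit 76) (nat_lit 5612104741) (nat_lit 10) (nat_lit 4) (nat_lit 11) (nat_lit 5) (nat_lit 11) (nat_lit 4) (nat_lit 300) (nat_lit 248) (nat_lit 232))) (XT.nd (nat_lit 78) (nat_lit 76) (nat_lit 0) (XT.lf (nat_lit 0) (nat_lit 307656777) (nat_lit 152) (nat_lit 6645833780) (nat_lit 76) (nat_lit 22823186120) (nat_lit 9) (nat_lit 5) (nat_lit 11) (nat_lit 5) (nat_lit 10) (nat_lit 4) (nat_lit 301) (nat_lit 248) (nat_lit 231)) (XT.nd (nat_lit 78) (nat_lit 0) (nat_lit 0) (XT.lf (nat_lit 0) (nat_lit 5664899078) (nat_lit 76) (nat_lit 745373299) (nat_lit 152) (nat_lit 25404106329) (nat_lit 8) (nat_lit 5) (nat_lit 9) (nat_lit 5) (nat_lit 10) (nat_lit 4) (nat_lit 302) (nat_lit 248) (nat_lit 230)) (XT.lf (nat_lit 0) (nat_lit 13032752716) (nat_lit 152) (nat_lit 15244264731) (nat_lit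 0) (nat_lit 5736561216) (nat_lit 8) (nat_lit 5) (nat_lit 10) (nat_lit 4) (nat_lit 8) (nat_lit 4) (nat_lit 303) (nat_lit 248) (nat_lit 229)))))) (XT.nd (nat_lit 390) (nat_lit 76) (nat_lit 0) (XT.nd (nat_lit 156) (nat_lit 152) (nat_lit 0) (XT.nd (nat_lit 78) (nat_lit 76) (nat_lit 0) (XT.lf (nat_lit 0) (nat_lit 20031811613) (nat_lit 152) (nat_lit 3792003450) (nat_lit 0) (nat_lit 12572620306) (nat_lit 8) (nat_lit 5) (nat_lit 10) (nat_lit 4) (nat_lit 8) (nat_lit 4) (nat_lit 304) (nat_lit 248) (nat_lit 228)) (XT.lf (nat_lit 0) (nat_lit 8560806090) (nat_lit 76) (nat_lit 19010139691) (nat_lit 76) (nat_lit 11400022637) (nat_lit 7) (nat_lit 4) (nat_lit 8) (nat_lit 5) (nat_lit 8) (nat_lit 4) (nat_lit 305) (nat_lit 248) (nat_lit 227))) (XT.nd (nat_lit 78) (nat_lit 152) (nat_lit 0) (XT.lf (nat_lit 0) (nat_lit 21760206763) (nat_lit 76) (nat_lit 13872596045) (nat_lit 76) (nat_lit 6122732930) (nat_lit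 7) (nat_lit 4) (nat_lit 8) (nat_lit 5) (nat_lit 8) (nat_lit 4) (nat_lit 306) (nat_lit 248) (nat_lit 226)) (XT.nd (nat_lit 78) (nat_lit 152) (nat_lit 0) (XT.lf (nat_lit 0) (nat_lit 35759036479) (nat_lit 76) (nat_lit 8444958838) (nat_lit 76) (nat_lit 565701221) (nat_lit 7) (nat_lit 4) (nat_lit 8) (nat_lit 5) (nat_lit 8) (nat_lit 4) (nat_lit 307) (nat_lit 248) (nat_lit 225)) (XT.lf (nat_lit 0) (nat_lit 2609653616) (nat_lit 76) (nat_lit 2565332215) (nat_lit 152) (nat_lit 42850148960) (nat_lit 5) (nat_lit 5) (nat_lit 6) (nat_lit 5) (nat_lit 7) (nat_lit 4) (nat_lit 308) (nat_lit 248) (nat_lit 224))))) (XT.nd (nat_lit 234) (nat_lit 76) (nat_lit 0) (XT.nd (nat_lit 78) (nat_lit 0) (nat_lit 0) (XT.lf (nat_lit 0) (nat_lit 11450464119) (nat_lit 152) (nat_lit 36358698813) (nat_lit 0) (nat_lit 3726652434) (nat_lit 5) (nat_lit 5) (nat_lit 7) (nat_lit 4) (nat_lit 5) (nat_lit 4) (nat_lit 309) (nat_lit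 248) (nat_lit 223)) (XT.nd (nat_lit 78) (nat_lit 0) (nat_lit 0) (XT.lf (nat_lit 0) (nat_lit 18156855838) (nat_lit 152) (nat_lit 26838868720) (nat_lit 0) (nat_lit 10335217937) (nat_lit 5) (nat_lit 5) (nat_lit 7) (nat_lit 4) (nat_lit 5) (nat_lit 4) (nat_lit 310) (nat_lit 248) (nat_lit 222)) (XT.lf (nat_lit 0) (nat_lit 25293850544) (nat_lit 152) (nat_lit 16759525062) (nat_lit 0) (nat_lit 17381632814) (nat_lit 5) (nat_lit 5) (nat_lit 7) (nat_lit 4) (nat_lit 5) (nat_lit 4) (nat_lit 311) (nat_lit 248) (nat_lit 221)))) (XT.nd (nat_lit 78) (nat_lit 76) (nat_lit 0) (XT.lf (nat_lit 0) (nat_lit 32903741540) (nat_lit 152) (nat_lit 6060938395) (nat_lit 0) (nat_lit 24907653596) (nat_lit 5) (nat_lit 5) (nat_lit 7) (nat_lit 4) (nat_lit 5) (nat_lit 4) (nat_lit 312) (nat_lit 248) (nat_lit 220)) (XT.nd (nat_lit 78) (nat_lit 0) (nat_lit 0) (XT.lf (nat_lit 0) (nat_lit 5496203136) (nat_lit 76) (nat_lit 35621232473)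 (nat_lit 76) (nat_lit 27547486925) (nat_lit 4) (nat_lit 4) (nat_lit 5) (nat_lit 5) (nat_lit 5) (nat_lit 4) (nat_lit 313) (nat_lit 248) (nat_lit 219)) (XT.lf (nat_lit 0) (nat_lit 18028634264) (nat_lit 76) (nat_lit 31978507823) (nat_lit 76) (nat_lit 23832857086) (nat_lit 4) (nat_lit 4) (nat_lit 5) (nat_lit 5) (nat_lit 5) (nat_lit 4) (nat_lit 314) (nat_lit 248) (nat_lit 218))))))) (XT.nd (nat_lit 858) (nat_lit 0) (nat_lit 0) (XT.nd (nat_lit 390) (nat_lit 152) (nat_lit 0) (XT.nd (nat_lit 156) (nat_lit 0) (nat_lit 0) (XT.nd (nat_lit 78) (nat_lit 0) (nat_lit 0) (XT.lf (nat_lit 0) (nat_lit 31410219252) (nat_lit 76) (nat_lit 28117564395) (nat_lit 76) (nat_lit 19905334779) (nat_lit 4) (nat_lit 4) (nat_lit 5) (nat_lit 5) (nat_lit 5) (nat_lit 4) (nat_lit 315) (nat_lit 248) (nat_lit 217)) (XT.lf (nat_lit 0) (nat_lit 45720256381) (nat_lit 76) (nat_lit 24015522523) (nat_lit 76) (nat_lit 15741645797)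 (nat_lit 4) (nat_lit 4) (nat_lit 5) (nat_lit 5) (nat_lit 5) (nat_lit 4) (nat_lit 316) (nat_lit 248) (nat_lit 216))) (XT.nd (nat_lit 78) (nat_lit 0) (nat_lit 0) (XT.lf (nat_lit 0) (nat_lit 61043545871) (nat_lit 76) (nat_lit 19648073812) (nat_lit 76) (nat_lit 11317116428) (nat_lit 4) (nat_lit 4) (nat_lit 5) (nat_lit 5) (nat_lit 5) (nat_lit 4) (nat_lit 317) (nat_lit 248) (nat_lit 215)) (XT.nd (nat_lit 78) (nat_lit 0) (nat_lit 0) (XT.lf (nat_lit 0) (nat_lit 77470892401) (nat_lit 76) (nat_lit 14989337083) (nat_lit 76) (nat_lit 6605527239) (nat_lit 4) (nat_lit 4) (nat_lit 5) (nat_lit 5) (nat_lit 5) (nat_lit 4) (nat_lit 318) (nat_lit 248) (nat_lit 214)) (XT.lf (nat_lit 0) (nat_lit 95099643209) (nat_lit 76) (nat_lit 10011705008) (nat_lit 76) (nat_lit 1578957700) (nat_lit 4) (nat_lit 4) (nat_lit 5) (nat_lit 5) (nat_lit 5) (nat_lit 4) (nat_lit 319) (nat_lit 248) (nat_lit 213))))) (XT.nd (nat_lit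 234) (nat_lit 0) (nat_lit 0) (XT.nd (nat_lit 78) (nat_lit 76) (nat_lit 0) (XT.lf (nat_lit 0) (nat_lit 3670999445) (nat_lit 152) (nat_lit 952510911) (nat_lit 76) (nat_lit 110301095370) (nat_lit 3) (nat_lit 5) (nat_lit 5) (nat_lit 5) (nat_lit 4) (nat_lit 4) (nat_lit 320) (nat_lit 248) (nat_lit 212)) (XT.nd (nat_lit 78) (nat_lit 0) (nat_lit 0) (XT.lf (nat_lit 0) (nat_lit 9424018678) (nat_lit 152) (nat_lit 113075714084) (nat_lit 0) (nat_lit 1309717953) (nat_lit 2) (nat_lit 5) (nat_lit 4) (nat_lit 4) (nat_lit 2) (nat_lit 4) (nat_lit 321) (nat_lit 248) (nat_lit 211)) (XT.lf (nat_lit 0) (nat_lit 15682329798) (nat_lit 152) (nat_lit 110189483705) (nat_lit 0) (nat_lit 7531030848) (nat_lit 2) (nat_lit 5) (nat_lit 4) (nat_lit 4) (nat_lit 2) (nat_lit 4) (nat_lit 322) (nat_lit 248) (nat_lit 210)))) (XT.nd (nat_lit 78) (nat_lit 0) (nat_lit 0) (XT.lf (nat_lit 0) (nat_lit 22395218205) (nat_lit 152) (nat_lit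 107161146574) (nat_lit 0) (nat_lit 14209661639) (nat_lit 2) (nat_lit 5) (nat_lit 4) (nat_lit 4) (nat_lit 2) (nat_lit 4) (nat_lit 323) (nat_lit 248) (nat_lit 209)) (XT.nd (nat_lit 78) (nat_lit 0) (nat_lit 0) (XT.lf (nat_lit 0) (nat_lit 29602463979) (nat_lit 152) (nat_lit 103972756987) (nat_lit 0) (nat_lit 21385187398) (nat_lit 2) (nat_lit 5) (nat_lit 4) (nat_lit 4) (nat_lit 2) (nat_lit 4) (nat_lit 324) (nat_lit 248) (nat_lit 208)) (XT.lf (nat_lit 0) (nat_lit 37346776724) (nat_lit 152) (nat_lit 100605420786) (nat_lit 0) (nat_lit 29100129759) (nat_lit 2) (nat_lit 5) (nat_lit 4) (nat_lit 4) (nat_lit 2) (nat_lit 4) (nat_lit 325) (nat_lit 248) (nat_lit 207)))))) (XT.nd (nat_lit 390) (nat_lit 0) (nat_lit 0) (XT.nd (nat_lit 156) (nat_lit 0) (nat_lit 0) (XT.nd (nat_lit 78) (nat_lit 0) (nat_lit 0) (XT.lf (nat_lit 0) (nat_lit 45674048664) (nat_lit 152) (nat_lit 97039183385) (nat_lit 0) (nat_lit 37400206899)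 (nat_lit 2) (nat_lit 5) (nat_lit 4) (nat_lit 4) (nat_lit 2) (nat_lit 4) (nat_lit 326) (nat_lit 248) (nat_lit 206)) (XT.lf (nat_lit 0) (nat_lit 54633626595) (nat_lit 152) (nat_lit 93252911524) (nat_lit 0) (nat_lit 46334604460) (nat_lit 2) (nat_lit 5) (nat_lit 4) (nat_lit 4) (nat_lit 2) (nat_lit 4) (nat_lit 327) (nat_lit 248) (nat_lit 205))) (XT.nd (nat_lit 78) (nat_lit 0) (nat_lit 0) (XT.lf (nat_lit 0) (nat_lit 64278604314) (nat_lit 152) (nat_lit 89224168039) (nat_lit 0) (nat_lit 55956267020) (nat_lit 2) (nat_lit 5) (nat_lit 4) (nat_lit 4) (nat_lit 2) (nat_lit 4) (nat_lit 328) (nat_lit 248) (nat_lit 204)) (XT.nd (nat_lit 78) (nat_lit 0) (nat_lit 0) (XT.lf (nat_lit 0) (nat_lit 74666137242) (nat_lit 152) (nat_lit 84929078893) (nat_lit 0) (nat_lit 66322211840) (nat_lit 2) (nat_lit 5) (nat_lit 4) (nat_lit 4) (nat_lit 2) (nat_lit 4) (nat_lit 329) (nat_lit 248) (nat_lit 203)) (XT.lf (nat_lit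 0) (nat_lit 85857781132) (nat_lit 152) (nat_lit 80342191706) (nat_lit 0) (nat_lit 77493866740) (nat_lit 2) (nat_lit 5) (nat_lit 4) (nat_lit 4) (nat_lit 2) (nat_lit 4) (nat_lit 330) (nat_lit 248) (nat_lit 202))))) (XT.nd (nat_lit 234) (nat_lit 0) (nat_lit 0) (XT.nd (nat_lit 78) (nat_lit 0) (nat_lit 0) (XT.lf (nat_lit 0) (nat_lit 97919856835) (nat_lit 152) (nat_lit 75436324924) (nat_lit 0) (nat_lit 89537434119) (nat_lit 2) (nat_lit 5) (nat_lit 4) (nat_lit 4) (nat_lit 2) (nat_lit 4) (nat_lit 331) (nat_lit 248) (nat_lit 201)) (XT.nd (nat_lit 78) (nat_lit 0) (nat_lit 0) (XT.lf (nat_lit 0) (nat_lit 110923843319) (nat_lit 152) (nat_lit 70182406744) (nat_lit 0) (nat_lit 102524283267) (nat_lit 2) (nat_lit 5) (nat_lit 4) (nat_lit 4) (nat_lit 2) (nat_lit 4) (nat_lit 332) (nat_lit 248) (nat_lit 200)) (XT.lf (nat_lit 0) (nat_lit 124946801245) (nat_lit 152) (nat_lit 64549302837) (nat_lit 0) (nat_lit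 116531373288) (nat_lit 2) (nat_lit 5) (nat_lit 4) (nat_lit 4) (nat_lit 2) (nat_lit 4) (nat_lit 333) (nat_lit 248) (nat_lit 199)))) (XT.nd (nat_lit 78) (nat_lit 0) (nat_lit 0) (XT.lf (nat_lit 0) (nat_lit 140071829622) (nat_lit 152) (nat_lit 58503631846) (nat_lit 0) (nat_lit 131641709161) (nat_lit 2) (nat_lit 5) (nat_lit 4) (nat_lit 4) (nat_lit 2) (nat_lit 4) (nat_lit 334) (nat_lit 248) (nat_lit 198)) (XT.nd (nat_lit 78) (nat_lit 0) (nat_lit 0) (XT.lf (nat_lit 0) (nat_lit 156388558248) (nat_lit 152) (nat_lit 52009567571) (nat_lit 0) (nat_lit 147944833616) (nat_lit 2) (nat_lit 5) (nat_lit 4) (nat_lit 4) (nat_lit 2) (nat_lit 4) (nat_lit 335) (nat_lit 248) (nat_lit 197)) (XT.lf (nat_lit 0) (nat_lit 173993678849) (nat_lit 152) (nat_lit 45028626671) (nat_lit 0) (nat_lit 165537357762) (nat_lit 2) (nat_lit 5) (nat_lit 4) (nat_lit 4) (nat_lit 2) (nat_lit 4) (nat_lit 336) (nat_lit 248) (nat_lit 196))))))))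
noncomputable def xc27 : XT := (XT.nd (nat_lit 36894) (nat_lit 0) (nat_lit 304) (XT.nd (nat_lit 780) (nat_lit 0) (nat_lit 0) (XT.nd (nat_lit 390) (nat_lit 76) (nat_lit 0) (XT.nd (nat_lit 156) (nat_lit 0) (nat_lit 0) (XT.nd (nat_lit 78) (nat_lit 0) (nat_lit 0) (XT.lf (nat_lit 0) (nat_lit 192991518064) (nat_lit 152) (nat_lit 37519440605) (nat_lit 0) (nat_lit 184523533594) (nat_lit 2) (nat_lit 5) (nat_lit 4) (nat_lit 4) (nat_lit 2) (nat_lit 4) (nat_lit 337) (nat_lit 248) (nat_lit 195)) (XT.lf (nat_lit 0) (nat_lit 213494655683) (nat_lit 152) (nat_lit 29437510493) (nat_lit 0) (nat_lit 205015871784) (nat_lit 2) (nat_lit 5) (nat_lit 4) (nat_lit 4) (nat_lit 2) (nat_lit 4) (nat_lit 338) (nat_lit 248) (nat_lit 194))) (XT.nd (nat_lit 78) (nat_lit 0) (nat_lit 0) (XT.lf (nat_lit 0) (nat_lit 235624591779) (nat_lit 152) (nat_lit 20734943417) (nat_lit 0) (nat_lit 227135808408) (nat_lit 2) (nat_lit 5)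 (nat_lit 4) (nat_lit 4) (nat_lit 2) (nat_lit 4) (nat_lit 339) (nat_lit 248) (nat_lit 193)) (XT.nd (nat_lit 78) (nat_lit 0) (nat_lit 0) (XT.lf (nat_lit 0) (nat_lit 259512466715) (nat_lit 152) (nat_lit 11360168608) (nat_lit 0) (nat_lit 251014424574) (nat_lit 2) (nat_lit 5) (nat_lit 4) (nat_lit 4) (nat_lit 2) (nat_lit 4) (nat_lit 340) (nat_lit 248) (nat_lit 192)) (XT.lf (nat_lit 0) (nat_lit 285299838268) (nat_lit 152) (nat_lit 1257631846) (nat_lit 0) (nat_lit 276793223192) (nat_lit 2) (nat_lit 5) (nat_lit 4) (nat_lit 4) (nat_lit 2) (nat_lit 4) (nat_lit 341) (nat_lit 248) (nat_lit 191))))) (XT.nd (nat_lit 156) (nat_lit 0) (nat_lit 0) (XT.nd (nat_lit 78) (nat_lit 0) (nat_lit 0) (XT.lf (nat_lit 0) (nat_lit 9951028822) (nat_lit 76) (nat_lit 303343855117) (nat_lit 76) (nat_lit 294829302139) (nat_lit 1) (nat_lit 4) (nat_lit 2) (nat_lit 5) (nat_lit 2) (nat_lit 4) (nat_lit 342) (nat_lit 248) (nat_lit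 190)) (XT.lf (nat_lit 0) (nat_lit 22081611994) (nat_lit 76) (nat_lit 321459633134) (nat_lit 76) (nat_lit 312937730245) (nat_lit 1) (nat_lit 4) (nat_lit 2) (nat_lit 5) (nat_lit 2) (nat_lit 4) (nat_lit 343) (nat_lit 248) (nat_lit 189))) (XT.nd (nat_lit 78) (nat_lit 0) (nat_lit 0) (XT.lf (nat_lit 0) (nat_lit 35164419618) (nat_lit 76) (nat_lit 341033455526) (nat_lit 76) (nat_lit 332504747165) (nat_lit 1) (nat_lit 4) (nat_lit 2) (nat_lit 5) (nat_lit 2) (nat_lit 4) (nat_lit 344) (nat_lit 248) (nat_lit 188)) (XT.nd (nat_lit 78) (nat_lit 0) (nat_lit 0) (XT.lf (nat_lit 0) (nat_lit 49276979444) (nat_lit 76) (nat_lit 362181315315) (nat_lit 76) (nat_lit 353646305591) (nat_lit 1) (nat_lit 4) (nat_lit 2) (nat_lit 5) (nat_lit 2) (nat_lit 4) (nat_lit 345) (nat_lit 248) (nat_lit 187)) (XT.lf (nat_lit 0) (nat_lit 64502921456) (nat_lit 76) (nat_lit 385028533153) (nat_lit 76) (nat_lit 376487688833) (nat_lit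 1) (nat_lit 4) (nat_lit 2) (nat_lit 5) (nat_lit 2) (nat_lit 4) (nat_lit 346) (nat_lit 248) (nat_lit 186)))))) (XT.nd (nat_lit 35646) (nat_lit 0) (nat_lit 1672) (XT.nd (nat_lit 156) (nat_lit 0) (nat_lit 0) (XT.nd (nat_lit 78) (nat_lit 0) (nat_lit 0) (XT.lf (nat_lit 0) (nat_lit 80932473458) (nat_lit 76) (nat_lit 409710499959) (nat_lit 76) (nat_lit 401164253236) (nat_lit 1) (nat_lit 4) (nat_lit 2) (nat_lit 5) (nat_lit 2) (nat_lit 4) (nat_lit 347) (nat_lit 248) (nat_lit 185)) (XT.lf (nat_lit 0) (nat_lit 98662995758) (nat_lit 76) (nat_lit 436373479241) (nat_lit 76) (nat_lit 427822230292) (nat_lit 1) (nat_lit 4) (nat_lit 2) (nat_lit 5) (nat_lit 2) (nat_lit 4) (nat_lit 348) (nat_lit 248) (nat_lit 184))) (XT.nd (nat_lit 78) (nat_lit 0) (nat_lit 0) (XT.lf (nat_lit 0) (nat_lit 117799558118) (nat_lit 76) (nat_lit 465175473838) (nat_lit 76) (nat_lit 456619593200) (nat_lit 1) (nat_lit 4) (nat_lit 2)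 (nat_lit 5) (nat_lit 2) (nat_lit 4) (nat_lit 349) (nat_lit 248) (nat_lit 183)) (XT.nd (nat_lit 35334) (nat_lit 0) (nat_lit 2736) (XT.lf (nat_lit 0) (nat_lit 138455562389) (nat_lit 76) (nat_lit 496287162238) (nat_lit 76) (nat_lit 487726992997) (nat_lit 1) (nat_lit 4) (nat_lit 2) (nat_lit 5) (nat_lit 2) (nat_lit 4) (nat_lit 350) (nat_lit 248) (nat_lit 182)) (XT.lf (nat_lit 0) (nat_lit 364862517) (nat_lit 152) (nat_lit 2459931124) (nat_lit 152) (nat_lit 2459931124) (nat_lit 37) (nat_lit 4) (nat_lit 39) (nat_lit 5) (nat_lit 39) (nat_lit 4) (nat_lit 282) (nat_lit 249) (nat_lit 249))))) (XT.nd (nat_lit 234) (nat_lit 456) (nat_lit 0) (XT.nd (nat_lit 78) (nat_lit 380) (nat_lit 0) (XT.lf (nat_lit 0) (nat_lit 1533674157) (nat_lit 228) (nat_lit 9021805410) (nat_lit 0) (nat_lit 464650561) (nat_lit 34) (nat_lit 5) (nat_lit 37) (nat_lit 4) (nat_lit 34) (nat_lit 4) (nat_lit 283) (nat_lit 249) (nat_lit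 248)) (XT.nd (nat_lit 78) (nat_lit 228) (nat_lit 0) (XT.lf (nat_lit 0) (nat_lit 2916979622) (nat_lit 152) (nat_lit 5324772354) (nat_lit 152) (nat_lit 3265912096) (nat_lit 32) (nat_lit 4) (nat_lit 34) (nat_lit 5) (nat_lit 34) (nat_lit 4) (nat_lit 284) (nat_lit 249) (nat_lit 247)) (XT.lf (nat_lit 0) (nat_lit 3181028104) (nat_lit 228) (nat_lit 8511498323) (nat_lit 0) (nat_lit 347336975) (nat_lit 29) (nat_lit 5) (nat_lit 32) (nat_lit 4) (nat_lit 29) (nat_lit 4) (nat_lit 285) (nat_lit 249) (nat_lit 246)))) (XT.nd (nat_lit 78) (nat_lit 304) (nat_lit 0) (XT.lf (nat_lit 0) (nat_lit 3670290921) (nat_lit 152) (nat_lit 6293572406) (nat_lit 152) (nat_lit 2651666614) (nat_lit 27) (nat_lit 4) (nat_lit 29) (nat_lit 5) (nat_lit 29) (nat_lit 4) (nat_lit 286) (nat_lit 249) (nat_lit 245)) (XT.nd (nat_lit 78) (nat_lit 152) (nat_lit 0) (XT.lf (nat_lit 0) (nat_lit 3340336206) (nat_lit 76) (nat_lit 430682773)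 (nat_lit 152) (nat_lit 9470897150) (nat_lit 25) (nat_lit 5) (nat_lit 26) (nat_lit 5) (nat_lit 27) (nat_lit 4) (nat_lit 287) (nat_lit 249) (nat_lit 244)) (XT.lf (nat_lit 0) (nat_lit 2365030268) (nat_lit 152) (nat_lit 8197581334) (nat_lit 152) (nat_lit 3356470373) (nat_lit 23) (nat_lit 4) (nat_lit 25) (nat_lit 5) (nat_lit 25) (nat_lit 4) (nat_lit 288) (nat_lit 249) (nat_lit 243))))))) (XT.nd (nat_lit 858) (nat_lit 456) (nat_lit 0) (XT.nd (nat_lit 390) (nat_lit 380) (nat_lit 0) (XT.nd (nat_lit 156) (nat_lit 380) (nat_lit 0) (XT.nd (nat_lit 78) (nat_lit 0) (nat_lit 0) (XT.lf (nat_lit 0) (nat_lit 712411527) (nat_lit 76) (nat_lit 2294689736) (nat_lit 152) (nat_lit 11647802426) (nat_lit 21) (nat_lit 5) (nat_lit 22) (nat_lit 5) (nat_lit 23) (nat_lit 4) (nat_lit 289) (nat_lit 249) (nat_lit 242)) (XT.lf (nat_lit 0) (nat_lit 9714407524) (nat_lit 152) (nat_lit 1751961992) (nat_lit 0) (nat_lit 3983055804)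 (nat_lit 21) (nat_lit 5) (nat_lit 23) (nat_lit 4) (nat_lit 21) (nat_lit 4) (nat_lit 290) (nat_lit 249) (nat_lit 241))) (XT.nd (nat_lit 78) (nat_lit 152) (nat_lit 0) (XT.lf (nat_lit 0) (nat_lit 548168321) (nat_lit 228) (nat_lit 5106524863) (nat_lit 76) (nat_lit 10656571267) (nat_lit 18) (nat_lit 5) (nat_lit 21) (nat_lit 5) (nat_lit 19) (nat_lit 4) (nat_lit 291) (nat_lit 249) (nat_lit 240)) (XT.nd (nat_lit 78) (nat_lit 76) (nat_lit 0) (XT.lf (nat_lit 0) (nat_lit 7011881004) (nat_lit 152) (nat_lit 9593362781) (nat_lit 0) (nat_lit 638327458) (nat_lit 17) (nat_lit 5) (nat_lit 19) (nat_lit 4) (nat_lit 17) (nat_lit 4) (nat_lit 292) (nat_lit 249) (nat_lit 239)) (XT.lf (nat_lit 0) (nat_lit 2863318005) (nat_lit 76) (nat_lit 11085214334) (nat_lit 76) (nat_lit 4304287509) (nat_lit 16) (nat_lit 4) (nat_lit 17) (nat_lit 5) (nat_lit 17) (nat_lit 4) (nat_lit 293) (nat_lit 249) (nat_lit 238))))) (XT.nd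 (nat_lit 234) (nat_lit 152) (nat_lit 0) (XT.nd (nat_lit 78) (nat_lit 152) (nat_lit 0) (XT.lf (nat_lit 0) (nat_lit 1933929565) (nat_lit 152) (nat_lit 3193568698) (nat_lit 76) (nat_lit 14218617088) (nat_lit 15) (nat_lit 5) (nat_lit 17) (nat_lit 5) (nat_lit 16) (nat_lit 4) (nat_lit 294) (nat_lit 249) (nat_lit 237)) (XT.nd (nat_lit 78) (nat_lit 76) (nat_lit 0) (XT.lf (nat_lit 0) (nat_lit 8449547697) (nat_lit 152) (nat_lit 10777802587) (nat_lit 0) (nat_lit 1299660807) (nat_lit 14) (nat_lit 5) (nat_lit 16) (nat_lit 4) (nat_lit 14) (nat_lit 4) (nat_lit 295) (nat_lit 249) (nat_lit 236)) (XT.lf (nat_lit 0) (nat_lit 1568274694) (nat_lit 76) (nat_lit 13847803579) (nat_lit 76) (nat_lit 6389929981) (nat_lit 13) (nat_lit 4) (nat_lit 14) (nat_lit 5) (nat_lit 14) (nat_lit 4) (nat_lit 296) (nat_lit 249) (nat_lit 235)))) (XT.nd (nat_lit 78) (nat_lit 152) (nat_lit 0) (XT.lf (nat_lit 0) (nat_lit 14869474339)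 (nat_lit 76) (nat_lit 8031475477) (nat_lit 76) (nat_lit 288429001) (nat_lit 13) (nat_lit 4) (nat_lit 14) (nat_lit 5) (nat_lit 14) (nat_lit 4) (nat_lit 297) (nat_lit 249) (nat_lit 234)) (XT.nd (nat_lit 78) (nat_lit 0) (nat_lit 0) (XT.lf (nat_lit 0) (nat_lit 4193525866) (nat_lit 76) (nat_lit 1757996721) (nat_lit 152) (nat_lit 18734469270) (nat_lit 11) (nat_lit 5) (nat_lit 12) (nat_lit 5) (nat_lit 13) (nat_lit 4) (nat_lit 298) (nat_lit 249) (nat_lit 233)) (XT.lf (nat_lit 0) (nat_lit 12700105556) (nat_lit 152) (nat_lit 8759647343) (nat_lit 0) (nat_lit 4841452969) (nat_lit 11) (nat_lit 5) (nat_lit 13) (nat_lit 4) (nat_lit 11) (nat_lit 4) (nat_lit 299) (nat_lit 249) (nat_lit 232)))))) (XT.nd (nat_lit 390) (nat_lit 228) (nat_lit 0) (XT.nd (nat_lit 156) (nat_lit 152) (nat_lit 0) (XT.nd (nat_lit 78) (nat_lit 0) (nat_lit 0) (XT.lf (nat_lit 0) (nat_lit 3643091396) (nat_lit 76) (nat_lit 16241049209)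 (nat_lit 76) (nat_lit 8166797169) (nat_lit 10) (nat_lit 4) (nat_lit 11) (nat_lit 5) (nat_lit 11) (nat_lit 4) (nat_lit 300) (nat_lit 249) (nat_lit 231)) (XT.lf (nat_lit 0) (nat_lit 17010646105) (nat_lit 76) (nat_lit 10602716632) (nat_lit 76) (nat_lit 2328835470) (nat_lit 10) (nat_lit 4) (nat_lit 11) (nat_lit 5) (nat_lit 11) (nat_lit 4) (nat_lit 301) (nat_lit 249) (nat_lit 230))) (XT.nd (nat_lit 78) (nat_lit 76) (nat_lit 0) (XT.lf (nat_lit 0) (nat_lit 3677438520) (nat_lit 152) (nat_lit 919973975) (nat_lit 76) (nat_lit 27392880697) (nat_lit 9) (nat_lit 5) (nat_lit 11) (nat_lit 5) (nat_lit 10) (nat_lit 4) (nat_lit 302) (nat_lit 249) (nat_lit 229)) (XT.nd (nat_lit 78) (nat_lit 0) (nat_lit 0) (XT.lf (nat_lit 0) (nat_lit 10144990314) (nat_lit 152) (nat_lit 22126214096) (nat_lit 0) (nat_lit 1926063897) (nat_lit 8) (nat_lit 5) (nat_lit 10) (nat_lit 4) (nat_lit 8) (nat_lit 4) (nat_lit 303) (nat_lit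 249) (nat_lit 228)) (XT.lf (nat_lit 0) (nat_lit 17070247473) (nat_lit 152) (nat_lit 10813198921) (nat_lit 0) (nat_lit 8700395309) (nat_lit 8) (nat_lit 5) (nat_lit 10) (nat_lit 4) (nat_lit 8) (nat_lit 4) (nat_lit 304) (nat_lit 249) (nat_lit 227))))) (XT.nd (nat_lit 234) (nat_lit 152) (nat_lit 0) (XT.nd (nat_lit 78) (nat_lit 0) (nat_lit 0) (XT.lf (nat_lit 0) (nat_lit 1174263547) (nat_lit 76) (nat_lit 23251458520) (nat_lit 76) (nat_lit 14741860295) (nat_lit 7) (nat_lit 4) (nat_lit 8) (nat_lit 5) (nat_lit 8) (nat_lit 4) (nat_lit 305) (nat_lit 249) (nat_lit 226)) (XT.nd (nat_lit 78) (nat_lit 0) (nat_lit 0) (XT.lf (nat_lit 0) (nat_lit 14250335850) (nat_lit 76) (nat_lit 18172044648) (nat_lit 76) (nat_lit 9533051922) (nat_lit 7) (nat_lit 4) (nat_lit 8) (nat_lit 5) (nat_lit 8) (nat_lit 4) (nat_lit 306) (nat_lit 249) (nat_lit 225)) (XT.lf (nat_lit 0) (nat_lit 28134972630) (nat_lit 76) (nat_lit 12798231305)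 (nat_lit 76) (nat_lit 4039428855) (nat_lit 7) (nat_lit 4) (nat_lit 8) (nat_lit 5) (nat_lit 8) (nat_lit 4) (nat_lit 307) (nat_lit 249) (nat_lit 224)))) (XT.nd (nat_lit 78) (nat_lit 76) (nat_lit 0) (XT.lf (nat_lit 0) (nat_lit 1714862605) (nat_lit 152) (nat_lit 5354269037) (nat_lit 76) (nat_lit 41166548584) (nat_lit 6) (nat_lit 5) (nat_lit 8) (nat_lit 5) (nat_lit 7) (nat_lit 4) (nat_lit 308) (nat_lit 249) (nat_lit 223)) (XT.nd (nat_lit 78) (nat_lit 0) (nat_lit 0) (XT.lf (nat_lit 0) (nat_lit 6996315837) (nat_lit 76) (nat_lit 793328427) (nat_lit 152) (nat_lit 43966768611) (nat_lit 5) (nat_lit 5) (nat_lit 6) (nat_lit 5) (nat_lit 7) (nat_lit 4) (nat_lit 309) (nat_lit 249) (nat_lit 222)) (XT.lf (nat_lit 0) (nat_lit 14432732428) (nat_lit 152) (nat_lit 35325031271) (nat_lit 0) (nat_lit 5796957449) (nat_lit 5) (nat_lit 5) (nat_lit 7) (nat_lit 4) (nat_lit 5) (nat_lit 4) (nat_lit 310) (nat_lit 249)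 (nat_lit 221))))))))
noncomputable def xc28 : XT := (XT.nd (nat_lit 1638) (nat_lit 76) (nat_lit 0) (XT.nd (nat_lit 780) (nat_lit 152) (nat_lit 0) (XT.nd (nat_lit 390) (nat_lit 0) (nat_lit 0) (XT.nd (nat_lit 156) (nat_lit 76) (nat_lit 0) (XT.nd (nat_lit 78) (nat_lit 0) (nat_lit 0) (XT.lf (nat_lit 0) (nat_lit 21522581323) (nat_lit 152) (nat_lit 25335641691) (nat_lit 0) (nat_lit 12802936131) (nat_lit 5) (nat_lit 5) (nat_lit 7) (nat_lit 4) (nat_lit 5) (nat_lit 4) (nat_lit 311) (nat_lit 249) (nat_lit 220)) (XT.lf (nat_lit 0) (nat_lit 29088818789) (nat_lit 152) (nat_lit 14720345839) (nat_lit 0) (nat_lit 20291515993) (nat_lit 5) (nat_lit 5) (nat_lit 7) (nat_lit 4) (nat_lit 5) (nat_lit 4) (nat_lit 312) (nat_lit 249) (nat_lit 219))) (XT.nd (nat_lit 78) (nat_lit 76) (nat_lit 0) (XT.lf (nat_lit 0) (nat_lit 37176281790) (nat_lit 152) (nat_lit 3416238256) (nat_lit 0) (nat_lit 28307073805) (nat_lit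 5) (nat_lit 5) (nat_lit 7) (nat_lit 4) (nat_lit 5) (nat_lit 4) (nat_lit 313) (nat_lit 249) (nat_lit 218)) (XT.nd (nat_lit 78) (nat_lit 0) (nat_lit 0) (XT.lf (nat_lit 0) (nat_lit 8929467072) (nat_lit 76) (nat_lit 37042842965) (nat_lit 76) (nat_lit 28107056101) (nat_lit 4) (nat_lit 4) (nat_lit 5) (nat_lit 5) (nat_lit 5) (nat_lit 4) (nat_lit 314) (nat_lit 249) (nat_lit 217)) (XT.lf (nat_lit 0) (nat_lit 22242746936) (nat_lit 76) (nat_lit 33214484648) (nat_lit 76) (nat_lit 24217050674) (nat_lit 4) (nat_lit 4) (nat_lit 5) (nat_lit 5) (nat_lit 5) (nat_lit 4) (nat_lit 315) (nat_lit 249) (nat_lit 216))))) (XT.nd (nat_lit 156) (nat_lit 0) (nat_lit 0) (XT.nd (nat_lit 78) (nat_lit 0) (nat_lit 0) (XT.lf (nat_lit 0) (nat_lit 36489538580) (nat_lit 76) (nat_lit 29142614175) (nat_lit 76) (nat_lit 20088099543) (nat_lit 4) (nat_lit 4) (nat_lit 5) (nat_lit 5) (nat_lit 5) (nat_lit 4) (nat_lit 316) (nat_lit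 249) (nat_lit 215)) (XT.lf (nat_lit 0) (nat_lit 51754267436) (nat_lit 76) (nat_lit 24803101944) (nat_lit 76) (nat_lit 15695734852) (nat_lit 4) (nat_lit 4) (nat_lit 5) (nat_lit 5) (nat_lit 5) (nat_lit 4) (nat_lit 317) (nat_lit 249) (nat_lit 214))) (XT.nd (nat_lit 78) (nat_lit 0) (nat_lit 0) (XT.lf (nat_lit 0) (nat_lit 68127391156) (nat_lit 76) (nat_lit 20170232327) (nat_lit 76) (nat_lit 11013927771) (nat_lit 4) (nat_lit 4) (nat_lit 5) (nat_lit 5) (nat_lit 5) (nat_lit 4) (nat_lit 318) (nat_lit 249) (nat_lit 213)) (XT.nd (nat_lit 78) (nat_lit 0) (nat_lit 0) (XT.lf (nat_lit 0) (nat_lit 85705935659) (nat_lit 76) (nat_lit 15216551281) (nat_lit 76) (nat_lit 6014934259) (nat_lit 4) (nat_lit 4) (nat_lit 5) (nat_lit 5) (nat_lit 5) (nat_lit 4) (nat_lit 319) (nat_lit 249) (nat_lit 212)) (XT.lf (nat_lit 0) (nat_lit 104594070097) (nat_lit 76) (nat_lit 9912703660) (nat_lit 76) (nat_lit 669130651) (nat_lit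 4) (nat_lit 4) (nat_lit 5) (nat_lit 5) (nat_lit 5) (nat_lit 4) (nat_lit 320) (nat_lit 249) (nat_lit 211)))))) (XT.nd (nat_lit 390) (nat_lit 0) (nat_lit 0) (XT.nd (nat_lit 156) (nat_lit 0) (nat_lit 0) (XT.nd (nat_lit 78) (nat_lit 0) (nat_lit 0) (XT.lf (nat_lit 0) (nat_lit 773741964) (nat_lit 76) (nat_lit 4131703455) (nat_lit 152) (nat_lit 119165825827) (nat_lit 2) (nat_lit 5) (nat_lit 3) (nat_lit 5) (nat_lit 4) (nat_lit 4) (nat_lit 321) (nat_lit 249) (nat_lit 210)) (XT.lf (nat_lit 0) (nat_lit 11077091568) (nat_lit 152) (nat_lit 120389479740) (nat_lit 0) (nat_lit 2202432860) (nat_lit 2) (nat_lit 5) (nat_lit 4) (nat_lit 4) (nat_lit 2) (nat_lit 4) (nat_lit 322) (nat_lit 249) (nat_lit 209))) (XT.nd (nat_lit 78) (nat_lit 0) (nat_lit 0) (XT.lf (nat_lit 0) (nat_lit 17769463770) (nat_lit 152) (nat_lit 117400668818) (nat_lit 0) (nat_lit 8863085048) (nat_lit 2) (nat_lit 5) (nat_lit 4) (nat_lit 4)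 (nat_lit 2) (nat_lit 4) (nat_lit 323) (nat_lit 249) (nat_lit 208)) (XT.nd (nat_lit 78) (nat_lit 0) (nat_lit 0) (XT.lf (nat_lit 0) (nat_lit 24957713058) (nat_lit 152) (nat_lit 114248877574) (nat_lit 0) (nat_lit 16021963952) (nat_lit 2) (nat_lit 5) (nat_lit 4) (nat_lit 4) (nat_lit 2) (nat_lit 4) (nat_lit 324) (nat_lit 249) (nat_lit 207)) (XT.lf (nat_lit 0) (nat_lit 32684436464) (nat_lit 152) (nat_lit 110915428726) (nat_lit 0) (nat_lit 23721492558) (nat_lit 2) (nat_lit 5) (nat_lit 4) (nat_lit 4) (nat_lit 2) (nat_lit 4) (nat_lit 325) (nat_lit 249) (nat_lit 206))))) (XT.nd (nat_lit 234) (nat_lit 0) (nat_lit 0) (XT.nd (nat_lit 78) (nat_lit 0) (nat_lit 0) (XT.lf (nat_lit 0) (nat_lit 40995421979) (nat_lit 152) (nat_lit 107380568505) (nat_lit 0) (nat_lit 32007297703) (nat_lit 2) (nat_lit 5) (nat_lit 4) (nat_lit 4) (nat_lit 2) (nat_lit 4) (nat_lit 326) (nat_lit 249) (nat_lit 205)) (XT.nd (nat_lit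 78) (nat_lit 0) (nat_lit 0) (XT.lf (nat_lit 0) (nat_lit 49939919888) (nat_lit 152) (nat_lit 103623349588) (nat_lit 0) (nat_lit 40928480454) (nat_lit 2) (nat_lit 5) (nat_lit 4) (nat_lit 4) (nat_lit 2) (nat_lit 4) (nat_lit 327) (nat_lit 249) (nat_lit 204)) (XT.lf (nat_lit 0) (nat_lit 59570934622) (nat_lit 152) (nat_lit 99621506977) (nat_lit 0) (nat_lit 50537907079) (nat_lit 2) (nat_lit 5) (nat_lit 4) (nat_lit 4) (nat_lit 2) (nat_lit 4) (nat_lit 328) (nat_lit 249) (nat_lit 203)))) (XT.nd (nat_lit 78) (nat_lit 0) (nat_lit 0) (XT.lf (nat_lit 0) (nat_lit 69945538862) (nat_lit 152) (nat_lit 95351326047) (nat_lit 0) (nat_lit 60892522329) (nat_lit 2) (nat_lit 5) (nat_lit 4) (nat_lit 4) (nat_lit 2) (nat_lit 4) (nat_lit 329) (nat_lit 249) (nat_lit 202)) (XT.nd (nat_lit 78) (nat_lit 0) (nat_lit 0) (XT.lf (nat_lit 0) (nat_lit 81125211743) (nat_lit 152) (nat_lit 90787502024) (nat_lit 0) (nat_lit 72053686886)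 (nat_lit 2) (nat_lit 5) (nat_lit 4) (nat_lit 4) (nat_lit 2) (nat_lit 4) (nat_lit 330) (nat_lit 249) (nat_lit 201)) (XT.lf (nat_lit 0) (nat_lit 93176203179) (nat_lit 152) (nat_lit 85902990023) (nat_lit 0) (nat_lit 84087540985) (nat_lit 2) (nat_lit 5) (nat_lit 4) (nat_lit 4) (nat_lit 2) (nat_lit 4) (nat_lit 331) (nat_lit 249) (nat_lit 200))))))) (XT.nd (nat_lit 858) (nat_lit 76) (nat_lit 0) (XT.nd (nat_lit 390) (nat_lit 0) (nat_lit 0) (XT.nd (nat_lit 156) (nat_lit 0) (nat_lit 0) (XT.nd (nat_lit 78) (nat_lit 0) (nat_lit 0) (XT.lf (nat_lit 0) (nat_lit 106169926453) (nat_lit 152) (nat_lit 80668844789) (nat_lit 0) (nat_lit 97065396355) (nat_lit 2) (nat_lit 5) (nat_lit 4) (nat_lit 4) (nat_lit 2) (nat_lit 4) (nat_lit 332) (nat_lit 249) (nat_lit 199)) (XT.lf (nat_lit 0) (nat_lit 120183381406) (nat_lit 152) (nat_lit 75054049165) (nat_lit 0) (nat_lit 111064158804) (nat_lit 2) (nat_lit 5) (nat_lit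 4) (nat_lit 4) (nat_lit 2) (nat_lit 4) (nat_lit 333) (nat_lit 249) (nat_lit 198))) (XT.nd (nat_lit 78) (nat_lit 0) (nat_lit 0) (XT.lf (nat_lit 0) (nat_lit 135299610735) (nat_lit 152) (nat_lit 69025330287) (nat_lit 0) (nat_lit 126166783962) (nat_lit 2) (nat_lit 5) (nat_lit 4) (nat_lit 4) (nat_lit 2) (nat_lit 4) (nat_lit 334) (nat_lit 249) (nat_lit 197)) (XT.nd (nat_lit 78) (nat_lit 0) (nat_lit 0) (XT.lf (nat_lit 0) (nat_lit 151608192094) (nat_lit 152) (nat_lit 62546962415) (nat_lit 0) (nat_lit 142462768866) (nat_lit 2) (nat_lit 5) (nat_lit 4) (nat_lit 4) (nat_lit 2) (nat_lit 4) (nat_lit 335) (nat_lit 249) (nat_lit 196)) (XT.lf (nat_lit 0) (nat_lit 169205768929) (nat_lit 152) (nat_lit 55580555219) (nat_lit 0) (nat_lit 160048682317) (nat_lit 2) (nat_lit 5) (nat_lit 4) (nat_lit 4) (nat_lit 2) (nat_lit 4) (nat_lit 336) (nat_lit 249) (nat_lit 195))))) (XT.nd (nat_lit 234) (nat_lit 0) (nat_lit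 0) (XT.nd (nat_lit 78) (nat_lit 0) (nat_lit 0) (XT.lf (nat_lit 0) (nat_lit 188196623176) (nat_lit 152) (nat_lit 48084826288) (nat_lit 0) (nat_lit 179028737135) (nat_lit 2) (nat_lit 5) (nat_lit 4) (nat_lit 4) (nat_lit 2) (nat_lit 4) (nat_lit 337) (nat_lit 249) (nat_lit 194)) (XT.nd (nat_lit 78) (nat_lit 0) (nat_lit 0) (XT.lf (nat_lit 0) (nat_lit 208693293231) (nat_lit 152) (nat_lit 40015356486) (nat_lit 0) (nat_lit 199515407719) (nat_lit 2) (nat_lit 5) (nat_lit 4) (nat_lit 4) (nat_lit 2) (nat_lit 4) (nat_lit 338) (nat_lit 249) (nat_lit 193)) (XT.lf (nat_lit 0) (nat_lit 230817240842) (nat_lit 152) (nat_lit 31324326734) (nat_lit 0) (nat_lit 221630096560) (nat_lit 2) (nat_lit 5) (nat_lit 4) (nat_lit 4) (nat_lit 2) (nat_lit 4) (nat_lit 339) (nat_lit 249) (nat_lit 192)))) (XT.nd (nat_lit 78) (nat_lit 0) (nat_lit 0) (XT.lf (nat_lit 0) (nat_lit 254699570885) (nat_lit 152) (nat_lit 21960234632)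 (nat_lit 0) (nat_lit 245503853668) (nat_lit 2) (nat_lit 5) (nat_lit 4) (nat_lit 4) (nat_lit 2) (nat_lit 4) (nat_lit 340) (nat_lit 249) (nat_lit 191)) (XT.nd (nat_lit 78) (nat_lit 0) (nat_lit 0) (XT.lf (nat_lit 0) (nat_lit 280481808278) (nat_lit 152) (nat_lit 11867589265) (nat_lit 0) (nat_lit 271278153158) (nat_lit 2) (nat_lit 5) (nat_lit 4) (nat_lit 4) (nat_lit 2) (nat_lit 4) (nat_lit 341) (nat_lit 249) (nat_lit 190)) (XT.lf (nat_lit 0) (nat_lit 308316736649) (nat_lit 152) (nat_lit 986582364) (nat_lit 0) (nat_lit 299105731619) (nat_lit 2) (nat_lit 5) (nat_lit 4) (nat_lit 4) (nat_lit 2) (nat_lit 4) (nat_lit 342) (nat_lit 249) (nat_lit 189)))))) (XT.nd (nat_lit 390) (nat_lit 0) (nat_lit 0) (XT.nd (nat_lit 156) (nat_lit 0) (nat_lit 0) (XT.nd (nat_lit 78) (nat_lit 0) (nat_lit 0) (XT.lf (nat_lit 0) (nat_lit 11102619265) (nat_lit 76) (nat_lit 327440027460) (nat_lit 76) (nat_lit 318222216958)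 (nat_lit 1) (nat_lit 4) (nat_lit 2) (nat_lit 5) (nat_lit 2) (nat_lit 4) (nat_lit 343) (nat_lit 249) (nat_lit 188)) (XT.lf (nat_lit 0) (nat_lit 24177315155) (nat_lit 76) (nat_lit 347017759278) (nat_lit 76) (nat_lit 337793647413) (nat_lit 1) (nat_lit 4) (nat_lit 2) (nat_lit 5) (nat_lit 2) (nat_lit 4) (nat_lit 344) (nat_lit 249) (nat_lit 187))) (XT.nd (nat_lit 78) (nat_lit 0) (nat_lit 0) (XT.lf (nat_lit 0) (nat_lit 38282364115) (nat_lit 76) (nat_lit 368169238907) (nat_lit 76) (nat_lit 358939292446) (nat_lit 1) (nat_lit 4) (nat_lit 2) (nat_lit 5) (nat_lit 2) (nat_lit 4) (nat_lit 345) (nat_lit 249) (nat_lit 186)) (XT.nd (nat_lit 78) (nat_lit 0) (nat_lit 0) (XT.lf (nat_lit 0) (nat_lit 53501351622) (nat_lit 76) (nat_lit 391019808447) (nat_lit 76) (nat_lit 381784459583) (nat_lit 1) (nat_lit 4) (nat_lit 2) (nat_lit 5) (nat_lit 2) (nat_lit 4) (nat_lit 346) (nat_lit 249) (nat_lit 185)) (XT.lf (nat_lit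 0) (nat_lit 69924464267) (nat_lit 76) (nat_lit 415704878681) (nat_lit 76) (nat_lit 406464527592) (nat_lit 1) (nat_lit 4) (nat_lit 2) (nat_lit 5) (nat_lit 2) (nat_lit 4) (nat_lit 347) (nat_lit 249) (nat_lit 184))))) (XT.nd (nat_lit 35334) (nat_lit 0) (nat_lit 2736) (XT.nd (nat_lit 78) (nat_lit 0) (nat_lit 0) (XT.lf (nat_lit 0) (nat_lit 87649024199) (nat_lit 76) (nat_lit 442370731508) (nat_lit 76) (nat_lit 433125748728) (nat_lit 1) (nat_lit 4) (nat_lit 2) (nat_lit 5) (nat_lit 2) (nat_lit 4) (nat_lit 348) (nat_lit 249) (nat_lit 183)) (XT.nd (nat_lit 78) (nat_lit 0) (nat_lit 0) (XT.lf (nat_lit 0) (nat_lit 106780065849) (nat_lit 76) (nat_lit 471175386795) (nat_lit 76) (nat_lit 461926115413) (nat_lit 1) (nat_lit 4) (nat_lit 2) (nat_lit 5) (nat_lit 2) (nat_lit 4) (nat_lit 349) (nat_lit 249) (nat_lit 182)) (XT.lf (nat_lit 0) (nat_lit 127430958351) (nat_lit 76) (nat_lit 502289538796) (nat_lit 76)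 (nat_lit 493036296487) (nat_lit 1) (nat_lit 4) (nat_lit 2) (nat_lit 5) (nat_lit 2) (nat_lit 4) (nat_lit 350) (nat_lit 249) (nat_lit 181)))) (XT.nd (nat_lit 78) (nat_lit 608) (nat_lit 0) (XT.lf (nat_lit 0) (nat_lit 1931530020) (nat_lit 228) (nat_lit 1021223109) (nat_lit 0) (nat_lit 1931530020) (nat_lit 45) (nat_lit 5) (nat_lit 48) (nat_lit 4) (nat_lit 45) (nat_lit 4) (nat_lit 280) (nat_lit 250) (nat_lit 250)) (XT.nd (nat_lit 78) (nat_lit 304) (nat_lit 0) (XT.lf (nat_lit 0) (nat_lit 283637101) (nat_lit 304) (nat_lit 691430337) (nat_lit 76) (nat_lit 9183187586) (nat_lit 41) (nat_lit 5) (nat_lit 45) (nat_lit 5) (nat_lit 42) (nat_lit 4) (nat_lit 281) (nat_lit 250) (nat_lit 249)) (XT.lf (nat_lit 0) (nat_lit 420832195) (nat_lit 152) (nat_lit 6246641029) (nat_lit 152) (nat_lit 3911893497) (nat_lit 37) (nat_lit 4) (nat_lit 39) (nat_lit 5) (nat_lit 39) (nat_lit 4) (nat_lit 282) (nat_lit 250) (nat_lit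 248))))))))
noncomputable def xc29 : XT := (XT.nd (nat_lit 1638) (nat_lit 456) (nat_lit 0) (XT.nd (nat_lit 780) (nat_lit 684) (nat_lit 0) (XT.nd (nat_lit 390) (nat_lit 608) (nat_lit 0) (XT.nd (nat_lit 156) (nat_lit 532) (nat_lit 0) (XT.nd (nat_lit 78) (nat_lit 152) (nat_lit 0) (XT.lf (nat_lit 0) (nat_lit 1358681114) (nat_lit 152) (nat_lit 949980906) (nat_lit 228) (nat_lit 8730808888) (nat_lit 34) (nat_lit 5) (nat_lit 36) (nat_lit 5) (nat_lit 37) (nat_lit 4) (nat_lit 283) (nat_lit 250) (nat_lit 247)) (XT.lf (nat_lit 0) (nat_lit 1955298494) (nat_lit 152) (nat_lit 6856029824) (nat_lit 152) (nat_lit 2726108655) (nat_lit 32) (nat_lit 4) (nat_lit 34) (nat_lit 5) (nat_lit 34) (nat_lit 4) (nat_lit 284) (nat_lit 250) (nat_lit 246))) (XT.nd (nat_lit 78) (nat_lit 304) (nat_lit 0) (XT.lf (nat_lit 0) (nat_lit 2212004179) (nat_lit 152) (nat_lit 1295581549) (nat_lit 228) (nat_lit 8571570077) (nat_lit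 29) (nat_lit 5) (nat_lit 31) (nat_lit 5) (nat_lit 32) (nat_lit 4) (nat_lit 285) (nat_lit 250) (nat_lit 245)) (XT.nd (nat_lit 78) (nat_lit 152) (nat_lit 0) (XT.lf (nat_lit 0) (nat_lit 2007230730) (nat_lit 152) (nat_lit 8074001395) (nat_lit 152) (nat_lit 2584181565) (nat_lit 27) (nat_lit 4) (nat_lit 29) (nat_lit 5) (nat_lit 29) (nat_lit 4) (nat_lit 286) (nat_lit 250) (nat_lit 244)) (XT.lf (nat_lit 0) (nat_lit 1293000296) (nat_lit 76) (nat_lit 2353699182) (nat_lit 152) (nat_lit 9654646268) (nat_lit 25) (nat_lit 5) (nat_lit 26) (nat_lit 5) (nat_lit 27) (nat_lit 4) (nat_lit 287) (nat_lit 250) (nat_lit 243))))) (XT.nd (nat_lit 156) (nat_lit 380) (nat_lit 0) (XT.nd (nat_lit 78) (nat_lit 228) (nat_lit 0) (XT.lf (nat_lit 0) (nat_lit 10219686502) (nat_lit 152) (nat_lit 49529420) (nat_lit 0) (nat_lit 3720333651) (nat_lit 25) (nat_lit 5) (nat_lit 27) (nat_lit 4) (nat_lit 25) (nat_lit 4) (nat_lit 288)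 (nat_lit 250) (nat_lit 242)) (XT.lf (nat_lit 0) (nat_lit 2448204370) (nat_lit 228) (nat_lit 2046307132) (nat_lit 76) (nat_lit 10239214238) (nat_lit 22) (nat_lit 5) (nat_lit 25) (nat_lit 5) (nat_lit 23) (nat_lit 4) (nat_lit 289) (nat_lit 250) (nat_lit 241))) (XT.nd (nat_lit 78) (nat_lit 304) (nat_lit 0) (XT.lf (nat_lit 0) (nat_lit 8946237736) (nat_lit 152) (nat_lit 4873933205) (nat_lit 0) (nat_lit 1718628015) (nat_lit 21) (nat_lit 5) (nat_lit 23) (nat_lit 4) (nat_lit 21) (nat_lit 4) (nat_lit 290) (nat_lit 250) (nat_lit 240)) (XT.nd (nat_lit 78) (nat_lit 152) (nat_lit 0) (XT.lf (nat_lit 0) (nat_lit 7749683837) (nat_lit 152) (nat_lit 8175149305) (nat_lit 152) (nat_lit 485578285) (nat_lit 19) (nat_lit 4) (nat_lit 21) (nat_lit 5) (nat_lit 21) (nat_lit 4) (nat_lit 291) (nat_lit 250) (nat_lit 239)) (XT.lf (nat_lit 0) (nat_lit 3763976372) (nat_lit 76) (nat_lit 2031774523) (nat_lit 152) (nat_lit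 11557314441) (nat_lit 17) (nat_lit 5) (nat_lit 18) (nat_lit 5) (nat_lit 19) (nat_lit 4) (nat_lit 292) (nat_lit 250) (nat_lit 238)))))) (XT.nd (nat_lit 390) (nat_lit 380) (nat_lit 0) (XT.nd (nat_lit 156) (nat_lit 152) (nat_lit 0) (XT.nd (nat_lit 78) (nat_lit 152) (nat_lit 0) (XT.lf (nat_lit 0) (nat_lit 12533726368) (nat_lit 152) (nat_lit 1412833217) (nat_lit 0) (nat_lit 4425754635) (nat_lit 17) (nat_lit 5) (nat_lit 19) (nat_lit 4) (nat_lit 17) (nat_lit 4) (nat_lit 293) (nat_lit 250) (nat_lit 237)) (XT.lf (nat_lit 0) (nat_lit 307118732) (nat_lit 152) (nat_lit 7827635259) (nat_lit 76) (nat_lit 11339192982) (nat_lit 15) (nat_lit 5) (nat_lit 17) (nat_lit 5) (nat_lit 16) (nat_lit 4) (nat_lit 294) (nat_lit 250) (nat_lit 236))) (XT.nd (nat_lit 78) (nat_lit 76) (nat_lit 0) (XT.lf (nat_lit 0) (nat_lit 4778373011) (nat_lit 76) (nat_lit 1835767337) (nat_lit 152) (nat_lit 14051186476) (nat_lit 14)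 (nat_lit 5) (nat_lit 15) (nat_lit 5) (nat_lit 16) (nat_lit 4) (nat_lit 295) (nat_lit 250) (nat_lit 235)) (XT.nd (nat_lit 78) (nat_lit 76) (nat_lit 0) (XT.lf (nat_lit 0) (nat_lit 13421655776) (nat_lit 152) (nat_lit 3756676530) (nat_lit 0) (nat_lit 4773992704) (nat_lit 14) (nat_lit 5) (nat_lit 16) (nat_lit 4) (nat_lit 14) (nat_lit 4) (nat_lit 296) (nat_lit 250) (nat_lit 234)) (XT.lf (nat_lit 0) (nat_lit 9234486137) (nat_lit 76) (nat_lit 11510521985) (nat_lit 76) (nat_lit 2598809951) (nat_lit 13) (nat_lit 4) (nat_lit 14) (nat_lit 5) (nat_lit 14) (nat_lit 4) (nat_lit 297) (nat_lit 250) (nat_lit 233))))) (XT.nd (nat_lit 234) (nat_lit 228) (nat_lit 0) (XT.nd (nat_lit 78) (nat_lit 76) (nat_lit 0) (XT.lf (nat_lit 0) (nat_lit 3554590339) (nat_lit 152) (nat_lit 1869291616) (nat_lit 76) (nat_lit 19426418672) (nat_lit 12) (nat_lit 5) (nat_lit 14) (nat_lit 5) (nat_lit 13) (nat_lit 4) (nat_lit 298)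 (nat_lit 250) (nat_lit 232)) (XT.nd (nat_lit 78) (nat_lit 0) (nat_lit 0) (XT.lf (nat_lit 0) (nat_lit 10123488451) (nat_lit 152) (nat_lit 15163351637) (nat_lit 0) (nat_lit 1187696796) (nat_lit 11) (nat_lit 5) (nat_lit 13) (nat_lit 4) (nat_lit 11) (nat_lit 4) (nat_lit 299) (nat_lit 250) (nat_lit 231)) (XT.lf (nat_lit 0) (nat_lit 17165639087) (nat_lit 152) (nat_lit 3035540800) (nat_lit 0) (nat_lit 8030218310) (nat_lit 11) (nat_lit 5) (nat_lit 13) (nat_lit 4) (nat_lit 11) (nat_lit 4) (nat_lit 300) (nat_lit 250) (nat_lit 230)))) (XT.nd (nat_lit 78) (nat_lit 152) (nat_lit 0) (XT.lf (nat_lit 0) (nat_lit 10080199656) (nat_lit 76) (nat_lit 14684627898) (nat_lit 76) (nat_lit 5364365340) (nat_lit 10) (nat_lit 4) (nat_lit 11) (nat_lit 5) (nat_lit 11) (nat_lit 4) (nat_lit 301) (nat_lit 250) (nat_lit 229)) (XT.nd (nat_lit 78) (nat_lit 76) (nat_lit 0) (XT.lf (nat_lit 0) (nat_lit 662736842) (nat_lit 152)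 (nat_lit 8132801825) (nat_lit 76) (nat_lit 23387963984) (nat_lit 9) (nat_lit 5) (nat_lit 11) (nat_lit 5) (nat_lit 10) (nat_lit 4) (nat_lit 302) (nat_lit 250) (nat_lit 228)) (XT.lf (nat_lit 0) (nat_lit 4515781717) (nat_lit 76) (nat_lit 2394299309) (nat_lit 152) (nat_lit 27491433725) (nat_lit 8) (nat_lit 5) (nat_lit 9) (nat_lit 5) (nat_lit 10) (nat_lit 4) (nat_lit 303) (nat_lit 250) (nat_lit 227))))))) (XT.nd (nat_lit 858) (nat_lit 228) (nat_lit 0) (XT.nd (nat_lit 390) (nat_lit 152) (nat_lit 0) (XT.nd (nat_lit 156) (nat_lit 76) (nat_lit 0) (XT.nd (nat_lit 78) (nat_lit 0) (nat_lit 0) (XT.lf (nat_lit 0) (nat_lit 13729621520) (nat_lit 152) (nat_lit 18664267717) (nat_lit 0) (nat_lit 4399509375) (nat_lit 8) (nat_lit 5) (nat_lit 10) (nat_lit 4) (nat_lit 8) (nat_lit 4) (nat_lit 304) (nat_lit 250) (nat_lit 226)) (XT.lf (nat_lit 0) (nat_lit 21003489475) (nat_lit 152) (nat_lit 6833770106) (nat_lit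 0) (nat_lit 11543982829) (nat_lit 8) (nat_lit 5) (nat_lit 10) (nat_lit 4) (nat_lit 8) (nat_lit 4) (nat_lit 305) (nat_lit 250) (nat_lit 225))) (XT.nd (nat_lit 78) (nat_lit 0) (nat_lit 0) (XT.lf (nat_lit 0) (nat_lit 5902153957) (nat_lit 76) (nat_lit 22927402778) (nat_lit 76) (nat_lit 13348086408) (nat_lit 7) (nat_lit 4) (nat_lit 8) (nat_lit 5) (nat_lit 8) (nat_lit 4) (nat_lit 306) (nat_lit 250) (nat_lit 224)) (XT.nd (nat_lit 78) (nat_lit 0) (nat_lit 0) (XT.lf (nat_lit 0) (nat_lit 19681056538) (nat_lit 76) (nat_lit 17603426347) (nat_lit 76) (nat_lit 7913175048) (nat_lit 7) (nat_lit 4) (nat_lit 8) (nat_lit 5) (nat_lit 8) (nat_lit 4) (nat_lit 307) (nat_lit 250) (nat_lit 223)) (XT.lf (nat_lit 0) (nat_lit 34358635089) (nat_lit 76) (nat_lit 11949514001) (nat_lit 76) (nat_lit 2156545175) (nat_lit 7) (nat_lit 4) (nat_lit 8) (nat_lit 5) (nat_lit 8) (nat_lit 4) (nat_lit 308) (nat_lit 250) (nat_lit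 222))))) (XT.nd (nat_lit 234) (nat_lit 0) (nat_lit 0) (XT.nd (nat_lit 78) (nat_lit 76) (nat_lit 0) (XT.lf (nat_lit 0) (nat_lit 3829302536) (nat_lit 152) (nat_lit 2038007447) (nat_lit 76) (nat_lit 46127714226) (nat_lit 6) (nat_lit 5) (nat_lit 8) (nat_lit 5) (nat_lit 7) (nat_lit 4) (nat_lit 309) (nat_lit 250) (nat_lit 221)) (XT.nd (nat_lit 78) (nat_lit 0) (nat_lit 0) (XT.lf (nat_lit 0) (nat_lit 10312615858) (nat_lit 152) (nat_lit 44677191310) (nat_lit 0) (nat_lit 811528838) (nat_lit 5) (nat_lit 5) (nat_lit 7) (nat_lit 4) (nat_lit 5) (nat_lit 4) (nat_lit 310) (nat_lit 250) (nat_lit 220)) (XT.lf (nat_lit 0) (nat_lit 17358811224) (nat_lit 152) (nat_lit 34771092545) (nat_lit 0) (nat_lit 7780066600) (nat_lit 5) (nat_lit 5) (nat_lit 7) (nat_lit 4) (nat_lit 5) (nat_lit 4) (nat_lit 311) (nat_lit 250) (nat_lit 219)))) (XT.nd (nat_lit 78) (nat_lit 0) (nat_lit 0) (XT.lf (nat_lit 0) (nat_lit 24884628756)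 (nat_lit 152) (nat_lit 24232917816) (nat_lit 0) (nat_lit 15233978943) (nat_lit 5) (nat_lit 5) (nat_lit 7) (nat_lit 4) (nat_lit 5) (nat_lit 4) (nat_lit 312) (nat_lit 250) (nat_lit 218)) (XT.nd (nat_lit 78) (nat_lit 0) (nat_lit 0) (XT.lf (nat_lit 0) (nat_lit 32934665892) (nat_lit 152) (nat_lit 13000218681) (nat_lit 0) (nat_lit 23217437200) (nat_lit 5) (nat_lit 5) (nat_lit 7) (nat_lit 4) (nat_lit 5) (nat_lit 4) (nat_lit 313) (nat_lit 250) (nat_lit 217)) (XT.lf (nat_lit 0) (nat_lit 41556626555) (nat_lit 152) (nat_lit 1006430997) (nat_lit 0) (nat_lit 31777750753) (nat_lit 5) (nat_lit 5) (nat_lit 7) (nat_lit 4) (nat_lit 5) (nat_lit 4) (nat_lit 314) (nat_lit 250) (nat_lit 216)))))) (XT.nd (nat_lit 390) (nat_lit 152) (nat_lit 0) (XT.nd (nat_lit 156) (nat_lit 0) (nat_lit 0) (XT.nd (nat_lit 78) (nat_lit 0) (nat_lit 0) (XT.lf (nat_lit 0) (nat_lit 12210326226) (nat_lit 76) (nat_lit 38781915031) (nat_lit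 76) (nat_lit 28945958571) (nat_lit 4) (nat_lit 4) (nat_lit 5) (nat_lit 5) (nat_lit 5) (nat_lit 4) (nat_lit 315) (nat_lit 250) (nat_lit 215)) (XT.lf (nat_lit 0) (nat_lit 26398557236) (nat_lit 76) (nat_lit 34737981039) (nat_lit 76) (nat_lit 24849172118) (nat_lit 4) (nat_lit 4) (nat_lit 5) (nat_lit 5) (nat_lit 5) (nat_lit 4) (nat_lit 316) (nat_lit 250) (nat_lit 214))) (XT.nd (nat_lit 78) (nat_lit 0) (nat_lit 0) (XT.lf (nat_lit 0) (nat_lit 41609063282) (nat_lit 76) (nat_lit 30424335920) (nat_lit 76) (nat_lit 20486589535) (nat_lit 4) (nat_lit 4) (nat_lit 5) (nat_lit 5) (nat_lit 5) (nat_lit 4) (nat_lit 317) (nat_lit 250) (nat_lit 213)) (XT.nd (nat_lit 78) (nat_lit 0) (nat_lit 0) (XT.lf (nat_lit 0) (nat_lit 57931980697) (nat_lit 76) (nat_lit 25815417332) (nat_lit 76) (nat_lit 15832358481) (nat_lit 4) (nat_lit 4) (nat_lit 5) (nat_lit 5) (nat_lit 5) (nat_lit 4) (nat_lit 318) (nat_lit 250) (nat_lit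 212)) (XT.lf (nat_lit 0) (nat_lit 75464037880) (nat_lit 76) (nat_lit 20883913165) (nat_lit 76) (nat_lit 10858898327) (nat_lit 4) (nat_lit 4) (nat_lit 5) (nat_lit 5) (nat_lit 5) (nat_lit 4) (nat_lit 319) (nat_lit 250) (nat_lit 211))))) (XT.nd (nat_lit 234) (nat_lit 0) (nat_lit 0) (XT.nd (nat_lit 78) (nat_lit 152) (nat_lit 0) (XT.lf (nat_lit 0) (nat_lit 94309128504) (nat_lit 76) (nat_lit 15600599691) (nat_lit 76) (nat_lit 5536736717) (nat_lit 4) (nat_lit 4) (nat_lit 5) (nat_lit 5) (nat_lit 5) (nat_lit 4) (nat_lit 320) (nat_lit 250) (nat_lit 210)) (XT.nd (nat_lit 78) (nat_lit 76) (nat_lit 0) (XT.lf (nat_lit 0) (nat_lit 160362767) (nat_lit 152) (nat_lit 9771089797) (nat_lit 76) (nat_lit 114415848591) (nat_lit 3) (nat_lit 5) (nat_lit 5) (nat_lit 5) (nat_lit 4) (nat_lit 4) (nat_lit 321) (nat_lit 250) (nat_lit 209)) (XT.lf (nat_lit 0) (nat_lit 2410116292) (nat_lit 76) (nat_lit 3708545063) (nat_lit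 152) (nat_lit 127837045692) (nat_lit 2) (nat_lit 5) (nat_lit 3) (nat_lit 5) (nat_lit 4) (nat_lit 4) (nat_lit 322) (nat_lit 250) (nat_lit 208)))) (XT.nd (nat_lit 78) (nat_lit 0) (nat_lit 0) (XT.lf (nat_lit 0) (nat_lit 12734136290) (nat_lit 152) (nat_lit 128535477394) (nat_lit 0) (nat_lit 3054156871) (nat_lit 2) (nat_lit 5) (nat_lit 4) (nat_lit 4) (nat_lit 2) (nat_lit 4) (nat_lit 323) (nat_lit 250) (nat_lit 207)) (XT.nd (nat_lit 78) (nat_lit 0) (nat_lit 0) (XT.lf (nat_lit 0) (nat_lit 19904796239) (nat_lit 152) (nat_lit 125417573503) (nat_lit 0) (nat_lit 10197622020) (nat_lit 2) (nat_lit 5) (nat_lit 4) (nat_lit 4) (nat_lit 2) (nat_lit 4) (nat_lit 324) (nat_lit 250) (nat_lit 206)) (XT.lf (nat_lit 0) (nat_lit 27615233220) (nat_lit 152) (nat_lit 122115501835) (nat_lit 0) (nat_lit 17882878631) (nat_lit 2) (nat_lit 5) (nat_lit 4) (nat_lit 4) (nat_lit 2) (nat_lit 4) (nat_lit 325) (nat_lit 250)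 (nat_lit 205))))))))
noncomputable def xc30 : XT := (XT.nd (nat_lit 1638) (nat_lit 0) (nat_lit 0) (XT.nd (nat_lit 780) (nat_lit 76) (nat_lit 0) (XT.nd (nat_lit 390) (nat_lit 0) (nat_lit 0) (XT.nd (nat_lit 156) (nat_lit 0) (nat_lit 0) (XT.nd (nat_lit 78) (nat_lit 0) (nat_lit 0) (XT.lf (nat_lit 0) (nat_lit 35911138713) (nat_lit 152) (nat_lit 118609694558) (nat_lit 0) (nat_lit 26155468966) (nat_lit 2) (nat_lit 5) (nat_lit 4) (nat_lit 4) (nat_lit 2) (nat_lit 4) (nat_lit 326) (nat_lit 250) (nat_lit 204)) (XT.lf (nat_lit 0) (nat_lit 44841673637) (nat_lit 152) (nat_lit 114879376515) (nat_lit 0) (nat_lit 35064415781) (nat_lit 2) (nat_lit 5) (nat_lit 4) (nat_lit 4) (nat_lit 2) (nat_lit 4) (nat_lit 327) (nat_lit 250) (nat_lit 203))) (XT.nd (nat_lit 78) (nat_lit 0) (nat_lit 0) (XT.lf (nat_lit 0) (nat_lit 54459759682) (nat_lit 152) (nat_lit 110902442121) (nat_lit 0) (nat_lit 44662512836) (nat_lit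 2) (nat_lit 5) (nat_lit 4) (nat_lit 4) (nat_lit 2) (nat_lit 4) (nat_lit 328) (nat_lit 250) (nat_lit 202)) (XT.nd (nat_lit 78) (nat_lit 0) (nat_lit 0) (XT.lf (nat_lit 0) (nat_lit 64822392913) (nat_lit 152) (nat_lit 106655324355) (nat_lit 0) (nat_lit 55006637744) (nat_lit 2) (nat_lit 5) (nat_lit 4) (nat_lit 4) (nat_lit 2) (nat_lit 4) (nat_lit 329) (nat_lit 250) (nat_lit 201)) (XT.lf (nat_lit 0) (nat_lit 75990981527) (nat_lit 152) (nat_lit 102112855112) (nat_lit 0) (nat_lit 66158089021) (nat_lit 2) (nat_lit 5) (nat_lit 4) (nat_lit 4) (nat_lit 2) (nat_lit 4) (nat_lit 330) (nat_lit 250) (nat_lit 200))))) (XT.nd (nat_lit 156) (nat_lit 0) (nat_lit 0) (XT.nd (nat_lit 78) (nat_lit 0) (nat_lit 0) (XT.lf (nat_lit 0) (nat_lit 88031709754) (nat_lit 152) (nat_lit 97248116057) (nat_lit 0) (nat_lit 78182949342) (nat_lit 2) (nat_lit 5) (nat_lit 4) (nat_lit 4) (nat_lit 2) (nat_lit 4) (nat_lit 331) (nat_lit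 250) (nat_lit 199)) (XT.lf (nat_lit 0) (nat_lit 101015930055) (nat_lit 152) (nat_lit 92032279106) (nat_lit 0) (nat_lit 91152477140) (nat_lit 2) (nat_lit 5) (nat_lit 4) (nat_lit 4) (nat_lit 2) (nat_lit 4) (nat_lit 332) (nat_lit 250) (nat_lit 198))) (XT.nd (nat_lit 78) (nat_lit 0) (nat_lit 0) (XT.lf (nat_lit 0) (nat_lit 115020585960) (nat_lit 152) (nat_lit 86434435596) (nat_lit 0) (nat_lit 105143528874) (nat_lit 2) (nat_lit 5) (nat_lit 4) (nat_lit 4) (nat_lit 2) (nat_lit 4) (nat_lit 333) (nat_lit 250) (nat_lit 197)) (XT.nd (nat_lit 78) (nat_lit 0) (nat_lit 0) (XT.lf (nat_lit 0) (nat_lit 130128668021) (nat_lit 152) (nat_lit 80421413119) (nat_lit 0) (nat_lit 120239014481) (nat_lit 2) (nat_lit 5) (nat_lit 4) (nat_lit 4) (nat_lit 2) (nat_lit 4) (nat_lit 334) (nat_lit 250) (nat_lit 196)) (XT.lf (nat_lit 0) (nat_lit 146429705614) (nat_lit 152) (nat_lit 73957578952) (nat_lit 0) (nat_lit 136528388690)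 (nat_lit 2) (nat_lit 5) (nat_lit 4) (nat_lit 4) (nat_lit 2) (nat_lit 4) (nat_lit 335) (nat_lit 250) (nat_lit 195)))))) (XT.nd (nat_lit 390) (nat_lit 76) (nat_lit 0) (XT.nd (nat_lit 156) (nat_lit 0) (nat_lit 0) (XT.nd (nat_lit 78) (nat_lit 0) (nat_lit 0) (XT.lf (nat_lit 0) (nat_lit 164020297480) (nat_lit 152) (nat_lit 67004628891) (nat_lit 0) (nat_lit 154108181127) (nat_lit 2) (nat_lit 5) (nat_lit 4) (nat_lit 4) (nat_lit 2) (nat_lit 4) (nat_lit 336) (nat_lit 250) (nat_lit 194)) (XT.lf (nat_lit 0) (nat_lit 183004684164) (nat_lit 152) (nat_lit 59521360270) (nat_lit 0) (nat_lit 173082568340) (nat_lit 2) (nat_lit 5) (nat_lit 4) (nat_lit 4) (nat_lit 2) (nat_lit 4) (nat_lit 337) (nat_lit 250) (nat_lit 193))) (XT.nd (nat_lit 78) (nat_lit 0) (nat_lit 0) (XT.lf (nat_lit 0) (nat_lit 203495365735) (nat_lit 152) (nat_lit 51463427792) (nat_lit 0) (nat_lit 193563991140) (nat_lit 2) (nat_lit 5) (nat_lit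 4) (nat_lit 4) (nat_lit 2) (nat_lit 4) (nat_lit 338) (nat_lit 250) (nat_lit 192)) (XT.nd (nat_lit 78) (nat_lit 0) (nat_lit 0) (XT.lf (nat_lit 0) (nat_lit 225613768453) (nat_lit 152) (nat_lit 42783080746) (nat_lit 0) (nat_lit 215673820923) (nat_lit 2) (nat_lit 5) (nat_lit 4) (nat_lit 4) (nat_lit 2) (nat_lit 4) (nat_lit 339) (nat_lit 250) (nat_lit 191)) (XT.lf (nat_lit 0) (nat_lit 249490964335) (nat_lit 152) (nat_lit 33428880040) (nat_lit 0) (nat_lit 239543078903) (nat_lit 2) (nat_lit 5) (nat_lit 4) (nat_lit 4) (nat_lit 2) (nat_lit 4) (nat_lit 340) (nat_lit 250) (nat_lit 190))))) (XT.nd (nat_lit 234) (nat_lit 76) (nat_lit 0) (XT.nd (nat_lit 78) (nat_lit 0) (nat_lit 0) (XT.lf (nat_lit 0) (nat_lit 275268447876) (nat_lit 152) (nat_lit 23345393373) (nat_lit 0) (nat_lit 265313212533) (nat_lit 2) (nat_lit 5) (nat_lit 4) (nat_lit 4) (nat_lit 2) (nat_lit 4) (nat_lit 341) (nat_lit 250) (nat_lit 189))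 (XT.nd (nat_lit 78) (nat_lit 0) (nat_lit 0) (XT.lf (nat_lit 0) (nat_lit 303098974533) (nat_lit 152) (nat_lit 12472866749) (nat_lit 0) (nat_lit 293136933718) (nat_lit 2) (nat_lit 5) (nat_lit 4) (nat_lit 4) (nat_lit 2) (nat_lit 4) (nat_lit 342) (nat_lit 250) (nat_lit 188)) (XT.lf (nat_lit 0) (nat_lit 333147465945) (nat_lit 152) (nat_lit 746870382) (nat_lit 0) (nat_lit 323179123767) (nat_lit 2) (nat_lit 5) (nat_lit 4) (nat_lit 4) (nat_lit 2) (nat_lit 4) (nat_lit 343) (nat_lit 250) (nat_lit 187)))) (XT.nd (nat_lit 78) (nat_lit 0) (nat_lit 0) (XT.lf (nat_lit 0) (nat_lit 12295619734) (nat_lit 76) (nat_lit 353488336596) (nat_lit 76) (nat_lit 343514159822) (nat_lit 1) (nat_lit 4) (nat_lit 2) (nat_lit 5) (nat_lit 2) (nat_lit 4) (nat_lit 344) (nat_lit 250) (nat_lit 186)) (XT.nd (nat_lit 78) (nat_lit 0) (nat_lit 0) (XT.lf (nat_lit 0) (nat_lit 26393714189) (nat_lit 76) (nat_lit 374643167927) (nat_lit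 76) (nat_lit 364663588750) (nat_lit 1) (nat_lit 4) (nat_lit 2) (nat_lit 5) (nat_lit 2) (nat_lit 4) (nat_lit 345) (nat_lit 250) (nat_lit 185)) (XT.lf (nat_lit 0) (nat_lit 41606262339) (nat_lit 76) (nat_lit 397496840895) (nat_lit 76) (nat_lit 387512259493) (nat_lit 1) (nat_lit 4) (nat_lit 2) (nat_lit 5) (nat_lit 2) (nat_lit 4) (nat_lit 346) (nat_lit 250) (nat_lit 184))))))) (XT.nd (nat_lit 35802) (nat_lit 0) (nat_lit 1064) (XT.nd (nat_lit 35334) (nat_lit 0) (nat_lit 2356) (XT.nd (nat_lit 156) (nat_lit 0) (nat_lit 0) (XT.nd (nat_lit 78) (nat_lit 0) (nat_lit 0) (XT.lf (nat_lit 0) (nat_lit 58023412616) (nat_lit 76) (nat_lit 422184784675) (nat_lit 76) (nat_lit 412195571582) (nat_lit 1) (nat_lit 4) (nat_lit 2) (nat_lit 5) (nat_lit 2) (nat_lit 4) (nat_lit 347) (nat_lit 250) (nat_lit 183)) (XT.lf (nat_lit 0) (nat_lit 75742451838) (nat_lit 76) (nat_lit 448853298191) (nat_lit 76) (nat_lit 438859796497)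 (nat_lit 1) (nat_lit 4) (nat_lit 2) (nat_lit 5) (nat_lit 2) (nat_lit 4) (nat_lit 348) (nat_lit 250) (nat_lit 182))) (XT.nd (nat_lit 78) (nat_lit 0) (nat_lit 0) (XT.lf (nat_lit 0) (nat_lit 94868381719) (nat_lit 76) (nat_lit 477660417079) (nat_lit 76) (nat_lit 467662944457) (nat_lit 1) (nat_lit 4) (nat_lit 2) (nat_lit 5) (nat_lit 2) (nat_lit 4) (nat_lit 349) (nat_lit 250) (nat_lit 181)) (XT.nd (nat_lit 35022) (nat_lit 0) (nat_lit 3800) (XT.lf (nat_lit 0) (nat_lit 115514541102) (nat_lit 76) (nat_lit 508776850193) (nat_lit 76) (nat_lit 498775700786) (nat_lit 1) (nat_lit 4) (nat_lit 2) (nat_lit 5) (nat_lit 2) (nat_lit 4) (nat_lit 350) (nat_lit 250) (nat_lit 180)) (XT.lf (nat_lit 0) (nat_lit 1066916761) (nat_lit 304) (nat_lit 2405908663) (nat_lit 0) (nat_lit 1066916761) (nat_lit 51) (nat_lit 5) (nat_lit 55) (nat_lit 4) (nat_lit 51) (nat_lit 4) (nat_lit 278) (nat_lit 251) (nat_lit 251))))) (XT.nd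 (nat_lit 234) (nat_lit 684) (nat_lit 0) (XT.nd (nat_lit 78) (nat_lit 532) (nat_lit 0) (XT.lf (nat_lit 0) (nat_lit 5913104671) (nat_lit 228) (nat_lit 2472081526) (nat_lit 228) (nat_lit 1028628354) (nat_lit 48) (nat_lit 4) (nat_lit 51) (nat_lit 5) (nat_lit 51) (nat_lit 4) (nat_lit 279) (nat_lit 251) (nat_lit 250)) (XT.nd (nat_lit 78) (nat_lit 304) (nat_lit 0) (XT.lf (nat_lit 0) (nat_lit 5047746132) (nat_lit 228) (nat_lit 2330403658) (nat_lit 0) (nat_lit 2400142430) (nat_lit 45) (nat_lit 5) (nat_lit 48) (nat_lit 4) (nat_lit 45) (nat_lit 4) (nat_lit 280) (nat_lit 251) (nat_lit 249)) (XT.lf (nat_lit 0) (nat_lit 1232859228) (nat_lit 304) (nat_lit 1298840796) (nat_lit 76) (nat_lit 7644968148) (nat_lit 41) (nat_lit 5) (nat_lit 45) (nat_lit 5) (nat_lit 42) (nat_lit 4) (nat_lit 281) (nat_lit 251) (nat_lit 248)))) (XT.nd (nat_lit 78) (nat_lit 532) (nat_lit 0) (XT.lf (nat_lit 0) (nat_lit 7400341691)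 (nat_lit 228) (nat_lit 491427969) (nat_lit 0) (nat_lit 2717011086) (nat_lit 39) (nat_lit 5) (nat_lit 42) (nat_lit 4) (nat_lit 39) (nat_lit 4) (nat_lit 282) (nat_lit 251) (nat_lit 247)) (XT.nd (nat_lit 78) (nat_lit 152) (nat_lit 0) (XT.lf (nat_lit 0) (nat_lit 77923060) (nat_lit 152) (nat_lit 2714074434) (nat_lit 228) (nat_lit 8286380042) (nat_lit 34) (nat_lit 5) (nat_lit 36) (nat_lit 5) (nat_lit 37) (nat_lit 4) (nat_lit 283) (nat_lit 251) (nat_lit 246)) (XT.lf (nat_lit 0) (nat_lit 346165806) (nat_lit 152) (nat_lit 8733272176) (nat_lit 152) (nat_lit 2507816490) (nat_lit 32) (nat_lit 4) (nat_lit 34) (nat_lit 5) (nat_lit 34) (nat_lit 4) (nat_lit 284) (nat_lit 251) (nat_lit 245)))))) (XT.nd (nat_lit 390) (nat_lit 532) (nat_lit 0) (XT.nd (nat_lit 156) (nat_lit 532) (nat_lit 0) (XT.nd (nat_lit 78) (nat_lit 0) (nat_lit 0) (XT.lf (nat_lit 0) (nat_lit 226809713) (nat_lit 152) (nat_lit 3303936460)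 (nat_lit 228) (nat_lit 8607595880) (nat_lit 29) (nat_lit 5) (nat_lit 31) (nat_lit 5) (nat_lit 32) (nat_lit 4) (nat_lit 285) (nat_lit 251) (nat_lit 244)) (XT.lf (nat_lit 0) (nat_lit 9890775674) (nat_lit 228) (nat_lit 324117699) (nat_lit 0) (nat_lit 2520509542) (nat_lit 29) (nat_lit 5) (nat_lit 32) (nat_lit 4) (nat_lit 29) (nat_lit 4) (nat_lit 286) (nat_lit 251) (nat_lit 243))) (XT.nd (nat_lit 78) (nat_lit 304) (nat_lit 0) (XT.lf (nat_lit 0) (nat_lit 3223088969) (nat_lit 228) (nat_lit 1404520602) (nat_lit 76) (nat_lit 8752611453) (nat_lit 26) (nat_lit 5) (nat_lit 29) (nat_lit 5) (nat_lit 27) (nat_lit 4) (nat_lit 287) (nat_lit 251) (nat_lit 242)) (XT.nd (nat_lit 78) (nat_lit 228) (nat_lit 0) (XT.lf (nat_lit 0) (nat_lit 9597125641) (nat_lit 152) (nat_lit 3080330234) (nat_lit 0) (nat_lit 1401016218) (nat_lit 25) (nat_lit 5) (nat_lit 27) (nat_lit 4) (nat_lit 25) (nat_lit 4) (nat_lit 288) (nat_lit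 251) (nat_lit 241)) (XT.lf (nat_lit 0) (nat_lit 1573881121) (nat_lit 228) (nat_lit 5493517238) (nat_lit 76) (nat_lit 7765173843) (nat_lit 22) (nat_lit 5) (nat_lit 25) (nat_lit 5) (nat_lit 23) (nat_lit 4) (nat_lit 289) (nat_lit 251) (nat_lit 240))))) (XT.nd (nat_lit 234) (nat_lit 228) (nat_lit 0) (XT.nd (nat_lit 78) (nat_lit 228) (nat_lit 0) (XT.lf (nat_lit 0) (nat_lit 6906329310) (nat_lit 76) (nat_lit 952871768) (nat_lit 152) (nat_lit 7789161436) (nat_lit 21) (nat_lit 5) (nat_lit 22) (nat_lit 5) (nat_lit 23) (nat_lit 4) (nat_lit 290) (nat_lit 251) (nat_lit 239)) (XT.nd (nat_lit 78) (nat_lit 76) (nat_lit 0) (XT.lf (nat_lit 0) (nat_lit 3547628505) (nat_lit 152) (nat_lit 11088473277) (nat_lit 152) (nat_lit 1894033332) (nat_lit 19) (nat_lit 4) (nat_lit 21) (nat_lit 5) (nat_lit 21) (nat_lit 4) (nat_lit 291) (nat_lit 251) (nat_lit 238)) (XT.lf (nat_lit 0) (nat_lit 4256214839) (nat_lit 228) (nat_lit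 865256880) (nat_lit 76) (nat_lit 12361291305) (nat_lit 18) (nat_lit 5) (nat_lit 21) (nat_lit 5) (nat_lit 19) (nat_lit 4) (nat_lit 292) (nat_lit 251) (nat_lit 237)))) (XT.nd (nat_lit 78) (nat_lit 152) (nat_lit 0) (XT.lf (nat_lit 0) (nat_lit 10818572727) (nat_lit 152) (nat_lit 6356772775) (nat_lit 0) (nat_lit 1335508846) (nat_lit 17) (nat_lit 5) (nat_lit 19) (nat_lit 4) (nat_lit 17) (nat_lit 4) (nat_lit 293) (nat_lit 251) (nat_lit 236)) (XT.nd (nat_lit 78) (nat_lit 76) (nat_lit 0) (XT.lf (nat_lit 0) (nat_lit 6348808189) (nat_lit 76) (nat_lit 11539906745) (nat_lit 76) (nat_lit 1733456820) (nat_lit 16) (nat_lit 4) (nat_lit 17) (nat_lit 5) (nat_lit 17) (nat_lit 4) (nat_lit 294) (nat_lit 251) (nat_lit 235)) (XT.lf (nat_lit 0) (nat_lit 4452885105) (nat_lit 152) (nat_lit 977466980) (nat_lit 76) (nat_lit 15393411048) (nat_lit 15) (nat_lit 5) (nat_lit 17) (nat_lit 5) (nat_lit 16) (nat_lit 4) (nat_lit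 295) (nat_lit 251) (nat_lit 234))))))))
noncomputable def xc31 : XT := (XT.nd (nat_lit 1716) (nat_lit 152) (nat_lit 0) (XT.nd (nat_lit 858) (nat_lit 304) (nat_lit 0) (XT.nd (nat_lit 390) (nat_lit 228) (nat_lit 0) (XT.nd (nat_lit 156) (nat_lit 152) (nat_lit 0) (XT.nd (nat_lit 78) (nat_lit 76) (nat_lit 0) (XT.lf (nat_lit 0) (nat_lit 11090228541) (nat_lit 152) (nat_lit 9827557336) (nat_lit 0) (nat_lit 1201530583) (nat_lit 14) (nat_lit 5) (nat_lit 16) (nat_lit 4) (nat_lit 14) (nat_lit 4) (nat_lit 296) (nat_lit 251) (nat_lit 233)) (XT.lf (nat_lit 0) (nat_lit 2790815073) (nat_lit 76) (nat_lit 15431396865) (nat_lit 76) (nat_lit 5298209128) (nat_lit 13) (nat_lit 4) (nat_lit 14) (nat_lit 5) (nat_lit 14) (nat_lit 4) (nat_lit 297) (nat_lit 251) (nat_lit 232))) (XT.nd (nat_lit 78) (nat_lit 76) (nat_lit 0) (XT.lf (nat_lit 0) (nat_lit 853602475) (nat_lit 152) (nat_lit 8609682086) (nat_lit 76) (nat_lit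 15570163635) (nat_lit 12) (nat_lit 5) (nat_lit 14) (nat_lit 5) (nat_lit 13) (nat_lit 4) (nat_lit 298) (nat_lit 251) (nat_lit 231)) (XT.nd (nat_lit 78) (nat_lit 0) (nat_lit 0) (XT.lf (nat_lit 0) (nat_lit 4212831340) (nat_lit 76) (nat_lit 2997904796) (nat_lit 152) (nat_lit 19457571727) (nat_lit 11) (nat_lit 5) (nat_lit 12) (nat_lit 5) (nat_lit 13) (nat_lit 4) (nat_lit 299) (nat_lit 251) (nat_lit 230)) (XT.lf (nat_lit 0) (nat_lit 14127372237) (nat_lit 152) (nat_lit 10427458351) (nat_lit 0) (nat_lit 3876646895) (nat_lit 11) (nat_lit 5) (nat_lit 13) (nat_lit 4) (nat_lit 11) (nat_lit 4) (nat_lit 300) (nat_lit 251) (nat_lit 229))))) (XT.nd (nat_lit 234) (nat_lit 76) (nat_lit 0) (XT.nd (nat_lit 78) (nat_lit 76) (nat_lit 0) (XT.lf (nat_lit 0) (nat_lit 2303644555) (nat_lit 76) (nat_lit 19228623775) (nat_lit 76) (nat_lit 8806748636) (nat_lit 10) (nat_lit 4) (nat_lit 11) (nat_lit 5) (nat_lit 11) (nat_lit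 4) (nat_lit 301) (nat_lit 251) (nat_lit 228)) (XT.nd (nat_lit 78) (nat_lit 76) (nat_lit 0) (XT.lf (nat_lit 0) (nat_lit 16155529335) (nat_lit 76) (nat_lit 13411091162) (nat_lit 76) (nat_lit 2830743990) (nat_lit 10) (nat_lit 4) (nat_lit 11) (nat_lit 5) (nat_lit 11) (nat_lit 4) (nat_lit 302) (nat_lit 251) (nat_lit 227)) (XT.lf (nat_lit 0) (nat_lit 3371258953) (nat_lit 152) (nat_lit 3815999681) (nat_lit 76) (nat_lit 27437149511) (nat_lit 9) (nat_lit 5) (nat_lit 11) (nat_lit 5) (nat_lit 10) (nat_lit 4) (nat_lit 303) (nat_lit 251) (nat_lit 226)))) (XT.nd (nat_lit 78) (nat_lit 0) (nat_lit 0) (XT.lf (nat_lit 0) (nat_lit 9628592252) (nat_lit 76) (nat_lit 367279462) (nat_lit 152) (nat_lit 27030189487) (nat_lit 8) (nat_lit 5) (nat_lit 9) (nat_lit 5) (nat_lit 10) (nat_lit 4) (nat_lit 304) (nat_lit 251) (nat_lit 225)) (XT.nd (nat_lit 78) (nat_lit 0) (nat_lit 0) (XT.lf (nat_lit 0) (nat_lit 17205419209)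 (nat_lit 152) (nat_lit 15671775126) (nat_lit 0) (nat_lit 6739947806) (nat_lit 8) (nat_lit 5) (nat_lit 10) (nat_lit 4) (nat_lit 8) (nat_lit 4) (nat_lit 305) (nat_lit 251) (nat_lit 224)) (XT.lf (nat_lit 0) (nat_lit 24885090825) (nat_lit 152) (nat_lit 3227106892) (nat_lit 0) (nat_lit 14308684493) (nat_lit 8) (nat_lit 5) (nat_lit 10) (nat_lit 4) (nat_lit 8) (nat_lit 4) (nat_lit 306) (nat_lit 251) (nat_lit 223)))))) (XT.nd (nat_lit 390) (nat_lit 76) (nat_lit 0) (XT.nd (nat_lit 156) (nat_lit 152) (nat_lit 0) (XT.nd (nat_lit 78) (nat_lit 0) (nat_lit 0) (XT.lf (nat_lit 0) (nat_lit 10347190923) (nat_lit 76) (nat_lit 22889019191) (nat_lit 76) (nat_lit 12209895332) (nat_lit 7) (nat_lit 4) (nat_lit 8) (nat_lit 5) (nat_lit 8) (nat_lit 4) (nat_lit 307) (nat_lit 251) (nat_lit 222)) (XT.lf (nat_lit 0) (nat_lit 24934119440) (nat_lit 76) (nat_lit 17277833965) (nat_lit 76) (nat_lit 6503601284) (nat_lit 7)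 (nat_lit 4) (nat_lit 8) (nat_lit 5) (nat_lit 8) (nat_lit 4) (nat_lit 308) (nat_lit 251) (nat_lit 221))) (XT.nd (nat_lit 78) (nat_lit 152) (nat_lit 0) (XT.lf (nat_lit 0) (nat_lit 40513416987) (nat_lit 76) (nat_lit 11300043186) (nat_lit 76) (nat_lit 437746782) (nat_lit 7) (nat_lit 4) (nat_lit 8) (nat_lit 5) (nat_lit 8) (nat_lit 4) (nat_lit 309) (nat_lit 251) (nat_lit 220)) (XT.nd (nat_lit 78) (nat_lit 0) (nat_lit 0) (XT.lf (nat_lit 0) (nat_lit 1042719095) (nat_lit 76) (nat_lit 4804381384) (nat_lit 152) (nat_lit 50221397519) (nat_lit 5) (nat_lit 5) (nat_lit 6) (nat_lit 5) (nat_lit 7) (nat_lit 4) (nat_lit 310) (nat_lit 251) (nat_lit 219)) (XT.lf (nat_lit 0) (nat_lit 12777866054) (nat_lit 152) (nat_lit 45121791404) (nat_lit 0) (nat_lit 2283259066) (nat_lit 5) (nat_lit 5) (nat_lit 7) (nat_lit 4) (nat_lit 5) (nat_lit 4) (nat_lit 311) (nat_lit 251) (nat_lit 218))))) (XT.nd (nat_lit 234) (nat_lit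 76) (nat_lit 0) (XT.nd (nat_lit 78) (nat_lit 0) (nat_lit 0) (XT.lf (nat_lit 0) (nat_lit 20266257721) (nat_lit 152) (nat_lit 34655025124) (nat_lit 0) (nat_lit 9705071854) (nat_lit 5) (nat_lit 5) (nat_lit 7) (nat_lit 4) (nat_lit 5) (nat_lit 4) (nat_lit 312) (nat_lit 251) (nat_lit 217)) (XT.nd (nat_lit 78) (nat_lit 0) (nat_lit 0) (XT.lf (nat_lit 0) (nat_lit 28281641278) (nat_lit 152) (nat_lit 23488444922) (nat_lit 0) (nat_lit 17658808302) (nat_lit 5) (nat_lit 5) (nat_lit 7) (nat_lit 4) (nat_lit 5) (nat_lit 4) (nat_lit 313) (nat_lit 251) (nat_lit 216)) (XT.lf (nat_lit 0) (nat_lit 36871515295) (nat_lit 152) (nat_lit 11555878473) (nat_lit 0) (nat_lit 26191601660) (nat_lit 5) (nat_lit 5) (nat_lit 7) (nat_lit 4) (nat_lit 5) (nat_lit 4) (nat_lit 314) (nat_lit 251) (nat_lit 215)))) (XT.nd (nat_lit 78) (nat_lit 0) (nat_lit 0) (XT.lf (nat_lit 0) (nat_lit 1253505740) (nat_lit 76) (nat_lit 44852847724)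 (nat_lit 76) (nat_lit 34120081629) (nat_lit 4) (nat_lit 4) (nat_lit 5) (nat_lit 5) (nat_lit 5) (nat_lit 4) (nat_lit 315) (nat_lit 251) (nat_lit 214)) (XT.nd (nat_lit 78) (nat_lit 0) (nat_lit 0) (XT.lf (nat_lit 0) (nat_lit 15387513940) (nat_lit 76) (nat_lit 40834780844) (nat_lit 76) (nat_lit 30053077285) (nat_lit 4) (nat_lit 4) (nat_lit 5) (nat_lit 5) (nat_lit 5) (nat_lit 4) (nat_lit 316) (nat_lit 251) (nat_lit 213)) (XT.lf (nat_lit 0) (nat_lit 30547813681) (nat_lit 76) (nat_lit 36545086754) (nat_lit 76) (nat_lit 25718070729) (nat_lit 4) (nat_lit 4) (nat_lit 5) (nat_lit 5) (nat_lit 5) (nat_lit 4) (nat_lit 317) (nat_lit 251) (nat_lit 212))))))) (XT.nd (nat_lit 858) (nat_lit 0) (nat_lit 0) (XT.nd (nat_lit 390) (nat_lit 76) (nat_lit 0) (XT.nd (nat_lit 156) (nat_lit 76) (nat_lit 0) (XT.nd (nat_lit 78) (nat_lit 0) (nat_lit 0) (XT.lf (nat_lit 0) (nat_lit 46824243776) (nat_lit 76) (nat_lit 31958345045)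 (nat_lit 76) (nat_lit 21089373032) (nat_lit 4) (nat_lit 4) (nat_lit 5) (nat_lit 5) (nat_lit 5) (nat_lit 4) (nat_lit 318) (nat_lit 251) (nat_lit 211)) (XT.lf (nat_lit 0) (nat_lit 64313257145) (nat_lit 76) (nat_lit 27047375025) (nat_lit 76) (nat_lit 16139554877) (nat_lit 4) (nat_lit 4) (nat_lit 5) (nat_lit 5) (nat_lit 5) (nat_lit 4) (nat_lit 319) (nat_lit 251) (nat_lit 210))) (XT.nd (nat_lit 78) (nat_lit 76) (nat_lit 0) (XT.lf (nat_lit 0) (nat_lit 83118492385) (nat_lit 76) (nat_lit 21783074651) (nat_lit 76) (nat_lit 10839284005) (nat_lit 4) (nat_lit 4) (nat_lit 5) (nat_lit 5) (nat_lit 5) (nat_lit 4) (nat_lit 320) (nat_lit 251) (nat_lit 209)) (XT.nd (nat_lit 78) (nat_lit 76) (nat_lit 0) (XT.lf (nat_lit 0) (nat_lit 103351387927) (nat_lit 76) (nat_lit 16134248067) (nat_lit 76) (nat_lit 5157151406) (nat_lit 4) (nat_lit 4) (nat_lit 5) (nat_lit 5) (nat_lit 5) (nat_lit 4) (nat_lit 321) (nat_lit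 251) (nat_lit 208)) (XT.lf (nat_lit 0) (nat_lit 910412469) (nat_lit 152) (nat_lit 9141590000) (nat_lit 76) (nat_lit 124206011666) (nat_lit 3) (nat_lit 5) (nat_lit 5) (nat_lit 5) (nat_lit 4) (nat_lit 4) (nat_lit 322) (nat_lit 251) (nat_lit 207))))) (XT.nd (nat_lit 234) (nat_lit 0) (nat_lit 0) (XT.nd (nat_lit 78) (nat_lit 0) (nat_lit 0) (XT.lf (nat_lit 0) (nat_lit 3952784110) (nat_lit 76) (nat_lit 3359056969) (nat_lit 152) (nat_lit 137324943675) (nat_lit 2) (nat_lit 5) (nat_lit 3) (nat_lit 5) (nat_lit 4) (nat_lit 4) (nat_lit 323) (nat_lit 251) (nat_lit 206)) (XT.nd (nat_lit 78) (nat_lit 0) (nat_lit 0) (XT.lf (nat_lit 0) (nat_lit 14413770311) (nat_lit 152) (nat_lit 137545029641) (nat_lit 0) (nat_lit 3877646984) (nat_lit 2) (nat_lit 5) (nat_lit 4) (nat_lit 4) (nat_lit 2) (nat_lit 4) (nat_lit 324) (nat_lit 251) (nat_lit 205)) (XT.lf (nat_lit 0) (nat_lit 22109127269) (nat_lit 152) (nat_lit 134272010917)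 (nat_lit 0) (nat_lit 11549688785) (nat_lit 2) (nat_lit 5) (nat_lit 4) (nat_lit 4) (nat_lit 2) (nat_lit 4) (nat_lit 325) (nat_lit 251) (nat_lit 204)))) (XT.nd (nat_lit 78) (nat_lit 0) (nat_lit 0) (XT.lf (nat_lit 0) (nat_lit 30391069777) (nat_lit 152) (nat_lit 130793104513) (nat_lit 0) (nat_lit 19810043184) (nat_lit 2) (nat_lit 5) (nat_lit 4) (nat_lit 4) (nat_lit 2) (nat_lit 4) (nat_lit 326) (nat_lit 251) (nat_lit 203)) (XT.nd (nat_lit 78) (nat_lit 0) (nat_lit 0) (XT.lf (nat_lit 0) (nat_lit 39308676013) (nat_lit 152) (nat_lit 127087694687) (nat_lit 0) (nat_lit 28707660430) (nat_lit 2) (nat_lit 5) (nat_lit 4) (nat_lit 4) (nat_lit 2) (nat_lit 4) (nat_lit 327) (nat_lit 251) (nat_lit 202)) (XT.lf (nat_lit 0) (nat_lit 48914791049) (nat_lit 152) (nat_lit 123133823456) (nat_lit 0) (nat_lit 38295267142) (nat_lit 2) (nat_lit 5) (nat_lit 4) (nat_lit 4) (nat_lit 2) (nat_lit 4) (nat_lit 328) (nat_lit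 251) (nat_lit 201)))))) (XT.nd (nat_lit 390) (nat_lit 0) (nat_lit 0) (XT.nd (nat_lit 156) (nat_lit 0) (nat_lit 0) (XT.nd (nat_lit 78) (nat_lit 0) (nat_lit 0) (XT.lf (nat_lit 0) (nat_lit 59266340013) (nat_lit 152) (nat_lit 118908060472) (nat_lit 0) (nat_lit 48629678769) (nat_lit 2) (nat_lit 5) (nat_lit 4) (nat_lit 4) (nat_lit 2) (nat_lit 4) (nat_lit 329) (nat_lit 251) (nat_lit 200)) (XT.lf (nat_lit 0) (nat_lit 70424665417) (nat_lit 152) (nat_lit 114385364175) (nat_lit 0) (nat_lit 59772136269) (nat_lit 2) (nat_lit 5) (nat_lit 4) (nat_lit 4) (nat_lit 2) (nat_lit 4) (nat_lit 330) (nat_lit 251) (nat_lit 199))) (XT.nd (nat_lit 78) (nat_lit 0) (nat_lit 0) (XT.lf (nat_lit 0) (nat_lit 82455890671) (nat_lit 152) (nat_lit 109538933403) (nat_lit 0) (nat_lit 71788669018) (nat_lit 2) (nat_lit 5) (nat_lit 4) (nat_lit 4) (nat_lit 2) (nat_lit 4) (nat_lit 331) (nat_lit 251) (nat_lit 198)) (XT.nd (nat_lit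 78) (nat_lit 0) (nat_lit 0) (XT.lf (nat_lit 0) (nat_lit 95431311924) (nat_lit 152) (nat_lit 104340048565) (nat_lit 0) (nat_lit 84750486101) (nat_lit 2) (nat_lit 5) (nat_lit 4) (nat_lit 4) (nat_lit 2) (nat_lit 4) (nat_lit 332) (nat_lit 251) (nat_lit 197)) (XT.lf (nat_lit 0) (nat_lit 109427820561) (nat_lit 152) (nat_lit 98757901456) (nat_lit 0) (nat_lit 98734398284) (nat_lit 2) (nat_lit 5) (nat_lit 4) (nat_lit 4) (nat_lit 2) (nat_lit 4) (nat_lit 333) (nat_lit 251) (nat_lit 196))))) (XT.nd (nat_lit 234) (nat_lit 0) (nat_lit 0) (XT.nd (nat_lit 78) (nat_lit 0) (nat_lit 0) (XT.lf (nat_lit 0) (nat_lit 124528358857) (nat_lit 152) (nat_lit 92759412685) (nat_lit 0) (nat_lit 113823273196) (nat_lit 2) (nat_lit 5) (nat_lit 4) (nat_lit 4) (nat_lit 2) (nat_lit 4) (nat_lit 334) (nat_lit 251) (nat_lit 195)) (XT.nd (nat_lit 78) (nat_lit 0) (nat_lit 0) (XT.lf (nat_lit 0) (nat_lit 140822411482) (nat_lit 152)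 (nat_lit 86309035652) (nat_lit 0) (nat_lit 130106526391) (nat_lit 2) (nat_lit 5) (nat_lit 4) (nat_lit 4) (nat_lit 2) (nat_lit 4) (nat_lit 335) (nat_lit 251) (nat_lit 194)) (XT.lf (nat_lit 0) (nat_lit 158406535784) (nat_lit 152) (nat_lit 79368545901) (nat_lit 0) (nat_lit 147680651223) (nat_lit 2) (nat_lit 5) (nat_lit 4) (nat_lit 4) (nat_lit 2) (nat_lit 4) (nat_lit 336) (nat_lit 251) (nat_lit 193)))) (XT.nd (nat_lit 78) (nat_lit 0) (nat_lit 0) (XT.lf (nat_lit 0) (nat_lit 177384933984) (nat_lit 152) (nat_lit 71896814603) (nat_lit 0) (nat_lit 166649790652) (nat_lit 2) (nat_lit 5) (nat_lit 4) (nat_lit 4) (nat_lit 2) (nat_lit 4) (nat_lit 337) (nat_lit 251) (nat_lit 192)) (XT.nd (nat_lit 78) (nat_lit 0) (nat_lit 0) (XT.lf (nat_lit 0) (nat_lit 197870070661) (nat_lit 152) (nat_lit 63849564833) (nat_lit 0) (nat_lit 187126354394) (nat_lit 2) (nat_lit 5) (nat_lit 4) (nat_lit 4) (nat_lit 2) (nat_lit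 4) (nat_lit 338) (nat_lit 251) (nat_lit 191)) (XT.lf (nat_lit 0) (nat_lit 219983339219) (nat_lit 152) (nat_lit 55179109183) (nat_lit 0) (nat_lit 209231685049) (nat_lit 2) (nat_lit 5) (nat_lit 4) (nat_lit 4) (nat_lit 2) (nat_lit 4) (nat_lit 339) (nat_lit 251) (nat_lit 190))))))))
noncomputable def xc32 : XT := (XT.nd (nat_lit 36426) (nat_lit 0) (nat_lit 456) (XT.nd (nat_lit 780) (nat_lit 0) (nat_lit 0) (XT.nd (nat_lit 390) (nat_lit 76) (nat_lit 0) (XT.nd (nat_lit 156) (nat_lit 0) (nat_lit 0) (XT.nd (nat_lit 78) (nat_lit 0) (nat_lit 0) (XT.lf (nat_lit 0) (nat_lit 243855781249) (nat_lit 152) (nat_lit 45834067176) (nat_lit 0) (nat_lit 233096777169) (nat_lit 2) (nat_lit 5) (nat_lit 4) (nat_lit 4) (nat_lit 2) (nat_lit 4) (nat_lit 340) (nat_lit 251) (nat_lit 189)) (XT.lf (nat_lit 0) (nat_lit 269628863075) (nat_lit 152) (nat_lit 35759060787) (nat_lit 0) (nat_lit 258863053523) (nat_lit 2) (nat_lit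 5) (nat_lit 4) (nat_lit 4) (nat_lit 2) (nat_lit 4) (nat_lit 341) (nat_lit 251) (nat_lit 188))) (XT.nd (nat_lit 78) (nat_lit 0) (nat_lit 0) (XT.lf (nat_lit 0) (nat_lit 297455314070) (nat_lit 152) (nat_lit 24894386271) (nat_lit 0) (nat_lit 286683203154) (nat_lit 2) (nat_lit 5) (nat_lit 4) (nat_lit 4) (nat_lit 2) (nat_lit 4) (nat_lit 342) (nat_lit 251) (nat_lit 187)) (XT.nd (nat_lit 78) (nat_lit 0) (nat_lit 0) (XT.lf (nat_lit 0) (nat_lit 327500031721) (nat_lit 152) (nat_lit 13175660375) (nat_lit 0) (nat_lit 316722086210) (nat_lit 2) (nat_lit 5) (nat_lit 4) (nat_lit 4) (nat_lit 2) (nat_lit 4) (nat_lit 343) (nat_lit 251) (nat_lit 186)) (XT.lf (nat_lit 0) (nat_lit 359941058800) (nat_lit 152) (nat_lit 533438795) (nat_lit 0) (nat_lit 349157710885) (nat_lit 2) (nat_lit 5) (nat_lit 4) (nat_lit 4) (nat_lit 2) (nat_lit 4) (nat_lit 344) (nat_lit 251) (nat_lit 185))))) (XT.nd (nat_lit 156) (nat_lit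 0) (nat_lit 0) (XT.nd (nat_lit 78) (nat_lit 0) (nat_lit 0) (XT.lf (nat_lit 0) (nat_lit 13540578406) (nat_lit 76) (nat_lit 381641466399) (nat_lit 76) (nat_lit 370853116260) (nat_lit 1) (nat_lit 4) (nat_lit 2) (nat_lit 5) (nat_lit 2) (nat_lit 4) (nat_lit 345) (nat_lit 251) (nat_lit 184)) (XT.lf (nat_lit 0) (nat_lit 28747164189) (nat_lit 76) (nat_lit 404498012913) (nat_lit 76) (nat_lit 393705031083) (nat_lit 1) (nat_lit 4) (nat_lit 2) (nat_lit 5) (nat_lit 2) (nat_lit 4) (nat_lit 346) (nat_lit 251) (nat_lit 183))) (XT.nd (nat_lit 78) (nat_lit 0) (nat_lit 0) (XT.lf (nat_lit 0) (nat_lit 45158793756) (nat_lit 76) (nat_lit 429188617382) (nat_lit 76) (nat_lit 418391346950) (nat_lit 1) (nat_lit 4) (nat_lit 2) (nat_lit 5) (nat_lit 2) (nat_lit 4) (nat_lit 347) (nat_lit 251) (nat_lit 182)) (XT.nd (nat_lit 78) (nat_lit 0) (nat_lit 0) (XT.lf (nat_lit 0) (nat_lit 62872721209) (nat_lit 76) (nat_lit 455859594499)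 (nat_lit 76) (nat_lit 445058353140) (nat_lit 1) (nat_lit 4) (nat_lit 2) (nat_lit 5) (nat_lit 2) (nat_lit 4) (nat_lit 348) (nat_lit 251) (nat_lit 181)) (XT.lf (nat_lit 0) (nat_lit 81993917971) (nat_lit 76) (nat_lit 484668994500) (nat_lit 76) (nat_lit 473864076356) (nat_lit 1) (nat_lit 4) (nat_lit 2) (nat_lit 5) (nat_lit 2) (nat_lit 4) (nat_lit 349) (nat_lit 251) (nat_lit 180)))))) (XT.nd (nat_lit 35178) (nat_lit 0) (nat_lit 2280) (XT.nd (nat_lit 34944) (nat_lit 0) (nat_lit 3496) (XT.nd (nat_lit 34866) (nat_lit 0) (nat_lit 4332) (XT.lf (nat_lit 0) (nat_lit 102635694835) (nat_lit 76) (nat_lit 515787539755) (nat_lit 76) (nat_lit 504979217181) (nat_lit 1) (nat_lit 4) (nat_lit 2) (nat_lit 5) (nat_lit 2) (nat_lit 4) (nat_lit 350) (nat_lit 251) (nat_lit 179)) (XT.lf (nat_lit 0) (nat_lit 278162481) (nat_lit 304) (nat_lit 3688425472) (nat_lit 0) (nat_lit 278162481) (nat_lit 58) (nat_lit 5) (nat_lit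 62) (nat_lit 4) (nat_lit 58) (nat_lit 4) (nat_lit 276) (nat_lit 252) (nat_lit 252))) (XT.nd (nat_lit 78) (nat_lit 608) (nat_lit 0) (XT.lf (nat_lit 0) (nat_lit 2561454639) (nat_lit 228) (nat_lit 3925006461) (nat_lit 228) (nat_lit 2288130564) (nat_lit 55) (nat_lit 4) (nat_lit 58) (nat_lit 5) (nat_lit 58) (nat_lit 4) (nat_lit 277) (nat_lit 252) (nat_lit 251)) (XT.nd (nat_lit 78) (nat_lit 304) (nat_lit 0) (XT.lf (nat_lit 0) (nat_lit 3501693193) (nat_lit 304) (nat_lit 5088288495) (nat_lit 0) (nat_lit 499310596) (nat_lit 51) (nat_lit 5) (nat_lit 55) (nat_lit 4) (nat_lit 51) (nat_lit 4) (nat_lit 278) (nat_lit 252) (nat_lit 250)) (XT.lf (nat_lit 0) (nat_lit 130106149) (nat_lit 304) (nat_lit 4072195705) (nat_lit 76) (nat_lit 5230726491) (nat_lit 47) (nat_lit 5) (nat_lit 51) (nat_lit 5) (nat_lit 48) (nat_lit 4) (nat_lit 279) (nat_lit 252) (nat_lit 249))))) (XT.nd (nat_lit 234) (nat_lit 608) (nat_lit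 0) (XT.nd (nat_lit 78) (nat_lit 456) (nat_lit 0) (XT.lf (nat_lit 0) (nat_lit 5961221067) (nat_lit 228) (nat_lit 3195982393) (nat_lit 0) (nat_lit 650324161) (nat_lit 45) (nat_lit 5) (nat_lit 48) (nat_lit 4) (nat_lit 45) (nat_lit 4) (nat_lit 280) (nat_lit 252) (nat_lit 248)) (XT.nd (nat_lit 78) (nat_lit 152) (nat_lit 0) (XT.lf (nat_lit 0) (nat_lit 1904782423) (nat_lit 304) (nat_lit 2497387859) (nat_lit 76) (nat_lit 5812426970) (nat_lit 41) (nat_lit 5) (nat_lit 45) (nat_lit 5) (nat_lit 42) (nat_lit 4) (nat_lit 281) (nat_lit 252) (nat_lit 247)) (XT.lf (nat_lit 0) (nat_lit 7860892601) (nat_lit 228) (nat_lit 1995329610) (nat_lit 0) (nat_lit 801225852) (nat_lit 39) (nat_lit 5) (nat_lit 42) (nat_lit 4) (nat_lit 39) (nat_lit 4) (nat_lit 282) (nat_lit 252) (nat_lit 246)))) (XT.nd (nat_lit 78) (nat_lit 380) (nat_lit 0) (XT.lf (nat_lit 0) (nat_lit 3007835283) (nat_lit 228) (nat_lit 1784661083) (nat_lit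 76) (nat_lit 6343519681) (nat_lit 36) (nat_lit 5) (nat_lit 39) (nat_lit 5) (nat_lit 37) (nat_lit 4) (nat_lit 283) (nat_lit 252) (nat_lit 245)) (XT.nd (nat_lit 78) (nat_lit 228) (nat_lit 0) (XT.lf (nat_lit 0) (nat_lit 9077645631) (nat_lit 228) (nat_lit 1858503523) (nat_lit 0) (nat_lit 719763837) (nat_lit 34) (nat_lit 5) (nat_lit 37) (nat_lit 4) (nat_lit 34) (nat_lit 4) (nat_lit 284) (nat_lit 252) (nat_lit 244)) (XT.lf (nat_lit 0) (nat_lit 3283031987) (nat_lit 228) (nat_lit 2355225715) (nat_lit 76) (nat_lit 6577895909) (nat_lit 31) (nat_lit 5) (nat_lit 34) (nat_lit 5) (nat_lit 32) (nat_lit 4) (nat_lit 285) (nat_lit 252) (nat_lit 243))))))) (XT.nd (nat_lit 858) (nat_lit 532) (nat_lit 0) (XT.nd (nat_lit 390) (nat_lit 532) (nat_lit 0) (XT.nd (nat_lit 156) (nat_lit 380) (nat_lit 0) (XT.nd (nat_lit 78) (nat_lit 228) (nat_lit 0) (XT.lf (nat_lit 0) (nat_lit 9428263017) (nat_lit 228) (nat_lit 3261929536)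 (nat_lit 0) (nat_lit 133874932) (nat_lit 29) (nat_lit 5) (nat_lit 32) (nat_lit 4) (nat_lit 29) (nat_lit 4) (nat_lit 286) (nat_lit 252) (nat_lit 242)) (XT.lf (nat_lit 0) (nat_lit 2506206859) (nat_lit 228) (nat_lit 4750725927) (nat_lit 76) (nat_lit 6221650101) (nat_lit 26) (nat_lit 5) (nat_lit 29) (nat_lit 5) (nat_lit 27) (nat_lit 4) (nat_lit 287) (nat_lit 252) (nat_lit 241))) (XT.nd (nat_lit 78) (nat_lit 304) (nat_lit 0) (XT.lf (nat_lit 0) (nat_lit 7345396500) (nat_lit 76) (nat_lit 1329678529) (nat_lit 152) (nat_lit 5512109691) (nat_lit 25) (nat_lit 5) (nat_lit 26) (nat_lit 5) (nat_lit 27) (nat_lit 4) (nat_lit 288) (nat_lit 252) (nat_lit 240)) (XT.nd (nat_lit 78) (nat_lit 76) (nat_lit 0) (XT.lf (nat_lit 0) (nat_lit 367827598) (nat_lit 228) (nat_lit 9672448320) (nat_lit 76) (nat_lit 4912309048) (nat_lit 22) (nat_lit 5) (nat_lit 25) (nat_lit 5) (nat_lit 23) (nat_lit 4) (nat_lit 289) (nat_lit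 252) (nat_lit 239)) (XT.lf (nat_lit 0) (nat_lit 2379546302) (nat_lit 76) (nat_lit 4086390400) (nat_lit 152) (nat_lit 9311874513) (nat_lit 21) (nat_lit 5) (nat_lit 22) (nat_lit 5) (nat_lit 23) (nat_lit 4) (nat_lit 290) (nat_lit 252) (nat_lit 238))))) (XT.nd (nat_lit 234) (nat_lit 228) (nat_lit 0) (XT.nd (nat_lit 78) (nat_lit 304) (nat_lit 0) (XT.lf (nat_lit 0) (nat_lit 13026292789) (nat_lit 152) (nat_lit 1371689720) (nat_lit 0) (nat_lit 2272498348) (nat_lit 21) (nat_lit 5) (nat_lit 23) (nat_lit 4) (nat_lit 21) (nat_lit 4) (nat_lit 291) (nat_lit 252) (nat_lit 237)) (XT.nd (nat_lit 78) (nat_lit 76) (nat_lit 0) (XT.lf (nat_lit 0) (nat_lit 2430890981) (nat_lit 228) (nat_lit 6137187701) (nat_lit 76) (nat_lit 9063017136) (nat_lit 18) (nat_lit 5) (nat_lit 21) (nat_lit 5) (nat_lit 19) (nat_lit 4) (nat_lit 292) (nat_lit 252) (nat_lit 236)) (XT.lf (nat_lit 0) (nat_lit 6545369505) (nat_lit 76) (nat_lit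 2237771501) (nat_lit 152) (nat_lit 9886608529) (nat_lit 17) (nat_lit 5) (nat_lit 18) (nat_lit 5) (nat_lit 19) (nat_lit 4) (nat_lit 293) (nat_lit 252) (nat_lit 235)))) (XT.nd (nat_lit 78) (nat_lit 152) (nat_lit 0) (XT.lf (nat_lit 0) (nat_lit 245761062) (nat_lit 76) (nat_lit 15380252805) (nat_lit 76) (nat_lit 4166469321) (nat_lit 16) (nat_lit 4) (nat_lit 17) (nat_lit 5) (nat_lit 17) (nat_lit 4) (nat_lit 294) (nat_lit 252) (nat_lit 234)) (XT.nd (nat_lit 78) (nat_lit 76) (nat_lit 0) (XT.lf (nat_lit 0) (nat_lit 2003709624) (nat_lit 152) (nat_lit 7383430162) (nat_lit 76) (nat_lit 11613582358) (nat_lit 15) (nat_lit 5) (nat_lit 17) (nat_lit 5) (nat_lit 16) (nat_lit 4) (nat_lit 295) (nat_lit 252) (nat_lit 233)) (XT.lf (nat_lit 0) (nat_lit 5531157274) (nat_lit 76) (nat_lit 2897577572) (nat_lit 152) (nat_lit 13878199631) (nat_lit 14) (nat_lit 5) (nat_lit 15) (nat_lit 5) (nat_lit 16) (nat_lit 4) (nat_lit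 296) (nat_lit 252) (nat_lit 232)))))) (XT.nd (nat_lit 390) (nat_lit 304) (nat_lit 0) (XT.nd (nat_lit 156) (nat_lit 152) (nat_lit 0) (XT.nd (nat_lit 78) (nat_lit 76) (nat_lit 0) (XT.lf (nat_lit 0) (nat_lit 15387864653) (nat_lit 152) (nat_lit 4355704317) (nat_lit 0) (nat_lit 3973152694) (nat_lit 14) (nat_lit 5) (nat_lit 16) (nat_lit 4) (nat_lit 14) (nat_lit 4) (nat_lit 297) (nat_lit 252) (nat_lit 231)) (XT.lf (nat_lit 0) (nat_lit 9000170328) (nat_lit 76) (nat_lit 13931072493) (nat_lit 76) (nat_lit 2306749954) (nat_lit 13) (nat_lit 4) (nat_lit 14) (nat_lit 5) (nat_lit 14) (nat_lit 4) (nat_lit 298) (nat_lit 252) (nat_lit 230))) (XT.nd (nat_lit 78) (nat_lit 76) (nat_lit 0) (XT.lf (nat_lit 0) (nat_lit 3983005920) (nat_lit 152) (nat_lit 3653244270) (nat_lit 76) (nat_lit 19245495983) (nat_lit 12) (nat_lit 5) (nat_lit 14) (nat_lit 5) (nat_lit 13) (nat_lit 4) (nat_lit 299) (nat_lit 252) (nat_lit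 229)) (XT.nd (nat_lit 78) (nat_lit 0) (nat_lit 0) (XT.lf (nat_lit 0) (nat_lit 9949736179) (nat_lit 76) (nat_lit 756532051) (nat_lit 152) (nat_lit 17948346420) (nat_lit 11) (nat_lit 5) (nat_lit 12) (nat_lit 5) (nat_lit 13) (nat_lit 4) (nat_lit 300) (nat_lit 252) (nat_lit 228)) (XT.lf (nat_lit 0) (nat_lit 17995906247) (nat_lit 152) (nat_lit 6161379456) (nat_lit 0) (nat_lit 6410659267) (nat_lit 11) (nat_lit 5) (nat_lit 13) (nat_lit 4) (nat_lit 11) (nat_lit 4) (nat_lit 301) (nat_lit 252) (nat_lit 227))))) (XT.nd (nat_lit 234) (nat_lit 76) (nat_lit 0) (XT.nd (nat_lit 78) (nat_lit 152) (nat_lit 0) (XT.lf (nat_lit 0) (nat_lit 7366559922) (nat_lit 76) (nat_lit 18499962781) (nat_lit 76) (nat_lit 6767982436) (nat_lit 10) (nat_lit 4) (nat_lit 11) (nat_lit 5) (nat_lit 11) (nat_lit 4) (nat_lit 302) (nat_lit 252) (nat_lit 226)) (XT.nd (nat_lit 78) (nat_lit 152) (nat_lit 0) (XT.lf (nat_lit 0) (nat_lit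 21965215944) (nat_lit 76) (nat_lit 12384949848) (nat_lit 76) (nat_lit 517105277) (nat_lit 10) (nat_lit 4) (nat_lit 11) (nat_lit 5) (nat_lit 11) (nat_lit 4) (nat_lit 303) (nat_lit 252) (nat_lit 225)) (XT.lf (nat_lit 0) (nat_lit 142033705) (nat_lit 76) (nat_lit 5777809458) (nat_lit 152) (nat_lit 31359716497) (nat_lit 8) (nat_lit 5) (nat_lit 9) (nat_lit 5) (nat_lit 10) (nat_lit 4) (nat_lit 304) (nat_lit 252) (nat_lit 224)))) (XT.nd (nat_lit 78) (nat_lit 76) (nat_lit 0) (XT.lf (nat_lit 0) (nat_lit 12990670641) (nat_lit 152) (nat_lit 25429708641) (nat_lit 0) (nat_lit 1457216873) (nat_lit 8) (nat_lit 5) (nat_lit 10) (nat_lit 4) (nat_lit 8) (nat_lit 4) (nat_lit 305) (nat_lit 252) (nat_lit 223)) (XT.nd (nat_lit 78) (nat_lit 76) (nat_lit 0) (XT.lf (nat_lit 0) (nat_lit 20620114034) (nat_lit 152) (nat_lit 13079808967) (nat_lit 0) (nat_lit 8983942739) (nat_lit 8) (nat_lit 5) (nat_lit 10) (nat_lit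 4) (nat_lit 8) (nat_lit 4) (nat_lit 306) (nat_lit 252) (nat_lit 222)) (XT.lf (nat_lit 0) (nat_lit 78063987) (nat_lit 76) (nat_lit 28686331871) (nat_lit 76) (nat_lit 16955051755) (nat_lit 7) (nat_lit 4) (nat_lit 8) (nat_lit 5) (nat_lit 8) (nat_lit 4) (nat_lit 307) (nat_lit 252) (nat_lit 221))))))))
noncomputable def xc33 : XT := (XT.nd (nat_lit 1638) (nat_lit 76) (nat_lit 0) (XT.nd (nat_lit 780) (nat_lit 152) (nat_lit 0) (XT.nd (nat_lit 390) (nat_lit 76) (nat_lit 0) (XT.nd (nat_lit 156) (nat_lit 152) (nat_lit 0) (XT.nd (nat_lit 78) (nat_lit 0) (nat_lit 0) (XT.lf (nat_lit 0) (nat_lit 14581057288) (nat_lit 76) (nat_lit 23114708792) (nat_lit 76) (nat_lit 11295364952) (nat_lit 7) (nat_lit 4) (nat_lit 8) (nat_lit 5) (nat_lit 8) (nat_lit 4) (nat_lit 308) (nat_lit 252) (nat_lit 220)) (XT.lf (nat_lit 0) (nat_lit 30082637042) (nat_lit 76) (nat_lit 17173549631) (nat_lit 76) (nat_lit 5272665307) (nat_lit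 7) (nat_lit 4) (nat_lit 8) (nat_lit 5) (nat_lit 8) (nat_lit 4) (nat_lit 309) (nat_lit 252) (nat_lit 219))) (XT.nd (nat_lit 78) (nat_lit 76) (nat_lit 0) (XT.lf (nat_lit 0) (nat_lit 1111970486) (nat_lit 152) (nat_lit 9696845274) (nat_lit 76) (nat_lit 45543862219) (nat_lit 6) (nat_lit 5) (nat_lit 8) (nat_lit 5) (nat_lit 7) (nat_lit 4) (nat_lit 310) (nat_lit 252) (nat_lit 218)) (XT.nd (nat_lit 78) (nat_lit 0) (nat_lit 0) (XT.lf (nat_lit 0) (nat_lit 3969538309) (nat_lit 76) (nat_lit 3843062132) (nat_lit 152) (nat_lit 52666014582) (nat_lit 5) (nat_lit 5) (nat_lit 6) (nat_lit 5) (nat_lit 7) (nat_lit 4) (nat_lit 311) (nat_lit 252) (nat_lit 217)) (XT.lf (nat_lit 0) (nat_lit 15206337560) (nat_lit 152) (nat_lit 46048428397) (nat_lit 0) (nat_lit 3672030835) (nat_lit 5) (nat_lit 5) (nat_lit 7) (nat_lit 4) (nat_lit 5) (nat_lit 4) (nat_lit 312) (nat_lit 252) (nat_lit 216))))) (XT.nd (nat_lit 156) (nat_lit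 76) (nat_lit 0) (XT.nd (nat_lit 78) (nat_lit 0) (nat_lit 0) (XT.lf (nat_lit 0) (nat_lit 23189634470) (nat_lit 152) (nat_lit 34943069431) (nat_lit 0) (nat_lit 11598247087) (nat_lit 5) (nat_lit 5) (nat_lit 7) (nat_lit 4) (nat_lit 5) (nat_lit 4) (nat_lit 313) (nat_lit 252) (nat_lit 215)) (XT.lf (nat_lit 0) (nat_lit 31749798628) (nat_lit 152) (nat_lit 23067189310) (nat_lit 0) (nat_lit 20105558785) (nat_lit 5) (nat_lit 5) (nat_lit 7) (nat_lit 4) (nat_lit 5) (nat_lit 4) (nat_lit 314) (nat_lit 252) (nat_lit 214))) (XT.nd (nat_lit 78) (nat_lit 76) (nat_lit 0) (XT.lf (nat_lit 0) (nat_lit 40937556933) (nat_lit 152) (nat_lit 10350412449) (nat_lit 0) (nat_lit 29244379626) (nat_lit 5) (nat_lit 5) (nat_lit 7) (nat_lit 4) (nat_lit 5) (nat_lit 4) (nat_lit 315) (nat_lit 252) (nat_lit 213)) (XT.nd (nat_lit 78) (nat_lit 0) (nat_lit 0) (XT.lf (nat_lit 0) (nat_lit 3391158065) (nat_lit 76) (nat_lit 47469142774)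 (nat_lit 76) (nat_lit 35730653001) (nat_lit 4) (nat_lit 4) (nat_lit 5) (nat_lit 5) (nat_lit 5) (nat_lit 4) (nat_lit 316) (nat_lit 252) (nat_lit 212)) (XT.lf (nat_lit 0) (nat_lit 18504970487) (nat_lit 76) (nat_lit 43201625563) (nat_lit 76) (nat_lit 31421179802) (nat_lit 4) (nat_lit 4) (nat_lit 5) (nat_lit 5) (nat_lit 5) (nat_lit 4) (nat_lit 317) (nat_lit 252) (nat_lit 211)))))) (XT.nd (nat_lit 390) (nat_lit 152) (nat_lit 0) (XT.nd (nat_lit 156) (nat_lit 0) (nat_lit 0) (XT.nd (nat_lit 78) (nat_lit 0) (nat_lit 0) (XT.lf (nat_lit 0) (nat_lit 34738356768) (nat_lit 76) (nat_lit 38635418001) (nat_lit 76) (nat_lit 26816124104) (nat_lit 4) (nat_lit 4) (nat_lit 5) (nat_lit 5) (nat_lit 5) (nat_lit 4) (nat_lit 318) (nat_lit 252) (nat_lit 210)) (XT.lf (nat_lit 0) (nat_lit 52187514753) (nat_lit 76) (nat_lit 33743461081) (nat_lit 76) (nat_lit 21888196687) (nat_lit 4) (nat_lit 4) (nat_lit 5) (nat_lit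 5) (nat_lit 5) (nat_lit 4) (nat_lit 319) (nat_lit 252) (nat_lit 209))) (XT.nd (nat_lit 78) (nat_lit 0) (nat_lit 0) (XT.lf (nat_lit 0) (nat_lit 70955846859) (nat_lit 76) (nat_lit 28496765428) (nat_lit 76) (nat_lit 16608195019) (nat_lit 4) (nat_lit 4) (nat_lit 5) (nat_lit 5) (nat_lit 5) (nat_lit 4) (nat_lit 320) (nat_lit 252) (nat_lit 208)) (XT.nd (nat_lit 78) (nat_lit 0) (nat_lit 0) (XT.lf (nat_lit 0) (nat_lit 91154572834) (nat_lit 76) (nat_lit 22864239512) (nat_lit 76) (nat_lit 10944830200) (nat_lit 4) (nat_lit 4) (nat_lit 5) (nat_lit 5) (nat_lit 5) (nat_lit 4) (nat_lit 321) (nat_lit 252) (nat_lit 207)) (XT.lf (nat_lit 0) (nat_lit 112903388830) (nat_lit 76) (nat_lit 16812505402) (nat_lit 76) (nat_lit 4864541550) (nat_lit 4) (nat_lit 4) (nat_lit 5) (nat_lit 5) (nat_lit 5) (nat_lit 4) (nat_lit 322) (nat_lit 252) (nat_lit 206))))) (XT.nd (nat_lit 234) (nat_lit 0) (nat_lit 0) (XT.nd (nat_lit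 78) (nat_lit 76) (nat_lit 0) (XT.lf (nat_lit 0) (nat_lit 1615293376) (nat_lit 152) (nat_lit 8663051819) (nat_lit 76) (nat_lit 134688527569) (nat_lit 3) (nat_lit 5) (nat_lit 5) (nat_lit 5) (nat_lit 4) (nat_lit 4) (nat_lit 323) (nat_lit 252) (nat_lit 205)) (XT.nd (nat_lit 78) (nat_lit 0) (nat_lit 0) (XT.lf (nat_lit 0) (nat_lit 5426292945) (nat_lit 76) (nat_lit 3073793445) (nat_lit 152) (nat_lit 147677309476) (nat_lit 2) (nat_lit 5) (nat_lit 3) (nat_lit 5) (nat_lit 4) (nat_lit 4) (nat_lit 324) (nat_lit 252) (nat_lit 204)) (XT.lf (nat_lit 0) (nat_lit 16133489835) (nat_lit 152) (nat_lit 147456994543) (nat_lit 0) (nat_lit 4684393005) (nat_lit 2) (nat_lit 5) (nat_lit 4) (nat_lit 4) (nat_lit 2) (nat_lit 4) (nat_lit 325) (nat_lit 252) (nat_lit 203)))) (XT.nd (nat_lit 78) (nat_lit 0) (nat_lit 0) (XT.lf (nat_lit 0) (nat_lit 24402503654) (nat_lit 152) (nat_lit 144002996355) (nat_lit 0) (nat_lit 12933417834)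 (nat_lit 2) (nat_lit 5) (nat_lit 4) (nat_lit 4) (nat_lit 2) (nat_lit 4) (nat_lit 326) (nat_lit 252) (nat_lit 202)) (XT.nd (nat_lit 78) (nat_lit 0) (nat_lit 0) (XT.lf (nat_lit 0) (nat_lit 33308138881) (nat_lit 152) (nat_lit 140320649694) (nat_lit 0) (nat_lit 21820544737) (nat_lit 2) (nat_lit 5) (nat_lit 4) (nat_lit 4) (nat_lit 2) (nat_lit 4) (nat_lit 327) (nat_lit 252) (nat_lit 201)) (XT.lf (nat_lit 0) (nat_lit 42903169650) (nat_lit 152) (nat_lit 136388133244) (nat_lit 0) (nat_lit 31398438170) (nat_lit 2) (nat_lit 5) (nat_lit 4) (nat_lit 4) (nat_lit 2) (nat_lit 4) (nat_lit 328) (nat_lit 252) (nat_lit 200))))))) (XT.nd (nat_lit 858) (nat_lit 76) (nat_lit 0) (XT.nd (nat_lit 390) (nat_lit 0) (nat_lit 0) (XT.nd (nat_lit 156) (nat_lit 0) (nat_lit 0) (XT.nd (nat_lit 78) (nat_lit 0) (nat_lit 0) (XT.lf (nat_lit 0) (nat_lit 53244455404) (nat_lit 152) (nat_lit 132182143204) (nat_lit 0) (nat_lit 41723856019)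 (nat_lit 2) (nat_lit 5) (nat_lit 4) (nat_lit 4) (nat_lit 2) (nat_lit 4) (nat_lit 329) (nat_lit 252) (nat_lit 199)) (XT.lf (nat_lit 0) (nat_lit 64393277836) (nat_lit 152) (nat_lit 127677755190) (nat_lit 0) (nat_lit 52857985947) (nat_lit 2) (nat_lit 5) (nat_lit 4) (nat_lit 4) (nat_lit 2) (nat_lit 4) (nat_lit 330) (nat_lit 252) (nat_lit 198))) (XT.nd (nat_lit 78) (nat_lit 0) (nat_lit 0) (XT.lf (nat_lit 0) (nat_lit 76415704041) (nat_lit 152) (nat_lit 122848276532) (nat_lit 0) (nat_lit 64866807981) (nat_lit 2) (nat_lit 5) (nat_lit 4) (nat_lit 4) (nat_lit 2) (nat_lit 4) (nat_lit 331) (nat_lit 252) (nat_lit 197)) (XT.nd (nat_lit 78) (nat_lit 0) (nat_lit 0) (XT.lf (nat_lit 0) (nat_lit 89382978027) (nat_lit 152) (nat_lit 117665088096) (nat_lit 0) (nat_lit 77821485513) (nat_lit 2) (nat_lit 5) (nat_lit 4) (nat_lit 4) (nat_lit 2) (nat_lit 4) (nat_lit 332) (nat_lit 252) (nat_lit 196)) (XT.lf (nat_lit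 0) (nat_lit 103371942898) (nat_lit 152) (nat_lit 112097474692) (nat_lit 0) (nat_lit 91798787001) (nat_lit 2) (nat_lit 5) (nat_lit 4) (nat_lit 4) (nat_lit 2) (nat_lit 4) (nat_lit 333) (nat_lit 252) (nat_lit 195))))) (XT.nd (nat_lit 234) (nat_lit 0) (nat_lit 0) (XT.nd (nat_lit 78) (nat_lit 0) (nat_lit 0) (XT.lf (nat_lit 0) (nat_lit 118465496225) (nat_lit 152) (nat_lit 106112443056) (nat_lit 0) (nat_lit 106881540898) (nat_lit 2) (nat_lit 5) (nat_lit 4) (nat_lit 4) (nat_lit 2) (nat_lit 4) (nat_lit 334) (nat_lit 252) (nat_lit 194)) (XT.nd (nat_lit 78) (nat_lit 0) (nat_lit 0) (XT.lf (nat_lit 0) (nat_lit 134753081287) (nat_lit 152) (nat_lit 99674526333) (nat_lit 0) (nat_lit 123159126488) (nat_lit 2) (nat_lit 5) (nat_lit 4) (nat_lit 4) (nat_lit 2) (nat_lit 4) (nat_lit 335) (nat_lit 252) (nat_lit 193)) (XT.lf (nat_lit 0) (nat_lit 152331217105) (nat_lit 152) (nat_lit 92745573905) (nat_lit 0) (nat_lit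 140728003537) (nat_lit 2) (nat_lit 5) (nat_lit 4) (nat_lit 4) (nat_lit 2) (nat_lit 4) (nat_lit 336) (nat_lit 252) (nat_lit 192)))) (XT.nd (nat_lit 78) (nat_lit 0) (nat_lit 0) (XT.lf (nat_lit 0) (nat_lit 171304070411) (nat_lit 152) (nat_lit 85284525315) (nat_lit 0) (nat_lit 159692283907) (nat_lit 2) (nat_lit 5) (nat_lit 4) (nat_lit 4) (nat_lit 2) (nat_lit 4) (nat_lit 337) (nat_lit 252) (nat_lit 191)) (XT.nd (nat_lit 78) (nat_lit 0) (nat_lit 0) (XT.lf (nat_lit 0) (nat_lit 191784072928) (nat_lit 152) (nat_lit 77247166940) (nat_lit 0) (nat_lit 180164348522) (nat_lit 2) (nat_lit 5) (nat_lit 4) (nat_lit 4) (nat_lit 2) (nat_lit 4) (nat_lit 338) (nat_lit 252) (nat_lit 190)) (XT.lf (nat_lit 0) (nat_lit 213892587634) (nat_lit 152) (nat_lit 68585869990) (nat_lit 0) (nat_lit 202265513318) (nat_lit 2) (nat_lit 5) (nat_lit 4) (nat_lit 4) (nat_lit 2) (nat_lit 4) (nat_lit 339) (nat_lit 252) (nat_lit 189))))))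 (XT.nd (nat_lit 390) (nat_lit 76) (nat_lit 0) (XT.nd (nat_lit 156) (nat_lit 0) (nat_lit 0) (XT.nd (nat_lit 78) (nat_lit 0) (nat_lit 0) (XT.lf (nat_lit 0) (nat_lit 237760627949) (nat_lit 152) (nat_lit 59249308260) (nat_lit 0) (nat_lit 226126748161) (nat_lit 2) (nat_lit 5) (nat_lit 4) (nat_lit 4) (nat_lit 2) (nat_lit 4) (nat_lit 340) (nat_lit 252) (nat_lit 188)) (XT.lf (nat_lit 0) (nat_lit 263529634113) (nat_lit 152) (nat_lit 49182153979) (nat_lit 0) (nat_lit 251889452961) (nat_lit 2) (nat_lit 5) (nat_lit 4) (nat_lit 4) (nat_lit 2) (nat_lit 4) (nat_lit 341) (nat_lit 252) (nat_lit 187))) (XT.nd (nat_lit 78) (nat_lit 0) (nat_lit 0) (XT.lf (nat_lit 0) (nat_lit 291352311346) (nat_lit 152) (nat_lit 38324749935) (nat_lit 0) (nat_lit 279706295599) (nat_lit 2) (nat_lit 5) (nat_lit 4) (nat_lit 4) (nat_lit 2) (nat_lit 4) (nat_lit 342) (nat_lit 252) (nat_lit 186)) (XT.nd (nat_lit 78) (nat_lit 0) (nat_lit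 0) (XT.lf (nat_lit 0) (nat_lit 321393534774) (nat_lit 152) (nat_lit 26612755956) (nat_lit 0) (nat_lit 309742116624) (nat_lit 2) (nat_lit 5) (nat_lit 4) (nat_lit 4) (nat_lit 2) (nat_lit 4) (nat_lit 343) (nat_lit 252) (nat_lit 185)) (XT.lf (nat_lit 0) (nat_lit 353831326461) (nat_lit 152) (nat_lit 13976767634) (nat_lit 0) (nat_lit 342174906085) (nat_lit 2) (nat_lit 5) (nat_lit 4) (nat_lit 4) (nat_lit 2) (nat_lit 4) (nat_lit 344) (nat_lit 252) (nat_lit 184))))) (XT.nd (nat_lit 234) (nat_lit 0) (nat_lit 0) (XT.nd (nat_lit 78) (nat_lit 76) (nat_lit 0) (XT.lf (nat_lit 0) (nat_lit 388857910358) (nat_lit 152) (nat_lit 341905037) (nat_lit 0) (nat_lit 377196858292) (nat_lit 2) (nat_lit 5) (nat_lit 4) (nat_lit 4) (nat_lit 2) (nat_lit 4) (nat_lit 345) (nat_lit 252) (nat_lit 183)) (XT.nd (nat_lit 78) (nat_lit 0) (nat_lit 0) (XT.lf (nat_lit 0) (nat_lit 14847855110) (nat_lit 76) (nat_lit 412064812926)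 (nat_lit 76) (nat_lit 400399472258) (nat_lit 1) (nat_lit 4) (nat_lit 2) (nat_lit 5) (nat_lit 2) (nat_lit 4) (nat_lit 346) (nat_lit 252) (nat_lit 182)) (XT.lf (nat_lit 0) (nat_lit 31254372908) (nat_lit 76) (nat_lit 436757880997) (nat_lit 76) (nat_lit 425088569401) (nat_lit 1) (nat_lit 4) (nat_lit 2) (nat_lit 5) (nat_lit 2) (nat_lit 4) (nat_lit 347) (nat_lit 252) (nat_lit 181)))) (XT.nd (nat_lit 78) (nat_lit 0) (nat_lit 0) (XT.lf (nat_lit 0) (nat_lit 48963567242) (nat_lit 76) (nat_lit 463431139227) (nat_lit 76) (nat_lit 451758150846) (nat_lit 1) (nat_lit 4) (nat_lit 2) (nat_lit 5) (nat_lit 2) (nat_lit 4) (nat_lit 348) (nat_lit 252) (nat_lit 180)) (XT.nd (nat_lit 78) (nat_lit 0) (nat_lit 0) (XT.lf (nat_lit 0) (nat_lit 68080381485) (nat_lit 76) (nat_lit 492242651369) (nat_lit 76) (nat_lit 480566258558) (nat_lit 1) (nat_lit 4) (nat_lit 2) (nat_lit 5) (nat_lit 2) (nat_lit 4) (nat_lit 349) (nat_lit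 252) (nat_lit 179)) (XT.lf (nat_lit 0) (nat_lit 88718100463) (nat_lit 76) (nat_lit 523363152310) (nat_lit 76) (nat_lit 511683607248) (nat_lit 1) (nat_lit 4) (nat_lit 2) (nat_lit 5) (nat_lit 2) (nat_lit 4) (nat_lit 350) (nat_lit 252) (nat_lit 178))))))))
noncomputable def xc34 : XT := (XT.nd (nat_lit 1638) (nat_lit 912) (nat_lit 0) (XT.nd (nat_lit 780) (nat_lit 1444) (nat_lit 0) (XT.nd (nat_lit 390) (nat_lit 1140) (nat_lit 0) (XT.nd (nat_lit 156) (nat_lit 1140) (nat_lit 0) (XT.nd (nat_lit 78) (nat_lit 380) (nat_lit 0) (XT.lf (nat_lit 0) (nat_lit 3214849693) (nat_lit 304) (nat_lit 388940860) (nat_lit 304) (nat_lit 388940860) (nat_lit 71) (nat_lit 4) (nat_lit 75) (nat_lit 5) (nat_lit 75) (nat_lit 4) (nat_lit 274) (nat_lit 253) (nat_lit 253)) (XT.lf (nat_lit 0) (nat_lit 4849234996) (nat_lit 380) (nat_lit 386420703) (nat_lit 0) (nat_lit 2993017729) (nat_lit 66) (nat_lit 5) (nat_lit 71) (nat_lit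 4) (nat_lit 66) (nat_lit 4) (nat_lit 275) (nat_lit 253) (nat_lit 252))) (XT.nd (nat_lit 78) (nat_lit 532) (nat_lit 0) (XT.lf (nat_lit 0) (nat_lit 836544220) (nat_lit 228) (nat_lit 1315397818) (nat_lit 304) (nat_lit 6346457797) (nat_lit 58) (nat_lit 5) (nat_lit 61) (nat_lit 5) (nat_lit 62) (nat_lit 4) (nat_lit 276) (nat_lit 253) (nat_lit 251)) (XT.nd (nat_lit 78) (nat_lit 304) (nat_lit 0) (XT.lf (nat_lit 0) (nat_lit 2035268339) (nat_lit 228) (nat_lit 5839589084) (nat_lit 228) (nat_lit 919261388) (nat_lit 55) (nat_lit 4) (nat_lit 58) (nat_lit 5) (nat_lit 58) (nat_lit 4) (nat_lit 277) (nat_lit 253) (nat_lit 250)) (XT.lf (nat_lit 0) (nat_lit 3175528321) (nat_lit 228) (nat_lit 1458234248) (nat_lit 304) (nat_lit 4483873219) (nat_lit 51) (nat_lit 5) (nat_lit 54) (nat_lit 5) (nat_lit 55) (nat_lit 4) (nat_lit 278) (nat_lit 253) (nat_lit 249))))) (XT.nd (nat_lit 156) (nat_lit 684) (nat_lit 0) (XT.nd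 (nat_lit 78) (nat_lit 152) (nat_lit 0) (XT.lf (nat_lit 0) (nat_lit 991147916) (nat_lit 304) (nat_lit 5228232302) (nat_lit 76) (nat_lit 3251705660) (nat_lit 47) (nat_lit 5) (nat_lit 51) (nat_lit 5) (nat_lit 48) (nat_lit 4) (nat_lit 279) (nat_lit 253) (nat_lit 248)) (XT.lf (nat_lit 0) (nat_lit 5188479094) (nat_lit 152) (nat_lit 1442947389) (nat_lit 228) (nat_lit 3223892840) (nat_lit 45) (nat_lit 5) (nat_lit 47) (nat_lit 5) (nat_lit 48) (nat_lit 4) (nat_lit 280) (nat_lit 253) (nat_lit 247))) (XT.nd (nat_lit 78) (nat_lit 380) (nat_lit 0) (XT.lf (nat_lit 0) (nat_lit 2303388450) (nat_lit 304) (nat_lit 4294174027) (nat_lit 76) (nat_lit 3674704547) (nat_lit 41) (nat_lit 5) (nat_lit 45) (nat_lit 5) (nat_lit 42) (nat_lit 4) (nat_lit 281) (nat_lit 253) (nat_lit 246)) (XT.nd (nat_lit 78) (nat_lit 228) (nat_lit 0) (XT.lf (nat_lit 0) (nat_lit 6588470611) (nat_lit 152) (nat_lit 1479919858) (nat_lit 228)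 (nat_lit 2656439835) (nat_lit 39) (nat_lit 5) (nat_lit 41) (nat_lit 5) (nat_lit 42) (nat_lit 4) (nat_lit 282) (nat_lit 253) (nat_lit 245)) (XT.lf (nat_lit 0) (nat_lit 2939898606) (nat_lit 228) (nat_lit 4276098279) (nat_lit 76) (nat_lit 3997608909) (nat_lit 36) (nat_lit 5) (nat_lit 39) (nat_lit 5) (nat_lit 37) (nat_lit 4) (nat_lit 283) (nat_lit 253) (nat_lit 244)))))) (XT.nd (nat_lit 390) (nat_lit 608) (nat_lit 0) (XT.nd (nat_lit 156) (nat_lit 456) (nat_lit 0) (XT.nd (nat_lit 78) (nat_lit 228) (nat_lit 0) (XT.lf (nat_lit 0) (nat_lit 7013875351) (nat_lit 152) (nat_lit 1805979890) (nat_lit 228) (nat_lit 2923268424) (nat_lit 34) (nat_lit 5) (nat_lit 36) (nat_lit 5) (nat_lit 37) (nat_lit 4) (nat_lit 284) (nat_lit 253) (nat_lit 243)) (XT.lf (nat_lit 0) (nat_lit 2739084041) (nat_lit 228) (nat_lit 5598380005) (nat_lit 76) (nat_lit 3976782101) (nat_lit 31) (nat_lit 5) (nat_lit 34) (nat_lit 5) (nat_lit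 32) (nat_lit 4) (nat_lit 285) (nat_lit 253) (nat_lit 242))) (XT.nd (nat_lit 78) (nat_lit 304) (nat_lit 0) (XT.lf (nat_lit 0) (nat_lit 6001372891) (nat_lit 152) (nat_lit 2700402806) (nat_lit 228) (nat_lit 4229616002) (nat_lit 29) (nat_lit 5) (nat_lit 31) (nat_lit 5) (nat_lit 32) (nat_lit 4) (nat_lit 286) (nat_lit 253) (nat_lit 241)) (XT.nd (nat_lit 78) (nat_lit 76) (nat_lit 0) (XT.lf (nat_lit 0) (nat_lit 1471617603) (nat_lit 228) (nat_lit 8806829127) (nat_lit 76) (nat_lit 3319576861) (nat_lit 26) (nat_lit 5) (nat_lit 29) (nat_lit 5) (nat_lit 27) (nat_lit 4) (nat_lit 287) (nat_lit 253) (nat_lit 240)) (XT.lf (nat_lit 0) (nat_lit 2951822559) (nat_lit 76) (nat_lit 4504167736) (nat_lit 152) (nat_lit 6859945399) (nat_lit 25) (nat_lit 5) (nat_lit 26) (nat_lit 5) (nat_lit 27) (nat_lit 4) (nat_lit 288) (nat_lit 253) (nat_lit 239))))) (XT.nd (nat_lit 234) (nat_lit 304) (nat_lit 0) (XT.nd (nat_lit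 78) (nat_lit 152) (nat_lit 0) (XT.lf (nat_lit 0) (nat_lit 466675996) (nat_lit 152) (nat_lit 13410826422) (nat_lit 152) (nat_lit 1216023527) (nat_lit 23) (nat_lit 4) (nat_lit 25) (nat_lit 5) (nat_lit 25) (nat_lit 4) (nat_lit 289) (nat_lit 253) (nat_lit 238)) (XT.nd (nat_lit 78) (nat_lit 76) (nat_lit 0) (XT.lf (nat_lit 0) (nat_lit 4775951682) (nat_lit 228) (nat_lit 2819962169) (nat_lit 76) (nat_lit 8331110142) (nat_lit 22) (nat_lit 5) (nat_lit 25) (nat_lit 5) (nat_lit 23) (nat_lit 4) (nat_lit 290) (nat_lit 253) (nat_lit 237)) (XT.lf (nat_lit 0) (nat_lit 9864763101) (nat_lit 76) (nat_lit 1286691524) (nat_lit 152) (nat_lit 5677546305) (nat_lit 21) (nat_lit 5) (nat_lit 22) (nat_lit 5) (nat_lit 23) (nat_lit 4) (nat_lit 291) (nat_lit 253) (nat_lit 236)))) (XT.nd (nat_lit 78) (nat_lit 76) (nat_lit 0) (XT.lf (nat_lit 0) (nat_lit 250196369) (nat_lit 228) (nat_lit 12203527912) (nat_lit 76) (nat_lit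 5348156758) (nat_lit 18) (nat_lit 5) (nat_lit 21) (nat_lit 5) (nat_lit 19) (nat_lit 4) (nat_lit 292) (nat_lit 253) (nat_lit 235)) (XT.nd (nat_lit 78) (nat_lit 0) (nat_lit 0) (XT.lf (nat_lit 0) (nat_lit 107073789) (nat_lit 76) (nat_lit 6301661507) (nat_lit 152) (nat_lit 12441537794) (nat_lit 17) (nat_lit 5) (nat_lit 18) (nat_lit 5) (nat_lit 19) (nat_lit 4) (nat_lit 293) (nat_lit 253) (nat_lit 234)) (XT.lf (nat_lit 0) (nat_lit 13094465209) (nat_lit 152) (nat_lit 6479551434) (nat_lit 0) (nat_lit 406896115) (nat_lit 17) (nat_lit 5) (nat_lit 19) (nat_lit 4) (nat_lit 17) (nat_lit 4) (nat_lit 294) (nat_lit 253) (nat_lit 233))))))) (XT.nd (nat_lit 858) (nat_lit 228) (nat_lit 0) (XT.nd (nat_lit 390) (nat_lit 304) (nat_lit 0) (XT.nd (nat_lit 156) (nat_lit 228) (nat_lit 0) (XT.nd (nat_lit 78) (nat_lit 76) (nat_lit 0) (XT.lf (nat_lit 0) (nat_lit 6556637623) (nat_lit 76) (nat_lit 13793982561) (nat_lit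 76) (nat_lit 849699199) (nat_lit 16) (nat_lit 4) (nat_lit 17) (nat_lit 5) (nat_lit 17) (nat_lit 4) (nat_lit 295) (nat_lit 253) (nat_lit 232)) (XT.lf (nat_lit 0) (nat_lit 5435545345) (nat_lit 152) (nat_lit 2039113799) (nat_lit 76) (nat_lit 15040924601) (nat_lit 15) (nat_lit 5) (nat_lit 17) (nat_lit 5) (nat_lit 16) (nat_lit 4) (nat_lit 296) (nat_lit 253) (nat_lit 231))) (XT.nd (nat_lit 78) (nat_lit 152) (nat_lit 0) (XT.lf (nat_lit 0) (nat_lit 11650713165) (nat_lit 76) (nat_lit 570158069) (nat_lit 152) (nat_lit 11713226841) (nat_lit 14) (nat_lit 5) (nat_lit 15) (nat_lit 5) (nat_lit 16) (nat_lit 4) (nat_lit 297) (nat_lit 253) (nat_lit 230)) (XT.nd (nat_lit 78) (nat_lit 76) (nat_lit 0) (XT.lf (nat_lit 0) (nat_lit 682974512) (nat_lit 76) (nat_lit 18870466057) (nat_lit 76) (nat_lit 5912503268) (nat_lit 13) (nat_lit 4) (nat_lit 14) (nat_lit 5) (nat_lit 14) (nat_lit 4) (nat_lit 298) (nat_lit 253)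 (nat_lit 229)) (XT.lf (nat_lit 0) (nat_lit 422812854) (nat_lit 152) (nat_lit 12270903723) (nat_lit 76) (nat_lit 14422317940) (nat_lit 12) (nat_lit 5) (nat_lit 14) (nat_lit 5) (nat_lit 13) (nat_lit 4) (nat_lit 299) (nat_lit 253) (nat_lit 228))))) (XT.nd (nat_lit 234) (nat_lit 228) (nat_lit 0) (XT.nd (nat_lit 78) (nat_lit 0) (nat_lit 0) (XT.lf (nat_lit 0) (nat_lit 923927357) (nat_lit 76) (nat_lit 6016557066) (nat_lit 152) (nat_lit 21958726041) (nat_lit 11) (nat_lit 5) (nat_lit 12) (nat_lit 5) (nat_lit 13) (nat_lit 4) (nat_lit 300) (nat_lit 253) (nat_lit 227)) (XT.nd (nat_lit 78) (nat_lit 0) (nat_lit 0) (XT.lf (nat_lit 0) (nat_lit 14085517093) (nat_lit 152) (nat_lit 15466034864) (nat_lit 0) (nat_lit 1268244957) (nat_lit 11) (nat_lit 5) (nat_lit 13) (nat_lit 4) (nat_lit 11) (nat_lit 4) (nat_lit 301) (nat_lit 253) (nat_lit 226)) (XT.lf (nat_lit 0) (nat_lit 21783267558) (nat_lit 152) (nat_lit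 2281625577) (nat_lit 0) (nat_lit 8830131195) (nat_lit 11) (nat_lit 5) (nat_lit 13) (nat_lit 4) (nat_lit 11) (nat_lit 4) (nat_lit 302) (nat_lit 253) (nat_lit 225)))) (XT.nd (nat_lit 78) (nat_lit 152) (nat_lit 0) (XT.lf (nat_lit 0) (nat_lit 12138518292) (nat_lit 76) (nat_lit 18036414796) (nat_lit 76) (nat_lit 4957478223) (nat_lit 10) (nat_lit 4) (nat_lit 11) (nat_lit 5) (nat_lit 11) (nat_lit 4) (nat_lit 303) (nat_lit 253) (nat_lit 224)) (XT.nd (nat_lit 78) (nat_lit 76) (nat_lit 0) (XT.lf (nat_lit 0) (nat_lit 1567424974) (nat_lit 152) (nat_lit 9982197051) (nat_lit 76) (nat_lit 26001272012) (nat_lit 9) (nat_lit 5) (nat_lit 11) (nat_lit 5) (nat_lit 10) (nat_lit 4) (nat_lit 304) (nat_lit 253) (nat_lit 223)) (XT.lf (nat_lit 0) (nat_lit 3925328397) (nat_lit 76) (nat_lit 4478866748) (nat_lit 152) (nat_lit 31756456355) (nat_lit 8) (nat_lit 5) (nat_lit 9) (nat_lit 5) (nat_lit 10) (nat_lit 4) (nat_lit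 305) (nat_lit 253) (nat_lit 222)))))) (XT.nd (nat_lit 390) (nat_lit 152) (nat_lit 0) (XT.nd (nat_lit 156) (nat_lit 76) (nat_lit 0) (XT.nd (nat_lit 78) (nat_lit 0) (nat_lit 0) (XT.lf (nat_lit 0) (nat_lit 15917203263) (nat_lit 152) (nat_lit 23903244435) (nat_lit 0) (nat_lit 3152311916) (nat_lit 8) (nat_lit 5) (nat_lit 10) (nat_lit 4) (nat_lit 8) (nat_lit 4) (nat_lit 306) (nat_lit 253) (nat_lit 221)) (XT.lf (nat_lit 0) (nat_lit 24017203685) (nat_lit 152) (nat_lit 10829118780) (nat_lit 0) (nat_lit 11164248615) (nat_lit 8) (nat_lit 5) (nat_lit 10) (nat_lit 4) (nat_lit 8) (nat_lit 4) (nat_lit 307) (nat_lit 253) (nat_lit 220))) (XT.nd (nat_lit 78) (nat_lit 0) (nat_lit 0) (XT.lf (nat_lit 0) (nat_lit 3238097154) (nat_lit 76) (nat_lit 29494727370) (nat_lit 76) (nat_lit 16560231816) (nat_lit 7) (nat_lit 4) (nat_lit 8) (nat_lit 5) (nat_lit 8) (nat_lit 4) (nat_lit 308) (nat_lit 253) (nat_lit 219))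 (XT.nd (nat_lit 78) (nat_lit 0) (nat_lit 0) (XT.lf (nat_lit 0) (nat_lit 18667715989) (nat_lit 76) (nat_lit 23587486374) (nat_lit 76) (nat_lit 10577490370) (nat_lit 7) (nat_lit 4) (nat_lit 8) (nat_lit 5) (nat_lit 8) (nat_lit 4) (nat_lit 309) (nat_lit 253) (nat_lit 218)) (XT.lf (nat_lit 0) (nat_lit 35193112930) (nat_lit 76) (nat_lit 17272989971) (nat_lit 76) (nat_lit 4193086144) (nat_lit 7) (nat_lit 4) (nat_lit 8) (nat_lit 5) (nat_lit 8) (nat_lit 4) (nat_lit 310) (nat_lit 253) (nat_lit 217))))) (XT.nd (nat_lit 234) (nat_lit 0) (nat_lit 0) (XT.nd (nat_lit 78) (nat_lit 76) (nat_lit 0) (XT.lf (nat_lit 0) (nat_lit 2546611879) (nat_lit 152) (nat_lit 7924078938) (nat_lit 76) (nat_lit 50322476271) (nat_lit 6) (nat_lit 5) (nat_lit 8) (nat_lit 5) (nat_lit 7) (nat_lit 4) (nat_lit 311) (nat_lit 253) (nat_lit 216)) (XT.nd (nat_lit 78) (nat_lit 0) (nat_lit 0) (XT.lf (nat_lit 0) (nat_lit 6724860021) (nat_lit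 76) (nat_lit 2996812175) (nat_lit 152) (nat_lit 55530620562) (nat_lit 5) (nat_lit 5) (nat_lit 6) (nat_lit 5) (nat_lit 7) (nat_lit 4) (nat_lit 312) (nat_lit 253) (nat_lit 215)) (XT.lf (nat_lit 0) (nat_lit 17628470612) (nat_lit 152) (nat_lit 47431971463) (nat_lit 0) (nat_lit 4999839121) (nat_lit 5) (nat_lit 5) (nat_lit 7) (nat_lit 4) (nat_lit 5) (nat_lit 4) (nat_lit 313) (nat_lit 253) (nat_lit 214)))) (XT.nd (nat_lit 78) (nat_lit 0) (nat_lit 0) (XT.lf (nat_lit 0) (nat_lit 26161125642) (nat_lit 152) (nat_lit 35608578683) (nat_lit 0) (nat_lit 13483556687) (nat_lit 5) (nat_lit 5) (nat_lit 7) (nat_lit 4) (nat_lit 5) (nat_lit 4) (nat_lit 314) (nat_lit 253) (nat_lit 213)) (XT.nd (nat_lit 78) (nat_lit 0) (nat_lit 0) (XT.lf (nat_lit 0) (nat_lit 35323412532) (nat_lit 152) (nat_lit 22940401212) (nat_lit 0) (nat_lit 22600531110) (nat_lit 5) (nat_lit 5) (nat_lit 7) (nat_lit 4) (nat_lit 5) (nat_lit 4)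 (nat_lit 315) (nat_lit 253) (nat_lit 212)) (XT.lf (nat_lit 0) (nat_lit 45169626314) (nat_lit 152) (nat_lit 9352368368) (nat_lit 0) (nat_lit 32404788906) (nat_lit 5) (nat_lit 5) (nat_lit 7) (nat_lit 4) (nat_lit 5) (nat_lit 4) (nat_lit 316) (nat_lit 253) (nat_lit 211))))))))
noncomputable def xc35 : XT := (XT.nd (nat_lit 1638) (nat_lit 76) (nat_lit 0) (XT.nd (nat_lit 780) (nat_lit 0) (nat_lit 0) (XT.nd (nat_lit 390) (nat_lit 152) (nat_lit 0) (XT.nd (nat_lit 156) (nat_lit 0) (nat_lit 0) (XT.nd (nat_lit 78) (nat_lit 0) (nat_lit 0) (XT.lf (nat_lit 0) (nat_lit 5409168703) (nat_lit 76) (nat_lit 50433398503) (nat_lit 76) (nat_lit 37629712958) (nat_lit 4) (nat_lit 4) (nat_lit 5) (nat_lit 5) (nat_lit 5) (nat_lit 4) (nat_lit 317) (nat_lit 253) (nat_lit 210)) (XT.lf (nat_lit 0) (nat_lit 21602699600) (nat_lit 76) (nat_lit 45886204040) (nat_lit 76) (nat_lit 33046547998) (nat_lit 4) (nat_lit 4) (nat_lit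 5) (nat_lit 5) (nat_lit 5) (nat_lit 4) (nat_lit 318) (nat_lit 253) (nat_lit 209))) (XT.nd (nat_lit 78) (nat_lit 0) (nat_lit 0) (XT.lf (nat_lit 0) (nat_lit 39014954452) (nat_lit 76) (nat_lit 41011851841) (nat_lit 76) (nat_lit 28138889784) (nat_lit 4) (nat_lit 4) (nat_lit 5) (nat_lit 5) (nat_lit 5) (nat_lit 4) (nat_lit 319) (nat_lit 253) (nat_lit 208)) (XT.nd (nat_lit 78) (nat_lit 0) (nat_lit 0) (XT.lf (nat_lit 0) (nat_lit 57749116991) (nat_lit 76) (nat_lit 35781456856) (nat_lit 76) (nat_lit 22877655896) (nat_lit 4) (nat_lit 4) (nat_lit 5) (nat_lit 5) (nat_lit 5) (nat_lit 4) (nat_lit 320) (nat_lit 253) (nat_lit 207)) (XT.lf (nat_lit 0) (nat_lit 77916204477) (nat_lit 76) (nat_lit 30164024152) (nat_lit 76) (nat_lit 17231668652) (nat_lit 4) (nat_lit 4) (nat_lit 5) (nat_lit 5) (nat_lit 5) (nat_lit 4) (nat_lit 321) (nat_lit 253) (nat_lit 206))))) (XT.nd (nat_lit 156) (nat_lit 152) (nat_lit 0)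 (XT.nd (nat_lit 78) (nat_lit 0) (nat_lit 0) (XT.lf (nat_lit 0) (nat_lit 99635725576) (nat_lit 76) (nat_lit 24126265238) (nat_lit 76) (nat_lit 11167470348) (nat_lit 4) (nat_lit 4) (nat_lit 5) (nat_lit 5) (nat_lit 5) (nat_lit 4) (nat_lit 322) (nat_lit 253) (nat_lit 205)) (XT.lf (nat_lit 0) (nat_lit 123036388562) (nat_lit 76) (nat_lit 17632400802) (nat_lit 76) (nat_lit 4649124997) (nat_lit 4) (nat_lit 4) (nat_lit 5) (nat_lit 5) (nat_lit 5) (nat_lit 4) (nat_lit 323) (nat_lit 253) (nat_lit 204))) (XT.nd (nat_lit 78) (nat_lit 76) (nat_lit 0) (XT.lf (nat_lit 0) (nat_lit 2286396055) (nat_lit 152) (nat_lit 8318831406) (nat_lit 76) (nat_lit 145931746751) (nat_lit 3) (nat_lit 5) (nat_lit 5) (nat_lit 5) (nat_lit 4) (nat_lit 4) (nat_lit 324) (nat_lit 253) (nat_lit 203)) (XT.nd (nat_lit 78) (nat_lit 0) (nat_lit 0) (XT.lf (nat_lit 0) (nat_lit 6852582685) (nat_lit 76) (nat_lit 2844741433) (nat_lit 152)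 (nat_lit 158948258902) (nat_lit 2) (nat_lit 5) (nat_lit 3) (nat_lit 5) (nat_lit 4) (nat_lit 4) (nat_lit 325) (nat_lit 253) (nat_lit 202)) (XT.lf (nat_lit 0) (nat_lit 17909952543) (nat_lit 152) (nat_lit 158317650926) (nat_lit 0) (nat_lit 5484842544) (nat_lit 2) (nat_lit 5) (nat_lit 4) (nat_lit 4) (nat_lit 2) (nat_lit 4) (nat_lit 326) (nat_lit 253) (nat_lit 201)))))) (XT.nd (nat_lit 390) (nat_lit 0) (nat_lit 0) (XT.nd (nat_lit 156) (nat_lit 0) (nat_lit 0) (XT.nd (nat_lit 78) (nat_lit 0) (nat_lit 0) (XT.lf (nat_lit 0) (nat_lit 26804503503) (nat_lit 152) (nat_lit 154656659045) (nat_lit 0) (nat_lit 14362256167) (nat_lit 2) (nat_lit 5) (nat_lit 4) (nat_lit 4) (nat_lit 2) (nat_lit 4) (nat_lit 327) (nat_lit 253) (nat_lit 200)) (XT.lf (nat_lit 0) (nat_lit 36389271062) (nat_lit 152) (nat_lit 150743915541) (nat_lit 0) (nat_lit 23931155822) (nat_lit 2) (nat_lit 5) (nat_lit 4) (nat_lit 4) (nat_lit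 2) (nat_lit 4) (nat_lit 328) (nat_lit 253) (nat_lit 199))) (XT.nd (nat_lit 78) (nat_lit 0) (nat_lit 0) (XT.lf (nat_lit 0) (nat_lit 46721053844) (nat_lit 152) (nat_lit 146556233784) (nat_lit 0) (nat_lit 34248246099) (nat_lit 2) (nat_lit 5) (nat_lit 4) (nat_lit 4) (nat_lit 2) (nat_lit 4) (nat_lit 329) (nat_lit 253) (nat_lit 198)) (XT.nd (nat_lit 78) (nat_lit 0) (nat_lit 0) (XT.lf (nat_lit 0) (nat_lit 57861077227) (nat_lit 152) (nat_lit 142068797884) (nat_lit 0) (nat_lit 45374665312) (nat_lit 2) (nat_lit 5) (nat_lit 4) (nat_lit 4) (nat_lit 2) (nat_lit 4) (nat_lit 330) (nat_lit 253) (nat_lit 197)) (XT.lf (nat_lit 0) (nat_lit 69875356165) (nat_lit 152) (nat_lit 137255015627) (nat_lit 0) (nat_lit 57376347795) (nat_lit 2) (nat_lit 5) (nat_lit 4) (nat_lit 4) (nat_lit 2) (nat_lit 4) (nat_lit 331) (nat_lit 253) (nat_lit 196))))) (XT.nd (nat_lit 234) (nat_lit 0) (nat_lit 0) (XT.nd (nat_lit 78) (nat_lit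 0) (nat_lit 0) (XT.lf (nat_lit 0) (nat_lit 82835086385) (nat_lit 152) (nat_lit 132086360897) (nat_lit 0) (nat_lit 70324414632) (nat_lit 2) (nat_lit 5) (nat_lit 4) (nat_lit 4) (nat_lit 2) (nat_lit 4) (nat_lit 332) (nat_lit 253) (nat_lit 195)) (XT.nd (nat_lit 78) (nat_lit 0) (nat_lit 0) (XT.lf (nat_lit 0) (nat_lit 96817066288) (nat_lit 152) (nat_lit 126532204627) (nat_lit 0) (nat_lit 84295595106) (nat_lit 2) (nat_lit 5) (nat_lit 4) (nat_lit 4) (nat_lit 2) (nat_lit 4) (nat_lit 333) (nat_lit 253) (nat_lit 194)) (XT.lf (nat_lit 0) (nat_lit 111904152051) (nat_lit 152) (nat_lit 120559633301) (nat_lit 0) (nat_lit 99372681398) (nat_lit 2) (nat_lit 5) (nat_lit 4) (nat_lit 4) (nat_lit 2) (nat_lit 4) (nat_lit 334) (nat_lit 253) (nat_lit 193)))) (XT.nd (nat_lit 78) (nat_lit 0) (nat_lit 0) (XT.lf (nat_lit 0) (nat_lit 128185748628) (nat_lit 152) (nat_lit 114133253901) (nat_lit 0) (nat_lit 115645019204)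 (nat_lit 2) (nat_lit 5) (nat_lit 4) (nat_lit 4) (nat_lit 2) (nat_lit 4) (nat_lit 335) (nat_lit 253) (nat_lit 192)) (XT.nd (nat_lit 78) (nat_lit 0) (nat_lit 0) (XT.lf (nat_lit 0) (nat_lit 145758339553) (nat_lit 152) (nat_lit 107214984181) (nat_lit 0) (nat_lit 133209037194) (nat_lit 2) (nat_lit 5) (nat_lit 4) (nat_lit 4) (nat_lit 2) (nat_lit 4) (nat_lit 336) (nat_lit 253) (nat_lit 191)) (XT.lf (nat_lit 0) (nat_lit 164726058699) (nat_lit 152) (nat_lit 99763826986) (nat_lit 0) (nat_lit 152168818437) (nat_lit 2) (nat_lit 5) (nat_lit 4) (nat_lit 4) (nat_lit 2) (nat_lit 4) (nat_lit 337) (nat_lit 253) (nat_lit 190))))))) (XT.nd (nat_lit 858) (nat_lit 0) (nat_lit 0) (XT.nd (nat_lit 390) (nat_lit 76) (nat_lit 0) (XT.nd (nat_lit 156) (nat_lit 0) (nat_lit 0) (XT.nd (nat_lit 78) (nat_lit 0) (nat_lit 0) (XT.lf (nat_lit 0) (nat_lit 185201307364) (nat_lit 152) (nat_lit 91735627310) (nat_lit 0) (nat_lit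 172636717192) (nat_lit 2) (nat_lit 5) (nat_lit 4) (nat_lit 4) (nat_lit 2) (nat_lit 4) (nat_lit 338) (nat_lit 253) (nat_lit 189)) (XT.lf (nat_lit 0) (nat_lit 207305420355) (nat_lit 152) (nat_lit 83082810638) (nat_lit 0) (nat_lit 194734024711) (nat_lit 2) (nat_lit 5) (nat_lit 4) (nat_lit 4) (nat_lit 2) (nat_lit 4) (nat_lit 339) (nat_lit 253) (nat_lit 188))) (XT.nd (nat_lit 78) (nat_lit 0) (nat_lit 0) (XT.lf (nat_lit 0) (nat_lit 231169385008) (nat_lit 152) (nat_lit 73754101017) (nat_lit 0) (nat_lit 218591688001) (nat_lit 2) (nat_lit 5) (nat_lit 4) (nat_lit 4) (nat_lit 2) (nat_lit 4) (nat_lit 340) (nat_lit 253) (nat_lit 187)) (XT.nd (nat_lit 78) (nat_lit 0) (nat_lit 0) (XT.lf (nat_lit 0) (nat_lit 256934617411) (nat_lit 152) (nat_lit 63694217207) (nat_lit 0) (nat_lit 244351085808) (nat_lit 2) (nat_lit 5) (nat_lit 4) (nat_lit 4) (nat_lit 2) (nat_lit 4) (nat_lit 341) (nat_lit 253) (nat_lit 186))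 (XT.lf (nat_lit 0) (nat_lit 284753800421) (nat_lit 152) (nat_lit 52843545081) (nat_lit 0) (nat_lit 272164866415) (nat_lit 2) (nat_lit 5) (nat_lit 4) (nat_lit 4) (nat_lit 2) (nat_lit 4) (nat_lit 342) (nat_lit 253) (nat_lit 185))))) (XT.nd (nat_lit 234) (nat_lit 76) (nat_lit 0) (XT.nd (nat_lit 78) (nat_lit 0) (nat_lit 0) (XT.lf (nat_lit 0) (nat_lit 314791788457) (nat_lit 152) (nat_lit 41137784359) (nat_lit 0) (nat_lit 302197852226) (nat_lit 2) (nat_lit 5) (nat_lit 4) (nat_lit 4) (nat_lit 2) (nat_lit 4) (nat_lit 343) (nat_lit 253) (nat_lit 184)) (XT.nd (nat_lit 78) (nat_lit 0) (nat_lit 0) (XT.lf (nat_lit 0) (nat_lit 347226584411) (nat_lit 152) (nat_lit 28507567571) (nat_lit 0) (nat_lit 334628016489) (nat_lit 2) (nat_lit 5) (nat_lit 4) (nat_lit 4) (nat_lit 2) (nat_lit 4) (nat_lit 344) (nat_lit 253) (nat_lit 183)) (XT.lf (nat_lit 0) (nat_lit 382250394481) (nat_lit 152) (nat_lit 14878048987)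 (nat_lit 0) (nat_lit 369647537957) (nat_lit 2) (nat_lit 5) (nat_lit 4) (nat_lit 4) (nat_lit 2) (nat_lit 4) (nat_lit 345) (nat_lit 253) (nat_lit 182)))) (XT.nd (nat_lit 78) (nat_lit 76) (nat_lit 0) (XT.lf (nat_lit 0) (nat_lit 420070767171) (nat_lit 152) (nat_lit 168461090) (nat_lit 0) (nat_lit 407463939719) (nat_lit 2) (nat_lit 5) (nat_lit 4) (nat_lit 4) (nat_lit 2) (nat_lit 4) (nat_lit 346) (nat_lit 253) (nat_lit 181)) (XT.nd (nat_lit 78) (nat_lit 0) (nat_lit 0) (XT.lf (nat_lit 0) (nat_lit 16227753503) (nat_lit 76) (nat_lit 444937430415) (nat_lit 76) (nat_lit 432326926178) (nat_lit 1) (nat_lit 4) (nat_lit 2) (nat_lit 5) (nat_lit 2) (nat_lit 4) (nat_lit 347) (nat_lit 253) (nat_lit 180)) (XT.lf (nat_lit 0) (nat_lit 33932565319) (nat_lit 76) (nat_lit 471612800786) (nat_lit 76) (nat_lit 458998892119) (nat_lit 1) (nat_lit 4) (nat_lit 2) (nat_lit 5) (nat_lit 2) (nat_lit 4) (nat_lit 348) (nat_lit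 253) (nat_lit 179)))))) (XT.nd (nat_lit 34944) (nat_lit 0) (nat_lit 3040) (XT.nd (nat_lit 34710) (nat_lit 0) (nat_lit 4940) (XT.nd (nat_lit 34632) (nat_lit 0) (nat_lit 6004) (XT.lf (nat_lit 0) (nat_lit 53045321675) (nat_lit 76) (nat_lit 500426268614) (nat_lit 76) (nat_lit 487809207697) (nat_lit 1) (nat_lit 4) (nat_lit 2) (nat_lit 5) (nat_lit 2) (nat_lit 4) (nat_lit 349) (nat_lit 253) (nat_lit 178)) (XT.lf (nat_lit 0) (nat_lit 1962365098) (nat_lit 380) (nat_lit 908949670) (nat_lit 380) (nat_lit 908949670) (nat_lit 80) (nat_lit 4) (nat_lit 85) (nat_lit 5) (nat_lit 85) (nat_lit 4) (nat_lit 272) (nat_lit 254) (nat_lit 254))) (XT.nd (nat_lit 78) (nat_lit 684) (nat_lit 0) (XT.lf (nat_lit 0) (nat_lit 3564880503) (nat_lit 380) (nat_lit 2740501889) (nat_lit 0) (nat_lit 1459930122) (nat_lit 75) (nat_lit 5) (nat_lit 80) (nat_lit 4) (nat_lit 75) (nat_lit 4) (nat_lit 273) (nat_lit 254) (nat_lit 253))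 (XT.nd (nat_lit 78) (nat_lit 304) (nat_lit 0) (XT.lf (nat_lit 0) (nat_lit 1093998431) (nat_lit 380) (nat_lit 1811281725) (nat_lit 76) (nat_lit 5089003675) (nat_lit 70) (nat_lit 5) (nat_lit 75) (nat_lit 5) (nat_lit 71) (nat_lit 4) (nat_lit 274) (nat_lit 254) (nat_lit 252)) (XT.lf (nat_lit 0) (nat_lit 6478134004) (nat_lit 380) (nat_lit 871477932) (nat_lit 0) (nat_lit 898482397) (nat_lit 66) (nat_lit 5) (nat_lit 71) (nat_lit 4) (nat_lit 66) (nat_lit 4) (nat_lit 275) (nat_lit 254) (nat_lit 251))))) (XT.nd (nat_lit 234) (nat_lit 760) (nat_lit 0) (XT.nd (nat_lit 78) (nat_lit 532) (nat_lit 0) (XT.lf (nat_lit 0) (nat_lit 35930463) (nat_lit 228) (nat_lit 3479674020) (nat_lit 304) (nat_lit 5010942096) (nat_lit 58) (nat_lit 5) (nat_lit 61) (nat_lit 5) (nat_lit 62) (nat_lit 4) (nat_lit 276) (nat_lit 254) (nat_lit 250)) (XT.nd (nat_lit 78) (nat_lit 228) (nat_lit 0) (XT.lf (nat_lit 0) (nat_lit 183640887)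 (nat_lit 304) (nat_lit 7856473173) (nat_lit 76) (nat_lit 793026664) (nat_lit 54) (nat_lit 5) (nat_lit 58) (nat_lit 5) (nat_lit 55) (nat_lit 4) (nat_lit 277) (nat_lit 254) (nat_lit 249)) (XT.lf (nat_lit 0) (nat_lit 1797068124) (nat_lit 228) (nat_lit 3729473328) (nat_lit 304) (nat_lit 3638651830) (nat_lit 51) (nat_lit 5) (nat_lit 54) (nat_lit 5) (nat_lit 55) (nat_lit 4) (nat_lit 278) (nat_lit 254) (nat_lit 248)))) (XT.nd (nat_lit 78) (nat_lit 456) (nat_lit 0) (XT.lf (nat_lit 0) (nat_lit 1592521948) (nat_lit 304) (nat_lit 6959610486) (nat_lit 76) (nat_lit 976883228) (nat_lit 47) (nat_lit 5) (nat_lit 51) (nat_lit 5) (nat_lit 48) (nat_lit 4) (nat_lit 279) (nat_lit 254) (nat_lit 247)) (XT.nd (nat_lit 78) (nat_lit 304) (nat_lit 0) (XT.lf (nat_lit 0) (nat_lit 3177798820) (nat_lit 152) (nat_lit 3877352629) (nat_lit 228) (nat_lit 2867158216) (nat_lit 45) (nat_lit 5) (nat_lit 47) (nat_lit 5) (nat_lit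 48) (nat_lit 4) (nat_lit 280) (nat_lit 254) (nat_lit 246)) (XT.lf (nat_lit 0) (nat_lit 2431039422) (nat_lit 304) (nat_lit 6699846923) (nat_lit 76) (nat_lit 1219132894) (nat_lit 41) (nat_lit 5) (nat_lit 45) (nat_lit 5) (nat_lit 42) (nat_lit 4) (nat_lit 281) (nat_lit 254) (nat_lit 245))))))))
noncomputable def xc36 : XT := (XT.nd (nat_lit 1638) (nat_lit 532) (nat_lit 0) (XT.nd (nat_lit 780) (nat_lit 760) (nat_lit 0) (XT.nd (nat_lit 390) (nat_lit 608) (nat_lit 0) (XT.nd (nat_lit 156) (nat_lit 532) (nat_lit 0) (XT.nd (nat_lit 78) (nat_lit 228) (nat_lit 0) (XT.lf (nat_lit 0) (nat_lit 3889347012) (nat_lit 152) (nat_lit 4129740716) (nat_lit 228) (nat_lit 2792487901) (nat_lit 39) (nat_lit 5) (nat_lit 41) (nat_lit 5) (nat_lit 42) (nat_lit 4) (nat_lit 282) (nat_lit 254) (nat_lit 244)) (XT.lf (nat_lit 0) (nat_lit 2586568278) (nat_lit 228) (nat_lit 7413646624) (nat_lit 76) (nat_lit 1311452495) (nat_lit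 36) (nat_lit 5) (nat_lit 39) (nat_lit 5) (nat_lit 37) (nat_lit 4) (nat_lit 283) (nat_lit 254) (nat_lit 243))) (XT.nd (nat_lit 78) (nat_lit 380) (nat_lit 0) (XT.lf (nat_lit 0) (nat_lit 3567114835) (nat_lit 152) (nat_lit 4720970989) (nat_lit 228) (nat_lit 3562140139) (nat_lit 34) (nat_lit 5) (nat_lit 36) (nat_lit 5) (nat_lit 37) (nat_lit 4) (nat_lit 284) (nat_lit 254) (nat_lit 242)) (XT.nd (nat_lit 78) (nat_lit 152) (nat_lit 0) (XT.lf (nat_lit 0) (nat_lit 1892137803) (nat_lit 228) (nat_lit 9529131175) (nat_lit 76) (nat_lit 1012109027) (nat_lit 31) (nat_lit 5) (nat_lit 34) (nat_lit 5) (nat_lit 32) (nat_lit 4) (nat_lit 285) (nat_lit 254) (nat_lit 241)) (XT.lf (nat_lit 0) (nat_lit 1743760115) (nat_lit 152) (nat_lit 5929085725) (nat_lit 228) (nat_lit 5386873853) (nat_lit 29) (nat_lit 5) (nat_lit 31) (nat_lit 5) (nat_lit 32) (nat_lit 4) (nat_lit 286) (nat_lit 254) (nat_lit 240))))) (XT.nd (nat_lit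 156) (nat_lit 380) (nat_lit 0) (XT.nd (nat_lit 78) (nat_lit 0) (nat_lit 0) (XT.lf (nat_lit 0) (nat_lit 113190299) (nat_lit 228) (nat_lit 13596866369) (nat_lit 76) (nat_lit 29194263) (nat_lit 26) (nat_lit 5) (nat_lit 29) (nat_lit 5) (nat_lit 27) (nat_lit 4) (nat_lit 287) (nat_lit 254) (nat_lit 239)) (XT.lf (nat_lit 0) (nat_lit 5944162441) (nat_lit 228) (nat_lit 2114958971) (nat_lit 76) (nat_lit 6405790813) (nat_lit 26) (nat_lit 5) (nat_lit 29) (nat_lit 5) (nat_lit 27) (nat_lit 4) (nat_lit 288) (nat_lit 254) (nat_lit 238))) (XT.nd (nat_lit 78) (nat_lit 304) (nat_lit 0) (XT.lf (nat_lit 0) (nat_lit 10262945604) (nat_lit 76) (nat_lit 1932220647) (nat_lit 152) (nat_lit 3055934941) (nat_lit 25) (nat_lit 5) (nat_lit 26) (nat_lit 5) (nat_lit 27) (nat_lit 4) (nat_lit 289) (nat_lit 254) (nat_lit 237)) (XT.nd (nat_lit 78) (nat_lit 76) (nat_lit 0) (XT.lf (nat_lit 0) (nat_lit 2783078450) (nat_lit 228)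 (nat_lit 8715121330) (nat_lit 76) (nat_lit 4598492931) (nat_lit 22) (nat_lit 5) (nat_lit 25) (nat_lit 5) (nat_lit 23) (nat_lit 4) (nat_lit 290) (nat_lit 254) (nat_lit 236)) (XT.lf (nat_lit 0) (nat_lit 3608234523) (nat_lit 76) (nat_lit 5360155618) (nat_lit 152) (nat_lit 8039848920) (nat_lit 21) (nat_lit 5) (nat_lit 22) (nat_lit 5) (nat_lit 23) (nat_lit 4) (nat_lit 291) (nat_lit 254) (nat_lit 235)))))) (XT.nd (nat_lit 390) (nat_lit 304) (nat_lit 0) (XT.nd (nat_lit 156) (nat_lit 228) (nat_lit 0) (XT.nd (nat_lit 78) (nat_lit 228) (nat_lit 0) (XT.lf (nat_lit 0) (nat_lit 15637322670) (nat_lit 152) (nat_lit 1106442605) (nat_lit 0) (nat_lit 1249619317) (nat_lit 21) (nat_lit 5) (nat_lit 23) (nat_lit 4) (nat_lit 21) (nat_lit 4) (nat_lit 292) (nat_lit 254) (nat_lit 234)) (XT.lf (nat_lit 0) (nat_lit 3771787371) (nat_lit 228) (nat_lit 6946653221) (nat_lit 76) (nat_lit 8330529072) (nat_lit 18) (nat_lit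 5) (nat_lit 21) (nat_lit 5) (nat_lit 19) (nat_lit 4) (nat_lit 293) (nat_lit 254) (nat_lit 233))) (XT.nd (nat_lit 78) (nat_lit 152) (nat_lit 0) (XT.lf (nat_lit 0) (nat_lit 6077911213) (nat_lit 76) (nat_lit 4178810019) (nat_lit 152) (nat_lit 9932973152) (nat_lit 17) (nat_lit 5) (nat_lit 18) (nat_lit 5) (nat_lit 19) (nat_lit 4) (nat_lit 294) (nat_lit 254) (nat_lit 232)) (XT.nd (nat_lit 78) (nat_lit 152) (nat_lit 0) (XT.lf (nat_lit 0) (nat_lit 17268227704) (nat_lit 152) (nat_lit 1359158617) (nat_lit 0) (nat_lit 2793989009) (nat_lit 17) (nat_lit 5) (nat_lit 19) (nat_lit 4) (nat_lit 17) (nat_lit 4) (nat_lit 295) (nat_lit 254) (nat_lit 231)) (XT.lf (nat_lit 0) (nat_lit 2140898931) (nat_lit 152) (nat_lit 10305486992) (nat_lit 76) (nat_lit 10297715968) (nat_lit 15) (nat_lit 5) (nat_lit 17) (nat_lit 5) (nat_lit 16) (nat_lit 4) (nat_lit 296) (nat_lit 254) (nat_lit 230))))) (XT.nd (nat_lit 234) (nat_lit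 152) (nat_lit 0) (XT.nd (nat_lit 78) (nat_lit 76) (nat_lit 0) (XT.lf (nat_lit 0) (nat_lit 2981481101) (nat_lit 76) (nat_lit 5740274492) (nat_lit 152) (nat_lit 15451118299) (nat_lit 14) (nat_lit 5) (nat_lit 15) (nat_lit 5) (nat_lit 16) (nat_lit 4) (nat_lit 297) (nat_lit 254) (nat_lit 229)) (XT.nd (nat_lit 78) (nat_lit 76) (nat_lit 0) (XT.lf (nat_lit 0) (nat_lit 15896226654) (nat_lit 152) (nat_lit 8288593902) (nat_lit 0) (nat_lit 1527835687) (nat_lit 14) (nat_lit 5) (nat_lit 16) (nat_lit 4) (nat_lit 14) (nat_lit 4) (nat_lit 298) (nat_lit 254) (nat_lit 228)) (XT.lf (nat_lit 0) (nat_lit 5489563752) (nat_lit 76) (nat_lit 18209102254) (nat_lit 76) (nat_lit 3674315651) (nat_lit 13) (nat_lit 4) (nat_lit 14) (nat_lit 5) (nat_lit 14) (nat_lit 4) (nat_lit 299) (nat_lit 254) (nat_lit 227)))) (XT.nd (nat_lit 78) (nat_lit 76) (nat_lit 0) (XT.lf (nat_lit 0) (nat_lit 2886649859) (nat_lit 152) (nat_lit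 8771224424) (nat_lit 76) (nat_lit 17504892858) (nat_lit 12) (nat_lit 5) (nat_lit 14) (nat_lit 5) (nat_lit 13) (nat_lit 4) (nat_lit 300) (nat_lit 254) (nat_lit 226)) (XT.nd (nat_lit 78) (nat_lit 0) (nat_lit 0) (XT.lf (nat_lit 0) (nat_lit 5284439063) (nat_lit 76) (nat_lit 4528221003) (nat_lit 152) (nat_lit 21281668595) (nat_lit 11) (nat_lit 5) (nat_lit 12) (nat_lit 5) (nat_lit 13) (nat_lit 4) (nat_lit 301) (nat_lit 254) (nat_lit 225)) (XT.lf (nat_lit 0) (nat_lit 17386144397) (nat_lit 152) (nat_lit 12654554472) (nat_lit 0) (nat_lit 3135092689) (nat_lit 11) (nat_lit 5) (nat_lit 13) (nat_lit 4) (nat_lit 11) (nat_lit 4) (nat_lit 302) (nat_lit 254) (nat_lit 224))))))) (XT.nd (nat_lit 858) (nat_lit 76) (nat_lit 0) (XT.nd (nat_lit 390) (nat_lit 228) (nat_lit 0) (XT.nd (nat_lit 156) (nat_lit 152) (nat_lit 0) (XT.nd (nat_lit 78) (nat_lit 0) (nat_lit 0) (XT.lf (nat_lit 0) (nat_lit 1327177128) (nat_lit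 76) (nat_lit 24232237545) (nat_lit 76) (nat_lit 9864704161) (nat_lit 10) (nat_lit 4) (nat_lit 11) (nat_lit 5) (nat_lit 11) (nat_lit 4) (nat_lit 303) (nat_lit 254) (nat_lit 223)) (XT.lf (nat_lit 0) (nat_lit 16695533891) (nat_lit 76) (nat_lit 17813051396) (nat_lit 76) (nat_lit 3337664609) (nat_lit 10) (nat_lit 4) (nat_lit 11) (nat_lit 5) (nat_lit 11) (nat_lit 4) (nat_lit 304) (nat_lit 254) (nat_lit 222))) (XT.nd (nat_lit 78) (nat_lit 76) (nat_lit 0) (XT.lf (nat_lit 0) (nat_lit 3500109804) (nat_lit 152) (nat_lit 7400025949) (nat_lit 76) (nat_lit 29563784980) (nat_lit 9) (nat_lit 5) (nat_lit 11) (nat_lit 5) (nat_lit 10) (nat_lit 4) (nat_lit 305) (nat_lit 254) (nat_lit 221)) (XT.nd (nat_lit 78) (nat_lit 0) (nat_lit 0) (XT.lf (nat_lit 0) (nat_lit 7473178396) (nat_lit 76) (nat_lit 3327258850) (nat_lit 152) (nat_lit 32486241157) (nat_lit 8) (nat_lit 5) (nat_lit 9) (nat_lit 5) (nat_lit 10) (nat_lit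 4) (nat_lit 306) (nat_lit 254) (nat_lit 220)) (XT.lf (nat_lit 0) (nat_lit 18808617050) (nat_lit 152) (nat_lit 22762656856) (nat_lit 0) (nat_lit 4757821367) (nat_lit 8) (nat_lit 5) (nat_lit 10) (nat_lit 4) (nat_lit 8) (nat_lit 4) (nat_lit 307) (nat_lit 254) (nat_lit 219))))) (XT.nd (nat_lit 234) (nat_lit 152) (nat_lit 0) (XT.nd (nat_lit 78) (nat_lit 76) (nat_lit 0) (XT.lf (nat_lit 0) (nat_lit 27436762875) (nat_lit 152) (nat_lit 8868737973) (nat_lit 0) (nat_lit 13310466742) (nat_lit 8) (nat_lit 5) (nat_lit 10) (nat_lit 4) (nat_lit 8) (nat_lit 4) (nat_lit 308) (nat_lit 254) (nat_lit 218)) (XT.nd (nat_lit 78) (nat_lit 0) (nat_lit 0) (XT.lf (nat_lit 0) (nat_lit 6201009850) (nat_lit 76) (nat_lit 30579861929) (nat_lit 76) (nat_lit 16383657974) (nat_lit 7) (nat_lit 4) (nat_lit 8) (nat_lit 5) (nat_lit 8) (nat_lit 4) (nat_lit 309) (nat_lit 254) (nat_lit 217)) (XT.lf (nat_lit 0) (nat_lit 22664711901)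 (nat_lit 76) (nat_lit 24294444885) (nat_lit 76) (nat_lit 10033511464) (nat_lit 7) (nat_lit 4) (nat_lit 8) (nat_lit 5) (nat_lit 8) (nat_lit 4) (nat_lit 310) (nat_lit 254) (nat_lit 216)))) (XT.nd (nat_lit 78) (nat_lit 152) (nat_lit 0) (XT.lf (nat_lit 0) (nat_lit 40326690328) (nat_lit 76) (nat_lit 17562199169) (nat_lit 76) (nat_lit 3241331058) (nat_lit 7) (nat_lit 4) (nat_lit 8) (nat_lit 5) (nat_lit 8) (nat_lit 4) (nat_lit 311) (nat_lit 254) (nat_lit 215)) (XT.nd (nat_lit 78) (nat_lit 76) (nat_lit 0) (XT.lf (nat_lit 0) (nat_lit 3904047752) (nat_lit 152) (nat_lit 6373065303) (nat_lit 76) (nat_lit 55321444017) (nat_lit 6) (nat_lit 5) (nat_lit 8) (nat_lit 5) (nat_lit 7) (nat_lit 4) (nat_lit 312) (nat_lit 254) (nat_lit 214)) (XT.lf (nat_lit 0) (nat_lit 9352833946) (nat_lit 76) (nat_lit 2247449701) (nat_lit 152) (nat_lit 58816798614) (nat_lit 5) (nat_lit 5) (nat_lit 6) (nat_lit 5) (nat_lit 7)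 (nat_lit 4) (nat_lit 313) (nat_lit 254) (nat_lit 213)))))) (XT.nd (nat_lit 390) (nat_lit 0) (nat_lit 0) (XT.nd (nat_lit 156) (nat_lit 76) (nat_lit 0) (XT.nd (nat_lit 78) (nat_lit 0) (nat_lit 0) (XT.lf (nat_lit 0) (nat_lit 20072378274) (nat_lit 152) (nat_lit 49254365937) (nat_lit 0) (nat_lit 6286353873) (nat_lit 5) (nat_lit 5) (nat_lit 7) (nat_lit 4) (nat_lit 5) (nat_lit 4) (nat_lit 314) (nat_lit 254) (nat_lit 212)) (XT.lf (nat_lit 0) (nat_lit 29211080521) (nat_lit 152) (nat_lit 36631187901) (nat_lit 0) (nat_lit 15383100132) (nat_lit 5) (nat_lit 5) (nat_lit 7) (nat_lit 4) (nat_lit 5) (nat_lit 4) (nat_lit 315) (nat_lit 254) (nat_lit 211))) (XT.nd (nat_lit 78) (nat_lit 76) (nat_lit 0) (XT.lf (nat_lit 0) (nat_lit 39035456671) (nat_lit 152) (nat_lit 23084821201) (nat_lit 0) (nat_lit 25168628145) (nat_lit 5) (nat_lit 5) (nat_lit 7) (nat_lit 4) (nat_lit 5) (nat_lit 4) (nat_lit 316) (nat_lit 254)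 (nat_lit 210)) (XT.nd (nat_lit 78) (nat_lit 76) (nat_lit 0) (XT.lf (nat_lit 0) (nat_lit 49603725249) (nat_lit 152) (nat_lit 8534991071) (nat_lit 0) (nat_lit 35700926228) (nat_lit 5) (nat_lit 5) (nat_lit 7) (nat_lit 4) (nat_lit 5) (nat_lit 4) (nat_lit 317) (nat_lit 254) (nat_lit 209)) (XT.lf (nat_lit 0) (nat_lit 7339431342) (nat_lit 76) (nat_lit 53753670783) (nat_lit 76) (nat_lit 39817565746) (nat_lit 4) (nat_lit 4) (nat_lit 5) (nat_lit 5) (nat_lit 5) (nat_lit 4) (nat_lit 318) (nat_lit 254) (nat_lit 208))))) (XT.nd (nat_lit 234) (nat_lit 0) (nat_lit 0) (XT.nd (nat_lit 78) (nat_lit 0) (nat_lit 0) (XT.lf (nat_lit 0) (nat_lit 24717516626) (nat_lit 76) (nat_lit 48895619253) (nat_lit 76) (nat_lit 34928675312) (nat_lit 4) (nat_lit 4) (nat_lit 5) (nat_lit 5) (nat_lit 5) (nat_lit 4) (nat_lit 319) (nat_lit 254) (nat_lit 207)) (XT.nd (nat_lit 78) (nat_lit 0) (nat_lit 0) (XT.lf (nat_lit 0) (nat_lit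 43420040677) (nat_lit 76) (nat_lit 43680317479) (nat_lit 76) (nat_lit 29684818998) (nat_lit 4) (nat_lit 4) (nat_lit 5) (nat_lit 5) (nat_lit 5) (nat_lit 4) (nat_lit 320) (nat_lit 254) (nat_lit 206)) (XT.lf (nat_lit 0) (nat_lit 63557833266) (nat_lit 76) (nat_lit 38076859970) (nat_lit 76) (nat_lit 24054922101) (nat_lit 4) (nat_lit 4) (nat_lit 5) (nat_lit 5) (nat_lit 5) (nat_lit 4) (nat_lit 321) (nat_lit 254) (nat_lit 205)))) (XT.nd (nat_lit 78) (nat_lit 0) (nat_lit 0) (XT.lf (nat_lit 0) (nat_lit 85250229461) (nat_lit 76) (nat_lit 32052041052) (nat_lit 76) (nat_lit 18005622267) (nat_lit 4) (nat_lit 4) (nat_lit 5) (nat_lit 5) (nat_lit 5) (nat_lit 4) (nat_lit 322) (nat_lit 254) (nat_lit 204)) (XT.nd (nat_lit 78) (nat_lit 0) (nat_lit 0) (XT.lf (nat_lit 0) (nat_lit 108625776794) (nat_lit 76) (nat_lit 25570158093) (nat_lit 76) (nat_lit 11501071794) (nat_lit 4) (nat_lit 4) (nat_lit 5) (nat_lit 5)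 (nat_lit 5) (nat_lit 4) (nat_lit 323) (nat_lit 254) (nat_lit 203)) (XT.lf (nat_lit 0) (nat_lit 133822997028) (nat_lit 76) (nat_lit 18592799937) (nat_lit 76) (nat_lit 4502725198) (nat_lit 4) (nat_lit 4) (nat_lit 5) (nat_lit 5) (nat_lit 5) (nat_lit 4) (nat_lit 324) (nat_lit 254) (nat_lit 202))))))))
noncomputable def xc37 : XT := (XT.nd (nat_lit 1638) (nat_lit 76) (nat_lit 0) (XT.nd (nat_lit 780) (nat_lit 0) (nat_lit 0) (XT.nd (nat_lit 390) (nat_lit 0) (nat_lit 0) (XT.nd (nat_lit 156) (nat_lit 0) (nat_lit 0) (XT.nd (nat_lit 78) (nat_lit 76) (nat_lit 0) (XT.lf (nat_lit 0) (nat_lit 2933881820) (nat_lit 152) (nat_lit 8095050745) (nat_lit 76) (nat_lit 158007638495) (nat_lit 3) (nat_lit 5) (nat_lit 5) (nat_lit 5) (nat_lit 4) (nat_lit 4) (nat_lit 325) (nat_lit 254) (nat_lit 201)) (XT.lf (nat_lit 0) (nat_lit 8251429136) (nat_lit 76) (nat_lit 2665122970) (nat_lit 152) (nat_lit 171198382875) (nat_lit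 2) (nat_lit 5) (nat_lit 3) (nat_lit 5) (nat_lit 4) (nat_lit 4) (nat_lit 326) (nat_lit 254) (nat_lit 200))) (XT.nd (nat_lit 78) (nat_lit 0) (nat_lit 0) (XT.lf (nat_lit 0) (nat_lit 19759229818) (nat_lit 152) (nat_lit 170180676871) (nat_lit 0) (nat_lit 6288597453) (nat_lit 2) (nat_lit 5) (nat_lit 4) (nat_lit 4) (nat_lit 2) (nat_lit 4) (nat_lit 327) (nat_lit 254) (nat_lit 199)) (XT.nd (nat_lit 78) (nat_lit 0) (nat_lit 0) (XT.lf (nat_lit 0) (nat_lit 29334494405) (nat_lit 152) (nat_lit 166286241650) (nat_lit 0) (nat_lit 15849169536) (nat_lit 2) (nat_lit 5) (nat_lit 4) (nat_lit 4) (nat_lit 2) (nat_lit 4) (nat_lit 328) (nat_lit 254) (nat_lit 198)) (XT.lf (nat_lit 0) (nat_lit 39657478138) (nat_lit 152) (nat_lit 162115512007) (nat_lit 0) (nat_lit 26158549099) (nat_lit 2) (nat_lit 5) (nat_lit 4) (nat_lit 4) (nat_lit 2) (nat_lit 4) (nat_lit 329) (nat_lit 254) (nat_lit 197))))) (XT.nd (nat_lit 156)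 (nat_lit 0) (nat_lit 0) (XT.nd (nat_lit 78) (nat_lit 0) (nat_lit 0) (XT.lf (nat_lit 0) (nat_lit 50789354253) (nat_lit 152) (nat_lit 157643772509) (nat_lit 0) (nat_lit 37277828760) (nat_lit 2) (nat_lit 5) (nat_lit 4) (nat_lit 4) (nat_lit 2) (nat_lit 4) (nat_lit 330) (nat_lit 254) (nat_lit 196)) (XT.lf (nat_lit 0) (nat_lit 62796089425) (nat_lit 152) (nat_lit 152844523957) (nat_lit 0) (nat_lit 49272900549) (nat_lit 2) (nat_lit 5) (nat_lit 4) (nat_lit 4) (nat_lit 2) (nat_lit 4) (nat_lit 331) (nat_lit 254) (nat_lit 195))) (XT.nd (nat_lit 78) (nat_lit 0) (nat_lit 0) (XT.lf (nat_lit 0) (nat_lit 75748834677) (nat_lit 152) (nat_lit 147689326361) (nat_lit 0) (nat_lit 62214846371) (nat_lit 2) (nat_lit 5) (nat_lit 4) (nat_lit 4) (nat_lit 2) (nat_lit 4) (nat_lit 332) (nat_lit 254) (nat_lit 194)) (XT.nd (nat_lit 78) (nat_lit 0) (nat_lit 0) (XT.lf (nat_lit 0) (nat_lit 89724347017) (nat_lit 152) (nat_lit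 142147630401) (nat_lit 0) (nat_lit 76180359239) (nat_lit 2) (nat_lit 5) (nat_lit 4) (nat_lit 4) (nat_lit 2) (nat_lit 4) (nat_lit 333) (nat_lit 254) (nat_lit 193)) (XT.lf (nat_lit 0) (nat_lit 104805444296) (nat_lit 152) (nat_lit 136186596398) (nat_lit 0) (nat_lit 91252197748) (nat_lit 2) (nat_lit 5) (nat_lit 4) (nat_lit 4) (nat_lit 2) (nat_lit 4) (nat_lit 334) (nat_lit 254) (nat_lit 192)))))) (XT.nd (nat_lit 390) (nat_lit 0) (nat_lit 0) (XT.nd (nat_lit 156) (nat_lit 0) (nat_lit 0) (XT.nd (nat_lit 78) (nat_lit 0) (nat_lit 0) (XT.lf (nat_lit 0) (nat_lit 121081495979) (nat_lit 152) (nat_lit 129770899706) (nat_lit 0) (nat_lit 107519676497) (nat_lit 2) (nat_lit 5) (nat_lit 4) (nat_lit 4) (nat_lit 2) (nat_lit 4) (nat_lit 335) (nat_lit 254) (nat_lit 191)) (XT.lf (nat_lit 0) (nat_lit 138648952744) (nat_lit 152) (nat_lit 122862521381) (nat_lit 0) (nat_lit 125079195359) (nat_lit 2) (nat_lit 5) (nat_lit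 4) (nat_lit 4) (nat_lit 2) (nat_lit 4) (nat_lit 336) (nat_lit 254) (nat_lit 190))) (XT.nd (nat_lit 78) (nat_lit 0) (nat_lit 0) (XT.lf (nat_lit 0) (nat_lit 157611918038) (nat_lit 152) (nat_lit 115420522886) (nat_lit 0) (nat_lit 144034810742) (nat_lit 2) (nat_lit 5) (nat_lit 4) (nat_lit 4) (nat_lit 2) (nat_lit 4) (nat_lit 337) (nat_lit 254) (nat_lit 189)) (XT.nd (nat_lit 78) (nat_lit 0) (nat_lit 0) (XT.lf (nat_lit 0) (nat_lit 178082764988) (nat_lit 152) (nat_lit 107400803488) (nat_lit 0) (nat_lit 164498852220) (nat_lit 2) (nat_lit 5) (nat_lit 4) (nat_lit 4) (nat_lit 2) (nat_lit 4) (nat_lit 338) (nat_lit 254) (nat_lit 188)) (XT.lf (nat_lit 0) (nat_lit 200182802317) (nat_lit 152) (nat_lit 98755838924) (nat_lit 0) (nat_lit 186592588185) (nat_lit 2) (nat_lit 5) (nat_lit 4) (nat_lit 4) (nat_lit 2) (nat_lit 4) (nat_lit 339) (nat_lit 254) (nat_lit 187))))) (XT.nd (nat_lit 234) (nat_lit 0) (nat_lit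 0) (XT.nd (nat_lit 78) (nat_lit 0) (nat_lit 0) (XT.lf (nat_lit 0) (nat_lit 224042993209) (nat_lit 152) (nat_lit 89434399774) (nat_lit 0) (nat_lit 210446944482) (nat_lit 2) (nat_lit 5) (nat_lit 4) (nat_lit 4) (nat_lit 2) (nat_lit 4) (nat_lit 340) (nat_lit 254) (nat_lit 186)) (XT.nd (nat_lit 78) (nat_lit 0) (nat_lit 0) (XT.lf (nat_lit 0) (nat_lit 249804731388) (nat_lit 152) (nat_lit 79381247882) (nat_lit 0) (nat_lit 236203280258) (nat_lit 2) (nat_lit 5) (nat_lit 4) (nat_lit 4) (nat_lit 2) (nat_lit 4) (nat_lit 341) (nat_lit 254) (nat_lit 185)) (XT.lf (nat_lit 0) (nat_lit 277620679007) (nat_lit 152) (nat_lit 68536809013) (nat_lit 0) (nat_lit 264014225651) (nat_lit 2) (nat_lit 5) (nat_lit 4) (nat_lit 4) (nat_lit 2) (nat_lit 4) (nat_lit 342) (nat_lit 254) (nat_lit 184)))) (XT.nd (nat_lit 78) (nat_lit 0) (nat_lit 0) (XT.lf (nat_lit 0) (nat_lit 307655671309) (nat_lit 152) (nat_lit 56836819825)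 (nat_lit 0) (nat_lit 294044586264) (nat_lit 2) (nat_lit 5) (nat_lit 4) (nat_lit 4) (nat_lit 2) (nat_lit 4) (nat_lit 343) (nat_lit 254) (nat_lit 183)) (XT.nd (nat_lit 78) (nat_lit 0) (nat_lit 0) (XT.lf (nat_lit 0) (nat_lit 340087693436) (nat_lit 152) (nat_lit 44211947050) (nat_lit 0) (nat_lit 326472319789) (nat_lit 2) (nat_lit 5) (nat_lit 4) (nat_lit 4) (nat_lit 2) (nat_lit 4) (nat_lit 344) (nat_lit 254) (nat_lit 182)) (XT.lf (nat_lit 0) (nat_lit 375108935148) (nat_lit 152) (nat_lit 30587376627) (nat_lit 0) (nat_lit 361489590572) (nat_lit 2) (nat_lit 5) (nat_lit 4) (nat_lit 4) (nat_lit 2) (nat_lit 4) (nat_lit 345) (nat_lit 254) (nat_lit 181))))))) (XT.nd (nat_lit 35256) (nat_lit 0) (nat_lit 2128) (XT.nd (nat_lit 34788) (nat_lit 0) (nat_lit 4560) (XT.nd (nat_lit 156) (nat_lit 76) (nat_lit 0) (XT.nd (nat_lit 78) (nat_lit 0) (nat_lit 0) (XT.lf (nat_lit 0) (nat_lit 412926929728) (nat_lit 152)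 (nat_lit 15882370360) (nat_lit 0) (nat_lit 399303908368) (nat_lit 2) (nat_lit 5) (nat_lit 4) (nat_lit 4) (nat_lit 2) (nat_lit 4) (nat_lit 346) (nat_lit 254) (nat_lit 180)) (XT.lf (nat_lit 0) (nat_lit 453765783812) (nat_lit 152) (nat_lit 9787472) (nat_lit 0) (nat_lit 440139358021) (nat_lit 2) (nat_lit 5) (nat_lit 4) (nat_lit 4) (nat_lit 2) (nat_lit 4) (nat_lit 347) (nat_lit 254) (nat_lit 179))) (XT.nd (nat_lit 78) (nat_lit 0) (nat_lit 0) (XT.lf (nat_lit 0) (nat_lit 17690642838) (nat_lit 76) (nat_lit 480453063097) (nat_lit 76) (nat_lit 466823485056) (nat_lit 1) (nat_lit 4) (nat_lit 2) (nat_lit 5) (nat_lit 2) (nat_lit 4) (nat_lit 348) (nat_lit 254) (nat_lit 178)) (XT.nd (nat_lit 34476) (nat_lit 0) (nat_lit 6992) (XT.lf (nat_lit 0) (nat_lit 36799641891) (nat_lit 76) (nat_lit 509268341747) (nat_lit 76) (nat_lit 495635844955) (nat_lit 1) (nat_lit 4) (nat_lit 2) (nat_lit 5) (nat_lit 2) (nat_lit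 4) (nat_lit 349) (nat_lit 254) (nat_lit 177)) (XT.lf (nat_lit 0) (nat_lit 1077208680) (nat_lit 684) (nat_lit 1263879046) (nat_lit 684) (nat_lit 1263879046) (nat_lit 93) (nat_lit 4) (nat_lit 102) (nat_lit 5) (nat_lit 102) (nat_lit 4) (nat_lit 270) (nat_lit 255) (nat_lit 255))))) (XT.nd (nat_lit 234) (nat_lit 1064) (nat_lit 0) (XT.nd (nat_lit 78) (nat_lit 760) (nat_lit 0) (XT.lf (nat_lit 0) (nat_lit 2642327250) (nat_lit 608) (nat_lit 4481454188) (nat_lit 0) (nat_lit 255313518) (nat_lit 85) (nat_lit 5) (nat_lit 93) (nat_lit 4) (nat_lit 85) (nat_lit 4) (nat_lit 271) (nat_lit 255) (nat_lit 254)) (XT.nd (nat_lit 78) (nat_lit 304) (nat_lit 0) (XT.lf (nat_lit 0) (nat_lit 356630754) (nat_lit 456) (nat_lit 3866118584) (nat_lit 76) (nat_lit 3347419709) (nat_lit 79) (nat_lit 5) (nat_lit 85) (nat_lit 5) (nat_lit 80) (nat_lit 4) (nat_lit 272) (nat_lit 255) (nat_lit 253)) (XT.lf (nat_lit 0) (nat_lit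 4570467810) (nat_lit 304) (nat_lit 899853642) (nat_lit 380) (nat_lit 2314100896) (nat_lit 75) (nat_lit 5) (nat_lit 79) (nat_lit 5) (nat_lit 80) (nat_lit 4) (nat_lit 273) (nat_lit 255) (nat_lit 252)))) (XT.nd (nat_lit 78) (nat_lit 684) (nat_lit 0) (XT.lf (nat_lit 0) (nat_lit 2721666876) (nat_lit 380) (nat_lit 2552563501) (nat_lit 76) (nat_lit 2747908101) (nat_lit 70) (nat_lit 5) (nat_lit 75) (nat_lit 5) (nat_lit 71) (nat_lit 4) (nat_lit 274) (nat_lit 255) (nat_lit 251)) (XT.nd (nat_lit 78) (nat_lit 380) (nat_lit 0) (XT.lf (nat_lit 0) (nat_lit 6418082456) (nat_lit 304) (nat_lit 1494620242) (nat_lit 380) (nat_lit 373181773) (nat_lit 66) (nat_lit 5) (nat_lit 70) (nat_lit 5) (nat_lit 71) (nat_lit 4) (nat_lit 275) (nat_lit 255) (nat_lit 250)) (XT.lf (nat_lit 0) (nat_lit 4666475143) (nat_lit 380) (nat_lit 1243401617) (nat_lit 76) (nat_lit 2663677046) (nat_lit 61) (nat_lit 5) (nat_lit 66) (nat_lit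 5) (nat_lit 62) (nat_lit 4) (nat_lit 276) (nat_lit 255) (nat_lit 249)))))) (XT.nd (nat_lit 390) (nat_lit 912) (nat_lit 0) (XT.nd (nat_lit 156) (nat_lit 988) (nat_lit 0) (XT.nd (nat_lit 78) (nat_lit 228) (nat_lit 0) (XT.lf (nat_lit 0) (nat_lit 1048607424) (nat_lit 304) (nat_lit 635186842) (nat_lit 76) (nat_lit 7205888413) (nat_lit 57) (nat_lit 5) (nat_lit 61) (nat_lit 5) (nat_lit 58) (nat_lit 5) (nat_lit 277) (nat_lit 255) (nat_lit 248)) (XT.lf (nat_lit 0) (nat_lit 6179360499) (nat_lit 304) (nat_lit 129797688) (nat_lit 76) (nat_lit 2923386394) (nat_lit 54) (nat_lit 5) (nat_lit 58) (nat_lit 5) (nat_lit 55) (nat_lit 4) (nat_lit 278) (nat_lit 255) (nat_lit 247))) (XT.nd (nat_lit 78) (nat_lit 456) (nat_lit 0) (XT.lf (nat_lit 0) (nat_lit 303351640) (nat_lit 228) (nat_lit 1660363225) (nat_lit 304) (nat_lit 7642149973) (nat_lit 47) (nat_lit 5) (nat_lit 50) (nat_lit 5) (nat_lit 51) (nat_lit 5)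 (nat_lit 279) (nat_lit 255) (nat_lit 246)) (XT.nd (nat_lit 78) (nat_lit 304) (nat_lit 0) (XT.lf (nat_lit 0) (nat_lit 578602818) (nat_lit 152) (nat_lit 6645815010) (nat_lit 228) (nat_lit 2785002251) (nat_lit 45) (nat_lit 5) (nat_lit 47) (nat_lit 5) (nat_lit 48) (nat_lit 4) (nat_lit 280) (nat_lit 255) (nat_lit 245)) (XT.lf (nat_lit 0) (nat_lit 693083209) (nat_lit 228) (nat_lit 1620712441) (nat_lit 304) (nat_lit 8133253807) (nat_lit 41) (nat_lit 5) (nat_lit 44) (nat_lit 5) (nat_lit 45) (nat_lit 5) (nat_lit 281) (nat_lit 255) (nat_lit 244))))) (XT.nd (nat_lit 234) (nat_lit 532) (nat_lit 0) (XT.nd (nat_lit 78) (nat_lit 228) (nat_lit 0) (XT.lf (nat_lit 0) (nat_lit 562321997) (nat_lit 152) (nat_lit 7137447218) (nat_lit 228) (nat_lit 3219075021) (nat_lit 39) (nat_lit 5) (nat_lit 41) (nat_lit 5) (nat_lit 42) (nat_lit 4) (nat_lit 282) (nat_lit 255) (nat_lit 243)) (XT.nd (nat_lit 78) (nat_lit 0)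 (nat_lit 0) (XT.lf (nat_lit 0) (nat_lit 185569886) (nat_lit 152) (nat_lit 1788097822) (nat_lit 228) (nat_lit 9455718394) (nat_lit 36) (nat_lit 5) (nat_lit 38) (nat_lit 5) (nat_lit 39) (nat_lit 5) (nat_lit 283) (nat_lit 255) (nat_lit 242)) (XT.lf (nat_lit 0) (nat_lit 7476181399) (nat_lit 228) (nat_lit 533468886) (nat_lit 76) (nat_lit 3968354522) (nat_lit 36) (nat_lit 5) (nat_lit 39) (nat_lit 5) (nat_lit 37) (nat_lit 4) (nat_lit 284) (nat_lit 255) (nat_lit 241)))) (XT.nd (nat_lit 78) (nat_lit 304) (nat_lit 0) (XT.lf (nat_lit 0) (nat_lit 800357687) (nat_lit 228) (nat_lit 1583676125) (nat_lit 76) (nat_lit 10187062174) (nat_lit 33) (nat_lit 5) (nat_lit 36) (nat_lit 5) (nat_lit 34) (nat_lit 5) (nat_lit 285) (nat_lit 255) (nat_lit 240)) (XT.nd (nat_lit 78) (nat_lit 152) (nat_lit 0) (XT.lf (nat_lit 0) (nat_lit 6383703359) (nat_lit 228) (nat_lit 3130166014) (nat_lit 76) (nat_lit 3693526191) (nat_lit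 31) (nat_lit 5) (nat_lit 34) (nat_lit 5) (nat_lit 32) (nat_lit 4) (nat_lit 286) (nat_lit 255) (nat_lit 239)) (XT.lf (nat_lit 0) (nat_lit 8733335398) (nat_lit 152) (nat_lit 3678985610) (nat_lit 228) (nat_lit 1482520779) (nat_lit 29) (nat_lit 5) (nat_lit 31) (nat_lit 5) (nat_lit 32) (nat_lit 4) (nat_lit 287) (nat_lit 255) (nat_lit 238))))))))
noncomputable def xc38 : XT := (XT.nd (nat_lit 1638) (nat_lit 456) (nat_lit 0) (XT.nd (nat_lit 780) (nat_lit 532) (nat_lit 0) (XT.nd (nat_lit 390) (nat_lit 456) (nat_lit 0) (XT.nd (nat_lit 156) (nat_lit 304) (nat_lit 0) (XT.nd (nat_lit 78) (nat_lit 76) (nat_lit 0) (XT.lf (nat_lit 0) (nat_lit 4154482032) (nat_lit 228) (nat_lit 7836081895) (nat_lit 76) (nat_lit 2643240732) (nat_lit 26) (nat_lit 5) (nat_lit 29) (nat_lit 5) (nat_lit 27) (nat_lit 4) (nat_lit 288) (nat_lit 255) (nat_lit 237)) (XT.lf (nat_lit 0) (nat_lit 4191224659) (nat_lit 76) (nat_lit 6027459863)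 (nat_lit 152) (nat_lit 5210717040) (nat_lit 25) (nat_lit 5) (nat_lit 26) (nat_lit 5) (nat_lit 27) (nat_lit 4) (nat_lit 289) (nat_lit 255) (nat_lit 236))) (XT.nd (nat_lit 78) (nat_lit 76) (nat_lit 0) (XT.lf (nat_lit 0) (nat_lit 438356002) (nat_lit 228) (nat_lit 15417025797) (nat_lit 76) (nat_lit 434298584) (nat_lit 22) (nat_lit 5) (nat_lit 25) (nat_lit 5) (nat_lit 23) (nat_lit 4) (nat_lit 290) (nat_lit 255) (nat_lit 235)) (XT.nd (nat_lit 78) (nat_lit 76) (nat_lit 0) (XT.lf (nat_lit 0) (nat_lit 6481676274) (nat_lit 228) (nat_lit 3358342492) (nat_lit 76) (nat_lit 7368362956) (nat_lit 22) (nat_lit 5) (nat_lit 25) (nat_lit 5) (nat_lit 23) (nat_lit 4) (nat_lit 291) (nat_lit 255) (nat_lit 234)) (XT.lf (nat_lit 0) (nat_lit 9687782865) (nat_lit 76) (nat_lit 3306964158) (nat_lit 152) (nat_lit 5206624630) (nat_lit 21) (nat_lit 5) (nat_lit 22) (nat_lit 5) (nat_lit 23) (nat_lit 4) (nat_lit 292) (nat_lit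 255) (nat_lit 233))))) (XT.nd (nat_lit 156) (nat_lit 228) (nat_lit 0) (XT.nd (nat_lit 78) (nat_lit 0) (nat_lit 0) (XT.lf (nat_lit 0) (nat_lit 759504383) (nat_lit 228) (nat_lit 14856802695) (nat_lit 76) (nat_lit 3655567965) (nat_lit 18) (nat_lit 5) (nat_lit 21) (nat_lit 5) (nat_lit 19) (nat_lit 4) (nat_lit 293) (nat_lit 255) (nat_lit 232)) (XT.lf (nat_lit 0) (nat_lit 7075566790) (nat_lit 228) (nat_lit 2158458075) (nat_lit 76) (nat_lit 11187060367) (nat_lit 18) (nat_lit 5) (nat_lit 21) (nat_lit 5) (nat_lit 19) (nat_lit 4) (nat_lit 294) (nat_lit 255) (nat_lit 231))) (XT.nd (nat_lit 78) (nat_lit 152) (nat_lit 0) (XT.lf (nat_lit 0) (nat_lit 11675830941) (nat_lit 76) (nat_lit 2260899107) (nat_lit 152) (nat_lit 7723592086) (nat_lit 17) (nat_lit 5) (nat_lit 18) (nat_lit 5) (nat_lit 19) (nat_lit 4) (nat_lit 295) (nat_lit 255) (nat_lit 230)) (XT.nd (nat_lit 78) (nat_lit 76) (nat_lit 0) (XT.lf (nat_lit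 0) (nat_lit 3477743415) (nat_lit 76) (nat_lit 17906456971) (nat_lit 76) (nat_lit 1612701614) (nat_lit 16) (nat_lit 4) (nat_lit 17) (nat_lit 5) (nat_lit 17) (nat_lit 4) (nat_lit 296) (nat_lit 255) (nat_lit 229)) (XT.lf (nat_lit 0) (nat_lit 4909223943) (nat_lit 152) (nat_lit 6418538924) (nat_lit 76) (nat_lit 13104729131) (nat_lit 15) (nat_lit 5) (nat_lit 17) (nat_lit 5) (nat_lit 16) (nat_lit 4) (nat_lit 297) (nat_lit 255) (nat_lit 228)))))) (XT.nd (nat_lit 390) (nat_lit 228) (nat_lit 0) (XT.nd (nat_lit 156) (nat_lit 228) (nat_lit 0) (XT.nd (nat_lit 78) (nat_lit 0) (nat_lit 0) (XT.lf (nat_lit 0) (nat_lit 7726635478) (nat_lit 76) (nat_lit 4167900571) (nat_lit 152) (nat_lit 14087225576) (nat_lit 14) (nat_lit 5) (nat_lit 15) (nat_lit 5) (nat_lit 16) (nat_lit 4) (nat_lit 298) (nat_lit 255) (nat_lit 227)) (XT.lf (nat_lit 0) (nat_lit 19488997856) (nat_lit 152) (nat_lit 4692552562) (nat_lit 0) (nat_lit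 3470962656) (nat_lit 14) (nat_lit 5) (nat_lit 16) (nat_lit 4) (nat_lit 14) (nat_lit 4) (nat_lit 299) (nat_lit 255) (nat_lit 226))) (XT.nd (nat_lit 78) (nat_lit 152) (nat_lit 0) (XT.lf (nat_lit 0) (nat_lit 10002761156) (nat_lit 76) (nat_lit 17804546923) (nat_lit 76) (nat_lit 1643854286) (nat_lit 13) (nat_lit 4) (nat_lit 14) (nat_lit 5) (nat_lit 14) (nat_lit 4) (nat_lit 300) (nat_lit 255) (nat_lit 225)) (XT.nd (nat_lit 78) (nat_lit 76) (nat_lit 0) (XT.lf (nat_lit 0) (nat_lit 5200925448) (nat_lit 152) (nat_lit 5630885687) (nat_lit 76) (nat_lit 20558910387) (nat_lit 12) (nat_lit 5) (nat_lit 14) (nat_lit 5) (nat_lit 13) (nat_lit 4) (nat_lit 301) (nat_lit 255) (nat_lit 224)) (XT.lf (nat_lit 0) (nat_lit 9382260647) (nat_lit 76) (nat_lit 3201812164) (nat_lit 152) (nat_lit 20897648989) (nat_lit 11) (nat_lit 5) (nat_lit 12) (nat_lit 5) (nat_lit 13) (nat_lit 4) (nat_lit 302) (nat_lit 255) (nat_lit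 223))))) (XT.nd (nat_lit 234) (nat_lit 152) (nat_lit 0) (XT.nd (nat_lit 78) (nat_lit 76) (nat_lit 0) (XT.lf (nat_lit 0) (nat_lit 20640707020) (nat_lit 152) (nat_lit 10195756982) (nat_lit 0) (nat_lit 4899435887) (nat_lit 11) (nat_lit 5) (nat_lit 13) (nat_lit 4) (nat_lit 11) (nat_lit 4) (nat_lit 303) (nat_lit 255) (nat_lit 222)) (XT.nd (nat_lit 78) (nat_lit 0) (nat_lit 0) (XT.lf (nat_lit 0) (nat_lit 4753660684) (nat_lit 76) (nat_lit 24627967860) (nat_lit 76) (nat_lit 8786832464) (nat_lit 10) (nat_lit 4) (nat_lit 11) (nat_lit 5) (nat_lit 11) (nat_lit 4) (nat_lit 304) (nat_lit 255) (nat_lit 221)) (XT.lf (nat_lit 0) (nat_lit 21105537144) (nat_lit 76) (nat_lit 17809531908) (nat_lit 76) (nat_lit 1875929602) (nat_lit 10) (nat_lit 4) (nat_lit 11) (nat_lit 5) (nat_lit 11) (nat_lit 4) (nat_lit 305) (nat_lit 255) (nat_lit 220)))) (XT.nd (nat_lit 78) (nat_lit 76) (nat_lit 0) (XT.lf (nat_lit 0) (nat_lit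 5329579179) (nat_lit 152) (nat_lit 5093582495) (nat_lit 76) (nat_lit 33199816454) (nat_lit 9) (nat_lit 5) (nat_lit 11) (nat_lit 5) (nat_lit 10) (nat_lit 4) (nat_lit 306) (nat_lit 255) (nat_lit 219)) (XT.nd (nat_lit 78) (nat_lit 0) (nat_lit 0) (XT.lf (nat_lit 0) (nat_lit 10843515287) (nat_lit 76) (nat_lit 2298928894) (nat_lit 152) (nat_lit 33532729865) (nat_lit 8) (nat_lit 5) (nat_lit 9) (nat_lit 5) (nat_lit 10) (nat_lit 4) (nat_lit 307) (nat_lit 255) (nat_lit 218)) (XT.lf (nat_lit 0) (nat_lit 21700512799) (nat_lit 152) (nat_lit 21966345044) (nat_lit 0) (nat_lit 6298704704) (nat_lit 8) (nat_lit 5) (nat_lit 10) (nat_lit 4) (nat_lit 8) (nat_lit 4) (nat_lit 308) (nat_lit 255) (nat_lit 217))))))) (XT.nd (nat_lit 858) (nat_lit 152) (nat_lit 0) (XT.nd (nat_lit 390) (nat_lit 152) (nat_lit 0) (XT.nd (nat_lit 156) (nat_lit 76) (nat_lit 0) (XT.nd (nat_lit 78) (nat_lit 76) (nat_lit 0) (XT.lf (nat_lit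 0) (nat_lit 30916154261) (nat_lit 152) (nat_lit 7154788529) (nat_lit 0) (nat_lit 15449616700) (nat_lit 8) (nat_lit 5) (nat_lit 10) (nat_lit 4) (nat_lit 8) (nat_lit 4) (nat_lit 309) (nat_lit 255) (nat_lit 216)) (XT.lf (nat_lit 0) (nat_lit 9015219002) (nat_lit 76) (nat_lit 31933620884) (nat_lit 76) (nat_lit 16407148634) (nat_lit 7) (nat_lit 4) (nat_lit 8) (nat_lit 5) (nat_lit 8) (nat_lit 4) (nat_lit 310) (nat_lit 255) (nat_lit 215))) (XT.nd (nat_lit 78) (nat_lit 76) (nat_lit 0) (XT.lf (nat_lit 0) (nat_lit 26624304005) (nat_lit 76) (nat_lit 25226306032) (nat_lit 76) (nat_lit 9644338698) (nat_lit 7) (nat_lit 4) (nat_lit 8) (nat_lit 5) (nat_lit 8) (nat_lit 4) (nat_lit 311) (nat_lit 255) (nat_lit 214)) (XT.nd (nat_lit 78) (nat_lit 76) (nat_lit 0) (XT.lf (nat_lit 0) (nat_lit 45540246992) (nat_lit 76) (nat_lit 18030420988) (nat_lit 76) (nat_lit 2397069317) (nat_lit 7) (nat_lit 4) (nat_lit 8) (nat_lit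 5) (nat_lit 8) (nat_lit 4) (nat_lit 312) (nat_lit 255) (nat_lit 213)) (XT.lf (nat_lit 0) (nat_lit 5205489304) (nat_lit 152) (nat_lit 5009676687) (nat_lit 76) (nat_lit 60581495654) (nat_lit 6) (nat_lit 5) (nat_lit 8) (nat_lit 5) (nat_lit 7) (nat_lit 4) (nat_lit 313) (nat_lit 255) (nat_lit 212))))) (XT.nd (nat_lit 234) (nat_lit 76) (nat_lit 0) (XT.nd (nat_lit 78) (nat_lit 0) (nat_lit 0) (XT.lf (nat_lit 0) (nat_lit 11892886041) (nat_lit 76) (nat_lit 1579245465) (nat_lit 152) (nat_lit 62530825979) (nat_lit 5) (nat_lit 5) (nat_lit 6) (nat_lit 5) (nat_lit 7) (nat_lit 4) (nat_lit 314) (nat_lit 255) (nat_lit 211)) (XT.nd (nat_lit 78) (nat_lit 0) (nat_lit 0) (XT.lf (nat_lit 0) (nat_lit 22564339673) (nat_lit 152) (nat_lit 51503903104) (nat_lit 0) (nat_lit 7549316729) (nat_lit 5) (nat_lit 5) (nat_lit 7) (nat_lit 4) (nat_lit 5) (nat_lit 4) (nat_lit 315) (nat_lit 255) (nat_lit 210)) (XT.lf (nat_lit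 0) (nat_lit 32368495792) (nat_lit 152) (nat_lit 37996116166) (nat_lit 0) (nat_lit 17317502352) (nat_lit 5) (nat_lit 5) (nat_lit 7) (nat_lit 4) (nat_lit 5) (nat_lit 4) (nat_lit 316) (nat_lit 255) (nat_lit 209)))) (XT.nd (nat_lit 78) (nat_lit 76) (nat_lit 0) (XT.lf (nat_lit 0) (nat_lit 42918042121) (nat_lit 152) (nat_lit 23482008039) (nat_lit 0) (nat_lit 27833742665) (nat_lit 5) (nat_lit 5) (nat_lit 7) (nat_lit 4) (nat_lit 5) (nat_lit 4) (nat_lit 317) (nat_lit 255) (nat_lit 208)) (XT.nd (nat_lit 78) (nat_lit 76) (nat_lit 0) (XT.lf (nat_lit 0) (nat_lit 54275494488) (nat_lit 152) (nat_lit 7875569192) (nat_lit 0) (nat_lit 39160356130) (nat_lit 5) (nat_lit 5) (nat_lit 7) (nat_lit 4) (nat_lit 5) (nat_lit 4) (nat_lit 318) (nat_lit 255) (nat_lit 207)) (XT.lf (nat_lit 0) (nat_lit 9210475718) (nat_lit 76) (nat_lit 57441481936) (nat_lit 76) (nat_lit 42297789037) (nat_lit 4) (nat_lit 4) (nat_lit 5)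 (nat_lit 5) (nat_lit 5) (nat_lit 4) (nat_lit 319) (nat_lit 255) (nat_lit 206)))))) (XT.nd (nat_lit 390) (nat_lit 152) (nat_lit 0) (XT.nd (nat_lit 156) (nat_lit 0) (nat_lit 0) (XT.nd (nat_lit 78) (nat_lit 0) (nat_lit 0) (XT.lf (nat_lit 0) (nat_lit 27883704872) (nat_lit 76) (nat_lit 52240155358) (nat_lit 76) (nat_lit 37070023070) (nat_lit 4) (nat_lit 4) (nat_lit 5) (nat_lit 5) (nat_lit 5) (nat_lit 4) (nat_lit 320) (nat_lit 255) (nat_lit 205)) (XT.lf (nat_lit 0) (nat_lit 47994372556) (nat_lit 76) (nat_lit 46649637845) (nat_lit 76) (nat_lit 31455024641) (nat_lit 4) (nat_lit 4) (nat_lit 5) (nat_lit 5) (nat_lit 5) (nat_lit 4) (nat_lit 321) (nat_lit 255) (nat_lit 204))) (XT.nd (nat_lit 78) (nat_lit 0) (nat_lit 0) (XT.lf (nat_lit 0) (nat_lit 69661653099) (nat_lit 76) (nat_lit 40636800404) (nat_lit 76) (nat_lit 25419519686) (nat_lit 4) (nat_lit 4) (nat_lit 5) (nat_lit 5) (nat_lit 5) (nat_lit 4)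 (nat_lit 322) (nat_lit 255) (nat_lit 203)) (XT.nd (nat_lit 78) (nat_lit 0) (nat_lit 0) (XT.lf (nat_lit 0) (nat_lit 93013945199) (nat_lit 76) (nat_lit 34166011407) (nat_lit 76) (nat_lit 18927742249) (nat_lit 4) (nat_lit 4) (nat_lit 5) (nat_lit 5) (nat_lit 5) (nat_lit 4) (nat_lit 323) (nat_lit 255) (nat_lit 202)) (XT.lf (nat_lit 0) (nat_lit 118189632809) (nat_lit 76) (nat_lit 27198925436) (nat_lit 76) (nat_lit 11941222539) (nat_lit 4) (nat_lit 4) (nat_lit 5) (nat_lit 5) (nat_lit 5) (nat_lit 4) (nat_lit 324) (nat_lit 255) (nat_lit 201))))) (XT.nd (nat_lit 234) (nat_lit 0) (nat_lit 0) (XT.nd (nat_lit 78) (nat_lit 152) (nat_lit 0) (XT.lf (nat_lit 0) (nat_lit 145337905190) (nat_lit 76) (nat_lit 19694256057) (nat_lit 76) (nat_lit 4418558956) (nat_lit 4) (nat_lit 4) (nat_lit 5) (nat_lit 5) (nat_lit 5) (nat_lit 4) (nat_lit 325) (nat_lit 255) (nat_lit 200)) (XT.nd (nat_lit 78) (nat_lit 76) (nat_lit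 0) (XT.lf (nat_lit 0) (nat_lit 3566889761) (nat_lit 152) (nat_lit 7980234389) (nat_lit 76) (nat_lit 170992344227) (nat_lit 3) (nat_lit 5) (nat_lit 5) (nat_lit 5) (nat_lit 4) (nat_lit 4) (nat_lit 326) (nat_lit 255) (nat_lit 199)) (XT.lf (nat_lit 0) (nat_lit 9640830021) (nat_lit 76) (nat_lit 2529226345) (nat_lit 152) (nat_lit 184494959318) (nat_lit 2) (nat_lit 5) (nat_lit 3) (nat_lit 5) (nat_lit 4) (nat_lit 4) (nat_lit 327) (nat_lit 255) (nat_lit 198)))) (XT.nd (nat_lit 78) (nat_lit 0) (nat_lit 0) (XT.lf (nat_lit 0) (nat_lit 21697033593) (nat_lit 152) (nat_lit 183107214244) (nat_lit 0) (nat_lit 7104586061) (nat_lit 2) (nat_lit 5) (nat_lit 4) (nat_lit 4) (nat_lit 2) (nat_lit 4) (nat_lit 328) (nat_lit 255) (nat_lit 197)) (XT.nd (nat_lit 78) (nat_lit 0) (nat_lit 0) (XT.lf (nat_lit 0) (nat_lit 32011870059) (nat_lit 152) (nat_lit 178952181003) (nat_lit 0) (nat_lit 17406826072) (nat_lit 2) (nat_lit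 5) (nat_lit 4) (nat_lit 4) (nat_lit 2) (nat_lit 4) (nat_lit 329) (nat_lit 255) (nat_lit 196)) (XT.lf (nat_lit 0) (nat_lit 43136202409) (nat_lit 152) (nat_lit 174494975210) (nat_lit 0) (nat_lit 28519495038) (nat_lit 2) (nat_lit 5) (nat_lit 4) (nat_lit 4) (nat_lit 2) (nat_lit 4) (nat_lit 330) (nat_lit 255) (nat_lit 195))))))))
noncomputable def xc39 : XT := (XT.nd (nat_lit 35880) (nat_lit 0) (nat_lit 1596) (XT.nd (nat_lit 780) (nat_lit 76) (nat_lit 0) (XT.nd (nat_lit 390) (nat_lit 0) (nat_lit 0) (XT.nd (nat_lit 156) (nat_lit 0) (nat_lit 0) (XT.nd (nat_lit 78) (nat_lit 0) (nat_lit 0) (XT.lf (nat_lit 0) (nat_lit 55135952613) (nat_lit 152) (nat_lit 169709183793) (nat_lit 0) (nat_lit 40508445813) (nat_lit 2) (nat_lit 5) (nat_lit 4) (nat_lit 4) (nat_lit 2) (nat_lit 4) (nat_lit 331) (nat_lit 255) (nat_lit 194)) (XT.lf (nat_lit 0) (nat_lit 68082230301) (nat_lit 152) (nat_lit 164566446506) (nat_lit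 0) (nat_lit 53444724029) (nat_lit 2) (nat_lit 5) (nat_lit 4) (nat_lit 4) (nat_lit 2) (nat_lit 4) (nat_lit 332) (nat_lit 255) (nat_lit 193))) (XT.nd (nat_lit 78) (nat_lit 0) (nat_lit 0) (XT.lf (nat_lit 0) (nat_lit 82051754156) (nat_lit 152) (nat_lit 159036287870) (nat_lit 0) (nat_lit 67404989115) (nat_lit 2) (nat_lit 5) (nat_lit 4) (nat_lit 4) (nat_lit 2) (nat_lit 4) (nat_lit 333) (nat_lit 255) (nat_lit 192)) (XT.nd (nat_lit 78) (nat_lit 0) (nat_lit 0) (XT.lf (nat_lit 0) (nat_lit 97127306542) (nat_lit 152) (nat_lit 153085936575) (nat_lit 0) (nat_lit 82471968565) (nat_lit 2) (nat_lit 5) (nat_lit 4) (nat_lit 4) (nat_lit 2) (nat_lit 4) (nat_lit 334) (nat_lit 255) (nat_lit 191)) (XT.lf (nat_lit 0) (nat_lit 113398224065) (nat_lit 152) (nat_lit 146680131278) (nat_lit 0) (nat_lit 98734948186) (nat_lit 2) (nat_lit 5) (nat_lit 4) (nat_lit 4) (nat_lit 2) (nat_lit 4) (nat_lit 335) (nat_lit 255) (nat_lit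 190))))) (XT.nd (nat_lit 156) (nat_lit 0) (nat_lit 0) (XT.nd (nat_lit 78) (nat_lit 0) (nat_lit 0) (XT.lf (nat_lit 0) (nat_lit 130960926978) (nat_lit 152) (nat_lit 139780911653) (nat_lit 0) (nat_lit 116290301188) (nat_lit 2) (nat_lit 5) (nat_lit 4) (nat_lit 4) (nat_lit 2) (nat_lit 4) (nat_lit 336) (nat_lit 255) (nat_lit 189)) (XT.lf (nat_lit 0) (nat_lit 149919490556) (nat_lit 152) (nat_lit 132347393435) (nat_lit 0) (nat_lit 135242059295) (nat_lit 2) (nat_lit 5) (nat_lit 4) (nat_lit 4) (nat_lit 2) (nat_lit 4) (nat_lit 337) (nat_lit 255) (nat_lit 188))) (XT.nd (nat_lit 78) (nat_lit 0) (nat_lit 0) (XT.lf (nat_lit 0) (nat_lit 170386261844) (nat_lit 152) (nat_lit 124335526145) (nat_lit 0) (nat_lit 155702529219) (nat_lit 2) (nat_lit 5) (nat_lit 4) (nat_lit 4) (nat_lit 2) (nat_lit 4) (nat_lit 338) (nat_lit 255) (nat_lit 187)) (XT.nd (nat_lit 78) (nat_lit 0) (nat_lit 0) (XT.lf (nat_lit 0) (nat_lit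 192482525412) (nat_lit 152) (nat_lit 115697832053) (nat_lit 0) (nat_lit 177792958192) (nat_lit 2) (nat_lit 5) (nat_lit 4) (nat_lit 4) (nat_lit 2) (nat_lit 4) (nat_lit 339) (nat_lit 255) (nat_lit 186)) (XT.lf (nat_lit 0) (nat_lit 216339222081) (nat_lit 152) (nat_lit 106383124821) (nat_lit 0) (nat_lit 201644252457) (nat_lit 2) (nat_lit 5) (nat_lit 4) (nat_lit 4) (nat_lit 2) (nat_lit 4) (nat_lit 340) (nat_lit 255) (nat_lit 185)))))) (XT.nd (nat_lit 390) (nat_lit 76) (nat_lit 0) (XT.nd (nat_lit 156) (nat_lit 0) (nat_lit 0) (XT.nd (nat_lit 78) (nat_lit 0) (nat_lit 0) (XT.lf (nat_lit 0) (nat_lit 242097724868) (nat_lit 152) (nat_lit 96336206185) (nat_lit 0) (nat_lit 227397753019) (nat_lit 2) (nat_lit 5) (nat_lit 4) (nat_lit 4) (nat_lit 2) (nat_lit 4) (nat_lit 341) (nat_lit 255) (nat_lit 184)) (XT.lf (nat_lit 0) (nat_lit 269910676754) (nat_lit 152) (nat_lit 85497538850) (nat_lit 0) (nat_lit 255206073215)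 (nat_lit 2) (nat_lit 5) (nat_lit 4) (nat_lit 4) (nat_lit 2) (nat_lit 4) (nat_lit 342) (nat_lit 255) (nat_lit 183))) (XT.nd (nat_lit 78) (nat_lit 0) (nat_lit 0) (XT.lf (nat_lit 0) (nat_lit 299942895229) (nat_lit 152) (nat_lit 73802893676) (nat_lit 0) (nat_lit 285234003088) (nat_lit 2) (nat_lit 5) (nat_lit 4) (nat_lit 4) (nat_lit 2) (nat_lit 4) (nat_lit 343) (nat_lit 255) (nat_lit 182)) (XT.nd (nat_lit 78) (nat_lit 0) (nat_lit 0) (XT.lf (nat_lit 0) (nat_lit 332372348998) (nat_lit 152) (nat_lit 61182969061) (nat_lit 0) (nat_lit 317659485929) (nat_lit 2) (nat_lit 5) (nat_lit 4) (nat_lit 4) (nat_lit 2) (nat_lit 4) (nat_lit 344) (nat_lit 255) (nat_lit 181)) (XT.lf (nat_lit 0) (nat_lit 367391212600) (nat_lit 152) (nat_lit 47562980268) (nat_lit 0) (nat_lit 352674672746) (nat_lit 2) (nat_lit 5) (nat_lit 4) (nat_lit 4) (nat_lit 2) (nat_lit 4) (nat_lit 345) (nat_lit 255) (nat_lit 180))))) (XT.nd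 (nat_lit 234) (nat_lit 0) (nat_lit 0) (XT.nd (nat_lit 78) (nat_lit 76) (nat_lit 0) (XT.lf (nat_lit 0) (nat_lit 405207005227) (nat_lit 152) (nat_lit 32862216251) (nat_lit 0) (nat_lit 390487060942) (nat_lit 2) (nat_lit 5) (nat_lit 4) (nat_lit 4) (nat_lit 2) (nat_lit 4) (nat_lit 346) (nat_lit 255) (nat_lit 179)) (XT.nd (nat_lit 78) (nat_lit 76) (nat_lit 0) (XT.lf (nat_lit 0) (nat_lit 446043820465) (nat_lit 152) (nat_lit 16993561373) (nat_lit 0) (nat_lit 431320723930) (nat_lit 2) (nat_lit 5) (nat_lit 4) (nat_lit 4) (nat_lit 2) (nat_lit 4) (nat_lit 347) (nat_lit 255) (nat_lit 178)) (XT.lf (nat_lit 0) (nat_lit 141551368) (nat_lit 76) (nat_lit 490004312901) (nat_lit 76) (nat_lit 475278297616) (nat_lit 1) (nat_lit 4) (nat_lit 2) (nat_lit 5) (nat_lit 2) (nat_lit 4) (nat_lit 348) (nat_lit 255) (nat_lit 177)))) (XT.nd (nat_lit 34320) (nat_lit 0) (nat_lit 7676) (XT.lf (nat_lit 0) (nat_lit 19247071438)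 (nat_lit 76) (nat_lit 518821268236) (nat_lit 76) (nat_lit 504092550404) (nat_lit 1) (nat_lit 4) (nat_lit 2) (nat_lit 5) (nat_lit 2) (nat_lit 4) (nat_lit 349) (nat_lit 255) (nat_lit 176)) (XT.nd (nat_lit 78) (nat_lit 684) (nat_lit 0) (XT.lf (nat_lit 0) (nat_lit 592874039) (nat_lit 532) (nat_lit 1435737807) (nat_lit 532) (nat_lit 1435737807) (nat_lit 111) (nat_lit 4) (nat_lit 118) (nat_lit 5) (nat_lit 118) (nat_lit 4) (nat_lit 268) (nat_lit 256) (nat_lit 256)) (XT.lf (nat_lit 0) (nat_lit 1524423836) (nat_lit 608) (nat_lit 605644986) (nat_lit 684) (nat_lit 4933729775) (nat_lit 102) (nat_lit 5) (nat_lit 110) (nat_lit 5) (nat_lit 111) (nat_lit 4) (nat_lit 269) (nat_lit 256) (nat_lit 255))))))) (XT.nd (nat_lit 858) (nat_lit 1900) (nat_lit 0) (XT.nd (nat_lit 390) (nat_lit 1748) (nat_lit 0) (XT.nd (nat_lit 156) (nat_lit 1140) (nat_lit 0) (XT.nd (nat_lit 78) (nat_lit 608) (nat_lit 0) (XT.lf (nat_lit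 0) (nat_lit 1954220115) (nat_lit 684) (nat_lit 5239577874) (nat_lit 684) (nat_lit 26339883) (nat_lit 93) (nat_lit 4) (nat_lit 102) (nat_lit 5) (nat_lit 102) (nat_lit 4) (nat_lit 270) (nat_lit 256) (nat_lit 254)) (XT.lf (nat_lit 0) (nat_lit 2446071327) (nat_lit 532) (nat_lit 2422229703) (nat_lit 608) (nat_lit 2529204291) (nat_lit 85) (nat_lit 5) (nat_lit 92) (nat_lit 5) (nat_lit 93) (nat_lit 4) (nat_lit 271) (nat_lit 256) (nat_lit 253))) (XT.nd (nat_lit 78) (nat_lit 684) (nat_lit 0) (XT.lf (nat_lit 0) (nat_lit 2268137805) (nat_lit 456) (nat_lit 4571983498) (nat_lit 76) (nat_lit 758348362) (nat_lit 79) (nat_lit 5) (nat_lit 85) (nat_lit 5) (nat_lit 80) (nat_lit 4) (nat_lit 272) (nat_lit 256) (nat_lit 252)) (XT.nd (nat_lit 78) (nat_lit 380) (nat_lit 0) (XT.lf (nat_lit 0) (nat_lit 3645142369) (nat_lit 304) (nat_lit 3555685351) (nat_lit 380) (nat_lit 621263376) (nat_lit 75) (nat_lit 5) (nat_lit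 79) (nat_lit 5) (nat_lit 80) (nat_lit 4) (nat_lit 273) (nat_lit 256) (nat_lit 251)) (XT.lf (nat_lit 0) (nat_lit 4139666128) (nat_lit 380) (nat_lit 3771856637) (nat_lit 76) (nat_lit 158276313) (nat_lit 70) (nat_lit 5) (nat_lit 75) (nat_lit 5) (nat_lit 71) (nat_lit 4) (nat_lit 274) (nat_lit 256) (nat_lit 250))))) (XT.nd (nat_lit 234) (nat_lit 760) (nat_lit 0) (XT.nd (nat_lit 78) (nat_lit 608) (nat_lit 0) (XT.lf (nat_lit 0) (nat_lit 788164824) (nat_lit 380) (nat_lit 3389295782) (nat_lit 76) (nat_lit 4164407242) (nat_lit 65) (nat_lit 5) (nat_lit 70) (nat_lit 5) (nat_lit 66) (nat_lit 5) (nat_lit 275) (nat_lit 256) (nat_lit 249)) (XT.nd (nat_lit 78) (nat_lit 304) (nat_lit 0) (XT.lf (nat_lit 0) (nat_lit 5599999442) (nat_lit 380) (nat_lit 3032351075) (nat_lit 76) (nat_lit 7918289) (nat_lit 61) (nat_lit 5) (nat_lit 66) (nat_lit 5) (nat_lit 62) (nat_lit 4) (nat_lit 276) (nat_lit 256) (nat_lit 248))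 (XT.lf (nat_lit 0) (nat_lit 1714889165) (nat_lit 304) (nat_lit 2757315437) (nat_lit 76) (nat_lit 4492357594) (nat_lit 57) (nat_lit 5) (nat_lit 61) (nat_lit 5) (nat_lit 58) (nat_lit 5) (nat_lit 277) (nat_lit 256) (nat_lit 247)))) (XT.nd (nat_lit 78) (nat_lit 532) (nat_lit 0) (XT.lf (nat_lit 0) (nat_lit 6630847445) (nat_lit 304) (nat_lit 2545231268) (nat_lit 76) (nat_lit 142272136) (nat_lit 54) (nat_lit 5) (nat_lit 58) (nat_lit 5) (nat_lit 55) (nat_lit 4) (nat_lit 278) (nat_lit 256) (nat_lit 246)) (XT.nd (nat_lit 78) (nat_lit 228) (nat_lit 0) (XT.lf (nat_lit 0) (nat_lit 2141863177) (nat_lit 304) (nat_lit 2481351607) (nat_lit 76) (nat_lit 5077127182) (nat_lit 50) (nat_lit 5) (nat_lit 54) (nat_lit 5) (nat_lit 51) (nat_lit 5) (nat_lit 279) (nat_lit 256) (nat_lit 245)) (XT.lf (nat_lit 0) (nat_lit 7181204661) (nat_lit 304) (nat_lit 2540510793) (nat_lit 76) (nat_lit 393402524) (nat_lit 47) (nat_lit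 5) (nat_lit 51) (nat_lit 5) (nat_lit 48) (nat_lit 4) (nat_lit 280) (nat_lit 256) (nat_lit 244)))))) (XT.nd (nat_lit 390) (nat_lit 912) (nat_lit 0) (XT.nd (nat_lit 156) (nat_lit 532) (nat_lit 0) (XT.nd (nat_lit 78) (nat_lit 228) (nat_lit 0) (XT.lf (nat_lit 0) (nat_lit 1996241239) (nat_lit 228) (nat_lit 2817372041) (nat_lit 76) (nat_lit 5748055445) (nat_lit 44) (nat_lit 5) (nat_lit 47) (nat_lit 5) (nat_lit 45) (nat_lit 5) (nat_lit 281) (nat_lit 256) (nat_lit 243)) (XT.lf (nat_lit 0) (nat_lit 7161818554) (nat_lit 304) (nat_lit 3303104580) (nat_lit 76) (nat_lit 579684862) (nat_lit 41) (nat_lit 5) (nat_lit 45) (nat_lit 5) (nat_lit 42) (nat_lit 4) (nat_lit 282) (nat_lit 256) (nat_lit 242))) (XT.nd (nat_lit 78) (nat_lit 304) (nat_lit 0) (XT.lf (nat_lit 0) (nat_lit 1162570217) (nat_lit 228) (nat_lit 4085809948) (nat_lit 76) (nat_lit 6315829069) (nat_lit 38) (nat_lit 5) (nat_lit 41) (nat_lit 5)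 (nat_lit 39) (nat_lit 5) (nat_lit 283) (nat_lit 256) (nat_lit 241)) (XT.nd (nat_lit 78) (nat_lit 152) (nat_lit 0) (XT.lf (nat_lit 0) (nat_lit 6437232435) (nat_lit 228) (nat_lit 5193476967) (nat_lit 76) (nat_lit 493612912) (nat_lit 36) (nat_lit 5) (nat_lit 39) (nat_lit 5) (nat_lit 37) (nat_lit 4) (nat_lit 284) (nat_lit 256) (nat_lit 240)) (XT.lf (nat_lit 0) (nat_lit 6023776085) (nat_lit 152) (nat_lit 6159197764) (nat_lit 228) (nat_lit 544011342) (nat_lit 34) (nat_lit 5) (nat_lit 36) (nat_lit 5) (nat_lit 37) (nat_lit 4) (nat_lit 285) (nat_lit 256) (nat_lit 239))))) (XT.nd (nat_lit 234) (nat_lit 304) (nat_lit 0) (XT.nd (nat_lit 78) (nat_lit 380) (nat_lit 0) (XT.lf (nat_lit 0) (nat_lit 4700376133) (nat_lit 152) (nat_lit 116286343) (nat_lit 228) (nat_lit 8559134273) (nat_lit 31) (nat_lit 5) (nat_lit 33) (nat_lit 5) (nat_lit 34) (nat_lit 5) (nat_lit 286) (nat_lit 256) (nat_lit 238)) (XT.nd (nat_lit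 78) (nat_lit 228) (nat_lit 0) (XT.lf (nat_lit 0) (nat_lit 2850305035) (nat_lit 152) (nat_lit 7809613102) (nat_lit 228) (nat_lit 3412669900) (nat_lit 29) (nat_lit 5) (nat_lit 31) (nat_lit 5) (nat_lit 32) (nat_lit 4) (nat_lit 287) (nat_lit 256) (nat_lit 237)) (XT.lf (nat_lit 0) (nat_lit 459839357) (nat_lit 152) (nat_lit 1595325477) (nat_lit 228) (nat_lit 12769507943) (nat_lit 26) (nat_lit 5) (nat_lit 28) (nat_lit 5) (nat_lit 29) (nat_lit 5) (nat_lit 288) (nat_lit 256) (nat_lit 236)))) (XT.nd (nat_lit 78) (nat_lit 304) (nat_lit 0) (XT.lf (nat_lit 0) (nat_lit 7943833487) (nat_lit 228) (nat_lit 2591454572) (nat_lit 76) (nat_lit 5093821157) (nat_lit 26) (nat_lit 5) (nat_lit 29) (nat_lit 5) (nat_lit 27) (nat_lit 4) (nat_lit 289) (nat_lit 256) (nat_lit 235)) (XT.nd (nat_lit 78) (nat_lit 228) (nat_lit 0) (XT.lf (nat_lit 0) (nat_lit 10142867670) (nat_lit 76) (nat_lit 4181917845) (nat_lit 152) (nat_lit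 2172176591) (nat_lit 25) (nat_lit 5) (nat_lit 26) (nat_lit 5) (nat_lit 27) (nat_lit 4) (nat_lit 290) (nat_lit 256) (nat_lit 234)) (XT.lf (nat_lit 0) (nat_lit 3691898137) (nat_lit 228) (nat_lit 11044842913) (nat_lit 76) (nat_lit 2693107832) (nat_lit 22) (nat_lit 5) (nat_lit 25) (nat_lit 5) (nat_lit 23) (nat_lit 4) (nat_lit 291) (nat_lit 256) (nat_lit 233))))))))
noncomputable def xc40 : XT := (XT.nd (nat_lit 1638) (nat_lit 380) (nat_lit 0) (XT.nd (nat_lit 780) (nat_lit 380) (nat_lit 0) (XT.nd (nat_lit 390) (nat_lit 380) (nat_lit 0) (XT.nd (nat_lit 156) (nat_lit 304) (nat_lit 0) (XT.nd (nat_lit 78) (nat_lit 0) (nat_lit 0) (XT.lf (nat_lit 0) (nat_lit 1614999577) (nat_lit 76) (nat_lit 8390493668) (nat_lit 152) (nat_lit 8427366863) (nat_lit 21) (nat_lit 5) (nat_lit 22) (nat_lit 5) (nat_lit 23) (nat_lit 4) (nat_lit 292) (nat_lit 256) (nat_lit 232)) (XT.lf (nat_lit 0) (nat_lit 15427559934) (nat_lit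 76) (nat_lit 1443602988) (nat_lit 152) (nat_lit 2642691464) (nat_lit 21) (nat_lit 5) (nat_lit 22) (nat_lit 5) (nat_lit 23) (nat_lit 4) (nat_lit 293) (nat_lit 256) (nat_lit 231))) (XT.nd (nat_lit 78) (nat_lit 76) (nat_lit 0) (XT.lf (nat_lit 0) (nat_lit 3599928094) (nat_lit 228) (nat_lit 11097265981) (nat_lit 76) (nat_lit 5975873559) (nat_lit 18) (nat_lit 5) (nat_lit 21) (nat_lit 5) (nat_lit 19) (nat_lit 4) (nat_lit 294) (nat_lit 256) (nat_lit 230)) (XT.nd (nat_lit 78) (nat_lit 0) (nat_lit 0) (XT.lf (nat_lit 0) (nat_lit 2324830799) (nat_lit 76) (nat_lit 7926840829) (nat_lit 152) (nat_lit 11671139814) (nat_lit 17) (nat_lit 5) (nat_lit 18) (nat_lit 5) (nat_lit 19) (nat_lit 4) (nat_lit 295) (nat_lit 256) (nat_lit 229)) (XT.lf (nat_lit 0) (nat_lit 16992344974) (nat_lit 76) (nat_lit 510859073) (nat_lit 152) (nat_lit 5766017417) (nat_lit 17) (nat_lit 5) (nat_lit 18) (nat_lit 5) (nat_lit 19) (nat_lit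 4) (nat_lit 296) (nat_lit 256) (nat_lit 228))))) (XT.nd (nat_lit 156) (nat_lit 228) (nat_lit 0) (XT.nd (nat_lit 78) (nat_lit 0) (nat_lit 0) (XT.lf (nat_lit 0) (nat_lit 718706894) (nat_lit 152) (nat_lit 16691102782) (nat_lit 76) (nat_lit 7306780023) (nat_lit 15) (nat_lit 5) (nat_lit 17) (nat_lit 5) (nat_lit 16) (nat_lit 4) (nat_lit 297) (nat_lit 256) (nat_lit 227)) (XT.lf (nat_lit 0) (nat_lit 7528516296) (nat_lit 152) (nat_lit 2892767041) (nat_lit 76) (nat_lit 15853378282) (nat_lit 15) (nat_lit 5) (nat_lit 17) (nat_lit 5) (nat_lit 16) (nat_lit 4) (nat_lit 298) (nat_lit 256) (nat_lit 226))) (XT.nd (nat_lit 78) (nat_lit 152) (nat_lit 0) (XT.lf (nat_lit 0) (nat_lit 12208480213) (nat_lit 76) (nat_lit 2759566602) (nat_lit 152) (nat_lit 12985137962) (nat_lit 14) (nat_lit 5) (nat_lit 15) (nat_lit 5) (nat_lit 16) (nat_lit 4) (nat_lit 299) (nat_lit 256) (nat_lit 225)) (XT.nd (nat_lit 78) (nat_lit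 152) (nat_lit 0) (XT.lf (nat_lit 0) (nat_lit 23038063731) (nat_lit 152) (nat_lit 1416440260) (nat_lit 0) (nat_lit 5309768025) (nat_lit 14) (nat_lit 5) (nat_lit 16) (nat_lit 4) (nat_lit 14) (nat_lit 4) (nat_lit 300) (nat_lit 256) (nat_lit 224)) (XT.lf (nat_lit 0) (nat_lit 210481914) (nat_lit 152) (nat_lit 17419113540) (nat_lit 76) (nat_lit 14081761570) (nat_lit 12) (nat_lit 5) (nat_lit 14) (nat_lit 5) (nat_lit 13) (nat_lit 4) (nat_lit 301) (nat_lit 256) (nat_lit 223)))))) (XT.nd (nat_lit 390) (nat_lit 228) (nat_lit 0) (XT.nd (nat_lit 156) (nat_lit 76) (nat_lit 0) (XT.nd (nat_lit 78) (nat_lit 76) (nat_lit 0) (XT.lf (nat_lit 0) (nat_lit 7403130829) (nat_lit 152) (nat_lit 2787429337) (nat_lit 76) (nat_lit 23621341067) (nat_lit 12) (nat_lit 5) (nat_lit 14) (nat_lit 5) (nat_lit 13) (nat_lit 4) (nat_lit 302) (nat_lit 256) (nat_lit 222)) (XT.lf (nat_lit 0) (nat_lit 13283618641) (nat_lit 76) (nat_lit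 2010197776) (nat_lit 152) (nat_lit 20780577940) (nat_lit 11) (nat_lit 5) (nat_lit 12) (nat_lit 5) (nat_lit 13) (nat_lit 4) (nat_lit 303) (nat_lit 256) (nat_lit 221))) (XT.nd (nat_lit 78) (nat_lit 76) (nat_lit 0) (XT.lf (nat_lit 0) (nat_lit 23889761139) (nat_lit 152) (nat_lit 8035455736) (nat_lit 0) (nat_lit 6589003739) (nat_lit 11) (nat_lit 5) (nat_lit 13) (nat_lit 4) (nat_lit 11) (nat_lit 4) (nat_lit 304) (nat_lit 256) (nat_lit 220)) (XT.nd (nat_lit 78) (nat_lit 0) (nat_lit 0) (XT.lf (nat_lit 0) (nat_lit 7980583669) (nat_lit 76) (nat_lit 25275461214) (nat_lit 76) (nat_lit 7889086306) (nat_lit 10) (nat_lit 4) (nat_lit 11) (nat_lit 5) (nat_lit 11) (nat_lit 4) (nat_lit 305) (nat_lit 256) (nat_lit 219)) (XT.lf (nat_lit 0) (nat_lit 25429748755) (nat_lit 76) (nat_lit 18009531428) (nat_lit 76) (nat_lit 543881049) (nat_lit 10) (nat_lit 4) (nat_lit 11) (nat_lit 5) (nat_lit 11) (nat_lit 4) (nat_lit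 306) (nat_lit 256) (nat_lit 218))))) (XT.nd (nat_lit 234) (nat_lit 76) (nat_lit 0) (XT.nd (nat_lit 78) (nat_lit 76) (nat_lit 0) (XT.lf (nat_lit 0) (nat_lit 7084358229) (nat_lit 152) (nat_lit 3016119223) (nat_lit 76) (nat_lit 36945418262) (nat_lit 9) (nat_lit 5) (nat_lit 11) (nat_lit 5) (nat_lit 10) (nat_lit 4) (nat_lit 307) (nat_lit 256) (nat_lit 217)) (XT.nd (nat_lit 78) (nat_lit 0) (nat_lit 0) (XT.lf (nat_lit 0) (nat_lit 14087953488) (nat_lit 76) (nat_lit 1373008960) (nat_lit 152) (nat_lit 34884406395) (nat_lit 8) (nat_lit 5) (nat_lit 9) (nat_lit 5) (nat_lit 10) (nat_lit 4) (nat_lit 308) (nat_lit 256) (nat_lit 216)) (XT.lf (nat_lit 0) (nat_lit 24625859707) (nat_lit 152) (nat_lit 21479718868) (nat_lit 0) (nat_lit 7797334986) (nat_lit 8) (nat_lit 5) (nat_lit 10) (nat_lit 4) (nat_lit 8) (nat_lit 4) (nat_lit 309) (nat_lit 256) (nat_lit 215)))) (XT.nd (nat_lit 78) (nat_lit 76) (nat_lit 0)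 (XT.lf (nat_lit 0) (nat_lit 34490655754) (nat_lit 152) (nat_lit 5649455149) (nat_lit 0) (nat_lit 17606635949) (nat_lit 8) (nat_lit 5) (nat_lit 10) (nat_lit 4) (nat_lit 8) (nat_lit 4) (nat_lit 310) (nat_lit 256) (nat_lit 214)) (XT.nd (nat_lit 78) (nat_lit 0) (nat_lit 0) (XT.lf (nat_lit 0) (nat_lit 11723857960) (nat_lit 76) (nat_lit 33551556441) (nat_lit 76) (nat_lit 16616152299) (nat_lit 7) (nat_lit 4) (nat_lit 8) (nat_lit 5) (nat_lit 8) (nat_lit 4) (nat_lit 311) (nat_lit 256) (nat_lit 213)) (XT.lf (nat_lit 0) (nat_lit 30594453360) (nat_lit 76) (nat_lit 26377045594) (nat_lit 76) (nat_lit 9394063363) (nat_lit 7) (nat_lit 4) (nat_lit 8) (nat_lit 5) (nat_lit 8) (nat_lit 4) (nat_lit 312) (nat_lit 256) (nat_lit 212))))))) (XT.nd (nat_lit 858) (nat_lit 152) (nat_lit 0) (XT.nd (nat_lit 390) (nat_lit 76) (nat_lit 0) (XT.nd (nat_lit 156) (nat_lit 76) (nat_lit 0) (XT.nd (nat_lit 78) (nat_lit 76)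 (nat_lit 0) (XT.lf (nat_lit 0) (nat_lit 50887360301) (nat_lit 76) (nat_lit 18669739000) (nat_lit 76) (nat_lit 1642702982) (nat_lit 7) (nat_lit 4) (nat_lit 8) (nat_lit 5) (nat_lit 8) (nat_lit 4) (nat_lit 313) (nat_lit 256) (nat_lit 211)) (XT.lf (nat_lit 0) (nat_lit 6469937477) (nat_lit 152) (nat_lit 3804454732) (nat_lit 76) (nat_lit 66143324047) (nat_lit 6) (nat_lit 5) (nat_lit 8) (nat_lit 5) (nat_lit 7) (nat_lit 4) (nat_lit 314) (nat_lit 256) (nat_lit 210))) (XT.nd (nat_lit 78) (nat_lit 0) (nat_lit 0) (XT.lf (nat_lit 0) (nat_lit 14380518382) (nat_lit 76) (nat_lit 978561600) (nat_lit 152) (nat_lit 66683397918) (nat_lit 5) (nat_lit 5) (nat_lit 6) (nat_lit 5) (nat_lit 7) (nat_lit 4) (nat_lit 315) (nat_lit 256) (nat_lit 209)) (XT.nd (nat_lit 78) (nat_lit 0) (nat_lit 0) (XT.lf (nat_lit 0) (nat_lit 25129235763) (nat_lit 152) (nat_lit 54174616494) (nat_lit 0) (nat_lit 8804886335) (nat_lit 5)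 (nat_lit 5) (nat_lit 7) (nat_lit 4) (nat_lit 5) (nat_lit 4) (nat_lit 316) (nat_lit 256) (nat_lit 208)) (XT.lf (nat_lit 0) (nat_lit 35661446675) (nat_lit 152) (nat_lit 39693584295) (nat_lit 0) (nat_lit 19306258344) (nat_lit 5) (nat_lit 5) (nat_lit 7) (nat_lit 4) (nat_lit 5) (nat_lit 4) (nat_lit 317) (nat_lit 256) (nat_lit 207))))) (XT.nd (nat_lit 234) (nat_lit 0) (nat_lit 0) (XT.nd (nat_lit 78) (nat_lit 76) (nat_lit 0) (XT.lf (nat_lit 0) (nat_lit 47002847730) (nat_lit 152) (nat_lit 24117771307) (nat_lit 0) (nat_lit 30619104860) (nat_lit 5) (nat_lit 5) (nat_lit 7) (nat_lit 4) (nat_lit 5) (nat_lit 4) (nat_lit 318) (nat_lit 256) (nat_lit 206)) (XT.nd (nat_lit 78) (nat_lit 76) (nat_lit 0) (XT.lf (nat_lit 0) (nat_lit 59220647232) (nat_lit 152) (nat_lit 7354876417) (nat_lit 0) (nat_lit 42810464973) (nat_lit 5) (nat_lit 5) (nat_lit 7) (nat_lit 4) (nat_lit 5) (nat_lit 4) (nat_lit 319) (nat_lit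 256) (nat_lit 205)) (XT.lf (nat_lit 0) (nat_lit 11048042401) (nat_lit 76) (nat_lit 61511695459) (nat_lit 76) (nat_lit 45077032283) (nat_lit 4) (nat_lit 4) (nat_lit 5) (nat_lit 5) (nat_lit 5) (nat_lit 4) (nat_lit 320) (nat_lit 256) (nat_lit 204)))) (XT.nd (nat_lit 78) (nat_lit 0) (nat_lit 0) (XT.lf (nat_lit 0) (nat_lit 31133594433) (nat_lit 76) (nat_lit 55933159423) (nat_lit 76) (nat_lit 39475828733) (nat_lit 4) (nat_lit 4) (nat_lit 5) (nat_lit 5) (nat_lit 5) (nat_lit 4) (nat_lit 321) (nat_lit 256) (nat_lit 203)) (XT.nd (nat_lit 78) (nat_lit 0) (nat_lit 0) (XT.lf (nat_lit 0) (nat_lit 52777619742) (nat_lit 76) (nat_lit 49931415943) (nat_lit 76) (nat_lit 33453096814) (nat_lit 4) (nat_lit 4) (nat_lit 5) (nat_lit 5) (nat_lit 5) (nat_lit 4) (nat_lit 322) (nat_lit 256) (nat_lit 202)) (XT.lf (nat_lit 0) (nat_lit 76108379218) (nat_lit 76) (nat_lit 43470899132) (nat_lit 76) (nat_lit 26973146263)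 (nat_lit 4) (nat_lit 4) (nat_lit 5) (nat_lit 5) (nat_lit 5) (nat_lit 4) (nat_lit 323) (nat_lit 256) (nat_lit 201)))))) (XT.nd (nat_lit 390) (nat_lit 0) (nat_lit 0) (XT.nd (nat_lit 156) (nat_lit 152) (nat_lit 0) (XT.nd (nat_lit 78) (nat_lit 0) (nat_lit 0) (XT.lf (nat_lit 0) (nat_lit 101264129214) (nat_lit 76) (nat_lit 36513324444) (nat_lit 76) (nat_lit 19997577371) (nat_lit 4) (nat_lit 4) (nat_lit 5) (nat_lit 5) (nat_lit 5) (nat_lit 4) (nat_lit 324) (nat_lit 256) (nat_lit 200)) (XT.lf (nat_lit 0) (nat_lit 128393940841) (nat_lit 76) (nat_lit 29017461809) (nat_lit 76) (nat_lit 12485053436) (nat_lit 4) (nat_lit 4) (nat_lit 5) (nat_lit 5) (nat_lit 5) (nat_lit 4) (nat_lit 325) (nat_lit 256) (nat_lit 199))) (XT.nd (nat_lit 78) (nat_lit 152) (nat_lit 0) (XT.lf (nat_lit 0) (nat_lit 157658583352) (nat_lit 76) (nat_lit 20938891299) (nat_lit 76) (nat_lit 4391055797) (nat_lit 4) (nat_lit 4) (nat_lit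 5) (nat_lit 5) (nat_lit 5) (nat_lit 4) (nat_lit 326) (nat_lit 256) (nat_lit 198)) (XT.nd (nat_lit 78) (nat_lit 76) (nat_lit 0) (XT.lf (nat_lit 0) (nat_lit 4193716761) (nat_lit 152) (nat_lit 7965000520) (nat_lit 76) (nat_lit 184966737469) (nat_lit 3) (nat_lit 5) (nat_lit 5) (nat_lit 5) (nat_lit 4) (nat_lit 4) (nat_lit 327) (nat_lit 256) (nat_lit 197)) (XT.lf (nat_lit 0) (nat_lit 11037342096) (nat_lit 76) (nat_lit 2432261929) (nat_lit 152) (nat_lit 198912225657) (nat_lit 2) (nat_lit 5) (nat_lit 3) (nat_lit 5) (nat_lit 4) (nat_lit 4) (nat_lit 328) (nat_lit 256) (nat_lit 196))))) (XT.nd (nat_lit 234) (nat_lit 0) (nat_lit 0) (XT.nd (nat_lit 78) (nat_lit 0) (nat_lit 0) (XT.lf (nat_lit 0) (nat_lit 23738922301) (nat_lit 152) (nat_lit 197166013626) (nat_lit 0) (nat_lit 7941214957) (nat_lit 2) (nat_lit 5) (nat_lit 4) (nat_lit 4) (nat_lit 2) (nat_lit 4) (nat_lit 329) (nat_lit 256) (nat_lit 195))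 (XT.nd (nat_lit 78) (nat_lit 0) (nat_lit 0) (XT.lf (nat_lit 0) (nat_lit 34856269683) (nat_lit 152) (nat_lit 192722264967) (nat_lit 0) (nat_lit 19047762910) (nat_lit 2) (nat_lit 5) (nat_lit 4) (nat_lit 4) (nat_lit 2) (nat_lit 4) (nat_lit 330) (nat_lit 256) (nat_lit 194)) (XT.lf (nat_lit 0) (nat_lit 46849552323) (nat_lit 152) (nat_lit 187948933859) (nat_lit 0) (nat_lit 31031046078) (nat_lit 2) (nat_lit 5) (nat_lit 4) (nat_lit 4) (nat_lit 2) (nat_lit 4) (nat_lit 331) (nat_lit 256) (nat_lit 193)))) (XT.nd (nat_lit 78) (nat_lit 0) (nat_lit 0) (XT.lf (nat_lit 0) (nat_lit 59789841526) (nat_lit 152) (nat_lit 182817733897) (nat_lit 0) (nat_lit 43962076512) (nat_lit 2) (nat_lit 5) (nat_lit 4) (nat_lit 4) (nat_lit 2) (nat_lit 4) (nat_lit 332) (nat_lit 256) (nat_lit 192)) (XT.nd (nat_lit 78) (nat_lit 0) (nat_lit 0) (XT.lf (nat_lit 0) (nat_lit 73753820488) (nat_lit 152) (nat_lit 177298257968) (nat_lit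 0) (nat_lit 57917482539) (nat_lit 2) (nat_lit 5) (nat_lit 4) (nat_lit 4) (nat_lit 2) (nat_lit 4) (nat_lit 333) (nat_lit 256) (nat_lit 191)) (XT.lf (nat_lit 0) (nat_lit 88824238714) (nat_lit 152) (nat_lit 171357798068) (nat_lit 0) (nat_lit 72979962861) (nat_lit 2) (nat_lit 5) (nat_lit 4) (nat_lit 4) (nat_lit 2) (nat_lit 4) (nat_lit 334) (nat_lit 256) (nat_lit 190))))))))
noncomputable def xc41 : XT := (XT.nd (nat_lit 35724) (nat_lit 0) (nat_lit 1520) (XT.nd (nat_lit 780) (nat_lit 76) (nat_lit 0) (XT.nd (nat_lit 390) (nat_lit 0) (nat_lit 0) (XT.nd (nat_lit 156) (nat_lit 0) (nat_lit 0) (XT.nd (nat_lit 78) (nat_lit 0) (nat_lit 0) (XT.lf (nat_lit 0) (nat_lit 105090402385) (nat_lit 152) (nat_lit 164961151471) (nat_lit 0) (nat_lit 89238776623) (nat_lit 2) (nat_lit 5) (nat_lit 4) (nat_lit 4) (nat_lit 2) (nat_lit 4) (nat_lit 335) (nat_lit 256) (nat_lit 189)) (XT.lf (nat_lit 0) (nat_lit 122648703583)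 (nat_lit 152) (nat_lit 158070412123) (nat_lit 0) (nat_lit 106790272348) (nat_lit 2) (nat_lit 5) (nat_lit 4) (nat_lit 4) (nat_lit 2) (nat_lit 4) (nat_lit 336) (nat_lit 256) (nat_lit 188))) (XT.nd (nat_lit 78) (nat_lit 0) (nat_lit 0) (XT.lf (nat_lit 0) (nat_lit 141603191499) (nat_lit 152) (nat_lit 150644746014) (nat_lit 0) (nat_lit 125738458901) (nat_lit 2) (nat_lit 5) (nat_lit 4) (nat_lit 4) (nat_lit 2) (nat_lit 4) (nat_lit 337) (nat_lit 256) (nat_lit 187)) (XT.nd (nat_lit 78) (nat_lit 0) (nat_lit 0) (XT.lf (nat_lit 0) (nat_lit 162066189026) (nat_lit 152) (nat_lit 142640149196) (nat_lit 0) (nat_lit 146195621833) (nat_lit 2) (nat_lit 5) (nat_lit 4) (nat_lit 4) (nat_lit 2) (nat_lit 4) (nat_lit 338) (nat_lit 256) (nat_lit 186)) (XT.lf (nat_lit 0) (nat_lit 184158958371) (nat_lit 152) (nat_lit 134009187020) (nat_lit 0) (nat_lit 168282988774) (nat_lit 2) (nat_lit 5) (nat_lit 4) (nat_lit 4) (nat_lit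 2) (nat_lit 4) (nat_lit 339) (nat_lit 256) (nat_lit 185))))) (XT.nd (nat_lit 156) (nat_lit 0) (nat_lit 0) (XT.nd (nat_lit 78) (nat_lit 0) (nat_lit 0) (XT.lf (nat_lit 0) (nat_lit 208012419648) (nat_lit 152) (nat_lit 124700713046) (nat_lit 0) (nat_lit 192131447826) (nat_lit 2) (nat_lit 5) (nat_lit 4) (nat_lit 4) (nat_lit 2) (nat_lit 4) (nat_lit 340) (nat_lit 256) (nat_lit 184)) (XT.lf (nat_lit 0) (nat_lit 233767926702) (nat_lit 152) (nat_lit 114659565944) (nat_lit 0) (nat_lit 217882323190) (nat_lit 2) (nat_lit 5) (nat_lit 4) (nat_lit 4) (nat_lit 2) (nat_lit 4) (nat_lit 341) (nat_lit 256) (nat_lit 183))) (XT.nd (nat_lit 78) (nat_lit 0) (nat_lit 0) (XT.lf (nat_lit 0) (nat_lit 261578104760) (nat_lit 152) (nat_lit 103826242623) (nat_lit 0) (nat_lit 245688212646) (nat_lit 2) (nat_lit 5) (nat_lit 4) (nat_lit 4) (nat_lit 2) (nat_lit 4) (nat_lit 342) (nat_lit 256) (nat_lit 182)) (XT.nd (nat_lit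 78) (nat_lit 0) (nat_lit 0) (XT.lf (nat_lit 0) (nat_lit 291607754878) (nat_lit 152) (nat_lit 92136545609) (nat_lit 0) (nat_lit 275713891836) (nat_lit 2) (nat_lit 5) (nat_lit 4) (nat_lit 4) (nat_lit 2) (nat_lit 4) (nat_lit 343) (nat_lit 256) (nat_lit 181)) (XT.lf (nat_lit 0) (nat_lit 324034830536) (nat_lit 152) (nat_lit 79521202624) (nat_lit 0) (nat_lit 308137290710) (nat_lit 2) (nat_lit 5) (nat_lit 4) (nat_lit 4) (nat_lit 2) (nat_lit 4) (nat_lit 344) (nat_lit 256) (nat_lit 180)))))) (XT.nd (nat_lit 34476) (nat_lit 0) (nat_lit 6384) (XT.nd (nat_lit 156) (nat_lit 76) (nat_lit 0) (XT.nd (nat_lit 78) (nat_lit 0) (nat_lit 0) (XT.lf (nat_lit 0) (nat_lit 359051492185) (nat_lit 152) (nat_lit 65905456081) (nat_lit 0) (nat_lit 343150547927) (nat_lit 2) (nat_lit 5) (nat_lit 4) (nat_lit 4) (nat_lit 2) (nat_lit 4) (nat_lit 345) (nat_lit 256) (nat_lit 179)) (XT.lf (nat_lit 0) (nat_lit 396865245966)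 (nat_lit 152) (nat_lit 51208620073) (nat_lit 0) (nat_lit 380961149458) (nat_lit 2) (nat_lit 5) (nat_lit 4) (nat_lit 4) (nat_lit 2) (nat_lit 4) (nat_lit 346) (nat_lit 256) (nat_lit 178))) (XT.nd (nat_lit 78) (nat_lit 76) (nat_lit 0) (XT.lf (nat_lit 0) (nat_lit 437700173384) (nat_lit 152) (nat_lit 35343602240) (nat_lit 0) (nat_lit 421793158126) (nat_lit 2) (nat_lit 5) (nat_lit 4) (nat_lit 4) (nat_lit 2) (nat_lit 4) (nat_lit 347) (nat_lit 256) (nat_lit 177)) (XT.nd (nat_lit 78) (nat_lit 76) (nat_lit 0) (XT.lf (nat_lit 0) (nat_lit 481798259194) (nat_lit 152) (nat_lit 18216387661) (nat_lit 0) (nat_lit 465888541389) (nat_lit 2) (nat_lit 5) (nat_lit 4) (nat_lit 4) (nat_lit 2) (nat_lit 4) (nat_lit 348) (nat_lit 256) (nat_lit 176)) (XT.lf (nat_lit 0) (nat_lit 283595082) (nat_lit 76) (nat_lit 529141658017) (nat_lit 76) (nat_lit 513229437854) (nat_lit 1) (nat_lit 4) (nat_lit 2) (nat_lit 5) (nat_lit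 2) (nat_lit 4) (nat_lit 349) (nat_lit 256) (nat_lit 175))))) (XT.nd (nat_lit 234) (nat_lit 1976) (nat_lit 0) (XT.nd (nat_lit 78) (nat_lit 1064) (nat_lit 0) (XT.lf (nat_lit 0) (nat_lit 538098966) (nat_lit 380) (nat_lit 1409250506) (nat_lit 380) (nat_lit 1409250506) (nat_lit 125) (nat_lit 4) (nat_lit 130) (nat_lit 5) (nat_lit 130) (nat_lit 4) (nat_lit 266) (nat_lit 257) (nat_lit 257)) (XT.nd (nat_lit 78) (nat_lit 532) (nat_lit 0) (XT.lf (nat_lit 0) (nat_lit 978364917) (nat_lit 456) (nat_lit 1071117657) (nat_lit 532) (nat_lit 4766218125) (nat_lit 118) (nat_lit 5) (nat_lit 124) (nat_lit 5) (nat_lit 125) (nat_lit 4) (nat_lit 267) (nat_lit 257) (nat_lit 256)) (XT.lf (nat_lit 0) (nat_lit 1001047214) (nat_lit 532) (nat_lit 5925001708) (nat_lit 532) (nat_lit 13189827) (nat_lit 111) (nat_lit 4) (nat_lit 118) (nat_lit 5) (nat_lit 118) (nat_lit 4) (nat_lit 268) (nat_lit 257) (nat_lit 255)))) (XT.nd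 (nat_lit 78) (nat_lit 1292) (nat_lit 0) (XT.lf (nat_lit 0) (nat_lit 1093026964) (nat_lit 608) (nat_lit 3607715223) (nat_lit 684) (nat_lit 2381612808) (nat_lit 102) (nat_lit 5) (nat_lit 110) (nat_lit 5) (nat_lit 111) (nat_lit 4) (nat_lit 269) (nat_lit 257) (nat_lit 254)) (XT.nd (nat_lit 78) (nat_lit 532) (nat_lit 0) (XT.lf (nat_lit 0) (nat_lit 1299975722) (nat_lit 684) (nat_lit 920944539) (nat_lit 760) (nat_lit 5027392668) (nat_lit 92) (nat_lit 5) (nat_lit 101) (nat_lit 5) (nat_lit 102) (nat_lit 5) (nat_lit 270) (nat_lit 257) (nat_lit 253)) (XT.lf (nat_lit 0) (nat_lit 1572008369) (nat_lit 532) (nat_lit 5344177545) (nat_lit 608) (nat_lit 519761228) (nat_lit 85) (nat_lit 5) (nat_lit 92) (nat_lit 5) (nat_lit 93) (nat_lit 4) (nat_lit 271) (nat_lit 257) (nat_lit 252))))))) (XT.nd (nat_lit 858) (nat_lit 1520) (nat_lit 0) (XT.nd (nat_lit 390) (nat_lit 1520) (nat_lit 0) (XT.nd (nat_lit 156) (nat_lit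 988) (nat_lit 0) (XT.nd (nat_lit 78) (nat_lit 380) (nat_lit 0) (XT.lf (nat_lit 0) (nat_lit 1882795918) (nat_lit 380) (nat_lit 2136697306) (nat_lit 456) (nat_lit 3625856347) (nat_lit 79) (nat_lit 5) (nat_lit 84) (nat_lit 5) (nat_lit 85) (nat_lit 5) (nat_lit 272) (nat_lit 257) (nat_lit 251)) (XT.lf (nat_lit 0) (nat_lit 835753759) (nat_lit 380) (nat_lit 5625123730) (nat_lit 76) (nat_lit 1418167861) (nat_lit 74) (nat_lit 5) (nat_lit 79) (nat_lit 5) (nat_lit 75) (nat_lit 5) (nat_lit 273) (nat_lit 257) (nat_lit 250))) (XT.nd (nat_lit 78) (nat_lit 684) (nat_lit 0) (XT.lf (nat_lit 0) (nat_lit 2615516338) (nat_lit 304) (nat_lit 2784354382) (nat_lit 380) (nat_lit 2735503767) (nat_lit 70) (nat_lit 5) (nat_lit 74) (nat_lit 5) (nat_lit 75) (nat_lit 5) (nat_lit 274) (nat_lit 257) (nat_lit 249)) (XT.nd (nat_lit 78) (nat_lit 304) (nat_lit 0) (XT.lf (nat_lit 0) (nat_lit 1726978860) (nat_lit 380) (nat_lit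 5420125999) (nat_lit 76) (nat_lit 1270513835) (nat_lit 65) (nat_lit 5) (nat_lit 70) (nat_lit 5) (nat_lit 66) (nat_lit 5) (nat_lit 275) (nat_lit 257) (nat_lit 248)) (XT.lf (nat_lit 0) (nat_lit 3334711405) (nat_lit 304) (nat_lit 3033803164) (nat_lit 380) (nat_lit 2356232097) (nat_lit 61) (nat_lit 5) (nat_lit 65) (nat_lit 5) (nat_lit 66) (nat_lit 5) (nat_lit 276) (nat_lit 257) (nat_lit 247))))) (XT.nd (nat_lit 234) (nat_lit 684) (nat_lit 0) (XT.nd (nat_lit 78) (nat_lit 532) (nat_lit 0) (XT.lf (nat_lit 0) (nat_lit 2158185491) (nat_lit 304) (nat_lit 5420552833) (nat_lit 76) (nat_lit 1480897129) (nat_lit 57) (nat_lit 5) (nat_lit 61) (nat_lit 5) (nat_lit 58) (nat_lit 5) (nat_lit 277) (nat_lit 257) (nat_lit 246)) (XT.nd (nat_lit 78) (nat_lit 304) (nat_lit 0) (XT.lf (nat_lit 0) (nat_lit 3853463461) (nat_lit 228) (nat_lit 3049772533) (nat_lit 304) (nat_lit 2518906659) (nat_lit 54) (nat_lit 5) (nat_lit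 57) (nat_lit 5) (nat_lit 58) (nat_lit 5) (nat_lit 278) (nat_lit 257) (nat_lit 245)) (XT.lf (nat_lit 0) (nat_lit 2086129058) (nat_lit 304) (nat_lit 5838244067) (nat_lit 76) (nat_lit 1890728463) (nat_lit 50) (nat_lit 5) (nat_lit 54) (nat_lit 5) (nat_lit 51) (nat_lit 5) (nat_lit 279) (nat_lit 257) (nat_lit 244)))) (XT.nd (nat_lit 78) (nat_lit 456) (nat_lit 0) (XT.lf (nat_lit 0) (nat_lit 3947874477) (nat_lit 228) (nat_lit 3001787733) (nat_lit 304) (nat_lit 3289147192) (nat_lit 47) (nat_lit 5) (nat_lit 50) (nat_lit 5) (nat_lit 51) (nat_lit 5) (nat_lit 280) (nat_lit 257) (nat_lit 243)) (XT.nd (nat_lit 78) (nat_lit 228) (nat_lit 0) (XT.lf (nat_lit 0) (nat_lit 1432046219) (nat_lit 228) (nat_lit 6932158229) (nat_lit 76) (nat_lit 2332574233) (nat_lit 44) (nat_lit 5) (nat_lit 47) (nat_lit 5) (nat_lit 45) (nat_lit 5) (nat_lit 281) (nat_lit 257) (nat_lit 242)) (XT.lf (nat_lit 0) (nat_lit 3340696299)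 (nat_lit 228) (nat_lit 3075028080) (nat_lit 304) (nat_lit 4773203973) (nat_lit 41) (nat_lit 5) (nat_lit 44) (nat_lit 5) (nat_lit 45) (nat_lit 5) (nat_lit 282) (nat_lit 257) (nat_lit 241)))))) (XT.nd (nat_lit 390) (nat_lit 760) (nat_lit 0) (XT.nd (nat_lit 156) (nat_lit 380) (nat_lit 0) (XT.nd (nat_lit 78) (nat_lit 152) (nat_lit 0) (XT.lf (nat_lit 0) (nat_lit 74820019) (nat_lit 228) (nat_lit 9026839016) (nat_lit 76) (nat_lit 2618959175) (nat_lit 38) (nat_lit 5) (nat_lit 41) (nat_lit 5) (nat_lit 39) (nat_lit 5) (nat_lit 283) (nat_lit 257) (nat_lit 240)) (XT.lf (nat_lit 0) (nat_lit 1681042156) (nat_lit 152) (nat_lit 3482722442) (nat_lit 228) (nat_lit 7126346835) (nat_lit 36) (nat_lit 5) (nat_lit 38) (nat_lit 5) (nat_lit 39) (nat_lit 5) (nat_lit 284) (nat_lit 257) (nat_lit 239))) (XT.nd (nat_lit 78) (nat_lit 228) (nat_lit 0) (XT.lf (nat_lit 0) (nat_lit 334265715) (nat_lit 152) (nat_lit 10340432577)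 (nat_lit 228) (nat_lit 2229903682) (nat_lit 34) (nat_lit 5) (nat_lit 36) (nat_lit 5) (nat_lit 37) (nat_lit 4) (nat_lit 285) (nat_lit 257) (nat_lit 238)) (XT.nd (nat_lit 78) (nat_lit 152) (nat_lit 0) (XT.lf (nat_lit 0) (nat_lit 3022837387) (nat_lit 228) (nat_lit 1433714145) (nat_lit 76) (nat_lit 9106349633) (nat_lit 33) (nat_lit 5) (nat_lit 36) (nat_lit 5) (nat_lit 34) (nat_lit 5) (nat_lit 286) (nat_lit 257) (nat_lit 237)) (XT.lf (nat_lit 0) (nat_lit 8645421027) (nat_lit 228) (nat_lit 3682626088) (nat_lit 76) (nat_lit 1942750203) (nat_lit 31) (nat_lit 5) (nat_lit 34) (nat_lit 5) (nat_lit 32) (nat_lit 4) (nat_lit 287) (nat_lit 257) (nat_lit 236))))) (XT.nd (nat_lit 234) (nat_lit 304) (nat_lit 0) (XT.nd (nat_lit 78) (nat_lit 304) (nat_lit 0) (XT.lf (nat_lit 0) (nat_lit 8516139408) (nat_lit 152) (nat_lit 6271644181) (nat_lit 228) (nat_lit 244180211) (nat_lit 29) (nat_lit 5) (nat_lit 31) (nat_lit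 5) (nat_lit 32) (nat_lit 4) (nat_lit 288) (nat_lit 257) (nat_lit 235)) (XT.nd (nat_lit 78) (nat_lit 76) (nat_lit 0) (XT.lf (nat_lit 0) (nat_lit 5393597264) (nat_lit 228) (nat_lit 10050533071) (nat_lit 76) (nat_lit 405454031) (nat_lit 26) (nat_lit 5) (nat_lit 29) (nat_lit 5) (nat_lit 27) (nat_lit 4) (nat_lit 289) (nat_lit 257) (nat_lit 234)) (XT.lf (nat_lit 0) (nat_lit 2309008534) (nat_lit 76) (nat_lit 9270195934) (nat_lit 152) (nat_lit 5148053908) (nat_lit 25) (nat_lit 5) (nat_lit 26) (nat_lit 5) (nat_lit 27) (nat_lit 4) (nat_lit 290) (nat_lit 257) (nat_lit 233)))) (XT.nd (nat_lit 78) (nat_lit 228) (nat_lit 0) (XT.lf (nat_lit 0) (nat_lit 596764244) (nat_lit 152) (nat_lit 1913939695) (nat_lit 76) (nat_lit 15162536976) (nat_lit 24) (nat_lit 5) (nat_lit 26) (nat_lit 5) (nat_lit 25) (nat_lit 5) (nat_lit 291) (nat_lit 257) (nat_lit 232)) (XT.nd (nat_lit 78) (nat_lit 76) (nat_lit 0) (XT.lf (nat_lit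 0) (nat_lit 6746572395) (nat_lit 228) (nat_lit 7122579053) (nat_lit 76) (nat_lit 4815334032) (nat_lit 22) (nat_lit 5) (nat_lit 25) (nat_lit 5) (nat_lit 23) (nat_lit 4) (nat_lit 292) (nat_lit 257) (nat_lit 231)) (XT.lf (nat_lit 0) (nat_lit 6341194396) (nat_lit 76) (nat_lit 7091438436) (nat_lit 152) (nat_lit 6341868122) (nat_lit 21) (nat_lit 5) (nat_lit 22) (nat_lit 5) (nat_lit 23) (nat_lit 4) (nat_lit 293) (nat_lit 257) (nat_lit 230))))))))
noncomputable def xc42 : XT := (XT.nd (nat_lit 1638) (nat_lit 380) (nat_lit 0) (XT.nd (nat_lit 780) (nat_lit 380) (nat_lit 0) (XT.nd (nat_lit 390) (nat_lit 228) (nat_lit 0) (XT.nd (nat_lit 156) (nat_lit 228) (nat_lit 0) (XT.nd (nat_lit 78) (nat_lit 228) (nat_lit 0) (XT.lf (nat_lit 0) (nat_lit 20657127089) (nat_lit 152) (nat_lit 37725675) (nat_lit 0) (nat_lit 256765900) (nat_lit 21) (nat_lit 5) (nat_lit 23) (nat_lit 4) (nat_lit 21) (nat_lit 4) (nat_lit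 294) (nat_lit 257) (nat_lit 229)) (XT.lf (nat_lit 0) (nat_lit 6271035648) (nat_lit 228) (nat_lit 7742865392) (nat_lit 76) (nat_lit 8192506678) (nat_lit 18) (nat_lit 5) (nat_lit 21) (nat_lit 5) (nat_lit 19) (nat_lit 4) (nat_lit 295) (nat_lit 257) (nat_lit 228))) (XT.nd (nat_lit 78) (nat_lit 152) (nat_lit 0) (XT.lf (nat_lit 0) (nat_lit 6568639075) (nat_lit 76) (nat_lit 6773106649) (nat_lit 152) (nat_lit 10220143929) (nat_lit 17) (nat_lit 5) (nat_lit 18) (nat_lit 5) (nat_lit 19) (nat_lit 4) (nat_lit 296) (nat_lit 257) (nat_lit 227)) (XT.nd (nat_lit 78) (nat_lit 152) (nat_lit 0) (XT.lf (nat_lit 0) (nat_lit 21022489137) (nat_lit 152) (nat_lit 2932769373) (nat_lit 0) (nat_lit 1068392116) (nat_lit 17) (nat_lit 5) (nat_lit 19) (nat_lit 4) (nat_lit 17) (nat_lit 4) (nat_lit 297) (nat_lit 257) (nat_lit 226)) (XT.lf (nat_lit 0) (nat_lit 2837827926) (nat_lit 152) (nat_lit 14286340082) (nat_lit 76)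 (nat_lit 9465647259) (nat_lit 15) (nat_lit 5) (nat_lit 17) (nat_lit 5) (nat_lit 16) (nat_lit 4) (nat_lit 298) (nat_lit 257) (nat_lit 225))))) (XT.nd (nat_lit 156) (nat_lit 152) (nat_lit 0) (XT.nd (nat_lit 78) (nat_lit 0) (nat_lit 0) (XT.lf (nat_lit 0) (nat_lit 350024684) (nat_lit 76) (nat_lit 9695149338) (nat_lit 152) (nat_lit 18234796906) (nat_lit 14) (nat_lit 5) (nat_lit 15) (nat_lit 5) (nat_lit 16) (nat_lit 4) (nat_lit 299) (nat_lit 257) (nat_lit 224)) (XT.lf (nat_lit 0) (nat_lit 16497670544) (nat_lit 76) (nat_lit 1487048310) (nat_lit 152) (nat_lit 12112884474) (nat_lit 14) (nat_lit 5) (nat_lit 15) (nat_lit 5) (nat_lit 16) (nat_lit 4) (nat_lit 300) (nat_lit 257) (nat_lit 223))) (XT.nd (nat_lit 78) (nat_lit 76) (nat_lit 0) (XT.lf (nat_lit 0) (nat_lit 1653762087) (nat_lit 76) (nat_lit 24959224600) (nat_lit 76) (nat_lit 5445023184) (nat_lit 13) (nat_lit 4) (nat_lit 14) (nat_lit 5) (nat_lit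 14) (nat_lit 4) (nat_lit 301) (nat_lit 257) (nat_lit 222)) (XT.nd (nat_lit 78) (nat_lit 0) (nat_lit 0) (XT.lf (nat_lit 0) (nat_lit 1881145787) (nat_lit 152) (nat_lit 15762710027) (nat_lit 76) (nat_lit 16521004208) (nat_lit 12) (nat_lit 5) (nat_lit 14) (nat_lit 5) (nat_lit 13) (nat_lit 4) (nat_lit 302) (nat_lit 257) (nat_lit 221)) (XT.lf (nat_lit 0) (nat_lit 9526701036) (nat_lit 152) (nat_lit 186412021) (nat_lit 76) (nat_lit 26726512902) (nat_lit 12) (nat_lit 5) (nat_lit 14) (nat_lit 5) (nat_lit 13) (nat_lit 4) (nat_lit 303) (nat_lit 257) (nat_lit 220)))))) (XT.nd (nat_lit 390) (nat_lit 152) (nat_lit 0) (XT.nd (nat_lit 156) (nat_lit 152) (nat_lit 0) (XT.nd (nat_lit 78) (nat_lit 0) (nat_lit 0) (XT.lf (nat_lit 0) (nat_lit 17047591690) (nat_lit 76) (nat_lit 929793295) (nat_lit 152) (nat_lit 20909345361) (nat_lit 11) (nat_lit 5) (nat_lit 12) (nat_lit 5) (nat_lit 13) (nat_lit 4) (nat_lit 304)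 (nat_lit 257) (nat_lit 219)) (XT.lf (nat_lit 0) (nat_lit 27170795903) (nat_lit 152) (nat_lit 6126884612) (nat_lit 0) (nat_lit 8228618022) (nat_lit 11) (nat_lit 5) (nat_lit 13) (nat_lit 4) (nat_lit 11) (nat_lit 4) (nat_lit 305) (nat_lit 257) (nat_lit 218))) (XT.nd (nat_lit 78) (nat_lit 76) (nat_lit 0) (XT.lf (nat_lit 0) (nat_lit 11059556881) (nat_lit 76) (nat_lit 26163458267) (nat_lit 76) (nat_lit 7147877172) (nat_lit 10) (nat_lit 4) (nat_lit 11) (nat_lit 5) (nat_lit 11) (nat_lit 4) (nat_lit 306) (nat_lit 257) (nat_lit 217)) (XT.nd (nat_lit 78) (nat_lit 0) (nat_lit 0) (XT.lf (nat_lit 0) (nat_lit 661420436) (nat_lit 152) (nat_lit 17727635138) (nat_lit 76) (nat_lit 29051253520) (nat_lit 9) (nat_lit 5) (nat_lit 11) (nat_lit 5) (nat_lit 10) (nat_lit 4) (nat_lit 307) (nat_lit 257) (nat_lit 216)) (XT.lf (nat_lit 0) (nat_lit 8790006677) (nat_lit 152) (nat_lit 1126964770) (nat_lit 76) (nat_lit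 40835222240) (nat_lit 9) (nat_lit 5) (nat_lit 11) (nat_lit 5) (nat_lit 10) (nat_lit 4) (nat_lit 308) (nat_lit 257) (nat_lit 215))))) (XT.nd (nat_lit 234) (nat_lit 76) (nat_lit 0) (XT.nd (nat_lit 78) (nat_lit 0) (nat_lit 0) (XT.lf (nat_lit 0) (nat_lit 17252847259) (nat_lit 76) (nat_lit 531345694) (nat_lit 152) (nat_lit 36534090783) (nat_lit 8) (nat_lit 5) (nat_lit 9) (nat_lit 5) (nat_lit 10) (nat_lit 4) (nat_lit 309) (nat_lit 257) (nat_lit 214)) (XT.nd (nat_lit 78) (nat_lit 0) (nat_lit 0) (XT.lf (nat_lit 0) (nat_lit 27615566588) (nat_lit 152) (nat_lit 21274284838) (nat_lit 0) (nat_lit 9273945779) (nat_lit 8) (nat_lit 5) (nat_lit 10) (nat_lit 4) (nat_lit 8) (nat_lit 4) (nat_lit 310) (nat_lit 257) (nat_lit 213)) (XT.lf (nat_lit 0) (nat_lit 38194017570) (nat_lit 152) (nat_lit 4320104580) (nat_lit 0) (nat_lit 19804818671) (nat_lit 8) (nat_lit 5) (nat_lit 10) (nat_lit 4) (nat_lit 8) (nat_lit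 4) (nat_lit 311) (nat_lit 257) (nat_lit 212)))) (XT.nd (nat_lit 78) (nat_lit 0) (nat_lit 0) (XT.lf (nat_lit 0) (nat_lit 14365660147) (nat_lit 76) (nat_lit 35432565289) (nat_lit 76) (nat_lit 16999312603) (nat_lit 7) (nat_lit 4) (nat_lit 8) (nat_lit 5) (nat_lit 8) (nat_lit 4) (nat_lit 312) (nat_lit 257) (nat_lit 211)) (XT.nd (nat_lit 78) (nat_lit 0) (nat_lit 0) (XT.lf (nat_lit 0) (nat_lit 34619688842) (nat_lit 76) (nat_lit 27743583624) (nat_lit 76) (nat_lit 9269540395) (nat_lit 7) (nat_lit 4) (nat_lit 8) (nat_lit 5) (nat_lit 8) (nat_lit 4) (nat_lit 313) (nat_lit 257) (nat_lit 210)) (XT.lf (nat_lit 0) (nat_lit 56419163212) (nat_lit 76) (nat_lit 19474775882) (nat_lit 76) (nat_lit 962963631) (nat_lit 7) (nat_lit 4) (nat_lit 8) (nat_lit 5) (nat_lit 8) (nat_lit 4) (nat_lit 314) (nat_lit 257) (nat_lit 209))))))) (XT.nd (nat_lit 858) (nat_lit 152) (nat_lit 0) (XT.nd (nat_lit 390) (nat_lit 76) (nat_lit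 0) (XT.nd (nat_lit 156) (nat_lit 0) (nat_lit 0) (XT.nd (nat_lit 78) (nat_lit 76) (nat_lit 0) (XT.lf (nat_lit 0) (nat_lit 7714563536) (nat_lit 152) (nat_lit 2731928317) (nat_lit 76) (nat_lit 72048051923) (nat_lit 6) (nat_lit 5) (nat_lit 8) (nat_lit 5) (nat_lit 7) (nat_lit 4) (nat_lit 315) (nat_lit 257) (nat_lit 208)) (XT.lf (nat_lit 0) (nat_lit 16848004998) (nat_lit 76) (nat_lit 433541057) (nat_lit 152) (nat_lit 71289422513) (nat_lit 5) (nat_lit 5) (nat_lit 6) (nat_lit 5) (nat_lit 7) (nat_lit 4) (nat_lit 316) (nat_lit 257) (nat_lit 207))) (XT.nd (nat_lit 78) (nat_lit 0) (nat_lit 0) (XT.lf (nat_lit 0) (nat_lit 27790936864) (nat_lit 152) (nat_lit 57265788439) (nat_lit 0) (nat_lit 10067940023) (nat_lit 5) (nat_lit 5) (nat_lit 7) (nat_lit 4) (nat_lit 5) (nat_lit 4) (nat_lit 317) (nat_lit 257) (nat_lit 206)) (XT.nd (nat_lit 78) (nat_lit 0) (nat_lit 0) (XT.lf (nat_lit 0) (nat_lit 39117475594)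 (nat_lit 152) (nat_lit 41718332729) (nat_lit 0) (nat_lit 21368039364) (nat_lit 5) (nat_lit 5) (nat_lit 7) (nat_lit 4) (nat_lit 5) (nat_lit 4) (nat_lit 318) (nat_lit 257) (nat_lit 205)) (XT.lf (nat_lit 0) (nat_lit 51321513683) (nat_lit 152) (nat_lit 24981694577) (nat_lit 0) (nat_lit 33547596538) (nat_lit 5) (nat_lit 5) (nat_lit 7) (nat_lit 4) (nat_lit 5) (nat_lit 4) (nat_lit 319) (nat_lit 257) (nat_lit 204))))) (XT.nd (nat_lit 234) (nat_lit 0) (nat_lit 0) (XT.nd (nat_lit 78) (nat_lit 76) (nat_lit 0) (XT.lf (nat_lit 0) (nat_lit 64475371358) (nat_lit 152) (nat_lit 6956693905) (nat_lit 0) (nat_lit 46678786698) (nat_lit 5) (nat_lit 5) (nat_lit 7) (nat_lit 4) (nat_lit 5) (nat_lit 4) (nat_lit 320) (nat_lit 257) (nat_lit 203)) (XT.nd (nat_lit 78) (nat_lit 0) (nat_lit 0) (XT.lf (nat_lit 0) (nat_lit 12875583174) (nat_lit 76) (nat_lit 65982438166) (nat_lit 76) (nat_lit 48164865068) (nat_lit 4) (nat_lit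 4) (nat_lit 5) (nat_lit 5) (nat_lit 5) (nat_lit 4) (nat_lit 321) (nat_lit 257) (nat_lit 202)) (XT.lf (nat_lit 0) (nat_lit 34498075860) (nat_lit 76) (nat_lit 59990966872) (nat_lit 76) (nat_lit 42153960033) (nat_lit 4) (nat_lit 4) (nat_lit 5) (nat_lit 5) (nat_lit 5) (nat_lit 4) (nat_lit 322) (nat_lit 257) (nat_lit 201)))) (XT.nd (nat_lit 78) (nat_lit 0) (nat_lit 0) (XT.lf (nat_lit 0) (nat_lit 57808897721) (nat_lit 76) (nat_lit 53539961344) (nat_lit 76) (nat_lit 35684960301) (nat_lit 4) (nat_lit 4) (nat_lit 5) (nat_lit 5) (nat_lit 5) (nat_lit 4) (nat_lit 323) (nat_lit 257) (nat_lit 200)) (XT.nd (nat_lit 78) (nat_lit 0) (nat_lit 0) (XT.lf (nat_lit 0) (nat_lit 82946186963) (nat_lit 76) (nat_lit 46591193400) (nat_lit 76) (nat_lit 28719531058) (nat_lit 4) (nat_lit 4) (nat_lit 5) (nat_lit 5) (nat_lit 5) (nat_lit 4) (nat_lit 324) (nat_lit 257) (nat_lit 199)) (XT.lf (nat_lit 0) (nat_lit 110058905298)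 (nat_lit 76) (nat_lit 39103485157) (nat_lit 76) (nat_lit 21216395686) (nat_lit 4) (nat_lit 4) (nat_lit 5) (nat_lit 5) (nat_lit 5) (nat_lit 4) (nat_lit 325) (nat_lit 257) (nat_lit 198)))))) (XT.nd (nat_lit 390) (nat_lit 0) (nat_lit 0) (XT.nd (nat_lit 156) (nat_lit 152) (nat_lit 0) (XT.nd (nat_lit 78) (nat_lit 0) (nat_lit 0) (XT.lf (nat_lit 0) (nat_lit 139307720689) (nat_lit 76) (nat_lit 31032465011) (nat_lit 76) (nat_lit 13131091160) (nat_lit 4) (nat_lit 4) (nat_lit 5) (nat_lit 5) (nat_lit 5) (nat_lit 4) (nat_lit 326) (nat_lit 257) (nat_lit 197)) (XT.lf (nat_lit 0) (nat_lit 170865959447) (nat_lit 76) (nat_lit 22330304693) (nat_lit 76) (nat_lit 4415704565) (nat_lit 4) (nat_lit 4) (nat_lit 5) (nat_lit 5) (nat_lit 5) (nat_lit 4) (nat_lit 327) (nat_lit 257) (nat_lit 196))) (XT.nd (nat_lit 78) (nat_lit 76) (nat_lit 0) (XT.lf (nat_lit 0) (nat_lit 4821974577) (nat_lit 152) (nat_lit 8041798796)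 (nat_lit 76) (nat_lit 200016996309) (nat_lit 3) (nat_lit 5) (nat_lit 5) (nat_lit 5) (nat_lit 4) (nat_lit 4) (nat_lit 328) (nat_lit 257) (nat_lit 195)) (XT.nd (nat_lit 78) (nat_lit 0) (nat_lit 0) (XT.lf (nat_lit 0) (nat_lit 12456376852) (nat_lit 76) (nat_lit 2370239212) (nat_lit 152) (nat_lit 214531710562) (nat_lit 2) (nat_lit 5) (nat_lit 3) (nat_lit 5) (nat_lit 4) (nat_lit 4) (nat_lit 329) (nat_lit 257) (nat_lit 194)) (XT.lf (nat_lit 0) (nat_lit 25900489806) (nat_lit 152) (nat_lit 212433655349) (nat_lit 0) (nat_lit 8806503591) (nat_lit 2) (nat_lit 5) (nat_lit 4) (nat_lit 4) (nat_lit 2) (nat_lit 4) (nat_lit 330) (nat_lit 257) (nat_lit 193))))) (XT.nd (nat_lit 234) (nat_lit 0) (nat_lit 0) (XT.nd (nat_lit 78) (nat_lit 0) (nat_lit 0) (XT.lf (nat_lit 0) (nat_lit 37887783962) (nat_lit 152) (nat_lit 207671861565) (nat_lit 0) (nat_lit 20784538977) (nat_lit 2) (nat_lit 5) (nat_lit 4) (nat_lit 4)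 (nat_lit 2) (nat_lit 4) (nat_lit 331) (nat_lit 257) (nat_lit 192)) (XT.nd (nat_lit 78) (nat_lit 0) (nat_lit 0) (XT.lf (nat_lit 0) (nat_lit 50822528272) (nat_lit 152) (nat_lit 202551344310) (nat_lit 0) (nat_lit 33710710352) (nat_lit 2) (nat_lit 5) (nat_lit 4) (nat_lit 4) (nat_lit 2) (nat_lit 4) (nat_lit 332) (nat_lit 257) (nat_lit 191)) (XT.lf (nat_lit 0) (nat_lit 64781373074) (nat_lit 152) (nat_lit 197041759777) (nat_lit 0) (nat_lit 47661617251) (nat_lit 2) (nat_lit 5) (nat_lit 4) (nat_lit 4) (nat_lit 2) (nat_lit 4) (nat_lit 333) (nat_lit 257) (nat_lit 190)))) (XT.nd (nat_lit 78) (nat_lit 0) (nat_lit 0) (XT.lf (nat_lit 0) (nat_lit 79847037448) (nat_lit 152) (nat_lit 191110458576) (nat_lit 0) (nat_lit 62719931714) (nat_lit 2) (nat_lit 5) (nat_lit 4) (nat_lit 4) (nat_lit 2) (nat_lit 4) (nat_lit 334) (nat_lit 257) (nat_lit 189)) (XT.nd (nat_lit 78) (nat_lit 0) (nat_lit 0) (XT.lf (nat_lit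 0) (nat_lit 96108799404) (nat_lit 152) (nat_lit 184722292256) (nat_lit 0) (nat_lit 78974888198) (nat_lit 2) (nat_lit 5) (nat_lit 4) (nat_lit 4) (nat_lit 2) (nat_lit 4) (nat_lit 335) (nat_lit 257) (nat_lit 188)) (XT.lf (nat_lit 0) (nat_lit 113663024939) (nat_lit 152) (nat_lit 177839405017) (nat_lit 0) (nat_lit 96522812370) (nat_lit 2) (nat_lit 5) (nat_lit 4) (nat_lit 4) (nat_lit 2) (nat_lit 4) (nat_lit 336) (nat_lit 257) (nat_lit 187))))))))
noncomputable def xc43 : XT := (XT.nd (nat_lit 35568) (nat_lit 0) (nat_lit 1520) (XT.nd (nat_lit 780) (nat_lit 0) (nat_lit 0) (XT.nd (nat_lit 390) (nat_lit 0) (nat_lit 0) (XT.nd (nat_lit 156) (nat_lit 0) (nat_lit 0) (XT.nd (nat_lit 78) (nat_lit 0) (nat_lit 0) (XT.lf (nat_lit 0) (nat_lit 132613739095) (nat_lit 152) (nat_lit 170421009379) (nat_lit 0) (nat_lit 115467691930) (nat_lit 2) (nat_lit 5) (nat_lit 4) (nat_lit 4) (nat_lit 2) (nat_lit 4) (nat_lit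 337) (nat_lit 257) (nat_lit 186)) (XT.lf (nat_lit 0) (nat_lit 153073242399) (nat_lit 152) (nat_lit 162423144478) (nat_lit 0) (nat_lit 135921792831) (nat_lit 2) (nat_lit 5) (nat_lit 4) (nat_lit 4) (nat_lit 2) (nat_lit 4) (nat_lit 338) (nat_lit 257) (nat_lit 185))) (XT.nd (nat_lit 78) (nat_lit 0) (nat_lit 0) (XT.lf (nat_lit 0) (nat_lit 175162776351) (nat_lit 152) (nat_lit 153798415560) (nat_lit 0) (nat_lit 158006324558) (nat_lit 2) (nat_lit 5) (nat_lit 4) (nat_lit 4) (nat_lit 2) (nat_lit 4) (nat_lit 339) (nat_lit 257) (nat_lit 184)) (XT.nd (nat_lit 78) (nat_lit 0) (nat_lit 0) (XT.lf (nat_lit 0) (nat_lit 199013241895) (nat_lit 152) (nat_lit 144495713120) (nat_lit 0) (nat_lit 181852158412) (nat_lit 2) (nat_lit 5) (nat_lit 4) (nat_lit 4) (nat_lit 2) (nat_lit 4) (nat_lit 340) (nat_lit 257) (nat_lit 183)) (XT.lf (nat_lit 0) (nat_lit 224765975122) (nat_lit 152) (nat_lit 134459910032) (nat_lit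 0) (nat_lit 207600603037) (nat_lit 2) (nat_lit 5) (nat_lit 4) (nat_lit 4) (nat_lit 2) (nat_lit 4) (nat_lit 341) (nat_lit 257) (nat_lit 182))))) (XT.nd (nat_lit 156) (nat_lit 0) (nat_lit 0) (XT.nd (nat_lit 78) (nat_lit 0) (nat_lit 0) (XT.lf (nat_lit 0) (nat_lit 252573584822) (nat_lit 152) (nat_lit 123631534870) (nat_lit 0) (nat_lit 235404241809) (nat_lit 2) (nat_lit 5) (nat_lit 4) (nat_lit 4) (nat_lit 2) (nat_lit 4) (nat_lit 342) (nat_lit 257) (nat_lit 181)) (XT.lf (nat_lit 0) (nat_lit 282600856830) (nat_lit 152) (nat_lit 111946419486) (nat_lit 0) (nat_lit 265427837032) (nat_lit 2) (nat_lit 5) (nat_lit 4) (nat_lit 4) (nat_lit 2) (nat_lit 4) (nat_lit 343) (nat_lit 257) (nat_lit 180))) (XT.nd (nat_lit 78) (nat_lit 0) (nat_lit 0) (XT.lf (nat_lit 0) (nat_lit 315025730535) (nat_lit 152) (nat_lit 99335318752) (nat_lit 0) (nat_lit 297849306307) (nat_lit 2) (nat_lit 5) (nat_lit 4) (nat_lit 4) (nat_lit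 2) (nat_lit 4) (nat_lit 344) (nat_lit 257) (nat_lit 179)) (XT.nd (nat_lit 78) (nat_lit 0) (nat_lit 0) (XT.lf (nat_lit 0) (nat_lit 350040353338) (nat_lit 152) (nat_lit 85723500218) (nat_lit 0) (nat_lit 332860776859) (nat_lit 2) (nat_lit 5) (nat_lit 4) (nat_lit 4) (nat_lit 2) (nat_lit 4) (nat_lit 345) (nat_lit 257) (nat_lit 178)) (XT.lf (nat_lit 0) (nat_lit 387852219299) (nat_lit 152) (nat_lit 71030301256) (nat_lit 0) (nat_lit 370669724070) (nat_lit 2) (nat_lit 5) (nat_lit 4) (nat_lit 4) (nat_lit 2) (nat_lit 4) (nat_lit 346) (nat_lit 257) (nat_lit 177)))))) (XT.nd (nat_lit 34320) (nat_lit 0) (nat_lit 6232) (XT.nd (nat_lit 156) (nat_lit 0) (nat_lit 0) (XT.nd (nat_lit 78) (nat_lit 0) (nat_lit 0) (XT.lf (nat_lit 0) (nat_lit 428685398736) (nat_lit 152) (nat_lit 55168651058) (nat_lit 0) (nat_lit 411500200959) (nat_lit 2) (nat_lit 5) (nat_lit 4) (nat_lit 4) (nat_lit 2) (nat_lit 4) (nat_lit 347)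 (nat_lit 257) (nat_lit 176)) (XT.lf (nat_lit 0) (nat_lit 472781866044) (nat_lit 152) (nat_lit 38044554659) (nat_lit 0) (nat_lit 455594165910) (nat_lit 2) (nat_lit 5) (nat_lit 4) (nat_lit 4) (nat_lit 2) (nat_lit 4) (nat_lit 348) (nat_lit 257) (nat_lit 175))) (XT.nd (nat_lit 34008) (nat_lit 0) (nat_lit 9728) (XT.lf (nat_lit 0) (nat_lit 520402933623) (nat_lit 152) (nat_lit 19556535932) (nat_lit 0) (nat_lit 503212916491) (nat_lit 2) (nat_lit 5) (nat_lit 4) (nat_lit 4) (nat_lit 2) (nat_lit 4) (nat_lit 349) (nat_lit 257) (nat_lit 174)) (XT.nd (nat_lit 78) (nat_lit 380) (nat_lit 0) (XT.lf (nat_lit 0) (nat_lit 939604948) (nat_lit 228) (nat_lit 1170452664) (nat_lit 228) (nat_lit 1170452664) (nat_lit 135) (nat_lit 4) (nat_lit 138) (nat_lit 5) (nat_lit 138) (nat_lit 4) (nat_lit 264) (nat_lit 258) (nat_lit 258)) (XT.lf (nat_lit 0) (nat_lit 1318621036) (nat_lit 304) (nat_lit 1107519140) (nat_lit 380)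 (nat_lit 4205860578) (nat_lit 130) (nat_lit 5) (nat_lit 134) (nat_lit 5) (nat_lit 135) (nat_lit 4) (nat_lit 265) (nat_lit 258) (nat_lit 257))))) (XT.nd (nat_lit 234) (nat_lit 1976) (nat_lit 0) (XT.nd (nat_lit 78) (nat_lit 1064) (nat_lit 0) (XT.lf (nat_lit 0) (nat_lit 429818469) (nat_lit 456) (nat_lit 5822866811) (nat_lit 76) (nat_lit 471108581) (nat_lit 124) (nat_lit 5) (nat_lit 130) (nat_lit 5) (nat_lit 125) (nat_lit 4) (nat_lit 266) (nat_lit 258) (nat_lit 256)) (XT.nd (nat_lit 78) (nat_lit 608) (nat_lit 0) (XT.lf (nat_lit 0) (nat_lit 573000339) (nat_lit 456) (nat_lit 4432523136) (nat_lit 532) (nat_lit 1829175314) (nat_lit 118) (nat_lit 5) (nat_lit 124) (nat_lit 5) (nat_lit 125) (nat_lit 4) (nat_lit 267) (nat_lit 258) (nat_lit 255)) (XT.lf (nat_lit 0) (nat_lit 365224544) (nat_lit 532) (nat_lit 2251365165) (nat_lit 608) (nat_lit 4350490514) (nat_lit 110) (nat_lit 5) (nat_lit 117) (nat_lit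 5) (nat_lit 118) (nat_lit 5) (nat_lit 268) (nat_lit 258) (nat_lit 254)))) (XT.nd (nat_lit 78) (nat_lit 1368) (nat_lit 0) (XT.lf (nat_lit 0) (nat_lit 273519008) (nat_lit 608) (nat_lit 6833270705) (nat_lit 684) (nat_lit 14971004) (nat_lit 102) (nat_lit 5) (nat_lit 110) (nat_lit 5) (nat_lit 111) (nat_lit 4) (nat_lit 269) (nat_lit 258) (nat_lit 253)) (XT.nd (nat_lit 78) (nat_lit 608) (nat_lit 0) (XT.lf (nat_lit 0) (nat_lit 205771358) (nat_lit 684) (nat_lit 4121058501) (nat_lit 760) (nat_lit 2968651257) (nat_lit 92) (nat_lit 5) (nat_lit 101) (nat_lit 5) (nat_lit 102) (nat_lit 5) (nat_lit 270) (nat_lit 258) (nat_lit 252)) (XT.lf (nat_lit 0) (nat_lit 236290924) (nat_lit 532) (nat_lit 1037471581) (nat_lit 608) (nat_lit 6219267560) (nat_lit 84) (nat_lit 5) (nat_lit 91) (nat_lit 5) (nat_lit 92) (nat_lit 5) (nat_lit 271) (nat_lit 258) (nat_lit 251))))))) (XT.nd (nat_lit 858) (nat_lit 1672) (nat_lit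 0) (XT.nd (nat_lit 390) (nat_lit 1292) (nat_lit 0) (XT.nd (nat_lit 156) (nat_lit 988) (nat_lit 0) (XT.nd (nat_lit 78) (nat_lit 380) (nat_lit 0) (XT.lf (nat_lit 0) (nat_lit 284287367) (nat_lit 380) (nat_lit 5319564167) (nat_lit 456) (nat_lit 2108096235) (nat_lit 79) (nat_lit 5) (nat_lit 84) (nat_lit 5) (nat_lit 85) (nat_lit 5) (nat_lit 272) (nat_lit 258) (nat_lit 250)) (XT.lf (nat_lit 0) (nat_lit 367363786) (nat_lit 304) (nat_lit 1739677058) (nat_lit 380) (nat_lit 5847572366) (nat_lit 74) (nat_lit 5) (nat_lit 78) (nat_lit 5) (nat_lit 79) (nat_lit 5) (nat_lit 273) (nat_lit 258) (nat_lit 249))) (XT.nd (nat_lit 78) (nat_lit 684) (nat_lit 0) (XT.lf (nat_lit 0) (nat_lit 450806543) (nat_lit 304) (nat_lit 6022294550) (nat_lit 380) (nat_lit 1747984576) (nat_lit 70) (nat_lit 5) (nat_lit 74) (nat_lit 5) (nat_lit 75) (nat_lit 5) (nat_lit 274) (nat_lit 258) (nat_lit 248)) (XT.nd (nat_lit 78) (nat_lit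 304) (nat_lit 0) (XT.lf (nat_lit 0) (nat_lit 514972212) (nat_lit 304) (nat_lit 1976656762) (nat_lit 380) (nat_lit 6020705189) (nat_lit 65) (nat_lit 5) (nat_lit 69) (nat_lit 5) (nat_lit 70) (nat_lit 5) (nat_lit 275) (nat_lit 258) (nat_lit 247)) (XT.lf (nat_lit 0) (nat_lit 541769924) (nat_lit 304) (nat_lit 6392226133) (nat_lit 380) (nat_lit 1895620871) (nat_lit 61) (nat_lit 5) (nat_lit 65) (nat_lit 5) (nat_lit 66) (nat_lit 5) (nat_lit 276) (nat_lit 258) (nat_lit 246))))) (XT.nd (nat_lit 234) (nat_lit 456) (nat_lit 0) (XT.nd (nat_lit 78) (nat_lit 532) (nat_lit 0) (XT.lf (nat_lit 0) (nat_lit 503516031) (nat_lit 228) (nat_lit 1907386968) (nat_lit 304) (nat_lit 6763073866) (nat_lit 57) (nat_lit 5) (nat_lit 60) (nat_lit 5) (nat_lit 61) (nat_lit 5) (nat_lit 277) (nat_lit 258) (nat_lit 245)) (XT.nd (nat_lit 78) (nat_lit 304) (nat_lit 0) (XT.lf (nat_lit 0) (nat_lit 368743208) (nat_lit 228) (nat_lit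 6589143433) (nat_lit 304) (nat_lit 2588661097) (nat_lit 54) (nat_lit 5) (nat_lit 57) (nat_lit 5) (nat_lit 58) (nat_lit 5) (nat_lit 278) (nat_lit 258) (nat_lit 244)) (XT.lf (nat_lit 0) (nat_lit 126404298) (nat_lit 228) (nat_lit 1691450038) (nat_lit 304) (nat_lit 8131885819) (nat_lit 50) (nat_lit 5) (nat_lit 53) (nat_lit 5) (nat_lit 54) (nat_lit 5) (nat_lit 279) (nat_lit 258) (nat_lit 243)))) (XT.nd (nat_lit 78) (nat_lit 456) (nat_lit 0) (XT.lf (nat_lit 0) (nat_lit 6488956971) (nat_lit 304) (nat_lit 285509541) (nat_lit 76) (nat_lit 3608733897) (nat_lit 50) (nat_lit 5) (nat_lit 54) (nat_lit 5) (nat_lit 51) (nat_lit 5) (nat_lit 280) (nat_lit 258) (nat_lit 242)) (XT.nd (nat_lit 78) (nat_lit 152) (nat_lit 0) (XT.lf (nat_lit 0) (nat_lit 644014969) (nat_lit 304) (nat_lit 840893718) (nat_lit 76) (nat_lit 9366963898) (nat_lit 46) (nat_lit 5) (nat_lit 50) (nat_lit 5) (nat_lit 47) (nat_lit 5) (nat_lit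 281) (nat_lit 258) (nat_lit 241)) (XT.lf (nat_lit 0) (nat_lit 5442560110) (nat_lit 228) (nat_lit 1675124443) (nat_lit 76) (nat_lit 4235701246) (nat_lit 44) (nat_lit 5) (nat_lit 47) (nat_lit 5) (nat_lit 45) (nat_lit 5) (nat_lit 282) (nat_lit 258) (nat_lit 240)))))) (XT.nd (nat_lit 390) (nat_lit 684) (nat_lit 0) (XT.nd (nat_lit 156) (nat_lit 532) (nat_lit 0) (XT.nd (nat_lit 78) (nat_lit 228) (nat_lit 0) (XT.lf (nat_lit 0) (nat_lit 9166993113) (nat_lit 228) (nat_lit 1456142718) (nat_lit 304) (nat_lit 1272182757) (nat_lit 41) (nat_lit 5) (nat_lit 44) (nat_lit 5) (nat_lit 45) (nat_lit 5) (nat_lit 283) (nat_lit 258) (nat_lit 239)) (XT.lf (nat_lit 0) (nat_lit 3675197272) (nat_lit 228) (nat_lit 4156474051) (nat_lit 76) (nat_lit 4643334999) (nat_lit 38) (nat_lit 5) (nat_lit 41) (nat_lit 5) (nat_lit 39) (nat_lit 5) (nat_lit 284) (nat_lit 258) (nat_lit 238))) (XT.nd (nat_lit 78) (nat_lit 380) (nat_lit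 0) (XT.lf (nat_lit 0) (nat_lit 7164993855) (nat_lit 152) (nat_lit 1823532522) (nat_lit 228) (nat_lit 4110931531) (nat_lit 36) (nat_lit 5) (nat_lit 38) (nat_lit 5) (nat_lit 39) (nat_lit 5) (nat_lit 285) (nat_lit 258) (nat_lit 237)) (XT.nd (nat_lit 78) (nat_lit 152) (nat_lit 0) (XT.lf (nat_lit 0) (nat_lit 994307623) (nat_lit 228) (nat_lit 8171160443) (nat_lit 76) (nat_lit 4604214030) (nat_lit 33) (nat_lit 5) (nat_lit 36) (nat_lit 5) (nat_lit 34) (nat_lit 5) (nat_lit 286) (nat_lit 258) (nat_lit 236)) (XT.lf (nat_lit 0) (nat_lit 3534341643) (nat_lit 152) (nat_lit 2864691758) (nat_lit 228) (nat_lit 8089503725) (nat_lit 31) (nat_lit 5) (nat_lit 33) (nat_lit 5) (nat_lit 34) (nat_lit 5) (nat_lit 287) (nat_lit 258) (nat_lit 235))))) (XT.nd (nat_lit 234) (nat_lit 304) (nat_lit 0) (XT.nd (nat_lit 78) (nat_lit 228) (nat_lit 0) (XT.lf (nat_lit 0) (nat_lit 926267666) (nat_lit 152) (nat_lit 11379112146)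 (nat_lit 228) (nat_lit 2956185701) (nat_lit 29) (nat_lit 5) (nat_lit 31) (nat_lit 5) (nat_lit 32) (nat_lit 4) (nat_lit 288) (nat_lit 258) (nat_lit 234)) (XT.nd (nat_lit 78) (nat_lit 152) (nat_lit 0) (XT.lf (nat_lit 0) (nat_lit 2600824724) (nat_lit 228) (nat_lit 2274305547) (nat_lit 76) (nat_lit 11214605196) (nat_lit 28) (nat_lit 5) (nat_lit 31) (nat_lit 5) (nat_lit 29) (nat_lit 5) (nat_lit 289) (nat_lit 258) (nat_lit 233)) (XT.lf (nat_lit 0) (nat_lit 8569357460) (nat_lit 228) (nat_lit 6193578699) (nat_lit 76) (nat_lit 2215376927) (nat_lit 26) (nat_lit 5) (nat_lit 29) (nat_lit 5) (nat_lit 27) (nat_lit 4) (nat_lit 290) (nat_lit 258) (nat_lit 232)))) (XT.nd (nat_lit 78) (nat_lit 228) (nat_lit 0) (XT.lf (nat_lit 0) (nat_lit 6952164984) (nat_lit 76) (nat_lit 8163977495) (nat_lit 152) (nat_lit 2816892031) (nat_lit 25) (nat_lit 5) (nat_lit 26) (nat_lit 5) (nat_lit 27) (nat_lit 4) (nat_lit 291)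 (nat_lit 258) (nat_lit 231)) (XT.nd (nat_lit 78) (nat_lit 0) (nat_lit 0) (XT.lf (nat_lit 0) (nat_lit 2214962090) (nat_lit 152) (nat_lit 922655485) (nat_lit 228) (nat_lit 15823174047) (nat_lit 22) (nat_lit 5) (nat_lit 24) (nat_lit 5) (nat_lit 25) (nat_lit 5) (nat_lit 292) (nat_lit 258) (nat_lit 230)) (XT.lf (nat_lit 0) (nat_lit 9651972404) (nat_lit 228) (nat_lit 3572142499) (nat_lit 76) (nat_lit 6835315189) (nat_lit 22) (nat_lit 5) (nat_lit 25) (nat_lit 5) (nat_lit 23) (nat_lit 4) (nat_lit 293) (nat_lit 258) (nat_lit 229))))))))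
noncomputable def xc44 : XT := (XT.nd (nat_lit 1638) (nat_lit 380) (nat_lit 0) (XT.nd (nat_lit 780) (nat_lit 380) (nat_lit 0) (XT.nd (nat_lit 390) (nat_lit 304) (nat_lit 0) (XT.nd (nat_lit 156) (nat_lit 152) (nat_lit 0) (XT.nd (nat_lit 78) (nat_lit 228) (nat_lit 0) (XT.lf (nat_lit 0) (nat_lit 10789672091) (nat_lit 76) (nat_lit 5969543355) (nat_lit 152) (nat_lit 4483229840) (nat_lit 21) (nat_lit 5) (nat_lit 22) (nat_lit 5) (nat_lit 23) (nat_lit 4) (nat_lit 294) (nat_lit 258) (nat_lit 228)) (XT.lf (nat_lit 0) (nat_lit 1898047177) (nat_lit 228) (nat_lit 18736949307) (nat_lit 76) (nat_lit 1881454348) (nat_lit 18) (nat_lit 5) (nat_lit 21) (nat_lit 5) (nat_lit 19) (nat_lit 4) (nat_lit 295) (nat_lit 258) (nat_lit 227))) (XT.nd (nat_lit 78) (nat_lit 152) (nat_lit 0) (XT.lf (nat_lit 0) (nat_lit 8815854051) (nat_lit 228) (nat_lit 4725307426) (nat_lit 76) (nat_lit 10338444964) (nat_lit 18) (nat_lit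 5) (nat_lit 21) (nat_lit 5) (nat_lit 19) (nat_lit 4) (nat_lit 296) (nat_lit 258) (nat_lit 226)) (XT.nd (nat_lit 78) (nat_lit 76) (nat_lit 0) (XT.lf (nat_lit 0) (nat_lit 10573058367) (nat_lit 76) (nat_lit 5782135010) (nat_lit 152) (nat_lit 8993270644) (nat_lit 17) (nat_lit 5) (nat_lit 18) (nat_lit 5) (nat_lit 19) (nat_lit 4) (nat_lit 297) (nat_lit 258) (nat_lit 225)) (XT.lf (nat_lit 0) (nat_lit 126828903) (nat_lit 76) (nat_lit 24403550273) (nat_lit 76) (nat_lit 2402866915) (nat_lit 16) (nat_lit 4) (nat_lit 17) (nat_lit 5) (nat_lit 17) (nat_lit 4) (nat_lit 298) (nat_lit 258) (nat_lit 224))))) (XT.nd (nat_lit 156) (nat_lit 152) (nat_lit 0) (XT.nd (nat_lit 78) (nat_lit 76) (nat_lit 0) (XT.lf (nat_lit 0) (nat_lit 4832364859) (nat_lit 152) (nat_lit 12222756442) (nat_lit 76) (nat_lit 11572628836) (nat_lit 15) (nat_lit 5) (nat_lit 17) (nat_lit 5) (nat_lit 16) (nat_lit 4) (nat_lit 299) (nat_lit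 258) (nat_lit 223)) (XT.lf (nat_lit 0) (nat_lit 3445167320) (nat_lit 76) (nat_lit 9088091266) (nat_lit 152) (nat_lit 17924076469) (nat_lit 14) (nat_lit 5) (nat_lit 15) (nat_lit 5) (nat_lit 16) (nat_lit 4) (nat_lit 300) (nat_lit 258) (nat_lit 222))) (XT.nd (nat_lit 78) (nat_lit 152) (nat_lit 0) (XT.lf (nat_lit 0) (nat_lit 20657429244) (nat_lit 76) (nat_lit 325762158) (nat_lit 152) (nat_lit 11443485428) (nat_lit 14) (nat_lit 5) (nat_lit 15) (nat_lit 5) (nat_lit 16) (nat_lit 4) (nat_lit 301) (nat_lit 258) (nat_lit 221)) (XT.nd (nat_lit 78) (nat_lit 76) (nat_lit 0) (XT.lf (nat_lit 0) (nat_lit 4558780983) (nat_lit 76) (nat_lit 25689204285) (nat_lit 76) (nat_lit 4298672953) (nat_lit 13) (nat_lit 4) (nat_lit 14) (nat_lit 5) (nat_lit 14) (nat_lit 4) (nat_lit 302) (nat_lit 258) (nat_lit 220)) (XT.lf (nat_lit 0) (nat_lit 3449526098) (nat_lit 152) (nat_lit 14408901214) (nat_lit 76) (nat_lit 18968114682)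 (nat_lit 12) (nat_lit 5) (nat_lit 14) (nat_lit 5) (nat_lit 13) (nat_lit 4) (nat_lit 303) (nat_lit 258) (nat_lit 219)))))) (XT.nd (nat_lit 390) (nat_lit 152) (nat_lit 0) (XT.nd (nat_lit 156) (nat_lit 152) (nat_lit 0) (XT.nd (nat_lit 78) (nat_lit 0) (nat_lit 0) (XT.lf (nat_lit 0) (nat_lit 2293206783) (nat_lit 76) (nat_lit 9344293579) (nat_lit 152) (nat_lit 27649295477) (nat_lit 11) (nat_lit 5) (nat_lit 12) (nat_lit 5) (nat_lit 13) (nat_lit 4) (nat_lit 304) (nat_lit 258) (nat_lit 218)) (XT.lf (nat_lit 0) (nat_lit 20668280986) (nat_lit 152) (nat_lit 21208177307) (nat_lit 0) (nat_lit 58050190) (nat_lit 11) (nat_lit 5) (nat_lit 13) (nat_lit 4) (nat_lit 11) (nat_lit 4) (nat_lit 305) (nat_lit 258) (nat_lit 217))) (XT.nd (nat_lit 78) (nat_lit 152) (nat_lit 0) (XT.lf (nat_lit 0) (nat_lit 30518888478) (nat_lit 152) (nat_lit 4429614614) (nat_lit 0) (nat_lit 9840691743) (nat_lit 11) (nat_lit 5) (nat_lit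 13) (nat_lit 4) (nat_lit 11) (nat_lit 4) (nat_lit 306) (nat_lit 258) (nat_lit 216)) (XT.nd (nat_lit 78) (nat_lit 76) (nat_lit 0) (XT.lf (nat_lit 0) (nat_lit 14036679558) (nat_lit 76) (nat_lit 27284278546) (nat_lit 76) (nat_lit 6543150386) (nat_lit 10) (nat_lit 4) (nat_lit 11) (nat_lit 5) (nat_lit 11) (nat_lit 4) (nat_lit 307) (nat_lit 258) (nat_lit 215)) (XT.lf (nat_lit 0) (nat_lit 1768870914) (nat_lit 152) (nat_lit 17173212624) (nat_lit 76) (nat_lit 32240326503) (nat_lit 9) (nat_lit 5) (nat_lit 11) (nat_lit 5) (nat_lit 10) (nat_lit 4) (nat_lit 308) (nat_lit 258) (nat_lit 214))))) (XT.nd (nat_lit 234) (nat_lit 76) (nat_lit 0) (XT.nd (nat_lit 78) (nat_lit 0) (nat_lit 0) (XT.lf (nat_lit 0) (nat_lit 629539584) (nat_lit 76) (nat_lit 9849919506) (nat_lit 152) (nat_lit 44283229962) (nat_lit 8) (nat_lit 5) (nat_lit 9) (nat_lit 5) (nat_lit 10) (nat_lit 4) (nat_lit 309) (nat_lit 258) (nat_lit 213))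 (XT.nd (nat_lit 78) (nat_lit 0) (nat_lit 0) (XT.lf (nat_lit 0) (nat_lit 20142078287) (nat_lit 152) (nat_lit 38240404956) (nat_lit 0) (nat_lit 234165386) (nat_lit 8) (nat_lit 5) (nat_lit 10) (nat_lit 4) (nat_lit 8) (nat_lit 4) (nat_lit 310) (nat_lit 258) (nat_lit 212)) (XT.lf (nat_lit 0) (nat_lit 30698987245) (nat_lit 152) (nat_lit 21326869309) (nat_lit 0) (nat_lit 10747020557) (nat_lit 8) (nat_lit 5) (nat_lit 10) (nat_lit 4) (nat_lit 8) (nat_lit 4) (nat_lit 311) (nat_lit 258) (nat_lit 211)))) (XT.nd (nat_lit 78) (nat_lit 76) (nat_lit 0) (XT.lf (nat_lit 0) (nat_lit 42058960577) (nat_lit 152) (nat_lit 3138529321) (nat_lit 0) (nat_lit 22066203347) (nat_lit 8) (nat_lit 5) (nat_lit 10) (nat_lit 4) (nat_lit 8) (nat_lit 4) (nat_lit 312) (nat_lit 258) (nat_lit 210)) (XT.nd (nat_lit 78) (nat_lit 0) (nat_lit 0) (XT.lf (nat_lit 0) (nat_lit 16975727045) (nat_lit 76) (nat_lit 37578628273) (nat_lit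 76) (nat_lit 17548102021) (nat_lit 7) (nat_lit 4) (nat_lit 8) (nat_lit 5) (nat_lit 8) (nat_lit 4) (nat_lit 313) (nat_lit 258) (nat_lit 209)) (XT.lf (nat_lit 0) (nat_lit 38741869585) (nat_lit 76) (nat_lit 29325531204) (nat_lit 76) (nat_lit 9260033635) (nat_lit 7) (nat_lit 4) (nat_lit 8) (nat_lit 5) (nat_lit 8) (nat_lit 4) (nat_lit 314) (nat_lit 258) (nat_lit 208))))))) (XT.nd (nat_lit 858) (nat_lit 152) (nat_lit 0) (XT.nd (nat_lit 390) (nat_lit 76) (nat_lit 0) (XT.nd (nat_lit 156) (nat_lit 76) (nat_lit 0) (XT.nd (nat_lit 78) (nat_lit 76) (nat_lit 0) (XT.lf (nat_lit 0) (nat_lit 62185108894) (nat_lit 76) (nat_lit 20442443961) (nat_lit 76) (nat_lit 344565544) (nat_lit 7) (nat_lit 4) (nat_lit 8) (nat_lit 5) (nat_lit 8) (nat_lit 4) (nat_lit 315) (nat_lit 258) (nat_lit 207)) (XT.lf (nat_lit 0) (nat_lit 8955040571) (nat_lit 152) (nat_lit 1770027513) (nat_lit 76) (nat_lit 78337669356) (nat_lit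 6) (nat_lit 5) (nat_lit 8) (nat_lit 5) (nat_lit 7) (nat_lit 4) (nat_lit 316) (nat_lit 258) (nat_lit 206))) (XT.nd (nat_lit 78) (nat_lit 0) (nat_lit 0) (XT.lf (nat_lit 0) (nat_lit 19259872630) (nat_lit 152) (nat_lit 76302752051) (nat_lit 0) (nat_lit 64042114) (nat_lit 5) (nat_lit 5) (nat_lit 7) (nat_lit 4) (nat_lit 5) (nat_lit 4) (nat_lit 317) (nat_lit 258) (nat_lit 205)) (XT.nd (nat_lit 78) (nat_lit 0) (nat_lit 0) (XT.lf (nat_lit 0) (nat_lit 30572649947) (nat_lit 152) (nat_lit 60781553079) (nat_lit 0) (nat_lit 11352338515) (nat_lit 5) (nat_lit 5) (nat_lit 7) (nat_lit 4) (nat_lit 5) (nat_lit 4) (nat_lit 318) (nat_lit 258) (nat_lit 204)) (XT.lf (nat_lit 0) (nat_lit 42763945988) (nat_lit 152) (nat_lit 44069226722) (nat_lit 0) (nat_lit 23520967041) (nat_lit 5) (nat_lit 5) (nat_lit 7) (nat_lit 4) (nat_lit 5) (nat_lit 4) (nat_lit 319) (nat_lit 258) (nat_lit 203))))) (XT.nd (nat_lit 234) (nat_lit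 0) (nat_lit 0) (XT.nd (nat_lit 78) (nat_lit 76) (nat_lit 0) (XT.lf (nat_lit 0) (nat_lit 55906005469) (nat_lit 152) (nat_lit 26066736971) (nat_lit 0) (nat_lit 36642038083) (nat_lit 5) (nat_lit 5) (nat_lit 7) (nat_lit 4) (nat_lit 5) (nat_lit 4) (nat_lit 320) (nat_lit 258) (nat_lit 202)) (XT.nd (nat_lit 78) (nat_lit 76) (nat_lit 0) (XT.lf (nat_lit 0) (nat_lit 70076707262) (nat_lit 152) (nat_lit 6667402407) (nat_lit 0) (nat_lit 50793306136) (nat_lit 5) (nat_lit 5) (nat_lit 7) (nat_lit 4) (nat_lit 5) (nat_lit 4) (nat_lit 321) (nat_lit 258) (nat_lit 201)) (XT.lf (nat_lit 0) (nat_lit 14714698228) (nat_lit 76) (nat_lit 70875065345) (nat_lit 76) (nat_lit 51573670015) (nat_lit 4) (nat_lit 4) (nat_lit 5) (nat_lit 5) (nat_lit 5) (nat_lit 4) (nat_lit 322) (nat_lit 258) (nat_lit 200)))) (XT.nd (nat_lit 78) (nat_lit 0) (nat_lit 0) (XT.lf (nat_lit 0) (nat_lit 38007059335) (nat_lit 76) (nat_lit 64432866560)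 (nat_lit 76) (nat_lit 45114809931) (nat_lit 4) (nat_lit 4) (nat_lit 5) (nat_lit 5) (nat_lit 5) (nat_lit 4) (nat_lit 323) (nat_lit 258) (nat_lit 199)) (XT.nd (nat_lit 78) (nat_lit 0) (nat_lit 0) (XT.lf (nat_lit 0) (nat_lit 63127255286) (nat_lit 76) (nat_lit 57492253009) (nat_lit 76) (nat_lit 38158769250) (nat_lit 4) (nat_lit 4) (nat_lit 5) (nat_lit 5) (nat_lit 5) (nat_lit 4) (nat_lit 324) (nat_lit 258) (nat_lit 198)) (XT.lf (nat_lit 0) (nat_lit 90224146500) (nat_lit 76) (nat_lit 50012095129) (nat_lit 76) (nat_lit 30664326991) (nat_lit 4) (nat_lit 4) (nat_lit 5) (nat_lit 5) (nat_lit 5) (nat_lit 4) (nat_lit 325) (nat_lit 258) (nat_lit 197)))))) (XT.nd (nat_lit 390) (nat_lit 0) (nat_lit 0) (XT.nd (nat_lit 156) (nat_lit 152) (nat_lit 0) (XT.nd (nat_lit 78) (nat_lit 0) (nat_lit 0) (XT.lf (nat_lit 0) (nat_lit 119458307149) (nat_lit 76) (nat_lit 41948066060) (nat_lit 76) (nat_lit 22587071645)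 (nat_lit 4) (nat_lit 4) (nat_lit 5) (nat_lit 5) (nat_lit 5) (nat_lit 4) (nat_lit 326) (nat_lit 258) (nat_lit 196)) (XT.lf (nat_lit 0) (nat_lit 151002976702) (nat_lit 76) (nat_lit 33252378962) (nat_lit 76) (nat_lit 13879137994) (nat_lit 4) (nat_lit 4) (nat_lit 5) (nat_lit 5) (nat_lit 5) (nat_lit 4) (nat_lit 327) (nat_lit 258) (nat_lit 195))) (XT.nd (nat_lit 78) (nat_lit 152) (nat_lit 0) (XT.lf (nat_lit 0) (nat_lit 185045086535) (nat_lit 76) (nat_lit 23873503837) (nat_lit 76) (nat_lit 4488923468) (nat_lit 4) (nat_lit 4) (nat_lit 5) (nat_lit 5) (nat_lit 5) (nat_lit 4) (nat_lit 328) (nat_lit 258) (nat_lit 194)) (XT.nd (nat_lit 78) (nat_lit 76) (nat_lit 0) (XT.lf (nat_lit 0) (nat_lit 5458727464) (nat_lit 152) (nat_lit 8204688511) (nat_lit 76) (nat_lit 216235194013) (nat_lit 3) (nat_lit 5) (nat_lit 5) (nat_lit 5) (nat_lit 4) (nat_lit 4) (nat_lit 329) (nat_lit 258) (nat_lit 193)) (XT.lf (nat_lit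 0) (nat_lit 13912461236) (nat_lit 76) (nat_lit 2339862060) (nat_lit 152) (nat_lit 231442624338) (nat_lit 2) (nat_lit 5) (nat_lit 3) (nat_lit 5) (nat_lit 4) (nat_lit 4) (nat_lit 330) (nat_lit 258) (nat_lit 192))))) (XT.nd (nat_lit 234) (nat_lit 0) (nat_lit 0) (XT.nd (nat_lit 78) (nat_lit 0) (nat_lit 0) (XT.lf (nat_lit 0) (nat_lit 28197540755) (nat_lit 152) (nat_lit 228994843518) (nat_lit 0) (nat_lit 9708204465) (nat_lit 2) (nat_lit 5) (nat_lit 4) (nat_lit 4) (nat_lit 2) (nat_lit 4) (nat_lit 331) (nat_lit 258) (nat_lit 191)) (XT.nd (nat_lit 78) (nat_lit 0) (nat_lit 0) (XT.lf (nat_lit 0) (nat_lit 41127150905) (nat_lit 152) (nat_lit 223884217658) (nat_lit 0) (nat_lit 22629876712) (nat_lit 2) (nat_lit 5) (nat_lit 4) (nat_lit 4) (nat_lit 2) (nat_lit 4) (nat_lit 332) (nat_lit 258) (nat_lit 190)) (XT.lf (nat_lit 0) (nat_lit 55081241854) (nat_lit 152) (nat_lit 218383791825) (nat_lit 0) (nat_lit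 36576617752) (nat_lit 2) (nat_lit 5) (nat_lit 4) (nat_lit 4) (nat_lit 2) (nat_lit 4) (nat_lit 333) (nat_lit 258) (nat_lit 189)))) (XT.nd (nat_lit 78) (nat_lit 0) (nat_lit 0) (XT.lf (nat_lit 0) (nat_lit 70142504513) (nat_lit 152) (nat_lit 212460970902) (nat_lit 0) (nat_lit 51631074938) (nat_lit 2) (nat_lit 5) (nat_lit 4) (nat_lit 4) (nat_lit 2) (nat_lit 4) (nat_lit 334) (nat_lit 258) (nat_lit 188)) (XT.nd (nat_lit 78) (nat_lit 0) (nat_lit 0) (XT.lf (nat_lit 0) (nat_lit 86400190807) (nat_lit 152) (nat_lit 206080656691) (nat_lit 0) (nat_lit 67882459869) (nat_lit 2) (nat_lit 5) (nat_lit 4) (nat_lit 4) (nat_lit 2) (nat_lit 4) (nat_lit 335) (nat_lit 258) (nat_lit 187)) (XT.lf (nat_lit 0) (nat_lit 103950642582) (nat_lit 152) (nat_lit 199205039923) (nat_lit 0) (nat_lit 85427077048) (nat_lit 2) (nat_lit 5) (nat_lit 4) (nat_lit 4) (nat_lit 2) (nat_lit 4) (nat_lit 336) (nat_lit 258) (nat_lit 186))))))))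
noncomputable def xc45 : XT := (XT.nd (nat_lit 35412) (nat_lit 0) (nat_lit 1824) (XT.nd (nat_lit 780) (nat_lit 0) (nat_lit 0) (XT.nd (nat_lit 390) (nat_lit 0) (nat_lit 0) (XT.nd (nat_lit 156) (nat_lit 0) (nat_lit 0) (XT.nd (nat_lit 78) (nat_lit 0) (nat_lit 0) (XT.lf (nat_lit 0) (nat_lit 122897862514) (nat_lit 152) (nat_lit 191793376202) (nat_lit 0) (nat_lit 104368894577) (nat_lit 2) (nat_lit 5) (nat_lit 4) (nat_lit 4) (nat_lit 2) (nat_lit 4) (nat_lit 337) (nat_lit 258) (nat_lit 185)) (XT.lf (nat_lit 0) (nat_lit 143354130426) (nat_lit 152) (nat_lit 183801744558) (nat_lit 0) (nat_lit 124820160263) (nat_lit 2) (nat_lit 5) (nat_lit 4) (nat_lit 4) (nat_lit 2) (nat_lit 4) (nat_lit 338) (nat_lit 258) (nat_lit 184))) (XT.nd (nat_lit 78) (nat_lit 0) (nat_lit 0) (XT.lf (nat_lit 0) (nat_lit 165440668645) (nat_lit 152) (nat_lit 175182787174) (nat_lit 0) (nat_lit 146902066793) (nat_lit 2) (nat_lit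 5) (nat_lit 4) (nat_lit 4) (nat_lit 2) (nat_lit 4) (nat_lit 339) (nat_lit 258) (nat_lit 183)) (XT.nd (nat_lit 78) (nat_lit 0) (nat_lit 0) (XT.lf (nat_lit 0) (nat_lit 189288360362) (nat_lit 152) (nat_lit 165885428747) (nat_lit 0) (nat_lit 170745469908) (nat_lit 2) (nat_lit 5) (nat_lit 4) (nat_lit 4) (nat_lit 2) (nat_lit 4) (nat_lit 340) (nat_lit 258) (nat_lit 182)) (XT.lf (nat_lit 0) (nat_lit 215038525231) (nat_lit 152) (nat_lit 155854573820) (nat_lit 0) (nat_lit 196491663849) (nat_lit 2) (nat_lit 5) (nat_lit 4) (nat_lit 4) (nat_lit 2) (nat_lit 4) (nat_lit 341) (nat_lit 258) (nat_lit 181))))) (XT.nd (nat_lit 156) (nat_lit 0) (nat_lit 0) (XT.nd (nat_lit 78) (nat_lit 0) (nat_lit 0) (XT.lf (nat_lit 0) (nat_lit 242843756821) (nat_lit 152) (nat_lit 145030780288) (nat_lit 0) (nat_lit 224293218654) (nat_lit 2) (nat_lit 5) (nat_lit 4) (nat_lit 4) (nat_lit 2) (nat_lit 4) (nat_lit 342) (nat_lit 258)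 (nat_lit 180)) (XT.lf (nat_lit 0) (nat_lit 272868826875) (nat_lit 152) (nat_lit 133349907154) (nat_lit 0) (nat_lit 254314884278) (nat_lit 2) (nat_lit 5) (nat_lit 4) (nat_lit 4) (nat_lit 2) (nat_lit 4) (nat_lit 343) (nat_lit 258) (nat_lit 179))) (XT.nd (nat_lit 78) (nat_lit 0) (nat_lit 0) (XT.lf (nat_lit 0) (nat_lit 305291661735) (nat_lit 152) (nat_lit 120742734429) (nat_lit 0) (nat_lit 286734566887) (nat_lit 2) (nat_lit 5) (nat_lit 4) (nat_lit 4) (nat_lit 2) (nat_lit 4) (nat_lit 344) (nat_lit 258) (nat_lit 178)) (XT.nd (nat_lit 78) (nat_lit 0) (nat_lit 0) (XT.lf (nat_lit 0) (nat_lit 340304396717) (nat_lit 152) (nat_lit 107134552941) (nat_lit 0) (nat_lit 321744383119) (nat_lit 2) (nat_lit 5) (nat_lit 4) (nat_lit 4) (nat_lit 2) (nat_lit 4) (nat_lit 345) (nat_lit 258) (nat_lit 177)) (XT.lf (nat_lit 0) (nat_lit 378114514697) (nat_lit 152) (nat_lit 92444721614) (nat_lit 0) (nat_lit 359551798552)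 (nat_lit 2) (nat_lit 5) (nat_lit 4) (nat_lit 4) (nat_lit 2) (nat_lit 4) (nat_lit 346) (nat_lit 258) (nat_lit 176)))))) (XT.nd (nat_lit 34164) (nat_lit 0) (nat_lit 8132) (XT.nd (nat_lit 156) (nat_lit 0) (nat_lit 0) (XT.nd (nat_lit 78) (nat_lit 0) (nat_lit 0) (XT.lf (nat_lit 0) (nat_lit 418946075632) (nat_lit 152) (nat_lit 76586189596) (nat_lit 0) (nat_lit 400380857129) (nat_lit 2) (nat_lit 5) (nat_lit 4) (nat_lit 4) (nat_lit 2) (nat_lit 4) (nat_lit 347) (nat_lit 258) (nat_lit 175)) (XT.lf (nat_lit 0) (nat_lit 463041044328) (nat_lit 152) (nat_lit 59464980401) (nat_lit 0) (nat_lit 444473508827) (nat_lit 2) (nat_lit 5) (nat_lit 4) (nat_lit 4) (nat_lit 2) (nat_lit 4) (nat_lit 348) (nat_lit 258) (nat_lit 174))) (XT.nd (nat_lit 33852) (nat_lit 0) (nat_lit 10336) (XT.lf (nat_lit 0) (nat_lit 510660724303) (nat_lit 152) (nat_lit 40979635012) (nat_lit 0) (nat_lit 492091043433) (nat_lit 2) (nat_lit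 5) (nat_lit 4) (nat_lit 4) (nat_lit 2) (nat_lit 4) (nat_lit 349) (nat_lit 258) (nat_lit 173)) (XT.nd (nat_lit 78) (nat_lit 228) (nat_lit 0) (XT.lf (nat_lit 0) (nat_lit 1824320011) (nat_lit 76) (nat_lit 705554318) (nat_lit 76) (nat_lit 705554318) (nat_lit 141) (nat_lit 4) (nat_lit 142) (nat_lit 5) (nat_lit 142) (nat_lit 4) (nat_lit 262) (nat_lit 259) (nat_lit 259)) (XT.lf (nat_lit 0) (nat_lit 2598329312) (nat_lit 152) (nat_lit 690968798) (nat_lit 228) (nat_lit 3221551074) (nat_lit 138) (nat_lit 5) (nat_lit 140) (nat_lit 5) (nat_lit 141) (nat_lit 4) (nat_lit 263) (nat_lit 259) (nat_lit 258))))) (XT.nd (nat_lit 234) (nat_lit 1140) (nat_lit 0) (XT.nd (nat_lit 78) (nat_lit 760) (nat_lit 0) (XT.lf (nat_lit 0) (nat_lit 1335450810) (nat_lit 304) (nat_lit 4864655797) (nat_lit 76) (nat_lit 371252971) (nat_lit 134) (nat_lit 5) (nat_lit 138) (nat_lit 5) (nat_lit 135) (nat_lit 4) (nat_lit 264) (nat_lit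 259) (nat_lit 257)) (XT.nd (nat_lit 78) (nat_lit 456) (nat_lit 0) (XT.lf (nat_lit 0) (nat_lit 941066070) (nat_lit 304) (nat_lit 4877287154) (nat_lit 380) (nat_lit 833188231) (nat_lit 130) (nat_lit 5) (nat_lit 134) (nat_lit 5) (nat_lit 135) (nat_lit 4) (nat_lit 265) (nat_lit 259) (nat_lit 256)) (XT.lf (nat_lit 0) (nat_lit 292786016) (nat_lit 380) (nat_lit 3190463824) (nat_lit 456) (nat_lit 3268517572) (nat_lit 124) (nat_lit 5) (nat_lit 129) (nat_lit 5) (nat_lit 130) (nat_lit 5) (nat_lit 266) (nat_lit 259) (nat_lit 255)))) (XT.nd (nat_lit 78) (nat_lit 1064) (nat_lit 0) (XT.lf (nat_lit 0) (nat_lit 932069632) (nat_lit 456) (nat_lit 215317826) (nat_lit 76) (nat_lit 5726089010) (nat_lit 123) (nat_lit 5) (nat_lit 129) (nat_lit 5) (nat_lit 124) (nat_lit 5) (nat_lit 267) (nat_lit 259) (nat_lit 254)) (XT.nd (nat_lit 78) (nat_lit 608) (nat_lit 0) (XT.lf (nat_lit 0) (nat_lit 5118877130) (nat_lit 532)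 (nat_lit 641522034) (nat_lit 76) (nat_lit 1254460486) (nat_lit 117) (nat_lit 5) (nat_lit 124) (nat_lit 5) (nat_lit 118) (nat_lit 5) (nat_lit 268) (nat_lit 259) (nat_lit 253)) (XT.lf (nat_lit 0) (nat_lit 2176233302) (nat_lit 608) (nat_lit 994077296) (nat_lit 76) (nat_lit 4006947026) (nat_lit 109) (nat_lit 5) (nat_lit 117) (nat_lit 5) (nat_lit 110) (nat_lit 5) (nat_lit 269) (nat_lit 259) (nat_lit 252))))))) (XT.nd (nat_lit 858) (nat_lit 1824) (nat_lit 0) (XT.nd (nat_lit 390) (nat_lit 1824) (nat_lit 0) (XT.nd (nat_lit 156) (nat_lit 1292) (nat_lit 0) (XT.nd (nat_lit 78) (nat_lit 760) (nat_lit 0) (XT.lf (nat_lit 0) (nat_lit 6100035623) (nat_lit 608) (nat_lit 196110603) (nat_lit 684) (nat_lit 1066224542) (nat_lit 101) (nat_lit 5) (nat_lit 109) (nat_lit 5) (nat_lit 110) (nat_lit 5) (nat_lit 270) (nat_lit 259) (nat_lit 251)) (XT.lf (nat_lit 0) (nat_lit 2938951794) (nat_lit 760) (nat_lit 1525198823)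 (nat_lit 76) (nat_lit 3103395915) (nat_lit 91) (nat_lit 5) (nat_lit 101) (nat_lit 5) (nat_lit 92) (nat_lit 5) (nat_lit 271) (nat_lit 259) (nat_lit 250))) (XT.nd (nat_lit 78) (nat_lit 760) (nat_lit 0) (XT.lf (nat_lit 0) (nat_lit 6072524767) (nat_lit 532) (nat_lit 988851112) (nat_lit 608) (nat_lit 735744317) (nat_lit 84) (nat_lit 5) (nat_lit 91) (nat_lit 5) (nat_lit 92) (nat_lit 5) (nat_lit 272) (nat_lit 259) (nat_lit 249)) (XT.nd (nat_lit 78) (nat_lit 304) (nat_lit 0) (XT.lf (nat_lit 0) (nat_lit 3251585415) (nat_lit 456) (nat_lit 1951118329) (nat_lit 76) (nat_lit 2845445242) (nat_lit 78) (nat_lit 5) (nat_lit 84) (nat_lit 5) (nat_lit 79) (nat_lit 5) (nat_lit 273) (nat_lit 259) (nat_lit 248)) (XT.lf (nat_lit 0) (nat_lit 6169678633) (nat_lit 304) (nat_lit 1247408255) (nat_lit 380) (nat_lit 907785168) (nat_lit 74) (nat_lit 5) (nat_lit 78) (nat_lit 5) (nat_lit 79) (nat_lit 5) (nat_lit 274) (nat_lit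 259) (nat_lit 247))))) (XT.nd (nat_lit 234) (nat_lit 760) (nat_lit 0) (XT.nd (nat_lit 78) (nat_lit 684) (nat_lit 0) (XT.lf (nat_lit 0) (nat_lit 3120168631) (nat_lit 380) (nat_lit 2423713264) (nat_lit 76) (nat_lit 3081017529) (nat_lit 69) (nat_lit 5) (nat_lit 74) (nat_lit 5) (nat_lit 70) (nat_lit 5) (nat_lit 275) (nat_lit 259) (nat_lit 246)) (XT.nd (nat_lit 78) (nat_lit 380) (nat_lit 0) (XT.lf (nat_lit 0) (nat_lit 6236794696) (nat_lit 304) (nat_lit 1123938251) (nat_lit 380) (nat_lit 1591721196) (nat_lit 65) (nat_lit 5) (nat_lit 69) (nat_lit 5) (nat_lit 70) (nat_lit 5) (nat_lit 276) (nat_lit 259) (nat_lit 245)) (XT.lf (nat_lit 0) (nat_lit 2524111471) (nat_lit 380) (nat_lit 3114366616) (nat_lit 76) (nat_lit 3667307313) (nat_lit 60) (nat_lit 5) (nat_lit 65) (nat_lit 5) (nat_lit 61) (nat_lit 5) (nat_lit 277) (nat_lit 259) (nat_lit 244)))) (XT.nd (nat_lit 78) (nat_lit 532) (nat_lit 0) (XT.lf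 (nat_lit 0) (nat_lit 6096083402) (nat_lit 228) (nat_lit 766468000) (nat_lit 304) (nat_lit 2826380511) (nat_lit 57) (nat_lit 5) (nat_lit 60) (nat_lit 5) (nat_lit 61) (nat_lit 5) (nat_lit 278) (nat_lit 259) (nat_lit 243)) (XT.nd (nat_lit 78) (nat_lit 228) (nat_lit 0) (XT.lf (nat_lit 0) (nat_lit 1413384639) (nat_lit 304) (nat_lit 4225732365) (nat_lit 76) (nat_lit 4462041753) (nat_lit 53) (nat_lit 5) (nat_lit 57) (nat_lit 5) (nat_lit 54) (nat_lit 5) (nat_lit 279) (nat_lit 259) (nat_lit 242)) (XT.lf (nat_lit 0) (nat_lit 5533941055) (nat_lit 228) (nat_lit 328107807) (nat_lit 304) (nat_lit 4683813284) (nat_lit 50) (nat_lit 5) (nat_lit 53) (nat_lit 5) (nat_lit 54) (nat_lit 5) (nat_lit 280) (nat_lit 259) (nat_lit 241)))))) (XT.nd (nat_lit 390) (nat_lit 760) (nat_lit 0) (XT.nd (nat_lit 156) (nat_lit 608) (nat_lit 0) (XT.nd (nat_lit 78) (nat_lit 228) (nat_lit 0) (XT.lf (nat_lit 0) (nat_lit 5013103442)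 (nat_lit 228) (nat_lit 5704872414) (nat_lit 304) (nat_lit 305830919) (nat_lit 47) (nat_lit 5) (nat_lit 50) (nat_lit 5) (nat_lit 51) (nat_lit 5) (nat_lit 281) (nat_lit 259) (nat_lit 240)) (XT.lf (nat_lit 0) (nat_lit 4262971229) (nat_lit 228) (nat_lit 7252552565) (nat_lit 76) (nat_lit 22110487) (nat_lit 44) (nat_lit 5) (nat_lit 47) (nat_lit 5) (nat_lit 45) (nat_lit 5) (nat_lit 282) (nat_lit 259) (nat_lit 239))) (XT.nd (nat_lit 78) (nat_lit 380) (nat_lit 0) (XT.lf (nat_lit 0) (nat_lit 3278307734) (nat_lit 228) (nat_lit 5990990098) (nat_lit 304) (nat_lit 2819073335) (nat_lit 41) (nat_lit 5) (nat_lit 44) (nat_lit 5) (nat_lit 45) (nat_lit 5) (nat_lit 283) (nat_lit 259) (nat_lit 238)) (XT.nd (nat_lit 78) (nat_lit 152) (nat_lit 0) (XT.lf (nat_lit 0) (nat_lit 1925300251) (nat_lit 228) (nat_lit 10668303903) (nat_lit 76) (nat_lit 88368957) (nat_lit 38) (nat_lit 5) (nat_lit 41) (nat_lit 5) (nat_lit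 39) (nat_lit 5) (nat_lit 284) (nat_lit 259) (nat_lit 237)) (XT.lf (nat_lit 0) (nat_lit 315793090) (nat_lit 152) (nat_lit 6739961877) (nat_lit 228) (nat_lit 6259888275) (nat_lit 36) (nat_lit 5) (nat_lit 38) (nat_lit 5) (nat_lit 39) (nat_lit 5) (nat_lit 285) (nat_lit 259) (nat_lit 236))))) (XT.nd (nat_lit 234) (nat_lit 380) (nat_lit 0) (XT.nd (nat_lit 78) (nat_lit 380) (nat_lit 0) (XT.lf (nat_lit 0) (nat_lit 12324500227) (nat_lit 152) (nat_lit 308057343) (nat_lit 228) (nat_lit 1365797951) (nat_lit 36) (nat_lit 5) (nat_lit 38) (nat_lit 5) (nat_lit 39) (nat_lit 5) (nat_lit 286) (nat_lit 259) (nat_lit 235)) (XT.nd (nat_lit 78) (nat_lit 152) (nat_lit 0) (XT.lf (nat_lit 0) (nat_lit 3924952274) (nat_lit 228) (nat_lit 4223342246) (nat_lit 76) (nat_lit 6577927806) (nat_lit 33) (nat_lit 5) (nat_lit 36) (nat_lit 5) (nat_lit 34) (nat_lit 5) (nat_lit 287) (nat_lit 259) (nat_lit 234)) (XT.lf (nat_lit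 0) (nat_lit 8218623945) (nat_lit 152) (nat_lit 1400959871) (nat_lit 228) (nat_lit 5890309214) (nat_lit 31) (nat_lit 5) (nat_lit 33) (nat_lit 5) (nat_lit 34) (nat_lit 5) (nat_lit 288) (nat_lit 259) (nat_lit 233)))) (XT.nd (nat_lit 78) (nat_lit 228) (nat_lit 0) (XT.lf (nat_lit 0) (nat_lit 5317077955) (nat_lit 152) (nat_lit 10572589989) (nat_lit 228) (nat_lit 460704294) (nat_lit 29) (nat_lit 5) (nat_lit 31) (nat_lit 5) (nat_lit 32) (nat_lit 4) (nat_lit 289) (nat_lit 259) (nat_lit 232)) (XT.nd (nat_lit 78) (nat_lit 0) (nat_lit 0) (XT.lf (nat_lit 0) (nat_lit 1677221942) (nat_lit 152) (nat_lit 3606499302) (nat_lit 228) (nat_lit 11967577080) (nat_lit 26) (nat_lit 5) (nat_lit 28) (nat_lit 5) (nat_lit 29) (nat_lit 5) (nat_lit 290) (nat_lit 259) (nat_lit 231)) (XT.lf (nat_lit 0) (nat_lit 11607677332) (nat_lit 228) (nat_lit 2693011310) (nat_lit 76) (nat_lit 3916515323) (nat_lit 26) (nat_lit 5) (nat_lit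 29) (nat_lit 5) (nat_lit 27) (nat_lit 4) (nat_lit 291) (nat_lit 259) (nat_lit 230))))))))
noncomputable def xc46 : XT := (XT.nd (nat_lit 1638) (nat_lit 456) (nat_lit 0) (XT.nd (nat_lit 780) (nat_lit 456) (nat_lit 0) (XT.nd (nat_lit 390) (nat_lit 304) (nat_lit 0) (XT.nd (nat_lit 156) (nat_lit 304) (nat_lit 0) (XT.nd (nat_lit 78) (nat_lit 228) (nat_lit 0) (XT.lf (nat_lit 0) (nat_lit 11330728244) (nat_lit 76) (nat_lit 7232875776) (nat_lit 152) (nat_lit 690557704) (nat_lit 25) (nat_lit 5) (nat_lit 26) (nat_lit 5) (nat_lit 27) (nat_lit 4) (nat_lit 292) (nat_lit 259) (nat_lit 229)) (XT.lf (nat_lit 0) (nat_lit 5563508415) (nat_lit 228) (nat_lit 14254898536) (nat_lit 76) (nat_lit 549086785) (nat_lit 22) (nat_lit 5) (nat_lit 25) (nat_lit 5) (nat_lit 23) (nat_lit 4) (nat_lit 293) (nat_lit 259) (nat_lit 228))) (XT.nd (nat_lit 78) (nat_lit 304) (nat_lit 0) (XT.lf (nat_lit 0) (nat_lit 12452314539)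 (nat_lit 228) (nat_lit 325469730) (nat_lit 76) (nat_lit 8783678843) (nat_lit 22) (nat_lit 5) (nat_lit 25) (nat_lit 5) (nat_lit 23) (nat_lit 4) (nat_lit 294) (nat_lit 259) (nat_lit 227)) (XT.nd (nat_lit 78) (nat_lit 228) (nat_lit 0) (XT.lf (nat_lit 0) (nat_lit 15031774308) (nat_lit 76) (nat_lit 4998881382) (nat_lit 152) (nat_lit 2813435097) (nat_lit 21) (nat_lit 5) (nat_lit 22) (nat_lit 5) (nat_lit 23) (nat_lit 4) (nat_lit 295) (nat_lit 259) (nat_lit 226)) (XT.lf (nat_lit 0) (nat_lit 3941683128) (nat_lit 228) (nat_lit 16868324513) (nat_lit 76) (nat_lit 3412098245) (nat_lit 18) (nat_lit 5) (nat_lit 21) (nat_lit 5) (nat_lit 19) (nat_lit 4) (nat_lit 296) (nat_lit 259) (nat_lit 225))))) (XT.nd (nat_lit 156) (nat_lit 228) (nat_lit 0) (XT.nd (nat_lit 78) (nat_lit 76) (nat_lit 0) (XT.lf (nat_lit 0) (nat_lit 11272781798) (nat_lit 228) (nat_lit 1985201707) (nat_lit 76) (nat_lit 12443416440) (nat_lit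 18) (nat_lit 5) (nat_lit 21) (nat_lit 5) (nat_lit 19) (nat_lit 4) (nat_lit 297) (nat_lit 259) (nat_lit 224)) (XT.lf (nat_lit 0) (nat_lit 14401523207) (nat_lit 76) (nat_lit 4930559574) (nat_lit 152) (nat_lit 7959916110) (nat_lit 17) (nat_lit 5) (nat_lit 18) (nat_lit 5) (nat_lit 19) (nat_lit 4) (nat_lit 298) (nat_lit 259) (nat_lit 223))) (XT.nd (nat_lit 78) (nat_lit 152) (nat_lit 0) (XT.lf (nat_lit 0) (nat_lit 3051025349) (nat_lit 76) (nat_lit 25051161612) (nat_lit 76) (nat_lit 904399430) (nat_lit 16) (nat_lit 4) (nat_lit 17) (nat_lit 5) (nat_lit 17) (nat_lit 4) (nat_lit 299) (nat_lit 259) (nat_lit 222)) (XT.nd (nat_lit 78) (nat_lit 76) (nat_lit 0) (XT.lf (nat_lit 0) (nat_lit 6734309586) (nat_lit 152) (nat_lit 10451527879) (nat_lit 76) (nat_lit 13655614893) (nat_lit 15) (nat_lit 5) (nat_lit 17) (nat_lit 5) (nat_lit 16) (nat_lit 4) (nat_lit 300) (nat_lit 259) (nat_lit 221)) (XT.lf (nat_lit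 0) (nat_lit 6350359462) (nat_lit 76) (nat_lit 8629721884) (nat_lit 152) (nat_lit 17840937953) (nat_lit 14) (nat_lit 5) (nat_lit 15) (nat_lit 5) (nat_lit 16) (nat_lit 4) (nat_lit 301) (nat_lit 259) (nat_lit 220)))))) (XT.nd (nat_lit 390) (nat_lit 228) (nat_lit 0) (XT.nd (nat_lit 156) (nat_lit 152) (nat_lit 0) (XT.nd (nat_lit 78) (nat_lit 76) (nat_lit 0) (XT.lf (nat_lit 0) (nat_lit 24010677612) (nat_lit 152) (nat_lit 10220133670) (nat_lit 0) (nat_lit 721915134) (nat_lit 14) (nat_lit 5) (nat_lit 16) (nat_lit 4) (nat_lit 14) (nat_lit 4) (nat_lit 302) (nat_lit 259) (nat_lit 219)) (XT.lf (nat_lit 0) (nat_lit 7300642181) (nat_lit 76) (nat_lit 26658299576) (nat_lit 76) (nat_lit 3286297853) (nat_lit 13) (nat_lit 4) (nat_lit 14) (nat_lit 5) (nat_lit 14) (nat_lit 4) (nat_lit 303) (nat_lit 259) (nat_lit 218))) (XT.nd (nat_lit 78) (nat_lit 76) (nat_lit 0) (XT.lf (nat_lit 0) (nat_lit 4941099167) (nat_lit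 152) (nat_lit 13319821804) (nat_lit 76) (nat_lit 21450438804) (nat_lit 12) (nat_lit 5) (nat_lit 14) (nat_lit 5) (nat_lit 13) (nat_lit 4) (nat_lit 304) (nat_lit 259) (nat_lit 217)) (XT.nd (nat_lit 78) (nat_lit 0) (nat_lit 0) (XT.lf (nat_lit 0) (nat_lit 4621029306) (nat_lit 76) (nat_lit 9106516371) (nat_lit 152) (nat_lit 28643755426) (nat_lit 11) (nat_lit 5) (nat_lit 12) (nat_lit 5) (nat_lit 13) (nat_lit 4) (nat_lit 305) (nat_lit 259) (nat_lit 216)) (XT.lf (nat_lit 0) (nat_lit 23409177635) (nat_lit 152) (nat_lit 20879441893) (nat_lit 0) (nat_lit 945827797) (nat_lit 11) (nat_lit 5) (nat_lit 13) (nat_lit 4) (nat_lit 11) (nat_lit 4) (nat_lit 306) (nat_lit 259) (nat_lit 215))))) (XT.nd (nat_lit 234) (nat_lit 76) (nat_lit 0) (XT.nd (nat_lit 78) (nat_lit 152) (nat_lit 0) (XT.lf (nat_lit 0) (nat_lit 33967283047) (nat_lit 152) (nat_lit 2908623043) (nat_lit 0) (nat_lit 11445663371) (nat_lit 11) (nat_lit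 5) (nat_lit 13) (nat_lit 4) (nat_lit 11) (nat_lit 4) (nat_lit 307) (nat_lit 259) (nat_lit 214)) (XT.nd (nat_lit 78) (nat_lit 76) (nat_lit 0) (XT.lf (nat_lit 0) (nat_lit 16953473770) (nat_lit 76) (nat_lit 28633467690) (nat_lit 76) (nat_lit 6057894460) (nat_lit 10) (nat_lit 4) (nat_lit 11) (nat_lit 5) (nat_lit 11) (nat_lit 4) (nat_lit 308) (nat_lit 259) (nat_lit 213)) (XT.lf (nat_lit 0) (nat_lit 2814475959) (nat_lit 152) (nat_lit 16855854506) (nat_lit 76) (nat_lit 35561127299) (nat_lit 9) (nat_lit 5) (nat_lit 11) (nat_lit 5) (nat_lit 10) (nat_lit 4) (nat_lit 309) (nat_lit 259) (nat_lit 212)))) (XT.nd (nat_lit 78) (nat_lit 0) (nat_lit 0) (XT.lf (nat_lit 0) (nat_lit 2297619730) (nat_lit 76) (nat_lit 9882578528) (nat_lit 152) (nat_lit 46920071693) (nat_lit 8) (nat_lit 5) (nat_lit 9) (nat_lit 5) (nat_lit 10) (nat_lit 4) (nat_lit 310) (nat_lit 259) (nat_lit 211)) (XT.nd (nat_lit 78) (nat_lit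 0) (nat_lit 0) (XT.lf (nat_lit 0) (nat_lit 22562866151) (nat_lit 152) (nat_lit 39772453727) (nat_lit 0) (nat_lit 929897799) (nat_lit 8) (nat_lit 5) (nat_lit 10) (nat_lit 4) (nat_lit 8) (nat_lit 4) (nat_lit 311) (nat_lit 259) (nat_lit 210)) (XT.lf (nat_lit 0) (nat_lit 33904370670) (nat_lit 152) (nat_lit 21618959941) (nat_lit 0) (nat_lit 12233633296) (nat_lit 8) (nat_lit 5) (nat_lit 10) (nat_lit 4) (nat_lit 8) (nat_lit 4) (nat_lit 312) (nat_lit 259) (nat_lit 209))))))) (XT.nd (nat_lit 858) (nat_lit 152) (nat_lit 0) (XT.nd (nat_lit 390) (nat_lit 152) (nat_lit 0) (XT.nd (nat_lit 156) (nat_lit 76) (nat_lit 0) (XT.nd (nat_lit 78) (nat_lit 76) (nat_lit 0) (XT.lf (nat_lit 0) (nat_lit 46117625985) (nat_lit 152) (nat_lit 2080297858) (nat_lit 0) (nat_lit 24411917294) (nat_lit 8) (nat_lit 5) (nat_lit 10) (nat_lit 4) (nat_lit 8) (nat_lit 4) (nat_lit 313) (nat_lit 259) (nat_lit 208)) (XT.lf (nat_lit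 0) (nat_lit 19586197834) (nat_lit 76) (nat_lit 39994604544) (nat_lit 76) (nat_lit 18256515006) (nat_lit 7) (nat_lit 4) (nat_lit 8) (nat_lit 5) (nat_lit 8) (nat_lit 4) (nat_lit 314) (nat_lit 259) (nat_lit 207))) (XT.nd (nat_lit 78) (nat_lit 76) (nat_lit 0) (XT.lf (nat_lit 0) (nat_lit 43000860472) (nat_lit 76) (nat_lit 31124986672) (nat_lit 76) (nat_lit 9356914866) (nat_lit 7) (nat_lit 4) (nat_lit 8) (nat_lit 5) (nat_lit 8) (nat_lit 4) (nat_lit 315) (nat_lit 259) (nat_lit 206)) (XT.nd (nat_lit 78) (nat_lit 0) (nat_lit 0) (XT.lf (nat_lit 0) (nat_lit 216920416) (nat_lit 152) (nat_lit 21351146309) (nat_lit 76) (nat_lit 68013065500) (nat_lit 6) (nat_lit 5) (nat_lit 8) (nat_lit 5) (nat_lit 7) (nat_lit 4) (nat_lit 316) (nat_lit 259) (nat_lit 205)) (XT.lf (nat_lit 0) (nat_lit 10205833350) (nat_lit 152) (nat_lit 899579757) (nat_lit 76) (nat_lit 85055448746) (nat_lit 6) (nat_lit 5) (nat_lit 8) (nat_lit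 5) (nat_lit 7) (nat_lit 4) (nat_lit 317) (nat_lit 259) (nat_lit 204))))) (XT.nd (nat_lit 234) (nat_lit 76) (nat_lit 0) (XT.nd (nat_lit 78) (nat_lit 0) (nat_lit 0) (XT.lf (nat_lit 0) (nat_lit 21317734787) (nat_lit 152) (nat_lit 81420399590) (nat_lit 0) (nat_lit 512650011) (nat_lit 5) (nat_lit 5) (nat_lit 7) (nat_lit 4) (nat_lit 5) (nat_lit 4) (nat_lit 318) (nat_lit 259) (nat_lit 203)) (XT.nd (nat_lit 78) (nat_lit 0) (nat_lit 0) (XT.lf (nat_lit 0) (nat_lit 33497232634) (nat_lit 152) (nat_lit 64730584154) (nat_lit 0) (nat_lit 12671159418) (nat_lit 5) (nat_lit 5) (nat_lit 7) (nat_lit 4) (nat_lit 5) (nat_lit 4) (nat_lit 319) (nat_lit 259) (nat_lit 202)) (XT.lf (nat_lit 0) (nat_lit 46628367862) (nat_lit 152) (nat_lit 46748937849) (nat_lit 0) (nat_lit 25782860906) (nat_lit 5) (nat_lit 5) (nat_lit 7) (nat_lit 4) (nat_lit 5) (nat_lit 4) (nat_lit 320) (nat_lit 259) (nat_lit 201)))) (XT.nd (nat_lit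 78) (nat_lit 76) (nat_lit 0) (XT.lf (nat_lit 0) (nat_lit 60788954606) (nat_lit 152) (nat_lit 27368902771) (nat_lit 0) (nat_lit 39925453446) (nat_lit 5) (nat_lit 5) (nat_lit 7) (nat_lit 4) (nat_lit 5) (nat_lit 4) (nat_lit 321) (nat_lit 259) (nat_lit 200)) (XT.nd (nat_lit 78) (nat_lit 76) (nat_lit 0) (XT.lf (nat_lit 0) (nat_lit 76062907454) (nat_lit 152) (nat_lit 6475634268) (nat_lit 0) (nat_lit 55182744994) (nat_lit 5) (nat_lit 5) (nat_lit 7) (nat_lit 4) (nat_lit 5) (nat_lit 4) (nat_lit 322) (nat_lit 259) (nat_lit 199)) (XT.lf (nat_lit 0) (nat_lit 16585519833) (nat_lit 76) (nat_lit 76214165330) (nat_lit 76) (nat_lit 55318575741) (nat_lit 4) (nat_lit 4) (nat_lit 5) (nat_lit 5) (nat_lit 5) (nat_lit 4) (nat_lit 323) (nat_lit 259) (nat_lit 198)))))) (XT.nd (nat_lit 390) (nat_lit 152) (nat_lit 0) (XT.nd (nat_lit 156) (nat_lit 0) (nat_lit 0) (XT.nd (nat_lit 78) (nat_lit 0) (nat_lit 0) (XT.lf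 (nat_lit 0) (nat_lit 41689888663) (nat_lit 76) (nat_lit 69281102142) (nat_lit 76) (nat_lit 48371228174) (nat_lit 4) (nat_lit 4) (nat_lit 5) (nat_lit 5) (nat_lit 5) (nat_lit 4) (nat_lit 324) (nat_lit 259) (nat_lit 197)) (XT.lf (nat_lit 0) (nat_lit 68772125135) (nat_lit 76) (nat_lit 61807935340) (nat_lit 76) (nat_lit 40884835094) (nat_lit 4) (nat_lit 4) (nat_lit 5) (nat_lit 5) (nat_lit 5) (nat_lit 4) (nat_lit 325) (nat_lit 259) (nat_lit 196))) (XT.nd (nat_lit 78) (nat_lit 0) (nat_lit 0) (XT.lf (nat_lit 0) (nat_lit 97992716579) (nat_lit 76) (nat_lit 53750379490) (nat_lit 76) (nat_lit 32815032692) (nat_lit 4) (nat_lit 4) (nat_lit 5) (nat_lit 5) (nat_lit 5) (nat_lit 4) (nat_lit 326) (nat_lit 259) (nat_lit 195)) (XT.nd (nat_lit 78) (nat_lit 0) (nat_lit 0) (XT.lf (nat_lit 0) (nat_lit 129524822052) (nat_lit 76) (nat_lit 45060686113) (nat_lit 76) (nat_lit 24113999914) (nat_lit 4) (nat_lit 4) (nat_lit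 5) (nat_lit 5) (nat_lit 5) (nat_lit 4) (nat_lit 327) (nat_lit 259) (nat_lit 194)) (XT.lf (nat_lit 0) (nat_lit 163555298478) (nat_lit 76) (nat_lit 35687360731) (nat_lit 76) (nat_lit 14730175087) (nat_lit 4) (nat_lit 4) (nat_lit 5) (nat_lit 5) (nat_lit 5) (nat_lit 4) (nat_lit 328) (nat_lit 259) (nat_lit 193))))) (XT.nd (nat_lit 234) (nat_lit 0) (nat_lit 0) (XT.nd (nat_lit 78) (nat_lit 152) (nat_lit 0) (XT.lf (nat_lit 0) (nat_lit 200285807939) (nat_lit 76) (nat_lit 25574857711) (nat_lit 76) (nat_lit 4607950358) (nat_lit 4) (nat_lit 4) (nat_lit 5) (nat_lit 5) (nat_lit 5) (nat_lit 4) (nat_lit 329) (nat_lit 259) (nat_lit 192)) (XT.nd (nat_lit 78) (nat_lit 76) (nat_lit 0) (XT.lf (nat_lit 0) (nat_lit 6110613350) (nat_lit 152) (nat_lit 8449151564) (nat_lit 76) (nat_lit 233719913168) (nat_lit 3) (nat_lit 5) (nat_lit 5) (nat_lit 5) (nat_lit 4) (nat_lit 4) (nat_lit 330) (nat_lit 259) (nat_lit 191))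 (XT.lf (nat_lit 0) (nat_lit 15419468968) (nat_lit 76) (nat_lit 2338439666) (nat_lit 152) (nat_lit 249742308061) (nat_lit 2) (nat_lit 5) (nat_lit 3) (nat_lit 5) (nat_lit 4) (nat_lit 4) (nat_lit 331) (nat_lit 259) (nat_lit 190)))) (XT.nd (nat_lit 78) (nat_lit 0) (nat_lit 0) (XT.lf (nat_lit 0) (nat_lit 30646255335) (nat_lit 152) (nat_lit 246942770970) (nat_lit 0) (nat_lit 10653911394) (nat_lit 2) (nat_lit 5) (nat_lit 4) (nat_lit 4) (nat_lit 2) (nat_lit 4) (nat_lit 332) (nat_lit 259) (nat_lit 189)) (XT.nd (nat_lit 78) (nat_lit 0) (nat_lit 0) (XT.lf (nat_lit 0) (nat_lit 44595944570) (nat_lit 152) (nat_lit 241450825414) (nat_lit 0) (nat_lit 24596795157) (nat_lit 2) (nat_lit 5) (nat_lit 4) (nat_lit 4) (nat_lit 2) (nat_lit 4) (nat_lit 333) (nat_lit 259) (nat_lit 188)) (XT.lf (nat_lit 0) (nat_lit 59653131566) (nat_lit 152) (nat_lit 235535856599) (nat_lit 0) (nat_lit 39647680790) (nat_lit 2) (nat_lit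 5) (nat_lit 4) (nat_lit 4) (nat_lit 2) (nat_lit 4) (nat_lit 334) (nat_lit 259) (nat_lit 187))))))))
noncomputable def xc47 : XT := (XT.nd (nat_lit 35334) (nat_lit 0) (nat_lit 2356) (XT.nd (nat_lit 858) (nat_lit 0) (nat_lit 0) (XT.nd (nat_lit 390) (nat_lit 0) (nat_lit 0) (XT.nd (nat_lit 156) (nat_lit 0) (nat_lit 0) (XT.nd (nat_lit 78) (nat_lit 0) (nat_lit 0) (XT.lf (nat_lit 0) (nat_lit 75907044099) (nat_lit 152) (nat_lit 229162812860) (nat_lit 0) (nat_lit 55895758728) (nat_lit 2) (nat_lit 5) (nat_lit 4) (nat_lit 4) (nat_lit 2) (nat_lit 4) (nat_lit 335) (nat_lit 259) (nat_lit 186)) (XT.lf (nat_lit 0) (nat_lit 93454001651) (nat_lit 152) (nat_lit 222293928009) (nat_lit 0) (nat_lit 73437313876) (nat_lit 2) (nat_lit 5) (nat_lit 4) (nat_lit 4) (nat_lit 2) (nat_lit 4) (nat_lit 336) (nat_lit 259) (nat_lit 185))) (XT.nd (nat_lit 78) (nat_lit 0) (nat_lit 0) (XT.lf (nat_lit 0) (nat_lit 112397986191)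 (nat_lit 152) (nat_lit 214888497545) (nat_lit 0) (nat_lit 92376296191) (nat_lit 2) (nat_lit 5) (nat_lit 4) (nat_lit 4) (nat_lit 2) (nat_lit 4) (nat_lit 337) (nat_lit 259) (nat_lit 184)) (XT.nd (nat_lit 78) (nat_lit 0) (nat_lit 0) (XT.lf (nat_lit 0) (nat_lit 132851258370) (nat_lit 152) (nat_lit 206902637436) (nat_lit 0) (nat_lit 112824936679) (nat_lit 2) (nat_lit 5) (nat_lit 4) (nat_lit 4) (nat_lit 2) (nat_lit 4) (nat_lit 338) (nat_lit 259) (nat_lit 183)) (XT.lf (nat_lit 0) (nat_lit 154935022762) (nat_lit 152) (nat_lit 198289024065) (nat_lit 0) (nat_lit 134904412470) (nat_lit 2) (nat_lit 5) (nat_lit 4) (nat_lit 4) (nat_lit 2) (nat_lit 4) (nat_lit 339) (nat_lit 259) (nat_lit 182))))) (XT.nd (nat_lit 234) (nat_lit 0) (nat_lit 0) (XT.nd (nat_lit 78) (nat_lit 0) (nat_lit 0) (XT.lf (nat_lit 0) (nat_lit 178780146120) (nat_lit 152) (nat_lit 188996613799) (nat_lit 0) (nat_lit 158745564900) (nat_lit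 2) (nat_lit 5) (nat_lit 4) (nat_lit 4) (nat_lit 2) (nat_lit 4) (nat_lit 340) (nat_lit 259) (nat_lit 181)) (XT.nd (nat_lit 78) (nat_lit 0) (nat_lit 0) (XT.lf (nat_lit 0) (nat_lit 204527932880) (nat_lit 152) (nat_lit 178970340501) (nat_lit 0) (nat_lit 184489674874) (nat_lit 2) (nat_lit 5) (nat_lit 4) (nat_lit 4) (nat_lit 2) (nat_lit 4) (nat_lit 341) (nat_lit 259) (nat_lit 180)) (XT.lf (nat_lit 0) (nat_lit 232330962516) (nat_lit 152) (nat_lit 168150789220) (nat_lit 0) (nat_lit 212289300081) (nat_lit 2) (nat_lit 5) (nat_lit 4) (nat_lit 4) (nat_lit 2) (nat_lit 4) (nat_lit 342) (nat_lit 259) (nat_lit 179)))) (XT.nd (nat_lit 78) (nat_lit 0) (nat_lit 0) (XT.lf (nat_lit 0) (nat_lit 262353993725) (nat_lit 152) (nat_lit 156473844095) (nat_lit 0) (nat_lit 242309179039) (nat_lit 2) (nat_lit 5) (nat_lit 4) (nat_lit 4) (nat_lit 2) (nat_lit 4) (nat_lit 343) (nat_lit 259) (nat_lit 178)) (XT.nd (nat_lit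 78) (nat_lit 0) (nat_lit 0) (XT.lf (nat_lit 0) (nat_lit 294774940765) (nat_lit 152) (nat_lit 143870308416) (nat_lit 0) (nat_lit 274727207328) (nat_lit 2) (nat_lit 5) (nat_lit 4) (nat_lit 4) (nat_lit 2) (nat_lit 4) (nat_lit 344) (nat_lit 259) (nat_lit 177)) (XT.lf (nat_lit 0) (nat_lit 329785927766) (nat_lit 152) (nat_lit 130265494562) (nat_lit 0) (nat_lit 309735491783) (nat_lit 2) (nat_lit 5) (nat_lit 4) (nat_lit 4) (nat_lit 2) (nat_lit 4) (nat_lit 345) (nat_lit 259) (nat_lit 176)))))) (XT.nd (nat_lit 34008) (nat_lit 0) (nat_lit 9652) (XT.nd (nat_lit 156) (nat_lit 0) (nat_lit 0) (XT.nd (nat_lit 78) (nat_lit 0) (nat_lit 0) (XT.lf (nat_lit 0) (nat_lit 367594427244) (nat_lit 152) (nat_lit 115578781415) (nat_lit 0) (nat_lit 347541488903) (nat_lit 2) (nat_lit 5) (nat_lit 4) (nat_lit 4) (nat_lit 2) (nat_lit 4) (nat_lit 346) (nat_lit 259) (nat_lit 175)) (XT.lf (nat_lit 0) (nat_lit 408424489566)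 (nat_lit 152) (nat_lit 99723136602) (nat_lit 0) (nat_lit 388369234227) (nat_lit 2) (nat_lit 5) (nat_lit 4) (nat_lit 4) (nat_lit 2) (nat_lit 4) (nat_lit 347) (nat_lit 259) (nat_lit 174))) (XT.nd (nat_lit 78) (nat_lit 0) (nat_lit 0) (XT.lf (nat_lit 0) (nat_lit 452518070658) (nat_lit 152) (nat_lit 82604600744) (nat_lit 0) (nat_lit 432460669950) (nat_lit 2) (nat_lit 5) (nat_lit 4) (nat_lit 4) (nat_lit 2) (nat_lit 4) (nat_lit 348) (nat_lit 259) (nat_lit 173)) (XT.nd (nat_lit 33696) (nat_lit 0) (nat_lit 10716) (XT.lf (nat_lit 0) (nat_lit 500136465814) (nat_lit 152) (nat_lit 64121730667) (nat_lit 0) (nat_lit 480077078654) (nat_lit 2) (nat_lit 5) (nat_lit 4) (nat_lit 4) (nat_lit 2) (nat_lit 4) (nat_lit 349) (nat_lit 259) (nat_lit 172)) (XT.lf (nat_lit 0) (nat_lit 1073741823) (nat_lit 0) (nat_lit 0) (nat_lit 0) (nat_lit 0) (nat_lit 143) (nat_lit 0) (nat_lit 1) (nat_lit 0) (nat_lit 1) (nat_lit 0)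 (nat_lit 260) (nat_lit 260) (nat_lit 260))))) (XT.nd (nat_lit 234) (nat_lit 608) (nat_lit 0) (XT.nd (nat_lit 78) (nat_lit 380) (nat_lit 0) (XT.lf (nat_lit 0) (nat_lit 4672974486) (nat_lit 76) (nat_lit 1581673366) (nat_lit 0) (nat_lit 196664127) (nat_lit 142) (nat_lit 5) (nat_lit 143) (nat_lit 0) (nat_lit 142) (nat_lit 4) (nat_lit 261) (nat_lit 260) (nat_lit 259)) (XT.nd (nat_lit 78) (nat_lit 228) (nat_lit 0) (XT.lf (nat_lit 0) (nat_lit 2737805206) (nat_lit 152) (nat_lit 3008541501) (nat_lit 76) (nat_lit 734278084) (nat_lit 140) (nat_lit 5) (nat_lit 142) (nat_lit 5) (nat_lit 141) (nat_lit 4) (nat_lit 262) (nat_lit 260) (nat_lit 258)) (XT.lf (nat_lit 0) (nat_lit 623646122) (nat_lit 228) (nat_lit 4290470540) (nat_lit 76) (nat_lit 1616426482) (nat_lit 137) (nat_lit 5) (nat_lit 140) (nat_lit 5) (nat_lit 138) (nat_lit 5) (nat_lit 263) (nat_lit 260) (nat_lit 257)))) (XT.nd (nat_lit 78) (nat_lit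 380) (nat_lit 0) (XT.lf (nat_lit 0) (nat_lit 1136391234) (nat_lit 228) (nat_lit 3723830553) (nat_lit 304) (nat_lit 1739750808) (nat_lit 134) (nat_lit 5) (nat_lit 137) (nat_lit 5) (nat_lit 138) (nat_lit 5) (nat_lit 264) (nat_lit 260) (nat_lit 256)) (XT.nd (nat_lit 78) (nat_lit 0) (nat_lit 0) (XT.lf (nat_lit 0) (nat_lit 167680283) (nat_lit 304) (nat_lit 2182091952) (nat_lit 380) (nat_lit 4340202681) (nat_lit 129) (nat_lit 5) (nat_lit 133) (nat_lit 5) (nat_lit 134) (nat_lit 5) (nat_lit 265) (nat_lit 260) (nat_lit 255)) (XT.lf (nat_lit 0) (nat_lit 6153341959) (nat_lit 304) (nat_lit 272109248) (nat_lit 380) (nat_lit 375267704) (nat_lit 129) (nat_lit 5) (nat_lit 133) (nat_lit 5) (nat_lit 134) (nat_lit 5) (nat_lit 266) (nat_lit 260) (nat_lit 254))))))) (XT.nd (nat_lit 858) (nat_lit 2052) (nat_lit 0) (XT.nd (nat_lit 390) (nat_lit 2356) (nat_lit 0) (XT.nd (nat_lit 156) (nat_lit 1900) (nat_lit 0)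 (XT.nd (nat_lit 78) (nat_lit 532) (nat_lit 0) (XT.lf (nat_lit 0) (nat_lit 3546262437) (nat_lit 456) (nat_lit 1403077964) (nat_lit 76) (nat_lit 1980560780) (nat_lit 123) (nat_lit 5) (nat_lit 129) (nat_lit 5) (nat_lit 124) (nat_lit 5) (nat_lit 267) (nat_lit 260) (nat_lit 253)) (XT.lf (nat_lit 0) (nat_lit 436649560) (nat_lit 532) (nat_lit 2051228696) (nat_lit 76) (nat_lit 4593447945) (nat_lit 116) (nat_lit 5) (nat_lit 123) (nat_lit 5) (nat_lit 117) (nat_lit 5) (nat_lit 268) (nat_lit 260) (nat_lit 252))) (XT.nd (nat_lit 78) (nat_lit 1368) (nat_lit 0) (XT.lf (nat_lit 0) (nat_lit 4232797209) (nat_lit 608) (nat_lit 2646716197) (nat_lit 76) (nat_lit 373833927) (nat_lit 109) (nat_lit 5) (nat_lit 117) (nat_lit 5) (nat_lit 110) (nat_lit 5) (nat_lit 269) (nat_lit 260) (nat_lit 251)) (XT.nd (nat_lit 78) (nat_lit 684) (nat_lit 0) (XT.lf (nat_lit 0) (nat_lit 711100596) (nat_lit 684) (nat_lit 3198345231)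 (nat_lit 76) (nat_lit 3537289850) (nat_lit 100) (nat_lit 5) (nat_lit 109) (nat_lit 5) (nat_lit 101) (nat_lit 5) (nat_lit 270) (nat_lit 260) (nat_lit 250)) (XT.lf (nat_lit 0) (nat_lit 3946190951) (nat_lit 684) (nat_lit 516436693) (nat_lit 760) (nat_lit 3199700342) (nat_lit 91) (nat_lit 5) (nat_lit 100) (nat_lit 5) (nat_lit 101) (nat_lit 5) (nat_lit 271) (nat_lit 260) (nat_lit 249))))) (XT.nd (nat_lit 234) (nat_lit 1064) (nat_lit 0) (XT.nd (nat_lit 78) (nat_lit 684) (nat_lit 0) (XT.lf (nat_lit 0) (nat_lit 494881121) (nat_lit 608) (nat_lit 4224048173) (nat_lit 76) (nat_lit 3181475933) (nat_lit 83) (nat_lit 5) (nat_lit 91) (nat_lit 5) (nat_lit 84) (nat_lit 5) (nat_lit 272) (nat_lit 260) (nat_lit 248)) (XT.nd (nat_lit 78) (nat_lit 304) (nat_lit 0) (XT.lf (nat_lit 0) (nat_lit 3419881481) (nat_lit 380) (nat_lit 828018197) (nat_lit 456) (nat_lit 3913720799) (nat_lit 78) (nat_lit 5) (nat_lit 83)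 (nat_lit 5) (nat_lit 84) (nat_lit 5) (nat_lit 273) (nat_lit 260) (nat_lit 247)) (XT.lf (nat_lit 0) (nat_lit 3168420013) (nat_lit 304) (nat_lit 5069937213) (nat_lit 380) (nat_lit 208944697) (nat_lit 74) (nat_lit 5) (nat_lit 78) (nat_lit 5) (nat_lit 79) (nat_lit 5) (nat_lit 274) (nat_lit 260) (nat_lit 246)))) (XT.nd (nat_lit 78) (nat_lit 684) (nat_lit 0) (XT.lf (nat_lit 0) (nat_lit 2885157921) (nat_lit 304) (nat_lit 698612653) (nat_lit 380) (nat_lit 5173838552) (nat_lit 69) (nat_lit 5) (nat_lit 73) (nat_lit 5) (nat_lit 74) (nat_lit 5) (nat_lit 275) (nat_lit 260) (nat_lit 245)) (XT.nd (nat_lit 78) (nat_lit 380) (nat_lit 0) (XT.lf (nat_lit 0) (nat_lit 2555677346) (nat_lit 304) (nat_lit 5095749748) (nat_lit 380) (nat_lit 1442550488) (nat_lit 65) (nat_lit 5) (nat_lit 69) (nat_lit 5) (nat_lit 70) (nat_lit 5) (nat_lit 276) (nat_lit 260) (nat_lit 244)) (XT.lf (nat_lit 0) (nat_lit 2174518612) (nat_lit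 304) (nat_lit 270727161) (nat_lit 380) (nat_lit 7013258172) (nat_lit 60) (nat_lit 5) (nat_lit 64) (nat_lit 5) (nat_lit 65) (nat_lit 5) (nat_lit 277) (nat_lit 260) (nat_lit 243)))))) (XT.nd (nat_lit 390) (nat_lit 988) (nat_lit 0) (XT.nd (nat_lit 156) (nat_lit 532) (nat_lit 0) (XT.nd (nat_lit 78) (nat_lit 304) (nat_lit 0) (XT.lf (nat_lit 0) (nat_lit 1666276663) (nat_lit 228) (nat_lit 4948824730) (nat_lit 304) (nat_lit 3235115740) (nat_lit 57) (nat_lit 5) (nat_lit 60) (nat_lit 5) (nat_lit 61) (nat_lit 5) (nat_lit 278) (nat_lit 260) (nat_lit 242)) (XT.lf (nat_lit 0) (nat_lit 783169938) (nat_lit 304) (nat_lit 9189470480) (nat_lit 76) (nat_lit 301971926) (nat_lit 53) (nat_lit 5) (nat_lit 57) (nat_lit 5) (nat_lit 54) (nat_lit 5) (nat_lit 279) (nat_lit 260) (nat_lit 241))) (XT.nd (nat_lit 78) (nat_lit 304) (nat_lit 0) (XT.lf (nat_lit 0) (nat_lit 282924703) (nat_lit 228) (nat_lit 4779889859) (nat_lit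 304) (nat_lit 5665064388) (nat_lit 50) (nat_lit 5) (nat_lit 53) (nat_lit 5) (nat_lit 54) (nat_lit 5) (nat_lit 280) (nat_lit 260) (nat_lit 240)) (XT.nd (nat_lit 78) (nat_lit 304) (nat_lit 0) (XT.lf (nat_lit 0) (nat_lit 9688104102) (nat_lit 304) (nat_lit 628635679) (nat_lit 76) (nat_lit 900719593) (nat_lit 50) (nat_lit 5) (nat_lit 54) (nat_lit 5) (nat_lit 51) (nat_lit 5) (nat_lit 281) (nat_lit 260) (nat_lit 239)) (XT.lf (nat_lit 0) (nat_lit 2921172761) (nat_lit 304) (nat_lit 1804495302) (nat_lit 76) (nat_lit 7014537319) (nat_lit 46) (nat_lit 5) (nat_lit 50) (nat_lit 5) (nat_lit 47) (nat_lit 5) (nat_lit 282) (nat_lit 260) (nat_lit 238))))) (XT.nd (nat_lit 234) (nat_lit 380) (nat_lit 0) (XT.nd (nat_lit 78) (nat_lit 456) (nat_lit 0) (XT.lf (nat_lit 0) (nat_lit 7696739801) (nat_lit 228) (nat_lit 3219316203) (nat_lit 76) (nat_lit 1386509096) (nat_lit 44) (nat_lit 5) (nat_lit 47) (nat_lit 5) (nat_lit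 45) (nat_lit 5) (nat_lit 283) (nat_lit 260) (nat_lit 237)) (XT.nd (nat_lit 78) (nat_lit 152) (nat_lit 0) (XT.lf (nat_lit 0) (nat_lit 36545802) (nat_lit 304) (nat_lit 4952696673) (nat_lit 76) (nat_lit 7916353692) (nat_lit 40) (nat_lit 5) (nat_lit 44) (nat_lit 5) (nat_lit 41) (nat_lit 5) (nat_lit 284) (nat_lit 260) (nat_lit 236)) (XT.lf (nat_lit 0) (nat_lit 4932668252) (nat_lit 228) (nat_lit 7082251813) (nat_lit 76) (nat_lit 1536132132) (nat_lit 38) (nat_lit 5) (nat_lit 41) (nat_lit 5) (nat_lit 39) (nat_lit 5) (nat_lit 285) (nat_lit 260) (nat_lit 235)))) (XT.nd (nat_lit 78) (nat_lit 228) (nat_lit 0) (XT.lf (nat_lit 0) (nat_lit 4587636967) (nat_lit 152) (nat_lit 5740864586) (nat_lit 228) (nat_lit 3914375539) (nat_lit 36) (nat_lit 5) (nat_lit 38) (nat_lit 5) (nat_lit 39) (nat_lit 5) (nat_lit 286) (nat_lit 260) (nat_lit 234)) (XT.nd (nat_lit 78) (nat_lit 0) (nat_lit 0) (XT.lf (nat_lit 0) (nat_lit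 1177226967) (nat_lit 228) (nat_lit 12697857776) (nat_lit 76) (nat_lit 1111741154) (nat_lit 33) (nat_lit 5) (nat_lit 36) (nat_lit 5) (nat_lit 34) (nat_lit 5) (nat_lit 287) (nat_lit 260) (nat_lit 233)) (XT.lf (nat_lit 0) (nat_lit 6683307203) (nat_lit 228) (nat_lit 616155586) (nat_lit 76) (nat_lit 8480513758) (nat_lit 33) (nat_lit 5) (nat_lit 36) (nat_lit 5) (nat_lit 34) (nat_lit 5) (nat_lit 288) (nat_lit 260) (nat_lit 232))))))))
noncomputable def xc48 : XT := (XT.nd (nat_lit 1638) (nat_lit 532) (nat_lit 0) (XT.nd (nat_lit 780) (nat_lit 532) (nat_lit 0) (XT.nd (nat_lit 390) (nat_lit 532) (nat_lit 0) (XT.nd (nat_lit 156) (nat_lit 304) (nat_lit 0) (XT.nd (nat_lit 78) (nat_lit 228) (nat_lit 0) (XT.lf (nat_lit 0) (nat_lit 12649720659) (nat_lit 152) (nat_lit 61641575) (nat_lit 228) (nat_lit 3921243477) (nat_lit 31) (nat_lit 5) (nat_lit 33) (nat_lit 5) (nat_lit 34) (nat_lit 5) (nat_lit 289) (nat_lit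 260) (nat_lit 231)) (XT.lf (nat_lit 0) (nat_lit 1785627750) (nat_lit 228) (nat_lit 8130605847) (nat_lit 76) (nat_lit 7627458065) (nat_lit 28) (nat_lit 5) (nat_lit 31) (nat_lit 5) (nat_lit 29) (nat_lit 5) (nat_lit 290) (nat_lit 260) (nat_lit 230))) (XT.nd (nat_lit 78) (nat_lit 152) (nat_lit 0) (XT.lf (nat_lit 0) (nat_lit 5424814179) (nat_lit 152) (nat_lit 2437338200) (nat_lit 228) (nat_lit 10659856099) (nat_lit 26) (nat_lit 5) (nat_lit 28) (nat_lit 5) (nat_lit 29) (nat_lit 5) (nat_lit 291) (nat_lit 260) (nat_lit 229)) (XT.nd (nat_lit 78) (nat_lit 76) (nat_lit 0) (XT.lf (nat_lit 0) (nat_lit 534631275) (nat_lit 76) (nat_lit 14027129484) (nat_lit 152) (nat_lit 5010058060) (nat_lit 25) (nat_lit 5) (nat_lit 26) (nat_lit 5) (nat_lit 27) (nat_lit 4) (nat_lit 292) (nat_lit 260) (nat_lit 228)) (XT.lf (nat_lit 0) (nat_lit 1229728729) (nat_lit 152) (nat_lit 5202737821) (nat_lit 76) (nat_lit 14263715109)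 (nat_lit 24) (nat_lit 5) (nat_lit 26) (nat_lit 5) (nat_lit 25) (nat_lit 5) (nat_lit 293) (nat_lit 260) (nat_lit 227))))) (XT.nd (nat_lit 156) (nat_lit 304) (nat_lit 0) (XT.nd (nat_lit 78) (nat_lit 76) (nat_lit 0) (XT.lf (nat_lit 0) (nat_lit 7886537554) (nat_lit 228) (nat_lit 12124508781) (nat_lit 76) (nat_lit 1890734505) (nat_lit 22) (nat_lit 5) (nat_lit 25) (nat_lit 5) (nat_lit 23) (nat_lit 4) (nat_lit 294) (nat_lit 260) (nat_lit 226)) (XT.lf (nat_lit 0) (nat_lit 2765507725) (nat_lit 76) (nat_lit 12465010474) (nat_lit 152) (nat_lit 7965636063) (nat_lit 21) (nat_lit 5) (nat_lit 22) (nat_lit 5) (nat_lit 23) (nat_lit 4) (nat_lit 295) (nat_lit 260) (nat_lit 225))) (XT.nd (nat_lit 78) (nat_lit 304) (nat_lit 0) (XT.lf (nat_lit 0) (nat_lit 19131202784) (nat_lit 76) (nat_lit 4157172000) (nat_lit 152) (nat_lit 1299438291) (nat_lit 21) (nat_lit 5) (nat_lit 22) (nat_lit 5) (nat_lit 23) (nat_lit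 4) (nat_lit 296) (nat_lit 260) (nat_lit 224)) (XT.nd (nat_lit 78) (nat_lit 76) (nat_lit 0) (XT.lf (nat_lit 0) (nat_lit 5878924652) (nat_lit 228) (nat_lit 15330632777) (nat_lit 76) (nat_lit 4868303029) (nat_lit 18) (nat_lit 5) (nat_lit 21) (nat_lit 5) (nat_lit 19) (nat_lit 4) (nat_lit 297) (nat_lit 260) (nat_lit 223)) (XT.lf (nat_lit 0) (nat_lit 546776585) (nat_lit 76) (nat_lit 13138130095) (nat_lit 152) (nat_lit 13996239629) (nat_lit 17) (nat_lit 5) (nat_lit 18) (nat_lit 5) (nat_lit 19) (nat_lit 4) (nat_lit 298) (nat_lit 260) (nat_lit 222)))))) (XT.nd (nat_lit 390) (nat_lit 304) (nat_lit 0) (XT.nd (nat_lit 156) (nat_lit 76) (nat_lit 0) (XT.nd (nat_lit 78) (nat_lit 152) (nat_lit 0) (XT.lf (nat_lit 0) (nat_lit 18110761121) (nat_lit 76) (nat_lit 4198335755) (nat_lit 152) (nat_lit 7093952038) (nat_lit 17) (nat_lit 5) (nat_lit 18) (nat_lit 5) (nat_lit 19) (nat_lit 4) (nat_lit 299) (nat_lit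 260) (nat_lit 221)) (XT.lf (nat_lit 0) (nat_lit 457617739) (nat_lit 152) (nat_lit 25471340285) (nat_lit 76) (nat_lit 5328067964) (nat_lit 15) (nat_lit 5) (nat_lit 17) (nat_lit 5) (nat_lit 16) (nat_lit 4) (nat_lit 300) (nat_lit 260) (nat_lit 220))) (XT.nd (nat_lit 78) (nat_lit 76) (nat_lit 0) (XT.lf (nat_lit 0) (nat_lit 8572227482) (nat_lit 152) (nat_lit 8930783615) (nat_lit 76) (nat_lit 15740155778) (nat_lit 15) (nat_lit 5) (nat_lit 17) (nat_lit 5) (nat_lit 16) (nat_lit 4) (nat_lit 301) (nat_lit 260) (nat_lit 219)) (XT.nd (nat_lit 78) (nat_lit 0) (nat_lit 0) (XT.lf (nat_lit 0) (nat_lit 9112828167) (nat_lit 76) (nat_lit 8303795895) (nat_lit 152) (nat_lit 17967574586) (nat_lit 14) (nat_lit 5) (nat_lit 15) (nat_lit 5) (nat_lit 16) (nat_lit 4) (nat_lit 302) (nat_lit 260) (nat_lit 218)) (XT.lf (nat_lit 0) (nat_lit 27092646227) (nat_lit 152) (nat_lit 8907119554) (nat_lit 0) (nat_lit 1690571746)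 (nat_lit 14) (nat_lit 5) (nat_lit 16) (nat_lit 4) (nat_lit 14) (nat_lit 4) (nat_lit 303) (nat_lit 260) (nat_lit 217))))) (XT.nd (nat_lit 234) (nat_lit 76) (nat_lit 0) (XT.nd (nat_lit 78) (nat_lit 152) (nat_lit 0) (XT.lf (nat_lit 0) (nat_lit 9922724008) (nat_lit 76) (nat_lit 27859858389) (nat_lit 76) (nat_lit 2386419672) (nat_lit 13) (nat_lit 4) (nat_lit 14) (nat_lit 5) (nat_lit 14) (nat_lit 4) (nat_lit 304) (nat_lit 260) (nat_lit 216)) (XT.nd (nat_lit 78) (nat_lit 76) (nat_lit 0) (XT.lf (nat_lit 0) (nat_lit 6378577585) (nat_lit 152) (nat_lit 12463432662) (nat_lit 76) (nat_lit 23993698657) (nat_lit 12) (nat_lit 5) (nat_lit 14) (nat_lit 5) (nat_lit 13) (nat_lit 4) (nat_lit 305) (nat_lit 260) (nat_lit 215)) (XT.lf (nat_lit 0) (nat_lit 6829159851) (nat_lit 76) (nat_lit 8990283999) (nat_lit 152) (nat_lit 29891459830) (nat_lit 11) (nat_lit 5) (nat_lit 12) (nat_lit 5) (nat_lit 13) (nat_lit 4)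 (nat_lit 306) (nat_lit 260) (nat_lit 214)))) (XT.nd (nat_lit 78) (nat_lit 76) (nat_lit 0) (XT.lf (nat_lit 0) (nat_lit 26214211374) (nat_lit 152) (nat_lit 20813352114) (nat_lit 0) (nat_lit 1778638732) (nat_lit 11) (nat_lit 5) (nat_lit 13) (nat_lit 4) (nat_lit 11) (nat_lit 4) (nat_lit 307) (nat_lit 260) (nat_lit 213)) (XT.nd (nat_lit 78) (nat_lit 76) (nat_lit 0) (XT.lf (nat_lit 0) (nat_lit 37547905994) (nat_lit 152) (nat_lit 1533493322) (nat_lit 0) (nat_lit 13062376359) (nat_lit 11) (nat_lit 5) (nat_lit 13) (nat_lit 4) (nat_lit 11) (nat_lit 4) (nat_lit 308) (nat_lit 260) (nat_lit 212)) (XT.lf (nat_lit 0) (nat_lit 19847697357) (nat_lit 76) (nat_lit 30209507640) (nat_lit 76) (nat_lit 5677721528) (nat_lit 10) (nat_lit 4) (nat_lit 11) (nat_lit 5) (nat_lit 11) (nat_lit 4) (nat_lit 309) (nat_lit 260) (nat_lit 211))))))) (XT.nd (nat_lit 858) (nat_lit 152) (nat_lit 0) (XT.nd (nat_lit 390) (nat_lit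 228) (nat_lit 0) (XT.nd (nat_lit 156) (nat_lit 0) (nat_lit 0) (XT.nd (nat_lit 78) (nat_lit 76) (nat_lit 0) (XT.lf (nat_lit 0) (nat_lit 3814750096) (nat_lit 152) (nat_lit 16754378484) (nat_lit 76) (nat_lit 39041798240) (nat_lit 9) (nat_lit 5) (nat_lit 11) (nat_lit 5) (nat_lit 10) (nat_lit 4) (nat_lit 310) (nat_lit 260) (nat_lit 210)) (XT.lf (nat_lit 0) (nat_lit 3868360875) (nat_lit 76) (nat_lit 10025607188) (nat_lit 152) (nat_lit 49897085637) (nat_lit 8) (nat_lit 5) (nat_lit 9) (nat_lit 5) (nat_lit 10) (nat_lit 4) (nat_lit 311) (nat_lit 260) (nat_lit 209))) (XT.nd (nat_lit 78) (nat_lit 0) (nat_lit 0) (XT.lf (nat_lit 0) (nat_lit 25061844004) (nat_lit 152) (nat_lit 41644936217) (nat_lit 0) (nat_lit 1584707302) (nat_lit 8) (nat_lit 5) (nat_lit 10) (nat_lit 4) (nat_lit 8) (nat_lit 4) (nat_lit 312) (nat_lit 260) (nat_lit 208)) (XT.nd (nat_lit 78) (nat_lit 0) (nat_lit 0) (XT.lf (nat_lit 0) (nat_lit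 37259265288) (nat_lit 152) (nat_lit 22136149137) (nat_lit 0) (nat_lit 13749747738) (nat_lit 8) (nat_lit 5) (nat_lit 10) (nat_lit 4) (nat_lit 8) (nat_lit 4) (nat_lit 313) (nat_lit 260) (nat_lit 207)) (XT.lf (nat_lit 0) (nat_lit 50401985104) (nat_lit 152) (nat_lit 1124196132) (nat_lit 0) (nat_lit 26862485287) (nat_lit 8) (nat_lit 5) (nat_lit 10) (nat_lit 4) (nat_lit 8) (nat_lit 4) (nat_lit 314) (nat_lit 260) (nat_lit 206))))) (XT.nd (nat_lit 234) (nat_lit 76) (nat_lit 0) (XT.nd (nat_lit 78) (nat_lit 76) (nat_lit 0) (XT.lf (nat_lit 0) (nat_lit 22226835623) (nat_lit 76) (nat_lit 42688073808) (nat_lit 76) (nat_lit 19120812632) (nat_lit 7) (nat_lit 4) (nat_lit 8) (nat_lit 5) (nat_lit 8) (nat_lit 4) (nat_lit 315) (nat_lit 260) (nat_lit 205)) (XT.nd (nat_lit 78) (nat_lit 76) (nat_lit 0) (XT.lf (nat_lit 0) (nat_lit 47435134831) (nat_lit 76) (nat_lit 33146375327) (nat_lit 76) (nat_lit 9553409191)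 (nat_lit 7) (nat_lit 4) (nat_lit 8) (nat_lit 5) (nat_lit 8) (nat_lit 4) (nat_lit 316) (nat_lit 260) (nat_lit 204)) (XT.lf (nat_lit 0) (nat_lit 729079173) (nat_lit 152) (nat_lit 22122154720) (nat_lit 76) (nat_lit 73871486519) (nat_lit 6) (nat_lit 5) (nat_lit 8) (nat_lit 5) (nat_lit 7) (nat_lit 4) (nat_lit 317) (nat_lit 260) (nat_lit 203)))) (XT.nd (nat_lit 78) (nat_lit 76) (nat_lit 0) (XT.lf (nat_lit 0) (nat_lit 11480452910) (nat_lit 152) (nat_lit 103876421) (nat_lit 76) (nat_lit 92246343702) (nat_lit 6) (nat_lit 5) (nat_lit 8) (nat_lit 5) (nat_lit 7) (nat_lit 4) (nat_lit 318) (nat_lit 260) (nat_lit 202)) (XT.nd (nat_lit 78) (nat_lit 0) (nat_lit 0) (XT.lf (nat_lit 0) (nat_lit 23466459766) (nat_lit 152) (nat_lit 87088204547) (nat_lit 0) (nat_lit 933878513) (nat_lit 5) (nat_lit 5) (nat_lit 7) (nat_lit 4) (nat_lit 5) (nat_lit 4) (nat_lit 319) (nat_lit 260) (nat_lit 201)) (XT.lf (nat_lit 0)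 (nat_lit 36587479945) (nat_lit 152) (nat_lit 69125857728) (nat_lit 0) (nat_lit 14036904488) (nat_lit 5) (nat_lit 5) (nat_lit 7) (nat_lit 4) (nat_lit 5) (nat_lit 4) (nat_lit 320) (nat_lit 260) (nat_lit 200)))))) (XT.nd (nat_lit 390) (nat_lit 76) (nat_lit 0) (XT.nd (nat_lit 156) (nat_lit 76) (nat_lit 0) (XT.nd (nat_lit 78) (nat_lit 0) (nat_lit 0) (XT.lf (nat_lit 0) (nat_lit 50738700902) (nat_lit 152) (nat_lit 49763692545) (nat_lit 0) (nat_lit 28171464146) (nat_lit 5) (nat_lit 5) (nat_lit 7) (nat_lit 4) (nat_lit 5) (nat_lit 4) (nat_lit 321) (nat_lit 260) (nat_lit 199)) (XT.lf (nat_lit 0) (nat_lit 66003981725) (nat_lit 152) (nat_lit 28886970241) (nat_lit 0) (nat_lit 43421317839) (nat_lit 5) (nat_lit 5) (nat_lit 7) (nat_lit 4) (nat_lit 5) (nat_lit 4) (nat_lit 322) (nat_lit 260) (nat_lit 198))) (XT.nd (nat_lit 78) (nat_lit 76) (nat_lit 0) (XT.lf (nat_lit 0) (nat_lit 82473783338) (nat_lit 152)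 (nat_lit 6371976906) (nat_lit 0) (nat_lit 59876835073) (nat_lit 5) (nat_lit 5) (nat_lit 7) (nat_lit 4) (nat_lit 5) (nat_lit 4) (nat_lit 323) (nat_lit 260) (nat_lit 197)) (XT.nd (nat_lit 78) (nat_lit 0) (nat_lit 0) (XT.lf (nat_lit 0) (nat_lit 18507050847) (nat_lit 76) (nat_lit 82027600646) (nat_lit 76) (nat_lit 59417426104) (nat_lit 4) (nat_lit 4) (nat_lit 5) (nat_lit 5) (nat_lit 5) (nat_lit 4) (nat_lit 324) (nat_lit 260) (nat_lit 196)) (XT.lf (nat_lit 0) (nat_lit 45575718114) (nat_lit 76) (nat_lit 74560907063) (nat_lit 76) (nat_lit 51938485969) (nat_lit 4) (nat_lit 4) (nat_lit 5) (nat_lit 5) (nat_lit 5) (nat_lit 4) (nat_lit 325) (nat_lit 260) (nat_lit 195))))) (XT.nd (nat_lit 234) (nat_lit 76) (nat_lit 0) (XT.nd (nat_lit 78) (nat_lit 0) (nat_lit 0) (XT.lf (nat_lit 0) (nat_lit 74783745478) (nat_lit 76) (nat_lit 66509344935) (nat_lit 76) (nat_lit 43875584440) (nat_lit 4) (nat_lit 4) (nat_lit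 5) (nat_lit 5) (nat_lit 5) (nat_lit 4) (nat_lit 326) (nat_lit 260) (nat_lit 194)) (XT.nd (nat_lit 78) (nat_lit 0) (nat_lit 0) (XT.lf (nat_lit 0) (nat_lit 106304217545) (nat_lit 76) (nat_lit 57825201301) (nat_lit 76) (nat_lit 35180941361) (nat_lit 4) (nat_lit 4) (nat_lit 5) (nat_lit 5) (nat_lit 5) (nat_lit 4) (nat_lit 327) (nat_lit 260) (nat_lit 193)) (XT.lf (nat_lit 0) (nat_lit 140323922298) (nat_lit 76) (nat_lit 48457014569) (nat_lit 76) (nat_lit 25803032920) (nat_lit 4) (nat_lit 4) (nat_lit 5) (nat_lit 5) (nat_lit 5) (nat_lit 4) (nat_lit 328) (nat_lit 260) (nat_lit 192)))) (XT.nd (nat_lit 78) (nat_lit 76) (nat_lit 0) (XT.lf (nat_lit 0) (nat_lit 177044457988) (nat_lit 76) (nat_lit 38349269559) (nat_lit 76) (nat_lit 15686286328) (nat_lit 4) (nat_lit 4) (nat_lit 5) (nat_lit 5) (nat_lit 5) (nat_lit 4) (nat_lit 329) (nat_lit 260) (nat_lit 191)) (XT.nd (nat_lit 78) (nat_lit 76) (nat_lit 0)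 (XT.lf (nat_lit 0) (nat_lit 216683427788) (nat_lit 76) (nat_lit 27442068521) (nat_lit 76) (nat_lit 4770750493) (nat_lit 4) (nat_lit 4) (nat_lit 5) (nat_lit 5) (nat_lit 5) (nat_lit 4) (nat_lit 330) (nat_lit 260) (nat_lit 190)) (XT.lf (nat_lit 0) (nat_lit 6783951178) (nat_lit 152) (nat_lit 8771935517) (nat_lit 76) (nat_lit 252576888624) (nat_lit 3) (nat_lit 5) (nat_lit 5) (nat_lit 5) (nat_lit 4) (nat_lit 4) (nat_lit 331) (nat_lit 260) (nat_lit 189))))))))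
noncomputable def xc49 : XT := (XT.nd (nat_lit 35334) (nat_lit 0) (nat_lit 2888) (XT.nd (nat_lit 780) (nat_lit 0) (nat_lit 0) (XT.nd (nat_lit 390) (nat_lit 0) (nat_lit 0) (XT.nd (nat_lit 156) (nat_lit 0) (nat_lit 0) (XT.nd (nat_lit 78) (nat_lit 0) (nat_lit 0) (XT.lf (nat_lit 0) (nat_lit 16990827268) (nat_lit 76) (nat_lit 2363810999) (nat_lit 152) (nat_lit 269536742238) (nat_lit 2) (nat_lit 5) (nat_lit 3) (nat_lit 5) (nat_lit 4) (nat_lit 4) (nat_lit 332) (nat_lit 260) (nat_lit 188)) (XT.lf (nat_lit 0) (nat_lit 33263346126) (nat_lit 152) (nat_lit 266379554076) (nat_lit 0) (nat_lit 11651157924) (nat_lit 2) (nat_lit 5) (nat_lit 4) (nat_lit 4) (nat_lit 2) (nat_lit 4) (nat_lit 333) (nat_lit 260) (nat_lit 187))) (XT.nd (nat_lit 78) (nat_lit 0) (nat_lit 0) (XT.lf (nat_lit 0) (nat_lit 48316759361) (nat_lit 152) (nat_lit 260471855733) (nat_lit 0) (nat_lit 26698736564) (nat_lit 2) (nat_lit 5) (nat_lit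 4) (nat_lit 4) (nat_lit 2) (nat_lit 4) (nat_lit 334) (nat_lit 260) (nat_lit 186)) (XT.nd (nat_lit 78) (nat_lit 0) (nat_lit 0) (XT.lf (nat_lit 0) (nat_lit 64567177671) (nat_lit 152) (nat_lit 254105543910) (nat_lit 0) (nat_lit 42943752470) (nat_lit 2) (nat_lit 5) (nat_lit 4) (nat_lit 4) (nat_lit 2) (nat_lit 4) (nat_lit 335) (nat_lit 260) (nat_lit 185)) (XT.lf (nat_lit 0) (nat_lit 82110899830) (nat_lit 152) (nat_lit 247242892317) (nat_lit 0) (nat_lit 60482472405) (nat_lit 2) (nat_lit 5) (nat_lit 4) (nat_lit 4) (nat_lit 2) (nat_lit 4) (nat_lit 336) (nat_lit 260) (nat_lit 184))))) (XT.nd (nat_lit 156) (nat_lit 0) (nat_lit 0) (XT.nd (nat_lit 78) (nat_lit 0) (nat_lit 0) (XT.lf (nat_lit 0) (nat_lit 101051888637) (nat_lit 152) (nat_lit 239843233388) (nat_lit 0) (nat_lit 79418829522) (nat_lit 2) (nat_lit 5) (nat_lit 4) (nat_lit 4) (nat_lit 2) (nat_lit 4) (nat_lit 337) (nat_lit 260) (nat_lit 183))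 (XT.lf (nat_lit 0) (nat_lit 121502386989) (nat_lit 152) (nat_lit 231862717292) (nat_lit 0) (nat_lit 99865039271) (nat_lit 2) (nat_lit 5) (nat_lit 4) (nat_lit 4) (nat_lit 2) (nat_lit 4) (nat_lit 338) (nat_lit 260) (nat_lit 182))) (XT.nd (nat_lit 78) (nat_lit 0) (nat_lit 0) (XT.lf (nat_lit 0) (nat_lit 143583583023) (nat_lit 152) (nat_lit 223254052081) (nat_lit 0) (nat_lit 121942264377) (nat_lit 2) (nat_lit 5) (nat_lit 4) (nat_lit 4) (nat_lit 2) (nat_lit 4) (nat_lit 339) (nat_lit 260) (nat_lit 181)) (XT.nd (nat_lit 78) (nat_lit 0) (nat_lit 0) (XT.lf (nat_lit 0) (nat_lit 167426328272) (nat_lit 152) (nat_lit 213966223445) (nat_lit 0) (nat_lit 145781332841) (nat_lit 2) (nat_lit 5) (nat_lit 4) (nat_lit 4) (nat_lit 2) (nat_lit 4) (nat_lit 340) (nat_lit 260) (nat_lit 180)) (XT.lf (nat_lit 0) (nat_lit 193171913077) (nat_lit 152) (nat_lit 203944192397) (nat_lit 0) (nat_lit 171523513216) (nat_lit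 2) (nat_lit 5) (nat_lit 4) (nat_lit 4) (nat_lit 2) (nat_lit 4) (nat_lit 341) (nat_lit 260) (nat_lit 179)))))) (XT.nd (nat_lit 390) (nat_lit 0) (nat_lit 0) (XT.nd (nat_lit 156) (nat_lit 0) (nat_lit 0) (XT.nd (nat_lit 78) (nat_lit 0) (nat_lit 0) (XT.lf (nat_lit 0) (nat_lit 220972903868) (nat_lit 152) (nat_lit 193128569125) (nat_lit 0) (nat_lit 199321351757) (nat_lit 2) (nat_lit 5) (nat_lit 4) (nat_lit 4) (nat_lit 2) (nat_lit 4) (nat_lit 342) (nat_lit 260) (nat_lit 178)) (XT.lf (nat_lit 0) (nat_lit 250994047257) (nat_lit 152) (nat_lit 181455261046) (nat_lit 0) (nat_lit 229339576395) (nat_lit 2) (nat_lit 5) (nat_lit 4) (nat_lit 4) (nat_lit 2) (nat_lit 4) (nat_lit 343) (nat_lit 260) (nat_lit 177))) (XT.nd (nat_lit 78) (nat_lit 0) (nat_lit 0) (XT.lf (nat_lit 0) (nat_lit 283413246315) (nat_lit 152) (nat_lit 168855093001) (nat_lit 0) (nat_lit 261756072907) (nat_lit 2) (nat_lit 5) (nat_lit 4) (nat_lit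 4) (nat_lit 2) (nat_lit 4) (nat_lit 344) (nat_lit 260) (nat_lit 176)) (XT.nd (nat_lit 78) (nat_lit 0) (nat_lit 0) (XT.lf (nat_lit 0) (nat_lit 318422614815) (nat_lit 152) (nat_lit 155253397328) (nat_lit 0) (nat_lit 296762939048) (nat_lit 2) (nat_lit 5) (nat_lit 4) (nat_lit 4) (nat_lit 2) (nat_lit 4) (nat_lit 345) (nat_lit 260) (nat_lit 175)) (XT.lf (nat_lit 0) (nat_lit 356229615680) (nat_lit 152) (nat_lit 140569571386) (nat_lit 0) (nat_lit 334567622916) (nat_lit 2) (nat_lit 5) (nat_lit 4) (nat_lit 4) (nat_lit 2) (nat_lit 4) (nat_lit 346) (nat_lit 260) (nat_lit 174))))) (XT.nd (nat_lit 33930) (nat_lit 0) (nat_lit 10184) (XT.nd (nat_lit 78) (nat_lit 0) (nat_lit 0) (XT.lf (nat_lit 0) (nat_lit 397058290399) (nat_lit 152) (nat_lit 124716599909) (nat_lit 0) (nat_lit 375394152265) (nat_lit 2) (nat_lit 5) (nat_lit 4) (nat_lit 4) (nat_lit 2) (nat_lit 4) (nat_lit 347) (nat_lit 260) (nat_lit 173))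 (XT.nd (nat_lit 78) (nat_lit 0) (nat_lit 0) (XT.lf (nat_lit 0) (nat_lit 441150586672) (nat_lit 152) (nat_lit 107600539363) (nat_lit 0) (nat_lit 419484462086) (nat_lit 2) (nat_lit 5) (nat_lit 4) (nat_lit 4) (nat_lit 2) (nat_lit 4) (nat_lit 348) (nat_lit 260) (nat_lit 172)) (XT.lf (nat_lit 0) (nat_lit 488767792181) (nat_lit 152) (nat_lit 89119961242) (nat_lit 0) (nat_lit 467099828288) (nat_lit 2) (nat_lit 5) (nat_lit 4) (nat_lit 4) (nat_lit 2) (nat_lit 4) (nat_lit 349) (nat_lit 260) (nat_lit 171)))) (XT.nd (nat_lit 78) (nat_lit 228) (nat_lit 0) (XT.lf (nat_lit 0) (nat_lit 1278978971) (nat_lit 228) (nat_lit 978107711) (nat_lit 228) (nat_lit 978107711) (nat_lit 139) (nat_lit 3) (nat_lit 142) (nat_lit 3) (nat_lit 142) (nat_lit 5) (nat_lit 261) (nat_lit 261) (nat_lit 258)) (XT.nd (nat_lit 78) (nat_lit 0) (nat_lit 0) (XT.lf (nat_lit 0) (nat_lit 268880132) (nat_lit 228) (nat_lit 3564502043) (nat_lit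 304) (nat_lit 2676808796) (nat_lit 136) (nat_lit 5) (nat_lit 139) (nat_lit 3) (nat_lit 140) (nat_lit 5) (nat_lit 262) (nat_lit 261) (nat_lit 257)) (XT.lf (nat_lit 76) (nat_lit 1502496040) (nat_lit 0) (nat_lit 2785251661) (nat_lit 304) (nat_lit 2281398159) (nat_lit 137) (nat_lit 5) (nat_lit 136) (nat_lit 5) (nat_lit 140) (nat_lit 5) (nat_lit 263) (nat_lit 261) (nat_lit 256))))))) (XT.nd (nat_lit 858) (nat_lit 2812) (nat_lit 0) (XT.nd (nat_lit 390) (nat_lit 2964) (nat_lit 0) (XT.nd (nat_lit 156) (nat_lit 1216) (nat_lit 0) (XT.nd (nat_lit 78) (nat_lit 0) (nat_lit 76) (XT.lf (nat_lit 76) (nat_lit 205699204) (nat_lit 0) (nat_lit 1392330390) (nat_lit 380) (nat_lit 5050942737) (nat_lit 133) (nat_lit 5) (nat_lit 132) (nat_lit 5) (nat_lit 137) (nat_lit 5) (nat_lit 264) (nat_lit 261) (nat_lit 255)) (XT.lf (nat_lit 0) (nat_lit 5428910749) (nat_lit 304) (nat_lit 944219773) (nat_lit 76) (nat_lit 375097825)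 (nat_lit 133) (nat_lit 5) (nat_lit 137) (nat_lit 5) (nat_lit 134) (nat_lit 5) (nat_lit 265) (nat_lit 261) (nat_lit 254))) (XT.nd (nat_lit 78) (nat_lit 912) (nat_lit 0) (XT.lf (nat_lit 0) (nat_lit 2375119271) (nat_lit 380) (nat_lit 2012749893) (nat_lit 76) (nat_lit 2478738047) (nat_lit 128) (nat_lit 5) (nat_lit 133) (nat_lit 5) (nat_lit 129) (nat_lit 5) (nat_lit 266) (nat_lit 261) (nat_lit 253)) (XT.nd (nat_lit 78) (nat_lit 532) (nat_lit 0) (XT.lf (nat_lit 0) (nat_lit 4026921836) (nat_lit 380) (nat_lit 2044105962) (nat_lit 456) (nat_lit 935528020) (nat_lit 123) (nat_lit 5) (nat_lit 128) (nat_lit 5) (nat_lit 129) (nat_lit 5) (nat_lit 267) (nat_lit 261) (nat_lit 252)) (XT.lf (nat_lit 0) (nat_lit 2596869813) (nat_lit 532) (nat_lit 3889505433) (nat_lit 76) (nat_lit 680505276) (nat_lit 116) (nat_lit 5) (nat_lit 123) (nat_lit 5) (nat_lit 117) (nat_lit 5) (nat_lit 268) (nat_lit 261) (nat_lit 251)))))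 (XT.nd (nat_lit 234) (nat_lit 1064) (nat_lit 0) (XT.nd (nat_lit 78) (nat_lit 1368) (nat_lit 0) (XT.lf (nat_lit 0) (nat_lit 2593593976) (nat_lit 532) (nat_lit 3621332357) (nat_lit 608) (nat_lit 1133189133) (nat_lit 109) (nat_lit 5) (nat_lit 116) (nat_lit 5) (nat_lit 117) (nat_lit 5) (nat_lit 269) (nat_lit 261) (nat_lit 250)) (XT.nd (nat_lit 78) (nat_lit 684) (nat_lit 0) (XT.lf (nat_lit 0) (nat_lit 1974074527) (nat_lit 608) (nat_lit 342309581) (nat_lit 684) (nat_lit 5235002572) (nat_lit 100) (nat_lit 5) (nat_lit 108) (nat_lit 5) (nat_lit 109) (nat_lit 5) (nat_lit 270) (nat_lit 261) (nat_lit 249)) (XT.lf (nat_lit 0) (nat_lit 1372332262) (nat_lit 684) (nat_lit 4524196353) (nat_lit 760) (nat_lit 1879272013) (nat_lit 91) (nat_lit 5) (nat_lit 100) (nat_lit 5) (nat_lit 101) (nat_lit 5) (nat_lit 271) (nat_lit 261) (nat_lit 248)))) (XT.nd (nat_lit 78) (nat_lit 456) (nat_lit 0) (XT.lf (nat_lit 0)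 (nat_lit 811946226) (nat_lit 532) (nat_lit 743768289) (nat_lit 608) (nat_lit 6468221896) (nat_lit 83) (nat_lit 5) (nat_lit 90) (nat_lit 5) (nat_lit 91) (nat_lit 5) (nat_lit 272) (nat_lit 261) (nat_lit 247)) (XT.nd (nat_lit 78) (nat_lit 76) (nat_lit 0) (XT.lf (nat_lit 0) (nat_lit 223497000) (nat_lit 380) (nat_lit 4910461543) (nat_lit 456) (nat_lit 3160138022) (nat_lit 78) (nat_lit 5) (nat_lit 83) (nat_lit 5) (nat_lit 84) (nat_lit 5) (nat_lit 273) (nat_lit 261) (nat_lit 246)) (XT.lf (nat_lit 0) (nat_lit 313812171) (nat_lit 456) (nat_lit 331390977) (nat_lit 76) (nat_lit 7945001217) (nat_lit 77) (nat_lit 5) (nat_lit 83) (nat_lit 5) (nat_lit 78) (nat_lit 5) (nat_lit 274) (nat_lit 261) (nat_lit 245)))))) (XT.nd (nat_lit 390) (nat_lit 1216) (nat_lit 0) (XT.nd (nat_lit 156) (nat_lit 988) (nat_lit 0) (XT.nd (nat_lit 78) (nat_lit 304) (nat_lit 0) (XT.lf (nat_lit 0) (nat_lit 3936890022) (nat_lit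 380) (nat_lit 970709244) (nat_lit 76) (nat_lit 4001065034) (nat_lit 73) (nat_lit 5) (nat_lit 78) (nat_lit 5) (nat_lit 74) (nat_lit 5) (nat_lit 275) (nat_lit 261) (nat_lit 244)) (XT.lf (nat_lit 0) (nat_lit 7637502662) (nat_lit 304) (nat_lit 151089047) (nat_lit 380) (nat_lit 1467394666) (nat_lit 69) (nat_lit 5) (nat_lit 73) (nat_lit 5) (nat_lit 74) (nat_lit 5) (nat_lit 276) (nat_lit 261) (nat_lit 243))) (XT.nd (nat_lit 78) (nat_lit 608) (nat_lit 0) (XT.lf (nat_lit 0) (nat_lit 2265366891) (nat_lit 380) (nat_lit 2397231595) (nat_lit 76) (nat_lit 4965862598) (nat_lit 64) (nat_lit 5) (nat_lit 69) (nat_lit 5) (nat_lit 65) (nat_lit 5) (nat_lit 277) (nat_lit 261) (nat_lit 242)) (XT.nd (nat_lit 78) (nat_lit 304) (nat_lit 0) (XT.lf (nat_lit 0) (nat_lit 6213194701) (nat_lit 380) (nat_lit 3254304623) (nat_lit 76) (nat_lit 563903615) (nat_lit 60) (nat_lit 5) (nat_lit 65) (nat_lit 5) (nat_lit 61) (nat_lit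 5) (nat_lit 278) (nat_lit 261) (nat_lit 241)) (XT.lf (nat_lit 0) (nat_lit 58707654) (nat_lit 304) (nat_lit 4258198930) (nat_lit 76) (nat_lit 6147460607) (nat_lit 56) (nat_lit 5) (nat_lit 60) (nat_lit 5) (nat_lit 57) (nat_lit 5) (nat_lit 279) (nat_lit 261) (nat_lit 240))))) (XT.nd (nat_lit 234) (nat_lit 456) (nat_lit 0) (XT.nd (nat_lit 78) (nat_lit 532) (nat_lit 0) (XT.lf (nat_lit 0) (nat_lit 4116140111) (nat_lit 304) (nat_lit 5445313026) (nat_lit 76) (nat_lit 1367395189) (nat_lit 53) (nat_lit 5) (nat_lit 57) (nat_lit 5) (nat_lit 54) (nat_lit 5) (nat_lit 280) (nat_lit 261) (nat_lit 239)) (XT.nd (nat_lit 78) (nat_lit 304) (nat_lit 0) (XT.lf (nat_lit 0) (nat_lit 4590208196) (nat_lit 228) (nat_lit 3972597823) (nat_lit 304) (nat_lit 2864650139) (nat_lit 50) (nat_lit 5) (nat_lit 53) (nat_lit 5) (nat_lit 54) (nat_lit 5) (nat_lit 281) (nat_lit 261) (nat_lit 238)) (XT.lf (nat_lit 0) (nat_lit 1390863209)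 (nat_lit 304) (nat_lit 8455711848) (nat_lit 76) (nat_lit 2116641971) (nat_lit 46) (nat_lit 5) (nat_lit 50) (nat_lit 5) (nat_lit 47) (nat_lit 5) (nat_lit 282) (nat_lit 261) (nat_lit 237)))) (XT.nd (nat_lit 78) (nat_lit 304) (nat_lit 0) (XT.lf (nat_lit 0) (nat_lit 2133408459) (nat_lit 152) (nat_lit 3833314769) (nat_lit 228) (nat_lit 6568917438) (nat_lit 44) (nat_lit 5) (nat_lit 46) (nat_lit 5) (nat_lit 47) (nat_lit 5) (nat_lit 283) (nat_lit 261) (nat_lit 236)) (XT.nd (nat_lit 78) (nat_lit 76) (nat_lit 0) (XT.lf (nat_lit 0) (nat_lit 494238925) (nat_lit 228) (nat_lit 10477474752) (nat_lit 304) (nat_lit 2179142754) (nat_lit 41) (nat_lit 5) (nat_lit 44) (nat_lit 5) (nat_lit 45) (nat_lit 5) (nat_lit 284) (nat_lit 261) (nat_lit 235)) (XT.lf (nat_lit 0) (nat_lit 2597510290) (nat_lit 304) (nat_lit 1478338753) (nat_lit 76) (nat_lit 9731689475) (nat_lit 40) (nat_lit 5) (nat_lit 44) (nat_lit 5) (nat_lit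 41) (nat_lit 5) (nat_lit 285) (nat_lit 261) (nat_lit 234))))))))
noncomputable def xc50 : XT := (XT.nd (nat_lit 1638) (nat_lit 608) (nat_lit 0) (XT.nd (nat_lit 780) (nat_lit 760) (nat_lit 0) (XT.nd (nat_lit 390) (nat_lit 684) (nat_lit 0) (XT.nd (nat_lit 156) (nat_lit 380) (nat_lit 0) (XT.nd (nat_lit 78) (nat_lit 152) (nat_lit 0) (XT.lf (nat_lit 0) (nat_lit 7773564274) (nat_lit 228) (nat_lit 3842662203) (nat_lit 76) (nat_lit 2894185304) (nat_lit 38) (nat_lit 5) (nat_lit 41) (nat_lit 5) (nat_lit 39) (nat_lit 5) (nat_lit 286) (nat_lit 261) (nat_lit 233)) (XT.lf (nat_lit 0) (nat_lit 8595406180) (nat_lit 152) (nat_lit 4881294383) (nat_lit 228) (nat_lit 1787278841) (nat_lit 36) (nat_lit 5) (nat_lit 38) (nat_lit 5) (nat_lit 39) (nat_lit 5) (nat_lit 287) (nat_lit 261) (nat_lit 232))) (XT.nd (nat_lit 78) (nat_lit 152) (nat_lit 0) (XT.lf (nat_lit 0) (nat_lit 3534700260) (nat_lit 228) (nat_lit 10060858583)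 (nat_lit 76) (nat_lit 2475080194) (nat_lit 33) (nat_lit 5) (nat_lit 36) (nat_lit 5) (nat_lit 34) (nat_lit 5) (nat_lit 288) (nat_lit 261) (nat_lit 231)) (XT.nd (nat_lit 78) (nat_lit 0) (nat_lit 0) (XT.lf (nat_lit 0) (nat_lit 2806629619) (nat_lit 152) (nat_lit 6550805158) (nat_lit 228) (nat_lit 7576144359) (nat_lit 31) (nat_lit 5) (nat_lit 33) (nat_lit 5) (nat_lit 34) (nat_lit 5) (nat_lit 289) (nat_lit 261) (nat_lit 230)) (XT.lf (nat_lit 0) (nat_lit 15737581668) (nat_lit 228) (nat_lit 983410953) (nat_lit 76) (nat_lit 1140068631) (nat_lit 31) (nat_lit 5) (nat_lit 34) (nat_lit 5) (nat_lit 32) (nat_lit 4) (nat_lit 290) (nat_lit 261) (nat_lit 229))))) (XT.nd (nat_lit 156) (nat_lit 304) (nat_lit 0) (XT.nd (nat_lit 78) (nat_lit 152) (nat_lit 0) (XT.lf (nat_lit 0) (nat_lit 3872290848) (nat_lit 228) (nat_lit 5542385192) (nat_lit 76) (nat_lit 9433832310) (nat_lit 28) (nat_lit 5) (nat_lit 31) (nat_lit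 5) (nat_lit 29) (nat_lit 5) (nat_lit 291) (nat_lit 261) (nat_lit 228)) (XT.lf (nat_lit 0) (nat_lit 8956719822) (nat_lit 152) (nat_lit 1382598707) (nat_lit 228) (nat_lit 9570663150) (nat_lit 26) (nat_lit 5) (nat_lit 28) (nat_lit 5) (nat_lit 29) (nat_lit 5) (nat_lit 292) (nat_lit 261) (nat_lit 227))) (XT.nd (nat_lit 78) (nat_lit 228) (nat_lit 0) (XT.lf (nat_lit 0) (nat_lit 3611738246) (nat_lit 76) (nat_lit 13891694995) (nat_lit 152) (nat_lit 3544018783) (nat_lit 25) (nat_lit 5) (nat_lit 26) (nat_lit 5) (nat_lit 27) (nat_lit 4) (nat_lit 293) (nat_lit 261) (nat_lit 226)) (XT.nd (nat_lit 78) (nat_lit 152) (nat_lit 0) (XT.lf (nat_lit 0) (nat_lit 3001341525) (nat_lit 152) (nat_lit 2752936379) (nat_lit 76) (nat_lit 16512811588) (nat_lit 24) (nat_lit 5) (nat_lit 26) (nat_lit 5) (nat_lit 25) (nat_lit 5) (nat_lit 294) (nat_lit 261) (nat_lit 225)) (XT.lf (nat_lit 0) (nat_lit 10127498680) (nat_lit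 228) (nat_lit 10290301413) (nat_lit 76) (nat_lit 3154579665) (nat_lit 22) (nat_lit 5) (nat_lit 25) (nat_lit 5) (nat_lit 23) (nat_lit 4) (nat_lit 295) (nat_lit 261) (nat_lit 224)))))) (XT.nd (nat_lit 390) (nat_lit 380) (nat_lit 0) (XT.nd (nat_lit 156) (nat_lit 228) (nat_lit 0) (XT.nd (nat_lit 78) (nat_lit 76) (nat_lit 0) (XT.lf (nat_lit 0) (nat_lit 5669050686) (nat_lit 76) (nat_lit 12312563264) (nat_lit 152) (nat_lit 6992635454) (nat_lit 21) (nat_lit 5) (nat_lit 22) (nat_lit 5) (nat_lit 23) (nat_lit 4) (nat_lit 296) (nat_lit 261) (nat_lit 223)) (XT.lf (nat_lit 0) (nat_lit 84777136) (nat_lit 152) (nat_lit 3339043949) (nat_lit 76) (nat_lit 23059099409) (nat_lit 20) (nat_lit 5) (nat_lit 22) (nat_lit 5) (nat_lit 21) (nat_lit 5) (nat_lit 297) (nat_lit 261) (nat_lit 222))) (XT.nd (nat_lit 78) (nat_lit 76) (nat_lit 0) (XT.lf (nat_lit 0) (nat_lit 7739762349) (nat_lit 228) (nat_lit 14081811024)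 (nat_lit 76) (nat_lit 6272202220) (nat_lit 18) (nat_lit 5) (nat_lit 21) (nat_lit 5) (nat_lit 19) (nat_lit 4) (nat_lit 298) (nat_lit 261) (nat_lit 221)) (XT.nd (nat_lit 78) (nat_lit 0) (nat_lit 0) (XT.lf (nat_lit 0) (nat_lit 2958218765) (nat_lit 76) (nat_lit 13145968850) (nat_lit 152) (nat_lit 13724496799) (nat_lit 17) (nat_lit 5) (nat_lit 18) (nat_lit 5) (nat_lit 19) (nat_lit 4) (nat_lit 299) (nat_lit 261) (nat_lit 220)) (XT.lf (nat_lit 0) (nat_lit 21751936875) (nat_lit 76) (nat_lit 3568265901) (nat_lit 152) (nat_lit 6373095978) (nat_lit 17) (nat_lit 5) (nat_lit 18) (nat_lit 5) (nat_lit 19) (nat_lit 4) (nat_lit 300) (nat_lit 261) (nat_lit 219))))) (XT.nd (nat_lit 234) (nat_lit 152) (nat_lit 0) (XT.nd (nat_lit 78) (nat_lit 76) (nat_lit 0) (XT.lf (nat_lit 0) (nat_lit 1697165240) (nat_lit 152) (nat_lit 25326763717) (nat_lit 76) (nat_lit 6672916820) (nat_lit 15) (nat_lit 5) (nat_lit 17) (nat_lit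 5) (nat_lit 16) (nat_lit 4) (nat_lit 301) (nat_lit 261) (nat_lit 218)) (XT.nd (nat_lit 78) (nat_lit 76) (nat_lit 0) (XT.lf (nat_lit 0) (nat_lit 10371837239) (nat_lit 152) (nat_lit 7624613164) (nat_lit 76) (nat_lit 17849926962) (nat_lit 15) (nat_lit 5) (nat_lit 17) (nat_lit 5) (nat_lit 16) (nat_lit 4) (nat_lit 302) (nat_lit 261) (nat_lit 217)) (XT.lf (nat_lit 0) (nat_lit 11774673307) (nat_lit 76) (nat_lit 8096782916) (nat_lit 152) (nat_lit 18289892758) (nat_lit 14) (nat_lit 5) (nat_lit 15) (nat_lit 5) (nat_lit 16) (nat_lit 4) (nat_lit 303) (nat_lit 261) (nat_lit 216)))) (XT.nd (nat_lit 78) (nat_lit 152) (nat_lit 0) (XT.lf (nat_lit 0) (nat_lit 30255526379) (nat_lit 152) (nat_lit 7793021758) (nat_lit 0) (nat_lit 2606770333) (nat_lit 14) (nat_lit 5) (nat_lit 16) (nat_lit 4) (nat_lit 14) (nat_lit 4) (nat_lit 304) (nat_lit 261) (nat_lit 215)) (XT.nd (nat_lit 78) (nat_lit 76) (nat_lit 0) (XT.lf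 (nat_lit 0) (nat_lit 12463824551) (nat_lit 76) (nat_lit 29290374465) (nat_lit 76) (nat_lit 1580435090) (nat_lit 13) (nat_lit 4) (nat_lit 14) (nat_lit 5) (nat_lit 14) (nat_lit 4) (nat_lit 305) (nat_lit 261) (nat_lit 214)) (XT.lf (nat_lit 0) (nat_lit 7782374152) (nat_lit 152) (nat_lit 11812723593) (nat_lit 76) (nat_lit 26622406439) (nat_lit 12) (nat_lit 5) (nat_lit 14) (nat_lit 5) (nat_lit 13) (nat_lit 4) (nat_lit 306) (nat_lit 261) (nat_lit 213))))))) (XT.nd (nat_lit 858) (nat_lit 228) (nat_lit 0) (XT.nd (nat_lit 390) (nat_lit 152) (nat_lit 0) (XT.nd (nat_lit 156) (nat_lit 152) (nat_lit 0) (XT.nd (nat_lit 78) (nat_lit 0) (nat_lit 0) (XT.lf (nat_lit 0) (nat_lit 8951665650) (nat_lit 76) (nat_lit 8985266593) (nat_lit 152) (nat_lit 31387889759) (nat_lit 11) (nat_lit 5) (nat_lit 12) (nat_lit 5) (nat_lit 13) (nat_lit 4) (nat_lit 307) (nat_lit 261) (nat_lit 212)) (XT.lf (nat_lit 0) (nat_lit 29110644861)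 (nat_lit 152) (nat_lit 20989698465) (nat_lit 0) (nat_lit 2570059385) (nat_lit 11) (nat_lit 5) (nat_lit 13) (nat_lit 4) (nat_lit 11) (nat_lit 4) (nat_lit 308) (nat_lit 261) (nat_lit 211))) (XT.nd (nat_lit 78) (nat_lit 152) (nat_lit 0) (XT.lf (nat_lit 0) (nat_lit 41291827898) (nat_lit 152) (nat_lit 277726659) (nat_lit 0) (nat_lit 14708412351) (nat_lit 11) (nat_lit 5) (nat_lit 13) (nat_lit 4) (nat_lit 11) (nat_lit 4) (nat_lit 309) (nat_lit 261) (nat_lit 210)) (XT.nd (nat_lit 78) (nat_lit 76) (nat_lit 0) (XT.lf (nat_lit 0) (nat_lit 22754053686) (nat_lit 76) (nat_lit 32013581809) (nat_lit 76) (nat_lit 5390508789) (nat_lit 10) (nat_lit 4) (nat_lit 11) (nat_lit 5) (nat_lit 11) (nat_lit 4) (nat_lit 310) (nat_lit 261) (nat_lit 209)) (XT.lf (nat_lit 0) (nat_lit 4784467192) (nat_lit 152) (nat_lit 16851635156) (nat_lit 76) (nat_lit 42710221623) (nat_lit 9) (nat_lit 5) (nat_lit 11) (nat_lit 5) (nat_lit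 10) (nat_lit 4) (nat_lit 311) (nat_lit 261) (nat_lit 208))))) (XT.nd (nat_lit 234) (nat_lit 76) (nat_lit 0) (XT.nd (nat_lit 78) (nat_lit 0) (nat_lit 0) (XT.lf (nat_lit 0) (nat_lit 5366900018) (nat_lit 76) (nat_lit 10272462328) (nat_lit 152) (nat_lit 53223050197) (nat_lit 8) (nat_lit 5) (nat_lit 9) (nat_lit 5) (nat_lit 10) (nat_lit 4) (nat_lit 312) (nat_lit 261) (nat_lit 207)) (XT.nd (nat_lit 78) (nat_lit 0) (nat_lit 0) (XT.lf (nat_lit 0) (nat_lit 27661740565) (nat_lit 152) (nat_lit 43854005559) (nat_lit 0) (nat_lit 2209098496) (nat_lit 8) (nat_lit 5) (nat_lit 10) (nat_lit 4) (nat_lit 8) (nat_lit 4) (nat_lit 313) (nat_lit 261) (nat_lit 206)) (XT.lf (nat_lit 0) (nat_lit 40790885252) (nat_lit 152) (nat_lit 22867665553) (nat_lit 0) (nat_lit 15310481824) (nat_lit 8) (nat_lit 5) (nat_lit 10) (nat_lit 4) (nat_lit 8) (nat_lit 4) (nat_lit 314) (nat_lit 261) (nat_lit 205)))) (XT.nd (nat_lit 78)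 (nat_lit 76) (nat_lit 0) (XT.lf (nat_lit 0) (nat_lit 54944216821) (nat_lit 152) (nat_lit 251747087) (nat_lit 0) (nat_lit 29438108432) (nat_lit 8) (nat_lit 5) (nat_lit 10) (nat_lit 4) (nat_lit 8) (nat_lit 4) (nat_lit 315) (nat_lit 261) (nat_lit 204)) (XT.nd (nat_lit 78) (nat_lit 0) (nat_lit 0) (XT.lf (nat_lit 0) (nat_lit 24925543141) (nat_lit 76) (nat_lit 45669221307) (nat_lit 76) (nat_lit 20139312027) (nat_lit 7) (nat_lit 4) (nat_lit 8) (nat_lit 5) (nat_lit 8) (nat_lit 4) (nat_lit 316) (nat_lit 261) (nat_lit 203)) (XT.lf (nat_lit 0) (nat_lit 52082316606) (nat_lit 76) (nat_lit 35396327571) (nat_lit 76) (nat_lit 9844380430) (nat_lit 7) (nat_lit 4) (nat_lit 8) (nat_lit 5) (nat_lit 8) (nat_lit 4) (nat_lit 317) (nat_lit 261) (nat_lit 202)))))) (XT.nd (nat_lit 390) (nat_lit 76) (nat_lit 0) (XT.nd (nat_lit 156) (nat_lit 0) (nat_lit 0) (XT.nd (nat_lit 78) (nat_lit 76) (nat_lit 0) (XT.lf (nat_lit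 0) (nat_lit 1211621148) (nat_lit 152) (nat_lit 23088529212) (nat_lit 76) (nat_lit 80139037900) (nat_lit 6) (nat_lit 5) (nat_lit 8) (nat_lit 5) (nat_lit 7) (nat_lit 4) (nat_lit 318) (nat_lit 261) (nat_lit 201)) (XT.lf (nat_lit 0) (nat_lit 652587263) (nat_lit 76) (nat_lit 12149282855) (nat_lit 152) (nat_lit 99314979001) (nat_lit 5) (nat_lit 5) (nat_lit 6) (nat_lit 5) (nat_lit 7) (nat_lit 4) (nat_lit 319) (nat_lit 261) (nat_lit 200))) (XT.nd (nat_lit 78) (nat_lit 0) (nat_lit 0) (XT.lf (nat_lit 0) (nat_lit 25723840158) (nat_lit 152) (nat_lit 93330100579) (nat_lit 0) (nat_lit 1334563161) (nat_lit 5) (nat_lit 5) (nat_lit 7) (nat_lit 4) (nat_lit 5) (nat_lit 4) (nat_lit 320) (nat_lit 261) (nat_lit 199)) (XT.nd (nat_lit 78) (nat_lit 0) (nat_lit 0) (XT.lf (nat_lit 0) (nat_lit 39866389091) (nat_lit 152) (nat_lit 73984481595) (nat_lit 0) (nat_lit 15461684965) (nat_lit 5) (nat_lit 5) (nat_lit 7) (nat_lit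 4) (nat_lit 5) (nat_lit 4) (nat_lit 321) (nat_lit 261) (nat_lit 198)) (XT.lf (nat_lit 0) (nat_lit 55123640262) (nat_lit 152) (nat_lit 53123079846) (nat_lit 0) (nat_lit 30704651757) (nat_lit 5) (nat_lit 5) (nat_lit 7) (nat_lit 4) (nat_lit 5) (nat_lit 4) (nat_lit 322) (nat_lit 261) (nat_lit 197))))) (XT.nd (nat_lit 234) (nat_lit 0) (nat_lit 0) (XT.nd (nat_lit 78) (nat_lit 76) (nat_lit 0) (XT.lf (nat_lit 0) (nat_lit 71586007011) (nat_lit 152) (nat_lit 30622272210) (nat_lit 0) (nat_lit 47153792229) (nat_lit 5) (nat_lit 5) (nat_lit 7) (nat_lit 4) (nat_lit 5) (nat_lit 4) (nat_lit 323) (nat_lit 261) (nat_lit 196)) (XT.nd (nat_lit 78) (nat_lit 76) (nat_lit 0) (XT.lf (nat_lit 0) (nat_lit 89351044105) (nat_lit 152) (nat_lit 6348720567) (nat_lit 0) (nat_lit 64906582770) (nat_lit 5) (nat_lit 5) (nat_lit 7) (nat_lit 4) (nat_lit 5) (nat_lit 4) (nat_lit 324) (nat_lit 261) (nat_lit 195)) (XT.lf (nat_lit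 0) (nat_lit 20497465246) (nat_lit 76) (nat_lit 88346583466) (nat_lit 76) (nat_lit 63890782730) (nat_lit 4) (nat_lit 4) (nat_lit 5) (nat_lit 5) (nat_lit 5) (nat_lit 4) (nat_lit 325) (nat_lit 261) (nat_lit 194)))) (XT.nd (nat_lit 78) (nat_lit 0) (nat_lit 0) (XT.lf (nat_lit 0) (nat_lit 49693859203) (nat_lit 76) (nat_lit 80300571080) (nat_lit 76) (nat_lit 55834270900) (nat_lit 4) (nat_lit 4) (nat_lit 5) (nat_lit 5) (nat_lit 5) (nat_lit 4) (nat_lit 326) (nat_lit 261) (nat_lit 193)) (XT.nd (nat_lit 78) (nat_lit 0) (nat_lit 0) (XT.lf (nat_lit 0) (nat_lit 81203559598) (nat_lit 76) (nat_lit 71621566097) (nat_lit 76) (nat_lit 47145544208) (nat_lit 4) (nat_lit 4) (nat_lit 5) (nat_lit 5) (nat_lit 5) (nat_lit 4) (nat_lit 327) (nat_lit 261) (nat_lit 192)) (XT.lf (nat_lit 0) (nat_lit 115213290580) (nat_lit 76) (nat_lit 62258137374) (nat_lit 76) (nat_lit 37773113903) (nat_lit 4) (nat_lit 4) (nat_lit 5)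 (nat_lit 5) (nat_lit 5) (nat_lit 4) (nat_lit 328) (nat_lit 261) (nat_lit 191))))))))
noncomputable def xc51 : XT := (XT.nd (nat_lit 35412) (nat_lit 0) (nat_lit 3344) (XT.nd (nat_lit 780) (nat_lit 0) (nat_lit 0) (XT.nd (nat_lit 390) (nat_lit 0) (nat_lit 0) (XT.nd (nat_lit 156) (nat_lit 152) (nat_lit 0) (XT.nd (nat_lit 78) (nat_lit 0) (nat_lit 0) (XT.lf (nat_lit 0) (nat_lit 151924591296) (nat_lit 76) (nat_lit 52154797928) (nat_lit 76) (nat_lit 27661439659) (nat_lit 4) (nat_lit 4) (nat_lit 5) (nat_lit 5) (nat_lit 5) (nat_lit 4) (nat_lit 329) (nat_lit 261) (nat_lit 190)) (XT.lf (nat_lit 0) (nat_lit 191555010196) (nat_lit 76) (nat_lit 41251676118) (nat_lit 76) (nat_lit 16750600443) (nat_lit 4) (nat_lit 4) (nat_lit 5) (nat_lit 5) (nat_lit 5) (nat_lit 4) (nat_lit 330) (nat_lit 261) (nat_lit 189))) (XT.nd (nat_lit 78) (nat_lit 152) (nat_lit 0) (XT.lf (nat_lit 0) (nat_lit 234339394205) (nat_lit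 76) (nat_lit 29484160850) (nat_lit 76) (nat_lit 4975939429) (nat_lit 4) (nat_lit 4) (nat_lit 5) (nat_lit 5) (nat_lit 5) (nat_lit 4) (nat_lit 331) (nat_lit 261) (nat_lit 188)) (XT.nd (nat_lit 78) (nat_lit 76) (nat_lit 0) (XT.lf (nat_lit 0) (nat_lit 7484836648) (nat_lit 152) (nat_lit 9170922722) (nat_lit 76) (nat_lit 272919684435) (nat_lit 3) (nat_lit 5) (nat_lit 5) (nat_lit 5) (nat_lit 4) (nat_lit 4) (nat_lit 332) (nat_lit 261) (nat_lit 187)) (XT.lf (nat_lit 0) (nat_lit 18639703174) (nat_lit 76) (nat_lit 2414280899) (nat_lit 152) (nat_lit 290941116402) (nat_lit 2) (nat_lit 5) (nat_lit 3) (nat_lit 5) (nat_lit 4) (nat_lit 4) (nat_lit 333) (nat_lit 261) (nat_lit 186))))) (XT.nd (nat_lit 156) (nat_lit 0) (nat_lit 0) (XT.nd (nat_lit 78) (nat_lit 0) (nat_lit 0) (XT.lf (nat_lit 0) (nat_lit 36066209395) (nat_lit 152) (nat_lit 287416737185) (nat_lit 0) (nat_lit 12707507775) (nat_lit 2) (nat_lit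 5) (nat_lit 4) (nat_lit 4) (nat_lit 2) (nat_lit 4) (nat_lit 334) (nat_lit 261) (nat_lit 185)) (XT.lf (nat_lit 0) (nat_lit 52313392313) (nat_lit 152) (nat_lit 281056658620) (nat_lit 0) (nat_lit 28949688468) (nat_lit 2) (nat_lit 5) (nat_lit 4) (nat_lit 4) (nat_lit 2) (nat_lit 4) (nat_lit 335) (nat_lit 261) (nat_lit 184))) (XT.nd (nat_lit 78) (nat_lit 0) (nat_lit 0) (XT.lf (nat_lit 0) (nat_lit 69854118739) (nat_lit 152) (nat_lit 274199778561) (nat_lit 0) (nat_lit 46485783204) (nat_lit 2) (nat_lit 5) (nat_lit 4) (nat_lit 4) (nat_lit 2) (nat_lit 4) (nat_lit 336) (nat_lit 261) (nat_lit 183)) (XT.nd (nat_lit 78) (nat_lit 0) (nat_lit 0) (XT.lf (nat_lit 0) (nat_lit 88792333719) (nat_lit 152) (nat_lit 266805463645) (nat_lit 0) (nat_lit 65419709582) (nat_lit 2) (nat_lit 5) (nat_lit 4) (nat_lit 4) (nat_lit 2) (nat_lit 4) (nat_lit 337) (nat_lit 261) (nat_lit 182)) (XT.lf (nat_lit 0) (nat_lit 109240263712)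 (nat_lit 152) (nat_lit 258829895709) (nat_lit 0) (nat_lit 85863668647) (nat_lit 2) (nat_lit 5) (nat_lit 4) (nat_lit 4) (nat_lit 2) (nat_lit 4) (nat_lit 338) (nat_lit 261) (nat_lit 181)))))) (XT.nd (nat_lit 390) (nat_lit 0) (nat_lit 0) (XT.nd (nat_lit 156) (nat_lit 0) (nat_lit 0) (XT.nd (nat_lit 78) (nat_lit 0) (nat_lit 0) (XT.lf (nat_lit 0) (nat_lit 131319081637) (nat_lit 152) (nat_lit 250225812129) (nat_lit 0) (nat_lit 107938809787) (nat_lit 2) (nat_lit 5) (nat_lit 4) (nat_lit 4) (nat_lit 2) (nat_lit 4) (nat_lit 339) (nat_lit 261) (nat_lit 180)) (XT.lf (nat_lit 0) (nat_lit 155159624932) (nat_lit 152) (nat_lit 240942225742) (nat_lit 0) (nat_lit 131775948652) (nat_lit 2) (nat_lit 5) (nat_lit 4) (nat_lit 4) (nat_lit 2) (nat_lit 4) (nat_lit 340) (nat_lit 261) (nat_lit 179))) (XT.nd (nat_lit 78) (nat_lit 0) (nat_lit 0) (XT.lf (nat_lit 0) (nat_lit 180903170892) (nat_lit 152) (nat_lit 230924122704)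 (nat_lit 0) (nat_lit 157516342361) (nat_lit 2) (nat_lit 5) (nat_lit 4) (nat_lit 4) (nat_lit 2) (nat_lit 4) (nat_lit 341) (nat_lit 261) (nat_lit 178)) (XT.nd (nat_lit 78) (nat_lit 0) (nat_lit 0) (XT.lf (nat_lit 0) (nat_lit 208702273863) (nat_lit 152) (nat_lit 220112136478) (nat_lit 0) (nat_lit 185312526582) (nat_lit 2) (nat_lit 5) (nat_lit 4) (nat_lit 4) (nat_lit 2) (nat_lit 4) (nat_lit 342) (nat_lit 261) (nat_lit 177)) (XT.lf (nat_lit 0) (nat_lit 238721669270) (nat_lit 152) (nat_lit 208442196033) (nat_lit 0) (nat_lit 215329219442) (nat_lit 2) (nat_lit 5) (nat_lit 4) (nat_lit 4) (nat_lit 2) (nat_lit 4) (nat_lit 343) (nat_lit 261) (nat_lit 176))))) (XT.nd (nat_lit 234) (nat_lit 0) (nat_lit 0) (XT.nd (nat_lit 78) (nat_lit 0) (nat_lit 0) (XT.lf (nat_lit 0) (nat_lit 271139249827) (nat_lit 152) (nat_lit 195845146169) (nat_lit 0) (nat_lit 247744297641) (nat_lit 2) (nat_lit 5) (nat_lit 4) (nat_lit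 4) (nat_lit 2) (nat_lit 4) (nat_lit 344) (nat_lit 261) (nat_lit 175)) (XT.nd (nat_lit 78) (nat_lit 0) (nat_lit 0) (XT.lf (nat_lit 0) (nat_lit 306147119714) (nat_lit 152) (nat_lit 182246337700) (nat_lit 0) (nat_lit 282749850530) (nat_lit 2) (nat_lit 5) (nat_lit 4) (nat_lit 4) (nat_lit 2) (nat_lit 4) (nat_lit 345) (nat_lit 261) (nat_lit 174)) (XT.lf (nat_lit 0) (nat_lit 343952732975) (nat_lit 152) (nat_lit 167565185095) (nat_lit 0) (nat_lit 320553318423) (nat_lit 2) (nat_lit 5) (nat_lit 4) (nat_lit 4) (nat_lit 2) (nat_lit 4) (nat_lit 346) (nat_lit 261) (nat_lit 173)))) (XT.nd (nat_lit 78) (nat_lit 0) (nat_lit 0) (XT.lf (nat_lit 0) (nat_lit 384780122875) (nat_lit 152) (nat_lit 151714688930) (nat_lit 0) (nat_lit 361378721870) (nat_lit 2) (nat_lit 5) (nat_lit 4) (nat_lit 4) (nat_lit 2) (nat_lit 4) (nat_lit 347) (nat_lit 261) (nat_lit 172)) (XT.nd (nat_lit 78) (nat_lit 0) (nat_lit 0) (XT.lf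 (nat_lit 0) (nat_lit 428871229501) (nat_lit 152) (nat_lit 134600920340) (nat_lit 0) (nat_lit 405467989188) (nat_lit 2) (nat_lit 5) (nat_lit 4) (nat_lit 4) (nat_lit 2) (nat_lit 4) (nat_lit 348) (nat_lit 261) (nat_lit 171)) (XT.lf (nat_lit 0) (nat_lit 476487333486) (nat_lit 152) (nat_lit 116122464400) (nat_lit 0) (nat_lit 453082390110) (nat_lit 2) (nat_lit 5) (nat_lit 4) (nat_lit 4) (nat_lit 2) (nat_lit 4) (nat_lit 349) (nat_lit 261) (nat_lit 170))))))) (XT.nd (nat_lit 858) (nat_lit 3344) (nat_lit 0) (XT.nd (nat_lit 390) (nat_lit 2812) (nat_lit 0) (XT.nd (nat_lit 156) (nat_lit 304) (nat_lit 0) (XT.nd (nat_lit 78) (nat_lit 380) (nat_lit 0) (XT.lf (nat_lit 0) (nat_lit 1024330831) (nat_lit 0) (nat_lit 1024330831) (nat_lit 228) (nat_lit 1230783005) (nat_lit 136) (nat_lit 5) (nat_lit 136) (nat_lit 3) (nat_lit 139) (nat_lit 3) (nat_lit 262) (nat_lit 262) (nat_lit 256)) (XT.lf (nat_lit 76) (nat_lit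 415721059) (nat_lit 0) (nat_lit 807608178) (nat_lit 380) (nat_lit 5405199339) (nat_lit 132) (nat_lit 5) (nat_lit 131) (nat_lit 3) (nat_lit 136) (nat_lit 5) (nat_lit 263) (nat_lit 262) (nat_lit 255))) (XT.nd (nat_lit 78) (nat_lit 380) (nat_lit 0) (XT.lf (nat_lit 0) (nat_lit 4835972103) (nat_lit 304) (nat_lit 1077398491) (nat_lit 380) (nat_lit 803355663) (nat_lit 132) (nat_lit 5) (nat_lit 136) (nat_lit 5) (nat_lit 137) (nat_lit 5) (nat_lit 264) (nat_lit 262) (nat_lit 254)) (XT.nd (nat_lit 78) (nat_lit 0) (nat_lit 0) (XT.lf (nat_lit 0) (nat_lit 1598309709) (nat_lit 380) (nat_lit 2462722224) (nat_lit 456) (nat_lit 2763580618) (nat_lit 127) (nat_lit 5) (nat_lit 132) (nat_lit 5) (nat_lit 133) (nat_lit 5) (nat_lit 265) (nat_lit 262) (nat_lit 253)) (XT.lf (nat_lit 76) (nat_lit 3195521883) (nat_lit 0) (nat_lit 1837667023) (nat_lit 456) (nat_lit 1920017911) (nat_lit 128) (nat_lit 5) (nat_lit 127)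 (nat_lit 5) (nat_lit 133) (nat_lit 5) (nat_lit 266) (nat_lit 262) (nat_lit 252))))) (XT.nd (nat_lit 234) (nat_lit 1368) (nat_lit 0) (XT.nd (nat_lit 78) (nat_lit 1064) (nat_lit 0) (XT.lf (nat_lit 0) (nat_lit 1375792683) (nat_lit 456) (nat_lit 4980185254) (nat_lit 76) (nat_lit 746623850) (nat_lit 122) (nat_lit 5) (nat_lit 128) (nat_lit 5) (nat_lit 123) (nat_lit 5) (nat_lit 267) (nat_lit 262) (nat_lit 251)) (XT.nd (nat_lit 78) (nat_lit 608) (nat_lit 0) (XT.lf (nat_lit 0) (nat_lit 1098520879) (nat_lit 456) (nat_lit 3595208296) (nat_lit 532) (nat_lit 2578002191) (nat_lit 116) (nat_lit 5) (nat_lit 122) (nat_lit 5) (nat_lit 123) (nat_lit 5) (nat_lit 268) (nat_lit 262) (nat_lit 250)) (XT.lf (nat_lit 0) (nat_lit 163420538) (nat_lit 532) (nat_lit 447019665) (nat_lit 608) (nat_lit 6853172971) (nat_lit 108) (nat_lit 5) (nat_lit 115) (nat_lit 5) (nat_lit 116) (nat_lit 5) (nat_lit 269) (nat_lit 262)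 (nat_lit 249)))) (XT.nd (nat_lit 78) (nat_lit 1368) (nat_lit 0) (XT.lf (nat_lit 0) (nat_lit 3861590767) (nat_lit 608) (nat_lit 753002779) (nat_lit 76) (nat_lit 3059766417) (nat_lit 108) (nat_lit 5) (nat_lit 116) (nat_lit 5) (nat_lit 109) (nat_lit 5) (nat_lit 270) (nat_lit 262) (nat_lit 248)) (XT.nd (nat_lit 78) (nat_lit 760) (nat_lit 0) (XT.lf (nat_lit 0) (nat_lit 6305172492) (nat_lit 608) (nat_lit 934144266) (nat_lit 684) (nat_lit 669811885) (nat_lit 100) (nat_lit 5) (nat_lit 108) (nat_lit 5) (nat_lit 109) (nat_lit 5) (nat_lit 271) (nat_lit 262) (nat_lit 247)) (XT.lf (nat_lit 0) (nat_lit 2561375156) (nat_lit 760) (nat_lit 2490137430) (nat_lit 76) (nat_lit 3113268326) (nat_lit 90) (nat_lit 5) (nat_lit 100) (nat_lit 5) (nat_lit 91) (nat_lit 5) (nat_lit 272) (nat_lit 262) (nat_lit 246)))))) (XT.nd (nat_lit 390) (nat_lit 1368) (nat_lit 0) (XT.nd (nat_lit 156) (nat_lit 988) (nat_lit 0) (XT.nd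 (nat_lit 78) (nat_lit 456) (nat_lit 0) (XT.lf (nat_lit 0) (nat_lit 5079867942) (nat_lit 532) (nat_lit 856691048) (nat_lit 608) (nat_lit 2508725992) (nat_lit 83) (nat_lit 5) (nat_lit 90) (nat_lit 5) (nat_lit 91) (nat_lit 5) (nat_lit 273) (nat_lit 262) (nat_lit 245)) (XT.lf (nat_lit 0) (nat_lit 775310738) (nat_lit 456) (nat_lit 4289170482) (nat_lit 76) (nat_lit 3685024603) (nat_lit 77) (nat_lit 5) (nat_lit 83) (nat_lit 5) (nat_lit 78) (nat_lit 5) (nat_lit 274) (nat_lit 262) (nat_lit 244))) (XT.nd (nat_lit 78) (nat_lit 684) (nat_lit 0) (XT.lf (nat_lit 0) (nat_lit 3813975586) (nat_lit 304) (nat_lit 361362589) (nat_lit 380) (nat_lit 4903935981) (nat_lit 73) (nat_lit 5) (nat_lit 77) (nat_lit 5) (nat_lit 78) (nat_lit 5) (nat_lit 275) (nat_lit 262) (nat_lit 243)) (XT.nd (nat_lit 78) (nat_lit 380) (nat_lit 0) (XT.lf (nat_lit 0) (nat_lit 3103574105) (nat_lit 304) (nat_lit 4759246406) (nat_lit 380)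 (nat_lit 1572131018) (nat_lit 69) (nat_lit 5) (nat_lit 73) (nat_lit 5) (nat_lit 74) (nat_lit 5) (nat_lit 276) (nat_lit 262) (nat_lit 242)) (XT.lf (nat_lit 0) (nat_lit 1928675859) (nat_lit 380) (nat_lit 7479761008) (nat_lit 76) (nat_lit 410963754) (nat_lit 64) (nat_lit 5) (nat_lit 69) (nat_lit 5) (nat_lit 65) (nat_lit 5) (nat_lit 277) (nat_lit 262) (nat_lit 241))))) (XT.nd (nat_lit 234) (nat_lit 760) (nat_lit 0) (XT.nd (nat_lit 78) (nat_lit 304) (nat_lit 0) (XT.lf (nat_lit 0) (nat_lit 1434800505) (nat_lit 304) (nat_lit 4269328292) (nat_lit 380) (nat_lit 4526950270) (nat_lit 60) (nat_lit 5) (nat_lit 64) (nat_lit 5) (nat_lit 65) (nat_lit 5) (nat_lit 278) (nat_lit 262) (nat_lit 240)) (XT.nd (nat_lit 78) (nat_lit 76) (nat_lit 0) (XT.lf (nat_lit 0) (nat_lit 450236864) (nat_lit 228) (nat_lit 9333653142) (nat_lit 304) (nat_lit 891915148) (nat_lit 57) (nat_lit 5) (nat_lit 60) (nat_lit 5) (nat_lit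 61) (nat_lit 5) (nat_lit 279) (nat_lit 262) (nat_lit 239)) (XT.lf (nat_lit 0) (nat_lit 3013340166) (nat_lit 304) (nat_lit 718619232) (nat_lit 76) (nat_lit 7418155580) (nat_lit 56) (nat_lit 5) (nat_lit 60) (nat_lit 5) (nat_lit 57) (nat_lit 5) (nat_lit 280) (nat_lit 262) (nat_lit 238)))) (XT.nd (nat_lit 78) (nat_lit 532) (nat_lit 0) (XT.lf (nat_lit 0) (nat_lit 7249200678) (nat_lit 304) (nat_lit 2040647351) (nat_lit 76) (nat_lit 2369504148) (nat_lit 53) (nat_lit 5) (nat_lit 57) (nat_lit 5) (nat_lit 54) (nat_lit 5) (nat_lit 281) (nat_lit 262) (nat_lit 237)) (XT.nd (nat_lit 78) (nat_lit 304) (nat_lit 0) (XT.lf (nat_lit 0) (nat_lit 8630821214) (nat_lit 228) (nat_lit 3270444036) (nat_lit 304) (nat_lit 304367933) (nat_lit 50) (nat_lit 5) (nat_lit 53) (nat_lit 5) (nat_lit 54) (nat_lit 5) (nat_lit 282) (nat_lit 262) (nat_lit 236)) (XT.lf (nat_lit 0) (nat_lit 4074862044) (nat_lit 304) (nat_lit 5415519728)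 (nat_lit 76) (nat_lit 3298303985) (nat_lit 46) (nat_lit 5) (nat_lit 50) (nat_lit 5) (nat_lit 47) (nat_lit 5) (nat_lit 283) (nat_lit 262) (nat_lit 235))))))))
noncomputable def xc52 : XT := (XT.nd (nat_lit 1638) (nat_lit 760) (nat_lit 0) (XT.nd (nat_lit 780) (nat_lit 912) (nat_lit 0) (XT.nd (nat_lit 390) (nat_lit 684) (nat_lit 0) (XT.nd (nat_lit 156) (nat_lit 380) (nat_lit 0) (XT.nd (nat_lit 78) (nat_lit 304) (nat_lit 0) (XT.lf (nat_lit 0) (nat_lit 5859209164) (nat_lit 152) (nat_lit 3022514637) (nat_lit 228) (nat_lit 4532151517) (nat_lit 44) (nat_lit 5) (nat_lit 46) (nat_lit 5) (nat_lit 47) (nat_lit 5) (nat_lit 284) (nat_lit 262) (nat_lit 234)) (XT.lf (nat_lit 0) (nat_lit 90408014) (nat_lit 304) (nat_lit 10048538085) (nat_lit 76) (nat_lit 3944977783) (nat_lit 40) (nat_lit 5) (nat_lit 44) (nat_lit 5) (nat_lit 41) (nat_lit 5) (nat_lit 285) (nat_lit 262) (nat_lit 233))) (XT.nd (nat_lit 78)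 (nat_lit 228) (nat_lit 0) (XT.lf (nat_lit 0) (nat_lit 1778717257) (nat_lit 152) (nat_lit 3247472320) (nat_lit 228) (nat_lit 9772676189) (nat_lit 38) (nat_lit 5) (nat_lit 40) (nat_lit 5) (nat_lit 41) (nat_lit 5) (nat_lit 286) (nat_lit 262) (nat_lit 232)) (XT.nd (nat_lit 78) (nat_lit 228) (nat_lit 0) (XT.lf (nat_lit 0) (nat_lit 10492742421) (nat_lit 228) (nat_lit 886898091) (nat_lit 76) (nat_lit 4184672976) (nat_lit 38) (nat_lit 5) (nat_lit 41) (nat_lit 5) (nat_lit 39) (nat_lit 5) (nat_lit 287) (nat_lit 262) (nat_lit 231)) (XT.lf (nat_lit 0) (nat_lit 156676674) (nat_lit 228) (nat_lit 3981775674) (nat_lit 76) (nat_lit 12245071993) (nat_lit 35) (nat_lit 5) (nat_lit 38) (nat_lit 5) (nat_lit 36) (nat_lit 5) (nat_lit 288) (nat_lit 262) (nat_lit 230))))) (XT.nd (nat_lit 156) (nat_lit 380) (nat_lit 0) (XT.nd (nat_lit 78) (nat_lit 152) (nat_lit 0) (XT.lf (nat_lit 0) (nat_lit 5757887063) (nat_lit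 228) (nat_lit 7734016180) (nat_lit 76) (nat_lit 3765678985) (nat_lit 33) (nat_lit 5) (nat_lit 36) (nat_lit 5) (nat_lit 34) (nat_lit 5) (nat_lit 289) (nat_lit 262) (nat_lit 229)) (XT.lf (nat_lit 0) (nat_lit 6026770731) (nat_lit 152) (nat_lit 5922705357) (nat_lit 228) (nat_lit 6245054652) (nat_lit 31) (nat_lit 5) (nat_lit 33) (nat_lit 5) (nat_lit 34) (nat_lit 5) (nat_lit 290) (nat_lit 262) (nat_lit 228))) (XT.nd (nat_lit 78) (nat_lit 228) (nat_lit 0) (XT.lf (nat_lit 0) (nat_lit 1840678409) (nat_lit 152) (nat_lit 16908198904) (nat_lit 228) (nat_lit 452007716) (nat_lit 29) (nat_lit 5) (nat_lit 31) (nat_lit 5) (nat_lit 32) (nat_lit 4) (nat_lit 291) (nat_lit 262) (nat_lit 227)) (XT.nd (nat_lit 78) (nat_lit 152) (nat_lit 0) (XT.lf (nat_lit 0) (nat_lit 5848580355) (nat_lit 228) (nat_lit 3209139243) (nat_lit 76) (nat_lit 11214068387) (nat_lit 28) (nat_lit 5) (nat_lit 31) (nat_lit 5) (nat_lit 29)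 (nat_lit 5) (nat_lit 292) (nat_lit 262) (nat_lit 226)) (XT.lf (nat_lit 0) (nat_lit 12329224922) (nat_lit 152) (nat_lit 421767518) (nat_lit 228) (nat_lit 8671380128) (nat_lit 26) (nat_lit 5) (nat_lit 28) (nat_lit 5) (nat_lit 29) (nat_lit 5) (nat_lit 293) (nat_lit 262) (nat_lit 225)))))) (XT.nd (nat_lit 390) (nat_lit 456) (nat_lit 0) (XT.nd (nat_lit 156) (nat_lit 304) (nat_lit 0) (XT.nd (nat_lit 78) (nat_lit 76) (nat_lit 0) (XT.lf (nat_lit 0) (nat_lit 6502131753) (nat_lit 76) (nat_lit 13924837137) (nat_lit 152) (nat_lit 2227022520) (nat_lit 25) (nat_lit 5) (nat_lit 26) (nat_lit 5) (nat_lit 27) (nat_lit 4) (nat_lit 294) (nat_lit 262) (nat_lit 224)) (XT.lf (nat_lit 0) (nat_lit 4675977737) (nat_lit 152) (nat_lit 516020683) (nat_lit 76) (nat_lit 18783767303) (nat_lit 24) (nat_lit 5) (nat_lit 26) (nat_lit 5) (nat_lit 25) (nat_lit 5) (nat_lit 295) (nat_lit 262) (nat_lit 223))) (XT.nd (nat_lit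 78) (nat_lit 152) (nat_lit 0) (XT.lf (nat_lit 0) (nat_lit 12318046758) (nat_lit 228) (nat_lit 8709403381) (nat_lit 76) (nat_lit 4360809550) (nat_lit 22) (nat_lit 5) (nat_lit 25) (nat_lit 5) (nat_lit 23) (nat_lit 4) (nat_lit 296) (nat_lit 262) (nat_lit 222)) (XT.nd (nat_lit 78) (nat_lit 76) (nat_lit 0) (XT.lf (nat_lit 0) (nat_lit 8422216668) (nat_lit 76) (nat_lit 12311930424) (nat_lit 152) (nat_lit 6171515174) (nat_lit 21) (nat_lit 5) (nat_lit 22) (nat_lit 5) (nat_lit 23) (nat_lit 4) (nat_lit 297) (nat_lit 262) (nat_lit 221)) (XT.lf (nat_lit 0) (nat_lit 1328916251) (nat_lit 152) (nat_lit 1435227596) (nat_lit 76) (nat_lit 25774813260) (nat_lit 20) (nat_lit 5) (nat_lit 22) (nat_lit 5) (nat_lit 21) (nat_lit 5) (nat_lit 298) (nat_lit 262) (nat_lit 220))))) (XT.nd (nat_lit 234) (nat_lit 228) (nat_lit 0) (XT.nd (nat_lit 78) (nat_lit 76) (nat_lit 0) (XT.lf (nat_lit 0) (nat_lit 9551093307) (nat_lit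 228) (nat_lit 13086208809) (nat_lit 76) (nat_lit 7643692859) (nat_lit 18) (nat_lit 5) (nat_lit 21) (nat_lit 5) (nat_lit 19) (nat_lit 4) (nat_lit 299) (nat_lit 262) (nat_lit 219)) (XT.nd (nat_lit 78) (nat_lit 0) (nat_lit 0) (XT.lf (nat_lit 0) (nat_lit 5224797437) (nat_lit 76) (nat_lit 13303260511) (nat_lit 152) (nat_lit 13629519299) (nat_lit 17) (nat_lit 5) (nat_lit 18) (nat_lit 5) (nat_lit 19) (nat_lit 4) (nat_lit 300) (nat_lit 262) (nat_lit 218)) (XT.lf (nat_lit 0) (nat_lit 25371648464) (nat_lit 76) (nat_lit 3025592129) (nat_lit 152) (nat_lit 5778372134) (nat_lit 17) (nat_lit 5) (nat_lit 18) (nat_lit 5) (nat_lit 19) (nat_lit 4) (nat_lit 301) (nat_lit 262) (nat_lit 217)))) (XT.nd (nat_lit 78) (nat_lit 76) (nat_lit 0) (XT.lf (nat_lit 0) (nat_lit 2864263976) (nat_lit 152) (nat_lit 25481948203) (nat_lit 76) (nat_lit 7994304538) (nat_lit 15) (nat_lit 5) (nat_lit 17) (nat_lit 5) (nat_lit 16)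 (nat_lit 4) (nat_lit 302) (nat_lit 262) (nat_lit 216)) (XT.nd (nat_lit 78) (nat_lit 76) (nat_lit 0) (XT.lf (nat_lit 0) (nat_lit 12156515252) (nat_lit 152) (nat_lit 6502214985) (nat_lit 76) (nat_lit 20007138130) (nat_lit 15) (nat_lit 5) (nat_lit 17) (nat_lit 5) (nat_lit 16) (nat_lit 4) (nat_lit 303) (nat_lit 262) (nat_lit 215)) (XT.lf (nat_lit 0) (nat_lit 14373727835) (nat_lit 76) (nat_lit 7997511961) (nat_lit 152) (nat_lit 18797076124) (nat_lit 14) (nat_lit 5) (nat_lit 15) (nat_lit 5) (nat_lit 16) (nat_lit 4) (nat_lit 304) (nat_lit 262) (nat_lit 214))))))) (XT.nd (nat_lit 858) (nat_lit 304) (nat_lit 0) (XT.nd (nat_lit 390) (nat_lit 228) (nat_lit 0) (XT.nd (nat_lit 156) (nat_lit 152) (nat_lit 0) (XT.nd (nat_lit 78) (nat_lit 76) (nat_lit 0) (XT.lf (nat_lit 0) (nat_lit 33529422240) (nat_lit 152) (nat_lit 6850390658) (nat_lit 0) (nat_lit 3484853153) (nat_lit 14) (nat_lit 5) (nat_lit 16) (nat_lit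 4) (nat_lit 14) (nat_lit 4) (nat_lit 305) (nat_lit 262) (nat_lit 213)) (XT.lf (nat_lit 0) (nat_lit 14958943739) (nat_lit 76) (nat_lit 30949214338) (nat_lit 76) (nat_lit 852190408) (nat_lit 13) (nat_lit 4) (nat_lit 14) (nat_lit 5) (nat_lit 14) (nat_lit 4) (nat_lit 306) (nat_lit 262) (nat_lit 212))) (XT.nd (nat_lit 78) (nat_lit 76) (nat_lit 0) (XT.lf (nat_lit 0) (nat_lit 9171005203) (nat_lit 152) (nat_lit 11345032562) (nat_lit 76) (nat_lit 29360233839) (nat_lit 12) (nat_lit 5) (nat_lit 14) (nat_lit 5) (nat_lit 13) (nat_lit 4) (nat_lit 307) (nat_lit 262) (nat_lit 211)) (XT.nd (nat_lit 78) (nat_lit 0) (nat_lit 0) (XT.lf (nat_lit 0) (nat_lit 11019113212) (nat_lit 76) (nat_lit 9083168746) (nat_lit 152) (nat_lit 33131699697) (nat_lit 11) (nat_lit 5) (nat_lit 12) (nat_lit 5) (nat_lit 13) (nat_lit 4) (nat_lit 308) (nat_lit 262) (nat_lit 210)) (XT.lf (nat_lit 0) (nat_lit 32124764435) (nat_lit 152)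 (nat_lit 21392535334) (nat_lit 0) (nat_lit 3332188101) (nat_lit 11) (nat_lit 5) (nat_lit 13) (nat_lit 4) (nat_lit 11) (nat_lit 4) (nat_lit 309) (nat_lit 262) (nat_lit 209))))) (XT.nd (nat_lit 234) (nat_lit 76) (nat_lit 0) (XT.nd (nat_lit 78) (nat_lit 76) (nat_lit 0) (XT.lf (nat_lit 0) (nat_lit 911008547) (nat_lit 76) (nat_lit 44332896372) (nat_lit 76) (nat_lit 15503600156) (nat_lit 10) (nat_lit 4) (nat_lit 11) (nat_lit 5) (nat_lit 11) (nat_lit 4) (nat_lit 310) (nat_lit 262) (nat_lit 208)) (XT.nd (nat_lit 78) (nat_lit 76) (nat_lit 0) (XT.lf (nat_lit 0) (nat_lit 25704813971) (nat_lit 76) (nat_lit 34049388483) (nat_lit 76) (nat_lit 5186092376) (nat_lit 10) (nat_lit 4) (nat_lit 11) (nat_lit 5) (nat_lit 11) (nat_lit 4) (nat_lit 311) (nat_lit 262) (nat_lit 207)) (XT.lf (nat_lit 0) (nat_lit 5736958011) (nat_lit 152) (nat_lit 17134013563) (nat_lit 76) (nat_lit 46594357190) (nat_lit 9) (nat_lit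 5) (nat_lit 11) (nat_lit 5) (nat_lit 10) (nat_lit 4) (nat_lit 312) (nat_lit 262) (nat_lit 206)))) (XT.nd (nat_lit 78) (nat_lit 0) (nat_lit 0) (XT.lf (nat_lit 0) (nat_lit 6815688125) (nat_lit 76) (nat_lit 10618270430) (nat_lit 152) (nat_lit 56910076063) (nat_lit 8) (nat_lit 5) (nat_lit 9) (nat_lit 5) (nat_lit 10) (nat_lit 4) (nat_lit 313) (nat_lit 262) (nat_lit 205)) (XT.nd (nat_lit 78) (nat_lit 0) (nat_lit 0) (XT.lf (nat_lit 0) (nat_lit 30384752719) (nat_lit 152) (nat_lit 46399941268) (nat_lit 0) (nat_lit 2812450697) (nat_lit 8) (nat_lit 5) (nat_lit 10) (nat_lit 4) (nat_lit 8) (nat_lit 4) (nat_lit 314) (nat_lit 262) (nat_lit 204)) (XT.lf (nat_lit 0) (nat_lit 44526445802) (nat_lit 152) (nat_lit 23805981820) (nat_lit 0) (nat_lit 16930342891) (nat_lit 8) (nat_lit 5) (nat_lit 10) (nat_lit 4) (nat_lit 8) (nat_lit 4) (nat_lit 315) (nat_lit 262) (nat_lit 203)))))) (XT.nd (nat_lit 390) (nat_lit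 76) (nat_lit 0) (XT.nd (nat_lit 156) (nat_lit 152) (nat_lit 0) (XT.nd (nat_lit 78) (nat_lit 0) (nat_lit 0) (XT.lf (nat_lit 0) (nat_lit 571494327) (nat_lit 76) (nat_lit 59214487773) (nat_lit 76) (nat_lit 31596347000) (nat_lit 7) (nat_lit 4) (nat_lit 8) (nat_lit 5) (nat_lit 8) (nat_lit 4) (nat_lit 316) (nat_lit 262) (nat_lit 202)) (XT.lf (nat_lit 0) (nat_lit 27708818989) (nat_lit 76) (nat_lit 48950761064) (nat_lit 76) (nat_lit 21312214864) (nat_lit 7) (nat_lit 4) (nat_lit 8) (nat_lit 5) (nat_lit 8) (nat_lit 4) (nat_lit 317) (nat_lit 262) (nat_lit 201))) (XT.nd (nat_lit 78) (nat_lit 152) (nat_lit 0) (XT.lf (nat_lit 0) (nat_lit 56979672672) (nat_lit 76) (nat_lit 37883591233) (nat_lit 76) (nat_lit 10226151118) (nat_lit 7) (nat_lit 4) (nat_lit 8) (nat_lit 5) (nat_lit 8) (nat_lit 4) (nat_lit 318) (nat_lit 262) (nat_lit 200)) (XT.nd (nat_lit 78) (nat_lit 76) (nat_lit 0) (XT.lf (nat_lit 0) (nat_lit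 1672247377) (nat_lit 152) (nat_lit 24246827354) (nat_lit 76) (nat_lit 86856944590) (nat_lit 6) (nat_lit 5) (nat_lit 8) (nat_lit 5) (nat_lit 7) (nat_lit 4) (nat_lit 319) (nat_lit 262) (nat_lit 199)) (XT.lf (nat_lit 0) (nat_lit 1363644718) (nat_lit 76) (nat_lit 12809417566) (nat_lit 152) (nat_lit 106895672292) (nat_lit 5) (nat_lit 5) (nat_lit 6) (nat_lit 5) (nat_lit 7) (nat_lit 4) (nat_lit 320) (nat_lit 262) (nat_lit 198))))) (XT.nd (nat_lit 234) (nat_lit 76) (nat_lit 0) (XT.nd (nat_lit 78) (nat_lit 0) (nat_lit 0) (XT.lf (nat_lit 0) (nat_lit 28107590658) (nat_lit 152) (nat_lit 100174800522) (nat_lit 0) (nat_lit 1720798693) (nat_lit 5) (nat_lit 5) (nat_lit 7) (nat_lit 4) (nat_lit 5) (nat_lit 4) (nat_lit 321) (nat_lit 262) (nat_lit 197)) (XT.nd (nat_lit 78) (nat_lit 0) (nat_lit 0) (XT.lf (nat_lit 0) (nat_lit 43357406966) (nat_lit 152) (nat_lit 79327584472) (nat_lit 0) (nat_lit 16957388724)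 (nat_lit 5) (nat_lit 5) (nat_lit 7) (nat_lit 4) (nat_lit 5) (nat_lit 4) (nat_lit 322) (nat_lit 262) (nat_lit 196)) (XT.lf (nat_lit 0) (nat_lit 59812889583) (nat_lit 152) (nat_lit 56839911742) (nat_lit 0) (nat_lit 33400624788) (nat_lit 5) (nat_lit 5) (nat_lit 7) (nat_lit 4) (nat_lit 5) (nat_lit 4) (nat_lit 323) (nat_lit 262) (nat_lit 195)))) (XT.nd (nat_lit 78) (nat_lit 76) (nat_lit 0) (XT.lf (nat_lit 0) (nat_lit 77571552479) (nat_lit 152) (nat_lit 32578522050) (nat_lit 0) (nat_lit 51147948284) (nat_lit 5) (nat_lit 5) (nat_lit 7) (nat_lit 4) (nat_lit 5) (nat_lit 4) (nat_lit 324) (nat_lit 262) (nat_lit 194)) (XT.nd (nat_lit 78) (nat_lit 76) (nat_lit 0) (XT.lf (nat_lit 0) (nat_lit 96738632177) (nat_lit 152) (nat_lit 6399644197) (nat_lit 0) (nat_lit 70304528536) (nat_lit 5) (nat_lit 5) (nat_lit 7) (nat_lit 4) (nat_lit 5) (nat_lit 4) (nat_lit 325) (nat_lit 262) (nat_lit 193)) (XT.lf (nat_lit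 0) (nat_lit 22574376947) (nat_lit 76) (nat_lit 95205783710) (nat_lit 76) (nat_lit 68761958362) (nat_lit 4) (nat_lit 4) (nat_lit 5) (nat_lit 5) (nat_lit 5) (nat_lit 4) (nat_lit 326) (nat_lit 262) (nat_lit 192))))))))
noncomputable def xc53 : XT := (XT.nd (nat_lit 1638) (nat_lit 0) (nat_lit 0) (XT.nd (nat_lit 780) (nat_lit 0) (nat_lit 0) (XT.nd (nat_lit 390) (nat_lit 152) (nat_lit 0) (XT.nd (nat_lit 156) (nat_lit 0) (nat_lit 0) (XT.nd (nat_lit 78) (nat_lit 0) (nat_lit 0) (XT.lf (nat_lit 0) (nat_lit 54074103571) (nat_lit 76) (nat_lit 86531536736) (nat_lit 76) (nat_lit 60078709806) (nat_lit 4) (nat_lit 4) (nat_lit 5) (nat_lit 5) (nat_lit 5) (nat_lit 4) (nat_lit 327) (nat_lit 262) (nat_lit 191)) (XT.lf (nat_lit 0) (nat_lit 88074599580) (nat_lit 76) (nat_lit 77172513578) (nat_lit 76) (nat_lit 50711351850) (nat_lit 4) (nat_lit 4) (nat_lit 5) (nat_lit 5) (nat_lit 5) (nat_lit 4) (nat_lit 328) (nat_lit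 262) (nat_lit 190))) (XT.nd (nat_lit 78) (nat_lit 0) (nat_lit 0) (XT.lf (nat_lit 0) (nat_lit 124777349395) (nat_lit 76) (nat_lit 67073253359) (nat_lit 76) (nat_lit 40604374225) (nat_lit 4) (nat_lit 4) (nat_lit 5) (nat_lit 5) (nat_lit 5) (nat_lit 4) (nat_lit 329) (nat_lit 262) (nat_lit 189)) (XT.nd (nat_lit 78) (nat_lit 0) (nat_lit 0) (XT.lf (nat_lit 0) (nat_lit 164399850793) (nat_lit 76) (nat_lit 56173908609) (nat_lit 76) (nat_lit 29697883729) (nat_lit 4) (nat_lit 4) (nat_lit 5) (nat_lit 5) (nat_lit 5) (nat_lit 4) (nat_lit 330) (nat_lit 262) (nat_lit 188)) (XT.lf (nat_lit 0) (nat_lit 207176903783) (nat_lit 76) (nat_lit 44409890620) (nat_lit 76) (nat_lit 17927249309) (nat_lit 4) (nat_lit 4) (nat_lit 5) (nat_lit 5) (nat_lit 5) (nat_lit 4) (nat_lit 331) (nat_lit 262) (nat_lit 187))))) (XT.nd (nat_lit 156) (nat_lit 76) (nat_lit 0) (XT.nd (nat_lit 78) (nat_lit 76) (nat_lit 0) (XT.lf (nat_lit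 0) (nat_lit 253362002011) (nat_lit 76) (nat_lit 31711486693) (nat_lit 76) (nat_lit 5222719056) (nat_lit 4) (nat_lit 4) (nat_lit 5) (nat_lit 5) (nat_lit 5) (nat_lit 4) (nat_lit 332) (nat_lit 262) (nat_lit 186)) (XT.lf (nat_lit 0) (nat_lit 8219228326) (nat_lit 152) (nat_lit 9645022091) (nat_lit 76) (nat_lit 294870410014) (nat_lit 3) (nat_lit 5) (nat_lit 5) (nat_lit 5) (nat_lit 4) (nat_lit 4) (nat_lit 333) (nat_lit 262) (nat_lit 185))) (XT.nd (nat_lit 78) (nat_lit 0) (nat_lit 0) (XT.lf (nat_lit 0) (nat_lit 20379173087) (nat_lit 76) (nat_lit 2488566221) (nat_lit 152) (nat_lit 314080461600) (nat_lit 2) (nat_lit 5) (nat_lit 3) (nat_lit 5) (nat_lit 4) (nat_lit 4) (nat_lit 334) (nat_lit 262) (nat_lit 184)) (XT.nd (nat_lit 78) (nat_lit 0) (nat_lit 0) (XT.lf (nat_lit 0) (nat_lit 39073073001) (nat_lit 152) (nat_lit 310175867298) (nat_lit 0) (nat_lit 13830638933) (nat_lit 2) (nat_lit 5) (nat_lit 4)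 (nat_lit 4) (nat_lit 2) (nat_lit 4) (nat_lit 335) (nat_lit 262) (nat_lit 183)) (XT.lf (nat_lit 0) (nat_lit 56611025600) (nat_lit 152) (nat_lit 303324331252) (nat_lit 0) (nat_lit 31364302930) (nat_lit 2) (nat_lit 5) (nat_lit 4) (nat_lit 4) (nat_lit 2) (nat_lit 4) (nat_lit 336) (nat_lit 262) (nat_lit 182)))))) (XT.nd (nat_lit 390) (nat_lit 0) (nat_lit 0) (XT.nd (nat_lit 156) (nat_lit 0) (nat_lit 0) (XT.nd (nat_lit 78) (nat_lit 0) (nat_lit 0) (XT.lf (nat_lit 0) (nat_lit 75546672222) (nat_lit 152) (nat_lit 295934964496) (nat_lit 0) (nat_lit 50295978624) (nat_lit 2) (nat_lit 5) (nat_lit 4) (nat_lit 4) (nat_lit 2) (nat_lit 4) (nat_lit 337) (nat_lit 262) (nat_lit 181)) (XT.lf (nat_lit 0) (nat_lit 95992224105) (nat_lit 152) (nat_lit 287963978191) (nat_lit 0) (nat_lit 70737853723) (nat_lit 2) (nat_lit 5) (nat_lit 4) (nat_lit 4) (nat_lit 2) (nat_lit 4) (nat_lit 338) (nat_lit 262) (nat_lit 180)))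 (XT.nd (nat_lit 78) (nat_lit 0) (nat_lit 0) (XT.lf (nat_lit 0) (nat_lit 118068840076) (nat_lit 152) (nat_lit 279364136860) (nat_lit 0) (nat_lit 92811065263) (nat_lit 2) (nat_lit 5) (nat_lit 4) (nat_lit 4) (nat_lit 2) (nat_lit 4) (nat_lit 339) (nat_lit 262) (nat_lit 179)) (XT.nd (nat_lit 78) (nat_lit 0) (nat_lit 0) (XT.lf (nat_lit 0) (nat_lit 141907344526) (nat_lit 152) (nat_lit 270084478483) (nat_lit 0) (nat_lit 116646417462) (nat_lit 2) (nat_lit 5) (nat_lit 4) (nat_lit 4) (nat_lit 2) (nat_lit 4) (nat_lit 340) (nat_lit 262) (nat_lit 178)) (XT.lf (nat_lit 0) (nat_lit 167649002666) (nat_lit 152) (nat_lit 260070012490) (nat_lit 0) (nat_lit 142385156852) (nat_lit 2) (nat_lit 5) (nat_lit 4) (nat_lit 4) (nat_lit 2) (nat_lit 4) (nat_lit 341) (nat_lit 262) (nat_lit 177))))) (XT.nd (nat_lit 234) (nat_lit 0) (nat_lit 0) (XT.nd (nat_lit 78) (nat_lit 0) (nat_lit 0) (XT.lf (nat_lit 0) (nat_lit 195446357655)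 (nat_lit 152) (nat_lit 249261393899) (nat_lit 0) (nat_lit 170179809295) (nat_lit 2) (nat_lit 5) (nat_lit 4) (nat_lit 4) (nat_lit 2) (nat_lit 4) (nat_lit 342) (nat_lit 262) (nat_lit 176)) (XT.nd (nat_lit 78) (nat_lit 0) (nat_lit 0) (XT.lf (nat_lit 0) (nat_lit 225464134561) (nat_lit 152) (nat_lit 237594571635) (nat_lit 0) (nat_lit 200195083842) (nat_lit 2) (nat_lit 5) (nat_lit 4) (nat_lit 4) (nat_lit 2) (nat_lit 4) (nat_lit 343) (nat_lit 262) (nat_lit 175)) (XT.lf (nat_lit 0) (nat_lit 257880216505) (nat_lit 152) (nat_lit 225000408975) (nat_lit 0) (nat_lit 232608848788) (nat_lit 2) (nat_lit 5) (nat_lit 4) (nat_lit 4) (nat_lit 2) (nat_lit 4) (nat_lit 344) (nat_lit 262) (nat_lit 174)))) (XT.nd (nat_lit 78) (nat_lit 0) (nat_lit 0) (XT.lf (nat_lit 0) (nat_lit 292886698788) (nat_lit 152) (nat_lit 211404273843) (nat_lit 0) (nat_lit 267613185703) (nat_lit 2) (nat_lit 5) (nat_lit 4) (nat_lit 4) (nat_lit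 2) (nat_lit 4) (nat_lit 345) (nat_lit 262) (nat_lit 173)) (XT.nd (nat_lit 78) (nat_lit 0) (nat_lit 0) (XT.lf (nat_lit 0) (nat_lit 330691027231) (nat_lit 152) (nat_lit 196725596549) (nat_lit 0) (nat_lit 305415527693) (nat_lit 2) (nat_lit 5) (nat_lit 4) (nat_lit 4) (nat_lit 2) (nat_lit 4) (nat_lit 346) (nat_lit 262) (nat_lit 172)) (XT.lf (nat_lit 0) (nat_lit 371517227484) (nat_lit 152) (nat_lit 180877392341) (nat_lit 0) (nat_lit 346239888638) (nat_lit 2) (nat_lit 5) (nat_lit 4) (nat_lit 4) (nat_lit 2) (nat_lit 4) (nat_lit 347) (nat_lit 262) (nat_lit 171))))))) (XT.nd (nat_lit 34710) (nat_lit 0) (nat_lit 3648) (XT.nd (nat_lit 34242) (nat_lit 0) (nat_lit 7372) (XT.nd (nat_lit 34008) (nat_lit 0) (nat_lit 9424) (XT.nd (nat_lit 78) (nat_lit 0) (nat_lit 0) (XT.lf (nat_lit 0) (nat_lit 415607232585) (nat_lit 152) (nat_lit 163765745932) (nat_lit 0) (nat_lit 390328190676) (nat_lit 2) (nat_lit 5) (nat_lit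 4) (nat_lit 4) (nat_lit 2) (nat_lit 4) (nat_lit 348) (nat_lit 262) (nat_lit 170)) (XT.lf (nat_lit 0) (nat_lit 463222316639) (nat_lit 152) (nat_lit 145289254974) (nat_lit 0) (nat_lit 437941697820) (nat_lit 2) (nat_lit 5) (nat_lit 4) (nat_lit 4) (nat_lit 2) (nat_lit 4) (nat_lit 349) (nat_lit 262) (nat_lit 169))) (XT.nd (nat_lit 78) (nat_lit 380) (nat_lit 0) (XT.lf (nat_lit 0) (nat_lit 2319365764) (nat_lit 380) (nat_lit 516878483) (nat_lit 380) (nat_lit 516878483) (nat_lit 131) (nat_lit 3) (nat_lit 136) (nat_lit 3) (nat_lit 136) (nat_lit 5) (nat_lit 263) (nat_lit 263) (nat_lit 254)) (XT.nd (nat_lit 78) (nat_lit 0) (nat_lit 0) (XT.lf (nat_lit 0) (nat_lit 1211089023) (nat_lit 380) (nat_lit 2744384712) (nat_lit 456) (nat_lit 2848201684) (nat_lit 126) (nat_lit 5) (nat_lit 131) (nat_lit 3) (nat_lit 132) (nat_lit 5) (nat_lit 264) (nat_lit 263) (nat_lit 253)) (XT.lf (nat_lit 76) (nat_lit 2551324496)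 (nat_lit 0) (nat_lit 1861660475) (nat_lit 456) (nat_lit 2508335905) (nat_lit 127) (nat_lit 5) (nat_lit 126) (nat_lit 5) (nat_lit 132) (nat_lit 5) (nat_lit 265) (nat_lit 263) (nat_lit 252))))) (XT.nd (nat_lit 234) (nat_lit 1672) (nat_lit 0) (XT.nd (nat_lit 78) (nat_lit 0) (nat_lit 0) (XT.lf (nat_lit 0) (nat_lit 562499701) (nat_lit 456) (nat_lit 5910706226) (nat_lit 532) (nat_lit 586915798) (nat_lit 121) (nat_lit 5) (nat_lit 127) (nat_lit 5) (nat_lit 128) (nat_lit 5) (nat_lit 266) (nat_lit 263) (nat_lit 251)) (XT.nd (nat_lit 78) (nat_lit 0) (nat_lit 0) (XT.lf (nat_lit 0) (nat_lit 3612983490) (nat_lit 456) (nat_lit 210299697) (nat_lit 532) (nat_lit 3394237633) (nat_lit 121) (nat_lit 5) (nat_lit 127) (nat_lit 5) (nat_lit 128) (nat_lit 5) (nat_lit 267) (nat_lit 263) (nat_lit 250)) (XT.lf (nat_lit 76) (nat_lit 5955668457) (nat_lit 0) (nat_lit 778086013) (nat_lit 532) (nat_lit 663040552) (nat_lit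 122) (nat_lit 5) (nat_lit 121) (nat_lit 5) (nat_lit 128) (nat_lit 5) (nat_lit 268) (nat_lit 263) (nat_lit 249)))) (XT.nd (nat_lit 78) (nat_lit 1216) (nat_lit 0) (XT.lf (nat_lit 0) (nat_lit 2302628382) (nat_lit 532) (nat_lit 2670126288) (nat_lit 76) (nat_lit 2622753912) (nat_lit 115) (nat_lit 5) (nat_lit 122) (nat_lit 5) (nat_lit 116) (nat_lit 5) (nat_lit 269) (nat_lit 263) (nat_lit 248)) (XT.nd (nat_lit 78) (nat_lit 684) (nat_lit 0) (XT.lf (nat_lit 0) (nat_lit 3958152352) (nat_lit 532) (nat_lit 1387718687) (nat_lit 608) (nat_lit 2471013532) (nat_lit 108) (nat_lit 5) (nat_lit 115) (nat_lit 5) (nat_lit 116) (nat_lit 5) (nat_lit 270) (nat_lit 263) (nat_lit 247)) (XT.lf (nat_lit 0) (nat_lit 467776192) (nat_lit 684) (nat_lit 5044474298) (nat_lit 76) (nat_lit 2548217454) (nat_lit 99) (nat_lit 5) (nat_lit 108) (nat_lit 5) (nat_lit 100) (nat_lit 5) (nat_lit 271) (nat_lit 263) (nat_lit 246))))))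 (XT.nd (nat_lit 390) (nat_lit 1748) (nat_lit 0) (XT.nd (nat_lit 156) (nat_lit 760) (nat_lit 0) (XT.nd (nat_lit 78) (nat_lit 532) (nat_lit 0) (XT.lf (nat_lit 0) (nat_lit 2067526390) (nat_lit 684) (nat_lit 1400717053) (nat_lit 760) (nat_lit 4858008875) (nat_lit 90) (nat_lit 5) (nat_lit 99) (nat_lit 5) (nat_lit 100) (nat_lit 5) (nat_lit 272) (nat_lit 263) (nat_lit 245)) (XT.lf (nat_lit 0) (nat_lit 1113364773) (nat_lit 532) (nat_lit 5550643173) (nat_lit 608) (nat_lit 1951896175) (nat_lit 83) (nat_lit 5) (nat_lit 90) (nat_lit 5) (nat_lit 91) (nat_lit 5) (nat_lit 273) (nat_lit 263) (nat_lit 244))) (XT.nd (nat_lit 78) (nat_lit 304) (nat_lit 0) (XT.lf (nat_lit 0) (nat_lit 144826576) (nat_lit 380) (nat_lit 950146669) (nat_lit 456) (nat_lit 7835840174) (nat_lit 77) (nat_lit 5) (nat_lit 82) (nat_lit 5) (nat_lit 83) (nat_lit 5) (nat_lit 274) (nat_lit 263) (nat_lit 243)) (XT.nd (nat_lit 78) (nat_lit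 304) (nat_lit 0) (XT.lf (nat_lit 0) (nat_lit 4334441322) (nat_lit 456) (nat_lit 882483005) (nat_lit 76) (nat_lit 4051829724) (nat_lit 77) (nat_lit 5) (nat_lit 83) (nat_lit 5) (nat_lit 78) (nat_lit 5) (nat_lit 275) (nat_lit 263) (nat_lit 242)) (XT.lf (nat_lit 0) (nat_lit 7705952093) (nat_lit 304) (nat_lit 97474906) (nat_lit 380) (nat_lit 1832062899) (nat_lit 73) (nat_lit 5) (nat_lit 77) (nat_lit 5) (nat_lit 78) (nat_lit 5) (nat_lit 276) (nat_lit 263) (nat_lit 241))))) (XT.nd (nat_lit 234) (nat_lit 760) (nat_lit 0) (XT.nd (nat_lit 78) (nat_lit 608) (nat_lit 0) (XT.lf (nat_lit 0) (nat_lit 1522621211) (nat_lit 380) (nat_lit 3112570190) (nat_lit 76) (nat_lit 5392790460) (nat_lit 68) (nat_lit 5) (nat_lit 73) (nat_lit 5) (nat_lit 69) (nat_lit 5) (nat_lit 277) (nat_lit 263) (nat_lit 240)) (XT.nd (nat_lit 78) (nat_lit 304) (nat_lit 0) (XT.lf (nat_lit 0) (nat_lit 5078461870) (nat_lit 380) (nat_lit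 4394912211) (nat_lit 76) (nat_lit 977375959) (nat_lit 64) (nat_lit 5) (nat_lit 69) (nat_lit 5) (nat_lit 65) (nat_lit 5) (nat_lit 278) (nat_lit 263) (nat_lit 239)) (XT.lf (nat_lit 0) (nat_lit 5072745550) (nat_lit 304) (nat_lit 3916323617) (nat_lit 380) (nat_lit 1914965689) (nat_lit 60) (nat_lit 5) (nat_lit 64) (nat_lit 5) (nat_lit 65) (nat_lit 5) (nat_lit 279) (nat_lit 263) (nat_lit 238)))) (XT.nd (nat_lit 78) (nat_lit 456) (nat_lit 0) (XT.lf (nat_lit 0) (nat_lit 1798984373) (nat_lit 304) (nat_lit 7435763683) (nat_lit 76) (nat_lit 2155686821) (nat_lit 56) (nat_lit 5) (nat_lit 60) (nat_lit 5) (nat_lit 57) (nat_lit 5) (nat_lit 280) (nat_lit 263) (nat_lit 237)) (XT.nd (nat_lit 78) (nat_lit 228) (nat_lit 0) (XT.lf (nat_lit 0) (nat_lit 2634901142) (nat_lit 228) (nat_lit 3189738992) (nat_lit 304) (nat_lit 6085624674) (nat_lit 53) (nat_lit 5) (nat_lit 56) (nat_lit 5) (nat_lit 57) (nat_lit 5) (nat_lit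 281) (nat_lit 263) (nat_lit 236)) (XT.lf (nat_lit 0) (nat_lit 1124522930) (nat_lit 228) (nat_lit 9125951069) (nat_lit 304) (nat_lit 2217459738) (nat_lit 50) (nat_lit 5) (nat_lit 53) (nat_lit 5) (nat_lit 54) (nat_lit 5) (nat_lit 282) (nat_lit 263) (nat_lit 235))))))))
noncomputable def xc54 : XT := (XT.nd (nat_lit 1638) (nat_lit 760) (nat_lit 0) (XT.nd (nat_lit 780) (nat_lit 988) (nat_lit 0) (XT.nd (nat_lit 390) (nat_lit 760) (nat_lit 0) (XT.nd (nat_lit 156) (nat_lit 608) (nat_lit 0) (XT.nd (nat_lit 78) (nat_lit 228) (nat_lit 0) (XT.lf (nat_lit 0) (nat_lit 1996767857) (nat_lit 304) (nat_lit 627042786) (nat_lit 76) (nat_lit 10440048128) (nat_lit 49) (nat_lit 5) (nat_lit 53) (nat_lit 5) (nat_lit 50) (nat_lit 5) (nat_lit 283) (nat_lit 263) (nat_lit 234)) (XT.lf (nat_lit 0) (nat_lit 6606552122) (nat_lit 304) (nat_lit 2662333780) (nat_lit 76) (nat_lit 4430078675) (nat_lit 46) (nat_lit 5) (nat_lit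 50) (nat_lit 5) (nat_lit 47) (nat_lit 5) (nat_lit 284) (nat_lit 263) (nat_lit 233))) (XT.nd (nat_lit 78) (nat_lit 456) (nat_lit 0) (XT.lf (nat_lit 0) (nat_lit 9375895167) (nat_lit 152) (nat_lit 2306269414) (nat_lit 228) (nat_lit 2697982112) (nat_lit 44) (nat_lit 5) (nat_lit 46) (nat_lit 5) (nat_lit 47) (nat_lit 5) (nat_lit 285) (nat_lit 263) (nat_lit 232)) (XT.nd (nat_lit 78) (nat_lit 152) (nat_lit 0) (XT.lf (nat_lit 0) (nat_lit 2128295936) (nat_lit 304) (nat_lit 7779834975) (nat_lit 76) (nat_lit 5198907535) (nat_lit 40) (nat_lit 5) (nat_lit 44) (nat_lit 5) (nat_lit 41) (nat_lit 5) (nat_lit 286) (nat_lit 263) (nat_lit 231)) (XT.lf (nat_lit 0) (nat_lit 4860069945) (nat_lit 152) (nat_lit 2494338058) (nat_lit 228) (nat_lit 8530147357) (nat_lit 38) (nat_lit 5) (nat_lit 40) (nat_lit 5) (nat_lit 41) (nat_lit 5) (nat_lit 287) (nat_lit 263) (nat_lit 230))))) (XT.nd (nat_lit 156) (nat_lit 532)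 (nat_lit 0) (XT.nd (nat_lit 78) (nat_lit 76) (nat_lit 0) (XT.lf (nat_lit 0) (nat_lit 1900630501) (nat_lit 152) (nat_lit 11259296194) (nat_lit 228) (nat_lit 3556371866) (nat_lit 36) (nat_lit 5) (nat_lit 38) (nat_lit 5) (nat_lit 39) (nat_lit 5) (nat_lit 288) (nat_lit 263) (nat_lit 229)) (XT.lf (nat_lit 0) (nat_lit 1905456875) (nat_lit 228) (nat_lit 1565281186) (nat_lit 76) (nat_lit 14135093523) (nat_lit 35) (nat_lit 5) (nat_lit 38) (nat_lit 5) (nat_lit 36) (nat_lit 5) (nat_lit 289) (nat_lit 263) (nat_lit 228))) (XT.nd (nat_lit 78) (nat_lit 380) (nat_lit 0) (XT.lf (nat_lit 0) (nat_lit 7882107519) (nat_lit 228) (nat_lit 5667799983) (nat_lit 76) (nat_lit 5003655162) (nat_lit 33) (nat_lit 5) (nat_lit 36) (nat_lit 5) (nat_lit 34) (nat_lit 5) (nat_lit 290) (nat_lit 263) (nat_lit 227)) (XT.nd (nat_lit 78) (nat_lit 228) (nat_lit 0) (XT.lf (nat_lit 0) (nat_lit 9077165769) (nat_lit 152) (nat_lit 5408726678)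 (nat_lit 228) (nat_lit 5083838331) (nat_lit 31) (nat_lit 5) (nat_lit 33) (nat_lit 5) (nat_lit 34) (nat_lit 5) (nat_lit 291) (nat_lit 263) (nat_lit 226)) (XT.lf (nat_lit 0) (nat_lit 1070517434) (nat_lit 228) (nat_lit 16170441508) (nat_lit 76) (nat_lit 3418043684) (nat_lit 28) (nat_lit 5) (nat_lit 31) (nat_lit 5) (nat_lit 29) (nat_lit 5) (nat_lit 292) (nat_lit 263) (nat_lit 225)))))) (XT.nd (nat_lit 390) (nat_lit 532) (nat_lit 0) (XT.nd (nat_lit 156) (nat_lit 304) (nat_lit 0) (XT.nd (nat_lit 78) (nat_lit 152) (nat_lit 0) (XT.lf (nat_lit 0) (nat_lit 7745227277) (nat_lit 228) (nat_lit 1085351895) (nat_lit 76) (nat_lit 12990420102) (nat_lit 28) (nat_lit 5) (nat_lit 31) (nat_lit 5) (nat_lit 29) (nat_lit 5) (nat_lit 293) (nat_lit 263) (nat_lit 224)) (XT.lf (nat_lit 0) (nat_lit 15136779507) (nat_lit 228) (nat_lit 7481828744) (nat_lit 76) (nat_lit 448256032) (nat_lit 26) (nat_lit 5) (nat_lit 29)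 (nat_lit 5) (nat_lit 27) (nat_lit 4) (nat_lit 294) (nat_lit 263) (nat_lit 223))) (XT.nd (nat_lit 78) (nat_lit 228) (nat_lit 0) (XT.lf (nat_lit 0) (nat_lit 9252630181) (nat_lit 76) (nat_lit 14114447001) (nat_lit 152) (nat_lit 1032998309) (nat_lit 25) (nat_lit 5) (nat_lit 26) (nat_lit 5) (nat_lit 27) (nat_lit 4) (nat_lit 295) (nat_lit 263) (nat_lit 222)) (XT.nd (nat_lit 78) (nat_lit 0) (nat_lit 0) (XT.lf (nat_lit 0) (nat_lit 1600535392) (nat_lit 152) (nat_lit 4704386714) (nat_lit 228) (nat_lit 19525334678) (nat_lit 22) (nat_lit 5) (nat_lit 24) (nat_lit 5) (nat_lit 25) (nat_lit 5) (nat_lit 296) (nat_lit 263) (nat_lit 221)) (XT.lf (nat_lit 0) (nat_lit 14486916582) (nat_lit 228) (nat_lit 7345008407) (nat_lit 76) (nat_lit 5527458531) (nat_lit 22) (nat_lit 5) (nat_lit 25) (nat_lit 5) (nat_lit 23) (nat_lit 4) (nat_lit 297) (nat_lit 263) (nat_lit 220))))) (XT.nd (nat_lit 234) (nat_lit 228) (nat_lit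 0) (XT.nd (nat_lit 78) (nat_lit 228) (nat_lit 0) (XT.lf (nat_lit 0) (nat_lit 11067566298) (nat_lit 76) (nat_lit 12451859222) (nat_lit 152) (nat_lit 5481653469) (nat_lit 21) (nat_lit 5) (nat_lit 22) (nat_lit 5) (nat_lit 23) (nat_lit 4) (nat_lit 298) (nat_lit 263) (nat_lit 219)) (XT.nd (nat_lit 78) (nat_lit 0) (nat_lit 0) (XT.lf (nat_lit 0) (nat_lit 321474410) (nat_lit 152) (nat_lit 2179608399) (nat_lit 228) (nat_lit 28267073049) (nat_lit 18) (nat_lit 5) (nat_lit 20) (nat_lit 5) (nat_lit 21) (nat_lit 5) (nat_lit 299) (nat_lit 263) (nat_lit 218)) (XT.lf (nat_lit 0) (nat_lit 11337257221) (nat_lit 228) (nat_lit 12313706425) (nat_lit 76) (nat_lit 9000828259) (nat_lit 18) (nat_lit 5) (nat_lit 21) (nat_lit 5) (nat_lit 19) (nat_lit 4) (nat_lit 300) (nat_lit 263) (nat_lit 217)))) (XT.nd (nat_lit 78) (nat_lit 152) (nat_lit 0) (XT.lf (nat_lit 0) (nat_lit 7383111454) (nat_lit 76) (nat_lit 13600729645)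 (nat_lit 152) (nat_lit 13697129434) (nat_lit 17) (nat_lit 5) (nat_lit 18) (nat_lit 5) (nat_lit 19) (nat_lit 4) (nat_lit 301) (nat_lit 263) (nat_lit 216)) (XT.nd (nat_lit 78) (nat_lit 152) (nat_lit 0) (XT.lf (nat_lit 0) (nat_lit 29012797213) (nat_lit 76) (nat_lit 2557647178) (nat_lit 152) (nat_lit 5293649860) (nat_lit 17) (nat_lit 5) (nat_lit 18) (nat_lit 5) (nat_lit 19) (nat_lit 4) (nat_lit 302) (nat_lit 263) (nat_lit 215)) (XT.lf (nat_lit 0) (nat_lit 3977600496) (nat_lit 152) (nat_lit 25916460325) (nat_lit 76) (nat_lit 9309049837) (nat_lit 15) (nat_lit 5) (nat_lit 17) (nat_lit 5) (nat_lit 16) (nat_lit 4) (nat_lit 303) (nat_lit 263) (nat_lit 214))))))) (XT.nd (nat_lit 858) (nat_lit 228) (nat_lit 0) (XT.nd (nat_lit 390) (nat_lit 304) (nat_lit 0) (XT.nd (nat_lit 156) (nat_lit 152) (nat_lit 0) (XT.nd (nat_lit 78) (nat_lit 76) (nat_lit 0) (XT.lf (nat_lit 0) (nat_lit 13947735918) (nat_lit 152)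 (nat_lit 5537166504) (nat_lit 76) (nat_lit 22232895233) (nat_lit 15) (nat_lit 5) (nat_lit 17) (nat_lit 5) (nat_lit 16) (nat_lit 4) (nat_lit 304) (nat_lit 263) (nat_lit 213)) (XT.lf (nat_lit 0) (nat_lit 16944305643) (nat_lit 76) (nat_lit 7996869169) (nat_lit 152) (nat_lit 19481219397) (nat_lit 14) (nat_lit 5) (nat_lit 15) (nat_lit 5) (nat_lit 16) (nat_lit 4) (nat_lit 305) (nat_lit 263) (nat_lit 212))) (XT.nd (nat_lit 78) (nat_lit 152) (nat_lit 0) (XT.lf (nat_lit 0) (nat_lit 36943475051) (nat_lit 152) (nat_lit 6055766870) (nat_lit 0) (nat_lit 4337665062) (nat_lit 14) (nat_lit 5) (nat_lit 16) (nat_lit 4) (nat_lit 14) (nat_lit 4) (nat_lit 306) (nat_lit 263) (nat_lit 211)) (XT.nd (nat_lit 78) (nat_lit 76) (nat_lit 0) (XT.lf (nat_lit 0) (nat_lit 17439964127) (nat_lit 76) (nat_lit 32838397298) (nat_lit 76) (nat_lit 187615736) (nat_lit 13) (nat_lit 4) (nat_lit 14) (nat_lit 5) (nat_lit 14) (nat_lit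 4) (nat_lit 307) (nat_lit 263) (nat_lit 210)) (XT.lf (nat_lit 0) (nat_lit 10561442408) (nat_lit 152) (nat_lit 11041464970) (nat_lit 76) (nat_lit 32230344458) (nat_lit 12) (nat_lit 5) (nat_lit 14) (nat_lit 5) (nat_lit 13) (nat_lit 4) (nat_lit 308) (nat_lit 263) (nat_lit 209))))) (XT.nd (nat_lit 234) (nat_lit 152) (nat_lit 0) (XT.nd (nat_lit 78) (nat_lit 76) (nat_lit 0) (XT.lf (nat_lit 0) (nat_lit 13059176486) (nat_lit 76) (nat_lit 9277484133) (nat_lit 152) (nat_lit 35124467118) (nat_lit 11) (nat_lit 5) (nat_lit 12) (nat_lit 5) (nat_lit 13) (nat_lit 4) (nat_lit 309) (nat_lit 263) (nat_lit 208)) (XT.nd (nat_lit 78) (nat_lit 76) (nat_lit 0) (XT.lf (nat_lit 0) (nat_lit 35282252436) (nat_lit 152) (nat_lit 22009683181) (nat_lit 0) (nat_lit 4075892750) (nat_lit 11) (nat_lit 5) (nat_lit 13) (nat_lit 4) (nat_lit 11) (nat_lit 4) (nat_lit 310) (nat_lit 263) (nat_lit 207)) (XT.lf (nat_lit 0) (nat_lit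 2030589223) (nat_lit 76) (nat_lit 47393157830) (nat_lit 76) (nat_lit 16155316764) (nat_lit 10) (nat_lit 4) (nat_lit 11) (nat_lit 5) (nat_lit 11) (nat_lit 4) (nat_lit 311) (nat_lit 263) (nat_lit 206)))) (XT.nd (nat_lit 78) (nat_lit 152) (nat_lit 0) (XT.lf (nat_lit 0) (nat_lit 28730365748) (nat_lit 76) (nat_lit 36322996736) (nat_lit 76) (nat_lit 5056006244) (nat_lit 10) (nat_lit 4) (nat_lit 11) (nat_lit 5) (nat_lit 11) (nat_lit 4) (nat_lit 312) (nat_lit 263) (nat_lit 205)) (XT.nd (nat_lit 78) (nat_lit 76) (nat_lit 0) (XT.lf (nat_lit 0) (nat_lit 6684369250) (nat_lit 152) (nat_lit 17591023737) (nat_lit 76) (nat_lit 50722555488) (nat_lit 9) (nat_lit 5) (nat_lit 11) (nat_lit 5) (nat_lit 10) (nat_lit 4) (nat_lit 313) (nat_lit 263) (nat_lit 204)) (XT.lf (nat_lit 0) (nat_lit 8234945323) (nat_lit 76) (nat_lit 11059648315) (nat_lit 152) (nat_lit 60973497588) (nat_lit 8) (nat_lit 5) (nat_lit 9) (nat_lit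 5) (nat_lit 10) (nat_lit 4) (nat_lit 314) (nat_lit 263) (nat_lit 203)))))) (XT.nd (nat_lit 390) (nat_lit 152) (nat_lit 0) (XT.nd (nat_lit 156) (nat_lit 76) (nat_lit 0) (XT.nd (nat_lit 78) (nat_lit 0) (nat_lit 0) (XT.lf (nat_lit 0) (nat_lit 33252838242) (nat_lit 152) (nat_lit 49286846776) (nat_lit 0) (nat_lit 3403208346) (nat_lit 8) (nat_lit 5) (nat_lit 10) (nat_lit 4) (nat_lit 8) (nat_lit 4) (nat_lit 315) (nat_lit 263) (nat_lit 202)) (XT.lf (nat_lit 0) (nat_lit 48493473787) (nat_lit 152) (nat_lit 24946488335) (nat_lit 0) (nat_lit 18623438463) (nat_lit 8) (nat_lit 5) (nat_lit 10) (nat_lit 4) (nat_lit 8) (nat_lit 4) (nat_lit 316) (nat_lit 263) (nat_lit 201))) (XT.nd (nat_lit 78) (nat_lit 0) (nat_lit 0) (XT.lf (nat_lit 0) (nat_lit 1347984611) (nat_lit 76) (nat_lit 63607204251) (nat_lit 76) (nat_lit 33718275014) (nat_lit 7) (nat_lit 4) (nat_lit 8) (nat_lit 5) (nat_lit 8) (nat_lit 4) (nat_lit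 317) (nat_lit 263) (nat_lit 200)) (XT.nd (nat_lit 78) (nat_lit 0) (nat_lit 0) (XT.lf (nat_lit 0) (nat_lit 30602164080) (nat_lit 76) (nat_lit 52547893668) (nat_lit 76) (nat_lit 22641470066) (nat_lit 7) (nat_lit 4) (nat_lit 8) (nat_lit 5) (nat_lit 8) (nat_lit 4) (nat_lit 318) (nat_lit 263) (nat_lit 199)) (XT.lf (nat_lit 0) (nat_lit 62164564608) (nat_lit 76) (nat_lit 40618974567) (nat_lit 76) (nat_lit 10696352479) (nat_lit 7) (nat_lit 4) (nat_lit 8) (nat_lit 5) (nat_lit 8) (nat_lit 4) (nat_lit 319) (nat_lit 263) (nat_lit 198))))) (XT.nd (nat_lit 234) (nat_lit 0) (nat_lit 0) (XT.nd (nat_lit 78) (nat_lit 76) (nat_lit 0) (XT.lf (nat_lit 0) (nat_lit 2117838328) (nat_lit 152) (nat_lit 25596052113) (nat_lit 76) (nat_lit 94068517697) (nat_lit 6) (nat_lit 5) (nat_lit 8) (nat_lit 5) (nat_lit 7) (nat_lit 4) (nat_lit 320) (nat_lit 263) (nat_lit 197)) (XT.nd (nat_lit 78) (nat_lit 0) (nat_lit 0) (XT.lf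 (nat_lit 0) (nat_lit 2037594383) (nat_lit 76) (nat_lit 13566845938) (nat_lit 152) (nat_lit 115134821765) (nat_lit 5) (nat_lit 5) (nat_lit 6) (nat_lit 5) (nat_lit 7) (nat_lit 4) (nat_lit 321) (nat_lit 263) (nat_lit 196)) (XT.lf (nat_lit 0) (nat_lit 30635556011) (nat_lit 152) (nat_lit 107655770073) (nat_lit 0) (nat_lit 2098063480) (nat_lit 5) (nat_lit 5) (nat_lit 7) (nat_lit 4) (nat_lit 5) (nat_lit 4) (nat_lit 322) (nat_lit 263) (nat_lit 195)))) (XT.nd (nat_lit 78) (nat_lit 0) (nat_lit 0) (XT.lf (nat_lit 0) (nat_lit 47084664431) (nat_lit 152) (nat_lit 85180259293) (nat_lit 0) (nat_lit 18535832499) (nat_lit 5) (nat_lit 5) (nat_lit 7) (nat_lit 4) (nat_lit 5) (nat_lit 4) (nat_lit 323) (nat_lit 263) (nat_lit 194)) (XT.nd (nat_lit 78) (nat_lit 0) (nat_lit 0) (XT.lf (nat_lit 0) (nat_lit 64837425293) (nat_lit 152) (nat_lit 60930130666) (nat_lit 0) (nat_lit 36278093917) (nat_lit 5) (nat_lit 5) (nat_lit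 7) (nat_lit 4) (nat_lit 5) (nat_lit 4) (nat_lit 324) (nat_lit 263) (nat_lit 193)) (XT.lf (nat_lit 0) (nat_lit 83999040144) (nat_lit 152) (nat_lit 34761679725) (nat_lit 0) (nat_lit 55429987059) (nat_lit 5) (nat_lit 5) (nat_lit 7) (nat_lit 4) (nat_lit 5) (nat_lit 4) (nat_lit 325) (nat_lit 263) (nat_lit 192))))))))
noncomputable def xc55 : XT := (XT.nd (nat_lit 1638) (nat_lit 0) (nat_lit 0) (XT.nd (nat_lit 780) (nat_lit 0) (nat_lit 0) (XT.nd (nat_lit 390) (nat_lit 152) (nat_lit 0) (XT.nd (nat_lit 156) (nat_lit 0) (nat_lit 0) (XT.nd (nat_lit 78) (nat_lit 76) (nat_lit 0) (XT.lf (nat_lit 0) (nat_lit 104683059294) (nat_lit 152) (nat_lit 6519834170) (nat_lit 0) (nat_lit 76105004627) (nat_lit 5) (nat_lit 5) (nat_lit 7) (nat_lit 4) (nat_lit 5) (nat_lit 4) (nat_lit 326) (nat_lit 263) (nat_lit 191)) (XT.lf (nat_lit 0) (nat_lit 24755082317) (nat_lit 76) (nat_lit 102643468601) (nat_lit 76) (nat_lit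 74057079136) (nat_lit 4) (nat_lit 4) (nat_lit 5) (nat_lit 5) (nat_lit 5) (nat_lit 4) (nat_lit 327) (nat_lit 263) (nat_lit 190))) (XT.nd (nat_lit 78) (nat_lit 0) (nat_lit 0) (XT.lf (nat_lit 0) (nat_lit 58747027425) (nat_lit 76) (nat_lit 93288524669) (nat_lit 76) (nat_lit 64694417799) (nat_lit 4) (nat_lit 4) (nat_lit 5) (nat_lit 5) (nat_lit 5) (nat_lit 4) (nat_lit 328) (nat_lit 263) (nat_lit 189)) (XT.nd (nat_lit 78) (nat_lit 0) (nat_lit 0) (XT.lf (nat_lit 0) (nat_lit 95441859739) (nat_lit 76) (nat_lit 83193041511) (nat_lit 76) (nat_lit 54591788895) (nat_lit 4) (nat_lit 4) (nat_lit 5) (nat_lit 5) (nat_lit 5) (nat_lit 4) (nat_lit 329) (nat_lit 263) (nat_lit 188)) (XT.lf (nat_lit 0) (nat_lit 135057030118) (nat_lit 76) (nat_lit 72297194041) (nat_lit 76) (nat_lit 43689324993) (nat_lit 4) (nat_lit 4) (nat_lit 5) (nat_lit 5) (nat_lit 5) (nat_lit 4) (nat_lit 330) (nat_lit 263) (nat_lit 187)))))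 (XT.nd (nat_lit 156) (nat_lit 152) (nat_lit 0) (XT.nd (nat_lit 78) (nat_lit 0) (nat_lit 0) (XT.lf (nat_lit 0) (nat_lit 177827295126) (nat_lit 76) (nat_lit 60536414273) (nat_lit 76) (nat_lit 31922418900) (nat_lit 4) (nat_lit 4) (nat_lit 5) (nat_lit 5) (nat_lit 5) (nat_lit 4) (nat_lit 331) (nat_lit 263) (nat_lit 186)) (XT.lf (nat_lit 0) (nat_lit 224006108187) (nat_lit 76) (nat_lit 47841008699) (nat_lit 76) (nat_lit 19221340803) (nat_lit 4) (nat_lit 4) (nat_lit 5) (nat_lit 5) (nat_lit 5) (nat_lit 4) (nat_lit 332) (nat_lit 263) (nat_lit 185))) (XT.nd (nat_lit 78) (nat_lit 152) (nat_lit 0) (XT.lf (nat_lit 0) (nat_lit 273867121525) (nat_lit 76) (nat_lit 34135745285) (nat_lit 76) (nat_lit 5510825052) (nat_lit 4) (nat_lit 4) (nat_lit 5) (nat_lit 5) (nat_lit 5) (nat_lit 4) (nat_lit 333) (nat_lit 263) (nat_lit 184)) (XT.nd (nat_lit 78) (nat_lit 76) (nat_lit 0) (XT.lf (nat_lit 0) (nat_lit 8993025805)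 (nat_lit 152) (nat_lit 10194080607) (nat_lit 76) (nat_lit 318560480764) (nat_lit 3) (nat_lit 5) (nat_lit 5) (nat_lit 5) (nat_lit 4) (nat_lit 4) (nat_lit 334) (nat_lit 263) (nat_lit 183)) (XT.lf (nat_lit 0) (nat_lit 22222378728) (nat_lit 76) (nat_lit 2585750670) (nat_lit 152) (nat_lit 339090348361) (nat_lit 2) (nat_lit 5) (nat_lit 3) (nat_lit 5) (nat_lit 4) (nat_lit 4) (nat_lit 335) (nat_lit 263) (nat_lit 182)))))) (XT.nd (nat_lit 390) (nat_lit 0) (nat_lit 0) (XT.nd (nat_lit 156) (nat_lit 0) (nat_lit 0) (XT.nd (nat_lit 78) (nat_lit 0) (nat_lit 0) (XT.lf (nat_lit 0) (nat_lit 42303142825) (nat_lit 152) (nat_lit 334789140332) (nat_lit 0) (nat_lit 15028422811) (nat_lit 2) (nat_lit 5) (nat_lit 4) (nat_lit 4) (nat_lit 2) (nat_lit 4) (nat_lit 336) (nat_lit 263) (nat_lit 181)) (XT.lf (nat_lit 0) (nat_lit 61236411337) (nat_lit 152) (nat_lit 327404355206) (nat_lit 0) (nat_lit 33958014539) (nat_lit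 2) (nat_lit 5) (nat_lit 4) (nat_lit 4) (nat_lit 2) (nat_lit 4) (nat_lit 337) (nat_lit 263) (nat_lit 180))) (XT.nd (nat_lit 78) (nat_lit 0) (nat_lit 0) (XT.lf (nat_lit 0) (nat_lit 81679761267) (nat_lit 152) (nat_lit 319437611151) (nat_lit 0) (nat_lit 54397960038) (nat_lit 2) (nat_lit 5) (nat_lit 4) (nat_lit 4) (nat_lit 2) (nat_lit 4) (nat_lit 338) (nat_lit 263) (nat_lit 179)) (XT.nd (nat_lit 78) (nat_lit 0) (nat_lit 0) (XT.lf (nat_lit 0) (nat_lit 103754338392) (nat_lit 152) (nat_lit 310841697830) (nat_lit 0) (nat_lit 76469384913) (nat_lit 2) (nat_lit 5) (nat_lit 4) (nat_lit 4) (nat_lit 2) (nat_lit 4) (nat_lit 339) (nat_lit 263) (nat_lit 178)) (XT.lf (nat_lit 0) (nat_lit 127590955022) (nat_lit 152) (nat_lit 301565676498) (nat_lit 0) (nat_lit 100303082792) (nat_lit 2) (nat_lit 5) (nat_lit 4) (nat_lit 4) (nat_lit 2) (nat_lit 4) (nat_lit 340) (nat_lit 263) (nat_lit 177))))) (XT.nd (nat_lit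 234) (nat_lit 0) (nat_lit 0) (XT.nd (nat_lit 78) (nat_lit 0) (nat_lit 0) (XT.lf (nat_lit 0) (nat_lit 153330865180) (nat_lit 152) (nat_lit 291554578140) (nat_lit 0) (nat_lit 126040290404) (nat_lit 2) (nat_lit 5) (nat_lit 4) (nat_lit 4) (nat_lit 2) (nat_lit 4) (nat_lit 341) (nat_lit 263) (nat_lit 176)) (XT.nd (nat_lit 78) (nat_lit 0) (nat_lit 0) (XT.lf (nat_lit 0) (nat_lit 181126601668) (nat_lit 152) (nat_lit 280749077729) (nat_lit 0) (nat_lit 153833524534) (nat_lit 2) (nat_lit 5) (nat_lit 4) (nat_lit 4) (nat_lit 2) (nat_lit 4) (nat_lit 342) (nat_lit 263) (nat_lit 175)) (XT.lf (nat_lit 0) (nat_lit 211142879961) (nat_lit 152) (nat_lit 269085142669) (nat_lit 0) (nat_lit 183847485829) (nat_lit 2) (nat_lit 5) (nat_lit 4) (nat_lit 4) (nat_lit 2) (nat_lit 4) (nat_lit 343) (nat_lit 263) (nat_lit 174)))) (XT.nd (nat_lit 78) (nat_lit 0) (nat_lit 0) (XT.lf (nat_lit 0) (nat_lit 243557574301) (nat_lit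 152) (nat_lit 256493653346) (nat_lit 0) (nat_lit 216260034800) (nat_lit 2) (nat_lit 5) (nat_lit 4) (nat_lit 4) (nat_lit 2) (nat_lit 4) (nat_lit 344) (nat_lit 263) (nat_lit 173)) (XT.nd (nat_lit 78) (nat_lit 0) (nat_lit 0) (XT.lf (nat_lit 0) (nat_lit 278562771766) (nat_lit 152) (nat_lit 242899993526) (nat_lit 0) (nat_lit 251263245812) (nat_lit 2) (nat_lit 5) (nat_lit 4) (nat_lit 4) (nat_lit 2) (nat_lit 4) (nat_lit 345) (nat_lit 263) (nat_lit 172)) (XT.lf (nat_lit 0) (nat_lit 316365910562) (nat_lit 152) (nat_lit 228223608189) (nat_lit 0) (nat_lit 289064545300) (nat_lit 2) (nat_lit 5) (nat_lit 4) (nat_lit 4) (nat_lit 2) (nat_lit 4) (nat_lit 346) (nat_lit 263) (nat_lit 171))))))) (XT.nd (nat_lit 34788) (nat_lit 0) (nat_lit 3876) (XT.nd (nat_lit 34320) (nat_lit 0) (nat_lit 7980) (XT.nd (nat_lit 156) (nat_lit 0) (nat_lit 0) (XT.nd (nat_lit 78) (nat_lit 0) (nat_lit 0) (XT.lf (nat_lit 0) (nat_lit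 357191009290) (nat_lit 152) (nat_lit 212377526161) (nat_lit 0) (nat_lit 329887940965) (nat_lit 2) (nat_lit 5) (nat_lit 4) (nat_lit 4) (nat_lit 2) (nat_lit 4) (nat_lit 347) (nat_lit 263) (nat_lit 170)) (XT.lf (nat_lit 0) (nat_lit 401279994461) (nat_lit 152) (nat_lit 195267844735) (nat_lit 0) (nat_lit 373975349226) (nat_lit 2) (nat_lit 5) (nat_lit 4) (nat_lit 4) (nat_lit 2) (nat_lit 4) (nat_lit 348) (nat_lit 263) (nat_lit 169))) (XT.nd (nat_lit 34008) (nat_lit 0) (nat_lit 8968) (XT.lf (nat_lit 0) (nat_lit 448894134135) (nat_lit 152) (nat_lit 176793173205) (nat_lit 0) (nat_lit 421588028798) (nat_lit 2) (nat_lit 5) (nat_lit 4) (nat_lit 4) (nat_lit 2) (nat_lit 4) (nat_lit 349) (nat_lit 263) (nat_lit 168)) (XT.nd (nat_lit 78) (nat_lit 456) (nat_lit 0) (XT.lf (nat_lit 0) (nat_lit 1051666613) (nat_lit 0) (nat_lit 1051666613) (nat_lit 380) (nat_lit 1352023150) (nat_lit 126) (nat_lit 5) (nat_lit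 126) (nat_lit 3) (nat_lit 131) (nat_lit 3) (nat_lit 264) (nat_lit 264) (nat_lit 252)) (XT.lf (nat_lit 0) (nat_lit 152347386) (nat_lit 456) (nat_lit 6672276772) (nat_lit 532) (nat_lit 214555639) (nat_lit 120) (nat_lit 5) (nat_lit 126) (nat_lit 5) (nat_lit 127) (nat_lit 5) (nat_lit 265) (nat_lit 264) (nat_lit 251))))) (XT.nd (nat_lit 234) (nat_lit 532) (nat_lit 0) (XT.nd (nat_lit 78) (nat_lit 456) (nat_lit 0) (XT.lf (nat_lit 0) (nat_lit 2977343243) (nat_lit 456) (nat_lit 1302361506) (nat_lit 532) (nat_lit 2904904913) (nat_lit 120) (nat_lit 5) (nat_lit 126) (nat_lit 5) (nat_lit 127) (nat_lit 5) (nat_lit 266) (nat_lit 264) (nat_lit 250)) (XT.nd (nat_lit 78) (nat_lit 456) (nat_lit 0) (XT.lf (nat_lit 76) (nat_lit 4480372322) (nat_lit 0) (nat_lit 1352158772) (nat_lit 532) (nat_lit 1519528807) (nat_lit 121) (nat_lit 5) (nat_lit 120) (nat_lit 5) (nat_lit 127) (nat_lit 5) (nat_lit 267) (nat_lit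 264) (nat_lit 249)) (XT.lf (nat_lit 0) (nat_lit 1189451692) (nat_lit 532) (nat_lit 4415157278) (nat_lit 608) (nat_lit 1935217820) (nat_lit 114) (nat_lit 5) (nat_lit 121) (nat_lit 5) (nat_lit 122) (nat_lit 5) (nat_lit 268) (nat_lit 264) (nat_lit 248)))) (XT.nd (nat_lit 78) (nat_lit 532) (nat_lit 0) (XT.lf (nat_lit 76) (nat_lit 1802972200) (nat_lit 0) (nat_lit 2125973926) (nat_lit 608) (nat_lit 3819558088) (nat_lit 115) (nat_lit 5) (nat_lit 114) (nat_lit 5) (nat_lit 122) (nat_lit 5) (nat_lit 269) (nat_lit 264) (nat_lit 247)) (XT.nd (nat_lit 78) (nat_lit 76) (nat_lit 0) (XT.lf (nat_lit 0) (nat_lit 522449603) (nat_lit 532) (nat_lit 6257317561) (nat_lit 608) (nat_lit 1199950609) (nat_lit 108) (nat_lit 5) (nat_lit 115) (nat_lit 5) (nat_lit 116) (nat_lit 5) (nat_lit 270) (nat_lit 264) (nat_lit 246)) (XT.lf (nat_lit 0) (nat_lit 1508463471) (nat_lit 608) (nat_lit 740564157) (nat_lit 76) (nat_lit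 5982956865) (nat_lit 107) (nat_lit 5) (nat_lit 115) (nat_lit 5) (nat_lit 108) (nat_lit 5) (nat_lit 271) (nat_lit 264) (nat_lit 245)))))) (XT.nd (nat_lit 390) (nat_lit 1520) (nat_lit 0) (XT.nd (nat_lit 156) (nat_lit 1292) (nat_lit 0) (XT.nd (nat_lit 78) (nat_lit 684) (nat_lit 0) (XT.lf (nat_lit 0) (nat_lit 4335019753) (nat_lit 684) (nat_lit 2001429440) (nat_lit 76) (nat_lit 2170191989) (nat_lit 99) (nat_lit 5) (nat_lit 108) (nat_lit 5) (nat_lit 100) (nat_lit 5) (nat_lit 272) (nat_lit 264) (nat_lit 244)) (XT.lf (nat_lit 0) (nat_lit 5529746146) (nat_lit 684) (nat_lit 1813560322) (nat_lit 760) (nat_lit 1462524076) (nat_lit 90) (nat_lit 5) (nat_lit 99) (nat_lit 5) (nat_lit 100) (nat_lit 5) (nat_lit 273) (nat_lit 264) (nat_lit 243))) (XT.nd (nat_lit 78) (nat_lit 684) (nat_lit 0) (XT.lf (nat_lit 0) (nat_lit 1399624381) (nat_lit 608) (nat_lit 4613774477) (nat_lit 76) (nat_lit 3115556191) (nat_lit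 82) (nat_lit 5) (nat_lit 90) (nat_lit 5) (nat_lit 83) (nat_lit 5) (nat_lit 274) (nat_lit 264) (nat_lit 242)) (XT.nd (nat_lit 78) (nat_lit 304) (nat_lit 0) (XT.lf (nat_lit 0) (nat_lit 3462272226) (nat_lit 380) (nat_lit 957284418) (nat_lit 456) (nat_lit 5058449468) (nat_lit 77) (nat_lit 5) (nat_lit 82) (nat_lit 5) (nat_lit 83) (nat_lit 5) (nat_lit 275) (nat_lit 264) (nat_lit 241)) (XT.lf (nat_lit 0) (nat_lit 2336570410) (nat_lit 304) (nat_lit 5379311126) (nat_lit 380) (nat_lit 2137617202) (nat_lit 73) (nat_lit 5) (nat_lit 77) (nat_lit 5) (nat_lit 78) (nat_lit 5) (nat_lit 276) (nat_lit 264) (nat_lit 240))))) (XT.nd (nat_lit 234) (nat_lit 836) (nat_lit 0) (XT.nd (nat_lit 78) (nat_lit 304) (nat_lit 0) (XT.lf (nat_lit 0) (nat_lit 980542068) (nat_lit 380) (nat_lit 9102904502) (nat_lit 76) (nat_lit 175207003) (nat_lit 68) (nat_lit 5) (nat_lit 73) (nat_lit 5) (nat_lit 69) (nat_lit 5) (nat_lit 277)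 (nat_lit 264) (nat_lit 239)) (XT.nd (nat_lit 78) (nat_lit 304) (nat_lit 0) (XT.lf (nat_lit 0) (nat_lit 4358919299) (nat_lit 380) (nat_lit 190443751) (nat_lit 76) (nat_lit 6141032909) (nat_lit 68) (nat_lit 5) (nat_lit 73) (nat_lit 5) (nat_lit 69) (nat_lit 5) (nat_lit 278) (nat_lit 264) (nat_lit 238)) (XT.lf (nat_lit 0) (nat_lit 8052890348) (nat_lit 380) (nat_lit 1588729400) (nat_lit 76) (nat_lit 1512986392) (nat_lit 64) (nat_lit 5) (nat_lit 69) (nat_lit 5) (nat_lit 65) (nat_lit 5) (nat_lit 279) (nat_lit 264) (nat_lit 237)))) (XT.nd (nat_lit 78) (nat_lit 456) (nat_lit 0) (XT.lf (nat_lit 0) (nat_lit 466266378) (nat_lit 380) (nat_lit 3160001200) (nat_lit 76) (nat_lit 8024945069) (nat_lit 59) (nat_lit 5) (nat_lit 64) (nat_lit 5) (nat_lit 60) (nat_lit 5) (nat_lit 280) (nat_lit 264) (nat_lit 236)) (XT.nd (nat_lit 78) (nat_lit 228) (nat_lit 0) (XT.lf (nat_lit 0) (nat_lit 4284657349) (nat_lit 304)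 (nat_lit 4950368646) (nat_lit 76) (nat_lit 2946456210) (nat_lit 56) (nat_lit 5) (nat_lit 60) (nat_lit 5) (nat_lit 57) (nat_lit 5) (nat_lit 281) (nat_lit 264) (nat_lit 235)) (XT.lf (nat_lit 0) (nat_lit 5792085188) (nat_lit 228) (nat_lit 2712818544) (nat_lit 304) (nat_lit 4244597503) (nat_lit 53) (nat_lit 5) (nat_lit 56) (nat_lit 5) (nat_lit 57) (nat_lit 5) (nat_lit 282) (nat_lit 264) (nat_lit 234))))))))
noncomputable def xc56 : XT := (XT.nd (nat_lit 1638) (nat_lit 912) (nat_lit 0) (XT.nd (nat_lit 780) (nat_lit 1064) (nat_lit 0) (XT.nd (nat_lit 390) (nat_lit 684) (nat_lit 0) (XT.nd (nat_lit 156) (nat_lit 456) (nat_lit 0) (XT.nd (nat_lit 78) (nat_lit 304) (nat_lit 0) (XT.lf (nat_lit 0) (nat_lit 4130545231) (nat_lit 228) (nat_lit 9046348742) (nat_lit 304) (nat_lit 180497824) (nat_lit 50) (nat_lit 5) (nat_lit 53) (nat_lit 5) (nat_lit 54) (nat_lit 5) (nat_lit 283) (nat_lit 264) (nat_lit 233))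 (XT.lf (nat_lit 0) (nat_lit 2159948560) (nat_lit 228) (nat_lit 2014992266) (nat_lit 304) (nat_lit 9830761564) (nat_lit 46) (nat_lit 5) (nat_lit 49) (nat_lit 5) (nat_lit 50) (nat_lit 5) (nat_lit 284) (nat_lit 264) (nat_lit 232))) (XT.nd (nat_lit 78) (nat_lit 456) (nat_lit 0) (XT.lf (nat_lit 0) (nat_lit 9026109482) (nat_lit 304) (nat_lit 143472465) (nat_lit 76) (nat_lit 5528578222) (nat_lit 46) (nat_lit 5) (nat_lit 50) (nat_lit 5) (nat_lit 47) (nat_lit 5) (nat_lit 285) (nat_lit 264) (nat_lit 231)) (XT.nd (nat_lit 78) (nat_lit 304) (nat_lit 0) (XT.lf (nat_lit 0) (nat_lit 12739092012) (nat_lit 152) (nat_lit 1669400602) (nat_lit 228) (nat_lit 1030468893) (nat_lit 44) (nat_lit 5) (nat_lit 46) (nat_lit 5) (nat_lit 47) (nat_lit 5) (nat_lit 286) (nat_lit 264) (nat_lit 230)) (XT.lf (nat_lit 0) (nat_lit 4039519212) (nat_lit 304) (nat_lit 5767974381) (nat_lit 76) (nat_lit 6419288185) (nat_lit 40)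 (nat_lit 5) (nat_lit 44) (nat_lit 5) (nat_lit 41) (nat_lit 5) (nat_lit 287) (nat_lit 264) (nat_lit 229))))) (XT.nd (nat_lit 156) (nat_lit 380) (nat_lit 0) (XT.nd (nat_lit 78) (nat_lit 152) (nat_lit 0) (XT.lf (nat_lit 0) (nat_lit 7768641751) (nat_lit 152) (nat_lit 1825459136) (nat_lit 228) (nat_lit 7477011369) (nat_lit 38) (nat_lit 5) (nat_lit 40) (nat_lit 5) (nat_lit 41) (nat_lit 5) (nat_lit 288) (nat_lit 264) (nat_lit 228)) (XT.lf (nat_lit 0) (nat_lit 4530519835) (nat_lit 152) (nat_lit 11262459974) (nat_lit 228) (nat_lit 2180090687) (nat_lit 36) (nat_lit 5) (nat_lit 38) (nat_lit 5) (nat_lit 39) (nat_lit 5) (nat_lit 289) (nat_lit 264) (nat_lit 227))) (XT.nd (nat_lit 78) (nat_lit 152) (nat_lit 0) (XT.lf (nat_lit 0) (nat_lit 675985064) (nat_lit 152) (nat_lit 2881013536) (nat_lit 228) (nat_lit 15381004745) (nat_lit 33) (nat_lit 5) (nat_lit 35) (nat_lit 5) (nat_lit 36) (nat_lit 5) (nat_lit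 290) (nat_lit 264) (nat_lit 226)) (XT.nd (nat_lit 78) (nat_lit 152) (nat_lit 0) (XT.lf (nat_lit 0) (nat_lit 9938935971) (nat_lit 228) (nat_lit 3819322841) (nat_lit 76) (nat_lit 6207035588) (nat_lit 33) (nat_lit 5) (nat_lit 36) (nat_lit 5) (nat_lit 34) (nat_lit 5) (nat_lit 291) (nat_lit 264) (nat_lit 225)) (XT.lf (nat_lit 0) (nat_lit 12005202353) (nat_lit 152) (nat_lit 4994549720) (nat_lit 228) (nat_lit 4066659344) (nat_lit 31) (nat_lit 5) (nat_lit 33) (nat_lit 5) (nat_lit 34) (nat_lit 5) (nat_lit 292) (nat_lit 264) (nat_lit 224)))))) (XT.nd (nat_lit 390) (nat_lit 380) (nat_lit 0) (XT.nd (nat_lit 156) (nat_lit 304) (nat_lit 0) (XT.nd (nat_lit 78) (nat_lit 152) (nat_lit 0) (XT.lf (nat_lit 0) (nat_lit 2479085212) (nat_lit 228) (nat_lit 15259893043) (nat_lit 76) (nat_lit 4505585553) (nat_lit 28) (nat_lit 5) (nat_lit 31) (nat_lit 5) (nat_lit 29) (nat_lit 5) (nat_lit 293) (nat_lit 264) (nat_lit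 223)) (XT.lf (nat_lit 0) (nat_lit 897455031) (nat_lit 152) (nat_lit 8706334052) (nat_lit 228) (nat_lit 13900005259) (nat_lit 26) (nat_lit 5) (nat_lit 28) (nat_lit 5) (nat_lit 29) (nat_lit 5) (nat_lit 294) (nat_lit 264) (nat_lit 222))) (XT.nd (nat_lit 78) (nat_lit 304) (nat_lit 0) (XT.lf (nat_lit 0) (nat_lit 17524693267) (nat_lit 228) (nat_lit 6081353316) (nat_lit 76) (nat_lit 1246450038) (nat_lit 26) (nat_lit 5) (nat_lit 29) (nat_lit 5) (nat_lit 27) (nat_lit 4) (nat_lit 295) (nat_lit 264) (nat_lit 221)) (XT.nd (nat_lit 78) (nat_lit 152) (nat_lit 0) (XT.lf (nat_lit 0) (nat_lit 58844498) (nat_lit 152) (nat_lit 14391257325) (nat_lit 76) (nat_lit 11845146217) (nat_lit 24) (nat_lit 5) (nat_lit 26) (nat_lit 5) (nat_lit 25) (nat_lit 5) (nat_lit 296) (nat_lit 264) (nat_lit 220)) (XT.lf (nat_lit 0) (nat_lit 3594374402) (nat_lit 152) (nat_lit 4298493339) (nat_lit 228) (nat_lit 19948923068) (nat_lit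 22) (nat_lit 5) (nat_lit 24) (nat_lit 5) (nat_lit 25) (nat_lit 5) (nat_lit 297) (nat_lit 264) (nat_lit 219))))) (XT.nd (nat_lit 234) (nat_lit 76) (nat_lit 0) (XT.nd (nat_lit 78) (nat_lit 304) (nat_lit 0) (XT.lf (nat_lit 0) (nat_lit 16660467032) (nat_lit 228) (nat_lit 6165507533) (nat_lit 76) (nat_lit 6670773370) (nat_lit 22) (nat_lit 5) (nat_lit 25) (nat_lit 5) (nat_lit 23) (nat_lit 4) (nat_lit 298) (nat_lit 264) (nat_lit 218)) (XT.nd (nat_lit 78) (nat_lit 228) (nat_lit 0) (XT.lf (nat_lit 0) (nat_lit 13643277069) (nat_lit 76) (nat_lit 12723534678) (nat_lit 152) (nat_lit 4905454163) (nat_lit 21) (nat_lit 5) (nat_lit 22) (nat_lit 5) (nat_lit 23) (nat_lit 4) (nat_lit 299) (nat_lit 264) (nat_lit 217)) (XT.lf (nat_lit 0) (nat_lit 1995659209) (nat_lit 152) (nat_lit 1640741704) (nat_lit 228) (nat_lit 29545909871) (nat_lit 18) (nat_lit 5) (nat_lit 20) (nat_lit 5) (nat_lit 21) (nat_lit 5) (nat_lit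 300) (nat_lit 264) (nat_lit 216)))) (XT.nd (nat_lit 78) (nat_lit 76) (nat_lit 0) (XT.lf (nat_lit 0) (nat_lit 13120503616) (nat_lit 228) (nat_lit 11738961470) (nat_lit 76) (nat_lit 10360160613) (nat_lit 18) (nat_lit 5) (nat_lit 21) (nat_lit 5) (nat_lit 19) (nat_lit 4) (nat_lit 301) (nat_lit 264) (nat_lit 215)) (XT.nd (nat_lit 78) (nat_lit 0) (nat_lit 0) (XT.lf (nat_lit 0) (nat_lit 9465813029) (nat_lit 76) (nat_lit 14031387719) (nat_lit 152) (nat_lit 13916055302) (nat_lit 17) (nat_lit 5) (nat_lit 18) (nat_lit 5) (nat_lit 19) (nat_lit 4) (nat_lit 302) (nat_lit 264) (nat_lit 214)) (XT.lf (nat_lit 0) (nat_lit 32715351230) (nat_lit 76) (nat_lit 2153554973) (nat_lit 152) (nat_lit 4905248806) (nat_lit 17) (nat_lit 5) (nat_lit 18) (nat_lit 5) (nat_lit 19) (nat_lit 4) (nat_lit 303) (nat_lit 264) (nat_lit 213))))))) (XT.nd (nat_lit 858) (nat_lit 304) (nat_lit 0) (XT.nd (nat_lit 390) (nat_lit 228)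 (nat_lit 0) (XT.nd (nat_lit 156) (nat_lit 228) (nat_lit 0) (XT.nd (nat_lit 78) (nat_lit 0) (nat_lit 0) (XT.lf (nat_lit 0) (nat_lit 5053863579) (nat_lit 152) (nat_lit 26614568189) (nat_lit 76) (nat_lit 10632649798) (nat_lit 15) (nat_lit 5) (nat_lit 17) (nat_lit 5) (nat_lit 16) (nat_lit 4) (nat_lit 304) (nat_lit 264) (nat_lit 212)) (XT.lf (nat_lit 0) (nat_lit 15765457609) (nat_lit 152) (nat_lit 4706798193) (nat_lit 76) (nat_lit 24547523124) (nat_lit 15) (nat_lit 5) (nat_lit 17) (nat_lit 5) (nat_lit 16) (nat_lit 4) (nat_lit 305) (nat_lit 264) (nat_lit 211))) (XT.nd (nat_lit 78) (nat_lit 152) (nat_lit 0) (XT.lf (nat_lit 0) (nat_lit 19517853851) (nat_lit 76) (nat_lit 8087541414) (nat_lit 152) (nat_lit 20337022489) (nat_lit 14) (nat_lit 5) (nat_lit 15) (nat_lit 5) (nat_lit 16) (nat_lit 4) (nat_lit 306) (nat_lit 264) (nat_lit 210)) (XT.nd (nat_lit 78) (nat_lit 152) (nat_lit 0) (XT.lf (nat_lit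 0) (nat_lit 40526267040) (nat_lit 152) (nat_lit 5389117930) (nat_lit 0) (nat_lit 5176811032) (nat_lit 14) (nat_lit 5) (nat_lit 16) (nat_lit 4) (nat_lit 14) (nat_lit 4) (nat_lit 307) (nat_lit 264) (nat_lit 209)) (XT.lf (nat_lit 0) (nat_lit 411968408) (nat_lit 152) (nat_lit 34543476647) (nat_lit 76) (nat_lit 19517300404) (nat_lit 12) (nat_lit 5) (nat_lit 14) (nat_lit 5) (nat_lit 13) (nat_lit 4) (nat_lit 308) (nat_lit 264) (nat_lit 208))))) (XT.nd (nat_lit 234) (nat_lit 152) (nat_lit 0) (XT.nd (nat_lit 78) (nat_lit 76) (nat_lit 0) (XT.lf (nat_lit 0) (nat_lit 11969420891) (nat_lit 152) (nat_lit 10886398940) (nat_lit 76) (nat_lit 35255695806) (nat_lit 12) (nat_lit 5) (nat_lit 14) (nat_lit 5) (nat_lit 13) (nat_lit 4) (nat_lit 309) (nat_lit 264) (nat_lit 207)) (XT.nd (nat_lit 78) (nat_lit 0) (nat_lit 0) (XT.lf (nat_lit 0) (nat_lit 15097166963) (nat_lit 76) (nat_lit 9563288735) (nat_lit 152) (nat_lit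 37370493971) (nat_lit 11) (nat_lit 5) (nat_lit 12) (nat_lit 5) (nat_lit 13) (nat_lit 4) (nat_lit 310) (nat_lit 264) (nat_lit 206)) (XT.lf (nat_lit 0) (nat_lit 38608525057) (nat_lit 152) (nat_lit 22832310563) (nat_lit 0) (nat_lit 4811025899) (nat_lit 11) (nat_lit 5) (nat_lit 13) (nat_lit 4) (nat_lit 11) (nat_lit 4) (nat_lit 311) (nat_lit 264) (nat_lit 205)))) (XT.nd (nat_lit 78) (nat_lit 76) (nat_lit 0) (XT.lf (nat_lit 0) (nat_lit 3090412897) (nat_lit 76) (nat_lit 50767626360) (nat_lit 76) (nat_lit 16943136992) (nat_lit 10) (nat_lit 4) (nat_lit 11) (nat_lit 5) (nat_lit 11) (nat_lit 4) (nat_lit 312) (nat_lit 264) (nat_lit 204)) (XT.nd (nat_lit 78) (nat_lit 76) (nat_lit 0) (XT.lf (nat_lit 0) (nat_lit 31859699208) (nat_lit 76) (nat_lit 38842740089) (nat_lit 76) (nat_lit 4993259787) (nat_lit 10) (nat_lit 4) (nat_lit 11) (nat_lit 5) (nat_lit 11) (nat_lit 4) (nat_lit 313) (nat_lit 264) (nat_lit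 203)) (XT.lf (nat_lit 0) (nat_lit 7637889880) (nat_lit 152) (nat_lit 18214945802) (nat_lit 76) (nat_lit 55123852487) (nat_lit 9) (nat_lit 5) (nat_lit 11) (nat_lit 5) (nat_lit 10) (nat_lit 4) (nat_lit 314) (nat_lit 264) (nat_lit 202)))))) (XT.nd (nat_lit 390) (nat_lit 152) (nat_lit 0) (XT.nd (nat_lit 156) (nat_lit 76) (nat_lit 0) (XT.nd (nat_lit 78) (nat_lit 0) (nat_lit 0) (XT.lf (nat_lit 0) (nat_lit 9643056919) (nat_lit 76) (nat_lit 11594554141) (nat_lit 152) (nat_lit 65431809014) (nat_lit 8) (nat_lit 5) (nat_lit 9) (nat_lit 5) (nat_lit 10) (nat_lit 4) (nat_lit 315) (nat_lit 264) (nat_lit 201)) (XT.lf (nat_lit 0) (nat_lit 36287984116) (nat_lit 152) (nat_lit 52522413007) (nat_lit 0) (nat_lit 3989046626) (nat_lit 8) (nat_lit 5) (nat_lit 10) (nat_lit 4) (nat_lit 8) (nat_lit 4) (nat_lit 316) (nat_lit 264) (nat_lit 200))) (XT.nd (nat_lit 78) (nat_lit 76) (nat_lit 0) (XT.lf (nat_lit 0) (nat_lit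 52720098740) (nat_lit 152) (nat_lit 26287224521) (nat_lit 0) (nat_lit 20403666885) (nat_lit 8) (nat_lit 5) (nat_lit 10) (nat_lit 4) (nat_lit 8) (nat_lit 4) (nat_lit 317) (nat_lit 264) (nat_lit 199)) (XT.nd (nat_lit 78) (nat_lit 0) (nat_lit 0) (XT.lf (nat_lit 0) (nat_lit 2082341502) (nat_lit 76) (nat_lit 68400476627) (nat_lit 76) (nat_lit 36067846286) (nat_lit 7) (nat_lit 4) (nat_lit 8) (nat_lit 5) (nat_lit 8) (nat_lit 4) (nat_lit 318) (nat_lit 264) (nat_lit 198)) (XT.lf (nat_lit 0) (nat_lit 33630446579) (nat_lit 76) (nat_lit 56478295565) (nat_lit 76) (nat_lit 24130666626) (nat_lit 7) (nat_lit 4) (nat_lit 8) (nat_lit 5) (nat_lit 8) (nat_lit 4) (nat_lit 319) (nat_lit 264) (nat_lit 197))))) (XT.nd (nat_lit 234) (nat_lit 0) (nat_lit 0) (XT.nd (nat_lit 78) (nat_lit 152) (nat_lit 0) (XT.lf (nat_lit 0) (nat_lit 67674868085) (nat_lit 76) (nat_lit 43615316980) (nat_lit 76) (nat_lit 11253800450)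 (nat_lit 7) (nat_lit 4) (nat_lit 8) (nat_lit 5) (nat_lit 8) (nat_lit 4) (nat_lit 320) (nat_lit 264) (nat_lit 196)) (XT.nd (nat_lit 78) (nat_lit 76) (nat_lit 0) (XT.lf (nat_lit 0) (nat_lit 2554593206) (nat_lit 152) (nat_lit 27137459337) (nat_lit 76) (nat_lit 101819494259) (nat_lit 6) (nat_lit 5) (nat_lit 8) (nat_lit 5) (nat_lit 7) (nat_lit 4) (nat_lit 321) (nat_lit 264) (nat_lit 195)) (XT.lf (nat_lit 0) (nat_lit 2684876700) (nat_lit 76) (nat_lit 14423005485) (nat_lit 152) (nat_lit 124077685428) (nat_lit 5) (nat_lit 5) (nat_lit 6) (nat_lit 5) (nat_lit 7) (nat_lit 4) (nat_lit 322) (nat_lit 264) (nat_lit 194)))) (XT.nd (nat_lit 78) (nat_lit 0) (nat_lit 0) (XT.lf (nat_lit 0) (nat_lit 33325905035) (nat_lit 152) (nat_lit 115811257663) (nat_lit 0) (nat_lit 2471327704) (nat_lit 5) (nat_lit 5) (nat_lit 7) (nat_lit 4) (nat_lit 5) (nat_lit 4) (nat_lit 323) (nat_lit 264) (nat_lit 193)) (XT.nd (nat_lit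 78) (nat_lit 0) (nat_lit 0) (XT.lf (nat_lit 0) (nat_lit 51073201052) (nat_lit 152) (nat_lit 91571555948) (nat_lit 0) (nat_lit 20208902011) (nat_lit 5) (nat_lit 5) (nat_lit 7) (nat_lit 4) (nat_lit 5) (nat_lit 4) (nat_lit 324) (nat_lit 264) (nat_lit 192)) (XT.lf (nat_lit 0) (nat_lit 70229755860) (nat_lit 152) (nat_lit 65412759555) (nat_lit 0) (nat_lit 39356455238) (nat_lit 5) (nat_lit 5) (nat_lit 7) (nat_lit 4) (nat_lit 5) (nat_lit 4) (nat_lit 325) (nat_lit 264) (nat_lit 191))))))))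
noncomputable def xc57 : XT := (XT.nd (nat_lit 1638) (nat_lit 0) (nat_lit 0) (XT.nd (nat_lit 780) (nat_lit 76) (nat_lit 0) (XT.nd (nat_lit 390) (nat_lit 76) (nat_lit 0) (XT.nd (nat_lit 156) (nat_lit 76) (nat_lit 0) (XT.nd (nat_lit 78) (nat_lit 0) (nat_lit 0) (XT.lf (nat_lit 0) (nat_lit 90909089784) (nat_lit 152) (nat_lit 37179853396) (nat_lit 0) (nat_lit 60027454364) (nat_lit 5) (nat_lit 5) (nat_lit 7) (nat_lit 4) (nat_lit 5) (nat_lit 4) (nat_lit 326) (nat_lit 264) (nat_lit 190)) (XT.lf (nat_lit 0) (nat_lit 113233747027) (nat_lit 152) (nat_lit 6705531360) (nat_lit 0) (nat_lit 82344394201) (nat_lit 5) (nat_lit 5) (nat_lit 7) (nat_lit 4) (nat_lit 5) (nat_lit 4) (nat_lit 327) (nat_lit 264) (nat_lit 189))) (XT.nd (nat_lit 78) (nat_lit 0) (nat_lit 0) (XT.lf (nat_lit 0) (nat_lit 27056781096) (nat_lit 76) (nat_lit 110701672936) (nat_lit 76) (nat_lit 79805174364) (nat_lit 4) (nat_lit 4) (nat_lit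 5) (nat_lit 5) (nat_lit 5) (nat_lit 4) (nat_lit 328) (nat_lit 264) (nat_lit 188)) (XT.nd (nat_lit 78) (nat_lit 0) (nat_lit 0) (XT.lf (nat_lit 0) (nat_lit 63744282391) (nat_lit 76) (nat_lit 100609687056) (nat_lit 76) (nat_lit 69706572054) (nat_lit 4) (nat_lit 4) (nat_lit 5) (nat_lit 5) (nat_lit 5) (nat_lit 4) (nat_lit 329) (nat_lit 264) (nat_lit 187)) (XT.lf (nat_lit 0) (nat_lit 103352664788) (nat_lit 76) (nat_lit 89717077808) (nat_lit 76) (nat_lit 58807836479) (nat_lit 4) (nat_lit 4) (nat_lit 5) (nat_lit 5) (nat_lit 5) (nat_lit 4) (nat_lit 330) (nat_lit 264) (nat_lit 186))))) (XT.nd (nat_lit 156) (nat_lit 76) (nat_lit 0) (XT.nd (nat_lit 78) (nat_lit 0) (nat_lit 0) (XT.lf (nat_lit 0) (nat_lit 146116644629) (nat_lit 76) (nat_lit 77959296393) (nat_lit 76) (nat_lit 47044382541) (nat_lit 4) (nat_lit 4) (nat_lit 5) (nat_lit 5) (nat_lit 5) (nat_lit 4) (nat_lit 331) (nat_lit 264) (nat_lit 185))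 (XT.lf (nat_lit 0) (nat_lit 192289638090) (nat_lit 76) (nat_lit 65266667072) (nat_lit 76) (nat_lit 34346500884) (nat_lit 4) (nat_lit 4) (nat_lit 5) (nat_lit 5) (nat_lit 5) (nat_lit 4) (nat_lit 332) (nat_lit 264) (nat_lit 184))) (XT.nd (nat_lit 78) (nat_lit 76) (nat_lit 0) (XT.lf (nat_lit 0) (nat_lit 242145262910) (nat_lit 76) (nat_lit 51563974262) (nat_lit 76) (nat_lit 20638944799) (nat_lit 4) (nat_lit 4) (nat_lit 5) (nat_lit 5) (nat_lit 5) (nat_lit 4) (nat_lit 333) (nat_lit 264) (nat_lit 183)) (XT.nd (nat_lit 78) (nat_lit 76) (nat_lit 0) (XT.lf (nat_lit 0) (nat_lit 295978959829) (nat_lit 76) (nat_lit 36770016822) (nat_lit 76) (nat_lit 5840484327) (nat_lit 4) (nat_lit 4) (nat_lit 5) (nat_lit 5) (nat_lit 5) (nat_lit 4) (nat_lit 334) (nat_lit 264) (nat_lit 182)) (XT.lf (nat_lit 0) (nat_lit 9812141406) (nat_lit 152) (nat_lit 10818812086) (nat_lit 76) (nat_lit 344131428578) (nat_lit 3) (nat_lit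 5) (nat_lit 5) (nat_lit 5) (nat_lit 4) (nat_lit 4) (nat_lit 335) (nat_lit 264) (nat_lit 181)))))) (XT.nd (nat_lit 390) (nat_lit 0) (nat_lit 0) (XT.nd (nat_lit 156) (nat_lit 0) (nat_lit 0) (XT.nd (nat_lit 78) (nat_lit 0) (nat_lit 0) (XT.lf (nat_lit 0) (nat_lit 24182672278) (nat_lit 76) (nat_lit 2705247171) (nat_lit 152) (nat_lit 366117653248) (nat_lit 2) (nat_lit 5) (nat_lit 3) (nat_lit 5) (nat_lit 4) (nat_lit 4) (nat_lit 336) (nat_lit 264) (nat_lit 180)) (XT.lf (nat_lit 0) (nat_lit 45776749518) (nat_lit 152) (nat_lit 361400121053) (nat_lit 0) (nat_lit 16308999761) (nat_lit 2) (nat_lit 5) (nat_lit 4) (nat_lit 4) (nat_lit 2) (nat_lit 4) (nat_lit 337) (nat_lit 264) (nat_lit 179))) (XT.nd (nat_lit 78) (nat_lit 0) (nat_lit 0) (XT.lf (nat_lit 0) (nat_lit 66218060602) (nat_lit 152) (nat_lit 353437305007) (nat_lit 0) (nat_lit 36747158594) (nat_lit 2) (nat_lit 5) (nat_lit 4) (nat_lit 4) (nat_lit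 2) (nat_lit 4) (nat_lit 338) (nat_lit 264) (nat_lit 178)) (XT.nd (nat_lit 78) (nat_lit 0) (nat_lit 0) (XT.lf (nat_lit 0) (nat_lit 88290749908) (nat_lit 152) (nat_lit 344845028731) (nat_lit 0) (nat_lit 58816929149) (nat_lit 2) (nat_lit 5) (nat_lit 4) (nat_lit 4) (nat_lit 2) (nat_lit 4) (nat_lit 339) (nat_lit 264) (nat_lit 177)) (XT.lf (nat_lit 0) (nat_lit 112125618556) (nat_lit 152) (nat_lit 335572375035) (nat_lit 0) (nat_lit 82649095251) (nat_lit 2) (nat_lit 5) (nat_lit 4) (nat_lit 4) (nat_lit 2) (nat_lit 4) (nat_lit 340) (nat_lit 264) (nat_lit 176))))) (XT.nd (nat_lit 234) (nat_lit 0) (nat_lit 0) (XT.nd (nat_lit 78) (nat_lit 0) (nat_lit 0) (XT.lf (nat_lit 0) (nat_lit 137863910213) (nat_lit 152) (nat_lit 325564394857) (nat_lit 0) (nat_lit 108384884550) (nat_lit 2) (nat_lit 5) (nat_lit 4) (nat_lit 4) (nat_lit 2) (nat_lit 4) (nat_lit 341) (nat_lit 264) (nat_lit 175)) (XT.nd (nat_lit 78)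 (nat_lit 0) (nat_lit 0) (XT.lf (nat_lit 0) (nat_lit 165658148088) (nat_lit 152) (nat_lit 314761781650) (nat_lit 0) (nat_lit 136176805427) (nat_lit 2) (nat_lit 5) (nat_lit 4) (nat_lit 4) (nat_lit 2) (nat_lit 4) (nat_lit 342) (nat_lit 264) (nat_lit 174)) (XT.lf (nat_lit 0) (nat_lit 195673038777) (nat_lit 152) (nat_lit 303100519927) (nat_lit 0) (nat_lit 166189550747) (nat_lit 2) (nat_lit 5) (nat_lit 4) (nat_lit 4) (nat_lit 2) (nat_lit 4) (nat_lit 343) (nat_lit 264) (nat_lit 173)))) (XT.nd (nat_lit 78) (nat_lit 0) (nat_lit 0) (XT.lf (nat_lit 0) (nat_lit 228086448298) (nat_lit 152) (nat_lit 290511505916) (nat_lit 0) (nat_lit 198600973816) (nat_lit 2) (nat_lit 5) (nat_lit 4) (nat_lit 4) (nat_lit 2) (nat_lit 4) (nat_lit 344) (nat_lit 264) (nat_lit 172)) (XT.nd (nat_lit 78) (nat_lit 0) (nat_lit 0) (XT.lf (nat_lit 0) (nat_lit 263090456116) (nat_lit 152) (nat_lit 276920138052) (nat_lit 0) (nat_lit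 233603142326) (nat_lit 2) (nat_lit 5) (nat_lit 4) (nat_lit 4) (nat_lit 2) (nat_lit 4) (nat_lit 345) (nat_lit 264) (nat_lit 171)) (XT.lf (nat_lit 0) (nat_lit 300892493387) (nat_lit 152) (nat_lit 262245874896) (nat_lit 0) (nat_lit 271403476534) (nat_lit 2) (nat_lit 5) (nat_lit 4) (nat_lit 4) (nat_lit 2) (nat_lit 4) (nat_lit 346) (nat_lit 264) (nat_lit 170))))))) (XT.nd (nat_lit 34866) (nat_lit 0) (nat_lit 3876) (XT.nd (nat_lit 34398) (nat_lit 0) (nat_lit 7372) (XT.nd (nat_lit 156) (nat_lit 0) (nat_lit 0) (XT.nd (nat_lit 78) (nat_lit 0) (nat_lit 0) (XT.lf (nat_lit 0) (nat_lit 341716572185) (nat_lit 152) (nat_lit 246401757851) (nat_lit 0) (nat_lit 312225978421) (nat_lit 2) (nat_lit 5) (nat_lit 4) (nat_lit 4) (nat_lit 2) (nat_lit 4) (nat_lit 347) (nat_lit 264) (nat_lit 169)) (XT.lf (nat_lit 0) (nat_lit 385804612975) (nat_lit 152) (nat_lit 229293895853) (nat_lit 0) (nat_lit 356312559110) (nat_lit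 2) (nat_lit 5) (nat_lit 4) (nat_lit 4) (nat_lit 2) (nat_lit 4) (nat_lit 348) (nat_lit 264) (nat_lit 168))) (XT.nd (nat_lit 34086) (nat_lit 0) (nat_lit 8892) (XT.lf (nat_lit 0) (nat_lit 433417878223) (nat_lit 152) (nat_lit 210820908979) (nat_lit 0) (nat_lit 403924472412) (nat_lit 2) (nat_lit 5) (nat_lit 4) (nat_lit 4) (nat_lit 2) (nat_lit 4) (nat_lit 349) (nat_lit 264) (nat_lit 167)) (XT.nd (nat_lit 78) (nat_lit 0) (nat_lit 0) (XT.lf (nat_lit 0) (nat_lit 1382941090) (nat_lit 532) (nat_lit 1101944664) (nat_lit 532) (nat_lit 1101944664) (nat_lit 119) (nat_lit 3) (nat_lit 126) (nat_lit 3) (nat_lit 126) (nat_lit 5) (nat_lit 265) (nat_lit 265) (nat_lit 250)) (XT.lf (nat_lit 76) (nat_lit 3214788132) (nat_lit 0) (nat_lit 2168455504) (nat_lit 532) (nat_lit 1946515133) (nat_lit 120) (nat_lit 5) (nat_lit 119) (nat_lit 3) (nat_lit 126) (nat_lit 5) (nat_lit 266) (nat_lit 265) (nat_lit 249))))) (XT.nd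 (nat_lit 234) (nat_lit 1064) (nat_lit 0) (XT.nd (nat_lit 78) (nat_lit 0) (nat_lit 0) (XT.lf (nat_lit 0) (nat_lit 515865424) (nat_lit 532) (nat_lit 5979620635) (nat_lit 608) (nat_lit 1011478497) (nat_lit 113) (nat_lit 5) (nat_lit 120) (nat_lit 5) (nat_lit 121) (nat_lit 5) (nat_lit 267) (nat_lit 265) (nat_lit 248)) (XT.nd (nat_lit 78) (nat_lit 0) (nat_lit 76) (XT.lf (nat_lit 0) (nat_lit 2983045031) (nat_lit 532) (nat_lit 147434492) (nat_lit 608) (nat_lit 4572957848) (nat_lit 113) (nat_lit 5) (nat_lit 120) (nat_lit 5) (nat_lit 121) (nat_lit 5) (nat_lit 268) (nat_lit 265) (nat_lit 247)) (XT.lf (nat_lit 0) (nat_lit 5538275718) (nat_lit 532) (nat_lit 1721608336) (nat_lit 608) (nat_lit 661660416) (nat_lit 114) (nat_lit 5) (nat_lit 121) (nat_lit 5) (nat_lit 122) (nat_lit 5) (nat_lit 269) (nat_lit 265) (nat_lit 246)))) (XT.nd (nat_lit 78) (nat_lit 532) (nat_lit 0) (XT.lf (nat_lit 0) (nat_lit 64176355)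 (nat_lit 608) (nat_lit 3300518243) (nat_lit 684) (nat_lit 4796299745) (nat_lit 106) (nat_lit 5) (nat_lit 114) (nat_lit 5) (nat_lit 115) (nat_lit 5) (nat_lit 270) (nat_lit 265) (nat_lit 245)) (XT.nd (nat_lit 78) (nat_lit 608) (nat_lit 0) (XT.lf (nat_lit 0) (nat_lit 2534182833) (nat_lit 608) (nat_lit 4899171043) (nat_lit 76) (nat_lit 989147307) (nat_lit 107) (nat_lit 5) (nat_lit 115) (nat_lit 5) (nat_lit 108) (nat_lit 5) (nat_lit 271) (nat_lit 265) (nat_lit 244)) (XT.lf (nat_lit 0) (nat_lit 2171971454) (nat_lit 608) (nat_lit 2999089938) (nat_lit 684) (nat_lit 3535744036) (nat_lit 99) (nat_lit 5) (nat_lit 107) (nat_lit 5) (nat_lit 108) (nat_lit 5) (nat_lit 272) (nat_lit 265) (nat_lit 243)))))) (XT.nd (nat_lit 390) (nat_lit 1444) (nat_lit 0) (XT.nd (nat_lit 156) (nat_lit 1292) (nat_lit 0) (XT.nd (nat_lit 78) (nat_lit 76) (nat_lit 0) (XT.lf (nat_lit 0) (nat_lit 819594734) (nat_lit 684) (nat_lit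 7158477387) (nat_lit 760) (nat_lit 1038138018) (nat_lit 90) (nat_lit 5) (nat_lit 99) (nat_lit 5) (nat_lit 100) (nat_lit 5) (nat_lit 273) (nat_lit 265) (nat_lit 242)) (XT.lf (nat_lit 0) (nat_lit 1611469246) (nat_lit 760) (nat_lit 577760324) (nat_lit 76) (nat_lit 7159855330) (nat_lit 89) (nat_lit 5) (nat_lit 99) (nat_lit 5) (nat_lit 90) (nat_lit 5) (nat_lit 274) (nat_lit 265) (nat_lit 241))) (XT.nd (nat_lit 78) (nat_lit 760) (nat_lit 0) (XT.lf (nat_lit 0) (nat_lit 4461012672) (nat_lit 608) (nat_lit 2019865904) (nat_lit 76) (nat_lit 3225900569) (nat_lit 82) (nat_lit 5) (nat_lit 90) (nat_lit 5) (nat_lit 83) (nat_lit 5) (nat_lit 275) (nat_lit 265) (nat_lit 240)) (XT.nd (nat_lit 78) (nat_lit 380) (nat_lit 0) (XT.lf (nat_lit 0) (nat_lit 6573495709) (nat_lit 380) (nat_lit 974818832) (nat_lit 456) (nat_lit 2544522956) (nat_lit 77) (nat_lit 5) (nat_lit 82) (nat_lit 5) (nat_lit 83) (nat_lit 5) (nat_lit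 276) (nat_lit 265) (nat_lit 239)) (XT.lf (nat_lit 0) (nat_lit 427231316) (nat_lit 380) (nat_lit 5142757878) (nat_lit 76) (nat_lit 4936393247) (nat_lit 72) (nat_lit 5) (nat_lit 77) (nat_lit 5) (nat_lit 73) (nat_lit 5) (nat_lit 277) (nat_lit 265) (nat_lit 238))))) (XT.nd (nat_lit 234) (nat_lit 532) (nat_lit 0) (XT.nd (nat_lit 78) (nat_lit 608) (nat_lit 0) (XT.lf (nat_lit 0) (nat_lit 3572400611) (nat_lit 380) (nat_lit 6894903479) (nat_lit 76) (nat_lit 482574685) (nat_lit 68) (nat_lit 5) (nat_lit 73) (nat_lit 5) (nat_lit 69) (nat_lit 5) (nat_lit 278) (nat_lit 265) (nat_lit 237)) (XT.nd (nat_lit 78) (nat_lit 304) (nat_lit 0) (XT.lf (nat_lit 0) (nat_lit 2596148322) (nat_lit 304) (nat_lit 4479253947) (nat_lit 380) (nat_lit 4348321779) (nat_lit 64) (nat_lit 5) (nat_lit 68) (nat_lit 5) (nat_lit 69) (nat_lit 5) (nat_lit 279) (nat_lit 265) (nat_lit 236)) (XT.lf (nat_lit 0) (nat_lit 1024238028) (nat_lit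 304) (nat_lit 9890650774) (nat_lit 380) (nat_lit 1017942730) (nat_lit 60) (nat_lit 5) (nat_lit 64) (nat_lit 5) (nat_lit 65) (nat_lit 5) (nat_lit 280) (nat_lit 265) (nat_lit 235)))) (XT.nd (nat_lit 78) (nat_lit 456) (nat_lit 0) (XT.lf (nat_lit 0) (nat_lit 2619681537) (nat_lit 380) (nat_lit 750334361) (nat_lit 76) (nat_lit 9104617928) (nat_lit 59) (nat_lit 5) (nat_lit 64) (nat_lit 5) (nat_lit 60) (nat_lit 5) (nat_lit 281) (nat_lit 265) (nat_lit 234)) (XT.nd (nat_lit 78) (nat_lit 228) (nat_lit 0) (XT.lf (nat_lit 0) (nat_lit 6635106743) (nat_lit 304) (nat_lit 2705574979) (nat_lit 76) (nat_lit 3712277683) (nat_lit 56) (nat_lit 5) (nat_lit 60) (nat_lit 5) (nat_lit 57) (nat_lit 5) (nat_lit 282) (nat_lit 265) (nat_lit 233)) (XT.lf (nat_lit 0) (nat_lit 8781508204) (nat_lit 228) (nat_lit 2302186648) (nat_lit 304) (nat_lit 2588385859) (nat_lit 53) (nat_lit 5) (nat_lit 56) (nat_lit 5) (nat_lit 57)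 (nat_lit 5) (nat_lit 283) (nat_lit 265) (nat_lit 232))))))))
noncomputable def xc58 : XT := (XT.nd (nat_lit 1638) (nat_lit 912) (nat_lit 0) (XT.nd (nat_lit 780) (nat_lit 1064) (nat_lit 0) (XT.nd (nat_lit 390) (nat_lit 684) (nat_lit 0) (XT.nd (nat_lit 156) (nat_lit 456) (nat_lit 0) (XT.nd (nat_lit 78) (nat_lit 228) (nat_lit 0) (XT.lf (nat_lit 0) (nat_lit 1648994803) (nat_lit 304) (nat_lit 7398966578) (nat_lit 76) (nat_lit 5284119362) (nat_lit 49) (nat_lit 5) (nat_lit 53) (nat_lit 5) (nat_lit 50) (nat_lit 5) (nat_lit 284) (nat_lit 265) (nat_lit 231)) (XT.lf (nat_lit 0) (nat_lit 4784344466) (nat_lit 228) (nat_lit 1464435780) (nat_lit 304) (nat_lit 8788376948) (nat_lit 46) (nat_lit 5) (nat_lit 49) (nat_lit 5) (nat_lit 50) (nat_lit 5) (nat_lit 285) (nat_lit 265) (nat_lit 230))) (XT.nd (nat_lit 78) (nat_lit 304) (nat_lit 0) (XT.lf (nat_lit 0) (nat_lit 2259486780) (nat_lit 152) (nat_lit 9145244546)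 (nat_lit 228) (nat_lit 4384594652) (nat_lit 44) (nat_lit 5) (nat_lit 46) (nat_lit 5) (nat_lit 47) (nat_lit 5) (nat_lit 286) (nat_lit 265) (nat_lit 229)) (XT.nd (nat_lit 78) (nat_lit 228) (nat_lit 0) (XT.lf (nat_lit 0) (nat_lit 485704608) (nat_lit 228) (nat_lit 604829700) (nat_lit 76) (nat_lit 15504622825) (nat_lit 43) (nat_lit 5) (nat_lit 46) (nat_lit 5) (nat_lit 44) (nat_lit 5) (nat_lit 287) (nat_lit 265) (nat_lit 228)) (XT.lf (nat_lit 0) (nat_lit 5855273001) (nat_lit 304) (nat_lit 3970969780) (nat_lit 76) (nat_lit 7622532926) (nat_lit 40) (nat_lit 5) (nat_lit 44) (nat_lit 5) (nat_lit 41) (nat_lit 5) (nat_lit 288) (nat_lit 265) (nat_lit 227))))) (XT.nd (nat_lit 156) (nat_lit 380) (nat_lit 0) (XT.nd (nat_lit 78) (nat_lit 152) (nat_lit 0) (XT.lf (nat_lit 0) (nat_lit 10550426482) (nat_lit 152) (nat_lit 1226960573) (nat_lit 228) (nat_lit 6587219795) (nat_lit 38) (nat_lit 5) (nat_lit 40) (nat_lit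 5) (nat_lit 41) (nat_lit 5) (nat_lit 289) (nat_lit 265) (nat_lit 226)) (XT.lf (nat_lit 0) (nat_lit 7017308895) (nat_lit 152) (nat_lit 11393926667) (nat_lit 228) (nat_lit 930637407) (nat_lit 36) (nat_lit 5) (nat_lit 38) (nat_lit 5) (nat_lit 39) (nat_lit 5) (nat_lit 290) (nat_lit 265) (nat_lit 225))) (XT.nd (nat_lit 78) (nat_lit 152) (nat_lit 0) (XT.lf (nat_lit 0) (nat_lit 2806868081) (nat_lit 152) (nat_lit 2343307832) (nat_lit 228) (nat_lit 15236288417) (nat_lit 33) (nat_lit 5) (nat_lit 35) (nat_lit 5) (nat_lit 36) (nat_lit 5) (nat_lit 291) (nat_lit 265) (nat_lit 224)) (XT.nd (nat_lit 78) (nat_lit 152) (nat_lit 0) (XT.lf (nat_lit 0) (nat_lit 11956838787) (nat_lit 228) (nat_lit 2151359459) (nat_lit 76) (nat_lit 7392116965) (nat_lit 33) (nat_lit 5) (nat_lit 36) (nat_lit 5) (nat_lit 34) (nat_lit 5) (nat_lit 292) (nat_lit 265) (nat_lit 223)) (XT.lf (nat_lit 0) (nat_lit 14853361445) (nat_lit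 152) (nat_lit 4668054805) (nat_lit 228) (nat_lit 3171239302) (nat_lit 31) (nat_lit 5) (nat_lit 33) (nat_lit 5) (nat_lit 34) (nat_lit 5) (nat_lit 293) (nat_lit 265) (nat_lit 222)))))) (XT.nd (nat_lit 390) (nat_lit 380) (nat_lit 0) (XT.nd (nat_lit 156) (nat_lit 304) (nat_lit 0) (XT.nd (nat_lit 78) (nat_lit 152) (nat_lit 0) (XT.lf (nat_lit 0) (nat_lit 3811608173) (nat_lit 228) (nat_lit 14590952161) (nat_lit 76) (nat_lit 5563990538) (nat_lit 28) (nat_lit 5) (nat_lit 31) (nat_lit 5) (nat_lit 29) (nat_lit 5) (nat_lit 294) (nat_lit 265) (nat_lit 221)) (XT.lf (nat_lit 0) (nat_lit 2776858295) (nat_lit 152) (nat_lit 8673637338) (nat_lit 228) (nat_lit 13878878164) (nat_lit 26) (nat_lit 5) (nat_lit 28) (nat_lit 5) (nat_lit 29) (nat_lit 5) (nat_lit 295) (nat_lit 265) (nat_lit 220))) (XT.nd (nat_lit 78) (nat_lit 304) (nat_lit 0) (XT.lf (nat_lit 0) (nat_lit 19935732000) (nat_lit 228) (nat_lit 4854022651)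 (nat_lit 76) (nat_lit 1999744165) (nat_lit 26) (nat_lit 5) (nat_lit 29) (nat_lit 5) (nat_lit 27) (nat_lit 4) (nat_lit 296) (nat_lit 265) (nat_lit 219)) (XT.nd (nat_lit 78) (nat_lit 152) (nat_lit 0) (XT.lf (nat_lit 0) (nat_lit 1039868316) (nat_lit 152) (nat_lit 13870262495) (nat_lit 76) (nat_lit 13439264847) (nat_lit 24) (nat_lit 5) (nat_lit 26) (nat_lit 5) (nat_lit 25) (nat_lit 5) (nat_lit 297) (nat_lit 265) (nat_lit 218)) (XT.lf (nat_lit 0) (nat_lit 5481543848) (nat_lit 152) (nat_lit 3971724390) (nat_lit 228) (nat_lit 20568809492) (nat_lit 22) (nat_lit 5) (nat_lit 24) (nat_lit 5) (nat_lit 25) (nat_lit 5) (nat_lit 298) (nat_lit 265) (nat_lit 217))))) (XT.nd (nat_lit 234) (nat_lit 76) (nat_lit 0) (XT.nd (nat_lit 78) (nat_lit 304) (nat_lit 0) (XT.lf (nat_lit 0) (nat_lit 18863157894) (nat_lit 228) (nat_lit 5143743380) (nat_lit 76) (nat_lit 7805531053) (nat_lit 22) (nat_lit 5) (nat_lit 25)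 (nat_lit 5) (nat_lit 23) (nat_lit 4) (nat_lit 299) (nat_lit 265) (nat_lit 216)) (XT.nd (nat_lit 78) (nat_lit 228) (nat_lit 0) (XT.lf (nat_lit 0) (nat_lit 16183903730) (nat_lit 76) (nat_lit 13120298384) (nat_lit 152) (nat_lit 4427921717) (nat_lit 21) (nat_lit 5) (nat_lit 22) (nat_lit 5) (nat_lit 23) (nat_lit 4) (nat_lit 300) (nat_lit 265) (nat_lit 215)) (XT.lf (nat_lit 0) (nat_lit 3568606567) (nat_lit 152) (nat_lit 1160516673) (nat_lit 228) (nat_lit 31067222387) (nat_lit 18) (nat_lit 5) (nat_lit 20) (nat_lit 5) (nat_lit 21) (nat_lit 5) (nat_lit 301) (nat_lit 265) (nat_lit 214)))) (XT.nd (nat_lit 78) (nat_lit 76) (nat_lit 0) (XT.lf (nat_lit 0) (nat_lit 14921400607) (nat_lit 228) (nat_lit 11340765744) (nat_lit 76) (nat_lit 11737041100) (nat_lit 18) (nat_lit 5) (nat_lit 21) (nat_lit 5) (nat_lit 19) (nat_lit 4) (nat_lit 302) (nat_lit 265) (nat_lit 213)) (XT.nd (nat_lit 78) (nat_lit 0) (nat_lit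 0) (XT.lf (nat_lit 0) (nat_lit 11502272738) (nat_lit 76) (nat_lit 14590283941) (nat_lit 152) (nat_lit 14277586908) (nat_lit 17) (nat_lit 5) (nat_lit 18) (nat_lit 5) (nat_lit 19) (nat_lit 4) (nat_lit 303) (nat_lit 265) (nat_lit 212)) (XT.lf (nat_lit 0) (nat_lit 36517018835) (nat_lit 76) (nat_lit 1803973819) (nat_lit 152) (nat_lit 4601601286) (nat_lit 17) (nat_lit 5) (nat_lit 18) (nat_lit 5) (nat_lit 19) (nat_lit 4) (nat_lit 304) (nat_lit 265) (nat_lit 211))))))) (XT.nd (nat_lit 858) (nat_lit 304) (nat_lit 0) (XT.nd (nat_lit 390) (nat_lit 228) (nat_lit 0) (XT.nd (nat_lit 156) (nat_lit 228) (nat_lit 0) (XT.nd (nat_lit 78) (nat_lit 0) (nat_lit 0) (XT.lf (nat_lit 0) (nat_lit 6108082681) (nat_lit 152) (nat_lit 27564713615) (nat_lit 76) (nat_lit 11979554627) (nat_lit 15) (nat_lit 5) (nat_lit 17) (nat_lit 5) (nat_lit 16) (nat_lit 4) (nat_lit 305) (nat_lit 265) (nat_lit 210)) (XT.lf (nat_lit 0)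 (nat_lit 17628462751) (nat_lit 152) (nat_lit 3991656835) (nat_lit 76) (nat_lit 26970855385) (nat_lit 15) (nat_lit 5) (nat_lit 17) (nat_lit 5) (nat_lit 16) (nat_lit 4) (nat_lit 306) (nat_lit 265) (nat_lit 209))) (XT.nd (nat_lit 78) (nat_lit 152) (nat_lit 0) (XT.lf (nat_lit 0) (nat_lit 22123524063) (nat_lit 76) (nat_lit 8263799453) (nat_lit 152) (nat_lit 21361537050) (nat_lit 14) (nat_lit 5) (nat_lit 15) (nat_lit 5) (nat_lit 16) (nat_lit 4) (nat_lit 307) (nat_lit 265) (nat_lit 208)) (XT.nd (nat_lit 78) (nat_lit 152) (nat_lit 0) (XT.lf (nat_lit 0) (nat_lit 44306189035) (nat_lit 152) (nat_lit 4833355827) (nat_lit 0) (nat_lit 6012880439) (nat_lit 14) (nat_lit 5) (nat_lit 16) (nat_lit 4) (nat_lit 14) (nat_lit 4) (nat_lit 308) (nat_lit 265) (nat_lit 207)) (XT.lf (nat_lit 0) (nat_lit 966280594) (nat_lit 152) (nat_lit 36345488827) (nat_lit 76) (nat_lit 21492502762) (nat_lit 12) (nat_lit 5) (nat_lit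 14) (nat_lit 5) (nat_lit 13) (nat_lit 4) (nat_lit 309) (nat_lit 265) (nat_lit 206))))) (XT.nd (nat_lit 234) (nat_lit 152) (nat_lit 0) (XT.nd (nat_lit 78) (nat_lit 76) (nat_lit 0) (XT.lf (nat_lit 0) (nat_lit 13409710409) (nat_lit 152) (nat_lit 10867064604) (nat_lit 76) (nat_lit 38459316588) (nat_lit 12) (nat_lit 5) (nat_lit 14) (nat_lit 5) (nat_lit 13) (nat_lit 4) (nat_lit 310) (nat_lit 265) (nat_lit 205)) (XT.nd (nat_lit 78) (nat_lit 0) (nat_lit 0) (XT.lf (nat_lit 0) (nat_lit 17156497554) (nat_lit 76) (nat_lit 9937067429) (nat_lit 152) (nat_lit 39876653964) (nat_lit 11) (nat_lit 5) (nat_lit 12) (nat_lit 5) (nat_lit 13) (nat_lit 4) (nat_lit 311) (nat_lit 265) (nat_lit 204)) (XT.lf (nat_lit 0) (nat_lit 42129042132) (nat_lit 152) (nat_lit 23854585331) (nat_lit 0) (nat_lit 5546612471) (nat_lit 11) (nat_lit 5) (nat_lit 13) (nat_lit 4) (nat_lit 11) (nat_lit 4) (nat_lit 312) (nat_lit 265) (nat_lit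 203)))) (XT.nd (nat_lit 78) (nat_lit 76) (nat_lit 0) (XT.lf (nat_lit 0) (nat_lit 4107001669) (nat_lit 76) (nat_lit 54471539815) (nat_lit 76) (nat_lit 17865970399) (nat_lit 10) (nat_lit 4) (nat_lit 11) (nat_lit 5) (nat_lit 11) (nat_lit 4) (nat_lit 313) (nat_lit 265) (nat_lit 202)) (XT.nd (nat_lit 78) (nat_lit 76) (nat_lit 0) (XT.lf (nat_lit 0) (nat_lit 35120841571) (nat_lit 76) (nat_lit 41619143876) (nat_lit 76) (nat_lit 4992148762) (nat_lit 10) (nat_lit 4) (nat_lit 11) (nat_lit 5) (nat_lit 11) (nat_lit 4) (nat_lit 314) (nat_lit 265) (nat_lit 201)) (XT.lf (nat_lit 0) (nat_lit 8607949782) (nat_lit 152) (nat_lit 19000536670) (nat_lit 76) (nat_lit 59828250193) (nat_lit 9) (nat_lit 5) (nat_lit 11) (nat_lit 5) (nat_lit 10) (nat_lit 4) (nat_lit 315) (nat_lit 265) (nat_lit 200)))))) (XT.nd (nat_lit 390) (nat_lit 152) (nat_lit 0) (XT.nd (nat_lit 156) (nat_lit 76) (nat_lit 0) (XT.nd (nat_lit 78)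 (nat_lit 0) (nat_lit 0) (XT.lf (nat_lit 0) (nat_lit 11056919143) (nat_lit 76) (nat_lit 12222164734) (nat_lit 152) (nat_lit 70306641475) (nat_lit 8) (nat_lit 5) (nat_lit 9) (nat_lit 5) (nat_lit 10) (nat_lit 4) (nat_lit 316) (nat_lit 265) (nat_lit 199)) (XT.lf (nat_lit 0) (nat_lit 39512455300) (nat_lit 152) (nat_lit 56117740418) (nat_lit 0) (nat_lit 4577016046) (nat_lit 8) (nat_lit 5) (nat_lit 10) (nat_lit 4) (nat_lit 8) (nat_lit 4) (nat_lit 317) (nat_lit 265) (nat_lit 198))) (XT.nd (nat_lit 78) (nat_lit 76) (nat_lit 0) (XT.lf (nat_lit 0) (nat_lit 57235329283) (nat_lit 152) (nat_lit 27828660233) (nat_lit 0) (nat_lit 22284891430) (nat_lit 8) (nat_lit 5) (nat_lit 10) (nat_lit 4) (nat_lit 8) (nat_lit 4) (nat_lit 318) (nat_lit 265) (nat_lit 197)) (XT.nd (nat_lit 78) (nat_lit 0) (nat_lit 0) (XT.lf (nat_lit 0) (nat_lit 2786067130) (nat_lit 76) (nat_lit 73619339205) (nat_lit 76) (nat_lit 38655013762)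 (nat_lit 7) (nat_lit 4) (nat_lit 8) (nat_lit 5) (nat_lit 8) (nat_lit 4) (nat_lit 319) (nat_lit 265) (nat_lit 196)) (XT.lf (nat_lit 0) (nat_lit 36818232591) (nat_lit 76) (nat_lit 60762137402) (nat_lit 76) (nat_lit 25784953079) (nat_lit 7) (nat_lit 4) (nat_lit 8) (nat_lit 5) (nat_lit 8) (nat_lit 4) (nat_lit 320) (nat_lit 265) (nat_lit 195))))) (XT.nd (nat_lit 234) (nat_lit 0) (nat_lit 0) (XT.nd (nat_lit 78) (nat_lit 152) (nat_lit 0) (XT.lf (nat_lit 0) (nat_lit 73549367055) (nat_lit 76) (nat_lit 46887485109) (nat_lit 76) (nat_lit 11898394415) (nat_lit 7) (nat_lit 4) (nat_lit 8) (nat_lit 5) (nat_lit 8) (nat_lit 4) (nat_lit 321) (nat_lit 265) (nat_lit 194)) (XT.nd (nat_lit 78) (nat_lit 76) (nat_lit 0) (XT.lf (nat_lit 0) (nat_lit 2988151174) (nat_lit 152) (nat_lit 28874405204) (nat_lit 76) (nat_lit 110158379544) (nat_lit 6) (nat_lit 5) (nat_lit 8) (nat_lit 5) (nat_lit 7) (nat_lit 4) (nat_lit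 322) (nat_lit 265) (nat_lit 193)) (XT.lf (nat_lit 0) (nat_lit 3314854393) (nat_lit 76) (nat_lit 15380354044) (nat_lit 152) (nat_lit 133774200265) (nat_lit 5) (nat_lit 5) (nat_lit 6) (nat_lit 5) (nat_lit 7) (nat_lit 4) (nat_lit 323) (nat_lit 265) (nat_lit 192)))) (XT.nd (nat_lit 78) (nat_lit 0) (nat_lit 0) (XT.lf (nat_lit 0) (nat_lit 36197313981) (nat_lit 152) (nat_lit 124684376713) (nat_lit 0) (nat_lit 2845147728) (nat_lit 5) (nat_lit 5) (nat_lit 7) (nat_lit 4) (nat_lit 5) (nat_lit 4) (nat_lit 324) (nat_lit 265) (nat_lit 191)) (XT.nd (nat_lit 78) (nat_lit 0) (nat_lit 0) (XT.lf (nat_lit 0) (nat_lit 55349183564) (nat_lit 152) (nat_lit 98534519717) (nat_lit 0) (nat_lit 21988682513) (nat_lit 5) (nat_lit 5) (nat_lit 7) (nat_lit 4) (nat_lit 5) (nat_lit 4) (nat_lit 325) (nat_lit 265) (nat_lit 190)) (XT.lf (nat_lit 0) (nat_lit 76024179318) (nat_lit 152) (nat_lit 70309890777) (nat_lit 0) (nat_lit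 42655960861) (nat_lit 5) (nat_lit 5) (nat_lit 7) (nat_lit 4) (nat_lit 5) (nat_lit 4) (nat_lit 326) (nat_lit 265) (nat_lit 189))))))))
noncomputable def xc59 : XT := (XT.nd (nat_lit 1638) (nat_lit 0) (nat_lit 0) (XT.nd (nat_lit 780) (nat_lit 76) (nat_lit 0) (XT.nd (nat_lit 390) (nat_lit 76) (nat_lit 0) (XT.nd (nat_lit 156) (nat_lit 76) (nat_lit 0) (XT.nd (nat_lit 78) (nat_lit 0) (nat_lit 0) (XT.lf (nat_lit 0) (nat_lit 98344819735) (nat_lit 152) (nat_lit 39843232832) (nat_lit 0) (nat_lit 64969455532) (nat_lit 5) (nat_lit 5) (nat_lit 7) (nat_lit 4) (nat_lit 5) (nat_lit 4) (nat_lit 327) (nat_lit 265) (nat_lit 188)) (XT.lf (nat_lit 0) (nat_lit 122443375278) (nat_lit 152) (nat_lit 6954002724) (nat_lit 0) (nat_lit 89061394644) (nat_lit 5) (nat_lit 5) (nat_lit 7) (nat_lit 4) (nat_lit 5) (nat_lit 4) (nat_lit 328) (nat_lit 265) (nat_lit 187))) (XT.nd (nat_lit 78) (nat_lit 0) (nat_lit 0) (XT.lf (nat_lit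 0) (nat_lit 29496779853) (nat_lit 76) (nat_lit 119426399746) (nat_lit 76) (nat_lit 86038292786) (nat_lit 4) (nat_lit 4) (nat_lit 5) (nat_lit 5) (nat_lit 5) (nat_lit 4) (nat_lit 329) (nat_lit 265) (nat_lit 186)) (XT.nd (nat_lit 78) (nat_lit 0) (nat_lit 0) (XT.lf (nat_lit 0) (nat_lit 69098877084) (nat_lit 76) (nat_lit 108536788850) (nat_lit 76) (nat_lit 75143009367) (nat_lit 4) (nat_lit 4) (nat_lit 5) (nat_lit 5) (nat_lit 5) (nat_lit 4) (nat_lit 330) (nat_lit 265) (nat_lit 185)) (XT.lf (nat_lit 0) (nat_lit 111857037325) (nat_lit 76) (nat_lit 96781783689) (nat_lit 76) (nat_lit 63382751869) (nat_lit 4) (nat_lit 4) (nat_lit 5) (nat_lit 5) (nat_lit 5) (nat_lit 4) (nat_lit 331) (nat_lit 265) (nat_lit 184))))) (XT.nd (nat_lit 156) (nat_lit 76) (nat_lit 0) (XT.nd (nat_lit 78) (nat_lit 0) (nat_lit 0) (XT.lf (nat_lit 0) (nat_lit 158024642268) (nat_lit 76) (nat_lit 84091724972) (nat_lit 76) (nat_lit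 50687829877) (nat_lit 4) (nat_lit 4) (nat_lit 5) (nat_lit 5) (nat_lit 5) (nat_lit 4) (nat_lit 332) (nat_lit 265) (nat_lit 183)) (XT.lf (nat_lit 0) (nat_lit 207875277719) (nat_lit 76) (nat_lit 70391412352) (nat_lit 76) (nat_lit 36983014225) (nat_lit 4) (nat_lit 4) (nat_lit 5) (nat_lit 5) (nat_lit 5) (nat_lit 4) (nat_lit 333) (nat_lit 265) (nat_lit 182))) (XT.nd (nat_lit 78) (nat_lit 76) (nat_lit 0) (XT.lf (nat_lit 0) (nat_lit 261704354852) (nat_lit 76) (nat_lit 55599658791) (nat_lit 76) (nat_lit 22187091190) (nat_lit 4) (nat_lit 4) (nat_lit 5) (nat_lit 5) (nat_lit 5) (nat_lit 4) (nat_lit 334) (nat_lit 265) (nat_lit 181)) (XT.nd (nat_lit 78) (nat_lit 76) (nat_lit 0) (XT.lf (nat_lit 0) (nat_lit 319830860790) (nat_lit 76) (nat_lit 39628809452) (nat_lit 76) (nat_lit 6212381227) (nat_lit 4) (nat_lit 4) (nat_lit 5) (nat_lit 5) (nat_lit 5) (nat_lit 4) (nat_lit 335) (nat_lit 265) (nat_lit 180))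 (XT.lf (nat_lit 0) (nat_lit 10682566710) (nat_lit 152) (nat_lit 11520741120) (nat_lit 76) (nat_lit 371735767755) (nat_lit 3) (nat_lit 5) (nat_lit 5) (nat_lit 5) (nat_lit 4) (nat_lit 4) (nat_lit 336) (nat_lit 265) (nat_lit 179)))))) (XT.nd (nat_lit 390) (nat_lit 0) (nat_lit 0) (XT.nd (nat_lit 156) (nat_lit 0) (nat_lit 0) (XT.nd (nat_lit 78) (nat_lit 0) (nat_lit 0) (XT.lf (nat_lit 0) (nat_lit 26273753183) (nat_lit 76) (nat_lit 2846766779) (nat_lit 152) (nat_lit 395321397655) (nat_lit 2) (nat_lit 5) (nat_lit 3) (nat_lit 5) (nat_lit 4) (nat_lit 4) (nat_lit 337) (nat_lit 265) (nat_lit 178)) (XT.lf (nat_lit 0) (nat_lit 49515497219) (nat_lit 152) (nat_lit 390164539426) (nat_lit 0) (nat_lit 17680852049) (nat_lit 2) (nat_lit 5) (nat_lit 4) (nat_lit 4) (nat_lit 2) (nat_lit 4) (nat_lit 338) (nat_lit 265) (nat_lit 177))) (XT.nd (nat_lit 78) (nat_lit 0) (nat_lit 0) (XT.lf (nat_lit 0) (nat_lit 71586438543)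 (nat_lit 152) (nat_lit 381575630786) (nat_lit 0) (nat_lit 39749090826) (nat_lit 2) (nat_lit 5) (nat_lit 4) (nat_lit 4) (nat_lit 2) (nat_lit 4) (nat_lit 339) (nat_lit 265) (nat_lit 176)) (XT.nd (nat_lit 78) (nat_lit 0) (nat_lit 0) (XT.lf (nat_lit 0) (nat_lit 95419688689) (nat_lit 152) (nat_lit 372306095269) (nat_lit 0) (nat_lit 63579838615) (nat_lit 2) (nat_lit 5) (nat_lit 4) (nat_lit 4) (nat_lit 2) (nat_lit 4) (nat_lit 340) (nat_lit 265) (nat_lit 175)) (XT.lf (nat_lit 0) (nat_lit 121156481734) (nat_lit 152) (nat_lit 362301002296) (nat_lit 0) (nat_lit 89314314661) (nat_lit 2) (nat_lit 5) (nat_lit 4) (nat_lit 4) (nat_lit 2) (nat_lit 4) (nat_lit 341) (nat_lit 265) (nat_lit 174))))) (XT.nd (nat_lit 234) (nat_lit 0) (nat_lit 0) (XT.nd (nat_lit 78) (nat_lit 0) (nat_lit 0) (XT.lf (nat_lit 0) (nat_lit 148949332005) (nat_lit 152) (nat_lit 351501062426) (nat_lit 0) (nat_lit 117105019564) (nat_lit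 2) (nat_lit 5) (nat_lit 4) (nat_lit 4) (nat_lit 2) (nat_lit 4) (nat_lit 342) (nat_lit 265) (nat_lit 173)) (XT.nd (nat_lit 78) (nat_lit 0) (nat_lit 0) (XT.lf (nat_lit 0) (nat_lit 178962937875) (nat_lit 152) (nat_lit 339842276016) (nat_lit 0) (nat_lit 147116638982) (nat_lit 2) (nat_lit 5) (nat_lit 4) (nat_lit 4) (nat_lit 2) (nat_lit 4) (nat_lit 343) (nat_lit 265) (nat_lit 172)) (XT.lf (nat_lit 0) (nat_lit 211375157750) (nat_lit 152) (nat_lit 327255553960) (nat_lit 0) (nat_lit 179527019548) (nat_lit 2) (nat_lit 5) (nat_lit 4) (nat_lit 4) (nat_lit 2) (nat_lit 4) (nat_lit 344) (nat_lit 265) (nat_lit 171)))) (XT.nd (nat_lit 78) (nat_lit 0) (nat_lit 0) (XT.lf (nat_lit 0) (nat_lit 246378064042) (nat_lit 152) (nat_lit 313666308277) (nat_lit 0) (nat_lit 214528222778) (nat_lit 2) (nat_lit 5) (nat_lit 4) (nat_lit 4) (nat_lit 2) (nat_lit 4) (nat_lit 345) (nat_lit 265) (nat_lit 170)) (XT.nd (nat_lit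 78) (nat_lit 0) (nat_lit 0) (XT.lf (nat_lit 0) (nat_lit 284179081383) (nat_lit 152) (nat_lit 298994010103) (nat_lit 0) (nat_lit 252327663209) (nat_lit 2) (nat_lit 5) (nat_lit 4) (nat_lit 4) (nat_lit 2) (nat_lit 4) (nat_lit 346) (nat_lit 265) (nat_lit 169)) (XT.lf (nat_lit 0) (nat_lit 325002215801) (nat_lit 152) (nat_lit 283151712486) (nat_lit 0) (nat_lit 293149337525) (nat_lit 2) (nat_lit 5) (nat_lit 4) (nat_lit 4) (nat_lit 2) (nat_lit 4) (nat_lit 347) (nat_lit 265) (nat_lit 168))))))) (XT.nd (nat_lit 35022) (nat_lit 0) (nat_lit 3344) (XT.nd (nat_lit 34554) (nat_lit 0) (nat_lit 6080) (XT.nd (nat_lit 34320) (nat_lit 0) (nat_lit 8360) (XT.nd (nat_lit 34242) (nat_lit 0) (nat_lit 8360) (XT.lf (nat_lit 0) (nat_lit 369089382165) (nat_lit 152) (nat_lit 266045535144) (nat_lit 0) (nat_lit 337235151943) (nat_lit 2) (nat_lit 5) (nat_lit 4) (nat_lit 4) (nat_lit 2) (nat_lit 4) (nat_lit 348) (nat_lit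 265) (nat_lit 167)) (XT.lf (nat_lit 0) (nat_lit 70103997) (nat_lit 0) (nat_lit 70103997) (nat_lit 532) (nat_lit 3608092124) (nat_lit 112) (nat_lit 5) (nat_lit 112) (nat_lit 3) (nat_lit 119) (nat_lit 3) (nat_lit 266) (nat_lit 266) (nat_lit 248))) (XT.nd (nat_lit 78) (nat_lit 0) (nat_lit 0) (XT.lf (nat_lit 0) (nat_lit 2525497443) (nat_lit 532) (nat_lit 1837996377) (nat_lit 608) (nat_lit 3316776411) (nat_lit 112) (nat_lit 5) (nat_lit 119) (nat_lit 3) (nat_lit 120) (nat_lit 5) (nat_lit 267) (nat_lit 266) (nat_lit 247)) (XT.nd (nat_lit 78) (nat_lit 0) (nat_lit 76) (XT.lf (nat_lit 76) (nat_lit 4129547154) (nat_lit 0) (nat_lit 671037406) (nat_lit 608) (nat_lit 3085979596) (nat_lit 113) (nat_lit 5) (nat_lit 112) (nat_lit 5) (nat_lit 120) (nat_lit 5) (nat_lit 268) (nat_lit 266) (nat_lit 246)) (XT.lf (nat_lit 76) (nat_lit 2429119651) (nat_lit 0) (nat_lit 4749913910) (nat_lit 608) (nat_lit 934677230)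 (nat_lit 114) (nat_lit 5) (nat_lit 113) (nat_lit 5) (nat_lit 121) (nat_lit 5) (nat_lit 269) (nat_lit 266) (nat_lit 245))))) (XT.nd (nat_lit 234) (nat_lit 1748) (nat_lit 0) (XT.nd (nat_lit 78) (nat_lit 0) (nat_lit 76) (XT.lf (nat_lit 76) (nat_lit 748655285) (nat_lit 0) (nat_lit 493755199) (nat_lit 684) (nat_lit 7120995788) (nat_lit 106) (nat_lit 5) (nat_lit 105) (nat_lit 5) (nat_lit 114) (nat_lit 5) (nat_lit 270) (nat_lit 266) (nat_lit 244)) (XT.nd (nat_lit 78) (nat_lit 0) (nat_lit 76) (XT.lf (nat_lit 0) (nat_lit 3547765026) (nat_lit 608) (nat_lit 944316556) (nat_lit 684) (nat_lit 4141227799) (nat_lit 106) (nat_lit 5) (nat_lit 114) (nat_lit 5) (nat_lit 115) (nat_lit 5) (nat_lit 271) (nat_lit 266) (nat_lit 243)) (XT.lf (nat_lit 0) (nat_lit 5985075129) (nat_lit 608) (nat_lit 2603823158) (nat_lit 76) (nat_lit 338845309) (nat_lit 107) (nat_lit 5) (nat_lit 115) (nat_lit 5) (nat_lit 108) (nat_lit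 5) (nat_lit 272) (nat_lit 266) (nat_lit 242)))) (XT.nd (nat_lit 78) (nat_lit 1292) (nat_lit 0) (XT.lf (nat_lit 0) (nat_lit 4916224757) (nat_lit 608) (nat_lit 3716207584) (nat_lit 684) (nat_lit 612838962) (nat_lit 99) (nat_lit 5) (nat_lit 107) (nat_lit 5) (nat_lit 108) (nat_lit 5) (nat_lit 273) (nat_lit 266) (nat_lit 241)) (XT.nd (nat_lit 78) (nat_lit 532) (nat_lit 0) (XT.lf (nat_lit 0) (nat_lit 1822511318) (nat_lit 760) (nat_lit 6116552697) (nat_lit 76) (nat_lit 1648906022) (nat_lit 89) (nat_lit 5) (nat_lit 99) (nat_lit 5) (nat_lit 90) (nat_lit 5) (nat_lit 274) (nat_lit 266) (nat_lit 240)) (XT.lf (nat_lit 0) (nat_lit 1955540810) (nat_lit 532) (nat_lit 2507799046) (nat_lit 608) (nat_lit 5492874745) (nat_lit 82) (nat_lit 5) (nat_lit 89) (nat_lit 5) (nat_lit 90) (nat_lit 5) (nat_lit 275) (nat_lit 266) (nat_lit 239)))))) (XT.nd (nat_lit 390) (nat_lit 1368) (nat_lit 0) (XT.nd (nat_lit 156)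 (nat_lit 988) (nat_lit 0) (XT.nd (nat_lit 78) (nat_lit 0) (nat_lit 0) (XT.lf (nat_lit 0) (nat_lit 370713938) (nat_lit 380) (nat_lit 6981618473) (nat_lit 456) (nat_lit 2999962096) (nat_lit 77) (nat_lit 5) (nat_lit 82) (nat_lit 5) (nat_lit 83) (nat_lit 5) (nat_lit 276) (nat_lit 266) (nat_lit 238)) (XT.lf (nat_lit 0) (nat_lit 9529280806) (nat_lit 380) (nat_lit 1002179904) (nat_lit 456) (nat_lit 245853594) (nat_lit 77) (nat_lit 5) (nat_lit 82) (nat_lit 5) (nat_lit 83) (nat_lit 5) (nat_lit 277) (nat_lit 266) (nat_lit 237))) (XT.nd (nat_lit 78) (nat_lit 608) (nat_lit 0) (XT.lf (nat_lit 0) (nat_lit 2743617834) (nat_lit 380) (nat_lit 3034047690) (nat_lit 76) (nat_lit 5451601994) (nat_lit 72) (nat_lit 5) (nat_lit 77) (nat_lit 5) (nat_lit 73) (nat_lit 5) (nat_lit 278) (nat_lit 266) (nat_lit 236)) (XT.nd (nat_lit 78) (nat_lit 304) (nat_lit 0) (XT.lf (nat_lit 0) (nat_lit 6013041062) (nat_lit 380)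 (nat_lit 4929148892) (nat_lit 76) (nat_lit 772681965) (nat_lit 68) (nat_lit 5) (nat_lit 73) (nat_lit 5) (nat_lit 69) (nat_lit 5) (nat_lit 279) (nat_lit 266) (nat_lit 235)) (XT.lf (nat_lit 0) (nat_lit 5211786226) (nat_lit 304) (nat_lit 4462473013) (nat_lit 380) (nat_lit 2558707847) (nat_lit 64) (nat_lit 5) (nat_lit 68) (nat_lit 5) (nat_lit 69) (nat_lit 5) (nat_lit 280) (nat_lit 266) (nat_lit 234))))) (XT.nd (nat_lit 234) (nat_lit 760) (nat_lit 0) (XT.nd (nat_lit 78) (nat_lit 228) (nat_lit 0) (XT.lf (nat_lit 0) (nat_lit 895173492) (nat_lit 380) (nat_lit 9298869450) (nat_lit 76) (nat_lit 2593647562) (nat_lit 59) (nat_lit 5) (nat_lit 64) (nat_lit 5) (nat_lit 60) (nat_lit 5) (nat_lit 281) (nat_lit 266) (nat_lit 233)) (XT.nd (nat_lit 78) (nat_lit 0) (nat_lit 0) (XT.lf (nat_lit 0) (nat_lit 1520955215) (nat_lit 228) (nat_lit 3146273769) (nat_lit 304) (nat_lit 8711016222) (nat_lit 56) (nat_lit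 5) (nat_lit 59) (nat_lit 5) (nat_lit 60) (nat_lit 5) (nat_lit 282) (nat_lit 266) (nat_lit 232)) (XT.lf (nat_lit 0) (nat_lit 8887174547) (nat_lit 304) (nat_lit 657940767) (nat_lit 76) (nat_lit 4463739472) (nat_lit 56) (nat_lit 5) (nat_lit 60) (nat_lit 5) (nat_lit 57) (nat_lit 5) (nat_lit 283) (nat_lit 266) (nat_lit 231)))) (XT.nd (nat_lit 78) (nat_lit 532) (nat_lit 0) (XT.lf (nat_lit 0) (nat_lit 11649714905) (nat_lit 228) (nat_lit 1948246543) (nat_lit 304) (nat_lit 1084397533) (nat_lit 53) (nat_lit 5) (nat_lit 56) (nat_lit 5) (nat_lit 57) (nat_lit 5) (nat_lit 284) (nat_lit 266) (nat_lit 230)) (XT.nd (nat_lit 78) (nat_lit 228) (nat_lit 0) (XT.lf (nat_lit 0) (nat_lit 3356440135) (nat_lit 304) (nat_lit 5793538061) (nat_lit 76) (nat_lit 6248032368) (nat_lit 49) (nat_lit 5) (nat_lit 53) (nat_lit 5) (nat_lit 50) (nat_lit 5) (nat_lit 285) (nat_lit 266) (nat_lit 229)) (XT.lf (nat_lit 0) (nat_lit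 7268943894) (nat_lit 228) (nat_lit 971374707) (nat_lit 304) (nat_lit 7923506825) (nat_lit 46) (nat_lit 5) (nat_lit 49) (nat_lit 5) (nat_lit 50) (nat_lit 5) (nat_lit 286) (nat_lit 266) (nat_lit 228))))))))
noncomputable def xc60 : XT := (XT.nd (nat_lit 1638) (nat_lit 760) (nat_lit 0) (XT.nd (nat_lit 780) (nat_lit 836) (nat_lit 0) (XT.nd (nat_lit 390) (nat_lit 684) (nat_lit 0) (XT.nd (nat_lit 156) (nat_lit 380) (nat_lit 0) (XT.nd (nat_lit 78) (nat_lit 304) (nat_lit 0) (XT.lf (nat_lit 0) (nat_lit 4514628781) (nat_lit 152) (nat_lit 9224833832) (nat_lit 228) (nat_lit 3240296853) (nat_lit 44) (nat_lit 5) (nat_lit 46) (nat_lit 5) (nat_lit 47) (nat_lit 5) (nat_lit 287) (nat_lit 266) (nat_lit 227)) (XT.lf (nat_lit 0) (nat_lit 1356643399) (nat_lit 228) (nat_lit 529111492) (nat_lit 304) (nat_lit 15967548634) (nat_lit 40) (nat_lit 5) (nat_lit 43) (nat_lit 5) (nat_lit 44) (nat_lit 5) (nat_lit 288)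 (nat_lit 266) (nat_lit 226))) (XT.nd (nat_lit 78) (nat_lit 380) (nat_lit 0) (XT.lf (nat_lit 0) (nat_lit 7603352121) (nat_lit 304) (nat_lit 2352396890) (nat_lit 76) (nat_lit 8823643590) (nat_lit 40) (nat_lit 5) (nat_lit 44) (nat_lit 5) (nat_lit 41) (nat_lit 5) (nat_lit 289) (nat_lit 266) (nat_lit 225)) (XT.nd (nat_lit 78) (nat_lit 228) (nat_lit 0) (XT.lf (nat_lit 0) (nat_lit 13246563987) (nat_lit 152) (nat_lit 686798409) (nat_lit 228) (nat_lit 5838517951) (nat_lit 38) (nat_lit 5) (nat_lit 40) (nat_lit 5) (nat_lit 41) (nat_lit 5) (nat_lit 290) (nat_lit 266) (nat_lit 224)) (XT.lf (nat_lit 0) (nat_lit 208740604) (nat_lit 228) (nat_lit 11433417039) (nat_lit 76) (nat_lit 9187703436) (nat_lit 35) (nat_lit 5) (nat_lit 38) (nat_lit 5) (nat_lit 36) (nat_lit 5) (nat_lit 291) (nat_lit 266) (nat_lit 223))))) (XT.nd (nat_lit 156) (nat_lit 532) (nat_lit 0) (XT.nd (nat_lit 78) (nat_lit 0) (nat_lit 0)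 (XT.lf (nat_lit 0) (nat_lit 4811942400) (nat_lit 152) (nat_lit 1872176105) (nat_lit 228) (nat_lit 15276181967) (nat_lit 33) (nat_lit 5) (nat_lit 35) (nat_lit 5) (nat_lit 36) (nat_lit 5) (nat_lit 292) (nat_lit 266) (nat_lit 222)) (XT.lf (nat_lit 0) (nat_lit 13961729459) (nat_lit 228) (nat_lit 631502159) (nat_lit 76) (nat_lit 8573779987) (nat_lit 33) (nat_lit 5) (nat_lit 36) (nat_lit 5) (nat_lit 34) (nat_lit 5) (nat_lit 293) (nat_lit 266) (nat_lit 221))) (XT.nd (nat_lit 78) (nat_lit 380) (nat_lit 0) (XT.lf (nat_lit 0) (nat_lit 17660065635) (nat_lit 152) (nat_lit 4419020715) (nat_lit 228) (nat_lit 2378339690) (nat_lit 31) (nat_lit 5) (nat_lit 33) (nat_lit 5) (nat_lit 34) (nat_lit 5) (nat_lit 294) (nat_lit 266) (nat_lit 220)) (XT.nd (nat_lit 78) (nat_lit 152) (nat_lit 0) (XT.lf (nat_lit 0) (nat_lit 5088927211) (nat_lit 228) (nat_lit 14138087450) (nat_lit 76) (nat_lit 6607496390) (nat_lit 28)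 (nat_lit 5) (nat_lit 31) (nat_lit 5) (nat_lit 29) (nat_lit 5) (nat_lit 295) (nat_lit 266) (nat_lit 219)) (XT.lf (nat_lit 0) (nat_lit 4548738494) (nat_lit 152) (nat_lit 8742353910) (nat_lit 228) (nat_lit 14017714209) (nat_lit 26) (nat_lit 5) (nat_lit 28) (nat_lit 5) (nat_lit 29) (nat_lit 5) (nat_lit 296) (nat_lit 266) (nat_lit 218)))))) (XT.nd (nat_lit 390) (nat_lit 456) (nat_lit 0) (XT.nd (nat_lit 156) (nat_lit 228) (nat_lit 0) (XT.nd (nat_lit 78) (nat_lit 152) (nat_lit 0) (XT.lf (nat_lit 0) (nat_lit 22395699675) (nat_lit 228) (nat_lit 3773003816) (nat_lit 76) (nat_lit 2720061597) (nat_lit 26) (nat_lit 5) (nat_lit 29) (nat_lit 5) (nat_lit 27) (nat_lit 4) (nat_lit 297) (nat_lit 266) (nat_lit 217)) (XT.lf (nat_lit 0) (nat_lit 1960091611) (nat_lit 152) (nat_lit 13546159716) (nat_lit 76) (nat_lit 15068681525) (nat_lit 24) (nat_lit 5) (nat_lit 26) (nat_lit 5) (nat_lit 25) (nat_lit 5) (nat_lit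 298) (nat_lit 266) (nat_lit 216))) (XT.nd (nat_lit 78) (nat_lit 76) (nat_lit 0) (XT.lf (nat_lit 0) (nat_lit 7291483247) (nat_lit 152) (nat_lit 3714489420) (nat_lit 228) (nat_lit 21377528054) (nat_lit 22) (nat_lit 5) (nat_lit 24) (nat_lit 5) (nat_lit 25) (nat_lit 5) (nat_lit 299) (nat_lit 266) (nat_lit 215)) (XT.nd (nat_lit 78) (nat_lit 76) (nat_lit 0) (XT.lf (nat_lit 0) (nat_lit 21117969699) (nat_lit 228) (nat_lit 4256370461) (nat_lit 76) (nat_lit 8945316312) (nat_lit 22) (nat_lit 5) (nat_lit 25) (nat_lit 5) (nat_lit 23) (nat_lit 4) (nat_lit 300) (nat_lit 266) (nat_lit 214)) (XT.lf (nat_lit 0) (nat_lit 18721041007) (nat_lit 76) (nat_lit 13637412765) (nat_lit 152) (nat_lit 4036297448) (nat_lit 21) (nat_lit 5) (nat_lit 22) (nat_lit 5) (nat_lit 23) (nat_lit 4) (nat_lit 301) (nat_lit 266) (nat_lit 213))))) (XT.nd (nat_lit 234) (nat_lit 152) (nat_lit 0) (XT.nd (nat_lit 78) (nat_lit 76) (nat_lit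 0) (XT.lf (nat_lit 0) (nat_lit 5065767436) (nat_lit 152) (nat_lit 729108720) (nat_lit 228) (nat_lit 32830412016) (nat_lit 18) (nat_lit 5) (nat_lit 20) (nat_lit 5) (nat_lit 21) (nat_lit 5) (nat_lit 302) (nat_lit 266) (nat_lit 212)) (XT.nd (nat_lit 78) (nat_lit 76) (nat_lit 0) (XT.lf (nat_lit 0) (nat_lit 16759194190) (nat_lit 228) (nat_lit 11101496958) (nat_lit 76) (nat_lit 13145884051) (nat_lit 18) (nat_lit 5) (nat_lit 21) (nat_lit 5) (nat_lit 19) (nat_lit 4) (nat_lit 303) (nat_lit 266) (nat_lit 211)) (XT.lf (nat_lit 0) (nat_lit 13519157804) (nat_lit 76) (nat_lit 15274297812) (nat_lit 152) (nat_lit 14775286987) (nat_lit 17) (nat_lit 5) (nat_lit 18) (nat_lit 5) (nat_lit 19) (nat_lit 4) (nat_lit 304) (nat_lit 266) (nat_lit 210)))) (XT.nd (nat_lit 78) (nat_lit 152) (nat_lit 0) (XT.lf (nat_lit 0) (nat_lit 40453846311) (nat_lit 76) (nat_lit 1500876129) (nat_lit 152) (nat_lit 4372963765) (nat_lit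 17) (nat_lit 5) (nat_lit 18) (nat_lit 5) (nat_lit 19) (nat_lit 4) (nat_lit 305) (nat_lit 266) (nat_lit 209)) (XT.nd (nat_lit 78) (nat_lit 0) (nat_lit 0) (XT.lf (nat_lit 0) (nat_lit 7153922382) (nat_lit 152) (nat_lit 28759071063) (nat_lit 76) (nat_lit 13363410119) (nat_lit 15) (nat_lit 5) (nat_lit 17) (nat_lit 5) (nat_lit 16) (nat_lit 4) (nat_lit 306) (nat_lit 266) (nat_lit 208)) (XT.lf (nat_lit 0) (nat_lit 19554659295) (nat_lit 152) (nat_lit 3375045270) (nat_lit 76) (nat_lit 29522497077) (nat_lit 15) (nat_lit 5) (nat_lit 17) (nat_lit 5) (nat_lit 16) (nat_lit 4) (nat_lit 307) (nat_lit 266) (nat_lit 207))))))) (XT.nd (nat_lit 858) (nat_lit 228) (nat_lit 0) (XT.nd (nat_lit 390) (nat_lit 228) (nat_lit 0) (XT.nd (nat_lit 156) (nat_lit 228) (nat_lit 0) (XT.nd (nat_lit 78) (nat_lit 0) (nat_lit 0) (XT.lf (nat_lit 0) (nat_lit 24788675109) (nat_lit 76) (nat_lit 8521315211) (nat_lit 152) (nat_lit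 22553958609) (nat_lit 14) (nat_lit 5) (nat_lit 15) (nat_lit 5) (nat_lit 16) (nat_lit 4) (nat_lit 308) (nat_lit 266) (nat_lit 206)) (XT.lf (nat_lit 0) (nat_lit 48311778663) (nat_lit 152) (nat_lit 4373923867) (nat_lit 0) (nat_lit 6855643147) (nat_lit 14) (nat_lit 5) (nat_lit 16) (nat_lit 4) (nat_lit 14) (nat_lit 4) (nat_lit 309) (nat_lit 266) (nat_lit 205))) (XT.nd (nat_lit 78) (nat_lit 76) (nat_lit 0) (XT.lf (nat_lit 0) (nat_lit 1490560676) (nat_lit 152) (nat_lit 38428825848) (nat_lit 76) (nat_lit 23566685499) (nat_lit 12) (nat_lit 5) (nat_lit 14) (nat_lit 5) (nat_lit 13) (nat_lit 4) (nat_lit 310) (nat_lit 266) (nat_lit 204)) (XT.nd (nat_lit 78) (nat_lit 76) (nat_lit 0) (XT.lf (nat_lit 0) (nat_lit 14896355422) (nat_lit 152) (nat_lit 10973187101) (nat_lit 76) (nat_lit 41864564244) (nat_lit 12) (nat_lit 5) (nat_lit 14) (nat_lit 5) (nat_lit 13) (nat_lit 4) (nat_lit 311) (nat_lit 266) (nat_lit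 203)) (XT.lf (nat_lit 0) (nat_lit 19259090434) (nat_lit 76) (nat_lit 10396569513) (nat_lit 152) (nat_lit 42652280516) (nat_lit 11) (nat_lit 5) (nat_lit 12) (nat_lit 5) (nat_lit 13) (nat_lit 4) (nat_lit 312) (nat_lit 266) (nat_lit 202))))) (XT.nd (nat_lit 234) (nat_lit 152) (nat_lit 0) (XT.nd (nat_lit 78) (nat_lit 76) (nat_lit 0) (XT.lf (nat_lit 0) (nat_lit 45869594473) (nat_lit 152) (nat_lit 25073385906) (nat_lit 0) (nat_lit 6291014051) (nat_lit 11) (nat_lit 5) (nat_lit 13) (nat_lit 4) (nat_lit 11) (nat_lit 4) (nat_lit 313) (nat_lit 266) (nat_lit 201)) (XT.nd (nat_lit 78) (nat_lit 0) (nat_lit 0) (XT.lf (nat_lit 0) (nat_lit 5095160346) (nat_lit 76) (nat_lit 58522767240) (nat_lit 76) (nat_lit 18924348209) (nat_lit 10) (nat_lit 4) (nat_lit 11) (nat_lit 5) (nat_lit 11) (nat_lit 4) (nat_lit 314) (nat_lit 266) (nat_lit 200)) (XT.lf (nat_lit 0) (nat_lit 38541248288) (nat_lit 76) (nat_lit 44664883016)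 (nat_lit 76) (nat_lit 5048094902) (nat_lit 10) (nat_lit 4) (nat_lit 11) (nat_lit 5) (nat_lit 11) (nat_lit 4) (nat_lit 315) (nat_lit 266) (nat_lit 199)))) (XT.nd (nat_lit 78) (nat_lit 76) (nat_lit 0) (XT.lf (nat_lit 0) (nat_lit 9604395016) (nat_lit 152) (nat_lit 19944786740) (nat_lit 76) (nat_lit 64866987494) (nat_lit 9) (nat_lit 5) (nat_lit 11) (nat_lit 5) (nat_lit 10) (nat_lit 4) (nat_lit 316) (nat_lit 266) (nat_lit 198)) (XT.nd (nat_lit 78) (nat_lit 0) (nat_lit 0) (XT.lf (nat_lit 0) (nat_lit 12492242281) (nat_lit 76) (nat_lit 12942775929) (nat_lit 152) (nat_lit 75622777507) (nat_lit 8) (nat_lit 5) (nat_lit 9) (nat_lit 5) (nat_lit 10) (nat_lit 4) (nat_lit 317) (nat_lit 266) (nat_lit 197)) (XT.lf (nat_lit 0) (nat_lit 42949028245) (nat_lit 152) (nat_lit 60087213124) (nat_lit 0) (nat_lit 5173669176) (nat_lit 8) (nat_lit 5) (nat_lit 10) (nat_lit 4) (nat_lit 8) (nat_lit 4) (nat_lit 318) (nat_lit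 266) (nat_lit 196)))))) (XT.nd (nat_lit 390) (nat_lit 76) (nat_lit 0) (XT.nd (nat_lit 156) (nat_lit 76) (nat_lit 0) (XT.nd (nat_lit 78) (nat_lit 76) (nat_lit 0) (XT.lf (nat_lit 0) (nat_lit 62069319071) (nat_lit 152) (nat_lit 29573521082) (nat_lit 0) (nat_lit 24281101121) (nat_lit 8) (nat_lit 5) (nat_lit 10) (nat_lit 4) (nat_lit 8) (nat_lit 4) (nat_lit 319) (nat_lit 266) (nat_lit 195)) (XT.lf (nat_lit 0) (nat_lit 3469462024) (nat_lit 76) (nat_lit 79291829112) (nat_lit 76) (nat_lit 41491704792) (nat_lit 7) (nat_lit 4) (nat_lit 8) (nat_lit 5) (nat_lit 8) (nat_lit 4) (nat_lit 320) (nat_lit 266) (nat_lit 194))) (XT.nd (nat_lit 78) (nat_lit 76) (nat_lit 0) (XT.lf (nat_lit 0) (nat_lit 40190088905) (nat_lit 76) (nat_lit 65422129479) (nat_lit 76) (nat_lit 27610980741) (nat_lit 7) (nat_lit 4) (nat_lit 8) (nat_lit 5) (nat_lit 8) (nat_lit 4) (nat_lit 321) (nat_lit 266) (nat_lit 193)) (XT.nd (nat_lit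 78) (nat_lit 76) (nat_lit 0) (XT.lf (nat_lit 0) (nat_lit 79828129111) (nat_lit 76) (nat_lit 50452392329) (nat_lit 76) (nat_lit 12631035797) (nat_lit 7) (nat_lit 4) (nat_lit 8) (nat_lit 5) (nat_lit 8) (nat_lit 4) (nat_lit 322) (nat_lit 266) (nat_lit 192)) (XT.lf (nat_lit 0) (nat_lit 3423697190) (nat_lit 152) (nat_lit 30812228952) (nat_lit 76) (nat_lit 119136795572) (nat_lit 6) (nat_lit 5) (nat_lit 8) (nat_lit 5) (nat_lit 7) (nat_lit 4) (nat_lit 323) (nat_lit 266) (nat_lit 191))))) (XT.nd (nat_lit 234) (nat_lit 0) (nat_lit 0) (XT.nd (nat_lit 78) (nat_lit 0) (nat_lit 0) (XT.lf (nat_lit 0) (nat_lit 3935999155) (nat_lit 76) (nat_lit 16442322252) (nat_lit 152) (nat_lit 144279205561) (nat_lit 5) (nat_lit 5) (nat_lit 6) (nat_lit 5) (nat_lit 7) (nat_lit 4) (nat_lit 324) (nat_lit 266) (nat_lit 190)) (XT.nd (nat_lit 78) (nat_lit 0) (nat_lit 0) (XT.lf (nat_lit 0) (nat_lit 39269142089) (nat_lit 152)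 (nat_lit 134323237306) (nat_lit 0) (nat_lit 3223748750) (nat_lit 5) (nat_lit 5) (nat_lit 7) (nat_lit 4) (nat_lit 5) (nat_lit 4) (nat_lit 325) (nat_lit 266) (nat_lit 189)) (XT.lf (nat_lit 0) (nat_lit 59940121018) (nat_lit 152) (nat_lit 106106272458) (nat_lit 0) (nat_lit 23887581932) (nat_lit 5) (nat_lit 5) (nat_lit 7) (nat_lit 4) (nat_lit 5) (nat_lit 4) (nat_lit 326) (nat_lit 266) (nat_lit 188)))) (XT.nd (nat_lit 78) (nat_lit 0) (nat_lit 0) (XT.lf (nat_lit 0) (nat_lit 82257042152) (nat_lit 152) (nat_lit 75646710894) (nat_lit 0) (nat_lit 46197886636) (nat_lit 5) (nat_lit 5) (nat_lit 7) (nat_lit 4) (nat_lit 5) (nat_lit 4) (nat_lit 327) (nat_lit 266) (nat_lit 187)) (XT.nd (nat_lit 78) (nat_lit 0) (nat_lit 0) (XT.lf (nat_lit 0) (nat_lit 106352153915) (nat_lit 152) (nat_lit 42764051509) (nat_lit 0) (nat_lit 70286872073) (nat_lit 5) (nat_lit 5) (nat_lit 7) (nat_lit 4) (nat_lit 5) (nat_lit 4)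 (nat_lit 328) (nat_lit 266) (nat_lit 186)) (XT.lf (nat_lit 0) (nat_lit 132368242153) (nat_lit 152) (nat_lit 7263434100) (nat_lit 0) (nat_lit 96297287788) (nat_lit 5) (nat_lit 5) (nat_lit 7) (nat_lit 4) (nat_lit 5) (nat_lit 4) (nat_lit 329) (nat_lit 266) (nat_lit 185))))))))
noncomputable def xc61 : XT := (XT.nd (nat_lit 35880) (nat_lit 0) (nat_lit 2888) (XT.nd (nat_lit 780) (nat_lit 0) (nat_lit 0) (XT.nd (nat_lit 390) (nat_lit 152) (nat_lit 0) (XT.nd (nat_lit 156) (nat_lit 0) (nat_lit 0) (XT.nd (nat_lit 78) (nat_lit 0) (nat_lit 0) (XT.lf (nat_lit 0) (nat_lit 32092681595) (nat_lit 76) (nat_lit 128867851382) (nat_lit 76) (nat_lit 92791644680) (nat_lit 4) (nat_lit 4) (nat_lit 5) (nat_lit 5) (nat_lit 5) (nat_lit 4) (nat_lit 330) (nat_lit 266) (nat_lit 184)) (XT.lf (nat_lit 0) (nat_lit 74845453318) (nat_lit 76) (nat_lit 117115416825) (nat_lit 76) (nat_lit 81034346849) (nat_lit 4) (nat_lit 4)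 (nat_lit 5) (nat_lit 5) (nat_lit 5) (nat_lit 4) (nat_lit 331) (nat_lit 266) (nat_lit 183))) (XT.nd (nat_lit 78) (nat_lit 0) (nat_lit 0) (XT.lf (nat_lit 0) (nat_lit 121008068892) (nat_lit 76) (nat_lit 104427738298) (nat_lit 76) (nat_lit 68342165289) (nat_lit 4) (nat_lit 4) (nat_lit 5) (nat_lit 5) (nat_lit 5) (nat_lit 4) (nat_lit 332) (nat_lit 266) (nat_lit 182)) (XT.nd (nat_lit 78) (nat_lit 0) (nat_lit 0) (XT.lf (nat_lit 0) (nat_lit 170854084558) (nat_lit 76) (nat_lit 90729629557) (nat_lit 76) (nat_lit 54639887074) (nat_lit 4) (nat_lit 4) (nat_lit 5) (nat_lit 5) (nat_lit 5) (nat_lit 4) (nat_lit 333) (nat_lit 266) (nat_lit 181)) (XT.lf (nat_lit 0) (nat_lit 224678884111) (nat_lit 76) (nat_lit 75939916624) (nat_lit 76) (nat_lit 39846313517) (nat_lit 4) (nat_lit 4) (nat_lit 5) (nat_lit 5) (nat_lit 5) (nat_lit 4) (nat_lit 334) (nat_lit 266) (nat_lit 180))))) (XT.nd (nat_lit 156) (nat_lit 152)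 (nat_lit 0) (XT.nd (nat_lit 78) (nat_lit 0) (nat_lit 0) (XT.lf (nat_lit 0) (nat_lit 282801429328) (nat_lit 76) (nat_lit 59970956757) (nat_lit 76) (nat_lit 23873778998) (nat_lit 4) (nat_lit 4) (nat_lit 5) (nat_lit 5) (nat_lit 5) (nat_lit 4) (nat_lit 335) (nat_lit 266) (nat_lit 179)) (XT.lf (nat_lit 0) (nat_lit 345566150105) (nat_lit 76) (nat_lit 42728119082) (nat_lit 76) (nat_lit 6627631460) (nat_lit 4) (nat_lit 4) (nat_lit 5) (nat_lit 5) (nat_lit 5) (nat_lit 4) (nat_lit 336) (nat_lit 266) (nat_lit 178))) (XT.nd (nat_lit 78) (nat_lit 76) (nat_lit 0) (XT.lf (nat_lit 0) (nat_lit 11610435072) (nat_lit 152) (nat_lit 12302160412) (nat_lit 76) (nat_lit 401537922120) (nat_lit 3) (nat_lit 5) (nat_lit 5) (nat_lit 5) (nat_lit 4) (nat_lit 4) (nat_lit 337) (nat_lit 266) (nat_lit 177)) (XT.nd (nat_lit 78) (nat_lit 0) (nat_lit 0) (XT.lf (nat_lit 0) (nat_lit 28509798776) (nat_lit 76) (nat_lit 3010293301)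 (nat_lit 152) (nat_lit 426873663093) (nat_lit 2) (nat_lit 5) (nat_lit 3) (nat_lit 5) (nat_lit 4) (nat_lit 4) (nat_lit 338) (nat_lit 266) (nat_lit 176)) (XT.lf (nat_lit 0) (nat_lit 53542415785) (nat_lit 152) (nat_lit 421251166820) (nat_lit 0) (nat_lit 19152875347) (nat_lit 2) (nat_lit 5) (nat_lit 4) (nat_lit 4) (nat_lit 2) (nat_lit 4) (nat_lit 339) (nat_lit 266) (nat_lit 175)))))) (XT.nd (nat_lit 390) (nat_lit 0) (nat_lit 0) (XT.nd (nat_lit 156) (nat_lit 0) (nat_lit 0) (XT.nd (nat_lit 78) (nat_lit 0) (nat_lit 0) (XT.lf (nat_lit 0) (nat_lit 77374167319) (nat_lit 152) (nat_lit 411984518507) (nat_lit 0) (nat_lit 42982309883) (nat_lit 2) (nat_lit 5) (nat_lit 4) (nat_lit 4) (nat_lit 2) (nat_lit 4) (nat_lit 340) (nat_lit 266) (nat_lit 174)) (XT.lf (nat_lit 0) (nat_lit 103109572760) (nat_lit 152) (nat_lit 401982098871) (nat_lit 0) (nat_lit 68715569955) (nat_lit 2) (nat_lit 5) (nat_lit 4) (nat_lit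 4) (nat_lit 2) (nat_lit 4) (nat_lit 341) (nat_lit 266) (nat_lit 173))) (XT.nd (nat_lit 78) (nat_lit 0) (nat_lit 0) (XT.lf (nat_lit 0) (nat_lit 130901138213) (nat_lit 152) (nat_lit 391184634313) (nat_lit 0) (nat_lit 96505148955) (nat_lit 2) (nat_lit 5) (nat_lit 4) (nat_lit 4) (nat_lit 2) (nat_lit 4) (nat_lit 342) (nat_lit 266) (nat_lit 172)) (XT.nd (nat_lit 78) (nat_lit 0) (nat_lit 0) (XT.lf (nat_lit 0) (nat_lit 160913554436) (nat_lit 152) (nat_lit 379528139858) (nat_lit 0) (nat_lit 126515725871) (nat_lit 2) (nat_lit 5) (nat_lit 4) (nat_lit 4) (nat_lit 2) (nat_lit 4) (nat_lit 343) (nat_lit 266) (nat_lit 171)) (XT.lf (nat_lit 0) (nat_lit 193324672786) (nat_lit 152) (nat_lit 366943539984) (nat_lit 0) (nat_lit 158925141157) (nat_lit 2) (nat_lit 5) (nat_lit 4) (nat_lit 4) (nat_lit 2) (nat_lit 4) (nat_lit 344) (nat_lit 266) (nat_lit 170))))) (XT.nd (nat_lit 234) (nat_lit 0) (nat_lit 0) (XT.nd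 (nat_lit 78) (nat_lit 0) (nat_lit 0) (XT.lf (nat_lit 0) (nat_lit 228326559148) (nat_lit 152) (nat_lit 353356259284) (nat_lit 0) (nat_lit 193925450610) (nat_lit 2) (nat_lit 5) (nat_lit 4) (nat_lit 4) (nat_lit 2) (nat_lit 4) (nat_lit 345) (nat_lit 266) (nat_lit 169)) (XT.nd (nat_lit 78) (nat_lit 0) (nat_lit 0) (XT.lf (nat_lit 0) (nat_lit 266126632108) (nat_lit 152) (nat_lit 338685780538) (nat_lit 0) (nat_lit 231724063468) (nat_lit 2) (nat_lit 5) (nat_lit 4) (nat_lit 4) (nat_lit 2) (nat_lit 4) (nat_lit 346) (nat_lit 266) (nat_lit 168)) (XT.lf (nat_lit 0) (nat_lit 306948892100) (nat_lit 152) (nat_lit 322845167577) (nat_lit 0) (nat_lit 272544971514) (nat_lit 2) (nat_lit 5) (nat_lit 4) (nat_lit 4) (nat_lit 2) (nat_lit 4) (nat_lit 347) (nat_lit 266) (nat_lit 167)))) (XT.nd (nat_lit 34320) (nat_lit 0) (nat_lit 8360) (XT.lf (nat_lit 0) (nat_lit 351035248811) (nat_lit 152) (nat_lit 305740550102)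 (nat_lit 0) (nat_lit 316630076423) (nat_lit 2) (nat_lit 5) (nat_lit 4) (nat_lit 4) (nat_lit 2) (nat_lit 4) (nat_lit 348) (nat_lit 266) (nat_lit 166)) (XT.nd (nat_lit 78) (nat_lit 0) (nat_lit 0) (XT.lf (nat_lit 0) (nat_lit 1139677570) (nat_lit 0) (nat_lit 1139677570) (nat_lit 532) (nat_lit 1658019929) (nat_lit 112) (nat_lit 5) (nat_lit 112) (nat_lit 3) (nat_lit 119) (nat_lit 3) (nat_lit 267) (nat_lit 267) (nat_lit 246)) (XT.lf (nat_lit 76) (nat_lit 228510627) (nat_lit 0) (nat_lit 6412444349) (nat_lit 608) (nat_lit 1449931662) (nat_lit 113) (nat_lit 5) (nat_lit 112) (nat_lit 5) (nat_lit 120) (nat_lit 5) (nat_lit 268) (nat_lit 267) (nat_lit 245))))))) (XT.nd (nat_lit 858) (nat_lit 2432) (nat_lit 0) (XT.nd (nat_lit 390) (nat_lit 2432) (nat_lit 0) (XT.nd (nat_lit 156) (nat_lit 0) (nat_lit 76) (XT.nd (nat_lit 78) (nat_lit 0) (nat_lit 76) (XT.lf (nat_lit 0) (nat_lit 494173265) (nat_lit 608) (nat_lit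 1765005364) (nat_lit 684) (nat_lit 6067721351) (nat_lit 104) (nat_lit 5) (nat_lit 112) (nat_lit 5) (nat_lit 113) (nat_lit 5) (nat_lit 269) (nat_lit 267) (nat_lit 244)) (XT.lf (nat_lit 0) (nat_lit 2480250795) (nat_lit 608) (nat_lit 3779033496) (nat_lit 684) (nat_lit 2324799927) (nat_lit 105) (nat_lit 5) (nat_lit 113) (nat_lit 5) (nat_lit 114) (nat_lit 5) (nat_lit 270) (nat_lit 267) (nat_lit 243))) (XT.nd (nat_lit 78) (nat_lit 0) (nat_lit 76) (XT.lf (nat_lit 76) (nat_lit 3051220359) (nat_lit 0) (nat_lit 1526887605) (nat_lit 684) (nat_lit 4286405779) (nat_lit 106) (nat_lit 5) (nat_lit 105) (nat_lit 5) (nat_lit 114) (nat_lit 5) (nat_lit 271) (nat_lit 267) (nat_lit 242)) (XT.nd (nat_lit 78) (nat_lit 0) (nat_lit 0) (XT.lf (nat_lit 76) (nat_lit 1267130373) (nat_lit 0) (nat_lit 5566453442) (nat_lit 684) (nat_lit 2334596179) (nat_lit 107) (nat_lit 5) (nat_lit 106) (nat_lit 5) (nat_lit 115) (nat_lit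 5) (nat_lit 272) (nat_lit 267) (nat_lit 241)) (XT.lf (nat_lit 76) (nat_lit 8984840453) (nat_lit 0) (nat_lit 267996526) (nat_lit 684) (nat_lit 244405851) (nat_lit 107) (nat_lit 5) (nat_lit 106) (nat_lit 5) (nat_lit 115) (nat_lit 5) (nat_lit 273) (nat_lit 267) (nat_lit 240))))) (XT.nd (nat_lit 234) (nat_lit 760) (nat_lit 0) (XT.nd (nat_lit 78) (nat_lit 1216) (nat_lit 0) (XT.lf (nat_lit 0) (nat_lit 2019777395) (nat_lit 684) (nat_lit 2368634786) (nat_lit 76) (nat_lit 5459325088) (nat_lit 98) (nat_lit 5) (nat_lit 107) (nat_lit 5) (nat_lit 99) (nat_lit 5) (nat_lit 274) (nat_lit 267) (nat_lit 239)) (XT.nd (nat_lit 78) (nat_lit 532) (nat_lit 0) (XT.lf (nat_lit 0) (nat_lit 4461295186) (nat_lit 760) (nat_lit 4275383911) (nat_lit 76) (nat_lit 1489374362) (nat_lit 89) (nat_lit 5) (nat_lit 99) (nat_lit 5) (nat_lit 90) (nat_lit 5) (nat_lit 275) (nat_lit 267) (nat_lit 238)) (XT.lf (nat_lit 0) (nat_lit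 4341196690) (nat_lit 532) (nat_lit 2822332168) (nat_lit 608) (nat_lit 3468040679) (nat_lit 82) (nat_lit 5) (nat_lit 89) (nat_lit 5) (nat_lit 90) (nat_lit 5) (nat_lit 276) (nat_lit 267) (nat_lit 237)))) (XT.nd (nat_lit 78) (nat_lit 380) (nat_lit 0) (XT.lf (nat_lit 0) (nat_lit 2650283497) (nat_lit 380) (nat_lit 7493273475) (nat_lit 456) (nat_lit 923078325) (nat_lit 77) (nat_lit 5) (nat_lit 82) (nat_lit 5) (nat_lit 83) (nat_lit 5) (nat_lit 277) (nat_lit 267) (nat_lit 236)) (XT.nd (nat_lit 78) (nat_lit 0) (nat_lit 0) (XT.lf (nat_lit 0) (nat_lit 838267885) (nat_lit 304) (nat_lit 994394529) (nat_lit 380) (nat_lit 9699305277) (nat_lit 72) (nat_lit 5) (nat_lit 76) (nat_lit 5) (nat_lit 77) (nat_lit 5) (nat_lit 278) (nat_lit 267) (nat_lit 235)) (XT.lf (nat_lit 0) (nat_lit 4919732787) (nat_lit 380) (nat_lit 1116165523) (nat_lit 76) (nat_lit 5990865687) (nat_lit 72) (nat_lit 5) (nat_lit 77) (nat_lit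 5) (nat_lit 73) (nat_lit 5) (nat_lit 279) (nat_lit 267) (nat_lit 234)))))) (XT.nd (nat_lit 390) (nat_lit 988) (nat_lit 0) (XT.nd (nat_lit 156) (nat_lit 836) (nat_lit 0) (XT.nd (nat_lit 78) (nat_lit 304) (nat_lit 0) (XT.lf (nat_lit 0) (nat_lit 8341519535) (nat_lit 380) (nat_lit 3165261611) (nat_lit 76) (nat_lit 1050118353) (nat_lit 68) (nat_lit 5) (nat_lit 73) (nat_lit 5) (nat_lit 69) (nat_lit 5) (nat_lit 280) (nat_lit 267) (nat_lit 233)) (XT.lf (nat_lit 0) (nat_lit 7693154740) (nat_lit 304) (nat_lit 4497864844) (nat_lit 380) (nat_lit 930860173) (nat_lit 64) (nat_lit 5) (nat_lit 68) (nat_lit 5) (nat_lit 69) (nat_lit 5) (nat_lit 281) (nat_lit 267) (nat_lit 232))) (XT.nd (nat_lit 78) (nat_lit 456) (nat_lit 0) (XT.lf (nat_lit 0) (nat_lit 2646626770) (nat_lit 380) (nat_lit 7929226913) (nat_lit 76) (nat_lit 3148581682) (nat_lit 59) (nat_lit 5) (nat_lit 64) (nat_lit 5) (nat_lit 60) (nat_lit 5)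 (nat_lit 282) (nat_lit 267) (nat_lit 231)) (XT.nd (nat_lit 78) (nat_lit 228) (nat_lit 0) (XT.lf (nat_lit 0) (nat_lit 3664331326) (nat_lit 228) (nat_lit 2963247225) (nat_lit 304) (nat_lit 7739468070) (nat_lit 56) (nat_lit 5) (nat_lit 59) (nat_lit 5) (nat_lit 60) (nat_lit 5) (nat_lit 283) (nat_lit 267) (nat_lit 230)) (XT.lf (nat_lit 0) (nat_lit 1271193974) (nat_lit 228) (nat_lit 9822503824) (nat_lit 304) (nat_lit 3959134538) (nat_lit 53) (nat_lit 5) (nat_lit 56) (nat_lit 5) (nat_lit 57) (nat_lit 5) (nat_lit 284) (nat_lit 267) (nat_lit 229))))) (XT.nd (nat_lit 234) (nat_lit 456) (nat_lit 0) (XT.nd (nat_lit 78) (nat_lit 456) (nat_lit 0) (XT.lf (nat_lit 0) (nat_lit 286340428) (nat_lit 304) (nat_lit 1351569613) (nat_lit 76) (nat_lit 14147229074) (nat_lit 52) (nat_lit 5) (nat_lit 56) (nat_lit 5) (nat_lit 53) (nat_lit 5) (nat_lit 285) (nat_lit 267) (nat_lit 228)) (XT.nd (nat_lit 78) (nat_lit 228)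 (nat_lit 0) (XT.lf (nat_lit 0) (nat_lit 4975714731) (nat_lit 304) (nat_lit 4373151213) (nat_lit 76) (nat_lit 7211852544) (nat_lit 49) (nat_lit 5) (nat_lit 53) (nat_lit 5) (nat_lit 50) (nat_lit 5) (nat_lit 286) (nat_lit 267) (nat_lit 227)) (XT.lf (nat_lit 0) (nat_lit 9652458608) (nat_lit 228) (nat_lit 525922873) (nat_lit 304) (nat_lit 7213131302) (nat_lit 46) (nat_lit 5) (nat_lit 49) (nat_lit 5) (nat_lit 50) (nat_lit 5) (nat_lit 287) (nat_lit 267) (nat_lit 226)))) (XT.nd (nat_lit 78) (nat_lit 304) (nat_lit 0) (XT.lf (nat_lit 0) (nat_lit 6654248208) (nat_lit 152) (nat_lit 9403809670) (nat_lit 228) (nat_lit 2217743020) (nat_lit 44) (nat_lit 5) (nat_lit 46) (nat_lit 5) (nat_lit 47) (nat_lit 5) (nat_lit 288) (nat_lit 267) (nat_lit 225)) (XT.nd (nat_lit 78) (nat_lit 0) (nat_lit 0) (XT.lf (nat_lit 0) (nat_lit 3206822461) (nat_lit 228) (nat_lit 5829907) (nat_lit 304) (nat_lit 16008907752) (nat_lit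 40) (nat_lit 5) (nat_lit 43) (nat_lit 5) (nat_lit 44) (nat_lit 5) (nat_lit 289) (nat_lit 267) (nat_lit 224)) (XT.lf (nat_lit 0) (nat_lit 9308720154) (nat_lit 304) (nat_lit 880565945) (nat_lit 76) (nat_lit 10036486406) (nat_lit 40) (nat_lit 5) (nat_lit 44) (nat_lit 5) (nat_lit 41) (nat_lit 5) (nat_lit 290) (nat_lit 267) (nat_lit 223))))))))
noncomputable def xc62 : XT := (XT.nd (nat_lit 1638) (nat_lit 608) (nat_lit 0) (XT.nd (nat_lit 780) (nat_lit 760) (nat_lit 0) (XT.nd (nat_lit 390) (nat_lit 684) (nat_lit 0) (XT.nd (nat_lit 156) (nat_lit 304) (nat_lit 0) (XT.nd (nat_lit 78) (nat_lit 228) (nat_lit 0) (XT.lf (nat_lit 0) (nat_lit 15894169238) (nat_lit 152) (nat_lit 194486614) (nat_lit 228) (nat_lit 5211909892) (nat_lit 38) (nat_lit 5) (nat_lit 40) (nat_lit 5) (nat_lit 41) (nat_lit 5) (nat_lit 291) (nat_lit 267) (nat_lit 222)) (XT.lf (nat_lit 0) (nat_lit 1238522757) (nat_lit 228) (nat_lit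 10752222850) (nat_lit 76) (nat_lit 10453938569) (nat_lit 35) (nat_lit 5) (nat_lit 38) (nat_lit 5) (nat_lit 36) (nat_lit 5) (nat_lit 292) (nat_lit 267) (nat_lit 221))) (XT.nd (nat_lit 78) (nat_lit 152) (nat_lit 0) (XT.lf (nat_lit 0) (nat_lit 6723410886) (nat_lit 152) (nat_lit 1457309973) (nat_lit 228) (nat_lit 15487465892) (nat_lit 33) (nat_lit 5) (nat_lit 35) (nat_lit 5) (nat_lit 36) (nat_lit 5) (nat_lit 293) (nat_lit 267) (nat_lit 220)) (XT.nd (nat_lit 78) (nat_lit 0) (nat_lit 0) (XT.lf (nat_lit 0) (nat_lit 793978108) (nat_lit 152) (nat_lit 15195871569) (nat_lit 228) (nat_lit 8984182174) (nat_lit 31) (nat_lit 5) (nat_lit 33) (nat_lit 5) (nat_lit 34) (nat_lit 5) (nat_lit 294) (nat_lit 267) (nat_lit 219)) (XT.lf (nat_lit 0) (nat_lit 20460418274) (nat_lit 152) (nat_lit 4238867412) (nat_lit 228) (nat_lit 1671317123) (nat_lit 31) (nat_lit 5) (nat_lit 33) (nat_lit 5) (nat_lit 34) (nat_lit 5)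 (nat_lit 295) (nat_lit 267) (nat_lit 218))))) (XT.nd (nat_lit 156) (nat_lit 304) (nat_lit 0) (XT.nd (nat_lit 78) (nat_lit 152) (nat_lit 0) (XT.lf (nat_lit 0) (nat_lit 6329709413) (nat_lit 228) (nat_lit 13880124773) (nat_lit 76) (nat_lit 7649116170) (nat_lit 28) (nat_lit 5) (nat_lit 31) (nat_lit 5) (nat_lit 29) (nat_lit 5) (nat_lit 296) (nat_lit 267) (nat_lit 217)) (XT.lf (nat_lit 0) (nat_lit 6241282579) (nat_lit 152) (nat_lit 8905755927) (nat_lit 228) (nat_lit 14306248795) (nat_lit 26) (nat_lit 5) (nat_lit 28) (nat_lit 5) (nat_lit 29) (nat_lit 5) (nat_lit 297) (nat_lit 267) (nat_lit 216))) (XT.nd (nat_lit 78) (nat_lit 304) (nat_lit 0) (XT.lf (nat_lit 0) (nat_lit 24929047277) (nat_lit 228) (nat_lit 2815121345) (nat_lit 76) (nat_lit 3418065957) (nat_lit 26) (nat_lit 5) (nat_lit 29) (nat_lit 5) (nat_lit 27) (nat_lit 4) (nat_lit 298) (nat_lit 267) (nat_lit 215)) (XT.nd (nat_lit 78) (nat_lit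 152) (nat_lit 0) (XT.lf (nat_lit 0) (nat_lit 2834520536) (nat_lit 152) (nat_lit 13400665441) (nat_lit 76) (nat_lit 16749377943) (nat_lit 24) (nat_lit 5) (nat_lit 26) (nat_lit 5) (nat_lit 25) (nat_lit 5) (nat_lit 299) (nat_lit 267) (nat_lit 214)) (XT.lf (nat_lit 0) (nat_lit 9050569988) (nat_lit 152) (nat_lit 3518701967) (nat_lit 228) (nat_lit 22370321006) (nat_lit 22) (nat_lit 5) (nat_lit 24) (nat_lit 5) (nat_lit 25) (nat_lit 5) (nat_lit 300) (nat_lit 267) (nat_lit 213)))))) (XT.nd (nat_lit 390) (nat_lit 380) (nat_lit 0) (XT.nd (nat_lit 156) (nat_lit 304) (nat_lit 0) (XT.nd (nat_lit 78) (nat_lit 76) (nat_lit 0) (XT.lf (nat_lit 0) (nat_lit 23446775566) (nat_lit 228) (nat_lit 3483306376) (nat_lit 76) (nat_lit 10102764984) (nat_lit 22) (nat_lit 5) (nat_lit 25) (nat_lit 5) (nat_lit 23) (nat_lit 4) (nat_lit 301) (nat_lit 267) (nat_lit 212)) (XT.lf (nat_lit 0) (nat_lit 21283903453) (nat_lit 76)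 (nat_lit 14271864729) (nat_lit 152) (nat_lit 3719748221) (nat_lit 21) (nat_lit 5) (nat_lit 22) (nat_lit 5) (nat_lit 23) (nat_lit 4) (nat_lit 302) (nat_lit 267) (nat_lit 211))) (XT.nd (nat_lit 78) (nat_lit 76) (nat_lit 0) (XT.lf (nat_lit 0) (nat_lit 6509842568) (nat_lit 152) (nat_lit 337978153) (nat_lit 228) (nat_lit 34837685030) (nat_lit 18) (nat_lit 5) (nat_lit 20) (nat_lit 5) (nat_lit 21) (nat_lit 5) (nat_lit 303) (nat_lit 267) (nat_lit 210)) (XT.nd (nat_lit 78) (nat_lit 76) (nat_lit 0) (XT.lf (nat_lit 0) (nat_lit 18652125829) (nat_lit 228) (nat_lit 11006651999) (nat_lit 76) (nat_lit 14600400850) (nat_lit 18) (nat_lit 5) (nat_lit 21) (nat_lit 5) (nat_lit 19) (nat_lit 4) (nat_lit 304) (nat_lit 267) (nat_lit 209)) (XT.lf (nat_lit 0) (nat_lit 15540936696) (nat_lit 76) (nat_lit 16081967937) (nat_lit 152) (nat_lit 15404749183) (nat_lit 17) (nat_lit 5) (nat_lit 18) (nat_lit 5) (nat_lit 19)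 (nat_lit 4) (nat_lit 305) (nat_lit 267) (nat_lit 208))))) (XT.nd (nat_lit 234) (nat_lit 228) (nat_lit 0) (XT.nd (nat_lit 78) (nat_lit 152) (nat_lit 0) (XT.lf (nat_lit 0) (nat_lit 44560752412) (nat_lit 76) (nat_lit 1237359459) (nat_lit 152) (nat_lit 4211170531) (nat_lit 17) (nat_lit 5) (nat_lit 18) (nat_lit 5) (nat_lit 19) (nat_lit 4) (nat_lit 306) (nat_lit 267) (nat_lit 207)) (XT.nd (nat_lit 78) (nat_lit 0) (nat_lit 0) (XT.lf (nat_lit 0) (nat_lit 8203939436) (nat_lit 152) (nat_lit 30193181829) (nat_lit 76) (nat_lit 14797272985) (nat_lit 15) (nat_lit 5) (nat_lit 17) (nat_lit 5) (nat_lit 16) (nat_lit 4) (nat_lit 307) (nat_lit 267) (nat_lit 206)) (XT.lf (nat_lit 0) (nat_lit 21561349876) (nat_lit 152) (nat_lit 2842627671) (nat_lit 76) (nat_lit 32222065415) (nat_lit 15) (nat_lit 5) (nat_lit 17) (nat_lit 5) (nat_lit 16) (nat_lit 4) (nat_lit 308) (nat_lit 267) (nat_lit 205)))) (XT.nd (nat_lit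 78) (nat_lit 152) (nat_lit 0) (XT.lf (nat_lit 0) (nat_lit 27539318091) (nat_lit 76) (nat_lit 8857008598) (nat_lit 152) (nat_lit 23915458592) (nat_lit 14) (nat_lit 5) (nat_lit 15) (nat_lit 5) (nat_lit 16) (nat_lit 4) (nat_lit 309) (nat_lit 267) (nat_lit 204)) (XT.nd (nat_lit 78) (nat_lit 152) (nat_lit 0) (XT.lf (nat_lit 0) (nat_lit 52572035176) (nat_lit 152) (nat_lit 3998443035) (nat_lit 0) (nat_lit 7714221720) (nat_lit 14) (nat_lit 5) (nat_lit 16) (nat_lit 4) (nat_lit 14) (nat_lit 4) (nat_lit 310) (nat_lit 267) (nat_lit 203)) (XT.lf (nat_lit 0) (nat_lit 1993016809) (nat_lit 152) (nat_lit 40796425739) (nat_lit 76) (nat_lit 25756189162) (nat_lit 12) (nat_lit 5) (nat_lit 14) (nat_lit 5) (nat_lit 13) (nat_lit 4) (nat_lit 311) (nat_lit 267) (nat_lit 202))))))) (XT.nd (nat_lit 858) (nat_lit 228) (nat_lit 0) (XT.nd (nat_lit 390) (nat_lit 228) (nat_lit 0) (XT.nd (nat_lit 156) (nat_lit 76) (nat_lit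 0) (XT.nd (nat_lit 78) (nat_lit 76) (nat_lit 0) (XT.lf (nat_lit 0) (nat_lit 16442889113) (nat_lit 152) (nat_lit 11196684498) (nat_lit 76) (nat_lit 45495367183) (nat_lit 12) (nat_lit 5) (nat_lit 14) (nat_lit 5) (nat_lit 13) (nat_lit 4) (nat_lit 312) (nat_lit 267) (nat_lit 201)) (XT.lf (nat_lit 0) (nat_lit 21425737657) (nat_lit 76) (nat_lit 10940689356) (nat_lit 152) (nat_lit 45709091074) (nat_lit 11) (nat_lit 5) (nat_lit 12) (nat_lit 5) (nat_lit 13) (nat_lit 4) (nat_lit 313) (nat_lit 267) (nat_lit 200))) (XT.nd (nat_lit 78) (nat_lit 76) (nat_lit 0) (XT.lf (nat_lit 0) (nat_lit 49856573699) (nat_lit 152) (nat_lit 26488064861) (nat_lit 0) (nat_lit 7052073452) (nat_lit 11) (nat_lit 5) (nat_lit 13) (nat_lit 4) (nat_lit 11) (nat_lit 4) (nat_lit 314) (nat_lit 267) (nat_lit 199)) (XT.nd (nat_lit 78) (nat_lit 0) (nat_lit 0) (XT.lf (nat_lit 0) (nat_lit 6068272610) (nat_lit 76) (nat_lit 62941817906)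 (nat_lit 76) (nat_lit 20120309250) (nat_lit 10) (nat_lit 4) (nat_lit 11) (nat_lit 5) (nat_lit 11) (nat_lit 4) (nat_lit 315) (nat_lit 267) (nat_lit 198)) (XT.lf (nat_lit 0) (nat_lit 42148158741) (nat_lit 76) (nat_lit 47994767441) (nat_lit 76) (nat_lit 5157510257) (nat_lit 10) (nat_lit 4) (nat_lit 11) (nat_lit 5) (nat_lit 11) (nat_lit 4) (nat_lit 316) (nat_lit 267) (nat_lit 197))))) (XT.nd (nat_lit 234) (nat_lit 76) (nat_lit 0) (XT.nd (nat_lit 78) (nat_lit 76) (nat_lit 0) (XT.lf (nat_lit 0) (nat_lit 10636643438) (nat_lit 152) (nat_lit 21046720105) (nat_lit 76) (nat_lit 70272805073) (nat_lit 9) (nat_lit 5) (nat_lit 11) (nat_lit 5) (nat_lit 10) (nat_lit 4) (nat_lit 317) (nat_lit 267) (nat_lit 196)) (XT.nd (nat_lit 78) (nat_lit 0) (nat_lit 0) (XT.lf (nat_lit 0) (nat_lit 13963817830) (nat_lit 76) (nat_lit 13757723052) (nat_lit 152) (nat_lit 81408200458) (nat_lit 8) (nat_lit 5) (nat_lit 9) (nat_lit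 5) (nat_lit 10) (nat_lit 4) (nat_lit 318) (nat_lit 267) (nat_lit 195)) (XT.lf (nat_lit 0) (nat_lit 46621212955) (nat_lit 152) (nat_lit 64448419832) (nat_lit 0) (nat_lit 5785172318) (nat_lit 8) (nat_lit 5) (nat_lit 10) (nat_lit 4) (nat_lit 8) (nat_lit 4) (nat_lit 319) (nat_lit 267) (nat_lit 194)))) (XT.nd (nat_lit 78) (nat_lit 76) (nat_lit 0) (XT.lf (nat_lit 0) (nat_lit 67253626124) (nat_lit 152) (nat_lit 31526652451) (nat_lit 0) (nat_lit 26406561070) (nat_lit 8) (nat_lit 5) (nat_lit 10) (nat_lit 4) (nat_lit 8) (nat_lit 4) (nat_lit 320) (nat_lit 267) (nat_lit 193)) (XT.nd (nat_lit 78) (nat_lit 0) (nat_lit 0) (XT.lf (nat_lit 0) (nat_lit 4141831677) (nat_lit 76) (nat_lit 85449083852) (nat_lit 76) (nat_lit 44591811004) (nat_lit 7) (nat_lit 4) (nat_lit 8) (nat_lit 5) (nat_lit 8) (nat_lit 4) (nat_lit 321) (nat_lit 267) (nat_lit 192)) (XT.lf (nat_lit 0) (nat_lit 43770863324) (nat_lit 76) (nat_lit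 70483592810) (nat_lit 76) (nat_lit 29616868301) (nat_lit 7) (nat_lit 4) (nat_lit 8) (nat_lit 5) (nat_lit 8) (nat_lit 4) (nat_lit 322) (nat_lit 267) (nat_lit 191)))))) (XT.nd (nat_lit 390) (nat_lit 76) (nat_lit 0) (XT.nd (nat_lit 156) (nat_lit 76) (nat_lit 0) (XT.nd (nat_lit 78) (nat_lit 76) (nat_lit 0) (XT.lf (nat_lit 0) (nat_lit 86552867687) (nat_lit 76) (nat_lit 54329040172) (nat_lit 76) (nat_lit 13453564125) (nat_lit 7) (nat_lit 4) (nat_lit 8) (nat_lit 5) (nat_lit 8) (nat_lit 4) (nat_lit 323) (nat_lit 267) (nat_lit 190)) (XT.lf (nat_lit 0) (nat_lit 3866054833) (nat_lit 152) (nat_lit 32958166914) (nat_lit 76) (nat_lit 128809839410) (nat_lit 6) (nat_lit 5) (nat_lit 8) (nat_lit 5) (nat_lit 7) (nat_lit 4) (nat_lit 324) (nat_lit 267) (nat_lit 189))) (XT.nd (nat_lit 78) (nat_lit 0) (nat_lit 0) (XT.lf (nat_lit 0) (nat_lit 4556054337) (nat_lit 76) (nat_lit 17613280635) (nat_lit 152) (nat_lit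 155652705650) (nat_lit 5) (nat_lit 5) (nat_lit 6) (nat_lit 5) (nat_lit 7) (nat_lit 4) (nat_lit 325) (nat_lit 267) (nat_lit 188)) (XT.nd (nat_lit 78) (nat_lit 0) (nat_lit 0) (XT.lf (nat_lit 0) (nat_lit 42561601946) (nat_lit 152) (nat_lit 144781125146) (nat_lit 0) (nat_lit 3611097556) (nat_lit 5) (nat_lit 5) (nat_lit 7) (nat_lit 4) (nat_lit 5) (nat_lit 4) (nat_lit 326) (nat_lit 267) (nat_lit 187)) (XT.lf (nat_lit 0) (nat_lit 64875079300) (nat_lit 152) (nat_lit 114328134305) (nat_lit 0) (nat_lit 25918448585) (nat_lit 5) (nat_lit 5) (nat_lit 7) (nat_lit 4) (nat_lit 5) (nat_lit 4) (nat_lit 327) (nat_lit 267) (nat_lit 186))))) (XT.nd (nat_lit 234) (nat_lit 76) (nat_lit 0) (XT.nd (nat_lit 78) (nat_lit 0) (nat_lit 0) (XT.lf (nat_lit 0) (nat_lit 88967002377) (nat_lit 152) (nat_lit 81451558924) (nat_lit 0) (nat_lit 50004699139) (nat_lit 5) (nat_lit 5) (nat_lit 7) (nat_lit 4) (nat_lit 5) (nat_lit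 4) (nat_lit 328) (nat_lit 267) (nat_lit 185)) (XT.nd (nat_lit 78) (nat_lit 0) (nat_lit 0) (XT.lf (nat_lit 0) (nat_lit 114980138129) (nat_lit 152) (nat_lit 45956574851) (nat_lit 0) (nat_lit 76012582554) (nat_lit 5) (nat_lit 5) (nat_lit 7) (nat_lit 4) (nat_lit 5) (nat_lit 4) (nat_lit 329) (nat_lit 267) (nat_lit 184)) (XT.lf (nat_lit 0) (nat_lit 143068638471) (nat_lit 152) (nat_lit 7632841440) (nat_lit 0) (nat_lit 104096219621) (nat_lit 5) (nat_lit 5) (nat_lit 7) (nat_lit 4) (nat_lit 5) (nat_lit 4) (nat_lit 330) (nat_lit 267) (nat_lit 183)))) (XT.nd (nat_lit 78) (nat_lit 0) (nat_lit 0) (XT.lf (nat_lit 0) (nat_lit 34862564704) (nat_lit 76) (nat_lit 139080691407) (nat_lit 76) (nat_lit 100103769525) (nat_lit 4) (nat_lit 4) (nat_lit 5) (nat_lit 5) (nat_lit 5) (nat_lit 4) (nat_lit 331) (nat_lit 267) (nat_lit 182)) (XT.nd (nat_lit 78) (nat_lit 0) (nat_lit 0) (XT.lf (nat_lit 0) (nat_lit 81020560493)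 (nat_lit 76) (nat_lit 126395216759) (nat_lit 76) (nat_lit 87414125403) (nat_lit 4) (nat_lit 4) (nat_lit 5) (nat_lit 5) (nat_lit 5) (nat_lit 4) (nat_lit 332) (nat_lit 267) (nat_lit 181)) (XT.lf (nat_lit 0) (nat_lit 130862298579) (nat_lit 76) (nat_lit 112699148646) (nat_lit 76) (nat_lit 73714196666) (nat_lit 4) (nat_lit 4) (nat_lit 5) (nat_lit 5) (nat_lit 5) (nat_lit 4) (nat_lit 333) (nat_lit 267) (nat_lit 180))))))))
noncomputable def xc63 : XT := (XT.nd (nat_lit 36036) (nat_lit 0) (nat_lit 2204) (XT.nd (nat_lit 858) (nat_lit 0) (nat_lit 0) (XT.nd (nat_lit 390) (nat_lit 76) (nat_lit 0) (XT.nd (nat_lit 156) (nat_lit 76) (nat_lit 0) (XT.nd (nat_lit 78) (nat_lit 0) (nat_lit 0) (XT.lf (nat_lit 0) (nat_lit 184683137410) (nat_lit 76) (nat_lit 97911325185) (nat_lit 76) (nat_lit 58922798553) (nat_lit 4) (nat_lit 4) (nat_lit 5) (nat_lit 5) (nat_lit 5) (nat_lit 4) (nat_lit 334) (nat_lit 267) (nat_lit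 179)) (XT.lf (nat_lit 0) (nat_lit 242802015292) (nat_lit 76) (nat_lit 81944114828) (nat_lit 76) (nat_lit 42952278333) (nat_lit 4) (nat_lit 4) (nat_lit 5) (nat_lit 5) (nat_lit 5) (nat_lit 4) (nat_lit 335) (nat_lit 267) (nat_lit 178))) (XT.nd (nat_lit 78) (nat_lit 76) (nat_lit 0) (XT.lf (nat_lit 0) (nat_lit 305563340388) (nat_lit 76) (nat_lit 64702897069) (nat_lit 76) (nat_lit 25707995887) (nat_lit 4) (nat_lit 4) (nat_lit 5) (nat_lit 5) (nat_lit 5) (nat_lit 4) (nat_lit 336) (nat_lit 267) (nat_lit 177)) (XT.nd (nat_lit 78) (nat_lit 76) (nat_lit 0) (XT.lf (nat_lit 0) (nat_lit 373339031663) (nat_lit 76) (nat_lit 46085501730) (nat_lit 76) (nat_lit 7087762874) (nat_lit 4) (nat_lit 4) (nat_lit 5) (nat_lit 5) (nat_lit 5) (nat_lit 4) (nat_lit 337) (nat_lit 267) (nat_lit 176)) (XT.lf (nat_lit 0) (nat_lit 12602081113) (nat_lit 152) (nat_lit 13166100050) (nat_lit 76) (nat_lit 433715219389) (nat_lit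 3) (nat_lit 5) (nat_lit 5) (nat_lit 5) (nat_lit 4) (nat_lit 4) (nat_lit 338) (nat_lit 267) (nat_lit 175))))) (XT.nd (nat_lit 234) (nat_lit 0) (nat_lit 0) (XT.nd (nat_lit 78) (nat_lit 0) (nat_lit 0) (XT.lf (nat_lit 0) (nat_lit 30905590684) (nat_lit 76) (nat_lit 3196062908) (nat_lit 152) (nat_lit 460960587712) (nat_lit 2) (nat_lit 5) (nat_lit 3) (nat_lit 5) (nat_lit 4) (nat_lit 4) (nat_lit 339) (nat_lit 267) (nat_lit 174)) (XT.nd (nat_lit 78) (nat_lit 0) (nat_lit 0) (XT.lf (nat_lit 0) (nat_lit 57882118024) (nat_lit 152) (nat_lit 454842776145) (nat_lit 0) (nat_lit 20734449626) (nat_lit 2) (nat_lit 5) (nat_lit 4) (nat_lit 4) (nat_lit 2) (nat_lit 4) (nat_lit 340) (nat_lit 267) (nat_lit 173)) (XT.lf (nat_lit 0) (nat_lit 83616238645) (nat_lit 152) (nat_lit 444842831821) (nat_lit 0) (nat_lit 46466583795) (nat_lit 2) (nat_lit 5) (nat_lit 4) (nat_lit 4) (nat_lit 2) (nat_lit 4) (nat_lit 341) (nat_lit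 267) (nat_lit 172)))) (XT.nd (nat_lit 78) (nat_lit 0) (nat_lit 0) (XT.lf (nat_lit 0) (nat_lit 111406614451) (nat_lit 152) (nat_lit 434047659219) (nat_lit 0) (nat_lit 74255120293) (nat_lit 2) (nat_lit 5) (nat_lit 4) (nat_lit 4) (nat_lit 2) (nat_lit 4) (nat_lit 342) (nat_lit 267) (nat_lit 171)) (XT.nd (nat_lit 78) (nat_lit 0) (nat_lit 0) (XT.lf (nat_lit 0) (nat_lit 141417929150) (nat_lit 152) (nat_lit 422393286946) (nat_lit 0) (nat_lit 104264731928) (nat_lit 2) (nat_lit 5) (nat_lit 4) (nat_lit 4) (nat_lit 2) (nat_lit 4) (nat_lit 343) (nat_lit 267) (nat_lit 170)) (XT.lf (nat_lit 0) (nat_lit 173828027569) (nat_lit 152) (nat_lit 409810652054) (nat_lit 0) (nat_lit 136673253438) (nat_lit 2) (nat_lit 5) (nat_lit 4) (nat_lit 4) (nat_lit 2) (nat_lit 4) (nat_lit 344) (nat_lit 267) (nat_lit 169)))))) (XT.nd (nat_lit 34710) (nat_lit 0) (nat_lit 7220) (XT.nd (nat_lit 156) (nat_lit 0) (nat_lit 0) (XT.nd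 (nat_lit 78) (nat_lit 0) (nat_lit 0) (XT.lf (nat_lit 0) (nat_lit 208828969551) (nat_lit 152) (nat_lit 396225190782) (nat_lit 0) (nat_lit 171672735318) (nat_lit 2) (nat_lit 5) (nat_lit 4) (nat_lit 4) (nat_lit 2) (nat_lit 4) (nat_lit 345) (nat_lit 267) (nat_lit 168)) (XT.lf (nat_lit 0) (nat_lit 246628168086) (nat_lit 152) (nat_lit 381556396692) (nat_lit 0) (nat_lit 209470581906) (nat_lit 2) (nat_lit 5) (nat_lit 4) (nat_lit 4) (nat_lit 2) (nat_lit 4) (nat_lit 346) (nat_lit 267) (nat_lit 167))) (XT.nd (nat_lit 78) (nat_lit 0) (nat_lit 0) (XT.lf (nat_lit 0) (nat_lit 287449618423) (nat_lit 152) (nat_lit 365717343598) (nat_lit 0) (nat_lit 250290780442) (nat_lit 2) (nat_lit 5) (nat_lit 4) (nat_lit 4) (nat_lit 2) (nat_lit 4) (nat_lit 347) (nat_lit 267) (nat_lit 166)) (XT.nd (nat_lit 34398) (nat_lit 0) (nat_lit 7676) (XT.lf (nat_lit 0) (nat_lit 331535225455) (nat_lit 152) (nat_lit 348614170443)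 (nat_lit 0) (nat_lit 294375228398) (nat_lit 2) (nat_lit 5) (nat_lit 4) (nat_lit 4) (nat_lit 2) (nat_lit 4) (nat_lit 348) (nat_lit 267) (nat_lit 165)) (XT.lf (nat_lit 0) (nat_lit 124561113) (nat_lit 684) (nat_lit 2016359873) (nat_lit 684) (nat_lit 2016359873) (nat_lit 103) (nat_lit 3) (nat_lit 112) (nat_lit 3) (nat_lit 112) (nat_lit 5) (nat_lit 268) (nat_lit 268) (nat_lit 244))))) (XT.nd (nat_lit 234) (nat_lit 532) (nat_lit 0) (XT.nd (nat_lit 78) (nat_lit 0) (nat_lit 0) (XT.lf (nat_lit 0) (nat_lit 1928970037) (nat_lit 608) (nat_lit 6392345610) (nat_lit 684) (nat_lit 239183725) (nat_lit 104) (nat_lit 5) (nat_lit 112) (nat_lit 5) (nat_lit 113) (nat_lit 5) (nat_lit 269) (nat_lit 268) (nat_lit 243)) (XT.nd (nat_lit 78) (nat_lit 0) (nat_lit 76) (XT.lf (nat_lit 76) (nat_lit 15180051) (nat_lit 0) (nat_lit 3708372240) (nat_lit 684) (nat_lit 5103857630) (nat_lit 105) (nat_lit 5) (nat_lit 104) (nat_lit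 5) (nat_lit 113) (nat_lit 5) (nat_lit 270) (nat_lit 268) (nat_lit 242)) (XT.lf (nat_lit 0) (nat_lit 5642828485) (nat_lit 608) (nat_lit 2071269953) (nat_lit 684) (nat_lit 1402810379) (nat_lit 105) (nat_lit 5) (nat_lit 113) (nat_lit 5) (nat_lit 114) (nat_lit 5) (nat_lit 271) (nat_lit 268) (nat_lit 241)))) (XT.nd (nat_lit 78) (nat_lit 608) (nat_lit 0) (XT.lf (nat_lit 76) (nat_lit 5218048312) (nat_lit 0) (nat_lit 2500917891) (nat_lit 684) (nat_lit 1710705697) (nat_lit 106) (nat_lit 5) (nat_lit 105) (nat_lit 5) (nat_lit 114) (nat_lit 5) (nat_lit 272) (nat_lit 268) (nat_lit 240)) (XT.nd (nat_lit 78) (nat_lit 0) (nat_lit 0) (XT.lf (nat_lit 0) (nat_lit 194316411) (nat_lit 684) (nat_lit 6412356461) (nat_lit 760) (nat_lit 3160531317) (nat_lit 97) (nat_lit 5) (nat_lit 106) (nat_lit 5) (nat_lit 107) (nat_lit 5) (nat_lit 273) (nat_lit 268) (nat_lit 239)) (XT.lf (nat_lit 76) (nat_lit 1423521062) (nat_lit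 0) (nat_lit 782991210) (nat_lit 760) (nat_lit 7923309894) (nat_lit 98) (nat_lit 5) (nat_lit 97) (nat_lit 5) (nat_lit 107) (nat_lit 5) (nat_lit 274) (nat_lit 268) (nat_lit 238))))))) (XT.nd (nat_lit 858) (nat_lit 1672) (nat_lit 0) (XT.nd (nat_lit 390) (nat_lit 1444) (nat_lit 0) (XT.nd (nat_lit 156) (nat_lit 1292) (nat_lit 0) (XT.nd (nat_lit 78) (nat_lit 684) (nat_lit 0) (XT.lf (nat_lit 0) (nat_lit 4462274905) (nat_lit 684) (nat_lit 589331073) (nat_lit 76) (nat_lit 5465918365) (nat_lit 98) (nat_lit 5) (nat_lit 107) (nat_lit 5) (nat_lit 99) (nat_lit 5) (nat_lit 275) (nat_lit 268) (nat_lit 237)) (XT.lf (nat_lit 0) (nat_lit 6955529872) (nat_lit 760) (nat_lit 2619392503) (nat_lit 76) (nat_lit 1358657934) (nat_lit 89) (nat_lit 5) (nat_lit 99) (nat_lit 5) (nat_lit 90) (nat_lit 5) (nat_lit 276) (nat_lit 268) (nat_lit 236))) (XT.nd (nat_lit 78) (nat_lit 760) (nat_lit 0) (XT.lf (nat_lit 0) (nat_lit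 6599682940) (nat_lit 532) (nat_lit 3145777519) (nat_lit 608) (nat_lit 1632774702) (nat_lit 82) (nat_lit 5) (nat_lit 89) (nat_lit 5) (nat_lit 90) (nat_lit 5) (nat_lit 277) (nat_lit 268) (nat_lit 235)) (XT.nd (nat_lit 78) (nat_lit 304) (nat_lit 0) (XT.lf (nat_lit 0) (nat_lit 957759358) (nat_lit 456) (nat_lit 7078568568) (nat_lit 76) (nat_lit 3817263981) (nat_lit 76) (nat_lit 5) (nat_lit 82) (nat_lit 5) (nat_lit 77) (nat_lit 5) (nat_lit 278) (nat_lit 268) (nat_lit 234)) (XT.lf (nat_lit 0) (nat_lit 2814132751) (nat_lit 304) (nat_lit 975292702) (nat_lit 380) (nat_lit 8571801738) (nat_lit 72) (nat_lit 5) (nat_lit 76) (nat_lit 5) (nat_lit 77) (nat_lit 5) (nat_lit 279) (nat_lit 268) (nat_lit 233))))) (XT.nd (nat_lit 234) (nat_lit 760) (nat_lit 0) (XT.nd (nat_lit 78) (nat_lit 380) (nat_lit 0) (XT.lf (nat_lit 0) (nat_lit 668302471) (nat_lit 304) (nat_lit 6332934034) (nat_lit 380) (nat_lit 5900688643)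 (nat_lit 68) (nat_lit 5) (nat_lit 72) (nat_lit 5) (nat_lit 73) (nat_lit 5) (nat_lit 280) (nat_lit 268) (nat_lit 232)) (XT.nd (nat_lit 78) (nat_lit 380) (nat_lit 0) (XT.lf (nat_lit 0) (nat_lit 10592719002) (nat_lit 380) (nat_lit 1568157444) (nat_lit 76) (nat_lit 1318988789) (nat_lit 68) (nat_lit 5) (nat_lit 73) (nat_lit 5) (nat_lit 69) (nat_lit 5) (nat_lit 281) (nat_lit 268) (nat_lit 231)) (XT.lf (nat_lit 0) (nat_lit 547673813) (nat_lit 380) (nat_lit 4025019780) (nat_lit 76) (nat_lit 9521570406) (nat_lit 63) (nat_lit 5) (nat_lit 68) (nat_lit 5) (nat_lit 64) (nat_lit 5) (nat_lit 282) (nat_lit 268) (nat_lit 230)))) (XT.nd (nat_lit 78) (nat_lit 456) (nat_lit 0) (XT.lf (nat_lit 0) (nat_lit 4298548440) (nat_lit 380) (nat_lit 6751534808) (nat_lit 76) (nat_lit 3698344002) (nat_lit 59) (nat_lit 5) (nat_lit 64) (nat_lit 5) (nat_lit 60) (nat_lit 5) (nat_lit 283) (nat_lit 268) (nat_lit 229)) (XT.nd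 (nat_lit 78) (nat_lit 228) (nat_lit 0) (XT.lf (nat_lit 0) (nat_lit 5690759464) (nat_lit 228) (nat_lit 2827597430) (nat_lit 304) (nat_lit 6928216180) (nat_lit 56) (nat_lit 5) (nat_lit 59) (nat_lit 5) (nat_lit 60) (nat_lit 5) (nat_lit 284) (nat_lit 268) (nat_lit 228)) (XT.lf (nat_lit 0) (nat_lit 3092080898) (nat_lit 228) (nat_lit 10181131063) (nat_lit 304) (nat_lit 2917571345) (nat_lit 53) (nat_lit 5) (nat_lit 56) (nat_lit 5) (nat_lit 57) (nat_lit 5) (nat_lit 285) (nat_lit 268) (nat_lit 227)))))) (XT.nd (nat_lit 390) (nat_lit 684) (nat_lit 0) (XT.nd (nat_lit 156) (nat_lit 684) (nat_lit 0) (XT.nd (nat_lit 78) (nat_lit 0) (nat_lit 0) (XT.lf (nat_lit 0) (nat_lit 179628348) (nat_lit 228) (nat_lit 1349849802) (nat_lit 304) (nat_lit 15455983762) (nat_lit 49) (nat_lit 5) (nat_lit 52) (nat_lit 5) (nat_lit 53) (nat_lit 5) (nat_lit 286) (nat_lit 268) (nat_lit 226)) (XT.lf (nat_lit 0) (nat_lit 6531830368)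 (nat_lit 304) (nat_lit 3107888519) (nat_lit 76) (nat_lit 8186586744) (nat_lit 49) (nat_lit 5) (nat_lit 53) (nat_lit 5) (nat_lit 50) (nat_lit 5) (nat_lit 287) (nat_lit 268) (nat_lit 225))) (XT.nd (nat_lit 78) (nat_lit 456) (nat_lit 0) (XT.lf (nat_lit 0) (nat_lit 11969579168) (nat_lit 228) (nat_lit 119469774) (nat_lit 304) (nat_lit 6637698894) (nat_lit 46) (nat_lit 5) (nat_lit 49) (nat_lit 5) (nat_lit 50) (nat_lit 5) (nat_lit 288) (nat_lit 268) (nat_lit 224)) (XT.nd (nat_lit 78) (nat_lit 304) (nat_lit 0) (XT.lf (nat_lit 0) (nat_lit 8711321538) (nat_lit 152) (nat_lit 9676852725) (nat_lit 228) (nat_lit 1296244782) (nat_lit 44) (nat_lit 5) (nat_lit 46) (nat_lit 5) (nat_lit 47) (nat_lit 5) (nat_lit 289) (nat_lit 268) (nat_lit 223)) (XT.lf (nat_lit 0) (nat_lit 4485399462) (nat_lit 304) (nat_lit 15758760318) (nat_lit 76) (nat_lit 463304599) (nat_lit 40) (nat_lit 5) (nat_lit 44) (nat_lit 5) (nat_lit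 41) (nat_lit 5) (nat_lit 290) (nat_lit 268) (nat_lit 222))))) (XT.nd (nat_lit 234) (nat_lit 304) (nat_lit 0) (XT.nd (nat_lit 78) (nat_lit 228) (nat_lit 0) (XT.lf (nat_lit 0) (nat_lit 487803434) (nat_lit 152) (nat_lit 10513816612) (nat_lit 228) (nat_lit 10793846917) (nat_lit 38) (nat_lit 5) (nat_lit 40) (nat_lit 5) (nat_lit 41) (nat_lit 5) (nat_lit 291) (nat_lit 268) (nat_lit 221)) (XT.nd (nat_lit 78) (nat_lit 228) (nat_lit 0) (XT.lf (nat_lit 0) (nat_lit 18271961943) (nat_lit 228) (nat_lit 4436108108) (nat_lit 76) (nat_lit 250843950) (nat_lit 38) (nat_lit 5) (nat_lit 41) (nat_lit 5) (nat_lit 39) (nat_lit 5) (nat_lit 292) (nat_lit 268) (nat_lit 220)) (XT.lf (nat_lit 0) (nat_lit 2206159879) (nat_lit 228) (nat_lit 10244201472) (nat_lit 76) (nat_lit 11745688204) (nat_lit 35) (nat_lit 5) (nat_lit 38) (nat_lit 5) (nat_lit 36) (nat_lit 5) (nat_lit 293) (nat_lit 268) (nat_lit 219)))) (XT.nd (nat_lit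 78) (nat_lit 152) (nat_lit 0) (XT.lf (nat_lit 0) (nat_lit 8570022692) (nat_lit 152) (nat_lit 1089806790) (nat_lit 228) (nat_lit 15859855967) (nat_lit 33) (nat_lit 5) (nat_lit 35) (nat_lit 5) (nat_lit 36) (nat_lit 5) (nat_lit 294) (nat_lit 268) (nat_lit 218)) (XT.nd (nat_lit 78) (nat_lit 0) (nat_lit 0) (XT.lf (nat_lit 0) (nat_lit 2142262458) (nat_lit 152) (nat_lit 15917397812) (nat_lit 228) (nat_lit 8872092912) (nat_lit 31) (nat_lit 5) (nat_lit 33) (nat_lit 5) (nat_lit 34) (nat_lit 5) (nat_lit 295) (nat_lit 268) (nat_lit 217)) (XT.lf (nat_lit 0) (nat_lit 23286849977) (nat_lit 152) (nat_lit 4120436543) (nat_lit 228) (nat_lit 1035741163) (nat_lit 31) (nat_lit 5) (nat_lit 33) (nat_lit 5) (nat_lit 34) (nat_lit 5) (nat_lit 296) (nat_lit 268) (nat_lit 216))))))))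
noncomputable def xc64 : XT := (XT.nd (nat_lit 1638) (nat_lit 532) (nat_lit 0) (XT.nd (nat_lit 780) (nat_lit 532) (nat_lit 0) (XT.nd (nat_lit 390) (nat_lit 380) (nat_lit 0) (XT.nd (nat_lit 156) (nat_lit 304) (nat_lit 0) (XT.nd (nat_lit 78) (nat_lit 152) (nat_lit 0) (XT.lf (nat_lit 0) (nat_lit 7550822128) (nat_lit 228) (nat_lit 13799682840) (nat_lit 76) (nat_lit 8700877484) (nat_lit 28) (nat_lit 5) (nat_lit 31) (nat_lit 5) (nat_lit 29) (nat_lit 5) (nat_lit 297) (nat_lit 268) (nat_lit 215)) (XT.lf (nat_lit 0) (nat_lit 7879684128) (nat_lit 152) (nat_lit 9158694543) (nat_lit 228) (nat_lit 14736686154) (nat_lit 26) (nat_lit 5) (nat_lit 28) (nat_lit 5) (nat_lit 29) (nat_lit 5) (nat_lit 298) (nat_lit 268) (nat_lit 214))) (XT.nd (nat_lit 78) (nat_lit 304) (nat_lit 0) (XT.lf (nat_lit 0) (nat_lit 27559252085) (nat_lit 228) (nat_lit 1960321813) (nat_lit 76) (nat_lit 4103376316) (nat_lit 26) (nat_lit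 5) (nat_lit 29) (nat_lit 5) (nat_lit 27) (nat_lit 4) (nat_lit 299) (nat_lit 268) (nat_lit 213)) (XT.nd (nat_lit 78) (nat_lit 152) (nat_lit 0) (XT.lf (nat_lit 0) (nat_lit 3676527031) (nat_lit 152) (nat_lit 13418888898) (nat_lit 76) (nat_lit 18496737211) (nat_lit 24) (nat_lit 5) (nat_lit 26) (nat_lit 5) (nat_lit 25) (nat_lit 5) (nat_lit 300) (nat_lit 268) (nat_lit 212)) (XT.lf (nat_lit 0) (nat_lit 10782647207) (nat_lit 152) (nat_lit 3377575863) (nat_lit 228) (nat_lit 23544883851) (nat_lit 22) (nat_lit 5) (nat_lit 24) (nat_lit 5) (nat_lit 25) (nat_lit 5) (nat_lit 301) (nat_lit 268) (nat_lit 211))))) (XT.nd (nat_lit 156) (nat_lit 304) (nat_lit 0) (XT.nd (nat_lit 78) (nat_lit 76) (nat_lit 0) (XT.lf (nat_lit 0) (nat_lit 25870672866) (nat_lit 228) (nat_lit 2807260904) (nat_lit 76) (nat_lit 11289778507) (nat_lit 22) (nat_lit 5) (nat_lit 25) (nat_lit 5) (nat_lit 23) (nat_lit 4) (nat_lit 302) (nat_lit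 268) (nat_lit 210)) (XT.lf (nat_lit 0) (nat_lit 23899835178) (nat_lit 76) (nat_lit 15022203536) (nat_lit 152) (nat_lit 3469100178) (nat_lit 21) (nat_lit 5) (nat_lit 22) (nat_lit 5) (nat_lit 23) (nat_lit 4) (nat_lit 303) (nat_lit 268) (nat_lit 209))) (XT.nd (nat_lit 78) (nat_lit 76) (nat_lit 0) (XT.lf (nat_lit 0) (nat_lit 7901240139) (nat_lit 228) (nat_lit 37073864794) (nat_lit 76) (nat_lit 19672023) (nat_lit 18) (nat_lit 5) (nat_lit 21) (nat_lit 5) (nat_lit 19) (nat_lit 4) (nat_lit 304) (nat_lit 268) (nat_lit 208)) (XT.nd (nat_lit 78) (nat_lit 76) (nat_lit 0) (XT.lf (nat_lit 0) (nat_lit 20617715051) (nat_lit 228) (nat_lit 11044450348) (nat_lit 76) (nat_lit 16113808497) (nat_lit 18) (nat_lit 5) (nat_lit 21) (nat_lit 5) (nat_lit 19) (nat_lit 4) (nat_lit 305) (nat_lit 268) (nat_lit 207)) (XT.lf (nat_lit 0) (nat_lit 17590321257) (nat_lit 76) (nat_lit 17013352446) (nat_lit 152) (nat_lit 16163397326)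 (nat_lit 17) (nat_lit 5) (nat_lit 18) (nat_lit 5) (nat_lit 19) (nat_lit 4) (nat_lit 306) (nat_lit 268) (nat_lit 206)))))) (XT.nd (nat_lit 390) (nat_lit 304) (nat_lit 0) (XT.nd (nat_lit 156) (nat_lit 76) (nat_lit 0) (XT.nd (nat_lit 78) (nat_lit 152) (nat_lit 0) (XT.lf (nat_lit 0) (nat_lit 48872010406) (nat_lit 76) (nat_lit 1007484396) (nat_lit 152) (nat_lit 4109423624) (nat_lit 17) (nat_lit 5) (nat_lit 18) (nat_lit 5) (nat_lit 19) (nat_lit 4) (nat_lit 307) (nat_lit 268) (nat_lit 205)) (XT.lf (nat_lit 0) (nat_lit 9269808143) (nat_lit 152) (nat_lit 31865653763) (nat_lit 76) (nat_lit 16293803501) (nat_lit 15) (nat_lit 5) (nat_lit 17) (nat_lit 5) (nat_lit 16) (nat_lit 4) (nat_lit 308) (nat_lit 268) (nat_lit 204))) (XT.nd (nat_lit 78) (nat_lit 76) (nat_lit 0) (XT.lf (nat_lit 0) (nat_lit 23665474118) (nat_lit 152) (nat_lit 2382091021) (nat_lit 76) (nat_lit 35089412756) (nat_lit 15) (nat_lit 5)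 (nat_lit 17) (nat_lit 5) (nat_lit 16) (nat_lit 4) (nat_lit 309) (nat_lit 268) (nat_lit 203)) (XT.nd (nat_lit 78) (nat_lit 0) (nat_lit 0) (XT.lf (nat_lit 0) (nat_lit 30400513069) (nat_lit 76) (nat_lit 9268919912) (nat_lit 152) (nat_lit 25449051328) (nat_lit 14) (nat_lit 5) (nat_lit 15) (nat_lit 5) (nat_lit 16) (nat_lit 4) (nat_lit 310) (nat_lit 268) (nat_lit 202)) (XT.lf (nat_lit 0) (nat_lit 57116716217) (nat_lit 152) (nat_lit 3696409406) (nat_lit 0) (nat_lit 8597243477) (nat_lit 14) (nat_lit 5) (nat_lit 16) (nat_lit 4) (nat_lit 14) (nat_lit 4) (nat_lit 311) (nat_lit 268) (nat_lit 201))))) (XT.nd (nat_lit 234) (nat_lit 76) (nat_lit 0) (XT.nd (nat_lit 78) (nat_lit 76) (nat_lit 0) (XT.lf (nat_lit 0) (nat_lit 2481000059) (nat_lit 152) (nat_lit 43454253158) (nat_lit 76) (nat_lit 28077460035) (nat_lit 12) (nat_lit 5) (nat_lit 14) (nat_lit 5) (nat_lit 13) (nat_lit 4) (nat_lit 312) (nat_lit 268)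 (nat_lit 200)) (XT.nd (nat_lit 78) (nat_lit 76) (nat_lit 0) (XT.lf (nat_lit 0) (nat_lit 18062525710) (nat_lit 152) (nat_lit 11531413109) (nat_lit 76) (nat_lit 49376455576) (nat_lit 12) (nat_lit 5) (nat_lit 14) (nat_lit 5) (nat_lit 13) (nat_lit 4) (nat_lit 313) (nat_lit 268) (nat_lit 199)) (XT.lf (nat_lit 0) (nat_lit 23676422174) (nat_lit 76) (nat_lit 11569368958) (nat_lit 152) (nat_lit 49061144249) (nat_lit 11) (nat_lit 5) (nat_lit 12) (nat_lit 5) (nat_lit 13) (nat_lit 4) (nat_lit 314) (nat_lit 268) (nat_lit 198)))) (XT.nd (nat_lit 78) (nat_lit 76) (nat_lit 0) (XT.lf (nat_lit 0) (nat_lit 54117228940) (nat_lit 152) (nat_lit 28100258270) (nat_lit 0) (nat_lit 7837242652) (nat_lit 11) (nat_lit 5) (nat_lit 13) (nat_lit 4) (nat_lit 11) (nat_lit 4) (nat_lit 315) (nat_lit 268) (nat_lit 197)) (XT.nd (nat_lit 78) (nat_lit 0) (nat_lit 0) (XT.lf (nat_lit 0) (nat_lit 7038559039) (nat_lit 76) (nat_lit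 67751879806) (nat_lit 76) (nat_lit 21457311548) (nat_lit 10) (nat_lit 4) (nat_lit 11) (nat_lit 5) (nat_lit 11) (nat_lit 4) (nat_lit 316) (nat_lit 268) (nat_lit 196)) (XT.lf (nat_lit 0) (nat_lit 45968923126) (nat_lit 76) (nat_lit 51625752973) (nat_lit 76) (nat_lit 5317682891) (nat_lit 10) (nat_lit 4) (nat_lit 11) (nat_lit 5) (nat_lit 11) (nat_lit 4) (nat_lit 317) (nat_lit 268) (nat_lit 195))))))) (XT.nd (nat_lit 858) (nat_lit 152) (nat_lit 0) (XT.nd (nat_lit 390) (nat_lit 152) (nat_lit 0) (XT.nd (nat_lit 156) (nat_lit 76) (nat_lit 0) (XT.nd (nat_lit 78) (nat_lit 76) (nat_lit 0) (XT.lf (nat_lit 0) (nat_lit 11713823903) (nat_lit 152) (nat_lit 22307232769) (nat_lit 76) (nat_lit 76080207821) (nat_lit 9) (nat_lit 5) (nat_lit 11) (nat_lit 5) (nat_lit 10) (nat_lit 4) (nat_lit 318) (nat_lit 268) (nat_lit 194)) (XT.lf (nat_lit 0) (nat_lit 15485755359) (nat_lit 76) (nat_lit 14669319161) (nat_lit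 152) (nat_lit 87694176753) (nat_lit 8) (nat_lit 5) (nat_lit 9) (nat_lit 5) (nat_lit 10) (nat_lit 4) (nat_lit 319) (nat_lit 268) (nat_lit 193))) (XT.nd (nat_lit 78) (nat_lit 76) (nat_lit 0) (XT.lf (nat_lit 0) (nat_lit 50553466961) (nat_lit 152) (nat_lit 69222117199) (nat_lit 0) (nat_lit 6417404491) (nat_lit 8) (nat_lit 5) (nat_lit 10) (nat_lit 4) (nat_lit 8) (nat_lit 4) (nat_lit 320) (nat_lit 268) (nat_lit 192)) (XT.nd (nat_lit 78) (nat_lit 76) (nat_lit 0) (XT.lf (nat_lit 0) (nat_lit 72821468964) (nat_lit 152) (nat_lit 33694917778) (nat_lit 0) (nat_lit 28675954833) (nat_lit 8) (nat_lit 5) (nat_lit 10) (nat_lit 4) (nat_lit 8) (nat_lit 4) (nat_lit 321) (nat_lit 268) (nat_lit 191)) (XT.lf (nat_lit 0) (nat_lit 4811666458) (nat_lit 76) (nat_lit 92125467017) (nat_lit 76) (nat_lit 47971201349) (nat_lit 7) (nat_lit 4) (nat_lit 8) (nat_lit 5) (nat_lit 8) (nat_lit 4) (nat_lit 322) (nat_lit 268) (nat_lit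 190))))) (XT.nd (nat_lit 234) (nat_lit 76) (nat_lit 0) (XT.nd (nat_lit 78) (nat_lit 76) (nat_lit 0) (XT.lf (nat_lit 0) (nat_lit 47585947434) (nat_lit 76) (nat_lit 75974554732) (nat_lit 76) (nat_lit 31812185787) (nat_lit 7) (nat_lit 4) (nat_lit 8) (nat_lit 5) (nat_lit 8) (nat_lit 4) (nat_lit 323) (nat_lit 268) (nat_lit 189)) (XT.nd (nat_lit 78) (nat_lit 76) (nat_lit 0) (XT.lf (nat_lit 0) (nat_lit 93767296216) (nat_lit 76) (nat_lit 58538580513) (nat_lit 76) (nat_lit 14368708535) (nat_lit 7) (nat_lit 4) (nat_lit 8) (nat_lit 5) (nat_lit 8) (nat_lit 4) (nat_lit 324) (nat_lit 268) (nat_lit 188)) (XT.lf (nat_lit 0) (nat_lit 4319768118) (nat_lit 152) (nat_lit 35321294586) (nat_lit 76) (nat_lit 139236454575) (nat_lit 6) (nat_lit 5) (nat_lit 8) (nat_lit 5) (nat_lit 7) (nat_lit 4) (nat_lit 325) (nat_lit 268) (nat_lit 187)))) (XT.nd (nat_lit 78) (nat_lit 0) (nat_lit 0) (XT.lf (nat_lit 0) (nat_lit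 5182177272) (nat_lit 76) (nat_lit 18898519871) (nat_lit 152) (nat_lit 167960172140) (nat_lit 5) (nat_lit 5) (nat_lit 6) (nat_lit 5) (nat_lit 7) (nat_lit 4) (nat_lit 326) (nat_lit 268) (nat_lit 186)) (XT.nd (nat_lit 78) (nat_lit 0) (nat_lit 0) (XT.lf (nat_lit 0) (nat_lit 46095926954) (nat_lit 152) (nat_lit 156116726316) (nat_lit 0) (nat_lit 4010966933) (nat_lit 5) (nat_lit 5) (nat_lit 7) (nat_lit 4) (nat_lit 5) (nat_lit 4) (nat_lit 327) (nat_lit 268) (nat_lit 185)) (XT.lf (nat_lit 0) (nat_lit 70184897545) (nat_lit 152) (nat_lit 123245784271) (nat_lit 0) (nat_lit 28094685187) (nat_lit 5) (nat_lit 5) (nat_lit 7) (nat_lit 4) (nat_lit 5) (nat_lit 4) (nat_lit 328) (nat_lit 268) (nat_lit 184)))))) (XT.nd (nat_lit 390) (nat_lit 76) (nat_lit 0) (XT.nd (nat_lit 156) (nat_lit 76) (nat_lit 0) (XT.nd (nat_lit 78) (nat_lit 0) (nat_lit 0) (XT.lf (nat_lit 0) (nat_lit 96195299513) (nat_lit 152) (nat_lit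 87756016250) (nat_lit 0) (nat_lit 54100223881) (nat_lit 5) (nat_lit 5) (nat_lit 7) (nat_lit 4) (nat_lit 5) (nat_lit 4) (nat_lit 329) (nat_lit 268) (nat_lit 183)) (XT.lf (nat_lit 0) (nat_lit 124281268573) (nat_lit 152) (nat_lit 49437112517) (nat_lit 0) (nat_lit 82181689909) (nat_lit 5) (nat_lit 5) (nat_lit 7) (nat_lit 4) (nat_lit 5) (nat_lit 4) (nat_lit 330) (nat_lit 268) (nat_lit 182))) (XT.nd (nat_lit 78) (nat_lit 76) (nat_lit 0) (XT.lf (nat_lit 0) (nat_lit 154609240098) (nat_lit 152) (nat_lit 8061998086) (nat_lit 0) (nat_lit 112505491960) (nat_lit 5) (nat_lit 5) (nat_lit 7) (nat_lit 4) (nat_lit 5) (nat_lit 4) (nat_lit 331) (nat_lit 268) (nat_lit 181)) (XT.nd (nat_lit 78) (nat_lit 0) (nat_lit 0) (XT.lf (nat_lit 0) (nat_lit 37825154056) (nat_lit 76) (nat_lit 150124338004) (nat_lit 76) (nat_lit 108016729241) (nat_lit 4) (nat_lit 4) (nat_lit 5) (nat_lit 5) (nat_lit 5) (nat_lit 4) (nat_lit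 332) (nat_lit 268) (nat_lit 180)) (XT.lf (nat_lit 0) (nat_lit 87662931420) (nat_lit 76) (nat_lit 136430159363) (nat_lit 76) (nat_lit 94318975948) (nat_lit 4) (nat_lit 4) (nat_lit 5) (nat_lit 5) (nat_lit 5) (nat_lit 4) (nat_lit 333) (nat_lit 268) (nat_lit 179))))) (XT.nd (nat_lit 234) (nat_lit 76) (nat_lit 0) (XT.nd (nat_lit 78) (nat_lit 0) (nat_lit 0) (XT.lf (nat_lit 0) (nat_lit 141480102916) (nat_lit 76) (nat_lit 121644085411) (nat_lit 76) (nat_lit 79529592134) (nat_lit 4) (nat_lit 4) (nat_lit 5) (nat_lit 5) (nat_lit 5) (nat_lit 4) (nat_lit 334) (nat_lit 268) (nat_lit 178)) (XT.nd (nat_lit 78) (nat_lit 0) (nat_lit 0) (XT.lf (nat_lit 0) (nat_lit 199595585117) (nat_lit 76) (nat_lit 105678494971) (nat_lit 76) (nat_lit 63560937006) (nat_lit 4) (nat_lit 4) (nat_lit 5) (nat_lit 5) (nat_lit 5) (nat_lit 4) (nat_lit 335) (nat_lit 268) (nat_lit 177)) (XT.lf (nat_lit 0) (nat_lit 262353766065) (nat_lit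 76) (nat_lit 88438777136) (nat_lit 76) (nat_lit 46318381497) (nat_lit 4) (nat_lit 4) (nat_lit 5) (nat_lit 5) (nat_lit 5) (nat_lit 4) (nat_lit 336) (nat_lit 268) (nat_lit 176)))) (XT.nd (nat_lit 78) (nat_lit 76) (nat_lit 0) (XT.lf (nat_lit 0) (nat_lit 330126546092) (nat_lit 76) (nat_lit 69822770615) (nat_lit 76) (nat_lit 27699747499) (nat_lit 4) (nat_lit 4) (nat_lit 5) (nat_lit 5) (nat_lit 5) (nat_lit 4) (nat_lit 337) (nat_lit 268) (nat_lit 175)) (XT.nd (nat_lit 78) (nat_lit 76) (nat_lit 0) (XT.lf (nat_lit 0) (nat_lit 403315541671) (nat_lit 76) (nat_lit 49720158331) (nat_lit 76) (nat_lit 7594702368) (nat_lit 4) (nat_lit 4) (nat_lit 5) (nat_lit 5) (nat_lit 5) (nat_lit 4) (nat_lit 338) (nat_lit 268) (nat_lit 174)) (XT.lf (nat_lit 0) (nat_lit 13664098112) (nat_lit 152) (nat_lit 14116307469) (nat_lit 76) (nat_lit 468458959144) (nat_lit 3) (nat_lit 5) (nat_lit 5) (nat_lit 5) (nat_lit 4) (nat_lit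 4) (nat_lit 339) (nat_lit 268) (nat_lit 173))))))))
noncomputable def xc65 : XT := (XT.nd (nat_lit 36036) (nat_lit 0) (nat_lit 1520) (XT.nd (nat_lit 35178) (nat_lit 0) (nat_lit 5320) (XT.nd (nat_lit 390) (nat_lit 0) (nat_lit 0) (XT.nd (nat_lit 156) (nat_lit 0) (nat_lit 0) (XT.nd (nat_lit 78) (nat_lit 0) (nat_lit 0) (XT.lf (nat_lit 0) (nat_lit 33476638767) (nat_lit 76) (nat_lit 3404548131) (nat_lit 152) (nat_lit 497783449450) (nat_lit 2) (nat_lit 5) (nat_lit 3) (nat_lit 5) (nat_lit 4) (nat_lit 4) (nat_lit 340) (nat_lit 268) (nat_lit 172)) (XT.lf (nat_lit 0) (nat_lit 62560963336) (nat_lit 152) (nat_lit 491137190676) (nat_lit 0) (nat_lit 22435510337) (nat_lit 2) (nat_lit 5) (nat_lit 4) (nat_lit 4) (nat_lit 2) (nat_lit 4) (nat_lit 341) (nat_lit 268) (nat_lit 171))) (XT.nd (nat_lit 78) (nat_lit 0) (nat_lit 0) (XT.lf (nat_lit 0) (nat_lit 90350237617) (nat_lit 152) (nat_lit 480344140255) (nat_lit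 0) (nat_lit 50223081555) (nat_lit 2) (nat_lit 5) (nat_lit 4) (nat_lit 4) (nat_lit 2) (nat_lit 4) (nat_lit 342) (nat_lit 268) (nat_lit 170)) (XT.nd (nat_lit 78) (nat_lit 0) (nat_lit 0) (XT.lf (nat_lit 0) (nat_lit 120360532385) (nat_lit 152) (nat_lit 468691732964) (nat_lit 0) (nat_lit 80231799413) (nat_lit 2) (nat_lit 5) (nat_lit 4) (nat_lit 4) (nat_lit 2) (nat_lit 4) (nat_lit 343) (nat_lit 268) (nat_lit 169)) (XT.lf (nat_lit 0) (nat_lit 152769686424) (nat_lit 152) (nat_lit 456110917500) (nat_lit 0) (nat_lit 112639493351) (nat_lit 2) (nat_lit 5) (nat_lit 4) (nat_lit 4) (nat_lit 2) (nat_lit 4) (nat_lit 344) (nat_lit 268) (nat_lit 168))))) (XT.nd (nat_lit 156) (nat_lit 0) (nat_lit 0) (XT.nd (nat_lit 78) (nat_lit 0) (nat_lit 0) (XT.lf (nat_lit 0) (nat_lit 187769753980) (nat_lit 152) (nat_lit 442527140884) (nat_lit 0) (nat_lit 147638208961) (nat_lit 2) (nat_lit 5) (nat_lit 4) (nat_lit 4) (nat_lit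 2) (nat_lit 4) (nat_lit 345) (nat_lit 268) (nat_lit 167)) (XT.lf (nat_lit 0) (nat_lit 225568142861) (nat_lit 152) (nat_lit 427859906661) (nat_lit 0) (nat_lit 185435346039) (nat_lit 2) (nat_lit 5) (nat_lit 4) (nat_lit 4) (nat_lit 2) (nat_lit 4) (nat_lit 346) (nat_lit 268) (nat_lit 166))) (XT.nd (nat_lit 78) (nat_lit 0) (nat_lit 0) (XT.lf (nat_lit 0) (nat_lit 266388843520) (nat_lit 152) (nat_lit 412022297887) (nat_lit 0) (nat_lit 226254887622) (nat_lit 2) (nat_lit 5) (nat_lit 4) (nat_lit 4) (nat_lit 2) (nat_lit 4) (nat_lit 347) (nat_lit 268) (nat_lit 165)) (XT.nd (nat_lit 34476) (nat_lit 0) (nat_lit 7676) (XT.lf (nat_lit 0) (nat_lit 310473756404) (nat_lit 152) (nat_lit 394920462067) (nat_lit 0) (nat_lit 270338727288) (nat_lit 2) (nat_lit 5) (nat_lit 4) (nat_lit 4) (nat_lit 2) (nat_lit 4) (nat_lit 348) (nat_lit 268) (nat_lit 164)) (XT.lf (nat_lit 0) (nat_lit 1727384615) (nat_lit 684) (nat_lit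 1339880442) (nat_lit 684) (nat_lit 1339880442) (nat_lit 103) (nat_lit 3) (nat_lit 112) (nat_lit 3) (nat_lit 112) (nat_lit 5) (nat_lit 269) (nat_lit 269) (nat_lit 242)))))) (XT.nd (nat_lit 390) (nat_lit 1824) (nat_lit 0) (XT.nd (nat_lit 156) (nat_lit 532) (nat_lit 0) (XT.nd (nat_lit 78) (nat_lit 0) (nat_lit 76) (XT.lf (nat_lit 76) (nat_lit 3948738744) (nat_lit 0) (nat_lit 1105144185) (nat_lit 684) (nat_lit 4037232371) (nat_lit 104) (nat_lit 5) (nat_lit 103) (nat_lit 3) (nat_lit 112) (nat_lit 5) (nat_lit 270) (nat_lit 269) (nat_lit 241)) (XT.lf (nat_lit 76) (nat_lit 1717709284) (nat_lit 0) (nat_lit 5064864382) (nat_lit 684) (nat_lit 2607699729) (nat_lit 105) (nat_lit 5) (nat_lit 104) (nat_lit 5) (nat_lit 113) (nat_lit 5) (nat_lit 271) (nat_lit 269) (nat_lit 240))) (XT.nd (nat_lit 78) (nat_lit 684) (nat_lit 0) (XT.lf (nat_lit 0) (nat_lit 8635542166) (nat_lit 608) (nat_lit 513646598) (nat_lit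 684) (nat_lit 565126480) (nat_lit 105) (nat_lit 5) (nat_lit 113) (nat_lit 5) (nat_lit 114) (nat_lit 5) (nat_lit 272) (nat_lit 269) (nat_lit 239)) (XT.nd (nat_lit 78) (nat_lit 0) (nat_lit 76) (XT.lf (nat_lit 0) (nat_lit 633723907) (nat_lit 684) (nat_lit 2786884169) (nat_lit 760) (nat_lit 6639467198) (nat_lit 96) (nat_lit 5) (nat_lit 105) (nat_lit 5) (nat_lit 106) (nat_lit 5) (nat_lit 273) (nat_lit 269) (nat_lit 238)) (XT.lf (nat_lit 0) (nat_lit 2468933135) (nat_lit 684) (nat_lit 5140870036) (nat_lit 760) (nat_lit 2821837641) (nat_lit 97) (nat_lit 5) (nat_lit 106) (nat_lit 5) (nat_lit 107) (nat_lit 5) (nat_lit 274) (nat_lit 269) (nat_lit 237))))) (XT.nd (nat_lit 234) (nat_lit 1292) (nat_lit 0) (XT.nd (nat_lit 78) (nat_lit 608) (nat_lit 0) (XT.lf (nat_lit 76) (nat_lit 3244326584) (nat_lit 0) (nat_lit 1257089323) (nat_lit 760) (nat_lit 6329182027) (nat_lit 98) (nat_lit 5) (nat_lit 97) (nat_lit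 5) (nat_lit 107) (nat_lit 5) (nat_lit 275) (nat_lit 269) (nat_lit 236)) (XT.nd (nat_lit 78) (nat_lit 0) (nat_lit 0) (XT.lf (nat_lit 0) (nat_lit 1086211958) (nat_lit 684) (nat_lit 5705521001) (nat_lit 760) (nat_lit 4465152054) (nat_lit 89) (nat_lit 5) (nat_lit 98) (nat_lit 5) (nat_lit 99) (nat_lit 5) (nat_lit 276) (nat_lit 269) (nat_lit 235)) (XT.lf (nat_lit 0) (nat_lit 9344389161) (nat_lit 760) (nat_lit 1115961976) (nat_lit 76) (nat_lit 1253130423) (nat_lit 89) (nat_lit 5) (nat_lit 99) (nat_lit 5) (nat_lit 90) (nat_lit 5) (nat_lit 277) (nat_lit 269) (nat_lit 234)))) (XT.nd (nat_lit 78) (nat_lit 684) (nat_lit 0) (XT.lf (nat_lit 0) (nat_lit 46377510) (nat_lit 608) (nat_lit 3434003445) (nat_lit 76) (nat_lit 8719032460) (nat_lit 81) (nat_lit 5) (nat_lit 89) (nat_lit 5) (nat_lit 82) (nat_lit 5) (nat_lit 278) (nat_lit 269) (nat_lit 233)) (XT.nd (nat_lit 78) (nat_lit 304) (nat_lit 0) (XT.lf (nat_lit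 0) (nat_lit 2682850732) (nat_lit 456) (nat_lit 5934011641) (nat_lit 76) (nat_lit 4100009639) (nat_lit 76) (nat_lit 5) (nat_lit 82) (nat_lit 5) (nat_lit 77) (nat_lit 5) (nat_lit 279) (nat_lit 269) (nat_lit 232)) (XT.lf (nat_lit 0) (nat_lit 4675754657) (nat_lit 304) (nat_lit 968736737) (nat_lit 380) (nat_lit 7625646047) (nat_lit 72) (nat_lit 5) (nat_lit 76) (nat_lit 5) (nat_lit 77) (nat_lit 5) (nat_lit 280) (nat_lit 269) (nat_lit 231))))))) (XT.nd (nat_lit 858) (nat_lit 1368) (nat_lit 0) (XT.nd (nat_lit 390) (nat_lit 1216) (nat_lit 0) (XT.nd (nat_lit 156) (nat_lit 912) (nat_lit 0) (XT.nd (nat_lit 78) (nat_lit 0) (nat_lit 0) (XT.lf (nat_lit 0) (nat_lit 2362386651) (nat_lit 304) (nat_lit 6662741622) (nat_lit 380) (nat_lit 4833546124) (nat_lit 68) (nat_lit 5) (nat_lit 72) (nat_lit 5) (nat_lit 73) (nat_lit 5) (nat_lit 281) (nat_lit 269) (nat_lit 230)) (XT.lf (nat_lit 0) (nat_lit 12798056537)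 (nat_lit 380) (nat_lit 107254505) (nat_lit 76) (nat_lit 1582996375) (nat_lit 68) (nat_lit 5) (nat_lit 73) (nat_lit 5) (nat_lit 69) (nat_lit 5) (nat_lit 282) (nat_lit 269) (nat_lit 229))) (XT.nd (nat_lit 78) (nat_lit 532) (nat_lit 0) (XT.lf (nat_lit 0) (nat_lit 1895350882) (nat_lit 380) (nat_lit 2784686627) (nat_lit 76) (nat_lit 10474765778) (nat_lit 63) (nat_lit 5) (nat_lit 68) (nat_lit 5) (nat_lit 64) (nat_lit 5) (nat_lit 283) (nat_lit 269) (nat_lit 228)) (XT.nd (nat_lit 78) (nat_lit 228) (nat_lit 0) (XT.lf (nat_lit 0) (nat_lit 5877164421) (nat_lit 380) (nat_lit 5738133709) (nat_lit 76) (nat_lit 4249591996) (nat_lit 59) (nat_lit 5) (nat_lit 64) (nat_lit 5) (nat_lit 60) (nat_lit 5) (nat_lit 284) (nat_lit 269) (nat_lit 227)) (XT.lf (nat_lit 0) (nat_lit 7632029850) (nat_lit 228) (nat_lit 2734266839) (nat_lit 304) (nat_lit 6256128022) (nat_lit 56) (nat_lit 5) (nat_lit 59) (nat_lit 5) (nat_lit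 60) (nat_lit 5) (nat_lit 285) (nat_lit 269) (nat_lit 226))))) (XT.nd (nat_lit 234) (nat_lit 684) (nat_lit 0) (XT.nd (nat_lit 78) (nat_lit 304) (nat_lit 0) (XT.lf (nat_lit 0) (nat_lit 4813376901) (nat_lit 228) (nat_lit 10629389496) (nat_lit 304) (nat_lit 1986458916) (nat_lit 53) (nat_lit 5) (nat_lit 56) (nat_lit 5) (nat_lit 57) (nat_lit 5) (nat_lit 286) (nat_lit 269) (nat_lit 225)) (XT.nd (nat_lit 78) (nat_lit 0) (nat_lit 0) (XT.lf (nat_lit 0) (nat_lit 1640833017) (nat_lit 228) (nat_lit 1077339084) (nat_lit 304) (nat_lit 15571543856) (nat_lit 49) (nat_lit 5) (nat_lit 52) (nat_lit 5) (nat_lit 53) (nat_lit 5) (nat_lit 287) (nat_lit 269) (nat_lit 224)) (XT.lf (nat_lit 0) (nat_lit 8047225270) (nat_lit 304) (nat_lit 1971818991) (nat_lit 76) (nat_lit 9182551061) (nat_lit 49) (nat_lit 5) (nat_lit 53) (nat_lit 5) (nat_lit 50) (nat_lit 5) (nat_lit 288) (nat_lit 269) (nat_lit 223)))) (XT.nd (nat_lit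 78) (nat_lit 456) (nat_lit 0) (XT.lf (nat_lit 0) (nat_lit 14000145780) (nat_lit 304) (nat_lit 5929123535) (nat_lit 76) (nat_lit 247334206) (nat_lit 46) (nat_lit 5) (nat_lit 50) (nat_lit 5) (nat_lit 47) (nat_lit 5) (nat_lit 289) (nat_lit 269) (nat_lit 222)) (XT.nd (nat_lit 78) (nat_lit 304) (nat_lit 0) (XT.lf (nat_lit 0) (nat_lit 10715440459) (nat_lit 152) (nat_lit 10040111266) (nat_lit 228) (nat_lit 457799578) (nat_lit 44) (nat_lit 5) (nat_lit 46) (nat_lit 5) (nat_lit 47) (nat_lit 5) (nat_lit 290) (nat_lit 269) (nat_lit 221)) (XT.lf (nat_lit 0) (nat_lit 5715144662) (nat_lit 304) (nat_lit 15701681607) (nat_lit 76) (nat_lit 902803276) (nat_lit 40) (nat_lit 5) (nat_lit 44) (nat_lit 5) (nat_lit 41) (nat_lit 5) (nat_lit 291) (nat_lit 269) (nat_lit 220)))))) (XT.nd (nat_lit 390) (nat_lit 684) (nat_lit 0) (XT.nd (nat_lit 156) (nat_lit 532) (nat_lit 0) (XT.nd (nat_lit 78) (nat_lit 0) (nat_lit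 0) (XT.lf (nat_lit 0) (nat_lit 1787338153) (nat_lit 152) (nat_lit 10920492748) (nat_lit 228) (nat_lit 10789148687) (nat_lit 38) (nat_lit 5) (nat_lit 40) (nat_lit 5) (nat_lit 41) (nat_lit 5) (nat_lit 292) (nat_lit 269) (nat_lit 219)) (XT.lf (nat_lit 0) (nat_lit 20504889184) (nat_lit 228) (nat_lit 3591133314) (nat_lit 76) (nat_lit 660286230) (nat_lit 38) (nat_lit 5) (nat_lit 41) (nat_lit 5) (nat_lit 39) (nat_lit 5) (nat_lit 293) (nat_lit 269) (nat_lit 218))) (XT.nd (nat_lit 78) (nat_lit 304) (nat_lit 0) (XT.lf (nat_lit 0) (nat_lit 3127298847) (nat_lit 228) (nat_lit 9890727298) (nat_lit 76) (nat_lit 13075804979) (nat_lit 35) (nat_lit 5) (nat_lit 38) (nat_lit 5) (nat_lit 36) (nat_lit 5) (nat_lit 294) (nat_lit 269) (nat_lit 217)) (XT.nd (nat_lit 78) (nat_lit 152) (nat_lit 0) (XT.lf (nat_lit 0) (nat_lit 10377657203) (nat_lit 152) (nat_lit 761963915) (nat_lit 228) (nat_lit 16385668453) (nat_lit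 33) (nat_lit 5) (nat_lit 35) (nat_lit 5) (nat_lit 36) (nat_lit 5) (nat_lit 295) (nat_lit 269) (nat_lit 216)) (XT.lf (nat_lit 0) (nat_lit 3415123307) (nat_lit 152) (nat_lit 16767141246) (nat_lit 228) (nat_lit 8869562817) (nat_lit 31) (nat_lit 5) (nat_lit 33) (nat_lit 5) (nat_lit 34) (nat_lit 5) (nat_lit 296) (nat_lit 269) (nat_lit 215))))) (XT.nd (nat_lit 234) (nat_lit 304) (nat_lit 0) (XT.nd (nat_lit 78) (nat_lit 380) (nat_lit 0) (XT.lf (nat_lit 0) (nat_lit 26169686728) (nat_lit 152) (nat_lit 4057804439) (nat_lit 228) (nat_lit 459065708) (nat_lit 31) (nat_lit 5) (nat_lit 33) (nat_lit 5) (nat_lit 34) (nat_lit 5) (nat_lit 297) (nat_lit 269) (nat_lit 214)) (XT.nd (nat_lit 78) (nat_lit 152) (nat_lit 0) (XT.lf (nat_lit 0) (nat_lit 8767658784) (nat_lit 228) (nat_lit 13882693891) (nat_lit 76) (nat_lit 9774032749) (nat_lit 28) (nat_lit 5) (nat_lit 31) (nat_lit 5) (nat_lit 29) (nat_lit 5) (nat_lit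 298) (nat_lit 269) (nat_lit 213)) (XT.lf (nat_lit 0) (nat_lit 9486652601) (nat_lit 152) (nat_lit 9497424178) (nat_lit 228) (nat_lit 15303427508) (nat_lit 26) (nat_lit 5) (nat_lit 28) (nat_lit 5) (nat_lit 29) (nat_lit 5) (nat_lit 299) (nat_lit 269) (nat_lit 212)))) (XT.nd (nat_lit 78) (nat_lit 304) (nat_lit 0) (XT.lf (nat_lit 0) (nat_lit 30309157740) (nat_lit 228) (nat_lit 1191213711) (nat_lit 76) (nat_lit 4784754345) (nat_lit 26) (nat_lit 5) (nat_lit 29) (nat_lit 5) (nat_lit 27) (nat_lit 4) (nat_lit 300) (nat_lit 269) (nat_lit 211)) (XT.nd (nat_lit 78) (nat_lit 152) (nat_lit 0) (XT.lf (nat_lit 0) (nat_lit 4498122489) (nat_lit 152) (nat_lit 13588910831) (nat_lit 76) (nat_lit 20325763767) (nat_lit 24) (nat_lit 5) (nat_lit 26) (nat_lit 5) (nat_lit 25) (nat_lit 5) (nat_lit 301) (nat_lit 269) (nat_lit 210)) (XT.lf (nat_lit 0) (nat_lit 12509483624) (nat_lit 152) (nat_lit 3285451460) (nat_lit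 228) (nat_lit 24901157312) (nat_lit 22) (nat_lit 5) (nat_lit 24) (nat_lit 5) (nat_lit 25) (nat_lit 5) (nat_lit 302) (nat_lit 269) (nat_lit 209))))))))
noncomputable def xc66 : XT := (XT.nd (nat_lit 1638) (nat_lit 380) (nat_lit 0) (XT.nd (nat_lit 780) (nat_lit 532) (nat_lit 0) (XT.nd (nat_lit 390) (nat_lit 228) (nat_lit 0) (XT.nd (nat_lit 156) (nat_lit 304) (nat_lit 0) (XT.nd (nat_lit 78) (nat_lit 76) (nat_lit 0) (XT.lf (nat_lit 0) (nat_lit 28410281476) (nat_lit 228) (nat_lit 2213331847) (nat_lit 76) (nat_lit 12517714153) (nat_lit 22) (nat_lit 5) (nat_lit 25) (nat_lit 5) (nat_lit 23) (nat_lit 4) (nat_lit 303) (nat_lit 269) (nat_lit 208)) (XT.lf (nat_lit 0) (nat_lit 26594760478) (nat_lit 76) (nat_lit 15888408513) (nat_lit 152) (nat_lit 3276611130) (nat_lit 21) (nat_lit 5) (nat_lit 22) (nat_lit 5) (nat_lit 23) (nat_lit 4) (nat_lit 304) (nat_lit 269) (nat_lit 207))) (XT.nd (nat_lit 78) (nat_lit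 76) (nat_lit 0) (XT.lf (nat_lit 0) (nat_lit 8971690420) (nat_lit 228) (nat_lit 39259464894) (nat_lit 76) (nat_lit 341037988) (nat_lit 18) (nat_lit 5) (nat_lit 21) (nat_lit 5) (nat_lit 19) (nat_lit 4) (nat_lit 305) (nat_lit 269) (nat_lit 206)) (XT.nd (nat_lit 78) (nat_lit 76) (nat_lit 0) (XT.lf (nat_lit 0) (nat_lit 22673012875) (nat_lit 228) (nat_lit 11205497966) (nat_lit 76) (nat_lit 17699017069) (nat_lit 18) (nat_lit 5) (nat_lit 21) (nat_lit 5) (nat_lit 19) (nat_lit 4) (nat_lit 306) (nat_lit 269) (nat_lit 205)) (XT.lf (nat_lit 0) (nat_lit 19688656034) (nat_lit 76) (nat_lit 18069917105) (nat_lit 152) (nat_lit 17050320455) (nat_lit 17) (nat_lit 5) (nat_lit 18) (nat_lit 5) (nat_lit 19) (nat_lit 4) (nat_lit 307) (nat_lit 269) (nat_lit 204))))) (XT.nd (nat_lit 156) (nat_lit 76) (nat_lit 0) (XT.nd (nat_lit 78) (nat_lit 152) (nat_lit 0) (XT.lf (nat_lit 0) (nat_lit 53421687050) (nat_lit 76) (nat_lit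 806135429) (nat_lit 152) (nat_lit 4062113944) (nat_lit 17) (nat_lit 5) (nat_lit 18) (nat_lit 5) (nat_lit 19) (nat_lit 4) (nat_lit 308) (nat_lit 269) (nat_lit 203)) (XT.lf (nat_lit 0) (nat_lit 10362518954) (nat_lit 152) (nat_lit 33777918228) (nat_lit 76) (nat_lit 17865439363) (nat_lit 15) (nat_lit 5) (nat_lit 17) (nat_lit 5) (nat_lit 16) (nat_lit 4) (nat_lit 309) (nat_lit 269) (nat_lit 202))) (XT.nd (nat_lit 78) (nat_lit 76) (nat_lit 0) (XT.lf (nat_lit 0) (nat_lit 25883828862) (nat_lit 152) (nat_lit 1982854751) (nat_lit 76) (nat_lit 38144835759) (nat_lit 15) (nat_lit 5) (nat_lit 17) (nat_lit 5) (nat_lit 16) (nat_lit 4) (nat_lit 310) (nat_lit 269) (nat_lit 201)) (XT.nd (nat_lit 78) (nat_lit 0) (nat_lit 0) (XT.lf (nat_lit 0) (nat_lit 33396725523) (nat_lit 76) (nat_lit 9756104481) (nat_lit 152) (nat_lit 27159491936) (nat_lit 14) (nat_lit 5) (nat_lit 15) (nat_lit 5) (nat_lit 16) (nat_lit 4)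 (nat_lit 311) (nat_lit 269) (nat_lit 200)) (XT.lf (nat_lit 0) (nat_lit 61976621267) (nat_lit 152) (nat_lit 3458935368) (nat_lit 0) (nat_lit 9512975647) (nat_lit 14) (nat_lit 5) (nat_lit 16) (nat_lit 4) (nat_lit 14) (nat_lit 4) (nat_lit 312) (nat_lit 269) (nat_lit 199)))))) (XT.nd (nat_lit 390) (nat_lit 228) (nat_lit 0) (XT.nd (nat_lit 156) (nat_lit 152) (nat_lit 0) (XT.nd (nat_lit 78) (nat_lit 0) (nat_lit 0) (XT.lf (nat_lit 0) (nat_lit 2961151793) (nat_lit 152) (nat_lit 46411143273) (nat_lit 76) (nat_lit 30547230003) (nat_lit 12) (nat_lit 5) (nat_lit 14) (nat_lit 5) (nat_lit 13) (nat_lit 4) (nat_lit 313) (nat_lit 269) (nat_lit 198)) (XT.lf (nat_lit 0) (nat_lit 19768334924) (nat_lit 152) (nat_lit 11972953809) (nat_lit 76) (nat_lit 53533584212) (nat_lit 12) (nat_lit 5) (nat_lit 14) (nat_lit 5) (nat_lit 13) (nat_lit 4) (nat_lit 314) (nat_lit 269) (nat_lit 197))) (XT.nd (nat_lit 78) (nat_lit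 76) (nat_lit 0) (XT.lf (nat_lit 0) (nat_lit 26030605825) (nat_lit 76) (nat_lit 12283519685) (nat_lit 152) (nat_lit 52724826846) (nat_lit 11) (nat_lit 5) (nat_lit 12) (nat_lit 5) (nat_lit 13) (nat_lit 4) (nat_lit 315) (nat_lit 269) (nat_lit 196)) (XT.nd (nat_lit 78) (nat_lit 76) (nat_lit 0) (XT.lf (nat_lit 0) (nat_lit 58679914307) (nat_lit 152) (nat_lit 29913735223) (nat_lit 0) (nat_lit 8653696793) (nat_lit 11) (nat_lit 5) (nat_lit 13) (nat_lit 4) (nat_lit 11) (nat_lit 4) (nat_lit 316) (nat_lit 269) (nat_lit 195)) (XT.lf (nat_lit 0) (nat_lit 8017302730) (nat_lit 76) (nat_lit 72978885872) (nat_lit 76) (nat_lit 22940166669) (nat_lit 10) (nat_lit 4) (nat_lit 11) (nat_lit 5) (nat_lit 11) (nat_lit 4) (nat_lit 317) (nat_lit 269) (nat_lit 194))))) (XT.nd (nat_lit 234) (nat_lit 76) (nat_lit 0) (XT.nd (nat_lit 78) (nat_lit 152) (nat_lit 0) (XT.lf (nat_lit 0) (nat_lit 50031306390) (nat_lit 76) (nat_lit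 55576975879) (nat_lit 76) (nat_lit 5526681038) (nat_lit 10) (nat_lit 4) (nat_lit 11) (nat_lit 5) (nat_lit 11) (nat_lit 4) (nat_lit 318) (nat_lit 269) (nat_lit 193)) (XT.nd (nat_lit 78) (nat_lit 76) (nat_lit 0) (XT.lf (nat_lit 0) (nat_lit 12844901856) (nat_lit 152) (nat_lit 23728964217) (nat_lit 76) (nat_lit 82325727964) (nat_lit 9) (nat_lit 5) (nat_lit 11) (nat_lit 5) (nat_lit 10) (nat_lit 4) (nat_lit 319) (nat_lit 269) (nat_lit 192)) (XT.lf (nat_lit 0) (nat_lit 17071694066) (nat_lit 76) (nat_lit 15680809023) (nat_lit 152) (nat_lit 94515369552) (nat_lit 8) (nat_lit 5) (nat_lit 9) (nat_lit 5) (nat_lit 10) (nat_lit 4) (nat_lit 320) (nat_lit 269) (nat_lit 191)))) (XT.nd (nat_lit 78) (nat_lit 76) (nat_lit 0) (XT.lf (nat_lit 0) (nat_lit 54771404272) (nat_lit 152) (nat_lit 74432232065) (nat_lit 0) (nat_lit 7076045811) (nat_lit 8) (nat_lit 5) (nat_lit 10) (nat_lit 4) (nat_lit 8) (nat_lit 4) (nat_lit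 321) (nat_lit 269) (nat_lit 190)) (XT.nd (nat_lit 78) (nat_lit 76) (nat_lit 0) (XT.lf (nat_lit 0) (nat_lit 78807982735) (nat_lit 152) (nat_lit 36087127395) (nat_lit 0) (nat_lit 31104520999) (nat_lit 8) (nat_lit 5) (nat_lit 10) (nat_lit 4) (nat_lit 8) (nat_lit 4) (nat_lit 322) (nat_lit 269) (nat_lit 189)) (XT.lf (nat_lit 0) (nat_lit 5486798889) (nat_lit 76) (nat_lit 99358721505) (nat_lit 76) (nat_lit 51647756736) (nat_lit 7) (nat_lit 4) (nat_lit 8) (nat_lit 5) (nat_lit 8) (nat_lit 4) (nat_lit 323) (nat_lit 269) (nat_lit 188))))))) (XT.nd (nat_lit 858) (nat_lit 152) (nat_lit 0) (XT.nd (nat_lit 390) (nat_lit 76) (nat_lit 0) (XT.nd (nat_lit 156) (nat_lit 152) (nat_lit 0) (XT.nd (nat_lit 78) (nat_lit 0) (nat_lit 0) (XT.lf (nat_lit 0) (nat_lit 51661526112) (nat_lit 76) (nat_lit 81925868302) (nat_lit 76) (nat_lit 34207956280) (nat_lit 7) (nat_lit 4) (nat_lit 8) (nat_lit 5) (nat_lit 8) (nat_lit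 4) (nat_lit 324) (nat_lit 269) (nat_lit 187)) (XT.lf (nat_lit 0) (nat_lit 101517478880) (nat_lit 76) (nat_lit 63104397687) (nat_lit 76) (nat_lit 15380053023) (nat_lit 7) (nat_lit 4) (nat_lit 8) (nat_lit 5) (nat_lit 8) (nat_lit 4) (nat_lit 325) (nat_lit 269) (nat_lit 186))) (XT.nd (nat_lit 78) (nat_lit 76) (nat_lit 0) (XT.lf (nat_lit 0) (nat_lit 4789174070) (nat_lit 152) (nat_lit 37912493969) (nat_lit 76) (nat_lit 150479818825) (nat_lit 6) (nat_lit 5) (nat_lit 8) (nat_lit 5) (nat_lit 7) (nat_lit 4) (nat_lit 326) (nat_lit 269) (nat_lit 185)) (XT.nd (nat_lit 78) (nat_lit 0) (nat_lit 0) (XT.lf (nat_lit 0) (nat_lit 5821064372) (nat_lit 76) (nat_lit 20304243012) (nat_lit 152) (nat_lit 181272886150) (nat_lit 5) (nat_lit 5) (nat_lit 6) (nat_lit 5) (nat_lit 7) (nat_lit 4) (nat_lit 327) (nat_lit 269) (nat_lit 184)) (XT.lf (nat_lit 0) (nat_lit 49894538055) (nat_lit 152) (nat_lit 168394397033) (nat_lit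 0) (nat_lit 4426993098) (nat_lit 5) (nat_lit 5) (nat_lit 7) (nat_lit 4) (nat_lit 5) (nat_lit 4) (nat_lit 328) (nat_lit 269) (nat_lit 183))))) (XT.nd (nat_lit 234) (nat_lit 76) (nat_lit 0) (XT.nd (nat_lit 78) (nat_lit 0) (nat_lit 0) (XT.lf (nat_lit 0) (nat_lit 75902408742) (nat_lit 152) (nat_lit 132909458690) (nat_lit 0) (nat_lit 30430360753) (nat_lit 5) (nat_lit 5) (nat_lit 7) (nat_lit 4) (nat_lit 5) (nat_lit 4) (nat_lit 329) (nat_lit 269) (nat_lit 182)) (XT.nd (nat_lit 78) (nat_lit 0) (nat_lit 0) (XT.lf (nat_lit 0) (nat_lit 103986034023) (nat_lit 152) (nat_lit 94595026881) (nat_lit 0) (nat_lit 58509816560) (nat_lit 5) (nat_lit 5) (nat_lit 7) (nat_lit 4) (nat_lit 5) (nat_lit 4) (nat_lit 330) (nat_lit 269) (nat_lit 181)) (XT.lf (nat_lit 0) (nat_lit 134311835383) (nat_lit 152) (nat_lit 53224053121) (nat_lit 0) (nat_lit 88831757295) (nat_lit 5) (nat_lit 5) (nat_lit 7) (nat_lit 4) (nat_lit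 5) (nat_lit 4) (nat_lit 331) (nat_lit 269) (nat_lit 180)))) (XT.nd (nat_lit 78) (nat_lit 76) (nat_lit 0) (XT.lf (nat_lit 0) (nat_lit 167059521272) (nat_lit 152) (nat_lit 8551376084) (nat_lit 0) (nat_lit 121575868533) (nat_lit 5) (nat_lit 5) (nat_lit 7) (nat_lit 4) (nat_lit 5) (nat_lit 4) (nat_lit 332) (nat_lit 269) (nat_lit 179)) (XT.nd (nat_lit 78) (nat_lit 0) (nat_lit 0) (XT.lf (nat_lit 0) (nat_lit 40999986832) (nat_lit 76) (nat_lit 162063289918) (nat_lit 76) (nat_lit 116576327315) (nat_lit 4) (nat_lit 4) (nat_lit 5) (nat_lit 5) (nat_lit 5) (nat_lit 4) (nat_lit 333) (nat_lit 269) (nat_lit 178)) (XT.lf (nat_lit 0) (nat_lit 94813762648) (nat_lit 76) (nat_lit 147278835883) (nat_lit 76) (nat_lit 101788808593) (nat_lit 4) (nat_lit 4) (nat_lit 5) (nat_lit 5) (nat_lit 5) (nat_lit 4) (nat_lit 334) (nat_lit 269) (nat_lit 177)))))) (XT.nd (nat_lit 390) (nat_lit 152) (nat_lit 0) (XT.nd (nat_lit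 156) (nat_lit 0) (nat_lit 0) (XT.nd (nat_lit 78) (nat_lit 0) (nat_lit 0) (XT.lf (nat_lit 0) (nat_lit 152926100700) (nat_lit 76) (nat_lit 131314745366) (nat_lit 76) (nat_lit 85821880402) (nat_lit 4) (nat_lit 4) (nat_lit 5) (nat_lit 5) (nat_lit 5) (nat_lit 4) (nat_lit 335) (nat_lit 269) (nat_lit 176)) (XT.lf (nat_lit 0) (nat_lit 215681370400) (nat_lit 76) (nat_lit 114076416349) (nat_lit 76) (nat_lit 68580923908) (nat_lit 4) (nat_lit 4) (nat_lit 5) (nat_lit 5) (nat_lit 5) (nat_lit 4) (nat_lit 336) (nat_lit 269) (nat_lit 175))) (XT.nd (nat_lit 78) (nat_lit 0) (nat_lit 0) (XT.lf (nat_lit 0) (nat_lit 283451454825) (nat_lit 76) (nat_lit 95461695769) (nat_lit 76) (nat_lit 49963770481) (nat_lit 4) (nat_lit 4) (nat_lit 5) (nat_lit 5) (nat_lit 5) (nat_lit 4) (nat_lit 337) (nat_lit 269) (nat_lit 174)) (XT.nd (nat_lit 78) (nat_lit 0) (nat_lit 0) (XT.lf (nat_lit 0) (nat_lit 356637954478) (nat_lit 76)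 (nat_lit 75360274174) (nat_lit 76) (nat_lit 29860096248) (nat_lit 4) (nat_lit 4) (nat_lit 5) (nat_lit 5) (nat_lit 5) (nat_lit 4) (nat_lit 338) (nat_lit 269) (nat_lit 173)) (XT.lf (nat_lit 0) (nat_lit 435674567133) (nat_lit 76) (nat_lit 53653032025) (nat_lit 76) (nat_lit 8150768325) (nat_lit 4) (nat_lit 4) (nat_lit 5) (nat_lit 5) (nat_lit 5) (nat_lit 4) (nat_lit 339) (nat_lit 269) (nat_lit 172))))) (XT.nd (nat_lit 234) (nat_lit 0) (nat_lit 0) (XT.nd (nat_lit 78) (nat_lit 76) (nat_lit 0) (XT.lf (nat_lit 0) (nat_lit 14803394094) (nat_lit 152) (nat_lit 15157237080) (nat_lit 76) (nat_lit 505975561167) (nat_lit 3) (nat_lit 5) (nat_lit 5) (nat_lit 5) (nat_lit 4) (nat_lit 4) (nat_lit 340) (nat_lit 269) (nat_lit 171)) (XT.nd (nat_lit 78) (nat_lit 0) (nat_lit 0) (XT.lf (nat_lit 0) (nat_lit 36239304187) (nat_lit 76) (nat_lit 3636445752) (nat_lit 152) (nat_lit 537559841731) (nat_lit 2) (nat_lit 5)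 (nat_lit 3) (nat_lit 5) (nat_lit 4) (nat_lit 4) (nat_lit 341) (nat_lit 269) (nat_lit 170)) (XT.lf (nat_lit 0) (nat_lit 67607229181) (nat_lit 152) (nat_lit 530348426937) (nat_lit 0) (nat_lit 24266620661) (nat_lit 2) (nat_lit 5) (nat_lit 4) (nat_lit 4) (nat_lit 2) (nat_lit 4) (nat_lit 342) (nat_lit 269) (nat_lit 169)))) (XT.nd (nat_lit 78) (nat_lit 0) (nat_lit 0) (XT.lf (nat_lit 0) (nat_lit 97616579569) (nat_lit 152) (nat_lit 518697839074) (nat_lit 0) (nat_lit 54274510947) (nat_lit 2) (nat_lit 5) (nat_lit 4) (nat_lit 4) (nat_lit 2) (nat_lit 4) (nat_lit 343) (nat_lit 269) (nat_lit 168)) (XT.nd (nat_lit 78) (nat_lit 0) (nat_lit 0) (XT.lf (nat_lit 0) (nat_lit 130024859182) (nat_lit 152) (nat_lit 506118708266) (nat_lit 0) (nat_lit 86681438614) (nat_lit 2) (nat_lit 5) (nat_lit 4) (nat_lit 4) (nat_lit 2) (nat_lit 4) (nat_lit 344) (nat_lit 269) (nat_lit 167)) (XT.lf (nat_lit 0) (nat_lit 165024117084)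 (nat_lit 152) (nat_lit 492536491517) (nat_lit 0) (nat_lit 121679444715) (nat_lit 2) (nat_lit 5) (nat_lit 4) (nat_lit 4) (nat_lit 2) (nat_lit 4) (nat_lit 345) (nat_lit 269) (nat_lit 166))))))))
noncomputable def xc67 : XT := (XT.nd (nat_lit 36114) (nat_lit 0) (nat_lit 1140) (XT.nd (nat_lit 35256) (nat_lit 0) (nat_lit 3876) (XT.nd (nat_lit 34866) (nat_lit 0) (nat_lit 7068) (XT.nd (nat_lit 156) (nat_lit 0) (nat_lit 0) (XT.nd (nat_lit 78) (nat_lit 0) (nat_lit 0) (XT.lf (nat_lit 0) (nat_lit 202821756286) (nat_lit 152) (nat_lit 477870701614) (nat_lit 0) (nat_lit 159475924841) (nat_lit 2) (nat_lit 5) (nat_lit 4) (nat_lit 4) (nat_lit 2) (nat_lit 4) (nat_lit 346) (nat_lit 269) (nat_lit 165)) (XT.lf (nat_lit 0) (nat_lit 243641762797) (nat_lit 152) (nat_lit 462034430175) (nat_lit 0) (nat_lit 200294858133) (nat_lit 2) (nat_lit 5) (nat_lit 4) (nat_lit 4) (nat_lit 2) (nat_lit 4) (nat_lit 347) (nat_lit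 269) (nat_lit 164))) (XT.nd (nat_lit 34554) (nat_lit 0) (nat_lit 7676) (XT.lf (nat_lit 0) (nat_lit 287726032952) (nat_lit 152) (nat_lit 444933832627) (nat_lit 0) (nat_lit 244378134567) (nat_lit 2) (nat_lit 5) (nat_lit 4) (nat_lit 4) (nat_lit 2) (nat_lit 4) (nat_lit 348) (nat_lit 269) (nat_lit 163)) (XT.nd (nat_lit 78) (nat_lit 0) (nat_lit 0) (XT.lf (nat_lit 0) (nat_lit 3231194909) (nat_lit 684) (nat_lit 728802512) (nat_lit 684) (nat_lit 728802512) (nat_lit 103) (nat_lit 3) (nat_lit 112) (nat_lit 3) (nat_lit 112) (nat_lit 5) (nat_lit 270) (nat_lit 270) (nat_lit 240)) (XT.lf (nat_lit 76) (nat_lit 5638744438) (nat_lit 0) (nat_lit 2369827824) (nat_lit 684) (nat_lit 1677431417) (nat_lit 104) (nat_lit 5) (nat_lit 103) (nat_lit 3) (nat_lit 112) (nat_lit 5) (nat_lit 271) (nat_lit 270) (nat_lit 239))))) (XT.nd (nat_lit 156) (nat_lit 0) (nat_lit 76) (XT.nd (nat_lit 78) (nat_lit 684) (nat_lit 0)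 (XT.lf (nat_lit 76) (nat_lit 3313729275) (nat_lit 0) (nat_lit 6378680387) (nat_lit 684) (nat_lit 326203814) (nat_lit 105) (nat_lit 5) (nat_lit 104) (nat_lit 5) (nat_lit 113) (nat_lit 5) (nat_lit 272) (nat_lit 270) (nat_lit 238)) (XT.lf (nat_lit 76) (nat_lit 931614971) (nat_lit 0) (nat_lit 177003047) (nat_lit 760) (nat_lit 9267945643) (nat_lit 96) (nat_lit 5) (nat_lit 95) (nat_lit 5) (nat_lit 105) (nat_lit 5) (nat_lit 273) (nat_lit 270) (nat_lit 237))) (XT.nd (nat_lit 78) (nat_lit 0) (nat_lit 76) (XT.lf (nat_lit 0) (nat_lit 2761027216) (nat_lit 684) (nat_lit 1524217890) (nat_lit 760) (nat_lit 6472115048) (nat_lit 96) (nat_lit 5) (nat_lit 105) (nat_lit 5) (nat_lit 106) (nat_lit 5) (nat_lit 274) (nat_lit 270) (nat_lit 236)) (XT.nd (nat_lit 78) (nat_lit 0) (nat_lit 0) (XT.lf (nat_lit 0) (nat_lit 4603237405) (nat_lit 684) (nat_lit 4022239996) (nat_lit 760) (nat_lit 2540437720) (nat_lit 97)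 (nat_lit 5) (nat_lit 106) (nat_lit 5) (nat_lit 107) (nat_lit 5) (nat_lit 275) (nat_lit 270) (nat_lit 235)) (XT.lf (nat_lit 76) (nat_lit 4967284779) (nat_lit 0) (nat_lit 1710416086) (nat_lit 760) (nat_lit 4925371992) (nat_lit 98) (nat_lit 5) (nat_lit 97) (nat_lit 5) (nat_lit 107) (nat_lit 5) (nat_lit 276) (nat_lit 270) (nat_lit 234)))))) (XT.nd (nat_lit 390) (nat_lit 1444) (nat_lit 0) (XT.nd (nat_lit 156) (nat_lit 760) (nat_lit 0) (XT.nd (nat_lit 78) (nat_lit 532) (nat_lit 0) (XT.lf (nat_lit 0) (nat_lit 2668080056) (nat_lit 684) (nat_lit 6366873079) (nat_lit 760) (nat_lit 3034558668) (nat_lit 89) (nat_lit 5) (nat_lit 98) (nat_lit 5) (nat_lit 99) (nat_lit 5) (nat_lit 277) (nat_lit 270) (nat_lit 233)) (XT.lf (nat_lit 0) (nat_lit 272075072) (nat_lit 532) (nat_lit 11395115219) (nat_lit 608) (nat_lit 901894393) (nat_lit 82) (nat_lit 5) (nat_lit 89) (nat_lit 5) (nat_lit 90) (nat_lit 5) (nat_lit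 278) (nat_lit 270) (nat_lit 232))) (XT.nd (nat_lit 78) (nat_lit 684) (nat_lit 0) (XT.lf (nat_lit 0) (nat_lit 1553289428) (nat_lit 608) (nat_lit 2251846672) (nat_lit 76) (nat_lit 9292677973) (nat_lit 81) (nat_lit 5) (nat_lit 89) (nat_lit 5) (nat_lit 82) (nat_lit 5) (nat_lit 279) (nat_lit 270) (nat_lit 231)) (XT.nd (nat_lit 78) (nat_lit 304) (nat_lit 0) (XT.lf (nat_lit 0) (nat_lit 4310776651) (nat_lit 456) (nat_lit 4941960957) (nat_lit 76) (nat_lit 4408604152) (nat_lit 76) (nat_lit 5) (nat_lit 82) (nat_lit 5) (nat_lit 77) (nat_lit 5) (nat_lit 280) (nat_lit 270) (nat_lit 230)) (XT.lf (nat_lit 0) (nat_lit 6452842538) (nat_lit 304) (nat_lit 973722490) (nat_lit 380) (nat_lit 6836606656) (nat_lit 72) (nat_lit 5) (nat_lit 76) (nat_lit 5) (nat_lit 77) (nat_lit 5) (nat_lit 281) (nat_lit 270) (nat_lit 229))))) (XT.nd (nat_lit 234) (nat_lit 760) (nat_lit 0) (XT.nd (nat_lit 78) (nat_lit 380) (nat_lit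 0) (XT.lf (nat_lit 0) (nat_lit 3957944784) (nat_lit 304) (nat_lit 7044160185) (nat_lit 380) (nat_lit 3900615951) (nat_lit 68) (nat_lit 5) (nat_lit 72) (nat_lit 5) (nat_lit 73) (nat_lit 5) (nat_lit 282) (nat_lit 270) (nat_lit 228)) (XT.nd (nat_lit 78) (nat_lit 76) (nat_lit 0) (XT.lf (nat_lit 0) (nat_lit 1285348495) (nat_lit 304) (nat_lit 13720817999) (nat_lit 380) (nat_lit 580233811) (nat_lit 64) (nat_lit 5) (nat_lit 68) (nat_lit 5) (nat_lit 69) (nat_lit 5) (nat_lit 283) (nat_lit 270) (nat_lit 227)) (XT.lf (nat_lit 0) (nat_lit 3164831460) (nat_lit 380) (nat_lit 1668011338) (nat_lit 76) (nat_lit 11476901480) (nat_lit 63) (nat_lit 5) (nat_lit 68) (nat_lit 5) (nat_lit 64) (nat_lit 5) (nat_lit 284) (nat_lit 270) (nat_lit 226)))) (XT.nd (nat_lit 78) (nat_lit 456) (nat_lit 0) (XT.lf (nat_lit 0) (nat_lit 7405921342) (nat_lit 380) (nat_lit 4865288072) (nat_lit 76) (nat_lit 4808506950) (nat_lit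 59) (nat_lit 5) (nat_lit 64) (nat_lit 5) (nat_lit 60) (nat_lit 5) (nat_lit 285) (nat_lit 270) (nat_lit 225)) (XT.nd (nat_lit 78) (nat_lit 228) (nat_lit 0) (XT.lf (nat_lit 0) (nat_lit 9516605980) (nat_lit 228) (nat_lit 2679055523) (nat_lit 304) (nat_lit 5705224701) (nat_lit 56) (nat_lit 5) (nat_lit 59) (nat_lit 5) (nat_lit 60) (nat_lit 5) (nat_lit 286) (nat_lit 270) (nat_lit 224)) (XT.lf (nat_lit 0) (nat_lit 6462104059) (nat_lit 228) (nat_lit 11165755700) (nat_lit 304) (nat_lit 1146989023) (nat_lit 53) (nat_lit 5) (nat_lit 56) (nat_lit 5) (nat_lit 57) (nat_lit 5) (nat_lit 287) (nat_lit 270) (nat_lit 223))))))) (XT.nd (nat_lit 858) (nat_lit 988) (nat_lit 0) (XT.nd (nat_lit 390) (nat_lit 760) (nat_lit 0) (XT.nd (nat_lit 156) (nat_lit 684) (nat_lit 0) (XT.nd (nat_lit 78) (nat_lit 0) (nat_lit 0) (XT.lf (nat_lit 0) (nat_lit 3012526957) (nat_lit 228) (nat_lit 837309903) (nat_lit 304) (nat_lit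 15856260327) (nat_lit 49) (nat_lit 5) (nat_lit 52) (nat_lit 5) (nat_lit 53) (nat_lit 5) (nat_lit 288) (nat_lit 270) (nat_lit 222)) (XT.lf (nat_lit 0) (nat_lit 9542210830) (nat_lit 304) (nat_lit 942406922) (nat_lit 76) (nat_lit 10209539729) (nat_lit 49) (nat_lit 5) (nat_lit 53) (nat_lit 5) (nat_lit 50) (nat_lit 5) (nat_lit 289) (nat_lit 270) (nat_lit 221))) (XT.nd (nat_lit 78) (nat_lit 456) (nat_lit 0) (XT.lf (nat_lit 0) (nat_lit 15931189164) (nat_lit 304) (nat_lit 5231810629) (nat_lit 76) (nat_lit 586249784) (nat_lit 46) (nat_lit 5) (nat_lit 50) (nat_lit 5) (nat_lit 47) (nat_lit 5) (nat_lit 290) (nat_lit 270) (nat_lit 220)) (XT.nd (nat_lit 78) (nat_lit 228) (nat_lit 0) (XT.lf (nat_lit 0) (nat_lit 303285758) (nat_lit 228) (nat_lit 10182626447) (nat_lit 76) (nat_lit 12384978267) (nat_lit 43) (nat_lit 5) (nat_lit 46) (nat_lit 5) (nat_lit 44) (nat_lit 5) (nat_lit 291) (nat_lit 270) (nat_lit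 219)) (XT.lf (nat_lit 0) (nat_lit 6919023967) (nat_lit 304) (nat_lit 15828032582) (nat_lit 76) (nat_lit 1320050094) (nat_lit 40) (nat_lit 5) (nat_lit 44) (nat_lit 5) (nat_lit 41) (nat_lit 5) (nat_lit 292) (nat_lit 270) (nat_lit 218))))) (XT.nd (nat_lit 234) (nat_lit 380) (nat_lit 0) (XT.nd (nat_lit 78) (nat_lit 228) (nat_lit 0) (XT.lf (nat_lit 0) (nat_lit 3011009743) (nat_lit 152) (nat_lit 11421679156) (nat_lit 228) (nat_lit 10907933889) (nat_lit 38) (nat_lit 5) (nat_lit 40) (nat_lit 5) (nat_lit 41) (nat_lit 5) (nat_lit 293) (nat_lit 270) (nat_lit 217)) (XT.nd (nat_lit 78) (nat_lit 228) (nat_lit 0) (XT.lf (nat_lit 0) (nat_lit 22806434542) (nat_lit 228) (nat_lit 2849734470) (nat_lit 76) (nat_lit 1046935230) (nat_lit 38) (nat_lit 5) (nat_lit 41) (nat_lit 5) (nat_lit 39) (nat_lit 5) (nat_lit 294) (nat_lit 270) (nat_lit 216)) (XT.lf (nat_lit 0) (nat_lit 4015896830) (nat_lit 228) (nat_lit 9676318221)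 (nat_lit 76) (nat_lit 14456627367) (nat_lit 35) (nat_lit 5) (nat_lit 38) (nat_lit 5) (nat_lit 36) (nat_lit 5) (nat_lit 295) (nat_lit 270) (nat_lit 215)))) (XT.nd (nat_lit 78) (nat_lit 228) (nat_lit 0) (XT.lf (nat_lit 0) (nat_lit 12169831966) (nat_lit 152) (nat_lit 467101911) (nat_lit 228) (nat_lit 17059539770) (nat_lit 33) (nat_lit 5) (nat_lit 35) (nat_lit 5) (nat_lit 36) (nat_lit 5) (nat_lit 296) (nat_lit 270) (nat_lit 214)) (XT.nd (nat_lit 78) (nat_lit 76) (nat_lit 0) (XT.lf (nat_lit 0) (nat_lit 4632674610) (nat_lit 152) (nat_lit 17745302335) (nat_lit 228) (nat_lit 8968447520) (nat_lit 31) (nat_lit 5) (nat_lit 33) (nat_lit 5) (nat_lit 34) (nat_lit 5) (nat_lit 297) (nat_lit 270) (nat_lit 213)) (XT.lf (nat_lit 0) (nat_lit 67424421) (nat_lit 228) (nat_lit 3977556756) (nat_lit 76) (nat_lit 29069085600) (nat_lit 30) (nat_lit 5) (nat_lit 33) (nat_lit 5) (nat_lit 31) (nat_lit 5) (nat_lit 298)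 (nat_lit 270) (nat_lit 212)))))) (XT.nd (nat_lit 390) (nat_lit 380) (nat_lit 0) (XT.nd (nat_lit 156) (nat_lit 304) (nat_lit 0) (XT.nd (nat_lit 78) (nat_lit 152) (nat_lit 0) (XT.lf (nat_lit 0) (nat_lit 9994423755) (nat_lit 228) (nat_lit 14117997695) (nat_lit 76) (nat_lit 10879245034) (nat_lit 28) (nat_lit 5) (nat_lit 31) (nat_lit 5) (nat_lit 29) (nat_lit 5) (nat_lit 299) (nat_lit 270) (nat_lit 211)) (XT.lf (nat_lit 0) (nat_lit 11082856537) (nat_lit 152) (nat_lit 9919455829) (nat_lit 228) (nat_lit 16002844422) (nat_lit 26) (nat_lit 5) (nat_lit 28) (nat_lit 5) (nat_lit 29) (nat_lit 5) (nat_lit 300) (nat_lit 270) (nat_lit 210))) (XT.nd (nat_lit 78) (nat_lit 304) (nat_lit 0) (XT.lf (nat_lit 0) (nat_lit 33201281896) (nat_lit 228) (nat_lit 492671776) (nat_lit 76) (nat_lit 5470267824) (nat_lit 26) (nat_lit 5) (nat_lit 29) (nat_lit 5) (nat_lit 27) (nat_lit 4) (nat_lit 301) (nat_lit 270) (nat_lit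 209)) (XT.nd (nat_lit 78) (nat_lit 152) (nat_lit 0) (XT.lf (nat_lit 0) (nat_lit 5310195622) (nat_lit 152) (nat_lit 13901427351) (nat_lit 76) (nat_lit 22251282669) (nat_lit 24) (nat_lit 5) (nat_lit 26) (nat_lit 5) (nat_lit 25) (nat_lit 5) (nat_lit 302) (nat_lit 270) (nat_lit 208)) (XT.lf (nat_lit 0) (nat_lit 14251175647) (nat_lit 152) (nat_lit 3237647598) (nat_lit 228) (nat_lit 26441160352) (nat_lit 22) (nat_lit 5) (nat_lit 24) (nat_lit 5) (nat_lit 25) (nat_lit 5) (nat_lit 303) (nat_lit 270) (nat_lit 207))))) (XT.nd (nat_lit 234) (nat_lit 76) (nat_lit 0) (XT.nd (nat_lit 78) (nat_lit 304) (nat_lit 0) (XT.lf (nat_lit 0) (nat_lit 31086014471) (nat_lit 228) (nat_lit 1688658058) (nat_lit 76) (nat_lit 13797554951) (nat_lit 22) (nat_lit 5) (nat_lit 25) (nat_lit 5) (nat_lit 23) (nat_lit 4) (nat_lit 304) (nat_lit 270) (nat_lit 206)) (XT.nd (nat_lit 78) (nat_lit 228) (nat_lit 0) (XT.lf (nat_lit 0)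 (nat_lit 29393584874) (nat_lit 76) (nat_lit 16871782886) (nat_lit 152) (nat_lit 3135776148) (nat_lit 21) (nat_lit 5) (nat_lit 22) (nat_lit 5) (nat_lit 23) (nat_lit 4) (nat_lit 305) (nat_lit 270) (nat_lit 205)) (XT.lf (nat_lit 0) (nat_lit 10065241043) (nat_lit 228) (nat_lit 41731232816) (nat_lit 76) (nat_lit 642491297) (nat_lit 18) (nat_lit 5) (nat_lit 21) (nat_lit 5) (nat_lit 19) (nat_lit 4) (nat_lit 306) (nat_lit 270) (nat_lit 204)))) (XT.nd (nat_lit 78) (nat_lit 76) (nat_lit 0) (XT.lf (nat_lit 0) (nat_lit 24834831117) (nat_lit 228) (nat_lit 11482503294) (nat_lit 76) (nat_lit 19368799795) (nat_lit 18) (nat_lit 5) (nat_lit 21) (nat_lit 5) (nat_lit 19) (nat_lit 4) (nat_lit 307) (nat_lit 270) (nat_lit 203)) (XT.nd (nat_lit 78) (nat_lit 0) (nat_lit 0) (XT.lf (nat_lit 0) (nat_lit 21856263156) (nat_lit 76) (nat_lit 19254447770) (nat_lit 152) (nat_lit 18066139082) (nat_lit 17) (nat_lit 5) (nat_lit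 18) (nat_lit 5) (nat_lit 19) (nat_lit 4) (nat_lit 308) (nat_lit 270) (nat_lit 202)) (XT.lf (nat_lit 0) (nat_lit 58244046680) (nat_lit 76) (nat_lit 628901538) (nat_lit 152) (nat_lit 4064669161) (nat_lit 17) (nat_lit 5) (nat_lit 18) (nat_lit 5) (nat_lit 19) (nat_lit 4) (nat_lit 309) (nat_lit 270) (nat_lit 201))))))))
noncomputable def xc68 : XT := (XT.nd (nat_lit 1638) (nat_lit 228) (nat_lit 0) (XT.nd (nat_lit 780) (nat_lit 380) (nat_lit 0) (XT.nd (nat_lit 390) (nat_lit 152) (nat_lit 0) (XT.nd (nat_lit 156) (nat_lit 228) (nat_lit 0) (XT.nd (nat_lit 78) (nat_lit 0) (nat_lit 0) (XT.lf (nat_lit 0) (nat_lit 11492554558) (nat_lit 152) (nat_lit 35934037287) (nat_lit 76) (nat_lit 19524554126) (nat_lit 15) (nat_lit 5) (nat_lit 17) (nat_lit 5) (nat_lit 16) (nat_lit 4) (nat_lit 310) (nat_lit 270) (nat_lit 200)) (XT.lf (nat_lit 0) (nat_lit 28233270437) (nat_lit 152) (nat_lit 1635821650) (nat_lit 76)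 (nat_lit 41409274114) (nat_lit 15) (nat_lit 5) (nat_lit 17) (nat_lit 5) (nat_lit 16) (nat_lit 4) (nat_lit 311) (nat_lit 270) (nat_lit 199))) (XT.nd (nat_lit 78) (nat_lit 152) (nat_lit 0) (XT.lf (nat_lit 0) (nat_lit 36552149614) (nat_lit 76) (nat_lit 10318546694) (nat_lit 152) (nat_lit 29053201653) (nat_lit 14) (nat_lit 5) (nat_lit 15) (nat_lit 5) (nat_lit 16) (nat_lit 4) (nat_lit 312) (nat_lit 270) (nat_lit 198)) (XT.nd (nat_lit 78) (nat_lit 152) (nat_lit 0) (XT.lf (nat_lit 0) (nat_lit 67183865982) (nat_lit 152) (nat_lit 3278528464) (nat_lit 0) (nat_lit 10469446391) (nat_lit 14) (nat_lit 5) (nat_lit 16) (nat_lit 4) (nat_lit 14) (nat_lit 4) (nat_lit 313) (nat_lit 270) (nat_lit 197)) (XT.lf (nat_lit 0) (nat_lit 3439532045) (nat_lit 152) (nat_lit 49678689967) (nat_lit 76) (nat_lit 33182686357) (nat_lit 12) (nat_lit 5) (nat_lit 14) (nat_lit 5) (nat_lit 13) (nat_lit 4) (nat_lit 314) (nat_lit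 270) (nat_lit 196))))) (XT.nd (nat_lit 156) (nat_lit 76) (nat_lit 0) (XT.nd (nat_lit 78) (nat_lit 76) (nat_lit 0) (XT.lf (nat_lit 0) (nat_lit 21573401818) (nat_lit 152) (nat_lit 12518433847) (nat_lit 76) (nat_lit 57993750536) (nat_lit 12) (nat_lit 5) (nat_lit 14) (nat_lit 5) (nat_lit 13) (nat_lit 4) (nat_lit 315) (nat_lit 270) (nat_lit 195)) (XT.lf (nat_lit 0) (nat_lit 28507490057) (nat_lit 76) (nat_lit 13084960872) (nat_lit 152) (nat_lit 56718868426) (nat_lit 11) (nat_lit 5) (nat_lit 12) (nat_lit 5) (nat_lit 13) (nat_lit 4) (nat_lit 316) (nat_lit 270) (nat_lit 194))) (XT.nd (nat_lit 78) (nat_lit 76) (nat_lit 0) (XT.lf (nat_lit 0) (nat_lit 63574330644) (nat_lit 152) (nat_lit 31934282851) (nat_lit 0) (nat_lit 9508436578) (nat_lit 11) (nat_lit 5) (nat_lit 13) (nat_lit 4) (nat_lit 11) (nat_lit 4) (nat_lit 317) (nat_lit 270) (nat_lit 193)) (XT.nd (nat_lit 78) (nat_lit 0) (nat_lit 0) (XT.lf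 (nat_lit 0) (nat_lit 9015047518) (nat_lit 76) (nat_lit 78651606619) (nat_lit 76) (nat_lit 24574994370) (nat_lit 10) (nat_lit 4) (nat_lit 11) (nat_lit 5) (nat_lit 11) (nat_lit 4) (nat_lit 318) (nat_lit 270) (nat_lit 192)) (XT.lf (nat_lit 0) (nat_lit 54363774391) (nat_lit 76) (nat_lit 59869809762) (nat_lit 76) (nat_lit 5783273268) (nat_lit 10) (nat_lit 4) (nat_lit 11) (nat_lit 5) (nat_lit 11) (nat_lit 4) (nat_lit 319) (nat_lit 270) (nat_lit 191)))))) (XT.nd (nat_lit 390) (nat_lit 152) (nat_lit 0) (XT.nd (nat_lit 156) (nat_lit 76) (nat_lit 0) (XT.nd (nat_lit 78) (nat_lit 76) (nat_lit 0) (XT.lf (nat_lit 0) (nat_lit 14038793766) (nat_lit 152) (nat_lit 25316198386) (nat_lit 76) (nat_lit 89048191823) (nat_lit 9) (nat_lit 5) (nat_lit 11) (nat_lit 5) (nat_lit 10) (nat_lit 4) (nat_lit 320) (nat_lit 270) (nat_lit 190)) (XT.lf (nat_lit 0) (nat_lit 18734993273) (nat_lit 76) (nat_lit 16796337127) (nat_lit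 152) (nat_lit 101909982739) (nat_lit 8) (nat_lit 5) (nat_lit 9) (nat_lit 5) (nat_lit 10) (nat_lit 4) (nat_lit 321) (nat_lit 270) (nat_lit 189))) (XT.nd (nat_lit 78) (nat_lit 76) (nat_lit 0) (XT.lf (nat_lit 0) (nat_lit 59302002033) (nat_lit 152) (nat_lit 80105899700) (nat_lit 0) (nat_lit 7766657049) (nat_lit 8) (nat_lit 5) (nat_lit 10) (nat_lit 4) (nat_lit 8) (nat_lit 4) (nat_lit 322) (nat_lit 270) (nat_lit 188)) (XT.nd (nat_lit 78) (nat_lit 76) (nat_lit 0) (XT.lf (nat_lit 0) (nat_lit 85250478224) (nat_lit 152) (nat_lit 38713994873) (nat_lit 0) (nat_lit 33708185987) (nat_lit 8) (nat_lit 5) (nat_lit 10) (nat_lit 4) (nat_lit 8) (nat_lit 4) (nat_lit 323) (nat_lit 270) (nat_lit 187)) (XT.lf (nat_lit 0) (nat_lit 6174541767) (nat_lit 76) (nat_lit 107190149959) (nat_lit 76) (nat_lit 55641425080) (nat_lit 7) (nat_lit 4) (nat_lit 8) (nat_lit 5) (nat_lit 8) (nat_lit 4) (nat_lit 324) (nat_lit 270)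 (nat_lit 186))))) (XT.nd (nat_lit 234) (nat_lit 76) (nat_lit 0) (XT.nd (nat_lit 78) (nat_lit 76) (nat_lit 0) (XT.lf (nat_lit 0) (nat_lit 56024817614) (nat_lit 76) (nat_lit 88371355111) (nat_lit 76) (nat_lit 36816674083) (nat_lit 7) (nat_lit 4) (nat_lit 8) (nat_lit 5) (nat_lit 8) (nat_lit 4) (nat_lit 325) (nat_lit 270) (nat_lit 185)) (XT.nd (nat_lit 78) (nat_lit 76) (nat_lit 0) (XT.lf (nat_lit 0) (nat_lit 109852182202) (nat_lit 76) (nat_lit 68052210007) (nat_lit 76) (nat_lit 16492014025) (nat_lit 7) (nat_lit 4) (nat_lit 8) (nat_lit 5) (nat_lit 8) (nat_lit 4) (nat_lit 326) (nat_lit 270) (nat_lit 184)) (XT.lf (nat_lit 0) (nat_lit 5278467548) (nat_lit 152) (nat_lit 40744443946) (nat_lit 76) (nat_lit 162607751556) (nat_lit 6) (nat_lit 5) (nat_lit 8) (nat_lit 5) (nat_lit 7) (nat_lit 4) (nat_lit 327) (nat_lit 270) (nat_lit 183)))) (XT.nd (nat_lit 78) (nat_lit 0) (nat_lit 0) (XT.lf (nat_lit 0)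 (nat_lit 6479061694) (nat_lit 76) (nat_lit 21837568694) (nat_lit 152) (nat_lit 195668321499) (nat_lit 5) (nat_lit 5) (nat_lit 6) (nat_lit 5) (nat_lit 7) (nat_lit 4) (nat_lit 328) (nat_lit 270) (nat_lit 182)) (XT.nd (nat_lit 78) (nat_lit 0) (nat_lit 0) (XT.lf (nat_lit 0) (nat_lit 53981211649) (nat_lit 152) (nat_lit 181684478127) (nat_lit 0) (nat_lit 4862727315) (nat_lit 5) (nat_lit 5) (nat_lit 7) (nat_lit 4) (nat_lit 5) (nat_lit 4) (nat_lit 329) (nat_lit 270) (nat_lit 181)) (XT.lf (nat_lit 0) (nat_lit 82062666765) (nat_lit 152) (nat_lit 143374186988) (nat_lit 0) (nat_lit 32940321806) (nat_lit 5) (nat_lit 5) (nat_lit 7) (nat_lit 4) (nat_lit 5) (nat_lit 4) (nat_lit 330) (nat_lit 270) (nat_lit 180))))))) (XT.nd (nat_lit 858) (nat_lit 76) (nat_lit 0) (XT.nd (nat_lit 390) (nat_lit 76) (nat_lit 0) (XT.nd (nat_lit 156) (nat_lit 76) (nat_lit 0) (XT.nd (nat_lit 78) (nat_lit 0) (nat_lit 0) (XT.lf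 (nat_lit 0) (nat_lit 112386458712) (nat_lit 152) (nat_lit 102007047182) (nat_lit 0) (nat_lit 63260539101) (nat_lit 5) (nat_lit 5) (nat_lit 7) (nat_lit 4) (nat_lit 5) (nat_lit 4) (nat_lit 331) (nat_lit 270) (nat_lit 179)) (XT.lf (nat_lit 0) (nat_lit 145132284034) (nat_lit 152) (nat_lit 57337920103) (nat_lit 0) (nat_lit 96003054560) (nat_lit 5) (nat_lit 5) (nat_lit 7) (nat_lit 4) (nat_lit 5) (nat_lit 4) (nat_lit 332) (nat_lit 270) (nat_lit 178))) (XT.nd (nat_lit 78) (nat_lit 76) (nat_lit 0) (XT.lf (nat_lit 0) (nat_lit 180494192067) (nat_lit 152) (nat_lit 9102099812) (nat_lit 0) (nat_lit 131361897906) (nat_lit 5) (nat_lit 5) (nat_lit 7) (nat_lit 4) (nat_lit 5) (nat_lit 4) (nat_lit 333) (nat_lit 270) (nat_lit 177)) (XT.nd (nat_lit 78) (nat_lit 0) (nat_lit 0) (XT.lf (nat_lit 0) (nat_lit 44407575329) (nat_lit 76) (nat_lit 174967486233) (nat_lit 76) (nat_lit 125832354397) (nat_lit 4) (nat_lit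 4) (nat_lit 5) (nat_lit 5) (nat_lit 5) (nat_lit 4) (nat_lit 334) (nat_lit 270) (nat_lit 176)) (XT.lf (nat_lit 0) (nat_lit 102517002132) (nat_lit 76) (nat_lit 159004784534) (nat_lit 76) (nat_lit 109867025222) (nat_lit 4) (nat_lit 4) (nat_lit 5) (nat_lit 5) (nat_lit 5) (nat_lit 4) (nat_lit 335) (nat_lit 270) (nat_lit 175))))) (XT.nd (nat_lit 234) (nat_lit 76) (nat_lit 0) (XT.nd (nat_lit 78) (nat_lit 0) (nat_lit 0) (XT.lf (nat_lit 0) (nat_lit 165269576231) (nat_lit 76) (nat_lit 141767741458) (nat_lit 76) (nat_lit 92627549298) (nat_lit 4) (nat_lit 4) (nat_lit 5) (nat_lit 5) (nat_lit 5) (nat_lit 4) (nat_lit 336) (nat_lit 270) (nat_lit 174)) (XT.nd (nat_lit 78) (nat_lit 0) (nat_lit 0) (XT.lf (nat_lit 0) (nat_lit 233037164730) (nat_lit 76) (nat_lit 123154211566) (nat_lit 76) (nat_lit 74011766769) (nat_lit 4) (nat_lit 4) (nat_lit 5) (nat_lit 5) (nat_lit 5) (nat_lit 4) (nat_lit 337) (nat_lit 270)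 (nat_lit 173)) (XT.lf (nat_lit 0) (nat_lit 306221353340) (nat_lit 76) (nat_lit 103053892459) (nat_lit 76) (nat_lit 53909361887) (nat_lit 4) (nat_lit 4) (nat_lit 5) (nat_lit 5) (nat_lit 5) (nat_lit 4) (nat_lit 338) (nat_lit 270) (nat_lit 172)))) (XT.nd (nat_lit 78) (nat_lit 76) (nat_lit 0) (XT.lf (nat_lit 0) (nat_lit 385255826141) (nat_lit 76) (nat_lit 81347671133) (nat_lit 76) (nat_lit 32201209288) (nat_lit 4) (nat_lit 4) (nat_lit 5) (nat_lit 5) (nat_lit 5) (nat_lit 4) (nat_lit 339) (nat_lit 270) (nat_lit 171)) (XT.nd (nat_lit 78) (nat_lit 76) (nat_lit 0) (XT.lf (nat_lit 0) (nat_lit 470608935564) (nat_lit 76) (nat_lit 57906918130) (nat_lit 76) (nat_lit 8758668068) (nat_lit 4) (nat_lit 4) (nat_lit 5) (nat_lit 5) (nat_lit 5) (nat_lit 4) (nat_lit 340) (nat_lit 270) (nat_lit 170)) (XT.lf (nat_lit 0) (nat_lit 16027247354) (nat_lit 152) (nat_lit 16294048739) (nat_lit 76) (nat_lit 546487801269)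 (nat_lit 3) (nat_lit 5) (nat_lit 5) (nat_lit 5) (nat_lit 4) (nat_lit 4) (nat_lit 341) (nat_lit 270) (nat_lit 169)))))) (XT.nd (nat_lit 390) (nat_lit 0) (nat_lit 0) (XT.nd (nat_lit 156) (nat_lit 0) (nat_lit 0) (XT.nd (nat_lit 78) (nat_lit 0) (nat_lit 0) (XT.lf (nat_lit 0) (nat_lit 39210923074) (nat_lit 76) (nat_lit 3892668144) (nat_lit 152) (nat_lit 580524948279) (nat_lit 2) (nat_lit 5) (nat_lit 3) (nat_lit 5) (nat_lit 4) (nat_lit 4) (nat_lit 342) (nat_lit 270) (nat_lit 168)) (XT.lf (nat_lit 0) (nat_lit 73051291721) (nat_lit 152) (nat_lit 572707937757) (nat_lit 0) (nat_lit 26239045562) (nat_lit 2) (nat_lit 5) (nat_lit 4) (nat_lit 4) (nat_lit 2) (nat_lit 4) (nat_lit 343) (nat_lit 270) (nat_lit 167))) (XT.nd (nat_lit 78) (nat_lit 0) (nat_lit 0) (XT.lf (nat_lit 0) (nat_lit 105458761681) (nat_lit 152) (nat_lit 560130366816) (nat_lit 0) (nat_lit 58645263720) (nat_lit 2) (nat_lit 5) (nat_lit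 4) (nat_lit 4) (nat_lit 2) (nat_lit 4) (nat_lit 344) (nat_lit 270) (nat_lit 166)) (XT.nd (nat_lit 78) (nat_lit 0) (nat_lit 0) (XT.lf (nat_lit 0) (nat_lit 140457269904) (nat_lit 152) (nat_lit 546549594387) (nat_lit 0) (nat_lit 93642612867) (nat_lit 2) (nat_lit 5) (nat_lit 4) (nat_lit 4) (nat_lit 2) (nat_lit 4) (nat_lit 345) (nat_lit 270) (nat_lit 165)) (XT.lf (nat_lit 0) (nat_lit 178254214958) (nat_lit 152) (nat_lit 531885141819) (nat_lit 0) (nat_lit 131438484702) (nat_lit 2) (nat_lit 5) (nat_lit 4) (nat_lit 4) (nat_lit 2) (nat_lit 4) (nat_lit 346) (nat_lit 270) (nat_lit 164))))) (XT.nd (nat_lit 34788) (nat_lit 0) (nat_lit 6992) (XT.nd (nat_lit 78) (nat_lit 0) (nat_lit 0) (XT.lf (nat_lit 0) (nat_lit 219073578740) (nat_lit 152) (nat_lit 516050108652) (nat_lit 0) (nat_lit 172256854763) (nat_lit 2) (nat_lit 5) (nat_lit 4) (nat_lit 4) (nat_lit 2) (nat_lit 4) (nat_lit 347) (nat_lit 270) (nat_lit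 163)) (XT.nd (nat_lit 34632) (nat_lit 0) (nat_lit 7676) (XT.lf (nat_lit 0) (nat_lit 263157253775) (nat_lit 152) (nat_lit 498950657652) (nat_lit 0) (nat_lit 216339609687) (nat_lit 2) (nat_lit 5) (nat_lit 4) (nat_lit 4) (nat_lit 2) (nat_lit 4) (nat_lit 348) (nat_lit 270) (nat_lit 162)) (XT.lf (nat_lit 0) (nat_lit 4660489133) (nat_lit 684) (nat_lit 171307360) (nat_lit 684) (nat_lit 171307360) (nat_lit 103) (nat_lit 3) (nat_lit 112) (nat_lit 3) (nat_lit 112) (nat_lit 5) (nat_lit 271) (nat_lit 271) (nat_lit 238)))) (XT.nd (nat_lit 78) (nat_lit 0) (nat_lit 76) (XT.lf (nat_lit 0) (nat_lit 472792463) (nat_lit 684) (nat_lit 3087078356) (nat_lit 760) (nat_lit 6787119489) (nat_lit 94) (nat_lit 5) (nat_lit 103) (nat_lit 3) (nat_lit 104) (nat_lit 5) (nat_lit 272) (nat_lit 271) (nat_lit 237)) (XT.nd (nat_lit 78) (nat_lit 0) (nat_lit 0) (XT.lf (nat_lit 0) (nat_lit 1725516117) (nat_lit 684) (nat_lit 5913237324)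 (nat_lit 760) (nat_lit 3074606238) (nat_lit 95) (nat_lit 5) (nat_lit 104) (nat_lit 5) (nat_lit 105) (nat_lit 5) (nat_lit 273) (nat_lit 271) (nat_lit 236)) (XT.lf (nat_lit 76) (nat_lit 2271205533) (nat_lit 0) (nat_lit 859316444) (nat_lit 760) (nat_lit 7976088577) (nat_lit 96) (nat_lit 5) (nat_lit 95) (nat_lit 5) (nat_lit 105) (nat_lit 5) (nat_lit 274) (nat_lit 271) (nat_lit 235))))))))
noncomputable def xc69 : XT := (XT.nd (nat_lit 1638) (nat_lit 2052) (nat_lit 0) (XT.nd (nat_lit 780) (nat_lit 1900) (nat_lit 0) (XT.nd (nat_lit 390) (nat_lit 1368) (nat_lit 0) (XT.nd (nat_lit 156) (nat_lit 1140) (nat_lit 0) (XT.nd (nat_lit 78) (nat_lit 0) (nat_lit 76) (XT.lf (nat_lit 0) (nat_lit 4762263814) (nat_lit 684) (nat_lit 372478184) (nat_lit 760) (nat_lit 6391024919) (nat_lit 96) (nat_lit 5) (nat_lit 105) (nat_lit 5) (nat_lit 106) (nat_lit 5) (nat_lit 275) (nat_lit 271) (nat_lit 234)) (XT.lf (nat_lit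 0) (nat_lit 6631981325) (nat_lit 684) (nat_lit 3032376842) (nat_lit 760) (nat_lit 2308875985) (nat_lit 97) (nat_lit 5) (nat_lit 106) (nat_lit 5) (nat_lit 107) (nat_lit 5) (nat_lit 276) (nat_lit 271) (nat_lit 233))) (XT.nd (nat_lit 78) (nat_lit 1216) (nat_lit 0) (XT.lf (nat_lit 76) (nat_lit 6619307537) (nat_lit 0) (nat_lit 2149683887) (nat_lit 760) (nat_lit 3681760635) (nat_lit 98) (nat_lit 5) (nat_lit 97) (nat_lit 5) (nat_lit 107) (nat_lit 5) (nat_lit 277) (nat_lit 271) (nat_lit 232)) (XT.nd (nat_lit 78) (nat_lit 608) (nat_lit 0) (XT.lf (nat_lit 0) (nat_lit 4163223255) (nat_lit 684) (nat_lit 7051900565) (nat_lit 760) (nat_lit 1744568260) (nat_lit 89) (nat_lit 5) (nat_lit 98) (nat_lit 5) (nat_lit 99) (nat_lit 5) (nat_lit 278) (nat_lit 271) (nat_lit 231)) (XT.lf (nat_lit 0) (nat_lit 448983049) (nat_lit 608) (nat_lit 11916602565) (nat_lit 76) (nat_lit 1137978433) (nat_lit 81) (nat_lit 5)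 (nat_lit 89) (nat_lit 5) (nat_lit 82) (nat_lit 5) (nat_lit 279) (nat_lit 271) (nat_lit 230))))) (XT.nd (nat_lit 156) (nat_lit 988) (nat_lit 0) (XT.nd (nat_lit 78) (nat_lit 380) (nat_lit 0) (XT.lf (nat_lit 0) (nat_lit 2966305769) (nat_lit 608) (nat_lit 1182957155) (nat_lit 76) (nat_lit 9929887579) (nat_lit 81) (nat_lit 5) (nat_lit 89) (nat_lit 5) (nat_lit 82) (nat_lit 5) (nat_lit 280) (nat_lit 271) (nat_lit 229)) (XT.lf (nat_lit 0) (nat_lit 5867313904) (nat_lit 456) (nat_lit 4079797588) (nat_lit 76) (nat_lit 4744654746) (nat_lit 76) (nat_lit 5) (nat_lit 82) (nat_lit 5) (nat_lit 77) (nat_lit 5) (nat_lit 281) (nat_lit 271) (nat_lit 228))) (XT.nd (nat_lit 78) (nat_lit 684) (nat_lit 0) (XT.lf (nat_lit 0) (nat_lit 8171939890) (nat_lit 304) (nat_lit 989451919) (nat_lit 380) (nat_lit 6184040097) (nat_lit 72) (nat_lit 5) (nat_lit 76) (nat_lit 5) (nat_lit 77) (nat_lit 5) (nat_lit 282) (nat_lit 271)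 (nat_lit 227)) (XT.nd (nat_lit 78) (nat_lit 380) (nat_lit 0) (XT.lf (nat_lit 0) (nat_lit 5480485031) (nat_lit 304) (nat_lit 7477719777) (nat_lit 380) (nat_lit 3081309034) (nat_lit 68) (nat_lit 5) (nat_lit 72) (nat_lit 5) (nat_lit 73) (nat_lit 5) (nat_lit 283) (nat_lit 271) (nat_lit 226)) (XT.lf (nat_lit 0) (nat_lit 428452895) (nat_lit 380) (nat_lit 14195120469) (nat_lit 76) (nat_lit 2157039941) (nat_lit 63) (nat_lit 5) (nat_lit 68) (nat_lit 5) (nat_lit 64) (nat_lit 5) (nat_lit 284) (nat_lit 271) (nat_lit 225)))))) (XT.nd (nat_lit 390) (nat_lit 836) (nat_lit 0) (XT.nd (nat_lit 156) (nat_lit 760) (nat_lit 0) (XT.nd (nat_lit 78) (nat_lit 304) (nat_lit 0) (XT.lf (nat_lit 0) (nat_lit 4376396326) (nat_lit 380) (nat_lit 653089575) (nat_lit 76) (nat_lit 12535789573) (nat_lit 63) (nat_lit 5) (nat_lit 68) (nat_lit 5) (nat_lit 64) (nat_lit 5) (nat_lit 285) (nat_lit 271) (nat_lit 224)) (XT.lf (nat_lit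 0) (nat_lit 8905960008) (nat_lit 380) (nat_lit 4112624686) (nat_lit 76) (nat_lit 5380899778) (nat_lit 59) (nat_lit 5) (nat_lit 64) (nat_lit 5) (nat_lit 60) (nat_lit 5) (nat_lit 286) (nat_lit 271) (nat_lit 223))) (XT.nd (nat_lit 78) (nat_lit 532) (nat_lit 0) (XT.lf (nat_lit 0) (nat_lit 11370195898) (nat_lit 228) (nat_lit 2658509712) (nat_lit 304) (nat_lit 5260242160) (nat_lit 56) (nat_lit 5) (nat_lit 59) (nat_lit 5) (nat_lit 60) (nat_lit 5) (nat_lit 287) (nat_lit 271) (nat_lit 222)) (XT.nd (nat_lit 78) (nat_lit 304) (nat_lit 0) (XT.lf (nat_lit 0) (nat_lit 8062454591) (nat_lit 228) (nat_lit 11789824664) (nat_lit 304) (nat_lit 382792550) (nat_lit 53) (nat_lit 5) (nat_lit 56) (nat_lit 5) (nat_lit 57) (nat_lit 5) (nat_lit 288) (nat_lit 271) (nat_lit 221)) (XT.lf (nat_lit 0) (nat_lit 4316995591) (nat_lit 228) (nat_lit 624616790) (nat_lit 304) (nat_lit 16300852514) (nat_lit 49) (nat_lit 5) (nat_lit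 52) (nat_lit 5) (nat_lit 53) (nat_lit 5) (nat_lit 289) (nat_lit 271) (nat_lit 220))))) (XT.nd (nat_lit 234) (nat_lit 380) (nat_lit 0) (XT.nd (nat_lit 78) (nat_lit 456) (nat_lit 0) (XT.lf (nat_lit 0) (nat_lit 11035360963) (nat_lit 304) (nat_lit 3191) (nat_lit 76) (nat_lit 11276975560) (nat_lit 49) (nat_lit 5) (nat_lit 53) (nat_lit 5) (nat_lit 50) (nat_lit 5) (nat_lit 290) (nat_lit 271) (nat_lit 219)) (XT.nd (nat_lit 78) (nat_lit 228) (nat_lit 0) (XT.lf (nat_lit 0) (nat_lit 17901013277) (nat_lit 304) (nat_lit 4645860633) (nat_lit 76) (nat_lit 906751312) (nat_lit 46) (nat_lit 5) (nat_lit 50) (nat_lit 5) (nat_lit 47) (nat_lit 5) (nat_lit 291) (nat_lit 271) (nat_lit 218)) (XT.lf (nat_lit 0) (nat_lit 997888693) (nat_lit 228) (nat_lit 10013527776) (nat_lit 76) (nat_lit 13654924646) (nat_lit 43) (nat_lit 5) (nat_lit 46) (nat_lit 5) (nat_lit 44) (nat_lit 5) (nat_lit 292) (nat_lit 271) (nat_lit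 217)))) (XT.nd (nat_lit 78) (nat_lit 152) (nat_lit 0) (XT.lf (nat_lit 0) (nat_lit 8112693117) (nat_lit 304) (nat_lit 16125667889) (nat_lit 76) (nat_lit 1721455333) (nat_lit 40) (nat_lit 5) (nat_lit 44) (nat_lit 5) (nat_lit 41) (nat_lit 5) (nat_lit 293) (nat_lit 271) (nat_lit 216)) (XT.nd (nat_lit 78) (nat_lit 0) (nat_lit 0) (XT.lf (nat_lit 0) (nat_lit 4178403328) (nat_lit 152) (nat_lit 12016095063) (nat_lit 228) (nat_lit 11142411285) (nat_lit 38) (nat_lit 5) (nat_lit 40) (nat_lit 5) (nat_lit 41) (nat_lit 5) (nat_lit 294) (nat_lit 271) (nat_lit 215)) (XT.lf (nat_lit 0) (nat_lit 25197782487) (nat_lit 228) (nat_lit 2195777778) (nat_lit 76) (nat_lit 1416892124) (nat_lit 38) (nat_lit 5) (nat_lit 41) (nat_lit 5) (nat_lit 39) (nat_lit 5) (nat_lit 295) (nat_lit 271) (nat_lit 214))))))) (XT.nd (nat_lit 858) (nat_lit 760) (nat_lit 0) (XT.nd (nat_lit 390) (nat_lit 532) (nat_lit 0) (XT.nd (nat_lit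 156) (nat_lit 380) (nat_lit 0) (XT.nd (nat_lit 78) (nat_lit 152) (nat_lit 0) (XT.lf (nat_lit 0) (nat_lit 4884505746) (nat_lit 228) (nat_lit 9588226096) (nat_lit 76) (nat_lit 15900158577) (nat_lit 35) (nat_lit 5) (nat_lit 38) (nat_lit 5) (nat_lit 36) (nat_lit 5) (nat_lit 296) (nat_lit 271) (nat_lit 213)) (XT.lf (nat_lit 0) (nat_lit 13968146049) (nat_lit 152) (nat_lit 199412521) (nat_lit 228) (nat_lit 17878193418) (nat_lit 33) (nat_lit 5) (nat_lit 35) (nat_lit 5) (nat_lit 36) (nat_lit 5) (nat_lit 297) (nat_lit 271) (nat_lit 212))) (XT.nd (nat_lit 78) (nat_lit 228) (nat_lit 0) (XT.lf (nat_lit 0) (nat_lit 5812909153) (nat_lit 152) (nat_lit 18853532308) (nat_lit 228) (nat_lit 9162363375) (nat_lit 31) (nat_lit 5) (nat_lit 33) (nat_lit 5) (nat_lit 34) (nat_lit 5) (nat_lit 298) (nat_lit 271) (nat_lit 211)) (XT.nd (nat_lit 78) (nat_lit 152) (nat_lit 0) (XT.lf (nat_lit 0) (nat_lit 542080189) (nat_lit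 228) (nat_lit 3530224331) (nat_lit 76) (nat_lit 31667052138) (nat_lit 30) (nat_lit 5) (nat_lit 33) (nat_lit 5) (nat_lit 31) (nat_lit 5) (nat_lit 299) (nat_lit 271) (nat_lit 210)) (XT.lf (nat_lit 0) (nat_lit 11244382549) (nat_lit 228) (nat_lit 14496998804) (nat_lit 76) (nat_lit 12026753418) (nat_lit 28) (nat_lit 5) (nat_lit 31) (nat_lit 5) (nat_lit 29) (nat_lit 5) (nat_lit 300) (nat_lit 271) (nat_lit 209))))) (XT.nd (nat_lit 234) (nat_lit 228) (nat_lit 0) (XT.nd (nat_lit 78) (nat_lit 152) (nat_lit 0) (XT.lf (nat_lit 0) (nat_lit 12687310615) (nat_lit 152) (nat_lit 10423435577) (nat_lit 228) (nat_lit 16833091449) (nat_lit 26) (nat_lit 5) (nat_lit 28) (nat_lit 5) (nat_lit 29) (nat_lit 5) (nat_lit 301) (nat_lit 271) (nat_lit 208)) (XT.nd (nat_lit 78) (nat_lit 76) (nat_lit 0) (XT.lf (nat_lit 0) (nat_lit 153413697) (nat_lit 76) (nat_lit 36107078876) (nat_lit 152) (nat_lit 6016415636) (nat_lit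 25) (nat_lit 5) (nat_lit 26) (nat_lit 5) (nat_lit 27) (nat_lit 4) (nat_lit 302) (nat_lit 271) (nat_lit 207)) (XT.lf (nat_lit 0) (nat_lit 6122719890) (nat_lit 152) (nat_lit 14349450021) (nat_lit 76) (nat_lit 24288122080) (nat_lit 24) (nat_lit 5) (nat_lit 26) (nat_lit 5) (nat_lit 25) (nat_lit 5) (nat_lit 303) (nat_lit 271) (nat_lit 206)))) (XT.nd (nat_lit 78) (nat_lit 76) (nat_lit 0) (XT.lf (nat_lit 0) (nat_lit 16026500608) (nat_lit 152) (nat_lit 3230335693) (nat_lit 228) (nat_lit 28168859262) (nat_lit 22) (nat_lit 5) (nat_lit 24) (nat_lit 5) (nat_lit 25) (nat_lit 5) (nat_lit 304) (nat_lit 271) (nat_lit 205)) (XT.nd (nat_lit 78) (nat_lit 76) (nat_lit 0) (XT.lf (nat_lit 0) (nat_lit 33918326422) (nat_lit 228) (nat_lit 1222121470) (nat_lit 76) (nat_lit 15140062765) (nat_lit 22) (nat_lit 5) (nat_lit 25) (nat_lit 5) (nat_lit 23) (nat_lit 4) (nat_lit 305) (nat_lit 271) (nat_lit 204)) (XT.lf (nat_lit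 0) (nat_lit 32320554823) (nat_lit 76) (nat_lit 17974870589) (nat_lit 152) (nat_lit 3041161668) (nat_lit 21) (nat_lit 5) (nat_lit 22) (nat_lit 5) (nat_lit 23) (nat_lit 4) (nat_lit 306) (nat_lit 271) (nat_lit 203)))))) (XT.nd (nat_lit 390) (nat_lit 304) (nat_lit 0) (XT.nd (nat_lit 156) (nat_lit 228) (nat_lit 0) (XT.nd (nat_lit 78) (nat_lit 0) (nat_lit 0) (XT.lf (nat_lit 0) (nat_lit 11192661449) (nat_lit 228) (nat_lit 44496180971) (nat_lit 76) (nat_lit 928947417) (nat_lit 18) (nat_lit 5) (nat_lit 21) (nat_lit 5) (nat_lit 19) (nat_lit 4) (nat_lit 307) (nat_lit 271) (nat_lit 202)) (XT.lf (nat_lit 0) (nat_lit 27119951979) (nat_lit 228) (nat_lit 11870038307) (nat_lit 76) (nat_lit 21135948979) (nat_lit 18) (nat_lit 5) (nat_lit 21) (nat_lit 5) (nat_lit 19) (nat_lit 4) (nat_lit 308) (nat_lit 271) (nat_lit 201))) (XT.nd (nat_lit 78) (nat_lit 152) (nat_lit 0) (XT.lf (nat_lit 0) (nat_lit 24112750011)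 (nat_lit 76) (nat_lit 20570984402) (nat_lit 152) (nat_lit 19212898822) (nat_lit 17) (nat_lit 5) (nat_lit 18) (nat_lit 5) (nat_lit 19) (nat_lit 4) (nat_lit 309) (nat_lit 271) (nat_lit 200)) (XT.nd (nat_lit 78) (nat_lit 152) (nat_lit 0) (XT.lf (nat_lit 0) (nat_lit 63373927639) (nat_lit 76) (nat_lit 471973670) (nat_lit 152) (nat_lit 4113424743) (nat_lit 17) (nat_lit 5) (nat_lit 18) (nat_lit 5) (nat_lit 19) (nat_lit 4) (nat_lit 310) (nat_lit 271) (nat_lit 199)) (XT.lf (nat_lit 0) (nat_lit 12670047132) (nat_lit 152) (nat_lit 38340555194) (nat_lit 76) (nat_lit 21283603173) (nat_lit 15) (nat_lit 5) (nat_lit 17) (nat_lit 5) (nat_lit 16) (nat_lit 4) (nat_lit 311) (nat_lit 271) (nat_lit 198))))) (XT.nd (nat_lit 234) (nat_lit 228) (nat_lit 0) (XT.nd (nat_lit 78) (nat_lit 76) (nat_lit 0) (XT.lf (nat_lit 0) (nat_lit 30730902636) (nat_lit 152) (nat_lit 1333164164) (nat_lit 76) (nat_lit 44904501893)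 (nat_lit 15) (nat_lit 5) (nat_lit 17) (nat_lit 5) (nat_lit 16) (nat_lit 4) (nat_lit 312) (nat_lit 271) (nat_lit 197)) (XT.nd (nat_lit 78) (nat_lit 0) (nat_lit 0) (XT.lf (nat_lit 0) (nat_lit 39891004411) (nat_lit 76) (nat_lit 10957091004) (nat_lit 152) (nat_lit 31138217698) (nat_lit 14) (nat_lit 5) (nat_lit 15) (nat_lit 5) (nat_lit 16) (nat_lit 4) (nat_lit 313) (nat_lit 271) (nat_lit 196)) (XT.lf (nat_lit 0) (nat_lit 72772151233) (nat_lit 152) (nat_lit 3148902534) (nat_lit 0) (nat_lit 11474554136) (nat_lit 14) (nat_lit 5) (nat_lit 16) (nat_lit 4) (nat_lit 14) (nat_lit 4) (nat_lit 314) (nat_lit 271) (nat_lit 195)))) (XT.nd (nat_lit 78) (nat_lit 76) (nat_lit 0) (XT.lf (nat_lit 0) (nat_lit 3921731738) (nat_lit 152) (nat_lit 53271173807) (nat_lit 76) (nat_lit 36001634217) (nat_lit 12) (nat_lit 5) (nat_lit 14) (nat_lit 5) (nat_lit 13) (nat_lit 4) (nat_lit 315) (nat_lit 271) (nat_lit 194)) (XT.nd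 (nat_lit 78) (nat_lit 76) (nat_lit 0) (XT.lf (nat_lit 0) (nat_lit 23490975010) (nat_lit 152) (nat_lit 13166379519) (nat_lit 76) (nat_lit 62785410719) (nat_lit 12) (nat_lit 5) (nat_lit 14) (nat_lit 5) (nat_lit 13) (nat_lit 4) (nat_lit 316) (nat_lit 271) (nat_lit 193)) (XT.lf (nat_lit 0) (nat_lit 31126254356) (nat_lit 76) (nat_lit 13976373321) (nat_lit 152) (nat_lit 61064381530) (nat_lit 11) (nat_lit 5) (nat_lit 12) (nat_lit 5) (nat_lit 13) (nat_lit 4) (nat_lit 317) (nat_lit 271) (nat_lit 192))))))))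
noncomputable def xc70 : XT := (XT.nd (nat_lit 1638) (nat_lit 152) (nat_lit 0) (XT.nd (nat_lit 780) (nat_lit 228) (nat_lit 0) (XT.nd (nat_lit 390) (nat_lit 76) (nat_lit 0) (XT.nd (nat_lit 156) (nat_lit 152) (nat_lit 0) (XT.nd (nat_lit 78) (nat_lit 76) (nat_lit 0) (XT.lf (nat_lit 0) (nat_lit 68831764743) (nat_lit 152) (nat_lit 34169622882) (nat_lit 0) (nat_lit 10408381086) (nat_lit 11) (nat_lit 5) (nat_lit 13) (nat_lit 4) (nat_lit 11) (nat_lit 4) (nat_lit 318) (nat_lit 271) (nat_lit 191)) (XT.lf (nat_lit 0) (nat_lit 10041773069) (nat_lit 76) (nat_lit 84801768309) (nat_lit 76) (nat_lit 26369195537) (nat_lit 10) (nat_lit 4) (nat_lit 11) (nat_lit 5) (nat_lit 11) (nat_lit 4) (nat_lit 319) (nat_lit 271) (nat_lit 190))) (XT.nd (nat_lit 78) (nat_lit 152) (nat_lit 0) (XT.lf (nat_lit 0) (nat_lit 58995766852) (nat_lit 76) (nat_lit 64527943765) (nat_lit 76) (nat_lit 6086862553) (nat_lit 10) (nat_lit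 4) (nat_lit 11) (nat_lit 5) (nat_lit 11) (nat_lit 4) (nat_lit 320) (nat_lit 271) (nat_lit 189)) (XT.nd (nat_lit 78) (nat_lit 76) (nat_lit 0) (XT.lf (nat_lit 0) (nat_lit 15304472509) (nat_lit 152) (nat_lit 27074790752) (nat_lit 76) (nat_lit 96288993004) (nat_lit 9) (nat_lit 5) (nat_lit 11) (nat_lit 5) (nat_lit 10) (nat_lit 4) (nat_lit 321) (nat_lit 271) (nat_lit 188)) (XT.lf (nat_lit 0) (nat_lit 20488905630) (nat_lit 76) (nat_lit 18020928341) (nat_lit 152) (nat_lit 109919934670) (nat_lit 8) (nat_lit 5) (nat_lit 9) (nat_lit 5) (nat_lit 10) (nat_lit 4) (nat_lit 322) (nat_lit 271) (nat_lit 187))))) (XT.nd (nat_lit 156) (nat_lit 76) (nat_lit 0) (XT.nd (nat_lit 78) (nat_lit 0) (nat_lit 0) (XT.lf (nat_lit 0) (nat_lit 64173807446) (nat_lit 152) (nat_lit 86273535831) (nat_lit 0) (nat_lit 8494751936) (nat_lit 8) (nat_lit 5) (nat_lit 10) (nat_lit 4) (nat_lit 8) (nat_lit 4) (nat_lit 323) (nat_lit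 271) (nat_lit 186)) (XT.lf (nat_lit 0) (nat_lit 92188706528) (nat_lit 152) (nat_lit 41588118310) (nat_lit 0) (nat_lit 36503694868) (nat_lit 8) (nat_lit 5) (nat_lit 10) (nat_lit 4) (nat_lit 8) (nat_lit 4) (nat_lit 324) (nat_lit 271) (nat_lit 185))) (XT.nd (nat_lit 78) (nat_lit 0) (nat_lit 0) (XT.lf (nat_lit 0) (nat_lit 6881810121) (nat_lit 76) (nat_lit 115664822460) (nat_lit 76) (nat_lit 59974295847) (nat_lit 7) (nat_lit 4) (nat_lit 8) (nat_lit 5) (nat_lit 8) (nat_lit 4) (nat_lit 325) (nat_lit 271) (nat_lit 184)) (XT.nd (nat_lit 78) (nat_lit 0) (nat_lit 0) (XT.lf (nat_lit 0) (nat_lit 60704307665) (nat_lit 76) (nat_lit 95347971395) (nat_lit 76) (nat_lit 39652338343) (nat_lit 7) (nat_lit 4) (nat_lit 8) (nat_lit 5) (nat_lit 8) (nat_lit 4) (nat_lit 326) (nat_lit 271) (nat_lit 183)) (XT.lf (nat_lit 0) (nat_lit 118823231446) (nat_lit 76) (nat_lit 73410190395) (nat_lit 76) (nat_lit 17709829160)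 (nat_lit 7) (nat_lit 4) (nat_lit 8) (nat_lit 5) (nat_lit 8) (nat_lit 4) (nat_lit 327) (nat_lit 271) (nat_lit 182)))))) (XT.nd (nat_lit 390) (nat_lit 76) (nat_lit 0) (XT.nd (nat_lit 156) (nat_lit 0) (nat_lit 0) (XT.nd (nat_lit 78) (nat_lit 76) (nat_lit 0) (XT.lf (nat_lit 0) (nat_lit 5791759657) (nat_lit 152) (nat_lit 43831631885) (nat_lit 76) (nat_lit 175693143993) (nat_lit 6) (nat_lit 5) (nat_lit 8) (nat_lit 5) (nat_lit 7) (nat_lit 4) (nat_lit 328) (nat_lit 271) (nat_lit 181)) (XT.lf (nat_lit 0) (nat_lit 7162263321) (nat_lit 76) (nat_lit 23506544561) (nat_lit 152) (nat_lit 211230570189) (nat_lit 5) (nat_lit 5) (nat_lit 6) (nat_lit 5) (nat_lit 7) (nat_lit 4) (nat_lit 329) (nat_lit 271) (nat_lit 180))) (XT.nd (nat_lit 78) (nat_lit 0) (nat_lit 0) (XT.lf (nat_lit 0) (nat_lit 58381250548) (nat_lit 152) (nat_lit 196063654528) (nat_lit 0) (nat_lit 5321682716) (nat_lit 5) (nat_lit 5) (nat_lit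 7) (nat_lit 4) (nat_lit 5) (nat_lit 4) (nat_lit 330) (nat_lit 271) (nat_lit 179)) (XT.nd (nat_lit 78) (nat_lit 0) (nat_lit 0) (XT.lf (nat_lit 0) (nat_lit 88703181927) (nat_lit 152) (nat_lit 154700064679) (nat_lit 0) (nat_lit 35640304233) (nat_lit 5) (nat_lit 5) (nat_lit 7) (nat_lit 4) (nat_lit 5) (nat_lit 4) (nat_lit 331) (nat_lit 271) (nat_lit 178)) (XT.lf (nat_lit 0) (nat_lit 121447284502) (nat_lit 152) (nat_lit 110034224598) (nat_lit 0) (nat_lit 68381342119) (nat_lit 5) (nat_lit 5) (nat_lit 7) (nat_lit 4) (nat_lit 5) (nat_lit 4) (nat_lit 332) (nat_lit 271) (nat_lit 177))))) (XT.nd (nat_lit 234) (nat_lit 0) (nat_lit 0) (XT.nd (nat_lit 78) (nat_lit 76) (nat_lit 0) (XT.lf (nat_lit 0) (nat_lit 156807597399) (nat_lit 152) (nat_lit 61801447823) (nat_lit 0) (nat_lit 103738817342) (nat_lit 5) (nat_lit 5) (nat_lit 7) (nat_lit 4) (nat_lit 5) (nat_lit 4) (nat_lit 333) (nat_lit 271) (nat_lit 176))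 (XT.nd (nat_lit 78) (nat_lit 76) (nat_lit 0) (XT.lf (nat_lit 0) (nat_lit 194993663212) (nat_lit 152) (nat_lit 9715910493) (nat_lit 0) (nat_lit 141922255680) (nat_lit 5) (nat_lit 5) (nat_lit 7) (nat_lit 4) (nat_lit 5) (nat_lit 4) (nat_lit 334) (nat_lit 271) (nat_lit 175)) (XT.lf (nat_lit 0) (nat_lit 48069568830) (nat_lit 76) (nat_lit 188912701594) (nat_lit 76) (nat_lit 135838861214) (nat_lit 4) (nat_lit 4) (nat_lit 5) (nat_lit 5) (nat_lit 5) (nat_lit 4) (nat_lit 335) (nat_lit 271) (nat_lit 174)))) (XT.nd (nat_lit 78) (nat_lit 0) (nat_lit 0) (XT.lf (nat_lit 0) (nat_lit 110819647002) (nat_lit 76) (nat_lit 171676849206) (nat_lit 76) (nat_lit 118600756188) (nat_lit 4) (nat_lit 4) (nat_lit 5) (nat_lit 5) (nat_lit 5) (nat_lit 4) (nat_lit 336) (nat_lit 271) (nat_lit 173)) (XT.nd (nat_lit 78) (nat_lit 0) (nat_lit 0) (XT.lf (nat_lit 0) (nat_lit 178584924458) (nat_lit 76) (nat_lit 153064421802) (nat_lit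 76) (nat_lit 99986243010) (nat_lit 4) (nat_lit 4) (nat_lit 5) (nat_lit 5) (nat_lit 5) (nat_lit 4) (nat_lit 337) (nat_lit 271) (nat_lit 172)) (XT.lf (nat_lit 0) (nat_lit 251766973213) (nat_lit 76) (nat_lit 132965123517) (nat_lit 76) (nat_lit 79885013451) (nat_lit 4) (nat_lit 4) (nat_lit 5) (nat_lit 5) (nat_lit 5) (nat_lit 4) (nat_lit 338) (nat_lit 271) (nat_lit 171))))))) (XT.nd (nat_lit 35490) (nat_lit 0) (nat_lit 5320) (XT.nd (nat_lit 390) (nat_lit 0) (nat_lit 0) (XT.nd (nat_lit 156) (nat_lit 152) (nat_lit 0) (XT.nd (nat_lit 78) (nat_lit 0) (nat_lit 0) (XT.lf (nat_lit 0) (nat_lit 330799464667) (nat_lit 76) (nat_lit 111259847397) (nat_lit 76) (nat_lit 58177949115) (nat_lit 4) (nat_lit 4) (nat_lit 5) (nat_lit 5) (nat_lit 5) (nat_lit 4) (nat_lit 339) (nat_lit 271) (nat_lit 170)) (XT.lf (nat_lit 0) (nat_lit 416150739509) (nat_lit 76) (nat_lit 87819969585) (nat_lit 76) (nat_lit 34736415547)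 (nat_lit 4) (nat_lit 4) (nat_lit 5) (nat_lit 5) (nat_lit 5) (nat_lit 4) (nat_lit 340) (nat_lit 271) (nat_lit 169))) (XT.nd (nat_lit 78) (nat_lit 152) (nat_lit 0) (XT.lf (nat_lit 0) (nat_lit 508326583073) (nat_lit 76) (nat_lit 62506587100) (nat_lit 76) (nat_lit 9421499955) (nat_lit 4) (nat_lit 4) (nat_lit 5) (nat_lit 5) (nat_lit 5) (nat_lit 4) (nat_lit 341) (nat_lit 271) (nat_lit 168)) (XT.nd (nat_lit 78) (nat_lit 76) (nat_lit 0) (XT.lf (nat_lit 0) (nat_lit 17343362099) (nat_lit 152) (nat_lit 17532614384) (nat_lit 76) (nat_lit 590236142251) (nat_lit 3) (nat_lit 5) (nat_lit 5) (nat_lit 5) (nat_lit 4) (nat_lit 4) (nat_lit 342) (nat_lit 271) (nat_lit 167)) (XT.lf (nat_lit 0) (nat_lit 42409932167) (nat_lit 76) (nat_lit 4174337709) (nat_lit 152) (nat_lit 626932924259) (nat_lit 2) (nat_lit 5) (nat_lit 3) (nat_lit 5) (nat_lit 4) (nat_lit 4) (nat_lit 343) (nat_lit 271) (nat_lit 166))))) (XT.nd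 (nat_lit 234) (nat_lit 0) (nat_lit 0) (XT.nd (nat_lit 78) (nat_lit 0) (nat_lit 0) (XT.lf (nat_lit 0) (nat_lit 78925817046) (nat_lit 152) (nat_lit 618465962237) (nat_lit 0) (nat_lit 28364828370) (nat_lit 2) (nat_lit 5) (nat_lit 4) (nat_lit 4) (nat_lit 2) (nat_lit 4) (nat_lit 344) (nat_lit 271) (nat_lit 165)) (XT.nd (nat_lit 78) (nat_lit 0) (nat_lit 0) (XT.lf (nat_lit 0) (nat_lit 113923631122) (nat_lit 152) (nat_lit 604886527143) (nat_lit 0) (nat_lit 63361569227) (nat_lit 2) (nat_lit 5) (nat_lit 4) (nat_lit 4) (nat_lit 2) (nat_lit 4) (nat_lit 345) (nat_lit 271) (nat_lit 164)) (XT.lf (nat_lit 0) (nat_lit 151719933447) (nat_lit 152) (nat_lit 590223312847) (nat_lit 0) (nat_lit 101156877832) (nat_lit 2) (nat_lit 5) (nat_lit 4) (nat_lit 4) (nat_lit 2) (nat_lit 4) (nat_lit 346) (nat_lit 271) (nat_lit 163)))) (XT.nd (nat_lit 78) (nat_lit 0) (nat_lit 0) (XT.lf (nat_lit 0) (nat_lit 192538702109)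 (nat_lit 152) (nat_lit 574389426228) (nat_lit 0) (nat_lit 141974726382) (nat_lit 2) (nat_lit 5) (nat_lit 4) (nat_lit 4) (nat_lit 2) (nat_lit 4) (nat_lit 347) (nat_lit 271) (nat_lit 162)) (XT.nd (nat_lit 34710) (nat_lit 0) (nat_lit 6992) (XT.lf (nat_lit 0) (nat_lit 236621826108) (nat_lit 152) (nat_lit 557291036847) (nat_lit 0) (nat_lit 186056998425) (nat_lit 2) (nat_lit 5) (nat_lit 4) (nat_lit 4) (nat_lit 2) (nat_lit 4) (nat_lit 348) (nat_lit 271) (nat_lit 161)) (XT.lf (nat_lit 0) (nat_lit 337405503) (nat_lit 0) (nat_lit 337405503) (nat_lit 684) (nat_lit 4675334982) (nat_lit 94) (nat_lit 5) (nat_lit 94) (nat_lit 3) (nat_lit 103) (nat_lit 3) (nat_lit 272) (nat_lit 272) (nat_lit 236)))))) (XT.nd (nat_lit 390) (nat_lit 1672) (nat_lit 0) (XT.nd (nat_lit 156) (nat_lit 0) (nat_lit 76) (XT.nd (nat_lit 78) (nat_lit 0) (nat_lit 76) (XT.lf (nat_lit 0) (nat_lit 2419425059) (nat_lit 684) (nat_lit 2257503930)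 (nat_lit 760) (nat_lit 6398962609) (nat_lit 94) (nat_lit 5) (nat_lit 103) (nat_lit 3) (nat_lit 104) (nat_lit 5) (nat_lit 273) (nat_lit 272) (nat_lit 235)) (XT.lf (nat_lit 0) (nat_lit 3635282744) (nat_lit 684) (nat_lit 5252433810) (nat_lit 760) (nat_lit 2590961305) (nat_lit 95) (nat_lit 5) (nat_lit 104) (nat_lit 5) (nat_lit 105) (nat_lit 5) (nat_lit 274) (nat_lit 272) (nat_lit 234))) (XT.nd (nat_lit 78) (nat_lit 0) (nat_lit 76) (XT.lf (nat_lit 76) (nat_lit 3537488194) (nat_lit 0) (nat_lit 1500895395) (nat_lit 760) (nat_lit 6870954883) (nat_lit 96) (nat_lit 5) (nat_lit 95) (nat_lit 5) (nat_lit 105) (nat_lit 5) (nat_lit 275) (nat_lit 272) (nat_lit 233)) (XT.nd (nat_lit 78) (nat_lit 0) (nat_lit 76) (XT.lf (nat_lit 76) (nat_lit 712500893) (nat_lit 0) (nat_lit 5968235120) (nat_lit 760) (nat_lit 5687504801) (nat_lit 97) (nat_lit 5) (nat_lit 96) (nat_lit 5) (nat_lit 106) (nat_lit 5) (nat_lit 276)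 (nat_lit 272) (nat_lit 232)) (XT.lf (nat_lit 0) (nat_lit 8586138019) (nat_lit 684) (nat_lit 2150445080) (nat_lit 760) (nat_lit 2120817929) (nat_lit 97) (nat_lit 5) (nat_lit 106) (nat_lit 5) (nat_lit 107) (nat_lit 5) (nat_lit 277) (nat_lit 272) (nat_lit 231))))) (XT.nd (nat_lit 234) (nat_lit 684) (nat_lit 0) (XT.nd (nat_lit 78) (nat_lit 1216) (nat_lit 0) (XT.lf (nat_lit 76) (nat_lit 8224503697) (nat_lit 0) (nat_lit 2580947447) (nat_lit 760) (nat_lit 2572288184) (nat_lit 98) (nat_lit 5) (nat_lit 97) (nat_lit 5) (nat_lit 107) (nat_lit 5) (nat_lit 278) (nat_lit 272) (nat_lit 230)) (XT.nd (nat_lit 78) (nat_lit 608) (nat_lit 0) (XT.lf (nat_lit 0) (nat_lit 5595129533) (nat_lit 684) (nat_lit 7766667870) (nat_lit 760) (nat_lit 570043270) (nat_lit 89) (nat_lit 5) (nat_lit 98) (nat_lit 5) (nat_lit 99) (nat_lit 5) (nat_lit 279) (nat_lit 272) (nat_lit 229)) (XT.lf (nat_lit 0) (nat_lit 1678191681) (nat_lit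 608) (nat_lit 11713414797) (nat_lit 76) (nat_lit 1130679085) (nat_lit 81) (nat_lit 5) (nat_lit 89) (nat_lit 5) (nat_lit 82) (nat_lit 5) (nat_lit 280) (nat_lit 272) (nat_lit 228)))) (XT.nd (nat_lit 78) (nat_lit 684) (nat_lit 0) (XT.lf (nat_lit 0) (nat_lit 4308508368) (nat_lit 608) (nat_lit 206745604) (nat_lit 76) (nat_lit 10633225230) (nat_lit 81) (nat_lit 5) (nat_lit 89) (nat_lit 5) (nat_lit 82) (nat_lit 5) (nat_lit 281) (nat_lit 272) (nat_lit 227)) (XT.nd (nat_lit 78) (nat_lit 304) (nat_lit 0) (XT.lf (nat_lit 0) (nat_lit 7375515135) (nat_lit 456) (nat_lit 3328060471) (nat_lit 76) (nat_lit 5109962946) (nat_lit 76) (nat_lit 5) (nat_lit 82) (nat_lit 5) (nat_lit 77) (nat_lit 5) (nat_lit 282) (nat_lit 272) (nat_lit 226)) (XT.lf (nat_lit 0) (nat_lit 9856962184) (nat_lit 304) (nat_lit 1015308716) (nat_lit 380) (nat_lit 5650389598) (nat_lit 72) (nat_lit 5) (nat_lit 76) (nat_lit 5) (nat_lit 77)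 (nat_lit 5) (nat_lit 283) (nat_lit 272) (nat_lit 225))))))))
noncomputable def xc71 : XT := (XT.nd (nat_lit 1638) (nat_lit 1292) (nat_lit 0) (XT.nd (nat_lit 780) (nat_lit 1444) (nat_lit 0) (XT.nd (nat_lit 390) (nat_lit 988) (nat_lit 0) (XT.nd (nat_lit 156) (nat_lit 532) (nat_lit 0) (XT.nd (nat_lit 78) (nat_lit 380) (nat_lit 0) (XT.lf (nat_lit 0) (nat_lit 6952792715) (nat_lit 304) (nat_lit 7964506270) (nat_lit 380) (nat_lit 2357858173) (nat_lit 68) (nat_lit 5) (nat_lit 72) (nat_lit 5) (nat_lit 73) (nat_lit 5) (nat_lit 284) (nat_lit 272) (nat_lit 224)) (XT.lf (nat_lit 0) (nat_lit 1350116488) (nat_lit 380) (nat_lit 14267431337) (nat_lit 76) (nat_lit 2459914223) (nat_lit 63) (nat_lit 5) (nat_lit 68) (nat_lit 5) (nat_lit 64) (nat_lit 5) (nat_lit 285) (nat_lit 272) (nat_lit 223))) (XT.nd (nat_lit 78) (nat_lit 228) (nat_lit 0) (XT.lf (nat_lit 0) (nat_lit 288430741) (nat_lit 304) (nat_lit 5264235467)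 (nat_lit 380) (nat_lit 13375383623) (nat_lit 59) (nat_lit 5) (nat_lit 63) (nat_lit 5) (nat_lit 64) (nat_lit 5) (nat_lit 286) (nat_lit 272) (nat_lit 222)) (XT.nd (nat_lit 78) (nat_lit 228) (nat_lit 0) (XT.lf (nat_lit 0) (nat_lit 10396527479) (nat_lit 380) (nat_lit 3462651094) (nat_lit 76) (nat_lit 5972304778) (nat_lit 59) (nat_lit 5) (nat_lit 64) (nat_lit 5) (nat_lit 60) (nat_lit 5) (nat_lit 287) (nat_lit 272) (nat_lit 221)) (XT.lf (nat_lit 0) (nat_lit 13216249703) (nat_lit 228) (nat_lit 2669827104) (nat_lit 304) (nat_lit 4908255876) (nat_lit 56) (nat_lit 5) (nat_lit 59) (nat_lit 5) (nat_lit 60) (nat_lit 5) (nat_lit 288) (nat_lit 272) (nat_lit 220))))) (XT.nd (nat_lit 156) (nat_lit 456) (nat_lit 0) (XT.nd (nat_lit 78) (nat_lit 228) (nat_lit 0) (XT.lf (nat_lit 0) (nat_lit 310172307) (nat_lit 304) (nat_lit 12186797096) (nat_lit 76) (nat_lit 9320851355) (nat_lit 52) (nat_lit 5) (nat_lit 56)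 (nat_lit 5) (nat_lit 53) (nat_lit 5) (nat_lit 289) (nat_lit 272) (nat_lit 219)) (XT.lf (nat_lit 0) (nat_lit 5574106333) (nat_lit 228) (nat_lit 434807408) (nat_lit 304) (nat_lit 16898551855) (nat_lit 49) (nat_lit 5) (nat_lit 52) (nat_lit 5) (nat_lit 53) (nat_lit 5) (nat_lit 290) (nat_lit 272) (nat_lit 218))) (XT.nd (nat_lit 78) (nat_lit 228) (nat_lit 0) (XT.lf (nat_lit 0) (nat_lit 901444679) (nat_lit 228) (nat_lit 11656482190) (nat_lit 304) (nat_lit 11506674400) (nat_lit 46) (nat_lit 5) (nat_lit 49) (nat_lit 5) (nat_lit 50) (nat_lit 5) (nat_lit 291) (nat_lit 272) (nat_lit 217)) (XT.nd (nat_lit 78) (nat_lit 228) (nat_lit 0) (XT.lf (nat_lit 0) (nat_lit 19929226867) (nat_lit 304) (nat_lit 4156337057) (nat_lit 76) (nat_lit 1213860643) (nat_lit 46) (nat_lit 5) (nat_lit 50) (nat_lit 5) (nat_lit 47) (nat_lit 5) (nat_lit 292) (nat_lit 272) (nat_lit 216)) (XT.lf (nat_lit 0) (nat_lit 1652428357)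 (nat_lit 228) (nat_lit 9971238268) (nat_lit 76) (nat_lit 14986643135) (nat_lit 43) (nat_lit 5) (nat_lit 46) (nat_lit 5) (nat_lit 44) (nat_lit 5) (nat_lit 293) (nat_lit 272) (nat_lit 215)))))) (XT.nd (nat_lit 390) (nat_lit 684) (nat_lit 0) (XT.nd (nat_lit 156) (nat_lit 380) (nat_lit 0) (XT.nd (nat_lit 78) (nat_lit 152) (nat_lit 0) (XT.lf (nat_lit 0) (nat_lit 9310531640) (nat_lit 304) (nat_lit 16585296681) (nat_lit 76) (nat_lit 2112773639) (nat_lit 40) (nat_lit 5) (nat_lit 44) (nat_lit 5) (nat_lit 41) (nat_lit 5) (nat_lit 294) (nat_lit 272) (nat_lit 214)) (XT.lf (nat_lit 0) (nat_lit 5307010991) (nat_lit 152) (nat_lit 12703618586) (nat_lit 228) (nat_lit 11486687147) (nat_lit 38) (nat_lit 5) (nat_lit 40) (nat_lit 5) (nat_lit 41) (nat_lit 5) (nat_lit 295) (nat_lit 272) (nat_lit 213))) (XT.nd (nat_lit 78) (nat_lit 380) (nat_lit 0) (XT.lf (nat_lit 0) (nat_lit 27699573177) (nat_lit 228) (nat_lit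 1615322502) (nat_lit 76) (nat_lit 1775615644) (nat_lit 38) (nat_lit 5) (nat_lit 41) (nat_lit 5) (nat_lit 39) (nat_lit 5) (nat_lit 296) (nat_lit 272) (nat_lit 212)) (XT.nd (nat_lit 78) (nat_lit 152) (nat_lit 0) (XT.lf (nat_lit 0) (nat_lit 5744519610) (nat_lit 228) (nat_lit 9616088725) (nat_lit 76) (nat_lit 17418228379) (nat_lit 35) (nat_lit 5) (nat_lit 38) (nat_lit 5) (nat_lit 36) (nat_lit 5) (nat_lit 297) (nat_lit 272) (nat_lit 211)) (XT.lf (nat_lit 0) (nat_lit 15747217385) (nat_lit 228) (nat_lit 18794796715) (nat_lit 76) (nat_lit 44694352) (nat_lit 33) (nat_lit 5) (nat_lit 36) (nat_lit 5) (nat_lit 34) (nat_lit 5) (nat_lit 298) (nat_lit 272) (nat_lit 210))))) (XT.nd (nat_lit 234) (nat_lit 304) (nat_lit 0) (XT.nd (nat_lit 78) (nat_lit 228) (nat_lit 0) (XT.lf (nat_lit 0) (nat_lit 6972061033) (nat_lit 152) (nat_lit 20094844545) (nat_lit 228) (nat_lit 9446484178) (nat_lit 31) (nat_lit 5) (nat_lit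 33) (nat_lit 5) (nat_lit 34) (nat_lit 5) (nat_lit 299) (nat_lit 272) (nat_lit 209)) (XT.nd (nat_lit 78) (nat_lit 152) (nat_lit 0) (XT.lf (nat_lit 0) (nat_lit 987762973) (nat_lit 228) (nat_lit 3156317719) (nat_lit 76) (nat_lit 34433989432) (nat_lit 30) (nat_lit 5) (nat_lit 33) (nat_lit 5) (nat_lit 31) (nat_lit 5) (nat_lit 300) (nat_lit 272) (nat_lit 208)) (XT.lf (nat_lit 0) (nat_lit 12530082753) (nat_lit 228) (nat_lit 15013378472) (nat_lit 76) (nat_lit 13226521246) (nat_lit 28) (nat_lit 5) (nat_lit 31) (nat_lit 5) (nat_lit 29) (nat_lit 5) (nat_lit 301) (nat_lit 272) (nat_lit 207)))) (XT.nd (nat_lit 78) (nat_lit 152) (nat_lit 0) (XT.lf (nat_lit 0) (nat_lit 14317715179) (nat_lit 152) (nat_lit 11009045061) (nat_lit 228) (nat_lit 17793952991) (nat_lit 26) (nat_lit 5) (nat_lit 28) (nat_lit 5) (nat_lit 29) (nat_lit 5) (nat_lit 302) (nat_lit 272) (nat_lit 206)) (XT.nd (nat_lit 78) (nat_lit 76)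 (nat_lit 0) (XT.lf (nat_lit 0) (nat_lit 768475172) (nat_lit 76) (nat_lit 38745814755) (nat_lit 152) (nat_lit 6126869612) (nat_lit 25) (nat_lit 5) (nat_lit 26) (nat_lit 5) (nat_lit 27) (nat_lit 4) (nat_lit 303) (nat_lit 272) (nat_lit 205)) (XT.lf (nat_lit 0) (nat_lit 6944935132) (nat_lit 152) (nat_lit 14928054584) (nat_lit 76) (nat_lit 26451282270) (nat_lit 24) (nat_lit 5) (nat_lit 26) (nat_lit 5) (nat_lit 25) (nat_lit 5) (nat_lit 304) (nat_lit 272) (nat_lit 204))))))) (XT.nd (nat_lit 858) (nat_lit 532) (nat_lit 0) (XT.nd (nat_lit 390) (nat_lit 304) (nat_lit 0) (XT.nd (nat_lit 156) (nat_lit 304) (nat_lit 0) (XT.nd (nat_lit 78) (nat_lit 0) (nat_lit 0) (XT.lf (nat_lit 0) (nat_lit 17853228776) (nat_lit 152) (nat_lit 3260432891) (nat_lit 228) (nat_lit 30090068691) (nat_lit 22) (nat_lit 5) (nat_lit 24) (nat_lit 5) (nat_lit 25) (nat_lit 5) (nat_lit 305) (nat_lit 272) (nat_lit 203)) (XT.lf (nat_lit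 0) (nat_lit 36927943764) (nat_lit 228) (nat_lit 804091091) (nat_lit 76) (nat_lit 16555917493) (nat_lit 22) (nat_lit 5) (nat_lit 25) (nat_lit 5) (nat_lit 23) (nat_lit 4) (nat_lit 306) (nat_lit 272) (nat_lit 202))) (XT.nd (nat_lit 78) (nat_lit 228) (nat_lit 0) (XT.lf (nat_lit 0) (nat_lit 35399583262) (nat_lit 76) (nat_lit 19201393391) (nat_lit 152) (nat_lit 2988264125) (nat_lit 21) (nat_lit 5) (nat_lit 22) (nat_lit 5) (nat_lit 23) (nat_lit 4) (nat_lit 307) (nat_lit 272) (nat_lit 201)) (XT.nd (nat_lit 78) (nat_lit 0) (nat_lit 0) (XT.lf (nat_lit 0) (nat_lit 12364309895) (nat_lit 228) (nat_lit 47564148364) (nat_lit 76) (nat_lit 1204786543) (nat_lit 18) (nat_lit 5) (nat_lit 21) (nat_lit 5) (nat_lit 19) (nat_lit 4) (nat_lit 308) (nat_lit 272) (nat_lit 200)) (XT.lf (nat_lit 0) (nat_lit 29545321777) (nat_lit 228) (nat_lit 12364338516) (nat_lit 76) (nat_lit 23013420576) (nat_lit 18) (nat_lit 5)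 (nat_lit 21) (nat_lit 5) (nat_lit 19) (nat_lit 4) (nat_lit 309) (nat_lit 272) (nat_lit 199))))) (XT.nd (nat_lit 234) (nat_lit 76) (nat_lit 0) (XT.nd (nat_lit 78) (nat_lit 152) (nat_lit 0) (XT.lf (nat_lit 0) (nat_lit 26477285960) (nat_lit 76) (nat_lit 22024774274) (nat_lit 152) (nat_lit 20493988180) (nat_lit 17) (nat_lit 5) (nat_lit 18) (nat_lit 5) (nat_lit 19) (nat_lit 4) (nat_lit 310) (nat_lit 272) (nat_lit 198)) (XT.nd (nat_lit 78) (nat_lit 152) (nat_lit 0) (XT.lf (nat_lit 0) (nat_lit 68847097357) (nat_lit 76) (nat_lit 332056675) (nat_lit 152) (nat_lit 4205514883) (nat_lit 17) (nat_lit 5) (nat_lit 18) (nat_lit 5) (nat_lit 19) (nat_lit 4) (nat_lit 311) (nat_lit 272) (nat_lit 197)) (XT.lf (nat_lit 0) (nat_lit 13904919943) (nat_lit 152) (nat_lit 41006389223) (nat_lit 76) (nat_lit 23155259805) (nat_lit 15) (nat_lit 5) (nat_lit 17) (nat_lit 5) (nat_lit 16) (nat_lit 4) (nat_lit 312) (nat_lit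 272) (nat_lit 196)))) (XT.nd (nat_lit 78) (nat_lit 76) (nat_lit 0) (XT.lf (nat_lit 0) (nat_lit 33394253588) (nat_lit 152) (nat_lit 1068141013) (nat_lit 76) (nat_lit 48653314247) (nat_lit 15) (nat_lit 5) (nat_lit 17) (nat_lit 5) (nat_lit 16) (nat_lit 4) (nat_lit 313) (nat_lit 272) (nat_lit 195)) (XT.nd (nat_lit 78) (nat_lit 0) (nat_lit 0) (XT.lf (nat_lit 0) (nat_lit 43437808449) (nat_lit 76) (nat_lit 11673387858) (nat_lit 152) (nat_lit 33424165300) (nat_lit 14) (nat_lit 5) (nat_lit 15) (nat_lit 5) (nat_lit 16) (nat_lit 4) (nat_lit 314) (nat_lit 272) (nat_lit 194)) (XT.lf (nat_lit 0) (nat_lit 78777030304) (nat_lit 152) (nat_lit 3064816616) (nat_lit 0) (nat_lit 12536167330) (nat_lit 14) (nat_lit 5) (nat_lit 16) (nat_lit 4) (nat_lit 14) (nat_lit 4) (nat_lit 315) (nat_lit 272) (nat_lit 193)))))) (XT.nd (nat_lit 390) (nat_lit 228) (nat_lit 0) (XT.nd (nat_lit 156) (nat_lit 152) (nat_lit 0) (XT.nd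 (nat_lit 78) (nat_lit 0) (nat_lit 0) (XT.lf (nat_lit 0) (nat_lit 4412971246) (nat_lit 152) (nat_lit 57205526012) (nat_lit 76) (nat_lit 39022653972) (nat_lit 12) (nat_lit 5) (nat_lit 14) (nat_lit 5) (nat_lit 13) (nat_lit 4) (nat_lit 316) (nat_lit 272) (nat_lit 192)) (XT.lf (nat_lit 0) (nat_lit 25534605759) (nat_lit 152) (nat_lit 13916595715) (nat_lit 76) (nat_lit 67938696371) (nat_lit 12) (nat_lit 5) (nat_lit 14) (nat_lit 5) (nat_lit 13) (nat_lit 4) (nat_lit 317) (nat_lit 272) (nat_lit 191))) (XT.nd (nat_lit 78) (nat_lit 76) (nat_lit 0) (XT.lf (nat_lit 0) (nat_lit 33906276767) (nat_lit 76) (nat_lit 14961266091) (nat_lit 152) (nat_lit 65784926110) (nat_lit 11) (nat_lit 5) (nat_lit 12) (nat_lit 5) (nat_lit 13) (nat_lit 4) (nat_lit 318) (nat_lit 272) (nat_lit 190)) (XT.nd (nat_lit 78) (nat_lit 76) (nat_lit 0) (XT.lf (nat_lit 0) (nat_lit 74485328941) (nat_lit 152) (nat_lit 36629356466) (nat_lit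 0) (nat_lit 11360452792) (nat_lit 11) (nat_lit 5) (nat_lit 13) (nat_lit 4) (nat_lit 11) (nat_lit 4) (nat_lit 319) (nat_lit 272) (nat_lit 189)) (XT.lf (nat_lit 0) (nat_lit 11107050571) (nat_lit 76) (nat_lit 91464196091) (nat_lit 76) (nat_lit 28331441758) (nat_lit 10) (nat_lit 4) (nat_lit 11) (nat_lit 5) (nat_lit 11) (nat_lit 4) (nat_lit 320) (nat_lit 272) (nat_lit 188))))) (XT.nd (nat_lit 234) (nat_lit 76) (nat_lit 0) (XT.nd (nat_lit 78) (nat_lit 152) (nat_lit 0) (XT.lf (nat_lit 0) (nat_lit 63957961216) (nat_lit 76) (nat_lit 69577481412) (nat_lit 76) (nat_lit 6437432463) (nat_lit 10) (nat_lit 4) (nat_lit 11) (nat_lit 5) (nat_lit 11) (nat_lit 4) (nat_lit 321) (nat_lit 272) (nat_lit 187)) (XT.nd (nat_lit 78) (nat_lit 76) (nat_lit 0) (XT.lf (nat_lit 0) (nat_lit 16651065598) (nat_lit 152) (nat_lit 29012118744) (nat_lit 76) (nat_lit 104092374648) (nat_lit 9) (nat_lit 5) (nat_lit 11) (nat_lit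 5) (nat_lit 10) (nat_lit 4) (nat_lit 322) (nat_lit 272) (nat_lit 186)) (XT.lf (nat_lit 0) (nat_lit 22346736270) (nat_lit 76) (nat_lit 19360480046) (nat_lit 152) (nat_lit 118591061433) (nat_lit 8) (nat_lit 5) (nat_lit 9) (nat_lit 5) (nat_lit 10) (nat_lit 4) (nat_lit 323) (nat_lit 272) (nat_lit 185)))) (XT.nd (nat_lit 78) (nat_lit 76) (nat_lit 0) (XT.lf (nat_lit 0) (nat_lit 69417147270) (nat_lit 152) (nat_lit 92968940777) (nat_lit 0) (nat_lit 9265863574) (nat_lit 8) (nat_lit 5) (nat_lit 10) (nat_lit 4) (nat_lit 8) (nat_lit 4) (nat_lit 324) (nat_lit 272) (nat_lit 184)) (XT.nd (nat_lit 78) (nat_lit 76) (nat_lit 0) (XT.lf (nat_lit 0) (nat_lit 99665131965) (nat_lit 152) (nat_lit 44723984516) (nat_lit 0) (nat_lit 39508741831) (nat_lit 8) (nat_lit 5) (nat_lit 10) (nat_lit 4) (nat_lit 8) (nat_lit 4) (nat_lit 325) (nat_lit 272) (nat_lit 183)) (XT.lf (nat_lit 0) (nat_lit 7615229598) (nat_lit 76)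 (nat_lit 124831811845) (nat_lit 76) (nat_lit 64670693527) (nat_lit 7) (nat_lit 4) (nat_lit 8) (nat_lit 5) (nat_lit 8) (nat_lit 4) (nat_lit 326) (nat_lit 272) (nat_lit 182))))))))
noncomputable def xc72 : XT := (XT.nd (nat_lit 1638) (nat_lit 0) (nat_lit 0) (XT.nd (nat_lit 780) (nat_lit 152) (nat_lit 0) (XT.nd (nat_lit 390) (nat_lit 76) (nat_lit 0) (XT.nd (nat_lit 156) (nat_lit 152) (nat_lit 0) (XT.nd (nat_lit 78) (nat_lit 0) (nat_lit 0) (XT.lf (nat_lit 0) (nat_lit 65729980674) (nat_lit 76) (nat_lit 102895997614) (nat_lit 76) (nat_lit 42730501348) (nat_lit 7) (nat_lit 4) (nat_lit 8) (nat_lit 5) (nat_lit 8) (nat_lit 4) (nat_lit 327) (nat_lit 272) (nat_lit 181)) (XT.lf (nat_lit 0) (nat_lit 128485875514) (nat_lit 76) (nat_lit 79209106096) (nat_lit 76) (nat_lit 19039556175) (nat_lit 7) (nat_lit 4) (nat_lit 8) (nat_lit 5) (nat_lit 8) (nat_lit 4) (nat_lit 328) (nat_lit 272) (nat_lit 180))) (XT.nd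 (nat_lit 78) (nat_lit 76) (nat_lit 0) (XT.lf (nat_lit 0) (nat_lit 6333130869) (nat_lit 152) (nat_lit 47190385022) (nat_lit 76) (nat_lit 189814415396) (nat_lit 6) (nat_lit 5) (nat_lit 8) (nat_lit 5) (nat_lit 7) (nat_lit 4) (nat_lit 329) (nat_lit 272) (nat_lit 179)) (XT.nd (nat_lit 78) (nat_lit 0) (nat_lit 0) (XT.lf (nat_lit 0) (nat_lit 7876599575) (nat_lit 76) (nat_lit 25320170296) (nat_lit 152) (nat_lit 228050811904) (nat_lit 5) (nat_lit 5) (nat_lit 6) (nat_lit 5) (nat_lit 7) (nat_lit 4) (nat_lit 330) (nat_lit 272) (nat_lit 178)) (XT.lf (nat_lit 0) (nat_lit 63121659685) (nat_lit 152) (nat_lit 211615360531) (nat_lit 0) (nat_lit 5807377224) (nat_lit 5) (nat_lit 5) (nat_lit 7) (nat_lit 4) (nat_lit 5) (nat_lit 4) (nat_lit 331) (nat_lit 272) (nat_lit 177))))) (XT.nd (nat_lit 156) (nat_lit 76) (nat_lit 0) (XT.nd (nat_lit 78) (nat_lit 0) (nat_lit 0) (XT.lf (nat_lit 0) (nat_lit 95864167123) (nat_lit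 152) (nat_lit 166952563966) (nat_lit 0) (nat_lit 38547046988) (nat_lit 5) (nat_lit 5) (nat_lit 7) (nat_lit 4) (nat_lit 5) (nat_lit 4) (nat_lit 332) (nat_lit 272) (nat_lit 176)) (XT.lf (nat_lit 0) (nat_lit 131223003042) (nat_lit 152) (nat_lit 118722605262) (nat_lit 0) (nat_lit 73903255431) (nat_lit 5) (nat_lit 5) (nat_lit 7) (nat_lit 4) (nat_lit 5) (nat_lit 4) (nat_lit 333) (nat_lit 272) (nat_lit 175))) (XT.nd (nat_lit 78) (nat_lit 76) (nat_lit 0) (XT.lf (nat_lit 0) (nat_lit 169407701283) (nat_lit 152) (nat_lit 66639677256) (nat_lit 0) (nat_lit 112085520824) (nat_lit 5) (nat_lit 5) (nat_lit 7) (nat_lit 4) (nat_lit 5) (nat_lit 4) (nat_lit 334) (nat_lit 272) (nat_lit 174)) (XT.nd (nat_lit 78) (nat_lit 76) (nat_lit 0) (XT.lf (nat_lit 0) (nat_lit 210644541540) (nat_lit 152) (nat_lit 10395140377) (nat_lit 0) (nat_lit 153320108443) (nat_lit 5) (nat_lit 5) (nat_lit 7) (nat_lit 4) (nat_lit 5) (nat_lit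 4) (nat_lit 335) (nat_lit 272) (nat_lit 173)) (XT.lf (nat_lit 0) (nat_lit 52008916465) (nat_lit 76) (nat_lit 203980978749) (nat_lit 76) (nat_lit 146654459878) (nat_lit 4) (nat_lit 4) (nat_lit 5) (nat_lit 5) (nat_lit 5) (nat_lit 4) (nat_lit 336) (nat_lit 272) (nat_lit 172)))))) (XT.nd (nat_lit 390) (nat_lit 152) (nat_lit 0) (XT.nd (nat_lit 156) (nat_lit 0) (nat_lit 0) (XT.nd (nat_lit 78) (nat_lit 0) (nat_lit 0) (XT.lf (nat_lit 0) (nat_lit 119772054066) (nat_lit 76) (nat_lit 185369572168) (nat_lit 76) (nat_lit 128041122024) (nat_lit 4) (nat_lit 4) (nat_lit 5) (nat_lit 5) (nat_lit 5) (nat_lit 4) (nat_lit 337) (nat_lit 272) (nat_lit 171)) (XT.lf (nat_lit 0) (nat_lit 192952121474) (nat_lit 76) (nat_lit 165271219089) (nat_lit 76) (nat_lit 107940980728) (nat_lit 4) (nat_lit 4) (nat_lit 5) (nat_lit 5) (nat_lit 5) (nat_lit 4) (nat_lit 338) (nat_lit 272) (nat_lit 170))) (XT.nd (nat_lit 78) (nat_lit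 0) (nat_lit 0) (XT.lf (nat_lit 0) (nat_lit 271982778347) (nat_lit 76) (nat_lit 143566818160) (nat_lit 76) (nat_lit 86234924044) (nat_lit 4) (nat_lit 4) (nat_lit 5) (nat_lit 5) (nat_lit 5) (nat_lit 4) (nat_lit 339) (nat_lit 272) (nat_lit 169)) (XT.nd (nat_lit 78) (nat_lit 0) (nat_lit 0) (XT.lf (nat_lit 0) (nat_lit 357332354504) (nat_lit 76) (nat_lit 120127750709) (nat_lit 76) (nat_lit 62794323486) (nat_lit 4) (nat_lit 4) (nat_lit 5) (nat_lit 5) (nat_lit 5) (nat_lit 4) (nat_lit 340) (nat_lit 272) (nat_lit 168)) (XT.lf (nat_lit 0) (nat_lit 449506625211) (nat_lit 76) (nat_lit 94815118559) (nat_lit 76) (nat_lit 37480271792) (nat_lit 4) (nat_lit 4) (nat_lit 5) (nat_lit 5) (nat_lit 5) (nat_lit 4) (nat_lit 341) (nat_lit 272) (nat_lit 167))))) (XT.nd (nat_lit 234) (nat_lit 0) (nat_lit 0) (XT.nd (nat_lit 78) (nat_lit 152) (nat_lit 0) (XT.lf (nat_lit 0) (nat_lit 549051808368) (nat_lit 76) (nat_lit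 67478920926) (nat_lit 76) (nat_lit 10142759767) (nat_lit 4) (nat_lit 4) (nat_lit 5) (nat_lit 5) (nat_lit 5) (nat_lit 4) (nat_lit 342) (nat_lit 272) (nat_lit 166)) (XT.nd (nat_lit 78) (nat_lit 76) (nat_lit 0) (XT.lf (nat_lit 0) (nat_lit 18759924822) (nat_lit 152) (nat_lit 18879532302) (nat_lit 76) (nat_lit 637480168130) (nat_lit 3) (nat_lit 5) (nat_lit 5) (nat_lit 5) (nat_lit 4) (nat_lit 4) (nat_lit 343) (nat_lit 272) (nat_lit 165)) (XT.lf (nat_lit 0) (nat_lit 45855997700) (nat_lit 76) (nat_lit 4482784137) (nat_lit 152) (nat_lit 677058391633) (nat_lit 2) (nat_lit 5) (nat_lit 3) (nat_lit 5) (nat_lit 4) (nat_lit 4) (nat_lit 344) (nat_lit 272) (nat_lit 164)))) (XT.nd (nat_lit 78) (nat_lit 0) (nat_lit 0) (XT.lf (nat_lit 0) (nat_lit 85265964361) (nat_lit 152) (nat_lit 667892990125) (nat_lit 0) (nat_lit 30656870576) (nat_lit 2) (nat_lit 5) (nat_lit 4) (nat_lit 4) (nat_lit 2) (nat_lit 4) (nat_lit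 345) (nat_lit 272) (nat_lit 163)) (XT.nd (nat_lit 78) (nat_lit 0) (nat_lit 0) (XT.lf (nat_lit 0) (nat_lit 123061671566) (nat_lit 152) (nat_lit 653230922378) (nat_lit 0) (nat_lit 68451657669) (nat_lit 2) (nat_lit 5) (nat_lit 4) (nat_lit 4) (nat_lit 2) (nat_lit 4) (nat_lit 346) (nat_lit 272) (nat_lit 162)) (XT.lf (nat_lit 0) (nat_lit 163879889192) (nat_lit 152) (nat_lit 637398097378) (nat_lit 0) (nat_lit 109269023339) (nat_lit 2) (nat_lit 5) (nat_lit 4) (nat_lit 4) (nat_lit 2) (nat_lit 4) (nat_lit 347) (nat_lit 272) (nat_lit 161))))))) (XT.nd (nat_lit 35568) (nat_lit 0) (nat_lit 3344) (XT.nd (nat_lit 35100) (nat_lit 0) (nat_lit 5624) (XT.nd (nat_lit 34866) (nat_lit 0) (nat_lit 6992) (XT.nd (nat_lit 34788) (nat_lit 0) (nat_lit 6992) (XT.lf (nat_lit 0) (nat_lit 207962502971) (nat_lit 152) (nat_lit 620300690978) (nat_lit 0) (nat_lit 153350848271) (nat_lit 2) (nat_lit 5) (nat_lit 4) (nat_lit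 4) (nat_lit 2) (nat_lit 4) (nat_lit 348) (nat_lit 272) (nat_lit 160)) (XT.lf (nat_lit 0) (nat_lit 809728353) (nat_lit 0) (nat_lit 809728353) (nat_lit 684) (nat_lit 4112585757) (nat_lit 94) (nat_lit 5) (nat_lit 94) (nat_lit 3) (nat_lit 103) (nat_lit 3) (nat_lit 273) (nat_lit 273) (nat_lit 234))) (XT.nd (nat_lit 78) (nat_lit 0) (nat_lit 76) (XT.lf (nat_lit 0) (nat_lit 4249475292) (nat_lit 684) (nat_lit 1515144114) (nat_lit 760) (nat_lit 6112588775) (nat_lit 94) (nat_lit 5) (nat_lit 103) (nat_lit 3) (nat_lit 104) (nat_lit 5) (nat_lit 274) (nat_lit 273) (nat_lit 233)) (XT.nd (nat_lit 78) (nat_lit 0) (nat_lit 0) (XT.lf (nat_lit 0) (nat_lit 5445074274) (nat_lit 684) (nat_lit 4700524176) (nat_lit 760) (nat_lit 2172712290) (nat_lit 95) (nat_lit 5) (nat_lit 104) (nat_lit 5) (nat_lit 105) (nat_lit 5) (nat_lit 275) (nat_lit 273) (nat_lit 232)) (XT.lf (nat_lit 76) (nat_lit 4750345118) (nat_lit 0)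 (nat_lit 2112079541) (nat_lit 760) (nat_lit 5926100426) (nat_lit 96) (nat_lit 5) (nat_lit 95) (nat_lit 5) (nat_lit 105) (nat_lit 5) (nat_lit 276) (nat_lit 273) (nat_lit 231))))) (XT.nd (nat_lit 234) (nat_lit 1520) (nat_lit 0) (XT.nd (nat_lit 78) (nat_lit 0) (nat_lit 76) (XT.lf (nat_lit 76) (nat_lit 1736646376) (nat_lit 0) (nat_lit 6802262016) (nat_lit 760) (nat_lit 4750280136) (nat_lit 97) (nat_lit 5) (nat_lit 96) (nat_lit 5) (nat_lit 106) (nat_lit 5) (nat_lit 277) (nat_lit 273) (nat_lit 230)) (XT.nd (nat_lit 78) (nat_lit 0) (nat_lit 0) (XT.lf (nat_lit 0) (nat_lit 10493535052) (nat_lit 684) (nat_lit 1358384400) (nat_lit 760) (nat_lit 1970894770) (nat_lit 97) (nat_lit 5) (nat_lit 106) (nat_lit 5) (nat_lit 107) (nat_lit 5) (nat_lit 278) (nat_lit 273) (nat_lit 229)) (XT.lf (nat_lit 76) (nat_lit 9804661830) (nat_lit 0) (nat_lit 3009721639) (nat_lit 760) (nat_lit 1574356130) (nat_lit 98) (nat_lit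 5) (nat_lit 97) (nat_lit 5) (nat_lit 107) (nat_lit 5) (nat_lit 279) (nat_lit 273) (nat_lit 228)))) (XT.nd (nat_lit 78) (nat_lit 912) (nat_lit 0) (XT.lf (nat_lit 0) (nat_lit 494619664) (nat_lit 760) (nat_lit 8014133321) (nat_lit 76) (nat_lit 6481829015) (nat_lit 88) (nat_lit 5) (nat_lit 98) (nat_lit 5) (nat_lit 89) (nat_lit 5) (nat_lit 280) (nat_lit 273) (nat_lit 227)) (XT.nd (nat_lit 78) (nat_lit 380) (nat_lit 0) (XT.lf (nat_lit 0) (nat_lit 2835500846) (nat_lit 608) (nat_lit 11658961941) (nat_lit 76) (nat_lit 1136824750) (nat_lit 81) (nat_lit 5) (nat_lit 89) (nat_lit 5) (nat_lit 82) (nat_lit 5) (nat_lit 281) (nat_lit 273) (nat_lit 226)) (XT.lf (nat_lit 0) (nat_lit 717767454) (nat_lit 380) (nat_lit 4893900010) (nat_lit 456) (nat_lit 10699258581) (nat_lit 76) (nat_lit 5) (nat_lit 81) (nat_lit 5) (nat_lit 82) (nat_lit 5) (nat_lit 282) (nat_lit 273) (nat_lit 225)))))) (XT.nd (nat_lit 390)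 (nat_lit 988) (nat_lit 0) (XT.nd (nat_lit 156) (nat_lit 988) (nat_lit 0) (XT.nd (nat_lit 78) (nat_lit 304) (nat_lit 0) (XT.lf (nat_lit 0) (nat_lit 8856173731) (nat_lit 456) (nat_lit 2669990387) (nat_lit 76) (nat_lit 5506530747) (nat_lit 76) (nat_lit 5) (nat_lit 82) (nat_lit 5) (nat_lit 77) (nat_lit 5) (nat_lit 283) (nat_lit 273) (nat_lit 224)) (XT.lf (nat_lit 0) (nat_lit 11529664480) (nat_lit 304) (nat_lit 1050837806) (nat_lit 380) (nat_lit 5220756066) (nat_lit 72) (nat_lit 5) (nat_lit 76) (nat_lit 5) (nat_lit 77) (nat_lit 5) (nat_lit 284) (nat_lit 273) (nat_lit 223))) (XT.nd (nat_lit 78) (nat_lit 684) (nat_lit 0) (XT.lf (nat_lit 0) (nat_lit 8395392060) (nat_lit 304) (nat_lit 8506132573) (nat_lit 380) (nat_lit 1714906251) (nat_lit 68) (nat_lit 5) (nat_lit 72) (nat_lit 5) (nat_lit 73) (nat_lit 5) (nat_lit 285) (nat_lit 273) (nat_lit 222)) (XT.nd (nat_lit 78) (nat_lit 304) (nat_lit 0) (XT.lf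 (nat_lit 0) (nat_lit 2218917440) (nat_lit 380) (nat_lit 14497218532) (nat_lit 76) (nat_lit 2768428114) (nat_lit 63) (nat_lit 5) (nat_lit 68) (nat_lit 5) (nat_lit 64) (nat_lit 5) (nat_lit 286) (nat_lit 273) (nat_lit 221)) (XT.lf (nat_lit 0) (nat_lit 1183495169) (nat_lit 304) (nat_lit 5531435239) (nat_lit 380) (nat_lit 13690483693) (nat_lit 59) (nat_lit 5) (nat_lit 63) (nat_lit 5) (nat_lit 64) (nat_lit 5) (nat_lit 287) (nat_lit 273) (nat_lit 220))))) (XT.nd (nat_lit 234) (nat_lit 456) (nat_lit 0) (XT.nd (nat_lit 78) (nat_lit 532) (nat_lit 0) (XT.lf (nat_lit 0) (nat_lit 11895337015) (nat_lit 380) (nat_lit 2900342566) (nat_lit 76) (nat_lit 6588063285) (nat_lit 59) (nat_lit 5) (nat_lit 64) (nat_lit 5) (nat_lit 60) (nat_lit 5) (nat_lit 288) (nat_lit 273) (nat_lit 219)) (XT.nd (nat_lit 78) (nat_lit 304) (nat_lit 0) (XT.lf (nat_lit 0) (nat_lit 15076394444) (nat_lit 228) (nat_lit 2710776625) (nat_lit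 304) (nat_lit 4638360057) (nat_lit 56) (nat_lit 5) (nat_lit 59) (nat_lit 5) (nat_lit 60) (nat_lit 5) (nat_lit 289) (nat_lit 273) (nat_lit 218)) (XT.lf (nat_lit 0) (nat_lit 944002184) (nat_lit 304) (nat_lit 12344547006) (nat_lit 76) (nat_lit 10243507653) (nat_lit 52) (nat_lit 5) (nat_lit 56) (nat_lit 5) (nat_lit 53) (nat_lit 5) (nat_lit 290) (nat_lit 273) (nat_lit 217)))) (XT.nd (nat_lit 78) (nat_lit 228) (nat_lit 0) (XT.lf (nat_lit 0) (nat_lit 6801714448) (nat_lit 228) (nat_lit 264020391) (nat_lit 304) (nat_lit 17644838557) (nat_lit 49) (nat_lit 5) (nat_lit 52) (nat_lit 5) (nat_lit 53) (nat_lit 5) (nat_lit 291) (nat_lit 273) (nat_lit 216)) (XT.nd (nat_lit 78) (nat_lit 0) (nat_lit 0) (XT.lf (nat_lit 0) (nat_lit 1746406824) (nat_lit 228) (nat_lit 12364625632) (nat_lit 304) (nat_lit 11850679966) (nat_lit 46) (nat_lit 5) (nat_lit 49) (nat_lit 5) (nat_lit 50) (nat_lit 5) (nat_lit 292) (nat_lit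 273) (nat_lit 215)) (XT.lf (nat_lit 0) (nat_lit 22034652574) (nat_lit 304) (nat_lit 3750510323) (nat_lit 76) (nat_lit 1512074798) (nat_lit 46) (nat_lit 5) (nat_lit 50) (nat_lit 5) (nat_lit 47) (nat_lit 5) (nat_lit 293) (nat_lit 273) (nat_lit 214))))))))
noncomputable def xc73 : XT := (XT.nd (nat_lit 1638) (nat_lit 760) (nat_lit 0) (XT.nd (nat_lit 780) (nat_lit 836) (nat_lit 0) (XT.nd (nat_lit 390) (nat_lit 684) (nat_lit 0) (XT.nd (nat_lit 156) (nat_lit 380) (nat_lit 0) (XT.nd (nat_lit 78) (nat_lit 228) (nat_lit 0) (XT.lf (nat_lit 0) (nat_lit 2277342591) (nat_lit 228) (nat_lit 10045882006) (nat_lit 76) (nat_lit 16390756785) (nat_lit 43) (nat_lit 5) (nat_lit 46) (nat_lit 5) (nat_lit 44) (nat_lit 5) (nat_lit 294) (nat_lit 273) (nat_lit 213)) (XT.lf (nat_lit 0) (nat_lit 10525901497) (nat_lit 304) (nat_lit 17200165135) (nat_lit 76) (nat_lit 2499218265) (nat_lit 40) (nat_lit 5) (nat_lit 44)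 (nat_lit 5) (nat_lit 41) (nat_lit 5) (nat_lit 295) (nat_lit 273) (nat_lit 212))) (XT.nd (nat_lit 78) (nat_lit 228) (nat_lit 0) (XT.lf (nat_lit 0) (nat_lit 6412586442) (nat_lit 152) (nat_lit 13485199498) (nat_lit 228) (nat_lit 11936557441) (nat_lit 38) (nat_lit 5) (nat_lit 40) (nat_lit 5) (nat_lit 41) (nat_lit 5) (nat_lit 296) (nat_lit 273) (nat_lit 211)) (XT.nd (nat_lit 78) (nat_lit 228) (nat_lit 0) (XT.lf (nat_lit 0) (nat_lit 30332178341) (nat_lit 228) (nat_lit 1096299418) (nat_lit 76) (nat_lit 2128031966) (nat_lit 38) (nat_lit 5) (nat_lit 41) (nat_lit 5) (nat_lit 39) (nat_lit 5) (nat_lit 297) (nat_lit 273) (nat_lit 210)) (XT.lf (nat_lit 0) (nat_lit 6606390339) (nat_lit 228) (nat_lit 9751634861) (nat_lit 76) (nat_lit 19022640966) (nat_lit 35) (nat_lit 5) (nat_lit 38) (nat_lit 5) (nat_lit 36) (nat_lit 5) (nat_lit 298) (nat_lit 273) (nat_lit 209))))) (XT.nd (nat_lit 156) (nat_lit 380) (nat_lit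 0) (XT.nd (nat_lit 78) (nat_lit 152) (nat_lit 0) (XT.lf (nat_lit 0) (nat_lit 17392468530) (nat_lit 228) (nat_lit 19676248045) (nat_lit 76) (nat_lit 265319656) (nat_lit 33) (nat_lit 5) (nat_lit 36) (nat_lit 5) (nat_lit 34) (nat_lit 5) (nat_lit 299) (nat_lit 273) (nat_lit 208)) (XT.lf (nat_lit 0) (nat_lit 8124921207) (nat_lit 152) (nat_lit 21473548065) (nat_lit 228) (nat_lit 9817370722) (nat_lit 31) (nat_lit 5) (nat_lit 33) (nat_lit 5) (nat_lit 34) (nat_lit 5) (nat_lit 300) (nat_lit 273) (nat_lit 207))) (XT.nd (nat_lit 78) (nat_lit 304) (nat_lit 0) (XT.lf (nat_lit 0) (nat_lit 1411705453) (nat_lit 228) (nat_lit 2846130614) (nat_lit 76) (nat_lit 37388959892) (nat_lit 30) (nat_lit 5) (nat_lit 33) (nat_lit 5) (nat_lit 31) (nat_lit 5) (nat_lit 301) (nat_lit 273) (nat_lit 206)) (XT.nd (nat_lit 78) (nat_lit 152) (nat_lit 0) (XT.lf (nat_lit 0) (nat_lit 13863550417) (nat_lit 228) (nat_lit 15662853898)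 (nat_lit 76) (nat_lit 14488370274) (nat_lit 28) (nat_lit 5) (nat_lit 31) (nat_lit 5) (nat_lit 29) (nat_lit 5) (nat_lit 302) (nat_lit 273) (nat_lit 205)) (XT.lf (nat_lit 0) (nat_lit 15990755605) (nat_lit 152) (nat_lit 11676921134) (nat_lit 228) (nat_lit 18886720109) (nat_lit 26) (nat_lit 5) (nat_lit 28) (nat_lit 5) (nat_lit 29) (nat_lit 5) (nat_lit 303) (nat_lit 273) (nat_lit 204)))))) (XT.nd (nat_lit 390) (nat_lit 456) (nat_lit 0) (XT.nd (nat_lit 156) (nat_lit 228) (nat_lit 0) (XT.nd (nat_lit 78) (nat_lit 76) (nat_lit 0) (XT.lf (nat_lit 0) (nat_lit 1346747064) (nat_lit 76) (nat_lit 41631290608) (nat_lit 152) (nat_lit 6299067127) (nat_lit 25) (nat_lit 5) (nat_lit 26) (nat_lit 5) (nat_lit 27) (nat_lit 4) (nat_lit 304) (nat_lit 273) (nat_lit 203)) (XT.lf (nat_lit 0) (nat_lit 7785507351) (nat_lit 152) (nat_lit 15634171860) (nat_lit 76) (nat_lit 28756094063) (nat_lit 24) (nat_lit 5) (nat_lit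 26) (nat_lit 5) (nat_lit 25) (nat_lit 5) (nat_lit 305) (nat_lit 273) (nat_lit 202))) (XT.nd (nat_lit 78) (nat_lit 76) (nat_lit 0) (XT.lf (nat_lit 0) (nat_lit 19748400760) (nat_lit 152) (nat_lit 3325511642) (nat_lit 228) (nat_lit 32212381086) (nat_lit 22) (nat_lit 5) (nat_lit 24) (nat_lit 5) (nat_lit 25) (nat_lit 5) (nat_lit 306) (nat_lit 273) (nat_lit 201)) (XT.nd (nat_lit 78) (nat_lit 76) (nat_lit 0) (XT.lf (nat_lit 0) (nat_lit 40136081210) (nat_lit 228) (nat_lit 426202932) (nat_lit 76) (nat_lit 18055845030) (nat_lit 22) (nat_lit 5) (nat_lit 25) (nat_lit 5) (nat_lit 23) (nat_lit 4) (nat_lit 307) (nat_lit 273) (nat_lit 200)) (XT.lf (nat_lit 0) (nat_lit 38654547225) (nat_lit 76) (nat_lit 20556206127) (nat_lit 152) (nat_lit 2973389661) (nat_lit 21) (nat_lit 5) (nat_lit 22) (nat_lit 5) (nat_lit 23) (nat_lit 4) (nat_lit 308) (nat_lit 273) (nat_lit 199))))) (XT.nd (nat_lit 234) (nat_lit 152)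 (nat_lit 0) (XT.nd (nat_lit 78) (nat_lit 76) (nat_lit 0) (XT.lf (nat_lit 0) (nat_lit 13590282130) (nat_lit 228) (nat_lit 50947703516) (nat_lit 76) (nat_lit 1473943243) (nat_lit 18) (nat_lit 5) (nat_lit 21) (nat_lit 5) (nat_lit 19) (nat_lit 4) (nat_lit 309) (nat_lit 273) (nat_lit 198)) (XT.nd (nat_lit 78) (nat_lit 76) (nat_lit 0) (XT.lf (nat_lit 0) (nat_lit 32128232189) (nat_lit 228) (nat_lit 12963136784) (nat_lit 76) (nat_lit 25014469941) (nat_lit 18) (nat_lit 5) (nat_lit 21) (nat_lit 5) (nat_lit 19) (nat_lit 4) (nat_lit 310) (nat_lit 273) (nat_lit 197)) (XT.lf (nat_lit 0) (nat_lit 28968853566) (nat_lit 76) (nat_lit 23622242430) (nat_lit 152) (nat_lit 21914077753) (nat_lit 17) (nat_lit 5) (nat_lit 18) (nat_lit 5) (nat_lit 19) (nat_lit 4) (nat_lit 311) (nat_lit 273) (nat_lit 196)))) (XT.nd (nat_lit 78) (nat_lit 152) (nat_lit 0) (XT.lf (nat_lit 0) (nat_lit 74700591747) (nat_lit 76) (nat_lit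 206293629) (nat_lit 152) (nat_lit 4338780628) (nat_lit 17) (nat_lit 5) (nat_lit 18) (nat_lit 5) (nat_lit 19) (nat_lit 4) (nat_lit 312) (nat_lit 273) (nat_lit 195)) (XT.nd (nat_lit 78) (nat_lit 0) (nat_lit 0) (XT.lf (nat_lit 0) (nat_lit 15207016077) (nat_lit 152) (nat_lit 43942755653) (nat_lit 76) (nat_lit 25152543740) (nat_lit 15) (nat_lit 5) (nat_lit 17) (nat_lit 5) (nat_lit 16) (nat_lit 4) (nat_lit 313) (nat_lit 273) (nat_lit 194)) (XT.lf (nat_lit 0) (nat_lit 36241444374) (nat_lit 152) (nat_lit 834939787) (nat_lit 76) (nat_lit 52679711933) (nat_lit 15) (nat_lit 5) (nat_lit 17) (nat_lit 5) (nat_lit 16) (nat_lit 4) (nat_lit 314) (nat_lit 273) (nat_lit 193))))))) (XT.nd (nat_lit 858) (nat_lit 228) (nat_lit 0) (XT.nd (nat_lit 390) (nat_lit 228) (nat_lit 0) (XT.nd (nat_lit 156) (nat_lit 228) (nat_lit 0) (XT.nd (nat_lit 78) (nat_lit 0) (nat_lit 0) (XT.lf (nat_lit 0) (nat_lit 47217637383) (nat_lit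 76) (nat_lit 12469852828) (nat_lit 152) (nat_lit 35922249917) (nat_lit 14) (nat_lit 5) (nat_lit 15) (nat_lit 5) (nat_lit 16) (nat_lit 4) (nat_lit 315) (nat_lit 273) (nat_lit 192)) (XT.lf (nat_lit 0) (nat_lit 85236177444) (nat_lit 152) (nat_lit 3021937713) (nat_lit 0) (nat_lit 13662216463) (nat_lit 14) (nat_lit 5) (nat_lit 16) (nat_lit 4) (nat_lit 14) (nat_lit 4) (nat_lit 316) (nat_lit 273) (nat_lit 191))) (XT.nd (nat_lit 78) (nat_lit 76) (nat_lit 0) (XT.lf (nat_lit 0) (nat_lit 4918187417) (nat_lit 152) (nat_lit 61501325347) (nat_lit 76) (nat_lit 42265255915) (nat_lit 12) (nat_lit 5) (nat_lit 14) (nat_lit 5) (nat_lit 13) (nat_lit 4) (nat_lit 317) (nat_lit 273) (nat_lit 190)) (XT.nd (nat_lit 78) (nat_lit 76) (nat_lit 0) (XT.lf (nat_lit 0) (nat_lit 27718280212) (nat_lit 152) (nat_lit 14770068978) (nat_lit 76) (nat_lit 73485634326) (nat_lit 12) (nat_lit 5) (nat_lit 14) (nat_lit 5) (nat_lit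 13) (nat_lit 4) (nat_lit 318) (nat_lit 273) (nat_lit 189)) (XT.lf (nat_lit 0) (nat_lit 36867340348) (nat_lit 76) (nat_lit 16043955191) (nat_lit 152) (nat_lit 70906597134) (nat_lit 11) (nat_lit 5) (nat_lit 12) (nat_lit 5) (nat_lit 13) (nat_lit 4) (nat_lit 319) (nat_lit 273) (nat_lit 188))))) (XT.nd (nat_lit 234) (nat_lit 152) (nat_lit 0) (XT.nd (nat_lit 78) (nat_lit 76) (nat_lit 0) (XT.lf (nat_lit 0) (nat_lit 80570203796) (nat_lit 152) (nat_lit 39324934540) (nat_lit 0) (nat_lit 12371656316) (nat_lit 11) (nat_lit 5) (nat_lit 13) (nat_lit 4) (nat_lit 11) (nat_lit 4) (nat_lit 320) (nat_lit 273) (nat_lit 187)) (XT.nd (nat_lit 78) (nat_lit 0) (nat_lit 0) (XT.lf (nat_lit 0) (nat_lit 12220182224) (nat_lit 76) (nat_lit 98676981913) (nat_lit 76) (nat_lit 30471680158) (nat_lit 10) (nat_lit 4) (nat_lit 11) (nat_lit 5) (nat_lit 11) (nat_lit 4) (nat_lit 321) (nat_lit 273) (nat_lit 186)) (XT.lf (nat_lit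 0) (nat_lit 69282531082) (nat_lit 76) (nat_lit 75047059679) (nat_lit 76) (nat_lit 6835503968) (nat_lit 10) (nat_lit 4) (nat_lit 11) (nat_lit 5) (nat_lit 11) (nat_lit 4) (nat_lit 322) (nat_lit 273) (nat_lit 185)))) (XT.nd (nat_lit 78) (nat_lit 76) (nat_lit 0) (XT.lf (nat_lit 0) (nat_lit 18087947905) (nat_lit 152) (nat_lit 31137053206) (nat_lit 76) (nat_lit 112505723300) (nat_lit 9) (nat_lit 5) (nat_lit 11) (nat_lit 5) (nat_lit 10) (nat_lit 4) (nat_lit 323) (nat_lit 273) (nat_lit 184)) (XT.nd (nat_lit 78) (nat_lit 0) (nat_lit 0) (XT.lf (nat_lit 0) (nat_lit 24321990766) (nat_lit 76) (nat_lit 20821764813) (nat_lit 152) (nat_lit 127973349768) (nat_lit 8) (nat_lit 5) (nat_lit 9) (nat_lit 5) (nat_lit 10) (nat_lit 4) (nat_lit 324) (nat_lit 273) (nat_lit 183)) (XT.lf (nat_lit 0) (nat_lit 75064342121) (nat_lit 152) (nat_lit 100229434503) (nat_lit 0) (nat_lit 10085606154) (nat_lit 8) (nat_lit 5)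 (nat_lit 10) (nat_lit 4) (nat_lit 8) (nat_lit 4) (nat_lit 325) (nat_lit 273) (nat_lit 182)))))) (XT.nd (nat_lit 390) (nat_lit 76) (nat_lit 0) (XT.nd (nat_lit 156) (nat_lit 76) (nat_lit 0) (XT.nd (nat_lit 78) (nat_lit 76) (nat_lit 0) (XT.lf (nat_lit 0) (nat_lit 107725215735) (nat_lit 152) (nat_lit 48137994447) (nat_lit 0) (nat_lit 42742101820) (nat_lit 8) (nat_lit 5) (nat_lit 10) (nat_lit 4) (nat_lit 8) (nat_lit 4) (nat_lit 326) (nat_lit 273) (nat_lit 181)) (XT.lf (nat_lit 0) (nat_lit 8381233518) (nat_lit 76) (nat_lit 134744457262) (nat_lit 76) (nat_lit 69757289692) (nat_lit 7) (nat_lit 4) (nat_lit 8) (nat_lit 5) (nat_lit 8) (nat_lit 4) (nat_lit 327) (nat_lit 273) (nat_lit 180))) (XT.nd (nat_lit 78) (nat_lit 76) (nat_lit 0) (XT.lf (nat_lit 0) (nat_lit 71133550935) (nat_lit 76) (nat_lit 111059251932) (nat_lit 76) (nat_lit 46068330978) (nat_lit 7) (nat_lit 4) (nat_lit 8) (nat_lit 5) (nat_lit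 8) (nat_lit 4) (nat_lit 328) (nat_lit 273) (nat_lit 179)) (XT.nd (nat_lit 78) (nat_lit 76) (nat_lit 0) (XT.lf (nat_lit 0) (nat_lit 138899163895) (nat_lit 76) (nat_lit 85482477648) (nat_lit 76) (nat_lit 20488081337) (nat_lit 7) (nat_lit 4) (nat_lit 8) (nat_lit 5) (nat_lit 8) (nat_lit 4) (nat_lit 329) (nat_lit 273) (nat_lit 178)) (XT.lf (nat_lit 0) (nat_lit 6906679864) (nat_lit 152) (nat_lit 50838920509) (nat_lit 76) (nat_lit 205055998570) (nat_lit 6) (nat_lit 5) (nat_lit 8) (nat_lit 5) (nat_lit 7) (nat_lit 4) (nat_lit 330) (nat_lit 273) (nat_lit 177))))) (XT.nd (nat_lit 234) (nat_lit 0) (nat_lit 0) (XT.nd (nat_lit 78) (nat_lit 0) (nat_lit 0) (XT.lf (nat_lit 0) (nat_lit 8627916831) (nat_lit 76) (nat_lit 27288429813) (nat_lit 152) (nat_lit 246227829617) (nat_lit 5) (nat_lit 5) (nat_lit 6) (nat_lit 5) (nat_lit 7) (nat_lit 4) (nat_lit 331) (nat_lit 273) (nat_lit 176)) (XT.nd (nat_lit 78) (nat_lit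 0) (nat_lit 0) (XT.lf (nat_lit 0) (nat_lit 68231328239) (nat_lit 152) (nat_lit 228430232070) (nat_lit 0) (nat_lit 6323373344) (nat_lit 5) (nat_lit 5) (nat_lit 7) (nat_lit 4) (nat_lit 5) (nat_lit 4) (nat_lit 332) (nat_lit 273) (nat_lit 175)) (XT.lf (nat_lit 0) (nat_lit 103588796585) (nat_lit 152) (nat_lit 180202882691) (nat_lit 0) (nat_lit 41678408841) (nat_lit 5) (nat_lit 5) (nat_lit 7) (nat_lit 4) (nat_lit 5) (nat_lit 4) (nat_lit 333) (nat_lit 273) (nat_lit 174)))) (XT.nd (nat_lit 78) (nat_lit 0) (nat_lit 0) (XT.lf (nat_lit 0) (nat_lit 141772228556) (nat_lit 152) (nat_lit 128122370727) (nat_lit 0) (nat_lit 79859588174) (nat_lit 5) (nat_lit 5) (nat_lit 7) (nat_lit 4) (nat_lit 5) (nat_lit 4) (nat_lit 334) (nat_lit 273) (nat_lit 173)) (XT.nd (nat_lit 78) (nat_lit 0) (nat_lit 0) (XT.lf (nat_lit 0) (nat_lit 183007896340) (nat_lit 152) (nat_lit 71880070922) (nat_lit 0) (nat_lit 121093170183)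 (nat_lit 5) (nat_lit 5) (nat_lit 7) (nat_lit 4) (nat_lit 5) (nat_lit 4) (nat_lit 335) (nat_lit 273) (nat_lit 172)) (XT.lf (nat_lit 0) (nat_lit 227540159450) (nat_lit 152) (nat_lit 11142695575) (nat_lit 0) (nat_lit 165623502021) (nat_lit 5) (nat_lit 5) (nat_lit 7) (nat_lit 4) (nat_lit 5) (nat_lit 4) (nat_lit 336) (nat_lit 273) (nat_lit 171))))))))
noncomputable def xc74 : XT := (XT.nd (nat_lit 36426) (nat_lit 0) (nat_lit 1824) (XT.nd (nat_lit 780) (nat_lit 0) (nat_lit 0) (XT.nd (nat_lit 390) (nat_lit 152) (nat_lit 0) (XT.nd (nat_lit 156) (nat_lit 0) (nat_lit 0) (XT.nd (nat_lit 78) (nat_lit 0) (nat_lit 0) (XT.lf (nat_lit 0) (nat_lit 56250032841) (nat_lit 76) (nat_lit 220261100591) (nat_lit 76) (nat_lit 158342654946) (nat_lit 4) (nat_lit 4) (nat_lit 5) (nat_lit 5) (nat_lit 5) (nat_lit 4) (nat_lit 337) (nat_lit 273) (nat_lit 170)) (XT.lf (nat_lit 0) (nat_lit 129428265669) (nat_lit 76) (nat_lit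 200163622703) (nat_lit 76) (nat_lit 138243521302) (nat_lit 4) (nat_lit 4) (nat_lit 5) (nat_lit 5) (nat_lit 5) (nat_lit 4) (nat_lit 338) (nat_lit 273) (nat_lit 169))) (XT.nd (nat_lit 78) (nat_lit 0) (nat_lit 0) (XT.lf (nat_lit 0) (nat_lit 208457223856) (nat_lit 76) (nat_lit 178460032136) (nat_lit 76) (nat_lit 116538397628) (nat_lit 4) (nat_lit 4) (nat_lit 5) (nat_lit 5) (nat_lit 5) (nat_lit 4) (nat_lit 339) (nat_lit 273) (nat_lit 168)) (XT.nd (nat_lit 78) (nat_lit 0) (nat_lit 0) (XT.lf (nat_lit 0) (nat_lit 293805227156) (nat_lit 76) (nat_lit 155021715020) (nat_lit 76) (nat_lit 93098660968) (nat_lit 4) (nat_lit 4) (nat_lit 5) (nat_lit 5) (nat_lit 5) (nat_lit 4) (nat_lit 340) (nat_lit 273) (nat_lit 167)) (XT.lf (nat_lit 0) (nat_lit 385978041513) (nat_lit 76) (nat_lit 129709777624) (nat_lit 76) (nat_lit 67785409181) (nat_lit 4) (nat_lit 4) (nat_lit 5) (nat_lit 5) (nat_lit 5) (nat_lit 4) (nat_lit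 341) (nat_lit 273) (nat_lit 166))))) (XT.nd (nat_lit 156) (nat_lit 152) (nat_lit 0) (XT.nd (nat_lit 78) (nat_lit 0) (nat_lit 0) (XT.lf (nat_lit 0) (nat_lit 485521876199) (nat_lit 76) (nat_lit 102374223283) (nat_lit 76) (nat_lit 40448637810) (nat_lit 4) (nat_lit 4) (nat_lit 5) (nat_lit 5) (nat_lit 5) (nat_lit 4) (nat_lit 342) (nat_lit 273) (nat_lit 165)) (XT.lf (nat_lit 0) (nat_lit 593026620603) (nat_lit 76) (nat_lit 72853063526) (nat_lit 76) (nat_lit 10926351173) (nat_lit 4) (nat_lit 4) (nat_lit 5) (nat_lit 5) (nat_lit 5) (nat_lit 4) (nat_lit 343) (nat_lit 273) (nat_lit 164))) (XT.nd (nat_lit 78) (nat_lit 76) (nat_lit 0) (XT.lf (nat_lit 0) (nat_lit 20285662013) (nat_lit 152) (nat_lit 20342148631) (nat_lit 76) (nat_lit 688500130362) (nat_lit 3) (nat_lit 5) (nat_lit 5) (nat_lit 5) (nat_lit 4) (nat_lit 4) (nat_lit 344) (nat_lit 273) (nat_lit 163)) (XT.nd (nat_lit 78) (nat_lit 0) (nat_lit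 0) (XT.lf (nat_lit 0) (nat_lit 49570148778) (nat_lit 76) (nat_lit 4819544224) (nat_lit 152) (nat_lit 731198057334) (nat_lit 2) (nat_lit 5) (nat_lit 3) (nat_lit 5) (nat_lit 4) (nat_lit 4) (nat_lit 345) (nat_lit 273) (nat_lit 162)) (XT.lf (nat_lit 0) (nat_lit 92109602579) (nat_lit 152) (nat_lit 721281348838) (nat_lit 0) (nat_lit 33129015502) (nat_lit 2) (nat_lit 5) (nat_lit 4) (nat_lit 4) (nat_lit 2) (nat_lit 4) (nat_lit 346) (nat_lit 273) (nat_lit 161)))))) (XT.nd (nat_lit 35178) (nat_lit 0) (nat_lit 6004) (XT.nd (nat_lit 34944) (nat_lit 0) (nat_lit 6992) (XT.nd (nat_lit 78) (nat_lit 0) (nat_lit 0) (XT.lf (nat_lit 0) (nat_lit 132927309985) (nat_lit 152) (nat_lit 705449506819) (nat_lit 0) (nat_lit 73945934061) (nat_lit 2) (nat_lit 5) (nat_lit 4) (nat_lit 4) (nat_lit 2) (nat_lit 4) (nat_lit 347) (nat_lit 273) (nat_lit 160)) (XT.lf (nat_lit 0) (nat_lit 177009451339) (nat_lit 152) (nat_lit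 688353010586) (nat_lit 0) (nat_lit 118027345001) (nat_lit 2) (nat_lit 5) (nat_lit 4) (nat_lit 4) (nat_lit 2) (nat_lit 4) (nat_lit 348) (nat_lit 273) (nat_lit 159))) (XT.nd (nat_lit 78) (nat_lit 0) (nat_lit 0) (XT.lf (nat_lit 0) (nat_lit 1256305669) (nat_lit 0) (nat_lit 1256305669) (nat_lit 684) (nat_lit 3638458167) (nat_lit 94) (nat_lit 5) (nat_lit 94) (nat_lit 3) (nat_lit 103) (nat_lit 3) (nat_lit 274) (nat_lit 274) (nat_lit 232)) (XT.nd (nat_lit 78) (nat_lit 0) (nat_lit 76) (XT.lf (nat_lit 0) (nat_lit 5992465061) (nat_lit 684) (nat_lit 845066094) (nat_lit 760) (nat_lit 5917190147) (nat_lit 94) (nat_lit 5) (nat_lit 103) (nat_lit 3) (nat_lit 104) (nat_lit 5) (nat_lit 275) (nat_lit 274) (nat_lit 231)) (XT.lf (nat_lit 0) (nat_lit 7182951230) (nat_lit 684) (nat_lit 4243143324) (nat_lit 760) (nat_lit 1810241620) (nat_lit 95) (nat_lit 5) (nat_lit 104) (nat_lit 5) (nat_lit 105) (nat_lit 5) (nat_lit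 276) (nat_lit 274) (nat_lit 230))))) (XT.nd (nat_lit 234) (nat_lit 1064) (nat_lit 0) (XT.nd (nat_lit 78) (nat_lit 0) (nat_lit 76) (XT.lf (nat_lit 76) (nat_lit 5927575976) (nat_lit 0) (nat_lit 2702095727) (nat_lit 760) (nat_lit 5118869147) (nat_lit 96) (nat_lit 5) (nat_lit 95) (nat_lit 5) (nat_lit 105) (nat_lit 5) (nat_lit 277) (nat_lit 274) (nat_lit 229)) (XT.nd (nat_lit 78) (nat_lit 0) (nat_lit 76) (XT.lf (nat_lit 76) (nat_lit 2704749393) (nat_lit 0) (nat_lit 7652142639) (nat_lit 760) (nat_lit 3936693967) (nat_lit 97) (nat_lit 5) (nat_lit 96) (nat_lit 5) (nat_lit 106) (nat_lit 5) (nat_lit 278) (nat_lit 274) (nat_lit 228)) (XT.lf (nat_lit 0) (nat_lit 12379405024) (nat_lit 684) (nat_lit 640497979) (nat_lit 760) (nat_lit 1854570644) (nat_lit 97) (nat_lit 5) (nat_lit 106) (nat_lit 5) (nat_lit 107) (nat_lit 5) (nat_lit 279) (nat_lit 274) (nat_lit 227)))) (XT.nd (nat_lit 78) (nat_lit 1216)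 (nat_lit 0) (XT.lf (nat_lit 76) (nat_lit 11379670782) (nat_lit 0) (nat_lit 3441084414) (nat_lit 760) (nat_lit 668312930) (nat_lit 98) (nat_lit 5) (nat_lit 97) (nat_lit 5) (nat_lit 107) (nat_lit 5) (nat_lit 280) (nat_lit 274) (nat_lit 226)) (XT.nd (nat_lit 78) (nat_lit 532) (nat_lit 0) (XT.lf (nat_lit 0) (nat_lit 1469170253) (nat_lit 760) (nat_lit 7815155327) (nat_lit 76) (nat_lit 6857246355) (nat_lit 88) (nat_lit 5) (nat_lit 98) (nat_lit 5) (nat_lit 89) (nat_lit 5) (nat_lit 281) (nat_lit 274) (nat_lit 225)) (XT.lf (nat_lit 0) (nat_lit 3939444678) (nat_lit 608) (nat_lit 11741605131) (nat_lit 76) (nat_lit 1155489642) (nat_lit 81) (nat_lit 5) (nat_lit 89) (nat_lit 5) (nat_lit 82) (nat_lit 5) (nat_lit 282) (nat_lit 274) (nat_lit 224))))))) (XT.nd (nat_lit 858) (nat_lit 1520) (nat_lit 0) (XT.nd (nat_lit 390) (nat_lit 1292) (nat_lit 0) (XT.nd (nat_lit 156) (nat_lit 988) (nat_lit 0) (XT.nd (nat_lit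 78) (nat_lit 0) (nat_lit 0) (XT.lf (nat_lit 0) (nat_lit 1588319445) (nat_lit 380) (nat_lit 5297109778) (nat_lit 456) (nat_lit 10687836986) (nat_lit 76) (nat_lit 5) (nat_lit 81) (nat_lit 5) (nat_lit 82) (nat_lit 5) (nat_lit 283) (nat_lit 274) (nat_lit 223)) (XT.lf (nat_lit 0) (nat_lit 10328228489) (nat_lit 456) (nat_lit 2091138554) (nat_lit 76) (nat_lit 5936568609) (nat_lit 76) (nat_lit 5) (nat_lit 82) (nat_lit 5) (nat_lit 77) (nat_lit 5) (nat_lit 284) (nat_lit 274) (nat_lit 222))) (XT.nd (nat_lit 78) (nat_lit 684) (nat_lit 0) (XT.lf (nat_lit 0) (nat_lit 13210049745) (nat_lit 304) (nat_lit 1095728212) (nat_lit 380) (nat_lit 4882531177) (nat_lit 72) (nat_lit 5) (nat_lit 76) (nat_lit 5) (nat_lit 77) (nat_lit 5) (nat_lit 285) (nat_lit 274) (nat_lit 221)) (XT.nd (nat_lit 78) (nat_lit 380) (nat_lit 0) (XT.lf (nat_lit 0) (nat_lit 9826947918) (nat_lit 304) (nat_lit 9104718002) (nat_lit 380) (nat_lit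 1139152441) (nat_lit 68) (nat_lit 5) (nat_lit 72) (nat_lit 5) (nat_lit 73) (nat_lit 5) (nat_lit 286) (nat_lit 274) (nat_lit 220)) (XT.lf (nat_lit 0) (nat_lit 3048687036) (nat_lit 380) (nat_lit 14875439676) (nat_lit 76) (nat_lit 3085684903) (nat_lit 63) (nat_lit 5) (nat_lit 68) (nat_lit 5) (nat_lit 64) (nat_lit 5) (nat_lit 287) (nat_lit 274) (nat_lit 219))))) (XT.nd (nat_lit 234) (nat_lit 760) (nat_lit 0) (XT.nd (nat_lit 78) (nat_lit 228) (nat_lit 0) (XT.lf (nat_lit 0) (nat_lit 2025765635) (nat_lit 304) (nat_lit 5841972122) (nat_lit 380) (nat_lit 14138491061) (nat_lit 59) (nat_lit 5) (nat_lit 63) (nat_lit 5) (nat_lit 64) (nat_lit 5) (nat_lit 288) (nat_lit 274) (nat_lit 218)) (XT.nd (nat_lit 78) (nat_lit 228) (nat_lit 0) (XT.lf (nat_lit 0) (nat_lit 13418883847) (nat_lit 380) (nat_lit 2412787825) (nat_lit 76) (nat_lit 7233398920) (nat_lit 59) (nat_lit 5) (nat_lit 64) (nat_lit 5) (nat_lit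 60) (nat_lit 5) (nat_lit 289) (nat_lit 274) (nat_lit 217)) (XT.lf (nat_lit 0) (nat_lit 16970815983) (nat_lit 228) (nat_lit 2779630656) (nat_lit 304) (nat_lit 4441393634) (nat_lit 56) (nat_lit 5) (nat_lit 59) (nat_lit 5) (nat_lit 60) (nat_lit 5) (nat_lit 290) (nat_lit 274) (nat_lit 216)))) (XT.nd (nat_lit 78) (nat_lit 456) (nat_lit 0) (XT.lf (nat_lit 0) (nat_lit 1541655498) (nat_lit 304) (nat_lit 12631498749) (nat_lit 76) (nat_lit 11214727111) (nat_lit 52) (nat_lit 5) (nat_lit 56) (nat_lit 5) (nat_lit 53) (nat_lit 5) (nat_lit 291) (nat_lit 274) (nat_lit 215)) (XT.nd (nat_lit 78) (nat_lit 228) (nat_lit 0) (XT.lf (nat_lit 0) (nat_lit 8016015877) (nat_lit 228) (nat_lit 108897502) (nat_lit 304) (nat_lit 18537223442) (nat_lit 49) (nat_lit 5) (nat_lit 52) (nat_lit 5) (nat_lit 53) (nat_lit 5) (nat_lit 292) (nat_lit 274) (nat_lit 214)) (XT.lf (nat_lit 0) (nat_lit 2548710737) (nat_lit 228) (nat_lit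 13161430171) (nat_lit 304) (nat_lit 12304454196) (nat_lit 46) (nat_lit 5) (nat_lit 49) (nat_lit 5) (nat_lit 50) (nat_lit 5) (nat_lit 293) (nat_lit 274) (nat_lit 213)))))) (XT.nd (nat_lit 390) (nat_lit 912) (nat_lit 0) (XT.nd (nat_lit 156) (nat_lit 380) (nat_lit 0) (XT.nd (nat_lit 78) (nat_lit 228) (nat_lit 0) (XT.lf (nat_lit 0) (nat_lit 24235599983) (nat_lit 304) (nat_lit 3417549006) (nat_lit 76) (nat_lit 1805456165) (nat_lit 46) (nat_lit 5) (nat_lit 50) (nat_lit 5) (nat_lit 47) (nat_lit 5) (nat_lit 294) (nat_lit 274) (nat_lit 212)) (XT.lf (nat_lit 0) (nat_lit 2881957953) (nat_lit 228) (nat_lit 10229649168) (nat_lit 76) (nat_lit 17877927992) (nat_lit 43) (nat_lit 5) (nat_lit 46) (nat_lit 5) (nat_lit 44) (nat_lit 5) (nat_lit 295) (nat_lit 274) (nat_lit 211))) (XT.nd (nat_lit 78) (nat_lit 152) (nat_lit 0) (XT.lf (nat_lit 0) (nat_lit 11771374960) (nat_lit 304) (nat_lit 17965791446) (nat_lit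 76) (nat_lit 2885560678) (nat_lit 40) (nat_lit 5) (nat_lit 44) (nat_lit 5) (nat_lit 41) (nat_lit 5) (nat_lit 296) (nat_lit 274) (nat_lit 210)) (XT.nd (nat_lit 78) (nat_lit 0) (nat_lit 0) (XT.lf (nat_lit 0) (nat_lit 7509453587) (nat_lit 152) (nat_lit 14362790684) (nat_lit 228) (nat_lit 12489334679) (nat_lit 38) (nat_lit 5) (nat_lit 40) (nat_lit 5) (nat_lit 41) (nat_lit 5) (nat_lit 297) (nat_lit 274) (nat_lit 209)) (XT.lf (nat_lit 0) (nat_lit 33115953663) (nat_lit 228) (nat_lit 628234439) (nat_lit 76) (nat_lit 2478630378) (nat_lit 38) (nat_lit 5) (nat_lit 41) (nat_lit 5) (nat_lit 39) (nat_lit 5) (nat_lit 298) (nat_lit 274) (nat_lit 208))))) (XT.nd (nat_lit 234) (nat_lit 380) (nat_lit 0) (XT.nd (nat_lit 78) (nat_lit 304) (nat_lit 0) (XT.lf (nat_lit 0) (nat_lit 7479816826) (nat_lit 228) (nat_lit 9988434921) (nat_lit 76) (nat_lit 20725311569) (nat_lit 35) (nat_lit 5) (nat_lit 38) (nat_lit 5)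 (nat_lit 36) (nat_lit 5) (nat_lit 299) (nat_lit 274) (nat_lit 207)) (XT.nd (nat_lit 78) (nat_lit 152) (nat_lit 0) (XT.lf (nat_lit 0) (nat_lit 19114347626) (nat_lit 228) (nat_lit 20716969624) (nat_lit 76) (nat_lit 472630409) (nat_lit 33) (nat_lit 5) (nat_lit 36) (nat_lit 5) (nat_lit 34) (nat_lit 5) (nat_lit 300) (nat_lit 274) (nat_lit 206)) (XT.lf (nat_lit 0) (nat_lit 9285113199) (nat_lit 152) (nat_lit 22995200735) (nat_lit 228) (nat_lit 10272828803) (nat_lit 31) (nat_lit 5) (nat_lit 33) (nat_lit 5) (nat_lit 34) (nat_lit 5) (nat_lit 301) (nat_lit 274) (nat_lit 205)))) (XT.nd (nat_lit 78) (nat_lit 304) (nat_lit 0) (XT.lf (nat_lit 0) (nat_lit 1820356432) (nat_lit 228) (nat_lit 2591402919) (nat_lit 76) (nat_lit 40551759901) (nat_lit 30) (nat_lit 5) (nat_lit 33) (nat_lit 5) (nat_lit 31) (nat_lit 5) (nat_lit 302) (nat_lit 274) (nat_lit 204)) (XT.nd (nat_lit 78) (nat_lit 152) (nat_lit 0) (XT.lf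 (nat_lit 0) (nat_lit 15256465934) (nat_lit 228) (nat_lit 16442978530) (nat_lit 76) (nat_lit 15822103243) (nat_lit 28) (nat_lit 5) (nat_lit 31) (nat_lit 5) (nat_lit 29) (nat_lit 5) (nat_lit 303) (nat_lit 274) (nat_lit 203)) (XT.lf (nat_lit 0) (nat_lit 17722367916) (nat_lit 152) (nat_lit 12428592372) (nat_lit 228) (nat_lit 20114093657) (nat_lit 26) (nat_lit 5) (nat_lit 28) (nat_lit 5) (nat_lit 29) (nat_lit 5) (nat_lit 304) (nat_lit 274) (nat_lit 202))))))))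
noncomputable def xc75 : XT := (XT.nd (nat_lit 1638) (nat_lit 456) (nat_lit 0) (XT.nd (nat_lit 780) (nat_lit 532) (nat_lit 0) (XT.nd (nat_lit 390) (nat_lit 456) (nat_lit 0) (XT.nd (nat_lit 156) (nat_lit 228) (nat_lit 0) (XT.nd (nat_lit 78) (nat_lit 76) (nat_lit 0) (XT.lf (nat_lit 0) (nat_lit 1897554283) (nat_lit 76) (nat_lit 44778161032) (nat_lit 152) (nat_lit 6530399859) (nat_lit 25) (nat_lit 5) (nat_lit 26) (nat_lit 5) (nat_lit 27) (nat_lit 4) (nat_lit 305) (nat_lit 274) (nat_lit 201)) (XT.lf (nat_lit 0) (nat_lit 8652670135) (nat_lit 152) (nat_lit 16466415305) (nat_lit 76) (nat_lit 31218369320) (nat_lit 24) (nat_lit 5) (nat_lit 26) (nat_lit 5) (nat_lit 25) (nat_lit 5) (nat_lit 306) (nat_lit 274) (nat_lit 200))) (XT.nd (nat_lit 78) (nat_lit 76) (nat_lit 0) (XT.lf (nat_lit 0) (nat_lit 21728576047) (nat_lit 152) (nat_lit 3423723459) (nat_lit 228) (nat_lit 34545121658) (nat_lit 22) (nat_lit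 5) (nat_lit 24) (nat_lit 5) (nat_lit 25) (nat_lit 5) (nat_lit 307) (nat_lit 274) (nat_lit 199)) (XT.nd (nat_lit 78) (nat_lit 76) (nat_lit 0) (XT.lf (nat_lit 0) (nat_lit 43564647700) (nat_lit 228) (nat_lit 81170697) (nat_lit 76) (nat_lit 19650736276) (nat_lit 22) (nat_lit 5) (nat_lit 25) (nat_lit 5) (nat_lit 23) (nat_lit 4) (nat_lit 308) (nat_lit 274) (nat_lit 198)) (XT.lf (nat_lit 0) (nat_lit 42109563011) (nat_lit 76) (nat_lit 22045268174) (nat_lit 152) (nat_lit 2993551992) (nat_lit 21) (nat_lit 5) (nat_lit 22) (nat_lit 5) (nat_lit 23) (nat_lit 4) (nat_lit 309) (nat_lit 274) (nat_lit 197))))) (XT.nd (nat_lit 156) (nat_lit 228) (nat_lit 0) (XT.nd (nat_lit 78) (nat_lit 0) (nat_lit 0) (XT.lf (nat_lit 0) (nat_lit 14880546061) (nat_lit 228) (nat_lit 54662085711) (nat_lit 76) (nat_lit 1739984369) (nat_lit 18) (nat_lit 5) (nat_lit 21) (nat_lit 5) (nat_lit 19) (nat_lit 4) (nat_lit 310) (nat_lit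 274) (nat_lit 196)) (XT.lf (nat_lit 0) (nat_lit 34886492024) (nat_lit 228) (nat_lit 13665526536) (nat_lit 76) (nat_lit 27152780931) (nat_lit 18) (nat_lit 5) (nat_lit 21) (nat_lit 5) (nat_lit 19) (nat_lit 4) (nat_lit 311) (nat_lit 274) (nat_lit 195))) (XT.nd (nat_lit 78) (nat_lit 152) (nat_lit 0) (XT.lf (nat_lit 0) (nat_lit 31606479075) (nat_lit 76) (nat_lit 25370977768) (nat_lit 152) (nat_lit 23479078561) (nat_lit 17) (nat_lit 5) (nat_lit 18) (nat_lit 5) (nat_lit 19) (nat_lit 4) (nat_lit 312) (nat_lit 274) (nat_lit 194)) (XT.nd (nat_lit 78) (nat_lit 152) (nat_lit 0) (XT.lf (nat_lit 0) (nat_lit 80973043924) (nat_lit 76) (nat_lit 92200772) (nat_lit 152) (nat_lit 4511692881) (nat_lit 17) (nat_lit 5) (nat_lit 18) (nat_lit 5) (nat_lit 19) (nat_lit 4) (nat_lit 313) (nat_lit 274) (nat_lit 193)) (XT.lf (nat_lit 0) (nat_lit 16586216714) (nat_lit 152) (nat_lit 47163127488) (nat_lit 76) (nat_lit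 27288944042) (nat_lit 15) (nat_lit 5) (nat_lit 17) (nat_lit 5) (nat_lit 16) (nat_lit 4) (nat_lit 314) (nat_lit 274) (nat_lit 192)))))) (XT.nd (nat_lit 390) (nat_lit 304) (nat_lit 0) (XT.nd (nat_lit 156) (nat_lit 152) (nat_lit 0) (XT.nd (nat_lit 78) (nat_lit 76) (nat_lit 0) (XT.lf (nat_lit 0) (nat_lit 39291351915) (nat_lit 152) (nat_lit 628541805) (nat_lit 76) (nat_lit 57009085927) (nat_lit 15) (nat_lit 5) (nat_lit 17) (nat_lit 5) (nat_lit 16) (nat_lit 4) (nat_lit 315) (nat_lit 274) (nat_lit 191)) (XT.lf (nat_lit 0) (nat_lit 51256368896) (nat_lit 76) (nat_lit 13349637507) (nat_lit 152) (nat_lit 38645268074) (nat_lit 14) (nat_lit 5) (nat_lit 15) (nat_lit 5) (nat_lit 16) (nat_lit 4) (nat_lit 316) (nat_lit 274) (nat_lit 190))) (XT.nd (nat_lit 78) (nat_lit 152) (nat_lit 0) (XT.lf (nat_lit 0) (nat_lit 92189660731) (nat_lit 152) (nat_lit 3016724081) (nat_lit 0) (nat_lit 14860779982) (nat_lit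 14) (nat_lit 5) (nat_lit 16) (nat_lit 4) (nat_lit 14) (nat_lit 4) (nat_lit 317) (nat_lit 274) (nat_lit 189)) (XT.nd (nat_lit 78) (nat_lit 0) (nat_lit 0) (XT.lf (nat_lit 0) (nat_lit 5442110921) (nat_lit 152) (nat_lit 66180825454) (nat_lit 76) (nat_lit 45750034022) (nat_lit 12) (nat_lit 5) (nat_lit 14) (nat_lit 5) (nat_lit 13) (nat_lit 4) (nat_lit 318) (nat_lit 274) (nat_lit 188)) (XT.lf (nat_lit 0) (nat_lit 30056546806) (nat_lit 152) (nat_lit 15728891236) (nat_lit 76) (nat_lit 79460371770) (nat_lit 12) (nat_lit 5) (nat_lit 14) (nat_lit 5) (nat_lit 13) (nat_lit 4) (nat_lit 319) (nat_lit 274) (nat_lit 187))))) (XT.nd (nat_lit 234) (nat_lit 152) (nat_lit 0) (XT.nd (nat_lit 78) (nat_lit 76) (nat_lit 0) (XT.lf (nat_lit 0) (nat_lit 40029828947) (nat_lit 76) (nat_lit 17229553064) (nat_lit 152) (nat_lit 76458134623) (nat_lit 11) (nat_lit 5) (nat_lit 12) (nat_lit 5) (nat_lit 13) (nat_lit 4) (nat_lit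 320) (nat_lit 274) (nat_lit 186)) (XT.nd (nat_lit 78) (nat_lit 76) (nat_lit 0) (XT.lf (nat_lit 0) (nat_lit 87123886407) (nat_lit 152) (nat_lit 42269651487) (nat_lit 0) (nat_lit 13449152282) (nat_lit 11) (nat_lit 5) (nat_lit 13) (nat_lit 4) (nat_lit 11) (nat_lit 4) (nat_lit 321) (nat_lit 274) (nat_lit 185)) (XT.lf (nat_lit 0) (nat_lit 13390327329) (nat_lit 76) (nat_lit 106481677275) (nat_lit 76) (nat_lit 32801152449) (nat_lit 10) (nat_lit 4) (nat_lit 11) (nat_lit 5) (nat_lit 11) (nat_lit 4) (nat_lit 322) (nat_lit 274) (nat_lit 184)))) (XT.nd (nat_lit 78) (nat_lit 152) (nat_lit 0) (XT.lf (nat_lit 0) (nat_lit 75003402575) (nat_lit 76) (nat_lit 80967988166) (nat_lit 76) (nat_lit 7282101579) (nat_lit 10) (nat_lit 4) (nat_lit 11) (nat_lit 5) (nat_lit 11) (nat_lit 4) (nat_lit 323) (nat_lit 274) (nat_lit 183)) (XT.nd (nat_lit 78) (nat_lit 76) (nat_lit 0) (XT.lf (nat_lit 0) (nat_lit 19624830324)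 (nat_lit 152) (nat_lit 33459949014) (nat_lit 76) (nat_lit 121579876877) (nat_lit 9) (nat_lit 5) (nat_lit 11) (nat_lit 5) (nat_lit 10) (nat_lit 4) (nat_lit 324) (nat_lit 274) (nat_lit 182)) (XT.lf (nat_lit 0) (nat_lit 26428514425) (nat_lit 76) (nat_lit 22412442867) (nat_lit 152) (nat_lit 138121200105) (nat_lit 8) (nat_lit 5) (nat_lit 9) (nat_lit 5) (nat_lit 10) (nat_lit 4) (nat_lit 325) (nat_lit 274) (nat_lit 181))))))) (XT.nd (nat_lit 858) (nat_lit 228) (nat_lit 0) (XT.nd (nat_lit 390) (nat_lit 152) (nat_lit 0) (XT.nd (nat_lit 156) (nat_lit 76) (nat_lit 0) (XT.nd (nat_lit 78) (nat_lit 0) (nat_lit 0) (XT.lf (nat_lit 0) (nat_lit 81149927650) (nat_lit 152) (nat_lit 108096021829) (nat_lit 0) (nat_lit 10959733019) (nat_lit 8) (nat_lit 5) (nat_lit 10) (nat_lit 4) (nat_lit 8) (nat_lit 4) (nat_lit 326) (nat_lit 274) (nat_lit 180)) (XT.lf (nat_lit 0) (nat_lit 116417712771) (nat_lit 152) (nat_lit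 51848508600) (nat_lit 0) (nat_lit 46223764755) (nat_lit 8) (nat_lit 5) (nat_lit 10) (nat_lit 4) (nat_lit 8) (nat_lit 4) (nat_lit 327) (nat_lit 274) (nat_lit 179))) (XT.nd (nat_lit 78) (nat_lit 0) (nat_lit 0) (XT.lf (nat_lit 0) (nat_lit 9186150539) (nat_lit 76) (nat_lit 145460656907) (nat_lit 76) (nat_lit 75263233535) (nat_lit 7) (nat_lit 4) (nat_lit 8) (nat_lit 5) (nat_lit 8) (nat_lit 4) (nat_lit 328) (nat_lit 274) (nat_lit 178)) (XT.nd (nat_lit 78) (nat_lit 0) (nat_lit 0) (XT.lf (nat_lit 0) (nat_lit 76948696436) (nat_lit 76) (nat_lit 119885328257) (nat_lit 76) (nat_lit 49684686963) (nat_lit 7) (nat_lit 4) (nat_lit 8) (nat_lit 5) (nat_lit 8) (nat_lit 4) (nat_lit 329) (nat_lit 274) (nat_lit 177)) (XT.lf (nat_lit 0) (nat_lit 150126339068) (nat_lit 76) (nat_lit 92266757499) (nat_lit 76) (nat_lit 22063136647) (nat_lit 7) (nat_lit 4) (nat_lit 8) (nat_lit 5) (nat_lit 8) (nat_lit 4) (nat_lit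 330) (nat_lit 274) (nat_lit 176))))) (XT.nd (nat_lit 234) (nat_lit 0) (nat_lit 0) (XT.nd (nat_lit 78) (nat_lit 76) (nat_lit 0) (XT.lf (nat_lit 0) (nat_lit 7516568957) (nat_lit 152) (nat_lit 54797413339) (nat_lit 76) (nat_lit 221508858035) (nat_lit 6) (nat_lit 5) (nat_lit 8) (nat_lit 5) (nat_lit 7) (nat_lit 4) (nat_lit 331) (nat_lit 274) (nat_lit 175)) (XT.nd (nat_lit 78) (nat_lit 0) (nat_lit 0) (XT.lf (nat_lit 0) (nat_lit 9422050461) (nat_lit 76) (nat_lit 29422332296) (nat_lit 152) (nat_lit 265868573785) (nat_lit 5) (nat_lit 5) (nat_lit 6) (nat_lit 5) (nat_lit 7) (nat_lit 4) (nat_lit 332) (nat_lit 274) (nat_lit 174)) (XT.lf (nat_lit 0) (nat_lit 73741219769) (nat_lit 152) (nat_lit 246606607680) (nat_lit 0) (nat_lit 6873315520) (nat_lit 5) (nat_lit 5) (nat_lit 7) (nat_lit 4) (nat_lit 5) (nat_lit 4) (nat_lit 333) (nat_lit 274) (nat_lit 173)))) (XT.nd (nat_lit 78) (nat_lit 0) (nat_lit 0) (XT.lf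 (nat_lit 0) (nat_lit 111923479266) (nat_lit 152) (nat_lit 194528332791) (nat_lit 0) (nat_lit 45053489243) (nat_lit 5) (nat_lit 5) (nat_lit 7) (nat_lit 4) (nat_lit 5) (nat_lit 4) (nat_lit 334) (nat_lit 274) (nat_lit 172)) (XT.nd (nat_lit 78) (nat_lit 0) (nat_lit 0) (XT.lf (nat_lit 0) (nat_lit 153158061427) (nat_lit 152) (nat_lit 138288104353) (nat_lit 0) (nat_lit 86286140130) (nat_lit 5) (nat_lit 5) (nat_lit 7) (nat_lit 4) (nat_lit 5) (nat_lit 4) (nat_lit 335) (nat_lit 274) (nat_lit 171)) (XT.lf (nat_lit 0) (nat_lit 197689319331) (nat_lit 152) (nat_lit 77552646937) (nat_lit 0) (nat_lit 130815609818) (nat_lit 5) (nat_lit 5) (nat_lit 7) (nat_lit 4) (nat_lit 5) (nat_lit 4) (nat_lit 336) (nat_lit 274) (nat_lit 170)))))) (XT.nd (nat_lit 390) (nat_lit 152) (nat_lit 0) (XT.nd (nat_lit 156) (nat_lit 0) (nat_lit 0) (XT.nd (nat_lit 78) (nat_lit 76) (nat_lit 0) (XT.lf (nat_lit 0) (nat_lit 245781141914)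 (nat_lit 152) (nat_lit 11962046721) (nat_lit 0) (nat_lit 178905776645) (nat_lit 5) (nat_lit 5) (nat_lit 7) (nat_lit 4) (nat_lit 5) (nat_lit 4) (nat_lit 337) (nat_lit 274) (nat_lit 169)) (XT.lf (nat_lit 0) (nat_lit 60818968133) (nat_lit 76) (nat_lit 237849104159) (nat_lit 76) (nat_lit 170972205783) (nat_lit 4) (nat_lit 4) (nat_lit 5) (nat_lit 5) (nat_lit 5) (nat_lit 4) (nat_lit 338) (nat_lit 274) (nat_lit 168))) (XT.nd (nat_lit 78) (nat_lit 0) (nat_lit 0) (XT.lf (nat_lit 0) (nat_lit 139846353463) (nat_lit 76) (nat_lit 216146263926) (nat_lit 76) (nat_lit 149267946007) (nat_lit 4) (nat_lit 4) (nat_lit 5) (nat_lit 5) (nat_lit 5) (nat_lit 4) (nat_lit 339) (nat_lit 274) (nat_lit 167)) (XT.nd (nat_lit 78) (nat_lit 0) (nat_lit 0) (XT.lf (nat_lit 0) (nat_lit 225192900414) (nat_lit 76) (nat_lit 192708641565) (nat_lit 76) (nat_lit 125829009254) (nat_lit 4) (nat_lit 4) (nat_lit 5) (nat_lit 5) (nat_lit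 5) (nat_lit 4) (nat_lit 340) (nat_lit 274) (nat_lit 166)) (XT.lf (nat_lit 0) (nat_lit 317364366300) (nat_lit 76) (nat_lit 167397347461) (nat_lit 76) (nat_lit 100516498120) (nat_lit 4) (nat_lit 4) (nat_lit 5) (nat_lit 5) (nat_lit 5) (nat_lit 4) (nat_lit 341) (nat_lit 274) (nat_lit 165))))) (XT.nd (nat_lit 234) (nat_lit 152) (nat_lit 0) (XT.nd (nat_lit 78) (nat_lit 0) (nat_lit 0) (XT.lf (nat_lit 0) (nat_lit 416906952400) (nat_lit 76) (nat_lit 140062388759) (nat_lit 76) (nat_lit 73180412539) (nat_lit 4) (nat_lit 4) (nat_lit 5) (nat_lit 5) (nat_lit 5) (nat_lit 4) (nat_lit 342) (nat_lit 274) (nat_lit 164)) (XT.nd (nat_lit 78) (nat_lit 0) (nat_lit 0) (XT.lf (nat_lit 0) (nat_lit 524410540708) (nat_lit 76) (nat_lit 110541780521) (nat_lit 76) (nat_lit 43658760894) (nat_lit 4) (nat_lit 4) (nat_lit 5) (nat_lit 5) (nat_lit 5) (nat_lit 4) (nat_lit 343) (nat_lit 274) (nat_lit 163)) (XT.lf (nat_lit 0)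 (nat_lit 640512189522) (nat_lit 76) (nat_lit 78660585807) (nat_lit 76) (nat_lit 11776600062) (nat_lit 4) (nat_lit 4) (nat_lit 5) (nat_lit 5) (nat_lit 5) (nat_lit 4) (nat_lit 344) (nat_lit 274) (nat_lit 162)))) (XT.nd (nat_lit 78) (nat_lit 76) (nat_lit 0) (XT.lf (nat_lit 0) (nat_lit 21929899753) (nat_lit 152) (nat_lit 21928585803) (nat_lit 76) (nat_lit 743598615399) (nat_lit 3) (nat_lit 5) (nat_lit 5) (nat_lit 5) (nat_lit 4) (nat_lit 4) (nat_lit 345) (nat_lit 274) (nat_lit 161)) (XT.nd (nat_lit 78) (nat_lit 0) (nat_lit 0) (XT.lf (nat_lit 0) (nat_lit 53574916426) (nat_lit 76) (nat_lit 5186364068) (nat_lit 152) (nat_lit 789672463624) (nat_lit 2) (nat_lit 5) (nat_lit 3) (nat_lit 5) (nat_lit 4) (nat_lit 4) (nat_lit 346) (nat_lit 274) (nat_lit 160)) (XT.lf (nat_lit 0) (nat_lit 99497541797) (nat_lit 152) (nat_lit 778946922163) (nat_lit 0) (nat_lit 35796136538) (nat_lit 2) (nat_lit 5) (nat_lit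 4) (nat_lit 4) (nat_lit 2) (nat_lit 4) (nat_lit 347) (nat_lit 274) (nat_lit 159))))))))
noncomputable def xc76 : XT := (XT.nd (nat_lit 1638) (nat_lit 2432) (nat_lit 0) (XT.nd (nat_lit 780) (nat_lit 2280) (nat_lit 0) (XT.nd (nat_lit 390) (nat_lit 1368) (nat_lit 0) (XT.nd (nat_lit 156) (nat_lit 0) (nat_lit 76) (XT.nd (nat_lit 78) (nat_lit 0) (nat_lit 0) (XT.lf (nat_lit 0) (nat_lit 1684141268) (nat_lit 0) (nat_lit 1684141268) (nat_lit 684) (nat_lit 3240976477) (nat_lit 94) (nat_lit 5) (nat_lit 94) (nat_lit 3) (nat_lit 103) (nat_lit 3) (nat_lit 275) (nat_lit 275) (nat_lit 230)) (XT.lf (nat_lit 0) (nat_lit 7674735847) (nat_lit 684) (nat_lit 234268133) (nat_lit 760) (nat_lit 5803797758) (nat_lit 94) (nat_lit 5) (nat_lit 103) (nat_lit 3) (nat_lit 104) (nat_lit 5) (nat_lit 276) (nat_lit 275) (nat_lit 229))) (XT.nd (nat_lit 78) (nat_lit 0) (nat_lit 0) (XT.lf (nat_lit 0) (nat_lit 8874074823) (nat_lit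 684) (nat_lit 3868069081) (nat_lit 760) (nat_lit 1495280725) (nat_lit 95) (nat_lit 5) (nat_lit 104) (nat_lit 5) (nat_lit 105) (nat_lit 5) (nat_lit 277) (nat_lit 275) (nat_lit 228)) (XT.nd (nat_lit 78) (nat_lit 0) (nat_lit 76) (XT.lf (nat_lit 76) (nat_lit 7085255346) (nat_lit 0) (nat_lit 3279245744) (nat_lit 760) (nat_lit 4429853890) (nat_lit 96) (nat_lit 5) (nat_lit 95) (nat_lit 5) (nat_lit 105) (nat_lit 5) (nat_lit 278) (nat_lit 275) (nat_lit 227)) (XT.lf (nat_lit 76) (nat_lit 3632010094) (nat_lit 0) (nat_lit 8526402238) (nat_lit 760) (nat_lit 3228302511) (nat_lit 97) (nat_lit 5) (nat_lit 96) (nat_lit 5) (nat_lit 106) (nat_lit 5) (nat_lit 279) (nat_lit 275) (nat_lit 226))))) (XT.nd (nat_lit 156) (nat_lit 836) (nat_lit 0) (XT.nd (nat_lit 78) (nat_lit 760) (nat_lit 0) (XT.lf (nat_lit 76) (nat_lit 17460581) (nat_lit 0) (nat_lit 14249677792) (nat_lit 760) (nat_lit 1750841166) (nat_lit 98)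 (nat_lit 5) (nat_lit 97) (nat_lit 5) (nat_lit 107) (nat_lit 5) (nat_lit 280) (nat_lit 275) (nat_lit 225)) (XT.lf (nat_lit 0) (nat_lit 157771921) (nat_lit 760) (nat_lit 3719323259) (nat_lit 836) (nat_lit 12807443519) (nat_lit 87) (nat_lit 5) (nat_lit 97) (nat_lit 5) (nat_lit 98) (nat_lit 5) (nat_lit 281) (nat_lit 275) (nat_lit 224))) (XT.nd (nat_lit 78) (nat_lit 912) (nat_lit 0) (XT.lf (nat_lit 0) (nat_lit 2388299394) (nat_lit 760) (nat_lit 7720109987) (nat_lit 76) (nat_lit 7283116033) (nat_lit 88) (nat_lit 5) (nat_lit 98) (nat_lit 5) (nat_lit 89) (nat_lit 5) (nat_lit 282) (nat_lit 275) (nat_lit 223)) (XT.nd (nat_lit 78) (nat_lit 380) (nat_lit 0) (XT.lf (nat_lit 0) (nat_lit 5006575359) (nat_lit 608) (nat_lit 11952132303) (nat_lit 76) (nat_lit 1185959430) (nat_lit 81) (nat_lit 5) (nat_lit 89) (nat_lit 5) (nat_lit 82) (nat_lit 5) (nat_lit 283) (nat_lit 275) (nat_lit 222)) (XT.lf (nat_lit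 0) (nat_lit 2412513426) (nat_lit 380) (nat_lit 5730907510) (nat_lit 456) (nat_lit 10799240589) (nat_lit 76) (nat_lit 5) (nat_lit 81) (nat_lit 5) (nat_lit 82) (nat_lit 5) (nat_lit 284) (nat_lit 275) (nat_lit 221)))))) (XT.nd (nat_lit 390) (nat_lit 988) (nat_lit 0) (XT.nd (nat_lit 156) (nat_lit 988) (nat_lit 0) (XT.nd (nat_lit 78) (nat_lit 304) (nat_lit 0) (XT.lf (nat_lit 0) (nat_lit 11809117134) (nat_lit 456) (nat_lit 1579030577) (nat_lit 76) (nat_lit 6402505245) (nat_lit 76) (nat_lit 5) (nat_lit 82) (nat_lit 5) (nat_lit 77) (nat_lit 5) (nat_lit 285) (nat_lit 275) (nat_lit 220)) (XT.lf (nat_lit 0) (nat_lit 14916726930) (nat_lit 304) (nat_lit 1149798833) (nat_lit 380) (nat_lit 4625083796) (nat_lit 72) (nat_lit 5) (nat_lit 76) (nat_lit 5) (nat_lit 77) (nat_lit 5) (nat_lit 286) (nat_lit 275) (nat_lit 219))) (XT.nd (nat_lit 78) (nat_lit 684) (nat_lit 0) (XT.lf (nat_lit 0) (nat_lit 11264616519)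 (nat_lit 304) (nat_lit 9762874954) (nat_lit 380) (nat_lit 619048088) (nat_lit 68) (nat_lit 5) (nat_lit 72) (nat_lit 5) (nat_lit 73) (nat_lit 5) (nat_lit 287) (nat_lit 275) (nat_lit 218)) (XT.nd (nat_lit 78) (nat_lit 304) (nat_lit 0) (XT.lf (nat_lit 0) (nat_lit 3851786561) (nat_lit 380) (nat_lit 15395416262) (nat_lit 76) (nat_lit 3414657784) (nat_lit 63) (nat_lit 5) (nat_lit 68) (nat_lit 5) (nat_lit 64) (nat_lit 5) (nat_lit 288) (nat_lit 275) (nat_lit 217)) (XT.lf (nat_lit 0) (nat_lit 2828765545) (nat_lit 304) (nat_lit 6196180083) (nat_lit 380) (nat_lit 14714673804) (nat_lit 59) (nat_lit 5) (nat_lit 63) (nat_lit 5) (nat_lit 64) (nat_lit 5) (nat_lit 289) (nat_lit 275) (nat_lit 216))))) (XT.nd (nat_lit 234) (nat_lit 456) (nat_lit 0) (XT.nd (nat_lit 78) (nat_lit 532) (nat_lit 0) (XT.lf (nat_lit 0) (nat_lit 14982723663) (nat_lit 380) (nat_lit 1988885142) (nat_lit 76) (nat_lit 7913485933) (nat_lit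 59) (nat_lit 5) (nat_lit 64) (nat_lit 5) (nat_lit 60) (nat_lit 5) (nat_lit 290) (nat_lit 275) (nat_lit 215)) (XT.nd (nat_lit 78) (nat_lit 304) (nat_lit 0) (XT.lf (nat_lit 0) (nat_lit 18918596131) (nat_lit 228) (nat_lit 2875108019) (nat_lit 304) (nat_lit 4309706472) (nat_lit 56) (nat_lit 5) (nat_lit 59) (nat_lit 5) (nat_lit 60) (nat_lit 5) (nat_lit 291) (nat_lit 275) (nat_lit 214)) (XT.lf (nat_lit 0) (nat_lit 2112632946) (nat_lit 304) (nat_lit 13041356768) (nat_lit 76) (nat_lit 12241996882) (nat_lit 52) (nat_lit 5) (nat_lit 56) (nat_lit 5) (nat_lit 53) (nat_lit 5) (nat_lit 292) (nat_lit 275) (nat_lit 213)))) (XT.nd (nat_lit 78) (nat_lit 228) (nat_lit 0) (XT.lf (nat_lit 0) (nat_lit 9198885930) (nat_lit 304) (nat_lit 19542100052) (nat_lit 76) (nat_lit 32420015) (nat_lit 49) (nat_lit 5) (nat_lit 53) (nat_lit 5) (nat_lit 50) (nat_lit 5) (nat_lit 293) (nat_lit 275) (nat_lit 212)) (XT.nd (nat_lit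 78) (nat_lit 0) (nat_lit 0) (XT.lf (nat_lit 0) (nat_lit 3320672897) (nat_lit 228) (nat_lit 14049422163) (nat_lit 304) (nat_lit 12865044957) (nat_lit 46) (nat_lit 5) (nat_lit 49) (nat_lit 5) (nat_lit 50) (nat_lit 5) (nat_lit 294) (nat_lit 275) (nat_lit 211)) (XT.lf (nat_lit 0) (nat_lit 26550112594) (nat_lit 304) (nat_lit 3148255617) (nat_lit 76) (nat_lit 2097711060) (nat_lit 46) (nat_lit 5) (nat_lit 50) (nat_lit 5) (nat_lit 47) (nat_lit 5) (nat_lit 295) (nat_lit 275) (nat_lit 210))))))) (XT.nd (nat_lit 858) (nat_lit 836) (nat_lit 0) (XT.nd (nat_lit 390) (nat_lit 760) (nat_lit 0) (XT.nd (nat_lit 156) (nat_lit 380) (nat_lit 0) (XT.nd (nat_lit 78) (nat_lit 228) (nat_lit 0) (XT.lf (nat_lit 0) (nat_lit 3474678473) (nat_lit 228) (nat_lit 10516553853) (nat_lit 76) (nat_lit 19458977273) (nat_lit 43) (nat_lit 5) (nat_lit 46) (nat_lit 5) (nat_lit 44) (nat_lit 5) (nat_lit 296) (nat_lit 275) (nat_lit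 209)) (XT.lf (nat_lit 0) (nat_lit 13058936588) (nat_lit 304) (nat_lit 18879746377) (nat_lit 76) (nat_lit 3276217734) (nat_lit 40) (nat_lit 5) (nat_lit 44) (nat_lit 5) (nat_lit 41) (nat_lit 5) (nat_lit 297) (nat_lit 275) (nat_lit 208))) (XT.nd (nat_lit 78) (nat_lit 228) (nat_lit 0) (XT.lf (nat_lit 0) (nat_lit 8610775914) (nat_lit 152) (nat_lit 15339296129) (nat_lit 228) (nat_lit 13143704912) (nat_lit 38) (nat_lit 5) (nat_lit 40) (nat_lit 5) (nat_lit 41) (nat_lit 5) (nat_lit 298) (nat_lit 275) (nat_lit 207)) (XT.nd (nat_lit 78) (nat_lit 228) (nat_lit 0) (XT.lf (nat_lit 0) (nat_lit 36071472287) (nat_lit 228) (nat_lit 202010912) (nat_lit 76) (nat_lit 2831546885) (nat_lit 38) (nat_lit 5) (nat_lit 41) (nat_lit 5) (nat_lit 39) (nat_lit 5) (nat_lit 299) (nat_lit 275) (nat_lit 206)) (XT.lf (nat_lit 0) (nat_lit 8373911415) (nat_lit 228) (nat_lit 10321691189) (nat_lit 76) (nat_lit 22538394216) (nat_lit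 35) (nat_lit 5) (nat_lit 38) (nat_lit 5) (nat_lit 36) (nat_lit 5) (nat_lit 300) (nat_lit 275) (nat_lit 205))))) (XT.nd (nat_lit 234) (nat_lit 380) (nat_lit 0) (XT.nd (nat_lit 78) (nat_lit 228) (nat_lit 0) (XT.lf (nat_lit 0) (nat_lit 20926830154) (nat_lit 228) (nat_lit 21917041302) (nat_lit 76) (nat_lit 669978892) (nat_lit 33) (nat_lit 5) (nat_lit 36) (nat_lit 5) (nat_lit 34) (nat_lit 5) (nat_lit 301) (nat_lit 275) (nat_lit 204)) (XT.nd (nat_lit 78) (nat_lit 76) (nat_lit 0) (XT.lf (nat_lit 0) (nat_lit 10465335059) (nat_lit 152) (nat_lit 24666580189) (nat_lit 228) (nat_lit 10811791959) (nat_lit 31) (nat_lit 5) (nat_lit 33) (nat_lit 5) (nat_lit 34) (nat_lit 5) (nat_lit 302) (nat_lit 275) (nat_lit 203)) (XT.lf (nat_lit 0) (nat_lit 2219512503) (nat_lit 228) (nat_lit 2385119350) (nat_lit 76) (nat_lit 43943091381) (nat_lit 30) (nat_lit 5) (nat_lit 33) (nat_lit 5) (nat_lit 31) (nat_lit 5) (nat_lit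 303) (nat_lit 275) (nat_lit 202)))) (XT.nd (nat_lit 78) (nat_lit 228) (nat_lit 0) (XT.lf (nat_lit 0) (nat_lit 16720322958) (nat_lit 228) (nat_lit 17352978129) (nat_lit 76) (nat_lit 17237617170) (nat_lit 28) (nat_lit 5) (nat_lit 31) (nat_lit 5) (nat_lit 29) (nat_lit 5) (nat_lit 304) (nat_lit 275) (nat_lit 201)) (XT.nd (nat_lit 78) (nat_lit 76) (nat_lit 0) (XT.lf (nat_lit 0) (nat_lit 19527976161) (nat_lit 152) (nat_lit 13266430471) (nat_lit 228) (nat_lit 21480110673) (nat_lit 26) (nat_lit 5) (nat_lit 28) (nat_lit 5) (nat_lit 29) (nat_lit 5) (nat_lit 305) (nat_lit 275) (nat_lit 200)) (XT.lf (nat_lit 0) (nat_lit 2429217554) (nat_lit 76) (nat_lit 48202978365) (nat_lit 152) (nat_lit 6819127597) (nat_lit 25) (nat_lit 5) (nat_lit 26) (nat_lit 5) (nat_lit 27) (nat_lit 4) (nat_lit 306) (nat_lit 275) (nat_lit 199)))))) (XT.nd (nat_lit 390) (nat_lit 304) (nat_lit 0) (XT.nd (nat_lit 156) (nat_lit 304)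 (nat_lit 0) (XT.nd (nat_lit 78) (nat_lit 152) (nat_lit 0) (XT.lf (nat_lit 0) (nat_lit 9554350649) (nat_lit 152) (nat_lit 17424940546) (nat_lit 76) (nat_lit 33854545769) (nat_lit 24) (nat_lit 5) (nat_lit 26) (nat_lit 5) (nat_lit 25) (nat_lit 5) (nat_lit 307) (nat_lit 275) (nat_lit 198)) (XT.lf (nat_lit 0) (nat_lit 23810057626) (nat_lit 152) (nat_lit 3553734920) (nat_lit 228) (nat_lit 37099326457) (nat_lit 22) (nat_lit 5) (nat_lit 24) (nat_lit 5) (nat_lit 25) (nat_lit 5) (nat_lit 308) (nat_lit 275) (nat_lit 197))) (XT.nd (nat_lit 78) (nat_lit 228) (nat_lit 0) (XT.lf (nat_lit 0) (nat_lit 245225963) (nat_lit 76) (nat_lit 46995047727) (nat_lit 152) (nat_lit 21110361908) (nat_lit 21) (nat_lit 5) (nat_lit 22) (nat_lit 5) (nat_lit 23) (nat_lit 4) (nat_lit 309) (nat_lit 275) (nat_lit 196)) (XT.nd (nat_lit 78) (nat_lit 228) (nat_lit 0) (XT.lf (nat_lit 0) (nat_lit 45789243696) (nat_lit 76) (nat_lit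 23675629645) (nat_lit 152) (nat_lit 3046385910) (nat_lit 21) (nat_lit 5) (nat_lit 22) (nat_lit 5) (nat_lit 23) (nat_lit 4) (nat_lit 310) (nat_lit 275) (nat_lit 195)) (XT.lf (nat_lit 0) (nat_lit 16245064987) (nat_lit 228) (nat_lit 58725181094) (nat_lit 76) (nat_lit 2006177002) (nat_lit 18) (nat_lit 5) (nat_lit 21) (nat_lit 5) (nat_lit 19) (nat_lit 4) (nat_lit 311) (nat_lit 275) (nat_lit 194))))) (XT.nd (nat_lit 234) (nat_lit 228) (nat_lit 0) (XT.nd (nat_lit 78) (nat_lit 76) (nat_lit 0) (XT.lf (nat_lit 0) (nat_lit 37838592165) (nat_lit 228) (nat_lit 14471850629) (nat_lit 76) (nat_lit 29442590335) (nat_lit 18) (nat_lit 5) (nat_lit 21) (nat_lit 5) (nat_lit 19) (nat_lit 4) (nat_lit 312) (nat_lit 275) (nat_lit 193)) (XT.nd (nat_lit 78) (nat_lit 0) (nat_lit 0) (XT.lf (nat_lit 0) (nat_lit 34409446323) (nat_lit 76) (nat_lit 27279733446) (nat_lit 152) (nat_lit 25196117626) (nat_lit 17) (nat_lit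 5) (nat_lit 18) (nat_lit 5) (nat_lit 19) (nat_lit 4) (nat_lit 313) (nat_lit 275) (nat_lit 192)) (XT.lf (nat_lit 0) (nat_lit 87692811745) (nat_lit 152) (nat_lit 4711093228) (nat_lit 0) (nat_lit 11991975) (nat_lit 17) (nat_lit 5) (nat_lit 19) (nat_lit 4) (nat_lit 17) (nat_lit 4) (nat_lit 314) (nat_lit 275) (nat_lit 191)))) (XT.nd (nat_lit 78) (nat_lit 76) (nat_lit 0) (XT.lf (nat_lit 0) (nat_lit 18052551080) (nat_lit 152) (nat_lit 50683221053) (nat_lit 76) (nat_lit 29578538306) (nat_lit 15) (nat_lit 5) (nat_lit 17) (nat_lit 5) (nat_lit 16) (nat_lit 4) (nat_lit 315) (nat_lit 275) (nat_lit 190)) (XT.nd (nat_lit 78) (nat_lit 76) (nat_lit 0) (XT.lf (nat_lit 0) (nat_lit 42563768428) (nat_lit 152) (nat_lit 444606044) (nat_lit 76) (nat_lit 61668404228) (nat_lit 15) (nat_lit 5) (nat_lit 17) (nat_lit 5) (nat_lit 16) (nat_lit 4) (nat_lit 316) (nat_lit 275) (nat_lit 189)) (XT.lf (nat_lit 0) (nat_lit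 55580918636) (nat_lit 76) (nat_lit 14316610953) (nat_lit 152) (nat_lit 41607635545) (nat_lit 14) (nat_lit 5) (nat_lit 15) (nat_lit 5) (nat_lit 16) (nat_lit 4) (nat_lit 317) (nat_lit 275) (nat_lit 188))))))))
noncomputable def xc77 : XT := (XT.nd (nat_lit 1638) (nat_lit 228) (nat_lit 0) (XT.nd (nat_lit 780) (nat_lit 228) (nat_lit 0) (XT.nd (nat_lit 390) (nat_lit 228) (nat_lit 0) (XT.nd (nat_lit 156) (nat_lit 76) (nat_lit 0) (XT.nd (nat_lit 78) (nat_lit 152) (nat_lit 0) (XT.lf (nat_lit 0) (nat_lit 99680222042) (nat_lit 152) (nat_lit 3046326197) (nat_lit 0) (nat_lit 16140165531) (nat_lit 14) (nat_lit 5) (nat_lit 16) (nat_lit 4) (nat_lit 14) (nat_lit 4) (nat_lit 318) (nat_lit 275) (nat_lit 187)) (XT.lf (nat_lit 0) (nat_lit 5989335514) (nat_lit 152) (nat_lit 71269010693) (nat_lit 76) (nat_lit 49498820724) (nat_lit 12) (nat_lit 5) (nat_lit 14) (nat_lit 5) (nat_lit 13) (nat_lit 4) (nat_lit 319)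 (nat_lit 275) (nat_lit 186))) (XT.nd (nat_lit 78) (nat_lit 76) (nat_lit 0) (XT.lf (nat_lit 0) (nat_lit 32564640661) (nat_lit 152) (nat_lit 16796201797) (nat_lit 76) (nat_lit 85899408901) (nat_lit 12) (nat_lit 5) (nat_lit 14) (nat_lit 5) (nat_lit 13) (nat_lit 4) (nat_lit 320) (nat_lit 275) (nat_lit 185)) (XT.nd (nat_lit 78) (nat_lit 0) (nat_lit 0) (XT.lf (nat_lit 0) (nat_lit 43414915341) (nat_lit 76) (nat_lit 18523967941) (nat_lit 152) (nat_lit 82471055728) (nat_lit 11) (nat_lit 5) (nat_lit 12) (nat_lit 5) (nat_lit 13) (nat_lit 4) (nat_lit 321) (nat_lit 275) (nat_lit 184)) (XT.lf (nat_lit 0) (nat_lit 94186446760) (nat_lit 152) (nat_lit 45478660321) (nat_lit 0) (nat_lit 14600327486) (nat_lit 11) (nat_lit 5) (nat_lit 13) (nat_lit 4) (nat_lit 11) (nat_lit 4) (nat_lit 322) (nat_lit 275) (nat_lit 183))))) (XT.nd (nat_lit 156) (nat_lit 152) (nat_lit 0) (XT.nd (nat_lit 78) (nat_lit 0) (nat_lit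 0) (XT.lf (nat_lit 0) (nat_lit 14626617410) (nat_lit 76) (nat_lit 114923511191) (nat_lit 76) (nat_lit 35332427324) (nat_lit 10) (nat_lit 4) (nat_lit 11) (nat_lit 5) (nat_lit 11) (nat_lit 4) (nat_lit 323) (nat_lit 275) (nat_lit 182)) (XT.lf (nat_lit 0) (nat_lit 81156511721) (nat_lit 76) (nat_lit 87374408454) (nat_lit 76) (nat_lit 7778727742) (nat_lit 10) (nat_lit 4) (nat_lit 11) (nat_lit 5) (nat_lit 11) (nat_lit 4) (nat_lit 324) (nat_lit 275) (nat_lit 181))) (XT.nd (nat_lit 78) (nat_lit 76) (nat_lit 0) (XT.lf (nat_lit 0) (nat_lit 21271845716) (nat_lit 152) (nat_lit 35992653330) (nat_lit 76) (nat_lit 131369449223) (nat_lit 9) (nat_lit 5) (nat_lit 11) (nat_lit 5) (nat_lit 10) (nat_lit 4) (nat_lit 325) (nat_lit 275) (nat_lit 180)) (XT.nd (nat_lit 78) (nat_lit 0) (nat_lit 0) (XT.lf (nat_lit 0) (nat_lit 28680625139) (nat_lit 76) (nat_lit 24141083759) (nat_lit 152) (nat_lit 149093720493) (nat_lit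 8) (nat_lit 5) (nat_lit 9) (nat_lit 5) (nat_lit 10) (nat_lit 4) (nat_lit 326) (nat_lit 275) (nat_lit 179)) (XT.lf (nat_lit 0) (nat_lit 87710884619) (nat_lit 152) (nat_lit 116613587461) (nat_lit 0) (nat_lit 11894192021) (nat_lit 8) (nat_lit 5) (nat_lit 10) (nat_lit 4) (nat_lit 8) (nat_lit 4) (nat_lit 327) (nat_lit 275) (nat_lit 178)))))) (XT.nd (nat_lit 390) (nat_lit 76) (nat_lit 0) (XT.nd (nat_lit 156) (nat_lit 76) (nat_lit 0) (XT.nd (nat_lit 78) (nat_lit 76) (nat_lit 0) (XT.lf (nat_lit 0) (nat_lit 125794984197) (nat_lit 152) (nat_lit 55875911405) (nat_lit 0) (nat_lit 49975073677) (nat_lit 8) (nat_lit 5) (nat_lit 10) (nat_lit 4) (nat_lit 8) (nat_lit 4) (nat_lit 328) (nat_lit 275) (nat_lit 177)) (XT.lf (nat_lit 0) (nat_lit 10036284644) (nat_lit 76) (nat_lit 157043191099) (nat_lit 76) (nat_lit 81220301021) (nat_lit 7) (nat_lit 4) (nat_lit 8) (nat_lit 5) (nat_lit 8) (nat_lit 4) (nat_lit 329)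 (nat_lit 275) (nat_lit 176))) (XT.nd (nat_lit 78) (nat_lit 76) (nat_lit 0) (XT.lf (nat_lit 0) (nat_lit 83211297763) (nat_lit 76) (nat_lit 129425859739) (nat_lit 76) (nat_lit 53600210812) (nat_lit 7) (nat_lit 4) (nat_lit 8) (nat_lit 5) (nat_lit 8) (nat_lit 4) (nat_lit 330) (nat_lit 275) (nat_lit 175)) (XT.nd (nat_lit 78) (nat_lit 76) (nat_lit 0) (XT.lf (nat_lit 0) (nat_lit 162235247686) (nat_lit 76) (nat_lit 99601528860) (nat_lit 76) (nat_lit 23773325442) (nat_lit 7) (nat_lit 4) (nat_lit 8) (nat_lit 5) (nat_lit 8) (nat_lit 4) (nat_lit 331) (nat_lit 275) (nat_lit 174)) (XT.lf (nat_lit 0) (nat_lit 8167066886) (nat_lit 152) (nat_lit 59088081568) (nat_lit 76) (nat_lit 239271044369) (nat_lit 6) (nat_lit 5) (nat_lit 8) (nat_lit 5) (nat_lit 7) (nat_lit 4) (nat_lit 332) (nat_lit 275) (nat_lit 173))))) (XT.nd (nat_lit 234) (nat_lit 0) (nat_lit 0) (XT.nd (nat_lit 78) (nat_lit 0) (nat_lit 0) (XT.lf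 (nat_lit 0) (nat_lit 10264892244) (nat_lit 76) (nat_lit 31733961899) (nat_lit 152) (nat_lit 287088777965) (nat_lit 5) (nat_lit 5) (nat_lit 6) (nat_lit 5) (nat_lit 7) (nat_lit 4) (nat_lit 333) (nat_lit 275) (nat_lit 172)) (XT.nd (nat_lit 78) (nat_lit 0) (nat_lit 0) (XT.lf (nat_lit 0) (nat_lit 79684571938) (nat_lit 152) (nat_lit 266251080262) (nat_lit 0) (nat_lit 7460965664) (nat_lit 5) (nat_lit 5) (nat_lit 7) (nat_lit 4) (nat_lit 5) (nat_lit 4) (nat_lit 334) (nat_lit 275) (nat_lit 171)) (XT.lf (nat_lit 0) (nat_lit 120918148892) (nat_lit 152) (nat_lit 210012769755) (nat_lit 0) (nat_lit 48692754402) (nat_lit 5) (nat_lit 5) (nat_lit 7) (nat_lit 4) (nat_lit 5) (nat_lit 4) (nat_lit 335) (nat_lit 275) (nat_lit 170)))) (XT.nd (nat_lit 78) (nat_lit 0) (nat_lit 0) (XT.lf (nat_lit 0) (nat_lit 165448476049) (nat_lit 152) (nat_lit 149279088202) (nat_lit 0) (nat_lit 93221425804) (nat_lit 5) (nat_lit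 5) (nat_lit 7) (nat_lit 4) (nat_lit 5) (nat_lit 4) (nat_lit 336) (nat_lit 275) (nat_lit 169)) (XT.nd (nat_lit 78) (nat_lit 0) (nat_lit 0) (XT.lf (nat_lit 0) (nat_lit 213539436829) (nat_lit 152) (nat_lit 83690132303) (nat_lit 0) (nat_lit 141310853477) (nat_lit 5) (nat_lit 5) (nat_lit 7) (nat_lit 4) (nat_lit 5) (nat_lit 4) (nat_lit 337) (nat_lit 275) (nat_lit 168)) (XT.lf (nat_lit 0) (nat_lit 265476014704) (nat_lit 152) (nat_lit 12857226766) (nat_lit 0) (nat_lit 193246011808) (nat_lit 5) (nat_lit 5) (nat_lit 7) (nat_lit 4) (nat_lit 5) (nat_lit 4) (nat_lit 338) (nat_lit 275) (nat_lit 167))))))) (XT.nd (nat_lit 35880) (nat_lit 0) (nat_lit 5016) (XT.nd (nat_lit 390) (nat_lit 152) (nat_lit 0) (XT.nd (nat_lit 156) (nat_lit 0) (nat_lit 0) (XT.nd (nat_lit 78) (nat_lit 0) (nat_lit 0) (XT.lf (nat_lit 0) (nat_lit 65743584232) (nat_lit 76) (nat_lit 256848839350) (nat_lit 76) (nat_lit 184617522061)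 (nat_lit 4) (nat_lit 4) (nat_lit 5) (nat_lit 5) (nat_lit 5) (nat_lit 4) (nat_lit 339) (nat_lit 275) (nat_lit 166)) (XT.lf (nat_lit 0) (nat_lit 151088782711) (nat_lit 76) (nat_lit 233411860280) (nat_lit 76) (nat_lit 161179325962) (nat_lit 4) (nat_lit 4) (nat_lit 5) (nat_lit 5) (nat_lit 5) (nat_lit 4) (nat_lit 340) (nat_lit 275) (nat_lit 165))) (XT.nd (nat_lit 78) (nat_lit 0) (nat_lit 0) (XT.lf (nat_lit 0) (nat_lit 243259000013) (nat_lit 76) (nat_lit 208101161815) (nat_lit 76) (nat_lit 135867500618) (nat_lit 4) (nat_lit 4) (nat_lit 5) (nat_lit 5) (nat_lit 5) (nat_lit 4) (nat_lit 341) (nat_lit 275) (nat_lit 164)) (XT.nd (nat_lit 78) (nat_lit 0) (nat_lit 0) (XT.lf (nat_lit 0) (nat_lit 342800430016) (nat_lit 76) (nat_lit 180766754633) (nat_lit 76) (nat_lit 108532050029) (nat_lit 4) (nat_lit 4) (nat_lit 5) (nat_lit 5) (nat_lit 5) (nat_lit 4) (nat_lit 342) (nat_lit 275) (nat_lit 163)) (XT.lf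 (nat_lit 0) (nat_lit 450302947864) (nat_lit 76) (nat_lit 151246657060) (nat_lit 76) (nat_lit 79010986338) (nat_lit 4) (nat_lit 4) (nat_lit 5) (nat_lit 5) (nat_lit 5) (nat_lit 4) (nat_lit 343) (nat_lit 275) (nat_lit 162))))) (XT.nd (nat_lit 234) (nat_lit 76) (nat_lit 0) (XT.nd (nat_lit 78) (nat_lit 76) (nat_lit 0) (XT.lf (nat_lit 0) (nat_lit 566403605512) (nat_lit 76) (nat_lit 119365935184) (nat_lit 76) (nat_lit 47129369909) (nat_lit 4) (nat_lit 4) (nat_lit 5) (nat_lit 5) (nat_lit 5) (nat_lit 4) (nat_lit 344) (nat_lit 275) (nat_lit 161)) (XT.nd (nat_lit 78) (nat_lit 76) (nat_lit 0) (XT.lf (nat_lit 0) (nat_lit 691790406858) (nat_lit 76) (nat_lit 84935666210) (nat_lit 76) (nat_lit 12698272645) (nat_lit 4) (nat_lit 4) (nat_lit 5) (nat_lit 5) (nat_lit 5) (nat_lit 4) (nat_lit 345) (nat_lit 275) (nat_lit 160)) (XT.lf (nat_lit 0) (nat_lit 23702625734) (nat_lit 152) (nat_lit 23647777744) (nat_lit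 76) (nat_lit 803102343629) (nat_lit 3) (nat_lit 5) (nat_lit 5) (nat_lit 5) (nat_lit 4) (nat_lit 4) (nat_lit 346) (nat_lit 275) (nat_lit 159)))) (XT.nd (nat_lit 35100) (nat_lit 0) (nat_lit 6992) (XT.lf (nat_lit 0) (nat_lit 57894479481) (nat_lit 76) (nat_lit 5585203497) (nat_lit 152) (nat_lit 852827880830) (nat_lit 2) (nat_lit 5) (nat_lit 3) (nat_lit 5) (nat_lit 4) (nat_lit 4) (nat_lit 347) (nat_lit 275) (nat_lit 158)) (XT.nd (nat_lit 78) (nat_lit 0) (nat_lit 0) (XT.lf (nat_lit 0) (nat_lit 2099506267) (nat_lit 0) (nat_lit 2099506267) (nat_lit 684) (nat_lit 2909926798) (nat_lit 94) (nat_lit 5) (nat_lit 94) (nat_lit 3) (nat_lit 103) (nat_lit 3) (nat_lit 276) (nat_lit 276) (nat_lit 228)) (XT.lf (nat_lit 76) (nat_lit 339477248) (nat_lit 0) (nat_lit 8985807875) (nat_lit 760) (nat_lit 5430865880) (nat_lit 95) (nat_lit 5) (nat_lit 94) (nat_lit 5) (nat_lit 104) (nat_lit 5) (nat_lit 277) (nat_lit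 276) (nat_lit 227)))))) (XT.nd (nat_lit 390) (nat_lit 1444) (nat_lit 0) (XT.nd (nat_lit 156) (nat_lit 608) (nat_lit 0) (XT.nd (nat_lit 78) (nat_lit 0) (nat_lit 0) (XT.lf (nat_lit 0) (nat_lit 10541208881) (nat_lit 684) (nat_lit 3564923979) (nat_lit 760) (nat_lit 1220715748) (nat_lit 95) (nat_lit 5) (nat_lit 104) (nat_lit 5) (nat_lit 105) (nat_lit 5) (nat_lit 278) (nat_lit 276) (nat_lit 226)) (XT.lf (nat_lit 76) (nat_lit 8238043960) (nat_lit 0) (nat_lit 3851069593) (nat_lit 760) (nat_lit 3842434255) (nat_lit 96) (nat_lit 5) (nat_lit 95) (nat_lit 5) (nat_lit 105) (nat_lit 5) (nat_lit 279) (nat_lit 276) (nat_lit 225))) (XT.nd (nat_lit 78) (nat_lit 684) (nat_lit 0) (XT.lf (nat_lit 76) (nat_lit 4532036565) (nat_lit 0) (nat_lit 9433212795) (nat_lit 760) (nat_lit 2609228773) (nat_lit 97) (nat_lit 5) (nat_lit 96) (nat_lit 5) (nat_lit 106) (nat_lit 5) (nat_lit 280) (nat_lit 276) (nat_lit 224)) (XT.nd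 (nat_lit 78) (nat_lit 760) (nat_lit 0) (XT.lf (nat_lit 76) (nat_lit 646489780) (nat_lit 0) (nat_lit 15540944568) (nat_lit 760) (nat_lit 1071680182) (nat_lit 98) (nat_lit 5) (nat_lit 97) (nat_lit 5) (nat_lit 107) (nat_lit 5) (nat_lit 281) (nat_lit 276) (nat_lit 223)) (XT.lf (nat_lit 0) (nat_lit 904660208) (nat_lit 760) (nat_lit 3410253125) (nat_lit 836) (nat_lit 13666478376) (nat_lit 87) (nat_lit 5) (nat_lit 97) (nat_lit 5) (nat_lit 98) (nat_lit 5) (nat_lit 282) (nat_lit 276) (nat_lit 222))))) (XT.nd (nat_lit 234) (nat_lit 608) (nat_lit 0) (XT.nd (nat_lit 78) (nat_lit 912) (nat_lit 0) (XT.lf (nat_lit 0) (nat_lit 3266602304) (nat_lit 760) (nat_lit 7720213842) (nat_lit 76) (nat_lit 7760561242) (nat_lit 88) (nat_lit 5) (nat_lit 98) (nat_lit 5) (nat_lit 89) (nat_lit 5) (nat_lit 283) (nat_lit 276) (nat_lit 221)) (XT.nd (nat_lit 78) (nat_lit 380) (nat_lit 0) (XT.lf (nat_lit 0) (nat_lit 6051798838)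 (nat_lit 608) (nat_lit 12283473292) (nat_lit 76) (nat_lit 1227707427) (nat_lit 81) (nat_lit 5) (nat_lit 89) (nat_lit 5) (nat_lit 82) (nat_lit 5) (nat_lit 284) (nat_lit 276) (nat_lit 220)) (XT.lf (nat_lit 0) (nat_lit 3203189762) (nat_lit 380) (nat_lit 6197978318) (nat_lit 456) (nat_lit 11025642666) (nat_lit 76) (nat_lit 5) (nat_lit 81) (nat_lit 5) (nat_lit 82) (nat_lit 5) (nat_lit 285) (nat_lit 276) (nat_lit 219)))) (XT.nd (nat_lit 78) (nat_lit 608) (nat_lit 0) (XT.lf (nat_lit 0) (nat_lit 13315086530) (nat_lit 456) (nat_lit 1122877834) (nat_lit 76) (nat_lit 6906999173) (nat_lit 76) (nat_lit 5) (nat_lit 82) (nat_lit 5) (nat_lit 77) (nat_lit 5) (nat_lit 286) (nat_lit 276) (nat_lit 218)) (XT.nd (nat_lit 78) (nat_lit 304) (nat_lit 0) (XT.lf (nat_lit 0) (nat_lit 16667226612) (nat_lit 304) (nat_lit 1212986756) (nat_lit 380) (nat_lit 4439492184) (nat_lit 72) (nat_lit 5) (nat_lit 76) (nat_lit 5)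 (nat_lit 77) (nat_lit 5) (nat_lit 287) (nat_lit 276) (nat_lit 217)) (XT.lf (nat_lit 0) (nat_lit 12724353028) (nat_lit 304) (nat_lit 10483702200) (nat_lit 380) (nat_lit 144535114) (nat_lit 68) (nat_lit 5) (nat_lit 72) (nat_lit 5) (nat_lit 73) (nat_lit 5) (nat_lit 288) (nat_lit 276) (nat_lit 216))))))))
noncomputable def xc78 : XT := (XT.nd (nat_lit 1638) (nat_lit 1140) (nat_lit 0) (XT.nd (nat_lit 780) (nat_lit 1368) (nat_lit 0) (XT.nd (nat_lit 390) (nat_lit 912) (nat_lit 0) (XT.nd (nat_lit 156) (nat_lit 532) (nat_lit 0) (XT.nd (nat_lit 78) (nat_lit 304) (nat_lit 0) (XT.lf (nat_lit 0) (nat_lit 4639357265) (nat_lit 380) (nat_lit 16052582323) (nat_lit 76) (nat_lit 3758233432) (nat_lit 63) (nat_lit 5) (nat_lit 68) (nat_lit 5) (nat_lit 64) (nat_lit 5) (nat_lit 289) (nat_lit 276) (nat_lit 215)) (XT.lf (nat_lit 0) (nat_lit 3604568382) (nat_lit 304) (nat_lit 6594866767) (nat_lit 380) (nat_lit 15416113361)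 (nat_lit 59) (nat_lit 5) (nat_lit 63) (nat_lit 5) (nat_lit 64) (nat_lit 5) (nat_lit 290) (nat_lit 276) (nat_lit 214))) (XT.nd (nat_lit 78) (nat_lit 532) (nat_lit 0) (XT.lf (nat_lit 0) (nat_lit 16601719734) (nat_lit 380) (nat_lit 1619081594) (nat_lit 76) (nat_lit 8633511910) (nat_lit 59) (nat_lit 5) (nat_lit 64) (nat_lit 5) (nat_lit 60) (nat_lit 5) (nat_lit 291) (nat_lit 276) (nat_lit 213)) (XT.nd (nat_lit 78) (nat_lit 304) (nat_lit 0) (XT.lf (nat_lit 0) (nat_lit 20938012207) (nat_lit 228) (nat_lit 2996326289) (nat_lit 304) (nat_lit 4236960140) (nat_lit 56) (nat_lit 5) (nat_lit 59) (nat_lit 5) (nat_lit 60) (nat_lit 5) (nat_lit 292) (nat_lit 276) (nat_lit 212)) (XT.lf (nat_lit 0) (nat_lit 2665427026) (nat_lit 304) (nat_lit 13569694562) (nat_lit 76) (nat_lit 13332889214) (nat_lit 52) (nat_lit 5) (nat_lit 56) (nat_lit 5) (nat_lit 53) (nat_lit 5) (nat_lit 293) (nat_lit 276) (nat_lit 211)))))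 (XT.nd (nat_lit 156) (nat_lit 456) (nat_lit 0) (XT.nd (nat_lit 78) (nat_lit 228) (nat_lit 0) (XT.lf (nat_lit 0) (nat_lit 10299865128) (nat_lit 304) (nat_lit 20596316516) (nat_lit 76) (nat_lit 160412352) (nat_lit 49) (nat_lit 5) (nat_lit 53) (nat_lit 5) (nat_lit 50) (nat_lit 5) (nat_lit 294) (nat_lit 276) (nat_lit 210)) (XT.lf (nat_lit 0) (nat_lit 4073351164) (nat_lit 228) (nat_lit 15031981542) (nat_lit 304) (nat_lit 13530937875) (nat_lit 46) (nat_lit 5) (nat_lit 49) (nat_lit 5) (nat_lit 50) (nat_lit 5) (nat_lit 295) (nat_lit 276) (nat_lit 209))) (XT.nd (nat_lit 78) (nat_lit 456) (nat_lit 0) (XT.lf (nat_lit 0) (nat_lit 28996193457) (nat_lit 304) (nat_lit 2934840595) (nat_lit 76) (nat_lit 2392258398) (nat_lit 46) (nat_lit 5) (nat_lit 50) (nat_lit 5) (nat_lit 47) (nat_lit 5) (nat_lit 296) (nat_lit 276) (nat_lit 208)) (XT.nd (nat_lit 78) (nat_lit 228) (nat_lit 0) (XT.lf (nat_lit 0) (nat_lit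 4063149908) (nat_lit 228) (nat_lit 10902230657) (nat_lit 76) (nat_lit 21144995045) (nat_lit 43) (nat_lit 5) (nat_lit 46) (nat_lit 5) (nat_lit 44) (nat_lit 5) (nat_lit 297) (nat_lit 276) (nat_lit 207)) (XT.lf (nat_lit 0) (nat_lit 14400163545) (nat_lit 304) (nat_lit 19941473494) (nat_lit 76) (nat_lit 3675328356) (nat_lit 40) (nat_lit 5) (nat_lit 44) (nat_lit 5) (nat_lit 41) (nat_lit 5) (nat_lit 298) (nat_lit 276) (nat_lit 206)))))) (XT.nd (nat_lit 390) (nat_lit 684) (nat_lit 0) (XT.nd (nat_lit 156) (nat_lit 380) (nat_lit 0) (XT.nd (nat_lit 78) (nat_lit 152) (nat_lit 0) (XT.lf (nat_lit 0) (nat_lit 9728792685) (nat_lit 152) (nat_lit 16418533604) (nat_lit 228) (nat_lit 13899610992) (nat_lit 38) (nat_lit 5) (nat_lit 40) (nat_lit 5) (nat_lit 41) (nat_lit 5) (nat_lit 299) (nat_lit 276) (nat_lit 205)) (XT.lf (nat_lit 0) (nat_lit 196628305) (nat_lit 152) (nat_lit 39026185121) (nat_lit 228) (nat_lit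 2997079186) (nat_lit 36) (nat_lit 5) (nat_lit 38) (nat_lit 5) (nat_lit 39) (nat_lit 5) (nat_lit 300) (nat_lit 276) (nat_lit 204))) (XT.nd (nat_lit 78) (nat_lit 304) (nat_lit 0) (XT.lf (nat_lit 0) (nat_lit 9297347341) (nat_lit 228) (nat_lit 10748062178) (nat_lit 76) (nat_lit 24474402757) (nat_lit 35) (nat_lit 5) (nat_lit 38) (nat_lit 5) (nat_lit 36) (nat_lit 5) (nat_lit 301) (nat_lit 276) (nat_lit 203)) (XT.nd (nat_lit 78) (nat_lit 152) (nat_lit 0) (XT.lf (nat_lit 0) (nat_lit 22843890418) (nat_lit 228) (nat_lit 23278355659) (nat_lit 76) (nat_lit 860355366) (nat_lit 33) (nat_lit 5) (nat_lit 36) (nat_lit 5) (nat_lit 34) (nat_lit 5) (nat_lit 302) (nat_lit 276) (nat_lit 202)) (XT.lf (nat_lit 0) (nat_lit 11677572842) (nat_lit 152) (nat_lit 26495670832) (nat_lit 228) (nat_lit 11434225758) (nat_lit 31) (nat_lit 5) (nat_lit 33) (nat_lit 5) (nat_lit 34) (nat_lit 5) (nat_lit 303) (nat_lit 276) (nat_lit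 201))))) (XT.nd (nat_lit 234) (nat_lit 304) (nat_lit 0) (XT.nd (nat_lit 78) (nat_lit 304) (nat_lit 0) (XT.lf (nat_lit 0) (nat_lit 2614432519) (nat_lit 228) (nat_lit 2221337161) (nat_lit 76) (nat_lit 47584730982) (nat_lit 30) (nat_lit 5) (nat_lit 33) (nat_lit 5) (nat_lit 31) (nat_lit 5) (nat_lit 304) (nat_lit 276) (nat_lit 200)) (XT.nd (nat_lit 78) (nat_lit 152) (nat_lit 0) (XT.lf (nat_lit 0) (nat_lit 18266573409) (nat_lit 228) (nat_lit 18393618057) (nat_lit 76) (nat_lit 18745009318) (nat_lit 28) (nat_lit 5) (nat_lit 31) (nat_lit 5) (nat_lit 29) (nat_lit 5) (nat_lit 305) (nat_lit 276) (nat_lit 199)) (XT.lf (nat_lit 0) (nat_lit 21422706377) (nat_lit 152) (nat_lit 14193614859) (nat_lit 228) (nat_lit 22990091477) (nat_lit 26) (nat_lit 5) (nat_lit 28) (nat_lit 5) (nat_lit 29) (nat_lit 5) (nat_lit 306) (nat_lit 276) (nat_lit 198)))) (XT.nd (nat_lit 78) (nat_lit 228) (nat_lit 0) (XT.lf (nat_lit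 0) (nat_lit 2949222764) (nat_lit 76) (nat_lit 51924241025) (nat_lit 152) (nat_lit 7164294078) (nat_lit 25) (nat_lit 5) (nat_lit 26) (nat_lit 5) (nat_lit 27) (nat_lit 4) (nat_lit 307) (nat_lit 276) (nat_lit 197)) (XT.nd (nat_lit 78) (nat_lit 152) (nat_lit 0) (XT.lf (nat_lit 0) (nat_lit 10498282809) (nat_lit 152) (nat_lit 18511332923) (nat_lit 76) (nat_lit 36681828243) (nat_lit 24) (nat_lit 5) (nat_lit 26) (nat_lit 5) (nat_lit 25) (nat_lit 5) (nat_lit 308) (nat_lit 276) (nat_lit 196)) (XT.lf (nat_lit 0) (nat_lit 26009097057) (nat_lit 152) (nat_lit 3714674304) (nat_lit 228) (nat_lit 39887741595) (nat_lit 22) (nat_lit 5) (nat_lit 24) (nat_lit 5) (nat_lit 25) (nat_lit 5) (nat_lit 309) (nat_lit 276) (nat_lit 195))))))) (XT.nd (nat_lit 858) (nat_lit 380) (nat_lit 0) (XT.nd (nat_lit 390) (nat_lit 380) (nat_lit 0) (XT.nd (nat_lit 156) (nat_lit 304) (nat_lit 0) (XT.nd (nat_lit 78) (nat_lit 0) (nat_lit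 0) (XT.lf (nat_lit 0) (nat_lit 552728896) (nat_lit 76) (nat_lit 50631262672) (nat_lit 152) (nat_lit 22626366563) (nat_lit 21) (nat_lit 5) (nat_lit 22) (nat_lit 5) (nat_lit 23) (nat_lit 4) (nat_lit 310) (nat_lit 276) (nat_lit 194)) (XT.lf (nat_lit 0) (nat_lit 49718943244) (nat_lit 76) (nat_lit 25455431060) (nat_lit 152) (nat_lit 3130074284) (nat_lit 21) (nat_lit 5) (nat_lit 22) (nat_lit 5) (nat_lit 23) (nat_lit 4) (nat_lit 311) (nat_lit 276) (nat_lit 193))) (XT.nd (nat_lit 78) (nat_lit 76) (nat_lit 0) (XT.lf (nat_lit 0) (nat_lit 17693911648) (nat_lit 228) (nat_lit 63157530739) (nat_lit 76) (nat_lit 2275547949) (nat_lit 18) (nat_lit 5) (nat_lit 21) (nat_lit 5) (nat_lit 19) (nat_lit 4) (nat_lit 312) (nat_lit 276) (nat_lit 192)) (XT.nd (nat_lit 78) (nat_lit 76) (nat_lit 0) (XT.lf (nat_lit 0) (nat_lit 41003866077) (nat_lit 228) (nat_lit 15383612713) (nat_lit 76) (nat_lit 31898809401) (nat_lit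 18) (nat_lit 5) (nat_lit 21) (nat_lit 5) (nat_lit 19) (nat_lit 4) (nat_lit 313) (nat_lit 276) (nat_lit 191)) (XT.lf (nat_lit 0) (nat_lit 37397497745) (nat_lit 76) (nat_lit 29358440530) (nat_lit 152) (nat_lit 27073529242) (nat_lit 17) (nat_lit 5) (nat_lit 18) (nat_lit 5) (nat_lit 19) (nat_lit 4) (nat_lit 314) (nat_lit 276) (nat_lit 190))))) (XT.nd (nat_lit 234) (nat_lit 228) (nat_lit 0) (XT.nd (nat_lit 78) (nat_lit 152) (nat_lit 0) (XT.lf (nat_lit 0) (nat_lit 94831609581) (nat_lit 152) (nat_lit 4865452185) (nat_lit 0) (nat_lit 105871197) (nat_lit 17) (nat_lit 5) (nat_lit 19) (nat_lit 4) (nat_lit 17) (nat_lit 4) (nat_lit 315) (nat_lit 276) (nat_lit 189)) (XT.nd (nat_lit 78) (nat_lit 0) (nat_lit 0) (XT.lf (nat_lit 0) (nat_lit 19616299945) (nat_lit 152) (nat_lit 54521009195) (nat_lit 76) (nat_lit 32036109728) (nat_lit 15) (nat_lit 5) (nat_lit 17) (nat_lit 5) (nat_lit 16) (nat_lit 4) (nat_lit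 316) (nat_lit 276) (nat_lit 188)) (XT.lf (nat_lit 0) (nat_lit 46079559512) (nat_lit 152) (nat_lit 279369396) (nat_lit 76) (nat_lit 66686402823) (nat_lit 15) (nat_lit 5) (nat_lit 17) (nat_lit 5) (nat_lit 16) (nat_lit 4) (nat_lit 317) (nat_lit 276) (nat_lit 187)))) (XT.nd (nat_lit 78) (nat_lit 152) (nat_lit 0) (XT.lf (nat_lit 0) (nat_lit 60219470513) (nat_lit 76) (nat_lit 15375350704) (nat_lit 152) (nat_lit 44825431938) (nat_lit 14) (nat_lit 5) (nat_lit 15) (nat_lit 5) (nat_lit 16) (nat_lit 4) (nat_lit 318) (nat_lit 276) (nat_lit 186)) (XT.nd (nat_lit 78) (nat_lit 152) (nat_lit 0) (XT.lf (nat_lit 0) (nat_lit 107753566805) (nat_lit 152) (nat_lit 3108502963) (nat_lit 0) (nat_lit 17508987785) (nat_lit 14) (nat_lit 5) (nat_lit 16) (nat_lit 4) (nat_lit 14) (nat_lit 4) (nat_lit 319) (nat_lit 276) (nat_lit 185)) (XT.lf (nat_lit 0) (nat_lit 6564380605) (nat_lit 152) (nat_lit 76793679014) (nat_lit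 76) (nat_lit 53534844335) (nat_lit 12) (nat_lit 5) (nat_lit 14) (nat_lit 5) (nat_lit 13) (nat_lit 4) (nat_lit 320) (nat_lit 276) (nat_lit 184)))))) (XT.nd (nat_lit 390) (nat_lit 228) (nat_lit 0) (XT.nd (nat_lit 156) (nat_lit 76) (nat_lit 0) (XT.nd (nat_lit 78) (nat_lit 76) (nat_lit 0) (XT.lf (nat_lit 0) (nat_lit 35258606590) (nat_lit 152) (nat_lit 17976145594) (nat_lit 76) (nat_lit 92841841199) (nat_lit 12) (nat_lit 5) (nat_lit 14) (nat_lit 5) (nat_lit 13) (nat_lit 4) (nat_lit 321) (nat_lit 276) (nat_lit 183)) (XT.lf (nat_lit 0) (nat_lit 47044744438) (nat_lit 76) (nat_lit 19933912325) (nat_lit 152) (nat_lit 88979808718) (nat_lit 11) (nat_lit 5) (nat_lit 12) (nat_lit 5) (nat_lit 13) (nat_lit 4) (nat_lit 322) (nat_lit 276) (nat_lit 182))) (XT.nd (nat_lit 78) (nat_lit 76) (nat_lit 0) (XT.lf (nat_lit 0) (nat_lit 101800794463) (nat_lit 152) (nat_lit 48969007943) (nat_lit 0) (nat_lit 15832862449)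 (nat_lit 11) (nat_lit 5) (nat_lit 13) (nat_lit 4) (nat_lit 11) (nat_lit 4) (nat_lit 323) (nat_lit 276) (nat_lit 181)) (XT.nd (nat_lit 78) (nat_lit 0) (nat_lit 0) (XT.lf (nat_lit 0) (nat_lit 15938262488) (nat_lit 76) (nat_lit 124051633970) (nat_lit 76) (nat_lit 38079445618) (nat_lit 10) (nat_lit 4) (nat_lit 11) (nat_lit 5) (nat_lit 11) (nat_lit 4) (nat_lit 324) (nat_lit 276) (nat_lit 180)) (XT.lf (nat_lit 0) (nat_lit 87780065701) (nat_lit 76) (nat_lit 94303473986) (nat_lit 76) (nat_lit 8327344580) (nat_lit 10) (nat_lit 4) (nat_lit 11) (nat_lit 5) (nat_lit 11) (nat_lit 4) (nat_lit 325) (nat_lit 276) (nat_lit 179))))) (XT.nd (nat_lit 234) (nat_lit 76) (nat_lit 0) (XT.nd (nat_lit 78) (nat_lit 76) (nat_lit 0) (XT.lf (nat_lit 0) (nat_lit 23039633297) (nat_lit 152) (nat_lit 38748530270) (nat_lit 76) (nat_lit 141933173710) (nat_lit 9) (nat_lit 5) (nat_lit 11) (nat_lit 5) (nat_lit 10) (nat_lit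 4) (nat_lit 326) (nat_lit 276) (nat_lit 178)) (XT.nd (nat_lit 78) (nat_lit 0) (nat_lit 0) (XT.lf (nat_lit 0) (nat_lit 31093241782) (nat_lit 76) (nat_lit 26017196817) (nat_lit 152) (nat_lit 160955052477) (nat_lit 8) (nat_lit 5) (nat_lit 9) (nat_lit 5) (nat_lit 10) (nat_lit 4) (nat_lit 327) (nat_lit 276) (nat_lit 177)) (XT.lf (nat_lit 0) (nat_lit 94786879837) (nat_lit 152) (nat_lit 125831120863) (nat_lit 0) (nat_lit 12895178996) (nat_lit 8) (nat_lit 5) (nat_lit 10) (nat_lit 4) (nat_lit 8) (nat_lit 4) (nat_lit 328) (nat_lit 276) (nat_lit 176)))) (XT.nd (nat_lit 78) (nat_lit 76) (nat_lit 0) (XT.lf (nat_lit 0) (nat_lit 135913327793) (nat_lit 152) (nat_lit 60242693951) (nat_lit 0) (nat_lit 54018868102) (nat_lit 8) (nat_lit 5) (nat_lit 10) (nat_lit 4) (nat_lit 8) (nat_lit 4) (nat_lit 329) (nat_lit 276) (nat_lit 175)) (XT.nd (nat_lit 78) (nat_lit 0) (nat_lit 0) (XT.lf (nat_lit 0) (nat_lit 10937988908)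 (nat_lit 76) (nat_lit 169560077148) (nat_lit 76) (nat_lit 87663062966) (nat_lit 7) (nat_lit 4) (nat_lit 8) (nat_lit 5) (nat_lit 8) (nat_lit 4) (nat_lit 330) (nat_lit 276) (nat_lit 174)) (XT.lf (nat_lit 0) (nat_lit 89959684448) (nat_lit 76) (nat_lit 139736808852) (nat_lit 76) (nat_lit 57837429401) (nat_lit 7) (nat_lit 4) (nat_lit 8) (nat_lit 5) (nat_lit 8) (nat_lit 4) (nat_lit 331) (nat_lit 276) (nat_lit 173))))))))
noncomputable def xc79 : XT := (XT.nd (nat_lit 36738) (nat_lit 0) (nat_lit 2280) (XT.nd (nat_lit 780) (nat_lit 76) (nat_lit 0) (XT.nd (nat_lit 390) (nat_lit 76) (nat_lit 0) (XT.nd (nat_lit 156) (nat_lit 76) (nat_lit 0) (XT.nd (nat_lit 78) (nat_lit 76) (nat_lit 0) (XT.lf (nat_lit 0) (nat_lit 175298773856) (nat_lit 76) (nat_lit 107529725552) (nat_lit 76) (nat_lit 25628156037) (nat_lit 7) (nat_lit 4) (nat_lit 8) (nat_lit 5) (nat_lit 8) (nat_lit 4) (nat_lit 332) (nat_lit 276) (nat_lit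 172)) (XT.lf (nat_lit 0) (nat_lit 8862589656) (nat_lit 152) (nat_lit 63735288555) (nat_lit 76) (nat_lit 258448288354) (nat_lit 6) (nat_lit 5) (nat_lit 8) (nat_lit 5) (nat_lit 7) (nat_lit 4) (nat_lit 333) (nat_lit 276) (nat_lit 171))) (XT.nd (nat_lit 78) (nat_lit 0) (nat_lit 0) (XT.lf (nat_lit 0) (nat_lit 11162453433) (nat_lit 76) (nat_lit 34236536035) (nat_lit 152) (nat_lit 310013629068) (nat_lit 5) (nat_lit 5) (nat_lit 6) (nat_lit 5) (nat_lit 7) (nat_lit 4) (nat_lit 334) (nat_lit 276) (nat_lit 170)) (XT.nd (nat_lit 78) (nat_lit 0) (nat_lit 0) (XT.lf (nat_lit 0) (nat_lit 86097107401) (nat_lit 152) (nat_lit 287479102184) (nat_lit 0) (nat_lit 8090237380) (nat_lit 5) (nat_lit 5) (nat_lit 7) (nat_lit 4) (nat_lit 5) (nat_lit 4) (nat_lit 335) (nat_lit 276) (nat_lit 169)) (XT.lf (nat_lit 0) (nat_lit 130626572755) (nat_lit 152) (nat_lit 226747064947) (nat_lit 0) (nat_lit 52618169628) (nat_lit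 5) (nat_lit 5) (nat_lit 7) (nat_lit 4) (nat_lit 5) (nat_lit 4) (nat_lit 336) (nat_lit 276) (nat_lit 168))))) (XT.nd (nat_lit 156) (nat_lit 76) (nat_lit 0) (XT.nd (nat_lit 78) (nat_lit 0) (nat_lit 0) (XT.lf (nat_lit 0) (nat_lit 178716735570) (nat_lit 152) (nat_lit 161159631565) (nat_lit 0) (nat_lit 100706912899) (nat_lit 5) (nat_lit 5) (nat_lit 7) (nat_lit 4) (nat_lit 5) (nat_lit 4) (nat_lit 337) (nat_lit 276) (nat_lit 167)) (XT.lf (nat_lit 0) (nat_lit 230652574588) (nat_lit 152) (nat_lit 90328135765) (nat_lit 0) (nat_lit 152641437524) (nat_lit 5) (nat_lit 5) (nat_lit 7) (nat_lit 4) (nat_lit 5) (nat_lit 4) (nat_lit 338) (nat_lit 276) (nat_lit 166))) (XT.nd (nat_lit 78) (nat_lit 76) (nat_lit 0) (XT.lf (nat_lit 0) (nat_lit 286741857743) (nat_lit 152) (nat_lit 13832835349) (nat_lit 0) (nat_lit 208729503650) (nat_lit 5) (nat_lit 5) (nat_lit 7) (nat_lit 4) (nat_lit 5) (nat_lit 4) (nat_lit 339)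 (nat_lit 276) (nat_lit 165)) (XT.nd (nat_lit 78) (nat_lit 0) (nat_lit 0) (XT.lf (nat_lit 0) (nat_lit 71053738537) (nat_lit 76) (nat_lit 277372575423) (nat_lit 76) (nat_lit 199359094450) (nat_lit 4) (nat_lit 4) (nat_lit 5) (nat_lit 5) (nat_lit 5) (nat_lit 4) (nat_lit 340) (nat_lit 276) (nat_lit 164)) (XT.lf (nat_lit 0) (nat_lit 163222799741) (nat_lit 76) (nat_lit 252062428477) (nat_lit 76) (nat_lit 174047904098) (nat_lit 4) (nat_lit 4) (nat_lit 5) (nat_lit 5) (nat_lit 5) (nat_lit 4) (nat_lit 341) (nat_lit 276) (nat_lit 163)))))) (XT.nd (nat_lit 390) (nat_lit 76) (nat_lit 0) (XT.nd (nat_lit 156) (nat_lit 0) (nat_lit 0) (XT.nd (nat_lit 78) (nat_lit 0) (nat_lit 0) (XT.lf (nat_lit 0) (nat_lit 262763159285) (nat_lit 76) (nat_lit 224728531960) (nat_lit 76) (nat_lit 146713041463) (nat_lit 4) (nat_lit 4) (nat_lit 5) (nat_lit 5) (nat_lit 5) (nat_lit 4) (nat_lit 342) (nat_lit 276) (nat_lit 162))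 (XT.lf (nat_lit 0) (nat_lit 370264685965) (nat_lit 76) (nat_lit 195208907225) (nat_lit 76) (nat_lit 117192522175) (nat_lit 4) (nat_lit 4) (nat_lit 5) (nat_lit 5) (nat_lit 5) (nat_lit 4) (nat_lit 343) (nat_lit 276) (nat_lit 161))) (XT.nd (nat_lit 78) (nat_lit 0) (nat_lit 0) (XT.lf (nat_lit 0) (nat_lit 486364425866) (nat_lit 76) (nat_lit 163328623163) (nat_lit 76) (nat_lit 85311409823) (nat_lit 4) (nat_lit 4) (nat_lit 5) (nat_lit 5) (nat_lit 5) (nat_lit 4) (nat_lit 344) (nat_lit 276) (nat_lit 160)) (XT.nd (nat_lit 78) (nat_lit 0) (nat_lit 0) (XT.lf (nat_lit 0) (nat_lit 611750377447) (nat_lit 76) (nat_lit 128898759572) (nat_lit 76) (nat_lit 50880779296) (nat_lit 4) (nat_lit 4) (nat_lit 5) (nat_lit 5) (nat_lit 5) (nat_lit 4) (nat_lit 345) (nat_lit 276) (nat_lit 159)) (XT.lf (nat_lit 0) (nat_lit 747165568568) (nat_lit 76) (nat_lit 91715287630) (nat_lit 76) (nat_lit 13696597229) (nat_lit 4)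 (nat_lit 4) (nat_lit 5) (nat_lit 5) (nat_lit 5) (nat_lit 4) (nat_lit 346) (nat_lit 276) (nat_lit 158))))) (XT.nd (nat_lit 35334) (nat_lit 0) (nat_lit 6992) (XT.nd (nat_lit 35178) (nat_lit 0) (nat_lit 6916) (XT.lf (nat_lit 0) (nat_lit 25614554243) (nat_lit 152) (nat_lit 25509511723) (nat_lit 76) (nat_lit 867364110507) (nat_lit 3) (nat_lit 5) (nat_lit 5) (nat_lit 5) (nat_lit 4) (nat_lit 4) (nat_lit 347) (nat_lit 276) (nat_lit 157)) (XT.nd (nat_lit 78) (nat_lit 0) (nat_lit 0) (XT.lf (nat_lit 0) (nat_lit 2508064932) (nat_lit 0) (nat_lit 2508064932) (nat_lit 684) (nat_lit 2636610004) (nat_lit 94) (nat_lit 5) (nat_lit 94) (nat_lit 3) (nat_lit 103) (nat_lit 3) (nat_lit 277) (nat_lit 277) (nat_lit 226)) (XT.lf (nat_lit 76) (nat_lit 881769577) (nat_lit 0) (nat_lit 10081729034) (nat_lit 760) (nat_lit 4926951985) (nat_lit 95) (nat_lit 5) (nat_lit 94) (nat_lit 5) (nat_lit 104) (nat_lit 5) (nat_lit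 278) (nat_lit 277) (nat_lit 225)))) (XT.nd (nat_lit 78) (nat_lit 0) (nat_lit 0) (XT.lf (nat_lit 0) (nat_lit 12205157230) (nat_lit 684) (nat_lit 3324920170) (nat_lit 760) (nat_lit 980420818) (nat_lit 95) (nat_lit 5) (nat_lit 104) (nat_lit 5) (nat_lit 105) (nat_lit 5) (nat_lit 279) (nat_lit 277) (nat_lit 224)) (XT.nd (nat_lit 78) (nat_lit 0) (nat_lit 76) (XT.lf (nat_lit 76) (nat_lit 9399460750) (nat_lit 0) (nat_lit 4424487970) (nat_lit 760) (nat_lit 3342380482) (nat_lit 96) (nat_lit 5) (nat_lit 95) (nat_lit 5) (nat_lit 105) (nat_lit 5) (nat_lit 280) (nat_lit 277) (nat_lit 223)) (XT.lf (nat_lit 76) (nat_lit 5417118063) (nat_lit 0) (nat_lit 10380512461) (nat_lit 760) (nat_lit 2065791201) (nat_lit 97) (nat_lit 5) (nat_lit 96) (nat_lit 5) (nat_lit 106) (nat_lit 5) (nat_lit 281) (nat_lit 277) (nat_lit 222))))))) (XT.nd (nat_lit 858) (nat_lit 1976) (nat_lit 0) (XT.nd (nat_lit 390) (nat_lit 1292)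 (nat_lit 0) (XT.nd (nat_lit 156) (nat_lit 836) (nat_lit 0) (XT.nd (nat_lit 78) (nat_lit 760) (nat_lit 0) (XT.lf (nat_lit 76) (nat_lit 1236302543) (nat_lit 0) (nat_lit 16913929113) (nat_lit 760) (nat_lit 455058393) (nat_lit 98) (nat_lit 5) (nat_lit 97) (nat_lit 5) (nat_lit 107) (nat_lit 5) (nat_lit 282) (nat_lit 277) (nat_lit 221)) (XT.lf (nat_lit 0) (nat_lit 1606548228) (nat_lit 760) (nat_lit 3162997934) (nat_lit 836) (nat_lit 14617855095) (nat_lit 87) (nat_lit 5) (nat_lit 97) (nat_lit 5) (nat_lit 98) (nat_lit 5) (nat_lit 283) (nat_lit 277) (nat_lit 220))) (XT.nd (nat_lit 78) (nat_lit 912) (nat_lit 0) (XT.lf (nat_lit 0) (nat_lit 4117127126) (nat_lit 760) (nat_lit 7808419989) (nat_lit 76) (nat_lit 8291210605) (nat_lit 88) (nat_lit 5) (nat_lit 98) (nat_lit 5) (nat_lit 89) (nat_lit 5) (nat_lit 284) (nat_lit 277) (nat_lit 219)) (XT.nd (nat_lit 78) (nat_lit 380) (nat_lit 0) (XT.lf (nat_lit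 0) (nat_lit 7088666897) (nat_lit 608) (nat_lit 12730460488) (nat_lit 76) (nat_lit 1280374674) (nat_lit 81) (nat_lit 5) (nat_lit 89) (nat_lit 5) (nat_lit 82) (nat_lit 5) (nat_lit 285) (nat_lit 277) (nat_lit 218)) (XT.lf (nat_lit 0) (nat_lit 3971855147) (nat_lit 380) (nat_lit 6701188161) (nat_lit 456) (nat_lit 11361108714) (nat_lit 76) (nat_lit 5) (nat_lit 81) (nat_lit 5) (nat_lit 82) (nat_lit 5) (nat_lit 286) (nat_lit 277) (nat_lit 217))))) (XT.nd (nat_lit 234) (nat_lit 608) (nat_lit 0) (XT.nd (nat_lit 78) (nat_lit 684) (nat_lit 0) (XT.lf (nat_lit 0) (nat_lit 14861466314) (nat_lit 456) (nat_lit 713329469) (nat_lit 76) (nat_lit 7452952032) (nat_lit 76) (nat_lit 5) (nat_lit 82) (nat_lit 5) (nat_lit 77) (nat_lit 5) (nat_lit 287) (nat_lit 277) (nat_lit 216)) (XT.nd (nat_lit 78) (nat_lit 380) (nat_lit 0) (XT.lf (nat_lit 0) (nat_lit 18478280948) (nat_lit 304) (nat_lit 1285337782) (nat_lit 380)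 (nat_lit 4318315555) (nat_lit 72) (nat_lit 5) (nat_lit 76) (nat_lit 5) (nat_lit 77) (nat_lit 5) (nat_lit 288) (nat_lit 277) (nat_lit 215)) (XT.lf (nat_lit 0) (nat_lit 283795621) (nat_lit 380) (nat_lit 10982182383) (nat_lit 76) (nat_lit 13932580766) (nat_lit 67) (nat_lit 5) (nat_lit 72) (nat_lit 5) (nat_lit 68) (nat_lit 5) (nat_lit 289) (nat_lit 277) (nat_lit 214)))) (XT.nd (nat_lit 78) (nat_lit 304) (nat_lit 0) (XT.lf (nat_lit 0) (nat_lit 5421537893) (nat_lit 380) (nat_lit 16844275843) (nat_lit 76) (nat_lit 4119251354) (nat_lit 63) (nat_lit 5) (nat_lit 68) (nat_lit 5) (nat_lit 64) (nat_lit 5) (nat_lit 290) (nat_lit 277) (nat_lit 213)) (XT.nd (nat_lit 78) (nat_lit 0) (nat_lit 0) (XT.lf (nat_lit 0) (nat_lit 4364042901) (nat_lit 304) (nat_lit 7039287621) (nat_lit 380) (nat_lit 16241536906) (nat_lit 59) (nat_lit 5) (nat_lit 63) (nat_lit 5) (nat_lit 64) (nat_lit 5) (nat_lit 291) (nat_lit 277)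 (nat_lit 212)) (XT.lf (nat_lit 0) (nat_lit 18290263845) (nat_lit 380) (nat_lit 1295149309) (nat_lit 76) (nat_lit 9398735989) (nat_lit 59) (nat_lit 5) (nat_lit 64) (nat_lit 5) (nat_lit 60) (nat_lit 5) (nat_lit 292) (nat_lit 277) (nat_lit 211)))))) (XT.nd (nat_lit 390) (nat_lit 988) (nat_lit 0) (XT.nd (nat_lit 156) (nat_lit 456) (nat_lit 0) (XT.nd (nat_lit 78) (nat_lit 304) (nat_lit 0) (XT.lf (nat_lit 0) (nat_lit 23046805229) (nat_lit 228) (nat_lit 3142762184) (nat_lit 304) (nat_lit 4217958404) (nat_lit 56) (nat_lit 5) (nat_lit 59) (nat_lit 5) (nat_lit 60) (nat_lit 5) (nat_lit 293) (nat_lit 277) (nat_lit 210)) (XT.lf (nat_lit 0) (nat_lit 3207693633) (nat_lit 304) (nat_lit 14213765713) (nat_lit 76) (nat_lit 14495141563) (nat_lit 52) (nat_lit 5) (nat_lit 56) (nat_lit 5) (nat_lit 53) (nat_lit 5) (nat_lit 294) (nat_lit 277) (nat_lit 209))) (XT.nd (nat_lit 78) (nat_lit 228) (nat_lit 0) (XT.lf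 (nat_lit 0) (nat_lit 11436841583) (nat_lit 304) (nat_lit 21807506456) (nat_lit 76) (nat_lit 280754544) (nat_lit 49) (nat_lit 5) (nat_lit 53) (nat_lit 5) (nat_lit 50) (nat_lit 5) (nat_lit 295) (nat_lit 277) (nat_lit 208)) (XT.nd (nat_lit 78) (nat_lit 0) (nat_lit 0) (XT.lf (nat_lit 0) (nat_lit 4816764212) (nat_lit 228) (nat_lit 16113317163) (nat_lit 304) (nat_lit 14301932557) (nat_lit 46) (nat_lit 5) (nat_lit 49) (nat_lit 5) (nat_lit 50) (nat_lit 5) (nat_lit 296) (nat_lit 277) (nat_lit 207)) (XT.lf (nat_lit 0) (nat_lit 31592013638) (nat_lit 304) (nat_lit 2770729118) (nat_lit 76) (nat_lit 2692290008) (nat_lit 46) (nat_lit 5) (nat_lit 50) (nat_lit 5) (nat_lit 47) (nat_lit 5) (nat_lit 297) (nat_lit 277) (nat_lit 206))))) (XT.nd (nat_lit 234) (nat_lit 380) (nat_lit 0) (XT.nd (nat_lit 78) (nat_lit 380) (nat_lit 0) (XT.lf (nat_lit 0) (nat_lit 4654403167) (nat_lit 228) (nat_lit 11383764816) (nat_lit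 76) (nat_lit 22947448207) (nat_lit 43) (nat_lit 5) (nat_lit 46) (nat_lit 5) (nat_lit 44) (nat_lit 5) (nat_lit 298) (nat_lit 277) (nat_lit 205)) (XT.nd (nat_lit 78) (nat_lit 152) (nat_lit 0) (XT.lf (nat_lit 0) (nat_lit 15806387902) (nat_lit 304) (nat_lit 21152144088) (nat_lit 76) (nat_lit 4086821364) (nat_lit 40) (nat_lit 5) (nat_lit 44) (nat_lit 5) (nat_lit 41) (nat_lit 5) (nat_lit 299) (nat_lit 277) (nat_lit 204)) (XT.lf (nat_lit 0) (nat_lit 10875027083) (nat_lit 152) (nat_lit 17605210553) (nat_lit 228) (nat_lit 14758158822) (nat_lit 38) (nat_lit 5) (nat_lit 40) (nat_lit 5) (nat_lit 41) (nat_lit 5) (nat_lit 300) (nat_lit 277) (nat_lit 203)))) (XT.nd (nat_lit 78) (nat_lit 228) (nat_lit 0) (XT.lf (nat_lit 0) (nat_lit 574167414) (nat_lit 152) (nat_lit 42017217192) (nat_lit 228) (nat_lit 2994340310) (nat_lit 36) (nat_lit 5) (nat_lit 38) (nat_lit 5) (nat_lit 39) (nat_lit 5) (nat_lit 301) (nat_lit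 277) (nat_lit 202)) (XT.nd (nat_lit 78) (nat_lit 152) (nat_lit 0) (XT.lf (nat_lit 0) (nat_lit 10258490249) (nat_lit 228) (nat_lit 11265516630) (nat_lit 76) (nat_lit 26546327031) (nat_lit 35) (nat_lit 5) (nat_lit 38) (nat_lit 5) (nat_lit 36) (nat_lit 5) (nat_lit 302) (nat_lit 277) (nat_lit 201)) (XT.lf (nat_lit 0) (nat_lit 24879661127) (nat_lit 228) (nat_lit 24804505329) (nat_lit 76) (nat_lit 1046449025) (nat_lit 33) (nat_lit 5) (nat_lit 36) (nat_lit 5) (nat_lit 34) (nat_lit 5) (nat_lit 303) (nat_lit 277) (nat_lit 200))))))))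
noncomputable def xc80 : XT := (XT.nd (nat_lit 1638) (nat_lit 532) (nat_lit 0) (XT.nd (nat_lit 780) (nat_lit 532) (nat_lit 0) (XT.nd (nat_lit 390) (nat_lit 532) (nat_lit 0) (XT.nd (nat_lit 156) (nat_lit 380) (nat_lit 0) (XT.nd (nat_lit 78) (nat_lit 76) (nat_lit 0) (XT.lf (nat_lit 0) (nat_lit 12933290138) (nat_lit 152) (nat_lit 28491665572) (nat_lit 228) (nat_lit 12141050960) (nat_lit 31) (nat_lit 5) (nat_lit 33) (nat_lit 5) (nat_lit 34) (nat_lit 5) (nat_lit 304) (nat_lit 277) (nat_lit 199)) (XT.lf (nat_lit 0) (nat_lit 3009937444) (nat_lit 228) (nat_lit 2095038872) (nat_lit 76) (nat_lit 51499699010) (nat_lit 30) (nat_lit 5) (nat_lit 33) (nat_lit 5) (nat_lit 31) (nat_lit 5) (nat_lit 305) (nat_lit 277) (nat_lit 198))) (XT.nd (nat_lit 78) (nat_lit 228) (nat_lit 0) (XT.lf (nat_lit 0) (nat_lit 19906761262) (nat_lit 228) (nat_lit 19567097967) (nat_lit 76) (nat_lit 20354677600) (nat_lit 28) (nat_lit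 5) (nat_lit 31) (nat_lit 5) (nat_lit 29) (nat_lit 5) (nat_lit 306) (nat_lit 277) (nat_lit 197)) (XT.nd (nat_lit 78) (nat_lit 76) (nat_lit 0) (XT.lf (nat_lit 0) (nat_lit 23421581291) (nat_lit 152) (nat_lit 15214109149) (nat_lit 228) (nat_lit 24650605337) (nat_lit 26) (nat_lit 5) (nat_lit 28) (nat_lit 5) (nat_lit 29) (nat_lit 5) (nat_lit 307) (nat_lit 277) (nat_lit 196)) (XT.lf (nat_lit 0) (nat_lit 3464368238) (nat_lit 76) (nat_lit 55962460479) (nat_lit 152) (nat_lit 7565658004) (nat_lit 25) (nat_lit 5) (nat_lit 26) (nat_lit 5) (nat_lit 27) (nat_lit 4) (nat_lit 308) (nat_lit 277) (nat_lit 195))))) (XT.nd (nat_lit 156) (nat_lit 304) (nat_lit 0) (XT.nd (nat_lit 78) (nat_lit 152) (nat_lit 0) (XT.lf (nat_lit 0) (nat_lit 11492109861) (nat_lit 152) (nat_lit 19728519678) (nat_lit 76) (nat_lit 39718328217) (nat_lit 24) (nat_lit 5) (nat_lit 26) (nat_lit 5) (nat_lit 25) (nat_lit 5) (nat_lit 309) (nat_lit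 277) (nat_lit 194)) (XT.lf (nat_lit 0) (nat_lit 28342083755) (nat_lit 152) (nat_lit 3906087438) (nat_lit 228) (nat_lit 42924842045) (nat_lit 22) (nat_lit 5) (nat_lit 24) (nat_lit 5) (nat_lit 25) (nat_lit 5) (nat_lit 310) (nat_lit 277) (nat_lit 193))) (XT.nd (nat_lit 78) (nat_lit 228) (nat_lit 0) (XT.lf (nat_lit 0) (nat_lit 843762071) (nat_lit 76) (nat_lit 54575977615) (nat_lit 152) (nat_lit 24288306908) (nat_lit 21) (nat_lit 5) (nat_lit 22) (nat_lit 5) (nat_lit 23) (nat_lit 4) (nat_lit 311) (nat_lit 277) (nat_lit 192)) (XT.nd (nat_lit 78) (nat_lit 228) (nat_lit 0) (XT.lf (nat_lit 0) (nat_lit 53924990984) (nat_lit 76) (nat_lit 27393915479) (nat_lit 152) (nat_lit 3243286727) (nat_lit 21) (nat_lit 5) (nat_lit 22) (nat_lit 5) (nat_lit 23) (nat_lit 4) (nat_lit 312) (nat_lit 277) (nat_lit 191)) (XT.lf (nat_lit 0) (nat_lit 19237375079) (nat_lit 228) (nat_lit 67982368415) (nat_lit 76) (nat_lit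 2550936080) (nat_lit 18) (nat_lit 5) (nat_lit 21) (nat_lit 5) (nat_lit 19) (nat_lit 4) (nat_lit 313) (nat_lit 277) (nat_lit 190)))))) (XT.nd (nat_lit 390) (nat_lit 304) (nat_lit 0) (XT.nd (nat_lit 156) (nat_lit 152) (nat_lit 0) (XT.nd (nat_lit 78) (nat_lit 76) (nat_lit 0) (XT.lf (nat_lit 0) (nat_lit 44402648047) (nat_lit 228) (nat_lit 16403408412) (nat_lit 76) (nat_lit 34537144056) (nat_lit 18) (nat_lit 5) (nat_lit 21) (nat_lit 5) (nat_lit 19) (nat_lit 4) (nat_lit 314) (nat_lit 277) (nat_lit 189)) (XT.lf (nat_lit 0) (nat_lit 40591025716) (nat_lit 76) (nat_lit 31618234093) (nat_lit 152) (nat_lit 29120860660) (nat_lit 17) (nat_lit 5) (nat_lit 18) (nat_lit 5) (nat_lit 19) (nat_lit 4) (nat_lit 315) (nat_lit 277) (nat_lit 188))) (XT.nd (nat_lit 78) (nat_lit 152) (nat_lit 0) (XT.lf (nat_lit 0) (nat_lit 102523910721) (nat_lit 152) (nat_lit 5063906037) (nat_lit 0) (nat_lit 194004699) (nat_lit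 17) (nat_lit 5) (nat_lit 19) (nat_lit 4) (nat_lit 17) (nat_lit 4) (nat_lit 316) (nat_lit 277) (nat_lit 187)) (XT.nd (nat_lit 78) (nat_lit 0) (nat_lit 0) (XT.lf (nat_lit 0) (nat_lit 21288094319) (nat_lit 152) (nat_lit 58696759254) (nat_lit 76) (nat_lit 34677263559) (nat_lit 15) (nat_lit 5) (nat_lit 17) (nat_lit 5) (nat_lit 16) (nat_lit 4) (nat_lit 317) (nat_lit 277) (nat_lit 186)) (XT.lf (nat_lit 0) (nat_lit 49860822772) (nat_lit 152) (nat_lit 129560914) (nat_lit 76) (nat_lit 72093782690) (nat_lit 15) (nat_lit 5) (nat_lit 17) (nat_lit 5) (nat_lit 16) (nat_lit 4) (nat_lit 318) (nat_lit 277) (nat_lit 185))))) (XT.nd (nat_lit 234) (nat_lit 76) (nat_lit 0) (XT.nd (nat_lit 78) (nat_lit 152) (nat_lit 0) (XT.lf (nat_lit 0) (nat_lit 65201704410) (nat_lit 76) (nat_lit 16531142543) (nat_lit 152) (nat_lit 48316460963) (nat_lit 14) (nat_lit 5) (nat_lit 15) (nat_lit 5) (nat_lit 16) (nat_lit 4) (nat_lit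 319) (nat_lit 277) (nat_lit 184)) (XT.nd (nat_lit 78) (nat_lit 152) (nat_lit 0) (XT.lf (nat_lit 0) (nat_lit 116458666106) (nat_lit 152) (nat_lit 3201551059) (nat_lit 0) (nat_lit 18976244025) (nat_lit 14) (nat_lit 5) (nat_lit 16) (nat_lit 4) (nat_lit 14) (nat_lit 4) (nat_lit 320) (nat_lit 277) (nat_lit 183)) (XT.lf (nat_lit 0) (nat_lit 7171748346) (nat_lit 152) (nat_lit 82785550792) (nat_lit 76) (nat_lit 57882890758) (nat_lit 12) (nat_lit 5) (nat_lit 14) (nat_lit 5) (nat_lit 13) (nat_lit 4) (nat_lit 321) (nat_lit 277) (nat_lit 182)))) (XT.nd (nat_lit 78) (nat_lit 76) (nat_lit 0) (XT.lf (nat_lit 0) (nat_lit 38155422240) (nat_lit 152) (nat_lit 19273845998) (nat_lit 76) (nat_lit 100329613380) (nat_lit 12) (nat_lit 5) (nat_lit 14) (nat_lit 5) (nat_lit 13) (nat_lit 4) (nat_lit 322) (nat_lit 277) (nat_lit 181)) (XT.nd (nat_lit 78) (nat_lit 0) (nat_lit 0) (XT.lf (nat_lit 0) (nat_lit 50942614004)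 (nat_lit 76) (nat_lit 21466920020) (nat_lit 152) (nat_lit 96021949015) (nat_lit 11) (nat_lit 5) (nat_lit 12) (nat_lit 5) (nat_lit 13) (nat_lit 4) (nat_lit 323) (nat_lit 277) (nat_lit 180)) (XT.lf (nat_lit 0) (nat_lit 110012958124) (nat_lit 152) (nat_lit 52759689413) (nat_lit 0) (nat_lit 17154797312) (nat_lit 11) (nat_lit 5) (nat_lit 13) (nat_lit 4) (nat_lit 11) (nat_lit 4) (nat_lit 324) (nat_lit 277) (nat_lit 179))))))) (XT.nd (nat_lit 858) (nat_lit 76) (nat_lit 0) (XT.nd (nat_lit 390) (nat_lit 228) (nat_lit 0) (XT.nd (nat_lit 156) (nat_lit 152) (nat_lit 0) (XT.nd (nat_lit 78) (nat_lit 0) (nat_lit 0) (XT.lf (nat_lit 0) (nat_lit 17334650377) (nat_lit 76) (nat_lit 133919387702) (nat_lit 76) (nat_lit 41057577766) (nat_lit 10) (nat_lit 4) (nat_lit 11) (nat_lit 5) (nat_lit 11) (nat_lit 4) (nat_lit 325) (nat_lit 277) (nat_lit 178)) (XT.lf (nat_lit 0) (nat_lit 94914810670) (nat_lit 76) (nat_lit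 101795550992) (nat_lit 76) (nat_lit 8930362238) (nat_lit 10) (nat_lit 4) (nat_lit 11) (nat_lit 5) (nat_lit 11) (nat_lit 4) (nat_lit 326) (nat_lit 277) (nat_lit 177))) (XT.nd (nat_lit 78) (nat_lit 76) (nat_lit 0) (XT.lf (nat_lit 0) (nat_lit 24939422550) (nat_lit 152) (nat_lit 41742501061) (nat_lit 76) (nat_lit 153334268407) (nat_lit 9) (nat_lit 5) (nat_lit 11) (nat_lit 5) (nat_lit 10) (nat_lit 4) (nat_lit 327) (nat_lit 277) (nat_lit 176)) (XT.nd (nat_lit 78) (nat_lit 0) (nat_lit 0) (XT.lf (nat_lit 0) (nat_lit 33682009965) (nat_lit 76) (nat_lit 28051270057) (nat_lit 152) (nat_lit 173774730290) (nat_lit 8) (nat_lit 5) (nat_lit 9) (nat_lit 5) (nat_lit 10) (nat_lit 4) (nat_lit 328) (nat_lit 277) (nat_lit 175)) (XT.lf (nat_lit 0) (nat_lit 102420519910) (nat_lit 152) (nat_lit 135801971304) (nat_lit 0) (nat_lit 13969190103) (nat_lit 8) (nat_lit 5) (nat_lit 10) (nat_lit 4) (nat_lit 8) (nat_lit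 4) (nat_lit 329) (nat_lit 277) (nat_lit 174))))) (XT.nd (nat_lit 234) (nat_lit 152) (nat_lit 0) (XT.nd (nat_lit 78) (nat_lit 76) (nat_lit 0) (XT.lf (nat_lit 0) (nat_lit 146833328910) (nat_lit 152) (nat_lit 64973554627) (nat_lit 0) (nat_lit 58379633834) (nat_lit 8) (nat_lit 5) (nat_lit 10) (nat_lit 4) (nat_lit 8) (nat_lit 4) (nat_lit 330) (nat_lit 277) (nat_lit 173)) (XT.nd (nat_lit 78) (nat_lit 0) (nat_lit 0) (XT.lf (nat_lit 0) (nat_lit 11897734376) (nat_lit 76) (nat_lit 183084957703) (nat_lit 76) (nat_lit 94629072563) (nat_lit 7) (nat_lit 4) (nat_lit 8) (nat_lit 5) (nat_lit 8) (nat_lit 4) (nat_lit 331) (nat_lit 277) (nat_lit 172)) (XT.lf (nat_lit 0) (nat_lit 97234891014) (nat_lit 76) (nat_lit 150878785397) (nat_lit 76) (nat_lit 62420872420) (nat_lit 7) (nat_lit 4) (nat_lit 8) (nat_lit 5) (nat_lit 8) (nat_lit 4) (nat_lit 332) (nat_lit 277) (nat_lit 171)))) (XT.nd (nat_lit 78) (nat_lit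 152) (nat_lit 0) (XT.lf (nat_lit 0) (nat_lit 189395297811) (nat_lit 76) (nat_lit 116097873814) (nat_lit 76) (nat_lit 27638083211) (nat_lit 7) (nat_lit 4) (nat_lit 8) (nat_lit 5) (nat_lit 8) (nat_lit 4) (nat_lit 333) (nat_lit 277) (nat_lit 170)) (XT.nd (nat_lit 78) (nat_lit 76) (nat_lit 0) (XT.lf (nat_lit 0) (nat_lit 9607740021) (nat_lit 152) (nat_lit 68765662103) (nat_lit 76) (nat_lit 279154638764) (nat_lit 6) (nat_lit 5) (nat_lit 8) (nat_lit 5) (nat_lit 7) (nat_lit 4) (nat_lit 334) (nat_lit 277) (nat_lit 169)) (XT.lf (nat_lit 0) (nat_lit 12120924510) (nat_lit 76) (nat_lit 36944472279) (nat_lit 152) (nat_lit 334778495856) (nat_lit 5) (nat_lit 5) (nat_lit 6) (nat_lit 5) (nat_lit 7) (nat_lit 4) (nat_lit 335) (nat_lit 277) (nat_lit 168)))))) (XT.nd (nat_lit 390) (nat_lit 76) (nat_lit 0) (XT.nd (nat_lit 156) (nat_lit 0) (nat_lit 0) (XT.nd (nat_lit 78) (nat_lit 0) (nat_lit 0) (XT.lf (nat_lit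 0) (nat_lit 93017257430) (nat_lit 152) (nat_lit 310415646666) (nat_lit 0) (nat_lit 8765229401) (nat_lit 5) (nat_lit 5) (nat_lit 7) (nat_lit 4) (nat_lit 5) (nat_lit 4) (nat_lit 336) (nat_lit 277) (nat_lit 167)) (XT.lf (nat_lit 0) (nat_lit 141106681388) (nat_lit 152) (nat_lit 244829623020) (nat_lit 0) (nat_lit 56853338967) (nat_lit 5) (nat_lit 5) (nat_lit 7) (nat_lit 4) (nat_lit 5) (nat_lit 4) (nat_lit 337) (nat_lit 277) (nat_lit 166))) (XT.nd (nat_lit 78) (nat_lit 0) (nat_lit 0) (XT.lf (nat_lit 0) (nat_lit 193041836278) (nat_lit 152) (nat_lit 173999432532) (nat_lit 0) (nat_lit 108787276828) (nat_lit 5) (nat_lit 5) (nat_lit 7) (nat_lit 4) (nat_lit 5) (nat_lit 4) (nat_lit 338) (nat_lit 277) (nat_lit 165)) (XT.nd (nat_lit 78) (nat_lit 0) (nat_lit 0) (XT.lf (nat_lit 0) (nat_lit 249130485983) (nat_lit 152) (nat_lit 97505340738) (nat_lit 0) (nat_lit 164874799654) (nat_lit 5) (nat_lit 5) (nat_lit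 7) (nat_lit 4) (nat_lit 5) (nat_lit 4) (nat_lit 339) (nat_lit 277) (nat_lit 164)) (XT.lf (nat_lit 0) (nat_lit 309705007685) (nat_lit 152) (nat_lit 14894049319) (nat_lit 0) (nat_lit 225448277949) (nat_lit 5) (nat_lit 5) (nat_lit 7) (nat_lit 4) (nat_lit 5) (nat_lit 4) (nat_lit 340) (nat_lit 277) (nat_lit 163))))) (XT.nd (nat_lit 234) (nat_lit 0) (nat_lit 0) (XT.nd (nat_lit 78) (nat_lit 0) (nat_lit 0) (XT.lf (nat_lit 0) (nat_lit 76781476891) (nat_lit 76) (nat_lit 299541658656) (nat_lit 76) (nat_lit 215283962802) (nat_lit 4) (nat_lit 4) (nat_lit 5) (nat_lit 5) (nat_lit 5) (nat_lit 4) (nat_lit 341) (nat_lit 277) (nat_lit 162)) (XT.nd (nat_lit 78) (nat_lit 0) (nat_lit 0) (XT.lf (nat_lit 0) (nat_lit 176320845268) (nat_lit 76) (nat_lit 272208234977) (nat_lit 76) (nat_lit 187949644570) (nat_lit 4) (nat_lit 4) (nat_lit 5) (nat_lit 5) (nat_lit 5) (nat_lit 4) (nat_lit 342) (nat_lit 277) (nat_lit 161))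 (XT.lf (nat_lit 0) (nat_lit 283821454201) (nat_lit 76) (nat_lit 242689048055) (nat_lit 76) (nat_lit 158429629358) (nat_lit 4) (nat_lit 4) (nat_lit 5) (nat_lit 5) (nat_lit 5) (nat_lit 4) (nat_lit 343) (nat_lit 277) (nat_lit 160)))) (XT.nd (nat_lit 78) (nat_lit 0) (nat_lit 0) (XT.lf (nat_lit 0) (nat_lit 399920344337) (nat_lit 76) (nat_lit 210809169376) (nat_lit 76) (nat_lit 126548983743) (nat_lit 4) (nat_lit 4) (nat_lit 5) (nat_lit 5) (nat_lit 5) (nat_lit 4) (nat_lit 344) (nat_lit 277) (nat_lit 159)) (XT.nd (nat_lit 78) (nat_lit 0) (nat_lit 0) (XT.lf (nat_lit 0) (nat_lit 525305509097) (nat_lit 76) (nat_lit 176379681139) (nat_lit 76) (nat_lit 92118785381) (nat_lit 4) (nat_lit 4) (nat_lit 5) (nat_lit 5) (nat_lit 5) (nat_lit 4) (nat_lit 345) (nat_lit 277) (nat_lit 158)) (XT.lf (nat_lit 0) (nat_lit 660719971681) (nat_lit 76) (nat_lit 139196556747) (nat_lit 76) (nat_lit 54935003467) (nat_lit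 4) (nat_lit 4) (nat_lit 5) (nat_lit 5) (nat_lit 5) (nat_lit 4) (nat_lit 346) (nat_lit 277) (nat_lit 157))))))))
noncomputable def xc81 : XT := (XT.nd (nat_lit 36816) (nat_lit 0) (nat_lit 760) (XT.nd (nat_lit 35958) (nat_lit 0) (nat_lit 3192) (XT.nd (nat_lit 35568) (nat_lit 0) (nat_lit 5852) (XT.nd (nat_lit 35334) (nat_lit 0) (nat_lit 6840) (XT.nd (nat_lit 35256) (nat_lit 0) (nat_lit 6840) (XT.lf (nat_lit 0) (nat_lit 806966188162) (nat_lit 76) (nat_lit 99039451761) (nat_lit 76) (nat_lit 14777289662) (nat_lit 4) (nat_lit 4) (nat_lit 5) (nat_lit 5) (nat_lit 5) (nat_lit 4) (nat_lit 347) (nat_lit 277) (nat_lit 156)) (XT.lf (nat_lit 0) (nat_lit 2914984272) (nat_lit 0) (nat_lit 2914984272) (nat_lit 684) (nat_lit 2413630251) (nat_lit 94) (nat_lit 5) (nat_lit 94) (nat_lit 3) (nat_lit 103) (nat_lit 3) (nat_lit 278) (nat_lit 278) (nat_lit 224))) (XT.nd (nat_lit 78) (nat_lit 0) (nat_lit 76) (XT.lf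 (nat_lit 76) (nat_lit 1393955647) (nat_lit 0) (nat_lit 11211532557) (nat_lit 760) (nat_lit 4516595828) (nat_lit 95) (nat_lit 5) (nat_lit 94) (nat_lit 5) (nat_lit 104) (nat_lit 5) (nat_lit 279) (nat_lit 278) (nat_lit 223)) (XT.nd (nat_lit 78) (nat_lit 0) (nat_lit 0) (XT.lf (nat_lit 0) (nat_lit 13885146317) (nat_lit 684) (nat_lit 3140641385) (nat_lit 760) (nat_lit 769114951) (nat_lit 95) (nat_lit 5) (nat_lit 104) (nat_lit 5) (nat_lit 105) (nat_lit 5) (nat_lit 280) (nat_lit 278) (nat_lit 222)) (XT.lf (nat_lit 76) (nat_lit 10582121720) (nat_lit 0) (nat_lit 5005927126) (nat_lit 760) (nat_lit 2917513965) (nat_lit 96) (nat_lit 5) (nat_lit 95) (nat_lit 5) (nat_lit 105) (nat_lit 5) (nat_lit 281) (nat_lit 278) (nat_lit 221))))) (XT.nd (nat_lit 156) (nat_lit 456) (nat_lit 0) (XT.nd (nat_lit 78) (nat_lit 684) (nat_lit 0) (XT.lf (nat_lit 76) (nat_lit 6298462965) (nat_lit 0) (nat_lit 11376113474) (nat_lit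 760) (nat_lit 1586184920) (nat_lit 97) (nat_lit 5) (nat_lit 96) (nat_lit 5) (nat_lit 106) (nat_lit 5) (nat_lit 282) (nat_lit 278) (nat_lit 220)) (XT.lf (nat_lit 0) (nat_lit 107151270) (nat_lit 760) (nat_lit 18269282056) (nat_lit 836) (nat_lit 1687569333) (nat_lit 87) (nat_lit 5) (nat_lit 97) (nat_lit 5) (nat_lit 98) (nat_lit 5) (nat_lit 283) (nat_lit 278) (nat_lit 219))) (XT.nd (nat_lit 78) (nat_lit 456) (nat_lit 0) (XT.lf (nat_lit 0) (nat_lit 2274779908) (nat_lit 760) (nat_lit 2970156903) (nat_lit 836) (nat_lit 15665591500) (nat_lit 87) (nat_lit 5) (nat_lit 97) (nat_lit 5) (nat_lit 98) (nat_lit 5) (nat_lit 284) (nat_lit 278) (nat_lit 218)) (XT.nd (nat_lit 78) (nat_lit 532) (nat_lit 0) (XT.lf (nat_lit 0) (nat_lit 4951638446) (nat_lit 760) (nat_lit 7979209020) (nat_lit 76) (nat_lit 8877179319) (nat_lit 88) (nat_lit 5) (nat_lit 98) (nat_lit 5) (nat_lit 89) (nat_lit 5) (nat_lit 285) (nat_lit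 278) (nat_lit 217)) (XT.lf (nat_lit 0) (nat_lit 8129632121) (nat_lit 608) (nat_lit 13289628923) (nat_lit 76) (nat_lit 1343753425) (nat_lit 81) (nat_lit 5) (nat_lit 89) (nat_lit 5) (nat_lit 82) (nat_lit 5) (nat_lit 286) (nat_lit 278) (nat_lit 216)))))) (XT.nd (nat_lit 390) (nat_lit 1292) (nat_lit 0) (XT.nd (nat_lit 156) (nat_lit 988) (nat_lit 0) (XT.nd (nat_lit 78) (nat_lit 0) (nat_lit 0) (XT.lf (nat_lit 0) (nat_lit 4728912719) (nat_lit 380) (nat_lit 7243603154) (nat_lit 456) (nat_lit 11801388559) (nat_lit 76) (nat_lit 5) (nat_lit 81) (nat_lit 5) (nat_lit 82) (nat_lit 5) (nat_lit 287) (nat_lit 278) (nat_lit 215)) (XT.lf (nat_lit 0) (nat_lit 16462911792) (nat_lit 456) (nat_lit 342259175) (nat_lit 76) (nat_lit 8043523692) (nat_lit 76) (nat_lit 5) (nat_lit 82) (nat_lit 5) (nat_lit 77) (nat_lit 5) (nat_lit 288) (nat_lit 278) (nat_lit 214))) (XT.nd (nat_lit 78) (nat_lit 684) (nat_lit 0) (XT.lf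 (nat_lit 0) (nat_lit 20366073779) (nat_lit 304) (nat_lit 1366998896) (nat_lit 380) (nat_lit 4255399451) (nat_lit 72) (nat_lit 5) (nat_lit 76) (nat_lit 5) (nat_lit 77) (nat_lit 5) (nat_lit 289) (nat_lit 278) (nat_lit 213)) (XT.nd (nat_lit 78) (nat_lit 304) (nat_lit 0) (XT.lf (nat_lit 0) (nat_lit 679353727) (nat_lit 380) (nat_lit 11437337229) (nat_lit 76) (nat_lit 15078581859) (nat_lit 67) (nat_lit 5) (nat_lit 72) (nat_lit 5) (nat_lit 68) (nat_lit 5) (nat_lit 290) (nat_lit 278) (nat_lit 212)) (XT.lf (nat_lit 0) (nat_lit 6207654655) (nat_lit 380) (nat_lit 17769567340) (nat_lit 76) (nat_lit 4500539788) (nat_lit 63) (nat_lit 5) (nat_lit 68) (nat_lit 5) (nat_lit 64) (nat_lit 5) (nat_lit 291) (nat_lit 278) (nat_lit 211))))) (XT.nd (nat_lit 234) (nat_lit 760) (nat_lit 0) (XT.nd (nat_lit 78) (nat_lit 228) (nat_lit 0) (XT.lf (nat_lit 0) (nat_lit 5117066408) (nat_lit 304) (nat_lit 7531127058) (nat_lit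 380) (nat_lit 17191180911) (nat_lit 59) (nat_lit 5) (nat_lit 63) (nat_lit 5) (nat_lit 64) (nat_lit 5) (nat_lit 292) (nat_lit 278) (nat_lit 210)) (XT.nd (nat_lit 78) (nat_lit 228) (nat_lit 0) (XT.lf (nat_lit 0) (nat_lit 20062475463) (nat_lit 380) (nat_lit 1009993410) (nat_lit 76) (nat_lit 10214543584) (nat_lit 59) (nat_lit 5) (nat_lit 64) (nat_lit 5) (nat_lit 60) (nat_lit 5) (nat_lit 293) (nat_lit 278) (nat_lit 209)) (XT.lf (nat_lit 0) (nat_lit 25262422115) (nat_lit 228) (nat_lit 3314218988) (nat_lit 304) (nat_lit 4248503318) (nat_lit 56) (nat_lit 5) (nat_lit 59) (nat_lit 5) (nat_lit 60) (nat_lit 5) (nat_lit 294) (nat_lit 278) (nat_lit 208)))) (XT.nd (nat_lit 78) (nat_lit 456) (nat_lit 0) (XT.lf (nat_lit 0) (nat_lit 3746401412) (nat_lit 304) (nat_lit 14972348097) (nat_lit 76) (nat_lit 15736732664) (nat_lit 52) (nat_lit 5) (nat_lit 56) (nat_lit 5) (nat_lit 53) (nat_lit 5) (nat_lit 295) (nat_lit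 278) (nat_lit 207)) (XT.nd (nat_lit 78) (nat_lit 228) (nat_lit 0) (XT.lf (nat_lit 0) (nat_lit 12620125026) (nat_lit 304) (nat_lit 23177865391) (nat_lit 76) (nat_lit 395386722) (nat_lit 49) (nat_lit 5) (nat_lit 53) (nat_lit 5) (nat_lit 50) (nat_lit 5) (nat_lit 296) (nat_lit 278) (nat_lit 206)) (XT.lf (nat_lit 0) (nat_lit 5560082848) (nat_lit 228) (nat_lit 17298453435) (nat_lit 304) (nat_lit 15179042968) (nat_lit 46) (nat_lit 5) (nat_lit 49) (nat_lit 5) (nat_lit 50) (nat_lit 5) (nat_lit 297) (nat_lit 278) (nat_lit 205))))))) (XT.nd (nat_lit 858) (nat_lit 912) (nat_lit 0) (XT.nd (nat_lit 390) (nat_lit 760) (nat_lit 0) (XT.nd (nat_lit 156) (nat_lit 532) (nat_lit 0) (XT.nd (nat_lit 78) (nat_lit 228) (nat_lit 0) (XT.lf (nat_lit 0) (nat_lit 34356107158) (nat_lit 304) (nat_lit 2650396086) (nat_lit 76) (nat_lit 3000823876) (nat_lit 46) (nat_lit 5) (nat_lit 50) (nat_lit 5) (nat_lit 47) (nat_lit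 5) (nat_lit 298) (nat_lit 278) (nat_lit 204)) (XT.lf (nat_lit 0) (nat_lit 5254980100) (nat_lit 228) (nat_lit 11959551484) (nat_lit 76) (nat_lit 24878283122) (nat_lit 43) (nat_lit 5) (nat_lit 46) (nat_lit 5) (nat_lit 44) (nat_lit 5) (nat_lit 299) (nat_lit 278) (nat_lit 203))) (XT.nd (nat_lit 78) (nat_lit 304) (nat_lit 0) (XT.lf (nat_lit 0) (nat_lit 17288844127) (nat_lit 304) (nat_lit 22514542565) (nat_lit 76) (nat_lit 4514475868) (nat_lit 40) (nat_lit 5) (nat_lit 44) (nat_lit 5) (nat_lit 41) (nat_lit 5) (nat_lit 300) (nat_lit 278) (nat_lit 202)) (XT.nd (nat_lit 78) (nat_lit 152) (nat_lit 0) (XT.lf (nat_lit 0) (nat_lit 12060470765) (nat_lit 152) (nat_lit 18904911913) (nat_lit 228) (nat_lit 15721543823) (nat_lit 38) (nat_lit 5) (nat_lit 40) (nat_lit 5) (nat_lit 41) (nat_lit 5) (nat_lit 301) (nat_lit 278) (nat_lit 201)) (XT.lf (nat_lit 0) (nat_lit 930293574) (nat_lit 152) (nat_lit 45266229394)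 (nat_lit 228) (nat_lit 3025978402) (nat_lit 36) (nat_lit 5) (nat_lit 38) (nat_lit 5) (nat_lit 39) (nat_lit 5) (nat_lit 302) (nat_lit 278) (nat_lit 200))))) (XT.nd (nat_lit 234) (nat_lit 380) (nat_lit 0) (XT.nd (nat_lit 78) (nat_lit 304) (nat_lit 0) (XT.lf (nat_lit 0) (nat_lit 11265516452) (nat_lit 228) (nat_lit 11873213273) (nat_lit 76) (nat_lit 28767745860) (nat_lit 35) (nat_lit 5) (nat_lit 38) (nat_lit 5) (nat_lit 36) (nat_lit 5) (nat_lit 303) (nat_lit 278) (nat_lit 199)) (XT.nd (nat_lit 78) (nat_lit 152) (nat_lit 0) (XT.lf (nat_lit 0) (nat_lit 27048582950) (nat_lit 228) (nat_lit 26500698076) (nat_lit 76) (nat_lit 1230700980) (nat_lit 33) (nat_lit 5) (nat_lit 36) (nat_lit 5) (nat_lit 34) (nat_lit 5) (nat_lit 304) (nat_lit 278) (nat_lit 198)) (XT.lf (nat_lit 0) (nat_lit 14243597613) (nat_lit 152) (nat_lit 30664981220) (nat_lit 228) (nat_lit 12934083272) (nat_lit 31) (nat_lit 5) (nat_lit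 33) (nat_lit 5) (nat_lit 34) (nat_lit 5) (nat_lit 305) (nat_lit 278) (nat_lit 197)))) (XT.nd (nat_lit 78) (nat_lit 304) (nat_lit 0) (XT.lf (nat_lit 0) (nat_lit 3410497805) (nat_lit 228) (nat_lit 2002006469) (nat_lit 76) (nat_lit 55712430031) (nat_lit 30) (nat_lit 5) (nat_lit 33) (nat_lit 5) (nat_lit 31) (nat_lit 5) (nat_lit 306) (nat_lit 278) (nat_lit 196)) (XT.nd (nat_lit 78) (nat_lit 152) (nat_lit 0) (XT.lf (nat_lit 0) (nat_lit 21652647482) (nat_lit 228) (nat_lit 20876970660) (nat_lit 76) (nat_lit 22077416979) (nat_lit 28) (nat_lit 5) (nat_lit 31) (nat_lit 5) (nat_lit 29) (nat_lit 5) (nat_lit 307) (nat_lit 278) (nat_lit 195)) (XT.lf (nat_lit 0) (nat_lit 25539699431) (nat_lit 152) (nat_lit 16332648290) (nat_lit 228) (nat_lit 26469452925) (nat_lit 26) (nat_lit 5) (nat_lit 28) (nat_lit 5) (nat_lit 29) (nat_lit 5) (nat_lit 308) (nat_lit 278) (nat_lit 194)))))) (XT.nd (nat_lit 390) (nat_lit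 532) (nat_lit 0) (XT.nd (nat_lit 156) (nat_lit 228) (nat_lit 0) (XT.nd (nat_lit 78) (nat_lit 76) (nat_lit 0) (XT.lf (nat_lit 0) (nat_lit 3980893256) (nat_lit 76) (nat_lit 60340246215) (nat_lit 152) (nat_lit 8023637323) (nat_lit 25) (nat_lit 5) (nat_lit 26) (nat_lit 5) (nat_lit 27) (nat_lit 4) (nat_lit 309) (nat_lit 278) (nat_lit 193)) (XT.lf (nat_lit 0) (nat_lit 12543478330) (nat_lit 152) (nat_lit 21080703963) (nat_lit 76) (nat_lit 42983203352) (nat_lit 24) (nat_lit 5) (nat_lit 26) (nat_lit 5) (nat_lit 25) (nat_lit 5) (nat_lit 310) (nat_lit 278) (nat_lit 192))) (XT.nd (nat_lit 78) (nat_lit 76) (nat_lit 0) (XT.lf (nat_lit 0) (nat_lit 30825721833) (nat_lit 152) (nat_lit 4127901584) (nat_lit 228) (nat_lit 46226868779) (nat_lit 22) (nat_lit 5) (nat_lit 24) (nat_lit 5) (nat_lit 25) (nat_lit 5) (nat_lit 311) (nat_lit 278) (nat_lit 191)) (XT.nd (nat_lit 78) (nat_lit 0) (nat_lit 0) (XT.lf (nat_lit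 0) (nat_lit 1122867000) (nat_lit 76) (nat_lit 58851361319) (nat_lit 152) (nat_lit 26104340442) (nat_lit 21) (nat_lit 5) (nat_lit 22) (nat_lit 5) (nat_lit 23) (nat_lit 4) (nat_lit 312) (nat_lit 278) (nat_lit 190)) (XT.lf (nat_lit 0) (nat_lit 58434919859) (nat_lit 76) (nat_lit 29501452324) (nat_lit 152) (nat_lit 3385128352) (nat_lit 21) (nat_lit 5) (nat_lit 22) (nat_lit 5) (nat_lit 23) (nat_lit 4) (nat_lit 313) (nat_lit 278) (nat_lit 189))))) (XT.nd (nat_lit 234) (nat_lit 228) (nat_lit 0) (XT.nd (nat_lit 78) (nat_lit 76) (nat_lit 0) (XT.lf (nat_lit 0) (nat_lit 20886062015) (nat_lit 228) (nat_lit 73225686297) (nat_lit 76) (nat_lit 2835038655) (nat_lit 18) (nat_lit 5) (nat_lit 21) (nat_lit 5) (nat_lit 19) (nat_lit 4) (nat_lit 314) (nat_lit 278) (nat_lit 188)) (XT.nd (nat_lit 78) (nat_lit 76) (nat_lit 0) (XT.lf (nat_lit 0) (nat_lit 48056431122) (nat_lit 228) (nat_lit 17534874057) (nat_lit 76)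 (nat_lit 37374215292) (nat_lit 18) (nat_lit 5) (nat_lit 21) (nat_lit 5) (nat_lit 19) (nat_lit 4) (nat_lit 315) (nat_lit 278) (nat_lit 187)) (XT.lf (nat_lit 0) (nat_lit 44011257148) (nat_lit 76) (nat_lit 34071491106) (nat_lit 152) (nat_lit 31348891206) (nat_lit 17) (nat_lit 5) (nat_lit 18) (nat_lit 5) (nat_lit 19) (nat_lit 4) (nat_lit 316) (nat_lit 278) (nat_lit 186)))) (XT.nd (nat_lit 78) (nat_lit 228) (nat_lit 0) (XT.lf (nat_lit 0) (nat_lit 110816506341) (nat_lit 152) (nat_lit 5305453428) (nat_lit 0) (nat_lit 277823949) (nat_lit 17) (nat_lit 5) (nat_lit 19) (nat_lit 4) (nat_lit 17) (nat_lit 4) (nat_lit 317) (nat_lit 278) (nat_lit 185)) (XT.nd (nat_lit 78) (nat_lit 76) (nat_lit 0) (XT.lf (nat_lit 0) (nat_lit 23079010845) (nat_lit 152) (nat_lit 63233094406) (nat_lit 76) (nat_lit 37518544311) (nat_lit 15) (nat_lit 5) (nat_lit 17) (nat_lit 5) (nat_lit 16) (nat_lit 4) (nat_lit 318) (nat_lit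 278) (nat_lit 184)) (XT.lf (nat_lit 0) (nat_lit 7925649) (nat_lit 76) (nat_lit 53923246853) (nat_lit 152) (nat_lit 77915612720) (nat_lit 14) (nat_lit 5) (nat_lit 15) (nat_lit 5) (nat_lit 16) (nat_lit 4) (nat_lit 319) (nat_lit 278) (nat_lit 183))))))))
noncomputable def xc82 : XT := (XT.nd (nat_lit 1638) (nat_lit 76) (nat_lit 0) (XT.nd (nat_lit 780) (nat_lit 228) (nat_lit 0) (XT.nd (nat_lit 390) (nat_lit 228) (nat_lit 0) (XT.nd (nat_lit 156) (nat_lit 228) (nat_lit 0) (XT.nd (nat_lit 78) (nat_lit 0) (nat_lit 0) (XT.lf (nat_lit 0) (nat_lit 70559024110) (nat_lit 76) (nat_lit 17789988355) (nat_lit 152) (nat_lit 52100325910) (nat_lit 14) (nat_lit 5) (nat_lit 15) (nat_lit 5) (nat_lit 16) (nat_lit 4) (nat_lit 320) (nat_lit 278) (nat_lit 182)) (XT.lf (nat_lit 0) (nat_lit 125848073693) (nat_lit 152) (nat_lit 3324245667) (nat_lit 0) (nat_lit 20551388487) (nat_lit 14) (nat_lit 5) (nat_lit 16) (nat_lit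 4) (nat_lit 14) (nat_lit 4) (nat_lit 321) (nat_lit 278) (nat_lit 181))) (XT.nd (nat_lit 78) (nat_lit 76) (nat_lit 0) (XT.lf (nat_lit 0) (nat_lit 7815976291) (nat_lit 152) (nat_lit 89278402963) (nat_lit 76) (nat_lit 62569470986) (nat_lit 12) (nat_lit 5) (nat_lit 14) (nat_lit 5) (nat_lit 13) (nat_lit 4) (nat_lit 322) (nat_lit 278) (nat_lit 180)) (XT.nd (nat_lit 78) (nat_lit 76) (nat_lit 0) (XT.lf (nat_lit 0) (nat_lit 41273122757) (nat_lit 152) (nat_lit 20695390814) (nat_lit 76) (nat_lit 108407787050) (nat_lit 12) (nat_lit 5) (nat_lit 14) (nat_lit 5) (nat_lit 13) (nat_lit 4) (nat_lit 323) (nat_lit 278) (nat_lit 179)) (XT.lf (nat_lit 0) (nat_lit 55133155165) (nat_lit 76) (nat_lit 23131371279) (nat_lit 152) (nat_lit 103638337651) (nat_lit 11) (nat_lit 5) (nat_lit 12) (nat_lit 5) (nat_lit 13) (nat_lit 4) (nat_lit 324) (nat_lit 278) (nat_lit 178))))) (XT.nd (nat_lit 156) (nat_lit 152) (nat_lit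 0) (XT.nd (nat_lit 78) (nat_lit 76) (nat_lit 0) (XT.lf (nat_lit 0) (nat_lit 118872379637) (nat_lit 152) (nat_lit 56871720425) (nat_lit 0) (nat_lit 18574596964) (nat_lit 11) (nat_lit 5) (nat_lit 13) (nat_lit 4) (nat_lit 11) (nat_lit 4) (nat_lit 325) (nat_lit 278) (nat_lit 177)) (XT.lf (nat_lit 0) (nat_lit 18825440661) (nat_lit 76) (nat_lit 144584604541) (nat_lit 76) (nat_lit 44283693332) (nat_lit 10) (nat_lit 4) (nat_lit 11) (nat_lit 5) (nat_lit 11) (nat_lit 4) (nat_lit 326) (nat_lit 278) (nat_lit 176))) (XT.nd (nat_lit 78) (nat_lit 152) (nat_lit 0) (XT.lf (nat_lit 0) (nat_lit 102604308721) (nat_lit 76) (nat_lit 109894441203) (nat_lit 76) (nat_lit 9590633202) (nat_lit 10) (nat_lit 4) (nat_lit 11) (nat_lit 5) (nat_lit 11) (nat_lit 4) (nat_lit 327) (nat_lit 278) (nat_lit 175)) (XT.nd (nat_lit 78) (nat_lit 76) (nat_lit 0) (XT.lf (nat_lit 0) (nat_lit 26983117669) (nat_lit 152) (nat_lit 44991098992)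 (nat_lit 76) (nat_lit 165640825380) (nat_lit 9) (nat_lit 5) (nat_lit 11) (nat_lit 5) (nat_lit 10) (nat_lit 4) (nat_lit 328) (nat_lit 278) (nat_lit 174)) (XT.lf (nat_lit 0) (nat_lit 36463426765) (nat_lit 76) (nat_lit 30254817387) (nat_lit 152) (nat_lit 187628074981) (nat_lit 8) (nat_lit 5) (nat_lit 9) (nat_lit 5) (nat_lit 10) (nat_lit 4) (nat_lit 329) (nat_lit 278) (nat_lit 173)))))) (XT.nd (nat_lit 390) (nat_lit 152) (nat_lit 0) (XT.nd (nat_lit 156) (nat_lit 76) (nat_lit 0) (XT.nd (nat_lit 78) (nat_lit 0) (nat_lit 0) (XT.lf (nat_lit 0) (nat_lit 110657619737) (nat_lit 152) (nat_lit 146584133785) (nat_lit 0) (nat_lit 15123073722) (nat_lit 8) (nat_lit 5) (nat_lit 10) (nat_lit 4) (nat_lit 8) (nat_lit 4) (nat_lit 330) (nat_lit 278) (nat_lit 172)) (XT.lf (nat_lit 0) (nat_lit 158620234329) (nat_lit 152) (nat_lit 70095517494) (nat_lit 0) (nat_lit 63083660477) (nat_lit 8) (nat_lit 5) (nat_lit 10)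 (nat_lit 4) (nat_lit 8) (nat_lit 4) (nat_lit 331) (nat_lit 278) (nat_lit 171))) (XT.nd (nat_lit 78) (nat_lit 0) (nat_lit 0) (XT.lf (nat_lit 0) (nat_lit 12922175172) (nat_lit 76) (nat_lit 197697524538) (nat_lit 76) (nat_lit 102159073059) (nat_lit 7) (nat_lit 4) (nat_lit 8) (nat_lit 5) (nat_lit 8) (nat_lit 4) (nat_lit 332) (nat_lit 278) (nat_lit 170)) (XT.nd (nat_lit 78) (nat_lit 0) (nat_lit 0) (XT.lf (nat_lit 0) (nat_lit 105080924931) (nat_lit 76) (nat_lit 162917393987) (nat_lit 76) (nat_lit 67377203965) (nat_lit 7) (nat_lit 4) (nat_lit 8) (nat_lit 5) (nat_lit 8) (nat_lit 4) (nat_lit 333) (nat_lit 278) (nat_lit 169)) (XT.lf (nat_lit 0) (nat_lit 204609183336) (nat_lit 76) (nat_lit 125356357199) (nat_lit 76) (nat_lit 29814557415) (nat_lit 7) (nat_lit 4) (nat_lit 8) (nat_lit 5) (nat_lit 8) (nat_lit 4) (nat_lit 334) (nat_lit 278) (nat_lit 168))))) (XT.nd (nat_lit 234) (nat_lit 0) (nat_lit 0)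 (XT.nd (nat_lit 78) (nat_lit 76) (nat_lit 0) (XT.lf (nat_lit 0) (nat_lit 10407346184) (nat_lit 152) (nat_lit 74208230627) (nat_lit 76) (nat_lit 301513147847) (nat_lit 6) (nat_lit 5) (nat_lit 8) (nat_lit 5) (nat_lit 7) (nat_lit 4) (nat_lit 335) (nat_lit 278) (nat_lit 167)) (XT.nd (nat_lit 78) (nat_lit 0) (nat_lit 0) (XT.lf (nat_lit 0) (nat_lit 13146732561) (nat_lit 76) (nat_lit 39873464013) (nat_lit 152) (nat_lit 361529719679) (nat_lit 5) (nat_lit 5) (nat_lit 6) (nat_lit 5) (nat_lit 7) (nat_lit 4) (nat_lit 336) (nat_lit 278) (nat_lit 166)) (XT.lf (nat_lit 0) (nat_lit 100486399887) (nat_lit 152) (nat_lit 335195928840) (nat_lit 0) (nat_lit 9490258651) (nat_lit 5) (nat_lit 5) (nat_lit 7) (nat_lit 4) (nat_lit 5) (nat_lit 4) (nat_lit 337) (nat_lit 278) (nat_lit 165)))) (XT.nd (nat_lit 78) (nat_lit 0) (nat_lit 0) (XT.lf (nat_lit 0) (nat_lit 152420921327) (nat_lit 152) (nat_lit 264366946974) (nat_lit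 0) (nat_lit 61423653212) (nat_lit 5) (nat_lit 5) (nat_lit 7) (nat_lit 4) (nat_lit 5) (nat_lit 4) (nat_lit 338) (nat_lit 278) (nat_lit 164)) (XT.nd (nat_lit 78) (nat_lit 0) (nat_lit 0) (XT.lf (nat_lit 0) (nat_lit 208508984503) (nat_lit 152) (nat_lit 187873974276) (nat_lit 0) (nat_lit 117510672981) (nat_lit 5) (nat_lit 5) (nat_lit 7) (nat_lit 4) (nat_lit 5) (nat_lit 4) (nat_lit 339) (nat_lit 278) (nat_lit 163)) (XT.lf (nat_lit 0) (nat_lit 269082963124) (nat_lit 152) (nat_lit 105263719054) (nat_lit 0) (nat_lit 178083685484) (nat_lit 5) (nat_lit 5) (nat_lit 7) (nat_lit 4) (nat_lit 5) (nat_lit 4) (nat_lit 340) (nat_lit 278) (nat_lit 162))))))) (XT.nd (nat_lit 36114) (nat_lit 0) (nat_lit 4180) (XT.nd (nat_lit 390) (nat_lit 0) (nat_lit 0) (XT.nd (nat_lit 156) (nat_lit 0) (nat_lit 0) (XT.nd (nat_lit 78) (nat_lit 76) (nat_lit 0) (XT.lf (nat_lit 0) (nat_lit 334501814098) (nat_lit 152) (nat_lit 16046639057)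 (nat_lit 0) (nat_lit 243501641905) (nat_lit 5) (nat_lit 5) (nat_lit 7) (nat_lit 4) (nat_lit 5) (nat_lit 4) (nat_lit 341) (nat_lit 278) (nat_lit 161)) (XT.lf (nat_lit 0) (nat_lit 82961237216) (nat_lit 76) (nat_lit 323487224887) (nat_lit 76) (nat_lit 232486224404) (nat_lit 4) (nat_lit 4) (nat_lit 5) (nat_lit 5) (nat_lit 5) (nat_lit 4) (nat_lit 342) (nat_lit 278) (nat_lit 160))) (XT.nd (nat_lit 78) (nat_lit 0) (nat_lit 0) (XT.lf (nat_lit 0) (nat_lit 190460996383) (nat_lit 76) (nat_lit 293968443348) (nat_lit 76) (nat_lit 202966675930) (nat_lit 4) (nat_lit 4) (nat_lit 5) (nat_lit 5) (nat_lit 5) (nat_lit 4) (nat_lit 343) (nat_lit 278) (nat_lit 159)) (XT.nd (nat_lit 78) (nat_lit 0) (nat_lit 0) (XT.lf (nat_lit 0) (nat_lit 306559099699) (nat_lit 76) (nat_lit 262088940023) (nat_lit 76) (nat_lit 171086462479) (nat_lit 4) (nat_lit 4) (nat_lit 5) (nat_lit 5) (nat_lit 5) (nat_lit 4) (nat_lit 344) (nat_lit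 278) (nat_lit 158)) (XT.lf (nat_lit 0) (nat_lit 431943535922) (nat_lit 76) (nat_lit 227659799336) (nat_lit 76) (nat_lit 136656664269) (nat_lit 4) (nat_lit 4) (nat_lit 5) (nat_lit 5) (nat_lit 5) (nat_lit 4) (nat_lit 345) (nat_lit 278) (nat_lit 157))))) (XT.nd (nat_lit 35490) (nat_lit 0) (nat_lit 6840) (XT.nd (nat_lit 78) (nat_lit 0) (nat_lit 0) (XT.lf (nat_lit 0) (nat_lit 567357323934) (nat_lit 76) (nat_lit 190476996750) (nat_lit 76) (nat_lit 99473252866) (nat_lit 4) (nat_lit 4) (nat_lit 5) (nat_lit 5) (nat_lit 5) (nat_lit 4) (nat_lit 346) (nat_lit 278) (nat_lit 156)) (XT.nd (nat_lit 35334) (nat_lit 0) (nat_lit 6840) (XT.lf (nat_lit 0) (nat_lit 713602915813) (nat_lit 76) (nat_lit 150320189732) (nat_lit 76) (nat_lit 59315882127) (nat_lit 4) (nat_lit 4) (nat_lit 5) (nat_lit 5) (nat_lit 5) (nat_lit 4) (nat_lit 347) (nat_lit 278) (nat_lit 155)) (XT.lf (nat_lit 0) (nat_lit 3325029847) (nat_lit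 0) (nat_lit 3325029847) (nat_lit 684) (nat_lit 2234714023) (nat_lit 94) (nat_lit 5) (nat_lit 94) (nat_lit 3) (nat_lit 103) (nat_lit 3) (nat_lit 279) (nat_lit 279) (nat_lit 222)))) (XT.nd (nat_lit 78) (nat_lit 0) (nat_lit 76) (XT.lf (nat_lit 76) (nat_lit 1884111078) (nat_lit 0) (nat_lit 12385602967) (nat_lit 760) (nat_lit 4188183855) (nat_lit 95) (nat_lit 5) (nat_lit 94) (nat_lit 5) (nat_lit 104) (nat_lit 5) (nat_lit 280) (nat_lit 279) (nat_lit 221)) (XT.nd (nat_lit 78) (nat_lit 0) (nat_lit 0) (XT.lf (nat_lit 0) (nat_lit 15599161475) (nat_lit 684) (nat_lit 3005856688) (nat_lit 760) (nat_lit 582239198) (nat_lit 95) (nat_lit 5) (nat_lit 104) (nat_lit 5) (nat_lit 105) (nat_lit 5) (nat_lit 281) (nat_lit 279) (nat_lit 220)) (XT.lf (nat_lit 76) (nat_lit 11797950811) (nat_lit 0) (nat_lit 5601428832) (nat_lit 760) (nat_lit 2557416320) (nat_lit 96) (nat_lit 5) (nat_lit 95) (nat_lit 5) (nat_lit 105)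 (nat_lit 5) (nat_lit 282) (nat_lit 279) (nat_lit 219)))))) (XT.nd (nat_lit 390) (nat_lit 1672) (nat_lit 0) (XT.nd (nat_lit 156) (nat_lit 456) (nat_lit 0) (XT.nd (nat_lit 78) (nat_lit 684) (nat_lit 0) (XT.lf (nat_lit 76) (nat_lit 7186406752) (nat_lit 0) (nat_lit 12427800644) (nat_lit 760) (nat_lit 1160207992) (nat_lit 97) (nat_lit 5) (nat_lit 96) (nat_lit 5) (nat_lit 106) (nat_lit 5) (nat_lit 283) (nat_lit 279) (nat_lit 218)) (XT.lf (nat_lit 0) (nat_lit 615452836) (nat_lit 760) (nat_lit 19317971967) (nat_lit 836) (nat_lit 1709897100) (nat_lit 87) (nat_lit 5) (nat_lit 97) (nat_lit 5) (nat_lit 98) (nat_lit 5) (nat_lit 284) (nat_lit 279) (nat_lit 217))) (XT.nd (nat_lit 78) (nat_lit 456) (nat_lit 0) (XT.lf (nat_lit 0) (nat_lit 2919474768) (nat_lit 760) (nat_lit 2825498481) (nat_lit 836) (nat_lit 16814507543) (nat_lit 87) (nat_lit 5) (nat_lit 97) (nat_lit 5) (nat_lit 98) (nat_lit 5) (nat_lit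 285) (nat_lit 279) (nat_lit 216)) (XT.nd (nat_lit 78) (nat_lit 532) (nat_lit 0) (XT.lf (nat_lit 0) (nat_lit 5780846640) (nat_lit 760) (nat_lit 8228412882) (nat_lit 76) (nat_lit 9521057253) (nat_lit 88) (nat_lit 5) (nat_lit 98) (nat_lit 5) (nat_lit 89) (nat_lit 5) (nat_lit 286) (nat_lit 279) (nat_lit 215)) (XT.lf (nat_lit 0) (nat_lit 9186271443) (nat_lit 608) (nat_lit 13959050604) (nat_lit 76) (nat_lit 1417773570) (nat_lit 81) (nat_lit 5) (nat_lit 89) (nat_lit 5) (nat_lit 82) (nat_lit 5) (nat_lit 287) (nat_lit 279) (nat_lit 214))))) (XT.nd (nat_lit 234) (nat_lit 988) (nat_lit 0) (XT.nd (nat_lit 78) (nat_lit 304) (nat_lit 0) (XT.lf (nat_lit 0) (nat_lit 5483862533) (nat_lit 380) (nat_lit 7828509736) (nat_lit 456) (nat_lit 12343743083) (nat_lit 76) (nat_lit 5) (nat_lit 81) (nat_lit 5) (nat_lit 82) (nat_lit 5) (nat_lit 288) (nat_lit 279) (nat_lit 213)) (XT.nd (nat_lit 78) (nat_lit 304) (nat_lit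 0) (XT.lf (nat_lit 0) (nat_lit 18133621153) (nat_lit 456) (nat_lit 2581736) (nat_lit 76) (nat_lit 8682149190) (nat_lit 76) (nat_lit 5) (nat_lit 82) (nat_lit 5) (nat_lit 77) (nat_lit 5) (nat_lit 289) (nat_lit 279) (nat_lit 212)) (XT.lf (nat_lit 0) (nat_lit 22346465953) (nat_lit 304) (nat_lit 1458212453) (nat_lit 380) (nat_lit 4245710224) (nat_lit 72) (nat_lit 5) (nat_lit 76) (nat_lit 5) (nat_lit 77) (nat_lit 5) (nat_lit 290) (nat_lit 279) (nat_lit 211)))) (XT.nd (nat_lit 78) (nat_lit 608) (nat_lit 0) (XT.lf (nat_lit 0) (nat_lit 1053364624) (nat_lit 380) (nat_lit 11989310022) (nat_lit 76) (nat_lit 16311784245) (nat_lit 67) (nat_lit 5) (nat_lit 72) (nat_lit 5) (nat_lit 68) (nat_lit 5) (nat_lit 291) (nat_lit 279) (nat_lit 210)) (XT.nd (nat_lit 78) (nat_lit 304) (nat_lit 0) (XT.lf (nat_lit 0) (nat_lit 7006387852) (nat_lit 380) (nat_lit 18829120921) (nat_lit 76) (nat_lit 4904948819) (nat_lit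 63) (nat_lit 5) (nat_lit 68) (nat_lit 5) (nat_lit 64) (nat_lit 5) (nat_lit 292) (nat_lit 279) (nat_lit 209)) (XT.lf (nat_lit 0) (nat_lit 5872710935) (nat_lit 304) (nat_lit 8072485902) (nat_lit 380) (nat_lit 18266682048) (nat_lit 59) (nat_lit 5) (nat_lit 63) (nat_lit 5) (nat_lit 64) (nat_lit 5) (nat_lit 293) (nat_lit 279) (nat_lit 208))))))))
noncomputable def xc83 : XT := (XT.nd (nat_lit 1638) (nat_lit 1140) (nat_lit 0) (XT.nd (nat_lit 780) (nat_lit 1140) (nat_lit 0) (XT.nd (nat_lit 390) (nat_lit 760) (nat_lit 0) (XT.nd (nat_lit 156) (nat_lit 760) (nat_lit 0) (XT.nd (nat_lit 78) (nat_lit 228) (nat_lit 0) (XT.lf (nat_lit 0) (nat_lit 21932383060) (nat_lit 380) (nat_lit 757487119) (nat_lit 76) (nat_lit 11086498493) (nat_lit 59) (nat_lit 5) (nat_lit 64) (nat_lit 5) (nat_lit 60) (nat_lit 5) (nat_lit 294) (nat_lit 279) (nat_lit 207)) (XT.lf (nat_lit 0) (nat_lit 27602236586) (nat_lit 228) (nat_lit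 3510800119) (nat_lit 304) (nat_lit 4325273365) (nat_lit 56) (nat_lit 5) (nat_lit 59) (nat_lit 5) (nat_lit 60) (nat_lit 5) (nat_lit 295) (nat_lit 279) (nat_lit 206))) (XT.nd (nat_lit 78) (nat_lit 456) (nat_lit 0) (XT.lf (nat_lit 0) (nat_lit 4287962194) (nat_lit 304) (nat_lit 15845617021) (nat_lit 76) (nat_lit 17065955722) (nat_lit 52) (nat_lit 5) (nat_lit 56) (nat_lit 5) (nat_lit 53) (nat_lit 5) (nat_lit 296) (nat_lit 279) (nat_lit 205)) (XT.nd (nat_lit 78) (nat_lit 228) (nat_lit 0) (XT.lf (nat_lit 0) (nat_lit 13859789997) (nat_lit 304) (nat_lit 24711242785) (nat_lit 76) (nat_lit 506040135) (nat_lit 49) (nat_lit 5) (nat_lit 53) (nat_lit 5) (nat_lit 50) (nat_lit 5) (nat_lit 297) (nat_lit 279) (nat_lit 204)) (XT.lf (nat_lit 0) (nat_lit 6311797482) (nat_lit 228) (nat_lit 18593227258) (nat_lit 304) (nat_lit 16164419050) (nat_lit 46) (nat_lit 5) (nat_lit 49) (nat_lit 5) (nat_lit 50) (nat_lit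 5) (nat_lit 298) (nat_lit 279) (nat_lit 203))))) (XT.nd (nat_lit 156) (nat_lit 532) (nat_lit 0) (XT.nd (nat_lit 78) (nat_lit 228) (nat_lit 0) (XT.lf (nat_lit 0) (nat_lit 37307555632) (nat_lit 304) (nat_lit 2569225303) (nat_lit 76) (nat_lit 3320751469) (nat_lit 46) (nat_lit 5) (nat_lit 50) (nat_lit 5) (nat_lit 47) (nat_lit 5) (nat_lit 299) (nat_lit 279) (nat_lit 202)) (XT.lf (nat_lit 0) (nat_lit 5871044385) (nat_lit 228) (nat_lit 12629180385) (nat_lit 76) (nat_lit 26950026446) (nat_lit 43) (nat_lit 5) (nat_lit 46) (nat_lit 5) (nat_lit 44) (nat_lit 5) (nat_lit 300) (nat_lit 279) (nat_lit 201))) (XT.nd (nat_lit 78) (nat_lit 304) (nat_lit 0) (XT.lf (nat_lit 0) (nat_lit 18858804533) (nat_lit 304) (nat_lit 24032978733) (nat_lit 76) (nat_lit 4961975497) (nat_lit 40) (nat_lit 5) (nat_lit 44) (nat_lit 5) (nat_lit 41) (nat_lit 5) (nat_lit 301) (nat_lit 279) (nat_lit 200)) (XT.nd (nat_lit 78) (nat_lit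 152) (nat_lit 0) (XT.lf (nat_lit 0) (nat_lit 13295748682) (nat_lit 152) (nat_lit 20324098862) (nat_lit 228) (nat_lit 16792995292) (nat_lit 38) (nat_lit 5) (nat_lit 40) (nat_lit 5) (nat_lit 41) (nat_lit 5) (nat_lit 302) (nat_lit 279) (nat_lit 199)) (XT.lf (nat_lit 0) (nat_lit 1270657361) (nat_lit 152) (nat_lit 48791192720) (nat_lit 228) (nat_lit 3089808104) (nat_lit 36) (nat_lit 5) (nat_lit 38) (nat_lit 5) (nat_lit 39) (nat_lit 5) (nat_lit 303) (nat_lit 279) (nat_lit 198)))))) (XT.nd (nat_lit 390) (nat_lit 532) (nat_lit 0) (XT.nd (nat_lit 156) (nat_lit 380) (nat_lit 0) (XT.nd (nat_lit 78) (nat_lit 152) (nat_lit 0) (XT.lf (nat_lit 0) (nat_lit 12326520271) (nat_lit 228) (nat_lit 12571403080) (nat_lit 76) (nat_lit 31152938390) (nat_lit 35) (nat_lit 5) (nat_lit 38) (nat_lit 5) (nat_lit 36) (nat_lit 5) (nat_lit 304) (nat_lit 279) (nat_lit 197)) (XT.lf (nat_lit 0) (nat_lit 29365546517) (nat_lit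 228) (nat_lit 28373696583) (nat_lit 76) (nat_lit 1415350503) (nat_lit 33) (nat_lit 5) (nat_lit 36) (nat_lit 5) (nat_lit 34) (nat_lit 5) (nat_lit 305) (nat_lit 279) (nat_lit 196))) (XT.nd (nat_lit 78) (nat_lit 228) (nat_lit 0) (XT.lf (nat_lit 0) (nat_lit 15619405950) (nat_lit 152) (nat_lit 33027286715) (nat_lit 228) (nat_lit 13815987777) (nat_lit 31) (nat_lit 5) (nat_lit 33) (nat_lit 5) (nat_lit 34) (nat_lit 5) (nat_lit 306) (nat_lit 279) (nat_lit 195)) (XT.nd (nat_lit 78) (nat_lit 152) (nat_lit 0) (XT.lf (nat_lit 0) (nat_lit 3820310680) (nat_lit 228) (nat_lit 1938714044) (nat_lit 76) (nat_lit 60248946982) (nat_lit 30) (nat_lit 5) (nat_lit 33) (nat_lit 5) (nat_lit 31) (nat_lit 5) (nat_lit 307) (nat_lit 279) (nat_lit 194)) (XT.lf (nat_lit 0) (nat_lit 23516328176) (nat_lit 228) (nat_lit 22328082408) (nat_lit 76) (nat_lit 23924513263) (nat_lit 28) (nat_lit 5) (nat_lit 31) (nat_lit 5) (nat_lit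 29) (nat_lit 5) (nat_lit 308) (nat_lit 279) (nat_lit 193))))) (XT.nd (nat_lit 234) (nat_lit 228) (nat_lit 0) (XT.nd (nat_lit 78) (nat_lit 152) (nat_lit 0) (XT.lf (nat_lit 0) (nat_lit 27792401822) (nat_lit 152) (nat_lit 17554735469) (nat_lit 228) (nat_lit 28455664132) (nat_lit 26) (nat_lit 5) (nat_lit 28) (nat_lit 5) (nat_lit 29) (nat_lit 5) (nat_lit 309) (nat_lit 279) (nat_lit 192)) (XT.nd (nat_lit 78) (nat_lit 76) (nat_lit 0) (XT.lf (nat_lit 0) (nat_lit 4504590676) (nat_lit 76) (nat_lit 65082408384) (nat_lit 152) (nat_lit 8539265174) (nat_lit 25) (nat_lit 5) (nat_lit 26) (nat_lit 5) (nat_lit 27) (nat_lit 4) (nat_lit 310) (nat_lit 279) (nat_lit 191)) (XT.lf (nat_lit 0) (nat_lit 13660125046) (nat_lit 152) (nat_lit 22573318296) (nat_lit 76) (nat_lit 46496798645) (nat_lit 24) (nat_lit 5) (nat_lit 26) (nat_lit 5) (nat_lit 25) (nat_lit 5) (nat_lit 311) (nat_lit 279) (nat_lit 190)))) (XT.nd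 (nat_lit 78) (nat_lit 76) (nat_lit 0) (XT.lf (nat_lit 0) (nat_lit 33477197427) (nat_lit 152) (nat_lit 4380396358) (nat_lit 228) (nat_lit 49811883312) (nat_lit 22) (nat_lit 5) (nat_lit 24) (nat_lit 5) (nat_lit 25) (nat_lit 5) (nat_lit 312) (nat_lit 279) (nat_lit 189)) (XT.nd (nat_lit 78) (nat_lit 0) (nat_lit 0) (XT.lf (nat_lit 0) (nat_lit 1394112653) (nat_lit 76) (nat_lit 63481714305) (nat_lit 152) (nat_lit 28083779054) (nat_lit 21) (nat_lit 5) (nat_lit 22) (nat_lit 5) (nat_lit 23) (nat_lit 4) (nat_lit 313) (nat_lit 279) (nat_lit 188)) (XT.lf (nat_lit 0) (nat_lit 63277691496) (nat_lit 76) (nat_lit 31789572288) (nat_lit 152) (nat_lit 3555097302) (nat_lit 21) (nat_lit 5) (nat_lit 22) (nat_lit 5) (nat_lit 23) (nat_lit 4) (nat_lit 314) (nat_lit 279) (nat_lit 187))))))) (XT.nd (nat_lit 858) (nat_lit 380) (nat_lit 0) (XT.nd (nat_lit 390) (nat_lit 304) (nat_lit 0) (XT.nd (nat_lit 156) (nat_lit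 228) (nat_lit 0) (XT.nd (nat_lit 78) (nat_lit 0) (nat_lit 0) (XT.lf (nat_lit 0) (nat_lit 22650994412) (nat_lit 228) (nat_lit 78916327286) (nat_lit 76) (nat_lit 3130452591) (nat_lit 18) (nat_lit 5) (nat_lit 21) (nat_lit 5) (nat_lit 19) (nat_lit 4) (nat_lit 315) (nat_lit 279) (nat_lit 186)) (XT.lf (nat_lit 0) (nat_lit 51988026571) (nat_lit 228) (nat_lit 18782651097) (nat_lit 76) (nat_lit 40427681075) (nat_lit 18) (nat_lit 5) (nat_lit 21) (nat_lit 5) (nat_lit 19) (nat_lit 4) (nat_lit 316) (nat_lit 279) (nat_lit 185))) (XT.nd (nat_lit 78) (nat_lit 152) (nat_lit 0) (XT.lf (nat_lit 0) (nat_lit 47680433933) (nat_lit 76) (nat_lit 36731879707) (nat_lit 152) (nat_lit 33769664037) (nat_lit 17) (nat_lit 5) (nat_lit 18) (nat_lit 5) (nat_lit 19) (nat_lit 4) (nat_lit 317) (nat_lit 279) (nat_lit 184)) (XT.nd (nat_lit 78) (nat_lit 152) (nat_lit 0) (XT.lf (nat_lit 0) (nat_lit 119759572701) (nat_lit 152)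 (nat_lit 5589658999) (nat_lit 0) (nat_lit 358605141) (nat_lit 17) (nat_lit 5) (nat_lit 19) (nat_lit 4) (nat_lit 17) (nat_lit 4) (nat_lit 318) (nat_lit 279) (nat_lit 183)) (XT.lf (nat_lit 0) (nat_lit 25000665201) (nat_lit 152) (nat_lit 68155077361) (nat_lit 76) (nat_lit 40577555007) (nat_lit 15) (nat_lit 5) (nat_lit 17) (nat_lit 5) (nat_lit 16) (nat_lit 4) (nat_lit 319) (nat_lit 279) (nat_lit 182))))) (XT.nd (nat_lit 234) (nat_lit 228) (nat_lit 0) (XT.nd (nat_lit 78) (nat_lit 0) (nat_lit 0) (XT.lf (nat_lit 0) (nat_lit 139285022) (nat_lit 76) (nat_lit 58178175498) (nat_lit 152) (nat_lit 84073443284) (nat_lit 14) (nat_lit 5) (nat_lit 15) (nat_lit 5) (nat_lit 16) (nat_lit 4) (nat_lit 320) (nat_lit 279) (nat_lit 181)) (XT.nd (nat_lit 78) (nat_lit 0) (nat_lit 0) (XT.lf (nat_lit 0) (nat_lit 76324788003) (nat_lit 76) (nat_lit 19158621587) (nat_lit 152) (nat_lit 56198520082) (nat_lit 14) (nat_lit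 5) (nat_lit 15) (nat_lit 5) (nat_lit 16) (nat_lit 4) (nat_lit 321) (nat_lit 279) (nat_lit 180)) (XT.lf (nat_lit 0) (nat_lit 135978260379) (nat_lit 152) (nat_lit 3475791051) (nat_lit 0) (nat_lit 22244406408) (nat_lit 14) (nat_lit 5) (nat_lit 16) (nat_lit 4) (nat_lit 14) (nat_lit 4) (nat_lit 322) (nat_lit 279) (nat_lit 179)))) (XT.nd (nat_lit 78) (nat_lit 76) (nat_lit 0) (XT.lf (nat_lit 0) (nat_lit 8501686559) (nat_lit 152) (nat_lit 96309228104) (nat_lit 76) (nat_lit 67622995886) (nat_lit 12) (nat_lit 5) (nat_lit 14) (nat_lit 5) (nat_lit 13) (nat_lit 4) (nat_lit 323) (nat_lit 279) (nat_lit 178)) (XT.nd (nat_lit 78) (nat_lit 76) (nat_lit 0) (XT.lf (nat_lit 0) (nat_lit 44630928285) (nat_lit 152) (nat_lit 22247830324) (nat_lit 76) (nat_lit 117124824108) (nat_lit 12) (nat_lit 5) (nat_lit 14) (nat_lit 5) (nat_lit 13) (nat_lit 4) (nat_lit 324) (nat_lit 279) (nat_lit 177)) (XT.lf (nat_lit 0) (nat_lit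 59642514746) (nat_lit 76) (nat_lit 24936525751) (nat_lit 152) (nat_lit 111873362753) (nat_lit 11) (nat_lit 5) (nat_lit 12) (nat_lit 5) (nat_lit 13) (nat_lit 4) (nat_lit 325) (nat_lit 279) (nat_lit 176)))))) (XT.nd (nat_lit 390) (nat_lit 152) (nat_lit 0) (XT.nd (nat_lit 156) (nat_lit 152) (nat_lit 0) (XT.nd (nat_lit 78) (nat_lit 76) (nat_lit 0) (XT.lf (nat_lit 0) (nat_lit 128432225618) (nat_lit 152) (nat_lit 61328227485) (nat_lit 0) (nat_lit 20101216185) (nat_lit 11) (nat_lit 5) (nat_lit 13) (nat_lit 4) (nat_lit 11) (nat_lit 4) (nat_lit 326) (nat_lit 279) (nat_lit 175)) (XT.lf (nat_lit 0) (nat_lit 20420654800) (nat_lit 76) (nat_lit 156109934137) (nat_lit 76) (nat_lit 47776242488) (nat_lit 10) (nat_lit 4) (nat_lit 11) (nat_lit 5) (nat_lit 11) (nat_lit 4) (nat_lit 327) (nat_lit 279) (nat_lit 174))) (XT.nd (nat_lit 78) (nat_lit 152) (nat_lit 0) (XT.lf (nat_lit 0) (nat_lit 110895226462) (nat_lit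 76) (nat_lit 118647627270) (nat_lit 76) (nat_lit 10311452090) (nat_lit 10) (nat_lit 4) (nat_lit 11) (nat_lit 5) (nat_lit 11) (nat_lit 4) (nat_lit 328) (nat_lit 279) (nat_lit 173)) (XT.nd (nat_lit 78) (nat_lit 76) (nat_lit 0) (XT.lf (nat_lit 0) (nat_lit 29183383437) (nat_lit 152) (nat_lit 48512538701) (nat_lit 76) (nat_lit 178926226785) (nat_lit 9) (nat_lit 5) (nat_lit 11) (nat_lit 5) (nat_lit 10) (nat_lit 4) (nat_lit 329) (nat_lit 279) (nat_lit 172)) (XT.lf (nat_lit 0) (nat_lit 39454965928) (nat_lit 76) (nat_lit 32640434025) (nat_lit 152) (nat_lit 202596625393) (nat_lit 8) (nat_lit 5) (nat_lit 9) (nat_lit 5) (nat_lit 10) (nat_lit 4) (nat_lit 330) (nat_lit 279) (nat_lit 171))))) (XT.nd (nat_lit 234) (nat_lit 76) (nat_lit 0) (XT.nd (nat_lit 78) (nat_lit 76) (nat_lit 0) (XT.lf (nat_lit 0) (nat_lit 119547487748) (nat_lit 152) (nat_lit 158240566801) (nat_lit 0) (nat_lit 16364082524) (nat_lit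 8) (nat_lit 5) (nat_lit 10) (nat_lit 4) (nat_lit 8) (nat_lit 4) (nat_lit 331) (nat_lit 279) (nat_lit 170)) (XT.nd (nat_lit 78) (nat_lit 76) (nat_lit 0) (XT.lf (nat_lit 0) (nat_lit 171344351624) (nat_lit 152) (nat_lit 75638068442) (nat_lit 0) (nat_lit 68159207857) (nat_lit 8) (nat_lit 5) (nat_lit 10) (nat_lit 4) (nat_lit 8) (nat_lit 4) (nat_lit 332) (nat_lit 279) (nat_lit 169)) (XT.lf (nat_lit 0) (nat_lit 14018210886) (nat_lit 76) (nat_lit 213483979980) (nat_lit 76) (nat_lit 110297226451) (nat_lit 7) (nat_lit 4) (nat_lit 8) (nat_lit 5) (nat_lit 8) (nat_lit 4) (nat_lit 333) (nat_lit 279) (nat_lit 168)))) (XT.nd (nat_lit 78) (nat_lit 76) (nat_lit 0) (XT.lf (nat_lit 0) (nat_lit 113545048647) (nat_lit 76) (nat_lit 175923612802) (nat_lit 76) (nat_lit 72735368752) (nat_lit 7) (nat_lit 4) (nat_lit 8) (nat_lit 5) (nat_lit 8) (nat_lit 4) (nat_lit 334) (nat_lit 279) (nat_lit 167)) (XT.nd (nat_lit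 78) (nat_lit 76) (nat_lit 0) (XT.lf (nat_lit 0) (nat_lit 221031297375) (nat_lit 76) (nat_lit 135359705864) (nat_lit 76) (nat_lit 32170081703) (nat_lit 7) (nat_lit 4) (nat_lit 8) (nat_lit 5) (nat_lit 8) (nat_lit 4) (nat_lit 335) (nat_lit 279) (nat_lit 166)) (XT.lf (nat_lit 0) (nat_lit 11266500203) (nat_lit 152) (nat_lit 80094576625) (nat_lit 76) (nat_lit 325656608781) (nat_lit 6) (nat_lit 5) (nat_lit 8) (nat_lit 5) (nat_lit 7) (nat_lit 4) (nat_lit 336) (nat_lit 279) (nat_lit 165))))))))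
noncomputable def xc84 : XT := (XT.nd (nat_lit 36972) (nat_lit 0) (nat_lit 1596) (XT.nd (nat_lit 780) (nat_lit 0) (nat_lit 0) (XT.nd (nat_lit 390) (nat_lit 76) (nat_lit 0) (XT.nd (nat_lit 156) (nat_lit 0) (nat_lit 0) (XT.nd (nat_lit 78) (nat_lit 0) (nat_lit 0) (XT.lf (nat_lit 0) (nat_lit 14246597101) (nat_lit 76) (nat_lit 43040565029) (nat_lit 152) (nat_lit 390425471872) (nat_lit 5) (nat_lit 5) (nat_lit 6) (nat_lit 5) (nat_lit 7) (nat_lit 4) (nat_lit 337) (nat_lit 279) (nat_lit 164)) (XT.lf (nat_lit 0) (nat_lit 108549113201) (nat_lit 152) (nat_lit 361966190289) (nat_lit 0) (nat_lit 10269893350) (nat_lit 5) (nat_lit 5) (nat_lit 7) (nat_lit 4) (nat_lit 5) (nat_lit 4) (nat_lit 338) (nat_lit 279) (nat_lit 163))) (XT.nd (nat_lit 78) (nat_lit 0) (nat_lit 0) (XT.lf (nat_lit 0) (nat_lit 164636633295) (nat_lit 152) (nat_lit 285474253789) (nat_lit 0) (nat_lit 66356447327) (nat_lit 5) (nat_lit 5)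 (nat_lit 7) (nat_lit 4) (nat_lit 5) (nat_lit 4) (nat_lit 339) (nat_lit 279) (nat_lit 162)) (XT.nd (nat_lit 78) (nat_lit 0) (nat_lit 0) (XT.lf (nat_lit 0) (nat_lit 225210109062) (nat_lit 152) (nat_lit 202864958011) (nat_lit 0) (nat_lit 126929028540) (nat_lit 5) (nat_lit 5) (nat_lit 7) (nat_lit 4) (nat_lit 5) (nat_lit 4) (nat_lit 340) (nat_lit 279) (nat_lit 161)) (XT.lf (nat_lit 0) (nat_lit 290628494431) (nat_lit 152) (nat_lit 113648766387) (nat_lit 0) (nat_lit 192346585619) (nat_lit 5) (nat_lit 5) (nat_lit 7) (nat_lit 4) (nat_lit 5) (nat_lit 4) (nat_lit 341) (nat_lit 279) (nat_lit 160))))) (XT.nd (nat_lit 156) (nat_lit 0) (nat_lit 0) (XT.nd (nat_lit 78) (nat_lit 76) (nat_lit 0) (XT.lf (nat_lit 0) (nat_lit 361279453909) (nat_lit 152) (nat_lit 17296990375) (nat_lit 0) (nat_lit 262996778162) (nat_lit 5) (nat_lit 5) (nat_lit 7) (nat_lit 4) (nat_lit 5) (nat_lit 4) (nat_lit 342) (nat_lit 279)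 (nat_lit 159)) (XT.lf (nat_lit 0) (nat_lit 89630065354) (nat_lit 76) (nat_lit 349350971001) (nat_lit 76) (nat_lit 251067585129) (nat_lit 4) (nat_lit 4) (nat_lit 5) (nat_lit 5) (nat_lit 5) (nat_lit 4) (nat_lit 343) (nat_lit 279) (nat_lit 158))) (XT.nd (nat_lit 78) (nat_lit 0) (nat_lit 0) (XT.lf (nat_lit 0) (nat_lit 205727440132) (nat_lit 76) (nat_lit 317471815226) (nat_lit 76) (nat_lit 219187771831) (nat_lit 4) (nat_lit 4) (nat_lit 5) (nat_lit 5) (nat_lit 5) (nat_lit 4) (nat_lit 344) (nat_lit 279) (nat_lit 157)) (XT.nd (nat_lit 78) (nat_lit 0) (nat_lit 0) (XT.lf (nat_lit 0) (nat_lit 331111201784) (nat_lit 76) (nat_lit 283042996345) (nat_lit 76) (nat_lit 184758344132) (nat_lit 4) (nat_lit 4) (nat_lit 5) (nat_lit 5) (nat_lit 5) (nat_lit 4) (nat_lit 345) (nat_lit 279) (nat_lit 156)) (XT.lf (nat_lit 0) (nat_lit 466524365193) (nat_lit 76) (nat_lit 245860491728) (nat_lit 76) (nat_lit 147575275794)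 (nat_lit 4) (nat_lit 4) (nat_lit 5) (nat_lit 5) (nat_lit 5) (nat_lit 4) (nat_lit 346) (nat_lit 279) (nat_lit 155)))))) (XT.nd (nat_lit 35724) (nat_lit 0) (nat_lit 5472) (XT.nd (nat_lit 35490) (nat_lit 0) (nat_lit 6840) (XT.nd (nat_lit 35412) (nat_lit 0) (nat_lit 6840) (XT.lf (nat_lit 0) (nat_lit 612769378735) (nat_lit 76) (nat_lit 205703960606) (nat_lit 76) (nat_lit 107418222709) (nat_lit 4) (nat_lit 4) (nat_lit 5) (nat_lit 5) (nat_lit 5) (nat_lit 4) (nat_lit 347) (nat_lit 279) (nat_lit 154)) (XT.lf (nat_lit 0) (nat_lit 3742649890) (nat_lit 0) (nat_lit 3742649890) (nat_lit 684) (nat_lit 2094555404) (nat_lit 94) (nat_lit 5) (nat_lit 94) (nat_lit 3) (nat_lit 103) (nat_lit 3) (nat_lit 280) (nat_lit 280) (nat_lit 220))) (XT.nd (nat_lit 78) (nat_lit 0) (nat_lit 76) (XT.lf (nat_lit 76) (nat_lit 2359461859) (nat_lit 0) (nat_lit 13614060777) (nat_lit 760) (nat_lit 3931897994) (nat_lit 95) (nat_lit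 5) (nat_lit 94) (nat_lit 5) (nat_lit 104) (nat_lit 5) (nat_lit 281) (nat_lit 280) (nat_lit 219)) (XT.nd (nat_lit 78) (nat_lit 0) (nat_lit 0) (XT.lf (nat_lit 0) (nat_lit 17364244130) (nat_lit 684) (nat_lit 2915361568) (nat_lit 760) (nat_lit 415851128) (nat_lit 95) (nat_lit 5) (nat_lit 104) (nat_lit 5) (nat_lit 105) (nat_lit 5) (nat_lit 282) (nat_lit 280) (nat_lit 218)) (XT.lf (nat_lit 76) (nat_lit 13058367254) (nat_lit 0) (nat_lit 6216747817) (nat_lit 760) (nat_lit 2253180097) (nat_lit 96) (nat_lit 5) (nat_lit 95) (nat_lit 5) (nat_lit 105) (nat_lit 5) (nat_lit 283) (nat_lit 280) (nat_lit 217))))) (XT.nd (nat_lit 234) (nat_lit 836) (nat_lit 0) (XT.nd (nat_lit 78) (nat_lit 684) (nat_lit 0) (XT.lf (nat_lit 76) (nat_lit 8090594626) (nat_lit 0) (nat_lit 13543422238) (nat_lit 760) (nat_lit 779026241) (nat_lit 97) (nat_lit 5) (nat_lit 96) (nat_lit 5) (nat_lit 106) (nat_lit 5) (nat_lit 284) (nat_lit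 280) (nat_lit 216)) (XT.nd (nat_lit 78) (nat_lit 0) (nat_lit 0) (XT.lf (nat_lit 0) (nat_lit 1093126532) (nat_lit 760) (nat_lit 20509455118) (nat_lit 836) (nat_lit 1750085833) (nat_lit 87) (nat_lit 5) (nat_lit 97) (nat_lit 5) (nat_lit 98) (nat_lit 5) (nat_lit 285) (nat_lit 280) (nat_lit 215)) (XT.lf (nat_lit 0) (nat_lit 3549734110) (nat_lit 760) (nat_lit 2723802612) (nat_lit 836) (nat_lit 18070220892) (nat_lit 87) (nat_lit 5) (nat_lit 97) (nat_lit 5) (nat_lit 98) (nat_lit 5) (nat_lit 286) (nat_lit 280) (nat_lit 214)))) (XT.nd (nat_lit 78) (nat_lit 912) (nat_lit 0) (XT.lf (nat_lit 0) (nat_lit 6614608196) (nat_lit 760) (nat_lit 8553067205) (nat_lit 76) (nat_lit 10225903345) (nat_lit 88) (nat_lit 5) (nat_lit 98) (nat_lit 5) (nat_lit 89) (nat_lit 5) (nat_lit 287) (nat_lit 280) (nat_lit 213)) (XT.nd (nat_lit 78) (nat_lit 380) (nat_lit 0) (XT.lf (nat_lit 0) (nat_lit 10269483131) (nat_lit 608)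 (nat_lit 14738198664) (nat_lit 76) (nat_lit 1502491641) (nat_lit 81) (nat_lit 5) (nat_lit 89) (nat_lit 5) (nat_lit 82) (nat_lit 5) (nat_lit 288) (nat_lit 280) (nat_lit 212)) (XT.lf (nat_lit 0) (nat_lit 6245476883) (nat_lit 380) (nat_lit 8459435859) (nat_lit 456) (nat_lit 12986801034) (nat_lit 76) (nat_lit 5) (nat_lit 81) (nat_lit 5) (nat_lit 82) (nat_lit 5) (nat_lit 289) (nat_lit 280) (nat_lit 211))))))) (XT.nd (nat_lit 858) (nat_lit 1596) (nat_lit 0) (XT.nd (nat_lit 390) (nat_lit 988) (nat_lit 0) (XT.nd (nat_lit 156) (nat_lit 988) (nat_lit 0) (XT.nd (nat_lit 78) (nat_lit 0) (nat_lit 0) (XT.lf (nat_lit 0) (nat_lit 322217931) (nat_lit 304) (nat_lit 19570344162) (nat_lit 380) (nat_lit 9055370341) (nat_lit 72) (nat_lit 5) (nat_lit 76) (nat_lit 5) (nat_lit 77) (nat_lit 5) (nat_lit 290) (nat_lit 280) (nat_lit 210)) (XT.lf (nat_lit 0) (nat_lit 24435200266) (nat_lit 304) (nat_lit 1559311876)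 (nat_lit 380) (nat_lit 4285194560) (nat_lit 72) (nat_lit 5) (nat_lit 76) (nat_lit 5) (nat_lit 77) (nat_lit 5) (nat_lit 291) (nat_lit 280) (nat_lit 209))) (XT.nd (nat_lit 78) (nat_lit 608) (nat_lit 0) (XT.lf (nat_lit 0) (nat_lit 1411692949) (nat_lit 380) (nat_lit 12637228672) (nat_lit 76) (nat_lit 17639802976) (nat_lit 67) (nat_lit 5) (nat_lit 72) (nat_lit 5) (nat_lit 68) (nat_lit 5) (nat_lit 292) (nat_lit 280) (nat_lit 208)) (XT.nd (nat_lit 78) (nat_lit 304) (nat_lit 0) (XT.lf (nat_lit 0) (nat_lit 7825918792) (nat_lit 380) (nat_lit 20025083820) (nat_lit 76) (nat_lit 5335381289) (nat_lit 63) (nat_lit 5) (nat_lit 68) (nat_lit 5) (nat_lit 64) (nat_lit 5) (nat_lit 293) (nat_lit 280) (nat_lit 207)) (XT.lf (nat_lit 0) (nat_lit 6639406423) (nat_lit 304) (nat_lit 8665874520) (nat_lit 380) (nat_lit 19470992147) (nat_lit 59) (nat_lit 5) (nat_lit 63) (nat_lit 5) (nat_lit 64) (nat_lit 5) (nat_lit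 294) (nat_lit 280) (nat_lit 206))))) (XT.nd (nat_lit 234) (nat_lit 456) (nat_lit 0) (XT.nd (nat_lit 78) (nat_lit 532) (nat_lit 0) (XT.lf (nat_lit 0) (nat_lit 23914090955) (nat_lit 380) (nat_lit 532330118) (nat_lit 76) (nat_lit 12020393187) (nat_lit 59) (nat_lit 5) (nat_lit 64) (nat_lit 5) (nat_lit 60) (nat_lit 5) (nat_lit 295) (nat_lit 280) (nat_lit 205)) (XT.nd (nat_lit 78) (nat_lit 304) (nat_lit 0) (XT.lf (nat_lit 0) (nat_lit 30083752877) (nat_lit 228) (nat_lit 3732888076) (nat_lit 304) (nat_lit 4445720630) (nat_lit 56) (nat_lit 5) (nat_lit 59) (nat_lit 5) (nat_lit 60) (nat_lit 5) (nat_lit 296) (nat_lit 280) (nat_lit 204)) (XT.lf (nat_lit 0) (nat_lit 4838345423) (nat_lit 304) (nat_lit 16835043711) (nat_lit 76) (nat_lit 18491489763) (nat_lit 52) (nat_lit 5) (nat_lit 56) (nat_lit 5) (nat_lit 53) (nat_lit 5) (nat_lit 297) (nat_lit 280) (nat_lit 203)))) (XT.nd (nat_lit 78) (nat_lit 228)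 (nat_lit 0) (XT.lf (nat_lit 0) (nat_lit 15165808252) (nat_lit 304) (nat_lit 26413063473) (nat_lit 76) (nat_lit 614272381) (nat_lit 49) (nat_lit 5) (nat_lit 53) (nat_lit 5) (nat_lit 50) (nat_lit 5) (nat_lit 298) (nat_lit 280) (nat_lit 202)) (XT.nd (nat_lit 78) (nat_lit 0) (nat_lit 0) (XT.lf (nat_lit 0) (nat_lit 7079865429) (nat_lit 228) (nat_lit 20004294447) (nat_lit 304) (nat_lit 17261287120) (nat_lit 46) (nat_lit 5) (nat_lit 49) (nat_lit 5) (nat_lit 50) (nat_lit 5) (nat_lit 299) (nat_lit 280) (nat_lit 201)) (XT.lf (nat_lit 0) (nat_lit 40466165484) (nat_lit 304) (nat_lit 2523389467) (nat_lit 76) (nat_lit 3654880107) (nat_lit 46) (nat_lit 5) (nat_lit 50) (nat_lit 5) (nat_lit 47) (nat_lit 5) (nat_lit 300) (nat_lit 280) (nat_lit 200)))))) (XT.nd (nat_lit 390) (nat_lit 760) (nat_lit 0) (XT.nd (nat_lit 156) (nat_lit 380) (nat_lit 0) (XT.nd (nat_lit 78) (nat_lit 228) (nat_lit 0) (XT.lf (nat_lit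 0) (nat_lit 6508479889) (nat_lit 228) (nat_lit 13393342648) (nat_lit 76) (nat_lit 29175885107) (nat_lit 43) (nat_lit 5) (nat_lit 46) (nat_lit 5) (nat_lit 44) (nat_lit 5) (nat_lit 301) (nat_lit 280) (nat_lit 199)) (XT.lf (nat_lit 0) (nat_lit 20527705119) (nat_lit 304) (nat_lit 25713223996) (nat_lit 76) (nat_lit 5432957508) (nat_lit 40) (nat_lit 5) (nat_lit 44) (nat_lit 5) (nat_lit 41) (nat_lit 5) (nat_lit 302) (nat_lit 280) (nat_lit 198))) (XT.nd (nat_lit 78) (nat_lit 228) (nat_lit 0) (XT.lf (nat_lit 0) (nat_lit 14591267507) (nat_lit 152) (nat_lit 21870117645) (nat_lit 228) (nat_lit 17976736666) (nat_lit 38) (nat_lit 5) (nat_lit 40) (nat_lit 5) (nat_lit 41) (nat_lit 5) (nat_lit 303) (nat_lit 280) (nat_lit 197)) (XT.nd (nat_lit 78) (nat_lit 76) (nat_lit 0) (XT.lf (nat_lit 0) (nat_lit 1600310894) (nat_lit 152) (nat_lit 52611896381) (nat_lit 228) (nat_lit 3184173334) (nat_lit 36) (nat_lit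 5) (nat_lit 38) (nat_lit 5) (nat_lit 39) (nat_lit 5) (nat_lit 304) (nat_lit 280) (nat_lit 196)) (XT.lf (nat_lit 0) (nat_lit 13449612488) (nat_lit 228) (nat_lit 13361351218) (nat_lit 76) (nat_lit 33716995188) (nat_lit 35) (nat_lit 5) (nat_lit 38) (nat_lit 5) (nat_lit 36) (nat_lit 5) (nat_lit 305) (nat_lit 280) (nat_lit 195))))) (XT.nd (nat_lit 234) (nat_lit 380) (nat_lit 0) (XT.nd (nat_lit 78) (nat_lit 228) (nat_lit 0) (XT.lf (nat_lit 0) (nat_lit 31846029035) (nat_lit 228) (nat_lit 30431780462) (nat_lit 76) (nat_lit 1602475529) (nat_lit 33) (nat_lit 5) (nat_lit 36) (nat_lit 5) (nat_lit 34) (nat_lit 5) (nat_lit 306) (nat_lit 280) (nat_lit 194)) (XT.nd (nat_lit 78) (nat_lit 76) (nat_lit 0) (XT.lf (nat_lit 0) (nat_lit 17071565189) (nat_lit 152) (nat_lit 35591543552) (nat_lit 228) (nat_lit 14790246430) (nat_lit 31) (nat_lit 5) (nat_lit 33) (nat_lit 5) (nat_lit 34) (nat_lit 5) (nat_lit 307)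 (nat_lit 280) (nat_lit 193)) (XT.lf (nat_lit 0) (nat_lit 4243367847) (nat_lit 228) (nat_lit 1902236285) (nat_lit 76) (nat_lit 65137040509) (nat_lit 30) (nat_lit 5) (nat_lit 33) (nat_lit 5) (nat_lit 31) (nat_lit 5) (nat_lit 308) (nat_lit 280) (nat_lit 192)))) (XT.nd (nat_lit 78) (nat_lit 228) (nat_lit 0) (XT.lf (nat_lit 0) (nat_lit 25510347818) (nat_lit 228) (nat_lit 23926532443) (nat_lit 76) (nat_lit 25907835542) (nat_lit 28) (nat_lit 5) (nat_lit 31) (nat_lit 5) (nat_lit 29) (nat_lit 5) (nat_lit 309) (nat_lit 280) (nat_lit 191)) (XT.nd (nat_lit 78) (nat_lit 76) (nat_lit 0) (XT.lf (nat_lit 0) (nat_lit 30195429116) (nat_lit 152) (nat_lit 18886648014) (nat_lit 228) (nat_lit 30619510073) (nat_lit 26) (nat_lit 5) (nat_lit 28) (nat_lit 5) (nat_lit 29) (nat_lit 5) (nat_lit 310) (nat_lit 280) (nat_lit 190)) (XT.lf (nat_lit 0) (nat_lit 5040906112) (nat_lit 76) (nat_lit 70216077933) (nat_lit 152)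 (nat_lit 9114156101) (nat_lit 25) (nat_lit 5) (nat_lit 26) (nat_lit 5) (nat_lit 27) (nat_lit 4) (nat_lit 311) (nat_lit 280) (nat_lit 189))))))))
noncomputable def xc85 : XT := (XT.nd (nat_lit 1638) (nat_lit 304) (nat_lit 0) (XT.nd (nat_lit 780) (nat_lit 456) (nat_lit 0) (XT.nd (nat_lit 390) (nat_lit 304) (nat_lit 0) (XT.nd (nat_lit 156) (nat_lit 304) (nat_lit 0) (XT.nd (nat_lit 78) (nat_lit 152) (nat_lit 0) (XT.lf (nat_lit 0) (nat_lit 14849958755) (nat_lit 152) (nat_lit 24212995502) (nat_lit 76) (nat_lit 50280790671) (nat_lit 24) (nat_lit 5) (nat_lit 26) (nat_lit 5) (nat_lit 25) (nat_lit 5) (nat_lit 312) (nat_lit 280) (nat_lit 188)) (XT.lf (nat_lit 0) (nat_lit 36314339140) (nat_lit 152) (nat_lit 4664180816) (nat_lit 228) (nat_lit 53699838975) (nat_lit 22) (nat_lit 5) (nat_lit 24) (nat_lit 5) (nat_lit 25) (nat_lit 5) (nat_lit 313) (nat_lit 280) (nat_lit 187))) (XT.nd (nat_lit 78) (nat_lit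 228) (nat_lit 0) (XT.lf (nat_lit 0) (nat_lit 1661176895) (nat_lit 76) (nat_lit 68493588281) (nat_lit 152) (nat_lit 30237109788) (nat_lit 21) (nat_lit 5) (nat_lit 22) (nat_lit 5) (nat_lit 23) (nat_lit 4) (nat_lit 314) (nat_lit 280) (nat_lit 186)) (XT.nd (nat_lit 78) (nat_lit 228) (nat_lit 0) (XT.lf (nat_lit 0) (nat_lit 68483920918) (nat_lit 76) (nat_lit 34271012915) (nat_lit 152) (nat_lit 3753049910) (nat_lit 21) (nat_lit 5) (nat_lit 22) (nat_lit 5) (nat_lit 23) (nat_lit 4) (nat_lit 315) (nat_lit 280) (nat_lit 185)) (XT.lf (nat_lit 0) (nat_lit 24543704483) (nat_lit 228) (nat_lit 85086103021) (nat_lit 76) (nat_lit 3439711538) (nat_lit 18) (nat_lit 5) (nat_lit 21) (nat_lit 5) (nat_lit 19) (nat_lit 4) (nat_lit 316) (nat_lit 280) (nat_lit 184))))) (XT.nd (nat_lit 156) (nat_lit 228) (nat_lit 0) (XT.nd (nat_lit 78) (nat_lit 76) (nat_lit 0) (XT.lf (nat_lit 0) (nat_lit 56221726584) (nat_lit 228)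 (nat_lit 20152364622) (nat_lit 76) (nat_lit 43716361060) (nat_lit 18) (nat_lit 5) (nat_lit 21) (nat_lit 5) (nat_lit 19) (nat_lit 4) (nat_lit 317) (nat_lit 280) (nat_lit 183)) (XT.lf (nat_lit 0) (nat_lit 51621991602) (nat_lit 76) (nat_lit 39614419548) (nat_lit 152) (nat_lit 36396529970) (nat_lit 17) (nat_lit 5) (nat_lit 18) (nat_lit 5) (nat_lit 19) (nat_lit 4) (nat_lit 318) (nat_lit 280) (nat_lit 182))) (XT.nd (nat_lit 78) (nat_lit 228) (nat_lit 0) (XT.lf (nat_lit 0) (nat_lit 129406993054) (nat_lit 152) (nat_lit 5916606494) (nat_lit 0) (nat_lit 437495263) (nat_lit 17) (nat_lit 5) (nat_lit 19) (nat_lit 4) (nat_lit 17) (nat_lit 4) (nat_lit 319) (nat_lit 280) (nat_lit 181)) (XT.nd (nat_lit 78) (nat_lit 76) (nat_lit 0) (XT.lf (nat_lit 0) (nat_lit 27065304741) (nat_lit 152) (nat_lit 73490315684) (nat_lit 76) (nat_lit 43873079666) (nat_lit 15) (nat_lit 5) (nat_lit 17) (nat_lit 5) (nat_lit 16)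 (nat_lit 4) (nat_lit 320) (nat_lit 280) (nat_lit 180)) (XT.lf (nat_lit 0) (nat_lit 262503717) (nat_lit 76) (nat_lit 62781905615) (nat_lit 152) (nat_lit 90734659580) (nat_lit 14) (nat_lit 5) (nat_lit 15) (nat_lit 5) (nat_lit 16) (nat_lit 4) (nat_lit 321) (nat_lit 280) (nat_lit 179)))))) (XT.nd (nat_lit 390) (nat_lit 228) (nat_lit 0) (XT.nd (nat_lit 156) (nat_lit 228) (nat_lit 0) (XT.nd (nat_lit 78) (nat_lit 0) (nat_lit 0) (XT.lf (nat_lit 0) (nat_lit 82534545018) (nat_lit 76) (nat_lit 20644529904) (nat_lit 152) (nat_lit 60634532089) (nat_lit 14) (nat_lit 5) (nat_lit 15) (nat_lit 5) (nat_lit 16) (nat_lit 4) (nat_lit 322) (nat_lit 280) (nat_lit 178)) (XT.lf (nat_lit 0) (nat_lit 146909968389) (nat_lit 152) (nat_lit 3655779686) (nat_lit 0) (nat_lit 24065888654) (nat_lit 14) (nat_lit 5) (nat_lit 16) (nat_lit 4) (nat_lit 14) (nat_lit 4) (nat_lit 323) (nat_lit 280) (nat_lit 177))) (XT.nd (nat_lit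 78) (nat_lit 76) (nat_lit 0) (XT.lf (nat_lit 0) (nat_lit 9233632324) (nat_lit 152) (nat_lit 103918418431) (nat_lit 76) (nat_lit 73073959719) (nat_lit 12) (nat_lit 5) (nat_lit 14) (nat_lit 5) (nat_lit 13) (nat_lit 4) (nat_lit 324) (nat_lit 280) (nat_lit 176)) (XT.nd (nat_lit 78) (nat_lit 76) (nat_lit 0) (XT.lf (nat_lit 0) (nat_lit 48249375549) (nat_lit 152) (nat_lit 23939186452) (nat_lit 76) (nat_lit 126532887964) (nat_lit 12) (nat_lit 5) (nat_lit 14) (nat_lit 5) (nat_lit 13) (nat_lit 4) (nat_lit 325) (nat_lit 280) (nat_lit 175)) (XT.lf (nat_lit 0) (nat_lit 64498541412) (nat_lit 76) (nat_lit 26892563010) (nat_lit 152) (nat_lit 120775184868) (nat_lit 11) (nat_lit 5) (nat_lit 12) (nat_lit 5) (nat_lit 13) (nat_lit 4) (nat_lit 326) (nat_lit 280) (nat_lit 174))))) (XT.nd (nat_lit 234) (nat_lit 152) (nat_lit 0) (XT.nd (nat_lit 78) (nat_lit 76) (nat_lit 0) (XT.lf (nat_lit 0) (nat_lit 138749718285)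 (nat_lit 152) (nat_lit 66154555494) (nat_lit 0) (nat_lit 21744165557) (nat_lit 11) (nat_lit 5) (nat_lit 13) (nat_lit 4) (nat_lit 11) (nat_lit 4) (nat_lit 327) (nat_lit 280) (nat_lit 173)) (XT.nd (nat_lit 78) (nat_lit 0) (nat_lit 0) (XT.lf (nat_lit 0) (nat_lit 22130763706) (nat_lit 76) (nat_lit 168563201804) (nat_lit 76) (nat_lit 51555349509) (nat_lit 10) (nat_lit 4) (nat_lit 11) (nat_lit 5) (nat_lit 11) (nat_lit 4) (nat_lit 328) (nat_lit 280) (nat_lit 172)) (XT.lf (nat_lit 0) (nat_lit 119837637654) (nat_lit 76) (nat_lit 128106542023) (nat_lit 76) (nat_lit 11096560499) (nat_lit 10) (nat_lit 4) (nat_lit 11) (nat_lit 5) (nat_lit 11) (nat_lit 4) (nat_lit 329) (nat_lit 280) (nat_lit 171)))) (XT.nd (nat_lit 78) (nat_lit 76) (nat_lit 0) (XT.lf (nat_lit 0) (nat_lit 31553733427) (nat_lit 152) (nat_lit 52326799504) (nat_lit 76) (nat_lit 193269590510) (nat_lit 9) (nat_lit 5) (nat_lit 11) (nat_lit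 5) (nat_lit 10) (nat_lit 4) (nat_lit 330) (nat_lit 280) (nat_lit 170)) (XT.nd (nat_lit 78) (nat_lit 0) (nat_lit 0) (XT.lf (nat_lit 0) (nat_lit 42675204957) (nat_lit 76) (nat_lit 35221860144) (nat_lit 152) (nat_lit 218768608179) (nat_lit 8) (nat_lit 5) (nat_lit 9) (nat_lit 5) (nat_lit 10) (nat_lit 4) (nat_lit 331) (nat_lit 280) (nat_lit 169)) (XT.lf (nat_lit 0) (nat_lit 129143229868) (nat_lit 152) (nat_lit 170839543208) (nat_lit 0) (nat_lit 17699926294) (nat_lit 8) (nat_lit 5) (nat_lit 10) (nat_lit 4) (nat_lit 8) (nat_lit 4) (nat_lit 332) (nat_lit 280) (nat_lit 168))))))) (XT.nd (nat_lit 858) (nat_lit 76) (nat_lit 0) (XT.nd (nat_lit 390) (nat_lit 76) (nat_lit 0) (XT.nd (nat_lit 156) (nat_lit 76) (nat_lit 0) (XT.nd (nat_lit 78) (nat_lit 76) (nat_lit 0) (XT.lf (nat_lit 0) (nat_lit 185081476698) (nat_lit 152) (nat_lit 81633309347) (nat_lit 0) (nat_lit 73636682603) (nat_lit 8) (nat_lit 5) (nat_lit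 10) (nat_lit 4) (nat_lit 8) (nat_lit 4) (nat_lit 333) (nat_lit 280) (nat_lit 167)) (XT.lf (nat_lit 0) (nat_lit 15193047129) (nat_lit 76) (nat_lit 230537538468) (nat_lit 76) (nat_lit 119091364261) (nat_lit 7) (nat_lit 4) (nat_lit 8) (nat_lit 5) (nat_lit 8) (nat_lit 4) (nat_lit 334) (nat_lit 280) (nat_lit 166))) (XT.nd (nat_lit 78) (nat_lit 76) (nat_lit 0) (XT.lf (nat_lit 0) (nat_lit 122678077884) (nat_lit 76) (nat_lit 189974205612) (nat_lit 76) (nat_lit 78526753524) (nat_lit 7) (nat_lit 4) (nat_lit 8) (nat_lit 5) (nat_lit 8) (nat_lit 4) (nat_lit 335) (nat_lit 280) (nat_lit 165)) (XT.nd (nat_lit 78) (nat_lit 76) (nat_lit 0) (XT.lf (nat_lit 0) (nat_lit 238759565373) (nat_lit 76) (nat_lit 146166911765) (nat_lit 76) (nat_lit 34718276454) (nat_lit 7) (nat_lit 4) (nat_lit 8) (nat_lit 5) (nat_lit 8) (nat_lit 4) (nat_lit 336) (nat_lit 280) (nat_lit 164)) (XT.lf (nat_lit 0) (nat_lit 12190596561)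 (nat_lit 152) (nat_lit 86459007936) (nat_lit 76) (nat_lit 351728349680) (nat_lit 6) (nat_lit 5) (nat_lit 8) (nat_lit 5) (nat_lit 7) (nat_lit 4) (nat_lit 337) (nat_lit 280) (nat_lit 163))))) (XT.nd (nat_lit 234) (nat_lit 0) (nat_lit 0) (XT.nd (nat_lit 78) (nat_lit 0) (nat_lit 0) (XT.lf (nat_lit 0) (nat_lit 15427585101) (nat_lit 76) (nat_lit 46464283392) (nat_lit 152) (nat_lit 421636682649) (nat_lit 5) (nat_lit 5) (nat_lit 6) (nat_lit 5) (nat_lit 7) (nat_lit 4) (nat_lit 338) (nat_lit 280) (nat_lit 162)) (XT.nd (nat_lit 78) (nat_lit 0) (nat_lit 0) (XT.lf (nat_lit 0) (nat_lit 117253448055) (nat_lit 152) (nat_lit 390884551305) (nat_lit 0) (nat_lit 11108986538) (nat_lit 5) (nat_lit 5) (nat_lit 7) (nat_lit 4) (nat_lit 5) (nat_lit 4) (nat_lit 339) (nat_lit 280) (nat_lit 161)) (XT.lf (nat_lit 0) (nat_lit 177826458216) (nat_lit 152) (nat_lit 308276143901) (nat_lit 0) (nat_lit 71681168410) (nat_lit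 5) (nat_lit 5) (nat_lit 7) (nat_lit 4) (nat_lit 5) (nat_lit 4) (nat_lit 340) (nat_lit 280) (nat_lit 160)))) (XT.nd (nat_lit 78) (nat_lit 0) (nat_lit 0) (XT.lf (nat_lit 0) (nat_lit 243244412469) (nat_lit 152) (nat_lit 219060774845) (nat_lit 0) (nat_lit 137098355728) (nat_lit 5) (nat_lit 5) (nat_lit 7) (nat_lit 4) (nat_lit 5) (nat_lit 4) (nat_lit 341) (nat_lit 280) (nat_lit 159)) (XT.nd (nat_lit 78) (nat_lit 0) (nat_lit 0) (XT.lf (nat_lit 0) (nat_lit 313894972766) (nat_lit 152) (nat_lit 122709760470) (nat_lit 0) (nat_lit 207748205899) (nat_lit 5) (nat_lit 5) (nat_lit 7) (nat_lit 4) (nat_lit 5) (nat_lit 4) (nat_lit 342) (nat_lit 280) (nat_lit 158)) (XT.lf (nat_lit 0) (nat_lit 390196809092) (nat_lit 152) (nat_lit 18652131801) (nat_lit 0) (nat_lit 284049384702) (nat_lit 5) (nat_lit 5) (nat_lit 7) (nat_lit 4) (nat_lit 5) (nat_lit 4) (nat_lit 343) (nat_lit 280) (nat_lit 157)))))) (XT.nd (nat_lit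 35802) (nat_lit 0) (nat_lit 6308) (XT.nd (nat_lit 156) (nat_lit 0) (nat_lit 0) (XT.nd (nat_lit 78) (nat_lit 0) (nat_lit 0) (XT.lf (nat_lit 0) (nat_lit 96827844692) (nat_lit 76) (nat_lit 377285989802) (nat_lit 76) (nat_lit 271137956594) (nat_lit 4) (nat_lit 4) (nat_lit 5) (nat_lit 5) (nat_lit 5) (nat_lit 4) (nat_lit 344) (nat_lit 280) (nat_lit 156)) (XT.lf (nat_lit 0) (nat_lit 222210981740) (nat_lit 76) (nat_lit 342857468889) (nat_lit 76) (nat_lit 236708871961) (nat_lit 4) (nat_lit 4) (nat_lit 5) (nat_lit 5) (nat_lit 5) (nat_lit 4) (nat_lit 345) (nat_lit 280) (nat_lit 155))) (XT.nd (nat_lit 78) (nat_lit 0) (nat_lit 0) (XT.lf (nat_lit 0) (nat_lit 357623566813) (nat_lit 76) (nat_lit 305675240168) (nat_lit 76) (nat_lit 199526121277) (nat_lit 4) (nat_lit 4) (nat_lit 5) (nat_lit 5) (nat_lit 5) (nat_lit 4) (nat_lit 346) (nat_lit 280) (nat_lit 154)) (XT.nd (nat_lit 35490) (nat_lit 0) (nat_lit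 6840) (XT.lf (nat_lit 0) (nat_lit 503868044859) (nat_lit 76) (nat_lit 265518964506) (nat_lit 76) (nat_lit 159369362316) (nat_lit 4) (nat_lit 4) (nat_lit 5) (nat_lit 5) (nat_lit 5) (nat_lit 4) (nat_lit 347) (nat_lit 280) (nat_lit 153)) (XT.lf (nat_lit 0) (nat_lit 4172049582) (nat_lit 0) (nat_lit 4172049582) (nat_lit 684) (nat_lit 1988683845) (nat_lit 94) (nat_lit 5) (nat_lit 94) (nat_lit 3) (nat_lit 103) (nat_lit 3) (nat_lit 281) (nat_lit 281) (nat_lit 218))))) (XT.nd (nat_lit 234) (nat_lit 532) (nat_lit 0) (XT.nd (nat_lit 78) (nat_lit 0) (nat_lit 76) (XT.lf (nat_lit 76) (nat_lit 2826529760) (nat_lit 0) (nat_lit 14906897550) (nat_lit 760) (nat_lit 3739470608) (nat_lit 95) (nat_lit 5) (nat_lit 94) (nat_lit 5) (nat_lit 104) (nat_lit 5) (nat_lit 282) (nat_lit 281) (nat_lit 217)) (XT.nd (nat_lit 78) (nat_lit 0) (nat_lit 0) (XT.lf (nat_lit 0) (nat_lit 19196756206) (nat_lit 684) (nat_lit 2864842503)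 (nat_lit 760) (nat_lit 266534165) (nat_lit 95) (nat_lit 5) (nat_lit 104) (nat_lit 5) (nat_lit 105) (nat_lit 5) (nat_lit 283) (nat_lit 281) (nat_lit 216)) (XT.lf (nat_lit 76) (nat_lit 14374453282) (nat_lit 0) (nat_lit 6857438703) (nat_lit 760) (nat_lit 1997195197) (nat_lit 96) (nat_lit 5) (nat_lit 95) (nat_lit 5) (nat_lit 105) (nat_lit 5) (nat_lit 284) (nat_lit 281) (nat_lit 215)))) (XT.nd (nat_lit 78) (nat_lit 684) (nat_lit 0) (XT.lf (nat_lit 76) (nat_lit 9020142723) (nat_lit 0) (nat_lit 14730974842) (nat_lit 760) (nat_lit 434971120) (nat_lit 97) (nat_lit 5) (nat_lit 96) (nat_lit 5) (nat_lit 106) (nat_lit 5) (nat_lit 285) (nat_lit 281) (nat_lit 214)) (XT.nd (nat_lit 78) (nat_lit 0) (nat_lit 0) (XT.lf (nat_lit 0) (nat_lit 1547892730) (nat_lit 760) (nat_lit 21846752503) (nat_lit 836) (nat_lit 1807271168) (nat_lit 87) (nat_lit 5) (nat_lit 97) (nat_lit 5) (nat_lit 98) (nat_lit 5) (nat_lit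 286) (nat_lit 281) (nat_lit 213)) (XT.lf (nat_lit 0) (nat_lit 4173820316) (nat_lit 760) (nat_lit 2660726243) (nat_lit 836) (nat_lit 19439151960) (nat_lit 87) (nat_lit 5) (nat_lit 97) (nat_lit 5) (nat_lit 98) (nat_lit 5) (nat_lit 287) (nat_lit 281) (nat_lit 212))))))))
noncomputable def xc86 : XT := (XT.nd (nat_lit 1638) (nat_lit 1596) (nat_lit 0) (XT.nd (nat_lit 780) (nat_lit 1900) (nat_lit 0) (XT.nd (nat_lit 390) (nat_lit 1216) (nat_lit 0) (XT.nd (nat_lit 156) (nat_lit 684) (nat_lit 0) (XT.nd (nat_lit 78) (nat_lit 532) (nat_lit 0) (XT.lf (nat_lit 0) (nat_lit 7462101462) (nat_lit 760) (nat_lit 8951288312) (nat_lit 76) (nat_lit 10995245771) (nat_lit 88) (nat_lit 5) (nat_lit 98) (nat_lit 5) (nat_lit 89) (nat_lit 5) (nat_lit 288) (nat_lit 281) (nat_lit 211)) (XT.lf (nat_lit 0) (nat_lit 11389661443) (nat_lit 608) (nat_lit 15627837558) (nat_lit 76) (nat_lit 1598082078) (nat_lit 81) (nat_lit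 5) (nat_lit 89) (nat_lit 5) (nat_lit 82) (nat_lit 5) (nat_lit 289) (nat_lit 281) (nat_lit 210))) (XT.nd (nat_lit 78) (nat_lit 304) (nat_lit 0) (XT.lf (nat_lit 0) (nat_lit 7021954322) (nat_lit 380) (nat_lit 9140173362) (nat_lit 456) (nat_lit 13730442051) (nat_lit 76) (nat_lit 5) (nat_lit 81) (nat_lit 5) (nat_lit 82) (nat_lit 5) (nat_lit 290) (nat_lit 281) (nat_lit 209)) (XT.nd (nat_lit 78) (nat_lit 0) (nat_lit 0) (XT.lf (nat_lit 0) (nat_lit 626714844) (nat_lit 304) (nat_lit 21121566533) (nat_lit 380) (nat_lit 9501862485) (nat_lit 72) (nat_lit 5) (nat_lit 76) (nat_lit 5) (nat_lit 77) (nat_lit 5) (nat_lit 291) (nat_lit 281) (nat_lit 208)) (XT.lf (nat_lit 0) (nat_lit 26648089879) (nat_lit 304) (nat_lit 1670718713) (nat_lit 380) (nat_lit 4370660604) (nat_lit 72) (nat_lit 5) (nat_lit 76) (nat_lit 5) (nat_lit 77) (nat_lit 5) (nat_lit 292) (nat_lit 281) (nat_lit 207))))) (XT.nd (nat_lit 156) (nat_lit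 532) (nat_lit 0) (XT.nd (nat_lit 78) (nat_lit 304) (nat_lit 0) (XT.lf (nat_lit 0) (nat_lit 1759589938) (nat_lit 380) (nat_lit 13381380703) (nat_lit 76) (nat_lit 19070771157) (nat_lit 67) (nat_lit 5) (nat_lit 72) (nat_lit 5) (nat_lit 68) (nat_lit 5) (nat_lit 293) (nat_lit 281) (nat_lit 206)) (XT.lf (nat_lit 0) (nat_lit 8674060121) (nat_lit 380) (nat_lit 21361001040) (nat_lit 76) (nat_lit 5794822015) (nat_lit 63) (nat_lit 5) (nat_lit 68) (nat_lit 5) (nat_lit 64) (nat_lit 5) (nat_lit 294) (nat_lit 281) (nat_lit 205))) (XT.nd (nat_lit 78) (nat_lit 228) (nat_lit 0) (XT.lf (nat_lit 0) (nat_lit 7425084497) (nat_lit 304) (nat_lit 9314211136) (nat_lit 380) (nat_lit 20808314467) (nat_lit 59) (nat_lit 5) (nat_lit 63) (nat_lit 5) (nat_lit 64) (nat_lit 5) (nat_lit 295) (nat_lit 281) (nat_lit 204)) (XT.nd (nat_lit 78) (nat_lit 228) (nat_lit 0) (XT.lf (nat_lit 0) (nat_lit 26021934666) (nat_lit 380) (nat_lit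 329926840) (nat_lit 76) (nat_lit 13022297973) (nat_lit 59) (nat_lit 5) (nat_lit 64) (nat_lit 5) (nat_lit 60) (nat_lit 5) (nat_lit 296) (nat_lit 281) (nat_lit 203)) (XT.lf (nat_lit 0) (nat_lit 32724795841) (nat_lit 228) (nat_lit 3981128130) (nat_lit 304) (nat_lit 4607984415) (nat_lit 56) (nat_lit 5) (nat_lit 59) (nat_lit 5) (nat_lit 60) (nat_lit 5) (nat_lit 297) (nat_lit 281) (nat_lit 202)))))) (XT.nd (nat_lit 390) (nat_lit 912) (nat_lit 0) (XT.nd (nat_lit 156) (nat_lit 456) (nat_lit 0) (XT.nd (nat_lit 78) (nat_lit 228) (nat_lit 0) (XT.lf (nat_lit 0) (nat_lit 5403179049) (nat_lit 304) (nat_lit 17943316110) (nat_lit 76) (nat_lit 20022470110) (nat_lit 52) (nat_lit 5) (nat_lit 56) (nat_lit 5) (nat_lit 53) (nat_lit 5) (nat_lit 298) (nat_lit 281) (nat_lit 201)) (XT.lf (nat_lit 0) (nat_lit 16548170182) (nat_lit 304) (nat_lit 28290272873) (nat_lit 76) (nat_lit 721498049) (nat_lit 49) (nat_lit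 5) (nat_lit 53) (nat_lit 5) (nat_lit 50) (nat_lit 5) (nat_lit 299) (nat_lit 281) (nat_lit 200))) (XT.nd (nat_lit 78) (nat_lit 228) (nat_lit 0) (XT.lf (nat_lit 0) (nat_lit 7871841211) (nat_lit 228) (nat_lit 21539145040) (nat_lit 304) (nat_lit 18473906949) (nat_lit 46) (nat_lit 5) (nat_lit 49) (nat_lit 5) (nat_lit 50) (nat_lit 5) (nat_lit 300) (nat_lit 281) (nat_lit 199)) (XT.nd (nat_lit 78) (nat_lit 228) (nat_lit 0) (XT.lf (nat_lit 0) (nat_lit 43852640309) (nat_lit 304) (nat_lit 2509748056) (nat_lit 76) (nat_lit 4005971237) (nat_lit 46) (nat_lit 5) (nat_lit 50) (nat_lit 5) (nat_lit 47) (nat_lit 5) (nat_lit 301) (nat_lit 281) (nat_lit 198)) (XT.lf (nat_lit 0) (nat_lit 7172978541) (nat_lit 228) (nat_lit 14253757103) (nat_lit 76) (nat_lit 31569846644) (nat_lit 43) (nat_lit 5) (nat_lit 46) (nat_lit 5) (nat_lit 44) (nat_lit 5) (nat_lit 302) (nat_lit 281) (nat_lit 197))))) (XT.nd (nat_lit 234)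 (nat_lit 380) (nat_lit 0) (XT.nd (nat_lit 78) (nat_lit 304) (nat_lit 0) (XT.lf (nat_lit 0) (nat_lit 22307263970) (nat_lit 304) (nat_lit 27562468956) (nat_lit 76) (nat_lit 5931057733) (nat_lit 40) (nat_lit 5) (nat_lit 44) (nat_lit 5) (nat_lit 41) (nat_lit 5) (nat_lit 303) (nat_lit 281) (nat_lit 196)) (XT.nd (nat_lit 78) (nat_lit 152) (nat_lit 0) (XT.lf (nat_lit 0) (nat_lit 15957350569) (nat_lit 152) (nat_lit 23551217861) (nat_lit 228) (nat_lit 19277960091) (nat_lit 38) (nat_lit 5) (nat_lit 40) (nat_lit 5) (nat_lit 41) (nat_lit 5) (nat_lit 304) (nat_lit 281) (nat_lit 195)) (XT.lf (nat_lit 0) (nat_lit 1923809827) (nat_lit 152) (nat_lit 56750038972) (nat_lit 228) (nat_lit 3307889180) (nat_lit 36) (nat_lit 5) (nat_lit 38) (nat_lit 5) (nat_lit 39) (nat_lit 5) (nat_lit 305) (nat_lit 281) (nat_lit 194)))) (XT.nd (nat_lit 78) (nat_lit 304) (nat_lit 0) (XT.lf (nat_lit 0) (nat_lit 14643011696) (nat_lit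 228) (nat_lit 14245276370) (nat_lit 76) (nat_lit 36475930358) (nat_lit 35) (nat_lit 5) (nat_lit 38) (nat_lit 5) (nat_lit 36) (nat_lit 5) (nat_lit 306) (nat_lit 281) (nat_lit 193)) (XT.nd (nat_lit 78) (nat_lit 152) (nat_lit 0) (XT.lf (nat_lit 0) (nat_lit 34506227472) (nat_lit 228) (nat_lit 32684728380) (nat_lit 76) (nat_lit 1794028326) (nat_lit 33) (nat_lit 5) (nat_lit 36) (nat_lit 5) (nat_lit 34) (nat_lit 5) (nat_lit 307) (nat_lit 281) (nat_lit 192)) (XT.lf (nat_lit 0) (nat_lit 18610993047) (nat_lit 152) (nat_lit 38372057966) (nat_lit 228) (nat_lit 15861137297) (nat_lit 31) (nat_lit 5) (nat_lit 33) (nat_lit 5) (nat_lit 34) (nat_lit 5) (nat_lit 308) (nat_lit 281) (nat_lit 191))))))) (XT.nd (nat_lit 858) (nat_lit 532) (nat_lit 0) (XT.nd (nat_lit 390) (nat_lit 532) (nat_lit 0) (XT.nd (nat_lit 156) (nat_lit 304) (nat_lit 0) (XT.nd (nat_lit 78) (nat_lit 152) (nat_lit 0) (XT.lf (nat_lit 0) (nat_lit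 4683516556) (nat_lit 228) (nat_lit 1890170605) (nat_lit 76) (nat_lit 70406455197) (nat_lit 30) (nat_lit 5) (nat_lit 33) (nat_lit 5) (nat_lit 31) (nat_lit 5) (nat_lit 309) (nat_lit 281) (nat_lit 190)) (XT.lf (nat_lit 0) (nat_lit 27647809206) (nat_lit 228) (nat_lit 25679649759) (nat_lit 76) (nat_lit 28039928450) (nat_lit 28) (nat_lit 5) (nat_lit 31) (nat_lit 5) (nat_lit 29) (nat_lit 5) (nat_lit 310) (nat_lit 281) (nat_lit 189))) (XT.nd (nat_lit 78) (nat_lit 152) (nat_lit 0) (XT.lf (nat_lit 0) (nat_lit 32765071631) (nat_lit 152) (nat_lit 20335451690) (nat_lit 228) (nat_lit 32972528364) (nat_lit 26) (nat_lit 5) (nat_lit 28) (nat_lit 5) (nat_lit 29) (nat_lit 5) (nat_lit 311) (nat_lit 281) (nat_lit 188)) (XT.nd (nat_lit 78) (nat_lit 76) (nat_lit 0) (XT.lf (nat_lit 0) (nat_lit 5595025807) (nat_lit 76) (nat_lit 75770844345) (nat_lit 152) (nat_lit 9750481416) (nat_lit 25) (nat_lit 5) (nat_lit 26)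 (nat_lit 5) (nat_lit 27) (nat_lit 4) (nat_lit 312) (nat_lit 281) (nat_lit 187)) (XT.lf (nat_lit 0) (nat_lit 16121137645) (nat_lit 152) (nat_lit 26007555498) (nat_lit 76) (nat_lit 54358336344) (nat_lit 24) (nat_lit 5) (nat_lit 26) (nat_lit 5) (nat_lit 25) (nat_lit 5) (nat_lit 313) (nat_lit 281) (nat_lit 186))))) (XT.nd (nat_lit 234) (nat_lit 304) (nat_lit 0) (XT.nd (nat_lit 78) (nat_lit 76) (nat_lit 0) (XT.lf (nat_lit 0) (nat_lit 39355773924) (nat_lit 152) (nat_lit 4980176006) (nat_lit 228) (nat_lit 57912668513) (nat_lit 22) (nat_lit 5) (nat_lit 24) (nat_lit 5) (nat_lit 25) (nat_lit 5) (nat_lit 314) (nat_lit 281) (nat_lit 185)) (XT.nd (nat_lit 78) (nat_lit 0) (nat_lit 0) (XT.lf (nat_lit 0) (nat_lit 1927417437) (nat_lit 76) (nat_lit 73915922421) (nat_lit 152) (nat_lit 32576027482) (nat_lit 21) (nat_lit 5) (nat_lit 22) (nat_lit 5) (nat_lit 23) (nat_lit 4) (nat_lit 315) (nat_lit 281) (nat_lit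 184)) (XT.lf (nat_lit 0) (nat_lit 74086103472) (nat_lit 76) (nat_lit 36959774575) (nat_lit 152) (nat_lit 3979172523) (nat_lit 21) (nat_lit 5) (nat_lit 22) (nat_lit 5) (nat_lit 23) (nat_lit 4) (nat_lit 316) (nat_lit 281) (nat_lit 183)))) (XT.nd (nat_lit 78) (nat_lit 76) (nat_lit 0) (XT.lf (nat_lit 0) (nat_lit 26576328515) (nat_lit 228) (nat_lit 91769937037) (nat_lit 76) (nat_lit 3765319480) (nat_lit 18) (nat_lit 5) (nat_lit 21) (nat_lit 5) (nat_lit 19) (nat_lit 4) (nat_lit 317) (nat_lit 281) (nat_lit 182)) (XT.nd (nat_lit 78) (nat_lit 76) (nat_lit 0) (XT.lf (nat_lit 0) (nat_lit 60783471816) (nat_lit 228) (nat_lit 21650614694) (nat_lit 76) (nat_lit 47260365333) (nat_lit 18) (nat_lit 5) (nat_lit 21) (nat_lit 5) (nat_lit 19) (nat_lit 4) (nat_lit 318) (nat_lit 281) (nat_lit 181)) (XT.lf (nat_lit 0) (nat_lit 55860738373) (nat_lit 76) (nat_lit 42735553106) (nat_lit 152) (nat_lit 39244202994)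 (nat_lit 17) (nat_lit 5) (nat_lit 18) (nat_lit 5) (nat_lit 19) (nat_lit 4) (nat_lit 319) (nat_lit 281) (nat_lit 180)))))) (XT.nd (nat_lit 390) (nat_lit 304) (nat_lit 0) (XT.nd (nat_lit 156) (nat_lit 76) (nat_lit 0) (XT.nd (nat_lit 78) (nat_lit 152) (nat_lit 0) (XT.lf (nat_lit 0) (nat_lit 139816698021) (nat_lit 152) (nat_lit 6286861261) (nat_lit 0) (nat_lit 515534760) (nat_lit 17) (nat_lit 5) (nat_lit 19) (nat_lit 4) (nat_lit 17) (nat_lit 4) (nat_lit 320) (nat_lit 281) (nat_lit 179)) (XT.lf (nat_lit 0) (nat_lit 29285901483) (nat_lit 152) (nat_lit 79269088379) (nat_lit 76) (nat_lit 47425210212) (nat_lit 15) (nat_lit 5) (nat_lit 17) (nat_lit 5) (nat_lit 16) (nat_lit 4) (nat_lit 321) (nat_lit 281) (nat_lit 178))) (XT.nd (nat_lit 78) (nat_lit 0) (nat_lit 0) (XT.lf (nat_lit 0) (nat_lit 379591028) (nat_lit 76) (nat_lit 67761141944) (nat_lit 152) (nat_lit 97937997532) (nat_lit 14) (nat_lit 5)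 (nat_lit 15) (nat_lit 5) (nat_lit 16) (nat_lit 4) (nat_lit 322) (nat_lit 281) (nat_lit 177)) (XT.nd (nat_lit 78) (nat_lit 0) (nat_lit 0) (XT.lf (nat_lit 0) (nat_lit 89226278077) (nat_lit 76) (nat_lit 22255984778) (nat_lit 152) (nat_lit 65433966125) (nat_lit 14) (nat_lit 5) (nat_lit 15) (nat_lit 5) (nat_lit 16) (nat_lit 4) (nat_lit 323) (nat_lit 281) (nat_lit 176)) (XT.lf (nat_lit 0) (nat_lit 158708588202) (nat_lit 152) (nat_lit 3864158858) (nat_lit 0) (nat_lit 26027107735) (nat_lit 14) (nat_lit 5) (nat_lit 16) (nat_lit 4) (nat_lit 14) (nat_lit 4) (nat_lit 324) (nat_lit 281) (nat_lit 175))))) (XT.nd (nat_lit 234) (nat_lit 76) (nat_lit 0) (XT.nd (nat_lit 78) (nat_lit 76) (nat_lit 0) (XT.lf (nat_lit 0) (nat_lit 10016742355) (nat_lit 152) (nat_lit 112149974963) (nat_lit 76) (nat_lit 78955133836) (nat_lit 12) (nat_lit 5) (nat_lit 14) (nat_lit 5) (nat_lit 13) (nat_lit 4) (nat_lit 325) (nat_lit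 281) (nat_lit 174)) (XT.nd (nat_lit 78) (nat_lit 76) (nat_lit 0) (XT.lf (nat_lit 0) (nat_lit 52150454709) (nat_lit 152) (nat_lit 25778472348) (nat_lit 76) (nat_lit 136688164687) (nat_lit 12) (nat_lit 5) (nat_lit 14) (nat_lit 5) (nat_lit 13) (nat_lit 4) (nat_lit 326) (nat_lit 281) (nat_lit 173)) (XT.lf (nat_lit 0) (nat_lit 69730977439) (nat_lit 76) (nat_lit 29010630602) (nat_lit 152) (nat_lit 130396007180) (nat_lit 11) (nat_lit 5) (nat_lit 12) (nat_lit 5) (nat_lit 13) (nat_lit 4) (nat_lit 327) (nat_lit 281) (nat_lit 172)))) (XT.nd (nat_lit 78) (nat_lit 76) (nat_lit 0) (XT.lf (nat_lit 0) (nat_lit 149886488115) (nat_lit 152) (nat_lit 71378392679) (nat_lit 0) (nat_lit 23513578841) (nat_lit 11) (nat_lit 5) (nat_lit 13) (nat_lit 4) (nat_lit 11) (nat_lit 4) (nat_lit 328) (nat_lit 281) (nat_lit 171)) (XT.nd (nat_lit 78) (nat_lit 0) (nat_lit 0) (XT.lf (nat_lit 0) (nat_lit 23966773946) (nat_lit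 76) (nat_lit 182017799217) (nat_lit 76) (nat_lit 55642918435) (nat_lit 10) (nat_lit 4) (nat_lit 11) (nat_lit 5) (nat_lit 11) (nat_lit 4) (nat_lit 329) (nat_lit 281) (nat_lit 170)) (XT.lf (nat_lit 0) (nat_lit 129485342318) (nat_lit 76) (nat_lit 138326862856) (nat_lit 76) (nat_lit 11950156603) (nat_lit 10) (nat_lit 4) (nat_lit 11) (nat_lit 5) (nat_lit 11) (nat_lit 4) (nat_lit 330) (nat_lit 281) (nat_lit 169))))))))
noncomputable def xc87 : XT := (XT.nd (nat_lit 37128) (nat_lit 0) (nat_lit 2356) (XT.nd (nat_lit 780) (nat_lit 76) (nat_lit 0) (XT.nd (nat_lit 390) (nat_lit 152) (nat_lit 0) (XT.nd (nat_lit 156) (nat_lit 76) (nat_lit 0) (XT.nd (nat_lit 78) (nat_lit 76) (nat_lit 0) (XT.lf (nat_lit 0) (nat_lit 34108621364) (nat_lit 152) (nat_lit 56455722706) (nat_lit 76) (nat_lit 208756248270) (nat_lit 9) (nat_lit 5) (nat_lit 11) (nat_lit 5) (nat_lit 10) (nat_lit 4) (nat_lit 331) (nat_lit 281) (nat_lit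 168)) (XT.lf (nat_lit 0) (nat_lit 46143955368) (nat_lit 76) (nat_lit 38014052884) (nat_lit 152) (nat_lit 236239449333) (nat_lit 8) (nat_lit 5) (nat_lit 9) (nat_lit 5) (nat_lit 10) (nat_lit 4) (nat_lit 332) (nat_lit 281) (nat_lit 167))) (XT.nd (nat_lit 78) (nat_lit 76) (nat_lit 0) (XT.lf (nat_lit 0) (nat_lit 139502074317) (nat_lit 152) (nat_lit 184455035766) (nat_lit 0) (nat_lit 19138826062) (nat_lit 8) (nat_lit 5) (nat_lit 10) (nat_lit 4) (nat_lit 8) (nat_lit 4) (nat_lit 333) (nat_lit 281) (nat_lit 166)) (XT.nd (nat_lit 78) (nat_lit 76) (nat_lit 0) (XT.lf (nat_lit 0) (nat_lit 199913352296) (nat_lit 152) (nat_lit 88116130670) (nat_lit 0) (nat_lit 79548826160) (nat_lit 8) (nat_lit 5) (nat_lit 10) (nat_lit 4) (nat_lit 8) (nat_lit 4) (nat_lit 334) (nat_lit 281) (nat_lit 165)) (XT.lf (nat_lit 0) (nat_lit 16454255107) (nat_lit 76) (nat_lit 248958970977) (nat_lit 76) (nat_lit 128593261618) (nat_lit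 7) (nat_lit 4) (nat_lit 8) (nat_lit 5) (nat_lit 8) (nat_lit 4) (nat_lit 335) (nat_lit 281) (nat_lit 164))))) (XT.nd (nat_lit 156) (nat_lit 152) (nat_lit 0) (XT.nd (nat_lit 78) (nat_lit 0) (nat_lit 0) (XT.lf (nat_lit 0) (nat_lit 132534698381) (nat_lit 76) (nat_lit 205152169312) (nat_lit 76) (nat_lit 84785364376) (nat_lit 7) (nat_lit 4) (nat_lit 8) (nat_lit 5) (nat_lit 8) (nat_lit 4) (nat_lit 336) (nat_lit 281) (nat_lit 163)) (XT.lf (nat_lit 0) (nat_lit 257899566035) (nat_lit 76) (nat_lit 157841771421) (nat_lit 76) (nat_lit 37473952061) (nat_lit 7) (nat_lit 4) (nat_lit 8) (nat_lit 5) (nat_lit 8) (nat_lit 4) (nat_lit 337) (nat_lit 281) (nat_lit 162))) (XT.nd (nat_lit 78) (nat_lit 76) (nat_lit 0) (XT.lf (nat_lit 0) (nat_lit 13185371328) (nat_lit 152) (nat_lit 93338747417) (nat_lit 76) (nat_lit 379883089017) (nat_lit 6) (nat_lit 5) (nat_lit 8) (nat_lit 5) (nat_lit 7) (nat_lit 4) (nat_lit 338)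 (nat_lit 281) (nat_lit 161)) (XT.nd (nat_lit 78) (nat_lit 0) (nat_lit 0) (XT.lf (nat_lit 0) (nat_lit 16697165907) (nat_lit 76) (nat_lit 50164684947) (nat_lit 152) (nat_lit 455348046811) (nat_lit 5) (nat_lit 5) (nat_lit 6) (nat_lit 5) (nat_lit 7) (nat_lit 4) (nat_lit 339) (nat_lit 281) (nat_lit 160)) (XT.lf (nat_lit 0) (nat_lit 126651218582) (nat_lit 152) (nat_lit 422121935603) (nat_lit 0) (nat_lit 12012710366) (nat_lit 5) (nat_lit 5) (nat_lit 7) (nat_lit 4) (nat_lit 5) (nat_lit 4) (nat_lit 340) (nat_lit 281) (nat_lit 159)))))) (XT.nd (nat_lit 390) (nat_lit 0) (nat_lit 0) (XT.nd (nat_lit 156) (nat_lit 76) (nat_lit 0) (XT.nd (nat_lit 78) (nat_lit 0) (nat_lit 0) (XT.lf (nat_lit 0) (nat_lit 192068773654) (nat_lit 152) (nat_lit 332907328184) (nat_lit 0) (nat_lit 77429555312) (nat_lit 5) (nat_lit 5) (nat_lit 7) (nat_lit 4) (nat_lit 5) (nat_lit 4) (nat_lit 341) (nat_lit 281) (nat_lit 158)) (XT.lf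 (nat_lit 0) (nat_lit 262718964338) (nat_lit 152) (nat_lit 236557019028) (nat_lit 0) (nat_lit 148079088473) (nat_lit 5) (nat_lit 5) (nat_lit 7) (nat_lit 4) (nat_lit 5) (nat_lit 4) (nat_lit 342) (nat_lit 281) (nat_lit 157))) (XT.nd (nat_lit 78) (nat_lit 76) (nat_lit 0) (XT.lf (nat_lit 0) (nat_lit 339020458430) (nat_lit 152) (nat_lit 132500043341) (nat_lit 0) (nat_lit 224379973748) (nat_lit 5) (nat_lit 5) (nat_lit 7) (nat_lit 4) (nat_lit 5) (nat_lit 4) (nat_lit 343) (nat_lit 281) (nat_lit 156)) (XT.nd (nat_lit 78) (nat_lit 76) (nat_lit 0) (XT.lf (nat_lit 0) (nat_lit 421425412934) (nat_lit 152) (nat_lit 20119767191) (nat_lit 0) (nat_lit 306784364531) (nat_lit 5) (nat_lit 5) (nat_lit 7) (nat_lit 4) (nat_lit 5) (nat_lit 4) (nat_lit 344) (nat_lit 281) (nat_lit 155)) (XT.lf (nat_lit 0) (nat_lit 104597541154) (nat_lit 76) (nat_lit 407457673101) (nat_lit 76) (nat_lit 292816102735) (nat_lit 4) (nat_lit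 4) (nat_lit 5) (nat_lit 5) (nat_lit 5) (nat_lit 4) (nat_lit 345) (nat_lit 281) (nat_lit 154))))) (XT.nd (nat_lit 35724) (nat_lit 0) (nat_lit 6840) (XT.nd (nat_lit 78) (nat_lit 0) (nat_lit 0) (XT.lf (nat_lit 0) (nat_lit 240009590730) (nat_lit 76) (nat_lit 370275699840) (nat_lit 76) (nat_lit 255633646175) (nat_lit 4) (nat_lit 4) (nat_lit 5) (nat_lit 5) (nat_lit 5) (nat_lit 4) (nat_lit 346) (nat_lit 281) (nat_lit 153)) (XT.nd (nat_lit 35568) (nat_lit 0) (nat_lit 6840) (XT.lf (nat_lit 0) (nat_lit 386253572946) (nat_lit 76) (nat_lit 330119660715) (nat_lit 76) (nat_lit 215477159551) (nat_lit 4) (nat_lit 4) (nat_lit 5) (nat_lit 5) (nat_lit 5) (nat_lit 4) (nat_lit 347) (nat_lit 281) (nat_lit 152)) (XT.lf (nat_lit 0) (nat_lit 4617257052) (nat_lit 0) (nat_lit 4617257052) (nat_lit 684) (nat_lit 1913351262) (nat_lit 94) (nat_lit 5) (nat_lit 94) (nat_lit 3) (nat_lit 103) (nat_lit 3) (nat_lit 282) (nat_lit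 282) (nat_lit 216)))) (XT.nd (nat_lit 78) (nat_lit 0) (nat_lit 76) (XT.lf (nat_lit 76) (nat_lit 3291258924) (nat_lit 0) (nat_lit 16274099483) (nat_lit 760) (nat_lit 3603975285) (nat_lit 95) (nat_lit 5) (nat_lit 94) (nat_lit 5) (nat_lit 104) (nat_lit 5) (nat_lit 283) (nat_lit 282) (nat_lit 215)) (XT.nd (nat_lit 78) (nat_lit 0) (nat_lit 0) (XT.lf (nat_lit 0) (nat_lit 21112617198) (nat_lit 684) (nat_lit 2850761737) (nat_lit 760) (nat_lit 131319645) (nat_lit 95) (nat_lit 5) (nat_lit 104) (nat_lit 5) (nat_lit 105) (nat_lit 5) (nat_lit 284) (nat_lit 282) (nat_lit 214)) (XT.lf (nat_lit 76) (nat_lit 15757105574) (nat_lit 0) (nat_lit 7528934229) (nat_lit 760) (nat_lit 1782965919) (nat_lit 96) (nat_lit 5) (nat_lit 95) (nat_lit 5) (nat_lit 105) (nat_lit 5) (nat_lit 285) (nat_lit 282) (nat_lit 213))))))) (XT.nd (nat_lit 858) (nat_lit 1824) (nat_lit 0) (XT.nd (nat_lit 390) (nat_lit 1672) (nat_lit 0)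 (XT.nd (nat_lit 156) (nat_lit 456) (nat_lit 0) (XT.nd (nat_lit 78) (nat_lit 684) (nat_lit 0) (XT.lf (nat_lit 76) (nat_lit 9983781341) (nat_lit 0) (nat_lit 15998683647) (nat_lit 760) (nat_lit 121365843) (nat_lit 97) (nat_lit 5) (nat_lit 96) (nat_lit 5) (nat_lit 106) (nat_lit 5) (nat_lit 286) (nat_lit 282) (nat_lit 212)) (XT.lf (nat_lit 0) (nat_lit 1986638478) (nat_lit 760) (nat_lit 23334325501) (nat_lit 836) (nat_lit 1880846747) (nat_lit 87) (nat_lit 5) (nat_lit 97) (nat_lit 5) (nat_lit 98) (nat_lit 5) (nat_lit 287) (nat_lit 282) (nat_lit 211))) (XT.nd (nat_lit 78) (nat_lit 456) (nat_lit 0) (XT.lf (nat_lit 0) (nat_lit 4799313284) (nat_lit 760) (nat_lit 2632688784) (nat_lit 836) (nat_lit 20928537715) (nat_lit 87) (nat_lit 5) (nat_lit 97) (nat_lit 5) (nat_lit 98) (nat_lit 5) (nat_lit 288) (nat_lit 282) (nat_lit 210)) (XT.nd (nat_lit 78) (nat_lit 532) (nat_lit 0) (XT.lf (nat_lit 0) (nat_lit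 8331981625) (nat_lit 760) (nat_lit 9422171668) (nat_lit 76) (nat_lit 11833087448) (nat_lit 88) (nat_lit 5) (nat_lit 98) (nat_lit 5) (nat_lit 89) (nat_lit 5) (nat_lit 289) (nat_lit 282) (nat_lit 209)) (XT.lf (nat_lit 0) (nat_lit 12556852586) (nat_lit 608) (nat_lit 16629936134) (nat_lit 76) (nat_lit 1704830483) (nat_lit 81) (nat_lit 5) (nat_lit 89) (nat_lit 5) (nat_lit 82) (nat_lit 5) (nat_lit 290) (nat_lit 282) (nat_lit 208))))) (XT.nd (nat_lit 234) (nat_lit 988) (nat_lit 0) (XT.nd (nat_lit 78) (nat_lit 304) (nat_lit 0) (XT.lf (nat_lit 0) (nat_lit 7821055738) (nat_lit 380) (nat_lit 9874801697) (nat_lit 456) (nat_lit 14575702634) (nat_lit 76) (nat_lit 5) (nat_lit 81) (nat_lit 5) (nat_lit 82) (nat_lit 5) (nat_lit 291) (nat_lit 282) (nat_lit 207)) (XT.nd (nat_lit 78) (nat_lit 0) (nat_lit 0) (XT.lf (nat_lit 0) (nat_lit 915809061) (nat_lit 304) (nat_lit 22798941752) (nat_lit 380) (nat_lit 10023724890)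 (nat_lit 72) (nat_lit 5) (nat_lit 76) (nat_lit 5) (nat_lit 77) (nat_lit 5) (nat_lit 292) (nat_lit 282) (nat_lit 206)) (XT.lf (nat_lit 0) (nat_lit 29001193577) (nat_lit 304) (nat_lit 1792940929) (nat_lit 380) (nat_lit 4499677717) (nat_lit 72) (nat_lit 5) (nat_lit 76) (nat_lit 5) (nat_lit 77) (nat_lit 5) (nat_lit 293) (nat_lit 282) (nat_lit 205)))) (XT.nd (nat_lit 78) (nat_lit 608) (nat_lit 0) (XT.lf (nat_lit 0) (nat_lit 2101798794) (nat_lit 380) (nat_lit 14223130646) (nat_lit 76) (nat_lit 20613394392) (nat_lit 67) (nat_lit 5) (nat_lit 72) (nat_lit 5) (nat_lit 68) (nat_lit 5) (nat_lit 294) (nat_lit 282) (nat_lit 204)) (XT.nd (nat_lit 78) (nat_lit 304) (nat_lit 0) (XT.lf (nat_lit 0) (nat_lit 9558372298) (nat_lit 380) (nat_lit 22841752279) (nat_lit 76) (nat_lit 6286365787) (nat_lit 63) (nat_lit 5) (nat_lit 68) (nat_lit 5) (nat_lit 64) (nat_lit 5) (nat_lit 295) (nat_lit 282) (nat_lit 203))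 (XT.lf (nat_lit 0) (nat_lit 8237305900) (nat_lit 304) (nat_lit 10020824926) (nat_lit 380) (nat_lit 22284058969) (nat_lit 59) (nat_lit 5) (nat_lit 63) (nat_lit 5) (nat_lit 64) (nat_lit 5) (nat_lit 296) (nat_lit 282) (nat_lit 202)))))) (XT.nd (nat_lit 390) (nat_lit 836) (nat_lit 0) (XT.nd (nat_lit 156) (nat_lit 760) (nat_lit 0) (XT.nd (nat_lit 78) (nat_lit 228) (nat_lit 0) (XT.lf (nat_lit 0) (nat_lit 28270627398) (nat_lit 380) (nat_lit 146281818) (nat_lit 76) (nat_lit 14098609702) (nat_lit 59) (nat_lit 5) (nat_lit 64) (nat_lit 5) (nat_lit 60) (nat_lit 5) (nat_lit 297) (nat_lit 282) (nat_lit 201)) (XT.lf (nat_lit 0) (nat_lit 35543690632) (nat_lit 228) (nat_lit 4256416227) (nat_lit 304) (nat_lit 4810819100) (nat_lit 56) (nat_lit 5) (nat_lit 59) (nat_lit 5) (nat_lit 60) (nat_lit 5) (nat_lit 298) (nat_lit 282) (nat_lit 200))) (XT.nd (nat_lit 78) (nat_lit 456) (nat_lit 0) (XT.lf (nat_lit 0) (nat_lit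 5987839059) (nat_lit 304) (nat_lit 19174279430) (nat_lit 76) (nat_lit 21668558841) (nat_lit 52) (nat_lit 5) (nat_lit 56) (nat_lit 5) (nat_lit 53) (nat_lit 5) (nat_lit 299) (nat_lit 282) (nat_lit 199)) (XT.nd (nat_lit 78) (nat_lit 228) (nat_lit 0) (XT.lf (nat_lit 0) (nat_lit 18016997450) (nat_lit 304) (nat_lit 30351303621) (nat_lit 76) (nat_lit 829015456) (nat_lit 49) (nat_lit 5) (nat_lit 53) (nat_lit 5) (nat_lit 50) (nat_lit 5) (nat_lit 300) (nat_lit 282) (nat_lit 198)) (XT.lf (nat_lit 0) (nat_lit 8694992611) (nat_lit 228) (nat_lit 23206126984) (nat_lit 304) (nat_lit 19807543836) (nat_lit 46) (nat_lit 5) (nat_lit 49) (nat_lit 5) (nat_lit 50) (nat_lit 5) (nat_lit 301) (nat_lit 282) (nat_lit 197))))) (XT.nd (nat_lit 234) (nat_lit 380) (nat_lit 0) (XT.nd (nat_lit 78) (nat_lit 456) (nat_lit 0) (XT.lf (nat_lit 0) (nat_lit 47488750699) (nat_lit 304) (nat_lit 2525760609) (nat_lit 76) (nat_lit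 4376775343) (nat_lit 46) (nat_lit 5) (nat_lit 50) (nat_lit 5) (nat_lit 47) (nat_lit 5) (nat_lit 302) (nat_lit 282) (nat_lit 196)) (XT.nd (nat_lit 78) (nat_lit 228) (nat_lit 0) (XT.lf (nat_lit 0) (nat_lit 7870119518) (nat_lit 228) (nat_lit 15213113778) (nat_lit 76) (nat_lit 34146781022) (nat_lit 43) (nat_lit 5) (nat_lit 46) (nat_lit 5) (nat_lit 44) (nat_lit 5) (nat_lit 303) (nat_lit 282) (nat_lit 195)) (XT.lf (nat_lit 0) (nat_lit 24209594094) (nat_lit 304) (nat_lit 29589300355) (nat_lit 76) (nat_lit 6459952180) (nat_lit 40) (nat_lit 5) (nat_lit 44) (nat_lit 5) (nat_lit 41) (nat_lit 5) (nat_lit 304) (nat_lit 282) (nat_lit 194)))) (XT.nd (nat_lit 78) (nat_lit 228) (nat_lit 0) (XT.lf (nat_lit 0) (nat_lit 17404361850) (nat_lit 152) (nat_lit 25376579696) (nat_lit 228) (nat_lit 20702813919) (nat_lit 38) (nat_lit 5) (nat_lit 40) (nat_lit 5) (nat_lit 41) (nat_lit 5) (nat_lit 305) (nat_lit 282)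 (nat_lit 193)) (XT.nd (nat_lit 78) (nat_lit 76) (nat_lit 0) (XT.lf (nat_lit 0) (nat_lit 2245302113) (nat_lit 152) (nat_lit 61229334682) (nat_lit 228) (nat_lit 3460193480) (nat_lit 36) (nat_lit 5) (nat_lit 38) (nat_lit 5) (nat_lit 39) (nat_lit 5) (nat_lit 306) (nat_lit 282) (nat_lit 192)) (XT.lf (nat_lit 0) (nat_lit 15915130108) (nat_lit 228) (nat_lit 15226305419) (nat_lit 76) (nat_lit 39446795899) (nat_lit 35) (nat_lit 5) (nat_lit 38) (nat_lit 5) (nat_lit 36) (nat_lit 5) (nat_lit 307) (nat_lit 282) (nat_lit 191))))))))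
noncomputable def xc88 : XT := (XT.nd (nat_lit 1638) (nat_lit 532) (nat_lit 0) (XT.nd (nat_lit 780) (nat_lit 760) (nat_lit 0) (XT.nd (nat_lit 390) (nat_lit 380) (nat_lit 0) (XT.nd (nat_lit 156) (nat_lit 380) (nat_lit 0) (XT.nd (nat_lit 78) (nat_lit 152) (nat_lit 0) (XT.lf (nat_lit 0) (nat_lit 37363190102) (nat_lit 228) (nat_lit 35143818619) (nat_lit 76) (nat_lit 1991867082) (nat_lit 33) (nat_lit 5) (nat_lit 36) (nat_lit 5) (nat_lit 34) (nat_lit 5) (nat_lit 308) (nat_lit 282) (nat_lit 190)) (XT.lf (nat_lit 0) (nat_lit 20248794510) (nat_lit 152) (nat_lit 41384544594) (nat_lit 228) (nat_lit 17033724399) (nat_lit 31) (nat_lit 5) (nat_lit 33) (nat_lit 5) (nat_lit 34) (nat_lit 5) (nat_lit 309) (nat_lit 282) (nat_lit 189))) (XT.nd (nat_lit 78) (nat_lit 304) (nat_lit 0) (XT.lf (nat_lit 0) (nat_lit 5144514137) (nat_lit 228) (nat_lit 1900570996) (nat_lit 76) (nat_lit 76089084307) (nat_lit 30) (nat_lit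 5) (nat_lit 33) (nat_lit 5) (nat_lit 31) (nat_lit 5) (nat_lit 310) (nat_lit 282) (nat_lit 188)) (XT.nd (nat_lit 78) (nat_lit 152) (nat_lit 0) (XT.lf (nat_lit 0) (nat_lit 29942481647) (nat_lit 228) (nat_lit 27595985664) (nat_lit 76) (nat_lit 30334105292) (nat_lit 28) (nat_lit 5) (nat_lit 31) (nat_lit 5) (nat_lit 29) (nat_lit 5) (nat_lit 311) (nat_lit 282) (nat_lit 187)) (XT.lf (nat_lit 0) (nat_lit 35518314559) (nat_lit 152) (nat_lit 21909022937) (nat_lit 228) (nat_lit 35527560986) (nat_lit 26) (nat_lit 5) (nat_lit 28) (nat_lit 5) (nat_lit 29) (nat_lit 5) (nat_lit 312) (nat_lit 282) (nat_lit 186))))) (XT.nd (nat_lit 156) (nat_lit 228) (nat_lit 0) (XT.nd (nat_lit 78) (nat_lit 76) (nat_lit 0) (XT.lf (nat_lit 0) (nat_lit 6171955038) (nat_lit 76) (nat_lit 81778911221) (nat_lit 152) (nat_lit 10450952736) (nat_lit 25) (nat_lit 5) (nat_lit 26) (nat_lit 5) (nat_lit 27) (nat_lit 4) (nat_lit 313)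 (nat_lit 282) (nat_lit 185)) (XT.lf (nat_lit 0) (nat_lit 17482143977) (nat_lit 152) (nat_lit 27966006607) (nat_lit 76) (nat_lit 58754227549) (nat_lit 24) (nat_lit 5) (nat_lit 26) (nat_lit 5) (nat_lit 25) (nat_lit 5) (nat_lit 314) (nat_lit 282) (nat_lit 184))) (XT.nd (nat_lit 78) (nat_lit 76) (nat_lit 0) (XT.lf (nat_lit 0) (nat_lit 42621080533) (nat_lit 152) (nat_lit 5329602368) (nat_lit 228) (nat_lit 62474387772) (nat_lit 22) (nat_lit 5) (nat_lit 24) (nat_lit 5) (nat_lit 25) (nat_lit 5) (nat_lit 315) (nat_lit 282) (nat_lit 183)) (XT.nd (nat_lit 78) (nat_lit 0) (nat_lit 0) (XT.lf (nat_lit 0) (nat_lit 2195933870) (nat_lit 76) (nat_lit 79780196795) (nat_lit 152) (nat_lit 35113478774) (nat_lit 21) (nat_lit 5) (nat_lit 22) (nat_lit 5) (nat_lit 23) (nat_lit 4) (nat_lit 316) (nat_lit 282) (nat_lit 182)) (XT.lf (nat_lit 0) (nat_lit 80118846413) (nat_lit 76) (nat_lit 39871186709) (nat_lit 152)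 (nat_lit 4233959190) (nat_lit 21) (nat_lit 5) (nat_lit 22) (nat_lit 5) (nat_lit 23) (nat_lit 4) (nat_lit 317) (nat_lit 282) (nat_lit 181)))))) (XT.nd (nat_lit 390) (nat_lit 304) (nat_lit 0) (XT.nd (nat_lit 156) (nat_lit 228) (nat_lit 0) (XT.nd (nat_lit 78) (nat_lit 0) (nat_lit 0) (XT.lf (nat_lit 0) (nat_lit 28761700634) (nat_lit 228) (nat_lit 99006032836) (nat_lit 76) (nat_lit 4109781508) (nat_lit 18) (nat_lit 5) (nat_lit 21) (nat_lit 5) (nat_lit 19) (nat_lit 4) (nat_lit 318) (nat_lit 282) (nat_lit 180)) (XT.lf (nat_lit 0) (nat_lit 65701025337) (nat_lit 228) (nat_lit 23284979458) (nat_lit 76) (nat_lit 51081228328) (nat_lit 18) (nat_lit 5) (nat_lit 21) (nat_lit 5) (nat_lit 19) (nat_lit 4) (nat_lit 319) (nat_lit 282) (nat_lit 179))) (XT.nd (nat_lit 78) (nat_lit 152) (nat_lit 0) (XT.lf (nat_lit 0) (nat_lit 60423036609) (nat_lit 76) (nat_lit 46113227939) (nat_lit 152) (nat_lit 42328827218)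 (nat_lit 17) (nat_lit 5) (nat_lit 18) (nat_lit 5) (nat_lit 19) (nat_lit 4) (nat_lit 320) (nat_lit 282) (nat_lit 178)) (XT.nd (nat_lit 78) (nat_lit 152) (nat_lit 0) (XT.lf (nat_lit 0) (nat_lit 151051026937) (nat_lit 152) (nat_lit 6701441032) (nat_lit 0) (nat_lit 593677298) (nat_lit 17) (nat_lit 5) (nat_lit 19) (nat_lit 4) (nat_lit 17) (nat_lit 4) (nat_lit 321) (nat_lit 282) (nat_lit 177)) (XT.lf (nat_lit 0) (nat_lit 31676246477) (nat_lit 152) (nat_lit 85524493570) (nat_lit 76) (nat_lit 51255478892) (nat_lit 15) (nat_lit 5) (nat_lit 17) (nat_lit 5) (nat_lit 16) (nat_lit 4) (nat_lit 322) (nat_lit 282) (nat_lit 176))))) (XT.nd (nat_lit 234) (nat_lit 228) (nat_lit 0) (XT.nd (nat_lit 78) (nat_lit 0) (nat_lit 0) (XT.lf (nat_lit 0) (nat_lit 492337438) (nat_lit 76) (nat_lit 73144896709) (nat_lit 152) (nat_lit 105725510916) (nat_lit 14) (nat_lit 5) (nat_lit 15) (nat_lit 5) (nat_lit 16) (nat_lit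 4) (nat_lit 323) (nat_lit 282) (nat_lit 175)) (XT.nd (nat_lit 78) (nat_lit 0) (nat_lit 0) (XT.lf (nat_lit 0) (nat_lit 96440657293) (nat_lit 76) (nat_lit 24002077828) (nat_lit 152) (nat_lit 70624677472) (nat_lit 14) (nat_lit 5) (nat_lit 15) (nat_lit 5) (nat_lit 16) (nat_lit 4) (nat_lit 324) (nat_lit 282) (nat_lit 174)) (XT.lf (nat_lit 0) (nat_lit 171444560531) (nat_lit 152) (nat_lit 4101203772) (nat_lit 0) (nat_lit 28140095960) (nat_lit 14) (nat_lit 5) (nat_lit 16) (nat_lit 4) (nat_lit 14) (nat_lit 4) (nat_lit 325) (nat_lit 282) (nat_lit 173)))) (XT.nd (nat_lit 78) (nat_lit 76) (nat_lit 0) (XT.lf (nat_lit 0) (nat_lit 10856164259) (nat_lit 152) (nat_lit 121051742385) (nat_lit 76) (nat_lit 85301772030) (nat_lit 12) (nat_lit 5) (nat_lit 14) (nat_lit 5) (nat_lit 13) (nat_lit 4) (nat_lit 326) (nat_lit 282) (nat_lit 172)) (XT.nd (nat_lit 78) (nat_lit 76) (nat_lit 0) (XT.lf (nat_lit 0) (nat_lit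 56357752673) (nat_lit 152) (nat_lit 27775721826) (nat_lit 76) (nat_lit 147651206275) (nat_lit 12) (nat_lit 5) (nat_lit 14) (nat_lit 5) (nat_lit 13) (nat_lit 4) (nat_lit 327) (nat_lit 282) (nat_lit 171)) (XT.lf (nat_lit 0) (nat_lit 75371657893) (nat_lit 76) (nat_lit 31302899561) (nat_lit 152) (nat_lit 140792371845) (nat_lit 11) (nat_lit 5) (nat_lit 12) (nat_lit 5) (nat_lit 13) (nat_lit 4) (nat_lit 328) (nat_lit 282) (nat_lit 170))))))) (XT.nd (nat_lit 858) (nat_lit 152) (nat_lit 0) (XT.nd (nat_lit 390) (nat_lit 152) (nat_lit 0) (XT.nd (nat_lit 156) (nat_lit 152) (nat_lit 0) (XT.nd (nat_lit 78) (nat_lit 76) (nat_lit 0) (XT.lf (nat_lit 0) (nat_lit 161908950690) (nat_lit 152) (nat_lit 77029913018) (nat_lit 0) (nat_lit 25420282466) (nat_lit 11) (nat_lit 5) (nat_lit 13) (nat_lit 4) (nat_lit 11) (nat_lit 4) (nat_lit 329) (nat_lit 282) (nat_lit 169)) (XT.lf (nat_lit 0) (nat_lit 25940313687) (nat_lit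 76) (nat_lit 196553109702) (nat_lit 76) (nat_lit 60062751228) (nat_lit 10) (nat_lit 4) (nat_lit 11) (nat_lit 5) (nat_lit 11) (nat_lit 4) (nat_lit 330) (nat_lit 282) (nat_lit 168))) (XT.nd (nat_lit 78) (nat_lit 152) (nat_lit 0) (XT.lf (nat_lit 0) (nat_lit 139896204727) (nat_lit 76) (nat_lit 149368832762) (nat_lit 76) (nat_lit 12876909241) (nat_lit 10) (nat_lit 4) (nat_lit 11) (nat_lit 5) (nat_lit 11) (nat_lit 4) (nat_lit 331) (nat_lit 282) (nat_lit 167)) (XT.nd (nat_lit 78) (nat_lit 76) (nat_lit 0) (XT.lf (nat_lit 0) (nat_lit 36863536435) (nat_lit 152) (nat_lit 60923122944) (nat_lit 76) (nat_lit 225478259207) (nat_lit 9) (nat_lit 5) (nat_lit 11) (nat_lit 5) (nat_lit 10) (nat_lit 4) (nat_lit 332) (nat_lit 282) (nat_lit 166)) (XT.lf (nat_lit 0) (nat_lit 49882397393) (nat_lit 76) (nat_lit 41033266902) (nat_lit 152) (nat_lit 255112329987) (nat_lit 8) (nat_lit 5) (nat_lit 9) (nat_lit 5) (nat_lit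 10) (nat_lit 4) (nat_lit 333) (nat_lit 282) (nat_lit 165))))) (XT.nd (nat_lit 234) (nat_lit 76) (nat_lit 0) (XT.nd (nat_lit 78) (nat_lit 76) (nat_lit 0) (XT.lf (nat_lit 0) (nat_lit 150685719394) (nat_lit 152) (nat_lit 199167139160) (nat_lit 0) (nat_lit 20689570063) (nat_lit 8) (nat_lit 5) (nat_lit 10) (nat_lit 4) (nat_lit 8) (nat_lit 4) (nat_lit 334) (nat_lit 282) (nat_lit 164)) (XT.nd (nat_lit 78) (nat_lit 76) (nat_lit 0) (XT.lf (nat_lit 0) (nat_lit 215928160417) (nat_lit 152) (nat_lit 95124403098) (nat_lit 0) (nat_lit 85930915509) (nat_lit 8) (nat_lit 5) (nat_lit 10) (nat_lit 4) (nat_lit 8) (nat_lit 4) (nat_lit 335) (nat_lit 282) (nat_lit 163)) (XT.lf (nat_lit 0) (nat_lit 17809830948) (nat_lit 76) (nat_lit 268857195369) (nat_lit 76) (nat_lit 138858936038) (nat_lit 7) (nat_lit 4) (nat_lit 8) (nat_lit 5) (nat_lit 8) (nat_lit 4) (nat_lit 336) (nat_lit 282) (nat_lit 162)))) (XT.nd (nat_lit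 78) (nat_lit 76) (nat_lit 0) (XT.lf (nat_lit 0) (nat_lit 143173803356) (nat_lit 76) (nat_lit 221547219445) (nat_lit 76) (nat_lit 91548020832) (nat_lit 7) (nat_lit 4) (nat_lit 8) (nat_lit 5) (nat_lit 8) (nat_lit 4) (nat_lit 337) (nat_lit 282) (nat_lit 161)) (XT.nd (nat_lit 78) (nat_lit 76) (nat_lit 0) (XT.lf (nat_lit 0) (nat_lit 278565169377) (nat_lit 76) (nat_lit 170453258123) (nat_lit 76) (nat_lit 40453189805) (nat_lit 7) (nat_lit 4) (nat_lit 8) (nat_lit 5) (nat_lit 8) (nat_lit 4) (nat_lit 338) (nat_lit 282) (nat_lit 160)) (XT.lf (nat_lit 0) (nat_lit 14256942325) (nat_lit 152) (nat_lit 100774141831) (nat_lit 76) (nat_lit 410287857676) (nat_lit 6) (nat_lit 5) (nat_lit 8) (nat_lit 5) (nat_lit 7) (nat_lit 4) (nat_lit 339) (nat_lit 282) (nat_lit 159)))))) (XT.nd (nat_lit 390) (nat_lit 76) (nat_lit 0) (XT.nd (nat_lit 156) (nat_lit 0) (nat_lit 0) (XT.nd (nat_lit 78) (nat_lit 0) (nat_lit 0)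 (XT.lf (nat_lit 0) (nat_lit 18063266682) (nat_lit 76) (nat_lit 54163506933) (nat_lit 152) (nat_lit 491759112049) (nat_lit 5) (nat_lit 5) (nat_lit 6) (nat_lit 5) (nat_lit 7) (nat_lit 4) (nat_lit 340) (nat_lit 282) (nat_lit 158)) (XT.lf (nat_lit 0) (nat_lit 136798314939) (nat_lit 152) (nat_lit 455863072647) (nat_lit 0) (nat_lit 12986591482) (nat_lit 5) (nat_lit 5) (nat_lit 7) (nat_lit 4) (nat_lit 5) (nat_lit 4) (nat_lit 341) (nat_lit 282) (nat_lit 157))) (XT.nd (nat_lit 78) (nat_lit 0) (nat_lit 0) (XT.lf (nat_lit 0) (nat_lit 207448163389) (nat_lit 152) (nat_lit 359513416472) (nat_lit 0) (nat_lit 83635831114) (nat_lit 5) (nat_lit 5) (nat_lit 7) (nat_lit 4) (nat_lit 5) (nat_lit 4) (nat_lit 342) (nat_lit 282) (nat_lit 156)) (XT.nd (nat_lit 78) (nat_lit 0) (nat_lit 0) (XT.lf (nat_lit 0) (nat_lit 283749340599) (nat_lit 152) (nat_lit 255457045396) (nat_lit 0) (nat_lit 159936444604) (nat_lit 5)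 (nat_lit 5) (nat_lit 7) (nat_lit 4) (nat_lit 5) (nat_lit 4) (nat_lit 343) (nat_lit 282) (nat_lit 155)) (XT.lf (nat_lit 0) (nat_lit 366154001692) (nat_lit 152) (nat_lit 143077329072) (nat_lit 0) (nat_lit 242340583733) (nat_lit 5) (nat_lit 5) (nat_lit 7) (nat_lit 4) (nat_lit 5) (nat_lit 4) (nat_lit 344) (nat_lit 282) (nat_lit 154))))) (XT.nd (nat_lit 35880) (nat_lit 0) (nat_lit 6840) (XT.nd (nat_lit 78) (nat_lit 76) (nat_lit 0) (XT.lf (nat_lit 0) (nat_lit 455150470586) (nat_lit 152) (nat_lit 21708313625) (nat_lit 0) (nat_lit 331336569328) (nat_lit 5) (nat_lit 5) (nat_lit 7) (nat_lit 4) (nat_lit 5) (nat_lit 4) (nat_lit 345) (nat_lit 282) (nat_lit 153)) (XT.nd (nat_lit 35724) (nat_lit 0) (nat_lit 6840) (XT.lf (nat_lit 0) (nat_lit 112985465234) (nat_lit 76) (nat_lit 440044688283) (nat_lit 76) (nat_lit 316230339526) (nat_lit 4) (nat_lit 4) (nat_lit 5) (nat_lit 5) (nat_lit 5) (nat_lit 4) (nat_lit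 346) (nat_lit 282) (nat_lit 152)) (XT.lf (nat_lit 0) (nat_lit 5082182457) (nat_lit 0) (nat_lit 5082182457) (nat_lit 684) (nat_lit 1865435747) (nat_lit 94) (nat_lit 5) (nat_lit 94) (nat_lit 3) (nat_lit 103) (nat_lit 3) (nat_lit 283) (nat_lit 283) (nat_lit 214)))) (XT.nd (nat_lit 78) (nat_lit 0) (nat_lit 76) (XT.lf (nat_lit 76) (nat_lit 3759126497) (nat_lit 0) (nat_lit 17725761777) (nat_lit 760) (nat_lit 3519648443) (nat_lit 95) (nat_lit 5) (nat_lit 94) (nat_lit 5) (nat_lit 104) (nat_lit 5) (nat_lit 284) (nat_lit 283) (nat_lit 213)) (XT.nd (nat_lit 78) (nat_lit 0) (nat_lit 0) (XT.lf (nat_lit 0) (nat_lit 23127518631) (nat_lit 684) (nat_lit 2870259432) (nat_lit 760) (nat_lit 7619752) (nat_lit 95) (nat_lit 5) (nat_lit 104) (nat_lit 5) (nat_lit 105) (nat_lit 5) (nat_lit 285) (nat_lit 283) (nat_lit 212)) (XT.lf (nat_lit 76) (nat_lit 17217173359) (nat_lit 0) (nat_lit 8236616277) (nat_lit 760)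 (nat_lit 1604954279) (nat_lit 96) (nat_lit 5) (nat_lit 95) (nat_lit 5) (nat_lit 105) (nat_lit 5) (nat_lit 286) (nat_lit 283) (nat_lit 211))))))))
noncomputable def xc89 : XT := (XT.nd (nat_lit 1638) (nat_lit 1900) (nat_lit 0) (XT.nd (nat_lit 780) (nat_lit 2052) (nat_lit 0) (XT.nd (nat_lit 390) (nat_lit 1368) (nat_lit 0) (XT.nd (nat_lit 156) (nat_lit 380) (nat_lit 0) (XT.nd (nat_lit 78) (nat_lit 0) (nat_lit 76) (XT.lf (nat_lit 0) (nat_lit 162259253) (nat_lit 760) (nat_lit 17190072190) (nat_lit 836) (nat_lit 10824975970) (nat_lit 86) (nat_lit 5) (nat_lit 96) (nat_lit 5) (nat_lit 97) (nat_lit 5) (nat_lit 287) (nat_lit 283) (nat_lit 210)) (XT.lf (nat_lit 0) (nat_lit 2415557837) (nat_lit 760) (nat_lit 24978020098) (nat_lit 836) (nat_lit 1970438189) (nat_lit 87) (nat_lit 5) (nat_lit 97) (nat_lit 5) (nat_lit 98) (nat_lit 5) (nat_lit 288) (nat_lit 283) (nat_lit 209))) (XT.nd (nat_lit 78) (nat_lit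 456) (nat_lit 0) (XT.lf (nat_lit 0) (nat_lit 5433247495) (nat_lit 760) (nat_lit 2636774774) (nat_lit 836) (nat_lit 22546453789) (nat_lit 87) (nat_lit 5) (nat_lit 97) (nat_lit 5) (nat_lit 98) (nat_lit 5) (nat_lit 289) (nat_lit 283) (nat_lit 208)) (XT.nd (nat_lit 78) (nat_lit 532) (nat_lit 0) (XT.lf (nat_lit 0) (nat_lit 9232518247) (nat_lit 760) (nat_lit 9965709025) (nat_lit 76) (nat_lit 12743916555) (nat_lit 88) (nat_lit 5) (nat_lit 98) (nat_lit 5) (nat_lit 89) (nat_lit 5) (nat_lit 290) (nat_lit 283) (nat_lit 207)) (XT.lf (nat_lit 0) (nat_lit 13780895158) (nat_lit 608) (nat_lit 17747600890) (nat_lit 76) (nat_lit 1823128650) (nat_lit 81) (nat_lit 5) (nat_lit 89) (nat_lit 5) (nat_lit 82) (nat_lit 5) (nat_lit 291) (nat_lit 283) (nat_lit 206))))) (XT.nd (nat_lit 156) (nat_lit 684) (nat_lit 0) (XT.nd (nat_lit 78) (nat_lit 304) (nat_lit 0) (XT.lf (nat_lit 0) (nat_lit 8650225339) (nat_lit 380)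 (nat_lit 10667713188) (nat_lit 456) (nat_lit 15524702276) (nat_lit 76) (nat_lit 5) (nat_lit 81) (nat_lit 5) (nat_lit 82) (nat_lit 5) (nat_lit 292) (nat_lit 283) (nat_lit 205)) (XT.lf (nat_lit 0) (nat_lit 1193940923) (nat_lit 304) (nat_lit 24612268869) (nat_lit 380) (nat_lit 10621330533) (nat_lit 72) (nat_lit 5) (nat_lit 76) (nat_lit 5) (nat_lit 77) (nat_lit 5) (nat_lit 293) (nat_lit 283) (nat_lit 204))) (XT.nd (nat_lit 78) (nat_lit 684) (nat_lit 0) (XT.lf (nat_lit 0) (nat_lit 31510980857) (nat_lit 304) (nat_lit 1926572293) (nat_lit 380) (nat_lit 4670492353) (nat_lit 72) (nat_lit 5) (nat_lit 76) (nat_lit 5) (nat_lit 77) (nat_lit 5) (nat_lit 294) (nat_lit 283) (nat_lit 203)) (XT.nd (nat_lit 78) (nat_lit 304) (nat_lit 0) (XT.lf (nat_lit 0) (nat_lit 2442646453) (nat_lit 380) (nat_lit 15164855829) (nat_lit 76) (nat_lit 22277007733) (nat_lit 67) (nat_lit 5) (nat_lit 72) (nat_lit 5) (nat_lit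 68) (nat_lit 5) (nat_lit 295) (nat_lit 283) (nat_lit 202)) (XT.lf (nat_lit 0) (nat_lit 10486268563) (nat_lit 380) (nat_lit 24473508747) (nat_lit 76) (nat_lit 6813244537) (nat_lit 63) (nat_lit 5) (nat_lit 68) (nat_lit 5) (nat_lit 64) (nat_lit 5) (nat_lit 296) (nat_lit 283) (nat_lit 201)))))) (XT.nd (nat_lit 390) (nat_lit 988) (nat_lit 0) (XT.nd (nat_lit 156) (nat_lit 532) (nat_lit 0) (XT.nd (nat_lit 78) (nat_lit 228) (nat_lit 0) (XT.lf (nat_lit 0) (nat_lit 9083374257) (nat_lit 304) (nat_lit 10789463569) (nat_lit 380) (nat_lit 23904814676) (nat_lit 59) (nat_lit 5) (nat_lit 63) (nat_lit 5) (nat_lit 64) (nat_lit 5) (nat_lit 297) (nat_lit 283) (nat_lit 200)) (XT.lf (nat_lit 0) (nat_lit 22820776) (nat_lit 228) (nat_lit 30652935502) (nat_lit 304) (nat_lit 15233636098) (nat_lit 56) (nat_lit 5) (nat_lit 59) (nat_lit 5) (nat_lit 60) (nat_lit 5) (nat_lit 298) (nat_lit 283) (nat_lit 199))) (XT.nd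 (nat_lit 78) (nat_lit 532) (nat_lit 0) (XT.lf (nat_lit 0) (nat_lit 38559434787) (nat_lit 228) (nat_lit 4559890642) (nat_lit 304) (nat_lit 5053534364) (nat_lit 56) (nat_lit 5) (nat_lit 59) (nat_lit 5) (nat_lit 60) (nat_lit 5) (nat_lit 299) (nat_lit 283) (nat_lit 198)) (XT.nd (nat_lit 78) (nat_lit 228) (nat_lit 0) (XT.lf (nat_lit 0) (nat_lit 6597529494) (nat_lit 304) (nat_lit 20532894307) (nat_lit 76) (nat_lit 23440016047) (nat_lit 52) (nat_lit 5) (nat_lit 56) (nat_lit 5) (nat_lit 53) (nat_lit 5) (nat_lit 300) (nat_lit 283) (nat_lit 197)) (XT.lf (nat_lit 0) (nat_lit 19582648788) (nat_lit 304) (nat_lit 32606061647) (nat_lit 76) (nat_lit 938030077) (nat_lit 49) (nat_lit 5) (nat_lit 53) (nat_lit 5) (nat_lit 50) (nat_lit 5) (nat_lit 301) (nat_lit 283) (nat_lit 196))))) (XT.nd (nat_lit 234) (nat_lit 532) (nat_lit 0) (XT.nd (nat_lit 78) (nat_lit 228) (nat_lit 0) (XT.lf (nat_lit 0) (nat_lit 9556404867)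 (nat_lit 228) (nat_lit 25014477860) (nat_lit 304) (nat_lit 21268454211) (nat_lit 46) (nat_lit 5) (nat_lit 49) (nat_lit 5) (nat_lit 50) (nat_lit 5) (nat_lit 302) (nat_lit 283) (nat_lit 195)) (XT.nd (nat_lit 78) (nat_lit 228) (nat_lit 0) (XT.lf (nat_lit 0) (nat_lit 51397503675) (nat_lit 304) (nat_lit 2569413287) (nat_lit 76) (nat_lit 4770064153) (nat_lit 46) (nat_lit 5) (nat_lit 50) (nat_lit 5) (nat_lit 47) (nat_lit 5) (nat_lit 303) (nat_lit 283) (nat_lit 194)) (XT.lf (nat_lit 0) (nat_lit 8605441264) (nat_lit 228) (nat_lit 16275032657) (nat_lit 76) (nat_lit 36922544977) (nat_lit 43) (nat_lit 5) (nat_lit 46) (nat_lit 5) (nat_lit 44) (nat_lit 5) (nat_lit 304) (nat_lit 283) (nat_lit 193)))) (XT.nd (nat_lit 78) (nat_lit 304) (nat_lit 0) (XT.lf (nat_lit 0) (nat_lit 26247312416) (nat_lit 304) (nat_lit 31803695654) (nat_lit 76) (nat_lit 7023396012) (nat_lit 40) (nat_lit 5) (nat_lit 44) (nat_lit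 5) (nat_lit 41) (nat_lit 5) (nat_lit 305) (nat_lit 283) (nat_lit 192)) (XT.nd (nat_lit 78) (nat_lit 152) (nat_lit 0) (XT.lf (nat_lit 0) (nat_lit 18942821254) (nat_lit 152) (nat_lit 27356349768) (nat_lit 228) (nat_lit 22258402046) (nat_lit 38) (nat_lit 5) (nat_lit 40) (nat_lit 5) (nat_lit 41) (nat_lit 5) (nat_lit 306) (nat_lit 283) (nat_lit 191)) (XT.lf (nat_lit 0) (nat_lit 2568605552) (nat_lit 152) (nat_lit 66075634640) (nat_lit 228) (nat_lit 3640706802) (nat_lit 36) (nat_lit 5) (nat_lit 38) (nat_lit 5) (nat_lit 39) (nat_lit 5) (nat_lit 307) (nat_lit 283) (nat_lit 190))))))) (XT.nd (nat_lit 858) (nat_lit 760) (nat_lit 0) (XT.nd (nat_lit 390) (nat_lit 532) (nat_lit 0) (XT.nd (nat_lit 156) (nat_lit 380) (nat_lit 0) (XT.nd (nat_lit 78) (nat_lit 152) (nat_lit 0) (XT.lf (nat_lit 0) (nat_lit 17274655226) (nat_lit 228) (nat_lit 16308441865) (nat_lit 76) (nat_lit 42647799442) (nat_lit 35) (nat_lit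 5) (nat_lit 38) (nat_lit 5) (nat_lit 36) (nat_lit 5) (nat_lit 308) (nat_lit 283) (nat_lit 189)) (XT.lf (nat_lit 0) (nat_lit 40434948014) (nat_lit 228) (nat_lit 37821846716) (nat_lit 76) (nat_lit 2197784085) (nat_lit 33) (nat_lit 5) (nat_lit 36) (nat_lit 5) (nat_lit 34) (nat_lit 5) (nat_lit 309) (nat_lit 283) (nat_lit 188))) (XT.nd (nat_lit 78) (nat_lit 228) (nat_lit 0) (XT.lf (nat_lit 0) (nat_lit 21996374699) (nat_lit 152) (nat_lit 44646201500) (nat_lit 228) (nat_lit 18313857294) (nat_lit 31) (nat_lit 5) (nat_lit 33) (nat_lit 5) (nat_lit 34) (nat_lit 5) (nat_lit 310) (nat_lit 283) (nat_lit 187)) (XT.nd (nat_lit 78) (nat_lit 152) (nat_lit 0) (XT.lf (nat_lit 0) (nat_lit 5630077545) (nat_lit 228) (nat_lit 1931892003) (nat_lit 76) (nat_lit 82219174611) (nat_lit 30) (nat_lit 5) (nat_lit 33) (nat_lit 5) (nat_lit 31) (nat_lit 5) (nat_lit 311) (nat_lit 283) (nat_lit 186)) (XT.lf (nat_lit 0) (nat_lit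 32408908732) (nat_lit 228) (nat_lit 29685320830) (nat_lit 76) (nat_lit 32804543049) (nat_lit 28) (nat_lit 5) (nat_lit 31) (nat_lit 5) (nat_lit 29) (nat_lit 5) (nat_lit 312) (nat_lit 283) (nat_lit 185))))) (XT.nd (nat_lit 234) (nat_lit 228) (nat_lit 0) (XT.nd (nat_lit 78) (nat_lit 152) (nat_lit 0) (XT.lf (nat_lit 0) (nat_lit 38472980338) (nat_lit 152) (nat_lit 23616078715) (nat_lit 228) (nat_lit 38298804235) (nat_lit 26) (nat_lit 5) (nat_lit 28) (nat_lit 5) (nat_lit 29) (nat_lit 5) (nat_lit 313) (nat_lit 283) (nat_lit 184)) (XT.nd (nat_lit 78) (nat_lit 76) (nat_lit 0) (XT.lf (nat_lit 0) (nat_lit 6776588642) (nat_lit 76) (nat_lit 88275270183) (nat_lit 152) (nat_lit 11218812912) (nat_lit 25) (nat_lit 5) (nat_lit 26) (nat_lit 5) (nat_lit 27) (nat_lit 4) (nat_lit 314) (nat_lit 283) (nat_lit 183)) (XT.lf (nat_lit 0) (nat_lit 18941856887) (nat_lit 152) (nat_lit 30098560344) (nat_lit 76) (nat_lit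 63495052975) (nat_lit 24) (nat_lit 5) (nat_lit 26) (nat_lit 5) (nat_lit 25) (nat_lit 5) (nat_lit 315) (nat_lit 283) (nat_lit 182)))) (XT.nd (nat_lit 78) (nat_lit 76) (nat_lit 0) (XT.lf (nat_lit 0) (nat_lit 46130942470) (nat_lit 152) (nat_lit 5713971484) (nat_lit 228) (nat_lit 67411215490) (nat_lit 22) (nat_lit 5) (nat_lit 24) (nat_lit 5) (nat_lit 25) (nat_lit 5) (nat_lit 316) (nat_lit 283) (nat_lit 181)) (XT.nd (nat_lit 78) (nat_lit 0) (nat_lit 0) (XT.lf (nat_lit 0) (nat_lit 2469622157) (nat_lit 76) (nat_lit 86120603435) (nat_lit 152) (nat_lit 37863717135) (nat_lit 21) (nat_lit 5) (nat_lit 22) (nat_lit 5) (nat_lit 23) (nat_lit 4) (nat_lit 317) (nat_lit 283) (nat_lit 180)) (XT.lf (nat_lit 0) (nat_lit 86619107439) (nat_lit 76) (nat_lit 43021984327) (nat_lit 152) (nat_lit 4518194498) (nat_lit 21) (nat_lit 5) (nat_lit 22) (nat_lit 5) (nat_lit 23) (nat_lit 4) (nat_lit 318) (nat_lit 283) (nat_lit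 179)))))) (XT.nd (nat_lit 390) (nat_lit 304) (nat_lit 0) (XT.nd (nat_lit 156) (nat_lit 228) (nat_lit 0) (XT.nd (nat_lit 78) (nat_lit 0) (nat_lit 0) (XT.lf (nat_lit 0) (nat_lit 31113447589) (nat_lit 228) (nat_lit 106836066933) (nat_lit 76) (nat_lit 4475632333) (nat_lit 18) (nat_lit 5) (nat_lit 21) (nat_lit 5) (nat_lit 19) (nat_lit 4) (nat_lit 319) (nat_lit 283) (nat_lit 178)) (XT.lf (nat_lit 0) (nat_lit 71004154497) (nat_lit 228) (nat_lit 25064029177) (nat_lit 76) (nat_lit 55202049098) (nat_lit 18) (nat_lit 5) (nat_lit 21) (nat_lit 5) (nat_lit 19) (nat_lit 4) (nat_lit 320) (nat_lit 283) (nat_lit 177))) (XT.nd (nat_lit 78) (nat_lit 152) (nat_lit 0) (XT.lf (nat_lit 0) (nat_lit 65336988562) (nat_lit 76) (nat_lit 49766990037) (nat_lit 152) (nat_lit 45668055194) (nat_lit 17) (nat_lit 5) (nat_lit 18) (nat_lit 5) (nat_lit 19) (nat_lit 4) (nat_lit 321) (nat_lit 283) (nat_lit 176)) (XT.nd (nat_lit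 78) (nat_lit 152) (nat_lit 0) (XT.lf (nat_lit 0) (nat_lit 163177112757) (nat_lit 152) (nat_lit 7161794029) (nat_lit 0) (nat_lit 672807075) (nat_lit 17) (nat_lit 5) (nat_lit 19) (nat_lit 4) (nat_lit 17) (nat_lit 4) (nat_lit 322) (nat_lit 283) (nat_lit 175)) (XT.lf (nat_lit 0) (nat_lit 34251046535) (nat_lit 152) (nat_lit 92292617426) (nat_lit 76) (nat_lit 55386997333) (nat_lit 15) (nat_lit 5) (nat_lit 17) (nat_lit 5) (nat_lit 16) (nat_lit 4) (nat_lit 323) (nat_lit 283) (nat_lit 174))))) (XT.nd (nat_lit 234) (nat_lit 228) (nat_lit 0) (XT.nd (nat_lit 78) (nat_lit 0) (nat_lit 0) (XT.lf (nat_lit 0) (nat_lit 602351256) (nat_lit 76) (nat_lit 78964649804) (nat_lit 152) (nat_lit 114142805546) (nat_lit 14) (nat_lit 5) (nat_lit 15) (nat_lit 5) (nat_lit 16) (nat_lit 4) (nat_lit 324) (nat_lit 283) (nat_lit 173)) (XT.nd (nat_lit 78) (nat_lit 0) (nat_lit 0) (XT.lf (nat_lit 0) (nat_lit 104221305083) (nat_lit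 76) (nat_lit 25892763831) (nat_lit 152) (nat_lit 76236923666) (nat_lit 14) (nat_lit 5) (nat_lit 15) (nat_lit 5) (nat_lit 16) (nat_lit 4) (nat_lit 325) (nat_lit 283) (nat_lit 172)) (XT.lf (nat_lit 0) (nat_lit 185193806163) (nat_lit 152) (nat_lit 4367496409) (nat_lit 0) (nat_lit 30417726481) (nat_lit 14) (nat_lit 5) (nat_lit 16) (nat_lit 4) (nat_lit 14) (nat_lit 4) (nat_lit 326) (nat_lit 283) (nat_lit 171)))) (XT.nd (nat_lit 78) (nat_lit 76) (nat_lit 0) (XT.lf (nat_lit 0) (nat_lit 11757307017) (nat_lit 152) (nat_lit 130675670378) (nat_lit 76) (nat_lit 92151828990) (nat_lit 12) (nat_lit 5) (nat_lit 14) (nat_lit 5) (nat_lit 13) (nat_lit 4) (nat_lit 327) (nat_lit 283) (nat_lit 170)) (XT.nd (nat_lit 78) (nat_lit 76) (nat_lit 0) (XT.lf (nat_lit 0) (nat_lit 60896604015) (nat_lit 152) (nat_lit 29942028277) (nat_lit 76) (nat_lit 159487298330) (nat_lit 12) (nat_lit 5) (nat_lit 14) (nat_lit 5) (nat_lit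 13) (nat_lit 4) (nat_lit 328) (nat_lit 283) (nat_lit 169)) (XT.lf (nat_lit 0) (nat_lit 81454718936) (nat_lit 76) (nat_lit 33782627506) (nat_lit 152) (nat_lit 152025483892) (nat_lit 11) (nat_lit 5) (nat_lit 12) (nat_lit 5) (nat_lit 13) (nat_lit 4) (nat_lit 329) (nat_lit 283) (nat_lit 168))))))))
noncomputable def xc90 : XT := (XT.nd (nat_lit 37362) (nat_lit 0) (nat_lit 2280) (XT.nd (nat_lit 780) (nat_lit 152) (nat_lit 0) (XT.nd (nat_lit 390) (nat_lit 76) (nat_lit 0) (XT.nd (nat_lit 156) (nat_lit 152) (nat_lit 0) (XT.nd (nat_lit 78) (nat_lit 76) (nat_lit 0) (XT.lf (nat_lit 0) (nat_lit 174888710233) (nat_lit 152) (nat_lit 83141936481) (nat_lit 0) (nat_lit 27475867784) (nat_lit 11) (nat_lit 5) (nat_lit 13) (nat_lit 4) (nat_lit 11) (nat_lit 4) (nat_lit 330) (nat_lit 283) (nat_lit 167)) (XT.lf (nat_lit 0) (nat_lit 28063719360) (nat_lit 76) (nat_lit 212254970401) (nat_lit 76) (nat_lit 64840678835)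 (nat_lit 10) (nat_lit 4) (nat_lit 11) (nat_lit 5) (nat_lit 11) (nat_lit 4) (nat_lit 331) (nat_lit 283) (nat_lit 166))) (XT.nd (nat_lit 78) (nat_lit 152) (nat_lit 0) (XT.lf (nat_lit 0) (nat_lit 151132512751) (nat_lit 76) (nat_lit 161297609682) (nat_lit 76) (nat_lit 13881976340) (nat_lit 10) (nat_lit 4) (nat_lit 11) (nat_lit 5) (nat_lit 11) (nat_lit 4) (nat_lit 332) (nat_lit 283) (nat_lit 165)) (XT.nd (nat_lit 78) (nat_lit 76) (nat_lit 0) (XT.lf (nat_lit 0) (nat_lit 39835103371) (nat_lit 152) (nat_lit 65754913814) (nat_lit 76) (nat_lit 243534962225) (nat_lit 9) (nat_lit 5) (nat_lit 11) (nat_lit 5) (nat_lit 10) (nat_lit 4) (nat_lit 333) (nat_lit 283) (nat_lit 164)) (XT.lf (nat_lit 0) (nat_lit 53913220319) (nat_lit 76) (nat_lit 44297143779) (nat_lit 152) (nat_lit 275498789558) (nat_lit 8) (nat_lit 5) (nat_lit 9) (nat_lit 5) (nat_lit 10) (nat_lit 4) (nat_lit 334) (nat_lit 283) (nat_lit 163)))))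 (XT.nd (nat_lit 156) (nat_lit 76) (nat_lit 0) (XT.nd (nat_lit 78) (nat_lit 0) (nat_lit 0) (XT.lf (nat_lit 0) (nat_lit 162760706517) (nat_lit 152) (nat_lit 215062530639) (nat_lit 0) (nat_lit 22361572015) (nat_lit 8) (nat_lit 5) (nat_lit 10) (nat_lit 4) (nat_lit 8) (nat_lit 4) (nat_lit 335) (nat_lit 283) (nat_lit 162)) (XT.lf (nat_lit 0) (nat_lit 233221051742) (nat_lit 152) (nat_lit 102699189000) (nat_lit 0) (nat_lit 92820977960) (nat_lit 8) (nat_lit 5) (nat_lit 10) (nat_lit 4) (nat_lit 8) (nat_lit 4) (nat_lit 336) (nat_lit 283) (nat_lit 161))) (XT.nd (nat_lit 78) (nat_lit 0) (nat_lit 0) (XT.lf (nat_lit 0) (nat_lit 19268255483) (nat_lit 76) (nat_lit 290349915987) (nat_lit 76) (nat_lit 149948972500) (nat_lit 7) (nat_lit 4) (nat_lit 8) (nat_lit 5) (nat_lit 8) (nat_lit 4) (nat_lit 337) (nat_lit 283) (nat_lit 160)) (XT.nd (nat_lit 78) (nat_lit 0) (nat_lit 0) (XT.lf (nat_lit 0) (nat_lit 154658853975)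 (nat_lit 76) (nat_lit 239256316434) (nat_lit 76) (nat_lit 98854567665) (nat_lit 7) (nat_lit 4) (nat_lit 8) (nat_lit 5) (nat_lit 8) (nat_lit 4) (nat_lit 338) (nat_lit 283) (nat_lit 159)) (XT.lf (nat_lit 0) (nat_lit 300879222141) (nat_lit 76) (nat_lit 184075925655) (nat_lit 76) (nat_lit 43673431255) (nat_lit 7) (nat_lit 4) (nat_lit 8) (nat_lit 5) (nat_lit 8) (nat_lit 4) (nat_lit 339) (nat_lit 283) (nat_lit 158)))))) (XT.nd (nat_lit 390) (nat_lit 0) (nat_lit 0) (XT.nd (nat_lit 156) (nat_lit 0) (nat_lit 0) (XT.nd (nat_lit 78) (nat_lit 76) (nat_lit 0) (XT.lf (nat_lit 0) (nat_lit 15411850670) (nat_lit 152) (nat_lit 108808890925) (nat_lit 76) (nat_lit 443122993233) (nat_lit 6) (nat_lit 5) (nat_lit 8) (nat_lit 5) (nat_lit 7) (nat_lit 4) (nat_lit 340) (nat_lit 283) (nat_lit 157)) (XT.lf (nat_lit 0) (nat_lit 19534328962) (nat_lit 76) (nat_lit 58484282267) (nat_lit 152) (nat_lit 531085456148) (nat_lit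 5) (nat_lit 5) (nat_lit 6) (nat_lit 5) (nat_lit 7) (nat_lit 4) (nat_lit 341) (nat_lit 283) (nat_lit 156))) (XT.nd (nat_lit 78) (nat_lit 0) (nat_lit 0) (XT.lf (nat_lit 0) (nat_lit 147755039248) (nat_lit 152) (nat_lit 492307583304) (nat_lit 0) (nat_lit 14036547853) (nat_lit 5) (nat_lit 5) (nat_lit 7) (nat_lit 4) (nat_lit 5) (nat_lit 4) (nat_lit 342) (nat_lit 283) (nat_lit 155)) (XT.nd (nat_lit 78) (nat_lit 0) (nat_lit 0) (XT.lf (nat_lit 0) (nat_lit 224055923047) (nat_lit 152) (nat_lit 388251772054) (nat_lit 0) (nat_lit 90336909689) (nat_lit 5) (nat_lit 5) (nat_lit 7) (nat_lit 4) (nat_lit 5) (nat_lit 4) (nat_lit 343) (nat_lit 283) (nat_lit 154)) (XT.lf (nat_lit 0) (nat_lit 306460312464) (nat_lit 152) (nat_lit 275872574088) (nat_lit 0) (nat_lit 172740815807) (nat_lit 5) (nat_lit 5) (nat_lit 7) (nat_lit 4) (nat_lit 5) (nat_lit 4) (nat_lit 344) (nat_lit 283) (nat_lit 153))))) (XT.nd (nat_lit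 35958) (nat_lit 0) (nat_lit 6764) (XT.nd (nat_lit 78) (nat_lit 0) (nat_lit 0) (XT.lf (nat_lit 0) (nat_lit 395456529807) (nat_lit 152) (nat_lit 154504038601) (nat_lit 0) (nat_lit 261736585650) (nat_lit 5) (nat_lit 5) (nat_lit 7) (nat_lit 4) (nat_lit 5) (nat_lit 4) (nat_lit 345) (nat_lit 283) (nat_lit 152)) (XT.nd (nat_lit 35802) (nat_lit 0) (nat_lit 6764) (XT.lf (nat_lit 0) (nat_lit 491571960066) (nat_lit 152) (nat_lit 23426944644) (nat_lit 0) (nat_lit 357851601557) (nat_lit 5) (nat_lit 5) (nat_lit 7) (nat_lit 4) (nat_lit 5) (nat_lit 4) (nat_lit 346) (nat_lit 283) (nat_lit 151)) (XT.lf (nat_lit 0) (nat_lit 5570671355) (nat_lit 0) (nat_lit 5570671355) (nat_lit 684) (nat_lit 1842359550) (nat_lit 94) (nat_lit 5) (nat_lit 94) (nat_lit 3) (nat_lit 103) (nat_lit 3) (nat_lit 284) (nat_lit 284) (nat_lit 212)))) (XT.nd (nat_lit 78) (nat_lit 0) (nat_lit 0) (XT.lf (nat_lit 76) (nat_lit 4235239725)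 (nat_lit 0) (nat_lit 19272195778) (nat_lit 760) (nat_lit 3481737408) (nat_lit 95) (nat_lit 5) (nat_lit 94) (nat_lit 5) (nat_lit 104) (nat_lit 5) (nat_lit 285) (nat_lit 284) (nat_lit 211)) (XT.nd (nat_lit 78) (nat_lit 0) (nat_lit 76) (XT.lf (nat_lit 76) (nat_lit 25148480589) (nat_lit 0) (nat_lit 110362511) (nat_lit 760) (nat_lit 2812431378) (nat_lit 95) (nat_lit 5) (nat_lit 94) (nat_lit 5) (nat_lit 104) (nat_lit 5) (nat_lit 286) (nat_lit 284) (nat_lit 210)) (XT.lf (nat_lit 76) (nat_lit 18765585755) (nat_lit 0) (nat_lit 8985881064) (nat_lit 760) (nat_lit 1458445859) (nat_lit 96) (nat_lit 5) (nat_lit 95) (nat_lit 5) (nat_lit 105) (nat_lit 5) (nat_lit 287) (nat_lit 284) (nat_lit 209))))))) (XT.nd (nat_lit 858) (nat_lit 1824) (nat_lit 0) (XT.nd (nat_lit 390) (nat_lit 1672) (nat_lit 0) (XT.nd (nat_lit 156) (nat_lit 380) (nat_lit 0) (XT.nd (nat_lit 78) (nat_lit 0) (nat_lit 76) (XT.lf (nat_lit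 0) (nat_lit 423130205) (nat_lit 760) (nat_lit 18378776928) (nat_lit 836) (nat_lit 11616782913) (nat_lit 86) (nat_lit 5) (nat_lit 96) (nat_lit 5) (nat_lit 97) (nat_lit 5) (nat_lit 288) (nat_lit 284) (nat_lit 208)) (XT.lf (nat_lit 0) (nat_lit 2840273898) (nat_lit 760) (nat_lit 26785031046) (nat_lit 836) (nat_lit 2075881630) (nat_lit 87) (nat_lit 5) (nat_lit 97) (nat_lit 5) (nat_lit 98) (nat_lit 5) (nat_lit 289) (nat_lit 284) (nat_lit 207))) (XT.nd (nat_lit 78) (nat_lit 456) (nat_lit 0) (XT.lf (nat_lit 0) (nat_lit 6082232696) (nat_lit 760) (nat_lit 2670651330) (nat_lit 836) (nat_lit 24301844524) (nat_lit 87) (nat_lit 5) (nat_lit 97) (nat_lit 5) (nat_lit 98) (nat_lit 5) (nat_lit 290) (nat_lit 284) (nat_lit 206)) (XT.nd (nat_lit 78) (nat_lit 532) (nat_lit 0) (XT.lf (nat_lit 0) (nat_lit 10171718207) (nat_lit 760) (nat_lit 10582721940) (nat_lit 76) (nat_lit 13732721814) (nat_lit 88) (nat_lit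 5) (nat_lit 98) (nat_lit 5) (nat_lit 89) (nat_lit 5) (nat_lit 291) (nat_lit 284) (nat_lit 205)) (XT.lf (nat_lit 0) (nat_lit 15071547811) (nat_lit 608) (nat_lit 18985027159) (nat_lit 76) (nat_lit 1953471164) (nat_lit 81) (nat_lit 5) (nat_lit 89) (nat_lit 5) (nat_lit 82) (nat_lit 5) (nat_lit 292) (nat_lit 284) (nat_lit 204))))) (XT.nd (nat_lit 234) (nat_lit 988) (nat_lit 0) (XT.nd (nat_lit 78) (nat_lit 304) (nat_lit 0) (XT.lf (nat_lit 0) (nat_lit 9516699078) (nat_lit 380) (nat_lit 11523639978) (nat_lit 456) (nat_lit 16580587435) (nat_lit 76) (nat_lit 5) (nat_lit 81) (nat_lit 5) (nat_lit 82) (nat_lit 5) (nat_lit 293) (nat_lit 284) (nat_lit 203)) (XT.nd (nat_lit 78) (nat_lit 0) (nat_lit 0) (XT.lf (nat_lit 0) (nat_lit 1465096746) (nat_lit 304) (nat_lit 26572172683) (nat_lit 380) (nat_lit 11295889216) (nat_lit 72) (nat_lit 5) (nat_lit 76) (nat_lit 5) (nat_lit 77) (nat_lit 5) (nat_lit 294) (nat_lit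 284) (nat_lit 202)) (XT.lf (nat_lit 0) (nat_lit 34194489464) (nat_lit 304) (nat_lit 2072292803) (nat_lit 380) (nat_lit 4881957889) (nat_lit 72) (nat_lit 5) (nat_lit 76) (nat_lit 5) (nat_lit 77) (nat_lit 5) (nat_lit 295) (nat_lit 284) (nat_lit 201)))) (XT.nd (nat_lit 78) (nat_lit 608) (nat_lit 0) (XT.lf (nat_lit 0) (nat_lit 2786123804) (nat_lit 380) (nat_lit 16209898489) (nat_lit 76) (nat_lit 24071635592) (nat_lit 67) (nat_lit 5) (nat_lit 72) (nat_lit 5) (nat_lit 68) (nat_lit 5) (nat_lit 296) (nat_lit 284) (nat_lit 200)) (XT.nd (nat_lit 78) (nat_lit 304) (nat_lit 0) (XT.lf (nat_lit 0) (nat_lit 11465110447) (nat_lit 380) (nat_lit 26263707935) (nat_lit 76) (nat_lit 7378854072) (nat_lit 63) (nat_lit 5) (nat_lit 68) (nat_lit 5) (nat_lit 64) (nat_lit 5) (nat_lit 297) (nat_lit 284) (nat_lit 199)) (XT.lf (nat_lit 0) (nat_lit 9970438475) (nat_lit 304) (nat_lit 11624305025) (nat_lit 380) (nat_lit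 25678337529) (nat_lit 59) (nat_lit 5) (nat_lit 63) (nat_lit 5) (nat_lit 64) (nat_lit 5) (nat_lit 298) (nat_lit 284) (nat_lit 198)))))) (XT.nd (nat_lit 390) (nat_lit 836) (nat_lit 0) (XT.nd (nat_lit 156) (nat_lit 760) (nat_lit 0) (XT.nd (nat_lit 78) (nat_lit 0) (nat_lit 0) (XT.lf (nat_lit 0) (nat_lit 184136166) (nat_lit 228) (nat_lit 33070875080) (nat_lit 304) (nat_lit 16320706371) (nat_lit 56) (nat_lit 5) (nat_lit 59) (nat_lit 5) (nat_lit 60) (nat_lit 5) (nat_lit 299) (nat_lit 284) (nat_lit 197)) (XT.lf (nat_lit 0) (nat_lit 41791865243) (nat_lit 228) (nat_lit 4892927021) (nat_lit 304) (nat_lit 5335946173) (nat_lit 56) (nat_lit 5) (nat_lit 59) (nat_lit 5) (nat_lit 60) (nat_lit 5) (nat_lit 300) (nat_lit 284) (nat_lit 196))) (XT.nd (nat_lit 78) (nat_lit 456) (nat_lit 0) (XT.lf (nat_lit 0) (nat_lit 7237354583) (nat_lit 304) (nat_lit 22025210799) (nat_lit 76) (nat_lit 25347772628) (nat_lit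 52) (nat_lit 5) (nat_lit 56) (nat_lit 5) (nat_lit 53) (nat_lit 5) (nat_lit 301) (nat_lit 284) (nat_lit 195)) (XT.nd (nat_lit 78) (nat_lit 228) (nat_lit 0) (XT.lf (nat_lit 0) (nat_lit 21255820654) (nat_lit 304) (nat_lit 35065930098) (nat_lit 76) (nat_lit 1049675179) (nat_lit 49) (nat_lit 5) (nat_lit 53) (nat_lit 5) (nat_lit 50) (nat_lit 5) (nat_lit 302) (nat_lit 284) (nat_lit 194)) (XT.lf (nat_lit 0) (nat_lit 10463075046) (nat_lit 228) (nat_lit 26974364414) (nat_lit 304) (nat_lit 22863883624) (nat_lit 46) (nat_lit 5) (nat_lit 49) (nat_lit 5) (nat_lit 50) (nat_lit 5) (nat_lit 303) (nat_lit 284) (nat_lit 193))))) (XT.nd (nat_lit 234) (nat_lit 380) (nat_lit 0) (XT.nd (nat_lit 78) (nat_lit 456) (nat_lit 0) (XT.lf (nat_lit 0) (nat_lit 55603313673) (nat_lit 304) (nat_lit 2639156875) (nat_lit 76) (nat_lit 5188660696) (nat_lit 46) (nat_lit 5) (nat_lit 50) (nat_lit 5) (nat_lit 47) (nat_lit 5) (nat_lit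 304) (nat_lit 284) (nat_lit 192)) (XT.nd (nat_lit 78) (nat_lit 228) (nat_lit 0) (XT.lf (nat_lit 0) (nat_lit 9384507726) (nat_lit 228) (nat_lit 17444036107) (nat_lit 76) (nat_lit 39914089893) (nat_lit 43) (nat_lit 5) (nat_lit 46) (nat_lit 5) (nat_lit 44) (nat_lit 5) (nat_lit 305) (nat_lit 284) (nat_lit 191)) (XT.lf (nat_lit 0) (nat_lit 28433646444) (nat_lit 304) (nat_lit 34217033891) (nat_lit 76) (nat_lit 7625260541) (nat_lit 40) (nat_lit 5) (nat_lit 44) (nat_lit 5) (nat_lit 41) (nat_lit 5) (nat_lit 306) (nat_lit 284) (nat_lit 190)))) (XT.nd (nat_lit 78) (nat_lit 228) (nat_lit 0) (XT.lf (nat_lit 0) (nat_lit 20583513120) (nat_lit 152) (nat_lit 29501685335) (nat_lit 228) (nat_lit 23952794215) (nat_lit 38) (nat_lit 5) (nat_lit 40) (nat_lit 5) (nat_lit 41) (nat_lit 5) (nat_lit 307) (nat_lit 284) (nat_lit 189)) (XT.nd (nat_lit 78) (nat_lit 76) (nat_lit 0) (XT.lf (nat_lit 0) (nat_lit 2897275812)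 (nat_lit 152) (nat_lit 71317063655) (nat_lit 228) (nat_lit 3849399769) (nat_lit 36) (nat_lit 5) (nat_lit 38) (nat_lit 5) (nat_lit 39) (nat_lit 5) (nat_lit 308) (nat_lit 284) (nat_lit 188)) (XT.lf (nat_lit 0) (nat_lit 18730628595) (nat_lit 228) (nat_lit 17496546580) (nat_lit 76) (nat_lit 46098426441) (nat_lit 35) (nat_lit 5) (nat_lit 38) (nat_lit 5) (nat_lit 36) (nat_lit 5) (nat_lit 309) (nat_lit 284) (nat_lit 187))))))))
noncomputable def xc91 : XT := (XT.nd (nat_lit 1638) (nat_lit 456) (nat_lit 0) (XT.nd (nat_lit 780) (nat_lit 760) (nat_lit 0) (XT.nd (nat_lit 390) (nat_lit 380) (nat_lit 0) (XT.nd (nat_lit 156) (nat_lit 380) (nat_lit 0) (XT.nd (nat_lit 78) (nat_lit 152) (nat_lit 0) (XT.lf (nat_lit 0) (nat_lit 43740648093) (nat_lit 228) (nat_lit 40733159103) (nat_lit 76) (nat_lit 2413531053) (nat_lit 33) (nat_lit 5) (nat_lit 36) (nat_lit 5) (nat_lit 34) (nat_lit 5) (nat_lit 310) (nat_lit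 284) (nat_lit 186)) (XT.lf (nat_lit 0) (nat_lit 23865546804) (nat_lit 152) (nat_lit 48175796573) (nat_lit 228) (nat_lit 19708179649) (nat_lit 31) (nat_lit 5) (nat_lit 33) (nat_lit 5) (nat_lit 34) (nat_lit 5) (nat_lit 311) (nat_lit 284) (nat_lit 185))) (XT.nd (nat_lit 78) (nat_lit 304) (nat_lit 0) (XT.lf (nat_lit 0) (nat_lit 6143928773) (nat_lit 228) (nat_lit 1982941415) (nat_lit 76) (nat_lit 88833542906) (nat_lit 30) (nat_lit 5) (nat_lit 33) (nat_lit 5) (nat_lit 31) (nat_lit 5) (nat_lit 312) (nat_lit 284) (nat_lit 184)) (XT.nd (nat_lit 78) (nat_lit 152) (nat_lit 0) (XT.lf (nat_lit 0) (nat_lit 35062516966) (nat_lit 228) (nat_lit 31958685860) (nat_lit 76) (nat_lit 35466380201) (nat_lit 28) (nat_lit 5) (nat_lit 31) (nat_lit 5) (nat_lit 29) (nat_lit 5) (nat_lit 313) (nat_lit 284) (nat_lit 183)) (XT.lf (nat_lit 0) (nat_lit 41647870046) (nat_lit 152) (nat_lit 25466213729) (nat_lit 228) (nat_lit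 41301870412) (nat_lit 26) (nat_lit 5) (nat_lit 28) (nat_lit 5) (nat_lit 29) (nat_lit 5) (nat_lit 314) (nat_lit 284) (nat_lit 182))))) (XT.nd (nat_lit 156) (nat_lit 228) (nat_lit 0) (XT.nd (nat_lit 78) (nat_lit 76) (nat_lit 0) (XT.lf (nat_lit 0) (nat_lit 7413775061) (nat_lit 76) (nat_lit 95297893704) (nat_lit 152) (nat_lit 12057833683) (nat_lit 25) (nat_lit 5) (nat_lit 26) (nat_lit 5) (nat_lit 27) (nat_lit 4) (nat_lit 315) (nat_lit 284) (nat_lit 181)) (XT.lf (nat_lit 0) (nat_lit 20509624327) (nat_lit 152) (nat_lit 32416658827) (nat_lit 76) (nat_lit 68609368481) (nat_lit 24) (nat_lit 5) (nat_lit 26) (nat_lit 5) (nat_lit 25) (nat_lit 5) (nat_lit 316) (nat_lit 284) (nat_lit 180))) (XT.nd (nat_lit 78) (nat_lit 76) (nat_lit 0) (XT.lf (nat_lit 0) (nat_lit 49907302207) (nat_lit 152) (nat_lit 6135081767) (nat_lit 228) (nat_lit 72751709348) (nat_lit 22) (nat_lit 5) (nat_lit 24) (nat_lit 5) (nat_lit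 25) (nat_lit 5) (nat_lit 317) (nat_lit 284) (nat_lit 179)) (XT.nd (nat_lit 78) (nat_lit 0) (nat_lit 0) (XT.lf (nat_lit 0) (nat_lit 2751222775) (nat_lit 76) (nat_lit 92974235674) (nat_lit 152) (nat_lit 40842368741) (nat_lit 21) (nat_lit 5) (nat_lit 22) (nat_lit 5) (nat_lit 23) (nat_lit 4) (nat_lit 318) (nat_lit 284) (nat_lit 178)) (XT.lf (nat_lit 0) (nat_lit 93626442373) (nat_lit 76) (nat_lit 46430394892) (nat_lit 152) (nat_lit 4832941016) (nat_lit 21) (nat_lit 5) (nat_lit 22) (nat_lit 5) (nat_lit 23) (nat_lit 4) (nat_lit 319) (nat_lit 284) (nat_lit 177)))))) (XT.nd (nat_lit 390) (nat_lit 304) (nat_lit 0) (XT.nd (nat_lit 156) (nat_lit 228) (nat_lit 0) (XT.nd (nat_lit 78) (nat_lit 0) (nat_lit 0) (XT.lf (nat_lit 0) (nat_lit 33646085556) (nat_lit 228) (nat_lit 115305407253) (nat_lit 76) (nat_lit 4865463016) (nat_lit 18) (nat_lit 5) (nat_lit 21) (nat_lit 5) (nat_lit 19) (nat_lit 4) (nat_lit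 320) (nat_lit 284) (nat_lit 176)) (XT.lf (nat_lit 0) (nat_lit 76724822190) (nat_lit 228) (nat_lit 26997350552) (nat_lit 76) (nat_lit 59647639041) (nat_lit 18) (nat_lit 5) (nat_lit 21) (nat_lit 5) (nat_lit 19) (nat_lit 4) (nat_lit 321) (nat_lit 284) (nat_lit 175))) (XT.nd (nat_lit 78) (nat_lit 152) (nat_lit 0) (XT.lf (nat_lit 0) (nat_lit 70632628224) (nat_lit 76) (nat_lit 53718088490) (nat_lit 152) (nat_lit 49281137639) (nat_lit 17) (nat_lit 5) (nat_lit 18) (nat_lit 5) (nat_lit 19) (nat_lit 4) (nat_lit 322) (nat_lit 284) (nat_lit 174)) (XT.nd (nat_lit 78) (nat_lit 152) (nat_lit 0) (XT.lf (nat_lit 0) (nat_lit 176267293150) (nat_lit 152) (nat_lit 7669783603) (nat_lit 0) (nat_lit 753754063) (nat_lit 17) (nat_lit 5) (nat_lit 19) (nat_lit 4) (nat_lit 17) (nat_lit 4) (nat_lit 323) (nat_lit 284) (nat_lit 173)) (XT.lf (nat_lit 0) (nat_lit 37026024239) (nat_lit 152) (nat_lit 99612724668) (nat_lit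 76) (nat_lit 59844603321) (nat_lit 15) (nat_lit 5) (nat_lit 17) (nat_lit 5) (nat_lit 16) (nat_lit 4) (nat_lit 324) (nat_lit 284) (nat_lit 172))))) (XT.nd (nat_lit 234) (nat_lit 228) (nat_lit 0) (XT.nd (nat_lit 78) (nat_lit 0) (nat_lit 0) (XT.lf (nat_lit 0) (nat_lit 711090474) (nat_lit 76) (nat_lit 85254525285) (nat_lit 152) (nat_lit 123239296653) (nat_lit 14) (nat_lit 5) (nat_lit 15) (nat_lit 5) (nat_lit 16) (nat_lit 4) (nat_lit 325) (nat_lit 284) (nat_lit 171)) (XT.nd (nat_lit 78) (nat_lit 0) (nat_lit 0) (XT.lf (nat_lit 0) (nat_lit 112615075339) (nat_lit 76) (nat_lit 27938910397) (nat_lit 152) (nat_lit 82303531878) (nat_lit 14) (nat_lit 5) (nat_lit 15) (nat_lit 5) (nat_lit 16) (nat_lit 4) (nat_lit 326) (nat_lit 284) (nat_lit 170)) (XT.lf (nat_lit 0) (nat_lit 200038186504) (nat_lit 152) (nat_lit 4663909441) (nat_lit 0) (nat_lit 32873797930) (nat_lit 14) (nat_lit 5) (nat_lit 16) (nat_lit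 4) (nat_lit 14) (nat_lit 4) (nat_lit 327) (nat_lit 284) (nat_lit 169)))) (XT.nd (nat_lit 78) (nat_lit 76) (nat_lit 0) (XT.lf (nat_lit 0) (nat_lit 12725883364) (nat_lit 152) (nat_lit 141078102439) (nat_lit 76) (nat_lit 99546193414) (nat_lit 12) (nat_lit 5) (nat_lit 14) (nat_lit 5) (nat_lit 13) (nat_lit 4) (nat_lit 328) (nat_lit 284) (nat_lit 168)) (XT.nd (nat_lit 78) (nat_lit 76) (nat_lit 0) (XT.lf (nat_lit 0) (nat_lit 65794250656) (nat_lit 152) (nat_lit 32289592790) (nat_lit 76) (nat_lit 172266854516) (nat_lit 12) (nat_lit 5) (nat_lit 14) (nat_lit 5) (nat_lit 13) (nat_lit 4) (nat_lit 329) (nat_lit 284) (nat_lit 167)) (XT.lf (nat_lit 0) (nat_lit 88016816968) (nat_lit 76) (nat_lit 36464229459) (nat_lit 152) (nat_lit 164161564355) (nat_lit 11) (nat_lit 5) (nat_lit 12) (nat_lit 5) (nat_lit 13) (nat_lit 4) (nat_lit 330) (nat_lit 284) (nat_lit 166))))))) (XT.nd (nat_lit 858) (nat_lit 76) (nat_lit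 0) (XT.nd (nat_lit 390) (nat_lit 152) (nat_lit 0) (XT.nd (nat_lit 156) (nat_lit 152) (nat_lit 0) (XT.nd (nat_lit 78) (nat_lit 76) (nat_lit 0) (XT.lf (nat_lit 0) (nat_lit 188902992484) (nat_lit 152) (nat_lit 89750107605) (nat_lit 0) (nat_lit 29692766700) (nat_lit 11) (nat_lit 5) (nat_lit 13) (nat_lit 4) (nat_lit 11) (nat_lit 4) (nat_lit 331) (nat_lit 284) (nat_lit 165)) (XT.lf (nat_lit 0) (nat_lit 30350123988) (nat_lit 76) (nat_lit 229216173866) (nat_lit 76) (nat_lit 70004705698) (nat_lit 10) (nat_lit 4) (nat_lit 11) (nat_lit 5) (nat_lit 11) (nat_lit 4) (nat_lit 332) (nat_lit 284) (nat_lit 164))) (XT.nd (nat_lit 78) (nat_lit 152) (nat_lit 0) (XT.lf (nat_lit 0) (nat_lit 163261361067) (nat_lit 76) (nat_lit 174183646080) (nat_lit 76) (nat_lit 14971027555) (nat_lit 10) (nat_lit 4) (nat_lit 11) (nat_lit 5) (nat_lit 11) (nat_lit 4) (nat_lit 333) (nat_lit 284) (nat_lit 163)) (XT.nd (nat_lit 78)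 (nat_lit 76) (nat_lit 0) (XT.lf (nat_lit 0) (nat_lit 43041188065) (nat_lit 152) (nat_lit 70979248135) (nat_lit 76) (nat_lit 263033570486) (nat_lit 9) (nat_lit 5) (nat_lit 11) (nat_lit 5) (nat_lit 10) (nat_lit 4) (nat_lit 334) (nat_lit 284) (nat_lit 162)) (XT.lf (nat_lit 0) (nat_lit 58260769658) (nat_lit 76) (nat_lit 47824810621) (nat_lit 152) (nat_lit 297519379599) (nat_lit 8) (nat_lit 5) (nat_lit 9) (nat_lit 5) (nat_lit 10) (nat_lit 4) (nat_lit 335) (nat_lit 284) (nat_lit 161))))) (XT.nd (nat_lit 234) (nat_lit 76) (nat_lit 0) (XT.nd (nat_lit 78) (nat_lit 76) (nat_lit 0) (XT.lf (nat_lit 0) (nat_lit 175798820901) (nat_lit 152) (nat_lit 232234971659) (nat_lit 0) (nat_lit 24164932231) (nat_lit 8) (nat_lit 5) (nat_lit 10) (nat_lit 4) (nat_lit 8) (nat_lit 4) (nat_lit 336) (nat_lit 284) (nat_lit 160)) (XT.nd (nat_lit 78) (nat_lit 76) (nat_lit 0) (XT.lf (nat_lit 0) (nat_lit 251894715385) (nat_lit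 152) (nat_lit 110884974647) (nat_lit 0) (nat_lit 100260021432) (nat_lit 8) (nat_lit 5) (nat_lit 10) (nat_lit 4) (nat_lit 8) (nat_lit 4) (nat_lit 337) (nat_lit 284) (nat_lit 159)) (XT.lf (nat_lit 0) (nat_lit 20838555136) (nat_lit 76) (nat_lit 313564316149) (nat_lit 76) (nat_lit 161928876565) (nat_lit 7) (nat_lit 4) (nat_lit 8) (nat_lit 5) (nat_lit 8) (nat_lit 4) (nat_lit 338) (nat_lit 284) (nat_lit 158)))) (XT.nd (nat_lit 78) (nat_lit 76) (nat_lit 0) (XT.lf (nat_lit 0) (nat_lit 167058265269) (nat_lit 76) (nat_lit 258384235529) (nat_lit 76) (nat_lit 106748105546) (nat_lit 7) (nat_lit 4) (nat_lit 8) (nat_lit 5) (nat_lit 8) (nat_lit 4) (nat_lit 339) (nat_lit 284) (nat_lit 157)) (XT.nd (nat_lit 78) (nat_lit 76) (nat_lit 0) (XT.lf (nat_lit 0) (nat_lit 324974284890) (nat_lit 76) (nat_lit 198790345801) (nat_lit 76) (nat_lit 47153576559) (nat_lit 7) (nat_lit 4) (nat_lit 8) (nat_lit 5) (nat_lit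 8) (nat_lit 4) (nat_lit 340) (nat_lit 284) (nat_lit 156)) (XT.lf (nat_lit 0) (nat_lit 16657104072) (nat_lit 152) (nat_lit 117490297799) (nat_lit 76) (nat_lit 478583212444) (nat_lit 6) (nat_lit 5) (nat_lit 8) (nat_lit 5) (nat_lit 7) (nat_lit 4) (nat_lit 341) (nat_lit 284) (nat_lit 155)))))) (XT.nd (nat_lit 36192) (nat_lit 0) (nat_lit 6156) (XT.nd (nat_lit 156) (nat_lit 0) (nat_lit 0) (XT.nd (nat_lit 78) (nat_lit 0) (nat_lit 0) (XT.lf (nat_lit 0) (nat_lit 21119366898) (nat_lit 76) (nat_lit 63152475105) (nat_lit 152) (nat_lit 573559959937) (nat_lit 5) (nat_lit 5) (nat_lit 6) (nat_lit 5) (nat_lit 7) (nat_lit 4) (nat_lit 342) (nat_lit 284) (nat_lit 154)) (XT.lf (nat_lit 0) (nat_lit 159586467006) (nat_lit 152) (nat_lit 531671155028) (nat_lit 0) (nat_lit 15168927316) (nat_lit 5) (nat_lit 5) (nat_lit 7) (nat_lit 4) (nat_lit 5) (nat_lit 4) (nat_lit 343) (nat_lit 284) (nat_lit 153))) (XT.nd (nat_lit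 78) (nat_lit 0) (nat_lit 0) (XT.lf (nat_lit 0) (nat_lit 241990604871) (nat_lit 152) (nat_lit 419292437022) (nat_lit 0) (nat_lit 97572617682) (nat_lit 5) (nat_lit 5) (nat_lit 7) (nat_lit 4) (nat_lit 5) (nat_lit 4) (nat_lit 344) (nat_lit 284) (nat_lit 152)) (XT.nd (nat_lit 78) (nat_lit 0) (nat_lit 0) (XT.lf (nat_lit 0) (nat_lit 330986589294) (nat_lit 152) (nat_lit 297924345944) (nat_lit 0) (nat_lit 186568187754) (nat_lit 5) (nat_lit 5) (nat_lit 7) (nat_lit 4) (nat_lit 5) (nat_lit 4) (nat_lit 345) (nat_lit 284) (nat_lit 151)) (XT.lf (nat_lit 0) (nat_lit 427101803888) (nat_lit 152) (nat_lit 166847663476) (nat_lit 0) (nat_lit 282683018690) (nat_lit 5) (nat_lit 5) (nat_lit 7) (nat_lit 4) (nat_lit 5) (nat_lit 4) (nat_lit 346) (nat_lit 284) (nat_lit 150))))) (XT.nd (nat_lit 234) (nat_lit 608) (nat_lit 0) (XT.nd (nat_lit 78) (nat_lit 0) (nat_lit 0) (XT.lf (nat_lit 0) (nat_lit 6086553373) (nat_lit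 0) (nat_lit 6086553373) (nat_lit 684) (nat_lit 1842019356) (nat_lit 94) (nat_lit 5) (nat_lit 94) (nat_lit 3) (nat_lit 103) (nat_lit 3) (nat_lit 285) (nat_lit 285) (nat_lit 210)) (XT.nd (nat_lit 78) (nat_lit 0) (nat_lit 0) (XT.lf (nat_lit 76) (nat_lit 4724421651) (nat_lit 0) (nat_lit 20924030647) (nat_lit 760) (nat_lit 3486371300) (nat_lit 95) (nat_lit 5) (nat_lit 94) (nat_lit 5) (nat_lit 104) (nat_lit 5) (nat_lit 286) (nat_lit 285) (nat_lit 209)) (XT.lf (nat_lit 76) (nat_lit 27299583803) (nat_lit 0) (nat_lit 221098185) (nat_lit 760) (nat_lit 2783810055) (nat_lit 95) (nat_lit 5) (nat_lit 94) (nat_lit 5) (nat_lit 104) (nat_lit 5) (nat_lit 287) (nat_lit 285) (nat_lit 208)))) (XT.nd (nat_lit 78) (nat_lit 684) (nat_lit 0) (XT.lf (nat_lit 76) (nat_lit 20413470585) (nat_lit 0) (nat_lit 9782199667) (nat_lit 760) (nat_lit 1339435004) (nat_lit 96) (nat_lit 5) (nat_lit 95) (nat_lit 5) (nat_lit 105)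 (nat_lit 5) (nat_lit 288) (nat_lit 285) (nat_lit 207)) (XT.nd (nat_lit 78) (nat_lit 0) (nat_lit 76) (XT.lf (nat_lit 0) (nat_lit 669506523) (nat_lit 760) (nat_lit 19689184503) (nat_lit 836) (nat_lit 12482518606) (nat_lit 86) (nat_lit 5) (nat_lit 96) (nat_lit 5) (nat_lit 97) (nat_lit 5) (nat_lit 289) (nat_lit 285) (nat_lit 206)) (XT.lf (nat_lit 0) (nat_lit 3265945256) (nat_lit 760) (nat_lit 28763884061) (nat_lit 836) (nat_lit 2197206264) (nat_lit 87) (nat_lit 5) (nat_lit 97) (nat_lit 5) (nat_lit 98) (nat_lit 5) (nat_lit 290) (nat_lit 285) (nat_lit 205))))))))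
noncomputable def xc92 : XT := (XT.nd (nat_lit 1638) (nat_lit 1748) (nat_lit 0) (XT.nd (nat_lit 780) (nat_lit 1748) (nat_lit 0) (XT.nd (nat_lit 390) (nat_lit 1216) (nat_lit 0) (XT.nd (nat_lit 156) (nat_lit 1140) (nat_lit 0) (XT.nd (nat_lit 78) (nat_lit 0) (nat_lit 76) (XT.lf (nat_lit 0) (nat_lit 6752560799) (nat_lit 760) (nat_lit 2732498372) (nat_lit 836) (nat_lit 26204560700) (nat_lit 87) (nat_lit 5) (nat_lit 97) (nat_lit 5) (nat_lit 98) (nat_lit 5) (nat_lit 291) (nat_lit 285) (nat_lit 204)) (XT.lf (nat_lit 0) (nat_lit 11157436546) (nat_lit 760) (nat_lit 11274809683) (nat_lit 76) (nat_lit 14805012342) (nat_lit 88) (nat_lit 5) (nat_lit 98) (nat_lit 5) (nat_lit 89) (nat_lit 5) (nat_lit 292) (nat_lit 285) (nat_lit 203))) (XT.nd (nat_lit 78) (nat_lit 684) (nat_lit 0) (XT.lf (nat_lit 0) (nat_lit 16438606547) (nat_lit 608) (nat_lit 20347466332) (nat_lit 76) (nat_lit 2096453437) (nat_lit 81)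 (nat_lit 5) (nat_lit 89) (nat_lit 5) (nat_lit 82) (nat_lit 5) (nat_lit 293) (nat_lit 285) (nat_lit 202)) (XT.nd (nat_lit 78) (nat_lit 304) (nat_lit 0) (XT.lf (nat_lit 0) (nat_lit 10427602658) (nat_lit 380) (nat_lit 12447682870) (nat_lit 456) (nat_lit 17747491372) (nat_lit 76) (nat_lit 5) (nat_lit 81) (nat_lit 5) (nat_lit 82) (nat_lit 5) (nat_lit 294) (nat_lit 285) (nat_lit 201)) (XT.lf (nat_lit 0) (nat_lit 1732887948) (nat_lit 304) (nat_lit 28690163837) (nat_lit 380) (nat_lit 12049399379) (nat_lit 72) (nat_lit 5) (nat_lit 76) (nat_lit 5) (nat_lit 77) (nat_lit 5) (nat_lit 295) (nat_lit 285) (nat_lit 200))))) (XT.nd (nat_lit 156) (nat_lit 836) (nat_lit 0) (XT.nd (nat_lit 78) (nat_lit 380) (nat_lit 0) (XT.lf (nat_lit 0) (nat_lit 37069477753) (nat_lit 304) (nat_lit 2230870060) (nat_lit 380) (nat_lit 5133476581) (nat_lit 72) (nat_lit 5) (nat_lit 76) (nat_lit 5) (nat_lit 77) (nat_lit 5) (nat_lit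 296) (nat_lit 285) (nat_lit 199)) (XT.lf (nat_lit 0) (nat_lit 3135956124) (nat_lit 380) (nat_lit 17362532441) (nat_lit 76) (nat_lit 26008055088) (nat_lit 67) (nat_lit 5) (nat_lit 72) (nat_lit 5) (nat_lit 68) (nat_lit 5) (nat_lit 297) (nat_lit 285) (nat_lit 198))) (XT.nd (nat_lit 78) (nat_lit 532) (nat_lit 0) (XT.lf (nat_lit 0) (nat_lit 12502295619) (nat_lit 380) (nat_lit 28221044701) (nat_lit 76) (nat_lit 7986780687) (nat_lit 63) (nat_lit 5) (nat_lit 68) (nat_lit 5) (nat_lit 64) (nat_lit 5) (nat_lit 298) (nat_lit 285) (nat_lit 197)) (XT.nd (nat_lit 78) (nat_lit 228) (nat_lit 0) (XT.lf (nat_lit 0) (nat_lit 10905585793) (nat_lit 304) (nat_lit 12529973339) (nat_lit 380) (nat_lit 27613552472) (nat_lit 59) (nat_lit 5) (nat_lit 63) (nat_lit 5) (nat_lit 64) (nat_lit 5) (nat_lit 299) (nat_lit 285) (nat_lit 196)) (XT.lf (nat_lit 0) (nat_lit 335603793) (nat_lit 228) (nat_lit 35687142427) (nat_lit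 304) (nat_lit 17513519418) (nat_lit 56) (nat_lit 5) (nat_lit 59) (nat_lit 5) (nat_lit 60) (nat_lit 5) (nat_lit 300) (nat_lit 285) (nat_lit 195)))))) (XT.nd (nat_lit 390) (nat_lit 988) (nat_lit 0) (XT.nd (nat_lit 156) (nat_lit 456) (nat_lit 0) (XT.nd (nat_lit 78) (nat_lit 304) (nat_lit 0) (XT.lf (nat_lit 0) (nat_lit 45261822550) (nat_lit 228) (nat_lit 5257136498) (nat_lit 304) (nat_lit 5658337179) (nat_lit 56) (nat_lit 5) (nat_lit 59) (nat_lit 5) (nat_lit 60) (nat_lit 5) (nat_lit 301) (nat_lit 285) (nat_lit 194)) (XT.lf (nat_lit 0) (nat_lit 7912384384) (nat_lit 304) (nat_lit 23658356734) (nat_lit 76) (nat_lit 27403505359) (nat_lit 52) (nat_lit 5) (nat_lit 56) (nat_lit 5) (nat_lit 53) (nat_lit 5) (nat_lit 302) (nat_lit 285) (nat_lit 193))) (XT.nd (nat_lit 78) (nat_lit 228) (nat_lit 0) (XT.lf (nat_lit 0) (nat_lit 23047644300) (nat_lit 304) (nat_lit 37743789827) (nat_lit 76) (nat_lit 1165030105)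 (nat_lit 49) (nat_lit 5) (nat_lit 53) (nat_lit 5) (nat_lit 50) (nat_lit 5) (nat_lit 303) (nat_lit 285) (nat_lit 192)) (XT.nd (nat_lit 78) (nat_lit 0) (nat_lit 0) (XT.lf (nat_lit 0) (nat_lit 11421998442) (nat_lit 228) (nat_lit 29096929757) (nat_lit 304) (nat_lit 24602076170) (nat_lit 46) (nat_lit 5) (nat_lit 49) (nat_lit 5) (nat_lit 50) (nat_lit 5) (nat_lit 304) (nat_lit 285) (nat_lit 191)) (XT.lf (nat_lit 0) (nat_lit 60132176936) (nat_lit 304) (nat_lit 2733854689) (nat_lit 76) (nat_lit 5635467725) (nat_lit 46) (nat_lit 5) (nat_lit 50) (nat_lit 5) (nat_lit 47) (nat_lit 5) (nat_lit 305) (nat_lit 285) (nat_lit 190))))) (XT.nd (nat_lit 234) (nat_lit 380) (nat_lit 0) (XT.nd (nat_lit 78) (nat_lit 380) (nat_lit 0) (XT.lf (nat_lit 0) (nat_lit 10212969956) (nat_lit 228) (nat_lit 18725533650) (nat_lit 76) (nat_lit 43139574181) (nat_lit 43) (nat_lit 5) (nat_lit 46) (nat_lit 5) (nat_lit 44) (nat_lit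 5) (nat_lit 306) (nat_lit 285) (nat_lit 189)) (XT.nd (nat_lit 78) (nat_lit 152) (nat_lit 0) (XT.lf (nat_lit 0) (nat_lit 30782540007) (nat_lit 304) (nat_lit 36842121726) (nat_lit 76) (nat_lit 8269568806) (nat_lit 40) (nat_lit 5) (nat_lit 44) (nat_lit 5) (nat_lit 41) (nat_lit 5) (nat_lit 307) (nat_lit 285) (nat_lit 188)) (XT.lf (nat_lit 0) (nat_lit 22337589716) (nat_lit 152) (nat_lit 31824806775) (nat_lit 228) (nat_lit 25795046564) (nat_lit 38) (nat_lit 5) (nat_lit 40) (nat_lit 5) (nat_lit 41) (nat_lit 5) (nat_lit 308) (nat_lit 285) (nat_lit 187)))) (XT.nd (nat_lit 78) (nat_lit 228) (nat_lit 0) (XT.lf (nat_lit 0) (nat_lit 3234666430) (nat_lit 152) (nat_lit 76984172783) (nat_lit 228) (nat_lit 4086566791) (nat_lit 36) (nat_lit 5) (nat_lit 38) (nat_lit 5) (nat_lit 39) (nat_lit 5) (nat_lit 309) (nat_lit 285) (nat_lit 186)) (XT.nd (nat_lit 78) (nat_lit 152) (nat_lit 0) (XT.lf (nat_lit 0) (nat_lit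 20292522770) (nat_lit 228) (nat_lit 18796329777) (nat_lit 76) (nat_lit 49819567913) (nat_lit 35) (nat_lit 5) (nat_lit 38) (nat_lit 5) (nat_lit 36) (nat_lit 5) (nat_lit 310) (nat_lit 285) (nat_lit 185)) (XT.lf (nat_lit 0) (nat_lit 47300688896) (nat_lit 228) (nat_lit 43893701963) (nat_lit 76) (nat_lit 2640842140) (nat_lit 33) (nat_lit 5) (nat_lit 36) (nat_lit 5) (nat_lit 34) (nat_lit 5) (nat_lit 311) (nat_lit 285) (nat_lit 184))))))) (XT.nd (nat_lit 858) (nat_lit 608) (nat_lit 0) (XT.nd (nat_lit 390) (nat_lit 532) (nat_lit 0) (XT.nd (nat_lit 156) (nat_lit 380) (nat_lit 0) (XT.nd (nat_lit 78) (nat_lit 76) (nat_lit 0) (XT.lf (nat_lit 0) (nat_lit 25868636682) (nat_lit 152) (nat_lit 51993765437) (nat_lit 228) (nat_lit 21224146240) (nat_lit 31) (nat_lit 5) (nat_lit 33) (nat_lit 5) (nat_lit 34) (nat_lit 5) (nat_lit 312) (nat_lit 285) (nat_lit 183)) (XT.lf (nat_lit 0) (nat_lit 6689836958) (nat_lit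 228) (nat_lit 2052840491) (nat_lit 76) (nat_lit 95971805837) (nat_lit 30) (nat_lit 5) (nat_lit 33) (nat_lit 5) (nat_lit 31) (nat_lit 5) (nat_lit 313) (nat_lit 285) (nat_lit 182))) (XT.nd (nat_lit 78) (nat_lit 228) (nat_lit 0) (XT.lf (nat_lit 0) (nat_lit 37919726431) (nat_lit 228) (nat_lit 34428394586) (nat_lit 76) (nat_lit 38335818281) (nat_lit 28) (nat_lit 5) (nat_lit 31) (nat_lit 5) (nat_lit 29) (nat_lit 5) (nat_lit 314) (nat_lit 285) (nat_lit 181)) (XT.nd (nat_lit 78) (nat_lit 76) (nat_lit 0) (XT.lf (nat_lit 0) (nat_lit 45062905480) (nat_lit 152) (nat_lit 27469944913) (nat_lit 228) (nat_lit 44553861128) (nat_lit 26) (nat_lit 5) (nat_lit 28) (nat_lit 5) (nat_lit 29) (nat_lit 5) (nat_lit 315) (nat_lit 285) (nat_lit 180)) (XT.lf (nat_lit 0) (nat_lit 8088375118) (nat_lit 76) (nat_lit 102887947685) (nat_lit 152) (nat_lit 12972319550) (nat_lit 25) (nat_lit 5) (nat_lit 26) (nat_lit 5) (nat_lit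 27) (nat_lit 4) (nat_lit 316) (nat_lit 285) (nat_lit 179))))) (XT.nd (nat_lit 234) (nat_lit 228) (nat_lit 0) (XT.nd (nat_lit 78) (nat_lit 228) (nat_lit 0) (XT.lf (nat_lit 0) (nat_lit 22195335022) (nat_lit 152) (nat_lit 34933014214) (nat_lit 76) (nat_lit 74127877277) (nat_lit 24) (nat_lit 5) (nat_lit 26) (nat_lit 5) (nat_lit 25) (nat_lit 5) (nat_lit 317) (nat_lit 285) (nat_lit 178)) (XT.nd (nat_lit 78) (nat_lit 76) (nat_lit 0) (XT.lf (nat_lit 0) (nat_lit 53973518361) (nat_lit 152) (nat_lit 6595017736) (nat_lit 228) (nat_lit 78526918643) (nat_lit 22) (nat_lit 5) (nat_lit 24) (nat_lit 5) (nat_lit 25) (nat_lit 5) (nat_lit 318) (nat_lit 285) (nat_lit 177)) (XT.lf (nat_lit 0) (nat_lit 3043363503) (nat_lit 76) (nat_lit 100381296582) (nat_lit 152) (nat_lit 44066509127) (nat_lit 21) (nat_lit 5) (nat_lit 22) (nat_lit 5) (nat_lit 23) (nat_lit 4) (nat_lit 319) (nat_lit 285) (nat_lit 176)))) (XT.nd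 (nat_lit 78) (nat_lit 228) (nat_lit 0) (XT.lf (nat_lit 0) (nat_lit 101183264157) (nat_lit 76) (nat_lit 50116235793) (nat_lit 152) (nat_lit 5179530823) (nat_lit 21) (nat_lit 5) (nat_lit 22) (nat_lit 5) (nat_lit 23) (nat_lit 4) (nat_lit 320) (nat_lit 285) (nat_lit 175)) (XT.nd (nat_lit 78) (nat_lit 0) (nat_lit 0) (XT.lf (nat_lit 0) (nat_lit 36375119931) (nat_lit 228) (nat_lit 124463357464) (nat_lit 76) (nat_lit 5281946367) (nat_lit 18) (nat_lit 5) (nat_lit 21) (nat_lit 5) (nat_lit 19) (nat_lit 4) (nat_lit 321) (nat_lit 285) (nat_lit 174)) (XT.lf (nat_lit 0) (nat_lit 82897389012) (nat_lit 228) (nat_lit 29095580847) (nat_lit 76) (nat_lit 64444678229) (nat_lit 18) (nat_lit 5) (nat_lit 21) (nat_lit 5) (nat_lit 19) (nat_lit 4) (nat_lit 322) (nat_lit 285) (nat_lit 173)))))) (XT.nd (nat_lit 390) (nat_lit 304) (nat_lit 0) (XT.nd (nat_lit 156) (nat_lit 228) (nat_lit 0) (XT.nd (nat_lit 78) (nat_lit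 0) (nat_lit 0) (XT.lf (nat_lit 0) (nat_lit 76342121006) (nat_lit 76) (nat_lit 57989591855) (nat_lit 152) (nat_lit 53189024767) (nat_lit 17) (nat_lit 5) (nat_lit 18) (nat_lit 5) (nat_lit 19) (nat_lit 4) (nat_lit 323) (nat_lit 285) (nat_lit 172)) (XT.lf (nat_lit 0) (nat_lit 190399550550) (nat_lit 152) (nat_lit 8227678750) (nat_lit 0) (nat_lit 837307494) (nat_lit 17) (nat_lit 5) (nat_lit 19) (nat_lit 4) (nat_lit 17) (nat_lit 4) (nat_lit 324) (nat_lit 285) (nat_lit 171))) (XT.nd (nat_lit 78) (nat_lit 76) (nat_lit 0) (XT.lf (nat_lit 0) (nat_lit 40018022143) (nat_lit 152) (nat_lit 107527471249) (nat_lit 76) (nat_lit 64655016409) (nat_lit 15) (nat_lit 5) (nat_lit 17) (nat_lit 5) (nat_lit 16) (nat_lit 4) (nat_lit 325) (nat_lit 285) (nat_lit 170)) (XT.nd (nat_lit 78) (nat_lit 0) (nat_lit 0) (XT.lf (nat_lit 0) (nat_lit 819890536) (nat_lit 76) (nat_lit 92051484956) (nat_lit 152) (nat_lit 133068490680)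 (nat_lit 14) (nat_lit 5) (nat_lit 15) (nat_lit 5) (nat_lit 16) (nat_lit 4) (nat_lit 326) (nat_lit 285) (nat_lit 169)) (XT.lf (nat_lit 0) (nat_lit 121672348796) (nat_lit 76) (nat_lit 30152354385) (nat_lit 152) (nat_lit 88860083219) (nat_lit 14) (nat_lit 5) (nat_lit 15) (nat_lit 5) (nat_lit 16) (nat_lit 4) (nat_lit 327) (nat_lit 285) (nat_lit 168))))) (XT.nd (nat_lit 234) (nat_lit 152) (nat_lit 0) (XT.nd (nat_lit 78) (nat_lit 152) (nat_lit 0) (XT.lf (nat_lit 0) (nat_lit 216065997810) (nat_lit 152) (nat_lit 4991594658) (nat_lit 0) (nat_lit 35523123344) (nat_lit 14) (nat_lit 5) (nat_lit 16) (nat_lit 4) (nat_lit 14) (nat_lit 4) (nat_lit 328) (nat_lit 285) (nat_lit 167)) (XT.nd (nat_lit 78) (nat_lit 0) (nat_lit 0) (XT.lf (nat_lit 0) (nat_lit 13767952477) (nat_lit 152) (nat_lit 152320093460) (nat_lit 76) (nat_lit 107528937330) (nat_lit 12) (nat_lit 5) (nat_lit 14) (nat_lit 5) (nat_lit 13) (nat_lit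 4) (nat_lit 329) (nat_lit 285) (nat_lit 166)) (XT.lf (nat_lit 0) (nat_lit 71080011490) (nat_lit 152) (nat_lit 34831781348) (nat_lit 76) (nat_lit 186065840325) (nat_lit 12) (nat_lit 5) (nat_lit 14) (nat_lit 5) (nat_lit 13) (nat_lit 4) (nat_lit 330) (nat_lit 285) (nat_lit 165)))) (XT.nd (nat_lit 78) (nat_lit 76) (nat_lit 0) (XT.lf (nat_lit 0) (nat_lit 95097360300) (nat_lit 76) (nat_lit 39363356630) (nat_lit 152) (nat_lit 177272234490) (nat_lit 11) (nat_lit 5) (nat_lit 12) (nat_lit 5) (nat_lit 13) (nat_lit 4) (nat_lit 331) (nat_lit 285) (nat_lit 164)) (XT.nd (nat_lit 78) (nat_lit 76) (nat_lit 0) (XT.lf (nat_lit 0) (nat_lit 204035109655) (nat_lit 152) (nat_lit 96893093070) (nat_lit 0) (nat_lit 32084331292) (nat_lit 11) (nat_lit 5) (nat_lit 13) (nat_lit 4) (nat_lit 11) (nat_lit 4) (nat_lit 332) (nat_lit 285) (nat_lit 163)) (XT.lf (nat_lit 0) (nat_lit 32813548070) (nat_lit 76) (nat_lit 247537011871)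 (nat_lit 76) (nat_lit 75585168364) (nat_lit 10) (nat_lit 4) (nat_lit 11) (nat_lit 5) (nat_lit 11) (nat_lit 4) (nat_lit 333) (nat_lit 285) (nat_lit 162))))))))
noncomputable def xc93 : XT := (XT.nd (nat_lit 37518) (nat_lit 0) (nat_lit 1748) (XT.nd (nat_lit 780) (nat_lit 0) (nat_lit 0) (XT.nd (nat_lit 390) (nat_lit 228) (nat_lit 0) (XT.nd (nat_lit 156) (nat_lit 76) (nat_lit 0) (XT.nd (nat_lit 78) (nat_lit 76) (nat_lit 0) (XT.lf (nat_lit 0) (nat_lit 176355060844) (nat_lit 76) (nat_lit 188103100817) (nat_lit 76) (nat_lit 16150271065) (nat_lit 10) (nat_lit 4) (nat_lit 11) (nat_lit 5) (nat_lit 11) (nat_lit 4) (nat_lit 334) (nat_lit 285) (nat_lit 161)) (XT.lf (nat_lit 0) (nat_lit 46501009537) (nat_lit 152) (nat_lit 76626673390) (nat_lit 76) (nat_lit 284089811752) (nat_lit 9) (nat_lit 5) (nat_lit 11) (nat_lit 5) (nat_lit 10) (nat_lit 4) (nat_lit 335) (nat_lit 285) (nat_lit 160))) (XT.nd (nat_lit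 78) (nat_lit 0) (nat_lit 0) (XT.lf (nat_lit 0) (nat_lit 62951202315) (nat_lit 76) (nat_lit 51636988320) (nat_lit 152) (nat_lit 321304372076) (nat_lit 8) (nat_lit 5) (nat_lit 9) (nat_lit 5) (nat_lit 10) (nat_lit 4) (nat_lit 336) (nat_lit 285) (nat_lit 159)) (XT.nd (nat_lit 78) (nat_lit 0) (nat_lit 0) (XT.lf (nat_lit 0) (nat_lit 189877522409) (nat_lit 152) (nat_lit 250785853213) (nat_lit 0) (nat_lit 26110502027) (nat_lit 8) (nat_lit 5) (nat_lit 10) (nat_lit 4) (nat_lit 8) (nat_lit 4) (nat_lit 337) (nat_lit 285) (nat_lit 158)) (XT.lf (nat_lit 0) (nat_lit 272059992463) (nat_lit 152) (nat_lit 119729924305) (nat_lit 0) (nat_lit 108292281682) (nat_lit 8) (nat_lit 5) (nat_lit 10) (nat_lit 4) (nat_lit 8) (nat_lit 4) (nat_lit 338) (nat_lit 285) (nat_lit 157))))) (XT.nd (nat_lit 156) (nat_lit 152) (nat_lit 0) (XT.nd (nat_lit 78) (nat_lit 0) (nat_lit 0) (XT.lf (nat_lit 0) (nat_lit 22530364524) (nat_lit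 76) (nat_lit 338637807534) (nat_lit 76) (nat_lit 174869457494) (nat_lit 7) (nat_lit 4) (nat_lit 8) (nat_lit 5) (nat_lit 8) (nat_lit 4) (nat_lit 339) (nat_lit 285) (nat_lit 156)) (XT.lf (nat_lit 0) (nat_lit 180445819988) (nat_lit 76) (nat_lit 279044183717) (nat_lit 76) (nat_lit 115275241770) (nat_lit 7) (nat_lit 4) (nat_lit 8) (nat_lit 5) (nat_lit 8) (nat_lit 4) (nat_lit 340) (nat_lit 285) (nat_lit 155))) (XT.nd (nat_lit 78) (nat_lit 152) (nat_lit 0) (XT.lf (nat_lit 0) (nat_lit 350993425365) (nat_lit 76) (nat_lit 214683582118) (nat_lit 76) (nat_lit 50914092110) (nat_lit 7) (nat_lit 4) (nat_lit 8) (nat_lit 5) (nat_lit 8) (nat_lit 4) (nat_lit 341) (nat_lit 285) (nat_lit 154)) (XT.nd (nat_lit 78) (nat_lit 76) (nat_lit 0) (XT.lf (nat_lit 0) (nat_lit 18000222251) (nat_lit 152) (nat_lit 126869541855) (nat_lit 76) (nat_lit 516878768404) (nat_lit 6) (nat_lit 5) (nat_lit 8) (nat_lit 5) (nat_lit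 7) (nat_lit 4) (nat_lit 342) (nat_lit 285) (nat_lit 153)) (XT.lf (nat_lit 0) (nat_lit 22828027721) (nat_lit 76) (nat_lit 68195628409) (nat_lit 152) (nat_lit 619434183426) (nat_lit 5) (nat_lit 5) (nat_lit 6) (nat_lit 5) (nat_lit 7) (nat_lit 4) (nat_lit 343) (nat_lit 285) (nat_lit 152)))))) (XT.nd (nat_lit 36270) (nat_lit 0) (nat_lit 6156) (XT.nd (nat_lit 156) (nat_lit 0) (nat_lit 0) (XT.nd (nat_lit 78) (nat_lit 0) (nat_lit 0) (XT.lf (nat_lit 0) (nat_lit 172362836199) (nat_lit 152) (nat_lit 574186813360) (nat_lit 0) (nat_lit 16390548185) (nat_lit 5) (nat_lit 5) (nat_lit 7) (nat_lit 4) (nat_lit 5) (nat_lit 4) (nat_lit 344) (nat_lit 285) (nat_lit 151)) (XT.lf (nat_lit 0) (nat_lit 261358604957) (nat_lit 152) (nat_lit 452819133770) (nat_lit 0) (nat_lit 105385933284) (nat_lit 5) (nat_lit 5) (nat_lit 7) (nat_lit 4) (nat_lit 5) (nat_lit 4) (nat_lit 345) (nat_lit 285) (nat_lit 150))) (XT.nd (nat_lit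 35958) (nat_lit 0) (nat_lit 6764) (XT.lf (nat_lit 0) (nat_lit 357473619861) (nat_lit 152) (nat_lit 321742832310) (nat_lit 0) (nat_lit 201500592949) (nat_lit 5) (nat_lit 5) (nat_lit 7) (nat_lit 4) (nat_lit 5) (nat_lit 4) (nat_lit 346) (nat_lit 285) (nat_lit 149)) (XT.nd (nat_lit 78) (nat_lit 0) (nat_lit 0) (XT.lf (nat_lit 0) (nat_lit 6633687100) (nat_lit 0) (nat_lit 6633687100) (nat_lit 684) (nat_lit 1862727134) (nat_lit 94) (nat_lit 5) (nat_lit 94) (nat_lit 3) (nat_lit 103) (nat_lit 3) (nat_lit 286) (nat_lit 286) (nat_lit 208)) (XT.lf (nat_lit 76) (nat_lit 5231287204) (nat_lit 0) (nat_lit 22692311129) (nat_lit 760) (nat_lit 3530451528) (nat_lit 95) (nat_lit 5) (nat_lit 94) (nat_lit 5) (nat_lit 104) (nat_lit 5) (nat_lit 287) (nat_lit 286) (nat_lit 207))))) (XT.nd (nat_lit 234) (nat_lit 0) (nat_lit 76) (XT.nd (nat_lit 78) (nat_lit 608) (nat_lit 0) (XT.lf (nat_lit 76) (nat_lit 29602913304)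 (nat_lit 0) (nat_lit 326154587) (nat_lit 760) (nat_lit 2789080159) (nat_lit 95) (nat_lit 5) (nat_lit 94) (nat_lit 5) (nat_lit 104) (nat_lit 5) (nat_lit 288) (nat_lit 286) (nat_lit 206)) (XT.nd (nat_lit 78) (nat_lit 684) (nat_lit 0) (XT.lf (nat_lit 76) (nat_lit 22172266656) (nat_lit 0) (nat_lit 10631174919) (nat_lit 760) (nat_lit 1244526597) (nat_lit 96) (nat_lit 5) (nat_lit 95) (nat_lit 5) (nat_lit 105) (nat_lit 5) (nat_lit 289) (nat_lit 286) (nat_lit 205)) (XT.lf (nat_lit 0) (nat_lit 905273750) (nat_lit 760) (nat_lit 21127235433) (nat_lit 836) (nat_lit 13426587396) (nat_lit 86) (nat_lit 5) (nat_lit 96) (nat_lit 5) (nat_lit 97) (nat_lit 5) (nat_lit 290) (nat_lit 286) (nat_lit 204)))) (XT.nd (nat_lit 78) (nat_lit 0) (nat_lit 0) (XT.lf (nat_lit 0) (nat_lit 3697359290) (nat_lit 760) (nat_lit 30924434542) (nat_lit 836) (nat_lit 2334620371) (nat_lit 87) (nat_lit 5) (nat_lit 97) (nat_lit 5)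 (nat_lit 98) (nat_lit 5) (nat_lit 291) (nat_lit 286) (nat_lit 203)) (XT.nd (nat_lit 78) (nat_lit 0) (nat_lit 76) (XT.lf (nat_lit 0) (nat_lit 7450301231) (nat_lit 760) (nat_lit 2820949868) (nat_lit 836) (nat_lit 28265404821) (nat_lit 87) (nat_lit 5) (nat_lit 97) (nat_lit 5) (nat_lit 98) (nat_lit 5) (nat_lit 292) (nat_lit 286) (nat_lit 202)) (XT.lf (nat_lit 0) (nat_lit 12197477356) (nat_lit 760) (nat_lit 12044309879) (nat_lit 76) (nat_lit 15966841984) (nat_lit 88) (nat_lit 5) (nat_lit 98) (nat_lit 5) (nat_lit 89) (nat_lit 5) (nat_lit 293) (nat_lit 286) (nat_lit 201))))))) (XT.nd (nat_lit 858) (nat_lit 1596) (nat_lit 0) (XT.nd (nat_lit 390) (nat_lit 1368) (nat_lit 0) (XT.nd (nat_lit 156) (nat_lit 684) (nat_lit 0) (XT.nd (nat_lit 78) (nat_lit 380) (nat_lit 0) (XT.lf (nat_lit 0) (nat_lit 17892013754) (nat_lit 608) (nat_lit 21841207570) (nat_lit 76) (nat_lit 2252771032) (nat_lit 81) (nat_lit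 5) (nat_lit 89) (nat_lit 5) (nat_lit 82) (nat_lit 5) (nat_lit 294) (nat_lit 286) (nat_lit 200)) (XT.lf (nat_lit 0) (nat_lit 11390041027) (nat_lit 380) (nat_lit 13445342229) (nat_lit 456) (nat_lit 19030508225) (nat_lit 76) (nat_lit 5) (nat_lit 81) (nat_lit 5) (nat_lit 82) (nat_lit 5) (nat_lit 295) (nat_lit 286) (nat_lit 199))) (XT.nd (nat_lit 78) (nat_lit 380) (nat_lit 0) (XT.lf (nat_lit 0) (nat_lit 2000620031) (nat_lit 304) (nat_lit 30978704568) (nat_lit 380) (nat_lit 12884612497) (nat_lit 72) (nat_lit 5) (nat_lit 76) (nat_lit 5) (nat_lit 77) (nat_lit 5) (nat_lit 296) (nat_lit 286) (nat_lit 198)) (XT.nd (nat_lit 78) (nat_lit 380) (nat_lit 0) (XT.lf (nat_lit 0) (nat_lit 40154573980) (nat_lit 304) (nat_lit 2403161538) (nat_lit 380) (nat_lit 5424952085) (nat_lit 72) (nat_lit 5) (nat_lit 76) (nat_lit 5) (nat_lit 77) (nat_lit 5) (nat_lit 297) (nat_lit 286) (nat_lit 197)) (XT.lf (nat_lit 0)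 (nat_lit 3495665276) (nat_lit 380) (nat_lit 18627942849) (nat_lit 76) (nat_lit 28097863289) (nat_lit 67) (nat_lit 5) (nat_lit 72) (nat_lit 5) (nat_lit 68) (nat_lit 5) (nat_lit 298) (nat_lit 286) (nat_lit 196))))) (XT.nd (nat_lit 234) (nat_lit 532) (nat_lit 0) (XT.nd (nat_lit 78) (nat_lit 532) (nat_lit 0) (XT.lf (nat_lit 0) (nat_lit 13605339640) (nat_lit 380) (nat_lit 30355477360) (nat_lit 76) (nat_lit 8640827985) (nat_lit 63) (nat_lit 5) (nat_lit 68) (nat_lit 5) (nat_lit 64) (nat_lit 5) (nat_lit 299) (nat_lit 286) (nat_lit 195)) (XT.nd (nat_lit 78) (nat_lit 228) (nat_lit 0) (XT.lf (nat_lit 0) (nat_lit 11895927238) (nat_lit 304) (nat_lit 13511558373) (nat_lit 380) (nat_lit 29720568719) (nat_lit 59) (nat_lit 5) (nat_lit 63) (nat_lit 5) (nat_lit 64) (nat_lit 5) (nat_lit 300) (nat_lit 286) (nat_lit 194)) (XT.lf (nat_lit 0) (nat_lit 479681807) (nat_lit 228) (nat_lit 38516905779) (nat_lit 304)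 (nat_lit 18817855890) (nat_lit 56) (nat_lit 5) (nat_lit 59) (nat_lit 5) (nat_lit 60) (nat_lit 5) (nat_lit 301) (nat_lit 286) (nat_lit 193)))) (XT.nd (nat_lit 78) (nat_lit 532) (nat_lit 0) (XT.lf (nat_lit 0) (nat_lit 48991314383) (nat_lit 228) (nat_lit 5654366639) (nat_lit 304) (nat_lit 6021425375) (nat_lit 56) (nat_lit 5) (nat_lit 59) (nat_lit 5) (nat_lit 60) (nat_lit 5) (nat_lit 302) (nat_lit 286) (nat_lit 192)) (XT.nd (nat_lit 78) (nat_lit 228) (nat_lit 0) (XT.lf (nat_lit 0) (nat_lit 8627715184) (nat_lit 304) (nat_lit 25440539221) (nat_lit 76) (nat_lit 29619714903) (nat_lit 52) (nat_lit 5) (nat_lit 56) (nat_lit 5) (nat_lit 53) (nat_lit 5) (nat_lit 303) (nat_lit 286) (nat_lit 191)) (XT.lf (nat_lit 0) (nat_lit 24969780598) (nat_lit 304) (nat_lit 40654055463) (nat_lit 76) (nat_lit 1285136587) (nat_lit 49) (nat_lit 5) (nat_lit 53) (nat_lit 5) (nat_lit 50) (nat_lit 5) (nat_lit 304) (nat_lit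 286) (nat_lit 190)))))) (XT.nd (nat_lit 390) (nat_lit 760) (nat_lit 0) (XT.nd (nat_lit 156) (nat_lit 608) (nat_lit 0) (XT.nd (nat_lit 78) (nat_lit 0) (nat_lit 0) (XT.lf (nat_lit 0) (nat_lit 12440248537) (nat_lit 228) (nat_lit 31394348224) (nat_lit 304) (nat_lit 26492294609) (nat_lit 46) (nat_lit 5) (nat_lit 49) (nat_lit 5) (nat_lit 50) (nat_lit 5) (nat_lit 305) (nat_lit 286) (nat_lit 189)) (XT.lf (nat_lit 0) (nat_lit 65011851030) (nat_lit 304) (nat_lit 2852739046) (nat_lit 76) (nat_lit 6113494935) (nat_lit 46) (nat_lit 5) (nat_lit 50) (nat_lit 5) (nat_lit 47) (nat_lit 5) (nat_lit 306) (nat_lit 286) (nat_lit 188))) (XT.nd (nat_lit 78) (nat_lit 380) (nat_lit 0) (XT.lf (nat_lit 0) (nat_lit 11096624161) (nat_lit 228) (nat_lit 20125817987) (nat_lit 76) (nat_lit 46618481111) (nat_lit 43) (nat_lit 5) (nat_lit 46) (nat_lit 5) (nat_lit 44) (nat_lit 5) (nat_lit 307) (nat_lit 286) (nat_lit 187))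 (XT.nd (nat_lit 78) (nat_lit 152) (nat_lit 0) (XT.lf (nat_lit 0) (nat_lit 33308759332) (nat_lit 304) (nat_lit 39693233855) (nat_lit 76) (nat_lit 8960530248) (nat_lit 40) (nat_lit 5) (nat_lit 44) (nat_lit 5) (nat_lit 41) (nat_lit 5) (nat_lit 308) (nat_lit 286) (nat_lit 186)) (XT.lf (nat_lit 0) (nat_lit 24216671264) (nat_lit 152) (nat_lit 34339058304) (nat_lit 228) (nat_lit 27795231917) (nat_lit 38) (nat_lit 5) (nat_lit 40) (nat_lit 5) (nat_lit 41) (nat_lit 5) (nat_lit 309) (nat_lit 286) (nat_lit 185))))) (XT.nd (nat_lit 234) (nat_lit 380) (nat_lit 0) (XT.nd (nat_lit 78) (nat_lit 228) (nat_lit 0) (XT.lf (nat_lit 0) (nat_lit 3583982056) (nat_lit 152) (nat_lit 83110108283) (nat_lit 228) (nat_lit 4352805440) (nat_lit 36) (nat_lit 5) (nat_lit 38) (nat_lit 5) (nat_lit 39) (nat_lit 5) (nat_lit 310) (nat_lit 286) (nat_lit 184)) (XT.nd (nat_lit 78) (nat_lit 152) (nat_lit 0) (XT.lf (nat_lit 0) (nat_lit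 21970317500) (nat_lit 228) (nat_lit 20214353263) (nat_lit 76) (nat_lit 53833654742) (nat_lit 35) (nat_lit 5) (nat_lit 38) (nat_lit 5) (nat_lit 36) (nat_lit 5) (nat_lit 311) (nat_lit 286) (nat_lit 183)) (XT.lf (nat_lit 0) (nat_lit 51136860739) (nat_lit 228) (nat_lit 47321084721) (nat_lit 76) (nat_lit 2881455021) (nat_lit 33) (nat_lit 5) (nat_lit 36) (nat_lit 5) (nat_lit 34) (nat_lit 5) (nat_lit 312) (nat_lit 286) (nat_lit 182)))) (XT.nd (nat_lit 78) (nat_lit 228) (nat_lit 0) (XT.lf (nat_lit 0) (nat_lit 28018585549) (nat_lit 152) (nat_lit 56122321146) (nat_lit 228) (nat_lit 22870047948) (nat_lit 31) (nat_lit 5) (nat_lit 33) (nat_lit 5) (nat_lit 34) (nat_lit 5) (nat_lit 313) (nat_lit 286) (nat_lit 181)) (XT.nd (nat_lit 78) (nat_lit 152) (nat_lit 0) (XT.lf (nat_lit 0) (nat_lit 7271657902) (nat_lit 228) (nat_lit 2140990708) (nat_lit 76) (nat_lit 103676624634) (nat_lit 30) (nat_lit 5) (nat_lit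 33) (nat_lit 5) (nat_lit 31) (nat_lit 5) (nat_lit 314) (nat_lit 286) (nat_lit 180)) (XT.lf (nat_lit 0) (nat_lit 40998064582) (nat_lit 228) (nat_lit 37108089556) (nat_lit 76) (nat_lit 41430228038) (nat_lit 28) (nat_lit 5) (nat_lit 31) (nat_lit 5) (nat_lit 29) (nat_lit 5) (nat_lit 315) (nat_lit 286) (nat_lit 179))))))))
noncomputable def xc94 : XT := (XT.nd (nat_lit 1638) (nat_lit 304) (nat_lit 0) (XT.nd (nat_lit 780) (nat_lit 608) (nat_lit 0) (XT.nd (nat_lit 390) (nat_lit 304) (nat_lit 0) (XT.nd (nat_lit 156) (nat_lit 304) (nat_lit 0) (XT.nd (nat_lit 78) (nat_lit 76) (nat_lit 0) (XT.lf (nat_lit 0) (nat_lit 48739273508) (nat_lit 152) (nat_lit 29638763144) (nat_lit 228) (nat_lit 48073452154) (nat_lit 26) (nat_lit 5) (nat_lit 28) (nat_lit 5) (nat_lit 29) (nat_lit 5) (nat_lit 316) (nat_lit 286) (nat_lit 178)) (XT.lf (nat_lit 0) (nat_lit 8805316571) (nat_lit 76) (nat_lit 111090024725) (nat_lit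 152) (nat_lit 13967117436) (nat_lit 25) (nat_lit 5) (nat_lit 26) (nat_lit 5) (nat_lit 27) (nat_lit 4) (nat_lit 317) (nat_lit 286) (nat_lit 177))) (XT.nd (nat_lit 78) (nat_lit 228) (nat_lit 0) (XT.lf (nat_lit 0) (nat_lit 24009491272) (nat_lit 152) (nat_lit 37661659707) (nat_lit 76) (nat_lit 80083621278) (nat_lit 24) (nat_lit 5) (nat_lit 26) (nat_lit 5) (nat_lit 25) (nat_lit 5) (nat_lit 318) (nat_lit 286) (nat_lit 176)) (XT.nd (nat_lit 78) (nat_lit 76) (nat_lit 0) (XT.lf (nat_lit 0) (nat_lit 58354527384) (nat_lit 152) (nat_lit 7096152615) (nat_lit 228) (nat_lit 84770554085) (nat_lit 22) (nat_lit 5) (nat_lit 24) (nat_lit 5) (nat_lit 25) (nat_lit 5) (nat_lit 319) (nat_lit 286) (nat_lit 175)) (XT.lf (nat_lit 0) (nat_lit 3348597763) (nat_lit 76) (nat_lit 108385327447) (nat_lit 152) (nat_lit 47554750714) (nat_lit 21) (nat_lit 5) (nat_lit 22) (nat_lit 5) (nat_lit 23) (nat_lit 4) (nat_lit 320)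 (nat_lit 286) (nat_lit 174))))) (XT.nd (nat_lit 156) (nat_lit 76) (nat_lit 0) (XT.nd (nat_lit 78) (nat_lit 228) (nat_lit 0) (XT.lf (nat_lit 0) (nat_lit 109335115271) (nat_lit 76) (nat_lit 54101022747) (nat_lit 152) (nat_lit 5559560749) (nat_lit 21) (nat_lit 5) (nat_lit 22) (nat_lit 5) (nat_lit 23) (nat_lit 4) (nat_lit 321) (nat_lit 286) (nat_lit 173)) (XT.lf (nat_lit 0) (nat_lit 39317149014) (nat_lit 228) (nat_lit 134363428145) (nat_lit 76) (nat_lit 5727861396) (nat_lit 18) (nat_lit 5) (nat_lit 21) (nat_lit 5) (nat_lit 19) (nat_lit 4) (nat_lit 322) (nat_lit 286) (nat_lit 172))) (XT.nd (nat_lit 78) (nat_lit 76) (nat_lit 0) (XT.lf (nat_lit 0) (nat_lit 89558827807) (nat_lit 228) (nat_lit 31370451467) (nat_lit 76) (nat_lit 69621881487) (nat_lit 18) (nat_lit 5) (nat_lit 21) (nat_lit 5) (nat_lit 19) (nat_lit 4) (nat_lit 323) (nat_lit 286) (nat_lit 171)) (XT.nd (nat_lit 78) (nat_lit 0) (nat_lit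 0) (XT.lf (nat_lit 0) (nat_lit 82499972961) (nat_lit 76) (nat_lit 62606516649) (nat_lit 152) (nat_lit 57414479495) (nat_lit 17) (nat_lit 5) (nat_lit 18) (nat_lit 5) (nat_lit 19) (nat_lit 4) (nat_lit 324) (nat_lit 286) (nat_lit 170)) (XT.lf (nat_lit 0) (nat_lit 205657984028) (nat_lit 152) (nat_lit 8838149959) (nat_lit 0) (nat_lit 924227884) (nat_lit 17) (nat_lit 5) (nat_lit 19) (nat_lit 4) (nat_lit 17) (nat_lit 4) (nat_lit 325) (nat_lit 286) (nat_lit 169)))))) (XT.nd (nat_lit 390) (nat_lit 228) (nat_lit 0) (XT.nd (nat_lit 156) (nat_lit 152) (nat_lit 0) (XT.nd (nat_lit 78) (nat_lit 76) (nat_lit 0) (XT.lf (nat_lit 0) (nat_lit 43245112032) (nat_lit 152) (nat_lit 116083139978) (nat_lit 76) (nat_lit 69847003475) (nat_lit 15) (nat_lit 5) (nat_lit 17) (nat_lit 5) (nat_lit 16) (nat_lit 4) (nat_lit 326) (nat_lit 286) (nat_lit 168)) (XT.lf (nat_lit 0) (nat_lit 929988658) (nat_lit 76) (nat_lit 99395540008)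 (nat_lit 152) (nat_lit 143688292889) (nat_lit 14) (nat_lit 5) (nat_lit 15) (nat_lit 5) (nat_lit 16) (nat_lit 4) (nat_lit 327) (nat_lit 286) (nat_lit 167))) (XT.nd (nat_lit 78) (nat_lit 152) (nat_lit 0) (XT.lf (nat_lit 0) (nat_lit 131447346773) (nat_lit 76) (nat_lit 32545965194) (nat_lit 152) (nat_lit 95945114835) (nat_lit 14) (nat_lit 5) (nat_lit 15) (nat_lit 5) (nat_lit 16) (nat_lit 4) (nat_lit 328) (nat_lit 286) (nat_lit 166)) (XT.nd (nat_lit 78) (nat_lit 152) (nat_lit 0) (XT.lf (nat_lit 0) (nat_lit 233372502246) (nat_lit 152) (nat_lit 5351975438) (nat_lit 0) (nat_lit 38381624086) (nat_lit 14) (nat_lit 5) (nat_lit 16) (nat_lit 4) (nat_lit 14) (nat_lit 4) (nat_lit 329) (nat_lit 286) (nat_lit 165)) (XT.lf (nat_lit 0) (nat_lit 14889963473) (nat_lit 152) (nat_lit 164467757542) (nat_lit 76) (nat_lit 116147583287) (nat_lit 12) (nat_lit 5) (nat_lit 14) (nat_lit 5) (nat_lit 13) (nat_lit 4) (nat_lit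 330) (nat_lit 286) (nat_lit 164))))) (XT.nd (nat_lit 234) (nat_lit 152) (nat_lit 0) (XT.nd (nat_lit 78) (nat_lit 76) (nat_lit 0) (XT.lf (nat_lit 0) (nat_lit 76785463148) (nat_lit 152) (nat_lit 37583191083) (nat_lit 76) (nat_lit 200966228820) (nat_lit 12) (nat_lit 5) (nat_lit 14) (nat_lit 5) (nat_lit 13) (nat_lit 4) (nat_lit 331) (nat_lit 286) (nat_lit 163)) (XT.nd (nat_lit 78) (nat_lit 0) (nat_lit 0) (XT.lf (nat_lit 0) (nat_lit 102738755069) (nat_lit 76) (nat_lit 42496983471) (nat_lit 152) (nat_lit 191434933162) (nat_lit 11) (nat_lit 5) (nat_lit 12) (nat_lit 5) (nat_lit 13) (nat_lit 4) (nat_lit 332) (nat_lit 286) (nat_lit 162)) (XT.lf (nat_lit 0) (nat_lit 220374960412) (nat_lit 152) (nat_lit 104612799138) (nat_lit 0) (nat_lit 34664918035) (nat_lit 11) (nat_lit 5) (nat_lit 13) (nat_lit 4) (nat_lit 11) (nat_lit 4) (nat_lit 333) (nat_lit 286) (nat_lit 161)))) (XT.nd (nat_lit 78) (nat_lit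 76) (nat_lit 0) (XT.lf (nat_lit 0) (nat_lit 35468993852) (nat_lit 76) (nat_lit 267325864535) (nat_lit 76) (nat_lit 81614908968) (nat_lit 10) (nat_lit 4) (nat_lit 11) (nat_lit 5) (nat_lit 11) (nat_lit 4) (nat_lit 334) (nat_lit 286) (nat_lit 160)) (XT.nd (nat_lit 78) (nat_lit 76) (nat_lit 0) (XT.lf (nat_lit 0) (nat_lit 190491578616) (nat_lit 76) (nat_lit 203138285655) (nat_lit 76) (nat_lit 17426484542) (nat_lit 10) (nat_lit 4) (nat_lit 11) (nat_lit 5) (nat_lit 11) (nat_lit 4) (nat_lit 335) (nat_lit 286) (nat_lit 159)) (XT.lf (nat_lit 0) (nat_lit 50235259047) (nat_lit 152) (nat_lit 82730302978) (nat_lit 76) (nat_lit 306828618457) (nat_lit 9) (nat_lit 5) (nat_lit 11) (nat_lit 5) (nat_lit 10) (nat_lit 4) (nat_lit 336) (nat_lit 286) (nat_lit 158))))))) (XT.nd (nat_lit 36816) (nat_lit 0) (nat_lit 5092) (XT.nd (nat_lit 390) (nat_lit 152) (nat_lit 0) (XT.nd (nat_lit 156) (nat_lit 76) (nat_lit 0)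 (XT.nd (nat_lit 78) (nat_lit 0) (nat_lit 0) (XT.lf (nat_lit 0) (nat_lit 68012650940) (nat_lit 76) (nat_lit 55756109979) (nat_lit 152) (nat_lit 346994526119) (nat_lit 8) (nat_lit 5) (nat_lit 9) (nat_lit 5) (nat_lit 10) (nat_lit 4) (nat_lit 337) (nat_lit 286) (nat_lit 157)) (XT.lf (nat_lit 0) (nat_lit 205080409247) (nat_lit 152) (nat_lit 270824787846) (nat_lit 0) (nat_lit 28209951945) (nat_lit 8) (nat_lit 5) (nat_lit 10) (nat_lit 4) (nat_lit 8) (nat_lit 4) (nat_lit 338) (nat_lit 286) (nat_lit 156))) (XT.nd (nat_lit 78) (nat_lit 76) (nat_lit 0) (XT.lf (nat_lit 0) (nat_lit 293836537272) (nat_lit 152) (nat_lit 129286157486) (nat_lit 0) (nat_lit 116965488064) (nat_lit 8) (nat_lit 5) (nat_lit 10) (nat_lit 4) (nat_lit 8) (nat_lit 4) (nat_lit 339) (nat_lit 286) (nat_lit 155)) (XT.nd (nat_lit 78) (nat_lit 0) (nat_lit 0) (XT.lf (nat_lit 0) (nat_lit 24353991369) (nat_lit 76) (nat_lit 365718840790)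 (nat_lit 76) (nat_lit 188847243520) (nat_lit 7) (nat_lit 4) (nat_lit 8) (nat_lit 5) (nat_lit 8) (nat_lit 4) (nat_lit 340) (nat_lit 286) (nat_lit 154)) (XT.lf (nat_lit 0) (nat_lit 194901113072) (nat_lit 76) (nat_lit 301358467167) (nat_lit 76) (nat_lit 124486362433) (nat_lit 7) (nat_lit 4) (nat_lit 8) (nat_lit 5) (nat_lit 8) (nat_lit 4) (nat_lit 341) (nat_lit 286) (nat_lit 153))))) (XT.nd (nat_lit 234) (nat_lit 0) (nat_lit 0) (XT.nd (nat_lit 78) (nat_lit 152) (nat_lit 0) (XT.lf (nat_lit 0) (nat_lit 379091072990) (nat_lit 76) (nat_lit 231849702718) (nat_lit 76) (nat_lit 54977128110) (nat_lit 7) (nat_lit 4) (nat_lit 8) (nat_lit 5) (nat_lit 8) (nat_lit 4) (nat_lit 342) (nat_lit 286) (nat_lit 152)) (XT.nd (nat_lit 78) (nat_lit 76) (nat_lit 0) (XT.lf (nat_lit 0) (nat_lit 19449284830) (nat_lit 152) (nat_lit 137001975774) (nat_lit 76) (nat_lit 558236699304) (nat_lit 6) (nat_lit 5) (nat_lit 8) (nat_lit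 5) (nat_lit 7) (nat_lit 4) (nat_lit 343) (nat_lit 286) (nat_lit 151)) (XT.lf (nat_lit 0) (nat_lit 24670654944) (nat_lit 76) (nat_lit 73643524305) (nat_lit 152) (nat_lit 668979853196) (nat_lit 5) (nat_lit 5) (nat_lit 6) (nat_lit 5) (nat_lit 7) (nat_lit 4) (nat_lit 344) (nat_lit 286) (nat_lit 150)))) (XT.nd (nat_lit 78) (nat_lit 0) (nat_lit 0) (XT.lf (nat_lit 0) (nat_lit 186159966518) (nat_lit 152) (nat_lit 620106297119) (nat_lit 0) (nat_lit 17708742213) (nat_lit 5) (nat_lit 5) (nat_lit 7) (nat_lit 4) (nat_lit 5) (nat_lit 4) (nat_lit 345) (nat_lit 286) (nat_lit 149)) (XT.nd (nat_lit 36036) (nat_lit 0) (nat_lit 6764) (XT.lf (nat_lit 0) (nat_lit 282274796523) (nat_lit 152) (nat_lit 489030348445) (nat_lit 0) (nat_lit 113823243293) (nat_lit 5) (nat_lit 5) (nat_lit 7) (nat_lit 4) (nat_lit 5) (nat_lit 4) (nat_lit 346) (nat_lit 286) (nat_lit 148)) (XT.lf (nat_lit 0) (nat_lit 7216001973) (nat_lit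 0) (nat_lit 7216001973) (nat_lit 684) (nat_lit 1903160110) (nat_lit 94) (nat_lit 5) (nat_lit 94) (nat_lit 3) (nat_lit 103) (nat_lit 3) (nat_lit 287) (nat_lit 287) (nat_lit 206)))))) (XT.nd (nat_lit 390) (nat_lit 1064) (nat_lit 0) (XT.nd (nat_lit 156) (nat_lit 608) (nat_lit 0) (XT.nd (nat_lit 78) (nat_lit 0) (nat_lit 0) (XT.lf (nat_lit 76) (nat_lit 5760311289) (nat_lit 0) (nat_lit 24588592822) (nat_lit 760) (nat_lit 3611559225) (nat_lit 95) (nat_lit 5) (nat_lit 94) (nat_lit 5) (nat_lit 104) (nat_lit 5) (nat_lit 288) (nat_lit 287) (nat_lit 205)) (XT.lf (nat_lit 76) (nat_lit 32073480728) (nat_lit 0) (nat_lit 427151400) (nat_lit 760) (nat_lit 2825791362) (nat_lit 95) (nat_lit 5) (nat_lit 94) (nat_lit 5) (nat_lit 104) (nat_lit 5) (nat_lit 289) (nat_lit 287) (nat_lit 204))) (XT.nd (nat_lit 78) (nat_lit 684) (nat_lit 0) (XT.lf (nat_lit 76) (nat_lit 24053831274) (nat_lit 0) (nat_lit 11538595591)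 (nat_lit 760) (nat_lit 1170852094) (nat_lit 96) (nat_lit 5) (nat_lit 95) (nat_lit 5) (nat_lit 105) (nat_lit 5) (nat_lit 290) (nat_lit 287) (nat_lit 203)) (XT.nd (nat_lit 78) (nat_lit 0) (nat_lit 76) (XT.lf (nat_lit 0) (nat_lit 1133908532) (nat_lit 760) (nat_lit 22699886978) (nat_lit 836) (nat_lit 14453961388) (nat_lit 86) (nat_lit 5) (nat_lit 96) (nat_lit 5) (nat_lit 97) (nat_lit 5) (nat_lit 291) (nat_lit 287) (nat_lit 202)) (XT.lf (nat_lit 0) (nat_lit 4139014301) (nat_lit 760) (nat_lit 33277881551) (nat_lit 836) (nat_lit 2488500431) (nat_lit 87) (nat_lit 5) (nat_lit 97) (nat_lit 5) (nat_lit 98) (nat_lit 5) (nat_lit 292) (nat_lit 287) (nat_lit 201))))) (XT.nd (nat_lit 234) (nat_lit 684) (nat_lit 0) (XT.nd (nat_lit 78) (nat_lit 456) (nat_lit 0) (XT.lf (nat_lit 0) (nat_lit 8181386688) (nat_lit 760) (nat_lit 2935044604) (nat_lit 836) (nat_lit 30496183901) (nat_lit 87) (nat_lit 5) (nat_lit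 97) (nat_lit 5) (nat_lit 98) (nat_lit 5) (nat_lit 293) (nat_lit 287) (nat_lit 200)) (XT.nd (nat_lit 78) (nat_lit 532) (nat_lit 0) (XT.lf (nat_lit 0) (nat_lit 13299686627) (nat_lit 760) (nat_lit 12894270497) (nat_lit 76) (nat_lit 17224838052) (nat_lit 88) (nat_lit 5) (nat_lit 98) (nat_lit 5) (nat_lit 89) (nat_lit 5) (nat_lit 294) (nat_lit 287) (nat_lit 199)) (XT.lf (nat_lit 0) (nat_lit 19441960830) (nat_lit 608) (nat_lit 23473572703) (nat_lit 76) (nat_lit 2423220184) (nat_lit 81) (nat_lit 5) (nat_lit 89) (nat_lit 5) (nat_lit 82) (nat_lit 5) (nat_lit 295) (nat_lit 287) (nat_lit 198)))) (XT.nd (nat_lit 78) (nat_lit 304) (nat_lit 0) (XT.lf (nat_lit 0) (nat_lit 12411181000) (nat_lit 380) (nat_lit 14522551166) (nat_lit 456) (nat_lit 20435679972) (nat_lit 76) (nat_lit 5) (nat_lit 81) (nat_lit 5) (nat_lit 82) (nat_lit 5) (nat_lit 296) (nat_lit 287) (nat_lit 197)) (XT.nd (nat_lit 78) (nat_lit 0)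 (nat_lit 0) (XT.lf (nat_lit 0) (nat_lit 2271352973) (nat_lit 304) (nat_lit 33451280445) (nat_lit 380) (nat_lit 13805008698) (nat_lit 72) (nat_lit 5) (nat_lit 76) (nat_lit 5) (nat_lit 77) (nat_lit 5) (nat_lit 297) (nat_lit 287) (nat_lit 196)) (XT.lf (nat_lit 0) (nat_lit 43469424472) (nat_lit 304) (nat_lit 2590117714) (nat_lit 380) (nat_lit 5756751216) (nat_lit 72) (nat_lit 5) (nat_lit 76) (nat_lit 5) (nat_lit 77) (nat_lit 5) (nat_lit 298) (nat_lit 287) (nat_lit 195))))))))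
noncomputable def xc95 : XT := (XT.nd (nat_lit 1716) (nat_lit 1140) (nat_lit 0) (XT.nd (nat_lit 858) (nat_lit 1368) (nat_lit 0) (XT.nd (nat_lit 390) (nat_lit 1216) (nat_lit 0) (XT.nd (nat_lit 156) (nat_lit 532) (nat_lit 0) (XT.nd (nat_lit 78) (nat_lit 304) (nat_lit 0) (XT.lf (nat_lit 0) (nat_lit 3868624963) (nat_lit 380) (nat_lit 20012217897) (nat_lit 76) (nat_lit 30353548828) (nat_lit 67) (nat_lit 5) (nat_lit 72) (nat_lit 5) (nat_lit 68) (nat_lit 5) (nat_lit 299) (nat_lit 287) (nat_lit 194)) (XT.lf (nat_lit 0) (nat_lit 14781953000) (nat_lit 380) (nat_lit 32678247754) (nat_lit 76) (nat_lit 9345044192) (nat_lit 63) (nat_lit 5) (nat_lit 68) (nat_lit 5) (nat_lit 64) (nat_lit 5) (nat_lit 300) (nat_lit 287) (nat_lit 193))) (XT.nd (nat_lit 78) (nat_lit 228) (nat_lit 0) (XT.lf (nat_lit 0) (nat_lit 12948677019) (nat_lit 304) (nat_lit 14574639393) (nat_lit 380) (nat_lit 32010707399) (nat_lit 59)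 (nat_lit 5) (nat_lit 63) (nat_lit 5) (nat_lit 64) (nat_lit 5) (nat_lit 301) (nat_lit 287) (nat_lit 192)) (XT.nd (nat_lit 78) (nat_lit 0) (nat_lit 0) (XT.lf (nat_lit 0) (nat_lit 618561933) (nat_lit 228) (nat_lit 41576646409) (nat_lit 304) (nat_lit 20240341048) (nat_lit 56) (nat_lit 5) (nat_lit 59) (nat_lit 5) (nat_lit 60) (nat_lit 5) (nat_lit 302) (nat_lit 287) (nat_lit 191)) (XT.lf (nat_lit 0) (nat_lit 53003680257) (nat_lit 228) (nat_lit 6086705014) (nat_lit 304) (nat_lit 6426340040) (nat_lit 56) (nat_lit 5) (nat_lit 59) (nat_lit 5) (nat_lit 60) (nat_lit 5) (nat_lit 303) (nat_lit 287) (nat_lit 190))))) (XT.nd (nat_lit 234) (nat_lit 456) (nat_lit 0) (XT.nd (nat_lit 78) (nat_lit 456) (nat_lit 0) (XT.lf (nat_lit 0) (nat_lit 9388525720) (nat_lit 304) (nat_lit 27381058379) (nat_lit 76) (nat_lit 32009807455) (nat_lit 52) (nat_lit 5) (nat_lit 56) (nat_lit 5) (nat_lit 53) (nat_lit 5) (nat_lit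 304) (nat_lit 287) (nat_lit 189)) (XT.nd (nat_lit 78) (nat_lit 228) (nat_lit 0) (XT.lf (nat_lit 0) (nat_lit 27034513899) (nat_lit 304) (nat_lit 43812726307) (nat_lit 76) (nat_lit 1411013421) (nat_lit 49) (nat_lit 5) (nat_lit 53) (nat_lit 5) (nat_lit 50) (nat_lit 5) (nat_lit 305) (nat_lit 287) (nat_lit 188)) (XT.lf (nat_lit 0) (nat_lit 13525051941) (nat_lit 228) (nat_lit 33879887925) (nat_lit 304) (nat_lit 28544850627) (nat_lit 46) (nat_lit 5) (nat_lit 49) (nat_lit 5) (nat_lit 50) (nat_lit 5) (nat_lit 306) (nat_lit 287) (nat_lit 187)))) (XT.nd (nat_lit 78) (nat_lit 456) (nat_lit 0) (XT.lf (nat_lit 0) (nat_lit 70272041173) (nat_lit 304) (nat_lit 2995375164) (nat_lit 76) (nat_lit 6625885394) (nat_lit 46) (nat_lit 5) (nat_lit 50) (nat_lit 5) (nat_lit 47) (nat_lit 5) (nat_lit 307) (nat_lit 287) (nat_lit 186)) (XT.nd (nat_lit 78) (nat_lit 228) (nat_lit 0) (XT.lf (nat_lit 0) (nat_lit 12041467099)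 (nat_lit 228) (nat_lit 21652071393) (nat_lit 76) (nat_lit 50371743032) (nat_lit 43) (nat_lit 5) (nat_lit 46) (nat_lit 5) (nat_lit 44) (nat_lit 5) (nat_lit 308) (nat_lit 287) (nat_lit 185)) (XT.lf (nat_lit 0) (nat_lit 36028000652) (nat_lit 304) (nat_lit 42786167178) (nat_lit 76) (nat_lit 9702574946) (nat_lit 40) (nat_lit 5) (nat_lit 44) (nat_lit 5) (nat_lit 41) (nat_lit 5) (nat_lit 309) (nat_lit 287) (nat_lit 184)))))) (XT.nd (nat_lit 390) (nat_lit 684) (nat_lit 0) (XT.nd (nat_lit 156) (nat_lit 380) (nat_lit 0) (XT.nd (nat_lit 78) (nat_lit 152) (nat_lit 0) (XT.lf (nat_lit 0) (nat_lit 26232943899) (nat_lit 152) (nat_lit 37058977024) (nat_lit 228) (nat_lit 29964479439) (nat_lit 38) (nat_lit 5) (nat_lit 40) (nat_lit 5) (nat_lit 41) (nat_lit 5) (nat_lit 310) (nat_lit 287) (nat_lit 183)) (XT.lf (nat_lit 0) (nat_lit 3948326060) (nat_lit 152) (nat_lit 89730797670) (nat_lit 228) (nat_lit 4649000817)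 (nat_lit 36) (nat_lit 5) (nat_lit 38) (nat_lit 5) (nat_lit 39) (nat_lit 5) (nat_lit 311) (nat_lit 287) (nat_lit 182))) (XT.nd (nat_lit 78) (nat_lit 304) (nat_lit 0) (XT.lf (nat_lit 0) (nat_lit 23774576052) (nat_lit 228) (nat_lit 21758042252) (nat_lit 76) (nat_lit 58164799621) (nat_lit 35) (nat_lit 5) (nat_lit 38) (nat_lit 5) (nat_lit 36) (nat_lit 5) (nat_lit 312) (nat_lit 287) (nat_lit 181)) (XT.nd (nat_lit 78) (nat_lit 152) (nat_lit 0) (XT.lf (nat_lit 0) (nat_lit 55272491295) (nat_lit 228) (nat_lit 51034657816) (nat_lit 76) (nat_lit 3137130468) (nat_lit 33) (nat_lit 5) (nat_lit 36) (nat_lit 5) (nat_lit 34) (nat_lit 5) (nat_lit 313) (nat_lit 287) (nat_lit 180)) (XT.lf (nat_lit 0) (nat_lit 30329052103) (nat_lit 152) (nat_lit 60585576036) (nat_lit 228) (nat_lit 24655044453) (nat_lit 31) (nat_lit 5) (nat_lit 33) (nat_lit 5) (nat_lit 34) (nat_lit 5) (nat_lit 314) (nat_lit 287) (nat_lit 179)))))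 (XT.nd (nat_lit 234) (nat_lit 304) (nat_lit 0) (XT.nd (nat_lit 78) (nat_lit 304) (nat_lit 0) (XT.lf (nat_lit 0) (nat_lit 7893371662) (nat_lit 228) (nat_lit 2247046181) (nat_lit 76) (nat_lit 111993966478) (nat_lit 30) (nat_lit 5) (nat_lit 33) (nat_lit 5) (nat_lit 31) (nat_lit 5) (nat_lit 315) (nat_lit 287) (nat_lit 178)) (XT.nd (nat_lit 78) (nat_lit 152) (nat_lit 0) (XT.lf (nat_lit 0) (nat_lit 44316284266) (nat_lit 228) (nat_lit 40012799309) (nat_lit 76) (nat_lit 44768261074) (nat_lit 28) (nat_lit 5) (nat_lit 31) (nat_lit 5) (nat_lit 29) (nat_lit 5) (nat_lit 316) (nat_lit 287) (nat_lit 177)) (XT.lf (nat_lit 0) (nat_lit 52699574158) (nat_lit 152) (nat_lit 31985192246) (nat_lit 228) (nat_lit 51880989965) (nat_lit 26) (nat_lit 5) (nat_lit 28) (nat_lit 5) (nat_lit 29) (nat_lit 5) (nat_lit 317) (nat_lit 287) (nat_lit 176)))) (XT.nd (nat_lit 78) (nat_lit 228) (nat_lit 0) (XT.lf (nat_lit 0) (nat_lit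 9569645398) (nat_lit 76) (nat_lit 119952399222) (nat_lit 152) (nat_lit 15047631825) (nat_lit 25) (nat_lit 5) (nat_lit 26) (nat_lit 5) (nat_lit 27) (nat_lit 4) (nat_lit 318) (nat_lit 287) (nat_lit 175)) (XT.nd (nat_lit 78) (nat_lit 152) (nat_lit 0) (XT.lf (nat_lit 0) (nat_lit 25963283366) (nat_lit 152) (nat_lit 40618011857) (nat_lit 76) (nat_lit 86512184967) (nat_lit 24) (nat_lit 5) (nat_lit 26) (nat_lit 5) (nat_lit 25) (nat_lit 5) (nat_lit 319) (nat_lit 287) (nat_lit 174)) (XT.lf (nat_lit 0) (nat_lit 63077011277) (nat_lit 152) (nat_lit 7641154031) (nat_lit 228) (nat_lit 91519175392) (nat_lit 22) (nat_lit 5) (nat_lit 24) (nat_lit 5) (nat_lit 25) (nat_lit 5) (nat_lit 320) (nat_lit 287) (nat_lit 173))))))) (XT.nd (nat_lit 858) (nat_lit 380) (nat_lit 0) (XT.nd (nat_lit 390) (nat_lit 380) (nat_lit 0) (XT.nd (nat_lit 156) (nat_lit 304) (nat_lit 0) (XT.nd (nat_lit 78) (nat_lit 0) (nat_lit 0)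 (XT.lf (nat_lit 0) (nat_lit 3669439270) (nat_lit 76) (nat_lit 117033457431) (nat_lit 152) (nat_lit 51327341382) (nat_lit 21) (nat_lit 5) (nat_lit 22) (nat_lit 5) (nat_lit 23) (nat_lit 4) (nat_lit 321) (nat_lit 287) (nat_lit 172)) (XT.lf (nat_lit 0) (nat_lit 118130955684) (nat_lit 76) (nat_lit 58408089556) (nat_lit 152) (nat_lit 5974890989) (nat_lit 21) (nat_lit 5) (nat_lit 22) (nat_lit 5) (nat_lit 23) (nat_lit 4) (nat_lit 322) (nat_lit 287) (nat_lit 171))) (XT.nd (nat_lit 78) (nat_lit 76) (nat_lit 0) (XT.lf (nat_lit 0) (nat_lit 42489972485) (nat_lit 228) (nat_lit 145063635871) (nat_lit 76) (nat_lit 6206117159) (nat_lit 18) (nat_lit 5) (nat_lit 21) (nat_lit 5) (nat_lit 19) (nat_lit 4) (nat_lit 323) (nat_lit 287) (nat_lit 170)) (XT.nd (nat_lit 78) (nat_lit 76) (nat_lit 0) (XT.lf (nat_lit 0) (nat_lit 96748952134) (nat_lit 228) (nat_lit 33834840801) (nat_lit 76) (nat_lit 75210175386) (nat_lit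 18) (nat_lit 5) (nat_lit 21) (nat_lit 5) (nat_lit 19) (nat_lit 4) (nat_lit 324) (nat_lit 287) (nat_lit 169)) (XT.lf (nat_lit 0) (nat_lit 89143251211) (nat_lit 76) (nat_lit 67595968576) (nat_lit 152) (nat_lit 61982202967) (nat_lit 17) (nat_lit 5) (nat_lit 18) (nat_lit 5) (nat_lit 19) (nat_lit 4) (nat_lit 325) (nat_lit 287) (nat_lit 168))))) (XT.nd (nat_lit 234) (nat_lit 152) (nat_lit 0) (XT.nd (nat_lit 78) (nat_lit 228) (nat_lit 0) (XT.lf (nat_lit 0) (nat_lit 222133316023) (nat_lit 152) (nat_lit 9504269950) (nat_lit 0) (nat_lit 1015257842) (nat_lit 17) (nat_lit 5) (nat_lit 19) (nat_lit 4) (nat_lit 17) (nat_lit 4) (nat_lit 326) (nat_lit 287) (nat_lit 167)) (XT.nd (nat_lit 78) (nat_lit 76) (nat_lit 0) (XT.lf (nat_lit 0) (nat_lit 46726710122) (nat_lit 152) (nat_lit 125329900082) (nat_lit 76) (nat_lit 75451555380) (nat_lit 15) (nat_lit 5) (nat_lit 17) (nat_lit 5) (nat_lit 16) (nat_lit 4) (nat_lit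 327) (nat_lit 287) (nat_lit 166)) (XT.lf (nat_lit 0) (nat_lit 1042545226) (nat_lit 76) (nat_lit 107329981781) (nat_lit 152) (nat_lit 155161342393) (nat_lit 14) (nat_lit 5) (nat_lit 15) (nat_lit 5) (nat_lit 16) (nat_lit 4) (nat_lit 328) (nat_lit 287) (nat_lit 165)))) (XT.nd (nat_lit 78) (nat_lit 152) (nat_lit 0) (XT.lf (nat_lit 0) (nat_lit 141998465510) (nat_lit 76) (nat_lit 35133715162) (nat_lit 152) (nat_lit 103600340756) (nat_lit 14) (nat_lit 5) (nat_lit 15) (nat_lit 5) (nat_lit 16) (nat_lit 4) (nat_lit 329) (nat_lit 287) (nat_lit 164)) (XT.nd (nat_lit 78) (nat_lit 152) (nat_lit 0) (XT.lf (nat_lit 0) (nat_lit 252060499108) (nat_lit 152) (nat_lit 5746742876) (nat_lit 0) (nat_lit 41466429454) (nat_lit 14) (nat_lit 5) (nat_lit 16) (nat_lit 4) (nat_lit 14) (nat_lit 4) (nat_lit 330) (nat_lit 287) (nat_lit 163)) (XT.lf (nat_lit 0) (nat_lit 16098800124) (nat_lit 152) (nat_lit 177592647801)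 (nat_lit 76) (nat_lit 125453391125) (nat_lit 12) (nat_lit 5) (nat_lit 14) (nat_lit 5) (nat_lit 13) (nat_lit 4) (nat_lit 331) (nat_lit 287) (nat_lit 162)))))) (XT.nd (nat_lit 390) (nat_lit 228) (nat_lit 0) (XT.nd (nat_lit 156) (nat_lit 76) (nat_lit 0) (XT.nd (nat_lit 78) (nat_lit 76) (nat_lit 0) (XT.lf (nat_lit 0) (nat_lit 82944633137) (nat_lit 152) (nat_lit 40559725680) (nat_lit 76) (nat_lit 217056491176) (nat_lit 12) (nat_lit 5) (nat_lit 14) (nat_lit 5) (nat_lit 13) (nat_lit 4) (nat_lit 332) (nat_lit 287) (nat_lit 161)) (XT.lf (nat_lit 0) (nat_lit 110986667156) (nat_lit 76) (nat_lit 45883503389) (nat_lit 152) (nat_lit 206733369715) (nat_lit 11) (nat_lit 5) (nat_lit 12) (nat_lit 5) (nat_lit 13) (nat_lit 4) (nat_lit 333) (nat_lit 287) (nat_lit 160))) (XT.nd (nat_lit 78) (nat_lit 76) (nat_lit 0) (XT.lf (nat_lit 0) (nat_lit 238019568000) (nat_lit 152) (nat_lit 112954609953) (nat_lit 0) (nat_lit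 37449977252) (nat_lit 11) (nat_lit 5) (nat_lit 13) (nat_lit 4) (nat_lit 11) (nat_lit 4) (nat_lit 334) (nat_lit 287) (nat_lit 159)) (XT.nd (nat_lit 78) (nat_lit 0) (nat_lit 0) (XT.lf (nat_lit 0) (nat_lit 38332543827) (nat_lit 76) (nat_lit 288699838117) (nat_lit 76) (nat_lit 88129464455) (nat_lit 10) (nat_lit 4) (nat_lit 11) (nat_lit 5) (nat_lit 11) (nat_lit 4) (nat_lit 335) (nat_lit 287) (nat_lit 158)) (XT.lf (nat_lit 0) (nat_lit 205755007190) (nat_lit 76) (nat_lit 219378148895) (nat_lit 76) (nat_lit 18807050315) (nat_lit 10) (nat_lit 4) (nat_lit 11) (nat_lit 5) (nat_lit 11) (nat_lit 4) (nat_lit 336) (nat_lit 287) (nat_lit 157))))) (XT.nd (nat_lit 234) (nat_lit 76) (nat_lit 0) (XT.nd (nat_lit 78) (nat_lit 76) (nat_lit 0) (XT.lf (nat_lit 0) (nat_lit 54266227188) (nat_lit 152) (nat_lit 89326004066) (nat_lit 76) (nat_lit 331384871724) (nat_lit 9) (nat_lit 5) (nat_lit 11) (nat_lit 5) (nat_lit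 10) (nat_lit 4) (nat_lit 337) (nat_lit 287) (nat_lit 156)) (XT.nd (nat_lit 78) (nat_lit 0) (nat_lit 0) (XT.lf (nat_lit 0) (nat_lit 73475398645) (nat_lit 76) (nat_lit 60206450110) (nat_lit 152) (nat_lit 374741917664) (nat_lit 8) (nat_lit 5) (nat_lit 9) (nat_lit 5) (nat_lit 10) (nat_lit 4) (nat_lit 338) (nat_lit 287) (nat_lit 155)) (XT.lf (nat_lit 0) (nat_lit 221497717368) (nat_lit 152) (nat_lit 292470251649) (nat_lit 0) (nat_lit 30475844255) (nat_lit 8) (nat_lit 5) (nat_lit 10) (nat_lit 4) (nat_lit 8) (nat_lit 4) (nat_lit 339) (nat_lit 287) (nat_lit 154)))) (XT.nd (nat_lit 78) (nat_lit 76) (nat_lit 0) (XT.lf (nat_lit 0) (nat_lit 317353530051) (nat_lit 152) (nat_lit 139610050803) (nat_lit 0) (nat_lit 126331149474) (nat_lit 8) (nat_lit 5) (nat_lit 10) (nat_lit 4) (nat_lit 8) (nat_lit 4) (nat_lit 340) (nat_lit 287) (nat_lit 153)) (XT.nd (nat_lit 78) (nat_lit 0) (nat_lit 0) (XT.lf (nat_lit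 0) (nat_lit 26320484276) (nat_lit 76) (nat_lit 394967782084) (nat_lit 76) (nat_lit 203944931632) (nat_lit 7) (nat_lit 4) (nat_lit 8) (nat_lit 5) (nat_lit 8) (nat_lit 4) (nat_lit 341) (nat_lit 287) (nat_lit 152)) (XT.lf (nat_lit 0) (nat_lit 210510029522) (nat_lit 76) (nat_lit 325459213087) (nat_lit 76) (nat_lit 134435927567) (nat_lit 7) (nat_lit 4) (nat_lit 8) (nat_lit 5) (nat_lit 8) (nat_lit 4) (nat_lit 342) (nat_lit 287) (nat_lit 151))))))))
noncomputable def xc96 : XT := (XT.nd (nat_lit 37674) (nat_lit 0) (nat_lit 912) (XT.nd (nat_lit 36816) (nat_lit 0) (nat_lit 3876) (XT.nd (nat_lit 36426) (nat_lit 0) (nat_lit 6156) (XT.nd (nat_lit 156) (nat_lit 76) (nat_lit 0) (XT.nd (nat_lit 78) (nat_lit 76) (nat_lit 0) (XT.lf (nat_lit 0) (nat_lit 409433939760) (nat_lit 76) (nat_lit 250390334997) (nat_lit 76) (nat_lit 59366646636) (nat_lit 7) (nat_lit 4) (nat_lit 8) (nat_lit 5) (nat_lit 8) (nat_lit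 4) (nat_lit 343) (nat_lit 287) (nat_lit 150)) (XT.lf (nat_lit 0) (nat_lit 21012982073) (nat_lit 152) (nat_lit 147947448111) (nat_lit 76) (nat_lit 602902176253) (nat_lit 6) (nat_lit 5) (nat_lit 8) (nat_lit 5) (nat_lit 7) (nat_lit 4) (nat_lit 344) (nat_lit 287) (nat_lit 149))) (XT.nd (nat_lit 78) (nat_lit 0) (nat_lit 0) (XT.lf (nat_lit 0) (nat_lit 26658354842) (nat_lit 76) (nat_lit 79528358122) (nat_lit 152) (nat_lit 722490469756) (nat_lit 5) (nat_lit 5) (nat_lit 6) (nat_lit 5) (nat_lit 7) (nat_lit 4) (nat_lit 345) (nat_lit 287) (nat_lit 148)) (XT.nd (nat_lit 36114) (nat_lit 0) (nat_lit 6764) (XT.lf (nat_lit 0) (nat_lit 201059711219) (nat_lit 152) (nat_lit 669701545308) (nat_lit 0) (nat_lit 19131400244) (nat_lit 5) (nat_lit 5) (nat_lit 7) (nat_lit 4) (nat_lit 5) (nat_lit 4) (nat_lit 346) (nat_lit 287) (nat_lit 147)) (XT.lf (nat_lit 0) (nat_lit 7837537879) (nat_lit 0) (nat_lit 7837537879)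 (nat_lit 684) (nat_lit 1962318616) (nat_lit 94) (nat_lit 5) (nat_lit 94) (nat_lit 3) (nat_lit 103) (nat_lit 3) (nat_lit 288) (nat_lit 288) (nat_lit 204))))) (XT.nd (nat_lit 156) (nat_lit 608) (nat_lit 0) (XT.nd (nat_lit 78) (nat_lit 0) (nat_lit 0) (XT.lf (nat_lit 76) (nat_lit 6315890229) (nat_lit 0) (nat_lit 26625036217) (nat_lit 760) (nat_lit 3727877288) (nat_lit 95) (nat_lit 5) (nat_lit 94) (nat_lit 5) (nat_lit 104) (nat_lit 5) (nat_lit 289) (nat_lit 288) (nat_lit 203)) (XT.lf (nat_lit 76) (nat_lit 34727094406) (nat_lit 0) (nat_lit 525542002) (nat_lit 760) (nat_lit 2892033676) (nat_lit 95) (nat_lit 5) (nat_lit 94) (nat_lit 5) (nat_lit 104) (nat_lit 5) (nat_lit 290) (nat_lit 288) (nat_lit 202))) (XT.nd (nat_lit 78) (nat_lit 684) (nat_lit 0) (XT.lf (nat_lit 76) (nat_lit 26070544570) (nat_lit 0) (nat_lit 12510488690) (nat_lit 760) (nat_lit 1115997773) (nat_lit 96) (nat_lit 5) (nat_lit 95)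 (nat_lit 5) (nat_lit 105) (nat_lit 5) (nat_lit 291) (nat_lit 288) (nat_lit 201)) (XT.nd (nat_lit 78) (nat_lit 0) (nat_lit 76) (XT.lf (nat_lit 0) (nat_lit 1358548583) (nat_lit 760) (nat_lit 24415117229) (nat_lit 836) (nat_lit 15570195138) (nat_lit 86) (nat_lit 5) (nat_lit 96) (nat_lit 5) (nat_lit 97) (nat_lit 5) (nat_lit 292) (nat_lit 288) (nat_lit 200)) (XT.lf (nat_lit 0) (nat_lit 4595192258) (nat_lit 760) (nat_lit 35836796099) (nat_lit 836) (nat_lit 2659382961) (nat_lit 87) (nat_lit 5) (nat_lit 97) (nat_lit 5) (nat_lit 98) (nat_lit 5) (nat_lit 293) (nat_lit 288) (nat_lit 199)))))) (XT.nd (nat_lit 390) (nat_lit 1216) (nat_lit 0) (XT.nd (nat_lit 156) (nat_lit 1140) (nat_lit 0) (XT.nd (nat_lit 78) (nat_lit 0) (nat_lit 76) (XT.lf (nat_lit 0) (nat_lit 8951690969) (nat_lit 760) (nat_lit 3074185232) (nat_lit 836) (nat_lit 32909769812) (nat_lit 87) (nat_lit 5) (nat_lit 97) (nat_lit 5) (nat_lit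 98) (nat_lit 5) (nat_lit 294) (nat_lit 288) (nat_lit 198)) (XT.lf (nat_lit 0) (nat_lit 14472038686) (nat_lit 760) (nat_lit 13828432016) (nat_lit 76) (nat_lit 18586234483) (nat_lit 88) (nat_lit 5) (nat_lit 98) (nat_lit 5) (nat_lit 89) (nat_lit 5) (nat_lit 295) (nat_lit 288) (nat_lit 197))) (XT.nd (nat_lit 78) (nat_lit 684) (nat_lit 0) (XT.lf (nat_lit 0) (nat_lit 21098986057) (nat_lit 608) (nat_lit 25252923306) (nat_lit 76) (nat_lit 2608699429) (nat_lit 81) (nat_lit 5) (nat_lit 89) (nat_lit 5) (nat_lit 82) (nat_lit 5) (nat_lit 296) (nat_lit 288) (nat_lit 196)) (XT.nd (nat_lit 78) (nat_lit 304) (nat_lit 0) (XT.lf (nat_lit 0) (nat_lit 13498328472) (nat_lit 380) (nat_lit 15685711191) (nat_lit 456) (nat_lit 21969995181) (nat_lit 76) (nat_lit 5) (nat_lit 81) (nat_lit 5) (nat_lit 82) (nat_lit 5) (nat_lit 297) (nat_lit 288) (nat_lit 195)) (XT.lf (nat_lit 0) (nat_lit 2547954335) (nat_lit 304) (nat_lit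 36122478485) (nat_lit 380) (nat_lit 14814782509) (nat_lit 72) (nat_lit 5) (nat_lit 76) (nat_lit 5) (nat_lit 77) (nat_lit 5) (nat_lit 298) (nat_lit 288) (nat_lit 194))))) (XT.nd (nat_lit 234) (nat_lit 532) (nat_lit 0) (XT.nd (nat_lit 78) (nat_lit 684) (nat_lit 0) (XT.lf (nat_lit 0) (nat_lit 47034842434) (nat_lit 304) (nat_lit 2792786023) (nat_lit 380) (nat_lit 6129673827) (nat_lit 72) (nat_lit 5) (nat_lit 76) (nat_lit 5) (nat_lit 77) (nat_lit 5) (nat_lit 299) (nat_lit 288) (nat_lit 193)) (XT.nd (nat_lit 78) (nat_lit 304) (nat_lit 0) (XT.lf (nat_lit 0) (nat_lit 4258110215) (nat_lit 380) (nat_lit 21522351381) (nat_lit 76) (nat_lit 32788568396) (nat_lit 67) (nat_lit 5) (nat_lit 72) (nat_lit 5) (nat_lit 68) (nat_lit 5) (nat_lit 300) (nat_lit 288) (nat_lit 192)) (XT.lf (nat_lit 0) (nat_lit 16040114683) (nat_lit 380) (nat_lit 35201914471) (nat_lit 76) (nat_lit 10103750237) (nat_lit 63) (nat_lit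 5) (nat_lit 68) (nat_lit 5) (nat_lit 64) (nat_lit 5) (nat_lit 301) (nat_lit 288) (nat_lit 191)))) (XT.nd (nat_lit 78) (nat_lit 228) (nat_lit 0) (XT.lf (nat_lit 0) (nat_lit 14071227218) (nat_lit 304) (nat_lit 15725312490) (nat_lit 380) (nat_lit 34496541000) (nat_lit 59) (nat_lit 5) (nat_lit 63) (nat_lit 5) (nat_lit 64) (nat_lit 5) (nat_lit 302) (nat_lit 288) (nat_lit 190)) (XT.nd (nat_lit 78) (nat_lit 0) (nat_lit 0) (XT.lf (nat_lit 0) (nat_lit 754214225) (nat_lit 228) (nat_lit 44884249459) (nat_lit 304) (nat_lit 21788457809) (nat_lit 56) (nat_lit 5) (nat_lit 59) (nat_lit 5) (nat_lit 60) (nat_lit 5) (nat_lit 303) (nat_lit 288) (nat_lit 189)) (XT.lf (nat_lit 0) (nat_lit 57323759249) (nat_lit 228) (nat_lit 6556485246) (nat_lit 304) (nat_lit 6874604166) (nat_lit 56) (nat_lit 5) (nat_lit 59) (nat_lit 5) (nat_lit 60) (nat_lit 5) (nat_lit 304) (nat_lit 288) (nat_lit 188))))))) (XT.nd (nat_lit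 858) (nat_lit 1064) (nat_lit 0) (XT.nd (nat_lit 390) (nat_lit 912) (nat_lit 0) (XT.nd (nat_lit 156) (nat_lit 456) (nat_lit 0) (XT.nd (nat_lit 78) (nat_lit 228) (nat_lit 0) (XT.lf (nat_lit 0) (nat_lit 10200130173) (nat_lit 304) (nat_lit 29490332503) (nat_lit 76) (nat_lit 34588180665) (nat_lit 52) (nat_lit 5) (nat_lit 56) (nat_lit 5) (nat_lit 53) (nat_lit 5) (nat_lit 305) (nat_lit 288) (nat_lit 187)) (XT.lf (nat_lit 0) (nat_lit 29254846043) (nat_lit 304) (nat_lit 47237451552) (nat_lit 76) (nat_lit 1543669793) (nat_lit 49) (nat_lit 5) (nat_lit 53) (nat_lit 5) (nat_lit 50) (nat_lit 5) (nat_lit 306) (nat_lit 288) (nat_lit 186))) (XT.nd (nat_lit 78) (nat_lit 228) (nat_lit 0) (XT.lf (nat_lit 0) (nat_lit 14683859527) (nat_lit 228) (nat_lit 36567981157) (nat_lit 304) (nat_lit 30771144824) (nat_lit 46) (nat_lit 5) (nat_lit 49) (nat_lit 5) (nat_lit 50) (nat_lit 5) (nat_lit 307) (nat_lit 288) (nat_lit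 185)) (XT.nd (nat_lit 78) (nat_lit 228) (nat_lit 0) (XT.lf (nat_lit 0) (nat_lit 75944594985) (nat_lit 304) (nat_lit 3161631543) (nat_lit 76) (nat_lit 7175941534) (nat_lit 46) (nat_lit 5) (nat_lit 50) (nat_lit 5) (nat_lit 47) (nat_lit 5) (nat_lit 308) (nat_lit 288) (nat_lit 184)) (XT.lf (nat_lit 0) (nat_lit 13053749662) (nat_lit 228) (nat_lit 23312381795) (nat_lit 76) (nat_lit 54421872934) (nat_lit 43) (nat_lit 5) (nat_lit 46) (nat_lit 5) (nat_lit 44) (nat_lit 5) (nat_lit 309) (nat_lit 288) (nat_lit 183))))) (XT.nd (nat_lit 234) (nat_lit 380) (nat_lit 0) (XT.nd (nat_lit 78) (nat_lit 304) (nat_lit 0) (XT.lf (nat_lit 0) (nat_lit 38957000454) (nat_lit 304) (nat_lit 46138308335) (nat_lit 76) (nat_lit 10500387833) (nat_lit 40) (nat_lit 5) (nat_lit 44) (nat_lit 5) (nat_lit 41) (nat_lit 5) (nat_lit 310) (nat_lit 288) (nat_lit 182)) (XT.nd (nat_lit 78) (nat_lit 152) (nat_lit 0) (XT.lf (nat_lit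 0) (nat_lit 28399256822) (nat_lit 152) (nat_lit 40000370474) (nat_lit 228) (nat_lit 32315023397) (nat_lit 38) (nat_lit 5) (nat_lit 40) (nat_lit 5) (nat_lit 41) (nat_lit 5) (nat_lit 311) (nat_lit 288) (nat_lit 181)) (XT.lf (nat_lit 0) (nat_lit 4330743447) (nat_lit 152) (nat_lit 96885153737) (nat_lit 228) (nat_lit 4976314351) (nat_lit 36) (nat_lit 5) (nat_lit 38) (nat_lit 5) (nat_lit 39) (nat_lit 5) (nat_lit 312) (nat_lit 288) (nat_lit 180)))) (XT.nd (nat_lit 78) (nat_lit 304) (nat_lit 0) (XT.lf (nat_lit 0) (nat_lit 25716522547) (nat_lit 228) (nat_lit 23435706146) (nat_lit 76) (nat_lit 62838947668) (nat_lit 35) (nat_lit 5) (nat_lit 38) (nat_lit 5) (nat_lit 36) (nat_lit 5) (nat_lit 313) (nat_lit 288) (nat_lit 179)) (XT.nd (nat_lit 78) (nat_lit 152) (nat_lit 0) (XT.lf (nat_lit 0) (nat_lit 59732597952) (nat_lit 228) (nat_lit 55055604583) (nat_lit 76) (nat_lit 3409670731) (nat_lit 33) (nat_lit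 5) (nat_lit 36) (nat_lit 5) (nat_lit 34) (nat_lit 5) (nat_lit 314) (nat_lit 288) (nat_lit 178)) (XT.lf (nat_lit 0) (nat_lit 32814515254) (nat_lit 152) (nat_lit 65409676234) (nat_lit 228) (nat_lit 26589204412) (nat_lit 31) (nat_lit 5) (nat_lit 33) (nat_lit 5) (nat_lit 34) (nat_lit 5) (nat_lit 315) (nat_lit 288) (nat_lit 177)))))) (XT.nd (nat_lit 390) (nat_lit 532) (nat_lit 0) (XT.nd (nat_lit 156) (nat_lit 304) (nat_lit 0) (XT.nd (nat_lit 78) (nat_lit 152) (nat_lit 0) (XT.lf (nat_lit 0) (nat_lit 8559118767) (nat_lit 228) (nat_lit 2370890994) (nat_lit 76) (nat_lit 120973384237) (nat_lit 30) (nat_lit 5) (nat_lit 33) (nat_lit 5) (nat_lit 31) (nat_lit 5) (nat_lit 316) (nat_lit 288) (nat_lit 176)) (XT.lf (nat_lit 0) (nat_lit 47894486971) (nat_lit 228) (nat_lit 43159007228) (nat_lit 76) (nat_lit 48369967838) (nat_lit 28) (nat_lit 5) (nat_lit 31) (nat_lit 5) (nat_lit 29) (nat_lit 5) (nat_lit 317)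 (nat_lit 288) (nat_lit 175))) (XT.nd (nat_lit 78) (nat_lit 152) (nat_lit 0) (XT.lf (nat_lit 0) (nat_lit 56967973878) (nat_lit 152) (nat_lit 34522855406) (nat_lit 228) (nat_lit 55998600197) (nat_lit 26) (nat_lit 5) (nat_lit 28) (nat_lit 5) (nat_lit 29) (nat_lit 5) (nat_lit 318) (nat_lit 288) (nat_lit 174)) (XT.nd (nat_lit 78) (nat_lit 76) (nat_lit 0) (XT.lf (nat_lit 0) (nat_lit 10386574627) (nat_lit 76) (nat_lit 129527305595) (nat_lit 152) (nat_lit 16219845144) (nat_lit 25) (nat_lit 5) (nat_lit 26) (nat_lit 5) (nat_lit 27) (nat_lit 4) (nat_lit 319) (nat_lit 288) (nat_lit 173)) (XT.lf (nat_lit 0) (nat_lit 28068666330) (nat_lit 152) (nat_lit 43818944037) (nat_lit 76) (nat_lit 93451913182) (nat_lit 24) (nat_lit 5) (nat_lit 26) (nat_lit 5) (nat_lit 25) (nat_lit 5) (nat_lit 320) (nat_lit 288) (nat_lit 172))))) (XT.nd (nat_lit 234) (nat_lit 304) (nat_lit 0) (XT.nd (nat_lit 78) (nat_lit 76) (nat_lit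 0) (XT.lf (nat_lit 0) (nat_lit 68169572815) (nat_lit 152) (nat_lit 8232992657) (nat_lit 228) (nat_lit 98812397507) (nat_lit 22) (nat_lit 5) (nat_lit 24) (nat_lit 5) (nat_lit 25) (nat_lit 5) (nat_lit 321) (nat_lit 288) (nat_lit 171)) (XT.nd (nat_lit 78) (nat_lit 0) (nat_lit 0) (XT.lf (nat_lit 0) (nat_lit 4008393663) (nat_lit 76) (nat_lit 126376675682) (nat_lit 152) (nat_lit 55406274416) (nat_lit 21) (nat_lit 5) (nat_lit 22) (nat_lit 5) (nat_lit 23) (nat_lit 4) (nat_lit 322) (nat_lit 288) (nat_lit 170)) (XT.lf (nat_lit 0) (nat_lit 127623468482) (nat_lit 76) (nat_lit 63062719736) (nat_lit 152) (nat_lit 6427646826) (nat_lit 21) (nat_lit 5) (nat_lit 22) (nat_lit 5) (nat_lit 23) (nat_lit 4) (nat_lit 323) (nat_lit 288) (nat_lit 169)))) (XT.nd (nat_lit 78) (nat_lit 76) (nat_lit 0) (XT.lf (nat_lit 0) (nat_lit 45912705563) (nat_lit 228) (nat_lit 156626831571) (nat_lit 76) (nat_lit 6719776329) (nat_lit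 18) (nat_lit 5) (nat_lit 21) (nat_lit 5) (nat_lit 19) (nat_lit 4) (nat_lit 324) (nat_lit 288) (nat_lit 168)) (XT.nd (nat_lit 78) (nat_lit 76) (nat_lit 0) (XT.lf (nat_lit 0) (nat_lit 104510660230) (nat_lit 228) (nat_lit 36502836242) (nat_lit 76) (nat_lit 81242887378) (nat_lit 18) (nat_lit 5) (nat_lit 21) (nat_lit 5) (nat_lit 19) (nat_lit 4) (nat_lit 325) (nat_lit 288) (nat_lit 167)) (XT.lf (nat_lit 0) (nat_lit 96311817286) (nat_lit 76) (nat_lit 72987297121) (nat_lit 152) (nat_lit 66918972888) (nat_lit 17) (nat_lit 5) (nat_lit 18) (nat_lit 5) (nat_lit 19) (nat_lit 4) (nat_lit 326) (nat_lit 288) (nat_lit 166))))))))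
noncomputable def xc97 : XT := (XT.nd (nat_lit 37752) (nat_lit 0) (nat_lit 2660) (XT.nd (nat_lit 780) (nat_lit 380) (nat_lit 0) (XT.nd (nat_lit 390) (nat_lit 304) (nat_lit 0) (XT.nd (nat_lit 156) (nat_lit 76) (nat_lit 0) (XT.nd (nat_lit 78) (nat_lit 152) (nat_lit 0) (XT.lf (nat_lit 0) (nat_lit 239923437129) (nat_lit 152) (nat_lit 10229518949) (nat_lit 0) (nat_lit 1111131870) (nat_lit 17) (nat_lit 5) (nat_lit 19) (nat_lit 4) (nat_lit 17) (nat_lit 4) (nat_lit 327) (nat_lit 288) (nat_lit 165)) (XT.lf (nat_lit 0) (nat_lit 50483699064) (nat_lit 152) (nat_lit 135322091906) (nat_lit 76) (nat_lit 81502075924) (nat_lit 15) (nat_lit 5) (nat_lit 17) (nat_lit 5) (nat_lit 16) (nat_lit 4) (nat_lit 328) (nat_lit 288) (nat_lit 164))) (XT.nd (nat_lit 78) (nat_lit 0) (nat_lit 0) (XT.lf (nat_lit 0) (nat_lit 1158662729) (nat_lit 76) (nat_lit 115901632872) (nat_lit 152) (nat_lit 167555376390) (nat_lit 14)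 (nat_lit 5) (nat_lit 15) (nat_lit 5) (nat_lit 16) (nat_lit 4) (nat_lit 329) (nat_lit 288) (nat_lit 163)) (XT.nd (nat_lit 78) (nat_lit 0) (nat_lit 0) (XT.lf (nat_lit 0) (nat_lit 153388633385) (nat_lit 76) (nat_lit 37930757327) (nat_lit 152) (nat_lit 111870892651) (nat_lit 14) (nat_lit 5) (nat_lit 15) (nat_lit 5) (nat_lit 16) (nat_lit 4) (nat_lit 330) (nat_lit 288) (nat_lit 162)) (XT.lf (nat_lit 0) (nat_lit 272240939759) (nat_lit 152) (nat_lit 6177855251) (nat_lit 0) (nat_lit 44795982699) (nat_lit 14) (nat_lit 5) (nat_lit 16) (nat_lit 4) (nat_lit 14) (nat_lit 4) (nat_lit 331) (nat_lit 288) (nat_lit 161))))) (XT.nd (nat_lit 156) (nat_lit 152) (nat_lit 0) (XT.nd (nat_lit 78) (nat_lit 0) (nat_lit 0) (XT.lf (nat_lit 0) (nat_lit 17401827224) (nat_lit 152) (nat_lit 191772170097) (nat_lit 76) (nat_lit 135501666166) (nat_lit 12) (nat_lit 5) (nat_lit 14) (nat_lit 5) (nat_lit 13) (nat_lit 4) (nat_lit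 332) (nat_lit 288) (nat_lit 160)) (XT.lf (nat_lit 0) (nat_lit 89594206650) (nat_lit 152) (nat_lit 43778680098) (nat_lit 76) (nat_lit 234432125054) (nat_lit 12) (nat_lit 5) (nat_lit 14) (nat_lit 5) (nat_lit 13) (nat_lit 4) (nat_lit 333) (nat_lit 288) (nat_lit 159))) (XT.nd (nat_lit 78) (nat_lit 76) (nat_lit 0) (XT.lf (nat_lit 0) (nat_lit 119890301901) (nat_lit 76) (nat_lit 49542833557) (nat_lit 152) (nat_lit 223258014859) (nat_lit 11) (nat_lit 5) (nat_lit 12) (nat_lit 5) (nat_lit 13) (nat_lit 4) (nat_lit 334) (nat_lit 288) (nat_lit 158)) (XT.nd (nat_lit 78) (nat_lit 76) (nat_lit 0) (XT.lf (nat_lit 0) (nat_lit 257073659808) (nat_lit 152) (nat_lit 121967647889) (nat_lit 0) (nat_lit 40456148421) (nat_lit 11) (nat_lit 5) (nat_lit 13) (nat_lit 4) (nat_lit 11) (nat_lit 4) (nat_lit 335) (nat_lit 288) (nat_lit 157)) (XT.lf (nat_lit 0) (nat_lit 41421464263) (nat_lit 76) (nat_lit 311785455155) (nat_lit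 76) (nat_lit 95167272546) (nat_lit 10) (nat_lit 4) (nat_lit 11) (nat_lit 5) (nat_lit 11) (nat_lit 4) (nat_lit 336) (nat_lit 288) (nat_lit 156)))))) (XT.nd (nat_lit 390) (nat_lit 228) (nat_lit 0) (XT.nd (nat_lit 156) (nat_lit 76) (nat_lit 0) (XT.nd (nat_lit 78) (nat_lit 76) (nat_lit 0) (XT.lf (nat_lit 0) (nat_lit 222236071589) (nat_lit 76) (nat_lit 236918798945) (nat_lit 76) (nat_lit 20299994835) (nat_lit 10) (nat_lit 4) (nat_lit 11) (nat_lit 5) (nat_lit 11) (nat_lit 4) (nat_lit 337) (nat_lit 288) (nat_lit 155)) (XT.lf (nat_lit 0) (nat_lit 58617939815) (nat_lit 152) (nat_lit 96452602952) (nat_lit 76) (nat_lit 357904203806) (nat_lit 9) (nat_lit 5) (nat_lit 11) (nat_lit 5) (nat_lit 10) (nat_lit 4) (nat_lit 338) (nat_lit 288) (nat_lit 154))) (XT.nd (nat_lit 78) (nat_lit 0) (nat_lit 0) (XT.lf (nat_lit 0) (nat_lit 79372065336) (nat_lit 76) (nat_lit 65014265272) (nat_lit 152) (nat_lit 404710836798)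 (nat_lit 8) (nat_lit 5) (nat_lit 9) (nat_lit 5) (nat_lit 10) (nat_lit 4) (nat_lit 339) (nat_lit 288) (nat_lit 153)) (XT.nd (nat_lit 78) (nat_lit 0) (nat_lit 0) (XT.lf (nat_lit 0) (nat_lit 239226858643) (nat_lit 152) (nat_lit 315850279853) (nat_lit 0) (nat_lit 32921710282) (nat_lit 8) (nat_lit 5) (nat_lit 10) (nat_lit 4) (nat_lit 8) (nat_lit 4) (nat_lit 340) (nat_lit 288) (nat_lit 152)) (XT.lf (nat_lit 0) (nat_lit 342750445683) (nat_lit 152) (nat_lit 150762566045) (nat_lit 0) (nat_lit 136444862253) (nat_lit 8) (nat_lit 5) (nat_lit 10) (nat_lit 4) (nat_lit 8) (nat_lit 4) (nat_lit 341) (nat_lit 288) (nat_lit 151))))) (XT.nd (nat_lit 234) (nat_lit 152) (nat_lit 0) (XT.nd (nat_lit 78) (nat_lit 0) (nat_lit 0) (XT.lf (nat_lit 0) (nat_lit 28441703948) (nat_lit 76) (nat_lit 426557860712) (nat_lit 76) (nat_lit 220251874440) (nat_lit 7) (nat_lit 4) (nat_lit 8) (nat_lit 5) (nat_lit 8) (nat_lit 4)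 (nat_lit 342) (nat_lit 288) (nat_lit 150)) (XT.nd (nat_lit 78) (nat_lit 0) (nat_lit 0) (XT.lf (nat_lit 0) (nat_lit 227365258671) (nat_lit 76) (nat_lit 351489150191) (nat_lit 76) (nat_lit 145182790918) (nat_lit 7) (nat_lit 4) (nat_lit 8) (nat_lit 5) (nat_lit 8) (nat_lit 4) (nat_lit 343) (nat_lit 288) (nat_lit 149)) (XT.lf (nat_lit 0) (nat_lit 442202013076) (nat_lit 76) (nat_lit 270415265554) (nat_lit 76) (nat_lit 64108560909) (nat_lit 7) (nat_lit 4) (nat_lit 8) (nat_lit 5) (nat_lit 8) (nat_lit 4) (nat_lit 344) (nat_lit 288) (nat_lit 148)))) (XT.nd (nat_lit 78) (nat_lit 76) (nat_lit 0) (XT.lf (nat_lit 0) (nat_lit 22700668836) (nat_lit 152) (nat_lit 159770653317) (nat_lit 76) (nat_lit 651139958210) (nat_lit 6) (nat_lit 5) (nat_lit 8) (nat_lit 5) (nat_lit 7) (nat_lit 4) (nat_lit 345) (nat_lit 288) (nat_lit 147)) (XT.nd (nat_lit 36192) (nat_lit 0) (nat_lit 6764) (XT.lf (nat_lit 0) (nat_lit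 28803066697) (nat_lit 76) (nat_lit 85884927073) (nat_lit 152) (nat_lit 780283044361) (nat_lit 5) (nat_lit 5) (nat_lit 6) (nat_lit 5) (nat_lit 7) (nat_lit 4) (nat_lit 346) (nat_lit 288) (nat_lit 146)) (XT.lf (nat_lit 0) (nat_lit 8502483080) (nat_lit 0) (nat_lit 8502483080) (nat_lit 684) (nat_lit 2039490746) (nat_lit 94) (nat_lit 5) (nat_lit 94) (nat_lit 3) (nat_lit 103) (nat_lit 3) (nat_lit 289) (nat_lit 289) (nat_lit 202))))))) (XT.nd (nat_lit 858) (nat_lit 2432) (nat_lit 0) (XT.nd (nat_lit 390) (nat_lit 1064) (nat_lit 0) (XT.nd (nat_lit 156) (nat_lit 608) (nat_lit 0) (XT.nd (nat_lit 78) (nat_lit 0) (nat_lit 0) (XT.lf (nat_lit 76) (nat_lit 6902397761) (nat_lit 0) (nat_lit 28814500680) (nat_lit 760) (nat_lit 3878125068) (nat_lit 95) (nat_lit 5) (nat_lit 94) (nat_lit 5) (nat_lit 104) (nat_lit 5) (nat_lit 290) (nat_lit 289) (nat_lit 201)) (XT.lf (nat_lit 76) (nat_lit 37580480768) (nat_lit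 0) (nat_lit 622642367) (nat_lit 760) (nat_lit 2986375626) (nat_lit 95) (nat_lit 5) (nat_lit 94) (nat_lit 5) (nat_lit 104) (nat_lit 5) (nat_lit 291) (nat_lit 289) (nat_lit 200))) (XT.nd (nat_lit 78) (nat_lit 684) (nat_lit 0) (XT.lf (nat_lit 76) (nat_lit 28235412068) (nat_lit 0) (nat_lit 13553170593) (nat_lit 760) (nat_lit 1077943499) (nat_lit 96) (nat_lit 5) (nat_lit 95) (nat_lit 5) (nat_lit 105) (nat_lit 5) (nat_lit 292) (nat_lit 289) (nat_lit 199)) (XT.nd (nat_lit 78) (nat_lit 0) (nat_lit 76) (XT.lf (nat_lit 0) (nat_lit 1582053601) (nat_lit 760) (nat_lit 26281940541) (nat_lit 836) (nat_lit 16781445898) (nat_lit 86) (nat_lit 5) (nat_lit 96) (nat_lit 5) (nat_lit 97) (nat_lit 5) (nat_lit 293) (nat_lit 289) (nat_lit 198)) (XT.lf (nat_lit 0) (nat_lit 5070023699) (nat_lit 760) (nat_lit 38615162991) (nat_lit 836) (nat_lit 2847958782) (nat_lit 87) (nat_lit 5) (nat_lit 97) (nat_lit 5) (nat_lit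 98) (nat_lit 5) (nat_lit 294) (nat_lit 289) (nat_lit 197))))) (XT.nd (nat_lit 234) (nat_lit 684) (nat_lit 0) (XT.nd (nat_lit 78) (nat_lit 456) (nat_lit 0) (XT.lf (nat_lit 0) (nat_lit 9767100377) (nat_lit 760) (nat_lit 3238104498) (nat_lit 836) (nat_lit 35520167309) (nat_lit 87) (nat_lit 5) (nat_lit 97) (nat_lit 5) (nat_lit 98) (nat_lit 5) (nat_lit 295) (nat_lit 289) (nat_lit 196)) (XT.nd (nat_lit 78) (nat_lit 532) (nat_lit 0) (XT.lf (nat_lit 0) (nat_lit 15722717700) (nat_lit 760) (nat_lit 14851218820) (nat_lit 76) (nat_lit 20058909466) (nat_lit 88) (nat_lit 5) (nat_lit 98) (nat_lit 5) (nat_lit 89) (nat_lit 5) (nat_lit 296) (nat_lit 289) (nat_lit 195)) (XT.lf (nat_lit 0) (nat_lit 22874069174) (nat_lit 608) (nat_lit 27188679107) (nat_lit 76) (nat_lit 2810212281) (nat_lit 81) (nat_lit 5) (nat_lit 89) (nat_lit 5) (nat_lit 82) (nat_lit 5) (nat_lit 297) (nat_lit 289) (nat_lit 194)))) (XT.nd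 (nat_lit 78) (nat_lit 304) (nat_lit 0) (XT.lf (nat_lit 0) (nat_lit 14659001500) (nat_lit 380) (nat_lit 16941730580) (nat_lit 456) (nat_lit 23641398646) (nat_lit 76) (nat_lit 5) (nat_lit 81) (nat_lit 5) (nat_lit 82) (nat_lit 5) (nat_lit 298) (nat_lit 289) (nat_lit 193)) (XT.nd (nat_lit 78) (nat_lit 0) (nat_lit 0) (XT.lf (nat_lit 0) (nat_lit 2833146241) (nat_lit 304) (nat_lit 39008072034) (nat_lit 380) (nat_lit 15918837808) (nat_lit 72) (nat_lit 5) (nat_lit 76) (nat_lit 5) (nat_lit 77) (nat_lit 5) (nat_lit 299) (nat_lit 289) (nat_lit 192)) (XT.lf (nat_lit 0) (nat_lit 50872959050) (nat_lit 304) (nat_lit 3012315637) (nat_lit 380) (nat_lit 6544929861) (nat_lit 72) (nat_lit 5) (nat_lit 76) (nat_lit 5) (nat_lit 77) (nat_lit 5) (nat_lit 300) (nat_lit 289) (nat_lit 191)))))) (XT.nd (nat_lit 390) (nat_lit 1216) (nat_lit 0) (XT.nd (nat_lit 156) (nat_lit 532) (nat_lit 0) (XT.nd (nat_lit 78) (nat_lit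 304) (nat_lit 0) (XT.lf (nat_lit 0) (nat_lit 4667342070) (nat_lit 380) (nat_lit 23166255449) (nat_lit 76) (nat_lit 35417428613) (nat_lit 67) (nat_lit 5) (nat_lit 72) (nat_lit 5) (nat_lit 68) (nat_lit 5) (nat_lit 301) (nat_lit 289) (nat_lit 190)) (XT.lf (nat_lit 0) (nat_lit 17388143339) (nat_lit 380) (nat_lit 37940398645) (nat_lit 76) (nat_lit 10921568870) (nat_lit 63) (nat_lit 5) (nat_lit 68) (nat_lit 5) (nat_lit 64) (nat_lit 5) (nat_lit 302) (nat_lit 289) (nat_lit 189))) (XT.nd (nat_lit 78) (nat_lit 228) (nat_lit 0) (XT.lf (nat_lit 0) (nat_lit 15271218980) (nat_lit 304) (nat_lit 16970221874) (nat_lit 380) (nat_lit 37191944157) (nat_lit 59) (nat_lit 5) (nat_lit 63) (nat_lit 5) (nat_lit 64) (nat_lit 5) (nat_lit 303) (nat_lit 289) (nat_lit 188)) (XT.nd (nat_lit 78) (nat_lit 0) (nat_lit 0) (XT.lf (nat_lit 0) (nat_lit 888425966) (nat_lit 228) (nat_lit 48459104073) (nat_lit 304) (nat_lit 23470568622)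 (nat_lit 56) (nat_lit 5) (nat_lit 59) (nat_lit 5) (nat_lit 60) (nat_lit 5) (nat_lit 304) (nat_lit 289) (nat_lit 187)) (XT.lf (nat_lit 0) (nat_lit 61978062399) (nat_lit 228) (nat_lit 7066295415) (nat_lit 304) (nat_lit 7368122674) (nat_lit 56) (nat_lit 5) (nat_lit 59) (nat_lit 5) (nat_lit 60) (nat_lit 5) (nat_lit 305) (nat_lit 289) (nat_lit 186))))) (XT.nd (nat_lit 234) (nat_lit 456) (nat_lit 0) (XT.nd (nat_lit 78) (nat_lit 456) (nat_lit 0) (XT.lf (nat_lit 0) (nat_lit 11068028785) (nat_lit 304) (nat_lit 31779934150) (nat_lit 76) (nat_lit 37370314520) (nat_lit 52) (nat_lit 5) (nat_lit 56) (nat_lit 5) (nat_lit 53) (nat_lit 5) (nat_lit 306) (nat_lit 289) (nat_lit 185)) (XT.nd (nat_lit 78) (nat_lit 228) (nat_lit 0) (XT.lf (nat_lit 0) (nat_lit 31644591608) (nat_lit 304) (nat_lit 50947609489) (nat_lit 76) (nat_lit 1684117507) (nat_lit 49) (nat_lit 5) (nat_lit 53) (nat_lit 5) (nat_lit 50) (nat_lit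 5) (nat_lit 307) (nat_lit 289) (nat_lit 184)) (XT.lf (nat_lit 0) (nat_lit 15924414852) (nat_lit 228) (nat_lit 39474302878) (nat_lit 304) (nat_lit 33183716166) (nat_lit 46) (nat_lit 5) (nat_lit 49) (nat_lit 5) (nat_lit 50) (nat_lit 5) (nat_lit 308) (nat_lit 289) (nat_lit 183)))) (XT.nd (nat_lit 78) (nat_lit 456) (nat_lit 0) (XT.lf (nat_lit 0) (nat_lit 82063707267) (nat_lit 304) (nat_lit 3351656003) (nat_lit 76) (nat_lit 7767151038) (nat_lit 46) (nat_lit 5) (nat_lit 50) (nat_lit 5) (nat_lit 47) (nat_lit 5) (nat_lit 309) (nat_lit 289) (nat_lit 182)) (XT.nd (nat_lit 78) (nat_lit 228) (nat_lit 0) (XT.lf (nat_lit 0) (nat_lit 14140029399) (nat_lit 228) (nat_lit 25115767992) (nat_lit 76) (nat_lit 58793104302) (nat_lit 43) (nat_lit 5) (nat_lit 46) (nat_lit 5) (nat_lit 44) (nat_lit 5) (nat_lit 310) (nat_lit 289) (nat_lit 181)) (XT.lf (nat_lit 0) (nat_lit 42113649440) (nat_lit 304) (nat_lit 49768714380)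 (nat_lit 76) (nat_lit 11358943287) (nat_lit 40) (nat_lit 5) (nat_lit 44) (nat_lit 5) (nat_lit 41) (nat_lit 5) (nat_lit 311) (nat_lit 289) (nat_lit 180))))))))
noncomputable def xc98 : XT := (XT.nd (nat_lit 1638) (nat_lit 532) (nat_lit 0) (XT.nd (nat_lit 780) (nat_lit 760) (nat_lit 0) (XT.nd (nat_lit 390) (nat_lit 532) (nat_lit 0) (XT.nd (nat_lit 156) (nat_lit 380) (nat_lit 0) (XT.nd (nat_lit 78) (nat_lit 152) (nat_lit 0) (XT.lf (nat_lit 0) (nat_lit 30729219840) (nat_lit 152) (nat_lit 43180402930) (nat_lit 228) (nat_lit 34860260937) (nat_lit 38) (nat_lit 5) (nat_lit 40) (nat_lit 5) (nat_lit 41) (nat_lit 5) (nat_lit 312) (nat_lit 289) (nat_lit 179)) (XT.lf (nat_lit 0) (nat_lit 4734259937) (nat_lit 152) (nat_lit 104615297529) (nat_lit 228) (nat_lit 5336176588) (nat_lit 36) (nat_lit 5) (nat_lit 38) (nat_lit 5) (nat_lit 39) (nat_lit 5) (nat_lit 313) (nat_lit 289) (nat_lit 178))) (XT.nd (nat_lit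 78) (nat_lit 304) (nat_lit 0) (XT.lf (nat_lit 0) (nat_lit 27808121109) (nat_lit 228) (nat_lit 25256567879) (nat_lit 76) (nat_lit 67884036799) (nat_lit 35) (nat_lit 5) (nat_lit 38) (nat_lit 5) (nat_lit 36) (nat_lit 5) (nat_lit 314) (nat_lit 289) (nat_lit 177)) (XT.nd (nat_lit 78) (nat_lit 152) (nat_lit 0) (XT.lf (nat_lit 0) (nat_lit 64544048170) (nat_lit 228) (nat_lit 59407047240) (nat_lit 76) (nat_lit 3700937038) (nat_lit 33) (nat_lit 5) (nat_lit 36) (nat_lit 5) (nat_lit 34) (nat_lit 5) (nat_lit 315) (nat_lit 289) (nat_lit 176)) (XT.lf (nat_lit 0) (nat_lit 35490378620) (nat_lit 152) (nat_lit 70622949402) (nat_lit 228) (nat_lit 28683553045) (nat_lit 31) (nat_lit 5) (nat_lit 33) (nat_lit 5) (nat_lit 34) (nat_lit 5) (nat_lit 316) (nat_lit 289) (nat_lit 175))))) (XT.nd (nat_lit 156) (nat_lit 304) (nat_lit 0) (XT.nd (nat_lit 78) (nat_lit 152) (nat_lit 0) (XT.lf (nat_lit 0) (nat_lit 9273235591)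 (nat_lit 228) (nat_lit 2512620845) (nat_lit 76) (nat_lit 130668316396) (nat_lit 30) (nat_lit 5) (nat_lit 33) (nat_lit 5) (nat_lit 31) (nat_lit 5) (nat_lit 317) (nat_lit 289) (nat_lit 174)) (XT.lf (nat_lit 0) (nat_lit 51754252344) (nat_lit 228) (nat_lit 46564731900) (nat_lit 76) (nat_lit 52256922843) (nat_lit 28) (nat_lit 5) (nat_lit 31) (nat_lit 5) (nat_lit 29) (nat_lit 5) (nat_lit 318) (nat_lit 289) (nat_lit 173))) (XT.nd (nat_lit 78) (nat_lit 152) (nat_lit 0) (XT.lf (nat_lit 0) (nat_lit 61570365310) (nat_lit 152) (nat_lit 37266549219) (nat_lit 228) (nat_lit 60450308373) (nat_lit 26) (nat_lit 5) (nat_lit 28) (nat_lit 5) (nat_lit 29) (nat_lit 5) (nat_lit 319) (nat_lit 289) (nat_lit 172)) (XT.nd (nat_lit 78) (nat_lit 76) (nat_lit 0) (XT.lf (nat_lit 0) (nat_lit 11261531459) (nat_lit 76) (nat_lit 139871241103) (nat_lit 152) (nat_lit 17490343226) (nat_lit 25) (nat_lit 5) (nat_lit 26) (nat_lit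 5) (nat_lit 27) (nat_lit 4) (nat_lit 320) (nat_lit 289) (nat_lit 171)) (XT.lf (nat_lit 0) (nat_lit 30338439724) (nat_lit 152) (nat_lit 47282871110) (nat_lit 76) (nat_lit 100944144270) (nat_lit 24) (nat_lit 5) (nat_lit 26) (nat_lit 5) (nat_lit 25) (nat_lit 5) (nat_lit 321) (nat_lit 289) (nat_lit 170)))))) (XT.nd (nat_lit 390) (nat_lit 304) (nat_lit 0) (XT.nd (nat_lit 156) (nat_lit 228) (nat_lit 0) (XT.nd (nat_lit 78) (nat_lit 76) (nat_lit 0) (XT.lf (nat_lit 0) (nat_lit 73662919707) (nat_lit 152) (nat_lit 8874953660) (nat_lit 228) (nat_lit 106693116403) (nat_lit 22) (nat_lit 5) (nat_lit 24) (nat_lit 5) (nat_lit 25) (nat_lit 5) (nat_lit 322) (nat_lit 289) (nat_lit 169)) (XT.lf (nat_lit 0) (nat_lit 4367987696) (nat_lit 76) (nat_lit 136470127343) (nat_lit 152) (nat_lit 59815410219) (nat_lit 21) (nat_lit 5) (nat_lit 22) (nat_lit 5) (nat_lit 23) (nat_lit 4) (nat_lit 323) (nat_lit 289) (nat_lit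 168))) (XT.nd (nat_lit 78) (nat_lit 228) (nat_lit 0) (XT.lf (nat_lit 0) (nat_lit 137869385350) (nat_lit 76) (nat_lit 68092290655) (nat_lit 152) (nat_lit 6920223249) (nat_lit 21) (nat_lit 5) (nat_lit 22) (nat_lit 5) (nat_lit 23) (nat_lit 4) (nat_lit 324) (nat_lit 289) (nat_lit 167)) (XT.nd (nat_lit 78) (nat_lit 0) (nat_lit 0) (XT.lf (nat_lit 0) (nat_lit 49605899717) (nat_lit 228) (nat_lit 169121059741) (nat_lit 76) (nat_lit 7272078769) (nat_lit 18) (nat_lit 5) (nat_lit 21) (nat_lit 5) (nat_lit 19) (nat_lit 4) (nat_lit 325) (nat_lit 289) (nat_lit 166)) (XT.lf (nat_lit 0) (nat_lit 112890196112) (nat_lit 228) (nat_lit 39389805404) (nat_lit 76) (nat_lit 87755948306) (nat_lit 18) (nat_lit 5) (nat_lit 21) (nat_lit 5) (nat_lit 19) (nat_lit 4) (nat_lit 326) (nat_lit 289) (nat_lit 165))))) (XT.nd (nat_lit 234) (nat_lit 76) (nat_lit 0) (XT.nd (nat_lit 78) (nat_lit 152) (nat_lit 0) (XT.lf (nat_lit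 0) (nat_lit 104048575065) (nat_lit 76) (nat_lit 78812264308) (nat_lit 152) (nat_lit 72253795318) (nat_lit 17) (nat_lit 5) (nat_lit 18) (nat_lit 5) (nat_lit 19) (nat_lit 4) (nat_lit 327) (nat_lit 289) (nat_lit 164)) (XT.nd (nat_lit 78) (nat_lit 152) (nat_lit 0) (XT.lf (nat_lit 0) (nat_lit 259133992333) (nat_lit 152) (nat_lit 11017794219) (nat_lit 0) (nat_lit 1212585349) (nat_lit 17) (nat_lit 5) (nat_lit 19) (nat_lit 4) (nat_lit 17) (nat_lit 4) (nat_lit 328) (nat_lit 289) (nat_lit 163)) (XT.lf (nat_lit 0) (nat_lit 54538557654) (nat_lit 152) (nat_lit 146118538114) (nat_lit 76) (nat_lit 88034584345) (nat_lit 15) (nat_lit 5) (nat_lit 17) (nat_lit 5) (nat_lit 16) (nat_lit 4) (nat_lit 329) (nat_lit 289) (nat_lit 162)))) (XT.nd (nat_lit 78) (nat_lit 0) (nat_lit 0) (XT.lf (nat_lit 0) (nat_lit 1279402631) (nat_lit 76) (nat_lit 125161119940) (nat_lit 152) (nat_lit 180943625607) (nat_lit 14) (nat_lit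 5) (nat_lit 15) (nat_lit 5) (nat_lit 16) (nat_lit 4) (nat_lit 330) (nat_lit 289) (nat_lit 161)) (XT.nd (nat_lit 78) (nat_lit 0) (nat_lit 0) (XT.lf (nat_lit 0) (nat_lit 165685693393) (nat_lit 76) (nat_lit 40953510911) (nat_lit 152) (nat_lit 120805581754) (nat_lit 14) (nat_lit 5) (nat_lit 15) (nat_lit 5) (nat_lit 16) (nat_lit 4) (nat_lit 331) (nat_lit 289) (nat_lit 160)) (XT.lf (nat_lit 0) (nat_lit 294033590044) (nat_lit 152) (nat_lit 6647540586) (nat_lit 0) (nat_lit 48390154191) (nat_lit 14) (nat_lit 5) (nat_lit 16) (nat_lit 4) (nat_lit 14) (nat_lit 4) (nat_lit 332) (nat_lit 289) (nat_lit 159))))))) (XT.nd (nat_lit 858) (nat_lit 0) (nat_lit 0) (XT.nd (nat_lit 390) (nat_lit 228) (nat_lit 0) (XT.nd (nat_lit 156) (nat_lit 152) (nat_lit 0) (XT.nd (nat_lit 78) (nat_lit 0) (nat_lit 0) (XT.lf (nat_lit 0) (nat_lit 18806939015) (nat_lit 152) (nat_lit 207090032930) (nat_lit 76) (nat_lit 146352090741)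 (nat_lit 12) (nat_lit 5) (nat_lit 14) (nat_lit 5) (nat_lit 13) (nat_lit 4) (nat_lit 333) (nat_lit 289) (nat_lit 158)) (XT.lf (nat_lit 0) (nat_lit 96773748379) (nat_lit 152) (nat_lit 47258834900) (nat_lit 76) (nat_lit 253196224023) (nat_lit 12) (nat_lit 5) (nat_lit 14) (nat_lit 5) (nat_lit 13) (nat_lit 4) (nat_lit 334) (nat_lit 289) (nat_lit 157))) (XT.nd (nat_lit 78) (nat_lit 76) (nat_lit 0) (XT.lf (nat_lit 0) (nat_lit 129502703499) (nat_lit 76) (nat_lit 53496529358) (nat_lit 152) (nat_lit 241106632356) (nat_lit 11) (nat_lit 5) (nat_lit 12) (nat_lit 5) (nat_lit 13) (nat_lit 4) (nat_lit 335) (nat_lit 289) (nat_lit 156)) (XT.nd (nat_lit 78) (nat_lit 76) (nat_lit 0) (XT.lf (nat_lit 0) (nat_lit 277650291934) (nat_lit 152) (nat_lit 131705057268) (nat_lit 0) (nat_lit 43701361994) (nat_lit 11) (nat_lit 5) (nat_lit 13) (nat_lit 4) (nat_lit 11) (nat_lit 4) (nat_lit 336) (nat_lit 289) (nat_lit 155))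 (XT.lf (nat_lit 0) (nat_lit 44754314574) (nat_lit 76) (nat_lit 336719400954) (nat_lit 76) (nat_lit 102769895549) (nat_lit 10) (nat_lit 4) (nat_lit 11) (nat_lit 5) (nat_lit 11) (nat_lit 4) (nat_lit 337) (nat_lit 289) (nat_lit 154))))) (XT.nd (nat_lit 234) (nat_lit 76) (nat_lit 0) (XT.nd (nat_lit 78) (nat_lit 152) (nat_lit 0) (XT.lf (nat_lit 0) (nat_lit 240032673214) (nat_lit 76) (nat_lit 255864070811) (nat_lit 76) (nat_lit 21914032569) (nat_lit 10) (nat_lit 4) (nat_lit 11) (nat_lit 5) (nat_lit 11) (nat_lit 4) (nat_lit 338) (nat_lit 289) (nat_lit 153)) (XT.nd (nat_lit 78) (nat_lit 76) (nat_lit 0) (XT.lf (nat_lit 0) (nat_lit 63316303714) (nat_lit 152) (nat_lit 104152108994) (nat_lit 76) (nat_lit 386543863794) (nat_lit 9) (nat_lit 5) (nat_lit 11) (nat_lit 5) (nat_lit 10) (nat_lit 4) (nat_lit 339) (nat_lit 289) (nat_lit 152)) (XT.lf (nat_lit 0) (nat_lit 85737806900) (nat_lit 76) (nat_lit 70207946920)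 (nat_lit 152) (nat_lit 437078758028) (nat_lit 8) (nat_lit 5) (nat_lit 9) (nat_lit 5) (nat_lit 10) (nat_lit 4) (nat_lit 340) (nat_lit 289) (nat_lit 151)))) (XT.nd (nat_lit 78) (nat_lit 76) (nat_lit 0) (XT.lf (nat_lit 0) (nat_lit 258373001065) (nat_lit 152) (nat_lit 341103219998) (nat_lit 0) (nat_lit 35562133050) (nat_lit 8) (nat_lit 5) (nat_lit 10) (nat_lit 4) (nat_lit 8) (nat_lit 4) (nat_lit 341) (nat_lit 289) (nat_lit 150)) (XT.nd (nat_lit 78) (nat_lit 76) (nat_lit 0) (XT.lf (nat_lit 0) (nat_lit 370177882940) (nat_lit 152) (nat_lit 162809606289) (nat_lit 0) (nat_lit 147366641923) (nat_lit 8) (nat_lit 5) (nat_lit 10) (nat_lit 4) (nat_lit 8) (nat_lit 4) (nat_lit 342) (nat_lit 289) (nat_lit 149)) (XT.lf (nat_lit 0) (nat_lit 30730398400) (nat_lit 76) (nat_lit 460676193326) (nat_lit 76) (nat_lit 237864606938) (nat_lit 7) (nat_lit 4) (nat_lit 8) (nat_lit 5) (nat_lit 8) (nat_lit 4) (nat_lit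 343) (nat_lit 289) (nat_lit 148)))))) (XT.nd (nat_lit 36660) (nat_lit 0) (nat_lit 5624) (XT.nd (nat_lit 36426) (nat_lit 0) (nat_lit 6612) (XT.nd (nat_lit 78) (nat_lit 0) (nat_lit 0) (XT.lf (nat_lit 0) (nat_lit 245566848009) (nat_lit 76) (nat_lit 379602452352) (nat_lit 76) (nat_lit 156790546175) (nat_lit 7) (nat_lit 4) (nat_lit 8) (nat_lit 5) (nat_lit 8) (nat_lit 4) (nat_lit 344) (nat_lit 289) (nat_lit 147)) (XT.lf (nat_lit 0) (nat_lit 477589626571) (nat_lit 76) (nat_lit 292043088784) (nat_lit 76) (nat_lit 69230886507) (nat_lit 7) (nat_lit 4) (nat_lit 8) (nat_lit 5) (nat_lit 8) (nat_lit 4) (nat_lit 345) (nat_lit 289) (nat_lit 146))) (XT.nd (nat_lit 78) (nat_lit 0) (nat_lit 0) (XT.lf (nat_lit 0) (nat_lit 9215211023) (nat_lit 0) (nat_lit 9215211023) (nat_lit 684) (nat_lit 2134222914) (nat_lit 94) (nat_lit 5) (nat_lit 94) (nat_lit 3) (nat_lit 103) (nat_lit 3) (nat_lit 290) (nat_lit 290) (nat_lit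 200)) (XT.nd (nat_lit 78) (nat_lit 0) (nat_lit 0) (XT.lf (nat_lit 76) (nat_lit 7524236628) (nat_lit 0) (nat_lit 31170639442) (nat_lit 760) (nat_lit 4061504014) (nat_lit 95) (nat_lit 5) (nat_lit 94) (nat_lit 5) (nat_lit 104) (nat_lit 5) (nat_lit 291) (nat_lit 290) (nat_lit 199)) (XT.lf (nat_lit 76) (nat_lit 40651407234) (nat_lit 0) (nat_lit 719656264) (nat_lit 760) (nat_lit 3107812474) (nat_lit 95) (nat_lit 5) (nat_lit 94) (nat_lit 5) (nat_lit 104) (nat_lit 5) (nat_lit 292) (nat_lit 290) (nat_lit 198))))) (XT.nd (nat_lit 234) (nat_lit 380) (nat_lit 0) (XT.nd (nat_lit 78) (nat_lit 684) (nat_lit 0) (XT.lf (nat_lit 76) (nat_lit 30562166787) (nat_lit 0) (nat_lit 14673297705) (nat_lit 760) (nat_lit 1055010516) (nat_lit 96) (nat_lit 5) (nat_lit 95) (nat_lit 5) (nat_lit 105) (nat_lit 5) (nat_lit 293) (nat_lit 290) (nat_lit 197)) (XT.nd (nat_lit 78) (nat_lit 0) (nat_lit 76) (XT.lf (nat_lit 0) (nat_lit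 1807058503) (nat_lit 760) (nat_lit 28310433656) (nat_lit 836) (nat_lit 18094499250) (nat_lit 86) (nat_lit 5) (nat_lit 96) (nat_lit 5) (nat_lit 97) (nat_lit 5) (nat_lit 294) (nat_lit 290) (nat_lit 196)) (XT.lf (nat_lit 0) (nat_lit 5567546086) (nat_lit 760) (nat_lit 41628435704) (nat_lit 836) (nat_lit 3055069477) (nat_lit 87) (nat_lit 5) (nat_lit 97) (nat_lit 5) (nat_lit 98) (nat_lit 5) (nat_lit 295) (nat_lit 290) (nat_lit 195)))) (XT.nd (nat_lit 78) (nat_lit 456) (nat_lit 0) (XT.lf (nat_lit 0) (nat_lit 10633579973) (nat_lit 760) (nat_lit 3426837741) (nat_lit 836) (nat_lit 38342589945) (nat_lit 87) (nat_lit 5) (nat_lit 97) (nat_lit 5) (nat_lit 98) (nat_lit 5) (nat_lit 296) (nat_lit 290) (nat_lit 194)) (XT.nd (nat_lit 78) (nat_lit 532) (nat_lit 0) (XT.lf (nat_lit 0) (nat_lit 17060195540) (nat_lit 760) (nat_lit 15967739030) (nat_lit 76) (nat_lit 21651427627) (nat_lit 88) (nat_lit 5) (nat_lit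 98) (nat_lit 5) (nat_lit 89) (nat_lit 5) (nat_lit 297) (nat_lit 290) (nat_lit 193)) (XT.lf (nat_lit 0) (nat_lit 24778723988) (nat_lit 608) (nat_lit 29291347113) (nat_lit 76) (nat_lit 3028870912) (nat_lit 81) (nat_lit 5) (nat_lit 89) (nat_lit 5) (nat_lit 82) (nat_lit 5) (nat_lit 298) (nat_lit 290) (nat_lit 192))))))))
noncomputable def xc99 : XT := (XT.nd (nat_lit 1638) (nat_lit 1520) (nat_lit 0) (XT.nd (nat_lit 780) (nat_lit 1596) (nat_lit 0) (XT.nd (nat_lit 390) (nat_lit 1064) (nat_lit 0) (XT.nd (nat_lit 156) (nat_lit 684) (nat_lit 0) (XT.nd (nat_lit 78) (nat_lit 304) (nat_lit 0) (XT.lf (nat_lit 0) (nat_lit 15901000383) (nat_lit 380) (nat_lit 18298065676) (nat_lit 456) (nat_lit 25458811232) (nat_lit 76) (nat_lit 5) (nat_lit 81) (nat_lit 5) (nat_lit 82) (nat_lit 5) (nat_lit 299) (nat_lit 290) (nat_lit 191)) (XT.lf (nat_lit 0) (nat_lit 3129547219) (nat_lit 304) (nat_lit 42125112919) (nat_lit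 380) (nat_lit 17122791247) (nat_lit 72) (nat_lit 5) (nat_lit 76) (nat_lit 5) (nat_lit 77) (nat_lit 5) (nat_lit 300) (nat_lit 290) (nat_lit 190))) (XT.nd (nat_lit 78) (nat_lit 684) (nat_lit 0) (XT.lf (nat_lit 0) (nat_lit 55007378440) (nat_lit 304) (nat_lit 3249963038) (nat_lit 380) (nat_lit 7004122782) (nat_lit 72) (nat_lit 5) (nat_lit 76) (nat_lit 5) (nat_lit 77) (nat_lit 5) (nat_lit 301) (nat_lit 290) (nat_lit 189)) (XT.nd (nat_lit 78) (nat_lit 304) (nat_lit 0) (XT.lf (nat_lit 0) (nat_lit 5099528336) (nat_lit 380) (nat_lit 24952782872) (nat_lit 76) (nat_lit 38255773814) (nat_lit 67) (nat_lit 5) (nat_lit 72) (nat_lit 5) (nat_lit 68) (nat_lit 5) (nat_lit 302) (nat_lit 290) (nat_lit 188)) (XT.lf (nat_lit 0) (nat_lit 18834767064) (nat_lit 380) (nat_lit 40909041901) (nat_lit 76) (nat_lit 11803455056) (nat_lit 63) (nat_lit 5) (nat_lit 68) (nat_lit 5) (nat_lit 64) (nat_lit 5) (nat_lit 303) (nat_lit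 290) (nat_lit 187))))) (XT.nd (nat_lit 156) (nat_lit 532) (nat_lit 0) (XT.nd (nat_lit 78) (nat_lit 228) (nat_lit 0) (XT.lf (nat_lit 0) (nat_lit 16556611273) (nat_lit 304) (nat_lit 18316595098) (nat_lit 380) (nat_lit 40112155552) (nat_lit 59) (nat_lit 5) (nat_lit 63) (nat_lit 5) (nat_lit 64) (nat_lit 5) (nat_lit 304) (nat_lit 290) (nat_lit 186)) (XT.lf (nat_lit 0) (nat_lit 1022835608) (nat_lit 228) (nat_lit 52322213279) (nat_lit 304) (nat_lit 25295945754) (nat_lit 56) (nat_lit 5) (nat_lit 59) (nat_lit 5) (nat_lit 60) (nat_lit 5) (nat_lit 305) (nat_lit 290) (nat_lit 185))) (XT.nd (nat_lit 78) (nat_lit 532) (nat_lit 0) (XT.lf (nat_lit 0) (nat_lit 66994951432) (nat_lit 228) (nat_lit 7618988752) (nat_lit 304) (nat_lit 7909175861) (nat_lit 56) (nat_lit 5) (nat_lit 59) (nat_lit 5) (nat_lit 60) (nat_lit 5) (nat_lit 306) (nat_lit 290) (nat_lit 184)) (XT.nd (nat_lit 78) (nat_lit 228) (nat_lit 0)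 (XT.lf (nat_lit 0) (nat_lit 11997956855) (nat_lit 304) (nat_lit 34262636707) (nat_lit 76) (nat_lit 40372867838) (nat_lit 52) (nat_lit 5) (nat_lit 56) (nat_lit 5) (nat_lit 53) (nat_lit 5) (nat_lit 307) (nat_lit 290) (nat_lit 183)) (XT.lf (nat_lit 0) (nat_lit 34218475364) (nat_lit 304) (nat_lit 54964400599) (nat_lit 76) (nat_lit 1833382341) (nat_lit 49) (nat_lit 5) (nat_lit 53) (nat_lit 5) (nat_lit 50) (nat_lit 5) (nat_lit 308) (nat_lit 290) (nat_lit 182)))))) (XT.nd (nat_lit 390) (nat_lit 760) (nat_lit 0) (XT.nd (nat_lit 156) (nat_lit 608) (nat_lit 0) (XT.nd (nat_lit 78) (nat_lit 0) (nat_lit 0) (XT.lf (nat_lit 0) (nat_lit 17254820855) (nat_lit 228) (nat_lit 42615857558) (nat_lit 304) (nat_lit 35796300766) (nat_lit 46) (nat_lit 5) (nat_lit 49) (nat_lit 5) (nat_lit 50) (nat_lit 5) (nat_lit 309) (nat_lit 290) (nat_lit 181)) (XT.lf (nat_lit 0) (nat_lit 88666136395) (nat_lit 304) (nat_lit 3565856672)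 (nat_lit 76) (nat_lit 8403212919) (nat_lit 46) (nat_lit 5) (nat_lit 50) (nat_lit 5) (nat_lit 47) (nat_lit 5) (nat_lit 310) (nat_lit 290) (nat_lit 180))) (XT.nd (nat_lit 78) (nat_lit 380) (nat_lit 0) (XT.lf (nat_lit 0) (nat_lit 15307222631) (nat_lit 228) (nat_lit 27072213634) (nat_lit 76) (nat_lit 63511540242) (nat_lit 43) (nat_lit 5) (nat_lit 46) (nat_lit 5) (nat_lit 44) (nat_lit 5) (nat_lit 311) (nat_lit 290) (nat_lit 179)) (XT.nd (nat_lit 78) (nat_lit 152) (nat_lit 0) (XT.lf (nat_lit 0) (nat_lit 45517111208) (nat_lit 304) (nat_lit 53698206539) (nat_lit 76) (nat_lit 12283540460) (nat_lit 40) (nat_lit 5) (nat_lit 44) (nat_lit 5) (nat_lit 41) (nat_lit 5) (nat_lit 312) (nat_lit 290) (nat_lit 178)) (XT.lf (nat_lit 0) (nat_lit 33237302345) (nat_lit 152) (nat_lit 46617690805) (nat_lit 228) (nat_lit 37614818839) (nat_lit 38) (nat_lit 5) (nat_lit 40) (nat_lit 5) (nat_lit 41) (nat_lit 5) (nat_lit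 313) (nat_lit 290) (nat_lit 177))))) (XT.nd (nat_lit 234) (nat_lit 380) (nat_lit 0) (XT.nd (nat_lit 78) (nat_lit 228) (nat_lit 0) (XT.lf (nat_lit 0) (nat_lit 5161917926) (nat_lit 152) (nat_lit 112966801418) (nat_lit 228) (nat_lit 5730283582) (nat_lit 36) (nat_lit 5) (nat_lit 38) (nat_lit 5) (nat_lit 39) (nat_lit 5) (nat_lit 314) (nat_lit 290) (nat_lit 176)) (XT.nd (nat_lit 78) (nat_lit 152) (nat_lit 0) (XT.lf (nat_lit 0) (nat_lit 30062157594) (nat_lit 228) (nat_lit 27230801506) (nat_lit 76) (nat_lit 73330168966) (nat_lit 35) (nat_lit 5) (nat_lit 38) (nat_lit 5) (nat_lit 36) (nat_lit 5) (nat_lit 315) (nat_lit 290) (nat_lit 175)) (XT.lf (nat_lit 0) (nat_lit 69735729072) (nat_lit 228) (nat_lit 64114167167) (nat_lit 76) (nat_lit 4012866467) (nat_lit 33) (nat_lit 5) (nat_lit 36) (nat_lit 5) (nat_lit 34) (nat_lit 5) (nat_lit 316) (nat_lit 290) (nat_lit 174)))) (XT.nd (nat_lit 78) (nat_lit 228)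 (nat_lit 0) (XT.lf (nat_lit 0) (nat_lit 38373077827) (nat_lit 152) (nat_lit 76256066449) (nat_lit 228) (nat_lit 30950127104) (nat_lit 31) (nat_lit 5) (nat_lit 33) (nat_lit 5) (nat_lit 34) (nat_lit 5) (nat_lit 317) (nat_lit 290) (nat_lit 173)) (XT.nd (nat_lit 78) (nat_lit 152) (nat_lit 0) (XT.lf (nat_lit 0) (nat_lit 10040289331) (nat_lit 228) (nat_lit 2672528465) (nat_lit 76) (nat_lit 141136409126) (nat_lit 30) (nat_lit 5) (nat_lit 33) (nat_lit 5) (nat_lit 31) (nat_lit 5) (nat_lit 318) (nat_lit 290) (nat_lit 172)) (XT.lf (nat_lit 0) (nat_lit 55918774987) (nat_lit 228) (nat_lit 50249619038) (nat_lit 76) (nat_lit 56452357995) (nat_lit 28) (nat_lit 5) (nat_lit 31) (nat_lit 5) (nat_lit 29) (nat_lit 5) (nat_lit 319) (nat_lit 290) (nat_lit 171))))))) (XT.nd (nat_lit 858) (nat_lit 532) (nat_lit 0) (XT.nd (nat_lit 390) (nat_lit 456) (nat_lit 0) (XT.nd (nat_lit 156) (nat_lit 304) (nat_lit 0) (XT.nd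 (nat_lit 78) (nat_lit 76) (nat_lit 0) (XT.lf (nat_lit 0) (nat_lit 66534534934) (nat_lit 152) (nat_lit 40232325644) (nat_lit 228) (nat_lit 65262173372) (nat_lit 26) (nat_lit 5) (nat_lit 28) (nat_lit 5) (nat_lit 29) (nat_lit 5) (nat_lit 320) (nat_lit 290) (nat_lit 170)) (XT.lf (nat_lit 0) (nat_lit 12200203343) (nat_lit 76) (nat_lit 151045294866) (nat_lit 152) (nat_lit 18866345780) (nat_lit 25) (nat_lit 5) (nat_lit 26) (nat_lit 5) (nat_lit 27) (nat_lit 4) (nat_lit 321) (nat_lit 290) (nat_lit 169))) (XT.nd (nat_lit 78) (nat_lit 228) (nat_lit 0) (XT.lf (nat_lit 0) (nat_lit 32786331165) (nat_lit 152) (nat_lit 51029845406) (nat_lit 76) (nat_lit 109033460134) (nat_lit 24) (nat_lit 5) (nat_lit 26) (nat_lit 5) (nat_lit 25) (nat_lit 5) (nat_lit 322) (nat_lit 290) (nat_lit 168)) (XT.nd (nat_lit 78) (nat_lit 76) (nat_lit 0) (XT.lf (nat_lit 0) (nat_lit 79590059137) (nat_lit 152) (nat_lit 9570650904)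 (nat_lit 228) (nat_lit 115207755611) (nat_lit 22) (nat_lit 5) (nat_lit 24) (nat_lit 5) (nat_lit 25) (nat_lit 5) (nat_lit 323) (nat_lit 290) (nat_lit 167)) (XT.lf (nat_lit 0) (nat_lit 4750796517) (nat_lit 76) (nat_lit 147373435068) (nat_lit 152) (nat_lit 64580610329) (nat_lit 21) (nat_lit 5) (nat_lit 22) (nat_lit 5) (nat_lit 23) (nat_lit 4) (nat_lit 324) (nat_lit 290) (nat_lit 166))))) (XT.nd (nat_lit 234) (nat_lit 228) (nat_lit 0) (XT.nd (nat_lit 78) (nat_lit 228) (nat_lit 0) (XT.lf (nat_lit 0) (nat_lit 148929834145) (nat_lit 76) (nat_lit 73526430885) (nat_lit 152) (nat_lit 7455292305) (nat_lit 21) (nat_lit 5) (nat_lit 22) (nat_lit 5) (nat_lit 23) (nat_lit 4) (nat_lit 325) (nat_lit 290) (nat_lit 165)) (XT.nd (nat_lit 78) (nat_lit 0) (nat_lit 0) (XT.lf (nat_lit 0) (nat_lit 53591670828) (nat_lit 228) (nat_lit 182619950320) (nat_lit 76) (nat_lit 7866465384) (nat_lit 18) (nat_lit 5) (nat_lit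 21) (nat_lit 5) (nat_lit 19) (nat_lit 4) (nat_lit 326) (nat_lit 290) (nat_lit 164)) (XT.lf (nat_lit 0) (nat_lit 121937429517) (nat_lit 228) (nat_lit 42512476688) (nat_lit 76) (nat_lit 94788109646) (nat_lit 18) (nat_lit 5) (nat_lit 21) (nat_lit 5) (nat_lit 19) (nat_lit 4) (nat_lit 327) (nat_lit 290) (nat_lit 163)))) (XT.nd (nat_lit 78) (nat_lit 152) (nat_lit 0) (XT.lf (nat_lit 0) (nat_lit 112399735072) (nat_lit 76) (nat_lit 85105228493) (nat_lit 152) (nat_lit 78018070649) (nat_lit 17) (nat_lit 5) (nat_lit 18) (nat_lit 5) (nat_lit 19) (nat_lit 4) (nat_lit 328) (nat_lit 290) (nat_lit 162)) (XT.nd (nat_lit 78) (nat_lit 152) (nat_lit 0) (XT.lf (nat_lit 0) (nat_lit 279879012331) (nat_lit 152) (nat_lit 11873423650) (nat_lit 0) (nat_lit 1320362864) (nat_lit 17) (nat_lit 5) (nat_lit 19) (nat_lit 4) (nat_lit 17) (nat_lit 4) (nat_lit 329) (nat_lit 290) (nat_lit 161)) (XT.lf (nat_lit 0) (nat_lit 58915499146)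 (nat_lit 152) (nat_lit 157782883007) (nat_lit 76) (nat_lit 95087932666) (nat_lit 15) (nat_lit 5) (nat_lit 17) (nat_lit 5) (nat_lit 16) (nat_lit 4) (nat_lit 330) (nat_lit 290) (nat_lit 160)))))) (XT.nd (nat_lit 390) (nat_lit 304) (nat_lit 0) (XT.nd (nat_lit 156) (nat_lit 152) (nat_lit 0) (XT.nd (nat_lit 78) (nat_lit 0) (nat_lit 0) (XT.lf (nat_lit 0) (nat_lit 1405800523) (nat_lit 76) (nat_lit 135163169718) (nat_lit 152) (nat_lit 195405243147) (nat_lit 14) (nat_lit 5) (nat_lit 15) (nat_lit 5) (nat_lit 16) (nat_lit 4) (nat_lit 331) (nat_lit 290) (nat_lit 159)) (XT.lf (nat_lit 0) (nat_lit 178962813384) (nat_lit 76) (nat_lit 44219754917) (nat_lit 152) (nat_lit 130457183379) (nat_lit 14) (nat_lit 5) (nat_lit 15) (nat_lit 5) (nat_lit 16) (nat_lit 4) (nat_lit 332) (nat_lit 290) (nat_lit 158))) (XT.nd (nat_lit 78) (nat_lit 152) (nat_lit 0) (XT.lf (nat_lit 0) (nat_lit 317567744244) (nat_lit 152)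 (nat_lit 7158302093) (nat_lit 0) (nat_lit 52270362475) (nat_lit 14) (nat_lit 5) (nat_lit 16) (nat_lit 4) (nat_lit 14) (nat_lit 4) (nat_lit 333) (nat_lit 290) (nat_lit 157)) (XT.nd (nat_lit 78) (nat_lit 0) (nat_lit 0) (XT.lf (nat_lit 0) (nat_lit 20322610059) (nat_lit 152) (nat_lit 223636735929) (nat_lit 76) (nat_lit 158069081115) (nat_lit 12) (nat_lit 5) (nat_lit 14) (nat_lit 5) (nat_lit 13) (nat_lit 4) (nat_lit 334) (nat_lit 290) (nat_lit 156)) (XT.lf (nat_lit 0) (nat_lit 104525940770) (nat_lit 152) (nat_lit 51020560548) (nat_lit 76) (nat_lit 273460091496) (nat_lit 12) (nat_lit 5) (nat_lit 14) (nat_lit 5) (nat_lit 13) (nat_lit 4) (nat_lit 335) (nat_lit 290) (nat_lit 155))))) (XT.nd (nat_lit 234) (nat_lit 152) (nat_lit 0) (XT.nd (nat_lit 78) (nat_lit 76) (nat_lit 0) (XT.lf (nat_lit 0) (nat_lit 139881076026) (nat_lit 76) (nat_lit 57767909043) (nat_lit 152) (nat_lit 260384854567) (nat_lit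 11) (nat_lit 5) (nat_lit 12) (nat_lit 5) (nat_lit 13) (nat_lit 4) (nat_lit 336) (nat_lit 290) (nat_lit 154)) (XT.nd (nat_lit 78) (nat_lit 76) (nat_lit 0) (XT.lf (nat_lit 0) (nat_lit 299871522543) (nat_lit 152) (nat_lit 142224312970) (nat_lit 0) (nat_lit 47204948404) (nat_lit 11) (nat_lit 5) (nat_lit 13) (nat_lit 4) (nat_lit 11) (nat_lit 4) (nat_lit 337) (nat_lit 290) (nat_lit 153)) (XT.lf (nat_lit 0) (nat_lit 48351063350) (nat_lit 76) (nat_lit 363649330762) (nat_lit 76) (nat_lit 110982263255) (nat_lit 10) (nat_lit 4) (nat_lit 11) (nat_lit 5) (nat_lit 11) (nat_lit 4) (nat_lit 338) (nat_lit 290) (nat_lit 152)))) (XT.nd (nat_lit 78) (nat_lit 152) (nat_lit 0) (XT.lf (nat_lit 0) (nat_lit 259250475599) (nat_lit 76) (nat_lit 276326138820) (nat_lit 76) (nat_lit 23658614491) (nat_lit 10) (nat_lit 4) (nat_lit 11) (nat_lit 5) (nat_lit 11) (nat_lit 4) (nat_lit 339) (nat_lit 290) (nat_lit 151)) (XT.nd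 (nat_lit 78) (nat_lit 76) (nat_lit 0) (XT.lf (nat_lit 0) (nat_lit 68389262945) (nat_lit 152) (nat_lit 112469958274) (nat_lit 76) (nat_lit 417473651776) (nat_lit 9) (nat_lit 5) (nat_lit 11) (nat_lit 5) (nat_lit 10) (nat_lit 4) (nat_lit 340) (nat_lit 290) (nat_lit 150)) (XT.lf (nat_lit 0) (nat_lit 92610528586) (nat_lit 76) (nat_lit 75818187291) (nat_lit 152) (nat_lit 472037389163) (nat_lit 8) (nat_lit 5) (nat_lit 9) (nat_lit 5) (nat_lit 10) (nat_lit 4) (nat_lit 341) (nat_lit 290) (nat_lit 149))))))))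
noncomputable def xc100 : XT := (XT.nd (nat_lit 37986) (nat_lit 0) (nat_lit 760) (XT.nd (nat_lit 37128) (nat_lit 0) (nat_lit 3724) (XT.nd (nat_lit 36738) (nat_lit 0) (nat_lit 6004) (XT.nd (nat_lit 156) (nat_lit 76) (nat_lit 0) (XT.nd (nat_lit 78) (nat_lit 0) (nat_lit 0) (XT.lf (nat_lit 0) (nat_lit 279049694485) (nat_lit 152) (nat_lit 368378547006) (nat_lit 0) (nat_lit 38412835814) (nat_lit 8) (nat_lit 5) (nat_lit 10) (nat_lit 4) (nat_lit 8) (nat_lit 4) (nat_lit 342) (nat_lit 290) (nat_lit 148)) (XT.lf (nat_lit 0) (nat_lit 399798459255) (nat_lit 152) (nat_lit 175822402021) (nat_lit 0) (nat_lit 159161280796) (nat_lit 8) (nat_lit 5) (nat_lit 10) (nat_lit 4) (nat_lit 8) (nat_lit 4) (nat_lit 343) (nat_lit 290) (nat_lit 147))) (XT.nd (nat_lit 78) (nat_lit 0) (nat_lit 0) (XT.lf (nat_lit 0) (nat_lit 33200282720) (nat_lit 76) (nat_lit 497524890778) (nat_lit 76) (nat_lit 256887416219) (nat_lit 7)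 (nat_lit 4) (nat_lit 8) (nat_lit 5) (nat_lit 8) (nat_lit 4) (nat_lit 344) (nat_lit 290) (nat_lit 146)) (XT.nd (nat_lit 36426) (nat_lit 0) (nat_lit 6612) (XT.lf (nat_lit 0) (nat_lit 265222799969) (nat_lit 76) (nat_lit 409965650379) (nat_lit 76) (nat_lit 169327901652) (nat_lit 7) (nat_lit 4) (nat_lit 8) (nat_lit 5) (nat_lit 8) (nat_lit 4) (nat_lit 345) (nat_lit 290) (nat_lit 145)) (XT.lf (nat_lit 0) (nat_lit 9980316533) (nat_lit 0) (nat_lit 9980316533) (nat_lit 684) (nat_lit 2246295546) (nat_lit 94) (nat_lit 5) (nat_lit 94) (nat_lit 3) (nat_lit 103) (nat_lit 3) (nat_lit 291) (nat_lit 291) (nat_lit 198))))) (XT.nd (nat_lit 156) (nat_lit 608) (nat_lit 0) (XT.nd (nat_lit 78) (nat_lit 0) (nat_lit 0) (XT.lf (nat_lit 76) (nat_lit 8185886674) (nat_lit 0) (nat_lit 33707996623) (nat_lit 760) (nat_lit 4277652851) (nat_lit 95) (nat_lit 5) (nat_lit 94) (nat_lit 5) (nat_lit 104) (nat_lit 5) (nat_lit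 292) (nat_lit 291) (nat_lit 197)) (XT.lf (nat_lit 76) (nat_lit 43958807883) (nat_lit 0) (nat_lit 817697307) (nat_lit 760) (nat_lit 3255723134) (nat_lit 95) (nat_lit 5) (nat_lit 94) (nat_lit 5) (nat_lit 104) (nat_lit 5) (nat_lit 293) (nat_lit 291) (nat_lit 196))) (XT.nd (nat_lit 78) (nat_lit 684) (nat_lit 0) (XT.lf (nat_lit 76) (nat_lit 33065372085) (nat_lit 0) (nat_lit 15877917234) (nat_lit 760) (nat_lit 1045816995) (nat_lit 96) (nat_lit 5) (nat_lit 95) (nat_lit 5) (nat_lit 105) (nat_lit 5) (nat_lit 294) (nat_lit 291) (nat_lit 195)) (XT.nd (nat_lit 78) (nat_lit 0) (nat_lit 76) (XT.lf (nat_lit 0) (nat_lit 2036020143) (nat_lit 760) (nat_lit 30511772012) (nat_lit 836) (nat_lit 19516799999) (nat_lit 86) (nat_lit 5) (nat_lit 96) (nat_lit 5) (nat_lit 97) (nat_lit 5) (nat_lit 295) (nat_lit 291) (nat_lit 194)) (XT.lf (nat_lit 0) (nat_lit 6091756779) (nat_lit 760) (nat_lit 44893603970) (nat_lit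 836) (nat_lit 3281705824) (nat_lit 87) (nat_lit 5) (nat_lit 97) (nat_lit 5) (nat_lit 98) (nat_lit 5) (nat_lit 296) (nat_lit 291) (nat_lit 193)))))) (XT.nd (nat_lit 390) (nat_lit 1216) (nat_lit 0) (XT.nd (nat_lit 156) (nat_lit 1140) (nat_lit 0) (XT.nd (nat_lit 78) (nat_lit 0) (nat_lit 76) (XT.lf (nat_lit 0) (nat_lit 11557235820) (nat_lit 760) (nat_lit 3640700881) (nat_lit 836) (nat_lit 41393544168) (nat_lit 87) (nat_lit 5) (nat_lit 97) (nat_lit 5) (nat_lit 98) (nat_lit 5) (nat_lit 297) (nat_lit 291) (nat_lit 192)) (XT.lf (nat_lit 0) (nat_lit 18493307158) (nat_lit 760) (nat_lit 17183792158) (nat_lit 76) (nat_lit 23373086937) (nat_lit 88) (nat_lit 5) (nat_lit 98) (nat_lit 5) (nat_lit 89) (nat_lit 5) (nat_lit 298) (nat_lit 291) (nat_lit 191))) (XT.nd (nat_lit 78) (nat_lit 684) (nat_lit 0) (XT.lf (nat_lit 0) (nat_lit 26825090220) (nat_lit 608) (nat_lit 31572560984) (nat_lit 76) (nat_lit 3265900791)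 (nat_lit 81) (nat_lit 5) (nat_lit 89) (nat_lit 5) (nat_lit 82) (nat_lit 5) (nat_lit 299) (nat_lit 291) (nat_lit 190)) (XT.nd (nat_lit 78) (nat_lit 304) (nat_lit 0) (XT.lf (nat_lit 0) (nat_lit 17232475787) (nat_lit 380) (nat_lit 19762765397) (nat_lit 456) (nat_lit 27432159387) (nat_lit 76) (nat_lit 5) (nat_lit 81) (nat_lit 5) (nat_lit 82) (nat_lit 5) (nat_lit 300) (nat_lit 291) (nat_lit 189)) (XT.lf (nat_lit 0) (nat_lit 3439709761) (nat_lit 304) (nat_lit 45492031352) (nat_lit 380) (nat_lit 18432983558) (nat_lit 72) (nat_lit 5) (nat_lit 76) (nat_lit 5) (nat_lit 77) (nat_lit 5) (nat_lit 301) (nat_lit 291) (nat_lit 188))))) (XT.nd (nat_lit 234) (nat_lit 532) (nat_lit 0) (XT.nd (nat_lit 78) (nat_lit 684) (nat_lit 0) (XT.lf (nat_lit 0) (nat_lit 59463337941) (nat_lit 304) (nat_lit 3507098413) (nat_lit 380) (nat_lit 7509238727) (nat_lit 72) (nat_lit 5) (nat_lit 76) (nat_lit 5) (nat_lit 77) (nat_lit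 5) (nat_lit 302) (nat_lit 291) (nat_lit 187)) (XT.nd (nat_lit 78) (nat_lit 304) (nat_lit 0) (XT.lf (nat_lit 0) (nat_lit 5557901183) (nat_lit 380) (nat_lit 26891758406) (nat_lit 76) (nat_lit 41320480329) (nat_lit 67) (nat_lit 5) (nat_lit 72) (nat_lit 5) (nat_lit 68) (nat_lit 5) (nat_lit 303) (nat_lit 291) (nat_lit 186)) (XT.lf (nat_lit 0) (nat_lit 20389192683) (nat_lit 380) (nat_lit 44124676231) (nat_lit 76) (nat_lit 12754727925) (nat_lit 63) (nat_lit 5) (nat_lit 68) (nat_lit 5) (nat_lit 64) (nat_lit 5) (nat_lit 304) (nat_lit 291) (nat_lit 185)))) (XT.nd (nat_lit 78) (nat_lit 228) (nat_lit 0) (XT.lf (nat_lit 0) (nat_lit 17935748177) (nat_lit 304) (nat_lit 19772282337) (nat_lit 380) (nat_lit 43273850785) (nat_lit 59) (nat_lit 5) (nat_lit 63) (nat_lit 5) (nat_lit 64) (nat_lit 5) (nat_lit 305) (nat_lit 291) (nat_lit 184)) (XT.nd (nat_lit 78) (nat_lit 0) (nat_lit 0) (XT.lf (nat_lit 0) (nat_lit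 1158962495) (nat_lit 228) (nat_lit 56496314141) (nat_lit 304) (nat_lit 27274809723) (nat_lit 56) (nat_lit 5) (nat_lit 59) (nat_lit 5) (nat_lit 60) (nat_lit 5) (nat_lit 306) (nat_lit 291) (nat_lit 183)) (XT.lf (nat_lit 0) (nat_lit 72404825360) (nat_lit 228) (nat_lit 8217696555) (nat_lit 304) (nat_lit 8500417623) (nat_lit 56) (nat_lit 5) (nat_lit 59) (nat_lit 5) (nat_lit 60) (nat_lit 5) (nat_lit 307) (nat_lit 291) (nat_lit 182))))))) (XT.nd (nat_lit 858) (nat_lit 1064) (nat_lit 0) (XT.nd (nat_lit 390) (nat_lit 912) (nat_lit 0) (XT.nd (nat_lit 156) (nat_lit 456) (nat_lit 0) (XT.nd (nat_lit 78) (nat_lit 228) (nat_lit 0) (XT.lf (nat_lit 0) (nat_lit 12995932778) (nat_lit 304) (nat_lit 36952471224) (nat_lit 76) (nat_lit 43613781076) (nat_lit 52) (nat_lit 5) (nat_lit 56) (nat_lit 5) (nat_lit 53) (nat_lit 5) (nat_lit 308) (nat_lit 291) (nat_lit 181)) (XT.lf (nat_lit 0) (nat_lit 36992232909) (nat_lit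 304) (nat_lit 59310954525) (nat_lit 76) (nat_lit 1992514720) (nat_lit 49) (nat_lit 5) (nat_lit 53) (nat_lit 5) (nat_lit 50) (nat_lit 5) (nat_lit 309) (nat_lit 291) (nat_lit 180))) (XT.nd (nat_lit 78) (nat_lit 228) (nat_lit 0) (XT.lf (nat_lit 0) (nat_lit 18683605713) (nat_lit 228) (nat_lit 46011074765) (nat_lit 304) (nat_lit 38623899982) (nat_lit 46) (nat_lit 5) (nat_lit 49) (nat_lit 5) (nat_lit 50) (nat_lit 5) (nat_lit 310) (nat_lit 291) (nat_lit 179)) (XT.nd (nat_lit 78) (nat_lit 228) (nat_lit 0) (XT.lf (nat_lit 0) (nat_lit 95791433949) (nat_lit 304) (nat_lit 3804887370) (nat_lit 76) (nat_lit 9088064087) (nat_lit 46) (nat_lit 5) (nat_lit 50) (nat_lit 5) (nat_lit 47) (nat_lit 5) (nat_lit 311) (nat_lit 291) (nat_lit 178)) (XT.lf (nat_lit 0) (nat_lit 16562656821) (nat_lit 228) (nat_lit 29192709691) (nat_lit 76) (nat_lit 68605312910) (nat_lit 43) (nat_lit 5) (nat_lit 46) (nat_lit 5) (nat_lit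 44) (nat_lit 5) (nat_lit 312) (nat_lit 291) (nat_lit 177))))) (XT.nd (nat_lit 234) (nat_lit 380) (nat_lit 0) (XT.nd (nat_lit 78) (nat_lit 304) (nat_lit 0) (XT.lf (nat_lit 0) (nat_lit 49187946679) (nat_lit 304) (nat_lit 57949477165) (nat_lit 76) (nat_lit 13279839704) (nat_lit 40) (nat_lit 5) (nat_lit 44) (nat_lit 5) (nat_lit 41) (nat_lit 5) (nat_lit 313) (nat_lit 291) (nat_lit 176)) (XT.nd (nat_lit 78) (nat_lit 152) (nat_lit 0) (XT.lf (nat_lit 0) (nat_lit 35938934782) (nat_lit 152) (nat_lit 50332407544) (nat_lit 228) (nat_lit 40594629370) (nat_lit 38) (nat_lit 5) (nat_lit 40) (nat_lit 5) (nat_lit 41) (nat_lit 5) (nat_lit 314) (nat_lit 291) (nat_lit 175)) (XT.lf (nat_lit 0) (nat_lit 5616809970) (nat_lit 152) (nat_lit 121988953561) (nat_lit 228) (nat_lit 6160596588) (nat_lit 36) (nat_lit 5) (nat_lit 38) (nat_lit 5) (nat_lit 39) (nat_lit 5) (nat_lit 315) (nat_lit 291) (nat_lit 174)))) (XT.nd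 (nat_lit 78) (nat_lit 304) (nat_lit 0) (XT.lf (nat_lit 0) (nat_lit 32492324642) (nat_lit 228) (nat_lit 29369577868) (nat_lit 76) (nat_lit 79209793408) (nat_lit 35) (nat_lit 5) (nat_lit 38) (nat_lit 5) (nat_lit 36) (nat_lit 5) (nat_lit 316) (nat_lit 291) (nat_lit 173)) (XT.nd (nat_lit 78) (nat_lit 152) (nat_lit 0) (XT.lf (nat_lit 0) (nat_lit 75338727528) (nat_lit 228) (nat_lit 69204339762) (nat_lit 76) (nat_lit 4347488434) (nat_lit 33) (nat_lit 5) (nat_lit 36) (nat_lit 5) (nat_lit 34) (nat_lit 5) (nat_lit 317) (nat_lit 291) (nat_lit 172)) (XT.lf (nat_lit 0) (nat_lit 41480191644) (nat_lit 152) (nat_lit 82342217999) (nat_lit 228) (nat_lit 33402037319) (nat_lit 31) (nat_lit 5) (nat_lit 33) (nat_lit 5) (nat_lit 34) (nat_lit 5) (nat_lit 318) (nat_lit 291) (nat_lit 171)))))) (XT.nd (nat_lit 390) (nat_lit 532) (nat_lit 0) (XT.nd (nat_lit 156) (nat_lit 304) (nat_lit 0) (XT.nd (nat_lit 78) (nat_lit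 152) (nat_lit 0) (XT.lf (nat_lit 0) (nat_lit 10865113037) (nat_lit 228) (nat_lit 2851092361) (nat_lit 76) (nat_lit 152439862509) (nat_lit 30) (nat_lit 5) (nat_lit 33) (nat_lit 5) (nat_lit 31) (nat_lit 5) (nat_lit 319) (nat_lit 291) (nat_lit 170)) (XT.lf (nat_lit 0) (nat_lit 60413009544) (nat_lit 228) (nat_lit 54235045167) (nat_lit 76) (nat_lit 60981304972) (nat_lit 28) (nat_lit 5) (nat_lit 31) (nat_lit 5) (nat_lit 29) (nat_lit 5) (nat_lit 320) (nat_lit 291) (nat_lit 169))) (XT.nd (nat_lit 78) (nat_lit 152) (nat_lit 0) (XT.lf (nat_lit 0) (nat_lit 71890339909) (nat_lit 152) (nat_lit 43437582209) (nat_lit 228) (nat_lit 70462434219) (nat_lit 26) (nat_lit 5) (nat_lit 28) (nat_lit 5) (nat_lit 29) (nat_lit 5) (nat_lit 321) (nat_lit 291) (nat_lit 168)) (XT.nd (nat_lit 78) (nat_lit 76) (nat_lit 0) (XT.lf (nat_lit 0) (nat_lit 13208583608) (nat_lit 76) (nat_lit 163115504939) (nat_lit 152) (nat_lit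 20355741829) (nat_lit 25) (nat_lit 5) (nat_lit 26) (nat_lit 5) (nat_lit 27) (nat_lit 4) (nat_lit 322) (nat_lit 291) (nat_lit 167)) (XT.lf (nat_lit 0) (nat_lit 35427084247) (nat_lit 152) (nat_lit 55081664286) (nat_lit 76) (nat_lit 117767954779) (nat_lit 24) (nat_lit 5) (nat_lit 26) (nat_lit 5) (nat_lit 25) (nat_lit 5) (nat_lit 323) (nat_lit 291) (nat_lit 166))))) (XT.nd (nat_lit 234) (nat_lit 304) (nat_lit 0) (XT.nd (nat_lit 78) (nat_lit 76) (nat_lit 0) (XT.lf (nat_lit 0) (nat_lit 85986504139) (nat_lit 152) (nat_lit 10324043848) (nat_lit 228) (nat_lit 124406534751) (nat_lit 22) (nat_lit 5) (nat_lit 24) (nat_lit 5) (nat_lit 25) (nat_lit 5) (nat_lit 324) (nat_lit 291) (nat_lit 165)) (XT.nd (nat_lit 78) (nat_lit 0) (nat_lit 0) (XT.lf (nat_lit 0) (nat_lit 5159469467) (nat_lit 76) (nat_lit 159151047816) (nat_lit 152) (nat_lit 69729884338) (nat_lit 21) (nat_lit 5) (nat_lit 22) (nat_lit 5) (nat_lit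 23) (nat_lit 4) (nat_lit 325) (nat_lit 291) (nat_lit 164)) (XT.lf (nat_lit 0) (nat_lit 160870710904) (nat_lit 76) (nat_lit 79397191600) (nat_lit 152) (nat_lit 8035813081) (nat_lit 21) (nat_lit 5) (nat_lit 22) (nat_lit 5) (nat_lit 23) (nat_lit 4) (nat_lit 326) (nat_lit 291) (nat_lit 163)))) (XT.nd (nat_lit 78) (nat_lit 76) (nat_lit 0) (XT.lf (nat_lit 0) (nat_lit 57893835713) (nat_lit 228) (nat_lit 197203145282) (nat_lit 76) (nat_lit 8506602499) (nat_lit 18) (nat_lit 5) (nat_lit 21) (nat_lit 5) (nat_lit 19) (nat_lit 4) (nat_lit 327) (nat_lit 291) (nat_lit 162)) (XT.nd (nat_lit 78) (nat_lit 76) (nat_lit 0) (XT.lf (nat_lit 0) (nat_lit 131706156488) (nat_lit 228) (nat_lit 45889029394) (nat_lit 76) (nat_lit 102381176830) (nat_lit 18) (nat_lit 5) (nat_lit 21) (nat_lit 5) (nat_lit 19) (nat_lit 4) (nat_lit 328) (nat_lit 291) (nat_lit 161)) (XT.lf (nat_lit 0) (nat_lit 121415096938) (nat_lit 76)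 (nat_lit 91903344166) (nat_lit 152) (nat_lit 84245774623) (nat_lit 17) (nat_lit 5) (nat_lit 18) (nat_lit 5) (nat_lit 19) (nat_lit 4) (nat_lit 329) (nat_lit 291) (nat_lit 160))))))))
noncomputable def xc101 : XT := (XT.nd (nat_lit 38064) (nat_lit 0) (nat_lit 1976) (XT.nd (nat_lit 780) (nat_lit 228) (nat_lit 0) (XT.nd (nat_lit 390) (nat_lit 304) (nat_lit 0) (XT.nd (nat_lit 156) (nat_lit 76) (nat_lit 0) (XT.nd (nat_lit 78) (nat_lit 152) (nat_lit 0) (XT.lf (nat_lit 0) (nat_lit 302281593787) (nat_lit 152) (nat_lit 12801183253) (nat_lit 0) (nat_lit 1435226022) (nat_lit 17) (nat_lit 5) (nat_lit 19) (nat_lit 4) (nat_lit 17) (nat_lit 4) (nat_lit 330) (nat_lit 291) (nat_lit 159)) (XT.lf (nat_lit 0) (nat_lit 63640619119) (nat_lit 152) (nat_lit 170383961731) (nat_lit 76) (nat_lit 102704039273) (nat_lit 15) (nat_lit 5) (nat_lit 17) (nat_lit 5) (nat_lit 16) (nat_lit 4) (nat_lit 331) (nat_lit 291) (nat_lit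 158))) (XT.nd (nat_lit 78) (nat_lit 0) (nat_lit 0) (XT.lf (nat_lit 0) (nat_lit 1538879862) (nat_lit 76) (nat_lit 145966929899) (nat_lit 152) (nat_lit 211025769159) (nat_lit 14) (nat_lit 5) (nat_lit 15) (nat_lit 5) (nat_lit 16) (nat_lit 4) (nat_lit 332) (nat_lit 291) (nat_lit 157)) (XT.nd (nat_lit 78) (nat_lit 0) (nat_lit 0) (XT.lf (nat_lit 0) (nat_lit 193298926693) (nat_lit 76) (nat_lit 47748730314) (nat_lit 152) (nat_lit 140882745605) (nat_lit 14) (nat_lit 5) (nat_lit 15) (nat_lit 5) (nat_lit 16) (nat_lit 4) (nat_lit 333) (nat_lit 291) (nat_lit 156)) (XT.lf (nat_lit 0) (nat_lit 342982994885) (nat_lit 152) (nat_lit 7712926360) (nat_lit 0) (nat_lit 56459704050) (nat_lit 14) (nat_lit 5) (nat_lit 16) (nat_lit 4) (nat_lit 14) (nat_lit 4) (nat_lit 334) (nat_lit 291) (nat_lit 155))))) (XT.nd (nat_lit 156) (nat_lit 152) (nat_lit 0) (XT.nd (nat_lit 78) (nat_lit 0) (nat_lit 0) (XT.lf (nat_lit 0)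 (nat_lit 21957948976) (nat_lit 152) (nat_lit 241510099671) (nat_lit 76) (nat_lit 170722172003) (nat_lit 12) (nat_lit 5) (nat_lit 14) (nat_lit 5) (nat_lit 13) (nat_lit 4) (nat_lit 335) (nat_lit 291) (nat_lit 154)) (XT.lf (nat_lit 0) (nat_lit 112896840210) (nat_lit 152) (nat_lit 55085932120) (nat_lit 76) (nat_lit 295343902889) (nat_lit 12) (nat_lit 5) (nat_lit 14) (nat_lit 5) (nat_lit 13) (nat_lit 4) (nat_lit 336) (nat_lit 291) (nat_lit 153))) (XT.nd (nat_lit 78) (nat_lit 76) (nat_lit 0) (XT.lf (nat_lit 0) (nat_lit 151087128163) (nat_lit 76) (nat_lit 62382189276) (nat_lit 152) (nat_lit 281206805161) (nat_lit 11) (nat_lit 5) (nat_lit 12) (nat_lit 5) (nat_lit 13) (nat_lit 4) (nat_lit 337) (nat_lit 291) (nat_lit 152)) (XT.nd (nat_lit 78) (nat_lit 76) (nat_lit 0) (XT.lf (nat_lit 0) (nat_lit 323869138083) (nat_lit 152) (nat_lit 153587555608) (nat_lit 0) (nat_lit 50987754985) (nat_lit 11) (nat_lit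 5) (nat_lit 13) (nat_lit 4) (nat_lit 11) (nat_lit 4) (nat_lit 338) (nat_lit 291) (nat_lit 151)) (XT.lf (nat_lit 0) (nat_lit 52233211869) (nat_lit 76) (nat_lit 392734742357) (nat_lit 76) (nat_lit 119852936276) (nat_lit 10) (nat_lit 4) (nat_lit 11) (nat_lit 5) (nat_lit 11) (nat_lit 4) (nat_lit 339) (nat_lit 291) (nat_lit 150)))))) (XT.nd (nat_lit 390) (nat_lit 76) (nat_lit 0) (XT.nd (nat_lit 156) (nat_lit 76) (nat_lit 0) (XT.nd (nat_lit 78) (nat_lit 76) (nat_lit 0) (XT.lf (nat_lit 0) (nat_lit 280003535361) (nat_lit 76) (nat_lit 298426179124) (nat_lit 76) (nat_lit 25543981391) (nat_lit 10) (nat_lit 4) (nat_lit 11) (nat_lit 5) (nat_lit 11) (nat_lit 4) (nat_lit 340) (nat_lit 291) (nat_lit 149)) (XT.lf (nat_lit 0) (nat_lit 73866966852) (nat_lit 152) (nat_lit 121455278325) (nat_lit 76) (nat_lit 450876927044) (nat_lit 9) (nat_lit 5) (nat_lit 11) (nat_lit 5) (nat_lit 10) (nat_lit 4) (nat_lit 341)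 (nat_lit 291) (nat_lit 148))) (XT.nd (nat_lit 78) (nat_lit 0) (nat_lit 0) (XT.lf (nat_lit 0) (nat_lit 100031113958) (nat_lit 76) (nat_lit 81878159265) (nat_lit 152) (nat_lit 509793804930) (nat_lit 8) (nat_lit 5) (nat_lit 9) (nat_lit 5) (nat_lit 10) (nat_lit 4) (nat_lit 342) (nat_lit 291) (nat_lit 147)) (XT.nd (nat_lit 78) (nat_lit 0) (nat_lit 0) (XT.lf (nat_lit 0) (nat_lit 301379545673) (nat_lit 152) (nat_lit 397837744868) (nat_lit 0) (nat_lit 41490777048) (nat_lit 8) (nat_lit 5) (nat_lit 10) (nat_lit 4) (nat_lit 8) (nat_lit 4) (nat_lit 343) (nat_lit 291) (nat_lit 146)) (XT.lf (nat_lit 0) (nat_lit 431787776394) (nat_lit 152) (nat_lit 189877929462) (nat_lit 0) (nat_lit 171898733602) (nat_lit 8) (nat_lit 5) (nat_lit 10) (nat_lit 4) (nat_lit 8) (nat_lit 4) (nat_lit 344) (nat_lit 291) (nat_lit 145))))) (XT.nd (nat_lit 36660) (nat_lit 0) (nat_lit 6004) (XT.nd (nat_lit 36504) (nat_lit 0) (nat_lit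 6612) (XT.lf (nat_lit 0) (nat_lit 35866123967) (nat_lit 76) (nat_lit 537322254114) (nat_lit 76) (nat_lit 277432957463) (nat_lit 7) (nat_lit 4) (nat_lit 8) (nat_lit 5) (nat_lit 8) (nat_lit 4) (nat_lit 345) (nat_lit 291) (nat_lit 144)) (XT.nd (nat_lit 78) (nat_lit 0) (nat_lit 0) (XT.lf (nat_lit 0) (nat_lit 10802651859) (nat_lit 0) (nat_lit 10802651859) (nat_lit 684) (nat_lit 2375703235) (nat_lit 94) (nat_lit 5) (nat_lit 94) (nat_lit 3) (nat_lit 103) (nat_lit 3) (nat_lit 292) (nat_lit 292) (nat_lit 196)) (XT.lf (nat_lit 76) (nat_lit 8891950266) (nat_lit 0) (nat_lit 36442107225) (nat_lit 760) (nat_lit 4526611063) (nat_lit 95) (nat_lit 5) (nat_lit 94) (nat_lit 5) (nat_lit 104) (nat_lit 5) (nat_lit 293) (nat_lit 292) (nat_lit 195)))) (XT.nd (nat_lit 78) (nat_lit 608) (nat_lit 0) (XT.lf (nat_lit 76) (nat_lit 47522913123) (nat_lit 0) (nat_lit 917808343) (nat_lit 760) (nat_lit 3429834674) (nat_lit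 95) (nat_lit 5) (nat_lit 94) (nat_lit 5) (nat_lit 104) (nat_lit 5) (nat_lit 294) (nat_lit 292) (nat_lit 194)) (XT.nd (nat_lit 78) (nat_lit 684) (nat_lit 0) (XT.lf (nat_lit 76) (nat_lit 35760526367) (nat_lit 0) (nat_lit 17174518680) (nat_lit 760) (nat_lit 1049240276) (nat_lit 96) (nat_lit 5) (nat_lit 95) (nat_lit 5) (nat_lit 105) (nat_lit 5) (nat_lit 295) (nat_lit 292) (nat_lit 193)) (XT.lf (nat_lit 0) (nat_lit 2271258544) (nat_lit 760) (nat_lit 32898275897) (nat_lit 836) (nat_lit 21056488314) (nat_lit 86) (nat_lit 5) (nat_lit 96) (nat_lit 5) (nat_lit 97) (nat_lit 5) (nat_lit 296) (nat_lit 292) (nat_lit 192))))))) (XT.nd (nat_lit 858) (nat_lit 1748) (nat_lit 0) (XT.nd (nat_lit 390) (nat_lit 1520) (nat_lit 0) (XT.nd (nat_lit 156) (nat_lit 836) (nat_lit 0) (XT.nd (nat_lit 78) (nat_lit 0) (nat_lit 0) (XT.lf (nat_lit 0) (nat_lit 6646661626) (nat_lit 760) (nat_lit 48429273881) (nat_lit 836)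 (nat_lit 3529008055) (nat_lit 87) (nat_lit 5) (nat_lit 97) (nat_lit 5) (nat_lit 98) (nat_lit 5) (nat_lit 297) (nat_lit 292) (nat_lit 191)) (XT.lf (nat_lit 0) (nat_lit 12544374227) (nat_lit 760) (nat_lit 3880273241) (nat_lit 836) (nat_lit 44690921929) (nat_lit 87) (nat_lit 5) (nat_lit 97) (nat_lit 5) (nat_lit 98) (nat_lit 5) (nat_lit 298) (nat_lit 292) (nat_lit 190))) (XT.nd (nat_lit 78) (nat_lit 912) (nat_lit 0) (XT.lf (nat_lit 0) (nat_lit 20031324521) (nat_lit 760) (nat_lit 18505884081) (nat_lit 76) (nat_lit 25233970501) (nat_lit 88) (nat_lit 5) (nat_lit 98) (nat_lit 5) (nat_lit 89) (nat_lit 5) (nat_lit 299) (nat_lit 292) (nat_lit 189)) (XT.nd (nat_lit 78) (nat_lit 380) (nat_lit 0) (XT.lf (nat_lit 0) (nat_lit 29026025690) (nat_lit 608) (nat_lit 34045130353) (nat_lit 76) (nat_lit 3522646281) (nat_lit 81) (nat_lit 5) (nat_lit 89) (nat_lit 5) (nat_lit 82) (nat_lit 5) (nat_lit 300) (nat_lit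 292) (nat_lit 188)) (XT.lf (nat_lit 0) (nat_lit 18661995809) (nat_lit 380) (nat_lit 21344519197) (nat_lit 456) (nat_lit 29572413942) (nat_lit 76) (nat_lit 5) (nat_lit 81) (nat_lit 5) (nat_lit 82) (nat_lit 5) (nat_lit 301) (nat_lit 292) (nat_lit 187))))) (XT.nd (nat_lit 234) (nat_lit 836) (nat_lit 0) (XT.nd (nat_lit 78) (nat_lit 380) (nat_lit 0) (XT.lf (nat_lit 0) (nat_lit 3766154344) (nat_lit 304) (nat_lit 49128744167) (nat_lit 380) (nat_lit 19856498281) (nat_lit 72) (nat_lit 5) (nat_lit 76) (nat_lit 5) (nat_lit 77) (nat_lit 5) (nat_lit 302) (nat_lit 292) (nat_lit 186)) (XT.nd (nat_lit 78) (nat_lit 380) (nat_lit 0) (XT.lf (nat_lit 0) (nat_lit 64267875164) (nat_lit 304) (nat_lit 3785212867) (nat_lit 380) (nat_lit 8062640823) (nat_lit 72) (nat_lit 5) (nat_lit 76) (nat_lit 5) (nat_lit 77) (nat_lit 5) (nat_lit 303) (nat_lit 292) (nat_lit 185)) (XT.lf (nat_lit 0) (nat_lit 6045752225) (nat_lit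 380) (nat_lit 28994018920) (nat_lit 76) (nat_lit 44629757824) (nat_lit 67) (nat_lit 5) (nat_lit 72) (nat_lit 5) (nat_lit 68) (nat_lit 5) (nat_lit 304) (nat_lit 292) (nat_lit 184)))) (XT.nd (nat_lit 78) (nat_lit 532) (nat_lit 0) (XT.lf (nat_lit 0) (nat_lit 22061175366) (nat_lit 380) (nat_lit 47605705695) (nat_lit 76) (nat_lit 13781104500) (nat_lit 63) (nat_lit 5) (nat_lit 68) (nat_lit 5) (nat_lit 64) (nat_lit 5) (nat_lit 305) (nat_lit 292) (nat_lit 183)) (XT.nd (nat_lit 78) (nat_lit 228) (nat_lit 0) (XT.lf (nat_lit 0) (nat_lit 19417425592) (nat_lit 304) (nat_lit 21345799862) (nat_lit 380) (nat_lit 46695226260) (nat_lit 59) (nat_lit 5) (nat_lit 63) (nat_lit 5) (nat_lit 64) (nat_lit 5) (nat_lit 306) (nat_lit 292) (nat_lit 182)) (XT.lf (nat_lit 0) (nat_lit 1298233026) (nat_lit 228) (nat_lit 61006008812) (nat_lit 304) (nat_lit 29418375698) (nat_lit 56) (nat_lit 5) (nat_lit 59) (nat_lit 5) (nat_lit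 60) (nat_lit 5) (nat_lit 307) (nat_lit 292) (nat_lit 181)))))) (XT.nd (nat_lit 390) (nat_lit 988) (nat_lit 0) (XT.nd (nat_lit 156) (nat_lit 456) (nat_lit 0) (XT.nd (nat_lit 78) (nat_lit 304) (nat_lit 0) (XT.lf (nat_lit 0) (nat_lit 78240316511) (nat_lit 228) (nat_lit 8865843335) (nat_lit 304) (nat_lit 9144878067) (nat_lit 56) (nat_lit 5) (nat_lit 59) (nat_lit 5) (nat_lit 60) (nat_lit 5) (nat_lit 308) (nat_lit 292) (nat_lit 180)) (XT.lf (nat_lit 0) (nat_lit 14068305767) (nat_lit 304) (nat_lit 39864793391) (nat_lit 76) (nat_lit 47112386143) (nat_lit 52) (nat_lit 5) (nat_lit 56) (nat_lit 5) (nat_lit 53) (nat_lit 5) (nat_lit 309) (nat_lit 292) (nat_lit 179))) (XT.nd (nat_lit 78) (nat_lit 228) (nat_lit 0) (XT.lf (nat_lit 0) (nat_lit 39982715380) (nat_lit 304) (nat_lit 64012451153) (nat_lit 76) (nat_lit 2162599876) (nat_lit 49) (nat_lit 5) (nat_lit 53) (nat_lit 5) (nat_lit 50) (nat_lit 5) (nat_lit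 310) (nat_lit 292) (nat_lit 178)) (XT.nd (nat_lit 78) (nat_lit 0) (nat_lit 0) (XT.lf (nat_lit 0) (nat_lit 20219788673) (nat_lit 228) (nat_lit 49679913938) (nat_lit 304) (nat_lit 41682857894) (nat_lit 46) (nat_lit 5) (nat_lit 49) (nat_lit 5) (nat_lit 50) (nat_lit 5) (nat_lit 311) (nat_lit 292) (nat_lit 177)) (XT.lf (nat_lit 0) (nat_lit 103482189201) (nat_lit 304) (nat_lit 4069636869) (nat_lit 76) (nat_lit 9825906655) (nat_lit 46) (nat_lit 5) (nat_lit 50) (nat_lit 5) (nat_lit 47) (nat_lit 5) (nat_lit 312) (nat_lit 292) (nat_lit 176))))) (XT.nd (nat_lit 234) (nat_lit 380) (nat_lit 0) (XT.nd (nat_lit 78) (nat_lit 380) (nat_lit 0) (XT.lf (nat_lit 0) (nat_lit 17914123739) (nat_lit 228) (nat_lit 31489305279) (nat_lit 76) (nat_lit 74104754274) (nat_lit 43) (nat_lit 5) (nat_lit 46) (nat_lit 5) (nat_lit 44) (nat_lit 5) (nat_lit 313) (nat_lit 292) (nat_lit 175)) (XT.nd (nat_lit 78) (nat_lit 152)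 (nat_lit 0) (XT.lf (nat_lit 0) (nat_lit 53148245252) (nat_lit 304) (nat_lit 62547210117) (nat_lit 76) (nat_lit 14353900411) (nat_lit 40) (nat_lit 5) (nat_lit 44) (nat_lit 5) (nat_lit 41) (nat_lit 5) (nat_lit 314) (nat_lit 292) (nat_lit 174)) (XT.lf (nat_lit 0) (nat_lit 38850613564) (nat_lit 152) (nat_lit 54346398532) (nat_lit 228) (nat_lit 43817015411) (nat_lit 38) (nat_lit 5) (nat_lit 40) (nat_lit 5) (nat_lit 41) (nat_lit 5) (nat_lit 315) (nat_lit 292) (nat_lit 173)))) (XT.nd (nat_lit 78) (nat_lit 228) (nat_lit 0) (XT.lf (nat_lit 0) (nat_lit 6102110365) (nat_lit 152) (nat_lit 131735045181) (nat_lit 228) (nat_lit 6629344794) (nat_lit 36) (nat_lit 5) (nat_lit 38) (nat_lit 5) (nat_lit 39) (nat_lit 5) (nat_lit 316) (nat_lit 292) (nat_lit 172)) (XT.nd (nat_lit 78) (nat_lit 152) (nat_lit 0) (XT.lf (nat_lit 0) (nat_lit 35113310786) (nat_lit 228) (nat_lit 31685118240) (nat_lit 76) (nat_lit 85557903119)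 (nat_lit 35) (nat_lit 5) (nat_lit 38) (nat_lit 5) (nat_lit 36) (nat_lit 5) (nat_lit 317) (nat_lit 292) (nat_lit 171)) (XT.lf (nat_lit 0) (nat_lit 81386522002) (nat_lit 228) (nat_lit 74707284355) (nat_lit 76) (nat_lit 4706941014) (nat_lit 33) (nat_lit 5) (nat_lit 36) (nat_lit 5) (nat_lit 34) (nat_lit 5) (nat_lit 318) (nat_lit 292) (nat_lit 170))))))))
noncomputable def xc102 : XT := (XT.nd (nat_lit 1638) (nat_lit 228) (nat_lit 0) (XT.nd (nat_lit 780) (nat_lit 532) (nat_lit 0) (XT.nd (nat_lit 390) (nat_lit 532) (nat_lit 0) (XT.nd (nat_lit 156) (nat_lit 380) (nat_lit 0) (XT.nd (nat_lit 78) (nat_lit 76) (nat_lit 0) (XT.lf (nat_lit 0) (nat_lit 44830557928) (nat_lit 152) (nat_lit 88917306544) (nat_lit 228) (nat_lit 36053538480) (nat_lit 31) (nat_lit 5) (nat_lit 33) (nat_lit 5) (nat_lit 34) (nat_lit 5) (nat_lit 319) (nat_lit 292) (nat_lit 169)) (XT.lf (nat_lit 0) (nat_lit 11752841078) (nat_lit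 228) (nat_lit 3048968518) (nat_lit 76) (nat_lit 164645803099) (nat_lit 30) (nat_lit 5) (nat_lit 33) (nat_lit 5) (nat_lit 31) (nat_lit 5) (nat_lit 320) (nat_lit 292) (nat_lit 168))) (XT.nd (nat_lit 78) (nat_lit 228) (nat_lit 0) (XT.lf (nat_lit 0) (nat_lit 65263825134) (nat_lit 228) (nat_lit 58544233387) (nat_lit 76) (nat_lit 65870747588) (nat_lit 28) (nat_lit 5) (nat_lit 31) (nat_lit 5) (nat_lit 29) (nat_lit 5) (nat_lit 321) (nat_lit 292) (nat_lit 167)) (XT.nd (nat_lit 78) (nat_lit 76) (nat_lit 0) (XT.lf (nat_lit 0) (nat_lit 77669895445) (nat_lit 152) (nat_lit 46901160899) (nat_lit 228) (nat_lit 76081670877) (nat_lit 26) (nat_lit 5) (nat_lit 28) (nat_lit 5) (nat_lit 29) (nat_lit 5) (nat_lit 322) (nat_lit 292) (nat_lit 166)) (XT.lf (nat_lit 0) (nat_lit 14293017209) (nat_lit 76) (nat_lit 176153245407) (nat_lit 152) (nat_lit 21967130177) (nat_lit 25) (nat_lit 5) (nat_lit 26) (nat_lit 5) (nat_lit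 27) (nat_lit 4) (nat_lit 323) (nat_lit 292) (nat_lit 165))))) (XT.nd (nat_lit 156) (nat_lit 304) (nat_lit 0) (XT.nd (nat_lit 78) (nat_lit 152) (nat_lit 0) (XT.lf (nat_lit 0) (nat_lit 38276551561) (nat_lit 152) (nat_lit 59461989651) (nat_lit 76) (nat_lit 127199523049) (nat_lit 24) (nat_lit 5) (nat_lit 26) (nat_lit 5) (nat_lit 25) (nat_lit 5) (nat_lit 324) (nat_lit 292) (nat_lit 164)) (XT.lf (nat_lit 0) (nat_lit 92890493290) (nat_lit 152) (nat_lit 11139457128) (nat_lit 228) (nat_lit 134343761483) (nat_lit 22) (nat_lit 5) (nat_lit 24) (nat_lit 5) (nat_lit 25) (nat_lit 5) (nat_lit 325) (nat_lit 292) (nat_lit 163))) (XT.nd (nat_lit 78) (nat_lit 228) (nat_lit 0) (XT.lf (nat_lit 0) (nat_lit 5596754828) (nat_lit 76) (nat_lit 171872618904) (nat_lit 152) (nat_lit 75293550447) (nat_lit 21) (nat_lit 5) (nat_lit 22) (nat_lit 5) (nat_lit 23) (nat_lit 4) (nat_lit 326) (nat_lit 292) (nat_lit 162)) (XT.nd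 (nat_lit 78) (nat_lit 228) (nat_lit 0) (XT.lf (nat_lit 0) (nat_lit 173763078705) (nat_lit 76) (nat_lit 85739232911) (nat_lit 152) (nat_lit 8665044203) (nat_lit 21) (nat_lit 5) (nat_lit 22) (nat_lit 5) (nat_lit 23) (nat_lit 4) (nat_lit 327) (nat_lit 292) (nat_lit 161)) (XT.lf (nat_lit 0) (nat_lit 62538057949) (nat_lit 228) (nat_lit 212956762248) (nat_lit 76) (nat_lit 9196407006) (nat_lit 18) (nat_lit 5) (nat_lit 21) (nat_lit 5) (nat_lit 19) (nat_lit 4) (nat_lit 328) (nat_lit 292) (nat_lit 160)))))) (XT.nd (nat_lit 390) (nat_lit 228) (nat_lit 0) (XT.nd (nat_lit 156) (nat_lit 228) (nat_lit 0) (XT.nd (nat_lit 78) (nat_lit 76) (nat_lit 0) (XT.lf (nat_lit 0) (nat_lit 142254422507) (nat_lit 228) (nat_lit 49539193730) (nat_lit 76) (nat_lit 110580260149) (nat_lit 18) (nat_lit 5) (nat_lit 21) (nat_lit 5) (nat_lit 19) (nat_lit 4) (nat_lit 329) (nat_lit 292) (nat_lit 159)) (XT.lf (nat_lit 0) (nat_lit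 131148351899) (nat_lit 76) (nat_lit 99246778875) (nat_lit 152) (nat_lit 90973655319) (nat_lit 17) (nat_lit 5) (nat_lit 18) (nat_lit 5) (nat_lit 19) (nat_lit 4) (nat_lit 330) (nat_lit 292) (nat_lit 158))) (XT.nd (nat_lit 78) (nat_lit 228) (nat_lit 0) (XT.lf (nat_lit 0) (nat_lit 326474632666) (nat_lit 152) (nat_lit 13806318475) (nat_lit 0) (nat_lit 1557960880) (nat_lit 17) (nat_lit 5) (nat_lit 19) (nat_lit 4) (nat_lit 17) (nat_lit 4) (nat_lit 331) (nat_lit 292) (nat_lit 157)) (XT.nd (nat_lit 78) (nat_lit 76) (nat_lit 0) (XT.lf (nat_lit 0) (nat_lit 68742053869) (nat_lit 152) (nat_lit 183996201375) (nat_lit 76) (nat_lit 110928140187) (nat_lit 15) (nat_lit 5) (nat_lit 17) (nat_lit 5) (nat_lit 16) (nat_lit 4) (nat_lit 332) (nat_lit 292) (nat_lit 156)) (XT.lf (nat_lit 0) (nat_lit 1679664545) (nat_lit 76) (nat_lit 157636316702) (nat_lit 152) (nat_lit 227897633984) (nat_lit 14) (nat_lit 5) (nat_lit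 15) (nat_lit 5) (nat_lit 16) (nat_lit 4) (nat_lit 333) (nat_lit 292) (nat_lit 155))))) (XT.nd (nat_lit 234) (nat_lit 76) (nat_lit 0) (XT.nd (nat_lit 78) (nat_lit 152) (nat_lit 0) (XT.lf (nat_lit 0) (nat_lit 208779205915) (nat_lit 76) (nat_lit 51561251342) (nat_lit 152) (nat_lit 152143923857) (nat_lit 14) (nat_lit 5) (nat_lit 15) (nat_lit 5) (nat_lit 16) (nat_lit 4) (nat_lit 334) (nat_lit 292) (nat_lit 154)) (XT.nd (nat_lit 78) (nat_lit 152) (nat_lit 0) (XT.lf (nat_lit 0) (nat_lit 370430063061) (nat_lit 152) (nat_lit 8314494161) (nat_lit 0) (nat_lit 60983092665) (nat_lit 14) (nat_lit 5) (nat_lit 16) (nat_lit 4) (nat_lit 14) (nat_lit 4) (nat_lit 335) (nat_lit 292) (nat_lit 153)) (XT.lf (nat_lit 0) (nat_lit 23722755430) (nat_lit 152) (nat_lit 260815839800) (nat_lit 76) (nat_lit 184386431017) (nat_lit 12) (nat_lit 5) (nat_lit 14) (nat_lit 5) (nat_lit 13) (nat_lit 4) (nat_lit 336) (nat_lit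 292) (nat_lit 152)))) (XT.nd (nat_lit 78) (nat_lit 76) (nat_lit 0) (XT.lf (nat_lit 0) (nat_lit 121936152738) (nat_lit 152) (nat_lit 59478854983) (nat_lit 76) (nat_lit 318977419984) (nat_lit 12) (nat_lit 5) (nat_lit 14) (nat_lit 5) (nat_lit 13) (nat_lit 4) (nat_lit 337) (nat_lit 292) (nat_lit 151)) (XT.nd (nat_lit 78) (nat_lit 0) (nat_lit 0) (XT.lf (nat_lit 0) (nat_lit 163187443799) (nat_lit 76) (nat_lit 67366632311) (nat_lit 152) (nat_lit 303695772608) (nat_lit 11) (nat_lit 5) (nat_lit 12) (nat_lit 5) (nat_lit 13) (nat_lit 4) (nat_lit 338) (nat_lit 292) (nat_lit 150)) (XT.lf (nat_lit 0) (nat_lit 349785436736) (nat_lit 152) (nat_lit 165861955119) (nat_lit 0) (nat_lit 55072271534) (nat_lit 11) (nat_lit 5) (nat_lit 13) (nat_lit 4) (nat_lit 11) (nat_lit 4) (nat_lit 339) (nat_lit 292) (nat_lit 149))))))) (XT.nd (nat_lit 37362) (nat_lit 0) (nat_lit 3648) (XT.nd (nat_lit 390) (nat_lit 0) (nat_lit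 0) (XT.nd (nat_lit 156) (nat_lit 152) (nat_lit 0) (XT.nd (nat_lit 78) (nat_lit 0) (nat_lit 0) (XT.lf (nat_lit 0) (nat_lit 56423925961) (nat_lit 76) (nat_lit 424147919151) (nat_lit 76) (nat_lit 129434391309) (nat_lit 10) (nat_lit 4) (nat_lit 11) (nat_lit 5) (nat_lit 11) (nat_lit 4) (nat_lit 340) (nat_lit 292) (nat_lit 148)) (XT.lf (nat_lit 0) (nat_lit 302414982211) (nat_lit 76) (nat_lit 322295085867) (nat_lit 76) (nat_lit 27581222246) (nat_lit 10) (nat_lit 4) (nat_lit 11) (nat_lit 5) (nat_lit 11) (nat_lit 4) (nat_lit 341) (nat_lit 292) (nat_lit 147))) (XT.nd (nat_lit 78) (nat_lit 76) (nat_lit 0) (XT.lf (nat_lit 0) (nat_lit 79781950804) (nat_lit 152) (nat_lit 131161175376) (nat_lit 76) (nat_lit 486951696370) (nat_lit 9) (nat_lit 5) (nat_lit 11) (nat_lit 5) (nat_lit 10) (nat_lit 4) (nat_lit 342) (nat_lit 292) (nat_lit 146)) (XT.nd (nat_lit 78) (nat_lit 0) (nat_lit 0) (XT.lf (nat_lit 0) (nat_lit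 108043670877) (nat_lit 76) (nat_lit 88423711210) (nat_lit 152) (nat_lit 550571672007) (nat_lit 8) (nat_lit 5) (nat_lit 9) (nat_lit 5) (nat_lit 10) (nat_lit 4) (nat_lit 343) (nat_lit 292) (nat_lit 145)) (XT.lf (nat_lit 0) (nat_lit 325494946733) (nat_lit 152) (nat_lit 429655260086) (nat_lit 0) (nat_lit 44814252492) (nat_lit 8) (nat_lit 5) (nat_lit 10) (nat_lit 4) (nat_lit 8) (nat_lit 4) (nat_lit 344) (nat_lit 292) (nat_lit 144))))) (XT.nd (nat_lit 36738) (nat_lit 0) (nat_lit 5928) (XT.nd (nat_lit 36582) (nat_lit 0) (nat_lit 6536) (XT.lf (nat_lit 0) (nat_lit 466335462770) (nat_lit 152) (nat_lit 205059363475) (nat_lit 0) (nat_lit 185654533475) (nat_lit 8) (nat_lit 5) (nat_lit 10) (nat_lit 4) (nat_lit 8) (nat_lit 4) (nat_lit 345) (nat_lit 292) (nat_lit 143)) (XT.nd (nat_lit 78) (nat_lit 0) (nat_lit 0) (XT.lf (nat_lit 0) (nat_lit 11687362982) (nat_lit 0) (nat_lit 11687362982) (nat_lit 684) (nat_lit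 2522638819) (nat_lit 94) (nat_lit 5) (nat_lit 94) (nat_lit 3) (nat_lit 103) (nat_lit 3) (nat_lit 293) (nat_lit 293) (nat_lit 194)) (XT.lf (nat_lit 76) (nat_lit 9647195740) (nat_lit 0) (nat_lit 39389601036) (nat_lit 760) (nat_lit 4808789660) (nat_lit 95) (nat_lit 5) (nat_lit 94) (nat_lit 5) (nat_lit 104) (nat_lit 5) (nat_lit 294) (nat_lit 293) (nat_lit 193)))) (XT.nd (nat_lit 78) (nat_lit 608) (nat_lit 0) (XT.lf (nat_lit 76) (nat_lit 51365384555) (nat_lit 0) (nat_lit 1020978597) (nat_lit 760) (nat_lit 3630193404) (nat_lit 95) (nat_lit 5) (nat_lit 94) (nat_lit 5) (nat_lit 104) (nat_lit 5) (nat_lit 295) (nat_lit 293) (nat_lit 192)) (XT.nd (nat_lit 78) (nat_lit 684) (nat_lit 0) (XT.lf (nat_lit 76) (nat_lit 38664170702) (nat_lit 0) (nat_lit 18571086542) (nat_lit 760) (nat_lit 1064384848) (nat_lit 96) (nat_lit 5) (nat_lit 95) (nat_lit 5) (nat_lit 105) (nat_lit 5) (nat_lit 296) (nat_lit 293)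 (nat_lit 191)) (XT.lf (nat_lit 0) (nat_lit 2514993512) (nat_lit 760) (nat_lit 35483466266) (nat_lit 836) (nat_lit 22722441120) (nat_lit 86) (nat_lit 5) (nat_lit 96) (nat_lit 5) (nat_lit 97) (nat_lit 5) (nat_lit 297) (nat_lit 293) (nat_lit 190)))))) (XT.nd (nat_lit 390) (nat_lit 1520) (nat_lit 0) (XT.nd (nat_lit 156) (nat_lit 836) (nat_lit 0) (XT.nd (nat_lit 78) (nat_lit 0) (nat_lit 0) (XT.lf (nat_lit 0) (nat_lit 7236320058) (nat_lit 760) (nat_lit 52255760505) (nat_lit 836) (nat_lit 3798267799) (nat_lit 87) (nat_lit 5) (nat_lit 97) (nat_lit 5) (nat_lit 98) (nat_lit 5) (nat_lit 298) (nat_lit 293) (nat_lit 189)) (XT.lf (nat_lit 0) (nat_lit 13601558889) (nat_lit 760) (nat_lit 4146384649) (nat_lit 836) (nat_lit 48254102256) (nat_lit 87) (nat_lit 5) (nat_lit 97) (nat_lit 5) (nat_lit 98) (nat_lit 5) (nat_lit 299) (nat_lit 293) (nat_lit 188))) (XT.nd (nat_lit 78) (nat_lit 912) (nat_lit 0) (XT.lf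 (nat_lit 0) (nat_lit 21684030063) (nat_lit 760) (nat_lit 19941248970) (nat_lit 76) (nat_lit 27245003477) (nat_lit 88) (nat_lit 5) (nat_lit 98) (nat_lit 5) (nat_lit 89) (nat_lit 5) (nat_lit 300) (nat_lit 293) (nat_lit 187)) (XT.nd (nat_lit 78) (nat_lit 380) (nat_lit 0) (XT.lf (nat_lit 0) (nat_lit 31395199868) (nat_lit 608) (nat_lit 36723099912) (nat_lit 76) (nat_lit 3800577178) (nat_lit 81) (nat_lit 5) (nat_lit 89) (nat_lit 5) (nat_lit 82) (nat_lit 5) (nat_lit 301) (nat_lit 293) (nat_lit 186)) (XT.lf (nat_lit 0) (nat_lit 20198612847) (nat_lit 380) (nat_lit 23052708792) (nat_lit 456) (nat_lit 31891637960) (nat_lit 76) (nat_lit 5) (nat_lit 81) (nat_lit 5) (nat_lit 82) (nat_lit 5) (nat_lit 302) (nat_lit 293) (nat_lit 185))))) (XT.nd (nat_lit 234) (nat_lit 836) (nat_lit 0) (XT.nd (nat_lit 78) (nat_lit 380) (nat_lit 0) (XT.lf (nat_lit 0) (nat_lit 4111400569) (nat_lit 304) (nat_lit 53056772016)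 (nat_lit 380) (nat_lit 21401187587) (nat_lit 72) (nat_lit 5) (nat_lit 76) (nat_lit 5) (nat_lit 77) (nat_lit 5) (nat_lit 303) (nat_lit 293) (nat_lit 184)) (XT.nd (nat_lit 78) (nat_lit 380) (nat_lit 0) (XT.lf (nat_lit 0) (nat_lit 69450003211) (nat_lit 304) (nat_lit 4085926485) (nat_lit 380) (nat_lit 8667068240) (nat_lit 72) (nat_lit 5) (nat_lit 76) (nat_lit 5) (nat_lit 77) (nat_lit 5) (nat_lit 304) (nat_lit 293) (nat_lit 183)) (XT.lf (nat_lit 0) (nat_lit 6566465685) (nat_lit 380) (nat_lit 31271462109) (nat_lit 76) (nat_lit 48203258365) (nat_lit 67) (nat_lit 5) (nat_lit 72) (nat_lit 5) (nat_lit 68) (nat_lit 5) (nat_lit 305) (nat_lit 293) (nat_lit 182)))) (XT.nd (nat_lit 78) (nat_lit 532) (nat_lit 0) (XT.lf (nat_lit 0) (nat_lit 23861089344) (nat_lit 380) (nat_lit 51372200016) (nat_lit 76) (nat_lit 14888735471) (nat_lit 63) (nat_lit 5) (nat_lit 68) (nat_lit 5) (nat_lit 64) (nat_lit 5) (nat_lit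 306) (nat_lit 293) (nat_lit 181)) (XT.nd (nat_lit 78) (nat_lit 228) (nat_lit 0) (XT.lf (nat_lit 0) (nat_lit 21010958152) (nat_lit 304) (nat_lit 23046377892) (nat_lit 380) (nat_lit 50396094200) (nat_lit 59) (nat_lit 5) (nat_lit 63) (nat_lit 5) (nat_lit 64) (nat_lit 5) (nat_lit 307) (nat_lit 293) (nat_lit 180)) (XT.lf (nat_lit 0) (nat_lit 1442003818) (nat_lit 228) (nat_lit 65877907161) (nat_lit 304) (nat_lit 31738907823) (nat_lit 56) (nat_lit 5) (nat_lit 59) (nat_lit 5) (nat_lit 60) (nat_lit 5) (nat_lit 308) (nat_lit 293) (nat_lit 179))))))))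
noncomputable def xc103 : XT := (XT.nd (nat_lit 1638) (nat_lit 760) (nat_lit 0) (XT.nd (nat_lit 780) (nat_lit 1292) (nat_lit 0) (XT.nd (nat_lit 390) (nat_lit 836) (nat_lit 0) (XT.nd (nat_lit 156) (nat_lit 456) (nat_lit 0) (XT.nd (nat_lit 78) (nat_lit 304) (nat_lit 0) (XT.lf (nat_lit 0) (nat_lit 84536497525) (nat_lit 228) (nat_lit 9567164176) (nat_lit 304) (nat_lit 9845970228) (nat_lit 56) (nat_lit 5) (nat_lit 59) (nat_lit 5) (nat_lit 60) (nat_lit 5) (nat_lit 309) (nat_lit 293) (nat_lit 178)) (XT.lf (nat_lit 0) (nat_lit 15221803808) (nat_lit 304) (nat_lit 43016360666) (nat_lit 76) (nat_lit 50889523966) (nat_lit 52) (nat_lit 5) (nat_lit 56) (nat_lit 5) (nat_lit 53) (nat_lit 5) (nat_lit 310) (nat_lit 293) (nat_lit 177))) (XT.nd (nat_lit 78) (nat_lit 228) (nat_lit 0) (XT.lf (nat_lit 0) (nat_lit 43207999137) (nat_lit 304) (nat_lit 69096256115) (nat_lit 76) (nat_lit 2344767655) (nat_lit 49)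 (nat_lit 5) (nat_lit 53) (nat_lit 5) (nat_lit 50) (nat_lit 5) (nat_lit 311) (nat_lit 293) (nat_lit 176)) (XT.nd (nat_lit 78) (nat_lit 0) (nat_lit 0) (XT.lf (nat_lit 0) (nat_lit 21872946616) (nat_lit 228) (nat_lit 53643978856) (nat_lit 304) (nat_lit 44990948386) (nat_lit 46) (nat_lit 5) (nat_lit 49) (nat_lit 5) (nat_lit 50) (nat_lit 5) (nat_lit 312) (nat_lit 293) (nat_lit 175)) (XT.lf (nat_lit 0) (nat_lit 111784290175) (nat_lit 304) (nat_lit 4361221629) (nat_lit 76) (nat_lit 10621236252) (nat_lit 46) (nat_lit 5) (nat_lit 50) (nat_lit 5) (nat_lit 47) (nat_lit 5) (nat_lit 313) (nat_lit 293) (nat_lit 174))))) (XT.nd (nat_lit 156) (nat_lit 380) (nat_lit 0) (XT.nd (nat_lit 78) (nat_lit 228) (nat_lit 0) (XT.lf (nat_lit 0) (nat_lit 19369933998) (nat_lit 228) (nat_lit 33975166790) (nat_lit 76) (nat_lit 80042579344) (nat_lit 43) (nat_lit 5) (nat_lit 46) (nat_lit 5) (nat_lit 44) (nat_lit 5) (nat_lit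 314) (nat_lit 293) (nat_lit 173)) (XT.lf (nat_lit 0) (nat_lit 57421763684) (nat_lit 304) (nat_lit 67518214960) (nat_lit 76) (nat_lit 15512220616) (nat_lit 40) (nat_lit 5) (nat_lit 44) (nat_lit 5) (nat_lit 41) (nat_lit 5) (nat_lit 315) (nat_lit 293) (nat_lit 172))) (XT.nd (nat_lit 78) (nat_lit 228) (nat_lit 0) (XT.lf (nat_lit 0) (nat_lit 41990010386) (nat_lit 152) (nat_lit 58683306560) (nat_lit 228) (nat_lit 47300785159) (nat_lit 38) (nat_lit 5) (nat_lit 40) (nat_lit 5) (nat_lit 41) (nat_lit 5) (nat_lit 316) (nat_lit 293) (nat_lit 171)) (XT.nd (nat_lit 78) (nat_lit 76) (nat_lit 0) (XT.lf (nat_lit 0) (nat_lit 6621105324) (nat_lit 152) (nat_lit 142262682244) (nat_lit 228) (nat_lit 7139030922) (nat_lit 36) (nat_lit 5) (nat_lit 38) (nat_lit 5) (nat_lit 39) (nat_lit 5) (nat_lit 317) (nat_lit 293) (nat_lit 170)) (XT.lf (nat_lit 0) (nat_lit 37940894315) (nat_lit 228) (nat_lit 34190756011) (nat_lit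 76) (nat_lit 92412245793) (nat_lit 35) (nat_lit 5) (nat_lit 38) (nat_lit 5) (nat_lit 36) (nat_lit 5) (nat_lit 318) (nat_lit 293) (nat_lit 169)))))) (XT.nd (nat_lit 390) (nat_lit 608) (nat_lit 0) (XT.nd (nat_lit 156) (nat_lit 380) (nat_lit 0) (XT.nd (nat_lit 78) (nat_lit 152) (nat_lit 0) (XT.lf (nat_lit 0) (nat_lit 87915187479) (nat_lit 228) (nat_lit 80655229768) (nat_lit 76) (nat_lit 5093487298) (nat_lit 33) (nat_lit 5) (nat_lit 36) (nat_lit 5) (nat_lit 34) (nat_lit 5) (nat_lit 319) (nat_lit 293) (nat_lit 168)) (XT.lf (nat_lit 0) (nat_lit 48444395354) (nat_lit 152) (nat_lit 96020155322) (nat_lit 228) (nat_lit 38920107373) (nat_lit 31) (nat_lit 5) (nat_lit 33) (nat_lit 5) (nat_lit 34) (nat_lit 5) (nat_lit 320) (nat_lit 293) (nat_lit 167))) (XT.nd (nat_lit 78) (nat_lit 304) (nat_lit 0) (XT.lf (nat_lit 0) (nat_lit 12708945420) (nat_lit 228) (nat_lit 3266984738) (nat_lit 76) (nat_lit 177826685101)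 (nat_lit 30) (nat_lit 5) (nat_lit 33) (nat_lit 5) (nat_lit 31) (nat_lit 5) (nat_lit 321) (nat_lit 293) (nat_lit 166)) (XT.nd (nat_lit 78) (nat_lit 152) (nat_lit 0) (XT.lf (nat_lit 0) (nat_lit 70500170193) (nat_lit 228) (nat_lit 63202381632) (nat_lit 76) (nat_lit 71149785155) (nat_lit 28) (nat_lit 5) (nat_lit 31) (nat_lit 5) (nat_lit 29) (nat_lit 5) (nat_lit 322) (nat_lit 293) (nat_lit 165)) (XT.lf (nat_lit 0) (nat_lit 83907774070) (nat_lit 152) (nat_lit 50643456201) (nat_lit 228) (nat_lit 82152979856) (nat_lit 26) (nat_lit 5) (nat_lit 28) (nat_lit 5) (nat_lit 29) (nat_lit 5) (nat_lit 323) (nat_lit 293) (nat_lit 164))))) (XT.nd (nat_lit 234) (nat_lit 304) (nat_lit 0) (XT.nd (nat_lit 78) (nat_lit 228) (nat_lit 0) (XT.lf (nat_lit 0) (nat_lit 15460247090) (nat_lit 76) (nat_lit 190235645705) (nat_lit 152) (nat_lit 23709864961) (nat_lit 25) (nat_lit 5) (nat_lit 26) (nat_lit 5) (nat_lit 27) (nat_lit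 4) (nat_lit 324) (nat_lit 293) (nat_lit 163)) (XT.nd (nat_lit 78) (nat_lit 152) (nat_lit 0) (XT.lf (nat_lit 0) (nat_lit 41351793462) (nat_lit 152) (nat_lit 64196479878) (nat_lit 76) (nat_lit 137384171354) (nat_lit 24) (nat_lit 5) (nat_lit 26) (nat_lit 5) (nat_lit 25) (nat_lit 5) (nat_lit 325) (nat_lit 293) (nat_lit 162)) (XT.lf (nat_lit 0) (nat_lit 100343225226) (nat_lit 152) (nat_lit 12021602873) (nat_lit 228) (nat_lit 145078148507) (nat_lit 22) (nat_lit 5) (nat_lit 24) (nat_lit 5) (nat_lit 25) (nat_lit 5) (nat_lit 326) (nat_lit 293) (nat_lit 161)))) (XT.nd (nat_lit 78) (nat_lit 228) (nat_lit 0) (XT.lf (nat_lit 0) (nat_lit 6065523851) (nat_lit 76) (nat_lit 185613415438) (nat_lit 152) (nat_lit 81304410479) (nat_lit 21) (nat_lit 5) (nat_lit 22) (nat_lit 5) (nat_lit 23) (nat_lit 4) (nat_lit 327) (nat_lit 293) (nat_lit 160)) (XT.nd (nat_lit 78) (nat_lit 228) (nat_lit 0) (XT.lf (nat_lit 0)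 (nat_lit 187683595962) (nat_lit 76) (nat_lit 92590026194) (nat_lit 152) (nat_lit 9346558847) (nat_lit 21) (nat_lit 5) (nat_lit 22) (nat_lit 5) (nat_lit 23) (nat_lit 4) (nat_lit 328) (nat_lit 293) (nat_lit 159)) (XT.lf (nat_lit 0) (nat_lit 67552003973) (nat_lit 228) (nat_lit 229973897659) (nat_lit 76) (nat_lit 9940072505) (nat_lit 18) (nat_lit 5) (nat_lit 21) (nat_lit 5) (nat_lit 19) (nat_lit 4) (nat_lit 329) (nat_lit 293) (nat_lit 158))))))) (XT.nd (nat_lit 858) (nat_lit 228) (nat_lit 0) (XT.nd (nat_lit 390) (nat_lit 228) (nat_lit 0) (XT.nd (nat_lit 156) (nat_lit 228) (nat_lit 0) (XT.nd (nat_lit 78) (nat_lit 76) (nat_lit 0) (XT.lf (nat_lit 0) (nat_lit 153644870185) (nat_lit 228) (nat_lit 53484361109) (nat_lit 76) (nat_lit 119434044793) (nat_lit 18) (nat_lit 5) (nat_lit 21) (nat_lit 5) (nat_lit 19) (nat_lit 4) (nat_lit 330) (nat_lit 293) (nat_lit 157)) (XT.lf (nat_lit 0) (nat_lit 141657407299)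 (nat_lit 76) (nat_lit 107178948462) (nat_lit 152) (nat_lit 98241447200) (nat_lit 17) (nat_lit 5) (nat_lit 18) (nat_lit 5) (nat_lit 19) (nat_lit 4) (nat_lit 331) (nat_lit 293) (nat_lit 156))) (XT.nd (nat_lit 78) (nat_lit 228) (nat_lit 0) (XT.lf (nat_lit 0) (nat_lit 352601615090) (nat_lit 152) (nat_lit 14894569291) (nat_lit 0) (nat_lit 1689385110) (nat_lit 17) (nat_lit 5) (nat_lit 19) (nat_lit 4) (nat_lit 17) (nat_lit 4) (nat_lit 332) (nat_lit 293) (nat_lit 155)) (XT.nd (nat_lit 78) (nat_lit 76) (nat_lit 0) (XT.lf (nat_lit 0) (nat_lit 74250150363) (nat_lit 152) (nat_lit 198700056183) (nat_lit 76) (nat_lit 119809059588) (nat_lit 15) (nat_lit 5) (nat_lit 17) (nat_lit 5) (nat_lit 16) (nat_lit 4) (nat_lit 333) (nat_lit 293) (nat_lit 154)) (XT.lf (nat_lit 0) (nat_lit 1829190567) (nat_lit 76) (nat_lit 170240391115) (nat_lit 152) (nat_lit 246120702669) (nat_lit 14) (nat_lit 5) (nat_lit 15) (nat_lit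 5) (nat_lit 16) (nat_lit 4) (nat_lit 334) (nat_lit 293) (nat_lit 153))))) (XT.nd (nat_lit 234) (nat_lit 76) (nat_lit 0) (XT.nd (nat_lit 78) (nat_lit 152) (nat_lit 0) (XT.lf (nat_lit 0) (nat_lit 225495572813) (nat_lit 76) (nat_lit 55679826520) (nat_lit 152) (nat_lit 164307343290) (nat_lit 14) (nat_lit 5) (nat_lit 15) (nat_lit 5) (nat_lit 16) (nat_lit 4) (nat_lit 335) (nat_lit 293) (nat_lit 152)) (XT.nd (nat_lit 78) (nat_lit 152) (nat_lit 0) (XT.lf (nat_lit 0) (nat_lit 400071694259) (nat_lit 152) (nat_lit 8966393829) (nat_lit 0) (nat_lit 65867409052) (nat_lit 14) (nat_lit 5) (nat_lit 16) (nat_lit 4) (nat_lit 14) (nat_lit 4) (nat_lit 336) (nat_lit 293) (nat_lit 151)) (XT.lf (nat_lit 0) (nat_lit 25627580781) (nat_lit 152) (nat_lit 281668188737) (nat_lit 76) (nat_lit 199142905557) (nat_lit 12) (nat_lit 5) (nat_lit 14) (nat_lit 5) (nat_lit 13) (nat_lit 4) (nat_lit 337) (nat_lit 293) (nat_lit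 150)))) (XT.nd (nat_lit 78) (nat_lit 76) (nat_lit 0) (XT.lf (nat_lit 0) (nat_lit 131697530991) (nat_lit 152) (nat_lit 64225202041) (nat_lit 76) (nat_lit 344500761785) (nat_lit 12) (nat_lit 5) (nat_lit 14) (nat_lit 5) (nat_lit 13) (nat_lit 4) (nat_lit 338) (nat_lit 293) (nat_lit 149)) (XT.nd (nat_lit 78) (nat_lit 0) (nat_lit 0) (XT.lf (nat_lit 0) (nat_lit 176253880818) (nat_lit 76) (nat_lit 72750705603) (nat_lit 152) (nat_lit 327984938391) (nat_lit 11) (nat_lit 5) (nat_lit 12) (nat_lit 5) (nat_lit 13) (nat_lit 4) (nat_lit 339) (nat_lit 293) (nat_lit 148)) (XT.lf (nat_lit 0) (nat_lit 377774073807) (nat_lit 152) (nat_lit 179120104826) (nat_lit 0) (nat_lit 59482765319) (nat_lit 11) (nat_lit 5) (nat_lit 13) (nat_lit 4) (nat_lit 11) (nat_lit 4) (nat_lit 340) (nat_lit 293) (nat_lit 147)))))) (XT.nd (nat_lit 36972) (nat_lit 0) (nat_lit 5928) (XT.nd (nat_lit 156) (nat_lit 152) (nat_lit 0) (XT.nd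 (nat_lit 78) (nat_lit 0) (nat_lit 0) (XT.lf (nat_lit 0) (nat_lit 60948177095) (nat_lit 76) (nat_lit 458074949362) (nat_lit 76) (nat_lit 139783329968) (nat_lit 10) (nat_lit 4) (nat_lit 11) (nat_lit 5) (nat_lit 11) (nat_lit 4) (nat_lit 341) (nat_lit 293) (nat_lit 146)) (XT.lf (nat_lit 0) (nat_lit 326617752136) (nat_lit 76) (nat_lit 348074245216) (nat_lit 76) (nat_lit 29782337946) (nat_lit 10) (nat_lit 4) (nat_lit 11) (nat_lit 5) (nat_lit 11) (nat_lit 4) (nat_lit 342) (nat_lit 293) (nat_lit 145))) (XT.nd (nat_lit 78) (nat_lit 76) (nat_lit 0) (XT.lf (nat_lit 0) (nat_lit 86169330775) (nat_lit 152) (nat_lit 141645045730) (nat_lit 76) (nat_lit 525911788838) (nat_lit 9) (nat_lit 5) (nat_lit 11) (nat_lit 5) (nat_lit 10) (nat_lit 4) (nat_lit 343) (nat_lit 293) (nat_lit 144)) (XT.nd (nat_lit 78) (nat_lit 0) (nat_lit 0) (XT.lf (nat_lit 0) (nat_lit 116695796065) (nat_lit 76) (nat_lit 95493577931) (nat_lit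 152) (nat_lit 594612572677) (nat_lit 8) (nat_lit 5) (nat_lit 9) (nat_lit 5) (nat_lit 10) (nat_lit 4) (nat_lit 344) (nat_lit 293) (nat_lit 143)) (XT.lf (nat_lit 0) (nat_lit 351538861235) (nat_lit 152) (nat_lit 464019532426) (nat_lit 0) (nat_lit 48403004900) (nat_lit 8) (nat_lit 5) (nat_lit 10) (nat_lit 4) (nat_lit 8) (nat_lit 4) (nat_lit 345) (nat_lit 293) (nat_lit 142))))) (XT.nd (nat_lit 234) (nat_lit 608) (nat_lit 0) (XT.nd (nat_lit 78) (nat_lit 0) (nat_lit 0) (XT.lf (nat_lit 0) (nat_lit 12639926588) (nat_lit 0) (nat_lit 12639926588) (nat_lit 684) (nat_lit 2687480896) (nat_lit 94) (nat_lit 5) (nat_lit 94) (nat_lit 3) (nat_lit 103) (nat_lit 3) (nat_lit 294) (nat_lit 294) (nat_lit 192)) (XT.nd (nat_lit 78) (nat_lit 0) (nat_lit 0) (XT.lf (nat_lit 76) (nat_lit 10456599531) (nat_lit 0) (nat_lit 42568311328) (nat_lit 760) (nat_lit 5124948348) (nat_lit 95) (nat_lit 5) (nat_lit 94) (nat_lit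 5) (nat_lit 104) (nat_lit 5) (nat_lit 295) (nat_lit 294) (nat_lit 191)) (XT.lf (nat_lit 76) (nat_lit 55509456182) (nat_lit 0) (nat_lit 1128158931) (nat_lit 760) (nat_lit 3857141760) (nat_lit 95) (nat_lit 5) (nat_lit 94) (nat_lit 5) (nat_lit 104) (nat_lit 5) (nat_lit 296) (nat_lit 294) (nat_lit 190)))) (XT.nd (nat_lit 78) (nat_lit 684) (nat_lit 0) (XT.lf (nat_lit 76) (nat_lit 41794000368) (nat_lit 0) (nat_lit 20076154781) (nat_lit 760) (nat_lit 1090555312) (nat_lit 96) (nat_lit 5) (nat_lit 95) (nat_lit 5) (nat_lit 105) (nat_lit 5) (nat_lit 297) (nat_lit 294) (nat_lit 189)) (XT.nd (nat_lit 78) (nat_lit 0) (nat_lit 76) (XT.lf (nat_lit 0) (nat_lit 2769377394) (nat_lit 760) (nat_lit 38282130104) (nat_lit 836) (nat_lit 24524318834) (nat_lit 86) (nat_lit 5) (nat_lit 96) (nat_lit 5) (nat_lit 97) (nat_lit 5) (nat_lit 298) (nat_lit 294) (nat_lit 188)) (XT.lf (nat_lit 0) (nat_lit 7864887444) (nat_lit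 760) (nat_lit 56395193150) (nat_lit 836) (nat_lit 4090931606) (nat_lit 87) (nat_lit 5) (nat_lit 97) (nat_lit 5) (nat_lit 98) (nat_lit 5) (nat_lit 299) (nat_lit 294) (nat_lit 187))))))))
noncomputable def xc104 : XT := (XT.nd (nat_lit 1638) (nat_lit 1748) (nat_lit 0) (XT.nd (nat_lit 780) (nat_lit 1748) (nat_lit 0) (XT.nd (nat_lit 390) (nat_lit 1216) (nat_lit 0) (XT.nd (nat_lit 156) (nat_lit 1140) (nat_lit 0) (XT.nd (nat_lit 78) (nat_lit 0) (nat_lit 76) (XT.lf (nat_lit 0) (nat_lit 14735666731) (nat_lit 760) (nat_lit 4440106351) (nat_lit 836) (nat_lit 52104062273) (nat_lit 87) (nat_lit 5) (nat_lit 97) (nat_lit 5) (nat_lit 98) (nat_lit 5) (nat_lit 300) (nat_lit 294) (nat_lit 186)) (XT.lf (nat_lit 0) (nat_lit 23461790517) (nat_lit 760) (nat_lit 21497877902) (nat_lit 76) (nat_lit 29418015394) (nat_lit 88) (nat_lit 5) (nat_lit 98) (nat_lit 5) (nat_lit 89) (nat_lit 5) (nat_lit 301) (nat_lit 294)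 (nat_lit 185))) (XT.nd (nat_lit 78) (nat_lit 684) (nat_lit 0) (XT.lf (nat_lit 0) (nat_lit 33947189762) (nat_lit 608) (nat_lit 39621818216) (nat_lit 76) (nat_lit 4101296186) (nat_lit 81) (nat_lit 5) (nat_lit 89) (nat_lit 5) (nat_lit 82) (nat_lit 5) (nat_lit 302) (nat_lit 294) (nat_lit 184)) (XT.nd (nat_lit 78) (nat_lit 304) (nat_lit 0) (XT.lf (nat_lit 0) (nat_lit 21851931035) (nat_lit 380) (nat_lit 24897463954) (nat_lit 456) (nat_lit 34403043501) (nat_lit 76) (nat_lit 5) (nat_lit 81) (nat_lit 5) (nat_lit 82) (nat_lit 5) (nat_lit 303) (nat_lit 294) (nat_lit 183)) (XT.lf (nat_lit 0) (nat_lit 4477995980) (nat_lit 304) (nat_lit 57299366174) (nat_lit 380) (nat_lit 23075704956) (nat_lit 72) (nat_lit 5) (nat_lit 76) (nat_lit 5) (nat_lit 77) (nat_lit 5) (nat_lit 304) (nat_lit 294) (nat_lit 182))))) (XT.nd (nat_lit 156) (nat_lit 836) (nat_lit 0) (XT.nd (nat_lit 78) (nat_lit 380) (nat_lit 0) (XT.lf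 (nat_lit 0) (nat_lit 75040895473) (nat_lit 304) (nat_lit 4410997268) (nat_lit 380) (nat_lit 9325639590) (nat_lit 72) (nat_lit 5) (nat_lit 76) (nat_lit 5) (nat_lit 77) (nat_lit 5) (nat_lit 305) (nat_lit 294) (nat_lit 181)) (XT.lf (nat_lit 0) (nat_lit 7123550156) (nat_lit 380) (nat_lit 33737103697) (nat_lit 76) (nat_lit 52062193858) (nat_lit 67) (nat_lit 5) (nat_lit 72) (nat_lit 5) (nat_lit 68) (nat_lit 5) (nat_lit 306) (nat_lit 294) (nat_lit 180))) (XT.nd (nat_lit 78) (nat_lit 532) (nat_lit 0) (XT.lf (nat_lit 0) (nat_lit 25800000453) (nat_lit 380) (nat_lit 55446000249) (nat_lit 76) (nat_lit 16084243268) (nat_lit 63) (nat_lit 5) (nat_lit 68) (nat_lit 5) (nat_lit 64) (nat_lit 5) (nat_lit 307) (nat_lit 294) (nat_lit 179)) (XT.nd (nat_lit 78) (nat_lit 228) (nat_lit 0) (XT.lf (nat_lit 0) (nat_lit 22726247109) (nat_lit 304) (nat_lit 24884013056) (nat_lit 380) (nat_lit 54397989074) (nat_lit 59)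 (nat_lit 5) (nat_lit 63) (nat_lit 5) (nat_lit 64) (nat_lit 5) (nat_lit 308) (nat_lit 294) (nat_lit 178)) (XT.lf (nat_lit 0) (nat_lit 1591582358) (nat_lit 228) (nat_lit 71140781747) (nat_lit 304) (nat_lit 34249781481) (nat_lit 56) (nat_lit 5) (nat_lit 59) (nat_lit 5) (nat_lit 60) (nat_lit 5) (nat_lit 309) (nat_lit 294) (nat_lit 177)))))) (XT.nd (nat_lit 390) (nat_lit 988) (nat_lit 0) (XT.nd (nat_lit 156) (nat_lit 456) (nat_lit 0) (XT.nd (nat_lit 78) (nat_lit 304) (nat_lit 0) (XT.lf (nat_lit 0) (nat_lit 91331100878) (nat_lit 228) (nat_lit 10325724359) (nat_lit 304) (nat_lit 10607500655) (nat_lit 56) (nat_lit 5) (nat_lit 59) (nat_lit 5) (nat_lit 60) (nat_lit 5) (nat_lit 310) (nat_lit 294) (nat_lit 176)) (XT.lf (nat_lit 0) (nat_lit 16463582388) (nat_lit 304) (nat_lit 46425419695) (nat_lit 76) (nat_lit 54967670564) (nat_lit 52) (nat_lit 5) (nat_lit 56) (nat_lit 5) (nat_lit 53) (nat_lit 5) (nat_lit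 311) (nat_lit 294) (nat_lit 175))) (XT.nd (nat_lit 78) (nat_lit 228) (nat_lit 0) (XT.lf (nat_lit 0) (nat_lit 46687501318) (nat_lit 304) (nat_lit 74592071205) (nat_lit 76) (nat_lit 2540202110) (nat_lit 49) (nat_lit 5) (nat_lit 53) (nat_lit 5) (nat_lit 50) (nat_lit 5) (nat_lit 312) (nat_lit 294) (nat_lit 174)) (XT.nd (nat_lit 78) (nat_lit 0) (nat_lit 0) (XT.lf (nat_lit 0) (nat_lit 23653282045) (nat_lit 228) (nat_lit 57926642401) (nat_lit 304) (nat_lit 48567472080) (nat_lit 46) (nat_lit 5) (nat_lit 49) (nat_lit 5) (nat_lit 50) (nat_lit 5) (nat_lit 313) (nat_lit 294) (nat_lit 173)) (XT.lf (nat_lit 0) (nat_lit 120747203003) (nat_lit 304) (nat_lit 4680981680) (nat_lit 76) (nat_lit 11478871593) (nat_lit 46) (nat_lit 5) (nat_lit 50) (nat_lit 5) (nat_lit 47) (nat_lit 5) (nat_lit 314) (nat_lit 294) (nat_lit 172))))) (XT.nd (nat_lit 234) (nat_lit 380) (nat_lit 0) (XT.nd (nat_lit 78) (nat_lit 380)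 (nat_lit 0) (XT.lf (nat_lit 0) (nat_lit 20938973471) (nat_lit 228) (nat_lit 36664645401) (nat_lit 76) (nat_lit 86454083024) (nat_lit 43) (nat_lit 5) (nat_lit 46) (nat_lit 5) (nat_lit 44) (nat_lit 5) (nat_lit 315) (nat_lit 294) (nat_lit 171)) (XT.nd (nat_lit 78) (nat_lit 152) (nat_lit 0) (XT.lf (nat_lit 0) (nat_lit 62034073719) (nat_lit 304) (nat_lit 72891575478) (nat_lit 76) (nat_lit 16761778659) (nat_lit 40) (nat_lit 5) (nat_lit 44) (nat_lit 5) (nat_lit 41) (nat_lit 5) (nat_lit 316) (nat_lit 294) (nat_lit 170)) (XT.lf (nat_lit 0) (nat_lit 45376086848) (nat_lit 152) (nat_lit 63368708520) (nat_lit 228) (nat_lit 51066336754) (nat_lit 38) (nat_lit 5) (nat_lit 40) (nat_lit 5) (nat_lit 41) (nat_lit 5) (nat_lit 317) (nat_lit 294) (nat_lit 169)))) (XT.nd (nat_lit 78) (nat_lit 228) (nat_lit 0) (XT.lf (nat_lit 0) (nat_lit 7177222188) (nat_lit 152) (nat_lit 153634123306) (nat_lit 228) (nat_lit 7692439529)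 (nat_lit 36) (nat_lit 5) (nat_lit 38) (nat_lit 5) (nat_lit 39) (nat_lit 5) (nat_lit 318) (nat_lit 294) (nat_lit 168)) (XT.nd (nat_lit 78) (nat_lit 152) (nat_lit 0) (XT.lf (nat_lit 0) (nat_lit 40992042631) (nat_lit 228) (nat_lit 36901006472) (nat_lit 76) (nat_lit 99813550580) (nat_lit 35) (nat_lit 5) (nat_lit 38) (nat_lit 5) (nat_lit 36) (nat_lit 5) (nat_lit 319) (nat_lit 294) (nat_lit 167)) (XT.lf (nat_lit 0) (nat_lit 94963614854) (nat_lit 228) (nat_lit 87083096250) (nat_lit 76) (nat_lit 5509531957) (nat_lit 33) (nat_lit 5) (nat_lit 36) (nat_lit 5) (nat_lit 34) (nat_lit 5) (nat_lit 320) (nat_lit 294) (nat_lit 166))))))) (XT.nd (nat_lit 858) (nat_lit 608) (nat_lit 0) (XT.nd (nat_lit 390) (nat_lit 532) (nat_lit 0) (XT.nd (nat_lit 156) (nat_lit 380) (nat_lit 0) (XT.nd (nat_lit 78) (nat_lit 76) (nat_lit 0) (XT.lf (nat_lit 0) (nat_lit 52343431886) (nat_lit 152) (nat_lit 103692735043) (nat_lit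 228) (nat_lit 42018528905) (nat_lit 31) (nat_lit 5) (nat_lit 33) (nat_lit 5) (nat_lit 34) (nat_lit 5) (nat_lit 321) (nat_lit 294) (nat_lit 165)) (XT.lf (nat_lit 0) (nat_lit 13739273070) (nat_lit 228) (nat_lit 3506137359) (nat_lit 76) (nat_lit 192060722648) (nat_lit 30) (nat_lit 5) (nat_lit 33) (nat_lit 5) (nat_lit 31) (nat_lit 5) (nat_lit 322) (nat_lit 294) (nat_lit 164))) (XT.nd (nat_lit 78) (nat_lit 228) (nat_lit 0) (XT.lf (nat_lit 0) (nat_lit 76153248837) (nat_lit 228) (nat_lit 68236803965) (nat_lit 76) (nat_lit 76849807884) (nat_lit 28) (nat_lit 5) (nat_lit 31) (nat_lit 5) (nat_lit 29) (nat_lit 5) (nat_lit 323) (nat_lit 294) (nat_lit 163)) (XT.nd (nat_lit 78) (nat_lit 76) (nat_lit 0) (XT.lf (nat_lit 0) (nat_lit 90641218174) (nat_lit 152) (nat_lit 54686532859) (nat_lit 228) (nat_lit 88712165527) (nat_lit 26) (nat_lit 5) (nat_lit 28) (nat_lit 5) (nat_lit 29) (nat_lit 5) (nat_lit 324)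 (nat_lit 294) (nat_lit 162)) (XT.lf (nat_lit 0) (nat_lit 16717461666) (nat_lit 76) (nat_lit 205446044571) (nat_lit 152) (nat_lit 25594106465) (nat_lit 25) (nat_lit 5) (nat_lit 26) (nat_lit 5) (nat_lit 27) (nat_lit 4) (nat_lit 325) (nat_lit 294) (nat_lit 161))))) (XT.nd (nat_lit 234) (nat_lit 228) (nat_lit 0) (XT.nd (nat_lit 78) (nat_lit 228) (nat_lit 0) (XT.lf (nat_lit 0) (nat_lit 44671183318) (nat_lit 152) (nat_lit 69312934769) (nat_lit 76) (nat_lit 148382352303) (nat_lit 24) (nat_lit 5) (nat_lit 26) (nat_lit 5) (nat_lit 25) (nat_lit 5) (nat_lit 326) (nat_lit 294) (nat_lit 160)) (XT.nd (nat_lit 78) (nat_lit 76) (nat_lit 0) (XT.lf (nat_lit 0) (nat_lit 108389109575) (nat_lit 152) (nat_lit 12975605772) (nat_lit 228) (nat_lit 156673157336) (nat_lit 22) (nat_lit 5) (nat_lit 24) (nat_lit 5) (nat_lit 25) (nat_lit 5) (nat_lit 327) (nat_lit 294) (nat_lit 159)) (XT.lf (nat_lit 0) (nat_lit 6568794427)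 (nat_lit 76) (nat_lit 200454761497) (nat_lit 152) (nat_lit 87797940269) (nat_lit 21) (nat_lit 5) (nat_lit 22) (nat_lit 5) (nat_lit 23) (nat_lit 4) (nat_lit 328) (nat_lit 294) (nat_lit 158)))) (XT.nd (nat_lit 78) (nat_lit 228) (nat_lit 0) (XT.lf (nat_lit 0) (nat_lit 202714976849) (nat_lit 76) (nat_lit 99990073498) (nat_lit 152) (nat_lit 10084262214) (nat_lit 21) (nat_lit 5) (nat_lit 22) (nat_lit 5) (nat_lit 23) (nat_lit 4) (nat_lit 329) (nat_lit 294) (nat_lit 157)) (XT.nd (nat_lit 78) (nat_lit 0) (nat_lit 0) (XT.lf (nat_lit 0) (nat_lit 72965510474) (nat_lit 228) (nat_lit 248355172323) (nat_lit 76) (nat_lit 10742096668) (nat_lit 18) (nat_lit 5) (nat_lit 21) (nat_lit 5) (nat_lit 19) (nat_lit 4) (nat_lit 330) (nat_lit 294) (nat_lit 156)) (XT.lf (nat_lit 0) (nat_lit 165945113674) (nat_lit 228) (nat_lit 57747705231) (nat_lit 76) (nat_lit 128995081675) (nat_lit 18) (nat_lit 5) (nat_lit 21) (nat_lit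 5) (nat_lit 19) (nat_lit 4) (nat_lit 331) (nat_lit 294) (nat_lit 155)))))) (XT.nd (nat_lit 390) (nat_lit 304) (nat_lit 0) (XT.nd (nat_lit 156) (nat_lit 228) (nat_lit 0) (XT.nd (nat_lit 78) (nat_lit 0) (nat_lit 0) (XT.lf (nat_lit 0) (nat_lit 153004735177) (nat_lit 76) (nat_lit 115746771950) (nat_lit 152) (nat_lit 106092103388) (nat_lit 17) (nat_lit 5) (nat_lit 18) (nat_lit 5) (nat_lit 19) (nat_lit 4) (nat_lit 332) (nat_lit 294) (nat_lit 154)) (XT.lf (nat_lit 0) (nat_lit 380817470473) (nat_lit 152) (nat_lit 16072199081) (nat_lit 0) (nat_lit 1830354986) (nat_lit 17) (nat_lit 5) (nat_lit 19) (nat_lit 4) (nat_lit 17) (nat_lit 4) (nat_lit 333) (nat_lit 294) (nat_lit 153))) (XT.nd (nat_lit 78) (nat_lit 76) (nat_lit 0) (XT.lf (nat_lit 0) (nat_lit 80197648833) (nat_lit 152) (nat_lit 214582479315) (nat_lit 76) (nat_lit 129399501250) (nat_lit 15) (nat_lit 5) (nat_lit 17) (nat_lit 5) (nat_lit 16)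 (nat_lit 4) (nat_lit 334) (nat_lit 294) (nat_lit 152)) (XT.nd (nat_lit 78) (nat_lit 0) (nat_lit 0) (XT.lf (nat_lit 0) (nat_lit 1988516946) (nat_lit 76) (nat_lit 183853765989) (nat_lit 152) (nat_lit 265802863998) (nat_lit 14) (nat_lit 5) (nat_lit 15) (nat_lit 5) (nat_lit 16) (nat_lit 4) (nat_lit 335) (nat_lit 294) (nat_lit 151)) (XT.lf (nat_lit 0) (nat_lit 243547247466) (nat_lit 76) (nat_lit 60128790034) (nat_lit 152) (nat_lit 177444991046) (nat_lit 14) (nat_lit 5) (nat_lit 15) (nat_lit 5) (nat_lit 16) (nat_lit 4) (nat_lit 336) (nat_lit 294) (nat_lit 150))))) (XT.nd (nat_lit 234) (nat_lit 152) (nat_lit 0) (XT.nd (nat_lit 78) (nat_lit 152) (nat_lit 0) (XT.lf (nat_lit 0) (nat_lit 432083625061) (nat_lit 152) (nat_lit 9672337138) (nat_lit 0) (nat_lit 71141662008) (nat_lit 14) (nat_lit 5) (nat_lit 16) (nat_lit 4) (nat_lit 14) (nat_lit 4) (nat_lit 337) (nat_lit 294) (nat_lit 149)) (XT.nd (nat_lit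 78) (nat_lit 0) (nat_lit 0) (XT.lf (nat_lit 0) (nat_lit 27683792831) (nat_lit 152) (nat_lit 304190568521) (nat_lit 76) (nat_lit 215079104856) (nat_lit 12) (nat_lit 5) (nat_lit 14) (nat_lit 5) (nat_lit 13) (nat_lit 4) (nat_lit 338) (nat_lit 294) (nat_lit 148)) (XT.lf (nat_lit 0) (nat_lit 142238894199) (nat_lit 152) (nat_lit 69352963283) (nat_lit 76) (nat_lit 372065236483) (nat_lit 12) (nat_lit 5) (nat_lit 14) (nat_lit 5) (nat_lit 13) (nat_lit 4) (nat_lit 339) (nat_lit 294) (nat_lit 147)))) (XT.nd (nat_lit 78) (nat_lit 76) (nat_lit 0) (XT.lf (nat_lit 0) (nat_lit 190364000538) (nat_lit 76) (nat_lit 78566254769) (nat_lit 152) (nat_lit 354218164167) (nat_lit 11) (nat_lit 5) (nat_lit 12) (nat_lit 5) (nat_lit 13) (nat_lit 4) (nat_lit 340) (nat_lit 294) (nat_lit 146)) (XT.nd (nat_lit 78) (nat_lit 76) (nat_lit 0) (XT.lf (nat_lit 0) (nat_lit 408000974105) (nat_lit 152) (nat_lit 193440448206) (nat_lit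 0) (nat_lit 64245426379) (nat_lit 11) (nat_lit 5) (nat_lit 13) (nat_lit 4) (nat_lit 11) (nat_lit 4) (nat_lit 341) (nat_lit 294) (nat_lit 145)) (XT.lf (nat_lit 0) (nat_lit 65832893622) (nat_lit 76) (nat_lit 494716827237) (nat_lit 76) (nat_lit 150961012959) (nat_lit 10) (nat_lit 4) (nat_lit 11) (nat_lit 5) (nat_lit 11) (nat_lit 4) (nat_lit 342) (nat_lit 294) (nat_lit 144))))))))
noncomputable def xc105 : XT := (XT.nd (nat_lit 38376) (nat_lit 0) (nat_lit 456) (XT.nd (nat_lit 37518) (nat_lit 0) (nat_lit 3040) (XT.nd (nat_lit 37128) (nat_lit 0) (nat_lit 5852) (XT.nd (nat_lit 36894) (nat_lit 0) (nat_lit 6460) (XT.nd (nat_lit 78) (nat_lit 76) (nat_lit 0) (XT.lf (nat_lit 0) (nat_lit 352755378196) (nat_lit 76) (nat_lit 375916371802) (nat_lit 76) (nat_lit 32160310717) (nat_lit 10) (nat_lit 4) (nat_lit 11) (nat_lit 5) (nat_lit 11) (nat_lit 4) (nat_lit 343) (nat_lit 294) (nat_lit 143)) (XT.lf (nat_lit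 0) (nat_lit 93067012959) (nat_lit 152) (nat_lit 152968913041) (nat_lit 76) (nat_lit 567988124227) (nat_lit 9) (nat_lit 5) (nat_lit 11) (nat_lit 5) (nat_lit 10) (nat_lit 4) (nat_lit 344) (nat_lit 294) (nat_lit 142))) (XT.nd (nat_lit 78) (nat_lit 0) (nat_lit 0) (XT.lf (nat_lit 0) (nat_lit 13666188073) (nat_lit 0) (nat_lit 13666188073) (nat_lit 684) (nat_lit 2870784385) (nat_lit 94) (nat_lit 5) (nat_lit 94) (nat_lit 3) (nat_lit 103) (nat_lit 3) (nat_lit 295) (nat_lit 295) (nat_lit 190)) (XT.nd (nat_lit 78) (nat_lit 0) (nat_lit 0) (XT.lf (nat_lit 76) (nat_lit 11325387551) (nat_lit 0) (nat_lit 45997389240) (nat_lit 760) (nat_lit 5476178367) (nat_lit 95) (nat_lit 5) (nat_lit 94) (nat_lit 5) (nat_lit 104) (nat_lit 5) (nat_lit 296) (nat_lit 295) (nat_lit 189)) (XT.lf (nat_lit 76) (nat_lit 59980083101) (nat_lit 0) (nat_lit 1240275540) (nat_lit 760) (nat_lit 4111300278) (nat_lit 95) (nat_lit 5)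 (nat_lit 94) (nat_lit 5) (nat_lit 104) (nat_lit 5) (nat_lit 297) (nat_lit 295) (nat_lit 188))))) (XT.nd (nat_lit 156) (nat_lit 0) (nat_lit 76) (XT.nd (nat_lit 78) (nat_lit 684) (nat_lit 0) (XT.lf (nat_lit 76) (nat_lit 45168981311) (nat_lit 0) (nat_lit 21698863519) (nat_lit 760) (nat_lit 1127233616) (nat_lit 96) (nat_lit 5) (nat_lit 95) (nat_lit 5) (nat_lit 105) (nat_lit 5) (nat_lit 298) (nat_lit 295) (nat_lit 187)) (XT.lf (nat_lit 0) (nat_lit 3036524637) (nat_lit 760) (nat_lit 41310395417) (nat_lit 836) (nat_lit 26472617586) (nat_lit 86) (nat_lit 5) (nat_lit 96) (nat_lit 5) (nat_lit 97) (nat_lit 5) (nat_lit 299) (nat_lit 295) (nat_lit 186))) (XT.nd (nat_lit 78) (nat_lit 0) (nat_lit 0) (XT.lf (nat_lit 0) (nat_lit 8536655412) (nat_lit 760) (nat_lit 60871633537) (nat_lit 836) (nat_lit 4408605982) (nat_lit 87) (nat_lit 5) (nat_lit 97) (nat_lit 5) (nat_lit 98) (nat_lit 5) (nat_lit 300) (nat_lit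 295) (nat_lit 185)) (XT.nd (nat_lit 78) (nat_lit 0) (nat_lit 76) (XT.lf (nat_lit 0) (nat_lit 15953943193) (nat_lit 760) (nat_lit 4762745355) (nat_lit 836) (nat_lit 56263498225) (nat_lit 87) (nat_lit 5) (nat_lit 97) (nat_lit 5) (nat_lit 98) (nat_lit 5) (nat_lit 301) (nat_lit 295) (nat_lit 184)) (XT.lf (nat_lit 0) (nat_lit 25375631948) (nat_lit 760) (nat_lit 23184553997) (nat_lit 76) (nat_lit 31765808169) (nat_lit 88) (nat_lit 5) (nat_lit 98) (nat_lit 5) (nat_lit 89) (nat_lit 5) (nat_lit 302) (nat_lit 295) (nat_lit 183)))))) (XT.nd (nat_lit 390) (nat_lit 1368) (nat_lit 0) (XT.nd (nat_lit 156) (nat_lit 684) (nat_lit 0) (XT.nd (nat_lit 78) (nat_lit 380) (nat_lit 0) (XT.lf (nat_lit 0) (nat_lit 36697579059) (nat_lit 608) (nat_lit 42758016272) (nat_lit 76) (nat_lit 4426547372) (nat_lit 81) (nat_lit 5) (nat_lit 89) (nat_lit 5) (nat_lit 82) (nat_lit 5) (nat_lit 303) (nat_lit 295) (nat_lit 182))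 (XT.lf (nat_lit 0) (nat_lit 23632174989) (nat_lit 380) (nat_lit 26889722712) (nat_lit 456) (nat_lit 37121057305) (nat_lit 76) (nat_lit 5) (nat_lit 81) (nat_lit 5) (nat_lit 82) (nat_lit 5) (nat_lit 304) (nat_lit 295) (nat_lit 181))) (XT.nd (nat_lit 78) (nat_lit 380) (nat_lit 0) (XT.lf (nat_lit 0) (nat_lit 4868543070) (nat_lit 304) (nat_lit 61881645712) (nat_lit 380) (nat_lit 24889544584) (nat_lit 72) (nat_lit 5) (nat_lit 76) (nat_lit 5) (nat_lit 77) (nat_lit 5) (nat_lit 305) (nat_lit 295) (nat_lit 180)) (XT.nd (nat_lit 78) (nat_lit 380) (nat_lit 0) (XT.lf (nat_lit 0) (nat_lit 81074081381) (nat_lit 304) (nat_lit 4762330979) (nat_lit 380) (nat_lit 10041860417) (nat_lit 72) (nat_lit 5) (nat_lit 76) (nat_lit 5) (nat_lit 77) (nat_lit 5) (nat_lit 306) (nat_lit 295) (nat_lit 179)) (XT.lf (nat_lit 0) (nat_lit 7720669436) (nat_lit 380) (nat_lit 36405143168) (nat_lit 76) (nat_lit 56229462597) (nat_lit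 67) (nat_lit 5) (nat_lit 72) (nat_lit 5) (nat_lit 68) (nat_lit 5) (nat_lit 307) (nat_lit 295) (nat_lit 178))))) (XT.nd (nat_lit 234) (nat_lit 532) (nat_lit 0) (XT.nd (nat_lit 78) (nat_lit 532) (nat_lit 0) (XT.lf (nat_lit 0) (nat_lit 27889741197) (nat_lit 380) (nat_lit 59850836847) (nat_lit 76) (nat_lit 17374762702) (nat_lit 63) (nat_lit 5) (nat_lit 68) (nat_lit 5) (nat_lit 64) (nat_lit 5) (nat_lit 308) (nat_lit 295) (nat_lit 177)) (XT.nd (nat_lit 78) (nat_lit 228) (nat_lit 0) (XT.lf (nat_lit 0) (nat_lit 24573849882) (nat_lit 304) (nat_lit 26869525709) (nat_lit 380) (nat_lit 58724285795) (nat_lit 59) (nat_lit 5) (nat_lit 63) (nat_lit 5) (nat_lit 64) (nat_lit 5) (nat_lit 309) (nat_lit 295) (nat_lit 176)) (XT.lf (nat_lit 0) (nat_lit 1748245568) (nat_lit 228) (nat_lit 76825735998) (nat_lit 304) (nat_lit 36965553637) (nat_lit 56) (nat_lit 5) (nat_lit 59) (nat_lit 5) (nat_lit 60) (nat_lit 5)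 (nat_lit 310) (nat_lit 295) (nat_lit 175)))) (XT.nd (nat_lit 78) (nat_lit 532) (nat_lit 0) (XT.lf (nat_lit 0) (nat_lit 98664752487) (nat_lit 228) (nat_lit 11145941300) (nat_lit 304) (nat_lit 11433683705) (nat_lit 56) (nat_lit 5) (nat_lit 59) (nat_lit 5) (nat_lit 60) (nat_lit 5) (nat_lit 311) (nat_lit 295) (nat_lit 174)) (XT.nd (nat_lit 78) (nat_lit 228) (nat_lit 0) (XT.lf (nat_lit 0) (nat_lit 17801274496) (nat_lit 304) (nat_lit 50111804243) (nat_lit 76) (nat_lit 59371072447) (nat_lit 52) (nat_lit 5) (nat_lit 56) (nat_lit 5) (nat_lit 53) (nat_lit 5) (nat_lit 312) (nat_lit 295) (nat_lit 173)) (XT.lf (nat_lit 0) (nat_lit 50442102117) (nat_lit 304) (nat_lit 80532100310) (nat_lit 76) (nat_lit 2750150998) (nat_lit 49) (nat_lit 5) (nat_lit 53) (nat_lit 5) (nat_lit 50) (nat_lit 5) (nat_lit 313) (nat_lit 295) (nat_lit 172))))))) (XT.nd (nat_lit 858) (nat_lit 988) (nat_lit 0) (XT.nd (nat_lit 390)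 (nat_lit 760) (nat_lit 0) (XT.nd (nat_lit 156) (nat_lit 608) (nat_lit 0) (XT.nd (nat_lit 78) (nat_lit 0) (nat_lit 0) (XT.lf (nat_lit 0) (nat_lit 25571693184) (nat_lit 228) (nat_lit 62553182260) (nat_lit 304) (nat_lit 52433363521) (nat_lit 46) (nat_lit 5) (nat_lit 49) (nat_lit 5) (nat_lit 50) (nat_lit 5) (nat_lit 314) (nat_lit 295) (nat_lit 171)) (XT.lf (nat_lit 0) (nat_lit 130424271435) (nat_lit 304) (nat_lit 5030479351) (nat_lit 76) (nat_lit 12403985539) (nat_lit 46) (nat_lit 5) (nat_lit 50) (nat_lit 5) (nat_lit 47) (nat_lit 5) (nat_lit 315) (nat_lit 295) (nat_lit 170))) (XT.nd (nat_lit 78) (nat_lit 380) (nat_lit 0) (XT.lf (nat_lit 0) (nat_lit 22630762090) (nat_lit 228) (nat_lit 39573353100) (nat_lit 76) (nat_lit 93377351823) (nat_lit 43) (nat_lit 5) (nat_lit 46) (nat_lit 5) (nat_lit 44) (nat_lit 5) (nat_lit 316) (nat_lit 295) (nat_lit 169)) (XT.nd (nat_lit 78) (nat_lit 152) (nat_lit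 0) (XT.lf (nat_lit 0) (nat_lit 67012719490) (nat_lit 304) (nat_lit 78698813143) (nat_lit 76) (nat_lit 18110077256) (nat_lit 40) (nat_lit 5) (nat_lit 44) (nat_lit 5) (nat_lit 41) (nat_lit 5) (nat_lit 317) (nat_lit 295) (nat_lit 168)) (XT.lf (nat_lit 0) (nat_lit 49029215318) (nat_lit 152) (nat_lit 68430264046) (nat_lit 228) (nat_lit 55135773308) (nat_lit 38) (nat_lit 5) (nat_lit 40) (nat_lit 5) (nat_lit 41) (nat_lit 5) (nat_lit 318) (nat_lit 295) (nat_lit 167))))) (XT.nd (nat_lit 234) (nat_lit 380) (nat_lit 0) (XT.nd (nat_lit 78) (nat_lit 228) (nat_lit 0) (XT.lf (nat_lit 0) (nat_lit 7774058089) (nat_lit 152) (nat_lit 165916645422) (nat_lit 228) (nat_lit 8292647905) (nat_lit 36) (nat_lit 5) (nat_lit 38) (nat_lit 5) (nat_lit 39) (nat_lit 5) (nat_lit 319) (nat_lit 295) (nat_lit 166)) (XT.nd (nat_lit 78) (nat_lit 152) (nat_lit 0) (XT.lf (nat_lit 0) (nat_lit 44285017814) (nat_lit 228) (nat_lit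 39831644928) (nat_lit 76) (nat_lit 107805772078) (nat_lit 35) (nat_lit 5) (nat_lit 38) (nat_lit 5) (nat_lit 36) (nat_lit 5) (nat_lit 320) (nat_lit 295) (nat_lit 165)) (XT.lf (nat_lit 0) (nat_lit 102573746204) (nat_lit 228) (nat_lit 94028694654) (nat_lit 76) (nat_lit 5957638199) (nat_lit 33) (nat_lit 5) (nat_lit 36) (nat_lit 5) (nat_lit 34) (nat_lit 5) (nat_lit 321) (nat_lit 295) (nat_lit 164)))) (XT.nd (nat_lit 78) (nat_lit 228) (nat_lit 0) (XT.lf (nat_lit 0) (nat_lit 56551040956) (nat_lit 152) (nat_lit 111980409759) (nat_lit 228) (nat_lit 45366990762) (nat_lit 31) (nat_lit 5) (nat_lit 33) (nat_lit 5) (nat_lit 34) (nat_lit 5) (nat_lit 322) (nat_lit 295) (nat_lit 163)) (XT.nd (nat_lit 78) (nat_lit 152) (nat_lit 0) (XT.lf (nat_lit 0) (nat_lit 14850085026) (nat_lit 228) (nat_lit 3767590147) (nat_lit 76) (nat_lit 207432355785) (nat_lit 30) (nat_lit 5) (nat_lit 33) (nat_lit 5) (nat_lit 31)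 (nat_lit 5) (nat_lit 323) (nat_lit 295) (nat_lit 162)) (XT.lf (nat_lit 0) (nat_lit 82256709900) (nat_lit 228) (nat_lit 73677085561) (nat_lit 76) (nat_lit 83004685447) (nat_lit 28) (nat_lit 5) (nat_lit 31) (nat_lit 5) (nat_lit 29) (nat_lit 5) (nat_lit 324) (nat_lit 295) (nat_lit 161)))))) (XT.nd (nat_lit 390) (nat_lit 456) (nat_lit 0) (XT.nd (nat_lit 156) (nat_lit 304) (nat_lit 0) (XT.nd (nat_lit 78) (nat_lit 76) (nat_lit 0) (XT.lf (nat_lit 0) (nat_lit 97910367290) (nat_lit 152) (nat_lit 59054253981) (nat_lit 228) (nat_lit 95797948167) (nat_lit 26) (nat_lit 5) (nat_lit 28) (nat_lit 5) (nat_lit 29) (nat_lit 5) (nat_lit 325) (nat_lit 295) (nat_lit 160)) (XT.lf (nat_lit 0) (nat_lit 18072343860) (nat_lit 76) (nat_lit 221874481231) (nat_lit 152) (nat_lit 27630877357) (nat_lit 25) (nat_lit 5) (nat_lit 26) (nat_lit 5) (nat_lit 27) (nat_lit 4) (nat_lit 326) (nat_lit 295) (nat_lit 159))) (XT.nd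 (nat_lit 78) (nat_lit 228) (nat_lit 0) (XT.lf (nat_lit 0) (nat_lit 48254519941) (nat_lit 152) (nat_lit 74841454205) (nat_lit 76) (nat_lit 160259325296) (nat_lit 24) (nat_lit 5) (nat_lit 26) (nat_lit 5) (nat_lit 25) (nat_lit 5) (nat_lit 327) (nat_lit 295) (nat_lit 158)) (XT.nd (nat_lit 78) (nat_lit 76) (nat_lit 0) (XT.lf (nat_lit 0) (nat_lit 117076035950) (nat_lit 152) (nat_lit 14007031008) (nat_lit 228) (nat_lit 169197370818) (nat_lit 22) (nat_lit 5) (nat_lit 24) (nat_lit 5) (nat_lit 25) (nat_lit 5) (nat_lit 328) (nat_lit 295) (nat_lit 157)) (XT.lf (nat_lit 0) (nat_lit 7109754657) (nat_lit 76) (nat_lit 216484517609) (nat_lit 152) (nat_lit 94812496470) (nat_lit 21) (nat_lit 5) (nat_lit 22) (nat_lit 5) (nat_lit 23) (nat_lit 4) (nat_lit 329) (nat_lit 295) (nat_lit 156))))) (XT.nd (nat_lit 234) (nat_lit 228) (nat_lit 0) (XT.nd (nat_lit 78) (nat_lit 228) (nat_lit 0) (XT.lf (nat_lit 0) (nat_lit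 218946486734) (nat_lit 76) (nat_lit 107983145296) (nat_lit 152) (nat_lit 10882411506) (nat_lit 21) (nat_lit 5) (nat_lit 22) (nat_lit 5) (nat_lit 23) (nat_lit 4) (nat_lit 330) (nat_lit 295) (nat_lit 155)) (XT.nd (nat_lit 78) (nat_lit 0) (nat_lit 0) (XT.lf (nat_lit 0) (nat_lit 78810764158) (nat_lit 228) (nat_lit 268209322436) (nat_lit 76) (nat_lit 11607310048) (nat_lit 18) (nat_lit 5) (nat_lit 21) (nat_lit 5) (nat_lit 19) (nat_lit 4) (nat_lit 331) (nat_lit 295) (nat_lit 154)) (XT.lf (nat_lit 0) (nat_lit 179228142069) (nat_lit 228) (nat_lit 62354314544) (nat_lit 76) (nat_lit 139320100845) (nat_lit 18) (nat_lit 5) (nat_lit 21) (nat_lit 5) (nat_lit 19) (nat_lit 4) (nat_lit 332) (nat_lit 295) (nat_lit 153)))) (XT.nd (nat_lit 78) (nat_lit 152) (nat_lit 0) (XT.lf (nat_lit 0) (nat_lit 165257747131) (nat_lit 76) (nat_lit 125000947528) (nat_lit 152) (nat_lit 114572047458) (nat_lit 17) (nat_lit 5)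 (nat_lit 18) (nat_lit 5) (nat_lit 19) (nat_lit 4) (nat_lit 333) (nat_lit 295) (nat_lit 152)) (XT.nd (nat_lit 78) (nat_lit 152) (nat_lit 0) (XT.lf (nat_lit 0) (nat_lit 411289492061) (nat_lit 152) (nat_lit 17346027345) (nat_lit 0) (nat_lit 1981772298) (nat_lit 17) (nat_lit 5) (nat_lit 19) (nat_lit 4) (nat_lit 17) (nat_lit 4) (nat_lit 334) (nat_lit 295) (nat_lit 151)) (XT.lf (nat_lit 0) (nat_lit 86619879157) (nat_lit 152) (nat_lit 231737433830) (nat_lit 76) (nat_lit 139756362665) (nat_lit 15) (nat_lit 5) (nat_lit 17) (nat_lit 5) (nat_lit 16) (nat_lit 4) (nat_lit 335) (nat_lit 295) (nat_lit 150))))))))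
noncomputable def xc106 : XT := (XT.nd (nat_lit 38454) (nat_lit 0) (nat_lit 912) (XT.nd (nat_lit 37596) (nat_lit 0) (nat_lit 4712) (XT.nd (nat_lit 390) (nat_lit 152) (nat_lit 0) (XT.nd (nat_lit 156) (nat_lit 152) (nat_lit 0) (XT.nd (nat_lit 78) (nat_lit 0) (nat_lit 0) (XT.lf (nat_lit 0) (nat_lit 2158736105) (nat_lit 76) (nat_lit 198557046335) (nat_lit 152) (nat_lit 287060667462) (nat_lit 14) (nat_lit 5) (nat_lit 15) (nat_lit 5) (nat_lit 16) (nat_lit 4) (nat_lit 336) (nat_lit 295) (nat_lit 149)) (XT.lf (nat_lit 0) (nat_lit 263041340044) (nat_lit 76) (nat_lit 64934444225) (nat_lit 152) (nat_lit 191634640648) (nat_lit 14) (nat_lit 5) (nat_lit 15) (nat_lit 5) (nat_lit 16) (nat_lit 4) (nat_lit 337) (nat_lit 295) (nat_lit 148))) (XT.nd (nat_lit 78) (nat_lit 152) (nat_lit 0) (XT.lf (nat_lit 0) (nat_lit 466655626504) (nat_lit 152) (nat_lit 10436377712) (nat_lit 0) (nat_lit 76837161833) (nat_lit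 14) (nat_lit 5) (nat_lit 16) (nat_lit 4) (nat_lit 14) (nat_lit 4) (nat_lit 338) (nat_lit 295) (nat_lit 147)) (XT.nd (nat_lit 78) (nat_lit 0) (nat_lit 0) (XT.lf (nat_lit 0) (nat_lit 29903645081) (nat_lit 152) (nat_lit 328516318705) (nat_lit 76) (nat_lit 232289520054) (nat_lit 12) (nat_lit 5) (nat_lit 14) (nat_lit 5) (nat_lit 13) (nat_lit 4) (nat_lit 339) (nat_lit 295) (nat_lit 146)) (XT.lf (nat_lit 0) (nat_lit 153622773164) (nat_lit 152) (nat_lit 74892408403) (nat_lit 76) (nat_lit 401834239484) (nat_lit 12) (nat_lit 5) (nat_lit 14) (nat_lit 5) (nat_lit 13) (nat_lit 4) (nat_lit 340) (nat_lit 295) (nat_lit 145))))) (XT.nd (nat_lit 156) (nat_lit 76) (nat_lit 0) (XT.nd (nat_lit 78) (nat_lit 0) (nat_lit 0) (XT.lf (nat_lit 0) (nat_lit 205601530437) (nat_lit 76) (nat_lit 84847690883) (nat_lit 152) (nat_lit 382550842527) (nat_lit 11) (nat_lit 5) (nat_lit 12) (nat_lit 5) (nat_lit 13) (nat_lit 4)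 (nat_lit 341) (nat_lit 295) (nat_lit 144)) (XT.lf (nat_lit 0) (nat_lit 440645316774) (nat_lit 152) (nat_lit 208907740814) (nat_lit 0) (nat_lit 69388523995) (nat_lit 11) (nat_lit 5) (nat_lit 13) (nat_lit 4) (nat_lit 11) (nat_lit 4) (nat_lit 342) (nat_lit 295) (nat_lit 143))) (XT.nd (nat_lit 78) (nat_lit 0) (nat_lit 0) (XT.lf (nat_lit 0) (nat_lit 71107123157) (nat_lit 76) (nat_lit 534290642831) (nat_lit 76) (nat_lit 163033621528) (nat_lit 10) (nat_lit 4) (nat_lit 11) (nat_lit 5) (nat_lit 11) (nat_lit 4) (nat_lit 343) (nat_lit 295) (nat_lit 142)) (XT.nd (nat_lit 36894) (nat_lit 0) (nat_lit 6384) (XT.lf (nat_lit 0) (nat_lit 380982843679) (nat_lit 76) (nat_lit 405986412486) (nat_lit 76) (nat_lit 34729179586) (nat_lit 10) (nat_lit 4) (nat_lit 11) (nat_lit 5) (nat_lit 11) (nat_lit 4) (nat_lit 344) (nat_lit 295) (nat_lit 141)) (XT.lf (nat_lit 0) (nat_lit 14772400950) (nat_lit 0) (nat_lit 14772400950)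 (nat_lit 684) (nat_lit 3073273796) (nat_lit 94) (nat_lit 5) (nat_lit 94) (nat_lit 3) (nat_lit 103) (nat_lit 3) (nat_lit 296) (nat_lit 296) (nat_lit 188)))))) (XT.nd (nat_lit 390) (nat_lit 1064) (nat_lit 0) (XT.nd (nat_lit 156) (nat_lit 608) (nat_lit 0) (XT.nd (nat_lit 78) (nat_lit 0) (nat_lit 0) (XT.lf (nat_lit 76) (nat_lit 12259076355) (nat_lit 0) (nat_lit 49697424726) (nat_lit 760) (nat_lit 5863890393) (nat_lit 95) (nat_lit 5) (nat_lit 94) (nat_lit 5) (nat_lit 104) (nat_lit 5) (nat_lit 297) (nat_lit 296) (nat_lit 187)) (XT.lf (nat_lit 76) (nat_lit 64804098823) (nat_lit 0) (nat_lit 1358242348) (nat_lit 760) (nat_lit 4393554075) (nat_lit 95) (nat_lit 5) (nat_lit 94) (nat_lit 5) (nat_lit 104) (nat_lit 5) (nat_lit 298) (nat_lit 296) (nat_lit 186))) (XT.nd (nat_lit 78) (nat_lit 684) (nat_lit 0) (XT.lf (nat_lit 76) (nat_lit 48809472479) (nat_lit 0) (nat_lit 23449018446) (nat_lit 760) (nat_lit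 1174060006) (nat_lit 96) (nat_lit 5) (nat_lit 95) (nat_lit 5) (nat_lit 105) (nat_lit 5) (nat_lit 299) (nat_lit 296) (nat_lit 185)) (XT.nd (nat_lit 78) (nat_lit 0) (nat_lit 76) (XT.lf (nat_lit 0) (nat_lit 3318538730) (nat_lit 760) (nat_lit 44585815960) (nat_lit 836) (nat_lit 28578727100) (nat_lit 86) (nat_lit 5) (nat_lit 96) (nat_lit 5) (nat_lit 97) (nat_lit 5) (nat_lit 300) (nat_lit 296) (nat_lit 184)) (XT.lf (nat_lit 0) (nat_lit 9256090737) (nat_lit 760) (nat_lit 65711207271) (nat_lit 836) (nat_lit 4753063878) (nat_lit 87) (nat_lit 5) (nat_lit 97) (nat_lit 5) (nat_lit 98) (nat_lit 5) (nat_lit 301) (nat_lit 296) (nat_lit 183))))) (XT.nd (nat_lit 234) (nat_lit 684) (nat_lit 0) (XT.nd (nat_lit 78) (nat_lit 456) (nat_lit 0) (XT.lf (nat_lit 0) (nat_lit 17264057622) (nat_lit 760) (nat_lit 5115841883) (nat_lit 836) (nat_lit 60756957173) (nat_lit 87) (nat_lit 5) (nat_lit 97) (nat_lit 5) (nat_lit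 98) (nat_lit 5) (nat_lit 302) (nat_lit 296) (nat_lit 182)) (XT.nd (nat_lit 78) (nat_lit 532) (nat_lit 0) (XT.lf (nat_lit 0) (nat_lit 27437316755) (nat_lit 760) (nat_lit 25010893988) (nat_lit 76) (nat_lit 34302230181) (nat_lit 88) (nat_lit 5) (nat_lit 98) (nat_lit 5) (nat_lit 89) (nat_lit 5) (nat_lit 303) (nat_lit 296) (nat_lit 181)) (XT.lf (nat_lit 0) (nat_lit 39663061409) (nat_lit 608) (nat_lit 46149896085) (nat_lit 76) (nat_lit 4778225596) (nat_lit 81) (nat_lit 5) (nat_lit 89) (nat_lit 5) (nat_lit 82) (nat_lit 5) (nat_lit 304) (nat_lit 296) (nat_lit 180)))) (XT.nd (nat_lit 78) (nat_lit 304) (nat_lit 0) (XT.lf (nat_lit 0) (nat_lit 25550260539) (nat_lit 380) (nat_lit 29041296313) (nat_lit 456) (nat_lit 40061395458) (nat_lit 76) (nat_lit 5) (nat_lit 81) (nat_lit 5) (nat_lit 82) (nat_lit 5) (nat_lit 305) (nat_lit 296) (nat_lit 179)) (XT.nd (nat_lit 78) (nat_lit 0) (nat_lit 0) (XT.lf (nat_lit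 0) (nat_lit 5285724914) (nat_lit 304) (nat_lit 66830745823) (nat_lit 380) (nat_lit 26853087465) (nat_lit 72) (nat_lit 5) (nat_lit 76) (nat_lit 5) (nat_lit 77) (nat_lit 5) (nat_lit 306) (nat_lit 296) (nat_lit 178)) (XT.lf (nat_lit 0) (nat_lit 87585654556) (nat_lit 304) (nat_lit 5141991952) (nat_lit 380) (nat_lit 10819634541) (nat_lit 72) (nat_lit 5) (nat_lit 76) (nat_lit 5) (nat_lit 77) (nat_lit 5) (nat_lit 307) (nat_lit 296) (nat_lit 177))))))) (XT.nd (nat_lit 858) (nat_lit 1368) (nat_lit 0) (XT.nd (nat_lit 390) (nat_lit 1216) (nat_lit 0) (XT.nd (nat_lit 156) (nat_lit 532) (nat_lit 0) (XT.nd (nat_lit 78) (nat_lit 304) (nat_lit 0) (XT.lf (nat_lit 0) (nat_lit 8361672843) (nat_lit 380) (nat_lit 39291038139) (nat_lit 76) (nat_lit 60729785681) (nat_lit 67) (nat_lit 5) (nat_lit 72) (nat_lit 5) (nat_lit 68) (nat_lit 5) (nat_lit 308) (nat_lit 296) (nat_lit 176)) (XT.lf (nat_lit 0) (nat_lit 30142989001)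 (nat_lit 380) (nat_lit 64612460532) (nat_lit 76) (nat_lit 18767984435) (nat_lit 63) (nat_lit 5) (nat_lit 68) (nat_lit 5) (nat_lit 64) (nat_lit 5) (nat_lit 309) (nat_lit 296) (nat_lit 175))) (XT.nd (nat_lit 78) (nat_lit 228) (nat_lit 0) (XT.lf (nat_lit 0) (nat_lit 26565051944) (nat_lit 304) (nat_lit 29014622410) (nat_lit 380) (nat_lit 63400330162) (nat_lit 59) (nat_lit 5) (nat_lit 63) (nat_lit 5) (nat_lit 64) (nat_lit 5) (nat_lit 310) (nat_lit 296) (nat_lit 174)) (XT.nd (nat_lit 78) (nat_lit 0) (nat_lit 0) (XT.lf (nat_lit 0) (nat_lit 1913256638) (nat_lit 228) (nat_lit 82966386538) (nat_lit 304) (nat_lit 39902041445) (nat_lit 56) (nat_lit 5) (nat_lit 59) (nat_lit 5) (nat_lit 60) (nat_lit 5) (nat_lit 311) (nat_lit 296) (nat_lit 173)) (XT.lf (nat_lit 0) (nat_lit 106581221042) (nat_lit 228) (nat_lit 12032608882) (nat_lit 304) (nat_lit 12329159435) (nat_lit 56) (nat_lit 5) (nat_lit 59) (nat_lit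 5) (nat_lit 60) (nat_lit 5) (nat_lit 312) (nat_lit 296) (nat_lit 172))))) (XT.nd (nat_lit 234) (nat_lit 456) (nat_lit 0) (XT.nd (nat_lit 78) (nat_lit 456) (nat_lit 0) (XT.lf (nat_lit 0) (nat_lit 19243042366) (nat_lit 304) (nat_lit 54097043999) (nat_lit 76) (nat_lit 64125892192) (nat_lit 52) (nat_lit 5) (nat_lit 56) (nat_lit 5) (nat_lit 53) (nat_lit 5) (nat_lit 313) (nat_lit 296) (nat_lit 171)) (XT.nd (nat_lit 78) (nat_lit 228) (nat_lit 0) (XT.lf (nat_lit 0) (nat_lit 54494274722) (nat_lit 304) (nat_lit 86951231614) (nat_lit 76) (nat_lit 2975935298) (nat_lit 49) (nat_lit 5) (nat_lit 53) (nat_lit 5) (nat_lit 50) (nat_lit 5) (nat_lit 314) (nat_lit 296) (nat_lit 170)) (XT.lf (nat_lit 0) (nat_lit 27639846828) (nat_lit 228) (nat_lit 67550928325) (nat_lit 304) (nat_lit 56611309073) (nat_lit 46) (nat_lit 5) (nat_lit 49) (nat_lit 5) (nat_lit 50) (nat_lit 5) (nat_lit 315) (nat_lit 296) (nat_lit 169))))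 (XT.nd (nat_lit 78) (nat_lit 456) (nat_lit 0) (XT.lf (nat_lit 0) (nat_lit 140873038418) (nat_lit 304) (nat_lit 5411500635) (nat_lit 76) (nat_lit 13402137904) (nat_lit 46) (nat_lit 5) (nat_lit 50) (nat_lit 5) (nat_lit 47) (nat_lit 5) (nat_lit 316) (nat_lit 296) (nat_lit 168)) (XT.nd (nat_lit 78) (nat_lit 228) (nat_lit 0) (XT.lf (nat_lit 0) (nat_lit 24455515531) (nat_lit 228) (nat_lit 42718247468) (nat_lit 76) (nat_lit 100853491749) (nat_lit 43) (nat_lit 5) (nat_lit 46) (nat_lit 5) (nat_lit 44) (nat_lit 5) (nat_lit 317) (nat_lit 296) (nat_lit 167)) (XT.lf (nat_lit 0) (nat_lit 72387385775) (nat_lit 304) (nat_lit 84974066297) (nat_lit 76) (nat_lit 19565190283) (nat_lit 40) (nat_lit 5) (nat_lit 44) (nat_lit 5) (nat_lit 41) (nat_lit 5) (nat_lit 318) (nat_lit 296) (nat_lit 166)))))) (XT.nd (nat_lit 390) (nat_lit 684) (nat_lit 0) (XT.nd (nat_lit 156) (nat_lit 380) (nat_lit 0) (XT.nd (nat_lit 78)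 (nat_lit 152) (nat_lit 0) (XT.lf (nat_lit 0) (nat_lit 52971306934) (nat_lit 152) (nat_lit 73897876909) (nat_lit 228) (nat_lit 59533028875) (nat_lit 38) (nat_lit 5) (nat_lit 40) (nat_lit 5) (nat_lit 41) (nat_lit 5) (nat_lit 319) (nat_lit 296) (nat_lit 165)) (XT.lf (nat_lit 0) (nat_lit 8415408426) (nat_lit 152) (nat_lit 179182940234) (nat_lit 228) (nat_lit 8943039516) (nat_lit 36) (nat_lit 5) (nat_lit 38) (nat_lit 5) (nat_lit 39) (nat_lit 5) (nat_lit 320) (nat_lit 296) (nat_lit 164))) (XT.nd (nat_lit 78) (nat_lit 304) (nat_lit 0) (XT.lf (nat_lit 0) (nat_lit 47839489140) (nat_lit 228) (nat_lit 42999793411) (nat_lit 76) (nat_lit 116436353058) (nat_lit 35) (nat_lit 5) (nat_lit 38) (nat_lit 5) (nat_lit 36) (nat_lit 5) (nat_lit 321) (nat_lit 296) (nat_lit 163)) (XT.nd (nat_lit 78) (nat_lit 152) (nat_lit 0) (XT.lf (nat_lit 0) (nat_lit 110790827451) (nat_lit 228) (nat_lit 101532943847) (nat_lit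 76) (nat_lit 6440545281) (nat_lit 33) (nat_lit 5) (nat_lit 36) (nat_lit 5) (nat_lit 34) (nat_lit 5) (nat_lit 322) (nat_lit 296) (nat_lit 162)) (XT.lf (nat_lit 0) (nat_lit 61092386338) (nat_lit 152) (nat_lit 120932203232) (nat_lit 228) (nat_lit 48985187082) (nat_lit 31) (nat_lit 5) (nat_lit 33) (nat_lit 5) (nat_lit 34) (nat_lit 5) (nat_lit 323) (nat_lit 296) (nat_lit 161))))) (XT.nd (nat_lit 234) (nat_lit 304) (nat_lit 0) (XT.nd (nat_lit 78) (nat_lit 304) (nat_lit 0) (XT.lf (nat_lit 0) (nat_lit 16048097066) (nat_lit 228) (nat_lit 4052675170) (nat_lit 76) (nat_lit 224032752997) (nat_lit 30) (nat_lit 5) (nat_lit 33) (nat_lit 5) (nat_lit 31) (nat_lit 5) (nat_lit 324) (nat_lit 296) (nat_lit 160)) (XT.nd (nat_lit 78) (nat_lit 152) (nat_lit 0) (XT.lf (nat_lit 0) (nat_lit 88846849877) (nat_lit 228) (nat_lit 79555252131) (nat_lit 76) (nat_lit 89650969862) (nat_lit 28) (nat_lit 5) (nat_lit 31) (nat_lit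 5) (nat_lit 29) (nat_lit 5) (nat_lit 325) (nat_lit 296) (nat_lit 159)) (XT.lf (nat_lit 0) (nat_lit 105758501596) (nat_lit 152) (nat_lit 63772420168) (nat_lit 228) (nat_lit 103452189882) (nat_lit 26) (nat_lit 5) (nat_lit 28) (nat_lit 5) (nat_lit 29) (nat_lit 5) (nat_lit 326) (nat_lit 296) (nat_lit 158)))) (XT.nd (nat_lit 78) (nat_lit 228) (nat_lit 0) (XT.lf (nat_lit 0) (nat_lit 19533122162) (nat_lit 76) (nat_lit 239618226676) (nat_lit 152) (nat_lit 29832124617) (nat_lit 25) (nat_lit 5) (nat_lit 26) (nat_lit 5) (nat_lit 27) (nat_lit 4) (nat_lit 327) (nat_lit 296) (nat_lit 157)) (XT.nd (nat_lit 78) (nat_lit 152) (nat_lit 0) (XT.lf (nat_lit 0) (nat_lit 52123147960) (nat_lit 152) (nat_lit 80814611294) (nat_lit 76) (nat_lit 173085545263) (nat_lit 24) (nat_lit 5) (nat_lit 26) (nat_lit 5) (nat_lit 25) (nat_lit 5) (nat_lit 328) (nat_lit 296) (nat_lit 156)) (XT.lf (nat_lit 0) (nat_lit 126455662730)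 (nat_lit 152) (nat_lit 15121915140) (nat_lit 228) (nat_lit 182724896505) (nat_lit 22) (nat_lit 5) (nat_lit 24) (nat_lit 5) (nat_lit 25) (nat_lit 5) (nat_lit 329) (nat_lit 296) (nat_lit 155))))))))
noncomputable def xc107 : XT := (XT.nd (nat_lit 38532) (nat_lit 0) (nat_lit 1596) (XT.nd (nat_lit 780) (nat_lit 304) (nat_lit 0) (XT.nd (nat_lit 390) (nat_lit 228) (nat_lit 0) (XT.nd (nat_lit 156) (nat_lit 304) (nat_lit 0) (XT.nd (nat_lit 78) (nat_lit 0) (nat_lit 0) (XT.lf (nat_lit 0) (nat_lit 7691786638) (nat_lit 76) (nat_lit 233797599313) (nat_lit 152) (nat_lit 102389540924) (nat_lit 21) (nat_lit 5) (nat_lit 22) (nat_lit 5) (nat_lit 23) (nat_lit 4) (nat_lit 330) (nat_lit 296) (nat_lit 154)) (XT.lf (nat_lit 0) (nat_lit 236474475681) (nat_lit 76) (nat_lit 116616537934) (nat_lit 152) (nat_lit 11745638442) (nat_lit 21) (nat_lit 5) (nat_lit 22) (nat_lit 5) (nat_lit 23) (nat_lit 4) (nat_lit 331)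 (nat_lit 296) (nat_lit 153))) (XT.nd (nat_lit 78) (nat_lit 76) (nat_lit 0) (XT.lf (nat_lit 0) (nat_lit 85122495015) (nat_lit 228) (nat_lit 289653839430) (nat_lit 76) (nat_lit 12540906552) (nat_lit 18) (nat_lit 5) (nat_lit 21) (nat_lit 5) (nat_lit 19) (nat_lit 4) (nat_lit 332) (nat_lit 296) (nat_lit 152)) (XT.nd (nat_lit 78) (nat_lit 76) (nat_lit 0) (XT.lf (nat_lit 0) (nat_lit 193572754290) (nat_lit 228) (nat_lit 67331336744) (nat_lit 76) (nat_lit 150470349376) (nat_lit 18) (nat_lit 5) (nat_lit 21) (nat_lit 5) (nat_lit 19) (nat_lit 4) (nat_lit 333) (nat_lit 296) (nat_lit 151)) (XT.lf (nat_lit 0) (nat_lit 178489197783) (nat_lit 76) (nat_lit 134996251231) (nat_lit 152) (nat_lit 123731446199) (nat_lit 17) (nat_lit 5) (nat_lit 18) (nat_lit 5) (nat_lit 19) (nat_lit 4) (nat_lit 334) (nat_lit 296) (nat_lit 150))))) (XT.nd (nat_lit 156) (nat_lit 76) (nat_lit 0) (XT.nd (nat_lit 78) (nat_lit 152)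 (nat_lit 0) (XT.lf (nat_lit 0) (nat_lit 444198330395) (nat_lit 152) (nat_lit 18723466338) (nat_lit 0) (nat_lit 2144591269) (nat_lit 17) (nat_lit 5) (nat_lit 19) (nat_lit 4) (nat_lit 17) (nat_lit 4) (nat_lit 335) (nat_lit 296) (nat_lit 149)) (XT.lf (nat_lit 0) (nat_lit 93554972247) (nat_lit 152) (nat_lit 250266445829) (nat_lit 76) (nat_lit 150941073767) (nat_lit 15) (nat_lit 5) (nat_lit 17) (nat_lit 5) (nat_lit 16) (nat_lit 4) (nat_lit 336) (nat_lit 296) (nat_lit 148))) (XT.nd (nat_lit 78) (nat_lit 0) (nat_lit 0) (XT.lf (nat_lit 0) (nat_lit 2340983864) (nat_lit 76) (nat_lit 214437305401) (nat_lit 152) (nat_lit 310020011895) (nat_lit 14) (nat_lit 5) (nat_lit 15) (nat_lit 5) (nat_lit 16) (nat_lit 4) (nat_lit 337) (nat_lit 296) (nat_lit 147)) (XT.nd (nat_lit 78) (nat_lit 0) (nat_lit 0) (XT.lf (nat_lit 0) (nat_lit 284093488794) (nat_lit 76) (nat_lit 70125213985) (nat_lit 152) (nat_lit 206960311007)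 (nat_lit 14) (nat_lit 5) (nat_lit 15) (nat_lit 5) (nat_lit 16) (nat_lit 4) (nat_lit 338) (nat_lit 296) (nat_lit 146)) (XT.lf (nat_lit 0) (nat_lit 503992630327) (nat_lit 152) (nat_lit 11262931965) (nat_lit 0) (nat_lit 82987707195) (nat_lit 14) (nat_lit 5) (nat_lit 16) (nat_lit 4) (nat_lit 14) (nat_lit 4) (nat_lit 339) (nat_lit 296) (nat_lit 145)))))) (XT.nd (nat_lit 37284) (nat_lit 0) (nat_lit 5776) (XT.nd (nat_lit 156) (nat_lit 152) (nat_lit 0) (XT.nd (nat_lit 78) (nat_lit 0) (nat_lit 0) (XT.lf (nat_lit 0) (nat_lit 32300350973) (nat_lit 152) (nat_lit 354789483514) (nat_lit 76) (nat_lit 250876185439) (nat_lit 12) (nat_lit 5) (nat_lit 14) (nat_lit 5) (nat_lit 13) (nat_lit 4) (nat_lit 340) (nat_lit 296) (nat_lit 144)) (XT.lf (nat_lit 0) (nat_lit 165916682319) (nat_lit 152) (nat_lit 80876263402) (nat_lit 76) (nat_lit 433984222884) (nat_lit 12) (nat_lit 5) (nat_lit 14) (nat_lit 5) (nat_lit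 13) (nat_lit 4) (nat_lit 341) (nat_lit 296) (nat_lit 143))) (XT.nd (nat_lit 78) (nat_lit 76) (nat_lit 0) (XT.lf (nat_lit 0) (nat_lit 222056862967) (nat_lit 76) (nat_lit 91632193167) (nat_lit 152) (nat_lit 413150816330) (nat_lit 11) (nat_lit 5) (nat_lit 12) (nat_lit 5) (nat_lit 13) (nat_lit 4) (nat_lit 342) (nat_lit 296) (nat_lit 142)) (XT.nd (nat_lit 78) (nat_lit 76) (nat_lit 0) (XT.lf (nat_lit 0) (nat_lit 475900598443) (nat_lit 152) (nat_lit 225613550023) (nat_lit 0) (nat_lit 74942575314) (nat_lit 11) (nat_lit 5) (nat_lit 13) (nat_lit 4) (nat_lit 11) (nat_lit 4) (nat_lit 343) (nat_lit 296) (nat_lit 141)) (XT.lf (nat_lit 0) (nat_lit 76802207109) (nat_lit 76) (nat_lit 577030867350) (nat_lit 76) (nat_lit 176072648297) (nat_lit 10) (nat_lit 4) (nat_lit 11) (nat_lit 5) (nat_lit 11) (nat_lit 4) (nat_lit 344) (nat_lit 296) (nat_lit 140))))) (XT.nd (nat_lit 234) (nat_lit 608) (nat_lit 0) (XT.nd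 (nat_lit 78) (nat_lit 0) (nat_lit 0) (XT.lf (nat_lit 0) (nat_lit 15965267984) (nat_lit 0) (nat_lit 15965267984) (nat_lit 684) (nat_lit 3295838941) (nat_lit 94) (nat_lit 5) (nat_lit 94) (nat_lit 3) (nat_lit 103) (nat_lit 3) (nat_lit 297) (nat_lit 297) (nat_lit 186)) (XT.nd (nat_lit 78) (nat_lit 0) (nat_lit 0) (XT.lf (nat_lit 76) (nat_lit 13263514570) (nat_lit 0) (nat_lit 53690574968) (nat_lit 760) (nat_lit 6289806972) (nat_lit 95) (nat_lit 5) (nat_lit 94) (nat_lit 5) (nat_lit 104) (nat_lit 5) (nat_lit 298) (nat_lit 297) (nat_lit 185)) (XT.lf (nat_lit 76) (nat_lit 70010382382) (nat_lit 0) (nat_lit 1482972350) (nat_lit 760) (nat_lit 4705043353) (nat_lit 95) (nat_lit 5) (nat_lit 94) (nat_lit 5) (nat_lit 104) (nat_lit 5) (nat_lit 299) (nat_lit 297) (nat_lit 184)))) (XT.nd (nat_lit 78) (nat_lit 684) (nat_lit 0) (XT.lf (nat_lit 76) (nat_lit 52737354988) (nat_lit 0) (nat_lit 25337153439) (nat_lit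 760) (nat_lit 1230817198) (nat_lit 96) (nat_lit 5) (nat_lit 95) (nat_lit 5) (nat_lit 105) (nat_lit 5) (nat_lit 300) (nat_lit 297) (nat_lit 183)) (XT.nd (nat_lit 78) (nat_lit 0) (nat_lit 76) (XT.lf (nat_lit 0) (nat_lit 3617537022) (nat_lit 760) (nat_lit 48127465968) (nat_lit 836) (nat_lit 30854994496) (nat_lit 86) (nat_lit 5) (nat_lit 96) (nat_lit 5) (nat_lit 97) (nat_lit 5) (nat_lit 301) (nat_lit 297) (nat_lit 182)) (XT.lf (nat_lit 0) (nat_lit 10027873342) (nat_lit 760) (nat_lit 70942249131) (nat_lit 836) (nat_lit 5126252590) (nat_lit 87) (nat_lit 5) (nat_lit 97) (nat_lit 5) (nat_lit 98) (nat_lit 5) (nat_lit 302) (nat_lit 297) (nat_lit 181))))))) (XT.nd (nat_lit 858) (nat_lit 1900) (nat_lit 0) (XT.nd (nat_lit 390) (nat_lit 1216) (nat_lit 0) (XT.nd (nat_lit 156) (nat_lit 1140) (nat_lit 0) (XT.nd (nat_lit 78) (nat_lit 0) (nat_lit 76) (XT.lf (nat_lit 0) (nat_lit 18674159404) (nat_lit 760)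 (nat_lit 5501169676) (nat_lit 836) (nat_lit 65610980045) (nat_lit 87) (nat_lit 5) (nat_lit 97) (nat_lit 5) (nat_lit 98) (nat_lit 5) (nat_lit 303) (nat_lit 297) (nat_lit 180)) (XT.lf (nat_lit 0) (nat_lit 29659423366) (nat_lit 760) (nat_lit 26987396227) (nat_lit 76) (nat_lit 37042256810) (nat_lit 88) (nat_lit 5) (nat_lit 98) (nat_lit 5) (nat_lit 89) (nat_lit 5) (nat_lit 304) (nat_lit 297) (nat_lit 179))) (XT.nd (nat_lit 78) (nat_lit 684) (nat_lit 0) (XT.lf (nat_lit 0) (nat_lit 42861548730) (nat_lit 608) (nat_lit 49817229430) (nat_lit 76) (nat_lit 5158386965) (nat_lit 81) (nat_lit 5) (nat_lit 89) (nat_lit 5) (nat_lit 82) (nat_lit 5) (nat_lit 305) (nat_lit 297) (nat_lit 178)) (XT.nd (nat_lit 78) (nat_lit 304) (nat_lit 0) (XT.lf (nat_lit 0) (nat_lit 27617868102) (nat_lit 380) (nat_lit 31364939339) (nat_lit 456) (nat_lit 43241147260) (nat_lit 76) (nat_lit 5) (nat_lit 81) (nat_lit 5) (nat_lit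 82) (nat_lit 5) (nat_lit 306) (nat_lit 297) (nat_lit 177)) (XT.lf (nat_lit 0) (nat_lit 5732329819) (nat_lit 304) (nat_lit 72175978168) (nat_lit 380) (nat_lit 28977654176) (nat_lit 72) (nat_lit 5) (nat_lit 76) (nat_lit 5) (nat_lit 77) (nat_lit 5) (nat_lit 307) (nat_lit 297) (nat_lit 176))))) (XT.nd (nat_lit 234) (nat_lit 532) (nat_lit 0) (XT.nd (nat_lit 78) (nat_lit 684) (nat_lit 0) (XT.lf (nat_lit 0) (nat_lit 94614494803) (nat_lit 304) (nat_lit 5552214900) (nat_lit 380) (nat_lit 11663279114) (nat_lit 72) (nat_lit 5) (nat_lit 76) (nat_lit 5) (nat_lit 77) (nat_lit 5) (nat_lit 308) (nat_lit 297) (nat_lit 175)) (XT.nd (nat_lit 78) (nat_lit 304) (nat_lit 0) (XT.lf (nat_lit 0) (nat_lit 9050625406) (nat_lit 380) (nat_lit 42411587580) (nat_lit 76) (nat_lit 65589854128) (nat_lit 67) (nat_lit 5) (nat_lit 72) (nat_lit 5) (nat_lit 68) (nat_lit 5) (nat_lit 309) (nat_lit 297) (nat_lit 174)) (XT.lf (nat_lit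 0) (nat_lit 32573348310) (nat_lit 380) (nat_lit 69758786538) (nat_lit 76) (nat_lit 20272201583) (nat_lit 63) (nat_lit 5) (nat_lit 68) (nat_lit 5) (nat_lit 64) (nat_lit 5) (nat_lit 310) (nat_lit 297) (nat_lit 173)))) (XT.nd (nat_lit 78) (nat_lit 228) (nat_lit 0) (XT.lf (nat_lit 0) (nat_lit 28711941688) (nat_lit 304) (nat_lit 31331963880) (nat_lit 380) (nat_lit 68453582145) (nat_lit 59) (nat_lit 5) (nat_lit 63) (nat_lit 5) (nat_lit 64) (nat_lit 5) (nat_lit 311) (nat_lit 297) (nat_lit 172)) (XT.nd (nat_lit 78) (nat_lit 0) (nat_lit 0) (XT.lf (nat_lit 0) (nat_lit 2087880461) (nat_lit 228) (nat_lit 89599060681) (nat_lit 304) (nat_lit 43076409421) (nat_lit 56) (nat_lit 5) (nat_lit 59) (nat_lit 5) (nat_lit 60) (nat_lit 5) (nat_lit 312) (nat_lit 297) (nat_lit 171)) (XT.lf (nat_lit 0) (nat_lit 115127684736) (nat_lit 228) (nat_lit 12990924278) (nat_lit 304) (nat_lit 13299015023) (nat_lit 56) (nat_lit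 5) (nat_lit 59) (nat_lit 5) (nat_lit 60) (nat_lit 5) (nat_lit 313) (nat_lit 297) (nat_lit 170)))))) (XT.nd (nat_lit 390) (nat_lit 912) (nat_lit 0) (XT.nd (nat_lit 156) (nat_lit 456) (nat_lit 0) (XT.nd (nat_lit 78) (nat_lit 228) (nat_lit 0) (XT.lf (nat_lit 0) (nat_lit 20797631426) (nat_lit 304) (nat_lit 58404484658) (nat_lit 76) (nat_lit 69260365100) (nat_lit 52) (nat_lit 5) (nat_lit 56) (nat_lit 5) (nat_lit 53) (nat_lit 5) (nat_lit 314) (nat_lit 297) (nat_lit 169)) (XT.lf (nat_lit 0) (nat_lit 58868223795) (nat_lit 304) (nat_lit 93887236933) (nat_lit 76) (nat_lit 3218958871) (nat_lit 49) (nat_lit 5) (nat_lit 53) (nat_lit 5) (nat_lit 50) (nat_lit 5) (nat_lit 315) (nat_lit 297) (nat_lit 168))) (XT.nd (nat_lit 78) (nat_lit 228) (nat_lit 0) (XT.lf (nat_lit 0) (nat_lit 29870254559) (nat_lit 228) (nat_lit 72949422587) (nat_lit 304) (nat_lit 61125876068) (nat_lit 46) (nat_lit 5) (nat_lit 49) (nat_lit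 5) (nat_lit 50) (nat_lit 5) (nat_lit 316) (nat_lit 297) (nat_lit 167)) (XT.nd (nat_lit 78) (nat_lit 228) (nat_lit 0) (XT.lf (nat_lit 0) (nat_lit 152155591770) (nat_lit 304) (nat_lit 5826059005) (nat_lit 76) (nat_lit 14479310240) (nat_lit 46) (nat_lit 5) (nat_lit 50) (nat_lit 5) (nat_lit 47) (nat_lit 5) (nat_lit 317) (nat_lit 297) (nat_lit 166)) (XT.lf (nat_lit 0) (nat_lit 26424210266) (nat_lit 228) (nat_lit 46117725544) (nat_lit 76) (nat_lit 108926873782) (nat_lit 43) (nat_lit 5) (nat_lit 46) (nat_lit 5) (nat_lit 44) (nat_lit 5) (nat_lit 318) (nat_lit 297) (nat_lit 165))))) (XT.nd (nat_lit 234) (nat_lit 380) (nat_lit 0) (XT.nd (nat_lit 78) (nat_lit 304) (nat_lit 0) (XT.lf (nat_lit 0) (nat_lit 78190078219) (nat_lit 304) (nat_lit 91754285927) (nat_lit 76) (nat_lit 21135812609) (nat_lit 40) (nat_lit 5) (nat_lit 44) (nat_lit 5) (nat_lit 41) (nat_lit 5) (nat_lit 319) (nat_lit 297) (nat_lit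 164)) (XT.nd (nat_lit 78) (nat_lit 152) (nat_lit 0) (XT.lf (nat_lit 0) (nat_lit 57225947696) (nat_lit 152) (nat_lit 79803870075) (nat_lit 228) (nat_lit 64284005978) (nat_lit 38) (nat_lit 5) (nat_lit 40) (nat_lit 5) (nat_lit 41) (nat_lit 5) (nat_lit 320) (nat_lit 297) (nat_lit 163)) (XT.lf (nat_lit 0) (nat_lit 9105295499) (nat_lit 152) (nat_lit 193511542513) (nat_lit 228) (nat_lit 9647319936) (nat_lit 36) (nat_lit 5) (nat_lit 38) (nat_lit 5) (nat_lit 39) (nat_lit 5) (nat_lit 321) (nat_lit 297) (nat_lit 162)))) (XT.nd (nat_lit 78) (nat_lit 304) (nat_lit 0) (XT.lf (nat_lit 0) (nat_lit 51676653331) (nat_lit 228) (nat_lit 46424016328) (nat_lit 76) (nat_lit 125756507543) (nat_lit 35) (nat_lit 5) (nat_lit 38) (nat_lit 5) (nat_lit 36) (nat_lit 5) (nat_lit 322) (nat_lit 297) (nat_lit 161)) (XT.nd (nat_lit 78) (nat_lit 152) (nat_lit 0) (XT.lf (nat_lit 0) (nat_lit 119663680026) (nat_lit 228) (nat_lit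 109640107494) (nat_lit 76) (nat_lit 6961186731) (nat_lit 33) (nat_lit 5) (nat_lit 36) (nat_lit 5) (nat_lit 34) (nat_lit 5) (nat_lit 323) (nat_lit 297) (nat_lit 160)) (XT.lf (nat_lit 0) (nat_lit 65994576718) (nat_lit 152) (nat_lit 130601087355) (nat_lit 228) (nat_lit 52894431626) (nat_lit 31) (nat_lit 5) (nat_lit 33) (nat_lit 5) (nat_lit 34) (nat_lit 5) (nat_lit 324) (nat_lit 297) (nat_lit 159))))))))
noncomputable def xc108 : XT := (XT.nd (nat_lit 38610) (nat_lit 0) (nat_lit 2204) (XT.nd (nat_lit 780) (nat_lit 532) (nat_lit 0) (XT.nd (nat_lit 390) (nat_lit 456) (nat_lit 0) (XT.nd (nat_lit 156) (nat_lit 304) (nat_lit 0) (XT.nd (nat_lit 78) (nat_lit 152) (nat_lit 0) (XT.lf (nat_lit 0) (nat_lit 17340522711) (nat_lit 228) (nat_lit 4362895538) (nat_lit 76) (nat_lit 241960353302) (nat_lit 30) (nat_lit 5) (nat_lit 33) (nat_lit 5) (nat_lit 31) (nat_lit 5) (nat_lit 325) (nat_lit 297) (nat_lit 158))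 (XT.lf (nat_lit 0) (nat_lit 95962831052) (nat_lit 228) (nat_lit 85905954645) (nat_lit 76) (nat_lit 96828113963) (nat_lit 28) (nat_lit 5) (nat_lit 31) (nat_lit 5) (nat_lit 29) (nat_lit 5) (nat_lit 326) (nat_lit 297) (nat_lit 157))) (XT.nd (nat_lit 78) (nat_lit 152) (nat_lit 0) (XT.lf (nat_lit 0) (nat_lit 114232303228) (nat_lit 152) (nat_lit 68868920459) (nat_lit 228) (nat_lit 111720139646) (nat_lit 26) (nat_lit 5) (nat_lit 28) (nat_lit 5) (nat_lit 29) (nat_lit 5) (nat_lit 327) (nat_lit 297) (nat_lit 156)) (XT.nd (nat_lit 78) (nat_lit 76) (nat_lit 0) (XT.lf (nat_lit 0) (nat_lit 21108624123) (nat_lit 76) (nat_lit 258782358119) (nat_lit 152) (nat_lit 32210787411) (nat_lit 25) (nat_lit 5) (nat_lit 26) (nat_lit 5) (nat_lit 27) (nat_lit 4) (nat_lit 328) (nat_lit 297) (nat_lit 155)) (XT.lf (nat_lit 0) (nat_lit 56300086923) (nat_lit 152) (nat_lit 87267640925) (nat_lit 76) (nat_lit 186937081909)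 (nat_lit 24) (nat_lit 5) (nat_lit 26) (nat_lit 5) (nat_lit 25) (nat_lit 5) (nat_lit 329) (nat_lit 297) (nat_lit 154))))) (XT.nd (nat_lit 156) (nat_lit 228) (nat_lit 0) (XT.nd (nat_lit 78) (nat_lit 76) (nat_lit 0) (XT.lf (nat_lit 0) (nat_lit 136583727462) (nat_lit 152) (nat_lit 16326800082) (nat_lit 228) (nat_lit 197335803196) (nat_lit 22) (nat_lit 5) (nat_lit 24) (nat_lit 5) (nat_lit 25) (nat_lit 5) (nat_lit 330) (nat_lit 297) (nat_lit 153)) (XT.lf (nat_lit 0) (nat_lit 8318490688) (nat_lit 76) (nat_lit 252496537826) (nat_lit 152) (nat_lit 110573883842) (nat_lit 21) (nat_lit 5) (nat_lit 22) (nat_lit 5) (nat_lit 23) (nat_lit 4) (nat_lit 331) (nat_lit 297) (nat_lit 152))) (XT.nd (nat_lit 78) (nat_lit 228) (nat_lit 0) (XT.lf (nat_lit 0) (nat_lit 255402953290) (nat_lit 76) (nat_lit 125941352235) (nat_lit 152) (nat_lit 12678974372) (nat_lit 21) (nat_lit 5) (nat_lit 22) (nat_lit 5) (nat_lit 23)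 (nat_lit 4) (nat_lit 332) (nat_lit 297) (nat_lit 151)) (XT.nd (nat_lit 78) (nat_lit 0) (nat_lit 0) (XT.lf (nat_lit 0) (nat_lit 91938184297) (nat_lit 228) (nat_lit 312815662359) (nat_lit 76) (nat_lit 13548475802) (nat_lit 18) (nat_lit 5) (nat_lit 21) (nat_lit 5) (nat_lit 19) (nat_lit 4) (nat_lit 333) (nat_lit 297) (nat_lit 150)) (XT.lf (nat_lit 0) (nat_lit 209064028042) (nat_lit 228) (nat_lit 72708136068) (nat_lit 76) (nat_lit 162511955775) (nat_lit 18) (nat_lit 5) (nat_lit 21) (nat_lit 5) (nat_lit 19) (nat_lit 4) (nat_lit 334) (nat_lit 297) (nat_lit 149)))))) (XT.nd (nat_lit 390) (nat_lit 228) (nat_lit 0) (XT.nd (nat_lit 156) (nat_lit 228) (nat_lit 0) (XT.nd (nat_lit 78) (nat_lit 0) (nat_lit 0) (XT.lf (nat_lit 0) (nat_lit 192777619341) (nat_lit 76) (nat_lit 145791860022) (nat_lit 152) (nat_lit 133624504885) (nat_lit 17) (nat_lit 5) (nat_lit 18) (nat_lit 5) (nat_lit 19) (nat_lit 4) (nat_lit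 335) (nat_lit 297) (nat_lit 148)) (XT.lf (nat_lit 0) (nat_lit 479739065628) (nat_lit 152) (nat_lit 20212561757) (nat_lit 0) (nat_lit 2319825570) (nat_lit 17) (nat_lit 5) (nat_lit 19) (nat_lit 4) (nat_lit 17) (nat_lit 4) (nat_lit 336) (nat_lit 297) (nat_lit 147))) (XT.nd (nat_lit 78) (nat_lit 76) (nat_lit 0) (XT.lf (nat_lit 0) (nat_lit 101044087755) (nat_lit 152) (nat_lit 270279202933) (nat_lit 76) (nat_lit 163019962282) (nat_lit 15) (nat_lit 5) (nat_lit 17) (nat_lit 5) (nat_lit 16) (nat_lit 4) (nat_lit 337) (nat_lit 297) (nat_lit 146)) (XT.nd (nat_lit 78) (nat_lit 0) (nat_lit 0) (XT.lf (nat_lit 0) (nat_lit 2536449191) (nat_lit 76) (nat_lit 231588599298) (nat_lit 152) (nat_lit 334816889798) (nat_lit 14) (nat_lit 5) (nat_lit 15) (nat_lit 5) (nat_lit 16) (nat_lit 4) (nat_lit 338) (nat_lit 297) (nat_lit 145)) (XT.lf (nat_lit 0) (nat_lit 306828548100) (nat_lit 76) (nat_lit 75731813942) (nat_lit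 152) (nat_lit 223512762695) (nat_lit 14) (nat_lit 5) (nat_lit 15) (nat_lit 5) (nat_lit 16) (nat_lit 4) (nat_lit 339) (nat_lit 297) (nat_lit 144))))) (XT.nd (nat_lit 234) (nat_lit 76) (nat_lit 0) (XT.nd (nat_lit 78) (nat_lit 152) (nat_lit 0) (XT.lf (nat_lit 0) (nat_lit 544315944819) (nat_lit 152) (nat_lit 12156802629) (nat_lit 0) (nat_lit 89629786541) (nat_lit 14) (nat_lit 5) (nat_lit 16) (nat_lit 4) (nat_lit 14) (nat_lit 4) (nat_lit 340) (nat_lit 297) (nat_lit 143)) (XT.nd (nat_lit 78) (nat_lit 0) (nat_lit 0) (XT.lf (nat_lit 0) (nat_lit 34888163590) (nat_lit 152) (nat_lit 383165662868) (nat_lit 76) (nat_lit 270949284201) (nat_lit 12) (nat_lit 5) (nat_lit 14) (nat_lit 5) (nat_lit 13) (nat_lit 4) (nat_lit 341) (nat_lit 297) (nat_lit 142)) (XT.lf (nat_lit 0) (nat_lit 179193521107) (nat_lit 152) (nat_lit 87339902134) (nat_lit 76) (nat_lit 468705742129) (nat_lit 12) (nat_lit 5) (nat_lit 14)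 (nat_lit 5) (nat_lit 13) (nat_lit 4) (nat_lit 342) (nat_lit 297) (nat_lit 141)))) (XT.nd (nat_lit 78) (nat_lit 0) (nat_lit 0) (XT.lf (nat_lit 0) (nat_lit 239827593499) (nat_lit 76) (nat_lit 98959928268) (nat_lit 152) (nat_lit 446199372036) (nat_lit 11) (nat_lit 5) (nat_lit 12) (nat_lit 5) (nat_lit 13) (nat_lit 4) (nat_lit 343) (nat_lit 297) (nat_lit 140)) (XT.nd (nat_lit 37050) (nat_lit 0) (nat_lit 6308) (XT.lf (nat_lit 0) (nat_lit 513975781030) (nat_lit 152) (nat_lit 243656795500) (nat_lit 0) (nat_lit 80940527119) (nat_lit 11) (nat_lit 5) (nat_lit 13) (nat_lit 4) (nat_lit 11) (nat_lit 4) (nat_lit 344) (nat_lit 297) (nat_lit 139)) (XT.lf (nat_lit 0) (nat_lit 17251984414) (nat_lit 0) (nat_lit 17251984414) (nat_lit 684) (nat_lit 3539532840) (nat_lit 94) (nat_lit 5) (nat_lit 94) (nat_lit 3) (nat_lit 103) (nat_lit 3) (nat_lit 298) (nat_lit 298) (nat_lit 184))))))) (XT.nd (nat_lit 858) (nat_lit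 2432) (nat_lit 0) (XT.nd (nat_lit 390) (nat_lit 1064) (nat_lit 0) (XT.nd (nat_lit 156) (nat_lit 608) (nat_lit 0) (XT.nd (nat_lit 78) (nat_lit 0) (nat_lit 0) (XT.lf (nat_lit 76) (nat_lit 14344925044) (nat_lit 0) (nat_lit 58000701164) (nat_lit 760) (nat_lit 6755959077) (nat_lit 95) (nat_lit 5) (nat_lit 94) (nat_lit 5) (nat_lit 104) (nat_lit 5) (nat_lit 299) (nat_lit 298) (nat_lit 183)) (XT.lf (nat_lit 76) (nat_lit 75630036407) (nat_lit 0) (nat_lit 1615388100) (nat_lit 760) (nat_lit 5047157513) (nat_lit 95) (nat_lit 5) (nat_lit 94) (nat_lit 5) (nat_lit 104) (nat_lit 5) (nat_lit 300) (nat_lit 298) (nat_lit 182))) (XT.nd (nat_lit 78) (nat_lit 684) (nat_lit 0) (XT.lf (nat_lit 76) (nat_lit 56976169099) (nat_lit 0) (nat_lit 27374596836) (nat_lit 760) (nat_lit 1297417340) (nat_lit 96) (nat_lit 5) (nat_lit 95) (nat_lit 5) (nat_lit 105) (nat_lit 5) (nat_lit 301) (nat_lit 298) (nat_lit 181)) (XT.nd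 (nat_lit 78) (nat_lit 0) (nat_lit 76) (XT.lf (nat_lit 0) (nat_lit 3935673860) (nat_lit 760) (nat_lit 51956045216) (nat_lit 836) (nat_lit 33314794285) (nat_lit 86) (nat_lit 5) (nat_lit 96) (nat_lit 5) (nat_lit 97) (nat_lit 5) (nat_lit 302) (nat_lit 298) (nat_lit 180)) (XT.lf (nat_lit 0) (nat_lit 10856933925) (nat_lit 760) (nat_lit 76595462804) (nat_lit 836) (nat_lit 5530303073) (nat_lit 87) (nat_lit 5) (nat_lit 97) (nat_lit 5) (nat_lit 98) (nat_lit 5) (nat_lit 303) (nat_lit 298) (nat_lit 179))))) (XT.nd (nat_lit 234) (nat_lit 684) (nat_lit 0) (XT.nd (nat_lit 78) (nat_lit 456) (nat_lit 0) (XT.lf (nat_lit 0) (nat_lit 20192935411) (nat_lit 760) (nat_lit 5920738938) (nat_lit 836) (nat_lit 70854256852) (nat_lit 87) (nat_lit 5) (nat_lit 97) (nat_lit 5) (nat_lit 98) (nat_lit 5) (nat_lit 304) (nat_lit 298) (nat_lit 178)) (XT.nd (nat_lit 78) (nat_lit 532) (nat_lit 0) (XT.lf (nat_lit 0) (nat_lit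 32055429354) (nat_lit 760) (nat_lit 29125495195) (nat_lit 76) (nat_lit 40002077869) (nat_lit 88) (nat_lit 5) (nat_lit 98) (nat_lit 5) (nat_lit 89) (nat_lit 5) (nat_lit 305) (nat_lit 298) (nat_lit 177)) (XT.lf (nat_lit 0) (nat_lit 46312285393) (nat_lit 608) (nat_lit 53781467231) (nat_lit 76) (nat_lit 5569260358) (nat_lit 81) (nat_lit 5) (nat_lit 89) (nat_lit 5) (nat_lit 82) (nat_lit 5) (nat_lit 306) (nat_lit 298) (nat_lit 176)))) (XT.nd (nat_lit 78) (nat_lit 304) (nat_lit 0) (XT.lf (nat_lit 0) (nat_lit 29847519361) (nat_lit 380) (nat_lit 33874425398) (nat_lit 456) (nat_lit 46678868538) (nat_lit 76) (nat_lit 5) (nat_lit 81) (nat_lit 5) (nat_lit 82) (nat_lit 5) (nat_lit 307) (nat_lit 298) (nat_lit 175)) (XT.nd (nat_lit 78) (nat_lit 0) (nat_lit 0) (XT.lf (nat_lit 0) (nat_lit 6211275354) (nat_lit 304) (nat_lit 77949004192) (nat_lit 380) (nat_lit 31275564482) (nat_lit 72) (nat_lit 5) (nat_lit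 76) (nat_lit 5) (nat_lit 77) (nat_lit 5) (nat_lit 308) (nat_lit 298) (nat_lit 174)) (XT.lf (nat_lit 0) (nat_lit 102202505451) (nat_lit 304) (nat_lit 5995417806) (nat_lit 380) (nat_lit 12577543268) (nat_lit 72) (nat_lit 5) (nat_lit 76) (nat_lit 5) (nat_lit 77) (nat_lit 5) (nat_lit 309) (nat_lit 298) (nat_lit 173)))))) (XT.nd (nat_lit 390) (nat_lit 1216) (nat_lit 0) (XT.nd (nat_lit 156) (nat_lit 532) (nat_lit 0) (XT.nd (nat_lit 78) (nat_lit 304) (nat_lit 0) (XT.lf (nat_lit 0) (nat_lit 9791838277) (nat_lit 380) (nat_lit 45785024181) (nat_lit 76) (nat_lit 70838487582) (nat_lit 67) (nat_lit 5) (nat_lit 72) (nat_lit 5) (nat_lit 68) (nat_lit 5) (nat_lit 310) (nat_lit 298) (nat_lit 172)) (XT.lf (nat_lit 0) (nat_lit 35195437187) (nat_lit 380) (nat_lit 75320052873) (nat_lit 76) (nat_lit 21896359733) (nat_lit 63) (nat_lit 5) (nat_lit 68) (nat_lit 5) (nat_lit 64) (nat_lit 5) (nat_lit 311) (nat_lit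 298) (nat_lit 171))) (XT.nd (nat_lit 78) (nat_lit 228) (nat_lit 0) (XT.lf (nat_lit 0) (nat_lit 31027488921) (nat_lit 304) (nat_lit 33835238820) (nat_lit 380) (nat_lit 73913772668) (nat_lit 59) (nat_lit 5) (nat_lit 63) (nat_lit 5) (nat_lit 64) (nat_lit 5) (nat_lit 312) (nat_lit 298) (nat_lit 170)) (XT.nd (nat_lit 78) (nat_lit 0) (nat_lit 0) (XT.lf (nat_lit 0) (nat_lit 2273397946) (nat_lit 228) (nat_lit 96763010244) (nat_lit 304) (nat_lit 46507265539) (nat_lit 56) (nat_lit 5) (nat_lit 59) (nat_lit 5) (nat_lit 60) (nat_lit 5) (nat_lit 313) (nat_lit 298) (nat_lit 169)) (XT.lf (nat_lit 0) (nat_lit 124355017152) (nat_lit 228) (nat_lit 14026517394) (nat_lit 304) (nat_lit 14348809711) (nat_lit 56) (nat_lit 5) (nat_lit 59) (nat_lit 5) (nat_lit 60) (nat_lit 5) (nat_lit 314) (nat_lit 298) (nat_lit 168))))) (XT.nd (nat_lit 234) (nat_lit 456) (nat_lit 0) (XT.nd (nat_lit 78) (nat_lit 456) (nat_lit 0)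 (XT.lf (nat_lit 0) (nat_lit 22474426912) (nat_lit 304) (nat_lit 63059419854) (nat_lit 76) (nat_lit 74804967914) (nat_lit 52) (nat_lit 5) (nat_lit 56) (nat_lit 5) (nat_lit 53) (nat_lit 5) (nat_lit 315) (nat_lit 298) (nat_lit 167)) (XT.nd (nat_lit 78) (nat_lit 228) (nat_lit 0) (XT.lf (nat_lit 0) (nat_lit 63590033460) (nat_lit 304) (nat_lit 101380989199) (nat_lit 76) (nat_lit 3480718335) (nat_lit 49) (nat_lit 5) (nat_lit 53) (nat_lit 5) (nat_lit 50) (nat_lit 5) (nat_lit 316) (nat_lit 298) (nat_lit 166)) (XT.lf (nat_lit 0) (nat_lit 32276352962) (nat_lit 228) (nat_lit 78780592441) (nat_lit 304) (nat_lit 66003653860) (nat_lit 46) (nat_lit 5) (nat_lit 49) (nat_lit 5) (nat_lit 50) (nat_lit 5) (nat_lit 317) (nat_lit 298) (nat_lit 165)))) (XT.nd (nat_lit 78) (nat_lit 456) (nat_lit 0) (XT.lf (nat_lit 0) (nat_lit 164338936126) (nat_lit 304) (nat_lit 6276401544) (nat_lit 76) (nat_lit 15641942872) (nat_lit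 46) (nat_lit 5) (nat_lit 50) (nat_lit 5) (nat_lit 47) (nat_lit 5) (nat_lit 318) (nat_lit 298) (nat_lit 164)) (XT.nd (nat_lit 78) (nat_lit 228) (nat_lit 0) (XT.lf (nat_lit 0) (nat_lit 28548652483) (nat_lit 228) (nat_lit 49791727159) (nat_lit 76) (nat_lit 117645398421) (nat_lit 43) (nat_lit 5) (nat_lit 46) (nat_lit 5) (nat_lit 44) (nat_lit 5) (nat_lit 319) (nat_lit 298) (nat_lit 163)) (XT.lf (nat_lit 0) (nat_lit 84455316697) (nat_lit 304) (nat_lit 99079449040) (nat_lit 76) (nat_lit 22831313337) (nat_lit 40) (nat_lit 5) (nat_lit 44) (nat_lit 5) (nat_lit 41) (nat_lit 5) (nat_lit 320) (nat_lit 298) (nat_lit 162))))))))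
noncomputable def xc109 : XT := (XT.nd (nat_lit 1638) (nat_lit 228) (nat_lit 0) (XT.nd (nat_lit 780) (nat_lit 760) (nat_lit 0) (XT.nd (nat_lit 390) (nat_lit 532) (nat_lit 0) (XT.nd (nat_lit 156) (nat_lit 380) (nat_lit 0) (XT.nd (nat_lit 78) (nat_lit 152) (nat_lit 0) (XT.lf (nat_lit 0) (nat_lit 61818543579) (nat_lit 152) (nat_lit 86183175406) (nat_lit 228) (nat_lit 69416725421) (nat_lit 38) (nat_lit 5) (nat_lit 40) (nat_lit 5) (nat_lit 41) (nat_lit 5) (nat_lit 321) (nat_lit 298) (nat_lit 161)) (XT.lf (nat_lit 0) (nat_lit 9847997602) (nat_lit 152) (nat_lit 208987293640) (nat_lit 228) (nat_lit 10409535279) (nat_lit 36) (nat_lit 5) (nat_lit 38) (nat_lit 5) (nat_lit 39) (nat_lit 5) (nat_lit 322) (nat_lit 298) (nat_lit 160))) (XT.nd (nat_lit 78) (nat_lit 304) (nat_lit 0) (XT.lf (nat_lit 0) (nat_lit 55819363323) (nat_lit 228) (nat_lit 50124425499) (nat_lit 76) (nat_lit 135821525952) (nat_lit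 35) (nat_lit 5) (nat_lit 38) (nat_lit 5) (nat_lit 36) (nat_lit 5) (nat_lit 323) (nat_lit 298) (nat_lit 159)) (XT.nd (nat_lit 78) (nat_lit 152) (nat_lit 0) (XT.lf (nat_lit 0) (nat_lit 129244993202) (nat_lit 228) (nat_lit 118398051466) (nat_lit 76) (nat_lit 7522709437) (nat_lit 33) (nat_lit 5) (nat_lit 36) (nat_lit 5) (nat_lit 34) (nat_lit 5) (nat_lit 324) (nat_lit 298) (nat_lit 158)) (XT.lf (nat_lit 0) (nat_lit 71286831018) (nat_lit 152) (nat_lit 141044294255) (nat_lit 228) (nat_lit 57117781061) (nat_lit 31) (nat_lit 5) (nat_lit 33) (nat_lit 5) (nat_lit 34) (nat_lit 5) (nat_lit 325) (nat_lit 298) (nat_lit 157))))) (XT.nd (nat_lit 156) (nat_lit 304) (nat_lit 0) (XT.nd (nat_lit 78) (nat_lit 152) (nat_lit 0) (XT.lf (nat_lit 0) (nat_lit 18735118676) (nat_lit 228) (nat_lit 4699929885) (nat_lit 76) (nat_lit 261321451170) (nat_lit 30) (nat_lit 5) (nat_lit 33) (nat_lit 5) (nat_lit 31) (nat_lit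 5) (nat_lit 326) (nat_lit 298) (nat_lit 156)) (XT.lf (nat_lit 0) (nat_lit 103646916164) (nat_lit 228) (nat_lit 92766670336) (nat_lit 76) (nat_lit 104578706797) (nat_lit 28) (nat_lit 5) (nat_lit 31) (nat_lit 5) (nat_lit 29) (nat_lit 5) (nat_lit 327) (nat_lit 298) (nat_lit 155))) (XT.nd (nat_lit 78) (nat_lit 152) (nat_lit 0) (XT.lf (nat_lit 0) (nat_lit 123382137061) (nat_lit 152) (nat_lit 74373895925) (nat_lit 228) (nat_lit 120650698840) (nat_lit 26) (nat_lit 5) (nat_lit 28) (nat_lit 5) (nat_lit 29) (nat_lit 5) (nat_lit 328) (nat_lit 298) (nat_lit 154)) (XT.nd (nat_lit 78) (nat_lit 76) (nat_lit 0) (XT.lf (nat_lit 0) (nat_lit 22808332734) (nat_lit 76) (nat_lit 279480379989) (nat_lit 152) (nat_lit 34780871275) (nat_lit 25) (nat_lit 5) (nat_lit 26) (nat_lit 5) (nat_lit 27) (nat_lit 4) (nat_lit 329) (nat_lit 298) (nat_lit 153)) (XT.lf (nat_lit 0) (nat_lit 60810169945) (nat_lit 152) (nat_lit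 94238644730) (nat_lit 76) (nat_lit 201896071974) (nat_lit 24) (nat_lit 5) (nat_lit 26) (nat_lit 5) (nat_lit 25) (nat_lit 5) (nat_lit 330) (nat_lit 298) (nat_lit 152)))))) (XT.nd (nat_lit 390) (nat_lit 304) (nat_lit 0) (XT.nd (nat_lit 156) (nat_lit 228) (nat_lit 0) (XT.nd (nat_lit 78) (nat_lit 76) (nat_lit 0) (XT.lf (nat_lit 0) (nat_lit 147520380833) (nat_lit 152) (nat_lit 17628770333) (nat_lit 228) (nat_lit 213116593181) (nat_lit 22) (nat_lit 5) (nat_lit 24) (nat_lit 5) (nat_lit 25) (nat_lit 5) (nat_lit 331) (nat_lit 298) (nat_lit 151)) (XT.lf (nat_lit 0) (nat_lit 8993710271) (nat_lit 76) (nat_lit 272692086100) (nat_lit 152) (nat_lit 119413947193) (nat_lit 21) (nat_lit 5) (nat_lit 22) (nat_lit 5) (nat_lit 23) (nat_lit 4) (nat_lit 332) (nat_lit 298) (nat_lit 150))) (XT.nd (nat_lit 78) (nat_lit 228) (nat_lit 0) (XT.lf (nat_lit 0) (nat_lit 275844208375) (nat_lit 76) (nat_lit 136012794903)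 (nat_lit 152) (nat_lit 13687878103) (nat_lit 21) (nat_lit 5) (nat_lit 22) (nat_lit 5) (nat_lit 23) (nat_lit 4) (nat_lit 333) (nat_lit 298) (nat_lit 149)) (XT.nd (nat_lit 78) (nat_lit 0) (nat_lit 0) (XT.lf (nat_lit 0) (nat_lit 99298288493) (nat_lit 228) (nat_lit 337831926814) (nat_lit 76) (nat_lit 14636037615) (nat_lit 18) (nat_lit 5) (nat_lit 21) (nat_lit 5) (nat_lit 19) (nat_lit 4) (nat_lit 334) (nat_lit 298) (nat_lit 148)) (XT.lf (nat_lit 0) (nat_lit 225793825704) (nat_lit 228) (nat_lit 78516464237) (nat_lit 76) (nat_lit 175516323116) (nat_lit 18) (nat_lit 5) (nat_lit 21) (nat_lit 5) (nat_lit 19) (nat_lit 4) (nat_lit 335) (nat_lit 298) (nat_lit 147))))) (XT.nd (nat_lit 234) (nat_lit 76) (nat_lit 0) (XT.nd (nat_lit 78) (nat_lit 152) (nat_lit 0) (XT.lf (nat_lit 0) (nat_lit 208207789910) (nat_lit 76) (nat_lit 157451701188) (nat_lit 152) (nat_lit 144309786770) (nat_lit 17) (nat_lit 5) (nat_lit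 18) (nat_lit 5) (nat_lit 19) (nat_lit 4) (nat_lit 336) (nat_lit 298) (nat_lit 146)) (XT.nd (nat_lit 78) (nat_lit 152) (nat_lit 0) (XT.lf (nat_lit 0) (nat_lit 518122365091) (nat_lit 152) (nat_lit 21822037644) (nat_lit 0) (nat_lit 2508555477) (nat_lit 17) (nat_lit 5) (nat_lit 19) (nat_lit 4) (nat_lit 17) (nat_lit 4) (nat_lit 337) (nat_lit 298) (nat_lit 145)) (XT.lf (nat_lit 0) (nat_lit 109131659466) (nat_lit 152) (nat_lit 291894201579) (nat_lit 76) (nat_lit 176064647925) (nat_lit 15) (nat_lit 5) (nat_lit 17) (nat_lit 5) (nat_lit 16) (nat_lit 4) (nat_lit 338) (nat_lit 298) (nat_lit 144)))) (XT.nd (nat_lit 78) (nat_lit 0) (nat_lit 0) (XT.lf (nat_lit 0) (nat_lit 2746383832) (nat_lit 76) (nat_lit 250112523203) (nat_lit 152) (nat_lit 361598191729) (nat_lit 14) (nat_lit 5) (nat_lit 15) (nat_lit 5) (nat_lit 16) (nat_lit 4) (nat_lit 339) (nat_lit 298) (nat_lit 143)) (XT.nd (nat_lit 78) (nat_lit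 0) (nat_lit 0) (XT.lf (nat_lit 0) (nat_lit 331381330749) (nat_lit 76) (nat_lit 81787429391) (nat_lit 152) (nat_lit 241390034402) (nat_lit 14) (nat_lit 5) (nat_lit 15) (nat_lit 5) (nat_lit 16) (nat_lit 4) (nat_lit 340) (nat_lit 298) (nat_lit 142)) (XT.lf (nat_lit 0) (nat_lit 587864567511) (nat_lit 152) (nat_lit 13123204956) (nat_lit 0) (nat_lit 96802795296) (nat_lit 14) (nat_lit 5) (nat_lit 16) (nat_lit 4) (nat_lit 14) (nat_lit 4) (nat_lit 341) (nat_lit 298) (nat_lit 141))))))) (XT.nd (nat_lit 37908) (nat_lit 0) (nat_lit 2888) (XT.nd (nat_lit 37440) (nat_lit 0) (nat_lit 5700) (XT.nd (nat_lit 156) (nat_lit 76) (nat_lit 0) (XT.nd (nat_lit 78) (nat_lit 0) (nat_lit 0) (XT.lf (nat_lit 0) (nat_lit 37682461309) (nat_lit 152) (nat_lit 413812932250) (nat_lit 76) (nat_lit 292627802321) (nat_lit 12) (nat_lit 5) (nat_lit 14) (nat_lit 5) (nat_lit 13) (nat_lit 4) (nat_lit 342) (nat_lit 298) (nat_lit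 140)) (XT.lf (nat_lit 0) (nat_lit 193532007085) (nat_lit 152) (nat_lit 94321553890) (nat_lit 76) (nat_lit 506204586113) (nat_lit 12) (nat_lit 5) (nat_lit 14) (nat_lit 5) (nat_lit 13) (nat_lit 4) (nat_lit 343) (nat_lit 298) (nat_lit 139))) (XT.nd (nat_lit 37128) (nat_lit 0) (nat_lit 6308) (XT.lf (nat_lit 0) (nat_lit 259019100614) (nat_lit 76) (nat_lit 106874287385) (nat_lit 152) (nat_lit 481892312882) (nat_lit 11) (nat_lit 5) (nat_lit 12) (nat_lit 5) (nat_lit 13) (nat_lit 4) (nat_lit 344) (nat_lit 298) (nat_lit 138)) (XT.nd (nat_lit 78) (nat_lit 0) (nat_lit 0) (XT.lf (nat_lit 0) (nat_lit 18640283592) (nat_lit 0) (nat_lit 18640283592) (nat_lit 684) (nat_lit 3805571654) (nat_lit 94) (nat_lit 5) (nat_lit 94) (nat_lit 3) (nat_lit 103) (nat_lit 3) (nat_lit 299) (nat_lit 299) (nat_lit 182)) (XT.lf (nat_lit 76) (nat_lit 15509948153) (nat_lit 0) (nat_lit 62653514629) (nat_lit 760) (nat_lit 7264686444)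 (nat_lit 95) (nat_lit 5) (nat_lit 94) (nat_lit 5) (nat_lit 104) (nat_lit 5) (nat_lit 300) (nat_lit 299) (nat_lit 181))))) (XT.nd (nat_lit 234) (nat_lit 0) (nat_lit 76) (XT.nd (nat_lit 78) (nat_lit 608) (nat_lit 0) (XT.lf (nat_lit 76) (nat_lit 81696577380) (nat_lit 0) (nat_lit 1756431530) (nat_lit 760) (nat_lit 5421532559) (nat_lit 95) (nat_lit 5) (nat_lit 94) (nat_lit 5) (nat_lit 104) (nat_lit 5) (nat_lit 301) (nat_lit 299) (nat_lit 180)) (XT.nd (nat_lit 78) (nat_lit 684) (nat_lit 0) (XT.lf (nat_lit 76) (nat_lit 61551259979) (nat_lit 0) (nat_lit 29573541883) (nat_lit 760) (nat_lit 1373891426) (nat_lit 96) (nat_lit 5) (nat_lit 95) (nat_lit 5) (nat_lit 105) (nat_lit 5) (nat_lit 302) (nat_lit 299) (nat_lit 179)) (XT.lf (nat_lit 0) (nat_lit 4275162437) (nat_lit 760) (nat_lit 56093994858) (nat_lit 836) (nat_lit 35972604911) (nat_lit 86) (nat_lit 5) (nat_lit 96) (nat_lit 5) (nat_lit 97) (nat_lit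 5) (nat_lit 303) (nat_lit 299) (nat_lit 178)))) (XT.nd (nat_lit 78) (nat_lit 0) (nat_lit 0) (XT.lf (nat_lit 0) (nat_lit 11748491652) (nat_lit 760) (nat_lit 82704095835) (nat_lit 836) (nat_lit 5967540656) (nat_lit 87) (nat_lit 5) (nat_lit 97) (nat_lit 5) (nat_lit 98) (nat_lit 5) (nat_lit 304) (nat_lit 299) (nat_lit 177)) (XT.nd (nat_lit 78) (nat_lit 0) (nat_lit 76) (XT.lf (nat_lit 0) (nat_lit 21829669331) (nat_lit 760) (nat_lit 6376801763) (nat_lit 836) (nat_lit 76517794934) (nat_lit 87) (nat_lit 5) (nat_lit 97) (nat_lit 5) (nat_lit 98) (nat_lit 5) (nat_lit 305) (nat_lit 299) (nat_lit 176)) (XT.lf (nat_lit 0) (nat_lit 34639798646) (nat_lit 760) (nat_lit 31437622662) (nat_lit 76) (nat_lit 43199192413) (nat_lit 88) (nat_lit 5) (nat_lit 98) (nat_lit 5) (nat_lit 89) (nat_lit 5) (nat_lit 306) (nat_lit 299) (nat_lit 175)))))) (XT.nd (nat_lit 390) (nat_lit 1368) (nat_lit 0) (XT.nd (nat_lit 156)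 (nat_lit 684) (nat_lit 0) (XT.nd (nat_lit 78) (nat_lit 380) (nat_lit 0) (XT.lf (nat_lit 0) (nat_lit 50035969155) (nat_lit 608) (nat_lit 58065859993) (nat_lit 76) (nat_lit 6013260065) (nat_lit 81) (nat_lit 5) (nat_lit 89) (nat_lit 5) (nat_lit 82) (nat_lit 5) (nat_lit 307) (nat_lit 299) (nat_lit 174)) (XT.lf (nat_lit 0) (nat_lit 32252657853) (nat_lit 380) (nat_lit 36584628841) (nat_lit 456) (nat_lit 50394684792) (nat_lit 76) (nat_lit 5) (nat_lit 81) (nat_lit 5) (nat_lit 82) (nat_lit 5) (nat_lit 308) (nat_lit 299) (nat_lit 173))) (XT.nd (nat_lit 78) (nat_lit 380) (nat_lit 0) (XT.lf (nat_lit 0) (nat_lit 6725632072) (nat_lit 304) (nat_lit 84184022411) (nat_lit 380) (nat_lit 33760203923) (nat_lit 72) (nat_lit 5) (nat_lit 76) (nat_lit 5) (nat_lit 77) (nat_lit 5) (nat_lit 309) (nat_lit 299) (nat_lit 172)) (XT.nd (nat_lit 78) (nat_lit 380) (nat_lit 0) (XT.lf (nat_lit 0) (nat_lit 110394867637) (nat_lit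 304) (nat_lit 6474215936) (nat_lit 380) (nat_lit 13567630325) (nat_lit 72) (nat_lit 5) (nat_lit 76) (nat_lit 5) (nat_lit 77) (nat_lit 5) (nat_lit 310) (nat_lit 299) (nat_lit 171)) (XT.lf (nat_lit 0) (nat_lit 10589899707) (nat_lit 380) (nat_lit 49431116234) (nat_lit 76) (nat_lit 76506805550) (nat_lit 67) (nat_lit 5) (nat_lit 72) (nat_lit 5) (nat_lit 68) (nat_lit 5) (nat_lit 311) (nat_lit 299) (nat_lit 170))))) (XT.nd (nat_lit 234) (nat_lit 532) (nat_lit 0) (XT.nd (nat_lit 78) (nat_lit 532) (nat_lit 0) (XT.lf (nat_lit 0) (nat_lit 38024979066) (nat_lit 380) (nat_lit 81328993362) (nat_lit 76) (nat_lit 23650110713) (nat_lit 63) (nat_lit 5) (nat_lit 68) (nat_lit 5) (nat_lit 64) (nat_lit 5) (nat_lit 312) (nat_lit 299) (nat_lit 169)) (XT.nd (nat_lit 78) (nat_lit 228) (nat_lit 0) (XT.lf (nat_lit 0) (nat_lit 33525627590) (nat_lit 304) (nat_lit 36539243994) (nat_lit 380) (nat_lit 79813074714) (nat_lit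 59) (nat_lit 5) (nat_lit 63) (nat_lit 5) (nat_lit 64) (nat_lit 5) (nat_lit 313) (nat_lit 299) (nat_lit 168)) (XT.lf (nat_lit 0) (nat_lit 2471119445) (nat_lit 228) (nat_lit 104500642892) (nat_lit 304) (nat_lit 50214766677) (nat_lit 56) (nat_lit 5) (nat_lit 59) (nat_lit 5) (nat_lit 60) (nat_lit 5) (nat_lit 314) (nat_lit 299) (nat_lit 167)))) (XT.nd (nat_lit 78) (nat_lit 532) (nat_lit 0) (XT.lf (nat_lit 0) (nat_lit 134318094139) (nat_lit 228) (nat_lit 15145483072) (nat_lit 304) (nat_lit 15484603279) (nat_lit 56) (nat_lit 5) (nat_lit 59) (nat_lit 5) (nat_lit 60) (nat_lit 5) (nat_lit 315) (nat_lit 299) (nat_lit 166)) (XT.nd (nat_lit 78) (nat_lit 228) (nat_lit 0) (XT.lf (nat_lit 0) (nat_lit 24283513585) (nat_lit 304) (nat_lit 68089235533) (nat_lit 76) (nat_lit 80792600606) (nat_lit 52) (nat_lit 5) (nat_lit 56) (nat_lit 5) (nat_lit 53) (nat_lit 5) (nat_lit 316) (nat_lit 299) (nat_lit 165)) (XT.lf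 (nat_lit 0) (nat_lit 68687825782) (nat_lit 304) (nat_lit 109476699225) (nat_lit 76) (nat_lit 3762813281) (nat_lit 49) (nat_lit 5) (nat_lit 53) (nat_lit 5) (nat_lit 50) (nat_lit 5) (nat_lit 317) (nat_lit 299) (nat_lit 164))))))))
noncomputable def xc110 : XT := (XT.nd (nat_lit 1638) (nat_lit 380) (nat_lit 0) (XT.nd (nat_lit 780) (nat_lit 988) (nat_lit 0) (XT.nd (nat_lit 390) (nat_lit 608) (nat_lit 0) (XT.nd (nat_lit 156) (nat_lit 608) (nat_lit 0) (XT.nd (nat_lit 78) (nat_lit 0) (nat_lit 0) (XT.lf (nat_lit 0) (nat_lit 34872588461) (nat_lit 228) (nat_lit 85078938367) (nat_lit 304) (nat_lit 71273407508) (nat_lit 46) (nat_lit 5) (nat_lit 49) (nat_lit 5) (nat_lit 50) (nat_lit 5) (nat_lit 318) (nat_lit 299) (nat_lit 163)) (XT.lf (nat_lit 0) (nat_lit 177495393450) (nat_lit 304) (nat_lit 6765017284) (nat_lit 76) (nat_lit 16896974409) (nat_lit 46) (nat_lit 5) (nat_lit 50) (nat_lit 5) (nat_lit 47)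 (nat_lit 5) (nat_lit 319) (nat_lit 299) (nat_lit 162))) (XT.nd (nat_lit 78) (nat_lit 380) (nat_lit 0) (XT.lf (nat_lit 0) (nat_lit 30841551364) (nat_lit 228) (nat_lit 53761848230) (nat_lit 76) (nat_lit 127060780927) (nat_lit 43) (nat_lit 5) (nat_lit 46) (nat_lit 5) (nat_lit 44) (nat_lit 5) (nat_lit 320) (nat_lit 299) (nat_lit 161)) (XT.nd (nat_lit 78) (nat_lit 152) (nat_lit 0) (XT.lf (nat_lit 0) (nat_lit 91220343045) (nat_lit 304) (nat_lit 106992790765) (nat_lit 76) (nat_lit 24661792787) (nat_lit 40) (nat_lit 5) (nat_lit 44) (nat_lit 5) (nat_lit 41) (nat_lit 5) (nat_lit 321) (nat_lit 299) (nat_lit 160)) (XT.lf (nat_lit 0) (nat_lit 66776475682) (nat_lit 152) (nat_lit 93073539079) (nat_lit 228) (nat_lit 74961489179) (nat_lit 38) (nat_lit 5) (nat_lit 40) (nat_lit 5) (nat_lit 41) (nat_lit 5) (nat_lit 322) (nat_lit 299) (nat_lit 159))))) (XT.nd (nat_lit 156) (nat_lit 380) (nat_lit 0) (XT.nd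 (nat_lit 78) (nat_lit 76) (nat_lit 0) (XT.lf (nat_lit 0) (nat_lit 10648078890) (nat_lit 152) (nat_lit 225701842740) (nat_lit 228) (nat_lit 11234093154) (nat_lit 36) (nat_lit 5) (nat_lit 38) (nat_lit 5) (nat_lit 39) (nat_lit 5) (nat_lit 323) (nat_lit 299) (nat_lit 158)) (XT.lf (nat_lit 0) (nat_lit 60292266406) (nat_lit 228) (nat_lit 54122795060) (nat_lit 76) (nat_lit 146691104171) (nat_lit 35) (nat_lit 5) (nat_lit 38) (nat_lit 5) (nat_lit 36) (nat_lit 5) (nat_lit 324) (nat_lit 299) (nat_lit 157))) (XT.nd (nat_lit 78) (nat_lit 228) (nat_lit 0) (XT.lf (nat_lit 0) (nat_lit 139591638932) (nat_lit 228) (nat_lit 127858523304) (nat_lit 76) (nat_lit 8128493757) (nat_lit 33) (nat_lit 5) (nat_lit 36) (nat_lit 5) (nat_lit 34) (nat_lit 5) (nat_lit 325) (nat_lit 299) (nat_lit 156)) (XT.nd (nat_lit 78) (nat_lit 76) (nat_lit 0) (XT.lf (nat_lit 0) (nat_lit 77000655554) (nat_lit 152) (nat_lit 152323653905)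 (nat_lit 228) (nat_lit 61680168999) (nat_lit 31) (nat_lit 5) (nat_lit 33) (nat_lit 5) (nat_lit 34) (nat_lit 5) (nat_lit 326) (nat_lit 299) (nat_lit 155)) (XT.lf (nat_lit 0) (nat_lit 20240233168) (nat_lit 228) (nat_lit 5065638529) (nat_lit 76) (nat_lit 282230827761) (nat_lit 30) (nat_lit 5) (nat_lit 33) (nat_lit 5) (nat_lit 31) (nat_lit 5) (nat_lit 327) (nat_lit 299) (nat_lit 154)))))) (XT.nd (nat_lit 390) (nat_lit 380) (nat_lit 0) (XT.nd (nat_lit 156) (nat_lit 304) (nat_lit 0) (XT.nd (nat_lit 78) (nat_lit 152) (nat_lit 0) (XT.lf (nat_lit 0) (nat_lit 111944721093) (nat_lit 228) (nat_lit 100177921076) (nat_lit 76) (nat_lit 112948727377) (nat_lit 28) (nat_lit 5) (nat_lit 31) (nat_lit 5) (nat_lit 29) (nat_lit 5) (nat_lit 328) (nat_lit 299) (nat_lit 153)) (XT.lf (nat_lit 0) (nat_lit 133262352724) (nat_lit 152) (nat_lit 80319916849) (nat_lit 228) (nat_lit 130296708813) (nat_lit 26) (nat_lit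 5) (nat_lit 28) (nat_lit 5) (nat_lit 29) (nat_lit 5) (nat_lit 329) (nat_lit 299) (nat_lit 152))) (XT.nd (nat_lit 78) (nat_lit 228) (nat_lit 0) (XT.lf (nat_lit 0) (nat_lit 24642446095) (nat_lit 76) (nat_lit 301834895110) (nat_lit 152) (nat_lit 37557528967) (nat_lit 25) (nat_lit 5) (nat_lit 26) (nat_lit 5) (nat_lit 27) (nat_lit 4) (nat_lit 330) (nat_lit 299) (nat_lit 151)) (XT.nd (nat_lit 78) (nat_lit 152) (nat_lit 0) (XT.lf (nat_lit 0) (nat_lit 65680192790) (nat_lit 152) (nat_lit 101768813581) (nat_lit 76) (nat_lit 218051207245) (nat_lit 24) (nat_lit 5) (nat_lit 26) (nat_lit 5) (nat_lit 25) (nat_lit 5) (nat_lit 331) (nat_lit 299) (nat_lit 150)) (XT.lf (nat_lit 0) (nat_lit 159330546256) (nat_lit 152) (nat_lit 19035493636) (nat_lit 228) (nat_lit 230160712927) (nat_lit 22) (nat_lit 5) (nat_lit 24) (nat_lit 5) (nat_lit 25) (nat_lit 5) (nat_lit 332) (nat_lit 299) (nat_lit 149))))) (XT.nd (nat_lit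 234) (nat_lit 76) (nat_lit 0) (XT.nd (nat_lit 78) (nat_lit 228) (nat_lit 0) (XT.lf (nat_lit 0) (nat_lit 9721557854) (nat_lit 76) (nat_lit 294503873810) (nat_lit 152) (nat_lit 128962049803) (nat_lit 21) (nat_lit 5) (nat_lit 22) (nat_lit 5) (nat_lit 23) (nat_lit 4) (nat_lit 333) (nat_lit 299) (nat_lit 148)) (XT.nd (nat_lit 78) (nat_lit 228) (nat_lit 0) (XT.lf (nat_lit 0) (nat_lit 297919477231) (nat_lit 76) (nat_lit 146890504441) (nat_lit 152) (nat_lit 14778266532) (nat_lit 21) (nat_lit 5) (nat_lit 22) (nat_lit 5) (nat_lit 23) (nat_lit 4) (nat_lit 334) (nat_lit 299) (nat_lit 147)) (XT.lf (nat_lit 0) (nat_lit 107246480663) (nat_lit 228) (nat_lit 364850774740) (nat_lit 76) (nat_lit 15810078845) (nat_lit 18) (nat_lit 5) (nat_lit 21) (nat_lit 5) (nat_lit 19) (nat_lit 4) (nat_lit 335) (nat_lit 299) (nat_lit 146)))) (XT.nd (nat_lit 78) (nat_lit 76) (nat_lit 0) (XT.lf (nat_lit 0) (nat_lit 243861340178)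 (nat_lit 228) (nat_lit 84790645988) (nat_lit 76) (nat_lit 189560553245) (nat_lit 18) (nat_lit 5) (nat_lit 21) (nat_lit 5) (nat_lit 19) (nat_lit 4) (nat_lit 336) (nat_lit 299) (nat_lit 145)) (XT.nd (nat_lit 78) (nat_lit 0) (nat_lit 0) (XT.lf (nat_lit 0) (nat_lit 224871238395) (nat_lit 76) (nat_lit 170044830051) (nat_lit 152) (nat_lit 155850558647) (nat_lit 17) (nat_lit 5) (nat_lit 18) (nat_lit 5) (nat_lit 19) (nat_lit 4) (nat_lit 337) (nat_lit 299) (nat_lit 144)) (XT.lf (nat_lit 0) (nat_lit 559575733012) (nat_lit 152) (nat_lit 23561345705) (nat_lit 0) (nat_lit 2711935269) (nat_lit 17) (nat_lit 5) (nat_lit 19) (nat_lit 4) (nat_lit 17) (nat_lit 4) (nat_lit 338) (nat_lit 299) (nat_lit 143))))))) (XT.nd (nat_lit 38064) (nat_lit 0) (nat_lit 3344) (XT.nd (nat_lit 37596) (nat_lit 0) (nat_lit 5624) (XT.nd (nat_lit 156) (nat_lit 152) (nat_lit 0) (XT.nd (nat_lit 78) (nat_lit 76) (nat_lit 0) (XT.lf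 (nat_lit 0) (nat_lit 117865659894) (nat_lit 152) (nat_lit 315239446907) (nat_lit 76) (nat_lit 190152467787) (nat_lit 15) (nat_lit 5) (nat_lit 17) (nat_lit 5) (nat_lit 16) (nat_lit 4) (nat_lit 339) (nat_lit 299) (nat_lit 142)) (XT.lf (nat_lit 0) (nat_lit 2972111947) (nat_lit 76) (nat_lit 270118812405) (nat_lit 152) (nat_lit 390522575486) (nat_lit 14) (nat_lit 5) (nat_lit 15) (nat_lit 5) (nat_lit 16) (nat_lit 4) (nat_lit 340) (nat_lit 299) (nat_lit 141))) (XT.nd (nat_lit 78) (nat_lit 152) (nat_lit 0) (XT.lf (nat_lit 0) (nat_lit 357897408884) (nat_lit 76) (nat_lit 88327912026) (nat_lit 152) (nat_lit 260698022727) (nat_lit 14) (nat_lit 5) (nat_lit 15) (nat_lit 5) (nat_lit 16) (nat_lit 4) (nat_lit 341) (nat_lit 299) (nat_lit 140)) (XT.nd (nat_lit 78) (nat_lit 152) (nat_lit 0) (XT.lf (nat_lit 0) (nat_lit 634896602517) (nat_lit 152) (nat_lit 14167795678) (nat_lit 0) (nat_lit 104549270148) (nat_lit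 14) (nat_lit 5) (nat_lit 16) (nat_lit 4) (nat_lit 14) (nat_lit 4) (nat_lit 342) (nat_lit 299) (nat_lit 139)) (XT.lf (nat_lit 0) (nat_lit 40699839962) (nat_lit 152) (nat_lit 446912836816) (nat_lit 76) (nat_lit 316040234482) (nat_lit 12) (nat_lit 5) (nat_lit 14) (nat_lit 5) (nat_lit 13) (nat_lit 4) (nat_lit 343) (nat_lit 299) (nat_lit 138))))) (XT.nd (nat_lit 234) (nat_lit 608) (nat_lit 0) (XT.nd (nat_lit 78) (nat_lit 0) (nat_lit 0) (XT.lf (nat_lit 0) (nat_lit 20138485381) (nat_lit 0) (nat_lit 20138485381) (nat_lit 684) (nat_lit 4095336477) (nat_lit 94) (nat_lit 5) (nat_lit 94) (nat_lit 3) (nat_lit 103) (nat_lit 3) (nat_lit 300) (nat_lit 300) (nat_lit 180)) (XT.nd (nat_lit 78) (nat_lit 0) (nat_lit 0) (XT.lf (nat_lit 76) (nat_lit 16765686654) (nat_lit 0) (nat_lit 67676733190) (nat_lit 760) (nat_lit 7818641401) (nat_lit 95) (nat_lit 5) (nat_lit 94) (nat_lit 5) (nat_lit 104) (nat_lit 5) (nat_lit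 301) (nat_lit 300) (nat_lit 179)) (XT.lf (nat_lit 76) (nat_lit 88246139357) (nat_lit 0) (nat_lit 1907073266) (nat_lit 760) (nat_lit 5830051499) (nat_lit 95) (nat_lit 5) (nat_lit 94) (nat_lit 5) (nat_lit 104) (nat_lit 5) (nat_lit 302) (nat_lit 300) (nat_lit 178)))) (XT.nd (nat_lit 78) (nat_lit 684) (nat_lit 0) (XT.lf (nat_lit 76) (nat_lit 66489933268) (nat_lit 0) (nat_lit 31947121821) (nat_lit 760) (nat_lit 1460380842) (nat_lit 96) (nat_lit 5) (nat_lit 95) (nat_lit 5) (nat_lit 105) (nat_lit 5) (nat_lit 303) (nat_lit 300) (nat_lit 177)) (XT.nd (nat_lit 78) (nat_lit 0) (nat_lit 76) (XT.lf (nat_lit 0) (nat_lit 4638295689) (nat_lit 760) (nat_lit 60565624549) (nat_lit 836) (nat_lit 38844092216) (nat_lit 86) (nat_lit 5) (nat_lit 96) (nat_lit 5) (nat_lit 97) (nat_lit 5) (nat_lit 304) (nat_lit 300) (nat_lit 176)) (XT.lf (nat_lit 0) (nat_lit 12708092361) (nat_lit 760) (nat_lit 89304130641) (nat_lit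 836) (nat_lit 6440497181) (nat_lit 87) (nat_lit 5) (nat_lit 97) (nat_lit 5) (nat_lit 98) (nat_lit 5) (nat_lit 305) (nat_lit 300) (nat_lit 175)))))) (XT.nd (nat_lit 390) (nat_lit 1216) (nat_lit 0) (XT.nd (nat_lit 156) (nat_lit 1140) (nat_lit 0) (XT.nd (nat_lit 78) (nat_lit 0) (nat_lit 76) (XT.lf (nat_lit 0) (nat_lit 23594303412) (nat_lit 760) (nat_lit 6871859922) (nat_lit 836) (nat_lit 82635101189) (nat_lit 87) (nat_lit 5) (nat_lit 97) (nat_lit 5) (nat_lit 98) (nat_lit 5) (nat_lit 306) (nat_lit 300) (nat_lit 174)) (XT.lf (nat_lit 0) (nat_lit 37428073540) (nat_lit 760) (nat_lit 33937275694) (nat_lit 76) (nat_lit 46652511477) (nat_lit 88) (nat_lit 5) (nat_lit 98) (nat_lit 5) (nat_lit 89) (nat_lit 5) (nat_lit 307) (nat_lit 300) (nat_lit 173))) (XT.nd (nat_lit 78) (nat_lit 684) (nat_lit 0) (XT.lf (nat_lit 0) (nat_lit 54054879720) (nat_lit 608) (nat_lit 62695589854) (nat_lit 76) (nat_lit 6492999606)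 (nat_lit 81) (nat_lit 5) (nat_lit 89) (nat_lit 5) (nat_lit 82) (nat_lit 5) (nat_lit 308) (nat_lit 300) (nat_lit 172)) (XT.nd (nat_lit 78) (nat_lit 304) (nat_lit 0) (XT.lf (nat_lit 0) (nat_lit 34847734115) (nat_lit 380) (nat_lit 39511612978) (nat_lit 456) (nat_lit 54410404612) (nat_lit 76) (nat_lit 5) (nat_lit 81) (nat_lit 5) (nat_lit 82) (nat_lit 5) (nat_lit 309) (nat_lit 300) (nat_lit 171)) (XT.lf (nat_lit 0) (nat_lit 7278647221) (nat_lit 304) (nat_lit 90917970784) (nat_lit 380) (nat_lit 36446097640) (nat_lit 72) (nat_lit 5) (nat_lit 76) (nat_lit 5) (nat_lit 77) (nat_lit 5) (nat_lit 310) (nat_lit 300) (nat_lit 170))))) (XT.nd (nat_lit 234) (nat_lit 532) (nat_lit 0) (XT.nd (nat_lit 78) (nat_lit 684) (nat_lit 0) (XT.lf (nat_lit 0) (nat_lit 119240313143) (nat_lit 304) (nat_lit 6991437082) (nat_lit 380) (nat_lit 14639223531) (nat_lit 72) (nat_lit 5) (nat_lit 76) (nat_lit 5) (nat_lit 77) (nat_lit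 5) (nat_lit 311) (nat_lit 300) (nat_lit 169)) (XT.nd (nat_lit 78) (nat_lit 304) (nat_lit 0) (XT.lf (nat_lit 0) (nat_lit 11449706882) (nat_lit 380) (nat_lit 53371279502) (nat_lit 76) (nat_lit 82628412204) (nat_lit 67) (nat_lit 5) (nat_lit 72) (nat_lit 5) (nat_lit 68) (nat_lit 5) (nat_lit 312) (nat_lit 300) (nat_lit 168)) (XT.lf (nat_lit 0) (nat_lit 41078900319) (nat_lit 380) (nat_lit 87821026359) (nat_lit 76) (nat_lit 25543870429) (nat_lit 63) (nat_lit 5) (nat_lit 68) (nat_lit 5) (nat_lit 64) (nat_lit 5) (nat_lit 313) (nat_lit 300) (nat_lit 167)))) (XT.nd (nat_lit 78) (nat_lit 228) (nat_lit 0) (XT.lf (nat_lit 0) (nat_lit 36221343397) (nat_lit 304) (nat_lit 39459971021) (nat_lit 380) (nat_lit 86186289615) (nat_lit 59) (nat_lit 5) (nat_lit 63) (nat_lit 5) (nat_lit 64) (nat_lit 5) (nat_lit 314) (nat_lit 300) (nat_lit 166)) (XT.nd (nat_lit 78) (nat_lit 0) (nat_lit 0) (XT.lf (nat_lit 0) (nat_lit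 2682397533) (nat_lit 228) (nat_lit 112857772366) (nat_lit 304) (nat_lit 54220733929) (nat_lit 56) (nat_lit 5) (nat_lit 59) (nat_lit 5) (nat_lit 60) (nat_lit 5) (nat_lit 315) (nat_lit 300) (nat_lit 165)) (XT.lf (nat_lit 0) (nat_lit 145076123644) (nat_lit 228) (nat_lit 16354416201) (nat_lit 304) (nat_lit 16712988132) (nat_lit 56) (nat_lit 5) (nat_lit 59) (nat_lit 5) (nat_lit 60) (nat_lit 5) (nat_lit 316) (nat_lit 300) (nat_lit 164))))))))
noncomputable def xc111 : XT := (XT.nd (nat_lit 1716) (nat_lit 228) (nat_lit 0) (XT.nd (nat_lit 858) (nat_lit 1064) (nat_lit 0) (XT.nd (nat_lit 390) (nat_lit 912) (nat_lit 0) (XT.nd (nat_lit 156) (nat_lit 456) (nat_lit 0) (XT.nd (nat_lit 78) (nat_lit 228) (nat_lit 0) (XT.lf (nat_lit 0) (nat_lit 26235739013) (nat_lit 304) (nat_lit 73523567527) (nat_lit 76) (nat_lit 87258782367) (nat_lit 52) (nat_lit 5) (nat_lit 56) (nat_lit 5) (nat_lit 53) (nat_lit 5) (nat_lit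 317) (nat_lit 300) (nat_lit 163)) (XT.lf (nat_lit 0) (nat_lit 74191930758) (nat_lit 304) (nat_lit 118222173032) (nat_lit 76) (nat_lit 4066956894) (nat_lit 49) (nat_lit 5) (nat_lit 53) (nat_lit 5) (nat_lit 50) (nat_lit 5) (nat_lit 318) (nat_lit 300) (nat_lit 162))) (XT.nd (nat_lit 78) (nat_lit 228) (nat_lit 0) (XT.lf (nat_lit 0) (nat_lit 37674507388) (nat_lit 228) (nat_lit 91881737088) (nat_lit 304) (nat_lit 76966244906) (nat_lit 46) (nat_lit 5) (nat_lit 49) (nat_lit 5) (nat_lit 50) (nat_lit 5) (nat_lit 319) (nat_lit 300) (nat_lit 161)) (XT.nd (nat_lit 78) (nat_lit 228) (nat_lit 0) (XT.lf (nat_lit 0) (nat_lit 191703034557) (nat_lit 304) (nat_lit 7294647693) (nat_lit 76) (nat_lit 18251884032) (nat_lit 46) (nat_lit 5) (nat_lit 50) (nat_lit 5) (nat_lit 47) (nat_lit 5) (nat_lit 320) (nat_lit 300) (nat_lit 160)) (XT.lf (nat_lit 0) (nat_lit 33316597252) (nat_lit 228) (nat_lit 58051464554) (nat_lit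 76) (nat_lit 137228858963) (nat_lit 43) (nat_lit 5) (nat_lit 46) (nat_lit 5) (nat_lit 44) (nat_lit 5) (nat_lit 321) (nat_lit 300) (nat_lit 159))))) (XT.nd (nat_lit 234) (nat_lit 380) (nat_lit 0) (XT.nd (nat_lit 78) (nat_lit 304) (nat_lit 0) (XT.lf (nat_lit 0) (nat_lit 98525344471) (nat_lit 304) (nat_lit 115541056448) (nat_lit 76) (nat_lit 26638143602) (nat_lit 40) (nat_lit 5) (nat_lit 44) (nat_lit 5) (nat_lit 41) (nat_lit 5) (nat_lit 322) (nat_lit 300) (nat_lit 158)) (XT.nd (nat_lit 78) (nat_lit 152) (nat_lit 0) (XT.lf (nat_lit 0) (nat_lit 72129266420) (nat_lit 152) (nat_lit 100515743914) (nat_lit 228) (nat_lit 80951057254) (nat_lit 38) (nat_lit 5) (nat_lit 40) (nat_lit 5) (nat_lit 41) (nat_lit 5) (nat_lit 323) (nat_lit 300) (nat_lit 157)) (XT.lf (nat_lit 0) (nat_lit 11510420298) (nat_lit 152) (nat_lit 243754188384) (nat_lit 228) (nat_lit 12125786185) (nat_lit 36) (nat_lit 5) (nat_lit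 38) (nat_lit 5) (nat_lit 39) (nat_lit 5) (nat_lit 324) (nat_lit 300) (nat_lit 156)))) (XT.nd (nat_lit 78) (nat_lit 304) (nat_lit 0) (XT.lf (nat_lit 0) (nat_lit 65121952603) (nat_lit 228) (nat_lit 58442686842) (nat_lit 76) (nat_lit 158429698526) (nat_lit 35) (nat_lit 5) (nat_lit 38) (nat_lit 5) (nat_lit 36) (nat_lit 5) (nat_lit 325) (nat_lit 300) (nat_lit 155)) (XT.nd (nat_lit 78) (nat_lit 152) (nat_lit 0) (XT.lf (nat_lit 0) (nat_lit 150765011091) (nat_lit 228) (nat_lit 138077455271) (nat_lit 76) (nat_lit 8782174805) (nat_lit 33) (nat_lit 5) (nat_lit 36) (nat_lit 5) (nat_lit 34) (nat_lit 5) (nat_lit 326) (nat_lit 300) (nat_lit 154)) (XT.lf (nat_lit 0) (nat_lit 83170034177) (nat_lit 152) (nat_lit 164505959207) (nat_lit 228) (nat_lit 66608551529) (nat_lit 31) (nat_lit 5) (nat_lit 33) (nat_lit 5) (nat_lit 34) (nat_lit 5) (nat_lit 327) (nat_lit 300) (nat_lit 153)))))) (XT.nd (nat_lit 390) (nat_lit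 532) (nat_lit 0) (XT.nd (nat_lit 156) (nat_lit 304) (nat_lit 0) (XT.nd (nat_lit 78) (nat_lit 152) (nat_lit 0) (XT.lf (nat_lit 0) (nat_lit 21864857340) (nat_lit 228) (nat_lit 5462071240) (nat_lit 76) (nat_lit 304812432268) (nat_lit 30) (nat_lit 5) (nat_lit 33) (nat_lit 5) (nat_lit 31) (nat_lit 5) (nat_lit 328) (nat_lit 300) (nat_lit 152)) (XT.lf (nat_lit 0) (nat_lit 120905487083) (nat_lit 228) (nat_lit 108183510311) (nat_lit 76) (nat_lit 121987818329) (nat_lit 28) (nat_lit 5) (nat_lit 31) (nat_lit 5) (nat_lit 29) (nat_lit 5) (nat_lit 329) (nat_lit 300) (nat_lit 151))) (XT.nd (nat_lit 78) (nat_lit 152) (nat_lit 0) (XT.lf (nat_lit 0) (nat_lit 143931609715) (nat_lit 152) (nat_lit 86742174506) (nat_lit 228) (nat_lit 140715262105) (nat_lit 26) (nat_lit 5) (nat_lit 28) (nat_lit 5) (nat_lit 29) (nat_lit 5) (nat_lit 330) (nat_lit 300) (nat_lit 150)) (XT.nd (nat_lit 78) (nat_lit 76) (nat_lit 0)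 (XT.lf (nat_lit 0) (nat_lit 26621940842) (nat_lit 76) (nat_lit 325978330000) (nat_lit 152) (nat_lit 40557148423) (nat_lit 25) (nat_lit 5) (nat_lit 26) (nat_lit 5) (nat_lit 27) (nat_lit 4) (nat_lit 331) (nat_lit 300) (nat_lit 149)) (XT.lf (nat_lit 0) (nat_lit 70939074305) (nat_lit 152) (nat_lit 109902668867) (nat_lit 76) (nat_lit 235498261226) (nat_lit 24) (nat_lit 5) (nat_lit 26) (nat_lit 5) (nat_lit 25) (nat_lit 5) (nat_lit 332) (nat_lit 300) (nat_lit 148))))) (XT.nd (nat_lit 234) (nat_lit 304) (nat_lit 0) (XT.nd (nat_lit 78) (nat_lit 76) (nat_lit 0) (XT.lf (nat_lit 0) (nat_lit 172084307306) (nat_lit 152) (nat_lit 20555265292) (nat_lit 228) (nat_lit 248569105191) (nat_lit 22) (nat_lit 5) (nat_lit 24) (nat_lit 5) (nat_lit 25) (nat_lit 5) (nat_lit 333) (nat_lit 300) (nat_lit 147)) (XT.nd (nat_lit 78) (nat_lit 0) (nat_lit 0) (XT.lf (nat_lit 0) (nat_lit 10506441914) (nat_lit 76) (nat_lit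 318061115147) (nat_lit 152) (nat_lit 139274715806) (nat_lit 21) (nat_lit 5) (nat_lit 22) (nat_lit 5) (nat_lit 23) (nat_lit 4) (nat_lit 334) (nat_lit 300) (nat_lit 146)) (XT.lf (nat_lit 0) (nat_lit 321759664513) (nat_lit 76) (nat_lit 158638903530) (nat_lit 152) (nat_lit 15956548242) (nat_lit 21) (nat_lit 5) (nat_lit 22) (nat_lit 5) (nat_lit 23) (nat_lit 4) (nat_lit 335) (nat_lit 300) (nat_lit 145)))) (XT.nd (nat_lit 78) (nat_lit 76) (nat_lit 0) (XT.lf (nat_lit 0) (nat_lit 115829910615) (nat_lit 228) (nat_lit 394032229879) (nat_lit 76) (nat_lit 17077592819) (nat_lit 18) (nat_lit 5) (nat_lit 21) (nat_lit 5) (nat_lit 19) (nat_lit 4) (nat_lit 336) (nat_lit 300) (nat_lit 144)) (XT.nd (nat_lit 78) (nat_lit 76) (nat_lit 0) (XT.lf (nat_lit 0) (nat_lit 263373683964) (nat_lit 228) (nat_lit 91567780222) (nat_lit 76) (nat_lit 204727904602) (nat_lit 18) (nat_lit 5) (nat_lit 21) (nat_lit 5) (nat_lit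 19) (nat_lit 4) (nat_lit 337) (nat_lit 300) (nat_lit 143)) (XT.lf (nat_lit 0) (nat_lit 242866789055) (nat_lit 76) (nat_lit 183645838238) (nat_lit 152) (nat_lit 168315164497) (nat_lit 17) (nat_lit 5) (nat_lit 18) (nat_lit 5) (nat_lit 19) (nat_lit 4) (nat_lit 338) (nat_lit 300) (nat_lit 142))))))) (XT.nd (nat_lit 38142) (nat_lit 0) (nat_lit 3192) (XT.nd (nat_lit 37674) (nat_lit 0) (nat_lit 5472) (XT.nd (nat_lit 156) (nat_lit 76) (nat_lit 0) (XT.nd (nat_lit 78) (nat_lit 152) (nat_lit 0) (XT.lf (nat_lit 0) (nat_lit 604344859824) (nat_lit 152) (nat_lit 25440719283) (nat_lit 0) (nat_lit 2931200922) (nat_lit 17) (nat_lit 5) (nat_lit 19) (nat_lit 4) (nat_lit 17) (nat_lit 4) (nat_lit 339) (nat_lit 300) (nat_lit 141)) (XT.lf (nat_lit 0) (nat_lit 127297885655) (nat_lit 152) (nat_lit 340453209313) (nat_lit 76) (nat_lit 205366935468) (nat_lit 15) (nat_lit 5) (nat_lit 17) (nat_lit 5) (nat_lit 16) (nat_lit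 4) (nat_lit 340) (nat_lit 300) (nat_lit 140))) (XT.nd (nat_lit 78) (nat_lit 0) (nat_lit 0) (XT.lf (nat_lit 0) (nat_lit 3215039861) (nat_lit 76) (nat_lit 291725991735) (nat_lit 152) (nat_lit 421761405203) (nat_lit 14) (nat_lit 5) (nat_lit 15) (nat_lit 5) (nat_lit 16) (nat_lit 4) (nat_lit 341) (nat_lit 300) (nat_lit 139)) (XT.nd (nat_lit 78) (nat_lit 0) (nat_lit 0) (XT.lf (nat_lit 0) (nat_lit 386533978407) (nat_lit 76) (nat_lit 95391991596) (nat_lit 152) (nat_lit 281551108691) (nat_lit 14) (nat_lit 5) (nat_lit 15) (nat_lit 5) (nat_lit 16) (nat_lit 4) (nat_lit 342) (nat_lit 300) (nat_lit 138)) (XT.lf (nat_lit 0) (nat_lit 685690790942) (nat_lit 152) (nat_lit 15296704864) (nat_lit 0) (nat_lit 112915141824) (nat_lit 14) (nat_lit 5) (nat_lit 16) (nat_lit 4) (nat_lit 14) (nat_lit 4) (nat_lit 343) (nat_lit 300) (nat_lit 137))))) (XT.nd (nat_lit 234) (nat_lit 608) (nat_lit 0) (XT.nd (nat_lit 78)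 (nat_lit 0) (nat_lit 0) (XT.lf (nat_lit 0) (nat_lit 21755547667) (nat_lit 0) (nat_lit 21755547667) (nat_lit 684) (nat_lit 4410376881) (nat_lit 94) (nat_lit 5) (nat_lit 94) (nat_lit 3) (nat_lit 103) (nat_lit 3) (nat_lit 301) (nat_lit 301) (nat_lit 178)) (XT.nd (nat_lit 78) (nat_lit 0) (nat_lit 0) (XT.lf (nat_lit 76) (nat_lit 18119752499) (nat_lit 0) (nat_lit 73100248895) (nat_lit 760) (nat_lit 8420795987) (nat_lit 95) (nat_lit 5) (nat_lit 94) (nat_lit 5) (nat_lit 104) (nat_lit 5) (nat_lit 302) (nat_lit 301) (nat_lit 177)) (XT.lf (nat_lit 76) (nat_lit 95317692462) (nat_lit 0) (nat_lit 2068321580) (nat_lit 760) (nat_lit 6274847538) (nat_lit 95) (nat_lit 5) (nat_lit 94) (nat_lit 5) (nat_lit 104) (nat_lit 5) (nat_lit 303) (nat_lit 301) (nat_lit 176)))) (XT.nd (nat_lit 78) (nat_lit 684) (nat_lit 0) (XT.lf (nat_lit 76) (nat_lit 71821621491) (nat_lit 0) (nat_lit 34509490150) (nat_lit 760) (nat_lit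 1557130807) (nat_lit 96) (nat_lit 5) (nat_lit 95) (nat_lit 5) (nat_lit 105) (nat_lit 5) (nat_lit 304) (nat_lit 301) (nat_lit 175)) (XT.nd (nat_lit 78) (nat_lit 0) (nat_lit 76) (XT.lf (nat_lit 0) (nat_lit 5027466561) (nat_lit 760) (nat_lit 65397251488) (nat_lit 836) (nat_lit 41946200279) (nat_lit 86) (nat_lit 5) (nat_lit 96) (nat_lit 5) (nat_lit 97) (nat_lit 5) (nat_lit 305) (nat_lit 301) (nat_lit 174)) (XT.lf (nat_lit 0) (nat_lit 13741647652) (nat_lit 760) (nat_lit 96434492590) (nat_lit 836) (nat_lit 6951924603) (nat_lit 87) (nat_lit 5) (nat_lit 97) (nat_lit 5) (nat_lit 98) (nat_lit 5) (nat_lit 306) (nat_lit 301) (nat_lit 173)))))) (XT.nd (nat_lit 390) (nat_lit 1216) (nat_lit 0) (XT.nd (nat_lit 156) (nat_lit 1140) (nat_lit 0) (XT.nd (nat_lit 78) (nat_lit 0) (nat_lit 76) (XT.lf (nat_lit 0) (nat_lit 25497503149) (nat_lit 760) (nat_lit 7408674917) (nat_lit 836) (nat_lit 89242379328) (nat_lit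 87) (nat_lit 5) (nat_lit 97) (nat_lit 5) (nat_lit 98) (nat_lit 5) (nat_lit 307) (nat_lit 301) (nat_lit 172)) (XT.lf (nat_lit 0) (nat_lit 40436972202) (nat_lit 760) (nat_lit 36639091786) (nat_lit 76) (nat_lit 50382469316) (nat_lit 88) (nat_lit 5) (nat_lit 98) (nat_lit 5) (nat_lit 89) (nat_lit 5) (nat_lit 308) (nat_lit 301) (nat_lit 171))) (XT.nd (nat_lit 78) (nat_lit 684) (nat_lit 0) (XT.lf (nat_lit 0) (nat_lit 58393015840) (nat_lit 608) (nat_lit 67697914908) (nat_lit 76) (nat_lit 7011306805) (nat_lit 81) (nat_lit 5) (nat_lit 89) (nat_lit 5) (nat_lit 82) (nat_lit 5) (nat_lit 309) (nat_lit 301) (nat_lit 170)) (XT.nd (nat_lit 78) (nat_lit 304) (nat_lit 0) (XT.lf (nat_lit 0) (nat_lit 37648296016) (nat_lit 380) (nat_lit 42672725340) (nat_lit 456) (nat_lit 58749643905) (nat_lit 76) (nat_lit 5) (nat_lit 81) (nat_lit 5) (nat_lit 82) (nat_lit 5) (nat_lit 310) (nat_lit 301) (nat_lit 169)) (XT.lf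 (nat_lit 0) (nat_lit 7873768716) (nat_lit 304) (nat_lit 98190745363) (nat_lit 380) (nat_lit 39348991730) (nat_lit 72) (nat_lit 5) (nat_lit 76) (nat_lit 5) (nat_lit 77) (nat_lit 5) (nat_lit 311) (nat_lit 301) (nat_lit 168))))) (XT.nd (nat_lit 234) (nat_lit 532) (nat_lit 0) (XT.nd (nat_lit 78) (nat_lit 684) (nat_lit 0) (XT.lf (nat_lit 0) (nat_lit 128791417563) (nat_lit 304) (nat_lit 7550138083) (nat_lit 380) (nat_lit 15798515375) (nat_lit 72) (nat_lit 5) (nat_lit 76) (nat_lit 5) (nat_lit 77) (nat_lit 5) (nat_lit 312) (nat_lit 301) (nat_lit 167)) (XT.nd (nat_lit 78) (nat_lit 304) (nat_lit 0) (XT.lf (nat_lit 0) (nat_lit 12376498932) (nat_lit 380) (nat_lit 57628699600) (nat_lit 76) (nat_lit 89239595853) (nat_lit 67) (nat_lit 5) (nat_lit 72) (nat_lit 5) (nat_lit 68) (nat_lit 5) (nat_lit 313) (nat_lit 301) (nat_lit 166)) (XT.lf (nat_lit 0) (nat_lit 44375434334) (nat_lit 380) (nat_lit 94834460120)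 (nat_lit 76) (nat_lit 27588881142) (nat_lit 63) (nat_lit 5) (nat_lit 68) (nat_lit 5) (nat_lit 64) (nat_lit 5) (nat_lit 314) (nat_lit 301) (nat_lit 165)))) (XT.nd (nat_lit 78) (nat_lit 228) (nat_lit 0) (XT.lf (nat_lit 0) (nat_lit 39130766918) (nat_lit 304) (nat_lit 42614700378) (nat_lit 380) (nat_lit 93071049544) (nat_lit 59) (nat_lit 5) (nat_lit 63) (nat_lit 5) (nat_lit 64) (nat_lit 5) (nat_lit 315) (nat_lit 301) (nat_lit 164)) (XT.nd (nat_lit 78) (nat_lit 0) (nat_lit 0) (XT.lf (nat_lit 0) (nat_lit 2908639311) (nat_lit 228) (nat_lit 121883889047) (nat_lit 304) (nat_lit 58548778375) (nat_lit 56) (nat_lit 5) (nat_lit 59) (nat_lit 5) (nat_lit 60) (nat_lit 5) (nat_lit 316) (nat_lit 301) (nat_lit 163)) (XT.lf (nat_lit 0) (nat_lit 156693000550) (nat_lit 228) (nat_lit 17660449952) (nat_lit 304) (nat_lit 18041125083) (nat_lit 56) (nat_lit 5) (nat_lit 59) (nat_lit 5) (nat_lit 60) (nat_lit 5) (nat_lit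 317) (nat_lit 301) (nat_lit 162))))))))
noncomputable def xc112 : XT := (XT.nd (nat_lit 1638) (nat_lit 304) (nat_lit 0) (XT.nd (nat_lit 780) (nat_lit 1140) (nat_lit 0) (XT.nd (nat_lit 390) (nat_lit 760) (nat_lit 0) (XT.nd (nat_lit 156) (nat_lit 456) (nat_lit 0) (XT.nd (nat_lit 78) (nat_lit 228) (nat_lit 0) (XT.lf (nat_lit 0) (nat_lit 28342780868) (nat_lit 304) (nat_lit 79394473120) (nat_lit 76) (nat_lit 94241862968) (nat_lit 52) (nat_lit 5) (nat_lit 56) (nat_lit 5) (nat_lit 53) (nat_lit 5) (nat_lit 318) (nat_lit 301) (nat_lit 161)) (XT.lf (nat_lit 0) (nat_lit 80135068924) (nat_lit 304) (nat_lit 127669091138) (nat_lit 76) (nat_lit 4394987101) (nat_lit 49) (nat_lit 5) (nat_lit 53) (nat_lit 5) (nat_lit 50) (nat_lit 5) (nat_lit 319) (nat_lit 301) (nat_lit 160))) (XT.nd (nat_lit 78) (nat_lit 228) (nat_lit 0) (XT.lf (nat_lit 0) (nat_lit 40698851938) (nat_lit 228) (nat_lit 99229261353) (nat_lit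 304) (nat_lit 83115798269) (nat_lit 46) (nat_lit 5) (nat_lit 49) (nat_lit 5) (nat_lit 50) (nat_lit 5) (nat_lit 320) (nat_lit 301) (nat_lit 159)) (XT.nd (nat_lit 78) (nat_lit 228) (nat_lit 0) (XT.lf (nat_lit 0) (nat_lit 207046144289) (nat_lit 304) (nat_lit 7868299264) (nat_lit 76) (nat_lit 19714736803) (nat_lit 46) (nat_lit 5) (nat_lit 50) (nat_lit 5) (nat_lit 47) (nat_lit 5) (nat_lit 321) (nat_lit 301) (nat_lit 158)) (XT.lf (nat_lit 0) (nat_lit 35988545213) (nat_lit 228) (nat_lit 62685866754) (nat_lit 76) (nat_lit 148209924506) (nat_lit 43) (nat_lit 5) (nat_lit 46) (nat_lit 5) (nat_lit 44) (nat_lit 5) (nat_lit 322) (nat_lit 301) (nat_lit 157))))) (XT.nd (nat_lit 156) (nat_lit 380) (nat_lit 0) (XT.nd (nat_lit 78) (nat_lit 152) (nat_lit 0) (XT.lf (nat_lit 0) (nat_lit 106413694029) (nat_lit 304) (nat_lit 124774775140) (nat_lit 76) (nat_lit 28772116380) (nat_lit 40) (nat_lit 5) (nat_lit 44)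 (nat_lit 5) (nat_lit 41) (nat_lit 5) (nat_lit 323) (nat_lit 301) (nat_lit 156)) (XT.lf (nat_lit 0) (nat_lit 77908757839) (nat_lit 152) (nat_lit 108553849885) (nat_lit 228) (nat_lit 87420839485) (nat_lit 38) (nat_lit 5) (nat_lit 40) (nat_lit 5) (nat_lit 41) (nat_lit 5) (nat_lit 324) (nat_lit 301) (nat_lit 155))) (XT.nd (nat_lit 78) (nat_lit 228) (nat_lit 0) (XT.lf (nat_lit 0) (nat_lit 12440251775) (nat_lit 152) (nat_lit 263251264045) (nat_lit 228) (nat_lit 13089818199) (nat_lit 36) (nat_lit 5) (nat_lit 38) (nat_lit 5) (nat_lit 39) (nat_lit 5) (nat_lit 325) (nat_lit 301) (nat_lit 154)) (XT.nd (nat_lit 78) (nat_lit 152) (nat_lit 0) (XT.lf (nat_lit 0) (nat_lit 70337114233) (nat_lit 228) (nat_lit 63109586851) (nat_lit 76) (nat_lit 171106908788) (nat_lit 35) (nat_lit 5) (nat_lit 38) (nat_lit 5) (nat_lit 36) (nat_lit 5) (nat_lit 326) (nat_lit 301) (nat_lit 153)) (XT.lf (nat_lit 0) (nat_lit 162831391200)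 (nat_lit 228) (nat_lit 149115292727) (nat_lit 76) (nat_lit 9487665068) (nat_lit 33) (nat_lit 5) (nat_lit 36) (nat_lit 5) (nat_lit 34) (nat_lit 5) (nat_lit 327) (nat_lit 301) (nat_lit 152)))))) (XT.nd (nat_lit 390) (nat_lit 532) (nat_lit 0) (XT.nd (nat_lit 156) (nat_lit 380) (nat_lit 0) (XT.nd (nat_lit 78) (nat_lit 76) (nat_lit 0) (XT.lf (nat_lit 0) (nat_lit 89831632606) (nat_lit 152) (nat_lit 177663360659) (nat_lit 228) (nat_lit 71932065050) (nat_lit 31) (nat_lit 5) (nat_lit 33) (nat_lit 5) (nat_lit 34) (nat_lit 5) (nat_lit 328) (nat_lit 301) (nat_lit 151)) (XT.lf (nat_lit 0) (nat_lit 23618680289) (nat_lit 228) (nat_lit 5891476608) (nat_lit 76) (nat_lit 329200117425) (nat_lit 30) (nat_lit 5) (nat_lit 33) (nat_lit 5) (nat_lit 31) (nat_lit 5) (nat_lit 329) (nat_lit 301) (nat_lit 150))) (XT.nd (nat_lit 78) (nat_lit 228) (nat_lit 0) (XT.lf (nat_lit 0) (nat_lit 130582374183) (nat_lit 228) (nat_lit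 116830779913) (nat_lit 76) (nat_lit 131749581074) (nat_lit 28) (nat_lit 5) (nat_lit 31) (nat_lit 5) (nat_lit 29) (nat_lit 5) (nat_lit 330) (nat_lit 301) (nat_lit 149)) (XT.nd (nat_lit 78) (nat_lit 76) (nat_lit 0) (XT.lf (nat_lit 0) (nat_lit 155453227633) (nat_lit 152) (nat_lit 93678688649) (nat_lit 228) (nat_lit 151968039131) (nat_lit 26) (nat_lit 5) (nat_lit 28) (nat_lit 5) (nat_lit 29) (nat_lit 5) (nat_lit 331) (nat_lit 301) (nat_lit 148)) (XT.lf (nat_lit 0) (nat_lit 28758639747) (nat_lit 76) (nat_lit 352053718554) (nat_lit 152) (nat_lit 43797448296) (nat_lit 25) (nat_lit 5) (nat_lit 26) (nat_lit 5) (nat_lit 27) (nat_lit 4) (nat_lit 332) (nat_lit 301) (nat_lit 147))))) (XT.nd (nat_lit 234) (nat_lit 228) (nat_lit 0) (XT.nd (nat_lit 78) (nat_lit 228) (nat_lit 0) (XT.lf (nat_lit 0) (nat_lit 76618029204) (nat_lit 152) (nat_lit 118688323906) (nat_lit 76) (nat_lit 254340657620) (nat_lit 24)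 (nat_lit 5) (nat_lit 26) (nat_lit 5) (nat_lit 25) (nat_lit 5) (nat_lit 333) (nat_lit 301) (nat_lit 146)) (XT.nd (nat_lit 78) (nat_lit 76) (nat_lit 0) (XT.lf (nat_lit 0) (nat_lit 185857325338) (nat_lit 152) (nat_lit 22197056341) (nat_lit 228) (nat_lit 268450805785) (nat_lit 22) (nat_lit 5) (nat_lit 24) (nat_lit 5) (nat_lit 25) (nat_lit 5) (nat_lit 334) (nat_lit 301) (nat_lit 145)) (XT.lf (nat_lit 0) (nat_lit 11353095326) (nat_lit 76) (nat_lit 343503373557) (nat_lit 152) (nat_lit 150413008244) (nat_lit 21) (nat_lit 5) (nat_lit 22) (nat_lit 5) (nat_lit 23) (nat_lit 4) (nat_lit 335) (nat_lit 301) (nat_lit 144)))) (XT.nd (nat_lit 78) (nat_lit 228) (nat_lit 0) (XT.lf (nat_lit 0) (nat_lit 347506121062) (nat_lit 76) (nat_lit 171327579885) (nat_lit 152) (nat_lit 17229660225) (nat_lit 21) (nat_lit 5) (nat_lit 22) (nat_lit 5) (nat_lit 23) (nat_lit 4) (nat_lit 336) (nat_lit 301) (nat_lit 143)) (XT.nd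 (nat_lit 78) (nat_lit 0) (nat_lit 0) (XT.lf (nat_lit 0) (nat_lit 125099485475) (nat_lit 228) (nat_lit 425549143969) (nat_lit 76) (nat_lit 18446121631) (nat_lit 18) (nat_lit 5) (nat_lit 21) (nat_lit 5) (nat_lit 19) (nat_lit 4) (nat_lit 337) (nat_lit 301) (nat_lit 142)) (XT.lf (nat_lit 0) (nat_lit 284446524988) (nat_lit 228) (nat_lit 98887957917) (nat_lit 76) (nat_lit 221108286402) (nat_lit 18) (nat_lit 5) (nat_lit 21) (nat_lit 5) (nat_lit 19) (nat_lit 4) (nat_lit 338) (nat_lit 301) (nat_lit 141))))))) (XT.nd (nat_lit 38220) (nat_lit 0) (nat_lit 3192) (XT.nd (nat_lit 37752) (nat_lit 0) (nat_lit 5472) (XT.nd (nat_lit 156) (nat_lit 228) (nat_lit 0) (XT.nd (nat_lit 78) (nat_lit 0) (nat_lit 0) (XT.lf (nat_lit 0) (nat_lit 262301148973) (nat_lit 76) (nat_lit 198335294891) (nat_lit 152) (nat_lit 181777429404) (nat_lit 17) (nat_lit 5) (nat_lit 18) (nat_lit 5) (nat_lit 19) (nat_lit 4) (nat_lit 339)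 (nat_lit 301) (nat_lit 140)) (XT.lf (nat_lit 0) (nat_lit 652695079071) (nat_lit 152) (nat_lit 27471232244) (nat_lit 0) (nat_lit 3167678162) (nat_lit 17) (nat_lit 5) (nat_lit 19) (nat_lit 4) (nat_lit 17) (nat_lit 4) (nat_lit 340) (nat_lit 301) (nat_lit 139))) (XT.nd (nat_lit 78) (nat_lit 76) (nat_lit 0) (XT.lf (nat_lit 0) (nat_lit 137484265349) (nat_lit 152) (nat_lit 367684842133) (nat_lit 76) (nat_lit 221798236685) (nat_lit 15) (nat_lit 5) (nat_lit 17) (nat_lit 5) (nat_lit 16) (nat_lit 4) (nat_lit 341) (nat_lit 301) (nat_lit 138)) (XT.nd (nat_lit 78) (nat_lit 0) (nat_lit 0) (XT.lf (nat_lit 0) (nat_lit 3476666025) (nat_lit 76) (nat_lit 315062077192) (nat_lit 152) (nat_lit 455499765903) (nat_lit 14) (nat_lit 5) (nat_lit 15) (nat_lit 5) (nat_lit 16) (nat_lit 4) (nat_lit 342) (nat_lit 301) (nat_lit 137)) (XT.lf (nat_lit 0) (nat_lit 417460792027) (nat_lit 76) (nat_lit 103021504737) (nat_lit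 152) (nat_lit 304072834687) (nat_lit 14) (nat_lit 5) (nat_lit 15) (nat_lit 5) (nat_lit 16) (nat_lit 4) (nat_lit 343) (nat_lit 301) (nat_lit 136))))) (XT.nd (nat_lit 234) (nat_lit 608) (nat_lit 0) (XT.nd (nat_lit 78) (nat_lit 0) (nat_lit 0) (XT.lf (nat_lit 0) (nat_lit 23501121329) (nat_lit 0) (nat_lit 23501121329) (nat_lit 684) (nat_lit 4752416125) (nat_lit 94) (nat_lit 5) (nat_lit 94) (nat_lit 3) (nat_lit 103) (nat_lit 3) (nat_lit 302) (nat_lit 302) (nat_lit 176)) (XT.nd (nat_lit 78) (nat_lit 0) (nat_lit 0) (XT.lf (nat_lit 76) (nat_lit 19580315992) (nat_lit 0) (nat_lit 78956308115) (nat_lit 760) (nat_lit 9074452184) (nat_lit 95) (nat_lit 5) (nat_lit 94) (nat_lit 5) (nat_lit 104) (nat_lit 5) (nat_lit 303) (nat_lit 302) (nat_lit 175)) (XT.lf (nat_lit 76) (nat_lit 102953277574) (nat_lit 0) (nat_lit 2241231111) (nat_lit 760) (nat_lit 6758309895) (nat_lit 95) (nat_lit 5) (nat_lit 94) (nat_lit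 5) (nat_lit 104) (nat_lit 5) (nat_lit 304) (nat_lit 302) (nat_lit 174)))) (XT.nd (nat_lit 78) (nat_lit 684) (nat_lit 0) (XT.lf (nat_lit 76) (nat_lit 77578062426) (nat_lit 0) (nat_lit 37275906583) (nat_lit 760) (nat_lit 1664485477) (nat_lit 96) (nat_lit 5) (nat_lit 95) (nat_lit 5) (nat_lit 105) (nat_lit 5) (nat_lit 305) (nat_lit 302) (nat_lit 173)) (XT.nd (nat_lit 78) (nat_lit 0) (nat_lit 76) (XT.lf (nat_lit 0) (nat_lit 5445187905) (nat_lit 760) (nat_lit 70617352059) (nat_lit 836) (nat_lit 45297250113) (nat_lit 86) (nat_lit 5) (nat_lit 96) (nat_lit 5) (nat_lit 97) (nat_lit 5) (nat_lit 306) (nat_lit 302) (nat_lit 172)) (XT.lf (nat_lit 0) (nat_lit 14855475264) (nat_lit 760) (nat_lit 104137276258) (nat_lit 836) (nat_lit 7504810093) (nat_lit 87) (nat_lit 5) (nat_lit 97) (nat_lit 5) (nat_lit 98) (nat_lit 5) (nat_lit 307) (nat_lit 302) (nat_lit 171)))))) (XT.nd (nat_lit 390) (nat_lit 1216) (nat_lit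 0) (XT.nd (nat_lit 156) (nat_lit 1140) (nat_lit 0) (XT.nd (nat_lit 78) (nat_lit 0) (nat_lit 76) (XT.lf (nat_lit 0) (nat_lit 27550725439) (nat_lit 760) (nat_lit 7990280263) (nat_lit 836) (nat_lit 96378743306) (nat_lit 87) (nat_lit 5) (nat_lit 97) (nat_lit 5) (nat_lit 98) (nat_lit 5) (nat_lit 308) (nat_lit 302) (nat_lit 170)) (XT.lf (nat_lit 0) (nat_lit 43684492374) (nat_lit 760) (nat_lit 39558931436) (nat_lit 76) (nat_lit 54411143781) (nat_lit 88) (nat_lit 5) (nat_lit 98) (nat_lit 5) (nat_lit 89) (nat_lit 5) (nat_lit 309) (nat_lit 302) (nat_lit 169))) (XT.nd (nat_lit 78) (nat_lit 684) (nat_lit 0) (XT.lf (nat_lit 0) (nat_lit 63076241865) (nat_lit 608) (nat_lit 73102326518) (nat_lit 76) (nat_lit 7571240181) (nat_lit 81) (nat_lit 5) (nat_lit 89) (nat_lit 5) (nat_lit 82) (nat_lit 5) (nat_lit 310) (nat_lit 302) (nat_lit 168)) (XT.nd (nat_lit 78) (nat_lit 304) (nat_lit 0) (XT.lf (nat_lit 0) (nat_lit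 40671084912) (nat_lit 380) (nat_lit 46086700539) (nat_lit 456) (nat_lit 63437961546) (nat_lit 76) (nat_lit 5) (nat_lit 81) (nat_lit 5) (nat_lit 82) (nat_lit 5) (nat_lit 311) (nat_lit 302) (nat_lit 167)) (XT.lf (nat_lit 0) (nat_lit 8514669629) (nat_lit 304) (nat_lit 106045436506) (nat_lit 380) (nat_lit 42485942514) (nat_lit 72) (nat_lit 5) (nat_lit 76) (nat_lit 5) (nat_lit 77) (nat_lit 5) (nat_lit 312) (nat_lit 302) (nat_lit 166))))) (XT.nd (nat_lit 234) (nat_lit 532) (nat_lit 0) (XT.nd (nat_lit 78) (nat_lit 684) (nat_lit 0) (XT.lf (nat_lit 0) (nat_lit 139104915611) (nat_lit 304) (nat_lit 8153622752) (nat_lit 380) (nat_lit 17052240536) (nat_lit 72) (nat_lit 5) (nat_lit 76) (nat_lit 5) (nat_lit 77) (nat_lit 5) (nat_lit 313) (nat_lit 302) (nat_lit 165)) (XT.nd (nat_lit 78) (nat_lit 304) (nat_lit 0) (XT.lf (nat_lit 0) (nat_lit 13375891395) (nat_lit 380) (nat_lit 62228465508) (nat_lit 76) (nat_lit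 96379544277) (nat_lit 67) (nat_lit 5) (nat_lit 72) (nat_lit 5) (nat_lit 68) (nat_lit 5) (nat_lit 314) (nat_lit 302) (nat_lit 164)) (XT.lf (nat_lit 0) (nat_lit 47934232789) (nat_lit 380) (nat_lit 102410715946) (nat_lit 76) (nat_lit 29797278567) (nat_lit 63) (nat_lit 5) (nat_lit 68) (nat_lit 5) (nat_lit 64) (nat_lit 5) (nat_lit 315) (nat_lit 302) (nat_lit 163)))) (XT.nd (nat_lit 78) (nat_lit 228) (nat_lit 0) (XT.lf (nat_lit 0) (nat_lit 42271272895) (nat_lit 304) (nat_lit 46022103154) (nat_lit 380) (nat_lit 100508037313) (nat_lit 59) (nat_lit 5) (nat_lit 63) (nat_lit 5) (nat_lit 64) (nat_lit 5) (nat_lit 316) (nat_lit 302) (nat_lit 162)) (XT.nd (nat_lit 78) (nat_lit 0) (nat_lit 0) (XT.lf (nat_lit 0) (nat_lit 3151318433) (nat_lit 228) (nat_lit 131632452445) (nat_lit 304) (nat_lit 63224437960) (nat_lit 56) (nat_lit 5) (nat_lit 59) (nat_lit 5) (nat_lit 60) (nat_lit 5) (nat_lit 317) (nat_lit 302)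 (nat_lit 161)) (XT.lf (nat_lit 0) (nat_lit 169237688721) (nat_lit 228) (nat_lit 19071297313) (nat_lit 304) (nat_lit 19476782973) (nat_lit 56) (nat_lit 5) (nat_lit 59) (nat_lit 5) (nat_lit 60) (nat_lit 5) (nat_lit 318) (nat_lit 302) (nat_lit 160))))))))
noncomputable def xc113 : XT := (XT.nd (nat_lit 1638) (nat_lit 304) (nat_lit 0) (XT.nd (nat_lit 780) (nat_lit 1140) (nat_lit 0) (XT.nd (nat_lit 390) (nat_lit 760) (nat_lit 0) (XT.nd (nat_lit 156) (nat_lit 456) (nat_lit 0) (XT.nd (nat_lit 78) (nat_lit 228) (nat_lit 0) (XT.lf (nat_lit 0) (nat_lit 30617218714) (nat_lit 304) (nat_lit 85736617553) (nat_lit 76) (nat_lit 101783250768) (nat_lit 52) (nat_lit 5) (nat_lit 56) (nat_lit 5) (nat_lit 53) (nat_lit 5) (nat_lit 319) (nat_lit 302) (nat_lit 159)) (XT.lf (nat_lit 0) (nat_lit 86552547710) (nat_lit 304) (nat_lit 137873311385) (nat_lit 76) (nat_lit 4748878298) (nat_lit 49) (nat_lit 5) (nat_lit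 53) (nat_lit 5) (nat_lit 50) (nat_lit 5) (nat_lit 320) (nat_lit 302) (nat_lit 158))) (XT.nd (nat_lit 78) (nat_lit 228) (nat_lit 0) (XT.lf (nat_lit 0) (nat_lit 43963662665) (nat_lit 228) (nat_lit 107165017640) (nat_lit 304) (nat_lit 89758420987) (nat_lit 46) (nat_lit 5) (nat_lit 49) (nat_lit 5) (nat_lit 50) (nat_lit 5) (nat_lit 321) (nat_lit 302) (nat_lit 157)) (XT.nd (nat_lit 78) (nat_lit 228) (nat_lit 0) (XT.lf (nat_lit 0) (nat_lit 223615723150) (nat_lit 304) (nat_lit 8489258195) (nat_lit 76) (nat_lit 21294232319) (nat_lit 46) (nat_lit 5) (nat_lit 50) (nat_lit 5) (nat_lit 47) (nat_lit 5) (nat_lit 322) (nat_lit 302) (nat_lit 156)) (XT.lf (nat_lit 0) (nat_lit 38873304569) (nat_lit 228) (nat_lit 67692407078) (nat_lit 76) (nat_lit 160069082000) (nat_lit 43) (nat_lit 5) (nat_lit 46) (nat_lit 5) (nat_lit 44) (nat_lit 5) (nat_lit 323) (nat_lit 302) (nat_lit 155))))) (XT.nd (nat_lit 156) (nat_lit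 380) (nat_lit 0) (XT.nd (nat_lit 78) (nat_lit 152) (nat_lit 0) (XT.lf (nat_lit 0) (nat_lit 114932209648) (nat_lit 304) (nat_lit 134748555998) (nat_lit 76) (nat_lit 31076390226) (nat_lit 40) (nat_lit 5) (nat_lit 44) (nat_lit 5) (nat_lit 41) (nat_lit 5) (nat_lit 324) (nat_lit 302) (nat_lit 154)) (XT.lf (nat_lit 0) (nat_lit 84149303207) (nat_lit 152) (nat_lit 117235454221) (nat_lit 228) (nat_lit 94409103396) (nat_lit 38) (nat_lit 5) (nat_lit 40) (nat_lit 5) (nat_lit 41) (nat_lit 5) (nat_lit 325) (nat_lit 302) (nat_lit 153))) (XT.nd (nat_lit 78) (nat_lit 228) (nat_lit 0) (XT.lf (nat_lit 0) (nat_lit 13443186126) (nat_lit 152) (nat_lit 284308570750) (nat_lit 228) (nat_lit 14131833145) (nat_lit 36) (nat_lit 5) (nat_lit 38) (nat_lit 5) (nat_lit 39) (nat_lit 5) (nat_lit 326) (nat_lit 302) (nat_lit 152)) (XT.nd (nat_lit 78) (nat_lit 152) (nat_lit 0) (XT.lf (nat_lit 0) (nat_lit 75968717650) (nat_lit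 228) (nat_lit 68151053613) (nat_lit 76) (nat_lit 184797891515) (nat_lit 35) (nat_lit 5) (nat_lit 38) (nat_lit 5) (nat_lit 36) (nat_lit 5) (nat_lit 327) (nat_lit 302) (nat_lit 151)) (XT.lf (nat_lit 0) (nat_lit 175862342844) (nat_lit 228) (nat_lit 161037349680) (nat_lit 76) (nat_lit 10249178512) (nat_lit 33) (nat_lit 5) (nat_lit 36) (nat_lit 5) (nat_lit 34) (nat_lit 5) (nat_lit 328) (nat_lit 302) (nat_lit 150)))))) (XT.nd (nat_lit 390) (nat_lit 532) (nat_lit 0) (XT.nd (nat_lit 156) (nat_lit 380) (nat_lit 0) (XT.nd (nat_lit 78) (nat_lit 76) (nat_lit 0) (XT.lf (nat_lit 0) (nat_lit 97025018234) (nat_lit 152) (nat_lit 191873792952) (nat_lit 228) (nat_lit 77682197296) (nat_lit 31) (nat_lit 5) (nat_lit 33) (nat_lit 5) (nat_lit 34) (nat_lit 5) (nat_lit 329) (nat_lit 302) (nat_lit 149)) (XT.lf (nat_lit 0) (nat_lit 25512147930) (nat_lit 228) (nat_lit 6356312971) (nat_lit 76) (nat_lit 355538433553)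 (nat_lit 30) (nat_lit 5) (nat_lit 33) (nat_lit 5) (nat_lit 31) (nat_lit 5) (nat_lit 330) (nat_lit 302) (nat_lit 148))) (XT.nd (nat_lit 78) (nat_lit 228) (nat_lit 0) (XT.lf (nat_lit 0) (nat_lit 141032777674) (nat_lit 228) (nat_lit 126170888377) (nat_lit 76) (nat_lit 142291894335) (nat_lit 28) (nat_lit 5) (nat_lit 31) (nat_lit 5) (nat_lit 29) (nat_lit 5) (nat_lit 331) (nat_lit 302) (nat_lit 147)) (XT.nd (nat_lit 78) (nat_lit 76) (nat_lit 0) (XT.lf (nat_lit 0) (nat_lit 167895563639) (nat_lit 152) (nat_lit 101170531908) (nat_lit 228) (nat_lit 164121672297) (nat_lit 26) (nat_lit 5) (nat_lit 28) (nat_lit 5) (nat_lit 29) (nat_lit 5) (nat_lit 332) (nat_lit 302) (nat_lit 146)) (XT.lf (nat_lit 0) (nat_lit 31065283977) (nat_lit 76) (nat_lit 380215548750) (nat_lit 152) (nat_lit 47297581608) (nat_lit 25) (nat_lit 5) (nat_lit 26) (nat_lit 5) (nat_lit 27) (nat_lit 4) (nat_lit 333) (nat_lit 302) (nat_lit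 145))))) (XT.nd (nat_lit 234) (nat_lit 228) (nat_lit 0) (XT.nd (nat_lit 78) (nat_lit 228) (nat_lit 0) (XT.lf (nat_lit 0) (nat_lit 82750754251) (nat_lit 152) (nat_lit 128177766986) (nat_lit 76) (nat_lit 274690084008) (nat_lit 24) (nat_lit 5) (nat_lit 26) (nat_lit 5) (nat_lit 25) (nat_lit 5) (nat_lit 334) (nat_lit 302) (nat_lit 144)) (XT.nd (nat_lit 78) (nat_lit 76) (nat_lit 0) (XT.lf (nat_lit 0) (nat_lit 200731289836) (nat_lit 152) (nat_lit 23970565898) (nat_lit 228) (nat_lit 289923588508) (nat_lit 22) (nat_lit 5) (nat_lit 24) (nat_lit 5) (nat_lit 25) (nat_lit 5) (nat_lit 335) (nat_lit 302) (nat_lit 143)) (XT.lf (nat_lit 0) (nat_lit 12266605348) (nat_lit 76) (nat_lit 370981387952) (nat_lit 152) (nat_lit 162442889759) (nat_lit 21) (nat_lit 5) (nat_lit 22) (nat_lit 5) (nat_lit 23) (nat_lit 4) (nat_lit 336) (nat_lit 302) (nat_lit 142)))) (XT.nd (nat_lit 78) (nat_lit 228) (nat_lit 0) (XT.lf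 (nat_lit 0) (nat_lit 375311483336) (nat_lit 76) (nat_lit 185031697860) (nat_lit 152) (nat_lit 18605107909) (nat_lit 21) (nat_lit 5) (nat_lit 22) (nat_lit 5) (nat_lit 23) (nat_lit 4) (nat_lit 337) (nat_lit 302) (nat_lit 141)) (XT.nd (nat_lit 78) (nat_lit 0) (nat_lit 0) (XT.lf (nat_lit 0) (nat_lit 135110172375) (nat_lit 228) (nat_lit 459588219261) (nat_lit 76) (nat_lit 19923801577) (nat_lit 18) (nat_lit 5) (nat_lit 21) (nat_lit 5) (nat_lit 19) (nat_lit 4) (nat_lit 338) (nat_lit 302) (nat_lit 140)) (XT.lf (nat_lit 0) (nat_lit 307204772970) (nat_lit 228) (nat_lit 106794498046) (nat_lit 76) (nat_lit 238798792106) (nat_lit 18) (nat_lit 5) (nat_lit 21) (nat_lit 5) (nat_lit 19) (nat_lit 4) (nat_lit 339) (nat_lit 302) (nat_lit 139))))))) (XT.nd (nat_lit 38298) (nat_lit 0) (nat_lit 2888) (XT.nd (nat_lit 37830) (nat_lit 0) (nat_lit 5472) (XT.nd (nat_lit 156) (nat_lit 228) (nat_lit 0) (XT.nd (nat_lit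 78) (nat_lit 0) (nat_lit 0) (XT.lf (nat_lit 0) (nat_lit 283289541983) (nat_lit 76) (nat_lit 214200223416) (nat_lit 152) (nat_lit 196317096105) (nat_lit 17) (nat_lit 5) (nat_lit 18) (nat_lit 5) (nat_lit 19) (nat_lit 4) (nat_lit 340) (nat_lit 302) (nat_lit 138)) (XT.lf (nat_lit 0) (nat_lit 704912940594) (nat_lit 152) (nat_lit 29664863110) (nat_lit 0) (nat_lit 3422790945) (nat_lit 17) (nat_lit 5) (nat_lit 19) (nat_lit 4) (nat_lit 17) (nat_lit 4) (nat_lit 341) (nat_lit 302) (nat_lit 137))) (XT.nd (nat_lit 78) (nat_lit 76) (nat_lit 0) (XT.lf (nat_lit 0) (nat_lit 148485191797) (nat_lit 152) (nat_lit 397095665234) (nat_lit 76) (nat_lit 239543764327) (nat_lit 15) (nat_lit 5) (nat_lit 17) (nat_lit 5) (nat_lit 16) (nat_lit 4) (nat_lit 342) (nat_lit 302) (nat_lit 136)) (XT.nd (nat_lit 37518) (nat_lit 0) (nat_lit 6080) (XT.lf (nat_lit 0) (nat_lit 3758591295) (nat_lit 76) (nat_lit 340265333935) (nat_lit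 152) (nat_lit 491937559489) (nat_lit 14) (nat_lit 5) (nat_lit 15) (nat_lit 5) (nat_lit 16) (nat_lit 4) (nat_lit 343) (nat_lit 302) (nat_lit 135)) (XT.lf (nat_lit 0) (nat_lit 25385609053) (nat_lit 0) (nat_lit 25385609053) (nat_lit 684) (nat_lit 5123357952) (nat_lit 94) (nat_lit 5) (nat_lit 94) (nat_lit 3) (nat_lit 103) (nat_lit 3) (nat_lit 303) (nat_lit 303) (nat_lit 174))))) (XT.nd (nat_lit 234) (nat_lit 608) (nat_lit 0) (XT.nd (nat_lit 78) (nat_lit 0) (nat_lit 0) (XT.lf (nat_lit 76) (nat_lit 21156157675) (nat_lit 0) (nat_lit 85279705175) (nat_lit 760) (nat_lit 9783255167) (nat_lit 95) (nat_lit 5) (nat_lit 94) (nat_lit 5) (nat_lit 104) (nat_lit 5) (nat_lit 304) (nat_lit 303) (nat_lit 173)) (XT.nd (nat_lit 78) (nat_lit 0) (nat_lit 76) (XT.lf (nat_lit 76) (nat_lit 111198258672) (nat_lit 0) (nat_lit 2426911462) (nat_lit 760) (nat_lit 7283092102) (nat_lit 95) (nat_lit 5) (nat_lit 94) (nat_lit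 5) (nat_lit 104) (nat_lit 5) (nat_lit 305) (nat_lit 303) (nat_lit 172)) (XT.lf (nat_lit 76) (nat_lit 83793490561) (nat_lit 0) (nat_lit 40262829266) (nat_lit 760) (nat_lit 1782884546) (nat_lit 96) (nat_lit 5) (nat_lit 95) (nat_lit 5) (nat_lit 105) (nat_lit 5) (nat_lit 306) (nat_lit 303) (nat_lit 171)))) (XT.nd (nat_lit 78) (nat_lit 0) (nat_lit 76) (XT.lf (nat_lit 0) (nat_lit 5894112283) (nat_lit 760) (nat_lit 76256726893) (nat_lit 836) (nat_lit 48917046765) (nat_lit 86) (nat_lit 5) (nat_lit 96) (nat_lit 5) (nat_lit 97) (nat_lit 5) (nat_lit 307) (nat_lit 303) (nat_lit 170)) (XT.nd (nat_lit 78) (nat_lit 0) (nat_lit 0) (XT.lf (nat_lit 0) (nat_lit 16056341098) (nat_lit 760) (nat_lit 112457991093) (nat_lit 836) (nat_lit 8102392708) (nat_lit 87) (nat_lit 5) (nat_lit 97) (nat_lit 5) (nat_lit 98) (nat_lit 5) (nat_lit 308) (nat_lit 303) (nat_lit 169)) (XT.lf (nat_lit 0) (nat_lit 29766290708) (nat_lit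 760) (nat_lit 8619995957) (nat_lit 836) (nat_lit 104086448147) (nat_lit 87) (nat_lit 5) (nat_lit 97) (nat_lit 5) (nat_lit 98) (nat_lit 5) (nat_lit 309) (nat_lit 303) (nat_lit 168)))))) (XT.nd (nat_lit 390) (nat_lit 1520) (nat_lit 0) (XT.nd (nat_lit 156) (nat_lit 684) (nat_lit 0) (XT.nd (nat_lit 78) (nat_lit 532) (nat_lit 0) (XT.lf (nat_lit 0) (nat_lit 47190021994) (nat_lit 760) (nat_lit 42713968575) (nat_lit 76) (nat_lit 58762386553) (nat_lit 88) (nat_lit 5) (nat_lit 98) (nat_lit 5) (nat_lit 89) (nat_lit 5) (nat_lit 310) (nat_lit 303) (nat_lit 167)) (XT.lf (nat_lit 0) (nat_lit 68132444745) (nat_lit 608) (nat_lit 78940720473) (nat_lit 76) (nat_lit 8176106776) (nat_lit 81) (nat_lit 5) (nat_lit 89) (nat_lit 5) (nat_lit 82) (nat_lit 5) (nat_lit 311) (nat_lit 303) (nat_lit 166))) (XT.nd (nat_lit 78) (nat_lit 304) (nat_lit 0) (XT.lf (nat_lit 0) (nat_lit 43934138316) (nat_lit 380) (nat_lit 49773771331)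 (nat_lit 456) (nat_lit 68503007153) (nat_lit 76) (nat_lit 5) (nat_lit 81) (nat_lit 5) (nat_lit 82) (nat_lit 5) (nat_lit 312) (nat_lit 303) (nat_lit 165)) (XT.nd (nat_lit 78) (nat_lit 0) (nat_lit 0) (XT.lf (nat_lit 0) (nat_lit 9205273424) (nat_lit 304) (nat_lit 114528584040) (nat_lit 380) (nat_lit 45875414148) (nat_lit 72) (nat_lit 5) (nat_lit 76) (nat_lit 5) (nat_lit 77) (nat_lit 5) (nat_lit 313) (nat_lit 303) (nat_lit 164)) (XT.lf (nat_lit 0) (nat_lit 150242040551) (nat_lit 304) (nat_lit 8805461290) (nat_lit 380) (nat_lit 18407712587) (nat_lit 72) (nat_lit 5) (nat_lit 76) (nat_lit 5) (nat_lit 77) (nat_lit 5) (nat_lit 314) (nat_lit 303) (nat_lit 163))))) (XT.nd (nat_lit 234) (nat_lit 532) (nat_lit 0) (XT.nd (nat_lit 78) (nat_lit 608) (nat_lit 0) (XT.lf (nat_lit 0) (nat_lit 14453912421) (nat_lit 380) (nat_lit 67197714920) (nat_lit 76) (nat_lit 104090577192) (nat_lit 67) (nat_lit 5) (nat_lit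 72) (nat_lit 5) (nat_lit 68) (nat_lit 5) (nat_lit 315) (nat_lit 303) (nat_lit 162)) (XT.nd (nat_lit 78) (nat_lit 304) (nat_lit 0) (XT.lf (nat_lit 0) (nat_lit 51776484880) (nat_lit 380) (nat_lit 110594570321) (nat_lit 76) (nat_lit 32182164190) (nat_lit 63) (nat_lit 5) (nat_lit 68) (nat_lit 5) (nat_lit 64) (nat_lit 5) (nat_lit 316) (nat_lit 303) (nat_lit 161)) (XT.lf (nat_lit 0) (nat_lit 45661586372) (nat_lit 304) (nat_lit 49702351127) (nat_lit 380) (nat_lit 108541224714) (nat_lit 59) (nat_lit 5) (nat_lit 63) (nat_lit 5) (nat_lit 64) (nat_lit 5) (nat_lit 317) (nat_lit 303) (nat_lit 160)))) (XT.nd (nat_lit 78) (nat_lit 304) (nat_lit 0) (XT.lf (nat_lit 0) (nat_lit 3411986987) (nat_lit 228) (nat_lit 142161207311) (nat_lit 304) (nat_lit 68275326223) (nat_lit 56) (nat_lit 5) (nat_lit 59) (nat_lit 5) (nat_lit 60) (nat_lit 5) (nat_lit 318) (nat_lit 303) (nat_lit 159)) (XT.nd (nat_lit 78) (nat_lit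 304) (nat_lit 0) (XT.lf (nat_lit 0) (nat_lit 182784632596) (nat_lit 228) (nat_lit 20595296164) (nat_lit 304) (nat_lit 21028382302) (nat_lit 56) (nat_lit 5) (nat_lit 59) (nat_lit 5) (nat_lit 60) (nat_lit 5) (nat_lit 319) (nat_lit 303) (nat_lit 158)) (XT.lf (nat_lit 0) (nat_lit 33072610765) (nat_lit 304) (nat_lit 92587476470) (nat_lit 76) (nat_lit 109927658739) (nat_lit 52) (nat_lit 5) (nat_lit 56) (nat_lit 5) (nat_lit 53) (nat_lit 5) (nat_lit 320) (nat_lit 303) (nat_lit 157))))))))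
noncomputable def xc114 : XT := (XT.nd (nat_lit 1638) (nat_lit 152) (nat_lit 0) (XT.nd (nat_lit 780) (nat_lit 1064) (nat_lit 0) (XT.nd (nat_lit 390) (nat_lit 684) (nat_lit 0) (XT.nd (nat_lit 156) (nat_lit 456) (nat_lit 0) (XT.nd (nat_lit 78) (nat_lit 228) (nat_lit 0) (XT.lf (nat_lit 0) (nat_lit 93482472783) (nat_lit 304) (nat_lit 148895197006) (nat_lit 76) (nat_lit 5130753778) (nat_lit 49) (nat_lit 5) (nat_lit 53) (nat_lit 5) (nat_lit 50) (nat_lit 5) (nat_lit 321) (nat_lit 303) (nat_lit 156)) (XT.lf (nat_lit 0) (nat_lit 47488388198) (nat_lit 228) (nat_lit 115736003155) (nat_lit 304) (nat_lit 96933400955) (nat_lit 46) (nat_lit 5) (nat_lit 49) (nat_lit 5) (nat_lit 50) (nat_lit 5) (nat_lit 322) (nat_lit 303) (nat_lit 155))) (XT.nd (nat_lit 78) (nat_lit 456) (nat_lit 0) (XT.lf (nat_lit 0) (nat_lit 241510028429) (nat_lit 304) (nat_lit 9161107174) (nat_lit 76) (nat_lit 22999756991) (nat_lit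 46) (nat_lit 5) (nat_lit 50) (nat_lit 5) (nat_lit 47) (nat_lit 5) (nat_lit 323) (nat_lit 303) (nat_lit 154)) (XT.nd (nat_lit 78) (nat_lit 228) (nat_lit 0) (XT.lf (nat_lit 0) (nat_lit 41988034965) (nat_lit 228) (nat_lit 73100658855) (nat_lit 76) (nat_lit 172876634910) (nat_lit 43) (nat_lit 5) (nat_lit 46) (nat_lit 5) (nat_lit 44) (nat_lit 5) (nat_lit 324) (nat_lit 303) (nat_lit 153)) (XT.lf (nat_lit 0) (nat_lit 124131433279) (nat_lit 304) (nat_lit 145521409312) (nat_lit 76) (nat_lit 33564648680) (nat_lit 40) (nat_lit 5) (nat_lit 44) (nat_lit 5) (nat_lit 41) (nat_lit 5) (nat_lit 325) (nat_lit 303) (nat_lit 152))))) (XT.nd (nat_lit 156) (nat_lit 380) (nat_lit 0) (XT.nd (nat_lit 78) (nat_lit 152) (nat_lit 0) (XT.lf (nat_lit 0) (nat_lit 90887973064) (nat_lit 152) (nat_lit 126611972611) (nat_lit 228) (nat_lit 101957199253) (nat_lit 38) (nat_lit 5) (nat_lit 40) (nat_lit 5) (nat_lit 41) (nat_lit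 5) (nat_lit 326) (nat_lit 303) (nat_lit 151)) (XT.lf (nat_lit 0) (nat_lit 14525254707) (nat_lit 152) (nat_lit 307050860646) (nat_lit 228) (nat_lit 15257946919) (nat_lit 36) (nat_lit 5) (nat_lit 38) (nat_lit 5) (nat_lit 39) (nat_lit 5) (nat_lit 327) (nat_lit 303) (nat_lit 150))) (XT.nd (nat_lit 78) (nat_lit 304) (nat_lit 0) (XT.lf (nat_lit 0) (nat_lit 82050188209) (nat_lit 228) (nat_lit 73596879168) (nat_lit 76) (nat_lit 199583806191) (nat_lit 35) (nat_lit 5) (nat_lit 38) (nat_lit 5) (nat_lit 36) (nat_lit 5) (nat_lit 328) (nat_lit 303) (nat_lit 149)) (XT.nd (nat_lit 78) (nat_lit 152) (nat_lit 0) (XT.lf (nat_lit 0) (nat_lit 189935137154) (nat_lit 228) (nat_lit 173914193566) (nat_lit 76) (nat_lit 11071256345) (nat_lit 33) (nat_lit 5) (nat_lit 36) (nat_lit 5) (nat_lit 34) (nat_lit 5) (nat_lit 329) (nat_lit 303) (nat_lit 148)) (XT.lf (nat_lit 0) (nat_lit 104792896767) (nat_lit 152) (nat_lit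 207221435963) (nat_lit 228) (nat_lit 83892972533) (nat_lit 31) (nat_lit 5) (nat_lit 33) (nat_lit 5) (nat_lit 34) (nat_lit 5) (nat_lit 330) (nat_lit 303) (nat_lit 147)))))) (XT.nd (nat_lit 390) (nat_lit 532) (nat_lit 0) (XT.nd (nat_lit 156) (nat_lit 304) (nat_lit 0) (XT.nd (nat_lit 78) (nat_lit 152) (nat_lit 0) (XT.lf (nat_lit 0) (nat_lit 27556526158) (nat_lit 228) (nat_lit 6859260940) (nat_lit 76) (nat_lit 383983485890) (nat_lit 30) (nat_lit 5) (nat_lit 33) (nat_lit 5) (nat_lit 31) (nat_lit 5) (nat_lit 331) (nat_lit 303) (nat_lit 146)) (XT.lf (nat_lit 0) (nat_lit 152318669399) (nat_lit 228) (nat_lit 136259111976) (nat_lit 76) (nat_lit 153677257863) (nat_lit 28) (nat_lit 5) (nat_lit 31) (nat_lit 5) (nat_lit 29) (nat_lit 5) (nat_lit 332) (nat_lit 303) (nat_lit 145))) (XT.nd (nat_lit 78) (nat_lit 152) (nat_lit 0) (XT.lf (nat_lit 0) (nat_lit 181332419460) (nat_lit 152) (nat_lit 109262072410)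 (nat_lit 228) (nat_lit 177248139651) (nat_lit 26) (nat_lit 5) (nat_lit 28) (nat_lit 5) (nat_lit 29) (nat_lit 5) (nat_lit 333) (nat_lit 303) (nat_lit 144)) (XT.nd (nat_lit 78) (nat_lit 76) (nat_lit 0) (XT.lf (nat_lit 0) (nat_lit 33555610476) (nat_lit 76) (nat_lit 410630677347) (nat_lit 152) (nat_lit 51078248088) (nat_lit 25) (nat_lit 5) (nat_lit 26) (nat_lit 5) (nat_lit 27) (nat_lit 4) (nat_lit 334) (nat_lit 303) (nat_lit 143)) (XT.lf (nat_lit 0) (nat_lit 89373628986) (nat_lit 152) (nat_lit 138427167673) (nat_lit 76) (nat_lit 296667154393) (nat_lit 24) (nat_lit 5) (nat_lit 26) (nat_lit 5) (nat_lit 25) (nat_lit 5) (nat_lit 335) (nat_lit 303) (nat_lit 142))))) (XT.nd (nat_lit 234) (nat_lit 304) (nat_lit 0) (XT.nd (nat_lit 78) (nat_lit 76) (nat_lit 0) (XT.lf (nat_lit 0) (nat_lit 216794404194) (nat_lit 152) (nat_lit 25886277914) (nat_lit 228) (nat_lit 313114662026) (nat_lit 22) (nat_lit 5)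 (nat_lit 24) (nat_lit 5) (nat_lit 25) (nat_lit 5) (nat_lit 336) (nat_lit 303) (nat_lit 141)) (XT.nd (nat_lit 78) (nat_lit 0) (nat_lit 0) (XT.lf (nat_lit 0) (nat_lit 13252445432) (nat_lit 76) (nat_lit 400657965270) (nat_lit 152) (nat_lit 175435612482) (nat_lit 21) (nat_lit 5) (nat_lit 22) (nat_lit 5) (nat_lit 23) (nat_lit 4) (nat_lit 337) (nat_lit 303) (nat_lit 140)) (XT.lf (nat_lit 0) (nat_lit 405340579463) (nat_lit 76) (nat_lit 199832443209) (nat_lit 152) (nat_lit 20091008711) (nat_lit 21) (nat_lit 5) (nat_lit 22) (nat_lit 5) (nat_lit 23) (nat_lit 4) (nat_lit 338) (nat_lit 303) (nat_lit 139)))) (XT.nd (nat_lit 78) (nat_lit 76) (nat_lit 0) (XT.lf (nat_lit 0) (nat_lit 145921325038) (nat_lit 228) (nat_lit 496351113372) (nat_lit 76) (nat_lit 21519411991) (nat_lit 18) (nat_lit 5) (nat_lit 21) (nat_lit 5) (nat_lit 19) (nat_lit 4) (nat_lit 339) (nat_lit 303) (nat_lit 138)) (XT.nd (nat_lit 78)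 (nat_lit 76) (nat_lit 0) (XT.lf (nat_lit 0) (nat_lit 331783320431) (nat_lit 228) (nat_lit 115334202862) (nat_lit 76) (nat_lit 257904275372) (nat_lit 18) (nat_lit 5) (nat_lit 21) (nat_lit 5) (nat_lit 19) (nat_lit 4) (nat_lit 340) (nat_lit 303) (nat_lit 137)) (XT.lf (nat_lit 0) (nat_lit 305956392835) (nat_lit 76) (nat_lit 231334616575) (nat_lit 152) (nat_lit 212020296740) (nat_lit 17) (nat_lit 5) (nat_lit 18) (nat_lit 5) (nat_lit 19) (nat_lit 4) (nat_lit 341) (nat_lit 303) (nat_lit 136))))))) (XT.nd (nat_lit 38376) (nat_lit 0) (nat_lit 2356) (XT.nd (nat_lit 37908) (nat_lit 0) (nat_lit 5016) (XT.nd (nat_lit 37674) (nat_lit 0) (nat_lit 6004) (XT.nd (nat_lit 78) (nat_lit 152) (nat_lit 0) (XT.lf (nat_lit 0) (nat_lit 761307909310) (nat_lit 152) (nat_lit 32034564750) (nat_lit 0) (nat_lit 3698070437) (nat_lit 17) (nat_lit 5) (nat_lit 19) (nat_lit 4) (nat_lit 17) (nat_lit 4) (nat_lit 342) (nat_lit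 303) (nat_lit 135)) (XT.lf (nat_lit 0) (nat_lit 160365880616) (nat_lit 152) (nat_lit 428859919729) (nat_lit 76) (nat_lit 258708696121) (nat_lit 15) (nat_lit 5) (nat_lit 17) (nat_lit 5) (nat_lit 16) (nat_lit 4) (nat_lit 343) (nat_lit 303) (nat_lit 134))) (XT.nd (nat_lit 78) (nat_lit 0) (nat_lit 0) (XT.lf (nat_lit 0) (nat_lit 27420228370) (nat_lit 0) (nat_lit 27420228370) (nat_lit 684) (nat_lit 5525294949) (nat_lit 94) (nat_lit 5) (nat_lit 94) (nat_lit 3) (nat_lit 103) (nat_lit 3) (nat_lit 304) (nat_lit 304) (nat_lit 172)) (XT.nd (nat_lit 78) (nat_lit 0) (nat_lit 0) (XT.lf (nat_lit 76) (nat_lit 22856723337) (nat_lit 0) (nat_lit 92107990721) (nat_lit 760) (nat_lit 10551209484) (nat_lit 95) (nat_lit 5) (nat_lit 94) (nat_lit 5) (nat_lit 104) (nat_lit 5) (nat_lit 305) (nat_lit 304) (nat_lit 171)) (XT.lf (nat_lit 76) (nat_lit 120101594411) (nat_lit 0) (nat_lit 2626535797) (nat_lit 760) (nat_lit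 7852122714) (nat_lit 95) (nat_lit 5) (nat_lit 94) (nat_lit 5) (nat_lit 104) (nat_lit 5) (nat_lit 306) (nat_lit 304) (nat_lit 170))))) (XT.nd (nat_lit 234) (nat_lit 380) (nat_lit 0) (XT.nd (nat_lit 78) (nat_lit 684) (nat_lit 0) (XT.lf (nat_lit 76) (nat_lit 90504842869) (nat_lit 0) (nat_lit 43488013834) (nat_lit 760) (nat_lit 1912861187) (nat_lit 96) (nat_lit 5) (nat_lit 95) (nat_lit 5) (nat_lit 105) (nat_lit 5) (nat_lit 307) (nat_lit 304) (nat_lit 169)) (XT.nd (nat_lit 78) (nat_lit 0) (nat_lit 76) (XT.lf (nat_lit 0) (nat_lit 6377051883) (nat_lit 760) (nat_lit 82348680228) (nat_lit 836) (nat_lit 52826995419) (nat_lit 86) (nat_lit 5) (nat_lit 96) (nat_lit 5) (nat_lit 97) (nat_lit 5) (nat_lit 308) (nat_lit 304) (nat_lit 168)) (XT.lf (nat_lit 0) (nat_lit 17351503232) (nat_lit 760) (nat_lit 121445827855) (nat_lit 836) (nat_lit 8748181696) (nat_lit 87) (nat_lit 5) (nat_lit 97) (nat_lit 5) (nat_lit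 98) (nat_lit 5) (nat_lit 309) (nat_lit 304) (nat_lit 167)))) (XT.nd (nat_lit 78) (nat_lit 456) (nat_lit 0) (XT.lf (nat_lit 0) (nat_lit 32157459562) (nat_lit 760) (nat_lit 9301445146) (nat_lit 836) (nat_lit 112411139528) (nat_lit 87) (nat_lit 5) (nat_lit 97) (nat_lit 5) (nat_lit 98) (nat_lit 5) (nat_lit 310) (nat_lit 304) (nat_lit 166)) (XT.nd (nat_lit 78) (nat_lit 532) (nat_lit 0) (XT.lf (nat_lit 0) (nat_lit 50974457490) (nat_lit 760) (nat_lit 46122789270) (nat_lit 76) (nat_lit 63461963956) (nat_lit 88) (nat_lit 5) (nat_lit 98) (nat_lit 5) (nat_lit 89) (nat_lit 5) (nat_lit 311) (nat_lit 304) (nat_lit 165)) (XT.lf (nat_lit 0) (nat_lit 73591702473) (nat_lit 608) (nat_lit 85247582906) (nat_lit 76) (nat_lit 8829481480) (nat_lit 81) (nat_lit 5) (nat_lit 89) (nat_lit 5) (nat_lit 82) (nat_lit 5) (nat_lit 312) (nat_lit 304) (nat_lit 164)))))) (XT.nd (nat_lit 390) (nat_lit 1292) (nat_lit 0) (XT.nd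 (nat_lit 156) (nat_lit 684) (nat_lit 0) (XT.nd (nat_lit 78) (nat_lit 304) (nat_lit 0) (XT.lf (nat_lit 0) (nat_lit 47456899740) (nat_lit 380) (nat_lit 53755788563) (nat_lit 456) (nat_lit 73974681782) (nat_lit 76) (nat_lit 5) (nat_lit 81) (nat_lit 5) (nat_lit 82) (nat_lit 5) (nat_lit 313) (nat_lit 304) (nat_lit 163)) (XT.lf (nat_lit 0) (nat_lit 9949780197) (nat_lit 304) (nat_lit 123690452909) (nat_lit 380) (nat_lit 49537385065) (nat_lit 72) (nat_lit 5) (nat_lit 76) (nat_lit 5) (nat_lit 77) (nat_lit 5) (nat_lit 314) (nat_lit 304) (nat_lit 162))) (XT.nd (nat_lit 78) (nat_lit 684) (nat_lit 0) (XT.lf (nat_lit 0) (nat_lit 162268889812) (nat_lit 304) (nat_lit 9509511290) (nat_lit 380) (nat_lit 19872864581) (nat_lit 72) (nat_lit 5) (nat_lit 76) (nat_lit 5) (nat_lit 77) (nat_lit 5) (nat_lit 315) (nat_lit 304) (nat_lit 161)) (XT.nd (nat_lit 78) (nat_lit 304) (nat_lit 0) (XT.lf (nat_lit 0) (nat_lit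 15617041014) (nat_lit 380) (nat_lit 72565792205) (nat_lit 76) (nat_lit 112418397246) (nat_lit 67) (nat_lit 5) (nat_lit 72) (nat_lit 5) (nat_lit 68) (nat_lit 5) (nat_lit 316) (nat_lit 304) (nat_lit 160)) (XT.lf (nat_lit 0) (nat_lit 55925045257) (nat_lit 380) (nat_lit 119434417410) (nat_lit 76) (nat_lit 34757683260) (nat_lit 63) (nat_lit 5) (nat_lit 68) (nat_lit 5) (nat_lit 64) (nat_lit 5) (nat_lit 317) (nat_lit 304) (nat_lit 159))))) (XT.nd (nat_lit 234) (nat_lit 760) (nat_lit 0) (XT.nd (nat_lit 78) (nat_lit 228) (nat_lit 0) (XT.lf (nat_lit 0) (nat_lit 49321896381) (nat_lit 304) (nat_lit 53677235822) (nat_lit 380) (nat_lit 117218130729) (nat_lit 59) (nat_lit 5) (nat_lit 63) (nat_lit 5) (nat_lit 64) (nat_lit 5) (nat_lit 318) (nat_lit 304) (nat_lit 158)) (XT.nd (nat_lit 78) (nat_lit 0) (nat_lit 0) (XT.lf (nat_lit 0) (nat_lit 3692287407) (nat_lit 228) (nat_lit 153532525253) (nat_lit 304) (nat_lit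 73731293701) (nat_lit 56) (nat_lit 5) (nat_lit 59) (nat_lit 5) (nat_lit 60) (nat_lit 5) (nat_lit 319) (nat_lit 304) (nat_lit 157)) (XT.lf (nat_lit 0) (nat_lit 197414200853) (nat_lit 228) (nat_lit 22241458151) (nat_lit 304) (nat_lit 22705043053) (nat_lit 56) (nat_lit 5) (nat_lit 59) (nat_lit 5) (nat_lit 60) (nat_lit 5) (nat_lit 320) (nat_lit 304) (nat_lit 156)))) (XT.nd (nat_lit 78) (nat_lit 456) (nat_lit 0) (XT.lf (nat_lit 0) (nat_lit 35723576137) (nat_lit 304) (nat_lit 99987555446) (nat_lit 76) (nat_lit 118723369988) (nat_lit 52) (nat_lit 5) (nat_lit 56) (nat_lit 5) (nat_lit 53) (nat_lit 5) (nat_lit 321) (nat_lit 304) (nat_lit 155)) (XT.nd (nat_lit 78) (nat_lit 228) (nat_lit 0) (XT.lf (nat_lit 0) (nat_lit 100965975660) (nat_lit 304) (nat_lit 160799971811) (nat_lit 76) (nat_lit 5542898936) (nat_lit 49) (nat_lit 5) (nat_lit 53) (nat_lit 5) (nat_lit 50) (nat_lit 5) (nat_lit 322) (nat_lit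 304) (nat_lit 154)) (XT.lf (nat_lit 0) (nat_lit 51294002909) (nat_lit 228) (nat_lit 124992983633) (nat_lit 304) (nat_lit 104683191593) (nat_lit 46) (nat_lit 5) (nat_lit 49) (nat_lit 5) (nat_lit 50) (nat_lit 5) (nat_lit 323) (nat_lit 304) (nat_lit 153))))))))
noncomputable def xc115 : XT := (XT.nd (nat_lit 39312) (nat_lit 0) (nat_lit 1596) (XT.nd (nat_lit 780) (nat_lit 836) (nat_lit 0) (XT.nd (nat_lit 390) (nat_lit 608) (nat_lit 0) (XT.nd (nat_lit 156) (nat_lit 532) (nat_lit 0) (XT.nd (nat_lit 78) (nat_lit 228) (nat_lit 0) (XT.lf (nat_lit 0) (nat_lit 260835158057) (nat_lit 304) (nat_lit 9887744311) (nat_lit 76) (nat_lit 24841440300) (nat_lit 46) (nat_lit 5) (nat_lit 50) (nat_lit 5) (nat_lit 47) (nat_lit 5) (nat_lit 324) (nat_lit 304) (nat_lit 152)) (XT.lf (nat_lit 0) (nat_lit 45351249599) (nat_lit 228) (nat_lit 78942589488) (nat_lit 76) (nat_lit 186708502971) (nat_lit 43) (nat_lit 5) (nat_lit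 46) (nat_lit 5) (nat_lit 44) (nat_lit 5) (nat_lit 325) (nat_lit 304) (nat_lit 151))) (XT.nd (nat_lit 78) (nat_lit 304) (nat_lit 0) (XT.lf (nat_lit 0) (nat_lit 134065931875) (nat_lit 304) (nat_lit 157157093965) (nat_lit 76) (nat_lit 36251661482) (nat_lit 40) (nat_lit 5) (nat_lit 44) (nat_lit 5) (nat_lit 41) (nat_lit 5) (nat_lit 326) (nat_lit 304) (nat_lit 150)) (XT.nd (nat_lit 78) (nat_lit 152) (nat_lit 0) (XT.lf (nat_lit 0) (nat_lit 98164777028) (nat_lit 152) (nat_lit 136738943154) (nat_lit 228) (nat_lit 110109803645) (nat_lit 38) (nat_lit 5) (nat_lit 40) (nat_lit 5) (nat_lit 41) (nat_lit 5) (nat_lit 327) (nat_lit 304) (nat_lit 149)) (XT.lf (nat_lit 0) (nat_lit 15692945258) (nat_lit 152) (nat_lit 331612875517) (nat_lit 228) (nat_lit 16474782194) (nat_lit 36) (nat_lit 5) (nat_lit 38) (nat_lit 5) (nat_lit 39) (nat_lit 5) (nat_lit 328) (nat_lit 304) (nat_lit 148))))) (XT.nd (nat_lit 156)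 (nat_lit 380) (nat_lit 0) (XT.nd (nat_lit 78) (nat_lit 152) (nat_lit 0) (XT.lf (nat_lit 0) (nat_lit 88617609598) (nat_lit 228) (nat_lit 79479263647) (nat_lit 76) (nat_lit 215552296826) (nat_lit 35) (nat_lit 5) (nat_lit 38) (nat_lit 5) (nat_lit 36) (nat_lit 5) (nat_lit 329) (nat_lit 304) (nat_lit 147)) (XT.lf (nat_lit 0) (nat_lit 205133211915) (nat_lit 228) (nat_lit 187822061485) (nat_lit 76) (nat_lit 11958794603) (nat_lit 33) (nat_lit 5) (nat_lit 36) (nat_lit 5) (nat_lit 34) (nat_lit 5) (nat_lit 330) (nat_lit 304) (nat_lit 146))) (XT.nd (nat_lit 78) (nat_lit 228) (nat_lit 0) (XT.lf (nat_lit 0) (nat_lit 113181367152) (nat_lit 152) (nat_lit 223797212889) (nat_lit 228) (nat_lit 90601151980) (nat_lit 31) (nat_lit 5) (nat_lit 33) (nat_lit 5) (nat_lit 34) (nat_lit 5) (nat_lit 331) (nat_lit 304) (nat_lit 145)) (XT.nd (nat_lit 78) (nat_lit 152) (nat_lit 0) (XT.lf (nat_lit 0) (nat_lit 29763968684)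 (nat_lit 228) (nat_lit 7403237524) (nat_lit 76) (nat_lit 414703860279) (nat_lit 30) (nat_lit 5) (nat_lit 33) (nat_lit 5) (nat_lit 31) (nat_lit 5) (nat_lit 332) (nat_lit 304) (nat_lit 144)) (XT.lf (nat_lit 0) (nat_lit 164506966029) (nat_lit 228) (nat_lit 147155170607) (nat_lit 76) (nat_lit 165973163442) (nat_lit 28) (nat_lit 5) (nat_lit 31) (nat_lit 5) (nat_lit 29) (nat_lit 5) (nat_lit 333) (nat_lit 304) (nat_lit 143)))))) (XT.nd (nat_lit 390) (nat_lit 304) (nat_lit 0) (XT.nd (nat_lit 156) (nat_lit 304) (nat_lit 0) (XT.nd (nat_lit 78) (nat_lit 76) (nat_lit 0) (XT.lf (nat_lit 0) (nat_lit 195843480378) (nat_lit 152) (nat_lit 118001236032) (nat_lit 228) (nat_lit 191425190386) (nat_lit 26) (nat_lit 5) (nat_lit 28) (nat_lit 5) (nat_lit 29) (nat_lit 5) (nat_lit 334) (nat_lit 304) (nat_lit 142)) (XT.lf (nat_lit 0) (nat_lit 36244434983) (nat_lit 76) (nat_lit 443479318004) (nat_lit 152) (nat_lit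 55161815850) (nat_lit 25) (nat_lit 5) (nat_lit 26) (nat_lit 5) (nat_lit 27) (nat_lit 4) (nat_lit 335) (nat_lit 304) (nat_lit 141))) (XT.nd (nat_lit 78) (nat_lit 228) (nat_lit 0) (XT.lf (nat_lit 0) (nat_lit 96525932195) (nat_lit 152) (nat_lit 149497208138) (nat_lit 76) (nat_lit 320402124537) (nat_lit 24) (nat_lit 5) (nat_lit 26) (nat_lit 5) (nat_lit 25) (nat_lit 5) (nat_lit 336) (nat_lit 304) (nat_lit 140)) (XT.nd (nat_lit 78) (nat_lit 76) (nat_lit 0) (XT.lf (nat_lit 0) (nat_lit 234141909866) (nat_lit 152) (nat_lit 27955522691) (nat_lit 228) (nat_lit 338161422812) (nat_lit 22) (nat_lit 5) (nat_lit 24) (nat_lit 5) (nat_lit 25) (nat_lit 5) (nat_lit 337) (nat_lit 304) (nat_lit 139)) (XT.lf (nat_lit 0) (nat_lit 14316509085) (nat_lit 76) (nat_lit 432708944640) (nat_lit 152) (nat_lit 189468139415) (nat_lit 21) (nat_lit 5) (nat_lit 22) (nat_lit 5) (nat_lit 23) (nat_lit 4) (nat_lit 338) (nat_lit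 304) (nat_lit 138))))) (XT.nd (nat_lit 234) (nat_lit 76) (nat_lit 0) (XT.nd (nat_lit 78) (nat_lit 228) (nat_lit 0) (XT.lf (nat_lit 0) (nat_lit 437771407318) (nat_lit 76) (nat_lit 215817503617) (nat_lit 152) (nat_lit 21696139347) (nat_lit 21) (nat_lit 5) (nat_lit 22) (nat_lit 5) (nat_lit 23) (nat_lit 4) (nat_lit 339) (nat_lit 304) (nat_lit 137)) (XT.nd (nat_lit 78) (nat_lit 0) (nat_lit 0) (XT.lf (nat_lit 0) (nat_lit 157597036248) (nat_lit 228) (nat_lit 536055632972) (nat_lit 76) (nat_lit 23242427818) (nat_lit 18) (nat_lit 5) (nat_lit 21) (nat_lit 5) (nat_lit 19) (nat_lit 4) (nat_lit 340) (nat_lit 304) (nat_lit 136)) (XT.lf (nat_lit 0) (nat_lit 358327842739) (nat_lit 228) (nat_lit 124557634025) (nat_lit 76) (nat_lit 278537971908) (nat_lit 18) (nat_lit 5) (nat_lit 21) (nat_lit 5) (nat_lit 19) (nat_lit 4) (nat_lit 341) (nat_lit 304) (nat_lit 135)))) (XT.nd (nat_lit 37752) (nat_lit 0) (nat_lit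 5852) (XT.lf (nat_lit 0) (nat_lit 330436065692) (nat_lit 76) (nat_lit 249839992970) (nat_lit 152) (nat_lit 228980062580) (nat_lit 17) (nat_lit 5) (nat_lit 18) (nat_lit 5) (nat_lit 19) (nat_lit 4) (nat_lit 342) (nat_lit 304) (nat_lit 134)) (XT.nd (nat_lit 78) (nat_lit 0) (nat_lit 0) (XT.lf (nat_lit 0) (nat_lit 29617079314) (nat_lit 0) (nat_lit 29617079314) (nat_lit 684) (nat_lit 5960518443) (nat_lit 94) (nat_lit 5) (nat_lit 94) (nat_lit 3) (nat_lit 103) (nat_lit 3) (nat_lit 305) (nat_lit 305) (nat_lit 170)) (XT.lf (nat_lit 76) (nat_lit 24692182542) (nat_lit 0) (nat_lit 99481696107) (nat_lit 760) (nat_lit 11382698136) (nat_lit 95) (nat_lit 5) (nat_lit 94) (nat_lit 5) (nat_lit 104) (nat_lit 5) (nat_lit 306) (nat_lit 305) (nat_lit 169))))))) (XT.nd (nat_lit 858) (nat_lit 2204) (nat_lit 0) (XT.nd (nat_lit 390) (nat_lit 1444) (nat_lit 0) (XT.nd (nat_lit 156) (nat_lit 608) (nat_lit 0) (XT.nd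 (nat_lit 78) (nat_lit 0) (nat_lit 76) (XT.lf (nat_lit 76) (nat_lit 129716130609) (nat_lit 0) (nat_lit 2841349520) (nat_lit 760) (nat_lit 8468618358) (nat_lit 95) (nat_lit 5) (nat_lit 94) (nat_lit 5) (nat_lit 104) (nat_lit 5) (nat_lit 307) (nat_lit 305) (nat_lit 168)) (XT.lf (nat_lit 76) (nat_lit 97751980181) (nat_lit 0) (nat_lit 46970619949) (nat_lit 760) (nat_lit 2055041212) (nat_lit 96) (nat_lit 5) (nat_lit 95) (nat_lit 5) (nat_lit 105) (nat_lit 5) (nat_lit 308) (nat_lit 305) (nat_lit 167))) (XT.nd (nat_lit 78) (nat_lit 0) (nat_lit 76) (XT.lf (nat_lit 0) (nat_lit 6896998799) (nat_lit 760) (nat_lit 88929214549) (nat_lit 836) (nat_lit 57050227166) (nat_lit 86) (nat_lit 5) (nat_lit 96) (nat_lit 5) (nat_lit 97) (nat_lit 5) (nat_lit 309) (nat_lit 305) (nat_lit 166)) (XT.nd (nat_lit 78) (nat_lit 0) (nat_lit 0) (XT.lf (nat_lit 0) (nat_lit 18748758304) (nat_lit 760) (nat_lit 131153947336) (nat_lit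 836) (nat_lit 9445976536) (nat_lit 87) (nat_lit 5) (nat_lit 97) (nat_lit 5) (nat_lit 98) (nat_lit 5) (nat_lit 310) (nat_lit 305) (nat_lit 165)) (XT.lf (nat_lit 0) (nat_lit 34738514488) (nat_lit 760) (nat_lit 10038573029) (nat_lit 836) (nat_lit 121402123565) (nat_lit 87) (nat_lit 5) (nat_lit 97) (nat_lit 5) (nat_lit 98) (nat_lit 5) (nat_lit 311) (nat_lit 305) (nat_lit 164))))) (XT.nd (nat_lit 234) (nat_lit 684) (nat_lit 0) (XT.nd (nat_lit 78) (nat_lit 912) (nat_lit 0) (XT.lf (nat_lit 0) (nat_lit 55060330529) (nat_lit 760) (nat_lit 49805499251) (nat_lit 76) (nat_lit 68537709206) (nat_lit 88) (nat_lit 5) (nat_lit 98) (nat_lit 5) (nat_lit 89) (nat_lit 5) (nat_lit 312) (nat_lit 305) (nat_lit 163)) (XT.nd (nat_lit 78) (nat_lit 380) (nat_lit 0) (XT.lf (nat_lit 0) (nat_lit 79486465067) (nat_lit 608) (nat_lit 92060192004) (nat_lit 76) (nat_lit 9535227998) (nat_lit 81) (nat_lit 5) (nat_lit 89) (nat_lit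 5) (nat_lit 82) (nat_lit 5) (nat_lit 313) (nat_lit 305) (nat_lit 162)) (XT.lf (nat_lit 0) (nat_lit 51260336458) (nat_lit 380) (nat_lit 58056350692) (nat_lit 456) (nat_lit 79885312409) (nat_lit 76) (nat_lit 5) (nat_lit 81) (nat_lit 5) (nat_lit 82) (nat_lit 5) (nat_lit 314) (nat_lit 305) (nat_lit 161)))) (XT.nd (nat_lit 78) (nat_lit 380) (nat_lit 0) (XT.lf (nat_lit 0) (nat_lit 10752694110) (nat_lit 304) (nat_lit 133585330898) (nat_lit 380) (nat_lit 53493463820) (nat_lit 72) (nat_lit 5) (nat_lit 76) (nat_lit 5) (nat_lit 77) (nat_lit 5) (nat_lit 315) (nat_lit 305) (nat_lit 160)) (XT.nd (nat_lit 78) (nat_lit 380) (nat_lit 0) (XT.lf (nat_lit 0) (nat_lit 175256819050) (nat_lit 304) (nat_lit 10269940487) (nat_lit 380) (nat_lit 21456293701) (nat_lit 72) (nat_lit 5) (nat_lit 76) (nat_lit 5) (nat_lit 77) (nat_lit 5) (nat_lit 316) (nat_lit 305) (nat_lit 159)) (XT.lf (nat_lit 0) (nat_lit 16872247574)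 (nat_lit 380) (nat_lit 78364419858) (nat_lit 76) (nat_lit 121412361034) (nat_lit 67) (nat_lit 5) (nat_lit 72) (nat_lit 5) (nat_lit 68) (nat_lit 5) (nat_lit 317) (nat_lit 305) (nat_lit 158)))))) (XT.nd (nat_lit 390) (nat_lit 1064) (nat_lit 0) (XT.nd (nat_lit 156) (nat_lit 532) (nat_lit 0) (XT.nd (nat_lit 78) (nat_lit 304) (nat_lit 0) (XT.lf (nat_lit 0) (nat_lit 60404571501) (nat_lit 380) (nat_lit 128982553402) (nat_lit 76) (nat_lit 37539108907) (nat_lit 63) (nat_lit 5) (nat_lit 68) (nat_lit 5) (nat_lit 64) (nat_lit 5) (nat_lit 318) (nat_lit 305) (nat_lit 157)) (XT.lf (nat_lit 0) (nat_lit 53273977908) (nat_lit 304) (nat_lit 57970297237) (nat_lit 380) (nat_lit 126590101110) (nat_lit 59) (nat_lit 5) (nat_lit 63) (nat_lit 5) (nat_lit 64) (nat_lit 5) (nat_lit 319) (nat_lit 305) (nat_lit 156))) (XT.nd (nat_lit 78) (nat_lit 304) (nat_lit 0) (XT.lf (nat_lit 0) (nat_lit 3993964520) (nat_lit 228)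 (nat_lit 165813773842) (nat_lit 304) (nat_lit 79624602907) (nat_lit 56) (nat_lit 5) (nat_lit 59) (nat_lit 5) (nat_lit 60) (nat_lit 5) (nat_lit 320) (nat_lit 305) (nat_lit 155)) (XT.nd (nat_lit 78) (nat_lit 304) (nat_lit 0) (XT.lf (nat_lit 0) (nat_lit 213213164810) (nat_lit 228) (nat_lit 24019521625) (nat_lit 304) (nat_lit 24516636970) (nat_lit 56) (nat_lit 5) (nat_lit 59) (nat_lit 5) (nat_lit 60) (nat_lit 5) (nat_lit 321) (nat_lit 305) (nat_lit 154)) (XT.lf (nat_lit 0) (nat_lit 38585883105) (nat_lit 304) (nat_lit 107980627832) (nat_lit 76) (nat_lit 128222524353) (nat_lit 52) (nat_lit 5) (nat_lit 56) (nat_lit 5) (nat_lit 53) (nat_lit 5) (nat_lit 322) (nat_lit 305) (nat_lit 153))))) (XT.nd (nat_lit 234) (nat_lit 608) (nat_lit 0) (XT.nd (nat_lit 78) (nat_lit 228) (nat_lit 0) (XT.lf (nat_lit 0) (nat_lit 109047459007) (nat_lit 304) (nat_lit 173658104539) (nat_lit 76) (nat_lit 5987775344) (nat_lit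 49) (nat_lit 5) (nat_lit 53) (nat_lit 5) (nat_lit 50) (nat_lit 5) (nat_lit 323) (nat_lit 305) (nat_lit 152)) (XT.nd (nat_lit 78) (nat_lit 0) (nat_lit 0) (XT.lf (nat_lit 0) (nat_lit 55403133272) (nat_lit 228) (nat_lit 134990793574) (nat_lit 304) (nat_lit 113053661873) (nat_lit 46) (nat_lit 5) (nat_lit 49) (nat_lit 5) (nat_lit 50) (nat_lit 5) (nat_lit 324) (nat_lit 305) (nat_lit 151)) (XT.lf (nat_lit 0) (nat_lit 281705680711) (nat_lit 304) (nat_lit 10673404257) (nat_lit 76) (nat_lit 26830215357) (nat_lit 46) (nat_lit 5) (nat_lit 50) (nat_lit 5) (nat_lit 47) (nat_lit 5) (nat_lit 325) (nat_lit 305) (nat_lit 150)))) (XT.nd (nat_lit 78) (nat_lit 380) (nat_lit 0) (XT.lf (nat_lit 0) (nat_lit 48982926244) (nat_lit 228) (nat_lit 85252747954) (nat_lit 76) (nat_lit 201646672636) (nat_lit 43) (nat_lit 5) (nat_lit 46) (nat_lit 5) (nat_lit 44) (nat_lit 5) (nat_lit 326) (nat_lit 305) (nat_lit 149)) (XT.nd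 (nat_lit 78) (nat_lit 152) (nat_lit 0) (XT.lf (nat_lit 0) (nat_lit 144794622005) (nat_lit 304) (nat_lit 169724493365) (nat_lit 76) (nat_lit 39153372683) (nat_lit 40) (nat_lit 5) (nat_lit 44) (nat_lit 5) (nat_lit 41) (nat_lit 5) (nat_lit 327) (nat_lit 305) (nat_lit 148)) (XT.lf (nat_lit 0) (nat_lit 106022902707) (nat_lit 152) (nat_lit 147676354845) (nat_lit 228) (nat_lit 118915182974) (nat_lit 38) (nat_lit 5) (nat_lit 40) (nat_lit 5) (nat_lit 41) (nat_lit 5) (nat_lit 328) (nat_lit 305) (nat_lit 147))))))))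
noncomputable def xc116 : XT := (XT.nd (nat_lit 39390) (nat_lit 0) (nat_lit 912) (XT.nd (nat_lit 780) (nat_lit 304) (nat_lit 0) (XT.nd (nat_lit 390) (nat_lit 608) (nat_lit 0) (XT.nd (nat_lit 156) (nat_lit 380) (nat_lit 0) (XT.nd (nat_lit 78) (nat_lit 76) (nat_lit 0) (XT.lf (nat_lit 0) (nat_lit 16953242139) (nat_lit 152) (nat_lit 358140144601) (nat_lit 228) (nat_lit 17789506472) (nat_lit 36) (nat_lit 5) (nat_lit 38) (nat_lit 5) (nat_lit 39) (nat_lit 5) (nat_lit 329) (nat_lit 305) (nat_lit 146)) (XT.lf (nat_lit 0) (nat_lit 95709938747) (nat_lit 228) (nat_lit 85833004383) (nat_lit 76) (nat_lit 232798011900) (nat_lit 35) (nat_lit 5) (nat_lit 38) (nat_lit 5) (nat_lit 36) (nat_lit 5) (nat_lit 330) (nat_lit 305) (nat_lit 145))) (XT.nd (nat_lit 78) (nat_lit 228) (nat_lit 0) (XT.lf (nat_lit 0) (nat_lit 221546667040) (nat_lit 228) (nat_lit 202843310315) (nat_lit 76) (nat_lit 12917073745) (nat_lit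 33) (nat_lit 5) (nat_lit 36) (nat_lit 5) (nat_lit 34) (nat_lit 5) (nat_lit 331) (nat_lit 305) (nat_lit 144)) (XT.nd (nat_lit 78) (nat_lit 76) (nat_lit 0) (XT.lf (nat_lit 0) (nat_lit 122240196350) (nat_lit 152) (nat_lit 241699328440) (nat_lit 228) (nat_lit 97846450623) (nat_lit 31) (nat_lit 5) (nat_lit 33) (nat_lit 5) (nat_lit 34) (nat_lit 5) (nat_lit 332) (nat_lit 305) (nat_lit 143)) (XT.lf (nat_lit 0) (nat_lit 32147589980) (nat_lit 228) (nat_lit 7991411914) (nat_lit 76) (nat_lit 447881622735) (nat_lit 30) (nat_lit 5) (nat_lit 33) (nat_lit 5) (nat_lit 31) (nat_lit 5) (nat_lit 333) (nat_lit 305) (nat_lit 142))))) (XT.nd (nat_lit 156) (nat_lit 304) (nat_lit 0) (XT.nd (nat_lit 78) (nat_lit 152) (nat_lit 0) (XT.lf (nat_lit 0) (nat_lit 177669926500) (nat_lit 228) (nat_lit 158923580202) (nat_lit 76) (nat_lit 179252495384) (nat_lit 28) (nat_lit 5) (nat_lit 31) (nat_lit 5) (nat_lit 29) (nat_lit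 5) (nat_lit 334) (nat_lit 305) (nat_lit 141)) (XT.lf (nat_lit 0) (nat_lit 211514788850) (nat_lit 152) (nat_lit 127439789845) (nat_lit 228) (nat_lit 206736804693) (nat_lit 26) (nat_lit 5) (nat_lit 28) (nat_lit 5) (nat_lit 29) (nat_lit 5) (nat_lit 335) (nat_lit 305) (nat_lit 140))) (XT.nd (nat_lit 78) (nat_lit 228) (nat_lit 0) (XT.lf (nat_lit 0) (nat_lit 39147741214) (nat_lit 76) (nat_lit 478956108634) (nat_lit 152) (nat_lit 59572453089) (nat_lit 25) (nat_lit 5) (nat_lit 26) (nat_lit 5) (nat_lit 27) (nat_lit 4) (nat_lit 336) (nat_lit 305) (nat_lit 139)) (XT.nd (nat_lit 78) (nat_lit 152) (nat_lit 0) (XT.lf (nat_lit 0) (nat_lit 104250075436) (nat_lit 152) (nat_lit 161453441451) (nat_lit 76) (nat_lit 346035664349) (nat_lit 24) (nat_lit 5) (nat_lit 26) (nat_lit 5) (nat_lit 25) (nat_lit 5) (nat_lit 337) (nat_lit 305) (nat_lit 138)) (XT.lf (nat_lit 0) (nat_lit 252876652004) (nat_lit 152) (nat_lit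 30190543505) (nat_lit 228) (nat_lit 365212268584) (nat_lit 22) (nat_lit 5) (nat_lit 24) (nat_lit 5) (nat_lit 25) (nat_lit 5) (nat_lit 338) (nat_lit 305) (nat_lit 137)))))) (XT.nd (nat_lit 38142) (nat_lit 0) (nat_lit 5168) (XT.nd (nat_lit 156) (nat_lit 228) (nat_lit 0) (XT.nd (nat_lit 78) (nat_lit 0) (nat_lit 0) (XT.lf (nat_lit 0) (nat_lit 15465146014) (nat_lit 76) (nat_lit 467324238871) (nat_lit 152) (nat_lit 204623599771) (nat_lit 21) (nat_lit 5) (nat_lit 22) (nat_lit 5) (nat_lit 23) (nat_lit 4) (nat_lit 339) (nat_lit 305) (nat_lit 136)) (XT.lf (nat_lit 0) (nat_lit 472796190461) (nat_lit 76) (nat_lit 233081587851) (nat_lit 152) (nat_lit 23429987164) (nat_lit 21) (nat_lit 5) (nat_lit 22) (nat_lit 5) (nat_lit 23) (nat_lit 4) (nat_lit 340) (nat_lit 305) (nat_lit 135))) (XT.nd (nat_lit 78) (nat_lit 0) (nat_lit 0) (XT.lf (nat_lit 0) (nat_lit 170206518290) (nat_lit 228) (nat_lit 578937023364)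 (nat_lit 76) (nat_lit 25103076217) (nat_lit 18) (nat_lit 5) (nat_lit 21) (nat_lit 5) (nat_lit 19) (nat_lit 4) (nat_lit 341) (nat_lit 305) (nat_lit 134)) (XT.nd (nat_lit 37830) (nat_lit 0) (nat_lit 5776) (XT.lf (nat_lit 0) (nat_lit 386995661956) (nat_lit 228) (nat_lit 134519411187) (nat_lit 76) (nat_lit 300822170933) (nat_lit 18) (nat_lit 5) (nat_lit 21) (nat_lit 5) (nat_lit 19) (nat_lit 4) (nat_lit 342) (nat_lit 305) (nat_lit 133)) (XT.lf (nat_lit 0) (nat_lit 31989217156) (nat_lit 0) (nat_lit 31989217156) (nat_lit 684) (nat_lit 6431529927) (nat_lit 94) (nat_lit 5) (nat_lit 94) (nat_lit 3) (nat_lit 103) (nat_lit 3) (nat_lit 306) (nat_lit 306) (nat_lit 168))))) (XT.nd (nat_lit 234) (nat_lit 608) (nat_lit 0) (XT.nd (nat_lit 78) (nat_lit 0) (nat_lit 0) (XT.lf (nat_lit 76) (nat_lit 26673491077) (nat_lit 0) (nat_lit 107444575184) (nat_lit 760) (nat_lit 12282504567) (nat_lit 95) (nat_lit 5) (nat_lit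 94) (nat_lit 5) (nat_lit 104) (nat_lit 5) (nat_lit 307) (nat_lit 306) (nat_lit 167)) (XT.nd (nat_lit 78) (nat_lit 0) (nat_lit 76) (XT.lf (nat_lit 76) (nat_lit 140098915439) (nat_lit 0) (nat_lit 3072679138) (nat_lit 760) (nat_lit 9136099105) (nat_lit 95) (nat_lit 5) (nat_lit 94) (nat_lit 5) (nat_lit 104) (nat_lit 5) (nat_lit 308) (nat_lit 306) (nat_lit 166)) (XT.lf (nat_lit 76) (nat_lit 105577925532) (nat_lit 0) (nat_lit 50731325966) (nat_lit 760) (nat_lit 2210143351) (nat_lit 96) (nat_lit 5) (nat_lit 95) (nat_lit 5) (nat_lit 105) (nat_lit 5) (nat_lit 309) (nat_lit 306) (nat_lit 165)))) (XT.nd (nat_lit 78) (nat_lit 0) (nat_lit 76) (XT.lf (nat_lit 0) (nat_lit 7457145848) (nat_lit 760) (nat_lit 96037241616) (nat_lit 836) (nat_lit 61611735148) (nat_lit 86) (nat_lit 5) (nat_lit 96) (nat_lit 5) (nat_lit 97) (nat_lit 5) (nat_lit 310) (nat_lit 306) (nat_lit 164)) (XT.nd (nat_lit 78) (nat_lit 0)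 (nat_lit 0) (XT.lf (nat_lit 0) (nat_lit 20256490598) (nat_lit 760) (nat_lit 141639793004) (nat_lit 836) (nat_lit 10199888802) (nat_lit 87) (nat_lit 5) (nat_lit 97) (nat_lit 5) (nat_lit 98) (nat_lit 5) (nat_lit 311) (nat_lit 306) (nat_lit 163)) (XT.lf (nat_lit 0) (nat_lit 37524847156) (nat_lit 760) (nat_lit 10835668021) (nat_lit 836) (nat_lit 131112658398) (nat_lit 87) (nat_lit 5) (nat_lit 97) (nat_lit 5) (nat_lit 98) (nat_lit 5) (nat_lit 312) (nat_lit 306) (nat_lit 162))))))) (XT.nd (nat_lit 858) (nat_lit 1672) (nat_lit 0) (XT.nd (nat_lit 390) (nat_lit 1520) (nat_lit 0) (XT.nd (nat_lit 156) (nat_lit 684) (nat_lit 0) (XT.nd (nat_lit 78) (nat_lit 532) (nat_lit 0) (XT.lf (nat_lit 0) (nat_lit 59471944043) (nat_lit 760) (nat_lit 53783840802) (nat_lit 76) (nat_lit 74019686963) (nat_lit 88) (nat_lit 5) (nat_lit 98) (nat_lit 5) (nat_lit 89) (nat_lit 5) (nat_lit 313) (nat_lit 306) (nat_lit 161))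 (XT.lf (nat_lit 0) (nat_lit 85851749211) (nat_lit 608) (nat_lit 99418836638) (nat_lit 76) (nat_lit 10297521546) (nat_lit 81) (nat_lit 5) (nat_lit 89) (nat_lit 5) (nat_lit 82) (nat_lit 5) (nat_lit 314) (nat_lit 306) (nat_lit 160))) (XT.nd (nat_lit 78) (nat_lit 304) (nat_lit 0) (XT.lf (nat_lit 0) (nat_lit 55367065929) (nat_lit 380) (nat_lit 62700943662) (nat_lit 456) (nat_lit 86269841177) (nat_lit 76) (nat_lit 5) (nat_lit 81) (nat_lit 5) (nat_lit 82) (nat_lit 5) (nat_lit 315) (nat_lit 306) (nat_lit 159)) (XT.nd (nat_lit 78) (nat_lit 0) (nat_lit 0) (XT.lf (nat_lit 0) (nat_lit 11618852281) (nat_lit 304) (nat_lit 144271850235) (nat_lit 380) (nat_lit 57767014957) (nat_lit 72) (nat_lit 5) (nat_lit 76) (nat_lit 5) (nat_lit 77) (nat_lit 5) (nat_lit 316) (nat_lit 306) (nat_lit 158)) (XT.lf (nat_lit 0) (nat_lit 189282867020) (nat_lit 304) (nat_lit 11091251341) (nat_lit 380) (nat_lit 23167310189)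 (nat_lit 72) (nat_lit 5) (nat_lit 76) (nat_lit 5) (nat_lit 77) (nat_lit 5) (nat_lit 317) (nat_lit 306) (nat_lit 157))))) (XT.nd (nat_lit 234) (nat_lit 532) (nat_lit 0) (XT.nd (nat_lit 78) (nat_lit 608) (nat_lit 0) (XT.lf (nat_lit 0) (nat_lit 18227037048) (nat_lit 380) (nat_lit 84627884383) (nat_lit 76) (nat_lit 131125771735) (nat_lit 67) (nat_lit 5) (nat_lit 72) (nat_lit 5) (nat_lit 68) (nat_lit 5) (nat_lit 318) (nat_lit 306) (nat_lit 156)) (XT.nd (nat_lit 78) (nat_lit 304) (nat_lit 0) (XT.lf (nat_lit 0) (nat_lit 65241671980) (nat_lit 380) (nat_lit 139295484319) (nat_lit 76) (nat_lit 40542932910) (nat_lit 63) (nat_lit 5) (nat_lit 68) (nat_lit 5) (nat_lit 64) (nat_lit 5) (nat_lit 319) (nat_lit 306) (nat_lit 155)) (XT.lf (nat_lit 0) (nat_lit 57541322938) (nat_lit 304) (nat_lit 62606962982) (nat_lit 380) (nat_lit 136712610915) (nat_lit 59) (nat_lit 5) (nat_lit 63) (nat_lit 5) (nat_lit 64)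 (nat_lit 5) (nat_lit 320) (nat_lit 306) (nat_lit 154)))) (XT.nd (nat_lit 78) (nat_lit 304) (nat_lit 0) (XT.lf (nat_lit 0) (nat_lit 4318877874) (nat_lit 228) (nat_lit 179077715400) (nat_lit 304) (nat_lit 85990117873) (nat_lit 56) (nat_lit 5) (nat_lit 59) (nat_lit 5) (nat_lit 60) (nat_lit 5) (nat_lit 321) (nat_lit 306) (nat_lit 153)) (XT.nd (nat_lit 78) (nat_lit 304) (nat_lit 0) (XT.lf (nat_lit 0) (nat_lit 230275214470) (nat_lit 228) (nat_lit 25940008957) (nat_lit 304) (nat_lit 26473844532) (nat_lit 56) (nat_lit 5) (nat_lit 59) (nat_lit 5) (nat_lit 60) (nat_lit 5) (nat_lit 322) (nat_lit 306) (nat_lit 152)) (XT.lf (nat_lit 0) (nat_lit 41676543943) (nat_lit 304) (nat_lit 116613992283) (nat_lit 76) (nat_lit 138481427781) (nat_lit 52) (nat_lit 5) (nat_lit 56) (nat_lit 5) (nat_lit 53) (nat_lit 5) (nat_lit 323) (nat_lit 306) (nat_lit 151)))))) (XT.nd (nat_lit 390) (nat_lit 760) (nat_lit 0) (XT.nd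 (nat_lit 156) (nat_lit 456) (nat_lit 0) (XT.nd (nat_lit 78) (nat_lit 228) (nat_lit 0) (XT.lf (nat_lit 0) (nat_lit 117774861089) (nat_lit 304) (nat_lit 187545724596) (nat_lit 76) (nat_lit 6468035791) (nat_lit 49) (nat_lit 5) (nat_lit 53) (nat_lit 5) (nat_lit 50) (nat_lit 5) (nat_lit 324) (nat_lit 306) (nat_lit 150)) (XT.lf (nat_lit 0) (nat_lit 59840193716) (nat_lit 228) (nat_lit 145788660670) (nat_lit 304) (nat_lit 122094366820) (nat_lit 46) (nat_lit 5) (nat_lit 49) (nat_lit 5) (nat_lit 50) (nat_lit 5) (nat_lit 325) (nat_lit 306) (nat_lit 149))) (XT.nd (nat_lit 78) (nat_lit 456) (nat_lit 0) (XT.lf (nat_lit 0) (nat_lit 304245315903) (nat_lit 304) (nat_lit 11522681605) (nat_lit 76) (nat_lit 28977884157) (nat_lit 46) (nat_lit 5) (nat_lit 50) (nat_lit 5) (nat_lit 47) (nat_lit 5) (nat_lit 326) (nat_lit 306) (nat_lit 148)) (XT.nd (nat_lit 78) (nat_lit 228) (nat_lit 0) (XT.lf (nat_lit 0) (nat_lit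 52904626769) (nat_lit 228) (nat_lit 92068467882) (nat_lit 76) (nat_lit 217779683391) (nat_lit 43) (nat_lit 5) (nat_lit 46) (nat_lit 5) (nat_lit 44) (nat_lit 5) (nat_lit 327) (nat_lit 306) (nat_lit 147)) (XT.lf (nat_lit 0) (nat_lit 156381120075) (nat_lit 304) (nat_lit 183298022006) (nat_lit 76) (nat_lit 42286995620) (nat_lit 40) (nat_lit 5) (nat_lit 44) (nat_lit 5) (nat_lit 41) (nat_lit 5) (nat_lit 328) (nat_lit 306) (nat_lit 146))))) (XT.nd (nat_lit 234) (nat_lit 380) (nat_lit 0) (XT.nd (nat_lit 78) (nat_lit 228) (nat_lit 0) (XT.lf (nat_lit 0) (nat_lit 114508973193) (nat_lit 152) (nat_lit 159489002533) (nat_lit 228) (nat_lit 128425478405) (nat_lit 38) (nat_lit 5) (nat_lit 40) (nat_lit 5) (nat_lit 41) (nat_lit 5) (nat_lit 329) (nat_lit 306) (nat_lit 145)) (XT.nd (nat_lit 78) (nat_lit 76) (nat_lit 0) (XT.lf (nat_lit 0) (nat_lit 18313669257) (nat_lit 152) (nat_lit 386789846431) (nat_lit 228)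 (nat_lit 19209873525) (nat_lit 36) (nat_lit 5) (nat_lit 38) (nat_lit 5) (nat_lit 39) (nat_lit 5) (nat_lit 330) (nat_lit 306) (nat_lit 144)) (XT.lf (nat_lit 0) (nat_lit 103369237604) (nat_lit 228) (nat_lit 92695700670) (nat_lit 76) (nat_lit 251423165718) (nat_lit 35) (nat_lit 5) (nat_lit 38) (nat_lit 5) (nat_lit 36) (nat_lit 5) (nat_lit 331) (nat_lit 306) (nat_lit 143)))) (XT.nd (nat_lit 78) (nat_lit 228) (nat_lit 0) (XT.lf (nat_lit 0) (nat_lit 239272799385) (nat_lit 228) (nat_lit 219066903322) (nat_lit 76) (nat_lit 13951790446) (nat_lit 33) (nat_lit 5) (nat_lit 36) (nat_lit 5) (nat_lit 34) (nat_lit 5) (nat_lit 332) (nat_lit 306) (nat_lit 142)) (XT.nd (nat_lit 78) (nat_lit 76) (nat_lit 0) (XT.lf (nat_lit 0) (nat_lit 132023115611) (nat_lit 152) (nat_lit 261033850264) (nat_lit 228) (nat_lit 105671771684) (nat_lit 31) (nat_lit 5) (nat_lit 33) (nat_lit 5) (nat_lit 34) (nat_lit 5) (nat_lit 333)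 (nat_lit 306) (nat_lit 141)) (XT.lf (nat_lit 0) (nat_lit 34721543785) (nat_lit 228) (nat_lit 8627222971) (nat_lit 76) (nat_lit 483713398811) (nat_lit 30) (nat_lit 5) (nat_lit 33) (nat_lit 5) (nat_lit 31) (nat_lit 5) (nat_lit 334) (nat_lit 306) (nat_lit 140))))))))
noncomputable def xc117 : XT := (XT.nd (nat_lit 39468) (nat_lit 0) (nat_lit 228) (XT.nd (nat_lit 38610) (nat_lit 0) (nat_lit 3724) (XT.nd (nat_lit 390) (nat_lit 304) (nat_lit 0) (XT.nd (nat_lit 156) (nat_lit 304) (nat_lit 0) (XT.nd (nat_lit 78) (nat_lit 152) (nat_lit 0) (XT.lf (nat_lit 0) (nat_lit 191885580966) (nat_lit 228) (nat_lit 171634033788) (nat_lit 76) (nat_lit 193593962905) (nat_lit 28) (nat_lit 5) (nat_lit 31) (nat_lit 5) (nat_lit 29) (nat_lit 5) (nat_lit 335) (nat_lit 306) (nat_lit 139)) (XT.lf (nat_lit 0) (nat_lit 228439255602) (nat_lit 152) (nat_lit 137633648383) (nat_lit 228) (nat_lit 223273690663) (nat_lit 26)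 (nat_lit 5) (nat_lit 28) (nat_lit 5) (nat_lit 29) (nat_lit 5) (nat_lit 336) (nat_lit 306) (nat_lit 138))) (XT.nd (nat_lit 78) (nat_lit 228) (nat_lit 0) (XT.lf (nat_lit 0) (nat_lit 42282776759) (nat_lit 76) (nat_lit 517271264325) (nat_lit 152) (nat_lit 64336270573) (nat_lit 25) (nat_lit 5) (nat_lit 26) (nat_lit 5) (nat_lit 27) (nat_lit 4) (nat_lit 337) (nat_lit 306) (nat_lit 137)) (XT.nd (nat_lit 78) (nat_lit 152) (nat_lit 0) (XT.lf (nat_lit 0) (nat_lit 112591855017) (nat_lit 152) (nat_lit 174366678926) (nat_lit 76) (nat_lit 373719691921) (nat_lit 24) (nat_lit 5) (nat_lit 26) (nat_lit 5) (nat_lit 25) (nat_lit 5) (nat_lit 338) (nat_lit 306) (nat_lit 136)) (XT.lf (nat_lit 0) (nat_lit 273109689985) (nat_lit 152) (nat_lit 32604568706) (nat_lit 228) (nat_lit 394427477049) (nat_lit 22) (nat_lit 5) (nat_lit 24) (nat_lit 5) (nat_lit 25) (nat_lit 5) (nat_lit 339) (nat_lit 306) (nat_lit 135)))))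 (XT.nd (nat_lit 156) (nat_lit 228) (nat_lit 0) (XT.nd (nat_lit 78) (nat_lit 0) (nat_lit 0) (XT.lf (nat_lit 0) (nat_lit 16705200804) (nat_lit 76) (nat_lit 504708959410) (nat_lit 152) (nat_lit 220991780965) (nat_lit 21) (nat_lit 5) (nat_lit 22) (nat_lit 5) (nat_lit 23) (nat_lit 4) (nat_lit 340) (nat_lit 306) (nat_lit 134)) (XT.lf (nat_lit 0) (nat_lit 510622518207) (nat_lit 76) (nat_lit 251726986573) (nat_lit 152) (nat_lit 25302805778) (nat_lit 21) (nat_lit 5) (nat_lit 22) (nat_lit 5) (nat_lit 23) (nat_lit 4) (nat_lit 341) (nat_lit 306) (nat_lit 133))) (XT.nd (nat_lit 37908) (nat_lit 0) (nat_lit 5776) (XT.lf (nat_lit 0) (nat_lit 183824513640) (nat_lit 228) (nat_lit 625249361566) (nat_lit 76) (nat_lit 27112397566) (nat_lit 18) (nat_lit 5) (nat_lit 21) (nat_lit 5) (nat_lit 19) (nat_lit 4) (nat_lit 342) (nat_lit 306) (nat_lit 132)) (XT.nd (nat_lit 78) (nat_lit 0) (nat_lit 0) (XT.lf (nat_lit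 0) (nat_lit 34550730641) (nat_lit 0) (nat_lit 34550730641) (nat_lit 684) (nat_lit 6941054044) (nat_lit 94) (nat_lit 5) (nat_lit 94) (nat_lit 3) (nat_lit 103) (nat_lit 3) (nat_lit 307) (nat_lit 307) (nat_lit 166)) (XT.lf (nat_lit 76) (nat_lit 28812457753) (nat_lit 0) (nat_lit 116043864954) (nat_lit 760) (nat_lit 13255837597) (nat_lit 95) (nat_lit 5) (nat_lit 94) (nat_lit 5) (nat_lit 104) (nat_lit 5) (nat_lit 308) (nat_lit 307) (nat_lit 165)))))) (XT.nd (nat_lit 390) (nat_lit 1444) (nat_lit 0) (XT.nd (nat_lit 156) (nat_lit 608) (nat_lit 0) (XT.nd (nat_lit 78) (nat_lit 0) (nat_lit 76) (XT.lf (nat_lit 76) (nat_lit 151311539220) (nat_lit 0) (nat_lit 3321941390) (nat_lit 760) (nat_lit 9858406167) (nat_lit 95) (nat_lit 5) (nat_lit 94) (nat_lit 5) (nat_lit 104) (nat_lit 5) (nat_lit 309) (nat_lit 307) (nat_lit 164)) (XT.lf (nat_lit 76) (nat_lit 114029120940) (nat_lit 0) (nat_lit 54792452432) (nat_lit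 760) (nat_lit 2378980575) (nat_lit 96) (nat_lit 5) (nat_lit 95) (nat_lit 5) (nat_lit 105) (nat_lit 5) (nat_lit 310) (nat_lit 307) (nat_lit 163))) (XT.nd (nat_lit 78) (nat_lit 0) (nat_lit 76) (XT.lf (nat_lit 0) (nat_lit 8060908141) (nat_lit 760) (nat_lit 103714811055) (nat_lit 836) (nat_lit 66538521875) (nat_lit 86) (nat_lit 5) (nat_lit 96) (nat_lit 5) (nat_lit 97) (nat_lit 5) (nat_lit 311) (nat_lit 307) (nat_lit 162)) (XT.nd (nat_lit 78) (nat_lit 0) (nat_lit 0) (XT.lf (nat_lit 0) (nat_lit 21883724207) (nat_lit 760) (nat_lit 152965429360) (nat_lit 836) (nat_lit 11014365969) (nat_lit 87) (nat_lit 5) (nat_lit 97) (nat_lit 5) (nat_lit 98) (nat_lit 5) (nat_lit 312) (nat_lit 307) (nat_lit 161)) (XT.lf (nat_lit 0) (nat_lit 40533051929) (nat_lit 760) (nat_lit 11697385273) (nat_lit 836) (nat_lit 141600269275) (nat_lit 87) (nat_lit 5) (nat_lit 97) (nat_lit 5) (nat_lit 98) (nat_lit 5) (nat_lit 313)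 (nat_lit 307) (nat_lit 160))))) (XT.nd (nat_lit 234) (nat_lit 684) (nat_lit 0) (XT.nd (nat_lit 78) (nat_lit 912) (nat_lit 0) (XT.lf (nat_lit 0) (nat_lit 64235518387) (nat_lit 760) (nat_lit 58081319681) (nat_lit 76) (nat_lit 79940371162) (nat_lit 88) (nat_lit 5) (nat_lit 98) (nat_lit 5) (nat_lit 89) (nat_lit 5) (nat_lit 314) (nat_lit 307) (nat_lit 159)) (XT.nd (nat_lit 78) (nat_lit 380) (nat_lit 0) (XT.lf (nat_lit 0) (nat_lit 92725347771) (nat_lit 608) (nat_lit 107367053166) (nat_lit 76) (nat_lit 11120873431) (nat_lit 81) (nat_lit 5) (nat_lit 89) (nat_lit 5) (nat_lit 82) (nat_lit 5) (nat_lit 315) (nat_lit 307) (nat_lit 158)) (XT.lf (nat_lit 0) (nat_lit 59801491692) (nat_lit 380) (nat_lit 67717091956) (nat_lit 456) (nat_lit 93166030474) (nat_lit 76) (nat_lit 5) (nat_lit 81) (nat_lit 5) (nat_lit 82) (nat_lit 5) (nat_lit 316) (nat_lit 307) (nat_lit 157)))) (XT.nd (nat_lit 78) (nat_lit 380)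 (nat_lit 0) (XT.lf (nat_lit 0) (nat_lit 12553455320) (nat_lit 304) (nat_lit 155813334934) (nat_lit 380) (nat_lit 62383295591) (nat_lit 72) (nat_lit 5) (nat_lit 76) (nat_lit 5) (nat_lit 77) (nat_lit 5) (nat_lit 317) (nat_lit 307) (nat_lit 156)) (XT.nd (nat_lit 78) (nat_lit 380) (nat_lit 0) (XT.lf (nat_lit 0) (nat_lit 204430213842) (nat_lit 304) (nat_lit 11978307634) (nat_lit 380) (nat_lit 25015990779) (nat_lit 72) (nat_lit 5) (nat_lit 76) (nat_lit 5) (nat_lit 77) (nat_lit 5) (nat_lit 318) (nat_lit 307) (nat_lit 155)) (XT.lf (nat_lit 0) (nat_lit 19689494996) (nat_lit 380) (nat_lit 91393237678) (nat_lit 76) (nat_lit 141616195114) (nat_lit 67) (nat_lit 5) (nat_lit 72) (nat_lit 5) (nat_lit 68) (nat_lit 5) (nat_lit 319) (nat_lit 307) (nat_lit 154))))))) (XT.nd (nat_lit 858) (nat_lit 1292) (nat_lit 0) (XT.nd (nat_lit 390) (nat_lit 1064) (nat_lit 0) (XT.nd (nat_lit 156) (nat_lit 532) (nat_lit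 0) (XT.nd (nat_lit 78) (nat_lit 304) (nat_lit 0) (XT.lf (nat_lit 0) (nat_lit 70465065031) (nat_lit 380) (nat_lit 150434259078) (nat_lit 76) (nat_lit 43786963641) (nat_lit 63) (nat_lit 5) (nat_lit 68) (nat_lit 5) (nat_lit 64) (nat_lit 5) (nat_lit 320) (nat_lit 307) (nat_lit 153)) (XT.lf (nat_lit 0) (nat_lit 62149281377) (nat_lit 304) (nat_lit 67614698661) (nat_lit 380) (nat_lit 147645591768) (nat_lit 59) (nat_lit 5) (nat_lit 63) (nat_lit 5) (nat_lit 64) (nat_lit 5) (nat_lit 321) (nat_lit 307) (nat_lit 152))) (XT.nd (nat_lit 78) (nat_lit 304) (nat_lit 0) (XT.lf (nat_lit 0) (nat_lit 4669014470) (nat_lit 228) (nat_lit 193402937819) (nat_lit 304) (nat_lit 92865509345) (nat_lit 56) (nat_lit 5) (nat_lit 59) (nat_lit 5) (nat_lit 60) (nat_lit 5) (nat_lit 322) (nat_lit 307) (nat_lit 151)) (XT.nd (nat_lit 78) (nat_lit 304) (nat_lit 0) (XT.lf (nat_lit 0) (nat_lit 248701515299) (nat_lit 228) (nat_lit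 28014288551) (nat_lit 304) (nat_lit 28588216949) (nat_lit 56) (nat_lit 5) (nat_lit 59) (nat_lit 5) (nat_lit 60) (nat_lit 5) (nat_lit 323) (nat_lit 307) (nat_lit 150)) (XT.lf (nat_lit 0) (nat_lit 45013916935) (nat_lit 304) (nat_lit 125938751432) (nat_lit 76) (nat_lit 149560886345) (nat_lit 52) (nat_lit 5) (nat_lit 56) (nat_lit 5) (nat_lit 53) (nat_lit 5) (nat_lit 324) (nat_lit 307) (nat_lit 149))))) (XT.nd (nat_lit 234) (nat_lit 608) (nat_lit 0) (XT.nd (nat_lit 78) (nat_lit 228) (nat_lit 0) (XT.lf (nat_lit 0) (nat_lit 127199940993) (nat_lit 304) (nat_lit 202545071602) (nat_lit 76) (nat_lit 6986540400) (nat_lit 49) (nat_lit 5) (nat_lit 53) (nat_lit 5) (nat_lit 50) (nat_lit 5) (nat_lit 325) (nat_lit 307) (nat_lit 148)) (XT.nd (nat_lit 78) (nat_lit 0) (nat_lit 0) (XT.lf (nat_lit 0) (nat_lit 64631532827) (nat_lit 228) (nat_lit 157450556344) (nat_lit 304) (nat_lit 131858840031) (nat_lit 46)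 (nat_lit 5) (nat_lit 49) (nat_lit 5) (nat_lit 50) (nat_lit 5) (nat_lit 326) (nat_lit 307) (nat_lit 147)) (XT.lf (nat_lit 0) (nat_lit 328587668142) (nat_lit 304) (nat_lit 12440556667) (nat_lit 76) (nat_lit 31297187910) (nat_lit 46) (nat_lit 5) (nat_lit 50) (nat_lit 5) (nat_lit 47) (nat_lit 5) (nat_lit 327) (nat_lit 307) (nat_lit 146)))) (XT.nd (nat_lit 78) (nat_lit 380) (nat_lit 0) (XT.lf (nat_lit 0) (nat_lit 57139625875) (nat_lit 228) (nat_lit 99430087367) (nat_lit 76) (nat_lit 235203152836) (nat_lit 43) (nat_lit 5) (nat_lit 46) (nat_lit 5) (nat_lit 44) (nat_lit 5) (nat_lit 328) (nat_lit 307) (nat_lit 145)) (XT.nd (nat_lit 78) (nat_lit 152) (nat_lit 0) (XT.lf (nat_lit 0) (nat_lit 168894120235) (nat_lit 304) (nat_lit 197958065046) (nat_lit 76) (nat_lit 45671115354) (nat_lit 40) (nat_lit 5) (nat_lit 44) (nat_lit 5) (nat_lit 41) (nat_lit 5) (nat_lit 329) (nat_lit 307) (nat_lit 144)) (XT.lf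 (nat_lit 0) (nat_lit 123673324681) (nat_lit 152) (nat_lit 172246870420) (nat_lit 228) (nat_lit 138697013928) (nat_lit 38) (nat_lit 5) (nat_lit 40) (nat_lit 5) (nat_lit 41) (nat_lit 5) (nat_lit 330) (nat_lit 307) (nat_lit 143)))))) (XT.nd (nat_lit 390) (nat_lit 684) (nat_lit 0) (XT.nd (nat_lit 156) (nat_lit 380) (nat_lit 0) (XT.nd (nat_lit 78) (nat_lit 76) (nat_lit 0) (XT.lf (nat_lit 0) (nat_lit 19782335969) (nat_lit 152) (nat_lit 417731739789) (nat_lit 228) (nat_lit 20744268460) (nat_lit 36) (nat_lit 5) (nat_lit 38) (nat_lit 5) (nat_lit 39) (nat_lit 5) (nat_lit 331) (nat_lit 307) (nat_lit 142)) (XT.lf (nat_lit 0) (nat_lit 111640923179) (nat_lit 228) (nat_lit 100107975325) (nat_lit 76) (nat_lit 271538144547) (nat_lit 35) (nat_lit 5) (nat_lit 38) (nat_lit 5) (nat_lit 36) (nat_lit 5) (nat_lit 332) (nat_lit 307) (nat_lit 141))) (XT.nd (nat_lit 78) (nat_lit 228) (nat_lit 0) (XT.lf (nat_lit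 0) (nat_lit 258416680076) (nat_lit 228) (nat_lit 236588936128) (nat_lit 76) (nat_lit 15069091776) (nat_lit 33) (nat_lit 5) (nat_lit 36) (nat_lit 5) (nat_lit 34) (nat_lit 5) (nat_lit 333) (nat_lit 307) (nat_lit 140)) (XT.nd (nat_lit 78) (nat_lit 76) (nat_lit 0) (XT.lf (nat_lit 0) (nat_lit 142588140061) (nat_lit 152) (nat_lit 281915337048) (nat_lit 228) (nat_lit 114123460102) (nat_lit 31) (nat_lit 5) (nat_lit 33) (nat_lit 5) (nat_lit 34) (nat_lit 5) (nat_lit 334) (nat_lit 307) (nat_lit 139)) (XT.lf (nat_lit 0) (nat_lit 37501107656) (nat_lit 228) (nat_lit 9314398497) (nat_lit 76) (nat_lit 522411539180) (nat_lit 30) (nat_lit 5) (nat_lit 33) (nat_lit 5) (nat_lit 31) (nat_lit 5) (nat_lit 335) (nat_lit 307) (nat_lit 138))))) (XT.nd (nat_lit 234) (nat_lit 304) (nat_lit 0) (XT.nd (nat_lit 78) (nat_lit 228) (nat_lit 0) (XT.lf (nat_lit 0) (nat_lit 207238193858) (nat_lit 228) (nat_lit 185361813392)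 (nat_lit 76) (nat_lit 209082566948) (nat_lit 28) (nat_lit 5) (nat_lit 31) (nat_lit 5) (nat_lit 29) (nat_lit 5) (nat_lit 336) (nat_lit 307) (nat_lit 137)) (XT.nd (nat_lit 78) (nat_lit 76) (nat_lit 0) (XT.lf (nat_lit 0) (nat_lit 246717211246) (nat_lit 152) (nat_lit 148643204581) (nat_lit 228) (nat_lit 241133821166) (nat_lit 26) (nat_lit 5) (nat_lit 28) (nat_lit 5) (nat_lit 29) (nat_lit 5) (nat_lit 337) (nat_lit 307) (nat_lit 136)) (XT.lf (nat_lit 0) (nat_lit 45668156313) (nat_lit 76) (nat_lit 558651822639) (nat_lit 152) (nat_lit 69481475749) (nat_lit 25) (nat_lit 5) (nat_lit 26) (nat_lit 5) (nat_lit 27) (nat_lit 4) (nat_lit 338) (nat_lit 307) (nat_lit 135)))) (XT.nd (nat_lit 78) (nat_lit 228) (nat_lit 0) (XT.lf (nat_lit 0) (nat_lit 121600723949) (nat_lit 152) (nat_lit 188313408781) (nat_lit 76) (nat_lit 403618274155) (nat_lit 24) (nat_lit 5) (nat_lit 26) (nat_lit 5) (nat_lit 25) (nat_lit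 5) (nat_lit 339) (nat_lit 307) (nat_lit 134)) (XT.nd (nat_lit 78) (nat_lit 76) (nat_lit 0) (XT.lf (nat_lit 0) (nat_lit 294960956456) (nat_lit 152) (nat_lit 35211889724) (nat_lit 228) (nat_lit 425980155133) (nat_lit 22) (nat_lit 5) (nat_lit 24) (nat_lit 5) (nat_lit 25) (nat_lit 5) (nat_lit 340) (nat_lit 307) (nat_lit 133)) (XT.lf (nat_lit 0) (nat_lit 18044054376) (nat_lit 76) (nat_lit 545084631435) (nat_lit 152) (nat_lit 238669660147) (nat_lit 21) (nat_lit 5) (nat_lit 22) (nat_lit 5) (nat_lit 23) (nat_lit 4) (nat_lit 341) (nat_lit 307) (nat_lit 132))))))))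
noncomputable def xc118 : XT := (XT.nd (nat_lit 39546) (nat_lit 0) (nat_lit 76) (XT.nd (nat_lit 38688) (nat_lit 0) (nat_lit 1900) (XT.nd (nat_lit 38298) (nat_lit 0) (nat_lit 4560) (XT.nd (nat_lit 38064) (nat_lit 0) (nat_lit 5548) (XT.nd (nat_lit 37986) (nat_lit 0) (nat_lit 5548) (XT.lf (nat_lit 0) (nat_lit 551474576615) (nat_lit 76) (nat_lit 271864178158) (nat_lit 152) (nat_lit 27325675337) (nat_lit 21) (nat_lit 5) (nat_lit 22) (nat_lit 5) (nat_lit 23) (nat_lit 4) (nat_lit 342) (nat_lit 307) (nat_lit 131)) (XT.lf (nat_lit 0) (nat_lit 37316826226) (nat_lit 0) (nat_lit 37316826226) (nat_lit 684) (nat_lit 7492053150) (nat_lit 94) (nat_lit 5) (nat_lit 94) (nat_lit 3) (nat_lit 103) (nat_lit 3) (nat_lit 308) (nat_lit 308) (nat_lit 164))) (XT.nd (nat_lit 78) (nat_lit 0) (nat_lit 0) (XT.lf (nat_lit 76) (nat_lit 31121815990) (nat_lit 0) (nat_lit 125330566670) (nat_lit 760) (nat_lit 14308359358)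 (nat_lit 95) (nat_lit 5) (nat_lit 94) (nat_lit 5) (nat_lit 104) (nat_lit 5) (nat_lit 309) (nat_lit 308) (nat_lit 163)) (XT.nd (nat_lit 78) (nat_lit 0) (nat_lit 76) (XT.lf (nat_lit 76) (nat_lit 163420500892) (nat_lit 0) (nat_lit 3590652739) (nat_lit 760) (nat_lit 10639721951) (nat_lit 95) (nat_lit 5) (nat_lit 94) (nat_lit 5) (nat_lit 104) (nat_lit 5) (nat_lit 310) (nat_lit 308) (nat_lit 162)) (XT.lf (nat_lit 76) (nat_lit 123155704186) (nat_lit 0) (nat_lit 59178095187) (nat_lit 760) (nat_lit 2562462392) (nat_lit 96) (nat_lit 5) (nat_lit 95) (nat_lit 5) (nat_lit 105) (nat_lit 5) (nat_lit 311) (nat_lit 308) (nat_lit 161))))) (XT.nd (nat_lit 156) (nat_lit 380) (nat_lit 0) (XT.nd (nat_lit 78) (nat_lit 0) (nat_lit 76) (XT.lf (nat_lit 0) (nat_lit 8711945594) (nat_lit 760) (nat_lit 112007357830) (nat_lit 836) (nat_lit 71859758560) (nat_lit 86) (nat_lit 5) (nat_lit 96) (nat_lit 5) (nat_lit 97) (nat_lit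 5) (nat_lit 312) (nat_lit 308) (nat_lit 160)) (XT.lf (nat_lit 0) (nat_lit 23640178625) (nat_lit 760) (nat_lit 165197907978) (nat_lit 836) (nat_lit 11894217289) (nat_lit 87) (nat_lit 5) (nat_lit 97) (nat_lit 5) (nat_lit 98) (nat_lit 5) (nat_lit 313) (nat_lit 308) (nat_lit 159))) (XT.nd (nat_lit 78) (nat_lit 456) (nat_lit 0) (XT.lf (nat_lit 0) (nat_lit 43781026159) (nat_lit 760) (nat_lit 12628772641) (nat_lit 836) (nat_lit 152927089005) (nat_lit 87) (nat_lit 5) (nat_lit 97) (nat_lit 5) (nat_lit 98) (nat_lit 5) (nat_lit 314) (nat_lit 308) (nat_lit 158)) (XT.nd (nat_lit 78) (nat_lit 532) (nat_lit 0) (XT.lf (nat_lit 0) (nat_lit 69379348558) (nat_lit 760) (nat_lit 62723342758) (nat_lit 76) (nat_lit 86334837174) (nat_lit 88) (nat_lit 5) (nat_lit 98) (nat_lit 5) (nat_lit 89) (nat_lit 5) (nat_lit 315) (nat_lit 308) (nat_lit 157)) (XT.lf (nat_lit 0) (nat_lit 100148055482) (nat_lit 608) (nat_lit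 115951881752) (nat_lit 76) (nat_lit 12010157641) (nat_lit 81) (nat_lit 5) (nat_lit 89) (nat_lit 5) (nat_lit 82) (nat_lit 5) (nat_lit 316) (nat_lit 308) (nat_lit 156)))))) (XT.nd (nat_lit 390) (nat_lit 1292) (nat_lit 0) (XT.nd (nat_lit 156) (nat_lit 684) (nat_lit 0) (XT.nd (nat_lit 78) (nat_lit 304) (nat_lit 0) (XT.lf (nat_lit 0) (nat_lit 64589949580) (nat_lit 380) (nat_lit 73134521727) (nat_lit 456) (nat_lit 100614685000) (nat_lit 76) (nat_lit 5) (nat_lit 81) (nat_lit 5) (nat_lit 82) (nat_lit 5) (nat_lit 317) (nat_lit 308) (nat_lit 155)) (XT.lf (nat_lit 0) (nat_lit 13562099765) (nat_lit 304) (nat_lit 168278175975) (nat_lit 380) (nat_lit 67369603474) (nat_lit 72) (nat_lit 5) (nat_lit 76) (nat_lit 5) (nat_lit 77) (nat_lit 5) (nat_lit 318) (nat_lit 308) (nat_lit 154))) (XT.nd (nat_lit 78) (nat_lit 684) (nat_lit 0) (XT.lf (nat_lit 0) (nat_lit 220788675411) (nat_lit 304) (nat_lit 12936363213)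 (nat_lit 380) (nat_lit 27013236927) (nat_lit 72) (nat_lit 5) (nat_lit 76) (nat_lit 5) (nat_lit 77) (nat_lit 5) (nat_lit 319) (nat_lit 308) (nat_lit 153)) (XT.nd (nat_lit 78) (nat_lit 304) (nat_lit 0) (XT.lf (nat_lit 0) (nat_lit 21268336852) (nat_lit 380) (nat_lit 98700515061) (nat_lit 76) (nat_lit 152945800772) (nat_lit 67) (nat_lit 5) (nat_lit 72) (nat_lit 5) (nat_lit 68) (nat_lit 5) (nat_lit 320) (nat_lit 308) (nat_lit 152)) (XT.lf (nat_lit 0) (nat_lit 76105750422) (nat_lit 380) (nat_lit 162464829719) (nat_lit 76) (nat_lit 47290431792) (nat_lit 63) (nat_lit 5) (nat_lit 68) (nat_lit 5) (nat_lit 64) (nat_lit 5) (nat_lit 321) (nat_lit 308) (nat_lit 151))))) (XT.nd (nat_lit 234) (nat_lit 760) (nat_lit 0) (XT.nd (nat_lit 78) (nat_lit 228) (nat_lit 0) (XT.lf (nat_lit 0) (nat_lit 67125212746) (nat_lit 304) (nat_lit 73023170370) (nat_lit 380) (nat_lit 159453785731) (nat_lit 59) (nat_lit 5) (nat_lit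 63) (nat_lit 5) (nat_lit 64) (nat_lit 5) (nat_lit 322) (nat_lit 308) (nat_lit 150)) (XT.nd (nat_lit 78) (nat_lit 0) (nat_lit 0) (XT.lf (nat_lit 0) (nat_lit 5046501990) (nat_lit 228) (nat_lit 208874319953) (nat_lit 304) (nat_lit 100291476809) (nat_lit 56) (nat_lit 5) (nat_lit 59) (nat_lit 5) (nat_lit 60) (nat_lit 5) (nat_lit 323) (nat_lit 308) (nat_lit 149)) (XT.lf (nat_lit 0) (nat_lit 268601309081) (nat_lit 228) (nat_lit 30254641921) (nat_lit 304) (nat_lit 30872243486) (nat_lit 56) (nat_lit 5) (nat_lit 59) (nat_lit 5) (nat_lit 60) (nat_lit 5) (nat_lit 324) (nat_lit 308) (nat_lit 148)))) (XT.nd (nat_lit 78) (nat_lit 456) (nat_lit 0) (XT.lf (nat_lit 0) (nat_lit 48617816192) (nat_lit 304) (nat_lit 136010113350) (nat_lit 76) (nat_lit 161526566873) (nat_lit 52) (nat_lit 5) (nat_lit 56) (nat_lit 5) (nat_lit 53) (nat_lit 5) (nat_lit 325) (nat_lit 308) (nat_lit 147)) (XT.nd (nat_lit 78) (nat_lit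 228) (nat_lit 0) (XT.lf (nat_lit 0) (nat_lit 137378586320) (nat_lit 304) (nat_lit 218744981375) (nat_lit 76) (nat_lit 7546373907) (nat_lit 49) (nat_lit 5) (nat_lit 53) (nat_lit 5) (nat_lit 50) (nat_lit 5) (nat_lit 326) (nat_lit 308) (nat_lit 146)) (XT.lf (nat_lit 0) (nat_lit 69805590787) (nat_lit 228) (nat_lit 170045574463) (nat_lit 304) (nat_lit 142404909944) (nat_lit 46) (nat_lit 5) (nat_lit 49) (nat_lit 5) (nat_lit 50) (nat_lit 5) (nat_lit 327) (nat_lit 308) (nat_lit 145))))))) (XT.nd (nat_lit 858) (nat_lit 304) (nat_lit 0) (XT.nd (nat_lit 390) (nat_lit 760) (nat_lit 0) (XT.nd (nat_lit 156) (nat_lit 532) (nat_lit 0) (XT.nd (nat_lit 78) (nat_lit 228) (nat_lit 0) (XT.lf (nat_lit 0) (nat_lit 354877019529) (nat_lit 304) (nat_lit 13432423744) (nat_lit 76) (nat_lit 33801882886) (nat_lit 46) (nat_lit 5) (nat_lit 50) (nat_lit 5) (nat_lit 47) (nat_lit 5) (nat_lit 328) (nat_lit 308) (nat_lit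 144)) (XT.lf (nat_lit 0) (nat_lit 61713049859) (nat_lit 228) (nat_lit 107381186789) (nat_lit 76) (nat_lit 254020343654) (nat_lit 43) (nat_lit 5) (nat_lit 46) (nat_lit 5) (nat_lit 44) (nat_lit 5) (nat_lit 329) (nat_lit 308) (nat_lit 143))) (XT.nd (nat_lit 78) (nat_lit 304) (nat_lit 0) (XT.lf (nat_lit 0) (nat_lit 182407802248) (nat_lit 304) (nat_lit 213791453459) (nat_lit 76) (nat_lit 49325799167) (nat_lit 40) (nat_lit 5) (nat_lit 44) (nat_lit 5) (nat_lit 41) (nat_lit 5) (nat_lit 330) (nat_lit 308) (nat_lit 142)) (XT.nd (nat_lit 78) (nat_lit 152) (nat_lit 0) (XT.lf (nat_lit 0) (nat_lit 133570305910) (nat_lit 152) (nat_lit 186025546396) (nat_lit 228) (nat_lit 149790629338) (nat_lit 38) (nat_lit 5) (nat_lit 40) (nat_lit 5) (nat_lit 41) (nat_lit 5) (nat_lit 331) (nat_lit 308) (nat_lit 141)) (XT.lf (nat_lit 0) (nat_lit 21367986265) (nat_lit 152) (nat_lit 451149169271) (nat_lit 228) (nat_lit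 22401756657) (nat_lit 36) (nat_lit 5) (nat_lit 38) (nat_lit 5) (nat_lit 39) (nat_lit 5) (nat_lit 332) (nat_lit 308) (nat_lit 140))))) (XT.nd (nat_lit 234) (nat_lit 380) (nat_lit 0) (XT.nd (nat_lit 78) (nat_lit 304) (nat_lit 0) (XT.lf (nat_lit 0) (nat_lit 120574037369) (nat_lit 228) (nat_lit 108113714346) (nat_lit 76) (nat_lit 293262161107) (nat_lit 35) (nat_lit 5) (nat_lit 38) (nat_lit 5) (nat_lit 36) (nat_lit 5) (nat_lit 333) (nat_lit 308) (nat_lit 139)) (XT.nd (nat_lit 78) (nat_lit 152) (nat_lit 0) (XT.lf (nat_lit 0) (nat_lit 279091777806) (nat_lit 228) (nat_lit 255513205116) (nat_lit 76) (nat_lit 16275611998) (nat_lit 33) (nat_lit 5) (nat_lit 36) (nat_lit 5) (nat_lit 34) (nat_lit 5) (nat_lit 334) (nat_lit 308) (nat_lit 138)) (XT.lf (nat_lit 0) (nat_lit 153997913488) (nat_lit 152) (nat_lit 304467516997) (nat_lit 228) (nat_lit 123251576521) (nat_lit 31) (nat_lit 5) (nat_lit 33) (nat_lit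 5) (nat_lit 34) (nat_lit 5) (nat_lit 335) (nat_lit 308) (nat_lit 137)))) (XT.nd (nat_lit 78) (nat_lit 304) (nat_lit 0) (XT.lf (nat_lit 0) (nat_lit 40502774088) (nat_lit 228) (nat_lit 10056976378) (nat_lit 76) (nat_lit 564205378350) (nat_lit 30) (nat_lit 5) (nat_lit 33) (nat_lit 5) (nat_lit 31) (nat_lit 5) (nat_lit 336) (nat_lit 308) (nat_lit 136)) (XT.nd (nat_lit 78) (nat_lit 152) (nat_lit 0) (XT.lf (nat_lit 0) (nat_lit 223818763783) (nat_lit 228) (nat_lit 200188235231) (nat_lit 76) (nat_lit 225810104240) (nat_lit 28) (nat_lit 5) (nat_lit 31) (nat_lit 5) (nat_lit 29) (nat_lit 5) (nat_lit 337) (nat_lit 308) (nat_lit 135)) (XT.lf (nat_lit 0) (nat_lit 266457001721) (nat_lit 152) (nat_lit 160533687291) (nat_lit 228) (nat_lit 260423013870) (nat_lit 26) (nat_lit 5) (nat_lit 28) (nat_lit 5) (nat_lit 29) (nat_lit 5) (nat_lit 338) (nat_lit 308) (nat_lit 134)))))) (XT.nd (nat_lit 38454) (nat_lit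 0) (nat_lit 4864) (XT.nd (nat_lit 156) (nat_lit 152) (nat_lit 0) (XT.nd (nat_lit 78) (nat_lit 76) (nat_lit 0) (XT.lf (nat_lit 0) (nat_lit 49323972857) (nat_lit 76) (nat_lit 603342988656) (nat_lit 152) (nat_lit 75038539359) (nat_lit 25) (nat_lit 5) (nat_lit 26) (nat_lit 5) (nat_lit 27) (nat_lit 4) (nat_lit 339) (nat_lit 308) (nat_lit 133)) (XT.lf (nat_lit 0) (nat_lit 131330085474) (nat_lit 152) (nat_lit 203376248580) (nat_lit 76) (nat_lit 435908599325) (nat_lit 24) (nat_lit 5) (nat_lit 26) (nat_lit 5) (nat_lit 25) (nat_lit 5) (nat_lit 340) (nat_lit 308) (nat_lit 132))) (XT.nd (nat_lit 38142) (nat_lit 0) (nat_lit 5472) (XT.lf (nat_lit 0) (nat_lit 318559968837) (nat_lit 152) (nat_lit 38027945430) (nat_lit 228) (nat_lit 460057264320) (nat_lit 22) (nat_lit 5) (nat_lit 24) (nat_lit 5) (nat_lit 25) (nat_lit 5) (nat_lit 341) (nat_lit 308) (nat_lit 131)) (XT.nd (nat_lit 78) (nat_lit 0) (nat_lit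 0) (XT.lf (nat_lit 0) (nat_lit 40303918838) (nat_lit 0) (nat_lit 40303918838) (nat_lit 684) (nat_lit 8087743518) (nat_lit 94) (nat_lit 5) (nat_lit 94) (nat_lit 3) (nat_lit 103) (nat_lit 3) (nat_lit 309) (nat_lit 309) (nat_lit 162)) (XT.lf (nat_lit 76) (nat_lit 33615300652) (nat_lit 0) (nat_lit 135359749075) (nat_lit 760) (nat_lit 15446216339) (nat_lit 95) (nat_lit 5) (nat_lit 94) (nat_lit 5) (nat_lit 104) (nat_lit 5) (nat_lit 310) (nat_lit 309) (nat_lit 161))))) (XT.nd (nat_lit 234) (nat_lit 0) (nat_lit 76) (XT.nd (nat_lit 78) (nat_lit 608) (nat_lit 0) (XT.lf (nat_lit 76) (nat_lit 176497603356) (nat_lit 0) (nat_lit 3880439283) (nat_lit 760) (nat_lit 11484592514) (nat_lit 95) (nat_lit 5) (nat_lit 94) (nat_lit 5) (nat_lit 104) (nat_lit 5) (nat_lit 311) (nat_lit 309) (nat_lit 160)) (XT.nd (nat_lit 78) (nat_lit 684) (nat_lit 0) (XT.lf (nat_lit 76) (nat_lit 133011807272) (nat_lit 0) (nat_lit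 63914268865) (nat_lit 760) (nat_lit 2761598076) (nat_lit 96) (nat_lit 5) (nat_lit 95) (nat_lit 5) (nat_lit 105) (nat_lit 5) (nat_lit 312) (nat_lit 309) (nat_lit 159)) (XT.lf (nat_lit 0) (nat_lit 9414186565) (nat_lit 760) (nat_lit 120963970025) (nat_lit 836) (nat_lit 77606957399) (nat_lit 86) (nat_lit 5) (nat_lit 96) (nat_lit 5) (nat_lit 97) (nat_lit 5) (nat_lit 313) (nat_lit 309) (nat_lit 158)))) (XT.nd (nat_lit 78) (nat_lit 0) (nat_lit 0) (XT.lf (nat_lit 0) (nat_lit 25536328170) (nat_lit 760) (nat_lit 178409663344) (nat_lit 836) (nat_lit 12844641883) (nat_lit 87) (nat_lit 5) (nat_lit 97) (nat_lit 5) (nat_lit 98) (nat_lit 5) (nat_lit 314) (nat_lit 309) (nat_lit 157)) (XT.nd (nat_lit 78) (nat_lit 0) (nat_lit 76) (XT.lf (nat_lit 0) (nat_lit 47288077933) (nat_lit 760) (nat_lit 13635299199) (nat_lit 836) (nat_lit 165160225765) (nat_lit 87) (nat_lit 5) (nat_lit 97) (nat_lit 5) (nat_lit 98)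 (nat_lit 5) (nat_lit 315) (nat_lit 309) (nat_lit 156)) (XT.lf (nat_lit 0) (nat_lit 74933973450) (nat_lit 760) (nat_lit 67737367159) (nat_lit 76) (nat_lit 93240969414) (nat_lit 88) (nat_lit 5) (nat_lit 98) (nat_lit 5) (nat_lit 89) (nat_lit 5) (nat_lit 316) (nat_lit 309) (nat_lit 155))))))))
noncomputable def xc119 : XT := (XT.nd (nat_lit 1638) (nat_lit 456) (nat_lit 0) (XT.nd (nat_lit 780) (nat_lit 1672) (nat_lit 0) (XT.nd (nat_lit 390) (nat_lit 1140) (nat_lit 0) (XT.nd (nat_lit 156) (nat_lit 684) (nat_lit 0) (XT.nd (nat_lit 78) (nat_lit 380) (nat_lit 0) (XT.lf (nat_lit 0) (nat_lit 108163912172) (nat_lit 608) (nat_lit 125224143688) (nat_lit 76) (nat_lit 12970639608) (nat_lit 81) (nat_lit 5) (nat_lit 89) (nat_lit 5) (nat_lit 82) (nat_lit 5) (nat_lit 317) (nat_lit 309) (nat_lit 154)) (XT.lf (nat_lit 0) (nat_lit 69760865157) (nat_lit 380) (nat_lit 78985336976) (nat_lit 456) (nat_lit 108659892110)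 (nat_lit 76) (nat_lit 5) (nat_lit 81) (nat_lit 5) (nat_lit 82) (nat_lit 5) (nat_lit 318) (nat_lit 309) (nat_lit 153))) (XT.nd (nat_lit 78) (nat_lit 380) (nat_lit 0) (XT.lf (nat_lit 0) (nat_lit 14650812619) (nat_lit 304) (nat_lit 181740236505) (nat_lit 380) (nat_lit 72755437387) (nat_lit 72) (nat_lit 5) (nat_lit 76) (nat_lit 5) (nat_lit 77) (nat_lit 5) (nat_lit 319) (nat_lit 309) (nat_lit 152)) (XT.nd (nat_lit 78) (nat_lit 380) (nat_lit 0) (XT.lf (nat_lit 0) (nat_lit 238455236919) (nat_lit 304) (nat_lit 13971093060) (nat_lit 380) (nat_lit 29170838136) (nat_lit 72) (nat_lit 5) (nat_lit 76) (nat_lit 5) (nat_lit 77) (nat_lit 5) (nat_lit 320) (nat_lit 309) (nat_lit 151)) (XT.lf (nat_lit 0) (nat_lit 22972960741) (nat_lit 380) (nat_lit 106592971191) (nat_lit 76) (nat_lit 165181730651) (nat_lit 67) (nat_lit 5) (nat_lit 72) (nat_lit 5) (nat_lit 68) (nat_lit 5) (nat_lit 321) (nat_lit 309) (nat_lit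 150))))) (XT.nd (nat_lit 156) (nat_lit 532) (nat_lit 0) (XT.nd (nat_lit 78) (nat_lit 304) (nat_lit 0) (XT.lf (nat_lit 0) (nat_lit 82197194157) (nat_lit 380) (nat_lit 175458440921) (nat_lit 76) (nat_lit 51074104486) (nat_lit 63) (nat_lit 5) (nat_lit 68) (nat_lit 5) (nat_lit 64) (nat_lit 5) (nat_lit 322) (nat_lit 309) (nat_lit 149)) (XT.lf (nat_lit 0) (nat_lit 72498649569) (nat_lit 304) (nat_lit 78864420276) (nat_lit 380) (nat_lit 172207127875) (nat_lit 59) (nat_lit 5) (nat_lit 63) (nat_lit 5) (nat_lit 64) (nat_lit 5) (nat_lit 323) (nat_lit 309) (nat_lit 148))) (XT.nd (nat_lit 78) (nat_lit 304) (nat_lit 0) (XT.lf (nat_lit 0) (nat_lit 5453622667) (nat_lit 228) (nat_lit 225583534332) (nat_lit 304) (nat_lit 108311988640) (nat_lit 56) (nat_lit 5) (nat_lit 59) (nat_lit 5) (nat_lit 60) (nat_lit 5) (nat_lit 324) (nat_lit 309) (nat_lit 147)) (XT.nd (nat_lit 78) (nat_lit 304) (nat_lit 0) (XT.lf (nat_lit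 0) (nat_lit 290092562435) (nat_lit 228) (nat_lit 32674336221) (nat_lit 304) (nat_lit 33339424527) (nat_lit 56) (nat_lit 5) (nat_lit 59) (nat_lit 5) (nat_lit 60) (nat_lit 5) (nat_lit 325) (nat_lit 309) (nat_lit 146)) (XT.lf (nat_lit 0) (nat_lit 52509629950) (nat_lit 304) (nat_lit 146887717516) (nat_lit 76) (nat_lit 174449386341) (nat_lit 52) (nat_lit 5) (nat_lit 56) (nat_lit 5) (nat_lit 53) (nat_lit 5) (nat_lit 326) (nat_lit 309) (nat_lit 145)))))) (XT.nd (nat_lit 390) (nat_lit 760) (nat_lit 0) (XT.nd (nat_lit 156) (nat_lit 456) (nat_lit 0) (XT.nd (nat_lit 78) (nat_lit 228) (nat_lit 0) (XT.lf (nat_lit 0) (nat_lit 148371145215) (nat_lit 304) (nat_lit 236241411199) (nat_lit 76) (nat_lit 8150864234) (nat_lit 49) (nat_lit 5) (nat_lit 53) (nat_lit 5) (nat_lit 50) (nat_lit 5) (nat_lit 327) (nat_lit 309) (nat_lit 144)) (XT.lf (nat_lit 0) (nat_lit 75393069028) (nat_lit 228) (nat_lit 183648340457)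 (nat_lit 304) (nat_lit 153795041689) (nat_lit 46) (nat_lit 5) (nat_lit 49) (nat_lit 5) (nat_lit 50) (nat_lit 5) (nat_lit 328) (nat_lit 309) (nat_lit 143))) (XT.nd (nat_lit 78) (nat_lit 456) (nat_lit 0) (XT.lf (nat_lit 0) (nat_lit 383269185493) (nat_lit 304) (nat_lit 14504122019) (nat_lit 76) (nat_lit 36506822219) (nat_lit 46) (nat_lit 5) (nat_lit 50) (nat_lit 5) (nat_lit 47) (nat_lit 5) (nat_lit 329) (nat_lit 309) (nat_lit 142)) (XT.nd (nat_lit 78) (nat_lit 228) (nat_lit 0) (XT.lf (nat_lit 0) (nat_lit 66652026215) (nat_lit 228) (nat_lit 115968846027) (nat_lit 76) (nat_lit 274342775838) (nat_lit 43) (nat_lit 5) (nat_lit 46) (nat_lit 5) (nat_lit 44) (nat_lit 5) (nat_lit 330) (nat_lit 309) (nat_lit 141)) (XT.lf (nat_lit 0) (nat_lit 197002271760) (nat_lit 304) (nat_lit 230891977563) (nat_lit 76) (nat_lit 53272715798) (nat_lit 40) (nat_lit 5) (nat_lit 44) (nat_lit 5) (nat_lit 41) (nat_lit 5)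 (nat_lit 331) (nat_lit 309) (nat_lit 140))))) (XT.nd (nat_lit 234) (nat_lit 380) (nat_lit 0) (XT.nd (nat_lit 78) (nat_lit 228) (nat_lit 0) (XT.lf (nat_lit 0) (nat_lit 144258601212) (nat_lit 152) (nat_lit 200906669619) (nat_lit 228) (nat_lit 161772040090) (nat_lit 38) (nat_lit 5) (nat_lit 40) (nat_lit 5) (nat_lit 41) (nat_lit 5) (nat_lit 332) (nat_lit 309) (nat_lit 139)) (XT.nd (nat_lit 78) (nat_lit 76) (nat_lit 0) (XT.lf (nat_lit 0) (nat_lit 23080051554) (nat_lit 152) (nat_lit 487240151422) (nat_lit 228) (nat_lit 24192136833) (nat_lit 36) (nat_lit 5) (nat_lit 38) (nat_lit 5) (nat_lit 39) (nat_lit 5) (nat_lit 333) (nat_lit 309) (nat_lit 138)) (XT.lf (nat_lit 0) (nat_lit 130221538150) (nat_lit 228) (nat_lit 116760326065) (nat_lit 76) (nat_lit 316723961324) (nat_lit 35) (nat_lit 5) (nat_lit 38) (nat_lit 5) (nat_lit 36) (nat_lit 5) (nat_lit 334) (nat_lit 309) (nat_lit 137)))) (XT.nd (nat_lit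 78) (nat_lit 228) (nat_lit 0) (XT.lf (nat_lit 0) (nat_lit 301420631796) (nat_lit 228) (nat_lit 275951821623) (nat_lit 76) (nat_lit 17578512191) (nat_lit 33) (nat_lit 5) (nat_lit 36) (nat_lit 5) (nat_lit 34) (nat_lit 5) (nat_lit 335) (nat_lit 309) (nat_lit 136)) (XT.nd (nat_lit 78) (nat_lit 76) (nat_lit 0) (XT.lf (nat_lit 0) (nat_lit 166320080434) (nat_lit 152) (nat_lit 328824020711) (nat_lit 228) (nat_lit 133110193394) (nat_lit 31) (nat_lit 5) (nat_lit 33) (nat_lit 5) (nat_lit 34) (nat_lit 5) (nat_lit 336) (nat_lit 309) (nat_lit 135)) (XT.lf (nat_lit 0) (nat_lit 43744348741) (nat_lit 228) (nat_lit 10859327700) (nat_lit 76) (nat_lit 609342593971) (nat_lit 30) (nat_lit 5) (nat_lit 33) (nat_lit 5) (nat_lit 31) (nat_lit 5) (nat_lit 337) (nat_lit 309) (nat_lit 134))))))) (XT.nd (nat_lit 39000) (nat_lit 0) (nat_lit 2128) (XT.nd (nat_lit 38532) (nat_lit 0) (nat_lit 4712) (XT.nd (nat_lit 156)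 (nat_lit 152) (nat_lit 0) (XT.nd (nat_lit 78) (nat_lit 152) (nat_lit 0) (XT.lf (nat_lit 0) (nat_lit 241725563253) (nat_lit 228) (nat_lit 216201130784) (nat_lit 76) (nat_lit 243875711565) (nat_lit 28) (nat_lit 5) (nat_lit 31) (nat_lit 5) (nat_lit 29) (nat_lit 5) (nat_lit 338) (nat_lit 309) (nat_lit 133)) (XT.lf (nat_lit 0) (nat_lit 287775631112) (nat_lit 152) (nat_lit 173375547521) (nat_lit 228) (nat_lit 281255557836) (nat_lit 26) (nat_lit 5) (nat_lit 28) (nat_lit 5) (nat_lit 29) (nat_lit 5) (nat_lit 339) (nat_lit 309) (nat_lit 132))) (XT.nd (nat_lit 78) (nat_lit 76) (nat_lit 0) (XT.lf (nat_lit 0) (nat_lit 53271917467) (nat_lit 76) (nat_lit 651609587732) (nat_lit 152) (nat_lit 81040375551) (nat_lit 25) (nat_lit 5) (nat_lit 26) (nat_lit 5) (nat_lit 27) (nat_lit 4) (nat_lit 340) (nat_lit 309) (nat_lit 131)) (XT.nd (nat_lit 38220) (nat_lit 0) (nat_lit 5320) (XT.lf (nat_lit 0) (nat_lit 141837609947)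 (nat_lit 152) (nat_lit 219644434111) (nat_lit 76) (nat_lit 470782027358) (nat_lit 24) (nat_lit 5) (nat_lit 26) (nat_lit 5) (nat_lit 25) (nat_lit 5) (nat_lit 341) (nat_lit 309) (nat_lit 130)) (XT.lf (nat_lit 0) (nat_lit 43529729699) (nat_lit 0) (nat_lit 43529729699) (nat_lit 684) (nat_lit 8731613237) (nat_lit 94) (nat_lit 5) (nat_lit 94) (nat_lit 3) (nat_lit 103) (nat_lit 3) (nat_lit 310) (nat_lit 310) (nat_lit 160))))) (XT.nd (nat_lit 234) (nat_lit 608) (nat_lit 0) (XT.nd (nat_lit 78) (nat_lit 0) (nat_lit 0) (XT.lf (nat_lit 76) (nat_lit 36307730623) (nat_lit 0) (nat_lit 146190875598) (nat_lit 760) (nat_lit 16676073652) (nat_lit 95) (nat_lit 5) (nat_lit 94) (nat_lit 5) (nat_lit 104) (nat_lit 5) (nat_lit 311) (nat_lit 310) (nat_lit 159)) (XT.nd (nat_lit 78) (nat_lit 0) (nat_lit 76) (XT.lf (nat_lit 76) (nat_lit 190620380067) (nat_lit 0) (nat_lit 4193047201) (nat_lit 760) (nat_lit 12397952514)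 (nat_lit 95) (nat_lit 5) (nat_lit 94) (nat_lit 5) (nat_lit 104) (nat_lit 5) (nat_lit 312) (nat_lit 310) (nat_lit 158)) (XT.lf (nat_lit 76) (nat_lit 143655878356) (nat_lit 0) (nat_lit 69029061664) (nat_lit 760) (nat_lit 2977500796) (nat_lit 96) (nat_lit 5) (nat_lit 95) (nat_lit 5) (nat_lit 105) (nat_lit 5) (nat_lit 313) (nat_lit 310) (nat_lit 157)))) (XT.nd (nat_lit 78) (nat_lit 0) (nat_lit 76) (XT.lf (nat_lit 0) (nat_lit 10171852803) (nat_lit 760) (nat_lit 130637678478) (nat_lit 836) (nat_lit 83814157813) (nat_lit 86) (nat_lit 5) (nat_lit 96) (nat_lit 5) (nat_lit 97) (nat_lit 5) (nat_lit 314) (nat_lit 310) (nat_lit 156)) (XT.nd (nat_lit 78) (nat_lit 0) (nat_lit 0) (XT.lf (nat_lit 0) (nat_lit 27583465610) (nat_lit 760) (nat_lit 192678940807) (nat_lit 836) (nat_lit 13871259196) (nat_lit 87) (nat_lit 5) (nat_lit 97) (nat_lit 5) (nat_lit 98) (nat_lit 5) (nat_lit 315) (nat_lit 310) (nat_lit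 155)) (XT.lf (nat_lit 0) (nat_lit 51075041932) (nat_lit 760) (nat_lit 14722886465) (nat_lit 836) (nat_lit 178372160458) (nat_lit 87) (nat_lit 5) (nat_lit 97) (nat_lit 5) (nat_lit 98) (nat_lit 5) (nat_lit 316) (nat_lit 310) (nat_lit 154)))))) (XT.nd (nat_lit 390) (nat_lit 1520) (nat_lit 0) (XT.nd (nat_lit 156) (nat_lit 684) (nat_lit 0) (XT.nd (nat_lit 78) (nat_lit 532) (nat_lit 0) (XT.lf (nat_lit 0) (nat_lit 80932358169) (nat_lit 760) (nat_lit 73153061762) (nat_lit 76) (nat_lit 100699685638) (nat_lit 88) (nat_lit 5) (nat_lit 98) (nat_lit 5) (nat_lit 89) (nat_lit 5) (nat_lit 317) (nat_lit 310) (nat_lit 153)) (XT.lf (nat_lit 0) (nat_lit 116820465004) (nat_lit 608) (nat_lit 135238741331) (nat_lit 76) (nat_lit 14008007302) (nat_lit 81) (nat_lit 5) (nat_lit 89) (nat_lit 5) (nat_lit 82) (nat_lit 5) (nat_lit 318) (nat_lit 310) (nat_lit 152))) (XT.nd (nat_lit 78) (nat_lit 304) (nat_lit 0) (XT.lf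 (nat_lit 0) (nat_lit 75344923336) (nat_lit 380) (nat_lit 85304209811) (nat_lit 456) (nat_lit 117349281825) (nat_lit 76) (nat_lit 5) (nat_lit 81) (nat_lit 5) (nat_lit 82) (nat_lit 5) (nat_lit 319) (nat_lit 310) (nat_lit 151)) (XT.nd (nat_lit 78) (nat_lit 0) (nat_lit 0) (XT.lf (nat_lit 0) (nat_lit 15826088253) (nat_lit 304) (nat_lit 196279289490) (nat_lit 380) (nat_lit 78572670761) (nat_lit 72) (nat_lit 5) (nat_lit 76) (nat_lit 5) (nat_lit 77) (nat_lit 5) (nat_lit 320) (nat_lit 310) (nat_lit 150)) (XT.lf (nat_lit 0) (nat_lit 257534628673) (nat_lit 304) (nat_lit 15088626860) (nat_lit 380) (nat_lit 31501540727) (nat_lit 72) (nat_lit 5) (nat_lit 76) (nat_lit 5) (nat_lit 77) (nat_lit 5) (nat_lit 321) (nat_lit 310) (nat_lit 149))))) (XT.nd (nat_lit 234) (nat_lit 532) (nat_lit 0) (XT.nd (nat_lit 78) (nat_lit 608) (nat_lit 0) (XT.lf (nat_lit 0) (nat_lit 24813504169) (nat_lit 380) (nat_lit 115117335262)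 (nat_lit 76) (nat_lit 178396496998) (nat_lit 67) (nat_lit 5) (nat_lit 72) (nat_lit 5) (nat_lit 68) (nat_lit 5) (nat_lit 322) (nat_lit 310) (nat_lit 148)) (XT.nd (nat_lit 78) (nat_lit 304) (nat_lit 0) (XT.lf (nat_lit 0) (nat_lit 88775527733) (nat_lit 380) (nat_lit 189492051057) (nat_lit 76) (nat_lit 55160408488) (nat_lit 63) (nat_lit 5) (nat_lit 68) (nat_lit 5) (nat_lit 64) (nat_lit 5) (nat_lit 323) (nat_lit 310) (nat_lit 147)) (XT.lf (nat_lit 0) (nat_lit 78301473464) (nat_lit 304) (nat_lit 85173056302) (nat_lit 380) (nat_lit 185981159769) (nat_lit 59) (nat_lit 5) (nat_lit 63) (nat_lit 5) (nat_lit 64) (nat_lit 5) (nat_lit 324) (nat_lit 310) (nat_lit 146)))) (XT.nd (nat_lit 78) (nat_lit 304) (nat_lit 0) (XT.lf (nat_lit 0) (nat_lit 5892827875) (nat_lit 228) (nat_lit 243629590177) (nat_lit 304) (nat_lit 116974541770) (nat_lit 56) (nat_lit 5) (nat_lit 59) (nat_lit 5) (nat_lit 60) (nat_lit 5)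 (nat_lit 325) (nat_lit 310) (nat_lit 145)) (XT.nd (nat_lit 78) (nat_lit 304) (nat_lit 0) (XT.lf (nat_lit 0) (nat_lit 313302666869) (nat_lit 228) (nat_lit 35287702655) (nat_lit 304) (nat_lit 36004350747) (nat_lit 56) (nat_lit 5) (nat_lit 59) (nat_lit 5) (nat_lit 60) (nat_lit 5) (nat_lit 326) (nat_lit 310) (nat_lit 144)) (XT.lf (nat_lit 0) (nat_lit 56712448067) (nat_lit 304) (nat_lit 158635987231) (nat_lit 76) (nat_lit 188405932344) (nat_lit 52) (nat_lit 5) (nat_lit 56) (nat_lit 5) (nat_lit 53) (nat_lit 5) (nat_lit 327) (nat_lit 310) (nat_lit 143))))))))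
noncomputable def xc120 : XT := (XT.nd (nat_lit 39858) (nat_lit 0) (nat_lit 380) (XT.nd (nat_lit 780) (nat_lit 456) (nat_lit 0) (XT.nd (nat_lit 390) (nat_lit 684) (nat_lit 0) (XT.nd (nat_lit 156) (nat_lit 456) (nat_lit 0) (XT.nd (nat_lit 78) (nat_lit 228) (nat_lit 0) (XT.lf (nat_lit 0) (nat_lit 160242784697) (nat_lit 304) (nat_lit 255138007457) (nat_lit 76) (nat_lit 8803602452) (nat_lit 49) (nat_lit 5) (nat_lit 53) (nat_lit 5) (nat_lit 50) (nat_lit 5) (nat_lit 328) (nat_lit 310) (nat_lit 142)) (XT.lf (nat_lit 0) (nat_lit 81427113126) (nat_lit 228) (nat_lit 198339453267) (nat_lit 304) (nat_lit 166096706538) (nat_lit 46) (nat_lit 5) (nat_lit 49) (nat_lit 5) (nat_lit 50) (nat_lit 5) (nat_lit 329) (nat_lit 310) (nat_lit 141))) (XT.nd (nat_lit 78) (nat_lit 456) (nat_lit 0) (XT.lf (nat_lit 0) (nat_lit 413932438785) (nat_lit 304) (nat_lit 15661969249) (nat_lit 76) (nat_lit 39428044182) (nat_lit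 46) (nat_lit 5) (nat_lit 50) (nat_lit 5) (nat_lit 47) (nat_lit 5) (nat_lit 330) (nat_lit 310) (nat_lit 140)) (XT.nd (nat_lit 78) (nat_lit 228) (nat_lit 0) (XT.lf (nat_lit 0) (nat_lit 71985845006) (nat_lit 228) (nat_lit 125243922548) (nat_lit 76) (nat_lit 296290887798) (nat_lit 43) (nat_lit 5) (nat_lit 46) (nat_lit 5) (nat_lit 44) (nat_lit 5) (nat_lit 331) (nat_lit 310) (nat_lit 139)) (XT.lf (nat_lit 0) (nat_lit 212764035575) (nat_lit 304) (nat_lit 249360941930) (nat_lit 76) (nat_lit 57535264111) (nat_lit 40) (nat_lit 5) (nat_lit 44) (nat_lit 5) (nat_lit 41) (nat_lit 5) (nat_lit 332) (nat_lit 310) (nat_lit 138))))) (XT.nd (nat_lit 156) (nat_lit 380) (nat_lit 0) (XT.nd (nat_lit 78) (nat_lit 152) (nat_lit 0) (XT.lf (nat_lit 0) (nat_lit 155801579114) (nat_lit 152) (nat_lit 216978414017) (nat_lit 228) (nat_lit 174712226140) (nat_lit 38) (nat_lit 5) (nat_lit 40) (nat_lit 5) (nat_lit 41) (nat_lit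 5) (nat_lit 333) (nat_lit 310) (nat_lit 137)) (XT.lf (nat_lit 0) (nat_lit 24928707382) (nat_lit 152) (nat_lit 526218547871) (nat_lit 228) (nat_lit 26125998557) (nat_lit 36) (nat_lit 5) (nat_lit 38) (nat_lit 5) (nat_lit 39) (nat_lit 5) (nat_lit 334) (nat_lit 310) (nat_lit 136))) (XT.nd (nat_lit 78) (nat_lit 304) (nat_lit 0) (XT.lf (nat_lit 0) (nat_lit 140640613904) (nat_lit 228) (nat_lit 126099021295) (nat_lit 76) (nat_lit 342062587531) (nat_lit 35) (nat_lit 5) (nat_lit 38) (nat_lit 5) (nat_lit 36) (nat_lit 5) (nat_lit 335) (nat_lit 310) (nat_lit 135)) (XT.nd (nat_lit 78) (nat_lit 152) (nat_lit 0) (XT.lf (nat_lit 0) (nat_lit 325535578434) (nat_lit 228) (nat_lit 298025875530) (nat_lit 76) (nat_lit 18985522963) (nat_lit 33) (nat_lit 5) (nat_lit 36) (nat_lit 5) (nat_lit 34) (nat_lit 5) (nat_lit 336) (nat_lit 310) (nat_lit 134)) (XT.lf (nat_lit 0) (nat_lit 179627687784) (nat_lit 152) (nat_lit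 355129172781) (nat_lit 228) (nat_lit 143757714927) (nat_lit 31) (nat_lit 5) (nat_lit 33) (nat_lit 5) (nat_lit 34) (nat_lit 5) (nat_lit 337) (nat_lit 310) (nat_lit 133)))))) (XT.nd (nat_lit 38610) (nat_lit 0) (nat_lit 4636) (XT.nd (nat_lit 156) (nat_lit 228) (nat_lit 0) (XT.nd (nat_lit 78) (nat_lit 152) (nat_lit 0) (XT.lf (nat_lit 0) (nat_lit 47245056385) (nat_lit 228) (nat_lit 11726181950) (nat_lit 76) (nat_lit 658090674803) (nat_lit 30) (nat_lit 5) (nat_lit 33) (nat_lit 5) (nat_lit 31) (nat_lit 5) (nat_lit 338) (nat_lit 310) (nat_lit 132)) (XT.lf (nat_lit 0) (nat_lit 261064721454) (nat_lit 228) (nat_lit 233495366595) (nat_lit 76) (nat_lit 263386453492) (nat_lit 28) (nat_lit 5) (nat_lit 31) (nat_lit 5) (nat_lit 29) (nat_lit 5) (nat_lit 339) (nat_lit 310) (nat_lit 131))) (XT.nd (nat_lit 78) (nat_lit 76) (nat_lit 0) (XT.lf (nat_lit 0) (nat_lit 310799455651) (nat_lit 152) (nat_lit 187244875657)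 (nat_lit 228) (nat_lit 303754890370) (nat_lit 26) (nat_lit 5) (nat_lit 28) (nat_lit 5) (nat_lit 29) (nat_lit 5) (nat_lit 340) (nat_lit 310) (nat_lit 130)) (XT.nd (nat_lit 38298) (nat_lit 0) (nat_lit 5244) (XT.lf (nat_lit 0) (nat_lit 57535408503) (nat_lit 76) (nat_lit 703737634573) (nat_lit 152) (nat_lit 87522536531) (nat_lit 25) (nat_lit 5) (nat_lit 26) (nat_lit 5) (nat_lit 27) (nat_lit 4) (nat_lit 341) (nat_lit 310) (nat_lit 129)) (XT.lf (nat_lit 0) (nat_lit 47013391814) (nat_lit 0) (nat_lit 47013391814) (nat_lit 684) (nat_lit 9427441882) (nat_lit 94) (nat_lit 5) (nat_lit 94) (nat_lit 3) (nat_lit 103) (nat_lit 3) (nat_lit 311) (nat_lit 311) (nat_lit 158))))) (XT.nd (nat_lit 234) (nat_lit 608) (nat_lit 0) (XT.nd (nat_lit 78) (nat_lit 0) (nat_lit 0) (XT.lf (nat_lit 76) (nat_lit 39215097632) (nat_lit 0) (nat_lit 157888157475) (nat_lit 760) (nat_lit 18005152692) (nat_lit 95) (nat_lit 5) (nat_lit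 94) (nat_lit 5) (nat_lit 104) (nat_lit 5) (nat_lit 312) (nat_lit 311) (nat_lit 157)) (XT.nd (nat_lit 78) (nat_lit 0) (nat_lit 76) (XT.lf (nat_lit 76) (nat_lit 205872555434) (nat_lit 0) (nat_lit 4530353782) (nat_lit 760) (nat_lit 13385152740) (nat_lit 95) (nat_lit 5) (nat_lit 94) (nat_lit 5) (nat_lit 104) (nat_lit 5) (nat_lit 313) (nat_lit 311) (nat_lit 156)) (XT.lf (nat_lit 76) (nat_lit 155151029096) (nat_lit 0) (nat_lit 74552802311) (nat_lit 760) (nat_lit 3211392624) (nat_lit 96) (nat_lit 5) (nat_lit 95) (nat_lit 5) (nat_lit 105) (nat_lit 5) (nat_lit 314) (nat_lit 311) (nat_lit 155)))) (XT.nd (nat_lit 78) (nat_lit 0) (nat_lit 76) (XT.lf (nat_lit 0) (nat_lit 10989485899) (nat_lit 760) (nat_lit 141085769961) (nat_lit 836) (nat_lit 90518127734) (nat_lit 86) (nat_lit 5) (nat_lit 96) (nat_lit 5) (nat_lit 97) (nat_lit 5) (nat_lit 315) (nat_lit 311) (nat_lit 154)) (XT.nd (nat_lit 78) (nat_lit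 0) (nat_lit 0) (XT.lf (nat_lit 0) (nat_lit 29793770419) (nat_lit 760) (nat_lit 208090259155) (nat_lit 836) (nat_lit 14980141998) (nat_lit 87) (nat_lit 5) (nat_lit 97) (nat_lit 5) (nat_lit 98) (nat_lit 5) (nat_lit 316) (nat_lit 311) (nat_lit 153)) (XT.lf (nat_lit 0) (nat_lit 55164404139) (nat_lit 760) (nat_lit 15897942459) (nat_lit 836) (nat_lit 192641175949) (nat_lit 87) (nat_lit 5) (nat_lit 97) (nat_lit 5) (nat_lit 98) (nat_lit 5) (nat_lit 317) (nat_lit 311) (nat_lit 152))))))) (XT.nd (nat_lit 858) (nat_lit 1672) (nat_lit 0) (XT.nd (nat_lit 390) (nat_lit 1520) (nat_lit 0) (XT.nd (nat_lit 156) (nat_lit 684) (nat_lit 0) (XT.nd (nat_lit 78) (nat_lit 532) (nat_lit 0) (XT.lf (nat_lit 0) (nat_lit 87410090550) (nat_lit 760) (nat_lit 79002481969) (nat_lit 76) (nat_lit 108755179241) (nat_lit 88) (nat_lit 5) (nat_lit 98) (nat_lit 5) (nat_lit 89) (nat_lit 5) (nat_lit 318) (nat_lit 311) (nat_lit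 151)) (XT.lf (nat_lit 0) (nat_lit 126169051329) (nat_lit 608) (nat_lit 146054982398) (nat_lit 76) (nat_lit 15128404852) (nat_lit 81) (nat_lit 5) (nat_lit 89) (nat_lit 5) (nat_lit 82) (nat_lit 5) (nat_lit 319) (nat_lit 311) (nat_lit 150))) (XT.nd (nat_lit 78) (nat_lit 304) (nat_lit 0) (XT.lf (nat_lit 0) (nat_lit 81375251227) (nat_lit 380) (nat_lit 92128585928) (nat_lit 456) (nat_lit 126734308001) (nat_lit 76) (nat_lit 5) (nat_lit 81) (nat_lit 5) (nat_lit 82) (nat_lit 5) (nat_lit 320) (nat_lit 311) (nat_lit 149)) (XT.nd (nat_lit 78) (nat_lit 0) (nat_lit 0) (XT.lf (nat_lit 0) (nat_lit 17094927906) (nat_lit 304) (nat_lit 211981490386) (nat_lit 380) (nat_lit 84855739552) (nat_lit 72) (nat_lit 5) (nat_lit 76) (nat_lit 5) (nat_lit 77) (nat_lit 5) (nat_lit 321) (nat_lit 311) (nat_lit 148)) (XT.lf (nat_lit 0) (nat_lit 278139947664) (nat_lit 304) (nat_lit 16295585284) (nat_lit 380) (nat_lit 34019122439)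 (nat_lit 72) (nat_lit 5) (nat_lit 76) (nat_lit 5) (nat_lit 77) (nat_lit 5) (nat_lit 322) (nat_lit 311) (nat_lit 147))))) (XT.nd (nat_lit 234) (nat_lit 532) (nat_lit 0) (XT.nd (nat_lit 78) (nat_lit 608) (nat_lit 0) (XT.lf (nat_lit 0) (nat_lit 26800904949) (nat_lit 380) (nat_lit 124324086945) (nat_lit 76) (nat_lit 192668412141) (nat_lit 67) (nat_lit 5) (nat_lit 72) (nat_lit 5) (nat_lit 68) (nat_lit 5) (nat_lit 323) (nat_lit 311) (nat_lit 146)) (XT.nd (nat_lit 78) (nat_lit 304) (nat_lit 0) (XT.lf (nat_lit 0) (nat_lit 95879763061) (nat_lit 380) (nat_lit 204648787281) (nat_lit 76) (nat_lit 59573563221) (nat_lit 63) (nat_lit 5) (nat_lit 68) (nat_lit 5) (nat_lit 64) (nat_lit 5) (nat_lit 324) (nat_lit 311) (nat_lit 145)) (XT.lf (nat_lit 0) (nat_lit 84568104999) (nat_lit 304) (nat_lit 91986457051) (nat_lit 380) (nat_lit 200857476336) (nat_lit 59) (nat_lit 5) (nat_lit 63) (nat_lit 5) (nat_lit 64)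 (nat_lit 5) (nat_lit 325) (nat_lit 311) (nat_lit 144)))) (XT.nd (nat_lit 78) (nat_lit 304) (nat_lit 0) (XT.lf (nat_lit 0) (nat_lit 6366753587) (nat_lit 228) (nat_lit 263119419925) (nat_lit 304) (nat_lit 126330442388) (nat_lit 56) (nat_lit 5) (nat_lit 59) (nat_lit 5) (nat_lit 60) (nat_lit 5) (nat_lit 326) (nat_lit 311) (nat_lit 143)) (XT.nd (nat_lit 78) (nat_lit 304) (nat_lit 0) (XT.lf (nat_lit 0) (nat_lit 338369194554) (nat_lit 228) (nat_lit 38110221214) (nat_lit 304) (nat_lit 38882788878) (nat_lit 56) (nat_lit 5) (nat_lit 59) (nat_lit 5) (nat_lit 60) (nat_lit 5) (nat_lit 327) (nat_lit 311) (nat_lit 142)) (XT.lf (nat_lit 0) (nat_lit 61251199503) (nat_lit 304) (nat_lit 171324510511) (nat_lit 76) (nat_lit 203478917130) (nat_lit 52) (nat_lit 5) (nat_lit 56) (nat_lit 5) (nat_lit 53) (nat_lit 5) (nat_lit 328) (nat_lit 311) (nat_lit 141)))))) (XT.nd (nat_lit 390) (nat_lit 760) (nat_lit 0) (XT.nd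 (nat_lit 156) (nat_lit 456) (nat_lit 0) (XT.nd (nat_lit 78) (nat_lit 228) (nat_lit 0) (XT.lf (nat_lit 0) (nat_lit 173063877453) (nat_lit 304) (nat_lit 275546718975) (nat_lit 76) (nat_lit 9508464276) (nat_lit 49) (nat_lit 5) (nat_lit 53) (nat_lit 5) (nat_lit 50) (nat_lit 5) (nat_lit 329) (nat_lit 311) (nat_lit 140)) (XT.lf (nat_lit 0) (nat_lit 87943510036) (nat_lit 228) (nat_lit 214205962730) (nat_lit 304) (nat_lit 179382781121) (nat_lit 46) (nat_lit 5) (nat_lit 49) (nat_lit 5) (nat_lit 50) (nat_lit 5) (nat_lit 330) (nat_lit 311) (nat_lit 139))) (XT.nd (nat_lit 78) (nat_lit 456) (nat_lit 0) (XT.lf (nat_lit 0) (nat_lit 447048507183) (nat_lit 304) (nat_lit 16912798418) (nat_lit 76) (nat_lit 42582867436) (nat_lit 46) (nat_lit 5) (nat_lit 50) (nat_lit 5) (nat_lit 47) (nat_lit 5) (nat_lit 331) (nat_lit 311) (nat_lit 138)) (XT.nd (nat_lit 78) (nat_lit 228) (nat_lit 0) (XT.lf (nat_lit 0) (nat_lit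 77746132955) (nat_lit 228) (nat_lit 135261352024) (nat_lit 76) (nat_lit 319994750294) (nat_lit 43) (nat_lit 5) (nat_lit 46) (nat_lit 5) (nat_lit 44) (nat_lit 5) (nat_lit 332) (nat_lit 311) (nat_lit 137)) (XT.lf (nat_lit 0) (nat_lit 229786514795) (nat_lit 304) (nat_lit 269307764954) (nat_lit 76) (nat_lit 62138711998) (nat_lit 40) (nat_lit 5) (nat_lit 44) (nat_lit 5) (nat_lit 41) (nat_lit 5) (nat_lit 333) (nat_lit 311) (nat_lit 136))))) (XT.nd (nat_lit 234) (nat_lit 380) (nat_lit 0) (XT.nd (nat_lit 78) (nat_lit 228) (nat_lit 0) (XT.lf (nat_lit 0) (nat_lit 168267668582) (nat_lit 152) (nat_lit 234336010552) (nat_lit 228) (nat_lit 188687852074) (nat_lit 38) (nat_lit 5) (nat_lit 40) (nat_lit 5) (nat_lit 41) (nat_lit 5) (nat_lit 334) (nat_lit 311) (nat_lit 135)) (XT.nd (nat_lit 78) (nat_lit 76) (nat_lit 0) (XT.lf (nat_lit 0) (nat_lit 26924934446) (nat_lit 152) (nat_lit 568315332400) (nat_lit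 228) (nat_lit 28214784527) (nat_lit 36) (nat_lit 5) (nat_lit 38) (nat_lit 5) (nat_lit 39) (nat_lit 5) (nat_lit 335) (nat_lit 311) (nat_lit 134)) (XT.lf (nat_lit 0) (nat_lit 151893022740) (nat_lit 228) (nat_lit 136185116134) (nat_lit 76) (nat_lit 369428202645) (nat_lit 35) (nat_lit 5) (nat_lit 38) (nat_lit 5) (nat_lit 36) (nat_lit 5) (nat_lit 336) (nat_lit 311) (nat_lit 133)))) (XT.nd (nat_lit 78) (nat_lit 228) (nat_lit 0) (XT.lf (nat_lit 0) (nat_lit 351579535902) (nat_lit 228) (nat_lit 321866152172) (nat_lit 76) (nat_lit 20504990482) (nat_lit 33) (nat_lit 5) (nat_lit 36) (nat_lit 5) (nat_lit 34) (nat_lit 5) (nat_lit 337) (nat_lit 311) (nat_lit 132)) (XT.nd (nat_lit 78) (nat_lit 76) (nat_lit 0) (XT.lf (nat_lit 0) (nat_lit 193999618269) (nat_lit 152) (nat_lit 383538846807) (nat_lit 228) (nat_lit 155257222778) (nat_lit 31) (nat_lit 5) (nat_lit 33) (nat_lit 5) (nat_lit 34) (nat_lit 5) (nat_lit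 338) (nat_lit 311) (nat_lit 131)) (XT.lf (nat_lit 0) (nat_lit 51025655190) (nat_lit 228) (nat_lit 12662654451) (nat_lit 76) (nat_lit 710738506045) (nat_lit 30) (nat_lit 5) (nat_lit 33) (nat_lit 5) (nat_lit 31) (nat_lit 5) (nat_lit 339) (nat_lit 311) (nat_lit 130))))))))
noncomputable def xc121 : XT := (XT.nd (nat_lit 39936) (nat_lit 0) (nat_lit 304) (XT.nd (nat_lit 39078) (nat_lit 0) (nat_lit 1748) (XT.nd (nat_lit 38688) (nat_lit 0) (nat_lit 4560) (XT.nd (nat_lit 38454) (nat_lit 0) (nat_lit 5168) (XT.nd (nat_lit 78) (nat_lit 152) (nat_lit 0) (XT.lf (nat_lit 0) (nat_lit 281950853510) (nat_lit 228) (nat_lit 252173405858) (nat_lit 76) (nat_lit 284457957049) (nat_lit 28) (nat_lit 5) (nat_lit 31) (nat_lit 5) (nat_lit 29) (nat_lit 5) (nat_lit 340) (nat_lit 311) (nat_lit 129)) (XT.lf (nat_lit 0) (nat_lit 335664933066) (nat_lit 152) (nat_lit 202223852140) (nat_lit 228) (nat_lit 328054328160) (nat_lit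 26) (nat_lit 5) (nat_lit 28) (nat_lit 5) (nat_lit 29) (nat_lit 5) (nat_lit 341) (nat_lit 311) (nat_lit 128))) (XT.nd (nat_lit 78) (nat_lit 0) (nat_lit 0) (XT.lf (nat_lit 0) (nat_lit 50775563759) (nat_lit 0) (nat_lit 50775563759) (nat_lit 684) (nat_lit 10179322063) (nat_lit 94) (nat_lit 5) (nat_lit 94) (nat_lit 3) (nat_lit 103) (nat_lit 3) (nat_lit 312) (nat_lit 312) (nat_lit 156)) (XT.nd (nat_lit 78) (nat_lit 0) (nat_lit 0) (XT.lf (nat_lit 76) (nat_lit 42354661888) (nat_lit 0) (nat_lit 170520934893) (nat_lit 760) (nat_lit 19441272338) (nat_lit 95) (nat_lit 5) (nat_lit 94) (nat_lit 5) (nat_lit 104) (nat_lit 5) (nat_lit 313) (nat_lit 312) (nat_lit 155)) (XT.lf (nat_lit 76) (nat_lit 222344541763) (nat_lit 0) (nat_lit 4894379140) (nat_lit 760) (nat_lit 14451990358) (nat_lit 95) (nat_lit 5) (nat_lit 94) (nat_lit 5) (nat_lit 104) (nat_lit 5) (nat_lit 314) (nat_lit 312) (nat_lit 154))))) (XT.nd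 (nat_lit 156) (nat_lit 0) (nat_lit 76) (XT.nd (nat_lit 78) (nat_lit 684) (nat_lit 0) (XT.lf (nat_lit 76) (nat_lit 167565409495) (nat_lit 0) (nat_lit 80518240242) (nat_lit 760) (nat_lit 3464610416) (nat_lit 96) (nat_lit 5) (nat_lit 95) (nat_lit 5) (nat_lit 105) (nat_lit 5) (nat_lit 315) (nat_lit 312) (nat_lit 153)) (XT.lf (nat_lit 0) (nat_lit 11871975421) (nat_lit 760) (nat_lit 152370125732) (nat_lit 836) (nat_lit 97758581121) (nat_lit 86) (nat_lit 5) (nat_lit 96) (nat_lit 5) (nat_lit 97) (nat_lit 5) (nat_lit 316) (nat_lit 312) (nat_lit 152))) (XT.nd (nat_lit 78) (nat_lit 0) (nat_lit 0) (XT.lf (nat_lit 0) (nat_lit 32180382100) (nat_lit 760) (nat_lit 224734910514) (nat_lit 836) (nat_lit 16177852112) (nat_lit 87) (nat_lit 5) (nat_lit 97) (nat_lit 5) (nat_lit 98) (nat_lit 5) (nat_lit 317) (nat_lit 312) (nat_lit 151)) (XT.nd (nat_lit 78) (nat_lit 0) (nat_lit 76) (XT.lf (nat_lit 0) (nat_lit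 59580436144) (nat_lit 760) (nat_lit 17167398806) (nat_lit 836) (nat_lit 208051820723) (nat_lit 87) (nat_lit 5) (nat_lit 97) (nat_lit 5) (nat_lit 98) (nat_lit 5) (nat_lit 318) (nat_lit 312) (nat_lit 150)) (XT.lf (nat_lit 0) (nat_lit 94405593034) (nat_lit 760) (nat_lit 85320258773) (nat_lit 76) (nat_lit 117455180987) (nat_lit 88) (nat_lit 5) (nat_lit 98) (nat_lit 5) (nat_lit 89) (nat_lit 5) (nat_lit 319) (nat_lit 312) (nat_lit 149)))))) (XT.nd (nat_lit 390) (nat_lit 1368) (nat_lit 0) (XT.nd (nat_lit 156) (nat_lit 684) (nat_lit 0) (XT.nd (nat_lit 78) (nat_lit 380) (nat_lit 0) (XT.lf (nat_lit 0) (nat_lit 136265103834) (nat_lit 608) (nat_lit 157736930510) (nat_lit 76) (nat_lit 16338468878) (nat_lit 81) (nat_lit 5) (nat_lit 89) (nat_lit 5) (nat_lit 82) (nat_lit 5) (nat_lit 320) (nat_lit 312) (nat_lit 148)) (XT.lf (nat_lit 0) (nat_lit 87887615310) (nat_lit 380) (nat_lit 99498906523) (nat_lit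 456) (nat_lit 136870552324) (nat_lit 76) (nat_lit 5) (nat_lit 81) (nat_lit 5) (nat_lit 82) (nat_lit 5) (nat_lit 321) (nat_lit 312) (nat_lit 147))) (XT.nd (nat_lit 78) (nat_lit 380) (nat_lit 0) (XT.lf (nat_lit 0) (nat_lit 18464882043) (nat_lit 304) (nat_lit 228939887649) (nat_lit 380) (nat_lit 91641845433) (nat_lit 72) (nat_lit 5) (nat_lit 76) (nat_lit 5) (nat_lit 77) (nat_lit 5) (nat_lit 322) (nat_lit 312) (nat_lit 146)) (XT.nd (nat_lit 78) (nat_lit 380) (nat_lit 0) (XT.lf (nat_lit 0) (nat_lit 300393328574) (nat_lit 304) (nat_lit 17599119173) (nat_lit 380) (nat_lit 36738473267) (nat_lit 72) (nat_lit 5) (nat_lit 76) (nat_lit 5) (nat_lit 77) (nat_lit 5) (nat_lit 323) (nat_lit 312) (nat_lit 145)) (XT.lf (nat_lit 0) (nat_lit 28946966753) (nat_lit 380) (nat_lit 134267754696) (nat_lit 76) (nat_lit 208082052623) (nat_lit 67) (nat_lit 5) (nat_lit 72) (nat_lit 5) (nat_lit 68) (nat_lit 5) (nat_lit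 324) (nat_lit 312) (nat_lit 144))))) (XT.nd (nat_lit 234) (nat_lit 532) (nat_lit 0) (XT.nd (nat_lit 78) (nat_lit 532) (nat_lit 0) (XT.lf (nat_lit 0) (nat_lit 103552024344) (nat_lit 380) (nat_lit 221018437296) (nat_lit 76) (nat_lit 64339724388) (nat_lit 63) (nat_lit 5) (nat_lit 68) (nat_lit 5) (nat_lit 64) (nat_lit 5) (nat_lit 325) (nat_lit 312) (nat_lit 143)) (XT.nd (nat_lit 78) (nat_lit 228) (nat_lit 0) (XT.lf (nat_lit 0) (nat_lit 91335708455) (nat_lit 304) (nat_lit 99344993166) (nat_lit 380) (nat_lit 216924208690) (nat_lit 59) (nat_lit 5) (nat_lit 63) (nat_lit 5) (nat_lit 64) (nat_lit 5) (nat_lit 326) (nat_lit 312) (nat_lit 142)) (XT.lf (nat_lit 0) (nat_lit 6878236776) (nat_lit 228) (nat_lit 284168512729) (nat_lit 304) (nat_lit 136435109326) (nat_lit 56) (nat_lit 5) (nat_lit 59) (nat_lit 5) (nat_lit 60) (nat_lit 5) (nat_lit 327) (nat_lit 312) (nat_lit 141)))) (XT.nd (nat_lit 78) (nat_lit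 532) (nat_lit 0) (XT.lf (nat_lit 0) (nat_lit 365440714287) (nat_lit 228) (nat_lit 41158612253) (nat_lit 304) (nat_lit 41991774531) (nat_lit 56) (nat_lit 5) (nat_lit 59) (nat_lit 5) (nat_lit 60) (nat_lit 5) (nat_lit 328) (nat_lit 312) (nat_lit 140)) (XT.nd (nat_lit 78) (nat_lit 228) (nat_lit 0) (XT.lf (nat_lit 0) (nat_lit 66152800600) (nat_lit 304) (nat_lit 185028451720) (nat_lit 76) (nat_lit 219757667913) (nat_lit 52) (nat_lit 5) (nat_lit 56) (nat_lit 5) (nat_lit 53) (nat_lit 5) (nat_lit 329) (nat_lit 312) (nat_lit 139)) (XT.lf (nat_lit 0) (nat_lit 186910419388) (nat_lit 304) (nat_lit 297588459683) (nat_lit 76) (nat_lit 10269633212) (nat_lit 49) (nat_lit 5) (nat_lit 53) (nat_lit 5) (nat_lit 50) (nat_lit 5) (nat_lit 330) (nat_lit 312) (nat_lit 138))))))) (XT.nd (nat_lit 39390) (nat_lit 0) (nat_lit 2812) (XT.nd (nat_lit 390) (nat_lit 608) (nat_lit 0) (XT.nd (nat_lit 156) (nat_lit 608) (nat_lit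 0) (XT.nd (nat_lit 78) (nat_lit 0) (nat_lit 0) (XT.lf (nat_lit 0) (nat_lit 94980900870) (nat_lit 228) (nat_lit 231341885222) (nat_lit 304) (nat_lit 193731978765) (nat_lit 46) (nat_lit 5) (nat_lit 49) (nat_lit 5) (nat_lit 50) (nat_lit 5) (nat_lit 331) (nat_lit 312) (nat_lit 137)) (XT.lf (nat_lit 0) (nat_lit 482813650871) (nat_lit 304) (nat_lit 18263997557) (nat_lit 76) (nat_lit 45989993847) (nat_lit 46) (nat_lit 5) (nat_lit 50) (nat_lit 5) (nat_lit 47) (nat_lit 5) (nat_lit 332) (nat_lit 312) (nat_lit 136))) (XT.nd (nat_lit 78) (nat_lit 380) (nat_lit 0) (XT.lf (nat_lit 0) (nat_lit 83967041311) (nat_lit 228) (nat_lit 146080473210) (nat_lit 76) (nat_lit 345594837410) (nat_lit 43) (nat_lit 5) (nat_lit 46) (nat_lit 5) (nat_lit 44) (nat_lit 5) (nat_lit 333) (nat_lit 312) (nat_lit 135)) (XT.nd (nat_lit 78) (nat_lit 152) (nat_lit 0) (XT.lf (nat_lit 0) (nat_lit 248170598851) (nat_lit 304) (nat_lit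 290850626608) (nat_lit 76) (nat_lit 67110346301) (nat_lit 40) (nat_lit 5) (nat_lit 44) (nat_lit 5) (nat_lit 41) (nat_lit 5) (nat_lit 334) (nat_lit 312) (nat_lit 134)) (XT.lf (nat_lit 0) (nat_lit 181730765143) (nat_lit 152) (nat_lit 253082311332) (nat_lit 228) (nat_lit 203781720983) (nat_lit 38) (nat_lit 5) (nat_lit 40) (nat_lit 5) (nat_lit 41) (nat_lit 5) (nat_lit 335) (nat_lit 312) (nat_lit 133))))) (XT.nd (nat_lit 312) (nat_lit 228) (nat_lit 0) (XT.nd (nat_lit 78) (nat_lit 228) (nat_lit 0) (XT.lf (nat_lit 0) (nat_lit 29080584272) (nat_lit 152) (nat_lit 613779959455) (nat_lit 228) (nat_lit 30470857966) (nat_lit 36) (nat_lit 5) (nat_lit 38) (nat_lit 5) (nat_lit 39) (nat_lit 5) (nat_lit 336) (nat_lit 312) (nat_lit 132)) (XT.nd (nat_lit 78) (nat_lit 152) (nat_lit 0) (XT.lf (nat_lit 0) (nat_lit 164045458835) (nat_lit 228) (nat_lit 147078359183) (nat_lit 76) (nat_lit 398982980214) (nat_lit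 35) (nat_lit 5) (nat_lit 38) (nat_lit 5) (nat_lit 36) (nat_lit 5) (nat_lit 337) (nat_lit 312) (nat_lit 131)) (XT.lf (nat_lit 0) (nat_lit 379706851443) (nat_lit 228) (nat_lit 347613906793) (nat_lit 76) (nat_lit 22145926142) (nat_lit 33) (nat_lit 5) (nat_lit 36) (nat_lit 5) (nat_lit 34) (nat_lit 5) (nat_lit 338) (nat_lit 312) (nat_lit 130)))) (XT.nd (nat_lit 38532) (nat_lit 0) (nat_lit 4864) (XT.lf (nat_lit 0) (nat_lit 55108560052) (nat_lit 228) (nat_lit 13674276155) (nat_lit 76) (nat_lit 767598081435) (nat_lit 30) (nat_lit 5) (nat_lit 33) (nat_lit 5) (nat_lit 31) (nat_lit 5) (nat_lit 340) (nat_lit 312) (nat_lit 128)) (XT.nd (nat_lit 78) (nat_lit 0) (nat_lit 0) (XT.lf (nat_lit 0) (nat_lit 54838552447) (nat_lit 0) (nat_lit 54838552447) (nat_lit 684) (nat_lit 10991682943) (nat_lit 94) (nat_lit 5) (nat_lit 94) (nat_lit 3) (nat_lit 103) (nat_lit 3) (nat_lit 313) (nat_lit 313) (nat_lit 154))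 (XT.lf (nat_lit 76) (nat_lit 45745055111) (nat_lit 0) (nat_lit 184164088439) (nat_lit 760) (nat_lit 20992893938) (nat_lit 95) (nat_lit 5) (nat_lit 94) (nat_lit 5) (nat_lit 104) (nat_lit 5) (nat_lit 314) (nat_lit 313) (nat_lit 153)))))) (XT.nd (nat_lit 390) (nat_lit 1444) (nat_lit 0) (XT.nd (nat_lit 156) (nat_lit 608) (nat_lit 0) (XT.nd (nat_lit 78) (nat_lit 0) (nat_lit 76) (XT.lf (nat_lit 76) (nat_lit 240133975727) (nat_lit 0) (nat_lit 5287298688) (nat_lit 760) (nat_lit 15604742007) (nat_lit 95) (nat_lit 5) (nat_lit 94) (nat_lit 5) (nat_lit 104) (nat_lit 5) (nat_lit 315) (nat_lit 313) (nat_lit 152)) (XT.lf (nat_lit 76) (nat_lit 180972612481) (nat_lit 0) (nat_lit 86960740054) (nat_lit 760) (nat_lit 3738612568) (nat_lit 96) (nat_lit 5) (nat_lit 95) (nat_lit 5) (nat_lit 105) (nat_lit 5) (nat_lit 316) (nat_lit 313) (nat_lit 151))) (XT.nd (nat_lit 78) (nat_lit 0) (nat_lit 76) (XT.lf (nat_lit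 0) (nat_lit 12824588951) (nat_lit 760) (nat_lit 164557587448) (nat_lit 836) (nat_lit 105578412988) (nat_lit 86) (nat_lit 5) (nat_lit 96) (nat_lit 5) (nat_lit 97) (nat_lit 5) (nat_lit 317) (nat_lit 313) (nat_lit 150)) (XT.nd (nat_lit 78) (nat_lit 0) (nat_lit 0) (XT.lf (nat_lit 0) (nat_lit 34757479033) (nat_lit 760) (nat_lit 242711500531) (nat_lit 836) (nat_lit 17471479076) (nat_lit 87) (nat_lit 5) (nat_lit 97) (nat_lit 5) (nat_lit 98) (nat_lit 5) (nat_lit 318) (nat_lit 313) (nat_lit 149)) (XT.lf (nat_lit 0) (nat_lit 64349339892) (nat_lit 760) (nat_lit 18538751060) (nat_lit 836) (nat_lit 224695409709) (nat_lit 87) (nat_lit 5) (nat_lit 97) (nat_lit 5) (nat_lit 98) (nat_lit 5) (nat_lit 319) (nat_lit 313) (nat_lit 148))))) (XT.nd (nat_lit 234) (nat_lit 684) (nat_lit 0) (XT.nd (nat_lit 78) (nat_lit 912) (nat_lit 0) (XT.lf (nat_lit 0) (nat_lit 101960351210) (nat_lit 760) (nat_lit 92143803211)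 (nat_lit 76) (nat_lit 126851241733) (nat_lit 88) (nat_lit 5) (nat_lit 98) (nat_lit 5) (nat_lit 89) (nat_lit 5) (nat_lit 320) (nat_lit 313) (nat_lit 147)) (XT.nd (nat_lit 78) (nat_lit 380) (nat_lit 0) (XT.lf (nat_lit 0) (nat_lit 147168479835) (nat_lit 608) (nat_lit 170353784059) (nat_lit 76) (nat_lit 17645367751) (nat_lit 81) (nat_lit 5) (nat_lit 89) (nat_lit 5) (nat_lit 82) (nat_lit 5) (nat_lit 321) (nat_lit 313) (nat_lit 146)) (XT.lf (nat_lit 0) (nat_lit 94920634125) (nat_lit 380) (nat_lit 107458847955) (nat_lit 456) (nat_lit 147818052891) (nat_lit 76) (nat_lit 5) (nat_lit 81) (nat_lit 5) (nat_lit 82) (nat_lit 5) (nat_lit 322) (nat_lit 313) (nat_lit 145)))) (XT.nd (nat_lit 78) (nat_lit 380) (nat_lit 0) (XT.lf (nat_lit 0) (nat_lit 19944095845) (nat_lit 304) (nat_lit 247254974093) (nat_lit 380) (nat_lit 98971175506) (nat_lit 72) (nat_lit 5) (nat_lit 76) (nat_lit 5) (nat_lit 77) (nat_lit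 5) (nat_lit 323) (nat_lit 313) (nat_lit 144)) (XT.nd (nat_lit 78) (nat_lit 380) (nat_lit 0) (XT.lf (nat_lit 0) (nat_lit 324426668228) (nat_lit 304) (nat_lit 19006951885) (nat_lit 380) (nat_lit 39675683016) (nat_lit 72) (nat_lit 5) (nat_lit 76) (nat_lit 5) (nat_lit 77) (nat_lit 5) (nat_lit 324) (nat_lit 313) (nat_lit 143)) (XT.lf (nat_lit 0) (nat_lit 31264429690) (nat_lit 380) (nat_lit 145007238167) (nat_lit 76) (nat_lit 224728760445) (nat_lit 67) (nat_lit 5) (nat_lit 72) (nat_lit 5) (nat_lit 68) (nat_lit 5) (nat_lit 325) (nat_lit 313) (nat_lit 142))))))))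
noncomputable def xc122 : XT := (XT.nd (nat_lit 40170) (nat_lit 0) (nat_lit 152) (XT.nd (nat_lit 780) (nat_lit 684) (nat_lit 0) (XT.nd (nat_lit 390) (nat_lit 912) (nat_lit 0) (XT.nd (nat_lit 156) (nat_lit 532) (nat_lit 0) (XT.nd (nat_lit 78) (nat_lit 304) (nat_lit 0) (XT.lf (nat_lit 0) (nat_lit 111837798292) (nat_lit 380) (nat_lit 238697980724) (nat_lit 76) (nat_lit 69487139058) (nat_lit 63) (nat_lit 5) (nat_lit 68) (nat_lit 5) (nat_lit 64) (nat_lit 5) (nat_lit 326) (nat_lit 313) (nat_lit 141)) (XT.lf (nat_lit 0) (nat_lit 98644412744) (nat_lit 304) (nat_lit 107292266446) (nat_lit 380) (nat_lit 234276545803) (nat_lit 59) (nat_lit 5) (nat_lit 63) (nat_lit 5) (nat_lit 64) (nat_lit 5) (nat_lit 327) (nat_lit 313) (nat_lit 140))) (XT.nd (nat_lit 78) (nat_lit 304) (nat_lit 0) (XT.lf (nat_lit 0) (nat_lit 7430332912) (nat_lit 228) (nat_lit 306901598693) (nat_lit 304) (nat_lit 147348401908) (nat_lit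 56) (nat_lit 5) (nat_lit 59) (nat_lit 5) (nat_lit 60) (nat_lit 5) (nat_lit 328) (nat_lit 313) (nat_lit 139)) (XT.nd (nat_lit 78) (nat_lit 304) (nat_lit 0) (XT.lf (nat_lit 0) (nat_lit 394677672535) (nat_lit 228) (nat_lit 44450935443) (nat_lit 304) (nat_lit 45349712638) (nat_lit 56) (nat_lit 5) (nat_lit 59) (nat_lit 5) (nat_lit 60) (nat_lit 5) (nat_lit 329) (nat_lit 313) (nat_lit 138)) (XT.lf (nat_lit 0) (nat_lit 71446315060) (nat_lit 304) (nat_lit 199828996349) (nat_lit 76) (nat_lit 237338656357) (nat_lit 52) (nat_lit 5) (nat_lit 56) (nat_lit 5) (nat_lit 53) (nat_lit 5) (nat_lit 330) (nat_lit 313) (nat_lit 137))))) (XT.nd (nat_lit 156) (nat_lit 456) (nat_lit 0) (XT.nd (nat_lit 78) (nat_lit 228) (nat_lit 0) (XT.lf (nat_lit 0) (nat_lit 201864480424) (nat_lit 304) (nat_lit 321393824516) (nat_lit 76) (nat_lit 11091625503) (nat_lit 49) (nat_lit 5) (nat_lit 53) (nat_lit 5) (nat_lit 50) (nat_lit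 5) (nat_lit 331) (nat_lit 313) (nat_lit 136)) (XT.lf (nat_lit 0) (nat_lit 102581010483) (nat_lit 228) (nat_lit 249848760623) (nat_lit 304) (nat_lit 209229315491) (nat_lit 46) (nat_lit 5) (nat_lit 49) (nat_lit 5) (nat_lit 50) (nat_lit 5) (nat_lit 332) (nat_lit 313) (nat_lit 135))) (XT.nd (nat_lit 78) (nat_lit 456) (nat_lit 0) (XT.lf (nat_lit 0) (nat_lit 521439825857) (nat_lit 304) (nat_lit 19723552945) (nat_lit 76) (nat_lit 49669619466) (nat_lit 46) (nat_lit 5) (nat_lit 50) (nat_lit 5) (nat_lit 47) (nat_lit 5) (nat_lit 333) (nat_lit 313) (nat_lit 134)) (XT.nd (nat_lit 78) (nat_lit 228) (nat_lit 0) (XT.lf (nat_lit 0) (nat_lit 90685448614) (nat_lit 228) (nat_lit 157765379024) (nat_lit 76) (nat_lit 373242859152) (nat_lit 43) (nat_lit 5) (nat_lit 46) (nat_lit 5) (nat_lit 44) (nat_lit 5) (nat_lit 334) (nat_lit 313) (nat_lit 133)) (XT.lf (nat_lit 0) (nat_lit 268025243735) (nat_lit 304) (nat_lit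 314117168212) (nat_lit 76) (nat_lit 72479634691) (nat_lit 40) (nat_lit 5) (nat_lit 44) (nat_lit 5) (nat_lit 41) (nat_lit 5) (nat_lit 335) (nat_lit 313) (nat_lit 132)))))) (XT.nd (nat_lit 38922) (nat_lit 0) (nat_lit 4180) (XT.nd (nat_lit 156) (nat_lit 380) (nat_lit 0) (XT.nd (nat_lit 78) (nat_lit 152) (nat_lit 0) (XT.lf (nat_lit 0) (nat_lit 196270669320) (nat_lit 152) (nat_lit 273328398927) (nat_lit 228) (nat_lit 220083264785) (nat_lit 38) (nat_lit 5) (nat_lit 40) (nat_lit 5) (nat_lit 41) (nat_lit 5) (nat_lit 336) (nat_lit 313) (nat_lit 131)) (XT.lf (nat_lit 0) (nat_lit 31408449969) (nat_lit 152) (nat_lit 662881842205) (nat_lit 228) (nat_lit 32907575537) (nat_lit 36) (nat_lit 5) (nat_lit 38) (nat_lit 5) (nat_lit 39) (nat_lit 5) (nat_lit 337) (nat_lit 313) (nat_lit 130))) (XT.nd (nat_lit 78) (nat_lit 304) (nat_lit 0) (XT.lf (nat_lit 0) (nat_lit 177169947973) (nat_lit 228) (nat_lit 158843285118)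 (nat_lit 76) (nat_lit 430902065611) (nat_lit 35) (nat_lit 5) (nat_lit 38) (nat_lit 5) (nat_lit 36) (nat_lit 5) (nat_lit 338) (nat_lit 313) (nat_lit 129)) (XT.nd (nat_lit 78) (nat_lit 152) (nat_lit 0) (XT.lf (nat_lit 0) (nat_lit 410084216318) (nat_lit 228) (nat_lit 375421701133) (nat_lit 76) (nat_lit 23918060129) (nat_lit 33) (nat_lit 5) (nat_lit 36) (nat_lit 5) (nat_lit 34) (nat_lit 5) (nat_lit 339) (nat_lit 313) (nat_lit 128)) (XT.lf (nat_lit 0) (nat_lit 226284004055) (nat_lit 152) (nat_lit 447358615023) (nat_lit 228) (nat_lit 181090182078) (nat_lit 31) (nat_lit 5) (nat_lit 33) (nat_lit 5) (nat_lit 34) (nat_lit 5) (nat_lit 340) (nat_lit 313) (nat_lit 127))))) (XT.nd (nat_lit 234) (nat_lit 608) (nat_lit 0) (XT.nd (nat_lit 78) (nat_lit 0) (nat_lit 0) (XT.lf (nat_lit 0) (nat_lit 59226445616) (nat_lit 0) (nat_lit 59226445616) (nat_lit 684) (nat_lit 11869315859) (nat_lit 94) (nat_lit 5) (nat_lit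 94) (nat_lit 3) (nat_lit 103) (nat_lit 3) (nat_lit 314) (nat_lit 314) (nat_lit 152)) (XT.nd (nat_lit 78) (nat_lit 0) (nat_lit 0) (XT.lf (nat_lit 76) (nat_lit 49406391578) (nat_lit 0) (nat_lit 198898483307) (nat_lit 760) (nat_lit 22669170287) (nat_lit 95) (nat_lit 5) (nat_lit 94) (nat_lit 5) (nat_lit 104) (nat_lit 5) (nat_lit 315) (nat_lit 314) (nat_lit 151)) (XT.lf (nat_lit 76) (nat_lit 259346297542) (nat_lit 0) (nat_lit 5711456466) (nat_lit 760) (nat_lit 16850199917) (nat_lit 95) (nat_lit 5) (nat_lit 94) (nat_lit 5) (nat_lit 104) (nat_lit 5) (nat_lit 316) (nat_lit 314) (nat_lit 150)))) (XT.nd (nat_lit 78) (nat_lit 684) (nat_lit 0) (XT.lf (nat_lit 76) (nat_lit 195452110632) (nat_lit 0) (nat_lit 93918491399) (nat_lit 760) (nat_lit 4034986654) (nat_lit 96) (nat_lit 5) (nat_lit 95) (nat_lit 5) (nat_lit 105) (nat_lit 5) (nat_lit 317) (nat_lit 314) (nat_lit 149)) (XT.nd (nat_lit 78) (nat_lit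 0) (nat_lit 76) (XT.lf (nat_lit 0) (nat_lit 13853004195) (nat_lit 760) (nat_lit 177720352587) (nat_lit 836) (nat_lit 114023953327) (nat_lit 86) (nat_lit 5) (nat_lit 96) (nat_lit 5) (nat_lit 97) (nat_lit 5) (nat_lit 318) (nat_lit 314) (nat_lit 148)) (XT.lf (nat_lit 0) (nat_lit 37540363334) (nat_lit 760) (nat_lit 262126532008) (nat_lit 836) (nat_lit 18868681965) (nat_lit 87) (nat_lit 5) (nat_lit 97) (nat_lit 5) (nat_lit 98) (nat_lit 5) (nat_lit 319) (nat_lit 314) (nat_lit 147))))))) (XT.nd (nat_lit 858) (nat_lit 1748) (nat_lit 0) (XT.nd (nat_lit 390) (nat_lit 1216) (nat_lit 0) (XT.nd (nat_lit 156) (nat_lit 1140) (nat_lit 0) (XT.nd (nat_lit 78) (nat_lit 0) (nat_lit 76) (XT.lf (nat_lit 0) (nat_lit 69499403730) (nat_lit 760) (nat_lit 20020102472) (nat_lit 836) (nat_lit 242670565230) (nat_lit 87) (nat_lit 5) (nat_lit 97) (nat_lit 5) (nat_lit 98) (nat_lit 5) (nat_lit 320) (nat_lit 314) (nat_lit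 146)) (XT.lf (nat_lit 0) (nat_lit 110119160389) (nat_lit 760) (nat_lit 99513527406) (nat_lit 76) (nat_lit 136999037804) (nat_lit 88) (nat_lit 5) (nat_lit 98) (nat_lit 5) (nat_lit 89) (nat_lit 5) (nat_lit 321) (nat_lit 314) (nat_lit 145))) (XT.nd (nat_lit 78) (nat_lit 684) (nat_lit 0) (XT.lf (nat_lit 0) (nat_lit 158943816670) (nat_lit 608) (nat_lit 183980285607) (nat_lit 76) (nat_lit 19056844019) (nat_lit 81) (nat_lit 5) (nat_lit 89) (nat_lit 5) (nat_lit 82) (nat_lit 5) (nat_lit 322) (nat_lit 314) (nat_lit 144)) (XT.nd (nat_lit 78) (nat_lit 304) (nat_lit 0) (XT.lf (nat_lit 0) (nat_lit 102516007754) (nat_lit 380) (nat_lit 116055580577) (nat_lit 456) (nat_lit 159641659315) (nat_lit 76) (nat_lit 5) (nat_lit 81) (nat_lit 5) (nat_lit 82) (nat_lit 5) (nat_lit 323) (nat_lit 314) (nat_lit 143)) (XT.lf (nat_lit 0) (nat_lit 21541358113) (nat_lit 304) (nat_lit 267035282371) (nat_lit 380) (nat_lit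 106887139813) (nat_lit 72) (nat_lit 5) (nat_lit 76) (nat_lit 5) (nat_lit 77) (nat_lit 5) (nat_lit 324) (nat_lit 314) (nat_lit 142))))) (XT.nd (nat_lit 234) (nat_lit 532) (nat_lit 0) (XT.nd (nat_lit 78) (nat_lit 684) (nat_lit 0) (XT.lf (nat_lit 0) (nat_lit 350382407798) (nat_lit 304) (nat_lit 20527425027) (nat_lit 380) (nat_lit 42848136052) (nat_lit 72) (nat_lit 5) (nat_lit 76) (nat_lit 5) (nat_lit 77) (nat_lit 5) (nat_lit 325) (nat_lit 314) (nat_lit 141)) (XT.nd (nat_lit 78) (nat_lit 304) (nat_lit 0) (XT.lf (nat_lit 0) (nat_lit 33767046340) (nat_lit 380) (nat_lit 156606156637) (nat_lit 76) (nat_lit 242707184405) (nat_lit 67) (nat_lit 5) (nat_lit 72) (nat_lit 5) (nat_lit 68) (nat_lit 5) (nat_lit 326) (nat_lit 314) (nat_lit 140)) (XT.lf (nat_lit 0) (nat_lit 120786204186) (nat_lit 380) (nat_lit 257792163183) (nat_lit 76) (nat_lit 75046313132) (nat_lit 63) (nat_lit 5) (nat_lit 68) (nat_lit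 5) (nat_lit 64) (nat_lit 5) (nat_lit 327) (nat_lit 314) (nat_lit 139)))) (XT.nd (nat_lit 78) (nat_lit 228) (nat_lit 0) (XT.lf (nat_lit 0) (nat_lit 106537549794) (nat_lit 304) (nat_lit 115875368121) (nat_lit 380) (nat_lit 253017298083) (nat_lit 59) (nat_lit 5) (nat_lit 63) (nat_lit 5) (nat_lit 64) (nat_lit 5) (nat_lit 328) (nat_lit 314) (nat_lit 138)) (XT.nd (nat_lit 78) (nat_lit 0) (nat_lit 0) (XT.lf (nat_lit 0) (nat_lit 8026334642) (nat_lit 228) (nat_lit 331453387893) (nat_lit 304) (nat_lit 159134974195) (nat_lit 56) (nat_lit 5) (nat_lit 59) (nat_lit 5) (nat_lit 60) (nat_lit 5) (nat_lit 329) (nat_lit 314) (nat_lit 137)) (XT.lf (nat_lit 0) (nat_lit 426253344761) (nat_lit 228) (nat_lit 48006696671) (nat_lit 304) (nat_lit 48976486070) (nat_lit 56) (nat_lit 5) (nat_lit 59) (nat_lit 5) (nat_lit 60) (nat_lit 5) (nat_lit 330) (nat_lit 314) (nat_lit 136)))))) (XT.nd (nat_lit 390) (nat_lit 760)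 (nat_lit 0) (XT.nd (nat_lit 156) (nat_lit 456) (nat_lit 0) (XT.nd (nat_lit 78) (nat_lit 228) (nat_lit 0) (XT.lf (nat_lit 0) (nat_lit 77163126585) (nat_lit 304) (nat_lit 215813831568) (nat_lit 76) (nat_lit 256326070376) (nat_lit 52) (nat_lit 5) (nat_lit 56) (nat_lit 5) (nat_lit 53) (nat_lit 5) (nat_lit 331) (nat_lit 314) (nat_lit 135)) (XT.lf (nat_lit 0) (nat_lit 218014691229) (nat_lit 304) (nat_lit 347103862762) (nat_lit 76) (nat_lit 11979317026) (nat_lit 49) (nat_lit 5) (nat_lit 53) (nat_lit 5) (nat_lit 50) (nat_lit 5) (nat_lit 332) (nat_lit 314) (nat_lit 134))) (XT.nd (nat_lit 78) (nat_lit 228) (nat_lit 0) (XT.lf (nat_lit 0) (nat_lit 110788895252) (nat_lit 228) (nat_lit 269836253880) (nat_lit 304) (nat_lit 225966613426) (nat_lit 46) (nat_lit 5) (nat_lit 49) (nat_lit 5) (nat_lit 50) (nat_lit 5) (nat_lit 333) (nat_lit 314) (nat_lit 133)) (XT.nd (nat_lit 78) (nat_lit 228) (nat_lit 0) (XT.lf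 (nat_lit 0) (nat_lit 563155940352) (nat_lit 304) (nat_lit 21300095946) (nat_lit 76) (nat_lit 53643554345) (nat_lit 46) (nat_lit 5) (nat_lit 50) (nat_lit 5) (nat_lit 47) (nat_lit 5) (nat_lit 334) (nat_lit 314) (nat_lit 132)) (XT.lf (nat_lit 0) (nat_lit 97941179563) (nat_lit 228) (nat_lit 170385295865) (nat_lit 76) (nat_lit 403102660612) (nat_lit 43) (nat_lit 5) (nat_lit 46) (nat_lit 5) (nat_lit 44) (nat_lit 5) (nat_lit 335) (nat_lit 314) (nat_lit 131))))) (XT.nd (nat_lit 234) (nat_lit 228) (nat_lit 0) (XT.nd (nat_lit 78) (nat_lit 304) (nat_lit 0) (XT.lf (nat_lit 0) (nat_lit 289468117979) (nat_lit 304) (nat_lit 339245248353) (nat_lit 76) (nat_lit 78278400430) (nat_lit 40) (nat_lit 5) (nat_lit 44) (nat_lit 5) (nat_lit 41) (nat_lit 5) (nat_lit 336) (nat_lit 314) (nat_lit 130)) (XT.nd (nat_lit 78) (nat_lit 152) (nat_lit 0) (XT.lf (nat_lit 0) (nat_lit 211973559976) (nat_lit 152) (nat_lit 295194244477)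 (nat_lit 228) (nat_lit 237689073880) (nat_lit 38) (nat_lit 5) (nat_lit 40) (nat_lit 5) (nat_lit 41) (nat_lit 5) (nat_lit 337) (nat_lit 314) (nat_lit 129)) (XT.lf (nat_lit 0) (nat_lit 33922342492) (nat_lit 152) (nat_lit 715911948903) (nat_lit 228) (nat_lit 35539366194) (nat_lit 36) (nat_lit 5) (nat_lit 38) (nat_lit 5) (nat_lit 39) (nat_lit 5) (nat_lit 338) (nat_lit 314) (nat_lit 128)))) (XT.nd (nat_lit 78) (nat_lit 152) (nat_lit 0) (XT.lf (nat_lit 0) (nat_lit 191344274634) (nat_lit 228) (nat_lit 171549596692) (nat_lit 76) (nat_lit 465374614073) (nat_lit 35) (nat_lit 5) (nat_lit 38) (nat_lit 5) (nat_lit 36) (nat_lit 5) (nat_lit 339) (nat_lit 314) (nat_lit 127)) (XT.nd (nat_lit 38688) (nat_lit 0) (nat_lit 4636) (XT.lf (nat_lit 0) (nat_lit 442891653864) (nat_lit 228) (nat_lit 405454307077) (nat_lit 76) (nat_lit 25831899225) (nat_lit 33) (nat_lit 5) (nat_lit 36) (nat_lit 5) (nat_lit 34) (nat_lit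 5) (nat_lit 340) (nat_lit 314) (nat_lit 126)) (XT.lf (nat_lit 0) (nat_lit 63965254830) (nat_lit 0) (nat_lit 63965254830) (nat_lit 684) (nat_lit 12817402178) (nat_lit 94) (nat_lit 5) (nat_lit 94) (nat_lit 3) (nat_lit 103) (nat_lit 3) (nat_lit 315) (nat_lit 315) (nat_lit 150))))))))
noncomputable def xc123 : XT := (XT.nd (nat_lit 1638) (nat_lit 532) (nat_lit 0) (XT.nd (nat_lit 780) (nat_lit 2204) (nat_lit 0) (XT.nd (nat_lit 390) (nat_lit 1064) (nat_lit 0) (XT.nd (nat_lit 156) (nat_lit 608) (nat_lit 0) (XT.nd (nat_lit 78) (nat_lit 0) (nat_lit 0) (XT.lf (nat_lit 76) (nat_lit 53360387865) (nat_lit 0) (nat_lit 214811448901) (nat_lit 760) (nat_lit 24479998863) (nat_lit 95) (nat_lit 5) (nat_lit 94) (nat_lit 5) (nat_lit 104) (nat_lit 5) (nat_lit 316) (nat_lit 315) (nat_lit 149)) (XT.lf (nat_lit 76) (nat_lit 280095376309) (nat_lit 0) (nat_lit 6169379399) (nat_lit 760) (nat_lit 18195711237) (nat_lit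 95) (nat_lit 5) (nat_lit 94) (nat_lit 5) (nat_lit 104) (nat_lit 5) (nat_lit 317) (nat_lit 315) (nat_lit 148))) (XT.nd (nat_lit 78) (nat_lit 684) (nat_lit 0) (XT.lf (nat_lit 76) (nat_lit 211089727657) (nat_lit 0) (nat_lit 101432735577) (nat_lit 760) (nat_lit 4355457980) (nat_lit 96) (nat_lit 5) (nat_lit 95) (nat_lit 5) (nat_lit 105) (nat_lit 5) (nat_lit 318) (nat_lit 315) (nat_lit 147)) (XT.nd (nat_lit 78) (nat_lit 0) (nat_lit 76) (XT.lf (nat_lit 0) (nat_lit 14963343405) (nat_lit 760) (nat_lit 191936401698) (nat_lit 836) (nat_lit 123145241420) (nat_lit 86) (nat_lit 5) (nat_lit 96) (nat_lit 5) (nat_lit 97) (nat_lit 5) (nat_lit 319) (nat_lit 315) (nat_lit 146)) (XT.lf (nat_lit 0) (nat_lit 40545552259) (nat_lit 760) (nat_lit 283095035427) (nat_lit 836) (nat_lit 20377734618) (nat_lit 87) (nat_lit 5) (nat_lit 97) (nat_lit 5) (nat_lit 98) (nat_lit 5) (nat_lit 320) (nat_lit 315) (nat_lit 145)))))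 (XT.nd (nat_lit 156) (nat_lit 1140) (nat_lit 0) (XT.nd (nat_lit 78) (nat_lit 0) (nat_lit 76) (XT.lf (nat_lit 0) (nat_lit 75061170711) (nat_lit 760) (nat_lit 21620211465) (nat_lit 836) (nat_lit 262083801278) (nat_lit 87) (nat_lit 5) (nat_lit 97) (nat_lit 5) (nat_lit 98) (nat_lit 5) (nat_lit 321) (nat_lit 315) (nat_lit 144)) (XT.lf (nat_lit 0) (nat_lit 118930391678) (nat_lit 760) (nat_lit 107473083483) (nat_lit 76) (nat_lit 147958700824) (nat_lit 88) (nat_lit 5) (nat_lit 98) (nat_lit 5) (nat_lit 89) (nat_lit 5) (nat_lit 322) (nat_lit 315) (nat_lit 143))) (XT.nd (nat_lit 78) (nat_lit 684) (nat_lit 0) (XT.lf (nat_lit 0) (nat_lit 171660915324) (nat_lit 608) (nat_lit 198697164238) (nat_lit 76) (nat_lit 20581260237) (nat_lit 81) (nat_lit 5) (nat_lit 89) (nat_lit 5) (nat_lit 82) (nat_lit 5) (nat_lit 323) (nat_lit 315) (nat_lit 142)) (XT.nd (nat_lit 78) (nat_lit 304) (nat_lit 0) (XT.lf (nat_lit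 0) (nat_lit 110718765483) (nat_lit 380) (nat_lit 125340048273) (nat_lit 456) (nat_lit 172411416436) (nat_lit 76) (nat_lit 5) (nat_lit 81) (nat_lit 5) (nat_lit 82) (nat_lit 5) (nat_lit 324) (nat_lit 315) (nat_lit 141)) (XT.lf (nat_lit 0) (nat_lit 23266153902) (nat_lit 304) (nat_lit 288398028100) (nat_lit 380) (nat_lit 115436628030) (nat_lit 72) (nat_lit 5) (nat_lit 76) (nat_lit 5) (nat_lit 77) (nat_lit 5) (nat_lit 325) (nat_lit 315) (nat_lit 140)))))) (XT.nd (nat_lit 390) (nat_lit 988) (nat_lit 0) (XT.nd (nat_lit 156) (nat_lit 836) (nat_lit 0) (XT.nd (nat_lit 78) (nat_lit 380) (nat_lit 0) (XT.lf (nat_lit 0) (nat_lit 378414377404) (nat_lit 304) (nat_lit 22169547862) (nat_lit 380) (nat_lit 46274613818) (nat_lit 72) (nat_lit 5) (nat_lit 76) (nat_lit 5) (nat_lit 77) (nat_lit 5) (nat_lit 326) (nat_lit 315) (nat_lit 139)) (XT.lf (nat_lit 0) (nat_lit 36469663712) (nat_lit 380) (nat_lit 169133225485)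 (nat_lit 76) (nat_lit 262123864717) (nat_lit 67) (nat_lit 5) (nat_lit 72) (nat_lit 5) (nat_lit 68) (nat_lit 5) (nat_lit 327) (nat_lit 315) (nat_lit 138))) (XT.nd (nat_lit 78) (nat_lit 532) (nat_lit 0) (XT.lf (nat_lit 0) (nat_lit 130450285390) (nat_lit 380) (nat_lit 278414116487) (nat_lit 76) (nat_lit 81050192178) (nat_lit 63) (nat_lit 5) (nat_lit 68) (nat_lit 5) (nat_lit 64) (nat_lit 5) (nat_lit 328) (nat_lit 315) (nat_lit 137)) (XT.nd (nat_lit 78) (nat_lit 228) (nat_lit 0) (XT.lf (nat_lit 0) (nat_lit 115061911829) (nat_lit 304) (nat_lit 125145157824) (nat_lit 380) (nat_lit 273257506189) (nat_lit 59) (nat_lit 5) (nat_lit 63) (nat_lit 5) (nat_lit 64) (nat_lit 5) (nat_lit 329) (nat_lit 315) (nat_lit 136)) (XT.lf (nat_lit 0) (nat_lit 8669791805) (nat_lit 228) (nat_lit 357969368549) (nat_lit 304) (nat_lit 171864657705) (nat_lit 56) (nat_lit 5) (nat_lit 59) (nat_lit 5) (nat_lit 60) (nat_lit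 5) (nat_lit 330) (nat_lit 315) (nat_lit 135))))) (XT.nd (nat_lit 234) (nat_lit 456) (nat_lit 0) (XT.nd (nat_lit 78) (nat_lit 532) (nat_lit 0) (XT.lf (nat_lit 0) (nat_lit 460354862705) (nat_lit 228) (nat_lit 51846963538) (nat_lit 304) (nat_lit 52893573080) (nat_lit 56) (nat_lit 5) (nat_lit 59) (nat_lit 5) (nat_lit 60) (nat_lit 5) (nat_lit 331) (nat_lit 315) (nat_lit 134)) (XT.nd (nat_lit 78) (nat_lit 228) (nat_lit 0) (XT.lf (nat_lit 0) (nat_lit 83337125203) (nat_lit 304) (nat_lit 233077665383) (nat_lit 76) (nat_lit 276832431651) (nat_lit 52) (nat_lit 5) (nat_lit 56) (nat_lit 5) (nat_lit 53) (nat_lit 5) (nat_lit 332) (nat_lit 315) (nat_lit 133)) (XT.lf (nat_lit 0) (nat_lit 235456768765) (nat_lit 304) (nat_lit 374870913454) (nat_lit 76) (nat_lit 12937972301) (nat_lit 49) (nat_lit 5) (nat_lit 53) (nat_lit 5) (nat_lit 50) (nat_lit 5) (nat_lit 333) (nat_lit 315) (nat_lit 132)))) (XT.nd (nat_lit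 78) (nat_lit 228) (nat_lit 0) (XT.lf (nat_lit 0) (nat_lit 119653210515) (nat_lit 228) (nat_lit 291422804745) (nat_lit 304) (nat_lit 244043044606) (nat_lit 46) (nat_lit 5) (nat_lit 49) (nat_lit 5) (nat_lit 50) (nat_lit 5) (nat_lit 334) (nat_lit 315) (nat_lit 131)) (XT.nd (nat_lit 78) (nat_lit 228) (nat_lit 0) (XT.lf (nat_lit 0) (nat_lit 608209211556) (nat_lit 304) (nat_lit 23002953729) (nat_lit 76) (nat_lit 57935351898) (nat_lit 46) (nat_lit 5) (nat_lit 50) (nat_lit 5) (nat_lit 47) (nat_lit 5) (nat_lit 335) (nat_lit 315) (nat_lit 130)) (XT.lf (nat_lit 0) (nat_lit 105777241298) (nat_lit 228) (nat_lit 184014993437) (nat_lit 76) (nat_lit 435351193015) (nat_lit 43) (nat_lit 5) (nat_lit 46) (nat_lit 5) (nat_lit 44) (nat_lit 5) (nat_lit 336) (nat_lit 315) (nat_lit 129))))))) (XT.nd (nat_lit 39702) (nat_lit 0) (nat_lit 760) (XT.nd (nat_lit 39234) (nat_lit 0) (nat_lit 3420) (XT.nd (nat_lit 39000)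 (nat_lit 0) (nat_lit 4408) (XT.nd (nat_lit 156) (nat_lit 304) (nat_lit 0) (XT.lf (nat_lit 0) (nat_lit 312626300224) (nat_lit 304) (nat_lit 366383759411) (nat_lit 76) (nat_lit 84541011082) (nat_lit 40) (nat_lit 5) (nat_lit 44) (nat_lit 5) (nat_lit 41) (nat_lit 5) (nat_lit 337) (nat_lit 315) (nat_lit 128)) (XT.lf (nat_lit 0) (nat_lit 36637172867) (nat_lit 152) (nat_lit 773184527005) (nat_lit 228) (nat_lit 38381816428) (nat_lit 36) (nat_lit 5) (nat_lit 38) (nat_lit 5) (nat_lit 39) (nat_lit 5) (nat_lit 339) (nat_lit 315) (nat_lit 126))) (XT.nd (nat_lit 78) (nat_lit 0) (nat_lit 0) (XT.lf (nat_lit 0) (nat_lit 69083069837) (nat_lit 0) (nat_lit 69083069837) (nat_lit 684) (nat_lit 13841543539) (nat_lit 94) (nat_lit 5) (nat_lit 94) (nat_lit 3) (nat_lit 103) (nat_lit 3) (nat_lit 316) (nat_lit 316) (nat_lit 148)) (XT.nd (nat_lit 78) (nat_lit 0) (nat_lit 0) (XT.lf (nat_lit 76) (nat_lit 57630492009)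 (nat_lit 0) (nat_lit 231997296679) (nat_lit 760) (nat_lit 26436079630) (nat_lit 95) (nat_lit 5) (nat_lit 94) (nat_lit 5) (nat_lit 104) (nat_lit 5) (nat_lit 317) (nat_lit 316) (nat_lit 147)) (XT.lf (nat_lit 76) (nat_lit 302504185224) (nat_lit 0) (nat_lit 6663792590) (nat_lit 760) (nat_lit 19649220783) (nat_lit 95) (nat_lit 5) (nat_lit 94) (nat_lit 5) (nat_lit 104) (nat_lit 5) (nat_lit 318) (nat_lit 316) (nat_lit 146))))) (XT.nd (nat_lit 234) (nat_lit 380) (nat_lit 0) (XT.nd (nat_lit 78) (nat_lit 684) (nat_lit 0) (XT.lf (nat_lit 76) (nat_lit 227978147447) (nat_lit 0) (nat_lit 109548010173) (nat_lit 760) (nat_lit 4701899072) (nat_lit 96) (nat_lit 5) (nat_lit 95) (nat_lit 5) (nat_lit 105) (nat_lit 5) (nat_lit 319) (nat_lit 316) (nat_lit 145)) (XT.nd (nat_lit 78) (nat_lit 0) (nat_lit 76) (XT.lf (nat_lit 0) (nat_lit 16162210324) (nat_lit 760) (nat_lit 207289960014) (nat_lit 836) (nat_lit 132996322177)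 (nat_lit 86) (nat_lit 5) (nat_lit 96) (nat_lit 5) (nat_lit 97) (nat_lit 5) (nat_lit 320) (nat_lit 316) (nat_lit 144)) (XT.lf (nat_lit 0) (nat_lit 43790876702) (nat_lit 760) (nat_lit 305741250109) (nat_lit 836) (nat_lit 22007574526) (nat_lit 87) (nat_lit 5) (nat_lit 97) (nat_lit 5) (nat_lit 98) (nat_lit 5) (nat_lit 321) (nat_lit 316) (nat_lit 143)))) (XT.nd (nat_lit 78) (nat_lit 456) (nat_lit 0) (XT.lf (nat_lit 0) (nat_lit 81067620167) (nat_lit 760) (nat_lit 23348543056) (nat_lit 836) (nat_lit 283050154583) (nat_lit 87) (nat_lit 5) (nat_lit 97) (nat_lit 5) (nat_lit 98) (nat_lit 5) (nat_lit 322) (nat_lit 316) (nat_lit 142)) (XT.nd (nat_lit 78) (nat_lit 532) (nat_lit 0) (XT.lf (nat_lit 0) (nat_lit 128446279166) (nat_lit 760) (nat_lit 116069621763) (nat_lit 76) (nat_lit 159795173979) (nat_lit 88) (nat_lit 5) (nat_lit 98) (nat_lit 5) (nat_lit 89) (nat_lit 5) (nat_lit 323) (nat_lit 316) (nat_lit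 141)) (XT.lf (nat_lit 0) (nat_lit 185395154565) (nat_lit 608) (nat_lit 214591613459) (nat_lit 76) (nat_lit 22227648484) (nat_lit 81) (nat_lit 5) (nat_lit 89) (nat_lit 5) (nat_lit 82) (nat_lit 5) (nat_lit 324) (nat_lit 316) (nat_lit 140)))))) (XT.nd (nat_lit 390) (nat_lit 1292) (nat_lit 0) (XT.nd (nat_lit 156) (nat_lit 684) (nat_lit 0) (XT.nd (nat_lit 78) (nat_lit 304) (nat_lit 0) (XT.lf (nat_lit 0) (nat_lit 119577533104) (nat_lit 380) (nat_lit 135367270354) (nat_lit 456) (nat_lit 186202978907) (nat_lit 76) (nat_lit 5) (nat_lit 81) (nat_lit 5) (nat_lit 82) (nat_lit 5) (nat_lit 325) (nat_lit 316) (nat_lit 139)) (XT.lf (nat_lit 0) (nat_lit 25128721197) (nat_lit 304) (nat_lit 311469804452) (nat_lit 380) (nat_lit 124670286866) (nat_lit 72) (nat_lit 5) (nat_lit 76) (nat_lit 5) (nat_lit 77) (nat_lit 5) (nat_lit 326) (nat_lit 316) (nat_lit 138))) (XT.nd (nat_lit 78) (nat_lit 684) (nat_lit 0) (XT.lf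 (nat_lit 0) (nat_lit 408688708136) (nat_lit 304) (nat_lit 23943050677) (nat_lit 380) (nat_lit 49975405696) (nat_lit 72) (nat_lit 5) (nat_lit 76) (nat_lit 5) (nat_lit 77) (nat_lit 5) (nat_lit 327) (nat_lit 316) (nat_lit 137)) (XT.nd (nat_lit 78) (nat_lit 304) (nat_lit 0) (XT.lf (nat_lit 0) (nat_lit 39388311625) (nat_lit 380) (nat_lit 182662662945) (nat_lit 76) (nat_lit 283093864395) (nat_lit 67) (nat_lit 5) (nat_lit 72) (nat_lit 5) (nat_lit 68) (nat_lit 5) (nat_lit 328) (nat_lit 316) (nat_lit 136)) (XT.lf (nat_lit 0) (nat_lit 140887324056) (nat_lit 380) (nat_lit 300686028597) (nat_lit 76) (nat_lit 87534356725) (nat_lit 63) (nat_lit 5) (nat_lit 68) (nat_lit 5) (nat_lit 64) (nat_lit 5) (nat_lit 329) (nat_lit 316) (nat_lit 135))))) (XT.nd (nat_lit 234) (nat_lit 760) (nat_lit 0) (XT.nd (nat_lit 78) (nat_lit 228) (nat_lit 0) (XT.lf (nat_lit 0) (nat_lit 124268029085) (nat_lit 304) (nat_lit 135156564905)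 (nat_lit 380) (nat_lit 295117098676) (nat_lit 59) (nat_lit 5) (nat_lit 63) (nat_lit 5) (nat_lit 64) (nat_lit 5) (nat_lit 330) (nat_lit 316) (nat_lit 134)) (XT.nd (nat_lit 78) (nat_lit 0) (nat_lit 0) (XT.lf (nat_lit 0) (nat_lit 9364532893) (nat_lit 228) (nat_lit 386606669082) (nat_lit 304) (nat_lit 185612874881) (nat_lit 56) (nat_lit 5) (nat_lit 59) (nat_lit 5) (nat_lit 60) (nat_lit 5) (nat_lit 331) (nat_lit 316) (nat_lit 133)) (XT.lf (nat_lit 0) (nat_lit 497184323707) (nat_lit 228) (nat_lit 55994490111) (nat_lit 304) (nat_lit 57124174259) (nat_lit 56) (nat_lit 5) (nat_lit 59) (nat_lit 5) (nat_lit 60) (nat_lit 5) (nat_lit 332) (nat_lit 316) (nat_lit 132)))) (XT.nd (nat_lit 78) (nat_lit 456) (nat_lit 0) (XT.lf (nat_lit 0) (nat_lit 90004908398) (nat_lit 304) (nat_lit 251722787469) (nat_lit 76) (nat_lit 298979262503) (nat_lit 52) (nat_lit 5) (nat_lit 56) (nat_lit 5) (nat_lit 53) (nat_lit 5)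 (nat_lit 333) (nat_lit 316) (nat_lit 131)) (XT.nd (nat_lit 78) (nat_lit 228) (nat_lit 0) (XT.lf (nat_lit 0) (nat_lit 254294083791) (nat_lit 304) (nat_lit 404859507717) (nat_lit 76) (nat_lit 13973275786) (nat_lit 49) (nat_lit 5) (nat_lit 53) (nat_lit 5) (nat_lit 50) (nat_lit 5) (nat_lit 334) (nat_lit 316) (nat_lit 130)) (XT.lf (nat_lit 0) (nat_lit 129226499287) (nat_lit 228) (nat_lit 314736329532) (nat_lit 304) (nat_lit 263565718375) (nat_lit 46) (nat_lit 5) (nat_lit 49) (nat_lit 5) (nat_lit 50) (nat_lit 5) (nat_lit 335) (nat_lit 316) (nat_lit 129))))))))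
noncomputable def xc124 : XT := (XT.nd (nat_lit 40560) (nat_lit 0) (nat_lit 152) (XT.nd (nat_lit 39702) (nat_lit 0) (nat_lit 1064) (XT.nd (nat_lit 39312) (nat_lit 0) (nat_lit 3648) (XT.nd (nat_lit 234) (nat_lit 380) (nat_lit 0) (XT.nd (nat_lit 78) (nat_lit 228) (nat_lit 0) (XT.lf (nat_lit 0) (nat_lit 656866630901) (nat_lit 304) (nat_lit 24842204180) (nat_lit 76) (nat_lit 62570448572) (nat_lit 46) (nat_lit 5) (nat_lit 50) (nat_lit 5) (nat_lit 47) (nat_lit 5) (nat_lit 336) (nat_lit 316) (nat_lit 128)) (XT.lf (nat_lit 0) (nat_lit 114240078497) (nat_lit 228) (nat_lit 198735227465) (nat_lit 76) (nat_lit 470179562422) (nat_lit 43) (nat_lit 5) (nat_lit 46) (nat_lit 5) (nat_lit 44) (nat_lit 5) (nat_lit 337) (nat_lit 316) (nat_lit 127))) (XT.nd (nat_lit 38922) (nat_lit 0) (nat_lit 4256) (XT.lf (nat_lit 0) (nat_lit 247248015142) (nat_lit 152) (nat_lit 344313858585) (nat_lit 228) (nat_lit 277239120492)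 (nat_lit 38) (nat_lit 5) (nat_lit 40) (nat_lit 5) (nat_lit 41) (nat_lit 5) (nat_lit 339) (nat_lit 316) (nat_lit 125)) (XT.nd (nat_lit 78) (nat_lit 0) (nat_lit 0) (XT.lf (nat_lit 0) (nat_lit 74610225214) (nat_lit 0) (nat_lit 74610225214) (nat_lit 684) (nat_lit 14947794650) (nat_lit 94) (nat_lit 5) (nat_lit 94) (nat_lit 3) (nat_lit 103) (nat_lit 3) (nat_lit 317) (nat_lit 317) (nat_lit 146)) (XT.lf (nat_lit 76) (nat_lit 62242022860) (nat_lit 0) (nat_lit 250557879338) (nat_lit 760) (nat_lit 28548977711) (nat_lit 95) (nat_lit 5) (nat_lit 94) (nat_lit 5) (nat_lit 104) (nat_lit 5) (nat_lit 318) (nat_lit 317) (nat_lit 145))))) (XT.nd (nat_lit 156) (nat_lit 608) (nat_lit 0) (XT.nd (nat_lit 78) (nat_lit 0) (nat_lit 76) (XT.lf (nat_lit 76) (nat_lit 326705530681) (nat_lit 0) (nat_lit 7197635742) (nat_lit 760) (nat_lit 21219317436) (nat_lit 95) (nat_lit 5) (nat_lit 94) (nat_lit 5) (nat_lit 104) (nat_lit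 5) (nat_lit 319) (nat_lit 317) (nat_lit 144)) (XT.lf (nat_lit 76) (nat_lit 246217463695) (nat_lit 0) (nat_lit 118312413186) (nat_lit 760) (nat_lit 5076340138) (nat_lit 96) (nat_lit 5) (nat_lit 95) (nat_lit 5) (nat_lit 105) (nat_lit 5) (nat_lit 320) (nat_lit 317) (nat_lit 143))) (XT.nd (nat_lit 78) (nat_lit 0) (nat_lit 76) (XT.lf (nat_lit 0) (nat_lit 17456729886) (nat_lit 760) (nat_lit 223871996133) (nat_lit 836) (nat_lit 143635566225) (nat_lit 86) (nat_lit 5) (nat_lit 96) (nat_lit 5) (nat_lit 97) (nat_lit 5) (nat_lit 321) (nat_lit 317) (nat_lit 142)) (XT.nd (nat_lit 78) (nat_lit 0) (nat_lit 0) (XT.lf (nat_lit 0) (nat_lit 47295587392) (nat_lit 760) (nat_lit 330199360001) (nat_lit 836) (nat_lit 23767855676) (nat_lit 87) (nat_lit 5) (nat_lit 97) (nat_lit 5) (nat_lit 98) (nat_lit 5) (nat_lit 322) (nat_lit 317) (nat_lit 141)) (XT.lf (nat_lit 0) (nat_lit 87554363626) (nat_lit 760) (nat_lit 25215324540)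 (nat_lit 836) (nat_lit 305693866197) (nat_lit 87) (nat_lit 5) (nat_lit 97) (nat_lit 5) (nat_lit 98) (nat_lit 5) (nat_lit 323) (nat_lit 317) (nat_lit 140)))))) (XT.nd (nat_lit 390) (nat_lit 1520) (nat_lit 0) (XT.nd (nat_lit 156) (nat_lit 684) (nat_lit 0) (XT.nd (nat_lit 78) (nat_lit 532) (nat_lit 0) (XT.lf (nat_lit 0) (nat_lit 138723229917) (nat_lit 760) (nat_lit 125354069763) (nat_lit 76) (nat_lit 172578596787) (nat_lit 88) (nat_lit 5) (nat_lit 98) (nat_lit 5) (nat_lit 89) (nat_lit 5) (nat_lit 324) (nat_lit 317) (nat_lit 139)) (XT.lf (nat_lit 0) (nat_lit 200227938068) (nat_lit 608) (nat_lit 231757807489) (nat_lit 76) (nat_lit 24005763850) (nat_lit 81) (nat_lit 5) (nat_lit 89) (nat_lit 5) (nat_lit 82) (nat_lit 5) (nat_lit 325) (nat_lit 317) (nat_lit 138))) (XT.nd (nat_lit 78) (nat_lit 304) (nat_lit 0) (XT.lf (nat_lit 0) (nat_lit 129144821471) (nat_lit 380) (nat_lit 146196667601) (nat_lit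 456) (nat_lit 201098059089) (nat_lit 76) (nat_lit 5) (nat_lit 81) (nat_lit 5) (nat_lit 82) (nat_lit 5) (nat_lit 326) (nat_lit 317) (nat_lit 137)) (XT.nd (nat_lit 78) (nat_lit 0) (nat_lit 0) (XT.lf (nat_lit 0) (nat_lit 27140111986) (nat_lit 304) (nat_lit 336387332314) (nat_lit 380) (nat_lit 134642819790) (nat_lit 72) (nat_lit 5) (nat_lit 76) (nat_lit 5) (nat_lit 77) (nat_lit 5) (nat_lit 327) (nat_lit 317) (nat_lit 136)) (XT.lf (nat_lit 0) (nat_lit 441384816910) (nat_lit 304) (nat_lit 25858442421) (nat_lit 380) (nat_lit 53972428869) (nat_lit 72) (nat_lit 5) (nat_lit 76) (nat_lit 5) (nat_lit 77) (nat_lit 5) (nat_lit 328) (nat_lit 317) (nat_lit 135))))) (XT.nd (nat_lit 234) (nat_lit 532) (nat_lit 0) (XT.nd (nat_lit 78) (nat_lit 608) (nat_lit 0) (XT.lf (nat_lit 0) (nat_lit 42540298036) (nat_lit 380) (nat_lit 197274629532) (nat_lit 76) (nat_lit 305741451136) (nat_lit 67) (nat_lit 5) (nat_lit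 72) (nat_lit 5) (nat_lit 68) (nat_lit 5) (nat_lit 329) (nat_lit 317) (nat_lit 134)) (XT.nd (nat_lit 78) (nat_lit 304) (nat_lit 0) (XT.lf (nat_lit 0) (nat_lit 152159180894) (nat_lit 380) (nat_lit 324739867326) (nat_lit 76) (nat_lit 94537233155) (nat_lit 63) (nat_lit 5) (nat_lit 68) (nat_lit 5) (nat_lit 64) (nat_lit 5) (nat_lit 330) (nat_lit 317) (nat_lit 133)) (XT.lf (nat_lit 0) (nat_lit 134210469620) (nat_lit 304) (nat_lit 145968913876) (nat_lit 380) (nat_lit 318725602366) (nat_lit 59) (nat_lit 5) (nat_lit 63) (nat_lit 5) (nat_lit 64) (nat_lit 5) (nat_lit 331) (nat_lit 317) (nat_lit 132)))) (XT.nd (nat_lit 78) (nat_lit 304) (nat_lit 0) (XT.lf (nat_lit 0) (nat_lit 10114688103) (nat_lit 228) (nat_lit 417534989173) (nat_lit 304) (nat_lit 200461085735) (nat_lit 56) (nat_lit 5) (nat_lit 59) (nat_lit 5) (nat_lit 60) (nat_lit 5) (nat_lit 332) (nat_lit 317) (nat_lit 131)) (XT.nd (nat_lit 78) (nat_lit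 304) (nat_lit 0) (XT.lf (nat_lit 0) (nat_lit 536959988657) (nat_lit 228) (nat_lit 60473851695) (nat_lit 304) (nat_lit 61693349741) (nat_lit 56) (nat_lit 5) (nat_lit 59) (nat_lit 5) (nat_lit 60) (nat_lit 5) (nat_lit 333) (nat_lit 317) (nat_lit 130)) (XT.lf (nat_lit 0) (nat_lit 97205998239) (nat_lit 304) (nat_lit 271859674986) (nat_lit 76) (nat_lit 322897806110) (nat_lit 52) (nat_lit 5) (nat_lit 56) (nat_lit 5) (nat_lit 53) (nat_lit 5) (nat_lit 334) (nat_lit 317) (nat_lit 129))))))) (XT.nd (nat_lit 39858) (nat_lit 0) (nat_lit 912) (XT.nd (nat_lit 39390) (nat_lit 0) (nat_lit 3496) (XT.nd (nat_lit 156) (nat_lit 456) (nat_lit 0) (XT.nd (nat_lit 78) (nat_lit 228) (nat_lit 0) (XT.lf (nat_lit 0) (nat_lit 274638273666) (nat_lit 304) (nat_lit 437247343425) (nat_lit 76) (nat_lit 15091365645) (nat_lit 49) (nat_lit 5) (nat_lit 53) (nat_lit 5) (nat_lit 50) (nat_lit 5) (nat_lit 335) (nat_lit 317) (nat_lit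 128)) (XT.lf (nat_lit 0) (nat_lit 139565503943) (nat_lit 228) (nat_lit 339914979042) (nat_lit 304) (nat_lit 284650315866) (nat_lit 46) (nat_lit 5) (nat_lit 49) (nat_lit 5) (nat_lit 50) (nat_lit 5) (nat_lit 336) (nat_lit 317) (nat_lit 127))) (XT.nd (nat_lit 156) (nat_lit 456) (nat_lit 0) (XT.lf (nat_lit 0) (nat_lit 709416546440) (nat_lit 304) (nat_lit 26828735310) (nat_lit 76) (nat_lit 67576314672) (nat_lit 46) (nat_lit 5) (nat_lit 50) (nat_lit 5) (nat_lit 47) (nat_lit 5) (nat_lit 337) (nat_lit 317) (nat_lit 126)) (XT.nd (nat_lit 39000) (nat_lit 0) (nat_lit 4104) (XT.lf (nat_lit 0) (nat_lit 364648533741) (nat_lit 304) (nat_lit 427348175292) (nat_lit 76) (nat_lit 98609197755) (nat_lit 40) (nat_lit 5) (nat_lit 44) (nat_lit 5) (nat_lit 41) (nat_lit 5) (nat_lit 339) (nat_lit 317) (nat_lit 124)) (XT.lf (nat_lit 0) (nat_lit 80579480295) (nat_lit 0) (nat_lit 80579480295) (nat_lit 684) (nat_lit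 16142698836) (nat_lit 94) (nat_lit 5) (nat_lit 94) (nat_lit 3) (nat_lit 103) (nat_lit 3) (nat_lit 318) (nat_lit 318) (nat_lit 144))))) (XT.nd (nat_lit 234) (nat_lit 608) (nat_lit 0) (XT.nd (nat_lit 78) (nat_lit 0) (nat_lit 0) (XT.lf (nat_lit 76) (nat_lit 67222320466) (nat_lit 0) (nat_lit 270603194635) (nat_lit 760) (nat_lit 30831191289) (nat_lit 95) (nat_lit 5) (nat_lit 94) (nat_lit 5) (nat_lit 104) (nat_lit 5) (nat_lit 319) (nat_lit 318) (nat_lit 143)) (XT.nd (nat_lit 78) (nat_lit 0) (nat_lit 76) (XT.lf (nat_lit 76) (nat_lit 352842839596) (nat_lit 0) (nat_lit 7774080814) (nat_lit 760) (nat_lit 22915284462) (nat_lit 95) (nat_lit 5) (nat_lit 94) (nat_lit 5) (nat_lit 104) (nat_lit 5) (nat_lit 320) (nat_lit 318) (nat_lit 142)) (XT.lf (nat_lit 76) (nat_lit 265915773386) (nat_lit 0) (nat_lit 127777888236) (nat_lit 760) (nat_lit 5480980563) (nat_lit 96) (nat_lit 5) (nat_lit 95) (nat_lit 5) (nat_lit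 105) (nat_lit 5) (nat_lit 321) (nat_lit 318) (nat_lit 141)))) (XT.nd (nat_lit 78) (nat_lit 0) (nat_lit 76) (XT.lf (nat_lit 0) (nat_lit 18854590924) (nat_lit 760) (nat_lit 241780760726) (nat_lit 836) (nat_lit 155126015668) (nat_lit 86) (nat_lit 5) (nat_lit 96) (nat_lit 5) (nat_lit 97) (nat_lit 5) (nat_lit 322) (nat_lit 318) (nat_lit 140)) (XT.nd (nat_lit 78) (nat_lit 0) (nat_lit 0) (XT.lf (nat_lit 0) (nat_lit 51080469426) (nat_lit 760) (nat_lit 356614288467) (nat_lit 836) (nat_lit 25669005656) (nat_lit 87) (nat_lit 5) (nat_lit 97) (nat_lit 5) (nat_lit 98) (nat_lit 5) (nat_lit 323) (nat_lit 318) (nat_lit 139)) (XT.lf (nat_lit 0) (nat_lit 94559856275) (nat_lit 760) (nat_lit 27231605750) (nat_lit 836) (nat_lit 330149117646) (nat_lit 87) (nat_lit 5) (nat_lit 97) (nat_lit 5) (nat_lit 98) (nat_lit 5) (nat_lit 324) (nat_lit 318) (nat_lit 138)))))) (XT.nd (nat_lit 390) (nat_lit 1520) (nat_lit 0)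 (XT.nd (nat_lit 156) (nat_lit 684) (nat_lit 0) (XT.nd (nat_lit 78) (nat_lit 532) (nat_lit 0) (XT.lf (nat_lit 0) (nat_lit 149822158627) (nat_lit 760) (nat_lit 135381433633) (nat_lit 76) (nat_lit 186384720683) (nat_lit 88) (nat_lit 5) (nat_lit 98) (nat_lit 5) (nat_lit 89) (nat_lit 5) (nat_lit 325) (nat_lit 318) (nat_lit 137)) (XT.lf (nat_lit 0) (nat_lit 216247177176) (nat_lit 608) (nat_lit 250297458969) (nat_lit 76) (nat_lit 25926142215) (nat_lit 81) (nat_lit 5) (nat_lit 89) (nat_lit 5) (nat_lit 82) (nat_lit 5) (nat_lit 326) (nat_lit 318) (nat_lit 136))) (XT.nd (nat_lit 78) (nat_lit 304) (nat_lit 0) (XT.lf (nat_lit 0) (nat_lit 139477338018) (nat_lit 380) (nat_lit 157892414400) (nat_lit 456) (nat_lit 217184910906) (nat_lit 76) (nat_lit 5) (nat_lit 81) (nat_lit 5) (nat_lit 82) (nat_lit 5) (nat_lit 327) (nat_lit 318) (nat_lit 135)) (XT.nd (nat_lit 78) (nat_lit 0) (nat_lit 0) (XT.lf (nat_lit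 0) (nat_lit 29312258095) (nat_lit 304) (nat_lit 363298270464) (nat_lit 380) (nat_lit 145413310852) (nat_lit 72) (nat_lit 5) (nat_lit 76) (nat_lit 5) (nat_lit 77) (nat_lit 5) (nat_lit 328) (nat_lit 318) (nat_lit 134)) (XT.lf (nat_lit 0) (nat_lit 476696469995) (nat_lit 304) (nat_lit 27927072967) (nat_lit 380) (nat_lit 58289357881) (nat_lit 72) (nat_lit 5) (nat_lit 76) (nat_lit 5) (nat_lit 77) (nat_lit 5) (nat_lit 329) (nat_lit 318) (nat_lit 133))))) (XT.nd (nat_lit 234) (nat_lit 532) (nat_lit 0) (XT.nd (nat_lit 78) (nat_lit 608) (nat_lit 0) (XT.lf (nat_lit 0) (nat_lit 45944311900) (nat_lit 380) (nat_lit 213055702733) (nat_lit 76) (nat_lit 330200833747) (nat_lit 67) (nat_lit 5) (nat_lit 72) (nat_lit 5) (nat_lit 68) (nat_lit 5) (nat_lit 330) (nat_lit 318) (nat_lit 132)) (XT.nd (nat_lit 78) (nat_lit 304) (nat_lit 0) (XT.lf (nat_lit 0) (nat_lit 164332662034) (nat_lit 380) (nat_lit 350718162027)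 (nat_lit 76) (nat_lit 102100321455) (nat_lit 63) (nat_lit 5) (nat_lit 68) (nat_lit 5) (nat_lit 64) (nat_lit 5) (nat_lit 331) (nat_lit 318) (nat_lit 131)) (XT.lf (nat_lit 0) (nat_lit 144948162992) (nat_lit 304) (nat_lit 157646275905) (nat_lit 380) (nat_lit 344222909639) (nat_lit 59) (nat_lit 5) (nat_lit 63) (nat_lit 5) (nat_lit 64) (nat_lit 5) (nat_lit 332) (nat_lit 318) (nat_lit 130)))) (XT.nd (nat_lit 78) (nat_lit 304) (nat_lit 0) (XT.lf (nat_lit 0) (nat_lit 10924714128) (nat_lit 228) (nat_lit 450937605320) (nat_lit 304) (nat_lit 216497270317) (nat_lit 56) (nat_lit 5) (nat_lit 59) (nat_lit 5) (nat_lit 60) (nat_lit 5) (nat_lit 333) (nat_lit 318) (nat_lit 129)) (XT.nd (nat_lit 78) (nat_lit 304) (nat_lit 0) (XT.lf (nat_lit 0) (nat_lit 579917575691) (nat_lit 228) (nat_lit 65311590399) (nat_lit 304) (nat_lit 66628167463) (nat_lit 56) (nat_lit 5) (nat_lit 59) (nat_lit 5) (nat_lit 60) (nat_lit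 5) (nat_lit 334) (nat_lit 318) (nat_lit 128)) (XT.lf (nat_lit 0) (nat_lit 104983075808) (nat_lit 304) (nat_lit 293607646962) (nat_lit 76) (nat_lit 348729804302) (nat_lit 52) (nat_lit 5) (nat_lit 56) (nat_lit 5) (nat_lit 53) (nat_lit 5) (nat_lit 335) (nat_lit 318) (nat_lit 127))))))))
noncomputable def xc125 : XT := (XT.nd (nat_lit 80028) (nat_lit 0) (nat_lit 456) (XT.nd (nat_lit 39936) (nat_lit 0) (nat_lit 228) (XT.nd (nat_lit 39546) (nat_lit 0) (nat_lit 3268) (XT.nd (nat_lit 39312) (nat_lit 0) (nat_lit 3876) (XT.nd (nat_lit 234) (nat_lit 456) (nat_lit 0) (XT.lf (nat_lit 0) (nat_lit 296609904122) (nat_lit 304) (nat_lit 472226337938) (nat_lit 76) (nat_lit 16298870194) (nat_lit 49) (nat_lit 5) (nat_lit 53) (nat_lit 5) (nat_lit 50) (nat_lit 5) (nat_lit 336) (nat_lit 318) (nat_lit 126)) (XT.lf (nat_lit 0) (nat_lit 133250720296) (nat_lit 228) (nat_lit 231803165750) (nat_lit 76) (nat_lit 548417896655)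 (nat_lit 43) (nat_lit 5) (nat_lit 46) (nat_lit 5) (nat_lit 44) (nat_lit 5) (nat_lit 339) (nat_lit 318) (nat_lit 123))) (XT.nd (nat_lit 78) (nat_lit 0) (nat_lit 0) (XT.lf (nat_lit 0) (nat_lit 87026213430) (nat_lit 0) (nat_lit 87026213430) (nat_lit 684) (nat_lit 17433326518) (nat_lit 94) (nat_lit 5) (nat_lit 94) (nat_lit 3) (nat_lit 103) (nat_lit 3) (nat_lit 319) (nat_lit 319) (nat_lit 142)) (XT.nd (nat_lit 78) (nat_lit 0) (nat_lit 0) (XT.lf (nat_lit 76) (nat_lit 72600908381) (nat_lit 0) (nat_lit 292252037440) (nat_lit 760) (nat_lit 33296225140) (nat_lit 95) (nat_lit 5) (nat_lit 94) (nat_lit 5) (nat_lit 104) (nat_lit 5) (nat_lit 320) (nat_lit 319) (nat_lit 141)) (XT.lf (nat_lit 76) (nat_lit 381071009613) (nat_lit 0) (nat_lit 8396551014) (nat_lit 760) (nat_lit 24747154022) (nat_lit 95) (nat_lit 5) (nat_lit 94) (nat_lit 5) (nat_lit 104) (nat_lit 5) (nat_lit 321) (nat_lit 319) (nat_lit 140)))))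 (XT.nd (nat_lit 156) (nat_lit 0) (nat_lit 76) (XT.nd (nat_lit 78) (nat_lit 684) (nat_lit 0) (XT.lf (nat_lit 76) (nat_lit 287189817661) (nat_lit 0) (nat_lit 138000532529) (nat_lit 760) (nat_lit 5918201475) (nat_lit 96) (nat_lit 5) (nat_lit 95) (nat_lit 5) (nat_lit 105) (nat_lit 5) (nat_lit 322) (nat_lit 319) (nat_lit 139)) (XT.lf (nat_lit 0) (nat_lit 20364092155) (nat_lit 760) (nat_lit 261122368448) (nat_lit 836) (nat_lit 167535757539) (nat_lit 86) (nat_lit 5) (nat_lit 96) (nat_lit 5) (nat_lit 97) (nat_lit 5) (nat_lit 323) (nat_lit 319) (nat_lit 138))) (XT.nd (nat_lit 78) (nat_lit 0) (nat_lit 0) (XT.lf (nat_lit 0) (nat_lit 55167965830) (nat_lit 760) (nat_lit 385142556773) (nat_lit 836) (nat_lit 27722287361) (nat_lit 87) (nat_lit 5) (nat_lit 97) (nat_lit 5) (nat_lit 98) (nat_lit 5) (nat_lit 324) (nat_lit 319) (nat_lit 137)) (XT.nd (nat_lit 78) (nat_lit 0) (nat_lit 76) (XT.lf (nat_lit 0)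 (nat_lit 102125625193) (nat_lit 760) (nat_lit 29409324237) (nat_lit 836) (nat_lit 356560825996) (nat_lit 87) (nat_lit 5) (nat_lit 97) (nat_lit 5) (nat_lit 98) (nat_lit 5) (nat_lit 325) (nat_lit 319) (nat_lit 136)) (XT.lf (nat_lit 0) (nat_lit 161808848942) (nat_lit 760) (nat_lit 146211123810) (nat_lit 76) (nat_lit 201295357866) (nat_lit 88) (nat_lit 5) (nat_lit 98) (nat_lit 5) (nat_lit 89) (nat_lit 5) (nat_lit 326) (nat_lit 319) (nat_lit 135)))))) (XT.nd (nat_lit 390) (nat_lit 1596) (nat_lit 0) (XT.nd (nat_lit 156) (nat_lit 684) (nat_lit 0) (XT.nd (nat_lit 78) (nat_lit 380) (nat_lit 0) (XT.lf (nat_lit 0) (nat_lit 233547812171) (nat_lit 608) (nat_lit 270320421393) (nat_lit 76) (nat_lit 28000162653) (nat_lit 81) (nat_lit 5) (nat_lit 89) (nat_lit 5) (nat_lit 82) (nat_lit 5) (nat_lit 327) (nat_lit 319) (nat_lit 134)) (XT.lf (nat_lit 0) (nat_lit 150636323095) (nat_lit 380) (nat_lit 170523819033)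 (nat_lit 456) (nat_lit 234558852518) (nat_lit 76) (nat_lit 5) (nat_lit 81) (nat_lit 5) (nat_lit 82) (nat_lit 5) (nat_lit 328) (nat_lit 319) (nat_lit 133))) (XT.nd (nat_lit 78) (nat_lit 380) (nat_lit 0) (XT.lf (nat_lit 0) (nat_lit 31658042199) (nat_lit 304) (nat_lit 392362090576) (nat_lit 380) (nat_lit 157045574519) (nat_lit 72) (nat_lit 5) (nat_lit 76) (nat_lit 5) (nat_lit 77) (nat_lit 5) (nat_lit 329) (nat_lit 319) (nat_lit 132)) (XT.nd (nat_lit 78) (nat_lit 380) (nat_lit 0) (XT.lf (nat_lit 0) (nat_lit 514832931535) (nat_lit 304) (nat_lit 30161200355) (nat_lit 380) (nat_lit 62951764658) (nat_lit 72) (nat_lit 5) (nat_lit 76) (nat_lit 5) (nat_lit 77) (nat_lit 5) (nat_lit 330) (nat_lit 319) (nat_lit 131)) (XT.lf (nat_lit 0) (nat_lit 49620534169) (nat_lit 380) (nat_lit 230099389780) (nat_lit 76) (nat_lit 356616957478) (nat_lit 67) (nat_lit 5) (nat_lit 72) (nat_lit 5) (nat_lit 68) (nat_lit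 5) (nat_lit 331) (nat_lit 319) (nat_lit 130))))) (XT.nd (nat_lit 234) (nat_lit 760) (nat_lit 0) (XT.nd (nat_lit 78) (nat_lit 532) (nat_lit 0) (XT.lf (nat_lit 0) (nat_lit 177479915144) (nat_lit 380) (nat_lit 378774847942) (nat_lit 76) (nat_lit 110268441176) (nat_lit 63) (nat_lit 5) (nat_lit 68) (nat_lit 5) (nat_lit 64) (nat_lit 5) (nat_lit 332) (nat_lit 319) (nat_lit 129)) (XT.nd (nat_lit 78) (nat_lit 228) (nat_lit 0) (XT.lf (nat_lit 0) (nat_lit 156544749743) (nat_lit 304) (nat_lit 170257848450) (nat_lit 380) (nat_lit 371760107194) (nat_lit 59) (nat_lit 5) (nat_lit 63) (nat_lit 5) (nat_lit 64) (nat_lit 5) (nat_lit 333) (nat_lit 319) (nat_lit 128)) (XT.lf (nat_lit 0) (nat_lit 11799420833) (nat_lit 228) (nat_lit 487012456865) (nat_lit 304) (nat_lit 233816449853) (nat_lit 56) (nat_lit 5) (nat_lit 59) (nat_lit 5) (nat_lit 60) (nat_lit 5) (nat_lit 334) (nat_lit 319) (nat_lit 127)))) (XT.nd (nat_lit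 78) (nat_lit 760) (nat_lit 0) (XT.lf (nat_lit 0) (nat_lit 626311657278) (nat_lit 228) (nat_lit 70536372370) (nat_lit 304) (nat_lit 71957863370) (nat_lit 56) (nat_lit 5) (nat_lit 59) (nat_lit 5) (nat_lit 60) (nat_lit 5) (nat_lit 335) (nat_lit 319) (nat_lit 126)) (XT.nd (nat_lit 156) (nat_lit 456) (nat_lit 0) (XT.lf (nat_lit 0) (nat_lit 113382234313) (nat_lit 304) (nat_lit 317095571113) (nat_lit 76) (nat_lit 376628337568) (nat_lit 52) (nat_lit 5) (nat_lit 56) (nat_lit 5) (nat_lit 53) (nat_lit 5) (nat_lit 336) (nat_lit 319) (nat_lit 125)) (XT.lf (nat_lit 0) (nat_lit 162790673270) (nat_lit 228) (nat_lit 396476404934) (nat_lit 304) (nat_lit 332015032230) (nat_lit 46) (nat_lit 5) (nat_lit 49) (nat_lit 5) (nat_lit 50) (nat_lit 5) (nat_lit 338) (nat_lit 319) (nat_lit 123))))))) (XT.nd (nat_lit 858) (nat_lit 1748) (nat_lit 0) (XT.nd (nat_lit 390) (nat_lit 1064) (nat_lit 0) (XT.nd (nat_lit 156)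 (nat_lit 608) (nat_lit 0) (XT.nd (nat_lit 78) (nat_lit 0) (nat_lit 0) (XT.lf (nat_lit 0) (nat_lit 93988631759) (nat_lit 0) (nat_lit 93988631759) (nat_lit 684) (nat_lit 18827316864) (nat_lit 94) (nat_lit 5) (nat_lit 94) (nat_lit 3) (nat_lit 103) (nat_lit 3) (nat_lit 320) (nat_lit 320) (nat_lit 140)) (XT.lf (nat_lit 76) (nat_lit 78409668876) (nat_lit 0) (nat_lit 315632703893) (nat_lit 760) (nat_lit 35958670191) (nat_lit 95) (nat_lit 5) (nat_lit 94) (nat_lit 5) (nat_lit 104) (nat_lit 5) (nat_lit 321) (nat_lit 320) (nat_lit 139))) (XT.nd (nat_lit 78) (nat_lit 608) (nat_lit 0) (XT.lf (nat_lit 76) (nat_lit 411557327257) (nat_lit 0) (nat_lit 9068741261) (nat_lit 760) (nat_lit 26725766196) (nat_lit 95) (nat_lit 5) (nat_lit 94) (nat_lit 5) (nat_lit 104) (nat_lit 5) (nat_lit 322) (nat_lit 320) (nat_lit 138)) (XT.nd (nat_lit 78) (nat_lit 684) (nat_lit 0) (XT.lf (nat_lit 76) (nat_lit 310165673859)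 (nat_lit 0) (nat_lit 149040929412) (nat_lit 760) (nat_lit 6390579461) (nat_lit 96) (nat_lit 5) (nat_lit 95) (nat_lit 5) (nat_lit 105) (nat_lit 5) (nat_lit 323) (nat_lit 320) (nat_lit 137)) (XT.lf (nat_lit 0) (nat_lit 21994191712) (nat_lit 760) (nat_lit 282011426497) (nat_lit 836) (nat_lit 180938327176) (nat_lit 86) (nat_lit 5) (nat_lit 96) (nat_lit 5) (nat_lit 97) (nat_lit 5) (nat_lit 324) (nat_lit 320) (nat_lit 136))))) (XT.nd (nat_lit 234) (nat_lit 1140) (nat_lit 0) (XT.nd (nat_lit 78) (nat_lit 0) (nat_lit 0) (XT.lf (nat_lit 0) (nat_lit 59582310890) (nat_lit 760) (nat_lit 415953211339) (nat_lit 836) (nat_lit 29939865663) (nat_lit 87) (nat_lit 5) (nat_lit 97) (nat_lit 5) (nat_lit 98) (nat_lit 5) (nat_lit 325) (nat_lit 320) (nat_lit 135)) (XT.nd (nat_lit 78) (nat_lit 0) (nat_lit 76) (XT.lf (nat_lit 0) (nat_lit 110296515758) (nat_lit 760) (nat_lit 31761375754) (nat_lit 836) (nat_lit 385085502550)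 (nat_lit 87) (nat_lit 5) (nat_lit 97) (nat_lit 5) (nat_lit 98) (nat_lit 5) (nat_lit 326) (nat_lit 320) (nat_lit 134)) (XT.lf (nat_lit 0) (nat_lit 174754343572) (nat_lit 760) (nat_lit 157907306828) (nat_lit 76) (nat_lit 217398866063) (nat_lit 88) (nat_lit 5) (nat_lit 98) (nat_lit 5) (nat_lit 89) (nat_lit 5) (nat_lit 327) (nat_lit 320) (nat_lit 133)))) (XT.nd (nat_lit 78) (nat_lit 684) (nat_lit 0) (XT.lf (nat_lit 0) (nat_lit 252232375160) (nat_lit 608) (nat_lit 291945339833) (nat_lit 76) (nat_lit 30240114846) (nat_lit 81) (nat_lit 5) (nat_lit 89) (nat_lit 5) (nat_lit 82) (nat_lit 5) (nat_lit 328) (nat_lit 320) (nat_lit 132)) (XT.nd (nat_lit 78) (nat_lit 304) (nat_lit 0) (XT.lf (nat_lit 0) (nat_lit 162687913129) (nat_lit 380) (nat_lit 184165734398) (nat_lit 456) (nat_lit 253322830900) (nat_lit 76) (nat_lit 5) (nat_lit 81) (nat_lit 5) (nat_lit 82) (nat_lit 5) (nat_lit 329) (nat_lit 320) (nat_lit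 131)) (XT.lf (nat_lit 0) (nat_lit 34191374408) (nat_lit 304) (nat_lit 423751022221) (nat_lit 380) (nat_lit 169608533579) (nat_lit 72) (nat_lit 5) (nat_lit 76) (nat_lit 5) (nat_lit 77) (nat_lit 5) (nat_lit 330) (nat_lit 320) (nat_lit 130)))))) (XT.nd (nat_lit 390) (nat_lit 532) (nat_lit 0) (XT.nd (nat_lit 156) (nat_lit 836) (nat_lit 0) (XT.nd (nat_lit 78) (nat_lit 380) (nat_lit 0) (XT.lf (nat_lit 0) (nat_lit 556020203866) (nat_lit 304) (nat_lit 32574063420) (nat_lit 380) (nat_lit 67987269811) (nat_lit 72) (nat_lit 5) (nat_lit 76) (nat_lit 5) (nat_lit 77) (nat_lit 5) (nat_lit 331) (nat_lit 320) (nat_lit 129)) (XT.lf (nat_lit 0) (nat_lit 53590757592) (nat_lit 380) (nat_lit 248506681522) (nat_lit 76) (nat_lit 385146362970) (nat_lit 67) (nat_lit 5) (nat_lit 72) (nat_lit 5) (nat_lit 68) (nat_lit 5) (nat_lit 332) (nat_lit 320) (nat_lit 128))) (XT.nd (nat_lit 78) (nat_lit 532) (nat_lit 0) (XT.lf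 (nat_lit 0) (nat_lit 191678857179) (nat_lit 380) (nat_lit 409076178158) (nat_lit 76) (nat_lit 119089997063) (nat_lit 63) (nat_lit 5) (nat_lit 68) (nat_lit 5) (nat_lit 64) (nat_lit 5) (nat_lit 333) (nat_lit 320) (nat_lit 127)) (XT.nd (nat_lit 78) (nat_lit 228) (nat_lit 0) (XT.lf (nat_lit 0) (nat_lit 169068958763) (nat_lit 304) (nat_lit 183878365276) (nat_lit 380) (nat_lit 401500371174) (nat_lit 59) (nat_lit 5) (nat_lit 63) (nat_lit 5) (nat_lit 64) (nat_lit 5) (nat_lit 334) (nat_lit 320) (nat_lit 126)) (XT.lf (nat_lit 0) (nat_lit 12743999992) (nat_lit 228) (nat_lit 525973318913) (nat_lit 304) (nat_lit 252521249646) (nat_lit 56) (nat_lit 5) (nat_lit 59) (nat_lit 5) (nat_lit 60) (nat_lit 5) (nat_lit 335) (nat_lit 320) (nat_lit 125))))) (XT.nd (nat_lit 39546) (nat_lit 0) (nat_lit 3420) (XT.nd (nat_lit 156) (nat_lit 532) (nat_lit 0) (XT.lf (nat_lit 0) (nat_lit 676417169020) (nat_lit 228) (nat_lit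 76179157622) (nat_lit 304) (nat_lit 77714014482) (nat_lit 56) (nat_lit 5) (nat_lit 59) (nat_lit 5) (nat_lit 60) (nat_lit 5) (nat_lit 336) (nat_lit 320) (nat_lit 124)) (XT.nd (nat_lit 39312) (nat_lit 0) (nat_lit 3420) (XT.lf (nat_lit 0) (nat_lit 345966736527) (nat_lit 304) (nat_lit 550803483499) (nat_lit 76) (nat_lit 19011326576) (nat_lit 49) (nat_lit 5) (nat_lit 53) (nat_lit 5) (nat_lit 50) (nat_lit 5) (nat_lit 338) (nat_lit 320) (nat_lit 122)) (XT.lf (nat_lit 0) (nat_lit 101507997724) (nat_lit 0) (nat_lit 101507997724) (nat_lit 684) (nat_lit 20332922844) (nat_lit 94) (nat_lit 5) (nat_lit 94) (nat_lit 3) (nat_lit 103) (nat_lit 3) (nat_lit 321) (nat_lit 321) (nat_lit 138)))) (XT.nd (nat_lit 78) (nat_lit 0) (nat_lit 0) (XT.lf (nat_lit 76) (nat_lit 84683032084) (nat_lit 0) (nat_lit 340883751839) (nat_lit 760) (nat_lit 38834289595) (nat_lit 95) (nat_lit 5) (nat_lit 94) (nat_lit 5) (nat_lit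 104) (nat_lit 5) (nat_lit 322) (nat_lit 321) (nat_lit 137)) (XT.nd (nat_lit 78) (nat_lit 0) (nat_lit 76) (XT.lf (nat_lit 76) (nat_lit 444482459454) (nat_lit 0) (nat_lit 9794640223) (nat_lit 760) (nat_lit 28862832852) (nat_lit 95) (nat_lit 5) (nat_lit 94) (nat_lit 5) (nat_lit 104) (nat_lit 5) (nat_lit 323) (nat_lit 321) (nat_lit 136)) (XT.lf (nat_lit 76) (nat_lit 334979502859) (nat_lit 0) (nat_lit 160964507504) (nat_lit 760) (nat_lit 6900901494) (nat_lit 96) (nat_lit 5) (nat_lit 95) (nat_lit 5) (nat_lit 105) (nat_lit 5) (nat_lit 324) (nat_lit 321) (nat_lit 135))))))))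
noncomputable def xc126 : XT := (XT.nd (nat_lit 41184) (nat_lit 0) (nat_lit 0) (XT.nd (nat_lit 780) (nat_lit 304) (nat_lit 0) (XT.nd (nat_lit 390) (nat_lit 1368) (nat_lit 0) (XT.nd (nat_lit 156) (nat_lit 380) (nat_lit 0) (XT.nd (nat_lit 78) (nat_lit 0) (nat_lit 76) (XT.lf (nat_lit 0) (nat_lit 23754560541) (nat_lit 760) (nat_lit 304571713536) (nat_lit 836) (nat_lit 195413143895) (nat_lit 86) (nat_lit 5) (nat_lit 96) (nat_lit 5) (nat_lit 97) (nat_lit 5) (nat_lit 325) (nat_lit 321) (nat_lit 134)) (XT.lf (nat_lit 0) (nat_lit 64349674048) (nat_lit 760) (nat_lit 449228825263) (nat_lit 836) (nat_lit 32334879430) (nat_lit 87) (nat_lit 5) (nat_lit 97) (nat_lit 5) (nat_lit 98) (nat_lit 5) (nat_lit 326) (nat_lit 321) (nat_lit 133))) (XT.nd (nat_lit 78) (nat_lit 456) (nat_lit 0) (XT.lf (nat_lit 0) (nat_lit 119120957655) (nat_lit 760) (nat_lit 34301690459) (nat_lit 836) (nat_lit 415892180267) (nat_lit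 87) (nat_lit 5) (nat_lit 97) (nat_lit 5) (nat_lit 98) (nat_lit 5) (nat_lit 327) (nat_lit 321) (nat_lit 132)) (XT.nd (nat_lit 78) (nat_lit 532) (nat_lit 0) (XT.lf (nat_lit 0) (nat_lit 188735365539) (nat_lit 760) (nat_lit 170539285333) (nat_lit 76) (nat_lit 234790672097) (nat_lit 88) (nat_lit 5) (nat_lit 98) (nat_lit 5) (nat_lit 89) (nat_lit 5) (nat_lit 328) (nat_lit 321) (nat_lit 131)) (XT.lf (nat_lit 0) (nat_lit 272411597902) (nat_lit 608) (nat_lit 315300353789) (nat_lit 76) (nat_lit 32659271892) (nat_lit 81) (nat_lit 5) (nat_lit 89) (nat_lit 5) (nat_lit 82) (nat_lit 5) (nat_lit 329) (nat_lit 321) (nat_lit 130))))) (XT.nd (nat_lit 156) (nat_lit 684) (nat_lit 0) (XT.nd (nat_lit 78) (nat_lit 304) (nat_lit 0) (XT.lf (nat_lit 0) (nat_lit 175703532760) (nat_lit 380) (nat_lit 198899001589) (nat_lit 456) (nat_lit 273588031670) (nat_lit 76) (nat_lit 5) (nat_lit 81) (nat_lit 5) (nat_lit 82) (nat_lit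 5) (nat_lit 330) (nat_lit 321) (nat_lit 129)) (XT.lf (nat_lit 0) (nat_lit 36927274925) (nat_lit 304) (nat_lit 457651073476) (nat_lit 380) (nat_lit 183176627358) (nat_lit 72) (nat_lit 5) (nat_lit 76) (nat_lit 5) (nat_lit 77) (nat_lit 5) (nat_lit 331) (nat_lit 321) (nat_lit 128))) (XT.nd (nat_lit 78) (nat_lit 684) (nat_lit 0) (XT.lf (nat_lit 0) (nat_lit 600502366994) (nat_lit 304) (nat_lit 35179960232) (nat_lit 380) (nat_lit 73425706112) (nat_lit 72) (nat_lit 5) (nat_lit 76) (nat_lit 5) (nat_lit 77) (nat_lit 5) (nat_lit 332) (nat_lit 321) (nat_lit 127)) (XT.nd (nat_lit 78) (nat_lit 304) (nat_lit 0) (XT.lf (nat_lit 0) (nat_lit 57878516046) (nat_lit 380) (nat_lit 268386650680) (nat_lit 76) (nat_lit 415958113927) (nat_lit 67) (nat_lit 5) (nat_lit 72) (nat_lit 5) (nat_lit 68) (nat_lit 5) (nat_lit 333) (nat_lit 321) (nat_lit 126)) (XT.lf (nat_lit 0) (nat_lit 207013636282) (nat_lit 380) (nat_lit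 441801708608) (nat_lit 76) (nat_lit 128617265924) (nat_lit 63) (nat_lit 5) (nat_lit 68) (nat_lit 5) (nat_lit 64) (nat_lit 5) (nat_lit 334) (nat_lit 321) (nat_lit 125)))))) (XT.nd (nat_lit 39936) (nat_lit 0) (nat_lit 1292) (XT.nd (nat_lit 39702) (nat_lit 0) (nat_lit 2660) (XT.nd (nat_lit 39624) (nat_lit 0) (nat_lit 2660) (XT.lf (nat_lit 0) (nat_lit 182595014765) (nat_lit 304) (nat_lit 198588539292) (nat_lit 380) (nat_lit 433619933965) (nat_lit 59) (nat_lit 5) (nat_lit 63) (nat_lit 5) (nat_lit 64) (nat_lit 5) (nat_lit 335) (nat_lit 321) (nat_lit 124)) (XT.lf (nat_lit 0) (nat_lit 109628873673) (nat_lit 0) (nat_lit 109628873673) (nat_lit 684) (nat_lit 21959059956) (nat_lit 94) (nat_lit 5) (nat_lit 94) (nat_lit 3) (nat_lit 103) (nat_lit 3) (nat_lit 322) (nat_lit 322) (nat_lit 136))) (XT.nd (nat_lit 78) (nat_lit 0) (nat_lit 0) (XT.lf (nat_lit 76) (nat_lit 91458180222) (nat_lit 0) (nat_lit 368154822043)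 (nat_lit 760) (nat_lit 41940111799) (nat_lit 95) (nat_lit 5) (nat_lit 94) (nat_lit 5) (nat_lit 104) (nat_lit 5) (nat_lit 323) (nat_lit 322) (nat_lit 135)) (XT.nd (nat_lit 78) (nat_lit 0) (nat_lit 76) (XT.lf (nat_lit 76) (nat_lit 480041524332) (nat_lit 0) (nat_lit 10578554086) (nat_lit 760) (nat_lit 31171006736) (nat_lit 95) (nat_lit 5) (nat_lit 94) (nat_lit 5) (nat_lit 104) (nat_lit 5) (nat_lit 324) (nat_lit 322) (nat_lit 134)) (XT.lf (nat_lit 76) (nat_lit 361778356135) (nat_lit 0) (nat_lit 173841928512) (nat_lit 760) (nat_lit 7452181154) (nat_lit 96) (nat_lit 5) (nat_lit 95) (nat_lit 5) (nat_lit 105) (nat_lit 5) (nat_lit 325) (nat_lit 322) (nat_lit 133))))) (XT.nd (nat_lit 234) (nat_lit 760) (nat_lit 0) (XT.nd (nat_lit 78) (nat_lit 0) (nat_lit 76) (XT.lf (nat_lit 0) (nat_lit 25655639970) (nat_lit 760) (nat_lit 328936912999) (nat_lit 836) (nat_lit 211045981538) (nat_lit 86) (nat_lit 5)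 (nat_lit 96) (nat_lit 5) (nat_lit 97) (nat_lit 5) (nat_lit 326) (nat_lit 322) (nat_lit 132)) (XT.nd (nat_lit 78) (nat_lit 0) (nat_lit 0) (XT.lf (nat_lit 0) (nat_lit 69498315227) (nat_lit 760) (nat_lit 485166580030) (nat_lit 836) (nat_lit 34921519333) (nat_lit 87) (nat_lit 5) (nat_lit 97) (nat_lit 5) (nat_lit 98) (nat_lit 5) (nat_lit 327) (nat_lit 322) (nat_lit 131)) (XT.lf (nat_lit 0) (nat_lit 128651252096) (nat_lit 760) (nat_lit 37045315275) (nat_lit 836) (nat_lit 449163415382) (nat_lit 87) (nat_lit 5) (nat_lit 97) (nat_lit 5) (nat_lit 98) (nat_lit 5) (nat_lit 328) (nat_lit 322) (nat_lit 130)))) (XT.nd (nat_lit 78) (nat_lit 912) (nat_lit 0) (XT.lf (nat_lit 0) (nat_lit 203834773041) (nat_lit 760) (nat_lit 184181908577) (nat_lit 76) (nat_lit 253573837344) (nat_lit 88) (nat_lit 5) (nat_lit 98) (nat_lit 5) (nat_lit 89) (nat_lit 5) (nat_lit 329) (nat_lit 322) (nat_lit 129)) (XT.nd (nat_lit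 78) (nat_lit 380) (nat_lit 0) (XT.lf (nat_lit 0) (nat_lit 294205068198) (nat_lit 608) (nat_lit 340523856346) (nat_lit 76) (nat_lit 35271968939) (nat_lit 81) (nat_lit 5) (nat_lit 89) (nat_lit 5) (nat_lit 82) (nat_lit 5) (nat_lit 330) (nat_lit 322) (nat_lit 128)) (XT.lf (nat_lit 0) (nat_lit 189760318278) (nat_lit 380) (nat_lit 214810928951) (nat_lit 456) (nat_lit 295474537765) (nat_lit 76) (nat_lit 5) (nat_lit 81) (nat_lit 5) (nat_lit 82) (nat_lit 5) (nat_lit 331) (nat_lit 322) (nat_lit 127))))))) (XT.nd (nat_lit 40482) (nat_lit 304) (nat_lit 0) (XT.nd (nat_lit 40014) (nat_lit 0) (nat_lit 1748) (XT.nd (nat_lit 156) (nat_lit 684) (nat_lit 0) (XT.nd (nat_lit 78) (nat_lit 0) (nat_lit 0) (XT.lf (nat_lit 0) (nat_lit 39881963232) (nat_lit 304) (nat_lit 494263133186) (nat_lit 380) (nat_lit 197830252654) (nat_lit 72) (nat_lit 5) (nat_lit 76) (nat_lit 5) (nat_lit 77) (nat_lit 5) (nat_lit 332) (nat_lit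 322) (nat_lit 126)) (XT.lf (nat_lit 0) (nat_lit 648543025162) (nat_lit 304) (nat_lit 37994332821) (nat_lit 380) (nat_lit 79299295107) (nat_lit 72) (nat_lit 5) (nat_lit 76) (nat_lit 5) (nat_lit 77) (nat_lit 5) (nat_lit 333) (nat_lit 322) (nat_lit 125))) (XT.nd (nat_lit 78) (nat_lit 304) (nat_lit 0) (XT.lf (nat_lit 0) (nat_lit 62509224154) (nat_lit 380) (nat_lit 289857098026) (nat_lit 76) (nat_lit 449234798980) (nat_lit 67) (nat_lit 5) (nat_lit 72) (nat_lit 5) (nat_lit 68) (nat_lit 5) (nat_lit 334) (nat_lit 322) (nat_lit 124)) (XT.nd (nat_lit 39702) (nat_lit 0) (nat_lit 2356) (XT.lf (nat_lit 0) (nat_lit 223575130586) (nat_lit 380) (nat_lit 477145361926) (nat_lit 76) (nat_lit 138906706437) (nat_lit 63) (nat_lit 5) (nat_lit 68) (nat_lit 5) (nat_lit 64) (nat_lit 5) (nat_lit 335) (nat_lit 322) (nat_lit 123)) (XT.lf (nat_lit 0) (nat_lit 118399386012) (nat_lit 0) (nat_lit 118399386012) (nat_lit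 684) (nat_lit 23715358899) (nat_lit 94) (nat_lit 5) (nat_lit 94) (nat_lit 3) (nat_lit 103) (nat_lit 3) (nat_lit 323) (nat_lit 323) (nat_lit 134))))) (XT.nd (nat_lit 234) (nat_lit 608) (nat_lit 0) (XT.nd (nat_lit 78) (nat_lit 0) (nat_lit 0) (XT.lf (nat_lit 76) (nat_lit 98775268086) (nat_lit 0) (nat_lit 397607525070) (nat_lit 760) (nat_lit 45294531166) (nat_lit 95) (nat_lit 5) (nat_lit 94) (nat_lit 5) (nat_lit 104) (nat_lit 5) (nat_lit 324) (nat_lit 323) (nat_lit 133)) (XT.nd (nat_lit 78) (nat_lit 0) (nat_lit 76) (XT.lf (nat_lit 76) (nat_lit 518445247617) (nat_lit 0) (nat_lit 11425132176) (nat_lit 760) (nat_lit 33663956185) (nat_lit 95) (nat_lit 5) (nat_lit 94) (nat_lit 5) (nat_lit 104) (nat_lit 5) (nat_lit 325) (nat_lit 323) (nat_lit 132)) (XT.lf (nat_lit 76) (nat_lit 390721047334) (nat_lit 0) (nat_lit 187749506050) (nat_lit 760) (nat_lit 8047676240) (nat_lit 96) (nat_lit 5) (nat_lit 95)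 (nat_lit 5) (nat_lit 105) (nat_lit 5) (nat_lit 326) (nat_lit 323) (nat_lit 131)))) (XT.nd (nat_lit 78) (nat_lit 0) (nat_lit 76) (XT.lf (nat_lit 0) (nat_lit 27708703809) (nat_lit 760) (nat_lit 355251405116) (nat_lit 836) (nat_lit 227929476703) (nat_lit 86) (nat_lit 5) (nat_lit 96) (nat_lit 5) (nat_lit 97) (nat_lit 5) (nat_lit 327) (nat_lit 323) (nat_lit 130)) (XT.nd (nat_lit 78) (nat_lit 0) (nat_lit 0) (XT.lf (nat_lit 0) (nat_lit 75058752509) (nat_lit 760) (nat_lit 523979433821) (nat_lit 836) (nat_lit 37715111893) (nat_lit 87) (nat_lit 5) (nat_lit 97) (nat_lit 5) (nat_lit 98) (nat_lit 5) (nat_lit 328) (nat_lit 323) (nat_lit 129)) (XT.lf (nat_lit 0) (nat_lit 138943881953) (nat_lit 760) (nat_lit 40008502894) (nat_lit 836) (nat_lit 485096369180) (nat_lit 87) (nat_lit 5) (nat_lit 97) (nat_lit 5) (nat_lit 98) (nat_lit 5) (nat_lit 329) (nat_lit 323) (nat_lit 128)))))) (XT.nd (nat_lit 546) (nat_lit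 988) (nat_lit 0) (XT.nd (nat_lit 156) (nat_lit 684) (nat_lit 0) (XT.nd (nat_lit 78) (nat_lit 532) (nat_lit 0) (XT.lf (nat_lit 0) (nat_lit 220142050648) (nat_lit 760) (nat_lit 198916015804) (nat_lit 76) (nat_lit 273859668439) (nat_lit 88) (nat_lit 5) (nat_lit 98) (nat_lit 5) (nat_lit 89) (nat_lit 5) (nat_lit 330) (nat_lit 323) (nat_lit 127)) (XT.lf (nat_lit 0) (nat_lit 317741938729) (nat_lit 608) (nat_lit 367765314111) (nat_lit 76) (nat_lit 38093688128) (nat_lit 81) (nat_lit 5) (nat_lit 89) (nat_lit 5) (nat_lit 82) (nat_lit 5) (nat_lit 331) (nat_lit 323) (nat_lit 126))) (XT.nd (nat_lit 78) (nat_lit 304) (nat_lit 0) (XT.lf (nat_lit 0) (nat_lit 204941574894) (nat_lit 380) (nat_lit 231995809469) (nat_lit 456) (nat_lit 319112040877) (nat_lit 76) (nat_lit 5) (nat_lit 81) (nat_lit 5) (nat_lit 82) (nat_lit 5) (nat_lit 332) (nat_lit 323) (nat_lit 125)) (XT.nd (nat_lit 78) (nat_lit 0) (nat_lit 0)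 (XT.lf (nat_lit 0) (nat_lit 43072954373) (nat_lit 304) (nat_lit 533804161406) (nat_lit 380) (nat_lit 213656240003) (nat_lit 72) (nat_lit 5) (nat_lit 76) (nat_lit 5) (nat_lit 77) (nat_lit 5) (nat_lit 333) (nat_lit 323) (nat_lit 124)) (XT.lf (nat_lit 0) (nat_lit 700426869103) (nat_lit 304) (nat_lit 41033858674) (nat_lit 380) (nat_lit 85642837916) (nat_lit 72) (nat_lit 5) (nat_lit 76) (nat_lit 5) (nat_lit 77) (nat_lit 5) (nat_lit 334) (nat_lit 323) (nat_lit 123))))) (XT.nd (nat_lit 39780) (nat_lit 0) (nat_lit 2052) (XT.nd (nat_lit 39624) (nat_lit 0) (nat_lit 2660) (XT.lf (nat_lit 0) (nat_lit 212979720977) (nat_lit 304) (nat_lit 231633514095) (nat_lit 380) (nat_lit 505773515472) (nat_lit 59) (nat_lit 5) (nat_lit 63) (nat_lit 5) (nat_lit 64) (nat_lit 5) (nat_lit 337) (nat_lit 323) (nat_lit 120)) (XT.nd (nat_lit 78) (nat_lit 0) (nat_lit 0) (XT.lf (nat_lit 0) (nat_lit 127871510457) (nat_lit 0)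 (nat_lit 127871510457) (nat_lit 684) (nat_lit 25612222510) (nat_lit 94) (nat_lit 5) (nat_lit 94) (nat_lit 3) (nat_lit 103) (nat_lit 3) (nat_lit 324) (nat_lit 324) (nat_lit 132)) (XT.lf (nat_lit 76) (nat_lit 106677661143) (nat_lit 0) (nat_lit 429416399079) (nat_lit 760) (nat_lit 48917416724) (nat_lit 95) (nat_lit 5) (nat_lit 94) (nat_lit 5) (nat_lit 104) (nat_lit 5) (nat_lit 325) (nat_lit 324) (nat_lit 131)))) (XT.nd (nat_lit 78) (nat_lit 608) (nat_lit 0) (XT.lf (nat_lit 76) (nat_lit 559921211510) (nat_lit 0) (nat_lit 12339394605) (nat_lit 760) (nat_lit 36356445888) (nat_lit 95) (nat_lit 5) (nat_lit 94) (nat_lit 5) (nat_lit 104) (nat_lit 5) (nat_lit 326) (nat_lit 324) (nat_lit 130)) (XT.nd (nat_lit 78) (nat_lit 684) (nat_lit 0) (XT.lf (nat_lit 76) (nat_lit 421979093525) (nat_lit 0) (nat_lit 202769657941) (nat_lit 760) (nat_lit 8690907859) (nat_lit 96) (nat_lit 5) (nat_lit 95) (nat_lit 5)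 (nat_lit 105) (nat_lit 5) (nat_lit 327) (nat_lit 324) (nat_lit 129)) (XT.lf (nat_lit 0) (nat_lit 29925925355) (nat_lit 760) (nat_lit 383671122358) (nat_lit 836) (nat_lit 246163677640) (nat_lit 86) (nat_lit 5) (nat_lit 96) (nat_lit 5) (nat_lit 97) (nat_lit 5) (nat_lit 328) (nat_lit 324) (nat_lit 128))))))))
noncomputable def xc127 : XT := (XT.nd (nat_lit 81432) (nat_lit 0) (nat_lit 684) (XT.nd (nat_lit 40716) (nat_lit 0) (nat_lit 0) (XT.nd (nat_lit 390) (nat_lit 304) (nat_lit 0) (XT.nd (nat_lit 156) (nat_lit 836) (nat_lit 0) (XT.nd (nat_lit 78) (nat_lit 0) (nat_lit 0) (XT.lf (nat_lit 0) (nat_lit 81063943162) (nat_lit 760) (nat_lit 565897383338) (nat_lit 836) (nat_lit 40732210258) (nat_lit 87) (nat_lit 5) (nat_lit 97) (nat_lit 5) (nat_lit 98) (nat_lit 5) (nat_lit 329) (nat_lit 324) (nat_lit 127)) (XT.lf (nat_lit 0) (nat_lit 150059846631) (nat_lit 760) (nat_lit 43208807951) (nat_lit 836)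 (nat_lit 523903976320) (nat_lit 87) (nat_lit 5) (nat_lit 97) (nat_lit 5) (nat_lit 98) (nat_lit 5) (nat_lit 330) (nat_lit 324) (nat_lit 126))) (XT.nd (nat_lit 78) (nat_lit 912) (nat_lit 0) (XT.lf (nat_lit 0) (nat_lit 237753839737) (nat_lit 760) (nat_lit 214828915160) (nat_lit 76) (nat_lit 295768376849) (nat_lit 88) (nat_lit 5) (nat_lit 98) (nat_lit 5) (nat_lit 89) (nat_lit 5) (nat_lit 331) (nat_lit 324) (nat_lit 125)) (XT.nd (nat_lit 78) (nat_lit 380) (nat_lit 0) (XT.lf (nat_lit 0) (nat_lit 343161692554) (nat_lit 608) (nat_lit 397186152801) (nat_lit 76) (nat_lit 41141150320) (nat_lit 81) (nat_lit 5) (nat_lit 89) (nat_lit 5) (nat_lit 82) (nat_lit 5) (nat_lit 332) (nat_lit 324) (nat_lit 124)) (XT.lf (nat_lit 0) (nat_lit 221337270531) (nat_lit 380) (nat_lit 250555479545) (nat_lit 456) (nat_lit 344640609849) (nat_lit 76) (nat_lit 5) (nat_lit 81) (nat_lit 5) (nat_lit 82) (nat_lit 5) (nat_lit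 333) (nat_lit 324) (nat_lit 123))))) (XT.nd (nat_lit 40092) (nat_lit 0) (nat_lit 1064) (XT.nd (nat_lit 39936) (nat_lit 0) (nat_lit 1672) (XT.lf (nat_lit 0) (nat_lit 46519162878) (nat_lit 304) (nat_lit 576508475085) (nat_lit 380) (nat_lit 230748368092) (nat_lit 72) (nat_lit 5) (nat_lit 76) (nat_lit 5) (nat_lit 77) (nat_lit 5) (nat_lit 334) (nat_lit 324) (nat_lit 122)) (XT.nd (nat_lit 78) (nat_lit 0) (nat_lit 0) (XT.lf (nat_lit 0) (nat_lit 138101380096) (nat_lit 0) (nat_lit 138101380096) (nat_lit 684) (nat_lit 27660887296) (nat_lit 94) (nat_lit 5) (nat_lit 94) (nat_lit 3) (nat_lit 103) (nat_lit 3) (nat_lit 325) (nat_lit 325) (nat_lit 130)) (XT.lf (nat_lit 76) (nat_lit 115212192630) (nat_lit 0) (nat_lit 463769944204) (nat_lit 760) (nat_lit 52830229699) (nat_lit 95) (nat_lit 5) (nat_lit 94) (nat_lit 5) (nat_lit 104) (nat_lit 5) (nat_lit 326) (nat_lit 325) (nat_lit 129)))) (XT.nd (nat_lit 78)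 (nat_lit 608) (nat_lit 0) (XT.lf (nat_lit 76) (nat_lit 604715203427) (nat_lit 0) (nat_lit 13326762098) (nat_lit 760) (nat_lit 39264424186) (nat_lit 95) (nat_lit 5) (nat_lit 94) (nat_lit 5) (nat_lit 104) (nat_lit 5) (nat_lit 327) (nat_lit 325) (nat_lit 128)) (XT.nd (nat_lit 78) (nat_lit 684) (nat_lit 0) (XT.lf (nat_lit 76) (nat_lit 455737731711) (nat_lit 0) (nat_lit 218991394677) (nat_lit 760) (nat_lit 9385681104) (nat_lit 96) (nat_lit 5) (nat_lit 95) (nat_lit 5) (nat_lit 105) (nat_lit 5) (nat_lit 328) (nat_lit 325) (nat_lit 127)) (XT.lf (nat_lit 0) (nat_lit 32320449693) (nat_lit 760) (nat_lit 414364473354) (nat_lit 836) (nat_lit 265856637078) (nat_lit 86) (nat_lit 5) (nat_lit 96) (nat_lit 5) (nat_lit 97) (nat_lit 5) (nat_lit 329) (nat_lit 325) (nat_lit 126)))))) (XT.nd (nat_lit 468) (nat_lit 304) (nat_lit 0) (XT.nd (nat_lit 156) (nat_lit 836) (nat_lit 0) (XT.nd (nat_lit 78) (nat_lit 0)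 (nat_lit 0) (XT.lf (nat_lit 0) (nat_lit 87549479099) (nat_lit 760) (nat_lit 611168826621) (nat_lit 836) (nat_lit 43990692269) (nat_lit 87) (nat_lit 5) (nat_lit 97) (nat_lit 5) (nat_lit 98) (nat_lit 5) (nat_lit 330) (nat_lit 325) (nat_lit 125)) (XT.lf (nat_lit 0) (nat_lit 162065023699) (nat_lit 760) (nat_lit 46665190935) (nat_lit 836) (nat_lit 565816206639) (nat_lit 87) (nat_lit 5) (nat_lit 97) (nat_lit 5) (nat_lit 98) (nat_lit 5) (nat_lit 331) (nat_lit 325) (nat_lit 124))) (XT.nd (nat_lit 78) (nat_lit 912) (nat_lit 0) (XT.lf (nat_lit 0) (nat_lit 256774511317) (nat_lit 760) (nat_lit 232014900947) (nat_lit 76) (nat_lit 319429791213) (nat_lit 88) (nat_lit 5) (nat_lit 98) (nat_lit 5) (nat_lit 89) (nat_lit 5) (nat_lit 332) (nat_lit 325) (nat_lit 123)) (XT.nd (nat_lit 78) (nat_lit 380) (nat_lit 0) (XT.lf (nat_lit 0) (nat_lit 370614969802) (nat_lit 608) (nat_lit 428960713716) (nat_lit 76) (nat_lit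 44432414174) (nat_lit 81) (nat_lit 5) (nat_lit 89) (nat_lit 5) (nat_lit 82) (nat_lit 5) (nat_lit 333) (nat_lit 325) (nat_lit 122)) (XT.lf (nat_lit 0) (nat_lit 239044569084) (nat_lit 380) (nat_lit 270599922467) (nat_lit 456) (nat_lit 372211520590) (nat_lit 76) (nat_lit 5) (nat_lit 81) (nat_lit 5) (nat_lit 82) (nat_lit 5) (nat_lit 334) (nat_lit 325) (nat_lit 121))))) (XT.nd (nat_lit 40014) (nat_lit 0) (nat_lit 1064) (XT.nd (nat_lit 39858) (nat_lit 0) (nat_lit 1672) (XT.lf (nat_lit 0) (nat_lit 816978567706) (nat_lit 304) (nat_lit 47861858254) (nat_lit 380) (nat_lit 99893140434) (nat_lit 72) (nat_lit 5) (nat_lit 76) (nat_lit 5) (nat_lit 77) (nat_lit 5) (nat_lit 336) (nat_lit 325) (nat_lit 119)) (XT.nd (nat_lit 78) (nat_lit 0) (nat_lit 0) (XT.lf (nat_lit 0) (nat_lit 149149618079) (nat_lit 0) (nat_lit 149149618079) (nat_lit 684) (nat_lit 29873489920) (nat_lit 94) (nat_lit 5) (nat_lit 94) (nat_lit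 3) (nat_lit 103) (nat_lit 3) (nat_lit 326) (nat_lit 326) (nat_lit 128)) (XT.lf (nat_lit 76) (nat_lit 124429441185) (nat_lit 0) (nat_lit 500871739670) (nat_lit 760) (nat_lit 57056150507) (nat_lit 95) (nat_lit 5) (nat_lit 94) (nat_lit 5) (nat_lit 104) (nat_lit 5) (nat_lit 327) (nat_lit 326) (nat_lit 127)))) (XT.nd (nat_lit 78) (nat_lit 608) (nat_lit 0) (XT.lf (nat_lit 76) (nat_lit 653092672612) (nat_lit 0) (nat_lit 14393088186) (nat_lit 760) (nat_lit 42405117410) (nat_lit 95) (nat_lit 5) (nat_lit 94) (nat_lit 5) (nat_lit 104) (nat_lit 5) (nat_lit 328) (nat_lit 326) (nat_lit 126)) (XT.nd (nat_lit 78) (nat_lit 684) (nat_lit 0) (XT.lf (nat_lit 76) (nat_lit 492197016626) (nat_lit 0) (nat_lit 236510846941) (nat_lit 760) (nat_lit 10136107451) (nat_lit 96) (nat_lit 5) (nat_lit 95) (nat_lit 5) (nat_lit 105) (nat_lit 5) (nat_lit 329) (nat_lit 326) (nat_lit 125)) (XT.lf (nat_lit 0) (nat_lit 34906471737)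 (nat_lit 760) (nat_lit 447513340763) (nat_lit 836) (nat_lit 287125052497) (nat_lit 86) (nat_lit 5) (nat_lit 96) (nat_lit 5) (nat_lit 97) (nat_lit 5) (nat_lit 330) (nat_lit 326) (nat_lit 124))))))) (XT.nd (nat_lit 81042) (nat_lit 0) (nat_lit 380) (XT.nd (nat_lit 40482) (nat_lit 456) (nat_lit 0) (XT.nd (nat_lit 156) (nat_lit 0) (nat_lit 76) (XT.nd (nat_lit 78) (nat_lit 0) (nat_lit 0) (XT.lf (nat_lit 0) (nat_lit 94553797925) (nat_lit 760) (nat_lit 660062034925) (nat_lit 836) (nat_lit 47509866367) (nat_lit 87) (nat_lit 5) (nat_lit 97) (nat_lit 5) (nat_lit 98) (nat_lit 5) (nat_lit 331) (nat_lit 326) (nat_lit 123)) (XT.lf (nat_lit 0) (nat_lit 175030559389) (nat_lit 760) (nat_lit 50398130446) (nat_lit 836) (nat_lit 611081427907) (nat_lit 87) (nat_lit 5) (nat_lit 97) (nat_lit 5) (nat_lit 98) (nat_lit 5) (nat_lit 332) (nat_lit 326) (nat_lit 122))) (XT.nd (nat_lit 40170) (nat_lit 0) (nat_lit 456)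 (XT.lf (nat_lit 0) (nat_lit 277316784638) (nat_lit 760) (nat_lit 250575812308) (nat_lit 76) (nat_lit 344984126685) (nat_lit 88) (nat_lit 5) (nat_lit 98) (nat_lit 5) (nat_lit 89) (nat_lit 5) (nat_lit 333) (nat_lit 326) (nat_lit 121)) (XT.nd (nat_lit 78) (nat_lit 0) (nat_lit 0) (XT.lf (nat_lit 0) (nat_lit 161081696900) (nat_lit 0) (nat_lit 161081696900) (nat_lit 684) (nat_lit 32263139038) (nat_lit 94) (nat_lit 5) (nat_lit 94) (nat_lit 3) (nat_lit 103) (nat_lit 3) (nat_lit 327) (nat_lit 327) (nat_lit 126)) (XT.lf (nat_lit 76) (nat_lit 134384030657) (nat_lit 0) (nat_lit 540941650252) (nat_lit 760) (nat_lit 61620215964) (nat_lit 95) (nat_lit 5) (nat_lit 94) (nat_lit 5) (nat_lit 104) (nat_lit 5) (nat_lit 328) (nat_lit 327) (nat_lit 125))))) (XT.nd (nat_lit 234) (nat_lit 380) (nat_lit 0) (XT.nd (nat_lit 78) (nat_lit 608) (nat_lit 0) (XT.lf (nat_lit 76) (nat_lit 705340303252) (nat_lit 0) (nat_lit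 15544693952) (nat_lit 760) (nat_lit 45797131818) (nat_lit 95) (nat_lit 5) (nat_lit 94) (nat_lit 5) (nat_lit 104) (nat_lit 5) (nat_lit 329) (nat_lit 327) (nat_lit 124)) (XT.nd (nat_lit 78) (nat_lit 684) (nat_lit 0) (XT.lf (nat_lit 76) (nat_lit 531573006332) (nat_lit 0) (nat_lit 255431835315) (nat_lit 760) (nat_lit 10946628985) (nat_lit 96) (nat_lit 5) (nat_lit 95) (nat_lit 5) (nat_lit 105) (nat_lit 5) (nat_lit 330) (nat_lit 327) (nat_lit 123)) (XT.lf (nat_lit 0) (nat_lit 37699320467) (nat_lit 760) (nat_lit 483314159002) (nat_lit 836) (nat_lit 310094957635) (nat_lit 86) (nat_lit 5) (nat_lit 96) (nat_lit 5) (nat_lit 97) (nat_lit 5) (nat_lit 331) (nat_lit 327) (nat_lit 122)))) (XT.nd (nat_lit 78) (nat_lit 456) (nat_lit 0) (XT.lf (nat_lit 0) (nat_lit 102118410827) (nat_lit 760) (nat_lit 712866742382) (nat_lit 836) (nat_lit 51310585988) (nat_lit 87) (nat_lit 5) (nat_lit 97) (nat_lit 5) (nat_lit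 98) (nat_lit 5) (nat_lit 332) (nat_lit 327) (nat_lit 121)) (XT.nd (nat_lit 156) (nat_lit 456) (nat_lit 0) (XT.lf (nat_lit 0) (nat_lit 189033290314) (nat_lit 760) (nat_lit 54429744458) (nat_lit 836) (nat_lit 659967877613) (nat_lit 87) (nat_lit 5) (nat_lit 97) (nat_lit 5) (nat_lit 98) (nat_lit 5) (nat_lit 333) (nat_lit 327) (nat_lit 120)) (XT.lf (nat_lit 0) (nat_lit 432285868565) (nat_lit 608) (nat_lit 500339226188) (nat_lit 76) (nat_lit 51825921102) (nat_lit 81) (nat_lit 5) (nat_lit 89) (nat_lit 5) (nat_lit 82) (nat_lit 5) (nat_lit 335) (nat_lit 327) (nat_lit 118)))))) (XT.nd (nat_lit 40716) (nat_lit 0) (nat_lit 76) (XT.nd (nat_lit 156) (nat_lit 608) (nat_lit 0) (XT.nd (nat_lit 78) (nat_lit 0) (nat_lit 0) (XT.lf (nat_lit 0) (nat_lit 173968326423) (nat_lit 0) (nat_lit 173968326423) (nat_lit 684) (nat_lit 34843992909) (nat_lit 94) (nat_lit 5) (nat_lit 94) (nat_lit 3) (nat_lit 103) (nat_lit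 3) (nat_lit 328) (nat_lit 328) (nat_lit 124)) (XT.lf (nat_lit 76) (nat_lit 145134953879) (nat_lit 0) (nat_lit 584217129227) (nat_lit 760) (nat_lit 66549467514) (nat_lit 95) (nat_lit 5) (nat_lit 94) (nat_lit 5) (nat_lit 104) (nat_lit 5) (nat_lit 329) (nat_lit 328) (nat_lit 123))) (XT.nd (nat_lit 78) (nat_lit 608) (nat_lit 0) (XT.lf (nat_lit 76) (nat_lit 761767713410) (nat_lit 0) (nat_lit 16788405537) (nat_lit 760) (nat_lit 49460563727) (nat_lit 95) (nat_lit 5) (nat_lit 94) (nat_lit 5) (nat_lit 104) (nat_lit 5) (nat_lit 330) (nat_lit 328) (nat_lit 122)) (XT.nd (nat_lit 78) (nat_lit 684) (nat_lit 0) (XT.lf (nat_lit 76) (nat_lit 574099042634) (nat_lit 0) (nat_lit 275866485552) (nat_lit 760) (nat_lit 11822044608) (nat_lit 96) (nat_lit 5) (nat_lit 95) (nat_lit 5) (nat_lit 105) (nat_lit 5) (nat_lit 331) (nat_lit 328) (nat_lit 121)) (XT.lf (nat_lit 0) (nat_lit 40715549876) (nat_lit 760) (nat_lit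 521979078225) (nat_lit 836) (nat_lit 334902469316) (nat_lit 86) (nat_lit 5) (nat_lit 96) (nat_lit 5) (nat_lit 97) (nat_lit 5) (nat_lit 332) (nat_lit 328) (nat_lit 120))))) (XT.nd (nat_lit 390) (nat_lit 532) (nat_lit 0) (XT.nd (nat_lit 78) (nat_lit 0) (nat_lit 0) (XT.lf (nat_lit 0) (nat_lit 187885872930) (nat_lit 0) (nat_lit 187885872930) (nat_lit 684) (nat_lit 37631343229) (nat_lit 94) (nat_lit 5) (nat_lit 94) (nat_lit 3) (nat_lit 103) (nat_lit 3) (nat_lit 329) (nat_lit 329) (nat_lit 122)) (XT.nd (nat_lit 78) (nat_lit 0) (nat_lit 0) (XT.lf (nat_lit 76) (nat_lit 156745922316) (nat_lit 0) (nat_lit 630954625555) (nat_lit 760) (nat_lit 71873111363) (nat_lit 95) (nat_lit 5) (nat_lit 94) (nat_lit 5) (nat_lit 104) (nat_lit 5) (nat_lit 330) (nat_lit 329) (nat_lit 121)) (XT.lf (nat_lit 76) (nat_lit 822709289860) (nat_lit 0) (nat_lit 18131594638) (nat_lit 760) (nat_lit 53417118499) (nat_lit 95)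 (nat_lit 5) (nat_lit 94) (nat_lit 5) (nat_lit 104) (nat_lit 5) (nat_lit 331) (nat_lit 329) (nat_lit 120)))) (XT.nd (nat_lit 40404) (nat_lit 0) (nat_lit 532) (XT.lf (nat_lit 0) (nat_lit 119111427737) (nat_lit 760) (nat_lit 831487344210) (nat_lit 836) (nat_lit 59848551748) (nat_lit 87) (nat_lit 5) (nat_lit 97) (nat_lit 5) (nat_lit 98) (nat_lit 5) (nat_lit 334) (nat_lit 329) (nat_lit 117)) (XT.nd (nat_lit 40794) (nat_lit 0) (nat_lit 0) (XT.lf (nat_lit 76) (nat_lit 169285743673) (nat_lit 0) (nat_lit 681431103616) (nat_lit 760) (nat_lit 77622691452) (nat_lit 95) (nat_lit 5) (nat_lit 94) (nat_lit 5) (nat_lit 104) (nat_lit 5) (nat_lit 331) (nat_lit 330) (nat_lit 119)) (XT.lf (nat_lit 76) (nat_lit 959608380411) (nat_lit 0) (nat_lit 21148885748) (nat_lit 760) (nat_lit 62305244799) (nat_lit 95) (nat_lit 5) (nat_lit 94) (nat_lit 5) (nat_lit 104) (nat_lit 5) (nat_lit 333) (nat_lit 331) (nat_lit 116))))))))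

set_option maxRecDepth 10000000 in
noncomputable def Tp : PT := (PT.nd (nat_lit 5374902) (PT.nd (nat_lit 5090202) (PT.nd (nat_lit 4805736) pc0 pc1) (PT.nd (nat_lit 202410) pc2 pc3)) (PT.nd (nat_lit 201474) (PT.nd (nat_lit 120666) pc4 pc5) (PT.nd (nat_lit 121446) pc6 pc7)))

set_option maxRecDepth 10000000 in
noncomputable def Tx : XT := (XT.nd (nat_lit 8764470) (nat_lit 0) (nat_lit 76) XT.nil (XT.nd (nat_lit 4712760) (nat_lit 0) (nat_lit 0) (XT.nd (nat_lit 2149680) (nat_lit 0) (nat_lit 76) (XT.nd (nat_lit 1462188) (nat_lit 0) (nat_lit 0) (XT.nd (nat_lit 1015482) (nat_lit 0) (nat_lit 0) (XT.nd (nat_lit 728832) (nat_lit 0) (nat_lit 0) (XT.nd (nat_lit 487032) (nat_lit 0) (nat_lit 0) (XT.nd (nat_lit 324948) (nat_lit 0) (nat_lit 0) (XT.nd (nat_lit 242970) (nat_lit 0) (nat_lit 0) xc0 xc1) (XT.nd (nat_lit 81354) (nat_lit 0) (nat_lit 0) xc2 xc3)) (XT.nd (nat_lit 121602) (nat_lit 0) (nat_lit 0)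 (XT.nd (nat_lit 80106) (nat_lit 0) (nat_lit 0) xc4 xc5) (XT.nd (nat_lit 41340) (nat_lit 0) (nat_lit 0) xc6 xc7))) (XT.nd (nat_lit 162786) (nat_lit 0) (nat_lit 0) (XT.nd (nat_lit 81666) (nat_lit 0) (nat_lit 0) (XT.nd (nat_lit 40872) (nat_lit 0) (nat_lit 0) xc8 xc9) (XT.nd (nat_lit 40638) (nat_lit 0) (nat_lit 0) xc10 xc11)) (XT.nd (nat_lit 80496) (nat_lit 0) (nat_lit 0) (XT.nd (nat_lit 40326) (nat_lit 0) (nat_lit 0) xc12 xc13) (XT.nd (nat_lit 40014) (nat_lit 0) (nat_lit 0) xc14 xc15)))) (XT.nd (nat_lit 243516) (nat_lit 0) (nat_lit 0) (XT.nd (nat_lit 158496) (nat_lit 0) (nat_lit 0) (XT.nd (nat_lit 79560) (nat_lit 0) (nat_lit 0) (XT.nd (nat_lit 39858) (nat_lit 0) (nat_lit 0) xc16 xc17) (XT.nd (nat_lit 39546) (nat_lit 0) (nat_lit 0) xc18 xc19)) (XT.nd (nat_lit 42588) (nat_lit 0) (nat_lit 0) (XT.nd (nat_lit 3354) (nat_lit 76) (nat_lit 0) xc20 xc21) (XT.nd (nat_lit 39078) (nat_lit 0) (nat_lit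 76) xc22 xc23))) (XT.nd (nat_lit 119652) (nat_lit 0) (nat_lit 0) (XT.nd (nat_lit 77688) (nat_lit 0) (nat_lit 0) (XT.nd (nat_lit 38922) (nat_lit 0) (nat_lit 0) xc24 xc25) (XT.nd (nat_lit 3354) (nat_lit 76) (nat_lit 0) xc26 xc27)) (XT.nd (nat_lit 41808) (nat_lit 0) (nat_lit 0) (XT.nd (nat_lit 38454) (nat_lit 0) (nat_lit 76) xc28 xc29) (XT.nd (nat_lit 38298) (nat_lit 0) (nat_lit 76) xc30 xc31))))) (XT.nd (nat_lit 361764) (nat_lit 0) (nat_lit 76) (XT.nd (nat_lit 199446) (nat_lit 0) (nat_lit 0) (XT.nd (nat_lit 117390) (nat_lit 0) (nat_lit 0) (XT.nd (nat_lit 76128) (nat_lit 0) (nat_lit 0) (XT.nd (nat_lit 38142) (nat_lit 0) (nat_lit 0) xc32 xc33) (XT.nd (nat_lit 3354) (nat_lit 304) (nat_lit 0) xc34 xc35)) (XT.nd (nat_lit 41106) (nat_lit 0) (nat_lit 0) (XT.nd (nat_lit 3354) (nat_lit 228) (nat_lit 0) xc36 xc37) (XT.nd (nat_lit 3354) (nat_lit 76) (nat_lit 0) xc38 xc39))) (XT.nd (nat_lit 81432) (nat_lit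 0) (nat_lit 76) (XT.nd (nat_lit 40794) (nat_lit 0) (nat_lit 76) (XT.nd (nat_lit 3354) (nat_lit 76) (nat_lit 0) xc40 xc41) (XT.nd (nat_lit 3354) (nat_lit 0) (nat_lit 0) xc42 xc43)) (XT.nd (nat_lit 40482) (nat_lit 0) (nat_lit 0) (XT.nd (nat_lit 3354) (nat_lit 0) (nat_lit 0) xc44 xc45) (XT.nd (nat_lit 3354) (nat_lit 0) (nat_lit 0) xc46 xc47)))) (XT.nd (nat_lit 162084) (nat_lit 0) (nat_lit 0) (XT.nd (nat_lit 80886) (nat_lit 0) (nat_lit 0) (XT.nd (nat_lit 40404) (nat_lit 0) (nat_lit 0) (XT.nd (nat_lit 3354) (nat_lit 76) (nat_lit 0) xc48 xc49) (XT.nd (nat_lit 3354) (nat_lit 152) (nat_lit 0) xc50 xc51)) (XT.nd (nat_lit 40560) (nat_lit 0) (nat_lit 0) (XT.nd (nat_lit 3354) (nat_lit 152) (nat_lit 0) xc52 xc53) (XT.nd (nat_lit 3354) (nat_lit 228) (nat_lit 0) xc54 xc55))) (XT.nd (nat_lit 81588) (nat_lit 0) (nat_lit 0) (XT.nd (nat_lit 40716) (nat_lit 0) (nat_lit 0) (XT.nd (nat_lit 3354) (nat_lit 228)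 (nat_lit 0) xc56 xc57) (XT.nd (nat_lit 3354) (nat_lit 228) (nat_lit 0) xc58 xc59)) (XT.nd (nat_lit 40950) (nat_lit 0) (nat_lit 0) (XT.nd (nat_lit 3354) (nat_lit 228) (nat_lit 0) xc60 xc61) (XT.nd (nat_lit 3354) (nat_lit 152) (nat_lit 0) xc62 xc63)))))) (XT.nd (nat_lit 775710) (nat_lit 0) (nat_lit 228) (XT.nd (nat_lit 366288) (nat_lit 0) (nat_lit 152) (XT.nd (nat_lit 164892) (nat_lit 0) (nat_lit 0) (XT.nd (nat_lit 82290) (nat_lit 0) (nat_lit 0) (XT.nd (nat_lit 41106) (nat_lit 0) (nat_lit 0) (XT.nd (nat_lit 3354) (nat_lit 76) (nat_lit 0) xc64 xc65) (XT.nd (nat_lit 3354) (nat_lit 0) (nat_lit 0) xc66 xc67)) (XT.nd (nat_lit 41262) (nat_lit 0) (nat_lit 0) (XT.nd (nat_lit 37908) (nat_lit 0) (nat_lit 684) xc68 xc69) (XT.nd (nat_lit 37986) (nat_lit 0) (nat_lit 380) xc70 xc71))) (XT.nd (nat_lit 117858) (nat_lit 0) (nat_lit 0) (XT.nd (nat_lit 41418) (nat_lit 0) (nat_lit 0) (XT.nd (nat_lit 38064)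 (nat_lit 0) (nat_lit 228) xc72 xc73) (XT.nd (nat_lit 38142) (nat_lit 0) (nat_lit 0) xc74 xc75)) (XT.nd (nat_lit 41730) (nat_lit 0) (nat_lit 76) (XT.nd (nat_lit 3354) (nat_lit 912) (nat_lit 0) xc76 xc77) (XT.nd (nat_lit 3354) (nat_lit 304) (nat_lit 0) xc78 xc79)))) (XT.nd (nat_lit 203502) (nat_lit 0) (nat_lit 0) (XT.nd (nat_lit 83850) (nat_lit 0) (nat_lit 0) (XT.nd (nat_lit 41886) (nat_lit 0) (nat_lit 0) (XT.nd (nat_lit 3354) (nat_lit 0) (nat_lit 0) xc80 xc81) (XT.nd (nat_lit 38610) (nat_lit 0) (nat_lit 152) xc82 xc83)) (XT.nd (nat_lit 77454) (nat_lit 0) (nat_lit 0) (XT.nd (nat_lit 38688) (nat_lit 0) (nat_lit 0) xc84 xc85) (XT.nd (nat_lit 3354) (nat_lit 456) (nat_lit 0) xc86 xc87))) (XT.nd (nat_lit 120588) (nat_lit 0) (nat_lit 76) (XT.nd (nat_lit 42354) (nat_lit 0) (nat_lit 76) (XT.nd (nat_lit 39000) (nat_lit 0) (nat_lit 532) xc88 xc89) (XT.nd (nat_lit 39078) (nat_lit 0) (nat_lit 0) xc90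 xc91)) (XT.nd (nat_lit 42588) (nat_lit 0) (nat_lit 0) (XT.nd (nat_lit 3354) (nat_lit 380) (nat_lit 0) xc92 xc93) (XT.nd (nat_lit 39312) (nat_lit 0) (nat_lit 152) xc94 xc95))))) (XT.nd (nat_lit 566982) (nat_lit 0) (nat_lit 684) (XT.nd (nat_lit 281112) (nat_lit 0) (nat_lit 304) (XT.nd (nat_lit 121836) (nat_lit 0) (nat_lit 152) (XT.nd (nat_lit 78858) (nat_lit 0) (nat_lit 152) (XT.nd (nat_lit 39390) (nat_lit 0) (nat_lit 0) xc96 xc97) (XT.nd (nat_lit 39624) (nat_lit 0) (nat_lit 76) xc98 xc99)) (XT.nd (nat_lit 79482) (nat_lit 0) (nat_lit 76) (XT.nd (nat_lit 39702) (nat_lit 0) (nat_lit 0) xc100 xc101) (XT.nd (nat_lit 39858) (nat_lit 0) (nat_lit 0) xc102 xc103))) (XT.nd (nat_lit 123864) (nat_lit 0) (nat_lit 152) (XT.nd (nat_lit 43446) (nat_lit 0) (nat_lit 76) (XT.nd (nat_lit 3354) (nat_lit 76) (nat_lit 0) xc104 xc105) (XT.nd (nat_lit 40170) (nat_lit 0) (nat_lit 0) xc106 xc107)) (XT.nd (nat_lit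 80730) (nat_lit 0) (nat_lit 76) (XT.nd (nat_lit 40326) (nat_lit 0) (nat_lit 0) xc108 xc109) (XT.nd (nat_lit 40560) (nat_lit 0) (nat_lit 152) xc110 xc111)))) (XT.nd (nat_lit 366522) (nat_lit 0) (nat_lit 836) (XT.nd (nat_lit 163410) (nat_lit 0) (nat_lit 304) (XT.nd (nat_lit 81510) (nat_lit 0) (nat_lit 76) (XT.nd (nat_lit 40716) (nat_lit 0) (nat_lit 0) xc112 xc113) (XT.nd (nat_lit 40872) (nat_lit 0) (nat_lit 152) xc114 xc115)) (XT.nd (nat_lit 82290) (nat_lit 0) (nat_lit 228) (XT.nd (nat_lit 41106) (nat_lit 0) (nat_lit 0) xc116 xc117) (XT.nd (nat_lit 79326) (nat_lit 0) (nat_lit 228) xc118 xc119))) (XT.nd (nat_lit 244452) (nat_lit 0) (nat_lit 988) (XT.nd (nat_lit 121758) (nat_lit 0) (nat_lit 456) (XT.nd (nat_lit 41574) (nat_lit 0) (nat_lit 76) xc120 xc121) (XT.nd (nat_lit 80496) (nat_lit 0) (nat_lit 380) xc122 xc123)) (XT.nd (nat_lit 202332) (nat_lit 0) (nat_lit 1596) (XT.nd (nat_lit 81276)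 (nat_lit 0) (nat_lit 380) xc124 xc125) (XT.nd (nat_lit 122226) (nat_lit 0) (nat_lit 988) xc126 xc127))))))) XT.nil))

set_option maxRecDepth 10000000 in
noncomputable def Te : XT := XT.nil

set_option maxRecDepth 10000000 in
noncomputable def Tz : ZL := (ZL.cons (nat_lit 76) (nat_lit 3) (nat_lit 110501548903352529814) (ZL.cons (nat_lit 152) (nat_lit 6) (nat_lit 213318302268590324664) (ZL.cons (nat_lit 228) (nat_lit 6) (nat_lit 206255462191840718698) (ZL.cons (nat_lit 304) (nat_lit 3) (nat_lit 102830438041974612283) (ZL.cons (nat_lit 380) (nat_lit 6) (nat_lit 198627594908951144256) (ZL.cons (nat_lit 456) (nat_lit 6) (nat_lit 192176780040336835856) (ZL.cons (nat_lit 532) (nat_lit 3) (nat_lit 95813118673922355828) (ZL.cons (nat_lit 608) (nat_lit 6) (nat_lit 185209899982233382782) (ZL.cons (nat_lit 684) (nat_lit 6) (nat_lit 179340560072172794198) (ZL.cons (nat_lit 760) (nat_lit 3) (nat_lit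 89415399159932635897) (ZL.cons (nat_lit 836) (nat_lit 6) (nat_lit 173001672969307358530) (ZL.cons (nat_lit 912) (nat_lit 6) (nat_lit 167687980965519299798) (ZL.cons (nat_lit 988) (nat_lit 3) (nat_lit 83607989671506167304) (ZL.cons (nat_lit 1064) (nat_lit 6) (nat_lit 161949193601428196370) (ZL.cons (nat_lit 1140) (nat_lit 6) (nat_lit 157170105162382593364) (ZL.cons (nat_lit 1216) (nat_lit 3) (nat_lit 78366533311512146131) (ZL.cons (nat_lit 1292) (nat_lit 6) (nat_lit 152850393501792292390) (ZL.cons (nat_lit 1368) (nat_lit 6) (nat_lit 152008689648213342118) (ZL.cons (nat_lit 1444) (nat_lit 6) (nat_lit 147748066368996466234) (ZL.cons (nat_lit 1520) (nat_lit 3) (nat_lit 73671700527387908532) (ZL.cons (nat_lit 1596) (nat_lit 6) (nat_lit 143925948647422749786) (ZL.cons (nat_lit 1672) (nat_lit 6) (nat_lit 143146593227442240276) (ZL.cons (nat_lit 1748) (nat_lit 6) (nat_lit 139393396193902486856)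 (ZL.cons (nat_lit 1824) (nat_lit 3) (nat_lit 69509353044071313258) (ZL.cons (nat_lit 1900) (nat_lit 6) (nat_lit 136061568786550395298) (ZL.cons (nat_lit 1976) (nat_lit 6) (nat_lit 135339943397679553162) (ZL.cons (nat_lit 2052) (nat_lit 6) (nat_lit 133131366842972027286) (ZL.cons (nat_lit 2128) (nat_lit 6) (nat_lit 132088505080850276076) (ZL.cons (nat_lit 2204) (nat_lit 3) (nat_lit 65870784898869647140) (ZL.cons (nat_lit 2280) (nat_lit 6) (nat_lit 129245123355036547696) (ZL.cons (nat_lit 2356) (nat_lit 6) (nat_lit 128576951698674656826) (ZL.cons (nat_lit 2432) (nat_lit 6) (nat_lit 126792948550752064442) (ZL.cons (nat_lit 2508) (nat_lit 6) (nat_lit 125827335808046739248) (ZL.cons (nat_lit 2584) (nat_lit 3) (nat_lit 62753049717397915087) (ZL.cons (nat_lit 2660) (nat_lit 6) (nat_lit 124717449261749214560) (ZL.cons (nat_lit 2736) (nat_lit 6) (nat_lit 123476428105762931658) (ZL.cons (nat_lit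 2812) (nat_lit 6) (nat_lit 122857750646168588260) (ZL.cons (nat_lit 2888) (nat_lit 6) (nat_lit 123006326232982055240) (ZL.cons (nat_lit 2964) (nat_lit 6) (nat_lit 121510297286920811494) (ZL.cons (nat_lit 3040) (nat_lit 6) (nat_lit 120616211414045510388) (ZL.cons (nat_lit 3116) (nat_lit 3) (nat_lit 60159385163851038032) (ZL.cons (nat_lit 3192) (nat_lit 6) (nat_lit 119917292205927240270) (ZL.cons (nat_lit 3268) (nat_lit 6) (nat_lit 118768198542976978320) (ZL.cons (nat_lit 3344) (nat_lit 6) (nat_lit 118195349043352586288) (ZL.cons (nat_lit 3420) (nat_lit 3) (nat_lit 58559904887605864442) (ZL.cons (nat_lit 3496) (nat_lit 6) (nat_lit 117293363792249457920) (ZL.cons (nat_lit 3572) (nat_lit 6) (nat_lit 117815054311611757506) (ZL.cons (nat_lit 3648) (nat_lit 6) (nat_lit 118687972832672626450) (ZL.cons (nat_lit 3724) (nat_lit 6) (nat_lit 117302760845578882240) (ZL.cons (nat_lit 3800) (nat_lit 6)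 (nat_lit 116474903555879529364) (ZL.cons (nat_lit 3876) (nat_lit 3) (nat_lit 58099747571299285828) (ZL.cons (nat_lit 3952) (nat_lit 6) (nat_lit 115126097966333798438) (ZL.cons (nat_lit 4028) (nat_lit 6) (nat_lit 115487090321772274838) (ZL.cons (nat_lit 4104) (nat_lit 6) (nat_lit 116211214246607381574) (ZL.cons (nat_lit 4180) (nat_lit 6) (nat_lit 115147238632764546438) (ZL.cons (nat_lit 4256) (nat_lit 6) (nat_lit 114616822429408627886) (ZL.cons (nat_lit 4332) (nat_lit 3) (nat_lit 56726811265353388533) (ZL.cons (nat_lit 4408) (nat_lit 6) (nat_lit 113641060869107524430) (ZL.cons (nat_lit 4484) (nat_lit 6) (nat_lit 114204486630018807980) (ZL.cons (nat_lit 4560) (nat_lit 6) (nat_lit 113437952102519407168) (ZL.cons (nat_lit 4636) (nat_lit 3) (nat_lit 56591472156222223162) (ZL.cons (nat_lit 4712) (nat_lit 6) (nat_lit 112266026519823937382) (ZL.cons (nat_lit 4788) (nat_lit 6) (nat_lit 112655898263697491896)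 (ZL.cons (nat_lit 4864) (nat_lit 6) (nat_lit 112164772149479048792) (ZL.cons (nat_lit 4940) (nat_lit 3) (nat_lit 55676919461111027703) (ZL.cons (nat_lit 5016) (nat_lit 6) (nat_lit 111556272327694862556) (ZL.cons (nat_lit 5092) (nat_lit 3) (nat_lit 55660077001775690148) (ZL.cons (nat_lit 5168) (nat_lit 6) (nat_lit 110899092520167941424) (ZL.cons (nat_lit 5244) (nat_lit 1) (nat_lit 18446744073709551617) ZL.nil)))))))))))))))))))))))))))))))))))))))))))))))))))))))))))))))))))))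

noncomputable def vl : XL := ⟨(nat_lit 0), (nat_lit 76), (nat_lit 136382531), (nat_lit 152), (nat_lit 206325722), (nat_lit 152), (nat_lit 206325722), (nat_lit 1), (nat_lit 4), (nat_lit 2), (nat_lit 5), (nat_lit 2), (nat_lit 4), (nat_lit 0), (nat_lit 0), (nat_lit 0)⟩

noncomputable def cp0 : Nat := (nat_lit 158934430733647814116633335406675582566319835086138661438561533229731819298487602269736482233249520186547635898453884378881746247527688913186612078571420815833989647352468523442149190767993280019145478270041911605261448110766247092385616447660675067048062715146763207115965073568592132363647304450078196785848633229232085351074743143032182105572751491799042333349539532467932716801679725993167439897620037438861027870488221846147331547199085073275428254005125202221051224711650419433428083886866606420634523531136926342370016511485006745076822454185094150204460396168390136322211677821719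36121233466371370973016126558593041641844851608648455256014595550188093585769235318727470833393603386204903371733127925009422924980606009777730402425458922339283555911004069770524230597071592349316235354237740752322982718927263495563789871245978871027889152085593957384769587637433807822158400666549325236633945018227414321222204336994686424784193704296879759090909696914143326020559802487654740275885743559804225020514392048180889153136403888071990099714862251774848990150591745623908200318820639337923902445033987393570494617597986755934512275894752000232704171226490670901085132616602086736568496214644534266462479014745358862423992207343833105426922539451771274801983385163504974557332600516413506839871130294079844262615613671389807834993578488240166539074040644101110737522306957300150540381535546641090266563128484969854887902891141914443701926884572174140576369587574589595903569322563424624037863220905843283952756402070579004036327816711375732703027926431550818752263999184247494446886269851336179712)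

noncomputable def cp1 : Nat := (nat_lit 1440799082087349466590916005656252858298244626830516138594829111892376642312351503840002961358572983641019046447577000027489801786493729988232141609693099251595113755806692016307631021691529663012526719725021380582219172560446244344715512679474074520183349125601175234111404775479067017860546727725073643278508455630118612365794553277643542612644360820610495760438325057281494180804311337805296688830118899966775562132039634745468002187363663481956385460744970065636776307046204639565829864024442792245515695598596087299107577064425807180313107900984564498503004234759872395379979727972504619577584203262108085453192546290744642099241913413099615169819623332745532917943180599425241589181544524487443384390871485602125779100443432645245385390217546410981430751801220961652282069367654615088109469594122315142149834277994006934424389535681436944323401697693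5265721647470175517081447423496582701048153153457226045567400935479520453835025694115403449050649819762697404108643229659512106609861536700383279811392759568566729428722083781022882242018013174218390264941776857994949119541951500323782410392664076868009902416297308962164750621444398422501946435464199468302883295199334538288341987111578863633887461528141749233454769071014868857670290843937407006254675195415364174460808153618518793431961771822536896062815360413257880552363393348795240118956062497116743061212923665706528251930261582029310676100256543599910128105539440304079927028480535414968284754233731854748845653852360627200965706411634413771233146244790370021898343404640334834288180655776804391245696966447244890587205923023586717580155400379215683171609285670275042603849379362528460646965528895646505360782057439167875792864447697247878549221262044589565063337347976056235425297948508570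8792323686265713539041057932847974743219573176438223646320230134555713646345074437184507762110582078028702566061327188037592884798832995480232994310858785690856799516913332620563455659022806912306695134729533136455009664653390809274436896466999959573579538037407976422992809534237059132669040457532173687668651512230088241273898576868339182007607929024310272747810374333396940897158676251420150549791264541985924468952512453296486684682050790506157864078446201676977962281421728903590254064874669592273280929240518458525583207606040351892393280959601979628081236812020517460831309516302909722238349842016004690662149507199753285128194334303263033085114988879671545323503186426121791897241740384565241171783138064349486802532815376530089289297995766389265331675165684619502653986657633939527360186926855827319861910130133928626136979776642107227253124018796549171127268346819605353043548809669173930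601581817794909639983581417039727687564160231432758855170830939169322994453453457846600779132401490837718680503547337707508408150865138781616284615417636125641208047492444235364383116992518123538006386661493834066967338448932472604694135550576267647679027523672237637222196826159750733468954377782905791955904835222649173744626538791529733716344058892861547572372164505319066883803029768623735110451234245444511810355150705943154347306516547653482920056157599153818915258449347603959023378457437475865787106224246987011942045864639150349772869703813649341076212739450051059116294884815566657025818331294717130271825566813964317736399011840)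

noncomputable def rc0 : Nat := (nat_lit 1440799082087349466590916005656252858298244626830516138594829111892376642312351503840002961358572983641019046447577000027489801786493729988232141609693099251595113755806692016307631021691529663012526719725021380582219172560446244344715512679474074520183349125601175234111404775479067017860546727725073643278508455630118612365794553277643542612644360820610495760438325057281494180804311337805296688830118899966775562132039634745468002187363663481956385460744970065636776307046204639565829864024442792245515695598596087299107577064425807180313107900984564498503004234759872395379979727972504619577584203262108085453192546290744642099241913413099615169819623332745532917943180599425241589181544524487443384390871485602125779100443432645245385390217546410981430751801220961652282069367654615088109469594122315142149834277994006934424389535681436944323401697693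5265721647470175517081447423496582701048153153457226045567400935479520453835025694115403449050649819762697404108643229659512106609861536700383279811392759568566729428722083781022882242018013174218390264941776857994949119541951500323782410392664076868009902416297308962164750621444398422501946435464199468302883295199334538288341987111578863633887461528141749233454769071014868857670290843937407006254675195415364174460808153618518793431961771822536896062815360413257880552363393348795240118956062497116743061212923665706528251930261582029310676100256543599910128105539440304079927028480535414968284754233731854748845653852360627200965706411634413771233146244790370021898343404640334834288180655776804391245696966447244890587205923023586717580155400379215683171609285670275042603849379362528460646965528895646505360782057439167875792864447697247878549221262044589565063337347976056235425297948508570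8792323686265713539041057932847974743219573176438223646320230134555713646345074437184507762110582078028702566061327188037592884798832995480232994310858785690856799516913332620563455659022806912306695134729533136455009664653390809274436896466999959573579538037407976422992809534237059132669040457532173687668651512230088241273898576868339182007607929024310272747810374333396940897158676251420150549791264541985924468952512453296486684682050790506157864078446201676977962281421728903590254064874669592273280929240518458525583207606040351892393280959601979628081236812020517460831309516302909722238349842016004690662149507199753285128194334303263033085114988879671545323503186426121791897241740384565241171783138064349486802532815376530089289297995766389265331675165684619502653986657633939527360186926855827319861910130133928626136979776642107227253124018796549171127268346819605353043548809669173930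601581817794909639983581417039727687564160231432758855170830939169322994453453457846600779132401490837718680503547337707508408150865138781616284615417636125641208047492444235364383116992518123538006386661493834066967338448932472604694135550576267647679027523672237637222196826159750733468954377782905791955904835222649173744626538791529733716344058892861547572372164505319066883803029768623735110451234245444511810355150705943154347306516547653482920056157599153818915258449347603959023378457437475865787106224246987011942045864639150349772869703813649341076212739450051059116294884815566657025818331294717130271825566813964317736399011840)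

end Vale.Agent.Lib.P154.PChain.BM.S3
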