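import Vale.Agent.Lib.P154.PChain.BM.R3_0

set_option linter.all false

namespace Vale.Agent.Lib.P154.PChain.BM.S4

open Vale.Agent.Lib.P154.Chain

noncomputable def pc0 : PT := (PT.nd (nat_lit 3912714) (PT.nd (nat_lit 3709758) (PT.nd (nat_lit 3628482) (PT.nd (nat_lit 3587844) (PT.nd (nat_lit 3547284) (PT.nd (nat_lit 3506724) PT.nil (PT.lf (nat_lit 76) (nat_lit 3) (nat_lit 1) (nat_lit 1) (nat_lit 152) (nat_lit 86) (nat_lit 152))) (PT.nd (nat_lit 78) (PT.lf (nat_lit 152) (nat_lit 6) (nat_lit 2) (nat_lit 3) (nat_lit 151) (nat_lit 87) (nat_lit 152)) (PT.lf (nat_lit 152) (nat_lit 6) (nat_lit 2) (nat_lit 1) (nat_lit 152) (nat_lit 87) (nat_lit 151)))) (PT.nd (nat_lit 78) (PT.lf (nat_lit 228) (nat_lit 6) (nat_lit 3) (nat_lit 3) (nat_lit 150) (nat_lit 88) (nat_lit 152)) (PT.nd (nat_lit 78) (PT.lf (nat_lit 304) (nat_lit 3) (nat_lit 4) (nat_lit 1) (nat_lit 151) (nat_lit 88) (nat_lit 151)) (PT.lf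 (nat_lit 228) (nat_lit 6) (nat_lit 3) (nat_lit 1) (nat_lit 152) (nat_lit 88) (nat_lit 150))))) (PT.nd (nat_lit 40638) (PT.nd (nat_lit 78) (PT.lf (nat_lit 380) (nat_lit 6) (nat_lit 5) (nat_lit 3) (nat_lit 150) (nat_lit 89) (nat_lit 151)) (PT.nd (nat_lit 40482) (PT.lf (nat_lit 380) (nat_lit 6) (nat_lit 5) (nat_lit 1) (nat_lit 151) (nat_lit 89) (nat_lit 150)) (PT.lf (nat_lit 456) (nat_lit 6) (nat_lit 6) (nat_lit 3) (nat_lit 149) (nat_lit 90) (nat_lit 151)))) (PT.nd (nat_lit 78) (PT.lf (nat_lit 532) (nat_lit 3) (nat_lit 7) (nat_lit 1) (nat_lit 150) (nat_lit 90) (nat_lit 150)) (PT.nd (nat_lit 40482) (PT.lf (nat_lit 456) (nat_lit 6) (nat_lit 6) (nat_lit 1) (nat_lit 151) (nat_lit 90) (nat_lit 149)) (PT.lf (nat_lit 608) (nat_lit 6) (nat_lit 8) (nat_lit 3) (nat_lit 149) (nat_lit 91) (nat_lit 150)))))) (PT.nd (nat_lit 121680) (PT.nd (nat_lit 40638) (PT.nd (nat_lit 40482) (PT.lf (nat_lit 608) (nat_lit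 6) (nat_lit 8) (nat_lit 1) (nat_lit 150) (nat_lit 91) (nat_lit 149)) (PT.nd (nat_lit 78) (PT.lf (nat_lit 684) (nat_lit 6) (nat_lit 9) (nat_lit 3) (nat_lit 148) (nat_lit 92) (nat_lit 150)) (PT.lf (nat_lit 760) (nat_lit 3) (nat_lit 10) (nat_lit 1) (nat_lit 149) (nat_lit 92) (nat_lit 149)))) (PT.nd (nat_lit 40482) (PT.lf (nat_lit 684) (nat_lit 6) (nat_lit 9) (nat_lit 1) (nat_lit 150) (nat_lit 92) (nat_lit 148)) (PT.nd (nat_lit 78) (PT.lf (nat_lit 836) (nat_lit 6) (nat_lit 11) (nat_lit 3) (nat_lit 148) (nat_lit 93) (nat_lit 149)) (PT.lf (nat_lit 836) (nat_lit 6) (nat_lit 11) (nat_lit 1) (nat_lit 149) (nat_lit 93) (nat_lit 148))))) (PT.nd (nat_lit 40638) (PT.nd (nat_lit 78) (PT.lf (nat_lit 912) (nat_lit 6) (nat_lit 12) (nat_lit 3) (nat_lit 147) (nat_lit 94) (nat_lit 149)) (PT.nd (nat_lit 78) (PT.lf (nat_lit 988) (nat_lit 3) (nat_lit 13) (nat_lit 1) (nat_lit 148) (nat_lit 94) (nat_lit 148))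 (PT.lf (nat_lit 912) (nat_lit 6) (nat_lit 12) (nat_lit 1) (nat_lit 149) (nat_lit 94) (nat_lit 147)))) (PT.nd (nat_lit 78) (PT.lf (nat_lit 1064) (nat_lit 6) (nat_lit 14) (nat_lit 3) (nat_lit 147) (nat_lit 95) (nat_lit 148)) (PT.nd (nat_lit 40482) (PT.lf (nat_lit 1064) (nat_lit 6) (nat_lit 14) (nat_lit 1) (nat_lit 148) (nat_lit 95) (nat_lit 147)) (PT.lf (nat_lit 1140) (nat_lit 6) (nat_lit 15) (nat_lit 3) (nat_lit 146) (nat_lit 96) (nat_lit 148))))))) (PT.nd (nat_lit 162396) (PT.nd (nat_lit 81276) (PT.nd (nat_lit 40638) (PT.nd (nat_lit 78) (PT.lf (nat_lit 1216) (nat_lit 3) (nat_lit 16) (nat_lit 1) (nat_lit 147) (nat_lit 96) (nat_lit 147)) (PT.nd (nat_lit 40482) (PT.lf (nat_lit 1140) (nat_lit 6) (nat_lit 15) (nat_lit 1) (nat_lit 148) (nat_lit 96) (nat_lit 146)) (PT.lf (nat_lit 1292) (nat_lit 6) (nat_lit 17) (nat_lit 3) (nat_lit 146) (nat_lit 97) (nat_lit 147)))) (PT.nd (nat_lit 40482) (PT.lf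 (nat_lit 1292) (nat_lit 6) (nat_lit 17) (nat_lit 1) (nat_lit 147) (nat_lit 97) (nat_lit 146)) (PT.nd (nat_lit 78) (PT.lf (nat_lit 1368) (nat_lit 6) (nat_lit 18) (nat_lit 3) (nat_lit 145) (nat_lit 98) (nat_lit 147)) (PT.lf (nat_lit 1444) (nat_lit 3) (nat_lit 19) (nat_lit 1) (nat_lit 146) (nat_lit 98) (nat_lit 146))))) (PT.nd (nat_lit 40560) (PT.nd (nat_lit 40404) (PT.lf (nat_lit 1368) (nat_lit 6) (nat_lit 18) (nat_lit 1) (nat_lit 147) (nat_lit 98) (nat_lit 145)) (PT.nd (nat_lit 78) (PT.lf (nat_lit 1520) (nat_lit 6) (nat_lit 20) (nat_lit 3) (nat_lit 144) (nat_lit 99) (nat_lit 147)) (PT.lf (nat_lit 1596) (nat_lit 6) (nat_lit 21) (nat_lit 3) (nat_lit 145) (nat_lit 99) (nat_lit 146)))) (PT.nd (nat_lit 78) (PT.lf (nat_lit 1596) (nat_lit 6) (nat_lit 21) (nat_lit 1) (nat_lit 146) (nat_lit 99) (nat_lit 145)) (PT.nd (nat_lit 40404) (PT.lf (nat_lit 1520) (nat_lit 6) (nat_lit 20) (nat_lit 1) (nat_lit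 147) (nat_lit 99) (nat_lit 144)) (PT.lf (nat_lit 1672) (nat_lit 6) (nat_lit 22) (nat_lit 3) (nat_lit 144) (nat_lit 100) (nat_lit 146)))))) (PT.nd (nat_lit 81120) (PT.nd (nat_lit 40560) (PT.nd (nat_lit 78) (PT.lf (nat_lit 1748) (nat_lit 3) (nat_lit 23) (nat_lit 1) (nat_lit 145) (nat_lit 100) (nat_lit 145)) (PT.nd (nat_lit 40404) (PT.lf (nat_lit 1672) (nat_lit 6) (nat_lit 22) (nat_lit 1) (nat_lit 146) (nat_lit 100) (nat_lit 144)) (PT.lf (nat_lit 1824) (nat_lit 6) (nat_lit 24) (nat_lit 3) (nat_lit 143) (nat_lit 101) (nat_lit 146)))) (PT.nd (nat_lit 78) (PT.lf (nat_lit 1900) (nat_lit 6) (nat_lit 25) (nat_lit 3) (nat_lit 144) (nat_lit 101) (nat_lit 145)) (PT.nd (nat_lit 78) (PT.lf (nat_lit 1900) (nat_lit 6) (nat_lit 25) (nat_lit 1) (nat_lit 145) (nat_lit 101) (nat_lit 144)) (PT.lf (nat_lit 1824) (nat_lit 6) (nat_lit 24) (nat_lit 1) (nat_lit 146) (nat_lit 101) (nat_lit 143))))) (PT.nd (nat_lit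 40560) (PT.nd (nat_lit 78) (PT.lf (nat_lit 1976) (nat_lit 6) (nat_lit 26) (nat_lit 3) (nat_lit 143) (nat_lit 102) (nat_lit 145)) (PT.nd (nat_lit 78) (PT.lf (nat_lit 2052) (nat_lit 3) (nat_lit 27) (nat_lit 1) (nat_lit 144) (nat_lit 102) (nat_lit 144)) (PT.lf (nat_lit 1976) (nat_lit 6) (nat_lit 26) (nat_lit 1) (nat_lit 145) (nat_lit 102) (nat_lit 143)))) (PT.nd (nat_lit 78) (PT.lf (nat_lit 2128) (nat_lit 6) (nat_lit 28) (nat_lit 3) (nat_lit 142) (nat_lit 103) (nat_lit 145)) (PT.nd (nat_lit 78) (PT.lf (nat_lit 2204) (nat_lit 6) (nat_lit 29) (nat_lit 3) (nat_lit 143) (nat_lit 103) (nat_lit 144)) (PT.lf (nat_lit 2204) (nat_lit 6) (nat_lit 29) (nat_lit 1) (nat_lit 144) (nat_lit 103) (nat_lit 143))))))))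
noncomputable def pc1 : PT := (PT.nd (nat_lit 243282) (PT.nd (nat_lit 121680) (PT.nd (nat_lit 80964) (PT.nd (nat_lit 40482) (PT.nd (nat_lit 40326) (PT.lf (nat_lit 2128) (nat_lit 6) (nat_lit 28) (nat_lit 1) (nat_lit 145) (nat_lit 103) (nat_lit 142)) (PT.nd (nat_lit 78) (PT.lf (nat_lit 2280) (nat_lit 6) (nat_lit 30) (nat_lit 3) (nat_lit 141) (nat_lit 104) (nat_lit 145)) (PT.lf (nat_lit 2356) (nat_lit 6) (nat_lit 31) (nat_lit 3) (nat_lit 142) (nat_lit 104) (nat_lit 144)))) (PT.nd (nat_lit 78) (PT.lf (nat_lit 2432) (nat_lit 3) (nat_lit 32) (nat_lit 1) (nat_lit 143) (nat_lit 104) (nat_lit 143)) (PT.nd (nat_lit 78) (PT.lf (nat_lit 2356) (nat_lit 6) (nat_lit 31) (nat_lit 1) (nat_lit 144) (nat_lit 104) (nat_lit 142)) (PT.lf (nat_lit 2280) (nat_lit 6) (nat_lit 30) (nat_lit 1) (nat_lit 145) (nat_lit 104) (nat_lit 141))))) (PT.nd (nat_lit 234) (PT.nd (nat_lit 78) (PT.lf (nat_lit 2508) (nat_lit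 6) (nat_lit 33) (nat_lit 3) (nat_lit 141) (nat_lit 105) (nat_lit 144)) (PT.nd (nat_lit 78) (PT.lf (nat_lit 2584) (nat_lit 6) (nat_lit 34) (nat_lit 3) (nat_lit 142) (nat_lit 105) (nat_lit 143)) (PT.lf (nat_lit 2584) (nat_lit 6) (nat_lit 34) (nat_lit 1) (nat_lit 143) (nat_lit 105) (nat_lit 142)))) (PT.nd (nat_lit 40326) (PT.lf (nat_lit 2508) (nat_lit 6) (nat_lit 33) (nat_lit 1) (nat_lit 144) (nat_lit 105) (nat_lit 141)) (PT.nd (nat_lit 78) (PT.lf (nat_lit 2660) (nat_lit 6) (nat_lit 35) (nat_lit 3) (nat_lit 140) (nat_lit 106) (nat_lit 144)) (PT.lf (nat_lit 2736) (nat_lit 6) (nat_lit 36) (nat_lit 3) (nat_lit 141) (nat_lit 106) (nat_lit 143)))))) (PT.nd (nat_lit 40716) (PT.nd (nat_lit 40482) (PT.nd (nat_lit 78) (PT.lf (nat_lit 2812) (nat_lit 3) (nat_lit 37) (nat_lit 1) (nat_lit 142) (nat_lit 106) (nat_lit 142)) (PT.nd (nat_lit 78) (PT.lf (nat_lit 2736) (nat_lit 6) (nat_lit 36) (nat_lit 1)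 (nat_lit 143) (nat_lit 106) (nat_lit 141)) (PT.lf (nat_lit 2660) (nat_lit 6) (nat_lit 35) (nat_lit 1) (nat_lit 144) (nat_lit 106) (nat_lit 140)))) (PT.nd (nat_lit 78) (PT.lf (nat_lit 2888) (nat_lit 6) (nat_lit 38) (nat_lit 3) (nat_lit 140) (nat_lit 107) (nat_lit 143)) (PT.nd (nat_lit 78) (PT.lf (nat_lit 2964) (nat_lit 6) (nat_lit 39) (nat_lit 3) (nat_lit 141) (nat_lit 107) (nat_lit 142)) (PT.lf (nat_lit 2964) (nat_lit 6) (nat_lit 39) (nat_lit 1) (nat_lit 142) (nat_lit 107) (nat_lit 141))))) (PT.nd (nat_lit 40482) (PT.nd (nat_lit 40326) (PT.lf (nat_lit 2888) (nat_lit 6) (nat_lit 38) (nat_lit 1) (nat_lit 143) (nat_lit 107) (nat_lit 140)) (PT.nd (nat_lit 78) (PT.lf (nat_lit 3040) (nat_lit 6) (nat_lit 40) (nat_lit 3) (nat_lit 139) (nat_lit 108) (nat_lit 143)) (PT.lf (nat_lit 3116) (nat_lit 6) (nat_lit 41) (nat_lit 3) (nat_lit 140) (nat_lit 108) (nat_lit 142)))) (PT.nd (nat_lit 78) (PT.lf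 (nat_lit 3192) (nat_lit 3) (nat_lit 42) (nat_lit 1) (nat_lit 141) (nat_lit 108) (nat_lit 141)) (PT.nd (nat_lit 78) (PT.lf (nat_lit 3116) (nat_lit 6) (nat_lit 41) (nat_lit 1) (nat_lit 142) (nat_lit 108) (nat_lit 140)) (PT.lf (nat_lit 3040) (nat_lit 6) (nat_lit 40) (nat_lit 1) (nat_lit 143) (nat_lit 108) (nat_lit 139))))))) (PT.nd (nat_lit 81276) (PT.nd (nat_lit 40638) (PT.nd (nat_lit 234) (PT.nd (nat_lit 78) (PT.lf (nat_lit 3268) (nat_lit 6) (nat_lit 43) (nat_lit 3) (nat_lit 138) (nat_lit 109) (nat_lit 143)) (PT.nd (nat_lit 78) (PT.lf (nat_lit 3344) (nat_lit 6) (nat_lit 44) (nat_lit 3) (nat_lit 139) (nat_lit 109) (nat_lit 142)) (PT.lf (nat_lit 3420) (nat_lit 6) (nat_lit 45) (nat_lit 3) (nat_lit 140) (nat_lit 109) (nat_lit 141)))) (PT.nd (nat_lit 78) (PT.lf (nat_lit 3420) (nat_lit 6) (nat_lit 45) (nat_lit 1) (nat_lit 141) (nat_lit 109) (nat_lit 140)) (PT.nd (nat_lit 78) (PT.lf (nat_lit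 3344) (nat_lit 6) (nat_lit 44) (nat_lit 1) (nat_lit 142) (nat_lit 109) (nat_lit 139)) (PT.lf (nat_lit 3268) (nat_lit 6) (nat_lit 43) (nat_lit 1) (nat_lit 143) (nat_lit 109) (nat_lit 138))))) (PT.nd (nat_lit 234) (PT.nd (nat_lit 78) (PT.lf (nat_lit 3496) (nat_lit 6) (nat_lit 46) (nat_lit 3) (nat_lit 138) (nat_lit 110) (nat_lit 142)) (PT.nd (nat_lit 78) (PT.lf (nat_lit 3572) (nat_lit 6) (nat_lit 47) (nat_lit 3) (nat_lit 139) (nat_lit 110) (nat_lit 141)) (PT.lf (nat_lit 3648) (nat_lit 3) (nat_lit 48) (nat_lit 1) (nat_lit 140) (nat_lit 110) (nat_lit 140)))) (PT.nd (nat_lit 78) (PT.lf (nat_lit 3572) (nat_lit 6) (nat_lit 47) (nat_lit 1) (nat_lit 141) (nat_lit 110) (nat_lit 139)) (PT.nd (nat_lit 40248) (PT.lf (nat_lit 3496) (nat_lit 6) (nat_lit 46) (nat_lit 1) (nat_lit 142) (nat_lit 110) (nat_lit 138)) (PT.lf (nat_lit 3724) (nat_lit 6) (nat_lit 49) (nat_lit 3) (nat_lit 137) (nat_lit 111) (nat_lit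 142)))))) (PT.nd (nat_lit 40560) (PT.nd (nat_lit 234) (PT.nd (nat_lit 78) (PT.lf (nat_lit 3800) (nat_lit 6) (nat_lit 50) (nat_lit 3) (nat_lit 138) (nat_lit 111) (nat_lit 141)) (PT.nd (nat_lit 78) (PT.lf (nat_lit 3876) (nat_lit 6) (nat_lit 51) (nat_lit 3) (nat_lit 139) (nat_lit 111) (nat_lit 140)) (PT.lf (nat_lit 3876) (nat_lit 6) (nat_lit 51) (nat_lit 1) (nat_lit 140) (nat_lit 111) (nat_lit 139)))) (PT.nd (nat_lit 78) (PT.lf (nat_lit 3800) (nat_lit 6) (nat_lit 50) (nat_lit 1) (nat_lit 141) (nat_lit 111) (nat_lit 138)) (PT.nd (nat_lit 40170) (PT.lf (nat_lit 3724) (nat_lit 6) (nat_lit 49) (nat_lit 1) (nat_lit 142) (nat_lit 111) (nat_lit 137)) (PT.lf (nat_lit 3952) (nat_lit 6) (nat_lit 52) (nat_lit 3) (nat_lit 136) (nat_lit 112) (nat_lit 142))))) (PT.nd (nat_lit 234) (PT.nd (nat_lit 78) (PT.lf (nat_lit 4028) (nat_lit 6) (nat_lit 53) (nat_lit 3) (nat_lit 137) (nat_lit 112) (nat_lit 141))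 (PT.nd (nat_lit 78) (PT.lf (nat_lit 4104) (nat_lit 6) (nat_lit 54) (nat_lit 3) (nat_lit 138) (nat_lit 112) (nat_lit 140)) (PT.lf (nat_lit 4180) (nat_lit 3) (nat_lit 55) (nat_lit 1) (nat_lit 139) (nat_lit 112) (nat_lit 139)))) (PT.nd (nat_lit 78) (PT.lf (nat_lit 4104) (nat_lit 6) (nat_lit 54) (nat_lit 1) (nat_lit 140) (nat_lit 112) (nat_lit 138)) (PT.nd (nat_lit 78) (PT.lf (nat_lit 4028) (nat_lit 6) (nat_lit 53) (nat_lit 1) (nat_lit 141) (nat_lit 112) (nat_lit 137)) (PT.lf (nat_lit 3952) (nat_lit 6) (nat_lit 52) (nat_lit 1) (nat_lit 142) (nat_lit 112) (nat_lit 136))))))))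
noncomputable def pc2 : PT := (PT.nd (nat_lit 121914) (PT.nd (nat_lit 41028) (PT.nd (nat_lit 40560) (PT.nd (nat_lit 234) (PT.nd (nat_lit 78) (PT.lf (nat_lit 4256) (nat_lit 6) (nat_lit 56) (nat_lit 3) (nat_lit 136) (nat_lit 113) (nat_lit 141)) (PT.nd (nat_lit 78) (PT.lf (nat_lit 4332) (nat_lit 6) (nat_lit 57) (nat_lit 3) (nat_lit 137) (nat_lit 113) (nat_lit 140)) (PT.lf (nat_lit 4408) (nat_lit 6) (nat_lit 58) (nat_lit 3) (nat_lit 138) (nat_lit 113) (nat_lit 139)))) (PT.nd (nat_lit 78) (PT.lf (nat_lit 4408) (nat_lit 6) (nat_lit 58) (nat_lit 1) (nat_lit 139) (nat_lit 113) (nat_lit 138)) (PT.nd (nat_lit 78) (PT.lf (nat_lit 4332) (nat_lit 6) (nat_lit 57) (nat_lit 1) (nat_lit 140) (nat_lit 113) (nat_lit 137)) (PT.lf (nat_lit 4256) (nat_lit 6) (nat_lit 56) (nat_lit 1) (nat_lit 141) (nat_lit 113) (nat_lit 136))))) (PT.nd (nat_lit 234) (PT.nd (nat_lit 78) (PT.lf (nat_lit 4484) (nat_lit 6) (nat_lit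 59) (nat_lit 3) (nat_lit 135) (nat_lit 114) (nat_lit 141)) (PT.nd (nat_lit 78) (PT.lf (nat_lit 4560) (nat_lit 6) (nat_lit 60) (nat_lit 3) (nat_lit 136) (nat_lit 114) (nat_lit 140)) (PT.lf (nat_lit 4636) (nat_lit 6) (nat_lit 61) (nat_lit 3) (nat_lit 137) (nat_lit 114) (nat_lit 139)))) (PT.nd (nat_lit 78) (PT.lf (nat_lit 4712) (nat_lit 3) (nat_lit 62) (nat_lit 1) (nat_lit 138) (nat_lit 114) (nat_lit 138)) (PT.nd (nat_lit 78) (PT.lf (nat_lit 4636) (nat_lit 6) (nat_lit 61) (nat_lit 1) (nat_lit 139) (nat_lit 114) (nat_lit 137)) (PT.lf (nat_lit 4560) (nat_lit 6) (nat_lit 60) (nat_lit 1) (nat_lit 140) (nat_lit 114) (nat_lit 136)))))) (PT.nd (nat_lit 40482) (PT.nd (nat_lit 40248) (PT.nd (nat_lit 40092) (PT.lf (nat_lit 4484) (nat_lit 6) (nat_lit 59) (nat_lit 1) (nat_lit 141) (nat_lit 114) (nat_lit 135)) (PT.nd (nat_lit 78) (PT.lf (nat_lit 4788) (nat_lit 6) (nat_lit 63) (nat_lit 3) (nat_lit 134)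 (nat_lit 115) (nat_lit 141)) (PT.lf (nat_lit 4864) (nat_lit 6) (nat_lit 64) (nat_lit 3) (nat_lit 135) (nat_lit 115) (nat_lit 140)))) (PT.nd (nat_lit 78) (PT.lf (nat_lit 4940) (nat_lit 6) (nat_lit 65) (nat_lit 3) (nat_lit 136) (nat_lit 115) (nat_lit 139)) (PT.nd (nat_lit 78) (PT.lf (nat_lit 5016) (nat_lit 6) (nat_lit 66) (nat_lit 3) (nat_lit 137) (nat_lit 115) (nat_lit 138)) (PT.lf (nat_lit 5016) (nat_lit 6) (nat_lit 66) (nat_lit 1) (nat_lit 138) (nat_lit 115) (nat_lit 137))))) (PT.nd (nat_lit 40170) (PT.nd (nat_lit 78) (PT.lf (nat_lit 4940) (nat_lit 6) (nat_lit 65) (nat_lit 1) (nat_lit 139) (nat_lit 115) (nat_lit 136)) (PT.nd (nat_lit 78) (PT.lf (nat_lit 4864) (nat_lit 6) (nat_lit 64) (nat_lit 1) (nat_lit 140) (nat_lit 115) (nat_lit 135)) (PT.lf (nat_lit 4788) (nat_lit 6) (nat_lit 63) (nat_lit 1) (nat_lit 141) (nat_lit 115) (nat_lit 134)))) (PT.nd (nat_lit 78) (PT.lf (nat_lit 5092) (nat_lit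 6) (nat_lit 67) (nat_lit 3) (nat_lit 133) (nat_lit 116) (nat_lit 141)) (PT.nd (nat_lit 78) (PT.lf (nat_lit 5168) (nat_lit 6) (nat_lit 68) (nat_lit 3) (nat_lit 134) (nat_lit 116) (nat_lit 140)) (PT.lf (nat_lit 5244) (nat_lit 6) (nat_lit 69) (nat_lit 3) (nat_lit 135) (nat_lit 116) (nat_lit 139))))))) (PT.nd (nat_lit 40872) (PT.nd (nat_lit 40404) (PT.nd (nat_lit 234) (PT.nd (nat_lit 78) (PT.lf (nat_lit 5320) (nat_lit 6) (nat_lit 70) (nat_lit 3) (nat_lit 136) (nat_lit 116) (nat_lit 138)) (PT.nd (nat_lit 78) (PT.lf (nat_lit 5396) (nat_lit 3) (nat_lit 71) (nat_lit 1) (nat_lit 137) (nat_lit 116) (nat_lit 137)) (PT.lf (nat_lit 5320) (nat_lit 6) (nat_lit 70) (nat_lit 1) (nat_lit 138) (nat_lit 116) (nat_lit 136)))) (PT.nd (nat_lit 78) (PT.lf (nat_lit 5244) (nat_lit 6) (nat_lit 69) (nat_lit 1) (nat_lit 139) (nat_lit 116) (nat_lit 135)) (PT.nd (nat_lit 78) (PT.lf (nat_lit 5168) (nat_lit 6) (nat_lit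 68) (nat_lit 1) (nat_lit 140) (nat_lit 116) (nat_lit 134)) (PT.lf (nat_lit 5092) (nat_lit 6) (nat_lit 67) (nat_lit 1) (nat_lit 141) (nat_lit 116) (nat_lit 133))))) (PT.nd (nat_lit 234) (PT.nd (nat_lit 78) (PT.lf (nat_lit 5472) (nat_lit 6) (nat_lit 72) (nat_lit 3) (nat_lit 133) (nat_lit 117) (nat_lit 140)) (PT.nd (nat_lit 78) (PT.lf (nat_lit 5548) (nat_lit 6) (nat_lit 73) (nat_lit 3) (nat_lit 134) (nat_lit 117) (nat_lit 139)) (PT.lf (nat_lit 5624) (nat_lit 6) (nat_lit 74) (nat_lit 3) (nat_lit 135) (nat_lit 117) (nat_lit 138)))) (PT.nd (nat_lit 78) (PT.lf (nat_lit 5700) (nat_lit 6) (nat_lit 75) (nat_lit 3) (nat_lit 136) (nat_lit 117) (nat_lit 137)) (PT.nd (nat_lit 78) (PT.lf (nat_lit 5700) (nat_lit 6) (nat_lit 75) (nat_lit 1) (nat_lit 137) (nat_lit 117) (nat_lit 136)) (PT.lf (nat_lit 5624) (nat_lit 6) (nat_lit 74) (nat_lit 1) (nat_lit 138) (nat_lit 117) (nat_lit 135)))))) (PT.nd (nat_lit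 40404) (PT.nd (nat_lit 40170) (PT.nd (nat_lit 78) (PT.lf (nat_lit 5548) (nat_lit 6) (nat_lit 73) (nat_lit 1) (nat_lit 139) (nat_lit 117) (nat_lit 134)) (PT.nd (nat_lit 40014) (PT.lf (nat_lit 5472) (nat_lit 6) (nat_lit 72) (nat_lit 1) (nat_lit 140) (nat_lit 117) (nat_lit 133)) (PT.lf (nat_lit 5776) (nat_lit 6) (nat_lit 76) (nat_lit 3) (nat_lit 132) (nat_lit 118) (nat_lit 140)))) (PT.nd (nat_lit 78) (PT.lf (nat_lit 5852) (nat_lit 6) (nat_lit 77) (nat_lit 3) (nat_lit 133) (nat_lit 118) (nat_lit 139)) (PT.nd (nat_lit 78) (PT.lf (nat_lit 5928) (nat_lit 6) (nat_lit 78) (nat_lit 3) (nat_lit 134) (nat_lit 118) (nat_lit 138)) (PT.lf (nat_lit 6004) (nat_lit 6) (nat_lit 79) (nat_lit 3) (nat_lit 135) (nat_lit 118) (nat_lit 137))))) (PT.nd (nat_lit 234) (PT.nd (nat_lit 78) (PT.lf (nat_lit 6080) (nat_lit 3) (nat_lit 80) (nat_lit 1) (nat_lit 136) (nat_lit 118) (nat_lit 136)) (PT.nd (nat_lit 78) (PT.lf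 (nat_lit 6004) (nat_lit 6) (nat_lit 79) (nat_lit 1) (nat_lit 137) (nat_lit 118) (nat_lit 135)) (PT.lf (nat_lit 5928) (nat_lit 6) (nat_lit 78) (nat_lit 1) (nat_lit 138) (nat_lit 118) (nat_lit 134)))) (PT.nd (nat_lit 78) (PT.lf (nat_lit 5852) (nat_lit 6) (nat_lit 77) (nat_lit 1) (nat_lit 139) (nat_lit 118) (nat_lit 133)) (PT.nd (nat_lit 39936) (PT.lf (nat_lit 5776) (nat_lit 6) (nat_lit 76) (nat_lit 1) (nat_lit 140) (nat_lit 118) (nat_lit 132)) (PT.lf (nat_lit 6156) (nat_lit 6) (nat_lit 81) (nat_lit 3) (nat_lit 131) (nat_lit 119) (nat_lit 140))))))))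
noncomputable def pc3 : PT := (PT.nd (nat_lit 81354) (PT.nd (nat_lit 40716) (PT.nd (nat_lit 468) (PT.nd (nat_lit 234) (PT.nd (nat_lit 78) (PT.lf (nat_lit 6232) (nat_lit 6) (nat_lit 82) (nat_lit 3) (nat_lit 132) (nat_lit 119) (nat_lit 139)) (PT.nd (nat_lit 78) (PT.lf (nat_lit 6308) (nat_lit 6) (nat_lit 83) (nat_lit 3) (nat_lit 133) (nat_lit 119) (nat_lit 138)) (PT.lf (nat_lit 6384) (nat_lit 6) (nat_lit 84) (nat_lit 3) (nat_lit 134) (nat_lit 119) (nat_lit 137)))) (PT.nd (nat_lit 78) (PT.lf (nat_lit 6460) (nat_lit 6) (nat_lit 85) (nat_lit 3) (nat_lit 135) (nat_lit 119) (nat_lit 136)) (PT.nd (nat_lit 78) (PT.lf (nat_lit 6460) (nat_lit 6) (nat_lit 85) (nat_lit 1) (nat_lit 136) (nat_lit 119) (nat_lit 135)) (PT.lf (nat_lit 6384) (nat_lit 6) (nat_lit 84) (nat_lit 1) (nat_lit 137) (nat_lit 119) (nat_lit 134))))) (PT.nd (nat_lit 40014) (PT.nd (nat_lit 78) (PT.lf (nat_lit 6308) (nat_lit 6) (nat_lit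 83) (nat_lit 1) (nat_lit 138) (nat_lit 119) (nat_lit 133)) (PT.nd (nat_lit 78) (PT.lf (nat_lit 6232) (nat_lit 6) (nat_lit 82) (nat_lit 1) (nat_lit 139) (nat_lit 119) (nat_lit 132)) (PT.lf (nat_lit 6156) (nat_lit 6) (nat_lit 81) (nat_lit 1) (nat_lit 140) (nat_lit 119) (nat_lit 131)))) (PT.nd (nat_lit 78) (PT.lf (nat_lit 6688) (nat_lit 6) (nat_lit 88) (nat_lit 3) (nat_lit 130) (nat_lit 120) (nat_lit 140)) (PT.nd (nat_lit 78) (PT.lf (nat_lit 6764) (nat_lit 6) (nat_lit 89) (nat_lit 3) (nat_lit 131) (nat_lit 120) (nat_lit 139)) (PT.lf (nat_lit 6840) (nat_lit 6) (nat_lit 90) (nat_lit 3) (nat_lit 132) (nat_lit 120) (nat_lit 138)))))) (PT.nd (nat_lit 468) (PT.nd (nat_lit 234) (PT.nd (nat_lit 78) (PT.lf (nat_lit 6916) (nat_lit 6) (nat_lit 91) (nat_lit 3) (nat_lit 133) (nat_lit 120) (nat_lit 137)) (PT.nd (nat_lit 78) (PT.lf (nat_lit 6992) (nat_lit 6) (nat_lit 92) (nat_lit 3) (nat_lit 134) (nat_lit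 120) (nat_lit 136)) (PT.lf (nat_lit 7068) (nat_lit 3) (nat_lit 93) (nat_lit 1) (nat_lit 135) (nat_lit 120) (nat_lit 135)))) (PT.nd (nat_lit 78) (PT.lf (nat_lit 6992) (nat_lit 6) (nat_lit 92) (nat_lit 1) (nat_lit 136) (nat_lit 120) (nat_lit 134)) (PT.nd (nat_lit 78) (PT.lf (nat_lit 6916) (nat_lit 6) (nat_lit 91) (nat_lit 1) (nat_lit 137) (nat_lit 120) (nat_lit 133)) (PT.lf (nat_lit 6840) (nat_lit 6) (nat_lit 90) (nat_lit 1) (nat_lit 138) (nat_lit 120) (nat_lit 132))))) (PT.nd (nat_lit 39936) (PT.nd (nat_lit 78) (PT.lf (nat_lit 6764) (nat_lit 6) (nat_lit 89) (nat_lit 1) (nat_lit 139) (nat_lit 120) (nat_lit 131)) (PT.nd (nat_lit 39780) (PT.lf (nat_lit 6688) (nat_lit 6) (nat_lit 88) (nat_lit 1) (nat_lit 140) (nat_lit 120) (nat_lit 130)) (PT.lf (nat_lit 6612) (nat_lit 6) (nat_lit 87) (nat_lit 3) (nat_lit 129) (nat_lit 121) (nat_lit 140)))) (PT.nd (nat_lit 78) (PT.lf (nat_lit 7448) (nat_lit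 6) (nat_lit 98) (nat_lit 3) (nat_lit 130) (nat_lit 121) (nat_lit 139)) (PT.nd (nat_lit 78) (PT.lf (nat_lit 7524) (nat_lit 6) (nat_lit 99) (nat_lit 3) (nat_lit 131) (nat_lit 121) (nat_lit 138)) (PT.lf (nat_lit 7600) (nat_lit 6) (nat_lit 100) (nat_lit 3) (nat_lit 132) (nat_lit 121) (nat_lit 137))))))) (PT.nd (nat_lit 40560) (PT.nd (nat_lit 468) (PT.nd (nat_lit 234) (PT.nd (nat_lit 78) (PT.lf (nat_lit 7676) (nat_lit 6) (nat_lit 101) (nat_lit 3) (nat_lit 133) (nat_lit 121) (nat_lit 136)) (PT.nd (nat_lit 78) (PT.lf (nat_lit 7752) (nat_lit 6) (nat_lit 102) (nat_lit 3) (nat_lit 134) (nat_lit 121) (nat_lit 135)) (PT.lf (nat_lit 7752) (nat_lit 6) (nat_lit 102) (nat_lit 1) (nat_lit 135) (nat_lit 121) (nat_lit 134)))) (PT.nd (nat_lit 78) (PT.lf (nat_lit 7676) (nat_lit 6) (nat_lit 101) (nat_lit 1) (nat_lit 136) (nat_lit 121) (nat_lit 133)) (PT.nd (nat_lit 78) (PT.lf (nat_lit 7600) (nat_lit 6) (nat_lit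 100) (nat_lit 1) (nat_lit 137) (nat_lit 121) (nat_lit 132)) (PT.lf (nat_lit 7524) (nat_lit 6) (nat_lit 99) (nat_lit 1) (nat_lit 138) (nat_lit 121) (nat_lit 131))))) (PT.nd (nat_lit 39858) (PT.nd (nat_lit 78) (PT.lf (nat_lit 7448) (nat_lit 6) (nat_lit 98) (nat_lit 1) (nat_lit 139) (nat_lit 121) (nat_lit 130)) (PT.nd (nat_lit 39702) (PT.lf (nat_lit 6612) (nat_lit 6) (nat_lit 87) (nat_lit 1) (nat_lit 140) (nat_lit 121) (nat_lit 129)) (PT.lf (nat_lit 6536) (nat_lit 6) (nat_lit 86) (nat_lit 3) (nat_lit 128) (nat_lit 122) (nat_lit 140)))) (PT.nd (nat_lit 78) (PT.lf (nat_lit 7372) (nat_lit 6) (nat_lit 97) (nat_lit 3) (nat_lit 129) (nat_lit 122) (nat_lit 139)) (PT.nd (nat_lit 78) (PT.lf (nat_lit 8132) (nat_lit 6) (nat_lit 107) (nat_lit 3) (nat_lit 130) (nat_lit 122) (nat_lit 138)) (PT.lf (nat_lit 8208) (nat_lit 6) (nat_lit 108) (nat_lit 3) (nat_lit 131) (nat_lit 122) (nat_lit 137)))))) (PT.nd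 (nat_lit 468) (PT.nd (nat_lit 234) (PT.nd (nat_lit 78) (PT.lf (nat_lit 8284) (nat_lit 6) (nat_lit 109) (nat_lit 3) (nat_lit 132) (nat_lit 122) (nat_lit 136)) (PT.nd (nat_lit 78) (PT.lf (nat_lit 8360) (nat_lit 6) (nat_lit 110) (nat_lit 3) (nat_lit 133) (nat_lit 122) (nat_lit 135)) (PT.lf (nat_lit 8436) (nat_lit 3) (nat_lit 111) (nat_lit 1) (nat_lit 134) (nat_lit 122) (nat_lit 134)))) (PT.nd (nat_lit 78) (PT.lf (nat_lit 8360) (nat_lit 6) (nat_lit 110) (nat_lit 1) (nat_lit 135) (nat_lit 122) (nat_lit 133)) (PT.nd (nat_lit 78) (PT.lf (nat_lit 8284) (nat_lit 6) (nat_lit 109) (nat_lit 1) (nat_lit 136) (nat_lit 122) (nat_lit 132)) (PT.lf (nat_lit 8208) (nat_lit 6) (nat_lit 108) (nat_lit 1) (nat_lit 137) (nat_lit 122) (nat_lit 131))))) (PT.nd (nat_lit 39858) (PT.nd (nat_lit 78) (PT.lf (nat_lit 8132) (nat_lit 6) (nat_lit 107) (nat_lit 1) (nat_lit 138) (nat_lit 122) (nat_lit 130)) (PT.nd (nat_lit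 78) (PT.lf (nat_lit 7372) (nat_lit 6) (nat_lit 97) (nat_lit 1) (nat_lit 139) (nat_lit 122) (nat_lit 129)) (PT.lf (nat_lit 6536) (nat_lit 6) (nat_lit 86) (nat_lit 1) (nat_lit 140) (nat_lit 122) (nat_lit 128)))) (PT.nd (nat_lit 156) (PT.nd (nat_lit 78) (PT.lf (nat_lit 7296) (nat_lit 6) (nat_lit 96) (nat_lit 3) (nat_lit 128) (nat_lit 123) (nat_lit 139)) (PT.lf (nat_lit 8056) (nat_lit 6) (nat_lit 106) (nat_lit 3) (nat_lit 129) (nat_lit 123) (nat_lit 138))) (PT.nd (nat_lit 78) (PT.lf (nat_lit 8740) (nat_lit 6) (nat_lit 115) (nat_lit 3) (nat_lit 130) (nat_lit 123) (nat_lit 137)) (PT.lf (nat_lit 8816) (nat_lit 6) (nat_lit 116) (nat_lit 3) (nat_lit 131) (nat_lit 123) (nat_lit 136))))))))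
noncomputable def pc4 : PT := (PT.nd (nat_lit 81042) (PT.nd (nat_lit 40560) (PT.nd (nat_lit 468) (PT.nd (nat_lit 234) (PT.nd (nat_lit 78) (PT.lf (nat_lit 8892) (nat_lit 6) (nat_lit 117) (nat_lit 3) (nat_lit 132) (nat_lit 123) (nat_lit 135)) (PT.nd (nat_lit 78) (PT.lf (nat_lit 8968) (nat_lit 6) (nat_lit 118) (nat_lit 3) (nat_lit 133) (nat_lit 123) (nat_lit 134)) (PT.lf (nat_lit 8968) (nat_lit 6) (nat_lit 118) (nat_lit 1) (nat_lit 134) (nat_lit 123) (nat_lit 133)))) (PT.nd (nat_lit 78) (PT.lf (nat_lit 8892) (nat_lit 6) (nat_lit 117) (nat_lit 1) (nat_lit 135) (nat_lit 123) (nat_lit 132)) (PT.nd (nat_lit 78) (PT.lf (nat_lit 8816) (nat_lit 6) (nat_lit 116) (nat_lit 1) (nat_lit 136) (nat_lit 123) (nat_lit 131)) (PT.lf (nat_lit 8740) (nat_lit 6) (nat_lit 115) (nat_lit 1) (nat_lit 137) (nat_lit 123) (nat_lit 130))))) (PT.nd (nat_lit 39858) (PT.nd (nat_lit 78) (PT.lf (nat_lit 8056) (nat_lit 6)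 (nat_lit 106) (nat_lit 1) (nat_lit 138) (nat_lit 123) (nat_lit 129)) (PT.nd (nat_lit 39702) (PT.lf (nat_lit 7296) (nat_lit 6) (nat_lit 96) (nat_lit 1) (nat_lit 139) (nat_lit 123) (nat_lit 128)) (PT.lf (nat_lit 7220) (nat_lit 6) (nat_lit 95) (nat_lit 3) (nat_lit 127) (nat_lit 124) (nat_lit 139)))) (PT.nd (nat_lit 78) (PT.lf (nat_lit 7980) (nat_lit 6) (nat_lit 105) (nat_lit 3) (nat_lit 128) (nat_lit 124) (nat_lit 138)) (PT.nd (nat_lit 78) (PT.lf (nat_lit 8664) (nat_lit 6) (nat_lit 114) (nat_lit 3) (nat_lit 129) (nat_lit 124) (nat_lit 137)) (PT.lf (nat_lit 9272) (nat_lit 6) (nat_lit 122) (nat_lit 3) (nat_lit 130) (nat_lit 124) (nat_lit 136)))))) (PT.nd (nat_lit 468) (PT.nd (nat_lit 234) (PT.nd (nat_lit 78) (PT.lf (nat_lit 9348) (nat_lit 6) (nat_lit 123) (nat_lit 3) (nat_lit 131) (nat_lit 124) (nat_lit 135)) (PT.nd (nat_lit 78) (PT.lf (nat_lit 9424) (nat_lit 6) (nat_lit 124) (nat_lit 3)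 (nat_lit 132) (nat_lit 124) (nat_lit 134)) (PT.lf (nat_lit 9500) (nat_lit 3) (nat_lit 125) (nat_lit 1) (nat_lit 133) (nat_lit 124) (nat_lit 133)))) (PT.nd (nat_lit 78) (PT.lf (nat_lit 9424) (nat_lit 6) (nat_lit 124) (nat_lit 1) (nat_lit 134) (nat_lit 124) (nat_lit 132)) (PT.nd (nat_lit 78) (PT.lf (nat_lit 9348) (nat_lit 6) (nat_lit 123) (nat_lit 1) (nat_lit 135) (nat_lit 124) (nat_lit 131)) (PT.lf (nat_lit 9272) (nat_lit 6) (nat_lit 122) (nat_lit 1) (nat_lit 136) (nat_lit 124) (nat_lit 130))))) (PT.nd (nat_lit 39780) (PT.nd (nat_lit 78) (PT.lf (nat_lit 8664) (nat_lit 6) (nat_lit 114) (nat_lit 1) (nat_lit 137) (nat_lit 124) (nat_lit 129)) (PT.nd (nat_lit 78) (PT.lf (nat_lit 7980) (nat_lit 6) (nat_lit 105) (nat_lit 1) (nat_lit 138) (nat_lit 124) (nat_lit 128)) (PT.lf (nat_lit 7220) (nat_lit 6) (nat_lit 95) (nat_lit 1) (nat_lit 139) (nat_lit 124) (nat_lit 127)))) (PT.nd (nat_lit 78) (PT.lf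 (nat_lit 7144) (nat_lit 6) (nat_lit 94) (nat_lit 3) (nat_lit 126) (nat_lit 125) (nat_lit 139)) (PT.nd (nat_lit 78) (PT.lf (nat_lit 7904) (nat_lit 6) (nat_lit 104) (nat_lit 3) (nat_lit 127) (nat_lit 125) (nat_lit 138)) (PT.lf (nat_lit 8588) (nat_lit 6) (nat_lit 113) (nat_lit 3) (nat_lit 128) (nat_lit 125) (nat_lit 137))))))) (PT.nd (nat_lit 40404) (PT.nd (nat_lit 468) (PT.nd (nat_lit 234) (PT.nd (nat_lit 78) (PT.lf (nat_lit 9196) (nat_lit 6) (nat_lit 121) (nat_lit 3) (nat_lit 129) (nat_lit 125) (nat_lit 136)) (PT.nd (nat_lit 78) (PT.lf (nat_lit 9728) (nat_lit 6) (nat_lit 128) (nat_lit 3) (nat_lit 130) (nat_lit 125) (nat_lit 135)) (PT.lf (nat_lit 9804) (nat_lit 6) (nat_lit 129) (nat_lit 3) (nat_lit 131) (nat_lit 125) (nat_lit 134)))) (PT.nd (nat_lit 78) (PT.lf (nat_lit 9880) (nat_lit 6) (nat_lit 130) (nat_lit 3) (nat_lit 132) (nat_lit 125) (nat_lit 133)) (PT.nd (nat_lit 78) (PT.lf (nat_lit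 9880) (nat_lit 6) (nat_lit 130) (nat_lit 1) (nat_lit 133) (nat_lit 125) (nat_lit 132)) (PT.lf (nat_lit 9804) (nat_lit 6) (nat_lit 129) (nat_lit 1) (nat_lit 134) (nat_lit 125) (nat_lit 131))))) (PT.nd (nat_lit 234) (PT.nd (nat_lit 78) (PT.lf (nat_lit 9728) (nat_lit 6) (nat_lit 128) (nat_lit 1) (nat_lit 135) (nat_lit 125) (nat_lit 130)) (PT.nd (nat_lit 78) (PT.lf (nat_lit 9196) (nat_lit 6) (nat_lit 121) (nat_lit 1) (nat_lit 136) (nat_lit 125) (nat_lit 129)) (PT.lf (nat_lit 8588) (nat_lit 6) (nat_lit 113) (nat_lit 1) (nat_lit 137) (nat_lit 125) (nat_lit 128)))) (PT.nd (nat_lit 78) (PT.lf (nat_lit 7904) (nat_lit 6) (nat_lit 104) (nat_lit 1) (nat_lit 138) (nat_lit 125) (nat_lit 127)) (PT.nd (nat_lit 39546) (PT.lf (nat_lit 7144) (nat_lit 6) (nat_lit 94) (nat_lit 1) (nat_lit 139) (nat_lit 125) (nat_lit 126)) (PT.lf (nat_lit 7144) (nat_lit 6) (nat_lit 94) (nat_lit 5) (nat_lit 125) (nat_lit 126)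 (nat_lit 139)))))) (PT.nd (nat_lit 468) (PT.nd (nat_lit 234) (PT.nd (nat_lit 78) (PT.lf (nat_lit 7828) (nat_lit 3) (nat_lit 103) (nat_lit 3) (nat_lit 126) (nat_lit 126) (nat_lit 138)) (PT.nd (nat_lit 78) (PT.lf (nat_lit 8512) (nat_lit 6) (nat_lit 112) (nat_lit 3) (nat_lit 127) (nat_lit 126) (nat_lit 137)) (PT.lf (nat_lit 9120) (nat_lit 6) (nat_lit 120) (nat_lit 3) (nat_lit 128) (nat_lit 126) (nat_lit 136)))) (PT.nd (nat_lit 78) (PT.lf (nat_lit 9652) (nat_lit 6) (nat_lit 127) (nat_lit 3) (nat_lit 129) (nat_lit 126) (nat_lit 135)) (PT.nd (nat_lit 78) (PT.lf (nat_lit 10108) (nat_lit 6) (nat_lit 133) (nat_lit 3) (nat_lit 130) (nat_lit 126) (nat_lit 134)) (PT.lf (nat_lit 10184) (nat_lit 6) (nat_lit 134) (nat_lit 3) (nat_lit 131) (nat_lit 126) (nat_lit 133))))) (PT.nd (nat_lit 234) (PT.nd (nat_lit 78) (PT.lf (nat_lit 10260) (nat_lit 3) (nat_lit 135) (nat_lit 1) (nat_lit 132) (nat_lit 126)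 (nat_lit 132)) (PT.nd (nat_lit 78) (PT.lf (nat_lit 10184) (nat_lit 6) (nat_lit 134) (nat_lit 1) (nat_lit 133) (nat_lit 126) (nat_lit 131)) (PT.lf (nat_lit 10108) (nat_lit 6) (nat_lit 133) (nat_lit 1) (nat_lit 134) (nat_lit 126) (nat_lit 130)))) (PT.nd (nat_lit 78) (PT.lf (nat_lit 9652) (nat_lit 6) (nat_lit 127) (nat_lit 1) (nat_lit 135) (nat_lit 126) (nat_lit 129)) (PT.nd (nat_lit 78) (PT.lf (nat_lit 9120) (nat_lit 6) (nat_lit 120) (nat_lit 1) (nat_lit 136) (nat_lit 126) (nat_lit 128)) (PT.lf (nat_lit 8512) (nat_lit 6) (nat_lit 112) (nat_lit 1) (nat_lit 137) (nat_lit 126) (nat_lit 127))))))))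
noncomputable def pc5 : PT := (PT.nd (nat_lit 80496) (PT.nd (nat_lit 40326) (PT.nd (nat_lit 39858) (PT.nd (nat_lit 39624) (PT.nd (nat_lit 78) (PT.lf (nat_lit 7828) (nat_lit 3) (nat_lit 103) (nat_lit 0) (nat_lit 138) (nat_lit 126) (nat_lit 126)) (PT.nd (nat_lit 39468) (PT.lf (nat_lit 7144) (nat_lit 6) (nat_lit 94) (nat_lit 0) (nat_lit 139) (nat_lit 126) (nat_lit 125)) (PT.lf (nat_lit 7220) (nat_lit 6) (nat_lit 95) (nat_lit 5) (nat_lit 124) (nat_lit 127) (nat_lit 139)))) (PT.nd (nat_lit 78) (PT.lf (nat_lit 7904) (nat_lit 6) (nat_lit 104) (nat_lit 5) (nat_lit 125) (nat_lit 127) (nat_lit 138)) (PT.nd (nat_lit 78) (PT.lf (nat_lit 8512) (nat_lit 6) (nat_lit 112) (nat_lit 5) (nat_lit 126) (nat_lit 127) (nat_lit 137)) (PT.lf (nat_lit 9044) (nat_lit 3) (nat_lit 119) (nat_lit 3) (nat_lit 127) (nat_lit 127) (nat_lit 136))))) (PT.nd (nat_lit 234) (PT.nd (nat_lit 78) (PT.lf (nat_lit 9576) (nat_lit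 6) (nat_lit 126) (nat_lit 3) (nat_lit 128) (nat_lit 127) (nat_lit 135)) (PT.nd (nat_lit 78) (PT.lf (nat_lit 10032) (nat_lit 6) (nat_lit 132) (nat_lit 3) (nat_lit 129) (nat_lit 127) (nat_lit 134)) (PT.lf (nat_lit 10412) (nat_lit 6) (nat_lit 137) (nat_lit 3) (nat_lit 130) (nat_lit 127) (nat_lit 133)))) (PT.nd (nat_lit 78) (PT.lf (nat_lit 10488) (nat_lit 6) (nat_lit 138) (nat_lit 3) (nat_lit 131) (nat_lit 127) (nat_lit 132)) (PT.nd (nat_lit 78) (PT.lf (nat_lit 10488) (nat_lit 6) (nat_lit 138) (nat_lit 1) (nat_lit 132) (nat_lit 127) (nat_lit 131)) (PT.lf (nat_lit 10412) (nat_lit 6) (nat_lit 137) (nat_lit 1) (nat_lit 133) (nat_lit 127) (nat_lit 130)))))) (PT.nd (nat_lit 39702) (PT.nd (nat_lit 234) (PT.nd (nat_lit 78) (PT.lf (nat_lit 10032) (nat_lit 6) (nat_lit 132) (nat_lit 1) (nat_lit 134) (nat_lit 127) (nat_lit 129)) (PT.nd (nat_lit 78) (PT.lf (nat_lit 9576) (nat_lit 6) (nat_lit 126) (nat_lit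 1) (nat_lit 135) (nat_lit 127) (nat_lit 128)) (PT.lf (nat_lit 9044) (nat_lit 3) (nat_lit 119) (nat_lit 0) (nat_lit 136) (nat_lit 127) (nat_lit 127)))) (PT.nd (nat_lit 78) (PT.lf (nat_lit 8512) (nat_lit 6) (nat_lit 112) (nat_lit 0) (nat_lit 137) (nat_lit 127) (nat_lit 126)) (PT.nd (nat_lit 78) (PT.lf (nat_lit 7904) (nat_lit 6) (nat_lit 104) (nat_lit 0) (nat_lit 138) (nat_lit 127) (nat_lit 125)) (PT.lf (nat_lit 7220) (nat_lit 6) (nat_lit 95) (nat_lit 0) (nat_lit 139) (nat_lit 127) (nat_lit 124))))) (PT.nd (nat_lit 234) (PT.nd (nat_lit 78) (PT.lf (nat_lit 6536) (nat_lit 6) (nat_lit 86) (nat_lit 5) (nat_lit 122) (nat_lit 128) (nat_lit 140)) (PT.nd (nat_lit 78) (PT.lf (nat_lit 7296) (nat_lit 6) (nat_lit 96) (nat_lit 5) (nat_lit 123) (nat_lit 128) (nat_lit 139)) (PT.lf (nat_lit 7980) (nat_lit 6) (nat_lit 105) (nat_lit 5) (nat_lit 124) (nat_lit 128) (nat_lit 138)))) (PT.nd (nat_lit 78) (PT.lf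 (nat_lit 8588) (nat_lit 6) (nat_lit 113) (nat_lit 5) (nat_lit 125) (nat_lit 128) (nat_lit 137)) (PT.nd (nat_lit 78) (PT.lf (nat_lit 9120) (nat_lit 6) (nat_lit 120) (nat_lit 5) (nat_lit 126) (nat_lit 128) (nat_lit 136)) (PT.lf (nat_lit 9576) (nat_lit 6) (nat_lit 126) (nat_lit 5) (nat_lit 127) (nat_lit 128) (nat_lit 135))))))) (PT.nd (nat_lit 936) (PT.nd (nat_lit 468) (PT.nd (nat_lit 234) (PT.nd (nat_lit 78) (PT.lf (nat_lit 9956) (nat_lit 3) (nat_lit 131) (nat_lit 3) (nat_lit 128) (nat_lit 128) (nat_lit 134)) (PT.nd (nat_lit 78) (PT.lf (nat_lit 10336) (nat_lit 6) (nat_lit 136) (nat_lit 3) (nat_lit 129) (nat_lit 128) (nat_lit 133)) (PT.lf (nat_lit 10640) (nat_lit 6) (nat_lit 140) (nat_lit 3) (nat_lit 130) (nat_lit 128) (nat_lit 132)))) (PT.nd (nat_lit 78) (PT.lf (nat_lit 10716) (nat_lit 3) (nat_lit 141) (nat_lit 1) (nat_lit 131) (nat_lit 128) (nat_lit 131)) (PT.nd (nat_lit 78) (PT.lf (nat_lit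 10640) (nat_lit 6) (nat_lit 140) (nat_lit 1) (nat_lit 132) (nat_lit 128) (nat_lit 130)) (PT.lf (nat_lit 10336) (nat_lit 6) (nat_lit 136) (nat_lit 1) (nat_lit 133) (nat_lit 128) (nat_lit 129))))) (PT.nd (nat_lit 234) (PT.nd (nat_lit 78) (PT.lf (nat_lit 9956) (nat_lit 3) (nat_lit 131) (nat_lit 0) (nat_lit 134) (nat_lit 128) (nat_lit 128)) (PT.nd (nat_lit 78) (PT.lf (nat_lit 9576) (nat_lit 6) (nat_lit 126) (nat_lit 0) (nat_lit 135) (nat_lit 128) (nat_lit 127)) (PT.lf (nat_lit 9120) (nat_lit 6) (nat_lit 120) (nat_lit 0) (nat_lit 136) (nat_lit 128) (nat_lit 126)))) (PT.nd (nat_lit 78) (PT.lf (nat_lit 8588) (nat_lit 6) (nat_lit 113) (nat_lit 0) (nat_lit 137) (nat_lit 128) (nat_lit 125)) (PT.nd (nat_lit 78) (PT.lf (nat_lit 7980) (nat_lit 6) (nat_lit 105) (nat_lit 0) (nat_lit 138) (nat_lit 128) (nat_lit 124)) (PT.lf (nat_lit 7296) (nat_lit 6) (nat_lit 96) (nat_lit 0) (nat_lit 139) (nat_lit 128)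 (nat_lit 123)))))) (PT.nd (nat_lit 39546) (PT.nd (nat_lit 39312) (PT.nd (nat_lit 39156) (PT.lf (nat_lit 6536) (nat_lit 6) (nat_lit 86) (nat_lit 0) (nat_lit 140) (nat_lit 128) (nat_lit 122)) (PT.nd (nat_lit 78) (PT.lf (nat_lit 6612) (nat_lit 6) (nat_lit 87) (nat_lit 5) (nat_lit 121) (nat_lit 129) (nat_lit 140)) (PT.lf (nat_lit 7372) (nat_lit 6) (nat_lit 97) (nat_lit 5) (nat_lit 122) (nat_lit 129) (nat_lit 139)))) (PT.nd (nat_lit 78) (PT.lf (nat_lit 8056) (nat_lit 6) (nat_lit 106) (nat_lit 5) (nat_lit 123) (nat_lit 129) (nat_lit 138)) (PT.nd (nat_lit 78) (PT.lf (nat_lit 8664) (nat_lit 6) (nat_lit 114) (nat_lit 5) (nat_lit 124) (nat_lit 129) (nat_lit 137)) (PT.lf (nat_lit 9196) (nat_lit 6) (nat_lit 121) (nat_lit 5) (nat_lit 125) (nat_lit 129) (nat_lit 136))))) (PT.nd (nat_lit 234) (PT.nd (nat_lit 78) (PT.lf (nat_lit 9652) (nat_lit 6) (nat_lit 127) (nat_lit 5) (nat_lit 126) (nat_lit 129)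 (nat_lit 135)) (PT.nd (nat_lit 78) (PT.lf (nat_lit 10032) (nat_lit 6) (nat_lit 132) (nat_lit 5) (nat_lit 127) (nat_lit 129) (nat_lit 134)) (PT.lf (nat_lit 10336) (nat_lit 6) (nat_lit 136) (nat_lit 5) (nat_lit 128) (nat_lit 129) (nat_lit 133)))) (PT.nd (nat_lit 156) (PT.nd (nat_lit 78) (PT.lf (nat_lit 10564) (nat_lit 3) (nat_lit 139) (nat_lit 3) (nat_lit 129) (nat_lit 129) (nat_lit 132)) (PT.lf (nat_lit 10792) (nat_lit 6) (nat_lit 142) (nat_lit 3) (nat_lit 130) (nat_lit 129) (nat_lit 131))) (PT.nd (nat_lit 78) (PT.lf (nat_lit 10792) (nat_lit 6) (nat_lit 142) (nat_lit 1) (nat_lit 131) (nat_lit 129) (nat_lit 130)) (PT.lf (nat_lit 10564) (nat_lit 3) (nat_lit 139) (nat_lit 0) (nat_lit 132) (nat_lit 129) (nat_lit 129))))))))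
noncomputable def pc6 : PT := (PT.nd (nat_lit 40872) (PT.nd (nat_lit 39936) (PT.nd (nat_lit 468) (PT.nd (nat_lit 234) (PT.nd (nat_lit 78) (PT.lf (nat_lit 10336) (nat_lit 6) (nat_lit 136) (nat_lit 0) (nat_lit 133) (nat_lit 129) (nat_lit 128)) (PT.nd (nat_lit 78) (PT.lf (nat_lit 10032) (nat_lit 6) (nat_lit 132) (nat_lit 0) (nat_lit 134) (nat_lit 129) (nat_lit 127)) (PT.lf (nat_lit 9652) (nat_lit 6) (nat_lit 127) (nat_lit 0) (nat_lit 135) (nat_lit 129) (nat_lit 126)))) (PT.nd (nat_lit 78) (PT.lf (nat_lit 9196) (nat_lit 6) (nat_lit 121) (nat_lit 0) (nat_lit 136) (nat_lit 129) (nat_lit 125)) (PT.nd (nat_lit 78) (PT.lf (nat_lit 8664) (nat_lit 6) (nat_lit 114) (nat_lit 0) (nat_lit 137) (nat_lit 129) (nat_lit 124)) (PT.lf (nat_lit 8056) (nat_lit 6) (nat_lit 106) (nat_lit 0) (nat_lit 138) (nat_lit 129) (nat_lit 123))))) (PT.nd (nat_lit 39234) (PT.nd (nat_lit 78) (PT.lf (nat_lit 7372) (nat_lit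 6) (nat_lit 97) (nat_lit 0) (nat_lit 139) (nat_lit 129) (nat_lit 122)) (PT.nd (nat_lit 39078) (PT.lf (nat_lit 6612) (nat_lit 6) (nat_lit 87) (nat_lit 0) (nat_lit 140) (nat_lit 129) (nat_lit 121)) (PT.lf (nat_lit 6688) (nat_lit 6) (nat_lit 88) (nat_lit 5) (nat_lit 120) (nat_lit 130) (nat_lit 140)))) (PT.nd (nat_lit 78) (PT.lf (nat_lit 7448) (nat_lit 6) (nat_lit 98) (nat_lit 5) (nat_lit 121) (nat_lit 130) (nat_lit 139)) (PT.nd (nat_lit 78) (PT.lf (nat_lit 8132) (nat_lit 6) (nat_lit 107) (nat_lit 5) (nat_lit 122) (nat_lit 130) (nat_lit 138)) (PT.lf (nat_lit 8740) (nat_lit 6) (nat_lit 115) (nat_lit 5) (nat_lit 123) (nat_lit 130) (nat_lit 137)))))) (PT.nd (nat_lit 468) (PT.nd (nat_lit 234) (PT.nd (nat_lit 78) (PT.lf (nat_lit 9272) (nat_lit 6) (nat_lit 122) (nat_lit 5) (nat_lit 124) (nat_lit 130) (nat_lit 136)) (PT.nd (nat_lit 78) (PT.lf (nat_lit 9728) (nat_lit 6) (nat_lit 128) (nat_lit 5)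 (nat_lit 125) (nat_lit 130) (nat_lit 135)) (PT.lf (nat_lit 10108) (nat_lit 6) (nat_lit 133) (nat_lit 5) (nat_lit 126) (nat_lit 130) (nat_lit 134)))) (PT.nd (nat_lit 78) (PT.lf (nat_lit 10412) (nat_lit 6) (nat_lit 137) (nat_lit 5) (nat_lit 127) (nat_lit 130) (nat_lit 133)) (PT.nd (nat_lit 78) (PT.lf (nat_lit 10640) (nat_lit 6) (nat_lit 140) (nat_lit 5) (nat_lit 128) (nat_lit 130) (nat_lit 132)) (PT.lf (nat_lit 10792) (nat_lit 6) (nat_lit 142) (nat_lit 5) (nat_lit 129) (nat_lit 130) (nat_lit 131))))) (PT.nd (nat_lit 234) (PT.nd (nat_lit 78) (PT.lf (nat_lit 10868) (nat_lit 1) (nat_lit 143) (nat_lit 0) (nat_lit 130) (nat_lit 130) (nat_lit 130)) (PT.nd (nat_lit 78) (PT.lf (nat_lit 10792) (nat_lit 6) (nat_lit 142) (nat_lit 0) (nat_lit 131) (nat_lit 130) (nat_lit 129)) (PT.lf (nat_lit 10640) (nat_lit 6) (nat_lit 140) (nat_lit 0) (nat_lit 132) (nat_lit 130) (nat_lit 128)))) (PT.nd (nat_lit 78)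 (PT.lf (nat_lit 10412) (nat_lit 6) (nat_lit 137) (nat_lit 0) (nat_lit 133) (nat_lit 130) (nat_lit 127)) (PT.nd (nat_lit 78) (PT.lf (nat_lit 10108) (nat_lit 6) (nat_lit 133) (nat_lit 0) (nat_lit 134) (nat_lit 130) (nat_lit 126)) (PT.lf (nat_lit 9728) (nat_lit 6) (nat_lit 128) (nat_lit 0) (nat_lit 135) (nat_lit 130) (nat_lit 125))))))) (PT.nd (nat_lit 39858) (PT.nd (nat_lit 39390) (PT.nd (nat_lit 234) (PT.nd (nat_lit 78) (PT.lf (nat_lit 9272) (nat_lit 6) (nat_lit 122) (nat_lit 0) (nat_lit 136) (nat_lit 130) (nat_lit 124)) (PT.nd (nat_lit 78) (PT.lf (nat_lit 8740) (nat_lit 6) (nat_lit 115) (nat_lit 0) (nat_lit 137) (nat_lit 130) (nat_lit 123)) (PT.lf (nat_lit 8132) (nat_lit 6) (nat_lit 107) (nat_lit 0) (nat_lit 138) (nat_lit 130) (nat_lit 122)))) (PT.nd (nat_lit 78) (PT.lf (nat_lit 7448) (nat_lit 6) (nat_lit 98) (nat_lit 0) (nat_lit 139) (nat_lit 130) (nat_lit 121)) (PT.nd (nat_lit 39000)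 (PT.lf (nat_lit 6688) (nat_lit 6) (nat_lit 88) (nat_lit 0) (nat_lit 140) (nat_lit 130) (nat_lit 120)) (PT.lf (nat_lit 6156) (nat_lit 6) (nat_lit 81) (nat_lit 5) (nat_lit 119) (nat_lit 131) (nat_lit 140))))) (PT.nd (nat_lit 234) (PT.nd (nat_lit 78) (PT.lf (nat_lit 6764) (nat_lit 6) (nat_lit 89) (nat_lit 5) (nat_lit 120) (nat_lit 131) (nat_lit 139)) (PT.nd (nat_lit 78) (PT.lf (nat_lit 7524) (nat_lit 6) (nat_lit 99) (nat_lit 5) (nat_lit 121) (nat_lit 131) (nat_lit 138)) (PT.lf (nat_lit 8208) (nat_lit 6) (nat_lit 108) (nat_lit 5) (nat_lit 122) (nat_lit 131) (nat_lit 137)))) (PT.nd (nat_lit 78) (PT.lf (nat_lit 8816) (nat_lit 6) (nat_lit 116) (nat_lit 5) (nat_lit 123) (nat_lit 131) (nat_lit 136)) (PT.nd (nat_lit 78) (PT.lf (nat_lit 9348) (nat_lit 6) (nat_lit 123) (nat_lit 5) (nat_lit 124) (nat_lit 131) (nat_lit 135)) (PT.lf (nat_lit 9804) (nat_lit 6) (nat_lit 129) (nat_lit 5) (nat_lit 125)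 (nat_lit 131) (nat_lit 134)))))) (PT.nd (nat_lit 468) (PT.nd (nat_lit 234) (PT.nd (nat_lit 78) (PT.lf (nat_lit 10184) (nat_lit 6) (nat_lit 134) (nat_lit 5) (nat_lit 126) (nat_lit 131) (nat_lit 133)) (PT.nd (nat_lit 78) (PT.lf (nat_lit 10488) (nat_lit 6) (nat_lit 138) (nat_lit 5) (nat_lit 127) (nat_lit 131) (nat_lit 132)) (PT.lf (nat_lit 10716) (nat_lit 3) (nat_lit 141) (nat_lit 4) (nat_lit 128) (nat_lit 131) (nat_lit 131)))) (PT.nd (nat_lit 78) (PT.lf (nat_lit 10792) (nat_lit 6) (nat_lit 142) (nat_lit 4) (nat_lit 129) (nat_lit 131) (nat_lit 130)) (PT.nd (nat_lit 78) (PT.lf (nat_lit 10792) (nat_lit 6) (nat_lit 142) (nat_lit 2) (nat_lit 130) (nat_lit 131) (nat_lit 129)) (PT.lf (nat_lit 10716) (nat_lit 3) (nat_lit 141) (nat_lit 0) (nat_lit 131) (nat_lit 131) (nat_lit 128))))) (PT.nd (nat_lit 234) (PT.nd (nat_lit 78) (PT.lf (nat_lit 10488) (nat_lit 6) (nat_lit 138) (nat_lit 0) (nat_lit 132)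 (nat_lit 131) (nat_lit 127)) (PT.nd (nat_lit 78) (PT.lf (nat_lit 10184) (nat_lit 6) (nat_lit 134) (nat_lit 0) (nat_lit 133) (nat_lit 131) (nat_lit 126)) (PT.lf (nat_lit 9804) (nat_lit 6) (nat_lit 129) (nat_lit 0) (nat_lit 134) (nat_lit 131) (nat_lit 125)))) (PT.nd (nat_lit 78) (PT.lf (nat_lit 9348) (nat_lit 6) (nat_lit 123) (nat_lit 0) (nat_lit 135) (nat_lit 131) (nat_lit 124)) (PT.nd (nat_lit 78) (PT.lf (nat_lit 8816) (nat_lit 6) (nat_lit 116) (nat_lit 0) (nat_lit 136) (nat_lit 131) (nat_lit 123)) (PT.lf (nat_lit 8208) (nat_lit 6) (nat_lit 108) (nat_lit 0) (nat_lit 137) (nat_lit 131) (nat_lit 122))))))))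
noncomputable def pc7 : PT := (PT.nd (nat_lit 40716) (PT.nd (nat_lit 39780) (PT.nd (nat_lit 39312) (PT.nd (nat_lit 39078) (PT.nd (nat_lit 78) (PT.lf (nat_lit 7524) (nat_lit 6) (nat_lit 99) (nat_lit 0) (nat_lit 138) (nat_lit 131) (nat_lit 121)) (PT.nd (nat_lit 78) (PT.lf (nat_lit 6764) (nat_lit 6) (nat_lit 89) (nat_lit 0) (nat_lit 139) (nat_lit 131) (nat_lit 120)) (PT.lf (nat_lit 6156) (nat_lit 6) (nat_lit 81) (nat_lit 0) (nat_lit 140) (nat_lit 131) (nat_lit 119)))) (PT.nd (nat_lit 78) (PT.lf (nat_lit 5776) (nat_lit 6) (nat_lit 76) (nat_lit 5) (nat_lit 118) (nat_lit 132) (nat_lit 140)) (PT.nd (nat_lit 78) (PT.lf (nat_lit 6232) (nat_lit 6) (nat_lit 82) (nat_lit 5) (nat_lit 119) (nat_lit 132) (nat_lit 139)) (PT.lf (nat_lit 6840) (nat_lit 6) (nat_lit 90) (nat_lit 5) (nat_lit 120) (nat_lit 132) (nat_lit 138))))) (PT.nd (nat_lit 234) (PT.nd (nat_lit 78) (PT.lf (nat_lit 7600) (nat_lit 6) (nat_lit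 100) (nat_lit 5) (nat_lit 121) (nat_lit 132) (nat_lit 137)) (PT.nd (nat_lit 78) (PT.lf (nat_lit 8284) (nat_lit 6) (nat_lit 109) (nat_lit 5) (nat_lit 122) (nat_lit 132) (nat_lit 136)) (PT.lf (nat_lit 8892) (nat_lit 6) (nat_lit 117) (nat_lit 5) (nat_lit 123) (nat_lit 132) (nat_lit 135)))) (PT.nd (nat_lit 78) (PT.lf (nat_lit 9424) (nat_lit 6) (nat_lit 124) (nat_lit 5) (nat_lit 124) (nat_lit 132) (nat_lit 134)) (PT.nd (nat_lit 78) (PT.lf (nat_lit 9880) (nat_lit 6) (nat_lit 130) (nat_lit 5) (nat_lit 125) (nat_lit 132) (nat_lit 133)) (PT.lf (nat_lit 10260) (nat_lit 3) (nat_lit 135) (nat_lit 4) (nat_lit 126) (nat_lit 132) (nat_lit 132)))))) (PT.nd (nat_lit 468) (PT.nd (nat_lit 234) (PT.nd (nat_lit 78) (PT.lf (nat_lit 10488) (nat_lit 6) (nat_lit 138) (nat_lit 4) (nat_lit 127) (nat_lit 132) (nat_lit 131)) (PT.nd (nat_lit 78) (PT.lf (nat_lit 10640) (nat_lit 6) (nat_lit 140) (nat_lit 4) (nat_lit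 128) (nat_lit 132) (nat_lit 130)) (PT.lf (nat_lit 10564) (nat_lit 3) (nat_lit 139) (nat_lit 2) (nat_lit 129) (nat_lit 132) (nat_lit 129)))) (PT.nd (nat_lit 78) (PT.lf (nat_lit 10640) (nat_lit 6) (nat_lit 140) (nat_lit 2) (nat_lit 130) (nat_lit 132) (nat_lit 128)) (PT.nd (nat_lit 78) (PT.lf (nat_lit 10488) (nat_lit 6) (nat_lit 138) (nat_lit 2) (nat_lit 131) (nat_lit 132) (nat_lit 127)) (PT.lf (nat_lit 10260) (nat_lit 3) (nat_lit 135) (nat_lit 0) (nat_lit 132) (nat_lit 132) (nat_lit 126))))) (PT.nd (nat_lit 234) (PT.nd (nat_lit 78) (PT.lf (nat_lit 9880) (nat_lit 6) (nat_lit 130) (nat_lit 0) (nat_lit 133) (nat_lit 132) (nat_lit 125)) (PT.nd (nat_lit 78) (PT.lf (nat_lit 9424) (nat_lit 6) (nat_lit 124) (nat_lit 0) (nat_lit 134) (nat_lit 132) (nat_lit 124)) (PT.lf (nat_lit 8892) (nat_lit 6) (nat_lit 117) (nat_lit 0) (nat_lit 135) (nat_lit 132) (nat_lit 123)))) (PT.nd (nat_lit 78) (PT.lf (nat_lit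 8284) (nat_lit 6) (nat_lit 109) (nat_lit 0) (nat_lit 136) (nat_lit 132) (nat_lit 122)) (PT.nd (nat_lit 78) (PT.lf (nat_lit 7600) (nat_lit 6) (nat_lit 100) (nat_lit 0) (nat_lit 137) (nat_lit 132) (nat_lit 121)) (PT.lf (nat_lit 6840) (nat_lit 6) (nat_lit 90) (nat_lit 0) (nat_lit 138) (nat_lit 132) (nat_lit 120))))))) (PT.nd (nat_lit 39624) (PT.nd (nat_lit 39156) (PT.nd (nat_lit 38922) (PT.nd (nat_lit 78) (PT.lf (nat_lit 6232) (nat_lit 6) (nat_lit 82) (nat_lit 0) (nat_lit 139) (nat_lit 132) (nat_lit 119)) (PT.nd (nat_lit 38766) (PT.lf (nat_lit 5776) (nat_lit 6) (nat_lit 76) (nat_lit 0) (nat_lit 140) (nat_lit 132) (nat_lit 118)) (PT.lf (nat_lit 5092) (nat_lit 6) (nat_lit 67) (nat_lit 5) (nat_lit 116) (nat_lit 133) (nat_lit 141)))) (PT.nd (nat_lit 78) (PT.lf (nat_lit 5472) (nat_lit 6) (nat_lit 72) (nat_lit 5) (nat_lit 117) (nat_lit 133) (nat_lit 140)) (PT.nd (nat_lit 78) (PT.lf (nat_lit 5852)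 (nat_lit 6) (nat_lit 77) (nat_lit 5) (nat_lit 118) (nat_lit 133) (nat_lit 139)) (PT.lf (nat_lit 6308) (nat_lit 6) (nat_lit 83) (nat_lit 5) (nat_lit 119) (nat_lit 133) (nat_lit 138))))) (PT.nd (nat_lit 234) (PT.nd (nat_lit 78) (PT.lf (nat_lit 6916) (nat_lit 6) (nat_lit 91) (nat_lit 5) (nat_lit 120) (nat_lit 133) (nat_lit 137)) (PT.nd (nat_lit 78) (PT.lf (nat_lit 7676) (nat_lit 6) (nat_lit 101) (nat_lit 5) (nat_lit 121) (nat_lit 133) (nat_lit 136)) (PT.lf (nat_lit 8360) (nat_lit 6) (nat_lit 110) (nat_lit 5) (nat_lit 122) (nat_lit 133) (nat_lit 135)))) (PT.nd (nat_lit 78) (PT.lf (nat_lit 8968) (nat_lit 6) (nat_lit 118) (nat_lit 5) (nat_lit 123) (nat_lit 133) (nat_lit 134)) (PT.nd (nat_lit 78) (PT.lf (nat_lit 9500) (nat_lit 3) (nat_lit 125) (nat_lit 4) (nat_lit 124) (nat_lit 133) (nat_lit 133)) (PT.lf (nat_lit 9880) (nat_lit 6) (nat_lit 130) (nat_lit 4) (nat_lit 125) (nat_lit 133) (nat_lit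 132)))))) (PT.nd (nat_lit 468) (PT.nd (nat_lit 234) (PT.nd (nat_lit 78) (PT.lf (nat_lit 10184) (nat_lit 6) (nat_lit 134) (nat_lit 4) (nat_lit 126) (nat_lit 133) (nat_lit 131)) (PT.nd (nat_lit 78) (PT.lf (nat_lit 10412) (nat_lit 6) (nat_lit 137) (nat_lit 4) (nat_lit 127) (nat_lit 133) (nat_lit 130)) (PT.lf (nat_lit 10336) (nat_lit 6) (nat_lit 136) (nat_lit 4) (nat_lit 128) (nat_lit 133) (nat_lit 129)))) (PT.nd (nat_lit 78) (PT.lf (nat_lit 10336) (nat_lit 6) (nat_lit 136) (nat_lit 2) (nat_lit 129) (nat_lit 133) (nat_lit 128)) (PT.nd (nat_lit 78) (PT.lf (nat_lit 10412) (nat_lit 6) (nat_lit 137) (nat_lit 2) (nat_lit 130) (nat_lit 133) (nat_lit 127)) (PT.lf (nat_lit 10184) (nat_lit 6) (nat_lit 134) (nat_lit 2) (nat_lit 131) (nat_lit 133) (nat_lit 126))))) (PT.nd (nat_lit 234) (PT.nd (nat_lit 78) (PT.lf (nat_lit 9880) (nat_lit 6) (nat_lit 130) (nat_lit 2) (nat_lit 132) (nat_lit 133) (nat_lit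 125)) (PT.nd (nat_lit 78) (PT.lf (nat_lit 9500) (nat_lit 3) (nat_lit 125) (nat_lit 0) (nat_lit 133) (nat_lit 133) (nat_lit 124)) (PT.lf (nat_lit 8968) (nat_lit 6) (nat_lit 118) (nat_lit 0) (nat_lit 134) (nat_lit 133) (nat_lit 123)))) (PT.nd (nat_lit 156) (PT.nd (nat_lit 78) (PT.lf (nat_lit 8360) (nat_lit 6) (nat_lit 110) (nat_lit 0) (nat_lit 135) (nat_lit 133) (nat_lit 122)) (PT.lf (nat_lit 7676) (nat_lit 6) (nat_lit 101) (nat_lit 0) (nat_lit 136) (nat_lit 133) (nat_lit 121))) (PT.nd (nat_lit 78) (PT.lf (nat_lit 6916) (nat_lit 6) (nat_lit 91) (nat_lit 0) (nat_lit 137) (nat_lit 133) (nat_lit 120)) (PT.lf (nat_lit 6308) (nat_lit 6) (nat_lit 83) (nat_lit 0) (nat_lit 138) (nat_lit 133) (nat_lit 119))))))))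
noncomputable def pc8 : PT := (PT.nd (nat_lit 40404) (PT.nd (nat_lit 39468) (PT.nd (nat_lit 39000) (PT.nd (nat_lit 38766) (PT.nd (nat_lit 78) (PT.lf (nat_lit 5852) (nat_lit 6) (nat_lit 77) (nat_lit 0) (nat_lit 139) (nat_lit 133) (nat_lit 118)) (PT.nd (nat_lit 78) (PT.lf (nat_lit 5472) (nat_lit 6) (nat_lit 72) (nat_lit 0) (nat_lit 140) (nat_lit 133) (nat_lit 117)) (PT.lf (nat_lit 5092) (nat_lit 6) (nat_lit 67) (nat_lit 0) (nat_lit 141) (nat_lit 133) (nat_lit 116)))) (PT.nd (nat_lit 78) (PT.lf (nat_lit 4788) (nat_lit 6) (nat_lit 63) (nat_lit 5) (nat_lit 115) (nat_lit 134) (nat_lit 141)) (PT.nd (nat_lit 78) (PT.lf (nat_lit 5168) (nat_lit 6) (nat_lit 68) (nat_lit 5) (nat_lit 116) (nat_lit 134) (nat_lit 140)) (PT.lf (nat_lit 5548) (nat_lit 6) (nat_lit 73) (nat_lit 5) (nat_lit 117) (nat_lit 134) (nat_lit 139))))) (PT.nd (nat_lit 234) (PT.nd (nat_lit 78) (PT.lf (nat_lit 5928) (nat_lit 6) (nat_lit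 78) (nat_lit 5) (nat_lit 118) (nat_lit 134) (nat_lit 138)) (PT.nd (nat_lit 78) (PT.lf (nat_lit 6384) (nat_lit 6) (nat_lit 84) (nat_lit 5) (nat_lit 119) (nat_lit 134) (nat_lit 137)) (PT.lf (nat_lit 6992) (nat_lit 6) (nat_lit 92) (nat_lit 5) (nat_lit 120) (nat_lit 134) (nat_lit 136)))) (PT.nd (nat_lit 78) (PT.lf (nat_lit 7752) (nat_lit 6) (nat_lit 102) (nat_lit 5) (nat_lit 121) (nat_lit 134) (nat_lit 135)) (PT.nd (nat_lit 78) (PT.lf (nat_lit 8436) (nat_lit 3) (nat_lit 111) (nat_lit 4) (nat_lit 122) (nat_lit 134) (nat_lit 134)) (PT.lf (nat_lit 8968) (nat_lit 6) (nat_lit 118) (nat_lit 4) (nat_lit 123) (nat_lit 134) (nat_lit 133)))))) (PT.nd (nat_lit 468) (PT.nd (nat_lit 234) (PT.nd (nat_lit 78) (PT.lf (nat_lit 9424) (nat_lit 6) (nat_lit 124) (nat_lit 4) (nat_lit 124) (nat_lit 134) (nat_lit 132)) (PT.nd (nat_lit 78) (PT.lf (nat_lit 9804) (nat_lit 6) (nat_lit 129) (nat_lit 4) (nat_lit 125)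 (nat_lit 134) (nat_lit 131)) (PT.lf (nat_lit 10108) (nat_lit 6) (nat_lit 133) (nat_lit 4) (nat_lit 126) (nat_lit 134) (nat_lit 130)))) (PT.nd (nat_lit 78) (PT.lf (nat_lit 10032) (nat_lit 6) (nat_lit 132) (nat_lit 4) (nat_lit 127) (nat_lit 134) (nat_lit 129)) (PT.nd (nat_lit 78) (PT.lf (nat_lit 9956) (nat_lit 3) (nat_lit 131) (nat_lit 2) (nat_lit 128) (nat_lit 134) (nat_lit 128)) (PT.lf (nat_lit 10032) (nat_lit 6) (nat_lit 132) (nat_lit 2) (nat_lit 129) (nat_lit 134) (nat_lit 127))))) (PT.nd (nat_lit 234) (PT.nd (nat_lit 78) (PT.lf (nat_lit 10108) (nat_lit 6) (nat_lit 133) (nat_lit 2) (nat_lit 130) (nat_lit 134) (nat_lit 126)) (PT.nd (nat_lit 78) (PT.lf (nat_lit 9804) (nat_lit 6) (nat_lit 129) (nat_lit 2) (nat_lit 131) (nat_lit 134) (nat_lit 125)) (PT.lf (nat_lit 9424) (nat_lit 6) (nat_lit 124) (nat_lit 2) (nat_lit 132) (nat_lit 134) (nat_lit 124)))) (PT.nd (nat_lit 78) (PT.lf (nat_lit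 8968) (nat_lit 6) (nat_lit 118) (nat_lit 2) (nat_lit 133) (nat_lit 134) (nat_lit 123)) (PT.nd (nat_lit 78) (PT.lf (nat_lit 8436) (nat_lit 3) (nat_lit 111) (nat_lit 0) (nat_lit 134) (nat_lit 134) (nat_lit 122)) (PT.lf (nat_lit 7752) (nat_lit 6) (nat_lit 102) (nat_lit 0) (nat_lit 135) (nat_lit 134) (nat_lit 121))))))) (PT.nd (nat_lit 39390) (PT.nd (nat_lit 38922) (PT.nd (nat_lit 234) (PT.nd (nat_lit 78) (PT.lf (nat_lit 6992) (nat_lit 6) (nat_lit 92) (nat_lit 0) (nat_lit 136) (nat_lit 134) (nat_lit 120)) (PT.nd (nat_lit 78) (PT.lf (nat_lit 6384) (nat_lit 6) (nat_lit 84) (nat_lit 0) (nat_lit 137) (nat_lit 134) (nat_lit 119)) (PT.lf (nat_lit 5928) (nat_lit 6) (nat_lit 78) (nat_lit 0) (nat_lit 138) (nat_lit 134) (nat_lit 118)))) (PT.nd (nat_lit 78) (PT.lf (nat_lit 5548) (nat_lit 6) (nat_lit 73) (nat_lit 0) (nat_lit 139) (nat_lit 134) (nat_lit 117)) (PT.nd (nat_lit 78) (PT.lf (nat_lit 5168)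 (nat_lit 6) (nat_lit 68) (nat_lit 0) (nat_lit 140) (nat_lit 134) (nat_lit 116)) (PT.lf (nat_lit 4788) (nat_lit 6) (nat_lit 63) (nat_lit 0) (nat_lit 141) (nat_lit 134) (nat_lit 115))))) (PT.nd (nat_lit 234) (PT.nd (nat_lit 78) (PT.lf (nat_lit 4484) (nat_lit 6) (nat_lit 59) (nat_lit 5) (nat_lit 114) (nat_lit 135) (nat_lit 141)) (PT.nd (nat_lit 78) (PT.lf (nat_lit 4864) (nat_lit 6) (nat_lit 64) (nat_lit 5) (nat_lit 115) (nat_lit 135) (nat_lit 140)) (PT.lf (nat_lit 5244) (nat_lit 6) (nat_lit 69) (nat_lit 5) (nat_lit 116) (nat_lit 135) (nat_lit 139)))) (PT.nd (nat_lit 78) (PT.lf (nat_lit 5624) (nat_lit 6) (nat_lit 74) (nat_lit 5) (nat_lit 117) (nat_lit 135) (nat_lit 138)) (PT.nd (nat_lit 78) (PT.lf (nat_lit 6004) (nat_lit 6) (nat_lit 79) (nat_lit 5) (nat_lit 118) (nat_lit 135) (nat_lit 137)) (PT.lf (nat_lit 6460) (nat_lit 6) (nat_lit 85) (nat_lit 5) (nat_lit 119) (nat_lit 135) (nat_lit 136))))))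 (PT.nd (nat_lit 468) (PT.nd (nat_lit 234) (PT.nd (nat_lit 78) (PT.lf (nat_lit 7068) (nat_lit 3) (nat_lit 93) (nat_lit 4) (nat_lit 120) (nat_lit 135) (nat_lit 135)) (PT.nd (nat_lit 78) (PT.lf (nat_lit 7752) (nat_lit 6) (nat_lit 102) (nat_lit 4) (nat_lit 121) (nat_lit 135) (nat_lit 134)) (PT.lf (nat_lit 8360) (nat_lit 6) (nat_lit 110) (nat_lit 4) (nat_lit 122) (nat_lit 135) (nat_lit 133)))) (PT.nd (nat_lit 78) (PT.lf (nat_lit 8892) (nat_lit 6) (nat_lit 117) (nat_lit 4) (nat_lit 123) (nat_lit 135) (nat_lit 132)) (PT.nd (nat_lit 78) (PT.lf (nat_lit 9348) (nat_lit 6) (nat_lit 123) (nat_lit 4) (nat_lit 124) (nat_lit 135) (nat_lit 131)) (PT.lf (nat_lit 9728) (nat_lit 6) (nat_lit 128) (nat_lit 4) (nat_lit 125) (nat_lit 135) (nat_lit 130))))) (PT.nd (nat_lit 234) (PT.nd (nat_lit 78) (PT.lf (nat_lit 9652) (nat_lit 6) (nat_lit 127) (nat_lit 4) (nat_lit 126) (nat_lit 135) (nat_lit 129)) (PT.nd (nat_lit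 78) (PT.lf (nat_lit 9576) (nat_lit 6) (nat_lit 126) (nat_lit 4) (nat_lit 127) (nat_lit 135) (nat_lit 128)) (PT.lf (nat_lit 9576) (nat_lit 6) (nat_lit 126) (nat_lit 2) (nat_lit 128) (nat_lit 135) (nat_lit 127)))) (PT.nd (nat_lit 78) (PT.lf (nat_lit 9652) (nat_lit 6) (nat_lit 127) (nat_lit 2) (nat_lit 129) (nat_lit 135) (nat_lit 126)) (PT.nd (nat_lit 78) (PT.lf (nat_lit 9728) (nat_lit 6) (nat_lit 128) (nat_lit 2) (nat_lit 130) (nat_lit 135) (nat_lit 125)) (PT.lf (nat_lit 9348) (nat_lit 6) (nat_lit 123) (nat_lit 2) (nat_lit 131) (nat_lit 135) (nat_lit 124))))))))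
noncomputable def pc9 : PT := (PT.nd (nat_lit 40170) (PT.nd (nat_lit 39234) (PT.nd (nat_lit 468) (PT.nd (nat_lit 234) (PT.nd (nat_lit 78) (PT.lf (nat_lit 8892) (nat_lit 6) (nat_lit 117) (nat_lit 2) (nat_lit 132) (nat_lit 135) (nat_lit 123)) (PT.nd (nat_lit 78) (PT.lf (nat_lit 8360) (nat_lit 6) (nat_lit 110) (nat_lit 2) (nat_lit 133) (nat_lit 135) (nat_lit 122)) (PT.lf (nat_lit 7752) (nat_lit 6) (nat_lit 102) (nat_lit 2) (nat_lit 134) (nat_lit 135) (nat_lit 121)))) (PT.nd (nat_lit 78) (PT.lf (nat_lit 7068) (nat_lit 3) (nat_lit 93) (nat_lit 0) (nat_lit 135) (nat_lit 135) (nat_lit 120)) (PT.nd (nat_lit 78) (PT.lf (nat_lit 6460) (nat_lit 6) (nat_lit 85) (nat_lit 0) (nat_lit 136) (nat_lit 135) (nat_lit 119)) (PT.lf (nat_lit 6004) (nat_lit 6) (nat_lit 79) (nat_lit 0) (nat_lit 137) (nat_lit 135) (nat_lit 118))))) (PT.nd (nat_lit 234) (PT.nd (nat_lit 78) (PT.lf (nat_lit 5624) (nat_lit 6) (nat_lit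 74) (nat_lit 0) (nat_lit 138) (nat_lit 135) (nat_lit 117)) (PT.nd (nat_lit 78) (PT.lf (nat_lit 5244) (nat_lit 6) (nat_lit 69) (nat_lit 0) (nat_lit 139) (nat_lit 135) (nat_lit 116)) (PT.lf (nat_lit 4864) (nat_lit 6) (nat_lit 64) (nat_lit 0) (nat_lit 140) (nat_lit 135) (nat_lit 115)))) (PT.nd (nat_lit 38376) (PT.lf (nat_lit 4484) (nat_lit 6) (nat_lit 59) (nat_lit 0) (nat_lit 141) (nat_lit 135) (nat_lit 114)) (PT.nd (nat_lit 78) (PT.lf (nat_lit 3952) (nat_lit 6) (nat_lit 52) (nat_lit 5) (nat_lit 112) (nat_lit 136) (nat_lit 142)) (PT.lf (nat_lit 4256) (nat_lit 6) (nat_lit 56) (nat_lit 5) (nat_lit 113) (nat_lit 136) (nat_lit 141)))))) (PT.nd (nat_lit 468) (PT.nd (nat_lit 234) (PT.nd (nat_lit 78) (PT.lf (nat_lit 4560) (nat_lit 6) (nat_lit 60) (nat_lit 5) (nat_lit 114) (nat_lit 136) (nat_lit 140)) (PT.nd (nat_lit 78) (PT.lf (nat_lit 4940) (nat_lit 6) (nat_lit 65) (nat_lit 5) (nat_lit 115) (nat_lit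 136) (nat_lit 139)) (PT.lf (nat_lit 5320) (nat_lit 6) (nat_lit 70) (nat_lit 5) (nat_lit 116) (nat_lit 136) (nat_lit 138)))) (PT.nd (nat_lit 78) (PT.lf (nat_lit 5700) (nat_lit 6) (nat_lit 75) (nat_lit 5) (nat_lit 117) (nat_lit 136) (nat_lit 137)) (PT.nd (nat_lit 78) (PT.lf (nat_lit 6080) (nat_lit 3) (nat_lit 80) (nat_lit 4) (nat_lit 118) (nat_lit 136) (nat_lit 136)) (PT.lf (nat_lit 6460) (nat_lit 6) (nat_lit 85) (nat_lit 4) (nat_lit 119) (nat_lit 136) (nat_lit 135))))) (PT.nd (nat_lit 234) (PT.nd (nat_lit 78) (PT.lf (nat_lit 6992) (nat_lit 6) (nat_lit 92) (nat_lit 4) (nat_lit 120) (nat_lit 136) (nat_lit 134)) (PT.nd (nat_lit 78) (PT.lf (nat_lit 7676) (nat_lit 6) (nat_lit 101) (nat_lit 4) (nat_lit 121) (nat_lit 136) (nat_lit 133)) (PT.lf (nat_lit 8284) (nat_lit 6) (nat_lit 109) (nat_lit 4) (nat_lit 122) (nat_lit 136) (nat_lit 132)))) (PT.nd (nat_lit 78) (PT.lf (nat_lit 8816) (nat_lit 6)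 (nat_lit 116) (nat_lit 4) (nat_lit 123) (nat_lit 136) (nat_lit 131)) (PT.nd (nat_lit 78) (PT.lf (nat_lit 9272) (nat_lit 6) (nat_lit 122) (nat_lit 4) (nat_lit 124) (nat_lit 136) (nat_lit 130)) (PT.lf (nat_lit 9196) (nat_lit 6) (nat_lit 121) (nat_lit 4) (nat_lit 125) (nat_lit 136) (nat_lit 129))))))) (PT.nd (nat_lit 936) (PT.nd (nat_lit 468) (PT.nd (nat_lit 234) (PT.nd (nat_lit 78) (PT.lf (nat_lit 9120) (nat_lit 6) (nat_lit 120) (nat_lit 4) (nat_lit 126) (nat_lit 136) (nat_lit 128)) (PT.nd (nat_lit 78) (PT.lf (nat_lit 9044) (nat_lit 3) (nat_lit 119) (nat_lit 2) (nat_lit 127) (nat_lit 136) (nat_lit 127)) (PT.lf (nat_lit 9120) (nat_lit 6) (nat_lit 120) (nat_lit 2) (nat_lit 128) (nat_lit 136) (nat_lit 126)))) (PT.nd (nat_lit 78) (PT.lf (nat_lit 9196) (nat_lit 6) (nat_lit 121) (nat_lit 2) (nat_lit 129) (nat_lit 136) (nat_lit 125)) (PT.nd (nat_lit 78) (PT.lf (nat_lit 9272) (nat_lit 6) (nat_lit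 122) (nat_lit 2) (nat_lit 130) (nat_lit 136) (nat_lit 124)) (PT.lf (nat_lit 8816) (nat_lit 6) (nat_lit 116) (nat_lit 2) (nat_lit 131) (nat_lit 136) (nat_lit 123))))) (PT.nd (nat_lit 234) (PT.nd (nat_lit 78) (PT.lf (nat_lit 8284) (nat_lit 6) (nat_lit 109) (nat_lit 2) (nat_lit 132) (nat_lit 136) (nat_lit 122)) (PT.nd (nat_lit 78) (PT.lf (nat_lit 7676) (nat_lit 6) (nat_lit 101) (nat_lit 2) (nat_lit 133) (nat_lit 136) (nat_lit 121)) (PT.lf (nat_lit 6992) (nat_lit 6) (nat_lit 92) (nat_lit 2) (nat_lit 134) (nat_lit 136) (nat_lit 120)))) (PT.nd (nat_lit 78) (PT.lf (nat_lit 6460) (nat_lit 6) (nat_lit 85) (nat_lit 2) (nat_lit 135) (nat_lit 136) (nat_lit 119)) (PT.nd (nat_lit 78) (PT.lf (nat_lit 6080) (nat_lit 3) (nat_lit 80) (nat_lit 0) (nat_lit 136) (nat_lit 136) (nat_lit 118)) (PT.lf (nat_lit 5700) (nat_lit 6) (nat_lit 75) (nat_lit 0) (nat_lit 137) (nat_lit 136) (nat_lit 117)))))) (PT.nd (nat_lit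 38610) (PT.nd (nat_lit 234) (PT.nd (nat_lit 78) (PT.lf (nat_lit 5320) (nat_lit 6) (nat_lit 70) (nat_lit 0) (nat_lit 138) (nat_lit 136) (nat_lit 116)) (PT.nd (nat_lit 78) (PT.lf (nat_lit 4940) (nat_lit 6) (nat_lit 65) (nat_lit 0) (nat_lit 139) (nat_lit 136) (nat_lit 115)) (PT.lf (nat_lit 4560) (nat_lit 6) (nat_lit 60) (nat_lit 0) (nat_lit 140) (nat_lit 136) (nat_lit 114)))) (PT.nd (nat_lit 78) (PT.lf (nat_lit 4256) (nat_lit 6) (nat_lit 56) (nat_lit 0) (nat_lit 141) (nat_lit 136) (nat_lit 113)) (PT.nd (nat_lit 38220) (PT.lf (nat_lit 3952) (nat_lit 6) (nat_lit 52) (nat_lit 0) (nat_lit 142) (nat_lit 136) (nat_lit 112)) (PT.lf (nat_lit 3724) (nat_lit 6) (nat_lit 49) (nat_lit 5) (nat_lit 111) (nat_lit 137) (nat_lit 142))))) (PT.nd (nat_lit 234) (PT.nd (nat_lit 78) (PT.lf (nat_lit 4028) (nat_lit 6) (nat_lit 53) (nat_lit 5) (nat_lit 112) (nat_lit 137) (nat_lit 141)) (PT.nd (nat_lit 78) (PT.lf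 (nat_lit 4332) (nat_lit 6) (nat_lit 57) (nat_lit 5) (nat_lit 113) (nat_lit 137) (nat_lit 140)) (PT.lf (nat_lit 4636) (nat_lit 6) (nat_lit 61) (nat_lit 5) (nat_lit 114) (nat_lit 137) (nat_lit 139)))) (PT.nd (nat_lit 156) (PT.nd (nat_lit 78) (PT.lf (nat_lit 5016) (nat_lit 6) (nat_lit 66) (nat_lit 5) (nat_lit 115) (nat_lit 137) (nat_lit 138)) (PT.lf (nat_lit 5396) (nat_lit 3) (nat_lit 71) (nat_lit 4) (nat_lit 116) (nat_lit 137) (nat_lit 137))) (PT.nd (nat_lit 78) (PT.lf (nat_lit 5700) (nat_lit 6) (nat_lit 75) (nat_lit 4) (nat_lit 117) (nat_lit 137) (nat_lit 136)) (PT.lf (nat_lit 6004) (nat_lit 6) (nat_lit 79) (nat_lit 4) (nat_lit 118) (nat_lit 137) (nat_lit 135))))))))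
noncomputable def pc10 : PT := (PT.nd (nat_lit 39858) (PT.nd (nat_lit 936) (PT.nd (nat_lit 468) (PT.nd (nat_lit 234) (PT.nd (nat_lit 78) (PT.lf (nat_lit 6384) (nat_lit 6) (nat_lit 84) (nat_lit 4) (nat_lit 119) (nat_lit 137) (nat_lit 134)) (PT.nd (nat_lit 78) (PT.lf (nat_lit 6916) (nat_lit 6) (nat_lit 91) (nat_lit 4) (nat_lit 120) (nat_lit 137) (nat_lit 133)) (PT.lf (nat_lit 7600) (nat_lit 6) (nat_lit 100) (nat_lit 4) (nat_lit 121) (nat_lit 137) (nat_lit 132)))) (PT.nd (nat_lit 78) (PT.lf (nat_lit 8208) (nat_lit 6) (nat_lit 108) (nat_lit 4) (nat_lit 122) (nat_lit 137) (nat_lit 131)) (PT.nd (nat_lit 78) (PT.lf (nat_lit 8740) (nat_lit 6) (nat_lit 115) (nat_lit 4) (nat_lit 123) (nat_lit 137) (nat_lit 130)) (PT.lf (nat_lit 8664) (nat_lit 6) (nat_lit 114) (nat_lit 4) (nat_lit 124) (nat_lit 137) (nat_lit 129))))) (PT.nd (nat_lit 234) (PT.nd (nat_lit 78) (PT.lf (nat_lit 8588) (nat_lit 6) (nat_lit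 113) (nat_lit 4) (nat_lit 125) (nat_lit 137) (nat_lit 128)) (PT.nd (nat_lit 78) (PT.lf (nat_lit 8512) (nat_lit 6) (nat_lit 112) (nat_lit 4) (nat_lit 126) (nat_lit 137) (nat_lit 127)) (PT.lf (nat_lit 8512) (nat_lit 6) (nat_lit 112) (nat_lit 2) (nat_lit 127) (nat_lit 137) (nat_lit 126)))) (PT.nd (nat_lit 78) (PT.lf (nat_lit 8588) (nat_lit 6) (nat_lit 113) (nat_lit 2) (nat_lit 128) (nat_lit 137) (nat_lit 125)) (PT.nd (nat_lit 78) (PT.lf (nat_lit 8664) (nat_lit 6) (nat_lit 114) (nat_lit 2) (nat_lit 129) (nat_lit 137) (nat_lit 124)) (PT.lf (nat_lit 8740) (nat_lit 6) (nat_lit 115) (nat_lit 2) (nat_lit 130) (nat_lit 137) (nat_lit 123)))))) (PT.nd (nat_lit 468) (PT.nd (nat_lit 234) (PT.nd (nat_lit 78) (PT.lf (nat_lit 8208) (nat_lit 6) (nat_lit 108) (nat_lit 2) (nat_lit 131) (nat_lit 137) (nat_lit 122)) (PT.nd (nat_lit 78) (PT.lf (nat_lit 7600) (nat_lit 6) (nat_lit 100) (nat_lit 2) (nat_lit 132)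 (nat_lit 137) (nat_lit 121)) (PT.lf (nat_lit 6916) (nat_lit 6) (nat_lit 91) (nat_lit 2) (nat_lit 133) (nat_lit 137) (nat_lit 120)))) (PT.nd (nat_lit 78) (PT.lf (nat_lit 6384) (nat_lit 6) (nat_lit 84) (nat_lit 2) (nat_lit 134) (nat_lit 137) (nat_lit 119)) (PT.nd (nat_lit 78) (PT.lf (nat_lit 6004) (nat_lit 6) (nat_lit 79) (nat_lit 2) (nat_lit 135) (nat_lit 137) (nat_lit 118)) (PT.lf (nat_lit 5700) (nat_lit 6) (nat_lit 75) (nat_lit 2) (nat_lit 136) (nat_lit 137) (nat_lit 117))))) (PT.nd (nat_lit 234) (PT.nd (nat_lit 78) (PT.lf (nat_lit 5396) (nat_lit 3) (nat_lit 71) (nat_lit 0) (nat_lit 137) (nat_lit 137) (nat_lit 116)) (PT.nd (nat_lit 78) (PT.lf (nat_lit 5016) (nat_lit 6) (nat_lit 66) (nat_lit 0) (nat_lit 138) (nat_lit 137) (nat_lit 115)) (PT.lf (nat_lit 4636) (nat_lit 6) (nat_lit 61) (nat_lit 0) (nat_lit 139) (nat_lit 137) (nat_lit 114)))) (PT.nd (nat_lit 78) (PT.lf (nat_lit 4332) (nat_lit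 6) (nat_lit 57) (nat_lit 0) (nat_lit 140) (nat_lit 137) (nat_lit 113)) (PT.nd (nat_lit 78) (PT.lf (nat_lit 4028) (nat_lit 6) (nat_lit 53) (nat_lit 0) (nat_lit 141) (nat_lit 137) (nat_lit 112)) (PT.lf (nat_lit 3724) (nat_lit 6) (nat_lit 49) (nat_lit 0) (nat_lit 142) (nat_lit 137) (nat_lit 111))))))) (PT.nd (nat_lit 936) (PT.nd (nat_lit 468) (PT.nd (nat_lit 234) (PT.nd (nat_lit 78) (PT.lf (nat_lit 3268) (nat_lit 6) (nat_lit 43) (nat_lit 5) (nat_lit 109) (nat_lit 138) (nat_lit 143)) (PT.nd (nat_lit 78) (PT.lf (nat_lit 3496) (nat_lit 6) (nat_lit 46) (nat_lit 5) (nat_lit 110) (nat_lit 138) (nat_lit 142)) (PT.lf (nat_lit 3800) (nat_lit 6) (nat_lit 50) (nat_lit 5) (nat_lit 111) (nat_lit 138) (nat_lit 141)))) (PT.nd (nat_lit 78) (PT.lf (nat_lit 4104) (nat_lit 6) (nat_lit 54) (nat_lit 5) (nat_lit 112) (nat_lit 138) (nat_lit 140)) (PT.nd (nat_lit 78) (PT.lf (nat_lit 4408) (nat_lit 6) (nat_lit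 58) (nat_lit 5) (nat_lit 113) (nat_lit 138) (nat_lit 139)) (PT.lf (nat_lit 4712) (nat_lit 3) (nat_lit 62) (nat_lit 4) (nat_lit 114) (nat_lit 138) (nat_lit 138))))) (PT.nd (nat_lit 234) (PT.nd (nat_lit 78) (PT.lf (nat_lit 5016) (nat_lit 6) (nat_lit 66) (nat_lit 4) (nat_lit 115) (nat_lit 138) (nat_lit 137)) (PT.nd (nat_lit 78) (PT.lf (nat_lit 5320) (nat_lit 6) (nat_lit 70) (nat_lit 4) (nat_lit 116) (nat_lit 138) (nat_lit 136)) (PT.lf (nat_lit 5624) (nat_lit 6) (nat_lit 74) (nat_lit 4) (nat_lit 117) (nat_lit 138) (nat_lit 135)))) (PT.nd (nat_lit 78) (PT.lf (nat_lit 5928) (nat_lit 6) (nat_lit 78) (nat_lit 4) (nat_lit 118) (nat_lit 138) (nat_lit 134)) (PT.nd (nat_lit 78) (PT.lf (nat_lit 6308) (nat_lit 6) (nat_lit 83) (nat_lit 4) (nat_lit 119) (nat_lit 138) (nat_lit 133)) (PT.lf (nat_lit 6840) (nat_lit 6) (nat_lit 90) (nat_lit 4) (nat_lit 120) (nat_lit 138) (nat_lit 132)))))) (PT.nd (nat_lit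 468) (PT.nd (nat_lit 234) (PT.nd (nat_lit 78) (PT.lf (nat_lit 7524) (nat_lit 6) (nat_lit 99) (nat_lit 4) (nat_lit 121) (nat_lit 138) (nat_lit 131)) (PT.nd (nat_lit 78) (PT.lf (nat_lit 8132) (nat_lit 6) (nat_lit 107) (nat_lit 4) (nat_lit 122) (nat_lit 138) (nat_lit 130)) (PT.lf (nat_lit 8056) (nat_lit 6) (nat_lit 106) (nat_lit 4) (nat_lit 123) (nat_lit 138) (nat_lit 129)))) (PT.nd (nat_lit 78) (PT.lf (nat_lit 7980) (nat_lit 6) (nat_lit 105) (nat_lit 4) (nat_lit 124) (nat_lit 138) (nat_lit 128)) (PT.nd (nat_lit 78) (PT.lf (nat_lit 7904) (nat_lit 6) (nat_lit 104) (nat_lit 4) (nat_lit 125) (nat_lit 138) (nat_lit 127)) (PT.lf (nat_lit 7828) (nat_lit 3) (nat_lit 103) (nat_lit 2) (nat_lit 126) (nat_lit 138) (nat_lit 126))))) (PT.nd (nat_lit 234) (PT.nd (nat_lit 78) (PT.lf (nat_lit 7904) (nat_lit 6) (nat_lit 104) (nat_lit 2) (nat_lit 127) (nat_lit 138) (nat_lit 125)) (PT.nd (nat_lit 78) (PT.lf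 (nat_lit 7980) (nat_lit 6) (nat_lit 105) (nat_lit 2) (nat_lit 128) (nat_lit 138) (nat_lit 124)) (PT.lf (nat_lit 8056) (nat_lit 6) (nat_lit 106) (nat_lit 2) (nat_lit 129) (nat_lit 138) (nat_lit 123)))) (PT.nd (nat_lit 78) (PT.lf (nat_lit 8132) (nat_lit 6) (nat_lit 107) (nat_lit 2) (nat_lit 130) (nat_lit 138) (nat_lit 122)) (PT.nd (nat_lit 78) (PT.lf (nat_lit 7524) (nat_lit 6) (nat_lit 99) (nat_lit 2) (nat_lit 131) (nat_lit 138) (nat_lit 121)) (PT.lf (nat_lit 6840) (nat_lit 6) (nat_lit 90) (nat_lit 2) (nat_lit 132) (nat_lit 138) (nat_lit 120))))))))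
noncomputable def pc11 : PT := (PT.nd (nat_lit 39702) (PT.nd (nat_lit 38766) (PT.nd (nat_lit 468) (PT.nd (nat_lit 234) (PT.nd (nat_lit 78) (PT.lf (nat_lit 6308) (nat_lit 6) (nat_lit 83) (nat_lit 2) (nat_lit 133) (nat_lit 138) (nat_lit 119)) (PT.nd (nat_lit 78) (PT.lf (nat_lit 5928) (nat_lit 6) (nat_lit 78) (nat_lit 2) (nat_lit 134) (nat_lit 138) (nat_lit 118)) (PT.lf (nat_lit 5624) (nat_lit 6) (nat_lit 74) (nat_lit 2) (nat_lit 135) (nat_lit 138) (nat_lit 117)))) (PT.nd (nat_lit 78) (PT.lf (nat_lit 5320) (nat_lit 6) (nat_lit 70) (nat_lit 2) (nat_lit 136) (nat_lit 138) (nat_lit 116)) (PT.nd (nat_lit 78) (PT.lf (nat_lit 5016) (nat_lit 6) (nat_lit 66) (nat_lit 2) (nat_lit 137) (nat_lit 138) (nat_lit 115)) (PT.lf (nat_lit 4712) (nat_lit 3) (nat_lit 62) (nat_lit 0) (nat_lit 138) (nat_lit 138) (nat_lit 114))))) (PT.nd (nat_lit 234) (PT.nd (nat_lit 78) (PT.lf (nat_lit 4408) (nat_lit 6) (nat_lit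 58) (nat_lit 0) (nat_lit 139) (nat_lit 138) (nat_lit 113)) (PT.nd (nat_lit 78) (PT.lf (nat_lit 4104) (nat_lit 6) (nat_lit 54) (nat_lit 0) (nat_lit 140) (nat_lit 138) (nat_lit 112)) (PT.lf (nat_lit 3800) (nat_lit 6) (nat_lit 50) (nat_lit 0) (nat_lit 141) (nat_lit 138) (nat_lit 111)))) (PT.nd (nat_lit 78) (PT.lf (nat_lit 3496) (nat_lit 6) (nat_lit 46) (nat_lit 0) (nat_lit 142) (nat_lit 138) (nat_lit 110)) (PT.nd (nat_lit 37908) (PT.lf (nat_lit 3268) (nat_lit 6) (nat_lit 43) (nat_lit 0) (nat_lit 143) (nat_lit 138) (nat_lit 109)) (PT.lf (nat_lit 3040) (nat_lit 6) (nat_lit 40) (nat_lit 5) (nat_lit 108) (nat_lit 139) (nat_lit 143)))))) (PT.nd (nat_lit 468) (PT.nd (nat_lit 234) (PT.nd (nat_lit 78) (PT.lf (nat_lit 3344) (nat_lit 6) (nat_lit 44) (nat_lit 5) (nat_lit 109) (nat_lit 139) (nat_lit 142)) (PT.nd (nat_lit 78) (PT.lf (nat_lit 3572) (nat_lit 6) (nat_lit 47) (nat_lit 5) (nat_lit 110) (nat_lit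 139) (nat_lit 141)) (PT.lf (nat_lit 3876) (nat_lit 6) (nat_lit 51) (nat_lit 5) (nat_lit 111) (nat_lit 139) (nat_lit 140)))) (PT.nd (nat_lit 78) (PT.lf (nat_lit 4180) (nat_lit 3) (nat_lit 55) (nat_lit 4) (nat_lit 112) (nat_lit 139) (nat_lit 139)) (PT.nd (nat_lit 78) (PT.lf (nat_lit 4408) (nat_lit 6) (nat_lit 58) (nat_lit 4) (nat_lit 113) (nat_lit 139) (nat_lit 138)) (PT.lf (nat_lit 4636) (nat_lit 6) (nat_lit 61) (nat_lit 4) (nat_lit 114) (nat_lit 139) (nat_lit 137))))) (PT.nd (nat_lit 234) (PT.nd (nat_lit 78) (PT.lf (nat_lit 4940) (nat_lit 6) (nat_lit 65) (nat_lit 4) (nat_lit 115) (nat_lit 139) (nat_lit 136)) (PT.nd (nat_lit 78) (PT.lf (nat_lit 5244) (nat_lit 6) (nat_lit 69) (nat_lit 4) (nat_lit 116) (nat_lit 139) (nat_lit 135)) (PT.lf (nat_lit 5548) (nat_lit 6) (nat_lit 73) (nat_lit 4) (nat_lit 117) (nat_lit 139) (nat_lit 134)))) (PT.nd (nat_lit 78) (PT.lf (nat_lit 5852) (nat_lit 6)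 (nat_lit 77) (nat_lit 4) (nat_lit 118) (nat_lit 139) (nat_lit 133)) (PT.nd (nat_lit 78) (PT.lf (nat_lit 6232) (nat_lit 6) (nat_lit 82) (nat_lit 4) (nat_lit 119) (nat_lit 139) (nat_lit 132)) (PT.lf (nat_lit 6764) (nat_lit 6) (nat_lit 89) (nat_lit 4) (nat_lit 120) (nat_lit 139) (nat_lit 131))))))) (PT.nd (nat_lit 936) (PT.nd (nat_lit 468) (PT.nd (nat_lit 234) (PT.nd (nat_lit 78) (PT.lf (nat_lit 7448) (nat_lit 6) (nat_lit 98) (nat_lit 4) (nat_lit 121) (nat_lit 139) (nat_lit 130)) (PT.nd (nat_lit 78) (PT.lf (nat_lit 7372) (nat_lit 6) (nat_lit 97) (nat_lit 4) (nat_lit 122) (nat_lit 139) (nat_lit 129)) (PT.lf (nat_lit 7296) (nat_lit 6) (nat_lit 96) (nat_lit 4) (nat_lit 123) (nat_lit 139) (nat_lit 128)))) (PT.nd (nat_lit 78) (PT.lf (nat_lit 7220) (nat_lit 6) (nat_lit 95) (nat_lit 4) (nat_lit 124) (nat_lit 139) (nat_lit 127)) (PT.nd (nat_lit 78) (PT.lf (nat_lit 7144) (nat_lit 6) (nat_lit 94)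 (nat_lit 4) (nat_lit 125) (nat_lit 139) (nat_lit 126)) (PT.lf (nat_lit 7144) (nat_lit 6) (nat_lit 94) (nat_lit 2) (nat_lit 126) (nat_lit 139) (nat_lit 125))))) (PT.nd (nat_lit 234) (PT.nd (nat_lit 78) (PT.lf (nat_lit 7220) (nat_lit 6) (nat_lit 95) (nat_lit 2) (nat_lit 127) (nat_lit 139) (nat_lit 124)) (PT.nd (nat_lit 78) (PT.lf (nat_lit 7296) (nat_lit 6) (nat_lit 96) (nat_lit 2) (nat_lit 128) (nat_lit 139) (nat_lit 123)) (PT.lf (nat_lit 7372) (nat_lit 6) (nat_lit 97) (nat_lit 2) (nat_lit 129) (nat_lit 139) (nat_lit 122)))) (PT.nd (nat_lit 78) (PT.lf (nat_lit 7448) (nat_lit 6) (nat_lit 98) (nat_lit 2) (nat_lit 130) (nat_lit 139) (nat_lit 121)) (PT.nd (nat_lit 78) (PT.lf (nat_lit 6764) (nat_lit 6) (nat_lit 89) (nat_lit 2) (nat_lit 131) (nat_lit 139) (nat_lit 120)) (PT.lf (nat_lit 6232) (nat_lit 6) (nat_lit 82) (nat_lit 2) (nat_lit 132) (nat_lit 139) (nat_lit 119)))))) (PT.nd (nat_lit 468)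 (PT.nd (nat_lit 234) (PT.nd (nat_lit 78) (PT.lf (nat_lit 5852) (nat_lit 6) (nat_lit 77) (nat_lit 2) (nat_lit 133) (nat_lit 139) (nat_lit 118)) (PT.nd (nat_lit 78) (PT.lf (nat_lit 5548) (nat_lit 6) (nat_lit 73) (nat_lit 2) (nat_lit 134) (nat_lit 139) (nat_lit 117)) (PT.lf (nat_lit 5244) (nat_lit 6) (nat_lit 69) (nat_lit 2) (nat_lit 135) (nat_lit 139) (nat_lit 116)))) (PT.nd (nat_lit 78) (PT.lf (nat_lit 4940) (nat_lit 6) (nat_lit 65) (nat_lit 2) (nat_lit 136) (nat_lit 139) (nat_lit 115)) (PT.nd (nat_lit 78) (PT.lf (nat_lit 4636) (nat_lit 6) (nat_lit 61) (nat_lit 2) (nat_lit 137) (nat_lit 139) (nat_lit 114)) (PT.lf (nat_lit 4408) (nat_lit 6) (nat_lit 58) (nat_lit 2) (nat_lit 138) (nat_lit 139) (nat_lit 113))))) (PT.nd (nat_lit 234) (PT.nd (nat_lit 78) (PT.lf (nat_lit 4180) (nat_lit 3) (nat_lit 55) (nat_lit 0) (nat_lit 139) (nat_lit 139) (nat_lit 112)) (PT.nd (nat_lit 78) (PT.lf (nat_lit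 3876) (nat_lit 6) (nat_lit 51) (nat_lit 0) (nat_lit 140) (nat_lit 139) (nat_lit 111)) (PT.lf (nat_lit 3572) (nat_lit 6) (nat_lit 47) (nat_lit 0) (nat_lit 141) (nat_lit 139) (nat_lit 110)))) (PT.nd (nat_lit 37830) (PT.nd (nat_lit 78) (PT.lf (nat_lit 3344) (nat_lit 6) (nat_lit 44) (nat_lit 0) (nat_lit 142) (nat_lit 139) (nat_lit 109)) (PT.lf (nat_lit 3040) (nat_lit 6) (nat_lit 40) (nat_lit 0) (nat_lit 143) (nat_lit 139) (nat_lit 108))) (PT.nd (nat_lit 78) (PT.lf (nat_lit 2660) (nat_lit 6) (nat_lit 35) (nat_lit 5) (nat_lit 106) (nat_lit 140) (nat_lit 144)) (PT.lf (nat_lit 2888) (nat_lit 6) (nat_lit 38) (nat_lit 5) (nat_lit 107) (nat_lit 140) (nat_lit 143))))))))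
noncomputable def pc12 : PT := (PT.nd (nat_lit 2262) (PT.nd (nat_lit 936) (PT.nd (nat_lit 468) (PT.nd (nat_lit 234) (PT.nd (nat_lit 78) (PT.lf (nat_lit 3116) (nat_lit 6) (nat_lit 41) (nat_lit 5) (nat_lit 108) (nat_lit 140) (nat_lit 142)) (PT.nd (nat_lit 78) (PT.lf (nat_lit 3420) (nat_lit 6) (nat_lit 45) (nat_lit 5) (nat_lit 109) (nat_lit 140) (nat_lit 141)) (PT.lf (nat_lit 3648) (nat_lit 3) (nat_lit 48) (nat_lit 4) (nat_lit 110) (nat_lit 140) (nat_lit 140)))) (PT.nd (nat_lit 78) (PT.lf (nat_lit 3876) (nat_lit 6) (nat_lit 51) (nat_lit 4) (nat_lit 111) (nat_lit 140) (nat_lit 139)) (PT.nd (nat_lit 78) (PT.lf (nat_lit 4104) (nat_lit 6) (nat_lit 54) (nat_lit 4) (nat_lit 112) (nat_lit 140) (nat_lit 138)) (PT.lf (nat_lit 4332) (nat_lit 6) (nat_lit 57) (nat_lit 4) (nat_lit 113) (nat_lit 140) (nat_lit 137))))) (PT.nd (nat_lit 234) (PT.nd (nat_lit 78) (PT.lf (nat_lit 4560) (nat_lit 6) (nat_lit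 60) (nat_lit 4) (nat_lit 114) (nat_lit 140) (nat_lit 136)) (PT.nd (nat_lit 78) (PT.lf (nat_lit 4864) (nat_lit 6) (nat_lit 64) (nat_lit 4) (nat_lit 115) (nat_lit 140) (nat_lit 135)) (PT.lf (nat_lit 5168) (nat_lit 6) (nat_lit 68) (nat_lit 4) (nat_lit 116) (nat_lit 140) (nat_lit 134)))) (PT.nd (nat_lit 78) (PT.lf (nat_lit 5472) (nat_lit 6) (nat_lit 72) (nat_lit 4) (nat_lit 117) (nat_lit 140) (nat_lit 133)) (PT.nd (nat_lit 78) (PT.lf (nat_lit 5776) (nat_lit 6) (nat_lit 76) (nat_lit 4) (nat_lit 118) (nat_lit 140) (nat_lit 132)) (PT.lf (nat_lit 6156) (nat_lit 6) (nat_lit 81) (nat_lit 4) (nat_lit 119) (nat_lit 140) (nat_lit 131)))))) (PT.nd (nat_lit 858) (PT.nd (nat_lit 624) (PT.nd (nat_lit 78) (PT.lf (nat_lit 6688) (nat_lit 6) (nat_lit 88) (nat_lit 4) (nat_lit 120) (nat_lit 140) (nat_lit 130)) (PT.nd (nat_lit 78) (PT.lf (nat_lit 6612) (nat_lit 6) (nat_lit 87) (nat_lit 4) (nat_lit 121) (nat_lit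 140) (nat_lit 129)) (PT.lf (nat_lit 6536) (nat_lit 6) (nat_lit 86) (nat_lit 4) (nat_lit 122) (nat_lit 140) (nat_lit 128)))) (PT.nd (nat_lit 78) (PT.lf (nat_lit 6536) (nat_lit 6) (nat_lit 86) (nat_lit 2) (nat_lit 128) (nat_lit 140) (nat_lit 122)) (PT.nd (nat_lit 78) (PT.lf (nat_lit 6612) (nat_lit 6) (nat_lit 87) (nat_lit 2) (nat_lit 129) (nat_lit 140) (nat_lit 121)) (PT.lf (nat_lit 6688) (nat_lit 6) (nat_lit 88) (nat_lit 2) (nat_lit 130) (nat_lit 140) (nat_lit 120))))) (PT.nd (nat_lit 234) (PT.nd (nat_lit 78) (PT.lf (nat_lit 6156) (nat_lit 6) (nat_lit 81) (nat_lit 2) (nat_lit 131) (nat_lit 140) (nat_lit 119)) (PT.nd (nat_lit 78) (PT.lf (nat_lit 5776) (nat_lit 6) (nat_lit 76) (nat_lit 2) (nat_lit 132) (nat_lit 140) (nat_lit 118)) (PT.lf (nat_lit 5472) (nat_lit 6) (nat_lit 72) (nat_lit 2) (nat_lit 133) (nat_lit 140) (nat_lit 117)))) (PT.nd (nat_lit 78) (PT.lf (nat_lit 5168) (nat_lit 6)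 (nat_lit 68) (nat_lit 2) (nat_lit 134) (nat_lit 140) (nat_lit 116)) (PT.nd (nat_lit 78) (PT.lf (nat_lit 4864) (nat_lit 6) (nat_lit 64) (nat_lit 2) (nat_lit 135) (nat_lit 140) (nat_lit 115)) (PT.lf (nat_lit 4560) (nat_lit 6) (nat_lit 60) (nat_lit 2) (nat_lit 136) (nat_lit 140) (nat_lit 114))))))) (PT.nd (nat_lit 38376) (PT.nd (nat_lit 468) (PT.nd (nat_lit 234) (PT.nd (nat_lit 78) (PT.lf (nat_lit 4332) (nat_lit 6) (nat_lit 57) (nat_lit 2) (nat_lit 137) (nat_lit 140) (nat_lit 113)) (PT.nd (nat_lit 78) (PT.lf (nat_lit 4104) (nat_lit 6) (nat_lit 54) (nat_lit 2) (nat_lit 138) (nat_lit 140) (nat_lit 112)) (PT.lf (nat_lit 3876) (nat_lit 6) (nat_lit 51) (nat_lit 2) (nat_lit 139) (nat_lit 140) (nat_lit 111)))) (PT.nd (nat_lit 78) (PT.lf (nat_lit 3648) (nat_lit 3) (nat_lit 48) (nat_lit 0) (nat_lit 140) (nat_lit 140) (nat_lit 110)) (PT.nd (nat_lit 78) (PT.lf (nat_lit 3420) (nat_lit 6) (nat_lit 45)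 (nat_lit 0) (nat_lit 141) (nat_lit 140) (nat_lit 109)) (PT.lf (nat_lit 3116) (nat_lit 6) (nat_lit 41) (nat_lit 0) (nat_lit 142) (nat_lit 140) (nat_lit 108))))) (PT.nd (nat_lit 37674) (PT.nd (nat_lit 78) (PT.lf (nat_lit 2888) (nat_lit 6) (nat_lit 38) (nat_lit 0) (nat_lit 143) (nat_lit 140) (nat_lit 107)) (PT.nd (nat_lit 37518) (PT.lf (nat_lit 2660) (nat_lit 6) (nat_lit 35) (nat_lit 0) (nat_lit 144) (nat_lit 140) (nat_lit 106)) (PT.lf (nat_lit 2280) (nat_lit 6) (nat_lit 30) (nat_lit 5) (nat_lit 104) (nat_lit 141) (nat_lit 145)))) (PT.nd (nat_lit 78) (PT.lf (nat_lit 2508) (nat_lit 6) (nat_lit 33) (nat_lit 5) (nat_lit 105) (nat_lit 141) (nat_lit 144)) (PT.nd (nat_lit 78) (PT.lf (nat_lit 2736) (nat_lit 6) (nat_lit 36) (nat_lit 5) (nat_lit 106) (nat_lit 141) (nat_lit 143)) (PT.lf (nat_lit 2964) (nat_lit 6) (nat_lit 39) (nat_lit 5) (nat_lit 107) (nat_lit 141) (nat_lit 142)))))) (PT.nd (nat_lit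 468) (PT.nd (nat_lit 234) (PT.nd (nat_lit 78) (PT.lf (nat_lit 3192) (nat_lit 3) (nat_lit 42) (nat_lit 4) (nat_lit 108) (nat_lit 141) (nat_lit 141)) (PT.nd (nat_lit 78) (PT.lf (nat_lit 3420) (nat_lit 6) (nat_lit 45) (nat_lit 4) (nat_lit 109) (nat_lit 141) (nat_lit 140)) (PT.lf (nat_lit 3572) (nat_lit 6) (nat_lit 47) (nat_lit 4) (nat_lit 110) (nat_lit 141) (nat_lit 139)))) (PT.nd (nat_lit 78) (PT.lf (nat_lit 3800) (nat_lit 6) (nat_lit 50) (nat_lit 4) (nat_lit 111) (nat_lit 141) (nat_lit 138)) (PT.nd (nat_lit 78) (PT.lf (nat_lit 4028) (nat_lit 6) (nat_lit 53) (nat_lit 4) (nat_lit 112) (nat_lit 141) (nat_lit 137)) (PT.lf (nat_lit 4256) (nat_lit 6) (nat_lit 56) (nat_lit 4) (nat_lit 113) (nat_lit 141) (nat_lit 136))))) (PT.nd (nat_lit 1482) (PT.nd (nat_lit 78) (PT.lf (nat_lit 4484) (nat_lit 6) (nat_lit 59) (nat_lit 4) (nat_lit 114) (nat_lit 141) (nat_lit 135)) (PT.nd (nat_lit 78) (PT.lf (nat_lit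 4788) (nat_lit 6) (nat_lit 63) (nat_lit 4) (nat_lit 115) (nat_lit 141) (nat_lit 134)) (PT.lf (nat_lit 5092) (nat_lit 6) (nat_lit 67) (nat_lit 4) (nat_lit 116) (nat_lit 141) (nat_lit 133)))) (PT.nd (nat_lit 78) (PT.lf (nat_lit 5092) (nat_lit 6) (nat_lit 67) (nat_lit 2) (nat_lit 133) (nat_lit 141) (nat_lit 116)) (PT.nd (nat_lit 78) (PT.lf (nat_lit 4788) (nat_lit 6) (nat_lit 63) (nat_lit 2) (nat_lit 134) (nat_lit 141) (nat_lit 115)) (PT.lf (nat_lit 4484) (nat_lit 6) (nat_lit 59) (nat_lit 2) (nat_lit 135) (nat_lit 141) (nat_lit 114))))))))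
noncomputable def pc13 : PT := (PT.nd (nat_lit 40950) (PT.nd (nat_lit 38220) (PT.nd (nat_lit 468) (PT.nd (nat_lit 234) (PT.nd (nat_lit 78) (PT.lf (nat_lit 4256) (nat_lit 6) (nat_lit 56) (nat_lit 2) (nat_lit 136) (nat_lit 141) (nat_lit 113)) (PT.nd (nat_lit 78) (PT.lf (nat_lit 4028) (nat_lit 6) (nat_lit 53) (nat_lit 2) (nat_lit 137) (nat_lit 141) (nat_lit 112)) (PT.lf (nat_lit 3800) (nat_lit 6) (nat_lit 50) (nat_lit 2) (nat_lit 138) (nat_lit 141) (nat_lit 111)))) (PT.nd (nat_lit 78) (PT.lf (nat_lit 3572) (nat_lit 6) (nat_lit 47) (nat_lit 2) (nat_lit 139) (nat_lit 141) (nat_lit 110)) (PT.nd (nat_lit 78) (PT.lf (nat_lit 3420) (nat_lit 6) (nat_lit 45) (nat_lit 2) (nat_lit 140) (nat_lit 141) (nat_lit 109)) (PT.lf (nat_lit 3192) (nat_lit 3) (nat_lit 42) (nat_lit 0) (nat_lit 141) (nat_lit 141) (nat_lit 108))))) (PT.nd (nat_lit 234) (PT.nd (nat_lit 78) (PT.lf (nat_lit 2964) (nat_lit 6) (nat_lit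 39) (nat_lit 0) (nat_lit 142) (nat_lit 141) (nat_lit 107)) (PT.nd (nat_lit 78) (PT.lf (nat_lit 2736) (nat_lit 6) (nat_lit 36) (nat_lit 0) (nat_lit 143) (nat_lit 141) (nat_lit 106)) (PT.lf (nat_lit 2508) (nat_lit 6) (nat_lit 33) (nat_lit 0) (nat_lit 144) (nat_lit 141) (nat_lit 105)))) (PT.nd (nat_lit 37362) (PT.lf (nat_lit 2280) (nat_lit 6) (nat_lit 30) (nat_lit 0) (nat_lit 145) (nat_lit 141) (nat_lit 104)) (PT.nd (nat_lit 78) (PT.lf (nat_lit 2128) (nat_lit 6) (nat_lit 28) (nat_lit 5) (nat_lit 103) (nat_lit 142) (nat_lit 145)) (PT.lf (nat_lit 2356) (nat_lit 6) (nat_lit 31) (nat_lit 5) (nat_lit 104) (nat_lit 142) (nat_lit 144)))))) (PT.nd (nat_lit 468) (PT.nd (nat_lit 234) (PT.nd (nat_lit 78) (PT.lf (nat_lit 2584) (nat_lit 6) (nat_lit 34) (nat_lit 5) (nat_lit 105) (nat_lit 142) (nat_lit 143)) (PT.nd (nat_lit 78) (PT.lf (nat_lit 2812) (nat_lit 3) (nat_lit 37) (nat_lit 4) (nat_lit 106) (nat_lit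 142) (nat_lit 142)) (PT.lf (nat_lit 2964) (nat_lit 6) (nat_lit 39) (nat_lit 4) (nat_lit 107) (nat_lit 142) (nat_lit 141)))) (PT.nd (nat_lit 78) (PT.lf (nat_lit 3116) (nat_lit 6) (nat_lit 41) (nat_lit 4) (nat_lit 108) (nat_lit 142) (nat_lit 140)) (PT.nd (nat_lit 78) (PT.lf (nat_lit 3344) (nat_lit 6) (nat_lit 44) (nat_lit 4) (nat_lit 109) (nat_lit 142) (nat_lit 139)) (PT.lf (nat_lit 3496) (nat_lit 6) (nat_lit 46) (nat_lit 4) (nat_lit 110) (nat_lit 142) (nat_lit 138))))) (PT.nd (nat_lit 2028) (PT.nd (nat_lit 78) (PT.lf (nat_lit 3724) (nat_lit 6) (nat_lit 49) (nat_lit 4) (nat_lit 111) (nat_lit 142) (nat_lit 137)) (PT.nd (nat_lit 1872) (PT.lf (nat_lit 3952) (nat_lit 6) (nat_lit 52) (nat_lit 4) (nat_lit 112) (nat_lit 142) (nat_lit 136)) (PT.lf (nat_lit 3952) (nat_lit 6) (nat_lit 52) (nat_lit 2) (nat_lit 136) (nat_lit 142) (nat_lit 112)))) (PT.nd (nat_lit 78) (PT.lf (nat_lit 3724) (nat_lit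 6) (nat_lit 49) (nat_lit 2) (nat_lit 137) (nat_lit 142) (nat_lit 111)) (PT.nd (nat_lit 78) (PT.lf (nat_lit 3496) (nat_lit 6) (nat_lit 46) (nat_lit 2) (nat_lit 138) (nat_lit 142) (nat_lit 110)) (PT.lf (nat_lit 3344) (nat_lit 6) (nat_lit 44) (nat_lit 2) (nat_lit 139) (nat_lit 142) (nat_lit 109))))))) (PT.nd (nat_lit 38064) (PT.nd (nat_lit 37596) (PT.nd (nat_lit 234) (PT.nd (nat_lit 78) (PT.lf (nat_lit 3116) (nat_lit 6) (nat_lit 41) (nat_lit 2) (nat_lit 140) (nat_lit 142) (nat_lit 108)) (PT.nd (nat_lit 78) (PT.lf (nat_lit 2964) (nat_lit 6) (nat_lit 39) (nat_lit 2) (nat_lit 141) (nat_lit 142) (nat_lit 107)) (PT.lf (nat_lit 2812) (nat_lit 3) (nat_lit 37) (nat_lit 0) (nat_lit 142) (nat_lit 142) (nat_lit 106)))) (PT.nd (nat_lit 78) (PT.lf (nat_lit 2584) (nat_lit 6) (nat_lit 34) (nat_lit 0) (nat_lit 143) (nat_lit 142) (nat_lit 105)) (PT.nd (nat_lit 78) (PT.lf (nat_lit 2356) (nat_lit 6) (nat_lit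 31) (nat_lit 0) (nat_lit 144) (nat_lit 142) (nat_lit 104)) (PT.lf (nat_lit 2128) (nat_lit 6) (nat_lit 28) (nat_lit 0) (nat_lit 145) (nat_lit 142) (nat_lit 103))))) (PT.nd (nat_lit 234) (PT.nd (nat_lit 78) (PT.lf (nat_lit 1824) (nat_lit 6) (nat_lit 24) (nat_lit 5) (nat_lit 101) (nat_lit 143) (nat_lit 146)) (PT.nd (nat_lit 78) (PT.lf (nat_lit 1976) (nat_lit 6) (nat_lit 26) (nat_lit 5) (nat_lit 102) (nat_lit 143) (nat_lit 145)) (PT.lf (nat_lit 2204) (nat_lit 6) (nat_lit 29) (nat_lit 5) (nat_lit 103) (nat_lit 143) (nat_lit 144)))) (PT.nd (nat_lit 78) (PT.lf (nat_lit 2432) (nat_lit 3) (nat_lit 32) (nat_lit 4) (nat_lit 104) (nat_lit 143) (nat_lit 143)) (PT.nd (nat_lit 78) (PT.lf (nat_lit 2584) (nat_lit 6) (nat_lit 34) (nat_lit 4) (nat_lit 105) (nat_lit 143) (nat_lit 142)) (PT.lf (nat_lit 2736) (nat_lit 6) (nat_lit 36) (nat_lit 4) (nat_lit 106) (nat_lit 143) (nat_lit 141)))))) (PT.nd (nat_lit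 2652) (PT.nd (nat_lit 2418) (PT.nd (nat_lit 78) (PT.lf (nat_lit 2888) (nat_lit 6) (nat_lit 38) (nat_lit 4) (nat_lit 107) (nat_lit 143) (nat_lit 140)) (PT.nd (nat_lit 78) (PT.lf (nat_lit 3040) (nat_lit 6) (nat_lit 40) (nat_lit 4) (nat_lit 108) (nat_lit 143) (nat_lit 139)) (PT.lf (nat_lit 3268) (nat_lit 6) (nat_lit 43) (nat_lit 4) (nat_lit 109) (nat_lit 143) (nat_lit 138)))) (PT.nd (nat_lit 78) (PT.lf (nat_lit 3268) (nat_lit 6) (nat_lit 43) (nat_lit 2) (nat_lit 138) (nat_lit 143) (nat_lit 109)) (PT.nd (nat_lit 78) (PT.lf (nat_lit 3040) (nat_lit 6) (nat_lit 40) (nat_lit 2) (nat_lit 139) (nat_lit 143) (nat_lit 108)) (PT.lf (nat_lit 2888) (nat_lit 6) (nat_lit 38) (nat_lit 2) (nat_lit 140) (nat_lit 143) (nat_lit 107))))) (PT.nd (nat_lit 234) (PT.nd (nat_lit 78) (PT.lf (nat_lit 2736) (nat_lit 6) (nat_lit 36) (nat_lit 2) (nat_lit 141) (nat_lit 143) (nat_lit 106)) (PT.nd (nat_lit 78) (PT.lf (nat_lit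 2584) (nat_lit 6) (nat_lit 34) (nat_lit 2) (nat_lit 142) (nat_lit 143) (nat_lit 105)) (PT.lf (nat_lit 2432) (nat_lit 3) (nat_lit 32) (nat_lit 0) (nat_lit 143) (nat_lit 143) (nat_lit 104)))) (PT.nd (nat_lit 156) (PT.nd (nat_lit 78) (PT.lf (nat_lit 2204) (nat_lit 6) (nat_lit 29) (nat_lit 0) (nat_lit 144) (nat_lit 143) (nat_lit 103)) (PT.lf (nat_lit 1976) (nat_lit 6) (nat_lit 26) (nat_lit 0) (nat_lit 145) (nat_lit 143) (nat_lit 102))) (PT.nd (nat_lit 36972) (PT.lf (nat_lit 1824) (nat_lit 6) (nat_lit 24) (nat_lit 0) (nat_lit 146) (nat_lit 143) (nat_lit 101)) (PT.lf (nat_lit 1520) (nat_lit 6) (nat_lit 20) (nat_lit 5) (nat_lit 99) (nat_lit 144) (nat_lit 147))))))))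
noncomputable def pc14 : PT := (PT.nd (nat_lit 43992) (PT.nd (nat_lit 3510) (PT.nd (nat_lit 468) (PT.nd (nat_lit 234) (PT.nd (nat_lit 78) (PT.lf (nat_lit 1672) (nat_lit 6) (nat_lit 22) (nat_lit 5) (nat_lit 100) (nat_lit 144) (nat_lit 146)) (PT.nd (nat_lit 78) (PT.lf (nat_lit 1900) (nat_lit 6) (nat_lit 25) (nat_lit 5) (nat_lit 101) (nat_lit 144) (nat_lit 145)) (PT.lf (nat_lit 2052) (nat_lit 3) (nat_lit 27) (nat_lit 4) (nat_lit 102) (nat_lit 144) (nat_lit 144)))) (PT.nd (nat_lit 78) (PT.lf (nat_lit 2204) (nat_lit 6) (nat_lit 29) (nat_lit 4) (nat_lit 103) (nat_lit 144) (nat_lit 143)) (PT.nd (nat_lit 78) (PT.lf (nat_lit 2356) (nat_lit 6) (nat_lit 31) (nat_lit 4) (nat_lit 104) (nat_lit 144) (nat_lit 142)) (PT.lf (nat_lit 2508) (nat_lit 6) (nat_lit 33) (nat_lit 4) (nat_lit 105) (nat_lit 144) (nat_lit 141))))) (PT.nd (nat_lit 2808) (PT.nd (nat_lit 2652) (PT.lf (nat_lit 2660) (nat_lit 6) (nat_lit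 35) (nat_lit 4) (nat_lit 106) (nat_lit 144) (nat_lit 140)) (PT.nd (nat_lit 78) (PT.lf (nat_lit 2660) (nat_lit 6) (nat_lit 35) (nat_lit 2) (nat_lit 140) (nat_lit 144) (nat_lit 106)) (PT.lf (nat_lit 2508) (nat_lit 6) (nat_lit 33) (nat_lit 2) (nat_lit 141) (nat_lit 144) (nat_lit 105)))) (PT.nd (nat_lit 78) (PT.lf (nat_lit 2356) (nat_lit 6) (nat_lit 31) (nat_lit 2) (nat_lit 142) (nat_lit 144) (nat_lit 104)) (PT.nd (nat_lit 78) (PT.lf (nat_lit 2204) (nat_lit 6) (nat_lit 29) (nat_lit 2) (nat_lit 143) (nat_lit 144) (nat_lit 103)) (PT.lf (nat_lit 2052) (nat_lit 3) (nat_lit 27) (nat_lit 0) (nat_lit 144) (nat_lit 144) (nat_lit 102)))))) (PT.nd (nat_lit 37206) (PT.nd (nat_lit 36972) (PT.nd (nat_lit 78) (PT.lf (nat_lit 1900) (nat_lit 6) (nat_lit 25) (nat_lit 0) (nat_lit 145) (nat_lit 144) (nat_lit 101)) (PT.nd (nat_lit 78) (PT.lf (nat_lit 1672) (nat_lit 6) (nat_lit 22) (nat_lit 0) (nat_lit 146)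 (nat_lit 144) (nat_lit 100)) (PT.lf (nat_lit 1520) (nat_lit 6) (nat_lit 20) (nat_lit 0) (nat_lit 147) (nat_lit 144) (nat_lit 99)))) (PT.nd (nat_lit 78) (PT.lf (nat_lit 1368) (nat_lit 6) (nat_lit 18) (nat_lit 5) (nat_lit 98) (nat_lit 145) (nat_lit 147)) (PT.nd (nat_lit 78) (PT.lf (nat_lit 1596) (nat_lit 6) (nat_lit 21) (nat_lit 5) (nat_lit 99) (nat_lit 145) (nat_lit 146)) (PT.lf (nat_lit 1748) (nat_lit 3) (nat_lit 23) (nat_lit 4) (nat_lit 100) (nat_lit 145) (nat_lit 145))))) (PT.nd (nat_lit 234) (PT.nd (nat_lit 78) (PT.lf (nat_lit 1900) (nat_lit 6) (nat_lit 25) (nat_lit 4) (nat_lit 101) (nat_lit 145) (nat_lit 144)) (PT.nd (nat_lit 78) (PT.lf (nat_lit 1976) (nat_lit 6) (nat_lit 26) (nat_lit 4) (nat_lit 102) (nat_lit 145) (nat_lit 143)) (PT.lf (nat_lit 2128) (nat_lit 6) (nat_lit 28) (nat_lit 4) (nat_lit 103) (nat_lit 145) (nat_lit 142)))) (PT.nd (nat_lit 2886) (PT.lf (nat_lit 2280) (nat_lit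 6) (nat_lit 30) (nat_lit 4) (nat_lit 104) (nat_lit 145) (nat_lit 141)) (PT.nd (nat_lit 78) (PT.lf (nat_lit 2280) (nat_lit 6) (nat_lit 30) (nat_lit 2) (nat_lit 141) (nat_lit 145) (nat_lit 104)) (PT.lf (nat_lit 2128) (nat_lit 6) (nat_lit 28) (nat_lit 2) (nat_lit 142) (nat_lit 145) (nat_lit 103))))))) (PT.nd (nat_lit 40716) (PT.nd (nat_lit 37050) (PT.nd (nat_lit 234) (PT.nd (nat_lit 78) (PT.lf (nat_lit 1976) (nat_lit 6) (nat_lit 26) (nat_lit 2) (nat_lit 143) (nat_lit 145) (nat_lit 102)) (PT.nd (nat_lit 78) (PT.lf (nat_lit 1900) (nat_lit 6) (nat_lit 25) (nat_lit 2) (nat_lit 144) (nat_lit 145) (nat_lit 101)) (PT.lf (nat_lit 1748) (nat_lit 3) (nat_lit 23) (nat_lit 0) (nat_lit 145) (nat_lit 145) (nat_lit 100)))) (PT.nd (nat_lit 78) (PT.lf (nat_lit 1596) (nat_lit 6) (nat_lit 21) (nat_lit 0) (nat_lit 146) (nat_lit 145) (nat_lit 99)) (PT.nd (nat_lit 36660) (PT.lf (nat_lit 1368) (nat_lit 6) (nat_lit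 18) (nat_lit 0) (nat_lit 147) (nat_lit 145) (nat_lit 98)) (PT.lf (nat_lit 1140) (nat_lit 6) (nat_lit 15) (nat_lit 5) (nat_lit 96) (nat_lit 146) (nat_lit 148))))) (PT.nd (nat_lit 234) (PT.nd (nat_lit 78) (PT.lf (nat_lit 1292) (nat_lit 6) (nat_lit 17) (nat_lit 5) (nat_lit 97) (nat_lit 146) (nat_lit 147)) (PT.nd (nat_lit 78) (PT.lf (nat_lit 1444) (nat_lit 3) (nat_lit 19) (nat_lit 4) (nat_lit 98) (nat_lit 146) (nat_lit 146)) (PT.lf (nat_lit 1596) (nat_lit 6) (nat_lit 21) (nat_lit 4) (nat_lit 99) (nat_lit 146) (nat_lit 145)))) (PT.nd (nat_lit 78) (PT.lf (nat_lit 1672) (nat_lit 6) (nat_lit 22) (nat_lit 4) (nat_lit 100) (nat_lit 146) (nat_lit 144)) (PT.nd (nat_lit 3276) (PT.lf (nat_lit 1824) (nat_lit 6) (nat_lit 24) (nat_lit 4) (nat_lit 101) (nat_lit 146) (nat_lit 143)) (PT.lf (nat_lit 1824) (nat_lit 6) (nat_lit 24) (nat_lit 2) (nat_lit 143) (nat_lit 146) (nat_lit 101)))))) (PT.nd (nat_lit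 36816) (PT.nd (nat_lit 234) (PT.nd (nat_lit 78) (PT.lf (nat_lit 1672) (nat_lit 6) (nat_lit 22) (nat_lit 2) (nat_lit 144) (nat_lit 146) (nat_lit 100)) (PT.nd (nat_lit 78) (PT.lf (nat_lit 1596) (nat_lit 6) (nat_lit 21) (nat_lit 2) (nat_lit 145) (nat_lit 146) (nat_lit 99)) (PT.lf (nat_lit 1444) (nat_lit 3) (nat_lit 19) (nat_lit 0) (nat_lit 146) (nat_lit 146) (nat_lit 98)))) (PT.nd (nat_lit 78) (PT.lf (nat_lit 1292) (nat_lit 6) (nat_lit 17) (nat_lit 0) (nat_lit 147) (nat_lit 146) (nat_lit 97)) (PT.nd (nat_lit 36426) (PT.lf (nat_lit 1140) (nat_lit 6) (nat_lit 15) (nat_lit 0) (nat_lit 148) (nat_lit 146) (nat_lit 96)) (PT.lf (nat_lit 912) (nat_lit 6) (nat_lit 12) (nat_lit 5) (nat_lit 94) (nat_lit 147) (nat_lit 149))))) (PT.nd (nat_lit 234) (PT.nd (nat_lit 78) (PT.lf (nat_lit 1064) (nat_lit 6) (nat_lit 14) (nat_lit 5) (nat_lit 95) (nat_lit 147) (nat_lit 148)) (PT.nd (nat_lit 78) (PT.lf (nat_lit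 1216) (nat_lit 3) (nat_lit 16) (nat_lit 4) (nat_lit 96) (nat_lit 147) (nat_lit 147)) (PT.lf (nat_lit 1292) (nat_lit 6) (nat_lit 17) (nat_lit 4) (nat_lit 97) (nat_lit 147) (nat_lit 146)))) (PT.nd (nat_lit 78) (PT.lf (nat_lit 1368) (nat_lit 6) (nat_lit 18) (nat_lit 4) (nat_lit 98) (nat_lit 147) (nat_lit 145)) (PT.nd (nat_lit 3510) (PT.lf (nat_lit 1520) (nat_lit 6) (nat_lit 20) (nat_lit 4) (nat_lit 99) (nat_lit 147) (nat_lit 144)) (PT.lf (nat_lit 1520) (nat_lit 6) (nat_lit 20) (nat_lit 2) (nat_lit 144) (nat_lit 147) (nat_lit 99))))))))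
noncomputable def pc15 : PT := (PT.nd (nat_lit 81744) (PT.nd (nat_lit 40872) (PT.nd (nat_lit 36582) (PT.nd (nat_lit 234) (PT.nd (nat_lit 78) (PT.lf (nat_lit 1368) (nat_lit 6) (nat_lit 18) (nat_lit 2) (nat_lit 145) (nat_lit 147) (nat_lit 98)) (PT.nd (nat_lit 78) (PT.lf (nat_lit 1292) (nat_lit 6) (nat_lit 17) (nat_lit 2) (nat_lit 146) (nat_lit 147) (nat_lit 97)) (PT.lf (nat_lit 1216) (nat_lit 3) (nat_lit 16) (nat_lit 0) (nat_lit 147) (nat_lit 147) (nat_lit 96)))) (PT.nd (nat_lit 78) (PT.lf (nat_lit 1064) (nat_lit 6) (nat_lit 14) (nat_lit 0) (nat_lit 148) (nat_lit 147) (nat_lit 95)) (PT.nd (nat_lit 36192) (PT.lf (nat_lit 912) (nat_lit 6) (nat_lit 12) (nat_lit 0) (nat_lit 149) (nat_lit 147) (nat_lit 94)) (PT.lf (nat_lit 684) (nat_lit 6) (nat_lit 9) (nat_lit 5) (nat_lit 92) (nat_lit 148) (nat_lit 150))))) (PT.nd (nat_lit 234) (PT.nd (nat_lit 78) (PT.lf (nat_lit 836) (nat_lit 6) (nat_lit 11)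 (nat_lit 5) (nat_lit 93) (nat_lit 148) (nat_lit 149)) (PT.nd (nat_lit 78) (PT.lf (nat_lit 988) (nat_lit 3) (nat_lit 13) (nat_lit 4) (nat_lit 94) (nat_lit 148) (nat_lit 148)) (PT.lf (nat_lit 1064) (nat_lit 6) (nat_lit 14) (nat_lit 4) (nat_lit 95) (nat_lit 148) (nat_lit 147)))) (PT.nd (nat_lit 3900) (PT.lf (nat_lit 1140) (nat_lit 6) (nat_lit 15) (nat_lit 4) (nat_lit 96) (nat_lit 148) (nat_lit 146)) (PT.nd (nat_lit 78) (PT.lf (nat_lit 1140) (nat_lit 6) (nat_lit 15) (nat_lit 2) (nat_lit 146) (nat_lit 148) (nat_lit 96)) (PT.lf (nat_lit 1064) (nat_lit 6) (nat_lit 14) (nat_lit 2) (nat_lit 147) (nat_lit 148) (nat_lit 95)))))) (PT.nd (nat_lit 36348) (PT.nd (nat_lit 36114) (PT.nd (nat_lit 78) (PT.lf (nat_lit 988) (nat_lit 3) (nat_lit 13) (nat_lit 0) (nat_lit 148) (nat_lit 148) (nat_lit 94)) (PT.nd (nat_lit 78) (PT.lf (nat_lit 836) (nat_lit 6) (nat_lit 11) (nat_lit 0) (nat_lit 149) (nat_lit 148)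 (nat_lit 93)) (PT.lf (nat_lit 684) (nat_lit 6) (nat_lit 9) (nat_lit 0) (nat_lit 150) (nat_lit 148) (nat_lit 92)))) (PT.nd (nat_lit 78) (PT.lf (nat_lit 456) (nat_lit 6) (nat_lit 6) (nat_lit 5) (nat_lit 90) (nat_lit 149) (nat_lit 151)) (PT.nd (nat_lit 78) (PT.lf (nat_lit 608) (nat_lit 6) (nat_lit 8) (nat_lit 5) (nat_lit 91) (nat_lit 149) (nat_lit 150)) (PT.lf (nat_lit 760) (nat_lit 3) (nat_lit 10) (nat_lit 4) (nat_lit 92) (nat_lit 149) (nat_lit 149))))) (PT.nd (nat_lit 4290) (PT.nd (nat_lit 78) (PT.lf (nat_lit 836) (nat_lit 6) (nat_lit 11) (nat_lit 4) (nat_lit 93) (nat_lit 149) (nat_lit 148)) (PT.nd (nat_lit 4134) (PT.lf (nat_lit 912) (nat_lit 6) (nat_lit 12) (nat_lit 4) (nat_lit 94) (nat_lit 149) (nat_lit 147)) (PT.lf (nat_lit 912) (nat_lit 6) (nat_lit 12) (nat_lit 2) (nat_lit 147) (nat_lit 149) (nat_lit 94)))) (PT.nd (nat_lit 78) (PT.lf (nat_lit 836) (nat_lit 6) (nat_lit 11) (nat_lit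 2) (nat_lit 148) (nat_lit 149) (nat_lit 93)) (PT.nd (nat_lit 78) (PT.lf (nat_lit 760) (nat_lit 3) (nat_lit 10) (nat_lit 0) (nat_lit 149) (nat_lit 149) (nat_lit 92)) (PT.lf (nat_lit 608) (nat_lit 6) (nat_lit 8) (nat_lit 0) (nat_lit 150) (nat_lit 149) (nat_lit 91))))))) (PT.nd (nat_lit 76362) (PT.nd (nat_lit 40404) (PT.nd (nat_lit 35880) (PT.nd (nat_lit 35724) (PT.lf (nat_lit 456) (nat_lit 6) (nat_lit 6) (nat_lit 0) (nat_lit 151) (nat_lit 149) (nat_lit 90)) (PT.nd (nat_lit 78) (PT.lf (nat_lit 228) (nat_lit 6) (nat_lit 3) (nat_lit 5) (nat_lit 88) (nat_lit 150) (nat_lit 152)) (PT.lf (nat_lit 380) (nat_lit 6) (nat_lit 5) (nat_lit 5) (nat_lit 89) (nat_lit 150) (nat_lit 151)))) (PT.nd (nat_lit 78) (PT.lf (nat_lit 532) (nat_lit 3) (nat_lit 7) (nat_lit 4) (nat_lit 90) (nat_lit 150) (nat_lit 150)) (PT.nd (nat_lit 78) (PT.lf (nat_lit 608) (nat_lit 6) (nat_lit 8) (nat_lit 4) (nat_lit 91) (nat_lit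 150) (nat_lit 149)) (PT.lf (nat_lit 684) (nat_lit 6) (nat_lit 9) (nat_lit 4) (nat_lit 92) (nat_lit 150) (nat_lit 148))))) (PT.nd (nat_lit 234) (PT.nd (nat_lit 78) (PT.lf (nat_lit 684) (nat_lit 6) (nat_lit 9) (nat_lit 2) (nat_lit 148) (nat_lit 150) (nat_lit 92)) (PT.nd (nat_lit 78) (PT.lf (nat_lit 608) (nat_lit 6) (nat_lit 8) (nat_lit 2) (nat_lit 149) (nat_lit 150) (nat_lit 91)) (PT.lf (nat_lit 532) (nat_lit 3) (nat_lit 7) (nat_lit 0) (nat_lit 150) (nat_lit 150) (nat_lit 90)))) (PT.nd (nat_lit 78) (PT.lf (nat_lit 380) (nat_lit 6) (nat_lit 5) (nat_lit 0) (nat_lit 151) (nat_lit 150) (nat_lit 89)) (PT.nd (nat_lit 35568) (PT.lf (nat_lit 228) (nat_lit 6) (nat_lit 3) (nat_lit 0) (nat_lit 152) (nat_lit 150) (nat_lit 88)) (PT.lf (nat_lit 152) (nat_lit 6) (nat_lit 2) (nat_lit 5) (nat_lit 87) (nat_lit 151) (nat_lit 152)))))) (PT.nd (nat_lit 4992) (PT.nd (nat_lit 4758) (PT.nd (nat_lit 78) (PT.lf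 (nat_lit 304) (nat_lit 3) (nat_lit 4) (nat_lit 4) (nat_lit 88) (nat_lit 151) (nat_lit 151)) (PT.nd (nat_lit 78) (PT.lf (nat_lit 380) (nat_lit 6) (nat_lit 5) (nat_lit 4) (nat_lit 89) (nat_lit 151) (nat_lit 150)) (PT.lf (nat_lit 456) (nat_lit 6) (nat_lit 6) (nat_lit 4) (nat_lit 90) (nat_lit 151) (nat_lit 149)))) (PT.nd (nat_lit 78) (PT.lf (nat_lit 456) (nat_lit 6) (nat_lit 6) (nat_lit 2) (nat_lit 149) (nat_lit 151) (nat_lit 90)) (PT.nd (nat_lit 78) (PT.lf (nat_lit 380) (nat_lit 6) (nat_lit 5) (nat_lit 2) (nat_lit 150) (nat_lit 151) (nat_lit 89)) (PT.lf (nat_lit 304) (nat_lit 3) (nat_lit 4) (nat_lit 0) (nat_lit 151) (nat_lit 151) (nat_lit 88))))) (PT.nd (nat_lit 35646) (PT.nd (nat_lit 35490) (PT.lf (nat_lit 152) (nat_lit 6) (nat_lit 2) (nat_lit 0) (nat_lit 152) (nat_lit 151) (nat_lit 87)) (PT.nd (nat_lit 78) (PT.lf (nat_lit 76) (nat_lit 3) (nat_lit 1) (nat_lit 4) (nat_lit 86) (nat_lit 152)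 (nat_lit 152)) (PT.lf (nat_lit 152) (nat_lit 6) (nat_lit 2) (nat_lit 4) (nat_lit 87) (nat_lit 152) (nat_lit 151)))) (PT.nd (nat_lit 4914) (PT.nd (nat_lit 4836) (PT.lf (nat_lit 228) (nat_lit 6) (nat_lit 3) (nat_lit 4) (nat_lit 88) (nat_lit 152) (nat_lit 150)) (PT.lf (nat_lit 228) (nat_lit 6) (nat_lit 3) (nat_lit 2) (nat_lit 150) (nat_lit 152) (nat_lit 88))) (PT.nd (nat_lit 78) (PT.lf (nat_lit 152) (nat_lit 6) (nat_lit 2) (nat_lit 2) (nat_lit 151) (nat_lit 152) (nat_lit 87)) (PT.lf (nat_lit 76) (nat_lit 3) (nat_lit 1) (nat_lit 0) (nat_lit 152) (nat_lit 152) (nat_lit 86))))))))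
noncomputable def xc0 : XT := (XT.nd (nat_lit 162240) (nat_lit 0) (nat_lit 0) (XT.nd (nat_lit 121524) (nat_lit 0) (nat_lit 0) (XT.nd (nat_lit 81042) (nat_lit 0) (nat_lit 0) (XT.nd (nat_lit 40560) (nat_lit 0) (nat_lit 0) (XT.nd (nat_lit 40482) (nat_lit 0) (nat_lit 0) (XT.lf (nat_lit 0) (nat_lit 80936437887) (nat_lit 76) (nat_lit 149347016777) (nat_lit 76) (nat_lit 149347016777) (nat_lit 1) (nat_lit 4) (nat_lit 2) (nat_lit 5) (nat_lit 2) (nat_lit 4) (nat_lit 394) (nat_lit 193) (nat_lit 193)) (XT.lf (nat_lit 0) (nat_lit 71513144173) (nat_lit 76) (nat_lit 136436161422) (nat_lit 76) (nat_lit 136436161422) (nat_lit 1) (nat_lit 4) (nat_lit 2) (nat_lit 5) (nat_lit 2) (nat_lit 4) (nat_lit 392) (nat_lit 194) (nat_lit 194))) (XT.nd (nat_lit 78) (nat_lit 0) (nat_lit 0) (XT.lf (nat_lit 0) (nat_lit 152235940258) (nat_lit 76) (nat_lit 285480602852) (nat_lit 76) (nat_lit 285439339392) (nat_lit 1) (nat_lit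 4) (nat_lit 2) (nat_lit 5) (nat_lit 2) (nat_lit 4) (nat_lit 393) (nat_lit 194) (nat_lit 193)) (XT.nd (nat_lit 40326) (nat_lit 0) (nat_lit 0) (XT.lf (nat_lit 0) (nat_lit 161841257686) (nat_lit 76) (nat_lit 298750535255) (nat_lit 76) (nat_lit 298669973261) (nat_lit 1) (nat_lit 4) (nat_lit 2) (nat_lit 5) (nat_lit 2) (nat_lit 4) (nat_lit 394) (nat_lit 194) (nat_lit 192)) (XT.lf (nat_lit 0) (nat_lit 62871009447) (nat_lit 76) (nat_lit 124774335758) (nat_lit 76) (nat_lit 124774335758) (nat_lit 1) (nat_lit 4) (nat_lit 2) (nat_lit 5) (nat_lit 2) (nat_lit 4) (nat_lit 390) (nat_lit 195) (nat_lit 195))))) (XT.nd (nat_lit 156) (nat_lit 0) (nat_lit 0) (XT.nd (nat_lit 78) (nat_lit 0) (nat_lit 0) (XT.lf (nat_lit 0) (nat_lit 134190374208) (nat_lit 76) (nat_lit 260939002151) (nat_lit 76) (nat_lit 260895675517) (nat_lit 1) (nat_lit 4) (nat_lit 2) (nat_lit 5) (nat_lit 2) (nat_lit 4) (nat_lit 391) (nat_lit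 195) (nat_lit 194)) (XT.lf (nat_lit 0) (nat_lit 142993089354) (nat_lit 76) (nat_lit 272931649631) (nat_lit 76) (nat_lit 272847059537) (nat_lit 1) (nat_lit 4) (nat_lit 2) (nat_lit 5) (nat_lit 2) (nat_lit 4) (nat_lit 392) (nat_lit 195) (nat_lit 193))) (XT.nd (nat_lit 78) (nat_lit 0) (nat_lit 0) (XT.lf (nat_lit 0) (nat_lit 152171123179) (nat_lit 76) (nat_lit 285555167880) (nat_lit 76) (nat_lit 285431279253) (nat_lit 1) (nat_lit 4) (nat_lit 2) (nat_lit 5) (nat_lit 2) (nat_lit 4) (nat_lit 393) (nat_lit 195) (nat_lit 192)) (XT.nd (nat_lit 40170) (nat_lit 0) (nat_lit 0) (XT.lf (nat_lit 0) (nat_lit 161746328142) (nat_lit 76) (nat_lit 298839612894) (nat_lit 76) (nat_lit 298678297091) (nat_lit 1) (nat_lit 4) (nat_lit 2) (nat_lit 5) (nat_lit 2) (nat_lit 4) (nat_lit 394) (nat_lit 195) (nat_lit 191)) (XT.lf (nat_lit 0) (nat_lit 54932662473) (nat_lit 76) (nat_lit 114247851878) (nat_lit 76) (nat_lit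 114247851878) (nat_lit 1) (nat_lit 4) (nat_lit 2) (nat_lit 5) (nat_lit 2) (nat_lit 4) (nat_lit 388) (nat_lit 196) (nat_lit 196)))))) (XT.nd (nat_lit 390) (nat_lit 0) (nat_lit 0) (XT.nd (nat_lit 156) (nat_lit 0) (nat_lit 0) (XT.nd (nat_lit 78) (nat_lit 0) (nat_lit 0) (XT.lf (nat_lit 0) (nat_lit 117627908281) (nat_lit 76) (nat_lit 238779030857) (nat_lit 76) (nat_lit 238733537892) (nat_lit 1) (nat_lit 4) (nat_lit 2) (nat_lit 5) (nat_lit 2) (nat_lit 4) (nat_lit 389) (nat_lit 196) (nat_lit 195)) (XT.lf (nat_lit 0) (nat_lit 125707159953) (nat_lit 76) (nat_lit 249610964642) (nat_lit 76) (nat_lit 249522145043) (nat_lit 1) (nat_lit 4) (nat_lit 2) (nat_lit 5) (nat_lit 2) (nat_lit 4) (nat_lit 390) (nat_lit 196) (nat_lit 194))) (XT.nd (nat_lit 78) (nat_lit 0) (nat_lit 0) (XT.lf (nat_lit 0) (nat_lit 134122316275) (nat_lit 76) (nat_lit 261017295430) (nat_lit 76) (nat_lit 260887212371) (nat_lit 1)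 (nat_lit 4) (nat_lit 2) (nat_lit 5) (nat_lit 2) (nat_lit 4) (nat_lit 391) (nat_lit 196) (nat_lit 193)) (XT.nd (nat_lit 78) (nat_lit 0) (nat_lit 0) (XT.lf (nat_lit 0) (nat_lit 142893413334) (nat_lit 76) (nat_lit 273025181152) (nat_lit 76) (nat_lit 272855799559) (nat_lit 1) (nat_lit 4) (nat_lit 2) (nat_lit 5) (nat_lit 2) (nat_lit 4) (nat_lit 392) (nat_lit 196) (nat_lit 192)) (XT.lf (nat_lit 0) (nat_lit 152041334694) (nat_lit 76) (nat_lit 285663212011) (nat_lit 76) (nat_lit 285456403244) (nat_lit 1) (nat_lit 4) (nat_lit 2) (nat_lit 5) (nat_lit 2) (nat_lit 4) (nat_lit 393) (nat_lit 196) (nat_lit 191))))) (XT.nd (nat_lit 40092) (nat_lit 0) (nat_lit 0) (XT.nd (nat_lit 40014) (nat_lit 0) (nat_lit 0) (XT.lf (nat_lit 0) (nat_lit 161587861120) (nat_lit 76) (nat_lit 298961478559) (nat_lit 76) (nat_lit 298719024863) (nat_lit 1) (nat_lit 4) (nat_lit 2) (nat_lit 5) (nat_lit 2) (nat_lit 4) (nat_lit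 394) (nat_lit 196) (nat_lit 190)) (XT.lf (nat_lit 0) (nat_lit 47627687935) (nat_lit 76) (nat_lit 104753713255) (nat_lit 76) (nat_lit 104753713255) (nat_lit 1) (nat_lit 4) (nat_lit 2) (nat_lit 5) (nat_lit 2) (nat_lit 4) (nat_lit 386) (nat_lit 197) (nat_lit 197))) (XT.nd (nat_lit 78) (nat_lit 0) (nat_lit 0) (XT.lf (nat_lit 0) (nat_lit 102400927607) (nat_lit 76) (nat_lit 218784266844) (nat_lit 76) (nat_lit 218736499230) (nat_lit 1) (nat_lit 4) (nat_lit 2) (nat_lit 5) (nat_lit 2) (nat_lit 4) (nat_lit 387) (nat_lit 197) (nat_lit 196)) (XT.nd (nat_lit 78) (nat_lit 0) (nat_lit 0) (XT.lf (nat_lit 0) (nat_lit 109828723058) (nat_lit 76) (nat_lit 228561111540) (nat_lit 76) (nat_lit 228467850961) (nat_lit 1) (nat_lit 4) (nat_lit 2) (nat_lit 5) (nat_lit 2) (nat_lit 4) (nat_lit 388) (nat_lit 197) (nat_lit 195)) (XT.lf (nat_lit 0) (nat_lit 117556447451) (nat_lit 76) (nat_lit 238861238800) (nat_lit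 76) (nat_lit 238724651589) (nat_lit 1) (nat_lit 4) (nat_lit 2) (nat_lit 5) (nat_lit 2) (nat_lit 4) (nat_lit 389) (nat_lit 197) (nat_lit 194))))))) (XT.nd (nat_lit 40560) (nat_lit 0) (nat_lit 0) (XT.nd (nat_lit 40170) (nat_lit 0) (nat_lit 0) (XT.nd (nat_lit 156) (nat_lit 0) (nat_lit 0) (XT.nd (nat_lit 78) (nat_lit 0) (nat_lit 0) (XT.lf (nat_lit 0) (nat_lit 125602500131) (nat_lit 76) (nat_lit 249709172738) (nat_lit 76) (nat_lit 249531322066) (nat_lit 1) (nat_lit 4) (nat_lit 2) (nat_lit 5) (nat_lit 2) (nat_lit 4) (nat_lit 390) (nat_lit 197) (nat_lit 193)) (XT.lf (nat_lit 0) (nat_lit 133986038366) (nat_lit 76) (nat_lit 261130741767) (nat_lit 76) (nat_lit 260913592562) (nat_lit 1) (nat_lit 4) (nat_lit 2) (nat_lit 5) (nat_lit 2) (nat_lit 4) (nat_lit 391) (nat_lit 197) (nat_lit 192))) (XT.nd (nat_lit 78) (nat_lit 0) (nat_lit 0) (XT.lf (nat_lit 0) (nat_lit 142727022960) (nat_lit 76) (nat_lit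 273153140100) (nat_lit 76) (nat_lit 272898563719) (nat_lit 1) (nat_lit 4) (nat_lit 2) (nat_lit 5) (nat_lit 2) (nat_lit 4) (nat_lit 392) (nat_lit 197) (nat_lit 191)) (XT.nd (nat_lit 78) (nat_lit 0) (nat_lit 0) (XT.lf (nat_lit 0) (nat_lit 151846265783) (nat_lit 76) (nat_lit 285804992493) (nat_lit 76) (nat_lit 285514771184) (nat_lit 1) (nat_lit 4) (nat_lit 2) (nat_lit 5) (nat_lit 2) (nat_lit 4) (nat_lit 393) (nat_lit 197) (nat_lit 190)) (XT.lf (nat_lit 0) (nat_lit 161365479316) (nat_lit 76) (nat_lit 299116422406) (nat_lit 76) (nat_lit 298792253546) (nat_lit 1) (nat_lit 4) (nat_lit 2) (nat_lit 5) (nat_lit 2) (nat_lit 4) (nat_lit 394) (nat_lit 197) (nat_lit 189))))) (XT.nd (nat_lit 156) (nat_lit 0) (nat_lit 0) (XT.nd (nat_lit 78) (nat_lit 0) (nat_lit 0) (XT.lf (nat_lit 0) (nat_lit 40891967878) (nat_lit 76) (nat_lit 96198626839) (nat_lit 76) (nat_lit 96198626839) (nat_lit 1) (nat_lit 4) (nat_lit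 2) (nat_lit 5) (nat_lit 2) (nat_lit 4) (nat_lit 384) (nat_lit 198) (nat_lit 198)) (XT.lf (nat_lit 0) (nat_lit 88375054633) (nat_lit 76) (nat_lit 200758658820) (nat_lit 76) (nat_lit 200708502826) (nat_lit 1) (nat_lit 4) (nat_lit 2) (nat_lit 5) (nat_lit 2) (nat_lit 4) (nat_lit 385) (nat_lit 198) (nat_lit 197))) (XT.nd (nat_lit 78) (nat_lit 0) (nat_lit 0) (XT.lf (nat_lit 0) (nat_lit 95216943888) (nat_lit 76) (nat_lit 209576104682) (nat_lit 76) (nat_lit 209478181075) (nat_lit 1) (nat_lit 4) (nat_lit 2) (nat_lit 5) (nat_lit 2) (nat_lit 4) (nat_lit 386) (nat_lit 198) (nat_lit 196)) (XT.nd (nat_lit 78) (nat_lit 0) (nat_lit 0) (XT.lf (nat_lit 0) (nat_lit 102325893735) (nat_lit 76) (nat_lit 218870585184) (nat_lit 76) (nat_lit 218727168612) (nat_lit 1) (nat_lit 4) (nat_lit 2) (nat_lit 5) (nat_lit 2) (nat_lit 4) (nat_lit 387) (nat_lit 198) (nat_lit 195)) (XT.lf (nat_lit 0) (nat_lit 109718830245)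 (nat_lit 76) (nat_lit 228664230041) (nat_lit 76) (nat_lit 228477486835) (nat_lit 1) (nat_lit 4) (nat_lit 2) (nat_lit 5) (nat_lit 2) (nat_lit 4) (nat_lit 388) (nat_lit 198) (nat_lit 194)))))) (XT.nd (nat_lit 390) (nat_lit 0) (nat_lit 0) (XT.nd (nat_lit 156) (nat_lit 0) (nat_lit 0) (XT.nd (nat_lit 78) (nat_lit 0) (nat_lit 0) (XT.lf (nat_lit 0) (nat_lit 117413355646) (nat_lit 76) (nat_lit 238980357455) (nat_lit 76) (nat_lit 238752350789) (nat_lit 1) (nat_lit 4) (nat_lit 2) (nat_lit 5) (nat_lit 2) (nat_lit 4) (nat_lit 389) (nat_lit 198) (nat_lit 193)) (XT.lf (nat_lit 0) (nat_lit 125427790239) (nat_lit 76) (nat_lit 249843529634) (nat_lit 76) (nat_lit 249576224434) (nat_lit 1) (nat_lit 4) (nat_lit 2) (nat_lit 5) (nat_lit 2) (nat_lit 4) (nat_lit 390) (nat_lit 198) (nat_lit 192))) (XT.nd (nat_lit 78) (nat_lit 0) (nat_lit 0) (XT.lf (nat_lit 0) (nat_lit 133781216009) (nat_lit 76) (nat_lit 261279611274)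 (nat_lit 76) (nat_lit 260974878899) (nat_lit 1) (nat_lit 4) (nat_lit 2) (nat_lit 5) (nat_lit 2) (nat_lit 4) (nat_lit 391) (nat_lit 198) (nat_lit 191)) (XT.nd (nat_lit 78) (nat_lit 0) (nat_lit 0) (XT.lf (nat_lit 0) (nat_lit 142493522066) (nat_lit 76) (nat_lit 273315831140) (nat_lit 76) (nat_lit 272975453837) (nat_lit 1) (nat_lit 4) (nat_lit 2) (nat_lit 5) (nat_lit 2) (nat_lit 4) (nat_lit 392) (nat_lit 198) (nat_lit 190)) (XT.lf (nat_lit 0) (nat_lit 151585451996) (nat_lit 76) (nat_lit 285980846899) (nat_lit 76) (nat_lit 285606522045) (nat_lit 1) (nat_lit 4) (nat_lit 2) (nat_lit 5) (nat_lit 2) (nat_lit 4) (nat_lit 393) (nat_lit 198) (nat_lit 189))))) (XT.nd (nat_lit 39858) (nat_lit 0) (nat_lit 0) (XT.nd (nat_lit 39702) (nat_lit 0) (nat_lit 0) (XT.lf (nat_lit 0) (nat_lit 161078653251) (nat_lit 76) (nat_lit 299304813351) (nat_lit 76) (nat_lit 298898157496) (nat_lit 1) (nat_lit 4) (nat_lit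 2) (nat_lit 5) (nat_lit 2) (nat_lit 4) (nat_lit 394) (nat_lit 198) (nat_lit 188)) (XT.nd (nat_lit 78) (nat_lit 0) (nat_lit 0) (XT.lf (nat_lit 0) (nat_lit 34667083773) (nat_lit 76) (nat_lit 88498107315) (nat_lit 76) (nat_lit 88498107315) (nat_lit 1) (nat_lit 4) (nat_lit 2) (nat_lit 5) (nat_lit 2) (nat_lit 4) (nat_lit 382) (nat_lit 199) (nat_lit 199)) (XT.lf (nat_lit 0) (nat_lit 75427894117) (nat_lit 76) (nat_lit 184524644943) (nat_lit 76) (nat_lit 184471981149) (nat_lit 1) (nat_lit 4) (nat_lit 2) (nat_lit 5) (nat_lit 2) (nat_lit 4) (nat_lit 383) (nat_lit 199) (nat_lit 198)))) (XT.nd (nat_lit 78) (nat_lit 0) (nat_lit 0) (XT.lf (nat_lit 0) (nat_lit 81743582174) (nat_lit 76) (nat_lit 192469365758) (nat_lit 76) (nat_lit 192366545970) (nat_lit 1) (nat_lit 4) (nat_lit 2) (nat_lit 5) (nat_lit 2) (nat_lit 4) (nat_lit 384) (nat_lit 199) (nat_lit 197)) (XT.nd (nat_lit 78) (nat_lit 0) (nat_lit 0)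 (XT.lf (nat_lit 0) (nat_lit 88296269067) (nat_lit 76) (nat_lit 200849293077) (nat_lit 76) (nat_lit 200698705676) (nat_lit 1) (nat_lit 4) (nat_lit 2) (nat_lit 5) (nat_lit 2) (nat_lit 4) (nat_lit 385) (nat_lit 199) (nat_lit 196)) (XT.lf (nat_lit 0) (nat_lit 95101556435) (nat_lit 76) (nat_lit 209684379108) (nat_lit 76) (nat_lit 209488298742) (nat_lit 1) (nat_lit 4) (nat_lit 2) (nat_lit 5) (nat_lit 2) (nat_lit 4) (nat_lit 386) (nat_lit 199) (nat_lit 195))))))))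
noncomputable def xc1 : XT := (XT.nd (nat_lit 41028) (nat_lit 0) (nat_lit 0) (XT.nd (nat_lit 40248) (nat_lit 0) (nat_lit 0) (XT.nd (nat_lit 390) (nat_lit 0) (nat_lit 0) (XT.nd (nat_lit 156) (nat_lit 0) (nat_lit 0) (XT.nd (nat_lit 78) (nat_lit 0) (nat_lit 0) (XT.lf (nat_lit 0) (nat_lit 102175647340) (nat_lit 76) (nat_lit 218995659771) (nat_lit 76) (nat_lit 218756252772) (nat_lit 1) (nat_lit 4) (nat_lit 2) (nat_lit 5) (nat_lit 2) (nat_lit 4) (nat_lit 387) (nat_lit 199) (nat_lit 194)) (XT.lf (nat_lit 0) (nat_lit 109535384858) (nat_lit 76) (nat_lit 228805304781) (nat_lit 76) (nat_lit 228524634322) (nat_lit 1) (nat_lit 4) (nat_lit 2) (nat_lit 5) (nat_lit 2) (nat_lit 4) (nat_lit 388) (nat_lit 199) (nat_lit 193))) (XT.nd (nat_lit 78) (nat_lit 0) (nat_lit 0) (XT.lf (nat_lit 0) (nat_lit 117198292172) (nat_lit 76) (nat_lit 239136670436) (nat_lit 76) (nat_lit 238816701443) (nat_lit 1) (nat_lit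 4) (nat_lit 2) (nat_lit 5) (nat_lit 2) (nat_lit 4) (nat_lit 389) (nat_lit 199) (nat_lit 192)) (XT.nd (nat_lit 78) (nat_lit 0) (nat_lit 0) (XT.lf (nat_lit 0) (nat_lit 125182614300) (nat_lit 76) (nat_lit 250014355226) (nat_lit 76) (nat_lit 249656959058) (nat_lit 1) (nat_lit 4) (nat_lit 2) (nat_lit 5) (nat_lit 2) (nat_lit 4) (nat_lit 390) (nat_lit 199) (nat_lit 191)) (XT.lf (nat_lit 0) (nat_lit 133507361533) (nat_lit 76) (nat_lit 261464258400) (nat_lit 76) (nat_lit 261071217303) (nat_lit 1) (nat_lit 4) (nat_lit 2) (nat_lit 5) (nat_lit 2) (nat_lit 4) (nat_lit 391) (nat_lit 199) (nat_lit 190))))) (XT.nd (nat_lit 156) (nat_lit 0) (nat_lit 0) (XT.nd (nat_lit 78) (nat_lit 0) (nat_lit 0) (XT.lf (nat_lit 0) (nat_lit 142192354698) (nat_lit 76) (nat_lit 273513641632) (nat_lit 76) (nat_lit 273086652984) (nat_lit 1) (nat_lit 4) (nat_lit 2) (nat_lit 5) (nat_lit 2) (nat_lit 4) (nat_lit 392) (nat_lit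 199) (nat_lit 189)) (XT.lf (nat_lit 0) (nat_lit 151258272349) (nat_lit 76) (nat_lit 286191193930) (nat_lit 76) (nat_lit 285731874281) (nat_lit 1) (nat_lit 4) (nat_lit 2) (nat_lit 5) (nat_lit 2) (nat_lit 4) (nat_lit 393) (nat_lit 199) (nat_lit 188))) (XT.nd (nat_lit 39546) (nat_lit 0) (nat_lit 0) (XT.lf (nat_lit 0) (nat_lit 160726700005) (nat_lit 76) (nat_lit 299527099942) (nat_lit 76) (nat_lit 299036988864) (nat_lit 1) (nat_lit 4) (nat_lit 2) (nat_lit 5) (nat_lit 2) (nat_lit 4) (nat_lit 394) (nat_lit 199) (nat_lit 187)) (XT.nd (nat_lit 78) (nat_lit 0) (nat_lit 0) (XT.lf (nat_lit 0) (nat_lit 28899773564) (nat_lit 76) (nat_lit 81575664957) (nat_lit 76) (nat_lit 81575664957) (nat_lit 1) (nat_lit 4) (nat_lit 2) (nat_lit 5) (nat_lit 2) (nat_lit 4) (nat_lit 380) (nat_lit 200) (nat_lit 200)) (XT.lf (nat_lit 0) (nat_lit 63447893588) (nat_lit 76) (nat_lit 169921446970) (nat_lit 76) (nat_lit 169866149987)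 (nat_lit 1) (nat_lit 4) (nat_lit 2) (nat_lit 5) (nat_lit 2) (nat_lit 4) (nat_lit 381) (nat_lit 200) (nat_lit 199)))))) (XT.nd (nat_lit 390) (nat_lit 0) (nat_lit 0) (XT.nd (nat_lit 156) (nat_lit 0) (nat_lit 0) (XT.nd (nat_lit 78) (nat_lit 0) (nat_lit 0) (XT.lf (nat_lit 0) (nat_lit 69291796285) (nat_lit 76) (nat_lit 177071932315) (nat_lit 76) (nat_lit 176963971538) (nat_lit 1) (nat_lit 4) (nat_lit 2) (nat_lit 5) (nat_lit 2) (nat_lit 4) (nat_lit 382) (nat_lit 200) (nat_lit 198)) (XT.lf (nat_lit 0) (nat_lit 75345169274) (nat_lit 76) (nat_lit 184619810913) (nat_lit 76) (nat_lit 184461694142) (nat_lit 1) (nat_lit 4) (nat_lit 2) (nat_lit 5) (nat_lit 2) (nat_lit 4) (nat_lit 383) (nat_lit 200) (nat_lit 197))) (XT.nd (nat_lit 78) (nat_lit 0) (nat_lit 0) (XT.lf (nat_lit 0) (nat_lit 81622425347) (nat_lit 76) (nat_lit 192583053905) (nat_lit 76) (nat_lit 192377169521) (nat_lit 1) (nat_lit 4) (nat_lit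 2) (nat_lit 5) (nat_lit 2) (nat_lit 4) (nat_lit 384) (nat_lit 200) (nat_lit 196)) (XT.nd (nat_lit 78) (nat_lit 0) (nat_lit 0) (XT.lf (nat_lit 0) (nat_lit 88138510353) (nat_lit 76) (nat_lit 200980621393) (nat_lit 76) (nat_lit 200729244044) (nat_lit 1) (nat_lit 4) (nat_lit 2) (nat_lit 5) (nat_lit 2) (nat_lit 4) (nat_lit 385) (nat_lit 200) (nat_lit 195)) (XT.lf (nat_lit 0) (nat_lit 94908938779) (nat_lit 76) (nat_lit 209832507586) (nat_lit 76) (nat_lit 209537803603) (nat_lit 1) (nat_lit 4) (nat_lit 2) (nat_lit 5) (nat_lit 2) (nat_lit 4) (nat_lit 386) (nat_lit 200) (nat_lit 194))))) (XT.nd (nat_lit 156) (nat_lit 0) (nat_lit 0) (XT.nd (nat_lit 78) (nat_lit 0) (nat_lit 0) (XT.lf (nat_lit 0) (nat_lit 101949830692) (nat_lit 76) (nat_lit 219159788402) (nat_lit 76) (nat_lit 218823820959) (nat_lit 1) (nat_lit 4) (nat_lit 2) (nat_lit 5) (nat_lit 2) (nat_lit 4) (nat_lit 387) (nat_lit 200) (nat_lit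 193)) (XT.lf (nat_lit 0) (nat_lit 109277950122) (nat_lit 76) (nat_lit 228984671653) (nat_lit 76) (nat_lit 228609405677) (nat_lit 1) (nat_lit 4) (nat_lit 2) (nat_lit 5) (nat_lit 2) (nat_lit 4) (nat_lit 388) (nat_lit 200) (nat_lit 192))) (XT.nd (nat_lit 78) (nat_lit 0) (nat_lit 0) (XT.lf (nat_lit 0) (nat_lit 116910744972) (nat_lit 76) (nat_lit 239330549919) (nat_lit 76) (nat_lit 238917856767) (nat_lit 1) (nat_lit 4) (nat_lit 2) (nat_lit 5) (nat_lit 2) (nat_lit 4) (nat_lit 389) (nat_lit 200) (nat_lit 191)) (XT.nd (nat_lit 78) (nat_lit 0) (nat_lit 0) (XT.lf (nat_lit 0) (nat_lit 124866388563) (nat_lit 76) (nat_lit 250222056242) (nat_lit 76) (nat_lit 249773718163) (nat_lit 1) (nat_lit 4) (nat_lit 2) (nat_lit 5) (nat_lit 2) (nat_lit 4) (nat_lit 390) (nat_lit 200) (nat_lit 190)) (XT.lf (nat_lit 0) (nat_lit 133163822903) (nat_lit 76) (nat_lit 261685122782) (nat_lit 76) (nat_lit 261202837151)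 (nat_lit 1) (nat_lit 4) (nat_lit 2) (nat_lit 5) (nat_lit 2) (nat_lit 4) (nat_lit 391) (nat_lit 200) (nat_lit 189))))))) (XT.nd (nat_lit 40092) (nat_lit 0) (nat_lit 0) (XT.nd (nat_lit 39702) (nat_lit 0) (nat_lit 0) (XT.nd (nat_lit 156) (nat_lit 0) (nat_lit 0) (XT.nd (nat_lit 78) (nat_lit 0) (nat_lit 0) (XT.lf (nat_lit 0) (nat_lit 141822803789) (nat_lit 76) (nat_lit 273747042553) (nat_lit 76) (nat_lit 273232425921) (nat_lit 1) (nat_lit 4) (nat_lit 2) (nat_lit 5) (nat_lit 2) (nat_lit 4) (nat_lit 392) (nat_lit 200) (nat_lit 188)) (XT.lf (nat_lit 0) (nat_lit 150863947841) (nat_lit 76) (nat_lit 286436534411) (nat_lit 76) (nat_lit 285891126350) (nat_lit 1) (nat_lit 4) (nat_lit 2) (nat_lit 5) (nat_lit 2) (nat_lit 4) (nat_lit 393) (nat_lit 200) (nat_lit 187))) (XT.nd (nat_lit 39390) (nat_lit 0) (nat_lit 0) (XT.lf (nat_lit 0) (nat_lit 160308781593) (nat_lit 76) (nat_lit 299783811434) (nat_lit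 76) (nat_lit 299209078202) (nat_lit 1) (nat_lit 4) (nat_lit 2) (nat_lit 5) (nat_lit 2) (nat_lit 4) (nat_lit 394) (nat_lit 200) (nat_lit 186)) (XT.nd (nat_lit 78) (nat_lit 0) (nat_lit 0) (XT.lf (nat_lit 0) (nat_lit 23541438525) (nat_lit 76) (nat_lit 75362069317) (nat_lit 76) (nat_lit 75362069317) (nat_lit 1) (nat_lit 4) (nat_lit 2) (nat_lit 5) (nat_lit 2) (nat_lit 4) (nat_lit 378) (nat_lit 201) (nat_lit 201)) (XT.lf (nat_lit 0) (nat_lit 52333308462) (nat_lit 76) (nat_lit 156803523654) (nat_lit 76) (nat_lit 156745461822) (nat_lit 1) (nat_lit 4) (nat_lit 2) (nat_lit 5) (nat_lit 2) (nat_lit 4) (nat_lit 379) (nat_lit 201) (nat_lit 200))))) (XT.nd (nat_lit 156) (nat_lit 0) (nat_lit 0) (XT.nd (nat_lit 78) (nat_lit 0) (nat_lit 0) (XT.lf (nat_lit 0) (nat_lit 57755057304) (nat_lit 76) (nat_lit 163230833483) (nat_lit 76) (nat_lit 163117474667) (nat_lit 1) (nat_lit 4) (nat_lit 2) (nat_lit 5) (nat_lit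 2) (nat_lit 4) (nat_lit 380) (nat_lit 201) (nat_lit 199)) (XT.lf (nat_lit 0) (nat_lit 63361032503) (nat_lit 76) (nat_lit 170021371239) (nat_lit 76) (nat_lit 169855348629) (nat_lit 1) (nat_lit 4) (nat_lit 2) (nat_lit 5) (nat_lit 2) (nat_lit 4) (nat_lit 381) (nat_lit 201) (nat_lit 198))) (XT.nd (nat_lit 78) (nat_lit 0) (nat_lit 0) (XT.lf (nat_lit 0) (nat_lit 69164581618) (nat_lit 76) (nat_lit 177191304870) (nat_lit 76) (nat_lit 176975126266) (nat_lit 1) (nat_lit 4) (nat_lit 2) (nat_lit 5) (nat_lit 2) (nat_lit 4) (nat_lit 382) (nat_lit 201) (nat_lit 197)) (XT.nd (nat_lit 78) (nat_lit 0) (nat_lit 0) (XT.lf (nat_lit 0) (nat_lit 75179522624) (nat_lit 76) (nat_lit 184757705645) (nat_lit 76) (nat_lit 184493759429) (nat_lit 1) (nat_lit 4) (nat_lit 2) (nat_lit 5) (nat_lit 2) (nat_lit 4) (nat_lit 383) (nat_lit 201) (nat_lit 196)) (XT.lf (nat_lit 0) (nat_lit 81420176808) (nat_lit 76) (nat_lit 192738588807)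 (nat_lit 76) (nat_lit 192429149625) (nat_lit 1) (nat_lit 4) (nat_lit 2) (nat_lit 5) (nat_lit 2) (nat_lit 4) (nat_lit 384) (nat_lit 201) (nat_lit 195)))))) (XT.nd (nat_lit 390) (nat_lit 0) (nat_lit 0) (XT.nd (nat_lit 156) (nat_lit 0) (nat_lit 0) (XT.nd (nat_lit 78) (nat_lit 0) (nat_lit 0) (XT.lf (nat_lit 0) (nat_lit 87901402872) (nat_lit 76) (nat_lit 201152956456) (nat_lit 76) (nat_lit 200800190641) (nat_lit 1) (nat_lit 4) (nat_lit 2) (nat_lit 5) (nat_lit 2) (nat_lit 4) (nat_lit 385) (nat_lit 201) (nat_lit 194)) (XT.lf (nat_lit 0) (nat_lit 94638632306) (nat_lit 76) (nat_lit 210020842801) (nat_lit 76) (nat_lit 209626813526) (nat_lit 1) (nat_lit 4) (nat_lit 2) (nat_lit 5) (nat_lit 2) (nat_lit 4) (nat_lit 386) (nat_lit 201) (nat_lit 193))) (XT.nd (nat_lit 78) (nat_lit 0) (nat_lit 0) (XT.lf (nat_lit 0) (nat_lit 101647906133) (nat_lit 76) (nat_lit 219363361858) (nat_lit 76) (nat_lit 218930034049)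 (nat_lit 1) (nat_lit 4) (nat_lit 2) (nat_lit 5) (nat_lit 2) (nat_lit 4) (nat_lit 387) (nat_lit 201) (nat_lit 192)) (XT.nd (nat_lit 78) (nat_lit 0) (nat_lit 0) (XT.lf (nat_lit 0) (nat_lit 108945913098) (nat_lit 76) (nat_lit 229202757720) (nat_lit 76) (nat_lit 228732002736) (nat_lit 1) (nat_lit 4) (nat_lit 2) (nat_lit 5) (nat_lit 2) (nat_lit 4) (nat_lit 388) (nat_lit 201) (nat_lit 191)) (XT.lf (nat_lit 0) (nat_lit 116550029411) (nat_lit 76) (nat_lit 239562457520) (nat_lit 76) (nat_lit 239056057608) (nat_lit 1) (nat_lit 4) (nat_lit 2) (nat_lit 5) (nat_lit 2) (nat_lit 4) (nat_lit 389) (nat_lit 201) (nat_lit 190))))) (XT.nd (nat_lit 234) (nat_lit 0) (nat_lit 0) (XT.nd (nat_lit 78) (nat_lit 0) (nat_lit 0) (XT.lf (nat_lit 0) (nat_lit 124478360109) (nat_lit 76) (nat_lit 250467127209) (nat_lit 76) (nat_lit 249926779746) (nat_lit 1) (nat_lit 4) (nat_lit 2) (nat_lit 5) (nat_lit 2) (nat_lit 4) (nat_lit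 390) (nat_lit 201) (nat_lit 189)) (XT.nd (nat_lit 78) (nat_lit 0) (nat_lit 0) (XT.lf (nat_lit 0) (nat_lit 132749782170) (nat_lit 76) (nat_lit 261942730287) (nat_lit 76) (nat_lit 261370051823) (nat_lit 1) (nat_lit 4) (nat_lit 2) (nat_lit 5) (nat_lit 2) (nat_lit 4) (nat_lit 391) (nat_lit 201) (nat_lit 188)) (XT.lf (nat_lit 0) (nat_lit 141383989457) (nat_lit 76) (nat_lit 274016589619) (nat_lit 76) (nat_lit 273413119725) (nat_lit 1) (nat_lit 4) (nat_lit 2) (nat_lit 5) (nat_lit 2) (nat_lit 4) (nat_lit 392) (nat_lit 201) (nat_lit 187)))) (XT.nd (nat_lit 78) (nat_lit 0) (nat_lit 0) (XT.lf (nat_lit 0) (nat_lit 150401539606) (nat_lit 76) (nat_lit 286717452488) (nat_lit 76) (nat_lit 286084657423) (nat_lit 1) (nat_lit 4) (nat_lit 2) (nat_lit 5) (nat_lit 2) (nat_lit 4) (nat_lit 393) (nat_lit 201) (nat_lit 186)) (XT.nd (nat_lit 39234) (nat_lit 0) (nat_lit 0) (XT.lf (nat_lit 0) (nat_lit 159823902973)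 (nat_lit 76) (nat_lit 300075559044) (nat_lit 76) (nat_lit 299414835245) (nat_lit 1) (nat_lit 4) (nat_lit 2) (nat_lit 5) (nat_lit 2) (nat_lit 4) (nat_lit 394) (nat_lit 201) (nat_lit 185)) (XT.lf (nat_lit 0) (nat_lit 18547695289) (nat_lit 76) (nat_lit 69794681728) (nat_lit 76) (nat_lit 69794681728) (nat_lit 1) (nat_lit 4) (nat_lit 2) (nat_lit 5) (nat_lit 2) (nat_lit 4) (nat_lit 376) (nat_lit 202) (nat_lit 202))))))))
noncomputable def xc2 : XT := (XT.nd (nat_lit 40560) (nat_lit 0) (nat_lit 0) (XT.nd (nat_lit 780) (nat_lit 0) (nat_lit 0) (XT.nd (nat_lit 390) (nat_lit 0) (nat_lit 0) (XT.nd (nat_lit 156) (nat_lit 0) (nat_lit 0) (XT.nd (nat_lit 78) (nat_lit 0) (nat_lit 0) (XT.lf (nat_lit 0) (nat_lit 41991262044) (nat_lit 76) (nat_lit 145039168622) (nat_lit 76) (nat_lit 144978203698) (nat_lit 1) (nat_lit 4) (nat_lit 2) (nat_lit 5) (nat_lit 2) (nat_lit 4) (nat_lit 377) (nat_lit 202) (nat_lit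 201)) (XT.lf (nat_lit 0) (nat_lit 47036162736) (nat_lit 76) (nat_lit 150807617381) (nat_lit 76) (nat_lit 150688590625) (nat_lit 1) (nat_lit 4) (nat_lit 2) (nat_lit 5) (nat_lit 2) (nat_lit 4) (nat_lit 378) (nat_lit 202) (nat_lit 200))) (XT.nd (nat_lit 78) (nat_lit 0) (nat_lit 0) (XT.lf (nat_lit 0) (nat_lit 52242104323) (nat_lit 76) (nat_lit 156908444136) (nat_lit 76) (nat_lit 156734120397) (nat_lit 1) (nat_lit 4) (nat_lit 2) (nat_lit 5) (nat_lit 2) (nat_lit 4) (nat_lit 379) (nat_lit 202) (nat_lit 199)) (XT.nd (nat_lit 78) (nat_lit 0) (nat_lit 0) (XT.lf (nat_lit 0) (nat_lit 57621481903) (nat_lit 76) (nat_lit 163356174665) (nat_lit 76) (nat_lit 163129187132) (nat_lit 1) (nat_lit 4) (nat_lit 2) (nat_lit 5) (nat_lit 2) (nat_lit 4) (nat_lit 380) (nat_lit 202) (nat_lit 198)) (XT.lf (nat_lit 0) (nat_lit 63187103520) (nat_lit 76) (nat_lit 170166160708) (nat_lit 76) (nat_lit 169889017180) (nat_lit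 1) (nat_lit 4) (nat_lit 2) (nat_lit 5) (nat_lit 2) (nat_lit 4) (nat_lit 381) (nat_lit 202) (nat_lit 197))))) (XT.nd (nat_lit 156) (nat_lit 0) (nat_lit 0) (XT.nd (nat_lit 78) (nat_lit 0) (nat_lit 0) (XT.lf (nat_lit 0) (nat_lit 68952220652) (nat_lit 76) (nat_lit 177354616516) (nat_lit 76) (nat_lit 177029705375) (nat_lit 1) (nat_lit 4) (nat_lit 2) (nat_lit 5) (nat_lit 2) (nat_lit 4) (nat_lit 382) (nat_lit 202) (nat_lit 196)) (XT.lf (nat_lit 0) (nat_lit 74930559769) (nat_lit 76) (nat_lit 184938657461) (nat_lit 76) (nat_lit 184568253355) (nat_lit 1) (nat_lit 4) (nat_lit 2) (nat_lit 5) (nat_lit 2) (nat_lit 4) (nat_lit 383) (nat_lit 202) (nat_lit 195))) (XT.nd (nat_lit 78) (nat_lit 0) (nat_lit 0) (XT.lf (nat_lit 0) (nat_lit 81136355013) (nat_lit 76) (nat_lit 192936340783) (nat_lit 76) (nat_lit 192522610044) (nat_lit 1) (nat_lit 4) (nat_lit 2) (nat_lit 5) (nat_lit 2) (nat_lit 4) (nat_lit 384)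 (nat_lit 202) (nat_lit 194)) (XT.nd (nat_lit 78) (nat_lit 0) (nat_lit 0) (XT.lf (nat_lit 0) (nat_lit 87584382085) (nat_lit 76) (nat_lit 201366708585) (nat_lit 76) (nat_lit 200911714386) (nat_lit 1) (nat_lit 4) (nat_lit 2) (nat_lit 5) (nat_lit 2) (nat_lit 4) (nat_lit 385) (nat_lit 202) (nat_lit 193)) (XT.lf (nat_lit 0) (nat_lit 94289993431) (nat_lit 76) (nat_lit 210249833172) (nat_lit 76) (nat_lit 209755540439) (nat_lit 1) (nat_lit 4) (nat_lit 2) (nat_lit 5) (nat_lit 2) (nat_lit 4) (nat_lit 386) (nat_lit 202) (nat_lit 192)))))) (XT.nd (nat_lit 390) (nat_lit 0) (nat_lit 0) (XT.nd (nat_lit 156) (nat_lit 0) (nat_lit 0) (XT.nd (nat_lit 78) (nat_lit 0) (nat_lit 0) (XT.lf (nat_lit 0) (nat_lit 101269154793) (nat_lit 76) (nat_lit 219606864840) (nat_lit 76) (nat_lit 219075144932) (nat_lit 1) (nat_lit 4) (nat_lit 2) (nat_lit 5) (nat_lit 2) (nat_lit 4) (nat_lit 387) (nat_lit 202) (nat_lit 191))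 (XT.lf (nat_lit 0) (nat_lit 108538483222) (nat_lit 76) (nat_lit 229460082236) (nat_lit 76) (nat_lit 228892717399) (nat_lit 1) (nat_lit 4) (nat_lit 2) (nat_lit 5) (nat_lit 2) (nat_lit 4) (nat_lit 388) (nat_lit 202) (nat_lit 190))) (XT.nd (nat_lit 78) (nat_lit 0) (nat_lit 0) (XT.lf (nat_lit 0) (nat_lit 116115286641) (nat_lit 76) (nat_lit 239832945401) (nat_lit 76) (nat_lit 239231633014) (nat_lit 1) (nat_lit 4) (nat_lit 2) (nat_lit 5) (nat_lit 2) (nat_lit 4) (nat_lit 389) (nat_lit 202) (nat_lit 189)) (XT.nd (nat_lit 78) (nat_lit 0) (nat_lit 0) (XT.lf (nat_lit 0) (nat_lit 124017605061) (nat_lit 76) (nat_lit 250750151629) (nat_lit 76) (nat_lit 250116508241) (nat_lit 1) (nat_lit 4) (nat_lit 2) (nat_lit 5) (nat_lit 2) (nat_lit 4) (nat_lit 390) (nat_lit 202) (nat_lit 188)) (XT.lf (nat_lit 0) (nat_lit 132264253523) (nat_lit 76) (nat_lit 262237694268) (nat_lit 76) (nat_lit 261573259450) (nat_lit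 1) (nat_lit 4) (nat_lit 2) (nat_lit 5) (nat_lit 2) (nat_lit 4) (nat_lit 391) (nat_lit 202) (nat_lit 187))))) (XT.nd (nat_lit 156) (nat_lit 0) (nat_lit 0) (XT.nd (nat_lit 78) (nat_lit 0) (nat_lit 0) (XT.lf (nat_lit 0) (nat_lit 140874866906) (nat_lit 76) (nat_lit 274322924609) (nat_lit 76) (nat_lit 273629164621) (nat_lit 1) (nat_lit 4) (nat_lit 2) (nat_lit 5) (nat_lit 2) (nat_lit 4) (nat_lit 392) (nat_lit 202) (nat_lit 186)) (XT.lf (nat_lit 0) (nat_lit 149869946670) (nat_lit 76) (nat_lit 287034617012) (nat_lit 76) (nat_lit 286312928289) (nat_lit 1) (nat_lit 4) (nat_lit 2) (nat_lit 5) (nat_lit 2) (nat_lit 4) (nat_lit 393) (nat_lit 202) (nat_lit 185))) (XT.nd (nat_lit 39078) (nat_lit 0) (nat_lit 0) (XT.lf (nat_lit 0) (nat_lit 159270909672) (nat_lit 76) (nat_lit 300403037409) (nat_lit 76) (nat_lit 299654749892) (nat_lit 1) (nat_lit 4) (nat_lit 2) (nat_lit 5) (nat_lit 2) (nat_lit 4) (nat_lit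 394) (nat_lit 202) (nat_lit 184)) (XT.nd (nat_lit 78) (nat_lit 0) (nat_lit 0) (XT.lf (nat_lit 0) (nat_lit 13877968795) (nat_lit 76) (nat_lit 64816850232) (nat_lit 76) (nat_lit 64816850232) (nat_lit 1) (nat_lit 4) (nat_lit 2) (nat_lit 5) (nat_lit 2) (nat_lit 4) (nat_lit 374) (nat_lit 203) (nat_lit 203)) (XT.lf (nat_lit 0) (nat_lit 32336891503) (nat_lit 76) (nat_lit 134509239330) (nat_lit 76) (nat_lit 134445226160) (nat_lit 1) (nat_lit 4) (nat_lit 2) (nat_lit 5) (nat_lit 2) (nat_lit 4) (nat_lit 375) (nat_lit 203) (nat_lit 202))))))) (XT.nd (nat_lit 780) (nat_lit 0) (nat_lit 0) (XT.nd (nat_lit 390) (nat_lit 0) (nat_lit 0) (XT.nd (nat_lit 156) (nat_lit 0) (nat_lit 0) (XT.nd (nat_lit 78) (nat_lit 0) (nat_lit 0) (XT.lf (nat_lit 0) (nat_lit 37046340548) (nat_lit 76) (nat_lit 139677016141) (nat_lit 76) (nat_lit 139552038047) (nat_lit 1) (nat_lit 4) (nat_lit 2) (nat_lit 5) (nat_lit 2) (nat_lit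 4) (nat_lit 376) (nat_lit 203) (nat_lit 201)) (XT.lf (nat_lit 0) (nat_lit 41895497697) (nat_lit 76) (nat_lit 145149335128) (nat_lit 76) (nat_lit 144966295202) (nat_lit 1) (nat_lit 4) (nat_lit 2) (nat_lit 5) (nat_lit 2) (nat_lit 4) (nat_lit 377) (nat_lit 203) (nat_lit 200))) (XT.nd (nat_lit 78) (nat_lit 0) (nat_lit 0) (XT.lf (nat_lit 0) (nat_lit 46895908565) (nat_lit 76) (nat_lit 150939225623) (nat_lit 76) (nat_lit 150700888713) (nat_lit 1) (nat_lit 4) (nat_lit 2) (nat_lit 5) (nat_lit 2) (nat_lit 4) (nat_lit 378) (nat_lit 203) (nat_lit 199)) (XT.nd (nat_lit 78) (nat_lit 0) (nat_lit 0) (XT.lf (nat_lit 0) (nat_lit 52059478891) (nat_lit 76) (nat_lit 157060473079) (nat_lit 76) (nat_lit 156769472375) (nat_lit 1) (nat_lit 4) (nat_lit 2) (nat_lit 5) (nat_lit 2) (nat_lit 4) (nat_lit 379) (nat_lit 203) (nat_lit 198)) (XT.lf (nat_lit 0) (nat_lit 57398502889) (nat_lit 76) (nat_lit 163527651894)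 (nat_lit 76) (nat_lit 163186495196) (nat_lit 1) (nat_lit 4) (nat_lit 2) (nat_lit 5) (nat_lit 2) (nat_lit 4) (nat_lit 380) (nat_lit 203) (nat_lit 197))))) (XT.nd (nat_lit 156) (nat_lit 0) (nat_lit 0) (XT.nd (nat_lit 78) (nat_lit 0) (nat_lit 0) (XT.lf (nat_lit 0) (nat_lit 62925692523) (nat_lit 76) (nat_lit 170356160114) (nat_lit 76) (nat_lit 169967235803) (nat_lit 1) (nat_lit 4) (nat_lit 2) (nat_lit 5) (nat_lit 2) (nat_lit 4) (nat_lit 381) (nat_lit 203) (nat_lit 196)) (XT.lf (nat_lit 0) (nat_lit 68654207766) (nat_lit 76) (nat_lit 177562256091) (nat_lit 76) (nat_lit 177127838815) (nat_lit 1) (nat_lit 4) (nat_lit 2) (nat_lit 5) (nat_lit 2) (nat_lit 4) (nat_lit 382) (nat_lit 203) (nat_lit 195))) (XT.nd (nat_lit 78) (nat_lit 0) (nat_lit 0) (XT.lf (nat_lit 0) (nat_lit 74597687942) (nat_lit 76) (nat_lit 185163097197) (nat_lit 76) (nat_lit 184685353287) (nat_lit 1) (nat_lit 4) (nat_lit 2) (nat_lit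 5) (nat_lit 2) (nat_lit 4) (nat_lit 383) (nat_lit 203) (nat_lit 194)) (XT.nd (nat_lit 78) (nat_lit 0) (nat_lit 0) (XT.lf (nat_lit 0) (nat_lit 80770284194) (nat_lit 76) (nat_lit 193176780672) (nat_lit 76) (nat_lit 192657773302) (nat_lit 1) (nat_lit 4) (nat_lit 2) (nat_lit 5) (nat_lit 2) (nat_lit 4) (nat_lit 384) (nat_lit 203) (nat_lit 193)) (XT.lf (nat_lit 0) (nat_lit 87186693178) (nat_lit 76) (nat_lit 201622386715) (nat_lit 76) (nat_lit 201064080812) (nat_lit 1) (nat_lit 4) (nat_lit 2) (nat_lit 5) (nat_lit 2) (nat_lit 4) (nat_lit 385) (nat_lit 203) (nat_lit 192)))))) (XT.nd (nat_lit 390) (nat_lit 0) (nat_lit 0) (XT.nd (nat_lit 156) (nat_lit 0) (nat_lit 0) (XT.nd (nat_lit 78) (nat_lit 0) (nat_lit 0) (XT.lf (nat_lit 0) (nat_lit 93862192060) (nat_lit 76) (nat_lit 210520023913) (nat_lit 76) (nat_lit 209924290834) (nat_lit 1) (nat_lit 4) (nat_lit 2) (nat_lit 5) (nat_lit 2) (nat_lit 4) (nat_lit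 386) (nat_lit 203) (nat_lit 191)) (XT.lf (nat_lit 0) (nat_lit 100812674885) (nat_lit 76) (nat_lit 219890877115) (nat_lit 76) (nat_lit 219259499108) (nat_lit 1) (nat_lit 4) (nat_lit 2) (nat_lit 5) (nat_lit 2) (nat_lit 4) (nat_lit 387) (nat_lit 203) (nat_lit 190))) (XT.nd (nat_lit 78) (nat_lit 0) (nat_lit 0) (XT.lf (nat_lit 0) (nat_lit 108054690421) (nat_lit 76) (nat_lit 229757257876) (nat_lit 76) (nat_lit 229091932319) (nat_lit 1) (nat_lit 4) (nat_lit 2) (nat_lit 5) (nat_lit 2) (nat_lit 4) (nat_lit 388) (nat_lit 203) (nat_lit 189)) (XT.nd (nat_lit 78) (nat_lit 0) (nat_lit 0) (XT.lf (nat_lit 0) (nat_lit 115605481562) (nat_lit 76) (nat_lit 240142657580) (nat_lit 76) (nat_lit 239445001022) (nat_lit 1) (nat_lit 4) (nat_lit 2) (nat_lit 5) (nat_lit 2) (nat_lit 4) (nat_lit 389) (nat_lit 203) (nat_lit 188)) (XT.lf (nat_lit 0) (nat_lit 123483026382) (nat_lit 76) (nat_lit 251071803369) (nat_lit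 76) (nat_lit 250343355381) (nat_lit 1) (nat_lit 4) (nat_lit 2) (nat_lit 5) (nat_lit 2) (nat_lit 4) (nat_lit 390) (nat_lit 203) (nat_lit 187))))) (XT.nd (nat_lit 234) (nat_lit 0) (nat_lit 0) (XT.nd (nat_lit 78) (nat_lit 0) (nat_lit 0) (XT.lf (nat_lit 0) (nat_lit 131706080941) (nat_lit 76) (nat_lit 262570717018) (nat_lit 76) (nat_lit 261812943859) (nat_lit 1) (nat_lit 4) (nat_lit 2) (nat_lit 5) (nat_lit 2) (nat_lit 4) (nat_lit 391) (nat_lit 203) (nat_lit 186)) (XT.nd (nat_lit 78) (nat_lit 0) (nat_lit 0) (XT.lf (nat_lit 0) (nat_lit 140294223940) (nat_lit 76) (nat_lit 274666776893) (nat_lit 76) (nat_lit 273881075000) (nat_lit 1) (nat_lit 4) (nat_lit 2) (nat_lit 5) (nat_lit 2) (nat_lit 4) (nat_lit 392) (nat_lit 203) (nat_lit 185)) (XT.lf (nat_lit 0) (nat_lit 149267903337) (nat_lit 76) (nat_lit 287388783137) (nat_lit 76) (nat_lit 286576482450) (nat_lit 1) (nat_lit 4) (nat_lit 2) (nat_lit 5)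 (nat_lit 2) (nat_lit 4) (nat_lit 393) (nat_lit 203) (nat_lit 184)))) (XT.nd (nat_lit 38922) (nat_lit 0) (nat_lit 0) (XT.lf (nat_lit 0) (nat_lit 158648485038) (nat_lit 76) (nat_lit 300767026241) (nat_lit 76) (nat_lit 299929393368) (nat_lit 1) (nat_lit 4) (nat_lit 2) (nat_lit 5) (nat_lit 2) (nat_lit 4) (nat_lit 394) (nat_lit 203) (nat_lit 183)) (XT.nd (nat_lit 78) (nat_lit 0) (nat_lit 0) (XT.lf (nat_lit 0) (nat_lit 9495122329) (nat_lit 76) (nat_lit 60377361150) (nat_lit 76) (nat_lit 60377361150) (nat_lit 1) (nat_lit 4) (nat_lit 2) (nat_lit 5) (nat_lit 2) (nat_lit 4) (nat_lit 372) (nat_lit 204) (nat_lit 204)) (XT.lf (nat_lit 0) (nat_lit 23292571776) (nat_lit 76) (nat_lit 125106004949) (nat_lit 76) (nat_lit 125038791120) (nat_lit 1) (nat_lit 4) (nat_lit 2) (nat_lit 5) (nat_lit 2) (nat_lit 4) (nat_lit 373) (nat_lit 204) (nat_lit 203))))))))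
noncomputable def xc3 : XT := (XT.nd (nat_lit 40326) (nat_lit 0) (nat_lit 0) (XT.nd (nat_lit 780) (nat_lit 0) (nat_lit 0) (XT.nd (nat_lit 390) (nat_lit 0) (nat_lit 0) (XT.nd (nat_lit 156) (nat_lit 0) (nat_lit 0) (XT.nd (nat_lit 78) (nat_lit 0) (nat_lit 0) (XT.lf (nat_lit 0) (nat_lit 27704435058) (nat_lit 76) (nat_lit 129725735783) (nat_lit 76) (nat_lit 129594508784) (nat_lit 1) (nat_lit 4) (nat_lit 2) (nat_lit 5) (nat_lit 2) (nat_lit 4) (nat_lit 374) (nat_lit 204) (nat_lit 202)) (XT.lf (nat_lit 0) (nat_lit 32236338939) (nat_lit 76) (nat_lit 134624914162) (nat_lit 76) (nat_lit 134432722238) (nat_lit 1) (nat_lit 4) (nat_lit 2) (nat_lit 5) (nat_lit 2) (nat_lit 4) (nat_lit 375) (nat_lit 204) (nat_lit 201))) (XT.nd (nat_lit 78) (nat_lit 0) (nat_lit 0) (XT.lf (nat_lit 0) (nat_lit 36899073668) (nat_lit 76) (nat_lit 139815204795) (nat_lit 76) (nat_lit 139564951039) (nat_lit 1) (nat_lit 4) (nat_lit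 2) (nat_lit 5) (nat_lit 2) (nat_lit 4) (nat_lit 376) (nat_lit 204) (nat_lit 200)) (XT.nd (nat_lit 78) (nat_lit 0) (nat_lit 0) (XT.lf (nat_lit 0) (nat_lit 41703740994) (nat_lit 76) (nat_lit 145308965518) (nat_lit 76) (nat_lit 145003414779) (nat_lit 1) (nat_lit 4) (nat_lit 2) (nat_lit 5) (nat_lit 2) (nat_lit 4) (nat_lit 377) (nat_lit 204) (nat_lit 199)) (XT.lf (nat_lit 0) (nat_lit 46661780600) (nat_lit 76) (nat_lit 151119276713) (nat_lit 76) (nat_lit 150761062181) (nat_lit 1) (nat_lit 4) (nat_lit 2) (nat_lit 5) (nat_lit 2) (nat_lit 4) (nat_lit 378) (nat_lit 204) (nat_lit 198))))) (XT.nd (nat_lit 156) (nat_lit 0) (nat_lit 0) (XT.nd (nat_lit 78) (nat_lit 0) (nat_lit 0) (XT.lf (nat_lit 0) (nat_lit 51784997344) (nat_lit 76) (nat_lit 157259972455) (nat_lit 76) (nat_lit 156851601929) (nat_lit 1) (nat_lit 4) (nat_lit 2) (nat_lit 5) (nat_lit 2) (nat_lit 4) (nat_lit 379) (nat_lit 204) (nat_lit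 197)) (XT.lf (nat_lit 0) (nat_lit 57085589359) (nat_lit 76) (nat_lit 163745673448) (nat_lit 76) (nat_lit 163289535308) (nat_lit 1) (nat_lit 4) (nat_lit 2) (nat_lit 5) (nat_lit 2) (nat_lit 4) (nat_lit 380) (nat_lit 204) (nat_lit 196))) (XT.nd (nat_lit 78) (nat_lit 0) (nat_lit 0) (XT.lf (nat_lit 0) (nat_lit 62576177104) (nat_lit 76) (nat_lit 170591821837) (nat_lit 76) (nat_lit 170090190732) (nat_lit 1) (nat_lit 4) (nat_lit 2) (nat_lit 5) (nat_lit 2) (nat_lit 4) (nat_lit 381) (nat_lit 204) (nat_lit 195)) (XT.nd (nat_lit 78) (nat_lit 0) (nat_lit 0) (XT.lf (nat_lit 0) (nat_lit 68269833406) (nat_lit 76) (nat_lit 177814717975) (nat_lit 76) (nat_lit 177269760236) (nat_lit 1) (nat_lit 4) (nat_lit 2) (nat_lit 5) (nat_lit 2) (nat_lit 4) (nat_lit 382) (nat_lit 204) (nat_lit 194)) (XT.lf (nat_lit 0) (nat_lit 74180114590) (nat_lit 76) (nat_lit 185431559234) (nat_lit 76) (nat_lit 184845338035) (nat_lit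 1) (nat_lit 4) (nat_lit 2) (nat_lit 5) (nat_lit 2) (nat_lit 4) (nat_lit 383) (nat_lit 204) (nat_lit 193)))))) (XT.nd (nat_lit 390) (nat_lit 0) (nat_lit 0) (XT.nd (nat_lit 156) (nat_lit 0) (nat_lit 0) (XT.nd (nat_lit 78) (nat_lit 0) (nat_lit 0) (XT.lf (nat_lit 0) (nat_lit 80321092754) (nat_lit 76) (nat_lit 193460480950) (nat_lit 76) (nat_lit 192834961218) (nat_lit 1) (nat_lit 4) (nat_lit 2) (nat_lit 5) (nat_lit 2) (nat_lit 4) (nat_lit 384) (nat_lit 204) (nat_lit 192)) (XT.lf (nat_lit 0) (nat_lit 86707389275) (nat_lit 76) (nat_lit 201920599604) (nat_lit 76) (nat_lit 201257652697) (nat_lit 1) (nat_lit 4) (nat_lit 2) (nat_lit 5) (nat_lit 2) (nat_lit 4) (nat_lit 385) (nat_lit 204) (nat_lit 191))) (XT.nd (nat_lit 78) (nat_lit 0) (nat_lit 0) (XT.lf (nat_lit 0) (nat_lit 93354209620) (nat_lit 76) (nat_lit 210832058335) (nat_lit 76) (nat_lit 210133466500) (nat_lit 1) (nat_lit 4) (nat_lit 2) (nat_lit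 5) (nat_lit 2) (nat_lit 4) (nat_lit 386) (nat_lit 204) (nat_lit 190)) (XT.nd (nat_lit 78) (nat_lit 0) (nat_lit 0) (XT.lf (nat_lit 0) (nat_lit 100277379552) (nat_lit 76) (nat_lit 220216074903) (nat_lit 76) (nat_lit 219483535516) (nat_lit 1) (nat_lit 4) (nat_lit 2) (nat_lit 5) (nat_lit 2) (nat_lit 4) (nat_lit 387) (nat_lit 204) (nat_lit 189)) (XT.lf (nat_lit 0) (nat_lit 107493382808) (nat_lit 76) (nat_lit 230094992203) (nat_lit 76) (nat_lit 229330121816) (nat_lit 1) (nat_lit 4) (nat_lit 2) (nat_lit 5) (nat_lit 2) (nat_lit 4) (nat_lit 388) (nat_lit 204) (nat_lit 188))))) (XT.nd (nat_lit 234) (nat_lit 0) (nat_lit 0) (XT.nd (nat_lit 78) (nat_lit 0) (nat_lit 0) (XT.lf (nat_lit 0) (nat_lit 115019400351) (nat_lit 76) (nat_lit 240492331468) (nat_lit 76) (nat_lit 239696669651) (nat_lit 1) (nat_lit 4) (nat_lit 2) (nat_lit 5) (nat_lit 2) (nat_lit 4) (nat_lit 389) (nat_lit 204) (nat_lit 187)) (XT.nd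 (nat_lit 78) (nat_lit 0) (nat_lit 0) (XT.lf (nat_lit 0) (nat_lit 122873351267) (nat_lit 76) (nat_lit 251432848267) (nat_lit 76) (nat_lit 250607861279) (nat_lit 1) (nat_lit 4) (nat_lit 2) (nat_lit 5) (nat_lit 2) (nat_lit 4) (nat_lit 390) (nat_lit 204) (nat_lit 186)) (XT.lf (nat_lit 0) (nat_lit 131073935442) (nat_lit 76) (nat_lit 262942591449) (nat_lit 76) (nat_lit 262089675728) (nat_lit 1) (nat_lit 4) (nat_lit 2) (nat_lit 5) (nat_lit 2) (nat_lit 4) (nat_lit 391) (nat_lit 204) (nat_lit 185)))) (XT.nd (nat_lit 78) (nat_lit 0) (nat_lit 0) (XT.lf (nat_lit 0) (nat_lit 139640678074) (nat_lit 76) (nat_lit 275048965166) (nat_lit 76) (nat_lit 274169450650) (nat_lit 1) (nat_lit 4) (nat_lit 2) (nat_lit 5) (nat_lit 2) (nat_lit 4) (nat_lit 392) (nat_lit 204) (nat_lit 184)) (XT.nd (nat_lit 78) (nat_lit 0) (nat_lit 0) (XT.lf (nat_lit 0) (nat_lit 148593976171) (nat_lit 76) (nat_lit 287780794116) (nat_lit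 76) (nat_lit 286875947415) (nat_lit 1) (nat_lit 4) (nat_lit 2) (nat_lit 5) (nat_lit 2) (nat_lit 4) (nat_lit 393) (nat_lit 204) (nat_lit 183)) (XT.lf (nat_lit 0) (nat_lit 157955147108) (nat_lit 76) (nat_lit 301168392178) (nat_lit 76) (nat_lit 300239419586) (nat_lit 1) (nat_lit 4) (nat_lit 2) (nat_lit 5) (nat_lit 2) (nat_lit 4) (nat_lit 394) (nat_lit 204) (nat_lit 182))))))) (XT.nd (nat_lit 780) (nat_lit 0) (nat_lit 0) (XT.nd (nat_lit 390) (nat_lit 0) (nat_lit 0) (XT.nd (nat_lit 156) (nat_lit 0) (nat_lit 0) (XT.nd (nat_lit 78) (nat_lit 0) (nat_lit 0) (XT.lf (nat_lit 0) (nat_lit 5365121162) (nat_lit 76) (nat_lit 56429942047) (nat_lit 76) (nat_lit 56429942047) (nat_lit 1) (nat_lit 4) (nat_lit 2) (nat_lit 5) (nat_lit 2) (nat_lit 4) (nat_lit 370) (nat_lit 205) (nat_lit 205)) (XT.lf (nat_lit 0) (nat_lit 14787210069) (nat_lit 76) (nat_lit 116732102160) (nat_lit 76) (nat_lit 116661527640) (nat_lit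 1) (nat_lit 4) (nat_lit 2) (nat_lit 5) (nat_lit 2) (nat_lit 4) (nat_lit 371) (nat_lit 205) (nat_lit 204))) (XT.nd (nat_lit 78) (nat_lit 0) (nat_lit 0) (XT.lf (nat_lit 0) (nat_lit 18936166999) (nat_lit 76) (nat_lit 120851359384) (nat_lit 76) (nat_lit 120713571035) (nat_lit 1) (nat_lit 4) (nat_lit 2) (nat_lit 5) (nat_lit 2) (nat_lit 4) (nat_lit 372) (nat_lit 205) (nat_lit 203)) (XT.nd (nat_lit 78) (nat_lit 0) (nat_lit 0) (XT.lf (nat_lit 0) (nat_lit 23186991584) (nat_lit 76) (nat_lit 125227463522) (nat_lit 76) (nat_lit 125025662003) (nat_lit 1) (nat_lit 4) (nat_lit 2) (nat_lit 5) (nat_lit 2) (nat_lit 4) (nat_lit 373) (nat_lit 205) (nat_lit 202)) (XT.lf (nat_lit 0) (nat_lit 27549804834) (nat_lit 76) (nat_lit 129870833870) (nat_lit 76) (nat_lit 129608067426) (nat_lit 1) (nat_lit 4) (nat_lit 2) (nat_lit 5) (nat_lit 2) (nat_lit 4) (nat_lit 374) (nat_lit 205) (nat_lit 201))))) (XT.nd (nat_lit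 156) (nat_lit 0) (nat_lit 0) (XT.nd (nat_lit 78) (nat_lit 0) (nat_lit 0) (XT.lf (nat_lit 0) (nat_lit 32034994400) (nat_lit 76) (nat_lit 134792526071) (nat_lit 76) (nat_lit 134471697795) (nat_lit 1) (nat_lit 4) (nat_lit 2) (nat_lit 5) (nat_lit 2) (nat_lit 4) (nat_lit 375) (nat_lit 205) (nat_lit 200)) (XT.lf (nat_lit 0) (nat_lit 36653239305) (nat_lit 76) (nat_lit 140004258439) (nat_lit 76) (nat_lit 139628133180) (nat_lit 1) (nat_lit 4) (nat_lit 2) (nat_lit 5) (nat_lit 2) (nat_lit 4) (nat_lit 376) (nat_lit 205) (nat_lit 199))) (XT.nd (nat_lit 78) (nat_lit 0) (nat_lit 0) (XT.lf (nat_lit 0) (nat_lit 41415535369) (nat_lit 76) (nat_lit 145518439863) (nat_lit 76) (nat_lit 145089650810) (nat_lit 1) (nat_lit 4) (nat_lit 2) (nat_lit 5) (nat_lit 2) (nat_lit 4) (nat_lit 377) (nat_lit 205) (nat_lit 198)) (XT.nd (nat_lit 78) (nat_lit 0) (nat_lit 0) (XT.lf (nat_lit 0) (nat_lit 46333221394) (nat_lit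 76) (nat_lit 151348199345) (nat_lit 76) (nat_lit 150869254298) (nat_lit 1) (nat_lit 4) (nat_lit 2) (nat_lit 5) (nat_lit 2) (nat_lit 4) (nat_lit 378) (nat_lit 205) (nat_lit 197)) (XT.lf (nat_lit 0) (nat_lit 51418006154) (nat_lit 76) (nat_lit 157507417264) (nat_lit 76) (nat_lit 156980704604) (nat_lit 1) (nat_lit 4) (nat_lit 2) (nat_lit 5) (nat_lit 2) (nat_lit 4) (nat_lit 379) (nat_lit 205) (nat_lit 196)))))) (XT.nd (nat_lit 390) (nat_lit 0) (nat_lit 0) (XT.nd (nat_lit 156) (nat_lit 0) (nat_lit 0) (XT.nd (nat_lit 78) (nat_lit 0) (nat_lit 0) (XT.lf (nat_lit 0) (nat_lit 56681996281) (nat_lit 76) (nat_lit 164010758426) (nat_lit 76) (nat_lit 163438552801) (nat_lit 1) (nat_lit 4) (nat_lit 2) (nat_lit 5) (nat_lit 2) (nat_lit 4) (nat_lit 380) (nat_lit 205) (nat_lit 195)) (XT.lf (nat_lit 0) (nat_lit 62137725085) (nat_lit 76) (nat_lit 170873706975) (nat_lit 76) (nat_lit 170258174717) (nat_lit 1)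 (nat_lit 4) (nat_lit 2) (nat_lit 5) (nat_lit 2) (nat_lit 4) (nat_lit 381) (nat_lit 205) (nat_lit 194))) (XT.nd (nat_lit 78) (nat_lit 0) (nat_lit 0) (XT.lf (nat_lit 0) (nat_lit 67798182395) (nat_lit 76) (nat_lit 178112603266) (nat_lit 76) (nat_lit 177455807548) (nat_lit 1) (nat_lit 4) (nat_lit 2) (nat_lit 5) (nat_lit 2) (nat_lit 4) (nat_lit 382) (nat_lit 205) (nat_lit 193)) (XT.nd (nat_lit 78) (nat_lit 0) (nat_lit 0) (XT.lf (nat_lit 0) (nat_lit 73676845492) (nat_lit 76) (nat_lit 185744682767) (nat_lit 76) (nat_lit 185048588514) (nat_lit 1) (nat_lit 4) (nat_lit 2) (nat_lit 5) (nat_lit 2) (nat_lit 4) (nat_lit 383) (nat_lit 205) (nat_lit 192)) (XT.lf (nat_lit 0) (nat_lit 79787711192) (nat_lit 76) (nat_lit 193788117094) (nat_lit 76) (nat_lit 193054595666) (nat_lit 1) (nat_lit 4) (nat_lit 2) (nat_lit 5) (nat_lit 2) (nat_lit 4) (nat_lit 384) (nat_lit 205) (nat_lit 191))))) (XT.nd (nat_lit 234)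 (nat_lit 0) (nat_lit 0) (XT.nd (nat_lit 78) (nat_lit 0) (nat_lit 0) (XT.lf (nat_lit 0) (nat_lit 86145329175) (nat_lit 76) (nat_lit 202262057282) (nat_lit 76) (nat_lit 201492890926) (nat_lit 1) (nat_lit 4) (nat_lit 2) (nat_lit 5) (nat_lit 2) (nat_lit 4) (nat_lit 385) (nat_lit 205) (nat_lit 190)) (XT.nd (nat_lit 78) (nat_lit 0) (nat_lit 0) (XT.lf (nat_lit 0) (nat_lit 92764836627) (nat_lit 76) (nat_lit 211186679379) (nat_lit 76) (nat_lit 210383565472) (nat_lit 1) (nat_lit 4) (nat_lit 2) (nat_lit 5) (nat_lit 2) (nat_lit 4) (nat_lit 386) (nat_lit 205) (nat_lit 189)) (XT.lf (nat_lit 0) (nat_lit 99661994280) (nat_lit 76) (nat_lit 220583232485) (nat_lit 76) (nat_lit 219747787577) (nat_lit 1) (nat_lit 4) (nat_lit 2) (nat_lit 5) (nat_lit 2) (nat_lit 4) (nat_lit 387) (nat_lit 205) (nat_lit 188)))) (XT.nd (nat_lit 78) (nat_lit 0) (nat_lit 0) (XT.lf (nat_lit 0) (nat_lit 106853223938) (nat_lit 76)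 (nat_lit 230474089346) (nat_lit 76) (nat_lit 229607853009) (nat_lit 1) (nat_lit 4) (nat_lit 2) (nat_lit 5) (nat_lit 2) (nat_lit 4) (nat_lit 388) (nat_lit 205) (nat_lit 187)) (XT.nd (nat_lit 78) (nat_lit 0) (nat_lit 0) (XT.lf (nat_lit 0) (nat_lit 114355647576) (nat_lit 76) (nat_lit 240882799621) (nat_lit 76) (nat_lit 239987238113) (nat_lit 1) (nat_lit 4) (nat_lit 2) (nat_lit 5) (nat_lit 2) (nat_lit 4) (nat_lit 389) (nat_lit 205) (nat_lit 186)) (XT.lf (nat_lit 0) (nat_lit 122187128108) (nat_lit 76) (nat_lit 251834145953) (nat_lit 76) (nat_lit 250910655711) (nat_lit 1) (nat_lit 4) (nat_lit 2) (nat_lit 5) (nat_lit 2) (nat_lit 4) (nat_lit 390) (nat_lit 205) (nat_lit 185))))))))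
noncomputable def xc4 : XT := (XT.nd (nat_lit 40092) (nat_lit 0) (nat_lit 0) (XT.nd (nat_lit 39312) (nat_lit 0) (nat_lit 0) (XT.nd (nat_lit 38922) (nat_lit 0) (nat_lit 0) (XT.nd (nat_lit 156) (nat_lit 0) (nat_lit 0) (XT.nd (nat_lit 78) (nat_lit 0) (nat_lit 0) (XT.lf (nat_lit 0) (nat_lit 130366311917) (nat_lit 76) (nat_lit 263354202977) (nat_lit 76) (nat_lit 262404113941) (nat_lit 1) (nat_lit 4) (nat_lit 2) (nat_lit 5) (nat_lit 2) (nat_lit 4) (nat_lit 391) (nat_lit 205) (nat_lit 184)) (XT.lf (nat_lit 0) (nat_lit 138912673248) (nat_lit 76) (nat_lit 275470399400) (nat_lit 76) (nat_lit 274494978178) (nat_lit 1) (nat_lit 4) (nat_lit 2) (nat_lit 5) (nat_lit 2) (nat_lit 4) (nat_lit 392) (nat_lit 205) (nat_lit 183))) (XT.nd (nat_lit 78) (nat_lit 0) (nat_lit 0) (XT.lf (nat_lit 0) (nat_lit 147846560582) (nat_lit 76) (nat_lit 288211583308) (nat_lit 76) (nat_lit 287212036196) (nat_lit 1) (nat_lit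 4) (nat_lit 2) (nat_lit 5) (nat_lit 2) (nat_lit 4) (nat_lit 393) (nat_lit 205) (nat_lit 182)) (XT.nd (nat_lit 38610) (nat_lit 0) (nat_lit 0) (XT.lf (nat_lit 0) (nat_lit 157189245078) (nat_lit 76) (nat_lit 301608090854) (nat_lit 76) (nat_lit 300585566703) (nat_lit 1) (nat_lit 4) (nat_lit 2) (nat_lit 5) (nat_lit 2) (nat_lit 4) (nat_lit 394) (nat_lit 205) (nat_lit 181)) (XT.lf (nat_lit 0) (nat_lit 1456726622) (nat_lit 76) (nat_lit 52932811340) (nat_lit 76) (nat_lit 52932811340) (nat_lit 1) (nat_lit 4) (nat_lit 2) (nat_lit 5) (nat_lit 2) (nat_lit 4) (nat_lit 368) (nat_lit 206) (nat_lit 206))))) (XT.nd (nat_lit 156) (nat_lit 0) (nat_lit 0) (XT.nd (nat_lit 78) (nat_lit 0) (nat_lit 0) (XT.lf (nat_lit 0) (nat_lit 6755604317) (nat_lit 76) (nat_lit 109299588868) (nat_lit 76) (nat_lit 109225485621) (nat_lit 1) (nat_lit 4) (nat_lit 2) (nat_lit 5) (nat_lit 2) (nat_lit 4) (nat_lit 369) (nat_lit 206)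 (nat_lit 205)) (XT.lf (nat_lit 0) (nat_lit 10673460781) (nat_lit 76) (nat_lit 112961353033) (nat_lit 76) (nat_lit 112816675266) (nat_lit 1) (nat_lit 4) (nat_lit 2) (nat_lit 5) (nat_lit 2) (nat_lit 4) (nat_lit 370) (nat_lit 206) (nat_lit 204))) (XT.nd (nat_lit 78) (nat_lit 0) (nat_lit 0) (XT.lf (nat_lit 0) (nat_lit 14676350867) (nat_lit 76) (nat_lit 116859633662) (nat_lit 76) (nat_lit 116647742066) (nat_lit 1) (nat_lit 4) (nat_lit 2) (nat_lit 5) (nat_lit 2) (nat_lit 4) (nat_lit 371) (nat_lit 206) (nat_lit 203)) (XT.nd (nat_lit 78) (nat_lit 0) (nat_lit 0) (XT.lf (nat_lit 0) (nat_lit 18773805265) (nat_lit 76) (nat_lit 121003712375) (nat_lit 76) (nat_lit 120727807609) (nat_lit 1) (nat_lit 4) (nat_lit 2) (nat_lit 5) (nat_lit 2) (nat_lit 4) (nat_lit 372) (nat_lit 206) (nat_lit 202)) (XT.lf (nat_lit 0) (nat_lit 22975579818) (nat_lit 76) (nat_lit 125403456027) (nat_lit 76) (nat_lit 125066586337)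 (nat_lit 1) (nat_lit 4) (nat_lit 2) (nat_lit 5) (nat_lit 2) (nat_lit 4) (nat_lit 373) (nat_lit 206) (nat_lit 201)))))) (XT.nd (nat_lit 390) (nat_lit 0) (nat_lit 0) (XT.nd (nat_lit 156) (nat_lit 0) (nat_lit 0) (XT.nd (nat_lit 78) (nat_lit 0) (nat_lit 0) (XT.lf (nat_lit 0) (nat_lit 27291678753) (nat_lit 76) (nat_lit 130069340197) (nat_lit 76) (nat_lit 129674408674) (nat_lit 1) (nat_lit 4) (nat_lit 2) (nat_lit 5) (nat_lit 2) (nat_lit 4) (nat_lit 374) (nat_lit 206) (nat_lit 200)) (XT.lf (nat_lit 0) (nat_lit 31732378495) (nat_lit 76) (nat_lit 135012474133) (nat_lit 76) (nat_lit 134562245627) (nat_lit 1) (nat_lit 4) (nat_lit 2) (nat_lit 5) (nat_lit 2) (nat_lit 4) (nat_lit 375) (nat_lit 206) (nat_lit 199))) (XT.nd (nat_lit 78) (nat_lit 0) (nat_lit 0) (XT.lf (nat_lit 0) (nat_lit 36308252138) (nat_lit 76) (nat_lit 140244627203) (nat_lit 76) (nat_lit 139741734903) (nat_lit 1) (nat_lit 4) (nat_lit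 2) (nat_lit 5) (nat_lit 2) (nat_lit 4) (nat_lit 376) (nat_lit 206) (nat_lit 198)) (XT.nd (nat_lit 78) (nat_lit 0) (nat_lit 0) (XT.lf (nat_lit 0) (nat_lit 41030194621) (nat_lit 76) (nat_lit 145778256912) (nat_lit 76) (nat_lit 145225208619) (nat_lit 1) (nat_lit 4) (nat_lit 2) (nat_lit 5) (nat_lit 2) (nat_lit 4) (nat_lit 377) (nat_lit 206) (nat_lit 197)) (XT.lf (nat_lit 0) (nat_lit 45909448662) (nat_lit 76) (nat_lit 151626538571) (nat_lit 76) (nat_lit 151025722665) (nat_lit 1) (nat_lit 4) (nat_lit 2) (nat_lit 5) (nat_lit 2) (nat_lit 4) (nat_lit 378) (nat_lit 206) (nat_lit 196))))) (XT.nd (nat_lit 156) (nat_lit 0) (nat_lit 0) (XT.nd (nat_lit 78) (nat_lit 0) (nat_lit 0) (XT.lf (nat_lit 0) (nat_lit 50957631534) (nat_lit 76) (nat_lit 157803396660) (nat_lit 76) (nat_lit 157157087788) (nat_lit 1) (nat_lit 4) (nat_lit 2) (nat_lit 5) (nat_lit 2) (nat_lit 4) (nat_lit 379) (nat_lit 206) (nat_lit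 195)) (XT.lf (nat_lit 0) (nat_lit 56186762720) (nat_lit 76) (nat_lit 164323537982) (nat_lit 76) (nat_lit 163633902477) (nat_lit 1) (nat_lit 4) (nat_lit 2) (nat_lit 5) (nat_lit 2) (nat_lit 4) (nat_lit 380) (nat_lit 206) (nat_lit 194))) (XT.nd (nat_lit 78) (nat_lit 0) (nat_lit 0) (XT.lf (nat_lit 0) (nat_lit 61609292531) (nat_lit 76) (nat_lit 171202486685) (nat_lit 76) (nat_lit 170471587720) (nat_lit 1) (nat_lit 4) (nat_lit 2) (nat_lit 5) (nat_lit 2) (nat_lit 4) (nat_lit 381) (nat_lit 206) (nat_lit 193)) (XT.nd (nat_lit 78) (nat_lit 0) (nat_lit 0) (XT.lf (nat_lit 0) (nat_lit 67238131754) (nat_lit 76) (nat_lit 178456621217) (nat_lit 76) (nat_lit 177686423719) (nat_lit 1) (nat_lit 4) (nat_lit 2) (nat_lit 5) (nat_lit 2) (nat_lit 4) (nat_lit 382) (nat_lit 206) (nat_lit 192)) (XT.lf (nat_lit 0) (nat_lit 73086682387) (nat_lit 76) (nat_lit 186103213328) (nat_lit 76) (nat_lit 185295588655) (nat_lit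 1) (nat_lit 4) (nat_lit 2) (nat_lit 5) (nat_lit 2) (nat_lit 4) (nat_lit 383) (nat_lit 206) (nat_lit 191))))))) (XT.nd (nat_lit 39234) (nat_lit 0) (nat_lit 0) (XT.nd (nat_lit 390) (nat_lit 0) (nat_lit 0) (XT.nd (nat_lit 156) (nat_lit 0) (nat_lit 0) (XT.nd (nat_lit 78) (nat_lit 0) (nat_lit 0) (XT.lf (nat_lit 0) (nat_lit 79168869549) (nat_lit 76) (nat_lit 194160469189) (nat_lit 76) (nat_lit 193317199587) (nat_lit 1) (nat_lit 4) (nat_lit 2) (nat_lit 5) (nat_lit 2) (nat_lit 4) (nat_lit 384) (nat_lit 206) (nat_lit 190)) (XT.lf (nat_lit 0) (nat_lit 85499174639) (nat_lit 76) (nat_lit 202647572743) (nat_lit 76) (nat_lit 201770355590) (nat_lit 1) (nat_lit 4) (nat_lit 2) (nat_lit 5) (nat_lit 2) (nat_lit 4) (nat_lit 385) (nat_lit 206) (nat_lit 189))) (XT.nd (nat_lit 78) (nat_lit 0) (nat_lit 0) (XT.lf (nat_lit 0) (nat_lit 92092669812) (nat_lit 76) (nat_lit 211584731379) (nat_lit 76) (nat_lit 210675183225)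 (nat_lit 1) (nat_lit 4) (nat_lit 2) (nat_lit 5) (nat_lit 2) (nat_lit 4) (nat_lit 386) (nat_lit 206) (nat_lit 188)) (XT.nd (nat_lit 78) (nat_lit 0) (nat_lit 0) (XT.lf (nat_lit 0) (nat_lit 98965053867) (nat_lit 76) (nat_lit 220993224046) (nat_lit 76) (nat_lit 220052884462) (nat_lit 1) (nat_lit 4) (nat_lit 2) (nat_lit 5) (nat_lit 2) (nat_lit 4) (nat_lit 387) (nat_lit 206) (nat_lit 187)) (XT.lf (nat_lit 0) (nat_lit 106132689621) (nat_lit 76) (nat_lit 230895451917) (nat_lit 76) (nat_lit 229925787163) (nat_lit 1) (nat_lit 4) (nat_lit 2) (nat_lit 5) (nat_lit 2) (nat_lit 4) (nat_lit 388) (nat_lit 206) (nat_lit 186))))) (XT.nd (nat_lit 156) (nat_lit 0) (nat_lit 0) (XT.nd (nat_lit 78) (nat_lit 0) (nat_lit 0) (XT.lf (nat_lit 0) (nat_lit 113612642875) (nat_lit 76) (nat_lit 241314991725) (nat_lit 76) (nat_lit 240317398237) (nat_lit 1) (nat_lit 4) (nat_lit 2) (nat_lit 5) (nat_lit 2) (nat_lit 4) (nat_lit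 389) (nat_lit 206) (nat_lit 185)) (XT.lf (nat_lit 0) (nat_lit 121422723041) (nat_lit 76) (nat_lit 252276651899) (nat_lit 76) (nat_lit 251252459616) (nat_lit 1) (nat_lit 4) (nat_lit 2) (nat_lit 5) (nat_lit 2) (nat_lit 4) (nat_lit 390) (nat_lit 206) (nat_lit 184))) (XT.nd (nat_lit 78) (nat_lit 0) (nat_lit 0) (XT.lf (nat_lit 0) (nat_lit 129581525548) (nat_lit 76) (nat_lit 263806531629) (nat_lit 76) (nat_lit 262757007161) (nat_lit 1) (nat_lit 4) (nat_lit 2) (nat_lit 5) (nat_lit 2) (nat_lit 4) (nat_lit 391) (nat_lit 206) (nat_lit 183)) (XT.nd (nat_lit 78) (nat_lit 0) (nat_lit 0) (XT.lf (nat_lit 0) (nat_lit 138108476116) (nat_lit 76) (nat_lit 275932083010) (nat_lit 76) (nat_lit 274858432652) (nat_lit 1) (nat_lit 4) (nat_lit 2) (nat_lit 5) (nat_lit 2) (nat_lit 4) (nat_lit 392) (nat_lit 206) (nat_lit 182)) (XT.lf (nat_lit 0) (nat_lit 147023877009) (nat_lit 76) (nat_lit 288682176403) (nat_lit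 76) (nat_lit 287585549005) (nat_lit 1) (nat_lit 4) (nat_lit 2) (nat_lit 5) (nat_lit 2) (nat_lit 4) (nat_lit 393) (nat_lit 206) (nat_lit 181)))))) (XT.nd (nat_lit 390) (nat_lit 0) (nat_lit 0) (XT.nd (nat_lit 156) (nat_lit 76) (nat_lit 0) (XT.nd (nat_lit 78) (nat_lit 0) (nat_lit 0) (XT.lf (nat_lit 0) (nat_lit 47624753881) (nat_lit 152) (nat_lit 2186487121) (nat_lit 0) (nat_lit 47624753881) (nat_lit 2) (nat_lit 5) (nat_lit 4) (nat_lit 4) (nat_lit 2) (nat_lit 4) (nat_lit 366) (nat_lit 207) (nat_lit 207)) (XT.lf (nat_lit 0) (nat_lit 101880406782) (nat_lit 152) (nat_lit 834546537) (nat_lit 0) (nat_lit 101802598373) (nat_lit 2) (nat_lit 5) (nat_lit 4) (nat_lit 4) (nat_lit 2) (nat_lit 4) (nat_lit 367) (nat_lit 207) (nat_lit 206))) (XT.nd (nat_lit 78) (nat_lit 0) (nat_lit 0) (XT.lf (nat_lit 0) (nat_lit 2853832625) (nat_lit 76) (nat_lit 105972165065) (nat_lit 76) (nat_lit 105820253410) (nat_lit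 1) (nat_lit 4) (nat_lit 2) (nat_lit 5) (nat_lit 2) (nat_lit 4) (nat_lit 368) (nat_lit 207) (nat_lit 205)) (XT.nd (nat_lit 78) (nat_lit 0) (nat_lit 0) (XT.lf (nat_lit 0) (nat_lit 6639202155) (nat_lit 76) (nat_lit 109433496945) (nat_lit 76) (nat_lit 109211010769) (nat_lit 1) (nat_lit 4) (nat_lit 2) (nat_lit 5) (nat_lit 2) (nat_lit 4) (nat_lit 369) (nat_lit 207) (nat_lit 204)) (XT.lf (nat_lit 0) (nat_lit 10502980960) (nat_lit 76) (nat_lit 113121323673) (nat_lit 76) (nat_lit 112831623669) (nat_lit 1) (nat_lit 4) (nat_lit 2) (nat_lit 5) (nat_lit 2) (nat_lit 4) (nat_lit 370) (nat_lit 207) (nat_lit 203))))) (XT.nd (nat_lit 234) (nat_lit 0) (nat_lit 0) (XT.nd (nat_lit 78) (nat_lit 0) (nat_lit 0) (XT.lf (nat_lit 0) (nat_lit 14454368513) (nat_lit 76) (nat_lit 117044425791) (nat_lit 76) (nat_lit 116690712617) (nat_lit 1) (nat_lit 4) (nat_lit 2) (nat_lit 5) (nat_lit 2) (nat_lit 4) (nat_lit 371)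 (nat_lit 207) (nat_lit 202)) (XT.nd (nat_lit 78) (nat_lit 0) (nat_lit 0) (XT.lf (nat_lit 0) (nat_lit 18502772879) (nat_lit 76) (nat_lit 121212144018) (nat_lit 76) (nat_lit 120797465920) (nat_lit 1) (nat_lit 4) (nat_lit 2) (nat_lit 5) (nat_lit 2) (nat_lit 4) (nat_lit 372) (nat_lit 207) (nat_lit 201)) (XT.lf (nat_lit 0) (nat_lit 22657833118) (nat_lit 76) (nat_lit 125634401492) (nat_lit 76) (nat_lit 125161661561) (nat_lit 1) (nat_lit 4) (nat_lit 2) (nat_lit 5) (nat_lit 2) (nat_lit 4) (nat_lit 373) (nat_lit 207) (nat_lit 200)))) (XT.nd (nat_lit 78) (nat_lit 0) (nat_lit 0) (XT.lf (nat_lit 0) (nat_lit 26929442228) (nat_lit 76) (nat_lit 130321727398) (nat_lit 76) (nat_lit 129793690484) (nat_lit 1) (nat_lit 4) (nat_lit 2) (nat_lit 5) (nat_lit 2) (nat_lit 4) (nat_lit 374) (nat_lit 207) (nat_lit 199)) (XT.nd (nat_lit 78) (nat_lit 0) (nat_lit 0) (XT.lf (nat_lit 0) (nat_lit 31327770709) (nat_lit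 76) (nat_lit 135285282035) (nat_lit 76) (nat_lit 134704581327) (nat_lit 1) (nat_lit 4) (nat_lit 2) (nat_lit 5) (nat_lit 2) (nat_lit 4) (nat_lit 375) (nat_lit 207) (nat_lit 198)) (XT.lf (nat_lit 0) (nat_lit 35863290770) (nat_lit 76) (nat_lit 140536883391) (nat_lit 76) (nat_lit 139906026689) (nat_lit 1) (nat_lit 4) (nat_lit 2) (nat_lit 5) (nat_lit 2) (nat_lit 4) (nat_lit 376) (nat_lit 207) (nat_lit 197))))))))
noncomputable def xc5 : XT := (XT.nd (nat_lit 39936) (nat_lit 0) (nat_lit 0) (XT.nd (nat_lit 780) (nat_lit 0) (nat_lit 0) (XT.nd (nat_lit 390) (nat_lit 0) (nat_lit 0) (XT.nd (nat_lit 156) (nat_lit 0) (nat_lit 0) (XT.nd (nat_lit 78) (nat_lit 0) (nat_lit 0) (XT.lf (nat_lit 0) (nat_lit 40546801269) (nat_lit 76) (nat_lit 146089035278) (nat_lit 76) (nat_lit 145410410963) (nat_lit 1) (nat_lit 4) (nat_lit 2) (nat_lit 5) (nat_lit 2) (nat_lit 4) (nat_lit 377) (nat_lit 207) (nat_lit 196))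 (XT.lf (nat_lit 0) (nat_lit 45389453422) (nat_lit 76) (nat_lit 151954957106) (nat_lit 76) (nat_lit 151230839826) (nat_lit 1) (nat_lit 4) (nat_lit 2) (nat_lit 5) (nat_lit 2) (nat_lit 4) (nat_lit 378) (nat_lit 207) (nat_lit 195))) (XT.nd (nat_lit 78) (nat_lit 0) (nat_lit 0) (XT.lf (nat_lit 0) (nat_lit 50402777353) (nat_lit 76) (nat_lit 158148615355) (nat_lit 76) (nat_lit 157381171442) (nat_lit 1) (nat_lit 4) (nat_lit 2) (nat_lit 5) (nat_lit 2) (nat_lit 4) (nat_lit 379) (nat_lit 207) (nat_lit 194)) (XT.nd (nat_lit 78) (nat_lit 0) (nat_lit 0) (XT.lf (nat_lit 0) (nat_lit 55598709547) (nat_lit 76) (nat_lit 164684756831) (nat_lit 76) (nat_lit 163876049457) (nat_lit 1) (nat_lit 4) (nat_lit 2) (nat_lit 5) (nat_lit 2) (nat_lit 4) (nat_lit 380) (nat_lit 207) (nat_lit 193)) (XT.lf (nat_lit 0) (nat_lit 60989621271) (nat_lit 76) (nat_lit 171578943775) (nat_lit 76) (nat_lit 170730937867) (nat_lit 1)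 (nat_lit 4) (nat_lit 2) (nat_lit 5) (nat_lit 2) (nat_lit 4) (nat_lit 381) (nat_lit 207) (nat_lit 192))))) (XT.nd (nat_lit 156) (nat_lit 0) (nat_lit 0) (XT.nd (nat_lit 78) (nat_lit 0) (nat_lit 0) (XT.lf (nat_lit 0) (nat_lit 66588348029) (nat_lit 76) (nat_lit 178847590918) (nat_lit 76) (nat_lit 177962157836) (nat_lit 1) (nat_lit 4) (nat_lit 2) (nat_lit 5) (nat_lit 2) (nat_lit 4) (nat_lit 382) (nat_lit 207) (nat_lit 191)) (XT.lf (nat_lit 0) (nat_lit 72408220124) (nat_lit 76) (nat_lit 186508004563) (nat_lit 76) (nat_lit 185586926552) (nat_lit 1) (nat_lit 4) (nat_lit 2) (nat_lit 5) (nat_lit 2) (nat_lit 4) (nat_lit 383) (nat_lit 207) (nat_lit 190))) (XT.nd (nat_lit 78) (nat_lit 0) (nat_lit 0) (XT.lf (nat_lit 0) (nat_lit 78463094394) (nat_lit 76) (nat_lit 194578423789) (nat_lit 76) (nat_lit 193623398228) (nat_lit 1) (nat_lit 4) (nat_lit 2) (nat_lit 5) (nat_lit 2) (nat_lit 4) (nat_lit 384) (nat_lit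 207) (nat_lit 189)) (XT.nd (nat_lit 78) (nat_lit 0) (nat_lit 0) (XT.lf (nat_lit 0) (nat_lit 84767387205) (nat_lit 76) (nat_lit 203078063882) (nat_lit 76) (nat_lit 202090707319) (nat_lit 1) (nat_lit 4) (nat_lit 2) (nat_lit 5) (nat_lit 2) (nat_lit 4) (nat_lit 385) (nat_lit 207) (nat_lit 188)) (XT.lf (nat_lit 0) (nat_lit 91336108780) (nat_lit 76) (nat_lit 212027162078) (nat_lit 76) (nat_lit 211009014086) (nat_lit 1) (nat_lit 4) (nat_lit 2) (nat_lit 5) (nat_lit 2) (nat_lit 4) (nat_lit 386) (nat_lit 207) (nat_lit 187)))))) (XT.nd (nat_lit 390) (nat_lit 0) (nat_lit 0) (XT.nd (nat_lit 156) (nat_lit 0) (nat_lit 0) (XT.nd (nat_lit 78) (nat_lit 0) (nat_lit 0) (XT.lf (nat_lit 0) (nat_lit 98184898930) (nat_lit 76) (nat_lit 221447025755) (nat_lit 76) (nat_lit 220399552593) (nat_lit 1) (nat_lit 4) (nat_lit 2) (nat_lit 5) (nat_lit 2) (nat_lit 4) (nat_lit 387) (nat_lit 207) (nat_lit 186)) (XT.lf (nat_lit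 0) (nat_lit 105330064300) (nat_lit 76) (nat_lit 231360083160) (nat_lit 76) (nat_lit 230284681263) (nat_lit 1) (nat_lit 4) (nat_lit 2) (nat_lit 5) (nat_lit 2) (nat_lit 4) (nat_lit 388) (nat_lit 207) (nat_lit 185))) (XT.nd (nat_lit 78) (nat_lit 0) (nat_lit 0) (XT.lf (nat_lit 0) (nat_lit 112788617188) (nat_lit 76) (nat_lit 241789936810) (nat_lit 76) (nat_lit 240687936119) (nat_lit 1) (nat_lit 4) (nat_lit 2) (nat_lit 5) (nat_lit 2) (nat_lit 4) (nat_lit 389) (nat_lit 207) (nat_lit 184)) (XT.nd (nat_lit 78) (nat_lit 0) (nat_lit 0) (XT.lf (nat_lit 0) (nat_lit 120578316053) (nat_lit 76) (nat_lit 252761419690) (nat_lit 76) (nat_lit 251634086813) (nat_lit 1) (nat_lit 4) (nat_lit 2) (nat_lit 5) (nat_lit 2) (nat_lit 4) (nat_lit 390) (nat_lit 207) (nat_lit 183)) (XT.lf (nat_lit 0) (nat_lit 128717707797) (nat_lit 76) (nat_lit 264300654378) (nat_lit 76) (nat_lit 263149195611) (nat_lit 1) (nat_lit 4)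 (nat_lit 2) (nat_lit 5) (nat_lit 2) (nat_lit 4) (nat_lit 391) (nat_lit 207) (nat_lit 182))))) (XT.nd (nat_lit 38532) (nat_lit 0) (nat_lit 76) (XT.nd (nat_lit 78) (nat_lit 0) (nat_lit 0) (XT.lf (nat_lit 0) (nat_lit 137226171925) (nat_lit 76) (nat_lit 276435115243) (nat_lit 76) (nat_lit 275260679437) (nat_lit 1) (nat_lit 4) (nat_lit 2) (nat_lit 5) (nat_lit 2) (nat_lit 4) (nat_lit 392) (nat_lit 207) (nat_lit 181)) (XT.nd (nat_lit 38376) (nat_lit 0) (nat_lit 76) (XT.lf (nat_lit 0) (nat_lit 146123966683) (nat_lit 76) (nat_lit 289193693858) (nat_lit 76) (nat_lit 287997375158) (nat_lit 1) (nat_lit 4) (nat_lit 2) (nat_lit 5) (nat_lit 2) (nat_lit 4) (nat_lit 393) (nat_lit 207) (nat_lit 180)) (XT.lf (nat_lit 0) (nat_lit 41425147843) (nat_lit 152) (nat_lit 5621974296) (nat_lit 0) (nat_lit 41425147843) (nat_lit 2) (nat_lit 5) (nat_lit 4) (nat_lit 4) (nat_lit 2) (nat_lit 4) (nat_lit 364) (nat_lit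 208) (nat_lit 208)))) (XT.nd (nat_lit 78) (nat_lit 0) (nat_lit 0) (XT.lf (nat_lit 0) (nat_lit 88954655283) (nat_lit 152) (nat_lit 7861215784) (nat_lit 0) (nat_lit 88872956454) (nat_lit 2) (nat_lit 5) (nat_lit 4) (nat_lit 4) (nat_lit 2) (nat_lit 4) (nat_lit 365) (nat_lit 208) (nat_lit 207)) (XT.nd (nat_lit 78) (nat_lit 0) (nat_lit 0) (XT.lf (nat_lit 0) (nat_lit 95299753004) (nat_lit 152) (nat_lit 4433572249) (nat_lit 0) (nat_lit 95140245767) (nat_lit 2) (nat_lit 5) (nat_lit 4) (nat_lit 4) (nat_lit 2) (nat_lit 4) (nat_lit 366) (nat_lit 208) (nat_lit 206)) (XT.lf (nat_lit 0) (nat_lit 101900696225) (nat_lit 152) (nat_lit 952856931) (nat_lit 0) (nat_lit 101667085741) (nat_lit 2) (nat_lit 5) (nat_lit 4) (nat_lit 4) (nat_lit 2) (nat_lit 4) (nat_lit 367) (nat_lit 208) (nat_lit 205))))))) (XT.nd (nat_lit 780) (nat_lit 0) (nat_lit 0) (XT.nd (nat_lit 390) (nat_lit 0) (nat_lit 0) (XT.nd (nat_lit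 156) (nat_lit 0) (nat_lit 0) (XT.nd (nat_lit 78) (nat_lit 0) (nat_lit 0) (XT.lf (nat_lit 0) (nat_lit 2674828812) (nat_lit 76) (nat_lit 106140134238) (nat_lit 76) (nat_lit 105835949234) (nat_lit 1) (nat_lit 4) (nat_lit 2) (nat_lit 5) (nat_lit 2) (nat_lit 4) (nat_lit 368) (nat_lit 208) (nat_lit 204)) (XT.lf (nat_lit 0) (nat_lit 6406120683) (nat_lit 76) (nat_lit 109627528681) (nat_lit 76) (nat_lit 109256129848) (nat_lit 1) (nat_lit 4) (nat_lit 2) (nat_lit 5) (nat_lit 2) (nat_lit 4) (nat_lit 369) (nat_lit 208) (nat_lit 203))) (XT.nd (nat_lit 78) (nat_lit 0) (nat_lit 0) (XT.lf (nat_lit 0) (nat_lit 10218396955) (nat_lit 76) (nat_lit 113340176899) (nat_lit 76) (nat_lit 112904764895) (nat_lit 1) (nat_lit 4) (nat_lit 2) (nat_lit 5) (nat_lit 2) (nat_lit 4) (nat_lit 370) (nat_lit 208) (nat_lit 202)) (XT.nd (nat_lit 78) (nat_lit 0) (nat_lit 0) (XT.lf (nat_lit 0) (nat_lit 14120734477) (nat_lit 76)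 (nat_lit 117286918530) (nat_lit 76) (nat_lit 116790541603) (nat_lit 1) (nat_lit 4) (nat_lit 2) (nat_lit 5) (nat_lit 2) (nat_lit 4) (nat_lit 371) (nat_lit 208) (nat_lit 201)) (XT.lf (nat_lit 0) (nat_lit 18122424528) (nat_lit 76) (nat_lit 121477150579) (nat_lit 76) (nat_lit 120922711820) (nat_lit 1) (nat_lit 4) (nat_lit 2) (nat_lit 5) (nat_lit 2) (nat_lit 4) (nat_lit 372) (nat_lit 208) (nat_lit 200))))) (XT.nd (nat_lit 156) (nat_lit 0) (nat_lit 0) (XT.nd (nat_lit 78) (nat_lit 0) (nat_lit 0) (XT.lf (nat_lit 0) (nat_lit 22232994942) (nat_lit 76) (nat_lit 125920849789) (nat_lit 76) (nat_lit 125311114046) (nat_lit 1) (nat_lit 4) (nat_lit 2) (nat_lit 5) (nat_lit 2) (nat_lit 4) (nat_lit 373) (nat_lit 208) (nat_lit 199)) (XT.lf (nat_lit 0) (nat_lit 26462232791) (nat_lit 76) (nat_lit 130628596395) (nat_lit 76) (nat_lit 129966196858) (nat_lit 1) (nat_lit 4) (nat_lit 2) (nat_lit 5) (nat_lit 2) (nat_lit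 4) (nat_lit 374) (nat_lit 208) (nat_lit 198))) (XT.nd (nat_lit 78) (nat_lit 0) (nat_lit 0) (XT.lf (nat_lit 0) (nat_lit 30820207690) (nat_lit 76) (nat_lit 135611599318) (nat_lit 76) (nat_lit 134899043788) (nat_lit 1) (nat_lit 4) (nat_lit 2) (nat_lit 5) (nat_lit 2) (nat_lit 4) (nat_lit 375) (nat_lit 208) (nat_lit 197)) (XT.nd (nat_lit 78) (nat_lit 0) (nat_lit 0) (XT.lf (nat_lit 0) (nat_lit 35317295768) (nat_lit 76) (nat_lit 140881722852) (nat_lit 76) (nat_lit 140121399708) (nat_lit 1) (nat_lit 4) (nat_lit 2) (nat_lit 5) (nat_lit 2) (nat_lit 4) (nat_lit 376) (nat_lit 208) (nat_lit 196)) (XT.lf (nat_lit 0) (nat_lit 39964204379) (nat_lit 76) (nat_lit 146451514908) (nat_lit 76) (nat_lit 145645698799) (nat_lit 1) (nat_lit 4) (nat_lit 2) (nat_lit 5) (nat_lit 2) (nat_lit 4) (nat_lit 377) (nat_lit 208) (nat_lit 195)))))) (XT.nd (nat_lit 390) (nat_lit 0) (nat_lit 0) (XT.nd (nat_lit 156) (nat_lit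 0) (nat_lit 0) (XT.nd (nat_lit 78) (nat_lit 0) (nat_lit 0) (XT.lf (nat_lit 0) (nat_lit 44771997590) (nat_lit 76) (nat_lit 152334236897) (nat_lit 76) (nat_lit 151485094154) (nat_lit 1) (nat_lit 4) (nat_lit 2) (nat_lit 5) (nat_lit 2) (nat_lit 4) (nat_lit 378) (nat_lit 208) (nat_lit 194)) (XT.lf (nat_lit 0) (nat_lit 49752122529) (nat_lit 76) (nat_lit 158543895299) (nat_lit 76) (nat_lit 157653489096) (nat_lit 1) (nat_lit 4) (nat_lit 2) (nat_lit 5) (nat_lit 2) (nat_lit 4) (nat_lit 379) (nat_lit 208) (nat_lit 193))) (XT.nd (nat_lit 78) (nat_lit 0) (nat_lit 0) (XT.lf (nat_lit 0) (nat_lit 54916436635) (nat_lit 76) (nat_lit 165095275016) (nat_lit 76) (nat_lit 164165570280) (nat_lit 1) (nat_lit 4) (nat_lit 2) (nat_lit 5) (nat_lit 2) (nat_lit 4) (nat_lit 380) (nat_lit 208) (nat_lit 192)) (XT.nd (nat_lit 78) (nat_lit 0) (nat_lit 0) (XT.lf (nat_lit 0) (nat_lit 60277235895) (nat_lit 76) (nat_lit 172003974571)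 (nat_lit 76) (nat_lit 171036842660) (nat_lit 1) (nat_lit 4) (nat_lit 2) (nat_lit 5) (nat_lit 2) (nat_lit 4) (nat_lit 381) (nat_lit 208) (nat_lit 191)) (XT.lf (nat_lit 0) (nat_lit 65847284117) (nat_lit 76) (nat_lit 179286443248) (nat_lit 76) (nat_lit 178283666408) (nat_lit 1) (nat_lit 4) (nat_lit 2) (nat_lit 5) (nat_lit 2) (nat_lit 4) (nat_lit 382) (nat_lit 208) (nat_lit 190))))) (XT.nd (nat_lit 234) (nat_lit 0) (nat_lit 0) (XT.nd (nat_lit 78) (nat_lit 0) (nat_lit 0) (XT.lf (nat_lit 0) (nat_lit 71639843319) (nat_lit 76) (nat_lit 186960020258) (nat_lit 76) (nat_lit 185923295868) (nat_lit 1) (nat_lit 4) (nat_lit 2) (nat_lit 5) (nat_lit 2) (nat_lit 4) (nat_lit 383) (nat_lit 208) (nat_lit 189)) (XT.nd (nat_lit 78) (nat_lit 0) (nat_lit 0) (XT.lf (nat_lit 0) (nat_lit 77668705310) (nat_lit 76) (nat_lit 195042976024) (nat_lit 76) (nat_lit 193973920632) (nat_lit 1) (nat_lit 4) (nat_lit 2) (nat_lit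 5) (nat_lit 2) (nat_lit 4) (nat_lit 384) (nat_lit 208) (nat_lit 188)) (XT.lf (nat_lit 0) (nat_lit 83948224522) (nat_lit 76) (nat_lit 203554555677) (nat_lit 76) (nat_lit 202454708856) (nat_lit 1) (nat_lit 4) (nat_lit 2) (nat_lit 5) (nat_lit 2) (nat_lit 4) (nat_lit 385) (nat_lit 208) (nat_lit 187)))) (XT.nd (nat_lit 78) (nat_lit 0) (nat_lit 0) (XT.lf (nat_lit 0) (nat_lit 90493352193) (nat_lit 76) (nat_lit 212515024883) (nat_lit 76) (nat_lit 211385852892) (nat_lit 1) (nat_lit 4) (nat_lit 2) (nat_lit 5) (nat_lit 2) (nat_lit 4) (nat_lit 386) (nat_lit 208) (nat_lit 186)) (XT.nd (nat_lit 78) (nat_lit 0) (nat_lit 0) (XT.lf (nat_lit 0) (nat_lit 97319671959) (nat_lit 76) (nat_lit 221945718094) (nat_lit 76) (nat_lit 220788617368) (nat_lit 1) (nat_lit 4) (nat_lit 2) (nat_lit 5) (nat_lit 2) (nat_lit 4) (nat_lit 387) (nat_lit 208) (nat_lit 185)) (XT.lf (nat_lit 0) (nat_lit 104443436963) (nat_lit 76)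 (nat_lit 231869089340) (nat_lit 76) (nat_lit 230685389820) (nat_lit 1) (nat_lit 4) (nat_lit 2) (nat_lit 5) (nat_lit 2) (nat_lit 4) (nat_lit 388) (nat_lit 208) (nat_lit 184))))))))
noncomputable def xc6 : XT := (XT.nd (nat_lit 39702) (nat_lit 0) (nat_lit 0) (XT.nd (nat_lit 38922) (nat_lit 0) (nat_lit 0) (XT.nd (nat_lit 38532) (nat_lit 0) (nat_lit 76) (XT.nd (nat_lit 156) (nat_lit 0) (nat_lit 0) (XT.nd (nat_lit 78) (nat_lit 0) (nat_lit 0) (XT.lf (nat_lit 0) (nat_lit 111881608549) (nat_lit 76) (nat_lit 242308765696) (nat_lit 76) (nat_lit 241099733991) (nat_lit 1) (nat_lit 4) (nat_lit 2) (nat_lit 5) (nat_lit 2) (nat_lit 4) (nat_lit 389) (nat_lit 208) (nat_lit 183)) (XT.lf (nat_lit 0) (nat_lit 119651896651) (nat_lit 76) (nat_lit 253289603534) (nat_lit 76) (nat_lit 252056445938) (nat_lit 1) (nat_lit 4) (nat_lit 2) (nat_lit 5) (nat_lit 2) (nat_lit 4) (nat_lit 390) (nat_lit 208) (nat_lit 182)))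 (XT.nd (nat_lit 78) (nat_lit 0) (nat_lit 0) (XT.lf (nat_lit 0) (nat_lit 127772801955) (nat_lit 76) (nat_lit 264837747707) (nat_lit 76) (nat_lit 263581613072) (nat_lit 1) (nat_lit 4) (nat_lit 2) (nat_lit 5) (nat_lit 2) (nat_lit 4) (nat_lit 391) (nat_lit 208) (nat_lit 181)) (XT.nd (nat_lit 78) (nat_lit 0) (nat_lit 0) (XT.lf (nat_lit 0) (nat_lit 136263659948) (nat_lit 76) (nat_lit 276980693795) (nat_lit 76) (nat_lit 275702676266) (nat_lit 1) (nat_lit 4) (nat_lit 2) (nat_lit 5) (nat_lit 2) (nat_lit 4) (nat_lit 392) (nat_lit 208) (nat_lit 180)) (XT.lf (nat_lit 0) (nat_lit 145144686960) (nat_lit 76) (nat_lit 289747353575) (nat_lit 76) (nat_lit 288448495194) (nat_lit 1) (nat_lit 4) (nat_lit 2) (nat_lit 5) (nat_lit 2) (nat_lit 4) (nat_lit 393) (nat_lit 208) (nat_lit 179))))) (XT.nd (nat_lit 156) (nat_lit 0) (nat_lit 0) (XT.nd (nat_lit 78) (nat_lit 0) (nat_lit 0) (XT.lf (nat_lit 0) (nat_lit 35713327020)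 (nat_lit 152) (nat_lit 8920000738) (nat_lit 0) (nat_lit 35713327020) (nat_lit 2) (nat_lit 5) (nat_lit 4) (nat_lit 4) (nat_lit 2) (nat_lit 4) (nat_lit 362) (nat_lit 209) (nat_lit 209)) (XT.lf (nat_lit 0) (nat_lit 77057923796) (nat_lit 152) (nat_lit 14589824800) (nat_lit 0) (nat_lit 76972140026) (nat_lit 2) (nat_lit 5) (nat_lit 4) (nat_lit 4) (nat_lit 2) (nat_lit 4) (nat_lit 363) (nat_lit 209) (nat_lit 208))) (XT.nd (nat_lit 78) (nat_lit 0) (nat_lit 0) (XT.lf (nat_lit 0) (nat_lit 82903053190) (nat_lit 152) (nat_lit 11307576499) (nat_lit 0) (nat_lit 82735570591) (nat_lit 2) (nat_lit 5) (nat_lit 4) (nat_lit 4) (nat_lit 2) (nat_lit 4) (nat_lit 364) (nat_lit 209) (nat_lit 207)) (XT.nd (nat_lit 78) (nat_lit 0) (nat_lit 0) (XT.lf (nat_lit 0) (nat_lit 88975959198) (nat_lit 152) (nat_lit 7985441698) (nat_lit 0) (nat_lit 88730668190) (nat_lit 2) (nat_lit 5) (nat_lit 4) (nat_lit 4) (nat_lit 2) (nat_lit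 4) (nat_lit 365) (nat_lit 209) (nat_lit 206)) (XT.lf (nat_lit 0) (nat_lit 95291101121) (nat_lit 152) (nat_lit 4615510550) (nat_lit 0) (nat_lit 94971706867) (nat_lit 2) (nat_lit 5) (nat_lit 4) (nat_lit 4) (nat_lit 2) (nat_lit 4) (nat_lit 366) (nat_lit 209) (nat_lit 205)))))) (XT.nd (nat_lit 390) (nat_lit 0) (nat_lit 0) (XT.nd (nat_lit 156) (nat_lit 0) (nat_lit 0) (XT.nd (nat_lit 78) (nat_lit 76) (nat_lit 0) (XT.lf (nat_lit 0) (nat_lit 101863515010) (nat_lit 152) (nat_lit 1189759411) (nat_lit 0) (nat_lit 101473546235) (nat_lit 2) (nat_lit 5) (nat_lit 4) (nat_lit 4) (nat_lit 2) (nat_lit 4) (nat_lit 367) (nat_lit 209) (nat_lit 204)) (XT.lf (nat_lit 0) (nat_lit 2376015607) (nat_lit 76) (nat_lit 106369930124) (nat_lit 76) (nat_lit 105912747521) (nat_lit 1) (nat_lit 4) (nat_lit 2) (nat_lit 5) (nat_lit 2) (nat_lit 4) (nat_lit 368) (nat_lit 209) (nat_lit 203))) (XT.nd (nat_lit 78) (nat_lit 0)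 (nat_lit 0) (XT.lf (nat_lit 0) (nat_lit 6055804945) (nat_lit 76) (nat_lit 109882146057) (nat_lit 76) (nat_lit 109360950283) (nat_lit 1) (nat_lit 4) (nat_lit 2) (nat_lit 5) (nat_lit 2) (nat_lit 4) (nat_lit 369) (nat_lit 209) (nat_lit 202)) (XT.nd (nat_lit 78) (nat_lit 0) (nat_lit 0) (XT.lf (nat_lit 0) (nat_lit 9819031186) (nat_lit 76) (nat_lit 113618433788) (nat_lit 76) (nat_lit 113036273090) (nat_lit 1) (nat_lit 4) (nat_lit 2) (nat_lit 5) (nat_lit 2) (nat_lit 4) (nat_lit 370) (nat_lit 209) (nat_lit 201)) (XT.lf (nat_lit 0) (nat_lit 13674654392) (nat_lit 76) (nat_lit 117587689242) (nat_lit 76) (nat_lit 116947466712) (nat_lit 1) (nat_lit 4) (nat_lit 2) (nat_lit 5) (nat_lit 2) (nat_lit 4) (nat_lit 371) (nat_lit 209) (nat_lit 200))))) (XT.nd (nat_lit 156) (nat_lit 0) (nat_lit 0) (XT.nd (nat_lit 78) (nat_lit 0) (nat_lit 0) (XT.lf (nat_lit 0) (nat_lit 17631854619) (nat_lit 76) (nat_lit 121799363027)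 (nat_lit 76) (nat_lit 121103843513) (nat_lit 1) (nat_lit 4) (nat_lit 2) (nat_lit 5) (nat_lit 2) (nat_lit 4) (nat_lit 372) (nat_lit 209) (nat_lit 199)) (XT.lf (nat_lit 0) (nat_lit 21700053772) (nat_lit 76) (nat_lit 126263482937) (nat_lit 76) (nat_lit 125515299630) (nat_lit 1) (nat_lit 4) (nat_lit 2) (nat_lit 5) (nat_lit 2) (nat_lit 4) (nat_lit 373) (nat_lit 209) (nat_lit 198))) (XT.nd (nat_lit 78) (nat_lit 0) (nat_lit 0) (XT.lf (nat_lit 0) (nat_lit 25888938039) (nat_lit 76) (nat_lit 130990677829) (nat_lit 76) (nat_lit 130192338528) (nat_lit 1) (nat_lit 4) (nat_lit 2) (nat_lit 5) (nat_lit 2) (nat_lit 4) (nat_lit 374) (nat_lit 209) (nat_lit 197)) (XT.nd (nat_lit 78) (nat_lit 0) (nat_lit 0) (XT.lf (nat_lit 0) (nat_lit 30208480955) (nat_lit 76) (nat_lit 135992202930) (nat_lit 76) (nat_lit 135146096016) (nat_lit 1) (nat_lit 4) (nat_lit 2) (nat_lit 5) (nat_lit 2) (nat_lit 4) (nat_lit 375) (nat_lit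 209) (nat_lit 196)) (XT.lf (nat_lit 0) (nat_lit 34668967145) (nat_lit 76) (nat_lit 141279966632) (nat_lit 76) (nat_lit 140388366753) (nat_lit 1) (nat_lit 4) (nat_lit 2) (nat_lit 5) (nat_lit 2) (nat_lit 4) (nat_lit 376) (nat_lit 209) (nat_lit 195))))))) (XT.nd (nat_lit 780) (nat_lit 0) (nat_lit 0) (XT.nd (nat_lit 390) (nat_lit 0) (nat_lit 0) (XT.nd (nat_lit 156) (nat_lit 0) (nat_lit 0) (XT.nd (nat_lit 78) (nat_lit 0) (nat_lit 0) (XT.lf (nat_lit 0) (nat_lit 39281016814) (nat_lit 76) (nat_lit 146866558849) (nat_lit 76) (nat_lit 145931632336) (nat_lit 1) (nat_lit 4) (nat_lit 2) (nat_lit 5) (nat_lit 2) (nat_lit 4) (nat_lit 377) (nat_lit 209) (nat_lit 194)) (XT.lf (nat_lit 0) (nat_lit 44055611034) (nat_lit 76) (nat_lit 152765280991) (nat_lit 76) (nat_lit 151789091018) (nat_lit 1) (nat_lit 4) (nat_lit 2) (nat_lit 5) (nat_lit 2) (nat_lit 4) (nat_lit 378) (nat_lit 209) (nat_lit 193))) (XT.nd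 (nat_lit 78) (nat_lit 0) (nat_lit 0) (XT.lf (nat_lit 0) (nat_lit 49004117885) (nat_lit 76) (nat_lit 158990177635) (nat_lit 76) (nat_lit 157974689128) (nat_lit 1) (nat_lit 4) (nat_lit 2) (nat_lit 5) (nat_lit 2) (nat_lit 4) (nat_lit 379) (nat_lit 209) (nat_lit 192)) (XT.nd (nat_lit 78) (nat_lit 0) (nat_lit 0) (XT.lf (nat_lit 0) (nat_lit 54138319527) (nat_lit 76) (nat_lit 165556069963) (nat_lit 76) (nat_lit 164503154281) (nat_lit 1) (nat_lit 4) (nat_lit 2) (nat_lit 5) (nat_lit 2) (nat_lit 4) (nat_lit 380) (nat_lit 209) (nat_lit 191)) (XT.lf (nat_lit 0) (nat_lit 59470440250) (nat_lit 76) (nat_lit 172478591051) (nat_lit 76) (nat_lit 171390030441) (nat_lit 1) (nat_lit 4) (nat_lit 2) (nat_lit 5) (nat_lit 2) (nat_lit 4) (nat_lit 381) (nat_lit 209) (nat_lit 190))))) (XT.nd (nat_lit 156) (nat_lit 0) (nat_lit 0) (XT.nd (nat_lit 78) (nat_lit 0) (nat_lit 0) (XT.lf (nat_lit 0) (nat_lit 65013175578)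 (nat_lit 76) (nat_lit 179774223094) (nat_lit 76) (nat_lit 178651714933) (nat_lit 1) (nat_lit 4) (nat_lit 2) (nat_lit 5) (nat_lit 2) (nat_lit 4) (nat_lit 382) (nat_lit 209) (nat_lit 189)) (XT.lf (nat_lit 0) (nat_lit 70779722502) (nat_lit 76) (nat_lit 187460336643) (nat_lit 76) (nat_lit 186305497481) (nat_lit 1) (nat_lit 4) (nat_lit 2) (nat_lit 5) (nat_lit 2) (nat_lit 4) (nat_lit 383) (nat_lit 209) (nat_lit 188))) (XT.nd (nat_lit 78) (nat_lit 0) (nat_lit 0) (XT.lf (nat_lit 0) (nat_lit 76783810893) (nat_lit 76) (nat_lit 195555231969) (nat_lit 76) (nat_lit 194369601378) (nat_lit 1) (nat_lit 4) (nat_lit 2) (nat_lit 5) (nat_lit 2) (nat_lit 4) (nat_lit 384) (nat_lit 209) (nat_lit 187)) (XT.nd (nat_lit 78) (nat_lit 0) (nat_lit 0) (XT.lf (nat_lit 0) (nat_lit 83039736202) (nat_lit 76) (nat_lit 204078182632) (nat_lit 76) (nat_lit 202863226870) (nat_lit 1) (nat_lit 4) (nat_lit 2) (nat_lit 5) (nat_lit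 2) (nat_lit 4) (nat_lit 385) (nat_lit 209) (nat_lit 186)) (XT.lf (nat_lit 0) (nat_lit 89562393489) (nat_lit 76) (nat_lit 213049481373) (nat_lit 76) (nat_lit 211806596876) (nat_lit 1) (nat_lit 4) (nat_lit 2) (nat_lit 5) (nat_lit 2) (nat_lit 4) (nat_lit 386) (nat_lit 209) (nat_lit 185)))))) (XT.nd (nat_lit 390) (nat_lit 0) (nat_lit 0) (XT.nd (nat_lit 156) (nat_lit 0) (nat_lit 0) (XT.nd (nat_lit 78) (nat_lit 0) (nat_lit 0) (XT.lf (nat_lit 0) (nat_lit 96367312889) (nat_lit 76) (nat_lit 222490488425) (nat_lit 76) (nat_lit 221221005134) (nat_lit 1) (nat_lit 4) (nat_lit 2) (nat_lit 5) (nat_lit 2) (nat_lit 4) (nat_lit 387) (nat_lit 209) (nat_lit 184)) (XT.lf (nat_lit 0) (nat_lit 103470696591) (nat_lit 76) (nat_lit 232423682377) (nat_lit 76) (nat_lit 231128866901) (nat_lit 1) (nat_lit 4) (nat_lit 2) (nat_lit 5) (nat_lit 2) (nat_lit 4) (nat_lit 388) (nat_lit 209) (nat_lit 183))) (XT.nd (nat_lit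 78) (nat_lit 0) (nat_lit 0) (XT.lf (nat_lit 0) (nat_lit 110889457415) (nat_lit 76) (nat_lit 242872713691) (nat_lit 76) (nat_lit 241553772325) (nat_lit 1) (nat_lit 4) (nat_lit 2) (nat_lit 5) (nat_lit 2) (nat_lit 4) (nat_lit 389) (nat_lit 209) (nat_lit 182)) (XT.nd (nat_lit 78) (nat_lit 0) (nat_lit 0) (XT.lf (nat_lit 0) (nat_lit 118641259076) (nat_lit 76) (nat_lit 253862461013) (nat_lit 76) (nat_lit 252520542608) (nat_lit 1) (nat_lit 4) (nat_lit 2) (nat_lit 5) (nat_lit 2) (nat_lit 4) (nat_lit 390) (nat_lit 209) (nat_lit 181)) (XT.lf (nat_lit 0) (nat_lit 126744558245) (nat_lit 76) (nat_lit 265419090409) (nat_lit 76) (nat_lit 264055289109) (nat_lit 1) (nat_lit 4) (nat_lit 2) (nat_lit 5) (nat_lit 2) (nat_lit 4) (nat_lit 391) (nat_lit 209) (nat_lit 180))))) (XT.nd (nat_lit 38220) (nat_lit 0) (nat_lit 76) (XT.nd (nat_lit 78) (nat_lit 0) (nat_lit 0) (XT.lf (nat_lit 0) (nat_lit 135218648492)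 (nat_lit 76) (nat_lit 277570117661) (nat_lit 76) (nat_lit 276185475510) (nat_lit 1) (nat_lit 4) (nat_lit 2) (nat_lit 5) (nat_lit 2) (nat_lit 4) (nat_lit 392) (nat_lit 209) (nat_lit 179)) (XT.nd (nat_lit 38064) (nat_lit 0) (nat_lit 76) (XT.lf (nat_lit 0) (nat_lit 144083706221) (nat_lit 76) (nat_lit 290344473788) (nat_lit 76) (nat_lit 288939983208) (nat_lit 1) (nat_lit 4) (nat_lit 2) (nat_lit 5) (nat_lit 2) (nat_lit 4) (nat_lit 393) (nat_lit 209) (nat_lit 178)) (XT.lf (nat_lit 0) (nat_lit 30439511997) (nat_lit 152) (nat_lit 12102443157) (nat_lit 0) (nat_lit 30439511997) (nat_lit 2) (nat_lit 5) (nat_lit 4) (nat_lit 4) (nat_lit 2) (nat_lit 4) (nat_lit 360) (nat_lit 210) (nat_lit 210)))) (XT.nd (nat_lit 78) (nat_lit 0) (nat_lit 0) (XT.lf (nat_lit 0) (nat_lit 66085909100) (nat_lit 152) (nat_lit 21065845044) (nat_lit 0) (nat_lit 65995836141) (nat_lit 2) (nat_lit 5) (nat_lit 4) (nat_lit 4) (nat_lit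 2) (nat_lit 4) (nat_lit 361) (nat_lit 210) (nat_lit 209)) (XT.nd (nat_lit 78) (nat_lit 0) (nat_lit 0) (XT.lf (nat_lit 0) (nat_lit 71482049420) (nat_lit 152) (nat_lit 17906810778) (nat_lit 0) (nat_lit 71306192690) (nat_lit 2) (nat_lit 5) (nat_lit 4) (nat_lit 4) (nat_lit 2) (nat_lit 4) (nat_lit 362) (nat_lit 210) (nat_lit 208)) (XT.lf (nat_lit 0) (nat_lit 77080292907) (nat_lit 152) (nat_lit 14720262009) (nat_lit 0) (nat_lit 76822737348) (nat_lit 2) (nat_lit 5) (nat_lit 4) (nat_lit 4) (nat_lit 2) (nat_lit 4) (nat_lit 363) (nat_lit 210) (nat_lit 207))))))))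
noncomputable def xc7 : XT := (XT.nd (nat_lit 1638) (nat_lit 0) (nat_lit 0) (XT.nd (nat_lit 780) (nat_lit 0) (nat_lit 0) (XT.nd (nat_lit 390) (nat_lit 0) (nat_lit 0) (XT.nd (nat_lit 156) (nat_lit 76) (nat_lit 0) (XT.nd (nat_lit 78) (nat_lit 0) (nat_lit 0) (XT.lf (nat_lit 0) (nat_lit 82893968713) (nat_lit 152) (nat_lit 11498611716) (nat_lit 0) (nat_lit 82558604746) (nat_lit 2) (nat_lit 5) (nat_lit 4) (nat_lit 4) (nat_lit 2) (nat_lit 4) (nat_lit 364) (nat_lit 210) (nat_lit 206)) (XT.lf (nat_lit 0) (nat_lit 88936918923) (nat_lit 152) (nat_lit 8234189301) (nat_lit 0) (nat_lit 88527451710) (nat_lit 2) (nat_lit 5) (nat_lit 4) (nat_lit 4) (nat_lit 2) (nat_lit 4) (nat_lit 365) (nat_lit 210) (nat_lit 205))) (XT.nd (nat_lit 78) (nat_lit 76) (nat_lit 0) (XT.lf (nat_lit 0) (nat_lit 95223531514) (nat_lit 152) (nat_lit 4919222332) (nat_lit 0) (nat_lit 94743489780) (nat_lit 2) (nat_lit 5) (nat_lit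 4) (nat_lit 4) (nat_lit 2) (nat_lit 4) (nat_lit 366) (nat_lit 210) (nat_lit 204)) (XT.nd (nat_lit 78) (nat_lit 76) (nat_lit 0) (XT.lf (nat_lit 0) (nat_lit 101768774611) (nat_lit 152) (nat_lit 1545818030) (nat_lit 0) (nat_lit 101221519048) (nat_lit 2) (nat_lit 5) (nat_lit 4) (nat_lit 4) (nat_lit 2) (nat_lit 4) (nat_lit 367) (nat_lit 210) (nat_lit 203)) (XT.lf (nat_lit 0) (nat_lit 1956681550) (nat_lit 76) (nat_lit 106662099858) (nat_lit 76) (nat_lit 106050831125) (nat_lit 1) (nat_lit 4) (nat_lit 2) (nat_lit 5) (nat_lit 2) (nat_lit 4) (nat_lit 368) (nat_lit 210) (nat_lit 202))))) (XT.nd (nat_lit 156) (nat_lit 0) (nat_lit 0) (XT.nd (nat_lit 78) (nat_lit 0) (nat_lit 0) (XT.lf (nat_lit 0) (nat_lit 5587420857) (nat_lit 76) (nat_lit 110197955304) (nat_lit 76) (nat_lit 109525721647) (nat_lit 1) (nat_lit 4) (nat_lit 2) (nat_lit 5) (nat_lit 2) (nat_lit 4) (nat_lit 369) (nat_lit 210) (nat_lit 201))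 (XT.lf (nat_lit 0) (nat_lit 9303932782) (nat_lit 76) (nat_lit 113956756858) (nat_lit 76) (nat_lit 113226461368) (nat_lit 1) (nat_lit 4) (nat_lit 2) (nat_lit 5) (nat_lit 2) (nat_lit 4) (nat_lit 370) (nat_lit 210) (nat_lit 200))) (XT.nd (nat_lit 78) (nat_lit 0) (nat_lit 0) (XT.lf (nat_lit 0) (nat_lit 13115066164) (nat_lit 76) (nat_lit 117947454047) (nat_lit 76) (nat_lit 117161861575) (nat_lit 1) (nat_lit 4) (nat_lit 2) (nat_lit 5) (nat_lit 2) (nat_lit 4) (nat_lit 371) (nat_lit 210) (nat_lit 199)) (XT.nd (nat_lit 78) (nat_lit 0) (nat_lit 0) (XT.lf (nat_lit 0) (nat_lit 17029895130) (nat_lit 76) (nat_lit 122179548533) (nat_lit 76) (nat_lit 121341292266) (nat_lit 1) (nat_lit 4) (nat_lit 2) (nat_lit 5) (nat_lit 2) (nat_lit 4) (nat_lit 372) (nat_lit 210) (nat_lit 198)) (XT.lf (nat_lit 0) (nat_lit 21057740701) (nat_lit 76) (nat_lit 126663116729) (nat_lit 76) (nat_lit 125774704469) (nat_lit 1)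 (nat_lit 4) (nat_lit 2) (nat_lit 5) (nat_lit 2) (nat_lit 4) (nat_lit 373) (nat_lit 210) (nat_lit 197)))))) (XT.nd (nat_lit 390) (nat_lit 0) (nat_lit 0) (XT.nd (nat_lit 156) (nat_lit 0) (nat_lit 0) (XT.nd (nat_lit 78) (nat_lit 0) (nat_lit 0) (XT.lf (nat_lit 0) (nat_lit 25208192985) (nat_lit 76) (nat_lit 131408833799) (nat_lit 76) (nat_lit 130472653925) (nat_lit 1) (nat_lit 4) (nat_lit 2) (nat_lit 5) (nat_lit 2) (nat_lit 4) (nat_lit 374) (nat_lit 210) (nat_lit 196)) (XT.lf (nat_lit 0) (nat_lit 29491134012) (nat_lit 76) (nat_lit 136427999068) (nat_lit 76) (nat_lit 135446326230) (nat_lit 1) (nat_lit 4) (nat_lit 2) (nat_lit 5) (nat_lit 2) (nat_lit 4) (nat_lit 375) (nat_lit 210) (nat_lit 195))) (XT.nd (nat_lit 78) (nat_lit 0) (nat_lit 0) (XT.lf (nat_lit 0) (nat_lit 33916761260) (nat_lit 76) (nat_lit 141732562931) (nat_lit 76) (nat_lit 140707563460) (nat_lit 1) (nat_lit 4) (nat_lit 2) (nat_lit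 5) (nat_lit 2) (nat_lit 4) (nat_lit 376) (nat_lit 210) (nat_lit 194)) (XT.nd (nat_lit 78) (nat_lit 0) (nat_lit 0) (XT.lf (nat_lit 0) (nat_lit 38495611938) (nat_lit 76) (nat_lit 147335155302) (nat_lit 76) (nat_lit 146268892370) (nat_lit 1) (nat_lit 4) (nat_lit 2) (nat_lit 5) (nat_lit 2) (nat_lit 4) (nat_lit 377) (nat_lit 210) (nat_lit 193)) (XT.lf (nat_lit 0) (nat_lit 43238588070) (nat_lit 76) (nat_lit 153249115685) (nat_lit 76) (nat_lit 152143554219) (nat_lit 1) (nat_lit 4) (nat_lit 2) (nat_lit 5) (nat_lit 2) (nat_lit 4) (nat_lit 378) (nat_lit 210) (nat_lit 192))))) (XT.nd (nat_lit 234) (nat_lit 0) (nat_lit 0) (XT.nd (nat_lit 78) (nat_lit 0) (nat_lit 0) (XT.lf (nat_lit 0) (nat_lit 48156982457) (nat_lit 76) (nat_lit 159488524939) (nat_lit 76) (nat_lit 158345536299) (nat_lit 1) (nat_lit 4) (nat_lit 2) (nat_lit 5) (nat_lit 2) (nat_lit 4) (nat_lit 379) (nat_lit 210) (nat_lit 191)) (XT.nd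 (nat_lit 78) (nat_lit 0) (nat_lit 0) (XT.lf (nat_lit 0) (nat_lit 53262505562) (nat_lit 76) (nat_lit 166068238801) (nat_lit 76) (nat_lit 164889605232) (nat_lit 1) (nat_lit 4) (nat_lit 2) (nat_lit 5) (nat_lit 2) (nat_lit 4) (nat_lit 380) (nat_lit 210) (nat_lit 190)) (XT.lf (nat_lit 0) (nat_lit 58567313392) (nat_lit 76) (nat_lit 173003923255) (nat_lit 76) (nat_lit 171791342135) (nat_lit 1) (nat_lit 4) (nat_lit 2) (nat_lit 5) (nat_lit 2) (nat_lit 4) (nat_lit 381) (nat_lit 210) (nat_lit 189)))) (XT.nd (nat_lit 78) (nat_lit 0) (nat_lit 0) (XT.lf (nat_lit 0) (nat_lit 64084036441) (nat_lit 76) (nat_lit 180312091837) (nat_lit 76) (nat_lit 179067179716) (nat_lit 1) (nat_lit 4) (nat_lit 2) (nat_lit 5) (nat_lit 2) (nat_lit 4) (nat_lit 382) (nat_lit 210) (nat_lit 188)) (XT.nd (nat_lit 78) (nat_lit 0) (nat_lit 0) (XT.lf (nat_lit 0) (nat_lit 69825809766) (nat_lit 76) (nat_lit 188010144947) (nat_lit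 76) (nat_lit 186734441396) (nat_lit 1) (nat_lit 4) (nat_lit 2) (nat_lit 5) (nat_lit 2) (nat_lit 4) (nat_lit 383) (nat_lit 210) (nat_lit 187)) (XT.lf (nat_lit 0) (nat_lit 75806304254) (nat_lit 76) (nat_lit 196116411283) (nat_lit 76) (nat_lit 194811382562) (nat_lit 1) (nat_lit 4) (nat_lit 2) (nat_lit 5) (nat_lit 2) (nat_lit 4) (nat_lit 384) (nat_lit 210) (nat_lit 186))))))) (XT.nd (nat_lit 38610) (nat_lit 0) (nat_lit 0) (XT.nd (nat_lit 390) (nat_lit 0) (nat_lit 0) (XT.nd (nat_lit 156) (nat_lit 0) (nat_lit 0) (XT.nd (nat_lit 78) (nat_lit 0) (nat_lit 0) (XT.lf (nat_lit 0) (nat_lit 82039759178) (nat_lit 76) (nat_lit 204650191480) (nat_lit 76) (nat_lit 203317234024) (nat_lit 1) (nat_lit 4) (nat_lit 2) (nat_lit 5) (nat_lit 2) (nat_lit 4) (nat_lit 385) (nat_lit 210) (nat_lit 185)) (XT.lf (nat_lit 0) (nat_lit 88541016098) (nat_lit 76) (nat_lit 213631804061) (nat_lit 76) (nat_lit 212272247811)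 (nat_lit 1) (nat_lit 4) (nat_lit 2) (nat_lit 5) (nat_lit 2) (nat_lit 4) (nat_lit 386) (nat_lit 210) (nat_lit 184))) (XT.nd (nat_lit 78) (nat_lit 0) (nat_lit 0) (XT.lf (nat_lit 0) (nat_lit 95325554197) (nat_lit 76) (nat_lit 223082633819) (nat_lit 76) (nat_lit 221697745384) (nat_lit 1) (nat_lit 4) (nat_lit 2) (nat_lit 5) (nat_lit 2) (nat_lit 4) (nat_lit 387) (nat_lit 210) (nat_lit 183)) (XT.nd (nat_lit 78) (nat_lit 0) (nat_lit 0) (XT.lf (nat_lit 0) (nat_lit 102409527137) (nat_lit 76) (nat_lit 233025182730) (nat_lit 76) (nat_lit 231616168404) (nat_lit 1) (nat_lit 4) (nat_lit 2) (nat_lit 5) (nat_lit 2) (nat_lit 4) (nat_lit 388) (nat_lit 210) (nat_lit 182)) (XT.lf (nat_lit 0) (nat_lit 109809801520) (nat_lit 76) (nat_lit 243483123528) (nat_lit 76) (nat_lit 242051132164) (nat_lit 1) (nat_lit 4) (nat_lit 2) (nat_lit 5) (nat_lit 2) (nat_lit 4) (nat_lit 389) (nat_lit 210) (nat_lit 181))))) (XT.nd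 (nat_lit 156) (nat_lit 0) (nat_lit 0) (XT.nd (nat_lit 78) (nat_lit 0) (nat_lit 0) (XT.lf (nat_lit 0) (nat_lit 117543997047) (nat_lit 76) (nat_lit 254481356073) (nat_lit 76) (nat_lit 253027481815) (nat_lit 1) (nat_lit 4) (nat_lit 2) (nat_lit 5) (nat_lit 2) (nat_lit 4) (nat_lit 390) (nat_lit 210) (nat_lit 180)) (XT.lf (nat_lit 0) (nat_lit 125630528469) (nat_lit 76) (nat_lit 266046066633) (nat_lit 76) (nat_lit 264571351523) (nat_lit 1) (nat_lit 4) (nat_lit 2) (nat_lit 5) (nat_lit 2) (nat_lit 4) (nat_lit 391) (nat_lit 210) (nat_lit 179))) (XT.nd (nat_lit 78) (nat_lit 0) (nat_lit 0) (XT.lf (nat_lit 0) (nat_lit 134088649433) (nat_lit 76) (nat_lit 278204790233) (nat_lit 76) (nat_lit 276710226693) (nat_lit 1) (nat_lit 4) (nat_lit 2) (nat_lit 5) (nat_lit 2) (nat_lit 4) (nat_lit 392) (nat_lit 210) (nat_lit 178)) (XT.nd (nat_lit 37908) (nat_lit 0) (nat_lit 76) (XT.lf (nat_lit 0) (nat_lit 142938498321)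 (nat_lit 76) (nat_lit 290986476215) (nat_lit 76) (nat_lit 289473009408) (nat_lit 1) (nat_lit 4) (nat_lit 2) (nat_lit 5) (nat_lit 2) (nat_lit 4) (nat_lit 393) (nat_lit 210) (nat_lit 177)) (XT.lf (nat_lit 0) (nat_lit 25558329888) (nat_lit 152) (nat_lit 15189599223) (nat_lit 0) (nat_lit 25558329888) (nat_lit 2) (nat_lit 5) (nat_lit 4) (nat_lit 4) (nat_lit 2) (nat_lit 4) (nat_lit 358) (nat_lit 211) (nat_lit 211)))))) (XT.nd (nat_lit 390) (nat_lit 76) (nat_lit 0) (XT.nd (nat_lit 156) (nat_lit 0) (nat_lit 0) (XT.nd (nat_lit 78) (nat_lit 0) (nat_lit 0) (XT.lf (nat_lit 0) (nat_lit 55943573366) (nat_lit 152) (nat_lit 27331408501) (nat_lit 0) (nat_lit 55848996759) (nat_lit 2) (nat_lit 5) (nat_lit 4) (nat_lit 4) (nat_lit 2) (nat_lit 4) (nat_lit 359) (nat_lit 211) (nat_lit 210)) (XT.lf (nat_lit 0) (nat_lit 60937189142) (nat_lit 152) (nat_lit 24275036083) (nat_lit 0) (nat_lit 60752539576) (nat_lit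 2) (nat_lit 5) (nat_lit 4) (nat_lit 4) (nat_lit 2) (nat_lit 4) (nat_lit 360) (nat_lit 211) (nat_lit 209))) (XT.nd (nat_lit 78) (nat_lit 0) (nat_lit 0) (XT.lf (nat_lit 0) (nat_lit 66109396666) (nat_lit 152) (nat_lit 21202804114) (nat_lit 0) (nat_lit 65838963330) (nat_lit 2) (nat_lit 5) (nat_lit 4) (nat_lit 4) (nat_lit 2) (nat_lit 4) (nat_lit 361) (nat_lit 211) (nat_lit 208)) (XT.nd (nat_lit 78) (nat_lit 0) (nat_lit 0) (XT.lf (nat_lit 0) (nat_lit 71472510718) (nat_lit 152) (nat_lit 18107397755) (nat_lit 0) (nat_lit 71120378553) (nat_lit 2) (nat_lit 5) (nat_lit 4) (nat_lit 4) (nat_lit 2) (nat_lit 4) (nat_lit 362) (nat_lit 211) (nat_lit 207)) (XT.lf (nat_lit 0) (nat_lit 77039300617) (nat_lit 152) (nat_lit 14981446993) (nat_lit 0) (nat_lit 76609360044) (nat_lit 2) (nat_lit 5) (nat_lit 4) (nat_lit 4) (nat_lit 2) (nat_lit 4) (nat_lit 363) (nat_lit 211) (nat_lit 206))))) (XT.nd (nat_lit 234)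 (nat_lit 76) (nat_lit 0) (XT.nd (nat_lit 78) (nat_lit 0) (nat_lit 0) (XT.lf (nat_lit 0) (nat_lit 82823020625) (nat_lit 152) (nat_lit 11817509087) (nat_lit 0) (nat_lit 82318976805) (nat_lit 2) (nat_lit 5) (nat_lit 4) (nat_lit 4) (nat_lit 2) (nat_lit 4) (nat_lit 364) (nat_lit 211) (nat_lit 205)) (XT.nd (nat_lit 78) (nat_lit 0) (nat_lit 0) (XT.lf (nat_lit 0) (nat_lit 88837441504) (nat_lit 152) (nat_lit 8608050851) (nat_lit 0) (nat_lit 88262823163) (nat_lit 2) (nat_lit 5) (nat_lit 4) (nat_lit 4) (nat_lit 2) (nat_lit 4) (nat_lit 365) (nat_lit 211) (nat_lit 204)) (XT.lf (nat_lit 0) (nat_lit 95096883303) (nat_lit 152) (nat_lit 5345430718) (nat_lit 0) (nat_lit 94455051134) (nat_lit 2) (nat_lit 5) (nat_lit 4) (nat_lit 4) (nat_lit 2) (nat_lit 4) (nat_lit 366) (nat_lit 211) (nat_lit 203)))) (XT.nd (nat_lit 78) (nat_lit 76) (nat_lit 0) (XT.lf (nat_lit 0) (nat_lit 101616249455) (nat_lit 152) (nat_lit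 2021880546) (nat_lit 0) (nat_lit 100910404115) (nat_lit 2) (nat_lit 5) (nat_lit 4) (nat_lit 4) (nat_lit 2) (nat_lit 4) (nat_lit 367) (nat_lit 211) (nat_lit 202)) (XT.nd (nat_lit 78) (nat_lit 0) (nat_lit 0) (XT.lf (nat_lit 0) (nat_lit 1415828226) (nat_lit 76) (nat_lit 107017339081) (nat_lit 76) (nat_lit 106250528817) (nat_lit 1) (nat_lit 4) (nat_lit 2) (nat_lit 5) (nat_lit 2) (nat_lit 4) (nat_lit 368) (nat_lit 211) (nat_lit 201)) (XT.lf (nat_lit 0) (nat_lit 4999853217) (nat_lit 76) (nat_lit 110575708349) (nat_lit 76) (nat_lit 109750836253) (nat_lit 1) (nat_lit 4) (nat_lit 2) (nat_lit 5) (nat_lit 2) (nat_lit 4) (nat_lit 369) (nat_lit 211) (nat_lit 200))))))))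
noncomputable def xc8 : XT := (XT.nd (nat_lit 1560) (nat_lit 0) (nat_lit 0) (XT.nd (nat_lit 780) (nat_lit 0) (nat_lit 0) (XT.nd (nat_lit 390) (nat_lit 0) (nat_lit 0) (XT.nd (nat_lit 156) (nat_lit 0) (nat_lit 0) (XT.nd (nat_lit 78) (nat_lit 0) (nat_lit 0) (XT.lf (nat_lit 0) (nat_lit 8671875318) (nat_lit 76) (nat_lit 114355951639) (nat_lit 76) (nat_lit 113475782559) (nat_lit 1) (nat_lit 4) (nat_lit 2) (nat_lit 5) (nat_lit 2) (nat_lit 4) (nat_lit 370) (nat_lit 211) (nat_lit 199)) (XT.lf (nat_lit 0) (nat_lit 12440637439) (nat_lit 76) (nat_lit 118367069529) (nat_lit 76) (nat_lit 117434236656) (nat_lit 1) (nat_lit 4) (nat_lit 2) (nat_lit 5) (nat_lit 2) (nat_lit 4) (nat_lit 371) (nat_lit 211) (nat_lit 198))) (XT.nd (nat_lit 78) (nat_lit 0) (nat_lit 0) (XT.lf (nat_lit 0) (nat_lit 16315112823) (nat_lit 76) (nat_lit 122618612300) (nat_lit 76) (nat_lit 121635623433) (nat_lit 1) (nat_lit 4) (nat_lit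 2) (nat_lit 5) (nat_lit 2) (nat_lit 4) (nat_lit 372) (nat_lit 211) (nat_lit 197)) (XT.nd (nat_lit 78) (nat_lit 0) (nat_lit 0) (XT.lf (nat_lit 0) (nat_lit 20304526411) (nat_lit 76) (nat_lit 127120702674) (nat_lit 76) (nat_lit 126089946194) (nat_lit 1) (nat_lit 4) (nat_lit 2) (nat_lit 5) (nat_lit 2) (nat_lit 4) (nat_lit 373) (nat_lit 211) (nat_lit 196)) (XT.lf (nat_lit 0) (nat_lit 24418376806) (nat_lit 76) (nat_lit 131884059913) (nat_lit 76) (nat_lit 130807810468) (nat_lit 1) (nat_lit 4) (nat_lit 2) (nat_lit 5) (nat_lit 2) (nat_lit 4) (nat_lit 374) (nat_lit 211) (nat_lit 195))))) (XT.nd (nat_lit 156) (nat_lit 0) (nat_lit 0) (XT.nd (nat_lit 78) (nat_lit 0) (nat_lit 0) (XT.lf (nat_lit 0) (nat_lit 28666458892) (nat_lit 76) (nat_lit 136920025344) (nat_lit 76) (nat_lit 135800449265) (nat_lit 1) (nat_lit 4) (nat_lit 2) (nat_lit 5) (nat_lit 2) (nat_lit 4) (nat_lit 375) (nat_lit 211) (nat_lit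 194)) (XT.lf (nat_lit 0) (nat_lit 33058887148) (nat_lit 76) (nat_lit 142240589360) (nat_lit 76) (nat_lit 141079749821) (nat_lit 1) (nat_lit 4) (nat_lit 2) (nat_lit 5) (nat_lit 2) (nat_lit 4) (nat_lit 376) (nat_lit 211) (nat_lit 193))) (XT.nd (nat_lit 78) (nat_lit 0) (nat_lit 0) (XT.lf (nat_lit 0) (nat_lit 37606119738) (nat_lit 76) (nat_lit 147858419971) (nat_lit 76) (nat_lit 146658281899) (nat_lit 1) (nat_lit 4) (nat_lit 2) (nat_lit 5) (nat_lit 2) (nat_lit 4) (nat_lit 377) (nat_lit 211) (nat_lit 192)) (XT.nd (nat_lit 78) (nat_lit 0) (nat_lit 0) (XT.lf (nat_lit 0) (nat_lit 42318983406) (nat_lit 76) (nat_lit 153786892965) (nat_lit 76) (nat_lit 152549327718) (nat_lit 1) (nat_lit 4) (nat_lit 2) (nat_lit 5) (nat_lit 2) (nat_lit 4) (nat_lit 378) (nat_lit 211) (nat_lit 191)) (XT.lf (nat_lit 0) (nat_lit 47208699256) (nat_lit 76) (nat_lit 160040123754) (nat_lit 76) (nat_lit 158766913578) (nat_lit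 1) (nat_lit 4) (nat_lit 2) (nat_lit 5) (nat_lit 2) (nat_lit 4) (nat_lit 379) (nat_lit 211) (nat_lit 190)))))) (XT.nd (nat_lit 390) (nat_lit 0) (nat_lit 0) (XT.nd (nat_lit 156) (nat_lit 0) (nat_lit 0) (XT.nd (nat_lit 78) (nat_lit 0) (nat_lit 0) (XT.lf (nat_lit 0) (nat_lit 52286909468) (nat_lit 76) (nat_lit 166633000981) (nat_lit 76) (nat_lit 165325843254) (nat_lit 1) (nat_lit 4) (nat_lit 2) (nat_lit 5) (nat_lit 2) (nat_lit 4) (nat_lit 380) (nat_lit 211) (nat_lit 189)) (XT.lf (nat_lit 0) (nat_lit 57565705019) (nat_lit 76) (nat_lit 173581221974) (nat_lit 76) (nat_lit 172241733246) (nat_lit 1) (nat_lit 4) (nat_lit 2) (nat_lit 5) (nat_lit 2) (nat_lit 4) (nat_lit 381) (nat_lit 211) (nat_lit 188))) (XT.nd (nat_lit 78) (nat_lit 0) (nat_lit 0) (XT.lf (nat_lit 0) (nat_lit 63057654470) (nat_lit 76) (nat_lit 180901330116) (nat_lit 76) (nat_lit 179531049959) (nat_lit 1) (nat_lit 4) (nat_lit 2) (nat_lit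 5) (nat_lit 2) (nat_lit 4) (nat_lit 382) (nat_lit 211) (nat_lit 187)) (XT.nd (nat_lit 78) (nat_lit 0) (nat_lit 0) (XT.lf (nat_lit 0) (nat_lit 68775833891) (nat_lit 76) (nat_lit 188610754236) (nat_lit 76) (nat_lit 187211148908) (nat_lit 1) (nat_lit 4) (nat_lit 2) (nat_lit 5) (nat_lit 2) (nat_lit 4) (nat_lit 383) (nat_lit 211) (nat_lit 186)) (XT.lf (nat_lit 0) (nat_lit 74733857994) (nat_lit 76) (nat_lit 196727850106) (nat_lit 76) (nat_lit 195300316044) (nat_lit 1) (nat_lit 4) (nat_lit 2) (nat_lit 5) (nat_lit 2) (nat_lit 4) (nat_lit 384) (nat_lit 211) (nat_lit 185))))) (XT.nd (nat_lit 156) (nat_lit 0) (nat_lit 0) (XT.nd (nat_lit 78) (nat_lit 0) (nat_lit 0) (XT.lf (nat_lit 0) (nat_lit 80945912553) (nat_lit 76) (nat_lit 205271944144) (nat_lit 76) (nat_lit 203817811287) (nat_lit 1) (nat_lit 4) (nat_lit 2) (nat_lit 5) (nat_lit 2) (nat_lit 4) (nat_lit 385) (nat_lit 211) (nat_lit 184)) (XT.lf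 (nat_lit 0) (nat_lit 87426788172) (nat_lit 76) (nat_lit 214263379432) (nat_lit 76) (nat_lit 212783914390) (nat_lit 1) (nat_lit 4) (nat_lit 2) (nat_lit 5) (nat_lit 2) (nat_lit 4) (nat_lit 386) (nat_lit 211) (nat_lit 183))) (XT.nd (nat_lit 78) (nat_lit 0) (nat_lit 0) (XT.lf (nat_lit 0) (nat_lit 94191915507) (nat_lit 76) (nat_lit 223723564148) (nat_lit 76) (nat_lit 222219973216) (nat_lit 1) (nat_lit 4) (nat_lit 2) (nat_lit 5) (nat_lit 2) (nat_lit 4) (nat_lit 387) (nat_lit 211) (nat_lit 182)) (XT.nd (nat_lit 78) (nat_lit 0) (nat_lit 0) (XT.lf (nat_lit 0) (nat_lit 101257402006) (nat_lit 76) (nat_lit 233675022543) (nat_lit 76) (nat_lit 232148454572) (nat_lit 1) (nat_lit 4) (nat_lit 2) (nat_lit 5) (nat_lit 2) (nat_lit 4) (nat_lit 388) (nat_lit 211) (nat_lit 181)) (XT.lf (nat_lit 0) (nat_lit 108640070255) (nat_lit 76) (nat_lit 244141448564) (nat_lit 76) (nat_lit 242592997699) (nat_lit 1) (nat_lit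 4) (nat_lit 2) (nat_lit 5) (nat_lit 2) (nat_lit 4) (nat_lit 389) (nat_lit 211) (nat_lit 180))))))) (XT.nd (nat_lit 38454) (nat_lit 0) (nat_lit 0) (XT.nd (nat_lit 38064) (nat_lit 0) (nat_lit 76) (XT.nd (nat_lit 156) (nat_lit 0) (nat_lit 0) (XT.nd (nat_lit 78) (nat_lit 0) (nat_lit 0) (XT.lf (nat_lit 0) (nat_lit 116357498035) (nat_lit 76) (nat_lit 255147762274) (nat_lit 76) (nat_lit 253578470557) (nat_lit 1) (nat_lit 4) (nat_lit 2) (nat_lit 5) (nat_lit 2) (nat_lit 4) (nat_lit 390) (nat_lit 211) (nat_lit 179)) (XT.lf (nat_lit 0) (nat_lit 124428060174) (nat_lit 76) (nat_lit 266720169181) (nat_lit 76) (nat_lit 265131029034) (nat_lit 1) (nat_lit 4) (nat_lit 2) (nat_lit 5) (nat_lit 2) (nat_lit 4) (nat_lit 391) (nat_lit 211) (nat_lit 178))) (XT.nd (nat_lit 78) (nat_lit 0) (nat_lit 0) (XT.lf (nat_lit 0) (nat_lit 132870972297) (nat_lit 76) (nat_lit 278886222635) (nat_lit 76) (nat_lit 277278179222)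 (nat_lit 1) (nat_lit 4) (nat_lit 2) (nat_lit 5) (nat_lit 2) (nat_lit 4) (nat_lit 392) (nat_lit 211) (nat_lit 177)) (XT.nd (nat_lit 37752) (nat_lit 0) (nat_lit 76) (XT.lf (nat_lit 0) (nat_lit 141706336576) (nat_lit 76) (nat_lit 291674889431) (nat_lit 76) (nat_lit 290048842906) (nat_lit 1) (nat_lit 4) (nat_lit 2) (nat_lit 5) (nat_lit 2) (nat_lit 4) (nat_lit 393) (nat_lit 211) (nat_lit 176)) (XT.lf (nat_lit 0) (nat_lit 21028393585) (nat_lit 152) (nat_lit 18200357104) (nat_lit 0) (nat_lit 21028393585) (nat_lit 2) (nat_lit 5) (nat_lit 4) (nat_lit 4) (nat_lit 2) (nat_lit 4) (nat_lit 356) (nat_lit 212) (nat_lit 212))))) (XT.nd (nat_lit 156) (nat_lit 0) (nat_lit 0) (XT.nd (nat_lit 78) (nat_lit 0) (nat_lit 0) (XT.lf (nat_lit 0) (nat_lit 46544261160) (nat_lit 152) (nat_lit 33425662559) (nat_lit 0) (nat_lit 46444955723) (nat_lit 2) (nat_lit 5) (nat_lit 4) (nat_lit 4) (nat_lit 2) (nat_lit 4) (nat_lit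 357) (nat_lit 212) (nat_lit 211)) (XT.lf (nat_lit 0) (nat_lit 51177733181) (nat_lit 152) (nat_lit 30452855702) (nat_lit 0) (nat_lit 50983851137) (nat_lit 2) (nat_lit 5) (nat_lit 4) (nat_lit 4) (nat_lit 2) (nat_lit 4) (nat_lit 358) (nat_lit 212) (nat_lit 210))) (XT.nd (nat_lit 78) (nat_lit 0) (nat_lit 0) (XT.lf (nat_lit 0) (nat_lit 55968235311) (nat_lit 152) (nat_lit 27475215525) (nat_lit 0) (nat_lit 55684280308) (nat_lit 2) (nat_lit 5) (nat_lit 4) (nat_lit 4) (nat_lit 2) (nat_lit 4) (nat_lit 359) (nat_lit 212) (nat_lit 209)) (XT.nd (nat_lit 78) (nat_lit 0) (nat_lit 0) (XT.lf (nat_lit 0) (nat_lit 60927173506) (nat_lit 152) (nat_lit 24485652409) (nat_lit 0) (nat_lit 60557434732) (nat_lit 2) (nat_lit 5) (nat_lit 4) (nat_lit 4) (nat_lit 2) (nat_lit 4) (nat_lit 360) (nat_lit 212) (nat_lit 208)) (XT.lf (nat_lit 0) (nat_lit 66066354763) (nat_lit 152) (nat_lit 21477048347) (nat_lit 0) (nat_lit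 65614917160) (nat_lit 2) (nat_lit 5) (nat_lit 4) (nat_lit 4) (nat_lit 2) (nat_lit 4) (nat_lit 361) (nat_lit 212) (nat_lit 207)))))) (XT.nd (nat_lit 390) (nat_lit 76) (nat_lit 0) (XT.nd (nat_lit 156) (nat_lit 0) (nat_lit 0) (XT.nd (nat_lit 78) (nat_lit 0) (nat_lit 0) (XT.lf (nat_lit 0) (nat_lit 71398015227) (nat_lit 152) (nat_lit 18442239995) (nat_lit 0) (nat_lit 70868769215) (nat_lit 2) (nat_lit 5) (nat_lit 4) (nat_lit 4) (nat_lit 2) (nat_lit 4) (nat_lit 362) (nat_lit 212) (nat_lit 206)) (XT.lf (nat_lit 0) (nat_lit 76934849328) (nat_lit 152) (nat_lit 15374001620) (nat_lit 0) (nat_lit 76331500070) (nat_lit 2) (nat_lit 5) (nat_lit 4) (nat_lit 4) (nat_lit 2) (nat_lit 4) (nat_lit 363) (nat_lit 212) (nat_lit 205))) (XT.nd (nat_lit 78) (nat_lit 0) (nat_lit 0) (XT.lf (nat_lit 0) (nat_lit 82690040004) (nat_lit 152) (nat_lit 12265027892) (nat_lit 0) (nat_lit 82016116226) (nat_lit 2) (nat_lit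 5) (nat_lit 4) (nat_lit 4) (nat_lit 2) (nat_lit 4) (nat_lit 364) (nat_lit 212) (nat_lit 204)) (XT.nd (nat_lit 78) (nat_lit 0) (nat_lit 0) (XT.lf (nat_lit 0) (nat_lit 88677290090) (nat_lit 152) (nat_lit 9107916493) (nat_lit 0) (nat_lit 87936152484) (nat_lit 2) (nat_lit 5) (nat_lit 4) (nat_lit 4) (nat_lit 2) (nat_lit 4) (nat_lit 365) (nat_lit 212) (nat_lit 203)) (XT.lf (nat_lit 0) (nat_lit 94910854945) (nat_lit 152) (nat_lit 5895150490) (nat_lit 0) (nat_lit 94105704168) (nat_lit 2) (nat_lit 5) (nat_lit 4) (nat_lit 4) (nat_lit 2) (nat_lit 4) (nat_lit 366) (nat_lit 212) (nat_lit 202))))) (XT.nd (nat_lit 234) (nat_lit 0) (nat_lit 0) (XT.nd (nat_lit 78) (nat_lit 76) (nat_lit 0) (XT.lf (nat_lit 0) (nat_lit 101405576388) (nat_lit 152) (nat_lit 2619080442) (nat_lit 0) (nat_lit 100539460687) (nat_lit 2) (nat_lit 5) (nat_lit 4) (nat_lit 4) (nat_lit 2) (nat_lit 4) (nat_lit 367) (nat_lit 212) (nat_lit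 201)) (XT.nd (nat_lit 78) (nat_lit 0) (nat_lit 0) (XT.lf (nat_lit 0) (nat_lit 752167888) (nat_lit 76) (nat_lit 107436493601) (nat_lit 76) (nat_lit 106512316068) (nat_lit 1) (nat_lit 4) (nat_lit 2) (nat_lit 5) (nat_lit 2) (nat_lit 4) (nat_lit 368) (nat_lit 212) (nat_lit 200)) (XT.lf (nat_lit 0) (nat_lit 4291703056) (nat_lit 76) (nat_lit 111016304605) (nat_lit 76) (nat_lit 110036830088) (nat_lit 1) (nat_lit 4) (nat_lit 2) (nat_lit 5) (nat_lit 2) (nat_lit 4) (nat_lit 369) (nat_lit 212) (nat_lit 199)))) (XT.nd (nat_lit 78) (nat_lit 0) (nat_lit 0) (XT.lf (nat_lit 0) (nat_lit 7921353896) (nat_lit 76) (nat_lit 114816968595) (nat_lit 76) (nat_lit 113784830285) (nat_lit 1) (nat_lit 4) (nat_lit 2) (nat_lit 5) (nat_lit 2) (nat_lit 4) (nat_lit 370) (nat_lit 212) (nat_lit 198)) (XT.nd (nat_lit 78) (nat_lit 0) (nat_lit 0) (XT.lf (nat_lit 0) (nat_lit 11649762434) (nat_lit 76) (nat_lit 118847534772)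 (nat_lit 76) (nat_lit 117765240467) (nat_lit 1) (nat_lit 4) (nat_lit 2) (nat_lit 5) (nat_lit 2) (nat_lit 4) (nat_lit 371) (nat_lit 212) (nat_lit 197)) (XT.lf (nat_lit 0) (nat_lit 15485805835) (nat_lit 76) (nat_lit 123117599721) (nat_lit 76) (nat_lit 121987537803) (nat_lit 1) (nat_lit 4) (nat_lit 2) (nat_lit 5) (nat_lit 2) (nat_lit 4) (nat_lit 372) (nat_lit 212) (nat_lit 196))))))))
noncomputable def xc9 : XT := (XT.nd (nat_lit 39156) (nat_lit 0) (nat_lit 0) (XT.nd (nat_lit 780) (nat_lit 0) (nat_lit 0) (XT.nd (nat_lit 390) (nat_lit 0) (nat_lit 0) (XT.nd (nat_lit 156) (nat_lit 0) (nat_lit 0) (XT.nd (nat_lit 78) (nat_lit 0) (nat_lit 0) (XT.lf (nat_lit 0) (nat_lit 19438617534) (nat_lit 76) (nat_lit 127637330263) (nat_lit 76) (nat_lit 126461775381) (nat_lit 1) (nat_lit 4) (nat_lit 2) (nat_lit 5) (nat_lit 2) (nat_lit 4) (nat_lit 373) (nat_lit 212) (nat_lit 195)) (XT.lf (nat_lit 0) (nat_lit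 23517608989) (nat_lit 76) (nat_lit 132417487663) (nat_lit 76) (nat_lit 131198606147) (nat_lit 1) (nat_lit 4) (nat_lit 2) (nat_lit 5) (nat_lit 2) (nat_lit 4) (nat_lit 374) (nat_lit 212) (nat_lit 194))) (XT.nd (nat_lit 78) (nat_lit 0) (nat_lit 0) (XT.lf (nat_lit 0) (nat_lit 27732492082) (nat_lit 76) (nat_lit 137469453247) (nat_lit 76) (nat_lit 136209308270) (nat_lit 1) (nat_lit 4) (nat_lit 2) (nat_lit 5) (nat_lit 2) (nat_lit 4) (nat_lit 375) (nat_lit 212) (nat_lit 193)) (XT.nd (nat_lit 78) (nat_lit 0) (nat_lit 0) (XT.lf (nat_lit 0) (nat_lit 32093302252) (nat_lit 76) (nat_lit 142805255504) (nat_lit 76) (nat_lit 141505811994) (nat_lit 1) (nat_lit 4) (nat_lit 2) (nat_lit 5) (nat_lit 2) (nat_lit 4) (nat_lit 376) (nat_lit 212) (nat_lit 192)) (XT.lf (nat_lit 0) (nat_lit 36610422377) (nat_lit 76) (nat_lit 148437598726) (nat_lit 76) (nat_lit 147100728042) (nat_lit 1) (nat_lit 4) (nat_lit 2) (nat_lit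 5) (nat_lit 2) (nat_lit 4) (nat_lit 377) (nat_lit 212) (nat_lit 191))))) (XT.nd (nat_lit 156) (nat_lit 0) (nat_lit 0) (XT.nd (nat_lit 78) (nat_lit 0) (nat_lit 0) (XT.lf (nat_lit 0) (nat_lit 41294607508) (nat_lit 76) (nat_lit 154379893254) (nat_lit 76) (nat_lit 153007377641) (nat_lit 1) (nat_lit 4) (nat_lit 2) (nat_lit 5) (nat_lit 2) (nat_lit 4) (nat_lit 378) (nat_lit 212) (nat_lit 190)) (XT.lf (nat_lit 0) (nat_lit 46157010465) (nat_lit 76) (nat_lit 160646287408) (nat_lit 76) (nat_lit 159239824244) (nat_lit 1) (nat_lit 4) (nat_lit 2) (nat_lit 5) (nat_lit 2) (nat_lit 4) (nat_lit 379) (nat_lit 212) (nat_lit 189))) (XT.nd (nat_lit 78) (nat_lit 0) (nat_lit 0) (XT.lf (nat_lit 0) (nat_lit 51209208398) (nat_lit 76) (nat_lit 167251701174) (nat_lit 76) (nat_lit 165812907009) (nat_lit 1) (nat_lit 4) (nat_lit 2) (nat_lit 5) (nat_lit 2) (nat_lit 4) (nat_lit 380) (nat_lit 212) (nat_lit 188)) (XT.nd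 (nat_lit 78) (nat_lit 0) (nat_lit 0) (XT.lf (nat_lit 0) (nat_lit 56463230350) (nat_lit 76) (nat_lit 174211861728) (nat_lit 76) (nat_lit 172742276133) (nat_lit 1) (nat_lit 4) (nat_lit 2) (nat_lit 5) (nat_lit 2) (nat_lit 4) (nat_lit 381) (nat_lit 212) (nat_lit 187)) (XT.lf (nat_lit 0) (nat_lit 61931585897) (nat_lit 76) (nat_lit 181543340880) (nat_lit 76) (nat_lit 180044430115) (nat_lit 1) (nat_lit 4) (nat_lit 2) (nat_lit 5) (nat_lit 2) (nat_lit 4) (nat_lit 382) (nat_lit 212) (nat_lit 186)))))) (XT.nd (nat_lit 390) (nat_lit 0) (nat_lit 0) (XT.nd (nat_lit 156) (nat_lit 0) (nat_lit 0) (XT.nd (nat_lit 78) (nat_lit 0) (nat_lit 0) (XT.lf (nat_lit 0) (nat_lit 67627294933) (nat_lit 76) (nat_lit 189263594534) (nat_lit 76) (nat_lit 187736755034) (nat_lit 1) (nat_lit 4) (nat_lit 2) (nat_lit 5) (nat_lit 2) (nat_lit 4) (nat_lit 383) (nat_lit 212) (nat_lit 185)) (XT.lf (nat_lit 0) (nat_lit 73563918671)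 (nat_lit 76) (nat_lit 197391004245) (nat_lit 76) (nat_lit 195837565951) (nat_lit 1) (nat_lit 4) (nat_lit 2) (nat_lit 5) (nat_lit 2) (nat_lit 4) (nat_lit 384) (nat_lit 212) (nat_lit 184))) (XT.nd (nat_lit 78) (nat_lit 0) (nat_lit 0) (XT.lf (nat_lit 0) (nat_lit 79755591928) (nat_lit 76) (nat_lit 205944920989) (nat_lit 76) (nat_lit 204366150510) (nat_lit 1) (nat_lit 4) (nat_lit 2) (nat_lit 5) (nat_lit 2) (nat_lit 4) (nat_lit 385) (nat_lit 212) (nat_lit 183)) (XT.nd (nat_lit 78) (nat_lit 0) (nat_lit 0) (XT.lf (nat_lit 0) (nat_lit 86217056784) (nat_lit 76) (nat_lit 214945711235) (nat_lit 76) (nat_lit 213342814865) (nat_lit 1) (nat_lit 4) (nat_lit 2) (nat_lit 5) (nat_lit 2) (nat_lit 4) (nat_lit 386) (nat_lit 212) (nat_lit 182)) (XT.lf (nat_lit 0) (nat_lit 92963697679) (nat_lit 76) (nat_lit 224414805436) (nat_lit 76) (nat_lit 222788932027) (nat_lit 1) (nat_lit 4) (nat_lit 2) (nat_lit 5) (nat_lit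 2) (nat_lit 4) (nat_lit 387) (nat_lit 212) (nat_lit 181))))) (XT.nd (nat_lit 234) (nat_lit 0) (nat_lit 0) (XT.nd (nat_lit 78) (nat_lit 0) (nat_lit 0) (XT.lf (nat_lit 0) (nat_lit 100011578044) (nat_lit 76) (nat_lit 234374749053) (nat_lit 76) (nat_lit 232726992751) (nat_lit 1) (nat_lit 4) (nat_lit 2) (nat_lit 5) (nat_lit 2) (nat_lit 4) (nat_lit 388) (nat_lit 212) (nat_lit 180)) (XT.nd (nat_lit 78) (nat_lit 0) (nat_lit 0) (XT.lf (nat_lit 0) (nat_lit 107377478546) (nat_lit 76) (nat_lit 244849256239) (nat_lit 76) (nat_lit 243180659085) (nat_lit 1) (nat_lit 4) (nat_lit 2) (nat_lit 5) (nat_lit 2) (nat_lit 4) (nat_lit 389) (nat_lit 212) (nat_lit 179)) (XT.lf (nat_lit 0) (nat_lit 115078937043) (nat_lit 76) (nat_lit 255863266296) (nat_lit 76) (nat_lit 254174820712) (nat_lit 1) (nat_lit 4) (nat_lit 2) (nat_lit 5) (nat_lit 2) (nat_lit 4) (nat_lit 390) (nat_lit 212) (nat_lit 178)))) (XT.nd (nat_lit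 78) (nat_lit 0) (nat_lit 0) (XT.lf (nat_lit 0) (nat_lit 123134290342) (nat_lit 76) (nat_lit 267443003058) (nat_lit 76) (nat_lit 265735654207) (nat_lit 1) (nat_lit 4) (nat_lit 2) (nat_lit 5) (nat_lit 2) (nat_lit 4) (nat_lit 391) (nat_lit 212) (nat_lit 177)) (XT.nd (nat_lit 78) (nat_lit 0) (nat_lit 0) (XT.lf (nat_lit 0) (nat_lit 131562717855) (nat_lit 76) (nat_lit 279616037326) (nat_lit 76) (nat_lit 277890685364) (nat_lit 1) (nat_lit 4) (nat_lit 2) (nat_lit 5) (nat_lit 2) (nat_lit 4) (nat_lit 392) (nat_lit 212) (nat_lit 176)) (XT.lf (nat_lit 0) (nat_lit 140384287266) (nat_lit 76) (nat_lit 292411352516) (nat_lit 76) (nat_lit 290668854734) (nat_lit 1) (nat_lit 4) (nat_lit 2) (nat_lit 5) (nat_lit 2) (nat_lit 4) (nat_lit 393) (nat_lit 212) (nat_lit 175))))))) (XT.nd (nat_lit 780) (nat_lit 76) (nat_lit 0) (XT.nd (nat_lit 390) (nat_lit 0) (nat_lit 0) (XT.nd (nat_lit 156) (nat_lit 0) (nat_lit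 0) (XT.nd (nat_lit 78) (nat_lit 0) (nat_lit 0) (XT.lf (nat_lit 0) (nat_lit 16811919571) (nat_lit 152) (nat_lit 21152350397) (nat_lit 0) (nat_lit 16811919571) (nat_lit 2) (nat_lit 5) (nat_lit 4) (nat_lit 4) (nat_lit 2) (nat_lit 4) (nat_lit 354) (nat_lit 213) (nat_lit 213)) (XT.lf (nat_lit 0) (nat_lit 37808897461) (nat_lit 152) (nat_lit 39385094107) (nat_lit 0) (nat_lit 37704626752) (nat_lit 2) (nat_lit 5) (nat_lit 4) (nat_lit 4) (nat_lit 2) (nat_lit 4) (nat_lit 355) (nat_lit 213) (nat_lit 212))) (XT.nd (nat_lit 78) (nat_lit 0) (nat_lit 0) (XT.lf (nat_lit 0) (nat_lit 42120914246) (nat_lit 152) (nat_lit 36478054328) (nat_lit 0) (nat_lit 41917338099) (nat_lit 2) (nat_lit 5) (nat_lit 4) (nat_lit 4) (nat_lit 2) (nat_lit 4) (nat_lit 356) (nat_lit 213) (nat_lit 211)) (XT.nd (nat_lit 78) (nat_lit 0) (nat_lit 0) (XT.lf (nat_lit 0) (nat_lit 46570156202) (nat_lit 152) (nat_lit 33576659934) (nat_lit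 0) (nat_lit 46272003449) (nat_lit 2) (nat_lit 5) (nat_lit 4) (nat_lit 4) (nat_lit 2) (nat_lit 4) (nat_lit 357) (nat_lit 213) (nat_lit 210)) (XT.lf (nat_lit 0) (nat_lit 51167216763) (nat_lit 152) (nat_lit 30674002844) (nat_lit 0) (nat_lit 50778991051) (nat_lit 2) (nat_lit 5) (nat_lit 4) (nat_lit 4) (nat_lit 2) (nat_lit 4) (nat_lit 358) (nat_lit 213) (nat_lit 209))))) (XT.nd (nat_lit 156) (nat_lit 0) (nat_lit 0) (XT.nd (nat_lit 78) (nat_lit 0) (nat_lit 0) (XT.lf (nat_lit 0) (nat_lit 55923041312) (nat_lit 152) (nat_lit 27763171969) (nat_lit 0) (nat_lit 55449031829) (nat_lit 2) (nat_lit 5) (nat_lit 4) (nat_lit 4) (nat_lit 2) (nat_lit 4) (nat_lit 359) (nat_lit 213) (nat_lit 208)) (XT.lf (nat_lit 0) (nat_lit 60848953240) (nat_lit 152) (nat_lit 24837236760) (nat_lit 0) (nat_lit 60293244928) (nat_lit 2) (nat_lit 5) (nat_lit 4) (nat_lit 4) (nat_lit 2) (nat_lit 4) (nat_lit 360) (nat_lit 213) (nat_lit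 207))) (XT.nd (nat_lit 78) (nat_lit 0) (nat_lit 0) (XT.lf (nat_lit 0) (nat_lit 65956680908) (nat_lit 152) (nat_lit 21889230705) (nat_lit 0) (nat_lit 65323164188) (nat_lit 2) (nat_lit 5) (nat_lit 4) (nat_lit 4) (nat_lit 2) (nat_lit 4) (nat_lit 361) (nat_lit 213) (nat_lit 206)) (XT.nd (nat_lit 78) (nat_lit 0) (nat_lit 0) (XT.lf (nat_lit 0) (nat_lit 71258385574) (nat_lit 152) (nat_lit 18912134741) (nat_lit 0) (nat_lit 70550765607) (nat_lit 2) (nat_lit 5) (nat_lit 4) (nat_lit 4) (nat_lit 2) (nat_lit 4) (nat_lit 362) (nat_lit 213) (nat_lit 205)) (XT.lf (nat_lit 0) (nat_lit 76766690343) (nat_lit 152) (nat_lit 15898860544) (nat_lit 0) (nat_lit 75988495856) (nat_lit 2) (nat_lit 5) (nat_lit 4) (nat_lit 4) (nat_lit 2) (nat_lit 4) (nat_lit 363) (nat_lit 213) (nat_lit 204)))))) (XT.nd (nat_lit 390) (nat_lit 76) (nat_lit 0) (XT.nd (nat_lit 156) (nat_lit 0) (nat_lit 0) (XT.nd (nat_lit 78) (nat_lit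 0) (nat_lit 0) (XT.lf (nat_lit 0) (nat_lit 82494710228) (nat_lit 152) (nat_lit 12842233653) (nat_lit 0) (nat_lit 81649301912) (nat_lit 2) (nat_lit 5) (nat_lit 4) (nat_lit 4) (nat_lit 2) (nat_lit 4) (nat_lit 364) (nat_lit 213) (nat_lit 203)) (XT.lf (nat_lit 0) (nat_lit 88456083370) (nat_lit 152) (nat_lit 9734976384) (nat_lit 0) (nat_lit 87546661884) (nat_lit 2) (nat_lit 5) (nat_lit 4) (nat_lit 4) (nat_lit 2) (nat_lit 4) (nat_lit 365) (nat_lit 213) (nat_lit 202))) (XT.nd (nat_lit 78) (nat_lit 0) (nat_lit 0) (XT.lf (nat_lit 0) (nat_lit 94665003515) (nat_lit 152) (nat_lit 6569690505) (nat_lit 0) (nat_lit 93694617104) (nat_lit 2) (nat_lit 5) (nat_lit 4) (nat_lit 4) (nat_lit 2) (nat_lit 4) (nat_lit 366) (nat_lit 213) (nat_lit 201)) (XT.nd (nat_lit 78) (nat_lit 0) (nat_lit 0) (XT.lf (nat_lit 0) (nat_lit 101136253806) (nat_lit 152) (nat_lit 3338839622) (nat_lit 0) (nat_lit 100107805563) (nat_lit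 2) (nat_lit 5) (nat_lit 4) (nat_lit 4) (nat_lit 2) (nat_lit 4) (nat_lit 367) (nat_lit 213) (nat_lit 200)) (XT.lf (nat_lit 0) (nat_lit 107885241982) (nat_lit 152) (nat_lit 34731233) (nat_lit 0) (nat_lit 106801496756) (nat_lit 2) (nat_lit 5) (nat_lit 4) (nat_lit 4) (nat_lit 2) (nat_lit 4) (nat_lit 368) (nat_lit 213) (nat_lit 199))))) (XT.nd (nat_lit 234) (nat_lit 0) (nat_lit 0) (XT.nd (nat_lit 78) (nat_lit 0) (nat_lit 0) (XT.lf (nat_lit 0) (nat_lit 3461284301) (nat_lit 76) (nat_lit 111520793110) (nat_lit 76) (nat_lit 110384384090) (nat_lit 1) (nat_lit 4) (nat_lit 2) (nat_lit 5) (nat_lit 2) (nat_lit 4) (nat_lit 369) (nat_lit 213) (nat_lit 198)) (XT.nd (nat_lit 78) (nat_lit 0) (nat_lit 0) (XT.lf (nat_lit 0) (nat_lit 7050581559) (nat_lit 76) (nat_lit 115340905386) (nat_lit 76) (nat_lit 114154340373) (nat_lit 1) (nat_lit 4) (nat_lit 2) (nat_lit 5) (nat_lit 2) (nat_lit 4) (nat_lit 370) (nat_lit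 213) (nat_lit 197)) (XT.lf (nat_lit 0) (nat_lit 10740558115) (nat_lit 76) (nat_lit 119389993740) (nat_lit 76) (nat_lit 118155661113) (nat_lit 1) (nat_lit 4) (nat_lit 2) (nat_lit 5) (nat_lit 2) (nat_lit 4) (nat_lit 371) (nat_lit 213) (nat_lit 196)))) (XT.nd (nat_lit 78) (nat_lit 0) (nat_lit 0) (XT.lf (nat_lit 0) (nat_lit 14539999627) (nat_lit 76) (nat_lit 123677698858) (nat_lit 76) (nat_lit 122397873266) (nat_lit 1) (nat_lit 4) (nat_lit 2) (nat_lit 5) (nat_lit 2) (nat_lit 4) (nat_lit 372) (nat_lit 213) (nat_lit 195)) (XT.nd (nat_lit 78) (nat_lit 0) (nat_lit 0) (XT.lf (nat_lit 0) (nat_lit 18457952385) (nat_lit 76) (nat_lit 128214229562) (nat_lit 76) (nat_lit 126891077336) (nat_lit 1) (nat_lit 4) (nat_lit 2) (nat_lit 5) (nat_lit 2) (nat_lit 4) (nat_lit 373) (nat_lit 213) (nat_lit 194)) (XT.lf (nat_lit 0) (nat_lit 22503744847) (nat_lit 76) (nat_lit 133010387114) (nat_lit 76) (nat_lit 131645971429)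 (nat_lit 1) (nat_lit 4) (nat_lit 2) (nat_lit 5) (nat_lit 2) (nat_lit 4) (nat_lit 374) (nat_lit 213) (nat_lit 193))))))))
noncomputable def xc10 : XT := (XT.nd (nat_lit 38922) (nat_lit 0) (nat_lit 0) (XT.nd (nat_lit 780) (nat_lit 0) (nat_lit 0) (XT.nd (nat_lit 390) (nat_lit 0) (nat_lit 0) (XT.nd (nat_lit 156) (nat_lit 0) (nat_lit 0) (XT.nd (nat_lit 78) (nat_lit 0) (nat_lit 0) (XT.lf (nat_lit 0) (nat_lit 26687009853) (nat_lit 76) (nat_lit 138077590940) (nat_lit 76) (nat_lit 136673876720) (nat_lit 1) (nat_lit 4) (nat_lit 2) (nat_lit 5) (nat_lit 2) (nat_lit 4) (nat_lit 375) (nat_lit 213) (nat_lit 192)) (XT.lf (nat_lit 0) (nat_lit 31017707558) (nat_lit 76) (nat_lit 143427905808) (nat_lit 76) (nat_lit 141986764414) (nat_lit 1) (nat_lit 4) (nat_lit 2) (nat_lit 5) (nat_lit 2) (nat_lit 4) (nat_lit 376) (nat_lit 213) (nat_lit 191))) (XT.nd (nat_lit 78) (nat_lit 0) (nat_lit 0) (XT.lf (nat_lit 0)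 (nat_lit 35506149147) (nat_lit 76) (nat_lit 149074070564) (nat_lit 76) (nat_lit 147597284241) (nat_lit 1) (nat_lit 4) (nat_lit 2) (nat_lit 5) (nat_lit 2) (nat_lit 4) (nat_lit 377) (nat_lit 213) (nat_lit 190)) (XT.nd (nat_lit 78) (nat_lit 0) (nat_lit 0) (XT.lf (nat_lit 0) (nat_lit 40163021384) (nat_lit 76) (nat_lit 155029528457) (nat_lit 76) (nat_lit 153518794584) (nat_lit 1) (nat_lit 4) (nat_lit 2) (nat_lit 5) (nat_lit 2) (nat_lit 4) (nat_lit 378) (nat_lit 213) (nat_lit 189)) (XT.lf (nat_lit 0) (nat_lit 44999412062) (nat_lit 76) (nat_lit 161308459150) (nat_lit 76) (nat_lit 159765394276) (nat_lit 1) (nat_lit 4) (nat_lit 2) (nat_lit 5) (nat_lit 2) (nat_lit 4) (nat_lit 379) (nat_lit 213) (nat_lit 188))))) (XT.nd (nat_lit 156) (nat_lit 0) (nat_lit 0) (XT.nd (nat_lit 78) (nat_lit 0) (nat_lit 0) (XT.lf (nat_lit 0) (nat_lit 50026836397) (nat_lit 76) (nat_lit 167925812477) (nat_lit 76) (nat_lit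 166351956173) (nat_lit 1) (nat_lit 4) (nat_lit 2) (nat_lit 5) (nat_lit 2) (nat_lit 4) (nat_lit 380) (nat_lit 213) (nat_lit 187)) (XT.lf (nat_lit 0) (nat_lit 55257264445) (nat_lit 76) (nat_lit 174897344040) (nat_lit 76) (nat_lit 173294162566) (nat_lit 1) (nat_lit 4) (nat_lit 2) (nat_lit 5) (nat_lit 2) (nat_lit 4) (nat_lit 381) (nat_lit 213) (nat_lit 186))) (XT.nd (nat_lit 78) (nat_lit 0) (nat_lit 0) (XT.lf (nat_lit 0) (nat_lit 60703149608) (nat_lit 76) (nat_lit 182239652726) (nat_lit 76) (nat_lit 180608542518) (nat_lit 1) (nat_lit 4) (nat_lit 2) (nat_lit 5) (nat_lit 2) (nat_lit 4) (nat_lit 382) (nat_lit 213) (nat_lit 185)) (XT.nd (nat_lit 78) (nat_lit 0) (nat_lit 0) (XT.lf (nat_lit 0) (nat_lit 66377458278) (nat_lit 76) (nat_lit 189970220221) (nat_lit 76) (nat_lit 188312511218) (nat_lit 1) (nat_lit 4) (nat_lit 2) (nat_lit 5) (nat_lit 2) (nat_lit 4) (nat_lit 383) (nat_lit 213) (nat_lit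 184)) (XT.lf (nat_lit 0) (nat_lit 72293700714) (nat_lit 76) (nat_lit 198107452639) (nat_lit 76) (nat_lit 196424411450) (nat_lit 1) (nat_lit 4) (nat_lit 2) (nat_lit 5) (nat_lit 2) (nat_lit 4) (nat_lit 384) (nat_lit 213) (nat_lit 183)))))) (XT.nd (nat_lit 390) (nat_lit 0) (nat_lit 0) (XT.nd (nat_lit 156) (nat_lit 0) (nat_lit 0) (XT.nd (nat_lit 78) (nat_lit 0) (nat_lit 0) (XT.lf (nat_lit 0) (nat_lit 78465963209) (nat_lit 76) (nat_lit 206670724341) (nat_lit 76) (nat_lit 204963557262) (nat_lit 1) (nat_lit 4) (nat_lit 2) (nat_lit 5) (nat_lit 2) (nat_lit 4) (nat_lit 385) (nat_lit 213) (nat_lit 182)) (XT.lf (nat_lit 0) (nat_lit 84908941624) (nat_lit 76) (nat_lit 215680424071) (nat_lit 76) (nat_lit 213950279954) (nat_lit 1) (nat_lit 4) (nat_lit 2) (nat_lit 5) (nat_lit 2) (nat_lit 4) (nat_lit 386) (nat_lit 213) (nat_lit 181))) (XT.nd (nat_lit 78) (nat_lit 0) (nat_lit 0) (XT.lf (nat_lit 0) (nat_lit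 91637976385) (nat_lit 76) (nat_lit 225158003495) (nat_lit 76) (nat_lit 223405976483) (nat_lit 1) (nat_lit 4) (nat_lit 2) (nat_lit 5) (nat_lit 2) (nat_lit 4) (nat_lit 387) (nat_lit 213) (nat_lit 180)) (XT.nd (nat_lit 78) (nat_lit 0) (nat_lit 0) (XT.lf (nat_lit 0) (nat_lit 98669089002) (nat_lit 76) (nat_lit 235126028277) (nat_lit 76) (nat_lit 233353160414) (nat_lit 1) (nat_lit 4) (nat_lit 2) (nat_lit 5) (nat_lit 2) (nat_lit 4) (nat_lit 388) (nat_lit 213) (nat_lit 179)) (XT.lf (nat_lit 0) (nat_lit 106019020221) (nat_lit 76) (nat_lit 245608231810) (nat_lit 76) (nat_lit 243815515517) (nat_lit 1) (nat_lit 4) (nat_lit 2) (nat_lit 5) (nat_lit 2) (nat_lit 4) (nat_lit 389) (nat_lit 213) (nat_lit 178))))) (XT.nd (nat_lit 156) (nat_lit 0) (nat_lit 0) (XT.nd (nat_lit 78) (nat_lit 0) (nat_lit 0) (XT.lf (nat_lit 0) (nat_lit 113705269878) (nat_lit 76) (nat_lit 256629571721) (nat_lit 76) (nat_lit 254817952162)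 (nat_lit 1) (nat_lit 4) (nat_lit 2) (nat_lit 5) (nat_lit 2) (nat_lit 4) (nat_lit 390) (nat_lit 213) (nat_lit 177)) (XT.lf (nat_lit 0) (nat_lit 121746138567) (nat_lit 76) (nat_lit 268216289297) (nat_lit 76) (nat_lit 266386666626) (nat_lit 1) (nat_lit 4) (nat_lit 2) (nat_lit 5) (nat_lit 2) (nat_lit 4) (nat_lit 391) (nat_lit 213) (nat_lit 176))) (XT.nd (nat_lit 78) (nat_lit 0) (nat_lit 0) (XT.lf (nat_lit 0) (nat_lit 130160771213) (nat_lit 76) (nat_lit 280395971959) (nat_lit 76) (nat_lit 278549203469) (nat_lit 1) (nat_lit 4) (nat_lit 2) (nat_lit 5) (nat_lit 2) (nat_lit 4) (nat_lit 392) (nat_lit 213) (nat_lit 175)) (XT.nd (nat_lit 37440) (nat_lit 0) (nat_lit 76) (XT.lf (nat_lit 0) (nat_lit 138969202656) (nat_lit 76) (nat_lit 293197618953) (nat_lit 76) (nat_lit 291334521110) (nat_lit 1) (nat_lit 4) (nat_lit 2) (nat_lit 5) (nat_lit 2) (nat_lit 4) (nat_lit 393) (nat_lit 213) (nat_lit 174)) (XT.lf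 (nat_lit 0) (nat_lit 12874380680) (nat_lit 152) (nat_lit 24062099834) (nat_lit 0) (nat_lit 12874380680) (nat_lit 2) (nat_lit 5) (nat_lit 4) (nat_lit 4) (nat_lit 2) (nat_lit 4) (nat_lit 352) (nat_lit 214) (nat_lit 214))))))) (XT.nd (nat_lit 780) (nat_lit 76) (nat_lit 0) (XT.nd (nat_lit 390) (nat_lit 0) (nat_lit 0) (XT.nd (nat_lit 156) (nat_lit 0) (nat_lit 0) (XT.nd (nat_lit 78) (nat_lit 0) (nat_lit 0) (XT.lf (nat_lit 0) (nat_lit 29665259108) (nat_lit 152) (nat_lit 45243825837) (nat_lit 0) (nat_lit 29555774864) (nat_lit 2) (nat_lit 5) (nat_lit 4) (nat_lit 4) (nat_lit 2) (nat_lit 4) (nat_lit 353) (nat_lit 214) (nat_lit 213)) (XT.lf (nat_lit 0) (nat_lit 33691172571) (nat_lit 152) (nat_lit 42385907920) (nat_lit 0) (nat_lit 33477417617) (nat_lit 2) (nat_lit 5) (nat_lit 4) (nat_lit 4) (nat_lit 2) (nat_lit 4) (nat_lit 354) (nat_lit 214) (nat_lit 212))) (XT.nd (nat_lit 78) (nat_lit 0) (nat_lit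 0) (XT.lf (nat_lit 0) (nat_lit 37836087255) (nat_lit 152) (nat_lit 39543641350) (nat_lit 0) (nat_lit 37523026864) (nat_lit 2) (nat_lit 5) (nat_lit 4) (nat_lit 4) (nat_lit 2) (nat_lit 4) (nat_lit 355) (nat_lit 214) (nat_lit 211)) (XT.nd (nat_lit 78) (nat_lit 0) (nat_lit 0) (XT.lf (nat_lit 0) (nat_lit 42109872007) (nat_lit 152) (nat_lit 36710258827) (nat_lit 0) (nat_lit 41702235009) (nat_lit 2) (nat_lit 5) (nat_lit 4) (nat_lit 4) (nat_lit 2) (nat_lit 4) (nat_lit 356) (nat_lit 214) (nat_lit 210)) (XT.lf (nat_lit 0) (nat_lit 46522702503) (nat_lit 152) (nat_lit 33879014201) (nat_lit 0) (nat_lit 46024992546) (nat_lit 2) (nat_lit 5) (nat_lit 4) (nat_lit 4) (nat_lit 2) (nat_lit 4) (nat_lit 357) (nat_lit 214) (nat_lit 209))))) (XT.nd (nat_lit 156) (nat_lit 0) (nat_lit 0) (XT.nd (nat_lit 78) (nat_lit 0) (nat_lit 0) (XT.lf (nat_lit 0) (nat_lit 51085085483) (nat_lit 152) (nat_lit 31043166413) (nat_lit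 0) (nat_lit 50501591756) (nat_lit 2) (nat_lit 5) (nat_lit 4) (nat_lit 4) (nat_lit 2) (nat_lit 4) (nat_lit 358) (nat_lit 214) (nat_lit 208)) (XT.lf (nat_lit 0) (nat_lit 55807883765) (nat_lit 152) (nat_lit 28195963445) (nat_lit 0) (nat_lit 55142691208) (nat_lit 2) (nat_lit 5) (nat_lit 4) (nat_lit 4) (nat_lit 2) (nat_lit 4) (nat_lit 359) (nat_lit 214) (nat_lit 207))) (XT.nd (nat_lit 78) (nat_lit 0) (nat_lit 0) (XT.lf (nat_lit 0) (nat_lit 60702342104) (nat_lit 152) (nat_lit 25330626243) (nat_lit 0) (nat_lit 59959341139) (nat_lit 2) (nat_lit 5) (nat_lit 4) (nat_lit 4) (nat_lit 2) (nat_lit 4) (nat_lit 360) (nat_lit 214) (nat_lit 206)) (XT.nd (nat_lit 78) (nat_lit 0) (nat_lit 0) (XT.lf (nat_lit 0) (nat_lit 65780113975) (nat_lit 152) (nat_lit 22440332575) (nat_lit 0) (nat_lit 64963009763) (nat_lit 2) (nat_lit 5) (nat_lit 4) (nat_lit 4) (nat_lit 2) (nat_lit 4) (nat_lit 361) (nat_lit 214) (nat_lit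 205)) (XT.lf (nat_lit 0) (nat_lit 71053289309) (nat_lit 152) (nat_lit 19518200790) (nat_lit 0) (nat_lit 70165610577) (nat_lit 2) (nat_lit 5) (nat_lit 4) (nat_lit 4) (nat_lit 2) (nat_lit 4) (nat_lit 362) (nat_lit 214) (nat_lit 204)))))) (XT.nd (nat_lit 390) (nat_lit 76) (nat_lit 0) (XT.nd (nat_lit 156) (nat_lit 0) (nat_lit 0) (XT.nd (nat_lit 78) (nat_lit 0) (nat_lit 0) (XT.lf (nat_lit 0) (nat_lit 76534423286) (nat_lit 152) (nat_lit 16557273430) (nat_lit 0) (nat_lit 75579530726) (nat_lit 2) (nat_lit 5) (nat_lit 4) (nat_lit 4) (nat_lit 2) (nat_lit 4) (nat_lit 363) (nat_lit 214) (nat_lit 203)) (XT.lf (nat_lit 0) (nat_lit 82236566226) (nat_lit 152) (nat_lit 13550500669) (nat_lit 0) (nat_lit 81217660495) (nat_lit 2) (nat_lit 5) (nat_lit 4) (nat_lit 4) (nat_lit 2) (nat_lit 4) (nat_lit 364) (nat_lit 214) (nat_lit 202))) (XT.nd (nat_lit 78) (nat_lit 0) (nat_lit 0) (XT.lf (nat_lit 0) (nat_lit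 88173294659) (nat_lit 152) (nat_lit 10490723523) (nat_lit 0) (nat_lit 87093424004) (nat_lit 2) (nat_lit 5) (nat_lit 4) (nat_lit 4) (nat_lit 2) (nat_lit 4) (nat_lit 365) (nat_lit 214) (nat_lit 201)) (XT.nd (nat_lit 78) (nat_lit 0) (nat_lit 0) (XT.lf (nat_lit 0) (nat_lit 94358743652) (nat_lit 152) (nat_lit 7370656810) (nat_lit 0) (nat_lit 93220811165) (nat_lit 2) (nat_lit 5) (nat_lit 4) (nat_lit 4) (nat_lit 2) (nat_lit 4) (nat_lit 366) (nat_lit 214) (nat_lit 200)) (XT.lf (nat_lit 0) (nat_lit 100807640465) (nat_lit 152) (nat_lit 4182871799) (nat_lit 0) (nat_lit 99614410995) (nat_lit 2) (nat_lit 5) (nat_lit 4) (nat_lit 4) (nat_lit 2) (nat_lit 4) (nat_lit 367) (nat_lit 214) (nat_lit 199))))) (XT.nd (nat_lit 234) (nat_lit 0) (nat_lit 0) (XT.nd (nat_lit 78) (nat_lit 76) (nat_lit 0) (XT.lf (nat_lit 0) (nat_lit 107535339615) (nat_lit 152) (nat_lit 919778526) (nat_lit 0) (nat_lit 106289446351)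 (nat_lit 2) (nat_lit 5) (nat_lit 4) (nat_lit 4) (nat_lit 2) (nat_lit 4) (nat_lit 368) (nat_lit 214) (nat_lit 198)) (XT.nd (nat_lit 78) (nat_lit 0) (nat_lit 0) (XT.lf (nat_lit 0) (nat_lit 2506619765) (nat_lit 76) (nat_lit 112090375027) (nat_lit 76) (nat_lit 110794325769) (nat_lit 1) (nat_lit 4) (nat_lit 2) (nat_lit 5) (nat_lit 2) (nat_lit 4) (nat_lit 369) (nat_lit 214) (nat_lit 197)) (XT.lf (nat_lit 0) (nat_lit 6057485040) (nat_lit 76) (nat_lit 115929009480) (nat_lit 76) (nat_lit 114585192609) (nat_lit 1) (nat_lit 4) (nat_lit 2) (nat_lit 5) (nat_lit 2) (nat_lit 4) (nat_lit 370) (nat_lit 214) (nat_lit 196)))) (XT.nd (nat_lit 78) (nat_lit 0) (nat_lit 0) (XT.lf (nat_lit 0) (nat_lit 9710859707) (nat_lit 76) (nat_lit 119995738003) (nat_lit 76) (nat_lit 118606428167) (nat_lit 1) (nat_lit 4) (nat_lit 2) (nat_lit 5) (nat_lit 2) (nat_lit 4) (nat_lit 371) (nat_lit 214) (nat_lit 195)) (XT.nd (nat_lit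 78) (nat_lit 0) (nat_lit 0) (XT.lf (nat_lit 0) (nat_lit 13475442278) (nat_lit 76) (nat_lit 124300243282) (nat_lit 76) (nat_lit 122867606812) (nat_lit 1) (nat_lit 4) (nat_lit 2) (nat_lit 5) (nat_lit 2) (nat_lit 4) (nat_lit 372) (nat_lit 214) (nat_lit 194)) (XT.lf (nat_lit 0) (nat_lit 17360196044) (nat_lit 76) (nat_lit 128852774139) (nat_lit 76) (nat_lit 127378874209) (nat_lit 1) (nat_lit 4) (nat_lit 2) (nat_lit 5) (nat_lit 2) (nat_lit 4) (nat_lit 373) (nat_lit 214) (nat_lit 193))))))))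
noncomputable def xc11 : XT := (XT.nd (nat_lit 38844) (nat_lit 0) (nat_lit 0) (XT.nd (nat_lit 780) (nat_lit 0) (nat_lit 0) (XT.nd (nat_lit 390) (nat_lit 0) (nat_lit 0) (XT.nd (nat_lit 156) (nat_lit 0) (nat_lit 0) (XT.nd (nat_lit 78) (nat_lit 0) (nat_lit 0) (XT.lf (nat_lit 0) (nat_lit 21374370419) (nat_lit 76) (nat_lit 133664169933) (nat_lit 76) (nat_lit 132150971469) (nat_lit 1) (nat_lit 4) (nat_lit 2) (nat_lit 5) (nat_lit 2) (nat_lit 4) (nat_lit 374) (nat_lit 214) (nat_lit 192)) (XT.lf (nat_lit 0) (nat_lit 25527522961) (nat_lit 76) (nat_lit 138745886369) (nat_lit 76) (nat_lit 137195260730) (nat_lit 1) (nat_lit 4) (nat_lit 2) (nat_lit 5) (nat_lit 2) (nat_lit 4) (nat_lit 375) (nat_lit 214) (nat_lit 191))) (XT.nd (nat_lit 78) (nat_lit 0) (nat_lit 0) (XT.lf (nat_lit 0) (nat_lit 29829542128) (nat_lit 76) (nat_lit 144110022771) (nat_lit 76) (nat_lit 142523752204) (nat_lit 1) (nat_lit 4) (nat_lit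 2) (nat_lit 5) (nat_lit 2) (nat_lit 4) (nat_lit 376) (nat_lit 214) (nat_lit 190)) (XT.nd (nat_lit 78) (nat_lit 0) (nat_lit 0) (XT.lf (nat_lit 0) (nat_lit 34290670824) (nat_lit 76) (nat_lit 149769350893) (nat_lit 76) (nat_lit 148149132775) (nat_lit 1) (nat_lit 4) (nat_lit 2) (nat_lit 5) (nat_lit 2) (nat_lit 4) (nat_lit 377) (nat_lit 214) (nat_lit 189)) (XT.lf (nat_lit 0) (nat_lit 38921530783) (nat_lit 76) (nat_lit 155737345325) (nat_lit 76) (nat_lit 154084796206) (nat_lit 1) (nat_lit 4) (nat_lit 2) (nat_lit 5) (nat_lit 2) (nat_lit 4) (nat_lit 378) (nat_lit 214) (nat_lit 188))))) (XT.nd (nat_lit 156) (nat_lit 0) (nat_lit 0) (XT.nd (nat_lit 78) (nat_lit 0) (nat_lit 0) (XT.lf (nat_lit 0) (nat_lit 43733147862) (nat_lit 76) (nat_lit 162028215578) (nat_lit 76) (nat_lit 160344875030) (nat_lit 1) (nat_lit 4) (nat_lit 2) (nat_lit 5) (nat_lit 2) (nat_lit 4) (nat_lit 379) (nat_lit 214) (nat_lit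 187)) (XT.lf (nat_lit 0) (nat_lit 48736978293) (nat_lit 76) (nat_lit 168656939915) (nat_lit 76) (nat_lit 166944274196) (nat_lit 1) (nat_lit 4) (nat_lit 2) (nat_lit 5) (nat_lit 2) (nat_lit 4) (nat_lit 380) (nat_lit 214) (nat_lit 186))) (XT.nd (nat_lit 78) (nat_lit 0) (nat_lit 0) (XT.lf (nat_lit 0) (nat_lit 53944935957) (nat_lit 76) (nat_lit 175639301012) (nat_lit 76) (nat_lit 173898706559) (nat_lit 1) (nat_lit 4) (nat_lit 2) (nat_lit 5) (nat_lit 2) (nat_lit 4) (nat_lit 381) (nat_lit 214) (nat_lit 185)) (XT.nd (nat_lit 78) (nat_lit 0) (nat_lit 0) (XT.lf (nat_lit 0) (nat_lit 59369420753) (nat_lit 76) (nat_lit 182991923540) (nat_lit 76) (nat_lit 181224730292) (nat_lit 1) (nat_lit 4) (nat_lit 2) (nat_lit 5) (nat_lit 2) (nat_lit 4) (nat_lit 382) (nat_lit 214) (nat_lit 184)) (XT.lf (nat_lit 0) (nat_lit 65023348122) (nat_lit 76) (nat_lit 190732313741) (nat_lit 76) (nat_lit 188939788308) (nat_lit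 1) (nat_lit 4) (nat_lit 2) (nat_lit 5) (nat_lit 2) (nat_lit 4) (nat_lit 383) (nat_lit 214) (nat_lit 183)))))) (XT.nd (nat_lit 390) (nat_lit 0) (nat_lit 0) (XT.nd (nat_lit 156) (nat_lit 0) (nat_lit 0) (XT.nd (nat_lit 78) (nat_lit 0) (nat_lit 0) (XT.lf (nat_lit 0) (nat_lit 70920179796) (nat_lit 76) (nat_lit 198878901116) (nat_lit 76) (nat_lit 197062249793) (nat_lit 1) (nat_lit 4) (nat_lit 2) (nat_lit 5) (nat_lit 2) (nat_lit 4) (nat_lit 384) (nat_lit 214) (nat_lit 182)) (XT.lf (nat_lit 0) (nat_lit 77073955849) (nat_lit 76) (nat_lit 207451082303) (nat_lit 76) (nat_lit 205611453941) (nat_lit 1) (nat_lit 4) (nat_lit 2) (nat_lit 5) (nat_lit 2) (nat_lit 4) (nat_lit 385) (nat_lit 214) (nat_lit 181))) (XT.nd (nat_lit 78) (nat_lit 0) (nat_lit 0) (XT.lf (nat_lit 0) (nat_lit 83499328130) (nat_lit 76) (nat_lit 216469267256) (nat_lit 76) (nat_lit 214607756000) (nat_lit 1) (nat_lit 4) (nat_lit 2) (nat_lit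 5) (nat_lit 2) (nat_lit 4) (nat_lit 386) (nat_lit 214) (nat_lit 180)) (XT.nd (nat_lit 78) (nat_lit 0) (nat_lit 0) (XT.lf (nat_lit 0) (nat_lit 90211595144) (nat_lit 76) (nat_lit 225954927844) (nat_lit 76) (nat_lit 224072575736) (nat_lit 1) (nat_lit 4) (nat_lit 2) (nat_lit 5) (nat_lit 2) (nat_lit 4) (nat_lit 387) (nat_lit 214) (nat_lit 179)) (XT.lf (nat_lit 0) (nat_lit 97226738479) (nat_lit 76) (nat_lit 235930648973) (nat_lit 76) (nat_lit 234028448436) (nat_lit 1) (nat_lit 4) (nat_lit 2) (nat_lit 5) (nat_lit 2) (nat_lit 4) (nat_lit 388) (nat_lit 214) (nat_lit 178))))) (XT.nd (nat_lit 234) (nat_lit 0) (nat_lit 0) (XT.nd (nat_lit 78) (nat_lit 0) (nat_lit 0) (XT.lf (nat_lit 0) (nat_lit 104561460858) (nat_lit 76) (nat_lit 246420182361) (nat_lit 76) (nat_lit 244499078557) (nat_lit 1) (nat_lit 4) (nat_lit 2) (nat_lit 5) (nat_lit 2) (nat_lit 4) (nat_lit 389) (nat_lit 214) (nat_lit 177)) (XT.nd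 (nat_lit 78) (nat_lit 0) (nat_lit 0) (XT.lf (nat_lit 0) (nat_lit 112233225904) (nat_lit 76) (nat_lit 257448503086) (nat_lit 76) (nat_lit 255509396171) (nat_lit 1) (nat_lit 4) (nat_lit 2) (nat_lit 5) (nat_lit 2) (nat_lit 4) (nat_lit 390) (nat_lit 214) (nat_lit 176)) (XT.lf (nat_lit 0) (nat_lit 120260299726) (nat_lit 76) (nat_lit 269041869056) (nat_lit 76) (nat_lit 267085616321) (nat_lit 1) (nat_lit 4) (nat_lit 2) (nat_lit 5) (nat_lit 2) (nat_lit 4) (nat_lit 391) (nat_lit 214) (nat_lit 175)))) (XT.nd (nat_lit 78) (nat_lit 0) (nat_lit 0) (XT.lf (nat_lit 0) (nat_lit 128661794403) (nat_lit 76) (nat_lit 281227883523) (nat_lit 76) (nat_lit 279255301435) (nat_lit 1) (nat_lit 4) (nat_lit 2) (nat_lit 5) (nat_lit 2) (nat_lit 4) (nat_lit 392) (nat_lit 214) (nat_lit 174)) (XT.nd (nat_lit 37284) (nat_lit 0) (nat_lit 76) (XT.lf (nat_lit 0) (nat_lit 137457713496) (nat_lit 76) (nat_lit 294035560806)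 (nat_lit 76) (nat_lit 292047426953) (nat_lit 1) (nat_lit 4) (nat_lit 2) (nat_lit 5) (nat_lit 2) (nat_lit 4) (nat_lit 393) (nat_lit 214) (nat_lit 173)) (XT.lf (nat_lit 0) (nat_lit 9184190535) (nat_lit 152) (nat_lit 26945143072) (nat_lit 0) (nat_lit 9184190535) (nat_lit 2) (nat_lit 5) (nat_lit 4) (nat_lit 4) (nat_lit 2) (nat_lit 4) (nat_lit 350) (nat_lit 215) (nat_lit 215))))))) (XT.nd (nat_lit 780) (nat_lit 76) (nat_lit 0) (XT.nd (nat_lit 390) (nat_lit 0) (nat_lit 0) (XT.nd (nat_lit 156) (nat_lit 0) (nat_lit 0) (XT.nd (nat_lit 78) (nat_lit 0) (nat_lit 0) (XT.lf (nat_lit 0) (nat_lit 22047312789) (nat_lit 152) (nat_lit 51033887446) (nat_lit 0) (nat_lit 21932354332) (nat_lit 2) (nat_lit 5) (nat_lit 4) (nat_lit 4) (nat_lit 2) (nat_lit 4) (nat_lit 351) (nat_lit 215) (nat_lit 214)) (XT.lf (nat_lit 0) (nat_lit 25819461460) (nat_lit 152) (nat_lit 48209467149) (nat_lit 0) (nat_lit 25595018759)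 (nat_lit 2) (nat_lit 5) (nat_lit 4) (nat_lit 4) (nat_lit 2) (nat_lit 4) (nat_lit 352) (nat_lit 215) (nat_lit 213))) (XT.nd (nat_lit 78) (nat_lit 0) (nat_lit 0) (XT.lf (nat_lit 0) (nat_lit 29693808392) (nat_lit 152) (nat_lit 45410300443) (nat_lit 0) (nat_lit 29365094981) (nat_lit 2) (nat_lit 5) (nat_lit 4) (nat_lit 4) (nat_lit 2) (nat_lit 4) (nat_lit 353) (nat_lit 215) (nat_lit 212)) (XT.nd (nat_lit 78) (nat_lit 0) (nat_lit 0) (XT.lf (nat_lit 0) (nat_lit 33679578220) (nat_lit 152) (nat_lit 42629722644) (nat_lit 0) (nat_lit 33251559372) (nat_lit 2) (nat_lit 5) (nat_lit 4) (nat_lit 4) (nat_lit 2) (nat_lit 4) (nat_lit 354) (nat_lit 215) (nat_lit 211)) (XT.lf (nat_lit 0) (nat_lit 37786260871) (nat_lit 152) (nat_lit 39861113330) (nat_lit 0) (nat_lit 37263665417) (nat_lit 2) (nat_lit 5) (nat_lit 4) (nat_lit 4) (nat_lit 2) (nat_lit 4) (nat_lit 355) (nat_lit 215) (nat_lit 210))))) (XT.nd (nat_lit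 156) (nat_lit 0) (nat_lit 0) (XT.nd (nat_lit 78) (nat_lit 0) (nat_lit 0) (XT.lf (nat_lit 0) (nat_lit 42023634163) (nat_lit 152) (nat_lit 37097880574) (nat_lit 0) (nat_lit 41410965749) (nat_lit 2) (nat_lit 5) (nat_lit 4) (nat_lit 4) (nat_lit 2) (nat_lit 4) (nat_lit 356) (nat_lit 215) (nat_lit 209)) (XT.lf (nat_lit 0) (nat_lit 46401787079) (nat_lit 152) (nat_lit 34333445251) (nat_lit 0) (nat_lit 45703334894) (nat_lit 2) (nat_lit 5) (nat_lit 4) (nat_lit 4) (nat_lit 2) (nat_lit 4) (nat_lit 357) (nat_lit 215) (nat_lit 208))) (XT.nd (nat_lit 78) (nat_lit 0) (nat_lit 0) (XT.lf (nat_lit 0) (nat_lit 50931143791) (nat_lit 152) (nat_lit 31561225370) (nat_lit 0) (nat_lit 50150992778) (nat_lit 2) (nat_lit 5) (nat_lit 4) (nat_lit 4) (nat_lit 2) (nat_lit 4) (nat_lit 358) (nat_lit 215) (nat_lit 207)) (XT.nd (nat_lit 78) (nat_lit 0) (nat_lit 0) (XT.lf (nat_lit 0) (nat_lit 55622488485) (nat_lit 152) (nat_lit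 28774620409) (nat_lit 0) (nat_lit 54764529063) (nat_lit 2) (nat_lit 5) (nat_lit 4) (nat_lit 4) (nat_lit 2) (nat_lit 4) (nat_lit 359) (nat_lit 215) (nat_lit 206)) (XT.lf (nat_lit 0) (nat_lit 60486991026) (nat_lit 152) (nat_lit 25966995595) (nat_lit 0) (nat_lit 59554928358) (nat_lit 2) (nat_lit 5) (nat_lit 4) (nat_lit 4) (nat_lit 2) (nat_lit 4) (nat_lit 360) (nat_lit 215) (nat_lit 205)))))) (XT.nd (nat_lit 390) (nat_lit 76) (nat_lit 0) (XT.nd (nat_lit 156) (nat_lit 0) (nat_lit 0) (XT.nd (nat_lit 78) (nat_lit 0) (nat_lit 0) (XT.lf (nat_lit 0) (nat_lit 65536233565) (nat_lit 152) (nat_lit 23131666105) (nat_lit 0) (nat_lit 64533596377) (nat_lit 2) (nat_lit 5) (nat_lit 4) (nat_lit 4) (nat_lit 2) (nat_lit 4) (nat_lit 361) (nat_lit 215) (nat_lit 204)) (XT.lf (nat_lit 0) (nat_lit 70782238107) (nat_lit 152) (nat_lit 20261881156) (nat_lit 0) (nat_lit 69712387090) (nat_lit 2) (nat_lit 5) (nat_lit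 4) (nat_lit 4) (nat_lit 2) (nat_lit 4) (nat_lit 362) (nat_lit 215) (nat_lit 203))) (XT.nd (nat_lit 78) (nat_lit 0) (nat_lit 0) (XT.lf (nat_lit 0) (nat_lit 76237495140) (nat_lit 152) (nat_lit 17350807926) (nat_lit 0) (nat_lit 75103630953) (nat_lit 2) (nat_lit 5) (nat_lit 4) (nat_lit 4) (nat_lit 2) (nat_lit 4) (nat_lit 363) (nat_lit 215) (nat_lit 202)) (XT.nd (nat_lit 78) (nat_lit 0) (nat_lit 0) (XT.lf (nat_lit 0) (nat_lit 81914993370) (nat_lit 152) (nat_lit 14391515289) (nat_lit 0) (nat_lit 80720164259) (nat_lit 2) (nat_lit 5) (nat_lit 4) (nat_lit 4) (nat_lit 2) (nat_lit 4) (nat_lit 364) (nat_lit 215) (nat_lit 201)) (XT.lf (nat_lit 0) (nat_lit 87828250651) (nat_lit 152) (nat_lit 11376957309) (nat_lit 0) (nat_lit 86575359707) (nat_lit 2) (nat_lit 5) (nat_lit 4) (nat_lit 4) (nat_lit 2) (nat_lit 4) (nat_lit 365) (nat_lit 215) (nat_lit 200))))) (XT.nd (nat_lit 234) (nat_lit 76) (nat_lit 0)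 (XT.nd (nat_lit 78) (nat_lit 0) (nat_lit 0) (XT.lf (nat_lit 0) (nat_lit 93991346167) (nat_lit 152) (nat_lit 8299956468) (nat_lit 0) (nat_lit 92683158239) (nat_lit 2) (nat_lit 5) (nat_lit 4) (nat_lit 4) (nat_lit 2) (nat_lit 4) (nat_lit 366) (nat_lit 215) (nat_lit 199)) (XT.nd (nat_lit 78) (nat_lit 0) (nat_lit 0) (XT.lf (nat_lit 0) (nat_lit 100418953954) (nat_lit 152) (nat_lit 5153186574) (nat_lit 0) (nat_lit 99058102233) (nat_lit 2) (nat_lit 5) (nat_lit 4) (nat_lit 4) (nat_lit 2) (nat_lit 4) (nat_lit 367) (nat_lit 215) (nat_lit 198)) (XT.lf (nat_lit 0) (nat_lit 107126377840) (nat_lit 152) (nat_lit 1929155316) (nat_lit 0) (nat_lit 105715370125) (nat_lit 2) (nat_lit 5) (nat_lit 4) (nat_lit 4) (nat_lit 2) (nat_lit 4) (nat_lit 368) (nat_lit 215) (nat_lit 197)))) (XT.nd (nat_lit 78) (nat_lit 0) (nat_lit 0) (XT.lf (nat_lit 0) (nat_lit 1425436437) (nat_lit 76) (nat_lit 112726406503) (nat_lit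 76) (nat_lit 111267631175) (nat_lit 1) (nat_lit 4) (nat_lit 2) (nat_lit 5) (nat_lit 2) (nat_lit 4) (nat_lit 369) (nat_lit 215) (nat_lit 196)) (XT.nd (nat_lit 78) (nat_lit 0) (nat_lit 0) (XT.lf (nat_lit 0) (nat_lit 4939699824) (nat_lit 76) (nat_lit 116582681126) (nat_lit 76) (nat_lit 115078412833) (nat_lit 1) (nat_lit 4) (nat_lit 2) (nat_lit 5) (nat_lit 2) (nat_lit 4) (nat_lit 370) (nat_lit 215) (nat_lit 195)) (XT.lf (nat_lit 0) (nat_lit 8558215550) (nat_lit 76) (nat_lit 120666209809) (nat_lit 76) (nat_lit 119118614883) (nat_lit 1) (nat_lit 4) (nat_lit 2) (nat_lit 5) (nat_lit 2) (nat_lit 4) (nat_lit 371) (nat_lit 215) (nat_lit 194))))))))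
noncomputable def xc12 : XT := (XT.nd (nat_lit 1560) (nat_lit 0) (nat_lit 0) (XT.nd (nat_lit 780) (nat_lit 0) (nat_lit 0) (XT.nd (nat_lit 390) (nat_lit 0) (nat_lit 0) (XT.nd (nat_lit 156) (nat_lit 0) (nat_lit 0) (XT.nd (nat_lit 78) (nat_lit 0) (nat_lit 0) (XT.lf (nat_lit 0) (nat_lit 12289599128) (nat_lit 76) (nat_lit 124986715242) (nat_lit 76) (nat_lit 123397856855) (nat_lit 1) (nat_lit 4) (nat_lit 2) (nat_lit 5) (nat_lit 2) (nat_lit 4) (nat_lit 372) (nat_lit 215) (nat_lit 193)) (XT.lf (nat_lit 0) (nat_lit 16142734807) (nat_lit 76) (nat_lit 129554484340) (nat_lit 76) (nat_lit 127926327419) (nat_lit 1) (nat_lit 4) (nat_lit 2) (nat_lit 5) (nat_lit 2) (nat_lit 4) (nat_lit 373) (nat_lit 215) (nat_lit 192))) (XT.nd (nat_lit 78) (nat_lit 0) (nat_lit 0) (XT.lf (nat_lit 0) (nat_lit 20126796718) (nat_lit 76) (nat_lit 134380392744) (nat_lit 76) (nat_lit 132714808649) (nat_lit 1) (nat_lit 4) (nat_lit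 2) (nat_lit 5) (nat_lit 2) (nat_lit 4) (nat_lit 374) (nat_lit 215) (nat_lit 191)) (XT.nd (nat_lit 78) (nat_lit 0) (nat_lit 0) (XT.lf (nat_lit 0) (nat_lit 24251270722) (nat_lit 76) (nat_lit 139475930714) (nat_lit 76) (nat_lit 137774701690) (nat_lit 1) (nat_lit 4) (nat_lit 2) (nat_lit 5) (nat_lit 2) (nat_lit 4) (nat_lit 375) (nat_lit 215) (nat_lit 190)) (XT.lf (nat_lit 0) (nat_lit 28525976997) (nat_lit 76) (nat_lit 144853230482) (nat_lit 76) (nat_lit 143118053907) (nat_lit 1) (nat_lit 4) (nat_lit 2) (nat_lit 5) (nat_lit 2) (nat_lit 4) (nat_lit 376) (nat_lit 215) (nat_lit 189))))) (XT.nd (nat_lit 156) (nat_lit 0) (nat_lit 0) (XT.nd (nat_lit 78) (nat_lit 0) (nat_lit 0) (XT.lf (nat_lit 0) (nat_lit 32961093414) (nat_lit 76) (nat_lit 150525095142) (nat_lit 76) (nat_lit 148757587566) (nat_lit 1) (nat_lit 4) (nat_lit 2) (nat_lit 5) (nat_lit 2) (nat_lit 4) (nat_lit 377) (nat_lit 215) (nat_lit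 188)) (XT.lf (nat_lit 0) (nat_lit 37567179774) (nat_lit 76) (nat_lit 156505029135) (nat_lit 76) (nat_lit 154706730130) (nat_lit 1) (nat_lit 4) (nat_lit 2) (nat_lit 5) (nat_lit 2) (nat_lit 4) (nat_lit 378) (nat_lit 215) (nat_lit 187))) (XT.nd (nat_lit 78) (nat_lit 0) (nat_lit 0) (XT.lf (nat_lit 0) (nat_lit 42355202949) (nat_lit 76) (nat_lit 162807270399) (nat_lit 76) (nat_lit 160979646223) (nat_lit 1) (nat_lit 4) (nat_lit 2) (nat_lit 5) (nat_lit 2) (nat_lit 4) (nat_lit 379) (nat_lit 215) (nat_lit 186)) (XT.nd (nat_lit 78) (nat_lit 0) (nat_lit 0) (XT.lf (nat_lit 0) (nat_lit 47336562996) (nat_lit 76) (nat_lit 169446824269) (nat_lit 76) (nat_lit 167591271359) (nat_lit 1) (nat_lit 4) (nat_lit 2) (nat_lit 5) (nat_lit 2) (nat_lit 4) (nat_lit 380) (nat_lit 215) (nat_lit 185)) (XT.lf (nat_lit 0) (nat_lit 52523120293) (nat_lit 76) (nat_lit 176439499208) (nat_lit 76) (nat_lit 174557347503) (nat_lit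 1) (nat_lit 4) (nat_lit 2) (nat_lit 5) (nat_lit 2) (nat_lit 4) (nat_lit 381) (nat_lit 215) (nat_lit 184)))))) (XT.nd (nat_lit 390) (nat_lit 0) (nat_lit 0) (XT.nd (nat_lit 156) (nat_lit 0) (nat_lit 0) (XT.nd (nat_lit 78) (nat_lit 0) (nat_lit 0) (XT.lf (nat_lit 0) (nat_lit 57927223789) (nat_lit 76) (nat_lit 183801944441) (nat_lit 76) (nat_lit 181894460552) (nat_lit 1) (nat_lit 4) (nat_lit 2) (nat_lit 5) (nat_lit 2) (nat_lit 4) (nat_lit 382) (nat_lit 215) (nat_lit 183)) (XT.lf (nat_lit 0) (nat_lit 63561740395) (nat_lit 76) (nat_lit 191551689601) (nat_lit 76) (nat_lit 189620079820) (nat_lit 1) (nat_lit 4) (nat_lit 2) (nat_lit 5) (nat_lit 2) (nat_lit 4) (nat_lit 383) (nat_lit 215) (nat_lit 182))) (XT.nd (nat_lit 78) (nat_lit 0) (nat_lit 0) (XT.lf (nat_lit 0) (nat_lit 69440085628) (nat_lit 76) (nat_lit 199707186460) (nat_lit 76) (nat_lit 197752599641) (nat_lit 1) (nat_lit 4) (nat_lit 2) (nat_lit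 5) (nat_lit 2) (nat_lit 4) (nat_lit 384) (nat_lit 215) (nat_lit 181)) (XT.nd (nat_lit 78) (nat_lit 0) (nat_lit 0) (XT.lf (nat_lit 0) (nat_lit 75576255547) (nat_lit 76) (nat_lit 208287852870) (nat_lit 76) (nat_lit 206311383157) (nat_lit 1) (nat_lit 4) (nat_lit 2) (nat_lit 5) (nat_lit 2) (nat_lit 4) (nat_lit 385) (nat_lit 215) (nat_lit 180)) (XT.lf (nat_lit 0) (nat_lit 81984860081) (nat_lit 76) (nat_lit 217314118987) (nat_lit 76) (nat_lit 215316808423) (nat_lit 1) (nat_lit 4) (nat_lit 2) (nat_lit 5) (nat_lit 2) (nat_lit 4) (nat_lit 386) (nat_lit 215) (nat_lit 179))))) (XT.nd (nat_lit 156) (nat_lit 0) (nat_lit 0) (XT.nd (nat_lit 78) (nat_lit 0) (nat_lit 0) (XT.lf (nat_lit 0) (nat_lit 88681157812) (nat_lit 76) (nat_lit 226807475923) (nat_lit 76) (nat_lit 224790316928) (nat_lit 1) (nat_lit 4) (nat_lit 2) (nat_lit 5) (nat_lit 2) (nat_lit 4) (nat_lit 387) (nat_lit 215) (nat_lit 178)) (XT.lf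 (nat_lit 0) (nat_lit 95681092306) (nat_lit 76) (nat_lit 236790526907) (nat_lit 76) (nat_lit 234754464645) (nat_lit 1) (nat_lit 4) (nat_lit 2) (nat_lit 5) (nat_lit 2) (nat_lit 4) (nat_lit 388) (nat_lit 215) (nat_lit 177))) (XT.nd (nat_lit 78) (nat_lit 0) (nat_lit 0) (XT.lf (nat_lit 0) (nat_lit 103001330075) (nat_lit 76) (nat_lit 247287041108) (nat_lit 76) (nat_lit 245232975736) (nat_lit 1) (nat_lit 4) (nat_lit 2) (nat_lit 5) (nat_lit 2) (nat_lit 4) (nat_lit 389) (nat_lit 215) (nat_lit 176)) (XT.nd (nat_lit 78) (nat_lit 0) (nat_lit 0) (XT.lf (nat_lit 0) (nat_lit 110659300254) (nat_lit 76) (nat_lit 258322010228) (nat_lit 76) (nat_lit 256250799035) (nat_lit 1) (nat_lit 4) (nat_lit 2) (nat_lit 5) (nat_lit 2) (nat_lit 4) (nat_lit 390) (nat_lit 215) (nat_lit 175)) (XT.lf (nat_lit 0) (nat_lit 118673236108) (nat_lit 76) (nat_lit 269921708001) (nat_lit 76) (nat_lit 267834167457) (nat_lit 1) (nat_lit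 4) (nat_lit 2) (nat_lit 5) (nat_lit 2) (nat_lit 4) (nat_lit 391) (nat_lit 215) (nat_lit 174))))))) (XT.nd (nat_lit 37830) (nat_lit 0) (nat_lit 76) (XT.nd (nat_lit 37440) (nat_lit 0) (nat_lit 76) (XT.nd (nat_lit 37206) (nat_lit 0) (nat_lit 76) (XT.nd (nat_lit 78) (nat_lit 0) (nat_lit 0) (XT.lf (nat_lit 0) (nat_lit 127062218434) (nat_lit 76) (nat_lit 282113752757) (nat_lit 76) (nat_lit 280010660448) (nat_lit 1) (nat_lit 4) (nat_lit 2) (nat_lit 5) (nat_lit 2) (nat_lit 4) (nat_lit 392) (nat_lit 215) (nat_lit 173)) (XT.lf (nat_lit 0) (nat_lit 135846221002) (nat_lit 76) (nat_lit 294927173173) (nat_lit 76) (nat_lit 292809269660) (nat_lit 1) (nat_lit 4) (nat_lit 2) (nat_lit 5) (nat_lit 2) (nat_lit 4) (nat_lit 393) (nat_lit 215) (nat_lit 172))) (XT.nd (nat_lit 78) (nat_lit 0) (nat_lit 0) (XT.lf (nat_lit 0) (nat_lit 5712416680) (nat_lit 152) (nat_lit 29816153737) (nat_lit 0) (nat_lit 5712416680)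 (nat_lit 2) (nat_lit 5) (nat_lit 4) (nat_lit 4) (nat_lit 2) (nat_lit 4) (nat_lit 348) (nat_lit 216) (nat_lit 216)) (XT.nd (nat_lit 78) (nat_lit 0) (nat_lit 0) (XT.lf (nat_lit 0) (nat_lit 14894613326) (nat_lit 152) (nat_lit 56785464193) (nat_lit 0) (nat_lit 14773906946) (nat_lit 2) (nat_lit 5) (nat_lit 4) (nat_lit 4) (nat_lit 2) (nat_lit 4) (nat_lit 349) (nat_lit 216) (nat_lit 215)) (XT.lf (nat_lit 0) (nat_lit 18442616176) (nat_lit 152) (nat_lit 53979816999) (nat_lit 0) (nat_lit 18206951339) (nat_lit 2) (nat_lit 5) (nat_lit 4) (nat_lit 4) (nat_lit 2) (nat_lit 4) (nat_lit 350) (nat_lit 216) (nat_lit 214))))) (XT.nd (nat_lit 156) (nat_lit 0) (nat_lit 0) (XT.nd (nat_lit 78) (nat_lit 0) (nat_lit 0) (XT.lf (nat_lit 0) (nat_lit 22077289536) (nat_lit 152) (nat_lit 51208685782) (nat_lit 0) (nat_lit 21732140455) (nat_lit 2) (nat_lit 5) (nat_lit 4) (nat_lit 4) (nat_lit 2) (nat_lit 4) (nat_lit 351)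 (nat_lit 216) (nat_lit 213)) (XT.lf (nat_lit 0) (nat_lit 25807287392) (nat_lit 152) (nat_lit 48465472610) (nat_lit 0) (nat_lit 25357867601) (nat_lit 2) (nat_lit 5) (nat_lit 4) (nat_lit 4) (nat_lit 2) (nat_lit 4) (nat_lit 352) (nat_lit 216) (nat_lit 212))) (XT.nd (nat_lit 78) (nat_lit 0) (nat_lit 0) (XT.lf (nat_lit 0) (nat_lit 29641490689) (nat_lit 152) (nat_lit 45743646022) (nat_lit 0) (nat_lit 29092765461) (nat_lit 2) (nat_lit 5) (nat_lit 4) (nat_lit 4) (nat_lit 2) (nat_lit 4) (nat_lit 353) (nat_lit 216) (nat_lit 211)) (XT.nd (nat_lit 78) (nat_lit 0) (nat_lit 0) (XT.lf (nat_lit 0) (nat_lit 33589028484) (nat_lit 152) (nat_lit 43036725479) (nat_lit 0) (nat_lit 32945726649) (nat_lit 2) (nat_lit 5) (nat_lit 4) (nat_lit 4) (nat_lit 2) (nat_lit 4) (nat_lit 354) (nat_lit 216) (nat_lit 210)) (XT.lf (nat_lit 0) (nat_lit 37659299676) (nat_lit 152) (nat_lit 40338265933) (nat_lit 0) (nat_lit 36925924882)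 (nat_lit 2) (nat_lit 5) (nat_lit 4) (nat_lit 4) (nat_lit 2) (nat_lit 4) (nat_lit 355) (nat_lit 216) (nat_lit 209)))))) (XT.nd (nat_lit 390) (nat_lit 0) (nat_lit 0) (XT.nd (nat_lit 156) (nat_lit 0) (nat_lit 0) (XT.nd (nat_lit 78) (nat_lit 0) (nat_lit 0) (XT.lf (nat_lit 0) (nat_lit 41861995386) (nat_lit 152) (nat_lit 37641842480) (nat_lit 0) (nat_lit 41042836823) (nat_lit 2) (nat_lit 5) (nat_lit 4) (nat_lit 4) (nat_lit 2) (nat_lit 4) (nat_lit 356) (nat_lit 216) (nat_lit 208)) (XT.lf (nat_lit 0) (nat_lit 46207122034) (nat_lit 152) (nat_lit 34941035063) (nat_lit 0) (nat_lit 45306264642) (nat_lit 2) (nat_lit 5) (nat_lit 4) (nat_lit 4) (nat_lit 2) (nat_lit 4) (nat_lit 357) (nat_lit 216) (nat_lit 207))) (XT.nd (nat_lit 78) (nat_lit 0) (nat_lit 0) (XT.lf (nat_lit 0) (nat_lit 50705025159) (nat_lit 152) (nat_lit 32229413189) (nat_lit 0) (nat_lit 49726359358) (nat_lit 2) (nat_lit 5) (nat_lit 4)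 (nat_lit 4) (nat_lit 2) (nat_lit 4) (nat_lit 358) (nat_lit 216) (nat_lit 206)) (XT.nd (nat_lit 78) (nat_lit 0) (nat_lit 0) (XT.lf (nat_lit 0) (nat_lit 55366414054) (nat_lit 152) (nat_lit 29500520616) (nat_lit 0) (nat_lit 54313645007) (nat_lit 2) (nat_lit 5) (nat_lit 4) (nat_lit 4) (nat_lit 2) (nat_lit 4) (nat_lit 359) (nat_lit 216) (nat_lit 205)) (XT.lf (nat_lit 0) (nat_lit 60202387264) (nat_lit 152) (nat_lit 26747859979) (nat_lit 0) (nat_lit 59079043696) (nat_lit 2) (nat_lit 5) (nat_lit 4) (nat_lit 4) (nat_lit 2) (nat_lit 4) (nat_lit 360) (nat_lit 216) (nat_lit 204))))) (XT.nd (nat_lit 234) (nat_lit 0) (nat_lit 0) (XT.nd (nat_lit 78) (nat_lit 0) (nat_lit 0) (XT.lf (nat_lit 0) (nat_lit 65224459011) (nat_lit 152) (nat_lit 23964877326) (nat_lit 0) (nat_lit 64033901614) (nat_lit 2) (nat_lit 5) (nat_lit 4) (nat_lit 4) (nat_lit 2) (nat_lit 4) (nat_lit 361) (nat_lit 216) (nat_lit 203)) (XT.nd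 (nat_lit 78) (nat_lit 0) (nat_lit 0) (XT.lf (nat_lit 0) (nat_lit 70444586609) (nat_lit 152) (nat_lit 21144946507) (nat_lit 0) (nat_lit 69190016042) (nat_lit 2) (nat_lit 5) (nat_lit 4) (nat_lit 4) (nat_lit 2) (nat_lit 4) (nat_lit 362) (nat_lit 216) (nat_lit 202)) (XT.lf (nat_lit 0) (nat_lit 75875198932) (nat_lit 152) (nat_lit 18281353401) (nat_lit 0) (nat_lit 74559663441) (nat_lit 2) (nat_lit 5) (nat_lit 4) (nat_lit 4) (nat_lit 2) (nat_lit 4) (nat_lit 363) (nat_lit 216) (nat_lit 201)))) (XT.nd (nat_lit 78) (nat_lit 0) (nat_lit 0) (XT.lf (nat_lit 0) (nat_lit 81529226011) (nat_lit 152) (nat_lit 15367279930) (nat_lit 0) (nat_lit 80155628687) (nat_lit 2) (nat_lit 5) (nat_lit 4) (nat_lit 4) (nat_lit 2) (nat_lit 4) (nat_lit 364) (nat_lit 216) (nat_lit 200)) (XT.nd (nat_lit 78) (nat_lit 0) (nat_lit 0) (XT.lf (nat_lit 0) (nat_lit 87420129814) (nat_lit 152) (nat_lit 12395787822) (nat_lit 0) (nat_lit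 85991235507) (nat_lit 2) (nat_lit 5) (nat_lit 4) (nat_lit 4) (nat_lit 2) (nat_lit 4) (nat_lit 365) (nat_lit 216) (nat_lit 199)) (XT.lf (nat_lit 0) (nat_lit 93561936303) (nat_lit 152) (nat_lit 9359802097) (nat_lit 0) (nat_lit 92080378202) (nat_lit 2) (nat_lit 5) (nat_lit 4) (nat_lit 4) (nat_lit 2) (nat_lit 4) (nat_lit 366) (nat_lit 216) (nat_lit 198))))))))
noncomputable def xc13 : XT := (XT.nd (nat_lit 1638) (nat_lit 0) (nat_lit 0) (XT.nd (nat_lit 780) (nat_lit 0) (nat_lit 0) (XT.nd (nat_lit 390) (nat_lit 0) (nat_lit 0) (XT.nd (nat_lit 156) (nat_lit 76) (nat_lit 0) (XT.nd (nat_lit 78) (nat_lit 0) (nat_lit 0) (XT.lf (nat_lit 0) (nat_lit 99969268827) (nat_lit 152) (nat_lit 6252094218) (nat_lit 0) (nat_lit 98437554732) (nat_lit 2) (nat_lit 5) (nat_lit 4) (nat_lit 4) (nat_lit 2) (nat_lit 4) (nat_lit 367) (nat_lit 216) (nat_lit 197)) (XT.lf (nat_lit 0) (nat_lit 106657382939) (nat_lit 152)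 (nat_lit 3065264880) (nat_lit 0) (nat_lit 105077901231) (nat_lit 2) (nat_lit 5) (nat_lit 4) (nat_lit 4) (nat_lit 2) (nat_lit 4) (nat_lit 368) (nat_lit 216) (nat_lit 196))) (XT.nd (nat_lit 78) (nat_lit 0) (nat_lit 0) (XT.lf (nat_lit 0) (nat_lit 215160072) (nat_lit 76) (nat_lit 113430401900) (nat_lit 76) (nat_lit 111805427227) (nat_lit 1) (nat_lit 4) (nat_lit 2) (nat_lit 5) (nat_lit 2) (nat_lit 4) (nat_lit 369) (nat_lit 216) (nat_lit 195)) (XT.nd (nat_lit 78) (nat_lit 0) (nat_lit 0) (XT.lf (nat_lit 0) (nat_lit 3694564517) (nat_lit 76) (nat_lit 117303476683) (nat_lit 76) (nat_lit 115635175377) (nat_lit 1) (nat_lit 4) (nat_lit 2) (nat_lit 5) (nat_lit 2) (nat_lit 4) (nat_lit 370) (nat_lit 216) (nat_lit 194)) (XT.lf (nat_lit 0) (nat_lit 7279881251) (nat_lit 76) (nat_lit 121403005520) (nat_lit 76) (nat_lit 119693440754) (nat_lit 1) (nat_lit 4) (nat_lit 2) (nat_lit 5) (nat_lit 2) (nat_lit 4)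 (nat_lit 371) (nat_lit 216) (nat_lit 193))))) (XT.nd (nat_lit 156) (nat_lit 0) (nat_lit 0) (XT.nd (nat_lit 78) (nat_lit 0) (nat_lit 0) (XT.lf (nat_lit 0) (nat_lit 10979646742) (nat_lit 76) (nat_lit 125738749193) (nat_lit 76) (nat_lit 123989885893) (nat_lit 1) (nat_lit 4) (nat_lit 2) (nat_lit 5) (nat_lit 2) (nat_lit 4) (nat_lit 372) (nat_lit 216) (nat_lit 192)) (XT.lf (nat_lit 0) (nat_lit 14802669956) (nat_lit 76) (nat_lit 130321030902) (nat_lit 76) (nat_lit 128534740427) (nat_lit 1) (nat_lit 4) (nat_lit 2) (nat_lit 5) (nat_lit 2) (nat_lit 4) (nat_lit 373) (nat_lit 216) (nat_lit 191))) (XT.nd (nat_lit 78) (nat_lit 0) (nat_lit 0) (XT.lf (nat_lit 0) (nat_lit 18758053330) (nat_lit 76) (nat_lit 135160760841) (nat_lit 76) (nat_lit 133338825437) (nat_lit 1) (nat_lit 4) (nat_lit 2) (nat_lit 5) (nat_lit 2) (nat_lit 4) (nat_lit 374) (nat_lit 216) (nat_lit 190)) (XT.nd (nat_lit 78) (nat_lit 0)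 (nat_lit 0) (XT.lf (nat_lit 0) (nat_lit 22855214442) (nat_lit 76) (nat_lit 140269462176) (nat_lit 76) (nat_lit 138413579222) (nat_lit 1) (nat_lit 4) (nat_lit 2) (nat_lit 5) (nat_lit 2) (nat_lit 4) (nat_lit 375) (nat_lit 216) (nat_lit 189)) (XT.lf (nat_lit 0) (nat_lit 27103908437) (nat_lit 76) (nat_lit 145659298483) (nat_lit 76) (nat_lit 143771084527) (nat_lit 1) (nat_lit 4) (nat_lit 2) (nat_lit 5) (nat_lit 2) (nat_lit 4) (nat_lit 376) (nat_lit 216) (nat_lit 188)))))) (XT.nd (nat_lit 390) (nat_lit 0) (nat_lit 0) (XT.nd (nat_lit 156) (nat_lit 0) (nat_lit 0) (XT.nd (nat_lit 78) (nat_lit 0) (nat_lit 0) (XT.lf (nat_lit 0) (nat_lit 31514251255) (nat_lit 76) (nat_lit 151343102704) (nat_lit 76) (nat_lit 149424097319) (nat_lit 1) (nat_lit 4) (nat_lit 2) (nat_lit 5) (nat_lit 2) (nat_lit 4) (nat_lit 377) (nat_lit 216) (nat_lit 187)) (XT.lf (nat_lit 0) (nat_lit 36096743712) (nat_lit 76) (nat_lit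 157334407707) (nat_lit 76) (nat_lit 155386077151) (nat_lit 1) (nat_lit 4) (nat_lit 2) (nat_lit 5) (nat_lit 2) (nat_lit 4) (nat_lit 378) (nat_lit 216) (nat_lit 186))) (XT.nd (nat_lit 78) (nat_lit 0) (nat_lit 0) (XT.lf (nat_lit 0) (nat_lit 40862296503) (nat_lit 76) (nat_lit 163647478504) (nat_lit 76) (nat_lit 161671219214) (nat_lit 1) (nat_lit 4) (nat_lit 2) (nat_lit 5) (nat_lit 2) (nat_lit 4) (nat_lit 379) (nat_lit 216) (nat_lit 185)) (XT.nd (nat_lit 78) (nat_lit 0) (nat_lit 0) (XT.lf (nat_lit 0) (nat_lit 45822256183) (nat_lit 76) (nat_lit 170297346216) (nat_lit 76) (nat_lit 168294488132) (nat_lit 1) (nat_lit 4) (nat_lit 2) (nat_lit 5) (nat_lit 2) (nat_lit 4) (nat_lit 380) (nat_lit 216) (nat_lit 184)) (XT.lf (nat_lit 0) (nat_lit 50988432180) (nat_lit 76) (nat_lit 177299843861) (nat_lit 76) (nat_lit 175271653591) (nat_lit 1) (nat_lit 4) (nat_lit 2) (nat_lit 5) (nat_lit 2) (nat_lit 4) (nat_lit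 381) (nat_lit 216) (nat_lit 183))))) (XT.nd (nat_lit 234) (nat_lit 0) (nat_lit 0) (XT.nd (nat_lit 78) (nat_lit 0) (nat_lit 0) (XT.lf (nat_lit 0) (nat_lit 56373124912) (nat_lit 76) (nat_lit 184671644052) (nat_lit 76) (nat_lit 182619327892) (nat_lit 1) (nat_lit 4) (nat_lit 2) (nat_lit 5) (nat_lit 2) (nat_lit 4) (nat_lit 382) (nat_lit 216) (nat_lit 182)) (XT.nd (nat_lit 78) (nat_lit 0) (nat_lit 0) (XT.lf (nat_lit 0) (nat_lit 61989155077) (nat_lit 76) (nat_lit 192430298696) (nat_lit 76) (nat_lit 190355005497) (nat_lit 1) (nat_lit 4) (nat_lit 2) (nat_lit 5) (nat_lit 2) (nat_lit 4) (nat_lit 383) (nat_lit 216) (nat_lit 181)) (XT.lf (nat_lit 0) (nat_lit 67849894176) (nat_lit 76) (nat_lit 200594280778) (nat_lit 76) (nat_lit 198497104685) (nat_lit 1) (nat_lit 4) (nat_lit 2) (nat_lit 5) (nat_lit 2) (nat_lit 4) (nat_lit 384) (nat_lit 216) (nat_lit 180)))) (XT.nd (nat_lit 78) (nat_lit 0) (nat_lit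 0) (XT.lf (nat_lit 0) (nat_lit 73969296348) (nat_lit 76) (nat_lit 209183028352) (nat_lit 76) (nat_lit 207065011408) (nat_lit 1) (nat_lit 4) (nat_lit 2) (nat_lit 5) (nat_lit 2) (nat_lit 4) (nat_lit 385) (nat_lit 216) (nat_lit 179)) (XT.nd (nat_lit 78) (nat_lit 0) (nat_lit 0) (XT.lf (nat_lit 0) (nat_lit 80361931599) (nat_lit 76) (nat_lit 218216990817) (nat_lit 76) (nat_lit 216079125443) (nat_lit 1) (nat_lit 4) (nat_lit 2) (nat_lit 5) (nat_lit 2) (nat_lit 4) (nat_lit 386) (nat_lit 216) (nat_lit 178)) (XT.lf (nat_lit 0) (nat_lit 87043020490) (nat_lit 76) (nat_lit 227717677607) (nat_lit 76) (nat_lit 225560908966) (nat_lit 1) (nat_lit 4) (nat_lit 2) (nat_lit 5) (nat_lit 2) (nat_lit 4) (nat_lit 387) (nat_lit 216) (nat_lit 177))))))) (XT.nd (nat_lit 37674) (nat_lit 0) (nat_lit 76) (XT.nd (nat_lit 390) (nat_lit 0) (nat_lit 0) (XT.nd (nat_lit 156) (nat_lit 0) (nat_lit 0) (XT.nd (nat_lit 78) (nat_lit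 0) (nat_lit 0) (XT.lf (nat_lit 0) (nat_lit 94028470374) (nat_lit 76) (nat_lit 237707709405) (nat_lit 76) (nat_lit 235532937653) (nat_lit 1) (nat_lit 4) (nat_lit 2) (nat_lit 5) (nat_lit 2) (nat_lit 4) (nat_lit 388) (nat_lit 216) (nat_lit 176)) (XT.lf (nat_lit 0) (nat_lit 101334913276) (nat_lit 76) (nat_lit 248210872001) (nat_lit 76) (nat_lit 246018954429) (nat_lit 1) (nat_lit 4) (nat_lit 2) (nat_lit 5) (nat_lit 2) (nat_lit 4) (nat_lit 389) (nat_lit 216) (nat_lit 175))) (XT.nd (nat_lit 78) (nat_lit 0) (nat_lit 0) (XT.lf (nat_lit 0) (nat_lit 108979745487) (nat_lit 76) (nat_lit 259252172924) (nat_lit 76) (nat_lit 257043926000) (nat_lit 1) (nat_lit 4) (nat_lit 2) (nat_lit 5) (nat_lit 2) (nat_lit 4) (nat_lit 390) (nat_lit 216) (nat_lit 174)) (XT.nd (nat_lit 78) (nat_lit 0) (nat_lit 0) (XT.lf (nat_lit 0) (nat_lit 116981168989) (nat_lit 76) (nat_lit 270857900987) (nat_lit 76) (nat_lit 268634102299)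 (nat_lit 1) (nat_lit 4) (nat_lit 2) (nat_lit 5) (nat_lit 2) (nat_lit 4) (nat_lit 391) (nat_lit 216) (nat_lit 173)) (XT.lf (nat_lit 0) (nat_lit 125358234791) (nat_lit 76) (nat_lit 283055688876) (nat_lit 76) (nat_lit 280817078983) (nat_lit 1) (nat_lit 4) (nat_lit 2) (nat_lit 5) (nat_lit 2) (nat_lit 4) (nat_lit 392) (nat_lit 216) (nat_lit 172))))) (XT.nd (nat_lit 37050) (nat_lit 0) (nat_lit 76) (XT.nd (nat_lit 36972) (nat_lit 0) (nat_lit 76) (XT.lf (nat_lit 0) (nat_lit 134130888288) (nat_lit 76) (nat_lit 295874578942) (nat_lit 76) (nat_lit 293621863141) (nat_lit 1) (nat_lit 4) (nat_lit 2) (nat_lit 5) (nat_lit 2) (nat_lit 4) (nat_lit 393) (nat_lit 216) (nat_lit 171)) (XT.lf (nat_lit 0) (nat_lit 2432519707) (nat_lit 152) (nat_lit 32689050777) (nat_lit 0) (nat_lit 2432519707) (nat_lit 2) (nat_lit 5) (nat_lit 4) (nat_lit 4) (nat_lit 2) (nat_lit 4) (nat_lit 346) (nat_lit 217) (nat_lit 217)))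 (XT.nd (nat_lit 78) (nat_lit 0) (nat_lit 0) (XT.lf (nat_lit 0) (nat_lit 8151756598) (nat_lit 152) (nat_lit 62527125043) (nat_lit 0) (nat_lit 8025014899) (nat_lit 2) (nat_lit 5) (nat_lit 4) (nat_lit 4) (nat_lit 2) (nat_lit 4) (nat_lit 347) (nat_lit 217) (nat_lit 216)) (XT.nd (nat_lit 78) (nat_lit 0) (nat_lit 0) (XT.lf (nat_lit 0) (nat_lit 11502780220) (nat_lit 152) (nat_lit 59726314872) (nat_lit 0) (nat_lit 11255332142) (nat_lit 2) (nat_lit 5) (nat_lit 4) (nat_lit 4) (nat_lit 2) (nat_lit 4) (nat_lit 348) (nat_lit 217) (nat_lit 215)) (XT.lf (nat_lit 0) (nat_lit 14926088911) (nat_lit 152) (nat_lit 56969002445) (nat_lit 0) (nat_lit 14563682376) (nat_lit 2) (nat_lit 5) (nat_lit 4) (nat_lit 4) (nat_lit 2) (nat_lit 4) (nat_lit 349) (nat_lit 217) (nat_lit 214)))))) (XT.nd (nat_lit 390) (nat_lit 0) (nat_lit 0) (XT.nd (nat_lit 156) (nat_lit 0) (nat_lit 0) (XT.nd (nat_lit 78) (nat_lit 0) (nat_lit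 0) (XT.lf (nat_lit 0) (nat_lit 18429833404) (nat_lit 152) (nat_lit 54248622733) (nat_lit 0) (nat_lit 17957942624) (nat_lit 2) (nat_lit 5) (nat_lit 4) (nat_lit 4) (nat_lit 2) (nat_lit 4) (nat_lit 350) (nat_lit 217) (nat_lit 213)) (XT.lf (nat_lit 0) (nat_lit 22022355948) (nat_lit 152) (nat_lit 51558698640) (nat_lit 0) (nat_lit 21446194459) (nat_lit 2) (nat_lit 5) (nat_lit 4) (nat_lit 4) (nat_lit 2) (nat_lit 4) (nat_lit 351) (nat_lit 217) (nat_lit 212))) (XT.nd (nat_lit 78) (nat_lit 0) (nat_lit 0) (XT.lf (nat_lit 0) (nat_lit 25712210169) (nat_lit 152) (nat_lit 48892825586) (nat_lit 0) (nat_lit 25036743243) (nat_lit 2) (nat_lit 5) (nat_lit 4) (nat_lit 4) (nat_lit 2) (nat_lit 4) (nat_lit 352) (nat_lit 217) (nat_lit 211)) (XT.nd (nat_lit 78) (nat_lit 0) (nat_lit 0) (XT.lf (nat_lit 0) (nat_lit 29508181433) (nat_lit 152) (nat_lit 46244656255) (nat_lit 0) (nat_lit 28738137900) (nat_lit 2) (nat_lit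 5) (nat_lit 4) (nat_lit 4) (nat_lit 2) (nat_lit 4) (nat_lit 353) (nat_lit 217) (nat_lit 210)) (XT.lf (nat_lit 0) (nat_lit 33419307768) (nat_lit 152) (nat_lit 43607885480) (nat_lit 0) (nat_lit 32559191276) (nat_lit 2) (nat_lit 5) (nat_lit 4) (nat_lit 4) (nat_lit 2) (nat_lit 4) (nat_lit 354) (nat_lit 217) (nat_lit 209))))) (XT.nd (nat_lit 234) (nat_lit 0) (nat_lit 0) (XT.nd (nat_lit 78) (nat_lit 0) (nat_lit 0) (XT.lf (nat_lit 0) (nat_lit 37454901379) (nat_lit 152) (nat_lit 40976235236) (nat_lit 0) (nat_lit 36509001117) (nat_lit 2) (nat_lit 5) (nat_lit 4) (nat_lit 4) (nat_lit 2) (nat_lit 4) (nat_lit 355) (nat_lit 217) (nat_lit 208)) (XT.nd (nat_lit 78) (nat_lit 0) (nat_lit 0) (XT.lf (nat_lit 0) (nat_lit 41624570823) (nat_lit 152) (nat_lit 38343439689) (nat_lit 0) (nat_lit 40596971731) (nat_lit 2) (nat_lit 5) (nat_lit 4) (nat_lit 4) (nat_lit 2) (nat_lit 4) (nat_lit 356) (nat_lit 217) (nat_lit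 207)) (XT.lf (nat_lit 0) (nat_lit 45938243883) (nat_lit 152) (nat_lit 35703230279) (nat_lit 0) (nat_lit 44832836383) (nat_lit 2) (nat_lit 5) (nat_lit 4) (nat_lit 4) (nat_lit 2) (nat_lit 4) (nat_lit 357) (nat_lit 217) (nat_lit 206)))) (XT.nd (nat_lit 78) (nat_lit 0) (nat_lit 0) (XT.lf (nat_lit 0) (nat_lit 50406191209) (nat_lit 152) (nat_lit 33049320793) (nat_lit 0) (nat_lit 49226680463) (nat_lit 2) (nat_lit 5) (nat_lit 4) (nat_lit 4) (nat_lit 2) (nat_lit 4) (nat_lit 358) (nat_lit 217) (nat_lit 205)) (XT.nd (nat_lit 78) (nat_lit 0) (nat_lit 0) (XT.lf (nat_lit 0) (nat_lit 55039050773) (nat_lit 152) (nat_lit 30375392398) (nat_lit 0) (nat_lit 53788965506) (nat_lit 2) (nat_lit 5) (nat_lit 4) (nat_lit 4) (nat_lit 2) (nat_lit 4) (nat_lit 359) (nat_lit 217) (nat_lit 204)) (XT.lf (nat_lit 0) (nat_lit 59847853191) (nat_lit 152) (nat_lit 27675078598) (nat_lit 0) (nat_lit 58530554095) (nat_lit 2)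 (nat_lit 5) (nat_lit 4) (nat_lit 4) (nat_lit 2) (nat_lit 4) (nat_lit 360) (nat_lit 217) (nat_lit 203))))))))
noncomputable def xc14 : XT := (XT.nd (nat_lit 1560) (nat_lit 0) (nat_lit 0) (XT.nd (nat_lit 780) (nat_lit 0) (nat_lit 0) (XT.nd (nat_lit 390) (nat_lit 76) (nat_lit 0) (XT.nd (nat_lit 156) (nat_lit 0) (nat_lit 0) (XT.nd (nat_lit 78) (nat_lit 0) (nat_lit 0) (XT.lf (nat_lit 0) (nat_lit 64844047993) (nat_lit 152) (nat_lit 24941950075) (nat_lit 0) (nat_lit 63462735727) (nat_lit 2) (nat_lit 5) (nat_lit 4) (nat_lit 4) (nat_lit 2) (nat_lit 4) (nat_lit 361) (nat_lit 217) (nat_lit 202)) (XT.lf (nat_lit 0) (nat_lit 70039530881) (nat_lit 152) (nat_lit 22169499380) (nat_lit 0) (nat_lit 68597253691) (nat_lit 2) (nat_lit 5) (nat_lit 4) (nat_lit 4) (nat_lit 2) (nat_lit 4) (nat_lit 362) (nat_lit 217) (nat_lit 201))) (XT.nd (nat_lit 78) (nat_lit 0) (nat_lit 0) (XT.lf (nat_lit 0) (nat_lit 75446672053)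 (nat_lit 152) (nat_lit 19351125440) (nat_lit 0) (nat_lit 73946333031) (nat_lit 2) (nat_lit 5) (nat_lit 4) (nat_lit 4) (nat_lit 2) (nat_lit 4) (nat_lit 363) (nat_lit 217) (nat_lit 200)) (XT.nd (nat_lit 78) (nat_lit 0) (nat_lit 0) (XT.lf (nat_lit 0) (nat_lit 81078345654) (nat_lit 152) (nat_lit 16480117840) (nat_lit 0) (nat_lit 79522709648) (nat_lit 2) (nat_lit 5) (nat_lit 4) (nat_lit 4) (nat_lit 2) (nat_lit 4) (nat_lit 364) (nat_lit 217) (nat_lit 199)) (XT.lf (nat_lit 0) (nat_lit 86947960431) (nat_lit 152) (nat_lit 13549640849) (nat_lit 0) (nat_lit 85339660631) (nat_lit 2) (nat_lit 5) (nat_lit 4) (nat_lit 4) (nat_lit 2) (nat_lit 4) (nat_lit 365) (nat_lit 217) (nat_lit 198))))) (XT.nd (nat_lit 156) (nat_lit 76) (nat_lit 0) (XT.nd (nat_lit 78) (nat_lit 0) (nat_lit 0) (XT.lf (nat_lit 0) (nat_lit 93069491656) (nat_lit 152) (nat_lit 10552717140) (nat_lit 0) (nat_lit 91411035863) (nat_lit 2)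 (nat_lit 5) (nat_lit 4) (nat_lit 4) (nat_lit 2) (nat_lit 4) (nat_lit 366) (nat_lit 217) (nat_lit 197)) (XT.lf (nat_lit 0) (nat_lit 99457514405) (nat_lit 152) (nat_lit 7482211180) (nat_lit 0) (nat_lit 97751290999) (nat_lit 2) (nat_lit 5) (nat_lit 4) (nat_lit 4) (nat_lit 2) (nat_lit 4) (nat_lit 367) (nat_lit 217) (nat_lit 196))) (XT.nd (nat_lit 78) (nat_lit 76) (nat_lit 0) (XT.lf (nat_lit 0) (nat_lit 106127238256) (nat_lit 152) (nat_lit 4330812241) (nat_lit 0) (nat_lit 104375521884) (nat_lit 2) (nat_lit 5) (nat_lit 4) (nat_lit 4) (nat_lit 2) (nat_lit 4) (nat_lit 368) (nat_lit 217) (nat_lit 195)) (XT.nd (nat_lit 78) (nat_lit 76) (nat_lit 0) (XT.lf (nat_lit 0) (nat_lit 113094543502) (nat_lit 152) (nat_lit 1091016992) (nat_lit 0) (nat_lit 111299500498) (nat_lit 2) (nat_lit 5) (nat_lit 4) (nat_lit 4) (nat_lit 2) (nat_lit 4) (nat_lit 369) (nat_lit 217) (nat_lit 194)) (XT.lf (nat_lit 0) (nat_lit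 2319114511) (nat_lit 76) (nat_lit 118093112333) (nat_lit 76) (nat_lit 116256805868) (nat_lit 1) (nat_lit 4) (nat_lit 2) (nat_lit 5) (nat_lit 2) (nat_lit 4) (nat_lit 370) (nat_lit 217) (nat_lit 193)))))) (XT.nd (nat_lit 390) (nat_lit 0) (nat_lit 0) (XT.nd (nat_lit 156) (nat_lit 0) (nat_lit 0) (XT.nd (nat_lit 78) (nat_lit 0) (nat_lit 0) (XT.lf (nat_lit 0) (nat_lit 5872813158) (nat_lit 76) (nat_lit 122207879411) (nat_lit 76) (nat_lit 120332274412) (nat_lit 1) (nat_lit 4) (nat_lit 2) (nat_lit 5) (nat_lit 2) (nat_lit 4) (nat_lit 371) (nat_lit 217) (nat_lit 192)) (XT.lf (nat_lit 0) (nat_lit 9542466185) (nat_lit 76) (nat_lit 126558135695) (nat_lit 76) (nat_lit 124645103521) (nat_lit 1) (nat_lit 4) (nat_lit 2) (nat_lit 5) (nat_lit 2) (nat_lit 4) (nat_lit 372) (nat_lit 217) (nat_lit 191))) (XT.nd (nat_lit 78) (nat_lit 0) (nat_lit 0) (XT.lf (nat_lit 0) (nat_lit 13336810862) (nat_lit 76) (nat_lit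 131154238937) (nat_lit 76) (nat_lit 129205561835) (nat_lit 1) (nat_lit 4) (nat_lit 2) (nat_lit 5) (nat_lit 2) (nat_lit 4) (nat_lit 373) (nat_lit 217) (nat_lit 190)) (XT.nd (nat_lit 78) (nat_lit 0) (nat_lit 0) (XT.lf (nat_lit 0) (nat_lit 17264881342) (nat_lit 76) (nat_lit 136007132242) (nat_lit 76) (nat_lit 134024507589) (nat_lit 1) (nat_lit 4) (nat_lit 2) (nat_lit 5) (nat_lit 2) (nat_lit 4) (nat_lit 374) (nat_lit 217) (nat_lit 189)) (XT.lf (nat_lit 0) (nat_lit 21336030175) (nat_lit 76) (nat_lit 141128370116) (nat_lit 76) (nat_lit 139113414462) (nat_lit 1) (nat_lit 4) (nat_lit 2) (nat_lit 5) (nat_lit 2) (nat_lit 4) (nat_lit 375) (nat_lit 217) (nat_lit 188))))) (XT.nd (nat_lit 156) (nat_lit 0) (nat_lit 0) (XT.nd (nat_lit 78) (nat_lit 0) (nat_lit 0) (XT.lf (nat_lit 0) (nat_lit 25559950572) (nat_lit 76) (nat_lit 146530145983) (nat_lit 76) (nat_lit 144484398899) (nat_lit 1) (nat_lit 4) (nat_lit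 2) (nat_lit 5) (nat_lit 2) (nat_lit 4) (nat_lit 376) (nat_lit 217) (nat_lit 187)) (XT.lf (nat_lit 0) (nat_lit 29946699487) (nat_lit 76) (nat_lit 152225321214) (nat_lit 76) (nat_lit 150150248960) (nat_lit 1) (nat_lit 4) (nat_lit 2) (nat_lit 5) (nat_lit 2) (nat_lit 4) (nat_lit 377) (nat_lit 217) (nat_lit 186))) (XT.nd (nat_lit 78) (nat_lit 0) (nat_lit 0) (XT.lf (nat_lit 0) (nat_lit 34506721559) (nat_lit 76) (nat_lit 158227455751) (nat_lit 76) (nat_lit 156124454762) (nat_lit 1) (nat_lit 4) (nat_lit 2) (nat_lit 5) (nat_lit 2) (nat_lit 4) (nat_lit 378) (nat_lit 217) (nat_lit 185)) (XT.nd (nat_lit 78) (nat_lit 0) (nat_lit 0) (XT.lf (nat_lit 0) (nat_lit 39250873983) (nat_lit 76) (nat_lit 164550840389) (nat_lit 76) (nat_lit 162421240607) (nat_lit 1) (nat_lit 4) (nat_lit 2) (nat_lit 5) (nat_lit 2) (nat_lit 4) (nat_lit 379) (nat_lit 217) (nat_lit 184)) (XT.lf (nat_lit 0) (nat_lit 44190452362)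 (nat_lit 76) (nat_lit 171210530807) (nat_lit 76) (nat_lit 169055598839) (nat_lit 1) (nat_lit 4) (nat_lit 2) (nat_lit 5) (nat_lit 2) (nat_lit 4) (nat_lit 380) (nat_lit 217) (nat_lit 183))))))) (XT.nd (nat_lit 780) (nat_lit 0) (nat_lit 0) (XT.nd (nat_lit 390) (nat_lit 0) (nat_lit 0) (XT.nd (nat_lit 156) (nat_lit 0) (nat_lit 0) (XT.nd (nat_lit 78) (nat_lit 0) (nat_lit 0) (XT.lf (nat_lit 0) (nat_lit 49337217596) (nat_lit 76) (nat_lit 178222383411) (nat_lit 76) (nat_lit 176043325552) (nat_lit 1) (nat_lit 4) (nat_lit 2) (nat_lit 5) (nat_lit 2) (nat_lit 4) (nat_lit 381) (nat_lit 217) (nat_lit 182)) (XT.lf (nat_lit 0) (nat_lit 54703423888) (nat_lit 76) (nat_lit 185603093086) (nat_lit 76) (nat_lit 183401058189) (nat_lit 1) (nat_lit 4) (nat_lit 2) (nat_lit 5) (nat_lit 2) (nat_lit 4) (nat_lit 382) (nat_lit 217) (nat_lit 181))) (XT.nd (nat_lit 78) (nat_lit 0) (nat_lit 0) (XT.lf (nat_lit 0) (nat_lit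 60301847919) (nat_lit 76) (nat_lit 193370232953) (nat_lit 76) (nat_lit 191146315161) (nat_lit 1) (nat_lit 4) (nat_lit 2) (nat_lit 5) (nat_lit 2) (nat_lit 4) (nat_lit 383) (nat_lit 217) (nat_lit 180)) (XT.nd (nat_lit 78) (nat_lit 0) (nat_lit 0) (XT.lf (nat_lit 0) (nat_lit 66145819270) (nat_lit 76) (nat_lit 201542296200) (nat_lit 76) (nat_lit 199297537557) (nat_lit 1) (nat_lit 4) (nat_lit 2) (nat_lit 5) (nat_lit 2) (nat_lit 4) (nat_lit 384) (nat_lit 217) (nat_lit 179)) (XT.lf (nat_lit 0) (nat_lit 72249252160) (nat_lit 76) (nat_lit 210138740121) (nat_lit 76) (nat_lit 207874133048) (nat_lit 1) (nat_lit 4) (nat_lit 2) (nat_lit 5) (nat_lit 2) (nat_lit 4) (nat_lit 385) (nat_lit 217) (nat_lit 178))))) (XT.nd (nat_lit 156) (nat_lit 0) (nat_lit 0) (XT.nd (nat_lit 78) (nat_lit 0) (nat_lit 0) (XT.lf (nat_lit 0) (nat_lit 78626678571) (nat_lit 76) (nat_lit 219180032440) (nat_lit 76) (nat_lit 216896522101)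 (nat_lit 1) (nat_lit 4) (nat_lit 2) (nat_lit 5) (nat_lit 2) (nat_lit 4) (nat_lit 386) (nat_lit 217) (nat_lit 177)) (XT.lf (nat_lit 0) (nat_lit 85293282851) (nat_lit 76) (nat_lit 228687700044) (nat_lit 76) (nat_lit 226386186594) (nat_lit 1) (nat_lit 4) (nat_lit 2) (nat_lit 5) (nat_lit 2) (nat_lit 4) (nat_lit 387) (nat_lit 217) (nat_lit 176))) (XT.nd (nat_lit 78) (nat_lit 0) (nat_lit 0) (XT.lf (nat_lit 0) (nat_lit 92264937868) (nat_lit 76) (nat_lit 238684380236) (nat_lit 76) (nat_lit 236365720966) (nat_lit 1) (nat_lit 4) (nat_lit 2) (nat_lit 5) (nat_lit 2) (nat_lit 4) (nat_lit 388) (nat_lit 217) (nat_lit 175)) (XT.nd (nat_lit 78) (nat_lit 0) (nat_lit 0) (XT.lf (nat_lit 0) (nat_lit 99558242801) (nat_lit 76) (nat_lit 249193874636) (nat_lit 76) (nat_lit 246858886013) (nat_lit 1) (nat_lit 4) (nat_lit 2) (nat_lit 5) (nat_lit 2) (nat_lit 4) (nat_lit 389) (nat_lit 217) (nat_lit 174)) (XT.lf (nat_lit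 0) (nat_lit 107190562662) (nat_lit 76) (nat_lit 260241205849) (nat_lit 76) (nat_lit 257890665462) (nat_lit 1) (nat_lit 4) (nat_lit 2) (nat_lit 5) (nat_lit 2) (nat_lit 4) (nat_lit 390) (nat_lit 217) (nat_lit 173)))))) (XT.nd (nat_lit 37128) (nat_lit 0) (nat_lit 76) (XT.nd (nat_lit 156) (nat_lit 0) (nat_lit 0) (XT.nd (nat_lit 78) (nat_lit 0) (nat_lit 0) (XT.lf (nat_lit 0) (nat_lit 115180069639) (nat_lit 76) (nat_lit 271852677045) (nat_lit 76) (nat_lit 269487325454) (nat_lit 1) (nat_lit 4) (nat_lit 2) (nat_lit 5) (nat_lit 2) (nat_lit 4) (nat_lit 391) (nat_lit 217) (nat_lit 172)) (XT.lf (nat_lit 0) (nat_lit 123545786370) (nat_lit 76) (nat_lit 284055934584) (nat_lit 76) (nat_lit 281676477084) (nat_lit 1) (nat_lit 4) (nat_lit 2) (nat_lit 5) (nat_lit 2) (nat_lit 4) (nat_lit 392) (nat_lit 217) (nat_lit 171))) (XT.nd (nat_lit 36816) (nat_lit 0) (nat_lit 76) (XT.lf (nat_lit 0) (nat_lit 132307631228)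 (nat_lit 76) (nat_lit 296880033841) (nat_lit 76) (nat_lit 294487142142) (nat_lit 1) (nat_lit 4) (nat_lit 2) (nat_lit 5) (nat_lit 2) (nat_lit 4) (nat_lit 393) (nat_lit 217) (nat_lit 170)) (XT.nd (nat_lit 78) (nat_lit 152) (nat_lit 0) (XT.lf (nat_lit 0) (nat_lit 32877353633) (nat_lit 76) (nat_lit 668918191) (nat_lit 76) (nat_lit 668918191) (nat_lit 4) (nat_lit 4) (nat_lit 5) (nat_lit 5) (nat_lit 5) (nat_lit 4) (nat_lit 344) (nat_lit 218) (nat_lit 218)) (XT.lf (nat_lit 0) (nat_lit 1767881938) (nat_lit 152) (nat_lit 68286032443) (nat_lit 0) (nat_lit 1634803155) (nat_lit 2) (nat_lit 5) (nat_lit 4) (nat_lit 4) (nat_lit 2) (nat_lit 4) (nat_lit 345) (nat_lit 218) (nat_lit 217))))) (XT.nd (nat_lit 234) (nat_lit 0) (nat_lit 0) (XT.nd (nat_lit 78) (nat_lit 0) (nat_lit 0) (XT.lf (nat_lit 0) (nat_lit 4946883618) (nat_lit 152) (nat_lit 65476809321) (nat_lit 0) (nat_lit 4687063135) (nat_lit 2) (nat_lit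 5) (nat_lit 4) (nat_lit 4) (nat_lit 2) (nat_lit 4) (nat_lit 346) (nat_lit 218) (nat_lit 216)) (XT.nd (nat_lit 78) (nat_lit 0) (nat_lit 0) (XT.lf (nat_lit 0) (nat_lit 8184805962) (nat_lit 152) (nat_lit 62719840208) (nat_lit 0) (nat_lit 7804279100) (nat_lit 2) (nat_lit 5) (nat_lit 4) (nat_lit 4) (nat_lit 2) (nat_lit 4) (nat_lit 347) (nat_lit 218) (nat_lit 215)) (XT.lf (nat_lit 0) (nat_lit 11489358310) (nat_lit 152) (nat_lit 60008560892) (nat_lit 0) (nat_lit 10993872991) (nat_lit 2) (nat_lit 5) (nat_lit 4) (nat_lit 4) (nat_lit 2) (nat_lit 4) (nat_lit 348) (nat_lit 218) (nat_lit 214)))) (XT.nd (nat_lit 78) (nat_lit 0) (nat_lit 0) (XT.lf (nat_lit 0) (nat_lit 14868408643) (nat_lit 152) (nat_lit 57336515946) (nat_lit 0) (nat_lit 14263439080) (nat_lit 2) (nat_lit 5) (nat_lit 4) (nat_lit 4) (nat_lit 2) (nat_lit 4) (nat_lit 349) (nat_lit 218) (nat_lit 213)) (XT.nd (nat_lit 78) (nat_lit 0) (nat_lit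 0) (XT.lf (nat_lit 0) (nat_lit 18330002320) (nat_lit 152) (nat_lit 54697343358) (nat_lit 0) (nat_lit 17620762047) (nat_lit 2) (nat_lit 5) (nat_lit 4) (nat_lit 4) (nat_lit 2) (nat_lit 4) (nat_lit 350) (nat_lit 218) (nat_lit 212)) (XT.lf (nat_lit 0) (nat_lit 21882381230) (nat_lit 152) (nat_lit 52084759385) (nat_lit 0) (nat_lit 21073835520) (nat_lit 2) (nat_lit 5) (nat_lit 4) (nat_lit 4) (nat_lit 2) (nat_lit 4) (nat_lit 351) (nat_lit 218) (nat_lit 211))))))))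
noncomputable def xc15 : XT := (XT.nd (nat_lit 1638) (nat_lit 0) (nat_lit 0) (XT.nd (nat_lit 780) (nat_lit 76) (nat_lit 0) (XT.nd (nat_lit 390) (nat_lit 0) (nat_lit 0) (XT.nd (nat_lit 156) (nat_lit 0) (nat_lit 0) (XT.nd (nat_lit 78) (nat_lit 0) (nat_lit 0) (XT.lf (nat_lit 0) (nat_lit 25534003418) (nat_lit 152) (nat_lit 49492543587) (nat_lit 0) (nat_lit 24630881101) (nat_lit 2) (nat_lit 5) (nat_lit 4) (nat_lit 4) (nat_lit 2) (nat_lit 4) (nat_lit 352) (nat_lit 218) (nat_lit 210)) (XT.lf (nat_lit 0) (nat_lit 29293563222) (nat_lit 152) (nat_lit 46914524022) (nat_lit 0) (nat_lit 28300367947) (nat_lit 2) (nat_lit 5) (nat_lit 4) (nat_lit 4) (nat_lit 2) (nat_lit 4) (nat_lit 353) (nat_lit 218) (nat_lit 209))) (XT.nd (nat_lit 78) (nat_lit 0) (nat_lit 0) (XT.lf (nat_lit 0) (nat_lit 33170011977) (nat_lit 152) (nat_lit 44344562550) (nat_lit 0) (nat_lit 32091032930) (nat_lit 2) (nat_lit 5) (nat_lit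 4) (nat_lit 4) (nat_lit 2) (nat_lit 4) (nat_lit 354) (nat_lit 218) (nat_lit 208)) (XT.nd (nat_lit 78) (nat_lit 0) (nat_lit 0) (XT.lf (nat_lit 0) (nat_lit 37172579320) (nat_lit 152) (nat_lit 41776540213) (nat_lit 0) (nat_lit 36011901445) (nat_lit 2) (nat_lit 5) (nat_lit 4) (nat_lit 4) (nat_lit 2) (nat_lit 4) (nat_lit 355) (nat_lit 218) (nat_lit 207)) (XT.lf (nat_lit 0) (nat_lit 41310795175) (nat_lit 152) (nat_lit 39204342673) (nat_lit 0) (nat_lit 40072308892) (nat_lit 2) (nat_lit 5) (nat_lit 4) (nat_lit 4) (nat_lit 2) (nat_lit 4) (nat_lit 356) (nat_lit 218) (nat_lit 206))))) (XT.nd (nat_lit 156) (nat_lit 0) (nat_lit 0) (XT.nd (nat_lit 78) (nat_lit 0) (nat_lit 0) (XT.lf (nat_lit 0) (nat_lit 45594512437) (nat_lit 152) (nat_lit 36621845651) (nat_lit 0) (nat_lit 44281922907) (nat_lit 2) (nat_lit 5) (nat_lit 4) (nat_lit 4) (nat_lit 2) (nat_lit 4) (nat_lit 357) (nat_lit 218) (nat_lit 205))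 (XT.lf (nat_lit 0) (nat_lit 50033930432) (nat_lit 152) (nat_lit 34022900343) (nat_lit 0) (nat_lit 48650766382) (nat_lit 2) (nat_lit 5) (nat_lit 4) (nat_lit 4) (nat_lit 2) (nat_lit 4) (nat_lit 358) (nat_lit 218) (nat_lit 204))) (XT.nd (nat_lit 78) (nat_lit 0) (nat_lit 0) (XT.lf (nat_lit 0) (nat_lit 54639619204) (nat_lit 152) (nat_lit 31401318784) (nat_lit 0) (nat_lit 53189241325) (nat_lit 2) (nat_lit 5) (nat_lit 4) (nat_lit 4) (nat_lit 2) (nat_lit 4) (nat_lit 359) (nat_lit 218) (nat_lit 203)) (XT.nd (nat_lit 78) (nat_lit 0) (nat_lit 0) (XT.lf (nat_lit 0) (nat_lit 59422544677) (nat_lit 152) (nat_lit 28750859115) (nat_lit 0) (nat_lit 57908153628) (nat_lit 2) (nat_lit 5) (nat_lit 4) (nat_lit 4) (nat_lit 2) (nat_lit 4) (nat_lit 360) (nat_lit 218) (nat_lit 202)) (XT.lf (nat_lit 0) (nat_lit 64394094770) (nat_lit 152) (nat_lit 26065210716) (nat_lit 0) (nat_lit 62818738796) (nat_lit 2) (nat_lit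 5) (nat_lit 4) (nat_lit 4) (nat_lit 2) (nat_lit 4) (nat_lit 361) (nat_lit 218) (nat_lit 201)))))) (XT.nd (nat_lit 390) (nat_lit 76) (nat_lit 0) (XT.nd (nat_lit 156) (nat_lit 0) (nat_lit 0) (XT.nd (nat_lit 78) (nat_lit 0) (nat_lit 0) (XT.lf (nat_lit 0) (nat_lit 69566106507) (nat_lit 152) (nat_lit 23337979186) (nat_lit 0) (nat_lit 67932688701) (nat_lit 2) (nat_lit 5) (nat_lit 4) (nat_lit 4) (nat_lit 2) (nat_lit 4) (nat_lit 362) (nat_lit 218) (nat_lit 200)) (XT.lf (nat_lit 0) (nat_lit 74950894200) (nat_lit 152) (nat_lit 20562671118) (nat_lit 0) (nat_lit 73262179411) (nat_lit 2) (nat_lit 5) (nat_lit 4) (nat_lit 4) (nat_lit 2) (nat_lit 4) (nat_lit 363) (nat_lit 218) (nat_lit 199))) (XT.nd (nat_lit 78) (nat_lit 0) (nat_lit 0) (XT.lf (nat_lit 0) (nat_lit 80561278775) (nat_lit 152) (nat_lit 17732678635) (nat_lit 0) (nat_lit 78819900192) (nat_lit 2) (nat_lit 5) (nat_lit 4) (nat_lit 4) (nat_lit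 2) (nat_lit 4) (nat_lit 364) (nat_lit 218) (nat_lit 198)) (XT.nd (nat_lit 78) (nat_lit 0) (nat_lit 0) (XT.lf (nat_lit 0) (nat_lit 86410618288) (nat_lit 152) (nat_lit 14841263659) (nat_lit 0) (nat_lit 84619083711) (nat_lit 2) (nat_lit 5) (nat_lit 4) (nat_lit 4) (nat_lit 2) (nat_lit 4) (nat_lit 365) (nat_lit 218) (nat_lit 197)) (XT.lf (nat_lit 0) (nat_lit 92512839739) (nat_lit 152) (nat_lit 11881541869) (nat_lit 0) (nat_lit 90673537549) (nat_lit 2) (nat_lit 5) (nat_lit 4) (nat_lit 4) (nat_lit 2) (nat_lit 4) (nat_lit 366) (nat_lit 218) (nat_lit 196))))) (XT.nd (nat_lit 234) (nat_lit 76) (nat_lit 0) (XT.nd (nat_lit 78) (nat_lit 0) (nat_lit 0) (XT.lf (nat_lit 0) (nat_lit 98882472227) (nat_lit 152) (nat_lit 8846466309) (nat_lit 0) (nat_lit 96997677072) (nat_lit 2) (nat_lit 5) (nat_lit 4) (nat_lit 4) (nat_lit 2) (nat_lit 4) (nat_lit 367) (nat_lit 218) (nat_lit 195)) (XT.nd (nat_lit 78) (nat_lit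 0) (nat_lit 0) (XT.lf (nat_lit 0) (nat_lit 105534681543) (nat_lit 152) (nat_lit 5728810607) (nat_lit 0) (nat_lit 103606559754) (nat_lit 2) (nat_lit 5) (nat_lit 4) (nat_lit 4) (nat_lit 2) (nat_lit 4) (nat_lit 368) (nat_lit 218) (nat_lit 194)) (XT.lf (nat_lit 0) (nat_lit 112485306280) (nat_lit 152) (nat_lit 2521151775) (nat_lit 0) (nat_lit 110515921031) (nat_lit 2) (nat_lit 5) (nat_lit 4) (nat_lit 4) (nat_lit 2) (nat_lit 4) (nat_lit 369) (nat_lit 218) (nat_lit 193)))) (XT.nd (nat_lit 78) (nat_lit 0) (nat_lit 0) (XT.lf (nat_lit 0) (nat_lit 810074926) (nat_lit 76) (nat_lit 118953468159) (nat_lit 76) (nat_lit 116944784377) (nat_lit 1) (nat_lit 4) (nat_lit 2) (nat_lit 5) (nat_lit 2) (nat_lit 4) (nat_lit 370) (nat_lit 218) (nat_lit 192)) (XT.nd (nat_lit 78) (nat_lit 0) (nat_lit 0) (XT.lf (nat_lit 0) (nat_lit 4333661108) (nat_lit 76) (nat_lit 123082747848) (nat_lit 76) (nat_lit 121036636890)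 (nat_lit 1) (nat_lit 4) (nat_lit 2) (nat_lit 5) (nat_lit 2) (nat_lit 4) (nat_lit 371) (nat_lit 218) (nat_lit 191)) (XT.lf (nat_lit 0) (nat_lit 7974635598) (nat_lit 76) (nat_lit 127446825666) (nat_lit 76) (nat_lit 125365069780) (nat_lit 1) (nat_lit 4) (nat_lit 2) (nat_lit 5) (nat_lit 2) (nat_lit 4) (nat_lit 372) (nat_lit 218) (nat_lit 190))))))) (XT.nd (nat_lit 780) (nat_lit 0) (nat_lit 0) (XT.nd (nat_lit 390) (nat_lit 0) (nat_lit 0) (XT.nd (nat_lit 156) (nat_lit 0) (nat_lit 0) (XT.nd (nat_lit 78) (nat_lit 0) (nat_lit 0) (XT.lf (nat_lit 0) (nat_lit 11741667382) (nat_lit 76) (nat_lit 132056092274) (nat_lit 76) (nat_lit 129940388837) (nat_lit 1) (nat_lit 4) (nat_lit 2) (nat_lit 5) (nat_lit 2) (nat_lit 4) (nat_lit 373) (nat_lit 218) (nat_lit 189)) (XT.lf (nat_lit 0) (nat_lit 15643725584) (nat_lit 76) (nat_lit 136921522117) (nat_lit 76) (nat_lit 134773487679) (nat_lit 1) (nat_lit 4) (nat_lit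 2) (nat_lit 5) (nat_lit 2) (nat_lit 4) (nat_lit 374) (nat_lit 218) (nat_lit 188))) (XT.nd (nat_lit 78) (nat_lit 0) (nat_lit 0) (XT.lf (nat_lit 0) (nat_lit 19690100818) (nat_lit 76) (nat_lit 142054699552) (nat_lit 76) (nat_lit 139875873685) (nat_lit 1) (nat_lit 4) (nat_lit 2) (nat_lit 5) (nat_lit 2) (nat_lit 4) (nat_lit 375) (nat_lit 218) (nat_lit 187)) (XT.nd (nat_lit 78) (nat_lit 0) (nat_lit 0) (XT.lf (nat_lit 0) (nat_lit 23890427311) (nat_lit 76) (nat_lit 147467846429) (nat_lit 76) (nat_lit 145259695391) (nat_lit 1) (nat_lit 4) (nat_lit 2) (nat_lit 5) (nat_lit 2) (nat_lit 4) (nat_lit 376) (nat_lit 218) (nat_lit 186)) (XT.lf (nat_lit 0) (nat_lit 28254705841) (nat_lit 76) (nat_lit 153173851194) (nat_lit 76) (nat_lit 150937771422) (nat_lit 1) (nat_lit 4) (nat_lit 2) (nat_lit 5) (nat_lit 2) (nat_lit 4) (nat_lit 377) (nat_lit 218) (nat_lit 185))))) (XT.nd (nat_lit 156) (nat_lit 0) (nat_lit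 0) (XT.nd (nat_lit 78) (nat_lit 0) (nat_lit 0) (XT.lf (nat_lit 0) (nat_lit 32793327547) (nat_lit 76) (nat_lit 159186299572) (nat_lit 76) (nat_lit 156923621006) (nat_lit 1) (nat_lit 4) (nat_lit 2) (nat_lit 5) (nat_lit 2) (nat_lit 4) (nat_lit 378) (nat_lit 218) (nat_lit 184)) (XT.lf (nat_lit 0) (nat_lit 37517098671) (nat_lit 76) (nat_lit 165519506917) (nat_lit 76) (nat_lit 163231496165) (nat_lit 1) (nat_lit 4) (nat_lit 2) (nat_lit 5) (nat_lit 2) (nat_lit 4) (nat_lit 379) (nat_lit 218) (nat_lit 183))) (XT.nd (nat_lit 78) (nat_lit 0) (nat_lit 0) (XT.lf (nat_lit 0) (nat_lit 42437266287) (nat_lit 76) (nat_lit 172188552293) (nat_lit 76) (nat_lit 169876415651) (nat_lit 1) (nat_lit 4) (nat_lit 2) (nat_lit 5) (nat_lit 2) (nat_lit 4) (nat_lit 380) (nat_lit 218) (nat_lit 182)) (XT.nd (nat_lit 78) (nat_lit 0) (nat_lit 0) (XT.lf (nat_lit 0) (nat_lit 47565545080) (nat_lit 76) (nat_lit 179209314380)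 (nat_lit 76) (nat_lit 176874200699) (nat_lit 1) (nat_lit 4) (nat_lit 2) (nat_lit 5) (nat_lit 2) (nat_lit 4) (nat_lit 381) (nat_lit 218) (nat_lit 181)) (XT.lf (nat_lit 0) (nat_lit 52914145237) (nat_lit 76) (nat_lit 186598509279) (nat_lit 76) (nat_lit 184241512704) (nat_lit 1) (nat_lit 4) (nat_lit 2) (nat_lit 5) (nat_lit 2) (nat_lit 4) (nat_lit 382) (nat_lit 218) (nat_lit 180)))))) (XT.nd (nat_lit 390) (nat_lit 0) (nat_lit 0) (XT.nd (nat_lit 156) (nat_lit 0) (nat_lit 0) (XT.nd (nat_lit 78) (nat_lit 0) (nat_lit 0) (XT.lf (nat_lit 0) (nat_lit 58495801521) (nat_lit 76) (nat_lit 194373730310) (nat_lit 76) (nat_lit 191995892883) (nat_lit 1) (nat_lit 4) (nat_lit 2) (nat_lit 5) (nat_lit 2) (nat_lit 4) (nat_lit 383) (nat_lit 218) (nat_lit 179)) (XT.lf (nat_lit 0) (nat_lit 64323803590) (nat_lit 76) (nat_lit 202553489904) (nat_lit 76) (nat_lit 200155804048) (nat_lit 1) (nat_lit 4) (nat_lit 2) (nat_lit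 5) (nat_lit 2) (nat_lit 4) (nat_lit 384) (nat_lit 218) (nat_lit 178))) (XT.nd (nat_lit 78) (nat_lit 0) (nat_lit 0) (XT.lf (nat_lit 0) (nat_lit 70412027639) (nat_lit 76) (nat_lit 211157263680) (nat_lit 76) (nat_lit 208740674557) (nat_lit 1) (nat_lit 4) (nat_lit 2) (nat_lit 5) (nat_lit 2) (nat_lit 4) (nat_lit 385) (nat_lit 218) (nat_lit 177)) (XT.nd (nat_lit 78) (nat_lit 0) (nat_lit 0) (XT.lf (nat_lit 0) (nat_lit 76774969439) (nat_lit 76) (nat_lit 220205536813) (nat_lit 76) (nat_lit 217770944579) (nat_lit 1) (nat_lit 4) (nat_lit 2) (nat_lit 5) (nat_lit 2) (nat_lit 4) (nat_lit 386) (nat_lit 218) (nat_lit 176)) (XT.lf (nat_lit 0) (nat_lit 83427778853) (nat_lit 76) (nat_lit 229719852811) (nat_lit 76) (nat_lit 227268114757) (nat_lit 1) (nat_lit 4) (nat_lit 2) (nat_lit 5) (nat_lit 2) (nat_lit 4) (nat_lit 387) (nat_lit 218) (nat_lit 175))))) (XT.nd (nat_lit 234) (nat_lit 0) (nat_lit 0) (XT.nd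 (nat_lit 78) (nat_lit 0) (nat_lit 0) (XT.lf (nat_lit 0) (nat_lit 90386295902) (nat_lit 76) (nat_lit 239722864807) (nat_lit 76) (nat_lit 237254797400) (nat_lit 1) (nat_lit 4) (nat_lit 2) (nat_lit 5) (nat_lit 2) (nat_lit 4) (nat_lit 388) (nat_lit 218) (nat_lit 174)) (XT.nd (nat_lit 78) (nat_lit 0) (nat_lit 0) (XT.lf (nat_lit 0) (nat_lit 97667088484) (nat_lit 76) (nat_lit 250238389496) (nat_lit 76) (nat_lit 247754770325) (nat_lit 1) (nat_lit 4) (nat_lit 2) (nat_lit 5) (nat_lit 2) (nat_lit 4) (nat_lit 389) (nat_lit 218) (nat_lit 173)) (XT.lf (nat_lit 0) (nat_lit 105287491820) (nat_lit 76) (nat_lit 261291463842) (nat_lit 76) (nat_lit 258793033467) (nat_lit 1) (nat_lit 4) (nat_lit 2) (nat_lit 5) (nat_lit 2) (nat_lit 4) (nat_lit 390) (nat_lit 218) (nat_lit 172)))) (XT.nd (nat_lit 78) (nat_lit 0) (nat_lit 0) (XT.lf (nat_lit 0) (nat_lit 113265649726) (nat_lit 76) (nat_lit 272908404688) (nat_lit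 76) (nat_lit 270395868405) (nat_lit 1) (nat_lit 4) (nat_lit 2) (nat_lit 5) (nat_lit 2) (nat_lit 4) (nat_lit 391) (nat_lit 218) (nat_lit 171)) (XT.nd (nat_lit 78) (nat_lit 0) (nat_lit 0) (XT.lf (nat_lit 0) (nat_lit 121620557818) (nat_lit 76) (nat_lit 285116871418) (nat_lit 76) (nat_lit 282590900936) (nat_lit 1) (nat_lit 4) (nat_lit 2) (nat_lit 5) (nat_lit 2) (nat_lit 4) (nat_lit 392) (nat_lit 218) (nat_lit 170)) (XT.lf (nat_lit 0) (nat_lit 130372108734) (nat_lit 76) (nat_lit 297945931809) (nat_lit 76) (nat_lit 295407166852) (nat_lit 1) (nat_lit 4) (nat_lit 2) (nat_lit 5) (nat_lit 2) (nat_lit 4) (nat_lit 393) (nat_lit 218) (nat_lit 169))))))))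
noncomputable def xc16 : XT := (XT.nd (nat_lit 1560) (nat_lit 76) (nat_lit 0) (XT.nd (nat_lit 780) (nat_lit 0) (nat_lit 0) (XT.nd (nat_lit 390) (nat_lit 0) (nat_lit 0) (XT.nd (nat_lit 156) (nat_lit 152) (nat_lit 0) (XT.nd (nat_lit 78) (nat_lit 0) (nat_lit 0) (XT.lf (nat_lit 0) (nat_lit 24010215721) (nat_lit 76) (nat_lit 3588412161) (nat_lit 76) (nat_lit 3588412161) (nat_lit 4) (nat_lit 4) (nat_lit 5) (nat_lit 5) (nat_lit 5) (nat_lit 4) (nat_lit 342) (nat_lit 219) (nat_lit 219)) (XT.lf (nat_lit 0) (nat_lit 56720860305) (nat_lit 76) (nat_lit 4376463991) (nat_lit 76) (nat_lit 4229744632) (nat_lit 4) (nat_lit 4) (nat_lit 5) (nat_lit 5) (nat_lit 5) (nat_lit 4) (nat_lit 343) (nat_lit 219) (nat_lit 218))) (XT.nd (nat_lit 78) (nat_lit 152) (nat_lit 0) (XT.lf (nat_lit 0) (nat_lit 65657942177) (nat_lit 76) (nat_lit 1530717742) (nat_lit 76) (nat_lit 1244265661) (nat_lit 4) (nat_lit 4) (nat_lit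 5) (nat_lit 5) (nat_lit 5) (nat_lit 4) (nat_lit 344) (nat_lit 219) (nat_lit 217)) (XT.nd (nat_lit 78) (nat_lit 0) (nat_lit 0) (XT.lf (nat_lit 0) (nat_lit 1802583771) (nat_lit 152) (nat_lit 68488383367) (nat_lit 0) (nat_lit 1403030566) (nat_lit 2) (nat_lit 5) (nat_lit 4) (nat_lit 4) (nat_lit 2) (nat_lit 4) (nat_lit 345) (nat_lit 219) (nat_lit 216)) (XT.lf (nat_lit 0) (nat_lit 4932790612) (nat_lit 152) (nat_lit 65773167642) (nat_lit 0) (nat_lit 4412531027) (nat_lit 2) (nat_lit 5) (nat_lit 4) (nat_lit 4) (nat_lit 2) (nat_lit 4) (nat_lit 346) (nat_lit 219) (nat_lit 215))))) (XT.nd (nat_lit 156) (nat_lit 0) (nat_lit 0) (XT.nd (nat_lit 78) (nat_lit 0) (nat_lit 0) (XT.lf (nat_lit 0) (nat_lit 8124241681) (nat_lit 152) (nat_lit 63105729384) (nat_lit 0) (nat_lit 7489023639) (nat_lit 2) (nat_lit 5) (nat_lit 4) (nat_lit 4) (nat_lit 2) (nat_lit 4) (nat_lit 347) (nat_lit 219) (nat_lit 214)) (XT.lf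 (nat_lit 0) (nat_lit 11384535672) (nat_lit 152) (nat_lit 60479717549) (nat_lit 0) (nat_lit 10639833386) (nat_lit 2) (nat_lit 5) (nat_lit 4) (nat_lit 4) (nat_lit 2) (nat_lit 4) (nat_lit 348) (nat_lit 219) (nat_lit 213))) (XT.nd (nat_lit 78) (nat_lit 0) (nat_lit 0) (XT.lf (nat_lit 0) (nat_lit 14721435189) (nat_lit 152) (nat_lit 57888879728) (nat_lit 0) (nat_lit 13872462194) (nat_lit 2) (nat_lit 5) (nat_lit 4) (nat_lit 4) (nat_lit 2) (nat_lit 4) (nat_lit 349) (nat_lit 219) (nat_lit 212)) (XT.nd (nat_lit 78) (nat_lit 0) (nat_lit 0) (XT.lf (nat_lit 0) (nat_lit 18142885231) (nat_lit 152) (nat_lit 55327047259) (nat_lit 0) (nat_lit 17194606799) (nat_lit 2) (nat_lit 5) (nat_lit 4) (nat_lit 4) (nat_lit 2) (nat_lit 4) (nat_lit 350) (nat_lit 219) (nat_lit 211)) (XT.lf (nat_lit 0) (nat_lit 21657032108) (nat_lit 152) (nat_lit 52788120541) (nat_lit 0) (nat_lit 20614177069) (nat_lit 2) (nat_lit 5) (nat_lit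 4) (nat_lit 4) (nat_lit 2) (nat_lit 4) (nat_lit 351) (nat_lit 219) (nat_lit 210)))))) (XT.nd (nat_lit 390) (nat_lit 0) (nat_lit 0) (XT.nd (nat_lit 156) (nat_lit 0) (nat_lit 0) (XT.nd (nat_lit 78) (nat_lit 0) (nat_lit 0) (XT.lf (nat_lit 0) (nat_lit 25272242836) (nat_lit 152) (nat_lit 50266054510) (nat_lit 0) (nat_lit 24139314838) (nat_lit 2) (nat_lit 5) (nat_lit 4) (nat_lit 4) (nat_lit 2) (nat_lit 4) (nat_lit 352) (nat_lit 219) (nat_lit 209)) (XT.lf (nat_lit 0) (nat_lit 28997125060) (nat_lit 152) (nat_lit 47754844249) (nat_lit 0) (nat_lit 27778413291) (nat_lit 2) (nat_lit 5) (nat_lit 4) (nat_lit 4) (nat_lit 2) (nat_lit 4) (nat_lit 353) (nat_lit 219) (nat_lit 208))) (XT.nd (nat_lit 78) (nat_lit 0) (nat_lit 0) (XT.lf (nat_lit 0) (nat_lit 32840547547) (nat_lit 152) (nat_lit 45248510683) (nat_lit 0) (nat_lit 31540136949) (nat_lit 2) (nat_lit 5) (nat_lit 4) (nat_lit 4) (nat_lit 2) (nat_lit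 4) (nat_lit 354) (nat_lit 219) (nat_lit 207)) (XT.nd (nat_lit 78) (nat_lit 0) (nat_lit 0) (XT.lf (nat_lit 0) (nat_lit 36811661302) (nat_lit 152) (nat_lit 42741086353) (nat_lit 0) (nat_lit 35433442296) (nat_lit 2) (nat_lit 5) (nat_lit 4) (nat_lit 4) (nat_lit 2) (nat_lit 4) (nat_lit 355) (nat_lit 219) (nat_lit 206)) (XT.lf (nat_lit 0) (nat_lit 40919921359) (nat_lit 152) (nat_lit 40226601201) (nat_lit 0) (nat_lit 39467599107) (nat_lit 2) (nat_lit 5) (nat_lit 4) (nat_lit 4) (nat_lit 2) (nat_lit 4) (nat_lit 356) (nat_lit 219) (nat_lit 205))))) (XT.nd (nat_lit 156) (nat_lit 0) (nat_lit 0) (XT.nd (nat_lit 78) (nat_lit 0) (nat_lit 0) (XT.lf (nat_lit 0) (nat_lit 45175109290) (nat_lit 152) (nat_lit 37699068356) (nat_lit 0) (nat_lit 43652212517) (nat_lit 2) (nat_lit 5) (nat_lit 4) (nat_lit 4) (nat_lit 2) (nat_lit 4) (nat_lit 357) (nat_lit 219) (nat_lit 204)) (XT.lf (nat_lit 0) (nat_lit 49587356493)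 (nat_lit 152) (nat_lit 35152469885) (nat_lit 0) (nat_lit 47997245891) (nat_lit 2) (nat_lit 5) (nat_lit 4) (nat_lit 4) (nat_lit 2) (nat_lit 4) (nat_lit 358) (nat_lit 219) (nat_lit 203))) (XT.nd (nat_lit 78) (nat_lit 0) (nat_lit 0) (XT.lf (nat_lit 0) (nat_lit 54167168319) (nat_lit 152) (nat_lit 32580742457) (nat_lit 0) (nat_lit 52513044547) (nat_lit 2) (nat_lit 5) (nat_lit 4) (nat_lit 4) (nat_lit 2) (nat_lit 4) (nat_lit 359) (nat_lit 219) (nat_lit 202)) (XT.nd (nat_lit 78) (nat_lit 0) (nat_lit 0) (XT.lf (nat_lit 0) (nat_lit 58925449083) (nat_lit 152) (nat_lit 29977762911) (nat_lit 0) (nat_lit 57210360387) (nat_lit 2) (nat_lit 5) (nat_lit 4) (nat_lit 4) (nat_lit 2) (nat_lit 4) (nat_lit 360) (nat_lit 219) (nat_lit 201)) (XT.lf (nat_lit 0) (nat_lit 63873528025) (nat_lit 152) (nat_lit 27337333678) (nat_lit 0) (nat_lit 62100377496) (nat_lit 2) (nat_lit 5) (nat_lit 4) (nat_lit 4) (nat_lit 2)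 (nat_lit 4) (nat_lit 361) (nat_lit 219) (nat_lit 200))))))) (XT.nd (nat_lit 780) (nat_lit 0) (nat_lit 0) (XT.nd (nat_lit 390) (nat_lit 76) (nat_lit 0) (XT.nd (nat_lit 156) (nat_lit 0) (nat_lit 0) (XT.nd (nat_lit 78) (nat_lit 0) (nat_lit 0) (XT.lf (nat_lit 0) (nat_lit 69023186284) (nat_lit 152) (nat_lit 24653168020) (nat_lit 0) (nat_lit 67194738771) (nat_lit 2) (nat_lit 5) (nat_lit 4) (nat_lit 4) (nat_lit 2) (nat_lit 4) (nat_lit 362) (nat_lit 219) (nat_lit 199)) (XT.lf (nat_lit 0) (nat_lit 74386684951) (nat_lit 152) (nat_lit 21918875068) (nat_lit 0) (nat_lit 72505573645) (nat_lit 2) (nat_lit 5) (nat_lit 4) (nat_lit 4) (nat_lit 2) (nat_lit 4) (nat_lit 363) (nat_lit 219) (nat_lit 198))) (XT.nd (nat_lit 78) (nat_lit 0) (nat_lit 0) (XT.lf (nat_lit 0) (nat_lit 79976794262) (nat_lit 152) (nat_lit 19127944600) (nat_lit 0) (nat_lit 78045526962) (nat_lit 2) (nat_lit 5) (nat_lit 4) (nat_lit 4)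 (nat_lit 2) (nat_lit 4) (nat_lit 364) (nat_lit 219) (nat_lit 197)) (XT.nd (nat_lit 78) (nat_lit 0) (nat_lit 0) (XT.lf (nat_lit 0) (nat_lit 85806824001) (nat_lit 152) (nat_lit 16273731544) (nat_lit 0) (nat_lit 83827789088) (nat_lit 2) (nat_lit 5) (nat_lit 4) (nat_lit 4) (nat_lit 2) (nat_lit 4) (nat_lit 365) (nat_lit 219) (nat_lit 196)) (XT.lf (nat_lit 0) (nat_lit 91890655190) (nat_lit 152) (nat_lit 13349440154) (nat_lit 0) (nat_lit 89866127313) (nat_lit 2) (nat_lit 5) (nat_lit 4) (nat_lit 4) (nat_lit 2) (nat_lit 4) (nat_lit 366) (nat_lit 219) (nat_lit 195))))) (XT.nd (nat_lit 156) (nat_lit 76) (nat_lit 0) (XT.nd (nat_lit 78) (nat_lit 0) (nat_lit 0) (XT.lf (nat_lit 0) (nat_lit 98242773143) (nat_lit 152) (nat_lit 10348107831) (nat_lit 0) (nat_lit 96174918632) (nat_lit 2) (nat_lit 5) (nat_lit 4) (nat_lit 4) (nat_lit 2) (nat_lit 4) (nat_lit 367) (nat_lit 219) (nat_lit 194)) (XT.lf (nat_lit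 0) (nat_lit 104878301950) (nat_lit 152) (nat_lit 7262588546) (nat_lit 0) (nat_lit 102769183978) (nat_lit 2) (nat_lit 5) (nat_lit 4) (nat_lit 4) (nat_lit 2) (nat_lit 4) (nat_lit 368) (nat_lit 219) (nat_lit 193))) (XT.nd (nat_lit 78) (nat_lit 76) (nat_lit 0) (XT.lf (nat_lit 0) (nat_lit 111813040488) (nat_lit 152) (nat_lit 4085535826) (nat_lit 0) (nat_lit 109664623982) (nat_lit 2) (nat_lit 5) (nat_lit 4) (nat_lit 4) (nat_lit 2) (nat_lit 4) (nat_lit 369) (nat_lit 219) (nat_lit 192)) (XT.nd (nat_lit 78) (nat_lit 76) (nat_lit 0) (XT.lf (nat_lit 0) (nat_lit 119063500040) (nat_lit 152) (nat_lit 809385257) (nat_lit 0) (nat_lit 116877656360) (nat_lit 2) (nat_lit 5) (nat_lit 4) (nat_lit 4) (nat_lit 2) (nat_lit 4) (nat_lit 370) (nat_lit 219) (nat_lit 191)) (XT.lf (nat_lit 0) (nat_lit 2658760455) (nat_lit 76) (nat_lit 124029693851) (nat_lit 76) (nat_lit 121808205243) (nat_lit 1) (nat_lit 4) (nat_lit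 2) (nat_lit 5) (nat_lit 2) (nat_lit 4) (nat_lit 371) (nat_lit 219) (nat_lit 190)))))) (XT.nd (nat_lit 390) (nat_lit 0) (nat_lit 0) (XT.nd (nat_lit 156) (nat_lit 0) (nat_lit 0) (XT.nd (nat_lit 78) (nat_lit 0) (nat_lit 0) (XT.lf (nat_lit 0) (nat_lit 6272422052) (nat_lit 76) (nat_lit 128406935035) (nat_lit 76) (nat_lit 126151498875) (nat_lit 1) (nat_lit 4) (nat_lit 2) (nat_lit 5) (nat_lit 2) (nat_lit 4) (nat_lit 372) (nat_lit 219) (nat_lit 189)) (XT.lf (nat_lit 0) (nat_lit 10013441557) (nat_lit 76) (nat_lit 133028738182) (nat_lit 76) (nat_lit 130740971021) (nat_lit 1) (nat_lit 4) (nat_lit 2) (nat_lit 5) (nat_lit 2) (nat_lit 4) (nat_lit 373) (nat_lit 219) (nat_lit 188))) (XT.nd (nat_lit 78) (nat_lit 0) (nat_lit 0) (XT.lf (nat_lit 0) (nat_lit 13890726160) (nat_lit 76) (nat_lit 137906107586) (nat_lit 76) (nat_lit 135587548996) (nat_lit 1) (nat_lit 4) (nat_lit 2) (nat_lit 5) (nat_lit 2) (nat_lit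 4) (nat_lit 374) (nat_lit 219) (nat_lit 187)) (XT.nd (nat_lit 78) (nat_lit 0) (nat_lit 0) (XT.lf (nat_lit 0) (nat_lit 17913507490) (nat_lit 76) (nat_lit 143050656031) (nat_lit 76) (nat_lit 140702772270) (nat_lit 1) (nat_lit 4) (nat_lit 2) (nat_lit 5) (nat_lit 2) (nat_lit 4) (nat_lit 375) (nat_lit 219) (nat_lit 186)) (XT.lf (nat_lit 0) (nat_lit 22091363599) (nat_lit 76) (nat_lit 148474632441) (nat_lit 76) (nat_lit 146098819947) (nat_lit 1) (nat_lit 4) (nat_lit 2) (nat_lit 5) (nat_lit 2) (nat_lit 4) (nat_lit 376) (nat_lit 219) (nat_lit 185))))) (XT.nd (nat_lit 234) (nat_lit 0) (nat_lit 0) (XT.nd (nat_lit 78) (nat_lit 0) (nat_lit 0) (XT.lf (nat_lit 0) (nat_lit 26434241763) (nat_lit 76) (nat_lit 154190951048) (nat_lit 76) (nat_lit 151788539758) (nat_lit 1) (nat_lit 4) (nat_lit 2) (nat_lit 5) (nat_lit 2) (nat_lit 4) (nat_lit 377) (nat_lit 219) (nat_lit 184)) (XT.nd (nat_lit 78) (nat_lit 0)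 (nat_lit 0) (XT.lf (nat_lit 0) (nat_lit 30952482168) (nat_lit 76) (nat_lit 160213222132) (nat_lit 76) (nat_lit 157785478658) (nat_lit 1) (nat_lit 4) (nat_lit 2) (nat_lit 5) (nat_lit 2) (nat_lit 4) (nat_lit 378) (nat_lit 219) (nat_lit 183)) (XT.lf (nat_lit 0) (nat_lit 35656842528) (nat_lit 76) (nat_lit 166555784435) (nat_lit 76) (nat_lit 164103915070) (nat_lit 1) (nat_lit 4) (nat_lit 2) (nat_lit 5) (nat_lit 2) (nat_lit 4) (nat_lit 379) (nat_lit 219) (nat_lit 182)))) (XT.nd (nat_lit 78) (nat_lit 0) (nat_lit 0) (XT.lf (nat_lit 0) (nat_lit 40558523703) (nat_lit 76) (nat_lit 173233739295) (nat_lit 76) (nat_lit 170758892891) (nat_lit 1) (nat_lit 4) (nat_lit 2) (nat_lit 5) (nat_lit 2) (nat_lit 4) (nat_lit 380) (nat_lit 219) (nat_lit 181)) (XT.nd (nat_lit 78) (nat_lit 0) (nat_lit 0) (XT.lf (nat_lit 0) (nat_lit 45669196362) (nat_lit 76) (nat_lit 180262986605) (nat_lit 76) (nat_lit 177766257307)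 (nat_lit 1) (nat_lit 4) (nat_lit 2) (nat_lit 5) (nat_lit 2) (nat_lit 4) (nat_lit 381) (nat_lit 219) (nat_lit 180)) (XT.lf (nat_lit 0) (nat_lit 51001028773) (nat_lit 76) (nat_lit 187660262668) (nat_lit 76) (nat_lit 185142692519) (nat_lit 1) (nat_lit 4) (nat_lit 2) (nat_lit 5) (nat_lit 2) (nat_lit 4) (nat_lit 382) (nat_lit 219) (nat_lit 179))))))))
noncomputable def xc17 : XT := (XT.nd (nat_lit 37986) (nat_lit 0) (nat_lit 76) (XT.nd (nat_lit 780) (nat_lit 0) (nat_lit 0) (XT.nd (nat_lit 390) (nat_lit 0) (nat_lit 0) (XT.nd (nat_lit 156) (nat_lit 0) (nat_lit 0) (XT.nd (nat_lit 78) (nat_lit 0) (nat_lit 0) (XT.lf (nat_lit 0) (nat_lit 56566715774) (nat_lit 76) (nat_lit 195443180047) (nat_lit 76) (nat_lit 192905761467) (nat_lit 1) (nat_lit 4) (nat_lit 2) (nat_lit 5) (nat_lit 2) (nat_lit 4) (nat_lit 383) (nat_lit 219) (nat_lit 178)) (XT.lf (nat_lit 0) (nat_lit 62379509002) (nat_lit 76) (nat_lit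 203630269496) (nat_lit 76) (nat_lit 201073947650) (nat_lit 1) (nat_lit 4) (nat_lit 2) (nat_lit 5) (nat_lit 2) (nat_lit 4) (nat_lit 384) (nat_lit 219) (nat_lit 177))) (XT.nd (nat_lit 78) (nat_lit 0) (nat_lit 0) (XT.lf (nat_lit 0) (nat_lit 68453248441) (nat_lit 76) (nat_lit 212241024085) (nat_lit 76) (nat_lit 209666699128) (nat_lit 1) (nat_lit 4) (nat_lit 2) (nat_lit 5) (nat_lit 2) (nat_lit 4) (nat_lit 385) (nat_lit 219) (nat_lit 176)) (XT.nd (nat_lit 78) (nat_lit 0) (nat_lit 0) (XT.lf (nat_lit 0) (nat_lit 74802395375) (nat_lit 76) (nat_lit 221295945613) (nat_lit 76) (nat_lit 218704474836) (nat_lit 1) (nat_lit 4) (nat_lit 2) (nat_lit 5) (nat_lit 2) (nat_lit 4) (nat_lit 386) (nat_lit 219) (nat_lit 175)) (XT.lf (nat_lit 0) (nat_lit 81442066820) (nat_lit 76) (nat_lit 230816593415) (nat_lit 76) (nat_lit 228208793285) (nat_lit 1) (nat_lit 4) (nat_lit 2) (nat_lit 5) (nat_lit 2) (nat_lit 4) (nat_lit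 387) (nat_lit 219) (nat_lit 174))))) (XT.nd (nat_lit 156) (nat_lit 0) (nat_lit 0) (XT.nd (nat_lit 78) (nat_lit 0) (nat_lit 0) (XT.lf (nat_lit 0) (nat_lit 88388071518) (nat_lit 76) (nat_lit 240825635700) (nat_lit 76) (nat_lit 238202283806) (nat_lit 1) (nat_lit 4) (nat_lit 2) (nat_lit 5) (nat_lit 2) (nat_lit 4) (nat_lit 388) (nat_lit 219) (nat_lit 173)) (XT.lf (nat_lit 0) (nat_lit 95656947575) (nat_lit 76) (nat_lit 251346903522) (nat_lit 76) (nat_lit 248708740424) (nat_lit 1) (nat_lit 4) (nat_lit 2) (nat_lit 5) (nat_lit 2) (nat_lit 4) (nat_lit 389) (nat_lit 219) (nat_lit 172))) (XT.nd (nat_lit 78) (nat_lit 0) (nat_lit 0) (XT.lf (nat_lit 0) (nat_lit 103266001840) (nat_lit 76) (nat_lit 262405447518) (nat_lit 76) (nat_lit 259753178512) (nat_lit 1) (nat_lit 4) (nat_lit 2) (nat_lit 5) (nat_lit 2) (nat_lit 4) (nat_lit 390) (nat_lit 219) (nat_lit 171)) (XT.nd (nat_lit 78) (nat_lit 0) (nat_lit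 0) (XT.lf (nat_lit 0) (nat_lit 111233351108) (nat_lit 76) (nat_lit 274027597555) (nat_lit 76) (nat_lit 271361894350) (nat_lit 1) (nat_lit 4) (nat_lit 2) (nat_lit 5) (nat_lit 2) (nat_lit 4) (nat_lit 391) (nat_lit 219) (nat_lit 170)) (XT.lf (nat_lit 0) (nat_lit 119577965257) (nat_lit 76) (nat_lit 286241025419) (nat_lit 76) (nat_lit 283562527739) (nat_lit 1) (nat_lit 4) (nat_lit 2) (nat_lit 5) (nat_lit 2) (nat_lit 4) (nat_lit 392) (nat_lit 219) (nat_lit 169)))))) (XT.nd (nat_lit 36816) (nat_lit 0) (nat_lit 76) (XT.nd (nat_lit 36582) (nat_lit 0) (nat_lit 228) (XT.nd (nat_lit 36504) (nat_lit 0) (nat_lit 228) (XT.lf (nat_lit 0) (nat_lit 128319712419) (nat_lit 76) (nat_lit 299074810700) (nat_lit 76) (nat_lit 296384127806) (nat_lit 1) (nat_lit 4) (nat_lit 2) (nat_lit 5) (nat_lit 2) (nat_lit 4) (nat_lit 393) (nat_lit 219) (nat_lit 168)) (XT.lf (nat_lit 0) (nat_lit 15676934586) (nat_lit 76) (nat_lit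 6385563436) (nat_lit 76) (nat_lit 6385563436) (nat_lit 4) (nat_lit 4) (nat_lit 5) (nat_lit 5) (nat_lit 5) (nat_lit 4) (nat_lit 340) (nat_lit 220) (nat_lit 220))) (XT.nd (nat_lit 78) (nat_lit 0) (nat_lit 0) (XT.lf (nat_lit 0) (nat_lit 39535940285) (nat_lit 76) (nat_lit 10092521591) (nat_lit 76) (nat_lit 9938466264) (nat_lit 4) (nat_lit 4) (nat_lit 5) (nat_lit 5) (nat_lit 5) (nat_lit 4) (nat_lit 341) (nat_lit 220) (nat_lit 219)) (XT.nd (nat_lit 78) (nat_lit 0) (nat_lit 0) (XT.lf (nat_lit 0) (nat_lit 47918828099) (nat_lit 76) (nat_lit 7379349750) (nat_lit 76) (nat_lit 7078575065) (nat_lit 4) (nat_lit 4) (nat_lit 5) (nat_lit 5) (nat_lit 5) (nat_lit 4) (nat_lit 342) (nat_lit 220) (nat_lit 218)) (XT.lf (nat_lit 0) (nat_lit 56522491872) (nat_lit 76) (nat_lit 4625151418) (nat_lit 76) (nat_lit 4184644010) (nat_lit 4) (nat_lit 4) (nat_lit 5) (nat_lit 5) (nat_lit 5) (nat_lit 4) (nat_lit 343) (nat_lit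 220) (nat_lit 217))))) (XT.nd (nat_lit 156) (nat_lit 0) (nat_lit 0) (XT.nd (nat_lit 78) (nat_lit 152) (nat_lit 0) (XT.lf (nat_lit 0) (nat_lit 65367416517) (nat_lit 76) (nat_lit 1823368980) (nat_lit 76) (nat_lit 1249782788) (nat_lit 4) (nat_lit 4) (nat_lit 5) (nat_lit 5) (nat_lit 5) (nat_lit 4) (nat_lit 344) (nat_lit 220) (nat_lit 216)) (XT.lf (nat_lit 0) (nat_lit 1738991276) (nat_lit 152) (nat_lit 68893567002) (nat_lit 0) (nat_lit 1072012332) (nat_lit 2) (nat_lit 5) (nat_lit 4) (nat_lit 4) (nat_lit 2) (nat_lit 4) (nat_lit 345) (nat_lit 220) (nat_lit 215))) (XT.nd (nat_lit 78) (nat_lit 0) (nat_lit 0) (XT.lf (nat_lit 0) (nat_lit 4822726842) (nat_lit 152) (nat_lit 66267882132) (nat_lit 0) (nat_lit 4040789441) (nat_lit 2) (nat_lit 5) (nat_lit 4) (nat_lit 4) (nat_lit 2) (nat_lit 4) (nat_lit 346) (nat_lit 220) (nat_lit 214)) (XT.nd (nat_lit 78) (nat_lit 0) (nat_lit 0) (XT.lf (nat_lit 0) (nat_lit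 7969919554) (nat_lit 152) (nat_lit 63685711355) (nat_lit 0) (nat_lit 7078497909) (nat_lit 2) (nat_lit 5) (nat_lit 4) (nat_lit 4) (nat_lit 2) (nat_lit 4) (nat_lit 347) (nat_lit 220) (nat_lit 213)) (XT.lf (nat_lit 0) (nat_lit 11188062729) (nat_lit 152) (nat_lit 61140906644) (nat_lit 0) (nat_lit 10192370374) (nat_lit 2) (nat_lit 5) (nat_lit 4) (nat_lit 4) (nat_lit 2) (nat_lit 4) (nat_lit 348) (nat_lit 220) (nat_lit 212))))))) (XT.nd (nat_lit 780) (nat_lit 0) (nat_lit 0) (XT.nd (nat_lit 390) (nat_lit 0) (nat_lit 0) (XT.nd (nat_lit 156) (nat_lit 0) (nat_lit 0) (XT.nd (nat_lit 78) (nat_lit 0) (nat_lit 0) (XT.lf (nat_lit 0) (nat_lit 14484818611) (nat_lit 152) (nat_lit 58627408942) (nat_lit 0) (nat_lit 13389820820) (nat_lit 2) (nat_lit 5) (nat_lit 4) (nat_lit 4) (nat_lit 2) (nat_lit 4) (nat_lit 349) (nat_lit 220) (nat_lit 211)) (XT.lf (nat_lit 0) (nat_lit 17868036621) (nat_lit 152) (nat_lit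 56139233729) (nat_lit 0) (nat_lit 16678462222) (nat_lit 2) (nat_lit 5) (nat_lit 4) (nat_lit 4) (nat_lit 2) (nat_lit 4) (nat_lit 350) (nat_lit 220) (nat_lit 210))) (XT.nd (nat_lit 78) (nat_lit 0) (nat_lit 0) (XT.lf (nat_lit 0) (nat_lit 21345772038) (nat_lit 152) (nat_lit 53670456778) (nat_lit 0) (nat_lit 20066124680) (nat_lit 2) (nat_lit 5) (nat_lit 4) (nat_lit 4) (nat_lit 2) (nat_lit 4) (nat_lit 351) (nat_lit 220) (nat_lit 209)) (XT.nd (nat_lit 78) (nat_lit 0) (nat_lit 0) (XT.lf (nat_lit 0) (nat_lit 24926305185) (nat_lit 152) (nat_lit 51215200050) (nat_lit 0) (nat_lit 23560874057) (nat_lit 2) (nat_lit 5) (nat_lit 4) (nat_lit 4) (nat_lit 2) (nat_lit 4) (nat_lit 352) (nat_lit 220) (nat_lit 208)) (XT.lf (nat_lit 0) (nat_lit 28618161141) (nat_lit 152) (nat_lit 48767617696) (nat_lit 0) (nat_lit 27171031185) (nat_lit 2) (nat_lit 5) (nat_lit 4) (nat_lit 4) (nat_lit 2) (nat_lit 4) (nat_lit 353)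 (nat_lit 220) (nat_lit 207))))) (XT.nd (nat_lit 156) (nat_lit 0) (nat_lit 0) (XT.nd (nat_lit 78) (nat_lit 0) (nat_lit 0) (XT.lf (nat_lit 0) (nat_lit 32430130040) (nat_lit 152) (nat_lit 46321882137) (nat_lit 0) (nat_lit 30905191675) (nat_lit 2) (nat_lit 5) (nat_lit 4) (nat_lit 4) (nat_lit 2) (nat_lit 4) (nat_lit 354) (nat_lit 220) (nat_lit 206)) (XT.lf (nat_lit 0) (nat_lit 36371287997) (nat_lit 152) (nat_lit 43872170194) (nat_lit 0) (nat_lit 34772246386) (nat_lit 2) (nat_lit 5) (nat_lit 4) (nat_lit 4) (nat_lit 2) (nat_lit 4) (nat_lit 355) (nat_lit 220) (nat_lit 205))) (XT.nd (nat_lit 78) (nat_lit 0) (nat_lit 0) (XT.lf (nat_lit 0) (nat_lit 40451018723) (nat_lit 152) (nat_lit 41412649220) (nat_lit 0) (nat_lit 38781402591) (nat_lit 2) (nat_lit 5) (nat_lit 4) (nat_lit 4) (nat_lit 2) (nat_lit 4) (nat_lit 356) (nat_lit 220) (nat_lit 204)) (XT.nd (nat_lit 78) (nat_lit 0) (nat_lit 0) (XT.lf (nat_lit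 0) (nat_lit 44679035861) (nat_lit 152) (nat_lit 38937463213) (nat_lit 0) (nat_lit 42942205900) (nat_lit 2) (nat_lit 5) (nat_lit 4) (nat_lit 4) (nat_lit 2) (nat_lit 4) (nat_lit 357) (nat_lit 220) (nat_lit 203)) (XT.lf (nat_lit 0) (nat_lit 49065406120) (nat_lit 152) (nat_lit 36440718871) (nat_lit 0) (nat_lit 47264562989) (nat_lit 2) (nat_lit 5) (nat_lit 4) (nat_lit 4) (nat_lit 2) (nat_lit 4) (nat_lit 358) (nat_lit 220) (nat_lit 202)))))) (XT.nd (nat_lit 390) (nat_lit 0) (nat_lit 0) (XT.nd (nat_lit 156) (nat_lit 0) (nat_lit 0) (XT.nd (nat_lit 78) (nat_lit 0) (nat_lit 0) (XT.lf (nat_lit 0) (nat_lit 53620573237) (nat_lit 152) (nat_lit 33916471567) (nat_lit 0) (nat_lit 51758765182) (nat_lit 2) (nat_lit 5) (nat_lit 4) (nat_lit 4) (nat_lit 2) (nat_lit 4) (nat_lit 359) (nat_lit 220) (nat_lit 201)) (XT.lf (nat_lit 0) (nat_lit 58355382849) (nat_lit 152) (nat_lit 31358711187) (nat_lit 0) (nat_lit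 56435512962) (nat_lit 2) (nat_lit 5) (nat_lit 4) (nat_lit 4) (nat_lit 2) (nat_lit 4) (nat_lit 360) (nat_lit 220) (nat_lit 200))) (XT.nd (nat_lit 78) (nat_lit 0) (nat_lit 0) (XT.lf (nat_lit 0) (nat_lit 63281108313) (nat_lit 152) (nat_lit 28761347826) (nat_lit 0) (nat_lit 61305941442) (nat_lit 2) (nat_lit 5) (nat_lit 4) (nat_lit 4) (nat_lit 2) (nat_lit 4) (nat_lit 361) (nat_lit 220) (nat_lit 199)) (XT.nd (nat_lit 78) (nat_lit 0) (nat_lit 0) (XT.lf (nat_lit 0) (nat_lit 68409477545) (nat_lit 152) (nat_lit 26118197284) (nat_lit 0) (nat_lit 66381646881) (nat_lit 2) (nat_lit 5) (nat_lit 4) (nat_lit 4) (nat_lit 2) (nat_lit 4) (nat_lit 362) (nat_lit 220) (nat_lit 198)) (XT.lf (nat_lit 0) (nat_lit 73752700949) (nat_lit 152) (nat_lit 23422966348) (nat_lit 0) (nat_lit 71674714291) (nat_lit 2) (nat_lit 5) (nat_lit 4) (nat_lit 4) (nat_lit 2) (nat_lit 4) (nat_lit 363) (nat_lit 220) (nat_lit 197)))))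 (XT.nd (nat_lit 234) (nat_lit 0) (nat_lit 0) (XT.nd (nat_lit 78) (nat_lit 0) (nat_lit 0) (XT.lf (nat_lit 0) (nat_lit 79323500486) (nat_lit 152) (nat_lit 20669237799) (nat_lit 0) (nat_lit 77197746214) (nat_lit 2) (nat_lit 5) (nat_lit 4) (nat_lit 4) (nat_lit 2) (nat_lit 4) (nat_lit 364) (nat_lit 220) (nat_lit 196)) (XT.nd (nat_lit 78) (nat_lit 0) (nat_lit 0) (XT.lf (nat_lit 0) (nat_lit 85135139963) (nat_lit 152) (nat_lit 17850455142) (nat_lit 0) (nat_lit 82963892726) (nat_lit 2) (nat_lit 5) (nat_lit 4) (nat_lit 4) (nat_lit 2) (nat_lit 4) (nat_lit 365) (nat_lit 220) (nat_lit 195)) (XT.lf (nat_lit 0) (nat_lit 91201456618) (nat_lit 152) (nat_lit 14959906990) (nat_lit 0) (nat_lit 88986882748) (nat_lit 2) (nat_lit 5) (nat_lit 4) (nat_lit 4) (nat_lit 2) (nat_lit 4) (nat_lit 366) (nat_lit 220) (nat_lit 194)))) (XT.nd (nat_lit 78) (nat_lit 0) (nat_lit 0) (XT.lf (nat_lit 0) (nat_lit 97536894061)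 (nat_lit 152) (nat_lit 11990711084) (nat_lit 0) (nat_lit 95281056731) (nat_lit 2) (nat_lit 5) (nat_lit 4) (nat_lit 4) (nat_lit 2) (nat_lit 4) (nat_lit 367) (nat_lit 220) (nat_lit 193)) (XT.nd (nat_lit 78) (nat_lit 0) (nat_lit 0) (XT.lf (nat_lit 0) (nat_lit 104156536668) (nat_lit 152) (nat_lit 8935797910) (nat_lit 0) (nat_lit 101861400804) (nat_lit 2) (nat_lit 5) (nat_lit 4) (nat_lit 4) (nat_lit 2) (nat_lit 4) (nat_lit 368) (nat_lit 220) (nat_lit 192)) (XT.lf (nat_lit 0) (nat_lit 111076145493) (nat_lit 152) (nat_lit 5787893867) (nat_lit 0) (nat_lit 108743582454) (nat_lit 2) (nat_lit 5) (nat_lit 4) (nat_lit 4) (nat_lit 2) (nat_lit 4) (nat_lit 369) (nat_lit 220) (nat_lit 191))))))))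
noncomputable def xc18 : XT := (XT.nd (nat_lit 1560) (nat_lit 0) (nat_lit 0) (XT.nd (nat_lit 780) (nat_lit 0) (nat_lit 0) (XT.nd (nat_lit 390) (nat_lit 0) (nat_lit 0) (XT.nd (nat_lit 156) (nat_lit 0) (nat_lit 0) (XT.nd (nat_lit 78) (nat_lit 76) (nat_lit 0) (XT.lf (nat_lit 0) (nat_lit 118312195794) (nat_lit 152) (nat_lit 2539503944) (nat_lit 0) (nat_lit 115943987826) (nat_lit 2) (nat_lit 5) (nat_lit 4) (nat_lit 4) (nat_lit 2) (nat_lit 4) (nat_lit 370) (nat_lit 220) (nat_lit 190)) (XT.lf (nat_lit 0) (nat_lit 844123338) (nat_lit 76) (nat_lit 125050972055) (nat_lit 76) (nat_lit 122648816536) (nat_lit 1) (nat_lit 4) (nat_lit 2) (nat_lit 5) (nat_lit 2) (nat_lit 4) (nat_lit 371) (nat_lit 220) (nat_lit 189))) (XT.nd (nat_lit 78) (nat_lit 0) (nat_lit 0) (XT.lf (nat_lit 0) (nat_lit 4431772656) (nat_lit 76) (nat_lit 129440749777) (nat_lit 76) (nat_lit 127006263257) (nat_lit 1) (nat_lit 4) (nat_lit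 2) (nat_lit 5) (nat_lit 2) (nat_lit 4) (nat_lit 372) (nat_lit 220) (nat_lit 188)) (XT.nd (nat_lit 78) (nat_lit 0) (nat_lit 0) (XT.lf (nat_lit 0) (nat_lit 8148018563) (nat_lit 76) (nat_lit 134074492485) (nat_lit 76) (nat_lit 131609214536) (nat_lit 1) (nat_lit 4) (nat_lit 2) (nat_lit 5) (nat_lit 2) (nat_lit 4) (nat_lit 373) (nat_lit 220) (nat_lit 187)) (XT.lf (nat_lit 0) (nat_lit 12001709262) (nat_lit 76) (nat_lit 138963232899) (nat_lit 76) (nat_lit 136468629779) (nat_lit 1) (nat_lit 4) (nat_lit 2) (nat_lit 5) (nat_lit 2) (nat_lit 4) (nat_lit 374) (nat_lit 220) (nat_lit 186))))) (XT.nd (nat_lit 156) (nat_lit 0) (nat_lit 0) (XT.nd (nat_lit 78) (nat_lit 0) (nat_lit 0) (XT.lf (nat_lit 0) (nat_lit 16002020208) (nat_lit 76) (nat_lit 144118610877) (nat_lit 76) (nat_lit 141596079023) (nat_lit 1) (nat_lit 4) (nat_lit 2) (nat_lit 5) (nat_lit 2) (nat_lit 4) (nat_lit 375) (nat_lit 220) (nat_lit 185))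 (XT.lf (nat_lit 0) (nat_lit 20158475951) (nat_lit 76) (nat_lit 149552901129) (nat_lit 76) (nat_lit 147003770481) (nat_lit 1) (nat_lit 4) (nat_lit 2) (nat_lit 5) (nat_lit 2) (nat_lit 4) (nat_lit 376) (nat_lit 220) (nat_lit 184))) (XT.nd (nat_lit 78) (nat_lit 0) (nat_lit 0) (XT.lf (nat_lit 0) (nat_lit 24480972813) (nat_lit 76) (nat_lit 155279042442) (nat_lit 76) (nat_lit 152704579608) (nat_lit 1) (nat_lit 4) (nat_lit 2) (nat_lit 5) (nat_lit 2) (nat_lit 4) (nat_lit 377) (nat_lit 220) (nat_lit 183)) (XT.nd (nat_lit 78) (nat_lit 0) (nat_lit 0) (XT.lf (nat_lit 0) (nat_lit 28979802455) (nat_lit 76) (nat_lit 161310668484) (nat_lit 76) (nat_lit 158712079760) (nat_lit 1) (nat_lit 4) (nat_lit 2) (nat_lit 5) (nat_lit 2) (nat_lit 4) (nat_lit 378) (nat_lit 220) (nat_lit 182)) (XT.lf (nat_lit 0) (nat_lit 33665676375) (nat_lit 76) (nat_lit 167662140271) (nat_lit 76) (nat_lit 165040574508) (nat_lit 1)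 (nat_lit 4) (nat_lit 2) (nat_lit 5) (nat_lit 2) (nat_lit 4) (nat_lit 379) (nat_lit 220) (nat_lit 181)))))) (XT.nd (nat_lit 390) (nat_lit 0) (nat_lit 0) (XT.nd (nat_lit 156) (nat_lit 0) (nat_lit 0) (XT.nd (nat_lit 78) (nat_lit 0) (nat_lit 0) (XT.lf (nat_lit 0) (nat_lit 38549751416) (nat_lit 76) (nat_lit 174348580354) (nat_lit 76) (nat_lit 171705131697) (nat_lit 1) (nat_lit 4) (nat_lit 2) (nat_lit 5) (nat_lit 2) (nat_lit 4) (nat_lit 380) (nat_lit 220) (nat_lit 180)) (XT.lf (nat_lit 0) (nat_lit 43643656328) (nat_lit 76) (nat_lit 181385908829) (nat_lit 76) (nat_lit 178721619321) (nat_lit 1) (nat_lit 4) (nat_lit 2) (nat_lit 5) (nat_lit 2) (nat_lit 4) (nat_lit 381) (nat_lit 220) (nat_lit 179))) (XT.nd (nat_lit 78) (nat_lit 0) (nat_lit 0) (XT.lf (nat_lit 0) (nat_lit 48959519455) (nat_lit 76) (nat_lit 188790881239) (nat_lit 76) (nat_lit 186106743301) (nat_lit 1) (nat_lit 4) (nat_lit 2) (nat_lit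 5) (nat_lit 2) (nat_lit 4) (nat_lit 382) (nat_lit 220) (nat_lit 178)) (XT.nd (nat_lit 78) (nat_lit 0) (nat_lit 0) (XT.lf (nat_lit 0) (nat_lit 54509997616) (nat_lit 76) (nat_lit 196581128472) (nat_lit 76) (nat_lit 193878087267) (nat_lit 1) (nat_lit 4) (nat_lit 2) (nat_lit 5) (nat_lit 2) (nat_lit 4) (nat_lit 383) (nat_lit 220) (nat_lit 177)) (XT.lf (nat_lit 0) (nat_lit 60308306234) (nat_lit 76) (nat_lit 204775198735) (nat_lit 76) (nat_lit 202054154419) (nat_lit 1) (nat_lit 4) (nat_lit 2) (nat_lit 5) (nat_lit 2) (nat_lit 4) (nat_lit 384) (nat_lit 220) (nat_lit 176))))) (XT.nd (nat_lit 156) (nat_lit 0) (nat_lit 0) (XT.nd (nat_lit 78) (nat_lit 0) (nat_lit 0) (XT.lf (nat_lit 0) (nat_lit 66368250806) (nat_lit 76) (nat_lit 213392601719) (nat_lit 76) (nat_lit 210654411583) (nat_lit 1) (nat_lit 4) (nat_lit 2) (nat_lit 5) (nat_lit 2) (nat_lit 4) (nat_lit 385) (nat_lit 220) (nat_lit 175)) (XT.lf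 (nat_lit 0) (nat_lit 72704259771) (nat_lit 76) (nat_lit 222453855050) (nat_lit 76) (nat_lit 219699335562) (nat_lit 1) (nat_lit 4) (nat_lit 2) (nat_lit 5) (nat_lit 2) (nat_lit 4) (nat_lit 386) (nat_lit 220) (nat_lit 174))) (XT.nd (nat_lit 78) (nat_lit 0) (nat_lit 0) (XT.lf (nat_lit 0) (nat_lit 79331418866) (nat_lit 76) (nat_lit 231980533142) (nat_lit 76) (nat_lit 229210461889) (nat_lit 1) (nat_lit 4) (nat_lit 2) (nat_lit 5) (nat_lit 2) (nat_lit 4) (nat_lit 387) (nat_lit 220) (nat_lit 173)) (XT.nd (nat_lit 78) (nat_lit 0) (nat_lit 0) (XT.lf (nat_lit 0) (nat_lit 86265507039) (nat_lit 76) (nat_lit 241995318560) (nat_lit 76) (nat_lit 239210436103) (nat_lit 1) (nat_lit 4) (nat_lit 2) (nat_lit 5) (nat_lit 2) (nat_lit 4) (nat_lit 388) (nat_lit 220) (nat_lit 172)) (XT.lf (nat_lit 0) (nat_lit 93523034026) (nat_lit 76) (nat_lit 252522056032) (nat_lit 76) (nat_lit 249723067667) (nat_lit 1) (nat_lit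 4) (nat_lit 2) (nat_lit 5) (nat_lit 2) (nat_lit 4) (nat_lit 389) (nat_lit 220) (nat_lit 171))))))) (XT.nd (nat_lit 37050) (nat_lit 0) (nat_lit 76) (XT.nd (nat_lit 36660) (nat_lit 0) (nat_lit 228) (XT.nd (nat_lit 156) (nat_lit 0) (nat_lit 0) (XT.nd (nat_lit 78) (nat_lit 0) (nat_lit 0) (XT.lf (nat_lit 0) (nat_lit 101121279651) (nat_lit 76) (nat_lit 263585809219) (nat_lit 76) (nat_lit 260773386655) (nat_lit 1) (nat_lit 4) (nat_lit 2) (nat_lit 5) (nat_lit 2) (nat_lit 4) (nat_lit 390) (nat_lit 220) (nat_lit 170)) (XT.lf (nat_lit 0) (nat_lit 109078334977) (nat_lit 76) (nat_lit 275212920390) (nat_lit 76) (nat_lit 272387703352) (nat_lit 1) (nat_lit 4) (nat_lit 2) (nat_lit 5) (nat_lit 2) (nat_lit 4) (nat_lit 391) (nat_lit 220) (nat_lit 169))) (XT.nd (nat_lit 78) (nat_lit 0) (nat_lit 0) (XT.lf (nat_lit 0) (nat_lit 117413145372) (nat_lit 76) (nat_lit 287431073144) (nat_lit 76) (nat_lit 284593670891)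 (nat_lit 1) (nat_lit 4) (nat_lit 2) (nat_lit 5) (nat_lit 2) (nat_lit 4) (nat_lit 392) (nat_lit 220) (nat_lit 168)) (XT.nd (nat_lit 36348) (nat_lit 0) (nat_lit 228) (XT.lf (nat_lit 0) (nat_lit 126145555624) (nat_lit 76) (nat_lit 300269358319) (nat_lit 76) (nat_lit 297420351100) (nat_lit 1) (nat_lit 4) (nat_lit 2) (nat_lit 5) (nat_lit 2) (nat_lit 4) (nat_lit 393) (nat_lit 220) (nat_lit 167)) (XT.lf (nat_lit 0) (nat_lit 7813351001) (nat_lit 76) (nat_lit 9079200490) (nat_lit 76) (nat_lit 9079200490) (nat_lit 4) (nat_lit 4) (nat_lit 5) (nat_lit 5) (nat_lit 5) (nat_lit 4) (nat_lit 338) (nat_lit 221) (nat_lit 221))))) (XT.nd (nat_lit 156) (nat_lit 0) (nat_lit 0) (XT.nd (nat_lit 78) (nat_lit 0) (nat_lit 0) (XT.lf (nat_lit 0) (nat_lit 23353133640) (nat_lit 76) (nat_lit 15583301322) (nat_lit 76) (nat_lit 15421543229) (nat_lit 4) (nat_lit 4) (nat_lit 5) (nat_lit 5) (nat_lit 5) (nat_lit 4) (nat_lit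 339) (nat_lit 221) (nat_lit 220)) (XT.lf (nat_lit 0) (nat_lit 31247185662) (nat_lit 76) (nat_lit 12983778572) (nat_lit 76) (nat_lit 12667965152) (nat_lit 4) (nat_lit 4) (nat_lit 5) (nat_lit 5) (nat_lit 5) (nat_lit 4) (nat_lit 340) (nat_lit 221) (nat_lit 219))) (XT.nd (nat_lit 78) (nat_lit 0) (nat_lit 0) (XT.lf (nat_lit 0) (nat_lit 39327653431) (nat_lit 76) (nat_lit 10353643390) (nat_lit 76) (nat_lit 9891110611) (nat_lit 4) (nat_lit 4) (nat_lit 5) (nat_lit 5) (nat_lit 5) (nat_lit 4) (nat_lit 341) (nat_lit 221) (nat_lit 218)) (XT.nd (nat_lit 78) (nat_lit 0) (nat_lit 0) (XT.lf (nat_lit 0) (nat_lit 47613776157) (nat_lit 76) (nat_lit 7686633550) (nat_lit 76) (nat_lit 7084368048) (nat_lit 4) (nat_lit 4) (nat_lit 5) (nat_lit 5) (nat_lit 5) (nat_lit 4) (nat_lit 342) (nat_lit 221) (nat_lit 217)) (XT.lf (nat_lit 0) (nat_lit 56125282702) (nat_lit 76) (nat_lit 4976399027) (nat_lit 76) (nat_lit 4241054742)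 (nat_lit 4) (nat_lit 4) (nat_lit 5) (nat_lit 5) (nat_lit 5) (nat_lit 4) (nat_lit 343) (nat_lit 221) (nat_lit 216)))))) (XT.nd (nat_lit 390) (nat_lit 0) (nat_lit 0) (XT.nd (nat_lit 156) (nat_lit 0) (nat_lit 0) (XT.nd (nat_lit 78) (nat_lit 152) (nat_lit 0) (XT.lf (nat_lit 0) (nat_lit 64882438559) (nat_lit 76) (nat_lit 2216486884) (nat_lit 76) (nat_lit 1354400900) (nat_lit 4) (nat_lit 4) (nat_lit 5) (nat_lit 5) (nat_lit 5) (nat_lit 4) (nat_lit 344) (nat_lit 221) (nat_lit 215)) (XT.lf (nat_lit 0) (nat_lit 1576953042) (nat_lit 152) (nat_lit 69502548071) (nat_lit 0) (nat_lit 640960315) (nat_lit 2) (nat_lit 5) (nat_lit 4) (nat_lit 4) (nat_lit 2) (nat_lit 4) (nat_lit 345) (nat_lit 221) (nat_lit 214))) (XT.nd (nat_lit 78) (nat_lit 0) (nat_lit 0) (XT.lf (nat_lit 0) (nat_lit 4616430251) (nat_lit 152) (nat_lit 66962130682) (nat_lit 0) (nat_lit 3570953279) (nat_lit 2) (nat_lit 5) (nat_lit 4) (nat_lit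 4) (nat_lit 2) (nat_lit 4) (nat_lit 346) (nat_lit 221) (nat_lit 213)) (XT.nd (nat_lit 78) (nat_lit 0) (nat_lit 0) (XT.lf (nat_lit 0) (nat_lit 7721472147) (nat_lit 152) (nat_lit 64461167030) (nat_lit 0) (nat_lit 6571724466) (nat_lit 2) (nat_lit 5) (nat_lit 4) (nat_lit 4) (nat_lit 2) (nat_lit 4) (nat_lit 347) (nat_lit 221) (nat_lit 212)) (XT.lf (nat_lit 0) (nat_lit 10899471688) (nat_lit 152) (nat_lit 61993702438) (nat_lit 0) (nat_lit 9650418569) (nat_lit 2) (nat_lit 5) (nat_lit 4) (nat_lit 4) (nat_lit 2) (nat_lit 4) (nat_lit 348) (nat_lit 221) (nat_lit 211))))) (XT.nd (nat_lit 234) (nat_lit 0) (nat_lit 0) (XT.nd (nat_lit 78) (nat_lit 0) (nat_lit 0) (XT.lf (nat_lit 0) (nat_lit 14157995537) (nat_lit 152) (nat_lit 59553861991) (nat_lit 0) (nat_lit 12814365812) (nat_lit 2) (nat_lit 5) (nat_lit 4) (nat_lit 4) (nat_lit 2) (nat_lit 4) (nat_lit 349) (nat_lit 221) (nat_lit 210)) (XT.nd (nat_lit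 78) (nat_lit 0) (nat_lit 0) (XT.lf (nat_lit 0) (nat_lit 17504802087) (nat_lit 152) (nat_lit 57135836546) (nat_lit 0) (nat_lit 16071099403) (nat_lit 2) (nat_lit 5) (nat_lit 4) (nat_lit 4) (nat_lit 2) (nat_lit 4) (nat_lit 350) (nat_lit 221) (nat_lit 209)) (XT.lf (nat_lit 0) (nat_lit 20947859923) (nat_lit 152) (nat_lit 54733868898) (nat_lit 0) (nat_lit 19428373468) (nat_lit 2) (nat_lit 5) (nat_lit 4) (nat_lit 4) (nat_lit 2) (nat_lit 4) (nat_lit 351) (nat_lit 221) (nat_lit 208)))) (XT.nd (nat_lit 78) (nat_lit 0) (nat_lit 0) (XT.lf (nat_lit 0) (nat_lit 24495366803) (nat_lit 152) (nat_lit 52342240077) (nat_lit 0) (nat_lit 22894181519) (nat_lit 2) (nat_lit 5) (nat_lit 4) (nat_lit 4) (nat_lit 2) (nat_lit 4) (nat_lit 352) (nat_lit 221) (nat_lit 207)) (XT.nd (nat_lit 78) (nat_lit 0) (nat_lit 0) (XT.lf (nat_lit 0) (nat_lit 28155769171) (nat_lit 152) (nat_lit 49955255729) (nat_lit 0) (nat_lit 26476775479)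 (nat_lit 2) (nat_lit 5) (nat_lit 4) (nat_lit 4) (nat_lit 2) (nat_lit 4) (nat_lit 353) (nat_lit 221) (nat_lit 206)) (XT.lf (nat_lit 0) (nat_lit 31937782272) (nat_lit 152) (nat_lit 47567232557) (nat_lit 0) (nat_lit 30184685333) (nat_lit 2) (nat_lit 5) (nat_lit 4) (nat_lit 4) (nat_lit 2) (nat_lit 4) (nat_lit 354) (nat_lit 221) (nat_lit 205))))))))
noncomputable def xc19 : XT := (XT.nd (nat_lit 1638) (nat_lit 0) (nat_lit 0) (XT.nd (nat_lit 780) (nat_lit 76) (nat_lit 0) (XT.nd (nat_lit 390) (nat_lit 0) (nat_lit 0) (XT.nd (nat_lit 156) (nat_lit 0) (nat_lit 0) (XT.nd (nat_lit 78) (nat_lit 0) (nat_lit 0) (XT.lf (nat_lit 0) (nat_lit 35850410897) (nat_lit 152) (nat_lit 45172484793) (nat_lit 0) (nat_lit 34026739439) (nat_lit 2) (nat_lit 5) (nat_lit 4) (nat_lit 4) (nat_lit 2) (nat_lit 4) (nat_lit 355) (nat_lit 221) (nat_lit 204)) (XT.lf (nat_lit 0) (nat_lit 39902970831) (nat_lit 152) (nat_lit 42765310656)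 (nat_lit 0) (nat_lit 38012085543) (nat_lit 2) (nat_lit 5) (nat_lit 4) (nat_lit 4) (nat_lit 2) (nat_lit 4) (nat_lit 356) (nat_lit 221) (nat_lit 203))) (XT.nd (nat_lit 78) (nat_lit 0) (nat_lit 0) (XT.lf (nat_lit 0) (nat_lit 44105111025) (nat_lit 152) (nat_lit 40339978778) (nat_lit 0) (nat_lit 42150212567) (nat_lit 2) (nat_lit 5) (nat_lit 4) (nat_lit 4) (nat_lit 2) (nat_lit 4) (nat_lit 357) (nat_lit 221) (nat_lit 202)) (XT.nd (nat_lit 78) (nat_lit 0) (nat_lit 0) (XT.lf (nat_lit 0) (nat_lit 48466836574) (nat_lit 152) (nat_lit 37890714561) (nat_lit 0) (nat_lit 46450973192) (nat_lit 2) (nat_lit 5) (nat_lit 4) (nat_lit 4) (nat_lit 2) (nat_lit 4) (nat_lit 358) (nat_lit 221) (nat_lit 201)) (XT.lf (nat_lit 0) (nat_lit 52998532539) (nat_lit 152) (nat_lit 35411686422) (nat_lit 0) (nat_lit 50924607325) (nat_lit 2) (nat_lit 5) (nat_lit 4) (nat_lit 4) (nat_lit 2) (nat_lit 4) (nat_lit 359) (nat_lit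 221) (nat_lit 200))))) (XT.nd (nat_lit 156) (nat_lit 0) (nat_lit 0) (XT.nd (nat_lit 78) (nat_lit 0) (nat_lit 0) (XT.lf (nat_lit 0) (nat_lit 57710988674) (nat_lit 152) (nat_lit 32896991914) (nat_lit 0) (nat_lit 55581766476) (nat_lit 2) (nat_lit 5) (nat_lit 4) (nat_lit 4) (nat_lit 2) (nat_lit 4) (nat_lit 360) (nat_lit 221) (nat_lit 199)) (XT.lf (nat_lit 0) (nat_lit 62615425111) (nat_lit 152) (nat_lit 30340643669) (nat_lit 0) (nat_lit 60433539120) (nat_lit 2) (nat_lit 5) (nat_lit 4) (nat_lit 4) (nat_lit 2) (nat_lit 4) (nat_lit 361) (nat_lit 221) (nat_lit 198))) (XT.nd (nat_lit 78) (nat_lit 0) (nat_lit 0) (XT.lf (nat_lit 0) (nat_lit 67723519080) (nat_lit 152) (nat_lit 27736555143) (nat_lit 0) (nat_lit 65491477095) (nat_lit 2) (nat_lit 5) (nat_lit 4) (nat_lit 4) (nat_lit 2) (nat_lit 4) (nat_lit 362) (nat_lit 221) (nat_lit 197)) (XT.nd (nat_lit 78) (nat_lit 0) (nat_lit 0) (XT.lf (nat_lit 0)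 (nat_lit 73047432710) (nat_lit 152) (nat_lit 25078526126) (nat_lit 0) (nat_lit 70767623111) (nat_lit 2) (nat_lit 5) (nat_lit 4) (nat_lit 4) (nat_lit 2) (nat_lit 4) (nat_lit 363) (nat_lit 221) (nat_lit 196)) (XT.lf (nat_lit 0) (nat_lit 78599841985) (nat_lit 152) (nat_lit 22360227977) (nat_lit 0) (nat_lit 76274539421) (nat_lit 2) (nat_lit 5) (nat_lit 4) (nat_lit 4) (nat_lit 2) (nat_lit 4) (nat_lit 364) (nat_lit 221) (nat_lit 195)))))) (XT.nd (nat_lit 390) (nat_lit 76) (nat_lit 0) (XT.nd (nat_lit 156) (nat_lit 0) (nat_lit 0) (XT.nd (nat_lit 78) (nat_lit 0) (nat_lit 0) (XT.lf (nat_lit 0) (nat_lit 84393966927) (nat_lit 152) (nat_lit 19575188558) (nat_lit 0) (nat_lit 82025337730) (nat_lit 2) (nat_lit 5) (nat_lit 4) (nat_lit 4) (nat_lit 2) (nat_lit 4) (nat_lit 365) (nat_lit 221) (nat_lit 194)) (XT.lf (nat_lit 0) (nat_lit 90443603073) (nat_lit 152) (nat_lit 16716776822) (nat_lit 0) (nat_lit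 88033710415) (nat_lit 2) (nat_lit 5) (nat_lit 4) (nat_lit 4) (nat_lit 2) (nat_lit 4) (nat_lit 366) (nat_lit 221) (nat_lit 193))) (XT.nd (nat_lit 78) (nat_lit 0) (nat_lit 0) (XT.lf (nat_lit 0) (nat_lit 96763154317) (nat_lit 152) (nat_lit 13778187027) (nat_lit 0) (nat_lit 94313963126) (nat_lit 2) (nat_lit 5) (nat_lit 4) (nat_lit 4) (nat_lit 2) (nat_lit 4) (nat_lit 367) (nat_lit 221) (nat_lit 192)) (XT.nd (nat_lit 78) (nat_lit 0) (nat_lit 0) (XT.lf (nat_lit 0) (nat_lit 103367667210) (nat_lit 152) (nat_lit 10752422531) (nat_lit 0) (nat_lit 100881048844) (nat_lit 2) (nat_lit 5) (nat_lit 4) (nat_lit 4) (nat_lit 2) (nat_lit 4) (nat_lit 368) (nat_lit 221) (nat_lit 191)) (XT.lf (nat_lit 0) (nat_lit 110272866783) (nat_lit 152) (nat_lit 7632279133) (nat_lit 0) (nat_lit 107750603489) (nat_lit 2) (nat_lit 5) (nat_lit 4) (nat_lit 4) (nat_lit 2) (nat_lit 4) (nat_lit 369) (nat_lit 221) (nat_lit 190)))))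 (XT.nd (nat_lit 234) (nat_lit 0) (nat_lit 0) (XT.nd (nat_lit 78) (nat_lit 76) (nat_lit 0) (XT.lf (nat_lit 0) (nat_lit 117495193988) (nat_lit 152) (nat_lit 4410327919) (nat_lit 0) (nat_lit 114938983143) (nat_lit 2) (nat_lit 5) (nat_lit 4) (nat_lit 4) (nat_lit 2) (nat_lit 4) (nat_lit 370) (nat_lit 221) (nat_lit 189)) (XT.nd (nat_lit 78) (nat_lit 76) (nat_lit 0) (XT.lf (nat_lit 0) (nat_lit 125051844841) (nat_lit 152) (nat_lit 1078897578) (nat_lit 0) (nat_lit 122463302995) (nat_lit 2) (nat_lit 5) (nat_lit 4) (nat_lit 4) (nat_lit 2) (nat_lit 4) (nat_lit 371) (nat_lit 221) (nat_lit 188)) (XT.lf (nat_lit 0) (nat_lit 2448304914) (nat_lit 76) (nat_lit 130550731355) (nat_lit 76) (nat_lit 127931398080) (nat_lit 1) (nat_lit 4) (nat_lit 2) (nat_lit 5) (nat_lit 2) (nat_lit 4) (nat_lit 372) (nat_lit 221) (nat_lit 187)))) (XT.nd (nat_lit 78) (nat_lit 0) (nat_lit 0) (XT.lf (nat_lit 0) (nat_lit 6140956916)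 (nat_lit 76) (nat_lit 135195845073) (nat_lit 76) (nat_lit 132547186627) (nat_lit 1) (nat_lit 4) (nat_lit 2) (nat_lit 5) (nat_lit 2) (nat_lit 4) (nat_lit 373) (nat_lit 221) (nat_lit 186)) (XT.nd (nat_lit 78) (nat_lit 0) (nat_lit 0) (XT.lf (nat_lit 0) (nat_lit 9972177231) (nat_lit 76) (nat_lit 140095415021) (nat_lit 76) (nat_lit 137418827840) (nat_lit 1) (nat_lit 4) (nat_lit 2) (nat_lit 5) (nat_lit 2) (nat_lit 4) (nat_lit 374) (nat_lit 221) (nat_lit 185)) (XT.lf (nat_lit 0) (nat_lit 13951087811) (nat_lit 76) (nat_lit 145261106841) (nat_lit 76) (nat_lit 142557920866) (nat_lit 1) (nat_lit 4) (nat_lit 2) (nat_lit 5) (nat_lit 2) (nat_lit 4) (nat_lit 375) (nat_lit 221) (nat_lit 184))))))) (XT.nd (nat_lit 780) (nat_lit 0) (nat_lit 0) (XT.nd (nat_lit 390) (nat_lit 0) (nat_lit 0) (XT.nd (nat_lit 156) (nat_lit 0) (nat_lit 0) (XT.nd (nat_lit 78) (nat_lit 0) (nat_lit 0) (XT.lf (nat_lit 0) (nat_lit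 18087162253) (nat_lit 76) (nat_lit 150705219799) (nat_lit 76) (nat_lit 147976701639) (nat_lit 1) (nat_lit 4) (nat_lit 2) (nat_lit 5) (nat_lit 2) (nat_lit 4) (nat_lit 376) (nat_lit 221) (nat_lit 183)) (XT.lf (nat_lit 0) (nat_lit 22390248352) (nat_lit 76) (nat_lit 156440716070) (nat_lit 76) (nat_lit 153688072019) (nat_lit 1) (nat_lit 4) (nat_lit 2) (nat_lit 5) (nat_lit 2) (nat_lit 4) (nat_lit 377) (nat_lit 221) (nat_lit 182))) (XT.nd (nat_lit 78) (nat_lit 0) (nat_lit 0) (XT.lf (nat_lit 0) (nat_lit 26870591553) (nat_lit 76) (nat_lit 162481251596) (nat_lit 76) (nat_lit 159705630507) (nat_lit 1) (nat_lit 4) (nat_lit 2) (nat_lit 5) (nat_lit 2) (nat_lit 4) (nat_lit 378) (nat_lit 221) (nat_lit 181)) (XT.nd (nat_lit 78) (nat_lit 0) (nat_lit 0) (XT.lf (nat_lit 0) (nat_lit 31538859339) (nat_lit 76) (nat_lit 168841208606) (nat_lit 76) (nat_lit 166043704622) (nat_lit 1) (nat_lit 4) (nat_lit 2) (nat_lit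 5) (nat_lit 2) (nat_lit 4) (nat_lit 379) (nat_lit 221) (nat_lit 180)) (XT.lf (nat_lit 0) (nat_lit 36406166633) (nat_lit 76) (nat_lit 175535729854) (nat_lit 76) (nat_lit 172717385019) (nat_lit 1) (nat_lit 4) (nat_lit 2) (nat_lit 5) (nat_lit 2) (nat_lit 4) (nat_lit 380) (nat_lit 221) (nat_lit 179))))) (XT.nd (nat_lit 156) (nat_lit 0) (nat_lit 0) (XT.nd (nat_lit 78) (nat_lit 0) (nat_lit 0) (XT.lf (nat_lit 0) (nat_lit 41484102262) (nat_lit 76) (nat_lit 182580754676) (nat_lit 76) (nat_lit 179742561411) (nat_lit 1) (nat_lit 4) (nat_lit 2) (nat_lit 5) (nat_lit 2) (nat_lit 4) (nat_lit 381) (nat_lit 221) (nat_lit 178)) (XT.lf (nat_lit 0) (nat_lit 46784756549) (nat_lit 76) (nat_lit 189993056941) (nat_lit 76) (nat_lit 187135960409) (nat_lit 1) (nat_lit 4) (nat_lit 2) (nat_lit 5) (nat_lit 2) (nat_lit 4) (nat_lit 382) (nat_lit 221) (nat_lit 177))) (XT.nd (nat_lit 78) (nat_lit 0) (nat_lit 0) (XT.lf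 (nat_lit 0) (nat_lit 52320750100) (nat_lit 76) (nat_lit 197790284987) (nat_lit 76) (nat_lit 194915185345) (nat_lit 1) (nat_lit 4) (nat_lit 2) (nat_lit 5) (nat_lit 2) (nat_lit 4) (nat_lit 383) (nat_lit 221) (nat_lit 176)) (XT.nd (nat_lit 78) (nat_lit 0) (nat_lit 0) (XT.lf (nat_lit 0) (nat_lit 58105263851) (nat_lit 76) (nat_lit 205991003644) (nat_lit 76) (nat_lit 203098758182) (nat_lit 1) (nat_lit 4) (nat_lit 2) (nat_lit 5) (nat_lit 2) (nat_lit 4) (nat_lit 384) (nat_lit 221) (nat_lit 175)) (XT.lf (nat_lit 0) (nat_lit 64152070454) (nat_lit 76) (nat_lit 214614738432) (nat_lit 76) (nat_lit 211706163617) (nat_lit 1) (nat_lit 4) (nat_lit 2) (nat_lit 5) (nat_lit 2) (nat_lit 4) (nat_lit 385) (nat_lit 221) (nat_lit 174)))))) (XT.nd (nat_lit 390) (nat_lit 0) (nat_lit 0) (XT.nd (nat_lit 156) (nat_lit 0) (nat_lit 0) (XT.nd (nat_lit 78) (nat_lit 0) (nat_lit 0) (XT.lf (nat_lit 0) (nat_lit 70475567069)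 (nat_lit 76) (nat_lit 223682022053) (nat_lit 76) (nat_lit 220757895474) (nat_lit 1) (nat_lit 4) (nat_lit 2) (nat_lit 5) (nat_lit 2) (nat_lit 4) (nat_lit 386) (nat_lit 221) (nat_lit 173)) (XT.lf (nat_lit 0) (nat_lit 77090809638) (nat_lit 76) (nat_lit 233214443277) (nat_lit 76) (nat_lit 230275505494) (nat_lit 1) (nat_lit 4) (nat_lit 2) (nat_lit 5) (nat_lit 2) (nat_lit 4) (nat_lit 387) (nat_lit 221) (nat_lit 172))) (XT.nd (nat_lit 78) (nat_lit 0) (nat_lit 0) (XT.lf (nat_lit 0) (nat_lit 84013548741) (nat_lit 76) (nat_lit 243234698346) (nat_lit 76) (nat_lit 240281654654) (nat_lit 1) (nat_lit 4) (nat_lit 2) (nat_lit 5) (nat_lit 2) (nat_lit 4) (nat_lit 388) (nat_lit 221) (nat_lit 171)) (XT.nd (nat_lit 78) (nat_lit 0) (nat_lit 0) (XT.lf (nat_lit 0) (nat_lit 91260267088) (nat_lit 76) (nat_lit 253766645009) (nat_lit 76) (nat_lit 250800167118) (nat_lit 1) (nat_lit 4) (nat_lit 2) (nat_lit 5) (nat_lit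 2) (nat_lit 4) (nat_lit 389) (nat_lit 221) (nat_lit 170)) (XT.lf (nat_lit 0) (nat_lit 98848218772) (nat_lit 76) (nat_lit 264835359330) (nat_lit 76) (nat_lit 261856086964) (nat_lit 1) (nat_lit 4) (nat_lit 2) (nat_lit 5) (nat_lit 2) (nat_lit 4) (nat_lit 390) (nat_lit 221) (nat_lit 169))))) (XT.nd (nat_lit 36348) (nat_lit 0) (nat_lit 228) (XT.nd (nat_lit 78) (nat_lit 0) (nat_lit 0) (XT.lf (nat_lit 0) (nat_lit 106795470343) (nat_lit 76) (nat_lit 276467195391) (nat_lit 76) (nat_lit 273475737811) (nat_lit 1) (nat_lit 4) (nat_lit 2) (nat_lit 5) (nat_lit 2) (nat_lit 4) (nat_lit 391) (nat_lit 221) (nat_lit 168)) (XT.nd (nat_lit 78) (nat_lit 0) (nat_lit 0) (XT.lf (nat_lit 0) (nat_lit 115120943830) (nat_lit 76) (nat_lit 288689848039) (nat_lit 76) (nat_lit 285686785493) (nat_lit 1) (nat_lit 4) (nat_lit 2) (nat_lit 5) (nat_lit 2) (nat_lit 4) (nat_lit 392) (nat_lit 221) (nat_lit 167)) (XT.lf (nat_lit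 0) (nat_lit 123844461788) (nat_lit 76) (nat_lit 301532418829) (nat_lit 76) (nat_lit 298518303935) (nat_lit 1) (nat_lit 4) (nat_lit 2) (nat_lit 5) (nat_lit 2) (nat_lit 4) (nat_lit 393) (nat_lit 221) (nat_lit 166)))) (XT.nd (nat_lit 78) (nat_lit 0) (nat_lit 0) (XT.lf (nat_lit 0) (nat_lit 360544343) (nat_lit 76) (nat_lit 11686774012) (nat_lit 76) (nat_lit 11686774012) (nat_lit 4) (nat_lit 4) (nat_lit 5) (nat_lit 5) (nat_lit 5) (nat_lit 4) (nat_lit 336) (nat_lit 222) (nat_lit 222)) (XT.nd (nat_lit 78) (nat_lit 0) (nat_lit 0) (XT.lf (nat_lit 0) (nat_lit 8049494485) (nat_lit 76) (nat_lit 20885054734) (nat_lit 76) (nat_lit 20715208736) (nat_lit 4) (nat_lit 4) (nat_lit 5) (nat_lit 5) (nat_lit 5) (nat_lit 4) (nat_lit 337) (nat_lit 222) (nat_lit 221)) (XT.lf (nat_lit 0) (nat_lit 15514684317) (nat_lit 76) (nat_lit 18381685264) (nat_lit 76) (nat_lit 18050081173) (nat_lit 4) (nat_lit 4) (nat_lit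 5) (nat_lit 5) (nat_lit 5) (nat_lit 4) (nat_lit 338) (nat_lit 222) (nat_lit 220))))))))
noncomputable def xc20 : XT := (XT.nd (nat_lit 1560) (nat_lit 76) (nat_lit 0) (XT.nd (nat_lit 780) (nat_lit 0) (nat_lit 0) (XT.nd (nat_lit 390) (nat_lit 152) (nat_lit 0) (XT.nd (nat_lit 156) (nat_lit 0) (nat_lit 0) (XT.nd (nat_lit 78) (nat_lit 0) (nat_lit 0) (XT.lf (nat_lit 0) (nat_lit 23134432443) (nat_lit 76) (nat_lit 15857479211) (nat_lit 76) (nat_lit 15371819793) (nat_lit 4) (nat_lit 4) (nat_lit 5) (nat_lit 5) (nat_lit 5) (nat_lit 4) (nat_lit 339) (nat_lit 222) (nat_lit 219)) (XT.lf (nat_lit 0) (nat_lit 30926881122) (nat_lit 76) (nat_lit 13306426561) (nat_lit 76) (nat_lit 12674047784) (nat_lit 4) (nat_lit 4) (nat_lit 5) (nat_lit 5) (nat_lit 5) (nat_lit 4) (nat_lit 340) (nat_lit 222) (nat_lit 218))) (XT.nd (nat_lit 78) (nat_lit 0) (nat_lit 0) (XT.lf (nat_lit 0) (nat_lit 38910583802) (nat_lit 76)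 (nat_lit 10722453379) (nat_lit 76) (nat_lit 9950341880) (nat_lit 4) (nat_lit 4) (nat_lit 5) (nat_lit 5) (nat_lit 5) (nat_lit 4) (nat_lit 341) (nat_lit 222) (nat_lit 217)) (XT.nd (nat_lit 78) (nat_lit 0) (nat_lit 0) (XT.lf (nat_lit 0) (nat_lit 47104549300) (nat_lit 76) (nat_lit 8099407349) (nat_lit 76) (nat_lit 7194217066) (nat_lit 4) (nat_lit 4) (nat_lit 5) (nat_lit 5) (nat_lit 5) (nat_lit 4) (nat_lit 342) (nat_lit 222) (nat_lit 216)) (XT.lf (nat_lit 0) (nat_lit 55528287057) (nat_lit 76) (nat_lit 5431043122) (nat_lit 76) (nat_lit 4399111140) (nat_lit 4) (nat_lit 4) (nat_lit 5) (nat_lit 5) (nat_lit 5) (nat_lit 4) (nat_lit 343) (nat_lit 222) (nat_lit 215))))) (XT.nd (nat_lit 156) (nat_lit 0) (nat_lit 0) (XT.nd (nat_lit 78) (nat_lit 152) (nat_lit 0) (XT.lf (nat_lit 0) (nat_lit 64201853592) (nat_lit 76) (nat_lit 2711007450) (nat_lit 76) (nat_lit 1558369089) (nat_lit 4) (nat_lit 4) (nat_lit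 5) (nat_lit 5) (nat_lit 5) (nat_lit 4) (nat_lit 344) (nat_lit 222) (nat_lit 214)) (XT.lf (nat_lit 0) (nat_lit 1316083266) (nat_lit 152) (nat_lit 70316776529) (nat_lit 0) (nat_lit 108848200) (nat_lit 2) (nat_lit 5) (nat_lit 4) (nat_lit 4) (nat_lit 2) (nat_lit 4) (nat_lit 345) (nat_lit 222) (nat_lit 213))) (XT.nd (nat_lit 78) (nat_lit 0) (nat_lit 0) (XT.lf (nat_lit 0) (nat_lit 4313409658) (nat_lit 152) (nat_lit 67857566265) (nat_lit 0) (nat_lit 3001903884) (nat_lit 2) (nat_lit 5) (nat_lit 4) (nat_lit 4) (nat_lit 2) (nat_lit 4) (nat_lit 346) (nat_lit 222) (nat_lit 212)) (XT.nd (nat_lit 78) (nat_lit 0) (nat_lit 0) (XT.lf (nat_lit 0) (nat_lit 7378307920) (nat_lit 152) (nat_lit 65433942732) (nat_lit 0) (nat_lit 5967496708) (nat_lit 2) (nat_lit 5) (nat_lit 4) (nat_lit 4) (nat_lit 2) (nat_lit 4) (nat_lit 347) (nat_lit 222) (nat_lit 211)) (XT.lf (nat_lit 0) (nat_lit 10518075427) (nat_lit 152)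 (nat_lit 63040135396) (nat_lit 0) (nat_lit 9012687609) (nat_lit 2) (nat_lit 5) (nat_lit 4) (nat_lit 4) (nat_lit 2) (nat_lit 4) (nat_lit 348) (nat_lit 222) (nat_lit 210)))))) (XT.nd (nat_lit 390) (nat_lit 0) (nat_lit 0) (XT.nd (nat_lit 156) (nat_lit 0) (nat_lit 0) (XT.nd (nat_lit 78) (nat_lit 0) (nat_lit 0) (XT.lf (nat_lit 0) (nat_lit 13740187817) (nat_lit 152) (nat_lit 60670444717) (nat_lit 0) (nat_lit 12144727039) (nat_lit 2) (nat_lit 5) (nat_lit 4) (nat_lit 4) (nat_lit 2) (nat_lit 4) (nat_lit 349) (nat_lit 222) (nat_lit 209)) (XT.lf (nat_lit 0) (nat_lit 17052316786) (nat_lit 152) (nat_lit 58319228573) (nat_lit 0) (nat_lit 15371072238) (nat_lit 2) (nat_lit 5) (nat_lit 4) (nat_lit 4) (nat_lit 2) (nat_lit 4) (nat_lit 350) (nat_lit 222) (nat_lit 208))) (XT.nd (nat_lit 78) (nat_lit 0) (nat_lit 0) (XT.lf (nat_lit 0) (nat_lit 20462348354) (nat_lit 152) (nat_lit 55980888832) (nat_lit 0) (nat_lit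 18699404978) (nat_lit 2) (nat_lit 5) (nat_lit 4) (nat_lit 4) (nat_lit 2) (nat_lit 4) (nat_lit 351) (nat_lit 222) (nat_lit 207)) (XT.nd (nat_lit 78) (nat_lit 0) (nat_lit 0) (XT.lf (nat_lit 0) (nat_lit 23978401646) (nat_lit 152) (nat_lit 53649858018) (nat_lit 0) (nat_lit 22137649861) (nat_lit 2) (nat_lit 5) (nat_lit 4) (nat_lit 4) (nat_lit 2) (nat_lit 4) (nat_lit 352) (nat_lit 222) (nat_lit 206)) (XT.lf (nat_lit 0) (nat_lit 27608848216) (nat_lit 152) (nat_lit 51320586058) (nat_lit 0) (nat_lit 25693993185) (nat_lit 2) (nat_lit 5) (nat_lit 4) (nat_lit 4) (nat_lit 2) (nat_lit 4) (nat_lit 353) (nat_lit 222) (nat_lit 205))))) (XT.nd (nat_lit 156) (nat_lit 0) (nat_lit 0) (XT.nd (nat_lit 78) (nat_lit 0) (nat_lit 0) (XT.lf (nat_lit 0) (nat_lit 31362331985) (nat_lit 152) (nat_lit 48987527065) (nat_lit 0) (nat_lit 29376902433) (nat_lit 2) (nat_lit 5) (nat_lit 4) (nat_lit 4) (nat_lit 2) (nat_lit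 4) (nat_lit 354) (nat_lit 222) (nat_lit 204)) (XT.lf (nat_lit 0) (nat_lit 35247789819) (nat_lit 152) (nat_lit 46645126137) (nat_lit 0) (nat_lit 33195146438) (nat_lit 2) (nat_lit 5) (nat_lit 4) (nat_lit 4) (nat_lit 2) (nat_lit 4) (nat_lit 355) (nat_lit 222) (nat_lit 203))) (XT.nd (nat_lit 78) (nat_lit 0) (nat_lit 0) (XT.lf (nat_lit 0) (nat_lit 39274472808) (nat_lit 152) (nat_lit 44287806130) (nat_lit 0) (nat_lit 37157816257) (nat_lit 2) (nat_lit 5) (nat_lit 4) (nat_lit 4) (nat_lit 2) (nat_lit 4) (nat_lit 356) (nat_lit 222) (nat_lit 202)) (XT.nd (nat_lit 78) (nat_lit 0) (nat_lit 0) (XT.lf (nat_lit 0) (nat_lit 43451968292) (nat_lit 152) (nat_lit 41909954376) (nat_lit 0) (nat_lit 41274346817) (nat_lit 2) (nat_lit 5) (nat_lit 4) (nat_lit 4) (nat_lit 2) (nat_lit 4) (nat_lit 357) (nat_lit 222) (nat_lit 201)) (XT.lf (nat_lit 0) (nat_lit 47790222690) (nat_lit 152) (nat_lit 39505909324) (nat_lit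 0) (nat_lit 45554539382) (nat_lit 2) (nat_lit 5) (nat_lit 4) (nat_lit 4) (nat_lit 2) (nat_lit 4) (nat_lit 358) (nat_lit 222) (nat_lit 200))))))) (XT.nd (nat_lit 780) (nat_lit 76) (nat_lit 0) (XT.nd (nat_lit 390) (nat_lit 0) (nat_lit 0) (XT.nd (nat_lit 156) (nat_lit 0) (nat_lit 0) (XT.nd (nat_lit 78) (nat_lit 0) (nat_lit 0) (XT.lf (nat_lit 0) (nat_lit 52299565178) (nat_lit 152) (nat_lit 37069947058) (nat_lit 0) (nat_lit 50008584887) (nat_lit 2) (nat_lit 5) (nat_lit 4) (nat_lit 4) (nat_lit 2) (nat_lit 4) (nat_lit 359) (nat_lit 222) (nat_lit 199)) (XT.lf (nat_lit 0) (nat_lit 56990732286) (nat_lit 152) (nat_lit 34596267666) (nat_lit 0) (nat_lit 54647088201) (nat_lit 2) (nat_lit 5) (nat_lit 4) (nat_lit 4) (nat_lit 2) (nat_lit 4) (nat_lit 360) (nat_lit 222) (nat_lit 198))) (XT.nd (nat_lit 78) (nat_lit 0) (nat_lit 0) (XT.lf (nat_lit 0) (nat_lit 61874893459) (nat_lit 152) (nat_lit 32078981436)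 (nat_lit 0) (nat_lit 59481093381) (nat_lit 2) (nat_lit 5) (nat_lit 4) (nat_lit 4) (nat_lit 2) (nat_lit 4) (nat_lit 361) (nat_lit 222) (nat_lit 197)) (XT.nd (nat_lit 78) (nat_lit 0) (nat_lit 0) (XT.lf (nat_lit 0) (nat_lit 66963677654) (nat_lit 152) (nat_lit 29512094830) (nat_lit 0) (nat_lit 64522109962) (nat_lit 2) (nat_lit 5) (nat_lit 4) (nat_lit 4) (nat_lit 2) (nat_lit 4) (nat_lit 362) (nat_lit 222) (nat_lit 196)) (XT.lf (nat_lit 0) (nat_lit 72269201022) (nat_lit 152) (nat_lit 26889496212) (nat_lit 0) (nat_lit 69782140365) (nat_lit 2) (nat_lit 5) (nat_lit 4) (nat_lit 4) (nat_lit 2) (nat_lit 4) (nat_lit 363) (nat_lit 222) (nat_lit 195))))) (XT.nd (nat_lit 156) (nat_lit 0) (nat_lit 0) (XT.nd (nat_lit 78) (nat_lit 0) (nat_lit 0) (XT.lf (nat_lit 0) (nat_lit 77804095762) (nat_lit 152) (nat_lit 24204941301) (nat_lit 0) (nat_lit 75273708472) (nat_lit 2) (nat_lit 5) (nat_lit 4) (nat_lit 4)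 (nat_lit 2) (nat_lit 4) (nat_lit 364) (nat_lit 222) (nat_lit 194)) (XT.lf (nat_lit 0) (nat_lit 83581540195) (nat_lit 152) (nat_lit 21452038298) (nat_lit 0) (nat_lit 81009889445) (nat_lit 2) (nat_lit 5) (nat_lit 4) (nat_lit 4) (nat_lit 2) (nat_lit 4) (nat_lit 365) (nat_lit 222) (nat_lit 193))) (XT.nd (nat_lit 78) (nat_lit 0) (nat_lit 0) (XT.lf (nat_lit 0) (nat_lit 89615290141) (nat_lit 152) (nat_lit 18624232674) (nat_lit 0) (nat_lit 87004340857) (nat_lit 2) (nat_lit 5) (nat_lit 4) (nat_lit 4) (nat_lit 2) (nat_lit 4) (nat_lit 366) (nat_lit 222) (nat_lit 192)) (XT.nd (nat_lit 78) (nat_lit 0) (nat_lit 0) (XT.lf (nat_lit 0) (nat_lit 95919711672) (nat_lit 152) (nat_lit 15714791556) (nat_lit 0) (nat_lit 93271335213) (nat_lit 2) (nat_lit 5) (nat_lit 4) (nat_lit 4) (nat_lit 2) (nat_lit 4) (nat_lit 367) (nat_lit 222) (nat_lit 191)) (XT.lf (nat_lit 0) (nat_lit 102509815314) (nat_lit 152) (nat_lit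 12716787705) (nat_lit 0) (nat_lit 99825793927) (nat_lit 2) (nat_lit 5) (nat_lit 4) (nat_lit 4) (nat_lit 2) (nat_lit 4) (nat_lit 368) (nat_lit 222) (nat_lit 190)))))) (XT.nd (nat_lit 390) (nat_lit 0) (nat_lit 0) (XT.nd (nat_lit 156) (nat_lit 76) (nat_lit 0) (XT.nd (nat_lit 78) (nat_lit 0) (nat_lit 0) (XT.lf (nat_lit 0) (nat_lit 109401291791) (nat_lit 152) (nat_lit 9623083017) (nat_lit 0) (nat_lit 106683322853) (nat_lit 2) (nat_lit 5) (nat_lit 4) (nat_lit 4) (nat_lit 2) (nat_lit 4) (nat_lit 369) (nat_lit 222) (nat_lit 189)) (XT.lf (nat_lit 0) (nat_lit 116610549380) (nat_lit 152) (nat_lit 6426311527) (nat_lit 0) (nat_lit 113860249441) (nat_lit 2) (nat_lit 5) (nat_lit 4) (nat_lit 4) (nat_lit 2) (nat_lit 4) (nat_lit 370) (nat_lit 222) (nat_lit 188))) (XT.nd (nat_lit 78) (nat_lit 76) (nat_lit 0) (XT.lf (nat_lit 0) (nat_lit 124154752981) (nat_lit 152) (nat_lit 3118861875) (nat_lit 0) (nat_lit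 121373661612) (nat_lit 2) (nat_lit 5) (nat_lit 4) (nat_lit 4) (nat_lit 2) (nat_lit 4) (nat_lit 371) (nat_lit 222) (nat_lit 187)) (XT.nd (nat_lit 78) (nat_lit 0) (nat_lit 0) (XT.lf (nat_lit 0) (nat_lit 317296281) (nat_lit 76) (nat_lit 131739522584) (nat_lit 76) (nat_lit 128929106044) (nat_lit 1) (nat_lit 4) (nat_lit 2) (nat_lit 5) (nat_lit 2) (nat_lit 4) (nat_lit 372) (nat_lit 222) (nat_lit 186)) (XT.lf (nat_lit 0) (nat_lit 3987477900) (nat_lit 76) (nat_lit 136395465835) (nat_lit 76) (nat_lit 133557120561) (nat_lit 1) (nat_lit 4) (nat_lit 2) (nat_lit 5) (nat_lit 2) (nat_lit 4) (nat_lit 373) (nat_lit 222) (nat_lit 185))))) (XT.nd (nat_lit 234) (nat_lit 0) (nat_lit 0) (XT.nd (nat_lit 78) (nat_lit 0) (nat_lit 0) (XT.lf (nat_lit 0) (nat_lit 7797297848) (nat_lit 76) (nat_lit 141305349624) (nat_lit 76) (nat_lit 138440405556) (nat_lit 1) (nat_lit 4) (nat_lit 2) (nat_lit 5) (nat_lit 2) (nat_lit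 4) (nat_lit 374) (nat_lit 222) (nat_lit 184)) (XT.nd (nat_lit 78) (nat_lit 0) (nat_lit 0) (XT.lf (nat_lit 0) (nat_lit 11755827127) (nat_lit 76) (nat_lit 146480864150) (nat_lit 76) (nat_lit 143590587897) (nat_lit 1) (nat_lit 4) (nat_lit 2) (nat_lit 5) (nat_lit 2) (nat_lit 4) (nat_lit 375) (nat_lit 222) (nat_lit 183)) (XT.lf (nat_lit 0) (nat_lit 15872490806) (nat_lit 76) (nat_lit 151934332067) (nat_lit 76) (nat_lit 149019929923) (nat_lit 1) (nat_lit 4) (nat_lit 2) (nat_lit 5) (nat_lit 2) (nat_lit 4) (nat_lit 376) (nat_lit 222) (nat_lit 182)))) (XT.nd (nat_lit 78) (nat_lit 0) (nat_lit 0) (XT.lf (nat_lit 0) (nat_lit 20157090464) (nat_lit 76) (nat_lit 157678737821) (nat_lit 76) (nat_lit 154741358639) (nat_lit 1) (nat_lit 4) (nat_lit 2) (nat_lit 5) (nat_lit 2) (nat_lit 4) (nat_lit 377) (nat_lit 222) (nat_lit 181)) (XT.nd (nat_lit 78) (nat_lit 0) (nat_lit 0) (XT.lf (nat_lit 0) (nat_lit 24619827531)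 (nat_lit 76) (nat_lit 163727758571) (nat_lit 76) (nat_lit 160768496494) (nat_lit 1) (nat_lit 4) (nat_lit 2) (nat_lit 5) (nat_lit 2) (nat_lit 4) (nat_lit 378) (nat_lit 222) (nat_lit 180)) (XT.lf (nat_lit 0) (nat_lit 29271327570) (nat_lit 76) (nat_lit 170095796745) (nat_lit 76) (nat_lit 167115693817) (nat_lit 1) (nat_lit 4) (nat_lit 2) (nat_lit 5) (nat_lit 2) (nat_lit 4) (nat_lit 379) (nat_lit 222) (nat_lit 179))))))))
noncomputable def xc21 : XT := (XT.nd (nat_lit 37596) (nat_lit 0) (nat_lit 76) (XT.nd (nat_lit 780) (nat_lit 0) (nat_lit 0) (XT.nd (nat_lit 390) (nat_lit 0) (nat_lit 0) (XT.nd (nat_lit 156) (nat_lit 0) (nat_lit 0) (XT.nd (nat_lit 78) (nat_lit 0) (nat_lit 0) (XT.lf (nat_lit 0) (nat_lit 34122665581) (nat_lit 76) (nat_lit 176798014340) (nat_lit 76) (nat_lit 173798062982) (nat_lit 1) (nat_lit 4) (nat_lit 2) (nat_lit 5) (nat_lit 2) (nat_lit 4) (nat_lit 380) (nat_lit 222) (nat_lit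 178)) (XT.lf (nat_lit 0) (nat_lit 39185392370) (nat_lit 76) (nat_lit 183850369017) (nat_lit 76) (nat_lit 180831514392) (nat_lit 1) (nat_lit 4) (nat_lit 2) (nat_lit 5) (nat_lit 2) (nat_lit 4) (nat_lit 381) (nat_lit 222) (nat_lit 177))) (XT.nd (nat_lit 78) (nat_lit 0) (nat_lit 0) (XT.lf (nat_lit 0) (nat_lit 44471562047) (nat_lit 76) (nat_lit 191269652096) (nat_lit 76) (nat_lit 188232794360) (nat_lit 1) (nat_lit 4) (nat_lit 2) (nat_lit 5) (nat_lit 2) (nat_lit 4) (nat_lit 382) (nat_lit 222) (nat_lit 176)) (XT.nd (nat_lit 78) (nat_lit 0) (nat_lit 0) (XT.lf (nat_lit 0) (nat_lit 49993760730) (nat_lit 76) (nat_lit 199073528536) (nat_lit 76) (nat_lit 196019524981) (nat_lit 1) (nat_lit 4) (nat_lit 2) (nat_lit 5) (nat_lit 2) (nat_lit 4) (nat_lit 383) (nat_lit 222) (nat_lit 175)) (XT.lf (nat_lit 0) (nat_lit 55765136513) (nat_lit 76) (nat_lit 207280578997) (nat_lit 76) (nat_lit 204210246089) (nat_lit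 1) (nat_lit 4) (nat_lit 2) (nat_lit 5) (nat_lit 2) (nat_lit 4) (nat_lit 384) (nat_lit 222) (nat_lit 174))))) (XT.nd (nat_lit 156) (nat_lit 0) (nat_lit 0) (XT.nd (nat_lit 78) (nat_lit 0) (nat_lit 0) (XT.lf (nat_lit 0) (nat_lit 61799430766) (nat_lit 76) (nat_lit 215910344075) (nat_lit 76) (nat_lit 212824459402) (nat_lit 1) (nat_lit 4) (nat_lit 2) (nat_lit 5) (nat_lit 2) (nat_lit 4) (nat_lit 385) (nat_lit 222) (nat_lit 173)) (XT.lf (nat_lit 0) (nat_lit 68111010856) (nat_lit 76) (nat_lit 224983370829) (nat_lit 76) (nat_lit 221882674952) (nat_lit 1) (nat_lit 4) (nat_lit 2) (nat_lit 5) (nat_lit 2) (nat_lit 4) (nat_lit 386) (nat_lit 222) (nat_lit 172))) (XT.nd (nat_lit 78) (nat_lit 0) (nat_lit 0) (XT.lf (nat_lit 0) (nat_lit 74714904354) (nat_lit 76) (nat_lit 234521261703) (nat_lit 76) (nat_lit 231406459918) (nat_lit 1) (nat_lit 4) (nat_lit 2) (nat_lit 5) (nat_lit 2) (nat_lit 4) (nat_lit 387)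 (nat_lit 222) (nat_lit 171)) (XT.nd (nat_lit 78) (nat_lit 0) (nat_lit 0) (XT.lf (nat_lit 0) (nat_lit 81626834817) (nat_lit 76) (nat_lit 244546725962) (nat_lit 76) (nat_lit 241418489978) (nat_lit 1) (nat_lit 4) (nat_lit 2) (nat_lit 5) (nat_lit 2) (nat_lit 4) (nat_lit 388) (nat_lit 222) (nat_lit 170)) (XT.lf (nat_lit 0) (nat_lit 88863259223) (nat_lit 76) (nat_lit 255083633759) (nat_lit 76) (nat_lit 251942603301) (nat_lit 1) (nat_lit 4) (nat_lit 2) (nat_lit 5) (nat_lit 2) (nat_lit 4) (nat_lit 389) (nat_lit 222) (nat_lit 169)))))) (XT.nd (nat_lit 36348) (nat_lit 0) (nat_lit 228) (XT.nd (nat_lit 156) (nat_lit 0) (nat_lit 0) (XT.nd (nat_lit 78) (nat_lit 0) (nat_lit 0) (XT.lf (nat_lit 0) (nat_lit 96441407152) (nat_lit 76) (nat_lit 266157072970) (nat_lit 76) (nat_lit 263003857297) (nat_lit 1) (nat_lit 4) (nat_lit 2) (nat_lit 5) (nat_lit 2) (nat_lit 4) (nat_lit 390) (nat_lit 222) (nat_lit 168))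 (XT.lf (nat_lit 0) (nat_lit 104379321814) (nat_lit 76) (nat_lit 277793408926) (nat_lit 76) (nat_lit 274628588287) (nat_lit 1) (nat_lit 4) (nat_lit 2) (nat_lit 5) (nat_lit 2) (nat_lit 4) (nat_lit 391) (nat_lit 222) (nat_lit 167))) (XT.nd (nat_lit 78) (nat_lit 0) (nat_lit 0) (XT.lf (nat_lit 0) (nat_lit 112695903007) (nat_lit 76) (nat_lit 290020347188) (nat_lit 76) (nat_lit 286844474201) (nat_lit 1) (nat_lit 4) (nat_lit 2) (nat_lit 5) (nat_lit 2) (nat_lit 4) (nat_lit 392) (nat_lit 222) (nat_lit 166)) (XT.nd (nat_lit 36036) (nat_lit 0) (nat_lit 304) (XT.lf (nat_lit 0) (nat_lit 121410952113) (nat_lit 76) (nat_lit 302866999515) (nat_lit 76) (nat_lit 299680600482) (nat_lit 1) (nat_lit 4) (nat_lit 2) (nat_lit 5) (nat_lit 2) (nat_lit 4) (nat_lit 393) (nat_lit 222) (nat_lit 165)) (XT.lf (nat_lit 0) (nat_lit 7593975892) (nat_lit 152) (nat_lit 6520106589) (nat_lit 0) (nat_lit 7593975892) (nat_lit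 5) (nat_lit 5) (nat_lit 7) (nat_lit 4) (nat_lit 5) (nat_lit 4) (nat_lit 334) (nat_lit 223) (nat_lit 223))))) (XT.nd (nat_lit 234) (nat_lit 0) (nat_lit 0) (XT.nd (nat_lit 78) (nat_lit 76) (nat_lit 0) (XT.lf (nat_lit 0) (nat_lit 19644742334) (nat_lit 152) (nat_lit 6280325730) (nat_lit 0) (nat_lit 19466404036) (nat_lit 5) (nat_lit 5) (nat_lit 7) (nat_lit 4) (nat_lit 5) (nat_lit 4) (nat_lit 335) (nat_lit 223) (nat_lit 222)) (XT.nd (nat_lit 78) (nat_lit 0) (nat_lit 0) (XT.lf (nat_lit 0) (nat_lit 603470117) (nat_lit 76) (nat_lit 23607996523) (nat_lit 76) (nat_lit 23259812227) (nat_lit 4) (nat_lit 4) (nat_lit 5) (nat_lit 5) (nat_lit 5) (nat_lit 4) (nat_lit 336) (nat_lit 223) (nat_lit 221)) (XT.lf (nat_lit 0) (nat_lit 7819858229) (nat_lit 76) (nat_lit 21172941517) (nat_lit 76) (nat_lit 20662999129) (nat_lit 4) (nat_lit 4) (nat_lit 5) (nat_lit 5) (nat_lit 5) (nat_lit 4) (nat_lit 337) (nat_lit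 223) (nat_lit 220)))) (XT.nd (nat_lit 78) (nat_lit 0) (nat_lit 0) (XT.lf (nat_lit 0) (nat_lit 15178364550) (nat_lit 76) (nat_lit 18720465652) (nat_lit 76) (nat_lit 18056467937) (nat_lit 4) (nat_lit 4) (nat_lit 5) (nat_lit 5) (nat_lit 5) (nat_lit 4) (nat_lit 338) (nat_lit 223) (nat_lit 219)) (XT.nd (nat_lit 78) (nat_lit 0) (nat_lit 0) (XT.lf (nat_lit 0) (nat_lit 22696509333) (nat_lit 76) (nat_lit 16244729700) (nat_lit 76) (nat_lit 15434012625) (nat_lit 4) (nat_lit 4) (nat_lit 5) (nat_lit 5) (nat_lit 5) (nat_lit 4) (nat_lit 339) (nat_lit 223) (nat_lit 218)) (XT.lf (nat_lit 0) (nat_lit 30392192923) (nat_lit 76) (nat_lit 13739839050) (nat_lit 76) (nat_lit 12789389253) (nat_lit 4) (nat_lit 4) (nat_lit 5) (nat_lit 5) (nat_lit 5) (nat_lit 4) (nat_lit 340) (nat_lit 223) (nat_lit 217))))))) (XT.nd (nat_lit 780) (nat_lit 0) (nat_lit 0) (XT.nd (nat_lit 390) (nat_lit 0) (nat_lit 0) (XT.nd (nat_lit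 156) (nat_lit 152) (nat_lit 0) (XT.nd (nat_lit 78) (nat_lit 0) (nat_lit 0) (XT.lf (nat_lit 0) (nat_lit 38283738375) (nat_lit 76) (nat_lit 11199829679) (nat_lit 76) (nat_lit 10116301098) (nat_lit 4) (nat_lit 4) (nat_lit 5) (nat_lit 5) (nat_lit 5) (nat_lit 4) (nat_lit 341) (nat_lit 223) (nat_lit 216)) (XT.lf (nat_lit 0) (nat_lit 46389935085) (nat_lit 76) (nat_lit 8618653943) (nat_lit 76) (nat_lit 7408383664) (nat_lit 4) (nat_lit 4) (nat_lit 5) (nat_lit 5) (nat_lit 5) (nat_lit 4) (nat_lit 342) (nat_lit 223) (nat_lit 215))) (XT.nd (nat_lit 78) (nat_lit 152) (nat_lit 0) (XT.lf (nat_lit 0) (nat_lit 54730083520) (nat_lit 76) (nat_lit 5990166188) (nat_lit 76) (nat_lit 4659189528) (nat_lit 4) (nat_lit 4) (nat_lit 5) (nat_lit 5) (nat_lit 5) (nat_lit 4) (nat_lit 343) (nat_lit 223) (nat_lit 214)) (XT.nd (nat_lit 78) (nat_lit 152) (nat_lit 0) (XT.lf (nat_lit 0) (nat_lit 63324041177) (nat_lit 76)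 (nat_lit 3308108108) (nat_lit 76) (nat_lit 1862172992) (nat_lit 4) (nat_lit 4) (nat_lit 5) (nat_lit 5) (nat_lit 5) (nat_lit 4) (nat_lit 344) (nat_lit 223) (nat_lit 213)) (XT.lf (nat_lit 0) (nat_lit 421268744) (nat_lit 76) (nat_lit 542969355) (nat_lit 152) (nat_lit 70803698934) (nat_lit 2) (nat_lit 5) (nat_lit 3) (nat_lit 5) (nat_lit 4) (nat_lit 4) (nat_lit 345) (nat_lit 223) (nat_lit 212))))) (XT.nd (nat_lit 156) (nat_lit 0) (nat_lit 0) (XT.nd (nat_lit 78) (nat_lit 0) (nat_lit 0) (XT.lf (nat_lit 0) (nat_lit 3912943585) (nat_lit 152) (nat_lit 68956320871) (nat_lit 0) (nat_lit 2332286375) (nat_lit 2) (nat_lit 5) (nat_lit 4) (nat_lit 4) (nat_lit 2) (nat_lit 4) (nat_lit 346) (nat_lit 223) (nat_lit 211)) (XT.lf (nat_lit 0) (nat_lit 6939609813) (nat_lit 152) (nat_lit 66606354593) (nat_lit 0) (nat_lit 5264375997) (nat_lit 2) (nat_lit 5) (nat_lit 4) (nat_lit 4) (nat_lit 2) (nat_lit 4) (nat_lit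 347) (nat_lit 223) (nat_lit 210))) (XT.nd (nat_lit 78) (nat_lit 0) (nat_lit 0) (XT.lf (nat_lit 0) (nat_lit 10042965861) (nat_lit 152) (nat_lit 64282697025) (nat_lit 0) (nat_lit 8277659085) (nat_lit 2) (nat_lit 5) (nat_lit 4) (nat_lit 4) (nat_lit 2) (nat_lit 4) (nat_lit 348) (nat_lit 223) (nat_lit 209)) (XT.nd (nat_lit 78) (nat_lit 0) (nat_lit 0) (XT.lf (nat_lit 0) (nat_lit 13230400670) (nat_lit 152) (nat_lit 61979815648) (nat_lit 0) (nat_lit 11379310124) (nat_lit 2) (nat_lit 5) (nat_lit 4) (nat_lit 4) (nat_lit 2) (nat_lit 4) (nat_lit 349) (nat_lit 223) (nat_lit 208)) (XT.lf (nat_lit 0) (nat_lit 16509503371) (nat_lit 152) (nat_lit 59692227412) (nat_lit 0) (nat_lit 14576713996) (nat_lit 2) (nat_lit 5) (nat_lit 4) (nat_lit 4) (nat_lit 2) (nat_lit 4) (nat_lit 350) (nat_lit 223) (nat_lit 207)))))) (XT.nd (nat_lit 390) (nat_lit 0) (nat_lit 0) (XT.nd (nat_lit 156) (nat_lit 0) (nat_lit 0) (XT.nd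 (nat_lit 78) (nat_lit 0) (nat_lit 0) (XT.lf (nat_lit 0) (nat_lit 19888081352) (nat_lit 152) (nat_lit 57414485678) (nat_lit 0) (nat_lit 17877483568) (nat_lit 2) (nat_lit 5) (nat_lit 4) (nat_lit 4) (nat_lit 2) (nat_lit 4) (nat_lit 351) (nat_lit 223) (nat_lit 206)) (XT.lf (nat_lit 0) (nat_lit 23374178845) (nat_lit 152) (nat_lit 55141167251) (nat_lit 0) (nat_lit 21289477816) (nat_lit 2) (nat_lit 5) (nat_lit 4) (nat_lit 4) (nat_lit 2) (nat_lit 4) (nat_lit 352) (nat_lit 223) (nat_lit 205))) (XT.nd (nat_lit 78) (nat_lit 0) (nat_lit 0) (XT.lf (nat_lit 0) (nat_lit 26976096084) (nat_lit 152) (nat_lit 52866859469) (nat_lit 0) (nat_lit 24820820534) (nat_lit 2) (nat_lit 5) (nat_lit 4) (nat_lit 4) (nat_lit 2) (nat_lit 4) (nat_lit 353) (nat_lit 223) (nat_lit 204)) (XT.nd (nat_lit 78) (nat_lit 0) (nat_lit 0) (XT.lf (nat_lit 0) (nat_lit 30702409061) (nat_lit 152) (nat_lit 50586147312) (nat_lit 0) (nat_lit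 28479919682) (nat_lit 2) (nat_lit 5) (nat_lit 4) (nat_lit 4) (nat_lit 2) (nat_lit 4) (nat_lit 354) (nat_lit 223) (nat_lit 203)) (XT.lf (nat_lit 0) (nat_lit 34561989950) (nat_lit 152) (nat_lit 48293600515) (nat_lit 0) (nat_lit 32275487401) (nat_lit 2) (nat_lit 5) (nat_lit 4) (nat_lit 4) (nat_lit 2) (nat_lit 4) (nat_lit 355) (nat_lit 223) (nat_lit 202))))) (XT.nd (nat_lit 234) (nat_lit 0) (nat_lit 0) (XT.nd (nat_lit 78) (nat_lit 0) (nat_lit 0) (XT.lf (nat_lit 0) (nat_lit 38564028230) (nat_lit 152) (nat_lit 45983760632) (nat_lit 0) (nat_lit 36216560756) (nat_lit 2) (nat_lit 5) (nat_lit 4) (nat_lit 4) (nat_lit 2) (nat_lit 4) (nat_lit 356) (nat_lit 223) (nat_lit 201)) (XT.nd (nat_lit 78) (nat_lit 0) (nat_lit 0) (XT.lf (nat_lit 0) (nat_lit 42718052562) (nat_lit 152) (nat_lit 43651128044) (nat_lit 0) (nat_lit 40312523257) (nat_lit 2) (nat_lit 5) (nat_lit 4) (nat_lit 4) (nat_lit 2) (nat_lit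 4) (nat_lit 357) (nat_lit 223) (nat_lit 200)) (XT.lf (nat_lit 0) (nat_lit 47033953482) (nat_lit 152) (nat_lit 41290148864) (nat_lit 0) (nat_lit 44573127193) (nat_lit 2) (nat_lit 5) (nat_lit 4) (nat_lit 4) (nat_lit 2) (nat_lit 4) (nat_lit 358) (nat_lit 223) (nat_lit 199)))) (XT.nd (nat_lit 78) (nat_lit 0) (nat_lit 0) (XT.lf (nat_lit 0) (nat_lit 51522006943) (nat_lit 152) (nat_lit 38895201713) (nat_lit 0) (nat_lit 49008516861) (nat_lit 2) (nat_lit 5) (nat_lit 4) (nat_lit 4) (nat_lit 2) (nat_lit 4) (nat_lit 359) (nat_lit 223) (nat_lit 198)) (XT.nd (nat_lit 78) (nat_lit 0) (nat_lit 0) (XT.lf (nat_lit 0) (nat_lit 56192898788) (nat_lit 152) (nat_lit 36460584337) (nat_lit 0) (nat_lit 53629252712) (nat_lit 2) (nat_lit 5) (nat_lit 4) (nat_lit 4) (nat_lit 2) (nat_lit 4) (nat_lit 360) (nat_lit 223) (nat_lit 197)) (XT.lf (nat_lit 0) (nat_lit 61057750187) (nat_lit 152) (nat_lit 33980500027) (nat_lit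 0) (nat_lit 58446336497) (nat_lit 2) (nat_lit 5) (nat_lit 4) (nat_lit 4) (nat_lit 2) (nat_lit 4) (nat_lit 361) (nat_lit 223) (nat_lit 196))))))))
noncomputable def xc22 : XT := (XT.nd (nat_lit 1560) (nat_lit 0) (nat_lit 0) (XT.nd (nat_lit 780) (nat_lit 76) (nat_lit 0) (XT.nd (nat_lit 390) (nat_lit 0) (nat_lit 0) (XT.nd (nat_lit 156) (nat_lit 0) (nat_lit 0) (XT.nd (nat_lit 78) (nat_lit 0) (nat_lit 0) (XT.lf (nat_lit 0) (nat_lit 66128144120) (nat_lit 152) (nat_lit 31449043820) (nat_lit 0) (nat_lit 63471237465) (nat_lit 2) (nat_lit 5) (nat_lit 4) (nat_lit 4) (nat_lit 2) (nat_lit 4) (nat_lit 362) (nat_lit 223) (nat_lit 195)) (XT.lf (nat_lit 0) (nat_lit 71416152953) (nat_lit 152) (nat_lit 28860188440) (nat_lit 0) (nat_lit 68715919665) (nat_lit 2) (nat_lit 5) (nat_lit 4) (nat_lit 4) (nat_lit 2) (nat_lit 4) (nat_lit 363) (nat_lit 223) (nat_lit 194))) (XT.nd (nat_lit 78) (nat_lit 0) (nat_lit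 0) (XT.lf (nat_lit 0) (nat_lit 76934367184) (nat_lit 152) (nat_lit 26207769945) (nat_lit 0) (nat_lit 74192870436) (nat_lit 2) (nat_lit 5) (nat_lit 4) (nat_lit 4) (nat_lit 2) (nat_lit 4) (nat_lit 364) (nat_lit 223) (nat_lit 193)) (XT.nd (nat_lit 78) (nat_lit 0) (nat_lit 0) (XT.lf (nat_lit 0) (nat_lit 82695925418) (nat_lit 152) (nat_lit 23485473054) (nat_lit 0) (nat_lit 79915130136) (nat_lit 2) (nat_lit 5) (nat_lit 4) (nat_lit 4) (nat_lit 2) (nat_lit 4) (nat_lit 365) (nat_lit 223) (nat_lit 192)) (XT.lf (nat_lit 0) (nat_lit 88714545651) (nat_lit 152) (nat_lit 20686816107) (nat_lit 0) (nat_lit 85896323194) (nat_lit 2) (nat_lit 5) (nat_lit 4) (nat_lit 4) (nat_lit 2) (nat_lit 4) (nat_lit 366) (nat_lit 223) (nat_lit 191))))) (XT.nd (nat_lit 156) (nat_lit 0) (nat_lit 0) (XT.nd (nat_lit 78) (nat_lit 0) (nat_lit 0) (XT.lf (nat_lit 0) (nat_lit 95004557930) (nat_lit 152) (nat_lit 17805135634) (nat_lit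 0) (nat_lit 92150690545) (nat_lit 2) (nat_lit 5) (nat_lit 4) (nat_lit 4) (nat_lit 2) (nat_lit 4) (nat_lit 367) (nat_lit 223) (nat_lit 190)) (XT.lf (nat_lit 0) (nat_lit 101580938476) (nat_lit 152) (nat_lit 14833570493) (nat_lit 0) (nat_lit 98693123540) (nat_lit 2) (nat_lit 5) (nat_lit 4) (nat_lit 4) (nat_lit 2) (nat_lit 4) (nat_lit 368) (nat_lit 223) (nat_lit 189))) (XT.nd (nat_lit 78) (nat_lit 0) (nat_lit 0) (XT.lf (nat_lit 0) (nat_lit 108459345338) (nat_lit 152) (nat_lit 11765045528) (nat_lit 0) (nat_lit 105539199400) (nat_lit 2) (nat_lit 5) (nat_lit 4) (nat_lit 4) (nat_lit 2) (nat_lit 4) (nat_lit 369) (nat_lit 223) (nat_lit 188)) (XT.nd (nat_lit 78) (nat_lit 0) (nat_lit 0) (XT.lf (nat_lit 0) (nat_lit 115656155674) (nat_lit 152) (nat_lit 8592254727) (nat_lit 0) (nat_lit 112705218307) (nat_lit 2) (nat_lit 5) (nat_lit 4) (nat_lit 4) (nat_lit 2) (nat_lit 4) (nat_lit 370) (nat_lit 223)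 (nat_lit 187)) (XT.lf (nat_lit 0) (nat_lit 123188504748) (nat_lit 152) (nat_lit 5307643826) (nat_lit 0) (nat_lit 120208242210) (nat_lit 2) (nat_lit 5) (nat_lit 4) (nat_lit 4) (nat_lit 2) (nat_lit 4) (nat_lit 371) (nat_lit 223) (nat_lit 186)))))) (XT.nd (nat_lit 390) (nat_lit 0) (nat_lit 0) (XT.nd (nat_lit 156) (nat_lit 0) (nat_lit 0) (XT.nd (nat_lit 78) (nat_lit 76) (nat_lit 0) (XT.lf (nat_lit 0) (nat_lit 131074326723) (nat_lit 152) (nat_lit 1903392324) (nat_lit 0) (nat_lit 128066135451) (nat_lit 2) (nat_lit 5) (nat_lit 4) (nat_lit 4) (nat_lit 2) (nat_lit 4) (nat_lit 372) (nat_lit 223) (nat_lit 185)) (XT.lf (nat_lit 0) (nat_lit 1682454181) (nat_lit 76) (nat_lit 137676211010) (nat_lit 76) (nat_lit 134641420944) (nat_lit 1) (nat_lit 4) (nat_lit 2) (nat_lit 5) (nat_lit 2) (nat_lit 4) (nat_lit 373) (nat_lit 223) (nat_lit 184))) (XT.nd (nat_lit 78) (nat_lit 0) (nat_lit 0) (XT.lf (nat_lit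 0) (nat_lit 5471892829) (nat_lit 76) (nat_lit 142595917505) (nat_lit 76) (nat_lit 139535795254) (nat_lit 1) (nat_lit 4) (nat_lit 2) (nat_lit 5) (nat_lit 2) (nat_lit 4) (nat_lit 374) (nat_lit 223) (nat_lit 183)) (XT.nd (nat_lit 78) (nat_lit 0) (nat_lit 0) (XT.lf (nat_lit 0) (nat_lit 9411011345) (nat_lit 76) (nat_lit 147780786989) (nat_lit 76) (nat_lit 144696538847) (nat_lit 1) (nat_lit 4) (nat_lit 2) (nat_lit 5) (nat_lit 2) (nat_lit 4) (nat_lit 375) (nat_lit 223) (nat_lit 182)) (XT.lf (nat_lit 0) (nat_lit 13509188583) (nat_lit 76) (nat_lit 153243164390) (nat_lit 76) (nat_lit 150135939209) (nat_lit 1) (nat_lit 4) (nat_lit 2) (nat_lit 5) (nat_lit 2) (nat_lit 4) (nat_lit 376) (nat_lit 223) (nat_lit 181))))) (XT.nd (nat_lit 156) (nat_lit 0) (nat_lit 0) (XT.nd (nat_lit 78) (nat_lit 0) (nat_lit 0) (XT.lf (nat_lit 0) (nat_lit 17776182107) (nat_lit 76) (nat_lit 158996055368) (nat_lit 76) (nat_lit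 155866947293) (nat_lit 1) (nat_lit 4) (nat_lit 2) (nat_lit 5) (nat_lit 2) (nat_lit 4) (nat_lit 377) (nat_lit 223) (nat_lit 180)) (XT.lf (nat_lit 0) (nat_lit 22222151427) (nat_lit 76) (nat_lit 165053157282) (nat_lit 76) (nat_lit 161903208356) (nat_lit 1) (nat_lit 4) (nat_lit 2) (nat_lit 5) (nat_lit 2) (nat_lit 4) (nat_lit 378) (nat_lit 223) (nat_lit 179))) (XT.nd (nat_lit 78) (nat_lit 0) (nat_lit 0) (XT.lf (nat_lit 0) (nat_lit 26857682183) (nat_lit 76) (nat_lit 171428891803) (nat_lit 76) (nat_lit 168259094447) (nat_lit 1) (nat_lit 4) (nat_lit 2) (nat_lit 5) (nat_lit 2) (nat_lit 4) (nat_lit 379) (nat_lit 223) (nat_lit 178)) (XT.nd (nat_lit 78) (nat_lit 0) (nat_lit 0) (XT.lf (nat_lit 0) (nat_lit 31693811354) (nat_lit 76) (nat_lit 178138439253) (nat_lit 76) (nat_lit 174949738630) (nat_lit 1) (nat_lit 4) (nat_lit 2) (nat_lit 5) (nat_lit 2) (nat_lit 4) (nat_lit 380) (nat_lit 223) (nat_lit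 177)) (XT.lf (nat_lit 0) (nat_lit 36742053532) (nat_lit 76) (nat_lit 185197774743) (nat_lit 76) (nat_lit 181991071010) (nat_lit 1) (nat_lit 4) (nat_lit 2) (nat_lit 5) (nat_lit 2) (nat_lit 4) (nat_lit 381) (nat_lit 223) (nat_lit 176))))))) (XT.nd (nat_lit 780) (nat_lit 0) (nat_lit 0) (XT.nd (nat_lit 390) (nat_lit 0) (nat_lit 0) (XT.nd (nat_lit 156) (nat_lit 0) (nat_lit 0) (XT.nd (nat_lit 78) (nat_lit 0) (nat_lit 0) (XT.lf (nat_lit 0) (nat_lit 42014428342) (nat_lit 76) (nat_lit 192623706216) (nat_lit 76) (nat_lit 189399856663) (nat_lit 1) (nat_lit 4) (nat_lit 2) (nat_lit 5) (nat_lit 2) (nat_lit 4) (nat_lit 382) (nat_lit 223) (nat_lit 175)) (XT.lf (nat_lit 0) (nat_lit 47523489057) (nat_lit 76) (nat_lit 200433914461) (nat_lit 76) (nat_lit 197193735555) (nat_lit 1) (nat_lit 4) (nat_lit 2) (nat_lit 5) (nat_lit 2) (nat_lit 4) (nat_lit 383) (nat_lit 223) (nat_lit 174))) (XT.nd (nat_lit 78) (nat_lit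 0) (nat_lit 0) (XT.lf (nat_lit 0) (nat_lit 53282352489) (nat_lit 76) (nat_lit 208646995212) (nat_lit 76) (nat_lit 205391264541) (nat_lit 1) (nat_lit 4) (nat_lit 2) (nat_lit 5) (nat_lit 2) (nat_lit 4) (nat_lit 384) (nat_lit 223) (nat_lit 173)) (XT.nd (nat_lit 78) (nat_lit 0) (nat_lit 0) (XT.lf (nat_lit 0) (nat_lit 59304730217) (nat_lit 76) (nat_lit 217282503422) (nat_lit 76) (nat_lit 214011961547) (nat_lit 1) (nat_lit 4) (nat_lit 2) (nat_lit 5) (nat_lit 2) (nat_lit 4) (nat_lit 385) (nat_lit 223) (nat_lit 172)) (XT.lf (nat_lit 0) (nat_lit 65604961236) (nat_lit 76) (nat_lit 226360999826) (nat_lit 76) (nat_lit 223076352043) (nat_lit 1) (nat_lit 4) (nat_lit 2) (nat_lit 5) (nat_lit 2) (nat_lit 4) (nat_lit 386) (nat_lit 223) (nat_lit 171))))) (XT.nd (nat_lit 156) (nat_lit 0) (nat_lit 0) (XT.nd (nat_lit 78) (nat_lit 0) (nat_lit 0) (XT.lf (nat_lit 0) (nat_lit 72198046095) (nat_lit 76) (nat_lit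 235904099891) (nat_lit 76) (nat_lit 232606017909) (nat_lit 1) (nat_lit 4) (nat_lit 2) (nat_lit 5) (nat_lit 2) (nat_lit 4) (nat_lit 387) (nat_lit 223) (nat_lit 170)) (XT.lf (nat_lit 0) (nat_lit 79099682616) (nat_lit 76) (nat_lit 245934525284) (nat_lit 76) (nat_lit 242623648828) (nat_lit 1) (nat_lit 4) (nat_lit 2) (nat_lit 5) (nat_lit 2) (nat_lit 4) (nat_lit 388) (nat_lit 223) (nat_lit 169))) (XT.nd (nat_lit 78) (nat_lit 0) (nat_lit 0) (XT.lf (nat_lit 0) (nat_lit 86326303267) (nat_lit 76) (nat_lit 256476157971) (nat_lit 76) (nat_lit 253153096300) (nat_lit 1) (nat_lit 4) (nat_lit 2) (nat_lit 5) (nat_lit 2) (nat_lit 4) (nat_lit 389) (nat_lit 223) (nat_lit 168)) (XT.nd (nat_lit 78) (nat_lit 0) (nat_lit 0) (XT.lf (nat_lit 0) (nat_lit 93895114288) (nat_lit 76) (nat_lit 267554097077) (nat_lit 76) (nat_lit 264219430440) (nat_lit 1) (nat_lit 4) (nat_lit 2) (nat_lit 5) (nat_lit 2) (nat_lit 4) (nat_lit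 390) (nat_lit 223) (nat_lit 167)) (XT.lf (nat_lit 0) (nat_lit 101824136656) (nat_lit 76) (nat_lit 279194718646) (nat_lit 76) (nat_lit 275848999661) (nat_lit 1) (nat_lit 4) (nat_lit 2) (nat_lit 5) (nat_lit 2) (nat_lit 4) (nat_lit 391) (nat_lit 223) (nat_lit 166)))))) (XT.nd (nat_lit 36192) (nat_lit 0) (nat_lit 228) (XT.nd (nat_lit 35958) (nat_lit 0) (nat_lit 304) (XT.nd (nat_lit 78) (nat_lit 0) (nat_lit 0) (XT.lf (nat_lit 0) (nat_lit 110132248997) (nat_lit 76) (nat_lit 291425738446) (nat_lit 76) (nat_lit 288069493415) (nat_lit 1) (nat_lit 4) (nat_lit 2) (nat_lit 5) (nat_lit 2) (nat_lit 4) (nat_lit 392) (nat_lit 223) (nat_lit 165)) (XT.lf (nat_lit 0) (nat_lit 118839232530) (nat_lit 76) (nat_lit 304276277952) (nat_lit 76) (nat_lit 300910008114) (nat_lit 1) (nat_lit 4) (nat_lit 2) (nat_lit 5) (nat_lit 2) (nat_lit 4) (nat_lit 393) (nat_lit 223) (nat_lit 164))) (XT.nd (nat_lit 78) (nat_lit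 0) (nat_lit 0) (XT.lf (nat_lit 0) (nat_lit 3393359204) (nat_lit 152) (nat_lit 13092426201) (nat_lit 0) (nat_lit 3393359204) (nat_lit 5) (nat_lit 5) (nat_lit 7) (nat_lit 4) (nat_lit 5) (nat_lit 4) (nat_lit 332) (nat_lit 224) (nat_lit 224)) (XT.nd (nat_lit 78) (nat_lit 0) (nat_lit 0) (XT.lf (nat_lit 0) (nat_lit 11008316937) (nat_lit 152) (nat_lit 19711602009) (nat_lit 0) (nat_lit 10821061725) (nat_lit 5) (nat_lit 5) (nat_lit 7) (nat_lit 4) (nat_lit 5) (nat_lit 4) (nat_lit 333) (nat_lit 224) (nat_lit 223)) (XT.lf (nat_lit 0) (nat_lit 15312551381) (nat_lit 152) (nat_lit 13159759922) (nat_lit 0) (nat_lit 14946957870) (nat_lit 5) (nat_lit 5) (nat_lit 7) (nat_lit 4) (nat_lit 5) (nat_lit 4) (nat_lit 334) (nat_lit 224) (nat_lit 222))))) (XT.nd (nat_lit 234) (nat_lit 0) (nat_lit 0) (XT.nd (nat_lit 78) (nat_lit 76) (nat_lit 0) (XT.lf (nat_lit 0) (nat_lit 19709669916) (nat_lit 152) (nat_lit 6513726515)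 (nat_lit 0) (nat_lit 19174230408) (nat_lit 5) (nat_lit 5) (nat_lit 7) (nat_lit 4) (nat_lit 5) (nat_lit 4) (nat_lit 335) (nat_lit 224) (nat_lit 221)) (XT.nd (nat_lit 78) (nat_lit 0) (nat_lit 0) (XT.lf (nat_lit 0) (nat_lit 250334362) (nat_lit 76) (nat_lit 23963715931) (nat_lit 76) (nat_lit 23266518330) (nat_lit 4) (nat_lit 4) (nat_lit 5) (nat_lit 5) (nat_lit 5) (nat_lit 4) (nat_lit 336) (nat_lit 224) (nat_lit 220)) (XT.lf (nat_lit 0) (nat_lit 7360038963) (nat_lit 76) (nat_lit 21579554531) (nat_lit 76) (nat_lit 20728301603) (nat_lit 4) (nat_lit 4) (nat_lit 5) (nat_lit 5) (nat_lit 5) (nat_lit 4) (nat_lit 337) (nat_lit 224) (nat_lit 219)))) (XT.nd (nat_lit 78) (nat_lit 0) (nat_lit 0) (XT.lf (nat_lit 0) (nat_lit 14616941941) (nat_lit 76) (nat_lit 19175548766) (nat_lit 76) (nat_lit 18177576479) (nat_lit 4) (nat_lit 4) (nat_lit 5) (nat_lit 5) (nat_lit 5) (nat_lit 4) (nat_lit 338) (nat_lit 224)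 (nat_lit 218)) (XT.nd (nat_lit 78) (nat_lit 0) (nat_lit 0) (XT.lf (nat_lit 0) (nat_lit 22038321635) (nat_lit 76) (nat_lit 16745974814) (nat_lit 76) (nat_lit 15608269804) (nat_lit 4) (nat_lit 4) (nat_lit 5) (nat_lit 5) (nat_lit 5) (nat_lit 4) (nat_lit 339) (nat_lit 224) (nat_lit 217)) (XT.lf (nat_lit 0) (nat_lit 29641847997) (nat_lit 76) (nat_lit 14285047974) (nat_lit 76) (nat_lit 13014264181) (nat_lit 4) (nat_lit 4) (nat_lit 5) (nat_lit 5) (nat_lit 5) (nat_lit 4) (nat_lit 340) (nat_lit 224) (nat_lit 216))))))))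
noncomputable def xc23 : XT := (XT.nd (nat_lit 1638) (nat_lit 76) (nat_lit 0) (XT.nd (nat_lit 780) (nat_lit 0) (nat_lit 0) (XT.nd (nat_lit 390) (nat_lit 76) (nat_lit 0) (XT.nd (nat_lit 156) (nat_lit 76) (nat_lit 0) (XT.nd (nat_lit 78) (nat_lit 0) (nat_lit 0) (XT.lf (nat_lit 0) (nat_lit 37445624661) (nat_lit 76) (nat_lit 11786908898) (nat_lit 76) (nat_lit 10389383406) (nat_lit 4) (nat_lit 4) (nat_lit 5) (nat_lit 5) (nat_lit 5) (nat_lit 4) (nat_lit 341) (nat_lit 224) (nat_lit 215)) (XT.lf (nat_lit 0) (nat_lit 45468232049) (nat_lit 76) (nat_lit 9245609634) (nat_lit 76) (nat_lit 7727377762) (nat_lit 4) (nat_lit 4) (nat_lit 5) (nat_lit 5) (nat_lit 5) (nat_lit 4) (nat_lit 342) (nat_lit 224) (nat_lit 214))) (XT.nd (nat_lit 78) (nat_lit 76) (nat_lit 0) (XT.lf (nat_lit 0) (nat_lit 53728771606) (nat_lit 76) (nat_lit 6655099470) (nat_lit 76) (nat_lit 5021909141) (nat_lit 4) (nat_lit 4) (nat_lit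 5) (nat_lit 5) (nat_lit 5) (nat_lit 4) (nat_lit 343) (nat_lit 224) (nat_lit 213)) (XT.nd (nat_lit 78) (nat_lit 76) (nat_lit 0) (XT.lf (nat_lit 0) (nat_lit 62246911283) (nat_lit 76) (nat_lit 4009210525) (nat_lit 76) (nat_lit 2266535952) (nat_lit 4) (nat_lit 4) (nat_lit 5) (nat_lit 5) (nat_lit 5) (nat_lit 4) (nat_lit 344) (nat_lit 224) (nat_lit 212)) (XT.lf (nat_lit 0) (nat_lit 527849141) (nat_lit 152) (nat_lit 764854542) (nat_lit 76) (nat_lit 70506143844) (nat_lit 3) (nat_lit 5) (nat_lit 5) (nat_lit 5) (nat_lit 4) (nat_lit 4) (nat_lit 345) (nat_lit 224) (nat_lit 211))))) (XT.nd (nat_lit 156) (nat_lit 0) (nat_lit 0) (XT.nd (nat_lit 78) (nat_lit 0) (nat_lit 0) (XT.lf (nat_lit 0) (nat_lit 3414078540) (nat_lit 152) (nat_lit 70261010582) (nat_lit 0) (nat_lit 1560506426) (nat_lit 2) (nat_lit 5) (nat_lit 4) (nat_lit 4) (nat_lit 2) (nat_lit 4) (nat_lit 346) (nat_lit 224) (nat_lit 210)) (XT.lf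 (nat_lit 0) (nat_lit 6404333309) (nat_lit 152) (nat_lit 67981194071) (nat_lit 0) (nat_lit 4460688236) (nat_lit 2) (nat_lit 5) (nat_lit 4) (nat_lit 4) (nat_lit 2) (nat_lit 4) (nat_lit 347) (nat_lit 224) (nat_lit 209))) (XT.nd (nat_lit 78) (nat_lit 0) (nat_lit 0) (XT.lf (nat_lit 0) (nat_lit 9473011775) (nat_lit 152) (nat_lit 65724345805) (nat_lit 0) (nat_lit 7443582932) (nat_lit 2) (nat_lit 5) (nat_lit 4) (nat_lit 4) (nat_lit 2) (nat_lit 4) (nat_lit 348) (nat_lit 224) (nat_lit 208)) (XT.nd (nat_lit 78) (nat_lit 0) (nat_lit 0) (XT.lf (nat_lit 0) (nat_lit 12627420317) (nat_lit 152) (nat_lit 63485092336) (nat_lit 0) (nat_lit 10516292645) (nat_lit 2) (nat_lit 5) (nat_lit 4) (nat_lit 4) (nat_lit 2) (nat_lit 4) (nat_lit 349) (nat_lit 224) (nat_lit 207)) (XT.lf (nat_lit 0) (nat_lit 15875069430) (nat_lit 152) (nat_lit 61258102106) (nat_lit 0) (nat_lit 13686133349) (nat_lit 2) (nat_lit 5) (nat_lit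 4) (nat_lit 4) (nat_lit 2) (nat_lit 4) (nat_lit 350) (nat_lit 224) (nat_lit 206)))))) (XT.nd (nat_lit 390) (nat_lit 0) (nat_lit 0) (XT.nd (nat_lit 156) (nat_lit 0) (nat_lit 0) (XT.nd (nat_lit 78) (nat_lit 0) (nat_lit 0) (XT.lf (nat_lit 0) (nat_lit 19223691613) (nat_lit 152) (nat_lit 59038072759) (nat_lit 0) (nat_lit 16960652285) (nat_lit 2) (nat_lit 5) (nat_lit 4) (nat_lit 4) (nat_lit 2) (nat_lit 4) (nat_lit 351) (nat_lit 224) (nat_lit 205)) (XT.lf (nat_lit 0) (nat_lit 22681259775) (nat_lit 152) (nat_lit 56819718511) (nat_lit 0) (nat_lit 20347645927) (nat_lit 2) (nat_lit 5) (nat_lit 4) (nat_lit 4) (nat_lit 2) (nat_lit 4) (nat_lit 352) (nat_lit 224) (nat_lit 204))) (XT.nd (nat_lit 78) (nat_lit 0) (nat_lit 0) (XT.lf (nat_lit 0) (nat_lit 26256006221) (nat_lit 152) (nat_lit 54597757565) (nat_lit 0) (nat_lit 23855178545) (nat_lit 2) (nat_lit 5) (nat_lit 4) (nat_lit 4) (nat_lit 2) (nat_lit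 4) (nat_lit 353) (nat_lit 224) (nat_lit 203)) (XT.nd (nat_lit 78) (nat_lit 0) (nat_lit 0) (XT.lf (nat_lit 0) (nat_lit 29956442254) (nat_lit 152) (nat_lit 52366899539) (nat_lit 0) (nat_lit 27491601407) (nat_lit 2) (nat_lit 5) (nat_lit 4) (nat_lit 4) (nat_lit 2) (nat_lit 4) (nat_lit 354) (nat_lit 224) (nat_lit 202)) (XT.lf (nat_lit 0) (nat_lit 33791378434) (nat_lit 152) (nat_lit 50121832866) (nat_lit 0) (nat_lit 31265572663) (nat_lit 2) (nat_lit 5) (nat_lit 4) (nat_lit 4) (nat_lit 2) (nat_lit 4) (nat_lit 355) (nat_lit 224) (nat_lit 201))))) (XT.nd (nat_lit 234) (nat_lit 0) (nat_lit 0) (XT.nd (nat_lit 78) (nat_lit 0) (nat_lit 0) (XT.lf (nat_lit 0) (nat_lit 37769945561) (nat_lit 152) (nat_lit 47857212148) (nat_lit 0) (nat_lit 35186077958) (nat_lit 2) (nat_lit 5) (nat_lit 4) (nat_lit 4) (nat_lit 2) (nat_lit 4) (nat_lit 356) (nat_lit 224) (nat_lit 200)) (XT.nd (nat_lit 78) (nat_lit 0) (nat_lit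 0) (XT.lf (nat_lit 0) (nat_lit 41901616416) (nat_lit 152) (nat_lit 45567645432) (nat_lit 0) (nat_lit 39262451830) (nat_lit 2) (nat_lit 5) (nat_lit 4) (nat_lit 4) (nat_lit 2) (nat_lit 4) (nat_lit 357) (nat_lit 224) (nat_lit 199)) (XT.lf (nat_lit 0) (nat_lit 46196228309) (nat_lit 152) (nat_lit 43247681368) (nat_lit 0) (nat_lit 43504399929) (nat_lit 2) (nat_lit 5) (nat_lit 4) (nat_lit 4) (nat_lit 2) (nat_lit 4) (nat_lit 358) (nat_lit 224) (nat_lit 198)))) (XT.nd (nat_lit 78) (nat_lit 0) (nat_lit 0) (XT.lf (nat_lit 0) (nat_lit 50664006508) (nat_lit 152) (nat_lit 40891796233) (nat_lit 0) (nat_lit 47922022133) (nat_lit 2) (nat_lit 5) (nat_lit 4) (nat_lit 4) (nat_lit 2) (nat_lit 4) (nat_lit 359) (nat_lit 224) (nat_lit 197)) (XT.nd (nat_lit 78) (nat_lit 0) (nat_lit 0) (XT.lf (nat_lit 0) (nat_lit 55315588578) (nat_lit 152) (nat_lit 38494380777) (nat_lit 0) (nat_lit 52525836590) (nat_lit 2) (nat_lit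 5) (nat_lit 4) (nat_lit 4) (nat_lit 2) (nat_lit 4) (nat_lit 360) (nat_lit 224) (nat_lit 196)) (XT.lf (nat_lit 0) (nat_lit 60162049715) (nat_lit 152) (nat_lit 36049726866) (nat_lit 0) (nat_lit 57326804763) (nat_lit 2) (nat_lit 5) (nat_lit 4) (nat_lit 4) (nat_lit 2) (nat_lit 4) (nat_lit 361) (nat_lit 224) (nat_lit 195))))))) (XT.nd (nat_lit 780) (nat_lit 76) (nat_lit 0) (XT.nd (nat_lit 390) (nat_lit 0) (nat_lit 0) (XT.nd (nat_lit 156) (nat_lit 0) (nat_lit 0) (XT.nd (nat_lit 78) (nat_lit 0) (nat_lit 0) (XT.lf (nat_lit 0) (nat_lit 65214929113) (nat_lit 152) (nat_lit 33552013897) (nat_lit 0) (nat_lit 62336357528) (nat_lit 2) (nat_lit 5) (nat_lit 4) (nat_lit 4) (nat_lit 2) (nat_lit 4) (nat_lit 362) (nat_lit 224) (nat_lit 194)) (XT.lf (nat_lit 0) (nat_lit 70486257437) (nat_lit 152) (nat_lit 30995294933) (nat_lit 0) (nat_lit 67566422391) (nat_lit 2) (nat_lit 5) (nat_lit 4) (nat_lit 4) (nat_lit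 2) (nat_lit 4) (nat_lit 363) (nat_lit 224) (nat_lit 193))) (XT.nd (nat_lit 78) (nat_lit 0) (nat_lit 0) (XT.lf (nat_lit 0) (nat_lit 75988585469) (nat_lit 152) (nat_lit 28373482550) (nat_lit 0) (nat_lit 73029451889) (nat_lit 2) (nat_lit 5) (nat_lit 4) (nat_lit 4) (nat_lit 2) (nat_lit 4) (nat_lit 364) (nat_lit 224) (nat_lit 192)) (XT.nd (nat_lit 78) (nat_lit 0) (nat_lit 0) (XT.lf (nat_lit 0) (nat_lit 81735013989) (nat_lit 152) (nat_lit 25680334336) (nat_lit 0) (nat_lit 78738453235) (nat_lit 2) (nat_lit 5) (nat_lit 4) (nat_lit 4) (nat_lit 2) (nat_lit 4) (nat_lit 365) (nat_lit 224) (nat_lit 191)) (XT.lf (nat_lit 0) (nat_lit 87739224971) (nat_lit 152) (nat_lit 22909438034) (nat_lit 0) (nat_lit 84707019287) (nat_lit 2) (nat_lit 5) (nat_lit 4) (nat_lit 4) (nat_lit 2) (nat_lit 4) (nat_lit 366) (nat_lit 224) (nat_lit 190))))) (XT.nd (nat_lit 156) (nat_lit 0) (nat_lit 0) (XT.nd (nat_lit 78) (nat_lit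 0) (nat_lit 0) (XT.lf (nat_lit 0) (nat_lit 94015514154) (nat_lit 152) (nat_lit 20054196271) (nat_lit 0) (nat_lit 90949360920) (nat_lit 2) (nat_lit 5) (nat_lit 4) (nat_lit 4) (nat_lit 2) (nat_lit 4) (nat_lit 367) (nat_lit 224) (nat_lit 189)) (XT.lf (nat_lit 0) (nat_lit 100578825084) (nat_lit 152) (nat_lit 17107810853) (nat_lit 0) (nat_lit 97480340849) (nat_lit 2) (nat_lit 5) (nat_lit 4) (nat_lit 4) (nat_lit 2) (nat_lit 4) (nat_lit 368) (nat_lit 224) (nat_lit 188))) (XT.nd (nat_lit 78) (nat_lit 0) (nat_lit 0) (XT.lf (nat_lit 0) (nat_lit 107444784693) (nat_lit 152) (nat_lit 14063266577) (nat_lit 0) (nat_lit 104315509029) (nat_lit 2) (nat_lit 5) (nat_lit 4) (nat_lit 4) (nat_lit 2) (nat_lit 4) (nat_lit 369) (nat_lit 224) (nat_lit 187)) (XT.nd (nat_lit 78) (nat_lit 0) (nat_lit 0) (XT.lf (nat_lit 0) (nat_lit 114629740503) (nat_lit 152) (nat_lit 10913314527) (nat_lit 0) (nat_lit 111471139667)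 (nat_lit 2) (nat_lit 5) (nat_lit 4) (nat_lit 4) (nat_lit 2) (nat_lit 4) (nat_lit 370) (nat_lit 224) (nat_lit 186)) (XT.lf (nat_lit 0) (nat_lit 122150799551) (nat_lit 152) (nat_lit 7650454818) (nat_lit 0) (nat_lit 118964269982) (nat_lit 2) (nat_lit 5) (nat_lit 4) (nat_lit 4) (nat_lit 2) (nat_lit 4) (nat_lit 371) (nat_lit 224) (nat_lit 185)))))) (XT.nd (nat_lit 390) (nat_lit 0) (nat_lit 0) (XT.nd (nat_lit 156) (nat_lit 76) (nat_lit 0) (XT.nd (nat_lit 78) (nat_lit 0) (nat_lit 0) (XT.lf (nat_lit 0) (nat_lit 130025869122) (nat_lit 152) (nat_lit 4266918737) (nat_lit 0) (nat_lit 126812740758) (nat_lit 2) (nat_lit 5) (nat_lit 4) (nat_lit 4) (nat_lit 2) (nat_lit 4) (nat_lit 372) (nat_lit 224) (nat_lit 184)) (XT.lf (nat_lit 0) (nat_lit 138273699380) (nat_lit 152) (nat_lit 754650244) (nat_lit 0) (nat_lit 135035238831) (nat_lit 2) (nat_lit 5) (nat_lit 4) (nat_lit 4) (nat_lit 2) (nat_lit 4) (nat_lit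 373) (nat_lit 224) (nat_lit 183))) (XT.nd (nat_lit 78) (nat_lit 0) (nat_lit 0) (XT.lf (nat_lit 0) (nat_lit 2990425495) (nat_lit 76) (nat_lit 143970191445) (nat_lit 76) (nat_lit 140707605005) (nat_lit 1) (nat_lit 4) (nat_lit 2) (nat_lit 5) (nat_lit 2) (nat_lit 4) (nat_lit 374) (nat_lit 224) (nat_lit 182)) (XT.nd (nat_lit 78) (nat_lit 0) (nat_lit 0) (XT.lf (nat_lit 0) (nat_lit 6911057569) (nat_lit 76) (nat_lit 149163970413) (nat_lit 76) (nat_lit 145878406934) (nat_lit 1) (nat_lit 4) (nat_lit 2) (nat_lit 5) (nat_lit 2) (nat_lit 4) (nat_lit 375) (nat_lit 224) (nat_lit 181)) (XT.lf (nat_lit 0) (nat_lit 10991628673) (nat_lit 76) (nat_lit 154634833036) (nat_lit 76) (nat_lit 151327386664) (nat_lit 1) (nat_lit 4) (nat_lit 2) (nat_lit 5) (nat_lit 2) (nat_lit 4) (nat_lit 376) (nat_lit 224) (nat_lit 180))))) (XT.nd (nat_lit 234) (nat_lit 0) (nat_lit 0) (XT.nd (nat_lit 78) (nat_lit 0) (nat_lit 0)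 (XT.lf (nat_lit 0) (nat_lit 15241854451) (nat_lit 76) (nat_lit 160395805179) (nat_lit 76) (nat_lit 157067517955) (nat_lit 1) (nat_lit 4) (nat_lit 2) (nat_lit 5) (nat_lit 2) (nat_lit 4) (nat_lit 377) (nat_lit 224) (nat_lit 179)) (XT.nd (nat_lit 78) (nat_lit 0) (nat_lit 0) (XT.lf (nat_lit 0) (nat_lit 19671854488) (nat_lit 76) (nat_lit 166460603440) (nat_lit 76) (nat_lit 163112467786) (nat_lit 1) (nat_lit 4) (nat_lit 2) (nat_lit 5) (nat_lit 2) (nat_lit 4) (nat_lit 378) (nat_lit 224) (nat_lit 178)) (XT.lf (nat_lit 0) (nat_lit 24292176403) (nat_lit 76) (nat_lit 172843667816) (nat_lit 76) (nat_lit 169476628896) (nat_lit 1) (nat_lit 4) (nat_lit 2) (nat_lit 5) (nat_lit 2) (nat_lit 4) (nat_lit 379) (nat_lit 224) (nat_lit 177)))) (XT.nd (nat_lit 78) (nat_lit 0) (nat_lit 0) (XT.lf (nat_lit 0) (nat_lit 29113820964) (nat_lit 76) (nat_lit 179560196080) (nat_lit 76) (nat_lit 176175154048) (nat_lit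 1) (nat_lit 4) (nat_lit 2) (nat_lit 5) (nat_lit 2) (nat_lit 4) (nat_lit 380) (nat_lit 224) (nat_lit 176)) (XT.nd (nat_lit 78) (nat_lit 0) (nat_lit 0) (XT.lf (nat_lit 0) (nat_lit 34148268275) (nat_lit 76) (nat_lit 186626179964) (nat_lit 76) (nat_lit 183223992113) (nat_lit 1) (nat_lit 4) (nat_lit 2) (nat_lit 5) (nat_lit 2) (nat_lit 4) (nat_lit 381) (nat_lit 224) (nat_lit 175)) (XT.lf (nat_lit 0) (nat_lit 39407505117) (nat_lit 76) (nat_lit 194058443241) (nat_lit 76) (nat_lit 190639926037) (nat_lit 1) (nat_lit 4) (nat_lit 2) (nat_lit 5) (nat_lit 2) (nat_lit 4) (nat_lit 382) (nat_lit 224) (nat_lit 174))))))))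
noncomputable def xc24 : XT := (XT.nd (nat_lit 37206) (nat_lit 0) (nat_lit 76) (XT.nd (nat_lit 780) (nat_lit 0) (nat_lit 0) (XT.nd (nat_lit 390) (nat_lit 0) (nat_lit 0) (XT.nd (nat_lit 156) (nat_lit 0) (nat_lit 0) (XT.nd (nat_lit 78) (nat_lit 0) (nat_lit 0) (XT.lf (nat_lit 0) (nat_lit 44904053481) (nat_lit 76) (nat_lit 201874681775) (nat_lit 76) (nat_lit 198440612807) (nat_lit 1) (nat_lit 4) (nat_lit 2) (nat_lit 5) (nat_lit 2) (nat_lit 4) (nat_lit 383) (nat_lit 224) (nat_lit 173)) (XT.lf (nat_lit 0) (nat_lit 50651000389) (nat_lit 76) (nat_lit 210093505659) (nat_lit 76) (nat_lit 206644625486) (nat_lit 1) (nat_lit 4) (nat_lit 2) (nat_lit 5) (nat_lit 2) (nat_lit 4) (nat_lit 384) (nat_lit 224) (nat_lit 172))) (XT.nd (nat_lit 78) (nat_lit 0) (nat_lit 0) (XT.lf (nat_lit 0) (nat_lit 56662029045) (nat_lit 76) (nat_lit 218734483519) (nat_lit 76) (nat_lit 215271497438) (nat_lit 1) (nat_lit 4)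 (nat_lit 2) (nat_lit 5) (nat_lit 2) (nat_lit 4) (nat_lit 385) (nat_lit 224) (nat_lit 171)) (XT.nd (nat_lit 78) (nat_lit 0) (nat_lit 0) (XT.lf (nat_lit 0) (nat_lit 62951451425) (nat_lit 76) (nat_lit 227818189114) (nat_lit 76) (nat_lit 224341768834) (nat_lit 1) (nat_lit 4) (nat_lit 2) (nat_lit 5) (nat_lit 2) (nat_lit 4) (nat_lit 386) (nat_lit 224) (nat_lit 170)) (XT.lf (nat_lit 0) (nat_lit 69534242342) (nat_lit 76) (nat_lit 237366250313) (nat_lit 76) (nat_lit 233877035559) (nat_lit 1) (nat_lit 4) (nat_lit 2) (nat_lit 5) (nat_lit 2) (nat_lit 4) (nat_lit 387) (nat_lit 224) (nat_lit 169))))) (XT.nd (nat_lit 156) (nat_lit 0) (nat_lit 0) (XT.nd (nat_lit 78) (nat_lit 0) (nat_lit 0) (XT.lf (nat_lit 0) (nat_lit 76426075109) (nat_lit 76) (nat_lit 247401400596) (nat_lit 76) (nat_lit 243900000628) (nat_lit 1) (nat_lit 4) (nat_lit 2) (nat_lit 5) (nat_lit 2) (nat_lit 4) (nat_lit 388) (nat_lit 224)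 (nat_lit 168)) (XT.lf (nat_lit 0) (nat_lit 83643358851) (nat_lit 76) (nat_lit 257947533178) (nat_lit 76) (nat_lit 254434528243) (nat_lit 1) (nat_lit 4) (nat_lit 2) (nat_lit 5) (nat_lit 2) (nat_lit 4) (nat_lit 389) (nat_lit 224) (nat_lit 167))) (XT.nd (nat_lit 78) (nat_lit 0) (nat_lit 0) (XT.lf (nat_lit 0) (nat_lit 91203277577) (nat_lit 76) (nat_lit 269029757898) (nat_lit 76) (nat_lit 265505700615) (nat_lit 1) (nat_lit 4) (nat_lit 2) (nat_lit 5) (nat_lit 2) (nat_lit 4) (nat_lit 390) (nat_lit 224) (nat_lit 166)) (XT.nd (nat_lit 78) (nat_lit 0) (nat_lit 0) (XT.lf (nat_lit 0) (nat_lit 99123831094) (nat_lit 76) (nat_lit 280674461005) (nat_lit 76) (nat_lit 277139877675) (nat_lit 1) (nat_lit 4) (nat_lit 2) (nat_lit 5) (nat_lit 2) (nat_lit 4) (nat_lit 391) (nat_lit 224) (nat_lit 165)) (XT.lf (nat_lit 0) (nat_lit 107423877862) (nat_lit 76) (nat_lit 292909367983) (nat_lit 76) (nat_lit 289364759848)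 (nat_lit 1) (nat_lit 4) (nat_lit 2) (nat_lit 5) (nat_lit 2) (nat_lit 4) (nat_lit 392) (nat_lit 224) (nat_lit 164)))))) (XT.nd (nat_lit 36036) (nat_lit 0) (nat_lit 228) (XT.nd (nat_lit 35802) (nat_lit 0) (nat_lit 304) (XT.nd (nat_lit 35724) (nat_lit 0) (nat_lit 456) (XT.lf (nat_lit 0) (nat_lit 116123179898) (nat_lit 76) (nat_lit 305763609563) (nat_lit 76) (nat_lit 302209453994) (nat_lit 1) (nat_lit 4) (nat_lit 2) (nat_lit 5) (nat_lit 2) (nat_lit 4) (nat_lit 393) (nat_lit 224) (nat_lit 163)) (XT.lf (nat_lit 0) (nat_lit 17064039373) (nat_lit 76) (nat_lit 581914418) (nat_lit 76) (nat_lit 581914418) (nat_lit 7) (nat_lit 4) (nat_lit 8) (nat_lit 5) (nat_lit 8) (nat_lit 4) (nat_lit 330) (nat_lit 225) (nat_lit 225))) (XT.nd (nat_lit 78) (nat_lit 0) (nat_lit 0) (XT.lf (nat_lit 0) (nat_lit 2834322341) (nat_lit 152) (nat_lit 32594923600) (nat_lit 0) (nat_lit 2637704368) (nat_lit 5) (nat_lit 5) (nat_lit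 7) (nat_lit 4) (nat_lit 5) (nat_lit 4) (nat_lit 331) (nat_lit 225) (nat_lit 224)) (XT.nd (nat_lit 78) (nat_lit 0) (nat_lit 0) (XT.lf (nat_lit 0) (nat_lit 6917547985) (nat_lit 152) (nat_lit 26310376483) (nat_lit 0) (nat_lit 6533674799) (nat_lit 5) (nat_lit 5) (nat_lit 7) (nat_lit 4) (nat_lit 5) (nat_lit 4) (nat_lit 332) (nat_lit 225) (nat_lit 223)) (XT.lf (nat_lit 0) (nat_lit 11076490898) (nat_lit 152) (nat_lit 19956672834) (nat_lit 0) (nat_lit 10514279415) (nat_lit 5) (nat_lit 5) (nat_lit 7) (nat_lit 4) (nat_lit 5) (nat_lit 4) (nat_lit 333) (nat_lit 225) (nat_lit 222))))) (XT.nd (nat_lit 156) (nat_lit 76) (nat_lit 0) (XT.nd (nat_lit 78) (nat_lit 0) (nat_lit 0) (XT.lf (nat_lit 0) (nat_lit 15321053327) (nat_lit 152) (nat_lit 13518684788) (nat_lit 0) (nat_lit 14588995845) (nat_lit 5) (nat_lit 5) (nat_lit 7) (nat_lit 4) (nat_lit 5) (nat_lit 4) (nat_lit 334) (nat_lit 225) (nat_lit 221)) (XT.lf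 (nat_lit 0) (nat_lit 19661341372) (nat_lit 152) (nat_lit 6981083802) (nat_lit 0) (nat_lit 18767525797) (nat_lit 5) (nat_lit 5) (nat_lit 7) (nat_lit 4) (nat_lit 5) (nat_lit 4) (nat_lit 335) (nat_lit 225) (nat_lit 220))) (XT.nd (nat_lit 78) (nat_lit 76) (nat_lit 0) (XT.lf (nat_lit 0) (nat_lit 24107689051) (nat_lit 152) (nat_lit 328304159) (nat_lit 0) (nat_lit 23059818150) (nat_lit 5) (nat_lit 5) (nat_lit 7) (nat_lit 4) (nat_lit 5) (nat_lit 4) (nat_lit 336) (nat_lit 225) (nat_lit 219)) (XT.nd (nat_lit 78) (nat_lit 0) (nat_lit 0) (XT.lf (nat_lit 0) (nat_lit 6668941880) (nat_lit 76) (nat_lit 22105861901) (nat_lit 76) (nat_lit 20911271640) (nat_lit 4) (nat_lit 4) (nat_lit 5) (nat_lit 5) (nat_lit 5) (nat_lit 4) (nat_lit 337) (nat_lit 225) (nat_lit 218)) (XT.lf (nat_lit 0) (nat_lit 13829079768) (nat_lit 76) (nat_lit 19748018136) (nat_lit 76) (nat_lit 18413695153) (nat_lit 4) (nat_lit 4) (nat_lit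 5) (nat_lit 5) (nat_lit 5) (nat_lit 4) (nat_lit 338) (nat_lit 225) (nat_lit 217))))))) (XT.nd (nat_lit 780) (nat_lit 0) (nat_lit 0) (XT.nd (nat_lit 390) (nat_lit 152) (nat_lit 0) (XT.nd (nat_lit 156) (nat_lit 0) (nat_lit 0) (XT.nd (nat_lit 78) (nat_lit 0) (nat_lit 0) (XT.lf (nat_lit 0) (nat_lit 21158302235) (nat_lit 76) (nat_lit 17362407994) (nat_lit 76) (nat_lit 15895006227) (nat_lit 4) (nat_lit 4) (nat_lit 5) (nat_lit 5) (nat_lit 5) (nat_lit 4) (nat_lit 339) (nat_lit 225) (nat_lit 216)) (XT.lf (nat_lit 0) (nat_lit 28674059809) (nat_lit 76) (nat_lit 14943351450) (nat_lit 76) (nat_lit 13349207984) (nat_lit 4) (nat_lit 4) (nat_lit 5) (nat_lit 5) (nat_lit 5) (nat_lit 4) (nat_lit 340) (nat_lit 225) (nat_lit 215))) (XT.nd (nat_lit 78) (nat_lit 0) (nat_lit 0) (XT.lf (nat_lit 0) (nat_lit 36394247152) (nat_lit 76) (nat_lit 12485088844) (nat_lit 76) (nat_lit 10770238999) (nat_lit 4) (nat_lit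 4) (nat_lit 5) (nat_lit 5) (nat_lit 5) (nat_lit 4) (nat_lit 341) (nat_lit 225) (nat_lit 214)) (XT.nd (nat_lit 78) (nat_lit 0) (nat_lit 0) (XT.lf (nat_lit 0) (nat_lit 44337245661) (nat_lit 76) (nat_lit 9981767172) (nat_lit 76) (nat_lit 8151958870) (nat_lit 4) (nat_lit 4) (nat_lit 5) (nat_lit 5) (nat_lit 5) (nat_lit 4) (nat_lit 342) (nat_lit 225) (nat_lit 213)) (XT.lf (nat_lit 0) (nat_lit 52521967239) (nat_lit 76) (nat_lit 7427426144) (nat_lit 76) (nat_lit 5488133597) (nat_lit 4) (nat_lit 4) (nat_lit 5) (nat_lit 5) (nat_lit 5) (nat_lit 4) (nat_lit 343) (nat_lit 225) (nat_lit 212))))) (XT.nd (nat_lit 156) (nat_lit 76) (nat_lit 0) (XT.nd (nat_lit 78) (nat_lit 76) (nat_lit 0) (XT.lf (nat_lit 0) (nat_lit 60967899317) (nat_lit 76) (nat_lit 4815983994) (nat_lit 76) (nat_lit 2772420739) (nat_lit 4) (nat_lit 4) (nat_lit 5) (nat_lit 5) (nat_lit 5) (nat_lit 4) (nat_lit 344) (nat_lit 225) (nat_lit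 211)) (XT.lf (nat_lit 0) (nat_lit 1593015) (nat_lit 152) (nat_lit 2139603011) (nat_lit 76) (nat_lit 69693531264) (nat_lit 3) (nat_lit 5) (nat_lit 5) (nat_lit 5) (nat_lit 4) (nat_lit 4) (nat_lit 345) (nat_lit 225) (nat_lit 210))) (XT.nd (nat_lit 78) (nat_lit 0) (nat_lit 0) (XT.lf (nat_lit 0) (nat_lit 2815626750) (nat_lit 152) (nat_lit 71774741801) (nat_lit 0) (nat_lit 684726465) (nat_lit 2) (nat_lit 5) (nat_lit 4) (nat_lit 4) (nat_lit 2) (nat_lit 4) (nat_lit 346) (nat_lit 225) (nat_lit 209)) (XT.nd (nat_lit 78) (nat_lit 0) (nat_lit 0) (XT.lf (nat_lit 0) (nat_lit 5771203938) (nat_lit 152) (nat_lit 69561734593) (nat_lit 0) (nat_lit 3554519882) (nat_lit 2) (nat_lit 5) (nat_lit 4) (nat_lit 4) (nat_lit 2) (nat_lit 4) (nat_lit 347) (nat_lit 225) (nat_lit 208)) (XT.lf (nat_lit 0) (nat_lit 8806856138) (nat_lit 152) (nat_lit 67368514234) (nat_lit 0) (nat_lit 6508473252) (nat_lit 2) (nat_lit 5)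 (nat_lit 4) (nat_lit 4) (nat_lit 2) (nat_lit 4) (nat_lit 348) (nat_lit 225) (nat_lit 207)))))) (XT.nd (nat_lit 390) (nat_lit 0) (nat_lit 0) (XT.nd (nat_lit 156) (nat_lit 0) (nat_lit 0) (XT.nd (nat_lit 78) (nat_lit 0) (nat_lit 0) (XT.lf (nat_lit 0) (nat_lit 11929811091) (nat_lit 152) (nat_lit 65189858771) (nat_lit 0) (nat_lit 9553619797) (nat_lit 2) (nat_lit 5) (nat_lit 4) (nat_lit 4) (nat_lit 2) (nat_lit 4) (nat_lit 349) (nat_lit 225) (nat_lit 206)) (XT.lf (nat_lit 0) (nat_lit 15147504406) (nat_lit 152) (nat_lit 63020580929) (nat_lit 0) (nat_lit 12697209866) (nat_lit 2) (nat_lit 5) (nat_lit 4) (nat_lit 4) (nat_lit 2) (nat_lit 4) (nat_lit 350) (nat_lit 225) (nat_lit 205))) (XT.nd (nat_lit 78) (nat_lit 0) (nat_lit 0) (XT.lf (nat_lit 0) (nat_lit 18467597257) (nat_lit 152) (nat_lit 60855515761) (nat_lit 0) (nat_lit 15946728197) (nat_lit 2) (nat_lit 5) (nat_lit 4) (nat_lit 4) (nat_lit 2)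 (nat_lit 4) (nat_lit 351) (nat_lit 225) (nat_lit 204)) (XT.nd (nat_lit 78) (nat_lit 0) (nat_lit 0) (XT.lf (nat_lit 0) (nat_lit 21897994627) (nat_lit 152) (nat_lit 58689508349) (nat_lit 0) (nat_lit 19309911738) (nat_lit 2) (nat_lit 5) (nat_lit 4) (nat_lit 4) (nat_lit 2) (nat_lit 4) (nat_lit 352) (nat_lit 225) (nat_lit 203)) (XT.lf (nat_lit 0) (nat_lit 25446864129) (nat_lit 152) (nat_lit 56517401534) (nat_lit 0) (nat_lit 22794768070) (nat_lit 2) (nat_lit 5) (nat_lit 4) (nat_lit 4) (nat_lit 2) (nat_lit 4) (nat_lit 353) (nat_lit 225) (nat_lit 202))))) (XT.nd (nat_lit 234) (nat_lit 0) (nat_lit 0) (XT.nd (nat_lit 78) (nat_lit 0) (nat_lit 0) (XT.lf (nat_lit 0) (nat_lit 29122655452) (nat_lit 152) (nat_lit 54334023631) (nat_lit 0) (nat_lit 26409594469) (nat_lit 2) (nat_lit 5) (nat_lit 4) (nat_lit 4) (nat_lit 2) (nat_lit 4) (nat_lit 354) (nat_lit 225) (nat_lit 201)) (XT.nd (nat_lit 78) (nat_lit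 0) (nat_lit 0) (XT.lf (nat_lit 0) (nat_lit 32934120480) (nat_lit 152) (nat_lit 52134176123) (nat_lit 0) (nat_lit 30162997664) (nat_lit 2) (nat_lit 5) (nat_lit 4) (nat_lit 4) (nat_lit 2) (nat_lit 4) (nat_lit 355) (nat_lit 225) (nat_lit 200)) (XT.lf (nat_lit 0) (nat_lit 36890334130) (nat_lit 152) (nat_lit 49912621278) (nat_lit 0) (nat_lit 34063914331) (nat_lit 2) (nat_lit 5) (nat_lit 4) (nat_lit 4) (nat_lit 2) (nat_lit 4) (nat_lit 356) (nat_lit 225) (nat_lit 199)))) (XT.nd (nat_lit 78) (nat_lit 0) (nat_lit 0) (XT.lf (nat_lit 0) (nat_lit 41000715959) (nat_lit 152) (nat_lit 47664069678) (nat_lit 0) (nat_lit 38121632366) (nat_lit 2) (nat_lit 5) (nat_lit 4) (nat_lit 4) (nat_lit 2) (nat_lit 4) (nat_lit 357) (nat_lit 225) (nat_lit 198)) (XT.nd (nat_lit 78) (nat_lit 0) (nat_lit 0) (XT.lf (nat_lit 0) (nat_lit 45275052589) (nat_lit 152) (nat_lit 45383167630) (nat_lit 0) (nat_lit 42345813002) (nat_lit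 2) (nat_lit 5) (nat_lit 4) (nat_lit 4) (nat_lit 2) (nat_lit 4) (nat_lit 358) (nat_lit 225) (nat_lit 197)) (XT.lf (nat_lit 0) (nat_lit 49723521012) (nat_lit 152) (nat_lit 43064484414) (nat_lit 0) (nat_lit 46746513812) (nat_lit 2) (nat_lit 5) (nat_lit 4) (nat_lit 4) (nat_lit 2) (nat_lit 4) (nat_lit 359) (nat_lit 225) (nat_lit 196))))))))
noncomputable def xc25 : XT := (XT.nd (nat_lit 1638) (nat_lit 0) (nat_lit 0) (XT.nd (nat_lit 780) (nat_lit 76) (nat_lit 0) (XT.nd (nat_lit 390) (nat_lit 0) (nat_lit 0) (XT.nd (nat_lit 156) (nat_lit 0) (nat_lit 0) (XT.nd (nat_lit 78) (nat_lit 0) (nat_lit 0) (XT.lf (nat_lit 0) (nat_lit 54356712821) (nat_lit 152) (nat_lit 40702499357) (nat_lit 0) (nat_lit 51334212656) (nat_lit 2) (nat_lit 5) (nat_lit 4) (nat_lit 4) (nat_lit 2) (nat_lit 4) (nat_lit 360) (nat_lit 225) (nat_lit 195)) (XT.lf (nat_lit 0) (nat_lit 59185659424) (nat_lit 152) (nat_lit 38291588684)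 (nat_lit 0) (nat_lit 56119832625) (nat_lit 2) (nat_lit 5) (nat_lit 4) (nat_lit 4) (nat_lit 2) (nat_lit 4) (nat_lit 361) (nat_lit 225) (nat_lit 194))) (XT.nd (nat_lit 78) (nat_lit 0) (nat_lit 0) (XT.lf (nat_lit 0) (nat_lit 64221858312) (nat_lit 152) (nat_lit 35826012131) (nat_lit 0) (nat_lit 61114768054) (nat_lit 2) (nat_lit 5) (nat_lit 4) (nat_lit 4) (nat_lit 2) (nat_lit 4) (nat_lit 362) (nat_lit 225) (nat_lit 193)) (XT.nd (nat_lit 78) (nat_lit 0) (nat_lit 0) (XT.lf (nat_lit 0) (nat_lit 69477300437) (nat_lit 152) (nat_lit 33299899279) (nat_lit 0) (nat_lit 66330911645) (nat_lit 2) (nat_lit 5) (nat_lit 4) (nat_lit 4) (nat_lit 2) (nat_lit 4) (nat_lit 363) (nat_lit 225) (nat_lit 192)) (XT.lf (nat_lit 0) (nat_lit 74964498755) (nat_lit 152) (nat_lit 30707235573) (nat_lit 0) (nat_lit 71780682788) (nat_lit 2) (nat_lit 5) (nat_lit 4) (nat_lit 4) (nat_lit 2) (nat_lit 4) (nat_lit 364) (nat_lit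 225) (nat_lit 191))))) (XT.nd (nat_lit 156) (nat_lit 0) (nat_lit 0) (XT.nd (nat_lit 78) (nat_lit 0) (nat_lit 0) (XT.lf (nat_lit 0) (nat_lit 80696518024) (nat_lit 152) (nat_lit 28041848004) (nat_lit 0) (nat_lit 77477057128) (nat_lit 2) (nat_lit 5) (nat_lit 4) (nat_lit 4) (nat_lit 2) (nat_lit 4) (nat_lit 365) (nat_lit 225) (nat_lit 190)) (XT.lf (nat_lit 0) (nat_lit 86687005909) (nat_lit 152) (nat_lit 25297390412) (nat_lit 0) (nat_lit 83433597463) (nat_lit 2) (nat_lit 5) (nat_lit 4) (nat_lit 4) (nat_lit 2) (nat_lit 4) (nat_lit 366) (nat_lit 225) (nat_lit 189))) (XT.nd (nat_lit 78) (nat_lit 0) (nat_lit 0) (XT.lf (nat_lit 0) (nat_lit 92950225477) (nat_lit 152) (nat_lit 22467328372) (nat_lit 0) (nat_lit 89664486029) (nat_lit 2) (nat_lit 5) (nat_lit 4) (nat_lit 4) (nat_lit 2) (nat_lit 4) (nat_lit 367) (nat_lit 225) (nat_lit 188)) (XT.nd (nat_lit 78) (nat_lit 0) (nat_lit 0) (XT.lf (nat_lit 0)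 (nat_lit 99501089155) (nat_lit 152) (nat_lit 19544923644) (nat_lit 0) (nat_lit 96184558278) (nat_lit 2) (nat_lit 5) (nat_lit 4) (nat_lit 4) (nat_lit 2) (nat_lit 4) (nat_lit 368) (nat_lit 225) (nat_lit 187)) (XT.lf (nat_lit 0) (nat_lit 106355194237) (nat_lit 152) (nat_lit 16523218119) (nat_lit 0) (nat_lit 103009338189) (nat_lit 2) (nat_lit 5) (nat_lit 4) (nat_lit 4) (nat_lit 2) (nat_lit 4) (nat_lit 369) (nat_lit 225) (nat_lit 186)))))) (XT.nd (nat_lit 390) (nat_lit 0) (nat_lit 0) (XT.nd (nat_lit 156) (nat_lit 76) (nat_lit 0) (XT.nd (nat_lit 78) (nat_lit 0) (nat_lit 0) (XT.lf (nat_lit 0) (nat_lit 113528860021) (nat_lit 152) (nat_lit 13395017261) (nat_lit 0) (nat_lit 110155075239) (nat_lit 2) (nat_lit 5) (nat_lit 4) (nat_lit 4) (nat_lit 2) (nat_lit 4) (nat_lit 370) (nat_lit 225) (nat_lit 185)) (XT.lf (nat_lit 0) (nat_lit 121039166664) (nat_lit 152) (nat_lit 10152872973) (nat_lit 0) (nat_lit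 117638783088) (nat_lit 2) (nat_lit 5) (nat_lit 4) (nat_lit 4) (nat_lit 2) (nat_lit 4) (nat_lit 371) (nat_lit 225) (nat_lit 184))) (XT.nd (nat_lit 78) (nat_lit 76) (nat_lit 0) (XT.lf (nat_lit 0) (nat_lit 128903995849) (nat_lit 152) (nat_lit 6789065863) (nat_lit 0) (nat_lit 125478280088) (nat_lit 2) (nat_lit 5) (nat_lit 4) (nat_lit 4) (nat_lit 2) (nat_lit 4) (nat_lit 372) (nat_lit 225) (nat_lit 183)) (XT.nd (nat_lit 78) (nat_lit 76) (nat_lit 0) (XT.lf (nat_lit 0) (nat_lit 137142073359) (nat_lit 152) (nat_lit 3295586868) (nat_lit 0) (nat_lit 133692231707) (nat_lit 2) (nat_lit 5) (nat_lit 4) (nat_lit 4) (nat_lit 2) (nat_lit 4) (nat_lit 373) (nat_lit 225) (nat_lit 182)) (XT.lf (nat_lit 0) (nat_lit 346987590) (nat_lit 76) (nat_lit 145431443523) (nat_lit 76) (nat_lit 141958624832) (nat_lit 1) (nat_lit 4) (nat_lit 2) (nat_lit 5) (nat_lit 2) (nat_lit 4) (nat_lit 374) (nat_lit 225) (nat_lit 181)))))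 (XT.nd (nat_lit 234) (nat_lit 0) (nat_lit 0) (XT.nd (nat_lit 78) (nat_lit 0) (nat_lit 0) (XT.lf (nat_lit 0) (nat_lit 4250013530) (nat_lit 76) (nat_lit 150633707714) (nat_lit 76) (nat_lit 147139006129) (nat_lit 1) (nat_lit 4) (nat_lit 2) (nat_lit 5) (nat_lit 2) (nat_lit 4) (nat_lit 375) (nat_lit 225) (nat_lit 180)) (XT.nd (nat_lit 78) (nat_lit 0) (nat_lit 0) (XT.lf (nat_lit 0) (nat_lit 8313816887) (nat_lit 76) (nat_lit 156112651503) (nat_lit 76) (nat_lit 152597109066) (nat_lit 1) (nat_lit 4) (nat_lit 2) (nat_lit 5) (nat_lit 2) (nat_lit 4) (nat_lit 376) (nat_lit 225) (nat_lit 179)) (XT.lf (nat_lit 0) (nat_lit 12548073382) (nat_lit 76) (nat_lit 161881319992) (nat_lit 76) (nat_lit 158345929126) (nat_lit 1) (nat_lit 4) (nat_lit 2) (nat_lit 5) (nat_lit 2) (nat_lit 4) (nat_lit 377) (nat_lit 225) (nat_lit 178)))) (XT.nd (nat_lit 78) (nat_lit 0) (nat_lit 0) (XT.lf (nat_lit 0) (nat_lit 16962864578)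 (nat_lit 76) (nat_lit 167953448108) (nat_lit 76) (nat_lit 164399153975) (nat_lit 1) (nat_lit 4) (nat_lit 2) (nat_lit 5) (nat_lit 2) (nat_lit 4) (nat_lit 378) (nat_lit 225) (nat_lit 177)) (XT.nd (nat_lit 78) (nat_lit 0) (nat_lit 0) (XT.lf (nat_lit 0) (nat_lit 21568701884) (nat_lit 76) (nat_lit 174343493298) (nat_lit 76) (nat_lit 170771196054) (nat_lit 1) (nat_lit 4) (nat_lit 2) (nat_lit 5) (nat_lit 2) (nat_lit 4) (nat_lit 379) (nat_lit 225) (nat_lit 176)) (XT.lf (nat_lit 0) (nat_lit 26376551577) (nat_lit 76) (nat_lit 181066669956) (nat_lit 76) (nat_lit 177477226891) (nat_lit 1) (nat_lit 4) (nat_lit 2) (nat_lit 5) (nat_lit 2) (nat_lit 4) (nat_lit 380) (nat_lit 225) (nat_lit 175))))))) (XT.nd (nat_lit 780) (nat_lit 0) (nat_lit 0) (XT.nd (nat_lit 390) (nat_lit 0) (nat_lit 0) (XT.nd (nat_lit 156) (nat_lit 0) (nat_lit 0) (XT.nd (nat_lit 78) (nat_lit 0) (nat_lit 0) (XT.lf (nat_lit 0) (nat_lit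 31397860920) (nat_lit 76) (nat_lit 188138985644) (nat_lit 76) (nat_lit 184533213228) (nat_lit 1) (nat_lit 4) (nat_lit 2) (nat_lit 5) (nat_lit 2) (nat_lit 4) (nat_lit 381) (nat_lit 225) (nat_lit 174)) (XT.lf (nat_lit 0) (nat_lit 36644585411) (nat_lit 76) (nat_lit 195577279211) (nat_lit 76) (nat_lit 191955955030) (nat_lit 1) (nat_lit 4) (nat_lit 2) (nat_lit 5) (nat_lit 2) (nat_lit 4) (nat_lit 382) (nat_lit 225) (nat_lit 173))) (XT.nd (nat_lit 78) (nat_lit 0) (nat_lit 0) (XT.lf (nat_lit 0) (nat_lit 42129217251) (nat_lit 76) (nat_lit 203399260878) (nat_lit 76) (nat_lit 199763125493) (nat_lit 1) (nat_lit 4) (nat_lit 2) (nat_lit 5) (nat_lit 2) (nat_lit 4) (nat_lit 383) (nat_lit 225) (nat_lit 172)) (XT.nd (nat_lit 78) (nat_lit 0) (nat_lit 0) (XT.lf (nat_lit 0) (nat_lit 47864815087) (nat_lit 76) (nat_lit 211623554411) (nat_lit 76) (nat_lit 207973313118) (nat_lit 1) (nat_lit 4) (nat_lit 2) (nat_lit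 5) (nat_lit 2) (nat_lit 4) (nat_lit 384) (nat_lit 225) (nat_lit 171)) (XT.lf (nat_lit 0) (nat_lit 53865035105) (nat_lit 76) (nat_lit 220269741463) (nat_lit 76) (nat_lit 216606065971) (nat_lit 1) (nat_lit 4) (nat_lit 2) (nat_lit 5) (nat_lit 2) (nat_lit 4) (nat_lit 385) (nat_lit 225) (nat_lit 170))))) (XT.nd (nat_lit 156) (nat_lit 0) (nat_lit 0) (XT.nd (nat_lit 78) (nat_lit 0) (nat_lit 0) (XT.lf (nat_lit 0) (nat_lit 60144163542) (nat_lit 76) (nat_lit 229358408191) (nat_lit 76) (nat_lit 225681938224) (nat_lit 1) (nat_lit 4) (nat_lit 2) (nat_lit 5) (nat_lit 2) (nat_lit 4) (nat_lit 386) (nat_lit 225) (nat_lit 169)) (XT.lf (nat_lit 0) (nat_lit 66717150705) (nat_lit 76) (nat_lit 238911194280) (nat_lit 76) (nat_lit 235222539099) (nat_lit 1) (nat_lit 4) (nat_lit 2) (nat_lit 5) (nat_lit 2) (nat_lit 4) (nat_lit 387) (nat_lit 225) (nat_lit 168))) (XT.nd (nat_lit 78) (nat_lit 0) (nat_lit 0) (XT.lf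 (nat_lit 0) (nat_lit 73599646564) (nat_lit 76) (nat_lit 248950844458) (nat_lit 76) (nat_lit 245250584311) (nat_lit 1) (nat_lit 4) (nat_lit 2) (nat_lit 5) (nat_lit 2) (nat_lit 4) (nat_lit 388) (nat_lit 225) (nat_lit 167)) (XT.nd (nat_lit 78) (nat_lit 0) (nat_lit 0) (XT.lf (nat_lit 0) (nat_lit 80808038011) (nat_lit 76) (nat_lit 259501262654) (nat_lit 76) (nat_lit 255789950158) (nat_lit 1) (nat_lit 4) (nat_lit 2) (nat_lit 5) (nat_lit 2) (nat_lit 4) (nat_lit 389) (nat_lit 225) (nat_lit 166)) (XT.lf (nat_lit 0) (nat_lit 88359487886) (nat_lit 76) (nat_lit 270587568911) (nat_lit 76) (nat_lit 266865730369) (nat_lit 1) (nat_lit 4) (nat_lit 2) (nat_lit 5) (nat_lit 2) (nat_lit 4) (nat_lit 390) (nat_lit 225) (nat_lit 165)))))) (XT.nd (nat_lit 35880) (nat_lit 0) (nat_lit 304) (XT.nd (nat_lit 156) (nat_lit 0) (nat_lit 0) (XT.nd (nat_lit 78) (nat_lit 0) (nat_lit 0) (XT.lf (nat_lit 0) (nat_lit 96271975830)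 (nat_lit 76) (nat_lit 282236159196) (nat_lit 76) (nat_lit 278504295849) (nat_lit 1) (nat_lit 4) (nat_lit 2) (nat_lit 5) (nat_lit 2) (nat_lit 4) (nat_lit 391) (nat_lit 225) (nat_lit 164)) (XT.lf (nat_lit 0) (nat_lit 104564341100) (nat_lit 76) (nat_lit 294474768249) (nat_lit 76) (nat_lit 290733357467) (nat_lit 1) (nat_lit 4) (nat_lit 2) (nat_lit 5) (nat_lit 2) (nat_lit 4) (nat_lit 392) (nat_lit 225) (nat_lit 163))) (XT.nd (nat_lit 35568) (nat_lit 0) (nat_lit 456) (XT.lf (nat_lit 0) (nat_lit 113256327423) (nat_lit 76) (nat_lit 307332535615) (nat_lit 76) (nat_lit 303582032038) (nat_lit 1) (nat_lit 4) (nat_lit 2) (nat_lit 5) (nat_lit 2) (nat_lit 4) (nat_lit 393) (nat_lit 225) (nat_lit 162)) (XT.nd (nat_lit 78) (nat_lit 0) (nat_lit 0) (XT.lf (nat_lit 0) (nat_lit 8092841873) (nat_lit 76) (nat_lit 4318469007) (nat_lit 76) (nat_lit 4318469007) (nat_lit 7) (nat_lit 4) (nat_lit 8) (nat_lit 5) (nat_lit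 8) (nat_lit 4) (nat_lit 328) (nat_lit 226) (nat_lit 226)) (XT.lf (nat_lit 0) (nat_lit 25001062064) (nat_lit 76) (nat_lit 5067570969) (nat_lit 76) (nat_lit 4850799653) (nat_lit 7) (nat_lit 4) (nat_lit 8) (nat_lit 5) (nat_lit 8) (nat_lit 4) (nat_lit 329) (nat_lit 226) (nat_lit 225))))) (XT.nd (nat_lit 234) (nat_lit 0) (nat_lit 0) (XT.nd (nat_lit 78) (nat_lit 152) (nat_lit 0) (XT.lf (nat_lit 0) (nat_lit 34005097269) (nat_lit 76) (nat_lit 1438566420) (nat_lit 76) (nat_lit 1015346232) (nat_lit 7) (nat_lit 4) (nat_lit 8) (nat_lit 5) (nat_lit 8) (nat_lit 4) (nat_lit 330) (nat_lit 226) (nat_lit 224)) (XT.nd (nat_lit 78) (nat_lit 0) (nat_lit 0) (XT.lf (nat_lit 0) (nat_lit 2905905000) (nat_lit 152) (nat_lit 32852247966) (nat_lit 0) (nat_lit 2315582942) (nat_lit 5) (nat_lit 5) (nat_lit 7) (nat_lit 4) (nat_lit 5) (nat_lit 4) (nat_lit 331) (nat_lit 226) (nat_lit 223)) (XT.lf (nat_lit 0) (nat_lit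 6926475028) (nat_lit 152) (nat_lit 26687247592) (nat_lit 0) (nat_lit 6157814673) (nat_lit 5) (nat_lit 5) (nat_lit 7) (nat_lit 4) (nat_lit 5) (nat_lit 4) (nat_lit 332) (nat_lit 226) (nat_lit 222)))) (XT.nd (nat_lit 78) (nat_lit 0) (nat_lit 0) (XT.lf (nat_lit 0) (nat_lit 11025745927) (nat_lit 152) (nat_lit 20447397985) (nat_lit 0) (nat_lit 10087239573) (nat_lit 5) (nat_lit 5) (nat_lit 7) (nat_lit 4) (nat_lit 5) (nat_lit 4) (nat_lit 333) (nat_lit 226) (nat_lit 221)) (XT.nd (nat_lit 78) (nat_lit 0) (nat_lit 0) (XT.lf (nat_lit 0) (nat_lit 15213477865) (nat_lit 152) (nat_lit 14117842360) (nat_lit 0) (nat_lit 14113213418) (nat_lit 5) (nat_lit 5) (nat_lit 7) (nat_lit 4) (nat_lit 5) (nat_lit 4) (nat_lit 334) (nat_lit 226) (nat_lit 220)) (XT.lf (nat_lit 0) (nat_lit 19499641633) (nat_lit 152) (nat_lit 7683510345) (nat_lit 0) (nat_lit 18245321860) (nat_lit 5) (nat_lit 5) (nat_lit 7) (nat_lit 4)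 (nat_lit 5) (nat_lit 4) (nat_lit 335) (nat_lit 226) (nat_lit 219))))))))
noncomputable def xc26 : XT := (XT.nd (nat_lit 1560) (nat_lit 76) (nat_lit 0) (XT.nd (nat_lit 780) (nat_lit 152) (nat_lit 0) (XT.nd (nat_lit 390) (nat_lit 0) (nat_lit 0) (XT.nd (nat_lit 156) (nat_lit 0) (nat_lit 0) (XT.nd (nat_lit 78) (nat_lit 76) (nat_lit 0) (XT.lf (nat_lit 0) (nat_lit 23894442383) (nat_lit 152) (nat_lit 1129082104) (nat_lit 0) (nat_lit 22493403250) (nat_lit 5) (nat_lit 5) (nat_lit 7) (nat_lit 4) (nat_lit 5) (nat_lit 4) (nat_lit 336) (nat_lit 226) (nat_lit 218)) (XT.lf (nat_lit 0) (nat_lit 5744921510) (nat_lit 76) (nat_lit 22753116740) (nat_lit 76) (nat_lit 21212344885) (nat_lit 4) (nat_lit 4) (nat_lit 5) (nat_lit 5) (nat_lit 5) (nat_lit 4) (nat_lit 337) (nat_lit 226) (nat_lit 217))) (XT.nd (nat_lit 78) (nat_lit 0) (nat_lit 0) (XT.lf (nat_lit 0) (nat_lit 12812902171) (nat_lit 76) (nat_lit 20439236785)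 (nat_lit 76) (nat_lit 18765386146) (nat_lit 4) (nat_lit 4) (nat_lit 5) (nat_lit 5) (nat_lit 5) (nat_lit 4) (nat_lit 338) (nat_lit 226) (nat_lit 216)) (XT.nd (nat_lit 78) (nat_lit 0) (nat_lit 0) (XT.lf (nat_lit 0) (nat_lit 20054355850) (nat_lit 76) (nat_lit 18095496938) (nat_lit 76) (nat_lit 16294904601) (nat_lit 4) (nat_lit 4) (nat_lit 5) (nat_lit 5) (nat_lit 5) (nat_lit 4) (nat_lit 339) (nat_lit 226) (nat_lit 215)) (XT.lf (nat_lit 0) (nat_lit 27486524102) (nat_lit 76) (nat_lit 15716316865) (nat_lit 76) (nat_lit 13795018148) (nat_lit 4) (nat_lit 4) (nat_lit 5) (nat_lit 5) (nat_lit 5) (nat_lit 4) (nat_lit 340) (nat_lit 226) (nat_lit 214))))) (XT.nd (nat_lit 156) (nat_lit 0) (nat_lit 0) (XT.nd (nat_lit 78) (nat_lit 0) (nat_lit 0) (XT.lf (nat_lit 0) (nat_lit 35127102566) (nat_lit 76) (nat_lit 13296031852) (nat_lit 76) (nat_lit 11259774678) (nat_lit 4) (nat_lit 4) (nat_lit 5) (nat_lit 5)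 (nat_lit 5) (nat_lit 4) (nat_lit 341) (nat_lit 226) (nat_lit 213)) (XT.lf (nat_lit 0) (nat_lit 42994283097) (nat_lit 76) (nat_lit 10828879315) (nat_lit 76) (nat_lit 8683137896) (nat_lit 4) (nat_lit 4) (nat_lit 5) (nat_lit 5) (nat_lit 5) (nat_lit 4) (nat_lit 342) (nat_lit 226) (nat_lit 212))) (XT.nd (nat_lit 78) (nat_lit 0) (nat_lit 0) (XT.lf (nat_lit 0) (nat_lit 51106797075) (nat_lit 76) (nat_lit 8308985082) (nat_lit 76) (nat_lit 6058972954) (nat_lit 4) (nat_lit 4) (nat_lit 5) (nat_lit 5) (nat_lit 5) (nat_lit 4) (nat_lit 343) (nat_lit 226) (nat_lit 211)) (XT.nd (nat_lit 78) (nat_lit 0) (nat_lit 0) (XT.lf (nat_lit 0) (nat_lit 59483960011) (nat_lit 76) (nat_lit 5730349404) (nat_lit 76) (nat_lit 3381031839) (nat_lit 4) (nat_lit 4) (nat_lit 5) (nat_lit 5) (nat_lit 5) (nat_lit 4) (nat_lit 344) (nat_lit 226) (nat_lit 210)) (XT.lf (nat_lit 0) (nat_lit 68145717531) (nat_lit 76) (nat_lit 3086832673)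 (nat_lit 76) (nat_lit 642938502) (nat_lit 4) (nat_lit 4) (nat_lit 5) (nat_lit 5) (nat_lit 5) (nat_lit 4) (nat_lit 345) (nat_lit 226) (nat_lit 209)))))) (XT.nd (nat_lit 390) (nat_lit 0) (nat_lit 0) (XT.nd (nat_lit 156) (nat_lit 0) (nat_lit 0) (XT.nd (nat_lit 78) (nat_lit 0) (nat_lit 0) (XT.lf (nat_lit 0) (nat_lit 1813992445) (nat_lit 76) (nat_lit 306963445) (nat_lit 152) (nat_lit 73198947766) (nat_lit 2) (nat_lit 5) (nat_lit 3) (nat_lit 5) (nat_lit 4) (nat_lit 4) (nat_lit 346) (nat_lit 226) (nat_lit 208)) (XT.lf (nat_lit 0) (nat_lit 5038714251) (nat_lit 152) (nat_lit 71351739351) (nat_lit 0) (nat_lit 2543713393) (nat_lit 2) (nat_lit 5) (nat_lit 4) (nat_lit 4) (nat_lit 2) (nat_lit 4) (nat_lit 347) (nat_lit 226) (nat_lit 207))) (XT.nd (nat_lit 78) (nat_lit 0) (nat_lit 0) (XT.lf (nat_lit 0) (nat_lit 8042912862) (nat_lit 152) (nat_lit 69219116999) (nat_lit 0) (nat_lit 5470103595) (nat_lit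 2) (nat_lit 5) (nat_lit 4) (nat_lit 4) (nat_lit 2) (nat_lit 4) (nat_lit 348) (nat_lit 226) (nat_lit 206)) (XT.nd (nat_lit 78) (nat_lit 0) (nat_lit 0) (XT.lf (nat_lit 0) (nat_lit 11135912018) (nat_lit 152) (nat_lit 67098173923) (nat_lit 0) (nat_lit 8488999504) (nat_lit 2) (nat_lit 5) (nat_lit 4) (nat_lit 4) (nat_lit 2) (nat_lit 4) (nat_lit 349) (nat_lit 226) (nat_lit 205)) (XT.lf (nat_lit 0) (nat_lit 14325076001) (nat_lit 152) (nat_lit 64983860259) (nat_lit 0) (nat_lit 11607588968) (nat_lit 2) (nat_lit 5) (nat_lit 4) (nat_lit 4) (nat_lit 2) (nat_lit 4) (nat_lit 350) (nat_lit 226) (nat_lit 204))))) (XT.nd (nat_lit 156) (nat_lit 0) (nat_lit 0) (XT.nd (nat_lit 78) (nat_lit 0) (nat_lit 0) (XT.lf (nat_lit 0) (nat_lit 17617998060) (nat_lit 152) (nat_lit 62871141928) (nat_lit 0) (nat_lit 14833297198) (nat_lit 2) (nat_lit 5) (nat_lit 4) (nat_lit 4) (nat_lit 2) (nat_lit 4) (nat_lit 351) (nat_lit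 226) (nat_lit 203)) (XT.lf (nat_lit 0) (nat_lit 21022518486) (nat_lit 152) (nat_lit 60754988646) (nat_lit 0) (nat_lit 18173804453) (nat_lit 2) (nat_lit 5) (nat_lit 4) (nat_lit 4) (nat_lit 2) (nat_lit 4) (nat_lit 352) (nat_lit 226) (nat_lit 202))) (XT.nd (nat_lit 78) (nat_lit 0) (nat_lit 0) (XT.lf (nat_lit 0) (nat_lit 24546743278) (nat_lit 152) (nat_lit 58630361954) (nat_lit 0) (nat_lit 21637064321) (nat_lit 2) (nat_lit 5) (nat_lit 4) (nat_lit 4) (nat_lit 2) (nat_lit 4) (nat_lit 353) (nat_lit 226) (nat_lit 201)) (XT.nd (nat_lit 78) (nat_lit 0) (nat_lit 0) (XT.lf (nat_lit 0) (nat_lit 28199063449) (nat_lit 152) (nat_lit 56492203218) (nat_lit 0) (nat_lit 25231322660) (nat_lit 2) (nat_lit 5) (nat_lit 4) (nat_lit 4) (nat_lit 2) (nat_lit 4) (nat_lit 354) (nat_lit 226) (nat_lit 200)) (XT.lf (nat_lit 0) (nat_lit 31988175000) (nat_lit 152) (nat_lit 54335421582) (nat_lit 0) (nat_lit 28965137227)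 (nat_lit 2) (nat_lit 5) (nat_lit 4) (nat_lit 4) (nat_lit 2) (nat_lit 4) (nat_lit 355) (nat_lit 226) (nat_lit 199))))))) (XT.nd (nat_lit 780) (nat_lit 76) (nat_lit 0) (XT.nd (nat_lit 390) (nat_lit 0) (nat_lit 0) (XT.nd (nat_lit 156) (nat_lit 0) (nat_lit 0) (XT.nd (nat_lit 78) (nat_lit 0) (nat_lit 0) (XT.lf (nat_lit 0) (nat_lit 35923099623) (nat_lit 152) (nat_lit 52154881852) (nat_lit 0) (nat_lit 32847398057) (nat_lit 2) (nat_lit 5) (nat_lit 4) (nat_lit 4) (nat_lit 2) (nat_lit 4) (nat_lit 356) (nat_lit 226) (nat_lit 198)) (XT.lf (nat_lit 0) (nat_lit 40013206188) (nat_lit 152) (nat_lit 49945392268) (nat_lit 0) (nat_lit 36887348628) (nat_lit 2) (nat_lit 5) (nat_lit 4) (nat_lit 4) (nat_lit 2) (nat_lit 4) (nat_lit 357) (nat_lit 226) (nat_lit 197))) (XT.nd (nat_lit 78) (nat_lit 0) (nat_lit 0) (XT.lf (nat_lit 0) (nat_lit 44268233044) (nat_lit 152) (nat_lit 47701692139) (nat_lit 0) (nat_lit 41094607870)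 (nat_lit 2) (nat_lit 5) (nat_lit 4) (nat_lit 4) (nat_lit 2) (nat_lit 4) (nat_lit 358) (nat_lit 226) (nat_lit 196)) (XT.nd (nat_lit 78) (nat_lit 0) (nat_lit 0) (XT.lf (nat_lit 0) (nat_lit 48698311206) (nat_lit 152) (nat_lit 45418439323) (nat_lit 0) (nat_lit 45479193067) (nat_lit 2) (nat_lit 5) (nat_lit 4) (nat_lit 4) (nat_lit 2) (nat_lit 4) (nat_lit 359) (nat_lit 226) (nat_lit 195)) (XT.lf (nat_lit 0) (nat_lit 53313988480) (nat_lit 152) (nat_lit 43090197504) (nat_lit 0) (nat_lit 50051543708) (nat_lit 2) (nat_lit 5) (nat_lit 4) (nat_lit 4) (nat_lit 2) (nat_lit 4) (nat_lit 360) (nat_lit 226) (nat_lit 194))))) (XT.nd (nat_lit 156) (nat_lit 0) (nat_lit 0) (XT.nd (nat_lit 78) (nat_lit 0) (nat_lit 0) (XT.lf (nat_lit 0) (nat_lit 58126254573) (nat_lit 152) (nat_lit 40711423247) (nat_lit 0) (nat_lit 54822546341) (nat_lit 2) (nat_lit 5) (nat_lit 4) (nat_lit 4) (nat_lit 2) (nat_lit 4) (nat_lit 361)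 (nat_lit 226) (nat_lit 193)) (XT.lf (nat_lit 0) (nat_lit 63146567263) (nat_lit 152) (nat_lit 38276452806) (nat_lit 0) (nat_lit 59803560497) (nat_lit 2) (nat_lit 5) (nat_lit 4) (nat_lit 4) (nat_lit 2) (nat_lit 4) (nat_lit 362) (nat_lit 226) (nat_lit 192))) (XT.nd (nat_lit 78) (nat_lit 0) (nat_lit 0) (XT.lf (nat_lit 0) (nat_lit 68386879674) (nat_lit 152) (nat_lit 35779488631) (nat_lit 0) (nat_lit 65006445733) (nat_lit 2) (nat_lit 5) (nat_lit 4) (nat_lit 4) (nat_lit 2) (nat_lit 4) (nat_lit 363) (nat_lit 226) (nat_lit 191)) (XT.nd (nat_lit 78) (nat_lit 0) (nat_lit 0) (XT.lf (nat_lit 0) (nat_lit 73859668741) (nat_lit 152) (nat_lit 33214585570) (nat_lit 0) (nat_lit 70443589872) (nat_lit 2) (nat_lit 5) (nat_lit 4) (nat_lit 4) (nat_lit 2) (nat_lit 4) (nat_lit 364) (nat_lit 226) (nat_lit 190)) (XT.lf (nat_lit 0) (nat_lit 79577964913) (nat_lit 152) (nat_lit 30575636711) (nat_lit 0) (nat_lit 76127938493)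 (nat_lit 2) (nat_lit 5) (nat_lit 4) (nat_lit 4) (nat_lit 2) (nat_lit 4) (nat_lit 365) (nat_lit 226) (nat_lit 189)))))) (XT.nd (nat_lit 390) (nat_lit 76) (nat_lit 0) (XT.nd (nat_lit 156) (nat_lit 0) (nat_lit 0) (XT.nd (nat_lit 78) (nat_lit 0) (nat_lit 0) (XT.lf (nat_lit 0) (nat_lit 85555383183) (nat_lit 152) (nat_lit 27856358842) (nat_lit 0) (nat_lit 82073025762) (nat_lit 2) (nat_lit 5) (nat_lit 4) (nat_lit 4) (nat_lit 2) (nat_lit 4) (nat_lit 366) (nat_lit 226) (nat_lit 188)) (XT.lf (nat_lit 0) (nat_lit 91806155498) (nat_lit 152) (nat_lit 25050277492) (nat_lit 0) (nat_lit 88293006648) (nat_lit 2) (nat_lit 5) (nat_lit 4) (nat_lit 4) (nat_lit 2) (nat_lit 4) (nat_lit 367) (nat_lit 226) (nat_lit 187))) (XT.nd (nat_lit 78) (nat_lit 0) (nat_lit 0) (XT.lf (nat_lit 0) (nat_lit 98345164649) (nat_lit 152) (nat_lit 22150711514) (nat_lit 0) (nat_lit 94802690628) (nat_lit 2) (nat_lit 5) (nat_lit 4)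 (nat_lit 4) (nat_lit 2) (nat_lit 4) (nat_lit 368) (nat_lit 226) (nat_lit 186)) (XT.nd (nat_lit 78) (nat_lit 0) (nat_lit 0) (XT.lf (nat_lit 0) (nat_lit 105187979706) (nat_lit 152) (nat_lit 19150757181) (nat_lit 0) (nat_lit 101617576950) (nat_lit 2) (nat_lit 5) (nat_lit 4) (nat_lit 4) (nat_lit 2) (nat_lit 4) (nat_lit 369) (nat_lit 226) (nat_lit 185)) (XT.lf (nat_lit 0) (nat_lit 112350893085) (nat_lit 152) (nat_lit 16043271744) (nat_lit 0) (nat_lit 108753891535) (nat_lit 2) (nat_lit 5) (nat_lit 4) (nat_lit 4) (nat_lit 2) (nat_lit 4) (nat_lit 370) (nat_lit 226) (nat_lit 184))))) (XT.nd (nat_lit 234) (nat_lit 76) (nat_lit 0) (XT.nd (nat_lit 78) (nat_lit 0) (nat_lit 0) (XT.lf (nat_lit 0) (nat_lit 119850959343) (nat_lit 152) (nat_lit 12820856428) (nat_lit 0) (nat_lit 116228625608) (nat_lit 2) (nat_lit 5) (nat_lit 4) (nat_lit 4) (nat_lit 2) (nat_lit 4) (nat_lit 371) (nat_lit 226) (nat_lit 183))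 (XT.nd (nat_lit 78) (nat_lit 0) (nat_lit 0) (XT.lf (nat_lit 0) (nat_lit 127706035779) (nat_lit 152) (nat_lit 9475838816) (nat_lit 0) (nat_lit 124059576154) (nat_lit 2) (nat_lit 5) (nat_lit 4) (nat_lit 4) (nat_lit 2) (nat_lit 4) (nat_lit 372) (nat_lit 226) (nat_lit 182)) (XT.lf (nat_lit 0) (nat_lit 135934824957) (nat_lit 152) (nat_lit 6000254580) (nat_lit 0) (nat_lit 132265388293) (nat_lit 2) (nat_lit 5) (nat_lit 4) (nat_lit 4) (nat_lit 2) (nat_lit 4) (nat_lit 373) (nat_lit 226) (nat_lit 181)))) (XT.nd (nat_lit 78) (nat_lit 76) (nat_lit 0) (XT.lf (nat_lit 0) (nat_lit 144556919233) (nat_lit 152) (nat_lit 2385828519) (nat_lit 0) (nat_lit 140865599674) (nat_lit 2) (nat_lit 5) (nat_lit 4) (nat_lit 4) (nat_lit 2) (nat_lit 4) (nat_lit 374) (nat_lit 226) (nat_lit 180)) (XT.nd (nat_lit 78) (nat_lit 0) (nat_lit 0) (XT.lf (nat_lit 0) (nat_lit 1421543408) (nat_lit 76) (nat_lit 152193498268) (nat_lit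 76) (nat_lit 148481337859) (nat_lit 1) (nat_lit 4) (nat_lit 2) (nat_lit 5) (nat_lit 2) (nat_lit 4) (nat_lit 375) (nat_lit 226) (nat_lit 179)) (XT.lf (nat_lit 0) (nat_lit 5469377482) (nat_lit 76) (nat_lit 157680138404) (nat_lit 76) (nat_lit 153948129564) (nat_lit 1) (nat_lit 4) (nat_lit 2) (nat_lit 5) (nat_lit 2) (nat_lit 4) (nat_lit 376) (nat_lit 226) (nat_lit 178))))))))
noncomputable def xc27 : XT := (XT.nd (nat_lit 36972) (nat_lit 0) (nat_lit 76) (XT.nd (nat_lit 780) (nat_lit 0) (nat_lit 0) (XT.nd (nat_lit 390) (nat_lit 0) (nat_lit 0) (XT.nd (nat_lit 156) (nat_lit 0) (nat_lit 0) (XT.nd (nat_lit 78) (nat_lit 0) (nat_lit 0) (XT.lf (nat_lit 0) (nat_lit 9688425136) (nat_lit 76) (nat_lit 163456136748) (nat_lit 76) (nat_lit 159705224642) (nat_lit 1) (nat_lit 4) (nat_lit 2) (nat_lit 5) (nat_lit 2) (nat_lit 4) (nat_lit 377) (nat_lit 226) (nat_lit 177)) (XT.lf (nat_lit 0) (nat_lit 14088731723)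 (nat_lit 76) (nat_lit 169535245678) (nat_lit 76) (nat_lit 165766330460) (nat_lit 1) (nat_lit 4) (nat_lit 2) (nat_lit 5) (nat_lit 2) (nat_lit 4) (nat_lit 378) (nat_lit 226) (nat_lit 176))) (XT.nd (nat_lit 78) (nat_lit 0) (nat_lit 0) (XT.lf (nat_lit 0) (nat_lit 18680774161) (nat_lit 76) (nat_lit 175931939262) (nat_lit 76) (nat_lit 172145878225) (nat_lit 1) (nat_lit 4) (nat_lit 2) (nat_lit 5) (nat_lit 2) (nat_lit 4) (nat_lit 379) (nat_lit 226) (nat_lit 175)) (XT.nd (nat_lit 78) (nat_lit 0) (nat_lit 0) (XT.lf (nat_lit 0) (nat_lit 23475485886) (nat_lit 76) (nat_lit 182661447724) (nat_lit 76) (nat_lit 178859057334) (nat_lit 1) (nat_lit 4) (nat_lit 2) (nat_lit 5) (nat_lit 2) (nat_lit 4) (nat_lit 380) (nat_lit 226) (nat_lit 174)) (XT.lf (nat_lit 0) (nat_lit 28484282878) (nat_lit 76) (nat_lit 189739793702) (nat_lit 76) (nat_lit 185921851547) (nat_lit 1) (nat_lit 4) (nat_lit 2) (nat_lit 5) (nat_lit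 2) (nat_lit 4) (nat_lit 381) (nat_lit 226) (nat_lit 173))))) (XT.nd (nat_lit 156) (nat_lit 0) (nat_lit 0) (XT.nd (nat_lit 78) (nat_lit 0) (nat_lit 0) (XT.lf (nat_lit 0) (nat_lit 33719090845) (nat_lit 76) (nat_lit 197183830401) (nat_lit 76) (nat_lit 193351077043) (nat_lit 1) (nat_lit 4) (nat_lit 2) (nat_lit 5) (nat_lit 2) (nat_lit 4) (nat_lit 382) (nat_lit 226) (nat_lit 172)) (XT.lf (nat_lit 0) (nat_lit 39192373613) (nat_lit 76) (nat_lit 205011281718) (nat_lit 76) (nat_lit 201164422452) (nat_lit 1) (nat_lit 4) (nat_lit 2) (nat_lit 5) (nat_lit 2) (nat_lit 4) (nat_lit 383) (nat_lit 226) (nat_lit 171))) (XT.nd (nat_lit 78) (nat_lit 0) (nat_lit 0) (XT.lf (nat_lit 0) (nat_lit 44917162810) (nat_lit 76) (nat_lit 213240784443) (nat_lit 76) (nat_lit 209380490977) (nat_lit 1) (nat_lit 4) (nat_lit 2) (nat_lit 5) (nat_lit 2) (nat_lit 4) (nat_lit 384) (nat_lit 226) (nat_lit 170)) (XT.nd (nat_lit 78)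 (nat_lit 0) (nat_lit 0) (XT.lf (nat_lit 0) (nat_lit 50907088886) (nat_lit 76) (nat_lit 221891932628) (nat_lit 76) (nat_lit 218018844688) (nat_lit 1) (nat_lit 4) (nat_lit 2) (nat_lit 5) (nat_lit 2) (nat_lit 4) (nat_lit 385) (nat_lit 226) (nat_lit 169)) (XT.lf (nat_lit 0) (nat_lit 57176413569) (nat_lit 76) (nat_lit 230985324247) (nat_lit 76) (nat_lit 227100051092) (nat_lit 1) (nat_lit 4) (nat_lit 2) (nat_lit 5) (nat_lit 2) (nat_lit 4) (nat_lit 386) (nat_lit 226) (nat_lit 168)))))) (XT.nd (nat_lit 390) (nat_lit 0) (nat_lit 0) (XT.nd (nat_lit 156) (nat_lit 0) (nat_lit 0) (XT.nd (nat_lit 78) (nat_lit 0) (nat_lit 0) (XT.lf (nat_lit 0) (nat_lit 63740063824) (nat_lit 76) (nat_lit 240542610230) (nat_lit 76) (nat_lit 236645732110) (nat_lit 1) (nat_lit 4) (nat_lit 2) (nat_lit 5) (nat_lit 2) (nat_lit 4) (nat_lit 387) (nat_lit 226) (nat_lit 167)) (XT.lf (nat_lit 0) (nat_lit 70613667387) (nat_lit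 76) (nat_lit 250586546022) (nat_lit 76) (nat_lit 246678615553) (nat_lit 1) (nat_lit 4) (nat_lit 2) (nat_lit 5) (nat_lit 2) (nat_lit 4) (nat_lit 388) (nat_lit 226) (nat_lit 166))) (XT.nd (nat_lit 78) (nat_lit 0) (nat_lit 0) (XT.lf (nat_lit 0) (nat_lit 77813589984) (nat_lit 76) (nat_lit 261141045755) (nat_lit 76) (nat_lit 257222589240) (nat_lit 1) (nat_lit 4) (nat_lit 2) (nat_lit 5) (nat_lit 2) (nat_lit 4) (nat_lit 389) (nat_lit 226) (nat_lit 165)) (XT.nd (nat_lit 78) (nat_lit 0) (nat_lit 0) (XT.lf (nat_lit 0) (nat_lit 85356974285) (nat_lit 76) (nat_lit 272231239191) (nat_lit 76) (nat_lit 268302757870) (nat_lit 1) (nat_lit 4) (nat_lit 2) (nat_lit 5) (nat_lit 2) (nat_lit 4) (nat_lit 390) (nat_lit 226) (nat_lit 164)) (XT.lf (nat_lit 0) (nat_lit 93261780731) (nat_lit 76) (nat_lit 283883531551) (nat_lit 76) (nat_lit 279945502796) (nat_lit 1) (nat_lit 4) (nat_lit 2) (nat_lit 5) (nat_lit 2)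 (nat_lit 4) (nat_lit 391) (nat_lit 226) (nat_lit 163))))) (XT.nd (nat_lit 35568) (nat_lit 0) (nat_lit 456) (XT.nd (nat_lit 78) (nat_lit 0) (nat_lit 0) (XT.lf (nat_lit 0) (nat_lit 101546830289) (nat_lit 76) (nat_lit 296125666389) (nat_lit 76) (nat_lit 292178544839) (nat_lit 1) (nat_lit 4) (nat_lit 2) (nat_lit 5) (nat_lit 2) (nat_lit 4) (nat_lit 392) (nat_lit 226) (nat_lit 162)) (XT.nd (nat_lit 35412) (nat_lit 0) (nat_lit 532) (XT.lf (nat_lit 0) (nat_lit 110231849267) (nat_lit 76) (nat_lit 308986791645) (nat_lit 76) (nat_lit 305031010291) (nat_lit 1) (nat_lit 4) (nat_lit 2) (nat_lit 5) (nat_lit 2) (nat_lit 4) (nat_lit 393) (nat_lit 226) (nat_lit 161)) (XT.lf (nat_lit 0) (nat_lit 7490087439) (nat_lit 152) (nat_lit 400300225) (nat_lit 0) (nat_lit 7490087439) (nat_lit 8) (nat_lit 5) (nat_lit 10) (nat_lit 4) (nat_lit 8) (nat_lit 4) (nat_lit 326) (nat_lit 227) (nat_lit 227)))) (XT.nd (nat_lit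 78) (nat_lit 0) (nat_lit 0) (XT.lf (nat_lit 0) (nat_lit 7537973323) (nat_lit 76) (nat_lit 12382775933) (nat_lit 76) (nat_lit 12155166052) (nat_lit 7) (nat_lit 4) (nat_lit 8) (nat_lit 5) (nat_lit 8) (nat_lit 4) (nat_lit 327) (nat_lit 227) (nat_lit 226)) (XT.nd (nat_lit 78) (nat_lit 0) (nat_lit 0) (XT.lf (nat_lit 0) (nat_lit 16056553197) (nat_lit 76) (nat_lit 8925412478) (nat_lit 76) (nat_lit 8481031281) (nat_lit 7) (nat_lit 4) (nat_lit 8) (nat_lit 5) (nat_lit 8) (nat_lit 4) (nat_lit 328) (nat_lit 227) (nat_lit 225)) (XT.lf (nat_lit 0) (nat_lit 24748950037) (nat_lit 76) (nat_lit 5414011700) (nat_lit 76) (nat_lit 4763181631) (nat_lit 7) (nat_lit 4) (nat_lit 8) (nat_lit 5) (nat_lit 8) (nat_lit 4) (nat_lit 329) (nat_lit 227) (nat_lit 224))))))) (XT.nd (nat_lit 780) (nat_lit 152) (nat_lit 0) (XT.nd (nat_lit 390) (nat_lit 76) (nat_lit 0) (XT.nd (nat_lit 156) (nat_lit 0) (nat_lit 0) (XT.nd (nat_lit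 78) (nat_lit 152) (nat_lit 0) (XT.lf (nat_lit 0) (nat_lit 33635860026) (nat_lit 76) (nat_lit 1840213121) (nat_lit 76) (nat_lit 992765079) (nat_lit 7) (nat_lit 4) (nat_lit 8) (nat_lit 5) (nat_lit 8) (nat_lit 4) (nat_lit 330) (nat_lit 227) (nat_lit 223)) (XT.lf (nat_lit 0) (nat_lit 2852622780) (nat_lit 152) (nat_lit 33367509374) (nat_lit 0) (nat_lit 1867191109) (nat_lit 5) (nat_lit 5) (nat_lit 7) (nat_lit 4) (nat_lit 5) (nat_lit 4) (nat_lit 331) (nat_lit 227) (nat_lit 222))) (XT.nd (nat_lit 78) (nat_lit 0) (nat_lit 0) (XT.lf (nat_lit 0) (nat_lit 6813520793) (nat_lit 152) (nat_lit 27316363042) (nat_lit 0) (nat_lit 5658243124) (nat_lit 5) (nat_lit 5) (nat_lit 7) (nat_lit 4) (nat_lit 5) (nat_lit 4) (nat_lit 332) (nat_lit 227) (nat_lit 221)) (XT.nd (nat_lit 78) (nat_lit 0) (nat_lit 0) (XT.lf (nat_lit 0) (nat_lit 10855961201) (nat_lit 152) (nat_lit 21184945856) (nat_lit 0) (nat_lit 9538925439)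 (nat_lit 5) (nat_lit 5) (nat_lit 7) (nat_lit 4) (nat_lit 5) (nat_lit 4) (nat_lit 333) (nat_lit 227) (nat_lit 220)) (XT.lf (nat_lit 0) (nat_lit 14989568863) (nat_lit 152) (nat_lit 14958659202) (nat_lit 0) (nat_lit 13518477774) (nat_lit 5) (nat_lit 5) (nat_lit 7) (nat_lit 4) (nat_lit 5) (nat_lit 4) (nat_lit 334) (nat_lit 227) (nat_lit 219))))) (XT.nd (nat_lit 156) (nat_lit 76) (nat_lit 0) (XT.nd (nat_lit 78) (nat_lit 0) (nat_lit 0) (XT.lf (nat_lit 0) (nat_lit 19224185701) (nat_lit 152) (nat_lit 8622678590) (nat_lit 0) (nat_lit 17606375253) (nat_lit 5) (nat_lit 5) (nat_lit 7) (nat_lit 4) (nat_lit 5) (nat_lit 4) (nat_lit 335) (nat_lit 227) (nat_lit 218)) (XT.lf (nat_lit 0) (nat_lit 23569894136) (nat_lit 152) (nat_lit 2161918351) (nat_lit 0) (nat_lit 21812350966) (nat_lit 5) (nat_lit 5) (nat_lit 7) (nat_lit 4) (nat_lit 5) (nat_lit 4) (nat_lit 336) (nat_lit 227) (nat_lit 217))) (XT.nd (nat_lit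 78) (nat_lit 0) (nat_lit 0) (XT.lf (nat_lit 0) (nat_lit 4585777806) (nat_lit 76) (nat_lit 23522860131) (nat_lit 76) (nat_lit 21632238177) (nat_lit 4) (nat_lit 4) (nat_lit 5) (nat_lit 5) (nat_lit 5) (nat_lit 4) (nat_lit 337) (nat_lit 227) (nat_lit 216)) (XT.nd (nat_lit 78) (nat_lit 0) (nat_lit 0) (XT.lf (nat_lit 0) (nat_lit 11565989679) (nat_lit 76) (nat_lit 21250850471) (nat_lit 76) (nat_lit 19233486819) (nat_lit 4) (nat_lit 4) (nat_lit 5) (nat_lit 5) (nat_lit 5) (nat_lit 4) (nat_lit 338) (nat_lit 227) (nat_lit 215)) (XT.lf (nat_lit 0) (nat_lit 18723854035) (nat_lit 76) (nat_lit 18946987096) (nat_lit 76) (nat_lit 16808917063) (nat_lit 4) (nat_lit 4) (nat_lit 5) (nat_lit 5) (nat_lit 5) (nat_lit 4) (nat_lit 339) (nat_lit 227) (nat_lit 214)))))) (XT.nd (nat_lit 390) (nat_lit 152) (nat_lit 0) (XT.nd (nat_lit 156) (nat_lit 0) (nat_lit 0) (XT.nd (nat_lit 78) (nat_lit 0) (nat_lit 0) (XT.lf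 (nat_lit 0) (nat_lit 26076413409) (nat_lit 76) (nat_lit 16605784615) (nat_lit 76) (nat_lit 14352756125) (nat_lit 4) (nat_lit 4) (nat_lit 5) (nat_lit 5) (nat_lit 5) (nat_lit 4) (nat_lit 340) (nat_lit 227) (nat_lit 213)) (XT.lf (nat_lit 0) (nat_lit 33641173894) (nat_lit 76) (nat_lit 14221668737) (nat_lit 76) (nat_lit 11859156003) (nat_lit 4) (nat_lit 4) (nat_lit 5) (nat_lit 5) (nat_lit 5) (nat_lit 4) (nat_lit 341) (nat_lit 227) (nat_lit 212))) (XT.nd (nat_lit 78) (nat_lit 0) (nat_lit 0) (XT.lf (nat_lit 0) (nat_lit 41436146825) (nat_lit 76) (nat_lit 11788962995) (nat_lit 76) (nat_lit 9322179552) (nat_lit 4) (nat_lit 4) (nat_lit 5) (nat_lit 5) (nat_lit 5) (nat_lit 4) (nat_lit 342) (nat_lit 227) (nat_lit 211)) (XT.nd (nat_lit 78) (nat_lit 0) (nat_lit 0) (XT.lf (nat_lit 0) (nat_lit 49479891662) (nat_lit 76) (nat_lit 9301875234) (nat_lit 76) (nat_lit 6735786353) (nat_lit 4) (nat_lit 4) (nat_lit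 5) (nat_lit 5) (nat_lit 5) (nat_lit 4) (nat_lit 343) (nat_lit 227) (nat_lit 210)) (XT.lf (nat_lit 0) (nat_lit 57791560177) (nat_lit 76) (nat_lit 6754483815) (nat_lit 76) (nat_lit 4093818328) (nat_lit 4) (nat_lit 4) (nat_lit 5) (nat_lit 5) (nat_lit 5) (nat_lit 4) (nat_lit 344) (nat_lit 227) (nat_lit 209))))) (XT.nd (nat_lit 234) (nat_lit 0) (nat_lit 0) (XT.nd (nat_lit 78) (nat_lit 152) (nat_lit 0) (XT.lf (nat_lit 0) (nat_lit 66390942057) (nat_lit 76) (nat_lit 4140723521) (nat_lit 76) (nat_lit 1389985075) (nat_lit 4) (nat_lit 4) (nat_lit 5) (nat_lit 5) (nat_lit 5) (nat_lit 4) (nat_lit 345) (nat_lit 227) (nat_lit 208)) (XT.nd (nat_lit 78) (nat_lit 76) (nat_lit 0) (XT.lf (nat_lit 0) (nat_lit 1337913635) (nat_lit 152) (nat_lit 93799263) (nat_lit 76) (nat_lit 73937940172) (nat_lit 3) (nat_lit 5) (nat_lit 5) (nat_lit 5) (nat_lit 4) (nat_lit 4) (nat_lit 346) (nat_lit 227) (nat_lit 207)) (XT.lf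 (nat_lit 0) (nat_lit 4205120224) (nat_lit 152) (nat_lit 73355470260) (nat_lit 0) (nat_lit 1425862085) (nat_lit 2) (nat_lit 5) (nat_lit 4) (nat_lit 4) (nat_lit 2) (nat_lit 4) (nat_lit 347) (nat_lit 227) (nat_lit 206)))) (XT.nd (nat_lit 78) (nat_lit 0) (nat_lit 0) (XT.lf (nat_lit 0) (nat_lit 7179363037) (nat_lit 152) (nat_lit 71280560295) (nat_lit 0) (nat_lit 4326001652) (nat_lit 2) (nat_lit 5) (nat_lit 4) (nat_lit 4) (nat_lit 2) (nat_lit 4) (nat_lit 348) (nat_lit 227) (nat_lit 205)) (XT.nd (nat_lit 78) (nat_lit 0) (nat_lit 0) (XT.lf (nat_lit 0) (nat_lit 10243832861) (nat_lit 152) (nat_lit 69214581398) (nat_lit 0) (nat_lit 7319896955) (nat_lit 2) (nat_lit 5) (nat_lit 4) (nat_lit 4) (nat_lit 2) (nat_lit 4) (nat_lit 349) (nat_lit 227) (nat_lit 204)) (XT.lf (nat_lit 0) (nat_lit 13405826052) (nat_lit 152) (nat_lit 67152614571) (nat_lit 0) (nat_lit 10414676318) (nat_lit 2) (nat_lit 5) (nat_lit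 4) (nat_lit 4) (nat_lit 2) (nat_lit 4) (nat_lit 350) (nat_lit 227) (nat_lit 203))))))))
noncomputable def xc28 : XT := (XT.nd (nat_lit 1560) (nat_lit 76) (nat_lit 0) (XT.nd (nat_lit 780) (nat_lit 0) (nat_lit 0) (XT.nd (nat_lit 390) (nat_lit 0) (nat_lit 0) (XT.nd (nat_lit 156) (nat_lit 0) (nat_lit 0) (XT.nd (nat_lit 78) (nat_lit 0) (nat_lit 0) (XT.lf (nat_lit 0) (nat_lit 16672871167) (nat_lit 152) (nat_lit 65089750369) (nat_lit 0) (nat_lit 13617708262) (nat_lit 2) (nat_lit 5) (nat_lit 4) (nat_lit 4) (nat_lit 2) (nat_lit 4) (nat_lit 351) (nat_lit 227) (nat_lit 202)) (XT.lf (nat_lit 0) (nat_lit 20052746883) (nat_lit 152) (nat_lit 63021077212) (nat_lit 0) (nat_lit 16936619054) (nat_lit 2) (nat_lit 5) (nat_lit 4) (nat_lit 4) (nat_lit 2) (nat_lit 4) (nat_lit 352) (nat_lit 227) (nat_lit 201))) (XT.nd (nat_lit 78) (nat_lit 0) (nat_lit 0) (XT.lf (nat_lit 0) (nat_lit 23553500524) (nat_lit 152)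 (nat_lit 60941669686) (nat_lit 0) (nat_lit 20379310863) (nat_lit 2) (nat_lit 5) (nat_lit 4) (nat_lit 4) (nat_lit 2) (nat_lit 4) (nat_lit 353) (nat_lit 227) (nat_lit 200)) (XT.nd (nat_lit 78) (nat_lit 0) (nat_lit 0) (XT.lf (nat_lit 0) (nat_lit 27183467217) (nat_lit 152) (nat_lit 58846576821) (nat_lit 0) (nat_lit 23953980573) (nat_lit 2) (nat_lit 5) (nat_lit 4) (nat_lit 4) (nat_lit 2) (nat_lit 4) (nat_lit 354) (nat_lit 227) (nat_lit 199)) (XT.lf (nat_lit 0) (nat_lit 30951289741) (nat_lit 152) (nat_lit 56730810301) (nat_lit 0) (nat_lit 27669139303) (nat_lit 2) (nat_lit 5) (nat_lit 4) (nat_lit 4) (nat_lit 2) (nat_lit 4) (nat_lit 355) (nat_lit 227) (nat_lit 198))))) (XT.nd (nat_lit 156) (nat_lit 0) (nat_lit 0) (XT.nd (nat_lit 78) (nat_lit 0) (nat_lit 0) (XT.lf (nat_lit 0) (nat_lit 34865939101) (nat_lit 152) (nat_lit 54589332587) (nat_lit 0) (nat_lit 31533632669) (nat_lit 2) (nat_lit 5) (nat_lit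 4) (nat_lit 4) (nat_lit 2) (nat_lit 4) (nat_lit 356) (nat_lit 227) (nat_lit 197)) (XT.lf (nat_lit 0) (nat_lit 38936735892) (nat_lit 152) (nat_lit 52417044922) (nat_lit 0) (nat_lit 35556661846) (nat_lit 2) (nat_lit 5) (nat_lit 4) (nat_lit 4) (nat_lit 2) (nat_lit 4) (nat_lit 357) (nat_lit 227) (nat_lit 196))) (XT.nd (nat_lit 78) (nat_lit 0) (nat_lit 0) (XT.lf (nat_lit 0) (nat_lit 43173372486) (nat_lit 152) (nat_lit 50208775193) (nat_lit 0) (nat_lit 39747805475) (nat_lit 2) (nat_lit 5) (nat_lit 4) (nat_lit 4) (nat_lit 2) (nat_lit 4) (nat_lit 358) (nat_lit 227) (nat_lit 195)) (XT.nd (nat_lit 78) (nat_lit 0) (nat_lit 0) (XT.lf (nat_lit 0) (nat_lit 47585936113) (nat_lit 152) (nat_lit 47959265615) (nat_lit 0) (nat_lit 44117042469) (nat_lit 2) (nat_lit 5) (nat_lit 4) (nat_lit 4) (nat_lit 2) (nat_lit 4) (nat_lit 359) (nat_lit 227) (nat_lit 194)) (XT.lf (nat_lit 0) (nat_lit 52184932877) (nat_lit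 152) (nat_lit 45663160212) (nat_lit 0) (nat_lit 48674775773) (nat_lit 2) (nat_lit 5) (nat_lit 4) (nat_lit 4) (nat_lit 2) (nat_lit 4) (nat_lit 360) (nat_lit 227) (nat_lit 193)))))) (XT.nd (nat_lit 390) (nat_lit 0) (nat_lit 0) (XT.nd (nat_lit 156) (nat_lit 0) (nat_lit 0) (XT.nd (nat_lit 78) (nat_lit 0) (nat_lit 0) (XT.lf (nat_lit 0) (nat_lit 56981312772) (nat_lit 152) (nat_lit 43314992067) (nat_lit 0) (nat_lit 53431857134) (nat_lit 2) (nat_lit 5) (nat_lit 4) (nat_lit 4) (nat_lit 2) (nat_lit 4) (nat_lit 361) (nat_lit 227) (nat_lit 192)) (XT.lf (nat_lit 0) (nat_lit 61986495748) (nat_lit 152) (nat_lit 40909170303) (nat_lit 0) (nat_lit 58399612935) (nat_lit 2) (nat_lit 5) (nat_lit 4) (nat_lit 4) (nat_lit 2) (nat_lit 4) (nat_lit 362) (nat_lit 227) (nat_lit 191))) (XT.nd (nat_lit 78) (nat_lit 0) (nat_lit 0) (XT.lf (nat_lit 0) (nat_lit 67212398907) (nat_lit 152) (nat_lit 38439966773) (nat_lit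 0) (nat_lit 63589871166) (nat_lit 2) (nat_lit 5) (nat_lit 4) (nat_lit 4) (nat_lit 2) (nat_lit 4) (nat_lit 363) (nat_lit 227) (nat_lit 190)) (XT.nd (nat_lit 78) (nat_lit 0) (nat_lit 0) (XT.lf (nat_lit 0) (nat_lit 72671464878) (nat_lit 152) (nat_lit 35901502422) (nat_lit 0) (nat_lit 69014989586) (nat_lit 2) (nat_lit 5) (nat_lit 4) (nat_lit 4) (nat_lit 2) (nat_lit 4) (nat_lit 364) (nat_lit 227) (nat_lit 189)) (XT.lf (nat_lit 0) (nat_lit 78376691435) (nat_lit 152) (nat_lit 33287733286) (nat_lit 0) (nat_lit 74687885143) (nat_lit 2) (nat_lit 5) (nat_lit 4) (nat_lit 4) (nat_lit 2) (nat_lit 4) (nat_lit 365) (nat_lit 227) (nat_lit 188))))) (XT.nd (nat_lit 156) (nat_lit 0) (nat_lit 0) (XT.nd (nat_lit 78) (nat_lit 0) (nat_lit 0) (XT.lf (nat_lit 0) (nat_lit 84341662452) (nat_lit 152) (nat_lit 30592436106) (nat_lit 0) (nat_lit 80622064730) (nat_lit 2) (nat_lit 5) (nat_lit 4) (nat_lit 4) (nat_lit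 2) (nat_lit 4) (nat_lit 366) (nat_lit 227) (nat_lit 187)) (XT.lf (nat_lit 0) (nat_lit 90580580240) (nat_lit 152) (nat_lit 27809193507) (nat_lit 0) (nat_lit 86831657347) (nat_lit 2) (nat_lit 5) (nat_lit 4) (nat_lit 4) (nat_lit 2) (nat_lit 4) (nat_lit 367) (nat_lit 227) (nat_lit 186))) (XT.nd (nat_lit 78) (nat_lit 0) (nat_lit 0) (XT.lf (nat_lit 0) (nat_lit 97108299366) (nat_lit 152) (nat_lit 24931378721) (nat_lit 0) (nat_lit 93331447739) (nat_lit 2) (nat_lit 5) (nat_lit 4) (nat_lit 4) (nat_lit 2) (nat_lit 4) (nat_lit 368) (nat_lit 227) (nat_lit 185)) (XT.nd (nat_lit 78) (nat_lit 0) (nat_lit 0) (XT.lf (nat_lit 0) (nat_lit 103940362018) (nat_lit 152) (nat_lit 21952139809) (nat_lit 0) (nat_lit 100136911596) (nat_lit 2) (nat_lit 5) (nat_lit 4) (nat_lit 4) (nat_lit 2) (nat_lit 4) (nat_lit 369) (nat_lit 227) (nat_lit 184)) (XT.lf (nat_lit 0) (nat_lit 111093035012) (nat_lit 152) (nat_lit 18864383344)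 (nat_lit 0) (nat_lit 107264252405) (nat_lit 2) (nat_lit 5) (nat_lit 4) (nat_lit 4) (nat_lit 2) (nat_lit 4) (nat_lit 370) (nat_lit 227) (nat_lit 183))))))) (XT.nd (nat_lit 780) (nat_lit 0) (nat_lit 0) (XT.nd (nat_lit 390) (nat_lit 76) (nat_lit 0) (XT.nd (nat_lit 156) (nat_lit 0) (nat_lit 0) (XT.nd (nat_lit 78) (nat_lit 0) (nat_lit 0) (XT.lf (nat_lit 0) (nat_lit 118583348521) (nat_lit 152) (nat_lit 15660757526) (nat_lit 0) (nat_lit 114730440023) (nat_lit 2) (nat_lit 5) (nat_lit 4) (nat_lit 4) (nat_lit 2) (nat_lit 4) (nat_lit 371) (nat_lit 227) (nat_lit 182)) (XT.lf (nat_lit 0) (nat_lit 126429136626) (nat_lit 152) (nat_lit 12333634673) (nat_lit 0) (nat_lit 122553251089) (nat_lit 2) (nat_lit 5) (nat_lit 4) (nat_lit 4) (nat_lit 2) (nat_lit 4) (nat_lit 372) (nat_lit 227) (nat_lit 181))) (XT.nd (nat_lit 78) (nat_lit 0) (nat_lit 0) (XT.lf (nat_lit 0) (nat_lit 134649079774) (nat_lit 152) (nat_lit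 8875093065) (nat_lit 0) (nat_lit 130751311343) (nat_lit 2) (nat_lit 5) (nat_lit 4) (nat_lit 4) (nat_lit 2) (nat_lit 4) (nat_lit 373) (nat_lit 227) (nat_lit 180)) (XT.nd (nat_lit 78) (nat_lit 0) (nat_lit 0) (XT.lf (nat_lit 0) (nat_lit 143262749258) (nat_lit 152) (nat_lit 5276898078) (nat_lit 0) (nat_lit 139344139976) (nat_lit 2) (nat_lit 5) (nat_lit 4) (nat_lit 4) (nat_lit 2) (nat_lit 4) (nat_lit 374) (nat_lit 227) (nat_lit 179)) (XT.lf (nat_lit 0) (nat_lit 152290653816) (nat_lit 152) (nat_lit 1530482583) (nat_lit 0) (nat_lit 148352196104) (nat_lit 2) (nat_lit 5) (nat_lit 4) (nat_lit 4) (nat_lit 2) (nat_lit 4) (nat_lit 375) (nat_lit 227) (nat_lit 178))))) (XT.nd (nat_lit 156) (nat_lit 0) (nat_lit 0) (XT.nd (nat_lit 78) (nat_lit 0) (nat_lit 0) (XT.lf (nat_lit 0) (nat_lit 2451537984) (nat_lit 76) (nat_lit 159341025852) (nat_lit 76) (nat_lit 155383664874) (nat_lit 1) (nat_lit 4) (nat_lit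 2) (nat_lit 5) (nat_lit 2) (nat_lit 4) (nat_lit 376) (nat_lit 227) (nat_lit 177)) (XT.lf (nat_lit 0) (nat_lit 6656101028) (nat_lit 76) (nat_lit 165124005010) (nat_lit 76) (nat_lit 161148640921) (nat_lit 1) (nat_lit 4) (nat_lit 2) (nat_lit 5) (nat_lit 2) (nat_lit 4) (nat_lit 377) (nat_lit 227) (nat_lit 176))) (XT.nd (nat_lit 78) (nat_lit 0) (nat_lit 0) (XT.lf (nat_lit 0) (nat_lit 11042612747) (nat_lit 76) (nat_lit 171209762334) (nat_lit 76) (nat_lit 167217252425) (nat_lit 1) (nat_lit 4) (nat_lit 2) (nat_lit 5) (nat_lit 2) (nat_lit 4) (nat_lit 378) (nat_lit 227) (nat_lit 175)) (XT.nd (nat_lit 78) (nat_lit 0) (nat_lit 0) (XT.lf (nat_lit 0) (nat_lit 15621517217) (nat_lit 76) (nat_lit 177612787722) (nat_lit 76) (nat_lit 173603948460) (nat_lit 1) (nat_lit 4) (nat_lit 2) (nat_lit 5) (nat_lit 2) (nat_lit 4) (nat_lit 379) (nat_lit 227) (nat_lit 174)) (XT.lf (nat_lit 0) (nat_lit 20403716591) (nat_lit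 76) (nat_lit 184348326473) (nat_lit 76) (nat_lit 180323935447) (nat_lit 1) (nat_lit 4) (nat_lit 2) (nat_lit 5) (nat_lit 2) (nat_lit 4) (nat_lit 380) (nat_lit 227) (nat_lit 173)))))) (XT.nd (nat_lit 390) (nat_lit 0) (nat_lit 0) (XT.nd (nat_lit 156) (nat_lit 0) (nat_lit 0) (XT.nd (nat_lit 78) (nat_lit 0) (nat_lit 0) (XT.lf (nat_lit 0) (nat_lit 25400597059) (nat_lit 76) (nat_lit 191432415584) (nat_lit 76) (nat_lit 187393213354) (nat_lit 1) (nat_lit 4) (nat_lit 2) (nat_lit 5) (nat_lit 2) (nat_lit 4) (nat_lit 381) (nat_lit 227) (nat_lit 172)) (XT.lf (nat_lit 0) (nat_lit 30624055954) (nat_lit 76) (nat_lit 198881921934) (nat_lit 76) (nat_lit 194828613795) (nat_lit 1) (nat_lit 4) (nat_lit 2) (nat_lit 5) (nat_lit 2) (nat_lit 4) (nat_lit 382) (nat_lit 227) (nat_lit 171))) (XT.nd (nat_lit 78) (nat_lit 0) (nat_lit 0) (XT.lf (nat_lit 0) (nat_lit 36086530084) (nat_lit 76) (nat_lit 206714582442) (nat_lit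 76) (nat_lit 202647840105) (nat_lit 1) (nat_lit 4) (nat_lit 2) (nat_lit 5) (nat_lit 2) (nat_lit 4) (nat_lit 383) (nat_lit 227) (nat_lit 170)) (XT.nd (nat_lit 78) (nat_lit 0) (nat_lit 0) (XT.lf (nat_lit 0) (nat_lit 41801025339) (nat_lit 76) (nat_lit 214949046300) (nat_lit 76) (nat_lit 210869509488) (nat_lit 1) (nat_lit 4) (nat_lit 2) (nat_lit 5) (nat_lit 2) (nat_lit 4) (nat_lit 384) (nat_lit 227) (nat_lit 169)) (XT.lf (nat_lit 0) (nat_lit 47781147660) (nat_lit 76) (nat_lit 223604919376) (nat_lit 76) (nat_lit 219513197349) (nat_lit 1) (nat_lit 4) (nat_lit 2) (nat_lit 5) (nat_lit 2) (nat_lit 4) (nat_lit 385) (nat_lit 227) (nat_lit 168))))) (XT.nd (nat_lit 234) (nat_lit 0) (nat_lit 0) (XT.nd (nat_lit 78) (nat_lit 0) (nat_lit 0) (XT.lf (nat_lit 0) (nat_lit 54041135435) (nat_lit 76) (nat_lit 232702810889) (nat_lit 76) (nat_lit 228599483896) (nat_lit 1) (nat_lit 4) (nat_lit 2) (nat_lit 5) (nat_lit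 2) (nat_lit 4) (nat_lit 386) (nat_lit 227) (nat_lit 167)) (XT.nd (nat_lit 78) (nat_lit 0) (nat_lit 0) (XT.lf (nat_lit 0) (nat_lit 60595893395) (nat_lit 76) (nat_lit 242264382487) (nat_lit 76) (nat_lit 238150003146) (nat_lit 1) (nat_lit 4) (nat_lit 2) (nat_lit 5) (nat_lit 2) (nat_lit 4) (nat_lit 387) (nat_lit 227) (nat_lit 166)) (XT.lf (nat_lit 0) (nat_lit 67461028107) (nat_lit 76) (nat_lit 252312399816) (nat_lit 76) (nat_lit 248187494429) (nat_lit 1) (nat_lit 4) (nat_lit 2) (nat_lit 5) (nat_lit 2) (nat_lit 4) (nat_lit 388) (nat_lit 227) (nat_lit 165)))) (XT.nd (nat_lit 78) (nat_lit 0) (nat_lit 0) (XT.lf (nat_lit 0) (nat_lit 74652885130) (nat_lit 76) (nat_lit 262870786727) (nat_lit 76) (nat_lit 258735856534) (nat_lit 1) (nat_lit 4) (nat_lit 2) (nat_lit 5) (nat_lit 2) (nat_lit 4) (nat_lit 389) (nat_lit 227) (nat_lit 164)) (XT.nd (nat_lit 78) (nat_lit 0) (nat_lit 0) (XT.lf (nat_lit 0) (nat_lit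 82188587934) (nat_lit 76) (nat_lit 273964682237) (nat_lit 76) (nat_lit 269820204610) (nat_lit 1) (nat_lit 4) (nat_lit 2) (nat_lit 5) (nat_lit 2) (nat_lit 4) (nat_lit 390) (nat_lit 227) (nat_lit 163)) (XT.lf (nat_lit 0) (nat_lit 90086078667) (nat_lit 76) (nat_lit 285620500383) (nat_lit 76) (nat_lit 281466929961) (nat_lit 1) (nat_lit 4) (nat_lit 2) (nat_lit 5) (nat_lit 2) (nat_lit 4) (nat_lit 391) (nat_lit 227) (nat_lit 162))))))))
noncomputable def xc29 : XT := (XT.nd (nat_lit 36816) (nat_lit 0) (nat_lit 76) (XT.nd (nat_lit 35958) (nat_lit 0) (nat_lit 228) (XT.nd (nat_lit 35568) (nat_lit 0) (nat_lit 304) (XT.nd (nat_lit 35334) (nat_lit 0) (nat_lit 532) (XT.nd (nat_lit 78) (nat_lit 0) (nat_lit 0) (XT.lf (nat_lit 0) (nat_lit 98364160880) (nat_lit 76) (nat_lit 297865993112) (nat_lit 76) (nat_lit 293703762886) (nat_lit 1) (nat_lit 4) (nat_lit 2) (nat_lit 5) (nat_lit 2) (nat_lit 4) (nat_lit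 392) (nat_lit 227) (nat_lit 161)) (XT.lf (nat_lit 0) (nat_lit 107042544291) (nat_lit 76) (nat_lit 310730316359) (nat_lit 76) (nat_lit 306559838701) (nat_lit 1) (nat_lit 4) (nat_lit 2) (nat_lit 5) (nat_lit 2) (nat_lit 4) (nat_lit 393) (nat_lit 227) (nat_lit 160))) (XT.nd (nat_lit 78) (nat_lit 0) (nat_lit 0) (XT.lf (nat_lit 0) (nat_lit 2958361019) (nat_lit 152) (nat_lit 8244180667) (nat_lit 0) (nat_lit 2958361019) (nat_lit 8) (nat_lit 5) (nat_lit 10) (nat_lit 4) (nat_lit 8) (nat_lit 4) (nat_lit 324) (nat_lit 228) (nat_lit 228)) (XT.nd (nat_lit 78) (nat_lit 0) (nat_lit 0) (XT.lf (nat_lit 0) (nat_lit 10490128724) (nat_lit 152) (nat_lit 8768570748) (nat_lit 0) (nat_lit 10251138349) (nat_lit 8) (nat_lit 5) (nat_lit 10) (nat_lit 4) (nat_lit 8) (nat_lit 4) (nat_lit 325) (nat_lit 228) (nat_lit 227)) (XT.lf (nat_lit 0) (nat_lit 15149602880) (nat_lit 152) (nat_lit 931847894) (nat_lit 0) (nat_lit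 14683002623) (nat_lit 8) (nat_lit 5) (nat_lit 10) (nat_lit 4) (nat_lit 8) (nat_lit 4) (nat_lit 326) (nat_lit 228) (nat_lit 226))))) (XT.nd (nat_lit 156) (nat_lit 152) (nat_lit 0) (XT.nd (nat_lit 78) (nat_lit 0) (nat_lit 0) (XT.lf (nat_lit 0) (nat_lit 7273255695) (nat_lit 76) (nat_lit 12746538701) (nat_lit 76) (nat_lit 12063167129) (nat_lit 7) (nat_lit 4) (nat_lit 8) (nat_lit 5) (nat_lit 8) (nat_lit 4) (nat_lit 327) (nat_lit 228) (nat_lit 225)) (XT.lf (nat_lit 0) (nat_lit 15668854091) (nat_lit 76) (nat_lit 9347141514) (nat_lit 76) (nat_lit 8457321070) (nat_lit 7) (nat_lit 4) (nat_lit 8) (nat_lit 5) (nat_lit 8) (nat_lit 4) (nat_lit 328) (nat_lit 228) (nat_lit 224))) (XT.nd (nat_lit 78) (nat_lit 152) (nat_lit 0) (XT.lf (nat_lit 0) (nat_lit 24244125716) (nat_lit 76) (nat_lit 5890946706) (nat_lit 76) (nat_lit 4804508288) (nat_lit 7) (nat_lit 4) (nat_lit 8) (nat_lit 5) (nat_lit 8) (nat_lit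 4) (nat_lit 329) (nat_lit 228) (nat_lit 223)) (XT.nd (nat_lit 78) (nat_lit 152) (nat_lit 0) (XT.lf (nat_lit 0) (nat_lit 33019487881) (nat_lit 76) (nat_lit 2369725241) (nat_lit 76) (nat_lit 1096031611) (nat_lit 7) (nat_lit 4) (nat_lit 8) (nat_lit 5) (nat_lit 8) (nat_lit 4) (nat_lit 330) (nat_lit 228) (nat_lit 222)) (XT.lf (nat_lit 0) (nat_lit 2674348818) (nat_lit 152) (nat_lit 34141934639) (nat_lit 0) (nat_lit 1291461268) (nat_lit 5) (nat_lit 5) (nat_lit 7) (nat_lit 4) (nat_lit 5) (nat_lit 4) (nat_lit 331) (nat_lit 228) (nat_lit 221)))))) (XT.nd (nat_lit 390) (nat_lit 76) (nat_lit 0) (XT.nd (nat_lit 156) (nat_lit 0) (nat_lit 0) (XT.nd (nat_lit 78) (nat_lit 0) (nat_lit 0) (XT.lf (nat_lit 0) (nat_lit 6578416341) (nat_lit 152) (nat_lit 28199220727) (nat_lit 0) (nat_lit 5033770697) (nat_lit 5) (nat_lit 5) (nat_lit 7) (nat_lit 4) (nat_lit 5) (nat_lit 4) (nat_lit 332) (nat_lit 228) (nat_lit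 220)) (XT.lf (nat_lit 0) (nat_lit 10566732473) (nat_lit 152) (nat_lit 22171072512) (nat_lit 0) (nat_lit 8868031502) (nat_lit 5) (nat_lit 5) (nat_lit 7) (nat_lit 4) (nat_lit 5) (nat_lit 4) (nat_lit 333) (nat_lit 228) (nat_lit 219))) (XT.nd (nat_lit 78) (nat_lit 0) (nat_lit 0) (XT.lf (nat_lit 0) (nat_lit 14648793204) (nat_lit 152) (nat_lit 16043137261) (nat_lit 0) (nat_lit 12803372875) (nat_lit 5) (nat_lit 5) (nat_lit 7) (nat_lit 4) (nat_lit 5) (nat_lit 4) (nat_lit 334) (nat_lit 228) (nat_lit 218)) (XT.nd (nat_lit 78) (nat_lit 0) (nat_lit 0) (XT.lf (nat_lit 0) (nat_lit 18834317728) (nat_lit 152) (nat_lit 9800824650) (nat_lit 0) (nat_lit 16849164676) (nat_lit 5) (nat_lit 5) (nat_lit 7) (nat_lit 4) (nat_lit 5) (nat_lit 4) (nat_lit 335) (nat_lit 228) (nat_lit 217)) (XT.lf (nat_lit 0) (nat_lit 23133271578) (nat_lit 152) (nat_lit 3429272032) (nat_lit 0) (nat_lit 21015039742) (nat_lit 5) (nat_lit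 5) (nat_lit 7) (nat_lit 4) (nat_lit 5) (nat_lit 4) (nat_lit 336) (nat_lit 228) (nat_lit 216))))) (XT.nd (nat_lit 234) (nat_lit 0) (nat_lit 0) (XT.nd (nat_lit 78) (nat_lit 0) (nat_lit 0) (XT.lf (nat_lit 0) (nat_lit 3188750900) (nat_lit 76) (nat_lit 24416924797) (nat_lit 76) (nat_lit 22171951262) (nat_lit 4) (nat_lit 4) (nat_lit 5) (nat_lit 5) (nat_lit 5) (nat_lit 4) (nat_lit 337) (nat_lit 228) (nat_lit 215)) (XT.nd (nat_lit 78) (nat_lit 0) (nat_lit 0) (XT.lf (nat_lit 0) (nat_lit 10085373451) (nat_lit 76) (nat_lit 22184791609) (nat_lit 76) (nat_lit 19819111695) (nat_lit 4) (nat_lit 4) (nat_lit 5) (nat_lit 5) (nat_lit 5) (nat_lit 4) (nat_lit 338) (nat_lit 228) (nat_lit 214)) (XT.lf (nat_lit 0) (nat_lit 17163628929) (nat_lit 76) (nat_lit 19918905825) (nat_lit 76) (nat_lit 17438267454) (nat_lit 4) (nat_lit 4) (nat_lit 5) (nat_lit 5) (nat_lit 5) (nat_lit 4) (nat_lit 339) (nat_lit 228) (nat_lit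 213)))) (XT.nd (nat_lit 78) (nat_lit 0) (nat_lit 0) (XT.lf (nat_lit 0) (nat_lit 24440370324) (nat_lit 76) (nat_lit 17613872479) (nat_lit 76) (nat_lit 15023749864) (nat_lit 4) (nat_lit 4) (nat_lit 5) (nat_lit 5) (nat_lit 5) (nat_lit 4) (nat_lit 340) (nat_lit 228) (nat_lit 212)) (XT.nd (nat_lit 78) (nat_lit 0) (nat_lit 0) (XT.lf (nat_lit 0) (nat_lit 31932923210) (nat_lit 76) (nat_lit 15264203396) (nat_lit 76) (nat_lit 12569810072) (nat_lit 4) (nat_lit 4) (nat_lit 5) (nat_lit 5) (nat_lit 5) (nat_lit 4) (nat_lit 341) (nat_lit 228) (nat_lit 211)) (XT.lf (nat_lit 0) (nat_lit 39659126999) (nat_lit 76) (nat_lit 12864304127) (nat_lit 76) (nat_lit 10070605365) (nat_lit 4) (nat_lit 4) (nat_lit 5) (nat_lit 5) (nat_lit 5) (nat_lit 4) (nat_lit 342) (nat_lit 228) (nat_lit 210))))))) (XT.nd (nat_lit 780) (nat_lit 0) (nat_lit 0) (XT.nd (nat_lit 390) (nat_lit 0) (nat_lit 0) (XT.nd (nat_lit 156) (nat_lit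 152) (nat_lit 0) (XT.nd (nat_lit 78) (nat_lit 0) (nat_lit 0) (XT.lf (nat_lit 0) (nat_lit 47637377414) (nat_lit 76) (nat_lit 10408460624) (nat_lit 76) (nat_lit 7520185255) (nat_lit 4) (nat_lit 4) (nat_lit 5) (nat_lit 5) (nat_lit 5) (nat_lit 4) (nat_lit 343) (nat_lit 228) (nat_lit 209)) (XT.lf (nat_lit 0) (nat_lit 55886670290) (nat_lit 76) (nat_lit 7890825642) (nat_lit 76) (nat_lit 4912477315) (nat_lit 4) (nat_lit 4) (nat_lit 5) (nat_lit 5) (nat_lit 5) (nat_lit 4) (nat_lit 344) (nat_lit 228) (nat_lit 208))) (XT.nd (nat_lit 78) (nat_lit 152) (nat_lit 0) (XT.lf (nat_lit 0) (nat_lit 64426646800) (nat_lit 76) (nat_lit 5305404812) (nat_lit 76) (nat_lit 2241272714) (nat_lit 4) (nat_lit 4) (nat_lit 5) (nat_lit 5) (nat_lit 5) (nat_lit 4) (nat_lit 345) (nat_lit 228) (nat_lit 207)) (XT.nd (nat_lit 78) (nat_lit 76) (nat_lit 0) (XT.lf (nat_lit 0) (nat_lit 483792201) (nat_lit 152) (nat_lit 2154056914)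 (nat_lit 76) (nat_lit 72785654765) (nat_lit 3) (nat_lit 5) (nat_lit 5) (nat_lit 5) (nat_lit 4) (nat_lit 4) (nat_lit 346) (nat_lit 228) (nat_lit 206)) (XT.lf (nat_lit 0) (nat_lit 3268437110) (nat_lit 152) (nat_lit 75577698109) (nat_lit 0) (nat_lit 198304409) (nat_lit 2) (nat_lit 5) (nat_lit 4) (nat_lit 4) (nat_lit 2) (nat_lit 4) (nat_lit 347) (nat_lit 228) (nat_lit 205))))) (XT.nd (nat_lit 156) (nat_lit 0) (nat_lit 0) (XT.nd (nat_lit 78) (nat_lit 0) (nat_lit 0) (XT.lf (nat_lit 0) (nat_lit 6214150591) (nat_lit 152) (nat_lit 73557752322) (nat_lit 0) (nat_lit 3073443370) (nat_lit 2) (nat_lit 5) (nat_lit 4) (nat_lit 4) (nat_lit 2) (nat_lit 4) (nat_lit 348) (nat_lit 228) (nat_lit 204)) (XT.lf (nat_lit 0) (nat_lit 9251449623) (nat_lit 152) (nat_lit 71544120262) (nat_lit 0) (nat_lit 6043528573) (nat_lit 2) (nat_lit 5) (nat_lit 4) (nat_lit 4) (nat_lit 2) (nat_lit 4) (nat_lit 349) (nat_lit 228)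 (nat_lit 203))) (XT.nd (nat_lit 78) (nat_lit 0) (nat_lit 0) (XT.lf (nat_lit 0) (nat_lit 12387565869) (nat_lit 152) (nat_lit 69532007565) (nat_lit 0) (nat_lit 9115631649) (nat_lit 2) (nat_lit 5) (nat_lit 4) (nat_lit 4) (nat_lit 2) (nat_lit 4) (nat_lit 350) (nat_lit 228) (nat_lit 202)) (XT.nd (nat_lit 78) (nat_lit 0) (nat_lit 0) (XT.lf (nat_lit 0) (nat_lit 15629966275) (nat_lit 152) (nat_lit 67516623487) (nat_lit 0) (nat_lit 12297067130) (nat_lit 2) (nat_lit 5) (nat_lit 4) (nat_lit 4) (nat_lit 2) (nat_lit 4) (nat_lit 351) (nat_lit 228) (nat_lit 201)) (XT.lf (nat_lit 0) (nat_lit 18986370839) (nat_lit 152) (nat_lit 65493169495) (nat_lit 0) (nat_lit 15595409862) (nat_lit 2) (nat_lit 5) (nat_lit 4) (nat_lit 4) (nat_lit 2) (nat_lit 4) (nat_lit 352) (nat_lit 228) (nat_lit 200)))))) (XT.nd (nat_lit 390) (nat_lit 0) (nat_lit 0) (XT.nd (nat_lit 156) (nat_lit 0) (nat_lit 0) (XT.nd (nat_lit 78) (nat_lit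 0) (nat_lit 0) (XT.lf (nat_lit 0) (nat_lit 22464771002) (nat_lit 152) (nat_lit 63456827841) (nat_lit 0) (nat_lit 19018513042) (nat_lit 2) (nat_lit 5) (nat_lit 4) (nat_lit 4) (nat_lit 2) (nat_lit 4) (nat_lit 353) (nat_lit 228) (nat_lit 199)) (XT.lf (nat_lit 0) (nat_lit 26073448669) (nat_lit 152) (nat_lit 61402750093) (nat_lit 0) (nat_lit 22574526915) (nat_lit 2) (nat_lit 5) (nat_lit 4) (nat_lit 4) (nat_lit 2) (nat_lit 4) (nat_lit 354) (nat_lit 228) (nat_lit 198))) (XT.nd (nat_lit 78) (nat_lit 0) (nat_lit 0) (XT.lf (nat_lit 0) (nat_lit 29820995930) (nat_lit 152) (nat_lit 59326045588) (nat_lit 0) (nat_lit 26271918182) (nat_lit 2) (nat_lit 5) (nat_lit 4) (nat_lit 4) (nat_lit 2) (nat_lit 4) (nat_lit 355) (nat_lit 228) (nat_lit 197)) (XT.nd (nat_lit 78) (nat_lit 0) (nat_lit 0) (XT.lf (nat_lit 0) (nat_lit 33716335515) (nat_lit 152) (nat_lit 57221769794) (nat_lit 0) (nat_lit 30119490155) (nat_lit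 2) (nat_lit 5) (nat_lit 4) (nat_lit 4) (nat_lit 2) (nat_lit 4) (nat_lit 356) (nat_lit 228) (nat_lit 196)) (XT.lf (nat_lit 0) (nat_lit 37768742044) (nat_lit 152) (nat_lit 55084912528) (nat_lit 0) (nat_lit 34126403718) (nat_lit 2) (nat_lit 5) (nat_lit 4) (nat_lit 4) (nat_lit 2) (nat_lit 4) (nat_lit 357) (nat_lit 228) (nat_lit 195))))) (XT.nd (nat_lit 234) (nat_lit 0) (nat_lit 0) (XT.nd (nat_lit 78) (nat_lit 0) (nat_lit 0) (XT.lf (nat_lit 0) (nat_lit 41987864103) (nat_lit 152) (nat_lit 52910386037) (nat_lit 0) (nat_lit 38302199144) (nat_lit 2) (nat_lit 5) (nat_lit 4) (nat_lit 4) (nat_lit 2) (nat_lit 4) (nat_lit 358) (nat_lit 228) (nat_lit 194)) (XT.nd (nat_lit 78) (nat_lit 0) (nat_lit 0) (XT.lf (nat_lit 0) (nat_lit 46383747221) (nat_lit 152) (nat_lit 50693012875) (nat_lit 0) (nat_lit 42656818802) (nat_lit 2) (nat_lit 5) (nat_lit 4) (nat_lit 4) (nat_lit 2) (nat_lit 4) (nat_lit 359) (nat_lit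 228) (nat_lit 193)) (XT.lf (nat_lit 0) (nat_lit 50966857787) (nat_lit 152) (nat_lit 48427513584) (nat_lit 0) (nat_lit 47200630833) (nat_lit 2) (nat_lit 5) (nat_lit 4) (nat_lit 4) (nat_lit 2) (nat_lit 4) (nat_lit 360) (nat_lit 228) (nat_lit 192)))) (XT.nd (nat_lit 78) (nat_lit 0) (nat_lit 0) (XT.lf (nat_lit 0) (nat_lit 55748107967) (nat_lit 152) (nat_lit 46108494116) (nat_lit 0) (nat_lit 51944453839) (nat_lit 2) (nat_lit 5) (nat_lit 4) (nat_lit 4) (nat_lit 2) (nat_lit 4) (nat_lit 361) (nat_lit 228) (nat_lit 191)) (XT.nd (nat_lit 78) (nat_lit 0) (nat_lit 0) (XT.lf (nat_lit 0) (nat_lit 60738881692) (nat_lit 152) (nat_lit 43730432997) (nat_lit 0) (nat_lit 56899582635) (nat_lit 2) (nat_lit 5) (nat_lit 4) (nat_lit 4) (nat_lit 2) (nat_lit 4) (nat_lit 362) (nat_lit 228) (nat_lit 190)) (XT.lf (nat_lit 0) (nat_lit 65951061756) (nat_lit 152) (nat_lit 41287668177) (nat_lit 0) (nat_lit 62077815148)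 (nat_lit 2) (nat_lit 5) (nat_lit 4) (nat_lit 4) (nat_lit 2) (nat_lit 4) (nat_lit 363) (nat_lit 228) (nat_lit 189))))))))
noncomputable def xc30 : XT := (XT.nd (nat_lit 1560) (nat_lit 0) (nat_lit 0) (XT.nd (nat_lit 780) (nat_lit 76) (nat_lit 0) (XT.nd (nat_lit 390) (nat_lit 0) (nat_lit 0) (XT.nd (nat_lit 156) (nat_lit 0) (nat_lit 0) (XT.nd (nat_lit 78) (nat_lit 0) (nat_lit 0) (XT.lf (nat_lit 0) (nat_lit 71397058111) (nat_lit 152) (nat_lit 38774383549) (nat_lit 0) (nat_lit 67491480502) (nat_lit 2) (nat_lit 5) (nat_lit 4) (nat_lit 4) (nat_lit 2) (nat_lit 4) (nat_lit 364) (nat_lit 228) (nat_lit 188)) (XT.lf (nat_lit 0) (nat_lit 77089837415) (nat_lit 152) (nat_lit 36184595102) (nat_lit 0) (nat_lit 73153468377) (nat_lit 2) (nat_lit 5) (nat_lit 4) (nat_lit 4) (nat_lit 2) (nat_lit 4) (nat_lit 365) (nat_lit 228) (nat_lit 187))) (XT.nd (nat_lit 78) (nat_lit 0) (nat_lit 0) (XT.lf (nat_lit 0) (nat_lit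 83042953905) (nat_lit 152) (nat_lit 33512136673) (nat_lit 0) (nat_lit 79077259697) (nat_lit 2) (nat_lit 5) (nat_lit 4) (nat_lit 4) (nat_lit 2) (nat_lit 4) (nat_lit 366) (nat_lit 228) (nat_lit 186)) (XT.nd (nat_lit 78) (nat_lit 0) (nat_lit 0) (XT.lf (nat_lit 0) (nat_lit 89270581668) (nat_lit 152) (nat_lit 30750645266) (nat_lit 0) (nat_lit 85276958725) (nat_lit 2) (nat_lit 5) (nat_lit 4) (nat_lit 4) (nat_lit 2) (nat_lit 4) (nat_lit 367) (nat_lit 228) (nat_lit 185)) (XT.lf (nat_lit 0) (nat_lit 95787548389) (nat_lit 152) (nat_lit 27893545902) (nat_lit 0) (nat_lit 91767326652) (nat_lit 2) (nat_lit 5) (nat_lit 4) (nat_lit 4) (nat_lit 2) (nat_lit 4) (nat_lit 368) (nat_lit 228) (nat_lit 184))))) (XT.nd (nat_lit 156) (nat_lit 0) (nat_lit 0) (XT.nd (nat_lit 78) (nat_lit 0) (nat_lit 0) (XT.lf (nat_lit 0) (nat_lit 102609370655) (nat_lit 152) (nat_lit 24934035962) (nat_lit 0) (nat_lit 98563816733)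 (nat_lit 2) (nat_lit 5) (nat_lit 4) (nat_lit 4) (nat_lit 2) (nat_lit 4) (nat_lit 369) (nat_lit 228) (nat_lit 183)) (XT.lf (nat_lit 0) (nat_lit 109752290900) (nat_lit 152) (nat_lit 21865068994) (nat_lit 0) (nat_lit 105682611087) (nat_lit 2) (nat_lit 5) (nat_lit 4) (nat_lit 4) (nat_lit 2) (nat_lit 4) (nat_lit 370) (nat_lit 228) (nat_lit 182))) (XT.nd (nat_lit 78) (nat_lit 0) (nat_lit 0) (XT.lf (nat_lit 0) (nat_lit 117233316078) (nat_lit 152) (nat_lit 18679337935) (nat_lit 0) (nat_lit 113140659226) (nat_lit 2) (nat_lit 5) (nat_lit 4) (nat_lit 4) (nat_lit 2) (nat_lit 4) (nat_lit 371) (nat_lit 228) (nat_lit 181)) (XT.nd (nat_lit 78) (nat_lit 0) (nat_lit 0) (XT.lf (nat_lit 0) (nat_lit 125070258153) (nat_lit 152) (nat_lit 15369257710) (nat_lit 0) (nat_lit 120955718407) (nat_lit 2) (nat_lit 5) (nat_lit 4) (nat_lit 4) (nat_lit 2) (nat_lit 4) (nat_lit 372) (nat_lit 228) (nat_lit 180)) (XT.lf (nat_lit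 0) (nat_lit 133281776510) (nat_lit 152) (nat_lit 11926947176) (nat_lit 0) (nat_lit 129146395913) (nat_lit 2) (nat_lit 5) (nat_lit 4) (nat_lit 4) (nat_lit 2) (nat_lit 4) (nat_lit 373) (nat_lit 228) (nat_lit 179)))))) (XT.nd (nat_lit 390) (nat_lit 0) (nat_lit 0) (XT.nd (nat_lit 156) (nat_lit 76) (nat_lit 0) (XT.nd (nat_lit 78) (nat_lit 0) (nat_lit 0) (XT.lf (nat_lit 0) (nat_lit 141887422384) (nat_lit 152) (nat_lit 8344210355) (nat_lit 0) (nat_lit 137732193357) (nat_lit 2) (nat_lit 5) (nat_lit 4) (nat_lit 4) (nat_lit 2) (nat_lit 4) (nat_lit 374) (nat_lit 228) (nat_lit 178)) (XT.lf (nat_lit 0) (nat_lit 150907685408) (nat_lit 152) (nat_lit 4612516923) (nat_lit 0) (nat_lit 146733553115) (nat_lit 2) (nat_lit 5) (nat_lit 4) (nat_lit 4) (nat_lit 2) (nat_lit 4) (nat_lit 375) (nat_lit 228) (nat_lit 177))) (XT.nd (nat_lit 78) (nat_lit 76) (nat_lit 0) (XT.lf (nat_lit 0) (nat_lit 160364042400) (nat_lit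 152) (nat_lit 722981893) (nat_lit 0) (nat_lit 156171906995) (nat_lit 2) (nat_lit 5) (nat_lit 4) (nat_lit 4) (nat_lit 2) (nat_lit 4) (nat_lit 376) (nat_lit 228) (nat_lit 176)) (XT.nd (nat_lit 78) (nat_lit 0) (nat_lit 0) (XT.lf (nat_lit 0) (nat_lit 3443881237) (nat_lit 76) (nat_lit 166888895894) (nat_lit 76) (nat_lit 162679614669) (nat_lit 1) (nat_lit 4) (nat_lit 2) (nat_lit 5) (nat_lit 2) (nat_lit 4) (nat_lit 377) (nat_lit 228) (nat_lit 175)) (XT.lf (nat_lit 0) (nat_lit 7817254988) (nat_lit 76) (nat_lit 172980985021) (nat_lit 76) (nat_lit 168755374444) (nat_lit 1) (nat_lit 4) (nat_lit 2) (nat_lit 5) (nat_lit 2) (nat_lit 4) (nat_lit 378) (nat_lit 228) (nat_lit 174))))) (XT.nd (nat_lit 156) (nat_lit 0) (nat_lit 0) (XT.nd (nat_lit 78) (nat_lit 0) (nat_lit 0) (XT.lf (nat_lit 0) (nat_lit 12383647107) (nat_lit 76) (nat_lit 179390040699) (nat_lit 76) (nat_lit 175148878357) (nat_lit 1) (nat_lit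 4) (nat_lit 2) (nat_lit 5) (nat_lit 2) (nat_lit 4) (nat_lit 379) (nat_lit 228) (nat_lit 173)) (XT.lf (nat_lit 0) (nat_lit 17153929956) (nat_lit 76) (nat_lit 186131322583) (nat_lit 76) (nat_lit 181875349037) (nat_lit 1) (nat_lit 4) (nat_lit 2) (nat_lit 5) (nat_lit 2) (nat_lit 4) (nat_lit 380) (nat_lit 228) (nat_lit 172))) (XT.nd (nat_lit 78) (nat_lit 0) (nat_lit 0) (XT.lf (nat_lit 0) (nat_lit 22139461353) (nat_lit 76) (nat_lit 193220881344) (nat_lit 76) (nat_lit 188950801890) (nat_lit 1) (nat_lit 4) (nat_lit 2) (nat_lit 5) (nat_lit 2) (nat_lit 4) (nat_lit 381) (nat_lit 228) (nat_lit 171)) (XT.nd (nat_lit 78) (nat_lit 0) (nat_lit 0) (XT.lf (nat_lit 0) (nat_lit 27352111609) (nat_lit 76) (nat_lit 200675596885) (nat_lit 76) (nat_lit 196392083232) (nat_lit 1) (nat_lit 4) (nat_lit 2) (nat_lit 5) (nat_lit 2) (nat_lit 4) (nat_lit 382) (nat_lit 228) (nat_lit 170)) (XT.lf (nat_lit 0) (nat_lit 32804291796)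 (nat_lit 76) (nat_lit 208513218527) (nat_lit 76) (nat_lit 204216910399) (nat_lit 1) (nat_lit 4) (nat_lit 2) (nat_lit 5) (nat_lit 2) (nat_lit 4) (nat_lit 383) (nat_lit 228) (nat_lit 169))))))) (XT.nd (nat_lit 35802) (nat_lit 0) (nat_lit 304) (XT.nd (nat_lit 390) (nat_lit 0) (nat_lit 0) (XT.nd (nat_lit 156) (nat_lit 0) (nat_lit 0) (XT.nd (nat_lit 78) (nat_lit 0) (nat_lit 0) (XT.lf (nat_lit 0) (nat_lit 38508983297) (nat_lit 76) (nat_lit 216752407275) (nat_lit 76) (nat_lit 212443913933) (nat_lit 1) (nat_lit 4) (nat_lit 2) (nat_lit 5) (nat_lit 2) (nat_lit 4) (nat_lit 384) (nat_lit 228) (nat_lit 168)) (XT.lf (nat_lit 0) (nat_lit 44479768710) (nat_lit 76) (nat_lit 225412780245) (nat_lit 76) (nat_lit 221092681937) (nat_lit 1) (nat_lit 4) (nat_lit 2) (nat_lit 5) (nat_lit 2) (nat_lit 4) (nat_lit 385) (nat_lit 228) (nat_lit 167))) (XT.nd (nat_lit 78) (nat_lit 0) (nat_lit 0) (XT.lf (nat_lit 0) (nat_lit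 50730864190) (nat_lit 76) (nat_lit 234514957372) (nat_lit 76) (nat_lit 230183806716) (nat_lit 1) (nat_lit 4) (nat_lit 2) (nat_lit 5) (nat_lit 2) (nat_lit 4) (nat_lit 386) (nat_lit 228) (nat_lit 166)) (XT.nd (nat_lit 78) (nat_lit 0) (nat_lit 0) (XT.lf (nat_lit 0) (nat_lit 57277153298) (nat_lit 76) (nat_lit 244080610507) (nat_lit 76) (nat_lit 239738933805) (nat_lit 1) (nat_lit 4) (nat_lit 2) (nat_lit 5) (nat_lit 2) (nat_lit 4) (nat_lit 387) (nat_lit 228) (nat_lit 165)) (XT.lf (nat_lit 0) (nat_lit 64134222438) (nat_lit 76) (nat_lit 254132515015) (nat_lit 76) (nat_lit 249780813507) (nat_lit 1) (nat_lit 4) (nat_lit 2) (nat_lit 5) (nat_lit 2) (nat_lit 4) (nat_lit 388) (nat_lit 228) (nat_lit 164))))) (XT.nd (nat_lit 156) (nat_lit 0) (nat_lit 0) (XT.nd (nat_lit 78) (nat_lit 0) (nat_lit 0) (XT.lf (nat_lit 0) (nat_lit 71318397963) (nat_lit 76) (nat_lit 264694604001) (nat_lit 76) (nat_lit 260333355058)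 (nat_lit 1) (nat_lit 4) (nat_lit 2) (nat_lit 5) (nat_lit 2) (nat_lit 4) (nat_lit 389) (nat_lit 228) (nat_lit 163)) (XT.lf (nat_lit 0) (nat_lit 78846785054) (nat_lit 76) (nat_lit 275792025296) (nat_lit 76) (nat_lit 271421683559) (nat_lit 1) (nat_lit 4) (nat_lit 2) (nat_lit 5) (nat_lit 2) (nat_lit 4) (nat_lit 390) (nat_lit 228) (nat_lit 162))) (XT.nd (nat_lit 78) (nat_lit 0) (nat_lit 0) (XT.lf (nat_lit 0) (nat_lit 86737308442) (nat_lit 76) (nat_lit 287451201333) (nat_lit 76) (nat_lit 283072199791) (nat_lit 1) (nat_lit 4) (nat_lit 2) (nat_lit 5) (nat_lit 2) (nat_lit 4) (nat_lit 391) (nat_lit 228) (nat_lit 161)) (XT.nd (nat_lit 78) (nat_lit 0) (nat_lit 0) (XT.lf (nat_lit 0) (nat_lit 95008755088) (nat_lit 76) (nat_lit 299699892053) (nat_lit 76) (nat_lit 295312643079) (nat_lit 1) (nat_lit 4) (nat_lit 2) (nat_lit 5) (nat_lit 2) (nat_lit 4) (nat_lit 392) (nat_lit 228) (nat_lit 160)) (XT.lf (nat_lit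 0) (nat_lit 103680818912) (nat_lit 76) (nat_lit 312567261006) (nat_lit 76) (nat_lit 308172157335) (nat_lit 1) (nat_lit 4) (nat_lit 2) (nat_lit 5) (nat_lit 2) (nat_lit 4) (nat_lit 393) (nat_lit 228) (nat_lit 159)))))) (XT.nd (nat_lit 390) (nat_lit 228) (nat_lit 0) (XT.nd (nat_lit 156) (nat_lit 0) (nat_lit 0) (XT.nd (nat_lit 78) (nat_lit 152) (nat_lit 0) (XT.lf (nat_lit 0) (nat_lit 10416715990) (nat_lit 76) (nat_lit 1322142419) (nat_lit 76) (nat_lit 1322142419) (nat_lit 10) (nat_lit 4) (nat_lit 11) (nat_lit 5) (nat_lit 11) (nat_lit 4) (nat_lit 322) (nat_lit 229) (nat_lit 229)) (XT.lf (nat_lit 0) (nat_lit 1669433653) (nat_lit 152) (nat_lit 24109600107) (nat_lit 0) (nat_lit 1418493759) (nat_lit 8) (nat_lit 5) (nat_lit 10) (nat_lit 4) (nat_lit 8) (nat_lit 4) (nat_lit 323) (nat_lit 229) (nat_lit 228))) (XT.nd (nat_lit 78) (nat_lit 0) (nat_lit 0) (XT.lf (nat_lit 0) (nat_lit 6094621441) (nat_lit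 152) (nat_lit 16626171151) (nat_lit 0) (nat_lit 5604691172) (nat_lit 8) (nat_lit 5) (nat_lit 10) (nat_lit 4) (nat_lit 8) (nat_lit 4) (nat_lit 324) (nat_lit 229) (nat_lit 227)) (XT.nd (nat_lit 78) (nat_lit 0) (nat_lit 0) (XT.lf (nat_lit 0) (nat_lit 10598465754) (nat_lit 152) (nat_lit 9037628010) (nat_lit 0) (nat_lit 9880925603) (nat_lit 8) (nat_lit 5) (nat_lit 10) (nat_lit 4) (nat_lit 8) (nat_lit 4) (nat_lit 325) (nat_lit 229) (nat_lit 226)) (XT.lf (nat_lit 0) (nat_lit 15191690031) (nat_lit 152) (nat_lit 1325902722) (nat_lit 0) (nat_lit 14257378564) (nat_lit 8) (nat_lit 5) (nat_lit 10) (nat_lit 4) (nat_lit 8) (nat_lit 4) (nat_lit 326) (nat_lit 229) (nat_lit 225))))) (XT.nd (nat_lit 234) (nat_lit 152) (nat_lit 0) (XT.nd (nat_lit 78) (nat_lit 0) (nat_lit 0) (XT.lf (nat_lit 0) (nat_lit 6743190158) (nat_lit 76) (nat_lit 13247320458) (nat_lit 76) (nat_lit 12106560119) (nat_lit 7) (nat_lit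 4) (nat_lit 8) (nat_lit 5) (nat_lit 8) (nat_lit 4) (nat_lit 327) (nat_lit 229) (nat_lit 224)) (XT.nd (nat_lit 78) (nat_lit 0) (nat_lit 0) (XT.lf (nat_lit 0) (nat_lit 15021663339) (nat_lit 76) (nat_lit 9903129240) (nat_lit 76) (nat_lit 8565750929) (nat_lit 7) (nat_lit 4) (nat_lit 8) (nat_lit 5) (nat_lit 8) (nat_lit 4) (nat_lit 328) (nat_lit 229) (nat_lit 223)) (XT.lf (nat_lit 0) (nat_lit 23485387138) (nat_lit 76) (nat_lit 6499511546) (nat_lit 76) (nat_lit 4974878022) (nat_lit 7) (nat_lit 4) (nat_lit 8) (nat_lit 5) (nat_lit 8) (nat_lit 4) (nat_lit 329) (nat_lit 229) (nat_lit 222)))) (XT.nd (nat_lit 78) (nat_lit 152) (nat_lit 0) (XT.lf (nat_lit 0) (nat_lit 32154513280) (nat_lit 76) (nat_lit 3028363523) (nat_lit 76) (nat_lit 1325391701) (nat_lit 7) (nat_lit 4) (nat_lit 8) (nat_lit 5) (nat_lit 8) (nat_lit 4) (nat_lit 330) (nat_lit 229) (nat_lit 221)) (XT.nd (nat_lit 78) (nat_lit 0) (nat_lit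 0) (XT.lf (nat_lit 0) (nat_lit 2370658653) (nat_lit 152) (nat_lit 35177367628) (nat_lit 0) (nat_lit 587022634) (nat_lit 5) (nat_lit 5) (nat_lit 7) (nat_lit 4) (nat_lit 5) (nat_lit 4) (nat_lit 331) (nat_lit 229) (nat_lit 220)) (XT.lf (nat_lit 0) (nat_lit 6220601899) (nat_lit 152) (nat_lit 29337922689) (nat_lit 0) (nat_lit 4282910553) (nat_lit 5) (nat_lit 5) (nat_lit 7) (nat_lit 4) (nat_lit 5) (nat_lit 4) (nat_lit 332) (nat_lit 229) (nat_lit 219))))))))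
noncomputable def xc31 : XT := (XT.nd (nat_lit 1638) (nat_lit 0) (nat_lit 0) (XT.nd (nat_lit 780) (nat_lit 152) (nat_lit 0) (XT.nd (nat_lit 390) (nat_lit 0) (nat_lit 0) (XT.nd (nat_lit 156) (nat_lit 76) (nat_lit 0) (XT.nd (nat_lit 78) (nat_lit 0) (nat_lit 0) (XT.lf (nat_lit 0) (nat_lit 10157371101) (nat_lit 152) (nat_lit 23408125876) (nat_lit 0) (nat_lit 8072960396) (nat_lit 5) (nat_lit 5) (nat_lit 7) (nat_lit 4) (nat_lit 5) (nat_lit 4) (nat_lit 333) (nat_lit 229) (nat_lit 218)) (XT.lf (nat_lit 0) (nat_lit 14190339518) (nat_lit 152) (nat_lit 17373858626) (nat_lit 0) (nat_lit 11966196090) (nat_lit 5) (nat_lit 5) (nat_lit 7) (nat_lit 4) (nat_lit 5) (nat_lit 4) (nat_lit 334) (nat_lit 229) (nat_lit 217))) (XT.nd (nat_lit 78) (nat_lit 76) (nat_lit 0) (XT.lf (nat_lit 0) (nat_lit 18329109456) (nat_lit 152) (nat_lit 11220753636) (nat_lit 0) (nat_lit 15971887245) (nat_lit 5) (nat_lit 5) (nat_lit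 7) (nat_lit 4) (nat_lit 5) (nat_lit 4) (nat_lit 335) (nat_lit 229) (nat_lit 216)) (XT.nd (nat_lit 78) (nat_lit 76) (nat_lit 0) (XT.lf (nat_lit 0) (nat_lit 22583535130) (nat_lit 152) (nat_lit 4934160656) (nat_lit 0) (nat_lit 20099571221) (nat_lit 5) (nat_lit 5) (nat_lit 7) (nat_lit 4) (nat_lit 5) (nat_lit 4) (nat_lit 336) (nat_lit 229) (nat_lit 215)) (XT.lf (nat_lit 0) (nat_lit 1550514539) (nat_lit 76) (nat_lit 25437439462) (nat_lit 76) (nat_lit 22832769173) (nat_lit 4) (nat_lit 4) (nat_lit 5) (nat_lit 5) (nat_lit 5) (nat_lit 4) (nat_lit 337) (nat_lit 229) (nat_lit 214))))) (XT.nd (nat_lit 156) (nat_lit 0) (nat_lit 0) (XT.nd (nat_lit 78) (nat_lit 0) (nat_lit 0) (XT.lf (nat_lit 0) (nat_lit 8367528212) (nat_lit 76) (nat_lit 23243283866) (nat_lit 76) (nat_lit 20523655120) (nat_lit 4) (nat_lit 4) (nat_lit 5) (nat_lit 5) (nat_lit 5) (nat_lit 4) (nat_lit 338) (nat_lit 229) (nat_lit 213)) (XT.lf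 (nat_lit 0) (nat_lit 15369965711) (nat_lit 76) (nat_lit 21013567217) (nat_lit 76) (nat_lit 18184454227) (nat_lit 4) (nat_lit 4) (nat_lit 5) (nat_lit 5) (nat_lit 5) (nat_lit 4) (nat_lit 339) (nat_lit 229) (nat_lit 212))) (XT.nd (nat_lit 78) (nat_lit 0) (nat_lit 0) (XT.lf (nat_lit 0) (nat_lit 22574499506) (nat_lit 76) (nat_lit 18742980667) (nat_lit 76) (nat_lit 15809596967) (nat_lit 4) (nat_lit 4) (nat_lit 5) (nat_lit 5) (nat_lit 5) (nat_lit 4) (nat_lit 340) (nat_lit 229) (nat_lit 211)) (XT.nd (nat_lit 78) (nat_lit 0) (nat_lit 0) (XT.lf (nat_lit 0) (nat_lit 29998283250) (nat_lit 76) (nat_lit 16426118056) (nat_lit 76) (nat_lit 13393428919) (nat_lit 4) (nat_lit 4) (nat_lit 5) (nat_lit 5) (nat_lit 5) (nat_lit 4) (nat_lit 341) (nat_lit 229) (nat_lit 210)) (XT.lf (nat_lit 0) (nat_lit 37658992618) (nat_lit 76) (nat_lit 14057463045) (nat_lit 76) (nat_lit 10930197301) (nat_lit 4) (nat_lit 4) (nat_lit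 5) (nat_lit 5) (nat_lit 5) (nat_lit 4) (nat_lit 342) (nat_lit 229) (nat_lit 209)))))) (XT.nd (nat_lit 390) (nat_lit 0) (nat_lit 0) (XT.nd (nat_lit 156) (nat_lit 152) (nat_lit 0) (XT.nd (nat_lit 78) (nat_lit 0) (nat_lit 0) (XT.lf (nat_lit 0) (nat_lit 45574867395) (nat_lit 76) (nat_lit 11631375980) (nat_lit 76) (nat_lit 8414037277) (nat_lit 4) (nat_lit 4) (nat_lit 5) (nat_lit 5) (nat_lit 5) (nat_lit 4) (nat_lit 343) (nat_lit 229) (nat_lit 208)) (XT.lf (nat_lit 0) (nat_lit 53764754900) (nat_lit 76) (nat_lit 9142080462) (nat_lit 76) (nat_lit 5838957988) (nat_lit 4) (nat_lit 4) (nat_lit 5) (nat_lit 5) (nat_lit 5) (nat_lit 4) (nat_lit 344) (nat_lit 229) (nat_lit 207))) (XT.nd (nat_lit 78) (nat_lit 152) (nat_lit 0) (XT.lf (nat_lit 0) (nat_lit 62248154867) (nat_lit 76) (nat_lit 6583649597) (nat_lit 76) (nat_lit 3198828295) (nat_lit 4) (nat_lit 4) (nat_lit 5) (nat_lit 5) (nat_lit 5) (nat_lit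 4) (nat_lit 345) (nat_lit 229) (nat_lit 206)) (XT.nd (nat_lit 78) (nat_lit 152) (nat_lit 0) (XT.lf (nat_lit 0) (nat_lit 71045265866) (nat_lit 76) (nat_lit 3949991884) (nat_lit 76) (nat_lit 487362173) (nat_lit 4) (nat_lit 4) (nat_lit 5) (nat_lit 5) (nat_lit 5) (nat_lit 4) (nat_lit 346) (nat_lit 229) (nat_lit 205)) (XT.lf (nat_lit 0) (nat_lit 1065213986) (nat_lit 76) (nat_lit 1179638181) (nat_lit 152) (nat_lit 76862493193) (nat_lit 2) (nat_lit 5) (nat_lit 3) (nat_lit 5) (nat_lit 4) (nat_lit 4) (nat_lit 347) (nat_lit 229) (nat_lit 204))))) (XT.nd (nat_lit 234) (nat_lit 0) (nat_lit 0) (XT.nd (nat_lit 78) (nat_lit 0) (nat_lit 0) (XT.lf (nat_lit 0) (nat_lit 5144977399) (nat_lit 152) (nat_lit 76056114966) (nat_lit 0) (nat_lit 1709446468) (nat_lit 2) (nat_lit 5) (nat_lit 4) (nat_lit 4) (nat_lit 2) (nat_lit 4) (nat_lit 348) (nat_lit 229) (nat_lit 203)) (XT.nd (nat_lit 78) (nat_lit 0) (nat_lit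 0) (XT.lf (nat_lit 0) (nat_lit 8156399486) (nat_lit 152) (nat_lit 74092337036) (nat_lit 0) (nat_lit 4656855385) (nat_lit 2) (nat_lit 5) (nat_lit 4) (nat_lit 4) (nat_lit 2) (nat_lit 4) (nat_lit 349) (nat_lit 229) (nat_lit 202)) (XT.lf (nat_lit 0) (nat_lit 11267871023) (nat_lit 152) (nat_lit 72127704463) (nat_lit 0) (nat_lit 7707361998) (nat_lit 2) (nat_lit 5) (nat_lit 4) (nat_lit 4) (nat_lit 2) (nat_lit 4) (nat_lit 350) (nat_lit 229) (nat_lit 201)))) (XT.nd (nat_lit 78) (nat_lit 0) (nat_lit 0) (XT.lf (nat_lit 0) (nat_lit 14486800277) (nat_lit 152) (nat_lit 70157539550) (nat_lit 0) (nat_lit 10868229419) (nat_lit 2) (nat_lit 5) (nat_lit 4) (nat_lit 4) (nat_lit 2) (nat_lit 4) (nat_lit 351) (nat_lit 229) (nat_lit 200)) (XT.nd (nat_lit 78) (nat_lit 0) (nat_lit 0) (XT.lf (nat_lit 0) (nat_lit 17820851363) (nat_lit 152) (nat_lit 68177151430) (nat_lit 0) (nat_lit 14146983522) (nat_lit 2) (nat_lit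 5) (nat_lit 4) (nat_lit 4) (nat_lit 2) (nat_lit 4) (nat_lit 352) (nat_lit 229) (nat_lit 199)) (XT.lf (nat_lit 0) (nat_lit 21277962500) (nat_lit 152) (nat_lit 66181824893) (nat_lit 0) (nat_lit 17551430865) (nat_lit 2) (nat_lit 5) (nat_lit 4) (nat_lit 4) (nat_lit 2) (nat_lit 4) (nat_lit 353) (nat_lit 229) (nat_lit 198))))))) (XT.nd (nat_lit 780) (nat_lit 0) (nat_lit 0) (XT.nd (nat_lit 390) (nat_lit 0) (nat_lit 0) (XT.nd (nat_lit 156) (nat_lit 0) (nat_lit 0) (XT.nd (nat_lit 78) (nat_lit 0) (nat_lit 0) (XT.lf (nat_lit 0) (nat_lit 24866364904) (nat_lit 152) (nat_lit 64166809160) (nat_lit 0) (nat_lit 21089677275) (nat_lit 2) (nat_lit 5) (nat_lit 4) (nat_lit 4) (nat_lit 2) (nat_lit 4) (nat_lit 354) (nat_lit 229) (nat_lit 197)) (XT.lf (nat_lit 0) (nat_lit 28594602390) (nat_lit 152) (nat_lit 62127306575) (nat_lit 0) (nat_lit 24770147148) (nat_lit 2) (nat_lit 5) (nat_lit 4) (nat_lit 4) (nat_lit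 2) (nat_lit 4) (nat_lit 355) (nat_lit 229) (nat_lit 196))) (XT.nd (nat_lit 78) (nat_lit 0) (nat_lit 0) (XT.lf (nat_lit 0) (nat_lit 32471551714) (nat_lit 152) (nat_lit 60058461180) (nat_lit 0) (nat_lit 28601603507) (nat_lit 2) (nat_lit 5) (nat_lit 4) (nat_lit 4) (nat_lit 2) (nat_lit 4) (nat_lit 356) (nat_lit 229) (nat_lit 195)) (XT.nd (nat_lit 78) (nat_lit 0) (nat_lit 0) (XT.lf (nat_lit 0) (nat_lit 36506443708) (nat_lit 152) (nat_lit 57955347152) (nat_lit 0) (nat_lit 32593168868) (nat_lit 2) (nat_lit 5) (nat_lit 4) (nat_lit 4) (nat_lit 2) (nat_lit 4) (nat_lit 357) (nat_lit 229) (nat_lit 194)) (XT.lf (nat_lit 0) (nat_lit 40708885258) (nat_lit 152) (nat_lit 55812957077) (nat_lit 0) (nat_lit 36754346957) (nat_lit 2) (nat_lit 5) (nat_lit 4) (nat_lit 4) (nat_lit 2) (nat_lit 4) (nat_lit 358) (nat_lit 229) (nat_lit 193))))) (XT.nd (nat_lit 156) (nat_lit 0) (nat_lit 0) (XT.nd (nat_lit 78) (nat_lit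 0) (nat_lit 0) (XT.lf (nat_lit 0) (nat_lit 45088882176) (nat_lit 152) (nat_lit 53626190027) (nat_lit 0) (nat_lit 41095045342) (nat_lit 2) (nat_lit 5) (nat_lit 4) (nat_lit 4) (nat_lit 2) (nat_lit 4) (nat_lit 359) (nat_lit 229) (nat_lit 192)) (XT.lf (nat_lit 0) (nat_lit 49656863028) (nat_lit 152) (nat_lit 51389839412) (nat_lit 0) (nat_lit 45625599019) (nat_lit 2) (nat_lit 5) (nat_lit 4) (nat_lit 4) (nat_lit 2) (nat_lit 4) (nat_lit 360) (nat_lit 229) (nat_lit 191))) (XT.nd (nat_lit 78) (nat_lit 0) (nat_lit 0) (XT.lf (nat_lit 0) (nat_lit 54423703957) (nat_lit 152) (nat_lit 49098580590) (nat_lit 0) (nat_lit 50356795020) (nat_lit 2) (nat_lit 5) (nat_lit 4) (nat_lit 4) (nat_lit 2) (nat_lit 4) (nat_lit 361) (nat_lit 229) (nat_lit 190)) (XT.nd (nat_lit 78) (nat_lit 0) (nat_lit 0) (XT.lf (nat_lit 0) (nat_lit 59400754586) (nat_lit 152) (nat_lit 46746958181) (nat_lit 0) (nat_lit 55299898097) (nat_lit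 2) (nat_lit 5) (nat_lit 4) (nat_lit 4) (nat_lit 2) (nat_lit 4) (nat_lit 362) (nat_lit 229) (nat_lit 189)) (XT.lf (nat_lit 0) (nat_lit 64599865034) (nat_lit 152) (nat_lit 44329373084) (nat_lit 0) (nat_lit 60466677545) (nat_lit 2) (nat_lit 5) (nat_lit 4) (nat_lit 4) (nat_lit 2) (nat_lit 4) (nat_lit 363) (nat_lit 229) (nat_lit 188)))))) (XT.nd (nat_lit 390) (nat_lit 0) (nat_lit 0) (XT.nd (nat_lit 156) (nat_lit 0) (nat_lit 0) (XT.nd (nat_lit 78) (nat_lit 0) (nat_lit 0) (XT.lf (nat_lit 0) (nat_lit 70033414136) (nat_lit 152) (nat_lit 41840069145) (nat_lit 0) (nat_lit 65869435217) (nat_lit 2) (nat_lit 5) (nat_lit 4) (nat_lit 4) (nat_lit 2) (nat_lit 4) (nat_lit 364) (nat_lit 229) (nat_lit 187)) (XT.lf (nat_lit 0) (nat_lit 75714338914) (nat_lit 152) (nat_lit 39273119450) (nat_lit 0) (nat_lit 71521034824) (nat_lit 2) (nat_lit 5) (nat_lit 4) (nat_lit 4) (nat_lit 2) (nat_lit 4) (nat_lit 365) (nat_lit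 229) (nat_lit 186))) (XT.nd (nat_lit 78) (nat_lit 0) (nat_lit 0) (XT.lf (nat_lit 0) (nat_lit 81656165379) (nat_lit 152) (nat_lit 36622412213) (nat_lit 0) (nat_lit 77434932555) (nat_lit 2) (nat_lit 5) (nat_lit 4) (nat_lit 4) (nat_lit 2) (nat_lit 4) (nat_lit 366) (nat_lit 229) (nat_lit 185)) (XT.nd (nat_lit 78) (nat_lit 0) (nat_lit 0) (XT.lf (nat_lit 0) (nat_lit 87873040737) (nat_lit 152) (nat_lit 33881636226) (nat_lit 0) (nat_lit 83625209119) (nat_lit 2) (nat_lit 5) (nat_lit 4) (nat_lit 4) (nat_lit 2) (nat_lit 4) (nat_lit 367) (nat_lit 229) (nat_lit 184)) (XT.lf (nat_lit 0) (nat_lit 94379767072) (nat_lit 152) (nat_lit 31044265834) (nat_lit 0) (nat_lit 90106603269) (nat_lit 2) (nat_lit 5) (nat_lit 4) (nat_lit 4) (nat_lit 2) (nat_lit 4) (nat_lit 368) (nat_lit 229) (nat_lit 183))))) (XT.nd (nat_lit 234) (nat_lit 0) (nat_lit 0) (XT.nd (nat_lit 78) (nat_lit 0) (nat_lit 0) (XT.lf (nat_lit 0)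 (nat_lit 101191836590) (nat_lit 152) (nat_lit 28103545391) (nat_lit 0) (nat_lit 96894546896) (nat_lit 2) (nat_lit 5) (nat_lit 4) (nat_lit 4) (nat_lit 2) (nat_lit 4) (nat_lit 369) (nat_lit 229) (nat_lit 182)) (XT.nd (nat_lit 78) (nat_lit 0) (nat_lit 0) (XT.lf (nat_lit 0) (nat_lit 108325468504) (nat_lit 152) (nat_lit 25052473183) (nat_lit 0) (nat_lit 104005201771) (nat_lit 2) (nat_lit 5) (nat_lit 4) (nat_lit 4) (nat_lit 2) (nat_lit 4) (nat_lit 370) (nat_lit 229) (nat_lit 181)) (XT.lf (nat_lit 0) (nat_lit 115797647651) (nat_lit 152) (nat_lit 21883784752) (nat_lit 0) (nat_lit 111455498024) (nat_lit 2) (nat_lit 5) (nat_lit 4) (nat_lit 4) (nat_lit 2) (nat_lit 4) (nat_lit 371) (nat_lit 229) (nat_lit 180)))) (XT.nd (nat_lit 78) (nat_lit 0) (nat_lit 0) (XT.lf (nat_lit 0) (nat_lit 123626164935) (nat_lit 152) (nat_lit 18589935601) (nat_lit 0) (nat_lit 119263174456) (nat_lit 2) (nat_lit 5) (nat_lit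 4) (nat_lit 4) (nat_lit 2) (nat_lit 4) (nat_lit 372) (nat_lit 229) (nat_lit 179)) (XT.nd (nat_lit 78) (nat_lit 0) (nat_lit 0) (XT.lf (nat_lit 0) (nat_lit 131829659682) (nat_lit 152) (nat_lit 15163083233) (nat_lit 0) (nat_lit 127446820773) (nat_lit 2) (nat_lit 5) (nat_lit 4) (nat_lit 4) (nat_lit 2) (nat_lit 4) (nat_lit 373) (nat_lit 229) (nat_lit 178)) (XT.lf (nat_lit 0) (nat_lit 140427664023) (nat_lit 152) (nat_lit 11595068475) (nat_lit 0) (nat_lit 136025921848) (nat_lit 2) (nat_lit 5) (nat_lit 4) (nat_lit 4) (nat_lit 2) (nat_lit 4) (nat_lit 374) (nat_lit 229) (nat_lit 177))))))))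
noncomputable def xc32 : XT := (XT.nd (nat_lit 36426) (nat_lit 0) (nat_lit 228) (XT.nd (nat_lit 780) (nat_lit 0) (nat_lit 0) (XT.nd (nat_lit 390) (nat_lit 0) (nat_lit 0) (XT.nd (nat_lit 156) (nat_lit 76) (nat_lit 0) (XT.nd (nat_lit 78) (nat_lit 0) (nat_lit 0) (XT.lf (nat_lit 0) (nat_lit 149440649396) (nat_lit 152) (nat_lit 7877396055) (nat_lit 0) (nat_lit 145020904110) (nat_lit 2) (nat_lit 5) (nat_lit 4) (nat_lit 4) (nat_lit 2) (nat_lit 4) (nat_lit 375) (nat_lit 229) (nat_lit 176)) (XT.lf (nat_lit 0) (nat_lit 158890075291) (nat_lit 152) (nat_lit 4001214370) (nat_lit 0) (nat_lit 154453184185) (nat_lit 2) (nat_lit 5) (nat_lit 4) (nat_lit 4) (nat_lit 2) (nat_lit 4) (nat_lit 376) (nat_lit 229) (nat_lit 175))) (XT.nd (nat_lit 78) (nat_lit 0) (nat_lit 0) (XT.lf (nat_lit 0) (nat_lit 44117621) (nat_lit 76) (nat_lit 168755011519) (nat_lit 76) (nat_lit 164301791060) (nat_lit 1) (nat_lit 4) (nat_lit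 2) (nat_lit 5) (nat_lit 2) (nat_lit 4) (nat_lit 377) (nat_lit 229) (nat_lit 174)) (XT.nd (nat_lit 78) (nat_lit 0) (nat_lit 0) (XT.lf (nat_lit 0) (nat_lit 4404979021) (nat_lit 76) (nat_lit 174853130936) (nat_lit 76) (nat_lit 170384358714) (nat_lit 1) (nat_lit 4) (nat_lit 2) (nat_lit 5) (nat_lit 2) (nat_lit 4) (nat_lit 378) (nat_lit 229) (nat_lit 173)) (XT.lf (nat_lit 0) (nat_lit 8959454615) (nat_lit 76) (nat_lit 181267929747) (nat_lit 76) (nat_lit 176784346320) (nat_lit 1) (nat_lit 4) (nat_lit 2) (nat_lit 5) (nat_lit 2) (nat_lit 4) (nat_lit 379) (nat_lit 229) (nat_lit 172))))) (XT.nd (nat_lit 156) (nat_lit 0) (nat_lit 0) (XT.nd (nat_lit 78) (nat_lit 0) (nat_lit 0) (XT.lf (nat_lit 0) (nat_lit 13718388394) (nat_lit 76) (nat_lit 188014681281) (nat_lit 76) (nat_lit 183516991946) (nat_lit 1) (nat_lit 4) (nat_lit 2) (nat_lit 5) (nat_lit 2) (nat_lit 4) (nat_lit 380) (nat_lit 229) (nat_lit 171))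 (XT.lf (nat_lit 0) (nat_lit 18693111151) (nat_lit 76) (nat_lit 195109449233) (nat_lit 76) (nat_lit 190598325699) (nat_lit 1) (nat_lit 4) (nat_lit 2) (nat_lit 5) (nat_lit 2) (nat_lit 4) (nat_lit 381) (nat_lit 229) (nat_lit 170))) (XT.nd (nat_lit 78) (nat_lit 0) (nat_lit 0) (XT.lf (nat_lit 0) (nat_lit 23895467465) (nat_lit 76) (nat_lit 202569125908) (nat_lit 76) (nat_lit 198045207898) (nat_lit 1) (nat_lit 4) (nat_lit 2) (nat_lit 5) (nat_lit 2) (nat_lit 4) (nat_lit 382) (nat_lit 229) (nat_lit 169)) (XT.nd (nat_lit 78) (nat_lit 0) (nat_lit 0) (XT.lf (nat_lit 0) (nat_lit 29337843898) (nat_lit 76) (nat_lit 210411472439) (nat_lit 76) (nat_lit 205875369216) (nat_lit 1) (nat_lit 4) (nat_lit 2) (nat_lit 5) (nat_lit 2) (nat_lit 4) (nat_lit 383) (nat_lit 229) (nat_lit 168)) (XT.lf (nat_lit 0) (nat_lit 35033198490) (nat_lit 76) (nat_lit 218655161082) (nat_lit 76) (nat_lit 214107452893) (nat_lit 1)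 (nat_lit 4) (nat_lit 2) (nat_lit 5) (nat_lit 2) (nat_lit 4) (nat_lit 384) (nat_lit 229) (nat_lit 167)))))) (XT.nd (nat_lit 390) (nat_lit 0) (nat_lit 0) (XT.nd (nat_lit 156) (nat_lit 0) (nat_lit 0) (XT.nd (nat_lit 78) (nat_lit 0) (nat_lit 0) (XT.lf (nat_lit 0) (nat_lit 40995091609) (nat_lit 76) (nat_lit 227319819666) (nat_lit 76) (nat_lit 222761059129) (nat_lit 1) (nat_lit 4) (nat_lit 2) (nat_lit 5) (nat_lit 2) (nat_lit 4) (nat_lit 385) (nat_lit 229) (nat_lit 166)) (XT.lf (nat_lit 0) (nat_lit 47237718237) (nat_lit 76) (nat_lit 236426078331) (nat_lit 76) (nat_lit 231856791747) (nat_lit 1) (nat_lit 4) (nat_lit 2) (nat_lit 5) (nat_lit 2) (nat_lit 4) (nat_lit 386) (nat_lit 229) (nat_lit 165))) (XT.nd (nat_lit 78) (nat_lit 0) (nat_lit 0) (XT.lf (nat_lit 0) (nat_lit 53775941773) (nat_lit 76) (nat_lit 245995618645) (nat_lit 76) (nat_lit 241416307255) (nat_lit 1) (nat_lit 4) (nat_lit 2) (nat_lit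 5) (nat_lit 2) (nat_lit 4) (nat_lit 387) (nat_lit 229) (nat_lit 164)) (XT.nd (nat_lit 78) (nat_lit 0) (nat_lit 0) (XT.lf (nat_lit 0) (nat_lit 60625329414) (nat_lit 76) (nat_lit 256051225227) (nat_lit 76) (nat_lit 251462366403) (nat_lit 1) (nat_lit 4) (nat_lit 2) (nat_lit 5) (nat_lit 2) (nat_lit 4) (nat_lit 388) (nat_lit 229) (nat_lit 163)) (XT.lf (nat_lit 0) (nat_lit 67802189227) (nat_lit 76) (nat_lit 266616839998) (nat_lit 76) (nat_lit 262018888380) (nat_lit 1) (nat_lit 4) (nat_lit 2) (nat_lit 5) (nat_lit 2) (nat_lit 4) (nat_lit 389) (nat_lit 229) (nat_lit 162))))) (XT.nd (nat_lit 156) (nat_lit 0) (nat_lit 0) (XT.nd (nat_lit 78) (nat_lit 0) (nat_lit 0) (XT.lf (nat_lit 0) (nat_lit 75323608973) (nat_lit 76) (nat_lit 277717619185) (nat_lit 76) (nat_lit 273111007762) (nat_lit 1) (nat_lit 4) (nat_lit 2) (nat_lit 5) (nat_lit 2) (nat_lit 4) (nat_lit 390) (nat_lit 229) (nat_lit 161)) (XT.lf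 (nat_lit 0) (nat_lit 83207496795) (nat_lit 76) (nat_lit 289379993212) (nat_lit 76) (nat_lit 284765134357) (nat_lit 1) (nat_lit 4) (nat_lit 2) (nat_lit 5) (nat_lit 2) (nat_lit 4) (nat_lit 391) (nat_lit 229) (nat_lit 160))) (XT.nd (nat_lit 78) (nat_lit 0) (nat_lit 0) (XT.lf (nat_lit 0) (nat_lit 91472623853) (nat_lit 76) (nat_lit 301631729638) (nat_lit 76) (nat_lit 297009016085) (nat_lit 1) (nat_lit 4) (nat_lit 2) (nat_lit 5) (nat_lit 2) (nat_lit 4) (nat_lit 392) (nat_lit 229) (nat_lit 159)) (XT.nd (nat_lit 34944) (nat_lit 0) (nat_lit 684) (XT.lf (nat_lit 0) (nat_lit 100138669022) (nat_lit 76) (nat_lit 314501999264) (nat_lit 76) (nat_lit 309871805047) (nat_lit 1) (nat_lit 4) (nat_lit 2) (nat_lit 5) (nat_lit 2) (nat_lit 4) (nat_lit 393) (nat_lit 229) (nat_lit 158)) (XT.lf (nat_lit 0) (nat_lit 1346287283) (nat_lit 76) (nat_lit 5359515041) (nat_lit 76) (nat_lit 5359515041) (nat_lit 10) (nat_lit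 4) (nat_lit 11) (nat_lit 5) (nat_lit 11) (nat_lit 4) (nat_lit 320) (nat_lit 230) (nat_lit 230))))))) (XT.nd (nat_lit 780) (nat_lit 228) (nat_lit 0) (XT.nd (nat_lit 390) (nat_lit 76) (nat_lit 0) (XT.nd (nat_lit 156) (nat_lit 152) (nat_lit 0) (XT.nd (nat_lit 78) (nat_lit 0) (nat_lit 0) (XT.lf (nat_lit 0) (nat_lit 11610881711) (nat_lit 76) (nat_lit 6882974049) (nat_lit 76) (nat_lit 6606312815) (nat_lit 10) (nat_lit 4) (nat_lit 11) (nat_lit 5) (nat_lit 11) (nat_lit 4) (nat_lit 321) (nat_lit 230) (nat_lit 229)) (XT.lf (nat_lit 0) (nat_lit 20698506045) (nat_lit 76) (nat_lit 2983642128) (nat_lit 76) (nat_lit 2443494006) (nat_lit 10) (nat_lit 4) (nat_lit 11) (nat_lit 5) (nat_lit 11) (nat_lit 4) (nat_lit 322) (nat_lit 230) (nat_lit 228))) (XT.nd (nat_lit 78) (nat_lit 0) (nat_lit 0) (XT.lf (nat_lit 0) (nat_lit 1783187534) (nat_lit 152) (nat_lit 24392110231) (nat_lit 0) (nat_lit 1029770376) (nat_lit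 8) (nat_lit 5) (nat_lit 10) (nat_lit 4) (nat_lit 8) (nat_lit 4) (nat_lit 323) (nat_lit 230) (nat_lit 227)) (XT.nd (nat_lit 78) (nat_lit 0) (nat_lit 0) (XT.lf (nat_lit 0) (nat_lit 6138812949) (nat_lit 152) (nat_lit 17039928721) (nat_lit 0) (nat_lit 5157785910) (nat_lit 8) (nat_lit 5) (nat_lit 10) (nat_lit 4) (nat_lit 8) (nat_lit 4) (nat_lit 324) (nat_lit 230) (nat_lit 226)) (XT.lf (nat_lit 0) (nat_lit 10576407383) (nat_lit 152) (nat_lit 9576383146) (nat_lit 0) (nat_lit 9378609028) (nat_lit 8) (nat_lit 5) (nat_lit 10) (nat_lit 4) (nat_lit 8) (nat_lit 4) (nat_lit 325) (nat_lit 230) (nat_lit 225))))) (XT.nd (nat_lit 156) (nat_lit 0) (nat_lit 0) (XT.nd (nat_lit 78) (nat_lit 76) (nat_lit 0) (XT.lf (nat_lit 0) (nat_lit 15106536537) (nat_lit 152) (nat_lit 1983703160) (nat_lit 0) (nat_lit 13702289310) (nat_lit 8) (nat_lit 5) (nat_lit 10) (nat_lit 4) (nat_lit 8) (nat_lit 4) (nat_lit 326) (nat_lit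 230) (nat_lit 224)) (XT.lf (nat_lit 0) (nat_lit 5946514651) (nat_lit 76) (nat_lit 13886313540) (nat_lit 76) (nat_lit 12285448339) (nat_lit 7) (nat_lit 4) (nat_lit 8) (nat_lit 5) (nat_lit 8) (nat_lit 4) (nat_lit 327) (nat_lit 230) (nat_lit 223))) (XT.nd (nat_lit 78) (nat_lit 0) (nat_lit 0) (XT.lf (nat_lit 0) (nat_lit 14113440008) (nat_lit 76) (nat_lit 10594699437) (nat_lit 76) (nat_lit 8806579024) (nat_lit 7) (nat_lit 4) (nat_lit 8) (nat_lit 5) (nat_lit 8) (nat_lit 4) (nat_lit 328) (nat_lit 230) (nat_lit 222)) (XT.nd (nat_lit 78) (nat_lit 0) (nat_lit 0) (XT.lf (nat_lit 0) (nat_lit 22470927784) (nat_lit 76) (nat_lit 7241155184) (nat_lit 76) (nat_lit 5274696474) (nat_lit 7) (nat_lit 4) (nat_lit 8) (nat_lit 5) (nat_lit 8) (nat_lit 4) (nat_lit 329) (nat_lit 230) (nat_lit 221)) (XT.lf (nat_lit 0) (nat_lit 31038876760) (nat_lit 76) (nat_lit 3817696154) (nat_lit 76) (nat_lit 1681391445) (nat_lit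 7) (nat_lit 4) (nat_lit 8) (nat_lit 5) (nat_lit 8) (nat_lit 4) (nat_lit 330) (nat_lit 230) (nat_lit 220)))))) (XT.nd (nat_lit 390) (nat_lit 76) (nat_lit 0) (XT.nd (nat_lit 156) (nat_lit 0) (nat_lit 0) (XT.nd (nat_lit 78) (nat_lit 0) (nat_lit 0) (XT.lf (nat_lit 0) (nat_lit 1688830539) (nat_lit 76) (nat_lit 255995480) (nat_lit 152) (nat_lit 36224274986) (nat_lit 5) (nat_lit 5) (nat_lit 6) (nat_lit 5) (nat_lit 7) (nat_lit 4) (nat_lit 331) (nat_lit 230) (nat_lit 219)) (XT.lf (nat_lit 0) (nat_lit 5739225529) (nat_lit 152) (nat_lit 30735180122) (nat_lit 0) (nat_lit 3403874930) (nat_lit 5) (nat_lit 5) (nat_lit 7) (nat_lit 4) (nat_lit 5) (nat_lit 4) (nat_lit 332) (nat_lit 230) (nat_lit 218))) (XT.nd (nat_lit 78) (nat_lit 0) (nat_lit 0) (XT.lf (nat_lit 0) (nat_lit 9626902416) (nat_lit 152) (nat_lit 24899051311) (nat_lit 0) (nat_lit 7151819094) (nat_lit 5) (nat_lit 5) (nat_lit 7) (nat_lit 4) (nat_lit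 5) (nat_lit 4) (nat_lit 333) (nat_lit 230) (nat_lit 217)) (XT.nd (nat_lit 78) (nat_lit 0) (nat_lit 0) (XT.lf (nat_lit 0) (nat_lit 13613116248) (nat_lit 152) (nat_lit 18953991682) (nat_lit 0) (nat_lit 11004954143) (nat_lit 5) (nat_lit 5) (nat_lit 7) (nat_lit 4) (nat_lit 5) (nat_lit 4) (nat_lit 334) (nat_lit 230) (nat_lit 216)) (XT.lf (nat_lit 0) (nat_lit 17707358010) (nat_lit 152) (nat_lit 12885846331) (nat_lit 0) (nat_lit 14972454206) (nat_lit 5) (nat_lit 5) (nat_lit 7) (nat_lit 4) (nat_lit 5) (nat_lit 4) (nat_lit 335) (nat_lit 230) (nat_lit 215))))) (XT.nd (nat_lit 234) (nat_lit 0) (nat_lit 0) (XT.nd (nat_lit 78) (nat_lit 76) (nat_lit 0) (XT.lf (nat_lit 0) (nat_lit 21919375897) (nat_lit 152) (nat_lit 6680167293) (nat_lit 0) (nat_lit 19063765713) (nat_lit 5) (nat_lit 5) (nat_lit 7) (nat_lit 4) (nat_lit 5) (nat_lit 4) (nat_lit 336) (nat_lit 230) (nat_lit 214)) (XT.nd (nat_lit 78) (nat_lit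 76) (nat_lit 0) (XT.lf (nat_lit 0) (nat_lit 26259198523) (nat_lit 152) (nat_lit 322179141) (nat_lit 0) (nat_lit 23288629882) (nat_lit 5) (nat_lit 5) (nat_lit 7) (nat_lit 4) (nat_lit 5) (nat_lit 4) (nat_lit 337) (nat_lit 230) (nat_lit 213)) (XT.lf (nat_lit 0) (nat_lit 6408363854) (nat_lit 76) (nat_lit 24428847463) (nat_lit 76) (nat_lit 21348794579) (nat_lit 4) (nat_lit 4) (nat_lit 5) (nat_lit 5) (nat_lit 5) (nat_lit 4) (nat_lit 338) (nat_lit 230) (nat_lit 212)))) (XT.nd (nat_lit 78) (nat_lit 0) (nat_lit 0) (XT.lf (nat_lit 0) (nat_lit 13338593753) (nat_lit 76) (nat_lit 22233577610) (nat_lit 76) (nat_lit 19049254016) (nat_lit 4) (nat_lit 4) (nat_lit 5) (nat_lit 5) (nat_lit 5) (nat_lit 4) (nat_lit 339) (nat_lit 230) (nat_lit 211)) (XT.nd (nat_lit 78) (nat_lit 0) (nat_lit 0) (XT.lf (nat_lit 0) (nat_lit 20474358407) (nat_lit 76) (nat_lit 19995797531) (nat_lit 76) (nat_lit 16712168500) (nat_lit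 4) (nat_lit 4) (nat_lit 5) (nat_lit 5) (nat_lit 5) (nat_lit 4) (nat_lit 340) (nat_lit 230) (nat_lit 210)) (XT.lf (nat_lit 0) (nat_lit 27832647730) (nat_lit 76) (nat_lit 17710179179) (nat_lit 76) (nat_lit 14331973541) (nat_lit 4) (nat_lit 4) (nat_lit 5) (nat_lit 5) (nat_lit 5) (nat_lit 4) (nat_lit 341) (nat_lit 230) (nat_lit 209))))))))
noncomputable def xc33 : XT := (XT.nd (nat_lit 1560) (nat_lit 76) (nat_lit 0) (XT.nd (nat_lit 780) (nat_lit 0) (nat_lit 0) (XT.nd (nat_lit 390) (nat_lit 152) (nat_lit 0) (XT.nd (nat_lit 156) (nat_lit 0) (nat_lit 0) (XT.nd (nat_lit 78) (nat_lit 0) (nat_lit 0) (XT.lf (nat_lit 0) (nat_lit 35430981458) (nat_lit 76) (nat_lit 15371280606) (nat_lit 76) (nat_lit 11903002008) (nat_lit 4) (nat_lit 4) (nat_lit 5) (nat_lit 5) (nat_lit 5) (nat_lit 4) (nat_lit 342) (nat_lit 230) (nat_lit 208)) (XT.lf (nat_lit 0) (nat_lit 43287450864) (nat_lit 76) (nat_lit 12973533004)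 (nat_lit 76) (nat_lit 9419470636) (nat_lit 4) (nat_lit 4) (nat_lit 5) (nat_lit 5) (nat_lit 5) (nat_lit 4) (nat_lit 343) (nat_lit 230) (nat_lit 207))) (XT.nd (nat_lit 78) (nat_lit 0) (nat_lit 0) (XT.lf (nat_lit 0) (nat_lit 51420761826) (nat_lit 76) (nat_lit 10511227452) (nat_lit 76) (nat_lit 6875466255) (nat_lit 4) (nat_lit 4) (nat_lit 5) (nat_lit 5) (nat_lit 5) (nat_lit 4) (nat_lit 344) (nat_lit 230) (nat_lit 206)) (XT.nd (nat_lit 78) (nat_lit 0) (nat_lit 0) (XT.lf (nat_lit 0) (nat_lit 59850279370) (nat_lit 76) (nat_lit 7978501316) (nat_lit 76) (nat_lit 4264931711) (nat_lit 4) (nat_lit 4) (nat_lit 5) (nat_lit 5) (nat_lit 5) (nat_lit 4) (nat_lit 345) (nat_lit 230) (nat_lit 205)) (XT.lf (nat_lit 0) (nat_lit 68596073777) (nat_lit 76) (nat_lit 5369324298) (nat_lit 76) (nat_lit 1581651446) (nat_lit 4) (nat_lit 4) (nat_lit 5) (nat_lit 5) (nat_lit 5) (nat_lit 4) (nat_lit 346) (nat_lit 230)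 (nat_lit 204))))) (XT.nd (nat_lit 156) (nat_lit 0) (nat_lit 0) (XT.nd (nat_lit 78) (nat_lit 76) (nat_lit 0) (XT.lf (nat_lit 0) (nat_lit 1142971502) (nat_lit 152) (nat_lit 1515155792) (nat_lit 76) (nat_lit 76516640088) (nat_lit 3) (nat_lit 5) (nat_lit 5) (nat_lit 5) (nat_lit 4) (nat_lit 4) (nat_lit 347) (nat_lit 230) (nat_lit 203)) (XT.lf (nat_lit 0) (nat_lit 3969297810) (nat_lit 152) (nat_lit 78781596709) (nat_lit 0) (nat_lit 230763334) (nat_lit 2) (nat_lit 5) (nat_lit 4) (nat_lit 4) (nat_lit 2) (nat_lit 4) (nat_lit 348) (nat_lit 230) (nat_lit 202))) (XT.nd (nat_lit 78) (nat_lit 0) (nat_lit 0) (XT.lf (nat_lit 0) (nat_lit 6956075188) (nat_lit 152) (nat_lit 76865298902) (nat_lit 0) (nat_lit 3156575787) (nat_lit 2) (nat_lit 5) (nat_lit 4) (nat_lit 4) (nat_lit 2) (nat_lit 4) (nat_lit 349) (nat_lit 230) (nat_lit 201)) (XT.nd (nat_lit 78) (nat_lit 0) (nat_lit 0) (XT.lf (nat_lit 0) (nat_lit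 10044075574) (nat_lit 152) (nat_lit 74945885495) (nat_lit 0) (nat_lit 6186514341) (nat_lit 2) (nat_lit 5) (nat_lit 4) (nat_lit 4) (nat_lit 2) (nat_lit 4) (nat_lit 350) (nat_lit 230) (nat_lit 200)) (XT.lf (nat_lit 0) (nat_lit 13240651350) (nat_lit 152) (nat_lit 73018786455) (nat_lit 0) (nat_lit 9327793133) (nat_lit 2) (nat_lit 5) (nat_lit 4) (nat_lit 4) (nat_lit 2) (nat_lit 4) (nat_lit 351) (nat_lit 230) (nat_lit 199)))))) (XT.nd (nat_lit 390) (nat_lit 0) (nat_lit 0) (XT.nd (nat_lit 156) (nat_lit 0) (nat_lit 0) (XT.nd (nat_lit 78) (nat_lit 0) (nat_lit 0) (XT.lf (nat_lit 0) (nat_lit 16553413410) (nat_lit 152) (nat_lit 71079413451) (nat_lit 0) (nat_lit 12587891400) (nat_lit 2) (nat_lit 5) (nat_lit 4) (nat_lit 4) (nat_lit 2) (nat_lit 4) (nat_lit 352) (nat_lit 230) (nat_lit 198)) (XT.lf (nat_lit 0) (nat_lit 19990249283) (nat_lit 152) (nat_lit 69123148928) (nat_lit 0) (nat_lit 15974571279)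 (nat_lit 2) (nat_lit 5) (nat_lit 4) (nat_lit 4) (nat_lit 2) (nat_lit 4) (nat_lit 353) (nat_lit 230) (nat_lit 197))) (XT.nd (nat_lit 78) (nat_lit 0) (nat_lit 0) (XT.lf (nat_lit 0) (nat_lit 23559341912) (nat_lit 152) (nat_lit 67145335115) (nat_lit 0) (nat_lit 19495896295) (nat_lit 2) (nat_lit 5) (nat_lit 4) (nat_lit 4) (nat_lit 2) (nat_lit 4) (nat_lit 354) (nat_lit 230) (nat_lit 196)) (XT.nd (nat_lit 78) (nat_lit 0) (nat_lit 0) (XT.lf (nat_lit 0) (nat_lit 27269189137) (nat_lit 152) (nat_lit 65141262929) (nat_lit 0) (nat_lit 23160250554) (nat_lit 2) (nat_lit 5) (nat_lit 4) (nat_lit 4) (nat_lit 2) (nat_lit 4) (nat_lit 355) (nat_lit 230) (nat_lit 195)) (XT.lf (nat_lit 0) (nat_lit 31128623926) (nat_lit 152) (nat_lit 63106160772) (nat_lit 0) (nat_lit 26976358710) (nat_lit 2) (nat_lit 5) (nat_lit 4) (nat_lit 4) (nat_lit 2) (nat_lit 4) (nat_lit 356) (nat_lit 230) (nat_lit 194))))) (XT.nd (nat_lit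 156) (nat_lit 0) (nat_lit 0) (XT.nd (nat_lit 78) (nat_lit 0) (nat_lit 0) (XT.lf (nat_lit 0) (nat_lit 35146835411) (nat_lit 152) (nat_lit 61035183161) (nat_lit 0) (nat_lit 30953306735) (nat_lit 2) (nat_lit 5) (nat_lit 4) (nat_lit 4) (nat_lit 2) (nat_lit 4) (nat_lit 357) (nat_lit 230) (nat_lit 193)) (XT.lf (nat_lit 0) (nat_lit 39333390761) (nat_lit 152) (nat_lit 58923399198) (nat_lit 0) (nat_lit 35100563552) (nat_lit 2) (nat_lit 5) (nat_lit 4) (nat_lit 4) (nat_lit 2) (nat_lit 4) (nat_lit 358) (nat_lit 230) (nat_lit 192))) (XT.nd (nat_lit 78) (nat_lit 0) (nat_lit 0) (XT.lf (nat_lit 0) (nat_lit 43698257966) (nat_lit 152) (nat_lit 56765780824) (nat_lit 0) (nat_lit 39428003582) (nat_lit 2) (nat_lit 5) (nat_lit 4) (nat_lit 4) (nat_lit 2) (nat_lit 4) (nat_lit 359) (nat_lit 230) (nat_lit 191)) (XT.nd (nat_lit 78) (nat_lit 0) (nat_lit 0) (XT.lf (nat_lit 0) (nat_lit 48251829567) (nat_lit 152) (nat_lit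 54557190855) (nat_lit 0) (nat_lit 43945930254) (nat_lit 2) (nat_lit 5) (nat_lit 4) (nat_lit 4) (nat_lit 2) (nat_lit 4) (nat_lit 360) (nat_lit 230) (nat_lit 190)) (XT.lf (nat_lit 0) (nat_lit 53004947400) (nat_lit 152) (nat_lit 52292370742) (nat_lit 0) (nat_lit 48665100536) (nat_lit 2) (nat_lit 5) (nat_lit 4) (nat_lit 4) (nat_lit 2) (nat_lit 4) (nat_lit 361) (nat_lit 230) (nat_lit 189))))))) (XT.nd (nat_lit 780) (nat_lit 76) (nat_lit 0) (XT.nd (nat_lit 390) (nat_lit 0) (nat_lit 0) (XT.nd (nat_lit 156) (nat_lit 0) (nat_lit 0) (XT.nd (nat_lit 78) (nat_lit 0) (nat_lit 0) (XT.lf (nat_lit 0) (nat_lit 57968928413) (nat_lit 152) (nat_lit 49965928056) (nat_lit 0) (nat_lit 53596750548) (nat_lit 2) (nat_lit 5) (nat_lit 4) (nat_lit 4) (nat_lit 2) (nat_lit 4) (nat_lit 362) (nat_lit 230) (nat_lit 188)) (XT.lf (nat_lit 0) (nat_lit 63155591608) (nat_lit 152) (nat_lit 47572323649) (nat_lit 0) (nat_lit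 58752622314) (nat_lit 2) (nat_lit 5) (nat_lit 4) (nat_lit 4) (nat_lit 2) (nat_lit 4) (nat_lit 363) (nat_lit 230) (nat_lit 187))) (XT.nd (nat_lit 78) (nat_lit 0) (nat_lit 0) (XT.lf (nat_lit 0) (nat_lit 68577286184) (nat_lit 152) (nat_lit 45105858461) (nat_lit 0) (nat_lit 64144991719) (nat_lit 2) (nat_lit 5) (nat_lit 4) (nat_lit 4) (nat_lit 2) (nat_lit 4) (nat_lit 364) (nat_lit 230) (nat_lit 186)) (XT.nd (nat_lit 78) (nat_lit 0) (nat_lit 0) (XT.lf (nat_lit 0) (nat_lit 74246920937) (nat_lit 152) (nat_lit 42560659958) (nat_lit 0) (nat_lit 69786697737) (nat_lit 2) (nat_lit 5) (nat_lit 4) (nat_lit 4) (nat_lit 2) (nat_lit 4) (nat_lit 365) (nat_lit 230) (nat_lit 185)) (XT.lf (nat_lit 0) (nat_lit 80177994997) (nat_lit 152) (nat_lit 39930668141) (nat_lit 0) (nat_lit 75691173003) (nat_lit 2) (nat_lit 5) (nat_lit 4) (nat_lit 4) (nat_lit 2) (nat_lit 4) (nat_lit 366) (nat_lit 230) (nat_lit 184)))))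 (XT.nd (nat_lit 156) (nat_lit 0) (nat_lit 0) (XT.nd (nat_lit 78) (nat_lit 0) (nat_lit 0) (XT.lf (nat_lit 0) (nat_lit 86384629969) (nat_lit 152) (nat_lit 37209621127) (nat_lit 0) (nat_lit 81872475790) (nat_lit 2) (nat_lit 5) (nat_lit 4) (nat_lit 4) (nat_lit 2) (nat_lit 4) (nat_lit 367) (nat_lit 230) (nat_lit 183)) (XT.lf (nat_lit 0) (nat_lit 92881603556) (nat_lit 152) (nat_lit 34391040232) (nat_lit 0) (nat_lit 88345323486) (nat_lit 2) (nat_lit 5) (nat_lit 4) (nat_lit 4) (nat_lit 2) (nat_lit 4) (nat_lit 368) (nat_lit 230) (nat_lit 182))) (XT.nd (nat_lit 78) (nat_lit 0) (nat_lit 0) (XT.lf (nat_lit 0) (nat_lit 99684384742) (nat_lit 152) (nat_lit 31468214549) (nat_lit 0) (nat_lit 95125127633) (nat_lit 2) (nat_lit 5) (nat_lit 4) (nat_lit 4) (nat_lit 2) (nat_lit 4) (nat_lit 369) (nat_lit 230) (nat_lit 181)) (XT.nd (nat_lit 78) (nat_lit 0) (nat_lit 0) (XT.lf (nat_lit 0) (nat_lit 106809170625)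 (nat_lit 152) (nat_lit 28434184968) (nat_lit 0) (nat_lit 102228030623) (nat_lit 2) (nat_lit 5) (nat_lit 4) (nat_lit 4) (nat_lit 2) (nat_lit 4) (nat_lit 370) (nat_lit 230) (nat_lit 180)) (XT.lf (nat_lit 0) (nat_lit 114272924982) (nat_lit 152) (nat_lit 25281727611) (nat_lit 0) (nat_lit 109670944128) (nat_lit 2) (nat_lit 5) (nat_lit 4) (nat_lit 4) (nat_lit 2) (nat_lit 4) (nat_lit 371) (nat_lit 230) (nat_lit 179)))))) (XT.nd (nat_lit 390) (nat_lit 76) (nat_lit 0) (XT.nd (nat_lit 156) (nat_lit 0) (nat_lit 0) (XT.nd (nat_lit 78) (nat_lit 0) (nat_lit 0) (XT.lf (nat_lit 0) (nat_lit 122093418655) (nat_lit 152) (nat_lit 22003336627) (nat_lit 0) (nat_lit 117471589371) (nat_lit 2) (nat_lit 5) (nat_lit 4) (nat_lit 4) (nat_lit 2) (nat_lit 4) (nat_lit 372) (nat_lit 230) (nat_lit 178)) (XT.lf (nat_lit 0) (nat_lit 130289271869) (nat_lit 152) (nat_lit 18591206321) (nat_lit 0) (nat_lit 125648539318) (nat_lit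 2) (nat_lit 5) (nat_lit 4) (nat_lit 4) (nat_lit 2) (nat_lit 4) (nat_lit 373) (nat_lit 230) (nat_lit 177))) (XT.nd (nat_lit 78) (nat_lit 0) (nat_lit 0) (XT.lf (nat_lit 0) (nat_lit 138879998559) (nat_lit 152) (nat_lit 15037212576) (nat_lit 0) (nat_lit 134221262897) (nat_lit 2) (nat_lit 5) (nat_lit 4) (nat_lit 4) (nat_lit 2) (nat_lit 4) (nat_lit 374) (nat_lit 230) (nat_lit 176)) (XT.nd (nat_lit 78) (nat_lit 0) (nat_lit 0) (XT.lf (nat_lit 0) (nat_lit 147886052836) (nat_lit 152) (nat_lit 11332893500) (nat_lit 0) (nat_lit 143210171354) (nat_lit 2) (nat_lit 5) (nat_lit 4) (nat_lit 4) (nat_lit 2) (nat_lit 4) (nat_lit 375) (nat_lit 230) (nat_lit 175)) (XT.lf (nat_lit 0) (nat_lit 157328877687) (nat_lit 152) (nat_lit 7469429287) (nat_lit 0) (nat_lit 152636666853) (nat_lit 2) (nat_lit 5) (nat_lit 4) (nat_lit 4) (nat_lit 2) (nat_lit 4) (nat_lit 376) (nat_lit 230) (nat_lit 174))))) (XT.nd (nat_lit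 234) (nat_lit 0) (nat_lit 0) (XT.nd (nat_lit 78) (nat_lit 76) (nat_lit 0) (XT.lf (nat_lit 0) (nat_lit 167230956028) (nat_lit 152) (nat_lit 3437621212) (nat_lit 0) (nat_lit 162523193430) (nat_lit 2) (nat_lit 5) (nat_lit 4) (nat_lit 4) (nat_lit 2) (nat_lit 4) (nat_lit 377) (nat_lit 230) (nat_lit 173)) (XT.nd (nat_lit 78) (nat_lit 0) (nat_lit 0) (XT.lf (nat_lit 0) (nat_lit 797660380) (nat_lit 76) (nat_lit 176830657570) (nat_lit 76) (nat_lit 172108083767) (nat_lit 1) (nat_lit 4) (nat_lit 2) (nat_lit 5) (nat_lit 2) (nat_lit 4) (nat_lit 378) (nat_lit 230) (nat_lit 172)) (XT.lf (nat_lit 0) (nat_lit 5340786904) (nat_lit 76) (nat_lit 183250926030) (nat_lit 76) (nat_lit 178514246320) (nat_lit 1) (nat_lit 4) (nat_lit 2) (nat_lit 5) (nat_lit 2) (nat_lit 4) (nat_lit 379) (nat_lit 230) (nat_lit 171)))) (XT.nd (nat_lit 78) (nat_lit 0) (nat_lit 0) (XT.lf (nat_lit 0) (nat_lit 10088912043) (nat_lit 76)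 (nat_lit 190002886755) (nat_lit 76) (nat_lit 185252772846) (nat_lit 1) (nat_lit 4) (nat_lit 2) (nat_lit 5) (nat_lit 2) (nat_lit 4) (nat_lit 380) (nat_lit 230) (nat_lit 170)) (XT.nd (nat_lit 78) (nat_lit 0) (nat_lit 0) (XT.lf (nat_lit 0) (nat_lit 15053340858) (nat_lit 76) (nat_lit 197102615841) (nat_lit 76) (nat_lit 192339707457) (nat_lit 1) (nat_lit 4) (nat_lit 2) (nat_lit 5) (nat_lit 2) (nat_lit 4) (nat_lit 381) (nat_lit 230) (nat_lit 169)) (XT.lf (nat_lit 0) (nat_lit 20245893418) (nat_lit 76) (nat_lit 204567017406) (nat_lit 76) (nat_lit 199791923807) (nat_lit 1) (nat_lit 4) (nat_lit 2) (nat_lit 5) (nat_lit 2) (nat_lit 4) (nat_lit 382) (nat_lit 230) (nat_lit 168))))))))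
noncomputable def xc34 : XT := (XT.nd (nat_lit 36348) (nat_lit 0) (nat_lit 76) (XT.nd (nat_lit 35568) (nat_lit 0) (nat_lit 456) (XT.nd (nat_lit 390) (nat_lit 0) (nat_lit 0) (XT.nd (nat_lit 156) (nat_lit 0) (nat_lit 0) (XT.nd (nat_lit 78) (nat_lit 0) (nat_lit 0) (XT.lf (nat_lit 0) (nat_lit 25678932942) (nat_lit 76) (nat_lit 212413863832) (nat_lit 76) (nat_lit 207627165268) (nat_lit 1) (nat_lit 4) (nat_lit 2) (nat_lit 5) (nat_lit 2) (nat_lit 4) (nat_lit 383) (nat_lit 230) (nat_lit 167)) (XT.lf (nat_lit 0) (nat_lit 31365395240) (nat_lit 76) (nat_lit 220661838089) (nat_lit 76) (nat_lit 215864087176) (nat_lit 1) (nat_lit 4) (nat_lit 2) (nat_lit 5) (nat_lit 2) (nat_lit 4) (nat_lit 384) (nat_lit 230) (nat_lit 166))) (XT.nd (nat_lit 78) (nat_lit 0) (nat_lit 0) (XT.lf (nat_lit 0) (nat_lit 37318819507) (nat_lit 76) (nat_lit 229330578211) (nat_lit 76) (nat_lit 224522301251) (nat_lit 1) (nat_lit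 4) (nat_lit 2) (nat_lit 5) (nat_lit 2) (nat_lit 4) (nat_lit 385) (nat_lit 230) (nat_lit 165)) (XT.nd (nat_lit 78) (nat_lit 0) (nat_lit 0) (XT.lf (nat_lit 0) (nat_lit 43553380563) (nat_lit 76) (nat_lit 238440724054) (nat_lit 76) (nat_lit 233622422289) (nat_lit 1) (nat_lit 4) (nat_lit 2) (nat_lit 5) (nat_lit 2) (nat_lit 4) (nat_lit 386) (nat_lit 230) (nat_lit 164)) (XT.lf (nat_lit 0) (nat_lit 50083922600) (nat_lit 76) (nat_lit 248013966442) (nat_lit 76) (nat_lit 243186117243) (nat_lit 1) (nat_lit 4) (nat_lit 2) (nat_lit 5) (nat_lit 2) (nat_lit 4) (nat_lit 387) (nat_lit 230) (nat_lit 163))))) (XT.nd (nat_lit 156) (nat_lit 0) (nat_lit 0) (XT.nd (nat_lit 78) (nat_lit 0) (nat_lit 0) (XT.lf (nat_lit 0) (nat_lit 56925994529) (nat_lit 76) (nat_lit 258073098810) (nat_lit 76) (nat_lit 253236156816) (nat_lit 1) (nat_lit 4) (nat_lit 2) (nat_lit 5) (nat_lit 2) (nat_lit 4) (nat_lit 388) (nat_lit 230)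 (nat_lit 162)) (XT.lf (nat_lit 0) (nat_lit 64095886997) (nat_lit 76) (nat_lit 268642071472) (nat_lit 76) (nat_lit 263796469674) (nat_lit 1) (nat_lit 4) (nat_lit 2) (nat_lit 5) (nat_lit 2) (nat_lit 4) (nat_lit 389) (nat_lit 230) (nat_lit 161))) (XT.nd (nat_lit 78) (nat_lit 0) (nat_lit 0) (XT.lf (nat_lit 0) (nat_lit 71610671176) (nat_lit 76) (nat_lit 279746048649) (nat_lit 76) (nat_lit 274892199419) (nat_lit 1) (nat_lit 4) (nat_lit 2) (nat_lit 5) (nat_lit 2) (nat_lit 4) (nat_lit 390) (nat_lit 230) (nat_lit 160)) (XT.nd (nat_lit 78) (nat_lit 0) (nat_lit 0) (XT.lf (nat_lit 0) (nat_lit 79488239410) (nat_lit 76) (nat_lit 291411468383) (nat_lit 76) (nat_lit 286549764454) (nat_lit 1) (nat_lit 4) (nat_lit 2) (nat_lit 5) (nat_lit 2) (nat_lit 4) (nat_lit 391) (nat_lit 230) (nat_lit 159)) (XT.lf (nat_lit 0) (nat_lit 87747347813) (nat_lit 76) (nat_lit 303666105481) (nat_lit 76) (nat_lit 298796920888)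 (nat_lit 1) (nat_lit 4) (nat_lit 2) (nat_lit 5) (nat_lit 2) (nat_lit 4) (nat_lit 392) (nat_lit 230) (nat_lit 158)))))) (XT.nd (nat_lit 390) (nat_lit 228) (nat_lit 0) (XT.nd (nat_lit 156) (nat_lit 76) (nat_lit 0) (XT.nd (nat_lit 78) (nat_lit 0) (nat_lit 0) (XT.lf (nat_lit 0) (nat_lit 2057341896) (nat_lit 152) (nat_lit 7052761838) (nat_lit 0) (nat_lit 2057341896) (nat_lit 11) (nat_lit 5) (nat_lit 13) (nat_lit 4) (nat_lit 11) (nat_lit 4) (nat_lit 318) (nat_lit 231) (nat_lit 231)) (XT.lf (nat_lit 0) (nat_lit 8808677677) (nat_lit 152) (nat_lit 5883126716) (nat_lit 0) (nat_lit 8518183382) (nat_lit 11) (nat_lit 5) (nat_lit 13) (nat_lit 4) (nat_lit 11) (nat_lit 4) (nat_lit 319) (nat_lit 231) (nat_lit 230))) (XT.nd (nat_lit 78) (nat_lit 0) (nat_lit 0) (XT.lf (nat_lit 0) (nat_lit 2550902333) (nat_lit 76) (nat_lit 11075355236) (nat_lit 76) (nat_lit 10508199708) (nat_lit 10) (nat_lit 4) (nat_lit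 11) (nat_lit 5) (nat_lit 11) (nat_lit 4) (nat_lit 320) (nat_lit 231) (nat_lit 229)) (XT.nd (nat_lit 78) (nat_lit 0) (nat_lit 0) (XT.lf (nat_lit 0) (nat_lit 11334283543) (nat_lit 76) (nat_lit 7301995258) (nat_lit 76) (nat_lit 6471352841) (nat_lit 10) (nat_lit 4) (nat_lit 11) (nat_lit 5) (nat_lit 11) (nat_lit 4) (nat_lit 321) (nat_lit 231) (nat_lit 228)) (XT.lf (nat_lit 0) (nat_lit 20293406986) (nat_lit 76) (nat_lit 3462373867) (nat_lit 76) (nat_lit 2380791556) (nat_lit 10) (nat_lit 4) (nat_lit 11) (nat_lit 5) (nat_lit 11) (nat_lit 4) (nat_lit 322) (nat_lit 231) (nat_lit 227))))) (XT.nd (nat_lit 156) (nat_lit 76) (nat_lit 0) (XT.nd (nat_lit 78) (nat_lit 0) (nat_lit 0) (XT.lf (nat_lit 0) (nat_lit 1760026245) (nat_lit 152) (nat_lit 24957803124) (nat_lit 0) (nat_lit 502337972) (nat_lit 8) (nat_lit 5) (nat_lit 10) (nat_lit 4) (nat_lit 8) (nat_lit 4) (nat_lit 323) (nat_lit 231) (nat_lit 226))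 (XT.lf (nat_lit 0) (nat_lit 6049401781) (nat_lit 152) (nat_lit 17730619180) (nat_lit 0) (nat_lit 4574942193) (nat_lit 8) (nat_lit 5) (nat_lit 10) (nat_lit 4) (nat_lit 8) (nat_lit 4) (nat_lit 324) (nat_lit 231) (nat_lit 225))) (XT.nd (nat_lit 78) (nat_lit 76) (nat_lit 0) (XT.lf (nat_lit 0) (nat_lit 10423901092) (nat_lit 152) (nat_lit 10386118906) (nat_lit 0) (nat_lit 8742992632) (nat_lit 8) (nat_lit 5) (nat_lit 10) (nat_lit 4) (nat_lit 8) (nat_lit 4) (nat_lit 325) (nat_lit 231) (nat_lit 224)) (XT.nd (nat_lit 78) (nat_lit 76) (nat_lit 0) (XT.lf (nat_lit 0) (nat_lit 14893939653) (nat_lit 152) (nat_lit 2906815398) (nat_lit 0) (nat_lit 13016413219) (nat_lit 8) (nat_lit 5) (nat_lit 10) (nat_lit 4) (nat_lit 8) (nat_lit 4) (nat_lit 326) (nat_lit 231) (nat_lit 223)) (XT.lf (nat_lit 0) (nat_lit 4881332329) (nat_lit 76) (nat_lit 14665039360) (nat_lit 76) (nat_lit 12600257714) (nat_lit 7) (nat_lit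 4) (nat_lit 8) (nat_lit 5) (nat_lit 8) (nat_lit 4) (nat_lit 327) (nat_lit 231) (nat_lit 222))))))) (XT.nd (nat_lit 780) (nat_lit 228) (nat_lit 0) (XT.nd (nat_lit 390) (nat_lit 0) (nat_lit 0) (XT.nd (nat_lit 156) (nat_lit 152) (nat_lit 0) (XT.nd (nat_lit 78) (nat_lit 0) (nat_lit 0) (XT.lf (nat_lit 0) (nat_lit 12942021662) (nat_lit 76) (nat_lit 11423498699) (nat_lit 76) (nat_lit 9180378755) (nat_lit 7) (nat_lit 4) (nat_lit 8) (nat_lit 5) (nat_lit 8) (nat_lit 4) (nat_lit 328) (nat_lit 231) (nat_lit 221)) (XT.lf (nat_lit 0) (nat_lit 21198332273) (nat_lit 76) (nat_lit 8117643439) (nat_lit 76) (nat_lit 5704677497) (nat_lit 7) (nat_lit 4) (nat_lit 8) (nat_lit 5) (nat_lit 8) (nat_lit 4) (nat_lit 329) (nat_lit 231) (nat_lit 220))) (XT.nd (nat_lit 78) (nat_lit 152) (nat_lit 0) (XT.lf (nat_lit 0) (nat_lit 29669922045) (nat_lit 76) (nat_lit 4739602496) (nat_lit 76) (nat_lit 2164878461) (nat_lit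 7) (nat_lit 4) (nat_lit 8) (nat_lit 5) (nat_lit 8) (nat_lit 4) (nat_lit 330) (nat_lit 231) (nat_lit 219)) (XT.nd (nat_lit 78) (nat_lit 0) (nat_lit 0) (XT.lf (nat_lit 0) (nat_lit 148260080) (nat_lit 76) (nat_lit 1255173793) (nat_lit 152) (nat_lit 36806168354) (nat_lit 5) (nat_lit 5) (nat_lit 6) (nat_lit 5) (nat_lit 7) (nat_lit 4) (nat_lit 331) (nat_lit 231) (nat_lit 218)) (XT.lf (nat_lit 0) (nat_lit 5133141095) (nat_lit 152) (nat_lit 32394319831) (nat_lit 0) (nat_lit 2394570885) (nat_lit 5) (nat_lit 5) (nat_lit 7) (nat_lit 4) (nat_lit 5) (nat_lit 4) (nat_lit 332) (nat_lit 231) (nat_lit 217))))) (XT.nd (nat_lit 156) (nat_lit 0) (nat_lit 0) (XT.nd (nat_lit 78) (nat_lit 0) (nat_lit 0) (XT.lf (nat_lit 0) (nat_lit 8974063397) (nat_lit 152) (nat_lit 26647398640) (nat_lit 0) (nat_lit 6102414403) (nat_lit 5) (nat_lit 5) (nat_lit 7) (nat_lit 4) (nat_lit 5) (nat_lit 4) (nat_lit 333) (nat_lit 231)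 (nat_lit 216)) (XT.lf (nat_lit 0) (nat_lit 12915749053) (nat_lit 152) (nat_lit 20787298650) (nat_lit 0) (nat_lit 9917358360) (nat_lit 5) (nat_lit 5) (nat_lit 7) (nat_lit 4) (nat_lit 5) (nat_lit 4) (nat_lit 334) (nat_lit 231) (nat_lit 215))) (XT.nd (nat_lit 78) (nat_lit 0) (nat_lit 0) (XT.lf (nat_lit 0) (nat_lit 16967583028) (nat_lit 152) (nat_lit 14800067241) (nat_lit 0) (nat_lit 13848485955) (nat_lit 5) (nat_lit 5) (nat_lit 7) (nat_lit 4) (nat_lit 5) (nat_lit 4) (nat_lit 335) (nat_lit 231) (nat_lit 214)) (XT.nd (nat_lit 78) (nat_lit 0) (nat_lit 0) (XT.lf (nat_lit 0) (nat_lit 21139212546) (nat_lit 152) (nat_lit 8671449100) (nat_lit 0) (nat_lit 17905157017) (nat_lit 5) (nat_lit 5) (nat_lit 7) (nat_lit 4) (nat_lit 5) (nat_lit 4) (nat_lit 336) (nat_lit 231) (nat_lit 213)) (XT.lf (nat_lit 0) (nat_lit 25440570059) (nat_lit 152) (nat_lit 2386852279) (nat_lit 0) (nat_lit 22097030285) (nat_lit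 5) (nat_lit 5) (nat_lit 7) (nat_lit 4) (nat_lit 5) (nat_lit 4) (nat_lit 337) (nat_lit 231) (nat_lit 212)))))) (XT.nd (nat_lit 390) (nat_lit 152) (nat_lit 0) (XT.nd (nat_lit 156) (nat_lit 0) (nat_lit 0) (XT.nd (nat_lit 78) (nat_lit 0) (nat_lit 0) (XT.lf (nat_lit 0) (nat_lit 4203215699) (nat_lit 76) (nat_lit 25744305171) (nat_lit 76) (nat_lit 22296494688) (nat_lit 4) (nat_lit 4) (nat_lit 5) (nat_lit 5) (nat_lit 5) (nat_lit 4) (nat_lit 338) (nat_lit 231) (nat_lit 211)) (XT.lf (nat_lit 0) (nat_lit 11064676456) (nat_lit 76) (nat_lit 23581841790) (nat_lit 76) (nat_lit 20034725870) (nat_lit 4) (nat_lit 4) (nat_lit 5) (nat_lit 5) (nat_lit 5) (nat_lit 4) (nat_lit 339) (nat_lit 231) (nat_lit 210))) (XT.nd (nat_lit 78) (nat_lit 0) (nat_lit 0) (XT.lf (nat_lit 0) (nat_lit 18134946689) (nat_lit 76) (nat_lit 21375305970) (nat_lit 76) (nat_lit 17733613443) (nat_lit 4) (nat_lit 4) (nat_lit 5) (nat_lit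 5) (nat_lit 5) (nat_lit 4) (nat_lit 340) (nat_lit 231) (nat_lit 209)) (XT.nd (nat_lit 78) (nat_lit 0) (nat_lit 0) (XT.lf (nat_lit 0) (nat_lit 25430860373) (nat_lit 76) (nat_lit 19119444055) (nat_lit 76) (nat_lit 15387678569) (nat_lit 4) (nat_lit 4) (nat_lit 5) (nat_lit 5) (nat_lit 5) (nat_lit 4) (nat_lit 341) (nat_lit 231) (nat_lit 208)) (XT.lf (nat_lit 0) (nat_lit 32969788731) (nat_lit 76) (nat_lit 16808884945) (nat_lit 76) (nat_lit 12991335688) (nat_lit 4) (nat_lit 4) (nat_lit 5) (nat_lit 5) (nat_lit 5) (nat_lit 4) (nat_lit 342) (nat_lit 231) (nat_lit 207))))) (XT.nd (nat_lit 234) (nat_lit 152) (nat_lit 0) (XT.nd (nat_lit 78) (nat_lit 0) (nat_lit 0) (XT.lf (nat_lit 0) (nat_lit 40769681593) (nat_lit 76) (nat_lit 14438127309) (nat_lit 76) (nat_lit 10538879223) (nat_lit 4) (nat_lit 4) (nat_lit 5) (nat_lit 5) (nat_lit 5) (nat_lit 4) (nat_lit 343) (nat_lit 231) (nat_lit 206)) (XT.nd (nat_lit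 78) (nat_lit 0) (nat_lit 0) (XT.lf (nat_lit 0) (nat_lit 48849110133) (nat_lit 76) (nat_lit 12001526486) (nat_lit 76) (nat_lit 8024469991) (nat_lit 4) (nat_lit 4) (nat_lit 5) (nat_lit 5) (nat_lit 5) (nat_lit 4) (nat_lit 344) (nat_lit 231) (nat_lit 205)) (XT.lf (nat_lit 0) (nat_lit 57227311084) (nat_lit 76) (nat_lit 9493281045) (nat_lit 76) (nat_lit 5442121304) (nat_lit 4) (nat_lit 4) (nat_lit 5) (nat_lit 5) (nat_lit 5) (nat_lit 4) (nat_lit 345) (nat_lit 231) (nat_lit 204)))) (XT.nd (nat_lit 78) (nat_lit 152) (nat_lit 0) (XT.lf (nat_lit 0) (nat_lit 65924232546) (nat_lit 76) (nat_lit 6907418973) (nat_lit 76) (nat_lit 2785684712) (nat_lit 4) (nat_lit 4) (nat_lit 5) (nat_lit 5) (nat_lit 5) (nat_lit 4) (nat_lit 346) (nat_lit 231) (nat_lit 203)) (XT.nd (nat_lit 78) (nat_lit 152) (nat_lit 0) (XT.lf (nat_lit 0) (nat_lit 74960581472) (nat_lit 76) (nat_lit 4237783456) (nat_lit 76) (nat_lit 48835367)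 (nat_lit 4) (nat_lit 4) (nat_lit 5) (nat_lit 5) (nat_lit 5) (nat_lit 4) (nat_lit 347) (nat_lit 231) (nat_lit 202)) (XT.lf (nat_lit 0) (nat_lit 1295049866) (nat_lit 76) (nat_lit 1411297024) (nat_lit 152) (nat_lit 80351424070) (nat_lit 2) (nat_lit 5) (nat_lit 3) (nat_lit 5) (nat_lit 4) (nat_lit 4) (nat_lit 348) (nat_lit 231) (nat_lit 201))))))))
noncomputable def xc35 : XT := (XT.nd (nat_lit 1638) (nat_lit 76) (nat_lit 0) (XT.nd (nat_lit 780) (nat_lit 0) (nat_lit 0) (XT.nd (nat_lit 390) (nat_lit 0) (nat_lit 0) (XT.nd (nat_lit 156) (nat_lit 0) (nat_lit 0) (XT.nd (nat_lit 78) (nat_lit 0) (nat_lit 0) (XT.lf (nat_lit 0) (nat_lit 5647618815) (nat_lit 152) (nat_lit 79869608151) (nat_lit 0) (nat_lit 1539117687) (nat_lit 2) (nat_lit 5) (nat_lit 4) (nat_lit 4) (nat_lit 2) (nat_lit 4) (nat_lit 349) (nat_lit 231) (nat_lit 200)) (XT.lf (nat_lit 0) (nat_lit 8713265723) (nat_lit 152) (nat_lit 77993260616)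 (nat_lit 0) (nat_lit 4549467612) (nat_lit 2) (nat_lit 5) (nat_lit 4) (nat_lit 4) (nat_lit 2) (nat_lit 4) (nat_lit 350) (nat_lit 231) (nat_lit 199))) (XT.nd (nat_lit 78) (nat_lit 0) (nat_lit 0) (XT.lf (nat_lit 0) (nat_lit 11888552472) (nat_lit 152) (nat_lit 76107176692) (nat_lit 0) (nat_lit 7672090568) (nat_lit 2) (nat_lit 5) (nat_lit 4) (nat_lit 4) (nat_lit 2) (nat_lit 4) (nat_lit 351) (nat_lit 231) (nat_lit 198)) (XT.nd (nat_lit 78) (nat_lit 0) (nat_lit 0) (XT.lf (nat_lit 0) (nat_lit 15181039269) (nat_lit 152) (nat_lit 74206865704) (nat_lit 0) (nat_lit 10914421370) (nat_lit 2) (nat_lit 5) (nat_lit 4) (nat_lit 4) (nat_lit 2) (nat_lit 4) (nat_lit 352) (nat_lit 231) (nat_lit 197)) (XT.lf (nat_lit 0) (nat_lit 18598565367) (nat_lit 152) (nat_lit 72287803101) (nat_lit 0) (nat_lit 14284179856) (nat_lit 2) (nat_lit 5) (nat_lit 4) (nat_lit 4) (nat_lit 2) (nat_lit 4) (nat_lit 353) (nat_lit 231)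 (nat_lit 196))))) (XT.nd (nat_lit 156) (nat_lit 0) (nat_lit 0) (XT.nd (nat_lit 78) (nat_lit 0) (nat_lit 0) (XT.lf (nat_lit 0) (nat_lit 22149267735) (nat_lit 152) (nat_lit 70345419687) (nat_lit 0) (nat_lit 17789389258) (nat_lit 2) (nat_lit 5) (nat_lit 4) (nat_lit 4) (nat_lit 2) (nat_lit 4) (nat_lit 354) (nat_lit 231) (nat_lit 195)) (XT.lf (nat_lit 0) (nat_lit 25841600425) (nat_lit 152) (nat_lit 68375090739) (nat_lit 0) (nat_lit 21438395315) (nat_lit 2) (nat_lit 5) (nat_lit 4) (nat_lit 4) (nat_lit 2) (nat_lit 4) (nat_lit 355) (nat_lit 231) (nat_lit 194))) (XT.nd (nat_lit 78) (nat_lit 0) (nat_lit 0) (XT.lf (nat_lit 0) (nat_lit 29684354705) (nat_lit 152) (nat_lit 66372124998) (nat_lit 0) (nat_lit 25239886135) (nat_lit 2) (nat_lit 5) (nat_lit 4) (nat_lit 4) (nat_lit 2) (nat_lit 4) (nat_lit 356) (nat_lit 231) (nat_lit 193)) (XT.nd (nat_lit 78) (nat_lit 0) (nat_lit 0) (XT.lf (nat_lit 0) (nat_lit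 33686679990) (nat_lit 152) (nat_lit 64331753499) (nat_lit 0) (nat_lit 29202912887) (nat_lit 2) (nat_lit 5) (nat_lit 4) (nat_lit 4) (nat_lit 2) (nat_lit 4) (nat_lit 357) (nat_lit 231) (nat_lit 192)) (XT.lf (nat_lit 0) (nat_lit 37858105627) (nat_lit 152) (nat_lit 62249118212) (nat_lit 0) (nat_lit 33336911348) (nat_lit 2) (nat_lit 5) (nat_lit 4) (nat_lit 4) (nat_lit 2) (nat_lit 4) (nat_lit 358) (nat_lit 231) (nat_lit 191)))))) (XT.nd (nat_lit 390) (nat_lit 0) (nat_lit 0) (XT.nd (nat_lit 156) (nat_lit 0) (nat_lit 0) (XT.nd (nat_lit 78) (nat_lit 0) (nat_lit 0) (XT.lf (nat_lit 0) (nat_lit 42208563581) (nat_lit 152) (nat_lit 60119260484) (nat_lit 0) (nat_lit 37651724374) (nat_lit 2) (nat_lit 5) (nat_lit 4) (nat_lit 4) (nat_lit 2) (nat_lit 4) (nat_lit 359) (nat_lit 231) (nat_lit 190)) (XT.lf (nat_lit 0) (nat_lit 46748412085) (nat_lit 152) (nat_lit 57937109225) (nat_lit 0) (nat_lit 42157625327)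 (nat_lit 2) (nat_lit 5) (nat_lit 4) (nat_lit 4) (nat_lit 2) (nat_lit 4) (nat_lit 360) (nat_lit 231) (nat_lit 189))) (XT.nd (nat_lit 78) (nat_lit 0) (nat_lit 0) (XT.lf (nat_lit 0) (nat_lit 51488460303) (nat_lit 152) (nat_lit 55697468835) (nat_lit 0) (nat_lit 46865342544) (nat_lit 2) (nat_lit 5) (nat_lit 4) (nat_lit 4) (nat_lit 2) (nat_lit 4) (nat_lit 361) (nat_lit 231) (nat_lit 188)) (XT.nd (nat_lit 78) (nat_lit 0) (nat_lit 0) (XT.lf (nat_lit 0) (nat_lit 56439994063) (nat_lit 152) (nat_lit 53395006838) (nat_lit 0) (nat_lit 51786084875) (nat_lit 2) (nat_lit 5) (nat_lit 4) (nat_lit 4) (nat_lit 2) (nat_lit 4) (nat_lit 362) (nat_lit 231) (nat_lit 187)) (XT.lf (nat_lit 0) (nat_lit 61614802732) (nat_lit 152) (nat_lit 51024241182) (nat_lit 0) (nat_lit 56931568372) (nat_lit 2) (nat_lit 5) (nat_lit 4) (nat_lit 4) (nat_lit 2) (nat_lit 4) (nat_lit 363) (nat_lit 231) (nat_lit 186))))) (XT.nd (nat_lit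 234) (nat_lit 0) (nat_lit 0) (XT.nd (nat_lit 78) (nat_lit 0) (nat_lit 0) (XT.lf (nat_lit 0) (nat_lit 67025207282) (nat_lit 152) (nat_lit 48579527187) (nat_lit 0) (nat_lit 62314044189) (nat_lit 2) (nat_lit 5) (nat_lit 4) (nat_lit 4) (nat_lit 2) (nat_lit 4) (nat_lit 364) (nat_lit 231) (nat_lit 185)) (XT.nd (nat_lit 78) (nat_lit 0) (nat_lit 0) (XT.lf (nat_lit 0) (nat_lit 72684089630) (nat_lit 152) (nat_lit 46055044104) (nat_lit 0) (nat_lit 67946327742) (nat_lit 2) (nat_lit 5) (nat_lit 4) (nat_lit 4) (nat_lit 2) (nat_lit 4) (nat_lit 365) (nat_lit 231) (nat_lit 184)) (XT.lf (nat_lit 0) (nat_lit 78604923304) (nat_lit 152) (nat_lit 43444781260) (nat_lit 0) (nat_lit 73841829231) (nat_lit 2) (nat_lit 5) (nat_lit 4) (nat_lit 4) (nat_lit 2) (nat_lit 4) (nat_lit 366) (nat_lit 231) (nat_lit 183)))) (XT.nd (nat_lit 78) (nat_lit 0) (nat_lit 0) (XT.lf (nat_lit 0) (nat_lit 84801805528) (nat_lit 152)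 (nat_lit 40742523743) (nat_lit 0) (nat_lit 80014585564) (nat_lit 2) (nat_lit 5) (nat_lit 4) (nat_lit 4) (nat_lit 2) (nat_lit 4) (nat_lit 367) (nat_lit 231) (nat_lit 182)) (XT.nd (nat_lit 78) (nat_lit 0) (nat_lit 0) (XT.lf (nat_lit 0) (nat_lit 91289490783) (nat_lit 152) (nat_lit 37941837607) (nat_lit 0) (nat_lit 86479293780) (nat_lit 2) (nat_lit 5) (nat_lit 4) (nat_lit 4) (nat_lit 2) (nat_lit 4) (nat_lit 368) (nat_lit 231) (nat_lit 181)) (XT.lf (nat_lit 0) (nat_lit 98083425939) (nat_lit 152) (nat_lit 35036054552) (nat_lit 0) (nat_lit 93251346042) (nat_lit 2) (nat_lit 5) (nat_lit 4) (nat_lit 4) (nat_lit 2) (nat_lit 4) (nat_lit 369) (nat_lit 231) (nat_lit 180))))))) (XT.nd (nat_lit 780) (nat_lit 0) (nat_lit 0) (XT.nd (nat_lit 390) (nat_lit 76) (nat_lit 0) (XT.nd (nat_lit 156) (nat_lit 0) (nat_lit 0) (XT.nd (nat_lit 78) (nat_lit 0) (nat_lit 0) (XT.lf (nat_lit 0) (nat_lit 105199787032) (nat_lit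 152) (nat_lit 32018256046) (nat_lit 0) (nat_lit 100346866284) (nat_lit 2) (nat_lit 5) (nat_lit 4) (nat_lit 4) (nat_lit 2) (nat_lit 4) (nat_lit 370) (nat_lit 231) (nat_lit 179)) (XT.lf (nat_lit 0) (nat_lit 112655517778) (nat_lit 152) (nat_lit 28881256854) (nat_lit 0) (nat_lit 107782748600) (nat_lit 2) (nat_lit 5) (nat_lit 4) (nat_lit 4) (nat_lit 2) (nat_lit 4) (nat_lit 371) (nat_lit 231) (nat_lit 178))) (XT.nd (nat_lit 78) (nat_lit 0) (nat_lit 0) (XT.lf (nat_lit 0) (nat_lit 120468369918) (nat_lit 152) (nat_lit 25617587932) (nat_lit 0) (nat_lit 115576697474) (nat_lit 2) (nat_lit 5) (nat_lit 4) (nat_lit 4) (nat_lit 2) (nat_lit 4) (nat_lit 372) (nat_lit 231) (nat_lit 177)) (XT.nd (nat_lit 78) (nat_lit 0) (nat_lit 0) (XT.lf (nat_lit 0) (nat_lit 128656945481) (nat_lit 152) (nat_lit 22219478639) (nat_lit 0) (nat_lit 123747269925) (nat_lit 2) (nat_lit 5) (nat_lit 4) (nat_lit 4) (nat_lit 2) (nat_lit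 4) (nat_lit 373) (nat_lit 231) (nat_lit 176)) (XT.lf (nat_lit 0) (nat_lit 137240741075) (nat_lit 152) (nat_lit 18678838239) (nat_lit 0) (nat_lit 132313919699) (nat_lit 2) (nat_lit 5) (nat_lit 4) (nat_lit 4) (nat_lit 2) (nat_lit 4) (nat_lit 374) (nat_lit 231) (nat_lit 175))))) (XT.nd (nat_lit 156) (nat_lit 76) (nat_lit 0) (XT.nd (nat_lit 78) (nat_lit 0) (nat_lit 0) (XT.lf (nat_lit 0) (nat_lit 146240194308) (nat_lit 152) (nat_lit 14987236635) (nat_lit 0) (nat_lit 141297043580) (nat_lit 2) (nat_lit 5) (nat_lit 4) (nat_lit 4) (nat_lit 2) (nat_lit 4) (nat_lit 375) (nat_lit 231) (nat_lit 174)) (XT.lf (nat_lit 0) (nat_lit 155676732450) (nat_lit 152) (nat_lit 11135884299) (nat_lit 0) (nat_lit 150718029958) (nat_lit 2) (nat_lit 5) (nat_lit 4) (nat_lit 4) (nat_lit 2) (nat_lit 4) (nat_lit 376) (nat_lit 231) (nat_lit 173))) (XT.nd (nat_lit 78) (nat_lit 76) (nat_lit 0) (XT.lf (nat_lit 0) (nat_lit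 165572823450) (nat_lit 152) (nat_lit 7115611346) (nat_lit 0) (nat_lit 160599309753) (nat_lit 2) (nat_lit 5) (nat_lit 4) (nat_lit 4) (nat_lit 2) (nat_lit 4) (nat_lit 377) (nat_lit 231) (nat_lit 172)) (XT.nd (nat_lit 78) (nat_lit 76) (nat_lit 0) (XT.lf (nat_lit 0) (nat_lit 175952029428) (nat_lit 152) (nat_lit 2916845696) (nat_lit 0) (nat_lit 170964409823) (nat_lit 2) (nat_lit 5) (nat_lit 4) (nat_lit 4) (nat_lit 2) (nat_lit 4) (nat_lit 378) (nat_lit 231) (nat_lit 171)) (XT.lf (nat_lit 0) (nat_lit 1519028096) (nat_lit 76) (nat_lit 185343750969) (nat_lit 76) (nat_lit 180342697165) (nat_lit 1) (nat_lit 4) (nat_lit 2) (nat_lit 5) (nat_lit 2) (nat_lit 4) (nat_lit 379) (nat_lit 231) (nat_lit 170)))))) (XT.nd (nat_lit 390) (nat_lit 0) (nat_lit 0) (XT.nd (nat_lit 156) (nat_lit 0) (nat_lit 0) (XT.nd (nat_lit 78) (nat_lit 0) (nat_lit 0) (XT.lf (nat_lit 0) (nat_lit 6256859293) (nat_lit 76) (nat_lit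 192100672828) (nat_lit 76) (nat_lit 187086824550) (nat_lit 1) (nat_lit 4) (nat_lit 2) (nat_lit 5) (nat_lit 2) (nat_lit 4) (nat_lit 380) (nat_lit 231) (nat_lit 169)) (XT.lf (nat_lit 0) (nat_lit 11211484354) (nat_lit 76) (nat_lit 199205126804) (nat_lit 76) (nat_lit 194179093311) (nat_lit 1) (nat_lit 4) (nat_lit 2) (nat_lit 5) (nat_lit 2) (nat_lit 4) (nat_lit 381) (nat_lit 231) (nat_lit 168))) (XT.nd (nat_lit 78) (nat_lit 0) (nat_lit 0) (XT.lf (nat_lit 0) (nat_lit 16394700005) (nat_lit 76) (nat_lit 206674028263) (nat_lit 76) (nat_lit 201636389804) (nat_lit 1) (nat_lit 4) (nat_lit 2) (nat_lit 5) (nat_lit 2) (nat_lit 4) (nat_lit 382) (nat_lit 231) (nat_lit 167)) (XT.nd (nat_lit 78) (nat_lit 0) (nat_lit 0) (XT.lf (nat_lit 0) (nat_lit 21818847236) (nat_lit 76) (nat_lit 214525160304) (nat_lit 76) (nat_lit 209476469496) (nat_lit 1) (nat_lit 4) (nat_lit 2) (nat_lit 5) (nat_lit 2) (nat_lit 4) (nat_lit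 383) (nat_lit 231) (nat_lit 166)) (XT.lf (nat_lit 0) (nat_lit 27496840682) (nat_lit 76) (nat_lit 222777216098) (nat_lit 76) (nat_lit 217717999245) (nat_lit 1) (nat_lit 4) (nat_lit 2) (nat_lit 5) (nat_lit 2) (nat_lit 4) (nat_lit 384) (nat_lit 231) (nat_lit 165))))) (XT.nd (nat_lit 234) (nat_lit 0) (nat_lit 0) (XT.nd (nat_lit 78) (nat_lit 0) (nat_lit 0) (XT.lf (nat_lit 0) (nat_lit 33442199376) (nat_lit 76) (nat_lit 231449843398) (nat_lit 76) (nat_lit 226380601738) (nat_lit 1) (nat_lit 4) (nat_lit 2) (nat_lit 5) (nat_lit 2) (nat_lit 4) (nat_lit 385) (nat_lit 231) (nat_lit 164)) (XT.nd (nat_lit 78) (nat_lit 0) (nat_lit 0) (XT.lf (nat_lit 0) (nat_lit 39669078933) (nat_lit 76) (nat_lit 240563691315) (nat_lit 76) (nat_lit 235484902222) (nat_lit 1) (nat_lit 4) (nat_lit 2) (nat_lit 5) (nat_lit 2) (nat_lit 4) (nat_lit 386) (nat_lit 231) (nat_lit 163)) (XT.lf (nat_lit 0) (nat_lit 46192305258) (nat_lit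 76) (nat_lit 250140459489) (nat_lit 76) (nat_lit 245052577601) (nat_lit 1) (nat_lit 4) (nat_lit 2) (nat_lit 5) (nat_lit 2) (nat_lit 4) (nat_lit 387) (nat_lit 231) (nat_lit 162)))) (XT.nd (nat_lit 78) (nat_lit 0) (nat_lit 0) (XT.lf (nat_lit 0) (nat_lit 53027409842) (nat_lit 76) (nat_lit 260202949748) (nat_lit 76) (nat_lit 255106408055) (nat_lit 1) (nat_lit 4) (nat_lit 2) (nat_lit 5) (nat_lit 2) (nat_lit 4) (nat_lit 388) (nat_lit 231) (nat_lit 161)) (XT.nd (nat_lit 78) (nat_lit 0) (nat_lit 0) (XT.lf (nat_lit 0) (nat_lit 60190666743) (nat_lit 76) (nat_lit 270775120401) (nat_lit 76) (nat_lit 265670331276) (nat_lit 1) (nat_lit 4) (nat_lit 2) (nat_lit 5) (nat_lit 2) (nat_lit 4) (nat_lit 389) (nat_lit 231) (nat_lit 160)) (XT.lf (nat_lit 0) (nat_lit 67699131335) (nat_lit 76) (nat_lit 281882143284) (nat_lit 76) (nat_lit 276769499462) (nat_lit 1) (nat_lit 4) (nat_lit 2) (nat_lit 5) (nat_lit 2)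 (nat_lit 4) (nat_lit 390) (nat_lit 231) (nat_lit 159))))))))
noncomputable def xc36 : XT := (XT.nd (nat_lit 36192) (nat_lit 0) (nat_lit 76) (XT.nd (nat_lit 35412) (nat_lit 0) (nat_lit 304) (XT.nd (nat_lit 35022) (nat_lit 0) (nat_lit 532) (XT.nd (nat_lit 34788) (nat_lit 0) (nat_lit 760) (XT.nd (nat_lit 78) (nat_lit 0) (nat_lit 0) (XT.lf (nat_lit 0) (nat_lit 75570680914) (nat_lit 76) (nat_lit 293550463690) (nat_lit 76) (nat_lit 288430339203) (nat_lit 1) (nat_lit 4) (nat_lit 2) (nat_lit 5) (nat_lit 2) (nat_lit 4) (nat_lit 391) (nat_lit 231) (nat_lit 158)) (XT.lf (nat_lit 0) (nat_lit 83824057265) (nat_lit 76) (nat_lit 305807863334) (nat_lit 76) (nat_lit 300680614405) (nat_lit 1) (nat_lit 4) (nat_lit 2) (nat_lit 5) (nat_lit 2) (nat_lit 4) (nat_lit 392) (nat_lit 231) (nat_lit 157))) (XT.nd (nat_lit 78) (nat_lit 152) (nat_lit 0) (XT.lf (nat_lit 0) (nat_lit 5750998884) (nat_lit 76) (nat_lit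 2302436408) (nat_lit 76) (nat_lit 2302436408) (nat_lit 13) (nat_lit 4) (nat_lit 14) (nat_lit 5) (nat_lit 14) (nat_lit 4) (nat_lit 316) (nat_lit 232) (nat_lit 232)) (XT.nd (nat_lit 78) (nat_lit 152) (nat_lit 0) (XT.lf (nat_lit 0) (nat_lit 20810951477) (nat_lit 76) (nat_lit 508639283) (nat_lit 76) (nat_lit 188369322) (nat_lit 13) (nat_lit 4) (nat_lit 14) (nat_lit 5) (nat_lit 14) (nat_lit 4) (nat_lit 317) (nat_lit 232) (nat_lit 231)) (XT.lf (nat_lit 0) (nat_lit 4342391855) (nat_lit 152) (nat_lit 14249518405) (nat_lit 0) (nat_lit 3746878551) (nat_lit 11) (nat_lit 5) (nat_lit 13) (nat_lit 4) (nat_lit 11) (nat_lit 4) (nat_lit 318) (nat_lit 232) (nat_lit 230))))) (XT.nd (nat_lit 156) (nat_lit 152) (nat_lit 0) (XT.nd (nat_lit 78) (nat_lit 76) (nat_lit 0) (XT.lf (nat_lit 0) (nat_lit 8962756267) (nat_lit 152) (nat_lit 6164259280) (nat_lit 0) (nat_lit 8090581729) (nat_lit 11) (nat_lit 5) (nat_lit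 13) (nat_lit 4) (nat_lit 11) (nat_lit 4) (nat_lit 319) (nat_lit 232) (nat_lit 229)) (XT.lf (nat_lit 0) (nat_lit 2125548321) (nat_lit 76) (nat_lit 11578023562) (nat_lit 76) (nat_lit 10442362135) (nat_lit 10) (nat_lit 4) (nat_lit 11) (nat_lit 5) (nat_lit 11) (nat_lit 4) (nat_lit 320) (nat_lit 232) (nat_lit 228))) (XT.nd (nat_lit 78) (nat_lit 152) (nat_lit 0) (XT.lf (nat_lit 0) (nat_lit 10780428639) (nat_lit 76) (nat_lit 7864374114) (nat_lit 76) (nat_lit 6477772793) (nat_lit 10) (nat_lit 4) (nat_lit 11) (nat_lit 5) (nat_lit 11) (nat_lit 4) (nat_lit 321) (nat_lit 232) (nat_lit 227)) (XT.nd (nat_lit 78) (nat_lit 152) (nat_lit 0) (XT.lf (nat_lit 0) (nat_lit 19617170281) (nat_lit 76) (nat_lit 4081619894) (nat_lit 76) (nat_lit 2456028197) (nat_lit 10) (nat_lit 4) (nat_lit 11) (nat_lit 5) (nat_lit 11) (nat_lit 4) (nat_lit 322) (nat_lit 232) (nat_lit 226)) (XT.lf (nat_lit 0) (nat_lit 1432040037)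 (nat_lit 76) (nat_lit 170516847) (nat_lit 152) (nat_lit 25640171071) (nat_lit 8) (nat_lit 5) (nat_lit 9) (nat_lit 5) (nat_lit 10) (nat_lit 4) (nat_lit 323) (nat_lit 232) (nat_lit 225)))))) (XT.nd (nat_lit 390) (nat_lit 152) (nat_lit 0) (XT.nd (nat_lit 156) (nat_lit 76) (nat_lit 0) (XT.nd (nat_lit 78) (nat_lit 0) (nat_lit 0) (XT.lf (nat_lit 0) (nat_lit 5826175052) (nat_lit 152) (nat_lit 18699887030) (nat_lit 0) (nat_lit 3854772297) (nat_lit 8) (nat_lit 5) (nat_lit 10) (nat_lit 4) (nat_lit 8) (nat_lit 4) (nat_lit 324) (nat_lit 232) (nat_lit 224)) (XT.lf (nat_lit 0) (nat_lit 10140583770) (nat_lit 152) (nat_lit 11468763234) (nat_lit 0) (nat_lit 7972563042) (nat_lit 8) (nat_lit 5) (nat_lit 10) (nat_lit 4) (nat_lit 8) (nat_lit 4) (nat_lit 325) (nat_lit 232) (nat_lit 223))) (XT.nd (nat_lit 78) (nat_lit 76) (nat_lit 0) (XT.lf (nat_lit 0) (nat_lit 14553393195) (nat_lit 152) (nat_lit 4097437323)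 (nat_lit 0) (nat_lit 12198117253) (nat_lit 8) (nat_lit 5) (nat_lit 10) (nat_lit 4) (nat_lit 8) (nat_lit 4) (nat_lit 326) (nat_lit 232) (nat_lit 222)) (XT.nd (nat_lit 78) (nat_lit 0) (nat_lit 0) (XT.lf (nat_lit 0) (nat_lit 3545107043) (nat_lit 76) (nat_lit 15585352027) (nat_lit 76) (nat_lit 13051737788) (nat_lit 7) (nat_lit 4) (nat_lit 8) (nat_lit 5) (nat_lit 8) (nat_lit 4) (nat_lit 327) (nat_lit 232) (nat_lit 221)) (XT.lf (nat_lit 0) (nat_lit 11504619211) (nat_lit 76) (nat_lit 12391500358) (nat_lit 76) (nat_lit 9688040122) (nat_lit 7) (nat_lit 4) (nat_lit 8) (nat_lit 5) (nat_lit 8) (nat_lit 4) (nat_lit 328) (nat_lit 232) (nat_lit 220))))) (XT.nd (nat_lit 156) (nat_lit 152) (nat_lit 0) (XT.nd (nat_lit 78) (nat_lit 0) (nat_lit 0) (XT.lf (nat_lit 0) (nat_lit 19664570617) (nat_lit 76) (nat_lit 9131063187) (nat_lit 76) (nat_lit 6265844856) (nat_lit 7) (nat_lit 4) (nat_lit 8) (nat_lit 5) (nat_lit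 8) (nat_lit 4) (nat_lit 329) (nat_lit 232) (nat_lit 219)) (XT.lf (nat_lit 0) (nat_lit 28044389717) (nat_lit 76) (nat_lit 5796277566) (nat_lit 76) (nat_lit 2777003909) (nat_lit 7) (nat_lit 4) (nat_lit 8) (nat_lit 5) (nat_lit 8) (nat_lit 4) (nat_lit 330) (nat_lit 232) (nat_lit 218))) (XT.nd (nat_lit 78) (nat_lit 76) (nat_lit 0) (XT.lf (nat_lit 0) (nat_lit 761607307) (nat_lit 152) (nat_lit 1604698035) (nat_lit 76) (nat_lit 35889522965) (nat_lit 6) (nat_lit 5) (nat_lit 8) (nat_lit 5) (nat_lit 7) (nat_lit 4) (nat_lit 331) (nat_lit 232) (nat_lit 217)) (XT.nd (nat_lit 78) (nat_lit 0) (nat_lit 0) (XT.lf (nat_lit 0) (nat_lit 4400905540) (nat_lit 152) (nat_lit 34319292147) (nat_lit 0) (nat_lit 1252595313) (nat_lit 5) (nat_lit 5) (nat_lit 7) (nat_lit 4) (nat_lit 5) (nat_lit 4) (nat_lit 332) (nat_lit 232) (nat_lit 216)) (XT.lf (nat_lit 0) (nat_lit 8197299666) (nat_lit 152) (nat_lit 28657330596)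 (nat_lit 0) (nat_lit 4922247740) (nat_lit 5) (nat_lit 5) (nat_lit 7) (nat_lit 4) (nat_lit 5) (nat_lit 4) (nat_lit 333) (nat_lit 232) (nat_lit 215))))))) (XT.nd (nat_lit 780) (nat_lit 152) (nat_lit 0) (XT.nd (nat_lit 390) (nat_lit 0) (nat_lit 0) (XT.nd (nat_lit 156) (nat_lit 76) (nat_lit 0) (XT.nd (nat_lit 78) (nat_lit 0) (nat_lit 0) (XT.lf (nat_lit 0) (nat_lit 12096577534) (nat_lit 152) (nat_lit 22878144547) (nat_lit 0) (nat_lit 8700819229) (nat_lit 5) (nat_lit 5) (nat_lit 7) (nat_lit 4) (nat_lit 5) (nat_lit 4) (nat_lit 334) (nat_lit 232) (nat_lit 214)) (XT.lf (nat_lit 0) (nat_lit 16108023141) (nat_lit 152) (nat_lit 16967974035) (nat_lit 0) (nat_lit 12597306379) (nat_lit 5) (nat_lit 5) (nat_lit 7) (nat_lit 4) (nat_lit 5) (nat_lit 4) (nat_lit 335) (nat_lit 232) (nat_lit 213))) (XT.nd (nat_lit 78) (nat_lit 76) (nat_lit 0) (XT.lf (nat_lit 0) (nat_lit 20241187547) (nat_lit 152) (nat_lit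 10912747224) (nat_lit 0) (nat_lit 16620986540) (nat_lit 5) (nat_lit 5) (nat_lit 7) (nat_lit 4) (nat_lit 5) (nat_lit 4) (nat_lit 336) (nat_lit 232) (nat_lit 212)) (XT.nd (nat_lit 78) (nat_lit 76) (nat_lit 0) (XT.lf (nat_lit 0) (nat_lit 24505911619) (nat_lit 152) (nat_lit 4698046908) (nat_lit 0) (nat_lit 20781439903) (nat_lit 5) (nat_lit 5) (nat_lit 7) (nat_lit 4) (nat_lit 5) (nat_lit 4) (nat_lit 337) (nat_lit 232) (nat_lit 211)) (XT.lf (nat_lit 0) (nat_lit 1746833395) (nat_lit 76) (nat_lit 27192789032) (nat_lit 76) (nat_lit 23369011878) (nat_lit 4) (nat_lit 4) (nat_lit 5) (nat_lit 5) (nat_lit 5) (nat_lit 4) (nat_lit 338) (nat_lit 232) (nat_lit 210))))) (XT.nd (nat_lit 156) (nat_lit 0) (nat_lit 0) (XT.nd (nat_lit 78) (nat_lit 0) (nat_lit 0) (XT.lf (nat_lit 0) (nat_lit 8542799732) (nat_lit 76) (nat_lit 25061569909) (nat_lit 76) (nat_lit 21143216149) (nat_lit 4) (nat_lit 4) (nat_lit 5) (nat_lit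 5) (nat_lit 5) (nat_lit 4) (nat_lit 339) (nat_lit 232) (nat_lit 209)) (XT.lf (nat_lit 0) (nat_lit 15550694325) (nat_lit 76) (nat_lit 22884790526) (nat_lit 76) (nat_lit 18876363807) (nat_lit 4) (nat_lit 4) (nat_lit 5) (nat_lit 5) (nat_lit 5) (nat_lit 4) (nat_lit 340) (nat_lit 232) (nat_lit 208))) (XT.nd (nat_lit 78) (nat_lit 0) (nat_lit 0) (XT.lf (nat_lit 0) (nat_lit 22787202638) (nat_lit 76) (nat_lit 20657268075) (nat_lit 76) (nat_lit 16563057585) (nat_lit 4) (nat_lit 4) (nat_lit 5) (nat_lit 5) (nat_lit 5) (nat_lit 4) (nat_lit 341) (nat_lit 232) (nat_lit 207)) (XT.nd (nat_lit 78) (nat_lit 0) (nat_lit 0) (XT.lf (nat_lit 0) (nat_lit 30269554453) (nat_lit 76) (nat_lit 18373698931) (nat_lit 76) (nat_lit 14197789612) (nat_lit 4) (nat_lit 4) (nat_lit 5) (nat_lit 5) (nat_lit 5) (nat_lit 4) (nat_lit 342) (nat_lit 232) (nat_lit 206)) (XT.lf (nat_lit 0) (nat_lit 38015564893) (nat_lit 76) (nat_lit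 16028646023) (nat_lit 76) (nat_lit 11774928296) (nat_lit 4) (nat_lit 4) (nat_lit 5) (nat_lit 5) (nat_lit 5) (nat_lit 4) (nat_lit 343) (nat_lit 232) (nat_lit 205)))))) (XT.nd (nat_lit 390) (nat_lit 76) (nat_lit 0) (XT.nd (nat_lit 156) (nat_lit 76) (nat_lit 0) (XT.nd (nat_lit 78) (nat_lit 0) (nat_lit 0) (XT.lf (nat_lit 0) (nat_lit 46043676840) (nat_lit 76) (nat_lit 13616525895) (nat_lit 76) (nat_lit 9288704921) (nat_lit 4) (nat_lit 4) (nat_lit 5) (nat_lit 5) (nat_lit 5) (nat_lit 4) (nat_lit 344) (nat_lit 232) (nat_lit 204)) (XT.lf (nat_lit 0) (nat_lit 54373004846) (nat_lit 76) (nat_lit 11131595401) (nat_lit 76) (nat_lit 6733199907) (nat_lit 4) (nat_lit 4) (nat_lit 5) (nat_lit 5) (nat_lit 5) (nat_lit 4) (nat_lit 345) (nat_lit 232) (nat_lit 203))) (XT.nd (nat_lit 78) (nat_lit 76) (nat_lit 0) (XT.lf (nat_lit 0) (nat_lit 63023380645) (nat_lit 76) (nat_lit 8567938040) (nat_lit 76) (nat_lit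 4102328718) (nat_lit 4) (nat_lit 4) (nat_lit 5) (nat_lit 5) (nat_lit 5) (nat_lit 4) (nat_lit 346) (nat_lit 232) (nat_lit 202)) (XT.nd (nat_lit 78) (nat_lit 76) (nat_lit 0) (XT.lf (nat_lit 0) (nat_lit 72015400370) (nat_lit 76) (nat_lit 5919449868) (nat_lit 76) (nat_lit 1389827375) (nat_lit 4) (nat_lit 4) (nat_lit 5) (nat_lit 5) (nat_lit 5) (nat_lit 4) (nat_lit 347) (nat_lit 232) (nat_lit 201)) (XT.lf (nat_lit 0) (nat_lit 1365609248) (nat_lit 152) (nat_lit 1791088456) (nat_lit 76) (nat_lit 79981737088) (nat_lit 3) (nat_lit 5) (nat_lit 5) (nat_lit 5) (nat_lit 4) (nat_lit 4) (nat_lit 348) (nat_lit 232) (nat_lit 200))))) (XT.nd (nat_lit 234) (nat_lit 0) (nat_lit 0) (XT.nd (nat_lit 78) (nat_lit 0) (nat_lit 0) (XT.lf (nat_lit 0) (nat_lit 4025168560) (nat_lit 76) (nat_lit 205962078) (nat_lit 152) (nat_lit 82909671467) (nat_lit 2) (nat_lit 5) (nat_lit 3) (nat_lit 5) (nat_lit 4) (nat_lit 4) (nat_lit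 349) (nat_lit 232) (nat_lit 199)) (XT.nd (nat_lit 78) (nat_lit 0) (nat_lit 0) (XT.lf (nat_lit 0) (nat_lit 7272272875) (nat_lit 152) (nat_lit 81277085482) (nat_lit 0) (nat_lit 2792324081) (nat_lit 2) (nat_lit 5) (nat_lit 4) (nat_lit 4) (nat_lit 2) (nat_lit 4) (nat_lit 350) (nat_lit 232) (nat_lit 198)) (XT.lf (nat_lit 0) (nat_lit 10427284361) (nat_lit 152) (nat_lit 79430063573) (nat_lit 0) (nat_lit 5897179573) (nat_lit 2) (nat_lit 5) (nat_lit 4) (nat_lit 4) (nat_lit 2) (nat_lit 4) (nat_lit 351) (nat_lit 232) (nat_lit 197)))) (XT.nd (nat_lit 78) (nat_lit 0) (nat_lit 0) (XT.lf (nat_lit 0) (nat_lit 13700461383) (nat_lit 152) (nat_lit 77566954504) (nat_lit 0) (nat_lit 9122588982) (nat_lit 2) (nat_lit 5) (nat_lit 4) (nat_lit 4) (nat_lit 2) (nat_lit 4) (nat_lit 352) (nat_lit 232) (nat_lit 196)) (XT.nd (nat_lit 78) (nat_lit 0) (nat_lit 0) (XT.lf (nat_lit 0) (nat_lit 17099597220) (nat_lit 152)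 (nat_lit 75683322301) (nat_lit 0) (nat_lit 12476231855) (nat_lit 2) (nat_lit 5) (nat_lit 4) (nat_lit 4) (nat_lit 2) (nat_lit 4) (nat_lit 353) (nat_lit 232) (nat_lit 195)) (XT.lf (nat_lit 0) (nat_lit 20632785053) (nat_lit 152) (nat_lit 73774682124) (nat_lit 0) (nat_lit 15966093054) (nat_lit 2) (nat_lit 5) (nat_lit 4) (nat_lit 4) (nat_lit 2) (nat_lit 4) (nat_lit 354) (nat_lit 232) (nat_lit 194))))))))
noncomputable def xc37 : XT := (XT.nd (nat_lit 1638) (nat_lit 76) (nat_lit 0) (XT.nd (nat_lit 780) (nat_lit 0) (nat_lit 0) (XT.nd (nat_lit 390) (nat_lit 0) (nat_lit 0) (XT.nd (nat_lit 156) (nat_lit 0) (nat_lit 0) (XT.nd (nat_lit 78) (nat_lit 0) (nat_lit 0) (XT.lf (nat_lit 0) (nat_lit 24308437233) (nat_lit 152) (nat_lit 71836489593) (nat_lit 0) (nat_lit 19600481774) (nat_lit 2) (nat_lit 5) (nat_lit 4) (nat_lit 4) (nat_lit 2) (nat_lit 4) (nat_lit 355) (nat_lit 232) (nat_lit 193)) (XT.lf (nat_lit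 0) (nat_lit 28135305314) (nat_lit 152) (nat_lit 69864129964) (nat_lit 0) (nat_lit 23388051321) (nat_lit 2) (nat_lit 5) (nat_lit 4) (nat_lit 4) (nat_lit 2) (nat_lit 4) (nat_lit 356) (nat_lit 232) (nat_lit 192))) (XT.nd (nat_lit 78) (nat_lit 0) (nat_lit 0) (XT.lf (nat_lit 0) (nat_lit 32122500886) (nat_lit 152) (nat_lit 67852907142) (nat_lit 0) (nat_lit 27337819718) (nat_lit 2) (nat_lit 5) (nat_lit 4) (nat_lit 4) (nat_lit 2) (nat_lit 4) (nat_lit 357) (nat_lit 232) (nat_lit 191)) (XT.nd (nat_lit 78) (nat_lit 0) (nat_lit 0) (XT.lf (nat_lit 0) (nat_lit 36279517272) (nat_lit 152) (nat_lit 65798032500) (nat_lit 0) (nat_lit 31459191175) (nat_lit 2) (nat_lit 5) (nat_lit 4) (nat_lit 4) (nat_lit 2) (nat_lit 4) (nat_lit 358) (nat_lit 232) (nat_lit 190)) (XT.lf (nat_lit 0) (nat_lit 40616252129) (nat_lit 152) (nat_lit 63694613482) (nat_lit 0) (nat_lit 35761978482) (nat_lit 2) (nat_lit 5) (nat_lit 4)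 (nat_lit 4) (nat_lit 2) (nat_lit 4) (nat_lit 359) (nat_lit 232) (nat_lit 189))))) (XT.nd (nat_lit 156) (nat_lit 0) (nat_lit 0) (XT.nd (nat_lit 78) (nat_lit 0) (nat_lit 0) (XT.lf (nat_lit 0) (nat_lit 45143031018) (nat_lit 152) (nat_lit 61537641946) (nat_lit 0) (nat_lit 40256426370) (nat_lit 2) (nat_lit 5) (nat_lit 4) (nat_lit 4) (nat_lit 2) (nat_lit 4) (nat_lit 360) (nat_lit 232) (nat_lit 188)) (XT.lf (nat_lit 0) (nat_lit 49870631983) (nat_lit 152) (nat_lit 59321982245) (nat_lit 0) (nat_lit 44953235905) (nat_lit 2) (nat_lit 5) (nat_lit 4) (nat_lit 4) (nat_lit 2) (nat_lit 4) (nat_lit 361) (nat_lit 232) (nat_lit 187))) (XT.nd (nat_lit 78) (nat_lit 0) (nat_lit 0) (XT.lf (nat_lit 0) (nat_lit 54810311216) (nat_lit 152) (nat_lit 57042359000) (nat_lit 0) (nat_lit 49863589968) (nat_lit 2) (nat_lit 5) (nat_lit 4) (nat_lit 4) (nat_lit 2) (nat_lit 4) (nat_lit 362) (nat_lit 232) (nat_lit 186)) (XT.nd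 (nat_lit 78) (nat_lit 0) (nat_lit 0) (XT.lf (nat_lit 0) (nat_lit 59973829860) (nat_lit 152) (nat_lit 54693344536) (nat_lit 0) (nat_lit 54999179877) (nat_lit 2) (nat_lit 5) (nat_lit 4) (nat_lit 4) (nat_lit 2) (nat_lit 4) (nat_lit 363) (nat_lit 232) (nat_lit 185)) (XT.lf (nat_lit 0) (nat_lit 65373482005) (nat_lit 152) (nat_lit 52269345961) (nat_lit 0) (nat_lit 60372233228) (nat_lit 2) (nat_lit 5) (nat_lit 4) (nat_lit 4) (nat_lit 2) (nat_lit 4) (nat_lit 364) (nat_lit 232) (nat_lit 184)))))) (XT.nd (nat_lit 390) (nat_lit 0) (nat_lit 0) (XT.nd (nat_lit 156) (nat_lit 0) (nat_lit 0) (XT.nd (nat_lit 78) (nat_lit 0) (nat_lit 0) (XT.lf (nat_lit 0) (nat_lit 71022123967) (nat_lit 152) (nat_lit 49764591850) (nat_lit 0) (nat_lit 65995543005) (nat_lit 2) (nat_lit 5) (nat_lit 4) (nat_lit 4) (nat_lit 2) (nat_lit 4) (nat_lit 365) (nat_lit 232) (nat_lit 183)) (XT.lf (nat_lit 0) (nat_lit 76933204893) (nat_lit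 152) (nat_lit 47173118503) (nat_lit 0) (nat_lit 71882498040) (nat_lit 2) (nat_lit 5) (nat_lit 4) (nat_lit 4) (nat_lit 2) (nat_lit 4) (nat_lit 366) (nat_lit 232) (nat_lit 182))) (XT.nd (nat_lit 78) (nat_lit 0) (nat_lit 0) (XT.lf (nat_lit 0) (nat_lit 83120798785) (nat_lit 152) (nat_lit 44488755746) (nat_lit 0) (nat_lit 78047114894) (nat_lit 2) (nat_lit 5) (nat_lit 4) (nat_lit 4) (nat_lit 2) (nat_lit 4) (nat_lit 367) (nat_lit 232) (nat_lit 181)) (XT.nd (nat_lit 78) (nat_lit 0) (nat_lit 0) (XT.lf (nat_lit 0) (nat_lit 89599638010) (nat_lit 152) (nat_lit 41705112238) (nat_lit 0) (nat_lit 84504071224) (nat_lit 2) (nat_lit 5) (nat_lit 4) (nat_lit 4) (nat_lit 2) (nat_lit 4) (nat_lit 368) (nat_lit 232) (nat_lit 180)) (XT.lf (nat_lit 0) (nat_lit 96385148375) (nat_lit 152) (nat_lit 38815560257) (nat_lit 0) (nat_lit 91268740738) (nat_lit 2) (nat_lit 5) (nat_lit 4) (nat_lit 4) (nat_lit 2) (nat_lit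 4) (nat_lit 369) (nat_lit 232) (nat_lit 179))))) (XT.nd (nat_lit 234) (nat_lit 0) (nat_lit 0) (XT.nd (nat_lit 78) (nat_lit 0) (nat_lit 0) (XT.lf (nat_lit 0) (nat_lit 103493485858) (nat_lit 152) (nat_lit 35813219917) (nat_lit 0) (nat_lit 98357229791) (nat_lit 2) (nat_lit 5) (nat_lit 4) (nat_lit 4) (nat_lit 2) (nat_lit 4) (nat_lit 370) (nat_lit 232) (nat_lit 178)) (XT.nd (nat_lit 78) (nat_lit 0) (nat_lit 0) (XT.lf (nat_lit 0) (nat_lit 110941575071) (nat_lit 152) (nat_lit 32690942788) (nat_lit 0) (nat_lit 105786415737) (nat_lit 2) (nat_lit 5) (nat_lit 4) (nat_lit 4) (nat_lit 2) (nat_lit 4) (nat_lit 371) (nat_lit 232) (nat_lit 177)) (XT.lf (nat_lit 0) (nat_lit 118747149560) (nat_lit 152) (nat_lit 29441294879) (nat_lit 0) (nat_lit 113573987115) (nat_lit 2) (nat_lit 5) (nat_lit 4) (nat_lit 4) (nat_lit 2) (nat_lit 4) (nat_lit 372) (nat_lit 232) (nat_lit 176)))) (XT.nd (nat_lit 78) (nat_lit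 0) (nat_lit 0) (XT.lf (nat_lit 0) (nat_lit 126928794026) (nat_lit 152) (nat_lit 26056538930) (nat_lit 0) (nat_lit 121738485762) (nat_lit 2) (nat_lit 5) (nat_lit 4) (nat_lit 4) (nat_lit 2) (nat_lit 4) (nat_lit 373) (nat_lit 232) (nat_lit 175)) (XT.nd (nat_lit 78) (nat_lit 0) (nat_lit 0) (XT.lf (nat_lit 0) (nat_lit 135505988576) (nat_lit 152) (nat_lit 22528616001) (nat_lit 0) (nat_lit 130299350959) (nat_lit 2) (nat_lit 5) (nat_lit 4) (nat_lit 4) (nat_lit 2) (nat_lit 4) (nat_lit 374) (nat_lit 232) (nat_lit 174)) (XT.lf (nat_lit 0) (nat_lit 144499155101) (nat_lit 152) (nat_lit 18849126274) (nat_lit 0) (nat_lit 139276965719) (nat_lit 2) (nat_lit 5) (nat_lit 4) (nat_lit 4) (nat_lit 2) (nat_lit 4) (nat_lit 375) (nat_lit 232) (nat_lit 173))))))) (XT.nd (nat_lit 780) (nat_lit 0) (nat_lit 0) (XT.nd (nat_lit 390) (nat_lit 0) (nat_lit 0) (XT.nd (nat_lit 156) (nat_lit 76) (nat_lit 0) (XT.nd (nat_lit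 78) (nat_lit 0) (nat_lit 0) (XT.lf (nat_lit 0) (nat_lit 153929705902) (nat_lit 152) (nat_lit 15009309060) (nat_lit 0) (nat_lit 148692705316) (nat_lit 2) (nat_lit 5) (nat_lit 4) (nat_lit 4) (nat_lit 2) (nat_lit 4) (nat_lit 376) (nat_lit 232) (nat_lit 172)) (XT.lf (nat_lit 0) (nat_lit 163820094671) (nat_lit 152) (nat_lit 11000021937) (nat_lit 0) (nat_lit 158568988178) (nat_lit 2) (nat_lit 5) (nat_lit 4) (nat_lit 4) (nat_lit 2) (nat_lit 4) (nat_lit 377) (nat_lit 232) (nat_lit 171))) (XT.nd (nat_lit 78) (nat_lit 76) (nat_lit 0) (XT.lf (nat_lit 0) (nat_lit 174193869954) (nat_lit 152) (nat_lit 6811718982) (nat_lit 0) (nat_lit 168929329262) (nat_lit 2) (nat_lit 5) (nat_lit 4) (nat_lit 4) (nat_lit 2) (nat_lit 4) (nat_lit 378) (nat_lit 232) (nat_lit 170)) (XT.nd (nat_lit 78) (nat_lit 76) (nat_lit 0) (XT.lf (nat_lit 0) (nat_lit 185075731216) (nat_lit 152) (nat_lit 2434428047) (nat_lit 0) (nat_lit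 179798396048) (nat_lit 2) (nat_lit 5) (nat_lit 4) (nat_lit 4) (nat_lit 2) (nat_lit 4) (nat_lit 379) (nat_lit 232) (nat_lit 169)) (XT.lf (nat_lit 0) (nat_lit 2213106210) (nat_lit 76) (nat_lit 194313034228) (nat_lit 76) (nat_lit 189023513847) (nat_lit 1) (nat_lit 4) (nat_lit 2) (nat_lit 5) (nat_lit 2) (nat_lit 4) (nat_lit 380) (nat_lit 232) (nat_lit 168))))) (XT.nd (nat_lit 156) (nat_lit 0) (nat_lit 0) (XT.nd (nat_lit 78) (nat_lit 0) (nat_lit 0) (XT.lf (nat_lit 0) (nat_lit 7158394362) (nat_lit 76) (nat_lit 201421988099) (nat_lit 76) (nat_lit 196120862751) (nat_lit 1) (nat_lit 4) (nat_lit 2) (nat_lit 5) (nat_lit 2) (nat_lit 4) (nat_lit 381) (nat_lit 232) (nat_lit 167)) (XT.lf (nat_lit 0) (nat_lit 12332717719) (nat_lit 76) (nat_lit 208895175172) (nat_lit 76) (nat_lit 203582997476) (nat_lit 1) (nat_lit 4) (nat_lit 2) (nat_lit 5) (nat_lit 2) (nat_lit 4) (nat_lit 382) (nat_lit 232) (nat_lit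 166))) (XT.nd (nat_lit 78) (nat_lit 0) (nat_lit 0) (XT.lf (nat_lit 0) (nat_lit 17748396098) (nat_lit 76) (nat_lit 216750388750) (nat_lit 76) (nat_lit 211427685008) (nat_lit 1) (nat_lit 4) (nat_lit 2) (nat_lit 5) (nat_lit 2) (nat_lit 4) (nat_lit 383) (nat_lit 232) (nat_lit 165)) (XT.nd (nat_lit 78) (nat_lit 0) (nat_lit 0) (XT.lf (nat_lit 0) (nat_lit 23418323971) (nat_lit 76) (nat_lit 225006331723) (nat_lit 76) (nat_lit 219673603175) (nat_lit 1) (nat_lit 4) (nat_lit 2) (nat_lit 5) (nat_lit 2) (nat_lit 4) (nat_lit 384) (nat_lit 232) (nat_lit 164)) (XT.lf (nat_lit 0) (nat_lit 29356001167) (nat_lit 76) (nat_lit 233682661097) (nat_lit 76) (nat_lit 228340385115) (nat_lit 1) (nat_lit 4) (nat_lit 2) (nat_lit 5) (nat_lit 2) (nat_lit 4) (nat_lit 385) (nat_lit 232) (nat_lit 163)))))) (XT.nd (nat_lit 390) (nat_lit 0) (nat_lit 0) (XT.nd (nat_lit 156) (nat_lit 0) (nat_lit 0) (XT.nd (nat_lit 78) (nat_lit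 0) (nat_lit 0) (XT.lf (nat_lit 0) (nat_lit 35575565012) (nat_lit 76) (nat_lit 242800034800) (nat_lit 76) (nat_lit 237448666024) (nat_lit 1) (nat_lit 4) (nat_lit 2) (nat_lit 5) (nat_lit 2) (nat_lit 4) (nat_lit 386) (nat_lit 232) (nat_lit 162)) (XT.lf (nat_lit 0) (nat_lit 42091823992) (nat_lit 76) (nat_lit 252380160865) (nat_lit 76) (nat_lit 247020132284) (nat_lit 1) (nat_lit 4) (nat_lit 2) (nat_lit 5) (nat_lit 2) (nat_lit 4) (nat_lit 387) (nat_lit 232) (nat_lit 161))) (XT.nd (nat_lit 78) (nat_lit 0) (nat_lit 0) (XT.lf (nat_lit 0) (nat_lit 48920293009) (nat_lit 76) (nat_lit 262445849114) (nat_lit 76) (nat_lit 257077573101) (nat_lit 1) (nat_lit 4) (nat_lit 2) (nat_lit 5) (nat_lit 2) (nat_lit 4) (nat_lit 388) (nat_lit 232) (nat_lit 160)) (XT.nd (nat_lit 78) (nat_lit 0) (nat_lit 0) (XT.lf (nat_lit 0) (nat_lit 56077230322) (nat_lit 76) (nat_lit 273021065474) (nat_lit 76) (nat_lit 267644934763)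 (nat_lit 1) (nat_lit 4) (nat_lit 2) (nat_lit 5) (nat_lit 2) (nat_lit 4) (nat_lit 389) (nat_lit 232) (nat_lit 159)) (XT.lf (nat_lit 0) (nat_lit 63579676259) (nat_lit 76) (nat_lit 284130989030) (nat_lit 76) (nat_lit 278747377654) (nat_lit 1) (nat_lit 4) (nat_lit 2) (nat_lit 5) (nat_lit 2) (nat_lit 4) (nat_lit 390) (nat_lit 232) (nat_lit 158))))) (XT.nd (nat_lit 34710) (nat_lit 0) (nat_lit 912) (XT.nd (nat_lit 78) (nat_lit 0) (nat_lit 0) (XT.lf (nat_lit 0) (nat_lit 71445493786) (nat_lit 76) (nat_lit 295802071981) (nat_lit 76) (nat_lit 290411336162) (nat_lit 1) (nat_lit 4) (nat_lit 2) (nat_lit 5) (nat_lit 2) (nat_lit 4) (nat_lit 391) (nat_lit 232) (nat_lit 157)) (XT.nd (nat_lit 34554) (nat_lit 0) (nat_lit 988) (XT.lf (nat_lit 0) (nat_lit 79693411041) (nat_lit 76) (nat_lit 308062102620) (nat_lit 76) (nat_lit 302664581618) (nat_lit 1) (nat_lit 4) (nat_lit 2) (nat_lit 5) (nat_lit 2) (nat_lit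 4) (nat_lit 392) (nat_lit 232) (nat_lit 156)) (XT.lf (nat_lit 0) (nat_lit 3241831753) (nat_lit 152) (nat_lit 3138718888) (nat_lit 0) (nat_lit 3241831753) (nat_lit 14) (nat_lit 5) (nat_lit 16) (nat_lit 4) (nat_lit 14) (nat_lit 4) (nat_lit 314) (nat_lit 233) (nat_lit 233)))) (XT.nd (nat_lit 78) (nat_lit 0) (nat_lit 0) (XT.lf (nat_lit 0) (nat_lit 2361298380) (nat_lit 76) (nat_lit 8967982332) (nat_lit 76) (nat_lit 8631698874) (nat_lit 13) (nat_lit 4) (nat_lit 14) (nat_lit 5) (nat_lit 14) (nat_lit 4) (nat_lit 315) (nat_lit 233) (nat_lit 232)) (XT.nd (nat_lit 78) (nat_lit 0) (nat_lit 0) (XT.lf (nat_lit 0) (nat_lit 11361129159) (nat_lit 76) (nat_lit 5005514239) (nat_lit 76) (nat_lit 4348960820) (nat_lit 13) (nat_lit 4) (nat_lit 14) (nat_lit 5) (nat_lit 14) (nat_lit 4) (nat_lit 316) (nat_lit 233) (nat_lit 231)) (XT.lf (nat_lit 0) (nat_lit 20535922286) (nat_lit 76) (nat_lit 970574002) (nat_lit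 76) (nat_lit 9001574) (nat_lit 13) (nat_lit 4) (nat_lit 14) (nat_lit 5) (nat_lit 14) (nat_lit 4) (nat_lit 317) (nat_lit 233) (nat_lit 230))))))))
noncomputable def xc38 : XT := (XT.nd (nat_lit 1560) (nat_lit 228) (nat_lit 0) (XT.nd (nat_lit 780) (nat_lit 152) (nat_lit 0) (XT.nd (nat_lit 390) (nat_lit 228) (nat_lit 0) (XT.nd (nat_lit 156) (nat_lit 76) (nat_lit 0) (XT.nd (nat_lit 78) (nat_lit 0) (nat_lit 0) (XT.lf (nat_lit 0) (nat_lit 4430544901) (nat_lit 152) (nat_lit 14681845434) (nat_lit 0) (nat_lit 3238100403) (nat_lit 11) (nat_lit 5) (nat_lit 13) (nat_lit 4) (nat_lit 11) (nat_lit 4) (nat_lit 318) (nat_lit 233) (nat_lit 229)) (XT.lf (nat_lit 0) (nat_lit 8980786005) (nat_lit 152) (nat_lit 6727193773) (nat_lit 0) (nat_lit 7524854618) (nat_lit 11) (nat_lit 5) (nat_lit 13) (nat_lit 4) (nat_lit 11) (nat_lit 4) (nat_lit 319) (nat_lit 233) (nat_lit 228))) (XT.nd (nat_lit 78) (nat_lit 0) (nat_lit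 0) (XT.lf (nat_lit 0) (nat_lit 1415499781) (nat_lit 76) (nat_lit 12228231890) (nat_lit 76) (nat_lit 10521360609) (nat_lit 10) (nat_lit 4) (nat_lit 11) (nat_lit 5) (nat_lit 11) (nat_lit 4) (nat_lit 320) (nat_lit 233) (nat_lit 227)) (XT.nd (nat_lit 78) (nat_lit 0) (nat_lit 0) (XT.lf (nat_lit 0) (nat_lit 9947998298) (nat_lit 76) (nat_lit 8571449613) (nat_lit 76) (nat_lit 6625587956) (nat_lit 10) (nat_lit 4) (nat_lit 11) (nat_lit 5) (nat_lit 11) (nat_lit 4) (nat_lit 321) (nat_lit 233) (nat_lit 226)) (XT.lf (nat_lit 0) (nat_lit 18668185844) (nat_lit 76) (nat_lit 4842854603) (nat_lit 76) (nat_lit 2669383065) (nat_lit 10) (nat_lit 4) (nat_lit 11) (nat_lit 5) (nat_lit 11) (nat_lit 4) (nat_lit 322) (nat_lit 233) (nat_lit 225))))) (XT.nd (nat_lit 156) (nat_lit 76) (nat_lit 0) (XT.nd (nat_lit 78) (nat_lit 0) (nat_lit 0) (XT.lf (nat_lit 0) (nat_lit 311905802) (nat_lit 76) (nat_lit 1006215492) (nat_lit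 152) (nat_lit 25954296567) (nat_lit 8) (nat_lit 5) (nat_lit 9) (nat_lit 5) (nat_lit 10) (nat_lit 4) (nat_lit 323) (nat_lit 233) (nat_lit 224)) (XT.lf (nat_lit 0) (nat_lit 5468601271) (nat_lit 152) (nat_lit 19950040051) (nat_lit 0) (nat_lit 2995561533) (nat_lit 8) (nat_lit 5) (nat_lit 10) (nat_lit 4) (nat_lit 8) (nat_lit 4) (nat_lit 324) (nat_lit 233) (nat_lit 223))) (XT.nd (nat_lit 78) (nat_lit 76) (nat_lit 0) (XT.lf (nat_lit 0) (nat_lit 9725780853) (nat_lit 152) (nat_lit 12826893853) (nat_lit 0) (nat_lit 7065485902) (nat_lit 8) (nat_lit 5) (nat_lit 10) (nat_lit 4) (nat_lit 8) (nat_lit 4) (nat_lit 325) (nat_lit 233) (nat_lit 222)) (XT.nd (nat_lit 78) (nat_lit 76) (nat_lit 0) (XT.lf (nat_lit 0) (nat_lit 14084086338) (nat_lit 152) (nat_lit 5558403749) (nat_lit 0) (nat_lit 11245453089) (nat_lit 8) (nat_lit 5) (nat_lit 10) (nat_lit 4) (nat_lit 8) (nat_lit 4) (nat_lit 326) (nat_lit 233) (nat_lit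 221)) (XT.lf (nat_lit 0) (nat_lit 1934657303) (nat_lit 76) (nat_lit 16649442762) (nat_lit 76) (nat_lit 13640963516) (nat_lit 7) (nat_lit 4) (nat_lit 8) (nat_lit 5) (nat_lit 8) (nat_lit 4) (nat_lit 327) (nat_lit 233) (nat_lit 220)))))) (XT.nd (nat_lit 390) (nat_lit 0) (nat_lit 0) (XT.nd (nat_lit 156) (nat_lit 152) (nat_lit 0) (XT.nd (nat_lit 78) (nat_lit 0) (nat_lit 0) (XT.lf (nat_lit 0) (nat_lit 9797810266) (nat_lit 76) (nat_lit 13501009181) (nat_lit 76) (nat_lit 10330771842) (nat_lit 7) (nat_lit 4) (nat_lit 8) (nat_lit 5) (nat_lit 8) (nat_lit 4) (nat_lit 328) (nat_lit 233) (nat_lit 219)) (XT.lf (nat_lit 0) (nat_lit 17865991001) (nat_lit 76) (nat_lit 10283827331) (nat_lit 76) (nat_lit 6959534665) (nat_lit 7) (nat_lit 4) (nat_lit 8) (nat_lit 5) (nat_lit 8) (nat_lit 4) (nat_lit 329) (nat_lit 233) (nat_lit 218))) (XT.nd (nat_lit 78) (nat_lit 152) (nat_lit 0) (XT.lf (nat_lit 0) (nat_lit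 26158409462) (nat_lit 76) (nat_lit 6990237255) (nat_lit 76) (nat_lit 3519225230) (nat_lit 7) (nat_lit 4) (nat_lit 8) (nat_lit 5) (nat_lit 8) (nat_lit 4) (nat_lit 330) (nat_lit 233) (nat_lit 217)) (XT.nd (nat_lit 78) (nat_lit 152) (nat_lit 0) (XT.lf (nat_lit 0) (nat_lit 34694809502) (nat_lit 76) (nat_lit 3612397072) (nat_lit 76) (nat_lit 1652324) (nat_lit 7) (nat_lit 4) (nat_lit 8) (nat_lit 5) (nat_lit 8) (nat_lit 4) (nat_lit 331) (nat_lit 233) (nat_lit 216)) (XT.lf (nat_lit 0) (nat_lit 3515585167) (nat_lit 76) (nat_lit 25589807) (nat_lit 152) (nat_lit 36489490060) (nat_lit 5) (nat_lit 5) (nat_lit 6) (nat_lit 5) (nat_lit 7) (nat_lit 4) (nat_lit 332) (nat_lit 233) (nat_lit 215))))) (XT.nd (nat_lit 156) (nat_lit 0) (nat_lit 0) (XT.nd (nat_lit 78) (nat_lit 0) (nat_lit 0) (XT.lf (nat_lit 0) (nat_lit 7294761785) (nat_lit 152) (nat_lit 30933632730) (nat_lit 0) (nat_lit 3608509184) (nat_lit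 5) (nat_lit 5) (nat_lit 7) (nat_lit 4) (nat_lit 5) (nat_lit 4) (nat_lit 333) (nat_lit 233) (nat_lit 214)) (XT.lf (nat_lit 0) (nat_lit 11153651285) (nat_lit 152) (nat_lit 25231507578) (nat_lit 0) (nat_lit 7352440228) (nat_lit 5) (nat_lit 5) (nat_lit 7) (nat_lit 4) (nat_lit 5) (nat_lit 4) (nat_lit 334) (nat_lit 233) (nat_lit 213))) (XT.nd (nat_lit 78) (nat_lit 0) (nat_lit 0) (XT.lf (nat_lit 0) (nat_lit 15126631779) (nat_lit 152) (nat_lit 19394728396) (nat_lit 0) (nat_lit 11215936477) (nat_lit 5) (nat_lit 5) (nat_lit 7) (nat_lit 4) (nat_lit 5) (nat_lit 4) (nat_lit 335) (nat_lit 233) (nat_lit 212)) (XT.nd (nat_lit 78) (nat_lit 0) (nat_lit 0) (XT.lf (nat_lit 0) (nat_lit 19223162744) (nat_lit 152) (nat_lit 13409398090) (nat_lit 0) (nat_lit 15208196732) (nat_lit 5) (nat_lit 5) (nat_lit 7) (nat_lit 4) (nat_lit 5) (nat_lit 4) (nat_lit 336) (nat_lit 233) (nat_lit 211)) (XT.lf (nat_lit 0) (nat_lit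 23452997824) (nat_lit 152) (nat_lit 7261265874) (nat_lit 0) (nat_lit 19338726376) (nat_lit 5) (nat_lit 5) (nat_lit 7) (nat_lit 4) (nat_lit 5) (nat_lit 4) (nat_lit 337) (nat_lit 233) (nat_lit 210))))))) (XT.nd (nat_lit 780) (nat_lit 152) (nat_lit 0) (XT.nd (nat_lit 390) (nat_lit 0) (nat_lit 0) (XT.nd (nat_lit 156) (nat_lit 0) (nat_lit 0) (XT.nd (nat_lit 78) (nat_lit 76) (nat_lit 0) (XT.lf (nat_lit 0) (nat_lit 27826208057) (nat_lit 152) (nat_lit 935693339) (nat_lit 0) (nat_lit 23617360002) (nat_lit 5) (nat_lit 5) (nat_lit 7) (nat_lit 4) (nat_lit 5) (nat_lit 4) (nat_lit 338) (nat_lit 233) (nat_lit 209)) (XT.lf (nat_lit 0) (nat_lit 5766959110) (nat_lit 76) (nat_lit 26676285130) (nat_lit 76) (nat_lit 22377364116) (nat_lit 4) (nat_lit 4) (nat_lit 5) (nat_lit 5) (nat_lit 5) (nat_lit 4) (nat_lit 339) (nat_lit 233) (nat_lit 208))) (XT.nd (nat_lit 78) (nat_lit 0) (nat_lit 0) (XT.lf (nat_lit 0)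 (nat_lit 12715448333) (nat_lit 76) (nat_lit 24527845211) (nat_lit 76) (nat_lit 20143140426) (nat_lit 4) (nat_lit 4) (nat_lit 5) (nat_lit 5) (nat_lit 5) (nat_lit 4) (nat_lit 340) (nat_lit 233) (nat_lit 207)) (XT.nd (nat_lit 78) (nat_lit 0) (nat_lit 0) (XT.lf (nat_lit 0) (nat_lit 19895380103) (nat_lit 76) (nat_lit 22327312725) (nat_lit 76) (nat_lit 17860909112) (nat_lit 4) (nat_lit 4) (nat_lit 5) (nat_lit 5) (nat_lit 5) (nat_lit 4) (nat_lit 341) (nat_lit 233) (nat_lit 206)) (XT.lf (nat_lit 0) (nat_lit 27323849496) (nat_lit 76) (nat_lit 20069448310) (nat_lit 76) (nat_lit 15525236288) (nat_lit 4) (nat_lit 4) (nat_lit 5) (nat_lit 5) (nat_lit 5) (nat_lit 4) (nat_lit 342) (nat_lit 233) (nat_lit 205))))) (XT.nd (nat_lit 156) (nat_lit 0) (nat_lit 0) (XT.nd (nat_lit 78) (nat_lit 0) (nat_lit 0) (XT.lf (nat_lit 0) (nat_lit 35018543343) (nat_lit 76) (nat_lit 17748876097) (nat_lit 76) (nat_lit 13130560829)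 (nat_lit 4) (nat_lit 4) (nat_lit 5) (nat_lit 5) (nat_lit 5) (nat_lit 4) (nat_lit 343) (nat_lit 233) (nat_lit 204)) (XT.lf (nat_lit 0) (nat_lit 42997782344) (nat_lit 76) (nat_lit 15360070915) (nat_lit 76) (nat_lit 10671181127) (nat_lit 4) (nat_lit 4) (nat_lit 5) (nat_lit 5) (nat_lit 5) (nat_lit 4) (nat_lit 344) (nat_lit 233) (nat_lit 203))) (XT.nd (nat_lit 78) (nat_lit 0) (nat_lit 0) (XT.lf (nat_lit 0) (nat_lit 51280564688) (nat_lit 76) (nat_lit 12897345133) (nat_lit 76) (nat_lit 8141241515) (nat_lit 4) (nat_lit 4) (nat_lit 5) (nat_lit 5) (nat_lit 5) (nat_lit 4) (nat_lit 345) (nat_lit 233) (nat_lit 202)) (XT.nd (nat_lit 78) (nat_lit 0) (nat_lit 0) (XT.lf (nat_lit 0) (nat_lit 59886611285) (nat_lit 76) (nat_lit 10354835117) (nat_lit 76) (nat_lit 5534718329) (nat_lit 4) (nat_lit 4) (nat_lit 5) (nat_lit 5) (nat_lit 5) (nat_lit 4) (nat_lit 346) (nat_lit 233) (nat_lit 201)) (XT.lf (nat_lit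 0) (nat_lit 68836412722) (nat_lit 76) (nat_lit 7726487272) (nat_lit 76) (nat_lit 2845405560) (nat_lit 4) (nat_lit 4) (nat_lit 5) (nat_lit 5) (nat_lit 5) (nat_lit 4) (nat_lit 347) (nat_lit 233) (nat_lit 200)))))) (XT.nd (nat_lit 390) (nat_lit 0) (nat_lit 0) (XT.nd (nat_lit 156) (nat_lit 0) (nat_lit 0) (XT.nd (nat_lit 78) (nat_lit 152) (nat_lit 0) (XT.lf (nat_lit 0) (nat_lit 78151278049) (nat_lit 76) (nat_lit 5006043628) (nat_lit 76) (nat_lit 66900083) (nat_lit 4) (nat_lit 4) (nat_lit 5) (nat_lit 5) (nat_lit 5) (nat_lit 4) (nat_lit 348) (nat_lit 233) (nat_lit 199)) (XT.lf (nat_lit 0) (nat_lit 595618574) (nat_lit 76) (nat_lit 2131239524) (nat_lit 152) (nat_lit 84503484223) (nat_lit 2) (nat_lit 5) (nat_lit 3) (nat_lit 5) (nat_lit 4) (nat_lit 4) (nat_lit 349) (nat_lit 233) (nat_lit 198))) (XT.nd (nat_lit 78) (nat_lit 0) (nat_lit 0) (XT.lf (nat_lit 0) (nat_lit 5717666094) (nat_lit 152) (nat_lit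 84805178722) (nat_lit 0) (nat_lit 910900074) (nat_lit 2) (nat_lit 5) (nat_lit 4) (nat_lit 4) (nat_lit 2) (nat_lit 4) (nat_lit 350) (nat_lit 233) (nat_lit 197)) (XT.nd (nat_lit 78) (nat_lit 0) (nat_lit 0) (XT.lf (nat_lit 0) (nat_lit 8853367806) (nat_lit 152) (nat_lit 82995358733) (nat_lit 0) (nat_lit 3998834172) (nat_lit 2) (nat_lit 5) (nat_lit 4) (nat_lit 4) (nat_lit 2) (nat_lit 4) (nat_lit 351) (nat_lit 233) (nat_lit 196)) (XT.lf (nat_lit 0) (nat_lit 12108154566) (nat_lit 152) (nat_lit 81167680064) (nat_lit 0) (nat_lit 7208127968) (nat_lit 2) (nat_lit 5) (nat_lit 4) (nat_lit 4) (nat_lit 2) (nat_lit 4) (nat_lit 352) (nat_lit 233) (nat_lit 195))))) (XT.nd (nat_lit 234) (nat_lit 0) (nat_lit 0) (XT.nd (nat_lit 78) (nat_lit 0) (nat_lit 0) (XT.lf (nat_lit 0) (nat_lit 15489775869) (nat_lit 152) (nat_lit 79317791098) (nat_lit 0) (nat_lit 10546422637) (nat_lit 2) (nat_lit 5) (nat_lit 4) (nat_lit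 4) (nat_lit 2) (nat_lit 4) (nat_lit 353) (nat_lit 233) (nat_lit 194)) (XT.nd (nat_lit 78) (nat_lit 0) (nat_lit 0) (XT.lf (nat_lit 0) (nat_lit 19006283192) (nat_lit 152) (nat_lit 77441287338) (nat_lit 0) (nat_lit 14021666500) (nat_lit 2) (nat_lit 5) (nat_lit 4) (nat_lit 4) (nat_lit 2) (nat_lit 4) (nat_lit 354) (nat_lit 233) (nat_lit 193)) (XT.lf (nat_lit 0) (nat_lit 22666049173) (nat_lit 152) (nat_lit 75533700918) (nat_lit 0) (nat_lit 17642133947) (nat_lit 2) (nat_lit 5) (nat_lit 4) (nat_lit 4) (nat_lit 2) (nat_lit 4) (nat_lit 355) (nat_lit 233) (nat_lit 192)))) (XT.nd (nat_lit 78) (nat_lit 0) (nat_lit 0) (XT.lf (nat_lit 0) (nat_lit 26477787541) (nat_lit 152) (nat_lit 73590489966) (nat_lit 0) (nat_lit 21416445140) (nat_lit 2) (nat_lit 5) (nat_lit 4) (nat_lit 4) (nat_lit 2) (nat_lit 4) (nat_lit 356) (nat_lit 233) (nat_lit 191)) (XT.nd (nat_lit 78) (nat_lit 0) (nat_lit 0) (XT.lf (nat_lit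 0) (nat_lit 30450573861) (nat_lit 152) (nat_lit 71607027789) (nat_lit 0) (nat_lit 25353586532) (nat_lit 2) (nat_lit 5) (nat_lit 4) (nat_lit 4) (nat_lit 2) (nat_lit 4) (nat_lit 357) (nat_lit 233) (nat_lit 190)) (XT.lf (nat_lit 0) (nat_lit 34593867151) (nat_lit 152) (nat_lit 69578591858) (nat_lit 0) (nat_lit 29462932270) (nat_lit 2) (nat_lit 5) (nat_lit 4) (nat_lit 4) (nat_lit 2) (nat_lit 4) (nat_lit 358) (nat_lit 233) (nat_lit 189))))))))
noncomputable def xc39 : XT := (XT.nd (nat_lit 1638) (nat_lit 76) (nat_lit 0) (XT.nd (nat_lit 780) (nat_lit 0) (nat_lit 0) (XT.nd (nat_lit 390) (nat_lit 0) (nat_lit 0) (XT.nd (nat_lit 156) (nat_lit 0) (nat_lit 0) (XT.nd (nat_lit 78) (nat_lit 0) (nat_lit 0) (XT.lf (nat_lit 0) (nat_lit 38917532393) (nat_lit 152) (nat_lit 67500352563) (nat_lit 0) (nat_lit 33754266512) (nat_lit 2) (nat_lit 5) (nat_lit 4) (nat_lit 4) (nat_lit 2) (nat_lit 4) (nat_lit 359)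 (nat_lit 233) (nat_lit 188)) (XT.lf (nat_lit 0) (nat_lit 43431864029) (nat_lit 152) (nat_lit 65367361715) (nat_lit 0) (nat_lit 38237806718) (nat_lit 2) (nat_lit 5) (nat_lit 4) (nat_lit 4) (nat_lit 2) (nat_lit 4) (nat_lit 360) (nat_lit 233) (nat_lit 187))) (XT.nd (nat_lit 78) (nat_lit 0) (nat_lit 0) (XT.lf (nat_lit 0) (nat_lit 48147610467) (nat_lit 152) (nat_lit 63174540766) (nat_lit 0) (nat_lit 42924227985) (nat_lit 2) (nat_lit 5) (nat_lit 4) (nat_lit 4) (nat_lit 2) (nat_lit 4) (nat_lit 361) (nat_lit 233) (nat_lit 186)) (XT.nd (nat_lit 78) (nat_lit 0) (nat_lit 0) (XT.lf (nat_lit 0) (nat_lit 53075999675) (nat_lit 152) (nat_lit 60916668713) (nat_lit 0) (nat_lit 47824688460) (nat_lit 2) (nat_lit 5) (nat_lit 4) (nat_lit 4) (nat_lit 2) (nat_lit 4) (nat_lit 362) (nat_lit 233) (nat_lit 185)) (XT.lf (nat_lit 0) (nat_lit 58228765914) (nat_lit 152) (nat_lit 58588369669) (nat_lit 0) (nat_lit 52950855904)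 (nat_lit 2) (nat_lit 5) (nat_lit 4) (nat_lit 4) (nat_lit 2) (nat_lit 4) (nat_lit 363) (nat_lit 233) (nat_lit 184))))) (XT.nd (nat_lit 156) (nat_lit 0) (nat_lit 0) (XT.nd (nat_lit 78) (nat_lit 0) (nat_lit 0) (XT.lf (nat_lit 0) (nat_lit 63618177673) (nat_lit 152) (nat_lit 56184100066) (nat_lit 0) (nat_lit 58314935478) (nat_lit 2) (nat_lit 5) (nat_lit 4) (nat_lit 4) (nat_lit 2) (nat_lit 4) (nat_lit 364) (nat_lit 233) (nat_lit 183)) (XT.lf (nat_lit 0) (nat_lit 69257066887) (nat_lit 152) (nat_lit 53698135453) (nat_lit 0) (nat_lit 63929698801) (nat_lit 2) (nat_lit 5) (nat_lit 4) (nat_lit 4) (nat_lit 2) (nat_lit 4) (nat_lit 365) (nat_lit 233) (nat_lit 182))) (XT.nd (nat_lit 78) (nat_lit 0) (nat_lit 0) (XT.lf (nat_lit 0) (nat_lit 75158859481) (nat_lit 152) (nat_lit 51124556866) (nat_lit 0) (nat_lit 69808514356) (nat_lit 2) (nat_lit 5) (nat_lit 4) (nat_lit 4) (nat_lit 2) (nat_lit 4) (nat_lit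 366) (nat_lit 233) (nat_lit 181)) (XT.nd (nat_lit 78) (nat_lit 0) (nat_lit 0) (XT.lf (nat_lit 0) (nat_lit 81337607343) (nat_lit 152) (nat_lit 48457236736) (nat_lit 0) (nat_lit 75965379324) (nat_lit 2) (nat_lit 5) (nat_lit 4) (nat_lit 4) (nat_lit 2) (nat_lit 4) (nat_lit 367) (nat_lit 233) (nat_lit 180)) (XT.lf (nat_lit 0) (nat_lit 87808021777) (nat_lit 152) (nat_lit 45689824303) (nat_lit 0) (nat_lit 82414952907) (nat_lit 2) (nat_lit 5) (nat_lit 4) (nat_lit 4) (nat_lit 2) (nat_lit 4) (nat_lit 368) (nat_lit 233) (nat_lit 179)))))) (XT.nd (nat_lit 390) (nat_lit 0) (nat_lit 0) (XT.nd (nat_lit 156) (nat_lit 0) (nat_lit 0) (XT.nd (nat_lit 78) (nat_lit 0) (nat_lit 0) (XT.lf (nat_lit 0) (nat_lit 94585508532) (nat_lit 152) (nat_lit 42815730487) (nat_lit 0) (nat_lit 89172591232) (nat_lit 2) (nat_lit 5) (nat_lit 4) (nat_lit 4) (nat_lit 2) (nat_lit 4) (nat_lit 369) (nat_lit 233) (nat_lit 178)) (XT.lf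 (nat_lit 0) (nat_lit 101686204481) (nat_lit 152) (nat_lit 39828112210) (nat_lit 0) (nat_lit 96254383914) (nat_lit 2) (nat_lit 5) (nat_lit 4) (nat_lit 4) (nat_lit 2) (nat_lit 4) (nat_lit 370) (nat_lit 233) (nat_lit 177))) (XT.nd (nat_lit 78) (nat_lit 0) (nat_lit 0) (XT.lf (nat_lit 0) (nat_lit 109127016043) (nat_lit 152) (nat_lit 36719856094) (nat_lit 0) (nat_lit 103677192365) (nat_lit 2) (nat_lit 5) (nat_lit 4) (nat_lit 4) (nat_lit 2) (nat_lit 4) (nat_lit 371) (nat_lit 233) (nat_lit 176)) (XT.nd (nat_lit 78) (nat_lit 0) (nat_lit 0) (XT.lf (nat_lit 0) (nat_lit 116925659436) (nat_lit 152) (nat_lit 33483561529) (nat_lit 0) (nat_lit 111458689938) (nat_lit 2) (nat_lit 5) (nat_lit 4) (nat_lit 4) (nat_lit 2) (nat_lit 4) (nat_lit 372) (nat_lit 233) (nat_lit 175)) (XT.lf (nat_lit 0) (nat_lit 125100702859) (nat_lit 152) (nat_lit 30111523052) (nat_lit 0) (nat_lit 119617404008) (nat_lit 2) (nat_lit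 5) (nat_lit 4) (nat_lit 4) (nat_lit 2) (nat_lit 4) (nat_lit 373) (nat_lit 233) (nat_lit 174))))) (XT.nd (nat_lit 234) (nat_lit 0) (nat_lit 0) (XT.nd (nat_lit 78) (nat_lit 0) (nat_lit 0) (XT.lf (nat_lit 0) (nat_lit 133671610700) (nat_lit 152) (nat_lit 26595712001) (nat_lit 0) (nat_lit 128172760085) (nat_lit 2) (nat_lit 5) (nat_lit 4) (nat_lit 4) (nat_lit 2) (nat_lit 4) (nat_lit 374) (nat_lit 233) (nat_lit 173)) (XT.nd (nat_lit 78) (nat_lit 0) (nat_lit 0) (XT.lf (nat_lit 0) (nat_lit 142658789883) (nat_lit 152) (nat_lit 22927757395) (nat_lit 0) (nat_lit 137145128065) (nat_lit 2) (nat_lit 5) (nat_lit 4) (nat_lit 4) (nat_lit 2) (nat_lit 4) (nat_lit 375) (nat_lit 233) (nat_lit 172)) (XT.lf (nat_lit 0) (nat_lit 152083638454) (nat_lit 152) (nat_lit 19098926011) (nat_lit 0) (nat_lit 146555870727) (nat_lit 2) (nat_lit 5) (nat_lit 4) (nat_lit 4) (nat_lit 2) (nat_lit 4) (nat_lit 376) (nat_lit 233)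 (nat_lit 171)))) (XT.nd (nat_lit 78) (nat_lit 0) (nat_lit 0) (XT.lf (nat_lit 0) (nat_lit 161968596529) (nat_lit 152) (nat_lit 15100101583) (nat_lit 0) (nat_lit 156427394603) (nat_lit 2) (nat_lit 5) (nat_lit 4) (nat_lit 4) (nat_lit 2) (nat_lit 4) (nat_lit 377) (nat_lit 233) (nat_lit 170)) (XT.nd (nat_lit 78) (nat_lit 0) (nat_lit 0) (XT.lf (nat_lit 0) (nat_lit 172337199721) (nat_lit 152) (nat_lit 10921763100) (nat_lit 0) (nat_lit 166783203320) (nat_lit 2) (nat_lit 5) (nat_lit 4) (nat_lit 4) (nat_lit 2) (nat_lit 4) (nat_lit 378) (nat_lit 233) (nat_lit 169)) (XT.lf (nat_lit 0) (nat_lit 183214135182) (nat_lit 152) (nat_lit 6553962137) (nat_lit 0) (nat_lit 177647953567) (nat_lit 2) (nat_lit 5) (nat_lit 4) (nat_lit 4) (nat_lit 2) (nat_lit 4) (nat_lit 379) (nat_lit 233) (nat_lit 168))))))) (XT.nd (nat_lit 780) (nat_lit 0) (nat_lit 0) (XT.nd (nat_lit 390) (nat_lit 0) (nat_lit 0) (XT.nd (nat_lit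 156) (nat_lit 0) (nat_lit 0) (XT.nd (nat_lit 78) (nat_lit 76) (nat_lit 0) (XT.lf (nat_lit 0) (nat_lit 194625300376) (nat_lit 152) (nat_lit 1986299169) (nat_lit 0) (nat_lit 189047513795) (nat_lit 2) (nat_lit 5) (nat_lit 4) (nat_lit 4) (nat_lit 2) (nat_lit 4) (nat_lit 380) (nat_lit 233) (nat_lit 167)) (XT.lf (nat_lit 0) (nat_lit 2884420667) (nat_lit 76) (nat_lit 203758477968) (nat_lit 76) (nat_lit 198169639038) (nat_lit 1) (nat_lit 4) (nat_lit 2) (nat_lit 5) (nat_lit 2) (nat_lit 4) (nat_lit 381) (nat_lit 233) (nat_lit 166))) (XT.nd (nat_lit 78) (nat_lit 0) (nat_lit 0) (XT.lf (nat_lit 0) (nat_lit 8050275172) (nat_lit 76) (nat_lit 211235746578) (nat_lit 76) (nat_lit 205636381602) (nat_lit 1) (nat_lit 4) (nat_lit 2) (nat_lit 5) (nat_lit 2) (nat_lit 4) (nat_lit 382) (nat_lit 233) (nat_lit 165)) (XT.nd (nat_lit 78) (nat_lit 0) (nat_lit 0) (XT.lf (nat_lit 0) (nat_lit 13457887978) (nat_lit 76)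 (nat_lit 219094847335) (nat_lit 76) (nat_lit 213485457553) (nat_lit 1) (nat_lit 4) (nat_lit 2) (nat_lit 5) (nat_lit 2) (nat_lit 4) (nat_lit 383) (nat_lit 233) (nat_lit 164)) (XT.lf (nat_lit 0) (nat_lit 19120134353) (nat_lit 76) (nat_lit 227354492382) (nat_lit 76) (nat_lit 221735555166) (nat_lit 1) (nat_lit 4) (nat_lit 2) (nat_lit 5) (nat_lit 2) (nat_lit 4) (nat_lit 384) (nat_lit 233) (nat_lit 163))))) (XT.nd (nat_lit 156) (nat_lit 0) (nat_lit 0) (XT.nd (nat_lit 78) (nat_lit 0) (nat_lit 0) (XT.lf (nat_lit 0) (nat_lit 25050495837) (nat_lit 76) (nat_lit 236034347542) (nat_lit 76) (nat_lit 230406317532) (nat_lit 1) (nat_lit 4) (nat_lit 2) (nat_lit 5) (nat_lit 2) (nat_lit 4) (nat_lit 385) (nat_lit 233) (nat_lit 162)) (XT.lf (nat_lit 0) (nat_lit 31263092337) (nat_lit 76) (nat_lit 245155079136) (nat_lit 76) (nat_lit 239518389321) (nat_lit 1) (nat_lit 4) (nat_lit 2) (nat_lit 5) (nat_lit 2) (nat_lit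 4) (nat_lit 386) (nat_lit 233) (nat_lit 161))) (XT.nd (nat_lit 78) (nat_lit 0) (nat_lit 0) (XT.lf (nat_lit 0) (nat_lit 37772715750) (nat_lit 76) (nat_lit 254738403191) (nat_lit 76) (nat_lit 249093465944) (nat_lit 1) (nat_lit 4) (nat_lit 2) (nat_lit 5) (nat_lit 2) (nat_lit 4) (nat_lit 387) (nat_lit 233) (nat_lit 160)) (XT.nd (nat_lit 78) (nat_lit 0) (nat_lit 0) (XT.lf (nat_lit 0) (nat_lit 44594865180) (nat_lit 76) (nat_lit 264807137147) (nat_lit 76) (nat_lit 259154345202) (nat_lit 1) (nat_lit 4) (nat_lit 2) (nat_lit 5) (nat_lit 2) (nat_lit 4) (nat_lit 388) (nat_lit 233) (nat_lit 159)) (XT.lf (nat_lit 0) (nat_lit 51745783838) (nat_lit 76) (nat_lit 275385254179) (nat_lit 76) (nat_lit 269724981570) (nat_lit 1) (nat_lit 4) (nat_lit 2) (nat_lit 5) (nat_lit 2) (nat_lit 4) (nat_lit 389) (nat_lit 233) (nat_lit 158)))))) (XT.nd (nat_lit 34710) (nat_lit 0) (nat_lit 760) (XT.nd (nat_lit 156) (nat_lit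 0) (nat_lit 0) (XT.nd (nat_lit 78) (nat_lit 0) (nat_lit 0) (XT.lf (nat_lit 0) (nat_lit 59242497723) (nat_lit 76) (nat_lit 286497940280) (nat_lit 76) (nat_lit 280830543228) (nat_lit 1) (nat_lit 4) (nat_lit 2) (nat_lit 5) (nat_lit 2) (nat_lit 4) (nat_lit 390) (nat_lit 233) (nat_lit 157)) (XT.lf (nat_lit 0) (nat_lit 67102856153) (nat_lit 76) (nat_lit 298171654226) (nat_lit 76) (nat_lit 292497471991) (nat_lit 1) (nat_lit 4) (nat_lit 2) (nat_lit 5) (nat_lit 2) (nat_lit 4) (nat_lit 391) (nat_lit 233) (nat_lit 156))) (XT.nd (nat_lit 34398) (nat_lit 0) (nat_lit 988) (XT.lf (nat_lit 0) (nat_lit 75345574267) (nat_lit 76) (nat_lit 310434190575) (nat_lit 76) (nat_lit 304753546261) (nat_lit 1) (nat_lit 4) (nat_lit 2) (nat_lit 5) (nat_lit 2) (nat_lit 4) (nat_lit 392) (nat_lit 233) (nat_lit 155)) (XT.nd (nat_lit 78) (nat_lit 152) (nat_lit 0) (XT.lf (nat_lit 0) (nat_lit 6520243417) (nat_lit 76) (nat_lit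 1220063494) (nat_lit 76) (nat_lit 1220063494) (nat_lit 16) (nat_lit 4) (nat_lit 17) (nat_lit 5) (nat_lit 17) (nat_lit 4) (nat_lit 312) (nat_lit 234) (nat_lit 234)) (XT.lf (nat_lit 0) (nat_lit 2104660398) (nat_lit 152) (nat_lit 14712365986) (nat_lit 0) (nat_lit 1751562767) (nat_lit 14) (nat_lit 5) (nat_lit 16) (nat_lit 4) (nat_lit 14) (nat_lit 4) (nat_lit 313) (nat_lit 234) (nat_lit 233))))) (XT.nd (nat_lit 234) (nat_lit 152) (nat_lit 0) (XT.nd (nat_lit 78) (nat_lit 76) (nat_lit 0) (XT.lf (nat_lit 0) (nat_lit 6758734281) (nat_lit 152) (nat_lit 6420615707) (nat_lit 0) (nat_lit 6069353192) (nat_lit 14) (nat_lit 5) (nat_lit 16) (nat_lit 4) (nat_lit 14) (nat_lit 4) (nat_lit 314) (nat_lit 234) (nat_lit 232)) (XT.nd (nat_lit 78) (nat_lit 0) (nat_lit 0) (XT.lf (nat_lit 0) (nat_lit 2072517730) (nat_lit 76) (nat_lit 9453013787) (nat_lit 76) (nat_lit 8443362738) (nat_lit 13) (nat_lit 4) (nat_lit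 14) (nat_lit 5) (nat_lit 14) (nat_lit 4) (nat_lit 315) (nat_lit 234) (nat_lit 231)) (XT.lf (nat_lit 0) (nat_lit 10938187927) (nat_lit 76) (nat_lit 5551838993) (nat_lit 76) (nat_lit 4237168933) (nat_lit 13) (nat_lit 4) (nat_lit 14) (nat_lit 5) (nat_lit 14) (nat_lit 4) (nat_lit 316) (nat_lit 234) (nat_lit 230)))) (XT.nd (nat_lit 78) (nat_lit 76) (nat_lit 0) (XT.lf (nat_lit 0) (nat_lit 28934328) (nat_lit 152) (nat_lit 1545848981) (nat_lit 76) (nat_lit 19955784727) (nat_lit 12) (nat_lit 5) (nat_lit 14) (nat_lit 5) (nat_lit 13) (nat_lit 4) (nat_lit 317) (nat_lit 234) (nat_lit 229)) (XT.nd (nat_lit 78) (nat_lit 0) (nat_lit 0) (XT.lf (nat_lit 0) (nat_lit 4379352819) (nat_lit 152) (nat_lit 15403534114) (nat_lit 0) (nat_lit 2587137973) (nat_lit 11) (nat_lit 5) (nat_lit 13) (nat_lit 4) (nat_lit 11) (nat_lit 4) (nat_lit 318) (nat_lit 234) (nat_lit 228)) (XT.lf (nat_lit 0) (nat_lit 8862809819) (nat_lit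 152) (nat_lit 7573270513) (nat_lit 0) (nat_lit 6819655080) (nat_lit 11) (nat_lit 5) (nat_lit 13) (nat_lit 4) (nat_lit 11) (nat_lit 4) (nat_lit 319) (nat_lit 234) (nat_lit 227))))))))
noncomputable def xc40 : XT := (XT.nd (nat_lit 1560) (nat_lit 152) (nat_lit 0) (XT.nd (nat_lit 780) (nat_lit 228) (nat_lit 0) (XT.nd (nat_lit 390) (nat_lit 76) (nat_lit 0) (XT.nd (nat_lit 156) (nat_lit 152) (nat_lit 0) (XT.nd (nat_lit 78) (nat_lit 0) (nat_lit 0) (XT.lf (nat_lit 0) (nat_lit 419066122) (nat_lit 76) (nat_lit 13027528335) (nat_lit 76) (nat_lit 10745383220) (nat_lit 10) (nat_lit 4) (nat_lit 11) (nat_lit 5) (nat_lit 11) (nat_lit 4) (nat_lit 320) (nat_lit 234) (nat_lit 226)) (XT.lf (nat_lit 0) (nat_lit 8835010542) (nat_lit 76) (nat_lit 9424905268) (nat_lit 76) (nat_lit 6915150272) (nat_lit 10) (nat_lit 4) (nat_lit 11) (nat_lit 5) (nat_lit 11) (nat_lit 4) (nat_lit 321) (nat_lit 234) (nat_lit 225)))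 (XT.nd (nat_lit 78) (nat_lit 152) (nat_lit 0) (XT.lf (nat_lit 0) (nat_lit 17444194187) (nat_lit 76) (nat_lit 5747890458) (nat_lit 76) (nat_lit 3021364147) (nat_lit 10) (nat_lit 4) (nat_lit 11) (nat_lit 5) (nat_lit 11) (nat_lit 4) (nat_lit 322) (nat_lit 234) (nat_lit 224)) (XT.nd (nat_lit 78) (nat_lit 76) (nat_lit 0) (XT.lf (nat_lit 0) (nat_lit 914992296) (nat_lit 152) (nat_lit 1057240975) (nat_lit 76) (nat_lit 25336626977) (nat_lit 9) (nat_lit 5) (nat_lit 11) (nat_lit 5) (nat_lit 10) (nat_lit 4) (nat_lit 323) (nat_lit 234) (nat_lit 223)) (XT.lf (nat_lit 0) (nat_lit 4975829072) (nat_lit 152) (nat_lit 21484054799) (nat_lit 0) (nat_lit 1995264161) (nat_lit 8) (nat_lit 5) (nat_lit 10) (nat_lit 4) (nat_lit 8) (nat_lit 4) (nat_lit 324) (nat_lit 234) (nat_lit 222))))) (XT.nd (nat_lit 156) (nat_lit 76) (nat_lit 0) (XT.nd (nat_lit 78) (nat_lit 0) (nat_lit 0) (XT.lf (nat_lit 0) (nat_lit 9178504714)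 (nat_lit 152) (nat_lit 14463744407) (nat_lit 0) (nat_lit 6019601505) (nat_lit 8) (nat_lit 5) (nat_lit 10) (nat_lit 4) (nat_lit 8) (nat_lit 4) (nat_lit 325) (nat_lit 234) (nat_lit 221)) (XT.lf (nat_lit 0) (nat_lit 13484901685) (nat_lit 152) (nat_lit 7293193168) (nat_lit 0) (nat_lit 10156152478) (nat_lit 8) (nat_lit 5) (nat_lit 10) (nat_lit 4) (nat_lit 8) (nat_lit 4) (nat_lit 326) (nat_lit 234) (nat_lit 220))) (XT.nd (nat_lit 78) (nat_lit 0) (nat_lit 0) (XT.lf (nat_lit 0) (nat_lit 46148707) (nat_lit 76) (nat_lit 17859845114) (nat_lit 76) (nat_lit 14369337814) (nat_lit 7) (nat_lit 4) (nat_lit 8) (nat_lit 5) (nat_lit 8) (nat_lit 4) (nat_lit 327) (nat_lit 234) (nat_lit 219)) (XT.nd (nat_lit 78) (nat_lit 0) (nat_lit 0) (XT.lf (nat_lit 0) (nat_lit 7817530999) (nat_lit 76) (nat_lit 14754666855) (nat_lit 76) (nat_lit 11110104229) (nat_lit 7) (nat_lit 4) (nat_lit 8) (nat_lit 5) (nat_lit 8) (nat_lit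 4) (nat_lit 328) (nat_lit 234) (nat_lit 218)) (XT.lf (nat_lit 0) (nat_lit 15798311094) (nat_lit 76) (nat_lit 11578680550) (nat_lit 76) (nat_lit 7787398564) (nat_lit 7) (nat_lit 4) (nat_lit 8) (nat_lit 5) (nat_lit 8) (nat_lit 4) (nat_lit 329) (nat_lit 234) (nat_lit 217)))))) (XT.nd (nat_lit 390) (nat_lit 76) (nat_lit 0) (XT.nd (nat_lit 156) (nat_lit 152) (nat_lit 0) (XT.nd (nat_lit 78) (nat_lit 0) (nat_lit 0) (XT.lf (nat_lit 0) (nat_lit 24007490850) (nat_lit 76) (nat_lit 8324324326) (nat_lit 76) (nat_lit 4393309618) (nat_lit 7) (nat_lit 4) (nat_lit 8) (nat_lit 5) (nat_lit 8) (nat_lit 4) (nat_lit 330) (nat_lit 234) (nat_lit 216)) (XT.lf (nat_lit 0) (nat_lit 32464615934) (nat_lit 76) (nat_lit 4983849717) (nat_lit 76) (nat_lit 919756224) (nat_lit 7) (nat_lit 4) (nat_lit 8) (nat_lit 5) (nat_lit 8) (nat_lit 4) (nat_lit 331) (nat_lit 234) (nat_lit 215))) (XT.nd (nat_lit 78) (nat_lit 0) (nat_lit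 0) (XT.lf (nat_lit 0) (nat_lit 1085737430) (nat_lit 76) (nat_lit 1488200433) (nat_lit 152) (nat_lit 37520746068) (nat_lit 5) (nat_lit 5) (nat_lit 6) (nat_lit 5) (nat_lit 7) (nat_lit 4) (nat_lit 332) (nat_lit 234) (nat_lit 214)) (XT.nd (nat_lit 78) (nat_lit 0) (nat_lit 0) (XT.lf (nat_lit 0) (nat_lit 6264300854) (nat_lit 152) (nat_lit 33481724809) (nat_lit 0) (nat_lit 2158070787) (nat_lit 5) (nat_lit 5) (nat_lit 7) (nat_lit 4) (nat_lit 5) (nat_lit 4) (nat_lit 333) (nat_lit 234) (nat_lit 213)) (XT.lf (nat_lit 0) (nat_lit 10084725242) (nat_lit 152) (nat_lit 27852990987) (nat_lit 0) (nat_lit 5869010930) (nat_lit 5) (nat_lit 5) (nat_lit 7) (nat_lit 4) (nat_lit 5) (nat_lit 4) (nat_lit 334) (nat_lit 234) (nat_lit 212))))) (XT.nd (nat_lit 156) (nat_lit 76) (nat_lit 0) (XT.nd (nat_lit 78) (nat_lit 0) (nat_lit 0) (XT.lf (nat_lit 0) (nat_lit 14021072295) (nat_lit 152) (nat_lit 22086108311) (nat_lit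 0) (nat_lit 9701087274) (nat_lit 5) (nat_lit 5) (nat_lit 7) (nat_lit 4) (nat_lit 5) (nat_lit 4) (nat_lit 335) (nat_lit 234) (nat_lit 211)) (XT.lf (nat_lit 0) (nat_lit 18082714268) (nat_lit 152) (nat_lit 16167346105) (nat_lit 0) (nat_lit 13663423810) (nat_lit 5) (nat_lit 5) (nat_lit 7) (nat_lit 4) (nat_lit 5) (nat_lit 4) (nat_lit 336) (nat_lit 234) (nat_lit 210))) (XT.nd (nat_lit 78) (nat_lit 76) (nat_lit 0) (XT.lf (nat_lit 0) (nat_lit 22279321738) (nat_lit 152) (nat_lit 10082612080) (nat_lit 0) (nat_lit 17765454673) (nat_lit 5) (nat_lit 5) (nat_lit 7) (nat_lit 4) (nat_lit 5) (nat_lit 4) (nat_lit 337) (nat_lit 234) (nat_lit 209)) (XT.nd (nat_lit 78) (nat_lit 76) (nat_lit 0) (XT.lf (nat_lit 0) (nat_lit 26620886627) (nat_lit 152) (nat_lit 3817418773) (nat_lit 0) (nat_lit 22016946603) (nat_lit 5) (nat_lit 5) (nat_lit 7) (nat_lit 4) (nat_lit 5) (nat_lit 4) (nat_lit 338) (nat_lit 234) (nat_lit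 208)) (XT.lf (nat_lit 0) (nat_lit 2730545448) (nat_lit 76) (nat_lit 28429832013) (nat_lit 76) (nat_lit 23740108219) (nat_lit 4) (nat_lit 4) (nat_lit 5) (nat_lit 5) (nat_lit 5) (nat_lit 4) (nat_lit 339) (nat_lit 234) (nat_lit 207))))))) (XT.nd (nat_lit 780) (nat_lit 76) (nat_lit 0) (XT.nd (nat_lit 390) (nat_lit 76) (nat_lit 0) (XT.nd (nat_lit 156) (nat_lit 0) (nat_lit 0) (XT.nd (nat_lit 78) (nat_lit 0) (nat_lit 0) (XT.lf (nat_lit 0) (nat_lit 9622458128) (nat_lit 76) (nat_lit 26308382059) (nat_lit 76) (nat_lit 21536959436) (nat_lit 4) (nat_lit 4) (nat_lit 5) (nat_lit 5) (nat_lit 5) (nat_lit 4) (nat_lit 340) (nat_lit 234) (nat_lit 206)) (XT.lf (nat_lit 0) (nat_lit 16748507475) (nat_lit 76) (nat_lit 24133554303) (nat_lit 76) (nat_lit 19284323271) (nat_lit 4) (nat_lit 4) (nat_lit 5) (nat_lit 5) (nat_lit 5) (nat_lit 4) (nat_lit 341) (nat_lit 234) (nat_lit 205))) (XT.nd (nat_lit 78) (nat_lit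 0) (nat_lit 0) (XT.lf (nat_lit 0) (nat_lit 24125660275) (nat_lit 76) (nat_lit 21900170582) (nat_lit 76) (nat_lit 16976836304) (nat_lit 4) (nat_lit 4) (nat_lit 5) (nat_lit 5) (nat_lit 5) (nat_lit 4) (nat_lit 342) (nat_lit 234) (nat_lit 204)) (XT.nd (nat_lit 78) (nat_lit 0) (nat_lit 0) (XT.lf (nat_lit 0) (nat_lit 31771481177) (nat_lit 76) (nat_lit 19602913316) (nat_lit 76) (nat_lit 14609004518) (nat_lit 4) (nat_lit 4) (nat_lit 5) (nat_lit 5) (nat_lit 5) (nat_lit 4) (nat_lit 343) (nat_lit 234) (nat_lit 203)) (XT.lf (nat_lit 0) (nat_lit 39704174516) (nat_lit 76) (nat_lit 17236312846) (nat_lit 76) (nat_lit 12175190218) (nat_lit 4) (nat_lit 4) (nat_lit 5) (nat_lit 5) (nat_lit 5) (nat_lit 4) (nat_lit 344) (nat_lit 234) (nat_lit 202))))) (XT.nd (nat_lit 156) (nat_lit 76) (nat_lit 0) (XT.nd (nat_lit 78) (nat_lit 0) (nat_lit 0) (XT.lf (nat_lit 0) (nat_lit 47942627658) (nat_lit 76) (nat_lit 14794734407)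 (nat_lit 76) (nat_lit 9669598610) (nat_lit 4) (nat_lit 4) (nat_lit 5) (nat_lit 5) (nat_lit 5) (nat_lit 4) (nat_lit 345) (nat_lit 234) (nat_lit 201)) (XT.lf (nat_lit 0) (nat_lit 56506455967) (nat_lit 76) (nat_lit 12272364719) (nat_lit 76) (nat_lit 7086263998) (nat_lit 4) (nat_lit 4) (nat_lit 5) (nat_lit 5) (nat_lit 5) (nat_lit 4) (nat_lit 346) (nat_lit 234) (nat_lit 200))) (XT.nd (nat_lit 78) (nat_lit 76) (nat_lit 0) (XT.lf (nat_lit 0) (nat_lit 65416049511) (nat_lit 76) (nat_lit 9663198139) (nat_lit 76) (nat_lit 4419035585) (nat_lit 4) (nat_lit 4) (nat_lit 5) (nat_lit 5) (nat_lit 5) (nat_lit 4) (nat_lit 347) (nat_lit 234) (nat_lit 199)) (XT.nd (nat_lit 78) (nat_lit 76) (nat_lit 0) (XT.lf (nat_lit 0) (nat_lit 74692621607) (nat_lit 76) (nat_lit 6961022366) (nat_lit 76) (nat_lit 1661562828) (nat_lit 4) (nat_lit 4) (nat_lit 5) (nat_lit 5) (nat_lit 5) (nat_lit 4) (nat_lit 348) (nat_lit 234)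 (nat_lit 198)) (XT.lf (nat_lit 0) (nat_lit 1154545205) (nat_lit 152) (nat_lit 2985305660) (nat_lit 76) (nat_lit 83184161345) (nat_lit 3) (nat_lit 5) (nat_lit 5) (nat_lit 5) (nat_lit 4) (nat_lit 4) (nat_lit 349) (nat_lit 234) (nat_lit 197)))))) (XT.nd (nat_lit 390) (nat_lit 0) (nat_lit 0) (XT.nd (nat_lit 156) (nat_lit 0) (nat_lit 0) (XT.nd (nat_lit 78) (nat_lit 0) (nat_lit 0) (XT.lf (nat_lit 0) (nat_lit 2927843040) (nat_lit 76) (nat_lit 1135631284) (nat_lit 152) (nat_lit 87468039662) (nat_lit 2) (nat_lit 5) (nat_lit 3) (nat_lit 5) (nat_lit 4) (nat_lit 4) (nat_lit 350) (nat_lit 234) (nat_lit 196)) (XT.lf (nat_lit 0) (nat_lit 7163055387) (nat_lit 152) (nat_lit 86811550970) (nat_lit 0) (nat_lit 1972534493) (nat_lit 2) (nat_lit 5) (nat_lit 4) (nat_lit 4) (nat_lit 2) (nat_lit 4) (nat_lit 351) (nat_lit 234) (nat_lit 195))) (XT.nd (nat_lit 78) (nat_lit 0) (nat_lit 0) (XT.lf (nat_lit 0) (nat_lit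 10400327613) (nat_lit 152) (nat_lit 85017615538) (nat_lit 0) (nat_lit 5166480086) (nat_lit 2) (nat_lit 5) (nat_lit 4) (nat_lit 4) (nat_lit 2) (nat_lit 4) (nat_lit 352) (nat_lit 234) (nat_lit 194)) (XT.nd (nat_lit 78) (nat_lit 0) (nat_lit 0) (XT.lf (nat_lit 0) (nat_lit 13765268406) (nat_lit 152) (nat_lit 83199862989) (nat_lit 0) (nat_lit 8490157419) (nat_lit 2) (nat_lit 5) (nat_lit 4) (nat_lit 4) (nat_lit 2) (nat_lit 4) (nat_lit 353) (nat_lit 234) (nat_lit 193)) (XT.lf (nat_lit 0) (nat_lit 17265889530) (nat_lit 152) (nat_lit 81353965341) (nat_lit 0) (nat_lit 11951480009) (nat_lit 2) (nat_lit 5) (nat_lit 4) (nat_lit 4) (nat_lit 2) (nat_lit 4) (nat_lit 354) (nat_lit 234) (nat_lit 192))))) (XT.nd (nat_lit 234) (nat_lit 0) (nat_lit 0) (XT.nd (nat_lit 78) (nat_lit 0) (nat_lit 0) (XT.lf (nat_lit 0) (nat_lit 20910525798) (nat_lit 152) (nat_lit 79475527598) (nat_lit 0) (nat_lit 15558689102) (nat_lit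 2) (nat_lit 5) (nat_lit 4) (nat_lit 4) (nat_lit 2) (nat_lit 4) (nat_lit 355) (nat_lit 234) (nat_lit 191)) (XT.nd (nat_lit 78) (nat_lit 0) (nat_lit 0) (XT.lf (nat_lit 0) (nat_lit 24707854914) (nat_lit 152) (nat_lit 77560077291) (nat_lit 0) (nat_lit 19320373289) (nat_lit 2) (nat_lit 5) (nat_lit 4) (nat_lit 4) (nat_lit 2) (nat_lit 4) (nat_lit 356) (nat_lit 234) (nat_lit 190)) (XT.lf (nat_lit 0) (nat_lit 28666918138) (nat_lit 152) (nat_lit 75603053824) (nat_lit 0) (nat_lit 23245488963) (nat_lit 2) (nat_lit 5) (nat_lit 4) (nat_lit 4) (nat_lit 2) (nat_lit 4) (nat_lit 357) (nat_lit 234) (nat_lit 189)))) (XT.nd (nat_lit 78) (nat_lit 0) (nat_lit 0) (XT.lf (nat_lit 0) (nat_lit 32797141812) (nat_lit 152) (nat_lit 73599797616) (nat_lit 0) (nat_lit 27343381636) (nat_lit 2) (nat_lit 5) (nat_lit 4) (nat_lit 4) (nat_lit 2) (nat_lit 4) (nat_lit 358) (nat_lit 234) (nat_lit 188)) (XT.nd (nat_lit 78) (nat_lit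 0) (nat_lit 0) (XT.lf (nat_lit 0) (nat_lit 37108359801) (nat_lit 152) (nat_lit 71545539010) (nat_lit 0) (nat_lit 31623808196) (nat_lit 2) (nat_lit 5) (nat_lit 4) (nat_lit 4) (nat_lit 2) (nat_lit 4) (nat_lit 359) (nat_lit 234) (nat_lit 187)) (XT.lf (nat_lit 0) (nat_lit 41610836911) (nat_lit 152) (nat_lit 69435386914) (nat_lit 0) (nat_lit 36096960134) (nat_lit 2) (nat_lit 5) (nat_lit 4) (nat_lit 4) (nat_lit 2) (nat_lit 4) (nat_lit 360) (nat_lit 234) (nat_lit 186))))))))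
noncomputable def xc41 : XT := (XT.nd (nat_lit 1638) (nat_lit 76) (nat_lit 0) (XT.nd (nat_lit 780) (nat_lit 0) (nat_lit 0) (XT.nd (nat_lit 390) (nat_lit 0) (nat_lit 0) (XT.nd (nat_lit 156) (nat_lit 0) (nat_lit 0) (XT.nd (nat_lit 78) (nat_lit 0) (nat_lit 0) (XT.lf (nat_lit 0) (nat_lit 46315293324) (nat_lit 152) (nat_lit 67264317156) (nat_lit 0) (nat_lit 40773487813) (nat_lit 2) (nat_lit 5) (nat_lit 4) (nat_lit 4) (nat_lit 2) (nat_lit 4) (nat_lit 361) (nat_lit 234) (nat_lit 185)) (XT.lf (nat_lit 0) (nat_lit 51232930127) (nat_lit 152) (nat_lit 65027160524) (nat_lit 0) (nat_lit 45664525822) (nat_lit 2) (nat_lit 5) (nat_lit 4) (nat_lit 4) (nat_lit 2) (nat_lit 4) (nat_lit 362) (nat_lit 234) (nat_lit 184))) (XT.nd (nat_lit 78) (nat_lit 0) (nat_lit 0) (XT.lf (nat_lit 0) (nat_lit 56375455980) (nat_lit 152) (nat_lit 62718590452) (nat_lit 0) (nat_lit 50781719489) (nat_lit 2) (nat_lit 5) (nat_lit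 4) (nat_lit 4) (nat_lit 2) (nat_lit 4) (nat_lit 363) (nat_lit 234) (nat_lit 183)) (XT.nd (nat_lit 78) (nat_lit 0) (nat_lit 0) (XT.lf (nat_lit 0) (nat_lit 61755114991) (nat_lit 152) (nat_lit 60333110347) (nat_lit 0) (nat_lit 56137252610) (nat_lit 2) (nat_lit 5) (nat_lit 4) (nat_lit 4) (nat_lit 2) (nat_lit 4) (nat_lit 364) (nat_lit 234) (nat_lit 182)) (XT.lf (nat_lit 0) (nat_lit 67384715873) (nat_lit 152) (nat_lit 57865040493) (nat_lit 0) (nat_lit 61743876453) (nat_lit 2) (nat_lit 5) (nat_lit 4) (nat_lit 4) (nat_lit 2) (nat_lit 4) (nat_lit 365) (nat_lit 234) (nat_lit 181))))) (XT.nd (nat_lit 156) (nat_lit 0) (nat_lit 0) (XT.nd (nat_lit 78) (nat_lit 0) (nat_lit 0) (XT.lf (nat_lit 0) (nat_lit 73277662437) (nat_lit 152) (nat_lit 55308504534) (nat_lit 0) (nat_lit 67614940123) (nat_lit 2) (nat_lit 5) (nat_lit 4) (nat_lit 4) (nat_lit 2) (nat_lit 4) (nat_lit 366) (nat_lit 234) (nat_lit 180))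 (XT.lf (nat_lit 0) (nat_lit 79447985508) (nat_lit 152) (nat_lit 52657415478) (nat_lit 0) (nat_lit 73764422343) (nat_lit 2) (nat_lit 5) (nat_lit 4) (nat_lit 4) (nat_lit 2) (nat_lit 4) (nat_lit 367) (nat_lit 234) (nat_lit 179))) (XT.nd (nat_lit 78) (nat_lit 0) (nat_lit 0) (XT.lf (nat_lit 0) (nat_lit 85910376332) (nat_lit 152) (nat_lit 49905461211) (nat_lit 0) (nat_lit 80206964737) (nat_lit 2) (nat_lit 5) (nat_lit 4) (nat_lit 4) (nat_lit 2) (nat_lit 4) (nat_lit 368) (nat_lit 234) (nat_lit 178)) (XT.nd (nat_lit 78) (nat_lit 0) (nat_lit 0) (XT.lf (nat_lit 0) (nat_lit 92680221553) (nat_lit 152) (nat_lit 47046089458) (nat_lit 0) (nat_lit 86957906692) (nat_lit 2) (nat_lit 5) (nat_lit 4) (nat_lit 4) (nat_lit 2) (nat_lit 4) (nat_lit 369) (nat_lit 234) (nat_lit 177)) (XT.lf (nat_lit 0) (nat_lit 99773639852) (nat_lit 152) (nat_lit 44072492193) (nat_lit 0) (nat_lit 94033321879) (nat_lit 2) (nat_lit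 5) (nat_lit 4) (nat_lit 4) (nat_lit 2) (nat_lit 4) (nat_lit 370) (nat_lit 234) (nat_lit 176)))))) (XT.nd (nat_lit 390) (nat_lit 0) (nat_lit 0) (XT.nd (nat_lit 156) (nat_lit 0) (nat_lit 0) (XT.nd (nat_lit 78) (nat_lit 0) (nat_lit 0) (XT.lf (nat_lit 0) (nat_lit 107207520317) (nat_lit 152) (nat_lit 40977589422) (nat_lit 0) (nat_lit 101450056525) (nat_lit 2) (nat_lit 5) (nat_lit 4) (nat_lit 4) (nat_lit 2) (nat_lit 4) (nat_lit 371) (nat_lit 234) (nat_lit 175)) (XT.lf (nat_lit 0) (nat_lit 114999562666) (nat_lit 152) (nat_lit 37754012328) (nat_lit 0) (nat_lit 109225769521) (nat_lit 2) (nat_lit 5) (nat_lit 4) (nat_lit 4) (nat_lit 2) (nat_lit 4) (nat_lit 372) (nat_lit 234) (nat_lit 174))) (XT.nd (nat_lit 78) (nat_lit 0) (nat_lit 0) (XT.lf (nat_lit 0) (nat_lit 123168319381) (nat_lit 152) (nat_lit 34394085729) (nat_lit 0) (nat_lit 117378974471) (nat_lit 2) (nat_lit 5) (nat_lit 4) (nat_lit 4) (nat_lit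 2) (nat_lit 4) (nat_lit 373) (nat_lit 234) (nat_lit 173)) (XT.nd (nat_lit 78) (nat_lit 0) (nat_lit 0) (XT.lf (nat_lit 0) (nat_lit 131733239880) (nat_lit 152) (nat_lit 30889809799) (nat_lit 0) (nat_lit 125929083767) (nat_lit 2) (nat_lit 5) (nat_lit 4) (nat_lit 4) (nat_lit 2) (nat_lit 4) (nat_lit 374) (nat_lit 234) (nat_lit 172)) (XT.lf (nat_lit 0) (nat_lit 140714716834) (nat_lit 152) (nat_lit 27232841024) (nat_lit 0) (nat_lit 134896454812) (nat_lit 2) (nat_lit 5) (nat_lit 4) (nat_lit 4) (nat_lit 2) (nat_lit 4) (nat_lit 375) (nat_lit 234) (nat_lit 171))))) (XT.nd (nat_lit 234) (nat_lit 0) (nat_lit 0) (XT.nd (nat_lit 78) (nat_lit 0) (nat_lit 0) (XT.lf (nat_lit 0) (nat_lit 150134134710) (nat_lit 152) (nat_lit 23414472334) (nat_lit 0) (nat_lit 144302438489) (nat_lit 2) (nat_lit 5) (nat_lit 4) (nat_lit 4) (nat_lit 2) (nat_lit 4) (nat_lit 376) (nat_lit 234) (nat_lit 170)) (XT.nd (nat_lit 78)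 (nat_lit 0) (nat_lit 0) (XT.lf (nat_lit 0) (nat_lit 160013920693) (nat_lit 152) (nat_lit 19425612378) (nat_lit 0) (nat_lit 154169429998) (nat_lit 2) (nat_lit 5) (nat_lit 4) (nat_lit 4) (nat_lit 2) (nat_lit 4) (nat_lit 377) (nat_lit 234) (nat_lit 169)) (XT.lf (nat_lit 0) (nat_lit 170377598085) (nat_lit 152) (nat_lit 15256763868) (nat_lit 0) (nat_lit 164520922175) (nat_lit 2) (nat_lit 5) (nat_lit 4) (nat_lit 4) (nat_lit 2) (nat_lit 4) (nat_lit 378) (nat_lit 234) (nat_lit 168)))) (XT.nd (nat_lit 78) (nat_lit 0) (nat_lit 0) (XT.lf (nat_lit 0) (nat_lit 181249842307) (nat_lit 152) (nat_lit 10898000974) (nat_lit 0) (nat_lit 175381561431) (nat_lit 2) (nat_lit 5) (nat_lit 4) (nat_lit 4) (nat_lit 2) (nat_lit 4) (nat_lit 379) (nat_lit 234) (nat_lit 167)) (XT.nd (nat_lit 78) (nat_lit 0) (nat_lit 0) (XT.lf (nat_lit 0) (nat_lit 192656539655) (nat_lit 152) (nat_lit 6338945691) (nat_lit 0) (nat_lit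 186777206431) (nat_lit 2) (nat_lit 5) (nat_lit 4) (nat_lit 4) (nat_lit 2) (nat_lit 4) (nat_lit 380) (nat_lit 234) (nat_lit 166)) (XT.lf (nat_lit 0) (nat_lit 204624848932) (nat_lit 152) (nat_lit 1568743125) (nat_lit 0) (nat_lit 198734989662) (nat_lit 2) (nat_lit 5) (nat_lit 4) (nat_lit 4) (nat_lit 2) (nat_lit 4) (nat_lit 381) (nat_lit 234) (nat_lit 165))))))) (XT.nd (nat_lit 780) (nat_lit 0) (nat_lit 0) (XT.nd (nat_lit 390) (nat_lit 0) (nat_lit 0) (XT.nd (nat_lit 156) (nat_lit 0) (nat_lit 0) (XT.nd (nat_lit 78) (nat_lit 0) (nat_lit 0) (XT.lf (nat_lit 0) (nat_lit 3537176074) (nat_lit 76) (nat_lit 213701315270) (nat_lit 76) (nat_lit 207801431194) (nat_lit 1) (nat_lit 4) (nat_lit 2) (nat_lit 5) (nat_lit 2) (nat_lit 4) (nat_lit 382) (nat_lit 234) (nat_lit 164)) (XT.lf (nat_lit 0) (nat_lit 8937107382) (nat_lit 76) (nat_lit 221564118101) (nat_lit 76) (nat_lit 215654686591) (nat_lit 1) (nat_lit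 4) (nat_lit 2) (nat_lit 5) (nat_lit 2) (nat_lit 4) (nat_lit 383) (nat_lit 234) (nat_lit 163))) (XT.nd (nat_lit 78) (nat_lit 0) (nat_lit 0) (XT.lf (nat_lit 0) (nat_lit 14592038045) (nat_lit 76) (nat_lit 229827288934) (nat_lit 76) (nat_lit 223908764629) (nat_lit 1) (nat_lit 4) (nat_lit 2) (nat_lit 5) (nat_lit 2) (nat_lit 4) (nat_lit 384) (nat_lit 234) (nat_lit 162)) (XT.nd (nat_lit 78) (nat_lit 0) (nat_lit 0) (XT.lf (nat_lit 0) (nat_lit 20515432183) (nat_lit 76) (nat_lit 238510501984) (nat_lit 76) (nat_lit 232583317875) (nat_lit 1) (nat_lit 4) (nat_lit 2) (nat_lit 5) (nat_lit 2) (nat_lit 4) (nat_lit 385) (nat_lit 234) (nat_lit 161)) (XT.lf (nat_lit 0) (nat_lit 26721393116) (nat_lit 76) (nat_lit 247634431570) (nat_lit 76) (nat_lit 241699000028) (nat_lit 1) (nat_lit 4) (nat_lit 2) (nat_lit 5) (nat_lit 2) (nat_lit 4) (nat_lit 386) (nat_lit 234) (nat_lit 160))))) (XT.nd (nat_lit 156) (nat_lit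 0) (nat_lit 0) (XT.nd (nat_lit 78) (nat_lit 0) (nat_lit 0) (XT.lf (nat_lit 0) (nat_lit 33224696942) (nat_lit 76) (nat_lit 257220801331) (nat_lit 76) (nat_lit 251277515092) (nat_lit 1) (nat_lit 4) (nat_lit 2) (nat_lit 5) (nat_lit 2) (nat_lit 4) (nat_lit 387) (nat_lit 234) (nat_lit 159)) (XT.lf (nat_lit 0) (nat_lit 40040827717) (nat_lit 76) (nat_lit 267292435959) (nat_lit 76) (nat_lit 261341669055) (nat_lit 1) (nat_lit 4) (nat_lit 2) (nat_lit 5) (nat_lit 2) (nat_lit 4) (nat_lit 388) (nat_lit 234) (nat_lit 158))) (XT.nd (nat_lit 78) (nat_lit 0) (nat_lit 0) (XT.lf (nat_lit 0) (nat_lit 47186014323) (nat_lit 76) (nat_lit 277873315536) (nat_lit 76) (nat_lit 271915424190) (nat_lit 1) (nat_lit 4) (nat_lit 2) (nat_lit 5) (nat_lit 2) (nat_lit 4) (nat_lit 389) (nat_lit 234) (nat_lit 157)) (XT.nd (nat_lit 78) (nat_lit 0) (nat_lit 0) (XT.lf (nat_lit 0) (nat_lit 54677269111) (nat_lit 76) (nat_lit 288988632632)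 (nat_lit 76) (nat_lit 283023956103) (nat_lit 1) (nat_lit 4) (nat_lit 2) (nat_lit 5) (nat_lit 2) (nat_lit 4) (nat_lit 390) (nat_lit 234) (nat_lit 156)) (XT.lf (nat_lit 0) (nat_lit 62532428401) (nat_lit 76) (nat_lit 300664852288) (nat_lit 76) (nat_lit 294693713680) (nat_lit 1) (nat_lit 4) (nat_lit 2) (nat_lit 5) (nat_lit 2) (nat_lit 4) (nat_lit 391) (nat_lit 234) (nat_lit 155)))))) (XT.nd (nat_lit 34554) (nat_lit 0) (nat_lit 760) (XT.nd (nat_lit 34320) (nat_lit 0) (nat_lit 988) (XT.nd (nat_lit 34242) (nat_lit 0) (nat_lit 1216) (XT.lf (nat_lit 0) (nat_lit 70770194953) (nat_lit 76) (nat_lit 312929775028) (nat_lit 76) (nat_lit 306952482057) (nat_lit 1) (nat_lit 4) (nat_lit 2) (nat_lit 5) (nat_lit 2) (nat_lit 4) (nat_lit 392) (nat_lit 234) (nat_lit 154)) (XT.lf (nat_lit 0) (nat_lit 2975310440) (nat_lit 152) (nat_lit 2409249074) (nat_lit 0) (nat_lit 2975310440) (nat_lit 17) (nat_lit 5) (nat_lit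 19) (nat_lit 4) (nat_lit 17) (nat_lit 4) (nat_lit 310) (nat_lit 235) (nat_lit 235))) (XT.nd (nat_lit 78) (nat_lit 152) (nat_lit 0) (XT.lf (nat_lit 0) (nat_lit 3883273968) (nat_lit 76) (nat_lit 6905800165) (nat_lit 76) (nat_lit 6516510026) (nat_lit 16) (nat_lit 4) (nat_lit 17) (nat_lit 5) (nat_lit 17) (nat_lit 4) (nat_lit 311) (nat_lit 235) (nat_lit 234)) (XT.nd (nat_lit 78) (nat_lit 152) (nat_lit 0) (XT.lf (nat_lit 0) (nat_lit 12900548518) (nat_lit 76) (nat_lit 2892070028) (nat_lit 76) (nat_lit 2132027377) (nat_lit 16) (nat_lit 4) (nat_lit 17) (nat_lit 5) (nat_lit 17) (nat_lit 4) (nat_lit 312) (nat_lit 235) (nat_lit 233)) (XT.lf (nat_lit 0) (nat_lit 2315457852) (nat_lit 152) (nat_lit 15005880746) (nat_lit 0) (nat_lit 1255324250) (nat_lit 14) (nat_lit 5) (nat_lit 16) (nat_lit 4) (nat_lit 14) (nat_lit 4) (nat_lit 313) (nat_lit 235) (nat_lit 232))))) (XT.nd (nat_lit 234) (nat_lit 152) (nat_lit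 0) (XT.nd (nat_lit 78) (nat_lit 76) (nat_lit 0) (XT.lf (nat_lit 0) (nat_lit 6895220442) (nat_lit 152) (nat_lit 6850490401) (nat_lit 0) (nat_lit 5514816880) (nat_lit 14) (nat_lit 5) (nat_lit 16) (nat_lit 4) (nat_lit 14) (nat_lit 4) (nat_lit 314) (nat_lit 235) (nat_lit 231)) (XT.nd (nat_lit 78) (nat_lit 0) (nat_lit 0) (XT.lf (nat_lit 0) (nat_lit 1494268856) (nat_lit 76) (nat_lit 10087948077) (nat_lit 76) (nat_lit 8402525506) (nat_lit 13) (nat_lit 4) (nat_lit 14) (nat_lit 5) (nat_lit 14) (nat_lit 4) (nat_lit 315) (nat_lit 235) (nat_lit 230)) (XT.lf (nat_lit 0) (nat_lit 10232167072) (nat_lit 76) (nat_lit 6245147852) (nat_lit 76) (nat_lit 4269230985) (nat_lit 13) (nat_lit 4) (nat_lit 14) (nat_lit 5) (nat_lit 14) (nat_lit 4) (nat_lit 316) (nat_lit 235) (nat_lit 229)))) (XT.nd (nat_lit 78) (nat_lit 152) (nat_lit 0) (XT.lf (nat_lit 0) (nat_lit 19157500615) (nat_lit 76) (nat_lit 2324177014) (nat_lit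 76) (nat_lit 71598914) (nat_lit 13) (nat_lit 4) (nat_lit 14) (nat_lit 5) (nat_lit 14) (nat_lit 4) (nat_lit 317) (nat_lit 235) (nat_lit 228)) (XT.nd (nat_lit 78) (nat_lit 0) (nat_lit 0) (XT.lf (nat_lit 0) (nat_lit 4188693721) (nat_lit 152) (nat_lit 16416302752) (nat_lit 0) (nat_lit 1792441351) (nat_lit 11) (nat_lit 5) (nat_lit 13) (nat_lit 4) (nat_lit 11) (nat_lit 4) (nat_lit 318) (nat_lit 235) (nat_lit 227)) (XT.lf (nat_lit 0) (nat_lit 8608546815) (nat_lit 152) (nat_lit 8704503969) (nat_lit 0) (nat_lit 5973304069) (nat_lit 11) (nat_lit 5) (nat_lit 13) (nat_lit 4) (nat_lit 11) (nat_lit 4) (nat_lit 319) (nat_lit 235) (nat_lit 226))))))))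
noncomputable def xc42 : XT := (XT.nd (nat_lit 1560) (nat_lit 228) (nat_lit 0) (XT.nd (nat_lit 780) (nat_lit 152) (nat_lit 0) (XT.nd (nat_lit 390) (nat_lit 76) (nat_lit 0) (XT.nd (nat_lit 156) (nat_lit 152) (nat_lit 0) (XT.nd (nat_lit 78) (nat_lit 76) (nat_lit 0) (XT.lf (nat_lit 0) (nat_lit 13125213506) (nat_lit 152) (nat_lit 838403704) (nat_lit 0) (nat_lit 10262360879) (nat_lit 11) (nat_lit 5) (nat_lit 13) (nat_lit 4) (nat_lit 11) (nat_lit 4) (nat_lit 320) (nat_lit 235) (nat_lit 225)) (XT.lf (nat_lit 0) (nat_lit 7438815401) (nat_lit 76) (nat_lit 10426773116) (nat_lit 76) (nat_lit 7347149174) (nat_lit 10) (nat_lit 4) (nat_lit 11) (nat_lit 5) (nat_lit 11) (nat_lit 4) (nat_lit 321) (nat_lit 235) (nat_lit 224))) (XT.nd (nat_lit 78) (nat_lit 152) (nat_lit 0) (XT.lf (nat_lit 0) (nat_lit 15942281045) (nat_lit 76) (nat_lit 6798882307) (nat_lit 76) (nat_lit 3512809493) (nat_lit 10) (nat_lit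 4) (nat_lit 11) (nat_lit 5) (nat_lit 11) (nat_lit 4) (nat_lit 322) (nat_lit 235) (nat_lit 223)) (XT.nd (nat_lit 78) (nat_lit 76) (nat_lit 0) (XT.lf (nat_lit 0) (nat_lit 384472664) (nat_lit 152) (nat_lit 2694521825) (nat_lit 76) (nat_lit 24273534263) (nat_lit 9) (nat_lit 5) (nat_lit 11) (nat_lit 5) (nat_lit 10) (nat_lit 4) (nat_lit 323) (nat_lit 235) (nat_lit 222)) (XT.lf (nat_lit 0) (nat_lit 4346685186) (nat_lit 152) (nat_lit 23305583688) (nat_lit 0) (nat_lit 851498519) (nat_lit 8) (nat_lit 5) (nat_lit 10) (nat_lit 4) (nat_lit 8) (nat_lit 4) (nat_lit 324) (nat_lit 235) (nat_lit 221))))) (XT.nd (nat_lit 156) (nat_lit 76) (nat_lit 0) (XT.nd (nat_lit 78) (nat_lit 0) (nat_lit 0) (XT.lf (nat_lit 0) (nat_lit 8497452315) (nat_lit 152) (nat_lit 16383212161) (nat_lit 0) (nat_lit 4832419650) (nat_lit 8) (nat_lit 5) (nat_lit 10) (nat_lit 4) (nat_lit 8) (nat_lit 4) (nat_lit 325) (nat_lit 235) (nat_lit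 220)) (XT.lf (nat_lit 0) (nat_lit 12754412606) (nat_lit 152) (nat_lit 9305936030) (nat_lit 0) (nat_lit 8927621848) (nat_lit 8) (nat_lit 5) (nat_lit 10) (nat_lit 4) (nat_lit 8) (nat_lit 4) (nat_lit 326) (nat_lit 235) (nat_lit 219))) (XT.nd (nat_lit 78) (nat_lit 76) (nat_lit 0) (XT.lf (nat_lit 0) (nat_lit 17127701680) (nat_lit 152) (nat_lit 2056904638) (nat_lit 0) (nat_lit 13146855595) (nat_lit 8) (nat_lit 5) (nat_lit 10) (nat_lit 4) (nat_lit 8) (nat_lit 4) (nat_lit 327) (nat_lit 235) (nat_lit 218)) (XT.nd (nat_lit 78) (nat_lit 0) (nat_lit 0) (XT.lf (nat_lit 0) (nat_lit 5559066457) (nat_lit 76) (nat_lit 16155458280) (nat_lit 76) (nat_lit 12027892836) (nat_lit 7) (nat_lit 4) (nat_lit 8) (nat_lit 5) (nat_lit 8) (nat_lit 4) (nat_lit 328) (nat_lit 235) (nat_lit 217)) (XT.lf (nat_lit 0) (nat_lit 13456607848) (nat_lit 76) (nat_lit 13018705826) (nat_lit 76) (nat_lit 8751407660) (nat_lit 7) (nat_lit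 4) (nat_lit 8) (nat_lit 5) (nat_lit 8) (nat_lit 4) (nat_lit 329) (nat_lit 235) (nat_lit 216)))))) (XT.nd (nat_lit 390) (nat_lit 0) (nat_lit 0) (XT.nd (nat_lit 156) (nat_lit 152) (nat_lit 0) (XT.nd (nat_lit 78) (nat_lit 0) (nat_lit 0) (XT.lf (nat_lit 0) (nat_lit 21586512648) (nat_lit 76) (nat_lit 9801715176) (nat_lit 76) (nat_lit 5401338226) (nat_lit 7) (nat_lit 4) (nat_lit 8) (nat_lit 5) (nat_lit 8) (nat_lit 4) (nat_lit 330) (nat_lit 235) (nat_lit 215)) (XT.lf (nat_lit 0) (nat_lit 29968137773) (nat_lit 76) (nat_lit 6496826827) (nat_lit 76) (nat_lit 1969708178) (nat_lit 7) (nat_lit 4) (nat_lit 8) (nat_lit 5) (nat_lit 8) (nat_lit 4) (nat_lit 331) (nat_lit 235) (nat_lit 214))) (XT.nd (nat_lit 78) (nat_lit 76) (nat_lit 0) (XT.lf (nat_lit 0) (nat_lit 1501990444) (nat_lit 152) (nat_lit 1568744618) (nat_lit 76) (nat_lit 37094012095) (nat_lit 6) (nat_lit 5) (nat_lit 8) (nat_lit 5) (nat_lit 7)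 (nat_lit 4) (nat_lit 332) (nat_lit 235) (nat_lit 213)) (XT.nd (nat_lit 78) (nat_lit 0) (nat_lit 0) (XT.lf (nat_lit 0) (nat_lit 5103463396) (nat_lit 152) (nat_lit 36307673719) (nat_lit 0) (nat_lit 567479124) (nat_lit 5) (nat_lit 5) (nat_lit 7) (nat_lit 4) (nat_lit 5) (nat_lit 4) (nat_lit 333) (nat_lit 235) (nat_lit 212)) (XT.lf (nat_lit 0) (nat_lit 8887254342) (nat_lit 152) (nat_lit 30748836403) (nat_lit 0) (nat_lit 4246999361) (nat_lit 5) (nat_lit 5) (nat_lit 7) (nat_lit 4) (nat_lit 5) (nat_lit 4) (nat_lit 334) (nat_lit 235) (nat_lit 211))))) (XT.nd (nat_lit 156) (nat_lit 0) (nat_lit 0) (XT.nd (nat_lit 78) (nat_lit 0) (nat_lit 0) (XT.lf (nat_lit 0) (nat_lit 12788712404) (nat_lit 152) (nat_lit 25048521826) (nat_lit 0) (nat_lit 8049151986) (nat_lit 5) (nat_lit 5) (nat_lit 7) (nat_lit 4) (nat_lit 5) (nat_lit 4) (nat_lit 335) (nat_lit 235) (nat_lit 210)) (XT.lf (nat_lit 0) (nat_lit 16817126767)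 (nat_lit 152) (nat_lit 19193157811) (nat_lit 0) (nat_lit 11982989742) (nat_lit 5) (nat_lit 5) (nat_lit 7) (nat_lit 4) (nat_lit 5) (nat_lit 4) (nat_lit 336) (nat_lit 235) (nat_lit 209))) (XT.nd (nat_lit 78) (nat_lit 0) (nat_lit 0) (XT.lf (nat_lit 0) (nat_lit 20982088893) (nat_lit 152) (nat_lit 13168803015) (nat_lit 0) (nat_lit 16057878909) (nat_lit 5) (nat_lit 5) (nat_lit 7) (nat_lit 4) (nat_lit 5) (nat_lit 4) (nat_lit 337) (nat_lit 235) (nat_lit 208)) (XT.nd (nat_lit 78) (nat_lit 0) (nat_lit 0) (XT.lf (nat_lit 0) (nat_lit 25293515360) (nat_lit 152) (nat_lit 6961113736) (nat_lit 0) (nat_lit 20283521605) (nat_lit 5) (nat_lit 5) (nat_lit 7) (nat_lit 4) (nat_lit 5) (nat_lit 4) (nat_lit 338) (nat_lit 235) (nat_lit 207)) (XT.lf (nat_lit 0) (nat_lit 29761671468) (nat_lit 152) (nat_lit 555309761) (nat_lit 0) (nat_lit 24669978885) (nat_lit 5) (nat_lit 5) (nat_lit 7) (nat_lit 4) (nat_lit 5) (nat_lit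 4) (nat_lit 339) (nat_lit 235) (nat_lit 206))))))) (XT.nd (nat_lit 780) (nat_lit 152) (nat_lit 0) (XT.nd (nat_lit 390) (nat_lit 0) (nat_lit 0) (XT.nd (nat_lit 156) (nat_lit 0) (nat_lit 0) (XT.nd (nat_lit 78) (nat_lit 0) (nat_lit 0) (XT.lf (nat_lit 0) (nat_lit 6264359446) (nat_lit 76) (nat_lit 28230640445) (nat_lit 76) (nat_lit 23061139453) (nat_lit 4) (nat_lit 4) (nat_lit 5) (nat_lit 5) (nat_lit 5) (nat_lit 4) (nat_lit 340) (nat_lit 235) (nat_lit 205)) (XT.lf (nat_lit 0) (nat_lit 13339092201) (nat_lit 76) (nat_lit 26080293383) (nat_lit 76) (nat_lit 20836689144) (nat_lit 4) (nat_lit 4) (nat_lit 5) (nat_lit 5) (nat_lit 5) (nat_lit 4) (nat_lit 341) (nat_lit 235) (nat_lit 204))) (XT.nd (nat_lit 78) (nat_lit 0) (nat_lit 0) (XT.lf (nat_lit 0) (nat_lit 20667372056) (nat_lit 76) (nat_lit 23870224609) (nat_lit 76) (nat_lit 18556045850) (nat_lit 4) (nat_lit 4) (nat_lit 5) (nat_lit 5) (nat_lit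 5) (nat_lit 4) (nat_lit 342) (nat_lit 235) (nat_lit 203)) (XT.nd (nat_lit 78) (nat_lit 0) (nat_lit 0) (XT.lf (nat_lit 0) (nat_lit 28266647295) (nat_lit 76) (nat_lit 21595172055) (nat_lit 76) (nat_lit 16213779467) (nat_lit 4) (nat_lit 4) (nat_lit 5) (nat_lit 5) (nat_lit 5) (nat_lit 4) (nat_lit 343) (nat_lit 235) (nat_lit 202)) (XT.lf (nat_lit 0) (nat_lit 36155011433) (nat_lit 76) (nat_lit 19249718928) (nat_lit 76) (nat_lit 13804313170) (nat_lit 4) (nat_lit 4) (nat_lit 5) (nat_lit 5) (nat_lit 5) (nat_lit 4) (nat_lit 344) (nat_lit 235) (nat_lit 201))))) (XT.nd (nat_lit 156) (nat_lit 0) (nat_lit 0) (XT.nd (nat_lit 78) (nat_lit 0) (nat_lit 0) (XT.lf (nat_lit 0) (nat_lit 44351246287) (nat_lit 76) (nat_lit 16828280818) (nat_lit 76) (nat_lit 11321910136) (nat_lit 4) (nat_lit 4) (nat_lit 5) (nat_lit 5) (nat_lit 5) (nat_lit 4) (nat_lit 345) (nat_lit 235) (nat_lit 200)) (XT.lf (nat_lit 0) (nat_lit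 52874866703) (nat_lit 76) (nat_lit 14325092394) (nat_lit 76) (nat_lit 8760659880) (nat_lit 4) (nat_lit 4) (nat_lit 5) (nat_lit 5) (nat_lit 5) (nat_lit 4) (nat_lit 346) (nat_lit 235) (nat_lit 199))) (XT.nd (nat_lit 78) (nat_lit 0) (nat_lit 0) (XT.lf (nat_lit 0) (nat_lit 61746167015) (nat_lit 76) (nat_lit 11734193685) (nat_lit 76) (nat_lit 6114464187) (nat_lit 4) (nat_lit 4) (nat_lit 5) (nat_lit 5) (nat_lit 5) (nat_lit 4) (nat_lit 347) (nat_lit 235) (nat_lit 198)) (XT.nd (nat_lit 78) (nat_lit 0) (nat_lit 0) (XT.lf (nat_lit 0) (nat_lit 70986269366) (nat_lit 76) (nat_lit 9049415884) (nat_lit 76) (nat_lit 3377022593) (nat_lit 4) (nat_lit 4) (nat_lit 5) (nat_lit 5) (nat_lit 5) (nat_lit 4) (nat_lit 348) (nat_lit 235) (nat_lit 197)) (XT.lf (nat_lit 0) (nat_lit 80617174001) (nat_lit 76) (nat_lit 6264366663) (nat_lit 76) (nat_lit 541817378) (nat_lit 4) (nat_lit 4) (nat_lit 5) (nat_lit 5) (nat_lit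 5) (nat_lit 4) (nat_lit 349) (nat_lit 235) (nat_lit 196)))))) (XT.nd (nat_lit 390) (nat_lit 0) (nat_lit 0) (XT.nd (nat_lit 156) (nat_lit 0) (nat_lit 0) (XT.nd (nat_lit 78) (nat_lit 76) (nat_lit 0) (XT.lf (nat_lit 0) (nat_lit 2321154108) (nat_lit 152) (nat_lit 1011950976) (nat_lit 76) (nat_lit 88301347669) (nat_lit 3) (nat_lit 5) (nat_lit 5) (nat_lit 5) (nat_lit 4) (nat_lit 4) (nat_lit 350) (nat_lit 235) (nat_lit 195)) (XT.lf (nat_lit 0) (nat_lit 5162619353) (nat_lit 76) (nat_lit 192711971) (nat_lit 152) (nat_lit 90698023258) (nat_lit 2) (nat_lit 5) (nat_lit 3) (nat_lit 5) (nat_lit 4) (nat_lit 4) (nat_lit 351) (nat_lit 235) (nat_lit 194))) (XT.nd (nat_lit 78) (nat_lit 0) (nat_lit 0) (XT.lf (nat_lit 0) (nat_lit 8572914268) (nat_lit 152) (nat_lit 89125927441) (nat_lit 0) (nat_lit 2992784271) (nat_lit 2) (nat_lit 5) (nat_lit 4) (nat_lit 4) (nat_lit 2) (nat_lit 4) (nat_lit 352) (nat_lit 235)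 (nat_lit 193)) (XT.nd (nat_lit 78) (nat_lit 0) (nat_lit 0) (XT.lf (nat_lit 0) (nat_lit 11921968862) (nat_lit 152) (nat_lit 87338781003) (nat_lit 0) (nat_lit 6302540331) (nat_lit 2) (nat_lit 5) (nat_lit 4) (nat_lit 4) (nat_lit 2) (nat_lit 4) (nat_lit 353) (nat_lit 235) (nat_lit 192)) (XT.lf (nat_lit 0) (nat_lit 15407460272) (nat_lit 152) (nat_lit 85522032032) (nat_lit 0) (nat_lit 9750604566) (nat_lit 2) (nat_lit 5) (nat_lit 4) (nat_lit 4) (nat_lit 2) (nat_lit 4) (nat_lit 354) (nat_lit 235) (nat_lit 191))))) (XT.nd (nat_lit 234) (nat_lit 0) (nat_lit 0) (XT.nd (nat_lit 78) (nat_lit 0) (nat_lit 0) (XT.lf (nat_lit 0) (nat_lit 19037687288) (nat_lit 152) (nat_lit 83671354935) (nat_lit 0) (nat_lit 13345186654) (nat_lit 2) (nat_lit 5) (nat_lit 4) (nat_lit 4) (nat_lit 2) (nat_lit 4) (nat_lit 355) (nat_lit 235) (nat_lit 190)) (XT.nd (nat_lit 78) (nat_lit 0) (nat_lit 0) (XT.lf (nat_lit 0) (nat_lit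 22821293308) (nat_lit 152) (nat_lit 81782343337) (nat_lit 0) (nat_lit 17094845123) (nat_lit 2) (nat_lit 5) (nat_lit 4) (nat_lit 4) (nat_lit 2) (nat_lit 4) (nat_lit 356) (nat_lit 235) (nat_lit 189)) (XT.lf (nat_lit 0) (nat_lit 26767286917) (nat_lit 152) (nat_lit 79850499593) (nat_lit 0) (nat_lit 21008507731) (nat_lit 2) (nat_lit 5) (nat_lit 4) (nat_lit 4) (nat_lit 2) (nat_lit 4) (nat_lit 357) (nat_lit 235) (nat_lit 188)))) (XT.nd (nat_lit 78) (nat_lit 0) (nat_lit 0) (XT.lf (nat_lit 0) (nat_lit 30885063338) (nat_lit 152) (nat_lit 77871224074) (nat_lit 0) (nat_lit 25095492723) (nat_lit 2) (nat_lit 5) (nat_lit 4) (nat_lit 4) (nat_lit 2) (nat_lit 4) (nat_lit 358) (nat_lit 235) (nat_lit 187)) (XT.nd (nat_lit 78) (nat_lit 0) (nat_lit 0) (XT.lf (nat_lit 0) (nat_lit 35184426801) (nat_lit 152) (nat_lit 75839804220) (nat_lit 0) (nat_lit 29365531015) (nat_lit 2) (nat_lit 5) (nat_lit 4) (nat_lit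 4) (nat_lit 2) (nat_lit 4) (nat_lit 359) (nat_lit 235) (nat_lit 186)) (XT.lf (nat_lit 0) (nat_lit 39675613885) (nat_lit 152) (nat_lit 73751403315) (nat_lit 0) (nat_lit 33828789365) (nat_lit 2) (nat_lit 5) (nat_lit 4) (nat_lit 4) (nat_lit 2) (nat_lit 4) (nat_lit 360) (nat_lit 235) (nat_lit 185))))))))
noncomputable def xc43 : XT := (XT.nd (nat_lit 1638) (nat_lit 76) (nat_lit 0) (XT.nd (nat_lit 780) (nat_lit 0) (nat_lit 0) (XT.nd (nat_lit 390) (nat_lit 0) (nat_lit 0) (XT.nd (nat_lit 156) (nat_lit 0) (nat_lit 0) (XT.nd (nat_lit 78) (nat_lit 0) (nat_lit 0) (XT.lf (nat_lit 0) (nat_lit 44369317893) (nat_lit 152) (nat_lit 71601048979) (nat_lit 0) (nat_lit 38495894578) (nat_lit 2) (nat_lit 5) (nat_lit 4) (nat_lit 4) (nat_lit 2) (nat_lit 4) (nat_lit 361) (nat_lit 235) (nat_lit 184)) (XT.lf (nat_lit 0) (nat_lit 49276714311) (nat_lit 152) (nat_lit 69383621318) (nat_lit 0) (nat_lit 43377958810)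 (nat_lit 2) (nat_lit 5) (nat_lit 4) (nat_lit 4) (nat_lit 2) (nat_lit 4) (nat_lit 362) (nat_lit 235) (nat_lit 183))) (XT.nd (nat_lit 78) (nat_lit 0) (nat_lit 0) (XT.lf (nat_lit 0) (nat_lit 54409487415) (nat_lit 152) (nat_lit 67093840744) (nat_lit 0) (nat_lit 48486606024) (nat_lit 2) (nat_lit 5) (nat_lit 4) (nat_lit 4) (nat_lit 2) (nat_lit 4) (nat_lit 363) (nat_lit 235) (nat_lit 182)) (XT.nd (nat_lit 78) (nat_lit 0) (nat_lit 0) (XT.lf (nat_lit 0) (nat_lit 59779858094) (nat_lit 152) (nat_lit 64726255398) (nat_lit 0) (nat_lit 53833999665) (nat_lit 2) (nat_lit 5) (nat_lit 4) (nat_lit 4) (nat_lit 2) (nat_lit 4) (nat_lit 364) (nat_lit 235) (nat_lit 181)) (XT.lf (nat_lit 0) (nat_lit 65400612946) (nat_lit 152) (nat_lit 62275228172) (nat_lit 0) (nat_lit 59432871623) (nat_lit 2) (nat_lit 5) (nat_lit 4) (nat_lit 4) (nat_lit 2) (nat_lit 4) (nat_lit 365) (nat_lit 235) (nat_lit 180))))) (XT.nd (nat_lit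 156) (nat_lit 0) (nat_lit 0) (XT.nd (nat_lit 78) (nat_lit 0) (nat_lit 0) (XT.lf (nat_lit 0) (nat_lit 71285134719) (nat_lit 152) (nat_lit 59734923287) (nat_lit 0) (nat_lit 65296552545) (nat_lit 2) (nat_lit 5) (nat_lit 4) (nat_lit 4) (nat_lit 2) (nat_lit 4) (nat_lit 366) (nat_lit 235) (nat_lit 179)) (XT.lf (nat_lit 0) (nat_lit 77447434180) (nat_lit 152) (nat_lit 57099292398) (nat_lit 0) (nat_lit 71439003576) (nat_lit 2) (nat_lit 5) (nat_lit 4) (nat_lit 4) (nat_lit 2) (nat_lit 4) (nat_lit 367) (nat_lit 235) (nat_lit 178))) (XT.nd (nat_lit 78) (nat_lit 0) (nat_lit 0) (XT.lf (nat_lit 0) (nat_lit 83902183471) (nat_lit 152) (nat_lit 54362060193) (nat_lit 0) (nat_lit 77874849599) (nat_lit 2) (nat_lit 5) (nat_lit 4) (nat_lit 4) (nat_lit 2) (nat_lit 4) (nat_lit 368) (nat_lit 235) (nat_lit 177)) (XT.nd (nat_lit 78) (nat_lit 0) (nat_lit 0) (XT.lf (nat_lit 0) (nat_lit 90664751041) (nat_lit 152) (nat_lit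 51516709453) (nat_lit 0) (nat_lit 84619414059) (nat_lit 2) (nat_lit 5) (nat_lit 4) (nat_lit 4) (nat_lit 2) (nat_lit 4) (nat_lit 369) (nat_lit 235) (nat_lit 176)) (XT.lf (nat_lit 0) (nat_lit 97751238243) (nat_lit 152) (nat_lit 48556465532) (nat_lit 0) (nat_lit 91688755441) (nat_lit 2) (nat_lit 5) (nat_lit 4) (nat_lit 4) (nat_lit 2) (nat_lit 4) (nat_lit 370) (nat_lit 235) (nat_lit 175)))))) (XT.nd (nat_lit 390) (nat_lit 0) (nat_lit 0) (XT.nd (nat_lit 156) (nat_lit 0) (nat_lit 0) (XT.nd (nat_lit 78) (nat_lit 0) (nat_lit 0) (XT.lf (nat_lit 0) (nat_lit 105178517665) (nat_lit 152) (nat_lit 45474280233) (nat_lit 0) (nat_lit 99099705510) (nat_lit 2) (nat_lit 5) (nat_lit 4) (nat_lit 4) (nat_lit 2) (nat_lit 4) (nat_lit 371) (nat_lit 235) (nat_lit 174)) (XT.lf (nat_lit 0) (nat_lit 112964273306) (nat_lit 152) (nat_lit 42262815017) (nat_lit 0) (nat_lit 106869909387) (nat_lit 2) (nat_lit 5) (nat_lit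 4) (nat_lit 4) (nat_lit 2) (nat_lit 4) (nat_lit 372) (nat_lit 235) (nat_lit 173))) (XT.nd (nat_lit 78) (nat_lit 0) (nat_lit 0) (XT.lf (nat_lit 0) (nat_lit 121127042678) (nat_lit 152) (nat_lit 38914423539) (nat_lit 0) (nat_lit 115017867555) (nat_lit 2) (nat_lit 5) (nat_lit 4) (nat_lit 4) (nat_lit 2) (nat_lit 4) (nat_lit 373) (nat_lit 235) (nat_lit 172)) (XT.nd (nat_lit 78) (nat_lit 0) (nat_lit 0) (XT.lf (nat_lit 0) (nat_lit 129686260948) (nat_lit 152) (nat_lit 35421133438) (nat_lit 0) (nat_lit 123562979916) (nat_lit 2) (nat_lit 5) (nat_lit 4) (nat_lit 4) (nat_lit 2) (nat_lit 4) (nat_lit 374) (nat_lit 235) (nat_lit 171)) (XT.lf (nat_lit 0) (nat_lit 138662307206) (nat_lit 152) (nat_lit 31774627358) (nat_lit 0) (nat_lit 132525591976) (nat_lit 2) (nat_lit 5) (nat_lit 4) (nat_lit 4) (nat_lit 2) (nat_lit 4) (nat_lit 375) (nat_lit 235) (nat_lit 170))))) (XT.nd (nat_lit 234) (nat_lit 0) (nat_lit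 0) (XT.nd (nat_lit 78) (nat_lit 0) (nat_lit 0) (XT.lf (nat_lit 0) (nat_lit 148076552992) (nat_lit 152) (nat_lit 27966223141) (nat_lit 0) (nat_lit 141927043286) (nat_lit 2) (nat_lit 5) (nat_lit 4) (nat_lit 4) (nat_lit 2) (nat_lit 4) (nat_lit 376) (nat_lit 235) (nat_lit 169)) (XT.nd (nat_lit 78) (nat_lit 0) (nat_lit 0) (XT.lf (nat_lit 0) (nat_lit 157951413175) (nat_lit 152) (nat_lit 23986853157) (nat_lit 0) (nat_lit 151789718255) (nat_lit 2) (nat_lit 5) (nat_lit 4) (nat_lit 4) (nat_lit 2) (nat_lit 4) (nat_lit 377) (nat_lit 235) (nat_lit 168)) (XT.lf (nat_lit 0) (nat_lit 168310399328) (nat_lit 152) (nat_lit 19827042716) (nat_lit 0) (nat_lit 162137099442) (nat_lit 2) (nat_lit 5) (nat_lit 4) (nat_lit 4) (nat_lit 2) (nat_lit 4) (nat_lit 378) (nat_lit 235) (nat_lit 167)))) (XT.nd (nat_lit 78) (nat_lit 0) (nat_lit 0) (XT.lf (nat_lit 0) (nat_lit 179178175703) (nat_lit 152) (nat_lit 15476887508)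 (nat_lit 0) (nat_lit 172993823469) (nat_lit 2) (nat_lit 5) (nat_lit 4) (nat_lit 4) (nat_lit 2) (nat_lit 4) (nat_lit 379) (nat_lit 235) (nat_lit 166)) (XT.nd (nat_lit 78) (nat_lit 0) (nat_lit 0) (XT.lf (nat_lit 0) (nat_lit 190580617960) (nat_lit 152) (nat_lit 10926030021) (nat_lit 0) (nat_lit 184385739679) (nat_lit 2) (nat_lit 5) (nat_lit 4) (nat_lit 4) (nat_lit 2) (nat_lit 4) (nat_lit 380) (nat_lit 235) (nat_lit 165)) (XT.lf (nat_lit 0) (nat_lit 202544874768) (nat_lit 152) (nat_lit 6163634878) (nat_lit 0) (nat_lit 196339971682) (nat_lit 2) (nat_lit 5) (nat_lit 4) (nat_lit 4) (nat_lit 2) (nat_lit 4) (nat_lit 381) (nat_lit 235) (nat_lit 164))))))) (XT.nd (nat_lit 780) (nat_lit 0) (nat_lit 0) (XT.nd (nat_lit 390) (nat_lit 0) (nat_lit 0) (XT.nd (nat_lit 156) (nat_lit 0) (nat_lit 0) (XT.nd (nat_lit 78) (nat_lit 76) (nat_lit 0) (XT.lf (nat_lit 0) (nat_lit 215099432456) (nat_lit 152) (nat_lit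 1178363045) (nat_lit 0) (nat_lit 208884981935) (nat_lit 2) (nat_lit 5) (nat_lit 4) (nat_lit 4) (nat_lit 2) (nat_lit 4) (nat_lit 382) (nat_lit 235) (nat_lit 163)) (XT.lf (nat_lit 0) (nat_lit 4175290545) (nat_lit 76) (nat_lit 224164080266) (nat_lit 76) (nat_lit 217940536951) (nat_lit 1) (nat_lit 4) (nat_lit 2) (nat_lit 5) (nat_lit 2) (nat_lit 4) (nat_lit 383) (nat_lit 235) (nat_lit 162))) (XT.nd (nat_lit 78) (nat_lit 0) (nat_lit 0) (XT.lf (nat_lit 0) (nat_lit 9823253863) (nat_lit 76) (nat_lit 232430608990) (nat_lit 76) (nat_lit 226198405871) (nat_lit 1) (nat_lit 4) (nat_lit 2) (nat_lit 5) (nat_lit 2) (nat_lit 4) (nat_lit 384) (nat_lit 235) (nat_lit 161)) (XT.nd (nat_lit 78) (nat_lit 0) (nat_lit 0) (XT.lf (nat_lit 0) (nat_lit 15740012434) (nat_lit 76) (nat_lit 241117020032) (nat_lit 76) (nat_lit 234876569480) (nat_lit 1) (nat_lit 4) (nat_lit 2) (nat_lit 5) (nat_lit 2) (nat_lit 4) (nat_lit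 385) (nat_lit 235) (nat_lit 160)) (XT.lf (nat_lit 0) (nat_lit 21939653780) (nat_lit 76) (nat_lit 250243995323) (nat_lit 76) (nat_lit 243995690073) (nat_lit 1) (nat_lit 4) (nat_lit 2) (nat_lit 5) (nat_lit 2) (nat_lit 4) (nat_lit 386) (nat_lit 235) (nat_lit 159))))) (XT.nd (nat_lit 156) (nat_lit 0) (nat_lit 0) (XT.nd (nat_lit 78) (nat_lit 0) (nat_lit 0) (XT.lf (nat_lit 0) (nat_lit 28436938951) (nat_lit 76) (nat_lit 259833265757) (nat_lit 76) (nat_lit 253577479843) (nat_lit 1) (nat_lit 4) (nat_lit 2) (nat_lit 5) (nat_lit 2) (nat_lit 4) (nat_lit 387) (nat_lit 235) (nat_lit 158)) (XT.lf (nat_lit 0) (nat_lit 35247337674) (nat_lit 76) (nat_lit 269907662930) (nat_lit 76) (nat_lit 263644752574) (nat_lit 1) (nat_lit 4) (nat_lit 2) (nat_lit 5) (nat_lit 2) (nat_lit 4) (nat_lit 388) (nat_lit 235) (nat_lit 157))) (XT.nd (nat_lit 78) (nat_lit 0) (nat_lit 0) (XT.lf (nat_lit 0) (nat_lit 42387065183)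 (nat_lit 76) (nat_lit 280491173502) (nat_lit 76) (nat_lit 274221477963) (nat_lit 1) (nat_lit 4) (nat_lit 2) (nat_lit 5) (nat_lit 2) (nat_lit 4) (nat_lit 389) (nat_lit 235) (nat_lit 156)) (XT.nd (nat_lit 78) (nat_lit 0) (nat_lit 0) (XT.lf (nat_lit 0) (nat_lit 49873120831) (nat_lit 76) (nat_lit 291608996308) (nat_lit 76) (nat_lit 285332838689) (nat_lit 1) (nat_lit 4) (nat_lit 2) (nat_lit 5) (nat_lit 2) (nat_lit 4) (nat_lit 390) (nat_lit 235) (nat_lit 155)) (XT.lf (nat_lit 0) (nat_lit 57723328558) (nat_lit 76) (nat_lit 303287602354) (nat_lit 76) (nat_lit 297005290375) (nat_lit 1) (nat_lit 4) (nat_lit 2) (nat_lit 5) (nat_lit 2) (nat_lit 4) (nat_lit 391) (nat_lit 235) (nat_lit 154)))))) (XT.nd (nat_lit 34398) (nat_lit 0) (nat_lit 912) (XT.nd (nat_lit 34164) (nat_lit 0) (nat_lit 1140) (XT.nd (nat_lit 34086) (nat_lit 0) (nat_lit 1368) (XT.lf (nat_lit 0) (nat_lit 65956379337) (nat_lit 76) (nat_lit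 315554797846) (nat_lit 76) (nat_lit 309266624570) (nat_lit 1) (nat_lit 4) (nat_lit 2) (nat_lit 5) (nat_lit 2) (nat_lit 4) (nat_lit 392) (nat_lit 235) (nat_lit 153)) (XT.lf (nat_lit 0) (nat_lit 4960246702) (nat_lit 152) (nat_lit 1428579602) (nat_lit 152) (nat_lit 1428579602) (nat_lit 19) (nat_lit 4) (nat_lit 21) (nat_lit 5) (nat_lit 21) (nat_lit 4) (nat_lit 308) (nat_lit 236) (nat_lit 236))) (XT.nd (nat_lit 78) (nat_lit 76) (nat_lit 0) (XT.lf (nat_lit 0) (nat_lit 1655110315) (nat_lit 152) (nat_lit 13265221475) (nat_lit 0) (nat_lit 1246355670) (nat_lit 17) (nat_lit 5) (nat_lit 19) (nat_lit 4) (nat_lit 17) (nat_lit 4) (nat_lit 309) (nat_lit 236) (nat_lit 235)) (XT.nd (nat_lit 78) (nat_lit 76) (nat_lit 0) (XT.lf (nat_lit 0) (nat_lit 6280519912) (nat_lit 152) (nat_lit 4960730536) (nat_lit 0) (nat_lit 5482475128) (nat_lit 17) (nat_lit 5) (nat_lit 19) (nat_lit 4) (nat_lit 17) (nat_lit 4) (nat_lit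 310) (nat_lit 236) (nat_lit 234)) (XT.lf (nat_lit 0) (nat_lit 3596400419) (nat_lit 76) (nat_lit 7442993260) (nat_lit 76) (nat_lit 6274195964) (nat_lit 16) (nat_lit 4) (nat_lit 17) (nat_lit 5) (nat_lit 17) (nat_lit 4) (nat_lit 311) (nat_lit 236) (nat_lit 233))))) (XT.nd (nat_lit 234) (nat_lit 76) (nat_lit 0) (XT.nd (nat_lit 78) (nat_lit 152) (nat_lit 0) (XT.lf (nat_lit 0) (nat_lit 12480400382) (nat_lit 76) (nat_lit 3488932554) (nat_lit 76) (nat_lit 1967037627) (nat_lit 16) (nat_lit 4) (nat_lit 17) (nat_lit 5) (nat_lit 17) (nat_lit 4) (nat_lit 312) (nat_lit 236) (nat_lit 232)) (XT.nd (nat_lit 78) (nat_lit 0) (nat_lit 0) (XT.lf (nat_lit 0) (nat_lit 2384457029) (nat_lit 152) (nat_lit 15593609110) (nat_lit 0) (nat_lit 614763328) (nat_lit 14) (nat_lit 5) (nat_lit 16) (nat_lit 4) (nat_lit 14) (nat_lit 4) (nat_lit 313) (nat_lit 236) (nat_lit 231)) (XT.lf (nat_lit 0) (nat_lit 6893446959) (nat_lit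 152) (nat_lit 7568085369) (nat_lit 0) (nat_lit 4818734249) (nat_lit 14) (nat_lit 5) (nat_lit 16) (nat_lit 4) (nat_lit 14) (nat_lit 4) (nat_lit 314) (nat_lit 236) (nat_lit 230)))) (XT.nd (nat_lit 78) (nat_lit 0) (nat_lit 0) (XT.lf (nat_lit 0) (nat_lit 625174975) (nat_lit 76) (nat_lit 10874296950) (nat_lit 76) (nat_lit 8509089945) (nat_lit 13) (nat_lit 4) (nat_lit 14) (nat_lit 5) (nat_lit 14) (nat_lit 4) (nat_lit 315) (nat_lit 236) (nat_lit 229)) (XT.nd (nat_lit 78) (nat_lit 0) (nat_lit 0) (XT.lf (nat_lit 0) (nat_lit 9241385589) (nat_lit 76) (nat_lit 7087091553) (nat_lit 76) (nat_lit 4445223315) (nat_lit 13) (nat_lit 4) (nat_lit 14) (nat_lit 5) (nat_lit 14) (nat_lit 4) (nat_lit 316) (nat_lit 236) (nat_lit 228)) (XT.lf (nat_lit 0) (nat_lit 18050826179) (nat_lit 76) (nat_lit 3219068170) (nat_lit 76) (nat_lit 313713043) (nat_lit 13) (nat_lit 4) (nat_lit 14) (nat_lit 5) (nat_lit 14) (nat_lit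 4) (nat_lit 317) (nat_lit 236) (nat_lit 227))))))))
noncomputable def xc44 : XT := (XT.nd (nat_lit 1560) (nat_lit 228) (nat_lit 0) (XT.nd (nat_lit 780) (nat_lit 228) (nat_lit 0) (XT.nd (nat_lit 390) (nat_lit 152) (nat_lit 0) (XT.nd (nat_lit 156) (nat_lit 76) (nat_lit 0) (XT.nd (nat_lit 78) (nat_lit 0) (nat_lit 0) (XT.lf (nat_lit 0) (nat_lit 3858113659) (nat_lit 152) (nat_lit 17722562700) (nat_lit 0) (nat_lit 852118401) (nat_lit 11) (nat_lit 5) (nat_lit 13) (nat_lit 4) (nat_lit 11) (nat_lit 4) (nat_lit 318) (nat_lit 236) (nat_lit 226)) (XT.lf (nat_lit 0) (nat_lit 8217391603) (nat_lit 152) (nat_lit 10123587555) (nat_lit 0) (nat_lit 4983786463) (nat_lit 11) (nat_lit 5) (nat_lit 13) (nat_lit 4) (nat_lit 11) (nat_lit 4) (nat_lit 319) (nat_lit 236) (nat_lit 225))) (XT.nd (nat_lit 78) (nat_lit 76) (nat_lit 0) (XT.lf (nat_lit 0) (nat_lit 12676367675) (nat_lit 152) (nat_lit 2364938373) (nat_lit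 0) (nat_lit 9225991220) (nat_lit 11) (nat_lit 5) (nat_lit 13) (nat_lit 4) (nat_lit 11) (nat_lit 4) (nat_lit 320) (nat_lit 236) (nat_lit 224)) (XT.nd (nat_lit 78) (nat_lit 0) (nat_lit 0) (XT.lf (nat_lit 0) (nat_lit 5756088601) (nat_lit 76) (nat_lit 11579438558) (nat_lit 76) (nat_lit 7922613231) (nat_lit 10) (nat_lit 4) (nat_lit 11) (nat_lit 5) (nat_lit 11) (nat_lit 4) (nat_lit 321) (nat_lit 236) (nat_lit 223)) (XT.lf (nat_lit 0) (nat_lit 14158870433) (nat_lit 76) (nat_lit 7998332511) (nat_lit 76) (nat_lit 4144889211) (nat_lit 10) (nat_lit 4) (nat_lit 11) (nat_lit 5) (nat_lit 11) (nat_lit 4) (nat_lit 322) (nat_lit 236) (nat_lit 222))))) (XT.nd (nat_lit 156) (nat_lit 0) (nat_lit 0) (XT.nd (nat_lit 78) (nat_lit 152) (nat_lit 0) (XT.lf (nat_lit 0) (nat_lit 22785218203) (nat_lit 76) (nat_lit 4329512841) (nat_lit 76) (nat_lit 288814328) (nat_lit 10) (nat_lit 4) (nat_lit 11) (nat_lit 5) (nat_lit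 11) (nat_lit 4) (nat_lit 323) (nat_lit 236) (nat_lit 221)) (XT.lf (nat_lit 0) (nat_lit 3133787502) (nat_lit 76) (nat_lit 452956064) (nat_lit 152) (nat_lit 24973079542) (nat_lit 8) (nat_lit 5) (nat_lit 9) (nat_lit 5) (nat_lit 10) (nat_lit 4) (nat_lit 324) (nat_lit 236) (nat_lit 220))) (XT.nd (nat_lit 78) (nat_lit 0) (nat_lit 0) (XT.lf (nat_lit 0) (nat_lit 7681002102) (nat_lit 152) (nat_lit 18589867275) (nat_lit 0) (nat_lit 3501113713) (nat_lit 8) (nat_lit 5) (nat_lit 10) (nat_lit 4) (nat_lit 8) (nat_lit 4) (nat_lit 325) (nat_lit 236) (nat_lit 219)) (XT.nd (nat_lit 78) (nat_lit 0) (nat_lit 0) (XT.lf (nat_lit 0) (nat_lit 11890879842) (nat_lit 152) (nat_lit 11601424581) (nat_lit 0) (nat_lit 7556936126) (nat_lit 8) (nat_lit 5) (nat_lit 10) (nat_lit 4) (nat_lit 8) (nat_lit 4) (nat_lit 326) (nat_lit 236) (nat_lit 218)) (XT.lf (nat_lit 0) (nat_lit 16219328390) (nat_lit 152) (nat_lit 4436996462)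 (nat_lit 0) (nat_lit 11738665315) (nat_lit 8) (nat_lit 5) (nat_lit 10) (nat_lit 4) (nat_lit 8) (nat_lit 4) (nat_lit 327) (nat_lit 236) (nat_lit 217)))))) (XT.nd (nat_lit 390) (nat_lit 76) (nat_lit 0) (XT.nd (nat_lit 156) (nat_lit 76) (nat_lit 0) (XT.nd (nat_lit 78) (nat_lit 0) (nat_lit 0) (XT.lf (nat_lit 0) (nat_lit 3017039344) (nat_lit 76) (nat_lit 17706718672) (nat_lit 76) (nat_lit 13086322874) (nat_lit 7) (nat_lit 4) (nat_lit 8) (nat_lit 5) (nat_lit 8) (nat_lit 4) (nat_lit 328) (nat_lit 236) (nat_lit 216)) (XT.lf (nat_lit 0) (nat_lit 10835305779) (nat_lit 76) (nat_lit 14607331792) (nat_lit 76) (nat_lit 9853857211) (nat_lit 7) (nat_lit 4) (nat_lit 8) (nat_lit 5) (nat_lit 8) (nat_lit 4) (nat_lit 329) (nat_lit 236) (nat_lit 215))) (XT.nd (nat_lit 78) (nat_lit 76) (nat_lit 0) (XT.lf (nat_lit 0) (nat_lit 18889710621) (nat_lit 76) (nat_lit 11425927402) (nat_lit 76) (nat_lit 6545711122)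 (nat_lit 7) (nat_lit 4) (nat_lit 8) (nat_lit 5) (nat_lit 8) (nat_lit 4) (nat_lit 330) (nat_lit 236) (nat_lit 214)) (XT.nd (nat_lit 78) (nat_lit 76) (nat_lit 0) (XT.lf (nat_lit 0) (nat_lit 27199431024) (nat_lit 76) (nat_lit 8154930729) (nat_lit 76) (nat_lit 3154008069) (nat_lit 7) (nat_lit 4) (nat_lit 8) (nat_lit 5) (nat_lit 8) (nat_lit 4) (nat_lit 331) (nat_lit 236) (nat_lit 213)) (XT.lf (nat_lit 0) (nat_lit 318786895) (nat_lit 152) (nat_lit 4462367981) (nat_lit 76) (nat_lit 35460066331) (nat_lit 6) (nat_lit 5) (nat_lit 8) (nat_lit 5) (nat_lit 7) (nat_lit 4) (nat_lit 332) (nat_lit 236) (nat_lit 212))))) (XT.nd (nat_lit 156) (nat_lit 0) (nat_lit 0) (XT.nd (nat_lit 78) (nat_lit 0) (nat_lit 0) (XT.lf (nat_lit 0) (nat_lit 2622667977) (nat_lit 76) (nat_lit 1205640968) (nat_lit 152) (nat_lit 38231390376) (nat_lit 5) (nat_lit 5) (nat_lit 6) (nat_lit 5) (nat_lit 7) (nat_lit 4) (nat_lit 333)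 (nat_lit 236) (nat_lit 211)) (XT.lf (nat_lit 0) (nat_lit 7558387466) (nat_lit 152) (nat_lit 33925938694) (nat_lit 0) (nat_lit 2482543590) (nat_lit 5) (nat_lit 5) (nat_lit 7) (nat_lit 4) (nat_lit 5) (nat_lit 4) (nat_lit 334) (nat_lit 236) (nat_lit 210))) (XT.nd (nat_lit 78) (nat_lit 0) (nat_lit 0) (XT.lf (nat_lit 0) (nat_lit 11426617917) (nat_lit 152) (nat_lit 28289022308) (nat_lit 0) (nat_lit 6256197434) (nat_lit 5) (nat_lit 5) (nat_lit 7) (nat_lit 4) (nat_lit 5) (nat_lit 4) (nat_lit 335) (nat_lit 236) (nat_lit 209)) (XT.nd (nat_lit 78) (nat_lit 0) (nat_lit 0) (XT.lf (nat_lit 0) (nat_lit 15423386936) (nat_lit 152) (nat_lit 22494037522) (nat_lit 0) (nat_lit 10162893494) (nat_lit 5) (nat_lit 5) (nat_lit 7) (nat_lit 4) (nat_lit 5) (nat_lit 4) (nat_lit 336) (nat_lit 236) (nat_lit 208)) (XT.lf (nat_lit 0) (nat_lit 19558210640) (nat_lit 152) (nat_lit 16527186753) (nat_lit 0) (nat_lit 14211933427)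 (nat_lit 5) (nat_lit 5) (nat_lit 7) (nat_lit 4) (nat_lit 5) (nat_lit 4) (nat_lit 337) (nat_lit 236) (nat_lit 207))))))) (XT.nd (nat_lit 780) (nat_lit 152) (nat_lit 0) (XT.nd (nat_lit 390) (nat_lit 0) (nat_lit 0) (XT.nd (nat_lit 156) (nat_lit 76) (nat_lit 0) (XT.nd (nat_lit 78) (nat_lit 0) (nat_lit 0) (XT.lf (nat_lit 0) (nat_lit 23840933848) (nat_lit 152) (nat_lit 10374263215) (nat_lit 0) (nat_lit 18412957806) (nat_lit 5) (nat_lit 5) (nat_lit 7) (nat_lit 4) (nat_lit 5) (nat_lit 4) (nat_lit 338) (nat_lit 236) (nat_lit 206)) (XT.lf (nat_lit 0) (nat_lit 28281753518) (nat_lit 152) (nat_lit 4020617089) (nat_lit 0) (nat_lit 22775969068) (nat_lit 5) (nat_lit 5) (nat_lit 7) (nat_lit 4) (nat_lit 5) (nat_lit 4) (nat_lit 339) (nat_lit 236) (nat_lit 205))) (XT.nd (nat_lit 78) (nat_lit 0) (nat_lit 0) (XT.lf (nat_lit 0) (nat_lit 2633156816) (nat_lit 76) (nat_lit 30299197173) (nat_lit 76) (nat_lit 24719309477)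 (nat_lit 4) (nat_lit 4) (nat_lit 5) (nat_lit 5) (nat_lit 5) (nat_lit 4) (nat_lit 340) (nat_lit 236) (nat_lit 204)) (XT.nd (nat_lit 78) (nat_lit 0) (nat_lit 0) (XT.lf (nat_lit 0) (nat_lit 9659016625) (nat_lit 76) (nat_lit 28172165058) (nat_lit 76) (nat_lit 22521702841) (nat_lit 4) (nat_lit 4) (nat_lit 5) (nat_lit 5) (nat_lit 5) (nat_lit 4) (nat_lit 341) (nat_lit 236) (nat_lit 203)) (XT.lf (nat_lit 0) (nat_lit 16940750818) (nat_lit 76) (nat_lit 25984300996) (nat_lit 76) (nat_lit 20266624950) (nat_lit 4) (nat_lit 4) (nat_lit 5) (nat_lit 5) (nat_lit 5) (nat_lit 4) (nat_lit 342) (nat_lit 236) (nat_lit 202))))) (XT.nd (nat_lit 156) (nat_lit 0) (nat_lit 0) (XT.nd (nat_lit 78) (nat_lit 0) (nat_lit 0) (XT.lf (nat_lit 0) (nat_lit 24495696855) (nat_lit 76) (nat_lit 23730395786) (nat_lit 76) (nat_lit 17948706569) (nat_lit 4) (nat_lit 4) (nat_lit 5) (nat_lit 5) (nat_lit 5) (nat_lit 4) (nat_lit 343)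 (nat_lit 236) (nat_lit 201)) (XT.lf (nat_lit 0) (nat_lit 32341842705) (nat_lit 76) (nat_lit 21405082987) (nat_lit 76) (nat_lit 15562428847) (nat_lit 4) (nat_lit 4) (nat_lit 5) (nat_lit 5) (nat_lit 5) (nat_lit 4) (nat_lit 344) (nat_lit 236) (nat_lit 200))) (XT.nd (nat_lit 78) (nat_lit 0) (nat_lit 0) (XT.lf (nat_lit 0) (nat_lit 40497869666) (nat_lit 76) (nat_lit 19002826141) (nat_lit 76) (nat_lit 13102110169) (nat_lit 4) (nat_lit 4) (nat_lit 5) (nat_lit 5) (nat_lit 5) (nat_lit 4) (nat_lit 345) (nat_lit 236) (nat_lit 199)) (XT.nd (nat_lit 78) (nat_lit 0) (nat_lit 0) (XT.lf (nat_lit 0) (nat_lit 48983196850) (nat_lit 76) (nat_lit 16517905589) (nat_lit 76) (nat_lit 10561892633) (nat_lit 4) (nat_lit 4) (nat_lit 5) (nat_lit 5) (nat_lit 5) (nat_lit 4) (nat_lit 346) (nat_lit 236) (nat_lit 198)) (XT.lf (nat_lit 0) (nat_lit 57818027418) (nat_lit 76) (nat_lit 13944404852) (nat_lit 76) (nat_lit 7935728103)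 (nat_lit 4) (nat_lit 4) (nat_lit 5) (nat_lit 5) (nat_lit 5) (nat_lit 4) (nat_lit 347) (nat_lit 236) (nat_lit 197)))))) (XT.nd (nat_lit 390) (nat_lit 0) (nat_lit 0) (XT.nd (nat_lit 156) (nat_lit 152) (nat_lit 0) (XT.nd (nat_lit 78) (nat_lit 0) (nat_lit 0) (XT.lf (nat_lit 0) (nat_lit 67023396679) (nat_lit 76) (nat_lit 11276196549) (nat_lit 76) (nat_lit 5217363805) (nat_lit 4) (nat_lit 4) (nat_lit 5) (nat_lit 5) (nat_lit 5) (nat_lit 4) (nat_lit 348) (nat_lit 236) (nat_lit 196)) (XT.lf (nat_lit 0) (nat_lit 76621222181) (nat_lit 76) (nat_lit 8506927801) (nat_lit 76) (nat_lit 2400327445) (nat_lit 4) (nat_lit 4) (nat_lit 5) (nat_lit 5) (nat_lit 5) (nat_lit 4) (nat_lit 349) (nat_lit 236) (nat_lit 195))) (XT.nd (nat_lit 78) (nat_lit 76) (nat_lit 0) (XT.lf (nat_lit 0) (nat_lit 505378124) (nat_lit 152) (nat_lit 5116068166) (nat_lit 76) (nat_lit 86120418941) (nat_lit 3) (nat_lit 5) (nat_lit 5) (nat_lit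 5) (nat_lit 4) (nat_lit 4) (nat_lit 350) (nat_lit 236) (nat_lit 194)) (XT.nd (nat_lit 78) (nat_lit 0) (nat_lit 0) (XT.lf (nat_lit 0) (nat_lit 891256118) (nat_lit 76) (nat_lit 2565659039) (nat_lit 152) (nat_lit 92707988459) (nat_lit 2) (nat_lit 5) (nat_lit 3) (nat_lit 5) (nat_lit 4) (nat_lit 4) (nat_lit 351) (nat_lit 236) (nat_lit 193)) (XT.lf (nat_lit 0) (nat_lit 6621563547) (nat_lit 152) (nat_lit 93502397467) (nat_lit 0) (nat_lit 681865056) (nat_lit 2) (nat_lit 5) (nat_lit 4) (nat_lit 4) (nat_lit 2) (nat_lit 4) (nat_lit 352) (nat_lit 236) (nat_lit 192))))) (XT.nd (nat_lit 234) (nat_lit 0) (nat_lit 0) (XT.nd (nat_lit 78) (nat_lit 0) (nat_lit 0) (XT.lf (nat_lit 0) (nat_lit 9955488427) (nat_lit 152) (nat_lit 91744399706) (nat_lit 0) (nat_lit 3978362761) (nat_lit 2) (nat_lit 5) (nat_lit 4) (nat_lit 4) (nat_lit 2) (nat_lit 4) (nat_lit 353) (nat_lit 236) (nat_lit 191)) (XT.nd (nat_lit 78)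 (nat_lit 0) (nat_lit 0) (XT.lf (nat_lit 0) (nat_lit 13426570586) (nat_lit 152) (nat_lit 89955411380) (nat_lit 0) (nat_lit 7413799992) (nat_lit 2) (nat_lit 5) (nat_lit 4) (nat_lit 4) (nat_lit 2) (nat_lit 4) (nat_lit 354) (nat_lit 236) (nat_lit 190)) (XT.lf (nat_lit 0) (nat_lit 17043074506) (nat_lit 152) (nat_lit 88131172993) (nat_lit 0) (nat_lit 10996356361) (nat_lit 2) (nat_lit 5) (nat_lit 4) (nat_lit 4) (nat_lit 2) (nat_lit 4) (nat_lit 355) (nat_lit 236) (nat_lit 189)))) (XT.nd (nat_lit 78) (nat_lit 0) (nat_lit 0) (XT.lf (nat_lit 0) (nat_lit 20813610911) (nat_lit 152) (nat_lit 86267341119) (nat_lit 0) (nat_lit 14734561764) (nat_lit 2) (nat_lit 5) (nat_lit 4) (nat_lit 4) (nat_lit 2) (nat_lit 4) (nat_lit 356) (nat_lit 236) (nat_lit 188)) (XT.nd (nat_lit 78) (nat_lit 0) (nat_lit 0) (XT.lf (nat_lit 0) (nat_lit 24747157267) (nat_lit 152) (nat_lit 84359478063) (nat_lit 0) (nat_lit 18637316691)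 (nat_lit 2) (nat_lit 5) (nat_lit 4) (nat_lit 4) (nat_lit 2) (nat_lit 4) (nat_lit 357) (nat_lit 236) (nat_lit 187)) (XT.lf (nat_lit 0) (nat_lit 28853079161) (nat_lit 152) (nat_lit 82403041296) (nat_lit 0) (nat_lit 22713913415) (nat_lit 2) (nat_lit 5) (nat_lit 4) (nat_lit 4) (nat_lit 2) (nat_lit 4) (nat_lit 358) (nat_lit 236) (nat_lit 186))))))))
noncomputable def xc45 : XT := (XT.nd (nat_lit 1638) (nat_lit 76) (nat_lit 0) (XT.nd (nat_lit 780) (nat_lit 0) (nat_lit 0) (XT.nd (nat_lit 390) (nat_lit 0) (nat_lit 0) (XT.nd (nat_lit 156) (nat_lit 0) (nat_lit 0) (XT.nd (nat_lit 78) (nat_lit 0) (nat_lit 0) (XT.lf (nat_lit 0) (nat_lit 33141152599) (nat_lit 152) (nat_lit 80393372633) (nat_lit 0) (nat_lit 26974058118) (nat_lit 2) (nat_lit 5) (nat_lit 4) (nat_lit 4) (nat_lit 2) (nat_lit 4) (nat_lit 359) (nat_lit 236) (nat_lit 185)) (XT.lf (nat_lit 0) (nat_lit 37621587278) (nat_lit 152) (nat_lit 78325687150)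 (nat_lit 0) (nat_lit 31427894003) (nat_lit 2) (nat_lit 5) (nat_lit 4) (nat_lit 4) (nat_lit 2) (nat_lit 4) (nat_lit 360) (nat_lit 236) (nat_lit 184))) (XT.nd (nat_lit 78) (nat_lit 0) (nat_lit 0) (XT.lf (nat_lit 0) (nat_lit 42305050900) (nat_lit 152) (nat_lit 76195061785) (nat_lit 0) (nat_lit 36086025440) (nat_lit 2) (nat_lit 5) (nat_lit 4) (nat_lit 4) (nat_lit 2) (nat_lit 4) (nat_lit 361) (nat_lit 236) (nat_lit 183)) (XT.nd (nat_lit 78) (nat_lit 0) (nat_lit 0) (XT.lf (nat_lit 0) (nat_lit 47202694569) (nat_lit 152) (nat_lit 73996423622) (nat_lit 0) (nat_lit 40959543218) (nat_lit 2) (nat_lit 5) (nat_lit 4) (nat_lit 4) (nat_lit 2) (nat_lit 4) (nat_lit 362) (nat_lit 236) (nat_lit 182)) (XT.lf (nat_lit 0) (nat_lit 52326179342) (nat_lit 152) (nat_lit 71724537808) (nat_lit 0) (nat_lit 46060050952) (nat_lit 2) (nat_lit 5) (nat_lit 4) (nat_lit 4) (nat_lit 2) (nat_lit 4) (nat_lit 363) (nat_lit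 236) (nat_lit 181))))) (XT.nd (nat_lit 156) (nat_lit 0) (nat_lit 0) (XT.nd (nat_lit 78) (nat_lit 0) (nat_lit 0) (XT.lf (nat_lit 0) (nat_lit 57687703991) (nat_lit 152) (nat_lit 69373995089) (nat_lit 0) (nat_lit 51399692708) (nat_lit 2) (nat_lit 5) (nat_lit 4) (nat_lit 4) (nat_lit 2) (nat_lit 4) (nat_lit 364) (nat_lit 236) (nat_lit 180)) (XT.lf (nat_lit 0) (nat_lit 63300034052) (nat_lit 152) (nat_lit 66939198938) (nat_lit 0) (nat_lit 56991181917) (nat_lit 2) (nat_lit 5) (nat_lit 4) (nat_lit 4) (nat_lit 2) (nat_lit 4) (nat_lit 365) (nat_lit 236) (nat_lit 179))) (XT.nd (nat_lit 78) (nat_lit 0) (nat_lit 0) (XT.lf (nat_lit 0) (nat_lit 69176532215) (nat_lit 152) (nat_lit 64414352218) (nat_lit 0) (nat_lit 62847831650) (nat_lit 2) (nat_lit 5) (nat_lit 4) (nat_lit 4) (nat_lit 2) (nat_lit 4) (nat_lit 366) (nat_lit 236) (nat_lit 178)) (XT.nd (nat_lit 78) (nat_lit 0) (nat_lit 0) (XT.lf (nat_lit 0)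 (nat_lit 75331190143) (nat_lit 152) (nat_lit 61793443392) (nat_lit 0) (nat_lit 68983586311) (nat_lit 2) (nat_lit 5) (nat_lit 4) (nat_lit 4) (nat_lit 2) (nat_lit 4) (nat_lit 367) (nat_lit 236) (nat_lit 177)) (XT.lf (nat_lit 0) (nat_lit 81778661782) (nat_lit 152) (nat_lit 59070232199) (nat_lit 0) (nat_lit 75413054840) (nat_lit 2) (nat_lit 5) (nat_lit 4) (nat_lit 4) (nat_lit 2) (nat_lit 4) (nat_lit 368) (nat_lit 236) (nat_lit 176)))))) (XT.nd (nat_lit 390) (nat_lit 0) (nat_lit 0) (XT.nd (nat_lit 156) (nat_lit 0) (nat_lit 0) (XT.nd (nat_lit 78) (nat_lit 0) (nat_lit 0) (XT.lf (nat_lit 0) (nat_lit 88534298257) (nat_lit 152) (nat_lit 56238234804) (nat_lit 0) (nat_lit 82151545494) (nat_lit 2) (nat_lit 5) (nat_lit 4) (nat_lit 4) (nat_lit 2) (nat_lit 4) (nat_lit 369) (nat_lit 236) (nat_lit 175)) (XT.lf (nat_lit 0) (nat_lit 95614184415) (nat_lit 152) (nat_lit 53290708355) (nat_lit 0) (nat_lit 89215102299)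 (nat_lit 2) (nat_lit 5) (nat_lit 4) (nat_lit 4) (nat_lit 2) (nat_lit 4) (nat_lit 370) (nat_lit 236) (nat_lit 174))) (XT.nd (nat_lit 78) (nat_lit 0) (nat_lit 0) (XT.lf (nat_lit 0) (nat_lit 103035177128) (nat_lit 152) (nat_lit 50220634933) (nat_lit 0) (nat_lit 96620543249) (nat_lit 2) (nat_lit 5) (nat_lit 4) (nat_lit 4) (nat_lit 2) (nat_lit 4) (nat_lit 371) (nat_lit 236) (nat_lit 173)) (XT.nd (nat_lit 78) (nat_lit 0) (nat_lit 0) (XT.lf (nat_lit 0) (nat_lit 110814945427) (nat_lit 152) (nat_lit 47020704838) (nat_lit 0) (nat_lit 104385500344) (nat_lit 2) (nat_lit 5) (nat_lit 4) (nat_lit 4) (nat_lit 2) (nat_lit 4) (nat_lit 372) (nat_lit 236) (nat_lit 172)) (XT.lf (nat_lit 0) (nat_lit 118972012570) (nat_lit 152) (nat_lit 43683299190) (nat_lit 0) (nat_lit 112528461578) (nat_lit 2) (nat_lit 5) (nat_lit 4) (nat_lit 4) (nat_lit 2) (nat_lit 4) (nat_lit 373) (nat_lit 236) (nat_lit 171))))) (XT.nd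 (nat_lit 234) (nat_lit 0) (nat_lit 0) (XT.nd (nat_lit 78) (nat_lit 0) (nat_lit 0) (XT.lf (nat_lit 0) (nat_lit 127525800144) (nat_lit 152) (nat_lit 40200471785) (nat_lit 0) (nat_lit 121068814954) (nat_lit 2) (nat_lit 5) (nat_lit 4) (nat_lit 4) (nat_lit 2) (nat_lit 4) (nat_lit 374) (nat_lit 236) (nat_lit 170)) (XT.nd (nat_lit 78) (nat_lit 0) (nat_lit 0) (XT.lf (nat_lit 0) (nat_lit 136496674312) (nat_lit 152) (nat_lit 36563930176) (nat_lit 0) (nat_lit 130026894646) (nat_lit 2) (nat_lit 5) (nat_lit 4) (nat_lit 4) (nat_lit 2) (nat_lit 4) (nat_lit 375) (nat_lit 236) (nat_lit 169)) (XT.lf (nat_lit 0) (nat_lit 145905994296) (nat_lit 152) (nat_lit 32765015932) (nat_lit 0) (nat_lit 139424029417) (nat_lit 2) (nat_lit 5) (nat_lit 4) (nat_lit 4) (nat_lit 2) (nat_lit 4) (nat_lit 376) (nat_lit 236) (nat_lit 168)))) (XT.nd (nat_lit 78) (nat_lit 0) (nat_lit 0) (XT.lf (nat_lit 0) (nat_lit 155776163241)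 (nat_lit 152) (nat_lit 28794684018) (nat_lit 0) (nat_lit 149282593395) (nat_lit 2) (nat_lit 5) (nat_lit 4) (nat_lit 4) (nat_lit 2) (nat_lit 4) (nat_lit 377) (nat_lit 236) (nat_lit 167)) (XT.nd (nat_lit 78) (nat_lit 0) (nat_lit 0) (XT.lf (nat_lit 0) (nat_lit 166130681547) (nat_lit 152) (nat_lit 24643481262) (nat_lit 0) (nat_lit 159626059353) (nat_lit 2) (nat_lit 5) (nat_lit 4) (nat_lit 4) (nat_lit 2) (nat_lit 4) (nat_lit 378) (nat_lit 236) (nat_lit 166)) (XT.lf (nat_lit 0) (nat_lit 176994202831) (nat_lit 152) (nat_lit 20301523850) (nat_lit 0) (nat_lit 170479054591) (nat_lit 2) (nat_lit 5) (nat_lit 4) (nat_lit 4) (nat_lit 2) (nat_lit 4) (nat_lit 379) (nat_lit 236) (nat_lit 165))))))) (XT.nd (nat_lit 780) (nat_lit 0) (nat_lit 0) (XT.nd (nat_lit 390) (nat_lit 0) (nat_lit 0) (XT.nd (nat_lit 156) (nat_lit 76) (nat_lit 0) (XT.nd (nat_lit 78) (nat_lit 0) (nat_lit 0) (XT.lf (nat_lit 0) (nat_lit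 188392592619) (nat_lit 152) (nat_lit 15758473786) (nat_lit 0) (nat_lit 181867419573) (nat_lit 2) (nat_lit 5) (nat_lit 4) (nat_lit 4) (nat_lit 2) (nat_lit 4) (nat_lit 380) (nat_lit 236) (nat_lit 164)) (XT.lf (nat_lit 0) (nat_lit 200352989934) (nat_lit 152) (nat_lit 11003514286) (nat_lit 0) (nat_lit 193818269454) (nat_lit 2) (nat_lit 5) (nat_lit 4) (nat_lit 4) (nat_lit 2) (nat_lit 4) (nat_lit 381) (nat_lit 236) (nat_lit 163))) (XT.nd (nat_lit 78) (nat_lit 76) (nat_lit 0) (XT.lf (nat_lit 0) (nat_lit 212903871913) (nat_lit 152) (nat_lit 6025324017) (nat_lit 0) (nat_lit 206360058638) (nat_lit 2) (nat_lit 5) (nat_lit 4) (nat_lit 4) (nat_lit 2) (nat_lit 4) (nat_lit 382) (nat_lit 236) (nat_lit 162)) (XT.nd (nat_lit 78) (nat_lit 76) (nat_lit 0) (XT.lf (nat_lit 0) (nat_lit 226075121608) (nat_lit 152) (nat_lit 812050145) (nat_lit 0) (nat_lit 219522648529) (nat_lit 2) (nat_lit 5) (nat_lit 4) (nat_lit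 4) (nat_lit 2) (nat_lit 4) (nat_lit 383) (nat_lit 236) (nat_lit 161)) (XT.lf (nat_lit 0) (nat_lit 4802427560) (nat_lit 76) (nat_lit 235170650930) (nat_lit 76) (nat_lit 228609930419) (nat_lit 1) (nat_lit 4) (nat_lit 2) (nat_lit 5) (nat_lit 2) (nat_lit 4) (nat_lit 384) (nat_lit 236) (nat_lit 160))))) (XT.nd (nat_lit 156) (nat_lit 0) (nat_lit 0) (XT.nd (nat_lit 78) (nat_lit 0) (nat_lit 0) (XT.lf (nat_lit 0) (nat_lit 10712866544) (nat_lit 76) (nat_lit 243860107678) (nat_lit 76) (nat_lit 237291532469) (nat_lit 1) (nat_lit 4) (nat_lit 2) (nat_lit 5) (nat_lit 2) (nat_lit 4) (nat_lit 385) (nat_lit 236) (nat_lit 159)) (XT.lf (nat_lit 0) (nat_lit 16906489235) (nat_lit 76) (nat_lit 252989983642) (nat_lit 76) (nat_lit 246413927768) (nat_lit 1) (nat_lit 4) (nat_lit 2) (nat_lit 5) (nat_lit 2) (nat_lit 4) (nat_lit 386) (nat_lit 236) (nat_lit 158))) (XT.nd (nat_lit 78) (nat_lit 0) (nat_lit 0) (XT.lf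 (nat_lit 0) (nat_lit 23398042354) (nat_lit 76) (nat_lit 262582016621) (nat_lit 76) (nat_lit 255998836304) (nat_lit 1) (nat_lit 4) (nat_lit 2) (nat_lit 5) (nat_lit 2) (nat_lit 4) (nat_lit 387) (nat_lit 236) (nat_lit 157)) (XT.nd (nat_lit 78) (nat_lit 0) (nat_lit 0) (XT.lf (nat_lit 0) (nat_lit 30202981980) (nat_lit 76) (nat_lit 272659044789) (nat_lit 76) (nat_lit 266069079290) (nat_lit 1) (nat_lit 4) (nat_lit 2) (nat_lit 5) (nat_lit 2) (nat_lit 4) (nat_lit 388) (nat_lit 236) (nat_lit 156)) (XT.lf (nat_lit 0) (nat_lit 37337510349) (nat_lit 76) (nat_lit 283245061071) (nat_lit 76) (nat_lit 276648633492) (nat_lit 1) (nat_lit 4) (nat_lit 2) (nat_lit 5) (nat_lit 2) (nat_lit 4) (nat_lit 389) (nat_lit 236) (nat_lit 155)))))) (XT.nd (nat_lit 34242) (nat_lit 0) (nat_lit 988) (XT.nd (nat_lit 156) (nat_lit 0) (nat_lit 0) (XT.nd (nat_lit 78) (nat_lit 0) (nat_lit 0) (XT.lf (nat_lit 0) (nat_lit 44818614434)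 (nat_lit 76) (nat_lit 294365270268) (nat_lit 76) (nat_lit 287762688328) (nat_lit 1) (nat_lit 4) (nat_lit 2) (nat_lit 5) (nat_lit 2) (nat_lit 4) (nat_lit 390) (nat_lit 236) (nat_lit 154)) (XT.lf (nat_lit 0) (nat_lit 52664106388) (nat_lit 76) (nat_lit 306046149067) (nat_lit 76) (nat_lit 299437705830) (nat_lit 1) (nat_lit 4) (nat_lit 2) (nat_lit 5) (nat_lit 2) (nat_lit 4) (nat_lit 391) (nat_lit 236) (nat_lit 153))) (XT.nd (nat_lit 33930) (nat_lit 0) (nat_lit 1368) (XT.lf (nat_lit 0) (nat_lit 60892665954) (nat_lit 76) (nat_lit 318315509085) (nat_lit 76) (nat_lit 311701483661) (nat_lit 1) (nat_lit 4) (nat_lit 2) (nat_lit 5) (nat_lit 2) (nat_lit 4) (nat_lit 392) (nat_lit 236) (nat_lit 152)) (XT.nd (nat_lit 78) (nat_lit 152) (nat_lit 0) (XT.lf (nat_lit 0) (nat_lit 1804432860) (nat_lit 152) (nat_lit 3716327034) (nat_lit 0) (nat_lit 1804432860) (nat_lit 21) (nat_lit 5) (nat_lit 23) (nat_lit 4)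 (nat_lit 21) (nat_lit 4) (nat_lit 306) (nat_lit 237) (nat_lit 237)) (XT.lf (nat_lit 0) (nat_lit 977544449) (nat_lit 152) (nat_lit 7302372350) (nat_lit 152) (nat_lit 6851720353) (nat_lit 19) (nat_lit 4) (nat_lit 21) (nat_lit 5) (nat_lit 21) (nat_lit 4) (nat_lit 307) (nat_lit 237) (nat_lit 236))))) (XT.nd (nat_lit 234) (nat_lit 228) (nat_lit 0) (XT.nd (nat_lit 78) (nat_lit 152) (nat_lit 0) (XT.lf (nat_lit 0) (nat_lit 9781632020) (nat_lit 152) (nat_lit 3368490282) (nat_lit 152) (nat_lit 2488645908) (nat_lit 19) (nat_lit 4) (nat_lit 21) (nat_lit 5) (nat_lit 21) (nat_lit 4) (nat_lit 308) (nat_lit 237) (nat_lit 235)) (XT.nd (nat_lit 78) (nat_lit 0) (nat_lit 0) (XT.lf (nat_lit 0) (nat_lit 1922648684) (nat_lit 152) (nat_lit 13556797869) (nat_lit 0) (nat_lit 695411523) (nat_lit 17) (nat_lit 5) (nat_lit 19) (nat_lit 4) (nat_lit 17) (nat_lit 4) (nat_lit 309) (nat_lit 237) (nat_lit 234)) (XT.lf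 (nat_lit 0) (nat_lit 6472957696) (nat_lit 152) (nat_lit 5387766346) (nat_lit 0) (nat_lit 4874968022) (nat_lit 17) (nat_lit 5) (nat_lit 19) (nat_lit 4) (nat_lit 17) (nat_lit 4) (nat_lit 310) (nat_lit 237) (nat_lit 233)))) (XT.nd (nat_lit 78) (nat_lit 152) (nat_lit 0) (XT.lf (nat_lit 0) (nat_lit 3021970289) (nat_lit 76) (nat_lit 8129368343) (nat_lit 76) (nat_lit 6178281038) (nat_lit 16) (nat_lit 4) (nat_lit 17) (nat_lit 5) (nat_lit 17) (nat_lit 4) (nat_lit 311) (nat_lit 237) (nat_lit 232)) (XT.nd (nat_lit 78) (nat_lit 152) (nat_lit 0) (XT.lf (nat_lit 0) (nat_lit 11779042074) (nat_lit 76) (nat_lit 4232135667) (nat_lit 76) (nat_lit 1944764904) (nat_lit 16) (nat_lit 4) (nat_lit 17) (nat_lit 5) (nat_lit 17) (nat_lit 4) (nat_lit 312) (nat_lit 237) (nat_lit 231)) (XT.lf (nat_lit 0) (nat_lit 2137270173) (nat_lit 76) (nat_lit 177320507) (nat_lit 152) (nat_lit 16302398393) (nat_lit 14) (nat_lit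 5) (nat_lit 15) (nat_lit 5) (nat_lit 16) (nat_lit 4) (nat_lit 313) (nat_lit 237) (nat_lit 230))))))))
noncomputable def xc46 : XT := (XT.nd (nat_lit 1560) (nat_lit 304) (nat_lit 0) (XT.nd (nat_lit 780) (nat_lit 304) (nat_lit 0) (XT.nd (nat_lit 390) (nat_lit 76) (nat_lit 0) (XT.nd (nat_lit 156) (nat_lit 228) (nat_lit 0) (XT.nd (nat_lit 78) (nat_lit 0) (nat_lit 0) (XT.lf (nat_lit 0) (nat_lit 6753409608) (nat_lit 152) (nat_lit 8575109171) (nat_lit 0) (nat_lit 3979447957) (nat_lit 14) (nat_lit 5) (nat_lit 16) (nat_lit 4) (nat_lit 14) (nat_lit 4) (nat_lit 314) (nat_lit 237) (nat_lit 229)) (XT.lf (nat_lit 0) (nat_lit 11285480952) (nat_lit 152) (nat_lit 519651167) (nat_lit 0) (nat_lit 8234858069) (nat_lit 14) (nat_lit 5) (nat_lit 16) (nat_lit 4) (nat_lit 14) (nat_lit 4) (nat_lit 315) (nat_lit 237) (nat_lit 228))) (XT.nd (nat_lit 78) (nat_lit 152) (nat_lit 0) (XT.lf (nat_lit 0) (nat_lit 7963484477)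 (nat_lit 76) (nat_lit 8079674723) (nat_lit 76) (nat_lit 4765564950) (nat_lit 13) (nat_lit 4) (nat_lit 14) (nat_lit 5) (nat_lit 14) (nat_lit 4) (nat_lit 316) (nat_lit 237) (nat_lit 227)) (XT.nd (nat_lit 78) (nat_lit 152) (nat_lit 0) (XT.lf (nat_lit 0) (nat_lit 16662550825) (nat_lit 76) (nat_lit 4262077488) (nat_lit 76) (nat_lit 697027822) (nat_lit 13) (nat_lit 4) (nat_lit 14) (nat_lit 5) (nat_lit 14) (nat_lit 4) (nat_lit 317) (nat_lit 237) (nat_lit 226)) (XT.lf (nat_lit 0) (nat_lit 3146757841) (nat_lit 76) (nat_lit 243875272) (nat_lit 152) (nat_lit 19085356407) (nat_lit 11) (nat_lit 5) (nat_lit 12) (nat_lit 5) (nat_lit 13) (nat_lit 4) (nat_lit 318) (nat_lit 237) (nat_lit 225))))) (XT.nd (nat_lit 156) (nat_lit 76) (nat_lit 0) (XT.nd (nat_lit 78) (nat_lit 0) (nat_lit 0) (XT.lf (nat_lit 0) (nat_lit 7688412862) (nat_lit 152) (nat_lit 11833900041) (nat_lit 0) (nat_lit 3848746268) (nat_lit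 11) (nat_lit 5) (nat_lit 13) (nat_lit 4) (nat_lit 11) (nat_lit 4) (nat_lit 319) (nat_lit 237) (nat_lit 224)) (XT.lf (nat_lit 0) (nat_lit 12092445487) (nat_lit 152) (nat_lit 4177585224) (nat_lit 0) (nat_lit 8046330022) (nat_lit 11) (nat_lit 5) (nat_lit 13) (nat_lit 4) (nat_lit 11) (nat_lit 4) (nat_lit 320) (nat_lit 237) (nat_lit 223))) (XT.nd (nat_lit 78) (nat_lit 0) (nat_lit 0) (XT.lf (nat_lit 0) (nat_lit 3782823649) (nat_lit 76) (nat_lit 12885646035) (nat_lit 76) (nat_lit 8642912596) (nat_lit 10) (nat_lit 4) (nat_lit 11) (nat_lit 5) (nat_lit 11) (nat_lit 4) (nat_lit 321) (nat_lit 237) (nat_lit 222)) (XT.nd (nat_lit 78) (nat_lit 0) (nat_lit 0) (XT.lf (nat_lit 0) (nat_lit 12089716138) (nat_lit 76) (nat_lit 9349096905) (nat_lit 76) (nat_lit 4919108253) (nat_lit 10) (nat_lit 4) (nat_lit 11) (nat_lit 5) (nat_lit 11) (nat_lit 4) (nat_lit 322) (nat_lit 237) (nat_lit 221)) (XT.lf (nat_lit 0)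 (nat_lit 20624740723) (nat_lit 76) (nat_lit 5722712393) (nat_lit 76) (nat_lit 1114385443) (nat_lit 10) (nat_lit 4) (nat_lit 11) (nat_lit 5) (nat_lit 11) (nat_lit 4) (nat_lit 323) (nat_lit 237) (nat_lit 220)))))) (XT.nd (nat_lit 390) (nat_lit 76) (nat_lit 0) (XT.nd (nat_lit 156) (nat_lit 76) (nat_lit 0) (XT.nd (nat_lit 78) (nat_lit 0) (nat_lit 0) (XT.lf (nat_lit 0) (nat_lit 763484204) (nat_lit 76) (nat_lit 1939763186) (nat_lit 152) (nat_lit 25919748625) (nat_lit 8) (nat_lit 5) (nat_lit 9) (nat_lit 5) (nat_lit 10) (nat_lit 4) (nat_lit 324) (nat_lit 237) (nat_lit 219)) (XT.lf (nat_lit 0) (nat_lit 6727210147) (nat_lit 152) (nat_lit 21088963690) (nat_lit 0) (nat_lit 2022513919) (nat_lit 8) (nat_lit 5) (nat_lit 10) (nat_lit 4) (nat_lit 8) (nat_lit 4) (nat_lit 325) (nat_lit 237) (nat_lit 218))) (XT.nd (nat_lit 78) (nat_lit 76) (nat_lit 0) (XT.lf (nat_lit 0) (nat_lit 10892247361) (nat_lit 152)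 (nat_lit 14185124269) (nat_lit 0) (nat_lit 6040831773) (nat_lit 8) (nat_lit 5) (nat_lit 10) (nat_lit 4) (nat_lit 8) (nat_lit 4) (nat_lit 326) (nat_lit 237) (nat_lit 217)) (XT.nd (nat_lit 78) (nat_lit 76) (nat_lit 0) (XT.lf (nat_lit 0) (nat_lit 15177990646) (nat_lit 152) (nat_lit 7101270696) (nat_lit 0) (nat_lit 10186842336) (nat_lit 8) (nat_lit 5) (nat_lit 10) (nat_lit 4) (nat_lit 8) (nat_lit 4) (nat_lit 327) (nat_lit 237) (nat_lit 216)) (XT.lf (nat_lit 0) (nat_lit 185397215) (nat_lit 76) (nat_lit 19412141509) (nat_lit 76) (nat_lit 14287914415) (nat_lit 7) (nat_lit 4) (nat_lit 8) (nat_lit 5) (nat_lit 8) (nat_lit 4) (nat_lit 328) (nat_lit 237) (nat_lit 215))))) (XT.nd (nat_lit 156) (nat_lit 76) (nat_lit 0) (XT.nd (nat_lit 78) (nat_lit 0) (nat_lit 0) (XT.lf (nat_lit 0) (nat_lit 7928163692) (nat_lit 76) (nat_lit 16348340890) (nat_lit 76) (nat_lit 11097372097) (nat_lit 7) (nat_lit 4) (nat_lit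 8) (nat_lit 5) (nat_lit 8) (nat_lit 4) (nat_lit 329) (nat_lit 237) (nat_lit 214)) (XT.lf (nat_lit 0) (nat_lit 15910663811) (nat_lit 76) (nat_lit 13200828176) (nat_lit 76) (nat_lit 7829153004) (nat_lit 7) (nat_lit 4) (nat_lit 8) (nat_lit 5) (nat_lit 8) (nat_lit 4) (nat_lit 330) (nat_lit 237) (nat_lit 213))) (XT.nd (nat_lit 78) (nat_lit 76) (nat_lit 0) (XT.lf (nat_lit 0) (nat_lit 24151903526) (nat_lit 76) (nat_lit 9962109290) (nat_lit 76) (nat_lit 4475475661) (nat_lit 7) (nat_lit 4) (nat_lit 8) (nat_lit 5) (nat_lit 8) (nat_lit 4) (nat_lit 331) (nat_lit 237) (nat_lit 212)) (XT.nd (nat_lit 78) (nat_lit 76) (nat_lit 0) (XT.lf (nat_lit 0) (nat_lit 32671504836) (nat_lit 76) (nat_lit 6624472997) (nat_lit 76) (nat_lit 1028355124) (nat_lit 7) (nat_lit 4) (nat_lit 8) (nat_lit 5) (nat_lit 8) (nat_lit 4) (nat_lit 332) (nat_lit 237) (nat_lit 211)) (XT.lf (nat_lit 0) (nat_lit 2439746984) (nat_lit 152)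 (nat_lit 698907263) (nat_lit 76) (nat_lit 39008687226) (nat_lit 6) (nat_lit 5) (nat_lit 8) (nat_lit 5) (nat_lit 7) (nat_lit 4) (nat_lit 333) (nat_lit 237) (nat_lit 210))))))) (XT.nd (nat_lit 780) (nat_lit 152) (nat_lit 0) (XT.nd (nat_lit 390) (nat_lit 76) (nat_lit 0) (XT.nd (nat_lit 156) (nat_lit 0) (nat_lit 0) (XT.nd (nat_lit 78) (nat_lit 0) (nat_lit 0) (XT.lf (nat_lit 0) (nat_lit 6094960644) (nat_lit 152) (nat_lit 37391862391) (nat_lit 0) (nat_lit 571442529) (nat_lit 5) (nat_lit 5) (nat_lit 7) (nat_lit 4) (nat_lit 5) (nat_lit 4) (nat_lit 334) (nat_lit 237) (nat_lit 209)) (XT.lf (nat_lit 0) (nat_lit 9931545751) (nat_lit 152) (nat_lit 31815325233) (nat_lit 0) (nat_lit 4317954678) (nat_lit 5) (nat_lit 5) (nat_lit 7) (nat_lit 4) (nat_lit 5) (nat_lit 4) (nat_lit 335) (nat_lit 237) (nat_lit 208))) (XT.nd (nat_lit 78) (nat_lit 0) (nat_lit 0) (XT.lf (nat_lit 0) (nat_lit 13898176348) (nat_lit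 152) (nat_lit 26077844475) (nat_lit 0) (nat_lit 8198801504) (nat_lit 5) (nat_lit 5) (nat_lit 7) (nat_lit 4) (nat_lit 5) (nat_lit 4) (nat_lit 336) (nat_lit 237) (nat_lit 207)) (XT.nd (nat_lit 78) (nat_lit 0) (nat_lit 0) (XT.lf (nat_lit 0) (nat_lit 18004296793) (nat_lit 152) (nat_lit 20165759448) (nat_lit 0) (nat_lit 12223223120) (nat_lit 5) (nat_lit 5) (nat_lit 7) (nat_lit 4) (nat_lit 5) (nat_lit 4) (nat_lit 337) (nat_lit 237) (nat_lit 206)) (XT.lf (nat_lit 0) (nat_lit 22259683562) (nat_lit 152) (nat_lit 14064993757) (nat_lit 0) (nat_lit 16400801481) (nat_lit 5) (nat_lit 5) (nat_lit 7) (nat_lit 4) (nat_lit 5) (nat_lit 4) (nat_lit 338) (nat_lit 237) (nat_lit 205))))) (XT.nd (nat_lit 156) (nat_lit 76) (nat_lit 0) (XT.nd (nat_lit 78) (nat_lit 0) (nat_lit 0) (XT.lf (nat_lit 0) (nat_lit 26674468531) (nat_lit 152) (nat_lit 7761021772) (nat_lit 0) (nat_lit 20741483203) (nat_lit 5) (nat_lit 5)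 (nat_lit 7) (nat_lit 4) (nat_lit 5) (nat_lit 4) (nat_lit 339) (nat_lit 237) (nat_lit 204)) (XT.lf (nat_lit 0) (nat_lit 31259163090) (nat_lit 152) (nat_lit 1238834035) (nat_lit 0) (nat_lit 25255603242) (nat_lit 5) (nat_lit 5) (nat_lit 7) (nat_lit 4) (nat_lit 5) (nat_lit 4) (nat_lit 340) (nat_lit 237) (nat_lit 203))) (XT.nd (nat_lit 78) (nat_lit 0) (nat_lit 0) (XT.lf (nat_lit 0) (nat_lit 5699518663) (nat_lit 76) (nat_lit 30414149975) (nat_lit 76) (nat_lit 24343376299) (nat_lit 4) (nat_lit 4) (nat_lit 5) (nat_lit 5) (nat_lit 5) (nat_lit 4) (nat_lit 341) (nat_lit 237) (nat_lit 202)) (XT.nd (nat_lit 78) (nat_lit 0) (nat_lit 0) (XT.lf (nat_lit 0) (nat_lit 12936923653) (nat_lit 76) (nat_lit 28247433257) (nat_lit 76) (nat_lit 22112646410) (nat_lit 4) (nat_lit 4) (nat_lit 5) (nat_lit 5) (nat_lit 5) (nat_lit 4) (nat_lit 342) (nat_lit 237) (nat_lit 201)) (XT.lf (nat_lit 0) (nat_lit 20449651403)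 (nat_lit 76) (nat_lit 26013668375) (nat_lit 76) (nat_lit 19817916604) (nat_lit 4) (nat_lit 4) (nat_lit 5) (nat_lit 5) (nat_lit 5) (nat_lit 4) (nat_lit 343) (nat_lit 237) (nat_lit 200)))))) (XT.nd (nat_lit 390) (nat_lit 152) (nat_lit 0) (XT.nd (nat_lit 156) (nat_lit 0) (nat_lit 0) (XT.nd (nat_lit 78) (nat_lit 0) (nat_lit 0) (XT.lf (nat_lit 0) (nat_lit 28255589359) (nat_lit 76) (nat_lit 23707536841) (nat_lit 76) (nat_lit 17453723238) (nat_lit 4) (nat_lit 4) (nat_lit 5) (nat_lit 5) (nat_lit 5) (nat_lit 4) (nat_lit 344) (nat_lit 237) (nat_lit 199)) (XT.lf (nat_lit 0) (nat_lit 36373323089) (nat_lit 76) (nat_lit 21323547866) (nat_lit 76) (nat_lit 15014437279) (nat_lit 4) (nat_lit 4) (nat_lit 5) (nat_lit 5) (nat_lit 5) (nat_lit 4) (nat_lit 345) (nat_lit 237) (nat_lit 198))) (XT.nd (nat_lit 78) (nat_lit 0) (nat_lit 0) (XT.lf (nat_lit 0) (nat_lit 44822180529) (nat_lit 76) (nat_lit 18856025286)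 (nat_lit 76) (nat_lit 12494250906) (nat_lit 4) (nat_lit 4) (nat_lit 5) (nat_lit 5) (nat_lit 5) (nat_lit 4) (nat_lit 346) (nat_lit 237) (nat_lit 197)) (XT.nd (nat_lit 78) (nat_lit 0) (nat_lit 0) (XT.lf (nat_lit 0) (nat_lit 53622278007) (nat_lit 76) (nat_lit 16299094047) (nat_lit 76) (nat_lit 9887163673) (nat_lit 4) (nat_lit 4) (nat_lit 5) (nat_lit 5) (nat_lit 5) (nat_lit 4) (nat_lit 347) (nat_lit 237) (nat_lit 196)) (XT.lf (nat_lit 0) (nat_lit 62794568135) (nat_lit 76) (nat_lit 13646666218) (nat_lit 76) (nat_lit 7186968230) (nat_lit 4) (nat_lit 4) (nat_lit 5) (nat_lit 5) (nat_lit 5) (nat_lit 4) (nat_lit 348) (nat_lit 237) (nat_lit 195))))) (XT.nd (nat_lit 234) (nat_lit 76) (nat_lit 0) (XT.nd (nat_lit 78) (nat_lit 76) (nat_lit 0) (XT.lf (nat_lit 0) (nat_lit 72360889701) (nat_lit 76) (nat_lit 10892426493) (nat_lit 76) (nat_lit 4387235540) (nat_lit 4) (nat_lit 4) (nat_lit 5) (nat_lit 5)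 (nat_lit 5) (nat_lit 4) (nat_lit 349) (nat_lit 237) (nat_lit 194)) (XT.nd (nat_lit 78) (nat_lit 76) (nat_lit 0) (XT.lf (nat_lit 0) (nat_lit 82344019660) (nat_lit 76) (nat_lit 8029817160) (nat_lit 76) (nat_lit 1481299574) (nat_lit 4) (nat_lit 4) (nat_lit 5) (nat_lit 5) (nat_lit 5) (nat_lit 4) (nat_lit 350) (nat_lit 237) (nat_lit 193)) (XT.lf (nat_lit 0) (nat_lit 1488540686) (nat_lit 152) (nat_lit 3538272639) (nat_lit 76) (nat_lit 91253977525) (nat_lit 3) (nat_lit 5) (nat_lit 5) (nat_lit 5) (nat_lit 4) (nat_lit 4) (nat_lit 351) (nat_lit 237) (nat_lit 192)))) (XT.nd (nat_lit 78) (nat_lit 0) (nat_lit 0) (XT.lf (nat_lit 0) (nat_lit 2739843682) (nat_lit 76) (nat_lit 1830362787) (nat_lit 152) (nat_lit 96355660088) (nat_lit 2) (nat_lit 5) (nat_lit 3) (nat_lit 5) (nat_lit 4) (nat_lit 4) (nat_lit 352) (nat_lit 237) (nat_lit 191)) (XT.nd (nat_lit 78) (nat_lit 0) (nat_lit 0) (XT.lf (nat_lit 0) (nat_lit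 7861145006) (nat_lit 152) (nat_lit 96427208667) (nat_lit 0) (nat_lit 1512090953) (nat_lit 2) (nat_lit 5) (nat_lit 4) (nat_lit 4) (nat_lit 2) (nat_lit 4) (nat_lit 353) (nat_lit 237) (nat_lit 190)) (XT.lf (nat_lit 0) (nat_lit 11318504069) (nat_lit 152) (nat_lit 94664659051) (nat_lit 0) (nat_lit 4935502465) (nat_lit 2) (nat_lit 5) (nat_lit 4) (nat_lit 4) (nat_lit 2) (nat_lit 4) (nat_lit 354) (nat_lit 237) (nat_lit 189))))))))
noncomputable def xc47 : XT := (XT.nd (nat_lit 1638) (nat_lit 76) (nat_lit 0) (XT.nd (nat_lit 780) (nat_lit 0) (nat_lit 0) (XT.nd (nat_lit 390) (nat_lit 0) (nat_lit 0) (XT.nd (nat_lit 156) (nat_lit 0) (nat_lit 0) (XT.nd (nat_lit 78) (nat_lit 0) (nat_lit 0) (XT.lf (nat_lit 0) (nat_lit 14921938373) (nat_lit 152) (nat_lit 92865600386) (nat_lit 0) (nat_lit 8506605769) (nat_lit 2) (nat_lit 5) (nat_lit 4) (nat_lit 4) (nat_lit 2) (nat_lit 4) (nat_lit 355) (nat_lit 237) (nat_lit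 188)) (XT.lf (nat_lit 0) (nat_lit 18680027525) (nat_lit 152) (nat_lit 91025749201) (nat_lit 0) (nat_lit 12233903491) (nat_lit 2) (nat_lit 5) (nat_lit 4) (nat_lit 4) (nat_lit 2) (nat_lit 4) (nat_lit 356) (nat_lit 237) (nat_lit 187))) (XT.nd (nat_lit 78) (nat_lit 0) (nat_lit 0) (XT.lf (nat_lit 0) (nat_lit 22601719354) (nat_lit 152) (nat_lit 89140724898) (nat_lit 0) (nat_lit 16126270150) (nat_lit 2) (nat_lit 5) (nat_lit 4) (nat_lit 4) (nat_lit 2) (nat_lit 4) (nat_lit 357) (nat_lit 237) (nat_lit 186)) (XT.nd (nat_lit 78) (nat_lit 0) (nat_lit 0) (XT.lf (nat_lit 0) (nat_lit 26696351224) (nat_lit 152) (nat_lit 87206039322) (nat_lit 0) (nat_lit 20192973285) (nat_lit 2) (nat_lit 5) (nat_lit 4) (nat_lit 4) (nat_lit 2) (nat_lit 4) (nat_lit 358) (nat_lit 237) (nat_lit 185)) (XT.lf (nat_lit 0) (nat_lit 30973672256) (nat_lit 152) (nat_lit 85217086080) (nat_lit 0) (nat_lit 24443695523) (nat_lit 2)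 (nat_lit 5) (nat_lit 4) (nat_lit 4) (nat_lit 2) (nat_lit 4) (nat_lit 359) (nat_lit 237) (nat_lit 184))))) (XT.nd (nat_lit 156) (nat_lit 0) (nat_lit 0) (XT.nd (nat_lit 78) (nat_lit 0) (nat_lit 0) (XT.lf (nat_lit 0) (nat_lit 35443866549) (nat_lit 152) (nat_lit 83169129569) (nat_lit 0) (nat_lit 28888557631) (nat_lit 2) (nat_lit 5) (nat_lit 4) (nat_lit 4) (nat_lit 2) (nat_lit 4) (nat_lit 360) (nat_lit 237) (nat_lit 183)) (XT.lf (nat_lit 0) (nat_lit 40117577423) (nat_lit 152) (nat_lit 81057293702) (nat_lit 0) (nat_lit 33538142614) (nat_lit 2) (nat_lit 5) (nat_lit 4) (nat_lit 4) (nat_lit 2) (nat_lit 4) (nat_lit 361) (nat_lit 237) (nat_lit 182))) (XT.nd (nat_lit 78) (nat_lit 0) (nat_lit 0) (XT.lf (nat_lit 0) (nat_lit 45005932761) (nat_lit 152) (nat_lit 78876550298) (nat_lit 0) (nat_lit 38403520913) (nat_lit 2) (nat_lit 5) (nat_lit 4) (nat_lit 4) (nat_lit 2) (nat_lit 4) (nat_lit 362) (nat_lit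 237) (nat_lit 181)) (XT.nd (nat_lit 78) (nat_lit 0) (nat_lit 0) (XT.lf (nat_lit 0) (nat_lit 50120571503) (nat_lit 152) (nat_lit 76621707111) (nat_lit 0) (nat_lit 43496276761) (nat_lit 2) (nat_lit 5) (nat_lit 4) (nat_lit 4) (nat_lit 2) (nat_lit 4) (nat_lit 363) (nat_lit 237) (nat_lit 180)) (XT.lf (nat_lit 0) (nat_lit 55473671362) (nat_lit 152) (nat_lit 74287395467) (nat_lit 0) (nat_lit 48828535769) (nat_lit 2) (nat_lit 5) (nat_lit 4) (nat_lit 4) (nat_lit 2) (nat_lit 4) (nat_lit 364) (nat_lit 237) (nat_lit 179)))))) (XT.nd (nat_lit 390) (nat_lit 0) (nat_lit 0) (XT.nd (nat_lit 156) (nat_lit 0) (nat_lit 0) (XT.nd (nat_lit 78) (nat_lit 0) (nat_lit 0) (XT.lf (nat_lit 0) (nat_lit 61077977812) (nat_lit 152) (nat_lit 71868057481) (nat_lit 0) (nat_lit 54412993789) (nat_lit 2) (nat_lit 5) (nat_lit 4) (nat_lit 4) (nat_lit 2) (nat_lit 4) (nat_lit 365) (nat_lit 237) (nat_lit 178)) (XT.lf (nat_lit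 0) (nat_lit 66946834442) (nat_lit 152) (nat_lit 69357932825) (nat_lit 0) (nat_lit 60262947152) (nat_lit 2) (nat_lit 5) (nat_lit 4) (nat_lit 4) (nat_lit 2) (nat_lit 4) (nat_lit 366) (nat_lit 237) (nat_lit 177))) (XT.nd (nat_lit 78) (nat_lit 0) (nat_lit 0) (XT.lf (nat_lit 0) (nat_lit 73094214719) (nat_lit 152) (nat_lit 66751045011) (nat_lit 0) (nat_lit 66392324318) (nat_lit 2) (nat_lit 5) (nat_lit 4) (nat_lit 4) (nat_lit 2) (nat_lit 4) (nat_lit 367) (nat_lit 237) (nat_lit 176)) (XT.nd (nat_lit 78) (nat_lit 0) (nat_lit 0) (XT.lf (nat_lit 0) (nat_lit 79534755262) (nat_lit 152) (nat_lit 64041187163) (nat_lit 0) (nat_lit 72815719041) (nat_lit 2) (nat_lit 5) (nat_lit 4) (nat_lit 4) (nat_lit 2) (nat_lit 4) (nat_lit 368) (nat_lit 237) (nat_lit 175)) (XT.lf (nat_lit 0) (nat_lit 86283790692) (nat_lit 152) (nat_lit 61221907239) (nat_lit 0) (nat_lit 79548425119) (nat_lit 2) (nat_lit 5) (nat_lit 4)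 (nat_lit 4) (nat_lit 2) (nat_lit 4) (nat_lit 369) (nat_lit 237) (nat_lit 174))))) (XT.nd (nat_lit 234) (nat_lit 0) (nat_lit 0) (XT.nd (nat_lit 78) (nat_lit 0) (nat_lit 0) (XT.lf (nat_lit 0) (nat_lit 93357390142) (nat_lit 152) (nat_lit 58286492668) (nat_lit 0) (nat_lit 86606472804) (nat_lit 2) (nat_lit 5) (nat_lit 4) (nat_lit 4) (nat_lit 2) (nat_lit 4) (nat_lit 370) (nat_lit 237) (nat_lit 173)) (XT.nd (nat_lit 78) (nat_lit 0) (nat_lit 0) (XT.lf (nat_lit 0) (nat_lit 100772395514) (nat_lit 152) (nat_lit 55227954367) (nat_lit 0) (nat_lit 94006666972) (nat_lit 2) (nat_lit 5) (nat_lit 4) (nat_lit 4) (nat_lit 2) (nat_lit 4) (nat_lit 371) (nat_lit 237) (nat_lit 172)) (XT.lf (nat_lit 0) (nat_lit 108546461583) (nat_lit 152) (nat_lit 52039010102) (nat_lit 0) (nat_lit 101766627133) (nat_lit 2) (nat_lit 5) (nat_lit 4) (nat_lit 4) (nat_lit 2) (nat_lit 4) (nat_lit 372) (nat_lit 237) (nat_lit 171))))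 (XT.nd (nat_lit 78) (nat_lit 0) (nat_lit 0) (XT.lf (nat_lit 0) (nat_lit 116698098030) (nat_lit 152) (nat_lit 48712067149) (nat_lit 0) (nat_lit 109904829382) (nat_lit 2) (nat_lit 5) (nat_lit 4) (nat_lit 4) (nat_lit 2) (nat_lit 4) (nat_lit 373) (nat_lit 237) (nat_lit 170)) (XT.nd (nat_lit 78) (nat_lit 0) (nat_lit 0) (XT.lf (nat_lit 0) (nat_lit 125246713514) (nat_lit 152) (nat_lit 45239204216) (nat_lit 0) (nat_lit 118440650391) (nat_lit 2) (nat_lit 5) (nat_lit 4) (nat_lit 4) (nat_lit 2) (nat_lit 4) (nat_lit 374) (nat_lit 237) (nat_lit 169)) (XT.lf (nat_lit 0) (nat_lit 134212661881) (nat_lit 152) (nat_lit 41612152580) (nat_lit 0) (nat_lit 127394413543) (nat_lit 2) (nat_lit 5) (nat_lit 4) (nat_lit 4) (nat_lit 2) (nat_lit 4) (nat_lit 375) (nat_lit 237) (nat_lit 168))))))) (XT.nd (nat_lit 780) (nat_lit 0) (nat_lit 0) (XT.nd (nat_lit 390) (nat_lit 76) (nat_lit 0) (XT.nd (nat_lit 156) (nat_lit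 0) (nat_lit 0) (XT.nd (nat_lit 78) (nat_lit 0) (nat_lit 0) (XT.lf (nat_lit 0) (nat_lit 143617290627) (nat_lit 152) (nat_lit 37822276405) (nat_lit 0) (nat_lit 136787437323) (nat_lit 2) (nat_lit 5) (nat_lit 4) (nat_lit 4) (nat_lit 2) (nat_lit 4) (nat_lit 376) (nat_lit 237) (nat_lit 167)) (XT.lf (nat_lit 0) (nat_lit 153482991725) (nat_lit 152) (nat_lit 33860552176) (nat_lit 0) (nat_lit 146642086073) (nat_lit 2) (nat_lit 5) (nat_lit 4) (nat_lit 4) (nat_lit 2) (nat_lit 4) (nat_lit 377) (nat_lit 237) (nat_lit 166))) (XT.nd (nat_lit 78) (nat_lit 0) (nat_lit 0) (XT.lf (nat_lit 0) (nat_lit 163833254940) (nat_lit 152) (nat_lit 29717547216) (nat_lit 0) (nat_lit 156981823242) (nat_lit 2) (nat_lit 5) (nat_lit 4) (nat_lit 4) (nat_lit 2) (nat_lit 4) (nat_lit 378) (nat_lit 237) (nat_lit 165)) (XT.nd (nat_lit 78) (nat_lit 0) (nat_lit 0) (XT.lf (nat_lit 0) (nat_lit 174692723756) (nat_lit 152) (nat_lit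 25383397228) (nat_lit 0) (nat_lit 167831267251) (nat_lit 2) (nat_lit 5) (nat_lit 4) (nat_lit 4) (nat_lit 2) (nat_lit 4) (nat_lit 379) (nat_lit 237) (nat_lit 164)) (XT.lf (nat_lit 0) (nat_lit 186087254050) (nat_lit 152) (nat_lit 20847782806) (nat_lit 0) (nat_lit 179216250111) (nat_lit 2) (nat_lit 5) (nat_lit 4) (nat_lit 4) (nat_lit 2) (nat_lit 4) (nat_lit 380) (nat_lit 237) (nat_lit 163))))) (XT.nd (nat_lit 156) (nat_lit 76) (nat_lit 0) (XT.nd (nat_lit 78) (nat_lit 0) (nat_lit 0) (XT.lf (nat_lit 0) (nat_lit 198043975657) (nat_lit 152) (nat_lit 16099904870) (nat_lit 0) (nat_lit 191163878924) (nat_lit 2) (nat_lit 5) (nat_lit 4) (nat_lit 4) (nat_lit 2) (nat_lit 4) (nat_lit 381) (nat_lit 237) (nat_lit 162)) (XT.lf (nat_lit 0) (nat_lit 210591356961) (nat_lit 152) (nat_lit 11128458947) (nat_lit 0) (nat_lit 203702600424) (nat_lit 2) (nat_lit 5) (nat_lit 4) (nat_lit 4) (nat_lit 2) (nat_lit 4)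 (nat_lit 382) (nat_lit 237) (nat_lit 161))) (XT.nd (nat_lit 78) (nat_lit 76) (nat_lit 0) (XT.lf (nat_lit 0) (nat_lit 223759272680) (nat_lit 152) (nat_lit 5921608262) (nat_lit 0) (nat_lit 216862268710) (nat_lit 2) (nat_lit 5) (nat_lit 4) (nat_lit 4) (nat_lit 2) (nat_lit 4) (nat_lit 383) (nat_lit 237) (nat_lit 160)) (XT.nd (nat_lit 78) (nat_lit 76) (nat_lit 0) (XT.lf (nat_lit 0) (nat_lit 237579074995) (nat_lit 152) (nat_lit 466955552) (nat_lit 0) (nat_lit 230674216327) (nat_lit 2) (nat_lit 5) (nat_lit 4) (nat_lit 4) (nat_lit 2) (nat_lit 4) (nat_lit 384) (nat_lit 237) (nat_lit 159)) (XT.lf (nat_lit 0) (nat_lit 5422025117) (nat_lit 76) (nat_lit 246746296085) (nat_lit 76) (nat_lit 239833956753) (nat_lit 1) (nat_lit 4) (nat_lit 2) (nat_lit 5) (nat_lit 2) (nat_lit 4) (nat_lit 385) (nat_lit 237) (nat_lit 158)))))) (XT.nd (nat_lit 390) (nat_lit 0) (nat_lit 0) (XT.nd (nat_lit 156) (nat_lit 0)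 (nat_lit 0) (XT.nd (nat_lit 78) (nat_lit 0) (nat_lit 0) (XT.lf (nat_lit 0) (nat_lit 11609915756) (nat_lit 76) (nat_lit 255878934594) (nat_lit 76) (nat_lit 248959470820) (nat_lit 1) (nat_lit 4) (nat_lit 2) (nat_lit 5) (nat_lit 2) (nat_lit 4) (nat_lit 386) (nat_lit 237) (nat_lit 157)) (XT.lf (nat_lit 0) (nat_lit 18096009778) (nat_lit 76) (nat_lit 265473598568) (nat_lit 76) (nat_lit 258547349611) (nat_lit 1) (nat_lit 4) (nat_lit 2) (nat_lit 5) (nat_lit 2) (nat_lit 4) (nat_lit 387) (nat_lit 237) (nat_lit 156))) (XT.nd (nat_lit 78) (nat_lit 0) (nat_lit 0) (XT.lf (nat_lit 0) (nat_lit 24895750263) (nat_lit 76) (nat_lit 275553132447) (nat_lit 76) (nat_lit 268620421410) (nat_lit 1) (nat_lit 4) (nat_lit 2) (nat_lit 5) (nat_lit 2) (nat_lit 4) (nat_lit 388) (nat_lit 237) (nat_lit 155)) (XT.nd (nat_lit 78) (nat_lit 0) (nat_lit 0) (XT.lf (nat_lit 0) (nat_lit 32025327070) (nat_lit 76) (nat_lit 286141535119)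 (nat_lit 76) (nat_lit 279202669721) (nat_lit 1) (nat_lit 4) (nat_lit 2) (nat_lit 5) (nat_lit 2) (nat_lit 4) (nat_lit 389) (nat_lit 237) (nat_lit 154)) (XT.lf (nat_lit 0) (nat_lit 39501715382) (nat_lit 76) (nat_lit 297264017068) (nat_lit 76) (nat_lit 290319290374) (nat_lit 1) (nat_lit 4) (nat_lit 2) (nat_lit 5) (nat_lit 2) (nat_lit 4) (nat_lit 390) (nat_lit 237) (nat_lit 153))))) (XT.nd (nat_lit 33930) (nat_lit 0) (nat_lit 1368) (XT.nd (nat_lit 78) (nat_lit 0) (nat_lit 0) (XT.lf (nat_lit 0) (nat_lit 47342716124) (nat_lit 76) (nat_lit 308947060394) (nat_lit 76) (nat_lit 301996751512) (nat_lit 1) (nat_lit 4) (nat_lit 2) (nat_lit 5) (nat_lit 2) (nat_lit 4) (nat_lit 391) (nat_lit 237) (nat_lit 152)) (XT.nd (nat_lit 33774) (nat_lit 0) (nat_lit 1672) (XT.lf (nat_lit 0) (nat_lit 55566998344) (nat_lit 76) (nat_lit 321218481865) (nat_lit 76) (nat_lit 314262856615) (nat_lit 1) (nat_lit 4) (nat_lit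 2) (nat_lit 5) (nat_lit 2) (nat_lit 4) (nat_lit 392) (nat_lit 237) (nat_lit 151)) (XT.lf (nat_lit 0) (nat_lit 1999932970) (nat_lit 152) (nat_lit 2439520468) (nat_lit 152) (nat_lit 2439520468) (nat_lit 23) (nat_lit 4) (nat_lit 25) (nat_lit 5) (nat_lit 25) (nat_lit 4) (nat_lit 304) (nat_lit 238) (nat_lit 238)))) (XT.nd (nat_lit 78) (nat_lit 304) (nat_lit 0) (XT.lf (nat_lit 0) (nat_lit 12731970828) (nat_lit 152) (nat_lit 980870469) (nat_lit 152) (nat_lit 484026643) (nat_lit 23) (nat_lit 4) (nat_lit 25) (nat_lit 5) (nat_lit 25) (nat_lit 4) (nat_lit 305) (nat_lit 238) (nat_lit 237)) (XT.nd (nat_lit 78) (nat_lit 152) (nat_lit 0) (XT.lf (nat_lit 0) (nat_lit 4002235314) (nat_lit 152) (nat_lit 7573791870) (nat_lit 0) (nat_lit 3078398722) (nat_lit 21) (nat_lit 5) (nat_lit 23) (nat_lit 4) (nat_lit 21) (nat_lit 4) (nat_lit 306) (nat_lit 238) (nat_lit 236)) (XT.lf (nat_lit 0) (nat_lit 692878609)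 (nat_lit 152) (nat_lit 7899949063) (nat_lit 152) (nat_lit 6546920093) (nat_lit 19) (nat_lit 4) (nat_lit 21) (nat_lit 5) (nat_lit 21) (nat_lit 4) (nat_lit 307) (nat_lit 238) (nat_lit 235))))))))
noncomputable def xc48 : XT := (XT.nd (nat_lit 1560) (nat_lit 304) (nat_lit 0) (XT.nd (nat_lit 780) (nat_lit 380) (nat_lit 0) (XT.nd (nat_lit 390) (nat_lit 228) (nat_lit 0) (XT.nd (nat_lit 156) (nat_lit 76) (nat_lit 0) (XT.nd (nat_lit 78) (nat_lit 152) (nat_lit 0) (XT.lf (nat_lit 0) (nat_lit 9364717241) (nat_lit 152) (nat_lit 4023856597) (nat_lit 152) (nat_lit 2262072982) (nat_lit 19) (nat_lit 4) (nat_lit 21) (nat_lit 5) (nat_lit 21) (nat_lit 4) (nat_lit 308) (nat_lit 238) (nat_lit 234)) (XT.lf (nat_lit 0) (nat_lit 2049607773) (nat_lit 152) (nat_lit 14140644886) (nat_lit 0) (nat_lit 966103) (nat_lit 17) (nat_lit 5) (nat_lit 19) (nat_lit 4) (nat_lit 17) (nat_lit 4) (nat_lit 309) (nat_lit 238) (nat_lit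 233))) (XT.nd (nat_lit 78) (nat_lit 76) (nat_lit 0) (XT.lf (nat_lit 0) (nat_lit 6528392418) (nat_lit 152) (nat_lit 6100622331) (nat_lit 0) (nat_lit 4126653117) (nat_lit 17) (nat_lit 5) (nat_lit 19) (nat_lit 4) (nat_lit 17) (nat_lit 4) (nat_lit 310) (nat_lit 238) (nat_lit 232)) (XT.nd (nat_lit 78) (nat_lit 0) (nat_lit 0) (XT.lf (nat_lit 0) (nat_lit 2158615888) (nat_lit 76) (nat_lit 8966559641) (nat_lit 76) (nat_lit 6228536882) (nat_lit 16) (nat_lit 4) (nat_lit 17) (nat_lit 5) (nat_lit 17) (nat_lit 4) (nat_lit 311) (nat_lit 238) (nat_lit 231)) (XT.lf (nat_lit 0) (nat_lit 10794803694) (nat_lit 76) (nat_lit 5123448898) (nat_lit 76) (nat_lit 2065156178) (nat_lit 16) (nat_lit 4) (nat_lit 17) (nat_lit 5) (nat_lit 17) (nat_lit 4) (nat_lit 312) (nat_lit 238) (nat_lit 230))))) (XT.nd (nat_lit 156) (nat_lit 76) (nat_lit 0) (XT.nd (nat_lit 78) (nat_lit 0) (nat_lit 0) (XT.lf (nat_lit 0) (nat_lit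 972880080) (nat_lit 76) (nat_lit 1142335436) (nat_lit 152) (nat_lit 16533507524) (nat_lit 14) (nat_lit 5) (nat_lit 15) (nat_lit 5) (nat_lit 16) (nat_lit 4) (nat_lit 313) (nat_lit 238) (nat_lit 229)) (XT.lf (nat_lit 0) (nat_lit 6474774967) (nat_lit 152) (nat_lit 9873959482) (nat_lit 0) (nat_lit 2994959706) (nat_lit 14) (nat_lit 5) (nat_lit 16) (nat_lit 4) (nat_lit 14) (nat_lit 4) (nat_lit 314) (nat_lit 238) (nat_lit 228))) (XT.nd (nat_lit 78) (nat_lit 76) (nat_lit 0) (XT.lf (nat_lit 0) (nat_lit 10945710227) (nat_lit 152) (nat_lit 1930685134) (nat_lit 0) (nat_lit 7202408077) (nat_lit 14) (nat_lit 5) (nat_lit 16) (nat_lit 4) (nat_lit 14) (nat_lit 4) (nat_lit 315) (nat_lit 238) (nat_lit 227)) (XT.nd (nat_lit 78) (nat_lit 0) (nat_lit 0) (XT.lf (nat_lit 0) (nat_lit 6395421114) (nat_lit 76) (nat_lit 9225260655) (nat_lit 76) (nat_lit 5231018611) (nat_lit 13) (nat_lit 4) (nat_lit 14) (nat_lit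 5) (nat_lit 14) (nat_lit 4) (nat_lit 316) (nat_lit 238) (nat_lit 226)) (XT.lf (nat_lit 0) (nat_lit 14989369135) (nat_lit 76) (nat_lit 5455688323) (nat_lit 76) (nat_lit 1222455904) (nat_lit 13) (nat_lit 4) (nat_lit 14) (nat_lit 5) (nat_lit 14) (nat_lit 4) (nat_lit 317) (nat_lit 238) (nat_lit 225)))))) (XT.nd (nat_lit 390) (nat_lit 152) (nat_lit 0) (XT.nd (nat_lit 156) (nat_lit 76) (nat_lit 0) (XT.nd (nat_lit 78) (nat_lit 0) (nat_lit 0) (XT.lf (nat_lit 0) (nat_lit 1274018246) (nat_lit 76) (nat_lit 1523474703) (nat_lit 152) (nat_lit 19729014302) (nat_lit 11) (nat_lit 5) (nat_lit 12) (nat_lit 5) (nat_lit 13) (nat_lit 4) (nat_lit 318) (nat_lit 238) (nat_lit 224)) (XT.lf (nat_lit 0) (nat_lit 7020351118) (nat_lit 152) (nat_lit 13839513599) (nat_lit 0) (nat_lit 2565481007) (nat_lit 11) (nat_lit 5) (nat_lit 13) (nat_lit 4) (nat_lit 11) (nat_lit 4) (nat_lit 319) (nat_lit 238) (nat_lit 223))) (XT.nd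 (nat_lit 78) (nat_lit 76) (nat_lit 0) (XT.lf (nat_lit 0) (nat_lit 11372056652) (nat_lit 152) (nat_lit 6280660082) (nat_lit 0) (nat_lit 6720568568) (nat_lit 11) (nat_lit 5) (nat_lit 13) (nat_lit 4) (nat_lit 11) (nat_lit 4) (nat_lit 320) (nat_lit 238) (nat_lit 222)) (XT.nd (nat_lit 78) (nat_lit 0) (nat_lit 0) (XT.lf (nat_lit 0) (nat_lit 1514322295) (nat_lit 76) (nat_lit 14348505564) (nat_lit 76) (nat_lit 9509762268) (nat_lit 10) (nat_lit 4) (nat_lit 11) (nat_lit 5) (nat_lit 11) (nat_lit 4) (nat_lit 321) (nat_lit 238) (nat_lit 221)) (XT.lf (nat_lit 0) (nat_lit 9729891599) (nat_lit 76) (nat_lit 10854391592) (nat_lit 76) (nat_lit 5837309998) (nat_lit 10) (nat_lit 4) (nat_lit 11) (nat_lit 5) (nat_lit 11) (nat_lit 4) (nat_lit 322) (nat_lit 238) (nat_lit 220))))) (XT.nd (nat_lit 156) (nat_lit 76) (nat_lit 0) (XT.nd (nat_lit 78) (nat_lit 76) (nat_lit 0) (XT.lf (nat_lit 0) (nat_lit 18177941724)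 (nat_lit 76) (nat_lit 7268421517) (nat_lit 76) (nat_lit 2081493925) (nat_lit 10) (nat_lit 4) (nat_lit 11) (nat_lit 5) (nat_lit 11) (nat_lit 4) (nat_lit 323) (nat_lit 238) (nat_lit 219)) (XT.lf (nat_lit 0) (nat_lit 1710085230) (nat_lit 152) (nat_lit 1843010963) (nat_lit 76) (nat_lit 25139540722) (nat_lit 9) (nat_lit 5) (nat_lit 11) (nat_lit 5) (nat_lit 10) (nat_lit 4) (nat_lit 324) (nat_lit 238) (nat_lit 218))) (XT.nd (nat_lit 78) (nat_lit 0) (nat_lit 0) (XT.lf (nat_lit 0) (nat_lit 5633805517) (nat_lit 152) (nat_lit 23886451636) (nat_lit 0) (nat_lit 393099791) (nat_lit 8) (nat_lit 5) (nat_lit 10) (nat_lit 4) (nat_lit 8) (nat_lit 4) (nat_lit 325) (nat_lit 238) (nat_lit 217)) (XT.nd (nat_lit 78) (nat_lit 0) (nat_lit 0) (XT.lf (nat_lit 0) (nat_lit 9756137467) (nat_lit 152) (nat_lit 17063186760) (nat_lit 0) (nat_lit 4375699019) (nat_lit 8) (nat_lit 5) (nat_lit 10) (nat_lit 4) (nat_lit 8)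 (nat_lit 4) (nat_lit 326) (nat_lit 238) (nat_lit 216)) (XT.lf (nat_lit 0) (nat_lit 14001209074) (nat_lit 152) (nat_lit 10056070850) (nat_lit 0) (nat_lit 8487691842) (nat_lit 8) (nat_lit 5) (nat_lit 10) (nat_lit 4) (nat_lit 8) (nat_lit 4) (nat_lit 327) (nat_lit 238) (nat_lit 215))))))) (XT.nd (nat_lit 780) (nat_lit 76) (nat_lit 0) (XT.nd (nat_lit 390) (nat_lit 152) (nat_lit 0) (XT.nd (nat_lit 156) (nat_lit 0) (nat_lit 0) (XT.nd (nat_lit 78) (nat_lit 76) (nat_lit 0) (XT.lf (nat_lit 0) (nat_lit 18379127651) (nat_lit 152) (nat_lit 2848420295) (nat_lit 0) (nat_lit 12738868720) (nat_lit 8) (nat_lit 5) (nat_lit 10) (nat_lit 4) (nat_lit 8) (nat_lit 4) (nat_lit 328) (nat_lit 238) (nat_lit 214)) (XT.lf (nat_lit 0) (nat_lit 4728259819) (nat_lit 76) (nat_lit 18245878379) (nat_lit 76) (nat_lit 12484913068) (nat_lit 7) (nat_lit 4) (nat_lit 8) (nat_lit 5) (nat_lit 8) (nat_lit 4) (nat_lit 329) (nat_lit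 238) (nat_lit 213))) (XT.nd (nat_lit 78) (nat_lit 0) (nat_lit 0) (XT.lf (nat_lit 0) (nat_lit 12642279251) (nat_lit 76) (nat_lit 15130643453) (nat_lit 76) (nat_lit 9254719685) (nat_lit 7) (nat_lit 4) (nat_lit 8) (nat_lit 5) (nat_lit 8) (nat_lit 4) (nat_lit 330) (nat_lit 238) (nat_lit 212)) (XT.nd (nat_lit 78) (nat_lit 0) (nat_lit 0) (XT.lf (nat_lit 0) (nat_lit 20818299263) (nat_lit 76) (nat_lit 11922665317) (nat_lit 76) (nat_lit 5937257305) (nat_lit 7) (nat_lit 4) (nat_lit 8) (nat_lit 5) (nat_lit 8) (nat_lit 4) (nat_lit 331) (nat_lit 238) (nat_lit 211)) (XT.lf (nat_lit 0) (nat_lit 29275786570) (nat_lit 76) (nat_lit 8614305928) (nat_lit 76) (nat_lit 2524627207) (nat_lit 7) (nat_lit 4) (nat_lit 8) (nat_lit 5) (nat_lit 8) (nat_lit 4) (nat_lit 332) (nat_lit 238) (nat_lit 210))))) (XT.nd (nat_lit 156) (nat_lit 0) (nat_lit 0) (XT.nd (nat_lit 78) (nat_lit 76) (nat_lit 0) (XT.lf (nat_lit 0) (nat_lit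 959568257) (nat_lit 152) (nat_lit 4221869231) (nat_lit 76) (nat_lit 37059059038) (nat_lit 6) (nat_lit 5) (nat_lit 8) (nat_lit 5) (nat_lit 7) (nat_lit 4) (nat_lit 333) (nat_lit 238) (nat_lit 209)) (XT.lf (nat_lit 0) (nat_lit 2977387132) (nat_lit 76) (nat_lit 1540148427) (nat_lit 152) (nat_lit 39638757297) (nat_lit 5) (nat_lit 5) (nat_lit 6) (nat_lit 5) (nat_lit 7) (nat_lit 4) (nat_lit 334) (nat_lit 238) (nat_lit 208))) (XT.nd (nat_lit 78) (nat_lit 0) (nat_lit 0) (XT.lf (nat_lit 0) (nat_lit 8299936211) (nat_lit 152) (nat_lit 35635826562) (nat_lit 0) (nat_lit 2229808855) (nat_lit 5) (nat_lit 5) (nat_lit 7) (nat_lit 4) (nat_lit 5) (nat_lit 4) (nat_lit 335) (nat_lit 238) (nat_lit 207)) (XT.nd (nat_lit 78) (nat_lit 0) (nat_lit 0) (XT.lf (nat_lit 0) (nat_lit 12237863548) (nat_lit 152) (nat_lit 29953111545) (nat_lit 0) (nat_lit 6086037363) (nat_lit 5) (nat_lit 5) (nat_lit 7) (nat_lit 4) (nat_lit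 5) (nat_lit 4) (nat_lit 336) (nat_lit 238) (nat_lit 206)) (XT.lf (nat_lit 0) (nat_lit 16316647555) (nat_lit 152) (nat_lit 24093184365) (nat_lit 0) (nat_lit 10087012961) (nat_lit 5) (nat_lit 5) (nat_lit 7) (nat_lit 4) (nat_lit 5) (nat_lit 4) (nat_lit 337) (nat_lit 238) (nat_lit 205)))))) (XT.nd (nat_lit 390) (nat_lit 0) (nat_lit 0) (XT.nd (nat_lit 156) (nat_lit 76) (nat_lit 0) (XT.nd (nat_lit 78) (nat_lit 0) (nat_lit 0) (XT.lf (nat_lit 0) (nat_lit 20545999623) (nat_lit 152) (nat_lit 18042092816) (nat_lit 0) (nat_lit 14242261782) (nat_lit 5) (nat_lit 5) (nat_lit 7) (nat_lit 4) (nat_lit 5) (nat_lit 4) (nat_lit 338) (nat_lit 238) (nat_lit 204)) (XT.lf (nat_lit 0) (nat_lit 24935989636) (nat_lit 152) (nat_lit 11785429537) (nat_lit 0) (nat_lit 18561677275) (nat_lit 5) (nat_lit 5) (nat_lit 7) (nat_lit 4) (nat_lit 5) (nat_lit 4) (nat_lit 339) (nat_lit 238) (nat_lit 203))) (XT.nd (nat_lit 78)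 (nat_lit 76) (nat_lit 0) (XT.lf (nat_lit 0) (nat_lit 29497069953) (nat_lit 152) (nat_lit 5308297710) (nat_lit 0) (nat_lit 23055543764) (nat_lit 5) (nat_lit 5) (nat_lit 7) (nat_lit 4) (nat_lit 5) (nat_lit 4) (nat_lit 340) (nat_lit 238) (nat_lit 202)) (XT.nd (nat_lit 78) (nat_lit 0) (nat_lit 0) (XT.lf (nat_lit 0) (nat_lit 1451170939) (nat_lit 76) (nat_lit 32811586195) (nat_lit 76) (nat_lit 26306046835) (nat_lit 4) (nat_lit 4) (nat_lit 5) (nat_lit 5) (nat_lit 5) (nat_lit 4) (nat_lit 341) (nat_lit 238) (nat_lit 201)) (XT.lf (nat_lit 0) (nat_lit 8646357641) (nat_lit 76) (nat_lit 30665009804) (nat_lit 76) (nat_lit 24098505520) (nat_lit 4) (nat_lit 4) (nat_lit 5) (nat_lit 5) (nat_lit 5) (nat_lit 4) (nat_lit 342) (nat_lit 238) (nat_lit 200))))) (XT.nd (nat_lit 234) (nat_lit 0) (nat_lit 0) (XT.nd (nat_lit 78) (nat_lit 0) (nat_lit 0) (XT.lf (nat_lit 0) (nat_lit 16118877497) (nat_lit 76) (nat_lit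 28450426187) (nat_lit 76) (nat_lit 21825860070) (nat_lit 4) (nat_lit 4) (nat_lit 5) (nat_lit 5) (nat_lit 5) (nat_lit 4) (nat_lit 343) (nat_lit 238) (nat_lit 199)) (XT.nd (nat_lit 78) (nat_lit 0) (nat_lit 0) (XT.lf (nat_lit 0) (nat_lit 23886522222) (nat_lit 76) (nat_lit 26162562524) (nat_lit 76) (nat_lit 19482699424) (nat_lit 4) (nat_lit 4) (nat_lit 5) (nat_lit 5) (nat_lit 5) (nat_lit 4) (nat_lit 344) (nat_lit 238) (nat_lit 198)) (XT.lf (nat_lit 0) (nat_lit 31967786207) (nat_lit 76) (nat_lit 23795971521) (nat_lit 76) (nat_lit 17063444628) (nat_lit 4) (nat_lit 4) (nat_lit 5) (nat_lit 5) (nat_lit 5) (nat_lit 4) (nat_lit 345) (nat_lit 238) (nat_lit 197)))) (XT.nd (nat_lit 78) (nat_lit 0) (nat_lit 0) (XT.lf (nat_lit 0) (nat_lit 40381910557) (nat_lit 76) (nat_lit 21345018439) (nat_lit 76) (nat_lit 14562335552) (nat_lit 4) (nat_lit 4) (nat_lit 5) (nat_lit 5) (nat_lit 5) (nat_lit 4) (nat_lit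 346) (nat_lit 238) (nat_lit 196)) (XT.nd (nat_lit 78) (nat_lit 0) (nat_lit 0) (XT.lf (nat_lit 0) (nat_lit 49148928902) (nat_lit 76) (nat_lit 18803867674) (nat_lit 76) (nat_lit 11973417173) (nat_lit 4) (nat_lit 4) (nat_lit 5) (nat_lit 5) (nat_lit 5) (nat_lit 4) (nat_lit 347) (nat_lit 238) (nat_lit 195)) (XT.lf (nat_lit 0) (nat_lit 58289715094) (nat_lit 76) (nat_lit 16166468867) (nat_lit 76) (nat_lit 9290525401) (nat_lit 4) (nat_lit 4) (nat_lit 5) (nat_lit 5) (nat_lit 5) (nat_lit 4) (nat_lit 348) (nat_lit 238) (nat_lit 194))))))))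
noncomputable def xc49 : XT := (XT.nd (nat_lit 1560) (nat_lit 76) (nat_lit 0) (XT.nd (nat_lit 780) (nat_lit 0) (nat_lit 0) (XT.nd (nat_lit 390) (nat_lit 0) (nat_lit 0) (XT.nd (nat_lit 156) (nat_lit 152) (nat_lit 0) (XT.nd (nat_lit 78) (nat_lit 0) (nat_lit 0) (XT.lf (nat_lit 0) (nat_lit 67826032911) (nat_lit 76) (nat_lit 13426542497) (nat_lit 76) (nat_lit 6507272398) (nat_lit 4) (nat_lit 4) (nat_lit 5) (nat_lit 5) (nat_lit 5) (nat_lit 4) (nat_lit 349) (nat_lit 238) (nat_lit 193)) (XT.lf (nat_lit 0) (nat_lit 77780587871) (nat_lit 76) (nat_lit 10577564931) (nat_lit 76) (nat_lit 3617031372) (nat_lit 4) (nat_lit 4) (nat_lit 5) (nat_lit 5) (nat_lit 5) (nat_lit 4) (nat_lit 350) (nat_lit 238) (nat_lit 192))) (XT.nd (nat_lit 78) (nat_lit 152) (nat_lit 0) (XT.lf (nat_lit 0) (nat_lit 88177081295) (nat_lit 76) (nat_lit 7612752888) (nat_lit 76) (nat_lit 612920795) (nat_lit 4) (nat_lit 4) (nat_lit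 5) (nat_lit 5) (nat_lit 5) (nat_lit 4) (nat_lit 351) (nat_lit 238) (nat_lit 191)) (XT.nd (nat_lit 78) (nat_lit 76) (nat_lit 0) (XT.lf (nat_lit 0) (nat_lit 2431805503) (nat_lit 152) (nat_lit 2052057985) (nat_lit 76) (nat_lit 96567277432) (nat_lit 3) (nat_lit 5) (nat_lit 5) (nat_lit 5) (nat_lit 4) (nat_lit 4) (nat_lit 352) (nat_lit 238) (nat_lit 190)) (XT.lf (nat_lit 0) (nat_lit 4513139502) (nat_lit 76) (nat_lit 1138589130) (nat_lit 152) (nat_lit 100277544867) (nat_lit 2) (nat_lit 5) (nat_lit 3) (nat_lit 5) (nat_lit 4) (nat_lit 4) (nat_lit 353) (nat_lit 238) (nat_lit 189))))) (XT.nd (nat_lit 156) (nat_lit 0) (nat_lit 0) (XT.nd (nat_lit 78) (nat_lit 0) (nat_lit 0) (XT.lf (nat_lit 0) (nat_lit 9078241514) (nat_lit 152) (nat_lit 99660987538) (nat_lit 0) (nat_lit 2309811278) (nat_lit 2) (nat_lit 5) (nat_lit 4) (nat_lit 4) (nat_lit 2) (nat_lit 4) (nat_lit 354) (nat_lit 238) (nat_lit 188)) (XT.lf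 (nat_lit 0) (nat_lit 12669228565) (nat_lit 152) (nat_lit 97885909562) (nat_lit 0) (nat_lit 5870006900) (nat_lit 2) (nat_lit 5) (nat_lit 4) (nat_lit 4) (nat_lit 2) (nat_lit 4) (nat_lit 355) (nat_lit 238) (nat_lit 187))) (XT.nd (nat_lit 78) (nat_lit 0) (nat_lit 0) (XT.lf (nat_lit 0) (nat_lit 16415463190) (nat_lit 152) (nat_lit 96068897129) (nat_lit 0) (nat_lit 9586916354) (nat_lit 2) (nat_lit 5) (nat_lit 4) (nat_lit 4) (nat_lit 2) (nat_lit 4) (nat_lit 356) (nat_lit 238) (nat_lit 186)) (XT.nd (nat_lit 78) (nat_lit 0) (nat_lit 0) (XT.lf (nat_lit 0) (nat_lit 20325864994) (nat_lit 152) (nat_lit 94205624017) (nat_lit 0) (nat_lit 13469389425) (nat_lit 2) (nat_lit 5) (nat_lit 4) (nat_lit 4) (nat_lit 2) (nat_lit 4) (nat_lit 357) (nat_lit 238) (nat_lit 185)) (XT.lf (nat_lit 0) (nat_lit 24409744459) (nat_lit 152) (nat_lit 92291653862) (nat_lit 0) (nat_lit 17526670094) (nat_lit 2) (nat_lit 5) (nat_lit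 4) (nat_lit 4) (nat_lit 2) (nat_lit 4) (nat_lit 358) (nat_lit 238) (nat_lit 184)))))) (XT.nd (nat_lit 390) (nat_lit 0) (nat_lit 0) (XT.nd (nat_lit 156) (nat_lit 0) (nat_lit 0) (XT.nd (nat_lit 78) (nat_lit 0) (nat_lit 0) (XT.lf (nat_lit 0) (nat_lit 28676825105) (nat_lit 152) (nat_lit 90322429592) (nat_lit 0) (nat_lit 21768418556) (nat_lit 2) (nat_lit 5) (nat_lit 4) (nat_lit 4) (nat_lit 2) (nat_lit 4) (nat_lit 359) (nat_lit 238) (nat_lit 183)) (XT.lf (nat_lit 0) (nat_lit 33137266650) (nat_lit 152) (nat_lit 88293262578) (nat_lit 0) (nat_lit 26204734210) (nat_lit 2) (nat_lit 5) (nat_lit 4) (nat_lit 4) (nat_lit 2) (nat_lit 4) (nat_lit 360) (nat_lit 238) (nat_lit 182))) (XT.nd (nat_lit 78) (nat_lit 0) (nat_lit 0) (XT.lf (nat_lit 0) (nat_lit 37801689192) (nat_lit 152) (nat_lit 86199321471) (nat_lit 0) (nat_lit 30846179714) (nat_lit 2) (nat_lit 5) (nat_lit 4) (nat_lit 4) (nat_lit 2) (nat_lit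 4) (nat_lit 361) (nat_lit 238) (nat_lit 181)) (XT.nd (nat_lit 78) (nat_lit 0) (nat_lit 0) (XT.lf (nat_lit 0) (nat_lit 42681198500) (nat_lit 152) (nat_lit 84035620695) (nat_lit 0) (nat_lit 35703806127) (nat_lit 2) (nat_lit 5) (nat_lit 4) (nat_lit 4) (nat_lit 2) (nat_lit 4) (nat_lit 362) (nat_lit 238) (nat_lit 180)) (XT.lf (nat_lit 0) (nat_lit 47787412452) (nat_lit 152) (nat_lit 81797008582) (nat_lit 0) (nat_lit 40789179227) (nat_lit 2) (nat_lit 5) (nat_lit 4) (nat_lit 4) (nat_lit 2) (nat_lit 4) (nat_lit 363) (nat_lit 238) (nat_lit 179))))) (XT.nd (nat_lit 156) (nat_lit 0) (nat_lit 0) (XT.nd (nat_lit 78) (nat_lit 0) (nat_lit 0) (XT.lf (nat_lit 0) (nat_lit 53132488700) (nat_lit 152) (nat_lit 79478155104) (nat_lit 0) (nat_lit 46114407046) (nat_lit 2) (nat_lit 5) (nat_lit 4) (nat_lit 4) (nat_lit 2) (nat_lit 4) (nat_lit 364) (nat_lit 238) (nat_lit 178)) (XT.lf (nat_lit 0) (nat_lit 58729153617)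 (nat_lit 152) (nat_lit 77073539181) (nat_lit 0) (nat_lit 51692168696) (nat_lit 2) (nat_lit 5) (nat_lit 4) (nat_lit 4) (nat_lit 2) (nat_lit 4) (nat_lit 365) (nat_lit 238) (nat_lit 177))) (XT.nd (nat_lit 78) (nat_lit 0) (nat_lit 0) (XT.lf (nat_lit 0) (nat_lit 64590732596) (nat_lit 152) (nat_lit 74577435537) (nat_lit 0) (nat_lit 57535744564) (nat_lit 2) (nat_lit 5) (nat_lit 4) (nat_lit 4) (nat_lit 2) (nat_lit 4) (nat_lit 366) (nat_lit 238) (nat_lit 176)) (XT.nd (nat_lit 78) (nat_lit 0) (nat_lit 0) (XT.lf (nat_lit 0) (nat_lit 70731181776) (nat_lit 152) (nat_lit 71983901068) (nat_lit 0) (nat_lit 63659047924) (nat_lit 2) (nat_lit 5) (nat_lit 4) (nat_lit 4) (nat_lit 2) (nat_lit 4) (nat_lit 367) (nat_lit 238) (nat_lit 175)) (XT.lf (nat_lit 0) (nat_lit 77165121276) (nat_lit 152) (nat_lit 69286760691) (nat_lit 0) (nat_lit 70076658071) (nat_lit 2) (nat_lit 5) (nat_lit 4) (nat_lit 4) (nat_lit 2)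 (nat_lit 4) (nat_lit 368) (nat_lit 238) (nat_lit 174))))))) (XT.nd (nat_lit 780) (nat_lit 76) (nat_lit 0) (XT.nd (nat_lit 390) (nat_lit 0) (nat_lit 0) (XT.nd (nat_lit 156) (nat_lit 0) (nat_lit 0) (XT.nd (nat_lit 78) (nat_lit 0) (nat_lit 0) (XT.lf (nat_lit 0) (nat_lit 83907869998) (nat_lit 152) (nat_lit 66479592645) (nat_lit 0) (nat_lit 76803855029) (nat_lit 2) (nat_lit 5) (nat_lit 4) (nat_lit 4) (nat_lit 2) (nat_lit 4) (nat_lit 369) (nat_lit 238) (nat_lit 173)) (XT.lf (nat_lit 0) (nat_lit 90975482106) (nat_lit 152) (nat_lit 63555713195) (nat_lit 0) (nat_lit 83856655933) (nat_lit 2) (nat_lit 5) (nat_lit 4) (nat_lit 4) (nat_lit 2) (nat_lit 4) (nat_lit 370) (nat_lit 238) (nat_lit 172))) (XT.nd (nat_lit 78) (nat_lit 0) (nat_lit 0) (XT.lf (nat_lit 0) (nat_lit 98384785248) (nat_lit 152) (nat_lit 60508160724) (nat_lit 0) (nat_lit 91251853166) (nat_lit 2) (nat_lit 5) (nat_lit 4) (nat_lit 4)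 (nat_lit 2) (nat_lit 4) (nat_lit 371) (nat_lit 238) (nat_lit 171)) (XT.nd (nat_lit 78) (nat_lit 0) (nat_lit 0) (XT.lf (nat_lit 0) (nat_lit 106153420622) (nat_lit 152) (nat_lit 57329679154) (nat_lit 0) (nat_lit 99007054342) (nat_lit 2) (nat_lit 5) (nat_lit 4) (nat_lit 4) (nat_lit 2) (nat_lit 4) (nat_lit 372) (nat_lit 238) (nat_lit 170)) (XT.lf (nat_lit 0) (nat_lit 114299884978) (nat_lit 152) (nat_lit 54012700673) (nat_lit 0) (nat_lit 107140724223) (nat_lit 2) (nat_lit 5) (nat_lit 4) (nat_lit 4) (nat_lit 2) (nat_lit 4) (nat_lit 373) (nat_lit 238) (nat_lit 169))))) (XT.nd (nat_lit 156) (nat_lit 0) (nat_lit 0) (XT.nd (nat_lit 78) (nat_lit 0) (nat_lit 0) (XT.lf (nat_lit 0) (nat_lit 122843574662) (nat_lit 152) (nat_lit 50549327713) (nat_lit 0) (nat_lit 115672228693) (nat_lit 2) (nat_lit 5) (nat_lit 4) (nat_lit 4) (nat_lit 2) (nat_lit 4) (nat_lit 374) (nat_lit 238) (nat_lit 168)) (XT.lf (nat_lit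 0) (nat_lit 131804831790) (nat_lit 152) (nat_lit 46931314146) (nat_lit 0) (nat_lit 124621880855) (nat_lit 2) (nat_lit 5) (nat_lit 4) (nat_lit 4) (nat_lit 2) (nat_lit 4) (nat_lit 375) (nat_lit 238) (nat_lit 167))) (XT.nd (nat_lit 78) (nat_lit 0) (nat_lit 0) (XT.lf (nat_lit 0) (nat_lit 141204992689) (nat_lit 152) (nat_lit 43150045657) (nat_lit 0) (nat_lit 134010989406) (nat_lit 2) (nat_lit 5) (nat_lit 4) (nat_lit 4) (nat_lit 2) (nat_lit 4) (nat_lit 376) (nat_lit 238) (nat_lit 166)) (XT.nd (nat_lit 78) (nat_lit 0) (nat_lit 0) (XT.lf (nat_lit 0) (nat_lit 151066438696) (nat_lit 152) (nat_lit 39196519223) (nat_lit 0) (nat_lit 143861909366) (nat_lit 2) (nat_lit 5) (nat_lit 4) (nat_lit 4) (nat_lit 2) (nat_lit 4) (nat_lit 377) (nat_lit 238) (nat_lit 165)) (XT.lf (nat_lit 0) (nat_lit 161412649442) (nat_lit 152) (nat_lit 35061321687) (nat_lit 0) (nat_lit 154198095307) (nat_lit 2) (nat_lit 5) (nat_lit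 4) (nat_lit 4) (nat_lit 2) (nat_lit 4) (nat_lit 378) (nat_lit 238) (nat_lit 164)))))) (XT.nd (nat_lit 390) (nat_lit 76) (nat_lit 0) (XT.nd (nat_lit 156) (nat_lit 0) (nat_lit 0) (XT.nd (nat_lit 78) (nat_lit 0) (nat_lit 0) (XT.lf (nat_lit 0) (nat_lit 172268258764) (nat_lit 152) (nat_lit 30734607341) (nat_lit 0) (nat_lit 165044157194) (nat_lit 2) (nat_lit 5) (nat_lit 4) (nat_lit 4) (nat_lit 2) (nat_lit 4) (nat_lit 379) (nat_lit 238) (nat_lit 163)) (XT.lf (nat_lit 0) (nat_lit 183659113350) (nat_lit 152) (nat_lit 26206074484) (nat_lit 0) (nat_lit 176425918986) (nat_lit 2) (nat_lit 5) (nat_lit 4) (nat_lit 4) (nat_lit 2) (nat_lit 4) (nat_lit 380) (nat_lit 238) (nat_lit 162))) (XT.nd (nat_lit 78) (nat_lit 0) (nat_lit 0) (XT.lf (nat_lit 0) (nat_lit 195612334282) (nat_lit 152) (nat_lit 21464940894) (nat_lit 0) (nat_lit 188370480114) (nat_lit 2) (nat_lit 5) (nat_lit 4) (nat_lit 4) (nat_lit 2) (nat_lit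 4) (nat_lit 381) (nat_lit 238) (nat_lit 161)) (XT.nd (nat_lit 78) (nat_lit 0) (nat_lit 0) (XT.lf (nat_lit 0) (nat_lit 208156381611) (nat_lit 152) (nat_lit 16499918158) (nat_lit 0) (nat_lit 200906280010) (nat_lit 2) (nat_lit 5) (nat_lit 4) (nat_lit 4) (nat_lit 2) (nat_lit 4) (nat_lit 382) (nat_lit 238) (nat_lit 160)) (XT.lf (nat_lit 0) (nat_lit 221321122115) (nat_lit 152) (nat_lit 11299184795) (nat_lit 0) (nat_lit 214063165816) (nat_lit 2) (nat_lit 5) (nat_lit 4) (nat_lit 4) (nat_lit 2) (nat_lit 4) (nat_lit 383) (nat_lit 238) (nat_lit 159))))) (XT.nd (nat_lit 234) (nat_lit 0) (nat_lit 0) (XT.nd (nat_lit 78) (nat_lit 76) (nat_lit 0) (XT.lf (nat_lit 0) (nat_lit 235137900415) (nat_lit 152) (nat_lit 5850358104) (nat_lit 0) (nat_lit 227872463452) (nat_lit 2) (nat_lit 5) (nat_lit 4) (nat_lit 4) (nat_lit 2) (nat_lit 4) (nat_lit 384) (nat_lit 238) (nat_lit 158)) (XT.nd (nat_lit 78) (nat_lit 76)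 (nat_lit 0) (XT.lf (nat_lit 0) (nat_lit 249639613603) (nat_lit 152) (nat_lit 140464690) (nat_lit 0) (nat_lit 242367052197) (nat_lit 2) (nat_lit 5) (nat_lit 4) (nat_lit 4) (nat_lit 2) (nat_lit 4) (nat_lit 385) (nat_lit 238) (nat_lit 157)) (XT.lf (nat_lit 0) (nat_lit 6037322454) (nat_lit 76) (nat_lit 258917726634) (nat_lit 76) (nat_lit 251638380046) (nat_lit 1) (nat_lit 4) (nat_lit 2) (nat_lit 5) (nat_lit 2) (nat_lit 4) (nat_lit 386) (nat_lit 238) (nat_lit 156)))) (XT.nd (nat_lit 78) (nat_lit 0) (nat_lit 0) (XT.lf (nat_lit 0) (nat_lit 12518217335) (nat_lit 76) (nat_lit 268514896319) (nat_lit 76) (nat_lit 261229087651) (nat_lit 1) (nat_lit 4) (nat_lit 2) (nat_lit 5) (nat_lit 2) (nat_lit 4) (nat_lit 387) (nat_lit 238) (nat_lit 155)) (XT.nd (nat_lit 78) (nat_lit 0) (nat_lit 0) (XT.lf (nat_lit 0) (nat_lit 19313006259) (nat_lit 76) (nat_lit 278596816587) (nat_lit 76) (nat_lit 271304853558)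 (nat_lit 1) (nat_lit 4) (nat_lit 2) (nat_lit 5) (nat_lit 2) (nat_lit 4) (nat_lit 388) (nat_lit 238) (nat_lit 154)) (XT.lf (nat_lit 0) (nat_lit 26437867292) (nat_lit 76) (nat_lit 289187492012) (nat_lit 76) (nat_lit 281889667687) (nat_lit 1) (nat_lit 4) (nat_lit 2) (nat_lit 5) (nat_lit 2) (nat_lit 4) (nat_lit 389) (nat_lit 238) (nat_lit 153))))))))
noncomputable def xc50 : XT := (XT.nd (nat_lit 35100) (nat_lit 0) (nat_lit 304) (XT.nd (nat_lit 34320) (nat_lit 0) (nat_lit 836) (XT.nd (nat_lit 33930) (nat_lit 0) (nat_lit 1368) (XT.nd (nat_lit 156) (nat_lit 0) (nat_lit 0) (XT.nd (nat_lit 78) (nat_lit 0) (nat_lit 0) (XT.lf (nat_lit 0) (nat_lit 33909764391) (nat_lit 76) (nat_lit 300312138488) (nat_lit 76) (nat_lit 293008731975) (nat_lit 1) (nat_lit 4) (nat_lit 2) (nat_lit 5) (nat_lit 2) (nat_lit 4) (nat_lit 390) (nat_lit 238) (nat_lit 152)) (XT.lf (nat_lit 0) (nat_lit 41746487787) (nat_lit 76)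 (nat_lit 311997243267) (nat_lit 76) (nat_lit 304688520386) (nat_lit 1) (nat_lit 4) (nat_lit 2) (nat_lit 5) (nat_lit 2) (nat_lit 4) (nat_lit 391) (nat_lit 238) (nat_lit 151))) (XT.nd (nat_lit 33618) (nat_lit 0) (nat_lit 1824) (XT.lf (nat_lit 0) (nat_lit 49966696345) (nat_lit 76) (nat_lit 324270628028) (nat_lit 76) (nat_lit 316956841938) (nat_lit 1) (nat_lit 4) (nat_lit 2) (nat_lit 5) (nat_lit 2) (nat_lit 4) (nat_lit 392) (nat_lit 238) (nat_lit 150)) (XT.nd (nat_lit 78) (nat_lit 0) (nat_lit 0) (XT.lf (nat_lit 0) (nat_lit 116259777) (nat_lit 152) (nat_lit 6243014839) (nat_lit 0) (nat_lit 116259777) (nat_lit 25) (nat_lit 5) (nat_lit 27) (nat_lit 4) (nat_lit 25) (nat_lit 4) (nat_lit 302) (nat_lit 239) (nat_lit 239)) (XT.lf (nat_lit 0) (nat_lit 4713763378) (nat_lit 152) (nat_lit 4438348892) (nat_lit 0) (nat_lit 4192077361) (nat_lit 25) (nat_lit 5) (nat_lit 27) (nat_lit 4) (nat_lit 25) (nat_lit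 4) (nat_lit 303) (nat_lit 239) (nat_lit 238))))) (XT.nd (nat_lit 156) (nat_lit 304) (nat_lit 0) (XT.nd (nat_lit 78) (nat_lit 0) (nat_lit 0) (XT.lf (nat_lit 0) (nat_lit 3862251238) (nat_lit 152) (nat_lit 5459121091) (nat_lit 152) (nat_lit 4440591247) (nat_lit 23) (nat_lit 4) (nat_lit 25) (nat_lit 5) (nat_lit 25) (nat_lit 4) (nat_lit 304) (nat_lit 239) (nat_lit 237)) (XT.lf (nat_lit 0) (nat_lit 12463294503) (nat_lit 152) (nat_lit 1616564087) (nat_lit 152) (nat_lit 124849648) (nat_lit 23) (nat_lit 4) (nat_lit 25) (nat_lit 5) (nat_lit 25) (nat_lit 4) (nat_lit 305) (nat_lit 239) (nat_lit 236))) (XT.nd (nat_lit 78) (nat_lit 152) (nat_lit 0) (XT.lf (nat_lit 0) (nat_lit 4259444096) (nat_lit 152) (nat_lit 7997541317) (nat_lit 0) (nat_lit 2409571300) (nat_lit 21) (nat_lit 5) (nat_lit 23) (nat_lit 4) (nat_lit 21) (nat_lit 4) (nat_lit 306) (nat_lit 239) (nat_lit 235)) (XT.nd (nat_lit 78) (nat_lit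 0) (nat_lit 0) (XT.lf (nat_lit 0) (nat_lit 122869153) (nat_lit 152) (nat_lit 8645873295) (nat_lit 152) (nat_lit 6387245854) (nat_lit 19) (nat_lit 4) (nat_lit 21) (nat_lit 5) (nat_lit 21) (nat_lit 4) (nat_lit 307) (nat_lit 239) (nat_lit 234)) (XT.lf (nat_lit 0) (nat_lit 8668756415) (nat_lit 152) (nat_lit 4824818544) (nat_lit 152) (nat_lit 2176900965) (nat_lit 19) (nat_lit 4) (nat_lit 21) (nat_lit 5) (nat_lit 21) (nat_lit 4) (nat_lit 308) (nat_lit 239) (nat_lit 233)))))) (XT.nd (nat_lit 390) (nat_lit 228) (nat_lit 0) (XT.nd (nat_lit 156) (nat_lit 152) (nat_lit 0) (XT.nd (nat_lit 78) (nat_lit 0) (nat_lit 0) (XT.lf (nat_lit 0) (nat_lit 1183453159) (nat_lit 76) (nat_lit 866363060) (nat_lit 152) (nat_lit 14165315933) (nat_lit 17) (nat_lit 5) (nat_lit 18) (nat_lit 5) (nat_lit 19) (nat_lit 4) (nat_lit 309) (nat_lit 239) (nat_lit 232)) (XT.lf (nat_lit 0) (nat_lit 6446956066) (nat_lit 152) (nat_lit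 7100995767) (nat_lit 0) (nat_lit 3235748711) (nat_lit 17) (nat_lit 5) (nat_lit 19) (nat_lit 4) (nat_lit 17) (nat_lit 4) (nat_lit 310) (nat_lit 239) (nat_lit 231))) (XT.nd (nat_lit 78) (nat_lit 76) (nat_lit 0) (XT.lf (nat_lit 0) (nat_lit 1004281609) (nat_lit 76) (nat_lit 9956560466) (nat_lit 76) (nat_lit 6425083150) (nat_lit 16) (nat_lit 4) (nat_lit 17) (nat_lit 5) (nat_lit 17) (nat_lit 4) (nat_lit 311) (nat_lit 239) (nat_lit 230)) (XT.nd (nat_lit 78) (nat_lit 76) (nat_lit 0) (XT.lf (nat_lit 0) (nat_lit 9525341815) (nat_lit 76) (nat_lit 6164994421) (nat_lit 76) (nat_lit 2328498095) (nat_lit 16) (nat_lit 4) (nat_lit 17) (nat_lit 5) (nat_lit 17) (nat_lit 4) (nat_lit 312) (nat_lit 239) (nat_lit 229)) (XT.lf (nat_lit 0) (nat_lit 1783533972) (nat_lit 152) (nat_lit 470745977) (nat_lit 76) (nat_lit 16433943117) (nat_lit 15) (nat_lit 5) (nat_lit 17) (nat_lit 5) (nat_lit 16) (nat_lit 4) (nat_lit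 313) (nat_lit 239) (nat_lit 228))))) (XT.nd (nat_lit 156) (nat_lit 152) (nat_lit 0) (XT.nd (nat_lit 78) (nat_lit 0) (nat_lit 0) (XT.lf (nat_lit 0) (nat_lit 6056879620) (nat_lit 152) (nat_lit 11467728802) (nat_lit 0) (nat_lit 1862925474) (nat_lit 14) (nat_lit 5) (nat_lit 16) (nat_lit 4) (nat_lit 14) (nat_lit 4) (nat_lit 314) (nat_lit 239) (nat_lit 227)) (XT.lf (nat_lit 0) (nat_lit 10469590038) (nat_lit 152) (nat_lit 3631296031) (nat_lit 0) (nat_lit 6024695997) (nat_lit 14) (nat_lit 5) (nat_lit 16) (nat_lit 4) (nat_lit 14) (nat_lit 4) (nat_lit 315) (nat_lit 239) (nat_lit 226))) (XT.nd (nat_lit 78) (nat_lit 76) (nat_lit 0) (XT.lf (nat_lit 0) (nat_lit 4533462014) (nat_lit 76) (nat_lit 10526576935) (nat_lit 76) (nat_lit 5842692519) (nat_lit 13) (nat_lit 4) (nat_lit 14) (nat_lit 5) (nat_lit 14) (nat_lit 4) (nat_lit 316) (nat_lit 239) (nat_lit 225)) (XT.nd (nat_lit 78) (nat_lit 76) (nat_lit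 0) (XT.lf (nat_lit 0) (nat_lit 13027297344) (nat_lit 76) (nat_lit 6802742606) (nat_lit 76) (nat_lit 1891248309) (nat_lit 13) (nat_lit 4) (nat_lit 14) (nat_lit 5) (nat_lit 14) (nat_lit 4) (nat_lit 317) (nat_lit 239) (nat_lit 224)) (XT.lf (nat_lit 0) (nat_lit 2077557608) (nat_lit 152) (nat_lit 869272514) (nat_lit 76) (nat_lit 19637624278) (nat_lit 12) (nat_lit 5) (nat_lit 14) (nat_lit 5) (nat_lit 13) (nat_lit 4) (nat_lit 318) (nat_lit 239) (nat_lit 223))))))) (XT.nd (nat_lit 780) (nat_lit 228) (nat_lit 0) (XT.nd (nat_lit 390) (nat_lit 152) (nat_lit 0) (XT.nd (nat_lit 156) (nat_lit 76) (nat_lit 0) (XT.nd (nat_lit 78) (nat_lit 0) (nat_lit 0) (XT.lf (nat_lit 0) (nat_lit 6211615749) (nat_lit 152) (nat_lit 16145203500) (nat_lit 0) (nat_lit 1130935287) (nat_lit 11) (nat_lit 5) (nat_lit 13) (nat_lit 4) (nat_lit 11) (nat_lit 4) (nat_lit 319) (nat_lit 239) (nat_lit 222)) (XT.lf (nat_lit 0) (nat_lit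 10513485957) (nat_lit 152) (nat_lit 8679170269) (nat_lit 0) (nat_lit 5245550283) (nat_lit 11) (nat_lit 5) (nat_lit 13) (nat_lit 4) (nat_lit 11) (nat_lit 4) (nat_lit 320) (nat_lit 239) (nat_lit 221))) (XT.nd (nat_lit 78) (nat_lit 76) (nat_lit 0) (XT.lf (nat_lit 0) (nat_lit 14933152134) (nat_lit 152) (nat_lit 1021055933) (nat_lit 0) (nat_lit 9486878163) (nat_lit 11) (nat_lit 5) (nat_lit 13) (nat_lit 4) (nat_lit 11) (nat_lit 4) (nat_lit 321) (nat_lit 239) (nat_lit 220)) (XT.nd (nat_lit 78) (nat_lit 0) (nat_lit 0) (XT.lf (nat_lit 0) (nat_lit 7073778189) (nat_lit 76) (nat_lit 12517800609) (nat_lit 76) (nat_lit 6901680640) (nat_lit 10) (nat_lit 4) (nat_lit 11) (nat_lit 5) (nat_lit 11) (nat_lit 4) (nat_lit 322) (nat_lit 239) (nat_lit 219)) (XT.lf (nat_lit 0) (nat_lit 15438995493) (nat_lit 76) (nat_lit 8970320474) (nat_lit 76) (nat_lit 3192442411) (nat_lit 10) (nat_lit 4) (nat_lit 11) (nat_lit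 5) (nat_lit 11) (nat_lit 4) (nat_lit 323) (nat_lit 239) (nat_lit 218))))) (XT.nd (nat_lit 156) (nat_lit 0) (nat_lit 0) (XT.nd (nat_lit 78) (nat_lit 76) (nat_lit 0) (XT.lf (nat_lit 0) (nat_lit 591753973) (nat_lit 152) (nat_lit 4718837743) (nat_lit 76) (nat_lit 23458976828) (nat_lit 9) (nat_lit 5) (nat_lit 11) (nat_lit 5) (nat_lit 10) (nat_lit 4) (nat_lit 324) (nat_lit 239) (nat_lit 217)) (XT.lf (nat_lit 0) (nat_lit 2983619241) (nat_lit 76) (nat_lit 1437001241) (nat_lit 152) (nat_lit 25574426173) (nat_lit 8) (nat_lit 5) (nat_lit 9) (nat_lit 5) (nat_lit 10) (nat_lit 4) (nat_lit 325) (nat_lit 239) (nat_lit 216))) (XT.nd (nat_lit 78) (nat_lit 0) (nat_lit 0) (XT.lf (nat_lit 0) (nat_lit 8479845138) (nat_lit 152) (nat_lit 20242464585) (nat_lit 0) (nat_lit 2557573260) (nat_lit 8) (nat_lit 5) (nat_lit 10) (nat_lit 4) (nat_lit 8) (nat_lit 4) (nat_lit 326) (nat_lit 239) (nat_lit 215)) (XT.nd (nat_lit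 78) (nat_lit 0) (nat_lit 0) (XT.lf (nat_lit 0) (nat_lit 12686181813) (nat_lit 152) (nat_lit 13308432163) (nat_lit 0) (nat_lit 6637168237) (nat_lit 8) (nat_lit 5) (nat_lit 10) (nat_lit 4) (nat_lit 8) (nat_lit 4) (nat_lit 327) (nat_lit 239) (nat_lit 214)) (XT.lf (nat_lit 0) (nat_lit 17027209978) (nat_lit 152) (nat_lit 6170384930) (nat_lit 0) (nat_lit 10857490022) (nat_lit 8) (nat_lit 5) (nat_lit 10) (nat_lit 4) (nat_lit 8) (nat_lit 4) (nat_lit 328) (nat_lit 239) (nat_lit 213)))))) (XT.nd (nat_lit 390) (nat_lit 152) (nat_lit 0) (XT.nd (nat_lit 156) (nat_lit 0) (nat_lit 0) (XT.nd (nat_lit 78) (nat_lit 0) (nat_lit 0) (XT.lf (nat_lit 0) (nat_lit 1227975343) (nat_lit 76) (nat_lit 20304462207) (nat_lit 76) (nat_lit 14019783794) (nat_lit 7) (nat_lit 4) (nat_lit 8) (nat_lit 5) (nat_lit 8) (nat_lit 4) (nat_lit 329) (nat_lit 239) (nat_lit 212)) (XT.lf (nat_lit 0) (nat_lit 9076775072) (nat_lit 76)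 (nat_lit 17219968030) (nat_lit 76) (nat_lit 10825805373) (nat_lit 7) (nat_lit 4) (nat_lit 8) (nat_lit 5) (nat_lit 8) (nat_lit 4) (nat_lit 330) (nat_lit 239) (nat_lit 211))) (XT.nd (nat_lit 78) (nat_lit 0) (nat_lit 0) (XT.lf (nat_lit 0) (nat_lit 17190681081) (nat_lit 76) (nat_lit 14041266798) (nat_lit 76) (nat_lit 7542833432) (nat_lit 7) (nat_lit 4) (nat_lit 8) (nat_lit 5) (nat_lit 8) (nat_lit 4) (nat_lit 331) (nat_lit 239) (nat_lit 210)) (XT.nd (nat_lit 78) (nat_lit 0) (nat_lit 0) (XT.lf (nat_lit 0) (nat_lit 25589012196) (nat_lit 76) (nat_lit 10760790176) (nat_lit 76) (nat_lit 4163051372) (nat_lit 7) (nat_lit 4) (nat_lit 8) (nat_lit 5) (nat_lit 8) (nat_lit 4) (nat_lit 332) (nat_lit 239) (nat_lit 209)) (XT.lf (nat_lit 0) (nat_lit 34291764441) (nat_lit 76) (nat_lit 7370727504) (nat_lit 76) (nat_lit 678412093) (nat_lit 7) (nat_lit 4) (nat_lit 8) (nat_lit 5) (nat_lit 8) (nat_lit 4) (nat_lit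 333) (nat_lit 239) (nat_lit 208))))) (XT.nd (nat_lit 234) (nat_lit 0) (nat_lit 0) (XT.nd (nat_lit 78) (nat_lit 76) (nat_lit 0) (XT.lf (nat_lit 0) (nat_lit 2825942735) (nat_lit 152) (nat_lit 989205762) (nat_lit 76) (nat_lit 40445857214) (nat_lit 6) (nat_lit 5) (nat_lit 8) (nat_lit 5) (nat_lit 7) (nat_lit 4) (nat_lit 334) (nat_lit 239) (nat_lit 207)) (XT.nd (nat_lit 78) (nat_lit 0) (nat_lit 0) (XT.lf (nat_lit 0) (nat_lit 6514468953) (nat_lit 76) (nat_lit 13648653) (nat_lit 152) (nat_lit 39746187166) (nat_lit 5) (nat_lit 5) (nat_lit 6) (nat_lit 5) (nat_lit 7) (nat_lit 4) (nat_lit 335) (nat_lit 239) (nat_lit 206)) (XT.lf (nat_lit 0) (nat_lit 10438495412) (nat_lit 152) (nat_lit 34129065557) (nat_lit 0) (nat_lit 3819570679) (nat_lit 5) (nat_lit 5) (nat_lit 7) (nat_lit 4) (nat_lit 5) (nat_lit 4) (nat_lit 336) (nat_lit 239) (nat_lit 205)))) (XT.nd (nat_lit 78) (nat_lit 0) (nat_lit 0) (XT.lf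 (nat_lit 0) (nat_lit 14491244716) (nat_lit 152) (nat_lit 28318812518) (nat_lit 0) (nat_lit 7798216738) (nat_lit 5) (nat_lit 5) (nat_lit 7) (nat_lit 4) (nat_lit 5) (nat_lit 4) (nat_lit 337) (nat_lit 239) (nat_lit 204)) (XT.nd (nat_lit 78) (nat_lit 0) (nat_lit 0) (XT.lf (nat_lit 0) (nat_lit 18695801829) (nat_lit 152) (nat_lit 22315029675) (nat_lit 0) (nat_lit 11932199330) (nat_lit 5) (nat_lit 5) (nat_lit 7) (nat_lit 4) (nat_lit 5) (nat_lit 4) (nat_lit 338) (nat_lit 239) (nat_lit 203)) (XT.lf (nat_lit 0) (nat_lit 23062177600) (nat_lit 152) (nat_lit 16103422307) (nat_lit 0) (nat_lit 16231361272) (nat_lit 5) (nat_lit 5) (nat_lit 7) (nat_lit 4) (nat_lit 5) (nat_lit 4) (nat_lit 339) (nat_lit 239) (nat_lit 202))))))))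
noncomputable def xc51 : XT := (XT.nd (nat_lit 1638) (nat_lit 0) (nat_lit 0) (XT.nd (nat_lit 780) (nat_lit 152) (nat_lit 0) (XT.nd (nat_lit 390) (nat_lit 0) (nat_lit 0) (XT.nd (nat_lit 156) (nat_lit 76) (nat_lit 0) (XT.nd (nat_lit 78) (nat_lit 0) (nat_lit 0) (XT.lf (nat_lit 0) (nat_lit 27600768162) (nat_lit 152) (nat_lit 9669200871) (nat_lit 0) (nat_lit 20705938664) (nat_lit 5) (nat_lit 5) (nat_lit 7) (nat_lit 4) (nat_lit 5) (nat_lit 4) (nat_lit 340) (nat_lit 239) (nat_lit 201)) (XT.lf (nat_lit 0) (nat_lit 32322379683) (nat_lit 152) (nat_lit 2997045792) (nat_lit 0) (nat_lit 25366585261) (nat_lit 5) (nat_lit 5) (nat_lit 7) (nat_lit 4) (nat_lit 5) (nat_lit 4) (nat_lit 341) (nat_lit 239) (nat_lit 200))) (XT.nd (nat_lit 78) (nat_lit 0) (nat_lit 0) (XT.lf (nat_lit 0) (nat_lit 4058837147) (nat_lit 76) (nat_lit 33242786771) (nat_lit 76) (nat_lit 26228930516) (nat_lit 4) (nat_lit 4) (nat_lit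 5) (nat_lit 5) (nat_lit 5) (nat_lit 4) (nat_lit 342) (nat_lit 239) (nat_lit 199)) (XT.nd (nat_lit 78) (nat_lit 0) (nat_lit 0) (XT.lf (nat_lit 0) (nat_lit 11493063772) (nat_lit 76) (nat_lit 31046471024) (nat_lit 76) (nat_lit 23977317786) (nat_lit 4) (nat_lit 4) (nat_lit 5) (nat_lit 5) (nat_lit 5) (nat_lit 4) (nat_lit 343) (nat_lit 239) (nat_lit 198)) (XT.lf (nat_lit 0) (nat_lit 19224238752) (nat_lit 76) (nat_lit 28776005334) (nat_lit 76) (nat_lit 21654188302) (nat_lit 4) (nat_lit 4) (nat_lit 5) (nat_lit 5) (nat_lit 5) (nat_lit 4) (nat_lit 344) (nat_lit 239) (nat_lit 197))))) (XT.nd (nat_lit 156) (nat_lit 0) (nat_lit 0) (XT.nd (nat_lit 78) (nat_lit 0) (nat_lit 0) (XT.lf (nat_lit 0) (nat_lit 27270769647) (nat_lit 76) (nat_lit 26425983829) (nat_lit 76) (nat_lit 19254010804) (nat_lit 4) (nat_lit 4) (nat_lit 5) (nat_lit 5) (nat_lit 5) (nat_lit 4) (nat_lit 345) (nat_lit 239) (nat_lit 196))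 (XT.lf (nat_lit 0) (nat_lit 35651814864) (nat_lit 76) (nat_lit 23990811220) (nat_lit 76) (nat_lit 16771070582) (nat_lit 4) (nat_lit 4) (nat_lit 5) (nat_lit 5) (nat_lit 5) (nat_lit 4) (nat_lit 346) (nat_lit 239) (nat_lit 195))) (XT.nd (nat_lit 78) (nat_lit 0) (nat_lit 0) (XT.lf (nat_lit 0) (nat_lit 44387329273) (nat_lit 76) (nat_lit 21464689478) (nat_lit 76) (nat_lit 14199455874) (nat_lit 4) (nat_lit 4) (nat_lit 5) (nat_lit 5) (nat_lit 5) (nat_lit 4) (nat_lit 347) (nat_lit 239) (nat_lit 194)) (XT.nd (nat_lit 78) (nat_lit 0) (nat_lit 0) (XT.lf (nat_lit 0) (nat_lit 53498111716) (nat_lit 76) (nat_lit 18841604026) (nat_lit 76) (nat_lit 11533043789) (nat_lit 4) (nat_lit 4) (nat_lit 5) (nat_lit 5) (nat_lit 5) (nat_lit 4) (nat_lit 348) (nat_lit 239) (nat_lit 193)) (XT.lf (nat_lit 0) (nat_lit 63005854534) (nat_lit 76) (nat_lit 16115309423) (nat_lit 76) (nat_lit 8765485726) (nat_lit 4) (nat_lit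 4) (nat_lit 5) (nat_lit 5) (nat_lit 5) (nat_lit 4) (nat_lit 349) (nat_lit 239) (nat_lit 192)))))) (XT.nd (nat_lit 390) (nat_lit 0) (nat_lit 0) (XT.nd (nat_lit 156) (nat_lit 152) (nat_lit 0) (XT.nd (nat_lit 78) (nat_lit 0) (nat_lit 0) (XT.lf (nat_lit 0) (nat_lit 72933195209) (nat_lit 76) (nat_lit 13279314492) (nat_lit 76) (nat_lit 5890192260) (nat_lit 4) (nat_lit 4) (nat_lit 5) (nat_lit 5) (nat_lit 5) (nat_lit 4) (nat_lit 350) (nat_lit 239) (nat_lit 191)) (XT.lf (nat_lit 0) (nat_lit 83303770266) (nat_lit 76) (nat_lit 10326866863) (nat_lit 76) (nat_lit 2900317457) (nat_lit 4) (nat_lit 4) (nat_lit 5) (nat_lit 5) (nat_lit 5) (nat_lit 4) (nat_lit 351) (nat_lit 239) (nat_lit 190))) (XT.nd (nat_lit 78) (nat_lit 76) (nat_lit 0) (XT.lf (nat_lit 0) (nat_lit 204495877) (nat_lit 152) (nat_lit 7042977785) (nat_lit 76) (nat_lit 93934312438) (nat_lit 3) (nat_lit 5) (nat_lit 5) (nat_lit 5) (nat_lit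 4) (nat_lit 4) (nat_lit 352) (nat_lit 239) (nat_lit 189)) (XT.nd (nat_lit 78) (nat_lit 76) (nat_lit 0) (XT.lf (nat_lit 0) (nat_lit 3341457259) (nat_lit 152) (nat_lit 646154503) (nat_lit 76) (nat_lit 102076458566) (nat_lit 3) (nat_lit 5) (nat_lit 5) (nat_lit 5) (nat_lit 4) (nat_lit 4) (nat_lit 353) (nat_lit 239) (nat_lit 188)) (XT.lf (nat_lit 0) (nat_lit 6222972111) (nat_lit 76) (nat_lit 485049838) (nat_lit 152) (nat_lit 104478816010) (nat_lit 2) (nat_lit 5) (nat_lit 3) (nat_lit 5) (nat_lit 4) (nat_lit 4) (nat_lit 354) (nat_lit 239) (nat_lit 187))))) (XT.nd (nat_lit 234) (nat_lit 0) (nat_lit 0) (XT.nd (nat_lit 78) (nat_lit 0) (nat_lit 0) (XT.lf (nat_lit 0) (nat_lit 10279581487) (nat_lit 152) (nat_lit 103204053638) (nat_lit 0) (nat_lit 3080282139) (nat_lit 2) (nat_lit 5) (nat_lit 4) (nat_lit 4) (nat_lit 2) (nat_lit 4) (nat_lit 355) (nat_lit 239) (nat_lit 186)) (XT.nd (nat_lit 78) (nat_lit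 0) (nat_lit 0) (XT.lf (nat_lit 0) (nat_lit 14014526087) (nat_lit 152) (nat_lit 101408792396) (nat_lit 0) (nat_lit 6787298004) (nat_lit 2) (nat_lit 5) (nat_lit 4) (nat_lit 4) (nat_lit 2) (nat_lit 4) (nat_lit 356) (nat_lit 239) (nat_lit 185)) (XT.lf (nat_lit 0) (nat_lit 17914175486) (nat_lit 152) (nat_lit 99566234705) (nat_lit 0) (nat_lit 10660348609) (nat_lit 2) (nat_lit 5) (nat_lit 4) (nat_lit 4) (nat_lit 2) (nat_lit 4) (nat_lit 357) (nat_lit 239) (nat_lit 184)))) (XT.nd (nat_lit 78) (nat_lit 0) (nat_lit 0) (XT.lf (nat_lit 0) (nat_lit 21987814565) (nat_lit 152) (nat_lit 97671993522) (nat_lit 0) (nat_lit 14708655503) (nat_lit 2) (nat_lit 5) (nat_lit 4) (nat_lit 4) (nat_lit 2) (nat_lit 4) (nat_lit 358) (nat_lit 239) (nat_lit 183)) (XT.nd (nat_lit 78) (nat_lit 0) (nat_lit 0) (XT.lf (nat_lit 0) (nat_lit 26245142463) (nat_lit 152) (nat_lit 95721558749) (nat_lit 0) (nat_lit 18941857510) (nat_lit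 2) (nat_lit 5) (nat_lit 4) (nat_lit 4) (nat_lit 2) (nat_lit 4) (nat_lit 359) (nat_lit 239) (nat_lit 182)) (XT.lf (nat_lit 0) (nat_lit 30696295676) (nat_lit 152) (nat_lit 93710286495) (nat_lit 0) (nat_lit 23370033685) (nat_lit 2) (nat_lit 5) (nat_lit 4) (nat_lit 4) (nat_lit 2) (nat_lit 4) (nat_lit 360) (nat_lit 239) (nat_lit 181))))))) (XT.nd (nat_lit 780) (nat_lit 0) (nat_lit 0) (XT.nd (nat_lit 390) (nat_lit 0) (nat_lit 0) (XT.nd (nat_lit 156) (nat_lit 0) (nat_lit 0) (XT.nd (nat_lit 78) (nat_lit 0) (nat_lit 0) (XT.lf (nat_lit 0) (nat_lit 35351872188) (nat_lit 152) (nat_lit 91633388015) (nat_lit 0) (nat_lit 28003727303) (nat_lit 2) (nat_lit 5) (nat_lit 4) (nat_lit 4) (nat_lit 2) (nat_lit 4) (nat_lit 361) (nat_lit 239) (nat_lit 180)) (XT.lf (nat_lit 0) (nat_lit 40222956705) (nat_lit 152) (nat_lit 89485918313) (nat_lit 0) (nat_lit 32853970968) (nat_lit 2) (nat_lit 5) (nat_lit 4) (nat_lit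 4) (nat_lit 2) (nat_lit 4) (nat_lit 362) (nat_lit 239) (nat_lit 179))) (XT.nd (nat_lit 78) (nat_lit 0) (nat_lit 0) (XT.lf (nat_lit 0) (nat_lit 45321147047) (nat_lit 152) (nat_lit 87262764367) (nat_lit 0) (nat_lit 37932312880) (nat_lit 2) (nat_lit 5) (nat_lit 4) (nat_lit 4) (nat_lit 2) (nat_lit 4) (nat_lit 363) (nat_lit 239) (nat_lit 178)) (XT.nd (nat_lit 78) (nat_lit 0) (nat_lit 0) (XT.lf (nat_lit 0) (nat_lit 50658581761) (nat_lit 152) (nat_lit 84958632952) (nat_lit 0) (nat_lit 43250844328) (nat_lit 2) (nat_lit 5) (nat_lit 4) (nat_lit 4) (nat_lit 2) (nat_lit 4) (nat_lit 364) (nat_lit 239) (nat_lit 177)) (XT.lf (nat_lit 0) (nat_lit 56247969028) (nat_lit 152) (nat_lit 82568038041) (nat_lit 0) (nat_lit 48822228483) (nat_lit 2) (nat_lit 5) (nat_lit 4) (nat_lit 4) (nat_lit 2) (nat_lit 4) (nat_lit 365) (nat_lit 239) (nat_lit 176))))) (XT.nd (nat_lit 156) (nat_lit 0) (nat_lit 0) (XT.nd (nat_lit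 78) (nat_lit 0) (nat_lit 0) (XT.lf (nat_lit 0) (nat_lit 62102616910) (nat_lit 152) (nat_lit 80085287742) (nat_lit 0) (nat_lit 54659730546) (nat_lit 2) (nat_lit 5) (nat_lit 4) (nat_lit 4) (nat_lit 2) (nat_lit 4) (nat_lit 366) (nat_lit 239) (nat_lit 175)) (XT.lf (nat_lit 0) (nat_lit 68236465047) (nat_lit 152) (nat_lit 77504470744) (nat_lit 0) (nat_lit 60777249330) (nat_lit 2) (nat_lit 5) (nat_lit 4) (nat_lit 4) (nat_lit 2) (nat_lit 4) (nat_lit 367) (nat_lit 239) (nat_lit 174))) (XT.nd (nat_lit 78) (nat_lit 0) (nat_lit 0) (XT.lf (nat_lit 0) (nat_lit 74664117838) (nat_lit 152) (nat_lit 74819442245) (nat_lit 0) (nat_lit 67189350356) (nat_lit 2) (nat_lit 5) (nat_lit 4) (nat_lit 4) (nat_lit 2) (nat_lit 4) (nat_lit 368) (nat_lit 239) (nat_lit 173)) (XT.nd (nat_lit 78) (nat_lit 0) (nat_lit 0) (XT.lf (nat_lit 0) (nat_lit 81400879218) (nat_lit 152) (nat_lit 72023809320) (nat_lit 0) (nat_lit 73911300533)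 (nat_lit 2) (nat_lit 5) (nat_lit 4) (nat_lit 4) (nat_lit 2) (nat_lit 4) (nat_lit 369) (nat_lit 239) (nat_lit 172)) (XT.lf (nat_lit 0) (nat_lit 88462789096) (nat_lit 152) (nat_lit 69110915700) (nat_lit 0) (nat_lit 80959104502) (nat_lit 2) (nat_lit 5) (nat_lit 4) (nat_lit 4) (nat_lit 2) (nat_lit 4) (nat_lit 370) (nat_lit 239) (nat_lit 171)))))) (XT.nd (nat_lit 390) (nat_lit 0) (nat_lit 0) (XT.nd (nat_lit 156) (nat_lit 0) (nat_lit 0) (XT.nd (nat_lit 78) (nat_lit 0) (nat_lit 0) (XT.lf (nat_lit 0) (nat_lit 95866661543) (nat_lit 152) (nat_lit 66073825924) (nat_lit 0) (nat_lit 88349542750) (nat_lit 2) (nat_lit 5) (nat_lit 4) (nat_lit 4) (nat_lit 2) (nat_lit 4) (nat_lit 371) (nat_lit 239) (nat_lit 170)) (XT.lf (nat_lit 0) (nat_lit 103630124826) (nat_lit 152) (nat_lit 62905308826) (nat_lit 0) (nat_lit 96100211559) (nat_lit 2) (nat_lit 5) (nat_lit 4) (nat_lit 4) (nat_lit 2) (nat_lit 4) (nat_lit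 372) (nat_lit 239) (nat_lit 169))) (XT.nd (nat_lit 78) (nat_lit 0) (nat_lit 0) (XT.lf (nat_lit 0) (nat_lit 111771663382) (nat_lit 152) (nat_lit 59597820318) (nat_lit 0) (nat_lit 104229564901) (nat_lit 2) (nat_lit 5) (nat_lit 4) (nat_lit 4) (nat_lit 2) (nat_lit 4) (nat_lit 373) (nat_lit 239) (nat_lit 168)) (XT.nd (nat_lit 78) (nat_lit 0) (nat_lit 0) (XT.lf (nat_lit 0) (nat_lit 120310661827) (nat_lit 152) (nat_lit 56143485427) (nat_lit 0) (nat_lit 112756958379) (nat_lit 2) (nat_lit 5) (nat_lit 4) (nat_lit 4) (nat_lit 2) (nat_lit 4) (nat_lit 374) (nat_lit 239) (nat_lit 167)) (XT.lf (nat_lit 0) (nat_lit 129267451109) (nat_lit 152) (nat_lit 52534079546) (nat_lit 0) (nat_lit 121702695313) (nat_lit 2) (nat_lit 5) (nat_lit 4) (nat_lit 4) (nat_lit 2) (nat_lit 4) (nat_lit 375) (nat_lit 239) (nat_lit 166))))) (XT.nd (nat_lit 234) (nat_lit 0) (nat_lit 0) (XT.nd (nat_lit 78) (nat_lit 0) (nat_lit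 0) (XT.lf (nat_lit 0) (nat_lit 138663356916) (nat_lit 152) (nat_lit 48761008851) (nat_lit 0) (nat_lit 131088075074) (nat_lit 2) (nat_lit 5) (nat_lit 4) (nat_lit 4) (nat_lit 2) (nat_lit 4) (nat_lit 376) (nat_lit 239) (nat_lit 165)) (XT.nd (nat_lit 78) (nat_lit 0) (nat_lit 0) (XT.lf (nat_lit 0) (nat_lit 148520750454) (nat_lit 152) (nat_lit 44815289842) (nat_lit 0) (nat_lit 140935443806) (nat_lit 2) (nat_lit 5) (nat_lit 4) (nat_lit 4) (nat_lit 2) (nat_lit 4) (nat_lit 377) (nat_lit 239) (nat_lit 164)) (XT.lf (nat_lit 0) (nat_lit 158863101707) (nat_lit 152) (nat_lit 40687527948) (nat_lit 0) (nat_lit 151268247625) (nat_lit 2) (nat_lit 5) (nat_lit 4) (nat_lit 4) (nat_lit 2) (nat_lit 4) (nat_lit 378) (nat_lit 239) (nat_lit 163)))) (XT.nd (nat_lit 78) (nat_lit 0) (nat_lit 0) (XT.lf (nat_lit 0) (nat_lit 169715035321) (nat_lit 152) (nat_lit 36367895166) (nat_lit 0) (nat_lit 162111088444) (nat_lit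 2) (nat_lit 5) (nat_lit 4) (nat_lit 4) (nat_lit 2) (nat_lit 4) (nat_lit 379) (nat_lit 239) (nat_lit 162)) (XT.nd (nat_lit 78) (nat_lit 0) (nat_lit 0) (XT.lf (nat_lit 0) (nat_lit 181102389232) (nat_lit 152) (nat_lit 31846106655) (nat_lit 0) (nat_lit 173489782551) (nat_lit 2) (nat_lit 5) (nat_lit 4) (nat_lit 4) (nat_lit 2) (nat_lit 4) (nat_lit 380) (nat_lit 239) (nat_lit 161)) (XT.lf (nat_lit 0) (nat_lit 193052276189) (nat_lit 152) (nat_lit 27111396253) (nat_lit 0) (nat_lit 185431422075) (nat_lit 2) (nat_lit 5) (nat_lit 4) (nat_lit 4) (nat_lit 2) (nat_lit 4) (nat_lit 381) (nat_lit 239) (nat_lit 160))))))))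
noncomputable def xc52 : XT := (XT.nd (nat_lit 34944) (nat_lit 0) (nat_lit 532) (XT.nd (nat_lit 780) (nat_lit 0) (nat_lit 0) (XT.nd (nat_lit 390) (nat_lit 0) (nat_lit 0) (XT.nd (nat_lit 156) (nat_lit 76) (nat_lit 0) (XT.nd (nat_lit 78) (nat_lit 0) (nat_lit 0) (XT.lf (nat_lit 0) (nat_lit 205593148302) (nat_lit 152) (nat_lit 22152490838) (nat_lit 0) (nat_lit 197964439491) (nat_lit 2) (nat_lit 5) (nat_lit 4) (nat_lit 4) (nat_lit 2) (nat_lit 4) (nat_lit 382) (nat_lit 239) (nat_lit 159)) (XT.lf (nat_lit 0) (nat_lit 218754864792) (nat_lit 152) (nat_lit 16957583495) (nat_lit 0) (nat_lit 211118675317) (nat_lit 2) (nat_lit 5) (nat_lit 4) (nat_lit 4) (nat_lit 2) (nat_lit 4) (nat_lit 383) (nat_lit 239) (nat_lit 158))) (XT.nd (nat_lit 78) (nat_lit 76) (nat_lit 0) (XT.lf (nat_lit 0) (nat_lit 232568763079) (nat_lit 152) (nat_lit 11514305395) (nat_lit 0) (nat_lit 224925449161) (nat_lit 2) (nat_lit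 5) (nat_lit 4) (nat_lit 4) (nat_lit 2) (nat_lit 4) (nat_lit 384) (nat_lit 239) (nat_lit 157)) (XT.nd (nat_lit 78) (nat_lit 76) (nat_lit 0) (XT.lf (nat_lit 0) (nat_lit 247067733396) (nat_lit 152) (nat_lit 5809696353) (nat_lit 0) (nat_lit 239417634295) (nat_lit 2) (nat_lit 5) (nat_lit 4) (nat_lit 4) (nat_lit 2) (nat_lit 4) (nat_lit 385) (nat_lit 239) (nat_lit 156)) (XT.lf (nat_lit 0) (nat_lit 175441249) (nat_lit 76) (nat_lit 262113594982) (nat_lit 76) (nat_lit 254457033801) (nat_lit 1) (nat_lit 4) (nat_lit 2) (nat_lit 5) (nat_lit 2) (nat_lit 4) (nat_lit 386) (nat_lit 239) (nat_lit 155))))) (XT.nd (nat_lit 156) (nat_lit 0) (nat_lit 0) (XT.nd (nat_lit 78) (nat_lit 0) (nat_lit 0) (XT.lf (nat_lit 0) (nat_lit 6651384569) (nat_lit 76) (nat_lit 271713151057) (nat_lit 76) (nat_lit 264050435515) (nat_lit 1) (nat_lit 4) (nat_lit 2) (nat_lit 5) (nat_lit 2) (nat_lit 4) (nat_lit 387) (nat_lit 239)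 (nat_lit 154)) (XT.lf (nat_lit 0) (nat_lit 13441457718) (nat_lit 76) (nat_lit 281797344078) (nat_lit 76) (nat_lit 274128767240) (nat_lit 1) (nat_lit 4) (nat_lit 2) (nat_lit 5) (nat_lit 2) (nat_lit 4) (nat_lit 388) (nat_lit 239) (nat_lit 153))) (XT.nd (nat_lit 78) (nat_lit 0) (nat_lit 0) (XT.lf (nat_lit 0) (nat_lit 20561827539) (nat_lit 76) (nat_lit 292390184029) (nat_lit 76) (nat_lit 284716025004) (nat_lit 1) (nat_lit 4) (nat_lit 2) (nat_lit 5) (nat_lit 2) (nat_lit 4) (nat_lit 389) (nat_lit 239) (nat_lit 152)) (XT.nd (nat_lit 78) (nat_lit 0) (nat_lit 0) (XT.lf (nat_lit 0) (nat_lit 28029447293) (nat_lit 76) (nat_lit 303516891958) (nat_lit 76) (nat_lit 295837416564) (nat_lit 1) (nat_lit 4) (nat_lit 2) (nat_lit 5) (nat_lit 2) (nat_lit 4) (nat_lit 390) (nat_lit 239) (nat_lit 151)) (XT.lf (nat_lit 0) (nat_lit 35862097026) (nat_lit 76) (nat_lit 315203960027) (nat_lit 76) (nat_lit 307519421425)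 (nat_lit 1) (nat_lit 4) (nat_lit 2) (nat_lit 5) (nat_lit 2) (nat_lit 4) (nat_lit 391) (nat_lit 239) (nat_lit 150)))))) (XT.nd (nat_lit 33774) (nat_lit 0) (nat_lit 1368) (XT.nd (nat_lit 33540) (nat_lit 0) (nat_lit 1824) (XT.nd (nat_lit 33462) (nat_lit 0) (nat_lit 2128) (XT.lf (nat_lit 0) (nat_lit 44078425905) (nat_lit 76) (nat_lit 327479214587) (nat_lit 76) (nat_lit 319789853882) (nat_lit 1) (nat_lit 4) (nat_lit 2) (nat_lit 5) (nat_lit 2) (nat_lit 4) (nat_lit 392) (nat_lit 239) (nat_lit 149)) (XT.lf (nat_lit 0) (nat_lit 2227309212) (nat_lit 228) (nat_lit 1651466816) (nat_lit 0) (nat_lit 2227309212) (nat_lit 29) (nat_lit 5) (nat_lit 32) (nat_lit 4) (nat_lit 29) (nat_lit 4) (nat_lit 300) (nat_lit 240) (nat_lit 240))) (XT.nd (nat_lit 78) (nat_lit 152) (nat_lit 0) (XT.lf (nat_lit 0) (nat_lit 4859883058) (nat_lit 152) (nat_lit 4143806754) (nat_lit 152) (nat_lit 3568647920) (nat_lit 27) (nat_lit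 4) (nat_lit 29) (nat_lit 5) (nat_lit 29) (nat_lit 4) (nat_lit 301) (nat_lit 240) (nat_lit 239)) (XT.nd (nat_lit 78) (nat_lit 0) (nat_lit 0) (XT.lf (nat_lit 0) (nat_lit 323004489) (nat_lit 76) (nat_lit 382328994) (nat_lit 152) (nat_lit 12249540593) (nat_lit 25) (nat_lit 5) (nat_lit 26) (nat_lit 5) (nat_lit 27) (nat_lit 4) (nat_lit 302) (nat_lit 240) (nat_lit 238)) (XT.lf (nat_lit 0) (nat_lit 5103536066) (nat_lit 152) (nat_lit 4711429747) (nat_lit 0) (nat_lit 3537235905) (nat_lit 25) (nat_lit 5) (nat_lit 27) (nat_lit 4) (nat_lit 25) (nat_lit 4) (nat_lit 303) (nat_lit 240) (nat_lit 237))))) (XT.nd (nat_lit 156) (nat_lit 228) (nat_lit 0) (XT.nd (nat_lit 78) (nat_lit 76) (nat_lit 0) (XT.lf (nat_lit 0) (nat_lit 3449079475) (nat_lit 152) (nat_lit 6182212853) (nat_lit 152) (nat_lit 4142728096) (nat_lit 23) (nat_lit 4) (nat_lit 25) (nat_lit 5) (nat_lit 25) (nat_lit 4) (nat_lit 304) (nat_lit 240)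 (nat_lit 236)) (XT.lf (nat_lit 0) (nat_lit 94394588) (nat_lit 228) (nat_lit 2296627848) (nat_lit 76) (nat_lit 11829308941) (nat_lit 22) (nat_lit 5) (nat_lit 25) (nat_lit 5) (nat_lit 23) (nat_lit 4) (nat_lit 305) (nat_lit 240) (nat_lit 235))) (XT.nd (nat_lit 78) (nat_lit 152) (nat_lit 0) (XT.lf (nat_lit 0) (nat_lit 4381104467) (nat_lit 152) (nat_lit 8704911336) (nat_lit 0) (nat_lit 1600791009) (nat_lit 21) (nat_lit 5) (nat_lit 23) (nat_lit 4) (nat_lit 21) (nat_lit 4) (nat_lit 306) (nat_lit 240) (nat_lit 234)) (XT.nd (nat_lit 78) (nat_lit 152) (nat_lit 0) (XT.lf (nat_lit 0) (nat_lit 8819537288) (nat_lit 152) (nat_lit 710353585) (nat_lit 0) (nat_lit 5649933692) (nat_lit 21) (nat_lit 5) (nat_lit 23) (nat_lit 4) (nat_lit 21) (nat_lit 4) (nat_lit 307) (nat_lit 240) (nat_lit 233)) (XT.lf (nat_lit 0) (nat_lit 7692092493) (nat_lit 152) (nat_lit 5773283177) (nat_lit 152) (nat_lit 2232927068) (nat_lit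 19) (nat_lit 4) (nat_lit 21) (nat_lit 5) (nat_lit 21) (nat_lit 4) (nat_lit 308) (nat_lit 240) (nat_lit 232))))))) (XT.nd (nat_lit 780) (nat_lit 304) (nat_lit 0) (XT.nd (nat_lit 390) (nat_lit 228) (nat_lit 0) (XT.nd (nat_lit 156) (nat_lit 152) (nat_lit 0) (XT.nd (nat_lit 78) (nat_lit 0) (nat_lit 0) (XT.lf (nat_lit 0) (nat_lit 26361493) (nat_lit 76) (nat_lit 1885743498) (nat_lit 152) (nat_lit 14335108672) (nat_lit 17) (nat_lit 5) (nat_lit 18) (nat_lit 5) (nat_lit 19) (nat_lit 4) (nat_lit 309) (nat_lit 240) (nat_lit 231)) (XT.lf (nat_lit 0) (nat_lit 6228454744) (nat_lit 152) (nat_lit 8391268496) (nat_lit 0) (nat_lit 2200133602) (nat_lit 17) (nat_lit 5) (nat_lit 19) (nat_lit 4) (nat_lit 17) (nat_lit 4) (nat_lit 310) (nat_lit 240) (nat_lit 230))) (XT.nd (nat_lit 78) (nat_lit 152) (nat_lit 0) (XT.lf (nat_lit 0) (nat_lit 10664875665) (nat_lit 152) (nat_lit 429577199) (nat_lit 0) (nat_lit 6331535514)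 (nat_lit 17) (nat_lit 5) (nat_lit 19) (nat_lit 4) (nat_lit 17) (nat_lit 4) (nat_lit 311) (nat_lit 240) (nat_lit 229)) (XT.nd (nat_lit 78) (nat_lit 76) (nat_lit 0) (XT.lf (nat_lit 0) (nat_lit 7967633911) (nat_lit 76) (nat_lit 7359252106) (nat_lit 76) (nat_lit 2735417660) (nat_lit 16) (nat_lit 4) (nat_lit 17) (nat_lit 5) (nat_lit 17) (nat_lit 4) (nat_lit 312) (nat_lit 240) (nat_lit 228)) (XT.lf (nat_lit 0) (nat_lit 1330991871) (nat_lit 152) (nat_lit 2171962343) (nat_lit 76) (nat_lit 15232017207) (nat_lit 15) (nat_lit 5) (nat_lit 17) (nat_lit 5) (nat_lit 16) (nat_lit 4) (nat_lit 313) (nat_lit 240) (nat_lit 227))))) (XT.nd (nat_lit 156) (nat_lit 152) (nat_lit 0) (XT.nd (nat_lit 78) (nat_lit 0) (nat_lit 0) (XT.lf (nat_lit 0) (nat_lit 5498728579) (nat_lit 152) (nat_lit 13360211821) (nat_lit 0) (nat_lit 580649943) (nat_lit 14) (nat_lit 5) (nat_lit 16) (nat_lit 4) (nat_lit 14) (nat_lit 4) (nat_lit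 314) (nat_lit 240) (nat_lit 226)) (XT.lf (nat_lit 0) (nat_lit 9855986765) (nat_lit 152) (nat_lit 5625532933) (nat_lit 0) (nat_lit 4698917754) (nat_lit 14) (nat_lit 5) (nat_lit 16) (nat_lit 4) (nat_lit 14) (nat_lit 4) (nat_lit 315) (nat_lit 240) (nat_lit 225))) (XT.nd (nat_lit 78) (nat_lit 76) (nat_lit 0) (XT.lf (nat_lit 0) (nat_lit 2373173943) (nat_lit 76) (nat_lit 11986721934) (nat_lit 76) (nat_lit 6602043041) (nat_lit 13) (nat_lit 4) (nat_lit 14) (nat_lit 5) (nat_lit 14) (nat_lit 4) (nat_lit 316) (nat_lit 240) (nat_lit 224)) (XT.nd (nat_lit 78) (nat_lit 76) (nat_lit 0) (XT.lf (nat_lit 0) (nat_lit 10771663853) (nat_lit 76) (nat_lit 8306447608) (nat_lit 76) (nat_lit 2704997400) (nat_lit 13) (nat_lit 4) (nat_lit 14) (nat_lit 5) (nat_lit 14) (nat_lit 4) (nat_lit 317) (nat_lit 240) (nat_lit 223)) (XT.lf (nat_lit 0) (nat_lit 1239703594) (nat_lit 152) (nat_lit 3266506711) (nat_lit 76) (nat_lit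 18143229102) (nat_lit 12) (nat_lit 5) (nat_lit 14) (nat_lit 5) (nat_lit 13) (nat_lit 4) (nat_lit 318) (nat_lit 240) (nat_lit 222)))))) (XT.nd (nat_lit 390) (nat_lit 152) (nat_lit 0) (XT.nd (nat_lit 156) (nat_lit 76) (nat_lit 0) (XT.nd (nat_lit 78) (nat_lit 0) (nat_lit 0) (XT.lf (nat_lit 0) (nat_lit 4794213074) (nat_lit 76) (nat_lit 473460158) (nat_lit 152) (nat_lit 18290391362) (nat_lit 11) (nat_lit 5) (nat_lit 12) (nat_lit 5) (nat_lit 13) (nat_lit 4) (nat_lit 319) (nat_lit 240) (nat_lit 221)) (XT.lf (nat_lit 0) (nat_lit 9514689186) (nat_lit 152) (nat_lit 11378826522) (nat_lit 0) (nat_lit 3617763218) (nat_lit 11) (nat_lit 5) (nat_lit 13) (nat_lit 4) (nat_lit 11) (nat_lit 4) (nat_lit 320) (nat_lit 240) (nat_lit 220))) (XT.nd (nat_lit 78) (nat_lit 76) (nat_lit 0) (XT.lf (nat_lit 0) (nat_lit 13889153255) (nat_lit 152) (nat_lit 3804902922) (nat_lit 0) (nat_lit 7822381289) (nat_lit 11) (nat_lit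 5) (nat_lit 13) (nat_lit 4) (nat_lit 11) (nat_lit 4) (nat_lit 321) (nat_lit 240) (nat_lit 219)) (XT.nd (nat_lit 78) (nat_lit 0) (nat_lit 0) (XT.lf (nat_lit 0) (nat_lit 4115051826) (nat_lit 76) (nat_lit 14343284454) (nat_lit 76) (nat_lit 8114754395) (nat_lit 10) (nat_lit 4) (nat_lit 11) (nat_lit 5) (nat_lit 11) (nat_lit 4) (nat_lit 322) (nat_lit 240) (nat_lit 218)) (XT.lf (nat_lit 0) (nat_lit 12401380730) (nat_lit 76) (nat_lit 10832461404) (nat_lit 76) (nat_lit 4449876018) (nat_lit 10) (nat_lit 4) (nat_lit 11) (nat_lit 5) (nat_lit 11) (nat_lit 4) (nat_lit 323) (nat_lit 240) (nat_lit 217))))) (XT.nd (nat_lit 234) (nat_lit 0) (nat_lit 0) (XT.nd (nat_lit 78) (nat_lit 152) (nat_lit 0) (XT.lf (nat_lit 0) (nat_lit 20948005869) (nat_lit 76) (nat_lit 7217665796) (nat_lit 76) (nat_lit 688361051) (nat_lit 10) (nat_lit 4) (nat_lit 11) (nat_lit 5) (nat_lit 11) (nat_lit 4) (nat_lit 324) (nat_lit 240)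 (nat_lit 216)) (XT.nd (nat_lit 78) (nat_lit 76) (nat_lit 0) (XT.lf (nat_lit 0) (nat_lit 3077006752) (nat_lit 152) (nat_lit 361173625) (nat_lit 76) (nat_lit 26646159001) (nat_lit 9) (nat_lit 5) (nat_lit 11) (nat_lit 5) (nat_lit 10) (nat_lit 4) (nat_lit 325) (nat_lit 240) (nat_lit 215)) (XT.lf (nat_lit 0) (nat_lit 7060331581) (nat_lit 152) (nat_lit 23730527452) (nat_lit 0) (nat_lit 582125628) (nat_lit 8) (nat_lit 5) (nat_lit 10) (nat_lit 4) (nat_lit 8) (nat_lit 4) (nat_lit 326) (nat_lit 240) (nat_lit 214)))) (XT.nd (nat_lit 78) (nat_lit 0) (nat_lit 0) (XT.lf (nat_lit 0) (nat_lit 11229777844) (nat_lit 152) (nat_lit 16866098352) (nat_lit 0) (nat_lit 4630865511) (nat_lit 8) (nat_lit 5) (nat_lit 10) (nat_lit 4) (nat_lit 8) (nat_lit 4) (nat_lit 327) (nat_lit 240) (nat_lit 213)) (XT.nd (nat_lit 78) (nat_lit 0) (nat_lit 0) (XT.lf (nat_lit 0) (nat_lit 15535672284) (nat_lit 152) (nat_lit 9794339997)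 (nat_lit 0) (nat_lit 8821801494) (nat_lit 8) (nat_lit 5) (nat_lit 10) (nat_lit 4) (nat_lit 8) (nat_lit 4) (nat_lit 328) (nat_lit 240) (nat_lit 212)) (XT.lf (nat_lit 0) (nat_lit 19988267029) (nat_lit 152) (nat_lit 2498414868) (nat_lit 0) (nat_lit 13164911994) (nat_lit 8) (nat_lit 5) (nat_lit 10) (nat_lit 4) (nat_lit 8) (nat_lit 4) (nat_lit 329) (nat_lit 240) (nat_lit 211))))))))
noncomputable def xc53 : XT := (XT.nd (nat_lit 1638) (nat_lit 152) (nat_lit 0) (XT.nd (nat_lit 780) (nat_lit 76) (nat_lit 0) (XT.nd (nat_lit 390) (nat_lit 76) (nat_lit 0) (XT.nd (nat_lit 156) (nat_lit 76) (nat_lit 0) (XT.nd (nat_lit 78) (nat_lit 0) (nat_lit 0) (XT.lf (nat_lit 0) (nat_lit 5205661978) (nat_lit 76) (nat_lit 19473776490) (nat_lit 76) (nat_lit 12546150746) (nat_lit 7) (nat_lit 4) (nat_lit 8) (nat_lit 5) (nat_lit 8) (nat_lit 4) (nat_lit 330) (nat_lit 240) (nat_lit 210)) (XT.lf (nat_lit 0) (nat_lit 13260411795)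 (nat_lit 76) (nat_lit 16322958025) (nat_lit 76) (nat_lit 9296026844) (nat_lit 7) (nat_lit 4) (nat_lit 8) (nat_lit 5) (nat_lit 8) (nat_lit 4) (nat_lit 331) (nat_lit 240) (nat_lit 209))) (XT.nd (nat_lit 78) (nat_lit 76) (nat_lit 0) (XT.lf (nat_lit 0) (nat_lit 21602403678) (nat_lit 76) (nat_lit 13069036418) (nat_lit 76) (nat_lit 5947528630) (nat_lit 7) (nat_lit 4) (nat_lit 8) (nat_lit 5) (nat_lit 8) (nat_lit 4) (nat_lit 332) (nat_lit 240) (nat_lit 208)) (XT.nd (nat_lit 78) (nat_lit 76) (nat_lit 0) (XT.lf (nat_lit 0) (nat_lit 30251499513) (nat_lit 76) (nat_lit 9704264237) (nat_lit 76) (nat_lit 2492683490) (nat_lit 7) (nat_lit 4) (nat_lit 8) (nat_lit 5) (nat_lit 8) (nat_lit 4) (nat_lit 333) (nat_lit 240) (nat_lit 207)) (XT.lf (nat_lit 0) (nat_lit 1042272172) (nat_lit 152) (nat_lit 5160706563) (nat_lit 76) (nat_lit 38168368828) (nat_lit 6) (nat_lit 5) (nat_lit 8) (nat_lit 5) (nat_lit 7) (nat_lit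 4) (nat_lit 334) (nat_lit 240) (nat_lit 206))))) (XT.nd (nat_lit 156) (nat_lit 0) (nat_lit 0) (XT.nd (nat_lit 78) (nat_lit 0) (nat_lit 0) (XT.lf (nat_lit 0) (nat_lit 2153859972) (nat_lit 76) (nat_lit 2496346524) (nat_lit 152) (nat_lit 41739160727) (nat_lit 5) (nat_lit 5) (nat_lit 6) (nat_lit 5) (nat_lit 7) (nat_lit 4) (nat_lit 335) (nat_lit 240) (nat_lit 205)) (XT.lf (nat_lit 0) (nat_lit 8495787728) (nat_lit 152) (nat_lit 38615649259) (nat_lit 0) (nat_lit 1394005104) (nat_lit 5) (nat_lit 5) (nat_lit 7) (nat_lit 4) (nat_lit 5) (nat_lit 4) (nat_lit 336) (nat_lit 240) (nat_lit 204))) (XT.nd (nat_lit 78) (nat_lit 0) (nat_lit 0) (XT.lf (nat_lit 0) (nat_lit 12523742078) (nat_lit 152) (nat_lit 32852704926) (nat_lit 0) (nat_lit 5351384934) (nat_lit 5) (nat_lit 5) (nat_lit 7) (nat_lit 4) (nat_lit 5) (nat_lit 4) (nat_lit 337) (nat_lit 240) (nat_lit 203)) (XT.nd (nat_lit 78) (nat_lit 0) (nat_lit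 0) (XT.lf (nat_lit 0) (nat_lit 16704684948) (nat_lit 152) (nat_lit 26893977994) (nat_lit 0) (nat_lit 9465113975) (nat_lit 5) (nat_lit 5) (nat_lit 7) (nat_lit 4) (nat_lit 5) (nat_lit 4) (nat_lit 338) (nat_lit 240) (nat_lit 202)) (XT.lf (nat_lit 0) (nat_lit 21048570964) (nat_lit 152) (nat_lit 20725281016) (nat_lit 0) (nat_lit 13744986821) (nat_lit 5) (nat_lit 5) (nat_lit 7) (nat_lit 4) (nat_lit 5) (nat_lit 4) (nat_lit 339) (nat_lit 240) (nat_lit 201)))))) (XT.nd (nat_lit 390) (nat_lit 0) (nat_lit 0) (XT.nd (nat_lit 156) (nat_lit 76) (nat_lit 0) (XT.nd (nat_lit 78) (nat_lit 0) (nat_lit 0) (XT.lf (nat_lit 0) (nat_lit 25565742712) (nat_lit 152) (nat_lit 14331926619) (nat_lit 0) (nat_lit 18201193645) (nat_lit 5) (nat_lit 5) (nat_lit 7) (nat_lit 4) (nat_lit 5) (nat_lit 4) (nat_lit 340) (nat_lit 240) (nat_lit 200)) (XT.lf (nat_lit 0) (nat_lit 30266955363) (nat_lit 152) (nat_lit 7698692530) (nat_lit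 0) (nat_lit 22844344463) (nat_lit 5) (nat_lit 5) (nat_lit 7) (nat_lit 4) (nat_lit 5) (nat_lit 4) (nat_lit 341) (nat_lit 240) (nat_lit 199))) (XT.nd (nat_lit 78) (nat_lit 76) (nat_lit 0) (XT.lf (nat_lit 0) (nat_lit 35163402279) (nat_lit 152) (nat_lit 809785335) (nat_lit 0) (nat_lit 27685494396) (nat_lit 5) (nat_lit 5) (nat_lit 7) (nat_lit 4) (nat_lit 5) (nat_lit 4) (nat_lit 342) (nat_lit 240) (nat_lit 198)) (XT.nd (nat_lit 78) (nat_lit 0) (nat_lit 0) (XT.lf (nat_lit 0) (nat_lit 6561196384) (nat_lit 76) (nat_lit 33807983947) (nat_lit 76) (nat_lit 26277412270) (nat_lit 4) (nat_lit 4) (nat_lit 5) (nat_lit 5) (nat_lit 5) (nat_lit 4) (nat_lit 343) (nat_lit 240) (nat_lit 197)) (XT.lf (nat_lit 0) (nat_lit 14257638275) (nat_lit 76) (nat_lit 31554087755) (nat_lit 76) (nat_lit 23973360084) (nat_lit 4) (nat_lit 4) (nat_lit 5) (nat_lit 5) (nat_lit 5) (nat_lit 4) (nat_lit 344) (nat_lit 240) (nat_lit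 196))))) (XT.nd (nat_lit 234) (nat_lit 0) (nat_lit 0) (XT.nd (nat_lit 78) (nat_lit 0) (nat_lit 0) (XT.lf (nat_lit 0) (nat_lit 22271090037) (nat_lit 76) (nat_lit 29219846724) (nat_lit 76) (nat_lit 21591351440) (nat_lit 4) (nat_lit 4) (nat_lit 5) (nat_lit 5) (nat_lit 5) (nat_lit 4) (nat_lit 345) (nat_lit 240) (nat_lit 195)) (XT.nd (nat_lit 78) (nat_lit 0) (nat_lit 0) (XT.lf (nat_lit 0) (nat_lit 30620631317) (nat_lit 76) (nat_lit 26799703138) (nat_lit 76) (nat_lit 19125714889) (nat_lit 4) (nat_lit 4) (nat_lit 5) (nat_lit 5) (nat_lit 5) (nat_lit 4) (nat_lit 346) (nat_lit 240) (nat_lit 194)) (XT.lf (nat_lit 0) (nat_lit 39326141977) (nat_lit 76) (nat_lit 24287894750) (nat_lit 76) (nat_lit 16570579868) (nat_lit 4) (nat_lit 4) (nat_lit 5) (nat_lit 5) (nat_lit 5) (nat_lit 4) (nat_lit 347) (nat_lit 240) (nat_lit 193)))) (XT.nd (nat_lit 78) (nat_lit 0) (nat_lit 0) (XT.lf (nat_lit 0) (nat_lit 48408349421)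 (nat_lit 76) (nat_lit 21678441065) (nat_lit 76) (nat_lit 13919862722) (nat_lit 4) (nat_lit 4) (nat_lit 5) (nat_lit 5) (nat_lit 5) (nat_lit 4) (nat_lit 348) (nat_lit 240) (nat_lit 192)) (XT.nd (nat_lit 78) (nat_lit 0) (nat_lit 0) (XT.lf (nat_lit 0) (nat_lit 57888877954) (nat_lit 76) (nat_lit 18965129097) (nat_lit 76) (nat_lit 11167252220) (nat_lit 4) (nat_lit 4) (nat_lit 5) (nat_lit 5) (nat_lit 5) (nat_lit 4) (nat_lit 349) (nat_lit 240) (nat_lit 191)) (XT.lf (nat_lit 0) (nat_lit 67790300263) (nat_lit 76) (nat_lit 16141498580) (nat_lit 76) (nat_lit 8306194528) (nat_lit 4) (nat_lit 4) (nat_lit 5) (nat_lit 5) (nat_lit 5) (nat_lit 4) (nat_lit 350) (nat_lit 240) (nat_lit 190))))))) (XT.nd (nat_lit 780) (nat_lit 0) (nat_lit 0) (XT.nd (nat_lit 390) (nat_lit 0) (nat_lit 0) (XT.nd (nat_lit 156) (nat_lit 152) (nat_lit 0) (XT.nd (nat_lit 78) (nat_lit 0) (nat_lit 0) (XT.lf (nat_lit 0) (nat_lit 78136191162)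 (nat_lit 76) (nat_lit 13200826583) (nat_lit 76) (nat_lit 5329877603) (nat_lit 4) (nat_lit 4) (nat_lit 5) (nat_lit 5) (nat_lit 5) (nat_lit 4) (nat_lit 351) (nat_lit 240) (nat_lit 189)) (XT.lf (nat_lit 0) (nat_lit 88951183725) (nat_lit 76) (nat_lit 10136111508) (nat_lit 76) (nat_lit 2231214977) (nat_lit 4) (nat_lit 4) (nat_lit 5) (nat_lit 5) (nat_lit 5) (nat_lit 4) (nat_lit 352) (nat_lit 240) (nat_lit 188))) (XT.nd (nat_lit 78) (nat_lit 76) (nat_lit 0) (XT.lf (nat_lit 0) (nat_lit 965255415) (nat_lit 152) (nat_lit 5958453929) (nat_lit 76) (nat_lit 99279425452) (nat_lit 3) (nat_lit 5) (nat_lit 5) (nat_lit 5) (nat_lit 4) (nat_lit 4) (nat_lit 353) (nat_lit 240) (nat_lit 187)) (XT.nd (nat_lit 78) (nat_lit 0) (nat_lit 0) (XT.lf (nat_lit 0) (nat_lit 712605349) (nat_lit 76) (nat_lit 3521845533) (nat_lit 152) (nat_lit 107096323237) (nat_lit 2) (nat_lit 5) (nat_lit 3) (nat_lit 5) (nat_lit 4) (nat_lit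 4) (nat_lit 354) (nat_lit 240) (nat_lit 186)) (XT.lf (nat_lit 0) (nat_lit 7747307504) (nat_lit 152) (nat_lit 108832694860) (nat_lit 0) (nat_lit 130789283) (nat_lit 2) (nat_lit 5) (nat_lit 4) (nat_lit 4) (nat_lit 2) (nat_lit 4) (nat_lit 355) (nat_lit 240) (nat_lit 185))))) (XT.nd (nat_lit 156) (nat_lit 0) (nat_lit 0) (XT.nd (nat_lit 78) (nat_lit 0) (nat_lit 0) (XT.lf (nat_lit 0) (nat_lit 11471499698) (nat_lit 152) (nat_lit 107058149039) (nat_lit 0) (nat_lit 3828382683) (nat_lit 2) (nat_lit 5) (nat_lit 4) (nat_lit 4) (nat_lit 2) (nat_lit 4) (nat_lit 356) (nat_lit 240) (nat_lit 184)) (XT.lf (nat_lit 0) (nat_lit 15360908712) (nat_lit 152) (nat_lit 105235320320) (nat_lit 0) (nat_lit 7692459512) (nat_lit 2) (nat_lit 5) (nat_lit 4) (nat_lit 4) (nat_lit 2) (nat_lit 4) (nat_lit 357) (nat_lit 240) (nat_lit 183))) (XT.nd (nat_lit 78) (nat_lit 0) (nat_lit 0) (XT.lf (nat_lit 0) (nat_lit 19424795042)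 (nat_lit 152) (nat_lit 103359868634) (nat_lit 0) (nat_lit 11732219951) (nat_lit 2) (nat_lit 5) (nat_lit 4) (nat_lit 4) (nat_lit 2) (nat_lit 4) (nat_lit 358) (nat_lit 240) (nat_lit 182)) (XT.nd (nat_lit 78) (nat_lit 0) (nat_lit 0) (XT.lf (nat_lit 0) (nat_lit 23672834609) (nat_lit 152) (nat_lit 101427328621) (nat_lit 0) (nat_lit 15957282479) (nat_lit 2) (nat_lit 5) (nat_lit 4) (nat_lit 4) (nat_lit 2) (nat_lit 4) (nat_lit 359) (nat_lit 240) (nat_lit 181)) (XT.lf (nat_lit 0) (nat_lit 28115141792) (nat_lit 152) (nat_lit 99433098995) (nat_lit 0) (nat_lit 20377706768) (nat_lit 2) (nat_lit 5) (nat_lit 4) (nat_lit 4) (nat_lit 2) (nat_lit 4) (nat_lit 360) (nat_lit 240) (nat_lit 180)))))) (XT.nd (nat_lit 390) (nat_lit 0) (nat_lit 0) (XT.nd (nat_lit 156) (nat_lit 0) (nat_lit 0) (XT.nd (nat_lit 78) (nat_lit 0) (nat_lit 0) (XT.lf (nat_lit 0) (nat_lit 32762293513) (nat_lit 152) (nat_lit 97372431589)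 (nat_lit 0) (nat_lit 25004017638) (nat_lit 2) (nat_lit 5) (nat_lit 4) (nat_lit 4) (nat_lit 2) (nat_lit 4) (nat_lit 361) (nat_lit 240) (nat_lit 179)) (XT.lf (nat_lit 0) (nat_lit 37625354419) (nat_lit 152) (nat_lit 95240420053) (nat_lit 0) (nat_lit 29847230114) (nat_lit 2) (nat_lit 5) (nat_lit 4) (nat_lit 4) (nat_lit 2) (nat_lit 4) (nat_lit 362) (nat_lit 240) (nat_lit 178))) (XT.nd (nat_lit 78) (nat_lit 0) (nat_lit 0) (XT.lf (nat_lit 0) (nat_lit 42715903228) (nat_lit 152) (nat_lit 93031988170) (nat_lit 0) (nat_lit 34918875656) (nat_lit 2) (nat_lit 5) (nat_lit 4) (nat_lit 4) (nat_lit 2) (nat_lit 4) (nat_lit 363) (nat_lit 240) (nat_lit 177)) (XT.nd (nat_lit 78) (nat_lit 0) (nat_lit 0) (XT.lf (nat_lit 0) (nat_lit 48046060292) (nat_lit 152) (nat_lit 90741877767) (nat_lit 0) (nat_lit 40231029609) (nat_lit 2) (nat_lit 5) (nat_lit 4) (nat_lit 4) (nat_lit 2) (nat_lit 4) (nat_lit 364) (nat_lit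 240) (nat_lit 176)) (XT.lf (nat_lit 0) (nat_lit 53628516462) (nat_lit 152) (nat_lit 88364636201) (nat_lit 0) (nat_lit 45796339959) (nat_lit 2) (nat_lit 5) (nat_lit 4) (nat_lit 4) (nat_lit 2) (nat_lit 4) (nat_lit 365) (nat_lit 240) (nat_lit 175))))) (XT.nd (nat_lit 234) (nat_lit 0) (nat_lit 0) (XT.nd (nat_lit 78) (nat_lit 0) (nat_lit 0) (XT.lf (nat_lit 0) (nat_lit 59476563300) (nat_lit 152) (nat_lit 85894603373) (nat_lit 0) (nat_lit 51628057445) (nat_lit 2) (nat_lit 5) (nat_lit 4) (nat_lit 4) (nat_lit 2) (nat_lit 4) (nat_lit 366) (nat_lit 240) (nat_lit 174)) (XT.nd (nat_lit 78) (nat_lit 0) (nat_lit 0) (XT.lf (nat_lit 0) (nat_lit 65604124728) (nat_lit 152) (nat_lit 83325898252) (nat_lit 0) (nat_lit 57740067109) (nat_lit 2) (nat_lit 5) (nat_lit 4) (nat_lit 4) (nat_lit 2) (nat_lit 4) (nat_lit 367) (nat_lit 240) (nat_lit 173)) (XT.lf (nat_lit 0) (nat_lit 72025790178) (nat_lit 152) (nat_lit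 80652404875) (nat_lit 0) (nat_lit 64146921354) (nat_lit 2) (nat_lit 5) (nat_lit 4) (nat_lit 4) (nat_lit 2) (nat_lit 4) (nat_lit 368) (nat_lit 240) (nat_lit 172)))) (XT.nd (nat_lit 78) (nat_lit 0) (nat_lit 0) (XT.lf (nat_lit 0) (nat_lit 78756849328) (nat_lit 152) (nat_lit 77867757780) (nat_lit 0) (nat_lit 70863874596) (nat_lit 2) (nat_lit 5) (nat_lit 4) (nat_lit 4) (nat_lit 2) (nat_lit 4) (nat_lit 369) (nat_lit 240) (nat_lit 171)) (XT.nd (nat_lit 78) (nat_lit 0) (nat_lit 0) (XT.lf (nat_lit 0) (nat_lit 85813328511) (nat_lit 152) (nat_lit 74965326855) (nat_lit 0) (nat_lit 77906919580) (nat_lit 2) (nat_lit 5) (nat_lit 4) (nat_lit 4) (nat_lit 2) (nat_lit 4) (nat_lit 370) (nat_lit 240) (nat_lit 170)) (XT.lf (nat_lit 0) (nat_lit 93212028867) (nat_lit 152) (nat_lit 71938201551) (nat_lit 0) (nat_lit 85292825461) (nat_lit 2) (nat_lit 5) (nat_lit 4) (nat_lit 4) (nat_lit 2) (nat_lit 4) (nat_lit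 371) (nat_lit 240) (nat_lit 169))))))))
noncomputable def xc54 : XT := (XT.nd (nat_lit 1560) (nat_lit 0) (nat_lit 0) (XT.nd (nat_lit 780) (nat_lit 76) (nat_lit 0) (XT.nd (nat_lit 390) (nat_lit 0) (nat_lit 0) (XT.nd (nat_lit 156) (nat_lit 0) (nat_lit 0) (XT.nd (nat_lit 78) (nat_lit 0) (nat_lit 0) (XT.lf (nat_lit 0) (nat_lit 100970566350) (nat_lit 152) (nat_lit 68779174426) (nat_lit 0) (nat_lit 93039177730) (nat_lit 2) (nat_lit 5) (nat_lit 4) (nat_lit 4) (nat_lit 2) (nat_lit 4) (nat_lit 372) (nat_lit 240) (nat_lit 168)) (XT.lf (nat_lit 0) (nat_lit 109107413667) (nat_lit 152) (nat_lit 65480723987) (nat_lit 0) (nat_lit 101164420081) (nat_lit 2) (nat_lit 5) (nat_lit 4) (nat_lit 4) (nat_lit 2) (nat_lit 4) (nat_lit 373) (nat_lit 240) (nat_lit 167))) (XT.nd (nat_lit 78) (nat_lit 0) (nat_lit 0) (XT.lf (nat_lit 0) (nat_lit 117641944265) (nat_lit 152) (nat_lit 62034996781) (nat_lit 0) (nat_lit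 109687898331) (nat_lit 2) (nat_lit 5) (nat_lit 4) (nat_lit 4) (nat_lit 2) (nat_lit 4) (nat_lit 374) (nat_lit 240) (nat_lit 166)) (XT.nd (nat_lit 78) (nat_lit 0) (nat_lit 0) (XT.lf (nat_lit 0) (nat_lit 126594478455) (nat_lit 152) (nat_lit 58433788696) (nat_lit 0) (nat_lit 118629906475) (nat_lit 2) (nat_lit 5) (nat_lit 4) (nat_lit 4) (nat_lit 2) (nat_lit 4) (nat_lit 375) (nat_lit 240) (nat_lit 165)) (XT.lf (nat_lit 0) (nat_lit 135986331795) (nat_lit 152) (nat_lit 54668525425) (nat_lit 0) (nat_lit 128011735008) (nat_lit 2) (nat_lit 5) (nat_lit 4) (nat_lit 4) (nat_lit 2) (nat_lit 4) (nat_lit 376) (nat_lit 240) (nat_lit 164))))) (XT.nd (nat_lit 156) (nat_lit 0) (nat_lit 0) (XT.nd (nat_lit 78) (nat_lit 0) (nat_lit 0) (XT.lf (nat_lit 0) (nat_lit 145839865839) (nat_lit 152) (nat_lit 50730242058) (nat_lit 0) (nat_lit 137855721618) (nat_lit 2) (nat_lit 5) (nat_lit 4) (nat_lit 4) (nat_lit 2) (nat_lit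 4) (nat_lit 377) (nat_lit 240) (nat_lit 163)) (XT.lf (nat_lit 0) (nat_lit 156178541384) (nat_lit 152) (nat_lit 46609561728) (nat_lit 0) (nat_lit 148185304369) (nat_lit 2) (nat_lit 5) (nat_lit 4) (nat_lit 4) (nat_lit 2) (nat_lit 4) (nat_lit 378) (nat_lit 240) (nat_lit 162))) (XT.nd (nat_lit 78) (nat_lit 0) (nat_lit 0) (XT.lf (nat_lit 0) (nat_lit 167026974323) (nat_lit 152) (nat_lit 42296673293) (nat_lit 0) (nat_lit 159025077503) (nat_lit 2) (nat_lit 5) (nat_lit 4) (nat_lit 4) (nat_lit 2) (nat_lit 4) (nat_lit 379) (nat_lit 240) (nat_lit 161)) (XT.nd (nat_lit 78) (nat_lit 0) (nat_lit 0) (XT.lf (nat_lit 0) (nat_lit 178410994258) (nat_lit 152) (nat_lit 37781307969) (nat_lit 0) (nat_lit 170400850006) (nat_lit 2) (nat_lit 5) (nat_lit 4) (nat_lit 4) (nat_lit 2) (nat_lit 4) (nat_lit 380) (nat_lit 240) (nat_lit 160)) (XT.lf (nat_lit 0) (nat_lit 190357706000) (nat_lit 152) (nat_lit 33052714888)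 (nat_lit 0) (nat_lit 182339707050) (nat_lit 2) (nat_lit 5) (nat_lit 4) (nat_lit 4) (nat_lit 2) (nat_lit 4) (nat_lit 381) (nat_lit 240) (nat_lit 159)))))) (XT.nd (nat_lit 390) (nat_lit 76) (nat_lit 0) (XT.nd (nat_lit 156) (nat_lit 0) (nat_lit 0) (XT.nd (nat_lit 78) (nat_lit 0) (nat_lit 0) (XT.lf (nat_lit 0) (nat_lit 202895554099) (nat_lit 152) (nat_lit 28099635494) (nat_lit 0) (nat_lit 194870074485) (nat_lit 2) (nat_lit 5) (nat_lit 4) (nat_lit 4) (nat_lit 2) (nat_lit 4) (nat_lit 382) (nat_lit 240) (nat_lit 158)) (XT.lf (nat_lit 0) (nat_lit 216054390576) (nat_lit 152) (nat_lit 22910276741) (nat_lit 0) (nat_lit 208021786519) (nat_lit 2) (nat_lit 5) (nat_lit 4) (nat_lit 4) (nat_lit 2) (nat_lit 4) (nat_lit 383) (nat_lit 240) (nat_lit 157))) (XT.nd (nat_lit 78) (nat_lit 0) (nat_lit 0) (XT.lf (nat_lit 0) (nat_lit 229865545992) (nat_lit 152) (nat_lit 17472283013) (nat_lit 0) (nat_lit 221826156752)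 (nat_lit 2) (nat_lit 5) (nat_lit 4) (nat_lit 4) (nat_lit 2) (nat_lit 4) (nat_lit 384) (nat_lit 240) (nat_lit 156)) (XT.nd (nat_lit 78) (nat_lit 0) (nat_lit 0) (XT.lf (nat_lit 0) (nat_lit 244361904052) (nat_lit 152) (nat_lit 11772706706) (nat_lit 0) (nat_lit 236316052733) (nat_lit 2) (nat_lit 5) (nat_lit 4) (nat_lit 4) (nat_lit 2) (nat_lit 4) (nat_lit 385) (nat_lit 240) (nat_lit 155)) (XT.lf (nat_lit 0) (nat_lit 259577979894) (nat_lit 152) (nat_lit 5797977400) (nat_lit 0) (nat_lit 251525974214) (nat_lit 2) (nat_lit 5) (nat_lit 4) (nat_lit 4) (nat_lit 2) (nat_lit 4) (nat_lit 386) (nat_lit 240) (nat_lit 154))))) (XT.nd (nat_lit 156) (nat_lit 0) (nat_lit 0) (XT.nd (nat_lit 78) (nat_lit 0) (nat_lit 0) (XT.lf (nat_lit 0) (nat_lit 481542828) (nat_lit 76) (nat_lit 275075977674) (nat_lit 76) (nat_lit 267018110698) (nat_lit 1) (nat_lit 4) (nat_lit 2) (nat_lit 5) (nat_lit 2) (nat_lit 4) (nat_lit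 387) (nat_lit 240) (nat_lit 153)) (XT.lf (nat_lit 0) (nat_lit 7267124765) (nat_lit 76) (nat_lit 285162335222) (nat_lit 76) (nat_lit 277098886058) (nat_lit 1) (nat_lit 4) (nat_lit 2) (nat_lit 5) (nat_lit 2) (nat_lit 4) (nat_lit 388) (nat_lit 240) (nat_lit 152))) (XT.nd (nat_lit 78) (nat_lit 0) (nat_lit 0) (XT.lf (nat_lit 0) (nat_lit 14383217240) (nat_lit 76) (nat_lit 295757236627) (nat_lit 76) (nat_lit 287688471095) (nat_lit 1) (nat_lit 4) (nat_lit 2) (nat_lit 5) (nat_lit 2) (nat_lit 4) (nat_lit 389) (nat_lit 240) (nat_lit 151)) (XT.nd (nat_lit 78) (nat_lit 0) (nat_lit 0) (XT.lf (nat_lit 0) (nat_lit 21846763331) (nat_lit 76) (nat_lit 306885907845) (nat_lit 76) (nat_lit 298812079105) (nat_lit 1) (nat_lit 4) (nat_lit 2) (nat_lit 5) (nat_lit 2) (nat_lit 4) (nat_lit 390) (nat_lit 240) (nat_lit 150)) (XT.lf (nat_lit 0) (nat_lit 29675533386) (nat_lit 76) (nat_lit 318574845713) (nat_lit 76)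 (nat_lit 310496194870) (nat_lit 1) (nat_lit 4) (nat_lit 2) (nat_lit 5) (nat_lit 2) (nat_lit 4) (nat_lit 391) (nat_lit 240) (nat_lit 149))))))) (XT.nd (nat_lit 34008) (nat_lit 0) (nat_lit 912) (XT.nd (nat_lit 33618) (nat_lit 0) (nat_lit 1520) (XT.nd (nat_lit 33384) (nat_lit 0) (nat_lit 1976) (XT.nd (nat_lit 33306) (nat_lit 0) (nat_lit 2356) (XT.lf (nat_lit 0) (nat_lit 37888167333) (nat_lit 76) (nat_lit 330851881035) (nat_lit 76) (nat_lit 322768637712) (nat_lit 1) (nat_lit 4) (nat_lit 2) (nat_lit 5) (nat_lit 2) (nat_lit 4) (nat_lit 392) (nat_lit 240) (nat_lit 148)) (XT.lf (nat_lit 0) (nat_lit 2194479500) (nat_lit 152) (nat_lit 1788537948) (nat_lit 152) (nat_lit 1788537948) (nat_lit 32) (nat_lit 4) (nat_lit 34) (nat_lit 5) (nat_lit 34) (nat_lit 4) (nat_lit 298) (nat_lit 241) (nat_lit 241))) (XT.nd (nat_lit 78) (nat_lit 152) (nat_lit 0) (XT.lf (nat_lit 0) (nat_lit 645484966) (nat_lit 228)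 (nat_lit 11186254669) (nat_lit 0) (nat_lit 41568190) (nat_lit 29) (nat_lit 5) (nat_lit 32) (nat_lit 4) (nat_lit 29) (nat_lit 4) (nat_lit 299) (nat_lit 241) (nat_lit 240)) (XT.nd (nat_lit 78) (nat_lit 152) (nat_lit 0) (XT.lf (nat_lit 0) (nat_lit 4980238735) (nat_lit 228) (nat_lit 3434746806) (nat_lit 0) (nat_lit 3801163126) (nat_lit 29) (nat_lit 5) (nat_lit 32) (nat_lit 4) (nat_lit 29) (nat_lit 4) (nat_lit 300) (nat_lit 241) (nat_lit 239)) (XT.lf (nat_lit 0) (nat_lit 4594024391) (nat_lit 152) (nat_lit 4856566870) (nat_lit 152) (nat_lit 3129720942) (nat_lit 27) (nat_lit 4) (nat_lit 29) (nat_lit 5) (nat_lit 29) (nat_lit 4) (nat_lit 301) (nat_lit 241) (nat_lit 238))))) (XT.nd (nat_lit 156) (nat_lit 304) (nat_lit 0) (XT.nd (nat_lit 78) (nat_lit 76) (nat_lit 0) (XT.lf (nat_lit 0) (nat_lit 1050972027) (nat_lit 228) (nat_lit 94039289) (nat_lit 76) (nat_lit 11821511324) (nat_lit 26) (nat_lit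 5) (nat_lit 29) (nat_lit 5) (nat_lit 27) (nat_lit 4) (nat_lit 302) (nat_lit 241) (nat_lit 237)) (XT.lf (nat_lit 0) (nat_lit 5362323454) (nat_lit 152) (nat_lit 5258241649) (nat_lit 0) (nat_lit 2747679863) (nat_lit 25) (nat_lit 5) (nat_lit 27) (nat_lit 4) (nat_lit 25) (nat_lit 4) (nat_lit 303) (nat_lit 241) (nat_lit 236))) (XT.nd (nat_lit 78) (nat_lit 152) (nat_lit 0) (XT.lf (nat_lit 0) (nat_lit 2759366910) (nat_lit 152) (nat_lit 7050037872) (nat_lit 152) (nat_lit 3984742284) (nat_lit 23) (nat_lit 4) (nat_lit 25) (nat_lit 5) (nat_lit 25) (nat_lit 4) (nat_lit 304) (nat_lit 241) (nat_lit 235)) (XT.nd (nat_lit 78) (nat_lit 76) (nat_lit 0) (XT.lf (nat_lit 0) (nat_lit 177722531) (nat_lit 228) (nat_lit 3130156775) (nat_lit 76) (nat_lit 10935980478) (nat_lit 22) (nat_lit 5) (nat_lit 25) (nat_lit 5) (nat_lit 23) (nat_lit 4) (nat_lit 305) (nat_lit 241) (nat_lit 234)) (XT.lf (nat_lit 0) (nat_lit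 4367506097) (nat_lit 152) (nat_lit 9697586143) (nat_lit 0) (nat_lit 650132182) (nat_lit 21) (nat_lit 5) (nat_lit 23) (nat_lit 4) (nat_lit 21) (nat_lit 4) (nat_lit 306) (nat_lit 241) (nat_lit 233)))))) (XT.nd (nat_lit 390) (nat_lit 304) (nat_lit 0) (XT.nd (nat_lit 156) (nat_lit 152) (nat_lit 0) (XT.nd (nat_lit 78) (nat_lit 152) (nat_lit 0) (XT.lf (nat_lit 0) (nat_lit 8740274917) (nat_lit 152) (nat_lit 1819142810) (nat_lit 0) (nat_lit 4652148490) (nat_lit 21) (nat_lit 5) (nat_lit 23) (nat_lit 4) (nat_lit 21) (nat_lit 4) (nat_lit 307) (nat_lit 241) (nat_lit 232)) (XT.lf (nat_lit 0) (nat_lit 6432400083) (nat_lit 152) (nat_lit 6871508744) (nat_lit 152) (nat_lit 2430284685) (nat_lit 19) (nat_lit 4) (nat_lit 21) (nat_lit 5) (nat_lit 21) (nat_lit 4) (nat_lit 308) (nat_lit 241) (nat_lit 231))) (XT.nd (nat_lit 78) (nat_lit 76) (nat_lit 0) (XT.lf (nat_lit 0) (nat_lit 1658354505) (nat_lit 228) (nat_lit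 1377880781) (nat_lit 76) (nat_lit 13250193977) (nat_lit 18) (nat_lit 5) (nat_lit 21) (nat_lit 5) (nat_lit 19) (nat_lit 4) (nat_lit 309) (nat_lit 241) (nat_lit 230)) (XT.nd (nat_lit 78) (nat_lit 0) (nat_lit 0) (XT.lf (nat_lit 0) (nat_lit 5872368209) (nat_lit 152) (nat_lit 9974512595) (nat_lit 0) (nat_lit 1017342041) (nat_lit 17) (nat_lit 5) (nat_lit 19) (nat_lit 4) (nat_lit 17) (nat_lit 4) (nat_lit 310) (nat_lit 241) (nat_lit 229)) (XT.lf (nat_lit 0) (nat_lit 10249945858) (nat_lit 152) (nat_lit 2118957295) (nat_lit 0) (nat_lit 5104425394) (nat_lit 17) (nat_lit 5) (nat_lit 19) (nat_lit 4) (nat_lit 17) (nat_lit 4) (nat_lit 311) (nat_lit 241) (nat_lit 228))))) (XT.nd (nat_lit 234) (nat_lit 76) (nat_lit 0) (XT.nd (nat_lit 78) (nat_lit 152) (nat_lit 0) (XT.lf (nat_lit 0) (nat_lit 6117971153) (nat_lit 76) (nat_lit 8709065425) (nat_lit 76) (nat_lit 3286883728) (nat_lit 16) (nat_lit 4) (nat_lit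 17) (nat_lit 5) (nat_lit 17) (nat_lit 4) (nat_lit 312) (nat_lit 241) (nat_lit 227)) (XT.nd (nat_lit 78) (nat_lit 76) (nat_lit 0) (XT.lf (nat_lit 0) (nat_lit 741322348) (nat_lit 152) (nat_lit 4165957771) (nat_lit 76) (nat_lit 13882558762) (nat_lit 15) (nat_lit 5) (nat_lit 17) (nat_lit 5) (nat_lit 16) (nat_lit 4) (nat_lit 313) (nat_lit 241) (nat_lit 226)) (XT.lf (nat_lit 0) (nat_lit 3929594505) (nat_lit 76) (nat_lit 883187438) (nat_lit 152) (nat_lit 14686516044) (nat_lit 14) (nat_lit 5) (nat_lit 15) (nat_lit 5) (nat_lit 16) (nat_lit 4) (nat_lit 314) (nat_lit 241) (nat_lit 225)))) (XT.nd (nat_lit 78) (nat_lit 76) (nat_lit 0) (XT.lf (nat_lit 0) (nat_lit 9103439450) (nat_lit 152) (nat_lit 7918144023) (nat_lit 0) (nat_lit 3221916731) (nat_lit 14) (nat_lit 5) (nat_lit 16) (nat_lit 4) (nat_lit 14) (nat_lit 4) (nat_lit 315) (nat_lit 241) (nat_lit 224)) (XT.nd (nat_lit 78) (nat_lit 76) (nat_lit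 0) (XT.lf (nat_lit 0) (nat_lit 13519999858) (nat_lit 152) (nat_lit 87687304) (nat_lit 0) (nat_lit 7421705823) (nat_lit 14) (nat_lit 5) (nat_lit 16) (nat_lit 4) (nat_lit 14) (nat_lit 4) (nat_lit 316) (nat_lit 241) (nat_lit 223)) (XT.lf (nat_lit 0) (nat_lit 8217098105) (nat_lit 76) (nat_lit 9970383581) (nat_lit 76) (nat_lit 3665640674) (nat_lit 13) (nat_lit 4) (nat_lit 14) (nat_lit 5) (nat_lit 14) (nat_lit 4) (nat_lit 317) (nat_lit 241) (nat_lit 222))))))))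
noncomputable def xc55 : XT := (XT.nd (nat_lit 1638) (nat_lit 228) (nat_lit 0) (XT.nd (nat_lit 780) (nat_lit 228) (nat_lit 0) (XT.nd (nat_lit 390) (nat_lit 152) (nat_lit 0) (XT.nd (nat_lit 156) (nat_lit 76) (nat_lit 0) (XT.nd (nat_lit 78) (nat_lit 76) (nat_lit 0) (XT.lf (nat_lit 0) (nat_lit 262045022) (nat_lit 152) (nat_lit 5964168582) (nat_lit 76) (nat_lit 16496397940) (nat_lit 12) (nat_lit 5) (nat_lit 14) (nat_lit 5) (nat_lit 13) (nat_lit 4) (nat_lit 318) (nat_lit 241) (nat_lit 221)) (XT.lf (nat_lit 0) (nat_lit 1920694020) (nat_lit 76) (nat_lit 2278969449) (nat_lit 152) (nat_lit 19436110470) (nat_lit 11) (nat_lit 5) (nat_lit 12) (nat_lit 5) (nat_lit 13) (nat_lit 4) (nat_lit 319) (nat_lit 241) (nat_lit 220))) (XT.nd (nat_lit 78) (nat_lit 76) (nat_lit 0) (XT.lf (nat_lit 0) (nat_lit 8373288253) (nat_lit 152) (nat_lit 14386056596) (nat_lit 0) (nat_lit 1833331691) (nat_lit 11) (nat_lit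 5) (nat_lit 13) (nat_lit 4) (nat_lit 11) (nat_lit 4) (nat_lit 320) (nat_lit 241) (nat_lit 219)) (XT.nd (nat_lit 78) (nat_lit 76) (nat_lit 0) (XT.lf (nat_lit 0) (nat_lit 12704702693) (nat_lit 152) (nat_lit 6892314648) (nat_lit 0) (nat_lit 6002988038) (nat_lit 11) (nat_lit 5) (nat_lit 13) (nat_lit 4) (nat_lit 11) (nat_lit 4) (nat_lit 321) (nat_lit 241) (nat_lit 218)) (XT.lf (nat_lit 0) (nat_lit 846667925) (nat_lit 76) (nat_lit 16335189516) (nat_lit 76) (nat_lit 9479419534) (nat_lit 10) (nat_lit 4) (nat_lit 11) (nat_lit 5) (nat_lit 11) (nat_lit 4) (nat_lit 322) (nat_lit 241) (nat_lit 217))))) (XT.nd (nat_lit 156) (nat_lit 152) (nat_lit 0) (XT.nd (nat_lit 78) (nat_lit 0) (nat_lit 0) (XT.lf (nat_lit 0) (nat_lit 9057865019) (nat_lit 76) (nat_lit 12859277976) (nat_lit 76) (nat_lit 5856788634) (nat_lit 10) (nat_lit 4) (nat_lit 11) (nat_lit 5) (nat_lit 11) (nat_lit 4) (nat_lit 323) (nat_lit 241)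 (nat_lit 216)) (XT.lf (nat_lit 0) (nat_lit 17532936054) (nat_lit 76) (nat_lit 9277731425) (nat_lit 76) (nat_lit 2135509361) (nat_lit 10) (nat_lit 4) (nat_lit 11) (nat_lit 5) (nat_lit 11) (nat_lit 4) (nat_lit 324) (nat_lit 241) (nat_lit 215))) (XT.nd (nat_lit 78) (nat_lit 76) (nat_lit 0) (XT.lf (nat_lit 0) (nat_lit 1639082987) (nat_lit 152) (nat_lit 3915180722) (nat_lit 76) (nat_lit 24625218119) (nat_lit 9) (nat_lit 5) (nat_lit 11) (nat_lit 5) (nat_lit 10) (nat_lit 4) (nat_lit 325) (nat_lit 241) (nat_lit 214)) (XT.nd (nat_lit 78) (nat_lit 0) (nat_lit 0) (XT.lf (nat_lit 0) (nat_lit 3912529117) (nat_lit 76) (nat_lit 1606774133) (nat_lit 152) (nat_lit 25953992387) (nat_lit 8) (nat_lit 5) (nat_lit 9) (nat_lit 5) (nat_lit 10) (nat_lit 4) (nat_lit 326) (nat_lit 241) (nat_lit 213)) (XT.lf (nat_lit 0) (nat_lit 9628529541) (nat_lit 152) (nat_lit 20737540051) (nat_lit 0) (nat_lit 2464006754) (nat_lit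 8) (nat_lit 5) (nat_lit 10) (nat_lit 4) (nat_lit 8) (nat_lit 4) (nat_lit 327) (nat_lit 241) (nat_lit 212)))))) (XT.nd (nat_lit 390) (nat_lit 152) (nat_lit 0) (XT.nd (nat_lit 156) (nat_lit 76) (nat_lit 0) (XT.nd (nat_lit 78) (nat_lit 0) (nat_lit 0) (XT.lf (nat_lit 0) (nat_lit 13900963289) (nat_lit 152) (nat_lit 13728913961) (nat_lit 0) (nat_lit 6626956258) (nat_lit 8) (nat_lit 5) (nat_lit 10) (nat_lit 4) (nat_lit 8) (nat_lit 4) (nat_lit 328) (nat_lit 241) (nat_lit 211)) (XT.lf (nat_lit 0) (nat_lit 18321690710) (nat_lit 152) (nat_lit 6493114799) (nat_lit 0) (nat_lit 10943412970) (nat_lit 8) (nat_lit 5) (nat_lit 10) (nat_lit 4) (nat_lit 8) (nat_lit 4) (nat_lit 329) (nat_lit 241) (nat_lit 210))) (XT.nd (nat_lit 78) (nat_lit 0) (nat_lit 0) (XT.lf (nat_lit 0) (nat_lit 1019723034) (nat_lit 76) (nat_lit 21897435044) (nat_lit 76) (nat_lit 14419851867) (nat_lit 7) (nat_lit 4) (nat_lit 8) (nat_lit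 5) (nat_lit 8) (nat_lit 4) (nat_lit 330) (nat_lit 241) (nat_lit 209)) (XT.nd (nat_lit 78) (nat_lit 0) (nat_lit 0) (XT.lf (nat_lit 0) (nat_lit 9018133620) (nat_lit 76) (nat_lit 18773171594) (nat_lit 76) (nat_lit 11201011810) (nat_lit 7) (nat_lit 4) (nat_lit 8) (nat_lit 5) (nat_lit 8) (nat_lit 4) (nat_lit 331) (nat_lit 241) (nat_lit 208)) (XT.lf (nat_lit 0) (nat_lit 17306469092) (nat_lit 76) (nat_lit 15544540478) (nat_lit 76) (nat_lit 7882307735) (nat_lit 7) (nat_lit 4) (nat_lit 8) (nat_lit 5) (nat_lit 8) (nat_lit 4) (nat_lit 332) (nat_lit 241) (nat_lit 207))))) (XT.nd (nat_lit 234) (nat_lit 76) (nat_lit 0) (XT.nd (nat_lit 78) (nat_lit 76) (nat_lit 0) (XT.lf (nat_lit 0) (nat_lit 25904463583) (nat_lit 76) (nat_lit 12203854479) (nat_lit 76) (nat_lit 4455837965) (nat_lit 7) (nat_lit 4) (nat_lit 8) (nat_lit 5) (nat_lit 8) (nat_lit 4) (nat_lit 333) (nat_lit 241) (nat_lit 206)) (XT.nd (nat_lit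 78) (nat_lit 76) (nat_lit 0) (XT.lf (nat_lit 0) (nat_lit 34832588508) (nat_lit 76) (nat_lit 8743159582) (nat_lit 76) (nat_lit 913444239) (nat_lit 7) (nat_lit 4) (nat_lit 8) (nat_lit 5) (nat_lit 8) (nat_lit 4) (nat_lit 334) (nat_lit 241) (nat_lit 205)) (XT.lf (nat_lit 0) (nat_lit 2665184671) (nat_lit 152) (nat_lit 2443895174) (nat_lit 76) (nat_lit 41401780445) (nat_lit 6) (nat_lit 5) (nat_lit 8) (nat_lit 5) (nat_lit 7) (nat_lit 4) (nat_lit 335) (nat_lit 241) (nat_lit 204)))) (XT.nd (nat_lit 78) (nat_lit 0) (nat_lit 0) (XT.lf (nat_lit 0) (nat_lit 5188418288) (nat_lit 76) (nat_lit 1235994046) (nat_lit 152) (nat_lit 42206848278) (nat_lit 5) (nat_lit 5) (nat_lit 6) (nat_lit 5) (nat_lit 7) (nat_lit 4) (nat_lit 336) (nat_lit 241) (nat_lit 203)) (XT.nd (nat_lit 78) (nat_lit 0) (nat_lit 0) (XT.lf (nat_lit 0) (nat_lit 10409455111) (nat_lit 152) (nat_lit 37705656571) (nat_lit 0) (nat_lit 2740691760)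 (nat_lit 5) (nat_lit 5) (nat_lit 7) (nat_lit 4) (nat_lit 5) (nat_lit 4) (nat_lit 337) (nat_lit 241) (nat_lit 202)) (XT.lf (nat_lit 0) (nat_lit 14567908226) (nat_lit 152) (nat_lit 31789840029) (nat_lit 0) (nat_lit 6835131705) (nat_lit 5) (nat_lit 5) (nat_lit 7) (nat_lit 4) (nat_lit 5) (nat_lit 4) (nat_lit 338) (nat_lit 241) (nat_lit 201))))))) (XT.nd (nat_lit 780) (nat_lit 152) (nat_lit 0) (XT.nd (nat_lit 390) (nat_lit 0) (nat_lit 0) (XT.nd (nat_lit 156) (nat_lit 76) (nat_lit 0) (XT.nd (nat_lit 78) (nat_lit 0) (nat_lit 0) (XT.lf (nat_lit 0) (nat_lit 18890375428) (nat_lit 152) (nat_lit 25662010090) (nat_lit 0) (nat_lit 11096633983) (nat_lit 5) (nat_lit 5) (nat_lit 7) (nat_lit 4) (nat_lit 5) (nat_lit 4) (nat_lit 339) (nat_lit 241) (nat_lit 200)) (XT.lf (nat_lit 0) (nat_lit 23387148305) (nat_lit 152) (nat_lit 19307576682) (nat_lit 0) (nat_lit 15535345028) (nat_lit 5) (nat_lit 5) (nat_lit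 7) (nat_lit 4) (nat_lit 5) (nat_lit 4) (nat_lit 340) (nat_lit 241) (nat_lit 199))) (XT.nd (nat_lit 78) (nat_lit 76) (nat_lit 0) (XT.lf (nat_lit 0) (nat_lit 28068933460) (nat_lit 152) (nat_lit 12711410203) (nat_lit 0) (nat_lit 20161833199) (nat_lit 5) (nat_lit 5) (nat_lit 7) (nat_lit 4) (nat_lit 5) (nat_lit 4) (nat_lit 341) (nat_lit 241) (nat_lit 198)) (XT.nd (nat_lit 78) (nat_lit 76) (nat_lit 0) (XT.lf (nat_lit 0) (nat_lit 32946877999) (nat_lit 152) (nat_lit 5857805493) (nat_lit 0) (nat_lit 24987113945) (nat_lit 5) (nat_lit 5) (nat_lit 7) (nat_lit 4) (nat_lit 5) (nat_lit 4) (nat_lit 342) (nat_lit 241) (nat_lit 197)) (XT.lf (nat_lit 0) (nat_lit 1311532793) (nat_lit 76) (nat_lit 36741539987) (nat_lit 76) (nat_lit 28731619938) (nat_lit 4) (nat_lit 4) (nat_lit 5) (nat_lit 5) (nat_lit 5) (nat_lit 4) (nat_lit 343) (nat_lit 241) (nat_lit 196))))) (XT.nd (nat_lit 156) (nat_lit 0) (nat_lit 0)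 (XT.nd (nat_lit 78) (nat_lit 0) (nat_lit 0) (XT.lf (nat_lit 0) (nat_lit 8974895550) (nat_lit 76) (nat_lit 34503424268) (nat_lit 76) (nat_lit 26445736606) (nat_lit 4) (nat_lit 4) (nat_lit 5) (nat_lit 5) (nat_lit 5) (nat_lit 4) (nat_lit 344) (nat_lit 241) (nat_lit 195)) (XT.lf (nat_lit 0) (nat_lit 16956843376) (nat_lit 76) (nat_lit 32184212259) (nat_lit 76) (nat_lit 24081031633) (nat_lit 4) (nat_lit 4) (nat_lit 5) (nat_lit 5) (nat_lit 5) (nat_lit 4) (nat_lit 345) (nat_lit 241) (nat_lit 194))) (XT.nd (nat_lit 78) (nat_lit 0) (nat_lit 0) (XT.lf (nat_lit 0) (nat_lit 25276380908) (nat_lit 76) (nat_lit 29778382028) (nat_lit 76) (nat_lit 21631874769) (nat_lit 4) (nat_lit 4) (nat_lit 5) (nat_lit 5) (nat_lit 5) (nat_lit 4) (nat_lit 346) (nat_lit 241) (nat_lit 193)) (XT.nd (nat_lit 78) (nat_lit 0) (nat_lit 0) (XT.lf (nat_lit 0) (nat_lit 33953316568) (nat_lit 76) (nat_lit 27280205408) (nat_lit 76)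 (nat_lit 19092434687) (nat_lit 4) (nat_lit 4) (nat_lit 5) (nat_lit 5) (nat_lit 5) (nat_lit 4) (nat_lit 347) (nat_lit 241) (nat_lit 192)) (XT.lf (nat_lit 0) (nat_lit 43008309728) (nat_lit 76) (nat_lit 24683734357) (nat_lit 76) (nat_lit 16456665103) (nat_lit 4) (nat_lit 4) (nat_lit 5) (nat_lit 5) (nat_lit 5) (nat_lit 4) (nat_lit 348) (nat_lit 241) (nat_lit 191)))))) (XT.nd (nat_lit 390) (nat_lit 152) (nat_lit 0) (XT.nd (nat_lit 156) (nat_lit 0) (nat_lit 0) (XT.nd (nat_lit 78) (nat_lit 0) (nat_lit 0) (XT.lf (nat_lit 0) (nat_lit 52462919894) (nat_lit 76) (nat_lit 21982786803) (nat_lit 76) (nat_lit 13718290375) (nat_lit 4) (nat_lit 4) (nat_lit 5) (nat_lit 5) (nat_lit 5) (nat_lit 4) (nat_lit 349) (nat_lit 241) (nat_lit 190)) (XT.lf (nat_lit 0) (nat_lit 62339658044) (nat_lit 76) (nat_lit 19170931919) (nat_lit 76) (nat_lit 10870790561) (nat_lit 4) (nat_lit 4) (nat_lit 5) (nat_lit 5) (nat_lit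 5) (nat_lit 4) (nat_lit 350) (nat_lit 241) (nat_lit 189))) (XT.nd (nat_lit 78) (nat_lit 0) (nat_lit 0) (XT.lf (nat_lit 0) (nat_lit 72662040221) (nat_lit 76) (nat_lit 16241474810) (nat_lit 76) (nat_lit 7907385902) (nat_lit 4) (nat_lit 4) (nat_lit 5) (nat_lit 5) (nat_lit 5) (nat_lit 4) (nat_lit 351) (nat_lit 241) (nat_lit 188)) (XT.nd (nat_lit 78) (nat_lit 0) (nat_lit 0) (XT.lf (nat_lit 0) (nat_lit 83454643525) (nat_lit 76) (nat_lit 13187440581) (nat_lit 76) (nat_lit 4821020672) (nat_lit 4) (nat_lit 4) (nat_lit 5) (nat_lit 5) (nat_lit 5) (nat_lit 4) (nat_lit 352) (nat_lit 241) (nat_lit 187)) (XT.lf (nat_lit 0) (nat_lit 94743164630) (nat_lit 76) (nat_lit 10001557720) (nat_lit 76) (nat_lit 1604346381) (nat_lit 4) (nat_lit 4) (nat_lit 5) (nat_lit 5) (nat_lit 5) (nat_lit 4) (nat_lit 353) (nat_lit 241) (nat_lit 186))))) (XT.nd (nat_lit 234) (nat_lit 0) (nat_lit 0) (XT.nd (nat_lit 78) (nat_lit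 76) (nat_lit 0) (XT.lf (nat_lit 0) (nat_lit 1694275323) (nat_lit 152) (nat_lit 4953272096) (nat_lit 76) (nat_lit 104831512273) (nat_lit 3) (nat_lit 5) (nat_lit 5) (nat_lit 5) (nat_lit 4) (nat_lit 4) (nat_lit 354) (nat_lit 241) (nat_lit 185)) (XT.nd (nat_lit 78) (nat_lit 0) (nat_lit 0) (XT.lf (nat_lit 0) (nat_lit 2030322332) (nat_lit 76) (nat_lit 3084208192) (nat_lit 152) (nat_lit 111749179696) (nat_lit 2) (nat_lit 5) (nat_lit 3) (nat_lit 5) (nat_lit 4) (nat_lit 4) (nat_lit 355) (nat_lit 241) (nat_lit 184)) (XT.lf (nat_lit 0) (nat_lit 8780329200) (nat_lit 152) (nat_lit 113030417907) (nat_lit 0) (nat_lit 703125354) (nat_lit 2) (nat_lit 5) (nat_lit 4) (nat_lit 4) (nat_lit 2) (nat_lit 4) (nat_lit 356) (nat_lit 241) (nat_lit 183)))) (XT.nd (nat_lit 78) (nat_lit 0) (nat_lit 0) (XT.lf (nat_lit 0) (nat_lit 12659985465) (nat_lit 152) (nat_lit 111226378685) (nat_lit 0) (nat_lit 4558655729) (nat_lit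 2) (nat_lit 5) (nat_lit 4) (nat_lit 4) (nat_lit 2) (nat_lit 4) (nat_lit 357) (nat_lit 241) (nat_lit 182)) (XT.nd (nat_lit 78) (nat_lit 0) (nat_lit 0) (XT.lf (nat_lit 0) (nat_lit 16714583463) (nat_lit 152) (nat_lit 109368821759) (nat_lit 0) (nat_lit 8590276688) (nat_lit 2) (nat_lit 5) (nat_lit 4) (nat_lit 4) (nat_lit 2) (nat_lit 4) (nat_lit 358) (nat_lit 241) (nat_lit 181)) (XT.lf (nat_lit 0) (nat_lit 20953777000) (nat_lit 152) (nat_lit 107453324374) (nat_lit 0) (nat_lit 12807587331) (nat_lit 2) (nat_lit 5) (nat_lit 4) (nat_lit 4) (nat_lit 2) (nat_lit 4) (nat_lit 359) (nat_lit 241) (nat_lit 180))))))))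
noncomputable def xc56 : XT := (XT.nd (nat_lit 1560) (nat_lit 76) (nat_lit 0) (XT.nd (nat_lit 780) (nat_lit 0) (nat_lit 0) (XT.nd (nat_lit 390) (nat_lit 0) (nat_lit 0) (XT.nd (nat_lit 156) (nat_lit 0) (nat_lit 0) (XT.nd (nat_lit 78) (nat_lit 0) (nat_lit 0) (XT.lf (nat_lit 0) (nat_lit 25387659392) (nat_lit 152) (nat_lit 105475325822) (nat_lit 0) (nat_lit 17220628872) (nat_lit 2) (nat_lit 5) (nat_lit 4) (nat_lit 4) (nat_lit 2) (nat_lit 4) (nat_lit 360) (nat_lit 241) (nat_lit 179)) (XT.lf (nat_lit 0) (nat_lit 30026787503) (nat_lit 152) (nat_lit 103430116582) (nat_lit 0) (nat_lit 21839908553) (nat_lit 2) (nat_lit 5) (nat_lit 4) (nat_lit 4) (nat_lit 2) (nat_lit 4) (nat_lit 361) (nat_lit 241) (nat_lit 178))) (XT.nd (nat_lit 78) (nat_lit 0) (nat_lit 0) (XT.lf (nat_lit 0) (nat_lit 34882206876) (nat_lit 152) (nat_lit 101312827109) (nat_lit 0) (nat_lit 26676424659) (nat_lit 2) (nat_lit 5) (nat_lit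 4) (nat_lit 4) (nat_lit 2) (nat_lit 4) (nat_lit 362) (nat_lit 241) (nat_lit 177)) (XT.nd (nat_lit 78) (nat_lit 0) (nat_lit 0) (XT.lf (nat_lit 0) (nat_lit 39965478033) (nat_lit 152) (nat_lit 99118416237) (nat_lit 0) (nat_lit 31741692705) (nat_lit 2) (nat_lit 5) (nat_lit 4) (nat_lit 4) (nat_lit 2) (nat_lit 4) (nat_lit 363) (nat_lit 241) (nat_lit 176)) (XT.lf (nat_lit 0) (nat_lit 45288704001) (nat_lit 152) (nat_lit 96841659179) (nat_lit 0) (nat_lit 37047772853) (nat_lit 2) (nat_lit 5) (nat_lit 4) (nat_lit 4) (nat_lit 2) (nat_lit 4) (nat_lit 364) (nat_lit 241) (nat_lit 175))))) (XT.nd (nat_lit 156) (nat_lit 0) (nat_lit 0) (XT.nd (nat_lit 78) (nat_lit 0) (nat_lit 0) (XT.lf (nat_lit 0) (nat_lit 50864559127) (nat_lit 152) (nat_lit 94477135085) (nat_lit 0) (nat_lit 42607298627) (nat_lit 2) (nat_lit 5) (nat_lit 4) (nat_lit 4) (nat_lit 2) (nat_lit 4) (nat_lit 365) (nat_lit 241) (nat_lit 174))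 (XT.lf (nat_lit 0) (nat_lit 56706319257) (nat_lit 152) (nat_lit 92019214134) (nat_lit 0) (nat_lit 48433506992) (nat_lit 2) (nat_lit 5) (nat_lit 4) (nat_lit 4) (nat_lit 2) (nat_lit 4) (nat_lit 366) (nat_lit 241) (nat_lit 173))) (XT.nd (nat_lit 78) (nat_lit 0) (nat_lit 0) (XT.lf (nat_lit 0) (nat_lit 62827893344) (nat_lit 152) (nat_lit 89462044135) (nat_lit 0) (nat_lit 54540269875) (nat_lit 2) (nat_lit 5) (nat_lit 4) (nat_lit 4) (nat_lit 2) (nat_lit 4) (nat_lit 367) (nat_lit 241) (nat_lit 172)) (XT.nd (nat_lit 78) (nat_lit 0) (nat_lit 0) (XT.lf (nat_lit 0) (nat_lit 69243856563) (nat_lit 152) (nat_lit 86799536588) (nat_lit 0) (nat_lit 60942127186) (nat_lit 2) (nat_lit 5) (nat_lit 4) (nat_lit 4) (nat_lit 2) (nat_lit 4) (nat_lit 368) (nat_lit 241) (nat_lit 171)) (XT.lf (nat_lit 0) (nat_lit 75969485019) (nat_lit 152) (nat_lit 84025352188) (nat_lit 0) (nat_lit 67654321442) (nat_lit 2) (nat_lit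 5) (nat_lit 4) (nat_lit 4) (nat_lit 2) (nat_lit 4) (nat_lit 369) (nat_lit 241) (nat_lit 170)))))) (XT.nd (nat_lit 390) (nat_lit 0) (nat_lit 0) (XT.nd (nat_lit 156) (nat_lit 0) (nat_lit 0) (XT.nd (nat_lit 78) (nat_lit 0) (nat_lit 0) (XT.lf (nat_lit 0) (nat_lit 83020792111) (nat_lit 152) (nat_lit 81132885735) (nat_lit 0) (nat_lit 74692834060) (nat_lit 2) (nat_lit 5) (nat_lit 4) (nat_lit 4) (nat_lit 2) (nat_lit 4) (nat_lit 370) (nat_lit 241) (nat_lit 169)) (XT.lf (nat_lit 0) (nat_lit 90414566666) (nat_lit 152) (nat_lit 78115250403) (nat_lit 0) (nat_lit 82074423401) (nat_lit 2) (nat_lit 5) (nat_lit 4) (nat_lit 4) (nat_lit 2) (nat_lit 4) (nat_lit 371) (nat_lit 241) (nat_lit 168))) (XT.nd (nat_lit 78) (nat_lit 0) (nat_lit 0) (XT.lf (nat_lit 0) (nat_lit 98168412910) (nat_lit 152) (nat_lit 74965261348) (nat_lit 0) (nat_lit 89816664679) (nat_lit 2) (nat_lit 5) (nat_lit 4) (nat_lit 4) (nat_lit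 2) (nat_lit 4) (nat_lit 372) (nat_lit 241) (nat_lit 167)) (XT.nd (nat_lit 78) (nat_lit 0) (nat_lit 0) (XT.lf (nat_lit 0) (nat_lit 106300792381) (nat_lit 152) (nat_lit 71675418595) (nat_lit 0) (nat_lit 97937991802) (nat_lit 2) (nat_lit 5) (nat_lit 4) (nat_lit 4) (nat_lit 2) (nat_lit 4) (nat_lit 373) (nat_lit 241) (nat_lit 166)) (XT.lf (nat_lit 0) (nat_lit 114831067888) (nat_lit 152) (nat_lit 68237889184) (nat_lit 0) (nat_lit 106457741262) (nat_lit 2) (nat_lit 5) (nat_lit 4) (nat_lit 4) (nat_lit 2) (nat_lit 4) (nat_lit 374) (nat_lit 241) (nat_lit 165))))) (XT.nd (nat_lit 156) (nat_lit 0) (nat_lit 0) (XT.nd (nat_lit 78) (nat_lit 0) (nat_lit 0) (XT.lf (nat_lit 0) (nat_lit 123779549609) (nat_lit 152) (nat_lit 64644488523) (nat_lit 0) (nat_lit 115396198178) (nat_lit 2) (nat_lit 5) (nat_lit 4) (nat_lit 4) (nat_lit 2) (nat_lit 4) (nat_lit 375) (nat_lit 241) (nat_lit 164)) (XT.lf (nat_lit 0)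 (nat_lit 133167543455) (nat_lit 152) (nat_lit 60886660895) (nat_lit 0) (nat_lit 124774644589) (nat_lit 2) (nat_lit 5) (nat_lit 4) (nat_lit 4) (nat_lit 2) (nat_lit 4) (nat_lit 376) (nat_lit 241) (nat_lit 163))) (XT.nd (nat_lit 78) (nat_lit 0) (nat_lit 0) (XT.lf (nat_lit 0) (nat_lit 143017401791) (nat_lit 152) (nat_lit 56955459091) (nat_lit 0) (nat_lit 134615410131) (nat_lit 2) (nat_lit 5) (nat_lit 4) (nat_lit 4) (nat_lit 2) (nat_lit 4) (nat_lit 377) (nat_lit 241) (nat_lit 162)) (XT.nd (nat_lit 78) (nat_lit 0) (nat_lit 0) (XT.lf (nat_lit 0) (nat_lit 153352576661) (nat_lit 152) (nat_lit 52841523108) (nat_lit 0) (nat_lit 144941925196) (nat_lit 2) (nat_lit 5) (nat_lit 4) (nat_lit 4) (nat_lit 2) (nat_lit 4) (nat_lit 378) (nat_lit 241) (nat_lit 161)) (XT.lf (nat_lit 0) (nat_lit 164197675624) (nat_lit 152) (nat_lit 48535057860) (nat_lit 0) (nat_lit 155778776727) (nat_lit 2) (nat_lit 5) (nat_lit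 4) (nat_lit 4) (nat_lit 2) (nat_lit 4) (nat_lit 379) (nat_lit 241) (nat_lit 160))))))) (XT.nd (nat_lit 780) (nat_lit 0) (nat_lit 0) (XT.nd (nat_lit 390) (nat_lit 76) (nat_lit 0) (XT.nd (nat_lit 156) (nat_lit 0) (nat_lit 0) (XT.nd (nat_lit 78) (nat_lit 0) (nat_lit 0) (XT.lf (nat_lit 0) (nat_lit 175578520345) (nat_lit 152) (nat_lit 44025809857) (nat_lit 0) (nat_lit 167151766750) (nat_lit 2) (nat_lit 5) (nat_lit 4) (nat_lit 4) (nat_lit 2) (nat_lit 4) (nat_lit 380) (nat_lit 241) (nat_lit 159)) (XT.lf (nat_lit 0) (nat_lit 187522208072) (nat_lit 152) (nat_lit 39303042796) (nat_lit 0) (nat_lit 179087973813) (nat_lit 2) (nat_lit 5) (nat_lit 4) (nat_lit 4) (nat_lit 2) (nat_lit 4) (nat_lit 381) (nat_lit 241) (nat_lit 158))) (XT.nd (nat_lit 78) (nat_lit 0) (nat_lit 0) (XT.lf (nat_lit 0) (nat_lit 200057176158) (nat_lit 152) (nat_lit 34355511993) (nat_lit 0) (nat_lit 191615817456) (nat_lit 2) (nat_lit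 5) (nat_lit 4) (nat_lit 4) (nat_lit 2) (nat_lit 4) (nat_lit 382) (nat_lit 241) (nat_lit 157)) (XT.nd (nat_lit 78) (nat_lit 0) (nat_lit 0) (XT.lf (nat_lit 0) (nat_lit 213213269764) (nat_lit 152) (nat_lit 29171437612) (nat_lit 0) (nat_lit 204765125879) (nat_lit 2) (nat_lit 5) (nat_lit 4) (nat_lit 4) (nat_lit 2) (nat_lit 4) (nat_lit 383) (nat_lit 241) (nat_lit 156)) (XT.lf (nat_lit 0) (nat_lit 227021812924) (nat_lit 152) (nat_lit 23738476619) (nat_lit 0) (nat_lit 218567206959) (nat_lit 2) (nat_lit 5) (nat_lit 4) (nat_lit 4) (nat_lit 2) (nat_lit 4) (nat_lit 384) (nat_lit 241) (nat_lit 155))))) (XT.nd (nat_lit 156) (nat_lit 76) (nat_lit 0) (XT.nd (nat_lit 78) (nat_lit 0) (nat_lit 0) (XT.lf (nat_lit 0) (nat_lit 241515683120) (nat_lit 152) (nat_lit 18043693393) (nat_lit 0) (nat_lit 233054922794) (nat_lit 2) (nat_lit 5) (nat_lit 4) (nat_lit 4) (nat_lit 2) (nat_lit 4) (nat_lit 385) (nat_lit 241)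 (nat_lit 154)) (XT.lf (nat_lit 0) (nat_lit 256729389567) (nat_lit 152) (nat_lit 12073528927) (nat_lit 0) (nat_lit 248262767945) (nat_lit 2) (nat_lit 5) (nat_lit 4) (nat_lit 4) (nat_lit 2) (nat_lit 4) (nat_lit 386) (nat_lit 241) (nat_lit 153))) (XT.nd (nat_lit 78) (nat_lit 76) (nat_lit 0) (XT.lf (nat_lit 0) (nat_lit 272699155377) (nat_lit 152) (nat_lit 5813768542) (nat_lit 0) (nat_lit 264226951568) (nat_lit 2) (nat_lit 5) (nat_lit 4) (nat_lit 4) (nat_lit 2) (nat_lit 4) (nat_lit 387) (nat_lit 241) (nat_lit 152)) (XT.nd (nat_lit 78) (nat_lit 0) (nat_lit 0) (XT.lf (nat_lit 0) (nat_lit 775306605) (nat_lit 76) (nat_lit 288699801904) (nat_lit 76) (nat_lit 280222281726) (nat_lit 1) (nat_lit 4) (nat_lit 2) (nat_lit 5) (nat_lit 2) (nat_lit 4) (nat_lit 388) (nat_lit 241) (nat_lit 151)) (XT.lf (nat_lit 0) (nat_lit 7887325418) (nat_lit 76) (nat_lit 299296666598) (nat_lit 76) (nat_lit 290814083212)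 (nat_lit 1) (nat_lit 4) (nat_lit 2) (nat_lit 5) (nat_lit 2) (nat_lit 4) (nat_lit 389) (nat_lit 241) (nat_lit 150)))))) (XT.nd (nat_lit 33462) (nat_lit 0) (nat_lit 1824) (XT.nd (nat_lit 156) (nat_lit 0) (nat_lit 0) (XT.nd (nat_lit 78) (nat_lit 0) (nat_lit 0) (XT.lf (nat_lit 0) (nat_lit 15346991831) (nat_lit 76) (nat_lit 310427207615) (nat_lit 76) (nat_lit 301939802127) (nat_lit 1) (nat_lit 4) (nat_lit 2) (nat_lit 5) (nat_lit 2) (nat_lit 4) (nat_lit 390) (nat_lit 241) (nat_lit 149)) (XT.lf (nat_lit 0) (nat_lit 23172066953) (nat_lit 76) (nat_lit 322117926244) (nat_lit 76) (nat_lit 313625928276) (nat_lit 1) (nat_lit 4) (nat_lit 2) (nat_lit 5) (nat_lit 2) (nat_lit 4) (nat_lit 391) (nat_lit 241) (nat_lit 148))) (XT.nd (nat_lit 33150) (nat_lit 0) (nat_lit 2508) (XT.lf (nat_lit 0) (nat_lit 31381181918) (nat_lit 76) (nat_lit 334396657529) (nat_lit 76) (nat_lit 325900285771) (nat_lit 1) (nat_lit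 4) (nat_lit 2) (nat_lit 5) (nat_lit 2) (nat_lit 4) (nat_lit 392) (nat_lit 241) (nat_lit 147)) (XT.nd (nat_lit 78) (nat_lit 228) (nat_lit 0) (XT.lf (nat_lit 0) (nat_lit 5419116193) (nat_lit 152) (nat_lit 24729435) (nat_lit 152) (nat_lit 24729435) (nat_lit 37) (nat_lit 4) (nat_lit 39) (nat_lit 5) (nat_lit 39) (nat_lit 4) (nat_lit 296) (nat_lit 242) (nat_lit 242)) (XT.lf (nat_lit 0) (nat_lit 4190370709) (nat_lit 228) (nat_lit 3517589897) (nat_lit 0) (nat_lit 3524552464) (nat_lit 34) (nat_lit 5) (nat_lit 37) (nat_lit 4) (nat_lit 34) (nat_lit 4) (nat_lit 297) (nat_lit 242) (nat_lit 241))))) (XT.nd (nat_lit 234) (nat_lit 304) (nat_lit 0) (XT.nd (nat_lit 78) (nat_lit 228) (nat_lit 0) (XT.lf (nat_lit 0) (nat_lit 4260862963) (nat_lit 152) (nat_lit 4293072221) (nat_lit 152) (nat_lit 2993141361) (nat_lit 32) (nat_lit 4) (nat_lit 34) (nat_lit 5) (nat_lit 34) (nat_lit 4) (nat_lit 298) (nat_lit 242)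 (nat_lit 240)) (XT.nd (nat_lit 78) (nat_lit 0) (nat_lit 0) (XT.lf (nat_lit 0) (nat_lit 413236537) (nat_lit 152) (nat_lit 717048425) (nat_lit 228) (nat_lit 10750618385) (nat_lit 29) (nat_lit 5) (nat_lit 31) (nat_lit 5) (nat_lit 32) (nat_lit 4) (nat_lit 299) (nat_lit 242) (nat_lit 239)) (XT.lf (nat_lit 0) (nat_lit 5379275534) (nat_lit 228) (nat_lit 3830500167) (nat_lit 0) (nat_lit 3018316991) (nat_lit 29) (nat_lit 5) (nat_lit 32) (nat_lit 4) (nat_lit 29) (nat_lit 4) (nat_lit 300) (nat_lit 242) (nat_lit 238)))) (XT.nd (nat_lit 78) (nat_lit 152) (nat_lit 0) (XT.lf (nat_lit 0) (nat_lit 4061674060) (nat_lit 152) (nat_lit 5708625317) (nat_lit 152) (nat_lit 2825980757) (nat_lit 27) (nat_lit 4) (nat_lit 29) (nat_lit 5) (nat_lit 29) (nat_lit 4) (nat_lit 301) (nat_lit 242) (nat_lit 237)) (XT.nd (nat_lit 78) (nat_lit 76) (nat_lit 0) (XT.lf (nat_lit 0) (nat_lit 1274326796) (nat_lit 228) (nat_lit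 767118452) (nat_lit 76) (nat_lit 10944393530) (nat_lit 26) (nat_lit 5) (nat_lit 29) (nat_lit 5) (nat_lit 27) (nat_lit 4) (nat_lit 302) (nat_lit 242) (nat_lit 236)) (XT.lf (nat_lit 0) (nat_lit 5490741704) (nat_lit 152) (nat_lit 6080086532) (nat_lit 0) (nat_lit 1821529340) (nat_lit 25) (nat_lit 5) (nat_lit 27) (nat_lit 4) (nat_lit 25) (nat_lit 4) (nat_lit 303) (nat_lit 242) (nat_lit 235))))))))
noncomputable def xc57 : XT := (XT.nd (nat_lit 1638) (nat_lit 456) (nat_lit 0) (XT.nd (nat_lit 780) (nat_lit 380) (nat_lit 0) (XT.nd (nat_lit 390) (nat_lit 304) (nat_lit 0) (XT.nd (nat_lit 156) (nat_lit 228) (nat_lit 0) (XT.nd (nat_lit 78) (nat_lit 76) (nat_lit 0) (XT.lf (nat_lit 0) (nat_lit 1791471369) (nat_lit 152) (nat_lit 8064662396) (nat_lit 152) (nat_lit 3966257655) (nat_lit 23) (nat_lit 4) (nat_lit 25) (nat_lit 5) (nat_lit 25) (nat_lit 4) (nat_lit 304) (nat_lit 242) (nat_lit 234)) (XT.lf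 (nat_lit 0) (nat_lit 129328550) (nat_lit 228) (nat_lit 4242035856) (nat_lit 76) (nat_lit 9904082537) (nat_lit 22) (nat_lit 5) (nat_lit 25) (nat_lit 5) (nat_lit 23) (nat_lit 4) (nat_lit 305) (nat_lit 242) (nat_lit 233))) (XT.nd (nat_lit 78) (nat_lit 152) (nat_lit 0) (XT.lf (nat_lit 0) (nat_lit 3766417274) (nat_lit 76) (nat_lit 459371408) (nat_lit 152) (nat_lit 10525729915) (nat_lit 21) (nat_lit 5) (nat_lit 22) (nat_lit 5) (nat_lit 23) (nat_lit 4) (nat_lit 306) (nat_lit 242) (nat_lit 232)) (XT.nd (nat_lit 78) (nat_lit 152) (nat_lit 0) (XT.lf (nat_lit 0) (nat_lit 8528848284) (nat_lit 152) (nat_lit 3210071076) (nat_lit 0) (nat_lit 3512465391) (nat_lit 21) (nat_lit 5) (nat_lit 23) (nat_lit 4) (nat_lit 21) (nat_lit 4) (nat_lit 307) (nat_lit 242) (nat_lit 231)) (XT.lf (nat_lit 0) (nat_lit 4886679918) (nat_lit 152) (nat_lit 8122110067) (nat_lit 152) (nat_lit 2769443717) (nat_lit 19) (nat_lit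 4) (nat_lit 21) (nat_lit 5) (nat_lit 21) (nat_lit 4) (nat_lit 308) (nat_lit 242) (nat_lit 230))))) (XT.nd (nat_lit 156) (nat_lit 152) (nat_lit 0) (XT.nd (nat_lit 78) (nat_lit 76) (nat_lit 0) (XT.lf (nat_lit 0) (nat_lit 1270719281) (nat_lit 228) (nat_lit 3067961783) (nat_lit 76) (nat_lit 11995053322) (nat_lit 18) (nat_lit 5) (nat_lit 21) (nat_lit 5) (nat_lit 19) (nat_lit 4) (nat_lit 309) (nat_lit 242) (nat_lit 229)) (XT.lf (nat_lit 0) (nat_lit 5057064330) (nat_lit 76) (nat_lit 325872084) (nat_lit 152) (nat_lit 11533713385) (nat_lit 17) (nat_lit 5) (nat_lit 18) (nat_lit 5) (nat_lit 19) (nat_lit 4) (nat_lit 310) (nat_lit 242) (nat_lit 228))) (XT.nd (nat_lit 78) (nat_lit 152) (nat_lit 0) (XT.lf (nat_lit 0) (nat_lit 9699385074) (nat_lit 152) (nat_lit 4100024296) (nat_lit 0) (nat_lit 3729433059) (nat_lit 17) (nat_lit 5) (nat_lit 19) (nat_lit 4) (nat_lit 17) (nat_lit 4) (nat_lit 311) (nat_lit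 242) (nat_lit 227)) (XT.nd (nat_lit 78) (nat_lit 76) (nat_lit 0) (XT.lf (nat_lit 0) (nat_lit 3971949582) (nat_lit 76) (nat_lit 10217648217) (nat_lit 76) (nat_lit 3984209314) (nat_lit 16) (nat_lit 4) (nat_lit 17) (nat_lit 5) (nat_lit 17) (nat_lit 4) (nat_lit 312) (nat_lit 242) (nat_lit 226)) (XT.lf (nat_lit 0) (nat_lit 13121428) (nat_lit 152) (nat_lit 6457479870) (nat_lit 76) (nat_lit 12382354785) (nat_lit 15) (nat_lit 5) (nat_lit 17) (nat_lit 5) (nat_lit 16) (nat_lit 4) (nat_lit 313) (nat_lit 242) (nat_lit 225)))))) (XT.nd (nat_lit 390) (nat_lit 228) (nat_lit 0) (XT.nd (nat_lit 156) (nat_lit 76) (nat_lit 0) (XT.nd (nat_lit 78) (nat_lit 0) (nat_lit 0) (XT.lf (nat_lit 0) (nat_lit 1467359878) (nat_lit 76) (nat_lit 2528117707) (nat_lit 152) (nat_lit 15571417850) (nat_lit 14) (nat_lit 5) (nat_lit 15) (nat_lit 5) (nat_lit 16) (nat_lit 4) (nat_lit 314) (nat_lit 242) (nat_lit 224)) (XT.lf (nat_lit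 0) (nat_lit 8210156313) (nat_lit 152) (nat_lit 10514587898) (nat_lit 0) (nat_lit 1590176261) (nat_lit 14) (nat_lit 5) (nat_lit 16) (nat_lit 4) (nat_lit 14) (nat_lit 4) (nat_lit 315) (nat_lit 242) (nat_lit 223))) (XT.nd (nat_lit 78) (nat_lit 76) (nat_lit 0) (XT.lf (nat_lit 0) (nat_lit 12578814998) (nat_lit 152) (nat_lit 2772030009) (nat_lit 0) (nat_lit 5752386074) (nat_lit 14) (nat_lit 5) (nat_lit 16) (nat_lit 4) (nat_lit 14) (nat_lit 4) (nat_lit 316) (nat_lit 242) (nat_lit 222)) (XT.nd (nat_lit 78) (nat_lit 0) (nat_lit 0) (XT.lf (nat_lit 0) (nat_lit 5357517801) (nat_lit 76) (nat_lit 11798512275) (nat_lit 76) (nat_lit 4775465378) (nat_lit 13) (nat_lit 4) (nat_lit 14) (nat_lit 5) (nat_lit 14) (nat_lit 4) (nat_lit 317) (nat_lit 242) (nat_lit 221)) (XT.lf (nat_lit 0) (nat_lit 13820937559) (nat_lit 76) (nat_lit 8096408927) (nat_lit 76) (nat_lit 886106817) (nat_lit 13) (nat_lit 4) (nat_lit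 14) (nat_lit 5) (nat_lit 14) (nat_lit 4) (nat_lit 318) (nat_lit 242) (nat_lit 220))))) (XT.nd (nat_lit 234) (nat_lit 76) (nat_lit 0) (XT.nd (nat_lit 78) (nat_lit 76) (nat_lit 0) (XT.lf (nat_lit 0) (nat_lit 3006563730) (nat_lit 152) (nat_lit 1225184760) (nat_lit 76) (nat_lit 19489243091) (nat_lit 12) (nat_lit 5) (nat_lit 14) (nat_lit 5) (nat_lit 13) (nat_lit 4) (nat_lit 319) (nat_lit 242) (nat_lit 219)) (XT.nd (nat_lit 78) (nat_lit 0) (nat_lit 0) (XT.lf (nat_lit 0) (nat_lit 6972675936) (nat_lit 76) (nat_lit 115695937) (nat_lit 152) (nat_lit 17594130961) (nat_lit 11) (nat_lit 5) (nat_lit 12) (nat_lit 5) (nat_lit 13) (nat_lit 4) (nat_lit 320) (nat_lit 242) (nat_lit 218)) (XT.lf (nat_lit 0) (nat_lit 11376980330) (nat_lit 152) (nat_lit 10290642092) (nat_lit 0) (nat_lit 4024366522) (nat_lit 11) (nat_lit 5) (nat_lit 13) (nat_lit 4) (nat_lit 11) (nat_lit 4) (nat_lit 321) (nat_lit 242) (nat_lit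 217)))) (XT.nd (nat_lit 78) (nat_lit 76) (nat_lit 0) (XT.lf (nat_lit 0) (nat_lit 15801868937) (nat_lit 152) (nat_lit 2651485302) (nat_lit 0) (nat_lit 8302535770) (nat_lit 11) (nat_lit 5) (nat_lit 13) (nat_lit 4) (nat_lit 11) (nat_lit 4) (nat_lit 322) (nat_lit 242) (nat_lit 216)) (XT.nd (nat_lit 78) (nat_lit 0) (nat_lit 0) (XT.lf (nat_lit 0) (nat_lit 5400487609) (nat_lit 76) (nat_lit 15055595943) (nat_lit 76) (nat_lit 7416530053) (nat_lit 10) (nat_lit 4) (nat_lit 11) (nat_lit 5) (nat_lit 11) (nat_lit 4) (nat_lit 323) (nat_lit 242) (nat_lit 215)) (XT.lf (nat_lit 0) (nat_lit 13807411877) (nat_lit 76) (nat_lit 11505715161) (nat_lit 76) (nat_lit 3733570488) (nat_lit 10) (nat_lit 4) (nat_lit 11) (nat_lit 5) (nat_lit 11) (nat_lit 4) (nat_lit 324) (nat_lit 242) (nat_lit 214))))))) (XT.nd (nat_lit 780) (nat_lit 228) (nat_lit 0) (XT.nd (nat_lit 390) (nat_lit 76) (nat_lit 0) (XT.nd (nat_lit 156)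 (nat_lit 76) (nat_lit 0) (XT.nd (nat_lit 78) (nat_lit 0) (nat_lit 0) (XT.lf (nat_lit 0) (nat_lit 56842904) (nat_lit 152) (nat_lit 7782358418) (nat_lit 76) (nat_lit 22443828345) (nat_lit 9) (nat_lit 5) (nat_lit 11) (nat_lit 5) (nat_lit 10) (nat_lit 4) (nat_lit 325) (nat_lit 242) (nat_lit 213)) (XT.lf (nat_lit 0) (nat_lit 3842332962) (nat_lit 152) (nat_lit 142810178) (nat_lit 76) (nat_lit 27596449509) (nat_lit 9) (nat_lit 5) (nat_lit 11) (nat_lit 5) (nat_lit 10) (nat_lit 4) (nat_lit 326) (nat_lit 242) (nat_lit 212))) (XT.nd (nat_lit 78) (nat_lit 0) (nat_lit 0) (XT.lf (nat_lit 0) (nat_lit 7878624406) (nat_lit 152) (nat_lit 24931974978) (nat_lit 0) (nat_lit 131432778) (nat_lit 8) (nat_lit 5) (nat_lit 10) (nat_lit 4) (nat_lit 8) (nat_lit 4) (nat_lit 327) (nat_lit 242) (nat_lit 211)) (XT.nd (nat_lit 78) (nat_lit 0) (nat_lit 0) (XT.lf (nat_lit 0) (nat_lit 12119190830) (nat_lit 152) (nat_lit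 17983474855) (nat_lit 0) (nat_lit 4267728493) (nat_lit 8) (nat_lit 5) (nat_lit 10) (nat_lit 4) (nat_lit 8) (nat_lit 4) (nat_lit 328) (nat_lit 242) (nat_lit 210)) (XT.lf (nat_lit 0) (nat_lit 16509568418) (nat_lit 152) (nat_lit 10804938518) (nat_lit 0) (nat_lit 8558800644) (nat_lit 8) (nat_lit 5) (nat_lit 10) (nat_lit 4) (nat_lit 8) (nat_lit 4) (nat_lit 329) (nat_lit 242) (nat_lit 209))))) (XT.nd (nat_lit 156) (nat_lit 0) (nat_lit 0) (XT.nd (nat_lit 78) (nat_lit 76) (nat_lit 0) (XT.lf (nat_lit 0) (nat_lit 21060210449) (nat_lit 152) (nat_lit 3379274213) (nat_lit 0) (nat_lit 13014866069) (nat_lit 8) (nat_lit 5) (nat_lit 10) (nat_lit 4) (nat_lit 8) (nat_lit 4) (nat_lit 330) (nat_lit 242) (nat_lit 208)) (XT.lf (nat_lit 0) (nat_lit 4453745893) (nat_lit 76) (nat_lit 21397741348) (nat_lit 76) (nat_lit 13262324009) (nat_lit 7) (nat_lit 4) (nat_lit 8) (nat_lit 5) (nat_lit 8) (nat_lit 4) (nat_lit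 331) (nat_lit 242) (nat_lit 207))) (XT.nd (nat_lit 78) (nat_lit 0) (nat_lit 0) (XT.lf (nat_lit 0) (nat_lit 12690980022) (nat_lit 76) (nat_lit 18193196414) (nat_lit 76) (nat_lit 9971995304) (nat_lit 7) (nat_lit 4) (nat_lit 8) (nat_lit 5) (nat_lit 8) (nat_lit 4) (nat_lit 332) (nat_lit 242) (nat_lit 206)) (XT.nd (nat_lit 78) (nat_lit 0) (nat_lit 0) (XT.lf (nat_lit 0) (nat_lit 21240306566) (nat_lit 76) (nat_lit 14875449635) (nat_lit 76) (nat_lit 6572549696) (nat_lit 7) (nat_lit 4) (nat_lit 8) (nat_lit 5) (nat_lit 8) (nat_lit 4) (nat_lit 333) (nat_lit 242) (nat_lit 205)) (XT.lf (nat_lit 0) (nat_lit 30122081067) (nat_lit 76) (nat_lit 11436601615) (nat_lit 76) (nat_lit 3055893268) (nat_lit 7) (nat_lit 4) (nat_lit 8) (nat_lit 5) (nat_lit 8) (nat_lit 4) (nat_lit 334) (nat_lit 242) (nat_lit 204)))))) (XT.nd (nat_lit 390) (nat_lit 76) (nat_lit 0) (XT.nd (nat_lit 156) (nat_lit 0) (nat_lit 0) (XT.nd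 (nat_lit 78) (nat_lit 76) (nat_lit 0) (XT.lf (nat_lit 0) (nat_lit 567580207) (nat_lit 152) (nat_lit 7291272167) (nat_lit 76) (nat_lit 38780258152) (nat_lit 6) (nat_lit 5) (nat_lit 8) (nat_lit 5) (nat_lit 7) (nat_lit 4) (nat_lit 335) (nat_lit 242) (nat_lit 203)) (XT.lf (nat_lit 0) (nat_lit 136554323) (nat_lit 76) (nat_lit 4088782475) (nat_lit 152) (nat_lit 44539255008) (nat_lit 5) (nat_lit 5) (nat_lit 6) (nat_lit 5) (nat_lit 7) (nat_lit 4) (nat_lit 336) (nat_lit 242) (nat_lit 202))) (XT.nd (nat_lit 78) (nat_lit 0) (nat_lit 0) (XT.lf (nat_lit 0) (nat_lit 8102592326) (nat_lit 76) (nat_lit 41403902) (nat_lit 152) (nat_lit 42848464627) (nat_lit 5) (nat_lit 5) (nat_lit 6) (nat_lit 5) (nat_lit 7) (nat_lit 4) (nat_lit 337) (nat_lit 242) (nat_lit 201)) (XT.nd (nat_lit 78) (nat_lit 0) (nat_lit 0) (XT.lf (nat_lit 0) (nat_lit 12280384099) (nat_lit 152) (nat_lit 37014272596) (nat_lit 0) (nat_lit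 4035990657) (nat_lit 5) (nat_lit 5) (nat_lit 7) (nat_lit 4) (nat_lit 5) (nat_lit 4) (nat_lit 338) (nat_lit 242) (nat_lit 200)) (XT.lf (nat_lit 0) (nat_lit 16582452430) (nat_lit 152) (nat_lit 30925363646) (nat_lit 0) (nat_lit 8279997156) (nat_lit 5) (nat_lit 5) (nat_lit 7) (nat_lit 4) (nat_lit 5) (nat_lit 4) (nat_lit 339) (nat_lit 242) (nat_lit 199))))) (XT.nd (nat_lit 234) (nat_lit 76) (nat_lit 0) (XT.nd (nat_lit 78) (nat_lit 0) (nat_lit 0) (XT.lf (nat_lit 0) (nat_lit 21059797811) (nat_lit 152) (nat_lit 24607997848) (nat_lit 0) (nat_lit 12702045554) (nat_lit 5) (nat_lit 5) (nat_lit 7) (nat_lit 4) (nat_lit 5) (nat_lit 4) (nat_lit 340) (nat_lit 242) (nat_lit 198)) (XT.nd (nat_lit 78) (nat_lit 0) (nat_lit 0) (XT.lf (nat_lit 0) (nat_lit 25723080589) (nat_lit 152) (nat_lit 18047133853) (nat_lit 0) (nat_lit 17312664538) (nat_lit 5) (nat_lit 5) (nat_lit 7) (nat_lit 4) (nat_lit 5) (nat_lit 4)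 (nat_lit 341) (nat_lit 242) (nat_lit 197)) (XT.lf (nat_lit 0) (nat_lit 30583403817) (nat_lit 152) (nat_lit 11227150557) (nat_lit 0) (nat_lit 22122831772) (nat_lit 5) (nat_lit 5) (nat_lit 7) (nat_lit 4) (nat_lit 5) (nat_lit 4) (nat_lit 342) (nat_lit 242) (nat_lit 196)))) (XT.nd (nat_lit 78) (nat_lit 76) (nat_lit 0) (XT.lf (nat_lit 0) (nat_lit 35652339694) (nat_lit 152) (nat_lit 4131809905) (nat_lit 0) (nat_lit 27144000036) (nat_lit 5) (nat_lit 5) (nat_lit 7) (nat_lit 4) (nat_lit 5) (nat_lit 4) (nat_lit 343) (nat_lit 242) (nat_lit 195)) (XT.nd (nat_lit 78) (nat_lit 0) (nat_lit 0) (XT.lf (nat_lit 0) (nat_lit 3363432620) (nat_lit 76) (nat_lit 37631037103) (nat_lit 76) (nat_lit 29077204480) (nat_lit 4) (nat_lit 4) (nat_lit 5) (nat_lit 5) (nat_lit 5) (nat_lit 4) (nat_lit 344) (nat_lit 242) (nat_lit 194)) (XT.lf (nat_lit 0) (nat_lit 11315376697) (nat_lit 76) (nat_lit 35326138450) (nat_lit 76)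 (nat_lit 26728979193) (nat_lit 4) (nat_lit 4) (nat_lit 5) (nat_lit 5) (nat_lit 5) (nat_lit 4) (nat_lit 345) (nat_lit 242) (nat_lit 193))))))))
noncomputable def xc58 : XT := (XT.nd (nat_lit 1560) (nat_lit 0) (nat_lit 0) (XT.nd (nat_lit 780) (nat_lit 76) (nat_lit 0) (XT.nd (nat_lit 390) (nat_lit 76) (nat_lit 0) (XT.nd (nat_lit 156) (nat_lit 0) (nat_lit 0) (XT.nd (nat_lit 78) (nat_lit 0) (nat_lit 0) (XT.lf (nat_lit 0) (nat_lit 19606339229) (nat_lit 76) (nat_lit 32933939985) (nat_lit 76) (nat_lit 24295517269) (nat_lit 4) (nat_lit 4) (nat_lit 5) (nat_lit 5) (nat_lit 5) (nat_lit 4) (nat_lit 346) (nat_lit 242) (nat_lit 192)) (XT.lf (nat_lit 0) (nat_lit 28256060605) (nat_lit 76) (nat_lit 30448745999) (nat_lit 76) (nat_lit 21771024749) (nat_lit 4) (nat_lit 4) (nat_lit 5) (nat_lit 5) (nat_lit 5) (nat_lit 4) (nat_lit 347) (nat_lit 242) (nat_lit 191))) (XT.nd (nat_lit 78) (nat_lit 0) (nat_lit 0)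 (XT.lf (nat_lit 0) (nat_lit 37285135398) (nat_lit 76) (nat_lit 27864639363) (nat_lit 76) (nat_lit 19149490938) (nat_lit 4) (nat_lit 4) (nat_lit 5) (nat_lit 5) (nat_lit 5) (nat_lit 4) (nat_lit 348) (nat_lit 242) (nat_lit 190)) (XT.nd (nat_lit 78) (nat_lit 0) (nat_lit 0) (XT.lf (nat_lit 0) (nat_lit 46715061407) (nat_lit 76) (nat_lit 25175467442) (nat_lit 76) (nat_lit 16424674088) (nat_lit 4) (nat_lit 4) (nat_lit 5) (nat_lit 5) (nat_lit 5) (nat_lit 4) (nat_lit 349) (nat_lit 242) (nat_lit 189)) (XT.lf (nat_lit 0) (nat_lit 56568290834) (nat_lit 76) (nat_lit 22374827445) (nat_lit 76) (nat_lit 13590086541) (nat_lit 4) (nat_lit 4) (nat_lit 5) (nat_lit 5) (nat_lit 5) (nat_lit 4) (nat_lit 350) (nat_lit 242) (nat_lit 188))))) (XT.nd (nat_lit 156) (nat_lit 76) (nat_lit 0) (XT.nd (nat_lit 78) (nat_lit 0) (nat_lit 0) (XT.lf (nat_lit 0) (nat_lit 66868283752) (nat_lit 76) (nat_lit 19456051183) (nat_lit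 76) (nat_lit 10638979278) (nat_lit 4) (nat_lit 4) (nat_lit 5) (nat_lit 5) (nat_lit 5) (nat_lit 4) (nat_lit 351) (nat_lit 242) (nat_lit 187)) (XT.lf (nat_lit 0) (nat_lit 77639563951) (nat_lit 76) (nat_lit 16412189188) (nat_lit 76) (nat_lit 7564325853) (nat_lit 4) (nat_lit 4) (nat_lit 5) (nat_lit 5) (nat_lit 5) (nat_lit 4) (nat_lit 352) (nat_lit 242) (nat_lit 186))) (XT.nd (nat_lit 78) (nat_lit 76) (nat_lit 0) (XT.lf (nat_lit 0) (nat_lit 88907777338) (nat_lit 76) (nat_lit 13235994168) (nat_lit 76) (nat_lit 4358805663) (nat_lit 4) (nat_lit 4) (nat_lit 5) (nat_lit 5) (nat_lit 5) (nat_lit 4) (nat_lit 353) (nat_lit 242) (nat_lit 185)) (XT.nd (nat_lit 78) (nat_lit 76) (nat_lit 0) (XT.lf (nat_lit 0) (nat_lit 100699752992) (nat_lit 76) (nat_lit 9919903757) (nat_lit 76) (nat_lit 1014786517) (nat_lit 4) (nat_lit 4) (nat_lit 5) (nat_lit 5) (nat_lit 5) (nat_lit 4) (nat_lit 354) (nat_lit 242) (nat_lit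 184)) (XT.lf (nat_lit 0) (nat_lit 2396455880) (nat_lit 152) (nat_lit 4018981478) (nat_lit 76) (nat_lit 110606526025) (nat_lit 3) (nat_lit 5) (nat_lit 5) (nat_lit 5) (nat_lit 4) (nat_lit 4) (nat_lit 355) (nat_lit 242) (nat_lit 183)))))) (XT.nd (nat_lit 390) (nat_lit 0) (nat_lit 0) (XT.nd (nat_lit 156) (nat_lit 0) (nat_lit 0) (XT.nd (nat_lit 78) (nat_lit 0) (nat_lit 0) (XT.lf (nat_lit 0) (nat_lit 3294728893) (nat_lit 76) (nat_lit 2681747747) (nat_lit 152) (nat_lit 116699940539) (nat_lit 2) (nat_lit 5) (nat_lit 3) (nat_lit 5) (nat_lit 4) (nat_lit 4) (nat_lit 356) (nat_lit 242) (nat_lit 182)) (XT.lf (nat_lit 0) (nat_lit 9804974975) (nat_lit 152) (nat_lit 117553674225) (nat_lit 0) (nat_lit 1251475823) (nat_lit 2) (nat_lit 5) (nat_lit 4) (nat_lit 4) (nat_lit 2) (nat_lit 4) (nat_lit 357) (nat_lit 242) (nat_lit 181))) (XT.nd (nat_lit 78) (nat_lit 0) (nat_lit 0) (XT.lf (nat_lit 0) (nat_lit 13850726944)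 (nat_lit 152) (nat_lit 115713159927) (nat_lit 0) (nat_lit 5275344897) (nat_lit 2) (nat_lit 5) (nat_lit 4) (nat_lit 4) (nat_lit 2) (nat_lit 4) (nat_lit 358) (nat_lit 242) (nat_lit 180)) (XT.nd (nat_lit 78) (nat_lit 0) (nat_lit 0) (XT.lf (nat_lit 0) (nat_lit 18081495689) (nat_lit 152) (nat_lit 113813893616) (nat_lit 0) (nat_lit 9485272791) (nat_lit 2) (nat_lit 5) (nat_lit 4) (nat_lit 4) (nat_lit 2) (nat_lit 4) (nat_lit 359) (nat_lit 242) (nat_lit 179)) (XT.lf (nat_lit 0) (nat_lit 22507354472) (nat_lit 152) (nat_lit 111851353230) (nat_lit 0) (nat_lit 13891283144) (nat_lit 2) (nat_lit 5) (nat_lit 4) (nat_lit 4) (nat_lit 2) (nat_lit 4) (nat_lit 360) (nat_lit 242) (nat_lit 178))))) (XT.nd (nat_lit 156) (nat_lit 0) (nat_lit 0) (XT.nd (nat_lit 78) (nat_lit 0) (nat_lit 0) (XT.lf (nat_lit 0) (nat_lit 27138841049) (nat_lit 152) (nat_lit 109820866053) (nat_lit 0) (nat_lit 18503866455) (nat_lit 2)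 (nat_lit 5) (nat_lit 4) (nat_lit 4) (nat_lit 2) (nat_lit 4) (nat_lit 361) (nat_lit 242) (nat_lit 177)) (XT.lf (nat_lit 0) (nat_lit 31986982771) (nat_lit 152) (nat_lit 107717597592) (nat_lit 0) (nat_lit 23334005065) (nat_lit 2) (nat_lit 5) (nat_lit 4) (nat_lit 4) (nat_lit 2) (nat_lit 4) (nat_lit 362) (nat_lit 242) (nat_lit 176))) (XT.nd (nat_lit 78) (nat_lit 0) (nat_lit 0) (XT.lf (nat_lit 0) (nat_lit 37063322832) (nat_lit 152) (nat_lit 105536540066) (nat_lit 0) (nat_lit 28393199306) (nat_lit 2) (nat_lit 5) (nat_lit 4) (nat_lit 4) (nat_lit 2) (nat_lit 4) (nat_lit 363) (nat_lit 242) (nat_lit 175)) (XT.nd (nat_lit 78) (nat_lit 0) (nat_lit 0) (XT.lf (nat_lit 0) (nat_lit 42379947756) (nat_lit 152) (nat_lit 103272500479) (nat_lit 0) (nat_lit 33693494878) (nat_lit 2) (nat_lit 5) (nat_lit 4) (nat_lit 4) (nat_lit 2) (nat_lit 4) (nat_lit 364) (nat_lit 242) (nat_lit 174)) (XT.lf (nat_lit 0) (nat_lit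 47949516174) (nat_lit 152) (nat_lit 100920088262) (nat_lit 0) (nat_lit 39247511531) (nat_lit 2) (nat_lit 5) (nat_lit 4) (nat_lit 4) (nat_lit 2) (nat_lit 4) (nat_lit 365) (nat_lit 242) (nat_lit 173))))))) (XT.nd (nat_lit 780) (nat_lit 0) (nat_lit 0) (XT.nd (nat_lit 390) (nat_lit 0) (nat_lit 0) (XT.nd (nat_lit 156) (nat_lit 0) (nat_lit 0) (XT.nd (nat_lit 78) (nat_lit 0) (nat_lit 0) (XT.lf (nat_lit 0) (nat_lit 53785288962) (nat_lit 152) (nat_lit 98473702433) (nat_lit 0) (nat_lit 45068473116) (nat_lit 2) (nat_lit 5) (nat_lit 4) (nat_lit 4) (nat_lit 2) (nat_lit 4) (nat_lit 366) (nat_lit 242) (nat_lit 172)) (XT.lf (nat_lit 0) (nat_lit 59901160819) (nat_lit 152) (nat_lit 95927518264) (nat_lit 0) (nat_lit 51170239064) (nat_lit 2) (nat_lit 5) (nat_lit 4) (nat_lit 4) (nat_lit 2) (nat_lit 4) (nat_lit 367) (nat_lit 242) (nat_lit 171))) (XT.nd (nat_lit 78) (nat_lit 0) (nat_lit 0) (XT.lf (nat_lit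 0) (nat_lit 66311693343) (nat_lit 152) (nat_lit 93275473411) (nat_lit 0) (nat_lit 57567337389) (nat_lit 2) (nat_lit 5) (nat_lit 4) (nat_lit 4) (nat_lit 2) (nat_lit 4) (nat_lit 368) (nat_lit 242) (nat_lit 170)) (XT.nd (nat_lit 78) (nat_lit 0) (nat_lit 0) (XT.lf (nat_lit 0) (nat_lit 73032149708) (nat_lit 152) (nat_lit 90511253483) (nat_lit 0) (nat_lit 64274999279) (nat_lit 2) (nat_lit 5) (nat_lit 4) (nat_lit 4) (nat_lit 2) (nat_lit 4) (nat_lit 369) (nat_lit 242) (nat_lit 169)) (XT.lf (nat_lit 0) (nat_lit 80078530999) (nat_lit 152) (nat_lit 87628277003) (nat_lit 0) (nat_lit 71309195356) (nat_lit 2) (nat_lit 5) (nat_lit 4) (nat_lit 4) (nat_lit 2) (nat_lit 4) (nat_lit 370) (nat_lit 242) (nat_lit 168))))) (XT.nd (nat_lit 156) (nat_lit 0) (nat_lit 0) (XT.nd (nat_lit 78) (nat_lit 0) (nat_lit 0) (XT.lf (nat_lit 0) (nat_lit 87467614316) (nat_lit 152) (nat_lit 84619679741) (nat_lit 0) (nat_lit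 78686673707) (nat_lit 2) (nat_lit 5) (nat_lit 4) (nat_lit 4) (nat_lit 2) (nat_lit 4) (nat_lit 371) (nat_lit 242) (nat_lit 167)) (XT.lf (nat_lit 0) (nat_lit 95216992714) (nat_lit 152) (nat_lit 81478298371) (nat_lit 0) (nat_lit 86424999756) (nat_lit 2) (nat_lit 5) (nat_lit 4) (nat_lit 4) (nat_lit 2) (nat_lit 4) (nat_lit 372) (nat_lit 242) (nat_lit 166))) (XT.nd (nat_lit 78) (nat_lit 0) (nat_lit 0) (XT.lf (nat_lit 0) (nat_lit 103345117093) (nat_lit 152) (nat_lit 78196653413) (nat_lit 0) (nat_lit 94542598090) (nat_lit 2) (nat_lit 5) (nat_lit 4) (nat_lit 4) (nat_lit 2) (nat_lit 4) (nat_lit 373) (nat_lit 242) (nat_lit 165)) (XT.nd (nat_lit 78) (nat_lit 0) (nat_lit 0) (XT.lf (nat_lit 0) (nat_lit 111871340131) (nat_lit 152) (nat_lit 74766931427) (nat_lit 0) (nat_lit 103058796322) (nat_lit 2) (nat_lit 5) (nat_lit 4) (nat_lit 4) (nat_lit 2) (nat_lit 4) (nat_lit 374) (nat_lit 242) (nat_lit 164))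 (XT.lf (nat_lit 0) (nat_lit 120815962359) (nat_lit 152) (nat_lit 71180966408) (nat_lit 0) (nat_lit 111993871116) (nat_lit 2) (nat_lit 5) (nat_lit 4) (nat_lit 4) (nat_lit 2) (nat_lit 4) (nat_lit 375) (nat_lit 242) (nat_lit 163)))))) (XT.nd (nat_lit 390) (nat_lit 0) (nat_lit 0) (XT.nd (nat_lit 156) (nat_lit 0) (nat_lit 0) (XT.nd (nat_lit 78) (nat_lit 0) (nat_lit 0) (XT.lf (nat_lit 0) (nat_lit 130200280496) (nat_lit 152) (nat_lit 67430220343) (nat_lit 0) (nat_lit 121369096459) (nat_lit 2) (nat_lit 5) (nat_lit 4) (nat_lit 4) (nat_lit 2) (nat_lit 4) (nat_lit 376) (nat_lit 242) (nat_lit 162)) (XT.lf (nat_lit 0) (nat_lit 140046638158) (nat_lit 152) (nat_lit 63505762887) (nat_lit 0) (nat_lit 131206794316) (nat_lit 2) (nat_lit 5) (nat_lit 4) (nat_lit 4) (nat_lit 2) (nat_lit 4) (nat_lit 377) (nat_lit 242) (nat_lit 161))) (XT.nd (nat_lit 78) (nat_lit 0) (nat_lit 0) (XT.lf (nat_lit 0) (nat_lit 150378479052)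 (nat_lit 152) (nat_lit 59398250091) (nat_lit 0) (nat_lit 141530387777) (nat_lit 2) (nat_lit 5) (nat_lit 4) (nat_lit 4) (nat_lit 2) (nat_lit 4) (nat_lit 378) (nat_lit 242) (nat_lit 160)) (XT.nd (nat_lit 78) (nat_lit 0) (nat_lit 0) (XT.lf (nat_lit 0) (nat_lit 161220402800) (nat_lit 152) (nat_lit 55097902163) (nat_lit 0) (nat_lit 152364456828) (nat_lit 2) (nat_lit 5) (nat_lit 4) (nat_lit 4) (nat_lit 2) (nat_lit 4) (nat_lit 379) (nat_lit 242) (nat_lit 159)) (XT.lf (nat_lit 0) (nat_lit 172598223507) (nat_lit 152) (nat_lit 50594480181) (nat_lit 0) (nat_lit 163734796870) (nat_lit 2) (nat_lit 5) (nat_lit 4) (nat_lit 4) (nat_lit 2) (nat_lit 4) (nat_lit 380) (nat_lit 242) (nat_lit 158))))) (XT.nd (nat_lit 234) (nat_lit 0) (nat_lit 0) (XT.nd (nat_lit 78) (nat_lit 0) (nat_lit 0) (XT.lf (nat_lit 0) (nat_lit 184539031220) (nat_lit 152) (nat_lit 45877261711) (nat_lit 0) (nat_lit 175668480141) (nat_lit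 2) (nat_lit 5) (nat_lit 4) (nat_lit 4) (nat_lit 2) (nat_lit 4) (nat_lit 381) (nat_lit 242) (nat_lit 157)) (XT.nd (nat_lit 78) (nat_lit 0) (nat_lit 0) (XT.lf (nat_lit 0) (nat_lit 197071256436) (nat_lit 152) (nat_lit 40935015279) (nat_lit 0) (nat_lit 188193920173) (nat_lit 2) (nat_lit 5) (nat_lit 4) (nat_lit 4) (nat_lit 2) (nat_lit 4) (nat_lit 382) (nat_lit 242) (nat_lit 156)) (XT.lf (nat_lit 0) (nat_lit 210224737785) (nat_lit 152) (nat_lit 35755973634) (nat_lit 0) (nat_lit 201340939443) (nat_lit 2) (nat_lit 5) (nat_lit 4) (nat_lit 4) (nat_lit 2) (nat_lit 4) (nat_lit 383) (nat_lit 242) (nat_lit 155)))) (XT.nd (nat_lit 78) (nat_lit 0) (nat_lit 0) (XT.lf (nat_lit 0) (nat_lit 224030793080) (nat_lit 152) (nat_lit 30327805722) (nat_lit 0) (nat_lit 215140840377) (nat_lit 2) (nat_lit 5) (nat_lit 4) (nat_lit 4) (nat_lit 2) (nat_lit 4) (nat_lit 384) (nat_lit 242) (nat_lit 154)) (XT.nd (nat_lit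 78) (nat_lit 0) (nat_lit 0) (XT.lf (nat_lit 0) (nat_lit 238522293882) (nat_lit 152) (nat_lit 24637587336) (nat_lit 0) (nat_lit 229626479883) (nat_lit 2) (nat_lit 5) (nat_lit 4) (nat_lit 4) (nat_lit 2) (nat_lit 4) (nat_lit 385) (nat_lit 242) (nat_lit 153)) (XT.lf (nat_lit 0) (nat_lit 253733743763) (nat_lit 152) (nat_lit 18671770335) (nat_lit 0) (nat_lit 244832347577) (nat_lit 2) (nat_lit 5) (nat_lit 4) (nat_lit 4) (nat_lit 2) (nat_lit 4) (nat_lit 386) (nat_lit 242) (nat_lit 152))))))))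
noncomputable def xc59 : XT := (XT.nd (nat_lit 34632) (nat_lit 0) (nat_lit 532) (XT.nd (nat_lit 33774) (nat_lit 0) (nat_lit 1292) (XT.nd (nat_lit 33384) (nat_lit 0) (nat_lit 2356) (XT.nd (nat_lit 156) (nat_lit 76) (nat_lit 0) (XT.nd (nat_lit 78) (nat_lit 0) (nat_lit 0) (XT.lf (nat_lit 0) (nat_lit 269701360462) (nat_lit 152) (nat_lit 12416150394) (nat_lit 0) (nat_lit 260794647907) (nat_lit 2) (nat_lit 5) (nat_lit 4) (nat_lit 4) (nat_lit 2) (nat_lit 4) (nat_lit 387) (nat_lit 242) (nat_lit 151)) (XT.lf (nat_lit 0) (nat_lit 286463162114) (nat_lit 152) (nat_lit 5855833179) (nat_lit 0) (nat_lit 277551386351) (nat_lit 2) (nat_lit 5) (nat_lit 4) (nat_lit 4) (nat_lit 2) (nat_lit 4) (nat_lit 388) (nat_lit 242) (nat_lit 150))) (XT.nd (nat_lit 78) (nat_lit 0) (nat_lit 0) (XT.lf (nat_lit 0) (nat_lit 1058685664) (nat_lit 76) (nat_lit 303016901156) (nat_lit 76) (nat_lit 294100303289) (nat_lit 1) (nat_lit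 4) (nat_lit 2) (nat_lit 5) (nat_lit 2) (nat_lit 4) (nat_lit 389) (nat_lit 242) (nat_lit 149)) (XT.nd (nat_lit 78) (nat_lit 0) (nat_lit 0) (XT.lf (nat_lit 0) (nat_lit 8514657144) (nat_lit 76) (nat_lit 314149222934) (nat_lit 76) (nat_lit 305228032589) (nat_lit 1) (nat_lit 4) (nat_lit 2) (nat_lit 5) (nat_lit 2) (nat_lit 4) (nat_lit 390) (nat_lit 242) (nat_lit 148)) (XT.lf (nat_lit 0) (nat_lit 16336213285) (nat_lit 76) (nat_lit 325841637526) (nat_lit 76) (nat_lit 316916073391) (nat_lit 1) (nat_lit 4) (nat_lit 2) (nat_lit 5) (nat_lit 2) (nat_lit 4) (nat_lit 391) (nat_lit 242) (nat_lit 147))))) (XT.nd (nat_lit 156) (nat_lit 380) (nat_lit 0) (XT.nd (nat_lit 78) (nat_lit 152) (nat_lit 0) (XT.lf (nat_lit 0) (nat_lit 1479496891) (nat_lit 228) (nat_lit 2231176030) (nat_lit 0) (nat_lit 1479496891) (nat_lit 39) (nat_lit 5) (nat_lit 42) (nat_lit 4) (nat_lit 39) (nat_lit 4) (nat_lit 294) (nat_lit 243)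 (nat_lit 243)) (XT.lf (nat_lit 0) (nat_lit 2987362953) (nat_lit 152) (nat_lit 4199261045) (nat_lit 152) (nat_lit 3465196429) (nat_lit 37) (nat_lit 4) (nat_lit 39) (nat_lit 5) (nat_lit 39) (nat_lit 4) (nat_lit 295) (nat_lit 243) (nat_lit 242))) (XT.nd (nat_lit 78) (nat_lit 304) (nat_lit 0) (XT.lf (nat_lit 0) (nat_lit 585710548) (nat_lit 228) (nat_lit 232467148) (nat_lit 76) (nat_lit 10122360528) (nat_lit 36) (nat_lit 5) (nat_lit 39) (nat_lit 5) (nat_lit 37) (nat_lit 4) (nat_lit 296) (nat_lit 243) (nat_lit 241)) (XT.nd (nat_lit 78) (nat_lit 152) (nat_lit 0) (XT.lf (nat_lit 0) (nat_lit 4733847928) (nat_lit 228) (nat_lit 3771782033) (nat_lit 0) (nat_lit 2734807911) (nat_lit 34) (nat_lit 5) (nat_lit 37) (nat_lit 4) (nat_lit 34) (nat_lit 4) (nat_lit 297) (nat_lit 243) (nat_lit 240)) (XT.lf (nat_lit 0) (nat_lit 3876269861) (nat_lit 152) (nat_lit 5142835091) (nat_lit 152) (nat_lit 2539878298)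 (nat_lit 32) (nat_lit 4) (nat_lit 34) (nat_lit 5) (nat_lit 34) (nat_lit 4) (nat_lit 298) (nat_lit 243) (nat_lit 239)))))) (XT.nd (nat_lit 390) (nat_lit 532) (nat_lit 0) (XT.nd (nat_lit 156) (nat_lit 304) (nat_lit 0) (XT.nd (nat_lit 78) (nat_lit 152) (nat_lit 0) (XT.lf (nat_lit 0) (nat_lit 1490695191) (nat_lit 228) (nat_lit 122190484) (nat_lit 76) (nat_lit 10283548163) (nat_lit 31) (nat_lit 5) (nat_lit 34) (nat_lit 5) (nat_lit 32) (nat_lit 4) (nat_lit 299) (nat_lit 243) (nat_lit 238)) (XT.lf (nat_lit 0) (nat_lit 5652678908) (nat_lit 228) (nat_lit 4491135987) (nat_lit 0) (nat_lit 2104216103) (nat_lit 29) (nat_lit 5) (nat_lit 32) (nat_lit 4) (nat_lit 29) (nat_lit 4) (nat_lit 300) (nat_lit 243) (nat_lit 237))) (XT.nd (nat_lit 78) (nat_lit 152) (nat_lit 0) (XT.lf (nat_lit 0) (nat_lit 3261564564) (nat_lit 152) (nat_lit 6702010805) (nat_lit 152) (nat_lit 2656704174) (nat_lit 27) (nat_lit 4)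 (nat_lit 29) (nat_lit 5) (nat_lit 29) (nat_lit 4) (nat_lit 301) (nat_lit 243) (nat_lit 236)) (XT.nd (nat_lit 78) (nat_lit 76) (nat_lit 0) (XT.lf (nat_lit 0) (nat_lit 1370886584) (nat_lit 228) (nat_lit 1708173729) (nat_lit 76) (nat_lit 9934060320) (nat_lit 26) (nat_lit 5) (nat_lit 29) (nat_lit 5) (nat_lit 27) (nat_lit 4) (nat_lit 302) (nat_lit 243) (nat_lit 235)) (XT.lf (nat_lit 0) (nat_lit 5489096572) (nat_lit 152) (nat_lit 7178921169) (nat_lit 0) (nat_lit 756579217) (nat_lit 25) (nat_lit 5) (nat_lit 27) (nat_lit 4) (nat_lit 25) (nat_lit 4) (nat_lit 303) (nat_lit 243) (nat_lit 234))))) (XT.nd (nat_lit 234) (nat_lit 228) (nat_lit 0) (XT.nd (nat_lit 78) (nat_lit 152) (nat_lit 0) (XT.lf (nat_lit 0) (nat_lit 543088339) (nat_lit 152) (nat_lit 9228502199) (nat_lit 152) (nat_lit 4087230198) (nat_lit 23) (nat_lit 4) (nat_lit 25) (nat_lit 5) (nat_lit 25) (nat_lit 4) (nat_lit 304) (nat_lit 243)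 (nat_lit 233)) (XT.nd (nat_lit 78) (nat_lit 152) (nat_lit 0) (XT.lf (nat_lit 0) (nat_lit 8679393579) (nat_lit 152) (nat_lit 5583147786) (nat_lit 152) (nat_lit 52585647) (nat_lit 23) (nat_lit 4) (nat_lit 25) (nat_lit 5) (nat_lit 25) (nat_lit 4) (nat_lit 305) (nat_lit 243) (nat_lit 232)) (XT.lf (nat_lit 0) (nat_lit 2219306409) (nat_lit 76) (nat_lit 1741972157) (nat_lit 152) (nat_lit 10834213998) (nat_lit 21) (nat_lit 5) (nat_lit 22) (nat_lit 5) (nat_lit 23) (nat_lit 4) (nat_lit 306) (nat_lit 243) (nat_lit 231)))) (XT.nd (nat_lit 78) (nat_lit 228) (nat_lit 0) (XT.lf (nat_lit 0) (nat_lit 8184753992) (nat_lit 152) (nat_lit 4886450116) (nat_lit 0) (nat_lit 2228170865) (nat_lit 21) (nat_lit 5) (nat_lit 23) (nat_lit 4) (nat_lit 21) (nat_lit 4) (nat_lit 307) (nat_lit 243) (nat_lit 230)) (XT.nd (nat_lit 78) (nat_lit 76) (nat_lit 0) (XT.lf (nat_lit 0) (nat_lit 3051251712) (nat_lit 152) (nat_lit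 9528064770) (nat_lit 152) (nat_lit 3251211684) (nat_lit 19) (nat_lit 4) (nat_lit 21) (nat_lit 5) (nat_lit 21) (nat_lit 4) (nat_lit 308) (nat_lit 243) (nat_lit 229)) (XT.lf (nat_lit 0) (nat_lit 747864804) (nat_lit 228) (nat_lit 5048749247) (nat_lit 76) (nat_lit 10592648193) (nat_lit 18) (nat_lit 5) (nat_lit 21) (nat_lit 5) (nat_lit 19) (nat_lit 4) (nat_lit 309) (nat_lit 243) (nat_lit 228))))))) (XT.nd (nat_lit 780) (nat_lit 304) (nat_lit 0) (XT.nd (nat_lit 390) (nat_lit 228) (nat_lit 0) (XT.nd (nat_lit 156) (nat_lit 152) (nat_lit 0) (XT.nd (nat_lit 78) (nat_lit 0) (nat_lit 0) (XT.lf (nat_lit 0) (nat_lit 2911818907) (nat_lit 76) (nat_lit 1860954409) (nat_lit 152) (nat_lit 12203800250) (nat_lit 17) (nat_lit 5) (nat_lit 18) (nat_lit 5) (nat_lit 19) (nat_lit 4) (nat_lit 310) (nat_lit 243) (nat_lit 227)) (XT.lf (nat_lit 0) (nat_lit 9011882455) (nat_lit 152) (nat_lit 6377495027) (nat_lit 0)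 (nat_lit 2203284717) (nat_lit 17) (nat_lit 5) (nat_lit 19) (nat_lit 4) (nat_lit 17) (nat_lit 4) (nat_lit 311) (nat_lit 243) (nat_lit 226))) (XT.nd (nat_lit 78) (nat_lit 76) (nat_lit 0) (XT.lf (nat_lit 0) (nat_lit 1524459623) (nat_lit 76) (nat_lit 11888592349) (nat_lit 76) (nat_lit 4829054717) (nat_lit 16) (nat_lit 4) (nat_lit 17) (nat_lit 5) (nat_lit 17) (nat_lit 4) (nat_lit 312) (nat_lit 243) (nat_lit 225)) (XT.nd (nat_lit 78) (nat_lit 76) (nat_lit 0) (XT.lf (nat_lit 0) (nat_lit 9858002985) (nat_lit 76) (nat_lit 8182154266) (nat_lit 76) (nat_lit 883626259) (nat_lit 16) (nat_lit 4) (nat_lit 17) (nat_lit 5) (nat_lit 17) (nat_lit 4) (nat_lit 313) (nat_lit 243) (nat_lit 224)) (XT.lf (nat_lit 0) (nat_lit 3055853233) (nat_lit 152) (nat_lit 1261638760) (nat_lit 76) (nat_lit 15324502455) (nat_lit 15) (nat_lit 5) (nat_lit 17) (nat_lit 5) (nat_lit 16) (nat_lit 4) (nat_lit 314) (nat_lit 243) (nat_lit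 223))))) (XT.nd (nat_lit 156) (nat_lit 152) (nat_lit 0) (XT.nd (nat_lit 78) (nat_lit 0) (nat_lit 0) (XT.lf (nat_lit 0) (nat_lit 6970431441) (nat_lit 76) (nat_lit 206807898) (nat_lit 152) (nat_lit 13217467521) (nat_lit 14) (nat_lit 5) (nat_lit 15) (nat_lit 5) (nat_lit 16) (nat_lit 4) (nat_lit 315) (nat_lit 243) (nat_lit 222)) (XT.lf (nat_lit 0) (nat_lit 11497048486) (nat_lit 152) (nat_lit 5762201850) (nat_lit 0) (nat_lit 3926231271) (nat_lit 14) (nat_lit 5) (nat_lit 16) (nat_lit 4) (nat_lit 14) (nat_lit 4) (nat_lit 316) (nat_lit 243) (nat_lit 221))) (XT.nd (nat_lit 78) (nat_lit 76) (nat_lit 0) (XT.lf (nat_lit 0) (nat_lit 2186114416) (nat_lit 76) (nat_lit 13795186379) (nat_lit 76) (nat_lit 6037113951) (nat_lit 13) (nat_lit 4) (nat_lit 14) (nat_lit 5) (nat_lit 14) (nat_lit 4) (nat_lit 317) (nat_lit 243) (nat_lit 220)) (XT.nd (nat_lit 78) (nat_lit 76) (nat_lit 0) (XT.lf (nat_lit 0) (nat_lit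 10571093261) (nat_lit 76) (nat_lit 10128919953) (nat_lit 76) (nat_lit 2192509227) (nat_lit 13) (nat_lit 4) (nat_lit 14) (nat_lit 5) (nat_lit 14) (nat_lit 4) (nat_lit 318) (nat_lit 243) (nat_lit 219)) (XT.lf (nat_lit 0) (nat_lit 1700715846) (nat_lit 152) (nat_lit 4619789237) (nat_lit 76) (nat_lit 17492656211) (nat_lit 12) (nat_lit 5) (nat_lit 14) (nat_lit 5) (nat_lit 13) (nat_lit 4) (nat_lit 319) (nat_lit 243) (nat_lit 218)))))) (XT.nd (nat_lit 390) (nat_lit 152) (nat_lit 0) (XT.nd (nat_lit 156) (nat_lit 76) (nat_lit 0) (XT.nd (nat_lit 78) (nat_lit 0) (nat_lit 0) (XT.lf (nat_lit 0) (nat_lit 3390970081) (nat_lit 76) (nat_lit 2296339625) (nat_lit 152) (nat_lit 19092140527) (nat_lit 11) (nat_lit 5) (nat_lit 12) (nat_lit 5) (nat_lit 13) (nat_lit 4) (nat_lit 320) (nat_lit 243) (nat_lit 217)) (XT.lf (nat_lit 0) (nat_lit 9902824922) (nat_lit 152) (nat_lit 14007976510) (nat_lit 0) (nat_lit 1881805737)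 (nat_lit 11) (nat_lit 5) (nat_lit 13) (nat_lit 4) (nat_lit 11) (nat_lit 4) (nat_lit 321) (nat_lit 243) (nat_lit 216))) (XT.nd (nat_lit 78) (nat_lit 76) (nat_lit 0) (XT.lf (nat_lit 0) (nat_lit 14290525641) (nat_lit 152) (nat_lit 6438083645) (nat_lit 0) (nat_lit 6129773734) (nat_lit 11) (nat_lit 5) (nat_lit 13) (nat_lit 4) (nat_lit 11) (nat_lit 4) (nat_lit 322) (nat_lit 243) (nat_lit 215)) (XT.nd (nat_lit 78) (nat_lit 0) (nat_lit 0) (XT.lf (nat_lit 0) (nat_lit 1420540457) (nat_lit 76) (nat_lit 17426644634) (nat_lit 76) (nat_lit 9132813944) (nat_lit 10) (nat_lit 4) (nat_lit 11) (nat_lit 5) (nat_lit 11) (nat_lit 4) (nat_lit 323) (nat_lit 243) (nat_lit 214)) (XT.lf (nat_lit 0) (nat_lit 9762563043) (nat_lit 76) (nat_lit 13906921728) (nat_lit 76) (nat_lit 5486349338) (nat_lit 10) (nat_lit 4) (nat_lit 11) (nat_lit 5) (nat_lit 11) (nat_lit 4) (nat_lit 324) (nat_lit 243) (nat_lit 213))))) (XT.nd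 (nat_lit 234) (nat_lit 0) (nat_lit 0) (XT.nd (nat_lit 78) (nat_lit 152) (nat_lit 0) (XT.lf (nat_lit 0) (nat_lit 18394973952) (nat_lit 76) (nat_lit 10270092336) (nat_lit 76) (nat_lit 1728813567) (nat_lit 10) (nat_lit 4) (nat_lit 11) (nat_lit 5) (nat_lit 11) (nat_lit 4) (nat_lit 325) (nat_lit 243) (nat_lit 212)) (XT.nd (nat_lit 78) (nat_lit 76) (nat_lit 0) (XT.lf (nat_lit 0) (nat_lit 2079966787) (nat_lit 152) (nat_lit 4392305310) (nat_lit 76) (nat_lit 25223134509) (nat_lit 9) (nat_lit 5) (nat_lit 11) (nat_lit 5) (nat_lit 10) (nat_lit 4) (nat_lit 326) (nat_lit 243) (nat_lit 211)) (XT.lf (nat_lit 0) (nat_lit 3563307922) (nat_lit 76) (nat_lit 2450852757) (nat_lit 152) (nat_lit 27046801806) (nat_lit 8) (nat_lit 5) (nat_lit 9) (nat_lit 5) (nat_lit 10) (nat_lit 4) (nat_lit 327) (nat_lit 243) (nat_lit 210)))) (XT.nd (nat_lit 78) (nat_lit 0) (nat_lit 0) (XT.lf (nat_lit 0) (nat_lit 10186112590)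 (nat_lit 152) (nat_lit 22568152585) (nat_lit 0) (nat_lit 1738500990) (nat_lit 8) (nat_lit 5) (nat_lit 10) (nat_lit 4) (nat_lit 8) (nat_lit 4) (nat_lit 328) (nat_lit 243) (nat_lit 209)) (XT.nd (nat_lit 78) (nat_lit 0) (nat_lit 0) (XT.lf (nat_lit 0) (nat_lit 14547585575) (nat_lit 152) (nat_lit 15444152272) (nat_lit 0) (nat_lit 6005397369) (nat_lit 8) (nat_lit 5) (nat_lit 10) (nat_lit 4) (nat_lit 8) (nat_lit 4) (nat_lit 329) (nat_lit 243) (nat_lit 208)) (XT.lf (nat_lit 0) (nat_lit 19070699414) (nat_lit 152) (nat_lit 8070427039) (nat_lit 0) (nat_lit 10438438248) (nat_lit 8) (nat_lit 5) (nat_lit 10) (nat_lit 4) (nat_lit 8) (nat_lit 4) (nat_lit 330) (nat_lit 243) (nat_lit 207))))))))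
noncomputable def xc60 : XT := (XT.nd (nat_lit 1560) (nat_lit 152) (nat_lit 0) (XT.nd (nat_lit 780) (nat_lit 76) (nat_lit 0) (XT.nd (nat_lit 390) (nat_lit 152) (nat_lit 0) (XT.nd (nat_lit 156) (nat_lit 0) (nat_lit 0) (XT.nd (nat_lit 78) (nat_lit 76) (nat_lit 0) (XT.lf (nat_lit 0) (nat_lit 23766223424) (nat_lit 152) (nat_lit 429420396) (nat_lit 0) (nat_lit 15048178488) (nat_lit 8) (nat_lit 5) (nat_lit 10) (nat_lit 4) (nat_lit 8) (nat_lit 4) (nat_lit 331) (nat_lit 243) (nat_lit 206)) (XT.lf (nat_lit 0) (nat_lit 7744947208) (nat_lit 76) (nat_lit 21021310549) (nat_lit 76) (nat_lit 12221566784) (nat_lit 7) (nat_lit 4) (nat_lit 8) (nat_lit 5) (nat_lit 8) (nat_lit 4) (nat_lit 332) (nat_lit 243) (nat_lit 205))) (XT.nd (nat_lit 78) (nat_lit 0) (nat_lit 0) (XT.lf (nat_lit 0) (nat_lit 16247923327) (nat_lit 76) (nat_lit 17725410647) (nat_lit 76) (nat_lit 8847858474) (nat_lit 7) (nat_lit 4) (nat_lit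 8) (nat_lit 5) (nat_lit 8) (nat_lit 4) (nat_lit 333) (nat_lit 243) (nat_lit 204)) (XT.nd (nat_lit 78) (nat_lit 0) (nat_lit 0) (XT.lf (nat_lit 0) (nat_lit 25085554566) (nat_lit 76) (nat_lit 14307369177) (nat_lit 76) (nat_lit 5355713757) (nat_lit 7) (nat_lit 4) (nat_lit 8) (nat_lit 5) (nat_lit 8) (nat_lit 4) (nat_lit 334) (nat_lit 243) (nat_lit 203)) (XT.lf (nat_lit 0) (nat_lit 34278882902) (nat_lit 76) (nat_lit 10759047943) (nat_lit 76) (nat_lit 1736818003) (nat_lit 7) (nat_lit 4) (nat_lit 8) (nat_lit 5) (nat_lit 8) (nat_lit 4) (nat_lit 335) (nat_lit 243) (nat_lit 202))))) (XT.nd (nat_lit 156) (nat_lit 0) (nat_lit 0) (XT.nd (nat_lit 78) (nat_lit 76) (nat_lit 0) (XT.lf (nat_lit 0) (nat_lit 1952874359) (nat_lit 152) (nat_lit 5086051332) (nat_lit 76) (nat_lit 41863849982) (nat_lit 6) (nat_lit 5) (nat_lit 8) (nat_lit 5) (nat_lit 7) (nat_lit 4) (nat_lit 336) (nat_lit 243) (nat_lit 201)) (XT.lf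 (nat_lit 0) (nat_lit 2671718347) (nat_lit 76) (nat_lit 3096659841) (nat_lit 152) (nat_lit 45367431031) (nat_lit 5) (nat_lit 5) (nat_lit 6) (nat_lit 5) (nat_lit 7) (nat_lit 4) (nat_lit 337) (nat_lit 243) (nat_lit 200))) (XT.nd (nat_lit 78) (nat_lit 0) (nat_lit 0) (XT.lf (nat_lit 0) (nat_lit 9836666080) (nat_lit 152) (nat_lit 42579714820) (nat_lit 0) (nat_lit 1061026210) (nat_lit 5) (nat_lit 5) (nat_lit 7) (nat_lit 4) (nat_lit 5) (nat_lit 4) (nat_lit 338) (nat_lit 243) (nat_lit 199)) (XT.nd (nat_lit 78) (nat_lit 0) (nat_lit 0) (XT.lf (nat_lit 0) (nat_lit 14119306915) (nat_lit 152) (nat_lit 36527873479) (nat_lit 0) (nat_lit 5288370062) (nat_lit 5) (nat_lit 5) (nat_lit 7) (nat_lit 4) (nat_lit 5) (nat_lit 4) (nat_lit 339) (nat_lit 243) (nat_lit 198)) (XT.lf (nat_lit 0) (nat_lit 18578149920) (nat_lit 152) (nat_lit 30245810165) (nat_lit 0) (nat_lit 9694549273) (nat_lit 5) (nat_lit 5) (nat_lit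 7) (nat_lit 4) (nat_lit 5) (nat_lit 4) (nat_lit 340) (nat_lit 243) (nat_lit 197)))))) (XT.nd (nat_lit 390) (nat_lit 0) (nat_lit 0) (XT.nd (nat_lit 156) (nat_lit 76) (nat_lit 0) (XT.nd (nat_lit 78) (nat_lit 0) (nat_lit 0) (XT.lf (nat_lit 0) (nat_lit 23223811386) (nat_lit 152) (nat_lit 23718567584) (nat_lit 0) (nat_lit 14290054745) (nat_lit 5) (nat_lit 5) (nat_lit 7) (nat_lit 4) (nat_lit 5) (nat_lit 4) (nat_lit 341) (nat_lit 243) (nat_lit 196)) (XT.lf (nat_lit 0) (nat_lit 28067352413) (nat_lit 152) (nat_lit 16930604683) (nat_lit 0) (nat_lit 19085828159) (nat_lit 5) (nat_lit 5) (nat_lit 7) (nat_lit 4) (nat_lit 5) (nat_lit 4) (nat_lit 342) (nat_lit 243) (nat_lit 195))) (XT.nd (nat_lit 78) (nat_lit 76) (nat_lit 0) (XT.lf (nat_lit 0) (nat_lit 33120305241) (nat_lit 152) (nat_lit 9865759644) (nat_lit 0) (nat_lit 24093288022) (nat_lit 5) (nat_lit 5) (nat_lit 7) (nat_lit 4) (nat_lit 5) (nat_lit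 4) (nat_lit 343) (nat_lit 243) (nat_lit 194)) (XT.nd (nat_lit 78) (nat_lit 76) (nat_lit 0) (XT.lf (nat_lit 0) (nat_lit 38394700710) (nat_lit 152) (nat_lit 2507211409) (nat_lit 0) (nat_lit 29324356857) (nat_lit 5) (nat_lit 5) (nat_lit 7) (nat_lit 4) (nat_lit 5) (nat_lit 4) (nat_lit 344) (nat_lit 243) (nat_lit 193)) (XT.lf (nat_lit 0) (nat_lit 5333257936) (nat_lit 76) (nat_lit 38653106071) (nat_lit 76) (nat_lit 29541498758) (nat_lit 4) (nat_lit 4) (nat_lit 5) (nat_lit 5) (nat_lit 5) (nat_lit 4) (nat_lit 345) (nat_lit 243) (nat_lit 192))))) (XT.nd (nat_lit 156) (nat_lit 0) (nat_lit 0) (XT.nd (nat_lit 78) (nat_lit 0) (nat_lit 0) (XT.lf (nat_lit 0) (nat_lit 13597006184) (nat_lit 76) (nat_lit 36273890242) (nat_lit 76) (nat_lit 27122984395) (nat_lit 4) (nat_lit 4) (nat_lit 5) (nat_lit 5) (nat_lit 5) (nat_lit 4) (nat_lit 346) (nat_lit 243) (nat_lit 191)) (XT.lf (nat_lit 0) (nat_lit 22220809193)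 (nat_lit 76) (nat_lit 33801060670) (nat_lit 76) (nat_lit 24612727649) (nat_lit 4) (nat_lit 4) (nat_lit 5) (nat_lit 5) (nat_lit 5) (nat_lit 4) (nat_lit 347) (nat_lit 243) (nat_lit 190))) (XT.nd (nat_lit 78) (nat_lit 0) (nat_lit 0) (XT.lf (nat_lit 0) (nat_lit 31225199828) (nat_lit 76) (nat_lit 31228729666) (nat_lit 76) (nat_lit 22004751717) (nat_lit 4) (nat_lit 4) (nat_lit 5) (nat_lit 5) (nat_lit 5) (nat_lit 4) (nat_lit 348) (nat_lit 243) (nat_lit 189)) (XT.nd (nat_lit 78) (nat_lit 0) (nat_lit 0) (XT.lf (nat_lit 0) (nat_lit 40631617114) (nat_lit 76) (nat_lit 28550772633) (nat_lit 76) (nat_lit 19292847133) (nat_lit 4) (nat_lit 4) (nat_lit 5) (nat_lit 5) (nat_lit 5) (nat_lit 4) (nat_lit 349) (nat_lit 243) (nat_lit 188)) (XT.lf (nat_lit 0) (nat_lit 50462457282) (nat_lit 76) (nat_lit 25760813483) (nat_lit 76) (nat_lit 16470556981) (nat_lit 4) (nat_lit 4) (nat_lit 5) (nat_lit 5) (nat_lit 5)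 (nat_lit 4) (nat_lit 350) (nat_lit 243) (nat_lit 187))))))) (XT.nd (nat_lit 780) (nat_lit 0) (nat_lit 0) (XT.nd (nat_lit 390) (nat_lit 152) (nat_lit 0) (XT.nd (nat_lit 156) (nat_lit 0) (nat_lit 0) (XT.nd (nat_lit 78) (nat_lit 0) (nat_lit 0) (XT.lf (nat_lit 0) (nat_lit 60741127095) (nat_lit 76) (nat_lit 22852209454) (nat_lit 76) (nat_lit 13531161523) (nat_lit 4) (nat_lit 4) (nat_lit 5) (nat_lit 5) (nat_lit 5) (nat_lit 4) (nat_lit 351) (nat_lit 243) (nat_lit 186)) (XT.lf (nat_lit 0) (nat_lit 71492099576) (nat_lit 76) (nat_lit 19818035301) (nat_lit 76) (nat_lit 10467662199) (nat_lit 4) (nat_lit 4) (nat_lit 5) (nat_lit 5) (nat_lit 5) (nat_lit 4) (nat_lit 352) (nat_lit 243) (nat_lit 185))) (XT.nd (nat_lit 78) (nat_lit 0) (nat_lit 0) (XT.lf (nat_lit 0) (nat_lit 82740972279) (nat_lit 76) (nat_lit 16651066798) (nat_lit 76) (nat_lit 7272764962) (nat_lit 4) (nat_lit 4) (nat_lit 5) (nat_lit 5)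 (nat_lit 5) (nat_lit 4) (nat_lit 353) (nat_lit 243) (nat_lit 184)) (XT.nd (nat_lit 78) (nat_lit 0) (nat_lit 0) (XT.lf (nat_lit 0) (nat_lit 94514528234) (nat_lit 76) (nat_lit 13343763545) (nat_lit 76) (nat_lit 3938862914) (nat_lit 4) (nat_lit 4) (nat_lit 5) (nat_lit 5) (nat_lit 5) (nat_lit 4) (nat_lit 354) (nat_lit 243) (nat_lit 183)) (XT.lf (nat_lit 0) (nat_lit 106840799717) (nat_lit 76) (nat_lit 9888251009) (nat_lit 76) (nat_lit 458018193) (nat_lit 4) (nat_lit 4) (nat_lit 5) (nat_lit 5) (nat_lit 5) (nat_lit 4) (nat_lit 355) (nat_lit 243) (nat_lit 182))))) (XT.nd (nat_lit 156) (nat_lit 0) (nat_lit 0) (XT.nd (nat_lit 78) (nat_lit 76) (nat_lit 0) (XT.lf (nat_lit 0) (nat_lit 3076339256) (nat_lit 152) (nat_lit 3147863231) (nat_lit 76) (nat_lit 116620696444) (nat_lit 3) (nat_lit 5) (nat_lit 5) (nat_lit 5) (nat_lit 4) (nat_lit 4) (nat_lit 356) (nat_lit 243) (nat_lit 181)) (XT.lf (nat_lit 0)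 (nat_lit 4514241251) (nat_lit 76) (nat_lit 2310918259) (nat_lit 152) (nat_lit 121957433581) (nat_lit 2) (nat_lit 5) (nat_lit 3) (nat_lit 5) (nat_lit 4) (nat_lit 4) (nat_lit 357) (nat_lit 243) (nat_lit 180))) (XT.nd (nat_lit 78) (nat_lit 0) (nat_lit 0) (XT.lf (nat_lit 0) (nat_lit 10826406777) (nat_lit 152) (nat_lit 122407988706) (nat_lit 0) (nat_lit 1779531883) (nat_lit 2) (nat_lit 5) (nat_lit 4) (nat_lit 4) (nat_lit 2) (nat_lit 4) (nat_lit 358) (nat_lit 243) (nat_lit 179)) (XT.nd (nat_lit 78) (nat_lit 0) (nat_lit 0) (XT.lf (nat_lit 0) (nat_lit 15049151913) (nat_lit 152) (nat_lit 120524180561) (nat_lit 0) (nat_lit 5982428588) (nat_lit 2) (nat_lit 5) (nat_lit 4) (nat_lit 4) (nat_lit 2) (nat_lit 4) (nat_lit 359) (nat_lit 243) (nat_lit 178)) (XT.lf (nat_lit 0) (nat_lit 19467369161) (nat_lit 152) (nat_lit 118576362238) (nat_lit 0) (nat_lit 10381742570) (nat_lit 2) (nat_lit 5) (nat_lit 4)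 (nat_lit 4) (nat_lit 2) (nat_lit 4) (nat_lit 360) (nat_lit 243) (nat_lit 177)))))) (XT.nd (nat_lit 390) (nat_lit 0) (nat_lit 0) (XT.nd (nat_lit 156) (nat_lit 0) (nat_lit 0) (XT.nd (nat_lit 78) (nat_lit 0) (nat_lit 0) (XT.lf (nat_lit 0) (nat_lit 24091578088) (nat_lit 152) (nat_lit 116559896073) (nat_lit 0) (nat_lit 14987948386) (nat_lit 2) (nat_lit 5) (nat_lit 4) (nat_lit 4) (nat_lit 2) (nat_lit 4) (nat_lit 361) (nat_lit 243) (nat_lit 176)) (XT.lf (nat_lit 0) (nat_lit 28932788714) (nat_lit 152) (nat_lit 114469980957) (nat_lit 0) (nat_lit 19812013192) (nat_lit 2) (nat_lit 5) (nat_lit 4) (nat_lit 4) (nat_lit 2) (nat_lit 4) (nat_lit 362) (nat_lit 243) (nat_lit 175))) (XT.nd (nat_lit 78) (nat_lit 0) (nat_lit 0) (XT.lf (nat_lit 0) (nat_lit 34002527731) (nat_lit 152) (nat_lit 112301640902) (nat_lit 0) (nat_lit 24865422856) (nat_lit 2) (nat_lit 5) (nat_lit 4) (nat_lit 4) (nat_lit 2) (nat_lit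 4) (nat_lit 363) (nat_lit 243) (nat_lit 174)) (XT.nd (nat_lit 78) (nat_lit 0) (nat_lit 0) (XT.lf (nat_lit 0) (nat_lit 39312865946) (nat_lit 152) (nat_lit 110049713193) (nat_lit 0) (nat_lit 30160209307) (nat_lit 2) (nat_lit 5) (nat_lit 4) (nat_lit 4) (nat_lit 2) (nat_lit 4) (nat_lit 364) (nat_lit 243) (nat_lit 173)) (XT.lf (nat_lit 0) (nat_lit 44876447022) (nat_lit 152) (nat_lit 107708836097) (nat_lit 0) (nat_lit 35708979180) (nat_lit 2) (nat_lit 5) (nat_lit 4) (nat_lit 4) (nat_lit 2) (nat_lit 4) (nat_lit 365) (nat_lit 243) (nat_lit 172))))) (XT.nd (nat_lit 234) (nat_lit 0) (nat_lit 0) (XT.nd (nat_lit 78) (nat_lit 0) (nat_lit 0) (XT.lf (nat_lit 0) (nat_lit 50706517581) (nat_lit 152) (nat_lit 105273436098) (nat_lit 0) (nat_lit 41524943830) (nat_lit 2) (nat_lit 5) (nat_lit 4) (nat_lit 4) (nat_lit 2) (nat_lit 4) (nat_lit 366) (nat_lit 243) (nat_lit 171)) (XT.nd (nat_lit 78) (nat_lit 0) (nat_lit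 0) (XT.lf (nat_lit 0) (nat_lit 56816958742) (nat_lit 152) (nat_lit 102737714624) (nat_lit 0) (nat_lit 47621950792) (nat_lit 2) (nat_lit 5) (nat_lit 4) (nat_lit 4) (nat_lit 2) (nat_lit 4) (nat_lit 367) (nat_lit 243) (nat_lit 170)) (XT.lf (nat_lit 0) (nat_lit 63222319176) (nat_lit 152) (nat_lit 100095634243) (nat_lit 0) (nat_lit 54014516751) (nat_lit 2) (nat_lit 5) (nat_lit 4) (nat_lit 4) (nat_lit 2) (nat_lit 4) (nat_lit 368) (nat_lit 243) (nat_lit 169)))) (XT.nd (nat_lit 78) (nat_lit 0) (nat_lit 0) (XT.lf (nat_lit 0) (nat_lit 69937849740) (nat_lit 152) (nat_lit 97340904288) (nat_lit 0) (nat_lit 60717862101) (nat_lit 2) (nat_lit 5) (nat_lit 4) (nat_lit 4) (nat_lit 2) (nat_lit 4) (nat_lit 369) (nat_lit 243) (nat_lit 168)) (XT.nd (nat_lit 78) (nat_lit 0) (nat_lit 0) (XT.lf (nat_lit 0) (nat_lit 76979539793) (nat_lit 152) (nat_lit 94466965877) (nat_lit 0) (nat_lit 67747947188) (nat_lit 2)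 (nat_lit 5) (nat_lit 4) (nat_lit 4) (nat_lit 2) (nat_lit 4) (nat_lit 370) (nat_lit 243) (nat_lit 167)) (XT.lf (nat_lit 0) (nat_lit 84364155263) (nat_lit 152) (nat_lit 91466976301) (nat_lit 0) (nat_lit 75121510310) (nat_lit 2) (nat_lit 5) (nat_lit 4) (nat_lit 4) (nat_lit 2) (nat_lit 4) (nat_lit 371) (nat_lit 243) (nat_lit 166))))))))
noncomputable def xc61 : XT := (XT.nd (nat_lit 34476) (nat_lit 0) (nat_lit 1140) (XT.nd (nat_lit 780) (nat_lit 76) (nat_lit 0) (XT.nd (nat_lit 390) (nat_lit 0) (nat_lit 0) (XT.nd (nat_lit 156) (nat_lit 0) (nat_lit 0) (XT.nd (nat_lit 78) (nat_lit 0) (nat_lit 0) (XT.lf (nat_lit 0) (nat_lit 92109278569) (nat_lit 152) (nat_lit 88333792726) (nat_lit 0) (nat_lit 82856107569) (nat_lit 2) (nat_lit 5) (nat_lit 4) (nat_lit 4) (nat_lit 2) (nat_lit 4) (nat_lit 372) (nat_lit 243) (nat_lit 165)) (XT.lf (nat_lit 0) (nat_lit 100233350480) (nat_lit 152) (nat_lit 85059955192)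 (nat_lit 0) (nat_lit 90970154674) (nat_lit 2) (nat_lit 5) (nat_lit 4) (nat_lit 4) (nat_lit 2) (nat_lit 4) (nat_lit 373) (nat_lit 243) (nat_lit 164))) (XT.nd (nat_lit 78) (nat_lit 0) (nat_lit 0) (XT.lf (nat_lit 0) (nat_lit 108755714024) (nat_lit 152) (nat_lit 81637668848) (nat_lit 0) (nat_lit 99482970785) (nat_lit 2) (nat_lit 5) (nat_lit 4) (nat_lit 4) (nat_lit 2) (nat_lit 4) (nat_lit 374) (nat_lit 243) (nat_lit 163)) (XT.nd (nat_lit 78) (nat_lit 0) (nat_lit 0) (XT.lf (nat_lit 0) (nat_lit 117696660544) (nat_lit 152) (nat_lit 78058785393) (nat_lit 0) (nat_lit 108414824510) (nat_lit 2) (nat_lit 5) (nat_lit 4) (nat_lit 4) (nat_lit 2) (nat_lit 4) (nat_lit 375) (nat_lit 243) (nat_lit 162)) (XT.lf (nat_lit 0) (nat_lit 127077478007) (nat_lit 152) (nat_lit 74314783675) (nat_lit 0) (nat_lit 117786982169) (nat_lit 2) (nat_lit 5) (nat_lit 4) (nat_lit 4) (nat_lit 2) (nat_lit 4) (nat_lit 376) (nat_lit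 243) (nat_lit 161))))) (XT.nd (nat_lit 156) (nat_lit 0) (nat_lit 0) (XT.nd (nat_lit 78) (nat_lit 0) (nat_lit 0) (XT.lf (nat_lit 0) (nat_lit 136920501693) (nat_lit 152) (nat_lit 70396749405) (nat_lit 0) (nat_lit 127621758422) (nat_lit 2) (nat_lit 5) (nat_lit 4) (nat_lit 4) (nat_lit 2) (nat_lit 4) (nat_lit 377) (nat_lit 243) (nat_lit 160)) (XT.lf (nat_lit 0) (nat_lit 147249167372) (nat_lit 152) (nat_lit 66295353931) (nat_lit 0) (nat_lit 137942569403) (nat_lit 2) (nat_lit 5) (nat_lit 4) (nat_lit 4) (nat_lit 2) (nat_lit 4) (nat_lit 378) (nat_lit 243) (nat_lit 159))) (XT.nd (nat_lit 78) (nat_lit 0) (nat_lit 0) (XT.lf (nat_lit 0) (nat_lit 158088067106) (nat_lit 152) (nat_lit 62000832024) (nat_lit 0) (nat_lit 148773988473) (nat_lit 2) (nat_lit 5) (nat_lit 4) (nat_lit 4) (nat_lit 2) (nat_lit 4) (nat_lit 379) (nat_lit 243) (nat_lit 158)) (XT.nd (nat_lit 78) (nat_lit 0) (nat_lit 0) (XT.lf (nat_lit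 0) (nat_lit 169463007798) (nat_lit 152) (nat_lit 57502958632) (nat_lit 0) (nat_lit 160141804723) (nat_lit 2) (nat_lit 5) (nat_lit 4) (nat_lit 4) (nat_lit 2) (nat_lit 4) (nat_lit 380) (nat_lit 243) (nat_lit 157)) (XT.lf (nat_lit 0) (nat_lit 181401072642) (nat_lit 152) (nat_lit 52791024534) (nat_lit 0) (nat_lit 172073084383) (nat_lit 2) (nat_lit 5) (nat_lit 4) (nat_lit 4) (nat_lit 2) (nat_lit 4) (nat_lit 381) (nat_lit 243) (nat_lit 156)))))) (XT.nd (nat_lit 390) (nat_lit 76) (nat_lit 0) (XT.nd (nat_lit 156) (nat_lit 0) (nat_lit 0) (XT.nd (nat_lit 78) (nat_lit 0) (nat_lit 0) (XT.lf (nat_lit 0) (nat_lit 193930685600) (nat_lit 152) (nat_lit 47853810837) (nat_lit 0) (nat_lit 184596235262) (nat_lit 2) (nat_lit 5) (nat_lit 4) (nat_lit 4) (nat_lit 2) (nat_lit 4) (nat_lit 382) (nat_lit 243) (nat_lit 155)) (XT.lf (nat_lit 0) (nat_lit 207081679086) (nat_lit 152) (nat_lit 42679562273) (nat_lit 0)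 (nat_lit 197741074386) (nat_lit 2) (nat_lit 5) (nat_lit 4) (nat_lit 4) (nat_lit 2) (nat_lit 4) (nat_lit 383) (nat_lit 243) (nat_lit 154))) (XT.nd (nat_lit 78) (nat_lit 0) (nat_lit 0) (XT.lf (nat_lit 0) (nat_lit 220885364986) (nat_lit 152) (nat_lit 37255959201) (nat_lit 0) (nat_lit 211538898991) (nat_lit 2) (nat_lit 5) (nat_lit 4) (nat_lit 4) (nat_lit 2) (nat_lit 4) (nat_lit 384) (nat_lit 243) (nat_lit 153)) (XT.nd (nat_lit 78) (nat_lit 0) (nat_lit 0) (XT.lf (nat_lit 0) (nat_lit 235374609222) (nat_lit 152) (nat_lit 31570088280) (nat_lit 0) (nat_lit 226022561039) (nat_lit 2) (nat_lit 5) (nat_lit 4) (nat_lit 4) (nat_lit 2) (nat_lit 4) (nat_lit 385) (nat_lit 243) (nat_lit 152)) (XT.lf (nat_lit 0) (nat_lit 250583909993) (nat_lit 152) (nat_lit 25608411723) (nat_lit 0) (nat_lit 241226545442) (nat_lit 2) (nat_lit 5) (nat_lit 4) (nat_lit 4) (nat_lit 2) (nat_lit 4) (nat_lit 386) (nat_lit 243)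 (nat_lit 151))))) (XT.nd (nat_lit 234) (nat_lit 76) (nat_lit 0) (XT.nd (nat_lit 78) (nat_lit 0) (nat_lit 0) (XT.lf (nat_lit 0) (nat_lit 266549479920) (nat_lit 152) (nat_lit 19356735062) (nat_lit 0) (nat_lit 257187052161) (nat_lit 2) (nat_lit 5) (nat_lit 4) (nat_lit 4) (nat_lit 2) (nat_lit 4) (nat_lit 387) (nat_lit 243) (nat_lit 150)) (XT.nd (nat_lit 78) (nat_lit 0) (nat_lit 0) (XT.lf (nat_lit 0) (nat_lit 283309332265) (nat_lit 152) (nat_lit 12800173352) (nat_lit 0) (nat_lit 273942082403) (nat_lit 2) (nat_lit 5) (nat_lit 4) (nat_lit 4) (nat_lit 2) (nat_lit 4) (nat_lit 388) (nat_lit 243) (nat_lit 149)) (XT.lf (nat_lit 0) (nat_lit 300903371438) (nat_lit 152) (nat_lit 5923115732) (nat_lit 0) (nat_lit 291531529097) (nat_lit 2) (nat_lit 5) (nat_lit 4) (nat_lit 4) (nat_lit 2) (nat_lit 4) (nat_lit 389) (nat_lit 243) (nat_lit 148)))) (XT.nd (nat_lit 78) (nat_lit 0) (nat_lit 0) (XT.lf (nat_lit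 0) (nat_lit 1333491810) (nat_lit 76) (nat_lit 318060815743) (nat_lit 76) (nat_lit 308684599612) (nat_lit 1) (nat_lit 4) (nat_lit 2) (nat_lit 5) (nat_lit 2) (nat_lit 4) (nat_lit 390) (nat_lit 243) (nat_lit 147)) (XT.nd (nat_lit 32916) (nat_lit 0) (nat_lit 3116) (XT.lf (nat_lit 0) (nat_lit 9151696538) (nat_lit 76) (nat_lit 329754845538) (nat_lit 76) (nat_lit 320374463893) (nat_lit 1) (nat_lit 4) (nat_lit 2) (nat_lit 5) (nat_lit 2) (nat_lit 4) (nat_lit 391) (nat_lit 243) (nat_lit 146)) (XT.lf (nat_lit 0) (nat_lit 592176043) (nat_lit 228) (nat_lit 2172994339) (nat_lit 228) (nat_lit 2172994339) (nat_lit 42) (nat_lit 4) (nat_lit 45) (nat_lit 5) (nat_lit 45) (nat_lit 4) (nat_lit 292) (nat_lit 244) (nat_lit 244))))))) (XT.nd (nat_lit 780) (nat_lit 760) (nat_lit 0) (XT.nd (nat_lit 390) (nat_lit 608) (nat_lit 0) (XT.nd (nat_lit 156) (nat_lit 380) (nat_lit 0) (XT.nd (nat_lit 78) (nat_lit 228) (nat_lit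 0) (XT.lf (nat_lit 0) (nat_lit 8572670561) (nat_lit 228) (nat_lit 1180719368) (nat_lit 228) (nat_lit 371413130) (nat_lit 42) (nat_lit 4) (nat_lit 45) (nat_lit 5) (nat_lit 45) (nat_lit 4) (nat_lit 293) (nat_lit 244) (nat_lit 243)) (XT.lf (nat_lit 0) (nat_lit 3652280866) (nat_lit 228) (nat_lit 4584565259) (nat_lit 0) (nat_lit 2147448405) (nat_lit 39) (nat_lit 5) (nat_lit 42) (nat_lit 4) (nat_lit 39) (nat_lit 4) (nat_lit 294) (nat_lit 244) (nat_lit 242))) (XT.nd (nat_lit 78) (nat_lit 228) (nat_lit 0) (XT.lf (nat_lit 0) (nat_lit 2740866816) (nat_lit 152) (nat_lit 5061404569) (nat_lit 152) (nat_lit 2857462949) (nat_lit 37) (nat_lit 4) (nat_lit 39) (nat_lit 5) (nat_lit 39) (nat_lit 4) (nat_lit 295) (nat_lit 244) (nat_lit 241)) (XT.nd (nat_lit 78) (nat_lit 152) (nat_lit 0) (XT.lf (nat_lit 0) (nat_lit 1100675108) (nat_lit 228) (nat_lit 613375892) (nat_lit 76) (nat_lit 9237662448) (nat_lit 36)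 (nat_lit 5) (nat_lit 39) (nat_lit 5) (nat_lit 37) (nat_lit 4) (nat_lit 296) (nat_lit 244) (nat_lit 240)) (XT.lf (nat_lit 0) (nat_lit 5156278114) (nat_lit 228) (nat_lit 4280771524) (nat_lit 0) (nat_lit 1819256706) (nat_lit 34) (nat_lit 5) (nat_lit 37) (nat_lit 4) (nat_lit 34) (nat_lit 4) (nat_lit 297) (nat_lit 244) (nat_lit 239))))) (XT.nd (nat_lit 156) (nat_lit 380) (nat_lit 0) (XT.nd (nat_lit 78) (nat_lit 76) (nat_lit 0) (XT.lf (nat_lit 0) (nat_lit 3234263997) (nat_lit 152) (nat_lit 6128387749) (nat_lit 152) (nat_lit 2216207507) (nat_lit 32) (nat_lit 4) (nat_lit 34) (nat_lit 5) (nat_lit 34) (nat_lit 4) (nat_lit 298) (nat_lit 244) (nat_lit 238)) (XT.lf (nat_lit 0) (nat_lit 1735536204) (nat_lit 228) (nat_lit 902101341) (nat_lit 76) (nat_lit 9281900612) (nat_lit 31) (nat_lit 5) (nat_lit 34) (nat_lit 5) (nat_lit 32) (nat_lit 4) (nat_lit 299) (nat_lit 244) (nat_lit 237))) (XT.nd (nat_lit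 78) (nat_lit 228) (nat_lit 0) (XT.lf (nat_lit 0) (nat_lit 5801099818) (nat_lit 228) (nat_lit 5418227207) (nat_lit 0) (nat_lit 1056684030) (nat_lit 29) (nat_lit 5) (nat_lit 32) (nat_lit 4) (nat_lit 29) (nat_lit 4) (nat_lit 300) (nat_lit 244) (nat_lit 236)) (XT.nd (nat_lit 78) (nat_lit 76) (nat_lit 0) (XT.lf (nat_lit 0) (nat_lit 2191790881) (nat_lit 152) (nat_lit 7839088537) (nat_lit 152) (nat_lit 2621488153) (nat_lit 27) (nat_lit 4) (nat_lit 29) (nat_lit 5) (nat_lit 29) (nat_lit 4) (nat_lit 301) (nat_lit 244) (nat_lit 235)) (XT.lf (nat_lit 0) (nat_lit 1340881293) (nat_lit 228) (nat_lit 2919445729) (nat_lit 76) (nat_lit 8788106138) (nat_lit 26) (nat_lit 5) (nat_lit 29) (nat_lit 5) (nat_lit 27) (nat_lit 4) (nat_lit 302) (nat_lit 244) (nat_lit 234)))))) (XT.nd (nat_lit 390) (nat_lit 380) (nat_lit 0) (XT.nd (nat_lit 156) (nat_lit 304) (nat_lit 0) (XT.nd (nat_lit 78) (nat_lit 0) (nat_lit 0)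 (XT.lf (nat_lit 0) (nat_lit 4900062049) (nat_lit 76) (nat_lit 464575417) (nat_lit 152) (nat_lit 8100039739) (nat_lit 25) (nat_lit 5) (nat_lit 26) (nat_lit 5) (nat_lit 27) (nat_lit 4) (nat_lit 303) (nat_lit 244) (nat_lit 233)) (XT.lf (nat_lit 0) (nat_lit 9571011038) (nat_lit 152) (nat_lit 957108198) (nat_lit 0) (nat_lit 3374630654) (nat_lit 25) (nat_lit 5) (nat_lit 27) (nat_lit 4) (nat_lit 25) (nat_lit 4) (nat_lit 304) (nat_lit 244) (nat_lit 232))) (XT.nd (nat_lit 78) (nat_lit 152) (nat_lit 0) (XT.lf (nat_lit 0) (nat_lit 7044860511) (nat_lit 152) (nat_lit 6942548518) (nat_lit 152) (nat_lit 375415621) (nat_lit 23) (nat_lit 4) (nat_lit 25) (nat_lit 5) (nat_lit 25) (nat_lit 4) (nat_lit 305) (nat_lit 244) (nat_lit 231)) (XT.nd (nat_lit 78) (nat_lit 0) (nat_lit 0) (XT.lf (nat_lit 0) (nat_lit 383632390) (nat_lit 76) (nat_lit 3179227569) (nat_lit 152) (nat_lit 11284915363) (nat_lit 21) (nat_lit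 5) (nat_lit 22) (nat_lit 5) (nat_lit 23) (nat_lit 4) (nat_lit 306) (nat_lit 244) (nat_lit 230)) (XT.lf (nat_lit 0) (nat_lit 7707172768) (nat_lit 152) (nat_lit 6852271309) (nat_lit 0) (nat_lit 796207067) (nat_lit 21) (nat_lit 5) (nat_lit 23) (nat_lit 4) (nat_lit 21) (nat_lit 4) (nat_lit 307) (nat_lit 244) (nat_lit 229))))) (XT.nd (nat_lit 234) (nat_lit 76) (nat_lit 0) (XT.nd (nat_lit 78) (nat_lit 152) (nat_lit 0) (XT.lf (nat_lit 0) (nat_lit 921745398) (nat_lit 152) (nat_lit 11092720364) (nat_lit 152) (nat_lit 3876735653) (nat_lit 19) (nat_lit 4) (nat_lit 21) (nat_lit 5) (nat_lit 21) (nat_lit 4) (nat_lit 308) (nat_lit 244) (nat_lit 228)) (XT.nd (nat_lit 78) (nat_lit 76) (nat_lit 0) (XT.lf (nat_lit 0) (nat_lit 88546180) (nat_lit 228) (nat_lit 7324959335) (nat_lit 76) (nat_lit 9039639531) (nat_lit 18) (nat_lit 5) (nat_lit 21) (nat_lit 5) (nat_lit 19) (nat_lit 4) (nat_lit 309) (nat_lit 244)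 (nat_lit 227)) (XT.lf (nat_lit 0) (nat_lit 466095435) (nat_lit 76) (nat_lit 3557921966) (nat_lit 152) (nat_lit 13020939858) (nat_lit 17) (nat_lit 5) (nat_lit 18) (nat_lit 5) (nat_lit 19) (nat_lit 4) (nat_lit 310) (nat_lit 244) (nat_lit 226)))) (XT.nd (nat_lit 78) (nat_lit 76) (nat_lit 0) (XT.lf (nat_lit 0) (nat_lit 8185801090) (nat_lit 152) (nat_lit 8956792037) (nat_lit 0) (nat_lit 522346682) (nat_lit 17) (nat_lit 5) (nat_lit 19) (nat_lit 4) (nat_lit 17) (nat_lit 4) (nat_lit 311) (nat_lit 244) (nat_lit 225)) (XT.nd (nat_lit 78) (nat_lit 76) (nat_lit 0) (XT.lf (nat_lit 0) (nat_lit 12514759013) (nat_lit 152) (nat_lit 1190947963) (nat_lit 0) (nat_lit 4612314230) (nat_lit 17) (nat_lit 5) (nat_lit 19) (nat_lit 4) (nat_lit 17) (nat_lit 4) (nat_lit 312) (nat_lit 244) (nat_lit 224)) (XT.lf (nat_lit 0) (nat_lit 7017307293) (nat_lit 76) (nat_lit 10057901621) (nat_lit 76) (nat_lit 1927846957) (nat_lit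 16) (nat_lit 4) (nat_lit 17) (nat_lit 5) (nat_lit 17) (nat_lit 4) (nat_lit 313) (nat_lit 244) (nat_lit 223))))))))
noncomputable def xc62 : XT := (XT.nd (nat_lit 1560) (nat_lit 228) (nat_lit 0) (XT.nd (nat_lit 780) (nat_lit 304) (nat_lit 0) (XT.nd (nat_lit 390) (nat_lit 152) (nat_lit 0) (XT.nd (nat_lit 156) (nat_lit 76) (nat_lit 0) (XT.nd (nat_lit 78) (nat_lit 76) (nat_lit 0) (XT.lf (nat_lit 0) (nat_lit 1999103048) (nat_lit 152) (nat_lit 4248664730) (nat_lit 76) (nat_lit 13476634489) (nat_lit 15) (nat_lit 5) (nat_lit 17) (nat_lit 5) (nat_lit 16) (nat_lit 4) (nat_lit 314) (nat_lit 244) (nat_lit 222)) (XT.lf (nat_lit 0) (nat_lit 3802624308) (nat_lit 76) (nat_lit 2224643574) (nat_lit 152) (nat_lit 14454529518) (nat_lit 14) (nat_lit 5) (nat_lit 15) (nat_lit 5) (nat_lit 16) (nat_lit 4) (nat_lit 315) (nat_lit 244) (nat_lit 221))) (XT.nd (nat_lit 78) (nat_lit 76) (nat_lit 0) (XT.lf (nat_lit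 0) (nat_lit 10272124686) (nat_lit 152) (nat_lit 9065322284) (nat_lit 0) (nat_lit 1938893424) (nat_lit 14) (nat_lit 5) (nat_lit 16) (nat_lit 4) (nat_lit 14) (nat_lit 4) (nat_lit 316) (nat_lit 244) (nat_lit 220)) (XT.nd (nat_lit 78) (nat_lit 76) (nat_lit 0) (XT.lf (nat_lit 0) (nat_lit 14680866314) (nat_lit 152) (nat_lit 1262905645) (nat_lit 0) (nat_lit 6169296754) (nat_lit 14) (nat_lit 5) (nat_lit 16) (nat_lit 4) (nat_lit 14) (nat_lit 4) (nat_lit 317) (nat_lit 244) (nat_lit 219)) (XT.lf (nat_lit 0) (nat_lit 7005610203) (nat_lit 76) (nat_lit 12333023854) (nat_lit 76) (nat_lit 3651608296) (nat_lit 13) (nat_lit 4) (nat_lit 14) (nat_lit 5) (nat_lit 14) (nat_lit 4) (nat_lit 318) (nat_lit 244) (nat_lit 218))))) (XT.nd (nat_lit 156) (nat_lit 76) (nat_lit 0) (XT.nd (nat_lit 78) (nat_lit 0) (nat_lit 0) (XT.lf (nat_lit 0) (nat_lit 249023241) (nat_lit 152) (nat_lit 8332676005) (nat_lit 76) (nat_lit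 15332302655) (nat_lit 12) (nat_lit 5) (nat_lit 14) (nat_lit 5) (nat_lit 13) (nat_lit 4) (nat_lit 319) (nat_lit 244) (nat_lit 217)) (XT.lf (nat_lit 0) (nat_lit 4145251870) (nat_lit 152) (nat_lit 499462642) (nat_lit 76) (nat_lit 20240110751) (nat_lit 12) (nat_lit 5) (nat_lit 14) (nat_lit 5) (nat_lit 13) (nat_lit 4) (nat_lit 320) (nat_lit 244) (nat_lit 216))) (XT.nd (nat_lit 78) (nat_lit 0) (nat_lit 0) (XT.lf (nat_lit 0) (nat_lit 7841652125) (nat_lit 76) (nat_lit 444006636) (nat_lit 152) (nat_lit 17616094248) (nat_lit 11) (nat_lit 5) (nat_lit 12) (nat_lit 5) (nat_lit 13) (nat_lit 4) (nat_lit 321) (nat_lit 244) (nat_lit 215)) (XT.nd (nat_lit 78) (nat_lit 0) (nat_lit 0) (XT.lf (nat_lit 0) (nat_lit 12631010258) (nat_lit 152) (nat_lit 10549241477) (nat_lit 0) (nat_lit 3789409249) (nat_lit 11) (nat_lit 5) (nat_lit 13) (nat_lit 4) (nat_lit 11) (nat_lit 4) (nat_lit 322) (nat_lit 244) (nat_lit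 214)) (XT.lf (nat_lit 0) (nat_lit 17131760580) (nat_lit 152) (nat_lit 2798907962) (nat_lit 0) (nat_lit 8163417873) (nat_lit 11) (nat_lit 5) (nat_lit 13) (nat_lit 4) (nat_lit 11) (nat_lit 4) (nat_lit 323) (nat_lit 244) (nat_lit 213)))))) (XT.nd (nat_lit 390) (nat_lit 76) (nat_lit 0) (XT.nd (nat_lit 156) (nat_lit 152) (nat_lit 0) (XT.nd (nat_lit 78) (nat_lit 0) (nat_lit 0) (XT.lf (nat_lit 0) (nat_lit 5388758960) (nat_lit 76) (nat_lit 16487068283) (nat_lit 76) (nat_lit 7398019196) (nat_lit 10) (nat_lit 4) (nat_lit 11) (nat_lit 5) (nat_lit 11) (nat_lit 4) (nat_lit 324) (nat_lit 244) (nat_lit 212)) (XT.lf (nat_lit 0) (nat_lit 13962302129) (nat_lit 76) (nat_lit 12877592973) (nat_lit 76) (nat_lit 3673585429) (nat_lit 10) (nat_lit 4) (nat_lit 11) (nat_lit 5) (nat_lit 11) (nat_lit 4) (nat_lit 325) (nat_lit 244) (nat_lit 211))) (XT.nd (nat_lit 78) (nat_lit 76) (nat_lit 0) (XT.lf (nat_lit 0) (nat_lit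 166923072) (nat_lit 152) (nat_lit 8971299490) (nat_lit 76) (nat_lit 22679840210) (nat_lit 9) (nat_lit 5) (nat_lit 11) (nat_lit 5) (nat_lit 10) (nat_lit 4) (nat_lit 326) (nat_lit 244) (nat_lit 210)) (XT.nd (nat_lit 78) (nat_lit 76) (nat_lit 0) (XT.lf (nat_lit 0) (nat_lit 4016420218) (nat_lit 152) (nat_lit 1184101049) (nat_lit 76) (nat_lit 27987343159) (nat_lit 9) (nat_lit 5) (nat_lit 11) (nat_lit 5) (nat_lit 10) (nat_lit 4) (nat_lit 327) (nat_lit 244) (nat_lit 209)) (XT.lf (nat_lit 0) (nat_lit 7114005433) (nat_lit 76) (nat_lit 998713283) (nat_lit 152) (nat_lit 26510742482) (nat_lit 8) (nat_lit 5) (nat_lit 9) (nat_lit 5) (nat_lit 10) (nat_lit 4) (nat_lit 328) (nat_lit 244) (nat_lit 208))))) (XT.nd (nat_lit 156) (nat_lit 76) (nat_lit 0) (XT.nd (nat_lit 78) (nat_lit 0) (nat_lit 0) (XT.lf (nat_lit 0) (nat_lit 12431070795) (nat_lit 152) (nat_lit 20421801810) (nat_lit 0) (nat_lit 3277123612)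 (nat_lit 8) (nat_lit 5) (nat_lit 10) (nat_lit 4) (nat_lit 8) (nat_lit 4) (nat_lit 329) (nat_lit 244) (nat_lit 207)) (XT.lf (nat_lit 0) (nat_lit 16927967306) (nat_lit 152) (nat_lit 13097542357) (nat_lit 0) (nat_lit 7688236353) (nat_lit 8) (nat_lit 5) (nat_lit 10) (nat_lit 4) (nat_lit 8) (nat_lit 4) (nat_lit 330) (nat_lit 244) (nat_lit 206))) (XT.nd (nat_lit 78) (nat_lit 76) (nat_lit 0) (XT.lf (nat_lit 0) (nat_lit 21598522434) (nat_lit 152) (nat_lit 5503645982) (nat_lit 0) (nat_lit 12277092652) (nat_lit 8) (nat_lit 5) (nat_lit 10) (nat_lit 4) (nat_lit 8) (nat_lit 4) (nat_lit 331) (nat_lit 244) (nat_lit 205)) (XT.nd (nat_lit 78) (nat_lit 0) (nat_lit 0) (XT.lf (nat_lit 0) (nat_lit 2456594382) (nat_lit 76) (nat_lit 24035616488) (nat_lit 76) (nat_lit 14636378297) (nat_lit 7) (nat_lit 4) (nat_lit 8) (nat_lit 5) (nat_lit 8) (nat_lit 4) (nat_lit 332) (nat_lit 244) (nat_lit 204)) (XT.lf (nat_lit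 0) (nat_lit 10915427239) (nat_lit 76) (nat_lit 20760523136) (nat_lit 76) (nat_lit 11287181699) (nat_lit 7) (nat_lit 4) (nat_lit 8) (nat_lit 5) (nat_lit 8) (nat_lit 4) (nat_lit 333) (nat_lit 244) (nat_lit 203))))))) (XT.nd (nat_lit 780) (nat_lit 76) (nat_lit 0) (XT.nd (nat_lit 390) (nat_lit 0) (nat_lit 0) (XT.nd (nat_lit 156) (nat_lit 152) (nat_lit 0) (XT.nd (nat_lit 78) (nat_lit 0) (nat_lit 0) (XT.lf (nat_lit 0) (nat_lit 19711017276) (nat_lit 76) (nat_lit 17362297427) (nat_lit 76) (nat_lit 7818381469) (nat_lit 7) (nat_lit 4) (nat_lit 8) (nat_lit 5) (nat_lit 8) (nat_lit 4) (nat_lit 334) (nat_lit 244) (nat_lit 202)) (XT.lf (nat_lit 0) (nat_lit 28864306372) (nat_lit 76) (nat_lit 13832848347) (nat_lit 76) (nat_lit 4221718561) (nat_lit 7) (nat_lit 4) (nat_lit 8) (nat_lit 5) (nat_lit 8) (nat_lit 4) (nat_lit 335) (nat_lit 244) (nat_lit 201))) (XT.nd (nat_lit 78) (nat_lit 152) (nat_lit 0) (XT.lf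 (nat_lit 0) (nat_lit 38397088074) (nat_lit 76) (nat_lit 10163772447) (nat_lit 76) (nat_lit 488629490) (nat_lit 7) (nat_lit 4) (nat_lit 8) (nat_lit 5) (nat_lit 8) (nat_lit 4) (nat_lit 336) (nat_lit 244) (nat_lit 200)) (XT.nd (nat_lit 78) (nat_lit 76) (nat_lit 0) (XT.lf (nat_lit 0) (nat_lit 3281280109) (nat_lit 152) (nat_lit 3009483655) (nat_lit 76) (nat_lit 44995209304) (nat_lit 6) (nat_lit 5) (nat_lit 8) (nat_lit 5) (nat_lit 7) (nat_lit 4) (nat_lit 337) (nat_lit 244) (nat_lit 199)) (XT.lf (nat_lit 0) (nat_lit 5098579827) (nat_lit 76) (nat_lit 2166176046) (nat_lit 152) (nat_lit 46367061786) (nat_lit 5) (nat_lit 5) (nat_lit 6) (nat_lit 5) (nat_lit 7) (nat_lit 4) (nat_lit 338) (nat_lit 244) (nat_lit 198))))) (XT.nd (nat_lit 156) (nat_lit 0) (nat_lit 0) (XT.nd (nat_lit 78) (nat_lit 0) (nat_lit 0) (XT.lf (nat_lit 0) (nat_lit 11495074253) (nat_lit 152) (nat_lit 42482878897) (nat_lit 0) (nat_lit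 2114629780) (nat_lit 5) (nat_lit 5) (nat_lit 7) (nat_lit 4) (nat_lit 5) (nat_lit 4) (nat_lit 339) (nat_lit 244) (nat_lit 197)) (XT.lf (nat_lit 0) (nat_lit 15936295946) (nat_lit 152) (nat_lit 36234436997) (nat_lit 0) (nat_lit 6505695479) (nat_lit 5) (nat_lit 5) (nat_lit 7) (nat_lit 4) (nat_lit 5) (nat_lit 4) (nat_lit 340) (nat_lit 244) (nat_lit 196))) (XT.nd (nat_lit 78) (nat_lit 0) (nat_lit 0) (XT.lf (nat_lit 0) (nat_lit 20565175210) (nat_lit 152) (nat_lit 29739214811) (nat_lit 0) (nat_lit 11086807130) (nat_lit 5) (nat_lit 5) (nat_lit 7) (nat_lit 4) (nat_lit 5) (nat_lit 4) (nat_lit 341) (nat_lit 244) (nat_lit 195)) (XT.nd (nat_lit 78) (nat_lit 0) (nat_lit 0) (XT.lf (nat_lit 0) (nat_lit 25392733188) (nat_lit 152) (nat_lit 22981747523) (nat_lit 0) (nat_lit 15868872143) (nat_lit 5) (nat_lit 5) (nat_lit 7) (nat_lit 4) (nat_lit 5) (nat_lit 4) (nat_lit 342) (nat_lit 244) (nat_lit 194)) (XT.lf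 (nat_lit 0) (nat_lit 30430464065) (nat_lit 152) (nat_lit 15945945926) (nat_lit 0) (nat_lit 20863276387) (nat_lit 5) (nat_lit 5) (nat_lit 7) (nat_lit 4) (nat_lit 5) (nat_lit 4) (nat_lit 343) (nat_lit 244) (nat_lit 193)))))) (XT.nd (nat_lit 390) (nat_lit 0) (nat_lit 0) (XT.nd (nat_lit 156) (nat_lit 76) (nat_lit 0) (XT.nd (nat_lit 78) (nat_lit 0) (nat_lit 0) (XT.lf (nat_lit 0) (nat_lit 35690362437) (nat_lit 152) (nat_lit 8615058111) (nat_lit 0) (nat_lit 26081911299) (nat_lit 5) (nat_lit 5) (nat_lit 7) (nat_lit 4) (nat_lit 5) (nat_lit 4) (nat_lit 344) (nat_lit 244) (nat_lit 192)) (XT.lf (nat_lit 0) (nat_lit 41184951874) (nat_lit 152) (nat_lit 971629584) (nat_lit 0) (nat_lit 31537202201) (nat_lit 5) (nat_lit 5) (nat_lit 7) (nat_lit 4) (nat_lit 5) (nat_lit 4) (nat_lit 345) (nat_lit 244) (nat_lit 191))) (XT.nd (nat_lit 78) (nat_lit 0) (nat_lit 0) (XT.lf (nat_lit 0) (nat_lit 7234073835) (nat_lit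 76) (nat_lit 39806185060) (nat_lit 76) (nat_lit 30121008213) (nat_lit 4) (nat_lit 4) (nat_lit 5) (nat_lit 5) (nat_lit 5) (nat_lit 4) (nat_lit 346) (nat_lit 244) (nat_lit 190)) (XT.nd (nat_lit 78) (nat_lit 0) (nat_lit 0) (XT.lf (nat_lit 0) (nat_lit 15833192685) (nat_lit 76) (nat_lit 37345131121) (nat_lit 76) (nat_lit 27624309345) (nat_lit 4) (nat_lit 4) (nat_lit 5) (nat_lit 5) (nat_lit 5) (nat_lit 4) (nat_lit 347) (nat_lit 244) (nat_lit 189)) (XT.lf (nat_lit 0) (nat_lit 24814074598) (nat_lit 76) (nat_lit 34784015005) (nat_lit 76) (nat_lit 25029245679) (nat_lit 4) (nat_lit 4) (nat_lit 5) (nat_lit 5) (nat_lit 5) (nat_lit 4) (nat_lit 348) (nat_lit 244) (nat_lit 188))))) (XT.nd (nat_lit 234) (nat_lit 0) (nat_lit 0) (XT.nd (nat_lit 78) (nat_lit 0) (nat_lit 0) (XT.lf (nat_lit 0) (nat_lit 34198102624) (nat_lit 76) (nat_lit 32116738818) (nat_lit 76) (nat_lit 22329638491) (nat_lit 4) (nat_lit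 4) (nat_lit 5) (nat_lit 5) (nat_lit 5) (nat_lit 4) (nat_lit 349) (nat_lit 244) (nat_lit 187)) (XT.nd (nat_lit 78) (nat_lit 0) (nat_lit 0) (XT.lf (nat_lit 0) (nat_lit 44007619688) (nat_lit 76) (nat_lit 29336951902) (nat_lit 76) (nat_lit 19519060145) (nat_lit 4) (nat_lit 4) (nat_lit 5) (nat_lit 5) (nat_lit 5) (nat_lit 4) (nat_lit 350) (nat_lit 244) (nat_lit 186)) (XT.lf (nat_lit 0) (nat_lit 54265981783) (nat_lit 76) (nat_lit 26438035715) (nat_lit 76) (nat_lit 16590818788) (nat_lit 4) (nat_lit 4) (nat_lit 5) (nat_lit 5) (nat_lit 5) (nat_lit 4) (nat_lit 351) (nat_lit 244) (nat_lit 185)))) (XT.nd (nat_lit 78) (nat_lit 0) (nat_lit 0) (XT.lf (nat_lit 0) (nat_lit 64997613580) (nat_lit 76) (nat_lit 23413088078) (nat_lit 76) (nat_lit 13537942416) (nat_lit 4) (nat_lit 4) (nat_lit 5) (nat_lit 5) (nat_lit 5) (nat_lit 4) (nat_lit 352) (nat_lit 244) (nat_lit 184)) (XT.nd (nat_lit 78) (nat_lit 0) (nat_lit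 0) (XT.lf (nat_lit 0) (nat_lit 76228066584) (nat_lit 76) (nat_lit 20254906734) (nat_lit 76) (nat_lit 10353162277) (nat_lit 4) (nat_lit 4) (nat_lit 5) (nat_lit 5) (nat_lit 5) (nat_lit 4) (nat_lit 353) (nat_lit 244) (nat_lit 183)) (XT.lf (nat_lit 0) (nat_lit 87984079969) (nat_lit 76) (nat_lit 16955972202) (nat_lit 76) (nat_lit 7028895561) (nat_lit 4) (nat_lit 4) (nat_lit 5) (nat_lit 5) (nat_lit 5) (nat_lit 4) (nat_lit 354) (nat_lit 244) (nat_lit 182))))))))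
noncomputable def xc63 : XT := (XT.nd (nat_lit 1638) (nat_lit 76) (nat_lit 0) (XT.nd (nat_lit 780) (nat_lit 0) (nat_lit 0) (XT.nd (nat_lit 390) (nat_lit 0) (nat_lit 0) (XT.nd (nat_lit 156) (nat_lit 76) (nat_lit 0) (XT.nd (nat_lit 78) (nat_lit 76) (nat_lit 0) (XT.lf (nat_lit 0) (nat_lit 100293644242) (nat_lit 76) (nat_lit 13508429879) (nat_lit 76) (nat_lit 3557227346) (nat_lit 4) (nat_lit 4) (nat_lit 5) (nat_lit 5) (nat_lit 5) (nat_lit 4) (nat_lit 355) (nat_lit 244) (nat_lit 181)) (XT.lf (nat_lit 0) (nat_lit 67864341) (nat_lit 152) (nat_lit 9835057671) (nat_lit 76) (nat_lit 113117054233) (nat_lit 3) (nat_lit 5) (nat_lit 5) (nat_lit 5) (nat_lit 4) (nat_lit 4) (nat_lit 356) (nat_lit 244) (nat_lit 180))) (XT.nd (nat_lit 78) (nat_lit 76) (nat_lit 0) (XT.lf (nat_lit 0) (nat_lit 3738147676) (nat_lit 152) (nat_lit 2332859728) (nat_lit 76) (nat_lit 122890592143) (nat_lit 3) (nat_lit 5) (nat_lit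 5) (nat_lit 5) (nat_lit 4) (nat_lit 4) (nat_lit 357) (nat_lit 244) (nat_lit 179)) (XT.nd (nat_lit 78) (nat_lit 0) (nat_lit 0) (XT.lf (nat_lit 0) (nat_lit 5696666160) (nat_lit 76) (nat_lit 1968489681) (nat_lit 152) (nat_lit 127531492123) (nat_lit 2) (nat_lit 5) (nat_lit 3) (nat_lit 5) (nat_lit 4) (nat_lit 4) (nat_lit 358) (nat_lit 244) (nat_lit 178)) (XT.lf (nat_lit 0) (nat_lit 11849525803) (nat_lit 152) (nat_lit 127600162082) (nat_lit 0) (nat_lit 2290714616) (nat_lit 2) (nat_lit 5) (nat_lit 4) (nat_lit 4) (nat_lit 2) (nat_lit 4) (nat_lit 359) (nat_lit 244) (nat_lit 177))))) (XT.nd (nat_lit 156) (nat_lit 0) (nat_lit 0) (XT.nd (nat_lit 78) (nat_lit 0) (nat_lit 0) (XT.lf (nat_lit 0) (nat_lit 16260465401) (nat_lit 152) (nat_lit 125666364770) (nat_lit 0) (nat_lit 6683651103) (nat_lit 2) (nat_lit 5) (nat_lit 4) (nat_lit 4) (nat_lit 2) (nat_lit 4) (nat_lit 360) (nat_lit 244) (nat_lit 176))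 (XT.lf (nat_lit 0) (nat_lit 20877743231) (nat_lit 152) (nat_lit 123663251951) (nat_lit 0) (nat_lit 11283783113) (nat_lit 2) (nat_lit 5) (nat_lit 4) (nat_lit 4) (nat_lit 2) (nat_lit 4) (nat_lit 361) (nat_lit 244) (nat_lit 175))) (XT.nd (nat_lit 78) (nat_lit 0) (nat_lit 0) (XT.lf (nat_lit 0) (nat_lit 25712352813) (nat_lit 152) (nat_lit 121586054306) (nat_lit 0) (nat_lit 16102063343) (nat_lit 2) (nat_lit 5) (nat_lit 4) (nat_lit 4) (nat_lit 2) (nat_lit 4) (nat_lit 362) (nat_lit 244) (nat_lit 174)) (XT.nd (nat_lit 78) (nat_lit 0) (nat_lit 0) (XT.lf (nat_lit 0) (nat_lit 30775805122) (nat_lit 152) (nat_lit 119429826129) (nat_lit 0) (nat_lit 21149963887) (nat_lit 2) (nat_lit 5) (nat_lit 4) (nat_lit 4) (nat_lit 2) (nat_lit 4) (nat_lit 363) (nat_lit 244) (nat_lit 173)) (XT.lf (nat_lit 0) (nat_lit 36080155996) (nat_lit 152) (nat_lit 117189433541) (nat_lit 0) (nat_lit 26439503557) (nat_lit 2) (nat_lit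 5) (nat_lit 4) (nat_lit 4) (nat_lit 2) (nat_lit 4) (nat_lit 364) (nat_lit 244) (nat_lit 172)))))) (XT.nd (nat_lit 390) (nat_lit 0) (nat_lit 0) (XT.nd (nat_lit 156) (nat_lit 0) (nat_lit 0) (XT.nd (nat_lit 78) (nat_lit 0) (nat_lit 0) (XT.lf (nat_lit 0) (nat_lit 41638034842) (nat_lit 152) (nat_lit 114859542275) (nat_lit 0) (nat_lit 31983276495) (nat_lit 2) (nat_lit 5) (nat_lit 4) (nat_lit 4) (nat_lit 2) (nat_lit 4) (nat_lit 365) (nat_lit 244) (nat_lit 171)) (XT.lf (nat_lit 0) (nat_lit 47462674705) (nat_lit 152) (nat_lit 112434604971) (nat_lit 0) (nat_lit 37794482159) (nat_lit 2) (nat_lit 5) (nat_lit 4) (nat_lit 4) (nat_lit 2) (nat_lit 4) (nat_lit 366) (nat_lit 244) (nat_lit 170))) (XT.nd (nat_lit 78) (nat_lit 0) (nat_lit 0) (XT.lf (nat_lit 0) (nat_lit 53567943776) (nat_lit 152) (nat_lit 109908847969) (nat_lit 0) (nat_lit 43886956755) (nat_lit 2) (nat_lit 5) (nat_lit 4) (nat_lit 4) (nat_lit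 2) (nat_lit 4) (nat_lit 367) (nat_lit 244) (nat_lit 169)) (XT.nd (nat_lit 78) (nat_lit 0) (nat_lit 0) (XT.lf (nat_lit 0) (nat_lit 59968378409) (nat_lit 152) (nat_lit 107276257561) (nat_lit 0) (nat_lit 50275206174) (nat_lit 2) (nat_lit 5) (nat_lit 4) (nat_lit 4) (nat_lit 2) (nat_lit 4) (nat_lit 368) (nat_lit 244) (nat_lit 168)) (XT.lf (nat_lit 0) (nat_lit 66679217734) (nat_lit 152) (nat_lit 104530565675) (nat_lit 0) (nat_lit 56974440533) (nat_lit 2) (nat_lit 5) (nat_lit 4) (nat_lit 4) (nat_lit 2) (nat_lit 4) (nat_lit 369) (nat_lit 244) (nat_lit 167))))) (XT.nd (nat_lit 234) (nat_lit 0) (nat_lit 0) (XT.nd (nat_lit 78) (nat_lit 0) (nat_lit 0) (XT.lf (nat_lit 0) (nat_lit 73716439941) (nat_lit 152) (nat_lit 101665234950) (nat_lit 0) (nat_lit 64000610391) (nat_lit 2) (nat_lit 5) (nat_lit 4) (nat_lit 4) (nat_lit 2) (nat_lit 4) (nat_lit 370) (nat_lit 244) (nat_lit 166)) (XT.nd (nat_lit 78) (nat_lit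 0) (nat_lit 0) (XT.lf (nat_lit 0) (nat_lit 81096800320) (nat_lit 152) (nat_lit 98673443169) (nat_lit 0) (nat_lit 71370444724) (nat_lit 2) (nat_lit 5) (nat_lit 4) (nat_lit 4) (nat_lit 2) (nat_lit 4) (nat_lit 371) (nat_lit 244) (nat_lit 165)) (XT.lf (nat_lit 0) (nat_lit 88837871157) (nat_lit 152) (nat_lit 95548067018) (nat_lit 0) (nat_lit 79101490755) (nat_lit 2) (nat_lit 5) (nat_lit 4) (nat_lit 4) (nat_lit 2) (nat_lit 4) (nat_lit 372) (nat_lit 244) (nat_lit 164)))) (XT.nd (nat_lit 78) (nat_lit 0) (nat_lit 0) (XT.lf (nat_lit 0) (nat_lit 96958083574) (nat_lit 152) (nat_lit 92281665126) (nat_lit 0) (nat_lit 87212155738) (nat_lit 2) (nat_lit 5) (nat_lit 4) (nat_lit 4) (nat_lit 2) (nat_lit 4) (nat_lit 373) (nat_lit 244) (nat_lit 163)) (XT.nd (nat_lit 78) (nat_lit 0) (nat_lit 0) (XT.lf (nat_lit 0) (nat_lit 105476771410) (nat_lit 152) (nat_lit 88866460346) (nat_lit 0) (nat_lit 95721750780) (nat_lit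 2) (nat_lit 5) (nat_lit 4) (nat_lit 4) (nat_lit 2) (nat_lit 4) (nat_lit 374) (nat_lit 244) (nat_lit 162)) (XT.lf (nat_lit 0) (nat_lit 114414217256) (nat_lit 152) (nat_lit 85294321237) (nat_lit 0) (nat_lit 104650536821) (nat_lit 2) (nat_lit 5) (nat_lit 4) (nat_lit 4) (nat_lit 2) (nat_lit 4) (nat_lit 375) (nat_lit 244) (nat_lit 161))))))) (XT.nd (nat_lit 780) (nat_lit 76) (nat_lit 0) (XT.nd (nat_lit 390) (nat_lit 0) (nat_lit 0) (XT.nd (nat_lit 156) (nat_lit 0) (nat_lit 0) (XT.nd (nat_lit 78) (nat_lit 0) (nat_lit 0) (XT.lf (nat_lit 0) (nat_lit 123791700743) (nat_lit 152) (nat_lit 81556742707) (nat_lit 0) (nat_lit 114019772876) (nat_lit 2) (nat_lit 5) (nat_lit 4) (nat_lit 4) (nat_lit 2) (nat_lit 4) (nat_lit 376) (nat_lit 244) (nat_lit 160)) (XT.lf (nat_lit 0) (nat_lit 133631549213) (nat_lit 152) (nat_lit 77644825759) (nat_lit 0) (nat_lit 123851766648) (nat_lit 2) (nat_lit 5) (nat_lit 4)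 (nat_lit 4) (nat_lit 2) (nat_lit 4) (nat_lit 377) (nat_lit 244) (nat_lit 159))) (XT.nd (nat_lit 78) (nat_lit 0) (nat_lit 0) (XT.lf (nat_lit 0) (nat_lit 143957190878) (nat_lit 152) (nat_lit 73549256304) (nat_lit 0) (nat_lit 134169927649) (nat_lit 2) (nat_lit 5) (nat_lit 4) (nat_lit 4) (nat_lit 2) (nat_lit 4) (nat_lit 378) (nat_lit 244) (nat_lit 158)) (XT.nd (nat_lit 78) (nat_lit 0) (nat_lit 0) (XT.lf (nat_lit 0) (nat_lit 154793210599) (nat_lit 152) (nat_lit 69260282988) (nat_lit 0) (nat_lit 144998822927) (nat_lit 2) (nat_lit 5) (nat_lit 4) (nat_lit 4) (nat_lit 2) (nat_lit 4) (nat_lit 379) (nat_lit 244) (nat_lit 157)) (XT.lf (nat_lit 0) (nat_lit 166165408421) (nat_lit 152) (nat_lit 64767693968) (nat_lit 0) (nat_lit 156364235566) (nat_lit 2) (nat_lit 5) (nat_lit 4) (nat_lit 4) (nat_lit 2) (nat_lit 4) (nat_lit 380) (nat_lit 244) (nat_lit 156))))) (XT.nd (nat_lit 156) (nat_lit 0) (nat_lit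 0) (XT.nd (nat_lit 78) (nat_lit 0) (nat_lit 0) (XT.lf (nat_lit 0) (nat_lit 178100861008) (nat_lit 152) (nat_lit 60060792605) (nat_lit 0) (nat_lit 168293226073) (nat_lit 2) (nat_lit 5) (nat_lit 4) (nat_lit 4) (nat_lit 2) (nat_lit 4) (nat_lit 381) (nat_lit 244) (nat_lit 155)) (XT.lf (nat_lit 0) (nat_lit 190627986102) (nat_lit 152) (nat_lit 55128371990) (nat_lit 0) (nat_lit 180814196806) (nat_lit 2) (nat_lit 5) (nat_lit 4) (nat_lit 4) (nat_lit 2) (nat_lit 4) (nat_lit 382) (nat_lit 244) (nat_lit 154))) (XT.nd (nat_lit 78) (nat_lit 0) (nat_lit 0) (XT.lf (nat_lit 0) (nat_lit 203776610193) (nat_lit 152) (nat_lit 49958688265) (nat_lit 0) (nat_lit 193956959601) (nat_lit 2) (nat_lit 5) (nat_lit 4) (nat_lit 4) (nat_lit 2) (nat_lit 4) (nat_lit 383) (nat_lit 244) (nat_lit 153)) (XT.nd (nat_lit 78) (nat_lit 0) (nat_lit 0) (XT.lf (nat_lit 0) (nat_lit 217578039528) (nat_lit 152) (nat_lit 44539432659)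 (nat_lit 0) (nat_lit 207752806749) (nat_lit 2) (nat_lit 5) (nat_lit 4) (nat_lit 4) (nat_lit 2) (nat_lit 4) (nat_lit 384) (nat_lit 244) (nat_lit 152)) (XT.lf (nat_lit 0) (nat_lit 232065134653) (nat_lit 152) (nat_lit 38857702182) (nat_lit 0) (nat_lit 222234585505) (nat_lit 2) (nat_lit 5) (nat_lit 4) (nat_lit 4) (nat_lit 2) (nat_lit 4) (nat_lit 385) (nat_lit 244) (nat_lit 151)))))) (XT.nd (nat_lit 390) (nat_lit 76) (nat_lit 0) (XT.nd (nat_lit 156) (nat_lit 0) (nat_lit 0) (XT.nd (nat_lit 78) (nat_lit 0) (nat_lit 0) (XT.lf (nat_lit 0) (nat_lit 247272388652) (nat_lit 152) (nat_lit 32899968904) (nat_lit 0) (nat_lit 237436776296) (nat_lit 2) (nat_lit 5) (nat_lit 4) (nat_lit 4) (nat_lit 2) (nat_lit 4) (nat_lit 386) (nat_lit 244) (nat_lit 150)) (XT.lf (nat_lit 0) (nat_lit 263236009272) (nat_lit 152) (nat_lit 26652047748) (nat_lit 0) (nat_lit 253395574814) (nat_lit 2) (nat_lit 5) (nat_lit 4) (nat_lit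 4) (nat_lit 2) (nat_lit 4) (nat_lit 387) (nat_lit 244) (nat_lit 149))) (XT.nd (nat_lit 78) (nat_lit 0) (nat_lit 0) (XT.lf (nat_lit 0) (nat_lit 279994005135) (nat_lit 152) (nat_lit 20099062709) (nat_lit 0) (nat_lit 270148978197) (nat_lit 2) (nat_lit 5) (nat_lit 4) (nat_lit 4) (nat_lit 2) (nat_lit 4) (nat_lit 388) (nat_lit 244) (nat_lit 148)) (XT.nd (nat_lit 78) (nat_lit 0) (nat_lit 0) (XT.lf (nat_lit 0) (nat_lit 297586276229) (nat_lit 152) (nat_lit 13225411442) (nat_lit 0) (nat_lit 287736875502) (nat_lit 2) (nat_lit 5) (nat_lit 4) (nat_lit 4) (nat_lit 2) (nat_lit 4) (nat_lit 389) (nat_lit 244) (nat_lit 147)) (XT.lf (nat_lit 0) (nat_lit 316054708916) (nat_lit 152) (nat_lit 6014728111) (nat_lit 0) (nat_lit 306201142675) (nat_lit 2) (nat_lit 5) (nat_lit 4) (nat_lit 4) (nat_lit 2) (nat_lit 4) (nat_lit 390) (nat_lit 244) (nat_lit 146))))) (XT.nd (nat_lit 32916) (nat_lit 0) (nat_lit 2888) (XT.nd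 (nat_lit 32760) (nat_lit 0) (nat_lit 3344) (XT.lf (nat_lit 0) (nat_lit 1601410720) (nat_lit 76) (nat_lit 333866867442) (nat_lit 76) (nat_lit 324009334045) (nat_lit 1) (nat_lit 4) (nat_lit 2) (nat_lit 5) (nat_lit 2) (nat_lit 4) (nat_lit 391) (nat_lit 244) (nat_lit 145)) (XT.nd (nat_lit 78) (nat_lit 228) (nat_lit 0) (XT.lf (nat_lit 0) (nat_lit 3095788859) (nat_lit 228) (nat_lit 806592795) (nat_lit 228) (nat_lit 806592795) (nat_lit 48) (nat_lit 4) (nat_lit 51) (nat_lit 5) (nat_lit 51) (nat_lit 4) (nat_lit 290) (nat_lit 245) (nat_lit 245)) (XT.lf (nat_lit 0) (nat_lit 2302096719) (nat_lit 228) (nat_lit 5888243282) (nat_lit 0) (nat_lit 1452325168) (nat_lit 45) (nat_lit 5) (nat_lit 48) (nat_lit 4) (nat_lit 45) (nat_lit 4) (nat_lit 291) (nat_lit 245) (nat_lit 244)))) (XT.nd (nat_lit 78) (nat_lit 228) (nat_lit 0) (XT.lf (nat_lit 0) (nat_lit 1066140782) (nat_lit 228) (nat_lit 5236611796) (nat_lit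 228) (nat_lit 3577534007) (nat_lit 42) (nat_lit 4) (nat_lit 45) (nat_lit 5) (nat_lit 45) (nat_lit 4) (nat_lit 292) (nat_lit 245) (nat_lit 243)) (XT.nd (nat_lit 78) (nat_lit 152) (nat_lit 0) (XT.lf (nat_lit 0) (nat_lit 309367796) (nat_lit 304) (nat_lit 1795641651) (nat_lit 76) (nat_lit 8027269972) (nat_lit 41) (nat_lit 5) (nat_lit 45) (nat_lit 5) (nat_lit 42) (nat_lit 4) (nat_lit 293) (nat_lit 245) (nat_lit 242)) (XT.lf (nat_lit 0) (nat_lit 4228960340) (nat_lit 228) (nat_lit 4951495840) (nat_lit 0) (nat_lit 1215712482) (nat_lit 39) (nat_lit 5) (nat_lit 42) (nat_lit 4) (nat_lit 39) (nat_lit 4) (nat_lit 294) (nat_lit 245) (nat_lit 241))))))))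
noncomputable def xc64 : XT := (XT.nd (nat_lit 1560) (nat_lit 608) (nat_lit 0) (XT.nd (nat_lit 780) (nat_lit 760) (nat_lit 0) (XT.nd (nat_lit 390) (nat_lit 456) (nat_lit 0) (XT.nd (nat_lit 156) (nat_lit 380) (nat_lit 0) (XT.nd (nat_lit 78) (nat_lit 76) (nat_lit 0) (XT.lf (nat_lit 0) (nat_lit 2247287644) (nat_lit 152) (nat_lit 6053679724) (nat_lit 152) (nat_lit 2374613621) (nat_lit 37) (nat_lit 4) (nat_lit 39) (nat_lit 5) (nat_lit 39) (nat_lit 4) (nat_lit 295) (nat_lit 245) (nat_lit 240)) (XT.lf (nat_lit 0) (nat_lit 1498243906) (nat_lit 228) (nat_lit 1241778709) (nat_lit 76) (nat_lit 8230718403) (nat_lit 36) (nat_lit 5) (nat_lit 39) (nat_lit 5) (nat_lit 37) (nat_lit 4) (nat_lit 296) (nat_lit 245) (nat_lit 239))) (XT.nd (nat_lit 78) (nat_lit 228) (nat_lit 0) (XT.lf (nat_lit 0) (nat_lit 5458667054) (nat_lit 228) (nat_lit 5045770251) (nat_lit 0) (nat_lit 775718965) (nat_lit 34) (nat_lit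 5) (nat_lit 37) (nat_lit 4) (nat_lit 34) (nat_lit 4) (nat_lit 297) (nat_lit 245) (nat_lit 238)) (XT.nd (nat_lit 78) (nat_lit 76) (nat_lit 0) (XT.lf (nat_lit 0) (nat_lit 2333316785) (nat_lit 152) (nat_lit 7252076750) (nat_lit 152) (nat_lit 2021358344) (nat_lit 32) (nat_lit 4) (nat_lit 34) (nat_lit 5) (nat_lit 34) (nat_lit 4) (nat_lit 298) (nat_lit 245) (nat_lit 237)) (XT.lf (nat_lit 0) (nat_lit 1858939176) (nat_lit 228) (nat_lit 1941579112) (nat_lit 76) (nat_lit 8150075612) (nat_lit 31) (nat_lit 5) (nat_lit 34) (nat_lit 5) (nat_lit 32) (nat_lit 4) (nat_lit 299) (nat_lit 245) (nat_lit 236))))) (XT.nd (nat_lit 156) (nat_lit 152) (nat_lit 0) (XT.nd (nat_lit 78) (nat_lit 152) (nat_lit 0) (XT.lf (nat_lit 0) (nat_lit 5695971328) (nat_lit 152) (nat_lit 130965051) (nat_lit 228) (nat_lit 6485060868) (nat_lit 29) (nat_lit 5) (nat_lit 31) (nat_lit 5) (nat_lit 32) (nat_lit 4) (nat_lit 300) (nat_lit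 245) (nat_lit 235)) (XT.lf (nat_lit 0) (nat_lit 849805930) (nat_lit 152) (nat_lit 9122565842) (nat_lit 152) (nat_lit 2720248846) (nat_lit 27) (nat_lit 4) (nat_lit 29) (nat_lit 5) (nat_lit 29) (nat_lit 4) (nat_lit 301) (nat_lit 245) (nat_lit 234))) (XT.nd (nat_lit 78) (nat_lit 76) (nat_lit 0) (XT.lf (nat_lit 0) (nat_lit 1184239484) (nat_lit 228) (nat_lit 4403818431) (nat_lit 76) (nat_lit 7503802523) (nat_lit 26) (nat_lit 5) (nat_lit 29) (nat_lit 5) (nat_lit 27) (nat_lit 4) (nat_lit 302) (nat_lit 245) (nat_lit 233)) (XT.nd (nat_lit 78) (nat_lit 0) (nat_lit 0) (XT.lf (nat_lit 0) (nat_lit 3264604850) (nat_lit 76) (nat_lit 1859721427) (nat_lit 152) (nat_lit 8388004561) (nat_lit 25) (nat_lit 5) (nat_lit 26) (nat_lit 5) (nat_lit 27) (nat_lit 4) (nat_lit 303) (nat_lit 245) (nat_lit 232)) (XT.lf (nat_lit 0) (nat_lit 9251405385) (nat_lit 152) (nat_lit 2717840373) (nat_lit 0) (nat_lit 1985163331)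 (nat_lit 25) (nat_lit 5) (nat_lit 27) (nat_lit 4) (nat_lit 25) (nat_lit 4) (nat_lit 304) (nat_lit 245) (nat_lit 231)))))) (XT.nd (nat_lit 390) (nat_lit 304) (nat_lit 0) (XT.nd (nat_lit 156) (nat_lit 228) (nat_lit 0) (XT.nd (nat_lit 78) (nat_lit 76) (nat_lit 0) (XT.lf (nat_lit 0) (nat_lit 5128110378) (nat_lit 152) (nat_lit 8454993514) (nat_lit 152) (nat_lit 835653829) (nat_lit 23) (nat_lit 4) (nat_lit 25) (nat_lit 5) (nat_lit 25) (nat_lit 4) (nat_lit 305) (nat_lit 245) (nat_lit 230)) (XT.lf (nat_lit 0) (nat_lit 3056828205) (nat_lit 228) (nat_lit 1689125322) (nat_lit 76) (nat_lit 10161175631) (nat_lit 22) (nat_lit 5) (nat_lit 25) (nat_lit 5) (nat_lit 23) (nat_lit 4) (nat_lit 306) (nat_lit 245) (nat_lit 229))) (XT.nd (nat_lit 78) (nat_lit 152) (nat_lit 0) (XT.lf (nat_lit 0) (nat_lit 6294806637) (nat_lit 76) (nat_lit 812851773) (nat_lit 152) (nat_lit 8312054303) (nat_lit 21) (nat_lit 5)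 (nat_lit 22) (nat_lit 5) (nat_lit 23) (nat_lit 4) (nat_lit 307) (nat_lit 245) (nat_lit 228)) (XT.nd (nat_lit 78) (nat_lit 152) (nat_lit 0) (XT.lf (nat_lit 0) (nat_lit 11336420019) (nat_lit 152) (nat_lit 1458678768) (nat_lit 0) (nat_lit 3164122767) (nat_lit 21) (nat_lit 5) (nat_lit 23) (nat_lit 4) (nat_lit 21) (nat_lit 4) (nat_lit 308) (nat_lit 245) (nat_lit 227)) (XT.lf (nat_lit 0) (nat_lit 6611519322) (nat_lit 152) (nat_lit 9181201219) (nat_lit 152) (nat_lit 732242735) (nat_lit 19) (nat_lit 4) (nat_lit 21) (nat_lit 5) (nat_lit 21) (nat_lit 4) (nat_lit 309) (nat_lit 245) (nat_lit 226))))) (XT.nd (nat_lit 156) (nat_lit 152) (nat_lit 0) (XT.nd (nat_lit 78) (nat_lit 76) (nat_lit 0) (XT.lf (nat_lit 0) (nat_lit 3170575682) (nat_lit 228) (nat_lit 2212765224) (nat_lit 76) (nat_lit 11736838303) (nat_lit 18) (nat_lit 5) (nat_lit 21) (nat_lit 5) (nat_lit 19) (nat_lit 4) (nat_lit 310) (nat_lit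 245) (nat_lit 225)) (XT.lf (nat_lit 0) (nat_lit 5879480316) (nat_lit 76) (nat_lit 1360941919) (nat_lit 152) (nat_lit 10504362708) (nat_lit 17) (nat_lit 5) (nat_lit 18) (nat_lit 5) (nat_lit 19) (nat_lit 4) (nat_lit 311) (nat_lit 245) (nat_lit 224))) (XT.nd (nat_lit 78) (nat_lit 152) (nat_lit 0) (XT.lf (nat_lit 0) (nat_lit 11502026797) (nat_lit 152) (nat_lit 4161372767) (nat_lit 0) (nat_lit 2737859518) (nat_lit 17) (nat_lit 5) (nat_lit 19) (nat_lit 4) (nat_lit 17) (nat_lit 4) (nat_lit 312) (nat_lit 245) (nat_lit 223)) (XT.nd (nat_lit 78) (nat_lit 76) (nat_lit 0) (XT.lf (nat_lit 0) (nat_lit 3866847794) (nat_lit 76) (nat_lit 12102531645) (nat_lit 76) (nat_lit 3121593051) (nat_lit 16) (nat_lit 4) (nat_lit 17) (nat_lit 5) (nat_lit 17) (nat_lit 4) (nat_lit 313) (nat_lit 245) (nat_lit 222)) (XT.lf (nat_lit 0) (nat_lit 799801360) (nat_lit 152) (nat_lit 7547794677) (nat_lit 76) (nat_lit 11467864542)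 (nat_lit 15) (nat_lit 5) (nat_lit 17) (nat_lit 5) (nat_lit 16) (nat_lit 4) (nat_lit 314) (nat_lit 245) (nat_lit 221))))))) (XT.nd (nat_lit 780) (nat_lit 228) (nat_lit 0) (XT.nd (nat_lit 390) (nat_lit 228) (nat_lit 0) (XT.nd (nat_lit 156) (nat_lit 76) (nat_lit 0) (XT.nd (nat_lit 78) (nat_lit 0) (nat_lit 0) (XT.lf (nat_lit 0) (nat_lit 316299184) (nat_lit 76) (nat_lit 4415556729) (nat_lit 152) (nat_lit 15845825943) (nat_lit 14) (nat_lit 5) (nat_lit 15) (nat_lit 5) (nat_lit 16) (nat_lit 4) (nat_lit 315) (nat_lit 245) (nat_lit 220)) (XT.lf (nat_lit 0) (nat_lit 8683137616) (nat_lit 76) (nat_lit 221446904) (nat_lit 152) (nat_lit 12471266385) (nat_lit 14) (nat_lit 5) (nat_lit 15) (nat_lit 5) (nat_lit 16) (nat_lit 4) (nat_lit 316) (nat_lit 245) (nat_lit 219))) (XT.nd (nat_lit 78) (nat_lit 76) (nat_lit 0) (XT.lf (nat_lit 0) (nat_lit 13270459877) (nat_lit 152) (nat_lit 4959153829) (nat_lit 0) (nat_lit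 3985127543) (nat_lit 14) (nat_lit 5) (nat_lit 16) (nat_lit 4) (nat_lit 14) (nat_lit 4) (nat_lit 317) (nat_lit 245) (nat_lit 218)) (XT.nd (nat_lit 78) (nat_lit 0) (nat_lit 0) (XT.lf (nat_lit 0) (nat_lit 3115999141) (nat_lit 76) (nat_lit 14713968497) (nat_lit 76) (nat_lit 5266878070) (nat_lit 13) (nat_lit 4) (nat_lit 14) (nat_lit 5) (nat_lit 14) (nat_lit 4) (nat_lit 318) (nat_lit 245) (nat_lit 217)) (XT.lf (nat_lit 0) (nat_lit 11628171953) (nat_lit 76) (nat_lit 10997818499) (nat_lit 76) (nat_lit 1396672746) (nat_lit 13) (nat_lit 4) (nat_lit 14) (nat_lit 5) (nat_lit 14) (nat_lit 4) (nat_lit 319) (nat_lit 245) (nat_lit 216))))) (XT.nd (nat_lit 156) (nat_lit 76) (nat_lit 0) (XT.nd (nat_lit 78) (nat_lit 76) (nat_lit 0) (XT.lf (nat_lit 0) (nat_lit 2508617481) (nat_lit 152) (nat_lit 4605199274) (nat_lit 76) (nat_lit 17882557530) (nat_lit 12) (nat_lit 5) (nat_lit 14) (nat_lit 5) (nat_lit 13)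 (nat_lit 4) (nat_lit 320) (nat_lit 245) (nat_lit 215)) (XT.lf (nat_lit 0) (nat_lit 3535494049) (nat_lit 76) (nat_lit 3012355650) (nat_lit 152) (nat_lit 19470525727) (nat_lit 11) (nat_lit 5) (nat_lit 12) (nat_lit 5) (nat_lit 13) (nat_lit 4) (nat_lit 321) (nat_lit 245) (nat_lit 214))) (XT.nd (nat_lit 78) (nat_lit 76) (nat_lit 0) (XT.lf (nat_lit 0) (nat_lit 10819371559) (nat_lit 152) (nat_lit 14994747266) (nat_lit 0) (nat_lit 1275870018) (nat_lit 11) (nat_lit 5) (nat_lit 13) (nat_lit 4) (nat_lit 11) (nat_lit 4) (nat_lit 322) (nat_lit 245) (nat_lit 213)) (XT.nd (nat_lit 78) (nat_lit 76) (nat_lit 0) (XT.lf (nat_lit 0) (nat_lit 15287997587) (nat_lit 152) (nat_lit 7304246536) (nat_lit 0) (nat_lit 5623789666) (nat_lit 11) (nat_lit 5) (nat_lit 13) (nat_lit 4) (nat_lit 11) (nat_lit 4) (nat_lit 323) (nat_lit 245) (nat_lit 212)) (XT.lf (nat_lit 0) (nat_lit 675585808) (nat_lit 76) (nat_lit 19252298033)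 (nat_lit 76) (nat_lit 9473131655) (nat_lit 10) (nat_lit 4) (nat_lit 11) (nat_lit 5) (nat_lit 11) (nat_lit 4) (nat_lit 324) (nat_lit 245) (nat_lit 211)))))) (XT.nd (nat_lit 390) (nat_lit 76) (nat_lit 0) (XT.nd (nat_lit 156) (nat_lit 152) (nat_lit 0) (XT.nd (nat_lit 78) (nat_lit 0) (nat_lit 0) (XT.lf (nat_lit 0) (nat_lit 9193064464) (nat_lit 76) (nat_lit 15668874229) (nat_lit 76) (nat_lit 5780223607) (nat_lit 10) (nat_lit 4) (nat_lit 11) (nat_lit 5) (nat_lit 11) (nat_lit 4) (nat_lit 325) (nat_lit 245) (nat_lit 210)) (XT.lf (nat_lit 0) (nat_lit 18026957765) (nat_lit 76) (nat_lit 11957141700) (nat_lit 76) (nat_lit 1964220368) (nat_lit 10) (nat_lit 4) (nat_lit 11) (nat_lit 5) (nat_lit 11) (nat_lit 4) (nat_lit 326) (nat_lit 245) (nat_lit 209))) (XT.nd (nat_lit 78) (nat_lit 76) (nat_lit 0) (XT.lf (nat_lit 0) (nat_lit 1920464551) (nat_lit 152) (nat_lit 6155274439) (nat_lit 76) (nat_lit 25245310244)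 (nat_lit 9) (nat_lit 5) (nat_lit 11) (nat_lit 5) (nat_lit 10) (nat_lit 4) (nat_lit 327) (nat_lit 245) (nat_lit 208)) (XT.nd (nat_lit 78) (nat_lit 0) (nat_lit 0) (XT.lf (nat_lit 0) (nat_lit 1927519930) (nat_lit 76) (nat_lit 3981906072) (nat_lit 152) (nat_lit 28852596777) (nat_lit 8) (nat_lit 5) (nat_lit 9) (nat_lit 5) (nat_lit 10) (nat_lit 4) (nat_lit 328) (nat_lit 245) (nat_lit 207)) (XT.lf (nat_lit 0) (nat_lit 10154984755) (nat_lit 152) (nat_lit 25749738676) (nat_lit 0) (nat_lit 367483484) (nat_lit 8) (nat_lit 5) (nat_lit 10) (nat_lit 4) (nat_lit 8) (nat_lit 4) (nat_lit 329) (nat_lit 245) (nat_lit 206))))) (XT.nd (nat_lit 234) (nat_lit 76) (nat_lit 0) (XT.nd (nat_lit 78) (nat_lit 0) (nat_lit 0) (XT.lf (nat_lit 0) (nat_lit 14626912384) (nat_lit 152) (nat_lit 18472589492) (nat_lit 0) (nat_lit 4757712284) (nat_lit 8) (nat_lit 5) (nat_lit 10) (nat_lit 4) (nat_lit 8) (nat_lit 4) (nat_lit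 330) (nat_lit 245) (nat_lit 205)) (XT.nd (nat_lit 78) (nat_lit 0) (nat_lit 0) (XT.lf (nat_lit 0) (nat_lit 19273687624) (nat_lit 152) (nat_lit 10923560039) (nat_lit 0) (nat_lit 9326679115) (nat_lit 8) (nat_lit 5) (nat_lit 10) (nat_lit 4) (nat_lit 8) (nat_lit 4) (nat_lit 331) (nat_lit 245) (nat_lit 204)) (XT.lf (nat_lit 0) (nat_lit 24106374225) (nat_lit 152) (nat_lit 3084676438) (nat_lit 0) (nat_lit 14085262470) (nat_lit 8) (nat_lit 5) (nat_lit 10) (nat_lit 4) (nat_lit 8) (nat_lit 4) (nat_lit 332) (nat_lit 245) (nat_lit 203)))) (XT.nd (nat_lit 78) (nat_lit 0) (nat_lit 0) (XT.lf (nat_lit 0) (nat_lit 5230121883) (nat_lit 76) (nat_lit 23988013560) (nat_lit 76) (nat_lit 13896327285) (nat_lit 7) (nat_lit 4) (nat_lit 8) (nat_lit 5) (nat_lit 8) (nat_lit 4) (nat_lit 333) (nat_lit 245) (nat_lit 202)) (XT.nd (nat_lit 78) (nat_lit 0) (nat_lit 0) (XT.lf (nat_lit 0) (nat_lit 13985672680) (nat_lit 76)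 (nat_lit 20608660005) (nat_lit 76) (nat_lit 10449759900) (nat_lit 7) (nat_lit 4) (nat_lit 8) (nat_lit 5) (nat_lit 8) (nat_lit 4) (nat_lit 334) (nat_lit 245) (nat_lit 201)) (XT.lf (nat_lit 0) (nat_lit 23100829167) (nat_lit 76) (nat_lit 17097184405) (nat_lit 76) (nat_lit 6874271130) (nat_lit 7) (nat_lit 4) (nat_lit 8) (nat_lit 5) (nat_lit 8) (nat_lit 4) (nat_lit 335) (nat_lit 245) (nat_lit 200))))))))
noncomputable def xc65 : XT := (XT.nd (nat_lit 1560) (nat_lit 152) (nat_lit 0) (XT.nd (nat_lit 780) (nat_lit 76) (nat_lit 0) (XT.nd (nat_lit 390) (nat_lit 0) (nat_lit 0) (XT.nd (nat_lit 156) (nat_lit 76) (nat_lit 0) (XT.nd (nat_lit 78) (nat_lit 76) (nat_lit 0) (XT.lf (nat_lit 0) (nat_lit 32597294097) (nat_lit 76) (nat_lit 13445226104) (nat_lit 76) (nat_lit 3161347905) (nat_lit 7) (nat_lit 4) (nat_lit 8) (nat_lit 5) (nat_lit 8) (nat_lit 4) (nat_lit 336) (nat_lit 245) (nat_lit 199)) (XT.lf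 (nat_lit 0) (nat_lit 675514506) (nat_lit 152) (nat_lit 8957135293) (nat_lit 76) (nat_lit 41810723432) (nat_lit 6) (nat_lit 5) (nat_lit 8) (nat_lit 5) (nat_lit 7) (nat_lit 4) (nat_lit 337) (nat_lit 245) (nat_lit 198))) (XT.nd (nat_lit 78) (nat_lit 76) (nat_lit 0) (XT.lf (nat_lit 0) (nat_lit 4561681560) (nat_lit 152) (nat_lit 1045789816) (nat_lit 76) (nat_lit 48186617682) (nat_lit 6) (nat_lit 5) (nat_lit 8) (nat_lit 5) (nat_lit 7) (nat_lit 4) (nat_lit 338) (nat_lit 245) (nat_lit 197)) (XT.nd (nat_lit 78) (nat_lit 0) (nat_lit 0) (XT.lf (nat_lit 0) (nat_lit 7433577356) (nat_lit 76) (nat_lit 1290070528) (nat_lit 152) (nat_lit 47534629572) (nat_lit 5) (nat_lit 5) (nat_lit 6) (nat_lit 5) (nat_lit 7) (nat_lit 4) (nat_lit 339) (nat_lit 245) (nat_lit 196)) (XT.lf (nat_lit 0) (nat_lit 13127945760) (nat_lit 152) (nat_lit 42588136979) (nat_lit 0) (nat_lit 3127891663) (nat_lit 5) (nat_lit 5) (nat_lit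 7) (nat_lit 4) (nat_lit 5) (nat_lit 4) (nat_lit 340) (nat_lit 245) (nat_lit 195))))) (XT.nd (nat_lit 156) (nat_lit 0) (nat_lit 0) (XT.nd (nat_lit 78) (nat_lit 0) (nat_lit 0) (XT.lf (nat_lit 0) (nat_lit 17740841976) (nat_lit 152) (nat_lit 36123410407) (nat_lit 0) (nat_lit 7695294914) (nat_lit 5) (nat_lit 5) (nat_lit 7) (nat_lit 4) (nat_lit 5) (nat_lit 4) (nat_lit 341) (nat_lit 245) (nat_lit 194)) (XT.lf (nat_lit 0) (nat_lit 22553178002) (nat_lit 152) (nat_lit 29394986560) (nat_lit 0) (nat_lit 12464304307) (nat_lit 5) (nat_lit 5) (nat_lit 7) (nat_lit 4) (nat_lit 5) (nat_lit 4) (nat_lit 342) (nat_lit 245) (nat_lit 193))) (XT.nd (nat_lit 78) (nat_lit 0) (nat_lit 0) (XT.lf (nat_lit 0) (nat_lit 27576411782) (nat_lit 152) (nat_lit 22386845384) (nat_lit 0) (nat_lit 17446274626) (nat_lit 5) (nat_lit 5) (nat_lit 7) (nat_lit 4) (nat_lit 5) (nat_lit 4) (nat_lit 343) (nat_lit 245) (nat_lit 192))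 (XT.nd (nat_lit 78) (nat_lit 0) (nat_lit 0) (XT.lf (nat_lit 0) (nat_lit 32822503396) (nat_lit 152) (nat_lit 15082300827) (nat_lit 0) (nat_lit 22653067707) (nat_lit 5) (nat_lit 5) (nat_lit 7) (nat_lit 4) (nat_lit 5) (nat_lit 4) (nat_lit 344) (nat_lit 245) (nat_lit 191)) (XT.lf (nat_lit 0) (nat_lit 38303943539) (nat_lit 152) (nat_lit 7463961116) (nat_lit 0) (nat_lit 28097080674) (nat_lit 5) (nat_lit 5) (nat_lit 7) (nat_lit 4) (nat_lit 5) (nat_lit 4) (nat_lit 345) (nat_lit 245) (nat_lit 190)))))) (XT.nd (nat_lit 390) (nat_lit 0) (nat_lit 0) (XT.nd (nat_lit 156) (nat_lit 0) (nat_lit 0) (XT.nd (nat_lit 78) (nat_lit 0) (nat_lit 0) (XT.lf (nat_lit 0) (nat_lit 502392343) (nat_lit 76) (nat_lit 43539234666) (nat_lit 76) (nat_lit 33296726873) (nat_lit 4) (nat_lit 4) (nat_lit 5) (nat_lit 5) (nat_lit 5) (nat_lit 4) (nat_lit 346) (nat_lit 245) (nat_lit 189)) (XT.lf (nat_lit 0) (nat_lit 9078002472)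 (nat_lit 76) (nat_lit 41089395615) (nat_lit 76) (nat_lit 30812940271) (nat_lit 4) (nat_lit 4) (nat_lit 5) (nat_lit 5) (nat_lit 5) (nat_lit 4) (nat_lit 347) (nat_lit 245) (nat_lit 188))) (XT.nd (nat_lit 78) (nat_lit 0) (nat_lit 0) (XT.lf (nat_lit 0) (nat_lit 18036495125) (nat_lit 76) (nat_lit 38538960345) (nat_lit 76) (nat_lit 28230174000) (nat_lit 4) (nat_lit 4) (nat_lit 5) (nat_lit 5) (nat_lit 5) (nat_lit 4) (nat_lit 348) (nat_lit 245) (nat_lit 187)) (XT.nd (nat_lit 78) (nat_lit 0) (nat_lit 0) (XT.lf (nat_lit 0) (nat_lit 27399200047) (nat_lit 76) (nat_lit 35881856392) (nat_lit 76) (nat_lit 25542278618) (nat_lit 4) (nat_lit 4) (nat_lit 5) (nat_lit 5) (nat_lit 5) (nat_lit 4) (nat_lit 349) (nat_lit 245) (nat_lit 186)) (XT.lf (nat_lit 0) (nat_lit 37188409393) (nat_lit 76) (nat_lit 33111757318) (nat_lit 76) (nat_lit 22742854373) (nat_lit 4) (nat_lit 4) (nat_lit 5) (nat_lit 5) (nat_lit 5)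 (nat_lit 4) (nat_lit 350) (nat_lit 245) (nat_lit 185))))) (XT.nd (nat_lit 156) (nat_lit 0) (nat_lit 0) (XT.nd (nat_lit 78) (nat_lit 0) (nat_lit 0) (XT.lf (nat_lit 0) (nat_lit 47427430803) (nat_lit 76) (nat_lit 30222067648) (nat_lit 76) (nat_lit 19825235968) (nat_lit 4) (nat_lit 4) (nat_lit 5) (nat_lit 5) (nat_lit 5) (nat_lit 4) (nat_lit 351) (nat_lit 245) (nat_lit 184)) (XT.lf (nat_lit 0) (nat_lit 58140642901) (nat_lit 76) (nat_lit 27205907169) (nat_lit 76) (nat_lit 16782476695) (nat_lit 4) (nat_lit 4) (nat_lit 5) (nat_lit 5) (nat_lit 5) (nat_lit 4) (nat_lit 352) (nat_lit 245) (nat_lit 183))) (XT.nd (nat_lit 78) (nat_lit 0) (nat_lit 0) (XT.lf (nat_lit 0) (nat_lit 69353553335) (nat_lit 76) (nat_lit 24056094547) (nat_lit 76) (nat_lit 13607331888) (nat_lit 4) (nat_lit 4) (nat_lit 5) (nat_lit 5) (nat_lit 5) (nat_lit 4) (nat_lit 353) (nat_lit 245) (nat_lit 182)) (XT.nd (nat_lit 78) (nat_lit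 0) (nat_lit 0) (XT.lf (nat_lit 0) (nat_lit 81092859509) (nat_lit 76) (nat_lit 20765130227) (nat_lit 76) (nat_lit 10292241677) (nat_lit 4) (nat_lit 4) (nat_lit 5) (nat_lit 5) (nat_lit 5) (nat_lit 4) (nat_lit 354) (nat_lit 245) (nat_lit 181)) (XT.lf (nat_lit 0) (nat_lit 93386512153) (nat_lit 76) (nat_lit 17325178581) (nat_lit 76) (nat_lit 6829312993) (nat_lit 4) (nat_lit 4) (nat_lit 5) (nat_lit 5) (nat_lit 5) (nat_lit 4) (nat_lit 355) (nat_lit 245) (nat_lit 180))))))) (XT.nd (nat_lit 780) (nat_lit 0) (nat_lit 0) (XT.nd (nat_lit 390) (nat_lit 0) (nat_lit 0) (XT.nd (nat_lit 156) (nat_lit 76) (nat_lit 0) (XT.nd (nat_lit 78) (nat_lit 76) (nat_lit 0) (XT.lf (nat_lit 0) (nat_lit 106263781869) (nat_lit 76) (nat_lit 13728049247) (nat_lit 76) (nat_lit 3210300765) (nat_lit 4) (nat_lit 4) (nat_lit 5) (nat_lit 5) (nat_lit 5) (nat_lit 4) (nat_lit 356) (nat_lit 245) (nat_lit 179)) (XT.lf (nat_lit 0)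 (nat_lit 555058945) (nat_lit 152) (nat_lit 9400718494) (nat_lit 76) (nat_lit 119190869685) (nat_lit 3) (nat_lit 5) (nat_lit 5) (nat_lit 5) (nat_lit 4) (nat_lit 4) (nat_lit 357) (nat_lit 245) (nat_lit 178))) (XT.nd (nat_lit 78) (nat_lit 76) (nat_lit 0) (XT.lf (nat_lit 0) (nat_lit 4385818286) (nat_lit 152) (nat_lit 1567510276) (nat_lit 76) (nat_lit 129433181503) (nat_lit 3) (nat_lit 5) (nat_lit 5) (nat_lit 5) (nat_lit 4) (nat_lit 4) (nat_lit 358) (nat_lit 245) (nat_lit 177)) (XT.nd (nat_lit 78) (nat_lit 0) (nat_lit 0) (XT.lf (nat_lit 0) (nat_lit 6849266222) (nat_lit 76) (nat_lit 1651517803) (nat_lit 152) (nat_lit 133432952772) (nat_lit 2) (nat_lit 5) (nat_lit 3) (nat_lit 5) (nat_lit 4) (nat_lit 4) (nat_lit 359) (nat_lit 245) (nat_lit 176)) (XT.lf (nat_lit 0) (nat_lit 12879007706) (nat_lit 152) (nat_lit 133138241787) (nat_lit 0) (nat_lit 2788203762) (nat_lit 2) (nat_lit 5) (nat_lit 4) (nat_lit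 4) (nat_lit 2) (nat_lit 4) (nat_lit 360) (nat_lit 245) (nat_lit 175))))) (XT.nd (nat_lit 156) (nat_lit 0) (nat_lit 0) (XT.nd (nat_lit 78) (nat_lit 0) (nat_lit 0) (XT.lf (nat_lit 0) (nat_lit 17489684492) (nat_lit 152) (nat_lit 131147846439) (nat_lit 0) (nat_lit 7382551196) (nat_lit 2) (nat_lit 5) (nat_lit 4) (nat_lit 4) (nat_lit 2) (nat_lit 4) (nat_lit 361) (nat_lit 245) (nat_lit 174)) (XT.lf (nat_lit 0) (nat_lit 22318007366) (nat_lit 152) (nat_lit 129082760672) (nat_lit 0) (nat_lit 12195322305) (nat_lit 2) (nat_lit 5) (nat_lit 4) (nat_lit 4) (nat_lit 2) (nat_lit 4) (nat_lit 362) (nat_lit 245) (nat_lit 173))) (XT.nd (nat_lit 78) (nat_lit 0) (nat_lit 0) (XT.lf (nat_lit 0) (nat_lit 27375472333) (nat_lit 152) (nat_lit 126938067616) (nat_lit 0) (nat_lit 17237976068) (nat_lit 2) (nat_lit 5) (nat_lit 4) (nat_lit 4) (nat_lit 2) (nat_lit 4) (nat_lit 363) (nat_lit 245) (nat_lit 172)) (XT.nd (nat_lit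 78) (nat_lit 0) (nat_lit 0) (XT.lf (nat_lit 0) (nat_lit 32674120977) (nat_lit 152) (nat_lit 124708660858) (nat_lit 0) (nat_lit 22522518803) (nat_lit 2) (nat_lit 5) (nat_lit 4) (nat_lit 4) (nat_lit 2) (nat_lit 4) (nat_lit 364) (nat_lit 245) (nat_lit 171)) (XT.lf (nat_lit 0) (nat_lit 38226569128) (nat_lit 152) (nat_lit 122389232287) (nat_lit 0) (nat_lit 28061532756) (nat_lit 2) (nat_lit 5) (nat_lit 4) (nat_lit 4) (nat_lit 2) (nat_lit 4) (nat_lit 365) (nat_lit 245) (nat_lit 170)))))) (XT.nd (nat_lit 390) (nat_lit 0) (nat_lit 0) (XT.nd (nat_lit 156) (nat_lit 0) (nat_lit 0) (XT.nd (nat_lit 78) (nat_lit 0) (nat_lit 0) (XT.lf (nat_lit 0) (nat_lit 44046036900) (nat_lit 152) (nat_lit 119974259455) (nat_lit 0) (nat_lit 33868206053) (nat_lit 2) (nat_lit 5) (nat_lit 4) (nat_lit 4) (nat_lit 2) (nat_lit 4) (nat_lit 366) (nat_lit 245) (nat_lit 169)) (XT.lf (nat_lit 0) (nat_lit 50146380170) (nat_lit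 152) (nat_lit 117457992426) (nat_lit 0) (nat_lit 39956364109) (nat_lit 2) (nat_lit 5) (nat_lit 4) (nat_lit 4) (nat_lit 2) (nat_lit 4) (nat_lit 367) (nat_lit 245) (nat_lit 168))) (XT.nd (nat_lit 78) (nat_lit 0) (nat_lit 0) (XT.lf (nat_lit 0) (nat_lit 56542123565) (nat_lit 152) (nat_lit 114834440087) (nat_lit 0) (nat_lit 46340502538) (nat_lit 2) (nat_lit 5) (nat_lit 4) (nat_lit 4) (nat_lit 2) (nat_lit 4) (nat_lit 368) (nat_lit 245) (nat_lit 167)) (XT.nd (nat_lit 78) (nat_lit 0) (nat_lit 0) (XT.lf (nat_lit 0) (nat_lit 63248495044) (nat_lit 152) (nat_lit 112097355887) (nat_lit 0) (nat_lit 53035821668) (nat_lit 2) (nat_lit 5) (nat_lit 4) (nat_lit 4) (nat_lit 2) (nat_lit 4) (nat_lit 369) (nat_lit 245) (nat_lit 166)) (XT.lf (nat_lit 0) (nat_lit 70281462158) (nat_lit 152) (nat_lit 109240222956) (nat_lit 0) (nat_lit 60058262737) (nat_lit 2) (nat_lit 5) (nat_lit 4) (nat_lit 4) (nat_lit 2) (nat_lit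 4) (nat_lit 370) (nat_lit 245) (nat_lit 165))))) (XT.nd (nat_lit 234) (nat_lit 0) (nat_lit 0) (XT.nd (nat_lit 78) (nat_lit 0) (nat_lit 0) (XT.lf (nat_lit 0) (nat_lit 77657770069) (nat_lit 152) (nat_lit 106256238600) (nat_lit 0) (nat_lit 67424545841) (nat_lit 2) (nat_lit 5) (nat_lit 4) (nat_lit 4) (nat_lit 2) (nat_lit 4) (nat_lit 371) (nat_lit 245) (nat_lit 164)) (XT.nd (nat_lit 78) (nat_lit 0) (nat_lit 0) (XT.lf (nat_lit 0) (nat_lit 85394981412) (nat_lit 152) (nat_lit 103138298091) (nat_lit 0) (nat_lit 75152209751) (nat_lit 2) (nat_lit 5) (nat_lit 4) (nat_lit 4) (nat_lit 2) (nat_lit 4) (nat_lit 372) (nat_lit 245) (nat_lit 163)) (XT.lf (nat_lit 0) (nat_lit 93511518121) (nat_lit 152) (nat_lit 99878977763) (nat_lit 0) (nat_lit 83259653665) (nat_lit 2) (nat_lit 5) (nat_lit 4) (nat_lit 4) (nat_lit 2) (nat_lit 4) (nat_lit 373) (nat_lit 245) (nat_lit 162)))) (XT.nd (nat_lit 78) (nat_lit 0)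 (nat_lit 0) (XT.lf (nat_lit 0) (nat_lit 102026705283) (nat_lit 152) (nat_lit 96470517330) (nat_lit 0) (nat_lit 91766181022) (nat_lit 2) (nat_lit 5) (nat_lit 4) (nat_lit 4) (nat_lit 2) (nat_lit 4) (nat_lit 374) (nat_lit 245) (nat_lit 161)) (XT.nd (nat_lit 78) (nat_lit 0) (nat_lit 0) (XT.lf (nat_lit 0) (nat_lit 110960817152) (nat_lit 152) (nat_lit 92904801408) (nat_lit 0) (nat_lit 100692045459) (nat_lit 2) (nat_lit 5) (nat_lit 4) (nat_lit 4) (nat_lit 2) (nat_lit 4) (nat_lit 375) (nat_lit 245) (nat_lit 160)) (XT.lf (nat_lit 0) (nat_lit 120335125424) (nat_lit 152) (nat_lit 89173340199) (nat_lit 0) (nat_lit 110058499034) (nat_lit 2) (nat_lit 5) (nat_lit 4) (nat_lit 4) (nat_lit 2) (nat_lit 4) (nat_lit 376) (nat_lit 245) (nat_lit 159))))))))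
noncomputable def xc66 : XT := (XT.nd (nat_lit 34086) (nat_lit 0) (nat_lit 1064) (XT.nd (nat_lit 780) (nat_lit 0) (nat_lit 0) (XT.nd (nat_lit 390) (nat_lit 0) (nat_lit 0) (XT.nd (nat_lit 156) (nat_lit 0) (nat_lit 0) (XT.nd (nat_lit 78) (nat_lit 0) (nat_lit 0) (XT.lf (nat_lit 0) (nat_lit 130171949881) (nat_lit 152) (nat_lit 85267249271) (nat_lit 0) (nat_lit 119887842826) (nat_lit 2) (nat_lit 5) (nat_lit 4) (nat_lit 4) (nat_lit 2) (nat_lit 4) (nat_lit 377) (nat_lit 245) (nat_lit 158)) (XT.lf (nat_lit 0) (nat_lit 140494711532) (nat_lit 152) (nat_lit 81177228407) (nat_lit 0) (nat_lit 130203480034) (nat_lit 2) (nat_lit 5) (nat_lit 4) (nat_lit 4) (nat_lit 2) (nat_lit 4) (nat_lit 378) (nat_lit 245) (nat_lit 157))) (XT.nd (nat_lit 78) (nat_lit 0) (nat_lit 0) (XT.lf (nat_lit 0) (nat_lit 151327988382) (nat_lit 152) (nat_lit 76893539463) (nat_lit 0) (nat_lit 141029971701) (nat_lit 2) (nat_lit 5)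 (nat_lit 4) (nat_lit 4) (nat_lit 2) (nat_lit 4) (nat_lit 379) (nat_lit 245) (nat_lit 156)) (XT.nd (nat_lit 78) (nat_lit 0) (nat_lit 0) (XT.lf (nat_lit 0) (nat_lit 162697573948) (nat_lit 152) (nat_lit 72405983178) (nat_lit 0) (nat_lit 152393095188) (nat_lit 2) (nat_lit 5) (nat_lit 4) (nat_lit 4) (nat_lit 2) (nat_lit 4) (nat_lit 380) (nat_lit 245) (nat_lit 155)) (XT.lf (nat_lit 0) (nat_lit 174630538670) (nat_lit 152) (nat_lit 67703874896) (nat_lit 0) (nat_lit 164319905549) (nat_lit 2) (nat_lit 5) (nat_lit 4) (nat_lit 4) (nat_lit 2) (nat_lit 4) (nat_lit 381) (nat_lit 245) (nat_lit 154))))) (XT.nd (nat_lit 156) (nat_lit 0) (nat_lit 0) (XT.nd (nat_lit 78) (nat_lit 0) (nat_lit 0) (XT.lf (nat_lit 0) (nat_lit 187155294370) (nat_lit 152) (nat_lit 62776019121) (nat_lit 0) (nat_lit 176838799952) (nat_lit 2) (nat_lit 5) (nat_lit 4) (nat_lit 4) (nat_lit 2) (nat_lit 4) (nat_lit 382) (nat_lit 245)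 (nat_lit 153)) (XT.lf (nat_lit 0) (nat_lit 200301661895) (nat_lit 152) (nat_lit 57610682861) (nat_lit 0) (nat_lit 189979585290) (nat_lit 2) (nat_lit 5) (nat_lit 4) (nat_lit 4) (nat_lit 2) (nat_lit 4) (nat_lit 383) (nat_lit 245) (nat_lit 152))) (XT.nd (nat_lit 78) (nat_lit 0) (nat_lit 0) (XT.lf (nat_lit 0) (nat_lit 214100942119) (nat_lit 152) (nat_lit 52195567699) (nat_lit 0) (nat_lit 203773549146) (nat_lit 2) (nat_lit 5) (nat_lit 4) (nat_lit 4) (nat_lit 2) (nat_lit 4) (nat_lit 384) (nat_lit 245) (nat_lit 151)) (XT.nd (nat_lit 78) (nat_lit 0) (nat_lit 0) (XT.lf (nat_lit 0) (nat_lit 228585990473) (nat_lit 152) (nat_lit 46517780502) (nat_lit 0) (nat_lit 218253534291) (nat_lit 2) (nat_lit 5) (nat_lit 4) (nat_lit 4) (nat_lit 2) (nat_lit 4) (nat_lit 385) (nat_lit 245) (nat_lit 150)) (XT.lf (nat_lit 0) (nat_lit 243791295165) (nat_lit 152) (nat_lit 40563802729) (nat_lit 0) (nat_lit 233454016880)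 (nat_lit 2) (nat_lit 5) (nat_lit 4) (nat_lit 4) (nat_lit 2) (nat_lit 4) (nat_lit 386) (nat_lit 245) (nat_lit 149)))))) (XT.nd (nat_lit 32916) (nat_lit 0) (nat_lit 3040) (XT.nd (nat_lit 156) (nat_lit 0) (nat_lit 0) (XT.nd (nat_lit 78) (nat_lit 0) (nat_lit 0) (XT.lf (nat_lit 0) (nat_lit 259753059303) (nat_lit 152) (nat_lit 34319458243) (nat_lit 0) (nat_lit 249411188539) (nat_lit 2) (nat_lit 5) (nat_lit 4) (nat_lit 4) (nat_lit 2) (nat_lit 4) (nat_lit 387) (nat_lit 245) (nat_lit 148)) (XT.lf (nat_lit 0) (nat_lit 276509287087) (nat_lit 152) (nat_lit 27769879558) (nat_lit 0) (nat_lit 266163042534) (nat_lit 2) (nat_lit 5) (nat_lit 4) (nat_lit 4) (nat_lit 2) (nat_lit 4) (nat_lit 388) (nat_lit 245) (nat_lit 147))) (XT.nd (nat_lit 78) (nat_lit 0) (nat_lit 0) (XT.lf (nat_lit 0) (nat_lit 294099874297) (nat_lit 152) (nat_lit 20899472437) (nat_lit 0) (nat_lit 283749464230) (nat_lit 2) (nat_lit 5)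 (nat_lit 4) (nat_lit 4) (nat_lit 2) (nat_lit 4) (nat_lit 389) (nat_lit 245) (nat_lit 146)) (XT.nd (nat_lit 78) (nat_lit 0) (nat_lit 0) (XT.lf (nat_lit 0) (nat_lit 312566703284) (nat_lit 152) (nat_lit 13691878769) (nat_lit 0) (nat_lit 302212326061) (nat_lit 2) (nat_lit 5) (nat_lit 4) (nat_lit 4) (nat_lit 2) (nat_lit 4) (nat_lit 390) (nat_lit 245) (nat_lit 145)) (XT.lf (nat_lit 0) (nat_lit 331953742689) (nat_lit 152) (nat_lit 6129937617) (nat_lit 0) (nat_lit 321595587222) (nat_lit 2) (nat_lit 5) (nat_lit 4) (nat_lit 4) (nat_lit 2) (nat_lit 4) (nat_lit 391) (nat_lit 245) (nat_lit 144))))) (XT.nd (nat_lit 156) (nat_lit 684) (nat_lit 0) (XT.nd (nat_lit 78) (nat_lit 0) (nat_lit 0) (XT.lf (nat_lit 0) (nat_lit 402607721) (nat_lit 304) (nat_lit 3695686539) (nat_lit 0) (nat_lit 402607721) (nat_lit 51) (nat_lit 5) (nat_lit 55) (nat_lit 4) (nat_lit 51) (nat_lit 4) (nat_lit 288) (nat_lit 246) (nat_lit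 246)) (XT.lf (nat_lit 0) (nat_lit 4667294345) (nat_lit 304) (nat_lit 807502892) (nat_lit 0) (nat_lit 3730421211) (nat_lit 51) (nat_lit 5) (nat_lit 55) (nat_lit 4) (nat_lit 51) (nat_lit 4) (nat_lit 289) (nat_lit 246) (nat_lit 245))) (XT.nd (nat_lit 78) (nat_lit 456) (nat_lit 0) (XT.lf (nat_lit 0) (nat_lit 6081234386) (nat_lit 228) (nat_lit 2584861548) (nat_lit 228) (nat_lit 755728286) (nat_lit 48) (nat_lit 4) (nat_lit 51) (nat_lit 5) (nat_lit 51) (nat_lit 4) (nat_lit 290) (nat_lit 246) (nat_lit 244)) (XT.nd (nat_lit 78) (nat_lit 228) (nat_lit 0) (XT.lf (nat_lit 0) (nat_lit 3039552886) (nat_lit 228) (nat_lit 6122820281) (nat_lit 0) (nat_lit 488214970) (nat_lit 45) (nat_lit 5) (nat_lit 48) (nat_lit 4) (nat_lit 45) (nat_lit 4) (nat_lit 291) (nat_lit 246) (nat_lit 243)) (XT.lf (nat_lit 0) (nat_lit 711225414) (nat_lit 228) (nat_lit 6251523892) (nat_lit 228) (nat_lit 2929418129) (nat_lit 42)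 (nat_lit 4) (nat_lit 45) (nat_lit 5) (nat_lit 45) (nat_lit 4) (nat_lit 292) (nat_lit 246) (nat_lit 242))))))) (XT.nd (nat_lit 780) (nat_lit 760) (nat_lit 0) (XT.nd (nat_lit 390) (nat_lit 608) (nat_lit 0) (XT.nd (nat_lit 156) (nat_lit 380) (nat_lit 0) (XT.nd (nat_lit 78) (nat_lit 152) (nat_lit 0) (XT.lf (nat_lit 0) (nat_lit 865343790) (nat_lit 304) (nat_lit 2282215608) (nat_lit 76) (nat_lit 6999741750) (nat_lit 41) (nat_lit 5) (nat_lit 45) (nat_lit 5) (nat_lit 42) (nat_lit 4) (nat_lit 293) (nat_lit 246) (nat_lit 241)) (XT.lf (nat_lit 0) (nat_lit 4690405249) (nat_lit 228) (nat_lit 5564017448) (nat_lit 0) (nat_lit 161567596) (nat_lit 39) (nat_lit 5) (nat_lit 42) (nat_lit 4) (nat_lit 39) (nat_lit 4) (nat_lit 294) (nat_lit 246) (nat_lit 240))) (XT.nd (nat_lit 78) (nat_lit 228) (nat_lit 0) (XT.lf (nat_lit 0) (nat_lit 1505450251) (nat_lit 152) (nat_lit 7178449070) (nat_lit 152) (nat_lit 2015498803)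 (nat_lit 37) (nat_lit 4) (nat_lit 39) (nat_lit 5) (nat_lit 39) (nat_lit 4) (nat_lit 295) (nat_lit 246) (nat_lit 239)) (XT.nd (nat_lit 78) (nat_lit 152) (nat_lit 0) (XT.lf (nat_lit 0) (nat_lit 1779363534) (nat_lit 228) (nat_lit 2119171796) (nat_lit 76) (nat_lit 7099130908) (nat_lit 36) (nat_lit 5) (nat_lit 39) (nat_lit 5) (nat_lit 37) (nat_lit 4) (nat_lit 296) (nat_lit 246) (nat_lit 238)) (XT.lf (nat_lit 0) (nat_lit 5236699562) (nat_lit 152) (nat_lit 411459188) (nat_lit 228) (nat_lit 5663564480) (nat_lit 34) (nat_lit 5) (nat_lit 36) (nat_lit 5) (nat_lit 37) (nat_lit 4) (nat_lit 297) (nat_lit 246) (nat_lit 237))))) (XT.nd (nat_lit 156) (nat_lit 380) (nat_lit 0) (XT.nd (nat_lit 78) (nat_lit 76) (nat_lit 0) (XT.lf (nat_lit 0) (nat_lit 1171283113) (nat_lit 152) (nat_lit 8516577545) (nat_lit 152) (nat_lit 1954866882) (nat_lit 32) (nat_lit 4) (nat_lit 34) (nat_lit 5) (nat_lit 34) (nat_lit 4)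 (nat_lit 298) (nat_lit 246) (nat_lit 236)) (XT.lf (nat_lit 0) (nat_lit 1861197923) (nat_lit 228) (nat_lit 3243098745) (nat_lit 76) (nat_lit 6885378343) (nat_lit 31) (nat_lit 5) (nat_lit 34) (nat_lit 5) (nat_lit 32) (nat_lit 4) (nat_lit 299) (nat_lit 246) (nat_lit 235))) (XT.nd (nat_lit 78) (nat_lit 228) (nat_lit 0) (XT.lf (nat_lit 0) (nat_lit 4250598173) (nat_lit 152) (nat_lit 1496883415) (nat_lit 228) (nat_lit 6607732092) (nat_lit 29) (nat_lit 5) (nat_lit 31) (nat_lit 5) (nat_lit 32) (nat_lit 4) (nat_lit 300) (nat_lit 246) (nat_lit 234)) (XT.nd (nat_lit 78) (nat_lit 228) (nat_lit 0) (XT.lf (nat_lit 0) (nat_lit 9799897289) (nat_lit 228) (nat_lit 743017960) (nat_lit 0) (nat_lit 2197620069) (nat_lit 29) (nat_lit 5) (nat_lit 32) (nat_lit 4) (nat_lit 29) (nat_lit 4) (nat_lit 301) (nat_lit 246) (nat_lit 233)) (XT.lf (nat_lit 0) (nat_lit 900588198) (nat_lit 228) (nat_lit 6164826057) (nat_lit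 76) (nat_lit 6078091608) (nat_lit 26) (nat_lit 5) (nat_lit 29) (nat_lit 5) (nat_lit 27) (nat_lit 4) (nat_lit 302) (nat_lit 246) (nat_lit 232)))))) (XT.nd (nat_lit 390) (nat_lit 380) (nat_lit 0) (XT.nd (nat_lit 156) (nat_lit 304) (nat_lit 0) (XT.nd (nat_lit 78) (nat_lit 0) (nat_lit 0) (XT.lf (nat_lit 0) (nat_lit 1348223280) (nat_lit 76) (nat_lit 3407164662) (nat_lit 152) (nat_lit 8812893517) (nat_lit 25) (nat_lit 5) (nat_lit 26) (nat_lit 5) (nat_lit 27) (nat_lit 4) (nat_lit 303) (nat_lit 246) (nat_lit 231)) (XT.lf (nat_lit 0) (nat_lit 8803533483) (nat_lit 152) (nat_lit 4760682622) (nat_lit 0) (nat_lit 450129182) (nat_lit 25) (nat_lit 5) (nat_lit 27) (nat_lit 4) (nat_lit 25) (nat_lit 4) (nat_lit 304) (nat_lit 246) (nat_lit 230))) (XT.nd (nat_lit 78) (nat_lit 152) (nat_lit 0) (XT.lf (nat_lit 0) (nat_lit 2924579491) (nat_lit 152) (nat_lit 10124083834) (nat_lit 152) (nat_lit 1434396074) (nat_lit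 23) (nat_lit 4) (nat_lit 25) (nat_lit 5) (nat_lit 25) (nat_lit 4) (nat_lit 305) (nat_lit 246) (nat_lit 229)) (XT.nd (nat_lit 78) (nat_lit 76) (nat_lit 0) (XT.lf (nat_lit 0) (nat_lit 2425311862) (nat_lit 228) (nat_lit 4038068401) (nat_lit 76) (nat_lit 8511148457) (nat_lit 22) (nat_lit 5) (nat_lit 25) (nat_lit 5) (nat_lit 23) (nat_lit 4) (nat_lit 306) (nat_lit 246) (nat_lit 228)) (XT.lf (nat_lit 0) (nat_lit 3779197343) (nat_lit 76) (nat_lit 2608204643) (nat_lit 152) (nat_lit 9104179295) (nat_lit 21) (nat_lit 5) (nat_lit 22) (nat_lit 5) (nat_lit 23) (nat_lit 4) (nat_lit 307) (nat_lit 246) (nat_lit 227))))) (XT.nd (nat_lit 234) (nat_lit 152) (nat_lit 0) (XT.nd (nat_lit 78) (nat_lit 228) (nat_lit 0) (XT.lf (nat_lit 0) (nat_lit 10539133617) (nat_lit 152) (nat_lit 4104772506) (nat_lit 0) (nat_lit 1391065975) (nat_lit 21) (nat_lit 5) (nat_lit 23) (nat_lit 4) (nat_lit 21) (nat_lit 4) (nat_lit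 308) (nat_lit 246) (nat_lit 226)) (XT.nd (nat_lit 78) (nat_lit 76) (nat_lit 0) (XT.lf (nat_lit 0) (nat_lit 3792684930) (nat_lit 152) (nat_lit 11112073126) (nat_lit 152) (nat_lit 1700518595) (nat_lit 19) (nat_lit 4) (nat_lit 21) (nat_lit 5) (nat_lit 21) (nat_lit 4) (nat_lit 309) (nat_lit 246) (nat_lit 225)) (XT.lf (nat_lit 0) (nat_lit 2186802992) (nat_lit 228) (nat_lit 5179548290) (nat_lit 76) (nat_lit 9837247891) (nat_lit 18) (nat_lit 5) (nat_lit 21) (nat_lit 5) (nat_lit 19) (nat_lit 4) (nat_lit 310) (nat_lit 246) (nat_lit 224)))) (XT.nd (nat_lit 78) (nat_lit 76) (nat_lit 0) (XT.lf (nat_lit 0) (nat_lit 2733183929) (nat_lit 76) (nat_lit 3430069109) (nat_lit 152) (nat_lit 11669646769) (nat_lit 17) (nat_lit 5) (nat_lit 18) (nat_lit 5) (nat_lit 19) (nat_lit 4) (nat_lit 311) (nat_lit 246) (nat_lit 223)) (XT.nd (nat_lit 78) (nat_lit 76) (nat_lit 0) (XT.lf (nat_lit 0) (nat_lit 10348642969)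 (nat_lit 152) (nat_lit 7442679458) (nat_lit 0) (nat_lit 701886130) (nat_lit 17) (nat_lit 5) (nat_lit 19) (nat_lit 4) (nat_lit 17) (nat_lit 4) (nat_lit 312) (nat_lit 246) (nat_lit 222)) (XT.lf (nat_lit 0) (nat_lit 399123394) (nat_lit 76) (nat_lit 14320912506) (nat_lit 76) (nat_lit 4467706794) (nat_lit 16) (nat_lit 4) (nat_lit 17) (nat_lit 5) (nat_lit 17) (nat_lit 4) (nat_lit 313) (nat_lit 246) (nat_lit 221))))))))
noncomputable def xc67 : XT := (XT.nd (nat_lit 1638) (nat_lit 228) (nat_lit 0) (XT.nd (nat_lit 780) (nat_lit 304) (nat_lit 0) (XT.nd (nat_lit 390) (nat_lit 228) (nat_lit 0) (XT.nd (nat_lit 156) (nat_lit 76) (nat_lit 0) (XT.nd (nat_lit 78) (nat_lit 76) (nat_lit 0) (XT.lf (nat_lit 0) (nat_lit 8739274248) (nat_lit 76) (nat_lit 10612748093) (nat_lit 76) (nat_lit 562924408) (nat_lit 16) (nat_lit 4) (nat_lit 17) (nat_lit 5) (nat_lit 17) (nat_lit 4) (nat_lit 314) (nat_lit 246) (nat_lit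 220)) (XT.lf (nat_lit 0) (nat_lit 3342514662) (nat_lit 152) (nat_lit 3384923838) (nat_lit 76) (nat_lit 13952420242) (nat_lit 15) (nat_lit 5) (nat_lit 17) (nat_lit 5) (nat_lit 16) (nat_lit 4) (nat_lit 315) (nat_lit 246) (nat_lit 219))) (XT.nd (nat_lit 78) (nat_lit 0) (nat_lit 0) (XT.lf (nat_lit 0) (nat_lit 4799144707) (nat_lit 76) (nat_lit 2622592806) (nat_lit 152) (nat_lit 14060984279) (nat_lit 14) (nat_lit 5) (nat_lit 15) (nat_lit 5) (nat_lit 16) (nat_lit 4) (nat_lit 316) (nat_lit 246) (nat_lit 218)) (XT.nd (nat_lit 78) (nat_lit 0) (nat_lit 0) (XT.lf (nat_lit 0) (nat_lit 11712591999) (nat_lit 152) (nat_lit 8981400040) (nat_lit 0) (nat_lit 1631388958) (nat_lit 14) (nat_lit 5) (nat_lit 16) (nat_lit 4) (nat_lit 14) (nat_lit 4) (nat_lit 317) (nat_lit 246) (nat_lit 217)) (XT.lf (nat_lit 0) (nat_lit 16187705279) (nat_lit 152) (nat_lit 1071569961) (nat_lit 0) (nat_lit 5952446912) (nat_lit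 14) (nat_lit 5) (nat_lit 16) (nat_lit 4) (nat_lit 14) (nat_lit 4) (nat_lit 318) (nat_lit 246) (nat_lit 216))))) (XT.nd (nat_lit 156) (nat_lit 76) (nat_lit 0) (XT.nd (nat_lit 78) (nat_lit 76) (nat_lit 0) (XT.lf (nat_lit 0) (nat_lit 7340638374) (nat_lit 76) (nat_lit 13590755924) (nat_lit 76) (nat_lit 3208778197) (nat_lit 13) (nat_lit 4) (nat_lit 14) (nat_lit 5) (nat_lit 14) (nat_lit 4) (nat_lit 319) (nat_lit 246) (nat_lit 215)) (XT.lf (nat_lit 0) (nat_lit 720567243) (nat_lit 152) (nat_lit 9044547599) (nat_lit 76) (nat_lit 15351895177) (nat_lit 12) (nat_lit 5) (nat_lit 14) (nat_lit 5) (nat_lit 13) (nat_lit 4) (nat_lit 320) (nat_lit 246) (nat_lit 214))) (XT.nd (nat_lit 78) (nat_lit 76) (nat_lit 0) (XT.lf (nat_lit 0) (nat_lit 4672273369) (nat_lit 152) (nat_lit 1076628824) (nat_lit 76) (nat_lit 20394499232) (nat_lit 12) (nat_lit 5) (nat_lit 14) (nat_lit 5) (nat_lit 13) (nat_lit 4) (nat_lit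 321) (nat_lit 246) (nat_lit 213)) (XT.nd (nat_lit 78) (nat_lit 0) (nat_lit 0) (XT.lf (nat_lit 0) (nat_lit 7410472868) (nat_lit 76) (nat_lit 1463675326) (nat_lit 152) (nat_lit 18344362299) (nat_lit 11) (nat_lit 5) (nat_lit 12) (nat_lit 5) (nat_lit 13) (nat_lit 4) (nat_lit 322) (nat_lit 246) (nat_lit 212)) (XT.lf (nat_lit 0) (nat_lit 13289327581) (nat_lit 152) (nat_lit 12151668425) (nat_lit 0) (nat_lit 2906244428) (nat_lit 11) (nat_lit 5) (nat_lit 13) (nat_lit 4) (nat_lit 11) (nat_lit 4) (nat_lit 323) (nat_lit 246) (nat_lit 211)))))) (XT.nd (nat_lit 390) (nat_lit 152) (nat_lit 0) (XT.nd (nat_lit 156) (nat_lit 76) (nat_lit 0) (XT.nd (nat_lit 78) (nat_lit 76) (nat_lit 0) (XT.lf (nat_lit 0) (nat_lit 17889528365) (nat_lit 152) (nat_lit 4247729144) (nat_lit 0) (nat_lit 7396960967) (nat_lit 11) (nat_lit 5) (nat_lit 13) (nat_lit 4) (nat_lit 11) (nat_lit 4) (nat_lit 324) (nat_lit 246) (nat_lit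 210)) (XT.lf (nat_lit 0) (nat_lit 4075905628) (nat_lit 76) (nat_lit 18650582013) (nat_lit 76) (nat_lit 8053743905) (nat_lit 10) (nat_lit 4) (nat_lit 11) (nat_lit 5) (nat_lit 11) (nat_lit 4) (nat_lit 325) (nat_lit 246) (nat_lit 209))) (XT.nd (nat_lit 78) (nat_lit 76) (nat_lit 0) (XT.lf (nat_lit 0) (nat_lit 12858946763) (nat_lit 76) (nat_lit 14962478968) (nat_lit 76) (nat_lit 4266335423) (nat_lit 10) (nat_lit 4) (nat_lit 11) (nat_lit 5) (nat_lit 11) (nat_lit 4) (nat_lit 326) (nat_lit 246) (nat_lit 208)) (XT.nd (nat_lit 78) (nat_lit 76) (nat_lit 0) (XT.lf (nat_lit 0) (nat_lit 21981857154) (nat_lit 76) (nat_lit 11136104525) (nat_lit 76) (nat_lit 345384373) (nat_lit 10) (nat_lit 4) (nat_lit 11) (nat_lit 5) (nat_lit 11) (nat_lit 4) (nat_lit 327) (nat_lit 246) (nat_lit 207)) (XT.lf (nat_lit 0) (nat_lit 3599431384) (nat_lit 152) (nat_lit 3501958773) (nat_lit 76) (nat_lit 27805968521) (nat_lit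 9) (nat_lit 5) (nat_lit 11) (nat_lit 5) (nat_lit 10) (nat_lit 4) (nat_lit 328) (nat_lit 246) (nat_lit 206))))) (XT.nd (nat_lit 234) (nat_lit 76) (nat_lit 0) (XT.nd (nat_lit 78) (nat_lit 0) (nat_lit 0) (XT.lf (nat_lit 0) (nat_lit 4937215970) (nat_lit 76) (nat_lit 2820731762) (nat_lit 152) (nat_lit 28663956201) (nat_lit 8) (nat_lit 5) (nat_lit 9) (nat_lit 5) (nat_lit 10) (nat_lit 4) (nat_lit 329) (nat_lit 246) (nat_lit 205)) (XT.nd (nat_lit 78) (nat_lit 0) (nat_lit 0) (XT.lf (nat_lit 0) (nat_lit 12162055945) (nat_lit 152) (nat_lit 24208366173) (nat_lit 0) (nat_lit 1639888602) (nat_lit 8) (nat_lit 5) (nat_lit 10) (nat_lit 4) (nat_lit 8) (nat_lit 4) (nat_lit 330) (nat_lit 246) (nat_lit 204)) (XT.lf (nat_lit 0) (nat_lit 16786183672) (nat_lit 152) (nat_lit 16702067123) (nat_lit 0) (nat_lit 6189913083) (nat_lit 8) (nat_lit 5) (nat_lit 10) (nat_lit 4) (nat_lit 8) (nat_lit 4) (nat_lit 331) (nat_lit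 246) (nat_lit 203)))) (XT.nd (nat_lit 78) (nat_lit 76) (nat_lit 0) (XT.lf (nat_lit 0) (nat_lit 21597301214) (nat_lit 152) (nat_lit 8903879142) (nat_lit 0) (nat_lit 10930456104) (nat_lit 8) (nat_lit 5) (nat_lit 10) (nat_lit 4) (nat_lit 8) (nat_lit 4) (nat_lit 332) (nat_lit 246) (nat_lit 202)) (XT.nd (nat_lit 78) (nat_lit 76) (nat_lit 0) (XT.lf (nat_lit 0) (nat_lit 26606863611) (nat_lit 152) (nat_lit 795235117) (nat_lit 0) (nat_lit 15872804672) (nat_lit 8) (nat_lit 5) (nat_lit 10) (nat_lit 4) (nat_lit 8) (nat_lit 4) (nat_lit 333) (nat_lit 246) (nat_lit 201)) (XT.lf (nat_lit 0) (nat_lit 7895889004) (nat_lit 76) (nat_lit 24054186345) (nat_lit 76) (nat_lit 13256114236) (nat_lit 7) (nat_lit 4) (nat_lit 8) (nat_lit 5) (nat_lit 8) (nat_lit 4) (nat_lit 334) (nat_lit 246) (nat_lit 200))))))) (XT.nd (nat_lit 780) (nat_lit 76) (nat_lit 0) (XT.nd (nat_lit 390) (nat_lit 0) (nat_lit 0) (XT.nd (nat_lit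 156) (nat_lit 152) (nat_lit 0) (XT.nd (nat_lit 78) (nat_lit 0) (nat_lit 0) (XT.lf (nat_lit 0) (nat_lit 16974728720) (nat_lit 76) (nat_lit 20559828344) (nat_lit 76) (nat_lit 9700791311) (nat_lit 7) (nat_lit 4) (nat_lit 8) (nat_lit 5) (nat_lit 8) (nat_lit 4) (nat_lit 335) (nat_lit 246) (nat_lit 199)) (XT.lf (nat_lit 0) (nat_lit 26436606250) (nat_lit 76) (nat_lit 16924172520) (nat_lit 76) (nat_lit 6007073654) (nat_lit 7) (nat_lit 4) (nat_lit 8) (nat_lit 5) (nat_lit 8) (nat_lit 4) (nat_lit 336) (nat_lit 246) (nat_lit 198))) (XT.nd (nat_lit 78) (nat_lit 152) (nat_lit 0) (XT.lf (nat_lit 0) (nat_lit 36304049874) (nat_lit 76) (nat_lit 13138562547) (nat_lit 76) (nat_lit 2166166699) (nat_lit 7) (nat_lit 4) (nat_lit 8) (nat_lit 5) (nat_lit 8) (nat_lit 4) (nat_lit 337) (nat_lit 246) (nat_lit 197)) (XT.nd (nat_lit 78) (nat_lit 76) (nat_lit 0) (XT.lf (nat_lit 0) (nat_lit 1772468750) (nat_lit 152)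 (nat_lit 7391498703) (nat_lit 76) (nat_lit 44798067139) (nat_lit 6) (nat_lit 5) (nat_lit 8) (nat_lit 5) (nat_lit 7) (nat_lit 4) (nat_lit 338) (nat_lit 246) (nat_lit 196)) (XT.lf (nat_lit 0) (nat_lit 846630886) (nat_lit 76) (nat_lit 4968904002) (nat_lit 152) (nat_lit 50616638375) (nat_lit 5) (nat_lit 5) (nat_lit 6) (nat_lit 5) (nat_lit 7) (nat_lit 4) (nat_lit 339) (nat_lit 246) (nat_lit 195))))) (XT.nd (nat_lit 156) (nat_lit 0) (nat_lit 0) (XT.nd (nat_lit 78) (nat_lit 0) (nat_lit 0) (XT.lf (nat_lit 0) (nat_lit 9691939704) (nat_lit 76) (nat_lit 461681248) (nat_lit 152) (nat_lit 48867564858) (nat_lit 5) (nat_lit 5) (nat_lit 6) (nat_lit 5) (nat_lit 7) (nat_lit 4) (nat_lit 340) (nat_lit 246) (nat_lit 194)) (XT.lf (nat_lit 0) (nat_lit 14744087079) (nat_lit 152) (nat_lit 42886354837) (nat_lit 0) (nat_lit 4107443065) (nat_lit 5) (nat_lit 5) (nat_lit 7) (nat_lit 4) (nat_lit 5) (nat_lit 4) (nat_lit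 341) (nat_lit 246) (nat_lit 193))) (XT.nd (nat_lit 78) (nat_lit 0) (nat_lit 0) (XT.lf (nat_lit 0) (nat_lit 19541926009) (nat_lit 152) (nat_lit 36185591412) (nat_lit 0) (nat_lit 8864018535) (nat_lit 5) (nat_lit 5) (nat_lit 7) (nat_lit 4) (nat_lit 5) (nat_lit 4) (nat_lit 342) (nat_lit 246) (nat_lit 192)) (XT.nd (nat_lit 78) (nat_lit 0) (nat_lit 0) (XT.lf (nat_lit 0) (nat_lit 24551353031) (nat_lit 152) (nat_lit 29203793493) (nat_lit 0) (nat_lit 13834147023) (nat_lit 5) (nat_lit 5) (nat_lit 7) (nat_lit 4) (nat_lit 5) (nat_lit 4) (nat_lit 343) (nat_lit 246) (nat_lit 191)) (XT.lf (nat_lit 0) (nat_lit 29784295351) (nat_lit 152) (nat_lit 21924337753) (nat_lit 0) (nat_lit 19029662168) (nat_lit 5) (nat_lit 5) (nat_lit 7) (nat_lit 4) (nat_lit 5) (nat_lit 4) (nat_lit 344) (nat_lit 246) (nat_lit 190)))))) (XT.nd (nat_lit 390) (nat_lit 0) (nat_lit 0) (XT.nd (nat_lit 156) (nat_lit 76) (nat_lit 0) (XT.nd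 (nat_lit 78) (nat_lit 0) (nat_lit 0) (XT.lf (nat_lit 0) (nat_lit 35253212356) (nat_lit 152) (nat_lit 14329892153) (nat_lit 0) (nat_lit 24462934245) (nat_lit 5) (nat_lit 5) (nat_lit 7) (nat_lit 4) (nat_lit 5) (nat_lit 4) (nat_lit 345) (nat_lit 246) (nat_lit 189)) (XT.lf (nat_lit 0) (nat_lit 40971125277) (nat_lit 152) (nat_lit 6402374682) (nat_lit 0) (nat_lit 30146899615) (nat_lit 5) (nat_lit 5) (nat_lit 7) (nat_lit 4) (nat_lit 5) (nat_lit 4) (nat_lit 346) (nat_lit 246) (nat_lit 188))) (XT.nd (nat_lit 78) (nat_lit 0) (nat_lit 0) (XT.lf (nat_lit 0) (nat_lit 1939154765) (nat_lit 76) (nat_lit 45042769068) (nat_lit 76) (nat_lit 34186212405) (nat_lit 4) (nat_lit 4) (nat_lit 5) (nat_lit 5) (nat_lit 5) (nat_lit 4) (nat_lit 347) (nat_lit 246) (nat_lit 187)) (XT.nd (nat_lit 78) (nat_lit 0) (nat_lit 0) (XT.lf (nat_lit 0) (nat_lit 10876324314) (nat_lit 76) (nat_lit 42502506032) (nat_lit 76) (nat_lit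 31615157940) (nat_lit 4) (nat_lit 4) (nat_lit 5) (nat_lit 5) (nat_lit 5) (nat_lit 4) (nat_lit 348) (nat_lit 246) (nat_lit 186)) (XT.lf (nat_lit 0) (nat_lit 20218721518) (nat_lit 76) (nat_lit 39855089921) (nat_lit 76) (nat_lit 28938416658) (nat_lit 4) (nat_lit 4) (nat_lit 5) (nat_lit 5) (nat_lit 5) (nat_lit 4) (nat_lit 349) (nat_lit 246) (nat_lit 185))))) (XT.nd (nat_lit 234) (nat_lit 0) (nat_lit 0) (XT.nd (nat_lit 78) (nat_lit 0) (nat_lit 0) (XT.lf (nat_lit 0) (nat_lit 29988590180) (nat_lit 76) (nat_lit 37094217363) (nat_lit 76) (nat_lit 26149615366) (nat_lit 4) (nat_lit 4) (nat_lit 5) (nat_lit 5) (nat_lit 5) (nat_lit 4) (nat_lit 350) (nat_lit 246) (nat_lit 184)) (XT.nd (nat_lit 78) (nat_lit 0) (nat_lit 0) (XT.lf (nat_lit 0) (nat_lit 40209191891) (nat_lit 76) (nat_lit 34213314851) (nat_lit 76) (nat_lit 23242114059) (nat_lit 4) (nat_lit 4) (nat_lit 5) (nat_lit 5) (nat_lit 5) (nat_lit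 4) (nat_lit 351) (nat_lit 246) (nat_lit 183)) (XT.lf (nat_lit 0) (nat_lit 50904861419) (nat_lit 76) (nat_lit 31205523095) (nat_lit 76) (nat_lit 20208990118) (nat_lit 4) (nat_lit 4) (nat_lit 5) (nat_lit 5) (nat_lit 5) (nat_lit 4) (nat_lit 352) (nat_lit 246) (nat_lit 182)))) (XT.nd (nat_lit 78) (nat_lit 0) (nat_lit 0) (XT.lf (nat_lit 0) (nat_lit 62101064642) (nat_lit 76) (nat_lit 28063680684) (nat_lit 76) (nat_lit 17043021816) (nat_lit 4) (nat_lit 4) (nat_lit 5) (nat_lit 5) (nat_lit 5) (nat_lit 4) (nat_lit 353) (nat_lit 246) (nat_lit 181)) (XT.nd (nat_lit 78) (nat_lit 0) (nat_lit 0) (XT.lf (nat_lit 0) (nat_lit 73824459188) (nat_lit 76) (nat_lit 24780307042) (nat_lit 76) (nat_lit 13736671136) (nat_lit 4) (nat_lit 4) (nat_lit 5) (nat_lit 5) (nat_lit 5) (nat_lit 4) (nat_lit 354) (nat_lit 246) (nat_lit 180)) (XT.lf (nat_lit 0) (nat_lit 86102957900) (nat_lit 76) (nat_lit 21347584613) (nat_lit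 76) (nat_lit 10282065812) (nat_lit 4) (nat_lit 4) (nat_lit 5) (nat_lit 5) (nat_lit 5) (nat_lit 4) (nat_lit 355) (nat_lit 246) (nat_lit 179))))))))
noncomputable def xc68 : XT := (XT.nd (nat_lit 1560) (nat_lit 0) (nat_lit 0) (XT.nd (nat_lit 780) (nat_lit 0) (nat_lit 0) (XT.nd (nat_lit 390) (nat_lit 0) (nat_lit 0) (XT.nd (nat_lit 156) (nat_lit 152) (nat_lit 0) (XT.nd (nat_lit 78) (nat_lit 0) (nat_lit 0) (XT.lf (nat_lit 0) (nat_lit 98965795300) (nat_lit 76) (nat_lit 17757340248) (nat_lit 76) (nat_lit 6670980596) (nat_lit 4) (nat_lit 4) (nat_lit 5) (nat_lit 5) (nat_lit 5) (nat_lit 4) (nat_lit 356) (nat_lit 246) (nat_lit 178)) (XT.lf (nat_lit 0) (nat_lit 112443597190) (nat_lit 76) (nat_lit 14001025745) (nat_lit 76) (nat_lit 2894817663) (nat_lit 4) (nat_lit 4) (nat_lit 5) (nat_lit 5) (nat_lit 5) (nat_lit 4) (nat_lit 357) (nat_lit 246) (nat_lit 177))) (XT.nd (nat_lit 78) (nat_lit 76) (nat_lit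 0) (XT.lf (nat_lit 0) (nat_lit 1021634013) (nat_lit 152) (nat_lit 9030761620) (nat_lit 76) (nat_lit 125529517695) (nat_lit 3) (nat_lit 5) (nat_lit 5) (nat_lit 5) (nat_lit 4) (nat_lit 4) (nat_lit 358) (nat_lit 246) (nat_lit 176)) (XT.nd (nat_lit 78) (nat_lit 76) (nat_lit 0) (XT.lf (nat_lit 0) (nat_lit 5023035029) (nat_lit 152) (nat_lit 845892648) (nat_lit 76) (nat_lit 136265892508) (nat_lit 3) (nat_lit 5) (nat_lit 5) (nat_lit 5) (nat_lit 4) (nat_lit 4) (nat_lit 359) (nat_lit 246) (nat_lit 175)) (XT.lf (nat_lit 0) (nat_lit 7978819560) (nat_lit 76) (nat_lit 1357316946) (nat_lit 152) (nat_lit 139673658046) (nat_lit 2) (nat_lit 5) (nat_lit 3) (nat_lit 5) (nat_lit 4) (nat_lit 4) (nat_lit 360) (nat_lit 246) (nat_lit 174))))) (XT.nd (nat_lit 156) (nat_lit 0) (nat_lit 0) (XT.nd (nat_lit 78) (nat_lit 0) (nat_lit 0) (XT.lf (nat_lit 0) (nat_lit 13919335063) (nat_lit 152) (nat_lit 139031500000) (nat_lit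 0) (nat_lit 3274963985) (nat_lit 2) (nat_lit 5) (nat_lit 4) (nat_lit 4) (nat_lit 2) (nat_lit 4) (nat_lit 361) (nat_lit 246) (nat_lit 173)) (XT.lf (nat_lit 0) (nat_lit 18741670595) (nat_lit 152) (nat_lit 136977949355) (nat_lit 0) (nat_lit 8082488313) (nat_lit 2) (nat_lit 5) (nat_lit 4) (nat_lit 4) (nat_lit 2) (nat_lit 4) (nat_lit 362) (nat_lit 246) (nat_lit 172))) (XT.nd (nat_lit 78) (nat_lit 0) (nat_lit 0) (XT.lf (nat_lit 0) (nat_lit 23793433332) (nat_lit 152) (nat_lit 134844242128) (nat_lit 0) (nat_lit 13120145142) (nat_lit 2) (nat_lit 5) (nat_lit 4) (nat_lit 4) (nat_lit 2) (nat_lit 4) (nat_lit 363) (nat_lit 246) (nat_lit 171)) (XT.nd (nat_lit 78) (nat_lit 0) (nat_lit 0) (XT.lf (nat_lit 0) (nat_lit 29086651281) (nat_lit 152) (nat_lit 132625298066) (nat_lit 0) (nat_lit 18399928892) (nat_lit 2) (nat_lit 5) (nat_lit 4) (nat_lit 4) (nat_lit 2) (nat_lit 4) (nat_lit 364) (nat_lit 246) (nat_lit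 170)) (XT.lf (nat_lit 0) (nat_lit 34633927342) (nat_lit 152) (nat_lit 130315833967) (nat_lit 0) (nat_lit 23934410477) (nat_lit 2) (nat_lit 5) (nat_lit 4) (nat_lit 4) (nat_lit 2) (nat_lit 4) (nat_lit 365) (nat_lit 246) (nat_lit 169)))))) (XT.nd (nat_lit 390) (nat_lit 0) (nat_lit 0) (XT.nd (nat_lit 156) (nat_lit 0) (nat_lit 0) (XT.nd (nat_lit 78) (nat_lit 0) (nat_lit 0) (XT.lf (nat_lit 0) (nat_lit 40448469314) (nat_lit 152) (nat_lit 127910351107) (nat_lit 0) (nat_lit 29736767235) (nat_lit 2) (nat_lit 5) (nat_lit 4) (nat_lit 4) (nat_lit 2) (nat_lit 4) (nat_lit 366) (nat_lit 246) (nat_lit 168)) (XT.lf (nat_lit 0) (nat_lit 46544121345) (nat_lit 152) (nat_lit 125403122148) (nat_lit 0) (nat_lit 35820814301) (nat_lit 2) (nat_lit 5) (nat_lit 4) (nat_lit 4) (nat_lit 2) (nat_lit 4) (nat_lit 367) (nat_lit 246) (nat_lit 167))) (XT.nd (nat_lit 78) (nat_lit 0) (nat_lit 0) (XT.lf (nat_lit 0) (nat_lit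 52935396893) (nat_lit 152) (nat_lit 122788177494) (nat_lit 0) (nat_lit 42201037500) (nat_lit 2) (nat_lit 5) (nat_lit 4) (nat_lit 4) (nat_lit 2) (nat_lit 4) (nat_lit 368) (nat_lit 246) (nat_lit 166)) (XT.nd (nat_lit 78) (nat_lit 0) (nat_lit 0) (XT.lf (nat_lit 0) (nat_lit 59637513280) (nat_lit 152) (nat_lit 120059291089) (nat_lit 0) (nat_lit 48892627841) (nat_lit 2) (nat_lit 5) (nat_lit 4) (nat_lit 4) (nat_lit 2) (nat_lit 4) (nat_lit 369) (nat_lit 246) (nat_lit 165)) (XT.lf (nat_lit 0) (nat_lit 66666427927) (nat_lit 152) (nat_lit 117209965583) (nat_lit 0) (nat_lit 55911517682) (nat_lit 2) (nat_lit 5) (nat_lit 4) (nat_lit 4) (nat_lit 2) (nat_lit 4) (nat_lit 370) (nat_lit 246) (nat_lit 164))))) (XT.nd (nat_lit 156) (nat_lit 0) (nat_lit 0) (XT.nd (nat_lit 78) (nat_lit 0) (nat_lit 0) (XT.lf (nat_lit 0) (nat_lit 74038876343) (nat_lit 152) (nat_lit 114233416868) (nat_lit 0) (nat_lit 63274418664)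 (nat_lit 2) (nat_lit 5) (nat_lit 4) (nat_lit 4) (nat_lit 2) (nat_lit 4) (nat_lit 371) (nat_lit 246) (nat_lit 163)) (XT.lf (nat_lit 0) (nat_lit 81772411979) (nat_lit 152) (nat_lit 111122557924) (nat_lit 0) (nat_lit 70998861505) (nat_lit 2) (nat_lit 5) (nat_lit 4) (nat_lit 4) (nat_lit 2) (nat_lit 4) (nat_lit 372) (nat_lit 246) (nat_lit 162))) (XT.nd (nat_lit 78) (nat_lit 0) (nat_lit 0) (XT.lf (nat_lit 0) (nat_lit 89885448013) (nat_lit 152) (nat_lit 107869981943) (nat_lit 0) (nat_lit 79103237735) (nat_lit 2) (nat_lit 5) (nat_lit 4) (nat_lit 4) (nat_lit 2) (nat_lit 4) (nat_lit 373) (nat_lit 246) (nat_lit 161)) (XT.nd (nat_lit 78) (nat_lit 0) (nat_lit 0) (XT.lf (nat_lit 0) (nat_lit 98397301199) (nat_lit 152) (nat_lit 104467944696) (nat_lit 0) (nat_lit 87606843488) (nat_lit 2) (nat_lit 5) (nat_lit 4) (nat_lit 4) (nat_lit 2) (nat_lit 4) (nat_lit 374) (nat_lit 246) (nat_lit 160)) (XT.lf (nat_lit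 0) (nat_lit 107328237853) (nat_lit 152) (nat_lit 100908346096) (nat_lit 0) (nat_lit 96529925445) (nat_lit 2) (nat_lit 5) (nat_lit 4) (nat_lit 4) (nat_lit 2) (nat_lit 4) (nat_lit 375) (nat_lit 246) (nat_lit 159))))))) (XT.nd (nat_lit 780) (nat_lit 0) (nat_lit 0) (XT.nd (nat_lit 390) (nat_lit 0) (nat_lit 0) (XT.nd (nat_lit 156) (nat_lit 0) (nat_lit 0) (XT.nd (nat_lit 78) (nat_lit 0) (nat_lit 0) (XT.lf (nat_lit 0) (nat_lit 116699522111) (nat_lit 152) (nat_lit 97182710907) (nat_lit 0) (nat_lit 105893729038) (nat_lit 2) (nat_lit 5) (nat_lit 4) (nat_lit 4) (nat_lit 2) (nat_lit 4) (nat_lit 376) (nat_lit 246) (nat_lit 158)) (XT.lf (nat_lit 0) (nat_lit 126533466554) (nat_lit 152) (nat_lit 93282168570) (nat_lit 0) (nat_lit 115720549039) (nat_lit 2) (nat_lit 5) (nat_lit 4) (nat_lit 4) (nat_lit 2) (nat_lit 4) (nat_lit 377) (nat_lit 246) (nat_lit 157))) (XT.nd (nat_lit 78) (nat_lit 0) (nat_lit 0)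 (XT.lf (nat_lit 0) (nat_lit 136853485335) (nat_lit 152) (nat_lit 89197432078) (nat_lit 0) (nat_lit 126033782637) (nat_lit 2) (nat_lit 5) (nat_lit 4) (nat_lit 4) (nat_lit 2) (nat_lit 4) (nat_lit 378) (nat_lit 246) (nat_lit 156)) (XT.nd (nat_lit 78) (nat_lit 0) (nat_lit 0) (XT.lf (nat_lit 0) (nat_lit 147684149928) (nat_lit 152) (nat_lit 84918775869) (nat_lit 0) (nat_lit 136857985151) (nat_lit 2) (nat_lit 5) (nat_lit 4) (nat_lit 4) (nat_lit 2) (nat_lit 4) (nat_lit 379) (nat_lit 246) (nat_lit 155)) (XT.lf (nat_lit 0) (nat_lit 159051247629) (nat_lit 152) (nat_lit 80436012666) (nat_lit 0) (nat_lit 148218928491) (nat_lit 2) (nat_lit 5) (nat_lit 4) (nat_lit 4) (nat_lit 2) (nat_lit 4) (nat_lit 380) (nat_lit 246) (nat_lit 154))))) (XT.nd (nat_lit 156) (nat_lit 0) (nat_lit 0) (XT.nd (nat_lit 78) (nat_lit 0) (nat_lit 0) (XT.lf (nat_lit 0) (nat_lit 170981842957) (nat_lit 152) (nat_lit 75738469223)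 (nat_lit 0) (nat_lit 160143662522) (nat_lit 2) (nat_lit 5) (nat_lit 4) (nat_lit 4) (nat_lit 2) (nat_lit 4) (nat_lit 381) (nat_lit 246) (nat_lit 153)) (XT.lf (nat_lit 0) (nat_lit 183504342091) (nat_lit 152) (nat_lit 70814960913) (nat_lit 0) (nat_lit 172660579469) (nat_lit 2) (nat_lit 5) (nat_lit 4) (nat_lit 4) (nat_lit 2) (nat_lit 4) (nat_lit 382) (nat_lit 246) (nat_lit 152))) (XT.nd (nat_lit 78) (nat_lit 0) (nat_lit 0) (XT.lf (nat_lit 0) (nat_lit 196648560506) (nat_lit 152) (nat_lit 65653765098) (nat_lit 0) (nat_lit 185799481515) (nat_lit 2) (nat_lit 5) (nat_lit 4) (nat_lit 4) (nat_lit 2) (nat_lit 4) (nat_lit 383) (nat_lit 246) (nat_lit 151)) (XT.nd (nat_lit 78) (nat_lit 0) (nat_lit 0) (XT.lf (nat_lit 0) (nat_lit 210445793958) (nat_lit 152) (nat_lit 60242593215) (nat_lit 0) (nat_lit 199591651759) (nat_lit 2) (nat_lit 5) (nat_lit 4) (nat_lit 4) (nat_lit 2) (nat_lit 4) (nat_lit 384) (nat_lit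 246) (nat_lit 150)) (XT.lf (nat_lit 0) (nat_lit 224928893005) (nat_lit 152) (nat_lit 54568561522) (nat_lit 0) (nat_lit 214069928703) (nat_lit 2) (nat_lit 5) (nat_lit 4) (nat_lit 4) (nat_lit 2) (nat_lit 4) (nat_lit 385) (nat_lit 246) (nat_lit 149)))))) (XT.nd (nat_lit 390) (nat_lit 0) (nat_lit 0) (XT.nd (nat_lit 156) (nat_lit 0) (nat_lit 0) (XT.nd (nat_lit 78) (nat_lit 0) (nat_lit 0) (XT.lf (nat_lit 0) (nat_lit 240132341215) (nat_lit 152) (nat_lit 48618160421) (nat_lit 0) (nat_lit 229268784434) (nat_lit 2) (nat_lit 5) (nat_lit 4) (nat_lit 4) (nat_lit 2) (nat_lit 4) (nat_lit 386) (nat_lit 246) (nat_lit 148)) (XT.lf (nat_lit 0) (nat_lit 256092337274) (nat_lit 152) (nat_lit 42377222288) (nat_lit 0) (nat_lit 245224406704) (nat_lit 2) (nat_lit 5) (nat_lit 4) (nat_lit 4) (nat_lit 2) (nat_lit 4) (nat_lit 387) (nat_lit 246) (nat_lit 147))) (XT.nd (nat_lit 78) (nat_lit 0) (nat_lit 0) (XT.lf (nat_lit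 0) (nat_lit 272846881174) (nat_lit 152) (nat_lit 35830887748) (nat_lit 0) (nat_lit 261974785089) (nat_lit 2) (nat_lit 5) (nat_lit 4) (nat_lit 4) (nat_lit 2) (nat_lit 4) (nat_lit 388) (nat_lit 246) (nat_lit 146)) (XT.nd (nat_lit 78) (nat_lit 0) (nat_lit 0) (XT.lf (nat_lit 0) (nat_lit 290435864685) (nat_lit 152) (nat_lit 28963570291) (nat_lit 0) (nat_lit 279559801444) (nat_lit 2) (nat_lit 5) (nat_lit 4) (nat_lit 4) (nat_lit 2) (nat_lit 4) (nat_lit 389) (nat_lit 246) (nat_lit 145)) (XT.lf (nat_lit 0) (nat_lit 308901166339) (nat_lit 152) (nat_lit 21758919159) (nat_lit 0) (nat_lit 298021324855) (nat_lit 2) (nat_lit 5) (nat_lit 4) (nat_lit 4) (nat_lit 2) (nat_lit 4) (nat_lit 390) (nat_lit 246) (nat_lit 144))))) (XT.nd (nat_lit 32604) (nat_lit 0) (nat_lit 3496) (XT.nd (nat_lit 32448) (nat_lit 0) (nat_lit 4028) (XT.lf (nat_lit 0) (nat_lit 328286751141) (nat_lit 152) (nat_lit 14199780422) (nat_lit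 0) (nat_lit 317403311329) (nat_lit 2) (nat_lit 5) (nat_lit 4) (nat_lit 4) (nat_lit 2) (nat_lit 4) (nat_lit 391) (nat_lit 246) (nat_lit 143)) (XT.nd (nat_lit 78) (nat_lit 228) (nat_lit 0) (XT.lf (nat_lit 0) (nat_lit 1497401080) (nat_lit 304) (nat_lit 1316417553) (nat_lit 0) (nat_lit 1497401080) (nat_lit 58) (nat_lit 5) (nat_lit 62) (nat_lit 4) (nat_lit 58) (nat_lit 4) (nat_lit 286) (nat_lit 247) (nat_lit 247)) (XT.lf (nat_lit 0) (nat_lit 3824714343) (nat_lit 228) (nat_lit 3008028696) (nat_lit 228) (nat_lit 1975126066) (nat_lit 55) (nat_lit 4) (nat_lit 58) (nat_lit 5) (nat_lit 58) (nat_lit 4) (nat_lit 287) (nat_lit 247) (nat_lit 246)))) (XT.nd (nat_lit 78) (nat_lit 228) (nat_lit 0) (XT.lf (nat_lit 0) (nat_lit 1498714955) (nat_lit 228) (nat_lit 216082301) (nat_lit 304) (nat_lit 7290816667) (nat_lit 51) (nat_lit 5) (nat_lit 54) (nat_lit 5) (nat_lit 55) (nat_lit 4) (nat_lit 288) (nat_lit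 247) (nat_lit 245)) (XT.nd (nat_lit 78) (nat_lit 228) (nat_lit 0) (XT.lf (nat_lit 0) (nat_lit 5499684767) (nat_lit 304) (nat_lit 1026466788) (nat_lit 0) (nat_lit 2686834714) (nat_lit 51) (nat_lit 5) (nat_lit 55) (nat_lit 4) (nat_lit 51) (nat_lit 4) (nat_lit 289) (nat_lit 247) (nat_lit 244)) (XT.lf (nat_lit 0) (nat_lit 5749941667) (nat_lit 228) (nat_lit 3673069672) (nat_lit 228) (nat_lit 10448068) (nat_lit 48) (nat_lit 4) (nat_lit 51) (nat_lit 5) (nat_lit 51) (nat_lit 4) (nat_lit 290) (nat_lit 247) (nat_lit 243))))))))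
noncomputable def xc69 : XT := (XT.nd (nat_lit 1638) (nat_lit 760) (nat_lit 0) (XT.nd (nat_lit 780) (nat_lit 836) (nat_lit 0) (XT.nd (nat_lit 390) (nat_lit 608) (nat_lit 0) (XT.nd (nat_lit 156) (nat_lit 380) (nat_lit 0) (XT.nd (nat_lit 78) (nat_lit 228) (nat_lit 0) (XT.lf (nat_lit 0) (nat_lit 3063885370) (nat_lit 152) (nat_lit 612121074) (nat_lit 228) (nat_lit 5989968646) (nat_lit 45) (nat_lit 5) (nat_lit 47) (nat_lit 5) (nat_lit 48) (nat_lit 4) (nat_lit 291) (nat_lit 247) (nat_lit 242)) (XT.lf (nat_lit 0) (nat_lit 118760944) (nat_lit 228) (nat_lit 7393141425) (nat_lit 228) (nat_lit 2400097912) (nat_lit 42) (nat_lit 4) (nat_lit 45) (nat_lit 5) (nat_lit 45) (nat_lit 4) (nat_lit 292) (nat_lit 247) (nat_lit 241))) (XT.nd (nat_lit 78) (nat_lit 304) (nat_lit 0) (XT.lf (nat_lit 0) (nat_lit 1309726142) (nat_lit 304) (nat_lit 3007214078) (nat_lit 76) (nat_lit 5853253729) (nat_lit 41) (nat_lit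 5) (nat_lit 45) (nat_lit 5) (nat_lit 42) (nat_lit 4) (nat_lit 293) (nat_lit 247) (nat_lit 240)) (XT.nd (nat_lit 78) (nat_lit 152) (nat_lit 0) (XT.lf (nat_lit 0) (nat_lit 4002986362) (nat_lit 152) (nat_lit 1051139139) (nat_lit 228) (nat_lit 5388860555) (nat_lit 39) (nat_lit 5) (nat_lit 41) (nat_lit 5) (nat_lit 42) (nat_lit 4) (nat_lit 294) (nat_lit 247) (nat_lit 239)) (XT.lf (nat_lit 0) (nat_lit 513588356) (nat_lit 152) (nat_lit 8438390630) (nat_lit 152) (nat_lit 1779263459) (nat_lit 37) (nat_lit 4) (nat_lit 39) (nat_lit 5) (nat_lit 39) (nat_lit 4) (nat_lit 295) (nat_lit 247) (nat_lit 238))))) (XT.nd (nat_lit 156) (nat_lit 380) (nat_lit 0) (XT.nd (nat_lit 78) (nat_lit 152) (nat_lit 0) (XT.lf (nat_lit 0) (nat_lit 1944703326) (nat_lit 228) (nat_lit 3247644185) (nat_lit 76) (nat_lit 5840205705) (nat_lit 36) (nat_lit 5) (nat_lit 39) (nat_lit 5) (nat_lit 37) (nat_lit 4) (nat_lit 296) (nat_lit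 247) (nat_lit 237)) (XT.lf (nat_lit 0) (nat_lit 3971467192) (nat_lit 152) (nat_lit 1761958912) (nat_lit 228) (nat_lit 5617245196) (nat_lit 34) (nat_lit 5) (nat_lit 36) (nat_lit 5) (nat_lit 37) (nat_lit 4) (nat_lit 297) (nat_lit 247) (nat_lit 236))) (XT.nd (nat_lit 78) (nat_lit 380) (nat_lit 0) (XT.lf (nat_lit 0) (nat_lit 9674272160) (nat_lit 228) (nat_lit 246454855) (nat_lit 0) (nat_lit 1765946122) (nat_lit 34) (nat_lit 5) (nat_lit 37) (nat_lit 4) (nat_lit 34) (nat_lit 4) (nat_lit 298) (nat_lit 247) (nat_lit 235)) (XT.nd (nat_lit 78) (nat_lit 152) (nat_lit 0) (XT.lf (nat_lit 0) (nat_lit 1742317823) (nat_lit 228) (nat_lit 4809759096) (nat_lit 76) (nat_lit 5484797621) (nat_lit 31) (nat_lit 5) (nat_lit 34) (nat_lit 5) (nat_lit 32) (nat_lit 4) (nat_lit 299) (nat_lit 247) (nat_lit 234)) (XT.lf (nat_lit 0) (nat_lit 2536118475) (nat_lit 152) (nat_lit 3009384503) (nat_lit 228) (nat_lit 6861112438)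 (nat_lit 29) (nat_lit 5) (nat_lit 31) (nat_lit 5) (nat_lit 32) (nat_lit 4) (nat_lit 300) (nat_lit 247) (nat_lit 233)))))) (XT.nd (nat_lit 390) (nat_lit 380) (nat_lit 0) (XT.nd (nat_lit 156) (nat_lit 228) (nat_lit 0) (XT.nd (nat_lit 78) (nat_lit 228) (nat_lit 0) (XT.lf (nat_lit 0) (nat_lit 9518660462) (nat_lit 228) (nat_lit 2578962175) (nat_lit 0) (nat_lit 698322358) (nat_lit 29) (nat_lit 5) (nat_lit 32) (nat_lit 4) (nat_lit 29) (nat_lit 4) (nat_lit 301) (nat_lit 247) (nat_lit 232)) (XT.lf (nat_lit 0) (nat_lit 489252077) (nat_lit 228) (nat_lit 8206661483) (nat_lit 76) (nat_lit 4507578844) (nat_lit 26) (nat_lit 5) (nat_lit 29) (nat_lit 5) (nat_lit 27) (nat_lit 4) (nat_lit 302) (nat_lit 247) (nat_lit 231))) (XT.nd (nat_lit 78) (nat_lit 228) (nat_lit 0) (XT.lf (nat_lit 0) (nat_lit 4270271838) (nat_lit 228) (nat_lit 826323485) (nat_lit 76) (nat_lit 8535400574) (nat_lit 26) (nat_lit 5) (nat_lit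 29) (nat_lit 5) (nat_lit 27) (nat_lit 4) (nat_lit 303) (nat_lit 247) (nat_lit 230)) (XT.nd (nat_lit 78) (nat_lit 152) (nat_lit 0) (XT.lf (nat_lit 0) (nat_lit 6971301806) (nat_lit 76) (nat_lit 1274932433) (nat_lit 152) (nat_lit 5835471689) (nat_lit 25) (nat_lit 5) (nat_lit 26) (nat_lit 5) (nat_lit 27) (nat_lit 4) (nat_lit 304) (nat_lit 247) (nat_lit 229)) (XT.lf (nat_lit 0) (nat_lit 429021348) (nat_lit 152) (nat_lit 11953793501) (nat_lit 152) (nat_lit 2173067935) (nat_lit 23) (nat_lit 4) (nat_lit 25) (nat_lit 5) (nat_lit 25) (nat_lit 4) (nat_lit 305) (nat_lit 247) (nat_lit 228))))) (XT.nd (nat_lit 234) (nat_lit 228) (nat_lit 0) (XT.nd (nat_lit 78) (nat_lit 76) (nat_lit 0) (XT.lf (nat_lit 0) (nat_lit 1660817744) (nat_lit 228) (nat_lit 6681068198) (nat_lit 76) (nat_lit 6708548019) (nat_lit 22) (nat_lit 5) (nat_lit 25) (nat_lit 5) (nat_lit 23) (nat_lit 4) (nat_lit 306) (nat_lit 247) (nat_lit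 227)) (XT.nd (nat_lit 78) (nat_lit 0) (nat_lit 0) (XT.lf (nat_lit 0) (nat_lit 964046561) (nat_lit 76) (nat_lit 4567799990) (nat_lit 152) (nat_lit 10040223515) (nat_lit 21) (nat_lit 5) (nat_lit 22) (nat_lit 5) (nat_lit 23) (nat_lit 4) (nat_lit 307) (nat_lit 247) (nat_lit 226)) (XT.lf (nat_lit 0) (nat_lit 9057881972) (nat_lit 76) (nat_lit 557133674) (nat_lit 152) (nat_lit 6503902392) (nat_lit 21) (nat_lit 5) (nat_lit 22) (nat_lit 5) (nat_lit 23) (nat_lit 4) (nat_lit 308) (nat_lit 247) (nat_lit 225)))) (XT.nd (nat_lit 78) (nat_lit 76) (nat_lit 0) (XT.lf (nat_lit 0) (nat_lit 666470597) (nat_lit 152) (nat_lit 13212218123) (nat_lit 152) (nat_lit 2815659083) (nat_lit 19) (nat_lit 4) (nat_lit 21) (nat_lit 5) (nat_lit 21) (nat_lit 4) (nat_lit 309) (nat_lit 247) (nat_lit 224)) (XT.nd (nat_lit 78) (nat_lit 0) (nat_lit 0) (XT.lf (nat_lit 0) (nat_lit 1063079961) (nat_lit 228) (nat_lit 8456235494)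 (nat_lit 76) (nat_lit 7776464167) (nat_lit 18) (nat_lit 5) (nat_lit 21) (nat_lit 5) (nat_lit 19) (nat_lit 4) (nat_lit 310) (nat_lit 247) (nat_lit 223)) (XT.lf (nat_lit 0) (nat_lit 4954691629) (nat_lit 228) (nat_lit 706041456) (nat_lit 76) (nat_lit 12268612970) (nat_lit 18) (nat_lit 5) (nat_lit 21) (nat_lit 5) (nat_lit 19) (nat_lit 4) (nat_lit 311) (nat_lit 247) (nat_lit 222))))))) (XT.nd (nat_lit 780) (nat_lit 304) (nat_lit 0) (XT.nd (nat_lit 390) (nat_lit 152) (nat_lit 0) (XT.nd (nat_lit 156) (nat_lit 228) (nat_lit 0) (XT.nd (nat_lit 78) (nat_lit 0) (nat_lit 0) (XT.lf (nat_lit 0) (nat_lit 7525996982) (nat_lit 76) (nat_lit 1550065259) (nat_lit 152) (nat_lit 9516816275) (nat_lit 17) (nat_lit 5) (nat_lit 18) (nat_lit 5) (nat_lit 19) (nat_lit 4) (nat_lit 312) (nat_lit 247) (nat_lit 221)) (XT.lf (nat_lit 0) (nat_lit 13377195431) (nat_lit 152) (nat_lit 3285489279) (nat_lit 0) (nat_lit 2628262589)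 (nat_lit 17) (nat_lit 5) (nat_lit 19) (nat_lit 4) (nat_lit 17) (nat_lit 4) (nat_lit 313) (nat_lit 247) (nat_lit 220))) (XT.nd (nat_lit 78) (nat_lit 152) (nat_lit 0) (XT.lf (nat_lit 0) (nat_lit 4875350101) (nat_lit 76) (nat_lit 13041805622) (nat_lit 76) (nat_lit 2105617567) (nat_lit 16) (nat_lit 4) (nat_lit 17) (nat_lit 5) (nat_lit 17) (nat_lit 4) (nat_lit 314) (nat_lit 247) (nat_lit 219)) (XT.nd (nat_lit 78) (nat_lit 76) (nat_lit 0) (XT.lf (nat_lit 0) (nat_lit 1811393260) (nat_lit 152) (nat_lit 7401170169) (nat_lit 76) (nat_lit 11578235057) (nat_lit 15) (nat_lit 5) (nat_lit 17) (nat_lit 5) (nat_lit 16) (nat_lit 4) (nat_lit 315) (nat_lit 247) (nat_lit 218)) (XT.lf (nat_lit 0) (nat_lit 582627879) (nat_lit 76) (nat_lit 5206152720) (nat_lit 152) (nat_lit 15809990530) (nat_lit 14) (nat_lit 5) (nat_lit 15) (nat_lit 5) (nat_lit 16) (nat_lit 4) (nat_lit 316) (nat_lit 247) (nat_lit 217))))) (XT.nd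 (nat_lit 156) (nat_lit 152) (nat_lit 0) (XT.nd (nat_lit 78) (nat_lit 0) (nat_lit 0) (XT.lf (nat_lit 0) (nat_lit 9090830344) (nat_lit 76) (nat_lit 927199308) (nat_lit 152) (nat_lit 12426497927) (nat_lit 14) (nat_lit 5) (nat_lit 15) (nat_lit 5) (nat_lit 16) (nat_lit 4) (nat_lit 317) (nat_lit 247) (nat_lit 216)) (XT.lf (nat_lit 0) (nat_lit 14444623894) (nat_lit 152) (nat_lit 5491859034) (nat_lit 0) (nat_lit 3396827921) (nat_lit 14) (nat_lit 5) (nat_lit 16) (nat_lit 4) (nat_lit 14) (nat_lit 4) (nat_lit 318) (nat_lit 247) (nat_lit 215))) (XT.nd (nat_lit 78) (nat_lit 76) (nat_lit 0) (XT.lf (nat_lit 0) (nat_lit 2712734075) (nat_lit 76) (nat_lit 16370902511) (nat_lit 76) (nat_lit 5183373816) (nat_lit 13) (nat_lit 4) (nat_lit 14) (nat_lit 5) (nat_lit 14) (nat_lit 4) (nat_lit 319) (nat_lit 247) (nat_lit 214)) (XT.nd (nat_lit 78) (nat_lit 76) (nat_lit 0) (XT.lf (nat_lit 0) (nat_lit 11398227459)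 (nat_lit 76) (nat_lit 12584206648) (nat_lit 76) (nat_lit 1263599169) (nat_lit 13) (nat_lit 4) (nat_lit 14) (nat_lit 5) (nat_lit 14) (nat_lit 4) (nat_lit 320) (nat_lit 247) (nat_lit 213)) (XT.lf (nat_lit 0) (nat_lit 2697762286) (nat_lit 152) (nat_lit 5916936490) (nat_lit 76) (nat_lit 17660265008) (nat_lit 12) (nat_lit 5) (nat_lit 14) (nat_lit 5) (nat_lit 13) (nat_lit 4) (nat_lit 321) (nat_lit 247) (nat_lit 212)))))) (XT.nd (nat_lit 390) (nat_lit 152) (nat_lit 0) (XT.nd (nat_lit 156) (nat_lit 76) (nat_lit 0) (XT.nd (nat_lit 78) (nat_lit 0) (nat_lit 0) (XT.lf (nat_lit 0) (nat_lit 2354260770) (nat_lit 76) (nat_lit 4437113047) (nat_lit 152) (nat_lit 20564124862) (nat_lit 11) (nat_lit 5) (nat_lit 12) (nat_lit 5) (nat_lit 13) (nat_lit 4) (nat_lit 322) (nat_lit 247) (nat_lit 211)) (XT.lf (nat_lit 0) (nat_lit 11130991826) (nat_lit 152) (nat_lit 17352715111) (nat_lit 0) (nat_lit 4311813) (nat_lit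 11) (nat_lit 5) (nat_lit 13) (nat_lit 4) (nat_lit 11) (nat_lit 4) (nat_lit 323) (nat_lit 247) (nat_lit 210))) (XT.nd (nat_lit 78) (nat_lit 76) (nat_lit 0) (XT.lf (nat_lit 0) (nat_lit 15703442436) (nat_lit 152) (nat_lit 9500461638) (nat_lit 0) (nat_lit 4472491714) (nat_lit 11) (nat_lit 5) (nat_lit 13) (nat_lit 4) (nat_lit 11) (nat_lit 4) (nat_lit 324) (nat_lit 247) (nat_lit 209)) (XT.nd (nat_lit 78) (nat_lit 76) (nat_lit 0) (XT.lf (nat_lit 0) (nat_lit 20450336665) (nat_lit 152) (nat_lit 1356505879) (nat_lit 0) (nat_lit 9120080506) (nat_lit 11) (nat_lit 5) (nat_lit 13) (nat_lit 4) (nat_lit 11) (nat_lit 4) (nat_lit 325) (nat_lit 247) (nat_lit 208)) (XT.lf (nat_lit 0) (nat_lit 7333252410) (nat_lit 76) (nat_lit 18164216854) (nat_lit 76) (nat_lit 6739384087) (nat_lit 10) (nat_lit 4) (nat_lit 11) (nat_lit 5) (nat_lit 11) (nat_lit 4) (nat_lit 326) (nat_lit 247) (nat_lit 207))))) (XT.nd (nat_lit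 234) (nat_lit 76) (nat_lit 0) (XT.nd (nat_lit 78) (nat_lit 76) (nat_lit 0) (XT.lf (nat_lit 0) (nat_lit 16410038387) (nat_lit 76) (nat_lit 14359275049) (nat_lit 76) (nat_lit 2844369324) (nat_lit 10) (nat_lit 4) (nat_lit 11) (nat_lit 5) (nat_lit 11) (nat_lit 4) (nat_lit 327) (nat_lit 247) (nat_lit 206)) (XT.nd (nat_lit 78) (nat_lit 0) (nat_lit 0) (XT.lf (nat_lit 0) (nat_lit 1156518926) (nat_lit 152) (nat_lit 9229825697) (nat_lit 76) (nat_lit 24674506103) (nat_lit 9) (nat_lit 5) (nat_lit 11) (nat_lit 5) (nat_lit 10) (nat_lit 4) (nat_lit 328) (nat_lit 247) (nat_lit 205)) (XT.lf (nat_lit 0) (nat_lit 5215179466) (nat_lit 152) (nat_lit 991270418) (nat_lit 76) (nat_lit 30373947459) (nat_lit 9) (nat_lit 5) (nat_lit 11) (nat_lit 5) (nat_lit 10) (nat_lit 4) (nat_lit 329) (nat_lit 247) (nat_lit 204)))) (XT.nd (nat_lit 78) (nat_lit 0) (nat_lit 0) (XT.lf (nat_lit 0) (nat_lit 7826543928) (nat_lit 76)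 (nat_lit 1727963711) (nat_lit 152) (nat_lit 28617543658) (nat_lit 8) (nat_lit 5) (nat_lit 9) (nat_lit 5) (nat_lit 10) (nat_lit 4) (nat_lit 330) (nat_lit 247) (nat_lit 203)) (XT.nd (nat_lit 78) (nat_lit 0) (nat_lit 0) (XT.lf (nat_lit 0) (nat_lit 14130087951) (nat_lit 152) (nat_lit 22852925583) (nat_lit 0) (nat_lit 2859326065) (nat_lit 8) (nat_lit 5) (nat_lit 10) (nat_lit 4) (nat_lit 8) (nat_lit 4) (nat_lit 331) (nat_lit 247) (nat_lit 202)) (XT.lf (nat_lit 0) (nat_lit 18920663531) (nat_lit 152) (nat_lit 15093495337) (nat_lit 0) (nat_lit 7582687816) (nat_lit 8) (nat_lit 5) (nat_lit 10) (nat_lit 4) (nat_lit 8) (nat_lit 4) (nat_lit 332) (nat_lit 247) (nat_lit 201))))))))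
noncomputable def xc70 : XT := (XT.nd (nat_lit 1560) (nat_lit 152) (nat_lit 0) (XT.nd (nat_lit 780) (nat_lit 76) (nat_lit 0) (XT.nd (nat_lit 390) (nat_lit 152) (nat_lit 0) (XT.nd (nat_lit 156) (nat_lit 0) (nat_lit 0) (XT.nd (nat_lit 78) (nat_lit 76) (nat_lit 0) (XT.lf (nat_lit 0) (nat_lit 23910662155) (nat_lit 152) (nat_lit 7021763440) (nat_lit 0) (nat_lit 12508673271) (nat_lit 8) (nat_lit 5) (nat_lit 10) (nat_lit 4) (nat_lit 8) (nat_lit 4) (nat_lit 333) (nat_lit 247) (nat_lit 200)) (XT.lf (nat_lit 0) (nat_lit 1427166765) (nat_lit 76) (nat_lit 27707080081) (nat_lit 76) (nat_lit 16244126272) (nat_lit 7) (nat_lit 4) (nat_lit 8) (nat_lit 5) (nat_lit 8) (nat_lit 4) (nat_lit 334) (nat_lit 247) (nat_lit 199))) (XT.nd (nat_lit 78) (nat_lit 0) (nat_lit 0) (XT.lf (nat_lit 0) (nat_lit 10471419080) (nat_lit 76) (nat_lit 24229024556) (nat_lit 76) (nat_lit 12708008915) (nat_lit 7) (nat_lit 4) (nat_lit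 8) (nat_lit 5) (nat_lit 8) (nat_lit 4) (nat_lit 335) (nat_lit 247) (nat_lit 198)) (XT.nd (nat_lit 78) (nat_lit 0) (nat_lit 0) (XT.lf (nat_lit 0) (nat_lit 19900356228) (nat_lit 76) (nat_lit 20608894899) (nat_lit 76) (nat_lit 9032582275) (nat_lit 7) (nat_lit 4) (nat_lit 8) (nat_lit 5) (nat_lit 8) (nat_lit 4) (nat_lit 336) (nat_lit 247) (nat_lit 197)) (XT.lf (nat_lit 0) (nat_lit 29736428059) (nat_lit 76) (nat_lit 16838071753) (nat_lit 76) (nat_lit 5209095335) (nat_lit 7) (nat_lit 4) (nat_lit 8) (nat_lit 5) (nat_lit 8) (nat_lit 4) (nat_lit 337) (nat_lit 247) (nat_lit 196))))) (XT.nd (nat_lit 156) (nat_lit 76) (nat_lit 0) (XT.nd (nat_lit 78) (nat_lit 76) (nat_lit 0) (XT.lf (nat_lit 0) (nat_lit 40003053793) (nat_lit 76) (nat_lit 12907576967) (nat_lit 76) (nat_lit 1228444555) (nat_lit 7) (nat_lit 4) (nat_lit 8) (nat_lit 5) (nat_lit 8) (nat_lit 4) (nat_lit 338) (nat_lit 247) (nat_lit 195)) (XT.lf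 (nat_lit 0) (nat_lit 2825426445) (nat_lit 152) (nat_lit 5934775812) (nat_lit 76) (nat_lit 47851401367) (nat_lit 6) (nat_lit 5) (nat_lit 8) (nat_lit 5) (nat_lit 7) (nat_lit 4) (nat_lit 339) (nat_lit 247) (nat_lit 194))) (XT.nd (nat_lit 78) (nat_lit 0) (nat_lit 0) (XT.lf (nat_lit 0) (nat_lit 2685803840) (nat_lit 76) (nat_lit 4366975101) (nat_lit 152) (nat_lit 52153378681) (nat_lit 5) (nat_lit 5) (nat_lit 6) (nat_lit 5) (nat_lit 7) (nat_lit 4) (nat_lit 340) (nat_lit 247) (nat_lit 193)) (XT.nd (nat_lit 78) (nat_lit 0) (nat_lit 0) (XT.lf (nat_lit 0) (nat_lit 11567775390) (nat_lit 152) (nat_lit 50044150352) (nat_lit 0) (nat_lit 314709082) (nat_lit 5) (nat_lit 5) (nat_lit 7) (nat_lit 4) (nat_lit 5) (nat_lit 4) (nat_lit 341) (nat_lit 247) (nat_lit 192)) (XT.lf (nat_lit 0) (nat_lit 16351807561) (nat_lit 152) (nat_lit 43369730184) (nat_lit 0) (nat_lit 5059442720) (nat_lit 5) (nat_lit 5) (nat_lit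 7) (nat_lit 4) (nat_lit 5) (nat_lit 4) (nat_lit 342) (nat_lit 247) (nat_lit 191)))))) (XT.nd (nat_lit 390) (nat_lit 76) (nat_lit 0) (XT.nd (nat_lit 156) (nat_lit 0) (nat_lit 0) (XT.nd (nat_lit 78) (nat_lit 0) (nat_lit 0) (XT.lf (nat_lit 0) (nat_lit 21348085289) (nat_lit 152) (nat_lit 36413021082) (nat_lit 0) (nat_lit 10018293272) (nat_lit 5) (nat_lit 5) (nat_lit 7) (nat_lit 4) (nat_lit 5) (nat_lit 4) (nat_lit 343) (nat_lit 247) (nat_lit 190)) (XT.lf (nat_lit 0) (nat_lit 26568504472) (nat_lit 152) (nat_lit 29157459453) (nat_lit 0) (nat_lit 15203067527) (nat_lit 5) (nat_lit 5) (nat_lit 7) (nat_lit 4) (nat_lit 5) (nat_lit 4) (nat_lit 344) (nat_lit 247) (nat_lit 189))) (XT.nd (nat_lit 78) (nat_lit 0) (nat_lit 0) (XT.lf (nat_lit 0) (nat_lit 32025494680) (nat_lit 152) (nat_lit 21585770150) (nat_lit 0) (nat_lit 20626110184) (nat_lit 5) (nat_lit 5) (nat_lit 7) (nat_lit 4) (nat_lit 5) (nat_lit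 4) (nat_lit 345) (nat_lit 247) (nat_lit 188)) (XT.nd (nat_lit 78) (nat_lit 0) (nat_lit 0) (XT.lf (nat_lit 0) (nat_lit 37732048747) (nat_lit 152) (nat_lit 13679925342) (nat_lit 0) (nat_lit 26300333250) (nat_lit 5) (nat_lit 5) (nat_lit 7) (nat_lit 4) (nat_lit 5) (nat_lit 4) (nat_lit 346) (nat_lit 247) (nat_lit 187)) (XT.lf (nat_lit 0) (nat_lit 43701753706) (nat_lit 152) (nat_lit 5421101588) (nat_lit 0) (nat_lit 32239246780) (nat_lit 5) (nat_lit 5) (nat_lit 7) (nat_lit 4) (nat_lit 5) (nat_lit 4) (nat_lit 347) (nat_lit 247) (nat_lit 186))))) (XT.nd (nat_lit 156) (nat_lit 0) (nat_lit 0) (XT.nd (nat_lit 78) (nat_lit 0) (nat_lit 0) (XT.lf (nat_lit 0) (nat_lit 3316514141) (nat_lit 76) (nat_lit 46684089080) (nat_lit 76) (nat_lit 35192256982) (nat_lit 4) (nat_lit 4) (nat_lit 5) (nat_lit 5) (nat_lit 5) (nat_lit 4) (nat_lit 348) (nat_lit 247) (nat_lit 185)) (XT.lf (nat_lit 0) (nat_lit 12639570660)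 (nat_lit 76) (nat_lit 44045899485) (nat_lit 76) (nat_lit 32526138653) (nat_lit 4) (nat_lit 4) (nat_lit 5) (nat_lit 5) (nat_lit 5) (nat_lit 4) (nat_lit 349) (nat_lit 247) (nat_lit 184))) (XT.nd (nat_lit 78) (nat_lit 0) (nat_lit 0) (XT.lf (nat_lit 0) (nat_lit 22391019623) (nat_lit 76) (nat_lit 41293814085) (nat_lit 76) (nat_lit 29747454459) (nat_lit 4) (nat_lit 4) (nat_lit 5) (nat_lit 5) (nat_lit 5) (nat_lit 4) (nat_lit 350) (nat_lit 247) (nat_lit 183)) (XT.nd (nat_lit 78) (nat_lit 0) (nat_lit 0) (XT.lf (nat_lit 0) (nat_lit 32594078764) (nat_lit 76) (nat_lit 38421280296) (nat_lit 76) (nat_lit 26849588485) (nat_lit 4) (nat_lit 4) (nat_lit 5) (nat_lit 5) (nat_lit 5) (nat_lit 4) (nat_lit 351) (nat_lit 247) (nat_lit 182)) (XT.lf (nat_lit 0) (nat_lit 43273041082) (nat_lit 76) (nat_lit 35421458751) (nat_lit 76) (nat_lit 23825641049) (nat_lit 4) (nat_lit 4) (nat_lit 5) (nat_lit 5) (nat_lit 5)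 (nat_lit 4) (nat_lit 352) (nat_lit 247) (nat_lit 181))))))) (XT.nd (nat_lit 780) (nat_lit 0) (nat_lit 0) (XT.nd (nat_lit 390) (nat_lit 152) (nat_lit 0) (XT.nd (nat_lit 156) (nat_lit 0) (nat_lit 0) (XT.nd (nat_lit 78) (nat_lit 0) (nat_lit 0) (XT.lf (nat_lit 0) (nat_lit 54453332676) (nat_lit 76) (nat_lit 32287207018) (nat_lit 76) (nat_lit 20668412277) (nat_lit 4) (nat_lit 4) (nat_lit 5) (nat_lit 5) (nat_lit 5) (nat_lit 4) (nat_lit 353) (nat_lit 247) (nat_lit 180)) (XT.lf (nat_lit 0) (nat_lit 66161573290) (nat_lit 76) (nat_lit 29011062593) (nat_lit 76) (nat_lit 17370384958) (nat_lit 4) (nat_lit 4) (nat_lit 5) (nat_lit 5) (nat_lit 5) (nat_lit 4) (nat_lit 354) (nat_lit 247) (nat_lit 179))) (XT.nd (nat_lit 78) (nat_lit 0) (nat_lit 0) (XT.lf (nat_lit 0) (nat_lit 78425639686) (nat_lit 76) (nat_lit 25585225132) (nat_lit 76) (nat_lit 13923706646) (nat_lit 4) (nat_lit 4) (nat_lit 5) (nat_lit 5)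 (nat_lit 5) (nat_lit 4) (nat_lit 355) (nat_lit 247) (nat_lit 178)) (XT.nd (nat_lit 78) (nat_lit 0) (nat_lit 0) (XT.lf (nat_lit 0) (nat_lit 91274732022) (nat_lit 76) (nat_lit 22001537879) (nat_lit 76) (nat_lit 10320170964) (nat_lit 4) (nat_lit 4) (nat_lit 5) (nat_lit 5) (nat_lit 5) (nat_lit 4) (nat_lit 356) (nat_lit 247) (nat_lit 177)) (XT.lf (nat_lit 0) (nat_lit 104739443376) (nat_lit 76) (nat_lit 18251468246) (nat_lit 76) (nat_lit 6551198064) (nat_lit 4) (nat_lit 4) (nat_lit 5) (nat_lit 5) (nat_lit 5) (nat_lit 4) (nat_lit 357) (nat_lit 247) (nat_lit 176))))) (XT.nd (nat_lit 156) (nat_lit 76) (nat_lit 0) (XT.nd (nat_lit 78) (nat_lit 76) (nat_lit 0) (XT.lf (nat_lit 0) (nat_lit 118851832584) (nat_lit 76) (nat_lit 14326087496) (nat_lit 76) (nat_lit 2607814202) (nat_lit 4) (nat_lit 4) (nat_lit 5) (nat_lit 5) (nat_lit 5) (nat_lit 4) (nat_lit 358) (nat_lit 247) (nat_lit 175)) (XT.lf (nat_lit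 0) (nat_lit 1470740313) (nat_lit 152) (nat_lit 8720401471) (nat_lit 76) (nat_lit 132149852561) (nat_lit 3) (nat_lit 5) (nat_lit 5) (nat_lit 5) (nat_lit 4) (nat_lit 4) (nat_lit 359) (nat_lit 247) (nat_lit 174))) (XT.nd (nat_lit 78) (nat_lit 76) (nat_lit 0) (XT.lf (nat_lit 0) (nat_lit 5653257827) (nat_lit 152) (nat_lit 162569918) (nat_lit 76) (nat_lit 143406671877) (nat_lit 3) (nat_lit 5) (nat_lit 5) (nat_lit 5) (nat_lit 4) (nat_lit 4) (nat_lit 360) (nat_lit 247) (nat_lit 173)) (XT.nd (nat_lit 78) (nat_lit 0) (nat_lit 0) (XT.lf (nat_lit 0) (nat_lit 9091674394) (nat_lit 76) (nat_lit 1083435178) (nat_lit 152) (nat_lit 146266463520) (nat_lit 2) (nat_lit 5) (nat_lit 3) (nat_lit 5) (nat_lit 4) (nat_lit 4) (nat_lit 361) (nat_lit 247) (nat_lit 172)) (XT.lf (nat_lit 0) (nat_lit 14974827415) (nat_lit 152) (nat_lit 145290418423) (nat_lit 0) (nat_lit 3753768906) (nat_lit 2) (nat_lit 5) (nat_lit 4)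 (nat_lit 4) (nat_lit 2) (nat_lit 4) (nat_lit 362) (nat_lit 247) (nat_lit 171)))))) (XT.nd (nat_lit 390) (nat_lit 0) (nat_lit 0) (XT.nd (nat_lit 156) (nat_lit 0) (nat_lit 0) (XT.nd (nat_lit 78) (nat_lit 0) (nat_lit 0) (XT.lf (nat_lit 0) (nat_lit 20021159457) (nat_lit 152) (nat_lit 143167173892) (nat_lit 0) (nat_lit 8786666750) (nat_lit 2) (nat_lit 5) (nat_lit 4) (nat_lit 4) (nat_lit 2) (nat_lit 4) (nat_lit 363) (nat_lit 247) (nat_lit 170)) (XT.lf (nat_lit 0) (nat_lit 25309205315) (nat_lit 152) (nat_lit 140958194301) (nat_lit 0) (nat_lit 14061918133) (nat_lit 2) (nat_lit 5) (nat_lit 4) (nat_lit 4) (nat_lit 2) (nat_lit 4) (nat_lit 364) (nat_lit 247) (nat_lit 169))) (XT.nd (nat_lit 78) (nat_lit 0) (nat_lit 0) (XT.lf (nat_lit 0) (nat_lit 30851555575) (nat_lit 152) (nat_lit 138658220175) (nat_lit 0) (nat_lit 19592083178) (nat_lit 2) (nat_lit 5) (nat_lit 4) (nat_lit 4) (nat_lit 2) (nat_lit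 4) (nat_lit 365) (nat_lit 247) (nat_lit 168)) (XT.nd (nat_lit 78) (nat_lit 0) (nat_lit 0) (XT.lf (nat_lit 0) (nat_lit 36661406308) (nat_lit 152) (nat_lit 136261775385) (nat_lit 0) (nat_lit 25390328946) (nat_lit 2) (nat_lit 5) (nat_lit 4) (nat_lit 4) (nat_lit 2) (nat_lit 4) (nat_lit 366) (nat_lit 247) (nat_lit 167)) (XT.lf (nat_lit 0) (nat_lit 42752590493) (nat_lit 152) (nat_lit 133763154110) (nat_lit 0) (nat_lit 31470460782) (nat_lit 2) (nat_lit 5) (nat_lit 4) (nat_lit 4) (nat_lit 2) (nat_lit 4) (nat_lit 367) (nat_lit 247) (nat_lit 166))))) (XT.nd (nat_lit 234) (nat_lit 0) (nat_lit 0) (XT.nd (nat_lit 78) (nat_lit 0) (nat_lit 0) (XT.lf (nat_lit 0) (nat_lit 49139610950) (nat_lit 152) (nat_lit 131156407252) (nat_lit 0) (nat_lit 37846955192) (nat_lit 2) (nat_lit 5) (nat_lit 4) (nat_lit 4) (nat_lit 2) (nat_lit 4) (nat_lit 368) (nat_lit 247) (nat_lit 165)) (XT.nd (nat_lit 78) (nat_lit 0) (nat_lit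 0) (XT.lf (nat_lit 0) (nat_lit 55837674868) (nat_lit 152) (nat_lit 128435328271) (nat_lit 0) (nat_lit 44534994305) (nat_lit 2) (nat_lit 5) (nat_lit 4) (nat_lit 4) (nat_lit 2) (nat_lit 4) (nat_lit 369) (nat_lit 247) (nat_lit 164)) (XT.lf (nat_lit 0) (nat_lit 62862730021) (nat_lit 152) (nat_lit 125593438408) (nat_lit 0) (nat_lit 51550502024) (nat_lit 2) (nat_lit 5) (nat_lit 4) (nat_lit 4) (nat_lit 2) (nat_lit 4) (nat_lit 370) (nat_lit 247) (nat_lit 163)))) (XT.nd (nat_lit 78) (nat_lit 0) (nat_lit 0) (XT.lf (nat_lit 0) (nat_lit 70231502729) (nat_lit 152) (nat_lit 122623971257) (nat_lit 0) (nat_lit 58910181938) (nat_lit 2) (nat_lit 5) (nat_lit 4) (nat_lit 4) (nat_lit 2) (nat_lit 4) (nat_lit 371) (nat_lit 247) (nat_lit 162)) (XT.nd (nat_lit 78) (nat_lit 0) (nat_lit 0) (XT.lf (nat_lit 0) (nat_lit 77961537690) (nat_lit 152) (nat_lit 119519856659) (nat_lit 0) (nat_lit 66631557094) (nat_lit 2)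 (nat_lit 5) (nat_lit 4) (nat_lit 4) (nat_lit 2) (nat_lit 4) (nat_lit 372) (nat_lit 247) (nat_lit 161)) (XT.lf (nat_lit 0) (nat_lit 86071239749) (nat_lit 152) (nat_lit 116273703865) (nat_lit 0) (nat_lit 74733011720) (nat_lit 2) (nat_lit 5) (nat_lit 4) (nat_lit 4) (nat_lit 2) (nat_lit 4) (nat_lit 373) (nat_lit 247) (nat_lit 160))))))))
noncomputable def xc71 : XT := (XT.nd (nat_lit 33852) (nat_lit 0) (nat_lit 1520) (XT.nd (nat_lit 780) (nat_lit 0) (nat_lit 0) (XT.nd (nat_lit 390) (nat_lit 0) (nat_lit 0) (XT.nd (nat_lit 156) (nat_lit 0) (nat_lit 0) (XT.nd (nat_lit 78) (nat_lit 0) (nat_lit 0) (XT.lf (nat_lit 0) (nat_lit 94579917720) (nat_lit 152) (nat_lit 112877783940) (nat_lit 0) (nat_lit 83233834994) (nat_lit 2) (nat_lit 5) (nat_lit 4) (nat_lit 4) (nat_lit 2) (nat_lit 4) (nat_lit 374) (nat_lit 247) (nat_lit 159)) (XT.lf (nat_lit 0) (nat_lit 103507830360) (nat_lit 152) (nat_lit 109324011360)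 (nat_lit 0) (nat_lit 92154266969) (nat_lit 2) (nat_lit 5) (nat_lit 4) (nat_lit 4) (nat_lit 2) (nat_lit 4) (nat_lit 375) (nat_lit 247) (nat_lit 158))) (XT.nd (nat_lit 78) (nat_lit 0) (nat_lit 0) (XT.lf (nat_lit 0) (nat_lit 112876234604) (nat_lit 152) (nat_lit 105603924761) (nat_lit 0) (nat_lit 101515546771) (nat_lit 2) (nat_lit 5) (nat_lit 4) (nat_lit 4) (nat_lit 2) (nat_lit 4) (nat_lit 376) (nat_lit 247) (nat_lit 157)) (XT.nd (nat_lit 78) (nat_lit 0) (nat_lit 0) (XT.lf (nat_lit 0) (nat_lit 122707436177) (nat_lit 152) (nat_lit 101708666796) (nat_lit 0) (nat_lit 111339963160) (nat_lit 2) (nat_lit 5) (nat_lit 4) (nat_lit 4) (nat_lit 2) (nat_lit 4) (nat_lit 377) (nat_lit 247) (nat_lit 156)) (XT.lf (nat_lit 0) (nat_lit 133024842701) (nat_lit 152) (nat_lit 97628963039) (nat_lit 0) (nat_lit 121650907605) (nat_lit 2) (nat_lit 5) (nat_lit 4) (nat_lit 4) (nat_lit 2) (nat_lit 4) (nat_lit 378) (nat_lit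 247) (nat_lit 155))))) (XT.nd (nat_lit 156) (nat_lit 0) (nat_lit 0) (XT.nd (nat_lit 78) (nat_lit 0) (nat_lit 0) (XT.lf (nat_lit 0) (nat_lit 143853019430) (nat_lit 152) (nat_lit 93355099911) (nat_lit 0) (nat_lit 132472929973) (nat_lit 2) (nat_lit 5) (nat_lit 4) (nat_lit 4) (nat_lit 2) (nat_lit 4) (nat_lit 379) (nat_lit 247) (nat_lit 154)) (XT.lf (nat_lit 0) (nat_lit 155217747737) (nat_lit 152) (nat_lit 88876901548) (nat_lit 0) (nat_lit 143831796983) (nat_lit 2) (nat_lit 5) (nat_lit 4) (nat_lit 4) (nat_lit 2) (nat_lit 4) (nat_lit 380) (nat_lit 247) (nat_lit 153))) (XT.nd (nat_lit 78) (nat_lit 0) (nat_lit 0) (XT.lf (nat_lit 0) (nat_lit 167146086499) (nat_lit 152) (nat_lit 84183705571) (nat_lit 0) (nat_lit 155754553558) (nat_lit 2) (nat_lit 5) (nat_lit 4) (nat_lit 4) (nat_lit 2) (nat_lit 4) (nat_lit 381) (nat_lit 247) (nat_lit 152)) (XT.nd (nat_lit 78) (nat_lit 0) (nat_lit 0) (XT.lf (nat_lit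 0) (nat_lit 179666436522) (nat_lit 152) (nat_lit 79264337705) (nat_lit 0) (nat_lit 168269587213) (nat_lit 2) (nat_lit 5) (nat_lit 4) (nat_lit 4) (nat_lit 2) (nat_lit 4) (nat_lit 382) (nat_lit 247) (nat_lit 151)) (XT.lf (nat_lit 0) (nat_lit 192808608164) (nat_lit 152) (nat_lit 74107085169) (nat_lit 0) (nat_lit 181406695647) (nat_lit 2) (nat_lit 5) (nat_lit 4) (nat_lit 4) (nat_lit 2) (nat_lit 4) (nat_lit 383) (nat_lit 247) (nat_lit 150)))))) (XT.nd (nat_lit 390) (nat_lit 0) (nat_lit 0) (XT.nd (nat_lit 156) (nat_lit 0) (nat_lit 0) (XT.nd (nat_lit 78) (nat_lit 0) (nat_lit 0) (XT.lf (nat_lit 0) (nat_lit 206603892310) (nat_lit 152) (nat_lit 68699668791) (nat_lit 0) (nat_lit 195197157690) (nat_lit 2) (nat_lit 5) (nat_lit 4) (nat_lit 4) (nat_lit 2) (nat_lit 4) (nat_lit 384) (nat_lit 247) (nat_lit 149)) (XT.lf (nat_lit 0) (nat_lit 221085134875) (nat_lit 152) (nat_lit 63029213769) (nat_lit 0)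 (nat_lit 209673807776) (nat_lit 2) (nat_lit 5) (nat_lit 4) (nat_lit 4) (nat_lit 2) (nat_lit 4) (nat_lit 385) (nat_lit 247) (nat_lit 148))) (XT.nd (nat_lit 78) (nat_lit 0) (nat_lit 0) (XT.lf (nat_lit 0) (nat_lit 236286815006) (nat_lit 152) (nat_lit 57082219021) (nat_lit 0) (nat_lit 224871114117) (nat_lit 2) (nat_lit 5) (nat_lit 4) (nat_lit 4) (nat_lit 2) (nat_lit 4) (nat_lit 386) (nat_lit 247) (nat_lit 147)) (XT.nd (nat_lit 78) (nat_lit 0) (nat_lit 0) (XT.lf (nat_lit 0) (nat_lit 252245127181) (nat_lit 152) (nat_lit 50844525035) (nat_lit 0) (nat_lit 240825260779) (nat_lit 2) (nat_lit 5) (nat_lit 4) (nat_lit 4) (nat_lit 2) (nat_lit 4) (nat_lit 387) (nat_lit 247) (nat_lit 146)) (XT.lf (nat_lit 0) (nat_lit 268998067382) (nat_lit 152) (nat_lit 44301280158) (nat_lit 0) (nat_lit 257574233823) (nat_lit 2) (nat_lit 5) (nat_lit 4) (nat_lit 4) (nat_lit 2) (nat_lit 4) (nat_lit 388) (nat_lit 247)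 (nat_lit 145))))) (XT.nd (nat_lit 32448) (nat_lit 0) (nat_lit 4256) (XT.nd (nat_lit 78) (nat_lit 0) (nat_lit 0) (XT.lf (nat_lit 0) (nat_lit 286585523560) (nat_lit 152) (nat_lit 37436905236) (nat_lit 0) (nat_lit 275157911757) (nat_lit 2) (nat_lit 5) (nat_lit 4) (nat_lit 4) (nat_lit 2) (nat_lit 4) (nat_lit 389) (nat_lit 247) (nat_lit 144)) (XT.nd (nat_lit 78) (nat_lit 0) (nat_lit 0) (XT.lf (nat_lit 0) (nat_lit 305049370612) (nat_lit 152) (nat_lit 30235056520) (nat_lit 0) (nat_lit 293618160482) (nat_lit 2) (nat_lit 5) (nat_lit 4) (nat_lit 4) (nat_lit 2) (nat_lit 4) (nat_lit 390) (nat_lit 247) (nat_lit 143)) (XT.lf (nat_lit 0) (nat_lit 324433570078) (nat_lit 152) (nat_lit 22678586750) (nat_lit 0) (nat_lit 312998932969) (nat_lit 2) (nat_lit 5) (nat_lit 4) (nat_lit 4) (nat_lit 2) (nat_lit 4) (nat_lit 391) (nat_lit 247) (nat_lit 142)))) (XT.nd (nat_lit 78) (nat_lit 304) (nat_lit 0) (XT.lf (nat_lit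 0) (nat_lit 881967345) (nat_lit 304) (nat_lit 1629142740) (nat_lit 304) (nat_lit 1629142740) (nat_lit 62) (nat_lit 4) (nat_lit 66) (nat_lit 5) (nat_lit 66) (nat_lit 4) (nat_lit 284) (nat_lit 248) (nat_lit 248)) (XT.nd (nat_lit 78) (nat_lit 228) (nat_lit 0) (XT.lf (nat_lit 0) (nat_lit 351498567) (nat_lit 380) (nat_lit 418203086) (nat_lit 76) (nat_lit 7679993712) (nat_lit 61) (nat_lit 5) (nat_lit 66) (nat_lit 5) (nat_lit 62) (nat_lit 4) (nat_lit 285) (nat_lit 248) (nat_lit 247)) (XT.lf (nat_lit 0) (nat_lit 4003333244) (nat_lit 304) (nat_lit 2737137952) (nat_lit 0) (nat_lit 1885882851) (nat_lit 58) (nat_lit 5) (nat_lit 62) (nat_lit 4) (nat_lit 58) (nat_lit 4) (nat_lit 286) (nat_lit 248) (nat_lit 246))))))) (XT.nd (nat_lit 780) (nat_lit 1064) (nat_lit 0) (XT.nd (nat_lit 390) (nat_lit 684) (nat_lit 0) (XT.nd (nat_lit 156) (nat_lit 456) (nat_lit 0) (XT.nd (nat_lit 78) (nat_lit 304) (nat_lit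 0) (XT.lf (nat_lit 0) (nat_lit 3614342232) (nat_lit 228) (nat_lit 4151250558) (nat_lit 228) (nat_lit 1050083374) (nat_lit 55) (nat_lit 4) (nat_lit 58) (nat_lit 5) (nat_lit 58) (nat_lit 4) (nat_lit 287) (nat_lit 248) (nat_lit 245)) (XT.lf (nat_lit 0) (nat_lit 1154884681) (nat_lit 228) (nat_lit 1378249464) (nat_lit 304) (nat_lit 6483517938) (nat_lit 51) (nat_lit 5) (nat_lit 54) (nat_lit 5) (nat_lit 55) (nat_lit 4) (nat_lit 288) (nat_lit 248) (nat_lit 244))) (XT.nd (nat_lit 78) (nat_lit 456) (nat_lit 0) (XT.lf (nat_lit 0) (nat_lit 6229574360) (nat_lit 304) (nat_lit 1464915922) (nat_lit 0) (nat_lit 1534050126) (nat_lit 51) (nat_lit 5) (nat_lit 55) (nat_lit 4) (nat_lit 51) (nat_lit 4) (nat_lit 289) (nat_lit 248) (nat_lit 243)) (XT.nd (nat_lit 78) (nat_lit 152) (nat_lit 0) (XT.lf (nat_lit 0) (nat_lit 604443893) (nat_lit 304) (nat_lit 4265720490) (nat_lit 76) (nat_lit 4582230325) (nat_lit 47)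 (nat_lit 5) (nat_lit 51) (nat_lit 5) (nat_lit 48) (nat_lit 4) (nat_lit 290) (nat_lit 248) (nat_lit 242)) (XT.lf (nat_lit 0) (nat_lit 2361441619) (nat_lit 152) (nat_lit 1851748594) (nat_lit 228) (nat_lit 5475661580) (nat_lit 45) (nat_lit 5) (nat_lit 47) (nat_lit 5) (nat_lit 48) (nat_lit 4) (nat_lit 291) (nat_lit 248) (nat_lit 241))))) (XT.nd (nat_lit 156) (nat_lit 380) (nat_lit 0) (XT.nd (nat_lit 78) (nat_lit 304) (nat_lit 0) (XT.lf (nat_lit 0) (nat_lit 7962645945) (nat_lit 228) (nat_lit 689853580) (nat_lit 0) (nat_lit 1286776484) (nat_lit 45) (nat_lit 5) (nat_lit 48) (nat_lit 4) (nat_lit 45) (nat_lit 4) (nat_lit 292) (nat_lit 248) (nat_lit 240)) (XT.lf (nat_lit 0) (nat_lit 1643572906) (nat_lit 304) (nat_lit 3972363248) (nat_lit 76) (nat_lit 4585076176) (nat_lit 41) (nat_lit 5) (nat_lit 45) (nat_lit 5) (nat_lit 42) (nat_lit 4) (nat_lit 293) (nat_lit 248) (nat_lit 239))) (XT.nd (nat_lit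 78) (nat_lit 228) (nat_lit 0) (XT.lf (nat_lit 0) (nat_lit 2908065462) (nat_lit 152) (nat_lit 2401137358) (nat_lit 228) (nat_lit 5168606618) (nat_lit 39) (nat_lit 5) (nat_lit 41) (nat_lit 5) (nat_lit 42) (nat_lit 4) (nat_lit 294) (nat_lit 248) (nat_lit 238)) (XT.nd (nat_lit 78) (nat_lit 228) (nat_lit 0) (XT.lf (nat_lit 0) (nat_lit 9117252293) (nat_lit 228) (nat_lit 707273945) (nat_lit 0) (nat_lit 946093153) (nat_lit 39) (nat_lit 5) (nat_lit 42) (nat_lit 4) (nat_lit 39) (nat_lit 4) (nat_lit 295) (nat_lit 248) (nat_lit 237)) (XT.lf (nat_lit 0) (nat_lit 1994656948) (nat_lit 228) (nat_lit 4629882714) (nat_lit 76) (nat_lit 4450945355) (nat_lit 36) (nat_lit 5) (nat_lit 39) (nat_lit 5) (nat_lit 37) (nat_lit 4) (nat_lit 296) (nat_lit 248) (nat_lit 236)))))) (XT.nd (nat_lit 390) (nat_lit 532) (nat_lit 0) (XT.nd (nat_lit 156) (nat_lit 380) (nat_lit 0) (XT.nd (nat_lit 78) (nat_lit 0) (nat_lit 0)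 (XT.lf (nat_lit 0) (nat_lit 2448813626) (nat_lit 152) (nat_lit 3253346910) (nat_lit 228) (nat_lit 5695558258) (nat_lit 34) (nat_lit 5) (nat_lit 36) (nat_lit 5) (nat_lit 37) (nat_lit 4) (nat_lit 297) (nat_lit 248) (nat_lit 235)) (XT.lf (nat_lit 0) (nat_lit 9563070652) (nat_lit 228) (nat_lit 1885399015) (nat_lit 0) (nat_lit 289299889) (nat_lit 34) (nat_lit 5) (nat_lit 37) (nat_lit 4) (nat_lit 34) (nat_lit 4) (nat_lit 298) (nat_lit 248) (nat_lit 234))) (XT.nd (nat_lit 78) (nat_lit 152) (nat_lit 0) (XT.lf (nat_lit 0) (nat_lit 1502015829) (nat_lit 228) (nat_lit 6645290309) (nat_lit 76) (nat_lit 3944998729) (nat_lit 31) (nat_lit 5) (nat_lit 34) (nat_lit 5) (nat_lit 32) (nat_lit 4) (nat_lit 299) (nat_lit 248) (nat_lit 233)) (XT.nd (nat_lit 78) (nat_lit 0) (nat_lit 0) (XT.lf (nat_lit 0) (nat_lit 548450138) (nat_lit 152) (nat_lit 4672069507) (nat_lit 228) (nat_lit 7245805194) (nat_lit 29) (nat_lit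 5) (nat_lit 31) (nat_lit 5) (nat_lit 32) (nat_lit 4) (nat_lit 300) (nat_lit 248) (nat_lit 232)) (XT.lf (nat_lit 0) (nat_lit 8154049318) (nat_lit 152) (nat_lit 975911218) (nat_lit 228) (nat_lit 3728922597) (nat_lit 29) (nat_lit 5) (nat_lit 31) (nat_lit 5) (nat_lit 32) (nat_lit 4) (nat_lit 301) (nat_lit 248) (nat_lit 231))))) (XT.nd (nat_lit 234) (nat_lit 228) (nat_lit 0) (XT.nd (nat_lit 78) (nat_lit 152) (nat_lit 0) (XT.lf (nat_lit 0) (nat_lit 2736917216) (nat_lit 152) (nat_lit 10482578522) (nat_lit 152) (nat_lit 52426217) (nat_lit 27) (nat_lit 4) (nat_lit 29) (nat_lit 5) (nat_lit 29) (nat_lit 4) (nat_lit 302) (nat_lit 248) (nat_lit 230)) (XT.nd (nat_lit 78) (nat_lit 76) (nat_lit 0) (XT.lf (nat_lit 0) (nat_lit 3680052043) (nat_lit 228) (nat_lit 3239143247) (nat_lit 76) (nat_lit 6783819106) (nat_lit 26) (nat_lit 5) (nat_lit 29) (nat_lit 5) (nat_lit 27) (nat_lit 4) (nat_lit 303) (nat_lit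 248) (nat_lit 229)) (XT.lf (nat_lit 0) (nat_lit 4394784027) (nat_lit 76) (nat_lit 3173175690) (nat_lit 152) (nat_lit 6589202728) (nat_lit 25) (nat_lit 5) (nat_lit 26) (nat_lit 5) (nat_lit 27) (nat_lit 4) (nat_lit 304) (nat_lit 248) (nat_lit 228)))) (XT.nd (nat_lit 78) (nat_lit 228) (nat_lit 0) (XT.lf (nat_lit 0) (nat_lit 11620889673) (nat_lit 152) (nat_lit 2288826903) (nat_lit 0) (nat_lit 725838859) (nat_lit 25) (nat_lit 5) (nat_lit 27) (nat_lit 4) (nat_lit 25) (nat_lit 4) (nat_lit 305) (nat_lit 248) (nat_lit 227)) (XT.nd (nat_lit 78) (nat_lit 0) (nat_lit 0) (XT.lf (nat_lit 0) (nat_lit 761525627) (nat_lit 228) (nat_lit 9624417572) (nat_lit 76) (nat_lit 4749082411) (nat_lit 22) (nat_lit 5) (nat_lit 25) (nat_lit 5) (nat_lit 23) (nat_lit 4) (nat_lit 306) (nat_lit 248) (nat_lit 226)) (XT.lf (nat_lit 0) (nat_lit 4572637325) (nat_lit 228) (nat_lit 2088299825) (nat_lit 76) (nat_lit 8998749446)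 (nat_lit 22) (nat_lit 5) (nat_lit 25) (nat_lit 5) (nat_lit 23) (nat_lit 4) (nat_lit 307) (nat_lit 248) (nat_lit 225))))))))
noncomputable def xc72 : XT := (XT.nd (nat_lit 1560) (nat_lit 380) (nat_lit 0) (XT.nd (nat_lit 780) (nat_lit 304) (nat_lit 0) (XT.nd (nat_lit 390) (nat_lit 228) (nat_lit 0) (XT.nd (nat_lit 156) (nat_lit 304) (nat_lit 0) (XT.nd (nat_lit 78) (nat_lit 0) (nat_lit 0) (XT.lf (nat_lit 0) (nat_lit 5859605805) (nat_lit 76) (nat_lit 2718588846) (nat_lit 152) (nat_lit 7632248150) (nat_lit 21) (nat_lit 5) (nat_lit 22) (nat_lit 5) (nat_lit 23) (nat_lit 4) (nat_lit 308) (nat_lit 248) (nat_lit 224)) (XT.lf (nat_lit 0) (nat_lit 12755388279) (nat_lit 152) (nat_lit 2685763570) (nat_lit 0) (nat_lit 1349071017) (nat_lit 21) (nat_lit 5) (nat_lit 23) (nat_lit 4) (nat_lit 21) (nat_lit 4) (nat_lit 309) (nat_lit 248) (nat_lit 223))) (XT.nd (nat_lit 78) (nat_lit 152) (nat_lit 0) (XT.lf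 (nat_lit 0) (nat_lit 5342869103) (nat_lit 152) (nat_lit 11843917074) (nat_lit 152) (nat_lit 209989930) (nat_lit 19) (nat_lit 4) (nat_lit 21) (nat_lit 5) (nat_lit 21) (nat_lit 4) (nat_lit 310) (nat_lit 248) (nat_lit 222)) (XT.nd (nat_lit 78) (nat_lit 76) (nat_lit 0) (XT.lf (nat_lit 0) (nat_lit 3648184899) (nat_lit 228) (nat_lit 4371919413) (nat_lit 76) (nat_lit 10012432789) (nat_lit 18) (nat_lit 5) (nat_lit 21) (nat_lit 5) (nat_lit 19) (nat_lit 4) (nat_lit 311) (nat_lit 248) (nat_lit 221)) (XT.lf (nat_lit 0) (nat_lit 3668576549) (nat_lit 76) (nat_lit 4002508269) (nat_lit 152) (nat_lit 11029929938) (nat_lit 17) (nat_lit 5) (nat_lit 18) (nat_lit 5) (nat_lit 19) (nat_lit 4) (nat_lit 312) (nat_lit 248) (nat_lit 220))))) (XT.nd (nat_lit 156) (nat_lit 152) (nat_lit 0) (XT.nd (nat_lit 78) (nat_lit 76) (nat_lit 0) (XT.lf (nat_lit 0) (nat_lit 11895997603) (nat_lit 152) (nat_lit 7281172655) (nat_lit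 0) (nat_lit 225744932) (nat_lit 17) (nat_lit 5) (nat_lit 19) (nat_lit 4) (nat_lit 17) (nat_lit 4) (nat_lit 313) (nat_lit 248) (nat_lit 219)) (XT.lf (nat_lit 0) (nat_lit 680238665) (nat_lit 76) (nat_lit 15654097118) (nat_lit 76) (nat_lit 3805506150) (nat_lit 16) (nat_lit 4) (nat_lit 17) (nat_lit 5) (nat_lit 17) (nat_lit 4) (nat_lit 314) (nat_lit 248) (nat_lit 218))) (XT.nd (nat_lit 78) (nat_lit 76) (nat_lit 0) (XT.lf (nat_lit 0) (nat_lit 129907862) (nat_lit 152) (nat_lit 11752125848) (nat_lit 76) (nat_lit 9028978433) (nat_lit 15) (nat_lit 5) (nat_lit 17) (nat_lit 5) (nat_lit 16) (nat_lit 4) (nat_lit 315) (nat_lit 248) (nat_lit 217)) (XT.nd (nat_lit 78) (nat_lit 76) (nat_lit 0) (XT.lf (nat_lit 0) (nat_lit 4063909351) (nat_lit 152) (nat_lit 3849180887) (nat_lit 76) (nat_lit 13808080811) (nat_lit 15) (nat_lit 5) (nat_lit 17) (nat_lit 5) (nat_lit 16) (nat_lit 4) (nat_lit 316) (nat_lit 248)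 (nat_lit 216)) (XT.lf (nat_lit 0) (nat_lit 4470548228) (nat_lit 76) (nat_lit 3726914510) (nat_lit 152) (nat_lit 14374265708) (nat_lit 14) (nat_lit 5) (nat_lit 15) (nat_lit 5) (nat_lit 16) (nat_lit 4) (nat_lit 317) (nat_lit 248) (nat_lit 215)))))) (XT.nd (nat_lit 390) (nat_lit 152) (nat_lit 0) (XT.nd (nat_lit 156) (nat_lit 152) (nat_lit 0) (XT.nd (nat_lit 78) (nat_lit 0) (nat_lit 0) (XT.lf (nat_lit 0) (nat_lit 12547923808) (nat_lit 152) (nat_lit 10255124004) (nat_lit 0) (nat_lit 661285955) (nat_lit 14) (nat_lit 5) (nat_lit 16) (nat_lit 4) (nat_lit 14) (nat_lit 4) (nat_lit 318) (nat_lit 248) (nat_lit 214)) (XT.lf (nat_lit 0) (nat_lit 17113705242) (nat_lit 152) (nat_lit 2194015696) (nat_lit 0) (nat_lit 5093988606) (nat_lit 14) (nat_lit 5) (nat_lit 16) (nat_lit 4) (nat_lit 14) (nat_lit 4) (nat_lit 319) (nat_lit 248) (nat_lit 213))) (XT.nd (nat_lit 78) (nat_lit 76) (nat_lit 0) (XT.lf (nat_lit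 0) (nat_lit 6363187128) (nat_lit 76) (nat_lit 15583650424) (nat_lit 76) (nat_lit 3437192090) (nat_lit 13) (nat_lit 4) (nat_lit 14) (nat_lit 5) (nat_lit 14) (nat_lit 4) (nat_lit 320) (nat_lit 248) (nat_lit 212)) (XT.nd (nat_lit 78) (nat_lit 0) (nat_lit 0) (XT.lf (nat_lit 0) (nat_lit 564416261) (nat_lit 152) (nat_lit 11110111378) (nat_lit 76) (nat_lit 14741608050) (nat_lit 12) (nat_lit 5) (nat_lit 14) (nat_lit 5) (nat_lit 13) (nat_lit 4) (nat_lit 321) (nat_lit 248) (nat_lit 211)) (XT.lf (nat_lit 0) (nat_lit 4593345802) (nat_lit 152) (nat_lit 2965764276) (nat_lit 76) (nat_lit 19940806668) (nat_lit 12) (nat_lit 5) (nat_lit 14) (nat_lit 5) (nat_lit 13) (nat_lit 4) (nat_lit 322) (nat_lit 248) (nat_lit 210))))) (XT.nd (nat_lit 156) (nat_lit 76) (nat_lit 0) (XT.nd (nat_lit 78) (nat_lit 0) (nat_lit 0) (XT.lf (nat_lit 0) (nat_lit 5666621572) (nat_lit 76) (nat_lit 3191051104) (nat_lit 152) (nat_lit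 19778540185) (nat_lit 11) (nat_lit 5) (nat_lit 12) (nat_lit 5) (nat_lit 13) (nat_lit 4) (nat_lit 323) (nat_lit 248) (nat_lit 209)) (XT.lf (nat_lit 0) (nat_lit 13353873299) (nat_lit 152) (nat_lit 15116741145) (nat_lit 0) (nat_lit 1357798894) (nat_lit 11) (nat_lit 5) (nat_lit 13) (nat_lit 4) (nat_lit 11) (nat_lit 4) (nat_lit 324) (nat_lit 248) (nat_lit 208))) (XT.nd (nat_lit 78) (nat_lit 76) (nat_lit 0) (XT.lf (nat_lit 0) (nat_lit 18075597302) (nat_lit 152) (nat_lit 7019665938) (nat_lit 0) (nat_lit 5984946290) (nat_lit 11) (nat_lit 5) (nat_lit 13) (nat_lit 4) (nat_lit 11) (nat_lit 4) (nat_lit 325) (nat_lit 248) (nat_lit 207)) (XT.nd (nat_lit 78) (nat_lit 0) (nat_lit 0) (XT.lf (nat_lit 0) (nat_lit 1436718291) (nat_lit 76) (nat_lit 21569978543) (nat_lit 76) (nat_lit 9389254573) (nat_lit 10) (nat_lit 4) (nat_lit 11) (nat_lit 5) (nat_lit 11) (nat_lit 4) (nat_lit 326) (nat_lit 248) (nat_lit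 206)) (XT.lf (nat_lit 0) (nat_lit 10469576255) (nat_lit 76) (nat_lit 17785448776) (nat_lit 76) (nat_lit 5518941035) (nat_lit 10) (nat_lit 4) (nat_lit 11) (nat_lit 5) (nat_lit 11) (nat_lit 4) (nat_lit 327) (nat_lit 248) (nat_lit 205))))))) (XT.nd (nat_lit 780) (nat_lit 152) (nat_lit 0) (XT.nd (nat_lit 390) (nat_lit 76) (nat_lit 0) (XT.nd (nat_lit 156) (nat_lit 76) (nat_lit 0) (XT.nd (nat_lit 78) (nat_lit 76) (nat_lit 0) (XT.lf (nat_lit 0) (nat_lit 19868312902) (nat_lit 76) (nat_lit 13851544592) (nat_lit 76) (nat_lit 1503338022) (nat_lit 10) (nat_lit 4) (nat_lit 11) (nat_lit 5) (nat_lit 11) (nat_lit 4) (nat_lit 328) (nat_lit 248) (nat_lit 204)) (XT.lf (nat_lit 0) (nat_lit 2581751075) (nat_lit 152) (nat_lit 7133425274) (nat_lit 76) (nat_lit 27029831896) (nat_lit 9) (nat_lit 5) (nat_lit 11) (nat_lit 5) (nat_lit 10) (nat_lit 4) (nat_lit 329) (nat_lit 248) (nat_lit 203))) (XT.nd (nat_lit 78)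 (nat_lit 0) (nat_lit 0) (XT.lf (nat_lit 0) (nat_lit 1441386779) (nat_lit 76) (nat_lit 5359347368) (nat_lit 152) (nat_lit 31541953081) (nat_lit 8) (nat_lit 5) (nat_lit 9) (nat_lit 5) (nat_lit 10) (nat_lit 4) (nat_lit 330) (nat_lit 248) (nat_lit 202)) (XT.nd (nat_lit 78) (nat_lit 0) (nat_lit 0) (XT.lf (nat_lit 0) (nat_lit 10614666734) (nat_lit 76) (nat_lit 695264719) (nat_lit 152) (nat_lit 28706370633) (nat_lit 8) (nat_lit 5) (nat_lit 9) (nat_lit 5) (nat_lit 10) (nat_lit 4) (nat_lit 331) (nat_lit 248) (nat_lit 201)) (XT.lf (nat_lit 0) (nat_lit 16070088229) (nat_lit 152) (nat_lit 21668262203) (nat_lit 0) (nat_lit 4033986730) (nat_lit 8) (nat_lit 5) (nat_lit 10) (nat_lit 4) (nat_lit 8) (nat_lit 4) (nat_lit 332) (nat_lit 248) (nat_lit 200))))) (XT.nd (nat_lit 156) (nat_lit 76) (nat_lit 0) (XT.nd (nat_lit 78) (nat_lit 0) (nat_lit 0) (XT.lf (nat_lit 0) (nat_lit 21041454689) (nat_lit 152) (nat_lit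 13631684714) (nat_lit 0) (nat_lit 8944388266) (nat_lit 8) (nat_lit 5) (nat_lit 10) (nat_lit 4) (nat_lit 8) (nat_lit 4) (nat_lit 333) (nat_lit 248) (nat_lit 199)) (XT.lf (nat_lit 0) (nat_lit 26225012388) (nat_lit 152) (nat_lit 5261913146) (nat_lit 0) (nat_lit 14069884133) (nat_lit 8) (nat_lit 5) (nat_lit 10) (nat_lit 4) (nat_lit 8) (nat_lit 4) (nat_lit 334) (nat_lit 248) (nat_lit 198))) (XT.nd (nat_lit 78) (nat_lit 0) (nat_lit 0) (XT.lf (nat_lit 0) (nat_lit 3575416174) (nat_lit 76) (nat_lit 28113509223) (nat_lit 76) (nat_lit 15903083984) (nat_lit 7) (nat_lit 4) (nat_lit 8) (nat_lit 5) (nat_lit 8) (nat_lit 4) (nat_lit 335) (nat_lit 248) (nat_lit 197)) (XT.nd (nat_lit 78) (nat_lit 0) (nat_lit 0) (XT.lf (nat_lit 0) (nat_lit 12972981530) (nat_lit 76) (nat_lit 24508166392) (nat_lit 76) (nat_lit 12245077359) (nat_lit 7) (nat_lit 4) (nat_lit 8) (nat_lit 5) (nat_lit 8) (nat_lit 4) (nat_lit 336)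 (nat_lit 248) (nat_lit 196)) (XT.lf (nat_lit 0) (nat_lit 22779175465) (nat_lit 76) (nat_lit 20751425937) (nat_lit 76) (nat_lit 8438180911) (nat_lit 7) (nat_lit 4) (nat_lit 8) (nat_lit 5) (nat_lit 8) (nat_lit 4) (nat_lit 337) (nat_lit 248) (nat_lit 195)))))) (XT.nd (nat_lit 390) (nat_lit 0) (nat_lit 0) (XT.nd (nat_lit 156) (nat_lit 152) (nat_lit 0) (XT.nd (nat_lit 78) (nat_lit 0) (nat_lit 0) (XT.lf (nat_lit 0) (nat_lit 33017346058) (nat_lit 76) (nat_lit 16834343239) (nat_lit 76) (nat_lit 4473330599) (nat_lit 7) (nat_lit 4) (nat_lit 8) (nat_lit 5) (nat_lit 8) (nat_lit 4) (nat_lit 338) (nat_lit 248) (nat_lit 194)) (XT.lf (nat_lit 0) (nat_lit 43711869907) (nat_lit 76) (nat_lit 12747591909) (nat_lit 76) (nat_lit 341086304) (nat_lit 7) (nat_lit 4) (nat_lit 8) (nat_lit 5) (nat_lit 8) (nat_lit 4) (nat_lit 339) (nat_lit 248) (nat_lit 193))) (XT.nd (nat_lit 78) (nat_lit 76) (nat_lit 0) (XT.lf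 (nat_lit 0) (nat_lit 3841377366) (nat_lit 152) (nat_lit 4575008637) (nat_lit 76) (nat_lit 50981777214) (nat_lit 6) (nat_lit 5) (nat_lit 8) (nat_lit 5) (nat_lit 7) (nat_lit 4) (nat_lit 340) (nat_lit 248) (nat_lit 192)) (XT.nd (nat_lit 78) (nat_lit 0) (nat_lit 0) (XT.lf (nat_lit 0) (nat_lit 4449882160) (nat_lit 76) (nat_lit 3814009478) (nat_lit 152) (nat_lit 53859377219) (nat_lit 5) (nat_lit 5) (nat_lit 6) (nat_lit 5) (nat_lit 7) (nat_lit 4) (nat_lit 341) (nat_lit 248) (nat_lit 191)) (XT.lf (nat_lit 0) (nat_lit 12975227139) (nat_lit 152) (nat_lit 50964507969) (nat_lit 0) (nat_lit 1041518346) (nat_lit 5) (nat_lit 5) (nat_lit 7) (nat_lit 4) (nat_lit 5) (nat_lit 4) (nat_lit 342) (nat_lit 248) (nat_lit 190))))) (XT.nd (nat_lit 234) (nat_lit 0) (nat_lit 0) (XT.nd (nat_lit 78) (nat_lit 0) (nat_lit 0) (XT.lf (nat_lit 0) (nat_lit 17958981729) (nat_lit 152) (nat_lit 44031692978) (nat_lit 0) (nat_lit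 5989628008) (nat_lit 5) (nat_lit 5) (nat_lit 7) (nat_lit 4) (nat_lit 5) (nat_lit 4) (nat_lit 343) (nat_lit 248) (nat_lit 189)) (XT.nd (nat_lit 78) (nat_lit 0) (nat_lit 0) (XT.lf (nat_lit 0) (nat_lit 23167474115) (nat_lit 152) (nat_lit 36798887646) (nat_lit 0) (nat_lit 11164172843) (nat_lit 5) (nat_lit 5) (nat_lit 7) (nat_lit 4) (nat_lit 5) (nat_lit 4) (nat_lit 344) (nat_lit 248) (nat_lit 188)) (XT.lf (nat_lit 0) (nat_lit 28613105469) (nat_lit 152) (nat_lit 29248871006) (nat_lit 0) (nat_lit 16577473196) (nat_lit 5) (nat_lit 5) (nat_lit 7) (nat_lit 4) (nat_lit 5) (nat_lit 4) (nat_lit 345) (nat_lit 248) (nat_lit 187)))) (XT.nd (nat_lit 78) (nat_lit 0) (nat_lit 0) (XT.lf (nat_lit 0) (nat_lit 34308841579) (nat_lit 152) (nat_lit 21363666830) (nat_lit 0) (nat_lit 22242417877) (nat_lit 5) (nat_lit 5) (nat_lit 7) (nat_lit 4) (nat_lit 5) (nat_lit 4) (nat_lit 346) (nat_lit 248) (nat_lit 186)) (XT.nd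 (nat_lit 78) (nat_lit 0) (nat_lit 0) (XT.lf (nat_lit 0) (nat_lit 40268243722) (nat_lit 152) (nat_lit 13124500820) (nat_lit 0) (nat_lit 28172494849) (nat_lit 5) (nat_lit 5) (nat_lit 7) (nat_lit 4) (nat_lit 5) (nat_lit 4) (nat_lit 347) (nat_lit 248) (nat_lit 185)) (XT.lf (nat_lit 0) (nat_lit 46505500951) (nat_lit 152) (nat_lit 4511755917) (nat_lit 0) (nat_lit 34381823344) (nat_lit 5) (nat_lit 5) (nat_lit 7) (nat_lit 4) (nat_lit 5) (nat_lit 4) (nat_lit 348) (nat_lit 248) (nat_lit 184))))))))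
noncomputable def xc73 : XT := (XT.nd (nat_lit 1638) (nat_lit 0) (nat_lit 0) (XT.nd (nat_lit 780) (nat_lit 152) (nat_lit 0) (XT.nd (nat_lit 390) (nat_lit 0) (nat_lit 0) (XT.nd (nat_lit 156) (nat_lit 0) (nat_lit 0) (XT.nd (nat_lit 78) (nat_lit 0) (nat_lit 0) (XT.lf (nat_lit 0) (nat_lit 4643701877) (nat_lit 76) (nat_lit 48464263201) (nat_lit 76) (nat_lit 36313986800) (nat_lit 4) (nat_lit 4) (nat_lit 5) (nat_lit 5) (nat_lit 5) (nat_lit 4) (nat_lit 349) (nat_lit 248) (nat_lit 183)) (XT.lf (nat_lit 0) (nat_lit 14377608269) (nat_lit 76) (nat_lit 45720546524) (nat_lit 76) (nat_lit 33544937937) (nat_lit 4) (nat_lit 4) (nat_lit 5) (nat_lit 5) (nat_lit 5) (nat_lit 4) (nat_lit 350) (nat_lit 248) (nat_lit 182))) (XT.nd (nat_lit 78) (nat_lit 0) (nat_lit 0) (XT.lf (nat_lit 0) (nat_lit 24563960200) (nat_lit 76) (nat_lit 42855982946) (nat_lit 76) (nat_lit 30656248468) (nat_lit 4) (nat_lit 4) (nat_lit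 5) (nat_lit 5) (nat_lit 5) (nat_lit 4) (nat_lit 351) (nat_lit 248) (nat_lit 181)) (XT.nd (nat_lit 78) (nat_lit 0) (nat_lit 0) (XT.lf (nat_lit 0) (nat_lit 35227010889) (nat_lit 76) (nat_lit 39863752079) (nat_lit 76) (nat_lit 27641040562) (nat_lit 4) (nat_lit 4) (nat_lit 5) (nat_lit 5) (nat_lit 5) (nat_lit 4) (nat_lit 352) (nat_lit 248) (nat_lit 180)) (XT.lf (nat_lit 0) (nat_lit 46392148551) (nat_lit 76) (nat_lit 36736729563) (nat_lit 76) (nat_lit 24492135152) (nat_lit 4) (nat_lit 4) (nat_lit 5) (nat_lit 5) (nat_lit 5) (nat_lit 4) (nat_lit 353) (nat_lit 248) (nat_lit 179))))) (XT.nd (nat_lit 156) (nat_lit 0) (nat_lit 0) (XT.nd (nat_lit 78) (nat_lit 0) (nat_lit 0) (XT.lf (nat_lit 0) (nat_lit 58085956849) (nat_lit 76) (nat_lit 33467470106) (nat_lit 76) (nat_lit 21202034845) (nat_lit 4) (nat_lit 4) (nat_lit 5) (nat_lit 5) (nat_lit 5) (nat_lit 4) (nat_lit 354) (nat_lit 248) (nat_lit 178))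 (XT.lf (nat_lit 0) (nat_lit 70336278182) (nat_lit 76) (nat_lit 30048189758) (nat_lit 76) (nat_lit 17762906067) (nat_lit 4) (nat_lit 4) (nat_lit 5) (nat_lit 5) (nat_lit 5) (nat_lit 4) (nat_lit 355) (nat_lit 248) (nat_lit 177))) (XT.nd (nat_lit 78) (nat_lit 0) (nat_lit 0) (XT.lf (nat_lit 0) (nat_lit 83172279982) (nat_lit 76) (nat_lit 26470747375) (nat_lit 76) (nat_lit 14166560417) (nat_lit 4) (nat_lit 4) (nat_lit 5) (nat_lit 5) (nat_lit 5) (nat_lit 4) (nat_lit 356) (nat_lit 248) (nat_lit 176)) (XT.nd (nat_lit 78) (nat_lit 0) (nat_lit 0) (XT.lf (nat_lit 0) (nat_lit 96624524158) (nat_lit 76) (nat_lit 22726625237) (nat_lit 76) (nat_lit 10404435168) (nat_lit 4) (nat_lit 4) (nat_lit 5) (nat_lit 5) (nat_lit 5) (nat_lit 4) (nat_lit 357) (nat_lit 248) (nat_lit 175)) (XT.lf (nat_lit 0) (nat_lit 110725039864) (nat_lit 76) (nat_lit 18806908767) (nat_lit 76) (nat_lit 6467572877) (nat_lit 4) (nat_lit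 4) (nat_lit 5) (nat_lit 5) (nat_lit 5) (nat_lit 4) (nat_lit 358) (nat_lit 248) (nat_lit 174)))))) (XT.nd (nat_lit 390) (nat_lit 0) (nat_lit 0) (XT.nd (nat_lit 156) (nat_lit 76) (nat_lit 0) (XT.nd (nat_lit 78) (nat_lit 76) (nat_lit 0) (XT.lf (nat_lit 0) (nat_lit 125507399755) (nat_lit 76) (nat_lit 14702265307) (nat_lit 76) (nat_lit 2346600065) (nat_lit 4) (nat_lit 4) (nat_lit 5) (nat_lit 5) (nat_lit 5) (nat_lit 4) (nat_lit 359) (nat_lit 248) (nat_lit 173)) (XT.lf (nat_lit 0) (nat_lit 1905297373) (nat_lit 152) (nat_lit 8465357390) (nat_lit 76) (nat_lit 139069235421) (nat_lit 3) (nat_lit 5) (nat_lit 5) (nat_lit 5) (nat_lit 4) (nat_lit 4) (nat_lit 360) (nat_lit 248) (nat_lit 172))) (XT.nd (nat_lit 78) (nat_lit 0) (nat_lit 0) (XT.lf (nat_lit 0) (nat_lit 503575483) (nat_lit 76) (nat_lit 5784036074) (nat_lit 152) (nat_lit 150378330529) (nat_lit 2) (nat_lit 5) (nat_lit 3) (nat_lit 5) (nat_lit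 4) (nat_lit 4) (nat_lit 361) (nat_lit 248) (nat_lit 171)) (XT.nd (nat_lit 78) (nat_lit 0) (nat_lit 0) (XT.lf (nat_lit 0) (nat_lit 10193799027) (nat_lit 76) (nat_lit 827631775) (nat_lit 152) (nat_lit 153225249346) (nat_lit 2) (nat_lit 5) (nat_lit 3) (nat_lit 5) (nat_lit 4) (nat_lit 4) (nat_lit 362) (nat_lit 248) (nat_lit 170)) (XT.lf (nat_lit 0) (nat_lit 16049669102) (nat_lit 152) (nat_lit 151926679410) (nat_lit 0) (nat_lit 4227223086) (nat_lit 2) (nat_lit 5) (nat_lit 4) (nat_lit 4) (nat_lit 2) (nat_lit 4) (nat_lit 363) (nat_lit 248) (nat_lit 169))))) (XT.nd (nat_lit 234) (nat_lit 0) (nat_lit 0) (XT.nd (nat_lit 78) (nat_lit 0) (nat_lit 0) (XT.lf (nat_lit 0) (nat_lit 21332789160) (nat_lit 152) (nat_lit 149727189792) (nat_lit 0) (nat_lit 9498157929) (nat_lit 2) (nat_lit 5) (nat_lit 4) (nat_lit 4) (nat_lit 2) (nat_lit 4) (nat_lit 364) (nat_lit 248) (nat_lit 168)) (XT.nd (nat_lit 78) (nat_lit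 0) (nat_lit 0) (XT.lf (nat_lit 0) (nat_lit 26870448181) (nat_lit 152) (nat_lit 147436253736) (nat_lit 0) (nat_lit 15024211984) (nat_lit 2) (nat_lit 5) (nat_lit 4) (nat_lit 4) (nat_lit 2) (nat_lit 4) (nat_lit 365) (nat_lit 248) (nat_lit 167)) (XT.lf (nat_lit 0) (nat_lit 32675831068) (nat_lit 152) (nat_lit 145048416631) (nat_lit 0) (nat_lit 20818542523) (nat_lit 2) (nat_lit 5) (nat_lit 4) (nat_lit 4) (nat_lit 2) (nat_lit 4) (nat_lit 366) (nat_lit 248) (nat_lit 166)))) (XT.nd (nat_lit 78) (nat_lit 0) (nat_lit 0) (XT.lf (nat_lit 0) (nat_lit 38762760161) (nat_lit 152) (nat_lit 142557993152) (nat_lit 0) (nat_lit 26894945570) (nat_lit 2) (nat_lit 5) (nat_lit 4) (nat_lit 4) (nat_lit 2) (nat_lit 4) (nat_lit 367) (nat_lit 248) (nat_lit 165)) (XT.nd (nat_lit 78) (nat_lit 0) (nat_lit 0) (XT.lf (nat_lit 0) (nat_lit 45145728149) (nat_lit 152) (nat_lit 139959053718) (nat_lit 0) (nat_lit 33267888752)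 (nat_lit 2) (nat_lit 5) (nat_lit 4) (nat_lit 4) (nat_lit 2) (nat_lit 4) (nat_lit 368) (nat_lit 248) (nat_lit 164)) (XT.lf (nat_lit 0) (nat_lit 51839932574) (nat_lit 152) (nat_lit 137245410379) (nat_lit 0) (nat_lit 39952545743) (nat_lit 2) (nat_lit 5) (nat_lit 4) (nat_lit 4) (nat_lit 2) (nat_lit 4) (nat_lit 369) (nat_lit 248) (nat_lit 163))))))) (XT.nd (nat_lit 780) (nat_lit 0) (nat_lit 0) (XT.nd (nat_lit 390) (nat_lit 0) (nat_lit 0) (XT.nd (nat_lit 156) (nat_lit 0) (nat_lit 0) (XT.nd (nat_lit 78) (nat_lit 0) (nat_lit 0) (XT.lf (nat_lit 0) (nat_lit 58861312018) (nat_lit 152) (nat_lit 134410602080) (nat_lit 0) (nat_lit 46964832393) (nat_lit 2) (nat_lit 5) (nat_lit 4) (nat_lit 4) (nat_lit 2) (nat_lit 4) (nat_lit 370) (nat_lit 248) (nat_lit 162)) (XT.lf (nat_lit 0) (nat_lit 66226584052) (nat_lit 152) (nat_lit 131447879275) (nat_lit 0) (nat_lit 54321444622) (nat_lit 2) (nat_lit 5) (nat_lit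 4) (nat_lit 4) (nat_lit 2) (nat_lit 4) (nat_lit 371) (nat_lit 248) (nat_lit 161))) (XT.nd (nat_lit 78) (nat_lit 0) (nat_lit 0) (XT.lf (nat_lit 0) (nat_lit 73953285037) (nat_lit 152) (nat_lit 128350187865) (nat_lit 0) (nat_lit 62039898175) (nat_lit 2) (nat_lit 5) (nat_lit 4) (nat_lit 4) (nat_lit 2) (nat_lit 4) (nat_lit 372) (nat_lit 248) (nat_lit 160)) (XT.nd (nat_lit 78) (nat_lit 0) (nat_lit 0) (XT.lf (nat_lit 0) (nat_lit 82059811881) (nat_lit 152) (nat_lit 125110152392) (nat_lit 0) (nat_lit 70138570321) (nat_lit 2) (nat_lit 5) (nat_lit 4) (nat_lit 4) (nat_lit 2) (nat_lit 4) (nat_lit 373) (nat_lit 248) (nat_lit 159)) (XT.lf (nat_lit 0) (nat_lit 90565465837) (nat_lit 152) (nat_lit 121720058487) (nat_lit 0) (nat_lit 78636743613) (nat_lit 2) (nat_lit 5) (nat_lit 4) (nat_lit 4) (nat_lit 2) (nat_lit 4) (nat_lit 374) (nat_lit 248) (nat_lit 158))))) (XT.nd (nat_lit 156) (nat_lit 0) (nat_lit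 0) (XT.nd (nat_lit 78) (nat_lit 0) (nat_lit 0) (XT.lf (nat_lit 0) (nat_lit 99490498464) (nat_lit 152) (nat_lit 118171834497) (nat_lit 0) (nat_lit 87554651797) (nat_lit 2) (nat_lit 5) (nat_lit 4) (nat_lit 4) (nat_lit 2) (nat_lit 4) (nat_lit 375) (nat_lit 248) (nat_lit 157)) (XT.lf (nat_lit 0) (nat_lit 108856159838) (nat_lit 152) (nat_lit 114457032271) (nat_lit 0) (nat_lit 96913527988) (nat_lit 2) (nat_lit 5) (nat_lit 4) (nat_lit 4) (nat_lit 2) (nat_lit 4) (nat_lit 376) (nat_lit 248) (nat_lit 156))) (XT.nd (nat_lit 78) (nat_lit 0) (nat_lit 0) (XT.lf (nat_lit 0) (nat_lit 118684749153) (nat_lit 152) (nat_lit 110566807041) (nat_lit 0) (nat_lit 106735655224) (nat_lit 2) (nat_lit 5) (nat_lit 4) (nat_lit 4) (nat_lit 2) (nat_lit 4) (nat_lit 377) (nat_lit 248) (nat_lit 155)) (XT.nd (nat_lit 78) (nat_lit 0) (nat_lit 0) (XT.lf (nat_lit 0) (nat_lit 128999667813) (nat_lit 152) (nat_lit 106491896365)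 (nat_lit 0) (nat_lit 117044419523) (nat_lit 2) (nat_lit 5) (nat_lit 4) (nat_lit 4) (nat_lit 2) (nat_lit 4) (nat_lit 378) (nat_lit 248) (nat_lit 154)) (XT.lf (nat_lit 0) (nat_lit 139825475148) (nat_lit 152) (nat_lit 102222598077) (nat_lit 0) (nat_lit 127864365561) (nat_lit 2) (nat_lit 5) (nat_lit 4) (nat_lit 4) (nat_lit 2) (nat_lit 4) (nat_lit 379) (nat_lit 248) (nat_lit 153)))))) (XT.nd (nat_lit 390) (nat_lit 0) (nat_lit 0) (XT.nd (nat_lit 156) (nat_lit 0) (nat_lit 0) (XT.nd (nat_lit 78) (nat_lit 0) (nat_lit 0) (XT.lf (nat_lit 0) (nat_lit 151187946889) (nat_lit 152) (nat_lit 97748747179) (nat_lit 0) (nat_lit 139221255115) (nat_lit 2) (nat_lit 5) (nat_lit 4) (nat_lit 4) (nat_lit 2) (nat_lit 4) (nat_lit 380) (nat_lit 248) (nat_lit 152)) (XT.lf (nat_lit 0) (nat_lit 163114136540) (nat_lit 152) (nat_lit 93059691646) (nat_lit 0) (nat_lit 151142128398) (nat_lit 2) (nat_lit 5) (nat_lit 4) (nat_lit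 4) (nat_lit 2) (nat_lit 4) (nat_lit 381) (nat_lit 248) (nat_lit 151))) (XT.nd (nat_lit 78) (nat_lit 0) (nat_lit 0) (XT.lf (nat_lit 0) (nat_lit 175632439792) (nat_lit 152) (nat_lit 88144267060) (nat_lit 0) (nat_lit 163655368441) (nat_lit 2) (nat_lit 5) (nat_lit 4) (nat_lit 4) (nat_lit 2) (nat_lit 4) (nat_lit 382) (nat_lit 248) (nat_lit 150)) (XT.nd (nat_lit 78) (nat_lit 0) (nat_lit 0) (XT.lf (nat_lit 0) (nat_lit 188772662128) (nat_lit 152) (nat_lit 82990770028) (nat_lit 0) (nat_lit 176790768674) (nat_lit 2) (nat_lit 5) (nat_lit 4) (nat_lit 4) (nat_lit 2) (nat_lit 4) (nat_lit 383) (nat_lit 248) (nat_lit 149)) (XT.lf (nat_lit 0) (nat_lit 202566089791) (nat_lit 152) (nat_lit 77586930321) (nat_lit 0) (nat_lit 190579603858) (nat_lit 2) (nat_lit 5) (nat_lit 4) (nat_lit 4) (nat_lit 2) (nat_lit 4) (nat_lit 384) (nat_lit 248) (nat_lit 148))))) (XT.nd (nat_lit 234) (nat_lit 0) (nat_lit 0) (XT.nd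 (nat_lit 78) (nat_lit 0) (nat_lit 0) (XT.lf (nat_lit 0) (nat_lit 217045564277) (nat_lit 152) (nat_lit 71919881653) (nat_lit 0) (nat_lit 205054704554) (nat_lit 2) (nat_lit 5) (nat_lit 4) (nat_lit 4) (nat_lit 2) (nat_lit 4) (nat_lit 385) (nat_lit 248) (nat_lit 147)) (XT.nd (nat_lit 78) (nat_lit 0) (nat_lit 0) (XT.lf (nat_lit 0) (nat_lit 232245560524) (nat_lit 152) (nat_lit 65976131051) (nat_lit 0) (nat_lit 220250535288) (nat_lit 2) (nat_lit 5) (nat_lit 4) (nat_lit 4) (nat_lit 2) (nat_lit 4) (nat_lit 386) (nat_lit 248) (nat_lit 146)) (XT.lf (nat_lit 0) (nat_lit 248202269000) (nat_lit 152) (nat_lit 59741526727) (nat_lit 0) (nat_lit 236203276607) (nat_lit 2) (nat_lit 5) (nat_lit 4) (nat_lit 4) (nat_lit 2) (nat_lit 4) (nat_lit 387) (nat_lit 248) (nat_lit 145)))) (XT.nd (nat_lit 78) (nat_lit 0) (nat_lit 0) (XT.lf (nat_lit 0) (nat_lit 264953681868) (nat_lit 152) (nat_lit 53201224386) (nat_lit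 0) (nat_lit 252950911231) (nat_lit 2) (nat_lit 5) (nat_lit 4) (nat_lit 4) (nat_lit 2) (nat_lit 4) (nat_lit 388) (nat_lit 248) (nat_lit 144)) (XT.nd (nat_lit 78) (nat_lit 0) (nat_lit 0) (XT.lf (nat_lit 0) (nat_lit 282539683443) (nat_lit 152) (nat_lit 46339651880) (nat_lit 0) (nat_lit 270533314479) (nat_lit 2) (nat_lit 5) (nat_lit 4) (nat_lit 4) (nat_lit 2) (nat_lit 4) (nat_lit 389) (nat_lit 248) (nat_lit 143)) (XT.lf (nat_lit 0) (nat_lit 301002145159) (nat_lit 152) (nat_lit 39140472131) (nat_lit 0) (nat_lit 288992349217) (nat_lit 2) (nat_lit 5) (nat_lit 4) (nat_lit 4) (nat_lit 2) (nat_lit 4) (nat_lit 390) (nat_lit 248) (nat_lit 142))))))))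
noncomputable def xc74 : XT := (XT.nd (nat_lit 33618) (nat_lit 0) (nat_lit 836) (XT.nd (nat_lit 32838) (nat_lit 0) (nat_lit 2204) (XT.nd (nat_lit 32448) (nat_lit 0) (nat_lit 3420) (XT.nd (nat_lit 32214) (nat_lit 0) (nat_lit 4484) (XT.nd (nat_lit 32136) (nat_lit 0) (nat_lit 5244) (XT.lf (nat_lit 0) (nat_lit 320385025258) (nat_lit 152) (nat_lit 31586544234) (nat_lit 0) (nat_lit 308371965526) (nat_lit 2) (nat_lit 5) (nat_lit 4) (nat_lit 4) (nat_lit 2) (nat_lit 4) (nat_lit 391) (nat_lit 248) (nat_lit 141)) (XT.lf (nat_lit 0) (nat_lit 2966906982) (nat_lit 304) (nat_lit 509795949) (nat_lit 304) (nat_lit 509795949) (nat_lit 71) (nat_lit 4) (nat_lit 75) (nat_lit 5) (nat_lit 75) (nat_lit 4) (nat_lit 282) (nat_lit 249) (nat_lit 249))) (XT.nd (nat_lit 78) (nat_lit 380) (nat_lit 0) (XT.lf (nat_lit 0) (nat_lit 2527236336) (nat_lit 380) (nat_lit 4264605607) (nat_lit 0) (nat_lit 1331522429) (nat_lit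 66) (nat_lit 5) (nat_lit 71) (nat_lit 4) (nat_lit 66) (nat_lit 4) (nat_lit 283) (nat_lit 249) (nat_lit 248)) (XT.nd (nat_lit 78) (nat_lit 76) (nat_lit 0) (XT.lf (nat_lit 0) (nat_lit 1664171567) (nat_lit 304) (nat_lit 4477383765) (nat_lit 304) (nat_lit 2142894707) (nat_lit 62) (nat_lit 4) (nat_lit 66) (nat_lit 5) (nat_lit 66) (nat_lit 4) (nat_lit 284) (nat_lit 249) (nat_lit 247)) (XT.lf (nat_lit 0) (nat_lit 1357140067) (nat_lit 380) (nat_lit 636899682) (nat_lit 76) (nat_lit 6462545565) (nat_lit 61) (nat_lit 5) (nat_lit 66) (nat_lit 5) (nat_lit 62) (nat_lit 4) (nat_lit 285) (nat_lit 249) (nat_lit 246))))) (XT.nd (nat_lit 156) (nat_lit 608) (nat_lit 0) (XT.nd (nat_lit 78) (nat_lit 228) (nat_lit 0) (XT.lf (nat_lit 0) (nat_lit 4913877369) (nat_lit 304) (nat_lit 3050294830) (nat_lit 0) (nat_lit 673935035) (nat_lit 58) (nat_lit 5) (nat_lit 62) (nat_lit 4) (nat_lit 58) (nat_lit 4) (nat_lit 286)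 (nat_lit 249) (nat_lit 245)) (XT.lf (nat_lit 0) (nat_lit 3193097123) (nat_lit 228) (nat_lit 5407513607) (nat_lit 228) (nat_lit 230698139) (nat_lit 55) (nat_lit 4) (nat_lit 58) (nat_lit 5) (nat_lit 58) (nat_lit 4) (nat_lit 287) (nat_lit 249) (nat_lit 244))) (XT.nd (nat_lit 78) (nat_lit 304) (nat_lit 0) (XT.lf (nat_lit 0) (nat_lit 591758136) (nat_lit 228) (nat_lit 2657429050) (nat_lit 304) (nat_lit 5786406909) (nat_lit 51) (nat_lit 5) (nat_lit 54) (nat_lit 5) (nat_lit 55) (nat_lit 4) (nat_lit 288) (nat_lit 249) (nat_lit 243)) (XT.nd (nat_lit 78) (nat_lit 304) (nat_lit 0) (XT.lf (nat_lit 0) (nat_lit 6858700955) (nat_lit 304) (nat_lit 2123894222) (nat_lit 0) (nat_lit 269322721) (nat_lit 51) (nat_lit 5) (nat_lit 55) (nat_lit 4) (nat_lit 51) (nat_lit 4) (nat_lit 289) (nat_lit 249) (nat_lit 242)) (XT.lf (nat_lit 0) (nat_lit 1113595647) (nat_lit 304) (nat_lit 5077275003) (nat_lit 76) (nat_lit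 3288370023) (nat_lit 47) (nat_lit 5) (nat_lit 51) (nat_lit 5) (nat_lit 48) (nat_lit 4) (nat_lit 290) (nat_lit 249) (nat_lit 241)))))) (XT.nd (nat_lit 390) (nat_lit 608) (nat_lit 0) (XT.nd (nat_lit 156) (nat_lit 456) (nat_lit 0) (XT.nd (nat_lit 78) (nat_lit 0) (nat_lit 0) (XT.lf (nat_lit 0) (nat_lit 1427032275) (nat_lit 152) (nat_lit 3217476491) (nat_lit 228) (nat_lit 5075157667) (nat_lit 45) (nat_lit 5) (nat_lit 47) (nat_lit 5) (nat_lit 48) (nat_lit 4) (nat_lit 291) (nat_lit 249) (nat_lit 240)) (XT.lf (nat_lit 0) (nat_lit 8245356532) (nat_lit 152) (nat_lit 66192924) (nat_lit 228) (nat_lit 1662735295) (nat_lit 45) (nat_lit 5) (nat_lit 47) (nat_lit 5) (nat_lit 48) (nat_lit 4) (nat_lit 292) (nat_lit 249) (nat_lit 239))) (XT.nd (nat_lit 78) (nat_lit 152) (nat_lit 0) (XT.lf (nat_lit 0) (nat_lit 1867678954) (nat_lit 304) (nat_lit 5179961093) (nat_lit 76) (nat_lit 3192189621) (nat_lit 41) (nat_lit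 5) (nat_lit 45) (nat_lit 5) (nat_lit 42) (nat_lit 4) (nat_lit 293) (nat_lit 249) (nat_lit 238)) (XT.nd (nat_lit 78) (nat_lit 0) (nat_lit 0) (XT.lf (nat_lit 0) (nat_lit 1567339418) (nat_lit 152) (nat_lit 3886299189) (nat_lit 228) (nat_lit 5067035046) (nat_lit 39) (nat_lit 5) (nat_lit 41) (nat_lit 5) (nat_lit 42) (nat_lit 4) (nat_lit 294) (nat_lit 249) (nat_lit 237)) (XT.lf (nat_lit 0) (nat_lit 8649880460) (nat_lit 152) (nat_lit 539221501) (nat_lit 228) (nat_lit 1628071293) (nat_lit 39) (nat_lit 5) (nat_lit 41) (nat_lit 5) (nat_lit 42) (nat_lit 4) (nat_lit 295) (nat_lit 249) (nat_lit 236))))) (XT.nd (nat_lit 156) (nat_lit 228) (nat_lit 0) (XT.nd (nat_lit 78) (nat_lit 152) (nat_lit 0) (XT.lf (nat_lit 0) (nat_lit 1929343335) (nat_lit 228) (nat_lit 6269178427) (nat_lit 76) (nat_lit 2928042094) (nat_lit 36) (nat_lit 5) (nat_lit 39) (nat_lit 5) (nat_lit 37) (nat_lit 4) (nat_lit 296) (nat_lit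 249) (nat_lit 235)) (XT.lf (nat_lit 0) (nat_lit 665113499) (nat_lit 152) (nat_lit 4889174106) (nat_lit 228) (nat_lit 5898690124) (nat_lit 34) (nat_lit 5) (nat_lit 36) (nat_lit 5) (nat_lit 37) (nat_lit 4) (nat_lit 297) (nat_lit 249) (nat_lit 234))) (XT.nd (nat_lit 78) (nat_lit 228) (nat_lit 0) (XT.lf (nat_lit 0) (nat_lit 7987663282) (nat_lit 152) (nat_lit 1369421581) (nat_lit 228) (nat_lit 2438898915) (nat_lit 34) (nat_lit 5) (nat_lit 36) (nat_lit 5) (nat_lit 37) (nat_lit 4) (nat_lit 298) (nat_lit 249) (nat_lit 233)) (XT.nd (nat_lit 78) (nat_lit 0) (nat_lit 0) (XT.lf (nat_lit 0) (nat_lit 1139719792) (nat_lit 228) (nat_lit 8754062696) (nat_lit 76) (nat_lit 2262315479) (nat_lit 31) (nat_lit 5) (nat_lit 34) (nat_lit 5) (nat_lit 32) (nat_lit 4) (nat_lit 299) (nat_lit 249) (nat_lit 232)) (XT.lf (nat_lit 0) (nat_lit 4798567180) (nat_lit 228) (nat_lit 1662180196) (nat_lit 76) (nat_lit 6072396272)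 (nat_lit 31) (nat_lit 5) (nat_lit 34) (nat_lit 5) (nat_lit 32) (nat_lit 4) (nat_lit 300) (nat_lit 249) (nat_lit 231))))))) (XT.nd (nat_lit 780) (nat_lit 456) (nat_lit 0) (XT.nd (nat_lit 390) (nat_lit 456) (nat_lit 0) (XT.nd (nat_lit 156) (nat_lit 152) (nat_lit 0) (XT.nd (nat_lit 78) (nat_lit 152) (nat_lit 0) (XT.lf (nat_lit 0) (nat_lit 5805515425) (nat_lit 152) (nat_lit 2825727735) (nat_lit 228) (nat_lit 4298337870) (nat_lit 29) (nat_lit 5) (nat_lit 31) (nat_lit 5) (nat_lit 32) (nat_lit 4) (nat_lit 301) (nat_lit 249) (nat_lit 230)) (XT.lf (nat_lit 0) (nat_lit 183932952) (nat_lit 152) (nat_lit 12420038114) (nat_lit 152) (nat_lit 744528050) (nat_lit 27) (nat_lit 4) (nat_lit 29) (nat_lit 5) (nat_lit 29) (nat_lit 4) (nat_lit 302) (nat_lit 249) (nat_lit 229))) (XT.nd (nat_lit 78) (nat_lit 76) (nat_lit 0) (XT.lf (nat_lit 0) (nat_lit 2962273728) (nat_lit 228) (nat_lit 5939132379) (nat_lit 76)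 (nat_lit 4881152417) (nat_lit 26) (nat_lit 5) (nat_lit 29) (nat_lit 5) (nat_lit 27) (nat_lit 4) (nat_lit 303) (nat_lit 249) (nat_lit 228)) (XT.nd (nat_lit 78) (nat_lit 0) (nat_lit 0) (XT.lf (nat_lit 0) (nat_lit 1525597920) (nat_lit 76) (nat_lit 5234236910) (nat_lit 152) (nat_lit 7481422674) (nat_lit 25) (nat_lit 5) (nat_lit 26) (nat_lit 5) (nat_lit 27) (nat_lit 4) (nat_lit 304) (nat_lit 249) (nat_lit 227)) (XT.lf (nat_lit 0) (nat_lit 9413717580) (nat_lit 76) (nat_lit 1342770259) (nat_lit 152) (nat_lit 3966008504) (nat_lit 25) (nat_lit 5) (nat_lit 26) (nat_lit 5) (nat_lit 27) (nat_lit 4) (nat_lit 305) (nat_lit 249) (nat_lit 226))))) (XT.nd (nat_lit 156) (nat_lit 228) (nat_lit 0) (XT.nd (nat_lit 78) (nat_lit 76) (nat_lit 0) (XT.lf (nat_lit 0) (nat_lit 2348728305) (nat_lit 152) (nat_lit 12595766562) (nat_lit 152) (nat_lit 283788669) (nat_lit 23) (nat_lit 4) (nat_lit 25) (nat_lit 5) (nat_lit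 25) (nat_lit 4) (nat_lit 306) (nat_lit 249) (nat_lit 225)) (XT.lf (nat_lit 0) (nat_lit 3493676854) (nat_lit 228) (nat_lit 5413427228) (nat_lit 76) (nat_lit 6848226080) (nat_lit 22) (nat_lit 5) (nat_lit 25) (nat_lit 5) (nat_lit 23) (nat_lit 4) (nat_lit 307) (nat_lit 249) (nat_lit 224))) (XT.nd (nat_lit 78) (nat_lit 152) (nat_lit 0) (XT.lf (nat_lit 0) (nat_lit 2351314524) (nat_lit 76) (nat_lit 5052450938) (nat_lit 152) (nat_lit 8907120669) (nat_lit 21) (nat_lit 5) (nat_lit 22) (nat_lit 5) (nat_lit 23) (nat_lit 4) (nat_lit 308) (nat_lit 249) (nat_lit 223)) (XT.nd (nat_lit 78) (nat_lit 152) (nat_lit 0) (XT.lf (nat_lit 0) (nat_lit 10549281711) (nat_lit 76) (nat_lit 970072806) (nat_lit 152) (nat_lit 5374416983) (nat_lit 21) (nat_lit 5) (nat_lit 22) (nat_lit 5) (nat_lit 23) (nat_lit 4) (nat_lit 309) (nat_lit 249) (nat_lit 222)) (XT.lf (nat_lit 0) (nat_lit 1508680772) (nat_lit 152) (nat_lit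 14328671282) (nat_lit 152) (nat_lit 1668666585) (nat_lit 19) (nat_lit 4) (nat_lit 21) (nat_lit 5) (nat_lit 21) (nat_lit 4) (nat_lit 310) (nat_lit 249) (nat_lit 221)))))) (XT.nd (nat_lit 390) (nat_lit 228) (nat_lit 0) (XT.nd (nat_lit 156) (nat_lit 152) (nat_lit 0) (XT.nd (nat_lit 78) (nat_lit 0) (nat_lit 0) (XT.lf (nat_lit 0) (nat_lit 2197949458) (nat_lit 228) (nat_lit 8360657178) (nat_lit 76) (nat_lit 7586245637) (nat_lit 18) (nat_lit 5) (nat_lit 21) (nat_lit 5) (nat_lit 19) (nat_lit 4) (nat_lit 311) (nat_lit 249) (nat_lit 220)) (XT.lf (nat_lit 0) (nat_lit 6127148285) (nat_lit 228) (nat_lit 502417556) (nat_lit 76) (nat_lit 12188469770) (nat_lit 18) (nat_lit 5) (nat_lit 21) (nat_lit 5) (nat_lit 19) (nat_lit 4) (nat_lit 312) (nat_lit 249) (nat_lit 219))) (XT.nd (nat_lit 78) (nat_lit 76) (nat_lit 0) (XT.lf (nat_lit 0) (nat_lit 7874166143) (nat_lit 76) (nat_lit 2430464538) (nat_lit 152)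 (nat_lit 9217696529) (nat_lit 17) (nat_lit 5) (nat_lit 18) (nat_lit 5) (nat_lit 19) (nat_lit 4) (nat_lit 313) (nat_lit 249) (nat_lit 218)) (XT.nd (nat_lit 78) (nat_lit 76) (nat_lit 0) (XT.lf (nat_lit 0) (nat_lit 14659997624) (nat_lit 152) (nat_lit 3732630789) (nat_lit 0) (nat_lit 1870792812) (nat_lit 17) (nat_lit 5) (nat_lit 19) (nat_lit 4) (nat_lit 17) (nat_lit 4) (nat_lit 314) (nat_lit 249) (nat_lit 217)) (XT.lf (nat_lit 0) (nat_lit 4563744637) (nat_lit 76) (nat_lit 14713314221) (nat_lit 76) (nat_lit 1762351316) (nat_lit 16) (nat_lit 4) (nat_lit 17) (nat_lit 5) (nat_lit 17) (nat_lit 4) (nat_lit 315) (nat_lit 249) (nat_lit 216))))) (XT.nd (nat_lit 234) (nat_lit 76) (nat_lit 0) (XT.nd (nat_lit 78) (nat_lit 76) (nat_lit 0) (XT.lf (nat_lit 0) (nat_lit 2195399853) (nat_lit 152) (nat_lit 8604448531) (nat_lit 76) (nat_lit 11052745451) (nat_lit 15) (nat_lit 5) (nat_lit 17) (nat_lit 5) (nat_lit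 16) (nat_lit 4) (nat_lit 316) (nat_lit 249) (nat_lit 215)) (XT.nd (nat_lit 78) (nat_lit 76) (nat_lit 0) (XT.lf (nat_lit 0) (nat_lit 6228053961) (nat_lit 152) (nat_lit 484226970) (nat_lit 76) (nat_lit 15995930658) (nat_lit 15) (nat_lit 5) (nat_lit 17) (nat_lit 5) (nat_lit 16) (nat_lit 4) (nat_lit 317) (nat_lit 249) (nat_lit 214)) (XT.lf (nat_lit 0) (nat_lit 8194110972) (nat_lit 76) (nat_lit 2335440874) (nat_lit 152) (nat_lit 13073727884) (nat_lit 14) (nat_lit 5) (nat_lit 15) (nat_lit 5) (nat_lit 16) (nat_lit 4) (nat_lit 318) (nat_lit 249) (nat_lit 213)))) (XT.nd (nat_lit 78) (nat_lit 76) (nat_lit 0) (XT.lf (nat_lit 0) (nat_lit 15029463002) (nat_lit 152) (nat_lit 7365559929) (nat_lit 0) (nat_lit 2148940052) (nat_lit 14) (nat_lit 5) (nat_lit 16) (nat_lit 4) (nat_lit 14) (nat_lit 4) (nat_lit 319) (nat_lit 249) (nat_lit 212)) (XT.nd (nat_lit 78) (nat_lit 0) (nat_lit 0) (XT.lf (nat_lit 0)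 (nat_lit 967556389) (nat_lit 76) (nat_lit 18782790861) (nat_lit 76) (nat_lit 5781561531) (nat_lit 13) (nat_lit 4) (nat_lit 14) (nat_lit 5) (nat_lit 14) (nat_lit 4) (nat_lit 320) (nat_lit 249) (nat_lit 211)) (XT.lf (nat_lit 0) (nat_lit 9869388524) (nat_lit 76) (nat_lit 14906327538) (nat_lit 76) (nat_lit 1790139751) (nat_lit 13) (nat_lit 4) (nat_lit 14) (nat_lit 5) (nat_lit 14) (nat_lit 4) (nat_lit 321) (nat_lit 249) (nat_lit 210))))))))
noncomputable def xc75 : XT := (XT.nd (nat_lit 1638) (nat_lit 228) (nat_lit 0) (XT.nd (nat_lit 780) (nat_lit 228) (nat_lit 0) (XT.nd (nat_lit 390) (nat_lit 228) (nat_lit 0) (XT.nd (nat_lit 156) (nat_lit 76) (nat_lit 0) (XT.nd (nat_lit 78) (nat_lit 0) (nat_lit 0) (XT.lf (nat_lit 0) (nat_lit 2269489837) (nat_lit 152) (nat_lit 8573217863) (nat_lit 76) (nat_lit 16809667891) (nat_lit 12) (nat_lit 5) (nat_lit 14) (nat_lit 5) (nat_lit 13) (nat_lit 4) (nat_lit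 322) (nat_lit 249) (nat_lit 209)) (XT.lf (nat_lit 0) (nat_lit 6420015723) (nat_lit 152) (nat_lit 168910506) (nat_lit 76) (nat_lit 22205446466) (nat_lit 12) (nat_lit 5) (nat_lit 14) (nat_lit 5) (nat_lit 13) (nat_lit 4) (nat_lit 323) (nat_lit 249) (nat_lit 208))) (XT.nd (nat_lit 78) (nat_lit 0) (nat_lit 0) (XT.lf (nat_lit 0) (nat_lit 8847592345) (nat_lit 76) (nat_lit 2019159129) (nat_lit 152) (nat_lit 19122305361) (nat_lit 11) (nat_lit 5) (nat_lit 12) (nat_lit 5) (nat_lit 13) (nat_lit 4) (nat_lit 324) (nat_lit 249) (nat_lit 207)) (XT.nd (nat_lit 78) (nat_lit 0) (nat_lit 0) (XT.lf (nat_lit 0) (nat_lit 15532979101) (nat_lit 152) (nat_lit 13057512695) (nat_lit 0) (nat_lit 2653145973) (nat_lit 11) (nat_lit 5) (nat_lit 13) (nat_lit 4) (nat_lit 11) (nat_lit 4) (nat_lit 325) (nat_lit 249) (nat_lit 206)) (XT.lf (nat_lit 0) (nat_lit 20418817298) (nat_lit 152) (nat_lit 4689634466) (nat_lit 0) (nat_lit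 7453200399) (nat_lit 11) (nat_lit 5) (nat_lit 13) (nat_lit 4) (nat_lit 11) (nat_lit 4) (nat_lit 326) (nat_lit 249) (nat_lit 205))))) (XT.nd (nat_lit 156) (nat_lit 152) (nat_lit 0) (XT.nd (nat_lit 78) (nat_lit 0) (nat_lit 0) (XT.lf (nat_lit 0) (nat_lit 4146326801) (nat_lit 76) (nat_lit 21422783260) (nat_lit 76) (nat_lit 8375467533) (nat_lit 10) (nat_lit 4) (nat_lit 11) (nat_lit 5) (nat_lit 11) (nat_lit 4) (nat_lit 327) (nat_lit 249) (nat_lit 204)) (XT.lf (nat_lit 0) (nat_lit 13505219445) (nat_lit 76) (nat_lit 17507393395) (nat_lit 76) (nat_lit 4382269259) (nat_lit 10) (nat_lit 4) (nat_lit 11) (nat_lit 5) (nat_lit 11) (nat_lit 4) (nat_lit 328) (nat_lit 249) (nat_lit 203))) (XT.nd (nat_lit 78) (nat_lit 152) (nat_lit 0) (XT.lf (nat_lit 0) (nat_lit 23254266049) (nat_lit 76) (nat_lit 13432381041) (nat_lit 76) (nat_lit 233153659) (nat_lit 10) (nat_lit 4) (nat_lit 11) (nat_lit 5) (nat_lit 11)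 (nat_lit 4) (nat_lit 329) (nat_lit 249) (nat_lit 202)) (XT.nd (nat_lit 78) (nat_lit 76) (nat_lit 0) (XT.lf (nat_lit 0) (nat_lit 3951116364) (nat_lit 152) (nat_lit 5170013356) (nat_lit 76) (nat_lit 29398648197) (nat_lit 9) (nat_lit 5) (nat_lit 11) (nat_lit 5) (nat_lit 10) (nat_lit 4) (nat_lit 330) (nat_lit 249) (nat_lit 201)) (XT.lf (nat_lit 0) (nat_lit 3796118603) (nat_lit 76) (nat_lit 4561507901) (nat_lit 152) (nat_lit 31840907680) (nat_lit 8) (nat_lit 5) (nat_lit 9) (nat_lit 5) (nat_lit 10) (nat_lit 4) (nat_lit 331) (nat_lit 249) (nat_lit 200)))))) (XT.nd (nat_lit 390) (nat_lit 152) (nat_lit 0) (XT.nd (nat_lit 156) (nat_lit 76) (nat_lit 0) (XT.nd (nat_lit 78) (nat_lit 0) (nat_lit 0) (XT.lf (nat_lit 0) (nat_lit 13038788225) (nat_lit 152) (nat_lit 28643833948) (nat_lit 0) (nat_lit 275903556) (nat_lit 8) (nat_lit 5) (nat_lit 10) (nat_lit 4) (nat_lit 8) (nat_lit 4) (nat_lit 332) (nat_lit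 249) (nat_lit 199)) (XT.lf (nat_lit 0) (nat_lit 17992409766) (nat_lit 152) (nat_lit 20640736847) (nat_lit 0) (nat_lit 5171463265) (nat_lit 8) (nat_lit 5) (nat_lit 10) (nat_lit 4) (nat_lit 8) (nat_lit 4) (nat_lit 333) (nat_lit 249) (nat_lit 198))) (XT.nd (nat_lit 78) (nat_lit 76) (nat_lit 0) (XT.lf (nat_lit 0) (nat_lit 23159067543) (nat_lit 152) (nat_lit 12302851363) (nat_lit 0) (nat_lit 10282824058) (nat_lit 8) (nat_lit 5) (nat_lit 10) (nat_lit 4) (nat_lit 8) (nat_lit 4) (nat_lit 334) (nat_lit 249) (nat_lit 197)) (XT.nd (nat_lit 78) (nat_lit 76) (nat_lit 0) (XT.lf (nat_lit 0) (nat_lit 28551063121) (nat_lit 152) (nat_lit 3610325387) (nat_lit 0) (nat_lit 15622155843) (nat_lit 8) (nat_lit 5) (nat_lit 10) (nat_lit 4) (nat_lit 8) (nat_lit 4) (nat_lit 335) (nat_lit 249) (nat_lit 196)) (XT.lf (nat_lit 0) (nat_lit 5637988409) (nat_lit 76) (nat_lit 28631270977) (nat_lit 76) (nat_lit 15652207705)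 (nat_lit 7) (nat_lit 4) (nat_lit 8) (nat_lit 5) (nat_lit 8) (nat_lit 4) (nat_lit 336) (nat_lit 249) (nat_lit 195))))) (XT.nd (nat_lit 234) (nat_lit 152) (nat_lit 0) (XT.nd (nat_lit 78) (nat_lit 0) (nat_lit 0) (XT.lf (nat_lit 0) (nat_lit 15415727203) (nat_lit 76) (nat_lit 24887942609) (nat_lit 76) (nat_lit 11861111724) (nat_lit 7) (nat_lit 4) (nat_lit 8) (nat_lit 5) (nat_lit 8) (nat_lit 4) (nat_lit 337) (nat_lit 249) (nat_lit 194)) (XT.nd (nat_lit 78) (nat_lit 0) (nat_lit 0) (XT.lf (nat_lit 0) (nat_lit 25626797663) (nat_lit 76) (nat_lit 20983633327) (nat_lit 76) (nat_lit 7911309477) (nat_lit 7) (nat_lit 4) (nat_lit 8) (nat_lit 5) (nat_lit 8) (nat_lit 4) (nat_lit 338) (nat_lit 249) (nat_lit 193)) (XT.lf (nat_lit 0) (nat_lit 36295511861) (nat_lit 76) (nat_lit 16909047156) (nat_lit 76) (nat_lit 3793396673) (nat_lit 7) (nat_lit 4) (nat_lit 8) (nat_lit 5) (nat_lit 8) (nat_lit 4) (nat_lit 339)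 (nat_lit 249) (nat_lit 192)))) (XT.nd (nat_lit 78) (nat_lit 76) (nat_lit 0) (XT.lf (nat_lit 0) (nat_lit 486350305) (nat_lit 152) (nat_lit 12159895817) (nat_lit 76) (nat_lit 46952684614) (nat_lit 6) (nat_lit 5) (nat_lit 8) (nat_lit 5) (nat_lit 7) (nat_lit 4) (nat_lit 340) (nat_lit 249) (nat_lit 191)) (XT.nd (nat_lit 78) (nat_lit 76) (nat_lit 0) (XT.lf (nat_lit 0) (nat_lit 4826806414) (nat_lit 152) (nat_lit 3301259327) (nat_lit 76) (nat_lit 54200077665) (nat_lit 6) (nat_lit 5) (nat_lit 8) (nat_lit 5) (nat_lit 7) (nat_lit 4) (nat_lit 341) (nat_lit 249) (nat_lit 190)) (XT.lf (nat_lit 0) (nat_lit 6150642143) (nat_lit 76) (nat_lit 3305105074) (nat_lit 152) (nat_lit 55734504450) (nat_lit 5) (nat_lit 5) (nat_lit 6) (nat_lit 5) (nat_lit 7) (nat_lit 4) (nat_lit 342) (nat_lit 249) (nat_lit 189))))))) (XT.nd (nat_lit 780) (nat_lit 152) (nat_lit 0) (XT.nd (nat_lit 390) (nat_lit 76) (nat_lit 0) (XT.nd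 (nat_lit 156) (nat_lit 0) (nat_lit 0) (XT.nd (nat_lit 78) (nat_lit 0) (nat_lit 0) (XT.lf (nat_lit 0) (nat_lit 14375973057) (nat_lit 152) (nat_lit 52077948877) (nat_lit 0) (nat_lit 1738559171) (nat_lit 5) (nat_lit 5) (nat_lit 7) (nat_lit 4) (nat_lit 5) (nat_lit 4) (nat_lit 343) (nat_lit 249) (nat_lit 188)) (XT.lf (nat_lit 0) (nat_lit 19573106589) (nat_lit 152) (nat_lit 44866816208) (nat_lit 0) (nat_lit 6903361702) (nat_lit 5) (nat_lit 5) (nat_lit 7) (nat_lit 4) (nat_lit 5) (nat_lit 4) (nat_lit 344) (nat_lit 249) (nat_lit 187))) (XT.nd (nat_lit 78) (nat_lit 0) (nat_lit 0) (XT.lf (nat_lit 0) (nat_lit 25007919986) (nat_lit 152) (nat_lit 37337440200) (nat_lit 0) (nat_lit 12307383669) (nat_lit 5) (nat_lit 5) (nat_lit 7) (nat_lit 4) (nat_lit 5) (nat_lit 4) (nat_lit 345) (nat_lit 249) (nat_lit 186)) (XT.nd (nat_lit 78) (nat_lit 0) (nat_lit 0) (XT.lf (nat_lit 0) (nat_lit 30693353280) (nat_lit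 152) (nat_lit 29471893768) (nat_lit 0) (nat_lit 17963491793) (nat_lit 5) (nat_lit 5) (nat_lit 7) (nat_lit 4) (nat_lit 5) (nat_lit 4) (nat_lit 346) (nat_lit 249) (nat_lit 185)) (XT.lf (nat_lit 0) (nat_lit 36642943218) (nat_lit 152) (nat_lit 21251449420) (nat_lit 0) (nat_lit 23885152996) (nat_lit 5) (nat_lit 5) (nat_lit 7) (nat_lit 4) (nat_lit 5) (nat_lit 4) (nat_lit 347) (nat_lit 249) (nat_lit 184))))) (XT.nd (nat_lit 156) (nat_lit 76) (nat_lit 0) (XT.nd (nat_lit 78) (nat_lit 0) (nat_lit 0) (XT.lf (nat_lit 0) (nat_lit 42870855489) (nat_lit 152) (nat_lit 12656534670) (nat_lit 0) (nat_lit 30086466473) (nat_lit 5) (nat_lit 5) (nat_lit 7) (nat_lit 4) (nat_lit 5) (nat_lit 4) (nat_lit 348) (nat_lit 249) (nat_lit 183)) (XT.lf (nat_lit 0) (nat_lit 49391918457) (nat_lit 152) (nat_lit 3666685435) (nat_lit 0) (nat_lit 36582197255) (nat_lit 5) (nat_lit 5) (nat_lit 7) (nat_lit 4) (nat_lit 5) (nat_lit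 4) (nat_lit 349) (nat_lit 249) (nat_lit 182))) (XT.nd (nat_lit 78) (nat_lit 0) (nat_lit 0) (XT.lf (nat_lit 0) (nat_lit 5929276566) (nat_lit 76) (nat_lit 50384954518) (nat_lit 76) (nat_lit 37551107426) (nat_lit 4) (nat_lit 4) (nat_lit 5) (nat_lit 5) (nat_lit 5) (nat_lit 4) (nat_lit 350) (nat_lit 249) (nat_lit 181)) (XT.nd (nat_lit 78) (nat_lit 0) (nat_lit 0) (XT.lf (nat_lit 0) (nat_lit 16099716869) (nat_lit 76) (nat_lit 47527981618) (nat_lit 76) (nat_lit 34671157487) (nat_lit 4) (nat_lit 4) (nat_lit 5) (nat_lit 5) (nat_lit 5) (nat_lit 4) (nat_lit 351) (nat_lit 249) (nat_lit 180)) (XT.lf (nat_lit 0) (nat_lit 26747613625) (nat_lit 76) (nat_lit 44542979968) (nat_lit 76) (nat_lit 31664272943) (nat_lit 4) (nat_lit 4) (nat_lit 5) (nat_lit 5) (nat_lit 5) (nat_lit 4) (nat_lit 352) (nat_lit 249) (nat_lit 179)))))) (XT.nd (nat_lit 390) (nat_lit 152) (nat_lit 0) (XT.nd (nat_lit 156) (nat_lit 0)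 (nat_lit 0) (XT.nd (nat_lit 78) (nat_lit 0) (nat_lit 0) (XT.lf (nat_lit 0) (nat_lit 37898318972) (nat_lit 76) (nat_lit 41422842420) (nat_lit 76) (nat_lit 28523294544) (nat_lit 4) (nat_lit 4) (nat_lit 5) (nat_lit 5) (nat_lit 5) (nat_lit 4) (nat_lit 353) (nat_lit 249) (nat_lit 178)) (XT.lf (nat_lit 0) (nat_lit 49578382206) (nat_lit 76) (nat_lit 38160140077) (nat_lit 76) (nat_lit 25240743770) (nat_lit 4) (nat_lit 4) (nat_lit 5) (nat_lit 5) (nat_lit 5) (nat_lit 4) (nat_lit 354) (nat_lit 249) (nat_lit 177))) (XT.nd (nat_lit 78) (nat_lit 0) (nat_lit 0) (XT.lf (nat_lit 0) (nat_lit 61815613003) (nat_lit 76) (nat_lit 34747104598) (nat_lit 76) (nat_lit 21808805025) (nat_lit 4) (nat_lit 4) (nat_lit 5) (nat_lit 5) (nat_lit 5) (nat_lit 4) (nat_lit 355) (nat_lit 249) (nat_lit 176)) (XT.nd (nat_lit 78) (nat_lit 0) (nat_lit 0) (XT.lf (nat_lit 0) (nat_lit 74639147626) (nat_lit 76) (nat_lit 31175609709)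 (nat_lit 76) (nat_lit 18219307026) (nat_lit 4) (nat_lit 4) (nat_lit 5) (nat_lit 5) (nat_lit 5) (nat_lit 4) (nat_lit 356) (nat_lit 249) (nat_lit 175)) (XT.lf (nat_lit 0) (nat_lit 88079518300) (nat_lit 76) (nat_lit 27437151852) (nat_lit 76) (nat_lit 14463703348) (nat_lit 4) (nat_lit 4) (nat_lit 5) (nat_lit 5) (nat_lit 5) (nat_lit 4) (nat_lit 357) (nat_lit 249) (nat_lit 174))))) (XT.nd (nat_lit 234) (nat_lit 152) (nat_lit 0) (XT.nd (nat_lit 78) (nat_lit 0) (nat_lit 0) (XT.lf (nat_lit 0) (nat_lit 102168725908) (nat_lit 76) (nat_lit 23522829935) (nat_lit 76) (nat_lit 10533052078) (nat_lit 4) (nat_lit 4) (nat_lit 5) (nat_lit 5) (nat_lit 5) (nat_lit 4) (nat_lit 358) (nat_lit 249) (nat_lit 173)) (XT.nd (nat_lit 78) (nat_lit 0) (nat_lit 0) (XT.lf (nat_lit 0) (nat_lit 116940316183) (nat_lit 76) (nat_lit 19423324144) (nat_lit 76) (nat_lit 6417994524) (nat_lit 4) (nat_lit 4) (nat_lit 5) (nat_lit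 5) (nat_lit 5) (nat_lit 4) (nat_lit 359) (nat_lit 249) (nat_lit 172)) (XT.lf (nat_lit 0) (nat_lit 132429459577) (nat_lit 76) (nat_lit 15128873752) (nat_lit 76) (nat_lit 2108732928) (nat_lit 4) (nat_lit 4) (nat_lit 5) (nat_lit 5) (nat_lit 5) (nat_lit 4) (nat_lit 360) (nat_lit 249) (nat_lit 171)))) (XT.nd (nat_lit 78) (nat_lit 76) (nat_lit 0) (XT.lf (nat_lit 0) (nat_lit 2328018064) (nat_lit 152) (nat_lit 8261809700) (nat_lit 76) (nat_lit 146305590827) (nat_lit 3) (nat_lit 5) (nat_lit 5) (nat_lit 5) (nat_lit 4) (nat_lit 4) (nat_lit 361) (nat_lit 249) (nat_lit 170)) (XT.nd (nat_lit 78) (nat_lit 0) (nat_lit 0) (XT.lf (nat_lit 0) (nat_lit 1145459888) (nat_lit 76) (nat_lit 5778023438) (nat_lit 152) (nat_lit 157559592436) (nat_lit 2) (nat_lit 5) (nat_lit 3) (nat_lit 5) (nat_lit 4) (nat_lit 4) (nat_lit 362) (nat_lit 249) (nat_lit 169)) (XT.lf (nat_lit 0) (nat_lit 11290827675) (nat_lit 76) (nat_lit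 587856755) (nat_lit 152) (nat_lit 160564935986) (nat_lit 2) (nat_lit 5) (nat_lit 3) (nat_lit 5) (nat_lit 4) (nat_lit 4) (nat_lit 363) (nat_lit 249) (nat_lit 168))))))))
noncomputable def xc76 : XT := (XT.nd (nat_lit 1560) (nat_lit 0) (nat_lit 0) (XT.nd (nat_lit 780) (nat_lit 0) (nat_lit 0) (XT.nd (nat_lit 390) (nat_lit 0) (nat_lit 0) (XT.nd (nat_lit 156) (nat_lit 0) (nat_lit 0) (XT.nd (nat_lit 78) (nat_lit 0) (nat_lit 0) (XT.lf (nat_lit 0) (nat_lit 17147935157) (nat_lit 152) (nat_lit 158953163101) (nat_lit 0) (nat_lit 4697782185) (nat_lit 2) (nat_lit 5) (nat_lit 4) (nat_lit 4) (nat_lit 2) (nat_lit 4) (nat_lit 364) (nat_lit 249) (nat_lit 167)) (XT.lf (nat_lit 0) (nat_lit 22681126332) (nat_lit 152) (nat_lit 156670834729) (nat_lit 0) (nat_lit 10219921011) (nat_lit 2) (nat_lit 5) (nat_lit 4) (nat_lit 4) (nat_lit 2) (nat_lit 4) (nat_lit 365) (nat_lit 249) (nat_lit 166))) (XT.nd (nat_lit 78)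 (nat_lit 0) (nat_lit 0) (XT.lf (nat_lit 0) (nat_lit 28482254127) (nat_lit 152) (nat_lit 154291195420) (nat_lit 0) (nat_lit 16010522760) (nat_lit 2) (nat_lit 5) (nat_lit 4) (nat_lit 4) (nat_lit 2) (nat_lit 4) (nat_lit 366) (nat_lit 249) (nat_lit 165)) (XT.nd (nat_lit 78) (nat_lit 0) (nat_lit 0) (XT.lf (nat_lit 0) (nat_lit 34565130752) (nat_lit 152) (nat_lit 151808579365) (nat_lit 0) (nat_lit 22083374579) (nat_lit 2) (nat_lit 5) (nat_lit 4) (nat_lit 4) (nat_lit 2) (nat_lit 4) (nat_lit 367) (nat_lit 249) (nat_lit 164)) (XT.lf (nat_lit 0) (nat_lit 40944239246) (nat_lit 152) (nat_lit 149217075574) (nat_lit 0) (nat_lit 28452935639) (nat_lit 2) (nat_lit 5) (nat_lit 4) (nat_lit 4) (nat_lit 2) (nat_lit 4) (nat_lit 368) (nat_lit 249) (nat_lit 163))))) (XT.nd (nat_lit 156) (nat_lit 0) (nat_lit 0) (XT.nd (nat_lit 78) (nat_lit 0) (nat_lit 0) (XT.lf (nat_lit 0) (nat_lit 47634767963) (nat_lit 152)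 (nat_lit 146510513799) (nat_lit 0) (nat_lit 35134371561) (nat_lit 2) (nat_lit 5) (nat_lit 4) (nat_lit 4) (nat_lit 2) (nat_lit 4) (nat_lit 369) (nat_lit 249) (nat_lit 162)) (XT.lf (nat_lit 0) (nat_lit 54652646733) (nat_lit 152) (nat_lit 143682449845) (nat_lit 0) (nat_lit 42143590527) (nat_lit 2) (nat_lit 5) (nat_lit 4) (nat_lit 4) (nat_lit 2) (nat_lit 4) (nat_lit 370) (nat_lit 249) (nat_lit 161))) (XT.nd (nat_lit 78) (nat_lit 0) (nat_lit 0) (XT.lf (nat_lit 0) (nat_lit 62014584791) (nat_lit 152) (nat_lit 140726150228) (nat_lit 0) (nat_lit 49497281152) (nat_lit 2) (nat_lit 5) (nat_lit 4) (nat_lit 4) (nat_lit 2) (nat_lit 4) (nat_lit 371) (nat_lit 249) (nat_lit 160)) (XT.nd (nat_lit 78) (nat_lit 0) (nat_lit 0) (XT.lf (nat_lit 0) (nat_lit 69738110561) (nat_lit 152) (nat_lit 137634576139) (nat_lit 0) (nat_lit 57212952225) (nat_lit 2) (nat_lit 5) (nat_lit 4) (nat_lit 4) (nat_lit 2) (nat_lit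 4) (nat_lit 372) (nat_lit 249) (nat_lit 159)) (XT.lf (nat_lit 0) (nat_lit 77841613390) (nat_lit 152) (nat_lit 134400366686) (nat_lit 0) (nat_lit 65308974390) (nat_lit 2) (nat_lit 5) (nat_lit 4) (nat_lit 4) (nat_lit 2) (nat_lit 4) (nat_lit 373) (nat_lit 249) (nat_lit 158)))))) (XT.nd (nat_lit 390) (nat_lit 0) (nat_lit 0) (XT.nd (nat_lit 156) (nat_lit 0) (nat_lit 0) (XT.nd (nat_lit 78) (nat_lit 0) (nat_lit 0) (XT.lf (nat_lit 0) (nat_lit 86344387333) (nat_lit 152) (nat_lit 131015821372) (nat_lit 0) (nat_lit 73804623890) (nat_lit 2) (nat_lit 5) (nat_lit 4) (nat_lit 4) (nat_lit 2) (nat_lit 4) (nat_lit 374) (nat_lit 249) (nat_lit 157)) (XT.lf (nat_lit 0) (nat_lit 95266677089) (nat_lit 152) (nat_lit 127472881754) (nat_lit 0) (nat_lit 82720128463) (nat_lit 2) (nat_lit 5) (nat_lit 4) (nat_lit 4) (nat_lit 2) (nat_lit 4) (nat_lit 375) (nat_lit 249) (nat_lit 156))) (XT.nd (nat_lit 78) (nat_lit 0)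 (nat_lit 0) (XT.lf (nat_lit 0) (nat_lit 104629726206) (nat_lit 152) (nat_lit 123763112263) (nat_lit 0) (nat_lit 92076715501) (nat_lit 2) (nat_lit 5) (nat_lit 4) (nat_lit 4) (nat_lit 2) (nat_lit 4) (nat_lit 376) (nat_lit 249) (nat_lit 155)) (XT.nd (nat_lit 78) (nat_lit 0) (nat_lit 0) (XT.lf (nat_lit 0) (nat_lit 114455827658) (nat_lit 152) (nat_lit 119877680114) (nat_lit 0) (nat_lit 101896662591) (nat_lit 2) (nat_lit 5) (nat_lit 4) (nat_lit 4) (nat_lit 2) (nat_lit 4) (nat_lit 377) (nat_lit 249) (nat_lit 154)) (XT.lf (nat_lit 0) (nat_lit 124768376923) (nat_lit 152) (nat_lit 115807334278) (nat_lit 0) (nat_lit 112203350560) (nat_lit 2) (nat_lit 5) (nat_lit 4) (nat_lit 4) (nat_lit 2) (nat_lit 4) (nat_lit 378) (nat_lit 249) (nat_lit 153))))) (XT.nd (nat_lit 156) (nat_lit 0) (nat_lit 0) (XT.nd (nat_lit 78) (nat_lit 0) (nat_lit 0) (XT.lf (nat_lit 0) (nat_lit 135591927692) (nat_lit 152) (nat_lit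 111542383456) (nat_lit 0) (nat_lit 123021319142) (nat_lit 2) (nat_lit 5) (nat_lit 4) (nat_lit 4) (nat_lit 2) (nat_lit 4) (nat_lit 379) (nat_lit 249) (nat_lit 152)) (XT.lf (nat_lit 0) (nat_lit 146952250322) (nat_lit 152) (nat_lit 107072673001) (nat_lit 0) (nat_lit 134376325404) (nat_lit 2) (nat_lit 5) (nat_lit 4) (nat_lit 4) (nat_lit 2) (nat_lit 4) (nat_lit 380) (nat_lit 249) (nat_lit 151))) (XT.nd (nat_lit 78) (nat_lit 0) (nat_lit 0) (XT.lf (nat_lit 0) (nat_lit 158876393202) (nat_lit 152) (nat_lit 102387560748) (nat_lit 0) (nat_lit 146295405075) (nat_lit 2) (nat_lit 5) (nat_lit 4) (nat_lit 4) (nat_lit 2) (nat_lit 4) (nat_lit 381) (nat_lit 249) (nat_lit 150)) (XT.nd (nat_lit 78) (nat_lit 0) (nat_lit 0) (XT.lf (nat_lit 0) (nat_lit 171392747147) (nat_lit 152) (nat_lit 97475891666) (nat_lit 0) (nat_lit 158806936917) (nat_lit 2) (nat_lit 5) (nat_lit 4) (nat_lit 4) (nat_lit 2) (nat_lit 4)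 (nat_lit 382) (nat_lit 249) (nat_lit 149)) (XT.lf (nat_lit 0) (nat_lit 184531113000) (nat_lit 152) (nat_lit 92325971306) (nat_lit 0) (nat_lit 171940710291) (nat_lit 2) (nat_lit 5) (nat_lit 4) (nat_lit 4) (nat_lit 2) (nat_lit 4) (nat_lit 383) (nat_lit 249) (nat_lit 148))))))) (XT.nd (nat_lit 32760) (nat_lit 0) (nat_lit 2964) (XT.nd (nat_lit 390) (nat_lit 0) (nat_lit 0) (XT.nd (nat_lit 156) (nat_lit 0) (nat_lit 0) (XT.nd (nat_lit 78) (nat_lit 0) (nat_lit 0) (XT.lf (nat_lit 0) (nat_lit 198322772585) (nat_lit 152) (nat_lit 86925537952) (nat_lit 0) (nat_lit 185727996087) (nat_lit 2) (nat_lit 5) (nat_lit 4) (nat_lit 4) (nat_lit 2) (nat_lit 4) (nat_lit 384) (nat_lit 249) (nat_lit 147)) (XT.lf (nat_lit 0) (nat_lit 212800563187) (nat_lit 152) (nat_lit 81261733430) (nat_lit 0) (nat_lit 200201621174) (nat_lit 2) (nat_lit 5) (nat_lit 4) (nat_lit 4) (nat_lit 2) (nat_lit 4) (nat_lit 385) (nat_lit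 249) (nat_lit 146))) (XT.nd (nat_lit 78) (nat_lit 0) (nat_lit 0) (XT.lf (nat_lit 0) (nat_lit 227998955734) (nat_lit 152) (nat_lit 75321072491) (nat_lit 0) (nat_lit 215396046566) (nat_lit 2) (nat_lit 5) (nat_lit 4) (nat_lit 4) (nat_lit 2) (nat_lit 4) (nat_lit 386) (nat_lit 249) (nat_lit 145)) (XT.nd (nat_lit 78) (nat_lit 0) (nat_lit 0) (XT.lf (nat_lit 0) (nat_lit 243954136878) (nat_lit 152) (nat_lit 69089410703) (nat_lit 0) (nat_lit 231347449465) (nat_lit 2) (nat_lit 5) (nat_lit 4) (nat_lit 4) (nat_lit 2) (nat_lit 4) (nat_lit 387) (nat_lit 249) (nat_lit 144)) (XT.lf (nat_lit 0) (nat_lit 260704095143) (nat_lit 152) (nat_lit 62551910778) (nat_lit 0) (nat_lit 248093809403) (nat_lit 2) (nat_lit 5) (nat_lit 4) (nat_lit 4) (nat_lit 2) (nat_lit 4) (nat_lit 388) (nat_lit 249) (nat_lit 143))))) (XT.nd (nat_lit 32136) (nat_lit 0) (nat_lit 5168) (XT.nd (nat_lit 78) (nat_lit 0) (nat_lit 0) (XT.lf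 (nat_lit 0) (nat_lit 278288711383) (nat_lit 152) (nat_lit 55693007239) (nat_lit 0) (nat_lit 265674998664) (nat_lit 2) (nat_lit 5) (nat_lit 4) (nat_lit 4) (nat_lit 2) (nat_lit 4) (nat_lit 389) (nat_lit 249) (nat_lit 142)) (XT.lf (nat_lit 0) (nat_lit 296749853731) (nat_lit 152) (nat_lit 48496369362) (nat_lit 0) (nat_lit 284132877224) (nat_lit 2) (nat_lit 5) (nat_lit 4) (nat_lit 4) (nat_lit 2) (nat_lit 4) (nat_lit 390) (nat_lit 249) (nat_lit 141))) (XT.nd (nat_lit 78) (nat_lit 380) (nat_lit 0) (XT.lf (nat_lit 0) (nat_lit 556815987) (nat_lit 380) (nat_lit 2734615229) (nat_lit 0) (nat_lit 556815987) (nat_lit 75) (nat_lit 5) (nat_lit 80) (nat_lit 4) (nat_lit 75) (nat_lit 4) (nat_lit 280) (nat_lit 250) (nat_lit 250)) (XT.nd (nat_lit 78) (nat_lit 76) (nat_lit 0) (XT.lf (nat_lit 0) (nat_lit 47657538) (nat_lit 304) (nat_lit 4551124667) (nat_lit 304) (nat_lit 3232850083) (nat_lit 71) (nat_lit 4)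 (nat_lit 75) (nat_lit 5) (nat_lit 75) (nat_lit 4) (nat_lit 281) (nat_lit 250) (nat_lit 249)) (XT.lf (nat_lit 0) (nat_lit 212388292) (nat_lit 380) (nat_lit 2138378187) (nat_lit 76) (nat_lit 5625966579) (nat_lit 70) (nat_lit 5) (nat_lit 75) (nat_lit 5) (nat_lit 71) (nat_lit 4) (nat_lit 282) (nat_lit 250) (nat_lit 248)))))) (XT.nd (nat_lit 390) (nat_lit 988) (nat_lit 0) (XT.nd (nat_lit 156) (nat_lit 608) (nat_lit 0) (XT.nd (nat_lit 78) (nat_lit 304) (nat_lit 0) (XT.lf (nat_lit 0) (nat_lit 3629352553) (nat_lit 380) (nat_lit 4462574272) (nat_lit 0) (nat_lit 39363892) (nat_lit 66) (nat_lit 5) (nat_lit 71) (nat_lit 4) (nat_lit 66) (nat_lit 4) (nat_lit 283) (nat_lit 250) (nat_lit 247)) (XT.lf (nat_lit 0) (nat_lit 1364644666) (nat_lit 304) (nat_lit 5803092177) (nat_lit 304) (nat_lit 1128555754) (nat_lit 62) (nat_lit 4) (nat_lit 66) (nat_lit 5) (nat_lit 66) (nat_lit 4) (nat_lit 284) (nat_lit 250)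 (nat_lit 246))) (XT.nd (nat_lit 78) (nat_lit 532) (nat_lit 0) (XT.lf (nat_lit 0) (nat_lit 2268490217) (nat_lit 380) (nat_lit 1057034107) (nat_lit 76) (nat_lit 5145746264) (nat_lit 61) (nat_lit 5) (nat_lit 66) (nat_lit 5) (nat_lit 62) (nat_lit 4) (nat_lit 285) (nat_lit 250) (nat_lit 245)) (XT.nd (nat_lit 78) (nat_lit 304) (nat_lit 0) (XT.lf (nat_lit 0) (nat_lit 5073770403) (nat_lit 228) (nat_lit 665218010) (nat_lit 304) (nat_lit 2918219260) (nat_lit 58) (nat_lit 5) (nat_lit 61) (nat_lit 5) (nat_lit 62) (nat_lit 4) (nat_lit 286) (nat_lit 250) (nat_lit 244)) (XT.lf (nat_lit 0) (nat_lit 469458150) (nat_lit 304) (nat_lit 6302400295) (nat_lit 76) (nat_lit 2082567401) (nat_lit 54) (nat_lit 5) (nat_lit 58) (nat_lit 5) (nat_lit 55) (nat_lit 4) (nat_lit 287) (nat_lit 250) (nat_lit 243))))) (XT.nd (nat_lit 234) (nat_lit 456) (nat_lit 0) (XT.nd (nat_lit 78) (nat_lit 532) (nat_lit 0) (XT.lf (nat_lit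 0) (nat_lit 3867659009) (nat_lit 304) (nat_lit 185860084) (nat_lit 76) (nat_lit 5008816077) (nat_lit 54) (nat_lit 5) (nat_lit 58) (nat_lit 5) (nat_lit 55) (nat_lit 4) (nat_lit 288) (nat_lit 250) (nat_lit 242)) (XT.nd (nat_lit 78) (nat_lit 304) (nat_lit 0) (XT.lf (nat_lit 0) (nat_lit 6259399254) (nat_lit 228) (nat_lit 1147072231) (nat_lit 304) (nat_lit 1875807463) (nat_lit 51) (nat_lit 5) (nat_lit 54) (nat_lit 5) (nat_lit 55) (nat_lit 4) (nat_lit 289) (nat_lit 250) (nat_lit 241)) (XT.lf (nat_lit 0) (nat_lit 1518553862) (nat_lit 304) (nat_lit 6119950429) (nat_lit 76) (nat_lit 1875565085) (nat_lit 47) (nat_lit 5) (nat_lit 51) (nat_lit 5) (nat_lit 48) (nat_lit 4) (nat_lit 290) (nat_lit 250) (nat_lit 240)))) (XT.nd (nat_lit 78) (nat_lit 304) (nat_lit 0) (XT.lf (nat_lit 0) (nat_lit 258432555) (nat_lit 152) (nat_lit 4712556498) (nat_lit 228) (nat_lit 4787503329) (nat_lit 45) (nat_lit 5) (nat_lit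 47) (nat_lit 5) (nat_lit 48) (nat_lit 4) (nat_lit 291) (nat_lit 250) (nat_lit 239)) (XT.nd (nat_lit 78) (nat_lit 304) (nat_lit 0) (XT.lf (nat_lit 0) (nat_lit 6989662777) (nat_lit 152) (nat_lit 1589642601) (nat_lit 228) (nat_lit 1436811395) (nat_lit 45) (nat_lit 5) (nat_lit 47) (nat_lit 5) (nat_lit 48) (nat_lit 4) (nat_lit 292) (nat_lit 250) (nat_lit 238)) (XT.lf (nat_lit 0) (nat_lit 1982577874) (nat_lit 304) (nat_lit 6632882846) (nat_lit 76) (nat_lit 1671277667) (nat_lit 41) (nat_lit 5) (nat_lit 45) (nat_lit 5) (nat_lit 42) (nat_lit 4) (nat_lit 293) (nat_lit 250) (nat_lit 237))))))))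
noncomputable def xc77 : XT := (XT.nd (nat_lit 1638) (nat_lit 684) (nat_lit 0) (XT.nd (nat_lit 780) (nat_lit 684) (nat_lit 0) (XT.nd (nat_lit 390) (nat_lit 608) (nat_lit 0) (XT.nd (nat_lit 156) (nat_lit 380) (nat_lit 0) (XT.nd (nat_lit 78) (nat_lit 152) (nat_lit 0) (XT.lf (nat_lit 0) (nat_lit 5488126231) (nat_lit 304) (nat_lit 21667548) (nat_lit 76) (nat_lit 5061869500) (nat_lit 41) (nat_lit 5) (nat_lit 45) (nat_lit 5) (nat_lit 42) (nat_lit 4) (nat_lit 294) (nat_lit 250) (nat_lit 236)) (XT.lf (nat_lit 0) (nat_lit 6975622317) (nat_lit 152) (nat_lit 2193021077) (nat_lit 228) (nat_lit 1702324268) (nat_lit 39) (nat_lit 5) (nat_lit 41) (nat_lit 5) (nat_lit 42) (nat_lit 4) (nat_lit 295) (nat_lit 250) (nat_lit 235))) (XT.nd (nat_lit 78) (nat_lit 152) (nat_lit 0) (XT.lf (nat_lit 0) (nat_lit 1748606981) (nat_lit 228) (nat_lit 8169434410) (nat_lit 76) (nat_lit 1267869963) (nat_lit 36) (nat_lit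 5) (nat_lit 39) (nat_lit 5) (nat_lit 37) (nat_lit 4) (nat_lit 296) (nat_lit 250) (nat_lit 234)) (XT.nd (nat_lit 78) (nat_lit 152) (nat_lit 0) (XT.lf (nat_lit 0) (nat_lit 5311061478) (nat_lit 228) (nat_lit 1339587288) (nat_lit 76) (nat_lit 4864850594) (nat_lit 36) (nat_lit 5) (nat_lit 39) (nat_lit 5) (nat_lit 37) (nat_lit 4) (nat_lit 297) (nat_lit 250) (nat_lit 233)) (XT.lf (nat_lit 0) (nat_lit 5856853912) (nat_lit 152) (nat_lit 3184496930) (nat_lit 228) (nat_lit 2820827243) (nat_lit 34) (nat_lit 5) (nat_lit 36) (nat_lit 5) (nat_lit 37) (nat_lit 4) (nat_lit 298) (nat_lit 250) (nat_lit 232))))) (XT.nd (nat_lit 156) (nat_lit 380) (nat_lit 0) (XT.nd (nat_lit 78) (nat_lit 0) (nat_lit 0) (XT.lf (nat_lit 0) (nat_lit 654567103) (nat_lit 228) (nat_lit 11141097145) (nat_lit 76) (nat_lit 432741484) (nat_lit 31) (nat_lit 5) (nat_lit 34) (nat_lit 5) (nat_lit 32) (nat_lit 4) (nat_lit 299) (nat_lit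 250) (nat_lit 231)) (XT.lf (nat_lit 0) (nat_lit 4264753934) (nat_lit 228) (nat_lit 4129504280) (nat_lit 76) (nat_lit 4213667069) (nat_lit 31) (nat_lit 5) (nat_lit 34) (nat_lit 5) (nat_lit 32) (nat_lit 4) (nat_lit 300) (nat_lit 250) (nat_lit 230))) (XT.nd (nat_lit 78) (nat_lit 228) (nat_lit 0) (XT.lf (nat_lit 0) (nat_lit 3177615822) (nat_lit 152) (nat_lit 4832441826) (nat_lit 228) (nat_lit 4998712529) (nat_lit 29) (nat_lit 5) (nat_lit 31) (nat_lit 5) (nat_lit 32) (nat_lit 4) (nat_lit 301) (nat_lit 250) (nat_lit 229)) (XT.nd (nat_lit 78) (nat_lit 228) (nat_lit 0) (XT.lf (nat_lit 0) (nat_lit 10839231360) (nat_lit 152) (nat_lit 1080442468) (nat_lit 228) (nat_lit 1511207068) (nat_lit 29) (nat_lit 5) (nat_lit 31) (nat_lit 5) (nat_lit 32) (nat_lit 4) (nat_lit 302) (nat_lit 250) (nat_lit 228)) (XT.lf (nat_lit 0) (nat_lit 2115227897) (nat_lit 228) (nat_lit 8932719426) (nat_lit 76) (nat_lit 2822870349)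 (nat_lit 26) (nat_lit 5) (nat_lit 29) (nat_lit 5) (nat_lit 27) (nat_lit 4) (nat_lit 303) (nat_lit 250) (nat_lit 227)))))) (XT.nd (nat_lit 390) (nat_lit 380) (nat_lit 0) (XT.nd (nat_lit 156) (nat_lit 228) (nat_lit 0) (XT.nd (nat_lit 78) (nat_lit 76) (nat_lit 0) (XT.lf (nat_lit 0) (nat_lit 5845588677) (nat_lit 228) (nat_lit 1590498837) (nat_lit 76) (nat_lit 6896821155) (nat_lit 26) (nat_lit 5) (nat_lit 29) (nat_lit 5) (nat_lit 27) (nat_lit 4) (nat_lit 304) (nat_lit 250) (nat_lit 226)) (XT.lf (nat_lit 0) (nat_lit 6172539103) (nat_lit 76) (nat_lit 3601601884) (nat_lit 152) (nat_lit 5043442036) (nat_lit 25) (nat_lit 5) (nat_lit 26) (nat_lit 5) (nat_lit 27) (nat_lit 4) (nat_lit 305) (nat_lit 250) (nat_lit 225))) (XT.nd (nat_lit 78) (nat_lit 228) (nat_lit 0) (XT.lf (nat_lit 0) (nat_lit 13849338156) (nat_lit 152) (nat_lit 1098088331) (nat_lit 0) (nat_lit 381613247) (nat_lit 25) (nat_lit 5) (nat_lit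 27) (nat_lit 4) (nat_lit 25) (nat_lit 4) (nat_lit 306) (nat_lit 250) (nat_lit 224)) (XT.nd (nat_lit 78) (nat_lit 0) (nat_lit 0) (XT.lf (nat_lit 0) (nat_lit 2277344719) (nat_lit 228) (nat_lit 9050108128) (nat_lit 76) (nat_lit 4532528216) (nat_lit 22) (nat_lit 5) (nat_lit 25) (nat_lit 5) (nat_lit 23) (nat_lit 4) (nat_lit 307) (nat_lit 250) (nat_lit 223)) (XT.lf (nat_lit 0) (nat_lit 6111966090) (nat_lit 228) (nat_lit 1428124692) (nat_lit 76) (nat_lit 8879244685) (nat_lit 22) (nat_lit 5) (nat_lit 25) (nat_lit 5) (nat_lit 23) (nat_lit 4) (nat_lit 308) (nat_lit 250) (nat_lit 222))))) (XT.nd (nat_lit 234) (nat_lit 76) (nat_lit 0) (XT.nd (nat_lit 78) (nat_lit 228) (nat_lit 0) (XT.lf (nat_lit 0) (nat_lit 6656209408) (nat_lit 76) (nat_lit 3510363502) (nat_lit 152) (nat_lit 6838720917) (nat_lit 21) (nat_lit 5) (nat_lit 22) (nat_lit 5) (nat_lit 23) (nat_lit 4) (nat_lit 309) (nat_lit 250) (nat_lit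 221)) (XT.nd (nat_lit 78) (nat_lit 228) (nat_lit 0) (XT.lf (nat_lit 0) (nat_lit 14384790484) (nat_lit 152) (nat_lit 2569196860) (nat_lit 0) (nat_lit 668565365) (nat_lit 21) (nat_lit 5) (nat_lit 23) (nat_lit 4) (nat_lit 21) (nat_lit 4) (nat_lit 310) (nat_lit 250) (nat_lit 220)) (XT.lf (nat_lit 0) (nat_lit 600532365) (nat_lit 228) (nat_lit 12681751744) (nat_lit 76) (nat_lit 4984274877) (nat_lit 18) (nat_lit 5) (nat_lit 21) (nat_lit 5) (nat_lit 19) (nat_lit 4) (nat_lit 311) (nat_lit 250) (nat_lit 219)))) (XT.nd (nat_lit 78) (nat_lit 76) (nat_lit 0) (XT.lf (nat_lit 0) (nat_lit 4495041351) (nat_lit 228) (nat_lit 4885263534) (nat_lit 76) (nat_lit 9561191577) (nat_lit 18) (nat_lit 5) (nat_lit 21) (nat_lit 5) (nat_lit 19) (nat_lit 4) (nat_lit 312) (nat_lit 250) (nat_lit 218)) (XT.nd (nat_lit 78) (nat_lit 0) (nat_lit 0) (XT.lf (nat_lit 0) (nat_lit 3285648063) (nat_lit 76) (nat_lit 5282198115)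 (nat_lit 152) (nat_lit 11083194473) (nat_lit 17) (nat_lit 5) (nat_lit 18) (nat_lit 5) (nat_lit 19) (nat_lit 4) (nat_lit 313) (nat_lit 250) (nat_lit 217)) (XT.lf (nat_lit 0) (nat_lit 11916092832) (nat_lit 76) (nat_lit 944578110) (nat_lit 152) (nat_lit 7534608652) (nat_lit 17) (nat_lit 5) (nat_lit 18) (nat_lit 5) (nat_lit 19) (nat_lit 4) (nat_lit 314) (nat_lit 250) (nat_lit 216))))))) (XT.nd (nat_lit 780) (nat_lit 228) (nat_lit 0) (XT.nd (nat_lit 390) (nat_lit 228) (nat_lit 0) (XT.nd (nat_lit 156) (nat_lit 76) (nat_lit 0) (XT.nd (nat_lit 78) (nat_lit 152) (nat_lit 0) (XT.lf (nat_lit 0) (nat_lit 17360525978) (nat_lit 152) (nat_lit 370418339) (nat_lit 0) (nat_lit 3446201507) (nat_lit 17) (nat_lit 5) (nat_lit 19) (nat_lit 4) (nat_lit 17) (nat_lit 4) (nat_lit 315) (nat_lit 250) (nat_lit 215)) (XT.lf (nat_lit 0) (nat_lit 169706820) (nat_lit 152) (nat_lit 13713144848) (nat_lit 76) (nat_lit 8110955552)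 (nat_lit 15) (nat_lit 5) (nat_lit 17) (nat_lit 5) (nat_lit 16) (nat_lit 4) (nat_lit 316) (nat_lit 250) (nat_lit 214))) (XT.nd (nat_lit 78) (nat_lit 76) (nat_lit 0) (XT.lf (nat_lit 0) (nat_lit 4172740457) (nat_lit 152) (nat_lit 5646658613) (nat_lit 76) (nat_lit 13031521586) (nat_lit 15) (nat_lit 5) (nat_lit 17) (nat_lit 5) (nat_lit 16) (nat_lit 4) (nat_lit 317) (nat_lit 250) (nat_lit 213)) (XT.nd (nat_lit 78) (nat_lit 0) (nat_lit 0) (XT.lf (nat_lit 0) (nat_lit 2808117397) (nat_lit 76) (nat_lit 5553820521) (nat_lit 152) (nat_lit 15389679864) (nat_lit 14) (nat_lit 5) (nat_lit 15) (nat_lit 5) (nat_lit 16) (nat_lit 4) (nat_lit 318) (nat_lit 250) (nat_lit 212)) (XT.lf (nat_lit 0) (nat_lit 11778451744) (nat_lit 76) (nat_lit 1021084245) (nat_lit 152) (nat_lit 11895893997) (nat_lit 14) (nat_lit 5) (nat_lit 15) (nat_lit 5) (nat_lit 16) (nat_lit 4) (nat_lit 319) (nat_lit 250) (nat_lit 211)))))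 (XT.nd (nat_lit 156) (nat_lit 152) (nat_lit 0) (XT.nd (nat_lit 78) (nat_lit 76) (nat_lit 0) (XT.lf (nat_lit 0) (nat_lit 17462698513) (nat_lit 152) (nat_lit 4647833141) (nat_lit 0) (nat_lit 3575742880) (nat_lit 14) (nat_lit 5) (nat_lit 16) (nat_lit 4) (nat_lit 14) (nat_lit 4) (nat_lit 320) (nat_lit 250) (nat_lit 210)) (XT.lf (nat_lit 0) (nat_lit 4052164723) (nat_lit 76) (nat_lit 18334782396) (nat_lit 76) (nat_lit 4338342519) (nat_lit 13) (nat_lit 4) (nat_lit 14) (nat_lit 5) (nat_lit 14) (nat_lit 4) (nat_lit 321) (nat_lit 250) (nat_lit 209))) (XT.nd (nat_lit 78) (nat_lit 152) (nat_lit 0) (XT.lf (nat_lit 0) (nat_lit 13254506059) (nat_lit 76) (nat_lit 14330550574) (nat_lit 76) (nat_lit 229839988) (nat_lit 13) (nat_lit 4) (nat_lit 14) (nat_lit 5) (nat_lit 14) (nat_lit 4) (nat_lit 322) (nat_lit 250) (nat_lit 208)) (XT.nd (nat_lit 78) (nat_lit 76) (nat_lit 0) (XT.lf (nat_lit 0) (nat_lit 3903919216)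 (nat_lit 152) (nat_lit 6196981629) (nat_lit 76) (nat_lit 18857388871) (nat_lit 12) (nat_lit 5) (nat_lit 14) (nat_lit 5) (nat_lit 13) (nat_lit 4) (nat_lit 323) (nat_lit 250) (nat_lit 207)) (XT.lf (nat_lit 0) (nat_lit 2576436628) (nat_lit 76) (nat_lit 5653333741) (nat_lit 152) (nat_lit 21929257639) (nat_lit 11) (nat_lit 5) (nat_lit 12) (nat_lit 5) (nat_lit 13) (nat_lit 4) (nat_lit 324) (nat_lit 250) (nat_lit 206)))))) (XT.nd (nat_lit 390) (nat_lit 152) (nat_lit 0) (XT.nd (nat_lit 156) (nat_lit 76) (nat_lit 0) (XT.nd (nat_lit 78) (nat_lit 0) (nat_lit 0) (XT.lf (nat_lit 0) (nat_lit 11918216583) (nat_lit 76) (nat_lit 912457647) (nat_lit 152) (nat_lit 18586210350) (nat_lit 11) (nat_lit 5) (nat_lit 12) (nat_lit 5) (nat_lit 13) (nat_lit 4) (nat_lit 325) (nat_lit 250) (nat_lit 205)) (XT.lf (nat_lit 0) (nat_lit 17680523418) (nat_lit 152) (nat_lit 11157040931) (nat_lit 0) (nat_lit 3899143076) (nat_lit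 11) (nat_lit 5) (nat_lit 13) (nat_lit 4) (nat_lit 11) (nat_lit 4) (nat_lit 326) (nat_lit 250) (nat_lit 204))) (XT.nd (nat_lit 78) (nat_lit 76) (nat_lit 0) (XT.lf (nat_lit 0) (nat_lit 22745372793) (nat_lit 152) (nat_lit 2492356761) (nat_lit 0) (nat_lit 8886184042) (nat_lit 11) (nat_lit 5) (nat_lit 13) (nat_lit 4) (nat_lit 11) (nat_lit 4) (nat_lit 327) (nat_lit 250) (nat_lit 203)) (XT.nd (nat_lit 78) (nat_lit 0) (nat_lit 0) (XT.lf (nat_lit 0) (nat_lit 6746180642) (nat_lit 76) (nat_lit 21382181643) (nat_lit 76) (nat_lit 7448889645) (nat_lit 10) (nat_lit 4) (nat_lit 11) (nat_lit 5) (nat_lit 11) (nat_lit 4) (nat_lit 328) (nat_lit 250) (nat_lit 202)) (XT.lf (nat_lit 0) (nat_lit 16459087561) (nat_lit 76) (nat_lit 17323962322) (nat_lit 76) (nat_lit 3320095804) (nat_lit 10) (nat_lit 4) (nat_lit 11) (nat_lit 5) (nat_lit 11) (nat_lit 4) (nat_lit 329) (nat_lit 250) (nat_lit 201))))) (XT.nd (nat_lit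 234) (nat_lit 0) (nat_lit 0) (XT.nd (nat_lit 78) (nat_lit 76) (nat_lit 0) (XT.lf (nat_lit 0) (nat_lit 944241040) (nat_lit 152) (nat_lit 12135386214) (nat_lit 76) (nat_lit 25626849174) (nat_lit 9) (nat_lit 5) (nat_lit 11) (nat_lit 5) (nat_lit 10) (nat_lit 4) (nat_lit 330) (nat_lit 250) (nat_lit 200)) (XT.nd (nat_lit 78) (nat_lit 76) (nat_lit 0) (XT.lf (nat_lit 0) (nat_lit 5273640649) (nat_lit 152) (nat_lit 3324130186) (nat_lit 76) (nat_lit 31791324104) (nat_lit 9) (nat_lit 5) (nat_lit 11) (nat_lit 5) (nat_lit 10) (nat_lit 4) (nat_lit 331) (nat_lit 250) (nat_lit 199)) (XT.lf (nat_lit 0) (nat_lit 6056366697) (nat_lit 76) (nat_lit 3822865077) (nat_lit 152) (nat_lit 32273639636) (nat_lit 8) (nat_lit 5) (nat_lit 9) (nat_lit 5) (nat_lit 10) (nat_lit 4) (nat_lit 332) (nat_lit 250) (nat_lit 198)))) (XT.nd (nat_lit 78) (nat_lit 0) (nat_lit 0) (XT.lf (nat_lit 0) (nat_lit 14756267755) (nat_lit 152)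 (nat_lit 28065608059) (nat_lit 0) (nat_lit 1180915114) (nat_lit 8) (nat_lit 5) (nat_lit 10) (nat_lit 4) (nat_lit 8) (nat_lit 4) (nat_lit 333) (nat_lit 250) (nat_lit 197)) (XT.nd (nat_lit 78) (nat_lit 0) (nat_lit 0) (XT.lf (nat_lit 0) (nat_lit 19906830368) (nat_lit 152) (nat_lit 19758090273) (nat_lit 0) (nat_lit 6278813932) (nat_lit 8) (nat_lit 5) (nat_lit 10) (nat_lit 4) (nat_lit 8) (nat_lit 4) (nat_lit 334) (nat_lit 250) (nat_lit 196)) (XT.lf (nat_lit 0) (nat_lit 25283497218) (nat_lit 152) (nat_lit 11094485915) (nat_lit 0) (nat_lit 11605324789) (nat_lit 8) (nat_lit 5) (nat_lit 10) (nat_lit 4) (nat_lit 8) (nat_lit 4) (nat_lit 335) (nat_lit 250) (nat_lit 195))))))))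
noncomputable def xc78 : XT := (XT.nd (nat_lit 1560) (nat_lit 152) (nat_lit 0) (XT.nd (nat_lit 780) (nat_lit 76) (nat_lit 0) (XT.nd (nat_lit 390) (nat_lit 152) (nat_lit 0) (XT.nd (nat_lit 156) (nat_lit 0) (nat_lit 0) (XT.nd (nat_lit 78) (nat_lit 76) (nat_lit 0) (XT.lf (nat_lit 0) (nat_lit 30899069895) (nat_lit 152) (nat_lit 2054167356) (nat_lit 0) (nat_lit 17173129853) (nat_lit 8) (nat_lit 5) (nat_lit 10) (nat_lit 4) (nat_lit 8) (nat_lit 4) (nat_lit 336) (nat_lit 250) (nat_lit 194)) (XT.lf (nat_lit 0) (nat_lit 7628551254) (nat_lit 76) (nat_lit 29257470619) (nat_lit 76) (nat_lit 15486037611) (nat_lit 7) (nat_lit 4) (nat_lit 8) (nat_lit 5) (nat_lit 8) (nat_lit 4) (nat_lit 337) (nat_lit 250) (nat_lit 193))) (XT.nd (nat_lit 78) (nat_lit 0) (nat_lit 0) (XT.lf (nat_lit 0) (nat_lit 17813812063) (nat_lit 76) (nat_lit 25365326495) (nat_lit 76) (nat_lit 11550566854) (nat_lit 7) (nat_lit 4) (nat_lit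 8) (nat_lit 5) (nat_lit 8) (nat_lit 4) (nat_lit 338) (nat_lit 250) (nat_lit 192)) (XT.nd (nat_lit 78) (nat_lit 0) (nat_lit 0) (XT.lf (nat_lit 0) (nat_lit 28457945641) (nat_lit 76) (nat_lit 21302326189) (nat_lit 76) (nat_lit 7446303088) (nat_lit 7) (nat_lit 4) (nat_lit 8) (nat_lit 5) (nat_lit 8) (nat_lit 4) (nat_lit 339) (nat_lit 250) (nat_lit 191)) (XT.lf (nat_lit 0) (nat_lit 39586295163) (nat_lit 76) (nat_lit 17058795891) (nat_lit 76) (nat_lit 3163474256) (nat_lit 7) (nat_lit 4) (nat_lit 8) (nat_lit 5) (nat_lit 8) (nat_lit 4) (nat_lit 340) (nat_lit 250) (nat_lit 190))))) (XT.nd (nat_lit 156) (nat_lit 76) (nat_lit 0) (XT.nd (nat_lit 78) (nat_lit 0) (nat_lit 0) (XT.lf (nat_lit 0) (nat_lit 1266248944) (nat_lit 152) (nat_lit 11336938473) (nat_lit 76) (nat_lit 49937663217) (nat_lit 6) (nat_lit 5) (nat_lit 8) (nat_lit 5) (nat_lit 7) (nat_lit 4) (nat_lit 341) (nat_lit 250) (nat_lit 189)) (XT.lf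 (nat_lit 0) (nat_lit 5787747805) (nat_lit 152) (nat_lit 2103510737) (nat_lit 76) (nat_lit 57517076189) (nat_lit 6) (nat_lit 5) (nat_lit 8) (nat_lit 5) (nat_lit 7) (nat_lit 4) (nat_lit 342) (nat_lit 250) (nat_lit 188))) (XT.nd (nat_lit 78) (nat_lit 0) (nat_lit 0) (XT.lf (nat_lit 0) (nat_lit 7799004975) (nat_lit 76) (nat_lit 2835798080) (nat_lit 152) (nat_lit 57779423206) (nat_lit 5) (nat_lit 5) (nat_lit 6) (nat_lit 5) (nat_lit 7) (nat_lit 4) (nat_lit 343) (nat_lit 250) (nat_lit 187)) (XT.nd (nat_lit 78) (nat_lit 0) (nat_lit 0) (XT.lf (nat_lit 0) (nat_lit 15776843875) (nat_lit 152) (nat_lit 53380454493) (nat_lit 0) (nat_lit 2410489313) (nat_lit 5) (nat_lit 5) (nat_lit 7) (nat_lit 4) (nat_lit 5) (nat_lit 4) (nat_lit 344) (nat_lit 250) (nat_lit 186)) (XT.lf (nat_lit 0) (nat_lit 21201354456) (nat_lit 152) (nat_lit 45870736230) (nat_lit 0) (nat_lit 7805674723) (nat_lit 5) (nat_lit 5) (nat_lit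 7) (nat_lit 4) (nat_lit 5) (nat_lit 4) (nat_lit 345) (nat_lit 250) (nat_lit 185)))))) (XT.nd (nat_lit 390) (nat_lit 76) (nat_lit 0) (XT.nd (nat_lit 156) (nat_lit 0) (nat_lit 0) (XT.nd (nat_lit 78) (nat_lit 0) (nat_lit 0) (XT.lf (nat_lit 0) (nat_lit 26876975545) (nat_lit 152) (nat_lit 38023911459) (nat_lit 0) (nat_lit 13453367078) (nat_lit 5) (nat_lit 5) (nat_lit 7) (nat_lit 4) (nat_lit 5) (nat_lit 4) (nat_lit 346) (nat_lit 250) (nat_lit 184)) (XT.lf (nat_lit 0) (nat_lit 32817220525) (nat_lit 152) (nat_lit 29821297265) (nat_lit 0) (nat_lit 19367013264) (nat_lit 5) (nat_lit 5) (nat_lit 7) (nat_lit 4) (nat_lit 5) (nat_lit 4) (nat_lit 347) (nat_lit 250) (nat_lit 183))) (XT.nd (nat_lit 78) (nat_lit 0) (nat_lit 0) (XT.lf (nat_lit 0) (nat_lit 39036232837) (nat_lit 152) (nat_lit 21243363614) (nat_lit 0) (nat_lit 25560693390) (nat_lit 5) (nat_lit 5) (nat_lit 7) (nat_lit 4) (nat_lit 5) (nat_lit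 4) (nat_lit 348) (nat_lit 250) (nat_lit 182)) (XT.nd (nat_lit 78) (nat_lit 0) (nat_lit 0) (XT.lf (nat_lit 0) (nat_lit 45548819652) (nat_lit 152) (nat_lit 12269686854) (nat_lit 0) (nat_lit 32049154315) (nat_lit 5) (nat_lit 5) (nat_lit 7) (nat_lit 4) (nat_lit 5) (nat_lit 4) (nat_lit 349) (nat_lit 250) (nat_lit 181)) (XT.lf (nat_lit 0) (nat_lit 52370487131) (nat_lit 152) (nat_lit 2878901088) (nat_lit 0) (nat_lit 38847844755) (nat_lit 5) (nat_lit 5) (nat_lit 7) (nat_lit 4) (nat_lit 5) (nat_lit 4) (nat_lit 350) (nat_lit 250) (nat_lit 180))))) (XT.nd (nat_lit 156) (nat_lit 0) (nat_lit 0) (XT.nd (nat_lit 78) (nat_lit 0) (nat_lit 0) (XT.lf (nat_lit 0) (nat_lit 7181195810) (nat_lit 76) (nat_lit 52448400119) (nat_lit 76) (nat_lit 38903874849) (nat_lit 4) (nat_lit 4) (nat_lit 5) (nat_lit 5) (nat_lit 5) (nat_lit 4) (nat_lit 351) (nat_lit 250) (nat_lit 179)) (XT.lf (nat_lit 0) (nat_lit 17814660251)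 (nat_lit 76) (nat_lit 49470283437) (nat_lit 76) (nat_lit 35904917315) (nat_lit 4) (nat_lit 4) (nat_lit 5) (nat_lit 5) (nat_lit 5) (nat_lit 4) (nat_lit 352) (nat_lit 250) (nat_lit 178))) (XT.nd (nat_lit 78) (nat_lit 0) (nat_lit 0) (XT.lf (nat_lit 0) (nat_lit 28951620534) (nat_lit 76) (nat_lit 46356703002) (nat_lit 76) (nat_lit 32771488451) (nat_lit 4) (nat_lit 4) (nat_lit 5) (nat_lit 5) (nat_lit 5) (nat_lit 4) (nat_lit 353) (nat_lit 250) (nat_lit 177)) (XT.nd (nat_lit 78) (nat_lit 0) (nat_lit 0) (XT.lf (nat_lit 0) (nat_lit 40618593232) (nat_lit 76) (nat_lit 43100245528) (nat_lit 76) (nat_lit 29496127710) (nat_lit 4) (nat_lit 4) (nat_lit 5) (nat_lit 5) (nat_lit 5) (nat_lit 4) (nat_lit 354) (nat_lit 250) (nat_lit 176)) (XT.lf (nat_lit 0) (nat_lit 52843356851) (nat_lit 76) (nat_lit 39693157544) (nat_lit 76) (nat_lit 26071036615) (nat_lit 4) (nat_lit 4) (nat_lit 5) (nat_lit 5) (nat_lit 5)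 (nat_lit 4) (nat_lit 355) (nat_lit 250) (nat_lit 175))))))) (XT.nd (nat_lit 780) (nat_lit 0) (nat_lit 0) (XT.nd (nat_lit 390) (nat_lit 152) (nat_lit 0) (XT.nd (nat_lit 156) (nat_lit 0) (nat_lit 0) (XT.nd (nat_lit 78) (nat_lit 0) (nat_lit 0) (XT.lf (nat_lit 0) (nat_lit 65655017972) (nat_lit 76) (nat_lit 36127326936) (nat_lit 76) (nat_lit 22488060187) (nat_lit 4) (nat_lit 4) (nat_lit 5) (nat_lit 5) (nat_lit 5) (nat_lit 4) (nat_lit 356) (nat_lit 250) (nat_lit 174)) (XT.lf (nat_lit 0) (nat_lit 79084080549) (nat_lit 76) (nat_lit 32394263631) (nat_lit 76) (nat_lit 18738667530) (nat_lit 4) (nat_lit 4) (nat_lit 5) (nat_lit 5) (nat_lit 5) (nat_lit 4) (nat_lit 357) (nat_lit 250) (nat_lit 173))) (XT.nd (nat_lit 78) (nat_lit 0) (nat_lit 0) (XT.lf (nat_lit 0) (nat_lit 93162518540) (nat_lit 76) (nat_lit 28485079384) (nat_lit 76) (nat_lit 14813931518) (nat_lit 4) (nat_lit 4) (nat_lit 5) (nat_lit 5)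 (nat_lit 5) (nat_lit 4) (nat_lit 358) (nat_lit 250) (nat_lit 172)) (XT.nd (nat_lit 78) (nat_lit 0) (nat_lit 0) (XT.lf (nat_lit 0) (nat_lit 107923852038) (nat_lit 76) (nat_lit 24390466612) (nat_lit 76) (nat_lit 10704507542) (nat_lit 4) (nat_lit 4) (nat_lit 5) (nat_lit 5) (nat_lit 5) (nat_lit 4) (nat_lit 359) (nat_lit 250) (nat_lit 171)) (XT.lf (nat_lit 0) (nat_lit 123403227072) (nat_lit 76) (nat_lit 20100676237) (nat_lit 76) (nat_lit 6400611259) (nat_lit 4) (nat_lit 4) (nat_lit 5) (nat_lit 5) (nat_lit 5) (nat_lit 4) (nat_lit 360) (nat_lit 250) (nat_lit 170))))) (XT.nd (nat_lit 156) (nat_lit 76) (nat_lit 0) (XT.nd (nat_lit 78) (nat_lit 76) (nat_lit 0) (XT.lf (nat_lit 0) (nat_lit 139637499299) (nat_lit 76) (nat_lit 15605494474) (nat_lit 76) (nat_lit 1891995297) (nat_lit 4) (nat_lit 4) (nat_lit 5) (nat_lit 5) (nat_lit 5) (nat_lit 4) (nat_lit 361) (nat_lit 250) (nat_lit 169)) (XT.lf (nat_lit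 0) (nat_lit 2741431051) (nat_lit 152) (nat_lit 8106359995) (nat_lit 76) (nat_lit 153877463234) (nat_lit 3) (nat_lit 5) (nat_lit 5) (nat_lit 5) (nat_lit 4) (nat_lit 4) (nat_lit 362) (nat_lit 250) (nat_lit 168))) (XT.nd (nat_lit 78) (nat_lit 0) (nat_lit 0) (XT.lf (nat_lit 0) (nat_lit 1762103069) (nat_lit 76) (nat_lit 5799156411) (nat_lit 152) (nat_lit 165131309365) (nat_lit 2) (nat_lit 5) (nat_lit 3) (nat_lit 5) (nat_lit 4) (nat_lit 4) (nat_lit 363) (nat_lit 250) (nat_lit 167)) (XT.nd (nat_lit 78) (nat_lit 0) (nat_lit 0) (XT.lf (nat_lit 0) (nat_lit 12388102570) (nat_lit 76) (nat_lit 362232260) (nat_lit 152) (nat_lit 168301504030) (nat_lit 2) (nat_lit 5) (nat_lit 3) (nat_lit 5) (nat_lit 4) (nat_lit 4) (nat_lit 364) (nat_lit 250) (nat_lit 166)) (XT.lf (nat_lit 0) (nat_lit 18273615452) (nat_lit 152) (nat_lit 166383950253) (nat_lit 0) (nat_lit 5167771471) (nat_lit 2) (nat_lit 5) (nat_lit 4)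 (nat_lit 4) (nat_lit 2) (nat_lit 4) (nat_lit 365) (nat_lit 250) (nat_lit 165)))))) (XT.nd (nat_lit 390) (nat_lit 0) (nat_lit 0) (XT.nd (nat_lit 156) (nat_lit 0) (nat_lit 0) (XT.nd (nat_lit 78) (nat_lit 0) (nat_lit 0) (XT.lf (nat_lit 0) (nat_lit 24070690779) (nat_lit 152) (nat_lit 164012118368) (nat_lit 0) (nat_lit 10954821992) (nat_lit 2) (nat_lit 5) (nat_lit 4) (nat_lit 4) (nat_lit 2) (nat_lit 4) (nat_lit 366) (nat_lit 250) (nat_lit 164)) (XT.lf (nat_lit 0) (nat_lit 30149707910) (nat_lit 152) (nat_lit 161536937955) (nat_lit 0) (nat_lit 17024291689) (nat_lit 2) (nat_lit 5) (nat_lit 4) (nat_lit 4) (nat_lit 2) (nat_lit 4) (nat_lit 367) (nat_lit 250) (nat_lit 163))) (XT.nd (nat_lit 78) (nat_lit 0) (nat_lit 0) (XT.lf (nat_lit 0) (nat_lit 36525140696) (nat_lit 152) (nat_lit 158952515728) (nat_lit 0) (nat_lit 23390631680) (nat_lit 2) (nat_lit 5) (nat_lit 4) (nat_lit 4) (nat_lit 2) (nat_lit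 4) (nat_lit 368) (nat_lit 250) (nat_lit 162)) (XT.nd (nat_lit 78) (nat_lit 0) (nat_lit 0) (XT.lf (nat_lit 0) (nat_lit 43212168738) (nat_lit 152) (nat_lit 156252698299) (nat_lit 0) (nat_lit 30068999918) (nat_lit 2) (nat_lit 5) (nat_lit 4) (nat_lit 4) (nat_lit 2) (nat_lit 4) (nat_lit 369) (nat_lit 250) (nat_lit 161)) (XT.lf (nat_lit 0) (nat_lit 50226713532) (nat_lit 152) (nat_lit 153431057533) (nat_lit 0) (nat_lit 37075297279) (nat_lit 2) (nat_lit 5) (nat_lit 4) (nat_lit 4) (nat_lit 2) (nat_lit 4) (nat_lit 370) (nat_lit 250) (nat_lit 160))))) (XT.nd (nat_lit 234) (nat_lit 0) (nat_lit 0) (XT.nd (nat_lit 78) (nat_lit 0) (nat_lit 0) (XT.lf (nat_lit 0) (nat_lit 57585476375) (nat_lit 152) (nat_lit 150480875238) (nat_lit 0) (nat_lit 44426205425) (nat_lit 2) (nat_lit 5) (nat_lit 4) (nat_lit 4) (nat_lit 2) (nat_lit 4) (nat_lit 371) (nat_lit 250) (nat_lit 159)) (XT.nd (nat_lit 78) (nat_lit 0) (nat_lit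 0) (XT.lf (nat_lit 0) (nat_lit 65305978131) (nat_lit 152) (nat_lit 147395127168) (nat_lit 0) (nat_lit 52139226516) (nat_lit 2) (nat_lit 5) (nat_lit 4) (nat_lit 4) (nat_lit 2) (nat_lit 4) (nat_lit 372) (nat_lit 250) (nat_lit 158)) (XT.lf (nat_lit 0) (nat_lit 73406600947) (nat_lit 152) (nat_lit 144166466306) (nat_lit 0) (nat_lit 60232724890) (nat_lit 2) (nat_lit 5) (nat_lit 4) (nat_lit 4) (nat_lit 2) (nat_lit 4) (nat_lit 373) (nat_lit 250) (nat_lit 157)))) (XT.nd (nat_lit 78) (nat_lit 0) (nat_lit 0) (XT.lf (nat_lit 0) (nat_lit 81906632020) (nat_lit 152) (nat_lit 140787205364) (nat_lit 0) (nat_lit 68725970779) (nat_lit 2) (nat_lit 5) (nat_lit 4) (nat_lit 4) (nat_lit 2) (nat_lit 4) (nat_lit 374) (nat_lit 250) (nat_lit 156)) (XT.nd (nat_lit 78) (nat_lit 0) (nat_lit 0) (XT.lf (nat_lit 0) (nat_lit 90826309519) (nat_lit 152) (nat_lit 137249298482) (nat_lit 0) (nat_lit 77639186199) (nat_lit 2)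 (nat_lit 5) (nat_lit 4) (nat_lit 4) (nat_lit 2) (nat_lit 4) (nat_lit 375) (nat_lit 250) (nat_lit 155)) (XT.lf (nat_lit 0) (nat_lit 100186870772) (nat_lit 152) (nat_lit 133544322072) (nat_lit 0) (nat_lit 86993593091) (nat_lit 2) (nat_lit 5) (nat_lit 4) (nat_lit 4) (nat_lit 2) (nat_lit 4) (nat_lit 376) (nat_lit 250) (nat_lit 154))))))))
noncomputable def xc79 : XT := (XT.nd (nat_lit 33462) (nat_lit 0) (nat_lit 1748) (XT.nd (nat_lit 780) (nat_lit 0) (nat_lit 0) (XT.nd (nat_lit 390) (nat_lit 0) (nat_lit 0) (XT.nd (nat_lit 156) (nat_lit 0) (nat_lit 0) (XT.nd (nat_lit 78) (nat_lit 0) (nat_lit 0) (XT.lf (nat_lit 0) (nat_lit 110010602829) (nat_lit 152) (nat_lit 129663454762) (nat_lit 0) (nat_lit 96811463851) (nat_lit 2) (nat_lit 5) (nat_lit 4) (nat_lit 4) (nat_lit 2) (nat_lit 4) (nat_lit 377) (nat_lit 250) (nat_lit 153)) (XT.lf (nat_lit 0) (nat_lit 120320895528) (nat_lit 152) (nat_lit 125597456392)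 (nat_lit 0) (nat_lit 107116174364) (nat_lit 2) (nat_lit 5) (nat_lit 4) (nat_lit 4) (nat_lit 2) (nat_lit 4) (nat_lit 378) (nat_lit 250) (nat_lit 152))) (XT.nd (nat_lit 78) (nat_lit 0) (nat_lit 0) (XT.lf (nat_lit 0) (nat_lit 131142297186) (nat_lit 152) (nat_lit 121336646013) (nat_lit 0) (nat_lit 117932259653) (nat_lit 2) (nat_lit 5) (nat_lit 4) (nat_lit 4) (nat_lit 2) (nat_lit 4) (nat_lit 379) (nat_lit 250) (nat_lit 151)) (XT.nd (nat_lit 78) (nat_lit 0) (nat_lit 0) (XT.lf (nat_lit 0) (nat_lit 142500573045) (nat_lit 152) (nat_lit 116870878839) (nat_lit 0) (nat_lit 129285472304) (nat_lit 2) (nat_lit 5) (nat_lit 4) (nat_lit 4) (nat_lit 2) (nat_lit 4) (nat_lit 380) (nat_lit 250) (nat_lit 150)) (XT.lf (nat_lit 0) (nat_lit 154422766618) (nat_lit 152) (nat_lit 112189522090) (nat_lit 0) (nat_lit 141202843774) (nat_lit 2) (nat_lit 5) (nat_lit 4) (nat_lit 4) (nat_lit 2) (nat_lit 4) (nat_lit 381)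 (nat_lit 250) (nat_lit 149))))) (XT.nd (nat_lit 156) (nat_lit 0) (nat_lit 0) (XT.nd (nat_lit 78) (nat_lit 0) (nat_lit 0) (XT.lf (nat_lit 0) (nat_lit 166937264081) (nat_lit 152) (nat_lit 107281429679) (nat_lit 0) (nat_lit 153712748757) (nat_lit 2) (nat_lit 5) (nat_lit 4) (nat_lit 4) (nat_lit 2) (nat_lit 4) (nat_lit 382) (nat_lit 250) (nat_lit 148)) (XT.lf (nat_lit 0) (nat_lit 180073861855) (nat_lit 152) (nat_lit 102134915672) (nat_lit 0) (nat_lit 166844972742) (nat_lit 2) (nat_lit 5) (nat_lit 4) (nat_lit 4) (nat_lit 2) (nat_lit 4) (nat_lit 383) (nat_lit 250) (nat_lit 147))) (XT.nd (nat_lit 78) (nat_lit 0) (nat_lit 0) (XT.lf (nat_lit 0) (nat_lit 193863837556) (nat_lit 152) (nat_lit 96737726465) (nat_lit 0) (nat_lit 180630782929) (nat_lit 2) (nat_lit 5) (nat_lit 4) (nat_lit 4) (nat_lit 2) (nat_lit 4) (nat_lit 384) (nat_lit 250) (nat_lit 146)) (XT.nd (nat_lit 78) (nat_lit 0) (nat_lit 0)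 (XT.lf (nat_lit 0) (nat_lit 208340024458) (nat_lit 152) (nat_lit 91077011605) (nat_lit 0) (nat_lit 195103002675) (nat_lit 2) (nat_lit 5) (nat_lit 4) (nat_lit 4) (nat_lit 2) (nat_lit 4) (nat_lit 385) (nat_lit 250) (nat_lit 145)) (XT.lf (nat_lit 0) (nat_lit 223536889673) (nat_lit 152) (nat_lit 85139293202) (nat_lit 0) (nat_lit 210296089646) (nat_lit 2) (nat_lit 5) (nat_lit 4) (nat_lit 4) (nat_lit 2) (nat_lit 4) (nat_lit 386) (nat_lit 250) (nat_lit 144)))))) (XT.nd (nat_lit 32214) (nat_lit 0) (nat_lit 4560) (XT.nd (nat_lit 156) (nat_lit 0) (nat_lit 0) (XT.nd (nat_lit 78) (nat_lit 0) (nat_lit 0) (XT.lf (nat_lit 0) (nat_lit 239490616214) (nat_lit 152) (nat_lit 78910433830) (nat_lit 0) (nat_lit 226246217859) (nat_lit 2) (nat_lit 5) (nat_lit 4) (nat_lit 4) (nat_lit 2) (nat_lit 4) (nat_lit 387) (nat_lit 250) (nat_lit 143)) (XT.lf (nat_lit 0) (nat_lit 256239189143) (nat_lit 152) (nat_lit 72375602871)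 (nat_lit 0) (nat_lit 242991363810) (nat_lit 2) (nat_lit 5) (nat_lit 4) (nat_lit 4) (nat_lit 2) (nat_lit 4) (nat_lit 388) (nat_lit 250) (nat_lit 142))) (XT.nd (nat_lit 78) (nat_lit 0) (nat_lit 0) (XT.lf (nat_lit 0) (nat_lit 273822486015) (nat_lit 152) (nat_lit 65519241205) (nat_lit 0) (nat_lit 260571396893) (nat_lit 2) (nat_lit 5) (nat_lit 4) (nat_lit 4) (nat_lit 2) (nat_lit 4) (nat_lit 389) (nat_lit 250) (nat_lit 141)) (XT.nd (nat_lit 31902) (nat_lit 0) (nat_lit 6308) (XT.lf (nat_lit 0) (nat_lit 292282371824) (nat_lit 152) (nat_lit 58325024161) (nat_lit 0) (nat_lit 279028174331) (nat_lit 2) (nat_lit 5) (nat_lit 4) (nat_lit 4) (nat_lit 2) (nat_lit 4) (nat_lit 390) (nat_lit 250) (nat_lit 140)) (XT.lf (nat_lit 0) (nat_lit 1591926815) (nat_lit 608) (nat_lit 541115409) (nat_lit 0) (nat_lit 1591926815) (nat_lit 85) (nat_lit 5) (nat_lit 93) (nat_lit 4) (nat_lit 85) (nat_lit 4) (nat_lit 278)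 (nat_lit 251) (nat_lit 251))))) (XT.nd (nat_lit 234) (nat_lit 988) (nat_lit 0) (XT.nd (nat_lit 78) (nat_lit 380) (nat_lit 0) (XT.lf (nat_lit 0) (nat_lit 4295435087) (nat_lit 380) (nat_lit 2364169708) (nat_lit 380) (nat_lit 910771980) (nat_lit 80) (nat_lit 4) (nat_lit 85) (nat_lit 5) (nat_lit 85) (nat_lit 4) (nat_lit 279) (nat_lit 251) (nat_lit 250)) (XT.nd (nat_lit 78) (nat_lit 0) (nat_lit 0) (XT.lf (nat_lit 0) (nat_lit 2133142042) (nat_lit 304) (nat_lit 291603363) (nat_lit 380) (nat_lit 5275547973) (nat_lit 75) (nat_lit 5) (nat_lit 79) (nat_lit 5) (nat_lit 80) (nat_lit 4) (nat_lit 280) (nat_lit 251) (nat_lit 249)) (XT.lf (nat_lit 0) (nat_lit 5830667750) (nat_lit 380) (nat_lit 136157962) (nat_lit 0) (nat_lit 1872705251) (nat_lit 75) (nat_lit 5) (nat_lit 80) (nat_lit 4) (nat_lit 75) (nat_lit 4) (nat_lit 281) (nat_lit 251) (nat_lit 248)))) (XT.nd (nat_lit 78) (nat_lit 608) (nat_lit 0)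 (XT.lf (nat_lit 0) (nat_lit 1321887193) (nat_lit 380) (nat_lit 2443807660) (nat_lit 76) (nat_lit 4221872475) (nat_lit 70) (nat_lit 5) (nat_lit 75) (nat_lit 5) (nat_lit 71) (nat_lit 4) (nat_lit 282) (nat_lit 251) (nat_lit 247)) (XT.nd (nat_lit 78) (nat_lit 304) (nat_lit 0) (XT.lf (nat_lit 0) (nat_lit 3265277200) (nat_lit 304) (nat_lit 1397029510) (nat_lit 380) (nat_lit 3483764991) (nat_lit 66) (nat_lit 5) (nat_lit 70) (nat_lit 5) (nat_lit 71) (nat_lit 4) (nat_lit 283) (nat_lit 251) (nat_lit 246)) (XT.lf (nat_lit 0) (nat_lit 864640827) (nat_lit 304) (nat_lit 7238567165) (nat_lit 304) (nat_lit 212853528) (nat_lit 62) (nat_lit 4) (nat_lit 66) (nat_lit 5) (nat_lit 66) (nat_lit 4) (nat_lit 284) (nat_lit 251) (nat_lit 245))))))) (XT.nd (nat_lit 780) (nat_lit 1216) (nat_lit 0) (XT.nd (nat_lit 390) (nat_lit 760) (nat_lit 0) (XT.nd (nat_lit 156) (nat_lit 532) (nat_lit 0) (XT.nd (nat_lit 78) (nat_lit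 228) (nat_lit 0) (XT.lf (nat_lit 0) (nat_lit 3087718899) (nat_lit 380) (nat_lit 1679606684) (nat_lit 76) (nat_lit 3726460572) (nat_lit 61) (nat_lit 5) (nat_lit 66) (nat_lit 5) (nat_lit 62) (nat_lit 4) (nat_lit 285) (nat_lit 251) (nat_lit 244)) (XT.lf (nat_lit 0) (nat_lit 4343537100) (nat_lit 228) (nat_lit 2139312003) (nat_lit 304) (nat_lit 2200740830) (nat_lit 58) (nat_lit 5) (nat_lit 61) (nat_lit 5) (nat_lit 62) (nat_lit 4) (nat_lit 286) (nat_lit 251) (nat_lit 243))) (XT.nd (nat_lit 78) (nat_lit 228) (nat_lit 0) (XT.lf (nat_lit 0) (nat_lit 1063492834) (nat_lit 304) (nat_lit 7189900345) (nat_lit 76) (nat_lit 631967987) (nat_lit 54) (nat_lit 5) (nat_lit 58) (nat_lit 5) (nat_lit 55) (nat_lit 4) (nat_lit 287) (nat_lit 251) (nat_lit 242)) (XT.nd (nat_lit 78) (nat_lit 228) (nat_lit 0) (XT.lf (nat_lit 0) (nat_lit 4399730187) (nat_lit 304) (nat_lit 1159920012) (nat_lit 76) (nat_lit 3536803379)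 (nat_lit 54) (nat_lit 5) (nat_lit 58) (nat_lit 5) (nat_lit 55) (nat_lit 4) (nat_lit 288) (nat_lit 251) (nat_lit 241)) (XT.lf (nat_lit 0) (nat_lit 5167968755) (nat_lit 228) (nat_lit 2694520755) (nat_lit 304) (nat_lit 1457791370) (nat_lit 51) (nat_lit 5) (nat_lit 54) (nat_lit 5) (nat_lit 55) (nat_lit 4) (nat_lit 289) (nat_lit 251) (nat_lit 240))))) (XT.nd (nat_lit 156) (nat_lit 456) (nat_lit 0) (XT.nd (nat_lit 78) (nat_lit 0) (nat_lit 0) (XT.lf (nat_lit 0) (nat_lit 1820282723) (nat_lit 304) (nat_lit 7396229327) (nat_lit 76) (nat_lit 340451691) (nat_lit 47) (nat_lit 5) (nat_lit 51) (nat_lit 5) (nat_lit 48) (nat_lit 4) (nat_lit 290) (nat_lit 251) (nat_lit 239)) (XT.lf (nat_lit 0) (nat_lit 5211318476) (nat_lit 304) (nat_lit 1110424280) (nat_lit 76) (nat_lit 3482783819) (nat_lit 47) (nat_lit 5) (nat_lit 51) (nat_lit 5) (nat_lit 48) (nat_lit 4) (nat_lit 291) (nat_lit 251) (nat_lit 238))) (XT.nd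 (nat_lit 78) (nat_lit 304) (nat_lit 0) (XT.lf (nat_lit 0) (nat_lit 5501143599) (nat_lit 152) (nat_lit 3244653166) (nat_lit 228) (nat_lit 1320112632) (nat_lit 45) (nat_lit 5) (nat_lit 47) (nat_lit 5) (nat_lit 48) (nat_lit 4) (nat_lit 292) (nat_lit 251) (nat_lit 237)) (XT.nd (nat_lit 78) (nat_lit 0) (nat_lit 0) (XT.lf (nat_lit 0) (nat_lit 1988543233) (nat_lit 304) (nat_lit 8334587844) (nat_lit 76) (nat_lit 18719096) (nat_lit 41) (nat_lit 5) (nat_lit 45) (nat_lit 5) (nat_lit 42) (nat_lit 4) (nat_lit 293) (nat_lit 251) (nat_lit 236)) (XT.lf (nat_lit 0) (nat_lit 5440814700) (nat_lit 304) (nat_lit 1805201656) (nat_lit 76) (nat_lit 3383480025) (nat_lit 41) (nat_lit 5) (nat_lit 45) (nat_lit 5) (nat_lit 42) (nat_lit 4) (nat_lit 294) (nat_lit 251) (nat_lit 235)))))) (XT.nd (nat_lit 390) (nat_lit 608) (nat_lit 0) (XT.nd (nat_lit 156) (nat_lit 228) (nat_lit 0) (XT.nd (nat_lit 78) (nat_lit 228) (nat_lit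 0) (XT.lf (nat_lit 0) (nat_lit 5052607233) (nat_lit 152) (nat_lit 3987961079) (nat_lit 228) (nat_lit 1892325362) (nat_lit 39) (nat_lit 5) (nat_lit 41) (nat_lit 5) (nat_lit 42) (nat_lit 4) (nat_lit 295) (nat_lit 251) (nat_lit 234)) (XT.lf (nat_lit 0) (nat_lit 909458247) (nat_lit 152) (nat_lit 551164536) (nat_lit 228) (nat_lit 9792615768) (nat_lit 36) (nat_lit 5) (nat_lit 38) (nat_lit 5) (nat_lit 39) (nat_lit 5) (nat_lit 296) (nat_lit 251) (nat_lit 233))) (XT.nd (nat_lit 78) (nat_lit 228) (nat_lit 0) (XT.lf (nat_lit 0) (nat_lit 4964847783) (nat_lit 228) (nat_lit 3584525120) (nat_lit 76) (nat_lit 3036412409) (nat_lit 36) (nat_lit 5) (nat_lit 39) (nat_lit 5) (nat_lit 37) (nat_lit 4) (nat_lit 297) (nat_lit 251) (nat_lit 232)) (XT.nd (nat_lit 78) (nat_lit 76) (nat_lit 0) (XT.lf (nat_lit 0) (nat_lit 3459768508) (nat_lit 152) (nat_lit 5150682205) (nat_lit 228) (nat_lit 3326292676) (nat_lit 34)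 (nat_lit 5) (nat_lit 36) (nat_lit 5) (nat_lit 37) (nat_lit 4) (nat_lit 298) (nat_lit 251) (nat_lit 231)) (XT.lf (nat_lit 0) (nat_lit 94241983) (nat_lit 228) (nat_lit 1479960058) (nat_lit 76) (nat_lit 10732756311) (nat_lit 33) (nat_lit 5) (nat_lit 36) (nat_lit 5) (nat_lit 34) (nat_lit 5) (nat_lit 299) (nat_lit 251) (nat_lit 230))))) (XT.nd (nat_lit 234) (nat_lit 304) (nat_lit 0) (XT.nd (nat_lit 78) (nat_lit 152) (nat_lit 0) (XT.lf (nat_lit 0) (nat_lit 3609246079) (nat_lit 228) (nat_lit 6876950524) (nat_lit 76) (nat_lit 2205079335) (nat_lit 31) (nat_lit 5) (nat_lit 34) (nat_lit 5) (nat_lit 32) (nat_lit 4) (nat_lit 300) (nat_lit 251) (nat_lit 229)) (XT.nd (nat_lit 78) (nat_lit 0) (nat_lit 0) (XT.lf (nat_lit 0) (nat_lit 264093605) (nat_lit 152) (nat_lit 7000831382) (nat_lit 228) (nat_lit 5831714133) (nat_lit 29) (nat_lit 5) (nat_lit 31) (nat_lit 5) (nat_lit 32) (nat_lit 4) (nat_lit 301)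 (nat_lit 251) (nat_lit 228)) (XT.lf (nat_lit 0) (nat_lit 7854058673) (nat_lit 152) (nat_lit 3277329009) (nat_lit 228) (nat_lit 2389555112) (nat_lit 29) (nat_lit 5) (nat_lit 31) (nat_lit 5) (nat_lit 32) (nat_lit 4) (nat_lit 302) (nat_lit 251) (nat_lit 227)))) (XT.nd (nat_lit 78) (nat_lit 76) (nat_lit 0) (XT.lf (nat_lit 0) (nat_lit 1136897775) (nat_lit 228) (nat_lit 12227031977) (nat_lit 76) (nat_lit 604072229) (nat_lit 26) (nat_lit 5) (nat_lit 29) (nat_lit 5) (nat_lit 27) (nat_lit 4) (nat_lit 303) (nat_lit 251) (nat_lit 226)) (XT.nd (nat_lit 78) (nat_lit 76) (nat_lit 0) (XT.lf (nat_lit 0) (nat_lit 4825942876) (nat_lit 228) (nat_lit 4954983816) (nat_lit 76) (nat_lit 4651262550) (nat_lit 26) (nat_lit 5) (nat_lit 29) (nat_lit 5) (nat_lit 27) (nat_lit 4) (nat_lit 304) (nat_lit 251) (nat_lit 225)) (XT.lf (nat_lit 0) (nat_lit 2627768442) (nat_lit 76) (nat_lit 6032034673) (nat_lit 152) (nat_lit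 6261824109) (nat_lit 25) (nat_lit 5) (nat_lit 26) (nat_lit 5) (nat_lit 27) (nat_lit 4) (nat_lit 305) (nat_lit 251) (nat_lit 224))))))))
noncomputable def xc80 : XT := (XT.nd (nat_lit 1560) (nat_lit 456) (nat_lit 0) (XT.nd (nat_lit 780) (nat_lit 456) (nat_lit 0) (XT.nd (nat_lit 390) (nat_lit 304) (nat_lit 0) (XT.nd (nat_lit 156) (nat_lit 76) (nat_lit 0) (XT.nd (nat_lit 78) (nat_lit 228) (nat_lit 0) (XT.lf (nat_lit 0) (nat_lit 10626890582) (nat_lit 76) (nat_lit 2063453523) (nat_lit 152) (nat_lit 2745000285) (nat_lit 25) (nat_lit 5) (nat_lit 26) (nat_lit 5) (nat_lit 27) (nat_lit 4) (nat_lit 306) (nat_lit 251) (nat_lit 223)) (XT.lf (nat_lit 0) (nat_lit 920744890) (nat_lit 228) (nat_lit 13007001288) (nat_lit 76) (nat_lit 2046142287) (nat_lit 22) (nat_lit 5) (nat_lit 25) (nat_lit 5) (nat_lit 23) (nat_lit 4) (nat_lit 307) (nat_lit 251) (nat_lit 222))) (XT.nd (nat_lit 78) (nat_lit 76) (nat_lit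 0) (XT.lf (nat_lit 0) (nat_lit 4718455187) (nat_lit 228) (nat_lit 5449305060) (nat_lit 76) (nat_lit 6367352056) (nat_lit 22) (nat_lit 5) (nat_lit 25) (nat_lit 5) (nat_lit 23) (nat_lit 4) (nat_lit 308) (nat_lit 251) (nat_lit 221)) (XT.nd (nat_lit 78) (nat_lit 0) (nat_lit 0) (XT.lf (nat_lit 0) (nat_lit 2438820339) (nat_lit 76) (nat_lit 6233243001) (nat_lit 152) (nat_lit 8454079999) (nat_lit 21) (nat_lit 5) (nat_lit 22) (nat_lit 5) (nat_lit 23) (nat_lit 4) (nat_lit 309) (nat_lit 251) (nat_lit 220)) (XT.lf (nat_lit 0) (nat_lit 10787050860) (nat_lit 76) (nat_lit 2058026818) (nat_lit 152) (nat_lit 4900606364) (nat_lit 21) (nat_lit 5) (nat_lit 22) (nat_lit 5) (nat_lit 23) (nat_lit 4) (nat_lit 310) (nat_lit 251) (nat_lit 219))))) (XT.nd (nat_lit 156) (nat_lit 76) (nat_lit 0) (XT.nd (nat_lit 78) (nat_lit 76) (nat_lit 0) (XT.lf (nat_lit 0) (nat_lit 1033015856) (nat_lit 152) (nat_lit 16178181947)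 (nat_lit 152) (nat_lit 1185823513) (nat_lit 19) (nat_lit 4) (nat_lit 21) (nat_lit 5) (nat_lit 21) (nat_lit 4) (nat_lit 311) (nat_lit 251) (nat_lit 218)) (XT.lf (nat_lit 0) (nat_lit 2713601287) (nat_lit 228) (nat_lit 9607814090) (nat_lit 76) (nat_lit 6753139724) (nat_lit 18) (nat_lit 5) (nat_lit 21) (nat_lit 5) (nat_lit 19) (nat_lit 4) (nat_lit 312) (nat_lit 251) (nat_lit 217))) (XT.nd (nat_lit 78) (nat_lit 76) (nat_lit 0) (XT.lf (nat_lit 0) (nat_lit 6703643233) (nat_lit 228) (nat_lit 1598074101) (nat_lit 76) (nat_lit 11486537921) (nat_lit 18) (nat_lit 5) (nat_lit 21) (nat_lit 5) (nat_lit 19) (nat_lit 4) (nat_lit 313) (nat_lit 251) (nat_lit 216)) (XT.nd (nat_lit 78) (nat_lit 0) (nat_lit 0) (XT.lf (nat_lit 0) (nat_lit 6924424163) (nat_lit 76) (nat_lit 4015441683) (nat_lit 152) (nat_lit 9595475431) (nat_lit 17) (nat_lit 5) (nat_lit 18) (nat_lit 5) (nat_lit 19) (nat_lit 4) (nat_lit 314)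 (nat_lit 251) (nat_lit 215)) (XT.lf (nat_lit 0) (nat_lit 15362056243) (nat_lit 152) (nat_lit 5507809795) (nat_lit 0) (nat_lit 451240863) (nat_lit 17) (nat_lit 5) (nat_lit 19) (nat_lit 4) (nat_lit 17) (nat_lit 4) (nat_lit 315) (nat_lit 251) (nat_lit 214)))))) (XT.nd (nat_lit 390) (nat_lit 228) (nat_lit 0) (XT.nd (nat_lit 156) (nat_lit 76) (nat_lit 0) (XT.nd (nat_lit 78) (nat_lit 76) (nat_lit 0) (XT.lf (nat_lit 0) (nat_lit 2923538341) (nat_lit 76) (nat_lit 17135264887) (nat_lit 76) (nat_lit 2084716784) (nat_lit 16) (nat_lit 4) (nat_lit 17) (nat_lit 5) (nat_lit 17) (nat_lit 4) (nat_lit 316) (nat_lit 251) (nat_lit 213)) (XT.lf (nat_lit 0) (nat_lit 1956830838) (nat_lit 152) (nat_lit 11172123667) (nat_lit 76) (nat_lit 9874730819) (nat_lit 15) (nat_lit 5) (nat_lit 17) (nat_lit 5) (nat_lit 16) (nat_lit 4) (nat_lit 317) (nat_lit 251) (nat_lit 212))) (XT.nd (nat_lit 78) (nat_lit 76) (nat_lit 0)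 (XT.lf (nat_lit 0) (nat_lit 6075319078) (nat_lit 152) (nat_lit 2855964475) (nat_lit 76) (nat_lit 14976647655) (nat_lit 15) (nat_lit 5) (nat_lit 17) (nat_lit 5) (nat_lit 16) (nat_lit 4) (nat_lit 318) (nat_lit 251) (nat_lit 211)) (XT.nd (nat_lit 78) (nat_lit 0) (nat_lit 0) (XT.lf (nat_lit 0) (nat_lit 5971985384) (nat_lit 76) (nat_lit 4468531859) (nat_lit 152) (nat_lit 14414858828) (nat_lit 14) (nat_lit 5) (nat_lit 15) (nat_lit 5) (nat_lit 16) (nat_lit 4) (nat_lit 319) (nat_lit 251) (nat_lit 210)) (XT.lf (nat_lit 0) (nat_lit 15024452142) (nat_lit 152) (nat_lit 10607035893) (nat_lit 0) (nat_lit 218706026) (nat_lit 14) (nat_lit 5) (nat_lit 16) (nat_lit 4) (nat_lit 14) (nat_lit 4) (nat_lit 320) (nat_lit 251) (nat_lit 209))))) (XT.nd (nat_lit 156) (nat_lit 152) (nat_lit 0) (XT.nd (nat_lit 78) (nat_lit 76) (nat_lit 0) (XT.lf (nat_lit 0) (nat_lit 19861241476) (nat_lit 152) (nat_lit 2081127488)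 (nat_lit 0) (nat_lit 4951224651) (nat_lit 14) (nat_lit 5) (nat_lit 16) (nat_lit 4) (nat_lit 14) (nat_lit 4) (nat_lit 321) (nat_lit 251) (nat_lit 208)) (XT.lf (nat_lit 0) (nat_lit 7008723539) (nat_lit 76) (nat_lit 17993337382) (nat_lit 76) (nat_lit 2984015120) (nat_lit 13) (nat_lit 4) (nat_lit 14) (nat_lit 5) (nat_lit 14) (nat_lit 4) (nat_lit 322) (nat_lit 251) (nat_lit 207))) (XT.nd (nat_lit 78) (nat_lit 76) (nat_lit 0) (XT.lf (nat_lit 0) (nat_lit 1214920607) (nat_lit 152) (nat_lit 12613311624) (nat_lit 76) (nat_lit 15304545562) (nat_lit 12) (nat_lit 5) (nat_lit 14) (nat_lit 5) (nat_lit 13) (nat_lit 4) (nat_lit 323) (nat_lit 251) (nat_lit 206)) (XT.nd (nat_lit 78) (nat_lit 76) (nat_lit 0) (XT.lf (nat_lit 0) (nat_lit 5478666095) (nat_lit 152) (nat_lit 3962706331) (nat_lit 76) (nat_lit 20895258392) (nat_lit 12) (nat_lit 5) (nat_lit 14) (nat_lit 5) (nat_lit 13) (nat_lit 4) (nat_lit 324)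 (nat_lit 251) (nat_lit 205)) (XT.lf (nat_lit 0) (nat_lit 5208348574) (nat_lit 76) (nat_lit 4785848582) (nat_lit 152) (nat_lit 21604567874) (nat_lit 11) (nat_lit 5) (nat_lit 12) (nat_lit 5) (nat_lit 13) (nat_lit 4) (nat_lit 325) (nat_lit 251) (nat_lit 204))))))) (XT.nd (nat_lit 780) (nat_lit 228) (nat_lit 0) (XT.nd (nat_lit 390) (nat_lit 152) (nat_lit 0) (XT.nd (nat_lit 156) (nat_lit 76) (nat_lit 0) (XT.nd (nat_lit 78) (nat_lit 0) (nat_lit 0) (XT.lf (nat_lit 0) (nat_lit 14762864251) (nat_lit 152) (nat_lit 18026883648) (nat_lit 0) (nat_lit 132907653) (nat_lit 11) (nat_lit 5) (nat_lit 13) (nat_lit 4) (nat_lit 11) (nat_lit 4) (nat_lit 326) (nat_lit 251) (nat_lit 203)) (XT.lf (nat_lit 0) (nat_lit 19807992095) (nat_lit 152) (nat_lit 9398931617) (nat_lit 0) (nat_lit 5103932251) (nat_lit 11) (nat_lit 5) (nat_lit 13) (nat_lit 4) (nat_lit 11) (nat_lit 4) (nat_lit 327) (nat_lit 251) (nat_lit 202)))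 (XT.nd (nat_lit 78) (nat_lit 76) (nat_lit 0) (XT.lf (nat_lit 0) (nat_lit 25066872391) (nat_lit 152) (nat_lit 411297114) (nat_lit 0) (nat_lit 10292238027) (nat_lit 11) (nat_lit 5) (nat_lit 13) (nat_lit 4) (nat_lit 11) (nat_lit 4) (nat_lit 328) (nat_lit 251) (nat_lit 201)) (XT.nd (nat_lit 78) (nat_lit 0) (nat_lit 0) (XT.lf (nat_lit 0) (nat_lit 9253591716) (nat_lit 76) (nat_lit 21442909065) (nat_lit 76) (nat_lit 6601060872) (nat_lit 10) (nat_lit 4) (nat_lit 11) (nat_lit 5) (nat_lit 11) (nat_lit 4) (nat_lit 329) (nat_lit 251) (nat_lit 200)) (XT.lf (nat_lit 0) (nat_lit 19348805789) (nat_lit 76) (nat_lit 17229796952) (nat_lit 76) (nat_lit 2323935589) (nat_lit 10) (nat_lit 4) (nat_lit 11) (nat_lit 5) (nat_lit 11) (nat_lit 4) (nat_lit 330) (nat_lit 251) (nat_lit 199))))) (XT.nd (nat_lit 156) (nat_lit 76) (nat_lit 0) (XT.nd (nat_lit 78) (nat_lit 0) (nat_lit 0) (XT.lf (nat_lit 0) (nat_lit 2062851632)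 (nat_lit 152) (nat_lit 10737980441) (nat_lit 76) (nat_lit 27786994963) (nat_lit 9) (nat_lit 5) (nat_lit 11) (nat_lit 5) (nat_lit 10) (nat_lit 4) (nat_lit 331) (nat_lit 251) (nat_lit 198)) (XT.lf (nat_lit 0) (nat_lit 6557702243) (nat_lit 152) (nat_lit 1581598520) (nat_lit 76) (nat_lit 34217845862) (nat_lit 9) (nat_lit 5) (nat_lit 11) (nat_lit 5) (nat_lit 10) (nat_lit 4) (nat_lit 332) (nat_lit 251) (nat_lit 197))) (XT.nd (nat_lit 78) (nat_lit 0) (nat_lit 0) (XT.lf (nat_lit 0) (nat_lit 8237137107) (nat_lit 76) (nat_lit 3137166409) (nat_lit 152) (nat_lit 32835790164) (nat_lit 8) (nat_lit 5) (nat_lit 9) (nat_lit 5) (nat_lit 10) (nat_lit 4) (nat_lit 333) (nat_lit 251) (nat_lit 196)) (XT.nd (nat_lit 78) (nat_lit 0) (nat_lit 0) (XT.lf (nat_lit 0) (nat_lit 16460557442) (nat_lit 152) (nat_lit 27645380446) (nat_lit 0) (nat_lit 2048320397) (nat_lit 8) (nat_lit 5) (nat_lit 10) (nat_lit 4) (nat_lit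 8) (nat_lit 4) (nat_lit 334) (nat_lit 251) (nat_lit 195)) (XT.lf (nat_lit 0) (nat_lit 21822625504) (nat_lit 152) (nat_lit 19009320487) (nat_lit 0) (nat_lit 7362620846) (nat_lit 8) (nat_lit 5) (nat_lit 10) (nat_lit 4) (nat_lit 8) (nat_lit 4) (nat_lit 335) (nat_lit 251) (nat_lit 194)))))) (XT.nd (nat_lit 390) (nat_lit 152) (nat_lit 0) (XT.nd (nat_lit 156) (nat_lit 76) (nat_lit 0) (XT.nd (nat_lit 78) (nat_lit 0) (nat_lit 0) (XT.lf (nat_lit 0) (nat_lit 27424294573) (nat_lit 152) (nat_lit 9995234687) (nat_lit 0) (nat_lit 12918796950) (nat_lit 8) (nat_lit 5) (nat_lit 10) (nat_lit 4) (nat_lit 8) (nat_lit 4) (nat_lit 336) (nat_lit 251) (nat_lit 193)) (XT.lf (nat_lit 0) (nat_lit 33278901955) (nat_lit 152) (nat_lit 581660939) (nat_lit 0) (nat_lit 18730077699) (nat_lit 8) (nat_lit 5) (nat_lit 10) (nat_lit 4) (nat_lit 8) (nat_lit 4) (nat_lit 337) (nat_lit 251) (nat_lit 192))) (XT.nd (nat_lit 78)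 (nat_lit 0) (nat_lit 0) (XT.lf (nat_lit 0) (nat_lit 9559786911) (nat_lit 76) (nat_lit 29989855345) (nat_lit 76) (nat_lit 15399767629) (nat_lit 7) (nat_lit 4) (nat_lit 8) (nat_lit 5) (nat_lit 8) (nat_lit 4) (nat_lit 338) (nat_lit 251) (nat_lit 191)) (XT.nd (nat_lit 78) (nat_lit 0) (nat_lit 0) (XT.lf (nat_lit 0) (nat_lit 20180510375) (nat_lit 76) (nat_lit 25937889197) (nat_lit 76) (nat_lit 11308502947) (nat_lit 7) (nat_lit 4) (nat_lit 8) (nat_lit 5) (nat_lit 8) (nat_lit 4) (nat_lit 339) (nat_lit 251) (nat_lit 190)) (XT.lf (nat_lit 0) (nat_lit 31286564551) (nat_lit 76) (nat_lit 21704867620) (nat_lit 76) (nat_lit 7038054194) (nat_lit 7) (nat_lit 4) (nat_lit 8) (nat_lit 5) (nat_lit 8) (nat_lit 4) (nat_lit 340) (nat_lit 251) (nat_lit 189))))) (XT.nd (nat_lit 234) (nat_lit 76) (nat_lit 0) (XT.nd (nat_lit 78) (nat_lit 76) (nat_lit 0) (XT.lf (nat_lit 0) (nat_lit 42904392424) (nat_lit 76) (nat_lit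 17280711991) (nat_lit 76) (nat_lit 2578253637) (nat_lit 7) (nat_lit 4) (nat_lit 8) (nat_lit 5) (nat_lit 8) (nat_lit 4) (nat_lit 341) (nat_lit 251) (nat_lit 188)) (XT.nd (nat_lit 78) (nat_lit 0) (nat_lit 0) (XT.lf (nat_lit 0) (nat_lit 2014895744) (nat_lit 152) (nat_lit 10605869628) (nat_lit 76) (nat_lit 53012636512) (nat_lit 6) (nat_lit 5) (nat_lit 8) (nat_lit 5) (nat_lit 7) (nat_lit 4) (nat_lit 342) (nat_lit 251) (nat_lit 187)) (XT.lf (nat_lit 0) (nat_lit 6729834579) (nat_lit 152) (nat_lit 972576018) (nat_lit 76) (nat_lit 60943492030) (nat_lit 6) (nat_lit 5) (nat_lit 8) (nat_lit 5) (nat_lit 7) (nat_lit 4) (nat_lit 343) (nat_lit 251) (nat_lit 186)))) (XT.nd (nat_lit 78) (nat_lit 0) (nat_lit 0) (XT.lf (nat_lit 0) (nat_lit 9405128218) (nat_lit 76) (nat_lit 2402021319) (nat_lit 152) (nat_lit 59995554033) (nat_lit 5) (nat_lit 5) (nat_lit 6) (nat_lit 5) (nat_lit 7) (nat_lit 4) (nat_lit 344)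 (nat_lit 251) (nat_lit 185)) (XT.nd (nat_lit 78) (nat_lit 0) (nat_lit 0) (XT.lf (nat_lit 0) (nat_lit 17184345629) (nat_lit 152) (nat_lit 54869076467) (nat_lit 0) (nat_lit 3061628004) (nat_lit 5) (nat_lit 5) (nat_lit 7) (nat_lit 4) (nat_lit 5) (nat_lit 4) (nat_lit 345) (nat_lit 251) (nat_lit 184)) (XT.lf (nat_lit 0) (nat_lit 22850621760) (nat_lit 152) (nat_lit 47040081850) (nat_lit 0) (nat_lit 8701305341) (nat_lit 5) (nat_lit 5) (nat_lit 7) (nat_lit 4) (nat_lit 5) (nat_lit 4) (nat_lit 346) (nat_lit 251) (nat_lit 183))))))))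
noncomputable def xc81 : XT := (XT.nd (nat_lit 1560) (nat_lit 0) (nat_lit 0) (XT.nd (nat_lit 780) (nat_lit 152) (nat_lit 0) (XT.nd (nat_lit 390) (nat_lit 76) (nat_lit 0) (XT.nd (nat_lit 156) (nat_lit 0) (nat_lit 0) (XT.nd (nat_lit 78) (nat_lit 0) (nat_lit 0) (XT.lf (nat_lit 0) (nat_lit 28781966780) (nat_lit 152) (nat_lit 38854448755) (nat_lit 0) (nat_lit 14607318176) (nat_lit 5) (nat_lit 5) (nat_lit 7) (nat_lit 4) (nat_lit 5) (nat_lit 4) (nat_lit 347) (nat_lit 251) (nat_lit 182)) (XT.lf (nat_lit 0) (nat_lit 34992502940) (nat_lit 152) (nat_lit 30292687578) (nat_lit 0) (nat_lit 20793728445) (nat_lit 5) (nat_lit 5) (nat_lit 7) (nat_lit 4) (nat_lit 5) (nat_lit 4) (nat_lit 348) (nat_lit 251) (nat_lit 181))) (XT.nd (nat_lit 78) (nat_lit 0) (nat_lit 0) (XT.lf (nat_lit 0) (nat_lit 41497017229) (nat_lit 152) (nat_lit 21334413175) (nat_lit 0) (nat_lit 27275265696) (nat_lit 5) (nat_lit 5) (nat_lit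 7) (nat_lit 4) (nat_lit 5) (nat_lit 4) (nat_lit 349) (nat_lit 251) (nat_lit 180)) (XT.nd (nat_lit 78) (nat_lit 0) (nat_lit 0) (XT.lf (nat_lit 0) (nat_lit 48310996588) (nat_lit 152) (nat_lit 11958296321) (nat_lit 0) (nat_lit 34067362161) (nat_lit 5) (nat_lit 5) (nat_lit 7) (nat_lit 4) (nat_lit 5) (nat_lit 4) (nat_lit 350) (nat_lit 251) (nat_lit 179)) (XT.lf (nat_lit 0) (nat_lit 55450664776) (nat_lit 152) (nat_lit 2142012928) (nat_lit 0) (nat_lit 41186189497) (nat_lit 5) (nat_lit 5) (nat_lit 7) (nat_lit 4) (nat_lit 5) (nat_lit 4) (nat_lit 351) (nat_lit 251) (nat_lit 178))))) (XT.nd (nat_lit 156) (nat_lit 0) (nat_lit 0) (XT.nd (nat_lit 78) (nat_lit 0) (nat_lit 0) (XT.lf (nat_lit 0) (nat_lit 8406881828) (nat_lit 76) (nat_lit 54657394160) (nat_lit 76) (nat_lit 40373070452) (nat_lit 4) (nat_lit 4) (nat_lit 5) (nat_lit 5) (nat_lit 5) (nat_lit 4) (nat_lit 352) (nat_lit 251) (nat_lit 177)) (XT.lf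 (nat_lit 0) (nat_lit 19530751575) (nat_lit 76) (nat_lit 51550058595) (nat_lit 76) (nat_lit 37246831620) (nat_lit 4) (nat_lit 4) (nat_lit 5) (nat_lit 5) (nat_lit 5) (nat_lit 4) (nat_lit 353) (nat_lit 251) (nat_lit 176))) (XT.nd (nat_lit 78) (nat_lit 0) (nat_lit 0) (XT.lf (nat_lit 0) (nat_lit 31185257095) (nat_lit 76) (nat_lit 48299548615) (nat_lit 76) (nat_lit 33978318529) (nat_lit 4) (nat_lit 4) (nat_lit 5) (nat_lit 5) (nat_lit 5) (nat_lit 4) (nat_lit 354) (nat_lit 251) (nat_lit 175)) (XT.nd (nat_lit 78) (nat_lit 0) (nat_lit 0) (XT.lf (nat_lit 0) (nat_lit 43398147212) (nat_lit 76) (nat_lit 44898124912) (nat_lit 76) (nat_lit 30559749006) (nat_lit 4) (nat_lit 4) (nat_lit 5) (nat_lit 5) (nat_lit 5) (nat_lit 4) (nat_lit 355) (nat_lit 251) (nat_lit 174)) (XT.lf (nat_lit 0) (nat_lit 56198500236) (nat_lit 76) (nat_lit 41337688857) (nat_lit 76) (nat_lit 26982983598) (nat_lit 4) (nat_lit 4) (nat_lit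 5) (nat_lit 5) (nat_lit 5) (nat_lit 4) (nat_lit 356) (nat_lit 251) (nat_lit 173)))))) (XT.nd (nat_lit 390) (nat_lit 152) (nat_lit 0) (XT.nd (nat_lit 156) (nat_lit 0) (nat_lit 0) (XT.nd (nat_lit 78) (nat_lit 0) (nat_lit 0) (XT.lf (nat_lit 0) (nat_lit 69616793196) (nat_lit 76) (nat_lit 37609763222) (nat_lit 76) (nat_lit 23239506199) (nat_lit 4) (nat_lit 4) (nat_lit 5) (nat_lit 5) (nat_lit 5) (nat_lit 4) (nat_lit 357) (nat_lit 251) (nat_lit 172)) (XT.lf (nat_lit 0) (nat_lit 83684974410) (nat_lit 76) (nat_lit 33705471993) (nat_lit 76) (nat_lit 19320403766) (nat_lit 4) (nat_lit 4) (nat_lit 5) (nat_lit 5) (nat_lit 5) (nat_lit 4) (nat_lit 358) (nat_lit 251) (nat_lit 171))) (XT.nd (nat_lit 78) (nat_lit 0) (nat_lit 0) (XT.lf (nat_lit 0) (nat_lit 98436539547) (nat_lit 76) (nat_lit 29615519239) (nat_lit 76) (nat_lit 15216345103) (nat_lit 4) (nat_lit 4) (nat_lit 5) (nat_lit 5) (nat_lit 5) (nat_lit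 4) (nat_lit 359) (nat_lit 251) (nat_lit 170)) (XT.nd (nat_lit 78) (nat_lit 0) (nat_lit 0) (XT.lf (nat_lit 0) (nat_lit 113906611382) (nat_lit 76) (nat_lit 25330166976) (nat_lit 76) (nat_lit 10917558642) (nat_lit 4) (nat_lit 4) (nat_lit 5) (nat_lit 5) (nat_lit 5) (nat_lit 4) (nat_lit 360) (nat_lit 251) (nat_lit 169)) (XT.lf (nat_lit 0) (nat_lit 130132023419) (nat_lit 76) (nat_lit 20839211987) (nat_lit 76) (nat_lit 6413809177) (nat_lit 4) (nat_lit 4) (nat_lit 5) (nat_lit 5) (nat_lit 5) (nat_lit 4) (nat_lit 361) (nat_lit 251) (nat_lit 168))))) (XT.nd (nat_lit 156) (nat_lit 76) (nat_lit 0) (XT.nd (nat_lit 78) (nat_lit 76) (nat_lit 0) (XT.lf (nat_lit 0) (nat_lit 147151407591) (nat_lit 76) (nat_lit 16131961519) (nat_lit 76) (nat_lit 1694373496) (nat_lit 4) (nat_lit 4) (nat_lit 5) (nat_lit 5) (nat_lit 5) (nat_lit 4) (nat_lit 362) (nat_lit 251) (nat_lit 167)) (XT.lf (nat_lit 0) (nat_lit 3147901320)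 (nat_lit 152) (nat_lit 7995995283) (nat_lit 76) (nat_lit 161804073689) (nat_lit 3) (nat_lit 5) (nat_lit 5) (nat_lit 5) (nat_lit 4) (nat_lit 4) (nat_lit 363) (nat_lit 251) (nat_lit 166))) (XT.nd (nat_lit 78) (nat_lit 0) (nat_lit 0) (XT.lf (nat_lit 0) (nat_lit 2357573472) (nat_lit 76) (nat_lit 5846240581) (nat_lit 152) (nat_lit 173110085543) (nat_lit 2) (nat_lit 5) (nat_lit 3) (nat_lit 5) (nat_lit 4) (nat_lit 4) (nat_lit 364) (nat_lit 251) (nat_lit 165)) (XT.nd (nat_lit 78) (nat_lit 0) (nat_lit 0) (XT.lf (nat_lit 0) (nat_lit 13490712697) (nat_lit 76) (nat_lit 149035634) (nat_lit 152) (nat_lit 176452018002) (nat_lit 2) (nat_lit 5) (nat_lit 3) (nat_lit 5) (nat_lit 4) (nat_lit 4) (nat_lit 365) (nat_lit 251) (nat_lit 164)) (XT.lf (nat_lit 0) (nat_lit 19430637301) (nat_lit 152) (nat_lit 174234330530) (nat_lit 0) (nat_lit 5639402835) (nat_lit 2) (nat_lit 5) (nat_lit 4) (nat_lit 4) (nat_lit 2)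 (nat_lit 4) (nat_lit 366) (nat_lit 251) (nat_lit 163))))))) (XT.nd (nat_lit 780) (nat_lit 0) (nat_lit 0) (XT.nd (nat_lit 390) (nat_lit 0) (nat_lit 0) (XT.nd (nat_lit 156) (nat_lit 0) (nat_lit 0) (XT.nd (nat_lit 78) (nat_lit 0) (nat_lit 0) (XT.lf (nat_lit 0) (nat_lit 25505978724) (nat_lit 152) (nat_lit 171766231681) (nat_lit 0) (nat_lit 11705651463) (nat_lit 2) (nat_lit 5) (nat_lit 4) (nat_lit 4) (nat_lit 2) (nat_lit 4) (nat_lit 367) (nat_lit 251) (nat_lit 162)) (XT.lf (nat_lit 0) (nat_lit 31877910836) (nat_lit 152) (nat_lit 169188553800) (nat_lit 0) (nat_lit 18068923770) (nat_lit 2) (nat_lit 5) (nat_lit 4) (nat_lit 4) (nat_lit 2) (nat_lit 4) (nat_lit 368) (nat_lit 251) (nat_lit 161))) (XT.nd (nat_lit 78) (nat_lit 0) (nat_lit 0) (XT.lf (nat_lit 0) (nat_lit 38561604902) (nat_lit 152) (nat_lit 166495159559) (nat_lit 0) (nat_lit 24744370404) (nat_lit 2) (nat_lit 5) (nat_lit 4) (nat_lit 4)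 (nat_lit 2) (nat_lit 4) (nat_lit 369) (nat_lit 251) (nat_lit 160)) (XT.nd (nat_lit 78) (nat_lit 0) (nat_lit 0) (XT.lf (nat_lit 0) (nat_lit 45572974481) (nat_lit 152) (nat_lit 163679636114) (nat_lit 0) (nat_lit 31747885285) (nat_lit 2) (nat_lit 5) (nat_lit 4) (nat_lit 4) (nat_lit 2) (nat_lit 4) (nat_lit 370) (nat_lit 251) (nat_lit 159)) (XT.lf (nat_lit 0) (nat_lit 52928713310) (nat_lit 152) (nat_lit 160735279839) (nat_lit 0) (nat_lit 39096143450) (nat_lit 2) (nat_lit 5) (nat_lit 4) (nat_lit 4) (nat_lit 2) (nat_lit 4) (nat_lit 371) (nat_lit 251) (nat_lit 158))))) (XT.nd (nat_lit 156) (nat_lit 0) (nat_lit 0) (XT.nd (nat_lit 78) (nat_lit 0) (nat_lit 0) (XT.lf (nat_lit 0) (nat_lit 60646335052) (nat_lit 152) (nat_lit 157655080360) (nat_lit 0) (nat_lit 46806640750) (nat_lit 2) (nat_lit 5) (nat_lit 4) (nat_lit 4) (nat_lit 2) (nat_lit 4) (nat_lit 372) (nat_lit 251) (nat_lit 157)) (XT.lf (nat_lit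 0) (nat_lit 68744214998) (nat_lit 152) (nat_lit 154431703870) (nat_lit 0) (nat_lit 54897735512) (nat_lit 2) (nat_lit 5) (nat_lit 4) (nat_lit 4) (nat_lit 2) (nat_lit 4) (nat_lit 373) (nat_lit 251) (nat_lit 156))) (XT.nd (nat_lit 78) (nat_lit 0) (nat_lit 0) (XT.lf (nat_lit 0) (nat_lit 77241633813) (nat_lit 152) (nat_lit 151057475663) (nat_lit 0) (nat_lit 63388692248) (nat_lit 2) (nat_lit 5) (nat_lit 4) (nat_lit 4) (nat_lit 2) (nat_lit 4) (nat_lit 374) (nat_lit 251) (nat_lit 155)) (XT.nd (nat_lit 78) (nat_lit 0) (nat_lit 0) (XT.lf (nat_lit 0) (nat_lit 86158823449) (nat_lit 152) (nat_lit 147524361862) (nat_lit 0) (nat_lit 72299727522) (nat_lit 2) (nat_lit 5) (nat_lit 4) (nat_lit 4) (nat_lit 2) (nat_lit 4) (nat_lit 375) (nat_lit 251) (nat_lit 154)) (XT.lf (nat_lit 0) (nat_lit 95517015307) (nat_lit 152) (nat_lit 143823950291) (nat_lit 0) (nat_lit 81652058084) (nat_lit 2) (nat_lit 5) (nat_lit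 4) (nat_lit 4) (nat_lit 2) (nat_lit 4) (nat_lit 376) (nat_lit 251) (nat_lit 153)))))) (XT.nd (nat_lit 390) (nat_lit 0) (nat_lit 0) (XT.nd (nat_lit 156) (nat_lit 0) (nat_lit 0) (XT.nd (nat_lit 78) (nat_lit 0) (nat_lit 0) (XT.lf (nat_lit 0) (nat_lit 105338490798) (nat_lit 152) (nat_lit 139947430447) (nat_lit 0) (nat_lit 91467951388) (nat_lit 2) (nat_lit 5) (nat_lit 4) (nat_lit 4) (nat_lit 2) (nat_lit 4) (nat_lit 377) (nat_lit 251) (nat_lit 152)) (XT.lf (nat_lit 0) (nat_lit 115646634387) (nat_lit 152) (nat_lit 135885572521) (nat_lit 0) (nat_lit 101770778609) (nat_lit 2) (nat_lit 5) (nat_lit 4) (nat_lit 4) (nat_lit 2) (nat_lit 4) (nat_lit 378) (nat_lit 251) (nat_lit 151))) (XT.nd (nat_lit 78) (nat_lit 0) (nat_lit 0) (XT.lf (nat_lit 0) (nat_lit 126465989273) (nat_lit 152) (nat_lit 131628705422) (nat_lit 0) (nat_lit 112585070287) (nat_lit 2) (nat_lit 5) (nat_lit 4) (nat_lit 4) (nat_lit 2)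 (nat_lit 4) (nat_lit 379) (nat_lit 251) (nat_lit 150)) (XT.nd (nat_lit 78) (nat_lit 0) (nat_lit 0) (XT.lf (nat_lit 0) (nat_lit 137822315825) (nat_lit 152) (nat_lit 127166693752) (nat_lit 0) (nat_lit 123936574736) (nat_lit 2) (nat_lit 5) (nat_lit 4) (nat_lit 4) (nat_lit 2) (nat_lit 4) (nat_lit 380) (nat_lit 251) (nat_lit 149)) (XT.lf (nat_lit 0) (nat_lit 149742652916) (nat_lit 152) (nat_lit 122488913674) (nat_lit 0) (nat_lit 135852319347) (nat_lit 2) (nat_lit 5) (nat_lit 4) (nat_lit 4) (nat_lit 2) (nat_lit 4) (nat_lit 381) (nat_lit 251) (nat_lit 148))))) (XT.nd (nat_lit 234) (nat_lit 0) (nat_lit 0) (XT.nd (nat_lit 78) (nat_lit 0) (nat_lit 0) (XT.lf (nat_lit 0) (nat_lit 162255382300) (nat_lit 152) (nat_lit 117584227617) (nat_lit 0) (nat_lit 148360674942) (nat_lit 2) (nat_lit 5) (nat_lit 4) (nat_lit 4) (nat_lit 2) (nat_lit 4) (nat_lit 382) (nat_lit 251) (nat_lit 147)) (XT.nd (nat_lit 78)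 (nat_lit 0) (nat_lit 0) (XT.lf (nat_lit 0) (nat_lit 175390296190) (nat_lit 152) (nat_lit 112440957756) (nat_lit 0) (nat_lit 161491423318) (nat_lit 2) (nat_lit 5) (nat_lit 4) (nat_lit 4) (nat_lit 2) (nat_lit 4) (nat_lit 383) (nat_lit 251) (nat_lit 146)) (XT.lf (nat_lit 0) (nat_lit 189178668192) (nat_lit 152) (nat_lit 107046858211) (nat_lit 0) (nat_lit 175275828164) (nat_lit 2) (nat_lit 5) (nat_lit 4) (nat_lit 4) (nat_lit 2) (nat_lit 4) (nat_lit 384) (nat_lit 251) (nat_lit 145)))) (XT.nd (nat_lit 78) (nat_lit 0) (nat_lit 0) (XT.lf (nat_lit 0) (nat_lit 203653327761) (nat_lit 152) (nat_lit 101389085888) (nat_lit 0) (nat_lit 189746709489) (nat_lit 2) (nat_lit 5) (nat_lit 4) (nat_lit 4) (nat_lit 2) (nat_lit 4) (nat_lit 385) (nat_lit 251) (nat_lit 144)) (XT.nd (nat_lit 78) (nat_lit 0) (nat_lit 0) (XT.lf (nat_lit 0) (nat_lit 218848738374) (nat_lit 152) (nat_lit 95454169900) (nat_lit 0) (nat_lit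 204938521774) (nat_lit 2) (nat_lit 5) (nat_lit 4) (nat_lit 4) (nat_lit 2) (nat_lit 4) (nat_lit 386) (nat_lit 251) (nat_lit 143)) (XT.lf (nat_lit 0) (nat_lit 234801079578) (nat_lit 152) (nat_lit 89227979495) (nat_lit 0) (nat_lit 220887436000) (nat_lit 2) (nat_lit 5) (nat_lit 4) (nat_lit 4) (nat_lit 2) (nat_lit 4) (nat_lit 387) (nat_lit 251) (nat_lit 142))))))))
noncomputable def xc82 : XT := (XT.nd (nat_lit 33228) (nat_lit 0) (nat_lit 1216) (XT.nd (nat_lit 32448) (nat_lit 0) (nat_lit 3268) (XT.nd (nat_lit 32058) (nat_lit 0) (nat_lit 5168) (XT.nd (nat_lit 156) (nat_lit 0) (nat_lit 0) (XT.nd (nat_lit 78) (nat_lit 0) (nat_lit 0) (XT.lf (nat_lit 0) (nat_lit 251548333140) (nat_lit 152) (nat_lit 82695690410) (nat_lit 0) (nat_lit 237631425773) (nat_lit 2) (nat_lit 5) (nat_lit 4) (nat_lit 4) (nat_lit 2) (nat_lit 4) (nat_lit 388) (nat_lit 251) (nat_lit 141)) (XT.lf (nat_lit 0) (nat_lit 269130373472)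 (nat_lit 152) (nat_lit 75841749575) (nat_lit 0) (nat_lit 255210357734) (nat_lit 2) (nat_lit 5) (nat_lit 4) (nat_lit 4) (nat_lit 2) (nat_lit 4) (nat_lit 389) (nat_lit 251) (nat_lit 140))) (XT.nd (nat_lit 31746) (nat_lit 0) (nat_lit 6308) (XT.lf (nat_lit 0) (nat_lit 287589062575) (nat_lit 152) (nat_lit 68649838085) (nat_lit 0) (nat_lit 273666086484) (nat_lit 2) (nat_lit 5) (nat_lit 4) (nat_lit 4) (nat_lit 2) (nat_lit 4) (nat_lit 390) (nat_lit 251) (nat_lit 139)) (XT.nd (nat_lit 78) (nat_lit 608) (nat_lit 0) (XT.lf (nat_lit 0) (nat_lit 1649765621) (nat_lit 684) (nat_lit 983308598) (nat_lit 684) (nat_lit 983308598) (nat_lit 93) (nat_lit 4) (nat_lit 102) (nat_lit 5) (nat_lit 102) (nat_lit 4) (nat_lit 276) (nat_lit 252) (nat_lit 252)) (XT.lf (nat_lit 0) (nat_lit 1096666408) (nat_lit 532) (nat_lit 219937203) (nat_lit 608) (nat_lit 6023097468) (nat_lit 85) (nat_lit 5) (nat_lit 92) (nat_lit 5)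 (nat_lit 93) (nat_lit 4) (nat_lit 277) (nat_lit 252) (nat_lit 251))))) (XT.nd (nat_lit 156) (nat_lit 684) (nat_lit 0) (XT.nd (nat_lit 78) (nat_lit 456) (nat_lit 0) (XT.lf (nat_lit 0) (nat_lit 4632896046) (nat_lit 608) (nat_lit 1167622701) (nat_lit 0) (nat_lit 1653430704) (nat_lit 85) (nat_lit 5) (nat_lit 93) (nat_lit 4) (nat_lit 85) (nat_lit 4) (nat_lit 278) (nat_lit 252) (nat_lit 250)) (XT.lf (nat_lit 0) (nat_lit 439718846) (nat_lit 456) (nat_lit 3462230020) (nat_lit 76) (nat_lit 3676039473) (nat_lit 79) (nat_lit 5) (nat_lit 85) (nat_lit 5) (nat_lit 80) (nat_lit 4) (nat_lit 279) (nat_lit 252) (nat_lit 249))) (XT.nd (nat_lit 78) (nat_lit 380) (nat_lit 0) (XT.lf (nat_lit 0) (nat_lit 1839695142) (nat_lit 304) (nat_lit 1829389433) (nat_lit 380) (nat_lit 4042097754) (nat_lit 75) (nat_lit 5) (nat_lit 79) (nat_lit 5) (nat_lit 80) (nat_lit 4) (nat_lit 280) (nat_lit 252) (nat_lit 248)) (XT.nd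 (nat_lit 78) (nat_lit 380) (nat_lit 0) (XT.lf (nat_lit 0) (nat_lit 6980587223) (nat_lit 380) (nat_lit 501172311) (nat_lit 0) (nat_lit 373513088) (nat_lit 75) (nat_lit 5) (nat_lit 80) (nat_lit 4) (nat_lit 75) (nat_lit 4) (nat_lit 281) (nat_lit 252) (nat_lit 247)) (XT.lf (nat_lit 0) (nat_lit 2344179775) (nat_lit 380) (nat_lit 2940280745) (nat_lit 76) (nat_lit 2721861783) (nat_lit 70) (nat_lit 5) (nat_lit 75) (nat_lit 5) (nat_lit 71) (nat_lit 4) (nat_lit 282) (nat_lit 252) (nat_lit 246)))))) (XT.nd (nat_lit 390) (nat_lit 684) (nat_lit 0) (XT.nd (nat_lit 156) (nat_lit 532) (nat_lit 0) (XT.nd (nat_lit 78) (nat_lit 380) (nat_lit 0) (XT.lf (nat_lit 0) (nat_lit 2668028910) (nat_lit 304) (nat_lit 2940959361) (nat_lit 380) (nat_lit 2559732745) (nat_lit 66) (nat_lit 5) (nat_lit 70) (nat_lit 5) (nat_lit 71) (nat_lit 4) (nat_lit 283) (nat_lit 252) (nat_lit 245)) (XT.lf (nat_lit 0) (nat_lit 145679468)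 (nat_lit 304) (nat_lit 448303683) (nat_lit 380) (nat_lit 7748997387) (nat_lit 61) (nat_lit 5) (nat_lit 65) (nat_lit 5) (nat_lit 66) (nat_lit 5) (nat_lit 284) (nat_lit 252) (nat_lit 244))) (XT.nd (nat_lit 78) (nat_lit 532) (nat_lit 0) (XT.lf (nat_lit 0) (nat_lit 3816776657) (nat_lit 380) (nat_lit 2506099726) (nat_lit 76) (nat_lit 2201309237) (nat_lit 61) (nat_lit 5) (nat_lit 66) (nat_lit 5) (nat_lit 62) (nat_lit 4) (nat_lit 285) (nat_lit 252) (nat_lit 243)) (XT.nd (nat_lit 78) (nat_lit 304) (nat_lit 0) (XT.lf (nat_lit 0) (nat_lit 3406787260) (nat_lit 228) (nat_lit 3729573355) (nat_lit 304) (nat_lit 1581499710) (nat_lit 58) (nat_lit 5) (nat_lit 61) (nat_lit 5) (nat_lit 62) (nat_lit 4) (nat_lit 286) (nat_lit 252) (nat_lit 242)) (XT.lf (nat_lit 0) (nat_lit 609309763) (nat_lit 228) (nat_lit 965975891) (nat_lit 304) (nat_lit 7348328847) (nat_lit 54) (nat_lit 5) (nat_lit 57) (nat_lit 5) (nat_lit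 58) (nat_lit 5) (nat_lit 287) (nat_lit 252) (nat_lit 241))))) (XT.nd (nat_lit 156) (nat_lit 456) (nat_lit 0) (XT.nd (nat_lit 78) (nat_lit 228) (nat_lit 0) (XT.lf (nat_lit 0) (nat_lit 4837428552) (nat_lit 304) (nat_lit 2351680793) (nat_lit 76) (nat_lit 1949383156) (nat_lit 54) (nat_lit 5) (nat_lit 58) (nat_lit 5) (nat_lit 55) (nat_lit 4) (nat_lit 288) (nat_lit 252) (nat_lit 240)) (XT.lf (nat_lit 0) (nat_lit 3855694647) (nat_lit 228) (nat_lit 4367802224) (nat_lit 304) (nat_lit 1142734499) (nat_lit 51) (nat_lit 5) (nat_lit 54) (nat_lit 5) (nat_lit 55) (nat_lit 4) (nat_lit 289) (nat_lit 252) (nat_lit 239))) (XT.nd (nat_lit 78) (nat_lit 152) (nat_lit 0) (XT.lf (nat_lit 0) (nat_lit 676510016) (nat_lit 228) (nat_lit 1364291024) (nat_lit 304) (nat_lit 7566159840) (nat_lit 47) (nat_lit 5) (nat_lit 50) (nat_lit 5) (nat_lit 51) (nat_lit 5) (nat_lit 290) (nat_lit 252) (nat_lit 238)) (XT.nd (nat_lit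 78) (nat_lit 152) (nat_lit 0) (XT.lf (nat_lit 0) (nat_lit 5355903451) (nat_lit 304) (nat_lit 2703637299) (nat_lit 76) (nat_lit 1798846160) (nat_lit 47) (nat_lit 5) (nat_lit 51) (nat_lit 5) (nat_lit 48) (nat_lit 4) (nat_lit 291) (nat_lit 252) (nat_lit 237)) (XT.lf (nat_lit 0) (nat_lit 3776254907) (nat_lit 152) (nat_lit 5035165120) (nat_lit 228) (nat_lit 1312361153) (nat_lit 45) (nat_lit 5) (nat_lit 47) (nat_lit 5) (nat_lit 48) (nat_lit 4) (nat_lit 292) (nat_lit 252) (nat_lit 236))))))) (XT.nd (nat_lit 780) (nat_lit 836) (nat_lit 0) (XT.nd (nat_lit 390) (nat_lit 532) (nat_lit 0) (XT.nd (nat_lit 156) (nat_lit 380) (nat_lit 0) (XT.nd (nat_lit 78) (nat_lit 0) (nat_lit 0) (XT.lf (nat_lit 0) (nat_lit 86202482) (nat_lit 228) (nat_lit 1827925797) (nat_lit 304) (nat_lit 8489741013) (nat_lit 41) (nat_lit 5) (nat_lit 44) (nat_lit 5) (nat_lit 45) (nat_lit 5) (nat_lit 293) (nat_lit 252) (nat_lit 235))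 (XT.lf (nat_lit 0) (nat_lit 5287120806) (nat_lit 304) (nat_lit 3837674062) (nat_lit 76) (nat_lit 1570739312) (nat_lit 41) (nat_lit 5) (nat_lit 45) (nat_lit 5) (nat_lit 42) (nat_lit 4) (nat_lit 294) (nat_lit 252) (nat_lit 234))) (XT.nd (nat_lit 78) (nat_lit 228) (nat_lit 0) (XT.lf (nat_lit 0) (nat_lit 2876256601) (nat_lit 152) (nat_lit 5928315176) (nat_lit 228) (nat_lit 2198526957) (nat_lit 39) (nat_lit 5) (nat_lit 41) (nat_lit 5) (nat_lit 42) (nat_lit 4) (nat_lit 295) (nat_lit 252) (nat_lit 233)) (XT.nd (nat_lit 78) (nat_lit 152) (nat_lit 0) (XT.lf (nat_lit 0) (nat_lit 1102038449) (nat_lit 228) (nat_lit 1436083264) (nat_lit 76) (nat_lit 8788717368) (nat_lit 38) (nat_lit 5) (nat_lit 41) (nat_lit 5) (nat_lit 39) (nat_lit 5) (nat_lit 296) (nat_lit 252) (nat_lit 232)) (XT.lf (nat_lit 0) (nat_lit 4504437917) (nat_lit 228) (nat_lit 6096332873) (nat_lit 76) (nat_lit 1063751357) (nat_lit 36)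 (nat_lit 5) (nat_lit 39) (nat_lit 5) (nat_lit 37) (nat_lit 4) (nat_lit 297) (nat_lit 252) (nat_lit 231))))) (XT.nd (nat_lit 156) (nat_lit 380) (nat_lit 0) (XT.nd (nat_lit 78) (nat_lit 0) (nat_lit 0) (XT.lf (nat_lit 0) (nat_lit 790699726) (nat_lit 152) (nat_lit 7272658798) (nat_lit 228) (nat_lit 3956498702) (nat_lit 34) (nat_lit 5) (nat_lit 36) (nat_lit 5) (nat_lit 37) (nat_lit 4) (nat_lit 298) (nat_lit 252) (nat_lit 230)) (XT.lf (nat_lit 0) (nat_lit 8088850001) (nat_lit 152) (nat_lit 3724479456) (nat_lit 228) (nat_lit 579058115) (nat_lit 34) (nat_lit 5) (nat_lit 36) (nat_lit 5) (nat_lit 37) (nat_lit 4) (nat_lit 299) (nat_lit 252) (nat_lit 229))) (XT.nd (nat_lit 78) (nat_lit 152) (nat_lit 0) (XT.lf (nat_lit 0) (nat_lit 2830482884) (nat_lit 228) (nat_lit 9911060468) (nat_lit 76) (nat_lit 41850718) (nat_lit 31) (nat_lit 5) (nat_lit 34) (nat_lit 5) (nat_lit 32) (nat_lit 4) (nat_lit 300)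 (nat_lit 252) (nat_lit 228)) (XT.nd (nat_lit 78) (nat_lit 152) (nat_lit 0) (XT.lf (nat_lit 0) (nat_lit 6440003732) (nat_lit 228) (nat_lit 2847826189) (nat_lit 76) (nat_lit 3903270515) (nat_lit 31) (nat_lit 5) (nat_lit 34) (nat_lit 5) (nat_lit 32) (nat_lit 4) (nat_lit 301) (nat_lit 252) (nat_lit 227)) (XT.lf (nat_lit 0) (nat_lit 4579738342) (nat_lit 152) (nat_lit 5639696849) (nat_lit 228) (nat_lit 3400354084) (nat_lit 29) (nat_lit 5) (nat_lit 31) (nat_lit 5) (nat_lit 32) (nat_lit 4) (nat_lit 302) (nat_lit 252) (nat_lit 226)))))) (XT.nd (nat_lit 390) (nat_lit 532) (nat_lit 0) (XT.nd (nat_lit 156) (nat_lit 76) (nat_lit 0) (XT.nd (nat_lit 78) (nat_lit 152) (nat_lit 0) (XT.lf (nat_lit 0) (nat_lit 81552315) (nat_lit 228) (nat_lit 1728570490) (nat_lit 76) (nat_lit 12261390123) (nat_lit 28) (nat_lit 5) (nat_lit 31) (nat_lit 5) (nat_lit 29) (nat_lit 5) (nat_lit 303) (nat_lit 252) (nat_lit 225))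 (XT.lf (nat_lit 0) (nat_lit 3674650839) (nat_lit 228) (nat_lit 8624696355) (nat_lit 76) (nat_lit 2241179349) (nat_lit 26) (nat_lit 5) (nat_lit 29) (nat_lit 5) (nat_lit 27) (nat_lit 4) (nat_lit 304) (nat_lit 252) (nat_lit 224))) (XT.nd (nat_lit 78) (nat_lit 76) (nat_lit 0) (XT.lf (nat_lit 0) (nat_lit 7430009710) (nat_lit 228) (nat_lit 1189697558) (nat_lit 76) (nat_lit 6414209970) (nat_lit 26) (nat_lit 5) (nat_lit 29) (nat_lit 5) (nat_lit 27) (nat_lit 4) (nat_lit 305) (nat_lit 252) (nat_lit 223)) (XT.nd (nat_lit 78) (nat_lit 0) (nat_lit 0) (XT.lf (nat_lit 0) (nat_lit 6707465934) (nat_lit 76) (nat_lit 4697228355) (nat_lit 152) (nat_lit 4145759265) (nat_lit 25) (nat_lit 5) (nat_lit 26) (nat_lit 5) (nat_lit 27) (nat_lit 4) (nat_lit 306) (nat_lit 252) (nat_lit 222)) (XT.lf (nat_lit 0) (nat_lit 14918529463) (nat_lit 76) (nat_lit 608142340) (nat_lit 152) (nat_lit 568768348) (nat_lit 25) (nat_lit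 5) (nat_lit 26) (nat_lit 5) (nat_lit 27) (nat_lit 4) (nat_lit 307) (nat_lit 252) (nat_lit 221))))) (XT.nd (nat_lit 234) (nat_lit 228) (nat_lit 0) (XT.nd (nat_lit 78) (nat_lit 76) (nat_lit 0) (XT.lf (nat_lit 0) (nat_lit 3183204260) (nat_lit 228) (nat_lit 9797057567) (nat_lit 76) (nat_lit 3680066000) (nat_lit 22) (nat_lit 5) (nat_lit 25) (nat_lit 5) (nat_lit 23) (nat_lit 4) (nat_lit 308) (nat_lit 252) (nat_lit 220)) (XT.nd (nat_lit 78) (nat_lit 76) (nat_lit 0) (XT.lf (nat_lit 0) (nat_lit 7065256161) (nat_lit 228) (nat_lit 2045300042) (nat_lit 76) (nat_lit 8144402134) (nat_lit 22) (nat_lit 5) (nat_lit 25) (nat_lit 5) (nat_lit 23) (nat_lit 4) (nat_lit 309) (nat_lit 252) (nat_lit 219)) (XT.lf (nat_lit 0) (nat_lit 6177933719) (nat_lit 76) (nat_lit 4994567190) (nat_lit 152) (nat_lit 6705307239) (nat_lit 21) (nat_lit 5) (nat_lit 22) (nat_lit 5) (nat_lit 23) (nat_lit 4) (nat_lit 310) (nat_lit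 252) (nat_lit 218)))) (XT.nd (nat_lit 78) (nat_lit 228) (nat_lit 0) (XT.lf (nat_lit 0) (nat_lit 14771329464) (nat_lit 76) (nat_lit 684415815) (nat_lit 152) (nat_lit 3077563577) (nat_lit 21) (nat_lit 5) (nat_lit 22) (nat_lit 5) (nat_lit 23) (nat_lit 4) (nat_lit 311) (nat_lit 252) (nat_lit 217)) (XT.nd (nat_lit 78) (nat_lit 0) (nat_lit 0) (XT.lf (nat_lit 0) (nat_lit 778586570) (nat_lit 228) (nat_lit 14681313394) (nat_lit 76) (nat_lit 3757628374) (nat_lit 18) (nat_lit 5) (nat_lit 21) (nat_lit 5) (nat_lit 19) (nat_lit 4) (nat_lit 312) (nat_lit 252) (nat_lit 216)) (XT.lf (nat_lit 0) (nat_lit 4738662127) (nat_lit 228) (nat_lit 6724916595) (nat_lit 76) (nat_lit 8469165058) (nat_lit 18) (nat_lit 5) (nat_lit 21) (nat_lit 5) (nat_lit 19) (nat_lit 4) (nat_lit 313) (nat_lit 252) (nat_lit 215))))))))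
noncomputable def xc83 : XT := (XT.nd (nat_lit 1638) (nat_lit 304) (nat_lit 0) (XT.nd (nat_lit 780) (nat_lit 380) (nat_lit 0) (XT.nd (nat_lit 390) (nat_lit 152) (nat_lit 0) (XT.nd (nat_lit 156) (nat_lit 152) (nat_lit 0) (XT.nd (nat_lit 78) (nat_lit 0) (nat_lit 0) (XT.lf (nat_lit 0) (nat_lit 1575582285) (nat_lit 76) (nat_lit 7287252626) (nat_lit 152) (nat_lit 11822613546) (nat_lit 17) (nat_lit 5) (nat_lit 18) (nat_lit 5) (nat_lit 19) (nat_lit 4) (nat_lit 314) (nat_lit 252) (nat_lit 214)) (XT.lf (nat_lit 0) (nat_lit 10422113577) (nat_lit 76) (nat_lit 2827672871) (nat_lit 152) (nat_lit 8223204971) (nat_lit 17) (nat_lit 5) (nat_lit 18) (nat_lit 5) (nat_lit 19) (nat_lit 4) (nat_lit 315) (nat_lit 252) (nat_lit 213))) (XT.nd (nat_lit 78) (nat_lit 152) (nat_lit 0) (XT.lf (nat_lit 0) (nat_lit 17829784127) (nat_lit 152) (nat_lit 2717575415) (nat_lit 0) (nat_lit 1753897112) (nat_lit 17) (nat_lit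 5) (nat_lit 19) (nat_lit 4) (nat_lit 17) (nat_lit 4) (nat_lit 316) (nat_lit 252) (nat_lit 212)) (XT.nd (nat_lit 78) (nat_lit 76) (nat_lit 0) (XT.lf (nat_lit 0) (nat_lit 6085894565) (nat_lit 76) (nat_lit 16641630379) (nat_lit 76) (nat_lit 439001667) (nat_lit 16) (nat_lit 4) (nat_lit 17) (nat_lit 5) (nat_lit 17) (nat_lit 4) (nat_lit 317) (nat_lit 252) (nat_lit 211)) (XT.lf (nat_lit 0) (nat_lit 3667950092) (nat_lit 152) (nat_lit 8804037403) (nat_lit 76) (nat_lit 11600419730) (nat_lit 15) (nat_lit 5) (nat_lit 17) (nat_lit 5) (nat_lit 16) (nat_lit 4) (nat_lit 318) (nat_lit 252) (nat_lit 210))))) (XT.nd (nat_lit 156) (nat_lit 76) (nat_lit 0) (XT.nd (nat_lit 78) (nat_lit 76) (nat_lit 0) (XT.lf (nat_lit 0) (nat_lit 7915539995) (nat_lit 152) (nat_lit 211436558) (nat_lit 76) (nat_lit 16898768010) (nat_lit 15) (nat_lit 5) (nat_lit 17) (nat_lit 5) (nat_lit 16) (nat_lit 4) (nat_lit 319) (nat_lit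 252) (nat_lit 209)) (XT.lf (nat_lit 0) (nat_lit 9012953920) (nat_lit 76) (nat_lit 3455695696) (nat_lit 152) (nat_lit 13553465688) (nat_lit 14) (nat_lit 5) (nat_lit 15) (nat_lit 5) (nat_lit 16) (nat_lit 4) (nat_lit 320) (nat_lit 252) (nat_lit 208))) (XT.nd (nat_lit 78) (nat_lit 76) (nat_lit 0) (XT.lf (nat_lit 0) (nat_lit 17228444309) (nat_lit 152) (nat_lit 8471580725) (nat_lit 0) (nat_lit 1369350496) (nat_lit 14) (nat_lit 5) (nat_lit 16) (nat_lit 4) (nat_lit 14) (nat_lit 4) (nat_lit 321) (nat_lit 252) (nat_lit 207)) (XT.nd (nat_lit 78) (nat_lit 0) (nat_lit 0) (XT.lf (nat_lit 0) (nat_lit 365374166) (nat_lit 76) (nat_lit 21878223955) (nat_lit 76) (nat_lit 5924553536) (nat_lit 13) (nat_lit 4) (nat_lit 14) (nat_lit 5) (nat_lit 14) (nat_lit 4) (nat_lit 322) (nat_lit 252) (nat_lit 206)) (XT.lf (nat_lit 0) (nat_lit 9857074074) (nat_lit 76) (nat_lit 17751794153) (nat_lit 76) (nat_lit 1708050775)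 (nat_lit 13) (nat_lit 4) (nat_lit 14) (nat_lit 5) (nat_lit 14) (nat_lit 4) (nat_lit 323) (nat_lit 252) (nat_lit 205)))))) (XT.nd (nat_lit 390) (nat_lit 228) (nat_lit 0) (XT.nd (nat_lit 156) (nat_lit 76) (nat_lit 0) (XT.nd (nat_lit 78) (nat_lit 0) (nat_lit 0) (XT.lf (nat_lit 0) (nat_lit 2589524654) (nat_lit 152) (nat_lit 10821001606) (nat_lit 76) (nat_lit 17112630057) (nat_lit 12) (nat_lit 5) (nat_lit 14) (nat_lit 5) (nat_lit 13) (nat_lit 4) (nat_lit 324) (nat_lit 252) (nat_lit 204)) (XT.lf (nat_lit 0) (nat_lit 7003892750) (nat_lit 152) (nat_lit 1853245839) (nat_lit 76) (nat_lit 22933218661) (nat_lit 12) (nat_lit 5) (nat_lit 14) (nat_lit 5) (nat_lit 13) (nat_lit 4) (nat_lit 325) (nat_lit 252) (nat_lit 203))) (XT.nd (nat_lit 78) (nat_lit 0) (nat_lit 0) (XT.lf (nat_lit 0) (nat_lit 7739142525) (nat_lit 76) (nat_lit 3981919382) (nat_lit 152) (nat_lit 21395768924) (nat_lit 11) (nat_lit 5)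 (nat_lit 12) (nat_lit 5) (nat_lit 13) (nat_lit 4) (nat_lit 326) (nat_lit 252) (nat_lit 202)) (XT.nd (nat_lit 78) (nat_lit 0) (nat_lit 0) (XT.lf (nat_lit 0) (nat_lit 16685238421) (nat_lit 152) (nat_lit 16722550345) (nat_lit 0) (nat_lit 1101297818) (nat_lit 11) (nat_lit 5) (nat_lit 13) (nat_lit 4) (nat_lit 11) (nat_lit 4) (nat_lit 327) (nat_lit 252) (nat_lit 201)) (XT.lf (nat_lit 0) (nat_lit 21926230707) (nat_lit 152) (nat_lit 7768232974) (nat_lit 0) (nat_lit 6275076276) (nat_lit 11) (nat_lit 5) (nat_lit 13) (nat_lit 4) (nat_lit 11) (nat_lit 4) (nat_lit 328) (nat_lit 252) (nat_lit 200))))) (XT.nd (nat_lit 234) (nat_lit 152) (nat_lit 0) (XT.nd (nat_lit 78) (nat_lit 0) (nat_lit 0) (XT.lf (nat_lit 0) (nat_lit 1620622572) (nat_lit 76) (nat_lit 25799028286) (nat_lit 76) (nat_lit 10083860685) (nat_lit 10) (nat_lit 4) (nat_lit 11) (nat_lit 5) (nat_lit 11) (nat_lit 4) (nat_lit 329) (nat_lit 252)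 (nat_lit 199)) (XT.nd (nat_lit 78) (nat_lit 0) (nat_lit 0) (XT.lf (nat_lit 0) (nat_lit 11684617826) (nat_lit 76) (nat_lit 21600422627) (nat_lit 76) (nat_lit 5824290101) (nat_lit 10) (nat_lit 4) (nat_lit 11) (nat_lit 5) (nat_lit 11) (nat_lit 4) (nat_lit 330) (nat_lit 252) (nat_lit 198)) (XT.lf (nat_lit 0) (nat_lit 22190861815) (nat_lit 76) (nat_lit 17220208808) (nat_lit 76) (nat_lit 1386014450) (nat_lit 10) (nat_lit 4) (nat_lit 11) (nat_lit 5) (nat_lit 11) (nat_lit 4) (nat_lit 331) (nat_lit 252) (nat_lit 197)))) (XT.nd (nat_lit 78) (nat_lit 76) (nat_lit 0) (XT.lf (nat_lit 0) (nat_lit 3137784272) (nat_lit 152) (nat_lit 9457033582) (nat_lit 76) (nat_lit 29973445238) (nat_lit 9) (nat_lit 5) (nat_lit 11) (nat_lit 5) (nat_lit 10) (nat_lit 4) (nat_lit 332) (nat_lit 252) (nat_lit 196)) (XT.nd (nat_lit 78) (nat_lit 0) (nat_lit 0) (XT.lf (nat_lit 0) (nat_lit 72937810) (nat_lit 76) (nat_lit 7739302650)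 (nat_lit 152) (nat_lit 36616082467) (nat_lit 8) (nat_lit 5) (nat_lit 9) (nat_lit 5) (nat_lit 10) (nat_lit 4) (nat_lit 333) (nat_lit 252) (nat_lit 195)) (XT.lf (nat_lit 0) (nat_lit 10352351854) (nat_lit 76) (nat_lit 2498703259) (nat_lit 152) (nat_lit 33523809645) (nat_lit 8) (nat_lit 5) (nat_lit 9) (nat_lit 5) (nat_lit 10) (nat_lit 4) (nat_lit 334) (nat_lit 252) (nat_lit 194))))))) (XT.nd (nat_lit 780) (nat_lit 76) (nat_lit 0) (XT.nd (nat_lit 390) (nat_lit 152) (nat_lit 0) (XT.nd (nat_lit 156) (nat_lit 76) (nat_lit 0) (XT.nd (nat_lit 78) (nat_lit 0) (nat_lit 0) (XT.lf (nat_lit 0) (nat_lit 18160207807) (nat_lit 152) (nat_lit 27373673945) (nat_lit 0) (nat_lit 2883942338) (nat_lit 8) (nat_lit 5) (nat_lit 10) (nat_lit 4) (nat_lit 8) (nat_lit 4) (nat_lit 335) (nat_lit 252) (nat_lit 193)) (XT.lf (nat_lit 0) (nat_lit 23748635344) (nat_lit 152) (nat_lit 18384571726) (nat_lit 0) (nat_lit 8429043242)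 (nat_lit 8) (nat_lit 5) (nat_lit 10) (nat_lit 4) (nat_lit 8) (nat_lit 4) (nat_lit 336) (nat_lit 252) (nat_lit 192))) (XT.nd (nat_lit 78) (nat_lit 76) (nat_lit 0) (XT.lf (nat_lit 0) (nat_lit 29590631744) (nat_lit 152) (nat_lit 8994791865) (nat_lit 0) (nat_lit 14229776181) (nat_lit 8) (nat_lit 5) (nat_lit 10) (nat_lit 4) (nat_lit 8) (nat_lit 4) (nat_lit 337) (nat_lit 252) (nat_lit 191)) (XT.nd (nat_lit 78) (nat_lit 0) (nat_lit 0) (XT.lf (nat_lit 0) (nat_lit 845069768) (nat_lit 76) (nat_lit 34868230661) (nat_lit 76) (nat_lit 19468076564) (nat_lit 7) (nat_lit 4) (nat_lit 8) (nat_lit 5) (nat_lit 8) (nat_lit 4) (nat_lit 338) (nat_lit 252) (nat_lit 190)) (XT.lf (nat_lit 0) (nat_lit 11443497885) (nat_lit 76) (nat_lit 30826773233) (nat_lit 76) (nat_lit 15389191962) (nat_lit 7) (nat_lit 4) (nat_lit 8) (nat_lit 5) (nat_lit 8) (nat_lit 4) (nat_lit 339) (nat_lit 252) (nat_lit 189))))) (XT.nd (nat_lit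 156) (nat_lit 152) (nat_lit 0) (XT.nd (nat_lit 78) (nat_lit 0) (nat_lit 0) (XT.lf (nat_lit 0) (nat_lit 22528318397) (nat_lit 76) (nat_lit 26603759962) (nat_lit 76) (nat_lit 11130533762) (nat_lit 7) (nat_lit 4) (nat_lit 8) (nat_lit 5) (nat_lit 8) (nat_lit 4) (nat_lit 340) (nat_lit 252) (nat_lit 188)) (XT.lf (nat_lit 0) (nat_lit 34125923733) (nat_lit 76) (nat_lit 22189136053) (nat_lit 76) (nat_lit 6681962303) (nat_lit 7) (nat_lit 4) (nat_lit 8) (nat_lit 5) (nat_lit 8) (nat_lit 4) (nat_lit 341) (nat_lit 252) (nat_lit 187))) (XT.nd (nat_lit 78) (nat_lit 152) (nat_lit 0) (XT.lf (nat_lit 0) (nat_lit 46263927241) (nat_lit 76) (nat_lit 17572390498) (nat_lit 76) (nat_lit 2032885746) (nat_lit 7) (nat_lit 4) (nat_lit 8) (nat_lit 5) (nat_lit 8) (nat_lit 4) (nat_lit 342) (nat_lit 252) (nat_lit 186)) (XT.nd (nat_lit 78) (nat_lit 76) (nat_lit 0) (XT.lf (nat_lit 0) (nat_lit 2737258992) (nat_lit 152)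 (nat_lit 9958915246) (nat_lit 76) (nat_lit 56187613129) (nat_lit 6) (nat_lit 5) (nat_lit 8) (nat_lit 5) (nat_lit 7) (nat_lit 4) (nat_lit 343) (nat_lit 252) (nat_lit 185)) (XT.lf (nat_lit 0) (nat_lit 103289531) (nat_lit 76) (nat_lit 7556666996) (nat_lit 152) (nat_lit 64388365732) (nat_lit 5) (nat_lit 5) (nat_lit 6) (nat_lit 5) (nat_lit 7) (nat_lit 4) (nat_lit 344) (nat_lit 252) (nat_lit 184)))))) (XT.nd (nat_lit 390) (nat_lit 76) (nat_lit 0) (XT.nd (nat_lit 156) (nat_lit 0) (nat_lit 0) (XT.nd (nat_lit 78) (nat_lit 0) (nat_lit 0) (XT.lf (nat_lit 0) (nat_lit 10978489385) (nat_lit 76) (nat_lit 2000066454) (nat_lit 152) (nat_lit 62385045719) (nat_lit 5) (nat_lit 5) (nat_lit 6) (nat_lit 5) (nat_lit 7) (nat_lit 4) (nat_lit 345) (nat_lit 252) (nat_lit 183)) (XT.lf (nat_lit 0) (nat_lit 18604705368) (nat_lit 152) (nat_lit 56541872013) (nat_lit 0) (nat_lit 3695992149) (nat_lit 5) (nat_lit 5) (nat_lit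 7) (nat_lit 4) (nat_lit 5) (nat_lit 4) (nat_lit 346) (nat_lit 252) (nat_lit 182))) (XT.nd (nat_lit 78) (nat_lit 0) (nat_lit 0) (XT.lf (nat_lit 0) (nat_lit 24527574236) (nat_lit 152) (nat_lit 48372411392) (nat_lit 0) (nat_lit 9594735126) (nat_lit 5) (nat_lit 5) (nat_lit 7) (nat_lit 4) (nat_lit 5) (nat_lit 4) (nat_lit 347) (nat_lit 252) (nat_lit 181)) (XT.nd (nat_lit 78) (nat_lit 0) (nat_lit 0) (XT.lf (nat_lit 0) (nat_lit 30730037870) (nat_lit 152) (nat_lit 39826052573) (nat_lit 0) (nat_lit 15774221721) (nat_lit 5) (nat_lit 5) (nat_lit 7) (nat_lit 4) (nat_lit 5) (nat_lit 4) (nat_lit 348) (nat_lit 252) (nat_lit 180)) (XT.lf (nat_lit 0) (nat_lit 37226864040) (nat_lit 152) (nat_lit 30882447082) (nat_lit 0) (nat_lit 22249164997) (nat_lit 5) (nat_lit 5) (nat_lit 7) (nat_lit 4) (nat_lit 5) (nat_lit 4) (nat_lit 349) (nat_lit 252) (nat_lit 179))))) (XT.nd (nat_lit 234) (nat_lit 76) (nat_lit 0)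 (XT.nd (nat_lit 78) (nat_lit 0) (nat_lit 0) (XT.lf (nat_lit 0) (nat_lit 44033521380) (nat_lit 152) (nat_lit 21520300620) (nat_lit 0) (nat_lit 29034981486) (nat_lit 5) (nat_lit 5) (nat_lit 7) (nat_lit 4) (nat_lit 5) (nat_lit 4) (nat_lit 350) (nat_lit 252) (nat_lit 178)) (XT.nd (nat_lit 78) (nat_lit 0) (nat_lit 0) (XT.lf (nat_lit 0) (nat_lit 51166216216) (nat_lit 152) (nat_lit 11717322361) (nat_lit 0) (nat_lit 36147827892) (nat_lit 5) (nat_lit 5) (nat_lit 7) (nat_lit 4) (nat_lit 5) (nat_lit 4) (nat_lit 351) (nat_lit 252) (nat_lit 177)) (XT.lf (nat_lit 0) (nat_lit 58641931157) (nat_lit 152) (nat_lit 1450171883) (nat_lit 0) (nat_lit 43604639566) (nat_lit 5) (nat_lit 5) (nat_lit 7) (nat_lit 4) (nat_lit 5) (nat_lit 4) (nat_lit 352) (nat_lit 252) (nat_lit 176)))) (XT.nd (nat_lit 78) (nat_lit 0) (nat_lit 0) (XT.lf (nat_lit 0) (nat_lit 9613281454) (nat_lit 76) (nat_lit 57015274332) (nat_lit 76)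 (nat_lit 41959979630) (nat_lit 4) (nat_lit 4) (nat_lit 5) (nat_lit 5) (nat_lit 5) (nat_lit 4) (nat_lit 353) (nat_lit 252) (nat_lit 175)) (XT.nd (nat_lit 78) (nat_lit 0) (nat_lit 0) (XT.lf (nat_lit 0) (nat_lit 21255913473) (nat_lit 76) (nat_lit 53770428633) (nat_lit 76) (nat_lit 38697988111) (nat_lit 4) (nat_lit 4) (nat_lit 5) (nat_lit 5) (nat_lit 5) (nat_lit 4) (nat_lit 354) (nat_lit 252) (nat_lit 174)) (XT.lf (nat_lit 0) (nat_lit 33457495492) (nat_lit 76) (nat_lit 50374399482) (nat_lit 76) (nat_lit 35285629608) (nat_lit 4) (nat_lit 4) (nat_lit 5) (nat_lit 5) (nat_lit 5) (nat_lit 4) (nat_lit 355) (nat_lit 252) (nat_lit 173))))))))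
noncomputable def xc84 : XT := (XT.nd (nat_lit 1560) (nat_lit 0) (nat_lit 0) (XT.nd (nat_lit 780) (nat_lit 0) (nat_lit 0) (XT.nd (nat_lit 390) (nat_lit 152) (nat_lit 0) (XT.nd (nat_lit 156) (nat_lit 0) (nat_lit 0) (XT.nd (nat_lit 78) (nat_lit 0) (nat_lit 0) (XT.lf (nat_lit 0) (nat_lit 46247078899) (nat_lit 76) (nat_lit 46819101097) (nat_lit 76) (nat_lit 31714779458) (nat_lit 4) (nat_lit 4) (nat_lit 5) (nat_lit 5) (nat_lit 5) (nat_lit 4) (nat_lit 356) (nat_lit 252) (nat_lit 172)) (XT.lf (nat_lit 0) (nat_lit 59655115081) (nat_lit 76) (nat_lit 43096068480) (nat_lit 76) (nat_lit 27976935638) (nat_lit 4) (nat_lit 4) (nat_lit 5) (nat_lit 5) (nat_lit 5) (nat_lit 4) (nat_lit 357) (nat_lit 252) (nat_lit 171))) (XT.nd (nat_lit 78) (nat_lit 0) (nat_lit 0) (XT.lf (nat_lit 0) (nat_lit 73713527936) (nat_lit 76) (nat_lit 39196437269) (nat_lit 76) (nat_lit 24063198518) (nat_lit 4) (nat_lit 4) (nat_lit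 5) (nat_lit 5) (nat_lit 5) (nat_lit 4) (nat_lit 358) (nat_lit 252) (nat_lit 170)) (XT.nd (nat_lit 78) (nat_lit 0) (nat_lit 0) (XT.lf (nat_lit 0) (nat_lit 88455789873) (nat_lit 76) (nat_lit 35110922627) (nat_lit 76) (nat_lit 19964249677) (nat_lit 4) (nat_lit 4) (nat_lit 5) (nat_lit 5) (nat_lit 5) (nat_lit 4) (nat_lit 359) (nat_lit 252) (nat_lit 169)) (XT.lf (nat_lit 0) (nat_lit 103917001518) (nat_lit 76) (nat_lit 30829797138) (nat_lit 76) (nat_lit 15670329713) (nat_lit 4) (nat_lit 4) (nat_lit 5) (nat_lit 5) (nat_lit 5) (nat_lit 4) (nat_lit 360) (nat_lit 252) (nat_lit 168))))) (XT.nd (nat_lit 156) (nat_lit 152) (nat_lit 0) (XT.nd (nat_lit 78) (nat_lit 0) (nat_lit 0) (XT.lf (nat_lit 0) (nat_lit 120133975278) (nat_lit 76) (nat_lit 26342867647) (nat_lit 76) (nat_lit 11171215008) (nat_lit 4) (nat_lit 4) (nat_lit 5) (nat_lit 5) (nat_lit 5) (nat_lit 4) (nat_lit 361) (nat_lit 252) (nat_lit 167))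 (XT.lf (nat_lit 0) (nat_lit 137145322996) (nat_lit 76) (nat_lit 21639450987) (nat_lit 76) (nat_lit 6456193382) (nat_lit 4) (nat_lit 4) (nat_lit 5) (nat_lit 5) (nat_lit 5) (nat_lit 4) (nat_lit 362) (nat_lit 252) (nat_lit 166))) (XT.nd (nat_lit 78) (nat_lit 152) (nat_lit 0) (XT.lf (nat_lit 0) (nat_lit 154991547881) (nat_lit 76) (nat_lit 16708348549) (nat_lit 76) (nat_lit 1514038595) (nat_lit 4) (nat_lit 4) (nat_lit 5) (nat_lit 5) (nat_lit 5) (nat_lit 4) (nat_lit 363) (nat_lit 252) (nat_lit 165)) (XT.nd (nat_lit 78) (nat_lit 76) (nat_lit 0) (XT.lf (nat_lit 0) (nat_lit 3549648962) (nat_lit 152) (nat_lit 7928055625) (nat_lit 76) (nat_lit 170105376959) (nat_lit 3) (nat_lit 5) (nat_lit 5) (nat_lit 5) (nat_lit 4) (nat_lit 4) (nat_lit 364) (nat_lit 252) (nat_lit 164)) (XT.lf (nat_lit 0) (nat_lit 2935647383) (nat_lit 76) (nat_lit 5918259050) (nat_lit 152) (nat_lit 181513626744) (nat_lit 2) (nat_lit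 5) (nat_lit 3) (nat_lit 5) (nat_lit 4) (nat_lit 4) (nat_lit 365) (nat_lit 252) (nat_lit 163)))))) (XT.nd (nat_lit 390) (nat_lit 0) (nat_lit 0) (XT.nd (nat_lit 156) (nat_lit 0) (nat_lit 0) (XT.nd (nat_lit 78) (nat_lit 0) (nat_lit 0) (XT.lf (nat_lit 0) (nat_lit 14551045948) (nat_lit 152) (nat_lit 184982170506) (nat_lit 0) (nat_lit 51609529) (nat_lit 2) (nat_lit 5) (nat_lit 4) (nat_lit 4) (nat_lit 2) (nat_lit 4) (nat_lit 366) (nat_lit 252) (nat_lit 162)) (XT.lf (nat_lit 0) (nat_lit 20622886697) (nat_lit 152) (nat_lit 182520816004) (nat_lit 0) (nat_lit 6114790474) (nat_lit 2) (nat_lit 5) (nat_lit 4) (nat_lit 4) (nat_lit 2) (nat_lit 4) (nat_lit 367) (nat_lit 252) (nat_lit 161))) (XT.nd (nat_lit 78) (nat_lit 0) (nat_lit 0) (XT.lf (nat_lit 0) (nat_lit 26991484832) (nat_lit 152) (nat_lit 179949561310) (nat_lit 0) (nat_lit 12475141176) (nat_lit 2) (nat_lit 5) (nat_lit 4) (nat_lit 4) (nat_lit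 2) (nat_lit 4) (nat_lit 368) (nat_lit 252) (nat_lit 160)) (XT.nd (nat_lit 78) (nat_lit 0) (nat_lit 0) (XT.lf (nat_lit 0) (nat_lit 33672003684) (nat_lit 152) (nat_lit 177262284390) (nat_lit 0) (nat_lit 19147805330) (nat_lit 2) (nat_lit 5) (nat_lit 4) (nat_lit 4) (nat_lit 2) (nat_lit 4) (nat_lit 369) (nat_lit 252) (nat_lit 159)) (XT.lf (nat_lit 0) (nat_lit 40680349248) (nat_lit 152) (nat_lit 174452586965) (nat_lit 0) (nat_lit 26148670231) (nat_lit 2) (nat_lit 5) (nat_lit 4) (nat_lit 4) (nat_lit 2) (nat_lit 4) (nat_lit 370) (nat_lit 252) (nat_lit 158))))) (XT.nd (nat_lit 156) (nat_lit 0) (nat_lit 0) (XT.nd (nat_lit 78) (nat_lit 0) (nat_lit 0) (XT.lf (nat_lit 0) (nat_lit 48033208063) (nat_lit 152) (nat_lit 171513779280) (nat_lit 0) (nat_lit 33494404603) (nat_lit 2) (nat_lit 5) (nat_lit 4) (nat_lit 4) (nat_lit 2) (nat_lit 4) (nat_lit 371) (nat_lit 252) (nat_lit 157)) (XT.lf (nat_lit 0) (nat_lit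 55748086936) (nat_lit 152) (nat_lit 168438864174) (nat_lit 0) (nat_lit 41202498292) (nat_lit 2) (nat_lit 5) (nat_lit 4) (nat_lit 4) (nat_lit 2) (nat_lit 4) (nat_lit 372) (nat_lit 252) (nat_lit 156))) (XT.nd (nat_lit 78) (nat_lit 0) (nat_lit 0) (XT.lf (nat_lit 0) (nat_lit 63843354624) (nat_lit 152) (nat_lit 165220520419) (nat_lit 0) (nat_lit 49291303901) (nat_lit 2) (nat_lit 5) (nat_lit 4) (nat_lit 4) (nat_lit 2) (nat_lit 4) (nat_lit 373) (nat_lit 252) (nat_lit 155)) (XT.nd (nat_lit 78) (nat_lit 0) (nat_lit 0) (XT.lf (nat_lit 0) (nat_lit 72338285576) (nat_lit 152) (nat_lit 161851085293) (nat_lit 0) (nat_lit 57780080492) (nat_lit 2) (nat_lit 5) (nat_lit 4) (nat_lit 4) (nat_lit 2) (nat_lit 4) (nat_lit 374) (nat_lit 252) (nat_lit 154)) (XT.lf (nat_lit 0) (nat_lit 81253105816) (nat_lit 152) (nat_lit 158322536332) (nat_lit 0) (nat_lit 66689039436) (nat_lit 2) (nat_lit 5) (nat_lit 4) (nat_lit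 4) (nat_lit 2) (nat_lit 4) (nat_lit 375) (nat_lit 252) (nat_lit 153))))))) (XT.nd (nat_lit 780) (nat_lit 0) (nat_lit 0) (XT.nd (nat_lit 390) (nat_lit 0) (nat_lit 0) (XT.nd (nat_lit 156) (nat_lit 0) (nat_lit 0) (XT.nd (nat_lit 78) (nat_lit 0) (nat_lit 0) (XT.lf (nat_lit 0) (nat_lit 90609041109) (nat_lit 152) (nat_lit 154626472227) (nat_lit 0) (nat_lit 76039392542) (nat_lit 2) (nat_lit 5) (nat_lit 4) (nat_lit 4) (nat_lit 2) (nat_lit 4) (nat_lit 376) (nat_lit 252) (nat_lit 152)) (XT.lf (nat_lit 0) (nat_lit 100428367489) (nat_lit 152) (nat_lit 150754092827) (nat_lit 0) (nat_lit 85853402554) (nat_lit 2) (nat_lit 5) (nat_lit 4) (nat_lit 4) (nat_lit 2) (nat_lit 4) (nat_lit 377) (nat_lit 252) (nat_lit 151))) (XT.nd (nat_lit 78) (nat_lit 0) (nat_lit 0) (XT.lf (nat_lit 0) (nat_lit 110734464307) (nat_lit 152) (nat_lit 146696178180) (nat_lit 0) (nat_lit 96154436163) (nat_lit 2) (nat_lit 5) (nat_lit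 4) (nat_lit 4) (nat_lit 2) (nat_lit 4) (nat_lit 378) (nat_lit 252) (nat_lit 150)) (XT.nd (nat_lit 78) (nat_lit 0) (nat_lit 0) (XT.lf (nat_lit 0) (nat_lit 121551869886) (nat_lit 152) (nat_lit 142443066585) (nat_lit 0) (nat_lit 106967019639) (nat_lit 2) (nat_lit 5) (nat_lit 4) (nat_lit 4) (nat_lit 2) (nat_lit 4) (nat_lit 379) (nat_lit 252) (nat_lit 149)) (XT.lf (nat_lit 0) (nat_lit 132906339956) (nat_lit 152) (nat_lit 137984631587) (nat_lit 0) (nat_lit 118316897230) (nat_lit 2) (nat_lit 5) (nat_lit 4) (nat_lit 4) (nat_lit 2) (nat_lit 4) (nat_lit 380) (nat_lit 252) (nat_lit 148))))) (XT.nd (nat_lit 156) (nat_lit 0) (nat_lit 0) (XT.nd (nat_lit 78) (nat_lit 0) (nat_lit 0) (XT.lf (nat_lit 0) (nat_lit 144824908968) (nat_lit 152) (nat_lit 133310257862) (nat_lit 0) (nat_lit 130231092452) (nat_lit 2) (nat_lit 5) (nat_lit 4) (nat_lit 4) (nat_lit 2) (nat_lit 4) (nat_lit 381) (nat_lit 252) (nat_lit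 147)) (XT.lf (nat_lit 0) (nat_lit 157335954467) (nat_lit 152) (nat_lit 128408815951) (nat_lit 0) (nat_lit 142737972438) (nat_lit 2) (nat_lit 5) (nat_lit 4) (nat_lit 4) (nat_lit 2) (nat_lit 4) (nat_lit 382) (nat_lit 252) (nat_lit 146))) (XT.nd (nat_lit 78) (nat_lit 0) (nat_lit 0) (XT.lf (nat_lit 0) (nat_lit 170469264659) (nat_lit 152) (nat_lit 123268635753) (nat_lit 0) (nat_lit 155867315473) (nat_lit 2) (nat_lit 5) (nat_lit 4) (nat_lit 4) (nat_lit 2) (nat_lit 4) (nat_lit 383) (nat_lit 252) (nat_lit 145)) (XT.nd (nat_lit 78) (nat_lit 0) (nat_lit 0) (XT.lf (nat_lit 0) (nat_lit 184256109327) (nat_lit 152) (nat_lit 117877478744) (nat_lit 0) (nat_lit 169650381898) (nat_lit 2) (nat_lit 5) (nat_lit 4) (nat_lit 4) (nat_lit 2) (nat_lit 4) (nat_lit 384) (nat_lit 252) (nat_lit 144)) (XT.lf (nat_lit 0) (nat_lit 198729314294) (nat_lit 152) (nat_lit 112222508836) (nat_lit 0) (nat_lit 184119988537)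 (nat_lit 2) (nat_lit 5) (nat_lit 4) (nat_lit 4) (nat_lit 2) (nat_lit 4) (nat_lit 385) (nat_lit 252) (nat_lit 143)))))) (XT.nd (nat_lit 31902) (nat_lit 0) (nat_lit 5852) (XT.nd (nat_lit 156) (nat_lit 0) (nat_lit 0) (XT.nd (nat_lit 78) (nat_lit 0) (nat_lit 0) (XT.lf (nat_lit 0) (nat_lit 213923339571) (nat_lit 152) (nat_lit 106290261815) (nat_lit 0) (nat_lit 199310586835) (nat_lit 2) (nat_lit 5) (nat_lit 4) (nat_lit 4) (nat_lit 2) (nat_lit 4) (nat_lit 386) (nat_lit 252) (nat_lit 142)) (XT.lf (nat_lit 0) (nat_lit 229874361408) (nat_lit 152) (nat_lit 100066613283) (nat_lit 0) (nat_lit 215258344883) (nat_lit 2) (nat_lit 5) (nat_lit 4) (nat_lit 4) (nat_lit 2) (nat_lit 4) (nat_lit 387) (nat_lit 252) (nat_lit 141))) (XT.nd (nat_lit 78) (nat_lit 0) (nat_lit 0) (XT.lf (nat_lit 0) (nat_lit 246620358429) (nat_lit 152) (nat_lit 93536745030) (nat_lit 0) (nat_lit 232001233534) (nat_lit 2) (nat_lit 5)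 (nat_lit 4) (nat_lit 4) (nat_lit 2) (nat_lit 4) (nat_lit 388) (nat_lit 252) (nat_lit 140)) (XT.nd (nat_lit 78) (nat_lit 0) (nat_lit 0) (XT.lf (nat_lit 0) (nat_lit 264201202056) (nat_lit 152) (nat_lit 86685109750) (nat_lit 0) (nat_lit 249579116808) (nat_lit 2) (nat_lit 5) (nat_lit 4) (nat_lit 4) (nat_lit 2) (nat_lit 4) (nat_lit 389) (nat_lit 252) (nat_lit 139)) (XT.lf (nat_lit 0) (nat_lit 282658751440) (nat_lit 152) (nat_lit 79495394025) (nat_lit 0) (nat_lit 268033846808) (nat_lit 2) (nat_lit 5) (nat_lit 4) (nat_lit 4) (nat_lit 2) (nat_lit 4) (nat_lit 390) (nat_lit 252) (nat_lit 138))))) (XT.nd (nat_lit 234) (nat_lit 1064) (nat_lit 0) (XT.nd (nat_lit 78) (nat_lit 684) (nat_lit 0) (XT.lf (nat_lit 0) (nat_lit 160605270) (nat_lit 684) (nat_lit 3201211788) (nat_lit 0) (nat_lit 160605270) (nat_lit 102) (nat_lit 5) (nat_lit 111) (nat_lit 4) (nat_lit 102) (nat_lit 4) (nat_lit 274) (nat_lit 253)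 (nat_lit 253)) (XT.nd (nat_lit 78) (nat_lit 684) (nat_lit 0) (XT.lf (nat_lit 0) (nat_lit 3568293247) (nat_lit 684) (nat_lit 1681616499) (nat_lit 0) (nat_lit 1885803702) (nat_lit 102) (nat_lit 5) (nat_lit 111) (nat_lit 4) (nat_lit 102) (nat_lit 4) (nat_lit 275) (nat_lit 253) (nat_lit 252)) (XT.lf (nat_lit 0) (nat_lit 3219537323) (nat_lit 684) (nat_lit 3651083126) (nat_lit 684) (nat_lit 366222586) (nat_lit 93) (nat_lit 4) (nat_lit 102) (nat_lit 5) (nat_lit 102) (nat_lit 4) (nat_lit 276) (nat_lit 253) (nat_lit 251)))) (XT.nd (nat_lit 78) (nat_lit 456) (nat_lit 0) (XT.lf (nat_lit 0) (nat_lit 902548225) (nat_lit 532) (nat_lit 1884513423) (nat_lit 608) (nat_lit 4559563307) (nat_lit 85) (nat_lit 5) (nat_lit 92) (nat_lit 5) (nat_lit 93) (nat_lit 4) (nat_lit 277) (nat_lit 253) (nat_lit 250)) (XT.nd (nat_lit 78) (nat_lit 456) (nat_lit 0) (XT.lf (nat_lit 0) (nat_lit 6004008052) (nat_lit 608) (nat_lit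 1424001662) (nat_lit 0) (nat_lit 37983402) (nat_lit 85) (nat_lit 5) (nat_lit 93) (nat_lit 4) (nat_lit 85) (nat_lit 4) (nat_lit 278) (nat_lit 253) (nat_lit 249)) (XT.lf (nat_lit 0) (nat_lit 1678665841) (nat_lit 456) (nat_lit 3843034258) (nat_lit 76) (nat_lit 2071240404) (nat_lit 79) (nat_lit 5) (nat_lit 85) (nat_lit 5) (nat_lit 80) (nat_lit 4) (nat_lit 279) (nat_lit 253) (nat_lit 248))))))))
noncomputable def xc85 : XT := (XT.nd (nat_lit 1638) (nat_lit 1444) (nat_lit 0) (XT.nd (nat_lit 780) (nat_lit 1368) (nat_lit 0) (XT.nd (nat_lit 390) (nat_lit 1064) (nat_lit 0) (XT.nd (nat_lit 156) (nat_lit 684) (nat_lit 0) (XT.nd (nat_lit 78) (nat_lit 76) (nat_lit 0) (XT.lf (nat_lit 0) (nat_lit 1365084462) (nat_lit 304) (nat_lit 3466565927) (nat_lit 380) (nat_lit 2898434889) (nat_lit 75) (nat_lit 5) (nat_lit 79) (nat_lit 5) (nat_lit 80) (nat_lit 4) (nat_lit 280) (nat_lit 253) (nat_lit 247)) (XT.lf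 (nat_lit 0) (nat_lit 186132819) (nat_lit 380) (nat_lit 1072481788) (nat_lit 76) (nat_lit 6619182251) (nat_lit 74) (nat_lit 5) (nat_lit 79) (nat_lit 5) (nat_lit 75) (nat_lit 5) (nat_lit 281) (nat_lit 253) (nat_lit 246))) (XT.nd (nat_lit 78) (nat_lit 380) (nat_lit 0) (XT.lf (nat_lit 0) (nat_lit 3281700068) (nat_lit 380) (nat_lit 3628979520) (nat_lit 76) (nat_lit 1122363050) (nat_lit 70) (nat_lit 5) (nat_lit 75) (nat_lit 5) (nat_lit 71) (nat_lit 4) (nat_lit 282) (nat_lit 253) (nat_lit 245)) (XT.nd (nat_lit 78) (nat_lit 76) (nat_lit 0) (XT.lf (nat_lit 0) (nat_lit 1876216201) (nat_lit 304) (nat_lit 4594800136) (nat_lit 380) (nat_lit 1728307995) (nat_lit 66) (nat_lit 5) (nat_lit 70) (nat_lit 5) (nat_lit 71) (nat_lit 4) (nat_lit 283) (nat_lit 253) (nat_lit 244)) (XT.lf (nat_lit 0) (nat_lit 1334099261) (nat_lit 380) (nat_lit 773058983) (nat_lit 76) (nat_lit 6269109755) (nat_lit 65) (nat_lit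 5) (nat_lit 70) (nat_lit 5) (nat_lit 66) (nat_lit 5) (nat_lit 284) (nat_lit 253) (nat_lit 243))))) (XT.nd (nat_lit 156) (nat_lit 532) (nat_lit 0) (XT.nd (nat_lit 78) (nat_lit 228) (nat_lit 0) (XT.lf (nat_lit 0) (nat_lit 4457399344) (nat_lit 380) (nat_lit 3538481074) (nat_lit 76) (nat_lit 566660948) (nat_lit 61) (nat_lit 5) (nat_lit 66) (nat_lit 5) (nat_lit 62) (nat_lit 4) (nat_lit 285) (nat_lit 253) (nat_lit 242)) (XT.lf (nat_lit 0) (nat_lit 2261290525) (nat_lit 228) (nat_lit 5439788404) (nat_lit 304) (nat_lit 1059021516) (nat_lit 58) (nat_lit 5) (nat_lit 61) (nat_lit 5) (nat_lit 62) (nat_lit 4) (nat_lit 286) (nat_lit 253) (nat_lit 241))) (XT.nd (nat_lit 78) (nat_lit 456) (nat_lit 0) (XT.lf (nat_lit 0) (nat_lit 2014089465) (nat_lit 304) (nat_lit 683285444) (nat_lit 76) (nat_lit 6271500302) (nat_lit 57) (nat_lit 5) (nat_lit 61) (nat_lit 5) (nat_lit 58) (nat_lit 5) (nat_lit 287) (nat_lit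 253) (nat_lit 240)) (XT.nd (nat_lit 78) (nat_lit 228) (nat_lit 0) (XT.lf (nat_lit 0) (nat_lit 5181796243) (nat_lit 304) (nat_lit 3763979953) (nat_lit 76) (nat_lit 242775838) (nat_lit 54) (nat_lit 5) (nat_lit 58) (nat_lit 5) (nat_lit 55) (nat_lit 4) (nat_lit 288) (nat_lit 253) (nat_lit 239)) (XT.lf (nat_lit 0) (nat_lit 2319452466) (nat_lit 228) (nat_lit 6170900644) (nat_lit 304) (nat_lit 929886715) (nat_lit 51) (nat_lit 5) (nat_lit 54) (nat_lit 5) (nat_lit 55) (nat_lit 4) (nat_lit 289) (nat_lit 253) (nat_lit 238)))))) (XT.nd (nat_lit 390) (nat_lit 608) (nat_lit 0) (XT.nd (nat_lit 156) (nat_lit 456) (nat_lit 0) (XT.nd (nat_lit 78) (nat_lit 228) (nat_lit 0) (XT.lf (nat_lit 0) (nat_lit 2183225874) (nat_lit 304) (nat_lit 1014104509) (nat_lit 76) (nat_lit 6466719847) (nat_lit 50) (nat_lit 5) (nat_lit 54) (nat_lit 5) (nat_lit 51) (nat_lit 5) (nat_lit 290) (nat_lit 253) (nat_lit 237)) (XT.lf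 (nat_lit 0) (nat_lit 5386896285) (nat_lit 228) (nat_lit 14381624) (nat_lit 304) (nat_lit 4519114232) (nat_lit 47) (nat_lit 5) (nat_lit 50) (nat_lit 5) (nat_lit 51) (nat_lit 5) (nat_lit 291) (nat_lit 253) (nat_lit 236))) (XT.nd (nat_lit 78) (nat_lit 304) (nat_lit 0) (XT.lf (nat_lit 0) (nat_lit 1810889820) (nat_lit 152) (nat_lit 6965441588) (nat_lit 228) (nat_lit 1413538501) (nat_lit 45) (nat_lit 5) (nat_lit 47) (nat_lit 5) (nat_lit 48) (nat_lit 4) (nat_lit 292) (nat_lit 253) (nat_lit 235)) (XT.nd (nat_lit 78) (nat_lit 228) (nat_lit 0) (XT.lf (nat_lit 0) (nat_lit 1765683054) (nat_lit 228) (nat_lit 2019763362) (nat_lit 76) (nat_lit 6687170632) (nat_lit 44) (nat_lit 5) (nat_lit 47) (nat_lit 5) (nat_lit 45) (nat_lit 5) (nat_lit 293) (nat_lit 253) (nat_lit 234)) (XT.lf (nat_lit 0) (nat_lit 4639563116) (nat_lit 228) (nat_lit 393255314) (nat_lit 304) (nat_lit 5736808491) (nat_lit 41) (nat_lit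 5) (nat_lit 44) (nat_lit 5) (nat_lit 45) (nat_lit 5) (nat_lit 294) (nat_lit 253) (nat_lit 233))))) (XT.nd (nat_lit 234) (nat_lit 228) (nat_lit 0) (XT.nd (nat_lit 78) (nat_lit 228) (nat_lit 0) (XT.lf (nat_lit 0) (nat_lit 441388632) (nat_lit 152) (nat_lit 8018703257) (nat_lit 228) (nat_lit 2621658106) (nat_lit 39) (nat_lit 5) (nat_lit 41) (nat_lit 5) (nat_lit 42) (nat_lit 4) (nat_lit 295) (nat_lit 253) (nat_lit 232)) (XT.nd (nat_lit 78) (nat_lit 152) (nat_lit 0) (XT.lf (nat_lit 0) (nat_lit 646751177) (nat_lit 228) (nat_lit 4014099222) (nat_lit 76) (nat_lit 6747300234) (nat_lit 38) (nat_lit 5) (nat_lit 41) (nat_lit 5) (nat_lit 39) (nat_lit 5) (nat_lit 296) (nat_lit 253) (nat_lit 231)) (XT.lf (nat_lit 0) (nat_lit 2852991442) (nat_lit 152) (nat_lit 1092805987) (nat_lit 228) (nat_lit 7805246818) (nat_lit 36) (nat_lit 5) (nat_lit 38) (nat_lit 5) (nat_lit 39) (nat_lit 5) (nat_lit 297) (nat_lit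 253) (nat_lit 230)))) (XT.nd (nat_lit 78) (nat_lit 228) (nat_lit 0) (XT.lf (nat_lit 0) (nat_lit 7432443921) (nat_lit 228) (nat_lit 2087679256) (nat_lit 76) (nat_lit 2589910697) (nat_lit 36) (nat_lit 5) (nat_lit 39) (nat_lit 5) (nat_lit 37) (nat_lit 4) (nat_lit 298) (nat_lit 253) (nat_lit 229)) (XT.nd (nat_lit 78) (nat_lit 76) (nat_lit 0) (XT.lf (nat_lit 0) (nat_lit 5074132872) (nat_lit 152) (nat_lit 6032732825) (nat_lit 228) (nat_lit 1379514880) (nat_lit 34) (nat_lit 5) (nat_lit 36) (nat_lit 5) (nat_lit 37) (nat_lit 4) (nat_lit 299) (nat_lit 253) (nat_lit 228)) (XT.lf (nat_lit 0) (nat_lit 1969542031) (nat_lit 228) (nat_lit 380607286) (nat_lit 76) (nat_lit 10532203094) (nat_lit 33) (nat_lit 5) (nat_lit 36) (nat_lit 5) (nat_lit 34) (nat_lit 5) (nat_lit 300) (nat_lit 253) (nat_lit 227))))))) (XT.nd (nat_lit 780) (nat_lit 532) (nat_lit 0) (XT.nd (nat_lit 390) (nat_lit 380) (nat_lit 0) (XT.nd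 (nat_lit 156) (nat_lit 228) (nat_lit 0) (XT.nd (nat_lit 78) (nat_lit 152) (nat_lit 0) (XT.lf (nat_lit 0) (nat_lit 5496097836) (nat_lit 228) (nat_lit 6241878385) (nat_lit 76) (nat_lit 1556264409) (nat_lit 31) (nat_lit 5) (nat_lit 34) (nat_lit 5) (nat_lit 32) (nat_lit 4) (nat_lit 301) (nat_lit 253) (nat_lit 226)) (XT.lf (nat_lit 0) (nat_lit 1008474365) (nat_lit 152) (nat_lit 8173170671) (nat_lit 228) (nat_lit 4546010648) (nat_lit 29) (nat_lit 5) (nat_lit 31) (nat_lit 5) (nat_lit 32) (nat_lit 4) (nat_lit 302) (nat_lit 253) (nat_lit 225))) (XT.nd (nat_lit 78) (nat_lit 228) (nat_lit 0) (XT.lf (nat_lit 0) (nat_lit 8711165221) (nat_lit 152) (nat_lit 4369594523) (nat_lit 228) (nat_lit 1100579720) (nat_lit 29) (nat_lit 5) (nat_lit 31) (nat_lit 5) (nat_lit 32) (nat_lit 4) (nat_lit 303) (nat_lit 253) (nat_lit 224)) (XT.nd (nat_lit 78) (nat_lit 0) (nat_lit 0) (XT.lf (nat_lit 0) (nat_lit 2044060703)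 (nat_lit 152) (nat_lit 350381123) (nat_lit 228) (nat_lit 12263463174) (nat_lit 26) (nat_lit 5) (nat_lit 28) (nat_lit 5) (nat_lit 29) (nat_lit 5) (nat_lit 304) (nat_lit 253) (nat_lit 223)) (XT.lf (nat_lit 0) (nat_lit 6108640229) (nat_lit 228) (nat_lit 5233992650) (nat_lit 76) (nat_lit 3810747167) (nat_lit 26) (nat_lit 5) (nat_lit 29) (nat_lit 5) (nat_lit 27) (nat_lit 4) (nat_lit 305) (nat_lit 253) (nat_lit 222))))) (XT.nd (nat_lit 156) (nat_lit 304) (nat_lit 0) (XT.nd (nat_lit 78) (nat_lit 0) (nat_lit 0) (XT.lf (nat_lit 0) (nat_lit 2469808303) (nat_lit 76) (nat_lit 7513364282) (nat_lit 152) (nat_lit 5691776463) (nat_lit 25) (nat_lit 5) (nat_lit 26) (nat_lit 5) (nat_lit 27) (nat_lit 4) (nat_lit 306) (nat_lit 253) (nat_lit 221)) (XT.lf (nat_lit 0) (nat_lit 10624071947) (nat_lit 76) (nat_lit 3447819430) (nat_lit 152) (nat_lit 2149731083) (nat_lit 25) (nat_lit 5) (nat_lit 26) (nat_lit 5)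 (nat_lit 27) (nat_lit 4) (nat_lit 307) (nat_lit 253) (nat_lit 220))) (XT.nd (nat_lit 78) (nat_lit 76) (nat_lit 0) (XT.lf (nat_lit 0) (nat_lit 1502557949) (nat_lit 228) (nat_lit 14481734005) (nat_lit 76) (nat_lit 810988218) (nat_lit 22) (nat_lit 5) (nat_lit 25) (nat_lit 5) (nat_lit 23) (nat_lit 4) (nat_lit 308) (nat_lit 253) (nat_lit 219)) (XT.nd (nat_lit 78) (nat_lit 76) (nat_lit 0) (XT.lf (nat_lit 0) (nat_lit 5352724677) (nat_lit 228) (nat_lit 6785510187) (nat_lit 76) (nat_lit 5253290705) (nat_lit 22) (nat_lit 5) (nat_lit 25) (nat_lit 5) (nat_lit 23) (nat_lit 4) (nat_lit 309) (nat_lit 253) (nat_lit 218)) (XT.lf (nat_lit 0) (nat_lit 1226352817) (nat_lit 76) (nat_lit 8125941722) (nat_lit 152) (nat_lit 8667484233) (nat_lit 21) (nat_lit 5) (nat_lit 22) (nat_lit 5) (nat_lit 23) (nat_lit 4) (nat_lit 310) (nat_lit 253) (nat_lit 217)))))) (XT.nd (nat_lit 390) (nat_lit 228) (nat_lit 0) (XT.nd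 (nat_lit 156) (nat_lit 304) (nat_lit 0) (XT.nd (nat_lit 78) (nat_lit 0) (nat_lit 0) (XT.lf (nat_lit 0) (nat_lit 9767712368) (nat_lit 76) (nat_lit 3838093317) (nat_lit 152) (nat_lit 5070979167) (nat_lit 21) (nat_lit 5) (nat_lit 22) (nat_lit 5) (nat_lit 23) (nat_lit 4) (nat_lit 311) (nat_lit 253) (nat_lit 216)) (XT.lf (nat_lit 0) (nat_lit 18023631171) (nat_lit 152) (nat_lit 744724232) (nat_lit 0) (nat_lit 600740424) (nat_lit 21) (nat_lit 5) (nat_lit 23) (nat_lit 4) (nat_lit 21) (nat_lit 4) (nat_lit 312) (nat_lit 253) (nat_lit 215))) (XT.nd (nat_lit 78) (nat_lit 76) (nat_lit 0) (XT.lf (nat_lit 0) (nat_lit 2616926160) (nat_lit 228) (nat_lit 12212247444) (nat_lit 76) (nat_lit 5258241552) (nat_lit 18) (nat_lit 5) (nat_lit 21) (nat_lit 5) (nat_lit 19) (nat_lit 4) (nat_lit 313) (nat_lit 253) (nat_lit 214)) (XT.nd (nat_lit 78) (nat_lit 76) (nat_lit 0) (XT.lf (nat_lit 0) (nat_lit 6689319292) (nat_lit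 228) (nat_lit 4010560883) (nat_lit 76) (nat_lit 10142844035) (nat_lit 18) (nat_lit 5) (nat_lit 21) (nat_lit 5) (nat_lit 19) (nat_lit 4) (nat_lit 314) (nat_lit 253) (nat_lit 213)) (XT.lf (nat_lit 0) (nat_lit 4655759691) (nat_lit 76) (nat_lit 6329195356) (nat_lit 152) (nat_lit 10649892575) (nat_lit 17) (nat_lit 5) (nat_lit 18) (nat_lit 5) (nat_lit 19) (nat_lit 4) (nat_lit 315) (nat_lit 253) (nat_lit 212))))) (XT.nd (nat_lit 234) (nat_lit 76) (nat_lit 0) (XT.nd (nat_lit 78) (nat_lit 152) (nat_lit 0) (XT.lf (nat_lit 0) (nat_lit 13801693819) (nat_lit 76) (nat_lit 1709608989) (nat_lit 152) (nat_lit 6954506506) (nat_lit 17) (nat_lit 5) (nat_lit 18) (nat_lit 5) (nat_lit 19) (nat_lit 4) (nat_lit 316) (nat_lit 253) (nat_lit 211)) (XT.nd (nat_lit 78) (nat_lit 152) (nat_lit 0) (XT.lf (nat_lit 0) (nat_lit 20262883375) (nat_lit 152) (nat_lit 72842059) (nat_lit 0) (nat_lit 3002675148) (nat_lit 17)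 (nat_lit 5) (nat_lit 19) (nat_lit 4) (nat_lit 17) (nat_lit 4) (nat_lit 317) (nat_lit 253) (nat_lit 210)) (XT.lf (nat_lit 0) (nat_lit 1090256547) (nat_lit 152) (nat_lit 15140140760) (nat_lit 76) (nat_lit 8017232267) (nat_lit 15) (nat_lit 5) (nat_lit 17) (nat_lit 5) (nat_lit 16) (nat_lit 4) (nat_lit 318) (nat_lit 253) (nat_lit 209)))) (XT.nd (nat_lit 78) (nat_lit 76) (nat_lit 0) (XT.lf (nat_lit 0) (nat_lit 5314638038) (nat_lit 152) (nat_lit 6589642949) (nat_lit 76) (nat_lit 13297857833) (nat_lit 15) (nat_lit 5) (nat_lit 17) (nat_lit 5) (nat_lit 16) (nat_lit 4) (nat_lit 319) (nat_lit 253) (nat_lit 208)) (XT.nd (nat_lit 78) (nat_lit 0) (nat_lit 0) (XT.lf (nat_lit 0) (nat_lit 2382431268) (nat_lit 76) (nat_lit 7359692100) (nat_lit 152) (nat_lit 16462678348) (nat_lit 14) (nat_lit 5) (nat_lit 15) (nat_lit 5) (nat_lit 16) (nat_lit 4) (nat_lit 320) (nat_lit 253) (nat_lit 207)) (XT.lf (nat_lit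 0) (nat_lit 11951011382) (nat_lit 76) (nat_lit 2507153718) (nat_lit 152) (nat_lit 12796094909) (nat_lit 14) (nat_lit 5) (nat_lit 15) (nat_lit 5) (nat_lit 16) (nat_lit 4) (nat_lit 321) (nat_lit 253) (nat_lit 206))))))))
noncomputable def xc86 : XT := (XT.nd (nat_lit 1560) (nat_lit 228) (nat_lit 0) (XT.nd (nat_lit 780) (nat_lit 228) (nat_lit 0) (XT.nd (nat_lit 390) (nat_lit 76) (nat_lit 0) (XT.nd (nat_lit 156) (nat_lit 152) (nat_lit 0) (XT.nd (nat_lit 78) (nat_lit 76) (nat_lit 0) (XT.lf (nat_lit 0) (nat_lit 19407571340) (nat_lit 152) (nat_lit 6477194263) (nat_lit 0) (nat_lit 2471567834) (nat_lit 14) (nat_lit 5) (nat_lit 16) (nat_lit 4) (nat_lit 14) (nat_lit 4) (nat_lit 322) (nat_lit 253) (nat_lit 205)) (XT.lf (nat_lit 0) (nat_lit 2762608930) (nat_lit 76) (nat_lit 21885268392) (nat_lit 76) (nat_lit 4863481116) (nat_lit 13) (nat_lit 4) (nat_lit 14) (nat_lit 5) (nat_lit 14) (nat_lit 4) (nat_lit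 323) (nat_lit 253) (nat_lit 204))) (XT.nd (nat_lit 78) (nat_lit 152) (nat_lit 0) (XT.lf (nat_lit 0) (nat_lit 12615609735) (nat_lit 76) (nat_lit 17604272660) (nat_lit 76) (nat_lit 500786554) (nat_lit 13) (nat_lit 4) (nat_lit 14) (nat_lit 5) (nat_lit 14) (nat_lit 4) (nat_lit 324) (nat_lit 253) (nat_lit 203)) (XT.nd (nat_lit 78) (nat_lit 76) (nat_lit 0) (XT.lf (nat_lit 0) (nat_lit 3910708839) (nat_lit 152) (nat_lit 9164341392) (nat_lit 76) (nat_lit 18914163797) (nat_lit 12) (nat_lit 5) (nat_lit 14) (nat_lit 5) (nat_lit 13) (nat_lit 4) (nat_lit 325) (nat_lit 253) (nat_lit 202)) (XT.lf (nat_lit 0) (nat_lit 152014711) (nat_lit 76) (nat_lit 8339406006) (nat_lit 152) (nat_lit 24831097531) (nat_lit 11) (nat_lit 5) (nat_lit 12) (nat_lit 5) (nat_lit 13) (nat_lit 4) (nat_lit 326) (nat_lit 253) (nat_lit 201))))) (XT.nd (nat_lit 156) (nat_lit 76) (nat_lit 0) (XT.nd (nat_lit 78) (nat_lit 0) (nat_lit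 0) (XT.lf (nat_lit 0) (nat_lit 10185398083) (nat_lit 76) (nat_lit 3234782582) (nat_lit 152) (nat_lit 21296371570) (nat_lit 11) (nat_lit 5) (nat_lit 12) (nat_lit 5) (nat_lit 13) (nat_lit 4) (nat_lit 327) (nat_lit 253) (nat_lit 200)) (XT.lf (nat_lit 0) (nat_lit 18593632730) (nat_lit 152) (nat_lit 15558063363) (nat_lit 0) (nat_lit 2028693578) (nat_lit 11) (nat_lit 5) (nat_lit 13) (nat_lit 4) (nat_lit 11) (nat_lit 4) (nat_lit 328) (nat_lit 253) (nat_lit 199))) (XT.nd (nat_lit 78) (nat_lit 76) (nat_lit 0) (XT.lf (nat_lit 0) (nat_lit 24045525469) (nat_lit 152) (nat_lit 6251297481) (nat_lit 0) (nat_lit 7419621393) (nat_lit 11) (nat_lit 5) (nat_lit 13) (nat_lit 4) (nat_lit 11) (nat_lit 4) (nat_lit 329) (nat_lit 253) (nat_lit 198)) (XT.nd (nat_lit 78) (nat_lit 0) (nat_lit 0) (XT.lf (nat_lit 0) (nat_lit 3576269437) (nat_lit 76) (nat_lit 26217901709) (nat_lit 76) (nat_lit 9533935800) (nat_lit 10)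 (nat_lit 4) (nat_lit 11) (nat_lit 5) (nat_lit 11) (nat_lit 4) (nat_lit 330) (nat_lit 253) (nat_lit 197)) (XT.lf (nat_lit 0) (nat_lit 14054197037) (nat_lit 76) (nat_lit 21850845671) (nat_lit 76) (nat_lit 5111582779) (nat_lit 10) (nat_lit 4) (nat_lit 11) (nat_lit 5) (nat_lit 11) (nat_lit 4) (nat_lit 331) (nat_lit 253) (nat_lit 196)))))) (XT.nd (nat_lit 390) (nat_lit 76) (nat_lit 0) (XT.nd (nat_lit 156) (nat_lit 76) (nat_lit 0) (XT.nd (nat_lit 78) (nat_lit 76) (nat_lit 0) (XT.lf (nat_lit 0) (nat_lit 25000736639) (nat_lit 76) (nat_lit 17291125832) (nat_lit 76) (nat_lit 499199147) (nat_lit 10) (nat_lit 4) (nat_lit 11) (nat_lit 5) (nat_lit 11) (nat_lit 4) (nat_lit 332) (nat_lit 253) (nat_lit 195)) (XT.lf (nat_lit 0) (nat_lit 4176115716) (nat_lit 152) (nat_lit 8281045459) (nat_lit 76) (nat_lit 32195111175) (nat_lit 9) (nat_lit 5) (nat_lit 11) (nat_lit 5) (nat_lit 10) (nat_lit 4) (nat_lit 333)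 (nat_lit 253) (nat_lit 194))) (XT.nd (nat_lit 78) (nat_lit 0) (nat_lit 0) (XT.lf (nat_lit 0) (nat_lit 1698830312) (nat_lit 76) (nat_lit 7368818763) (nat_lit 152) (nat_lit 37538534184) (nat_lit 8) (nat_lit 5) (nat_lit 9) (nat_lit 5) (nat_lit 10) (nat_lit 4) (nat_lit 334) (nat_lit 253) (nat_lit 193)) (XT.nd (nat_lit 78) (nat_lit 0) (nat_lit 0) (XT.lf (nat_lit 0) (nat_lit 12414965267) (nat_lit 76) (nat_lit 1902258403) (nat_lit 152) (nat_lit 34334902598) (nat_lit 8) (nat_lit 5) (nat_lit 9) (nat_lit 5) (nat_lit 10) (nat_lit 4) (nat_lit 335) (nat_lit 253) (nat_lit 192)) (XT.lf (nat_lit 0) (nat_lit 19863340640) (nat_lit 152) (nat_lit 27242153085) (nat_lit 0) (nat_lit 3693178839) (nat_lit 8) (nat_lit 5) (nat_lit 10) (nat_lit 4) (nat_lit 8) (nat_lit 4) (nat_lit 336) (nat_lit 253) (nat_lit 191))))) (XT.nd (nat_lit 156) (nat_lit 76) (nat_lit 0) (XT.nd (nat_lit 78) (nat_lit 0) (nat_lit 0) (XT.lf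 (nat_lit 0) (nat_lit 25693326581) (nat_lit 152) (nat_lit 17875034068) (nat_lit 0) (nat_lit 9483866246) (nat_lit 8) (nat_lit 5) (nat_lit 10) (nat_lit 4) (nat_lit 8) (nat_lit 4) (nat_lit 337) (nat_lit 253) (nat_lit 190)) (XT.lf (nat_lit 0) (nat_lit 31791362826) (nat_lit 152) (nat_lit 8083801701) (nat_lit 0) (nat_lit 15544475316) (nat_lit 8) (nat_lit 5) (nat_lit 10) (nat_lit 4) (nat_lit 8) (nat_lit 4) (nat_lit 338) (nat_lit 253) (nat_lit 189))) (XT.nd (nat_lit 78) (nat_lit 0) (nat_lit 0) (XT.lf (nat_lit 0) (nat_lit 2226105759) (nat_lit 76) (nat_lit 35980618499) (nat_lit 76) (nat_lit 19698086061) (nat_lit 7) (nat_lit 4) (nat_lit 8) (nat_lit 5) (nat_lit 8) (nat_lit 4) (nat_lit 339) (nat_lit 253) (nat_lit 188)) (XT.nd (nat_lit 78) (nat_lit 0) (nat_lit 0) (XT.lf (nat_lit 0) (nat_lit 13290703734) (nat_lit 76) (nat_lit 31767136948) (nat_lit 76) (nat_lit 15450656959) (nat_lit 7) (nat_lit 4) (nat_lit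 8) (nat_lit 5) (nat_lit 8) (nat_lit 4) (nat_lit 340) (nat_lit 253) (nat_lit 187)) (XT.lf (nat_lit 0) (nat_lit 24869049512) (nat_lit 76) (nat_lit 27361590868) (nat_lit 76) (nat_lit 11012779878) (nat_lit 7) (nat_lit 4) (nat_lit 8) (nat_lit 5) (nat_lit 8) (nat_lit 4) (nat_lit 341) (nat_lit 253) (nat_lit 186))))))) (XT.nd (nat_lit 780) (nat_lit 76) (nat_lit 0) (XT.nd (nat_lit 390) (nat_lit 0) (nat_lit 0) (XT.nd (nat_lit 156) (nat_lit 152) (nat_lit 0) (XT.nd (nat_lit 78) (nat_lit 0) (nat_lit 0) (XT.lf (nat_lit 0) (nat_lit 36988710582) (nat_lit 76) (nat_lit 22753490863) (nat_lit 76) (nat_lit 6373888444) (nat_lit 7) (nat_lit 4) (nat_lit 8) (nat_lit 5) (nat_lit 8) (nat_lit 4) (nat_lit 342) (nat_lit 253) (nat_lit 185)) (XT.lf (nat_lit 0) (nat_lit 49678543281) (nat_lit 76) (nat_lit 17931865268) (nat_lit 76) (nat_lit 1522937677) (nat_lit 7) (nat_lit 4) (nat_lit 8) (nat_lit 5) (nat_lit 8) (nat_lit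 4) (nat_lit 343) (nat_lit 253) (nat_lit 184))) (XT.nd (nat_lit 78) (nat_lit 76) (nat_lit 0) (XT.lf (nat_lit 0) (nat_lit 3437948209) (nat_lit 152) (nat_lit 9389062494) (nat_lit 76) (nat_lit 59472589969) (nat_lit 6) (nat_lit 5) (nat_lit 8) (nat_lit 5) (nat_lit 7) (nat_lit 4) (nat_lit 344) (nat_lit 253) (nat_lit 183)) (XT.nd (nat_lit 78) (nat_lit 0) (nat_lit 0) (XT.lf (nat_lit 0) (nat_lit 1159029966) (nat_lit 76) (nat_lit 7437304221) (nat_lit 152) (nat_lit 67026559241) (nat_lit 5) (nat_lit 5) (nat_lit 6) (nat_lit 5) (nat_lit 7) (nat_lit 4) (nat_lit 345) (nat_lit 253) (nat_lit 182)) (XT.lf (nat_lit 0) (nat_lit 12527962386) (nat_lit 76) (nat_lit 1626549657) (nat_lit 152) (nat_lit 64950750598) (nat_lit 5) (nat_lit 5) (nat_lit 6) (nat_lit 5) (nat_lit 7) (nat_lit 4) (nat_lit 346) (nat_lit 253) (nat_lit 181))))) (XT.nd (nat_lit 156) (nat_lit 0) (nat_lit 0) (XT.nd (nat_lit 78) (nat_lit 0) (nat_lit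 0) (XT.lf (nat_lit 0) (nat_lit 20043913388) (nat_lit 152) (nat_lit 58397846994) (nat_lit 0) (nat_lit 4317329393) (nat_lit 5) (nat_lit 5) (nat_lit 7) (nat_lit 4) (nat_lit 5) (nat_lit 4) (nat_lit 347) (nat_lit 253) (nat_lit 180)) (XT.lf (nat_lit 0) (nat_lit 26238688902) (nat_lit 152) (nat_lit 49866157087) (nat_lit 0) (nat_lit 10490222013) (nat_lit 5) (nat_lit 5) (nat_lit 7) (nat_lit 4) (nat_lit 5) (nat_lit 4) (nat_lit 348) (nat_lit 253) (nat_lit 179))) (XT.nd (nat_lit 78) (nat_lit 0) (nat_lit 0) (XT.lf (nat_lit 0) (nat_lit 32728193053) (nat_lit 152) (nat_lit 40936521987) (nat_lit 0) (nat_lit 16958885312) (nat_lit 5) (nat_lit 5) (nat_lit 7) (nat_lit 4) (nat_lit 5) (nat_lit 4) (nat_lit 349) (nat_lit 253) (nat_lit 178)) (XT.nd (nat_lit 78) (nat_lit 0) (nat_lit 0) (XT.lf (nat_lit 0) (nat_lit 39527877041) (nat_lit 152) (nat_lit 31587680660) (nat_lit 0) (nat_lit 23738720871) (nat_lit 5) (nat_lit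 5) (nat_lit 7) (nat_lit 4) (nat_lit 5) (nat_lit 4) (nat_lit 350) (nat_lit 253) (nat_lit 177)) (XT.lf (nat_lit 0) (nat_lit 46653930591) (nat_lit 152) (nat_lit 21797373959) (nat_lit 0) (nat_lit 30845871154) (nat_lit 5) (nat_lit 5) (nat_lit 7) (nat_lit 4) (nat_lit 5) (nat_lit 4) (nat_lit 351) (nat_lit 253) (nat_lit 176)))))) (XT.nd (nat_lit 390) (nat_lit 0) (nat_lit 0) (XT.nd (nat_lit 156) (nat_lit 76) (nat_lit 0) (XT.nd (nat_lit 78) (nat_lit 0) (nat_lit 0) (XT.lf (nat_lit 0) (nat_lit 54123320496) (nat_lit 152) (nat_lit 11542291631) (nat_lit 0) (nat_lit 38297257948) (nat_lit 5) (nat_lit 5) (nat_lit 7) (nat_lit 4) (nat_lit 5) (nat_lit 4) (nat_lit 352) (nat_lit 253) (nat_lit 175)) (XT.lf (nat_lit 0) (nat_lit 61953831018) (nat_lit 152) (nat_lit 798016811) (nat_lit 0) (nat_lit 46110622650) (nat_lit 5) (nat_lit 5) (nat_lit 7) (nat_lit 4) (nat_lit 5) (nat_lit 4) (nat_lit 353) (nat_lit 253) (nat_lit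 174))) (XT.nd (nat_lit 78) (nat_lit 0) (nat_lit 0) (XT.lf (nat_lit 0) (nat_lit 10806921069) (nat_lit 76) (nat_lit 59525911485) (nat_lit 76) (nat_lit 43666373764) (nat_lit 4) (nat_lit 4) (nat_lit 5) (nat_lit 5) (nat_lit 5) (nat_lit 4) (nat_lit 354) (nat_lit 253) (nat_lit 173)) (XT.nd (nat_lit 78) (nat_lit 0) (nat_lit 0) (XT.lf (nat_lit 0) (nat_lit 22997733472) (nat_lit 76) (nat_lit 56135020004) (nat_lit 76) (nat_lit 40259930519) (nat_lit 4) (nat_lit 4) (nat_lit 5) (nat_lit 5) (nat_lit 5) (nat_lit 4) (nat_lit 355) (nat_lit 253) (nat_lit 172)) (XT.lf (nat_lit 0) (nat_lit 35777060101) (nat_lit 76) (nat_lit 52584614637) (nat_lit 76) (nat_lit 36694713948) (nat_lit 4) (nat_lit 4) (nat_lit 5) (nat_lit 5) (nat_lit 5) (nat_lit 4) (nat_lit 356) (nat_lit 253) (nat_lit 171))))) (XT.nd (nat_lit 234) (nat_lit 0) (nat_lit 0) (XT.nd (nat_lit 78) (nat_lit 0) (nat_lit 0) (XT.lf (nat_lit 0) (nat_lit 49175327924)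 (nat_lit 76) (nat_lit 48866242038) (nat_lit 76) (nat_lit 32962235440) (nat_lit 4) (nat_lit 4) (nat_lit 5) (nat_lit 5) (nat_lit 5) (nat_lit 4) (nat_lit 357) (nat_lit 253) (nat_lit 170)) (XT.nd (nat_lit 78) (nat_lit 0) (nat_lit 0) (XT.lf (nat_lit 0) (nat_lit 63224437578) (nat_lit 76) (nat_lit 44971048938) (nat_lit 76) (nat_lit 29053608142) (nat_lit 4) (nat_lit 4) (nat_lit 5) (nat_lit 5) (nat_lit 5) (nat_lit 4) (nat_lit 358) (nat_lit 253) (nat_lit 169)) (XT.lf (nat_lit 0) (nat_lit 77957839326) (nat_lit 76) (nat_lit 40889761070) (nat_lit 76) (nat_lit 24959525799) (nat_lit 4) (nat_lit 4) (nat_lit 5) (nat_lit 5) (nat_lit 5) (nat_lit 4) (nat_lit 359) (nat_lit 253) (nat_lit 168)))) (XT.nd (nat_lit 78) (nat_lit 0) (nat_lit 0) (XT.lf (nat_lit 0) (nat_lit 93410612694) (nat_lit 76) (nat_lit 36612661079) (nat_lit 76) (nat_lit 20670240594) (nat_lit 4) (nat_lit 4) (nat_lit 5) (nat_lit 5) (nat_lit 5)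 (nat_lit 4) (nat_lit 360) (nat_lit 253) (nat_lit 167)) (XT.nd (nat_lit 78) (nat_lit 0) (nat_lit 0) (XT.lf (nat_lit 0) (nat_lit 109619550000) (nat_lit 76) (nat_lit 32129565396) (nat_lit 76) (nat_lit 16175539945) (nat_lit 4) (nat_lit 4) (nat_lit 5) (nat_lit 5) (nat_lit 5) (nat_lit 4) (nat_lit 361) (nat_lit 253) (nat_lit 166)) (XT.lf (nat_lit 0) (nat_lit 126623243953) (nat_lit 76) (nat_lit 27429799982) (nat_lit 76) (nat_lit 11464722183) (nat_lit 4) (nat_lit 4) (nat_lit 5) (nat_lit 5) (nat_lit 5) (nat_lit 4) (nat_lit 362) (nat_lit 253) (nat_lit 165))))))))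
noncomputable def xc87 : XT := (XT.nd (nat_lit 1638) (nat_lit 0) (nat_lit 0) (XT.nd (nat_lit 780) (nat_lit 0) (nat_lit 0) (XT.nd (nat_lit 390) (nat_lit 0) (nat_lit 0) (XT.nd (nat_lit 156) (nat_lit 152) (nat_lit 0) (XT.nd (nat_lit 78) (nat_lit 0) (nat_lit 0) (XT.lf (nat_lit 0) (nat_lit 144462179537) (nat_lit 76) (nat_lit 22502174921) (nat_lit 76) (nat_lit 6526571075) (nat_lit 4) (nat_lit 4) (nat_lit 5) (nat_lit 5) (nat_lit 5) (nat_lit 4) (nat_lit 363) (nat_lit 253) (nat_lit 164)) (XT.lf (nat_lit 0) (nat_lit 163178830410) (nat_lit 76) (nat_lit 17334957771) (nat_lit 76) (nat_lit 1349329119) (nat_lit 4) (nat_lit 4) (nat_lit 5) (nat_lit 5) (nat_lit 5) (nat_lit 4) (nat_lit 364) (nat_lit 253) (nat_lit 163))) (XT.nd (nat_lit 78) (nat_lit 76) (nat_lit 0) (XT.lf (nat_lit 0) (nat_lit 3948766401) (nat_lit 152) (nat_lit 7900204963) (nat_lit 76) (nat_lit 178802119354) (nat_lit 3) (nat_lit 5) (nat_lit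 5) (nat_lit 5) (nat_lit 4) (nat_lit 4) (nat_lit 365) (nat_lit 253) (nat_lit 162)) (XT.nd (nat_lit 78) (nat_lit 0) (nat_lit 0) (XT.lf (nat_lit 0) (nat_lit 3499840398) (nat_lit 76) (nat_lit 6014359249) (nat_lit 152) (nat_lit 190360770145) (nat_lit 2) (nat_lit 5) (nat_lit 3) (nat_lit 5) (nat_lit 4) (nat_lit 4) (nat_lit 366) (nat_lit 253) (nat_lit 161)) (XT.lf (nat_lit 0) (nat_lit 15488805417) (nat_lit 152) (nat_lit 193826297076) (nat_lit 0) (nat_lit 238397146) (nat_lit 2) (nat_lit 5) (nat_lit 4) (nat_lit 4) (nat_lit 2) (nat_lit 4) (nat_lit 367) (nat_lit 253) (nat_lit 160))))) (XT.nd (nat_lit 156) (nat_lit 0) (nat_lit 0) (XT.nd (nat_lit 78) (nat_lit 0) (nat_lit 0) (XT.lf (nat_lit 0) (nat_lit 21854228338) (nat_lit 152) (nat_lit 191261159704) (nat_lit 0) (nat_lit 6595965369) (nat_lit 2) (nat_lit 5) (nat_lit 4) (nat_lit 4) (nat_lit 2) (nat_lit 4) (nat_lit 368) (nat_lit 253) (nat_lit 159)) (XT.lf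 (nat_lit 0) (nat_lit 28531723175) (nat_lit 152) (nat_lit 188579708804) (nat_lit 0) (nat_lit 13265979542) (nat_lit 2) (nat_lit 5) (nat_lit 4) (nat_lit 4) (nat_lit 2) (nat_lit 4) (nat_lit 369) (nat_lit 253) (nat_lit 158))) (XT.nd (nat_lit 78) (nat_lit 0) (nat_lit 0) (XT.lf (nat_lit 0) (nat_lit 35537188726) (nat_lit 152) (nat_lit 185775559970) (nat_lit 0) (nat_lit 20264320650) (nat_lit 2) (nat_lit 5) (nat_lit 4) (nat_lit 4) (nat_lit 2) (nat_lit 4) (nat_lit 370) (nat_lit 253) (nat_lit 157)) (XT.nd (nat_lit 78) (nat_lit 0) (nat_lit 0) (XT.lf (nat_lit 0) (nat_lit 42887304671) (nat_lit 152) (nat_lit 182842036657) (nat_lit 0) (nat_lit 27607651412) (nat_lit 2) (nat_lit 5) (nat_lit 4) (nat_lit 4) (nat_lit 2) (nat_lit 4) (nat_lit 371) (nat_lit 253) (nat_lit 156)) (XT.lf (nat_lit 0) (nat_lit 50599571286) (nat_lit 152) (nat_lit 179772154286) (nat_lit 0) (nat_lit 35313455948) (nat_lit 2) (nat_lit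 5) (nat_lit 4) (nat_lit 4) (nat_lit 2) (nat_lit 4) (nat_lit 372) (nat_lit 253) (nat_lit 155)))))) (XT.nd (nat_lit 390) (nat_lit 0) (nat_lit 0) (XT.nd (nat_lit 156) (nat_lit 0) (nat_lit 0) (XT.nd (nat_lit 78) (nat_lit 0) (nat_lit 0) (XT.lf (nat_lit 0) (nat_lit 58692351110) (nat_lit 152) (nat_lit 176558603612) (nat_lit 0) (nat_lit 43400081411) (nat_lit 2) (nat_lit 5) (nat_lit 4) (nat_lit 4) (nat_lit 2) (nat_lit 4) (nat_lit 373) (nat_lit 253) (nat_lit 154)) (XT.lf (nat_lit 0) (nat_lit 67184912667) (nat_lit 152) (nat_lit 173193733326) (nat_lit 0) (nat_lit 51886781672) (nat_lit 2) (nat_lit 5) (nat_lit 4) (nat_lit 4) (nat_lit 2) (nat_lit 4) (nat_lit 374) (nat_lit 253) (nat_lit 153))) (XT.nd (nat_lit 78) (nat_lit 0) (nat_lit 0) (XT.lf (nat_lit 0) (nat_lit 76097476342) (nat_lit 152) (nat_lit 169669531830) (nat_lit 0) (nat_lit 60793763160) (nat_lit 2) (nat_lit 5) (nat_lit 4) (nat_lit 4) (nat_lit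 2) (nat_lit 4) (nat_lit 375) (nat_lit 253) (nat_lit 152)) (XT.nd (nat_lit 78) (nat_lit 0) (nat_lit 0) (XT.lf (nat_lit 0) (nat_lit 85451262524) (nat_lit 152) (nat_lit 165977608169) (nat_lit 0) (nat_lit 70142232973) (nat_lit 2) (nat_lit 5) (nat_lit 4) (nat_lit 4) (nat_lit 2) (nat_lit 4) (nat_lit 376) (nat_lit 253) (nat_lit 151)) (XT.lf (nat_lit 0) (nat_lit 95268542133) (nat_lit 152) (nat_lit 162109172049) (nat_lit 0) (nat_lit 79954449373) (nat_lit 2) (nat_lit 5) (nat_lit 4) (nat_lit 4) (nat_lit 2) (nat_lit 4) (nat_lit 377) (nat_lit 253) (nat_lit 150))))) (XT.nd (nat_lit 234) (nat_lit 0) (nat_lit 0) (XT.nd (nat_lit 78) (nat_lit 0) (nat_lit 0) (XT.lf (nat_lit 0) (nat_lit 105572689643) (nat_lit 152) (nat_lit 158055012906) (nat_lit 0) (nat_lit 90253774781) (nat_lit 2) (nat_lit 5) (nat_lit 4) (nat_lit 4) (nat_lit 2) (nat_lit 4) (nat_lit 378) (nat_lit 253) (nat_lit 149)) (XT.nd (nat_lit 78)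 (nat_lit 0) (nat_lit 0) (XT.lf (nat_lit 0) (nat_lit 116388238741) (nat_lit 152) (nat_lit 153805477983) (nat_lit 0) (nat_lit 101064731399) (nat_lit 2) (nat_lit 5) (nat_lit 4) (nat_lit 4) (nat_lit 2) (nat_lit 4) (nat_lit 379) (nat_lit 253) (nat_lit 148)) (XT.lf (nat_lit 0) (nat_lit 127740940732) (nat_lit 152) (nat_lit 149350449337) (nat_lit 0) (nat_lit 112413059600) (nat_lit 2) (nat_lit 5) (nat_lit 4) (nat_lit 4) (nat_lit 2) (nat_lit 4) (nat_lit 380) (nat_lit 253) (nat_lit 147)))) (XT.nd (nat_lit 78) (nat_lit 0) (nat_lit 0) (XT.lf (nat_lit 0) (nat_lit 139657825859) (nat_lit 152) (nat_lit 144679319759) (nat_lit 0) (nat_lit 124325779214) (nat_lit 2) (nat_lit 5) (nat_lit 4) (nat_lit 4) (nat_lit 2) (nat_lit 4) (nat_lit 381) (nat_lit 253) (nat_lit 146)) (XT.nd (nat_lit 78) (nat_lit 0) (nat_lit 0) (XT.lf (nat_lit 0) (nat_lit 152167267660) (nat_lit 152) (nat_lit 139780967511) (nat_lit 0) (nat_lit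 136831253859) (nat_lit 2) (nat_lit 5) (nat_lit 4) (nat_lit 4) (nat_lit 2) (nat_lit 4) (nat_lit 382) (nat_lit 253) (nat_lit 145)) (XT.lf (nat_lit 0) (nat_lit 165299050518) (nat_lit 152) (nat_lit 134643729849) (nat_lit 0) (nat_lit 149959258473) (nat_lit 2) (nat_lit 5) (nat_lit 4) (nat_lit 4) (nat_lit 2) (nat_lit 4) (nat_lit 383) (nat_lit 253) (nat_lit 144))))))) (XT.nd (nat_lit 32136) (nat_lit 0) (nat_lit 4484) (XT.nd (nat_lit 390) (nat_lit 0) (nat_lit 0) (XT.nd (nat_lit 156) (nat_lit 0) (nat_lit 0) (XT.nd (nat_lit 78) (nat_lit 0) (nat_lit 0) (XT.lf (nat_lit 0) (nat_lit 179084440584) (nat_lit 152) (nat_lit 129255375255) (nat_lit 0) (nat_lit 163741050212) (nat_lit 2) (nat_lit 5) (nat_lit 4) (nat_lit 4) (nat_lit 2) (nat_lit 4) (nat_lit 384) (nat_lit 253) (nat_lit 143)) (XT.lf (nat_lit 0) (nat_lit 193556260215) (nat_lit 152) (nat_lit 123603074314) (nat_lit 0) (nat_lit 178209442864) (nat_lit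 2) (nat_lit 5) (nat_lit 4) (nat_lit 4) (nat_lit 2) (nat_lit 4) (nat_lit 385) (nat_lit 253) (nat_lit 142))) (XT.nd (nat_lit 78) (nat_lit 0) (nat_lit 0) (XT.lf (nat_lit 0) (nat_lit 208748966124) (nat_lit 152) (nat_lit 117673369166) (nat_lit 0) (nat_lit 193398884984) (nat_lit 2) (nat_lit 5) (nat_lit 4) (nat_lit 4) (nat_lit 2) (nat_lit 4) (nat_lit 386) (nat_lit 253) (nat_lit 141)) (XT.nd (nat_lit 78) (nat_lit 0) (nat_lit 0) (XT.lf (nat_lit 0) (nat_lit 224698731421) (nat_lit 152) (nat_lit 111452141466) (nat_lit 0) (nat_lit 209345541910) (nat_lit 2) (nat_lit 5) (nat_lit 4) (nat_lit 4) (nat_lit 2) (nat_lit 4) (nat_lit 387) (nat_lit 253) (nat_lit 140)) (XT.lf (nat_lit 0) (nat_lit 241443531738) (nat_lit 152) (nat_lit 104924578767) (nat_lit 0) (nat_lit 226087381874) (nat_lit 2) (nat_lit 5) (nat_lit 4) (nat_lit 4) (nat_lit 2) (nat_lit 4) (nat_lit 388) (nat_lit 253) (nat_lit 139))))) (XT.nd (nat_lit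 31512) (nat_lit 0) (nat_lit 7600) (XT.nd (nat_lit 78) (nat_lit 0) (nat_lit 0) (XT.lf (nat_lit 0) (nat_lit 259023235645) (nat_lit 152) (nat_lit 98075139252) (nat_lit 0) (nat_lit 243664266398) (nat_lit 2) (nat_lit 5) (nat_lit 4) (nat_lit 4) (nat_lit 2) (nat_lit 4) (nat_lit 389) (nat_lit 253) (nat_lit 138)) (XT.lf (nat_lit 0) (nat_lit 277479699583) (nat_lit 152) (nat_lit 90887514733) (nat_lit 0) (nat_lit 262118045207) (nat_lit 2) (nat_lit 5) (nat_lit 4) (nat_lit 4) (nat_lit 2) (nat_lit 4) (nat_lit 390) (nat_lit 253) (nat_lit 137))) (XT.nd (nat_lit 78) (nat_lit 1216) (nat_lit 0) (XT.lf (nat_lit 0) (nat_lit 1320289548) (nat_lit 532) (nat_lit 800029682) (nat_lit 0) (nat_lit 1320289548) (nat_lit 118) (nat_lit 5) (nat_lit 125) (nat_lit 4) (nat_lit 118) (nat_lit 4) (nat_lit 272) (nat_lit 254) (nat_lit 254)) (XT.nd (nat_lit 78) (nat_lit 684) (nat_lit 0) (XT.lf (nat_lit 0) (nat_lit 2935435270)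 (nat_lit 532) (nat_lit 2939801174) (nat_lit 532) (nat_lit 1084856451) (nat_lit 111) (nat_lit 4) (nat_lit 118) (nat_lit 5) (nat_lit 118) (nat_lit 4) (nat_lit 273) (nat_lit 254) (nat_lit 253)) (XT.lf (nat_lit 0) (nat_lit 540912450) (nat_lit 608) (nat_lit 1489561303) (nat_lit 684) (nat_lit 5017423793) (nat_lit 102) (nat_lit 5) (nat_lit 110) (nat_lit 5) (nat_lit 111) (nat_lit 4) (nat_lit 274) (nat_lit 254) (nat_lit 252)))))) (XT.nd (nat_lit 390) (nat_lit 1368) (nat_lit 0) (XT.nd (nat_lit 156) (nat_lit 988) (nat_lit 0) (XT.nd (nat_lit 78) (nat_lit 760) (nat_lit 0) (XT.lf (nat_lit 0) (nat_lit 5177531629) (nat_lit 684) (nat_lit 1840355408) (nat_lit 0) (nat_lit 126057066) (nat_lit 102) (nat_lit 5) (nat_lit 111) (nat_lit 4) (nat_lit 102) (nat_lit 4) (nat_lit 275) (nat_lit 254) (nat_lit 251)) (XT.lf (nat_lit 0) (nat_lit 1116978806) (nat_lit 760) (nat_lit 4287735624) (nat_lit 76) (nat_lit 1843469722)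 (nat_lit 92) (nat_lit 5) (nat_lit 102) (nat_lit 5) (nat_lit 93) (nat_lit 4) (nat_lit 276) (nat_lit 254) (nat_lit 250))) (XT.nd (nat_lit 78) (nat_lit 456) (nat_lit 0) (XT.lf (nat_lit 0) (nat_lit 539694368) (nat_lit 532) (nat_lit 3641102837) (nat_lit 608) (nat_lit 3180922687) (nat_lit 85) (nat_lit 5) (nat_lit 92) (nat_lit 5) (nat_lit 93) (nat_lit 4) (nat_lit 277) (nat_lit 254) (nat_lit 249)) (XT.nd (nat_lit 78) (nat_lit 456) (nat_lit 0) (XT.lf (nat_lit 0) (nat_lit 5605899440) (nat_lit 532) (nat_lit 1721431124) (nat_lit 608) (nat_lit 157423367) (nat_lit 85) (nat_lit 5) (nat_lit 92) (nat_lit 5) (nat_lit 93) (nat_lit 4) (nat_lit 278) (nat_lit 254) (nat_lit 248)) (XT.lf (nat_lit 0) (nat_lit 2838169270) (nat_lit 456) (nat_lit 4404041376) (nat_lit 76) (nat_lit 373769210) (nat_lit 79) (nat_lit 5) (nat_lit 85) (nat_lit 5) (nat_lit 80) (nat_lit 4) (nat_lit 279) (nat_lit 254) (nat_lit 247))))) (XT.nd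 (nat_lit 234) (nat_lit 684) (nat_lit 0) (XT.nd (nat_lit 78) (nat_lit 380) (nat_lit 0) (XT.lf (nat_lit 0) (nat_lit 708179978) (nat_lit 304) (nat_lit 5207030883) (nat_lit 380) (nat_lit 1841836369) (nat_lit 75) (nat_lit 5) (nat_lit 79) (nat_lit 5) (nat_lit 80) (nat_lit 4) (nat_lit 280) (nat_lit 254) (nat_lit 246)) (XT.nd (nat_lit 78) (nat_lit 304) (nat_lit 0) (XT.lf (nat_lit 0) (nat_lit 1144044520) (nat_lit 380) (nat_lit 1848768043) (nat_lit 76) (nat_lit 4914478666) (nat_lit 74) (nat_lit 5) (nat_lit 79) (nat_lit 5) (nat_lit 75) (nat_lit 5) (nat_lit 281) (nat_lit 254) (nat_lit 245)) (XT.lf (nat_lit 0) (nat_lit 3546418311) (nat_lit 304) (nat_lit 599623759) (nat_lit 380) (nat_lit 3921281794) (nat_lit 70) (nat_lit 5) (nat_lit 74) (nat_lit 5) (nat_lit 75) (nat_lit 5) (nat_lit 282) (nat_lit 254) (nat_lit 244)))) (XT.nd (nat_lit 78) (nat_lit 380) (nat_lit 0) (XT.lf (nat_lit 0) (nat_lit 887953807)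 (nat_lit 304) (nat_lit 6362489551) (nat_lit 380) (nat_lit 987511159) (nat_lit 66) (nat_lit 5) (nat_lit 70) (nat_lit 5) (nat_lit 71) (nat_lit 4) (nat_lit 283) (nat_lit 254) (nat_lit 243)) (XT.nd (nat_lit 78) (nat_lit 304) (nat_lit 0) (XT.lf (nat_lit 0) (nat_lit 1991735124) (nat_lit 380) (nat_lit 1886449766) (nat_lit 76) (nat_lit 4539201155) (nat_lit 65) (nat_lit 5) (nat_lit 70) (nat_lit 5) (nat_lit 66) (nat_lit 5) (nat_lit 284) (nat_lit 254) (nat_lit 242)) (XT.lf (nat_lit 0) (nat_lit 3809728755) (nat_lit 304) (nat_lit 1220437952) (nat_lit 380) (nat_lit 3577825284) (nat_lit 61) (nat_lit 5) (nat_lit 65) (nat_lit 5) (nat_lit 66) (nat_lit 5) (nat_lit 285) (nat_lit 254) (nat_lit 241))))))))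
noncomputable def xc88 : XT := (XT.nd (nat_lit 1560) (nat_lit 1064) (nat_lit 0) (XT.nd (nat_lit 780) (nat_lit 1140) (nat_lit 0) (XT.nd (nat_lit 390) (nat_lit 684) (nat_lit 0) (XT.nd (nat_lit 156) (nat_lit 532) (nat_lit 0) (XT.nd (nat_lit 78) (nat_lit 76) (nat_lit 0) (XT.lf (nat_lit 0) (nat_lit 904319524) (nat_lit 228) (nat_lit 7274029089) (nat_lit 304) (nat_lit 632062252) (nat_lit 58) (nat_lit 5) (nat_lit 61) (nat_lit 5) (nat_lit 62) (nat_lit 4) (nat_lit 286) (nat_lit 254) (nat_lit 240)) (XT.lf (nat_lit 0) (nat_lit 2372679762) (nat_lit 304) (nat_lit 2170756026) (nat_lit 76) (nat_lit 4478228739) (nat_lit 57) (nat_lit 5) (nat_lit 61) (nat_lit 5) (nat_lit 58) (nat_lit 5) (nat_lit 287) (nat_lit 254) (nat_lit 239))) (XT.nd (nat_lit 78) (nat_lit 304) (nat_lit 0) (XT.lf (nat_lit 0) (nat_lit 3819693257) (nat_lit 228) (nat_lit 1639558023) (nat_lit 304) (nat_lit 3786220180) (nat_lit 54) (nat_lit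 5) (nat_lit 57) (nat_lit 5) (nat_lit 58) (nat_lit 5) (nat_lit 288) (nat_lit 254) (nat_lit 238)) (XT.nd (nat_lit 78) (nat_lit 76) (nat_lit 0) (XT.lf (nat_lit 0) (nat_lit 555584494) (nat_lit 228) (nat_lit 8108109104) (nat_lit 304) (nat_lit 818741236) (nat_lit 51) (nat_lit 5) (nat_lit 54) (nat_lit 5) (nat_lit 55) (nat_lit 4) (nat_lit 289) (nat_lit 254) (nat_lit 237)) (XT.lf (nat_lit 0) (nat_lit 2240291837) (nat_lit 304) (nat_lit 2913701065) (nat_lit 76) (nat_lit 4574755044) (nat_lit 50) (nat_lit 5) (nat_lit 54) (nat_lit 5) (nat_lit 51) (nat_lit 5) (nat_lit 290) (nat_lit 254) (nat_lit 236))))) (XT.nd (nat_lit 156) (nat_lit 456) (nat_lit 0) (XT.nd (nat_lit 78) (nat_lit 0) (nat_lit 0) (XT.lf (nat_lit 0) (nat_lit 3353850244) (nat_lit 228) (nat_lit 2024635732) (nat_lit 304) (nat_lit 4610657119) (nat_lit 47) (nat_lit 5) (nat_lit 50) (nat_lit 5) (nat_lit 51) (nat_lit 5) (nat_lit 291) (nat_lit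 254) (nat_lit 235)) (XT.lf (nat_lit 0) (nat_lit 8646686726) (nat_lit 304) (nat_lit 386840408) (nat_lit 76) (nat_lit 1230493838) (nat_lit 47) (nat_lit 5) (nat_lit 51) (nat_lit 5) (nat_lit 48) (nat_lit 4) (nat_lit 292) (nat_lit 254) (nat_lit 234))) (XT.nd (nat_lit 78) (nat_lit 228) (nat_lit 0) (XT.lf (nat_lit 0) (nat_lit 1515249045) (nat_lit 228) (nat_lit 4371303848) (nat_lit 76) (nat_lit 4663084486) (nat_lit 44) (nat_lit 5) (nat_lit 47) (nat_lit 5) (nat_lit 45) (nat_lit 5) (nat_lit 293) (nat_lit 254) (nat_lit 233)) (XT.nd (nat_lit 78) (nat_lit 0) (nat_lit 0) (XT.lf (nat_lit 0) (nat_lit 2141555902) (nat_lit 228) (nat_lit 2557237764) (nat_lit 304) (nat_lit 6152082769) (nat_lit 41) (nat_lit 5) (nat_lit 44) (nat_lit 5) (nat_lit 45) (nat_lit 5) (nat_lit 294) (nat_lit 254) (nat_lit 232)) (XT.lf (nat_lit 0) (nat_lit 8041558952) (nat_lit 304) (nat_lit 2185530468) (nat_lit 76) (nat_lit 940182780)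 (nat_lit 41) (nat_lit 5) (nat_lit 45) (nat_lit 5) (nat_lit 42) (nat_lit 4) (nat_lit 295) (nat_lit 254) (nat_lit 231)))))) (XT.nd (nat_lit 390) (nat_lit 532) (nat_lit 0) (XT.nd (nat_lit 156) (nat_lit 380) (nat_lit 0) (XT.nd (nat_lit 78) (nat_lit 0) (nat_lit 0) (XT.lf (nat_lit 0) (nat_lit 79477758) (nat_lit 228) (nat_lit 6859836103) (nat_lit 76) (nat_lit 4558762907) (nat_lit 38) (nat_lit 5) (nat_lit 41) (nat_lit 5) (nat_lit 39) (nat_lit 5) (nat_lit 296) (nat_lit 254) (nat_lit 230)) (XT.lf (nat_lit 0) (nat_lit 3292530513) (nat_lit 228) (nat_lit 148551491) (nat_lit 76) (nat_lit 8404228896) (nat_lit 38) (nat_lit 5) (nat_lit 41) (nat_lit 5) (nat_lit 39) (nat_lit 5) (nat_lit 297) (nat_lit 254) (nat_lit 229))) (XT.nd (nat_lit 78) (nat_lit 228) (nat_lit 0) (XT.lf (nat_lit 0) (nat_lit 6699252552) (nat_lit 228) (nat_lit 5216973679) (nat_lit 76) (nat_lit 292109418) (nat_lit 36) (nat_lit 5) (nat_lit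 39) (nat_lit 5) (nat_lit 37) (nat_lit 4) (nat_lit 298) (nat_lit 254) (nat_lit 228)) (XT.nd (nat_lit 78) (nat_lit 76) (nat_lit 0) (XT.lf (nat_lit 0) (nat_lit 1777265041) (nat_lit 152) (nat_lit 8506054023) (nat_lit 228) (nat_lit 2305918096) (nat_lit 34) (nat_lit 5) (nat_lit 36) (nat_lit 5) (nat_lit 37) (nat_lit 4) (nat_lit 299) (nat_lit 254) (nat_lit 227)) (XT.lf (nat_lit 0) (nat_lit 1034149076) (nat_lit 228) (nat_lit 3828231371) (nat_lit 76) (nat_lit 8125517359) (nat_lit 33) (nat_lit 5) (nat_lit 36) (nat_lit 5) (nat_lit 34) (nat_lit 5) (nat_lit 300) (nat_lit 254) (nat_lit 226))))) (XT.nd (nat_lit 156) (nat_lit 380) (nat_lit 0) (XT.nd (nat_lit 78) (nat_lit 0) (nat_lit 0) (XT.lf (nat_lit 0) (nat_lit 3455742669) (nat_lit 152) (nat_lit 986495962) (nat_lit 228) (nat_lit 8963502708) (nat_lit 31) (nat_lit 5) (nat_lit 33) (nat_lit 5) (nat_lit 34) (nat_lit 5) (nat_lit 301) (nat_lit 254) (nat_lit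 225)) (XT.lf (nat_lit 0) (nat_lit 8060327497) (nat_lit 228) (nat_lit 2776434793) (nat_lit 76) (nat_lit 3005797498) (nat_lit 31) (nat_lit 5) (nat_lit 34) (nat_lit 5) (nat_lit 32) (nat_lit 4) (nat_lit 302) (nat_lit 254) (nat_lit 224))) (XT.nd (nat_lit 78) (nat_lit 228) (nat_lit 0) (XT.lf (nat_lit 0) (nat_lit 4775507571) (nat_lit 152) (nat_lit 7103650949) (nat_lit 228) (nat_lit 2421128258) (nat_lit 29) (nat_lit 5) (nat_lit 31) (nat_lit 5) (nat_lit 32) (nat_lit 4) (nat_lit 303) (nat_lit 254) (nat_lit 223)) (XT.nd (nat_lit 78) (nat_lit 152) (nat_lit 0) (XT.lf (nat_lit 0) (nat_lit 1049852636) (nat_lit 228) (nat_lit 2112653036) (nat_lit 76) (nat_lit 11618719166) (nat_lit 28) (nat_lit 5) (nat_lit 31) (nat_lit 5) (nat_lit 29) (nat_lit 5) (nat_lit 304) (nat_lit 254) (nat_lit 222)) (XT.lf (nat_lit 0) (nat_lit 4651521725) (nat_lit 228) (nat_lit 9598851109) (nat_lit 76) (nat_lit 1031978591) (nat_lit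 26) (nat_lit 5) (nat_lit 29) (nat_lit 5) (nat_lit 27) (nat_lit 4) (nat_lit 305) (nat_lit 254) (nat_lit 221))))))) (XT.nd (nat_lit 780) (nat_lit 456) (nat_lit 0) (XT.nd (nat_lit 390) (nat_lit 304) (nat_lit 0) (XT.nd (nat_lit 156) (nat_lit 228) (nat_lit 0) (XT.nd (nat_lit 78) (nat_lit 76) (nat_lit 0) (XT.lf (nat_lit 0) (nat_lit 8455121536) (nat_lit 228) (nat_lit 2029081379) (nat_lit 76) (nat_lit 5323288018) (nat_lit 26) (nat_lit 5) (nat_lit 29) (nat_lit 5) (nat_lit 27) (nat_lit 4) (nat_lit 306) (nat_lit 254) (nat_lit 220)) (XT.lf (nat_lit 0) (nat_lit 6003996543) (nat_lit 76) (nat_lit 6475441694) (nat_lit 152) (nat_lit 3877968957) (nat_lit 25) (nat_lit 5) (nat_lit 26) (nat_lit 5) (nat_lit 27) (nat_lit 4) (nat_lit 307) (nat_lit 254) (nat_lit 219))) (XT.nd (nat_lit 78) (nat_lit 228) (nat_lit 0) (XT.lf (nat_lit 0) (nat_lit 14403559188) (nat_lit 76) (nat_lit 2273933447) (nat_lit 152) (nat_lit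 258744944) (nat_lit 25) (nat_lit 5) (nat_lit 26) (nat_lit 5) (nat_lit 27) (nat_lit 4) (nat_lit 308) (nat_lit 254) (nat_lit 218)) (XT.nd (nat_lit 78) (nat_lit 0) (nat_lit 0) (XT.lf (nat_lit 0) (nat_lit 3492314613) (nat_lit 228) (nat_lit 11871153793) (nat_lit 76) (nat_lit 2174605634) (nat_lit 22) (nat_lit 5) (nat_lit 25) (nat_lit 5) (nat_lit 23) (nat_lit 4) (nat_lit 309) (nat_lit 254) (nat_lit 217)) (XT.lf (nat_lit 0) (nat_lit 7443816878) (nat_lit 228) (nat_lit 3948912447) (nat_lit 76) (nat_lit 6776020007) (nat_lit 22) (nat_lit 5) (nat_lit 25) (nat_lit 5) (nat_lit 23) (nat_lit 4) (nat_lit 310) (nat_lit 254) (nat_lit 216))))) (XT.nd (nat_lit 156) (nat_lit 228) (nat_lit 0) (XT.nd (nat_lit 78) (nat_lit 0) (nat_lit 0) (XT.lf (nat_lit 0) (nat_lit 4412319945) (nat_lit 76) (nat_lit 7192998587) (nat_lit 152) (nat_lit 7225055175) (nat_lit 21) (nat_lit 5) (nat_lit 22) (nat_lit 5) (nat_lit 23) (nat_lit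 4) (nat_lit 311) (nat_lit 254) (nat_lit 215)) (XT.lf (nat_lit 0) (nat_lit 13231954642) (nat_lit 76) (nat_lit 2754531105) (nat_lit 152) (nat_lit 3538048820) (nat_lit 21) (nat_lit 5) (nat_lit 22) (nat_lit 5) (nat_lit 23) (nat_lit 4) (nat_lit 312) (nat_lit 254) (nat_lit 214))) (XT.nd (nat_lit 78) (nat_lit 0) (nat_lit 0) (XT.lf (nat_lit 0) (nat_lit 333383581) (nat_lit 228) (nat_lit 18073131722) (nat_lit 76) (nat_lit 1846122347) (nat_lit 18) (nat_lit 5) (nat_lit 21) (nat_lit 5) (nat_lit 19) (nat_lit 4) (nat_lit 313) (nat_lit 254) (nat_lit 213)) (XT.nd (nat_lit 78) (nat_lit 0) (nat_lit 0) (XT.lf (nat_lit 0) (nat_lit 4379890620) (nat_lit 228) (nat_lit 9917525014) (nat_lit 76) (nat_lit 6711840033) (nat_lit 18) (nat_lit 5) (nat_lit 21) (nat_lit 5) (nat_lit 19) (nat_lit 4) (nat_lit 314) (nat_lit 254) (nat_lit 212)) (XT.lf (nat_lit 0) (nat_lit 8578183496) (nat_lit 228) (nat_lit 1444103401) (nat_lit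 76) (nat_lit 11783973288) (nat_lit 18) (nat_lit 5) (nat_lit 21) (nat_lit 5) (nat_lit 19) (nat_lit 4) (nat_lit 315) (nat_lit 254) (nat_lit 211)))))) (XT.nd (nat_lit 390) (nat_lit 228) (nat_lit 0) (XT.nd (nat_lit 156) (nat_lit 152) (nat_lit 0) (XT.nd (nat_lit 78) (nat_lit 0) (nat_lit 0) (XT.lf (nat_lit 0) (nat_lit 7610904402) (nat_lit 76) (nat_lit 5446181290) (nat_lit 152) (nat_lit 9582521762) (nat_lit 17) (nat_lit 5) (nat_lit 18) (nat_lit 5) (nat_lit 19) (nat_lit 4) (nat_lit 316) (nat_lit 254) (nat_lit 210)) (XT.lf (nat_lit 0) (nat_lit 17084499202) (nat_lit 76) (nat_lit 652733407) (nat_lit 152) (nat_lit 5778550459) (nat_lit 17) (nat_lit 5) (nat_lit 18) (nat_lit 5) (nat_lit 19) (nat_lit 4) (nat_lit 317) (nat_lit 254) (nat_lit 209))) (XT.nd (nat_lit 78) (nat_lit 76) (nat_lit 0) (XT.lf (nat_lit 0) (nat_lit 2526476014) (nat_lit 76) (nat_lit 20187282652) (nat_lit 76) (nat_lit 1718914932) (nat_lit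 16) (nat_lit 4) (nat_lit 17) (nat_lit 5) (nat_lit 17) (nat_lit 4) (nat_lit 318) (nat_lit 254) (nat_lit 208)) (XT.nd (nat_lit 78) (nat_lit 0) (nat_lit 0) (XT.lf (nat_lit 0) (nat_lit 2538379319) (nat_lit 152) (nat_lit 13368960823) (nat_lit 76) (nat_lit 9482300658) (nat_lit 15) (nat_lit 5) (nat_lit 17) (nat_lit 5) (nat_lit 16) (nat_lit 4) (nat_lit 319) (nat_lit 254) (nat_lit 207)) (XT.lf (nat_lit 0) (nat_lit 6907617506) (nat_lit 152) (nat_lit 4511327977) (nat_lit 76) (nat_lit 14976280989) (nat_lit 15) (nat_lit 5) (nat_lit 17) (nat_lit 5) (nat_lit 16) (nat_lit 4) (nat_lit 320) (nat_lit 254) (nat_lit 206))))) (XT.nd (nat_lit 234) (nat_lit 152) (nat_lit 0) (XT.nd (nat_lit 78) (nat_lit 0) (nat_lit 0) (XT.lf (nat_lit 0) (nat_lit 4870514513) (nat_lit 76) (nat_lit 6659746455) (nat_lit 152) (nat_lit 15919103633) (nat_lit 14) (nat_lit 5) (nat_lit 15) (nat_lit 5) (nat_lit 16) (nat_lit 4) (nat_lit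 321) (nat_lit 254) (nat_lit 205)) (XT.nd (nat_lit 78) (nat_lit 0) (nat_lit 0) (XT.lf (nat_lit 0) (nat_lit 14804715934) (nat_lit 76) (nat_lit 1615434975) (nat_lit 152) (nat_lit 12134272385) (nat_lit 14) (nat_lit 5) (nat_lit 15) (nat_lit 5) (nat_lit 16) (nat_lit 4) (nat_lit 322) (nat_lit 254) (nat_lit 204)) (XT.lf (nat_lit 0) (nat_lit 21573147019) (nat_lit 152) (nat_lit 4607887990) (nat_lit 0) (nat_lit 3532787779) (nat_lit 14) (nat_lit 5) (nat_lit 16) (nat_lit 4) (nat_lit 14) (nat_lit 4) (nat_lit 323) (nat_lit 254) (nat_lit 203)))) (XT.nd (nat_lit 78) (nat_lit 76) (nat_lit 0) (XT.lf (nat_lit 0) (nat_lit 5058531716) (nat_lit 76) (nat_lit 21993711621) (nat_lit 76) (nat_lit 3875543972) (nat_lit 13) (nat_lit 4) (nat_lit 14) (nat_lit 5) (nat_lit 14) (nat_lit 4) (nat_lit 324) (nat_lit 254) (nat_lit 202)) (XT.nd (nat_lit 78) (nat_lit 0) (nat_lit 0) (XT.lf (nat_lit 0) (nat_lit 625963784) (nat_lit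 152) (nat_lit 16909045137) (nat_lit 76) (nat_lit 14664865762) (nat_lit 12) (nat_lit 5) (nat_lit 14) (nat_lit 5) (nat_lit 13) (nat_lit 4) (nat_lit 325) (nat_lit 254) (nat_lit 201)) (XT.lf (nat_lit 0) (nat_lit 5187158524) (nat_lit 152) (nat_lit 7629170440) (nat_lit 76) (nat_lit 20717833200) (nat_lit 12) (nat_lit 5) (nat_lit 14) (nat_lit 5) (nat_lit 13) (nat_lit 4) (nat_lit 326) (nat_lit 254) (nat_lit 200))))))))
noncomputable def xc89 : XT := (XT.nd (nat_lit 1638) (nat_lit 228) (nat_lit 0) (XT.nd (nat_lit 780) (nat_lit 228) (nat_lit 0) (XT.nd (nat_lit 390) (nat_lit 152) (nat_lit 0) (XT.nd (nat_lit 156) (nat_lit 76) (nat_lit 0) (XT.nd (nat_lit 78) (nat_lit 0) (nat_lit 0) (XT.lf (nat_lit 0) (nat_lit 2120852049) (nat_lit 76) (nat_lit 7855202240) (nat_lit 152) (nat_lit 24959142123) (nat_lit 11) (nat_lit 5) (nat_lit 12) (nat_lit 5) (nat_lit 13) (nat_lit 4) (nat_lit 327) (nat_lit 254) (nat_lit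 199)) (XT.lf (nat_lit 0) (nat_lit 12562512370) (nat_lit 76) (nat_lit 2538260695) (nat_lit 152) (nat_lit 21300704163) (nat_lit 11) (nat_lit 5) (nat_lit 12) (nat_lit 5) (nat_lit 13) (nat_lit 4) (nat_lit 328) (nat_lit 254) (nat_lit 198))) (XT.nd (nat_lit 78) (nat_lit 76) (nat_lit 0) (XT.lf (nat_lit 0) (nat_lit 20497584106) (nat_lit 152) (nat_lit 14521350205) (nat_lit 0) (nat_lit 2921358070) (nat_lit 11) (nat_lit 5) (nat_lit 13) (nat_lit 4) (nat_lit 11) (nat_lit 4) (nat_lit 329) (nat_lit 254) (nat_lit 197)) (XT.nd (nat_lit 78) (nat_lit 76) (nat_lit 0) (XT.lf (nat_lit 0) (nat_lit 26175677686) (nat_lit 152) (nat_lit 4835656330) (nat_lit 0) (nat_lit 8544154666) (nat_lit 11) (nat_lit 5) (nat_lit 13) (nat_lit 4) (nat_lit 11) (nat_lit 4) (nat_lit 330) (nat_lit 254) (nat_lit 196)) (XT.lf (nat_lit 0) (nat_lit 5455414643) (nat_lit 76) (nat_lit 26738703378) (nat_lit 76) (nat_lit 9054516565) (nat_lit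 10) (nat_lit 4) (nat_lit 11) (nat_lit 5) (nat_lit 11) (nat_lit 4) (nat_lit 331) (nat_lit 254) (nat_lit 195))))) (XT.nd (nat_lit 156) (nat_lit 76) (nat_lit 0) (XT.nd (nat_lit 78) (nat_lit 76) (nat_lit 0) (XT.lf (nat_lit 0) (nat_lit 16376270445) (nat_lit 76) (nat_lit 22190918034) (nat_lit 76) (nat_lit 4456575227) (nat_lit 10) (nat_lit 4) (nat_lit 11) (nat_lit 5) (nat_lit 11) (nat_lit 4) (nat_lit 332) (nat_lit 254) (nat_lit 194)) (XT.lf (nat_lit 0) (nat_lit 332086051) (nat_lit 152) (nat_lit 17101334016) (nat_lit 76) (nat_lit 27455314388) (nat_lit 9) (nat_lit 5) (nat_lit 11) (nat_lit 5) (nat_lit 10) (nat_lit 4) (nat_lit 333) (nat_lit 254) (nat_lit 193))) (XT.nd (nat_lit 78) (nat_lit 76) (nat_lit 0) (XT.lf (nat_lit 0) (nat_lit 5184415589) (nat_lit 152) (nat_lit 7199551427) (nat_lit 76) (nat_lit 34460643310) (nat_lit 9) (nat_lit 5) (nat_lit 11) (nat_lit 5) (nat_lit 10) (nat_lit 4) (nat_lit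 334) (nat_lit 254) (nat_lit 192)) (XT.nd (nat_lit 78) (nat_lit 0) (nat_lit 0) (XT.lf (nat_lit 0) (nat_lit 3255196418) (nat_lit 76) (nat_lit 7050231111) (nat_lit 152) (nat_lit 38591558484) (nat_lit 8) (nat_lit 5) (nat_lit 9) (nat_lit 5) (nat_lit 10) (nat_lit 4) (nat_lit 335) (nat_lit 254) (nat_lit 191)) (XT.lf (nat_lit 0) (nat_lit 14437070284) (nat_lit 76) (nat_lit 1343058380) (nat_lit 152) (nat_lit 35266978767) (nat_lit 8) (nat_lit 5) (nat_lit 9) (nat_lit 5) (nat_lit 10) (nat_lit 4) (nat_lit 336) (nat_lit 254) (nat_lit 190)))))) (XT.nd (nat_lit 390) (nat_lit 152) (nat_lit 0) (XT.nd (nat_lit 156) (nat_lit 76) (nat_lit 0) (XT.nd (nat_lit 78) (nat_lit 0) (nat_lit 0) (XT.lf (nat_lit 0) (nat_lit 21577707167) (nat_lit 152) (nat_lit 27243530982) (nat_lit 0) (nat_lit 4481048107) (nat_lit 8) (nat_lit 5) (nat_lit 10) (nat_lit 4) (nat_lit 8) (nat_lit 4) (nat_lit 337) (nat_lit 254) (nat_lit 189))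 (XT.lf (nat_lit 0) (nat_lit 27664849571) (nat_lit 152) (nat_lit 17472852669) (nat_lit 0) (nat_lit 10532545583) (nat_lit 8) (nat_lit 5) (nat_lit 10) (nat_lit 4) (nat_lit 8) (nat_lit 4) (nat_lit 338) (nat_lit 254) (nat_lit 188))) (XT.nd (nat_lit 78) (nat_lit 76) (nat_lit 0) (XT.lf (nat_lit 0) (nat_lit 34035080169) (nat_lit 152) (nat_lit 7253769784) (nat_lit 0) (nat_lit 16868828629) (nat_lit 8) (nat_lit 5) (nat_lit 10) (nat_lit 4) (nat_lit 8) (nat_lit 4) (nat_lit 339) (nat_lit 254) (nat_lit 187)) (XT.nd (nat_lit 78) (nat_lit 0) (nat_lit 0) (XT.lf (nat_lit 0) (nat_lit 3551726243) (nat_lit 76) (nat_lit 37207292332) (nat_lit 76) (nat_lit 20008709791) (nat_lit 7) (nat_lit 4) (nat_lit 8) (nat_lit 5) (nat_lit 8) (nat_lit 4) (nat_lit 340) (nat_lit 254) (nat_lit 186)) (XT.lf (nat_lit 0) (nat_lit 15111729583) (nat_lit 76) (nat_lit 32810391803) (nat_lit 76) (nat_lit 15581017833) (nat_lit 7) (nat_lit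 4) (nat_lit 8) (nat_lit 5) (nat_lit 8) (nat_lit 4) (nat_lit 341) (nat_lit 254) (nat_lit 185))))) (XT.nd (nat_lit 234) (nat_lit 152) (nat_lit 0) (XT.nd (nat_lit 78) (nat_lit 0) (nat_lit 0) (XT.lf (nat_lit 0) (nat_lit 27213921666) (nat_lit 76) (nat_lit 28210525656) (nat_lit 76) (nat_lit 10951826515) (nat_lit 7) (nat_lit 4) (nat_lit 8) (nat_lit 5) (nat_lit 8) (nat_lit 4) (nat_lit 342) (nat_lit 254) (nat_lit 184)) (XT.nd (nat_lit 78) (nat_lit 0) (nat_lit 0) (XT.lf (nat_lit 0) (nat_lit 39887117233) (nat_lit 76) (nat_lit 23396741830) (nat_lit 76) (nat_lit 6110113955) (nat_lit 7) (nat_lit 4) (nat_lit 8) (nat_lit 5) (nat_lit 8) (nat_lit 4) (nat_lit 343) (nat_lit 254) (nat_lit 183)) (XT.lf (nat_lit 0) (nat_lit 53161490561) (nat_lit 76) (nat_lit 18357578935) (nat_lit 76) (nat_lit 1044352265) (nat_lit 7) (nat_lit 4) (nat_lit 8) (nat_lit 5) (nat_lit 8) (nat_lit 4) (nat_lit 344) (nat_lit 254) (nat_lit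 182)))) (XT.nd (nat_lit 78) (nat_lit 76) (nat_lit 0) (XT.lf (nat_lit 0) (nat_lit 4121252666) (nat_lit 152) (nat_lit 8889990888) (nat_lit 76) (nat_lit 62877599226) (nat_lit 6) (nat_lit 5) (nat_lit 8) (nat_lit 5) (nat_lit 7) (nat_lit 4) (nat_lit 345) (nat_lit 254) (nat_lit 181)) (XT.nd (nat_lit 78) (nat_lit 0) (nat_lit 0) (XT.lf (nat_lit 0) (nat_lit 2169884828) (nat_lit 76) (nat_lit 7358197890) (nat_lit 152) (nat_lit 69850699197) (nat_lit 5) (nat_lit 5) (nat_lit 6) (nat_lit 5) (nat_lit 7) (nat_lit 4) (nat_lit 346) (nat_lit 254) (nat_lit 180)) (XT.lf (nat_lit 0) (nat_lit 14061887518) (nat_lit 76) (nat_lit 1278380433) (nat_lit 152) (nat_lit 67696204312) (nat_lit 5) (nat_lit 5) (nat_lit 6) (nat_lit 5) (nat_lit 7) (nat_lit 4) (nat_lit 347) (nat_lit 254) (nat_lit 179))))))) (XT.nd (nat_lit 780) (nat_lit 152) (nat_lit 0) (XT.nd (nat_lit 390) (nat_lit 76) (nat_lit 0) (XT.nd (nat_lit 156) (nat_lit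 0) (nat_lit 0) (XT.nd (nat_lit 78) (nat_lit 0) (nat_lit 0) (XT.lf (nat_lit 0) (nat_lit 21507762346) (nat_lit 152) (nat_lit 60436906129) (nat_lit 0) (nat_lit 4929148367) (nat_lit 5) (nat_lit 5) (nat_lit 7) (nat_lit 4) (nat_lit 5) (nat_lit 4) (nat_lit 348) (nat_lit 254) (nat_lit 178)) (XT.lf (nat_lit 0) (nat_lit 27990293146) (nat_lit 152) (nat_lit 51520576165) (nat_lit 0) (nat_lit 11391830737) (nat_lit 5) (nat_lit 5) (nat_lit 7) (nat_lit 4) (nat_lit 5) (nat_lit 4) (nat_lit 349) (nat_lit 254) (nat_lit 177))) (XT.nd (nat_lit 78) (nat_lit 0) (nat_lit 0) (XT.lf (nat_lit 0) (nat_lit 34783335847) (nat_lit 152) (nat_lit 42184406396) (nat_lit 0) (nat_lit 18165970172) (nat_lit 5) (nat_lit 5) (nat_lit 7) (nat_lit 4) (nat_lit 5) (nat_lit 4) (nat_lit 350) (nat_lit 254) (nat_lit 176)) (XT.nd (nat_lit 78) (nat_lit 0) (nat_lit 0) (XT.lf (nat_lit 0) (nat_lit 41903064362) (nat_lit 152) (nat_lit 32406167845)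 (nat_lit 0) (nat_lit 25267695575) (nat_lit 5) (nat_lit 5) (nat_lit 7) (nat_lit 4) (nat_lit 5) (nat_lit 4) (nat_lit 351) (nat_lit 254) (nat_lit 175)) (XT.lf (nat_lit 0) (nat_lit 49366430424) (nat_lit 152) (nat_lit 22162578992) (nat_lit 0) (nat_lit 32713915817) (nat_lit 5) (nat_lit 5) (nat_lit 7) (nat_lit 4) (nat_lit 5) (nat_lit 4) (nat_lit 352) (nat_lit 254) (nat_lit 174))))) (XT.nd (nat_lit 156) (nat_lit 76) (nat_lit 0) (XT.nd (nat_lit 78) (nat_lit 0) (nat_lit 0) (XT.lf (nat_lit 0) (nat_lit 57191203952) (nat_lit 152) (nat_lit 11429250340) (nat_lit 0) (nat_lit 40522359993) (nat_lit 5) (nat_lit 5) (nat_lit 7) (nat_lit 4) (nat_lit 5) (nat_lit 4) (nat_lit 353) (nat_lit 254) (nat_lit 173)) (XT.lf (nat_lit 0) (nat_lit 65396015361) (nat_lit 152) (nat_lit 180626345) (nat_lit 0) (nat_lit 48711619637) (nat_lit 5) (nat_lit 5) (nat_lit 7) (nat_lit 4) (nat_lit 5) (nat_lit 4) (nat_lit 354) (nat_lit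 254) (nat_lit 172))) (XT.nd (nat_lit 78) (nat_lit 0) (nat_lit 0) (XT.lf (nat_lit 0) (nat_lit 11993956956) (nat_lit 76) (nat_lit 62193702239) (nat_lit 76) (nat_lit 45494495312) (nat_lit 4) (nat_lit 4) (nat_lit 5) (nat_lit 5) (nat_lit 5) (nat_lit 4) (nat_lit 355) (nat_lit 254) (nat_lit 171)) (XT.nd (nat_lit 78) (nat_lit 0) (nat_lit 0) (XT.lf (nat_lit 0) (nat_lit 24763515225) (nat_lit 76) (nat_lit 58647956890) (nat_lit 76) (nat_lit 41934644054) (nat_lit 4) (nat_lit 4) (nat_lit 5) (nat_lit 5) (nat_lit 5) (nat_lit 4) (nat_lit 356) (nat_lit 254) (nat_lit 170)) (XT.lf (nat_lit 0) (nat_lit 38152479848) (nat_lit 76) (nat_lit 54934022403) (nat_lit 76) (nat_lit 38207275368) (nat_lit 4) (nat_lit 4) (nat_lit 5) (nat_lit 5) (nat_lit 5) (nat_lit 4) (nat_lit 357) (nat_lit 254) (nat_lit 169)))))) (XT.nd (nat_lit 390) (nat_lit 152) (nat_lit 0) (XT.nd (nat_lit 156) (nat_lit 0) (nat_lit 0) (XT.nd (nat_lit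 78) (nat_lit 0) (nat_lit 0) (XT.lf (nat_lit 0) (nat_lit 52192729313) (nat_lit 76) (nat_lit 51043056077) (nat_lit 76) (nat_lit 34303514567) (nat_lit 4) (nat_lit 4) (nat_lit 5) (nat_lit 5) (nat_lit 5) (nat_lit 4) (nat_lit 358) (nat_lit 254) (nat_lit 168)) (XT.lf (nat_lit 0) (nat_lit 66917692784) (nat_lit 76) (nat_lit 46965793707) (nat_lit 76) (nat_lit 30214066983) (nat_lit 4) (nat_lit 4) (nat_lit 5) (nat_lit 5) (nat_lit 5) (nat_lit 4) (nat_lit 359) (nat_lit 254) (nat_lit 167))) (XT.nd (nat_lit 78) (nat_lit 0) (nat_lit 0) (XT.lf (nat_lit 0) (nat_lit 82362429698) (nat_lit 76) (nat_lit 42692527524) (nat_lit 76) (nat_lit 25929195835) (nat_lit 4) (nat_lit 4) (nat_lit 5) (nat_lit 5) (nat_lit 5) (nat_lit 4) (nat_lit 360) (nat_lit 254) (nat_lit 166)) (XT.nd (nat_lit 78) (nat_lit 0) (nat_lit 0) (XT.lf (nat_lit 0) (nat_lit 98563713239) (nat_lit 76) (nat_lit 38213083087) (nat_lit 76) (nat_lit 21438699049)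 (nat_lit 4) (nat_lit 4) (nat_lit 5) (nat_lit 5) (nat_lit 5) (nat_lit 4) (nat_lit 361) (nat_lit 254) (nat_lit 165)) (XT.lf (nat_lit 0) (nat_lit 115560117892) (nat_lit 76) (nat_lit 33516795050) (nat_lit 76) (nat_lit 16731884966) (nat_lit 4) (nat_lit 4) (nat_lit 5) (nat_lit 5) (nat_lit 5) (nat_lit 4) (nat_lit 362) (nat_lit 254) (nat_lit 164))))) (XT.nd (nat_lit 234) (nat_lit 152) (nat_lit 0) (XT.nd (nat_lit 78) (nat_lit 0) (nat_lit 0) (XT.lf (nat_lit 0) (nat_lit 133392111285) (nat_lit 76) (nat_lit 28592481776) (nat_lit 76) (nat_lit 11797546886) (nat_lit 4) (nat_lit 4) (nat_lit 5) (nat_lit 5) (nat_lit 5) (nat_lit 4) (nat_lit 363) (nat_lit 254) (nat_lit 163)) (XT.nd (nat_lit 78) (nat_lit 0) (nat_lit 0) (XT.lf (nat_lit 0) (nat_lit 152102150547) (nat_lit 76) (nat_lit 23428418709) (nat_lit 76) (nat_lit 6623936385) (nat_lit 4) (nat_lit 4) (nat_lit 5) (nat_lit 5) (nat_lit 5) (nat_lit 4) (nat_lit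 364) (nat_lit 254) (nat_lit 162)) (XT.lf (nat_lit 0) (nat_lit 171734783390) (nat_lit 76) (nat_lit 18012310462) (nat_lit 76) (nat_lit 1198735343) (nat_lit 4) (nat_lit 4) (nat_lit 5) (nat_lit 5) (nat_lit 5) (nat_lit 4) (nat_lit 365) (nat_lit 254) (nat_lit 161)))) (XT.nd (nat_lit 78) (nat_lit 76) (nat_lit 0) (XT.lf (nat_lit 0) (nat_lit 4347234190) (nat_lit 152) (nat_lit 7910404832) (nat_lit 76) (nat_lit 187915897473) (nat_lit 3) (nat_lit 5) (nat_lit 5) (nat_lit 5) (nat_lit 4) (nat_lit 4) (nat_lit 366) (nat_lit 254) (nat_lit 160)) (XT.nd (nat_lit 78) (nat_lit 0) (nat_lit 0) (XT.lf (nat_lit 0) (nat_lit 4053436178) (nat_lit 76) (nat_lit 6133841155) (nat_lit 152) (nat_lit 199671518006) (nat_lit 2) (nat_lit 5) (nat_lit 3) (nat_lit 5) (nat_lit 4) (nat_lit 4) (nat_lit 367) (nat_lit 254) (nat_lit 159)) (XT.lf (nat_lit 0) (nat_lit 16453909789) (nat_lit 152) (nat_lit 203150281359) (nat_lit 0) (nat_lit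 417398310) (nat_lit 2) (nat_lit 5) (nat_lit 4) (nat_lit 4) (nat_lit 2) (nat_lit 4) (nat_lit 368) (nat_lit 254) (nat_lit 158))))))))
noncomputable def xc90 : XT := (XT.nd (nat_lit 1560) (nat_lit 0) (nat_lit 0) (XT.nd (nat_lit 780) (nat_lit 0) (nat_lit 0) (XT.nd (nat_lit 390) (nat_lit 0) (nat_lit 0) (XT.nd (nat_lit 156) (nat_lit 0) (nat_lit 0) (XT.nd (nat_lit 78) (nat_lit 0) (nat_lit 0) (XT.lf (nat_lit 0) (nat_lit 23128524613) (nat_lit 152) (nat_lit 200474379049) (nat_lit 0) (nat_lit 7084888691) (nat_lit 2) (nat_lit 5) (nat_lit 4) (nat_lit 4) (nat_lit 2) (nat_lit 4) (nat_lit 369) (nat_lit 254) (nat_lit 157)) (XT.lf (nat_lit 0) (nat_lit 30131247294) (nat_lit 152) (nat_lit 197675514587) (nat_lit 0) (nat_lit 14080826189) (nat_lit 2) (nat_lit 5) (nat_lit 4) (nat_lit 4) (nat_lit 2) (nat_lit 4) (nat_lit 370) (nat_lit 254) (nat_lit 156))) (XT.nd (nat_lit 78) (nat_lit 0) (nat_lit 0) (XT.lf (nat_lit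 0) (nat_lit 37478750981) (nat_lit 152) (nat_lit 194747024010) (nat_lit 0) (nat_lit 21421867797) (nat_lit 2) (nat_lit 5) (nat_lit 4) (nat_lit 4) (nat_lit 2) (nat_lit 4) (nat_lit 371) (nat_lit 254) (nat_lit 155)) (XT.nd (nat_lit 78) (nat_lit 0) (nat_lit 0) (XT.lf (nat_lit 0) (nat_lit 45188529732) (nat_lit 152) (nat_lit 191681934720) (nat_lit 0) (nat_lit 29125492187) (nat_lit 2) (nat_lit 5) (nat_lit 4) (nat_lit 4) (nat_lit 2) (nat_lit 4) (nat_lit 372) (nat_lit 254) (nat_lit 154)) (XT.lf (nat_lit 0) (nat_lit 53278940162) (nat_lit 152) (nat_lit 188472948885) (nat_lit 0) (nat_lit 37210041321) (nat_lit 2) (nat_lit 5) (nat_lit 4) (nat_lit 4) (nat_lit 2) (nat_lit 4) (nat_lit 373) (nat_lit 254) (nat_lit 153))))) (XT.nd (nat_lit 156) (nat_lit 0) (nat_lit 0) (XT.nd (nat_lit 78) (nat_lit 0) (nat_lit 0) (XT.lf (nat_lit 0) (nat_lit 61769245154) (nat_lit 152) (nat_lit 185112426065) (nat_lit 0) (nat_lit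 45694764125) (nat_lit 2) (nat_lit 5) (nat_lit 4) (nat_lit 4) (nat_lit 2) (nat_lit 4) (nat_lit 374) (nat_lit 254) (nat_lit 152)) (XT.lf (nat_lit 0) (nat_lit 70679659718) (nat_lit 152) (nat_lit 181592365013) (nat_lit 0) (nat_lit 54599862320) (nat_lit 2) (nat_lit 5) (nat_lit 4) (nat_lit 4) (nat_lit 2) (nat_lit 4) (nat_lit 375) (nat_lit 254) (nat_lit 151))) (XT.nd (nat_lit 78) (nat_lit 0) (nat_lit 0) (XT.lf (nat_lit 0) (nat_lit 80031399128) (nat_lit 152) (nat_lit 177904384632) (nat_lit 0) (nat_lit 63946538522) (nat_lit 2) (nat_lit 5) (nat_lit 4) (nat_lit 4) (nat_lit 2) (nat_lit 4) (nat_lit 376) (nat_lit 254) (nat_lit 150)) (XT.nd (nat_lit 78) (nat_lit 0) (nat_lit 0) (XT.lf (nat_lit 0) (nat_lit 89846729430) (nat_lit 152) (nat_lit 174039704016) (nat_lit 0) (nat_lit 73757046721) (nat_lit 2) (nat_lit 5) (nat_lit 4) (nat_lit 4) (nat_lit 2) (nat_lit 4) (nat_lit 377) (nat_lit 254) (nat_lit 149))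 (XT.lf (nat_lit 0) (nat_lit 100149020458) (nat_lit 152) (nat_lit 169989121545) (nat_lit 0) (nat_lit 84054745270) (nat_lit 2) (nat_lit 5) (nat_lit 4) (nat_lit 4) (nat_lit 2) (nat_lit 4) (nat_lit 378) (nat_lit 254) (nat_lit 148)))))) (XT.nd (nat_lit 390) (nat_lit 0) (nat_lit 0) (XT.nd (nat_lit 156) (nat_lit 0) (nat_lit 0) (XT.nd (nat_lit 78) (nat_lit 0) (nat_lit 0) (XT.lf (nat_lit 0) (nat_lit 110962801477) (nat_lit 152) (nat_lit 165742992974) (nat_lit 0) (nat_lit 94864152499) (nat_lit 2) (nat_lit 5) (nat_lit 4) (nat_lit 4) (nat_lit 2) (nat_lit 4) (nat_lit 379) (nat_lit 254) (nat_lit 147)) (XT.lf (nat_lit 0) (nat_lit 122313819583) (nat_lit 152) (nat_lit 161291208475) (nat_lit 0) (nat_lit 106211005092) (nat_lit 2) (nat_lit 5) (nat_lit 4) (nat_lit 4) (nat_lit 2) (nat_lit 4) (nat_lit 380) (nat_lit 254) (nat_lit 146))) (XT.nd (nat_lit 78) (nat_lit 0) (nat_lit 0) (XT.lf (nat_lit 0) (nat_lit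 134229101012) (nat_lit 152) (nat_lit 156623168559) (nat_lit 0) (nat_lit 118122319364) (nat_lit 2) (nat_lit 5) (nat_lit 4) (nat_lit 4) (nat_lit 2) (nat_lit 4) (nat_lit 381) (nat_lit 254) (nat_lit 145)) (XT.nd (nat_lit 78) (nat_lit 0) (nat_lit 0) (XT.lf (nat_lit 0) (nat_lit 146737015479) (nat_lit 152) (nat_lit 151727758847) (nat_lit 0) (nat_lit 130626455588) (nat_lit 2) (nat_lit 5) (nat_lit 4) (nat_lit 4) (nat_lit 2) (nat_lit 4) (nat_lit 382) (nat_lit 254) (nat_lit 144)) (XT.lf (nat_lit 0) (nat_lit 159867343735) (nat_lit 152) (nat_lit 146593323601) (nat_lit 0) (nat_lit 143753185517) (nat_lit 2) (nat_lit 5) (nat_lit 4) (nat_lit 4) (nat_lit 2) (nat_lit 4) (nat_lit 383) (nat_lit 254) (nat_lit 143))))) (XT.nd (nat_lit 156) (nat_lit 0) (nat_lit 0) (XT.nd (nat_lit 78) (nat_lit 0) (nat_lit 0) (XT.lf (nat_lit 0) (nat_lit 173651348466) (nat_lit 152) (nat_lit 141207637974) (nat_lit 0) (nat_lit 157533763268)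 (nat_lit 2) (nat_lit 5) (nat_lit 4) (nat_lit 4) (nat_lit 2) (nat_lit 4) (nat_lit 384) (nat_lit 254) (nat_lit 142)) (XT.lf (nat_lit 0) (nat_lit 188121848729) (nat_lit 152) (nat_lit 135557878906) (nat_lit 0) (nat_lit 172000999743) (nat_lit 2) (nat_lit 5) (nat_lit 4) (nat_lit 4) (nat_lit 2) (nat_lit 4) (nat_lit 385) (nat_lit 254) (nat_lit 141))) (XT.nd (nat_lit 78) (nat_lit 0) (nat_lit 0) (XT.lf (nat_lit 0) (nat_lit 203313298098) (nat_lit 152) (nat_lit 129630594590) (nat_lit 0) (nat_lit 187189340741) (nat_lit 2) (nat_lit 5) (nat_lit 4) (nat_lit 4) (nat_lit 2) (nat_lit 4) (nat_lit 386) (nat_lit 254) (nat_lit 140)) (XT.nd (nat_lit 78) (nat_lit 0) (nat_lit 0) (XT.lf (nat_lit 0) (nat_lit 219261866690) (nat_lit 152) (nat_lit 123411672444) (nat_lit 0) (nat_lit 203134948980) (nat_lit 2) (nat_lit 5) (nat_lit 4) (nat_lit 4) (nat_lit 2) (nat_lit 4) (nat_lit 387) (nat_lit 254) (nat_lit 139)) (XT.lf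 (nat_lit 0) (nat_lit 236005527287) (nat_lit 152) (nat_lit 116886305510) (nat_lit 0) (nat_lit 219875790193) (nat_lit 2) (nat_lit 5) (nat_lit 4) (nat_lit 4) (nat_lit 2) (nat_lit 4) (nat_lit 388) (nat_lit 254) (nat_lit 138))))))) (XT.nd (nat_lit 31980) (nat_lit 0) (nat_lit 3952) (XT.nd (nat_lit 31590) (nat_lit 0) (nat_lit 6308) (XT.nd (nat_lit 31356) (nat_lit 0) (nat_lit 8816) (XT.nd (nat_lit 78) (nat_lit 0) (nat_lit 0) (XT.lf (nat_lit 0) (nat_lit 253584145748) (nat_lit 152) (nat_lit 110038957201) (nat_lit 0) (nat_lit 237451723527) (nat_lit 2) (nat_lit 5) (nat_lit 4) (nat_lit 4) (nat_lit 2) (nat_lit 4) (nat_lit 389) (nat_lit 254) (nat_lit 137)) (XT.lf (nat_lit 0) (nat_lit 272039575926) (nat_lit 152) (nat_lit 102853324306) (nat_lit 0) (nat_lit 255904596441) (nat_lit 2) (nat_lit 5) (nat_lit 4) (nat_lit 4) (nat_lit 2) (nat_lit 4) (nat_lit 390) (nat_lit 254) (nat_lit 136))) (XT.nd (nat_lit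 78) (nat_lit 532) (nat_lit 0) (XT.lf (nat_lit 0) (nat_lit 1671057354) (nat_lit 380) (nat_lit 850784338) (nat_lit 380) (nat_lit 850784338) (nat_lit 125) (nat_lit 4) (nat_lit 130) (nat_lit 5) (nat_lit 130) (nat_lit 4) (nat_lit 270) (nat_lit 255) (nat_lit 255)) (XT.nd (nat_lit 78) (nat_lit 0) (nat_lit 0) (XT.lf (nat_lit 0) (nat_lit 830328977) (nat_lit 456) (nat_lit 572307868) (nat_lit 532) (nat_lit 5409110715) (nat_lit 118) (nat_lit 5) (nat_lit 124) (nat_lit 5) (nat_lit 125) (nat_lit 4) (nat_lit 271) (nat_lit 255) (nat_lit 254)) (XT.lf (nat_lit 0) (nat_lit 4507553476) (nat_lit 532) (nat_lit 1672987515) (nat_lit 0) (nat_lit 704916793) (nat_lit 118) (nat_lit 5) (nat_lit 125) (nat_lit 4) (nat_lit 118) (nat_lit 4) (nat_lit 272) (nat_lit 255) (nat_lit 253))))) (XT.nd (nat_lit 156) (nat_lit 1292) (nat_lit 0) (XT.nd (nat_lit 78) (nat_lit 608) (nat_lit 0) (XT.lf (nat_lit 0) (nat_lit 672324099)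 (nat_lit 608) (nat_lit 4190986299) (nat_lit 76) (nat_lit 2104633662) (nat_lit 110) (nat_lit 5) (nat_lit 118) (nat_lit 5) (nat_lit 111) (nat_lit 4) (nat_lit 273) (nat_lit 255) (nat_lit 252)) (XT.lf (nat_lit 0) (nat_lit 278224586) (nat_lit 608) (nat_lit 3394928992) (nat_lit 684) (nat_lit 3385913702) (nat_lit 102) (nat_lit 5) (nat_lit 110) (nat_lit 5) (nat_lit 111) (nat_lit 4) (nat_lit 274) (nat_lit 255) (nat_lit 251))) (XT.nd (nat_lit 78) (nat_lit 1292) (nat_lit 0) (XT.lf (nat_lit 0) (nat_lit 4973167166) (nat_lit 608) (nat_lit 1771846692) (nat_lit 684) (nat_lit 414027974) (nat_lit 102) (nat_lit 5) (nat_lit 110) (nat_lit 5) (nat_lit 111) (nat_lit 4) (nat_lit 275) (nat_lit 255) (nat_lit 250)) (XT.nd (nat_lit 78) (nat_lit 532) (nat_lit 0) (XT.lf (nat_lit 0) (nat_lit 2514270306) (nat_lit 760) (nat_lit 4731630500) (nat_lit 76) (nat_lit 21592059) (nat_lit 92) (nat_lit 5) (nat_lit 102) (nat_lit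 5) (nat_lit 93) (nat_lit 4) (nat_lit 276) (nat_lit 255) (nat_lit 249)) (XT.lf (nat_lit 0) (nat_lit 7240898) (nat_lit 532) (nat_lit 5493887803) (nat_lit 608) (nat_lit 1883893130) (nat_lit 85) (nat_lit 5) (nat_lit 92) (nat_lit 5) (nat_lit 93) (nat_lit 4) (nat_lit 277) (nat_lit 255) (nat_lit 248)))))) (XT.nd (nat_lit 390) (nat_lit 1216) (nat_lit 0) (XT.nd (nat_lit 156) (nat_lit 684) (nat_lit 0) (XT.nd (nat_lit 78) (nat_lit 380) (nat_lit 0) (XT.lf (nat_lit 0) (nat_lit 1035431430) (nat_lit 608) (nat_lit 2525135807) (nat_lit 76) (nat_lit 3950115746) (nat_lit 84) (nat_lit 5) (nat_lit 92) (nat_lit 5) (nat_lit 85) (nat_lit 5) (nat_lit 278) (nat_lit 255) (nat_lit 247)) (XT.lf (nat_lit 0) (nat_lit 2476518721) (nat_lit 380) (nat_lit 1467381065) (nat_lit 456) (nat_lit 3702115972) (nat_lit 79) (nat_lit 5) (nat_lit 84) (nat_lit 5) (nat_lit 85) (nat_lit 5) (nat_lit 279) (nat_lit 255) (nat_lit 246)))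 (XT.nd (nat_lit 78) (nat_lit 684) (nat_lit 0) (XT.lf (nat_lit 0) (nat_lit 6924415881) (nat_lit 456) (nat_lit 128338904) (nat_lit 76) (nat_lit 739274098) (nat_lit 79) (nat_lit 5) (nat_lit 85) (nat_lit 5) (nat_lit 80) (nat_lit 4) (nat_lit 280) (nat_lit 255) (nat_lit 245)) (XT.nd (nat_lit 78) (nat_lit 304) (nat_lit 0) (XT.lf (nat_lit 0) (nat_lit 2023202673) (nat_lit 380) (nat_lit 2812099921) (nat_lit 76) (nat_lit 3109512339) (nat_lit 74) (nat_lit 5) (nat_lit 79) (nat_lit 5) (nat_lit 75) (nat_lit 5) (nat_lit 281) (nat_lit 255) (nat_lit 244)) (XT.lf (nat_lit 0) (nat_lit 2480092631) (nat_lit 304) (nat_lit 2469621103) (nat_lit 380) (nat_lit 3159011368) (nat_lit 70) (nat_lit 5) (nat_lit 74) (nat_lit 5) (nat_lit 75) (nat_lit 5) (nat_lit 282) (nat_lit 255) (nat_lit 243))))) (XT.nd (nat_lit 234) (nat_lit 532) (nat_lit 0) (XT.nd (nat_lit 78) (nat_lit 684) (nat_lit 0) (XT.lf (nat_lit 0) (nat_lit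 7953795076) (nat_lit 380) (nat_lit 289537851) (nat_lit 76) (nat_lit 41137119) (nat_lit 70) (nat_lit 5) (nat_lit 75) (nat_lit 5) (nat_lit 71) (nat_lit 4) (nat_lit 283) (nat_lit 255) (nat_lit 242)) (XT.nd (nat_lit 78) (nat_lit 304) (nat_lit 0) (XT.lf (nat_lit 0) (nat_lit 2566182073) (nat_lit 380) (nat_lit 3201806463) (nat_lit 76) (nat_lit 2698557760) (nat_lit 65) (nat_lit 5) (nat_lit 70) (nat_lit 5) (nat_lit 66) (nat_lit 5) (nat_lit 284) (nat_lit 255) (nat_lit 241)) (XT.lf (nat_lit 0) (nat_lit 2380667374) (nat_lit 304) (nat_lit 3147710957) (nat_lit 380) (nat_lit 3132670588) (nat_lit 61) (nat_lit 5) (nat_lit 65) (nat_lit 5) (nat_lit 66) (nat_lit 5) (nat_lit 285) (nat_lit 255) (nat_lit 240)))) (XT.nd (nat_lit 78) (nat_lit 532) (nat_lit 0) (XT.lf (nat_lit 0) (nat_lit 8216341769) (nat_lit 304) (nat_lit 369146980) (nat_lit 380) (nat_lit 282613486) (nat_lit 61) (nat_lit 5) (nat_lit 65) (nat_lit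 5) (nat_lit 66) (nat_lit 5) (nat_lit 286) (nat_lit 255) (nat_lit 239)) (XT.nd (nat_lit 78) (nat_lit 228) (nat_lit 0) (XT.lf (nat_lit 0) (nat_lit 2642397296) (nat_lit 304) (nat_lit 3876145297) (nat_lit 76) (nat_lit 2564041192) (nat_lit 57) (nat_lit 5) (nat_lit 61) (nat_lit 5) (nat_lit 58) (nat_lit 5) (nat_lit 287) (nat_lit 255) (nat_lit 238)) (XT.lf (nat_lit 0) (nat_lit 1989023473) (nat_lit 228) (nat_lit 3661745674) (nat_lit 304) (nat_lit 3659601412) (nat_lit 54) (nat_lit 5) (nat_lit 57) (nat_lit 5) (nat_lit 58) (nat_lit 5) (nat_lit 288) (nat_lit 255) (nat_lit 237))))))))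
noncomputable def xc91 : XT := (XT.nd (nat_lit 1638) (nat_lit 836) (nat_lit 0) (XT.nd (nat_lit 780) (nat_lit 1064) (nat_lit 0) (XT.nd (nat_lit 390) (nat_lit 608) (nat_lit 0) (XT.nd (nat_lit 156) (nat_lit 456) (nat_lit 0) (XT.nd (nat_lit 78) (nat_lit 304) (nat_lit 0) (XT.lf (nat_lit 0) (nat_lit 8147517014) (nat_lit 228) (nat_lit 628714165) (nat_lit 304) (nat_lit 775118299) (nat_lit 54) (nat_lit 5) (nat_lit 57) (nat_lit 5) (nat_lit 58) (nat_lit 5) (nat_lit 289) (nat_lit 255) (nat_lit 236)) (XT.lf (nat_lit 0) (nat_lit 2201572582) (nat_lit 304) (nat_lit 5048455044) (nat_lit 76) (nat_lit 2551708552) (nat_lit 50) (nat_lit 5) (nat_lit 54) (nat_lit 5) (nat_lit 51) (nat_lit 5) (nat_lit 290) (nat_lit 255) (nat_lit 235))) (XT.nd (nat_lit 78) (nat_lit 228) (nat_lit 0) (XT.lf (nat_lit 0) (nat_lit 1081235234) (nat_lit 228) (nat_lit 4177224504) (nat_lit 304) (nat_lit 4807794410) (nat_lit 47) (nat_lit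 5) (nat_lit 50) (nat_lit 5) (nat_lit 51) (nat_lit 5) (nat_lit 291) (nat_lit 255) (nat_lit 234)) (XT.nd (nat_lit 78) (nat_lit 228) (nat_lit 0) (XT.lf (nat_lit 0) (nat_lit 7561331779) (nat_lit 228) (nat_lit 900838730) (nat_lit 304) (nat_lit 1882240747) (nat_lit 47) (nat_lit 5) (nat_lit 50) (nat_lit 5) (nat_lit 51) (nat_lit 5) (nat_lit 292) (nat_lit 255) (nat_lit 233)) (XT.lf (nat_lit 0) (nat_lit 1160884119) (nat_lit 228) (nat_lit 6976776897) (nat_lit 76) (nat_lit 2497519945) (nat_lit 44) (nat_lit 5) (nat_lit 47) (nat_lit 5) (nat_lit 45) (nat_lit 5) (nat_lit 293) (nat_lit 255) (nat_lit 232))))) (XT.nd (nat_lit 156) (nat_lit 380) (nat_lit 0) (XT.nd (nat_lit 78) (nat_lit 228) (nat_lit 0) (XT.lf (nat_lit 0) (nat_lit 4268526517) (nat_lit 228) (nat_lit 595807830) (nat_lit 76) (nat_lit 6075928062) (nat_lit 44) (nat_lit 5) (nat_lit 47) (nat_lit 5) (nat_lit 45) (nat_lit 5) (nat_lit 294) (nat_lit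 255) (nat_lit 231)) (XT.lf (nat_lit 0) (nat_lit 6178274565) (nat_lit 228) (nat_lit 1366825796) (nat_lit 304) (nat_lit 3714912415) (nat_lit 41) (nat_lit 5) (nat_lit 44) (nat_lit 5) (nat_lit 45) (nat_lit 5) (nat_lit 295) (nat_lit 255) (nat_lit 230))) (XT.nd (nat_lit 78) (nat_lit 228) (nat_lit 0) (XT.lf (nat_lit 0) (nat_lit 1606581654) (nat_lit 152) (nat_lit 9368756546) (nat_lit 228) (nat_lit 621008611) (nat_lit 39) (nat_lit 5) (nat_lit 41) (nat_lit 5) (nat_lit 42) (nat_lit 4) (nat_lit 296) (nat_lit 255) (nat_lit 229)) (XT.nd (nat_lit 78) (nat_lit 152) (nat_lit 0) (XT.lf (nat_lit 0) (nat_lit 2572443815) (nat_lit 228) (nat_lit 3330206297) (nat_lit 76) (nat_lit 6043428337) (nat_lit 38) (nat_lit 5) (nat_lit 41) (nat_lit 5) (nat_lit 39) (nat_lit 5) (nat_lit 297) (nat_lit 255) (nat_lit 228)) (XT.lf (nat_lit 0) (nat_lit 3649023533) (nat_lit 152) (nat_lit 2235573722) (nat_lit 228) (nat_lit 6429271419)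 (nat_lit 36) (nat_lit 5) (nat_lit 38) (nat_lit 5) (nat_lit 39) (nat_lit 5) (nat_lit 298) (nat_lit 255) (nat_lit 227)))))) (XT.nd (nat_lit 390) (nat_lit 532) (nat_lit 0) (XT.nd (nat_lit 156) (nat_lit 380) (nat_lit 0) (XT.nd (nat_lit 78) (nat_lit 152) (nat_lit 0) (XT.lf (nat_lit 0) (nat_lit 9368981713) (nat_lit 228) (nat_lit 1751684571) (nat_lit 76) (nat_lit 1579123287) (nat_lit 36) (nat_lit 5) (nat_lit 39) (nat_lit 5) (nat_lit 37) (nat_lit 4) (nat_lit 299) (nat_lit 255) (nat_lit 226)) (XT.lf (nat_lit 0) (nat_lit 5532167088) (nat_lit 152) (nat_lit 7546142244) (nat_lit 228) (nat_lit 24229868) (nat_lit 34) (nat_lit 5) (nat_lit 36) (nat_lit 5) (nat_lit 37) (nat_lit 4) (nat_lit 300) (nat_lit 255) (nat_lit 225))) (XT.nd (nat_lit 78) (nat_lit 304) (nat_lit 0) (XT.lf (nat_lit 0) (nat_lit 3295633359) (nat_lit 228) (nat_lit 453190584) (nat_lit 76) (nat_lit 9776058276) (nat_lit 33) (nat_lit 5) (nat_lit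 36) (nat_lit 5) (nat_lit 34) (nat_lit 5) (nat_lit 301) (nat_lit 255) (nat_lit 224)) (XT.nd (nat_lit 78) (nat_lit 152) (nat_lit 0) (XT.lf (nat_lit 0) (nat_lit 6828583040) (nat_lit 228) (nat_lit 6833671766) (nat_lit 76) (nat_lit 303731847) (nat_lit 31) (nat_lit 5) (nat_lit 34) (nat_lit 5) (nat_lit 32) (nat_lit 4) (nat_lit 302) (nat_lit 255) (nat_lit 223)) (XT.lf (nat_lit 0) (nat_lit 527980003) (nat_lit 152) (nat_lit 10020182870) (nat_lit 228) (nat_lit 3880540974) (nat_lit 29) (nat_lit 5) (nat_lit 31) (nat_lit 5) (nat_lit 32) (nat_lit 4) (nat_lit 303) (nat_lit 255) (nat_lit 222))))) (XT.nd (nat_lit 234) (nat_lit 304) (nat_lit 0) (XT.nd (nat_lit 78) (nat_lit 228) (nat_lit 0) (XT.lf (nat_lit 0) (nat_lit 8385357314) (nat_lit 152) (nat_lit 6118082244) (nat_lit 228) (nat_lit 408685422) (nat_lit 29) (nat_lit 5) (nat_lit 31) (nat_lit 5) (nat_lit 32) (nat_lit 4) (nat_lit 304) (nat_lit 255) (nat_lit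 221)) (XT.nd (nat_lit 78) (nat_lit 0) (nat_lit 0) (XT.lf (nat_lit 0) (nat_lit 1093809325) (nat_lit 152) (nat_lit 1992483799) (nat_lit 228) (nat_lit 12333289911) (nat_lit 26) (nat_lit 5) (nat_lit 28) (nat_lit 5) (nat_lit 29) (nat_lit 5) (nat_lit 305) (nat_lit 255) (nat_lit 220)) (XT.lf (nat_lit 0) (nat_lit 6827954283) (nat_lit 228) (nat_lit 6777259470) (nat_lit 76) (nat_lit 2342628466) (nat_lit 26) (nat_lit 5) (nat_lit 29) (nat_lit 5) (nat_lit 27) (nat_lit 4) (nat_lit 306) (nat_lit 255) (nat_lit 219)))) (XT.nd (nat_lit 78) (nat_lit 228) (nat_lit 0) (XT.lf (nat_lit 0) (nat_lit 1047303071) (nat_lit 76) (nat_lit 9698217755) (nat_lit 152) (nat_lit 5757596822) (nat_lit 25) (nat_lit 5) (nat_lit 26) (nat_lit 5) (nat_lit 27) (nat_lit 4) (nat_lit 307) (nat_lit 255) (nat_lit 218)) (XT.nd (nat_lit 78) (nat_lit 228) (nat_lit 0) (XT.lf (nat_lit 0) (nat_lit 9397799840) (nat_lit 76) (nat_lit 5517045250)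 (nat_lit 152) (nat_lit 2168560078) (nat_lit 25) (nat_lit 5) (nat_lit 26) (nat_lit 5) (nat_lit 27) (nat_lit 4) (nat_lit 308) (nat_lit 255) (nat_lit 217)) (XT.lf (nat_lit 0) (nat_lit 362001325) (nat_lit 152) (nat_lit 1135320633) (nat_lit 228) (nat_lit 16196744437) (nat_lit 22) (nat_lit 5) (nat_lit 24) (nat_lit 5) (nat_lit 25) (nat_lit 5) (nat_lit 309) (nat_lit 255) (nat_lit 216))))))) (XT.nd (nat_lit 780) (nat_lit 380) (nat_lit 0) (XT.nd (nat_lit 390) (nat_lit 152) (nat_lit 0) (XT.nd (nat_lit 156) (nat_lit 304) (nat_lit 0) (XT.nd (nat_lit 78) (nat_lit 0) (nat_lit 0) (XT.lf (nat_lit 0) (nat_lit 5403555075) (nat_lit 228) (nat_lit 9440070292) (nat_lit 76) (nat_lit 3483397598) (nat_lit 22) (nat_lit 5) (nat_lit 25) (nat_lit 5) (nat_lit 23) (nat_lit 4) (nat_lit 310) (nat_lit 255) (nat_lit 215)) (XT.lf (nat_lit 0) (nat_lit 9469936038) (nat_lit 228) (nat_lit 1265747411) (nat_lit 76) (nat_lit 8257736896)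 (nat_lit 22) (nat_lit 5) (nat_lit 25) (nat_lit 5) (nat_lit 23) (nat_lit 4) (nat_lit 311) (nat_lit 255) (nat_lit 214))) (XT.nd (nat_lit 78) (nat_lit 228) (nat_lit 0) (XT.lf (nat_lit 0) (nat_lit 7467085138) (nat_lit 76) (nat_lit 6337918156) (nat_lit 152) (nat_lit 5884899071) (nat_lit 21) (nat_lit 5) (nat_lit 22) (nat_lit 5) (nat_lit 23) (nat_lit 4) (nat_lit 312) (nat_lit 255) (nat_lit 213)) (XT.nd (nat_lit 78) (nat_lit 228) (nat_lit 0) (XT.lf (nat_lit 0) (nat_lit 16592742084) (nat_lit 76) (nat_lit 1735371603) (nat_lit 152) (nat_lit 2094561869) (nat_lit 21) (nat_lit 5) (nat_lit 22) (nat_lit 5) (nat_lit 23) (nat_lit 4) (nat_lit 313) (nat_lit 255) (nat_lit 212)) (XT.lf (nat_lit 0) (nat_lit 1904450999) (nat_lit 228) (nat_lit 16209802782) (nat_lit 76) (nat_lit 3072415515) (nat_lit 18) (nat_lit 5) (nat_lit 21) (nat_lit 5) (nat_lit 19) (nat_lit 4) (nat_lit 314) (nat_lit 255) (nat_lit 211)))))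 (XT.nd (nat_lit 156) (nat_lit 76) (nat_lit 0) (XT.nd (nat_lit 78) (nat_lit 76) (nat_lit 0) (XT.lf (nat_lit 0) (nat_lit 6079264426) (nat_lit 228) (nat_lit 7778176955) (nat_lit 76) (nat_lit 8127419703) (nat_lit 18) (nat_lit 5) (nat_lit 21) (nat_lit 5) (nat_lit 19) (nat_lit 4) (nat_lit 315) (nat_lit 255) (nat_lit 210)) (XT.lf (nat_lit 0) (nat_lit 1026276111) (nat_lit 76) (nat_lit 9406724631) (nat_lit 152) (nat_lit 12391478570) (nat_lit 17) (nat_lit 5) (nat_lit 18) (nat_lit 5) (nat_lit 19) (nat_lit 4) (nat_lit 316) (nat_lit 255) (nat_lit 209))) (XT.nd (nat_lit 78) (nat_lit 76) (nat_lit 0) (XT.lf (nat_lit 0) (nat_lit 10460707424) (nat_lit 76) (nat_lit 4630532229) (nat_lit 152) (nat_lit 8610522733) (nat_lit 17) (nat_lit 5) (nat_lit 18) (nat_lit 5) (nat_lit 19) (nat_lit 4) (nat_lit 317) (nat_lit 255) (nat_lit 208)) (XT.nd (nat_lit 78) (nat_lit 76) (nat_lit 0) (XT.lf (nat_lit 0) (nat_lit 19945094409)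 (nat_lit 152) (nat_lit 4340150210) (nat_lit 0) (nat_lit 339553350) (nat_lit 17) (nat_lit 5) (nat_lit 19) (nat_lit 4) (nat_lit 17) (nat_lit 4) (nat_lit 318) (nat_lit 255) (nat_lit 207)) (XT.lf (nat_lit 0) (nat_lit 5016055225) (nat_lit 76) (nat_lit 20138574811) (nat_lit 76) (nat_lit 433728314) (nat_lit 16) (nat_lit 4) (nat_lit 17) (nat_lit 5) (nat_lit 17) (nat_lit 4) (nat_lit 319) (nat_lit 255) (nat_lit 206)))))) (XT.nd (nat_lit 390) (nat_lit 228) (nat_lit 0) (XT.nd (nat_lit 156) (nat_lit 76) (nat_lit 0) (XT.nd (nat_lit 78) (nat_lit 0) (nat_lit 0) (XT.lf (nat_lit 0) (nat_lit 3929343586) (nat_lit 152) (nat_lit 11744268750) (nat_lit 76) (nat_lit 10921682609) (nat_lit 15) (nat_lit 5) (nat_lit 17) (nat_lit 5) (nat_lit 16) (nat_lit 4) (nat_lit 320) (nat_lit 255) (nat_lit 205)) (XT.lf (nat_lit 0) (nat_lit 8456851049) (nat_lit 152) (nat_lit 2552951411) (nat_lit 76) (nat_lit 16644396865) (nat_lit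 15) (nat_lit 5) (nat_lit 17) (nat_lit 5) (nat_lit 16) (nat_lit 4) (nat_lit 321) (nat_lit 255) (nat_lit 204))) (XT.nd (nat_lit 78) (nat_lit 0) (nat_lit 0) (XT.lf (nat_lit 0) (nat_lit 7262758317) (nat_lit 76) (nat_lit 6024089560) (nat_lit 152) (nat_lit 15475413796) (nat_lit 14) (nat_lit 5) (nat_lit 15) (nat_lit 5) (nat_lit 16) (nat_lit 4) (nat_lit 322) (nat_lit 255) (nat_lit 203)) (XT.nd (nat_lit 78) (nat_lit 0) (nat_lit 0) (XT.lf (nat_lit 0) (nat_lit 17591349901) (nat_lit 76) (nat_lit 773688421) (nat_lit 152) (nat_lit 11560371701) (nat_lit 14) (nat_lit 5) (nat_lit 15) (nat_lit 5) (nat_lit 16) (nat_lit 4) (nat_lit 323) (nat_lit 255) (nat_lit 202)) (XT.lf (nat_lit 0) (nat_lit 23735883383) (nat_lit 152) (nat_lit 2849016190) (nat_lit 0) (nat_lit 4559895697) (nat_lit 14) (nat_lit 5) (nat_lit 16) (nat_lit 4) (nat_lit 14) (nat_lit 4) (nat_lit 324) (nat_lit 255) (nat_lit 201))))) (XT.nd (nat_lit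 234) (nat_lit 76) (nat_lit 0) (XT.nd (nat_lit 78) (nat_lit 76) (nat_lit 0) (XT.lf (nat_lit 0) (nat_lit 7268639563) (nat_lit 76) (nat_lit 22199229228) (nat_lit 76) (nat_lit 2952667022) (nat_lit 13) (nat_lit 4) (nat_lit 14) (nat_lit 5) (nat_lit 14) (nat_lit 4) (nat_lit 325) (nat_lit 255) (nat_lit 200)) (XT.nd (nat_lit 78) (nat_lit 0) (nat_lit 0) (XT.lf (nat_lit 0) (nat_lit 1686704108) (nat_lit 152) (nat_lit 15856032611) (nat_lit 76) (nat_lit 16215214967) (nat_lit 12) (nat_lit 5) (nat_lit 14) (nat_lit 5) (nat_lit 13) (nat_lit 4) (nat_lit 326) (nat_lit 255) (nat_lit 199)) (XT.lf (nat_lit 0) (nat_lit 6426937531) (nat_lit 152) (nat_lit 6202567265) (nat_lit 76) (nat_lit 22531920972) (nat_lit 12) (nat_lit 5) (nat_lit 14) (nat_lit 5) (nat_lit 13) (nat_lit 4) (nat_lit 327) (nat_lit 255) (nat_lit 198)))) (XT.nd (nat_lit 78) (nat_lit 0) (nat_lit 0) (XT.lf (nat_lit 0) (nat_lit 4005794064) (nat_lit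 76) (nat_lit 7430570908) (nat_lit 152) (nat_lit 25197112576) (nat_lit 11) (nat_lit 5) (nat_lit 12) (nat_lit 5) (nat_lit 13) (nat_lit 4) (nat_lit 328) (nat_lit 255) (nat_lit 197)) (XT.nd (nat_lit 78) (nat_lit 0) (nat_lit 0) (XT.lf (nat_lit 0) (nat_lit 14884827905) (nat_lit 76) (nat_lit 1886705688) (nat_lit 152) (nat_lit 21403847321) (nat_lit 11) (nat_lit 5) (nat_lit 12) (nat_lit 5) (nat_lit 13) (nat_lit 4) (nat_lit 329) (nat_lit 255) (nat_lit 196)) (XT.lf (nat_lit 0) (nat_lit 22406154686) (nat_lit 152) (nat_lit 13601507216) (nat_lit 0) (nat_lit 3785094738) (nat_lit 11) (nat_lit 5) (nat_lit 13) (nat_lit 4) (nat_lit 11) (nat_lit 4) (nat_lit 330) (nat_lit 255) (nat_lit 195))))))))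
noncomputable def xc92 : XT := (XT.nd (nat_lit 1560) (nat_lit 228) (nat_lit 0) (XT.nd (nat_lit 780) (nat_lit 228) (nat_lit 0) (XT.nd (nat_lit 390) (nat_lit 76) (nat_lit 0) (XT.nd (nat_lit 156) (nat_lit 76) (nat_lit 0) (XT.nd (nat_lit 78) (nat_lit 76) (nat_lit 0) (XT.lf (nat_lit 0) (nat_lit 28326072402) (nat_lit 152) (nat_lit 3509905338) (nat_lit 0) (nat_lit 9654856460) (nat_lit 11) (nat_lit 5) (nat_lit 13) (nat_lit 4) (nat_lit 11) (nat_lit 4) (nat_lit 331) (nat_lit 255) (nat_lit 194)) (XT.lf (nat_lit 0) (nat_lit 7270436381) (nat_lit 76) (nat_lit 27359000528) (nat_lit 76) (nat_lit 8640016973) (nat_lit 10) (nat_lit 4) (nat_lit 11) (nat_lit 5) (nat_lit 11) (nat_lit 4) (nat_lit 332) (nat_lit 255) (nat_lit 193))) (XT.nd (nat_lit 78) (nat_lit 76) (nat_lit 0) (XT.lf (nat_lit 0) (nat_lit 18663894449) (nat_lit 76) (nat_lit 22617951537) (nat_lit 76) (nat_lit 3853475017) (nat_lit 10) (nat_lit 4)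 (nat_lit 11) (nat_lit 5) (nat_lit 11) (nat_lit 4) (nat_lit 333) (nat_lit 255) (nat_lit 192)) (XT.nd (nat_lit 78) (nat_lit 0) (nat_lit 0) (XT.lf (nat_lit 0) (nat_lit 1110113293) (nat_lit 152) (nat_lit 16532070902) (nat_lit 76) (nat_lit 29452629227) (nat_lit 9) (nat_lit 5) (nat_lit 11) (nat_lit 5) (nat_lit 10) (nat_lit 4) (nat_lit 334) (nat_lit 255) (nat_lit 191)) (XT.lf (nat_lit 0) (nat_lit 6168801073) (nat_lit 152) (nat_lit 6203024413) (nat_lit 76) (nat_lit 36778484161) (nat_lit 9) (nat_lit 5) (nat_lit 11) (nat_lit 5) (nat_lit 10) (nat_lit 4) (nat_lit 335) (nat_lit 255) (nat_lit 190))))) (XT.nd (nat_lit 156) (nat_lit 0) (nat_lit 0) (XT.nd (nat_lit 78) (nat_lit 0) (nat_lit 0) (XT.lf (nat_lit 0) (nat_lit 4752581718) (nat_lit 76) (nat_lit 6779587484) (nat_lit 152) (nat_lit 39773832636) (nat_lit 8) (nat_lit 5) (nat_lit 9) (nat_lit 5) (nat_lit 10) (nat_lit 4) (nat_lit 336) (nat_lit 255) (nat_lit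 189)) (XT.lf (nat_lit 0) (nat_lit 16429995683) (nat_lit 76) (nat_lit 816730173) (nat_lit 152) (nat_lit 36318609827) (nat_lit 8) (nat_lit 5) (nat_lit 9) (nat_lit 5) (nat_lit 10) (nat_lit 4) (nat_lit 337) (nat_lit 255) (nat_lit 188))) (XT.nd (nat_lit 78) (nat_lit 0) (nat_lit 0) (XT.lf (nat_lit 0) (nat_lit 23310741727) (nat_lit 152) (nat_lit 27371485529) (nat_lit 0) (nat_lit 5252230059) (nat_lit 8) (nat_lit 5) (nat_lit 10) (nat_lit 4) (nat_lit 8) (nat_lit 4) (nat_lit 338) (nat_lit 255) (nat_lit 187)) (XT.nd (nat_lit 78) (nat_lit 0) (nat_lit 0) (XT.lf (nat_lit 0) (nat_lit 29671091289) (nat_lit 152) (nat_lit 17171045777) (nat_lit 0) (nat_lit 11580248621) (nat_lit 8) (nat_lit 5) (nat_lit 10) (nat_lit 4) (nat_lit 8) (nat_lit 4) (nat_lit 339) (nat_lit 255) (nat_lit 186)) (XT.lf (nat_lit 0) (nat_lit 36330166786) (nat_lit 152) (nat_lit 6496982535) (nat_lit 0) (nat_lit 18208532688) (nat_lit 8)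 (nat_lit 5) (nat_lit 10) (nat_lit 4) (nat_lit 8) (nat_lit 4) (nat_lit 340) (nat_lit 255) (nat_lit 185)))))) (XT.nd (nat_lit 390) (nat_lit 152) (nat_lit 0) (XT.nd (nat_lit 156) (nat_lit 0) (nat_lit 0) (XT.nd (nat_lit 78) (nat_lit 0) (nat_lit 0) (XT.lf (nat_lit 0) (nat_lit 4830732233) (nat_lit 76) (nat_lit 38548512193) (nat_lit 76) (nat_lit 20397552925) (nat_lit 7) (nat_lit 4) (nat_lit 8) (nat_lit 5) (nat_lit 8) (nat_lit 4) (nat_lit 341) (nat_lit 255) (nat_lit 184)) (XT.lf (nat_lit 0) (nat_lit 16916287184) (nat_lit 76) (nat_lit 33956487816) (nat_lit 76) (nat_lit 15777599814) (nat_lit 7) (nat_lit 4) (nat_lit 8) (nat_lit 5) (nat_lit 8) (nat_lit 4) (nat_lit 342) (nat_lit 255) (nat_lit 183))) (XT.nd (nat_lit 78) (nat_lit 0) (nat_lit 0) (XT.lf (nat_lit 0) (nat_lit 29573637865) (nat_lit 76) (nat_lit 29150172342) (nat_lit 76) (nat_lit 10944685545) (nat_lit 7) (nat_lit 4) (nat_lit 8) (nat_lit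 5) (nat_lit 8) (nat_lit 4) (nat_lit 343) (nat_lit 255) (nat_lit 182)) (XT.nd (nat_lit 78) (nat_lit 0) (nat_lit 0) (XT.lf (nat_lit 0) (nat_lit 42832920825) (nat_lit 76) (nat_lit 24118122163) (nat_lit 76) (nat_lit 5887303181) (nat_lit 7) (nat_lit 4) (nat_lit 8) (nat_lit 5) (nat_lit 8) (nat_lit 4) (nat_lit 344) (nat_lit 255) (nat_lit 181)) (XT.lf (nat_lit 0) (nat_lit 56725705785) (nat_lit 76) (nat_lit 18848356206) (nat_lit 76) (nat_lit 593411333) (nat_lit 7) (nat_lit 4) (nat_lit 8) (nat_lit 5) (nat_lit 8) (nat_lit 4) (nat_lit 345) (nat_lit 255) (nat_lit 180))))) (XT.nd (nat_lit 156) (nat_lit 0) (nat_lit 0) (XT.nd (nat_lit 78) (nat_lit 76) (nat_lit 0) (XT.lf (nat_lit 0) (nat_lit 4791176565) (nat_lit 152) (nat_lit 8456009952) (nat_lit 76) (nat_lit 66412753345) (nat_lit 6) (nat_lit 5) (nat_lit 8) (nat_lit 5) (nat_lit 7) (nat_lit 4) (nat_lit 346) (nat_lit 255) (nat_lit 179)) (XT.lf (nat_lit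 0) (nat_lit 3142690510) (nat_lit 76) (nat_lit 7317063302) (nat_lit 152) (nat_lit 72865059094) (nat_lit 5) (nat_lit 5) (nat_lit 6) (nat_lit 5) (nat_lit 7) (nat_lit 4) (nat_lit 347) (nat_lit 255) (nat_lit 178))) (XT.nd (nat_lit 78) (nat_lit 0) (nat_lit 0) (XT.lf (nat_lit 0) (nat_lit 15588135647) (nat_lit 76) (nat_lit 952733281) (nat_lit 152) (nat_lit 70625609707) (nat_lit 5) (nat_lit 5) (nat_lit 6) (nat_lit 5) (nat_lit 7) (nat_lit 4) (nat_lit 348) (nat_lit 255) (nat_lit 177)) (XT.nd (nat_lit 78) (nat_lit 0) (nat_lit 0) (XT.lf (nat_lit 0) (nat_lit 23001883605) (nat_lit 152) (nat_lit 62659809745) (nat_lit 0) (nat_lit 5534746379) (nat_lit 5) (nat_lit 5) (nat_lit 7) (nat_lit 4) (nat_lit 5) (nat_lit 4) (nat_lit 349) (nat_lit 255) (nat_lit 176)) (XT.lf (nat_lit 0) (nat_lit 29788601271) (nat_lit 152) (nat_lit 53335708125) (nat_lit 0) (nat_lit 12303460934) (nat_lit 5) (nat_lit 5) (nat_lit 7) (nat_lit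 4) (nat_lit 5) (nat_lit 4) (nat_lit 350) (nat_lit 255) (nat_lit 175))))))) (XT.nd (nat_lit 780) (nat_lit 152) (nat_lit 0) (XT.nd (nat_lit 390) (nat_lit 0) (nat_lit 0) (XT.nd (nat_lit 156) (nat_lit 76) (nat_lit 0) (XT.nd (nat_lit 78) (nat_lit 0) (nat_lit 0) (XT.lf (nat_lit 0) (nat_lit 36902305943) (nat_lit 152) (nat_lit 43568963050) (nat_lit 0) (nat_lit 19400019786) (nat_lit 5) (nat_lit 5) (nat_lit 7) (nat_lit 4) (nat_lit 5) (nat_lit 4) (nat_lit 351) (nat_lit 255) (nat_lit 174)) (XT.lf (nat_lit 0) (nat_lit 44359935011) (nat_lit 152) (nat_lit 33336320365) (nat_lit 0) (nat_lit 26841319502) (nat_lit 5) (nat_lit 5) (nat_lit 7) (nat_lit 4) (nat_lit 5) (nat_lit 4) (nat_lit 352) (nat_lit 255) (nat_lit 173))) (XT.nd (nat_lit 78) (nat_lit 76) (nat_lit 0) (XT.lf (nat_lit 0) (nat_lit 52179244737) (nat_lit 152) (nat_lit 22613416635) (nat_lit 0) (nat_lit 34645077463) (nat_lit 5) (nat_lit 5) (nat_lit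 7) (nat_lit 4) (nat_lit 5) (nat_lit 4) (nat_lit 353) (nat_lit 255) (nat_lit 172)) (XT.nd (nat_lit 78) (nat_lit 76) (nat_lit 0) (XT.lf (nat_lit 0) (nat_lit 60378852523) (nat_lit 152) (nat_lit 11374721137) (nat_lit 0) (nat_lit 42829874046) (nat_lit 5) (nat_lit 5) (nat_lit 7) (nat_lit 4) (nat_lit 5) (nat_lit 4) (nat_lit 354) (nat_lit 255) (nat_lit 171)) (XT.lf (nat_lit 0) (nat_lit 419966477) (nat_lit 76) (nat_lit 68564871622) (nat_lit 76) (nat_lit 51001787236) (nat_lit 4) (nat_lit 4) (nat_lit 5) (nat_lit 5) (nat_lit 5) (nat_lit 4) (nat_lit 355) (nat_lit 255) (nat_lit 170))))) (XT.nd (nat_lit 156) (nat_lit 0) (nat_lit 0) (XT.nd (nat_lit 78) (nat_lit 0) (nat_lit 0) (XT.lf (nat_lit 0) (nat_lit 13180221547) (nat_lit 76) (nat_lit 65023564385) (nat_lit 76) (nat_lit 47447045800) (nat_lit 4) (nat_lit 4) (nat_lit 5) (nat_lit 5) (nat_lit 5) (nat_lit 4) (nat_lit 356) (nat_lit 255) (nat_lit 169)) (XT.lf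 (nat_lit 0) (nat_lit 26560325980) (nat_lit 76) (nat_lit 61313856672) (nat_lit 76) (nat_lit 43724543612) (nat_lit 4) (nat_lit 4) (nat_lit 5) (nat_lit 5) (nat_lit 5) (nat_lit 4) (nat_lit 357) (nat_lit 255) (nat_lit 168))) (XT.nd (nat_lit 78) (nat_lit 0) (nat_lit 0) (XT.lf (nat_lit 0) (nat_lit 40592137168) (nat_lit 76) (nat_lit 57426915844) (nat_lit 76) (nat_lit 39825417570) (nat_lit 4) (nat_lit 4) (nat_lit 5) (nat_lit 5) (nat_lit 5) (nat_lit 4) (nat_lit 358) (nat_lit 255) (nat_lit 167)) (XT.nd (nat_lit 78) (nat_lit 0) (nat_lit 0) (XT.lf (nat_lit 0) (nat_lit 55309064185) (nat_lit 76) (nat_lit 53353487282) (nat_lit 76) (nat_lit 35740384042) (nat_lit 4) (nat_lit 4) (nat_lit 5) (nat_lit 5) (nat_lit 5) (nat_lit 4) (nat_lit 359) (nat_lit 255) (nat_lit 166)) (XT.lf (nat_lit 0) (nat_lit 70746147334) (nat_lit 76) (nat_lit 49083872345) (nat_lit 76) (nat_lit 31459716757) (nat_lit 4) (nat_lit 4) (nat_lit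 5) (nat_lit 5) (nat_lit 5) (nat_lit 4) (nat_lit 360) (nat_lit 255) (nat_lit 165)))))) (XT.nd (nat_lit 390) (nat_lit 152) (nat_lit 0) (XT.nd (nat_lit 156) (nat_lit 0) (nat_lit 0) (XT.nd (nat_lit 78) (nat_lit 0) (nat_lit 0) (XT.lf (nat_lit 0) (nat_lit 86940141575) (nat_lit 76) (nat_lit 44607905285) (nat_lit 76) (nat_lit 26973223650) (nat_lit 4) (nat_lit 4) (nat_lit 5) (nat_lit 5) (nat_lit 5) (nat_lit 4) (nat_lit 361) (nat_lit 255) (nat_lit 164)) (XT.lf (nat_lit 0) (nat_lit 103929604036) (nat_lit 76) (nat_lit 39914929036) (nat_lit 76) (nat_lit 22270222595) (nat_lit 4) (nat_lit 4) (nat_lit 5) (nat_lit 5) (nat_lit 5) (nat_lit 4) (nat_lit 362) (nat_lit 255) (nat_lit 163))) (XT.nd (nat_lit 78) (nat_lit 0) (nat_lit 0) (XT.lf (nat_lit 0) (nat_lit 121754985819) (nat_lit 76) (nat_lit 34993769845) (nat_lit 76) (nat_lit 17339515970) (nat_lit 4) (nat_lit 4) (nat_lit 5) (nat_lit 5) (nat_lit 5) (nat_lit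 4) (nat_lit 363) (nat_lit 255) (nat_lit 162)) (XT.nd (nat_lit 78) (nat_lit 0) (nat_lit 0) (XT.lf (nat_lit 0) (nat_lit 140458728309) (nat_lit 76) (nat_lit 29832710667) (nat_lit 76) (nat_lit 12169363998) (nat_lit 4) (nat_lit 4) (nat_lit 5) (nat_lit 5) (nat_lit 5) (nat_lit 4) (nat_lit 364) (nat_lit 255) (nat_lit 161)) (XT.lf (nat_lit 0) (nat_lit 160085364227) (nat_lit 76) (nat_lit 24419463266) (nat_lit 76) (nat_lit 6747456793) (nat_lit 4) (nat_lit 4) (nat_lit 5) (nat_lit 5) (nat_lit 5) (nat_lit 4) (nat_lit 365) (nat_lit 255) (nat_lit 160))))) (XT.nd (nat_lit 234) (nat_lit 0) (nat_lit 0) (XT.nd (nat_lit 78) (nat_lit 152) (nat_lit 0) (XT.lf (nat_lit 0) (nat_lit 180681623657) (nat_lit 76) (nat_lit 18741138957) (nat_lit 76) (nat_lit 1060885051) (nat_lit 4) (nat_lit 4) (nat_lit 5) (nat_lit 5) (nat_lit 5) (nat_lit 4) (nat_lit 366) (nat_lit 255) (nat_lit 159)) (XT.nd (nat_lit 78) (nat_lit 76)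 (nat_lit 0) (XT.lf (nat_lit 0) (nat_lit 4746935554) (nat_lit 152) (nat_lit 7956890716) (nat_lit 76) (nat_lit 197469218108) (nat_lit 3) (nat_lit 5) (nat_lit 5) (nat_lit 5) (nat_lit 4) (nat_lit 4) (nat_lit 367) (nat_lit 255) (nat_lit 158)) (XT.lf (nat_lit 0) (nat_lit 4599512758) (nat_lit 76) (nat_lit 6276146766) (nat_lit 152) (nat_lit 209467075180) (nat_lit 2) (nat_lit 5) (nat_lit 3) (nat_lit 5) (nat_lit 4) (nat_lit 4) (nat_lit 368) (nat_lit 255) (nat_lit 157)))) (XT.nd (nat_lit 78) (nat_lit 0) (nat_lit 0) (XT.lf (nat_lit 0) (nat_lit 17449543239) (nat_lit 152) (nat_lit 212974615770) (nat_lit 0) (nat_lit 589815895) (nat_lit 2) (nat_lit 5) (nat_lit 4) (nat_lit 4) (nat_lit 2) (nat_lit 4) (nat_lit 369) (nat_lit 255) (nat_lit 156)) (XT.nd (nat_lit 78) (nat_lit 0) (nat_lit 0) (XT.lf (nat_lit 0) (nat_lit 24449653662) (nat_lit 152) (nat_lit 210180784043) (nat_lit 0) (nat_lit 7583464240) (nat_lit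 2) (nat_lit 5) (nat_lit 4) (nat_lit 4) (nat_lit 2) (nat_lit 4) (nat_lit 370) (nat_lit 255) (nat_lit 155)) (XT.lf (nat_lit 0) (nat_lit 31794669486) (nat_lit 152) (nat_lit 207257086547) (nat_lit 0) (nat_lit 14922325702) (nat_lit 2) (nat_lit 5) (nat_lit 4) (nat_lit 4) (nat_lit 2) (nat_lit 4) (nat_lit 371) (nat_lit 255) (nat_lit 154))))))))
noncomputable def xc93 : XT := (XT.nd (nat_lit 32682) (nat_lit 0) (nat_lit 3648) (XT.nd (nat_lit 780) (nat_lit 0) (nat_lit 0) (XT.nd (nat_lit 390) (nat_lit 0) (nat_lit 0) (XT.nd (nat_lit 156) (nat_lit 0) (nat_lit 0) (XT.nd (nat_lit 78) (nat_lit 0) (nat_lit 0) (XT.lf (nat_lit 0) (nat_lit 39502078843) (nat_lit 152) (nat_lit 204196562096) (nat_lit 0) (nat_lit 22623873762) (nat_lit 2) (nat_lit 5) (nat_lit 4) (nat_lit 4) (nat_lit 2) (nat_lit 4) (nat_lit 372) (nat_lit 255) (nat_lit 153)) (XT.lf (nat_lit 0) (nat_lit 47590232707) (nat_lit 152) (nat_lit 200991923727)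 (nat_lit 0) (nat_lit 30706445439) (nat_lit 2) (nat_lit 5) (nat_lit 4) (nat_lit 4) (nat_lit 2) (nat_lit 4) (nat_lit 373) (nat_lit 255) (nat_lit 152))) (XT.nd (nat_lit 78) (nat_lit 0) (nat_lit 0) (XT.lf (nat_lit 0) (nat_lit 56078388587) (nat_lit 152) (nat_lit 197635541351) (nat_lit 0) (nat_lit 39189284952) (nat_lit 2) (nat_lit 5) (nat_lit 4) (nat_lit 4) (nat_lit 2) (nat_lit 4) (nat_lit 374) (nat_lit 255) (nat_lit 151)) (XT.nd (nat_lit 78) (nat_lit 0) (nat_lit 0) (XT.lf (nat_lit 0) (nat_lit 64986756380) (nat_lit 152) (nat_lit 194119423578) (nat_lit 0) (nat_lit 48092589536) (nat_lit 2) (nat_lit 5) (nat_lit 4) (nat_lit 4) (nat_lit 2) (nat_lit 4) (nat_lit 375) (nat_lit 255) (nat_lit 150)) (XT.lf (nat_lit 0) (nat_lit 74336546483) (nat_lit 152) (nat_lit 190435198702) (nat_lit 0) (nat_lit 57437557536) (nat_lit 2) (nat_lit 5) (nat_lit 4) (nat_lit 4) (nat_lit 2) (nat_lit 4) (nat_lit 376) (nat_lit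 255) (nat_lit 149))))) (XT.nd (nat_lit 156) (nat_lit 0) (nat_lit 0) (XT.nd (nat_lit 78) (nat_lit 0) (nat_lit 0) (XT.lf (nat_lit 0) (nat_lit 84150020303) (nat_lit 152) (nat_lit 186574094757) (nat_lit 0) (nat_lit 67246438877) (nat_lit 2) (nat_lit 5) (nat_lit 4) (nat_lit 4) (nat_lit 2) (nat_lit 4) (nat_lit 377) (nat_lit 255) (nat_lit 148)) (XT.lf (nat_lit 0) (nat_lit 94450543252) (nat_lit 152) (nat_lit 182526918639) (nat_lit 0) (nat_lit 77542588037) (nat_lit 2) (nat_lit 5) (nat_lit 4) (nat_lit 4) (nat_lit 2) (nat_lit 4) (nat_lit 378) (nat_lit 255) (nat_lit 147))) (XT.nd (nat_lit 78) (nat_lit 0) (nat_lit 0) (XT.lf (nat_lit 0) (nat_lit 105262640387) (nat_lit 152) (nat_lit 178284034215) (nat_lit 0) (nat_lit 88350519657) (nat_lit 2) (nat_lit 5) (nat_lit 4) (nat_lit 4) (nat_lit 2) (nat_lit 4) (nat_lit 379) (nat_lit 255) (nat_lit 146)) (XT.nd (nat_lit 78) (nat_lit 0) (nat_lit 0) (XT.lf (nat_lit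 0) (nat_lit 116612054794) (nat_lit 152) (nat_lit 173835339378) (nat_lit 0) (nat_lit 99695966908) (nat_lit 2) (nat_lit 5) (nat_lit 4) (nat_lit 4) (nat_lit 2) (nat_lit 4) (nat_lit 380) (nat_lit 255) (nat_lit 145)) (XT.lf (nat_lit 0) (nat_lit 128525808890) (nat_lit 152) (nat_lit 169170241999) (nat_lit 0) (nat_lit 111605942760) (nat_lit 2) (nat_lit 5) (nat_lit 4) (nat_lit 4) (nat_lit 2) (nat_lit 4) (nat_lit 381) (nat_lit 255) (nat_lit 144)))))) (XT.nd (nat_lit 390) (nat_lit 0) (nat_lit 0) (XT.nd (nat_lit 156) (nat_lit 0) (nat_lit 0) (XT.nd (nat_lit 78) (nat_lit 0) (nat_lit 0) (XT.lf (nat_lit 0) (nat_lit 141032268755) (nat_lit 152) (nat_lit 164277634702) (nat_lit 0) (nat_lit 124108804298) (nat_lit 2) (nat_lit 5) (nat_lit 4) (nat_lit 4) (nat_lit 2) (nat_lit 4) (nat_lit 382) (nat_lit 255) (nat_lit 143)) (XT.lf (nat_lit 0) (nat_lit 154161211675) (nat_lit 152) (nat_lit 159145868422) (nat_lit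 0) (nat_lit 137234320239) (nat_lit 2) (nat_lit 5) (nat_lit 4) (nat_lit 4) (nat_lit 2) (nat_lit 4) (nat_lit 383) (nat_lit 255) (nat_lit 142))) (XT.nd (nat_lit 78) (nat_lit 0) (nat_lit 0) (XT.lf (nat_lit 0) (nat_lit 167943897038) (nat_lit 152) (nat_lit 153762724669) (nat_lit 0) (nat_lit 151013741813) (nat_lit 2) (nat_lit 5) (nat_lit 4) (nat_lit 4) (nat_lit 2) (nat_lit 4) (nat_lit 384) (nat_lit 255) (nat_lit 141)) (XT.nd (nat_lit 78) (nat_lit 0) (nat_lit 0) (XT.lf (nat_lit 0) (nat_lit 182413140761) (nat_lit 152) (nat_lit 148115386433) (nat_lit 0) (nat_lit 165479877165) (nat_lit 2) (nat_lit 5) (nat_lit 4) (nat_lit 4) (nat_lit 2) (nat_lit 4) (nat_lit 385) (nat_lit 255) (nat_lit 140)) (XT.lf (nat_lit 0) (nat_lit 197603393425) (nat_lit 152) (nat_lit 142190407671) (nat_lit 0) (nat_lit 180667169476) (nat_lit 2) (nat_lit 5) (nat_lit 4) (nat_lit 4) (nat_lit 2) (nat_lit 4) (nat_lit 386) (nat_lit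 255) (nat_lit 139))))) (XT.nd (nat_lit 234) (nat_lit 0) (nat_lit 0) (XT.nd (nat_lit 78) (nat_lit 0) (nat_lit 0) (XT.lf (nat_lit 0) (nat_lit 213550822297) (nat_lit 152) (nat_lit 135973681291) (nat_lit 0) (nat_lit 196611778965) (nat_lit 2) (nat_lit 5) (nat_lit 4) (nat_lit 4) (nat_lit 2) (nat_lit 4) (nat_lit 387) (nat_lit 255) (nat_lit 138)) (XT.nd (nat_lit 78) (nat_lit 0) (nat_lit 0) (XT.lf (nat_lit 0) (nat_lit 230293397448) (nat_lit 152) (nat_lit 129450405562) (nat_lit 0) (nat_lit 213351668988) (nat_lit 2) (nat_lit 5) (nat_lit 4) (nat_lit 4) (nat_lit 2) (nat_lit 4) (nat_lit 388) (nat_lit 255) (nat_lit 137)) (XT.lf (nat_lit 0) (nat_lit 247870982150) (nat_lit 152) (nat_lit 122605048877) (nat_lit 0) (nat_lit 230926696426) (nat_lit 2) (nat_lit 5) (nat_lit 4) (nat_lit 4) (nat_lit 2) (nat_lit 4) (nat_lit 389) (nat_lit 255) (nat_lit 136)))) (XT.nd (nat_lit 31122) (nat_lit 0) (nat_lit 9728) (XT.lf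 (nat_lit 0) (nat_lit 266325427796) (nat_lit 152) (nat_lit 115421312768) (nat_lit 0) (nat_lit 249378706582) (nat_lit 2) (nat_lit 5) (nat_lit 4) (nat_lit 4) (nat_lit 2) (nat_lit 4) (nat_lit 390) (nat_lit 255) (nat_lit 135)) (XT.nd (nat_lit 78) (nat_lit 0) (nat_lit 0) (XT.lf (nat_lit 0) (nat_lit 456244060) (nat_lit 380) (nat_lit 2405170908) (nat_lit 0) (nat_lit 456244060) (nat_lit 130) (nat_lit 5) (nat_lit 135) (nat_lit 4) (nat_lit 130) (nat_lit 4) (nat_lit 268) (nat_lit 256) (nat_lit 256)) (XT.lf (nat_lit 0) (nat_lit 3991334406) (nat_lit 380) (nat_lit 852683037) (nat_lit 0) (nat_lit 1844004021) (nat_lit 130) (nat_lit 5) (nat_lit 135) (nat_lit 4) (nat_lit 130) (nat_lit 4) (nat_lit 269) (nat_lit 256) (nat_lit 255))))))) (XT.nd (nat_lit 780) (nat_lit 2204) (nat_lit 0) (XT.nd (nat_lit 390) (nat_lit 2356) (nat_lit 0) (XT.nd (nat_lit 156) (nat_lit 608) (nat_lit 0) (XT.nd (nat_lit 78) (nat_lit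 456) (nat_lit 0) (XT.lf (nat_lit 0) (nat_lit 347660054) (nat_lit 456) (nat_lit 3479703830) (nat_lit 76) (nat_lit 2921946486) (nat_lit 124) (nat_lit 5) (nat_lit 130) (nat_lit 5) (nat_lit 125) (nat_lit 4) (nat_lit 270) (nat_lit 256) (nat_lit 254)) (XT.lf (nat_lit 0) (nat_lit 655302013) (nat_lit 456) (nat_lit 2659527701) (nat_lit 532) (nat_lit 3503980943) (nat_lit 118) (nat_lit 5) (nat_lit 124) (nat_lit 5) (nat_lit 125) (nat_lit 4) (nat_lit 271) (nat_lit 256) (nat_lit 253))) (XT.nd (nat_lit 78) (nat_lit 608) (nat_lit 0) (XT.lf (nat_lit 0) (nat_lit 4984158368) (nat_lit 456) (nat_lit 1347159677) (nat_lit 532) (nat_lit 565818867) (nat_lit 118) (nat_lit 5) (nat_lit 124) (nat_lit 5) (nat_lit 125) (nat_lit 4) (nat_lit 272) (nat_lit 256) (nat_lit 252)) (XT.nd (nat_lit 78) (nat_lit 0) (nat_lit 0) (XT.lf (nat_lit 0) (nat_lit 2325767022) (nat_lit 608) (nat_lit 4528994410) (nat_lit 76) (nat_lit 128655915)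 (nat_lit 110) (nat_lit 5) (nat_lit 118) (nat_lit 5) (nat_lit 111) (nat_lit 4) (nat_lit 273) (nat_lit 256) (nat_lit 251)) (XT.lf (nat_lit 0) (nat_lit 5250179063) (nat_lit 608) (nat_lit 136320722) (nat_lit 76) (nat_lit 1692029770) (nat_lit 110) (nat_lit 5) (nat_lit 118) (nat_lit 5) (nat_lit 111) (nat_lit 4) (nat_lit 274) (nat_lit 256) (nat_lit 250))))) (XT.nd (nat_lit 156) (nat_lit 988) (nat_lit 0) (XT.nd (nat_lit 78) (nat_lit 684) (nat_lit 0) (XT.lf (nat_lit 0) (nat_lit 1033722515) (nat_lit 684) (nat_lit 2711358072) (nat_lit 76) (nat_lit 3436343941) (nat_lit 101) (nat_lit 5) (nat_lit 110) (nat_lit 5) (nat_lit 102) (nat_lit 5) (nat_lit 275) (nat_lit 256) (nat_lit 249)) (XT.lf (nat_lit 0) (nat_lit 1918764706) (nat_lit 684) (nat_lit 1952418221) (nat_lit 760) (nat_lit 3422393971) (nat_lit 92) (nat_lit 5) (nat_lit 101) (nat_lit 5) (nat_lit 102) (nat_lit 5) (nat_lit 276) (nat_lit 256) (nat_lit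 248))) (XT.nd (nat_lit 78) (nat_lit 988) (nat_lit 0) (XT.lf (nat_lit 0) (nat_lit 6741906082) (nat_lit 684) (nat_lit 20481227) (nat_lit 760) (nat_lit 653639567) (nat_lit 92) (nat_lit 5) (nat_lit 101) (nat_lit 5) (nat_lit 102) (nat_lit 5) (nat_lit 277) (nat_lit 256) (nat_lit 247)) (XT.nd (nat_lit 78) (nat_lit 380) (nat_lit 0) (XT.lf (nat_lit 0) (nat_lit 2150461842) (nat_lit 608) (nat_lit 3348315324) (nat_lit 76) (nat_lit 2045868295) (nat_lit 84) (nat_lit 5) (nat_lit 92) (nat_lit 5) (nat_lit 85) (nat_lit 5) (nat_lit 278) (nat_lit 256) (nat_lit 246)) (XT.lf (nat_lit 0) (nat_lit 1557968466) (nat_lit 380) (nat_lit 3425214472) (nat_lit 456) (nat_lit 2700702139) (nat_lit 79) (nat_lit 5) (nat_lit 84) (nat_lit 5) (nat_lit 85) (nat_lit 5) (nat_lit 279) (nat_lit 256) (nat_lit 245)))))) (XT.nd (nat_lit 390) (nat_lit 1140) (nat_lit 0) (XT.nd (nat_lit 156) (nat_lit 684) (nat_lit 0) (XT.nd (nat_lit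 78) (nat_lit 304) (nat_lit 0) (XT.lf (nat_lit 0) (nat_lit 56818237) (nat_lit 456) (nat_lit 1141747023) (nat_lit 76) (nat_lit 6634971869) (nat_lit 78) (nat_lit 5) (nat_lit 84) (nat_lit 5) (nat_lit 79) (nat_lit 5) (nat_lit 280) (nat_lit 256) (nat_lit 244)) (XT.lf (nat_lit 0) (nat_lit 2825700512) (nat_lit 380) (nat_lit 3964771071) (nat_lit 76) (nat_lit 1199985729) (nat_lit 74) (nat_lit 5) (nat_lit 79) (nat_lit 5) (nat_lit 75) (nat_lit 5) (nat_lit 281) (nat_lit 256) (nat_lit 243))) (XT.nd (nat_lit 78) (nat_lit 380) (nat_lit 0) (XT.lf (nat_lit 0) (nat_lit 1221554968) (nat_lit 304) (nat_lit 4454970965) (nat_lit 380) (nat_lit 2481724124) (nat_lit 70) (nat_lit 5) (nat_lit 74) (nat_lit 5) (nat_lit 75) (nat_lit 5) (nat_lit 282) (nat_lit 256) (nat_lit 242)) (XT.nd (nat_lit 78) (nat_lit 304) (nat_lit 0) (XT.lf (nat_lit 0) (nat_lit 279486719) (nat_lit 380) (nat_lit 1668784819) (nat_lit 76) (nat_lit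 6388343630) (nat_lit 69) (nat_lit 5) (nat_lit 74) (nat_lit 5) (nat_lit 70) (nat_lit 5) (nat_lit 283) (nat_lit 256) (nat_lit 241)) (XT.lf (nat_lit 0) (nat_lit 3058807841) (nat_lit 380) (nat_lit 4722260875) (nat_lit 76) (nat_lit 742797086) (nat_lit 65) (nat_lit 5) (nat_lit 70) (nat_lit 5) (nat_lit 66) (nat_lit 5) (nat_lit 284) (nat_lit 256) (nat_lit 240))))) (XT.nd (nat_lit 234) (nat_lit 532) (nat_lit 0) (XT.nd (nat_lit 78) (nat_lit 304) (nat_lit 0) (XT.lf (nat_lit 0) (nat_lit 743070299) (nat_lit 304) (nat_lit 5201010442) (nat_lit 380) (nat_lit 2778214721) (nat_lit 61) (nat_lit 5) (nat_lit 65) (nat_lit 5) (nat_lit 66) (nat_lit 5) (nat_lit 285) (nat_lit 256) (nat_lit 239)) (XT.nd (nat_lit 78) (nat_lit 228) (nat_lit 0) (XT.lf (nat_lit 0) (nat_lit 18745648) (nat_lit 380) (nat_lit 2417163990) (nat_lit 76) (nat_lit 6495996271) (nat_lit 60) (nat_lit 5) (nat_lit 65) (nat_lit 5) (nat_lit 61) (nat_lit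 5) (nat_lit 286) (nat_lit 256) (nat_lit 238)) (XT.lf (nat_lit 0) (nat_lit 2823884255) (nat_lit 304) (nat_lit 5803513708) (nat_lit 76) (nat_lit 524380073) (nat_lit 57) (nat_lit 5) (nat_lit 61) (nat_lit 5) (nat_lit 58) (nat_lit 5) (nat_lit 287) (nat_lit 256) (nat_lit 237)))) (XT.nd (nat_lit 78) (nat_lit 532) (nat_lit 0) (XT.lf (nat_lit 0) (nat_lit 5753946844) (nat_lit 304) (nat_lit 65518154) (nat_lit 76) (nat_lit 3564081803) (nat_lit 57) (nat_lit 5) (nat_lit 61) (nat_lit 5) (nat_lit 58) (nat_lit 5) (nat_lit 288) (nat_lit 256) (nat_lit 236)) (XT.nd (nat_lit 78) (nat_lit 304) (nat_lit 0) (XT.lf (nat_lit 0) (nat_lit 6028321403) (nat_lit 228) (nat_lit 2804050329) (nat_lit 304) (nat_lit 794569206) (nat_lit 54) (nat_lit 5) (nat_lit 57) (nat_lit 5) (nat_lit 58) (nat_lit 5) (nat_lit 289) (nat_lit 256) (nat_lit 235)) (XT.lf (nat_lit 0) (nat_lit 2066975921) (nat_lit 304) (nat_lit 7423449195) (nat_lit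 76) (nat_lit 392763594) (nat_lit 50) (nat_lit 5) (nat_lit 54) (nat_lit 5) (nat_lit 51) (nat_lit 5) (nat_lit 290) (nat_lit 256) (nat_lit 234))))))))
noncomputable def xc94 : XT := (XT.nd (nat_lit 1560) (nat_lit 836) (nat_lit 0) (XT.nd (nat_lit 780) (nat_lit 912) (nat_lit 0) (XT.nd (nat_lit 390) (nat_lit 532) (nat_lit 0) (XT.nd (nat_lit 156) (nat_lit 456) (nat_lit 0) (XT.nd (nat_lit 78) (nat_lit 228) (nat_lit 0) (XT.lf (nat_lit 0) (nat_lit 5063339018) (nat_lit 304) (nat_lit 1390387251) (nat_lit 76) (nat_lit 3697061347) (nat_lit 50) (nat_lit 5) (nat_lit 54) (nat_lit 5) (nat_lit 51) (nat_lit 5) (nat_lit 291) (nat_lit 256) (nat_lit 233)) (XT.lf (nat_lit 0) (nat_lit 4982715113) (nat_lit 228) (nat_lit 3219391645) (nat_lit 304) (nat_lit 2230137247) (nat_lit 47) (nat_lit 5) (nat_lit 50) (nat_lit 5) (nat_lit 51) (nat_lit 5) (nat_lit 292) (nat_lit 256) (nat_lit 232))) (XT.nd (nat_lit 78) (nat_lit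 228) (nat_lit 0) (XT.lf (nat_lit 0) (nat_lit 701744551) (nat_lit 228) (nat_lit 9842386017) (nat_lit 76) (nat_lit 185320900) (nat_lit 44) (nat_lit 5) (nat_lit 47) (nat_lit 5) (nat_lit 45) (nat_lit 5) (nat_lit 293) (nat_lit 256) (nat_lit 231)) (XT.nd (nat_lit 78) (nat_lit 228) (nat_lit 0) (XT.lf (nat_lit 0) (nat_lit 3768942630) (nat_lit 228) (nat_lit 3521747923) (nat_lit 76) (nat_lit 3745909610) (nat_lit 44) (nat_lit 5) (nat_lit 47) (nat_lit 5) (nat_lit 45) (nat_lit 5) (nat_lit 294) (nat_lit 256) (nat_lit 230)) (XT.lf (nat_lit 0) (nat_lit 3096231787) (nat_lit 228) (nat_lit 3862646963) (nat_lit 304) (nat_lit 4401846551) (nat_lit 41) (nat_lit 5) (nat_lit 44) (nat_lit 5) (nat_lit 45) (nat_lit 5) (nat_lit 295) (nat_lit 256) (nat_lit 229))))) (XT.nd (nat_lit 156) (nat_lit 304) (nat_lit 0) (XT.nd (nat_lit 78) (nat_lit 228) (nat_lit 0) (XT.lf (nat_lit 0) (nat_lit 10051488400) (nat_lit 228) (nat_lit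 239453837) (nat_lit 304) (nat_lit 1411066659) (nat_lit 41) (nat_lit 5) (nat_lit 44) (nat_lit 5) (nat_lit 45) (nat_lit 5) (nat_lit 296) (nat_lit 256) (nat_lit 228)) (XT.lf (nat_lit 0) (nat_lit 1739279652) (nat_lit 228) (nat_lit 6790861888) (nat_lit 76) (nat_lit 3525672439) (nat_lit 38) (nat_lit 5) (nat_lit 41) (nat_lit 5) (nat_lit 39) (nat_lit 5) (nat_lit 297) (nat_lit 256) (nat_lit 227))) (XT.nd (nat_lit 78) (nat_lit 152) (nat_lit 0) (XT.lf (nat_lit 0) (nat_lit 16389927) (nat_lit 152) (nat_lit 4942521241) (nat_lit 228) (nat_lit 7469354413) (nat_lit 36) (nat_lit 5) (nat_lit 38) (nat_lit 5) (nat_lit 39) (nat_lit 5) (nat_lit 298) (nat_lit 256) (nat_lit 226)) (XT.nd (nat_lit 78) (nat_lit 152) (nat_lit 0) (XT.lf (nat_lit 0) (nat_lit 7287402123) (nat_lit 152) (nat_lit 1095466726) (nat_lit 228) (nat_lit 4434372570) (nat_lit 36) (nat_lit 5) (nat_lit 38) (nat_lit 5) (nat_lit 39) (nat_lit 5) (nat_lit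 299) (nat_lit 256) (nat_lit 225)) (XT.lf (nat_lit 0) (nat_lit 1591382185) (nat_lit 152) (nat_lit 10388596620) (nat_lit 228) (nat_lit 1245655128) (nat_lit 34) (nat_lit 5) (nat_lit 36) (nat_lit 5) (nat_lit 37) (nat_lit 4) (nat_lit 300) (nat_lit 256) (nat_lit 224)))))) (XT.nd (nat_lit 390) (nat_lit 456) (nat_lit 0) (XT.nd (nat_lit 156) (nat_lit 228) (nat_lit 0) (XT.nd (nat_lit 78) (nat_lit 152) (nat_lit 0) (XT.lf (nat_lit 0) (nat_lit 2079922282) (nat_lit 228) (nat_lit 4551872216) (nat_lit 76) (nat_lit 7018833926) (nat_lit 33) (nat_lit 5) (nat_lit 36) (nat_lit 5) (nat_lit 34) (nat_lit 5) (nat_lit 301) (nat_lit 256) (nat_lit 223)) (XT.lf (nat_lit 0) (nat_lit 2850253209) (nat_lit 152) (nat_lit 2658994984) (nat_lit 228) (nat_lit 8587693499) (nat_lit 31) (nat_lit 5) (nat_lit 33) (nat_lit 5) (nat_lit 34) (nat_lit 5) (nat_lit 302) (nat_lit 256) (nat_lit 222))) (XT.nd (nat_lit 78) (nat_lit 228)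 (nat_lit 0) (XT.lf (nat_lit 0) (nat_lit 9147703386) (nat_lit 228) (nat_lit 3912176422) (nat_lit 76) (nat_lit 1503861637) (nat_lit 31) (nat_lit 5) (nat_lit 34) (nat_lit 5) (nat_lit 32) (nat_lit 4) (nat_lit 303) (nat_lit 256) (nat_lit 221)) (XT.nd (nat_lit 78) (nat_lit 76) (nat_lit 0) (XT.lf (nat_lit 0) (nat_lit 3764926017) (nat_lit 152) (nat_lit 9244286059) (nat_lit 228) (nat_lit 2042663976) (nat_lit 29) (nat_lit 5) (nat_lit 31) (nat_lit 5) (nat_lit 32) (nat_lit 4) (nat_lit 304) (nat_lit 256) (nat_lit 220)) (XT.lf (nat_lit 0) (nat_lit 1457824747) (nat_lit 228) (nat_lit 3725371732) (nat_lit 76) (nat_lit 10379775287) (nat_lit 28) (nat_lit 5) (nat_lit 31) (nat_lit 5) (nat_lit 29) (nat_lit 5) (nat_lit 305) (nat_lit 256) (nat_lit 219))))) (XT.nd (nat_lit 156) (nat_lit 304) (nat_lit 0) (XT.nd (nat_lit 78) (nat_lit 0) (nat_lit 0) (XT.lf (nat_lit 0) (nat_lit 4219195081) (nat_lit 152) (nat_lit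 853364316) (nat_lit 228) (nat_lit 11025039538) (nat_lit 26) (nat_lit 5) (nat_lit 28) (nat_lit 5) (nat_lit 29) (nat_lit 5) (nat_lit 306) (nat_lit 256) (nat_lit 218)) (XT.lf (nat_lit 0) (nat_lit 8932487119) (nat_lit 228) (nat_lit 4121533605) (nat_lit 76) (nat_lit 3601756212) (nat_lit 26) (nat_lit 5) (nat_lit 29) (nat_lit 5) (nat_lit 27) (nat_lit 4) (nat_lit 307) (nat_lit 256) (nat_lit 217))) (XT.nd (nat_lit 78) (nat_lit 228) (nat_lit 0) (XT.lf (nat_lit 0) (nat_lit 4045957243) (nat_lit 76) (nat_lit 8962015759) (nat_lit 152) (nat_lit 4232803019) (nat_lit 25) (nat_lit 5) (nat_lit 26) (nat_lit 5) (nat_lit 27) (nat_lit 4) (nat_lit 308) (nat_lit 256) (nat_lit 216)) (XT.nd (nat_lit 78) (nat_lit 228) (nat_lit 0) (XT.lf (nat_lit 0) (nat_lit 12673679374) (nat_lit 76) (nat_lit 4629932861) (nat_lit 152) (nat_lit 550632229) (nat_lit 25) (nat_lit 5) (nat_lit 26) (nat_lit 5) (nat_lit 27) (nat_lit 4)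 (nat_lit 309) (nat_lit 256) (nat_lit 215)) (XT.lf (nat_lit 0) (nat_lit 3196301428) (nat_lit 152) (nat_lit 11380816) (nat_lit 228) (nat_lit 15288242723) (nat_lit 22) (nat_lit 5) (nat_lit 24) (nat_lit 5) (nat_lit 25) (nat_lit 5) (nat_lit 310) (nat_lit 256) (nat_lit 214))))))) (XT.nd (nat_lit 780) (nat_lit 304) (nat_lit 0) (XT.nd (nat_lit 390) (nat_lit 228) (nat_lit 0) (XT.nd (nat_lit 156) (nat_lit 228) (nat_lit 0) (XT.nd (nat_lit 78) (nat_lit 76) (nat_lit 0) (XT.lf (nat_lit 0) (nat_lit 7248902653) (nat_lit 228) (nat_lit 7168635085) (nat_lit 76) (nat_lit 4746058800) (nat_lit 22) (nat_lit 5) (nat_lit 25) (nat_lit 5) (nat_lit 23) (nat_lit 4) (nat_lit 311) (nat_lit 256) (nat_lit 213)) (XT.lf (nat_lit 0) (nat_lit 1326211035) (nat_lit 76) (nat_lit 10138089412) (nat_lit 152) (nat_lit 8401776978) (nat_lit 21) (nat_lit 5) (nat_lit 22) (nat_lit 5) (nat_lit 23) (nat_lit 4) (nat_lit 312) (nat_lit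 256) (nat_lit 212))) (XT.nd (nat_lit 78) (nat_lit 228) (nat_lit 0) (XT.lf (nat_lit 0) (nat_lit 10411096262) (nat_lit 76) (nat_lit 5553017820) (nat_lit 152) (nat_lit 4635916032) (nat_lit 21) (nat_lit 5) (nat_lit 22) (nat_lit 5) (nat_lit 23) (nat_lit 4) (nat_lit 313) (nat_lit 256) (nat_lit 211)) (XT.nd (nat_lit 78) (nat_lit 228) (nat_lit 0) (XT.lf (nat_lit 0) (nat_lit 19870623823) (nat_lit 76) (nat_lit 772810427) (nat_lit 152) (nat_lit 729549017) (nat_lit 21) (nat_lit 5) (nat_lit 22) (nat_lit 5) (nat_lit 23) (nat_lit 4) (nat_lit 314) (nat_lit 256) (nat_lit 210)) (XT.lf (nat_lit 0) (nat_lit 3409558574) (nat_lit 228) (nat_lit 14510555483) (nat_lit 76) (nat_lit 4254595974) (nat_lit 18) (nat_lit 5) (nat_lit 21) (nat_lit 5) (nat_lit 19) (nat_lit 4) (nat_lit 315) (nat_lit 256) (nat_lit 209))))) (XT.nd (nat_lit 156) (nat_lit 152) (nat_lit 0) (XT.nd (nat_lit 78) (nat_lit 76) (nat_lit 0) (XT.lf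 (nat_lit 0) (nat_lit 7725975290) (nat_lit 228) (nat_lit 5776859671) (nat_lit 76) (nat_lit 9513371339) (nat_lit 18) (nat_lit 5) (nat_lit 21) (nat_lit 5) (nat_lit 19) (nat_lit 4) (nat_lit 316) (nat_lit 256) (nat_lit 208)) (XT.lf (nat_lit 0) (nat_lit 3429264014) (nat_lit 76) (nat_lit 8840910267) (nat_lit 152) (nat_lit 11629028578) (nat_lit 17) (nat_lit 5) (nat_lit 18) (nat_lit 5) (nat_lit 19) (nat_lit 4) (nat_lit 317) (nat_lit 256) (nat_lit 207))) (XT.nd (nat_lit 78) (nat_lit 152) (nat_lit 0) (XT.lf (nat_lit 0) (nat_lit 13223432412) (nat_lit 76) (nat_lit 3875248750) (nat_lit 152) (nat_lit 7724835612) (nat_lit 17) (nat_lit 5) (nat_lit 18) (nat_lit 5) (nat_lit 19) (nat_lit 4) (nat_lit 318) (nat_lit 256) (nat_lit 206)) (XT.nd (nat_lit 78) (nat_lit 152) (nat_lit 0) (XT.lf (nat_lit 0) (nat_lit 22150240935) (nat_lit 152) (nat_lit 2378475361) (nat_lit 0) (nat_lit 1266270070) (nat_lit 17) (nat_lit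 5) (nat_lit 19) (nat_lit 4) (nat_lit 17) (nat_lit 4) (nat_lit 319) (nat_lit 256) (nat_lit 205)) (XT.lf (nat_lit 0) (nat_lit 763014052) (nat_lit 152) (nat_lit 19409865016) (nat_lit 76) (nat_lit 6634464244) (nat_lit 15) (nat_lit 5) (nat_lit 17) (nat_lit 5) (nat_lit 16) (nat_lit 4) (nat_lit 320) (nat_lit 256) (nat_lit 204)))))) (XT.nd (nat_lit 390) (nat_lit 228) (nat_lit 0) (XT.nd (nat_lit 156) (nat_lit 76) (nat_lit 0) (XT.nd (nat_lit 78) (nat_lit 0) (nat_lit 0) (XT.lf (nat_lit 0) (nat_lit 5272337116) (nat_lit 152) (nat_lit 10251536506) (nat_lit 76) (nat_lit 12343292289) (nat_lit 15) (nat_lit 5) (nat_lit 17) (nat_lit 5) (nat_lit 16) (nat_lit 4) (nat_lit 321) (nat_lit 256) (nat_lit 203)) (XT.lf (nat_lit 0) (nat_lit 9971623458) (nat_lit 152) (nat_lit 699698333) (nat_lit 76) (nat_lit 18310450565) (nat_lit 15) (nat_lit 5) (nat_lit 17) (nat_lit 5) (nat_lit 16) (nat_lit 4) (nat_lit 322) (nat_lit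 256) (nat_lit 202))) (XT.nd (nat_lit 78) (nat_lit 0) (nat_lit 0) (XT.lf (nat_lit 0) (nat_lit 9574846872) (nat_lit 76) (nat_lit 5446705178) (nat_lit 152) (nat_lit 15124789912) (nat_lit 14) (nat_lit 5) (nat_lit 15) (nat_lit 5) (nat_lit 16) (nat_lit 4) (nat_lit 323) (nat_lit 256) (nat_lit 201)) (XT.nd (nat_lit 78) (nat_lit 0) (nat_lit 0) (XT.lf (nat_lit 0) (nat_lit 20303063026) (nat_lit 152) (nat_lit 11043540474) (nat_lit 0) (nat_lit 23598189) (nat_lit 14) (nat_lit 5) (nat_lit 16) (nat_lit 4) (nat_lit 14) (nat_lit 4) (nat_lit 324) (nat_lit 256) (nat_lit 200)) (XT.lf (nat_lit 0) (nat_lit 25905969174) (nat_lit 152) (nat_lit 1187143916) (nat_lit 0) (nat_lit 5559290509) (nat_lit 14) (nat_lit 5) (nat_lit 16) (nat_lit 4) (nat_lit 14) (nat_lit 4) (nat_lit 325) (nat_lit 256) (nat_lit 199))))) (XT.nd (nat_lit 234) (nat_lit 76) (nat_lit 0) (XT.nd (nat_lit 78) (nat_lit 76) (nat_lit 0) (XT.lf (nat_lit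 0) (nat_lit 9407292640) (nat_lit 76) (nat_lit 22498153979) (nat_lit 76) (nat_lit 2087462143) (nat_lit 13) (nat_lit 4) (nat_lit 14) (nat_lit 5) (nat_lit 14) (nat_lit 4) (nat_lit 326) (nat_lit 256) (nat_lit 198)) (XT.nd (nat_lit 78) (nat_lit 0) (nat_lit 0) (XT.lf (nat_lit 0) (nat_lit 2704773677) (nat_lit 152) (nat_lit 14926870720) (nat_lit 76) (nat_lit 17767114870) (nat_lit 12) (nat_lit 5) (nat_lit 14) (nat_lit 5) (nat_lit 13) (nat_lit 4) (nat_lit 327) (nat_lit 256) (nat_lit 197)) (XT.lf (nat_lit 0) (nat_lit 7637555230) (nat_lit 152) (nat_lit 4872730369) (nat_lit 76) (nat_lit 24364363834) (nat_lit 12) (nat_lit 5) (nat_lit 14) (nat_lit 5) (nat_lit 13) (nat_lit 4) (nat_lit 328) (nat_lit 256) (nat_lit 196)))) (XT.nd (nat_lit 78) (nat_lit 0) (nat_lit 0) (XT.lf (nat_lit 0) (nat_lit 5819597973) (nat_lit 76) (nat_lit 7060701318) (nat_lit 152) (nat_lit 25540880537) (nat_lit 11) (nat_lit 5) (nat_lit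 12) (nat_lit 5) (nat_lit 13) (nat_lit 4) (nat_lit 329) (nat_lit 256) (nat_lit 195)) (XT.nd (nat_lit 78) (nat_lit 0) (nat_lit 0) (XT.lf (nat_lit 0) (nat_lit 17165749497) (nat_lit 76) (nat_lit 1274947510) (nat_lit 152) (nat_lit 21601575241) (nat_lit 11) (nat_lit 5) (nat_lit 12) (nat_lit 5) (nat_lit 13) (nat_lit 4) (nat_lit 330) (nat_lit 256) (nat_lit 194)) (XT.lf (nat_lit 0) (nat_lit 24327996546) (nat_lit 152) (nat_lit 12788693235) (nat_lit 0) (nat_lit 4625296200) (nat_lit 11) (nat_lit 5) (nat_lit 13) (nat_lit 4) (nat_lit 11) (nat_lit 4) (nat_lit 331) (nat_lit 256) (nat_lit 193))))))))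
noncomputable def xc95 : XT := (XT.nd (nat_lit 1638) (nat_lit 228) (nat_lit 0) (XT.nd (nat_lit 780) (nat_lit 228) (nat_lit 0) (XT.nd (nat_lit 390) (nat_lit 76) (nat_lit 0) (XT.nd (nat_lit 156) (nat_lit 76) (nat_lit 0) (XT.nd (nat_lit 78) (nat_lit 76) (nat_lit 0) (XT.lf (nat_lit 0) (nat_lit 30505741856) (nat_lit 152) (nat_lit 2263601231) (nat_lit 0) (nat_lit 10757548545) (nat_lit 11) (nat_lit 5) (nat_lit 13) (nat_lit 4) (nat_lit 11) (nat_lit 4) (nat_lit 332) (nat_lit 256) (nat_lit 192)) (XT.lf (nat_lit 0) (nat_lit 9032825325) (nat_lit 76) (nat_lit 28076938745) (nat_lit 76) (nat_lit 8285418801) (nat_lit 10) (nat_lit 4) (nat_lit 11) (nat_lit 5) (nat_lit 11) (nat_lit 4) (nat_lit 333) (nat_lit 256) (nat_lit 191))) (XT.nd (nat_lit 78) (nat_lit 76) (nat_lit 0) (XT.lf (nat_lit 0) (nat_lit 20929343577) (nat_lit 76) (nat_lit 23129790248) (nat_lit 76) (nat_lit 3297006843) (nat_lit 10) (nat_lit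 4) (nat_lit 11) (nat_lit 5) (nat_lit 11) (nat_lit 4) (nat_lit 334) (nat_lit 256) (nat_lit 190)) (XT.nd (nat_lit 78) (nat_lit 0) (nat_lit 0) (XT.lf (nat_lit 0) (nat_lit 1856252009) (nat_lit 152) (nat_lit 16066765318) (nat_lit 76) (nat_lit 31491745151) (nat_lit 9) (nat_lit 5) (nat_lit 11) (nat_lit 5) (nat_lit 10) (nat_lit 4) (nat_lit 335) (nat_lit 256) (nat_lit 189)) (XT.lf (nat_lit 0) (nat_lit 7134986890) (nat_lit 152) (nat_lit 5282785987) (nat_lit 76) (nat_lit 39156917381) (nat_lit 9) (nat_lit 5) (nat_lit 11) (nat_lit 5) (nat_lit 10) (nat_lit 4) (nat_lit 336) (nat_lit 256) (nat_lit 188))))) (XT.nd (nat_lit 156) (nat_lit 0) (nat_lit 0) (XT.nd (nat_lit 78) (nat_lit 0) (nat_lit 0) (XT.lf (nat_lit 0) (nat_lit 6200755457) (nat_lit 76) (nat_lit 6553346737) (nat_lit 152) (nat_lit 41084697716) (nat_lit 8) (nat_lit 5) (nat_lit 9) (nat_lit 5) (nat_lit 10) (nat_lit 4) (nat_lit 337) (nat_lit 256)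 (nat_lit 187)) (XT.lf (nat_lit 0) (nat_lit 18404395136) (nat_lit 76) (nat_lit 319261804) (nat_lit 152) (nat_lit 37488991222) (nat_lit 8) (nat_lit 5) (nat_lit 9) (nat_lit 5) (nat_lit 10) (nat_lit 4) (nat_lit 338) (nat_lit 256) (nat_lit 186))) (XT.nd (nat_lit 78) (nat_lit 0) (nat_lit 0) (XT.lf (nat_lit 0) (nat_lit 25069611422) (nat_lit 152) (nat_lit 27620584067) (nat_lit 0) (nat_lit 6011104190) (nat_lit 8) (nat_lit 5) (nat_lit 10) (nat_lit 4) (nat_lit 8) (nat_lit 4) (nat_lit 339) (nat_lit 256) (nat_lit 185)) (XT.nd (nat_lit 78) (nat_lit 0) (nat_lit 0) (XT.lf (nat_lit 0) (nat_lit 31719724529) (nat_lit 152) (nat_lit 16963430696) (nat_lit 0) (nat_lit 12631892126) (nat_lit 8) (nat_lit 5) (nat_lit 10) (nat_lit 4) (nat_lit 8) (nat_lit 4) (nat_lit 340) (nat_lit 256) (nat_lit 184)) (XT.lf (nat_lit 0) (nat_lit 38684845292) (nat_lit 152) (nat_lit 5806434166) (nat_lit 0) (nat_lit 19569084155) (nat_lit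 8) (nat_lit 5) (nat_lit 10) (nat_lit 4) (nat_lit 8) (nat_lit 4) (nat_lit 341) (nat_lit 256) (nat_lit 183)))))) (XT.nd (nat_lit 390) (nat_lit 152) (nat_lit 0) (XT.nd (nat_lit 156) (nat_lit 0) (nat_lit 0) (XT.nd (nat_lit 78) (nat_lit 0) (nat_lit 0) (XT.lf (nat_lit 0) (nat_lit 6071288961) (nat_lit 76) (nat_lit 40005058206) (nat_lit 76) (nat_lit 20862698275) (nat_lit 7) (nat_lit 4) (nat_lit 8) (nat_lit 5) (nat_lit 8) (nat_lit 4) (nat_lit 342) (nat_lit 256) (nat_lit 182)) (XT.lf (nat_lit 0) (nat_lit 18713549273) (nat_lit 76) (nat_lit 35205855449) (nat_lit 76) (nat_lit 16038163332) (nat_lit 7) (nat_lit 4) (nat_lit 8) (nat_lit 5) (nat_lit 8) (nat_lit 4) (nat_lit 343) (nat_lit 256) (nat_lit 181))) (XT.nd (nat_lit 78) (nat_lit 0) (nat_lit 0) (XT.lf (nat_lit 0) (nat_lit 31958460454) (nat_lit 76) (nat_lit 30180579285) (nat_lit 76) (nat_lit 10988761277) (nat_lit 7) (nat_lit 4) (nat_lit 8) (nat_lit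 5) (nat_lit 8) (nat_lit 4) (nat_lit 344) (nat_lit 256) (nat_lit 180)) (XT.nd (nat_lit 78) (nat_lit 0) (nat_lit 0) (XT.lf (nat_lit 0) (nat_lit 45837558004) (nat_lit 76) (nat_lit 24917264771) (nat_lit 76) (nat_lit 5702469725) (nat_lit 7) (nat_lit 4) (nat_lit 8) (nat_lit 5) (nat_lit 8) (nat_lit 4) (nat_lit 345) (nat_lit 256) (nat_lit 179)) (XT.lf (nat_lit 0) (nat_lit 60383887396) (nat_lit 76) (nat_lit 19403380207) (nat_lit 76) (nat_lit 166702267) (nat_lit 7) (nat_lit 4) (nat_lit 8) (nat_lit 5) (nat_lit 8) (nat_lit 4) (nat_lit 346) (nat_lit 256) (nat_lit 178))))) (XT.nd (nat_lit 234) (nat_lit 0) (nat_lit 0) (XT.nd (nat_lit 78) (nat_lit 76) (nat_lit 0) (XT.lf (nat_lit 0) (nat_lit 5451471236) (nat_lit 152) (nat_lit 8082002757) (nat_lit 76) (nat_lit 70088288207) (nat_lit 6) (nat_lit 5) (nat_lit 8) (nat_lit 5) (nat_lit 7) (nat_lit 4) (nat_lit 347) (nat_lit 256) (nat_lit 177)) (XT.nd (nat_lit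 78) (nat_lit 0) (nat_lit 0) (XT.lf (nat_lit 0) (nat_lit 4083780991) (nat_lit 76) (nat_lit 7311901063) (nat_lit 152) (nat_lit 76074593171) (nat_lit 5) (nat_lit 5) (nat_lit 6) (nat_lit 5) (nat_lit 7) (nat_lit 4) (nat_lit 348) (nat_lit 256) (nat_lit 176)) (XT.lf (nat_lit 0) (nat_lit 17114167149) (nat_lit 76) (nat_lit 647021942) (nat_lit 152) (nat_lit 73743824594) (nat_lit 5) (nat_lit 5) (nat_lit 6) (nat_lit 5) (nat_lit 7) (nat_lit 4) (nat_lit 349) (nat_lit 256) (nat_lit 175)))) (XT.nd (nat_lit 78) (nat_lit 0) (nat_lit 0) (XT.lf (nat_lit 0) (nat_lit 24531781088) (nat_lit 152) (nat_lit 65068136567) (nat_lit 0) (nat_lit 6137234804) (nat_lit 5) (nat_lit 5) (nat_lit 7) (nat_lit 4) (nat_lit 5) (nat_lit 4) (nat_lit 350) (nat_lit 256) (nat_lit 174)) (XT.nd (nat_lit 78) (nat_lit 0) (nat_lit 0) (XT.lf (nat_lit 0) (nat_lit 31639748767) (nat_lit 152) (nat_lit 55312337659) (nat_lit 0) (nat_lit 13228873129)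 (nat_lit 5) (nat_lit 5) (nat_lit 7) (nat_lit 4) (nat_lit 5) (nat_lit 4) (nat_lit 351) (nat_lit 256) (nat_lit 173)) (XT.lf (nat_lit 0) (nat_lit 39091914032) (nat_lit 152) (nat_lit 45090119896) (nat_lit 0) (nat_lit 20665486630) (nat_lit 5) (nat_lit 5) (nat_lit 7) (nat_lit 4) (nat_lit 5) (nat_lit 4) (nat_lit 352) (nat_lit 256) (nat_lit 172))))))) (XT.nd (nat_lit 780) (nat_lit 152) (nat_lit 0) (XT.nd (nat_lit 390) (nat_lit 0) (nat_lit 0) (XT.nd (nat_lit 156) (nat_lit 76) (nat_lit 0) (XT.nd (nat_lit 78) (nat_lit 0) (nat_lit 0) (XT.lf (nat_lit 0) (nat_lit 46906020135) (nat_lit 152) (nat_lit 34377144663) (nat_lit 0) (nat_lit 28464781530) (nat_lit 5) (nat_lit 5) (nat_lit 7) (nat_lit 4) (nat_lit 5) (nat_lit 4) (nat_lit 353) (nat_lit 256) (nat_lit 171)) (XT.lf (nat_lit 0) (nat_lit 55100672091) (nat_lit 152) (nat_lit 23147904876) (nat_lit 0) (nat_lit 36645327577) (nat_lit 5) (nat_lit 5) (nat_lit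 7) (nat_lit 4) (nat_lit 5) (nat_lit 4) (nat_lit 354) (nat_lit 256) (nat_lit 170))) (XT.nd (nat_lit 78) (nat_lit 76) (nat_lit 0) (XT.lf (nat_lit 0) (nat_lit 63695380976) (nat_lit 152) (nat_lit 11375664250) (nat_lit 0) (nat_lit 45226602263) (nat_lit 5) (nat_lit 5) (nat_lit 7) (nat_lit 4) (nat_lit 5) (nat_lit 4) (nat_lit 355) (nat_lit 256) (nat_lit 169)) (XT.nd (nat_lit 78) (nat_lit 0) (nat_lit 0) (XT.lf (nat_lit 0) (nat_lit 999599794) (nat_lit 76) (nat_lit 71726617141) (nat_lit 76) (nat_lit 53245043953) (nat_lit 4) (nat_lit 4) (nat_lit 5) (nat_lit 5) (nat_lit 5) (nat_lit 4) (nat_lit 356) (nat_lit 256) (nat_lit 168)) (XT.lf (nat_lit 0) (nat_lit 14371265951) (nat_lit 76) (nat_lit 68020934926) (nat_lit 76) (nat_lit 49527176524) (nat_lit 4) (nat_lit 4) (nat_lit 5) (nat_lit 5) (nat_lit 5) (nat_lit 4) (nat_lit 357) (nat_lit 256) (nat_lit 167))))) (XT.nd (nat_lit 156) (nat_lit 0) (nat_lit 0)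 (XT.nd (nat_lit 78) (nat_lit 0) (nat_lit 0) (XT.lf (nat_lit 0) (nat_lit 28395040685) (nat_lit 76) (nat_lit 64137827906) (nat_lit 76) (nat_lit 45632464538) (nat_lit 4) (nat_lit 4) (nat_lit 5) (nat_lit 5) (nat_lit 5) (nat_lit 4) (nat_lit 358) (nat_lit 256) (nat_lit 166)) (XT.lf (nat_lit 0) (nat_lit 43104313937) (nat_lit 76) (nat_lit 60068050590) (nat_lit 76) (nat_lit 41551634874) (nat_lit 4) (nat_lit 4) (nat_lit 5) (nat_lit 5) (nat_lit 5) (nat_lit 4) (nat_lit 359) (nat_lit 256) (nat_lit 165))) (XT.nd (nat_lit 78) (nat_lit 0) (nat_lit 0) (XT.lf (nat_lit 0) (nat_lit 58534107786) (nat_lit 76) (nat_lit 55801913030) (nat_lit 76) (nat_lit 37274971268) (nat_lit 4) (nat_lit 4) (nat_lit 5) (nat_lit 5) (nat_lit 5) (nat_lit 4) (nat_lit 360) (nat_lit 256) (nat_lit 164)) (XT.nd (nat_lit 78) (nat_lit 0) (nat_lit 0) (XT.lf (nat_lit 0) (nat_lit 74721159835) (nat_lit 76) (nat_lit 51329257757) (nat_lit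 76) (nat_lit 32792291189) (nat_lit 4) (nat_lit 4) (nat_lit 5) (nat_lit 5) (nat_lit 5) (nat_lit 4) (nat_lit 361) (nat_lit 256) (nat_lit 163)) (XT.lf (nat_lit 0) (nat_lit 91704010686) (nat_lit 76) (nat_lit 46639435592) (nat_lit 76) (nat_lit 28092921589) (nat_lit 4) (nat_lit 4) (nat_lit 5) (nat_lit 5) (nat_lit 5) (nat_lit 4) (nat_lit 362) (nat_lit 256) (nat_lit 162)))))) (XT.nd (nat_lit 390) (nat_lit 152) (nat_lit 0) (XT.nd (nat_lit 156) (nat_lit 0) (nat_lit 0) (XT.nd (nat_lit 78) (nat_lit 0) (nat_lit 0) (XT.lf (nat_lit 0) (nat_lit 109523095698) (nat_lit 76) (nat_lit 41721280290) (nat_lit 76) (nat_lit 23165673493) (nat_lit 4) (nat_lit 4) (nat_lit 5) (nat_lit 5) (nat_lit 5) (nat_lit 4) (nat_lit 363) (nat_lit 256) (nat_lit 161)) (XT.lf (nat_lit 0) (nat_lit 128220841262) (nat_lit 76) (nat_lit 36563081959) (nat_lit 76) (nat_lit 17998815357) (nat_lit 4) (nat_lit 4) (nat_lit 5) (nat_lit 5) (nat_lit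 5) (nat_lit 4) (nat_lit 364) (nat_lit 256) (nat_lit 160))) (XT.nd (nat_lit 78) (nat_lit 0) (nat_lit 0) (XT.lf (nat_lit 0) (nat_lit 147841765822) (nat_lit 76) (nat_lit 31152559173) (nat_lit 76) (nat_lit 12580045139) (nat_lit 4) (nat_lit 4) (nat_lit 5) (nat_lit 5) (nat_lit 5) (nat_lit 4) (nat_lit 365) (nat_lit 256) (nat_lit 159)) (XT.nd (nat_lit 78) (nat_lit 0) (nat_lit 0) (XT.lf (nat_lit 0) (nat_lit 168432585864) (nat_lit 76) (nat_lit 25476829737) (nat_lit 76) (nat_lit 6896461005) (nat_lit 4) (nat_lit 4) (nat_lit 5) (nat_lit 5) (nat_lit 5) (nat_lit 4) (nat_lit 366) (nat_lit 256) (nat_lit 158)) (XT.lf (nat_lit 0) (nat_lit 190042327151) (nat_lit 76) (nat_lit 19522380007) (nat_lit 76) (nat_lit 934530611) (nat_lit 4) (nat_lit 4) (nat_lit 5) (nat_lit 5) (nat_lit 5) (nat_lit 4) (nat_lit 367) (nat_lit 256) (nat_lit 157))))) (XT.nd (nat_lit 234) (nat_lit 0) (nat_lit 0) (XT.nd (nat_lit 78) (nat_lit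 76) (nat_lit 0) (XT.lf (nat_lit 0) (nat_lit 5149669774) (nat_lit 152) (nat_lit 8038150800) (nat_lit 76) (nat_lit 207485559522) (nat_lit 3) (nat_lit 5) (nat_lit 5) (nat_lit 5) (nat_lit 4) (nat_lit 4) (nat_lit 368) (nat_lit 256) (nat_lit 156)) (XT.nd (nat_lit 78) (nat_lit 0) (nat_lit 0) (XT.lf (nat_lit 0) (nat_lit 5140966647) (nat_lit 76) (nat_lit 6440850752) (nat_lit 152) (nat_lit 219769890412) (nat_lit 2) (nat_lit 5) (nat_lit 3) (nat_lit 5) (nat_lit 4) (nat_lit 4) (nat_lit 369) (nat_lit 256) (nat_lit 155)) (XT.lf (nat_lit 0) (nat_lit 18478880228) (nat_lit 152) (nat_lit 223321142788) (nat_lit 0) (nat_lit 756764894) (nat_lit 2) (nat_lit 5) (nat_lit 4) (nat_lit 4) (nat_lit 2) (nat_lit 4) (nat_lit 370) (nat_lit 256) (nat_lit 154)))) (XT.nd (nat_lit 78) (nat_lit 0) (nat_lit 0) (XT.lf (nat_lit 0) (nat_lit 25821526658) (nat_lit 152) (nat_lit 220402010131) (nat_lit 0) (nat_lit 8093550027) (nat_lit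 2) (nat_lit 5) (nat_lit 4) (nat_lit 4) (nat_lit 2) (nat_lit 4) (nat_lit 371) (nat_lit 256) (nat_lit 153)) (XT.nd (nat_lit 78) (nat_lit 0) (nat_lit 0) (XT.lf (nat_lit 0) (nat_lit 33526679448) (nat_lit 152) (nat_lit 217345833146) (nat_lit 0) (nat_lit 15793120631) (nat_lit 2) (nat_lit 5) (nat_lit 4) (nat_lit 4) (nat_lit 2) (nat_lit 4) (nat_lit 372) (nat_lit 256) (nat_lit 152)) (XT.lf (nat_lit 0) (nat_lit 41612684202) (nat_lit 152) (nat_lit 214145335221) (nat_lit 0) (nat_lit 23873809015) (nat_lit 2) (nat_lit 5) (nat_lit 4) (nat_lit 4) (nat_lit 2) (nat_lit 4) (nat_lit 373) (nat_lit 256) (nat_lit 151))))))))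
noncomputable def xc96 : XT := (XT.nd (nat_lit 32448) (nat_lit 0) (nat_lit 3952) (XT.nd (nat_lit 780) (nat_lit 0) (nat_lit 0) (XT.nd (nat_lit 390) (nat_lit 0) (nat_lit 0) (XT.nd (nat_lit 156) (nat_lit 0) (nat_lit 0) (XT.nd (nat_lit 78) (nat_lit 0) (nat_lit 0) (XT.lf (nat_lit 0) (nat_lit 50098793311) (nat_lit 152) (nat_lit 210792896124) (nat_lit 0) (nat_lit 32354854916) (nat_lit 2) (nat_lit 5) (nat_lit 4) (nat_lit 4) (nat_lit 2) (nat_lit 4) (nat_lit 374) (nat_lit 256) (nat_lit 150)) (XT.lf (nat_lit 0) (nat_lit 59005211796) (nat_lit 152) (nat_lit 207280533856) (nat_lit 0) (nat_lit 41256451299) (nat_lit 2) (nat_lit 5) (nat_lit 4) (nat_lit 4) (nat_lit 2) (nat_lit 4) (nat_lit 375) (nat_lit 256) (nat_lit 149))) (XT.nd (nat_lit 78) (nat_lit 0) (nat_lit 0) (XT.lf (nat_lit 0) (nat_lit 68353145417) (nat_lit 152) (nat_lit 203599885651) (nat_lit 0) (nat_lit 50599792441) (nat_lit 2) (nat_lit 5) (nat_lit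 4) (nat_lit 4) (nat_lit 2) (nat_lit 4) (nat_lit 376) (nat_lit 256) (nat_lit 148)) (XT.nd (nat_lit 78) (nat_lit 0) (nat_lit 0) (XT.lf (nat_lit 0) (nat_lit 78164851158) (nat_lit 152) (nat_lit 199742188059) (nat_lit 0) (nat_lit 60407124392) (nat_lit 2) (nat_lit 5) (nat_lit 4) (nat_lit 4) (nat_lit 2) (nat_lit 4) (nat_lit 377) (nat_lit 256) (nat_lit 147)) (XT.lf (nat_lit 0) (nat_lit 88463690224) (nat_lit 152) (nat_lit 195698256088) (nat_lit 0) (nat_lit 70701797944) (nat_lit 2) (nat_lit 5) (nat_lit 4) (nat_lit 4) (nat_lit 2) (nat_lit 4) (nat_lit 378) (nat_lit 256) (nat_lit 146))))) (XT.nd (nat_lit 156) (nat_lit 0) (nat_lit 0) (XT.nd (nat_lit 78) (nat_lit 0) (nat_lit 0) (XT.lf (nat_lit 0) (nat_lit 99274183659) (nat_lit 152) (nat_lit 191458461326) (nat_lit 0) (nat_lit 81508324223) (nat_lit 2) (nat_lit 5) (nat_lit 4) (nat_lit 4) (nat_lit 2) (nat_lit 4) (nat_lit 379) (nat_lit 256) (nat_lit 145))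 (XT.lf (nat_lit 0) (nat_lit 110622070733) (nat_lit 152) (nat_lit 187012709026) (nat_lit 0) (nat_lit 92852433053) (nat_lit 2) (nat_lit 5) (nat_lit 4) (nat_lit 4) (nat_lit 2) (nat_lit 4) (nat_lit 380) (nat_lit 256) (nat_lit 144))) (XT.nd (nat_lit 78) (nat_lit 0) (nat_lit 0) (XT.lf (nat_lit 0) (nat_lit 122534370226) (nat_lit 152) (nat_lit 182350414062) (nat_lit 0) (nat_lit 104761134219) (nat_lit 2) (nat_lit 5) (nat_lit 4) (nat_lit 4) (nat_lit 2) (nat_lit 4) (nat_lit 381) (nat_lit 256) (nat_lit 143)) (XT.nd (nat_lit 78) (nat_lit 0) (nat_lit 0) (XT.lf (nat_lit 0) (nat_lit 135039444756) (nat_lit 152) (nat_lit 177460475732) (nat_lit 0) (nat_lit 117262781770) (nat_lit 2) (nat_lit 5) (nat_lit 4) (nat_lit 4) (nat_lit 2) (nat_lit 4) (nat_lit 382) (nat_lit 256) (nat_lit 142)) (XT.lf (nat_lit 0) (nat_lit 148167068308) (nat_lit 152) (nat_lit 172331251325) (nat_lit 0) (nat_lit 130387141533) (nat_lit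 2) (nat_lit 5) (nat_lit 4) (nat_lit 4) (nat_lit 2) (nat_lit 4) (nat_lit 383) (nat_lit 256) (nat_lit 141)))))) (XT.nd (nat_lit 390) (nat_lit 0) (nat_lit 0) (XT.nd (nat_lit 156) (nat_lit 0) (nat_lit 0) (XT.nd (nat_lit 78) (nat_lit 0) (nat_lit 0) (XT.lf (nat_lit 0) (nat_lit 161948497131) (nat_lit 152) (nat_lit 166950528404) (nat_lit 0) (nat_lit 144165461985) (nat_lit 2) (nat_lit 5) (nat_lit 4) (nat_lit 4) (nat_lit 2) (nat_lit 4) (nat_lit 384) (nat_lit 256) (nat_lit 140)) (XT.lf (nat_lit 0) (nat_lit 176416544149) (nat_lit 152) (nat_lit 161305495722) (nat_lit 0) (nat_lit 158630548650) (nat_lit 2) (nat_lit 5) (nat_lit 4) (nat_lit 4) (nat_lit 2) (nat_lit 4) (nat_lit 385) (nat_lit 256) (nat_lit 139))) (XT.nd (nat_lit 78) (nat_lit 0) (nat_lit 0) (XT.lf (nat_lit 0) (nat_lit 191605657093) (nat_lit 152) (nat_lit 155382712726) (nat_lit 0) (nat_lit 173816842211) (nat_lit 2) (nat_lit 5) (nat_lit 4)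 (nat_lit 4) (nat_lit 2) (nat_lit 4) (nat_lit 386) (nat_lit 256) (nat_lit 138)) (XT.nd (nat_lit 78) (nat_lit 0) (nat_lit 0) (XT.lf (nat_lit 0) (nat_lit 207552000519) (nat_lit 152) (nat_lit 149168077551) (nat_lit 0) (nat_lit 189760500509) (nat_lit 2) (nat_lit 5) (nat_lit 4) (nat_lit 4) (nat_lit 2) (nat_lit 4) (nat_lit 387) (nat_lit 256) (nat_lit 137)) (XT.lf (nat_lit 0) (nat_lit 224293541911) (nat_lit 152) (nat_lit 142646793447) (nat_lit 0) (nat_lit 206499484636) (nat_lit 2) (nat_lit 5) (nat_lit 4) (nat_lit 4) (nat_lit 2) (nat_lit 4) (nat_lit 388) (nat_lit 256) (nat_lit 136))))) (XT.nd (nat_lit 31044) (nat_lit 0) (nat_lit 9728) (XT.nd (nat_lit 78) (nat_lit 0) (nat_lit 0) (XT.lf (nat_lit 0) (nat_lit 241870142080) (nat_lit 152) (nat_lit 135803333547) (nat_lit 0) (nat_lit 224073649316) (nat_lit 2) (nat_lit 5) (nat_lit 4) (nat_lit 4) (nat_lit 2) (nat_lit 4) (nat_lit 389) (nat_lit 256) (nat_lit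 135)) (XT.lf (nat_lit 0) (nat_lit 260323650077) (nat_lit 152) (nat_lit 128621403899) (nat_lit 0) (nat_lit 242524837799) (nat_lit 2) (nat_lit 5) (nat_lit 4) (nat_lit 4) (nat_lit 2) (nat_lit 4) (nat_lit 390) (nat_lit 256) (nat_lit 134))) (XT.nd (nat_lit 78) (nat_lit 380) (nat_lit 0) (XT.lf (nat_lit 0) (nat_lit 354641073) (nat_lit 228) (nat_lit 1460087543) (nat_lit 228) (nat_lit 1460087543) (nat_lit 135) (nat_lit 4) (nat_lit 138) (nat_lit 5) (nat_lit 138) (nat_lit 4) (nat_lit 266) (nat_lit 257) (nat_lit 257)) (XT.nd (nat_lit 78) (nat_lit 304) (nat_lit 0) (XT.lf (nat_lit 0) (nat_lit 137339451) (nat_lit 304) (nat_lit 2085885873) (nat_lit 76) (nat_lit 4367241412) (nat_lit 134) (nat_lit 5) (nat_lit 138) (nat_lit 5) (nat_lit 135) (nat_lit 4) (nat_lit 267) (nat_lit 257) (nat_lit 256)) (XT.lf (nat_lit 0) (nat_lit 1739407673) (nat_lit 304) (nat_lit 1363780779) (nat_lit 380) (nat_lit 3535565991)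 (nat_lit 130) (nat_lit 5) (nat_lit 134) (nat_lit 5) (nat_lit 135) (nat_lit 4) (nat_lit 268) (nat_lit 257) (nat_lit 255))))))) (XT.nd (nat_lit 780) (nat_lit 2280) (nat_lit 0) (XT.nd (nat_lit 390) (nat_lit 1976) (nat_lit 0) (XT.nd (nat_lit 156) (nat_lit 1064) (nat_lit 0) (XT.nd (nat_lit 78) (nat_lit 456) (nat_lit 0) (XT.lf (nat_lit 0) (nat_lit 5705700186) (nat_lit 304) (nat_lit 379743338) (nat_lit 380) (nat_lit 611069179) (nat_lit 130) (nat_lit 5) (nat_lit 134) (nat_lit 5) (nat_lit 135) (nat_lit 4) (nat_lit 269) (nat_lit 257) (nat_lit 254)) (XT.lf (nat_lit 0) (nat_lit 2278489484) (nat_lit 456) (nat_lit 3723892363) (nat_lit 76) (nat_lit 758397776) (nat_lit 124) (nat_lit 5) (nat_lit 130) (nat_lit 5) (nat_lit 125) (nat_lit 4) (nat_lit 270) (nat_lit 257) (nat_lit 253))) (XT.nd (nat_lit 78) (nat_lit 608) (nat_lit 0) (XT.lf (nat_lit 0) (nat_lit 337816460) (nat_lit 456) (nat_lit 4826845486) (nat_lit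 532) (nat_lit 1669862439) (nat_lit 118) (nat_lit 5) (nat_lit 124) (nat_lit 5) (nat_lit 125) (nat_lit 4) (nat_lit 271) (nat_lit 257) (nat_lit 252)) (XT.nd (nat_lit 78) (nat_lit 532) (nat_lit 0) (XT.lf (nat_lit 0) (nat_lit 1152934396) (nat_lit 532) (nat_lit 2330745536) (nat_lit 76) (nat_lit 3432095732) (nat_lit 117) (nat_lit 5) (nat_lit 124) (nat_lit 5) (nat_lit 118) (nat_lit 5) (nat_lit 272) (nat_lit 257) (nat_lit 251)) (XT.lf (nat_lit 0) (nat_lit 1952174036) (nat_lit 532) (nat_lit 1993074713) (nat_lit 608) (nat_lit 3060591857) (nat_lit 110) (nat_lit 5) (nat_lit 117) (nat_lit 5) (nat_lit 118) (nat_lit 5) (nat_lit 273) (nat_lit 257) (nat_lit 250))))) (XT.nd (nat_lit 156) (nat_lit 1292) (nat_lit 0) (XT.nd (nat_lit 78) (nat_lit 684) (nat_lit 0) (XT.lf (nat_lit 0) (nat_lit 6405749390) (nat_lit 532) (nat_lit 369928033) (nat_lit 608) (nat_lit 330134670) (nat_lit 110) (nat_lit 5) (nat_lit 117)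 (nat_lit 5) (nat_lit 118) (nat_lit 5) (nat_lit 274) (nat_lit 257) (nat_lit 249)) (XT.lf (nat_lit 0) (nat_lit 2401370995) (nat_lit 684) (nat_lit 3404696858) (nat_lit 76) (nat_lit 1405745625) (nat_lit 101) (nat_lit 5) (nat_lit 110) (nat_lit 5) (nat_lit 102) (nat_lit 5) (nat_lit 275) (nat_lit 257) (nat_lit 248))) (XT.nd (nat_lit 78) (nat_lit 608) (nat_lit 0) (XT.lf (nat_lit 0) (nat_lit 1137808437) (nat_lit 684) (nat_lit 4024451202) (nat_lit 760) (nat_lit 2165673108) (nat_lit 92) (nat_lit 5) (nat_lit 101) (nat_lit 5) (nat_lit 102) (nat_lit 5) (nat_lit 276) (nat_lit 257) (nat_lit 247)) (XT.nd (nat_lit 78) (nat_lit 532) (nat_lit 0) (XT.lf (nat_lit 0) (nat_lit 520355388) (nat_lit 760) (nat_lit 1562683194) (nat_lit 76) (nat_lit 5370169981) (nat_lit 91) (nat_lit 5) (nat_lit 101) (nat_lit 5) (nat_lit 92) (nat_lit 5) (nat_lit 277) (nat_lit 257) (nat_lit 246)) (XT.lf (nat_lit 0) (nat_lit 3195361236)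 (nat_lit 608) (nat_lit 4347895173) (nat_lit 76) (nat_lit 43588711) (nat_lit 84) (nat_lit 5) (nat_lit 92) (nat_lit 5) (nat_lit 85) (nat_lit 5) (nat_lit 278) (nat_lit 257) (nat_lit 245)))))) (XT.nd (nat_lit 390) (nat_lit 1140) (nat_lit 0) (XT.nd (nat_lit 156) (nat_lit 684) (nat_lit 0) (XT.nd (nat_lit 78) (nat_lit 76) (nat_lit 0) (XT.lf (nat_lit 0) (nat_lit 460430655) (nat_lit 380) (nat_lit 5492034019) (nat_lit 456) (nat_lit 1777514732) (nat_lit 79) (nat_lit 5) (nat_lit 84) (nat_lit 5) (nat_lit 85) (nat_lit 5) (nat_lit 279) (nat_lit 257) (nat_lit 244)) (XT.lf (nat_lit 0) (nat_lit 892761803) (nat_lit 456) (nat_lit 2363620121) (nat_lit 76) (nat_lit 4625516870) (nat_lit 78) (nat_lit 5) (nat_lit 84) (nat_lit 5) (nat_lit 79) (nat_lit 5) (nat_lit 280) (nat_lit 257) (nat_lit 243))) (XT.nd (nat_lit 78) (nat_lit 380) (nat_lit 0) (XT.lf (nat_lit 0) (nat_lit 2720936899) (nat_lit 304) (nat_lit 845715841)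 (nat_lit 380) (nat_lit 4477014099) (nat_lit 74) (nat_lit 5) (nat_lit 78) (nat_lit 5) (nat_lit 79) (nat_lit 5) (nat_lit 281) (nat_lit 257) (nat_lit 242)) (XT.nd (nat_lit 78) (nat_lit 380) (nat_lit 0) (XT.lf (nat_lit 0) (nat_lit 6331834328) (nat_lit 380) (nat_lit 224759625) (nat_lit 76) (nat_lit 1659241436) (nat_lit 74) (nat_lit 5) (nat_lit 79) (nat_lit 5) (nat_lit 75) (nat_lit 5) (nat_lit 282) (nat_lit 257) (nat_lit 241)) (XT.lf (nat_lit 0) (nat_lit 801672976) (nat_lit 380) (nat_lit 3252853266) (nat_lit 76) (nat_lit 4342112858) (nat_lit 69) (nat_lit 5) (nat_lit 74) (nat_lit 5) (nat_lit 70) (nat_lit 5) (nat_lit 283) (nat_lit 257) (nat_lit 240))))) (XT.nd (nat_lit 234) (nat_lit 456) (nat_lit 0) (XT.nd (nat_lit 78) (nat_lit 380) (nat_lit 0) (XT.lf (nat_lit 0) (nat_lit 2115477355) (nat_lit 304) (nat_lit 1376803756) (nat_lit 380) (nat_lit 5096125141) (nat_lit 65) (nat_lit 5) (nat_lit 69) (nat_lit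 5) (nat_lit 70) (nat_lit 5) (nat_lit 284) (nat_lit 257) (nat_lit 239)) (XT.nd (nat_lit 78) (nat_lit 380) (nat_lit 0) (XT.lf (nat_lit 0) (nat_lit 6295546476) (nat_lit 380) (nat_lit 1071531828) (nat_lit 76) (nat_lit 1423935000) (nat_lit 65) (nat_lit 5) (nat_lit 70) (nat_lit 5) (nat_lit 66) (nat_lit 5) (nat_lit 285) (nat_lit 257) (nat_lit 238)) (XT.lf (nat_lit 0) (nat_lit 226499340) (nat_lit 380) (nat_lit 4403231081) (nat_lit 76) (nat_lit 4374039687) (nat_lit 60) (nat_lit 5) (nat_lit 65) (nat_lit 5) (nat_lit 61) (nat_lit 5) (nat_lit 286) (nat_lit 257) (nat_lit 237)))) (XT.nd (nat_lit 78) (nat_lit 228) (nat_lit 0) (XT.lf (nat_lit 0) (nat_lit 1244092577) (nat_lit 228) (nat_lit 1700022283) (nat_lit 304) (nat_lit 6283970059) (nat_lit 57) (nat_lit 5) (nat_lit 60) (nat_lit 5) (nat_lit 61) (nat_lit 5) (nat_lit 287) (nat_lit 257) (nat_lit 236)) (XT.nd (nat_lit 78) (nat_lit 228) (nat_lit 0) (XT.lf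 (nat_lit 0) (nat_lit 5802630546) (nat_lit 304) (nat_lit 2279942338) (nat_lit 76) (nat_lit 1380921507) (nat_lit 57) (nat_lit 5) (nat_lit 61) (nat_lit 5) (nat_lit 58) (nat_lit 5) (nat_lit 288) (nat_lit 257) (nat_lit 235)) (XT.lf (nat_lit 0) (nat_lit 3681166301) (nat_lit 228) (nat_lit 5120381759) (nat_lit 304) (nat_lit 909376182) (nat_lit 54) (nat_lit 5) (nat_lit 57) (nat_lit 5) (nat_lit 58) (nat_lit 5) (nat_lit 289) (nat_lit 257) (nat_lit 234))))))))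
noncomputable def xc97 : XT := (XT.nd (nat_lit 1560) (nat_lit 1064) (nat_lit 0) (XT.nd (nat_lit 780) (nat_lit 836) (nat_lit 0) (XT.nd (nat_lit 390) (nat_lit 608) (nat_lit 0) (XT.nd (nat_lit 156) (nat_lit 456) (nat_lit 0) (XT.nd (nat_lit 78) (nat_lit 228) (nat_lit 0) (XT.lf (nat_lit 0) (nat_lit 1868556405) (nat_lit 304) (nat_lit 100031009) (nat_lit 76) (nat_lit 8003093309) (nat_lit 53) (nat_lit 5) (nat_lit 57) (nat_lit 5) (nat_lit 54) (nat_lit 5) (nat_lit 290) (nat_lit 257) (nat_lit 233)) (XT.lf (nat_lit 0) (nat_lit 4790979771) (nat_lit 304) (nat_lit 4070344945) (nat_lit 76) (nat_lit 1381704028) (nat_lit 50) (nat_lit 5) (nat_lit 54) (nat_lit 5) (nat_lit 51) (nat_lit 5) (nat_lit 291) (nat_lit 257) (nat_lit 232))) (XT.nd (nat_lit 78) (nat_lit 228) (nat_lit 0) (XT.lf (nat_lit 0) (nat_lit 2156030011) (nat_lit 228) (nat_lit 5689999584) (nat_lit 304) (nat_lit 2682691079) (nat_lit 47) (nat_lit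 5) (nat_lit 50) (nat_lit 5) (nat_lit 51) (nat_lit 5) (nat_lit 292) (nat_lit 257) (nat_lit 231)) (XT.nd (nat_lit 78) (nat_lit 152) (nat_lit 0) (XT.lf (nat_lit 0) (nat_lit 207545106) (nat_lit 304) (nat_lit 2111075317) (nat_lit 76) (nat_lit 8510512534) (nat_lit 46) (nat_lit 5) (nat_lit 50) (nat_lit 5) (nat_lit 47) (nat_lit 5) (nat_lit 293) (nat_lit 257) (nat_lit 230)) (XT.lf (nat_lit 0) (nat_lit 3165416831) (nat_lit 228) (nat_lit 6711774061) (nat_lit 76) (nat_lit 1264599962) (nat_lit 44) (nat_lit 5) (nat_lit 47) (nat_lit 5) (nat_lit 45) (nat_lit 5) (nat_lit 294) (nat_lit 257) (nat_lit 229))))) (XT.nd (nat_lit 156) (nat_lit 380) (nat_lit 0) (XT.nd (nat_lit 78) (nat_lit 228) (nat_lit 0) (XT.lf (nat_lit 0) (nat_lit 6270327907) (nat_lit 228) (nat_lit 247615075) (nat_lit 76) (nat_lit 4952265107) (nat_lit 44) (nat_lit 5) (nat_lit 47) (nat_lit 5) (nat_lit 45) (nat_lit 5) (nat_lit 295) (nat_lit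 257) (nat_lit 228)) (XT.lf (nat_lit 0) (nat_lit 6645614907) (nat_lit 228) (nat_lit 2917004789) (nat_lit 304) (nat_lit 2250899472) (nat_lit 41) (nat_lit 5) (nat_lit 44) (nat_lit 5) (nat_lit 45) (nat_lit 5) (nat_lit 296) (nat_lit 257) (nat_lit 227))) (XT.nd (nat_lit 78) (nat_lit 152) (nat_lit 0) (XT.lf (nat_lit 0) (nat_lit 791054298) (nat_lit 228) (nat_lit 10538757919) (nat_lit 76) (nat_lit 844966544) (nat_lit 38) (nat_lit 5) (nat_lit 41) (nat_lit 5) (nat_lit 39) (nat_lit 5) (nat_lit 297) (nat_lit 257) (nat_lit 226)) (XT.nd (nat_lit 78) (nat_lit 152) (nat_lit 0) (XT.lf (nat_lit 0) (nat_lit 3976328653) (nat_lit 228) (nat_lit 3785088829) (nat_lit 76) (nat_lit 4787564341) (nat_lit 38) (nat_lit 5) (nat_lit 41) (nat_lit 5) (nat_lit 39) (nat_lit 5) (nat_lit 298) (nat_lit 257) (nat_lit 225)) (XT.lf (nat_lit 0) (nat_lit 3308568864) (nat_lit 152) (nat_lit 3997375225) (nat_lit 228) (nat_lit 5636762686)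 (nat_lit 36) (nat_lit 5) (nat_lit 38) (nat_lit 5) (nat_lit 39) (nat_lit 5) (nat_lit 299) (nat_lit 257) (nat_lit 224)))))) (XT.nd (nat_lit 390) (nat_lit 456) (nat_lit 0) (XT.nd (nat_lit 156) (nat_lit 152) (nat_lit 0) (XT.nd (nat_lit 78) (nat_lit 228) (nat_lit 0) (XT.lf (nat_lit 0) (nat_lit 10786400268) (nat_lit 152) (nat_lit 14742845) (nat_lit 228) (nat_lit 2555082201) (nat_lit 36) (nat_lit 5) (nat_lit 38) (nat_lit 5) (nat_lit 39) (nat_lit 5) (nat_lit 300) (nat_lit 257) (nat_lit 223)) (XT.lf (nat_lit 0) (nat_lit 738257021) (nat_lit 228) (nat_lit 8960666340) (nat_lit 76) (nat_lit 4087053681) (nat_lit 33) (nat_lit 5) (nat_lit 36) (nat_lit 5) (nat_lit 34) (nat_lit 5) (nat_lit 301) (nat_lit 257) (nat_lit 222))) (XT.nd (nat_lit 78) (nat_lit 152) (nat_lit 0) (XT.lf (nat_lit 0) (nat_lit 4092806706) (nat_lit 228) (nat_lit 1698630189) (nat_lit 76) (nat_lit 8444618554) (nat_lit 33) (nat_lit 5)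 (nat_lit 36) (nat_lit 5) (nat_lit 34) (nat_lit 5) (nat_lit 302) (nat_lit 257) (nat_lit 221)) (XT.nd (nat_lit 78) (nat_lit 0) (nat_lit 0) (XT.lf (nat_lit 0) (nat_lit 6023910610) (nat_lit 152) (nat_lit 1626113523) (nat_lit 228) (nat_lit 7056918032) (nat_lit 31) (nat_lit 5) (nat_lit 33) (nat_lit 5) (nat_lit 34) (nat_lit 5) (nat_lit 303) (nat_lit 257) (nat_lit 220)) (XT.lf (nat_lit 0) (nat_lit 11398912768) (nat_lit 228) (nat_lit 1147985758) (nat_lit 76) (nat_lit 2653833129) (nat_lit 31) (nat_lit 5) (nat_lit 34) (nat_lit 5) (nat_lit 32) (nat_lit 4) (nat_lit 304) (nat_lit 257) (nat_lit 219))))) (XT.nd (nat_lit 156) (nat_lit 228) (nat_lit 0) (XT.nd (nat_lit 78) (nat_lit 76) (nat_lit 0) (XT.lf (nat_lit 0) (nat_lit 6865233101) (nat_lit 152) (nat_lit 8548309021) (nat_lit 228) (nat_lit 301800307) (nat_lit 29) (nat_lit 5) (nat_lit 31) (nat_lit 5) (nat_lit 32) (nat_lit 4) (nat_lit 305) (nat_lit 257)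 (nat_lit 218)) (XT.lf (nat_lit 0) (nat_lit 3229772612) (nat_lit 228) (nat_lit 1080769973) (nat_lit 76) (nat_lit 11944324301) (nat_lit 28) (nat_lit 5) (nat_lit 31) (nat_lit 5) (nat_lit 29) (nat_lit 5) (nat_lit 306) (nat_lit 257) (nat_lit 217))) (XT.nd (nat_lit 78) (nat_lit 76) (nat_lit 0) (XT.lf (nat_lit 0) (nat_lit 6991374095) (nat_lit 228) (nat_lit 9606345099) (nat_lit 76) (nat_lit 220261649) (nat_lit 26) (nat_lit 5) (nat_lit 29) (nat_lit 5) (nat_lit 27) (nat_lit 4) (nat_lit 307) (nat_lit 257) (nat_lit 216)) (XT.nd (nat_lit 78) (nat_lit 76) (nat_lit 0) (XT.lf (nat_lit 0) (nat_lit 10978327005) (nat_lit 228) (nat_lit 1611429932) (nat_lit 76) (nat_lit 4817668351) (nat_lit 26) (nat_lit 5) (nat_lit 29) (nat_lit 5) (nat_lit 27) (nat_lit 4) (nat_lit 308) (nat_lit 257) (nat_lit 215)) (XT.lf (nat_lit 0) (nat_lit 6920626098) (nat_lit 76) (nat_lit 8302531164) (nat_lit 152) (nat_lit 2800294739)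 (nat_lit 25) (nat_lit 5) (nat_lit 26) (nat_lit 5) (nat_lit 27) (nat_lit 4) (nat_lit 309) (nat_lit 257) (nat_lit 214))))))) (XT.nd (nat_lit 780) (nat_lit 456) (nat_lit 0) (XT.nd (nat_lit 390) (nat_lit 304) (nat_lit 0) (XT.nd (nat_lit 156) (nat_lit 76) (nat_lit 0) (XT.nd (nat_lit 78) (nat_lit 152) (nat_lit 0) (XT.lf (nat_lit 0) (nat_lit 956079500) (nat_lit 152) (nat_lit 2834315114) (nat_lit 76) (nat_lit 14880207403) (nat_lit 24) (nat_lit 5) (nat_lit 26) (nat_lit 5) (nat_lit 25) (nat_lit 5) (nat_lit 310) (nat_lit 257) (nat_lit 213)) (XT.lf (nat_lit 0) (nat_lit 4868041523) (nat_lit 228) (nat_lit 13451619363) (nat_lit 76) (nat_lit 1025091015) (nat_lit 22) (nat_lit 5) (nat_lit 25) (nat_lit 5) (nat_lit 23) (nat_lit 4) (nat_lit 311) (nat_lit 257) (nat_lit 212))) (XT.nd (nat_lit 78) (nat_lit 76) (nat_lit 0) (XT.lf (nat_lit 0) (nat_lit 9040073250) (nat_lit 228) (nat_lit 5038687047) (nat_lit 76)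 (nat_lit 5970655456) (nat_lit 22) (nat_lit 5) (nat_lit 25) (nat_lit 5) (nat_lit 23) (nat_lit 4) (nat_lit 312) (nat_lit 257) (nat_lit 211)) (XT.nd (nat_lit 78) (nat_lit 0) (nat_lit 0) (XT.lf (nat_lit 0) (nat_lit 3840766222) (nat_lit 76) (nat_lit 9595664126) (nat_lit 152) (nat_lit 7352124881) (nat_lit 21) (nat_lit 5) (nat_lit 22) (nat_lit 5) (nat_lit 23) (nat_lit 4) (nat_lit 313) (nat_lit 257) (nat_lit 210)) (XT.lf (nat_lit 0) (nat_lit 13263312632) (nat_lit 76) (nat_lit 4831307037) (nat_lit 152) (nat_lit 3467958553) (nat_lit 21) (nat_lit 5) (nat_lit 22) (nat_lit 5) (nat_lit 23) (nat_lit 4) (nat_lit 314) (nat_lit 257) (nat_lit 209))))) (XT.nd (nat_lit 156) (nat_lit 76) (nat_lit 0) (XT.nd (nat_lit 78) (nat_lit 0) (nat_lit 0) (XT.lf (nat_lit 0) (nat_lit 562709495) (nat_lit 228) (nat_lit 21657268458) (nat_lit 76) (nat_lit 156281094) (nat_lit 18) (nat_lit 5) (nat_lit 21) (nat_lit 5) (nat_lit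 19) (nat_lit 4) (nat_lit 315) (nat_lit 257) (nat_lit 208)) (XT.lf (nat_lit 0) (nat_lit 4858843781) (nat_lit 228) (nat_lit 12959677418) (nat_lit 76) (nat_lit 5400259726) (nat_lit 18) (nat_lit 5) (nat_lit 21) (nat_lit 5) (nat_lit 19) (nat_lit 4) (nat_lit 316) (nat_lit 257) (nat_lit 207))) (XT.nd (nat_lit 78) (nat_lit 76) (nat_lit 0) (XT.lf (nat_lit 0) (nat_lit 9330185748) (nat_lit 228) (nat_lit 3897697093) (nat_lit 76) (nat_lit 10877548432) (nat_lit 18) (nat_lit 5) (nat_lit 21) (nat_lit 5) (nat_lit 19) (nat_lit 4) (nat_lit 317) (nat_lit 257) (nat_lit 206)) (XT.nd (nat_lit 78) (nat_lit 0) (nat_lit 0) (XT.lf (nat_lit 0) (nat_lit 5733764944) (nat_lit 76) (nat_lit 8343136646) (nat_lit 152) (nat_lit 10956943571) (nat_lit 17) (nat_lit 5) (nat_lit 18) (nat_lit 5) (nat_lit 19) (nat_lit 4) (nat_lit 318) (nat_lit 257) (nat_lit 205)) (XT.lf (nat_lit 0) (nat_lit 15916068537) (nat_lit 76) (nat_lit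 3173945345) (nat_lit 152) (nat_lit 6917233167) (nat_lit 17) (nat_lit 5) (nat_lit 18) (nat_lit 5) (nat_lit 19) (nat_lit 4) (nat_lit 319) (nat_lit 257) (nat_lit 204)))))) (XT.nd (nat_lit 390) (nat_lit 228) (nat_lit 0) (XT.nd (nat_lit 156) (nat_lit 76) (nat_lit 0) (XT.nd (nat_lit 78) (nat_lit 152) (nat_lit 0) (XT.lf (nat_lit 0) (nat_lit 24353346457) (nat_lit 152) (nat_lit 521270004) (nat_lit 0) (nat_lit 2154743712) (nat_lit 17) (nat_lit 5) (nat_lit 19) (nat_lit 4) (nat_lit 17) (nat_lit 4) (nat_lit 320) (nat_lit 257) (nat_lit 203)) (XT.lf (nat_lit 0) (nat_lit 1893094612) (nat_lit 152) (nat_lit 18399457618) (nat_lit 76) (nat_lit 7800021312) (nat_lit 15) (nat_lit 5) (nat_lit 17) (nat_lit 5) (nat_lit 16) (nat_lit 4) (nat_lit 321) (nat_lit 257) (nat_lit 202))) (XT.nd (nat_lit 78) (nat_lit 76) (nat_lit 0) (XT.lf (nat_lit 0) (nat_lit 6575887169) (nat_lit 152) (nat_lit 8877541285) (nat_lit 76)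 (nat_lit 13754584386) (nat_lit 15) (nat_lit 5) (nat_lit 17) (nat_lit 5) (nat_lit 16) (nat_lit 4) (nat_lit 322) (nat_lit 257) (nat_lit 201)) (XT.nd (nat_lit 78) (nat_lit 0) (nat_lit 0) (XT.lf (nat_lit 0) (nat_lit 1097168269) (nat_lit 76) (nat_lit 10380578802) (nat_lit 152) (nat_lit 18902246584) (nat_lit 14) (nat_lit 5) (nat_lit 15) (nat_lit 5) (nat_lit 16) (nat_lit 4) (nat_lit 323) (nat_lit 257) (nat_lit 200)) (XT.lf (nat_lit 0) (nat_lit 11821344896) (nat_lit 76) (nat_lit 4922134442) (nat_lit 152) (nat_lit 14861170383) (nat_lit 14) (nat_lit 5) (nat_lit 15) (nat_lit 5) (nat_lit 16) (nat_lit 4) (nat_lit 324) (nat_lit 257) (nat_lit 199))))) (XT.nd (nat_lit 234) (nat_lit 152) (nat_lit 0) (XT.nd (nat_lit 78) (nat_lit 76) (nat_lit 0) (XT.lf (nat_lit 0) (nat_lit 22254684388) (nat_lit 152) (nat_lit 9877314561) (nat_lit 0) (nat_lit 759444790) (nat_lit 14) (nat_lit 5) (nat_lit 16) (nat_lit 4) (nat_lit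 14) (nat_lit 4) (nat_lit 325) (nat_lit 257) (nat_lit 198)) (XT.nd (nat_lit 78) (nat_lit 0) (nat_lit 0) (XT.lf (nat_lit 0) (nat_lit 402970692) (nat_lit 76) (nat_lit 27696462930) (nat_lit 76) (nat_lit 6140258408) (nat_lit 13) (nat_lit 4) (nat_lit 14) (nat_lit 5) (nat_lit 14) (nat_lit 4) (nat_lit 326) (nat_lit 257) (nat_lit 197)) (XT.lf (nat_lit 0) (nat_lit 11487835139) (nat_lit 76) (nat_lit 22887427473) (nat_lit 76) (nat_lit 1273161119) (nat_lit 13) (nat_lit 4) (nat_lit 14) (nat_lit 5) (nat_lit 14) (nat_lit 4) (nat_lit 327) (nat_lit 257) (nat_lit 196)))) (XT.nd (nat_lit 78) (nat_lit 76) (nat_lit 0) (XT.lf (nat_lit 0) (nat_lit 3686936954) (nat_lit 152) (nat_lit 14111342581) (nat_lit 76) (nat_lit 19327705673) (nat_lit 12) (nat_lit 5) (nat_lit 14) (nat_lit 5) (nat_lit 13) (nat_lit 4) (nat_lit 328) (nat_lit 257) (nat_lit 195)) (XT.nd (nat_lit 78) (nat_lit 76) (nat_lit 0) (XT.lf (nat_lit 0)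 (nat_lit 8826027842) (nat_lit 152) (nat_lit 3628870054) (nat_lit 76) (nat_lit 26222805892) (nat_lit 12) (nat_lit 5) (nat_lit 14) (nat_lit 5) (nat_lit 13) (nat_lit 4) (nat_lit 329) (nat_lit 257) (nat_lit 194)) (XT.lf (nat_lit 0) (nat_lit 7574082821) (nat_lit 76) (nat_lit 6741266421) (nat_lit 152) (nat_lit 25987006045) (nat_lit 11) (nat_lit 5) (nat_lit 12) (nat_lit 5) (nat_lit 13) (nat_lit 4) (nat_lit 330) (nat_lit 257) (nat_lit 193))))))))
noncomputable def xc98 : XT := (XT.nd (nat_lit 1560) (nat_lit 228) (nat_lit 0) (XT.nd (nat_lit 780) (nat_lit 228) (nat_lit 0) (XT.nd (nat_lit 390) (nat_lit 152) (nat_lit 0) (XT.nd (nat_lit 156) (nat_lit 76) (nat_lit 0) (XT.nd (nat_lit 78) (nat_lit 0) (nat_lit 0) (XT.lf (nat_lit 0) (nat_lit 19417851209) (nat_lit 76) (nat_lit 698247301) (nat_lit 152) (nat_lit 21890303033) (nat_lit 11) (nat_lit 5) (nat_lit 12) (nat_lit 5) (nat_lit 13) (nat_lit 4) (nat_lit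 331) (nat_lit 257) (nat_lit 192)) (XT.lf (nat_lit 0) (nat_lit 26271411454) (nat_lit 152) (nat_lit 12074033255) (nat_lit 0) (nat_lit 5446988879) (nat_lit 11) (nat_lit 5) (nat_lit 13) (nat_lit 4) (nat_lit 11) (nat_lit 4) (nat_lit 332) (nat_lit 257) (nat_lit 191))) (XT.nd (nat_lit 78) (nat_lit 76) (nat_lit 0) (XT.lf (nat_lit 0) (nat_lit 32723424264) (nat_lit 152) (nat_lit 1087167349) (nat_lit 0) (nat_lit 11857738229) (nat_lit 11) (nat_lit 5) (nat_lit 13) (nat_lit 4) (nat_lit 11) (nat_lit 4) (nat_lit 333) (nat_lit 257) (nat_lit 190)) (XT.nd (nat_lit 78) (nat_lit 0) (nat_lit 0) (XT.lf (nat_lit 0) (nat_lit 10753280311) (nat_lit 76) (nat_lit 28891205810) (nat_lit 76) (nat_lit 7986221241) (nat_lit 10) (nat_lit 4) (nat_lit 11) (nat_lit 5) (nat_lit 11) (nat_lit 4) (nat_lit 334) (nat_lit 257) (nat_lit 189)) (XT.lf (nat_lit 0) (nat_lit 23184204774) (nat_lit 76) (nat_lit 23724775120) (nat_lit 76)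 (nat_lit 2782363376) (nat_lit 10) (nat_lit 4) (nat_lit 11) (nat_lit 5) (nat_lit 11) (nat_lit 4) (nat_lit 335) (nat_lit 257) (nat_lit 188))))) (XT.nd (nat_lit 156) (nat_lit 76) (nat_lit 0) (XT.nd (nat_lit 78) (nat_lit 0) (nat_lit 0) (XT.lf (nat_lit 0) (nat_lit 2575489146) (nat_lit 152) (nat_lit 15698303921) (nat_lit 76) (nat_lit 33580150516) (nat_lit 9) (nat_lit 5) (nat_lit 11) (nat_lit 5) (nat_lit 10) (nat_lit 4) (nat_lit 336) (nat_lit 257) (nat_lit 187)) (XT.lf (nat_lit 0) (nat_lit 8088331031) (nat_lit 152) (nat_lit 4430925608) (nat_lit 76) (nat_lit 41604113828) (nat_lit 9) (nat_lit 5) (nat_lit 11) (nat_lit 5) (nat_lit 10) (nat_lit 4) (nat_lit 337) (nat_lit 257) (nat_lit 186))) (XT.nd (nat_lit 78) (nat_lit 0) (nat_lit 0) (XT.lf (nat_lit 0) (nat_lit 7608792914) (nat_lit 76) (nat_lit 6368342762) (nat_lit 152) (nat_lit 42524123939) (nat_lit 8) (nat_lit 5) (nat_lit 9) (nat_lit 5) (nat_lit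 10) (nat_lit 4) (nat_lit 338) (nat_lit 257) (nat_lit 185)) (XT.nd (nat_lit 78) (nat_lit 0) (nat_lit 0) (XT.lf (nat_lit 0) (nat_lit 20219684663) (nat_lit 152) (nat_lit 38627264508) (nat_lit 0) (nat_lit 148135469) (nat_lit 8) (nat_lit 5) (nat_lit 10) (nat_lit 4) (nat_lit 8) (nat_lit 4) (nat_lit 339) (nat_lit 257) (nat_lit 184)) (XT.lf (nat_lit 0) (nat_lit 26861262160) (nat_lit 152) (nat_lit 27986215775) (nat_lit 0) (nat_lit 6761784232) (nat_lit 8) (nat_lit 5) (nat_lit 10) (nat_lit 4) (nat_lit 8) (nat_lit 4) (nat_lit 340) (nat_lit 257) (nat_lit 183)))))) (XT.nd (nat_lit 390) (nat_lit 152) (nat_lit 0) (XT.nd (nat_lit 156) (nat_lit 76) (nat_lit 0) (XT.nd (nat_lit 78) (nat_lit 0) (nat_lit 0) (XT.lf (nat_lit 0) (nat_lit 33818253772) (nat_lit 152) (nat_lit 16844556997) (nat_lit 0) (nat_lit 13692177049) (nat_lit 8) (nat_lit 5) (nat_lit 10) (nat_lit 4) (nat_lit 8) (nat_lit 4) (nat_lit 341) (nat_lit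 257) (nat_lit 182)) (XT.lf (nat_lit 0) (nat_lit 41107223763) (nat_lit 152) (nat_lit 5175760414) (nat_lit 0) (nat_lit 20955814855) (nat_lit 8) (nat_lit 5) (nat_lit 10) (nat_lit 4) (nat_lit 8) (nat_lit 4) (nat_lit 342) (nat_lit 257) (nat_lit 181))) (XT.nd (nat_lit 78) (nat_lit 0) (nat_lit 0) (XT.lf (nat_lit 0) (nat_lit 7280994104) (nat_lit 76) (nat_lit 41578209442) (nat_lit 76) (nat_lit 21402674644) (nat_lit 7) (nat_lit 4) (nat_lit 8) (nat_lit 5) (nat_lit 8) (nat_lit 4) (nat_lit 343) (nat_lit 257) (nat_lit 180)) (XT.nd (nat_lit 78) (nat_lit 0) (nat_lit 0) (XT.lf (nat_lit 0) (nat_lit 20512217875) (nat_lit 76) (nat_lit 36559384721) (nat_lit 76) (nat_lit 16360872884) (nat_lit 7) (nat_lit 4) (nat_lit 8) (nat_lit 5) (nat_lit 8) (nat_lit 4) (nat_lit 344) (nat_lit 257) (nat_lit 179)) (XT.lf (nat_lit 0) (nat_lit 34378279798) (nat_lit 76) (nat_lit 31302214440) (nat_lit 76) (nat_lit 11081819709)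 (nat_lit 7) (nat_lit 4) (nat_lit 8) (nat_lit 5) (nat_lit 8) (nat_lit 4) (nat_lit 345) (nat_lit 257) (nat_lit 178))))) (XT.nd (nat_lit 156) (nat_lit 76) (nat_lit 0) (XT.nd (nat_lit 78) (nat_lit 76) (nat_lit 0) (XT.lf (nat_lit 0) (nat_lit 48912194307) (nat_lit 76) (nat_lit 25794181525) (nat_lit 76) (nat_lit 5552945942) (nat_lit 7) (nat_lit 4) (nat_lit 8) (nat_lit 5) (nat_lit 8) (nat_lit 4) (nat_lit 346) (nat_lit 257) (nat_lit 177)) (XT.lf (nat_lit 0) (nat_lit 231265710) (nat_lit 152) (nat_lit 19786989306) (nat_lit 76) (nat_lit 63913383651) (nat_lit 6) (nat_lit 5) (nat_lit 8) (nat_lit 5) (nat_lit 7) (nat_lit 4) (nat_lit 347) (nat_lit 257) (nat_lit 176))) (XT.nd (nat_lit 78) (nat_lit 76) (nat_lit 0) (XT.lf (nat_lit 0) (nat_lit 6105664609) (nat_lit 152) (nat_lit 7763374829) (nat_lit 76) (nat_lit 73914604834) (nat_lit 6) (nat_lit 5) (nat_lit 8) (nat_lit 5) (nat_lit 7) (nat_lit 4) (nat_lit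 348) (nat_lit 257) (nat_lit 175)) (XT.nd (nat_lit 78) (nat_lit 0) (nat_lit 0) (XT.lf (nat_lit 0) (nat_lit 4999041202) (nat_lit 76) (nat_lit 7340974208) (nat_lit 152) (nat_lit 79484927022) (nat_lit 5) (nat_lit 5) (nat_lit 6) (nat_lit 5) (nat_lit 7) (nat_lit 4) (nat_lit 349) (nat_lit 257) (nat_lit 174)) (XT.lf (nat_lit 0) (nat_lit 18647086136) (nat_lit 76) (nat_lit 358875983) (nat_lit 152) (nat_lit 77056353150) (nat_lit 5) (nat_lit 5) (nat_lit 6) (nat_lit 5) (nat_lit 7) (nat_lit 4) (nat_lit 350) (nat_lit 257) (nat_lit 173))))))) (XT.nd (nat_lit 780) (nat_lit 152) (nat_lit 0) (XT.nd (nat_lit 390) (nat_lit 76) (nat_lit 0) (XT.nd (nat_lit 156) (nat_lit 0) (nat_lit 0) (XT.nd (nat_lit 78) (nat_lit 0) (nat_lit 0) (XT.lf (nat_lit 0) (nat_lit 26102862935) (nat_lit 152) (nat_lit 67664252088) (nat_lit 0) (nat_lit 6739562399) (nat_lit 5) (nat_lit 5) (nat_lit 7) (nat_lit 4) (nat_lit 5) (nat_lit 4)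 (nat_lit 351) (nat_lit 257) (nat_lit 172)) (XT.lf (nat_lit 0) (nat_lit 33549824578) (nat_lit 152) (nat_lit 57451962822) (nat_lit 0) (nat_lit 14171712838) (nat_lit 5) (nat_lit 5) (nat_lit 7) (nat_lit 4) (nat_lit 5) (nat_lit 4) (nat_lit 352) (nat_lit 257) (nat_lit 171))) (XT.nd (nat_lit 78) (nat_lit 0) (nat_lit 0) (XT.lf (nat_lit 0) (nat_lit 41358974851) (nat_lit 152) (nat_lit 46748443300) (nat_lit 0) (nat_lit 21966757203) (nat_lit 5) (nat_lit 5) (nat_lit 7) (nat_lit 4) (nat_lit 5) (nat_lit 4) (nat_lit 353) (nat_lit 257) (nat_lit 170)) (XT.nd (nat_lit 78) (nat_lit 0) (nat_lit 0) (XT.lf (nat_lit 0) (nat_lit 49548906968) (nat_lit 152) (nat_lit 35528208952) (nat_lit 0) (nat_lit 30143255121) (nat_lit 5) (nat_lit 5) (nat_lit 7) (nat_lit 4) (nat_lit 5) (nat_lit 4) (nat_lit 354) (nat_lit 257) (nat_lit 169)) (XT.lf (nat_lit 0) (nat_lit 58139120768) (nat_lit 152) (nat_lit 23764544935) (nat_lit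 0) (nat_lit 38720674446) (nat_lit 5) (nat_lit 5) (nat_lit 7) (nat_lit 4) (nat_lit 5) (nat_lit 4) (nat_lit 355) (nat_lit 257) (nat_lit 168))))) (XT.nd (nat_lit 156) (nat_lit 0) (nat_lit 0) (XT.nd (nat_lit 78) (nat_lit 76) (nat_lit 0) (XT.lf (nat_lit 0) (nat_lit 67150069141) (nat_lit 152) (nat_lit 11429442525) (nat_lit 0) (nat_lit 47719437605) (nat_lit 5) (nat_lit 5) (nat_lit 7) (nat_lit 4) (nat_lit 5) (nat_lit 4) (nat_lit 356) (nat_lit 257) (nat_lit 167)) (XT.lf (nat_lit 0) (nat_lit 1556278190) (nat_lit 76) (nat_lit 75071226399) (nat_lit 76) (nat_lit 55628989897) (nat_lit 4) (nat_lit 4) (nat_lit 5) (nat_lit 5) (nat_lit 5) (nat_lit 4) (nat_lit 357) (nat_lit 257) (nat_lit 166))) (XT.nd (nat_lit 78) (nat_lit 0) (nat_lit 0) (XT.lf (nat_lit 0) (nat_lit 15572399159) (nat_lit 76) (nat_lit 71191770625) (nat_lit 76) (nat_lit 51738481775) (nat_lit 4) (nat_lit 4) (nat_lit 5) (nat_lit 5) (nat_lit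 5) (nat_lit 4) (nat_lit 358) (nat_lit 257) (nat_lit 165)) (XT.nd (nat_lit 78) (nat_lit 0) (nat_lit 0) (XT.lf (nat_lit 0) (nat_lit 30274383111) (nat_lit 76) (nat_lit 67125470686) (nat_lit 76) (nat_lit 47661655789) (nat_lit 4) (nat_lit 4) (nat_lit 5) (nat_lit 5) (nat_lit 5) (nat_lit 4) (nat_lit 359) (nat_lit 257) (nat_lit 164)) (XT.lf (nat_lit 0) (nat_lit 45697234768) (nat_lit 76) (nat_lit 62862644914) (nat_lit 76) (nat_lit 43388805211) (nat_lit 4) (nat_lit 4) (nat_lit 5) (nat_lit 5) (nat_lit 5) (nat_lit 4) (nat_lit 360) (nat_lit 257) (nat_lit 163)))))) (XT.nd (nat_lit 390) (nat_lit 152) (nat_lit 0) (XT.nd (nat_lit 156) (nat_lit 0) (nat_lit 0) (XT.nd (nat_lit 78) (nat_lit 0) (nat_lit 0) (XT.lf (nat_lit 0) (nat_lit 61877675208) (nat_lit 76) (nat_lit 58393143724) (nat_lit 76) (nat_lit 38909756587) (nat_lit 4) (nat_lit 4) (nat_lit 5) (nat_lit 5) (nat_lit 5) (nat_lit 4) (nat_lit 361) (nat_lit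 257) (nat_lit 162)) (XT.lf (nat_lit 0) (nat_lit 78854229287) (nat_lit 76) (nat_lit 53706325448) (nat_lit 76) (nat_lit 34213845516) (nat_lit 4) (nat_lit 4) (nat_lit 5) (nat_lit 5) (nat_lit 5) (nat_lit 4) (nat_lit 362) (nat_lit 257) (nat_lit 161))) (XT.nd (nat_lit 78) (nat_lit 0) (nat_lit 0) (XT.lf (nat_lit 0) (nat_lit 96667317373) (nat_lit 76) (nat_lit 48791030992) (nat_lit 76) (nat_lit 29289891257) (nat_lit 4) (nat_lit 4) (nat_lit 5) (nat_lit 5) (nat_lit 5) (nat_lit 4) (nat_lit 363) (nat_lit 257) (nat_lit 160)) (XT.nd (nat_lit 78) (nat_lit 0) (nat_lit 0) (XT.lf (nat_lit 0) (nat_lit 115359351580) (nat_lit 76) (nat_lit 43635557277) (nat_lit 76) (nat_lit 24126170109) (nat_lit 4) (nat_lit 4) (nat_lit 5) (nat_lit 5) (nat_lit 5) (nat_lit 4) (nat_lit 364) (nat_lit 257) (nat_lit 159)) (XT.lf (nat_lit 0) (nat_lit 134974836752) (nat_lit 76) (nat_lit 38227629364) (nat_lit 76) (nat_lit 18710387498)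 (nat_lit 4) (nat_lit 4) (nat_lit 5) (nat_lit 5) (nat_lit 5) (nat_lit 4) (nat_lit 365) (nat_lit 257) (nat_lit 158))))) (XT.nd (nat_lit 234) (nat_lit 152) (nat_lit 0) (XT.nd (nat_lit 78) (nat_lit 0) (nat_lit 0) (XT.lf (nat_lit 0) (nat_lit 155560476424) (nat_lit 76) (nat_lit 32554371234) (nat_lit 76) (nat_lit 13029648704) (nat_lit 4) (nat_lit 4) (nat_lit 5) (nat_lit 5) (nat_lit 5) (nat_lit 4) (nat_lit 366) (nat_lit 257) (nat_lit 157)) (XT.nd (nat_lit 78) (nat_lit 0) (nat_lit 0) (XT.lf (nat_lit 0) (nat_lit 177165284025) (nat_lit 76) (nat_lit 26602275130) (nat_lit 76) (nat_lit 7070428158) (nat_lit 4) (nat_lit 4) (nat_lit 5) (nat_lit 5) (nat_lit 5) (nat_lit 4) (nat_lit 367) (nat_lit 257) (nat_lit 156)) (XT.lf (nat_lit 0) (nat_lit 199840699572) (nat_lit 76) (nat_lit 20357169395) (nat_lit 76) (nat_lit 818537239) (nat_lit 4) (nat_lit 4) (nat_lit 5) (nat_lit 5) (nat_lit 5) (nat_lit 4) (nat_lit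 368) (nat_lit 257) (nat_lit 155)))) (XT.nd (nat_lit 78) (nat_lit 76) (nat_lit 0) (XT.lf (nat_lit 0) (nat_lit 5557164548) (nat_lit 152) (nat_lit 8152906910) (nat_lit 76) (nat_lit 217989434331) (nat_lit 3) (nat_lit 5) (nat_lit 5) (nat_lit 5) (nat_lit 4) (nat_lit 4) (nat_lit 369) (nat_lit 257) (nat_lit 154)) (XT.nd (nat_lit 78) (nat_lit 0) (nat_lit 0) (XT.lf (nat_lit 0) (nat_lit 5680534935) (nat_lit 76) (nat_lit 6627652153) (nat_lit 152) (nat_lit 230603701461) (nat_lit 2) (nat_lit 5) (nat_lit 3) (nat_lit 5) (nat_lit 4) (nat_lit 4) (nat_lit 370) (nat_lit 257) (nat_lit 153)) (XT.lf (nat_lit 0) (nat_lit 19545100727) (nat_lit 152) (nat_lit 234213092199) (nat_lit 0) (nat_lit 919281782) (nat_lit 2) (nat_lit 5) (nat_lit 4) (nat_lit 4) (nat_lit 2) (nat_lit 4) (nat_lit 371) (nat_lit 257) (nat_lit 152))))))))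
noncomputable def xc99 : XT := (XT.nd (nat_lit 32370) (nat_lit 0) (nat_lit 4408) (XT.nd (nat_lit 780) (nat_lit 0) (nat_lit 0) (XT.nd (nat_lit 390) (nat_lit 0) (nat_lit 0) (XT.nd (nat_lit 156) (nat_lit 0) (nat_lit 0) (XT.nd (nat_lit 78) (nat_lit 0) (nat_lit 0) (XT.lf (nat_lit 0) (nat_lit 27248104408) (nat_lit 152) (nat_lit 231161055658) (nat_lit 0) (nat_lit 8616969093) (nat_lit 2) (nat_lit 5) (nat_lit 4) (nat_lit 4) (nat_lit 2) (nat_lit 4) (nat_lit 372) (nat_lit 257) (nat_lit 151)) (XT.lf (nat_lit 0) (nat_lit 35332062389) (nat_lit 152) (nat_lit 227964501013) (nat_lit 0) (nat_lit 16695863867) (nat_lit 2) (nat_lit 5) (nat_lit 4) (nat_lit 4) (nat_lit 2) (nat_lit 4) (nat_lit 373) (nat_lit 257) (nat_lit 150))) (XT.nd (nat_lit 78) (nat_lit 0) (nat_lit 0) (XT.lf (nat_lit 0) (nat_lit 43816222191) (nat_lit 152) (nat_lit 224615817421) (nat_lit 0) (nat_lit 25175201566) (nat_lit 2) (nat_lit 5) (nat_lit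 4) (nat_lit 4) (nat_lit 2) (nat_lit 4) (nat_lit 374) (nat_lit 257) (nat_lit 149)) (XT.nd (nat_lit 78) (nat_lit 0) (nat_lit 0) (XT.lf (nat_lit 0) (nat_lit 52720784195) (nat_lit 152) (nat_lit 221107031824) (nat_lit 0) (nat_lit 34075171090) (nat_lit 2) (nat_lit 5) (nat_lit 4) (nat_lit 4) (nat_lit 2) (nat_lit 4) (nat_lit 375) (nat_lit 257) (nat_lit 148)) (XT.lf (nat_lit 0) (nat_lit 62066949737) (nat_lit 152) (nat_lit 217429789972) (nat_lit 0) (nat_lit 43416962843) (nat_lit 2) (nat_lit 5) (nat_lit 4) (nat_lit 4) (nat_lit 2) (nat_lit 4) (nat_lit 376) (nat_lit 257) (nat_lit 147))))) (XT.nd (nat_lit 156) (nat_lit 0) (nat_lit 0) (XT.nd (nat_lit 78) (nat_lit 0) (nat_lit 0) (XT.lf (nat_lit 0) (nat_lit 71876971594) (nat_lit 152) (nat_lit 213575336526) (nat_lit 0) (nat_lit 53222819186) (nat_lit 2) (nat_lit 5) (nat_lit 4) (nat_lit 4) (nat_lit 2) (nat_lit 4) (nat_lit 377) (nat_lit 257) (nat_lit 146))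 (XT.lf (nat_lit 0) (nat_lit 82174206960) (nat_lit 152) (nat_lit 209534494218) (nat_lit 0) (nat_lit 63516087396) (nat_lit 2) (nat_lit 5) (nat_lit 4) (nat_lit 4) (nat_lit 2) (nat_lit 4) (nat_lit 378) (nat_lit 257) (nat_lit 145))) (XT.nd (nat_lit 78) (nat_lit 0) (nat_lit 0) (XT.lf (nat_lit 0) (nat_lit 92983173062) (nat_lit 152) (nat_lit 205297641992) (nat_lit 0) (nat_lit 74321275254) (nat_lit 2) (nat_lit 5) (nat_lit 4) (nat_lit 4) (nat_lit 2) (nat_lit 4) (nat_lit 379) (nat_lit 257) (nat_lit 144)) (XT.nd (nat_lit 78) (nat_lit 0) (nat_lit 0) (XT.lf (nat_lit 0) (nat_lit 104329605534) (nat_lit 152) (nat_lit 200854692107) (nat_lit 0) (nat_lit 85664109399) (nat_lit 2) (nat_lit 5) (nat_lit 4) (nat_lit 4) (nat_lit 2) (nat_lit 4) (nat_lit 380) (nat_lit 257) (nat_lit 143)) (XT.lf (nat_lit 0) (nat_lit 116240519692) (nat_lit 152) (nat_lit 196195066110) (nat_lit 0) (nat_lit 97571596577) (nat_lit 2)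 (nat_lit 5) (nat_lit 4) (nat_lit 4) (nat_lit 2) (nat_lit 4) (nat_lit 381) (nat_lit 257) (nat_lit 142)))))) (XT.nd (nat_lit 390) (nat_lit 0) (nat_lit 0) (XT.nd (nat_lit 156) (nat_lit 0) (nat_lit 0) (XT.nd (nat_lit 78) (nat_lit 0) (nat_lit 0) (XT.lf (nat_lit 0) (nat_lit 128744274853) (nat_lit 152) (nat_lit 191307669653) (nat_lit 0) (nat_lit 110072087950) (nat_lit 2) (nat_lit 5) (nat_lit 4) (nat_lit 4) (nat_lit 2) (nat_lit 4) (nat_lit 382) (nat_lit 257) (nat_lit 141)) (XT.lf (nat_lit 0) (nat_lit 141870641866) (nat_lit 152) (nat_lit 186180866079) (nat_lit 0) (nat_lit 123195346592) (nat_lit 2) (nat_lit 5) (nat_lit 4) (nat_lit 4) (nat_lit 2) (nat_lit 4) (nat_lit 383) (nat_lit 257) (nat_lit 140))) (XT.nd (nat_lit 78) (nat_lit 0) (nat_lit 0) (XT.lf (nat_lit 0) (nat_lit 155650873983) (nat_lit 152) (nat_lit 180802448711) (nat_lit 0) (nat_lit 136972618356) (nat_lit 2) (nat_lit 5) (nat_lit 4) (nat_lit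 4) (nat_lit 2) (nat_lit 4) (nat_lit 384) (nat_lit 257) (nat_lit 139)) (XT.nd (nat_lit 78) (nat_lit 0) (nat_lit 0) (XT.lf (nat_lit 0) (nat_lit 170117781282) (nat_lit 152) (nat_lit 175159611795) (nat_lit 0) (nat_lit 151436706271) (nat_lit 2) (nat_lit 5) (nat_lit 4) (nat_lit 4) (nat_lit 2) (nat_lit 4) (nat_lit 385) (nat_lit 257) (nat_lit 138)) (XT.lf (nat_lit 0) (nat_lit 185305808780) (nat_lit 152) (nat_lit 169238920004) (nat_lit 0) (nat_lit 166622048642) (nat_lit 2) (nat_lit 5) (nat_lit 4) (nat_lit 4) (nat_lit 2) (nat_lit 4) (nat_lit 386) (nat_lit 257) (nat_lit 137))))) (XT.nd (nat_lit 234) (nat_lit 0) (nat_lit 0) (XT.nd (nat_lit 78) (nat_lit 0) (nat_lit 0) (XT.lf (nat_lit 0) (nat_lit 201251118446) (nat_lit 152) (nat_lit 163026276453) (nat_lit 0) (nat_lit 182564801044) (nat_lit 2) (nat_lit 5) (nat_lit 4) (nat_lit 4) (nat_lit 2) (nat_lit 4) (nat_lit 387) (nat_lit 257) (nat_lit 136)) (XT.nd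 (nat_lit 78) (nat_lit 0) (nat_lit 0) (XT.lf (nat_lit 0) (nat_lit 217991675306) (nat_lit 152) (nat_lit 156506889134) (nat_lit 0) (nat_lit 199302922414) (nat_lit 2) (nat_lit 5) (nat_lit 4) (nat_lit 4) (nat_lit 2) (nat_lit 4) (nat_lit 388) (nat_lit 257) (nat_lit 135)) (XT.lf (nat_lit 0) (nat_lit 235567337826) (nat_lit 152) (nat_lit 149665235696) (nat_lit 0) (nat_lit 216876265420) (nat_lit 2) (nat_lit 5) (nat_lit 4) (nat_lit 4) (nat_lit 2) (nat_lit 4) (nat_lit 389) (nat_lit 257) (nat_lit 134)))) (XT.nd (nat_lit 30810) (nat_lit 0) (nat_lit 10336) (XT.lf (nat_lit 0) (nat_lit 254019952822) (nat_lit 152) (nat_lit 142485026488) (nat_lit 0) (nat_lit 235326671355) (nat_lit 2) (nat_lit 5) (nat_lit 4) (nat_lit 4) (nat_lit 2) (nat_lit 4) (nat_lit 390) (nat_lit 257) (nat_lit 133)) (XT.nd (nat_lit 78) (nat_lit 0) (nat_lit 0) (XT.lf (nat_lit 0) (nat_lit 14790082) (nat_lit 228) (nat_lit 3215694730) (nat_lit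 0) (nat_lit 14790082) (nat_lit 138) (nat_lit 5) (nat_lit 141) (nat_lit 4) (nat_lit 138) (nat_lit 4) (nat_lit 264) (nat_lit 258) (nat_lit 258)) (XT.lf (nat_lit 0) (nat_lit 3036988721) (nat_lit 228) (nat_lit 2929123649) (nat_lit 0) (nat_lit 551185384) (nat_lit 138) (nat_lit 5) (nat_lit 141) (nat_lit 4) (nat_lit 138) (nat_lit 4) (nat_lit 265) (nat_lit 258) (nat_lit 257))))))) (XT.nd (nat_lit 780) (nat_lit 3116) (nat_lit 0) (XT.nd (nat_lit 390) (nat_lit 1748) (nat_lit 0) (XT.nd (nat_lit 156) (nat_lit 760) (nat_lit 0) (XT.nd (nat_lit 78) (nat_lit 76) (nat_lit 0) (XT.lf (nat_lit 0) (nat_lit 648602138) (nat_lit 228) (nat_lit 5379443412) (nat_lit 228) (nat_lit 526208325) (nat_lit 135) (nat_lit 4) (nat_lit 138) (nat_lit 5) (nat_lit 138) (nat_lit 4) (nat_lit 266) (nat_lit 258) (nat_lit 256)) (XT.lf (nat_lit 0) (nat_lit 2370020296) (nat_lit 304) (nat_lit 2249390384) (nat_lit 76) (nat_lit 1978278545)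 (nat_lit 134) (nat_lit 5) (nat_lit 138) (nat_lit 5) (nat_lit 135) (nat_lit 4) (nat_lit 267) (nat_lit 258) (nat_lit 255))) (XT.nd (nat_lit 78) (nat_lit 456) (nat_lit 0) (XT.lf (nat_lit 0) (nat_lit 1510651619) (nat_lit 304) (nat_lit 3741013744) (nat_lit 380) (nat_lit 1398747057) (nat_lit 130) (nat_lit 5) (nat_lit 134) (nat_lit 5) (nat_lit 135) (nat_lit 4) (nat_lit 268) (nat_lit 258) (nat_lit 254)) (XT.nd (nat_lit 78) (nat_lit 380) (nat_lit 0) (XT.lf (nat_lit 0) (nat_lit 1397752419) (nat_lit 380) (nat_lit 1314865206) (nat_lit 76) (nat_lit 3998524532) (nat_lit 129) (nat_lit 5) (nat_lit 134) (nat_lit 5) (nat_lit 130) (nat_lit 5) (nat_lit 269) (nat_lit 258) (nat_lit 253)) (XT.lf (nat_lit 0) (nat_lit 2646255175) (nat_lit 380) (nat_lit 1527572157) (nat_lit 456) (nat_lit 2605995622) (nat_lit 124) (nat_lit 5) (nat_lit 129) (nat_lit 5) (nat_lit 130) (nat_lit 5) (nat_lit 270) (nat_lit 258) (nat_lit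 252))))) (XT.nd (nat_lit 156) (nat_lit 1216) (nat_lit 0) (XT.nd (nat_lit 78) (nat_lit 456) (nat_lit 0) (XT.lf (nat_lit 0) (nat_lit 100020792) (nat_lit 456) (nat_lit 124089227) (nat_lit 76) (nat_lit 6634463279) (nat_lit 123) (nat_lit 5) (nat_lit 129) (nat_lit 5) (nat_lit 124) (nat_lit 5) (nat_lit 271) (nat_lit 258) (nat_lit 251)) (XT.lf (nat_lit 0) (nat_lit 2792627194) (nat_lit 532) (nat_lit 2905124499) (nat_lit 76) (nat_lit 1244774659) (nat_lit 117) (nat_lit 5) (nat_lit 124) (nat_lit 5) (nat_lit 118) (nat_lit 5) (nat_lit 272) (nat_lit 258) (nat_lit 250))) (XT.nd (nat_lit 78) (nat_lit 684) (nat_lit 0) (XT.lf (nat_lit 0) (nat_lit 1298116476) (nat_lit 532) (nat_lit 4208793235) (nat_lit 608) (nat_lit 1529743286) (nat_lit 110) (nat_lit 5) (nat_lit 117) (nat_lit 5) (nat_lit 118) (nat_lit 5) (nat_lit 273) (nat_lit 258) (nat_lit 249)) (XT.nd (nat_lit 78) (nat_lit 608) (nat_lit 0) (XT.lf (nat_lit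 0) (nat_lit 1095569286) (nat_lit 608) (nat_lit 1463827440) (nat_lit 76) (nat_lit 4579771372) (nat_lit 109) (nat_lit 5) (nat_lit 117) (nat_lit 5) (nat_lit 110) (nat_lit 5) (nat_lit 274) (nat_lit 258) (nat_lit 248)) (XT.lf (nat_lit 0) (nat_lit 2977402459) (nat_lit 608) (nat_lit 739569546) (nat_lit 684) (nat_lit 3533054901) (nat_lit 101) (nat_lit 5) (nat_lit 109) (nat_lit 5) (nat_lit 110) (nat_lit 5) (nat_lit 275) (nat_lit 258) (nat_lit 247)))))) (XT.nd (nat_lit 390) (nat_lit 1368) (nat_lit 0) (XT.nd (nat_lit 156) (nat_lit 988) (nat_lit 0) (XT.nd (nat_lit 78) (nat_lit 76) (nat_lit 0) (XT.lf (nat_lit 0) (nat_lit 191499810) (nat_lit 684) (nat_lit 6198726365) (nat_lit 760) (nat_lit 980433448) (nat_lit 92) (nat_lit 5) (nat_lit 101) (nat_lit 5) (nat_lit 102) (nat_lit 5) (nat_lit 276) (nat_lit 258) (nat_lit 246)) (XT.lf (nat_lit 0) (nat_lit 1607256605) (nat_lit 760) (nat_lit 2631018365) (nat_lit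 76) (nat_lit 3259874869) (nat_lit 91) (nat_lit 5) (nat_lit 101) (nat_lit 5) (nat_lit 92) (nat_lit 5) (nat_lit 277) (nat_lit 258) (nat_lit 245))) (XT.nd (nat_lit 78) (nat_lit 456) (nat_lit 0) (XT.lf (nat_lit 0) (nat_lit 2076214792) (nat_lit 532) (nat_lit 2129652517) (nat_lit 608) (nat_lit 3429852633) (nat_lit 84) (nat_lit 5) (nat_lit 91) (nat_lit 5) (nat_lit 92) (nat_lit 5) (nat_lit 278) (nat_lit 258) (nat_lit 244)) (XT.nd (nat_lit 78) (nat_lit 456) (nat_lit 0) (XT.lf (nat_lit 0) (nat_lit 6866835133) (nat_lit 608) (nat_lit 792504132) (nat_lit 76) (nat_lit 124430113) (nat_lit 84) (nat_lit 5) (nat_lit 92) (nat_lit 5) (nat_lit 85) (nat_lit 5) (nat_lit 279) (nat_lit 258) (nat_lit 243)) (XT.lf (nat_lit 0) (nat_lit 1657857822) (nat_lit 456) (nat_lit 3771202304) (nat_lit 76) (nat_lit 2509452157) (nat_lit 78) (nat_lit 5) (nat_lit 84) (nat_lit 5) (nat_lit 79) (nat_lit 5) (nat_lit 280) (nat_lit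 258) (nat_lit 242))))) (XT.nd (nat_lit 234) (nat_lit 684) (nat_lit 0) (XT.nd (nat_lit 78) (nat_lit 380) (nat_lit 0) (XT.lf (nat_lit 0) (nat_lit 1207006129) (nat_lit 304) (nat_lit 3048773883) (nat_lit 380) (nat_lit 3848392366) (nat_lit 74) (nat_lit 5) (nat_lit 78) (nat_lit 5) (nat_lit 79) (nat_lit 5) (nat_lit 281) (nat_lit 258) (nat_lit 241)) (XT.nd (nat_lit 78) (nat_lit 380) (nat_lit 0) (XT.lf (nat_lit 0) (nat_lit 6448285468) (nat_lit 304) (nat_lit 495184833) (nat_lit 380) (nat_lit 1336834348) (nat_lit 74) (nat_lit 5) (nat_lit 78) (nat_lit 5) (nat_lit 79) (nat_lit 5) (nat_lit 282) (nat_lit 258) (nat_lit 240)) (XT.lf (nat_lit 0) (nat_lit 1247036388) (nat_lit 380) (nat_lit 5039677642) (nat_lit 76) (nat_lit 2178262585) (nat_lit 69) (nat_lit 5) (nat_lit 74) (nat_lit 5) (nat_lit 70) (nat_lit 5) (nat_lit 283) (nat_lit 258) (nat_lit 239)))) (XT.nd (nat_lit 78) (nat_lit 380) (nat_lit 0) (XT.lf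 (nat_lit 0) (nat_lit 210275070) (nat_lit 304) (nat_lit 3649804088) (nat_lit 380) (nat_lit 4800619894) (nat_lit 65) (nat_lit 5) (nat_lit 69) (nat_lit 5) (nat_lit 70) (nat_lit 5) (nat_lit 284) (nat_lit 258) (nat_lit 238)) (XT.nd (nat_lit 78) (nat_lit 380) (nat_lit 0) (XT.lf (nat_lit 0) (nat_lit 5781920480) (nat_lit 304) (nat_lit 812032950) (nat_lit 380) (nat_lit 2272895576) (nat_lit 65) (nat_lit 5) (nat_lit 69) (nat_lit 5) (nat_lit 70) (nat_lit 5) (nat_lit 285) (nat_lit 258) (nat_lit 237)) (XT.lf (nat_lit 0) (nat_lit 350187635) (nat_lit 380) (nat_lit 6610278083) (nat_lit 76) (nat_lit 2123620838) (nat_lit 60) (nat_lit 5) (nat_lit 65) (nat_lit 5) (nat_lit 61) (nat_lit 5) (nat_lit 286) (nat_lit 258) (nat_lit 236))))))))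
noncomputable def xc100 : XT := (XT.nd (nat_lit 1560) (nat_lit 1140) (nat_lit 0) (XT.nd (nat_lit 780) (nat_lit 988) (nat_lit 0) (XT.nd (nat_lit 390) (nat_lit 684) (nat_lit 0) (XT.nd (nat_lit 156) (nat_lit 532) (nat_lit 0) (XT.nd (nat_lit 78) (nat_lit 228) (nat_lit 0) (XT.lf (nat_lit 0) (nat_lit 3004498742) (nat_lit 380) (nat_lit 1059301173) (nat_lit 76) (nat_lit 5247830034) (nat_lit 60) (nat_lit 5) (nat_lit 65) (nat_lit 5) (nat_lit 61) (nat_lit 5) (nat_lit 287) (nat_lit 258) (nat_lit 235)) (XT.lf (nat_lit 0) (nat_lit 4812903321) (nat_lit 228) (nat_lit 968093264) (nat_lit 304) (nat_lit 3770204074) (nat_lit 57) (nat_lit 5) (nat_lit 60) (nat_lit 5) (nat_lit 61) (nat_lit 5) (nat_lit 288) (nat_lit 258) (nat_lit 234))) (XT.nd (nat_lit 78) (nat_lit 304) (nat_lit 0) (XT.lf (nat_lit 0) (nat_lit 1100463243) (nat_lit 228) (nat_lit 7583223527) (nat_lit 304) (nat_lit 1119812575) (nat_lit 54) (nat_lit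 5) (nat_lit 57) (nat_lit 5) (nat_lit 58) (nat_lit 5) (nat_lit 289) (nat_lit 258) (nat_lit 233)) (XT.nd (nat_lit 78) (nat_lit 228) (nat_lit 0) (XT.lf (nat_lit 0) (nat_lit 1624431570) (nat_lit 304) (nat_lit 2825391576) (nat_lit 76) (nat_lit 5616670272) (nat_lit 53) (nat_lit 5) (nat_lit 57) (nat_lit 5) (nat_lit 54) (nat_lit 5) (nat_lit 290) (nat_lit 258) (nat_lit 232)) (XT.lf (nat_lit 0) (nat_lit 3326135456) (nat_lit 228) (nat_lit 1115127215) (nat_lit 304) (nat_lit 5901908024) (nat_lit 50) (nat_lit 5) (nat_lit 53) (nat_lit 5) (nat_lit 54) (nat_lit 5) (nat_lit 291) (nat_lit 258) (nat_lit 231))))) (XT.nd (nat_lit 156) (nat_lit 456) (nat_lit 0) (XT.nd (nat_lit 78) (nat_lit 228) (nat_lit 0) (XT.lf (nat_lit 0) (nat_lit 7407540146) (nat_lit 304) (nat_lit 895833430) (nat_lit 76) (nat_lit 2329974948) (nat_lit 50) (nat_lit 5) (nat_lit 54) (nat_lit 5) (nat_lit 51) (nat_lit 5) (nat_lit 292) (nat_lit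 258) (nat_lit 230)) (XT.lf (nat_lit 0) (nat_lit 5587375938) (nat_lit 228) (nat_lit 4966665348) (nat_lit 304) (nat_lit 382490780) (nat_lit 47) (nat_lit 5) (nat_lit 50) (nat_lit 5) (nat_lit 51) (nat_lit 5) (nat_lit 293) (nat_lit 258) (nat_lit 229))) (XT.nd (nat_lit 78) (nat_lit 228) (nat_lit 0) (XT.lf (nat_lit 0) (nat_lit 1059335584) (nat_lit 152) (nat_lit 1419336388) (nat_lit 228) (nat_lit 8776304977) (nat_lit 44) (nat_lit 5) (nat_lit 46) (nat_lit 5) (nat_lit 47) (nat_lit 5) (nat_lit 294) (nat_lit 258) (nat_lit 228)) (XT.nd (nat_lit 78) (nat_lit 228) (nat_lit 0) (XT.lf (nat_lit 0) (nat_lit 5526485906) (nat_lit 228) (nat_lit 3761438722) (nat_lit 76) (nat_lit 2298363310) (nat_lit 44) (nat_lit 5) (nat_lit 47) (nat_lit 5) (nat_lit 45) (nat_lit 5) (nat_lit 295) (nat_lit 258) (nat_lit 227)) (XT.lf (nat_lit 0) (nat_lit 2964332801) (nat_lit 228) (nat_lit 5763696122) (nat_lit 304) (nat_lit 3206144579)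 (nat_lit 41) (nat_lit 5) (nat_lit 44) (nat_lit 5) (nat_lit 45) (nat_lit 5) (nat_lit 296) (nat_lit 258) (nat_lit 226)))))) (XT.nd (nat_lit 390) (nat_lit 456) (nat_lit 0) (XT.nd (nat_lit 156) (nat_lit 304) (nat_lit 0) (XT.nd (nat_lit 78) (nat_lit 228) (nat_lit 0) (XT.lf (nat_lit 0) (nat_lit 10056872097) (nat_lit 228) (nat_lit 2029952967) (nat_lit 304) (nat_lit 212841809) (nat_lit 41) (nat_lit 5) (nat_lit 44) (nat_lit 5) (nat_lit 45) (nat_lit 5) (nat_lit 297) (nat_lit 258) (nat_lit 225)) (XT.lf (nat_lit 0) (nat_lit 2878307030) (nat_lit 228) (nat_lit 7879680431) (nat_lit 76) (nat_lit 1921127519) (nat_lit 38) (nat_lit 5) (nat_lit 41) (nat_lit 5) (nat_lit 39) (nat_lit 5) (nat_lit 298) (nat_lit 258) (nat_lit 224))) (XT.nd (nat_lit 78) (nat_lit 304) (nat_lit 0) (XT.lf (nat_lit 0) (nat_lit 6125335578) (nat_lit 228) (nat_lit 940042906) (nat_lit 76) (nat_lit 6011621271) (nat_lit 38) (nat_lit 5)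 (nat_lit 41) (nat_lit 5) (nat_lit 39) (nat_lit 5) (nat_lit 299) (nat_lit 258) (nat_lit 223)) (XT.nd (nat_lit 78) (nat_lit 152) (nat_lit 0) (XT.lf (nat_lit 0) (nat_lit 6459357344) (nat_lit 152) (nat_lit 3115818065) (nat_lit 228) (nat_lit 3917639870) (nat_lit 36) (nat_lit 5) (nat_lit 38) (nat_lit 5) (nat_lit 39) (nat_lit 5) (nat_lit 300) (nat_lit 258) (nat_lit 222)) (XT.lf (nat_lit 0) (nat_lit 228774044) (nat_lit 152) (nat_lit 12945107014) (nat_lit 228) (nat_lit 756778502) (nat_lit 34) (nat_lit 5) (nat_lit 36) (nat_lit 5) (nat_lit 37) (nat_lit 4) (nat_lit 301) (nat_lit 258) (nat_lit 221))))) (XT.nd (nat_lit 156) (nat_lit 228) (nat_lit 0) (XT.nd (nat_lit 78) (nat_lit 152) (nat_lit 0) (XT.lf (nat_lit 0) (nat_lit 2593158738) (nat_lit 228) (nat_lit 6474570477) (nat_lit 76) (nat_lit 5315066301) (nat_lit 33) (nat_lit 5) (nat_lit 36) (nat_lit 5) (nat_lit 34) (nat_lit 5) (nat_lit 302) (nat_lit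 258) (nat_lit 220)) (XT.lf (nat_lit 0) (nat_lit 1044270211) (nat_lit 152) (nat_lit 5000898782) (nat_lit 228) (nat_lit 8813797479) (nat_lit 31) (nat_lit 5) (nat_lit 33) (nat_lit 5) (nat_lit 34) (nat_lit 5) (nat_lit 303) (nat_lit 258) (nat_lit 219))) (XT.nd (nat_lit 78) (nat_lit 228) (nat_lit 0) (XT.lf (nat_lit 0) (nat_lit 9074443774) (nat_lit 152) (nat_lit 649975924) (nat_lit 228) (nat_lit 5631840903) (nat_lit 31) (nat_lit 5) (nat_lit 33) (nat_lit 5) (nat_lit 34) (nat_lit 5) (nat_lit 304) (nat_lit 258) (nat_lit 218)) (XT.nd (nat_lit 78) (nat_lit 76) (nat_lit 0) (XT.lf (nat_lit 0) (nat_lit 1528150702) (nat_lit 152) (nat_lit 12091617859) (nat_lit 228) (nat_lit 2257088499) (nat_lit 29) (nat_lit 5) (nat_lit 31) (nat_lit 5) (nat_lit 32) (nat_lit 4) (nat_lit 305) (nat_lit 258) (nat_lit 217)) (XT.lf (nat_lit 0) (nat_lit 1311401315) (nat_lit 228) (nat_lit 6591600252) (nat_lit 76) (nat_lit 8516209199)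 (nat_lit 28) (nat_lit 5) (nat_lit 31) (nat_lit 5) (nat_lit 29) (nat_lit 5) (nat_lit 306) (nat_lit 258) (nat_lit 216))))))) (XT.nd (nat_lit 780) (nat_lit 380) (nat_lit 0) (XT.nd (nat_lit 390) (nat_lit 456) (nat_lit 0) (XT.nd (nat_lit 156) (nat_lit 152) (nat_lit 0) (XT.nd (nat_lit 78) (nat_lit 0) (nat_lit 0) (XT.lf (nat_lit 0) (nat_lit 1480251679) (nat_lit 152) (nat_lit 3475214886) (nat_lit 228) (nat_lit 12032753681) (nat_lit 26) (nat_lit 5) (nat_lit 28) (nat_lit 5) (nat_lit 29) (nat_lit 5) (nat_lit 307) (nat_lit 258) (nat_lit 215)) (XT.lf (nat_lit 0) (nat_lit 8864005210) (nat_lit 228) (nat_lit 7499823923) (nat_lit 76) (nat_lit 1217774092) (nat_lit 26) (nat_lit 5) (nat_lit 29) (nat_lit 5) (nat_lit 27) (nat_lit 4) (nat_lit 308) (nat_lit 258) (nat_lit 214))) (XT.nd (nat_lit 78) (nat_lit 76) (nat_lit 0) (XT.lf (nat_lit 0) (nat_lit 797168592) (nat_lit 76) (nat_lit 12193056426) (nat_lit 152)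 (nat_lit 5213352413) (nat_lit 25) (nat_lit 5) (nat_lit 26) (nat_lit 5) (nat_lit 27) (nat_lit 4) (nat_lit 309) (nat_lit 258) (nat_lit 213)) (XT.nd (nat_lit 78) (nat_lit 76) (nat_lit 0) (XT.lf (nat_lit 0) (nat_lit 9690576670) (nat_lit 76) (nat_lit 7713045131) (nat_lit 152) (nat_lit 1449018382) (nat_lit 25) (nat_lit 5) (nat_lit 26) (nat_lit 5) (nat_lit 27) (nat_lit 4) (nat_lit 310) (nat_lit 258) (nat_lit 212)) (XT.lf (nat_lit 0) (nat_lit 2378702966) (nat_lit 152) (nat_lit 621154248) (nat_lit 76) (nat_lit 16534609589) (nat_lit 24) (nat_lit 5) (nat_lit 26) (nat_lit 5) (nat_lit 25) (nat_lit 5) (nat_lit 311) (nat_lit 258) (nat_lit 211))))) (XT.nd (nat_lit 156) (nat_lit 304) (nat_lit 0) (XT.nd (nat_lit 78) (nat_lit 0) (nat_lit 0) (XT.lf (nat_lit 0) (nat_lit 6472134517) (nat_lit 228) (nat_lit 11754314814) (nat_lit 76) (nat_lit 2016625295) (nat_lit 22) (nat_lit 5) (nat_lit 25) (nat_lit 5) (nat_lit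 23) (nat_lit 4) (nat_lit 312) (nat_lit 258) (nat_lit 210)) (XT.lf (nat_lit 0) (nat_lit 10787973025) (nat_lit 228) (nat_lit 3033587573) (nat_lit 76) (nat_lit 7164692733) (nat_lit 22) (nat_lit 5) (nat_lit 25) (nat_lit 5) (nat_lit 23) (nat_lit 4) (nat_lit 313) (nat_lit 258) (nat_lit 209))) (XT.nd (nat_lit 78) (nat_lit 228) (nat_lit 0) (XT.lf (nat_lit 0) (nat_lit 6253434587) (nat_lit 76) (nat_lit 9123674311) (nat_lit 152) (nat_lit 6386632762) (nat_lit 21) (nat_lit 5) (nat_lit 22) (nat_lit 5) (nat_lit 23) (nat_lit 4) (nat_lit 314) (nat_lit 258) (nat_lit 208)) (XT.nd (nat_lit 78) (nat_lit 228) (nat_lit 0) (XT.lf (nat_lit 0) (nat_lit 16041364030) (nat_lit 76) (nat_lit 4166421892) (nat_lit 152) (nat_lit 2371738992) (nat_lit 21) (nat_lit 5) (nat_lit 22) (nat_lit 5) (nat_lit 23) (nat_lit 4) (nat_lit 315) (nat_lit 258) (nat_lit 207)) (XT.lf (nat_lit 0) (nat_lit 1808756664) (nat_lit 228) (nat_lit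 20572126320) (nat_lit 76) (nat_lit 1052603676) (nat_lit 18) (nat_lit 5) (nat_lit 21) (nat_lit 5) (nat_lit 19) (nat_lit 4) (nat_lit 316) (nat_lit 258) (nat_lit 206)))))) (XT.nd (nat_lit 390) (nat_lit 228) (nat_lit 0) (XT.nd (nat_lit 156) (nat_lit 152) (nat_lit 0) (XT.nd (nat_lit 78) (nat_lit 0) (nat_lit 0) (XT.lf (nat_lit 0) (nat_lit 6261701869) (nat_lit 228) (nat_lit 11542894087) (nat_lit 76) (nat_lit 6516471310) (nat_lit 18) (nat_lit 5) (nat_lit 21) (nat_lit 5) (nat_lit 19) (nat_lit 4) (nat_lit 317) (nat_lit 258) (nat_lit 205)) (XT.lf (nat_lit 0) (nat_lit 10901376844) (nat_lit 228) (nat_lit 2126136994) (nat_lit 76) (nat_lit 12227329280) (nat_lit 18) (nat_lit 5) (nat_lit 21) (nat_lit 5) (nat_lit 19) (nat_lit 4) (nat_lit 318) (nat_lit 258) (nat_lit 204))) (XT.nd (nat_lit 78) (nat_lit 76) (nat_lit 0) (XT.lf (nat_lit 0) (nat_lit 7955181291) (nat_lit 76) (nat_lit 7907849819) (nat_lit 152)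 (nat_lit 10367796249) (nat_lit 17) (nat_lit 5) (nat_lit 18) (nat_lit 5) (nat_lit 19) (nat_lit 4) (nat_lit 319) (nat_lit 258) (nat_lit 203)) (XT.nd (nat_lit 78) (nat_lit 76) (nat_lit 0) (XT.lf (nat_lit 0) (nat_lit 18554470155) (nat_lit 76) (nat_lit 2520791508) (nat_lit 152) (nat_lit 6180242921) (nat_lit 17) (nat_lit 5) (nat_lit 18) (nat_lit 5) (nat_lit 19) (nat_lit 4) (nat_lit 320) (nat_lit 258) (nat_lit 202)) (XT.lf (nat_lit 0) (nat_lit 1286241629) (nat_lit 76) (nat_lit 25298589565) (nat_lit 76) (nat_lit 1744765675) (nat_lit 16) (nat_lit 4) (nat_lit 17) (nat_lit 5) (nat_lit 17) (nat_lit 4) (nat_lit 321) (nat_lit 258) (nat_lit 201))))) (XT.nd (nat_lit 234) (nat_lit 76) (nat_lit 0) (XT.nd (nat_lit 78) (nat_lit 76) (nat_lit 0) (XT.lf (nat_lit 0) (nat_lit 2978161911) (nat_lit 152) (nat_lit 17522695217) (nat_lit 76) (nat_lit 8946334266) (nat_lit 15) (nat_lit 5) (nat_lit 17) (nat_lit 5) (nat_lit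 16) (nat_lit 4) (nat_lit 322) (nat_lit 258) (nat_lit 200)) (XT.nd (nat_lit 78) (nat_lit 76) (nat_lit 0) (XT.lf (nat_lit 0) (nat_lit 7847931593) (nat_lit 152) (nat_lit 7610241890) (nat_lit 76) (nat_lit 15162610642) (nat_lit 15) (nat_lit 5) (nat_lit 17) (nat_lit 5) (nat_lit 16) (nat_lit 4) (nat_lit 323) (nat_lit 258) (nat_lit 199)) (XT.lf (nat_lit 0) (nat_lit 2835603521) (nat_lit 76) (nat_lit 10140649652) (nat_lit 152) (nat_lit 18876064604) (nat_lit 14) (nat_lit 5) (nat_lit 15) (nat_lit 5) (nat_lit 16) (nat_lit 4) (nat_lit 324) (nat_lit 258) (nat_lit 198)))) (XT.nd (nat_lit 78) (nat_lit 76) (nat_lit 0) (XT.lf (nat_lit 0) (nat_lit 14015818655) (nat_lit 76) (nat_lit 4445423935) (nat_lit 152) (nat_lit 14679186703) (nat_lit 14) (nat_lit 5) (nat_lit 15) (nat_lit 5) (nat_lit 16) (nat_lit 4) (nat_lit 325) (nat_lit 258) (nat_lit 197)) (XT.nd (nat_lit 78) (nat_lit 76) (nat_lit 0) (XT.lf (nat_lit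 0) (nat_lit 24216822881) (nat_lit 152) (nat_lit 8812538169) (nat_lit 0) (nat_lit 1463781376) (nat_lit 14) (nat_lit 5) (nat_lit 16) (nat_lit 4) (nat_lit 14) (nat_lit 4) (nat_lit 326) (nat_lit 258) (nat_lit 196)) (XT.lf (nat_lit 0) (nat_lit 1956621957) (nat_lit 76) (nat_lit 28380682072) (nat_lit 76) (nat_lit 5572343584) (nat_lit 13) (nat_lit 4) (nat_lit 14) (nat_lit 5) (nat_lit 14) (nat_lit 4) (nat_lit 327) (nat_lit 258) (nat_lit 195))))))))
noncomputable def xc101 : XT := (XT.nd (nat_lit 1638) (nat_lit 152) (nat_lit 0) (XT.nd (nat_lit 780) (nat_lit 228) (nat_lit 0) (XT.nd (nat_lit 390) (nat_lit 152) (nat_lit 0) (XT.nd (nat_lit 156) (nat_lit 76) (nat_lit 0) (XT.nd (nat_lit 78) (nat_lit 76) (nat_lit 0) (XT.lf (nat_lit 0) (nat_lit 13522705687) (nat_lit 76) (nat_lit 23364556938) (nat_lit 76) (nat_lit 503554656) (nat_lit 13) (nat_lit 4) (nat_lit 14) (nat_lit 5) (nat_lit 14) (nat_lit 4) (nat_lit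 328) (nat_lit 258) (nat_lit 194)) (XT.lf (nat_lit 0) (nat_lit 4639469373) (nat_lit 152) (nat_lit 13400246060) (nat_lit 76) (nat_lit 20903827973) (nat_lit 12) (nat_lit 5) (nat_lit 14) (nat_lit 5) (nat_lit 13) (nat_lit 4) (nat_lit 329) (nat_lit 258) (nat_lit 193))) (XT.nd (nat_lit 78) (nat_lit 76) (nat_lit 0) (XT.lf (nat_lit 0) (nat_lit 9998934540) (nat_lit 152) (nat_lit 2461110080) (nat_lit 76) (nat_lit 28114648107) (nat_lit 12) (nat_lit 5) (nat_lit 14) (nat_lit 5) (nat_lit 13) (nat_lit 4) (nat_lit 330) (nat_lit 258) (nat_lit 192)) (XT.nd (nat_lit 78) (nat_lit 0) (nat_lit 0) (XT.lf (nat_lit 0) (nat_lit 9280229092) (nat_lit 76) (nat_lit 6468379661) (nat_lit 152) (nat_lit 26532688756) (nat_lit 11) (nat_lit 5) (nat_lit 12) (nat_lit 5) (nat_lit 13) (nat_lit 4) (nat_lit 331) (nat_lit 258) (nat_lit 191)) (XT.lf (nat_lit 0) (nat_lit 21652974370) (nat_lit 76) (nat_lit 152254828) (nat_lit 152)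 (nat_lit 22267039527) (nat_lit 11) (nat_lit 5) (nat_lit 12) (nat_lit 5) (nat_lit 13) (nat_lit 4) (nat_lit 332) (nat_lit 258) (nat_lit 190))))) (XT.nd (nat_lit 156) (nat_lit 76) (nat_lit 0) (XT.nd (nat_lit 78) (nat_lit 76) (nat_lit 0) (XT.lf (nat_lit 0) (nat_lit 28244406135) (nat_lit 152) (nat_lit 11449531161) (nat_lit 0) (nat_lit 6254873804) (nat_lit 11) (nat_lit 5) (nat_lit 13) (nat_lit 4) (nat_lit 11) (nat_lit 4) (nat_lit 333) (nat_lit 258) (nat_lit 189)) (XT.lf (nat_lit 0) (nat_lit 29124306) (nat_lit 76) (nat_lit 34958948844) (nat_lit 76) (nat_lit 12931989338) (nat_lit 10) (nat_lit 4) (nat_lit 11) (nat_lit 5) (nat_lit 11) (nat_lit 4) (nat_lit 334) (nat_lit 258) (nat_lit 188))) (XT.nd (nat_lit 78) (nat_lit 76) (nat_lit 0) (XT.lf (nat_lit 0) (nat_lit 12441795772) (nat_lit 76) (nat_lit 29800999777) (nat_lit 76) (nat_lit 7738395342) (nat_lit 10) (nat_lit 4) (nat_lit 11) (nat_lit 5) (nat_lit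 11) (nat_lit 4) (nat_lit 335) (nat_lit 258) (nat_lit 187)) (XT.nd (nat_lit 78) (nat_lit 76) (nat_lit 0) (XT.lf (nat_lit 0) (nat_lit 25439464009) (nat_lit 76) (nat_lit 24401712615) (nat_lit 76) (nat_lit 2305160630) (nat_lit 10) (nat_lit 4) (nat_lit 11) (nat_lit 5) (nat_lit 11) (nat_lit 4) (nat_lit 336) (nat_lit 258) (nat_lit 186)) (XT.lf (nat_lit 0) (nat_lit 3272449125) (nat_lit 152) (nat_lit 15420362279) (nat_lit 76) (nat_lit 35725206211) (nat_lit 9) (nat_lit 5) (nat_lit 11) (nat_lit 5) (nat_lit 10) (nat_lit 4) (nat_lit 337) (nat_lit 258) (nat_lit 185)))))) (XT.nd (nat_lit 390) (nat_lit 152) (nat_lit 0) (XT.nd (nat_lit 156) (nat_lit 0) (nat_lit 0) (XT.nd (nat_lit 78) (nat_lit 76) (nat_lit 0) (XT.lf (nat_lit 0) (nat_lit 9033876650) (nat_lit 152) (nat_lit 3640227281) (nat_lit 76) (nat_lit 44128174919) (nat_lit 9) (nat_lit 5) (nat_lit 11) (nat_lit 5) (nat_lit 10) (nat_lit 4) (nat_lit 338)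 (nat_lit 258) (nat_lit 184)) (XT.lf (nat_lit 0) (nat_lit 8985150641) (nat_lit 76) (nat_lit 6221751908) (nat_lit 152) (nat_lit 44092680555) (nat_lit 8) (nat_lit 5) (nat_lit 9) (nat_lit 5) (nat_lit 10) (nat_lit 4) (nat_lit 339) (nat_lit 258) (nat_lit 183))) (XT.nd (nat_lit 78) (nat_lit 0) (nat_lit 0) (XT.lf (nat_lit 0) (nat_lit 21743211912) (nat_lit 152) (nat_lit 39591582499) (nat_lit 0) (nat_lit 584232559) (nat_lit 8) (nat_lit 5) (nat_lit 10) (nat_lit 4) (nat_lit 8) (nat_lit 4) (nat_lit 340) (nat_lit 258) (nat_lit 182)) (XT.nd (nat_lit 78) (nat_lit 0) (nat_lit 0) (XT.lf (nat_lit 0) (nat_lit 28692461474) (nat_lit 152) (nat_lit 28464531104) (nat_lit 0) (nat_lit 7508149936) (nat_lit 8) (nat_lit 5) (nat_lit 10) (nat_lit 4) (nat_lit 8) (nat_lit 4) (nat_lit 341) (nat_lit 258) (nat_lit 181)) (XT.lf (nat_lit 0) (nat_lit 35974058085) (nat_lit 152) (nat_lit 16809646313) (nat_lit 0) (nat_lit 14765620656)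 (nat_lit 8) (nat_lit 5) (nat_lit 10) (nat_lit 4) (nat_lit 8) (nat_lit 4) (nat_lit 342) (nat_lit 258) (nat_lit 180))))) (XT.nd (nat_lit 234) (nat_lit 76) (nat_lit 0) (XT.nd (nat_lit 78) (nat_lit 76) (nat_lit 0) (XT.lf (nat_lit 0) (nat_lit 43605338879) (nat_lit 152) (nat_lit 4599178402) (nat_lit 0) (nat_lit 22373924411) (nat_lit 8) (nat_lit 5) (nat_lit 10) (nat_lit 4) (nat_lit 8) (nat_lit 4) (nat_lit 343) (nat_lit 258) (nat_lit 179)) (XT.nd (nat_lit 78) (nat_lit 0) (nat_lit 0) (XT.lf (nat_lit 0) (nat_lit 8466940132) (nat_lit 76) (nat_lit 43269726105) (nat_lit 76) (nat_lit 22016428743) (nat_lit 7) (nat_lit 4) (nat_lit 8) (nat_lit 5) (nat_lit 8) (nat_lit 4) (nat_lit 344) (nat_lit 258) (nat_lit 178)) (XT.lf (nat_lit 0) (nat_lit 22320587171) (nat_lit 76) (nat_lit 38018407472) (nat_lit 76) (nat_lit 16744269259) (nat_lit 7) (nat_lit 4) (nat_lit 8) (nat_lit 5) (nat_lit 8) (nat_lit 4) (nat_lit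 345) (nat_lit 258) (nat_lit 177)))) (XT.nd (nat_lit 78) (nat_lit 76) (nat_lit 0) (XT.lf (nat_lit 0) (nat_lit 36842677981) (nat_lit 76) (nat_lit 32515947557) (nat_lit 76) (nat_lit 11221960914) (nat_lit 7) (nat_lit 4) (nat_lit 8) (nat_lit 5) (nat_lit 8) (nat_lit 4) (nat_lit 346) (nat_lit 258) (nat_lit 176)) (XT.nd (nat_lit 78) (nat_lit 76) (nat_lit 0) (XT.lf (nat_lit 0) (nat_lit 52067788967) (nat_lit 76) (nat_lit 26749245263) (nat_lit 76) (nat_lit 5436355354) (nat_lit 7) (nat_lit 4) (nat_lit 8) (nat_lit 5) (nat_lit 8) (nat_lit 4) (nat_lit 347) (nat_lit 258) (nat_lit 175)) (XT.lf (nat_lit 0) (nat_lit 606276435) (nat_lit 152) (nat_lit 20088026328) (nat_lit 76) (nat_lit 67415626374) (nat_lit 6) (nat_lit 5) (nat_lit 8) (nat_lit 5) (nat_lit 7) (nat_lit 4) (nat_lit 348) (nat_lit 258) (nat_lit 174))))))) (XT.nd (nat_lit 780) (nat_lit 0) (nat_lit 0) (XT.nd (nat_lit 390) (nat_lit 76) (nat_lit 0)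 (XT.nd (nat_lit 156) (nat_lit 0) (nat_lit 0) (XT.nd (nat_lit 78) (nat_lit 76) (nat_lit 0) (XT.lf (nat_lit 0) (nat_lit 6757088258) (nat_lit 152) (nat_lit 7496007910) (nat_lit 76) (nat_lit 77902309876) (nat_lit 6) (nat_lit 5) (nat_lit 8) (nat_lit 5) (nat_lit 7) (nat_lit 4) (nat_lit 349) (nat_lit 258) (nat_lit 173)) (XT.lf (nat_lit 0) (nat_lit 5893955767) (nat_lit 76) (nat_lit 7402787627) (nat_lit 152) (nat_lit 83102351779) (nat_lit 5) (nat_lit 5) (nat_lit 6) (nat_lit 5) (nat_lit 7) (nat_lit 4) (nat_lit 350) (nat_lit 258) (nat_lit 172))) (XT.nd (nat_lit 78) (nat_lit 0) (nat_lit 0) (XT.lf (nat_lit 0) (nat_lit 20193690448) (nat_lit 76) (nat_lit 86119505) (nat_lit 152) (nat_lit 80569340718) (nat_lit 5) (nat_lit 5) (nat_lit 6) (nat_lit 5) (nat_lit 7) (nat_lit 4) (nat_lit 351) (nat_lit 258) (nat_lit 171)) (XT.nd (nat_lit 78) (nat_lit 0) (nat_lit 0) (XT.lf (nat_lit 0) (nat_lit 27720471199) (nat_lit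 152) (nat_lit 70451282102) (nat_lit 0) (nat_lit 7344536760) (nat_lit 5) (nat_lit 5) (nat_lit 7) (nat_lit 4) (nat_lit 5) (nat_lit 4) (nat_lit 352) (nat_lit 258) (nat_lit 170)) (XT.lf (nat_lit 0) (nat_lit 35524901633) (nat_lit 152) (nat_lit 59756768019) (nat_lit 0) (nat_lit 15135532995) (nat_lit 5) (nat_lit 5) (nat_lit 7) (nat_lit 4) (nat_lit 5) (nat_lit 4) (nat_lit 353) (nat_lit 258) (nat_lit 169))))) (XT.nd (nat_lit 156) (nat_lit 76) (nat_lit 0) (XT.nd (nat_lit 78) (nat_lit 0) (nat_lit 0) (XT.lf (nat_lit 0) (nat_lit 43710338666) (nat_lit 152) (nat_lit 48545110280) (nat_lit 0) (nat_lit 23308175553) (nat_lit 5) (nat_lit 5) (nat_lit 7) (nat_lit 4) (nat_lit 5) (nat_lit 4) (nat_lit 354) (nat_lit 258) (nat_lit 168)) (XT.lf (nat_lit 0) (nat_lit 52296271433) (nat_lit 152) (nat_lit 36789614462) (nat_lit 0) (nat_lit 31881923106) (nat_lit 5) (nat_lit 5) (nat_lit 7) (nat_lit 4) (nat_lit 5) (nat_lit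 4) (nat_lit 355) (nat_lit 258) (nat_lit 167))) (XT.nd (nat_lit 78) (nat_lit 76) (nat_lit 0) (XT.lf (nat_lit 0) (nat_lit 61303142632) (nat_lit 152) (nat_lit 24462291289) (nat_lit 0) (nat_lit 40877189339) (nat_lit 5) (nat_lit 5) (nat_lit 7) (nat_lit 4) (nat_lit 5) (nat_lit 4) (nat_lit 356) (nat_lit 258) (nat_lit 166)) (XT.nd (nat_lit 78) (nat_lit 76) (nat_lit 0) (XT.lf (nat_lit 0) (nat_lit 70752397194) (nat_lit 152) (nat_lit 11533789991) (nat_lit 0) (nat_lit 50315391552) (nat_lit 5) (nat_lit 5) (nat_lit 7) (nat_lit 4) (nat_lit 5) (nat_lit 4) (nat_lit 357) (nat_lit 258) (nat_lit 165)) (XT.lf (nat_lit 0) (nat_lit 2093682491) (nat_lit 76) (nat_lit 78605539103) (nat_lit 76) (nat_lit 58158007415) (nat_lit 4) (nat_lit 4) (nat_lit 5) (nat_lit 5) (nat_lit 5) (nat_lit 4) (nat_lit 358) (nat_lit 258) (nat_lit 164)))))) (XT.nd (nat_lit 390) (nat_lit 0) (nat_lit 0) (XT.nd (nat_lit 156) (nat_lit 0)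 (nat_lit 0) (XT.nd (nat_lit 78) (nat_lit 0) (nat_lit 0) (XT.lf (nat_lit 0) (nat_lit 16788724252) (nat_lit 76) (nat_lit 74542550951) (nat_lit 76) (nat_lit 54084994458) (nat_lit 4) (nat_lit 4) (nat_lit 5) (nat_lit 5) (nat_lit 5) (nat_lit 4) (nat_lit 359) (nat_lit 258) (nat_lit 163)) (XT.lf (nat_lit 0) (nat_lit 32204964299) (nat_lit 76) (nat_lit 70282879263) (nat_lit 76) (nat_lit 49815775335) (nat_lit 4) (nat_lit 4) (nat_lit 5) (nat_lit 5) (nat_lit 5) (nat_lit 4) (nat_lit 360) (nat_lit 258) (nat_lit 162))) (XT.nd (nat_lit 78) (nat_lit 0) (nat_lit 0) (XT.lf (nat_lit 0) (nat_lit 48379107967) (nat_lit 76) (nat_lit 65816381962) (nat_lit 76) (nat_lit 45340185240) (nat_lit 4) (nat_lit 4) (nat_lit 5) (nat_lit 5) (nat_lit 5) (nat_lit 4) (nat_lit 361) (nat_lit 258) (nat_lit 161)) (XT.nd (nat_lit 78) (nat_lit 0) (nat_lit 0) (XT.lf (nat_lit 0) (nat_lit 65349665121) (nat_lit 76) (nat_lit 61132424532)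 (nat_lit 76) (nat_lit 40647568005) (nat_lit 4) (nat_lit 4) (nat_lit 5) (nat_lit 5) (nat_lit 5) (nat_lit 4) (nat_lit 362) (nat_lit 258) (nat_lit 160)) (XT.lf (nat_lit 0) (nat_lit 83157041849) (nat_lit 76) (nat_lit 56219854693) (nat_lit 76) (nat_lit 35726750733) (nat_lit 4) (nat_lit 4) (nat_lit 5) (nat_lit 5) (nat_lit 5) (nat_lit 4) (nat_lit 363) (nat_lit 258) (nat_lit 159))))) (XT.nd (nat_lit 234) (nat_lit 0) (nat_lit 0) (XT.nd (nat_lit 78) (nat_lit 0) (nat_lit 0) (XT.lf (nat_lit 0) (nat_lit 101843636668) (nat_lit 76) (nat_lit 51066975849) (nat_lit 76) (nat_lit 30566017192) (nat_lit 4) (nat_lit 4) (nat_lit 5) (nat_lit 5) (nat_lit 5) (nat_lit 4) (nat_lit 364) (nat_lit 258) (nat_lit 158)) (XT.nd (nat_lit 78) (nat_lit 0) (nat_lit 0) (XT.lf (nat_lit 0) (nat_lit 121453941470) (nat_lit 76) (nat_lit 45661519243) (nat_lit 76) (nat_lit 25153079922) (nat_lit 4) (nat_lit 4) (nat_lit 5) (nat_lit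 5) (nat_lit 5) (nat_lit 4) (nat_lit 365) (nat_lit 258) (nat_lit 157)) (XT.lf (nat_lit 0) (nat_lit 142034647457) (nat_lit 76) (nat_lit 39990614739) (nat_lit 76) (nat_lit 19475050975) (nat_lit 4) (nat_lit 4) (nat_lit 5) (nat_lit 5) (nat_lit 5) (nat_lit 4) (nat_lit 366) (nat_lit 258) (nat_lit 156)))) (XT.nd (nat_lit 78) (nat_lit 0) (nat_lit 0) (XT.lf (nat_lit 0) (nat_lit 163634756309) (nat_lit 76) (nat_lit 34040760183) (nat_lit 76) (nat_lit 13518411236) (nat_lit 4) (nat_lit 4) (nat_lit 5) (nat_lit 5) (nat_lit 5) (nat_lit 4) (nat_lit 367) (nat_lit 258) (nat_lit 155)) (XT.nd (nat_lit 78) (nat_lit 0) (nat_lit 0) (XT.lf (nat_lit 0) (nat_lit 186305696859) (nat_lit 76) (nat_lit 27797789256) (nat_lit 76) (nat_lit 7268978230) (nat_lit 4) (nat_lit 4) (nat_lit 5) (nat_lit 5) (nat_lit 5) (nat_lit 4) (nat_lit 368) (nat_lit 258) (nat_lit 154)) (XT.lf (nat_lit 0) (nat_lit 210101447534) (nat_lit 76) (nat_lit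 21246837740) (nat_lit 76) (nat_lit 711872353) (nat_lit 4) (nat_lit 4) (nat_lit 5) (nat_lit 5) (nat_lit 5) (nat_lit 4) (nat_lit 369) (nat_lit 258) (nat_lit 153))))))))
noncomputable def xc102 : XT := (XT.nd (nat_lit 32214) (nat_lit 0) (nat_lit 5472) (XT.nd (nat_lit 780) (nat_lit 0) (nat_lit 0) (XT.nd (nat_lit 390) (nat_lit 0) (nat_lit 0) (XT.nd (nat_lit 156) (nat_lit 0) (nat_lit 0) (XT.nd (nat_lit 78) (nat_lit 76) (nat_lit 0) (XT.lf (nat_lit 0) (nat_lit 5971087434) (nat_lit 152) (nat_lit 8300097444) (nat_lit 76) (nat_lit 229006454196) (nat_lit 3) (nat_lit 5) (nat_lit 5) (nat_lit 5) (nat_lit 4) (nat_lit 4) (nat_lit 370) (nat_lit 258) (nat_lit 152)) (XT.lf (nat_lit 0) (nat_lit 6220815609) (nat_lit 76) (nat_lit 6836367063) (nat_lit 152) (nat_lit 241993584066) (nat_lit 2) (nat_lit 5) (nat_lit 3) (nat_lit 5) (nat_lit 4) (nat_lit 4) (nat_lit 371) (nat_lit 258) (nat_lit 151))) (XT.nd (nat_lit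 78) (nat_lit 0) (nat_lit 0) (XT.lf (nat_lit 0) (nat_lit 20651404732) (nat_lit 152) (nat_lit 245675123020) (nat_lit 0) (nat_lit 1078333076) (nat_lit 2) (nat_lit 5) (nat_lit 4) (nat_lit 4) (nat_lit 2) (nat_lit 4) (nat_lit 372) (nat_lit 258) (nat_lit 150)) (XT.nd (nat_lit 78) (nat_lit 0) (nat_lit 0) (XT.lf (nat_lit 0) (nat_lit 28733413407) (nat_lit 152) (nat_lit 242482323879) (nat_lit 0) (nat_lit 9155519648) (nat_lit 2) (nat_lit 5) (nat_lit 4) (nat_lit 4) (nat_lit 2) (nat_lit 4) (nat_lit 373) (nat_lit 258) (nat_lit 149)) (XT.lf (nat_lit 0) (nat_lit 37215716727) (nat_lit 152) (nat_lit 239137216958) (nat_lit 0) (nat_lit 17633230488) (nat_lit 2) (nat_lit 5) (nat_lit 4) (nat_lit 4) (nat_lit 2) (nat_lit 4) (nat_lit 374) (nat_lit 258) (nat_lit 148))))) (XT.nd (nat_lit 156) (nat_lit 0) (nat_lit 0) (XT.nd (nat_lit 78) (nat_lit 0) (nat_lit 0) (XT.lf (nat_lit 0) (nat_lit 46118510652) (nat_lit 152)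 (nat_lit 235631837714) (nat_lit 0) (nat_lit 26531650624) (nat_lit 2) (nat_lit 5) (nat_lit 4) (nat_lit 4) (nat_lit 2) (nat_lit 4) (nat_lit 375) (nat_lit 258) (nat_lit 147)) (XT.lf (nat_lit 0) (nat_lit 55462992310) (nat_lit 152) (nat_lit 231957840008) (nat_lit 0) (nat_lit 35871966768) (nat_lit 2) (nat_lit 5) (nat_lit 4) (nat_lit 4) (nat_lit 2) (nat_lit 4) (nat_lit 376) (nat_lit 258) (nat_lit 146))) (XT.nd (nat_lit 78) (nat_lit 0) (nat_lit 0) (XT.lf (nat_lit 0) (nat_lit 65271410468) (nat_lit 152) (nat_lit 228106476226) (nat_lit 0) (nat_lit 45676417769) (nat_lit 2) (nat_lit 5) (nat_lit 4) (nat_lit 4) (nat_lit 2) (nat_lit 4) (nat_lit 377) (nat_lit 258) (nat_lit 145)) (XT.nd (nat_lit 78) (nat_lit 0) (nat_lit 0) (XT.lf (nat_lit 0) (nat_lit 75567118501) (nat_lit 152) (nat_lit 224068576453) (nat_lit 0) (nat_lit 55968347559) (nat_lit 2) (nat_lit 5) (nat_lit 4) (nat_lit 4) (nat_lit 2) (nat_lit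 4) (nat_lit 378) (nat_lit 258) (nat_lit 144)) (XT.lf (nat_lit 0) (nat_lit 86374630001) (nat_lit 152) (nat_lit 219834526643) (nat_lit 0) (nat_lit 66772260731) (nat_lit 2) (nat_lit 5) (nat_lit 4) (nat_lit 4) (nat_lit 2) (nat_lit 4) (nat_lit 379) (nat_lit 258) (nat_lit 143)))))) (XT.nd (nat_lit 390) (nat_lit 0) (nat_lit 0) (XT.nd (nat_lit 156) (nat_lit 0) (nat_lit 0) (XT.nd (nat_lit 78) (nat_lit 0) (nat_lit 0) (XT.lf (nat_lit 0) (nat_lit 97719677137) (nat_lit 152) (nat_lit 215394245725) (nat_lit 0) (nat_lit 78113880888) (nat_lit 2) (nat_lit 5) (nat_lit 4) (nat_lit 4) (nat_lit 2) (nat_lit 4) (nat_lit 380) (nat_lit 258) (nat_lit 142)) (XT.lf (nat_lit 0) (nat_lit 109629271927) (nat_lit 152) (nat_lit 210737161601) (nat_lit 0) (nat_lit 90020211889) (nat_lit 2) (nat_lit 5) (nat_lit 4) (nat_lit 4) (nat_lit 2) (nat_lit 4) (nat_lit 381) (nat_lit 258) (nat_lit 141))) (XT.nd (nat_lit 78) (nat_lit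 0) (nat_lit 0) (XT.lf (nat_lit 0) (nat_lit 122131770548) (nat_lit 152) (nat_lit 205852185976) (nat_lit 0) (nat_lit 102519602140) (nat_lit 2) (nat_lit 5) (nat_lit 4) (nat_lit 4) (nat_lit 2) (nat_lit 4) (nat_lit 382) (nat_lit 258) (nat_lit 140)) (XT.nd (nat_lit 78) (nat_lit 0) (nat_lit 0) (XT.lf (nat_lit 0) (nat_lit 135256940855) (nat_lit 152) (nat_lit 200727687955) (nat_lit 0) (nat_lit 115641812094) (nat_lit 2) (nat_lit 5) (nat_lit 4) (nat_lit 4) (nat_lit 2) (nat_lit 4) (nat_lit 383) (nat_lit 258) (nat_lit 139)) (XT.lf (nat_lit 0) (nat_lit 149036033253) (nat_lit 152) (nat_lit 195351466353) (nat_lit 0) (nat_lit 129418085109) (nat_lit 2) (nat_lit 5) (nat_lit 4) (nat_lit 4) (nat_lit 2) (nat_lit 4) (nat_lit 384) (nat_lit 258) (nat_lit 138))))) (XT.nd (nat_lit 156) (nat_lit 0) (nat_lit 0) (XT.nd (nat_lit 78) (nat_lit 0) (nat_lit 0) (XT.lf (nat_lit 0) (nat_lit 163501855105) (nat_lit 152) (nat_lit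 189710720643) (nat_lit 0) (nat_lit 143881221833) (nat_lit 2) (nat_lit 5) (nat_lit 4) (nat_lit 4) (nat_lit 2) (nat_lit 4) (nat_lit 385) (nat_lit 258) (nat_lit 137)) (XT.lf (nat_lit 0) (nat_lit 178688848844) (nat_lit 152) (nat_lit 183792020476) (nat_lit 0) (nat_lit 159065658308) (nat_lit 2) (nat_lit 5) (nat_lit 4) (nat_lit 4) (nat_lit 2) (nat_lit 4) (nat_lit 386) (nat_lit 258) (nat_lit 136))) (XT.nd (nat_lit 78) (nat_lit 0) (nat_lit 0) (XT.lf (nat_lit 0) (nat_lit 194633173979) (nat_lit 152) (nat_lit 177581273710) (nat_lit 0) (nat_lit 175007547953) (nat_lit 2) (nat_lit 5) (nat_lit 4) (nat_lit 4) (nat_lit 2) (nat_lit 4) (nat_lit 387) (nat_lit 258) (nat_lit 135)) (XT.nd (nat_lit 78) (nat_lit 0) (nat_lit 0) (XT.lf (nat_lit 0) (nat_lit 211372793188) (nat_lit 152) (nat_lit 171063692853) (nat_lit 0) (nat_lit 191744847648) (nat_lit 2) (nat_lit 5) (nat_lit 4) (nat_lit 4) (nat_lit 2) (nat_lit 4)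 (nat_lit 388) (nat_lit 258) (nat_lit 134)) (XT.lf (nat_lit 0) (nat_lit 228947562708) (nat_lit 152) (nat_lit 164223759855) (nat_lit 0) (nat_lit 209317408107) (nat_lit 2) (nat_lit 5) (nat_lit 4) (nat_lit 4) (nat_lit 2) (nat_lit 4) (nat_lit 389) (nat_lit 258) (nat_lit 133))))))) (XT.nd (nat_lit 780) (nat_lit 3724) (nat_lit 0) (XT.nd (nat_lit 390) (nat_lit 836) (nat_lit 0) (XT.nd (nat_lit 156) (nat_lit 532) (nat_lit 0) (XT.nd (nat_lit 78) (nat_lit 76) (nat_lit 0) (XT.lf (nat_lit 0) (nat_lit 1561526012) (nat_lit 76) (nat_lit 103492245) (nat_lit 0) (nat_lit 1561526012) (nat_lit 142) (nat_lit 5) (nat_lit 143) (nat_lit 0) (nat_lit 142) (nat_lit 4) (nat_lit 262) (nat_lit 259) (nat_lit 259)) (XT.lf (nat_lit 0) (nat_lit 3111284201) (nat_lit 76) (nat_lit 3049196539) (nat_lit 76) (nat_lit 308598360) (nat_lit 141) (nat_lit 4) (nat_lit 142) (nat_lit 5) (nat_lit 142) (nat_lit 4) (nat_lit 263) (nat_lit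 259) (nat_lit 258))) (XT.nd (nat_lit 78) (nat_lit 456) (nat_lit 0) (XT.lf (nat_lit 0) (nat_lit 2590807812) (nat_lit 152) (nat_lit 39535668) (nat_lit 76) (nat_lit 3862923448) (nat_lit 140) (nat_lit 5) (nat_lit 142) (nat_lit 5) (nat_lit 141) (nat_lit 4) (nat_lit 264) (nat_lit 259) (nat_lit 257)) (XT.nd (nat_lit 78) (nat_lit 304) (nat_lit 0) (XT.lf (nat_lit 0) (nat_lit 3443384528) (nat_lit 152) (nat_lit 2058995739) (nat_lit 228) (nat_lit 1022687235) (nat_lit 138) (nat_lit 5) (nat_lit 140) (nat_lit 5) (nat_lit 141) (nat_lit 4) (nat_lit 265) (nat_lit 259) (nat_lit 256)) (XT.lf (nat_lit 0) (nat_lit 414530815) (nat_lit 228) (nat_lit 1356939293) (nat_lit 304) (nat_lit 4794188636) (nat_lit 134) (nat_lit 5) (nat_lit 137) (nat_lit 5) (nat_lit 138) (nat_lit 5) (nat_lit 266) (nat_lit 259) (nat_lit 255))))) (XT.nd (nat_lit 156) (nat_lit 456) (nat_lit 0) (XT.nd (nat_lit 78) (nat_lit 380) (nat_lit 0)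 (XT.lf (nat_lit 0) (nat_lit 4066130971) (nat_lit 228) (nat_lit 490566895) (nat_lit 304) (nat_lit 2056918687) (nat_lit 134) (nat_lit 5) (nat_lit 137) (nat_lit 5) (nat_lit 138) (nat_lit 5) (nat_lit 267) (nat_lit 259) (nat_lit 254)) (XT.lf (nat_lit 0) (nat_lit 655584516) (nat_lit 380) (nat_lit 5528012718) (nat_lit 76) (nat_lit 486929692) (nat_lit 129) (nat_lit 5) (nat_lit 134) (nat_lit 5) (nat_lit 130) (nat_lit 5) (nat_lit 268) (nat_lit 259) (nat_lit 253))) (XT.nd (nat_lit 78) (nat_lit 456) (nat_lit 0) (XT.lf (nat_lit 0) (nat_lit 3331921243) (nat_lit 380) (nat_lit 1781924462) (nat_lit 76) (nat_lit 1620283362) (nat_lit 129) (nat_lit 5) (nat_lit 134) (nat_lit 5) (nat_lit 130) (nat_lit 5) (nat_lit 269) (nat_lit 259) (nat_lit 252)) (XT.nd (nat_lit 78) (nat_lit 76) (nat_lit 0) (XT.lf (nat_lit 0) (nat_lit 2107702706) (nat_lit 380) (nat_lit 3920081222) (nat_lit 456) (nat_lit 779221895) (nat_lit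 124) (nat_lit 5) (nat_lit 129) (nat_lit 5) (nat_lit 130) (nat_lit 5) (nat_lit 270) (nat_lit 259) (nat_lit 251)) (XT.lf (nat_lit 0) (nat_lit 1797802648) (nat_lit 456) (nat_lit 774226642) (nat_lit 76) (nat_lit 4315995126) (nat_lit 123) (nat_lit 5) (nat_lit 129) (nat_lit 5) (nat_lit 124) (nat_lit 5) (nat_lit 271) (nat_lit 259) (nat_lit 250)))))) (XT.nd (nat_lit 390) (nat_lit 1976) (nat_lit 0) (XT.nd (nat_lit 156) (nat_lit 760) (nat_lit 0) (XT.nd (nat_lit 78) (nat_lit 532) (nat_lit 0) (XT.lf (nat_lit 0) (nat_lit 3331869107) (nat_lit 456) (nat_lit 1059953025) (nat_lit 532) (nat_lit 2585244796) (nat_lit 117) (nat_lit 5) (nat_lit 123) (nat_lit 5) (nat_lit 124) (nat_lit 5) (nat_lit 272) (nat_lit 259) (nat_lit 249)) (XT.lf (nat_lit 0) (nat_lit 492871829) (nat_lit 532) (nat_lit 6519521226) (nat_lit 608) (nat_lit 63638586) (nat_lit 110) (nat_lit 5) (nat_lit 117) (nat_lit 5) (nat_lit 118) (nat_lit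 5) (nat_lit 273) (nat_lit 259) (nat_lit 248))) (XT.nd (nat_lit 78) (nat_lit 684) (nat_lit 0) (XT.lf (nat_lit 0) (nat_lit 2451212078) (nat_lit 608) (nat_lit 2388624807) (nat_lit 76) (nat_lit 2340880536) (nat_lit 109) (nat_lit 5) (nat_lit 117) (nat_lit 5) (nat_lit 110) (nat_lit 5) (nat_lit 274) (nat_lit 259) (nat_lit 247)) (XT.nd (nat_lit 78) (nat_lit 76) (nat_lit 0) (XT.lf (nat_lit 0) (nat_lit 1965666979) (nat_lit 608) (nat_lit 3030639983) (nat_lit 684) (nat_lit 2299216383) (nat_lit 101) (nat_lit 5) (nat_lit 109) (nat_lit 5) (nat_lit 110) (nat_lit 5) (nat_lit 275) (nat_lit 259) (nat_lit 246)) (XT.lf (nat_lit 0) (nat_lit 163544388) (nat_lit 684) (nat_lit 912370373) (nat_lit 76) (nat_lit 6344250467) (nat_lit 100) (nat_lit 5) (nat_lit 109) (nat_lit 5) (nat_lit 101) (nat_lit 5) (nat_lit 276) (nat_lit 259) (nat_lit 245))))) (XT.nd (nat_lit 234) (nat_lit 760) (nat_lit 0) (XT.nd (nat_lit 78)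 (nat_lit 532) (nat_lit 0) (XT.lf (nat_lit 0) (nat_lit 2630572492) (nat_lit 760) (nat_lit 3871464817) (nat_lit 76) (nat_lit 1049430655) (nat_lit 91) (nat_lit 5) (nat_lit 101) (nat_lit 5) (nat_lit 92) (nat_lit 5) (nat_lit 277) (nat_lit 259) (nat_lit 244)) (XT.nd (nat_lit 78) (nat_lit 0) (nat_lit 0) (XT.lf (nat_lit 0) (nat_lit 737787678) (nat_lit 532) (nat_lit 4415711281) (nat_lit 608) (nat_lit 2539431689) (nat_lit 84) (nat_lit 5) (nat_lit 91) (nat_lit 5) (nat_lit 92) (nat_lit 5) (nat_lit 278) (nat_lit 259) (nat_lit 243)) (XT.lf (nat_lit 0) (nat_lit 5600692179) (nat_lit 532) (nat_lit 2158741918) (nat_lit 608) (nat_lit 84400831) (nat_lit 84) (nat_lit 5) (nat_lit 91) (nat_lit 5) (nat_lit 92) (nat_lit 5) (nat_lit 279) (nat_lit 259) (nat_lit 242)))) (XT.nd (nat_lit 78) (nat_lit 304) (nat_lit 0) (XT.lf (nat_lit 0) (nat_lit 2353927952) (nat_lit 456) (nat_lit 5367844957) (nat_lit 76) (nat_lit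 281739479) (nat_lit 78) (nat_lit 5) (nat_lit 84) (nat_lit 5) (nat_lit 79) (nat_lit 5) (nat_lit 280) (nat_lit 259) (nat_lit 241)) (XT.nd (nat_lit 78) (nat_lit 304) (nat_lit 0) (XT.lf (nat_lit 0) (nat_lit 4883165353) (nat_lit 456) (nat_lit 483404778) (nat_lit 76) (nat_lit 2806125749) (nat_lit 78) (nat_lit 5) (nat_lit 84) (nat_lit 5) (nat_lit 79) (nat_lit 5) (nat_lit 281) (nat_lit 259) (nat_lit 240)) (XT.lf (nat_lit 0) (nat_lit 4687643793) (nat_lit 304) (nat_lit 2827101340) (nat_lit 380) (nat_lit 836973455) (nat_lit 74) (nat_lit 5) (nat_lit 78) (nat_lit 5) (nat_lit 79) (nat_lit 5) (nat_lit 282) (nat_lit 259) (nat_lit 239))))))))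
noncomputable def xc103 : XT := (XT.nd (nat_lit 1638) (nat_lit 1368) (nat_lit 0) (XT.nd (nat_lit 780) (nat_lit 1292) (nat_lit 0) (XT.nd (nat_lit 390) (nat_lit 760) (nat_lit 0) (XT.nd (nat_lit 156) (nat_lit 684) (nat_lit 0) (XT.nd (nat_lit 78) (nat_lit 0) (nat_lit 0) (XT.lf (nat_lit 0) (nat_lit 1506443016) (nat_lit 304) (nat_lit 111942055) (nat_lit 380) (nat_lit 6923317963) (nat_lit 69) (nat_lit 5) (nat_lit 73) (nat_lit 5) (nat_lit 74) (nat_lit 5) (nat_lit 283) (nat_lit 259) (nat_lit 238)) (XT.lf (nat_lit 0) (nat_lit 4180854445) (nat_lit 380) (nat_lit 1844955919) (nat_lit 76) (nat_lit 2714217125) (nat_lit 69) (nat_lit 5) (nat_lit 74) (nat_lit 5) (nat_lit 70) (nat_lit 5) (nat_lit 284) (nat_lit 259) (nat_lit 237))) (XT.nd (nat_lit 78) (nat_lit 380) (nat_lit 0) (XT.lf (nat_lit 0) (nat_lit 3611902402) (nat_lit 304) (nat_lit 3228855251) (nat_lit 380) (nat_lit 2109188201) (nat_lit 65) (nat_lit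 5) (nat_lit 69) (nat_lit 5) (nat_lit 70) (nat_lit 5) (nat_lit 285) (nat_lit 259) (nat_lit 236)) (XT.nd (nat_lit 78) (nat_lit 0) (nat_lit 0) (XT.lf (nat_lit 0) (nat_lit 125072916) (nat_lit 304) (nat_lit 269235637) (nat_lit 380) (nat_lit 8778527755) (nat_lit 60) (nat_lit 5) (nat_lit 64) (nat_lit 5) (nat_lit 65) (nat_lit 5) (nat_lit 286) (nat_lit 259) (nat_lit 235)) (XT.lf (nat_lit 0) (nat_lit 3002625051) (nat_lit 380) (nat_lit 3546419167) (nat_lit 76) (nat_lit 2853695558) (nat_lit 60) (nat_lit 5) (nat_lit 65) (nat_lit 5) (nat_lit 61) (nat_lit 5) (nat_lit 287) (nat_lit 259) (nat_lit 234))))) (XT.nd (nat_lit 156) (nat_lit 532) (nat_lit 0) (XT.nd (nat_lit 78) (nat_lit 0) (nat_lit 0) (XT.lf (nat_lit 0) (nat_lit 2190582094) (nat_lit 228) (nat_lit 3507797981) (nat_lit 304) (nat_lit 3948025022) (nat_lit 57) (nat_lit 5) (nat_lit 60) (nat_lit 5) (nat_lit 61) (nat_lit 5) (nat_lit 288) (nat_lit 259)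 (nat_lit 233)) (XT.lf (nat_lit 0) (nat_lit 8234143603) (nat_lit 228) (nat_lit 275518214) (nat_lit 304) (nat_lit 1393667123) (nat_lit 57) (nat_lit 5) (nat_lit 60) (nat_lit 5) (nat_lit 61) (nat_lit 5) (nat_lit 289) (nat_lit 259) (nat_lit 232))) (XT.nd (nat_lit 78) (nat_lit 228) (nat_lit 0) (XT.lf (nat_lit 0) (nat_lit 1289177992) (nat_lit 304) (nat_lit 5795119415) (nat_lit 76) (nat_lit 3085797237) (nat_lit 53) (nat_lit 5) (nat_lit 57) (nat_lit 5) (nat_lit 54) (nat_lit 5) (nat_lit 290) (nat_lit 259) (nat_lit 231)) (XT.nd (nat_lit 78) (nat_lit 0) (nat_lit 0) (XT.lf (nat_lit 0) (nat_lit 206334170) (nat_lit 228) (nat_lit 3814300577) (nat_lit 304) (nat_lit 6430453174) (nat_lit 50) (nat_lit 5) (nat_lit 53) (nat_lit 5) (nat_lit 54) (nat_lit 5) (nat_lit 291) (nat_lit 259) (nat_lit 230)) (XT.lf (nat_lit 0) (nat_lit 6607762744) (nat_lit 228) (nat_lit 305878273) (nat_lit 304) (nat_lit 3831333323)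 (nat_lit 50) (nat_lit 5) (nat_lit 53) (nat_lit 5) (nat_lit 54) (nat_lit 5) (nat_lit 292) (nat_lit 259) (nat_lit 229)))))) (XT.nd (nat_lit 390) (nat_lit 608) (nat_lit 0) (XT.nd (nat_lit 156) (nat_lit 380) (nat_lit 0) (XT.nd (nat_lit 78) (nat_lit 76) (nat_lit 0) (XT.lf (nat_lit 0) (nat_lit 2193553990) (nat_lit 228) (nat_lit 7774630087) (nat_lit 304) (nat_lit 1084614594) (nat_lit 47) (nat_lit 5) (nat_lit 50) (nat_lit 5) (nat_lit 51) (nat_lit 5) (nat_lit 293) (nat_lit 259) (nat_lit 228)) (XT.lf (nat_lit 0) (nat_lit 1748582129) (nat_lit 304) (nat_lit 2522668058) (nat_lit 76) (nat_lit 7103102289) (nat_lit 46) (nat_lit 5) (nat_lit 50) (nat_lit 5) (nat_lit 47) (nat_lit 5) (nat_lit 294) (nat_lit 259) (nat_lit 227))) (XT.nd (nat_lit 78) (nat_lit 228) (nat_lit 0) (XT.lf (nat_lit 0) (nat_lit 4150176682) (nat_lit 152) (nat_lit 535423622) (nat_lit 228) (nat_lit 7025639996) (nat_lit 44) (nat_lit 5)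 (nat_lit 46) (nat_lit 5) (nat_lit 47) (nat_lit 5) (nat_lit 295) (nat_lit 259) (nat_lit 226)) (XT.nd (nat_lit 78) (nat_lit 228) (nat_lit 0) (XT.lf (nat_lit 0) (nat_lit 7800813134) (nat_lit 228) (nat_lit 969080689) (nat_lit 76) (nat_lit 3293583833) (nat_lit 44) (nat_lit 5) (nat_lit 47) (nat_lit 5) (nat_lit 45) (nat_lit 5) (nat_lit 296) (nat_lit 259) (nat_lit 225)) (XT.lf (nat_lit 0) (nat_lit 6044907960) (nat_lit 228) (nat_lit 5068164680) (nat_lit 304) (nat_lit 1318258821) (nat_lit 41) (nat_lit 5) (nat_lit 44) (nat_lit 5) (nat_lit 45) (nat_lit 5) (nat_lit 297) (nat_lit 259) (nat_lit 224))))) (XT.nd (nat_lit 234) (nat_lit 228) (nat_lit 0) (XT.nd (nat_lit 78) (nat_lit 152) (nat_lit 0) (XT.lf (nat_lit 0) (nat_lit 522350507) (nat_lit 152) (nat_lit 1157700513) (nat_lit 228) (nat_lit 11138032920) (nat_lit 38) (nat_lit 5) (nat_lit 40) (nat_lit 5) (nat_lit 41) (nat_lit 5) (nat_lit 298) (nat_lit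 259) (nat_lit 223)) (XT.nd (nat_lit 78) (nat_lit 152) (nat_lit 0) (XT.lf (nat_lit 0) (nat_lit 4879546661) (nat_lit 228) (nat_lit 5383854581) (nat_lit 76) (nat_lit 2954973145) (nat_lit 38) (nat_lit 5) (nat_lit 41) (nat_lit 5) (nat_lit 39) (nat_lit 5) (nat_lit 299) (nat_lit 259) (nat_lit 222)) (XT.lf (nat_lit 0) (nat_lit 1823518816) (nat_lit 152) (nat_lit 6405434045) (nat_lit 228) (nat_lit 5410286375) (nat_lit 36) (nat_lit 5) (nat_lit 38) (nat_lit 5) (nat_lit 39) (nat_lit 5) (nat_lit 300) (nat_lit 259) (nat_lit 221)))) (XT.nd (nat_lit 78) (nat_lit 228) (nat_lit 0) (XT.lf (nat_lit 0) (nat_lit 9490134769) (nat_lit 152) (nat_lit 2290723779) (nat_lit 228) (nat_lit 2298591296) (nat_lit 36) (nat_lit 5) (nat_lit 38) (nat_lit 5) (nat_lit 39) (nat_lit 5) (nat_lit 301) (nat_lit 259) (nat_lit 220)) (XT.nd (nat_lit 78) (nat_lit 0) (nat_lit 0) (XT.lf (nat_lit 0) (nat_lit 962233260) (nat_lit 228) (nat_lit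 11580164845) (nat_lit 76) (nat_lit 1997338193) (nat_lit 33) (nat_lit 5) (nat_lit 36) (nat_lit 5) (nat_lit 34) (nat_lit 5) (nat_lit 302) (nat_lit 259) (nat_lit 219)) (XT.lf (nat_lit 0) (nat_lit 4371786169) (nat_lit 228) (nat_lit 4136957342) (nat_lit 76) (nat_lit 6509309353) (nat_lit 33) (nat_lit 5) (nat_lit 36) (nat_lit 5) (nat_lit 34) (nat_lit 5) (nat_lit 303) (nat_lit 259) (nat_lit 218))))))) (XT.nd (nat_lit 780) (nat_lit 532) (nat_lit 0) (XT.nd (nat_lit 390) (nat_lit 304) (nat_lit 0) (XT.nd (nat_lit 156) (nat_lit 380) (nat_lit 0) (XT.nd (nat_lit 78) (nat_lit 0) (nat_lit 0) (XT.lf (nat_lit 0) (nat_lit 3714900516) (nat_lit 152) (nat_lit 4243854888) (nat_lit 228) (nat_lit 7561227323) (nat_lit 31) (nat_lit 5) (nat_lit 33) (nat_lit 5) (nat_lit 34) (nat_lit 5) (nat_lit 304) (nat_lit 259) (nat_lit 217)) (XT.lf (nat_lit 0) (nat_lit 11749558141) (nat_lit 228) (nat_lit 4028466247) (nat_lit 76)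 (nat_lit 267802732) (nat_lit 31) (nat_lit 5) (nat_lit 34) (nat_lit 5) (nat_lit 32) (nat_lit 4) (nat_lit 305) (nat_lit 259) (nat_lit 216))) (XT.nd (nat_lit 78) (nat_lit 228) (nat_lit 0) (XT.lf (nat_lit 0) (nat_lit 4120105831) (nat_lit 152) (nat_lit 11695709525) (nat_lit 228) (nat_lit 777892935) (nat_lit 29) (nat_lit 5) (nat_lit 31) (nat_lit 5) (nat_lit 32) (nat_lit 4) (nat_lit 306) (nat_lit 259) (nat_lit 215)) (XT.nd (nat_lit 78) (nat_lit 152) (nat_lit 0) (XT.lf (nat_lit 0) (nat_lit 2844680377) (nat_lit 228) (nat_lit 4475768023) (nat_lit 76) (nat_lit 9845213914) (nat_lit 28) (nat_lit 5) (nat_lit 31) (nat_lit 5) (nat_lit 29) (nat_lit 5) (nat_lit 307) (nat_lit 259) (nat_lit 214)) (XT.lf (nat_lit 0) (nat_lit 3960234372) (nat_lit 152) (nat_lit 2678387550) (nat_lit 228) (nat_lit 11126170197) (nat_lit 26) (nat_lit 5) (nat_lit 28) (nat_lit 5) (nat_lit 29) (nat_lit 5) (nat_lit 308) (nat_lit 259)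 (nat_lit 213))))) (XT.nd (nat_lit 156) (nat_lit 228) (nat_lit 0) (XT.nd (nat_lit 78) (nat_lit 76) (nat_lit 0) (XT.lf (nat_lit 0) (nat_lit 10688667973) (nat_lit 228) (nat_lit 5528476406) (nat_lit 76) (nat_lit 2173446797) (nat_lit 26) (nat_lit 5) (nat_lit 29) (nat_lit 5) (nat_lit 27) (nat_lit 4) (nat_lit 309) (nat_lit 259) (nat_lit 212)) (XT.lf (nat_lit 0) (nat_lit 3145521562) (nat_lit 76) (nat_lit 11845935351) (nat_lit 152) (nat_lit 4053742801) (nat_lit 25) (nat_lit 5) (nat_lit 26) (nat_lit 5) (nat_lit 27) (nat_lit 4) (nat_lit 310) (nat_lit 259) (nat_lit 211))) (XT.nd (nat_lit 78) (nat_lit 228) (nat_lit 0) (XT.lf (nat_lit 0) (nat_lit 12373671732) (nat_lit 76) (nat_lit 7187484153) (nat_lit 152) (nat_lit 168824318) (nat_lit 25) (nat_lit 5) (nat_lit 26) (nat_lit 5) (nat_lit 27) (nat_lit 4) (nat_lit 311) (nat_lit 259) (nat_lit 210)) (XT.nd (nat_lit 78) (nat_lit 0) (nat_lit 0) (XT.lf (nat_lit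 0) (nat_lit 1532789384) (nat_lit 152) (nat_lit 2235781674) (nat_lit 228) (nat_lit 16678234036) (nat_lit 22) (nat_lit 5) (nat_lit 24) (nat_lit 5) (nat_lit 25) (nat_lit 5) (nat_lit 312) (nat_lit 259) (nat_lit 209)) (XT.lf (nat_lit 0) (nat_lit 8029928017) (nat_lit 228) (nat_lit 10192474530) (nat_lit 76) (nat_lit 2970317992) (nat_lit 22) (nat_lit 5) (nat_lit 25) (nat_lit 5) (nat_lit 23) (nat_lit 4) (nat_lit 313) (nat_lit 259) (nat_lit 208)))))) (XT.nd (nat_lit 390) (nat_lit 228) (nat_lit 0) (XT.nd (nat_lit 156) (nat_lit 228) (nat_lit 0) (XT.nd (nat_lit 78) (nat_lit 76) (nat_lit 0) (XT.lf (nat_lit 0) (nat_lit 12502787651) (nat_lit 228) (nat_lit 1138070738) (nat_lit 76) (nat_lit 8335176353) (nat_lit 22) (nat_lit 5) (nat_lit 25) (nat_lit 5) (nat_lit 23) (nat_lit 4) (nat_lit 314) (nat_lit 259) (nat_lit 207)) (XT.lf (nat_lit 0) (nat_lit 8580283237) (nat_lit 76) (nat_lit 8716571838) (nat_lit 152)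 (nat_lit 5496804887) (nat_lit 21) (nat_lit 5) (nat_lit 22) (nat_lit 5) (nat_lit 23) (nat_lit 4) (nat_lit 315) (nat_lit 259) (nat_lit 206))) (XT.nd (nat_lit 78) (nat_lit 228) (nat_lit 0) (XT.lf (nat_lit 0) (nat_lit 18761695964) (nat_lit 76) (nat_lit 3552565665) (nat_lit 152) (nat_lit 1338745453) (nat_lit 21) (nat_lit 5) (nat_lit 22) (nat_lit 5) (nat_lit 23) (nat_lit 4) (nat_lit 316) (nat_lit 259) (nat_lit 205)) (XT.nd (nat_lit 78) (nat_lit 0) (nat_lit 0) (XT.lf (nat_lit 0) (nat_lit 3003876306) (nat_lit 228) (nat_lit 19634287682) (nat_lit 76) (nat_lit 1911137285) (nat_lit 18) (nat_lit 5) (nat_lit 21) (nat_lit 5) (nat_lit 19) (nat_lit 4) (nat_lit 317) (nat_lit 259) (nat_lit 204)) (XT.lf (nat_lit 0) (nat_lit 7626864875) (nat_lit 228) (nat_lit 10247234074) (nat_lit 76) (nat_lit 7609821947) (nat_lit 18) (nat_lit 5) (nat_lit 21) (nat_lit 5) (nat_lit 19) (nat_lit 4) (nat_lit 318) (nat_lit 259)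 (nat_lit 203))))) (XT.nd (nat_lit 234) (nat_lit 152) (nat_lit 0) (XT.nd (nat_lit 78) (nat_lit 76) (nat_lit 0) (XT.lf (nat_lit 0) (nat_lit 12448424651) (nat_lit 228) (nat_lit 448820303) (nat_lit 76) (nat_lit 13569673907) (nat_lit 18) (nat_lit 5) (nat_lit 21) (nat_lit 5) (nat_lit 19) (nat_lit 4) (nat_lit 319) (nat_lit 259) (nat_lit 202)) (XT.nd (nat_lit 78) (nat_lit 0) (nat_lit 0) (XT.lf (nat_lit 0) (nat_lit 10107795775) (nat_lit 76) (nat_lit 7530050782) (nat_lit 152) (nat_lit 9854898533) (nat_lit 17) (nat_lit 5) (nat_lit 18) (nat_lit 5) (nat_lit 19) (nat_lit 4) (nat_lit 320) (nat_lit 259) (nat_lit 201)) (XT.lf (nat_lit 0) (nat_lit 21153484538) (nat_lit 76) (nat_lit 1910458200) (nat_lit 152) (nat_lit 5507076469) (nat_lit 17) (nat_lit 5) (nat_lit 18) (nat_lit 5) (nat_lit 19) (nat_lit 4) (nat_lit 321) (nat_lit 259) (nat_lit 200)))) (XT.nd (nat_lit 78) (nat_lit 76) (nat_lit 0) (XT.lf (nat_lit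 0) (nat_lit 3030075209) (nat_lit 76) (nat_lit 25811567046) (nat_lit 76) (nat_lit 857565786) (nat_lit 16) (nat_lit 4) (nat_lit 17) (nat_lit 5) (nat_lit 17) (nat_lit 4) (nat_lit 322) (nat_lit 259) (nat_lit 199)) (XT.nd (nat_lit 78) (nat_lit 0) (nat_lit 0) (XT.lf (nat_lit 0) (nat_lit 4025403403) (nat_lit 152) (nat_lit 16769138112) (nat_lit 76) (nat_lit 10079648157) (nat_lit 15) (nat_lit 5) (nat_lit 17) (nat_lit 5) (nat_lit 16) (nat_lit 4) (nat_lit 323) (nat_lit 259) (nat_lit 198)) (XT.lf (nat_lit 0) (nat_lit 9095883788) (nat_lit 152) (nat_lit 6438666493) (nat_lit 76) (nat_lit 16574071819) (nat_lit 15) (nat_lit 5) (nat_lit 17) (nat_lit 5) (nat_lit 16) (nat_lit 4) (nat_lit 324) (nat_lit 259) (nat_lit 197))))))))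
noncomputable def xc104 : XT := (XT.nd (nat_lit 1560) (nat_lit 304) (nat_lit 0) (XT.nd (nat_lit 780) (nat_lit 228) (nat_lit 0) (XT.nd (nat_lit 390) (nat_lit 76) (nat_lit 0) (XT.nd (nat_lit 156) (nat_lit 152) (nat_lit 0) (XT.nd (nat_lit 78) (nat_lit 0) (nat_lit 0) (XT.lf (nat_lit 0) (nat_lit 4504437520) (nat_lit 76) (nat_lit 9959284774) (nat_lit 152) (nat_lit 18938875263) (nat_lit 14) (nat_lit 5) (nat_lit 15) (nat_lit 5) (nat_lit 16) (nat_lit 4) (nat_lit 325) (nat_lit 259) (nat_lit 196)) (XT.lf (nat_lit 0) (nat_lit 16170946561) (nat_lit 76) (nat_lit 4012078597) (nat_lit 152) (nat_lit 14574105495) (nat_lit 14) (nat_lit 5) (nat_lit 15) (nat_lit 5) (nat_lit 16) (nat_lit 4) (nat_lit 326) (nat_lit 259) (nat_lit 195))) (XT.nd (nat_lit 78) (nat_lit 152) (nat_lit 0) (XT.lf (nat_lit 0) (nat_lit 26198098740) (nat_lit 152) (nat_lit 7839430729) (nat_lit 0) (nat_lit 2141382550) (nat_lit 14) (nat_lit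 5) (nat_lit 16) (nat_lit 4) (nat_lit 14) (nat_lit 4) (nat_lit 327) (nat_lit 259) (nat_lit 194)) (XT.nd (nat_lit 78) (nat_lit 76) (nat_lit 0) (XT.lf (nat_lit 0) (nat_lit 3445385237) (nat_lit 76) (nat_lit 29164247690) (nat_lit 76) (nat_lit 5057375507) (nat_lit 13) (nat_lit 4) (nat_lit 14) (nat_lit 5) (nat_lit 14) (nat_lit 4) (nat_lit 328) (nat_lit 259) (nat_lit 193)) (XT.lf (nat_lit 0) (nat_lit 219795655) (nat_lit 152) (nat_lit 23704058703) (nat_lit 76) (nat_lit 15300020287) (nat_lit 12) (nat_lit 5) (nat_lit 14) (nat_lit 5) (nat_lit 13) (nat_lit 4) (nat_lit 329) (nat_lit 259) (nat_lit 192))))) (XT.nd (nat_lit 156) (nat_lit 76) (nat_lit 0) (XT.nd (nat_lit 78) (nat_lit 0) (nat_lit 0) (XT.lf (nat_lit 0) (nat_lit 5568209800) (nat_lit 152) (nat_lit 12785302670) (nat_lit 76) (nat_lit 22502068819) (nat_lit 12) (nat_lit 5) (nat_lit 14) (nat_lit 5) (nat_lit 13) (nat_lit 4) (nat_lit 330) (nat_lit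 259) (nat_lit 191)) (XT.lf (nat_lit 0) (nat_lit 11162468847) (nat_lit 152) (nat_lit 1360398258) (nat_lit 76) (nat_lit 30047094272) (nat_lit 12) (nat_lit 5) (nat_lit 14) (nat_lit 5) (nat_lit 13) (nat_lit 4) (nat_lit 331) (nat_lit 259) (nat_lit 190))) (XT.nd (nat_lit 78) (nat_lit 0) (nat_lit 0) (XT.lf (nat_lit 0) (nat_lit 10948269690) (nat_lit 76) (nat_lit 6238555941) (nat_lit 152) (nat_lit 27175724472) (nat_lit 11) (nat_lit 5) (nat_lit 12) (nat_lit 5) (nat_lit 13) (nat_lit 4) (nat_lit 332) (nat_lit 259) (nat_lit 189)) (XT.nd (nat_lit 78) (nat_lit 0) (nat_lit 0) (XT.lf (nat_lit 0) (nat_lit 23521017638) (nat_lit 152) (nat_lit 22368045229) (nat_lit 0) (nat_lit 355282982) (nat_lit 11) (nat_lit 5) (nat_lit 13) (nat_lit 4) (nat_lit 11) (nat_lit 4) (nat_lit 333) (nat_lit 259) (nat_lit 188)) (XT.lf (nat_lit 0) (nat_lit 30254743548) (nat_lit 152) (nat_lit 10907990707) (nat_lit 0) (nat_lit 7053363963)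 (nat_lit 11) (nat_lit 5) (nat_lit 13) (nat_lit 4) (nat_lit 11) (nat_lit 4) (nat_lit 334) (nat_lit 259) (nat_lit 187)))))) (XT.nd (nat_lit 390) (nat_lit 76) (nat_lit 0) (XT.nd (nat_lit 156) (nat_lit 76) (nat_lit 0) (XT.nd (nat_lit 78) (nat_lit 0) (nat_lit 0) (XT.lf (nat_lit 0) (nat_lit 1126629517) (nat_lit 76) (nat_lit 36197595025) (nat_lit 76) (nat_lit 12962267890) (nat_lit 10) (nat_lit 4) (nat_lit 11) (nat_lit 5) (nat_lit 11) (nat_lit 4) (nat_lit 335) (nat_lit 259) (nat_lit 186)) (XT.lf (nat_lit 0) (nat_lit 14107741748) (nat_lit 76) (nat_lit 30806000946) (nat_lit 76) (nat_lit 7538342809) (nat_lit 10) (nat_lit 4) (nat_lit 11) (nat_lit 5) (nat_lit 11) (nat_lit 4) (nat_lit 336) (nat_lit 259) (nat_lit 185))) (XT.nd (nat_lit 78) (nat_lit 76) (nat_lit 0) (XT.lf (nat_lit 0) (nat_lit 27705585959) (nat_lit 76) (nat_lit 25159846989) (nat_lit 76) (nat_lit 1861397423) (nat_lit 10) (nat_lit 4) (nat_lit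 11) (nat_lit 5) (nat_lit 11) (nat_lit 4) (nat_lit 337) (nat_lit 259) (nat_lit 184)) (XT.nd (nat_lit 78) (nat_lit 0) (nat_lit 0) (XT.lf (nat_lit 0) (nat_lit 3951432598) (nat_lit 152) (nat_lit 15227337910) (nat_lit 76) (nat_lit 37934185949) (nat_lit 9) (nat_lit 5) (nat_lit 11) (nat_lit 5) (nat_lit 10) (nat_lit 4) (nat_lit 338) (nat_lit 259) (nat_lit 183)) (XT.lf (nat_lit 0) (nat_lit 9976390499) (nat_lit 152) (nat_lit 2904102947) (nat_lit 76) (nat_lit 46737173596) (nat_lit 9) (nat_lit 5) (nat_lit 11) (nat_lit 5) (nat_lit 10) (nat_lit 4) (nat_lit 339) (nat_lit 259) (nat_lit 182))))) (XT.nd (nat_lit 156) (nat_lit 0) (nat_lit 0) (XT.nd (nat_lit 78) (nat_lit 0) (nat_lit 0) (XT.lf (nat_lit 0) (nat_lit 10337735231) (nat_lit 76) (nat_lit 6111063547) (nat_lit 152) (nat_lit 45791509974) (nat_lit 8) (nat_lit 5) (nat_lit 9) (nat_lit 5) (nat_lit 10) (nat_lit 4) (nat_lit 340) (nat_lit 259) (nat_lit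 181)) (XT.lf (nat_lit 0) (nat_lit 23295264132) (nat_lit 152) (nat_lit 40694023091) (nat_lit 0) (nat_lit 1002278941) (nat_lit 8) (nat_lit 5) (nat_lit 10) (nat_lit 4) (nat_lit 8) (nat_lit 4) (nat_lit 341) (nat_lit 259) (nat_lit 180))) (XT.nd (nat_lit 78) (nat_lit 0) (nat_lit 0) (XT.lf (nat_lit 0) (nat_lit 30569838476) (nat_lit 152) (nat_lit 29052387627) (nat_lit 0) (nat_lit 8253876246) (nat_lit 8) (nat_lit 5) (nat_lit 10) (nat_lit 4) (nat_lit 8) (nat_lit 4) (nat_lit 342) (nat_lit 259) (nat_lit 179)) (XT.nd (nat_lit 78) (nat_lit 0) (nat_lit 0) (XT.lf (nat_lit 0) (nat_lit 38194431397) (nat_lit 152) (nat_lit 16854538122) (nat_lit 0) (nat_lit 15856586273) (nat_lit 8) (nat_lit 5) (nat_lit 10) (nat_lit 4) (nat_lit 8) (nat_lit 4) (nat_lit 343) (nat_lit 259) (nat_lit 178)) (XT.lf (nat_lit 0) (nat_lit 46187196688) (nat_lit 152) (nat_lit 4071432078) (nat_lit 0) (nat_lit 23828510712) (nat_lit 8)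 (nat_lit 5) (nat_lit 10) (nat_lit 4) (nat_lit 8) (nat_lit 4) (nat_lit 344) (nat_lit 259) (nat_lit 177))))))) (XT.nd (nat_lit 780) (nat_lit 76) (nat_lit 0) (XT.nd (nat_lit 390) (nat_lit 76) (nat_lit 0) (XT.nd (nat_lit 156) (nat_lit 76) (nat_lit 0) (XT.nd (nat_lit 78) (nat_lit 0) (nat_lit 0) (XT.lf (nat_lit 0) (nat_lit 9635771331) (nat_lit 76) (nat_lit 45081834805) (nat_lit 76) (nat_lit 22703300400) (nat_lit 7) (nat_lit 4) (nat_lit 8) (nat_lit 5) (nat_lit 8) (nat_lit 4) (nat_lit 345) (nat_lit 259) (nat_lit 176)) (XT.lf (nat_lit 0) (nat_lit 24146601475) (nat_lit 76) (nat_lit 39584682508) (nat_lit 76) (nat_lit 17187244836) (nat_lit 7) (nat_lit 4) (nat_lit 8) (nat_lit 5) (nat_lit 8) (nat_lit 4) (nat_lit 346) (nat_lit 259) (nat_lit 175))) (XT.nd (nat_lit 78) (nat_lit 76) (nat_lit 0) (XT.lf (nat_lit 0) (nat_lit 39360988018) (nat_lit 76) (nat_lit 33823035089) (nat_lit 76) (nat_lit 11407594306)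 (nat_lit 7) (nat_lit 4) (nat_lit 8) (nat_lit 5) (nat_lit 8) (nat_lit 4) (nat_lit 347) (nat_lit 259) (nat_lit 174)) (XT.nd (nat_lit 78) (nat_lit 76) (nat_lit 0) (XT.lf (nat_lit 0) (nat_lit 55315155690) (nat_lit 76) (nat_lit 27783174340) (nat_lit 76) (nat_lit 5350587737) (nat_lit 7) (nat_lit 4) (nat_lit 8) (nat_lit 5) (nat_lit 8) (nat_lit 4) (nat_lit 348) (nat_lit 259) (nat_lit 173)) (XT.lf (nat_lit 0) (nat_lit 966247798) (nat_lit 152) (nat_lit 20468107968) (nat_lit 76) (nat_lit 71064478931) (nat_lit 6) (nat_lit 5) (nat_lit 8) (nat_lit 5) (nat_lit 7) (nat_lit 4) (nat_lit 349) (nat_lit 259) (nat_lit 172))))) (XT.nd (nat_lit 156) (nat_lit 0) (nat_lit 0) (XT.nd (nat_lit 78) (nat_lit 76) (nat_lit 0) (XT.lf (nat_lit 0) (nat_lit 7408902234) (nat_lit 152) (nat_lit 7276218137) (nat_lit 76) (nat_lit 82062255121) (nat_lit 6) (nat_lit 5) (nat_lit 8) (nat_lit 5) (nat_lit 7) (nat_lit 4) (nat_lit 350)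 (nat_lit 259) (nat_lit 171)) (XT.lf (nat_lit 0) (nat_lit 6773653560) (nat_lit 76) (nat_lit 7496069602) (nat_lit 152) (nat_lit 86933821664) (nat_lit 5) (nat_lit 5) (nat_lit 6) (nat_lit 5) (nat_lit 7) (nat_lit 4) (nat_lit 351) (nat_lit 259) (nat_lit 170))) (XT.nd (nat_lit 78) (nat_lit 0) (nat_lit 0) (XT.lf (nat_lit 0) (nat_lit 21589974482) (nat_lit 152) (nat_lit 84119028496) (nat_lit 0) (nat_lit 167703213) (nat_lit 5) (nat_lit 5) (nat_lit 7) (nat_lit 4) (nat_lit 5) (nat_lit 4) (nat_lit 352) (nat_lit 259) (nat_lit 169)) (XT.nd (nat_lit 78) (nat_lit 0) (nat_lit 0) (XT.lf (nat_lit 0) (nat_lit 29389909832) (nat_lit 152) (nat_lit 73433091022) (nat_lit 0) (nat_lit 7954844088) (nat_lit 5) (nat_lit 5) (nat_lit 7) (nat_lit 4) (nat_lit 5) (nat_lit 4) (nat_lit 353) (nat_lit 259) (nat_lit 168)) (XT.lf (nat_lit 0) (nat_lit 37571065832) (nat_lit 152) (nat_lit 62229601482) (nat_lit 0) (nat_lit 16123814874)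 (nat_lit 5) (nat_lit 5) (nat_lit 7) (nat_lit 4) (nat_lit 5) (nat_lit 4) (nat_lit 354) (nat_lit 259) (nat_lit 167)))))) (XT.nd (nat_lit 390) (nat_lit 0) (nat_lit 0) (XT.nd (nat_lit 156) (nat_lit 76) (nat_lit 0) (XT.nd (nat_lit 78) (nat_lit 0) (nat_lit 0) (XT.lf (nat_lit 0) (nat_lit 46152921425) (nat_lit 152) (nat_lit 50481884901) (nat_lit 0) (nat_lit 24694065501) (nat_lit 5) (nat_lit 5) (nat_lit 7) (nat_lit 4) (nat_lit 5) (nat_lit 4) (nat_lit 355) (nat_lit 259) (nat_lit 166)) (XT.lf (nat_lit 0) (nat_lit 55155909601) (nat_lit 152) (nat_lit 38161970525) (nat_lit 0) (nat_lit 33686001329) (nat_lit 5) (nat_lit 5) (nat_lit 7) (nat_lit 4) (nat_lit 5) (nat_lit 4) (nat_lit 356) (nat_lit 259) (nat_lit 165))) (XT.nd (nat_lit 78) (nat_lit 76) (nat_lit 0) (XT.lf (nat_lit 0) (nat_lit 64601466045) (nat_lit 152) (nat_lit 25240525225) (nat_lit 0) (nat_lit 43121031727) (nat_lit 5) (nat_lit 5) (nat_lit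 7) (nat_lit 4) (nat_lit 5) (nat_lit 4) (nat_lit 357) (nat_lit 259) (nat_lit 164)) (XT.nd (nat_lit 78) (nat_lit 76) (nat_lit 0) (XT.lf (nat_lit 0) (nat_lit 74512080179) (nat_lit 152) (nat_lit 11686783654) (nat_lit 0) (nat_lit 53021621055) (nat_lit 5) (nat_lit 5) (nat_lit 7) (nat_lit 4) (nat_lit 5) (nat_lit 4) (nat_lit 358) (nat_lit 259) (nat_lit 163)) (XT.lf (nat_lit 0) (nat_lit 2615228649) (nat_lit 76) (nat_lit 82336951101) (nat_lit 76) (nat_lit 60836944542) (nat_lit 4) (nat_lit 4) (nat_lit 5) (nat_lit 5) (nat_lit 5) (nat_lit 4) (nat_lit 359) (nat_lit 259) (nat_lit 162))))) (XT.nd (nat_lit 234) (nat_lit 0) (nat_lit 0) (XT.nd (nat_lit 78) (nat_lit 0) (nat_lit 0) (XT.lf (nat_lit 0) (nat_lit 18025171924) (nat_lit 76) (nat_lit 78080283301) (nat_lit 76) (nat_lit 56571183948) (nat_lit 4) (nat_lit 4) (nat_lit 5) (nat_lit 5) (nat_lit 5) (nat_lit 4) (nat_lit 360) (nat_lit 259) (nat_lit 161))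 (XT.nd (nat_lit 78) (nat_lit 0) (nat_lit 0) (XT.lf (nat_lit 0) (nat_lit 34193318666) (nat_lit 76) (nat_lit 73616646847) (nat_lit 76) (nat_lit 52098887690) (nat_lit 4) (nat_lit 4) (nat_lit 5) (nat_lit 5) (nat_lit 5) (nat_lit 4) (nat_lit 361) (nat_lit 259) (nat_lit 160)) (XT.lf (nat_lit 0) (nat_lit 51158164463) (nat_lit 76) (nat_lit 68935414033) (nat_lit 76) (nat_lit 47409407443) (nat_lit 4) (nat_lit 4) (nat_lit 5) (nat_lit 5) (nat_lit 5) (nat_lit 4) (nat_lit 362) (nat_lit 259) (nat_lit 159)))) (XT.nd (nat_lit 78) (nat_lit 0) (nat_lit 0) (XT.lf (nat_lit 0) (nat_lit 68960101803) (nat_lit 76) (nat_lit 64025439066) (nat_lit 76) (nat_lit 42491577778) (nat_lit 4) (nat_lit 4) (nat_lit 5) (nat_lit 5) (nat_lit 5) (nat_lit 4) (nat_lit 363) (nat_lit 259) (nat_lit 158)) (XT.nd (nat_lit 78) (nat_lit 0) (nat_lit 0) (XT.lf (nat_lit 0) (nat_lit 87641516252) (nat_lit 76) (nat_lit 58875031529) (nat_lit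 76) (nat_lit 37333689577) (nat_lit 4) (nat_lit 4) (nat_lit 5) (nat_lit 5) (nat_lit 5) (nat_lit 4) (nat_lit 364) (nat_lit 259) (nat_lit 157)) (XT.lf (nat_lit 0) (nat_lit 107246887368) (nat_lit 76) (nat_lit 53471928549) (nat_lit 76) (nat_lit 31923462154) (nat_lit 4) (nat_lit 4) (nat_lit 5) (nat_lit 5) (nat_lit 5) (nat_lit 4) (nat_lit 365) (nat_lit 259) (nat_lit 156))))))))
noncomputable def xc105 : XT := (XT.nd (nat_lit 1638) (nat_lit 0) (nat_lit 0) (XT.nd (nat_lit 780) (nat_lit 0) (nat_lit 0) (XT.nd (nat_lit 390) (nat_lit 152) (nat_lit 0) (XT.nd (nat_lit 156) (nat_lit 0) (nat_lit 0) (XT.nd (nat_lit 78) (nat_lit 0) (nat_lit 0) (XT.lf (nat_lit 0) (nat_lit 127822894607) (nat_lit 76) (nat_lit 47803265593) (nat_lit 76) (nat_lit 26248014015) (nat_lit 4) (nat_lit 4) (nat_lit 5) (nat_lit 5) (nat_lit 5) (nat_lit 4) (nat_lit 366) (nat_lit 259) (nat_lit 155)) (XT.lf (nat_lit 0) (nat_lit 149418528462)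 (nat_lit 76) (nat_lit 41855545845) (nat_lit 76) (nat_lit 20293832188) (nat_lit 4) (nat_lit 4) (nat_lit 5) (nat_lit 5) (nat_lit 5) (nat_lit 4) (nat_lit 367) (nat_lit 259) (nat_lit 154))) (XT.nd (nat_lit 78) (nat_lit 0) (nat_lit 0) (XT.lf (nat_lit 0) (nat_lit 172085207108) (nat_lit 76) (nat_lit 35614608068) (nat_lit 76) (nat_lit 14046740050) (nat_lit 4) (nat_lit 4) (nat_lit 5) (nat_lit 5) (nat_lit 5) (nat_lit 4) (nat_lit 368) (nat_lit 259) (nat_lit 153)) (XT.nd (nat_lit 78) (nat_lit 0) (nat_lit 0) (XT.lf (nat_lit 0) (nat_lit 195876898828) (nat_lit 76) (nat_lit 29065592886) (nat_lit 76) (nat_lit 7491863571) (nat_lit 4) (nat_lit 4) (nat_lit 5) (nat_lit 5) (nat_lit 5) (nat_lit 4) (nat_lit 369) (nat_lit 259) (nat_lit 152)) (XT.lf (nat_lit 0) (nat_lit 220850250508) (nat_lit 76) (nat_lit 22192907405) (nat_lit 76) (nat_lit 613595904) (nat_lit 4) (nat_lit 4) (nat_lit 5) (nat_lit 5) (nat_lit 5)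 (nat_lit 4) (nat_lit 370) (nat_lit 259) (nat_lit 151))))) (XT.nd (nat_lit 156) (nat_lit 0) (nat_lit 0) (XT.nd (nat_lit 78) (nat_lit 76) (nat_lit 0) (XT.lf (nat_lit 0) (nat_lit 6393056461) (nat_lit 152) (nat_lit 8478862124) (nat_lit 76) (nat_lit 240563396542) (nat_lit 3) (nat_lit 5) (nat_lit 5) (nat_lit 5) (nat_lit 4) (nat_lit 4) (nat_lit 371) (nat_lit 259) (nat_lit 150)) (XT.lf (nat_lit 0) (nat_lit 6764286256) (nat_lit 76) (nat_lit 7066922199) (nat_lit 152) (nat_lit 253966004795) (nat_lit 2) (nat_lit 5) (nat_lit 3) (nat_lit 5) (nat_lit 4) (nat_lit 4) (nat_lit 372) (nat_lit 259) (nat_lit 149))) (XT.nd (nat_lit 78) (nat_lit 0) (nat_lit 0) (XT.lf (nat_lit 0) (nat_lit 21801026188) (nat_lit 152) (nat_lit 257733370064) (nat_lit 0) (nat_lit 1234823158) (nat_lit 2) (nat_lit 5) (nat_lit 4) (nat_lit 4) (nat_lit 2) (nat_lit 4) (nat_lit 373) (nat_lit 259) (nat_lit 148)) (XT.nd (nat_lit 78) (nat_lit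 0) (nat_lit 0) (XT.lf (nat_lit 0) (nat_lit 30281561429) (nat_lit 152) (nat_lit 254391669496) (nat_lit 0) (nat_lit 9710984610) (nat_lit 2) (nat_lit 5) (nat_lit 4) (nat_lit 4) (nat_lit 2) (nat_lit 4) (nat_lit 374) (nat_lit 259) (nat_lit 147)) (XT.lf (nat_lit 0) (nat_lit 39182671469) (nat_lit 152) (nat_lit 250889534399) (nat_lit 0) (nat_lit 18607929136) (nat_lit 2) (nat_lit 5) (nat_lit 4) (nat_lit 4) (nat_lit 2) (nat_lit 4) (nat_lit 375) (nat_lit 259) (nat_lit 146)))))) (XT.nd (nat_lit 390) (nat_lit 0) (nat_lit 0) (XT.nd (nat_lit 156) (nat_lit 0) (nat_lit 0) (XT.nd (nat_lit 78) (nat_lit 0) (nat_lit 0) (XT.lf (nat_lit 0) (nat_lit 48525549428) (nat_lit 152) (nat_lit 247218626355) (nat_lit 0) (nat_lit 27946839939) (nat_lit 2) (nat_lit 5) (nat_lit 4) (nat_lit 4) (nat_lit 2) (nat_lit 4) (nat_lit 376) (nat_lit 259) (nat_lit 145)) (XT.lf (nat_lit 0) (nat_lit 58332440253) (nat_lit 152) (nat_lit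 243370205109) (nat_lit 0) (nat_lit 37749952520) (nat_lit 2) (nat_lit 5) (nat_lit 4) (nat_lit 4) (nat_lit 2) (nat_lit 4) (nat_lit 377) (nat_lit 259) (nat_lit 144))) (XT.nd (nat_lit 78) (nat_lit 0) (nat_lit 0) (XT.lf (nat_lit 0) (nat_lit 68626693684) (nat_lit 152) (nat_lit 239335107751) (nat_lit 0) (nat_lit 48040607623) (nat_lit 2) (nat_lit 5) (nat_lit 4) (nat_lit 4) (nat_lit 2) (nat_lit 4) (nat_lit 378) (nat_lit 259) (nat_lit 143)) (XT.nd (nat_lit 78) (nat_lit 0) (nat_lit 0) (XT.lf (nat_lit 0) (nat_lit 79432819848) (nat_lit 152) (nat_lit 235103726908) (nat_lit 0) (nat_lit 58843306808) (nat_lit 2) (nat_lit 5) (nat_lit 4) (nat_lit 4) (nat_lit 2) (nat_lit 4) (nat_lit 379) (nat_lit 259) (nat_lit 142)) (XT.lf (nat_lit 0) (nat_lit 90776547616) (nat_lit 152) (nat_lit 230665987863) (nat_lit 0) (nat_lit 70183770788) (nat_lit 2) (nat_lit 5) (nat_lit 4) (nat_lit 4) (nat_lit 2) (nat_lit 4) (nat_lit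 380) (nat_lit 259) (nat_lit 141))))) (XT.nd (nat_lit 234) (nat_lit 0) (nat_lit 0) (XT.nd (nat_lit 78) (nat_lit 0) (nat_lit 0) (XT.lf (nat_lit 0) (nat_lit 102684885866) (nat_lit 152) (nat_lit 226011324571) (nat_lit 0) (nat_lit 82089000667) (nat_lit 2) (nat_lit 5) (nat_lit 4) (nat_lit 4) (nat_lit 2) (nat_lit 4) (nat_lit 381) (nat_lit 259) (nat_lit 140)) (XT.nd (nat_lit 78) (nat_lit 0) (nat_lit 0) (XT.lf (nat_lit 0) (nat_lit 115186187782) (nat_lit 152) (nat_lit 221128654500) (nat_lit 0) (nat_lit 94587342230) (nat_lit 2) (nat_lit 5) (nat_lit 4) (nat_lit 4) (nat_lit 2) (nat_lit 4) (nat_lit 382) (nat_lit 259) (nat_lit 139)) (XT.lf (nat_lit 0) (nat_lit 128310218370) (nat_lit 152) (nat_lit 216006352245) (nat_lit 0) (nat_lit 107708553434) (nat_lit 2) (nat_lit 5) (nat_lit 4) (nat_lit 4) (nat_lit 2) (nat_lit 4) (nat_lit 383) (nat_lit 259) (nat_lit 138)))) (XT.nd (nat_lit 78) (nat_lit 0) (nat_lit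 0) (XT.lf (nat_lit 0) (nat_lit 142088225321) (nat_lit 152) (nat_lit 210632221849) (nat_lit 0) (nat_lit 121483875258) (nat_lit 2) (nat_lit 5) (nat_lit 4) (nat_lit 4) (nat_lit 2) (nat_lit 4) (nat_lit 384) (nat_lit 259) (nat_lit 137)) (XT.nd (nat_lit 78) (nat_lit 0) (nat_lit 0) (XT.lf (nat_lit 0) (nat_lit 156553013415) (nat_lit 152) (nat_lit 204993467763) (nat_lit 0) (nat_lit 135946106087) (nat_lit 2) (nat_lit 5) (nat_lit 4) (nat_lit 4) (nat_lit 2) (nat_lit 4) (nat_lit 385) (nat_lit 259) (nat_lit 136)) (XT.lf (nat_lit 0) (nat_lit 171739022621) (nat_lit 152) (nat_lit 199076664381) (nat_lit 0) (nat_lit 151129679804) (nat_lit 2) (nat_lit 5) (nat_lit 4) (nat_lit 4) (nat_lit 2) (nat_lit 4) (nat_lit 386) (nat_lit 259) (nat_lit 135))))))) (XT.nd (nat_lit 31278) (nat_lit 0) (nat_lit 6764) (XT.nd (nat_lit 30888) (nat_lit 0) (nat_lit 10032) (XT.nd (nat_lit 156) (nat_lit 0) (nat_lit 0) (XT.nd (nat_lit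 78) (nat_lit 0) (nat_lit 0) (XT.lf (nat_lit 0) (nat_lit 187682410106) (nat_lit 152) (nat_lit 192867724077) (nat_lit 0) (nat_lit 167070747775) (nat_lit 2) (nat_lit 5) (nat_lit 4) (nat_lit 4) (nat_lit 2) (nat_lit 4) (nat_lit 387) (nat_lit 259) (nat_lit 134)) (XT.lf (nat_lit 0) (nat_lit 204421136315) (nat_lit 152) (nat_lit 186351863660) (nat_lit 0) (nat_lit 183807264923) (nat_lit 2) (nat_lit 5) (nat_lit 4) (nat_lit 4) (nat_lit 2) (nat_lit 4) (nat_lit 388) (nat_lit 259) (nat_lit 133))) (XT.nd (nat_lit 30576) (nat_lit 0) (nat_lit 10640) (XT.lf (nat_lit 0) (nat_lit 221995055360) (nat_lit 152) (nat_lit 179513569176) (nat_lit 0) (nat_lit 201379080100) (nat_lit 2) (nat_lit 5) (nat_lit 4) (nat_lit 4) (nat_lit 2) (nat_lit 4) (nat_lit 389) (nat_lit 259) (nat_lit 132)) (XT.nd (nat_lit 78) (nat_lit 76) (nat_lit 0) (XT.lf (nat_lit 0) (nat_lit 1073741823) (nat_lit 0) (nat_lit 0) (nat_lit 0) (nat_lit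 0) (nat_lit 143) (nat_lit 0) (nat_lit 1) (nat_lit 0) (nat_lit 1) (nat_lit 0) (nat_lit 260) (nat_lit 260) (nat_lit 260)) (XT.lf (nat_lit 0) (nat_lit 2974335261) (nat_lit 76) (nat_lit 3374084229) (nat_lit 0) (nat_lit 96707173) (nat_lit 142) (nat_lit 5) (nat_lit 143) (nat_lit 0) (nat_lit 142) (nat_lit 4) (nat_lit 261) (nat_lit 260) (nat_lit 259))))) (XT.nd (nat_lit 156) (nat_lit 456) (nat_lit 0) (XT.nd (nat_lit 78) (nat_lit 152) (nat_lit 0) (XT.lf (nat_lit 0) (nat_lit 5908578043) (nat_lit 76) (nat_lit 259065738) (nat_lit 0) (nat_lit 290351775) (nat_lit 142) (nat_lit 5) (nat_lit 143) (nat_lit 0) (nat_lit 142) (nat_lit 4) (nat_lit 262) (nat_lit 260) (nat_lit 258)) (XT.lf (nat_lit 0) (nat_lit 2301801054) (nat_lit 152) (nat_lit 3509627610) (nat_lit 76) (nat_lit 665456514) (nat_lit 140) (nat_lit 5) (nat_lit 142) (nat_lit 5) (nat_lit 141) (nat_lit 4) (nat_lit 263) (nat_lit 260) (nat_lit 257)))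 (XT.nd (nat_lit 78) (nat_lit 456) (nat_lit 0) (XT.lf (nat_lit 0) (nat_lit 5105381869) (nat_lit 152) (nat_lit 248090276) (nat_lit 76) (nat_lit 1151918175) (nat_lit 140) (nat_lit 5) (nat_lit 142) (nat_lit 5) (nat_lit 141) (nat_lit 4) (nat_lit 264) (nat_lit 260) (nat_lit 256)) (XT.nd (nat_lit 78) (nat_lit 228) (nat_lit 0) (XT.lf (nat_lit 0) (nat_lit 1344734630) (nat_lit 228) (nat_lit 3386561869) (nat_lit 76) (nat_lit 1809359146) (nat_lit 137) (nat_lit 5) (nat_lit 140) (nat_lit 5) (nat_lit 138) (nat_lit 5) (nat_lit 265) (nat_lit 260) (nat_lit 255)) (XT.lf (nat_lit 0) (nat_lit 29859855) (nat_lit 228) (nat_lit 3990057567) (nat_lit 304) (nat_lit 2565068515) (nat_lit 134) (nat_lit 5) (nat_lit 137) (nat_lit 5) (nat_lit 138) (nat_lit 5) (nat_lit 266) (nat_lit 260) (nat_lit 254)))))) (XT.nd (nat_lit 390) (nat_lit 2432) (nat_lit 0) (XT.nd (nat_lit 156) (nat_lit 456) (nat_lit 0) (XT.nd (nat_lit 78)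 (nat_lit 304) (nat_lit 0) (XT.lf (nat_lit 0) (nat_lit 88009634) (nat_lit 304) (nat_lit 3007660476) (nat_lit 76) (nat_lit 3541277570) (nat_lit 133) (nat_lit 5) (nat_lit 137) (nat_lit 5) (nat_lit 134) (nat_lit 5) (nat_lit 267) (nat_lit 260) (nat_lit 253)) (XT.lf (nat_lit 0) (nat_lit 589568656) (nat_lit 304) (nat_lit 2053560856) (nat_lit 380) (nat_lit 4053894899) (nat_lit 129) (nat_lit 5) (nat_lit 133) (nat_lit 5) (nat_lit 134) (nat_lit 5) (nat_lit 268) (nat_lit 260) (nat_lit 252))) (XT.nd (nat_lit 78) (nat_lit 456) (nat_lit 0) (XT.lf (nat_lit 0) (nat_lit 4368333439) (nat_lit 304) (nat_lit 860705063) (nat_lit 380) (nat_lit 1536294784) (nat_lit 129) (nat_lit 5) (nat_lit 133) (nat_lit 5) (nat_lit 134) (nat_lit 5) (nat_lit 269) (nat_lit 260) (nat_lit 251)) (XT.nd (nat_lit 78) (nat_lit 0) (nat_lit 0) (XT.lf (nat_lit 0) (nat_lit 957865317) (nat_lit 456) (nat_lit 5425662586) (nat_lit 76) (nat_lit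 458704190) (nat_lit 123) (nat_lit 5) (nat_lit 129) (nat_lit 5) (nat_lit 124) (nat_lit 5) (nat_lit 270) (nat_lit 260) (nat_lit 250)) (XT.lf (nat_lit 0) (nat_lit 3442784461) (nat_lit 456) (nat_lit 1565971967) (nat_lit 76) (nat_lit 1917404349) (nat_lit 123) (nat_lit 5) (nat_lit 129) (nat_lit 5) (nat_lit 124) (nat_lit 5) (nat_lit 271) (nat_lit 260) (nat_lit 249))))) (XT.nd (nat_lit 234) (nat_lit 1368) (nat_lit 0) (XT.nd (nat_lit 78) (nat_lit 608) (nat_lit 0) (XT.lf (nat_lit 0) (nat_lit 2461583475) (nat_lit 456) (nat_lit 3497665794) (nat_lit 532) (nat_lit 1059984239) (nat_lit 117) (nat_lit 5) (nat_lit 123) (nat_lit 5) (nat_lit 124) (nat_lit 5) (nat_lit 272) (nat_lit 260) (nat_lit 248)) (XT.nd (nat_lit 78) (nat_lit 532) (nat_lit 0) (XT.lf (nat_lit 0) (nat_lit 1335171051) (nat_lit 532) (nat_lit 501136943) (nat_lit 76) (nat_lit 5284871031) (nat_lit 116) (nat_lit 5) (nat_lit 123) (nat_lit 5)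 (nat_lit 117) (nat_lit 5) (nat_lit 273) (nat_lit 260) (nat_lit 247)) (XT.lf (nat_lit 0) (nat_lit 3750587800) (nat_lit 608) (nat_lit 3471502374) (nat_lit 76) (nat_lit 8726532) (nat_lit 109) (nat_lit 5) (nat_lit 117) (nat_lit 5) (nat_lit 110) (nat_lit 5) (nat_lit 274) (nat_lit 260) (nat_lit 246)))) (XT.nd (nat_lit 78) (nat_lit 760) (nat_lit 0) (XT.lf (nat_lit 0) (nat_lit 793308269) (nat_lit 608) (nat_lit 5426440313) (nat_lit 684) (nat_lit 1129796203) (nat_lit 101) (nat_lit 5) (nat_lit 109) (nat_lit 5) (nat_lit 110) (nat_lit 5) (nat_lit 275) (nat_lit 260) (nat_lit 245)) (XT.nd (nat_lit 78) (nat_lit 684) (nat_lit 0) (XT.lf (nat_lit 0) (nat_lit 1238823184) (nat_lit 684) (nat_lit 2210117718) (nat_lit 76) (nat_lit 4027282290) (nat_lit 100) (nat_lit 5) (nat_lit 109) (nat_lit 5) (nat_lit 101) (nat_lit 5) (nat_lit 276) (nat_lit 260) (nat_lit 244)) (XT.lf (nat_lit 0) (nat_lit 2304866363) (nat_lit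 684) (nat_lit 1308299372) (nat_lit 760) (nat_lit 3999102842) (nat_lit 91) (nat_lit 5) (nat_lit 100) (nat_lit 5) (nat_lit 101) (nat_lit 5) (nat_lit 277) (nat_lit 260) (nat_lit 243))))))))
noncomputable def xc106 : XT := (XT.nd (nat_lit 1560) (nat_lit 1748) (nat_lit 0) (XT.nd (nat_lit 780) (nat_lit 1444) (nat_lit 0) (XT.nd (nat_lit 390) (nat_lit 1064) (nat_lit 0) (XT.nd (nat_lit 156) (nat_lit 684) (nat_lit 0) (XT.nd (nat_lit 78) (nat_lit 608) (nat_lit 0) (XT.lf (nat_lit 0) (nat_lit 6051968347) (nat_lit 760) (nat_lit 753854106) (nat_lit 76) (nat_lit 952218209) (nat_lit 91) (nat_lit 5) (nat_lit 101) (nat_lit 5) (nat_lit 92) (nat_lit 5) (nat_lit 278) (nat_lit 260) (nat_lit 242)) (XT.lf (nat_lit 0) (nat_lit 661205185) (nat_lit 608) (nat_lit 3890385997) (nat_lit 76) (nat_lit 3360051807) (nat_lit 83) (nat_lit 5) (nat_lit 91) (nat_lit 5) (nat_lit 84) (nat_lit 5) (nat_lit 279) (nat_lit 260) (nat_lit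 241))) (XT.nd (nat_lit 78) (nat_lit 304) (nat_lit 0) (XT.lf (nat_lit 0) (nat_lit 884767626) (nat_lit 380) (nat_lit 2131134864) (nat_lit 456) (nat_lit 5059487734) (nat_lit 78) (nat_lit 5) (nat_lit 83) (nat_lit 5) (nat_lit 84) (nat_lit 5) (nat_lit 280) (nat_lit 260) (nat_lit 240)) (XT.nd (nat_lit 78) (nat_lit 304) (nat_lit 0) (XT.lf (nat_lit 0) (nat_lit 5464400198) (nat_lit 456) (nat_lit 2325420404) (nat_lit 76) (nat_lit 458875010) (nat_lit 78) (nat_lit 5) (nat_lit 84) (nat_lit 5) (nat_lit 79) (nat_lit 5) (nat_lit 281) (nat_lit 260) (nat_lit 239)) (XT.lf (nat_lit 0) (nat_lit 2733058791) (nat_lit 304) (nat_lit 5287198249) (nat_lit 380) (nat_lit 411328292) (nat_lit 74) (nat_lit 5) (nat_lit 78) (nat_lit 5) (nat_lit 79) (nat_lit 5) (nat_lit 282) (nat_lit 260) (nat_lit 238))))) (XT.nd (nat_lit 156) (nat_lit 684) (nat_lit 0) (XT.nd (nat_lit 78) (nat_lit 304) (nat_lit 0) (XT.lf (nat_lit 0) (nat_lit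 1962272279) (nat_lit 380) (nat_lit 633622176) (nat_lit 76) (nat_lit 6028823131) (nat_lit 73) (nat_lit 5) (nat_lit 78) (nat_lit 5) (nat_lit 74) (nat_lit 5) (nat_lit 283) (nat_lit 260) (nat_lit 237)) (XT.lf (nat_lit 0) (nat_lit 4432198960) (nat_lit 380) (nat_lit 4102611138) (nat_lit 76) (nat_lit 292928933) (nat_lit 69) (nat_lit 5) (nat_lit 74) (nat_lit 5) (nat_lit 70) (nat_lit 5) (nat_lit 284) (nat_lit 260) (nat_lit 236))) (XT.nd (nat_lit 78) (nat_lit 380) (nat_lit 0) (XT.lf (nat_lit 0) (nat_lit 1228375560) (nat_lit 304) (nat_lit 5785204517) (nat_lit 380) (nat_lit 2028069953) (nat_lit 65) (nat_lit 5) (nat_lit 69) (nat_lit 5) (nat_lit 70) (nat_lit 5) (nat_lit 285) (nat_lit 260) (nat_lit 235)) (XT.nd (nat_lit 78) (nat_lit 304) (nat_lit 0) (XT.lf (nat_lit 0) (nat_lit 430055871) (nat_lit 380) (nat_lit 2405621938) (nat_lit 76) (nat_lit 6430998427) (nat_lit 64) (nat_lit 5) (nat_lit 69) (nat_lit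 5) (nat_lit 65) (nat_lit 5) (nat_lit 286) (nat_lit 260) (nat_lit 234)) (XT.lf (nat_lit 0) (nat_lit 2919065553) (nat_lit 380) (nat_lit 6263001844) (nat_lit 76) (nat_lit 320535118) (nat_lit 60) (nat_lit 5) (nat_lit 65) (nat_lit 5) (nat_lit 61) (nat_lit 5) (nat_lit 287) (nat_lit 260) (nat_lit 233)))))) (XT.nd (nat_lit 390) (nat_lit 684) (nat_lit 0) (XT.nd (nat_lit 156) (nat_lit 532) (nat_lit 0) (XT.nd (nat_lit 78) (nat_lit 228) (nat_lit 0) (XT.lf (nat_lit 0) (nat_lit 5542713704) (nat_lit 380) (nat_lit 644943916) (nat_lit 76) (nat_lit 3562270294) (nat_lit 60) (nat_lit 5) (nat_lit 65) (nat_lit 5) (nat_lit 61) (nat_lit 5) (nat_lit 288) (nat_lit 260) (nat_lit 232)) (XT.lf (nat_lit 0) (nat_lit 5329249405) (nat_lit 228) (nat_lit 2977492915) (nat_lit 304) (nat_lit 1702524221) (nat_lit 57) (nat_lit 5) (nat_lit 60) (nat_lit 5) (nat_lit 61) (nat_lit 5) (nat_lit 289) (nat_lit 260) (nat_lit 231)))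 (XT.nd (nat_lit 78) (nat_lit 228) (nat_lit 0) (XT.lf (nat_lit 0) (nat_lit 861997448) (nat_lit 304) (nat_lit 9016285307) (nat_lit 76) (nat_lit 404448317) (nat_lit 53) (nat_lit 5) (nat_lit 57) (nat_lit 5) (nat_lit 54) (nat_lit 5) (nat_lit 290) (nat_lit 260) (nat_lit 230)) (XT.nd (nat_lit 78) (nat_lit 228) (nat_lit 0) (XT.lf (nat_lit 0) (nat_lit 3555313219) (nat_lit 304) (nat_lit 3069264582) (nat_lit 76) (nat_lit 3941098627) (nat_lit 53) (nat_lit 5) (nat_lit 57) (nat_lit 5) (nat_lit 54) (nat_lit 5) (nat_lit 291) (nat_lit 260) (nat_lit 229)) (XT.lf (nat_lit 0) (nat_lit 3183622797) (nat_lit 228) (nat_lit 3181201030) (nat_lit 304) (nat_lit 4498956688) (nat_lit 50) (nat_lit 5) (nat_lit 53) (nat_lit 5) (nat_lit 54) (nat_lit 5) (nat_lit 292) (nat_lit 260) (nat_lit 228))))) (XT.nd (nat_lit 156) (nat_lit 380) (nat_lit 0) (XT.nd (nat_lit 78) (nat_lit 304) (nat_lit 0) (XT.lf (nat_lit 0) (nat_lit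 9307660478) (nat_lit 304) (nat_lit 1420989524) (nat_lit 76) (nat_lit 448581008) (nat_lit 50) (nat_lit 5) (nat_lit 54) (nat_lit 5) (nat_lit 51) (nat_lit 5) (nat_lit 293) (nat_lit 260) (nat_lit 227)) (XT.lf (nat_lit 0) (nat_lit 933169839) (nat_lit 304) (nat_lit 6343782980) (nat_lit 76) (nat_lit 4225260803) (nat_lit 46) (nat_lit 5) (nat_lit 50) (nat_lit 5) (nat_lit 47) (nat_lit 5) (nat_lit 294) (nat_lit 260) (nat_lit 226))) (XT.nd (nat_lit 78) (nat_lit 228) (nat_lit 0) (XT.lf (nat_lit 0) (nat_lit 156830836) (nat_lit 152) (nat_lit 3620262302) (nat_lit 228) (nat_lit 8066698333) (nat_lit 44) (nat_lit 5) (nat_lit 46) (nat_lit 5) (nat_lit 47) (nat_lit 5) (nat_lit 295) (nat_lit 260) (nat_lit 225)) (XT.nd (nat_lit 78) (nat_lit 228) (nat_lit 0) (XT.lf (nat_lit 0) (nat_lit 6813962818) (nat_lit 228) (nat_lit 5091834630) (nat_lit 76) (nat_lit 294182138) (nat_lit 44) (nat_lit 5) (nat_lit 47) (nat_lit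 5) (nat_lit 45) (nat_lit 5) (nat_lit 296) (nat_lit 260) (nat_lit 224)) (XT.lf (nat_lit 0) (nat_lit 1741543381) (nat_lit 228) (nat_lit 8288748339) (nat_lit 304) (nat_lit 2542370203) (nat_lit 41) (nat_lit 5) (nat_lit 44) (nat_lit 5) (nat_lit 45) (nat_lit 5) (nat_lit 297) (nat_lit 260) (nat_lit 223))))))) (XT.nd (nat_lit 780) (nat_lit 760) (nat_lit 0) (XT.nd (nat_lit 390) (nat_lit 608) (nat_lit 0) (XT.nd (nat_lit 156) (nat_lit 152) (nat_lit 0) (XT.nd (nat_lit 78) (nat_lit 152) (nat_lit 0) (XT.lf (nat_lit 0) (nat_lit 458441507) (nat_lit 304) (nat_lit 3963107841) (nat_lit 76) (nat_lit 8540683540) (nat_lit 40) (nat_lit 5) (nat_lit 44) (nat_lit 5) (nat_lit 41) (nat_lit 5) (nat_lit 298) (nat_lit 260) (nat_lit 222)) (XT.lf (nat_lit 0) (nat_lit 3225606550) (nat_lit 152) (nat_lit 292921922) (nat_lit 228) (nat_lit 9850992940) (nat_lit 38) (nat_lit 5) (nat_lit 40) (nat_lit 5) (nat_lit 41) (nat_lit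 5) (nat_lit 299) (nat_lit 260) (nat_lit 221))) (XT.nd (nat_lit 78) (nat_lit 152) (nat_lit 0) (XT.lf (nat_lit 0) (nat_lit 6808171866) (nat_lit 228) (nat_lit 3031904569) (nat_lit 76) (nat_lit 3953324296) (nat_lit 38) (nat_lit 5) (nat_lit 41) (nat_lit 5) (nat_lit 39) (nat_lit 5) (nat_lit 300) (nat_lit 260) (nat_lit 220)) (XT.nd (nat_lit 78) (nat_lit 0) (nat_lit 0) (XT.lf (nat_lit 0) (nat_lit 4493561002) (nat_lit 152) (nat_lit 5791529377) (nat_lit 228) (nat_lit 3952295392) (nat_lit 36) (nat_lit 5) (nat_lit 38) (nat_lit 5) (nat_lit 39) (nat_lit 5) (nat_lit 301) (nat_lit 260) (nat_lit 219)) (XT.lf (nat_lit 0) (nat_lit 12420704598) (nat_lit 152) (nat_lit 1515568186) (nat_lit 228) (nat_lit 767325335) (nat_lit 36) (nat_lit 5) (nat_lit 38) (nat_lit 5) (nat_lit 39) (nat_lit 5) (nat_lit 302) (nat_lit 260) (nat_lit 218))))) (XT.nd (nat_lit 156) (nat_lit 380) (nat_lit 0) (XT.nd (nat_lit 78) (nat_lit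 0) (nat_lit 0) (XT.lf (nat_lit 0) (nat_lit 2580792060) (nat_lit 228) (nat_lit 9624561983) (nat_lit 76) (nat_lit 2981481042) (nat_lit 33) (nat_lit 5) (nat_lit 36) (nat_lit 5) (nat_lit 34) (nat_lit 5) (nat_lit 303) (nat_lit 260) (nat_lit 217)) (XT.lf (nat_lit 0) (nat_lit 6086039417) (nat_lit 228) (nat_lit 1929889872) (nat_lit 76) (nat_lit 7676942383) (nat_lit 33) (nat_lit 5) (nat_lit 36) (nat_lit 5) (nat_lit 34) (nat_lit 5) (nat_lit 304) (nat_lit 260) (nat_lit 216))) (XT.nd (nat_lit 78) (nat_lit 228) (nat_lit 0) (XT.lf (nat_lit 0) (nat_lit 6275626760) (nat_lit 152) (nat_lit 3542588374) (nat_lit 228) (nat_lit 6403451928) (nat_lit 31) (nat_lit 5) (nat_lit 33) (nat_lit 5) (nat_lit 34) (nat_lit 5) (nat_lit 305) (nat_lit 260) (nat_lit 215)) (XT.nd (nat_lit 78) (nat_lit 228) (nat_lit 0) (XT.lf (nat_lit 0) (nat_lit 13742544257) (nat_lit 228) (nat_lit 1910809215) (nat_lit 76) (nat_lit 1123309877)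 (nat_lit 31) (nat_lit 5) (nat_lit 34) (nat_lit 5) (nat_lit 32) (nat_lit 4) (nat_lit 306) (nat_lit 260) (nat_lit 214)) (XT.lf (nat_lit 0) (nat_lit 607172812) (nat_lit 228) (nat_lit 10755566201) (nat_lit 76) (nat_lit 5990331367) (nat_lit 28) (nat_lit 5) (nat_lit 31) (nat_lit 5) (nat_lit 29) (nat_lit 5) (nat_lit 307) (nat_lit 260) (nat_lit 213)))))) (XT.nd (nat_lit 390) (nat_lit 456) (nat_lit 0) (XT.nd (nat_lit 156) (nat_lit 152) (nat_lit 0) (XT.nd (nat_lit 78) (nat_lit 152) (nat_lit 0) (XT.lf (nat_lit 0) (nat_lit 4318169721) (nat_lit 228) (nat_lit 2481495434) (nat_lit 76) (nat_lit 11156698424) (nat_lit 28) (nat_lit 5) (nat_lit 31) (nat_lit 5) (nat_lit 29) (nat_lit 5) (nat_lit 308) (nat_lit 260) (nat_lit 212)) (XT.lf (nat_lit 0) (nat_lit 6340531904) (nat_lit 152) (nat_lit 1931954927) (nat_lit 228) (nat_lit 10314477647) (nat_lit 26) (nat_lit 5) (nat_lit 28) (nat_lit 5) (nat_lit 29) (nat_lit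 5) (nat_lit 309) (nat_lit 260) (nat_lit 211))) (XT.nd (nat_lit 78) (nat_lit 152) (nat_lit 0) (XT.lf (nat_lit 0) (nat_lit 12476128585) (nat_lit 228) (nat_lit 3676701847) (nat_lit 76) (nat_lit 3093714603) (nat_lit 26) (nat_lit 5) (nat_lit 29) (nat_lit 5) (nat_lit 27) (nat_lit 4) (nat_lit 310) (nat_lit 260) (nat_lit 210)) (XT.nd (nat_lit 78) (nat_lit 76) (nat_lit 0) (XT.lf (nat_lit 0) (nat_lit 5396670239) (nat_lit 76) (nat_lit 11570409990) (nat_lit 152) (nat_lit 2968196624) (nat_lit 25) (nat_lit 5) (nat_lit 26) (nat_lit 5) (nat_lit 27) (nat_lit 4) (nat_lit 311) (nat_lit 260) (nat_lit 209)) (XT.lf (nat_lit 0) (nat_lit 1016028837) (nat_lit 152) (nat_lit 5687125318) (nat_lit 76) (nat_lit 13953283921) (nat_lit 24) (nat_lit 5) (nat_lit 26) (nat_lit 5) (nat_lit 25) (nat_lit 5) (nat_lit 312) (nat_lit 260) (nat_lit 208))))) (XT.nd (nat_lit 234) (nat_lit 228) (nat_lit 0) (XT.nd (nat_lit 78) (nat_lit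 76) (nat_lit 0) (XT.lf (nat_lit 0) (nat_lit 3610849642) (nat_lit 152) (nat_lit 1508465154) (nat_lit 228) (nat_lit 16290954337) (nat_lit 22) (nat_lit 5) (nat_lit 24) (nat_lit 5) (nat_lit 25) (nat_lit 5) (nat_lit 313) (nat_lit 260) (nat_lit 207)) (XT.nd (nat_lit 78) (nat_lit 76) (nat_lit 0) (XT.lf (nat_lit 0) (nat_lit 9550868204) (nat_lit 228) (nat_lit 8752387577) (nat_lit 76) (nat_lit 3892404353) (nat_lit 22) (nat_lit 5) (nat_lit 25) (nat_lit 5) (nat_lit 23) (nat_lit 4) (nat_lit 314) (nat_lit 260) (nat_lit 206)) (XT.lf (nat_lit 0) (nat_lit 683778211) (nat_lit 76) (nat_lit 13520961455) (nat_lit 152) (nat_lit 8815566425) (nat_lit 21) (nat_lit 5) (nat_lit 22) (nat_lit 5) (nat_lit 23) (nat_lit 4) (nat_lit 315) (nat_lit 260) (nat_lit 205)))) (XT.nd (nat_lit 78) (nat_lit 228) (nat_lit 0) (XT.lf (nat_lit 0) (nat_lit 10836215240) (nat_lit 76) (nat_lit 8369374410) (nat_lit 152) (nat_lit 4674901809)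 (nat_lit 21) (nat_lit 5) (nat_lit 22) (nat_lit 5) (nat_lit 23) (nat_lit 4) (nat_lit 316) (nat_lit 260) (nat_lit 204)) (XT.nd (nat_lit 78) (nat_lit 228) (nat_lit 0) (XT.lf (nat_lit 0) (nat_lit 21439702516) (nat_lit 76) (nat_lit 2984454881) (nat_lit 152) (nat_lit 361165275) (nat_lit 21) (nat_lit 5) (nat_lit 22) (nat_lit 5) (nat_lit 23) (nat_lit 4) (nat_lit 317) (nat_lit 260) (nat_lit 203)) (XT.lf (nat_lit 0) (nat_lit 4156049085) (nat_lit 228) (nat_lit 18832378525) (nat_lit 76) (nat_lit 2737672313) (nat_lit 18) (nat_lit 5) (nat_lit 21) (nat_lit 5) (nat_lit 19) (nat_lit 4) (nat_lit 318) (nat_lit 260) (nat_lit 202))))))))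
noncomputable def xc107 : XT := (XT.nd (nat_lit 1638) (nat_lit 380) (nat_lit 0) (XT.nd (nat_lit 780) (nat_lit 380) (nat_lit 0) (XT.nd (nat_lit 390) (nat_lit 152) (nat_lit 0) (XT.nd (nat_lit 156) (nat_lit 76) (nat_lit 0) (XT.nd (nat_lit 78) (nat_lit 76) (nat_lit 0) (XT.lf (nat_lit 0) (nat_lit 8962473799) (nat_lit 228) (nat_lit 9060906691) (nat_lit 76) (nat_lit 8686482724) (nat_lit 18) (nat_lit 5) (nat_lit 21) (nat_lit 5) (nat_lit 19) (nat_lit 4) (nat_lit 319) (nat_lit 260) (nat_lit 201)) (XT.lf (nat_lit 0) (nat_lit 1184447529) (nat_lit 76) (nat_lit 12813715357) (nat_lit 152) (nat_lit 13745221361) (nat_lit 17) (nat_lit 5) (nat_lit 18) (nat_lit 5) (nat_lit 19) (nat_lit 4) (nat_lit 320) (nat_lit 260) (nat_lit 200))) (XT.nd (nat_lit 78) (nat_lit 76) (nat_lit 0) (XT.lf (nat_lit 0) (nat_lit 12204891159) (nat_lit 76) (nat_lit 7205245813) (nat_lit 152) (nat_lit 9412235271) (nat_lit 17) (nat_lit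 5) (nat_lit 18) (nat_lit 5) (nat_lit 19) (nat_lit 4) (nat_lit 321) (nat_lit 260) (nat_lit 199)) (XT.nd (nat_lit 78) (nat_lit 76) (nat_lit 0) (XT.lf (nat_lit 0) (nat_lit 23727068856) (nat_lit 76) (nat_lit 1338069198) (nat_lit 152) (nat_lit 4891565350) (nat_lit 17) (nat_lit 5) (nat_lit 18) (nat_lit 5) (nat_lit 19) (nat_lit 4) (nat_lit 322) (nat_lit 260) (nat_lit 198)) (XT.lf (nat_lit 0) (nat_lit 4704954478) (nat_lit 76) (nat_lit 26420102770) (nat_lit 76) (nat_lit 16599928) (nat_lit 16) (nat_lit 4) (nat_lit 17) (nat_lit 5) (nat_lit 17) (nat_lit 4) (nat_lit 323) (nat_lit 260) (nat_lit 197))))) (XT.nd (nat_lit 156) (nat_lit 76) (nat_lit 0) (XT.nd (nat_lit 78) (nat_lit 0) (nat_lit 0) (XT.lf (nat_lit 0) (nat_lit 5041488444) (nat_lit 152) (nat_lit 16129416454) (nat_lit 76) (nat_lit 11205850227) (nat_lit 15) (nat_lit 5) (nat_lit 17) (nat_lit 5) (nat_lit 16) (nat_lit 4) (nat_lit 324) (nat_lit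 260) (nat_lit 196)) (XT.lf (nat_lit 0) (nat_lit 10326692140) (nat_lit 152) (nat_lit 5352810710) (nat_lit 76) (nat_lit 17995365564) (nat_lit 15) (nat_lit 5) (nat_lit 17) (nat_lit 5) (nat_lit 16) (nat_lit 4) (nat_lit 325) (nat_lit 260) (nat_lit 195))) (XT.nd (nat_lit 78) (nat_lit 0) (nat_lit 0) (XT.lf (nat_lit 0) (nat_lit 6114742228) (nat_lit 76) (nat_lit 9832852313) (nat_lit 152) (nat_lit 19086732795) (nat_lit 14) (nat_lit 5) (nat_lit 15) (nat_lit 5) (nat_lit 16) (nat_lit 4) (nat_lit 326) (nat_lit 260) (nat_lit 194)) (XT.nd (nat_lit 78) (nat_lit 0) (nat_lit 0) (XT.lf (nat_lit 0) (nat_lit 18298620396) (nat_lit 76) (nat_lit 3618019004) (nat_lit 152) (nat_lit 14541776263) (nat_lit 14) (nat_lit 5) (nat_lit 15) (nat_lit 5) (nat_lit 16) (nat_lit 4) (nat_lit 327) (nat_lit 260) (nat_lit 193)) (XT.lf (nat_lit 0) (nat_lit 28206810675) (nat_lit 152) (nat_lit 6949103536) (nat_lit 0) (nat_lit 2796671275)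 (nat_lit 14) (nat_lit 5) (nat_lit 16) (nat_lit 4) (nat_lit 14) (nat_lit 4) (nat_lit 328) (nat_lit 260) (nat_lit 192)))))) (XT.nd (nat_lit 390) (nat_lit 152) (nat_lit 0) (XT.nd (nat_lit 156) (nat_lit 76) (nat_lit 0) (XT.nd (nat_lit 78) (nat_lit 76) (nat_lit 0) (XT.lf (nat_lit 0) (nat_lit 4879270990) (nat_lit 76) (nat_lit 30046071426) (nat_lit 76) (nat_lit 4590439062) (nat_lit 13) (nat_lit 4) (nat_lit 14) (nat_lit 5) (nat_lit 14) (nat_lit 4) (nat_lit 329) (nat_lit 260) (nat_lit 191)) (XT.lf (nat_lit 0) (nat_lit 894373017) (nat_lit 152) (nat_lit 23665494312) (nat_lit 76) (nat_lit 16591735061) (nat_lit 12) (nat_lit 5) (nat_lit 14) (nat_lit 5) (nat_lit 13) (nat_lit 4) (nat_lit 330) (nat_lit 260) (nat_lit 190))) (XT.nd (nat_lit 78) (nat_lit 76) (nat_lit 0) (XT.lf (nat_lit 0) (nat_lit 6478608461) (nat_lit 152) (nat_lit 12259075113) (nat_lit 76) (nat_lit 24128804413) (nat_lit 12) (nat_lit 5)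 (nat_lit 14) (nat_lit 5) (nat_lit 13) (nat_lit 4) (nat_lit 331) (nat_lit 260) (nat_lit 189)) (XT.nd (nat_lit 78) (nat_lit 76) (nat_lit 0) (XT.lf (nat_lit 0) (nat_lit 12322485785) (nat_lit 152) (nat_lit 318425131) (nat_lit 76) (nat_lit 32027193892) (nat_lit 12) (nat_lit 5) (nat_lit 14) (nat_lit 5) (nat_lit 13) (nat_lit 4) (nat_lit 332) (nat_lit 260) (nat_lit 188)) (XT.lf (nat_lit 0) (nat_lit 12587773101) (nat_lit 76) (nat_lit 6048676297) (nat_lit 152) (nat_lit 27914466503) (nat_lit 11) (nat_lit 5) (nat_lit 12) (nat_lit 5) (nat_lit 13) (nat_lit 4) (nat_lit 333) (nat_lit 260) (nat_lit 187))))) (XT.nd (nat_lit 234) (nat_lit 76) (nat_lit 0) (XT.nd (nat_lit 78) (nat_lit 76) (nat_lit 0) (XT.lf (nat_lit 0) (nat_lit 25266703859) (nat_lit 152) (nat_lit 22425478907) (nat_lit 0) (nat_lit 835662816) (nat_lit 11) (nat_lit 5) (nat_lit 13) (nat_lit 4) (nat_lit 11) (nat_lit 4) (nat_lit 334) (nat_lit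 260) (nat_lit 186)) (XT.nd (nat_lit 78) (nat_lit 76) (nat_lit 0) (XT.lf (nat_lit 0) (nat_lit 32309990572) (nat_lit 152) (nat_lit 10442943973) (nat_lit 0) (nat_lit 7846618528) (nat_lit 11) (nat_lit 5) (nat_lit 13) (nat_lit 4) (nat_lit 11) (nat_lit 4) (nat_lit 335) (nat_lit 260) (nat_lit 185)) (XT.lf (nat_lit 0) (nat_lit 2177109743) (nat_lit 76) (nat_lit 37545523519) (nat_lit 76) (nat_lit 13051360046) (nat_lit 10) (nat_lit 4) (nat_lit 11) (nat_lit 5) (nat_lit 11) (nat_lit 4) (nat_lit 336) (nat_lit 260) (nat_lit 184)))) (XT.nd (nat_lit 78) (nat_lit 76) (nat_lit 0) (XT.lf (nat_lit 0) (nat_lit 15759937168) (nat_lit 76) (nat_lit 31906347415) (nat_lit 76) (nat_lit 7382858770) (nat_lit 10) (nat_lit 4) (nat_lit 11) (nat_lit 5) (nat_lit 11) (nat_lit 4) (nat_lit 337) (nat_lit 260) (nat_lit 183)) (XT.nd (nat_lit 78) (nat_lit 76) (nat_lit 0) (XT.lf (nat_lit 0) (nat_lit 29992587479) (nat_lit 76) (nat_lit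 25998835931) (nat_lit 76) (nat_lit 1447418552) (nat_lit 10) (nat_lit 4) (nat_lit 11) (nat_lit 5) (nat_lit 11) (nat_lit 4) (nat_lit 338) (nat_lit 260) (nat_lit 182)) (XT.lf (nat_lit 0) (nat_lit 4616451862) (nat_lit 152) (nat_lit 15114289855) (nat_lit 76) (nat_lit 40214314229) (nat_lit 9) (nat_lit 5) (nat_lit 11) (nat_lit 5) (nat_lit 10) (nat_lit 4) (nat_lit 339) (nat_lit 260) (nat_lit 181))))))) (XT.nd (nat_lit 780) (nat_lit 228) (nat_lit 0) (XT.nd (nat_lit 390) (nat_lit 76) (nat_lit 0) (XT.nd (nat_lit 156) (nat_lit 0) (nat_lit 0) (XT.nd (nat_lit 78) (nat_lit 76) (nat_lit 0) (XT.lf (nat_lit 0) (nat_lit 10920398247) (nat_lit 152) (nat_lit 2216531951) (nat_lit 76) (nat_lit 49439193211) (nat_lit 9) (nat_lit 5) (nat_lit 11) (nat_lit 5) (nat_lit 10) (nat_lit 4) (nat_lit 340) (nat_lit 260) (nat_lit 180)) (XT.lf (nat_lit 0) (nat_lit 11673966262) (nat_lit 76) (nat_lit 6034053498) (nat_lit 152)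 (nat_lit 47622305783) (nat_lit 8) (nat_lit 5) (nat_lit 9) (nat_lit 5) (nat_lit 10) (nat_lit 4) (nat_lit 341) (nat_lit 260) (nat_lit 179))) (XT.nd (nat_lit 78) (nat_lit 0) (nat_lit 0) (XT.lf (nat_lit 0) (nat_lit 24881697746) (nat_lit 152) (nat_lit 41933133738) (nat_lit 0) (nat_lit 1405077473) (nat_lit 8) (nat_lit 5) (nat_lit 10) (nat_lit 4) (nat_lit 8) (nat_lit 4) (nat_lit 342) (nat_lit 260) (nat_lit 178)) (XT.nd (nat_lit 78) (nat_lit 0) (nat_lit 0) (XT.lf (nat_lit 0) (nat_lit 32499921264) (nat_lit 152) (nat_lit 29747301763) (nat_lit 0) (nat_lit 9002460139) (nat_lit 8) (nat_lit 5) (nat_lit 10) (nat_lit 4) (nat_lit 8) (nat_lit 4) (nat_lit 343) (nat_lit 260) (nat_lit 177)) (XT.lf (nat_lit 0) (nat_lit 40486620457) (nat_lit 152) (nat_lit 16975640985) (nat_lit 0) (nat_lit 16969310901) (nat_lit 8) (nat_lit 5) (nat_lit 10) (nat_lit 4) (nat_lit 8) (nat_lit 4) (nat_lit 344) (nat_lit 260) (nat_lit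 176))))) (XT.nd (nat_lit 156) (nat_lit 0) (nat_lit 0) (XT.nd (nat_lit 78) (nat_lit 76) (nat_lit 0) (XT.lf (nat_lit 0) (nat_lit 48860811274) (nat_lit 152) (nat_lit 3587742689) (nat_lit 0) (nat_lit 25324598452) (nat_lit 8) (nat_lit 5) (nat_lit 10) (nat_lit 4) (nat_lit 8) (nat_lit 4) (nat_lit 345) (nat_lit 260) (nat_lit 175)) (XT.lf (nat_lit 0) (nat_lit 10793736035) (nat_lit 76) (nat_lit 47017216700) (nat_lit 76) (nat_lit 23463000767) (nat_lit 7) (nat_lit 4) (nat_lit 8) (nat_lit 5) (nat_lit 8) (nat_lit 4) (nat_lit 346) (nat_lit 260) (nat_lit 174))) (XT.nd (nat_lit 78) (nat_lit 0) (nat_lit 0) (XT.lf (nat_lit 0) (nat_lit 25997908823) (nat_lit 76) (nat_lit 41260383447) (nat_lit 76) (nat_lit 17689021694) (nat_lit 7) (nat_lit 4) (nat_lit 8) (nat_lit 5) (nat_lit 8) (nat_lit 4) (nat_lit 347) (nat_lit 260) (nat_lit 173)) (XT.nd (nat_lit 78) (nat_lit 0) (nat_lit 0) (XT.lf (nat_lit 0) (nat_lit 41942349109)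 (nat_lit 76) (nat_lit 35225107618) (nat_lit 76) (nat_lit 11637416513) (nat_lit 7) (nat_lit 4) (nat_lit 8) (nat_lit 5) (nat_lit 8) (nat_lit 4) (nat_lit 348) (nat_lit 260) (nat_lit 172)) (XT.lf (nat_lit 0) (nat_lit 58665019846) (nat_lit 76) (nat_lit 28897019509) (nat_lit 76) (nat_lit 5293776640) (nat_lit 7) (nat_lit 4) (nat_lit 8) (nat_lit 5) (nat_lit 8) (nat_lit 4) (nat_lit 349) (nat_lit 260) (nat_lit 171)))))) (XT.nd (nat_lit 390) (nat_lit 76) (nat_lit 0) (XT.nd (nat_lit 156) (nat_lit 76) (nat_lit 0) (XT.nd (nat_lit 78) (nat_lit 0) (nat_lit 0) (XT.lf (nat_lit 0) (nat_lit 1313569296) (nat_lit 152) (nat_lit 20925237016) (nat_lit 76) (nat_lit 74869921688) (nat_lit 6) (nat_lit 5) (nat_lit 8) (nat_lit 5) (nat_lit 7) (nat_lit 4) (nat_lit 350) (nat_lit 260) (nat_lit 170)) (XT.lf (nat_lit 0) (nat_lit 8064117925) (nat_lit 152) (nat_lit 7100718234) (nat_lit 76) (nat_lit 86405576268) (nat_lit 6)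 (nat_lit 5) (nat_lit 8) (nat_lit 5) (nat_lit 7) (nat_lit 4) (nat_lit 351) (nat_lit 260) (nat_lit 169))) (XT.nd (nat_lit 78) (nat_lit 0) (nat_lit 0) (XT.lf (nat_lit 0) (nat_lit 7642948486) (nat_lit 76) (nat_lit 7619755253) (nat_lit 152) (nat_lit 90986954739) (nat_lit 5) (nat_lit 5) (nat_lit 6) (nat_lit 5) (nat_lit 7) (nat_lit 4) (nat_lit 352) (nat_lit 260) (nat_lit 168)) (XT.nd (nat_lit 78) (nat_lit 0) (nat_lit 0) (XT.lf (nat_lit 0) (nat_lit 22939392323) (nat_lit 152) (nat_lit 87809974983) (nat_lit 0) (nat_lit 407593603) (nat_lit 5) (nat_lit 5) (nat_lit 7) (nat_lit 4) (nat_lit 5) (nat_lit 4) (nat_lit 353) (nat_lit 260) (nat_lit 167)) (XT.lf (nat_lit 0) (nat_lit 31116471149) (nat_lit 152) (nat_lit 76614264680) (nat_lit 0) (nat_lit 8573067463) (nat_lit 5) (nat_lit 5) (nat_lit 7) (nat_lit 4) (nat_lit 5) (nat_lit 4) (nat_lit 354) (nat_lit 260) (nat_lit 166))))) (XT.nd (nat_lit 234) (nat_lit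 76) (nat_lit 0) (XT.nd (nat_lit 78) (nat_lit 0) (nat_lit 0) (XT.lf (nat_lit 0) (nat_lit 39694443719) (nat_lit 152) (nat_lit 64873956896) (nat_lit 0) (nat_lit 17139987685) (nat_lit 5) (nat_lit 5) (nat_lit 7) (nat_lit 4) (nat_lit 5) (nat_lit 4) (nat_lit 355) (nat_lit 260) (nat_lit 165)) (XT.nd (nat_lit 78) (nat_lit 0) (nat_lit 0) (XT.lf (nat_lit 0) (nat_lit 48693733778) (nat_lit 152) (nat_lit 52561098518) (nat_lit 0) (nat_lit 26128751697) (nat_lit 5) (nat_lit 5) (nat_lit 7) (nat_lit 4) (nat_lit 5) (nat_lit 4) (nat_lit 356) (nat_lit 260) (nat_lit 164)) (XT.lf (nat_lit 0) (nat_lit 58135768206) (nat_lit 152) (nat_lit 39646373215) (nat_lit 0) (nat_lit 35560761320) (nat_lit 5) (nat_lit 5) (nat_lit 7) (nat_lit 4) (nat_lit 5) (nat_lit 4) (nat_lit 357) (nat_lit 260) (nat_lit 163)))) (XT.nd (nat_lit 78) (nat_lit 76) (nat_lit 0) (XT.lf (nat_lit 0) (nat_lit 68043028039) (nat_lit 152) (nat_lit 26099031641)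 (nat_lit 0) (nat_lit 45458473718) (nat_lit 5) (nat_lit 5) (nat_lit 7) (nat_lit 4) (nat_lit 5) (nat_lit 4) (nat_lit 358) (nat_lit 260) (nat_lit 162)) (XT.nd (nat_lit 78) (nat_lit 76) (nat_lit 0) (XT.lf (nat_lit 0) (nat_lit 78439101989) (nat_lit 152) (nat_lit 11886818223) (nat_lit 0) (nat_lit 55845454874) (nat_lit 5) (nat_lit 5) (nat_lit 7) (nat_lit 4) (nat_lit 5) (nat_lit 4) (nat_lit 359) (nat_lit 260) (nat_lit 161)) (XT.lf (nat_lit 0) (nat_lit 3124096234) (nat_lit 76) (nat_lit 86273422277) (nat_lit 76) (nat_lit 63671115358) (nat_lit 4) (nat_lit 4) (nat_lit 5) (nat_lit 5) (nat_lit 5) (nat_lit 4) (nat_lit 360) (nat_lit 260) (nat_lit 160))))))))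
noncomputable def xc108 : XT := (XT.nd (nat_lit 1560) (nat_lit 0) (nat_lit 0) (XT.nd (nat_lit 780) (nat_lit 152) (nat_lit 0) (XT.nd (nat_lit 390) (nat_lit 0) (nat_lit 0) (XT.nd (nat_lit 156) (nat_lit 0) (nat_lit 0) (XT.nd (nat_lit 78) (nat_lit 0) (nat_lit 0) (XT.lf (nat_lit 0) (nat_lit 19286531618) (nat_lit 76) (nat_lit 81812510439) (nat_lit 76) (nat_lit 59201956087) (nat_lit 4) (nat_lit 4) (nat_lit 5) (nat_lit 5) (nat_lit 5) (nat_lit 4) (nat_lit 361) (nat_lit 260) (nat_lit 159)) (XT.lf (nat_lit 0) (nat_lit 36245938026) (nat_lit 76) (nat_lit 77133872497) (nat_lit 76) (nat_lit 54515463447) (nat_lit 4) (nat_lit 4) (nat_lit 5) (nat_lit 5) (nat_lit 5) (nat_lit 4) (nat_lit 362) (nat_lit 260) (nat_lit 158))) (XT.nd (nat_lit 78) (nat_lit 0) (nat_lit 0) (XT.lf (nat_lit 0) (nat_lit 54042694996) (nat_lit 76) (nat_lit 72226368837) (nat_lit 76) (nat_lit 49600479122) (nat_lit 4) (nat_lit 4) (nat_lit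 5) (nat_lit 5) (nat_lit 5) (nat_lit 4) (nat_lit 363) (nat_lit 260) (nat_lit 157)) (XT.nd (nat_lit 78) (nat_lit 0) (nat_lit 0) (XT.lf (nat_lit 0) (nat_lit 72719175760) (nat_lit 76) (nat_lit 67078314926) (nat_lit 76) (nat_lit 44445300769) (nat_lit 4) (nat_lit 4) (nat_lit 5) (nat_lit 5) (nat_lit 5) (nat_lit 4) (nat_lit 364) (nat_lit 260) (nat_lit 156)) (XT.lf (nat_lit 0) (nat_lit 92319848129) (nat_lit 76) (nat_lit 61677453493) (nat_lit 76) (nat_lit 39037654154) (nat_lit 4) (nat_lit 4) (nat_lit 5) (nat_lit 5) (nat_lit 5) (nat_lit 4) (nat_lit 365) (nat_lit 260) (nat_lit 155))))) (XT.nd (nat_lit 156) (nat_lit 0) (nat_lit 0) (XT.nd (nat_lit 78) (nat_lit 0) (nat_lit 0) (XT.lf (nat_lit 0) (nat_lit 112891380369) (nat_lit 76) (nat_lit 56010925345) (nat_lit 76) (nat_lit 33364663926) (nat_lit 4) (nat_lit 4) (nat_lit 5) (nat_lit 5) (nat_lit 5) (nat_lit 4) (nat_lit 366) (nat_lit 260) (nat_lit 154))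 (XT.lf (nat_lit 0) (nat_lit 134482752321) (nat_lit 76) (nat_lit 50065238748) (nat_lit 76) (nat_lit 27412822967) (nat_lit 4) (nat_lit 4) (nat_lit 5) (nat_lit 5) (nat_lit 5) (nat_lit 4) (nat_lit 367) (nat_lit 260) (nat_lit 153))) (XT.nd (nat_lit 78) (nat_lit 0) (nat_lit 0) (XT.lf (nat_lit 0) (nat_lit 157145372012) (nat_lit 76) (nat_lit 43826237304) (nat_lit 76) (nat_lit 21167960228) (nat_lit 4) (nat_lit 4) (nat_lit 5) (nat_lit 5) (nat_lit 5) (nat_lit 4) (nat_lit 368) (nat_lit 260) (nat_lit 152)) (XT.nd (nat_lit 78) (nat_lit 0) (nat_lit 0) (XT.lf (nat_lit 0) (nat_lit 180933198061) (nat_lit 76) (nat_lit 37279066249) (nat_lit 76) (nat_lit 14615206986) (nat_lit 4) (nat_lit 4) (nat_lit 5) (nat_lit 5) (nat_lit 5) (nat_lit 4) (nat_lit 369) (nat_lit 260) (nat_lit 151)) (XT.lf (nat_lit 0) (nat_lit 205902868148) (nat_lit 76) (nat_lit 30408137080) (nat_lit 76) (nat_lit 7738961448) (nat_lit 4) (nat_lit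 4) (nat_lit 5) (nat_lit 5) (nat_lit 5) (nat_lit 4) (nat_lit 370) (nat_lit 260) (nat_lit 150)))))) (XT.nd (nat_lit 390) (nat_lit 0) (nat_lit 0) (XT.nd (nat_lit 156) (nat_lit 76) (nat_lit 0) (XT.nd (nat_lit 78) (nat_lit 76) (nat_lit 0) (XT.lf (nat_lit 0) (nat_lit 232113833870) (nat_lit 76) (nat_lit 23197090443) (nat_lit 76) (nat_lit 522851602) (nat_lit 4) (nat_lit 4) (nat_lit 5) (nat_lit 5) (nat_lit 5) (nat_lit 4) (nat_lit 371) (nat_lit 260) (nat_lit 149)) (XT.lf (nat_lit 0) (nat_lit 6824650015) (nat_lit 152) (nat_lit 8688528412) (nat_lit 76) (nat_lit 252688273521) (nat_lit 3) (nat_lit 5) (nat_lit 5) (nat_lit 5) (nat_lit 4) (nat_lit 4) (nat_lit 372) (nat_lit 260) (nat_lit 148))) (XT.nd (nat_lit 78) (nat_lit 0) (nat_lit 0) (XT.lf (nat_lit 0) (nat_lit 7313321310) (nat_lit 76) (nat_lit 7319349291) (nat_lit 152) (nat_lit 266548877846) (nat_lit 2) (nat_lit 5) (nat_lit 3) (nat_lit 5) (nat_lit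 4) (nat_lit 4) (nat_lit 373) (nat_lit 260) (nat_lit 147)) (XT.nd (nat_lit 78) (nat_lit 0) (nat_lit 0) (XT.lf (nat_lit 0) (nat_lit 22997246403) (nat_lit 152) (nat_lit 270415495160) (nat_lit 0) (nat_lit 1389601439) (nat_lit 2) (nat_lit 5) (nat_lit 4) (nat_lit 4) (nat_lit 2) (nat_lit 4) (nat_lit 374) (nat_lit 260) (nat_lit 146)) (XT.lf (nat_lit 0) (nat_lit 31896752744) (nat_lit 152) (nat_lit 266916449726) (nat_lit 0) (nat_lit 10285140624) (nat_lit 2) (nat_lit 5) (nat_lit 4) (nat_lit 4) (nat_lit 2) (nat_lit 4) (nat_lit 375) (nat_lit 260) (nat_lit 145))))) (XT.nd (nat_lit 156) (nat_lit 0) (nat_lit 0) (XT.nd (nat_lit 78) (nat_lit 0) (nat_lit 0) (XT.lf (nat_lit 0) (nat_lit 41238103370) (nat_lit 152) (nat_lit 263248484219) (nat_lit 0) (nat_lit 19622713006) (nat_lit 2) (nat_lit 5) (nat_lit 4) (nat_lit 4) (nat_lit 2) (nat_lit 4) (nat_lit 376) (nat_lit 260) (nat_lit 144)) (XT.lf (nat_lit 0) (nat_lit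 51043539592) (nat_lit 152) (nat_lit 259402865388) (nat_lit 0) (nat_lit 29424550901) (nat_lit 2) (nat_lit 5) (nat_lit 4) (nat_lit 4) (nat_lit 2) (nat_lit 4) (nat_lit 377) (nat_lit 260) (nat_lit 143))) (XT.nd (nat_lit 78) (nat_lit 0) (nat_lit 0) (XT.lf (nat_lit 0) (nat_lit 61336407687) (nat_lit 152) (nat_lit 255370436997) (nat_lit 0) (nat_lit 39713992017) (nat_lit 2) (nat_lit 5) (nat_lit 4) (nat_lit 4) (nat_lit 2) (nat_lit 4) (nat_lit 378) (nat_lit 260) (nat_lit 142)) (XT.nd (nat_lit 78) (nat_lit 0) (nat_lit 0) (XT.lf (nat_lit 0) (nat_lit 72141214484) (nat_lit 152) (nat_lit 251141598027) (nat_lit 0) (nat_lit 50515535024) (nat_lit 2) (nat_lit 5) (nat_lit 4) (nat_lit 4) (nat_lit 2) (nat_lit 4) (nat_lit 379) (nat_lit 260) (nat_lit 141)) (XT.lf (nat_lit 0) (nat_lit 83483685712) (nat_lit 152) (nat_lit 246706279814) (nat_lit 0) (nat_lit 61854897882) (nat_lit 2) (nat_lit 5) (nat_lit 4) (nat_lit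 4) (nat_lit 2) (nat_lit 4) (nat_lit 380) (nat_lit 260) (nat_lit 140))))))) (XT.nd (nat_lit 31356) (nat_lit 0) (nat_lit 8664) (XT.nd (nat_lit 390) (nat_lit 0) (nat_lit 0) (XT.nd (nat_lit 156) (nat_lit 0) (nat_lit 0) (XT.nd (nat_lit 78) (nat_lit 0) (nat_lit 0) (XT.lf (nat_lit 0) (nat_lit 95390827256) (nat_lit 152) (nat_lit 242053922076) (nat_lit 0) (nat_lit 73759079074) (nat_lit 2) (nat_lit 5) (nat_lit 4) (nat_lit 4) (nat_lit 2) (nat_lit 4) (nat_lit 381) (nat_lit 260) (nat_lit 139)) (XT.lf (nat_lit 0) (nat_lit 107890989454) (nat_lit 152) (nat_lit 237173447771) (nat_lit 0) (nat_lit 86256421887) (nat_lit 2) (nat_lit 5) (nat_lit 4) (nat_lit 4) (nat_lit 2) (nat_lit 4) (nat_lit 382) (nat_lit 260) (nat_lit 138))) (XT.nd (nat_lit 78) (nat_lit 0) (nat_lit 0) (XT.lf (nat_lit 0) (nat_lit 121013934595) (nat_lit 152) (nat_lit 232053236721) (nat_lit 0) (nat_lit 99376681901) (nat_lit 2) (nat_lit 5)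 (nat_lit 4) (nat_lit 4) (nat_lit 2) (nat_lit 4) (nat_lit 383) (nat_lit 260) (nat_lit 137)) (XT.nd (nat_lit 78) (nat_lit 0) (nat_lit 0) (XT.lf (nat_lit 0) (nat_lit 134790907787) (nat_lit 152) (nat_lit 226681097949) (nat_lit 0) (nat_lit 113151097829) (nat_lit 2) (nat_lit 5) (nat_lit 4) (nat_lit 4) (nat_lit 2) (nat_lit 4) (nat_lit 384) (nat_lit 260) (nat_lit 136)) (XT.lf (nat_lit 0) (nat_lit 149254711348) (nat_lit 152) (nat_lit 221044240648) (nat_lit 0) (nat_lit 127612465900) (nat_lit 2) (nat_lit 5) (nat_lit 4) (nat_lit 4) (nat_lit 2) (nat_lit 4) (nat_lit 385) (nat_lit 260) (nat_lit 135))))) (XT.nd (nat_lit 156) (nat_lit 0) (nat_lit 0) (XT.nd (nat_lit 78) (nat_lit 0) (nat_lit 0) (XT.lf (nat_lit 0) (nat_lit 164439782905) (nat_lit 152) (nat_lit 215129243728) (nat_lit 0) (nat_lit 142795217943) (nat_lit 2) (nat_lit 5) (nat_lit 4) (nat_lit 4) (nat_lit 2) (nat_lit 4) (nat_lit 386) (nat_lit 260)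 (nat_lit 134)) (XT.lf (nat_lit 0) (nat_lit 180382277390) (nat_lit 152) (nat_lit 208922023864) (nat_lit 0) (nat_lit 158735503367) (nat_lit 2) (nat_lit 5) (nat_lit 4) (nat_lit 4) (nat_lit 2) (nat_lit 4) (nat_lit 387) (nat_lit 260) (nat_lit 133))) (XT.nd (nat_lit 78) (nat_lit 0) (nat_lit 0) (XT.lf (nat_lit 0) (nat_lit 197120153123) (nat_lit 152) (nat_lit 202407801961) (nat_lit 0) (nat_lit 175471275233) (nat_lit 2) (nat_lit 5) (nat_lit 4) (nat_lit 4) (nat_lit 2) (nat_lit 4) (nat_lit 388) (nat_lit 260) (nat_lit 132)) (XT.nd (nat_lit 30654) (nat_lit 0) (nat_lit 10640) (XT.lf (nat_lit 0) (nat_lit 214693262190) (nat_lit 152) (nat_lit 195571067967) (nat_lit 0) (nat_lit 193042380616) (nat_lit 2) (nat_lit 5) (nat_lit 4) (nat_lit 4) (nat_lit 2) (nat_lit 4) (nat_lit 389) (nat_lit 260) (nat_lit 131)) (XT.lf (nat_lit 0) (nat_lit 1463181056) (nat_lit 0) (nat_lit 1463181056) (nat_lit 76) (nat_lit 300088695)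 (nat_lit 142) (nat_lit 5) (nat_lit 142) (nat_lit 3) (nat_lit 143) (nat_lit 0) (nat_lit 261) (nat_lit 261) (nat_lit 258)))))) (XT.nd (nat_lit 390) (nat_lit 1520) (nat_lit 0) (XT.nd (nat_lit 156) (nat_lit 228) (nat_lit 0) (XT.nd (nat_lit 78) (nat_lit 0) (nat_lit 0) (XT.lf (nat_lit 0) (nat_lit 2153595201) (nat_lit 228) (nat_lit 492044170) (nat_lit 228) (nat_lit 3823258386) (nat_lit 139) (nat_lit 3) (nat_lit 142) (nat_lit 3) (nat_lit 142) (nat_lit 5) (nat_lit 262) (nat_lit 261) (nat_lit 257)) (XT.lf (nat_lit 76) (nat_lit 2677374986) (nat_lit 0) (nat_lit 2213336937) (nat_lit 228) (nat_lit 1601733215) (nat_lit 140) (nat_lit 5) (nat_lit 139) (nat_lit 3) (nat_lit 142) (nat_lit 5) (nat_lit 263) (nat_lit 261) (nat_lit 256))) (XT.nd (nat_lit 78) (nat_lit 0) (nat_lit 0) (XT.lf (nat_lit 0) (nat_lit 1043772856) (nat_lit 228) (nat_lit 611360937) (nat_lit 304) (nat_lit 4869737853) (nat_lit 136) (nat_lit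 5) (nat_lit 139) (nat_lit 3) (nat_lit 140) (nat_lit 5) (nat_lit 264) (nat_lit 261) (nat_lit 255)) (XT.nd (nat_lit 78) (nat_lit 0) (nat_lit 0) (XT.lf (nat_lit 76) (nat_lit 2720647179) (nat_lit 0) (nat_lit 925476107) (nat_lit 304) (nat_lit 2918025258) (nat_lit 137) (nat_lit 5) (nat_lit 136) (nat_lit 5) (nat_lit 140) (nat_lit 5) (nat_lit 265) (nat_lit 261) (nat_lit 254)) (XT.lf (nat_lit 76) (nat_lit 6149269697) (nat_lit 0) (nat_lit 81985330) (nat_lit 304) (nat_lit 381940926) (nat_lit 137) (nat_lit 5) (nat_lit 136) (nat_lit 5) (nat_lit 140) (nat_lit 5) (nat_lit 266) (nat_lit 261) (nat_lit 253))))) (XT.nd (nat_lit 234) (nat_lit 912) (nat_lit 0) (XT.nd (nat_lit 78) (nat_lit 380) (nat_lit 0) (XT.lf (nat_lit 0) (nat_lit 2117444539) (nat_lit 304) (nat_lit 3628993423) (nat_lit 76) (nat_lit 921401060) (nat_lit 133) (nat_lit 5) (nat_lit 137) (nat_lit 5) (nat_lit 134) (nat_lit 5) (nat_lit 267) (nat_lit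 261) (nat_lit 252)) (XT.nd (nat_lit 78) (nat_lit 380) (nat_lit 0) (XT.lf (nat_lit 0) (nat_lit 4591994267) (nat_lit 304) (nat_lit 99149538) (nat_lit 76) (nat_lit 2040985804) (nat_lit 133) (nat_lit 5) (nat_lit 137) (nat_lit 5) (nat_lit 134) (nat_lit 5) (nat_lit 268) (nat_lit 261) (nat_lit 251)) (XT.lf (nat_lit 0) (nat_lit 293748610) (nat_lit 380) (nat_lit 3180264409) (nat_lit 76) (nat_lit 3329880666) (nat_lit 128) (nat_lit 5) (nat_lit 133) (nat_lit 5) (nat_lit 129) (nat_lit 5) (nat_lit 269) (nat_lit 261) (nat_lit 250)))) (XT.nd (nat_lit 78) (nat_lit 532) (nat_lit 0) (XT.lf (nat_lit 0) (nat_lit 540990233) (nat_lit 380) (nat_lit 2109881721) (nat_lit 456) (nat_lit 4233274640) (nat_lit 123) (nat_lit 5) (nat_lit 128) (nat_lit 5) (nat_lit 129) (nat_lit 5) (nat_lit 270) (nat_lit 261) (nat_lit 249)) (XT.nd (nat_lit 78) (nat_lit 532) (nat_lit 0) (XT.lf (nat_lit 0) (nat_lit 4462260113) (nat_lit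 380) (nat_lit 585768225) (nat_lit 456) (nat_lit 1924587566) (nat_lit 123) (nat_lit 5) (nat_lit 128) (nat_lit 5) (nat_lit 129) (nat_lit 5) (nat_lit 271) (nat_lit 261) (nat_lit 248)) (XT.lf (nat_lit 0) (nat_lit 395360808) (nat_lit 532) (nat_lit 5630953419) (nat_lit 76) (nat_lit 1043497275) (nat_lit 116) (nat_lit 5) (nat_lit 123) (nat_lit 5) (nat_lit 117) (nat_lit 5) (nat_lit 272) (nat_lit 261) (nat_lit 247))))))))
noncomputable def xc109 : XT := (XT.nd (nat_lit 1638) (nat_lit 2128) (nat_lit 0) (XT.nd (nat_lit 780) (nat_lit 1824) (nat_lit 0) (XT.nd (nat_lit 390) (nat_lit 1292) (nat_lit 0) (XT.nd (nat_lit 156) (nat_lit 1368) (nat_lit 0) (XT.nd (nat_lit 78) (nat_lit 532) (nat_lit 0) (XT.lf (nat_lit 0) (nat_lit 2696731264) (nat_lit 532) (nat_lit 1640594119) (nat_lit 76) (nat_lit 2836728828) (nat_lit 116) (nat_lit 5) (nat_lit 123) (nat_lit 5) (nat_lit 117) (nat_lit 5) (nat_lit 273) (nat_lit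 261) (nat_lit 246)) (XT.lf (nat_lit 0) (nat_lit 2533524949) (nat_lit 532) (nat_lit 2502333693) (nat_lit 608) (nat_lit 2251773170) (nat_lit 109) (nat_lit 5) (nat_lit 116) (nat_lit 5) (nat_lit 117) (nat_lit 5) (nat_lit 274) (nat_lit 261) (nat_lit 245))) (XT.nd (nat_lit 78) (nat_lit 1368) (nat_lit 0) (XT.lf (nat_lit 0) (nat_lit 6878022924) (nat_lit 532) (nat_lit 528914130) (nat_lit 608) (nat_lit 4446434) (nat_lit 109) (nat_lit 5) (nat_lit 116) (nat_lit 5) (nat_lit 117) (nat_lit 5) (nat_lit 275) (nat_lit 261) (nat_lit 244)) (XT.nd (nat_lit 78) (nat_lit 684) (nat_lit 0) (XT.lf (nat_lit 0) (nat_lit 2257141252) (nat_lit 684) (nat_lit 3676441956) (nat_lit 76) (nat_lit 1607259238) (nat_lit 100) (nat_lit 5) (nat_lit 109) (nat_lit 5) (nat_lit 101) (nat_lit 5) (nat_lit 276) (nat_lit 261) (nat_lit 243)) (XT.lf (nat_lit 0) (nat_lit 740294379) (nat_lit 684) (nat_lit 3815322039) (nat_lit 760) (nat_lit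 3125167991) (nat_lit 91) (nat_lit 5) (nat_lit 100) (nat_lit 5) (nat_lit 101) (nat_lit 5) (nat_lit 277) (nat_lit 261) (nat_lit 242))))) (XT.nd (nat_lit 156) (nat_lit 684) (nat_lit 0) (XT.nd (nat_lit 78) (nat_lit 608) (nat_lit 0) (XT.lf (nat_lit 0) (nat_lit 5408346139) (nat_lit 684) (nat_lit 1520984061) (nat_lit 760) (nat_lit 900579030) (nat_lit 91) (nat_lit 5) (nat_lit 100) (nat_lit 5) (nat_lit 101) (nat_lit 5) (nat_lit 278) (nat_lit 261) (nat_lit 241)) (XT.lf (nat_lit 0) (nat_lit 1340856348) (nat_lit 608) (nat_lit 5725756468) (nat_lit 76) (nat_lit 921362161) (nat_lit 83) (nat_lit 5) (nat_lit 91) (nat_lit 5) (nat_lit 84) (nat_lit 5) (nat_lit 279) (nat_lit 261) (nat_lit 240))) (XT.nd (nat_lit 78) (nat_lit 684) (nat_lit 0) (XT.lf (nat_lit 0) (nat_lit 3635097102) (nat_lit 608) (nat_lit 1027414054) (nat_lit 76) (nat_lit 3492318795) (nat_lit 83) (nat_lit 5) (nat_lit 91) (nat_lit 5) (nat_lit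 84) (nat_lit 5) (nat_lit 280) (nat_lit 261) (nat_lit 239)) (XT.nd (nat_lit 78) (nat_lit 304) (nat_lit 0) (XT.lf (nat_lit 0) (nat_lit 3937182875) (nat_lit 380) (nat_lit 2077272866) (nat_lit 456) (nat_lit 2317217417) (nat_lit 78) (nat_lit 5) (nat_lit 83) (nat_lit 5) (nat_lit 84) (nat_lit 5) (nat_lit 281) (nat_lit 261) (nat_lit 238)) (XT.lf (nat_lit 0) (nat_lit 579876687) (nat_lit 304) (nat_lit 7881332936) (nat_lit 380) (nat_lit 58885420) (nat_lit 74) (nat_lit 5) (nat_lit 78) (nat_lit 5) (nat_lit 79) (nat_lit 5) (nat_lit 282) (nat_lit 261) (nat_lit 237)))))) (XT.nd (nat_lit 390) (nat_lit 760) (nat_lit 0) (XT.nd (nat_lit 156) (nat_lit 684) (nat_lit 0) (XT.nd (nat_lit 78) (nat_lit 304) (nat_lit 0) (XT.lf (nat_lit 0) (nat_lit 2260944440) (nat_lit 380) (nat_lit 2929152180) (nat_lit 76) (nat_lit 3525049919) (nat_lit 73) (nat_lit 5) (nat_lit 78) (nat_lit 5) (nat_lit 74) (nat_lit 5) (nat_lit 283)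 (nat_lit 261) (nat_lit 236)) (XT.lf (nat_lit 0) (nat_lit 2311102231) (nat_lit 304) (nat_lit 2336810082) (nat_lit 380) (nat_lit 4274470142) (nat_lit 69) (nat_lit 5) (nat_lit 73) (nat_lit 5) (nat_lit 74) (nat_lit 5) (nat_lit 284) (nat_lit 261) (nat_lit 235))) (XT.nd (nat_lit 78) (nat_lit 684) (nat_lit 0) (XT.lf (nat_lit 0) (nat_lit 7134289407) (nat_lit 380) (nat_lit 1330347803) (nat_lit 76) (nat_lit 676469805) (nat_lit 69) (nat_lit 5) (nat_lit 74) (nat_lit 5) (nat_lit 70) (nat_lit 5) (nat_lit 285) (nat_lit 261) (nat_lit 234)) (XT.nd (nat_lit 78) (nat_lit 304) (nat_lit 0) (XT.lf (nat_lit 0) (nat_lit 389941025) (nat_lit 380) (nat_lit 5156646544) (nat_lit 76) (nat_lit 3822620882) (nat_lit 64) (nat_lit 5) (nat_lit 69) (nat_lit 5) (nat_lit 65) (nat_lit 5) (nat_lit 286) (nat_lit 261) (nat_lit 233)) (XT.lf (nat_lit 0) (nat_lit 356010180) (nat_lit 304) (nat_lit 2435638255) (nat_lit 380) (nat_lit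 6817906143) (nat_lit 60) (nat_lit 5) (nat_lit 64) (nat_lit 5) (nat_lit 65) (nat_lit 5) (nat_lit 287) (nat_lit 261) (nat_lit 232))))) (XT.nd (nat_lit 234) (nat_lit 456) (nat_lit 0) (XT.nd (nat_lit 78) (nat_lit 304) (nat_lit 0) (XT.lf (nat_lit 0) (nat_lit 5341168735) (nat_lit 380) (nat_lit 3643965071) (nat_lit 76) (nat_lit 875504691) (nat_lit 60) (nat_lit 5) (nat_lit 65) (nat_lit 5) (nat_lit 61) (nat_lit 5) (nat_lit 288) (nat_lit 261) (nat_lit 231)) (XT.nd (nat_lit 78) (nat_lit 76) (nat_lit 0) (XT.lf (nat_lit 0) (nat_lit 2185311420) (nat_lit 228) (nat_lit 5836418618) (nat_lit 304) (nat_lit 2102470097) (nat_lit 57) (nat_lit 5) (nat_lit 60) (nat_lit 5) (nat_lit 61) (nat_lit 5) (nat_lit 289) (nat_lit 261) (nat_lit 230)) (XT.lf (nat_lit 0) (nat_lit 414430788) (nat_lit 304) (nat_lit 2064832052) (nat_lit 76) (nat_lit 7921780148) (nat_lit 56) (nat_lit 5) (nat_lit 60) (nat_lit 5) (nat_lit 57)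 (nat_lit 5) (nat_lit 290) (nat_lit 261) (nat_lit 229)))) (XT.nd (nat_lit 78) (nat_lit 228) (nat_lit 0) (XT.lf (nat_lit 0) (nat_lit 3001931918) (nat_lit 304) (nat_lit 6595089284) (nat_lit 76) (nat_lit 1092300760) (nat_lit 53) (nat_lit 5) (nat_lit 57) (nat_lit 5) (nat_lit 54) (nat_lit 5) (nat_lit 291) (nat_lit 261) (nat_lit 228)) (XT.nd (nat_lit 78) (nat_lit 228) (nat_lit 0) (XT.lf (nat_lit 0) (nat_lit 5730064211) (nat_lit 304) (nat_lit 487479918) (nat_lit 76) (nat_lit 4773991679) (nat_lit 53) (nat_lit 5) (nat_lit 57) (nat_lit 5) (nat_lit 54) (nat_lit 5) (nat_lit 292) (nat_lit 261) (nat_lit 227)) (XT.lf (nat_lit 0) (nat_lit 6033934930) (nat_lit 228) (nat_lit 2593036978) (nat_lit 304) (nat_lit 2680349742) (nat_lit 50) (nat_lit 5) (nat_lit 53) (nat_lit 5) (nat_lit 54) (nat_lit 5) (nat_lit 293) (nat_lit 261) (nat_lit 226))))))) (XT.nd (nat_lit 780) (nat_lit 988) (nat_lit 0) (XT.nd (nat_lit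 390) (nat_lit 456) (nat_lit 0) (XT.nd (nat_lit 156) (nat_lit 380) (nat_lit 0) (XT.nd (nat_lit 78) (nat_lit 0) (nat_lit 0) (XT.lf (nat_lit 0) (nat_lit 13954447) (nat_lit 304) (nat_lit 10447012429) (nat_lit 76) (nat_lit 1178724903) (nat_lit 46) (nat_lit 5) (nat_lit 50) (nat_lit 5) (nat_lit 47) (nat_lit 5) (nat_lit 294) (nat_lit 261) (nat_lit 225)) (XT.lf (nat_lit 0) (nat_lit 2826145793) (nat_lit 304) (nat_lit 3993721908) (nat_lit 76) (nat_lit 5163022127) (nat_lit 46) (nat_lit 5) (nat_lit 50) (nat_lit 5) (nat_lit 47) (nat_lit 5) (nat_lit 295) (nat_lit 261) (nat_lit 224))) (XT.nd (nat_lit 78) (nat_lit 228) (nat_lit 0) (XT.lf (nat_lit 0) (nat_lit 2788902434) (nat_lit 152) (nat_lit 2976414530) (nat_lit 228) (nat_lit 6578677907) (nat_lit 44) (nat_lit 5) (nat_lit 46) (nat_lit 5) (nat_lit 47) (nat_lit 5) (nat_lit 296) (nat_lit 261) (nat_lit 223)) (XT.nd (nat_lit 78) (nat_lit 228) (nat_lit 0)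 (XT.lf (nat_lit 0) (nat_lit 8880611015) (nat_lit 228) (nat_lit 2771818894) (nat_lit 76) (nat_lit 1069329520) (nat_lit 44) (nat_lit 5) (nat_lit 47) (nat_lit 5) (nat_lit 45) (nat_lit 5) (nat_lit 297) (nat_lit 261) (nat_lit 222)) (XT.lf (nat_lit 0) (nat_lit 4361702091) (nat_lit 228) (nat_lit 7853414674) (nat_lit 304) (nat_lit 900182603) (nat_lit 41) (nat_lit 5) (nat_lit 44) (nat_lit 5) (nat_lit 45) (nat_lit 5) (nat_lit 298) (nat_lit 261) (nat_lit 221))))) (XT.nd (nat_lit 156) (nat_lit 228) (nat_lit 0) (XT.nd (nat_lit 78) (nat_lit 152) (nat_lit 0) (XT.lf (nat_lit 0) (nat_lit 2112484788) (nat_lit 304) (nat_lit 1693212409) (nat_lit 76) (nat_lit 9721431295) (nat_lit 40) (nat_lit 5) (nat_lit 44) (nat_lit 5) (nat_lit 41) (nat_lit 5) (nat_lit 299) (nat_lit 261) (nat_lit 220)) (XT.lf (nat_lit 0) (nat_lit 5294079442) (nat_lit 228) (nat_lit 8149982187) (nat_lit 76) (nat_lit 512373692) (nat_lit 38)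 (nat_lit 5) (nat_lit 41) (nat_lit 5) (nat_lit 39) (nat_lit 5) (nat_lit 300) (nat_lit 261) (nat_lit 219))) (XT.nd (nat_lit 78) (nat_lit 228) (nat_lit 0) (XT.lf (nat_lit 0) (nat_lit 8676605740) (nat_lit 228) (nat_lit 806046064) (nat_lit 76) (nat_lit 4922512048) (nat_lit 38) (nat_lit 5) (nat_lit 41) (nat_lit 5) (nat_lit 39) (nat_lit 5) (nat_lit 301) (nat_lit 261) (nat_lit 218)) (XT.nd (nat_lit 78) (nat_lit 76) (nat_lit 0) (XT.lf (nat_lit 0) (nat_lit 7057346757) (nat_lit 152) (nat_lit 5233780340) (nat_lit 228) (nat_lit 2582104899) (nat_lit 36) (nat_lit 5) (nat_lit 38) (nat_lit 5) (nat_lit 39) (nat_lit 5) (nat_lit 302) (nat_lit 261) (nat_lit 217)) (XT.lf (nat_lit 0) (nat_lit 665453372) (nat_lit 228) (nat_lit 107646775) (nat_lit 76) (nat_lit 14592738304) (nat_lit 35) (nat_lit 5) (nat_lit 38) (nat_lit 5) (nat_lit 36) (nat_lit 5) (nat_lit 303) (nat_lit 261) (nat_lit 216)))))) (XT.nd (nat_lit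 390) (nat_lit 456) (nat_lit 0) (XT.nd (nat_lit 156) (nat_lit 228) (nat_lit 0) (XT.nd (nat_lit 78) (nat_lit 152) (nat_lit 0) (XT.lf (nat_lit 0) (nat_lit 4134273510) (nat_lit 228) (nat_lit 7806823095) (nat_lit 76) (nat_lit 3932619439) (nat_lit 33) (nat_lit 5) (nat_lit 36) (nat_lit 5) (nat_lit 34) (nat_lit 5) (nat_lit 304) (nat_lit 261) (nat_lit 215)) (XT.lf (nat_lit 0) (nat_lit 168501090) (nat_lit 152) (nat_lit 7581082355) (nat_lit 228) (nat_lit 8658789990) (nat_lit 31) (nat_lit 5) (nat_lit 33) (nat_lit 5) (nat_lit 34) (nat_lit 5) (nat_lit 305) (nat_lit 261) (nat_lit 214))) (XT.nd (nat_lit 78) (nat_lit 228) (nat_lit 0) (XT.lf (nat_lit 0) (nat_lit 8743586075) (nat_lit 152) (nat_lit 2891183317) (nat_lit 228) (nat_lit 5330575308) (nat_lit 31) (nat_lit 5) (nat_lit 33) (nat_lit 5) (nat_lit 34) (nat_lit 5) (nat_lit 306) (nat_lit 261) (nat_lit 213)) (XT.nd (nat_lit 78) (nat_lit 76) (nat_lit 0)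 (XT.lf (nat_lit 0) (nat_lit 100335934) (nat_lit 152) (nat_lit 15605739437) (nat_lit 228) (nat_lit 1844530911) (nat_lit 29) (nat_lit 5) (nat_lit 31) (nat_lit 5) (nat_lit 32) (nat_lit 4) (nat_lit 307) (nat_lit 261) (nat_lit 212)) (XT.lf (nat_lit 0) (nat_lit 1905393668) (nat_lit 228) (nat_lit 9180905473) (nat_lit 76) (nat_lit 7070061091) (nat_lit 28) (nat_lit 5) (nat_lit 31) (nat_lit 5) (nat_lit 29) (nat_lit 5) (nat_lit 308) (nat_lit 261) (nat_lit 211))))) (XT.nd (nat_lit 234) (nat_lit 304) (nat_lit 0) (XT.nd (nat_lit 78) (nat_lit 152) (nat_lit 0) (XT.lf (nat_lit 0) (nat_lit 5741566031) (nat_lit 228) (nat_lit 593723503) (nat_lit 76) (nat_lit 12457593494) (nat_lit 28) (nat_lit 5) (nat_lit 31) (nat_lit 5) (nat_lit 29) (nat_lit 5) (nat_lit 309) (nat_lit 261) (nat_lit 210)) (XT.nd (nat_lit 78) (nat_lit 0) (nat_lit 0) (XT.lf (nat_lit 0) (nat_lit 8636956062) (nat_lit 152) (nat_lit 1230047457)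 (nat_lit 228) (nat_lit 9589384242) (nat_lit 26) (nat_lit 5) (nat_lit 28) (nat_lit 5) (nat_lit 29) (nat_lit 5) (nat_lit 310) (nat_lit 261) (nat_lit 209)) (XT.lf (nat_lit 0) (nat_lit 14236467634) (nat_lit 228) (nat_lit 1930198273) (nat_lit 76) (nat_lit 3984541345) (nat_lit 26) (nat_lit 5) (nat_lit 29) (nat_lit 5) (nat_lit 27) (nat_lit 4) (nat_lit 311) (nat_lit 261) (nat_lit 208)))) (XT.nd (nat_lit 78) (nat_lit 228) (nat_lit 0) (XT.lf (nat_lit 0) (nat_lit 7565707922) (nat_lit 76) (nat_lit 11361790237) (nat_lit 152) (nat_lit 1948140861) (nat_lit 25) (nat_lit 5) (nat_lit 26) (nat_lit 5) (nat_lit 27) (nat_lit 4) (nat_lit 312) (nat_lit 261) (nat_lit 207)) (XT.nd (nat_lit 78) (nat_lit 152) (nat_lit 0) (XT.lf (nat_lit 0) (nat_lit 2144037324) (nat_lit 152) (nat_lit 4126374133) (nat_lit 76) (nat_lit 15364263927) (nat_lit 24) (nat_lit 5) (nat_lit 26) (nat_lit 5) (nat_lit 25) (nat_lit 5) (nat_lit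 313) (nat_lit 261) (nat_lit 206)) (XT.lf (nat_lit 0) (nat_lit 5606739778) (nat_lit 152) (nat_lit 822794894) (nat_lit 228) (nat_lit 15997845455) (nat_lit 22) (nat_lit 5) (nat_lit 24) (nat_lit 5) (nat_lit 25) (nat_lit 5) (nat_lit 314) (nat_lit 261) (nat_lit 205))))))))
noncomputable def xc110 : XT := (XT.nd (nat_lit 1560) (nat_lit 456) (nat_lit 0) (XT.nd (nat_lit 780) (nat_lit 304) (nat_lit 0) (XT.nd (nat_lit 390) (nat_lit 228) (nat_lit 0) (XT.nd (nat_lit 156) (nat_lit 228) (nat_lit 0) (XT.nd (nat_lit 78) (nat_lit 76) (nat_lit 0) (XT.lf (nat_lit 0) (nat_lit 11043780127) (nat_lit 228) (nat_lit 7421561895) (nat_lit 76) (nat_lit 4788675782) (nat_lit 22) (nat_lit 5) (nat_lit 25) (nat_lit 5) (nat_lit 23) (nat_lit 4) (nat_lit 315) (nat_lit 261) (nat_lit 204)) (XT.lf (nat_lit 0) (nat_lit 2457888875) (nat_lit 76) (nat_lit 13451270460) (nat_lit 152) (nat_lit 8211827297) (nat_lit 21) (nat_lit 5)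 (nat_lit 22) (nat_lit 5) (nat_lit 23) (nat_lit 4) (nat_lit 316) (nat_lit 261) (nat_lit 203))) (XT.nd (nat_lit 78) (nat_lit 228) (nat_lit 0) (XT.lf (nat_lit 0) (nat_lit 13035094339) (nat_lit 76) (nat_lit 8077615447) (nat_lit 152) (nat_lit 3913868376) (nat_lit 21) (nat_lit 5) (nat_lit 22) (nat_lit 5) (nat_lit 23) (nat_lit 4) (nat_lit 317) (nat_lit 261) (nat_lit 202)) (XT.nd (nat_lit 78) (nat_lit 152) (nat_lit 0) (XT.lf (nat_lit 0) (nat_lit 549999123) (nat_lit 152) (nat_lit 1897956683) (nat_lit 76) (nat_lit 23530534338) (nat_lit 20) (nat_lit 5) (nat_lit 22) (nat_lit 5) (nat_lit 21) (nat_lit 5) (nat_lit 318) (nat_lit 261) (nat_lit 201)) (XT.lf (nat_lit 0) (nat_lit 5272675997) (nat_lit 228) (nat_lit 18156198321) (nat_lit 76) (nat_lit 3537574672) (nat_lit 18) (nat_lit 5) (nat_lit 21) (nat_lit 5) (nat_lit 19) (nat_lit 4) (nat_lit 319) (nat_lit 261) (nat_lit 200))))) (XT.nd (nat_lit 156) (nat_lit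 152) (nat_lit 0) (XT.nd (nat_lit 78) (nat_lit 76) (nat_lit 0) (XT.lf (nat_lit 0) (nat_lit 10276144592) (nat_lit 228) (nat_lit 7973190949) (nat_lit 76) (nat_lit 9752253282) (nat_lit 18) (nat_lit 5) (nat_lit 21) (nat_lit 5) (nat_lit 19) (nat_lit 4) (nat_lit 320) (nat_lit 261) (nat_lit 199)) (XT.lf (nat_lit 0) (nat_lit 2759579996) (nat_lit 76) (nat_lit 12786489213) (nat_lit 152) (nat_lit 13541617488) (nat_lit 17) (nat_lit 5) (nat_lit 18) (nat_lit 5) (nat_lit 19) (nat_lit 4) (nat_lit 321) (nat_lit 261) (nat_lit 198))) (XT.nd (nat_lit 78) (nat_lit 152) (nat_lit 0) (XT.lf (nat_lit 0) (nat_lit 14258859614) (nat_lit 76) (nat_lit 6929401520) (nat_lit 152) (nat_lit 9034404233) (nat_lit 17) (nat_lit 5) (nat_lit 18) (nat_lit 5) (nat_lit 19) (nat_lit 4) (nat_lit 322) (nat_lit 261) (nat_lit 197)) (XT.nd (nat_lit 78) (nat_lit 152) (nat_lit 0) (XT.lf (nat_lit 0) (nat_lit 26288397438) (nat_lit 76) (nat_lit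 799156864) (nat_lit 152) (nat_lit 4328102854) (nat_lit 17) (nat_lit 5) (nat_lit 18) (nat_lit 5) (nat_lit 19) (nat_lit 4) (nat_lit 323) (nat_lit 261) (nat_lit 196)) (XT.lf (nat_lit 0) (nat_lit 759142104) (nat_lit 152) (nat_lit 26350476596) (nat_lit 76) (nat_lit 5549950151) (nat_lit 15) (nat_lit 5) (nat_lit 17) (nat_lit 5) (nat_lit 16) (nat_lit 4) (nat_lit 324) (nat_lit 261) (nat_lit 195)))))) (XT.nd (nat_lit 390) (nat_lit 228) (nat_lit 0) (XT.nd (nat_lit 156) (nat_lit 76) (nat_lit 0) (XT.nd (nat_lit 78) (nat_lit 0) (nat_lit 0) (XT.lf (nat_lit 0) (nat_lit 6032623975) (nat_lit 152) (nat_lit 15595135745) (nat_lit 76) (nat_lit 12330514314) (nat_lit 15) (nat_lit 5) (nat_lit 17) (nat_lit 5) (nat_lit 16) (nat_lit 4) (nat_lit 325) (nat_lit 261) (nat_lit 194)) (XT.lf (nat_lit 0) (nat_lit 11546894469) (nat_lit 152) (nat_lit 4343545025) (nat_lit 76) (nat_lit 19432630581) (nat_lit 15) (nat_lit 5)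 (nat_lit 17) (nat_lit 5) (nat_lit 16) (nat_lit 4) (nat_lit 326) (nat_lit 261) (nat_lit 193))) (XT.nd (nat_lit 78) (nat_lit 0) (nat_lit 0) (XT.lf (nat_lit 0) (nat_lit 7676790298) (nat_lit 76) (nat_lit 9758148716) (nat_lit 152) (nat_lit 19316274667) (nat_lit 14) (nat_lit 5) (nat_lit 15) (nat_lit 5) (nat_lit 16) (nat_lit 4) (nat_lit 327) (nat_lit 261) (nat_lit 192)) (XT.nd (nat_lit 78) (nat_lit 0) (nat_lit 0) (XT.lf (nat_lit 0) (nat_lit 20410038043) (nat_lit 76) (nat_lit 3259542609) (nat_lit 152) (nat_lit 14578584345) (nat_lit 14) (nat_lit 5) (nat_lit 15) (nat_lit 5) (nat_lit 16) (nat_lit 4) (nat_lit 328) (nat_lit 261) (nat_lit 191)) (XT.lf (nat_lit 0) (nat_lit 30250989755) (nat_lit 152) (nat_lit 6133475965) (nat_lit 0) (nat_lit 3433756174) (nat_lit 14) (nat_lit 5) (nat_lit 16) (nat_lit 4) (nat_lit 14) (nat_lit 4) (nat_lit 329) (nat_lit 261) (nat_lit 190))))) (XT.nd (nat_lit 156) (nat_lit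 76) (nat_lit 0) (XT.nd (nat_lit 78) (nat_lit 76) (nat_lit 0) (XT.lf (nat_lit 0) (nat_lit 6267557888) (nat_lit 76) (nat_lit 31025573503) (nat_lit 76) (nat_lit 4167076461) (nat_lit 13) (nat_lit 4) (nat_lit 14) (nat_lit 5) (nat_lit 14) (nat_lit 4) (nat_lit 330) (nat_lit 261) (nat_lit 189)) (XT.lf (nat_lit 0) (nat_lit 1540985164) (nat_lit 152) (nat_lit 23738775988) (nat_lit 76) (nat_lit 17899066721) (nat_lit 12) (nat_lit 5) (nat_lit 14) (nat_lit 5) (nat_lit 13) (nat_lit 4) (nat_lit 331) (nat_lit 261) (nat_lit 188))) (XT.nd (nat_lit 78) (nat_lit 76) (nat_lit 0) (XT.lf (nat_lit 0) (nat_lit 7375770785) (nat_lit 152) (nat_lit 11814892640) (nat_lit 76) (nat_lit 25790239783) (nat_lit 12) (nat_lit 5) (nat_lit 14) (nat_lit 5) (nat_lit 13) (nat_lit 4) (nat_lit 332) (nat_lit 261) (nat_lit 187)) (XT.nd (nat_lit 78) (nat_lit 0) (nat_lit 0) (XT.lf (nat_lit 0) (nat_lit 694684253) (nat_lit 76) (nat_lit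 12800706932) (nat_lit 152) (nat_lit 33378044015) (nat_lit 11) (nat_lit 5) (nat_lit 12) (nat_lit 5) (nat_lit 13) (nat_lit 4) (nat_lit 333) (nat_lit 261) (nat_lit 186)) (XT.lf (nat_lit 0) (nat_lit 14207719512) (nat_lit 76) (nat_lit 5895955971) (nat_lit 152) (nat_lit 28747791468) (nat_lit 11) (nat_lit 5) (nat_lit 12) (nat_lit 5) (nat_lit 13) (nat_lit 4) (nat_lit 334) (nat_lit 261) (nat_lit 185))))))) (XT.nd (nat_lit 780) (nat_lit 228) (nat_lit 0) (XT.nd (nat_lit 390) (nat_lit 152) (nat_lit 0) (XT.nd (nat_lit 156) (nat_lit 76) (nat_lit 0) (XT.nd (nat_lit 78) (nat_lit 0) (nat_lit 0) (XT.lf (nat_lit 0) (nat_lit 27046715096) (nat_lit 152) (nat_lit 22584423072) (nat_lit 0) (nat_lit 1297052020) (nat_lit 11) (nat_lit 5) (nat_lit 13) (nat_lit 4) (nat_lit 11) (nat_lit 4) (nat_lit 335) (nat_lit 261) (nat_lit 184)) (XT.lf (nat_lit 0) (nat_lit 34417562523) (nat_lit 152) (nat_lit 10048586618) (nat_lit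 0) (nat_lit 8638574276) (nat_lit 11) (nat_lit 5) (nat_lit 13) (nat_lit 4) (nat_lit 11) (nat_lit 4) (nat_lit 336) (nat_lit 261) (nat_lit 183))) (XT.nd (nat_lit 78) (nat_lit 0) (nat_lit 0) (XT.lf (nat_lit 0) (nat_lit 3187687451) (nat_lit 76) (nat_lit 39003796288) (nat_lit 76) (nat_lit 13196879306) (nat_lit 10) (nat_lit 4) (nat_lit 11) (nat_lit 5) (nat_lit 11) (nat_lit 4) (nat_lit 337) (nat_lit 261) (nat_lit 182)) (XT.nd (nat_lit 78) (nat_lit 0) (nat_lit 0) (XT.lf (nat_lit 0) (nat_lit 17406717095) (nat_lit 76) (nat_lit 33102613921) (nat_lit 76) (nat_lit 7269098145) (nat_lit 10) (nat_lit 4) (nat_lit 11) (nat_lit 5) (nat_lit 11) (nat_lit 4) (nat_lit 338) (nat_lit 261) (nat_lit 181)) (XT.lf (nat_lit 0) (nat_lit 32310105489) (nat_lit 76) (nat_lit 26918729285) (nat_lit 76) (nat_lit 1059881324) (nat_lit 10) (nat_lit 4) (nat_lit 11) (nat_lit 5) (nat_lit 11) (nat_lit 4) (nat_lit 339) (nat_lit 261)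 (nat_lit 180))))) (XT.nd (nat_lit 156) (nat_lit 76) (nat_lit 0) (XT.nd (nat_lit 78) (nat_lit 0) (nat_lit 0) (XT.lf (nat_lit 0) (nat_lit 5271263239) (nat_lit 152) (nat_lit 15076884212) (nat_lit 76) (nat_lit 42572802260) (nat_lit 9) (nat_lit 5) (nat_lit 11) (nat_lit 5) (nat_lit 10) (nat_lit 4) (nat_lit 340) (nat_lit 261) (nat_lit 179)) (XT.lf (nat_lit 0) (nat_lit 11870217001) (nat_lit 152) (nat_lit 1572006037) (nat_lit 76) (nat_lit 52242364605) (nat_lit 9) (nat_lit 5) (nat_lit 11) (nat_lit 5) (nat_lit 10) (nat_lit 4) (nat_lit 341) (nat_lit 261) (nat_lit 178))) (XT.nd (nat_lit 78) (nat_lit 0) (nat_lit 0) (XT.lf (nat_lit 0) (nat_lit 13000833982) (nat_lit 76) (nat_lit 5988760050) (nat_lit 152) (nat_lit 49587294369) (nat_lit 8) (nat_lit 5) (nat_lit 9) (nat_lit 5) (nat_lit 10) (nat_lit 4) (nat_lit 342) (nat_lit 261) (nat_lit 177)) (XT.nd (nat_lit 78) (nat_lit 0) (nat_lit 0) (XT.lf (nat_lit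 0) (nat_lit 26508250124) (nat_lit 152) (nat_lit 43308166383) (nat_lit 0) (nat_lit 1795226661) (nat_lit 8) (nat_lit 5) (nat_lit 10) (nat_lit 4) (nat_lit 8) (nat_lit 4) (nat_lit 343) (nat_lit 261) (nat_lit 176)) (XT.lf (nat_lit 0) (nat_lit 34489172080) (nat_lit 152) (nat_lit 30547405858) (nat_lit 0) (nat_lit 9757245350) (nat_lit 8) (nat_lit 5) (nat_lit 10) (nat_lit 4) (nat_lit 8) (nat_lit 4) (nat_lit 344) (nat_lit 261) (nat_lit 175)))))) (XT.nd (nat_lit 390) (nat_lit 152) (nat_lit 0) (XT.nd (nat_lit 156) (nat_lit 76) (nat_lit 0) (XT.nd (nat_lit 78) (nat_lit 0) (nat_lit 0) (XT.lf (nat_lit 0) (nat_lit 42857860768) (nat_lit 152) (nat_lit 17169888756) (nat_lit 0) (nat_lit 18107930927) (nat_lit 8) (nat_lit 5) (nat_lit 10) (nat_lit 4) (nat_lit 8) (nat_lit 4) (nat_lit 345) (nat_lit 261) (nat_lit 174)) (XT.lf (nat_lit 0) (nat_lit 51634241636) (nat_lit 152) (nat_lit 3143763843) (nat_lit 0) (nat_lit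 26867165975) (nat_lit 8) (nat_lit 5) (nat_lit 10) (nat_lit 4) (nat_lit 8) (nat_lit 4) (nat_lit 346) (nat_lit 261) (nat_lit 173))) (XT.nd (nat_lit 78) (nat_lit 0) (nat_lit 0) (XT.lf (nat_lit 0) (nat_lit 11946734527) (nat_lit 76) (nat_lit 49078998310) (nat_lit 76) (nat_lit 24295593296) (nat_lit 7) (nat_lit 4) (nat_lit 8) (nat_lit 5) (nat_lit 8) (nat_lit 4) (nat_lit 347) (nat_lit 261) (nat_lit 172)) (XT.nd (nat_lit 78) (nat_lit 0) (nat_lit 0) (XT.lf (nat_lit 0) (nat_lit 27881910636) (nat_lit 76) (nat_lit 43048089072) (nat_lit 76) (nat_lit 18249132294) (nat_lit 7) (nat_lit 4) (nat_lit 8) (nat_lit 5) (nat_lit 8) (nat_lit 4) (nat_lit 348) (nat_lit 261) (nat_lit 171)) (XT.lf (nat_lit 0) (nat_lit 44595758347) (nat_lit 76) (nat_lit 36724159621) (nat_lit 76) (nat_lit 11910391639) (nat_lit 7) (nat_lit 4) (nat_lit 8) (nat_lit 5) (nat_lit 8) (nat_lit 4) (nat_lit 349) (nat_lit 261) (nat_lit 170)))))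 (XT.nd (nat_lit 234) (nat_lit 76) (nat_lit 0) (XT.nd (nat_lit 78) (nat_lit 76) (nat_lit 0) (XT.lf (nat_lit 0) (nat_lit 62128072535) (nat_lit 76) (nat_lit 30092152981) (nat_lit 76) (nat_lit 5264279091) (nat_lit 7) (nat_lit 4) (nat_lit 8) (nat_lit 5) (nat_lit 8) (nat_lit 4) (nat_lit 350) (nat_lit 261) (nat_lit 169)) (XT.nd (nat_lit 78) (nat_lit 0) (nat_lit 0) (XT.lf (nat_lit 0) (nat_lit 1650457836) (nat_lit 152) (nat_lit 21457869523) (nat_lit 76) (nat_lit 78842187669) (nat_lit 6) (nat_lit 5) (nat_lit 8) (nat_lit 5) (nat_lit 7) (nat_lit 4) (nat_lit 351) (nat_lit 261) (nat_lit 168)) (XT.lf (nat_lit 0) (nat_lit 8725619131) (nat_lit 152) (nat_lit 6966583343) (nat_lit 76) (nat_lit 90943731173) (nat_lit 6) (nat_lit 5) (nat_lit 8) (nat_lit 5) (nat_lit 7) (nat_lit 4) (nat_lit 352) (nat_lit 261) (nat_lit 167)))) (XT.nd (nat_lit 78) (nat_lit 0) (nat_lit 0) (XT.lf (nat_lit 0) (nat_lit 8506376862)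 (nat_lit 76) (nat_lit 7772971742) (nat_lit 152) (nat_lit 95270036709) (nat_lit 5) (nat_lit 5) (nat_lit 6) (nat_lit 5) (nat_lit 7) (nat_lit 4) (nat_lit 353) (nat_lit 261) (nat_lit 166)) (XT.nd (nat_lit 78) (nat_lit 0) (nat_lit 0) (XT.lf (nat_lit 0) (nat_lit 24331186535) (nat_lit 152) (nat_lit 91733349073) (nat_lit 0) (nat_lit 637955350) (nat_lit 5) (nat_lit 5) (nat_lit 7) (nat_lit 4) (nat_lit 5) (nat_lit 4) (nat_lit 354) (nat_lit 261) (nat_lit 165)) (XT.lf (nat_lit 0) (nat_lit 32905460988) (nat_lit 152) (nat_lit 80000097286) (nat_lit 0) (nat_lit 9201703757) (nat_lit 5) (nat_lit 5) (nat_lit 7) (nat_lit 4) (nat_lit 5) (nat_lit 4) (nat_lit 355) (nat_lit 261) (nat_lit 164))))))))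
noncomputable def xc111 : XT := (XT.nd (nat_lit 1638) (nat_lit 0) (nat_lit 0) (XT.nd (nat_lit 780) (nat_lit 152) (nat_lit 0) (XT.nd (nat_lit 390) (nat_lit 76) (nat_lit 0) (XT.nd (nat_lit 156) (nat_lit 0) (nat_lit 0) (XT.nd (nat_lit 78) (nat_lit 0) (nat_lit 0) (XT.lf (nat_lit 0) (nat_lit 41901229031) (nat_lit 152) (nat_lit 67693958905) (nat_lit 0) (nat_lit 18187446994) (nat_lit 5) (nat_lit 5) (nat_lit 7) (nat_lit 4) (nat_lit 5) (nat_lit 4) (nat_lit 356) (nat_lit 261) (nat_lit 163)) (XT.lf (nat_lit 0) (nat_lit 51339909158) (nat_lit 152) (nat_lit 54785633599) (nat_lit 0) (nat_lit 27616579687) (nat_lit 5) (nat_lit 5) (nat_lit 7) (nat_lit 4) (nat_lit 5) (nat_lit 4) (nat_lit 357) (nat_lit 261) (nat_lit 162))) (XT.nd (nat_lit 78) (nat_lit 0) (nat_lit 0) (XT.lf (nat_lit 0) (nat_lit 61243974417) (nat_lit 152) (nat_lit 41244387261) (nat_lit 0) (nat_lit 37511552152) (nat_lit 5) (nat_lit 5) (nat_lit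 7) (nat_lit 4) (nat_lit 5) (nat_lit 4) (nat_lit 358) (nat_lit 261) (nat_lit 161)) (XT.nd (nat_lit 78) (nat_lit 0) (nat_lit 0) (XT.lf (nat_lit 0) (nat_lit 71637005917) (nat_lit 152) (nat_lit 27037978829) (nat_lit 0) (nat_lit 47895923848) (nat_lit 5) (nat_lit 5) (nat_lit 7) (nat_lit 4) (nat_lit 5) (nat_lit 4) (nat_lit 359) (nat_lit 261) (nat_lit 160)) (XT.lf (nat_lit 0) (nat_lit 82543748971) (nat_lit 152) (nat_lit 12132583520) (nat_lit 0) (nat_lit 58794419469) (nat_lit 5) (nat_lit 5) (nat_lit 7) (nat_lit 4) (nat_lit 5) (nat_lit 4) (nat_lit 360) (nat_lit 261) (nat_lit 159))))) (XT.nd (nat_lit 156) (nat_lit 0) (nat_lit 0) (XT.nd (nat_lit 78) (nat_lit 0) (nat_lit 0) (XT.lf (nat_lit 0) (nat_lit 3623254471) (nat_lit 76) (nat_lit 90423486698) (nat_lit 76) (nat_lit 66666302499) (nat_lit 4) (nat_lit 4) (nat_lit 5) (nat_lit 5) (nat_lit 5) (nat_lit 4) (nat_lit 361) (nat_lit 261) (nat_lit 158)) (XT.lf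 (nat_lit 0) (nat_lit 20577480510) (nat_lit 76) (nat_lit 85747320063) (nat_lit 76) (nat_lit 61982655199) (nat_lit 4) (nat_lit 4) (nat_lit 5) (nat_lit 5) (nat_lit 5) (nat_lit 4) (nat_lit 362) (nat_lit 261) (nat_lit 157))) (XT.nd (nat_lit 78) (nat_lit 0) (nat_lit 0) (XT.lf (nat_lit 0) (nat_lit 38369303795) (nat_lit 76) (nat_lit 80842170028) (nat_lit 76) (nat_lit 57070380722) (nat_lit 4) (nat_lit 4) (nat_lit 5) (nat_lit 5) (nat_lit 5) (nat_lit 4) (nat_lit 363) (nat_lit 261) (nat_lit 156)) (XT.nd (nat_lit 78) (nat_lit 0) (nat_lit 0) (XT.lf (nat_lit 0) (nat_lit 57041085810) (nat_lit 76) (nat_lit 75696357666) (nat_lit 76) (nat_lit 51917783176) (nat_lit 4) (nat_lit 4) (nat_lit 5) (nat_lit 5) (nat_lit 5) (nat_lit 4) (nat_lit 364) (nat_lit 261) (nat_lit 155)) (XT.lf (nat_lit 0) (nat_lit 76637283181) (nat_lit 76) (nat_lit 70297631041) (nat_lit 76) (nat_lit 46512594472) (nat_lit 4) (nat_lit 4) (nat_lit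 5) (nat_lit 5) (nat_lit 5) (nat_lit 4) (nat_lit 365) (nat_lit 261) (nat_lit 154)))))) (XT.nd (nat_lit 390) (nat_lit 152) (nat_lit 0) (XT.nd (nat_lit 156) (nat_lit 0) (nat_lit 0) (XT.nd (nat_lit 78) (nat_lit 0) (nat_lit 0) (XT.lf (nat_lit 0) (nat_lit 97204553518) (nat_lit 76) (nat_lit 64633136043) (nat_lit 76) (nat_lit 40841945113) (nat_lit 4) (nat_lit 4) (nat_lit 5) (nat_lit 5) (nat_lit 5) (nat_lit 4) (nat_lit 366) (nat_lit 261) (nat_lit 153)) (XT.lf (nat_lit 0) (nat_lit 118791866515) (nat_lit 76) (nat_lit 58689385779) (nat_lit 76) (nat_lit 34892333553) (nat_lit 4) (nat_lit 4) (nat_lit 5) (nat_lit 5) (nat_lit 5) (nat_lit 4) (nat_lit 367) (nat_lit 261) (nat_lit 152))) (XT.nd (nat_lit 78) (nat_lit 0) (nat_lit 0) (XT.lf (nat_lit 0) (nat_lit 141450620534) (nat_lit 76) (nat_lit 52452228463) (nat_lit 76) (nat_lit 28649594049) (nat_lit 4) (nat_lit 4) (nat_lit 5) (nat_lit 5) (nat_lit 5) (nat_lit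 4) (nat_lit 368) (nat_lit 261) (nat_lit 151)) (XT.nd (nat_lit 78) (nat_lit 0) (nat_lit 0) (XT.lf (nat_lit 0) (nat_lit 165234764991) (nat_lit 76) (nat_lit 45906813720) (nat_lit 76) (nat_lit 22098862937) (nat_lit 4) (nat_lit 4) (nat_lit 5) (nat_lit 5) (nat_lit 5) (nat_lit 4) (nat_lit 369) (nat_lit 261) (nat_lit 150)) (XT.lf (nat_lit 0) (nat_lit 190200928800) (nat_lit 76) (nat_lit 39037557229) (nat_lit 76) (nat_lit 15224543238) (nat_lit 4) (nat_lit 4) (nat_lit 5) (nat_lit 5) (nat_lit 5) (nat_lit 4) (nat_lit 370) (nat_lit 261) (nat_lit 149))))) (XT.nd (nat_lit 234) (nat_lit 76) (nat_lit 0) (XT.nd (nat_lit 78) (nat_lit 76) (nat_lit 0) (XT.lf (nat_lit 0) (nat_lit 216408555209) (nat_lit 76) (nat_lit 31828103617) (nat_lit 76) (nat_lit 8010267524) (nat_lit 4) (nat_lit 4) (nat_lit 5) (nat_lit 5) (nat_lit 5) (nat_lit 4) (nat_lit 371) (nat_lit 261) (nat_lit 148)) (XT.nd (nat_lit 78) (nat_lit 76)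 (nat_lit 0) (XT.lf (nat_lit 0) (nat_lit 243920043329) (nat_lit 76) (nat_lit 24261287520) (nat_lit 76) (nat_lit 438858947) (nat_lit 4) (nat_lit 4) (nat_lit 5) (nat_lit 5) (nat_lit 5) (nat_lit 4) (nat_lit 372) (nat_lit 261) (nat_lit 147)) (XT.lf (nat_lit 0) (nat_lit 7267416058) (nat_lit 152) (nat_lit 8928599442) (nat_lit 76) (nat_lit 265410403435) (nat_lit 3) (nat_lit 5) (nat_lit 5) (nat_lit 5) (nat_lit 4) (nat_lit 4) (nat_lit 373) (nat_lit 261) (nat_lit 146)))) (XT.nd (nat_lit 78) (nat_lit 0) (nat_lit 0) (XT.lf (nat_lit 0) (nat_lit 7870208001) (nat_lit 76) (nat_lit 7593780231) (nat_lit 152) (nat_lit 279771625877) (nat_lit 2) (nat_lit 5) (nat_lit 3) (nat_lit 5) (nat_lit 4) (nat_lit 4) (nat_lit 374) (nat_lit 261) (nat_lit 145)) (XT.nd (nat_lit 78) (nat_lit 0) (nat_lit 0) (XT.lf (nat_lit 0) (nat_lit 24243407050) (nat_lit 152) (nat_lit 283750743019) (nat_lit 0) (nat_lit 1543468924) (nat_lit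 2) (nat_lit 5) (nat_lit 4) (nat_lit 4) (nat_lit 2) (nat_lit 4) (nat_lit 375) (nat_lit 261) (nat_lit 144)) (XT.lf (nat_lit 0) (nat_lit 33583303074) (nat_lit 152) (nat_lit 280085579927) (nat_lit 0) (nat_lit 10879766620) (nat_lit 2) (nat_lit 5) (nat_lit 4) (nat_lit 4) (nat_lit 2) (nat_lit 4) (nat_lit 376) (nat_lit 261) (nat_lit 143))))))) (XT.nd (nat_lit 780) (nat_lit 0) (nat_lit 0) (XT.nd (nat_lit 390) (nat_lit 0) (nat_lit 0) (XT.nd (nat_lit 156) (nat_lit 0) (nat_lit 0) (XT.nd (nat_lit 78) (nat_lit 0) (nat_lit 0) (XT.lf (nat_lit 0) (nat_lit 43387353960) (nat_lit 152) (nat_lit 276242630063) (nat_lit 0) (nat_lit 20680390528) (nat_lit 2) (nat_lit 5) (nat_lit 4) (nat_lit 4) (nat_lit 2) (nat_lit 4) (nat_lit 377) (nat_lit 261) (nat_lit 142)) (XT.lf (nat_lit 0) (nat_lit 53678902688) (nat_lit 152) (nat_lit 272212743545) (nat_lit 0) (nat_lit 30968675466) (nat_lit 2) (nat_lit 5) (nat_lit 4) (nat_lit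 4) (nat_lit 2) (nat_lit 4) (nat_lit 378) (nat_lit 261) (nat_lit 141))) (XT.nd (nat_lit 78) (nat_lit 0) (nat_lit 0) (XT.lf (nat_lit 0) (nat_lit 64482452944) (nat_lit 152) (nat_lit 267986325407) (nat_lit 0) (nat_lit 41769117352) (nat_lit 2) (nat_lit 5) (nat_lit 4) (nat_lit 4) (nat_lit 2) (nat_lit 4) (nat_lit 379) (nat_lit 261) (nat_lit 140)) (XT.nd (nat_lit 78) (nat_lit 0) (nat_lit 0) (XT.lf (nat_lit 0) (nat_lit 75823727467) (nat_lit 152) (nat_lit 263553312748) (nat_lit 0) (nat_lit 53107431522) (nat_lit 2) (nat_lit 5) (nat_lit 4) (nat_lit 4) (nat_lit 2) (nat_lit 4) (nat_lit 380) (nat_lit 261) (nat_lit 139)) (XT.lf (nat_lit 0) (nat_lit 87729729292) (nat_lit 152) (nat_lit 258903150776) (nat_lit 0) (nat_lit 65010613964) (nat_lit 2) (nat_lit 5) (nat_lit 4) (nat_lit 4) (nat_lit 2) (nat_lit 4) (nat_lit 381) (nat_lit 261) (nat_lit 138))))) (XT.nd (nat_lit 156) (nat_lit 0) (nat_lit 0) (XT.nd (nat_lit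 78) (nat_lit 0) (nat_lit 0) (XT.lf (nat_lit 0) (nat_lit 100228806042) (nat_lit 152) (nat_lit 254024767676) (nat_lit 0) (nat_lit 77507005587) (nat_lit 2) (nat_lit 5) (nat_lit 4) (nat_lit 4) (nat_lit 2) (nat_lit 4) (nat_lit 382) (nat_lit 261) (nat_lit 137)) (XT.lf (nat_lit 0) (nat_lit 113350717425) (nat_lit 152) (nat_lit 248906548251) (nat_lit 0) (nat_lit 90626359705) (nat_lit 2) (nat_lit 5) (nat_lit 4) (nat_lit 4) (nat_lit 2) (nat_lit 4) (nat_lit 383) (nat_lit 261) (nat_lit 136))) (XT.nd (nat_lit 78) (nat_lit 0) (nat_lit 0) (XT.lf (nat_lit 0) (nat_lit 127126706085) (nat_lit 152) (nat_lit 243536306264) (nat_lit 0) (nat_lit 104399912875) (nat_lit 2) (nat_lit 5) (nat_lit 4) (nat_lit 4) (nat_lit 2) (nat_lit 4) (nat_lit 384) (nat_lit 261) (nat_lit 135)) (XT.nd (nat_lit 78) (nat_lit 0) (nat_lit 0) (XT.lf (nat_lit 0) (nat_lit 141589571996) (nat_lit 152) (nat_lit 237901255424) (nat_lit 0) (nat_lit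 118860459272) (nat_lit 2) (nat_lit 5) (nat_lit 4) (nat_lit 4) (nat_lit 2) (nat_lit 4) (nat_lit 385) (nat_lit 261) (nat_lit 134)) (XT.lf (nat_lit 0) (nat_lit 156773750553) (nat_lit 152) (nat_lit 231987978944) (nat_lit 0) (nat_lit 134042428768) (nat_lit 2) (nat_lit 5) (nat_lit 4) (nat_lit 4) (nat_lit 2) (nat_lit 4) (nat_lit 386) (nat_lit 261) (nat_lit 133)))))) (XT.nd (nat_lit 31044) (nat_lit 0) (nat_lit 9576) (XT.nd (nat_lit 156) (nat_lit 0) (nat_lit 0) (XT.nd (nat_lit 78) (nat_lit 0) (nat_lit 0) (XT.lf (nat_lit 0) (nat_lit 172715394562) (nat_lit 152) (nat_lit 225782397595) (nat_lit 0) (nat_lit 149981968909) (nat_lit 2) (nat_lit 5) (nat_lit 4) (nat_lit 4) (nat_lit 2) (nat_lit 4) (nat_lit 387) (nat_lit 261) (nat_lit 132)) (XT.lf (nat_lit 0) (nat_lit 189452460318) (nat_lit 152) (nat_lit 219269736181) (nat_lit 0) (nat_lit 166717030982) (nat_lit 2) (nat_lit 5) (nat_lit 4) (nat_lit 4) (nat_lit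 2) (nat_lit 4) (nat_lit 388) (nat_lit 261) (nat_lit 131))) (XT.nd (nat_lit 30732) (nat_lit 0) (nat_lit 10184) (XT.lf (nat_lit 0) (nat_lit 207024797978) (nat_lit 152) (nat_lit 212434488368) (nat_lit 0) (nat_lit 184287460373) (nat_lit 2) (nat_lit 5) (nat_lit 4) (nat_lit 4) (nat_lit 2) (nat_lit 4) (nat_lit 389) (nat_lit 261) (nat_lit 130)) (XT.nd (nat_lit 78) (nat_lit 228) (nat_lit 0) (XT.lf (nat_lit 0) (nat_lit 2401158225) (nat_lit 228) (nat_lit 421665457) (nat_lit 228) (nat_lit 421665457) (nat_lit 139) (nat_lit 3) (nat_lit 142) (nat_lit 3) (nat_lit 142) (nat_lit 5) (nat_lit 262) (nat_lit 262) (nat_lit 256)) (XT.lf (nat_lit 0) (nat_lit 904240728) (nat_lit 228) (nat_lit 4261759595) (nat_lit 304) (nat_lit 1350450216) (nat_lit 136) (nat_lit 5) (nat_lit 139) (nat_lit 3) (nat_lit 140) (nat_lit 5) (nat_lit 263) (nat_lit 262) (nat_lit 255))))) (XT.nd (nat_lit 234) (nat_lit 304) (nat_lit 0) (XT.nd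 (nat_lit 78) (nat_lit 304) (nat_lit 0) (XT.lf (nat_lit 0) (nat_lit 3418442732) (nat_lit 228) (nat_lit 1128280528) (nat_lit 304) (nat_lit 2005130632) (nat_lit 136) (nat_lit 5) (nat_lit 139) (nat_lit 3) (nat_lit 140) (nat_lit 5) (nat_lit 264) (nat_lit 262) (nat_lit 254)) (XT.nd (nat_lit 78) (nat_lit 304) (nat_lit 0) (XT.lf (nat_lit 76) (nat_lit 2142142684) (nat_lit 0) (nat_lit 3793391160) (nat_lit 304) (nat_lit 660074475) (nat_lit 137) (nat_lit 5) (nat_lit 136) (nat_lit 5) (nat_lit 140) (nat_lit 5) (nat_lit 265) (nat_lit 262) (nat_lit 253)) (XT.lf (nat_lit 0) (nat_lit 1741308095) (nat_lit 304) (nat_lit 1148217920) (nat_lit 380) (nat_lit 3757592728) (nat_lit 132) (nat_lit 5) (nat_lit 136) (nat_lit 5) (nat_lit 137) (nat_lit 5) (nat_lit 266) (nat_lit 262) (nat_lit 252)))) (XT.nd (nat_lit 78) (nat_lit 304) (nat_lit 0) (XT.lf (nat_lit 76) (nat_lit 2297060990) (nat_lit 0) (nat_lit 1833619205)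 (nat_lit 380) (nat_lit 2575858252) (nat_lit 133) (nat_lit 5) (nat_lit 132) (nat_lit 5) (nat_lit 137) (nat_lit 5) (nat_lit 267) (nat_lit 262) (nat_lit 251)) (XT.nd (nat_lit 78) (nat_lit 304) (nat_lit 0) (XT.lf (nat_lit 76) (nat_lit 5867955021) (nat_lit 0) (nat_lit 650841443) (nat_lit 380) (nat_lit 256530765) (nat_lit 133) (nat_lit 5) (nat_lit 132) (nat_lit 5) (nat_lit 137) (nat_lit 5) (nat_lit 268) (nat_lit 262) (nat_lit 250)) (XT.lf (nat_lit 0) (nat_lit 2026979325) (nat_lit 380) (nat_lit 4125917750) (nat_lit 76) (nat_lit 697388262) (nat_lit 128) (nat_lit 5) (nat_lit 133) (nat_lit 5) (nat_lit 129) (nat_lit 5) (nat_lit 269) (nat_lit 262) (nat_lit 249))))))))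
noncomputable def xc112 : XT := (XT.nd (nat_lit 1560) (nat_lit 2584) (nat_lit 0) (XT.nd (nat_lit 780) (nat_lit 1748) (nat_lit 0) (XT.nd (nat_lit 390) (nat_lit 1976) (nat_lit 0) (XT.nd (nat_lit 156) (nat_lit 1064) (nat_lit 0) (XT.nd (nat_lit 78) (nat_lit 380) (nat_lit 0) (XT.lf (nat_lit 0) (nat_lit 4312155590) (nat_lit 380) (nat_lit 467525393) (nat_lit 76) (nat_lit 2154607104) (nat_lit 128) (nat_lit 5) (nat_lit 133) (nat_lit 5) (nat_lit 129) (nat_lit 5) (nat_lit 270) (nat_lit 262) (nat_lit 248)) (XT.lf (nat_lit 0) (nat_lit 3393473397) (nat_lit 380) (nat_lit 3247121331) (nat_lit 456) (nat_lit 385743758) (nat_lit 123) (nat_lit 5) (nat_lit 128) (nat_lit 5) (nat_lit 129) (nat_lit 5) (nat_lit 271) (nat_lit 262) (nat_lit 247))) (XT.nd (nat_lit 78) (nat_lit 532) (nat_lit 0) (XT.lf (nat_lit 0) (nat_lit 225832402) (nat_lit 456) (nat_lit 1563721993) (nat_lit 532) (nat_lit 5337680010) (nat_lit 116)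 (nat_lit 5) (nat_lit 122) (nat_lit 5) (nat_lit 123) (nat_lit 5) (nat_lit 272) (nat_lit 262) (nat_lit 246)) (XT.nd (nat_lit 78) (nat_lit 532) (nat_lit 0) (XT.lf (nat_lit 0) (nat_lit 4009502463) (nat_lit 532) (nat_lit 2933870970) (nat_lit 76) (nat_lit 292300251) (nat_lit 116) (nat_lit 5) (nat_lit 123) (nat_lit 5) (nat_lit 117) (nat_lit 5) (nat_lit 273) (nat_lit 262) (nat_lit 245)) (XT.lf (nat_lit 0) (nat_lit 1151006149) (nat_lit 532) (nat_lit 5121745076) (nat_lit 608) (nat_lit 1080413468) (nat_lit 109) (nat_lit 5) (nat_lit 116) (nat_lit 5) (nat_lit 117) (nat_lit 5) (nat_lit 274) (nat_lit 262) (nat_lit 244))))) (XT.nd (nat_lit 156) (nat_lit 1292) (nat_lit 0) (XT.nd (nat_lit 78) (nat_lit 608) (nat_lit 0) (XT.lf (nat_lit 0) (nat_lit 1076196258) (nat_lit 608) (nat_lit 2045771030) (nat_lit 76) (nat_lit 4356814937) (nat_lit 108) (nat_lit 5) (nat_lit 116) (nat_lit 5) (nat_lit 109) (nat_lit 5)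 (nat_lit 275) (nat_lit 262) (nat_lit 243)) (XT.lf (nat_lit 0) (nat_lit 2283735096) (nat_lit 608) (nat_lit 952052265) (nat_lit 684) (nat_lit 4377646272) (nat_lit 100) (nat_lit 5) (nat_lit 108) (nat_lit 5) (nat_lit 109) (nat_lit 5) (nat_lit 276) (nat_lit 262) (nat_lit 242))) (XT.nd (nat_lit 78) (nat_lit 1292) (nat_lit 0) (XT.lf (nat_lit 0) (nat_lit 5458849747) (nat_lit 684) (nat_lit 967669825) (nat_lit 76) (nat_lit 1330724958) (nat_lit 100) (nat_lit 5) (nat_lit 109) (nat_lit 5) (nat_lit 101) (nat_lit 5) (nat_lit 277) (nat_lit 262) (nat_lit 241)) (XT.nd (nat_lit 78) (nat_lit 608) (nat_lit 0) (XT.lf (nat_lit 0) (nat_lit 3623248581) (nat_lit 684) (nat_lit 4146345018) (nat_lit 760) (nat_lit 140017863) (nat_lit 91) (nat_lit 5) (nat_lit 100) (nat_lit 5) (nat_lit 101) (nat_lit 5) (nat_lit 278) (nat_lit 262) (nat_lit 240)) (XT.lf (nat_lit 0) (nat_lit 293030147) (nat_lit 532) (nat_lit 1692263049)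 (nat_lit 608) (nat_lit 6086464280) (nat_lit 83) (nat_lit 5) (nat_lit 90) (nat_lit 5) (nat_lit 91) (nat_lit 5) (nat_lit 279) (nat_lit 262) (nat_lit 239)))))) (XT.nd (nat_lit 390) (nat_lit 988) (nat_lit 0) (XT.nd (nat_lit 156) (nat_lit 380) (nat_lit 0) (XT.nd (nat_lit 78) (nat_lit 380) (nat_lit 0) (XT.lf (nat_lit 0) (nat_lit 4208691220) (nat_lit 608) (nat_lit 3100147871) (nat_lit 76) (nat_lit 933396362) (nat_lit 83) (nat_lit 5) (nat_lit 91) (nat_lit 5) (nat_lit 84) (nat_lit 5) (nat_lit 280) (nat_lit 262) (nat_lit 238)) (XT.lf (nat_lit 0) (nat_lit 1750476096) (nat_lit 380) (nat_lit 4761126703) (nat_lit 456) (nat_lit 1911375231) (nat_lit 78) (nat_lit 5) (nat_lit 83) (nat_lit 5) (nat_lit 84) (nat_lit 5) (nat_lit 281) (nat_lit 262) (nat_lit 237))) (XT.nd (nat_lit 78) (nat_lit 304) (nat_lit 0) (XT.lf (nat_lit 0) (nat_lit 274616878) (nat_lit 456) (nat_lit 1756364334) (nat_lit 76) (nat_lit 6583279466)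 (nat_lit 77) (nat_lit 5) (nat_lit 83) (nat_lit 5) (nat_lit 78) (nat_lit 5) (nat_lit 282) (nat_lit 262) (nat_lit 236)) (XT.nd (nat_lit 78) (nat_lit 0) (nat_lit 0) (XT.lf (nat_lit 0) (nat_lit 2491592882) (nat_lit 380) (nat_lit 5433828128) (nat_lit 76) (nat_lit 888960181) (nat_lit 73) (nat_lit 5) (nat_lit 78) (nat_lit 5) (nat_lit 74) (nat_lit 5) (nat_lit 283) (nat_lit 262) (nat_lit 235)) (XT.lf (nat_lit 0) (nat_lit 4803937983) (nat_lit 380) (nat_lit 311385207) (nat_lit 76) (nat_lit 3910088417) (nat_lit 73) (nat_lit 5) (nat_lit 78) (nat_lit 5) (nat_lit 74) (nat_lit 5) (nat_lit 284) (nat_lit 262) (nat_lit 234))))) (XT.nd (nat_lit 156) (nat_lit 304) (nat_lit 0) (XT.nd (nat_lit 78) (nat_lit 380) (nat_lit 0) (XT.lf (nat_lit 0) (nat_lit 5146297657) (nat_lit 304) (nat_lit 2090706070) (nat_lit 380) (nat_lit 2009858353) (nat_lit 69) (nat_lit 5) (nat_lit 73) (nat_lit 5) (nat_lit 74) (nat_lit 5) (nat_lit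 285) (nat_lit 262) (nat_lit 233)) (XT.lf (nat_lit 0) (nat_lit 271915766) (nat_lit 380) (nat_lit 8138554074) (nat_lit 76) (nat_lit 1070304876) (nat_lit 64) (nat_lit 5) (nat_lit 69) (nat_lit 5) (nat_lit 65) (nat_lit 5) (nat_lit 286) (nat_lit 262) (nat_lit 232))) (XT.nd (nat_lit 78) (nat_lit 304) (nat_lit 0) (XT.lf (nat_lit 0) (nat_lit 2632801366) (nat_lit 380) (nat_lit 2680651569) (nat_lit 76) (nat_lit 4409761126) (nat_lit 64) (nat_lit 5) (nat_lit 69) (nat_lit 5) (nat_lit 65) (nat_lit 5) (nat_lit 287) (nat_lit 262) (nat_lit 231)) (XT.nd (nat_lit 78) (nat_lit 0) (nat_lit 0) (XT.lf (nat_lit 0) (nat_lit 3063544003) (nat_lit 304) (nat_lit 2027169977) (nat_lit 380) (nat_lit 4888214030) (nat_lit 60) (nat_lit 5) (nat_lit 64) (nat_lit 5) (nat_lit 65) (nat_lit 5) (nat_lit 288) (nat_lit 262) (nat_lit 230)) (XT.lf (nat_lit 0) (nat_lit 7672762233) (nat_lit 380) (nat_lit 1166583400) (nat_lit 76) (nat_lit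 1408116948) (nat_lit 60) (nat_lit 5) (nat_lit 65) (nat_lit 5) (nat_lit 61) (nat_lit 5) (nat_lit 289) (nat_lit 262) (nat_lit 229))))))) (XT.nd (nat_lit 780) (nat_lit 1064) (nat_lit 0) (XT.nd (nat_lit 390) (nat_lit 760) (nat_lit 0) (XT.nd (nat_lit 156) (nat_lit 228) (nat_lit 0) (XT.nd (nat_lit 78) (nat_lit 304) (nat_lit 0) (XT.lf (nat_lit 0) (nat_lit 4911260464) (nat_lit 228) (nat_lit 5518633706) (nat_lit 304) (nat_lit 97322960) (nat_lit 57) (nat_lit 5) (nat_lit 60) (nat_lit 5) (nat_lit 61) (nat_lit 5) (nat_lit 290) (nat_lit 262) (nat_lit 228)) (XT.lf (nat_lit 0) (nat_lit 403831717) (nat_lit 228) (nat_lit 1983081557) (nat_lit 304) (nat_lit 8434018639) (nat_lit 53) (nat_lit 5) (nat_lit 56) (nat_lit 5) (nat_lit 57) (nat_lit 5) (nat_lit 291) (nat_lit 262) (nat_lit 227))) (XT.nd (nat_lit 78) (nat_lit 228) (nat_lit 0) (XT.lf (nat_lit 0) (nat_lit 5053919305) (nat_lit 304) (nat_lit 4319845754)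 (nat_lit 76) (nat_lit 1752475913) (nat_lit 53) (nat_lit 5) (nat_lit 57) (nat_lit 5) (nat_lit 54) (nat_lit 5) (nat_lit 292) (nat_lit 262) (nat_lit 226)) (XT.nd (nat_lit 78) (nat_lit 0) (nat_lit 0) (XT.lf (nat_lit 0) (nat_lit 2034203781) (nat_lit 228) (nat_lit 5825447825) (nat_lit 304) (nat_lit 3586971023) (nat_lit 50) (nat_lit 5) (nat_lit 53) (nat_lit 5) (nat_lit 54) (nat_lit 5) (nat_lit 293) (nat_lit 262) (nat_lit 225)) (XT.lf (nat_lit 0) (nat_lit 8776566817) (nat_lit 228) (nat_lit 2044934537) (nat_lit 304) (nat_lit 960802802) (nat_lit 50) (nat_lit 5) (nat_lit 53) (nat_lit 5) (nat_lit 54) (nat_lit 5) (nat_lit 294) (nat_lit 262) (nat_lit 224))))) (XT.nd (nat_lit 156) (nat_lit 456) (nat_lit 0) (XT.nd (nat_lit 78) (nat_lit 0) (nat_lit 0) (XT.lf (nat_lit 0) (nat_lit 1773049752) (nat_lit 304) (nat_lit 8429124745) (nat_lit 76) (nat_lit 1929564275) (nat_lit 46) (nat_lit 5) (nat_lit 50) (nat_lit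 5) (nat_lit 47) (nat_lit 5) (nat_lit 295) (nat_lit 262) (nat_lit 223)) (XT.lf (nat_lit 0) (nat_lit 4642117446) (nat_lit 304) (nat_lit 1774133427) (nat_lit 76) (nat_lit 6080128592) (nat_lit 46) (nat_lit 5) (nat_lit 50) (nat_lit 5) (nat_lit 47) (nat_lit 5) (nat_lit 296) (nat_lit 262) (nat_lit 222))) (XT.nd (nat_lit 78) (nat_lit 304) (nat_lit 0) (XT.lf (nat_lit 0) (nat_lit 5308601574) (nat_lit 152) (nat_lit 2377062115) (nat_lit 228) (nat_lit 5192096751) (nat_lit 44) (nat_lit 5) (nat_lit 46) (nat_lit 5) (nat_lit 47) (nat_lit 5) (nat_lit 297) (nat_lit 262) (nat_lit 221)) (XT.nd (nat_lit 78) (nat_lit 304) (nat_lit 0) (XT.lf (nat_lit 0) (nat_lit 10890129144) (nat_lit 228) (nat_lit 575164969) (nat_lit 76) (nat_lit 1812535927) (nat_lit 44) (nat_lit 5) (nat_lit 47) (nat_lit 5) (nat_lit 45) (nat_lit 5) (nat_lit 298) (nat_lit 262) (nat_lit 220)) (XT.lf (nat_lit 0) (nat_lit 638509072) (nat_lit 304)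 (nat_lit 6825995455) (nat_lit 76) (nat_lit 6228044293) (nat_lit 40) (nat_lit 5) (nat_lit 44) (nat_lit 5) (nat_lit 41) (nat_lit 5) (nat_lit 299) (nat_lit 262) (nat_lit 219)))))) (XT.nd (nat_lit 390) (nat_lit 532) (nat_lit 0) (XT.nd (nat_lit 156) (nat_lit 380) (nat_lit 0) (XT.nd (nat_lit 78) (nat_lit 0) (nat_lit 0) (XT.lf (nat_lit 0) (nat_lit 475955366) (nat_lit 152) (nat_lit 3229059674) (nat_lit 228) (nat_lit 10422618923) (nat_lit 38) (nat_lit 5) (nat_lit 40) (nat_lit 5) (nat_lit 41) (nat_lit 5) (nat_lit 300) (nat_lit 262) (nat_lit 218)) (XT.lf (nat_lit 0) (nat_lit 7014045587) (nat_lit 228) (nat_lit 6293239646) (nat_lit 76) (nat_lit 1272774792) (nat_lit 38) (nat_lit 5) (nat_lit 41) (nat_lit 5) (nat_lit 39) (nat_lit 5) (nat_lit 301) (nat_lit 262) (nat_lit 217))) (XT.nd (nat_lit 78) (nat_lit 228) (nat_lit 0) (XT.lf (nat_lit 0) (nat_lit 1353389156) (nat_lit 152) (nat_lit 9164141042) (nat_lit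 228) (nat_lit 4536171468) (nat_lit 36) (nat_lit 5) (nat_lit 38) (nat_lit 5) (nat_lit 39) (nat_lit 5) (nat_lit 302) (nat_lit 262) (nat_lit 216)) (XT.nd (nat_lit 78) (nat_lit 228) (nat_lit 0) (XT.lf (nat_lit 0) (nat_lit 9531853737) (nat_lit 152) (nat_lit 4726920144) (nat_lit 228) (nat_lit 1289164554) (nat_lit 36) (nat_lit 5) (nat_lit 38) (nat_lit 5) (nat_lit 39) (nat_lit 5) (nat_lit 303) (nat_lit 262) (nat_lit 215)) (XT.lf (nat_lit 0) (nat_lit 2016652242) (nat_lit 152) (nat_lit 24541535) (nat_lit 228) (nat_lit 14024633493) (nat_lit 33) (nat_lit 5) (nat_lit 35) (nat_lit 5) (nat_lit 36) (nat_lit 5) (nat_lit 304) (nat_lit 262) (nat_lit 214))))) (XT.nd (nat_lit 234) (nat_lit 380) (nat_lit 0) (XT.nd (nat_lit 78) (nat_lit 152) (nat_lit 0) (XT.lf (nat_lit 0) (nat_lit 5632997932) (nat_lit 228) (nat_lit 6111933421) (nat_lit 76) (nat_lit 4856746416) (nat_lit 33) (nat_lit 5) (nat_lit 36) (nat_lit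 5) (nat_lit 34) (nat_lit 5) (nat_lit 305) (nat_lit 262) (nat_lit 213)) (XT.nd (nat_lit 78) (nat_lit 0) (nat_lit 0) (XT.lf (nat_lit 0) (nat_lit 2228524217) (nat_lit 152) (nat_lit 7171056020) (nat_lit 228) (nat_lit 7765015950) (nat_lit 31) (nat_lit 5) (nat_lit 33) (nat_lit 5) (nat_lit 34) (nat_lit 5) (nat_lit 306) (nat_lit 262) (nat_lit 212)) (XT.lf (nat_lit 0) (nat_lit 11134668305) (nat_lit 152) (nat_lit 2284237291) (nat_lit 228) (nat_lit 4333567369) (nat_lit 31) (nat_lit 5) (nat_lit 33) (nat_lit 5) (nat_lit 34) (nat_lit 5) (nat_lit 307) (nat_lit 262) (nat_lit 211)))) (XT.nd (nat_lit 78) (nat_lit 228) (nat_lit 0) (XT.lf (nat_lit 0) (nat_lit 2076350094) (nat_lit 152) (nat_lit 15602116920) (nat_lit 228) (nat_lit 689344632) (nat_lit 29) (nat_lit 5) (nat_lit 31) (nat_lit 5) (nat_lit 32) (nat_lit 4) (nat_lit 308) (nat_lit 262) (nat_lit 210)) (XT.nd (nat_lit 78) (nat_lit 152) (nat_lit 0) (XT.lf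 (nat_lit 0) (nat_lit 3150651755) (nat_lit 228) (nat_lit 7723906267) (nat_lit 76) (nat_lit 8131240478) (nat_lit 28) (nat_lit 5) (nat_lit 31) (nat_lit 5) (nat_lit 29) (nat_lit 5) (nat_lit 309) (nat_lit 262) (nat_lit 209)) (XT.lf (nat_lit 0) (nat_lit 1241118118) (nat_lit 152) (nat_lit 5902130597) (nat_lit 228) (nat_lit 12532709842) (nat_lit 26) (nat_lit 5) (nat_lit 28) (nat_lit 5) (nat_lit 29) (nat_lit 5) (nat_lit 310) (nat_lit 262) (nat_lit 208))))))))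
noncomputable def xc113 : XT := (XT.nd (nat_lit 1638) (nat_lit 532) (nat_lit 0) (XT.nd (nat_lit 780) (nat_lit 380) (nat_lit 0) (XT.nd (nat_lit 390) (nat_lit 304) (nat_lit 0) (XT.nd (nat_lit 156) (nat_lit 304) (nat_lit 0) (XT.nd (nat_lit 78) (nat_lit 0) (nat_lit 0) (XT.lf (nat_lit 0) (nat_lit 10864175804) (nat_lit 152) (nat_lit 567282060) (nat_lit 228) (nat_lit 8943395597) (nat_lit 26) (nat_lit 5) (nat_lit 28) (nat_lit 5) (nat_lit 29) (nat_lit 5) (nat_lit 311) (nat_lit 262) (nat_lit 207)) (XT.lf (nat_lit 0) (nat_lit 15979159606) (nat_lit 228) (nat_lit 275834114) (nat_lit 76) (nat_lit 4851470010) (nat_lit 26) (nat_lit 5) (nat_lit 29) (nat_lit 5) (nat_lit 27) (nat_lit 4) (nat_lit 312) (nat_lit 262) (nat_lit 206))) (XT.nd (nat_lit 78) (nat_lit 228) (nat_lit 0) (XT.lf (nat_lit 0) (nat_lit 9666627487) (nat_lit 76) (nat_lit 11215920336) (nat_lit 152) (nat_lit 985715166) (nat_lit 25) (nat_lit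 5) (nat_lit 26) (nat_lit 5) (nat_lit 27) (nat_lit 4) (nat_lit 313) (nat_lit 262) (nat_lit 205)) (XT.nd (nat_lit 78) (nat_lit 152) (nat_lit 0) (XT.lf (nat_lit 0) (nat_lit 3228297735) (nat_lit 152) (nat_lit 2659125990) (nat_lit 76) (nat_lit 16779475590) (nat_lit 24) (nat_lit 5) (nat_lit 26) (nat_lit 5) (nat_lit 25) (nat_lit 5) (nat_lit 314) (nat_lit 262) (nat_lit 204)) (XT.lf (nat_lit 0) (nat_lit 7533650602) (nat_lit 152) (nat_lit 173600383) (nat_lit 228) (nat_lit 15793060540) (nat_lit 22) (nat_lit 5) (nat_lit 24) (nat_lit 5) (nat_lit 25) (nat_lit 5) (nat_lit 315) (nat_lit 262) (nat_lit 203))))) (XT.nd (nat_lit 156) (nat_lit 228) (nat_lit 0) (XT.nd (nat_lit 78) (nat_lit 76) (nat_lit 0) (XT.lf (nat_lit 0) (nat_lit 12516938307) (nat_lit 228) (nat_lit 6188608188) (nat_lit 76) (nat_lit 5664527903) (nat_lit 22) (nat_lit 5) (nat_lit 25) (nat_lit 5) (nat_lit 23) (nat_lit 4) (nat_lit 316) (nat_lit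 262) (nat_lit 202)) (XT.lf (nat_lit 0) (nat_lit 4158943640) (nat_lit 76) (nat_lit 13447426666) (nat_lit 152) (nat_lit 7675010544) (nat_lit 21) (nat_lit 5) (nat_lit 22) (nat_lit 5) (nat_lit 23) (nat_lit 4) (nat_lit 317) (nat_lit 262) (nat_lit 201))) (XT.nd (nat_lit 78) (nat_lit 228) (nat_lit 0) (XT.lf (nat_lit 0) (nat_lit 15189858885) (nat_lit 76) (nat_lit 7837298774) (nat_lit 152) (nat_lit 3207268349) (nat_lit 21) (nat_lit 5) (nat_lit 22) (nat_lit 5) (nat_lit 23) (nat_lit 4) (nat_lit 318) (nat_lit 262) (nat_lit 200)) (XT.nd (nat_lit 78) (nat_lit 152) (nat_lit 0) (XT.lf (nat_lit 0) (nat_lit 1409322337) (nat_lit 152) (nat_lit 533422554) (nat_lit 76) (nat_lit 25292588401) (nat_lit 20) (nat_lit 5) (nat_lit 22) (nat_lit 5) (nat_lit 21) (nat_lit 5) (nat_lit 319) (nat_lit 262) (nat_lit 199)) (XT.lf (nat_lit 0) (nat_lit 6360640371) (nat_lit 228) (nat_lit 17596616736) (nat_lit 76) (nat_lit 4315830950)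 (nat_lit 18) (nat_lit 5) (nat_lit 21) (nat_lit 5) (nat_lit 19) (nat_lit 4) (nat_lit 320) (nat_lit 262) (nat_lit 198)))))) (XT.nd (nat_lit 390) (nat_lit 152) (nat_lit 0) (XT.nd (nat_lit 156) (nat_lit 152) (nat_lit 0) (XT.nd (nat_lit 78) (nat_lit 76) (nat_lit 0) (XT.lf (nat_lit 0) (nat_lit 11575028558) (nat_lit 228) (nat_lit 6974334781) (nat_lit 76) (nat_lit 10812606465) (nat_lit 18) (nat_lit 5) (nat_lit 21) (nat_lit 5) (nat_lit 19) (nat_lit 4) (nat_lit 321) (nat_lit 262) (nat_lit 197)) (XT.lf (nat_lit 0) (nat_lit 4272534136) (nat_lit 76) (nat_lit 12819997880) (nat_lit 152) (nat_lit 13410657599) (nat_lit 17) (nat_lit 5) (nat_lit 18) (nat_lit 5) (nat_lit 19) (nat_lit 4) (nat_lit 322) (nat_lit 262) (nat_lit 196))) (XT.nd (nat_lit 78) (nat_lit 152) (nat_lit 0) (XT.lf (nat_lit 0) (nat_lit 16281302727) (nat_lit 76) (nat_lit 6698904174) (nat_lit 152) (nat_lit 8716561813) (nat_lit 17) (nat_lit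 5) (nat_lit 18) (nat_lit 5) (nat_lit 19) (nat_lit 4) (nat_lit 323) (nat_lit 262) (nat_lit 195)) (XT.nd (nat_lit 78) (nat_lit 152) (nat_lit 0) (XT.lf (nat_lit 0) (nat_lit 28849960293) (nat_lit 76) (nat_lit 289621924) (nat_lit 152) (nat_lit 3811591205) (nat_lit 17) (nat_lit 5) (nat_lit 18) (nat_lit 5) (nat_lit 19) (nat_lit 4) (nat_lit 324) (nat_lit 262) (nat_lit 194)) (XT.lf (nat_lit 0) (nat_lit 1500966932) (nat_lit 152) (nat_lit 26391094205) (nat_lit 76) (nat_lit 6364944397) (nat_lit 15) (nat_lit 5) (nat_lit 17) (nat_lit 5) (nat_lit 16) (nat_lit 4) (nat_lit 325) (nat_lit 262) (nat_lit 193))))) (XT.nd (nat_lit 234) (nat_lit 76) (nat_lit 0) (XT.nd (nat_lit 78) (nat_lit 76) (nat_lit 0) (XT.lf (nat_lit 0) (nat_lit 7004605385) (nat_lit 152) (nat_lit 15158791370) (nat_lit 76) (nat_lit 13458941685) (nat_lit 15) (nat_lit 5) (nat_lit 17) (nat_lit 5) (nat_lit 16) (nat_lit 4) (nat_lit 326) (nat_lit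 262) (nat_lit 192)) (XT.nd (nat_lit 78) (nat_lit 76) (nat_lit 0) (XT.lf (nat_lit 0) (nat_lit 12762667965) (nat_lit 152) (nat_lit 3402530693) (nat_lit 76) (nat_lit 20891787497) (nat_lit 15) (nat_lit 5) (nat_lit 17) (nat_lit 5) (nat_lit 16) (nat_lit 4) (nat_lit 327) (nat_lit 262) (nat_lit 191)) (XT.lf (nat_lit 0) (nat_lit 9200140887) (nat_lit 76) (nat_lit 9732363442) (nat_lit 152) (nat_lit 19624678179) (nat_lit 14) (nat_lit 5) (nat_lit 15) (nat_lit 5) (nat_lit 16) (nat_lit 4) (nat_lit 328) (nat_lit 262) (nat_lit 190)))) (XT.nd (nat_lit 78) (nat_lit 76) (nat_lit 0) (XT.lf (nat_lit 0) (nat_lit 22515788587) (nat_lit 76) (nat_lit 2933288587) (nat_lit 152) (nat_lit 14681408590) (nat_lit 14) (nat_lit 5) (nat_lit 15) (nat_lit 5) (nat_lit 16) (nat_lit 4) (nat_lit 329) (nat_lit 262) (nat_lit 189)) (XT.nd (nat_lit 78) (nat_lit 76) (nat_lit 0) (XT.lf (nat_lit 0) (nat_lit 32338449489) (nat_lit 152)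 (nat_lit 5385199426) (nat_lit 0) (nat_lit 4056465602) (nat_lit 14) (nat_lit 5) (nat_lit 16) (nat_lit 4) (nat_lit 14) (nat_lit 4) (nat_lit 330) (nat_lit 262) (nat_lit 188)) (XT.lf (nat_lit 0) (nat_lit 7618870792) (nat_lit 76) (nat_lit 32102655810) (nat_lit 76) (nat_lit 3783244748) (nat_lit 13) (nat_lit 4) (nat_lit 14) (nat_lit 5) (nat_lit 14) (nat_lit 4) (nat_lit 331) (nat_lit 262) (nat_lit 187))))))) (XT.nd (nat_lit 780) (nat_lit 228) (nat_lit 0) (XT.nd (nat_lit 390) (nat_lit 152) (nat_lit 0) (XT.nd (nat_lit 156) (nat_lit 76) (nat_lit 0) (XT.nd (nat_lit 78) (nat_lit 0) (nat_lit 0) (XT.lf (nat_lit 0) (nat_lit 2163969566) (nat_lit 152) (nat_lit 23918918380) (nat_lit 76) (nat_lit 19227348770) (nat_lit 12) (nat_lit 5) (nat_lit 14) (nat_lit 5) (nat_lit 13) (nat_lit 4) (nat_lit 332) (nat_lit 262) (nat_lit 186)) (XT.lf (nat_lit 0) (nat_lit 8264497556) (nat_lit 152) (nat_lit 11446783551) (nat_lit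 76) (nat_lit 27492445785) (nat_lit 12) (nat_lit 5) (nat_lit 14) (nat_lit 5) (nat_lit 13) (nat_lit 4) (nat_lit 333) (nat_lit 262) (nat_lit 185))) (XT.nd (nat_lit 78) (nat_lit 0) (nat_lit 0) (XT.lf (nat_lit 0) (nat_lit 1672806805) (nat_lit 76) (nat_lit 13007262145) (nat_lit 152) (nat_lit 34511328730) (nat_lit 11) (nat_lit 5) (nat_lit 12) (nat_lit 5) (nat_lit 13) (nat_lit 4) (nat_lit 334) (nat_lit 262) (nat_lit 184)) (XT.nd (nat_lit 78) (nat_lit 0) (nat_lit 0) (XT.lf (nat_lit 0) (nat_lit 15816570572) (nat_lit 76) (nat_lit 5777915546) (nat_lit 152) (nat_lit 29675069150) (nat_lit 11) (nat_lit 5) (nat_lit 12) (nat_lit 5) (nat_lit 13) (nat_lit 4) (nat_lit 335) (nat_lit 262) (nat_lit 183)) (XT.lf (nat_lit 0) (nat_lit 28867691254) (nat_lit 152) (nat_lit 22840782746) (nat_lit 0) (nat_lit 1742499689) (nat_lit 11) (nat_lit 5) (nat_lit 13) (nat_lit 4) (nat_lit 11) (nat_lit 4) (nat_lit 336) (nat_lit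 262) (nat_lit 182))))) (XT.nd (nat_lit 156) (nat_lit 76) (nat_lit 0) (XT.nd (nat_lit 78) (nat_lit 76) (nat_lit 0) (XT.lf (nat_lit 0) (nat_lit 36584764843) (nat_lit 152) (nat_lit 9719719302) (nat_lit 0) (nat_lit 9432974484) (nat_lit 11) (nat_lit 5) (nat_lit 13) (nat_lit 4) (nat_lit 11) (nat_lit 4) (nat_lit 337) (nat_lit 262) (nat_lit 181)) (XT.lf (nat_lit 0) (nat_lit 4164960461) (nat_lit 76) (nat_lit 40573937660) (nat_lit 76) (nat_lit 13396815115) (nat_lit 10) (nat_lit 4) (nat_lit 11) (nat_lit 5) (nat_lit 11) (nat_lit 4) (nat_lit 338) (nat_lit 262) (nat_lit 180))) (XT.nd (nat_lit 78) (nat_lit 76) (nat_lit 0) (XT.lf (nat_lit 0) (nat_lit 19055994508) (nat_lit 76) (nat_lit 34395793720) (nat_lit 76) (nat_lit 7194545284) (nat_lit 10) (nat_lit 4) (nat_lit 11) (nat_lit 5) (nat_lit 11) (nat_lit 4) (nat_lit 339) (nat_lit 262) (nat_lit 179)) (XT.nd (nat_lit 78) (nat_lit 76) (nat_lit 0) (XT.lf (nat_lit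 0) (nat_lit 34667459867) (nat_lit 76) (nat_lit 27919950609) (nat_lit 76) (nat_lit 695725135) (nat_lit 10) (nat_lit 4) (nat_lit 11) (nat_lit 5) (nat_lit 11) (nat_lit 4) (nat_lit 340) (nat_lit 262) (nat_lit 178)) (XT.lf (nat_lit 0) (nat_lit 5919396726) (nat_lit 152) (nat_lit 15111345078) (nat_lit 76) (nat_lit 45016882118) (nat_lit 9) (nat_lit 5) (nat_lit 11) (nat_lit 5) (nat_lit 10) (nat_lit 4) (nat_lit 341) (nat_lit 262) (nat_lit 177)))))) (XT.nd (nat_lit 390) (nat_lit 152) (nat_lit 0) (XT.nd (nat_lit 156) (nat_lit 0) (nat_lit 0) (XT.nd (nat_lit 78) (nat_lit 76) (nat_lit 0) (XT.lf (nat_lit 0) (nat_lit 12829985304) (nat_lit 152) (nat_lit 965479345) (nat_lit 76) (nat_lit 55154901640) (nat_lit 9) (nat_lit 5) (nat_lit 11) (nat_lit 5) (nat_lit 10) (nat_lit 4) (nat_lit 342) (nat_lit 262) (nat_lit 176)) (XT.lf (nat_lit 0) (nat_lit 14324952239) (nat_lit 76) (nat_lit 5973462340) (nat_lit 152)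 (nat_lit 51689219900) (nat_lit 8) (nat_lit 5) (nat_lit 9) (nat_lit 5) (nat_lit 10) (nat_lit 4) (nat_lit 343) (nat_lit 262) (nat_lit 175))) (XT.nd (nat_lit 78) (nat_lit 0) (nat_lit 0) (XT.lf (nat_lit 0) (nat_lit 28180571918) (nat_lit 152) (nat_lit 44819040423) (nat_lit 0) (nat_lit 2175142474) (nat_lit 8) (nat_lit 5) (nat_lit 10) (nat_lit 4) (nat_lit 8) (nat_lit 4) (nat_lit 344) (nat_lit 262) (nat_lit 174)) (XT.nd (nat_lit 78) (nat_lit 0) (nat_lit 0) (XT.lf (nat_lit 0) (nat_lit 36544020482) (nat_lit 152) (nat_lit 31451410171) (nat_lit 0) (nat_lit 10521445218) (nat_lit 8) (nat_lit 5) (nat_lit 10) (nat_lit 4) (nat_lit 8) (nat_lit 4) (nat_lit 345) (nat_lit 262) (nat_lit 173)) (XT.lf (nat_lit 0) (nat_lit 45315410757) (nat_lit 152) (nat_lit 17434701308) (nat_lit 0) (nat_lit 19276506140) (nat_lit 8) (nat_lit 5) (nat_lit 10) (nat_lit 4) (nat_lit 8) (nat_lit 4) (nat_lit 346) (nat_lit 262) (nat_lit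 172))))) (XT.nd (nat_lit 234) (nat_lit 76) (nat_lit 0) (XT.nd (nat_lit 78) (nat_lit 76) (nat_lit 0) (XT.lf (nat_lit 0) (nat_lit 54515627004) (nat_lit 152) (nat_lit 2735540716) (nat_lit 0) (nat_lit 28461170624) (nat_lit 8) (nat_lit 5) (nat_lit 10) (nat_lit 4) (nat_lit 8) (nat_lit 4) (nat_lit 347) (nat_lit 262) (nat_lit 171)) (XT.nd (nat_lit 78) (nat_lit 0) (nat_lit 0) (XT.lf (nat_lit 0) (nat_lit 13100363036) (nat_lit 76) (nat_lit 51270744846) (nat_lit 76) (nat_lit 25201477262) (nat_lit 7) (nat_lit 4) (nat_lit 8) (nat_lit 5) (nat_lit 8) (nat_lit 4) (nat_lit 348) (nat_lit 262) (nat_lit 170)) (XT.lf (nat_lit 0) (nat_lit 29805807865) (nat_lit 76) (nat_lit 44950776022) (nat_lit 76) (nat_lit 18867402529) (nat_lit 7) (nat_lit 4) (nat_lit 8) (nat_lit 5) (nat_lit 8) (nat_lit 4) (nat_lit 349) (nat_lit 262) (nat_lit 169)))) (XT.nd (nat_lit 78) (nat_lit 76) (nat_lit 0) (XT.lf (nat_lit 0) (nat_lit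 47330119309) (nat_lit 76) (nat_lit 38322541408) (nat_lit 76) (nat_lit 12225733716) (nat_lit 7) (nat_lit 4) (nat_lit 8) (nat_lit 5) (nat_lit 8) (nat_lit 4) (nat_lit 350) (nat_lit 262) (nat_lit 168)) (XT.nd (nat_lit 78) (nat_lit 76) (nat_lit 0) (XT.lf (nat_lit 0) (nat_lit 65715021920) (nat_lit 76) (nat_lit 31370259493) (nat_lit 76) (nat_lit 5260657327) (nat_lit 7) (nat_lit 4) (nat_lit 8) (nat_lit 5) (nat_lit 8) (nat_lit 4) (nat_lit 351) (nat_lit 262) (nat_lit 167)) (XT.lf (nat_lit 0) (nat_lit 1978976261) (nat_lit 152) (nat_lit 22064886044) (nat_lit 76) (nat_lit 82991798092) (nat_lit 6) (nat_lit 5) (nat_lit 8) (nat_lit 5) (nat_lit 7) (nat_lit 4) (nat_lit 352) (nat_lit 262) (nat_lit 166))))))))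
noncomputable def xc114 : XT := (XT.nd (nat_lit 1560) (nat_lit 152) (nat_lit 0) (XT.nd (nat_lit 780) (nat_lit 0) (nat_lit 0) (XT.nd (nat_lit 390) (nat_lit 76) (nat_lit 0) (XT.nd (nat_lit 156) (nat_lit 0) (nat_lit 0) (XT.nd (nat_lit 78) (nat_lit 76) (nat_lit 0) (XT.lf (nat_lit 0) (nat_lit 9396181548) (nat_lit 152) (nat_lit 6871220172) (nat_lit 76) (nat_lit 95688537769) (nat_lit 6) (nat_lit 5) (nat_lit 8) (nat_lit 5) (nat_lit 7) (nat_lit 4) (nat_lit 353) (nat_lit 262) (nat_lit 165)) (XT.lf (nat_lit 0) (nat_lit 9368231715) (nat_lit 76) (nat_lit 7955025070) (nat_lit 152) (nat_lit 99792027644) (nat_lit 5) (nat_lit 5) (nat_lit 6) (nat_lit 5) (nat_lit 7) (nat_lit 4) (nat_lit 354) (nat_lit 262) (nat_lit 164))) (XT.nd (nat_lit 78) (nat_lit 0) (nat_lit 0) (XT.lf (nat_lit 0) (nat_lit 25769808987) (nat_lit 152) (nat_lit 95896320690) (nat_lit 0) (nat_lit 860313043) (nat_lit 5) (nat_lit 5) (nat_lit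 7) (nat_lit 4) (nat_lit 5) (nat_lit 4) (nat_lit 355) (nat_lit 262) (nat_lit 163)) (XT.nd (nat_lit 78) (nat_lit 0) (nat_lit 0) (XT.lf (nat_lit 0) (nat_lit 34762222728) (nat_lit 152) (nat_lit 83596582306) (nat_lit 0) (nat_lit 9843179350) (nat_lit 5) (nat_lit 5) (nat_lit 7) (nat_lit 4) (nat_lit 5) (nat_lit 4) (nat_lit 356) (nat_lit 262) (nat_lit 162)) (XT.lf (nat_lit 0) (nat_lit 44197708283) (nat_lit 152) (nat_lit 70694352236) (nat_lit 0) (nat_lit 19269572110) (nat_lit 5) (nat_lit 5) (nat_lit 7) (nat_lit 4) (nat_lit 5) (nat_lit 4) (nat_lit 357) (nat_lit 262) (nat_lit 161))))) (XT.nd (nat_lit 156) (nat_lit 76) (nat_lit 0) (XT.nd (nat_lit 78) (nat_lit 0) (nat_lit 0) (XT.lf (nat_lit 0) (nat_lit 54098731092) (nat_lit 152) (nat_lit 57158910885) (nat_lit 0) (nat_lit 29161935115) (nat_lit 5) (nat_lit 5) (nat_lit 7) (nat_lit 4) (nat_lit 5) (nat_lit 4) (nat_lit 358) (nat_lit 262) (nat_lit 160))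 (XT.lf (nat_lit 0) (nat_lit 64488865021) (nat_lit 152) (nat_lit 42958031011) (nat_lit 0) (nat_lit 39543821611) (nat_lit 5) (nat_lit 5) (nat_lit 7) (nat_lit 4) (nat_lit 5) (nat_lit 4) (nat_lit 359) (nat_lit 262) (nat_lit 159))) (XT.nd (nat_lit 78) (nat_lit 76) (nat_lit 0) (XT.lf (nat_lit 0) (nat_lit 75392848483) (nat_lit 152) (nat_lit 28057900996) (nat_lit 0) (nat_lit 50439950375) (nat_lit 5) (nat_lit 5) (nat_lit 7) (nat_lit 4) (nat_lit 5) (nat_lit 4) (nat_lit 360) (nat_lit 262) (nat_lit 158)) (XT.nd (nat_lit 78) (nat_lit 76) (nat_lit 0) (XT.lf (nat_lit 0) (nat_lit 86836643343) (nat_lit 152) (nat_lit 12423044340) (nat_lit 0) (nat_lit 61876264571) (nat_lit 5) (nat_lit 5) (nat_lit 7) (nat_lit 4) (nat_lit 5) (nat_lit 4) (nat_lit 361) (nat_lit 262) (nat_lit 157)) (XT.lf (nat_lit 0) (nat_lit 4115486062) (nat_lit 76) (nat_lit 94796264940) (nat_lit 76) (nat_lit 69828761726) (nat_lit 4) (nat_lit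 4) (nat_lit 5) (nat_lit 5) (nat_lit 5) (nat_lit 4) (nat_lit 362) (nat_lit 262) (nat_lit 156)))))) (XT.nd (nat_lit 390) (nat_lit 0) (nat_lit 0) (XT.nd (nat_lit 156) (nat_lit 0) (nat_lit 0) (XT.nd (nat_lit 78) (nat_lit 0) (nat_lit 0) (XT.lf (nat_lit 0) (nat_lit 21902610599) (nat_lit 76) (nat_lit 89893356454) (nat_lit 76) (nat_lit 64919068056) (nat_lit 4) (nat_lit 4) (nat_lit 5) (nat_lit 5) (nat_lit 5) (nat_lit 4) (nat_lit 363) (nat_lit 262) (nat_lit 155)) (XT.lf (nat_lit 0) (nat_lit 40569917617) (nat_lit 76) (nat_lit 84749678899) (nat_lit 76) (nat_lit 59768928422) (nat_lit 4) (nat_lit 4) (nat_lit 5) (nat_lit 5) (nat_lit 5) (nat_lit 4) (nat_lit 364) (nat_lit 262) (nat_lit 154))) (XT.nd (nat_lit 78) (nat_lit 0) (nat_lit 0) (XT.lf (nat_lit 0) (nat_lit 60161853084) (nat_lit 76) (nat_lit 79352985424) (nat_lit 76) (nat_lit 54366080586) (nat_lit 4) (nat_lit 4) (nat_lit 5) (nat_lit 5) (nat_lit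 5) (nat_lit 4) (nat_lit 365) (nat_lit 262) (nat_lit 153)) (XT.nd (nat_lit 78) (nat_lit 0) (nat_lit 0) (XT.lf (nat_lit 0) (nat_lit 80725064467) (nat_lit 76) (nat_lit 73690426760) (nat_lit 76) (nat_lit 48697660626) (nat_lit 4) (nat_lit 4) (nat_lit 5) (nat_lit 5) (nat_lit 5) (nat_lit 4) (nat_lit 366) (nat_lit 262) (nat_lit 152)) (XT.lf (nat_lit 0) (nat_lit 102308511791) (nat_lit 76) (nat_lit 67748520623) (nat_lit 76) (nat_lit 42750172302) (nat_lit 4) (nat_lit 4) (nat_lit 5) (nat_lit 5) (nat_lit 5) (nat_lit 4) (nat_lit 367) (nat_lit 262) (nat_lit 151))))) (XT.nd (nat_lit 156) (nat_lit 0) (nat_lit 0) (XT.nd (nat_lit 78) (nat_lit 0) (nat_lit 0) (XT.lf (nat_lit 0) (nat_lit 124963584219) (nat_lit 76) (nat_lit 61513119619) (nat_lit 76) (nat_lit 36509454929) (nat_lit 4) (nat_lit 4) (nat_lit 5) (nat_lit 5) (nat_lit 5) (nat_lit 4) (nat_lit 368) (nat_lit 262) (nat_lit 150)) (XT.lf (nat_lit 0) (nat_lit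 148744222397) (nat_lit 76) (nat_lit 54969377553) (nat_lit 76) (nat_lit 29960649655) (nat_lit 4) (nat_lit 4) (nat_lit 5) (nat_lit 5) (nat_lit 5) (nat_lit 4) (nat_lit 369) (nat_lit 262) (nat_lit 149))) (XT.nd (nat_lit 78) (nat_lit 0) (nat_lit 0) (XT.lf (nat_lit 0) (nat_lit 173707046894) (nat_lit 76) (nat_lit 48101714089) (nat_lit 76) (nat_lit 23088164087) (nat_lit 4) (nat_lit 4) (nat_lit 5) (nat_lit 5) (nat_lit 5) (nat_lit 4) (nat_lit 370) (nat_lit 262) (nat_lit 148)) (XT.nd (nat_lit 78) (nat_lit 0) (nat_lit 0) (XT.lf (nat_lit 0) (nat_lit 199911493005) (nat_lit 76) (nat_lit 40893777645) (nat_lit 76) (nat_lit 15875635165) (nat_lit 4) (nat_lit 4) (nat_lit 5) (nat_lit 5) (nat_lit 5) (nat_lit 4) (nat_lit 371) (nat_lit 262) (nat_lit 147)) (XT.lf (nat_lit 0) (nat_lit 227419952270) (nat_lit 76) (nat_lit 33328406470) (nat_lit 76) (nat_lit 8305890200) (nat_lit 4) (nat_lit 4) (nat_lit 5) (nat_lit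 5) (nat_lit 5) (nat_lit 4) (nat_lit 372) (nat_lit 262) (nat_lit 146))))))) (XT.nd (nat_lit 780) (nat_lit 0) (nat_lit 0) (XT.nd (nat_lit 390) (nat_lit 0) (nat_lit 0) (XT.nd (nat_lit 156) (nat_lit 76) (nat_lit 0) (XT.nd (nat_lit 78) (nat_lit 76) (nat_lit 0) (XT.lf (nat_lit 0) (nat_lit 256297921019) (nat_lit 76) (nat_lit 25387587774) (nat_lit 76) (nat_lit 360905990) (nat_lit 4) (nat_lit 4) (nat_lit 5) (nat_lit 5) (nat_lit 5) (nat_lit 4) (nat_lit 373) (nat_lit 262) (nat_lit 145)) (XT.lf (nat_lit 0) (nat_lit 7722880777) (nat_lit 152) (nat_lit 9198743345) (nat_lit 76) (nat_lit 278760484821) (nat_lit 3) (nat_lit 5) (nat_lit 5) (nat_lit 5) (nat_lit 4) (nat_lit 4) (nat_lit 374) (nat_lit 262) (nat_lit 144))) (XT.nd (nat_lit 78) (nat_lit 0) (nat_lit 0) (XT.lf (nat_lit 0) (nat_lit 8437161147) (nat_lit 76) (nat_lit 7890442916) (nat_lit 152) (nat_lit 293665244937) (nat_lit 2) (nat_lit 5) (nat_lit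 3) (nat_lit 5) (nat_lit 4) (nat_lit 4) (nat_lit 375) (nat_lit 262) (nat_lit 143)) (XT.nd (nat_lit 78) (nat_lit 0) (nat_lit 0) (XT.lf (nat_lit 0) (nat_lit 25542922824) (nat_lit 152) (nat_lit 297770001802) (nat_lit 0) (nat_lit 1697184242) (nat_lit 2) (nat_lit 5) (nat_lit 4) (nat_lit 4) (nat_lit 2) (nat_lit 4) (nat_lit 376) (nat_lit 262) (nat_lit 142)) (XT.lf (nat_lit 0) (nat_lit 35345654343) (nat_lit 152) (nat_lit 293929593811) (nat_lit 0) (nat_lit 11496651972) (nat_lit 2) (nat_lit 5) (nat_lit 4) (nat_lit 4) (nat_lit 2) (nat_lit 4) (nat_lit 377) (nat_lit 262) (nat_lit 141))))) (XT.nd (nat_lit 156) (nat_lit 0) (nat_lit 0) (XT.nd (nat_lit 78) (nat_lit 0) (nat_lit 0) (XT.lf (nat_lit 0) (nat_lit 45635946530) (nat_lit 152) (nat_lit 289902128126) (nat_lit 0) (nat_lit 21783835788) (nat_lit 2) (nat_lit 5) (nat_lit 4) (nat_lit 4) (nat_lit 2) (nat_lit 4) (nat_lit 378) (nat_lit 262) (nat_lit 140))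 (XT.lf (nat_lit 0) (nat_lit 56438300081) (nat_lit 152) (nat_lit 285678015542) (nat_lit 0) (nat_lit 32583228986) (nat_lit 2) (nat_lit 5) (nat_lit 4) (nat_lit 4) (nat_lit 2) (nat_lit 4) (nat_lit 379) (nat_lit 262) (nat_lit 139))) (XT.nd (nat_lit 78) (nat_lit 0) (nat_lit 0) (XT.lf (nat_lit 0) (nat_lit 67778434885) (nat_lit 152) (nat_lit 281247198649) (nat_lit 0) (nat_lit 43920544407) (nat_lit 2) (nat_lit 5) (nat_lit 4) (nat_lit 4) (nat_lit 2) (nat_lit 4) (nat_lit 380) (nat_lit 262) (nat_lit 138)) (XT.nd (nat_lit 78) (nat_lit 0) (nat_lit 0) (XT.lf (nat_lit 0) (nat_lit 79683351264) (nat_lit 152) (nat_lit 276599127882) (nat_lit 0) (nat_lit 55822775657) (nat_lit 2) (nat_lit 5) (nat_lit 4) (nat_lit 4) (nat_lit 2) (nat_lit 4) (nat_lit 381) (nat_lit 262) (nat_lit 137)) (XT.lf (nat_lit 0) (nat_lit 92181394255) (nat_lit 152) (nat_lit 271722736406) (nat_lit 0) (nat_lit 68318261385) (nat_lit 2) (nat_lit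 5) (nat_lit 4) (nat_lit 4) (nat_lit 2) (nat_lit 4) (nat_lit 382) (nat_lit 262) (nat_lit 136)))))) (XT.nd (nat_lit 390) (nat_lit 0) (nat_lit 0) (XT.nd (nat_lit 156) (nat_lit 0) (nat_lit 0) (XT.nd (nat_lit 78) (nat_lit 0) (nat_lit 0) (XT.lf (nat_lit 0) (nat_lit 105302321105) (nat_lit 152) (nat_lit 266606413766) (nat_lit 0) (nat_lit 81436752745) (nat_lit 2) (nat_lit 5) (nat_lit 4) (nat_lit 4) (nat_lit 2) (nat_lit 4) (nat_lit 383) (nat_lit 262) (nat_lit 135)) (XT.lf (nat_lit 0) (nat_lit 119077372115) (nat_lit 152) (nat_lit 261237978241) (nat_lit 0) (nat_lit 95209484241) (nat_lit 2) (nat_lit 5) (nat_lit 4) (nat_lit 4) (nat_lit 2) (nat_lit 4) (nat_lit 384) (nat_lit 262) (nat_lit 134))) (XT.nd (nat_lit 78) (nat_lit 0) (nat_lit 0) (XT.lf (nat_lit 0) (nat_lit 133539345027) (nat_lit 152) (nat_lit 255604647841) (nat_lit 0) (nat_lit 109669248091) (nat_lit 2) (nat_lit 5) (nat_lit 4) (nat_lit 4) (nat_lit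 2) (nat_lit 4) (nat_lit 385) (nat_lit 262) (nat_lit 133)) (XT.nd (nat_lit 78) (nat_lit 0) (nat_lit 0) (XT.lf (nat_lit 0) (nat_lit 148722673107) (nat_lit 152) (nat_lit 249693009875) (nat_lit 0) (nat_lit 124850472305) (nat_lit 2) (nat_lit 5) (nat_lit 4) (nat_lit 4) (nat_lit 2) (nat_lit 4) (nat_lit 386) (nat_lit 262) (nat_lit 132)) (XT.lf (nat_lit 0) (nat_lit 164663507139) (nat_lit 152) (nat_lit 243488989015) (nat_lit 0) (nat_lit 140789302653) (nat_lit 2) (nat_lit 5) (nat_lit 4) (nat_lit 4) (nat_lit 2) (nat_lit 4) (nat_lit 387) (nat_lit 262) (nat_lit 131))))) (XT.nd (nat_lit 30966) (nat_lit 0) (nat_lit 9804) (XT.nd (nat_lit 78) (nat_lit 0) (nat_lit 0) (XT.lf (nat_lit 0) (nat_lit 181399801489) (nat_lit 152) (nat_lit 236977813783) (nat_lit 0) (nat_lit 157523688733) (nat_lit 2) (nat_lit 5) (nat_lit 4) (nat_lit 4) (nat_lit 2) (nat_lit 4) (nat_lit 388) (nat_lit 262) (nat_lit 130)) (XT.nd (nat_lit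 30810) (nat_lit 0) (nat_lit 10184) (XT.lf (nat_lit 0) (nat_lit 198971404476) (nat_lit 152) (nat_lit 230143981379) (nat_lit 0) (nat_lit 175093474320) (nat_lit 2) (nat_lit 5) (nat_lit 4) (nat_lit 4) (nat_lit 2) (nat_lit 4) (nat_lit 389) (nat_lit 262) (nat_lit 129)) (XT.lf (nat_lit 0) (nat_lit 835926955) (nat_lit 0) (nat_lit 835926955) (nat_lit 228) (nat_lit 1601998092) (nat_lit 136) (nat_lit 5) (nat_lit 136) (nat_lit 3) (nat_lit 139) (nat_lit 3) (nat_lit 263) (nat_lit 263) (nat_lit 254)))) (XT.nd (nat_lit 78) (nat_lit 380) (nat_lit 0) (XT.lf (nat_lit 0) (nat_lit 4813410168) (nat_lit 0) (nat_lit 957113312) (nat_lit 228) (nat_lit 817167759) (nat_lit 136) (nat_lit 5) (nat_lit 136) (nat_lit 3) (nat_lit 139) (nat_lit 3) (nat_lit 264) (nat_lit 263) (nat_lit 253)) (XT.nd (nat_lit 78) (nat_lit 0) (nat_lit 76) (XT.lf (nat_lit 76) (nat_lit 1421027116) (nat_lit 0) (nat_lit 83242588) (nat_lit 380)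 (nat_lit 5131022280) (nat_lit 132) (nat_lit 5) (nat_lit 131) (nat_lit 3) (nat_lit 136) (nat_lit 5) (nat_lit 265) (nat_lit 263) (nat_lit 252)) (XT.lf (nat_lit 0) (nat_lit 3812123520) (nat_lit 304) (nat_lit 1960916088) (nat_lit 380) (nat_lit 917052980) (nat_lit 132) (nat_lit 5) (nat_lit 136) (nat_lit 5) (nat_lit 137) (nat_lit 5) (nat_lit 266) (nat_lit 263) (nat_lit 251))))))))
noncomputable def xc115 : XT := (XT.nd (nat_lit 1638) (nat_lit 2508) (nat_lit 0) (XT.nd (nat_lit 780) (nat_lit 2736) (nat_lit 0) (XT.nd (nat_lit 390) (nat_lit 1672) (nat_lit 0) (XT.nd (nat_lit 156) (nat_lit 380) (nat_lit 0) (XT.nd (nat_lit 78) (nat_lit 380) (nat_lit 0) (XT.lf (nat_lit 76) (nat_lit 1415290200) (nat_lit 0) (nat_lit 4704721745) (nat_lit 380) (nat_lit 633751054) (nat_lit 133) (nat_lit 5) (nat_lit 132) (nat_lit 5) (nat_lit 137) (nat_lit 5) (nat_lit 267) (nat_lit 263) (nat_lit 250)) (XT.lf (nat_lit 0)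 (nat_lit 1565277532) (nat_lit 380) (nat_lit 1905229634) (nat_lit 456) (nat_lit 3354206394) (nat_lit 127) (nat_lit 5) (nat_lit 132) (nat_lit 5) (nat_lit 133) (nat_lit 5) (nat_lit 268) (nat_lit 263) (nat_lit 249))) (XT.nd (nat_lit 78) (nat_lit 380) (nat_lit 0) (XT.lf (nat_lit 76) (nat_lit 1659330209) (nat_lit 0) (nat_lit 2089995606) (nat_lit 456) (nat_lit 3154860642) (nat_lit 128) (nat_lit 5) (nat_lit 127) (nat_lit 5) (nat_lit 133) (nat_lit 5) (nat_lit 269) (nat_lit 263) (nat_lit 248)) (XT.nd (nat_lit 78) (nat_lit 380) (nat_lit 0) (XT.lf (nat_lit 76) (nat_lit 5386538029) (nat_lit 0) (nat_lit 563656761) (nat_lit 456) (nat_lit 1042355009) (nat_lit 128) (nat_lit 5) (nat_lit 127) (nat_lit 5) (nat_lit 133) (nat_lit 5) (nat_lit 270) (nat_lit 263) (nat_lit 247)) (XT.lf (nat_lit 0) (nat_lit 1069000855) (nat_lit 456) (nat_lit 4922488571) (nat_lit 76) (nat_lit 1096651200) (nat_lit 122) (nat_lit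 5) (nat_lit 128) (nat_lit 5) (nat_lit 123) (nat_lit 5) (nat_lit 271) (nat_lit 263) (nat_lit 246))))) (XT.nd (nat_lit 156) (nat_lit 1216) (nat_lit 0) (XT.nd (nat_lit 78) (nat_lit 456) (nat_lit 0) (XT.lf (nat_lit 0) (nat_lit 3171900860) (nat_lit 456) (nat_lit 1119682465) (nat_lit 76) (nat_lit 2900280142) (nat_lit 122) (nat_lit 5) (nat_lit 128) (nat_lit 5) (nat_lit 123) (nat_lit 5) (nat_lit 272) (nat_lit 263) (nat_lit 245)) (XT.lf (nat_lit 0) (nat_lit 2882263293) (nat_lit 456) (nat_lit 2432322369) (nat_lit 532) (nat_lit 1989699725) (nat_lit 116) (nat_lit 5) (nat_lit 122) (nat_lit 5) (nat_lit 123) (nat_lit 5) (nat_lit 273) (nat_lit 263) (nat_lit 244))) (XT.nd (nat_lit 78) (nat_lit 1140) (nat_lit 0) (XT.lf (nat_lit 0) (nat_lit 48448425) (nat_lit 532) (nat_lit 386443310) (nat_lit 76) (nat_lit 6992001945) (nat_lit 115) (nat_lit 5) (nat_lit 122) (nat_lit 5) (nat_lit 116) (nat_lit 5) (nat_lit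 274) (nat_lit 263) (nat_lit 243)) (XT.nd (nat_lit 78) (nat_lit 608) (nat_lit 0) (XT.lf (nat_lit 0) (nat_lit 2106526018) (nat_lit 608) (nat_lit 3723957764) (nat_lit 76) (nat_lit 1724484832) (nat_lit 108) (nat_lit 5) (nat_lit 116) (nat_lit 5) (nat_lit 109) (nat_lit 5) (nat_lit 275) (nat_lit 263) (nat_lit 242)) (XT.lf (nat_lit 0) (nat_lit 506825831) (nat_lit 608) (nat_lit 3683141957) (nat_lit 684) (nat_lit 3503557996) (nat_lit 100) (nat_lit 5) (nat_lit 108) (nat_lit 5) (nat_lit 109) (nat_lit 5) (nat_lit 276) (nat_lit 263) (nat_lit 241)))))) (XT.nd (nat_lit 390) (nat_lit 1444) (nat_lit 0) (XT.nd (nat_lit 156) (nat_lit 532) (nat_lit 0) (XT.nd (nat_lit 78) (nat_lit 760) (nat_lit 0) (XT.lf (nat_lit 0) (nat_lit 4994026578) (nat_lit 608) (nat_lit 1350795713) (nat_lit 684) (nat_lit 1496018397) (nat_lit 100) (nat_lit 5) (nat_lit 108) (nat_lit 5) (nat_lit 109) (nat_lit 5) (nat_lit 277) (nat_lit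 263) (nat_lit 240)) (XT.lf (nat_lit 0) (nat_lit 543330797) (nat_lit 760) (nat_lit 6346098516) (nat_lit 76) (nat_lit 1108237560) (nat_lit 90) (nat_lit 5) (nat_lit 100) (nat_lit 5) (nat_lit 91) (nat_lit 5) (nat_lit 278) (nat_lit 263) (nat_lit 239))) (XT.nd (nat_lit 78) (nat_lit 532) (nat_lit 0) (XT.lf (nat_lit 0) (nat_lit 2615839900) (nat_lit 760) (nat_lit 1820738975) (nat_lit 76) (nat_lit 3725621600) (nat_lit 90) (nat_lit 5) (nat_lit 100) (nat_lit 5) (nat_lit 91) (nat_lit 5) (nat_lit 279) (nat_lit 263) (nat_lit 238)) (XT.nd (nat_lit 78) (nat_lit 0) (nat_lit 0) (XT.lf (nat_lit 0) (nat_lit 2942140480) (nat_lit 532) (nat_lit 1810361175) (nat_lit 608) (nat_lit 3584590628) (nat_lit 83) (nat_lit 5) (nat_lit 90) (nat_lit 5) (nat_lit 91) (nat_lit 5) (nat_lit 280) (nat_lit 263) (nat_lit 237)) (XT.lf (nat_lit 0) (nat_lit 6959526738) (nat_lit 608) (nat_lit 613979372) (nat_lit 76) (nat_lit 949196423)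 (nat_lit 83) (nat_lit 5) (nat_lit 91) (nat_lit 5) (nat_lit 84) (nat_lit 5) (nat_lit 281) (nat_lit 263) (nat_lit 236))))) (XT.nd (nat_lit 234) (nat_lit 684) (nat_lit 0) (XT.nd (nat_lit 78) (nat_lit 304) (nat_lit 0) (XT.lf (nat_lit 0) (nat_lit 561882621) (nat_lit 456) (nat_lit 4289208922) (nat_lit 76) (nat_lit 3865177806) (nat_lit 77) (nat_lit 5) (nat_lit 83) (nat_lit 5) (nat_lit 78) (nat_lit 5) (nat_lit 282) (nat_lit 263) (nat_lit 235)) (XT.nd (nat_lit 78) (nat_lit 0) (nat_lit 0) (XT.lf (nat_lit 0) (nat_lit 737108661) (nat_lit 304) (nat_lit 1948072986) (nat_lit 380) (nat_lit 6235955427) (nat_lit 73) (nat_lit 5) (nat_lit 77) (nat_lit 5) (nat_lit 78) (nat_lit 5) (nat_lit 283) (nat_lit 263) (nat_lit 234)) (XT.lf (nat_lit 0) (nat_lit 4930407118) (nat_lit 380) (nat_lit 3072924694) (nat_lit 76) (nat_lit 1132252003) (nat_lit 73) (nat_lit 5) (nat_lit 78) (nat_lit 5) (nat_lit 74) (nat_lit 5) (nat_lit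 284) (nat_lit 263) (nat_lit 233)))) (XT.nd (nat_lit 78) (nat_lit 380) (nat_lit 0) (XT.lf (nat_lit 0) (nat_lit 2252368574) (nat_lit 304) (nat_lit 5030965038) (nat_lit 380) (nat_lit 2077765109) (nat_lit 69) (nat_lit 5) (nat_lit 73) (nat_lit 5) (nat_lit 74) (nat_lit 5) (nat_lit 285) (nat_lit 263) (nat_lit 232)) (XT.nd (nat_lit 78) (nat_lit 304) (nat_lit 0) (XT.lf (nat_lit 0) (nat_lit 133168739) (nat_lit 380) (nat_lit 1730615982) (nat_lit 76) (nat_lit 7734982460) (nat_lit 68) (nat_lit 5) (nat_lit 73) (nat_lit 5) (nat_lit 69) (nat_lit 5) (nat_lit 286) (nat_lit 263) (nat_lit 231)) (XT.lf (nat_lit 0) (nat_lit 2403000403) (nat_lit 380) (nat_lit 5941836728) (nat_lit 76) (nat_lit 1500971738) (nat_lit 64) (nat_lit 5) (nat_lit 69) (nat_lit 5) (nat_lit 65) (nat_lit 5) (nat_lit 287) (nat_lit 263) (nat_lit 230))))))) (XT.nd (nat_lit 780) (nat_lit 988) (nat_lit 0) (XT.nd (nat_lit 390) (nat_lit 684)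 (nat_lit 0) (XT.nd (nat_lit 156) (nat_lit 532) (nat_lit 0) (XT.nd (nat_lit 78) (nat_lit 304) (nat_lit 0) (XT.lf (nat_lit 0) (nat_lit 4781097480) (nat_lit 380) (nat_lit 335022195) (nat_lit 76) (nat_lit 4989441199) (nat_lit 64) (nat_lit 5) (nat_lit 69) (nat_lit 5) (nat_lit 65) (nat_lit 5) (nat_lit 288) (nat_lit 263) (nat_lit 229)) (XT.lf (nat_lit 0) (nat_lit 5656388608) (nat_lit 304) (nat_lit 1647575921) (nat_lit 380) (nat_lit 3073135008) (nat_lit 60) (nat_lit 5) (nat_lit 64) (nat_lit 5) (nat_lit 65) (nat_lit 5) (nat_lit 289) (nat_lit 263) (nat_lit 228))) (XT.nd (nat_lit 78) (nat_lit 304) (nat_lit 0) (XT.lf (nat_lit 0) (nat_lit 1226665785) (nat_lit 228) (nat_lit 8721480409) (nat_lit 304) (nat_lit 714398289) (nat_lit 57) (nat_lit 5) (nat_lit 60) (nat_lit 5) (nat_lit 61) (nat_lit 5) (nat_lit 290) (nat_lit 263) (nat_lit 227)) (XT.nd (nat_lit 78) (nat_lit 228) (nat_lit 0) (XT.lf (nat_lit 0)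 (nat_lit 1753896822) (nat_lit 304) (nat_lit 3458035008) (nat_lit 76) (nat_lit 5746632620) (nat_lit 56) (nat_lit 5) (nat_lit 60) (nat_lit 5) (nat_lit 57) (nat_lit 5) (nat_lit 291) (nat_lit 263) (nat_lit 226)) (XT.lf (nat_lit 0) (nat_lit 2821838884) (nat_lit 228) (nat_lit 1486442619) (nat_lit 304) (nat_lit 6961260119) (nat_lit 53) (nat_lit 5) (nat_lit 56) (nat_lit 5) (nat_lit 57) (nat_lit 5) (nat_lit 292) (nat_lit 263) (nat_lit 225))))) (XT.nd (nat_lit 156) (nat_lit 456) (nat_lit 0) (XT.nd (nat_lit 78) (nat_lit 228) (nat_lit 0) (XT.lf (nat_lit 0) (nat_lit 7031686283) (nat_lit 304) (nat_lit 2173028070) (nat_lit 76) (nat_lit 2389360584) (nat_lit 53) (nat_lit 5) (nat_lit 57) (nat_lit 5) (nat_lit 54) (nat_lit 5) (nat_lit 293) (nat_lit 263) (nat_lit 224)) (XT.lf (nat_lit 0) (nat_lit 4460614104) (nat_lit 228) (nat_lit 5471239941) (nat_lit 304) (nat_lit 2001020120) (nat_lit 50) (nat_lit 5) (nat_lit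 53) (nat_lit 5) (nat_lit 54) (nat_lit 5) (nat_lit 294) (nat_lit 263) (nat_lit 223))) (XT.nd (nat_lit 78) (nat_lit 380) (nat_lit 0) (XT.lf (nat_lit 0) (nat_lit 650873805) (nat_lit 304) (nat_lit 870541476) (nat_lit 76) (nat_lit 10767498617) (nat_lit 49) (nat_lit 5) (nat_lit 53) (nat_lit 5) (nat_lit 50) (nat_lit 5) (nat_lit 295) (nat_lit 263) (nat_lit 222)) (XT.nd (nat_lit 78) (nat_lit 152) (nat_lit 0) (XT.lf (nat_lit 0) (nat_lit 3456620681) (nat_lit 304) (nat_lit 6546509957) (nat_lit 76) (nat_lit 2653619021) (nat_lit 46) (nat_lit 5) (nat_lit 50) (nat_lit 5) (nat_lit 47) (nat_lit 5) (nat_lit 296) (nat_lit 263) (nat_lit 221)) (XT.lf (nat_lit 0) (nat_lit 342474583) (nat_lit 152) (nat_lit 6056065668) (nat_lit 228) (nat_lit 6644699362) (nat_lit 44) (nat_lit 5) (nat_lit 46) (nat_lit 5) (nat_lit 47) (nat_lit 5) (nat_lit 297) (nat_lit 263) (nat_lit 220)))))) (XT.nd (nat_lit 390) (nat_lit 532)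 (nat_lit 0) (XT.nd (nat_lit 156) (nat_lit 228) (nat_lit 0) (XT.nd (nat_lit 78) (nat_lit 228) (nat_lit 0) (XT.lf (nat_lit 0) (nat_lit 7732992214) (nat_lit 152) (nat_lit 1817300127) (nat_lit 228) (nat_lit 3895678867) (nat_lit 44) (nat_lit 5) (nat_lit 46) (nat_lit 5) (nat_lit 47) (nat_lit 5) (nat_lit 298) (nat_lit 263) (nat_lit 219)) (XT.lf (nat_lit 0) (nat_lit 1564279427) (nat_lit 228) (nat_lit 11314722341) (nat_lit 304) (nat_lit 988920532) (nat_lit 41) (nat_lit 5) (nat_lit 44) (nat_lit 5) (nat_lit 45) (nat_lit 5) (nat_lit 299) (nat_lit 263) (nat_lit 218))) (XT.nd (nat_lit 78) (nat_lit 152) (nat_lit 0) (XT.lf (nat_lit 0) (nat_lit 2079458351) (nat_lit 304) (nat_lit 5035300130) (nat_lit 76) (nat_lit 7190532634) (nat_lit 40) (nat_lit 5) (nat_lit 44) (nat_lit 5) (nat_lit 41) (nat_lit 5) (nat_lit 300) (nat_lit 263) (nat_lit 217)) (XT.nd (nat_lit 78) (nat_lit 0) (nat_lit 0) (XT.lf (nat_lit 0)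 (nat_lit 2597361215) (nat_lit 152) (nat_lit 2667581572) (nat_lit 228) (nat_lit 9498973356) (nat_lit 38) (nat_lit 5) (nat_lit 40) (nat_lit 5) (nat_lit 41) (nat_lit 5) (nat_lit 301) (nat_lit 263) (nat_lit 216)) (XT.lf (nat_lit 0) (nat_lit 8684713555) (nat_lit 228) (nat_lit 4554167705) (nat_lit 76) (nat_lit 2002882843) (nat_lit 38) (nat_lit 5) (nat_lit 41) (nat_lit 5) (nat_lit 39) (nat_lit 5) (nat_lit 302) (nat_lit 263) (nat_lit 215))))) (XT.nd (nat_lit 234) (nat_lit 152) (nat_lit 0) (XT.nd (nat_lit 78) (nat_lit 228) (nat_lit 0) (XT.lf (nat_lit 0) (nat_lit 3441667797) (nat_lit 152) (nat_lit 8890396463) (nat_lit 228) (nat_lit 3408650908) (nat_lit 36) (nat_lit 5) (nat_lit 38) (nat_lit 5) (nat_lit 39) (nat_lit 5) (nat_lit 303) (nat_lit 263) (nat_lit 214)) (XT.nd (nat_lit 78) (nat_lit 228) (nat_lit 0) (XT.lf (nat_lit 0) (nat_lit 11932836122) (nat_lit 152) (nat_lit 4266169361) (nat_lit 228)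 (nat_lit 63785512) (nat_lit 36) (nat_lit 5) (nat_lit 38) (nat_lit 5) (nat_lit 39) (nat_lit 5) (nat_lit 304) (nat_lit 263) (nat_lit 213)) (XT.lf (nat_lit 0) (nat_lit 3373337570) (nat_lit 228) (nat_lit 12765297337) (nat_lit 76) (nat_lit 667909481) (nat_lit 33) (nat_lit 5) (nat_lit 36) (nat_lit 5) (nat_lit 34) (nat_lit 5) (nat_lit 305) (nat_lit 263) (nat_lit 212)))) (XT.nd (nat_lit 78) (nat_lit 152) (nat_lit 0) (XT.lf (nat_lit 0) (nat_lit 7086539662) (nat_lit 228) (nat_lit 4526164262) (nat_lit 76) (nat_lit 5759444058) (nat_lit 33) (nat_lit 5) (nat_lit 36) (nat_lit 5) (nat_lit 34) (nat_lit 5) (nat_lit 306) (nat_lit 263) (nat_lit 211)) (XT.nd (nat_lit 78) (nat_lit 0) (nat_lit 0) (XT.lf (nat_lit 0) (nat_lit 4200810358) (nat_lit 152) (nat_lit 6813889590) (nat_lit 228) (nat_lit 6949898457) (nat_lit 31) (nat_lit 5) (nat_lit 33) (nat_lit 5) (nat_lit 34) (nat_lit 5) (nat_lit 307) (nat_lit 263)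 (nat_lit 210)) (XT.lf (nat_lit 0) (nat_lit 13463649272) (nat_lit 152) (nat_lit 1716811792) (nat_lit 228) (nat_lit 3404180699) (nat_lit 31) (nat_lit 5) (nat_lit 33) (nat_lit 5) (nat_lit 34) (nat_lit 5) (nat_lit 308) (nat_lit 263) (nat_lit 209))))))))
noncomputable def xc116 : XT := (XT.nd (nat_lit 1560) (nat_lit 608) (nat_lit 0) (XT.nd (nat_lit 780) (nat_lit 456) (nat_lit 0) (XT.nd (nat_lit 390) (nat_lit 304) (nat_lit 0) (XT.nd (nat_lit 156) (nat_lit 228) (nat_lit 0) (XT.nd (nat_lit 78) (nat_lit 0) (nat_lit 0) (XT.lf (nat_lit 0) (nat_lit 394581686) (nat_lit 228) (nat_lit 15269929633) (nat_lit 76) (nat_lit 3566656190) (nat_lit 28) (nat_lit 5) (nat_lit 31) (nat_lit 5) (nat_lit 29) (nat_lit 5) (nat_lit 309) (nat_lit 263) (nat_lit 208)) (XT.lf (nat_lit 0) (nat_lit 4351257724) (nat_lit 228) (nat_lit 6372192756) (nat_lit 76) (nat_lit 9179685796) (nat_lit 28) (nat_lit 5) (nat_lit 31) (nat_lit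 5) (nat_lit 29) (nat_lit 5) (nat_lit 310) (nat_lit 263) (nat_lit 207))) (XT.nd (nat_lit 78) (nat_lit 76) (nat_lit 0) (XT.lf (nat_lit 0) (nat_lit 3013052061) (nat_lit 152) (nat_lit 5507458299) (nat_lit 228) (nat_lit 12087480708) (nat_lit 26) (nat_lit 5) (nat_lit 28) (nat_lit 5) (nat_lit 29) (nat_lit 5) (nat_lit 311) (nat_lit 263) (nat_lit 206)) (XT.nd (nat_lit 78) (nat_lit 76) (nat_lit 0) (XT.lf (nat_lit 0) (nat_lit 12975510661) (nat_lit 228) (nat_lit 8309412718) (nat_lit 76) (nat_lit 59324517) (nat_lit 26) (nat_lit 5) (nat_lit 29) (nat_lit 5) (nat_lit 27) (nat_lit 4) (nat_lit 312) (nat_lit 263) (nat_lit 205)) (XT.lf (nat_lit 0) (nat_lit 1341401812) (nat_lit 76) (nat_lit 16392687014) (nat_lit 152) (nat_lit 4379209771) (nat_lit 25) (nat_lit 5) (nat_lit 26) (nat_lit 5) (nat_lit 27) (nat_lit 4) (nat_lit 313) (nat_lit 263) (nat_lit 204))))) (XT.nd (nat_lit 156) (nat_lit 228) (nat_lit 0) (XT.nd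 (nat_lit 78) (nat_lit 76) (nat_lit 0) (XT.lf (nat_lit 0) (nat_lit 11712438833) (nat_lit 76) (nat_lit 11129134119) (nat_lit 152) (nat_lit 73701389) (nat_lit 25) (nat_lit 5) (nat_lit 26) (nat_lit 5) (nat_lit 27) (nat_lit 4) (nat_lit 314) (nat_lit 263) (nat_lit 203)) (XT.lf (nat_lit 0) (nat_lit 4275933523) (nat_lit 152) (nat_lit 1274107823) (nat_lit 76) (nat_lit 18205296051) (nat_lit 24) (nat_lit 5) (nat_lit 26) (nat_lit 5) (nat_lit 25) (nat_lit 5) (nat_lit 315) (nat_lit 263) (nat_lit 202))) (XT.nd (nat_lit 78) (nat_lit 76) (nat_lit 0) (XT.lf (nat_lit 0) (nat_lit 8966881125) (nat_lit 228) (nat_lit 15234498727) (nat_lit 76) (nat_lit 429666406) (nat_lit 22) (nat_lit 5) (nat_lit 25) (nat_lit 5) (nat_lit 23) (nat_lit 4) (nat_lit 316) (nat_lit 263) (nat_lit 201)) (XT.nd (nat_lit 78) (nat_lit 76) (nat_lit 0) (XT.lf (nat_lit 0) (nat_lit 13978131411) (nat_lit 228) (nat_lit 5043134470) (nat_lit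 76) (nat_lit 6525004486) (nat_lit 22) (nat_lit 5) (nat_lit 25) (nat_lit 5) (nat_lit 23) (nat_lit 4) (nat_lit 317) (nat_lit 263) (nat_lit 200)) (XT.lf (nat_lit 0) (nat_lit 5798328755) (nat_lit 76) (nat_lit 13506276623) (nat_lit 152) (nat_lit 7199433980) (nat_lit 21) (nat_lit 5) (nat_lit 22) (nat_lit 5) (nat_lit 23) (nat_lit 4) (nat_lit 318) (nat_lit 263) (nat_lit 199)))))) (XT.nd (nat_lit 390) (nat_lit 152) (nat_lit 0) (XT.nd (nat_lit 156) (nat_lit 76) (nat_lit 0) (XT.nd (nat_lit 78) (nat_lit 228) (nat_lit 0) (XT.lf (nat_lit 0) (nat_lit 17312626051) (nat_lit 76) (nat_lit 7644857641) (nat_lit 152) (nat_lit 2549225013) (nat_lit 21) (nat_lit 5) (nat_lit 22) (nat_lit 5) (nat_lit 23) (nat_lit 4) (nat_lit 319) (nat_lit 263) (nat_lit 198)) (XT.lf (nat_lit 0) (nat_lit 788903984) (nat_lit 152) (nat_lit 1457689687) (nat_lit 228) (nat_lit 26311721402) (nat_lit 18) (nat_lit 5) (nat_lit 20) (nat_lit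 5) (nat_lit 21) (nat_lit 5) (nat_lit 320) (nat_lit 263) (nat_lit 197))) (XT.nd (nat_lit 78) (nat_lit 76) (nat_lit 0) (XT.lf (nat_lit 0) (nat_lit 7426364520) (nat_lit 228) (nat_lit 17145480225) (nat_lit 76) (nat_lit 5077089658) (nat_lit 18) (nat_lit 5) (nat_lit 21) (nat_lit 5) (nat_lit 19) (nat_lit 4) (nat_lit 321) (nat_lit 263) (nat_lit 196)) (XT.nd (nat_lit 78) (nat_lit 76) (nat_lit 0) (XT.lf (nat_lit 0) (nat_lit 12865867729) (nat_lit 228) (nat_lit 6055463570) (nat_lit 76) (nat_lit 11872729322) (nat_lit 18) (nat_lit 5) (nat_lit 21) (nat_lit 5) (nat_lit 19) (nat_lit 4) (nat_lit 322) (nat_lit 263) (nat_lit 195)) (XT.lf (nat_lit 0) (nat_lit 5733303826) (nat_lit 76) (nat_lit 12911504990) (nat_lit 152) (nat_lit 13348273686) (nat_lit 17) (nat_lit 5) (nat_lit 18) (nat_lit 5) (nat_lit 19) (nat_lit 4) (nat_lit 323) (nat_lit 263) (nat_lit 194))))) (XT.nd (nat_lit 156) (nat_lit 152) (nat_lit 0)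 (XT.nd (nat_lit 78) (nat_lit 0) (nat_lit 0) (XT.lf (nat_lit 0) (nat_lit 18283123086) (nat_lit 76) (nat_lit 6510522922) (nat_lit 152) (nat_lit 8454373911) (nat_lit 17) (nat_lit 5) (nat_lit 18) (nat_lit 5) (nat_lit 19) (nat_lit 4) (nat_lit 324) (nat_lit 263) (nat_lit 193)) (XT.lf (nat_lit 0) (nat_lit 31232384242) (nat_lit 152) (nat_lit 3146124113) (nat_lit 0) (nat_lit 188084218) (nat_lit 17) (nat_lit 5) (nat_lit 19) (nat_lit 4) (nat_lit 17) (nat_lit 4) (nat_lit 325) (nat_lit 263) (nat_lit 192))) (XT.nd (nat_lit 78) (nat_lit 0) (nat_lit 0) (XT.lf (nat_lit 0) (nat_lit 2214444051) (nat_lit 152) (nat_lit 26552457332) (nat_lit 76) (nat_lit 7170717003) (nat_lit 15) (nat_lit 5) (nat_lit 17) (nat_lit 5) (nat_lit 16) (nat_lit 4) (nat_lit 326) (nat_lit 263) (nat_lit 191)) (XT.nd (nat_lit 78) (nat_lit 0) (nat_lit 0) (XT.lf (nat_lit 0) (nat_lit 7962863057) (nat_lit 152) (nat_lit 14813691336) (nat_lit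 76) (nat_lit 14596198661) (nat_lit 15) (nat_lit 5) (nat_lit 17) (nat_lit 5) (nat_lit 16) (nat_lit 4) (nat_lit 327) (nat_lit 263) (nat_lit 190)) (XT.lf (nat_lit 0) (nat_lit 13979875080) (nat_lit 152) (nat_lit 2522143320) (nat_lit 76) (nat_lit 22378576769) (nat_lit 15) (nat_lit 5) (nat_lit 17) (nat_lit 5) (nat_lit 16) (nat_lit 4) (nat_lit 328) (nat_lit 263) (nat_lit 189))))))) (XT.nd (nat_lit 780) (nat_lit 304) (nat_lit 0) (XT.nd (nat_lit 390) (nat_lit 76) (nat_lit 0) (XT.nd (nat_lit 156) (nat_lit 152) (nat_lit 0) (XT.nd (nat_lit 78) (nat_lit 0) (nat_lit 0) (XT.lf (nat_lit 0) (nat_lit 10693718066) (nat_lit 76) (nat_lit 9753047183) (nat_lit 152) (nat_lit 20009621639) (nat_lit 14) (nat_lit 5) (nat_lit 15) (nat_lit 5) (nat_lit 16) (nat_lit 4) (nat_lit 329) (nat_lit 263) (nat_lit 188)) (XT.lf (nat_lit 0) (nat_lit 24625930526) (nat_lit 76) (nat_lit 2636205940) (nat_lit 152) (nat_lit 14847583353)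 (nat_lit 14) (nat_lit 5) (nat_lit 15) (nat_lit 5) (nat_lit 16) (nat_lit 4) (nat_lit 330) (nat_lit 263) (nat_lit 187))) (XT.nd (nat_lit 78) (nat_lit 152) (nat_lit 0) (XT.lf (nat_lit 0) (nat_lit 34476832505) (nat_lit 152) (nat_lit 4697588342) (nat_lit 0) (nat_lit 4668378786) (nat_lit 14) (nat_lit 5) (nat_lit 16) (nat_lit 4) (nat_lit 14) (nat_lit 4) (nat_lit 331) (nat_lit 263) (nat_lit 186)) (XT.nd (nat_lit 78) (nat_lit 76) (nat_lit 0) (XT.lf (nat_lit 0) (nat_lit 8941251983) (nat_lit 76) (nat_lit 33277678517) (nat_lit 76) (nat_lit 3435277247) (nat_lit 13) (nat_lit 4) (nat_lit 14) (nat_lit 5) (nat_lit 14) (nat_lit 4) (nat_lit 332) (nat_lit 263) (nat_lit 185)) (XT.lf (nat_lit 0) (nat_lit 2767347313) (nat_lit 152) (nat_lit 24201670278) (nat_lit 76) (nat_lit 20581758126) (nat_lit 12) (nat_lit 5) (nat_lit 14) (nat_lit 5) (nat_lit 13) (nat_lit 4) (nat_lit 333) (nat_lit 263) (nat_lit 184)))))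 (XT.nd (nat_lit 156) (nat_lit 0) (nat_lit 0) (XT.nd (nat_lit 78) (nat_lit 76) (nat_lit 0) (XT.lf (nat_lit 0) (nat_lit 9149321737) (nat_lit 152) (nat_lit 11149414137) (nat_lit 76) (nat_lit 29241393709) (nat_lit 12) (nat_lit 5) (nat_lit 14) (nat_lit 5) (nat_lit 13) (nat_lit 4) (nat_lit 334) (nat_lit 263) (nat_lit 183)) (XT.lf (nat_lit 0) (nat_lit 2612128178) (nat_lit 76) (nat_lit 13264445992) (nat_lit 152) (nat_lit 35751074317) (nat_lit 11) (nat_lit 5) (nat_lit 12) (nat_lit 5) (nat_lit 13) (nat_lit 4) (nat_lit 335) (nat_lit 263) (nat_lit 182))) (XT.nd (nat_lit 78) (nat_lit 0) (nat_lit 0) (XT.lf (nat_lit 0) (nat_lit 17422333418) (nat_lit 76) (nat_lit 5692354885) (nat_lit 152) (nat_lit 30696136085) (nat_lit 11) (nat_lit 5) (nat_lit 12) (nat_lit 5) (nat_lit 13) (nat_lit 4) (nat_lit 336) (nat_lit 263) (nat_lit 181)) (XT.nd (nat_lit 78) (nat_lit 0) (nat_lit 0) (XT.lf (nat_lit 0) (nat_lit 30736146477)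 (nat_lit 152) (nat_lit 23191110791) (nat_lit 0) (nat_lit 2174835620) (nat_lit 11) (nat_lit 5) (nat_lit 13) (nat_lit 4) (nat_lit 11) (nat_lit 4) (nat_lit 337) (nat_lit 263) (nat_lit 180)) (XT.lf (nat_lit 0) (nat_lit 38818832285) (nat_lit 152) (nat_lit 9451694703) (nat_lit 0) (nat_lit 10233395538) (nat_lit 11) (nat_lit 5) (nat_lit 13) (nat_lit 4) (nat_lit 11) (nat_lit 4) (nat_lit 338) (nat_lit 263) (nat_lit 179)))))) (XT.nd (nat_lit 390) (nat_lit 152) (nat_lit 0) (XT.nd (nat_lit 156) (nat_lit 76) (nat_lit 0) (XT.nd (nat_lit 78) (nat_lit 0) (nat_lit 0) (XT.lf (nat_lit 0) (nat_lit 5115057587) (nat_lit 76) (nat_lit 42257919402) (nat_lit 76) (nat_lit 13649505616) (nat_lit 10) (nat_lit 4) (nat_lit 11) (nat_lit 5) (nat_lit 11) (nat_lit 4) (nat_lit 339) (nat_lit 263) (nat_lit 178)) (XT.lf (nat_lit 0) (nat_lit 20715317189) (nat_lit 76) (nat_lit 35787283272) (nat_lit 76) (nat_lit 7156986591) (nat_lit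 10) (nat_lit 4) (nat_lit 11) (nat_lit 5) (nat_lit 11) (nat_lit 4) (nat_lit 340) (nat_lit 263) (nat_lit 177))) (XT.nd (nat_lit 78) (nat_lit 76) (nat_lit 0) (XT.lf (nat_lit 0) (nat_lit 37073711866) (nat_lit 76) (nat_lit 29003281345) (nat_lit 76) (nat_lit 352143813) (nat_lit 10) (nat_lit 4) (nat_lit 11) (nat_lit 5) (nat_lit 11) (nat_lit 4) (nat_lit 341) (nat_lit 263) (nat_lit 176)) (XT.nd (nat_lit 78) (nat_lit 0) (nat_lit 0) (XT.lf (nat_lit 0) (nat_lit 6564183184) (nat_lit 152) (nat_lit 15214410433) (nat_lit 76) (nat_lit 47553839372) (nat_lit 9) (nat_lit 5) (nat_lit 11) (nat_lit 5) (nat_lit 10) (nat_lit 4) (nat_lit 342) (nat_lit 263) (nat_lit 175)) (XT.lf (nat_lit 0) (nat_lit 13803690875) (nat_lit 152) (nat_lit 392322932) (nat_lit 76) (nat_lit 58185135434) (nat_lit 9) (nat_lit 5) (nat_lit 11) (nat_lit 5) (nat_lit 10) (nat_lit 4) (nat_lit 343) (nat_lit 263) (nat_lit 174))))) (XT.nd (nat_lit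 234) (nat_lit 76) (nat_lit 0) (XT.nd (nat_lit 78) (nat_lit 0) (nat_lit 0) (XT.lf (nat_lit 0) (nat_lit 15652607161) (nat_lit 76) (nat_lit 5986660887) (nat_lit 152) (nat_lit 53931332427) (nat_lit 8) (nat_lit 5) (nat_lit 9) (nat_lit 5) (nat_lit 10) (nat_lit 4) (nat_lit 344) (nat_lit 263) (nat_lit 173)) (XT.nd (nat_lit 78) (nat_lit 0) (nat_lit 0) (XT.lf (nat_lit 0) (nat_lit 29904257465) (nat_lit 152) (nat_lit 46466310558) (nat_lit 0) (nat_lit 2547078265) (nat_lit 8) (nat_lit 5) (nat_lit 10) (nat_lit 4) (nat_lit 8) (nat_lit 4) (nat_lit 345) (nat_lit 263) (nat_lit 172)) (XT.lf (nat_lit 0) (nat_lit 38670894793) (nat_lit 152) (nat_lit 32458569360) (nat_lit 0) (nat_lit 11298163829) (nat_lit 8) (nat_lit 5) (nat_lit 10) (nat_lit 4) (nat_lit 8) (nat_lit 4) (nat_lit 346) (nat_lit 263) (nat_lit 171)))) (XT.nd (nat_lit 78) (nat_lit 76) (nat_lit 0) (XT.lf (nat_lit 0) (nat_lit 47866584424) (nat_lit 152)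 (nat_lit 17767949402) (nat_lit 0) (nat_lit 20479042257) (nat_lit 8) (nat_lit 5) (nat_lit 10) (nat_lit 4) (nat_lit 8) (nat_lit 4) (nat_lit 347) (nat_lit 263) (nat_lit 170)) (XT.nd (nat_lit 78) (nat_lit 76) (nat_lit 0) (XT.lf (nat_lit 0) (nat_lit 57513220859) (nat_lit 152) (nat_lit 2359473017) (nat_lit 0) (nat_lit 30111572783) (nat_lit 8) (nat_lit 5) (nat_lit 10) (nat_lit 4) (nat_lit 8) (nat_lit 4) (nat_lit 348) (nat_lit 263) (nat_lit 169)) (XT.lf (nat_lit 0) (nat_lit 14259954233) (nat_lit 76) (nat_lit 53596455895) (nat_lit 76) (nat_lit 26181373620) (nat_lit 7) (nat_lit 4) (nat_lit 8) (nat_lit 5) (nat_lit 8) (nat_lit 4) (nat_lit 349) (nat_lit 263) (nat_lit 168))))))))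
noncomputable def xc117 : XT := (XT.nd (nat_lit 1638) (nat_lit 152) (nat_lit 0) (XT.nd (nat_lit 780) (nat_lit 76) (nat_lit 0) (XT.nd (nat_lit 390) (nat_lit 76) (nat_lit 0) (XT.nd (nat_lit 156) (nat_lit 76) (nat_lit 0) (XT.nd (nat_lit 78) (nat_lit 0) (nat_lit 0) (XT.lf (nat_lit 0) (nat_lit 31776644015) (nat_lit 76) (nat_lit 46971813686) (nat_lit 76) (nat_lit 19543936936) (nat_lit 7) (nat_lit 4) (nat_lit 8) (nat_lit 5) (nat_lit 8) (nat_lit 4) (nat_lit 350) (nat_lit 263) (nat_lit 167)) (XT.lf (nat_lit 0) (nat_lit 50154287901) (nat_lit 76) (nat_lit 40022953110) (nat_lit 76) (nat_lit 12582891145) (nat_lit 7) (nat_lit 4) (nat_lit 8) (nat_lit 5) (nat_lit 8) (nat_lit 4) (nat_lit 351) (nat_lit 263) (nat_lit 166))) (XT.nd (nat_lit 78) (nat_lit 76) (nat_lit 0) (XT.lf (nat_lit 0) (nat_lit 69436642183) (nat_lit 76) (nat_lit 32733329260) (nat_lit 76) (nat_lit 5281662330) (nat_lit 7) (nat_lit 4) (nat_lit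 8) (nat_lit 5) (nat_lit 8) (nat_lit 4) (nat_lit 352) (nat_lit 263) (nat_lit 165)) (XT.nd (nat_lit 78) (nat_lit 0) (nat_lit 0) (XT.lf (nat_lit 0) (nat_lit 2301050274) (nat_lit 152) (nat_lit 22745566215) (nat_lit 76) (nat_lit 87329597556) (nat_lit 6) (nat_lit 5) (nat_lit 8) (nat_lit 5) (nat_lit 7) (nat_lit 4) (nat_lit 353) (nat_lit 263) (nat_lit 164)) (XT.lf (nat_lit 0) (nat_lit 10078490816) (nat_lit 152) (nat_lit 6812339151) (nat_lit 76) (nat_lit 100652211857) (nat_lit 6) (nat_lit 5) (nat_lit 8) (nat_lit 5) (nat_lit 7) (nat_lit 4) (nat_lit 354) (nat_lit 263) (nat_lit 163))))) (XT.nd (nat_lit 156) (nat_lit 0) (nat_lit 0) (XT.nd (nat_lit 78) (nat_lit 0) (nat_lit 0) (XT.lf (nat_lit 0) (nat_lit 10232594331) (nat_lit 76) (nat_lit 8165388333) (nat_lit 152) (nat_lit 104562571520) (nat_lit 5) (nat_lit 5) (nat_lit 6) (nat_lit 5) (nat_lit 7) (nat_lit 4) (nat_lit 355) (nat_lit 263) (nat_lit 162))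 (XT.lf (nat_lit 0) (nat_lit 27259717237) (nat_lit 152) (nat_lit 100306832110) (nat_lit 0) (nat_lit 1076081461) (nat_lit 5) (nat_lit 5) (nat_lit 7) (nat_lit 4) (nat_lit 5) (nat_lit 4) (nat_lit 356) (nat_lit 263) (nat_lit 161))) (XT.nd (nat_lit 78) (nat_lit 0) (nat_lit 0) (XT.lf (nat_lit 0) (nat_lit 36692160342) (nat_lit 152) (nat_lit 87410407027) (nat_lit 0) (nat_lit 10499864761) (nat_lit 5) (nat_lit 5) (nat_lit 7) (nat_lit 4) (nat_lit 5) (nat_lit 4) (nat_lit 357) (nat_lit 263) (nat_lit 160)) (XT.nd (nat_lit 78) (nat_lit 0) (nat_lit 0) (XT.lf (nat_lit 0) (nat_lit 46590285580) (nat_lit 152) (nat_lit 73880494234) (nat_lit 0) (nat_lit 20389742567) (nat_lit 5) (nat_lit 5) (nat_lit 7) (nat_lit 4) (nat_lit 5) (nat_lit 4) (nat_lit 358) (nat_lit 263) (nat_lit 159)) (XT.lf (nat_lit 0) (nat_lit 56977659916) (nat_lit 152) (nat_lit 59684879654) (nat_lit 0) (nat_lit 30769262206) (nat_lit 5) (nat_lit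 5) (nat_lit 7) (nat_lit 4) (nat_lit 5) (nat_lit 4) (nat_lit 359) (nat_lit 263) (nat_lit 158)))))) (XT.nd (nat_lit 390) (nat_lit 0) (nat_lit 0) (XT.nd (nat_lit 156) (nat_lit 76) (nat_lit 0) (XT.nd (nat_lit 78) (nat_lit 0) (nat_lit 0) (XT.lf (nat_lit 0) (nat_lit 67879015195) (nat_lit 152) (nat_lit 44789764205) (nat_lit 0) (nat_lit 41663136820) (nat_lit 5) (nat_lit 5) (nat_lit 7) (nat_lit 4) (nat_lit 5) (nat_lit 4) (nat_lit 360) (nat_lit 263) (nat_lit 157)) (XT.lf (nat_lit 0) (nat_lit 79320307024) (nat_lit 152) (nat_lit 29159683325) (nat_lit 0) (nat_lit 53097304207) (nat_lit 5) (nat_lit 5) (nat_lit 7) (nat_lit 4) (nat_lit 5) (nat_lit 4) (nat_lit 361) (nat_lit 263) (nat_lit 156))) (XT.nd (nat_lit 78) (nat_lit 76) (nat_lit 0) (XT.lf (nat_lit 0) (nat_lit 91328776574) (nat_lit 152) (nat_lit 12757422537) (nat_lit 0) (nat_lit 65098988573) (nat_lit 5) (nat_lit 5) (nat_lit 7) (nat_lit 4) (nat_lit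 5) (nat_lit 4) (nat_lit 362) (nat_lit 263) (nat_lit 155)) (XT.nd (nat_lit 78) (nat_lit 0) (nat_lit 0) (XT.lf (nat_lit 0) (nat_lit 4603408998) (nat_lit 76) (nat_lit 99401478556) (nat_lit 76) (nat_lit 73165228476) (nat_lit 4) (nat_lit 4) (nat_lit 5) (nat_lit 5) (nat_lit 5) (nat_lit 4) (nat_lit 363) (nat_lit 263) (nat_lit 154)) (XT.lf (nat_lit 0) (nat_lit 23266454112) (nat_lit 76) (nat_lit 94259834152) (nat_lit 76) (nat_lit 68017429710) (nat_lit 4) (nat_lit 4) (nat_lit 5) (nat_lit 5) (nat_lit 5) (nat_lit 4) (nat_lit 364) (nat_lit 263) (nat_lit 153))))) (XT.nd (nat_lit 234) (nat_lit 0) (nat_lit 0) (XT.nd (nat_lit 78) (nat_lit 0) (nat_lit 0) (XT.lf (nat_lit 0) (nat_lit 42854330625) (nat_lit 76) (nat_lit 88865077011) (nat_lit 76) (nat_lit 62616811273) (nat_lit 4) (nat_lit 4) (nat_lit 5) (nat_lit 5) (nat_lit 5) (nat_lit 4) (nat_lit 365) (nat_lit 263) (nat_lit 152)) (XT.nd (nat_lit 78) (nat_lit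 0) (nat_lit 0) (XT.lf (nat_lit 0) (nat_lit 63413676335) (nat_lit 76) (nat_lit 83204362474) (nat_lit 76) (nat_lit 56950514549) (nat_lit 4) (nat_lit 4) (nat_lit 5) (nat_lit 5) (nat_lit 5) (nat_lit 4) (nat_lit 366) (nat_lit 263) (nat_lit 151)) (XT.lf (nat_lit 0) (nat_lit 84993442068) (nat_lit 76) (nat_lit 77264212649) (nat_lit 76) (nat_lit 51005048355) (nat_lit 4) (nat_lit 4) (nat_lit 5) (nat_lit 5) (nat_lit 5) (nat_lit 4) (nat_lit 367) (nat_lit 263) (nat_lit 150)))) (XT.nd (nat_lit 78) (nat_lit 0) (nat_lit 0) (XT.lf (nat_lit 0) (nat_lit 107645008217) (nat_lit 76) (nat_lit 71030484322) (nat_lit 76) (nat_lit 44766256820) (nat_lit 4) (nat_lit 4) (nat_lit 5) (nat_lit 5) (nat_lit 5) (nat_lit 4) (nat_lit 368) (nat_lit 263) (nat_lit 149)) (XT.nd (nat_lit 78) (nat_lit 0) (nat_lit 0) (XT.lf (nat_lit 0) (nat_lit 131422307083) (nat_lit 76) (nat_lit 64488335283) (nat_lit 76) (nat_lit 38219285678)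 (nat_lit 4) (nat_lit 4) (nat_lit 5) (nat_lit 5) (nat_lit 5) (nat_lit 4) (nat_lit 369) (nat_lit 263) (nat_lit 148)) (XT.lf (nat_lit 0) (nat_lit 156381951282) (nat_lit 76) (nat_lit 57622188986) (nat_lit 76) (nat_lit 31348546903) (nat_lit 4) (nat_lit 4) (nat_lit 5) (nat_lit 5) (nat_lit 5) (nat_lit 4) (nat_lit 370) (nat_lit 263) (nat_lit 147))))))) (XT.nd (nat_lit 780) (nat_lit 0) (nat_lit 0) (XT.nd (nat_lit 390) (nat_lit 76) (nat_lit 0) (XT.nd (nat_lit 156) (nat_lit 76) (nat_lit 0) (XT.nd (nat_lit 78) (nat_lit 0) (nat_lit 0) (XT.lf (nat_lit 0) (nat_lit 182583368539) (nat_lit 76) (nat_lit 50415697465) (nat_lit 76) (nat_lit 24137681592) (nat_lit 4) (nat_lit 4) (nat_lit 5) (nat_lit 5) (nat_lit 5) (nat_lit 4) (nat_lit 371) (nat_lit 263) (nat_lit 146)) (XT.lf (nat_lit 0) (nat_lit 210088943180) (nat_lit 76) (nat_lit 42851702405) (nat_lit 76) (nat_lit 16569521019) (nat_lit 4) (nat_lit 4) (nat_lit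 5) (nat_lit 5) (nat_lit 5) (nat_lit 4) (nat_lit 372) (nat_lit 263) (nat_lit 145))) (XT.nd (nat_lit 78) (nat_lit 76) (nat_lit 0) (XT.lf (nat_lit 0) (nat_lit 238964164668) (nat_lit 76) (nat_lit 34912194296) (nat_lit 76) (nat_lit 8626045753) (nat_lit 4) (nat_lit 4) (nat_lit 5) (nat_lit 5) (nat_lit 5) (nat_lit 4) (nat_lit 373) (nat_lit 263) (nat_lit 144)) (XT.nd (nat_lit 78) (nat_lit 76) (nat_lit 0) (XT.lf (nat_lit 0) (nat_lit 269277783532) (nat_lit 76) (nat_lit 26578269546) (nat_lit 76) (nat_lit 288342759) (nat_lit 4) (nat_lit 4) (nat_lit 5) (nat_lit 5) (nat_lit 5) (nat_lit 4) (nat_lit 374) (nat_lit 263) (nat_lit 143)) (XT.lf (nat_lit 0) (nat_lit 8192556713) (nat_lit 152) (nat_lit 9498783851) (nat_lit 76) (nat_lit 292770673428) (nat_lit 3) (nat_lit 5) (nat_lit 5) (nat_lit 5) (nat_lit 4) (nat_lit 4) (nat_lit 375) (nat_lit 263) (nat_lit 142))))) (XT.nd (nat_lit 156) (nat_lit 0) (nat_lit 0)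 (XT.nd (nat_lit 78) (nat_lit 0) (nat_lit 0) (XT.lf (nat_lit 0) (nat_lit 9016336886) (nat_lit 76) (nat_lit 8209657737) (nat_lit 152) (nat_lit 308262373639) (nat_lit 2) (nat_lit 5) (nat_lit 3) (nat_lit 5) (nat_lit 4) (nat_lit 4) (nat_lit 376) (nat_lit 263) (nat_lit 141)) (XT.lf (nat_lit 0) (nat_lit 26899293838) (nat_lit 152) (nat_lit 312505868453) (nat_lit 0) (nat_lit 1851469188) (nat_lit 2) (nat_lit 5) (nat_lit 4) (nat_lit 4) (nat_lit 2) (nat_lit 4) (nat_lit 377) (nat_lit 263) (nat_lit 140))) (XT.nd (nat_lit 78) (nat_lit 0) (nat_lit 0) (XT.lf (nat_lit 0) (nat_lit 37188389320) (nat_lit 152) (nat_lit 308480708321) (nat_lit 0) (nat_lit 12137604317) (nat_lit 2) (nat_lit 5) (nat_lit 4) (nat_lit 4) (nat_lit 2) (nat_lit 4) (nat_lit 378) (nat_lit 263) (nat_lit 139)) (XT.nd (nat_lit 78) (nat_lit 0) (nat_lit 0) (XT.lf (nat_lit 0) (nat_lit 47989603151) (nat_lit 152) (nat_lit 304258791503) (nat_lit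 0) (nat_lit 22935998765) (nat_lit 2) (nat_lit 5) (nat_lit 4) (nat_lit 4) (nat_lit 2) (nat_lit 4) (nat_lit 379) (nat_lit 263) (nat_lit 138)) (XT.lf (nat_lit 0) (nat_lit 59328652509) (nat_lit 152) (nat_lit 299830065815) (nat_lit 0) (nat_lit 34272362995) (nat_lit 2) (nat_lit 5) (nat_lit 4) (nat_lit 4) (nat_lit 2) (nat_lit 4) (nat_lit 380) (nat_lit 263) (nat_lit 137)))))) (XT.nd (nat_lit 390) (nat_lit 0) (nat_lit 0) (XT.nd (nat_lit 156) (nat_lit 0) (nat_lit 0) (XT.nd (nat_lit 78) (nat_lit 0) (nat_lit 0) (XT.lf (nat_lit 0) (nat_lit 71232535128) (nat_lit 152) (nat_lit 295183986672) (nat_lit 0) (nat_lit 46173688350) (nat_lit 2) (nat_lit 5) (nat_lit 4) (nat_lit 4) (nat_lit 2) (nat_lit 4) (nat_lit 381) (nat_lit 263) (nat_lit 136)) (XT.lf (nat_lit 0) (nat_lit 83729593587) (nat_lit 152) (nat_lit 290309491982) (nat_lit 0) (nat_lit 58668311319) (nat_lit 2) (nat_lit 5) (nat_lit 4) (nat_lit 4) (nat_lit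 2) (nat_lit 4) (nat_lit 382) (nat_lit 263) (nat_lit 135))) (XT.nd (nat_lit 78) (nat_lit 0) (nat_lit 0) (XT.lf (nat_lit 0) (nat_lit 96849582787) (nat_lit 152) (nat_lit 285194975804) (nat_lit 0) (nat_lit 71785981005) (nat_lit 2) (nat_lit 5) (nat_lit 4) (nat_lit 4) (nat_lit 2) (nat_lit 4) (nat_lit 383) (nat_lit 263) (nat_lit 134)) (XT.nd (nat_lit 78) (nat_lit 0) (nat_lit 0) (XT.lf (nat_lit 0) (nat_lit 110623740798) (nat_lit 152) (nat_lit 279828260718) (nat_lit 0) (nat_lit 85557929955) (nat_lit 2) (nat_lit 5) (nat_lit 4) (nat_lit 4) (nat_lit 2) (nat_lit 4) (nat_lit 384) (nat_lit 263) (nat_lit 133)) (XT.lf (nat_lit 0) (nat_lit 125084863233) (nat_lit 152) (nat_lit 274196568833) (nat_lit 0) (nat_lit 100016948523) (nat_lit 2) (nat_lit 5) (nat_lit 4) (nat_lit 4) (nat_lit 2) (nat_lit 4) (nat_lit 385) (nat_lit 263) (nat_lit 132))))) (XT.nd (nat_lit 234) (nat_lit 0) (nat_lit 0) (XT.nd (nat_lit 78)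 (nat_lit 0) (nat_lit 0) (XT.lf (nat_lit 0) (nat_lit 140267381337) (nat_lit 152) (nat_lit 268286491357) (nat_lit 0) (nat_lit 115197462943) (nat_lit 2) (nat_lit 5) (nat_lit 4) (nat_lit 4) (nat_lit 2) (nat_lit 4) (nat_lit 386) (nat_lit 263) (nat_lit 131)) (XT.nd (nat_lit 78) (nat_lit 0) (nat_lit 0) (XT.lf (nat_lit 0) (nat_lit 156207443962) (nat_lit 152) (nat_lit 262083956678) (nat_lit 0) (nat_lit 131135617298) (nat_lit 2) (nat_lit 5) (nat_lit 4) (nat_lit 4) (nat_lit 2) (nat_lit 4) (nat_lit 387) (nat_lit 263) (nat_lit 130)) (XT.lf (nat_lit 0) (nat_lit 172943003638) (nat_lit 152) (nat_lit 255574196855) (nat_lit 0) (nat_lit 147869359575) (nat_lit 2) (nat_lit 5) (nat_lit 4) (nat_lit 4) (nat_lit 2) (nat_lit 4) (nat_lit 388) (nat_lit 263) (nat_lit 129)))) (XT.nd (nat_lit 30888) (nat_lit 0) (nat_lit 9804) (XT.lf (nat_lit 0) (nat_lit 190513906937) (nat_lit 152) (nat_lit 248741712461) (nat_lit 0)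 (nat_lit 165438532016) (nat_lit 2) (nat_lit 5) (nat_lit 4) (nat_lit 4) (nat_lit 2) (nat_lit 4) (nat_lit 389) (nat_lit 263) (nat_lit 128)) (XT.nd (nat_lit 78) (nat_lit 0) (nat_lit 0) (XT.lf (nat_lit 0) (nat_lit 722427938) (nat_lit 380) (nat_lit 1296380041) (nat_lit 380) (nat_lit 1296380041) (nat_lit 131) (nat_lit 3) (nat_lit 136) (nat_lit 3) (nat_lit 136) (nat_lit 5) (nat_lit 264) (nat_lit 264) (nat_lit 252)) (XT.lf (nat_lit 76) (nat_lit 523693963) (nat_lit 0) (nat_lit 3131419928) (nat_lit 380) (nat_lit 3026661580) (nat_lit 132) (nat_lit 5) (nat_lit 131) (nat_lit 3) (nat_lit 136) (nat_lit 5) (nat_lit 265) (nat_lit 264) (nat_lit 251))))))))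
noncomputable def xc118 : XT := (XT.nd (nat_lit 1560) (nat_lit 3040) (nat_lit 0) (XT.nd (nat_lit 780) (nat_lit 2660) (nat_lit 0) (XT.nd (nat_lit 390) (nat_lit 988) (nat_lit 0) (XT.nd (nat_lit 156) (nat_lit 380) (nat_lit 0) (XT.nd (nat_lit 78) (nat_lit 380) (nat_lit 0) (XT.lf (nat_lit 76) (nat_lit 3810601319) (nat_lit 0) (nat_lit 2069367665) (nat_lit 380) (nat_lit 860933550) (nat_lit 132) (nat_lit 5) (nat_lit 131) (nat_lit 3) (nat_lit 136) (nat_lit 5) (nat_lit 266) (nat_lit 264) (nat_lit 250)) (XT.lf (nat_lit 76) (nat_lit 372106681) (nat_lit 0) (nat_lit 865872622) (nat_lit 456) (nat_lit 5570725476) (nat_lit 127) (nat_lit 5) (nat_lit 126) (nat_lit 5) (nat_lit 132) (nat_lit 5) (nat_lit 267) (nat_lit 264) (nat_lit 249))) (XT.nd (nat_lit 78) (nat_lit 456) (nat_lit 0) (XT.lf (nat_lit 0) (nat_lit 3340014793) (nat_lit 380) (nat_lit 3040250400) (nat_lit 456) (nat_lit 502883359) (nat_lit 127)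 (nat_lit 5) (nat_lit 132) (nat_lit 5) (nat_lit 133) (nat_lit 5) (nat_lit 268) (nat_lit 264) (nat_lit 248)) (XT.nd (nat_lit 78) (nat_lit 456) (nat_lit 0) (XT.lf (nat_lit 76) (nat_lit 446914537) (nat_lit 0) (nat_lit 4998037992) (nat_lit 456) (nat_lit 1521769673) (nat_lit 128) (nat_lit 5) (nat_lit 127) (nat_lit 5) (nat_lit 133) (nat_lit 5) (nat_lit 269) (nat_lit 264) (nat_lit 247)) (XT.lf (nat_lit 0) (nat_lit 512837176) (nat_lit 456) (nat_lit 2930236095) (nat_lit 532) (nat_lit 3614632421) (nat_lit 121) (nat_lit 5) (nat_lit 127) (nat_lit 5) (nat_lit 128) (nat_lit 5) (nat_lit 270) (nat_lit 264) (nat_lit 246))))) (XT.nd (nat_lit 156) (nat_lit 988) (nat_lit 0) (XT.nd (nat_lit 78) (nat_lit 0) (nat_lit 76) (XT.lf (nat_lit 76) (nat_lit 759999137) (nat_lit 0) (nat_lit 1734725541) (nat_lit 532) (nat_lit 4662688915) (nat_lit 122) (nat_lit 5) (nat_lit 121) (nat_lit 5) (nat_lit 128) (nat_lit 5) (nat_lit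 271) (nat_lit 264) (nat_lit 245)) (XT.lf (nat_lit 0) (nat_lit 4516706409) (nat_lit 456) (nat_lit 2608134704) (nat_lit 76) (nat_lit 140460710) (nat_lit 122) (nat_lit 5) (nat_lit 128) (nat_lit 5) (nat_lit 123) (nat_lit 5) (nat_lit 272) (nat_lit 264) (nat_lit 244))) (XT.nd (nat_lit 78) (nat_lit 608) (nat_lit 0) (XT.lf (nat_lit 0) (nat_lit 1304640823) (nat_lit 456) (nat_lit 5278848475) (nat_lit 532) (nat_lit 798143330) (nat_lit 116) (nat_lit 5) (nat_lit 122) (nat_lit 5) (nat_lit 123) (nat_lit 5) (nat_lit 273) (nat_lit 264) (nat_lit 243)) (XT.nd (nat_lit 78) (nat_lit 532) (nat_lit 0) (XT.lf (nat_lit 0) (nat_lit 1151529005) (nat_lit 532) (nat_lit 2099836830) (nat_lit 76) (nat_lit 4254565046) (nat_lit 115) (nat_lit 5) (nat_lit 122) (nat_lit 5) (nat_lit 116) (nat_lit 5) (nat_lit 274) (nat_lit 264) (nat_lit 242)) (XT.lf (nat_lit 0) (nat_lit 2050991775) (nat_lit 532) (nat_lit 1054611999) (nat_lit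 608) (nat_lit 4533700476) (nat_lit 108) (nat_lit 5) (nat_lit 115) (nat_lit 5) (nat_lit 116) (nat_lit 5) (nat_lit 275) (nat_lit 264) (nat_lit 241)))))) (XT.nd (nat_lit 390) (nat_lit 760) (nat_lit 0) (XT.nd (nat_lit 156) (nat_lit 1292) (nat_lit 0) (XT.nd (nat_lit 78) (nat_lit 608) (nat_lit 0) (XT.lf (nat_lit 0) (nat_lit 5118565411) (nat_lit 608) (nat_lit 1397142489) (nat_lit 76) (nat_lit 1265771142) (nat_lit 108) (nat_lit 5) (nat_lit 116) (nat_lit 5) (nat_lit 109) (nat_lit 5) (nat_lit 276) (nat_lit 264) (nat_lit 240)) (XT.lf (nat_lit 0) (nat_lit 3004647815) (nat_lit 608) (nat_lit 4201718898) (nat_lit 684) (nat_lit 725869049) (nat_lit 100) (nat_lit 5) (nat_lit 108) (nat_lit 5) (nat_lit 109) (nat_lit 5) (nat_lit 277) (nat_lit 264) (nat_lit 239))) (XT.nd (nat_lit 78) (nat_lit 1216) (nat_lit 0) (XT.lf (nat_lit 0) (nat_lit 1201701154) (nat_lit 684) (nat_lit 514778041) (nat_lit 76) (nat_lit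 6376418878) (nat_lit 99) (nat_lit 5) (nat_lit 108) (nat_lit 5) (nat_lit 100) (nat_lit 5) (nat_lit 278) (nat_lit 264) (nat_lit 238)) (XT.nd (nat_lit 78) (nat_lit 532) (nat_lit 0) (XT.lf (nat_lit 0) (nat_lit 3197309851) (nat_lit 760) (nat_lit 4113263751) (nat_lit 76) (nat_lit 950780112) (nat_lit 90) (nat_lit 5) (nat_lit 100) (nat_lit 5) (nat_lit 91) (nat_lit 5) (nat_lit 279) (nat_lit 264) (nat_lit 237)) (XT.lf (nat_lit 0) (nat_lit 534020534) (nat_lit 532) (nat_lit 4722675121) (nat_lit 608) (nat_lit 3183487011) (nat_lit 83) (nat_lit 5) (nat_lit 90) (nat_lit 5) (nat_lit 91) (nat_lit 5) (nat_lit 280) (nat_lit 264) (nat_lit 236))))) (XT.nd (nat_lit 156) (nat_lit 304) (nat_lit 0) (XT.nd (nat_lit 78) (nat_lit 456) (nat_lit 0) (XT.lf (nat_lit 0) (nat_lit 5478779319) (nat_lit 532) (nat_lit 1931251091) (nat_lit 608) (nat_lit 1218516879) (nat_lit 83) (nat_lit 5) (nat_lit 90) (nat_lit 5) (nat_lit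 91) (nat_lit 5) (nat_lit 281) (nat_lit 264) (nat_lit 235)) (XT.lf (nat_lit 0) (nat_lit 785955467) (nat_lit 456) (nat_lit 7031856456) (nat_lit 76) (nat_lit 1009574231) (nat_lit 77) (nat_lit 5) (nat_lit 83) (nat_lit 5) (nat_lit 78) (nat_lit 5) (nat_lit 282) (nat_lit 264) (nat_lit 234))) (XT.nd (nat_lit 78) (nat_lit 304) (nat_lit 0) (XT.lf (nat_lit 0) (nat_lit 2861715413) (nat_lit 456) (nat_lit 2067765433) (nat_lit 76) (nat_lit 4105210331) (nat_lit 77) (nat_lit 5) (nat_lit 83) (nat_lit 5) (nat_lit 78) (nat_lit 5) (nat_lit 283) (nat_lit 264) (nat_lit 233)) (XT.nd (nat_lit 78) (nat_lit 0) (nat_lit 0) (XT.lf (nat_lit 0) (nat_lit 3170579256) (nat_lit 304) (nat_lit 1849839981) (nat_lit 380) (nat_lit 4233102234) (nat_lit 73) (nat_lit 5) (nat_lit 77) (nat_lit 5) (nat_lit 78) (nat_lit 5) (nat_lit 284) (nat_lit 264) (nat_lit 232)) (XT.lf (nat_lit 0) (nat_lit 7276006469) (nat_lit 380) (nat_lit 838729804)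 (nat_lit 76) (nat_lit 1369221802) (nat_lit 73) (nat_lit 5) (nat_lit 78) (nat_lit 5) (nat_lit 74) (nat_lit 5) (nat_lit 285) (nat_lit 264) (nat_lit 231))))))) (XT.nd (nat_lit 780) (nat_lit 1292) (nat_lit 0) (XT.nd (nat_lit 390) (nat_lit 760) (nat_lit 0) (XT.nd (nat_lit 156) (nat_lit 304) (nat_lit 0) (XT.nd (nat_lit 78) (nat_lit 380) (nat_lit 0) (XT.lf (nat_lit 0) (nat_lit 4714314562) (nat_lit 304) (nat_lit 4968988171) (nat_lit 380) (nat_lit 40774154) (nat_lit 69) (nat_lit 5) (nat_lit 73) (nat_lit 5) (nat_lit 74) (nat_lit 5) (nat_lit 286) (nat_lit 264) (nat_lit 230)) (XT.lf (nat_lit 0) (nat_lit 504701292) (nat_lit 304) (nat_lit 1616679690) (nat_lit 380) (nat_lit 7855265780) (nat_lit 64) (nat_lit 5) (nat_lit 68) (nat_lit 5) (nat_lit 69) (nat_lit 5) (nat_lit 287) (nat_lit 264) (nat_lit 229))) (XT.nd (nat_lit 78) (nat_lit 304) (nat_lit 0) (XT.lf (nat_lit 0) (nat_lit 4443775228) (nat_lit 380)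 (nat_lit 3877345752) (nat_lit 76) (nat_lit 1918107960) (nat_lit 64) (nat_lit 5) (nat_lit 69) (nat_lit 5) (nat_lit 65) (nat_lit 5) (nat_lit 288) (nat_lit 264) (nat_lit 228)) (XT.nd (nat_lit 78) (nat_lit 0) (nat_lit 0) (XT.lf (nat_lit 0) (nat_lit 1960088246) (nat_lit 304) (nat_lit 4919833059) (nat_lit 380) (nat_lit 3635225231) (nat_lit 60) (nat_lit 5) (nat_lit 64) (nat_lit 5) (nat_lit 65) (nat_lit 5) (nat_lit 289) (nat_lit 264) (nat_lit 227)) (XT.lf (nat_lit 0) (nat_lit 8152058292) (nat_lit 304) (nat_lit 1293716573) (nat_lit 380) (nat_lit 1358773868) (nat_lit 60) (nat_lit 5) (nat_lit 64) (nat_lit 5) (nat_lit 65) (nat_lit 5) (nat_lit 290) (nat_lit 264) (nat_lit 226))))) (XT.nd (nat_lit 156) (nat_lit 456) (nat_lit 0) (XT.nd (nat_lit 78) (nat_lit 0) (nat_lit 0) (XT.lf (nat_lit 0) (nat_lit 1038476206) (nat_lit 304) (nat_lit 7574890679) (nat_lit 76) (nat_lit 2492325339) (nat_lit 56) (nat_lit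 5) (nat_lit 60) (nat_lit 5) (nat_lit 57) (nat_lit 5) (nat_lit 291) (nat_lit 264) (nat_lit 225)) (XT.lf (nat_lit 0) (nat_lit 3522149704) (nat_lit 304) (nat_lit 1420393417) (nat_lit 76) (nat_lit 6477697116) (nat_lit 56) (nat_lit 5) (nat_lit 60) (nat_lit 5) (nat_lit 57) (nat_lit 5) (nat_lit 292) (nat_lit 264) (nat_lit 224))) (XT.nd (nat_lit 78) (nat_lit 228) (nat_lit 0) (XT.lf (nat_lit 0) (nat_lit 5137820244) (nat_lit 228) (nat_lit 1020362921) (nat_lit 304) (nat_lit 5590992555) (nat_lit 53) (nat_lit 5) (nat_lit 56) (nat_lit 5) (nat_lit 57) (nat_lit 5) (nat_lit 293) (nat_lit 264) (nat_lit 223)) (XT.nd (nat_lit 78) (nat_lit 228) (nat_lit 0) (XT.lf (nat_lit 0) (nat_lit 8947960858) (nat_lit 304) (nat_lit 138541176) (nat_lit 76) (nat_lit 3007024419) (nat_lit 53) (nat_lit 5) (nat_lit 57) (nat_lit 5) (nat_lit 54) (nat_lit 5) (nat_lit 294) (nat_lit 264) (nat_lit 222)) (XT.lf (nat_lit 0) (nat_lit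 6792216359) (nat_lit 228) (nat_lit 5159332300) (nat_lit 304) (nat_lit 499892483) (nat_lit 50) (nat_lit 5) (nat_lit 53) (nat_lit 5) (nat_lit 54) (nat_lit 5) (nat_lit 295) (nat_lit 264) (nat_lit 221)))))) (XT.nd (nat_lit 390) (nat_lit 532) (nat_lit 0) (XT.nd (nat_lit 156) (nat_lit 456) (nat_lit 0) (XT.nd (nat_lit 78) (nat_lit 0) (nat_lit 0) (XT.lf (nat_lit 0) (nat_lit 1182492297) (nat_lit 228) (nat_lit 995511909) (nat_lit 304) (nat_lit 10648883072) (nat_lit 46) (nat_lit 5) (nat_lit 49) (nat_lit 5) (nat_lit 50) (nat_lit 5) (nat_lit 296) (nat_lit 264) (nat_lit 220)) (XT.lf (nat_lit 0) (nat_lit 5076089758) (nat_lit 304) (nat_lit 4783975114) (nat_lit 76) (nat_lit 3355530387) (nat_lit 46) (nat_lit 5) (nat_lit 50) (nat_lit 5) (nat_lit 47) (nat_lit 5) (nat_lit 297) (nat_lit 264) (nat_lit 219))) (XT.nd (nat_lit 78) (nat_lit 304) (nat_lit 0) (XT.lf (nat_lit 0) (nat_lit 2415751228) (nat_lit 152)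 (nat_lit 5712568862) (nat_lit 228) (nat_lit 5495007928) (nat_lit 44) (nat_lit 5) (nat_lit 46) (nat_lit 5) (nat_lit 47) (nat_lit 5) (nat_lit 298) (nat_lit 264) (nat_lit 218)) (XT.nd (nat_lit 78) (nat_lit 304) (nat_lit 0) (XT.lf (nat_lit 0) (nat_lit 10077882697) (nat_lit 152) (nat_lit 1292641239) (nat_lit 228) (nat_lit 2679104333) (nat_lit 44) (nat_lit 5) (nat_lit 46) (nat_lit 5) (nat_lit 47) (nat_lit 5) (nat_lit 299) (nat_lit 264) (nat_lit 217)) (XT.lf (nat_lit 0) (nat_lit 336795108) (nat_lit 304) (nat_lit 10872141684) (nat_lit 76) (nat_lit 3284730172) (nat_lit 40) (nat_lit 5) (nat_lit 44) (nat_lit 5) (nat_lit 41) (nat_lit 5) (nat_lit 300) (nat_lit 264) (nat_lit 216))))) (XT.nd (nat_lit 234) (nat_lit 380) (nat_lit 0) (XT.nd (nat_lit 78) (nat_lit 152) (nat_lit 0) (XT.lf (nat_lit 0) (nat_lit 3461457414) (nat_lit 304) (nat_lit 3353282735) (nat_lit 76) (nat_lit 8140613576) (nat_lit 40) (nat_lit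 5) (nat_lit 44) (nat_lit 5) (nat_lit 41) (nat_lit 5) (nat_lit 301) (nat_lit 264) (nat_lit 215)) (XT.nd (nat_lit 78) (nat_lit 0) (nat_lit 0) (XT.lf (nat_lit 0) (nat_lit 4629821638) (nat_lit 152) (nat_lit 2145240844) (nat_lit 228) (nat_lit 8663467136) (nat_lit 38) (nat_lit 5) (nat_lit 40) (nat_lit 5) (nat_lit 41) (nat_lit 5) (nat_lit 302) (nat_lit 264) (nat_lit 214)) (XT.lf (nat_lit 0) (nat_lit 10316197024) (nat_lit 228) (nat_lit 2919078881) (nat_lit 76) (nat_lit 2707534297) (nat_lit 38) (nat_lit 5) (nat_lit 41) (nat_lit 5) (nat_lit 39) (nat_lit 5) (nat_lit 303) (nat_lit 264) (nat_lit 213)))) (XT.nd (nat_lit 78) (nat_lit 228) (nat_lit 0) (XT.lf (nat_lit 0) (nat_lit 5446503280) (nat_lit 152) (nat_lit 8671014581) (nat_lit 228) (nat_lit 2350667007) (nat_lit 36) (nat_lit 5) (nat_lit 38) (nat_lit 5) (nat_lit 39) (nat_lit 5) (nat_lit 304) (nat_lit 264) (nat_lit 212)) (XT.nd (nat_lit 78) (nat_lit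 152) (nat_lit 0) (XT.lf (nat_lit 0) (nat_lit 1067644489) (nat_lit 228) (nat_lit 2761464925) (nat_lit 76) (nat_lit 13189230547) (nat_lit 35) (nat_lit 5) (nat_lit 38) (nat_lit 5) (nat_lit 36) (nat_lit 5) (nat_lit 305) (nat_lit 264) (nat_lit 211)) (XT.lf (nat_lit 0) (nat_lit 4658091909) (nat_lit 228) (nat_lit 11602261413) (nat_lit 76) (nat_lit 1329743357) (nat_lit 33) (nat_lit 5) (nat_lit 36) (nat_lit 5) (nat_lit 34) (nat_lit 5) (nat_lit 306) (nat_lit 264) (nat_lit 210))))))))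
noncomputable def xc119 : XT := (XT.nd (nat_lit 1638) (nat_lit 532) (nat_lit 0) (XT.nd (nat_lit 780) (nat_lit 532) (nat_lit 0) (XT.nd (nat_lit 390) (nat_lit 456) (nat_lit 0) (XT.nd (nat_lit 156) (nat_lit 228) (nat_lit 0) (XT.nd (nat_lit 78) (nat_lit 152) (nat_lit 0) (XT.lf (nat_lit 0) (nat_lit 8503807083) (nat_lit 228) (nat_lit 3036947913) (nat_lit 76) (nat_lit 6645929024) (nat_lit 33) (nat_lit 5) (nat_lit 36) (nat_lit 5) (nat_lit 34) (nat_lit 5) (nat_lit 307) (nat_lit 264) (nat_lit 209)) (XT.lf (nat_lit 0) (nat_lit 6098705687) (nat_lit 152) (nat_lit 6505405628) (nat_lit 228) (nat_lit 6205902868) (nat_lit 31) (nat_lit 5) (nat_lit 33) (nat_lit 5) (nat_lit 34) (nat_lit 5) (nat_lit 308) (nat_lit 264) (nat_lit 208))) (XT.nd (nat_lit 78) (nat_lit 228) (nat_lit 0) (XT.lf (nat_lit 0) (nat_lit 15744312509) (nat_lit 152) (nat_lit 1184387200) (nat_lit 228) (nat_lit 2534874960) (nat_lit 31) (nat_lit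 5) (nat_lit 33) (nat_lit 5) (nat_lit 34) (nat_lit 5) (nat_lit 309) (nat_lit 264) (nat_lit 207)) (XT.nd (nat_lit 78) (nat_lit 0) (nat_lit 0) (XT.lf (nat_lit 0) (nat_lit 1407713991) (nat_lit 228) (nat_lit 14378274853) (nat_lit 76) (nat_lit 4356306423) (nat_lit 28) (nat_lit 5) (nat_lit 31) (nat_lit 5) (nat_lit 29) (nat_lit 5) (nat_lit 310) (nat_lit 264) (nat_lit 206)) (XT.lf (nat_lit 0) (nat_lit 5514918916) (nat_lit 228) (nat_lit 5114467859) (nat_lit 76) (nat_lit 10220877156) (nat_lit 28) (nat_lit 5) (nat_lit 31) (nat_lit 5) (nat_lit 29) (nat_lit 5) (nat_lit 311) (nat_lit 264) (nat_lit 205))))) (XT.nd (nat_lit 156) (nat_lit 304) (nat_lit 0) (XT.nd (nat_lit 78) (nat_lit 0) (nat_lit 0) (XT.lf (nat_lit 0) (nat_lit 4714614448) (nat_lit 152) (nat_lit 5157181483) (nat_lit 228) (nat_lit 11719641931) (nat_lit 26) (nat_lit 5) (nat_lit 28) (nat_lit 5) (nat_lit 29) (nat_lit 5) (nat_lit 312) (nat_lit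 264) (nat_lit 204)) (XT.lf (nat_lit 0) (nat_lit 14514789240) (nat_lit 228) (nat_lit 7212412499) (nat_lit 76) (nat_lit 639076488) (nat_lit 26) (nat_lit 5) (nat_lit 29) (nat_lit 5) (nat_lit 27) (nat_lit 4) (nat_lit 313) (nat_lit 264) (nat_lit 203))) (XT.nd (nat_lit 78) (nat_lit 228) (nat_lit 0) (XT.lf (nat_lit 0) (nat_lit 2896548067) (nat_lit 76) (nat_lit 16595576380) (nat_lit 152) (nat_lit 3682646893) (nat_lit 25) (nat_lit 5) (nat_lit 26) (nat_lit 5) (nat_lit 27) (nat_lit 4) (nat_lit 314) (nat_lit 264) (nat_lit 202)) (XT.nd (nat_lit 78) (nat_lit 152) (nat_lit 0) (XT.lf (nat_lit 0) (nat_lit 769110297) (nat_lit 152) (nat_lit 10316079096) (nat_lit 76) (nat_lit 12933140616) (nat_lit 24) (nat_lit 5) (nat_lit 26) (nat_lit 5) (nat_lit 25) (nat_lit 5) (nat_lit 315) (nat_lit 264) (nat_lit 201)) (XT.lf (nat_lit 0) (nat_lit 40325026) (nat_lit 152) (nat_lit 5253863242) (nat_lit 228) (nat_lit 19608152654)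 (nat_lit 22) (nat_lit 5) (nat_lit 24) (nat_lit 5) (nat_lit 25) (nat_lit 5) (nat_lit 316) (nat_lit 264) (nat_lit 200)))))) (XT.nd (nat_lit 390) (nat_lit 228) (nat_lit 0) (XT.nd (nat_lit 156) (nat_lit 304) (nat_lit 0) (XT.nd (nat_lit 78) (nat_lit 0) (nat_lit 0) (XT.lf (nat_lit 0) (nat_lit 10210792980) (nat_lit 228) (nat_lit 14610600684) (nat_lit 76) (nat_lit 1000911810) (nat_lit 22) (nat_lit 5) (nat_lit 25) (nat_lit 5) (nat_lit 23) (nat_lit 4) (nat_lit 317) (nat_lit 264) (nat_lit 199)) (XT.lf (nat_lit 0) (nat_lit 15434721599) (nat_lit 228) (nat_lit 3975650260) (nat_lit 76) (nat_lit 7374837647) (nat_lit 22) (nat_lit 5) (nat_lit 25) (nat_lit 5) (nat_lit 23) (nat_lit 4) (nat_lit 318) (nat_lit 264) (nat_lit 198))) (XT.nd (nat_lit 78) (nat_lit 228) (nat_lit 0) (XT.lf (nat_lit 0) (nat_lit 7386601594) (nat_lit 76) (nat_lit 13625108481) (nat_lit 152) (nat_lit 6779970676) (nat_lit 21) (nat_lit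 5) (nat_lit 22) (nat_lit 5) (nat_lit 23) (nat_lit 4) (nat_lit 319) (nat_lit 264) (nat_lit 197)) (XT.nd (nat_lit 78) (nat_lit 228) (nat_lit 0) (XT.lf (nat_lit 0) (nat_lit 19414787259) (nat_lit 76) (nat_lit 7497117690) (nat_lit 152) (nat_lit 1934367213) (nat_lit 21) (nat_lit 5) (nat_lit 22) (nat_lit 5) (nat_lit 23) (nat_lit 4) (nat_lit 320) (nat_lit 264) (nat_lit 196)) (XT.lf (nat_lit 0) (nat_lit 2068727317) (nat_lit 152) (nat_lit 993904868) (nat_lit 228) (nat_lit 26888009912) (nat_lit 18) (nat_lit 5) (nat_lit 20) (nat_lit 5) (nat_lit 21) (nat_lit 5) (nat_lit 321) (nat_lit 264) (nat_lit 195))))) (XT.nd (nat_lit 234) (nat_lit 152) (nat_lit 0) (XT.nd (nat_lit 78) (nat_lit 76) (nat_lit 0) (XT.lf (nat_lit 0) (nat_lit 8475861549) (nat_lit 228) (nat_lit 16795527617) (nat_lit 76) (nat_lit 5825698935) (nat_lit 18) (nat_lit 5) (nat_lit 21) (nat_lit 5) (nat_lit 19) (nat_lit 4) (nat_lit 322) (nat_lit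 264) (nat_lit 194)) (XT.nd (nat_lit 78) (nat_lit 76) (nat_lit 0) (XT.lf (nat_lit 0) (nat_lit 14155045690) (nat_lit 228) (nat_lit 5208497111) (nat_lit 76) (nat_lit 12937560830) (nat_lit 18) (nat_lit 5) (nat_lit 21) (nat_lit 5) (nat_lit 19) (nat_lit 4) (nat_lit 323) (nat_lit 264) (nat_lit 193)) (XT.lf (nat_lit 0) (nat_lit 7151164467) (nat_lit 76) (nat_lit 13058674087) (nat_lit 152) (nat_lit 13350910235) (nat_lit 17) (nat_lit 5) (nat_lit 18) (nat_lit 5) (nat_lit 19) (nat_lit 4) (nat_lit 324) (nat_lit 264) (nat_lit 192)))) (XT.nd (nat_lit 78) (nat_lit 152) (nat_lit 0) (XT.lf (nat_lit 0) (nat_lit 20274608240) (nat_lit 76) (nat_lit 6361376542) (nat_lit 152) (nat_lit 8243971524) (nat_lit 17) (nat_lit 5) (nat_lit 18) (nat_lit 5) (nat_lit 19) (nat_lit 4) (nat_lit 325) (nat_lit 264) (nat_lit 191)) (XT.nd (nat_lit 78) (nat_lit 152) (nat_lit 0) (XT.lf (nat_lit 0) (nat_lit 33375020066) (nat_lit 152)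 (nat_lit 2255446853) (nat_lit 0) (nat_lit 635088468) (nat_lit 17) (nat_lit 5) (nat_lit 19) (nat_lit 4) (nat_lit 17) (nat_lit 4) (nat_lit 326) (nat_lit 264) (nat_lit 190)) (XT.lf (nat_lit 0) (nat_lit 2904239970) (nat_lit 152) (nat_lit 26829566291) (nat_lit 76) (nat_lit 7971452751) (nat_lit 15) (nat_lit 5) (nat_lit 17) (nat_lit 5) (nat_lit 16) (nat_lit 4) (nat_lit 327) (nat_lit 264) (nat_lit 189))))))) (XT.nd (nat_lit 780) (nat_lit 228) (nat_lit 0) (XT.nd (nat_lit 390) (nat_lit 228) (nat_lit 0) (XT.nd (nat_lit 156) (nat_lit 76) (nat_lit 0) (XT.nd (nat_lit 78) (nat_lit 0) (nat_lit 0) (XT.lf (nat_lit 0) (nat_lit 8912504987) (nat_lit 152) (nat_lit 14553886467) (nat_lit 76) (nat_lit 15747151354) (nat_lit 15) (nat_lit 5) (nat_lit 17) (nat_lit 5) (nat_lit 16) (nat_lit 4) (nat_lit 328) (nat_lit 264) (nat_lit 188)) (XT.lf (nat_lit 0) (nat_lit 15204105766) (nat_lit 152) (nat_lit 1695403404) (nat_lit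 76) (nat_lit 23898593949) (nat_lit 15) (nat_lit 5) (nat_lit 17) (nat_lit 5) (nat_lit 16) (nat_lit 4) (nat_lit 329) (nat_lit 264) (nat_lit 187))) (XT.nd (nat_lit 78) (nat_lit 0) (nat_lit 0) (XT.lf (nat_lit 0) (nat_lit 12165882550) (nat_lit 76) (nat_lit 9818083279) (nat_lit 152) (nat_lit 20469249706) (nat_lit 14) (nat_lit 5) (nat_lit 15) (nat_lit 5) (nat_lit 16) (nat_lit 4) (nat_lit 330) (nat_lit 264) (nat_lit 186)) (XT.nd (nat_lit 78) (nat_lit 0) (nat_lit 0) (XT.lf (nat_lit 0) (nat_lit 26750063795) (nat_lit 76) (nat_lit 2365524557) (nat_lit 152) (nat_lit 15074864411) (nat_lit 14) (nat_lit 5) (nat_lit 15) (nat_lit 5) (nat_lit 16) (nat_lit 4) (nat_lit 331) (nat_lit 264) (nat_lit 185)) (XT.lf (nat_lit 0) (nat_lit 36673654213) (nat_lit 152) (nat_lit 4064557506) (nat_lit 0) (nat_lit 5272854327) (nat_lit 14) (nat_lit 5) (nat_lit 16) (nat_lit 4) (nat_lit 14) (nat_lit 4) (nat_lit 332) (nat_lit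 264) (nat_lit 184))))) (XT.nd (nat_lit 156) (nat_lit 76) (nat_lit 0) (XT.nd (nat_lit 78) (nat_lit 76) (nat_lit 0) (XT.lf (nat_lit 0) (nat_lit 10242226283) (nat_lit 76) (nat_lit 34551439918) (nat_lit 76) (nat_lit 3119848603) (nat_lit 13) (nat_lit 4) (nat_lit 14) (nat_lit 5) (nat_lit 14) (nat_lit 4) (nat_lit 333) (nat_lit 264) (nat_lit 183)) (XT.lf (nat_lit 0) (nat_lit 3354856872) (nat_lit 152) (nat_lit 24583459896) (nat_lit 76) (nat_lit 21967346637) (nat_lit 12) (nat_lit 5) (nat_lit 14) (nat_lit 5) (nat_lit 13) (nat_lit 4) (nat_lit 334) (nat_lit 264) (nat_lit 182))) (XT.nd (nat_lit 78) (nat_lit 76) (nat_lit 0) (XT.lf (nat_lit 0) (nat_lit 10034542295) (nat_lit 152) (nat_lit 10918033514) (nat_lit 76) (nat_lit 31042987780) (nat_lit 12) (nat_lit 5) (nat_lit 14) (nat_lit 5) (nat_lit 13) (nat_lit 4) (nat_lit 335) (nat_lit 264) (nat_lit 181)) (XT.nd (nat_lit 78) (nat_lit 0) (nat_lit 0) (XT.lf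 (nat_lit 0) (nat_lit 3518862508) (nat_lit 76) (nat_lit 13571043112) (nat_lit 152) (nat_lit 37097974202) (nat_lit 11) (nat_lit 5) (nat_lit 12) (nat_lit 5) (nat_lit 13) (nat_lit 4) (nat_lit 336) (nat_lit 264) (nat_lit 180)) (XT.lf (nat_lit 0) (nat_lit 19032619538) (nat_lit 76) (nat_lit 5637329602) (nat_lit 152) (nat_lit 31811272573) (nat_lit 11) (nat_lit 5) (nat_lit 12) (nat_lit 5) (nat_lit 13) (nat_lit 4) (nat_lit 337) (nat_lit 264) (nat_lit 179)))))) (XT.nd (nat_lit 390) (nat_lit 152) (nat_lit 0) (XT.nd (nat_lit 156) (nat_lit 76) (nat_lit 0) (XT.nd (nat_lit 78) (nat_lit 0) (nat_lit 0) (XT.lf (nat_lit 0) (nat_lit 32658505421) (nat_lit 152) (nat_lit 23632561032) (nat_lit 0) (nat_lit 2596693906) (nat_lit 11) (nat_lit 5) (nat_lit 13) (nat_lit 4) (nat_lit 11) (nat_lit 4) (nat_lit 338) (nat_lit 264) (nat_lit 178)) (XT.lf (nat_lit 0) (nat_lit 41126965918) (nat_lit 152) (nat_lit 9240369630)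 (nat_lit 0) (nat_lit 11043271510) (nat_lit 11) (nat_lit 5) (nat_lit 13) (nat_lit 4) (nat_lit 11) (nat_lit 4) (nat_lit 339) (nat_lit 264) (nat_lit 177))) (XT.nd (nat_lit 78) (nat_lit 0) (nat_lit 0) (XT.lf (nat_lit 0) (nat_lit 6043689472) (nat_lit 76) (nat_lit 44058148578) (nat_lit 76) (nat_lit 13953613318) (nat_lit 10) (nat_lit 4) (nat_lit 11) (nat_lit 5) (nat_lit 11) (nat_lit 4) (nat_lit 340) (nat_lit 264) (nat_lit 176)) (XT.nd (nat_lit 78) (nat_lit 0) (nat_lit 0) (XT.lf (nat_lit 0) (nat_lit 22391920196) (nat_lit 76) (nat_lit 37278869536) (nat_lit 76) (nat_lit 7154485846) (nat_lit 10) (nat_lit 4) (nat_lit 11) (nat_lit 5) (nat_lit 11) (nat_lit 4) (nat_lit 341) (nat_lit 264) (nat_lit 175)) (XT.lf (nat_lit 0) (nat_lit 39537718552) (nat_lit 76) (nat_lit 30169847413) (nat_lit 76) (nat_lit 26560457) (nat_lit 10) (nat_lit 4) (nat_lit 11) (nat_lit 5) (nat_lit 11) (nat_lit 4) (nat_lit 342) (nat_lit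 264) (nat_lit 174))))) (XT.nd (nat_lit 234) (nat_lit 0) (nat_lit 0) (XT.nd (nat_lit 78) (nat_lit 76) (nat_lit 0) (XT.lf (nat_lit 0) (nat_lit 7208779302) (nat_lit 152) (nat_lit 15383292498) (nat_lit 76) (nat_lit 50191044400) (nat_lit 9) (nat_lit 5) (nat_lit 11) (nat_lit 5) (nat_lit 10) (nat_lit 4) (nat_lit 343) (nat_lit 264) (nat_lit 173)) (XT.nd (nat_lit 78) (nat_lit 0) (nat_lit 0) (XT.lf (nat_lit 0) (nat_lit 156733029) (nat_lit 76) (nat_lit 14640910344) (nat_lit 152) (nat_lit 61187261513) (nat_lit 8) (nat_lit 5) (nat_lit 9) (nat_lit 5) (nat_lit 10) (nat_lit 4) (nat_lit 344) (nat_lit 264) (nat_lit 172)) (XT.lf (nat_lit 0) (nat_lit 16989801972) (nat_lit 76) (nat_lit 6027060082) (nat_lit 152) (nat_lit 56317378895) (nat_lit 8) (nat_lit 5) (nat_lit 9) (nat_lit 5) (nat_lit 10) (nat_lit 4) (nat_lit 345) (nat_lit 264) (nat_lit 171)))) (XT.nd (nat_lit 78) (nat_lit 0) (nat_lit 0) (XT.lf (nat_lit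 0) (nat_lit 31684873468) (nat_lit 152) (nat_lit 48251139115) (nat_lit 0) (nat_lit 2913142988) (nat_lit 8) (nat_lit 5) (nat_lit 10) (nat_lit 4) (nat_lit 8) (nat_lit 4) (nat_lit 346) (nat_lit 264) (nat_lit 170)) (XT.nd (nat_lit 78) (nat_lit 0) (nat_lit 0) (XT.lf (nat_lit 0) (nat_lit 40876252037) (nat_lit 152) (nat_lit 33568653094) (nat_lit 0) (nat_lit 12090415648) (nat_lit 8) (nat_lit 5) (nat_lit 10) (nat_lit 4) (nat_lit 8) (nat_lit 4) (nat_lit 347) (nat_lit 264) (nat_lit 169)) (XT.lf (nat_lit 0) (nat_lit 50518782698) (nat_lit 152) (nat_lit 18167923316) (nat_lit 0) (nat_lit 21719512110) (nat_lit 8) (nat_lit 5) (nat_lit 10) (nat_lit 4) (nat_lit 8) (nat_lit 4) (nat_lit 348) (nat_lit 264) (nat_lit 168))))))))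
noncomputable def xc120 : XT := (XT.nd (nat_lit 1560) (nat_lit 152) (nat_lit 0) (XT.nd (nat_lit 780) (nat_lit 76) (nat_lit 0) (XT.nd (nat_lit 390) (nat_lit 152) (nat_lit 0) (XT.nd (nat_lit 156) (nat_lit 0) (nat_lit 0) (XT.nd (nat_lit 78) (nat_lit 76) (nat_lit 0) (XT.lf (nat_lit 0) (nat_lit 60635423856) (nat_lit 152) (nat_lit 2012281376) (nat_lit 0) (nat_lit 31823358794) (nat_lit 8) (nat_lit 5) (nat_lit 10) (nat_lit 4) (nat_lit 8) (nat_lit 4) (nat_lit 349) (nat_lit 264) (nat_lit 167)) (XT.lf (nat_lit 0) (nat_lit 15430614570) (nat_lit 76) (nat_lit 56060563321) (nat_lit 76) (nat_lit 27236313044) (nat_lit 7) (nat_lit 4) (nat_lit 8) (nat_lit 5) (nat_lit 8) (nat_lit 4) (nat_lit 350) (nat_lit 264) (nat_lit 166))) (XT.nd (nat_lit 78) (nat_lit 0) (nat_lit 0) (XT.lf (nat_lit 0) (nat_lit 33801345384) (nat_lit 76) (nat_lit 49114961162) (nat_lit 76) (nat_lit 20279105919) (nat_lit 7) (nat_lit 4) (nat_lit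 8) (nat_lit 5) (nat_lit 8) (nat_lit 4) (nat_lit 351) (nat_lit 264) (nat_lit 165)) (XT.nd (nat_lit 78) (nat_lit 0) (nat_lit 0) (XT.lf (nat_lit 0) (nat_lit 53077115789) (nat_lit 76) (nat_lit 41828440567) (nat_lit 76) (nat_lit 12981532976) (nat_lit 7) (nat_lit 4) (nat_lit 8) (nat_lit 5) (nat_lit 8) (nat_lit 4) (nat_lit 352) (nat_lit 264) (nat_lit 164)) (XT.lf (nat_lit 0) (nat_lit 73303820476) (nat_lit 76) (nat_lit 34183652677) (nat_lit 76) (nat_lit 5326219040) (nat_lit 7) (nat_lit 4) (nat_lit 8) (nat_lit 5) (nat_lit 8) (nat_lit 4) (nat_lit 353) (nat_lit 264) (nat_lit 163))))) (XT.nd (nat_lit 156) (nat_lit 76) (nat_lit 0) (XT.nd (nat_lit 78) (nat_lit 0) (nat_lit 0) (XT.lf (nat_lit 0) (nat_lit 2618483922) (nat_lit 152) (nat_lit 23499566402) (nat_lit 76) (nat_lit 91866789053) (nat_lit 6) (nat_lit 5) (nat_lit 8) (nat_lit 5) (nat_lit 7) (nat_lit 4) (nat_lit 354) (nat_lit 264) (nat_lit 162))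 (XT.lf (nat_lit 0) (nat_lit 10775159294) (nat_lit 152) (nat_lit 6787929323) (nat_lit 76) (nat_lit 105847404944) (nat_lit 6) (nat_lit 5) (nat_lit 8) (nat_lit 5) (nat_lit 7) (nat_lit 4) (nat_lit 355) (nat_lit 264) (nat_lit 161))) (XT.nd (nat_lit 78) (nat_lit 0) (nat_lit 0) (XT.lf (nat_lit 0) (nat_lit 11103363303) (nat_lit 76) (nat_lit 8403691318) (nat_lit 152) (nat_lit 109592008481) (nat_lit 5) (nat_lit 5) (nat_lit 6) (nat_lit 5) (nat_lit 7) (nat_lit 4) (nat_lit 356) (nat_lit 264) (nat_lit 160)) (XT.nd (nat_lit 78) (nat_lit 0) (nat_lit 0) (XT.lf (nat_lit 0) (nat_lit 28805394982) (nat_lit 152) (nat_lit 104973598102) (nat_lit 0) (nat_lit 1286577386) (nat_lit 5) (nat_lit 5) (nat_lit 7) (nat_lit 4) (nat_lit 5) (nat_lit 4) (nat_lit 357) (nat_lit 264) (nat_lit 159)) (XT.lf (nat_lit 0) (nat_lit 38700760628) (nat_lit 152) (nat_lit 91448950604) (nat_lit 0) (nat_lit 11174088334) (nat_lit 5) (nat_lit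 5) (nat_lit 7) (nat_lit 4) (nat_lit 5) (nat_lit 4) (nat_lit 358) (nat_lit 264) (nat_lit 158)))))) (XT.nd (nat_lit 390) (nat_lit 76) (nat_lit 0) (XT.nd (nat_lit 156) (nat_lit 0) (nat_lit 0) (XT.nd (nat_lit 78) (nat_lit 0) (nat_lit 0) (XT.lf (nat_lit 0) (nat_lit 49085506782) (nat_lit 152) (nat_lit 77258350589) (nat_lit 0) (nat_lit 21551353824) (nat_lit 5) (nat_lit 5) (nat_lit 7) (nat_lit 4) (nat_lit 5) (nat_lit 4) (nat_lit 359) (nat_lit 264) (nat_lit 157)) (XT.lf (nat_lit 0) (nat_lit 59984359030) (nat_lit 152) (nat_lit 62368010916) (nat_lit 0) (nat_lit 32443081629) (nat_lit 5) (nat_lit 5) (nat_lit 7) (nat_lit 4) (nat_lit 5) (nat_lit 4) (nat_lit 360) (nat_lit 264) (nat_lit 156))) (XT.nd (nat_lit 78) (nat_lit 0) (nat_lit 0) (XT.lf (nat_lit 0) (nat_lit 71423267019) (nat_lit 152) (nat_lit 46742478395) (nat_lit 0) (nat_lit 43875204435) (nat_lit 5) (nat_lit 5) (nat_lit 7) (nat_lit 4) (nat_lit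 5) (nat_lit 4) (nat_lit 361) (nat_lit 264) (nat_lit 155)) (XT.nd (nat_lit 78) (nat_lit 0) (nat_lit 0) (XT.lf (nat_lit 0) (nat_lit 83429466246) (nat_lit 152) (nat_lit 30344549377) (nat_lit 0) (nat_lit 55874941583) (nat_lit 5) (nat_lit 5) (nat_lit 7) (nat_lit 4) (nat_lit 5) (nat_lit 4) (nat_lit 362) (nat_lit 264) (nat_lit 154)) (XT.lf (nat_lit 0) (nat_lit 96031542898) (nat_lit 152) (nat_lit 13135181174) (nat_lit 0) (nat_lit 68470863874) (nat_lit 5) (nat_lit 5) (nat_lit 7) (nat_lit 4) (nat_lit 5) (nat_lit 4) (nat_lit 363) (nat_lit 264) (nat_lit 153))))) (XT.nd (nat_lit 156) (nat_lit 0) (nat_lit 0) (XT.nd (nat_lit 78) (nat_lit 0) (nat_lit 0) (XT.lf (nat_lit 0) (nat_lit 5089496575) (nat_lit 76) (nat_lit 104249466651) (nat_lit 76) (nat_lit 76682926330) (nat_lit 4) (nat_lit 4) (nat_lit 5) (nat_lit 5) (nat_lit 5) (nat_lit 4) (nat_lit 364) (nat_lit 264) (nat_lit 152)) (XT.lf (nat_lit 0) (nat_lit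 24673507415) (nat_lit 76) (nat_lit 98856553637) (nat_lit 76) (nat_lit 71284431129) (nat_lit 4) (nat_lit 4) (nat_lit 5) (nat_lit 5) (nat_lit 5) (nat_lit 4) (nat_lit 365) (nat_lit 264) (nat_lit 151))) (XT.nd (nat_lit 78) (nat_lit 0) (nat_lit 0) (XT.lf (nat_lit 0) (nat_lit 45229171534) (nat_lit 76) (nat_lit 93197595412) (nat_lit 76) (nat_lit 65620156535) (nat_lit 4) (nat_lit 4) (nat_lit 5) (nat_lit 5) (nat_lit 5) (nat_lit 4) (nat_lit 366) (nat_lit 264) (nat_lit 150)) (XT.nd (nat_lit 78) (nat_lit 0) (nat_lit 0) (XT.lf (nat_lit 0) (nat_lit 66805430989) (nat_lit 76) (nat_lit 87259118264) (nat_lit 76) (nat_lit 59676616180) (nat_lit 4) (nat_lit 4) (nat_lit 5) (nat_lit 5) (nat_lit 5) (nat_lit 4) (nat_lit 367) (nat_lit 264) (nat_lit 149)) (XT.lf (nat_lit 0) (nat_lit 89453657825) (nat_lit 76) (nat_lit 81026982964) (nat_lit 76) (nat_lit 53439658776) (nat_lit 4) (nat_lit 4) (nat_lit 5) (nat_lit 5)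 (nat_lit 5) (nat_lit 4) (nat_lit 368) (nat_lit 264) (nat_lit 148))))))) (XT.nd (nat_lit 780) (nat_lit 0) (nat_lit 0) (XT.nd (nat_lit 390) (nat_lit 152) (nat_lit 0) (XT.nd (nat_lit 156) (nat_lit 0) (nat_lit 0) (XT.nd (nat_lit 78) (nat_lit 0) (nat_lit 0) (XT.lf (nat_lit 0) (nat_lit 113227776394) (nat_lit 76) (nat_lit 74486351093) (nat_lit 76) (nat_lit 46894434426) (nat_lit 4) (nat_lit 4) (nat_lit 5) (nat_lit 5) (nat_lit 5) (nat_lit 4) (nat_lit 369) (nat_lit 264) (nat_lit 147)) (XT.lf (nat_lit 0) (nat_lit 138184391738) (nat_lit 76) (nat_lit 67621649718) (nat_lit 76) (nat_lit 40025359262) (nat_lit 4) (nat_lit 4) (nat_lit 5) (nat_lit 5) (nat_lit 5) (nat_lit 4) (nat_lit 370) (nat_lit 264) (nat_lit 146))) (XT.nd (nat_lit 78) (nat_lit 0) (nat_lit 0) (XT.lf (nat_lit 0) (nat_lit 164382924371) (nat_lit 76) (nat_lit 60416534313) (nat_lit 76) (nat_lit 32816078343) (nat_lit 4) (nat_lit 4) (nat_lit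 5) (nat_lit 5) (nat_lit 5) (nat_lit 4) (nat_lit 371) (nat_lit 264) (nat_lit 145)) (XT.nd (nat_lit 78) (nat_lit 0) (nat_lit 0) (XT.lf (nat_lit 0) (nat_lit 191885751751) (nat_lit 76) (nat_lit 52853849841) (nat_lit 76) (nat_lit 25249426714) (nat_lit 4) (nat_lit 4) (nat_lit 5) (nat_lit 5) (nat_lit 5) (nat_lit 4) (nat_lit 372) (nat_lit 264) (nat_lit 144)) (XT.lf (nat_lit 0) (nat_lit 220758356801) (nat_lit 76) (nat_lit 44915589909) (nat_lit 76) (nat_lit 17307388539) (nat_lit 4) (nat_lit 4) (nat_lit 5) (nat_lit 5) (nat_lit 5) (nat_lit 4) (nat_lit 373) (nat_lit 264) (nat_lit 143))))) (XT.nd (nat_lit 156) (nat_lit 152) (nat_lit 0) (XT.nd (nat_lit 78) (nat_lit 0) (nat_lit 0) (XT.lf (nat_lit 0) (nat_lit 251069483818) (nat_lit 76) (nat_lit 36582853900) (nat_lit 76) (nat_lit 8971054202) (nat_lit 4) (nat_lit 4) (nat_lit 5) (nat_lit 5) (nat_lit 5) (nat_lit 4) (nat_lit 374) (nat_lit 264) (nat_lit 142))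 (XT.lf (nat_lit 0) (nat_lit 282891302152) (nat_lit 76) (nat_lit 27835801965) (nat_lit 76) (nat_lit 220575289) (nat_lit 4) (nat_lit 4) (nat_lit 5) (nat_lit 5) (nat_lit 5) (nat_lit 4) (nat_lit 375) (nat_lit 264) (nat_lit 141))) (XT.nd (nat_lit 78) (nat_lit 76) (nat_lit 0) (XT.lf (nat_lit 0) (nat_lit 8677950441) (nat_lit 152) (nat_lit 9828692059) (nat_lit 76) (nat_lit 307474662307) (nat_lit 3) (nat_lit 5) (nat_lit 5) (nat_lit 5) (nat_lit 4) (nat_lit 4) (nat_lit 376) (nat_lit 264) (nat_lit 140)) (XT.nd (nat_lit 78) (nat_lit 0) (nat_lit 0) (XT.lf (nat_lit 0) (nat_lit 9609845506) (nat_lit 76) (nat_lit 8551834660) (nat_lit 152) (nat_lit 323597366657) (nat_lit 2) (nat_lit 5) (nat_lit 3) (nat_lit 5) (nat_lit 4) (nat_lit 4) (nat_lit 377) (nat_lit 264) (nat_lit 139)) (XT.lf (nat_lit 0) (nat_lit 28316117824) (nat_lit 152) (nat_lit 327992718846) (nat_lit 0) (nat_lit 2007013834) (nat_lit 2) (nat_lit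 5) (nat_lit 4) (nat_lit 4) (nat_lit 2) (nat_lit 4) (nat_lit 378) (nat_lit 264) (nat_lit 138)))))) (XT.nd (nat_lit 390) (nat_lit 0) (nat_lit 0) (XT.nd (nat_lit 156) (nat_lit 0) (nat_lit 0) (XT.nd (nat_lit 78) (nat_lit 0) (nat_lit 0) (XT.lf (nat_lit 0) (nat_lit 39116246209) (nat_lit 152) (nat_lit 323772893234) (nat_lit 0) (nat_lit 12804457092) (nat_lit 2) (nat_lit 5) (nat_lit 4) (nat_lit 4) (nat_lit 2) (nat_lit 4) (nat_lit 379) (nat_lit 264) (nat_lit 137)) (XT.lf (nat_lit 0) (nat_lit 50454261807) (nat_lit 152) (nat_lit 319346159170) (nat_lit 0) (nat_lit 24139915426) (nat_lit 2) (nat_lit 5) (nat_lit 4) (nat_lit 4) (nat_lit 2) (nat_lit 4) (nat_lit 380) (nat_lit 264) (nat_lit 136))) (XT.nd (nat_lit 78) (nat_lit 0) (nat_lit 0) (XT.lf (nat_lit 0) (nat_lit 62357159894) (nat_lit 152) (nat_lit 314701976812) (nat_lit 0) (nat_lit 36040378023) (nat_lit 2) (nat_lit 5) (nat_lit 4) (nat_lit 4) (nat_lit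 2) (nat_lit 4) (nat_lit 381) (nat_lit 264) (nat_lit 135)) (XT.nd (nat_lit 78) (nat_lit 0) (nat_lit 0) (XT.lf (nat_lit 0) (nat_lit 74853280704) (nat_lit 152) (nat_lit 309829288583) (nat_lit 0) (nat_lit 48534179319) (nat_lit 2) (nat_lit 5) (nat_lit 4) (nat_lit 4) (nat_lit 2) (nat_lit 4) (nat_lit 382) (nat_lit 264) (nat_lit 134)) (XT.lf (nat_lit 0) (nat_lit 87972376904) (nat_lit 152) (nat_lit 304716492845) (nat_lit 0) (nat_lit 61651066458) (nat_lit 2) (nat_lit 5) (nat_lit 4) (nat_lit 4) (nat_lit 2) (nat_lit 4) (nat_lit 383) (nat_lit 264) (nat_lit 133))))) (XT.nd (nat_lit 234) (nat_lit 0) (nat_lit 0) (XT.nd (nat_lit 78) (nat_lit 0) (nat_lit 0) (XT.lf (nat_lit 0) (nat_lit 101745684439) (nat_lit 152) (nat_lit 299351416274) (nat_lit 0) (nat_lit 75422270125) (nat_lit 2) (nat_lit 5) (nat_lit 4) (nat_lit 4) (nat_lit 2) (nat_lit 4) (nat_lit 384) (nat_lit 264) (nat_lit 132)) (XT.nd (nat_lit 78)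 (nat_lit 0) (nat_lit 0) (XT.lf (nat_lit 0) (nat_lit 116205996897) (nat_lit 152) (nat_lit 293721284878) (nat_lit 0) (nat_lit 89880578900) (nat_lit 2) (nat_lit 5) (nat_lit 4) (nat_lit 4) (nat_lit 2) (nat_lit 4) (nat_lit 385) (nat_lit 264) (nat_lit 131)) (XT.lf (nat_lit 0) (nat_lit 131387743594) (nat_lit 152) (nat_lit 287812693583) (nat_lit 0) (nat_lit 105060417327) (nat_lit 2) (nat_lit 5) (nat_lit 4) (nat_lit 4) (nat_lit 2) (nat_lit 4) (nat_lit 386) (nat_lit 264) (nat_lit 130)))) (XT.nd (nat_lit 78) (nat_lit 0) (nat_lit 0) (XT.lf (nat_lit 0) (nat_lit 147327071546) (nat_lit 152) (nat_lit 281611574314) (nat_lit 0) (nat_lit 120997927879) (nat_lit 2) (nat_lit 5) (nat_lit 4) (nat_lit 4) (nat_lit 2) (nat_lit 4) (nat_lit 387) (nat_lit 264) (nat_lit 129)) (XT.nd (nat_lit 78) (nat_lit 0) (nat_lit 0) (XT.lf (nat_lit 0) (nat_lit 164061931533) (nat_lit 152) (nat_lit 275103162501) (nat_lit 0) (nat_lit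 137731057010) (nat_lit 2) (nat_lit 5) (nat_lit 4) (nat_lit 4) (nat_lit 2) (nat_lit 4) (nat_lit 388) (nat_lit 264) (nat_lit 128)) (XT.lf (nat_lit 0) (nat_lit 181632168461) (nat_lit 152) (nat_lit 268271961926) (nat_lit 0) (nat_lit 155299645502) (nat_lit 2) (nat_lit 5) (nat_lit 4) (nat_lit 4) (nat_lit 2) (nat_lit 4) (nat_lit 389) (nat_lit 264) (nat_lit 127))))))))
noncomputable def xc121 : XT := (XT.nd (nat_lit 1638) (nat_lit 2888) (nat_lit 0) (XT.nd (nat_lit 780) (nat_lit 3116) (nat_lit 0) (XT.nd (nat_lit 390) (nat_lit 456) (nat_lit 0) (XT.nd (nat_lit 156) (nat_lit 456) (nat_lit 0) (XT.nd (nat_lit 78) (nat_lit 380) (nat_lit 0) (XT.lf (nat_lit 0) (nat_lit 2890692913) (nat_lit 380) (nat_lit 239041225) (nat_lit 380) (nat_lit 239041225) (nat_lit 131) (nat_lit 3) (nat_lit 136) (nat_lit 3) (nat_lit 136) (nat_lit 5) (nat_lit 265) (nat_lit 265) (nat_lit 250)) (XT.lf (nat_lit 0) (nat_lit 1096824921)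 (nat_lit 380) (nat_lit 4060174503) (nat_lit 456) (nat_lit 1642595476) (nat_lit 126) (nat_lit 5) (nat_lit 131) (nat_lit 3) (nat_lit 132) (nat_lit 5) (nat_lit 266) (nat_lit 265) (nat_lit 249))) (XT.nd (nat_lit 78) (nat_lit 456) (nat_lit 0) (XT.lf (nat_lit 0) (nat_lit 3099337455) (nat_lit 380) (nat_lit 818708633) (nat_lit 456) (nat_lit 2952273719) (nat_lit 126) (nat_lit 5) (nat_lit 131) (nat_lit 3) (nat_lit 132) (nat_lit 5) (nat_lit 267) (nat_lit 265) (nat_lit 248)) (XT.nd (nat_lit 78) (nat_lit 456) (nat_lit 0) (XT.lf (nat_lit 76) (nat_lit 2598512543) (nat_lit 0) (nat_lit 2520963937) (nat_lit 456) (nat_lit 1829527147) (nat_lit 127) (nat_lit 5) (nat_lit 126) (nat_lit 5) (nat_lit 132) (nat_lit 5) (nat_lit 268) (nat_lit 265) (nat_lit 247)) (XT.lf (nat_lit 0) (nat_lit 95914454) (nat_lit 456) (nat_lit 892020098) (nat_lit 532) (nat_lit 6049113819) (nat_lit 120) (nat_lit 5) (nat_lit 126) (nat_lit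 5) (nat_lit 127) (nat_lit 5) (nat_lit 269) (nat_lit 265) (nat_lit 246))))) (XT.nd (nat_lit 156) (nat_lit 532) (nat_lit 0) (XT.nd (nat_lit 78) (nat_lit 0) (nat_lit 0) (XT.lf (nat_lit 0) (nat_lit 1995585040) (nat_lit 456) (nat_lit 4415952015) (nat_lit 532) (nat_lit 719743809) (nat_lit 121) (nat_lit 5) (nat_lit 127) (nat_lit 5) (nat_lit 128) (nat_lit 5) (nat_lit 270) (nat_lit 265) (nat_lit 245)) (XT.lf (nat_lit 0) (nat_lit 3912099757) (nat_lit 456) (nat_lit 786367909) (nat_lit 532) (nat_lit 2535909216) (nat_lit 121) (nat_lit 5) (nat_lit 127) (nat_lit 5) (nat_lit 128) (nat_lit 5) (nat_lit 271) (nat_lit 265) (nat_lit 244))) (XT.nd (nat_lit 78) (nat_lit 532) (nat_lit 0) (XT.lf (nat_lit 76) (nat_lit 3051437471) (nat_lit 0) (nat_lit 2816178045) (nat_lit 532) (nat_lit 1478086683) (nat_lit 122) (nat_lit 5) (nat_lit 121) (nat_lit 5) (nat_lit 128) (nat_lit 5) (nat_lit 272) (nat_lit 265) (nat_lit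 243)) (XT.nd (nat_lit 78) (nat_lit 0) (nat_lit 76) (XT.lf (nat_lit 0) (nat_lit 354735267) (nat_lit 532) (nat_lit 434245682) (nat_lit 608) (nat_lit 6677912092) (nat_lit 114) (nat_lit 5) (nat_lit 121) (nat_lit 5) (nat_lit 122) (nat_lit 5) (nat_lit 273) (nat_lit 265) (nat_lit 242)) (XT.lf (nat_lit 0) (nat_lit 2211483552) (nat_lit 532) (nat_lit 3976644373) (nat_lit 76) (nat_lit 1405907524) (nat_lit 115) (nat_lit 5) (nat_lit 122) (nat_lit 5) (nat_lit 116) (nat_lit 5) (nat_lit 274) (nat_lit 265) (nat_lit 241)))))) (XT.nd (nat_lit 390) (nat_lit 1292) (nat_lit 0) (XT.nd (nat_lit 156) (nat_lit 1368) (nat_lit 0) (XT.nd (nat_lit 78) (nat_lit 0) (nat_lit 0) (XT.lf (nat_lit 0) (nat_lit 74816106) (nat_lit 532) (nat_lit 4014230009) (nat_lit 608) (nat_lit 3642281928) (nat_lit 108) (nat_lit 5) (nat_lit 115) (nat_lit 5) (nat_lit 116) (nat_lit 5) (nat_lit 275) (nat_lit 265) (nat_lit 240)) (XT.lf (nat_lit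 0) (nat_lit 4394061718) (nat_lit 532) (nat_lit 1643491210) (nat_lit 608) (nat_lit 1839261802) (nat_lit 108) (nat_lit 5) (nat_lit 115) (nat_lit 5) (nat_lit 116) (nat_lit 5) (nat_lit 276) (nat_lit 265) (nat_lit 239))) (XT.nd (nat_lit 78) (nat_lit 760) (nat_lit 0) (XT.lf (nat_lit 0) (nat_lit 839238270) (nat_lit 608) (nat_lit 7184832731) (nat_lit 684) (nat_lit 8649521) (nat_lit 100) (nat_lit 5) (nat_lit 108) (nat_lit 5) (nat_lit 109) (nat_lit 5) (nat_lit 277) (nat_lit 265) (nat_lit 238)) (XT.nd (nat_lit 78) (nat_lit 684) (nat_lit 0) (XT.lf (nat_lit 0) (nat_lit 1854845214) (nat_lit 684) (nat_lit 2828875582) (nat_lit 76) (nat_lit 3511235163) (nat_lit 99) (nat_lit 5) (nat_lit 108) (nat_lit 5) (nat_lit 100) (nat_lit 5) (nat_lit 278) (nat_lit 265) (nat_lit 237)) (XT.lf (nat_lit 0) (nat_lit 1737171261) (nat_lit 684) (nat_lit 2020893021) (nat_lit 760) (nat_lit 4610040147) (nat_lit 90) (nat_lit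 5) (nat_lit 99) (nat_lit 5) (nat_lit 100) (nat_lit 5) (nat_lit 279) (nat_lit 265) (nat_lit 236))))) (XT.nd (nat_lit 234) (nat_lit 684) (nat_lit 0) (XT.nd (nat_lit 78) (nat_lit 608) (nat_lit 0) (XT.lf (nat_lit 0) (nat_lit 5739771728) (nat_lit 760) (nat_lit 2005875065) (nat_lit 76) (nat_lit 805240364) (nat_lit 90) (nat_lit 5) (nat_lit 100) (nat_lit 5) (nat_lit 91) (nat_lit 5) (nat_lit 280) (nat_lit 265) (nat_lit 235)) (XT.nd (nat_lit 78) (nat_lit 76) (nat_lit 0) (XT.lf (nat_lit 0) (nat_lit 2836466147) (nat_lit 532) (nat_lit 4987734456) (nat_lit 608) (nat_lit 918563000) (nat_lit 83) (nat_lit 5) (nat_lit 90) (nat_lit 5) (nat_lit 91) (nat_lit 5) (nat_lit 281) (nat_lit 265) (nat_lit 234)) (XT.lf (nat_lit 0) (nat_lit 996280838) (nat_lit 608) (nat_lit 1042208480) (nat_lit 76) (nat_lit 6906940744) (nat_lit 82) (nat_lit 5) (nat_lit 90) (nat_lit 5) (nat_lit 83) (nat_lit 5) (nat_lit 282) (nat_lit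 265) (nat_lit 233)))) (XT.nd (nat_lit 78) (nat_lit 304) (nat_lit 0) (XT.lf (nat_lit 0) (nat_lit 2988813870) (nat_lit 456) (nat_lit 5063540769) (nat_lit 76) (nat_lit 1104599261) (nat_lit 77) (nat_lit 5) (nat_lit 83) (nat_lit 5) (nat_lit 78) (nat_lit 5) (nat_lit 283) (nat_lit 265) (nat_lit 232)) (XT.nd (nat_lit 78) (nat_lit 0) (nat_lit 0) (XT.lf (nat_lit 0) (nat_lit 39548779) (nat_lit 304) (nat_lit 5026403804) (nat_lit 380) (nat_lit 4313964602) (nat_lit 73) (nat_lit 5) (nat_lit 77) (nat_lit 5) (nat_lit 78) (nat_lit 5) (nat_lit 284) (nat_lit 265) (nat_lit 231)) (XT.lf (nat_lit 0) (nat_lit 5502908820) (nat_lit 304) (nat_lit 1764883768) (nat_lit 380) (nat_lit 2345300689) (nat_lit 73) (nat_lit 5) (nat_lit 77) (nat_lit 5) (nat_lit 78) (nat_lit 5) (nat_lit 285) (nat_lit 265) (nat_lit 230))))))) (XT.nd (nat_lit 780) (nat_lit 1140) (nat_lit 0) (XT.nd (nat_lit 390) (nat_lit 760) (nat_lit 0) (XT.nd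 (nat_lit 156) (nat_lit 608) (nat_lit 0) (XT.nd (nat_lit 78) (nat_lit 76) (nat_lit 0) (XT.lf (nat_lit 0) (nat_lit 1327669718) (nat_lit 304) (nat_lit 8236792245) (nat_lit 380) (nat_lit 294331115) (nat_lit 69) (nat_lit 5) (nat_lit 73) (nat_lit 5) (nat_lit 74) (nat_lit 5) (nat_lit 286) (nat_lit 265) (nat_lit 229)) (XT.lf (nat_lit 0) (nat_lit 1838246945) (nat_lit 380) (nat_lit 3063682507) (nat_lit 76) (nat_lit 5211561093) (nat_lit 68) (nat_lit 5) (nat_lit 73) (nat_lit 5) (nat_lit 69) (nat_lit 5) (nat_lit 287) (nat_lit 265) (nat_lit 228))) (XT.nd (nat_lit 78) (nat_lit 304) (nat_lit 0) (XT.lf (nat_lit 0) (nat_lit 2690418129) (nat_lit 304) (nat_lit 1360943581) (nat_lit 380) (nat_lit 6330217872) (nat_lit 64) (nat_lit 5) (nat_lit 68) (nat_lit 5) (nat_lit 69) (nat_lit 5) (nat_lit 288) (nat_lit 265) (nat_lit 227)) (XT.nd (nat_lit 78) (nat_lit 304) (nat_lit 0) (XT.lf (nat_lit 0) (nat_lit 6408027305)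 (nat_lit 380) (nat_lit 1929187814) (nat_lit 76) (nat_lit 2324296928) (nat_lit 64) (nat_lit 5) (nat_lit 69) (nat_lit 5) (nat_lit 65) (nat_lit 5) (nat_lit 289) (nat_lit 265) (nat_lit 226)) (XT.lf (nat_lit 0) (nat_lit 4165569091) (nat_lit 304) (nat_lit 4750359813) (nat_lit 380) (nat_lit 2037921836) (nat_lit 60) (nat_lit 5) (nat_lit 64) (nat_lit 5) (nat_lit 65) (nat_lit 5) (nat_lit 290) (nat_lit 265) (nat_lit 225))))) (XT.nd (nat_lit 156) (nat_lit 456) (nat_lit 0) (XT.nd (nat_lit 78) (nat_lit 228) (nat_lit 0) (XT.lf (nat_lit 0) (nat_lit 259068747) (nat_lit 380) (nat_lit 699265343) (nat_lit 76) (nat_lit 10303325415) (nat_lit 59) (nat_lit 5) (nat_lit 64) (nat_lit 5) (nat_lit 60) (nat_lit 5) (nat_lit 291) (nat_lit 265) (nat_lit 224)) (XT.lf (nat_lit 0) (nat_lit 2690931484) (nat_lit 304) (nat_lit 5848355841) (nat_lit 76) (nat_lit 3039544334) (nat_lit 56) (nat_lit 5) (nat_lit 60) (nat_lit 5)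 (nat_lit 57) (nat_lit 5) (nat_lit 292) (nat_lit 265) (nat_lit 223))) (XT.nd (nat_lit 78) (nat_lit 228) (nat_lit 0) (XT.lf (nat_lit 0) (nat_lit 530597312) (nat_lit 228) (nat_lit 4700259671) (nat_lit 304) (nat_lit 6681747558) (nat_lit 53) (nat_lit 5) (nat_lit 56) (nat_lit 5) (nat_lit 57) (nat_lit 5) (nat_lit 293) (nat_lit 265) (nat_lit 222)) (XT.nd (nat_lit 78) (nat_lit 228) (nat_lit 0) (XT.lf (nat_lit 0) (nat_lit 7367400070) (nat_lit 228) (nat_lit 581220677) (nat_lit 304) (nat_lit 4311965703) (nat_lit 53) (nat_lit 5) (nat_lit 56) (nat_lit 5) (nat_lit 57) (nat_lit 5) (nat_lit 294) (nat_lit 265) (nat_lit 221)) (XT.lf (nat_lit 0) (nat_lit 1857885308) (nat_lit 228) (nat_lit 8985700580) (nat_lit 304) (nat_lit 1780375410) (nat_lit 50) (nat_lit 5) (nat_lit 53) (nat_lit 5) (nat_lit 54) (nat_lit 5) (nat_lit 295) (nat_lit 265) (nat_lit 220)))))) (XT.nd (nat_lit 390) (nat_lit 684) (nat_lit 0) (XT.nd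 (nat_lit 156) (nat_lit 152) (nat_lit 0) (XT.nd (nat_lit 78) (nat_lit 228) (nat_lit 0) (XT.lf (nat_lit 0) (nat_lit 897745597) (nat_lit 304) (nat_lit 3973311340) (nat_lit 76) (nat_lit 8131414376) (nat_lit 49) (nat_lit 5) (nat_lit 53) (nat_lit 5) (nat_lit 50) (nat_lit 5) (nat_lit 296) (nat_lit 265) (nat_lit 219)) (XT.lf (nat_lit 0) (nat_lit 3170672769) (nat_lit 228) (nat_lit 485238225) (nat_lit 304) (nat_lit 9742289384) (nat_lit 46) (nat_lit 5) (nat_lit 49) (nat_lit 5) (nat_lit 50) (nat_lit 5) (nat_lit 297) (nat_lit 265) (nat_lit 218))) (XT.nd (nat_lit 78) (nat_lit 152) (nat_lit 0) (XT.lf (nat_lit 0) (nat_lit 6642037595) (nat_lit 304) (nat_lit 3127608936) (nat_lit 76) (nat_lit 4039615672) (nat_lit 46) (nat_lit 5) (nat_lit 50) (nat_lit 5) (nat_lit 47) (nat_lit 5) (nat_lit 298) (nat_lit 265) (nat_lit 217)) (XT.nd (nat_lit 78) (nat_lit 0) (nat_lit 0) (XT.lf (nat_lit 0) (nat_lit 4401530096)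 (nat_lit 152) (nat_lit 5411984072) (nat_lit 228) (nat_lit 4425607393) (nat_lit 44) (nat_lit 5) (nat_lit 46) (nat_lit 5) (nat_lit 47) (nat_lit 5) (nat_lit 299) (nat_lit 265) (nat_lit 216)) (XT.lf (nat_lit 0) (nat_lit 12357959028) (nat_lit 152) (nat_lit 798974984) (nat_lit 228) (nat_lit 1532915805) (nat_lit 44) (nat_lit 5) (nat_lit 46) (nat_lit 5) (nat_lit 47) (nat_lit 5) (nat_lit 300) (nat_lit 265) (nat_lit 215))))) (XT.nd (nat_lit 234) (nat_lit 228) (nat_lit 0) (XT.nd (nat_lit 78) (nat_lit 152) (nat_lit 0) (XT.lf (nat_lit 0) (nat_lit 1570802620) (nat_lit 304) (nat_lit 9574051243) (nat_lit 76) (nat_lit 4011399357) (nat_lit 40) (nat_lit 5) (nat_lit 44) (nat_lit 5) (nat_lit 41) (nat_lit 5) (nat_lit 301) (nat_lit 265) (nat_lit 214)) (XT.nd (nat_lit 78) (nat_lit 152) (nat_lit 0) (XT.lf (nat_lit 0) (nat_lit 4793737673) (nat_lit 304) (nat_lit 1766949229) (nat_lit 76) (nat_lit 9083294423) (nat_lit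 40) (nat_lit 5) (nat_lit 44) (nat_lit 5) (nat_lit 41) (nat_lit 5) (nat_lit 302) (nat_lit 265) (nat_lit 213)) (XT.lf (nat_lit 0) (nat_lit 6587020078) (nat_lit 152) (nat_lit 1657745692) (nat_lit 228) (nat_lit 7908019280) (nat_lit 38) (nat_lit 5) (nat_lit 40) (nat_lit 5) (nat_lit 41) (nat_lit 5) (nat_lit 303) (nat_lit 265) (nat_lit 212)))) (XT.nd (nat_lit 78) (nat_lit 228) (nat_lit 0) (XT.lf (nat_lit 0) (nat_lit 11917945914) (nat_lit 228) (nat_lit 1375420843) (nat_lit 76) (nat_lit 3391216964) (nat_lit 38) (nat_lit 5) (nat_lit 41) (nat_lit 5) (nat_lit 39) (nat_lit 5) (nat_lit 304) (nat_lit 265) (nat_lit 211)) (XT.nd (nat_lit 78) (nat_lit 76) (nat_lit 0) (XT.lf (nat_lit 0) (nat_lit 7381188619) (nat_lit 152) (nat_lit 8502386892) (nat_lit 228) (nat_lit 1353990427) (nat_lit 36) (nat_lit 5) (nat_lit 38) (nat_lit 5) (nat_lit 39) (nat_lit 5) (nat_lit 305) (nat_lit 265) (nat_lit 210)) (XT.lf (nat_lit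 0) (nat_lit 2148215526) (nat_lit 228) (nat_lit 1281450163) (nat_lit 76) (nat_lit 14387307489) (nat_lit 35) (nat_lit 5) (nat_lit 38) (nat_lit 5) (nat_lit 36) (nat_lit 5) (nat_lit 306) (nat_lit 265) (nat_lit 209))))))))
noncomputable def xc122 : XT := (XT.nd (nat_lit 1560) (nat_lit 684) (nat_lit 0) (XT.nd (nat_lit 780) (nat_lit 532) (nat_lit 0) (XT.nd (nat_lit 390) (nat_lit 304) (nat_lit 0) (XT.nd (nat_lit 156) (nat_lit 380) (nat_lit 0) (XT.nd (nat_lit 78) (nat_lit 0) (nat_lit 0) (XT.lf (nat_lit 0) (nat_lit 5903320731) (nat_lit 228) (nat_lit 10548541567) (nat_lit 76) (nat_lit 1966242680) (nat_lit 33) (nat_lit 5) (nat_lit 36) (nat_lit 5) (nat_lit 34) (nat_lit 5) (nat_lit 307) (nat_lit 265) (nat_lit 208)) (XT.lf (nat_lit 0) (nat_lit 9893115748) (nat_lit 228) (nat_lit 1632763959) (nat_lit 76) (nat_lit 7521094194) (nat_lit 33) (nat_lit 5) (nat_lit 36) (nat_lit 5) (nat_lit 34) (nat_lit 5) (nat_lit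 308) (nat_lit 265) (nat_lit 207))) (XT.nd (nat_lit 78) (nat_lit 228) (nat_lit 0) (XT.lf (nat_lit 0) (nat_lit 7934575041) (nat_lit 152) (nat_lit 6241851927) (nat_lit 228) (nat_lit 5526183941) (nat_lit 31) (nat_lit 5) (nat_lit 33) (nat_lit 5) (nat_lit 34) (nat_lit 5) (nat_lit 309) (nat_lit 265) (nat_lit 206)) (XT.nd (nat_lit 78) (nat_lit 228) (nat_lit 0) (XT.lf (nat_lit 0) (nat_lit 17989560581) (nat_lit 152) (nat_lit 682821814) (nat_lit 228) (nat_lit 1718748165) (nat_lit 31) (nat_lit 5) (nat_lit 33) (nat_lit 5) (nat_lit 34) (nat_lit 5) (nat_lit 310) (nat_lit 265) (nat_lit 205)) (XT.lf (nat_lit 0) (nat_lit 2379145696) (nat_lit 228) (nat_lit 13595917610) (nat_lit 76) (nat_lit 5128604668) (nat_lit 28) (nat_lit 5) (nat_lit 31) (nat_lit 5) (nat_lit 29) (nat_lit 5) (nat_lit 311) (nat_lit 265) (nat_lit 204))))) (XT.nd (nat_lit 156) (nat_lit 152) (nat_lit 0) (XT.nd (nat_lit 78) (nat_lit 152) (nat_lit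 0) (XT.lf (nat_lit 0) (nat_lit 6648803915) (nat_lit 228) (nat_lit 3940409361) (nat_lit 76) (nat_lit 11259999989) (nat_lit 28) (nat_lit 5) (nat_lit 31) (nat_lit 5) (nat_lit 29) (nat_lit 5) (nat_lit 312) (nat_lit 265) (nat_lit 203)) (XT.lf (nat_lit 0) (nat_lit 6357066063) (nat_lit 152) (nat_lit 4847557808) (nat_lit 228) (nat_lit 11423798347) (nat_lit 26) (nat_lit 5) (nat_lit 28) (nat_lit 5) (nat_lit 29) (nat_lit 5) (nat_lit 313) (nat_lit 265) (nat_lit 202))) (XT.nd (nat_lit 78) (nat_lit 152) (nat_lit 0) (XT.lf (nat_lit 0) (nat_lit 16048241217) (nat_lit 228) (nat_lit 6201177473) (nat_lit 76) (nat_lit 1194191985) (nat_lit 26) (nat_lit 5) (nat_lit 29) (nat_lit 5) (nat_lit 27) (nat_lit 4) (nat_lit 314) (nat_lit 265) (nat_lit 201)) (XT.nd (nat_lit 78) (nat_lit 76) (nat_lit 0) (XT.lf (nat_lit 0) (nat_lit 4391104417) (nat_lit 76) (nat_lit 16865949317) (nat_lit 152) (nat_lit 3036372555) (nat_lit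 25) (nat_lit 5) (nat_lit 26) (nat_lit 5) (nat_lit 27) (nat_lit 4) (nat_lit 315) (nat_lit 265) (nat_lit 200)) (XT.lf (nat_lit 0) (nat_lit 1573116748) (nat_lit 152) (nat_lit 9520599633) (nat_lit 76) (nat_lit 14086737875) (nat_lit 24) (nat_lit 5) (nat_lit 26) (nat_lit 5) (nat_lit 25) (nat_lit 5) (nat_lit 316) (nat_lit 265) (nat_lit 199)))))) (XT.nd (nat_lit 390) (nat_lit 304) (nat_lit 0) (XT.nd (nat_lit 156) (nat_lit 76) (nat_lit 0) (XT.nd (nat_lit 78) (nat_lit 0) (nat_lit 0) (XT.lf (nat_lit 0) (nat_lit 1332474963) (nat_lit 152) (nat_lit 4975661451) (nat_lit 228) (nat_lit 19801369421) (nat_lit 22) (nat_lit 5) (nat_lit 24) (nat_lit 5) (nat_lit 25) (nat_lit 5) (nat_lit 317) (nat_lit 265) (nat_lit 198)) (XT.lf (nat_lit 0) (nat_lit 11442936074) (nat_lit 228) (nat_lit 14084329830) (nat_lit 76) (nat_lit 1549607817) (nat_lit 22) (nat_lit 5) (nat_lit 25) (nat_lit 5) (nat_lit 23) (nat_lit 4) (nat_lit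 318) (nat_lit 265) (nat_lit 197))) (XT.nd (nat_lit 78) (nat_lit 76) (nat_lit 0) (XT.lf (nat_lit 0) (nat_lit 16893699056) (nat_lit 228) (nat_lit 2977479547) (nat_lit 76) (nat_lit 8218484688) (nat_lit 22) (nat_lit 5) (nat_lit 25) (nat_lit 5) (nat_lit 23) (nat_lit 4) (nat_lit 319) (nat_lit 265) (nat_lit 196)) (XT.nd (nat_lit 78) (nat_lit 0) (nat_lit 0) (XT.lf (nat_lit 0) (nat_lit 8933579203) (nat_lit 76) (nat_lit 13801618350) (nat_lit 152) (nat_lit 6411998685) (nat_lit 21) (nat_lit 5) (nat_lit 22) (nat_lit 5) (nat_lit 23) (nat_lit 4) (nat_lit 320) (nat_lit 265) (nat_lit 195)) (XT.lf (nat_lit 0) (nat_lit 21507095698) (nat_lit 76) (nat_lit 7391263523) (nat_lit 152) (nat_lit 1357780313) (nat_lit 21) (nat_lit 5) (nat_lit 22) (nat_lit 5) (nat_lit 23) (nat_lit 4) (nat_lit 321) (nat_lit 265) (nat_lit 194))))) (XT.nd (nat_lit 156) (nat_lit 76) (nat_lit 0) (XT.nd (nat_lit 78) (nat_lit 0) (nat_lit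 0) (XT.lf (nat_lit 0) (nat_lit 3297223216) (nat_lit 152) (nat_lit 556825234) (nat_lit 228) (nat_lit 27561845729) (nat_lit 18) (nat_lit 5) (nat_lit 20) (nat_lit 5) (nat_lit 21) (nat_lit 5) (nat_lit 322) (nat_lit 265) (nat_lit 193)) (XT.lf (nat_lit 0) (nat_lit 9514782793) (nat_lit 228) (nat_lit 16540313867) (nat_lit 76) (nat_lit 6565741064) (nat_lit 18) (nat_lit 5) (nat_lit 21) (nat_lit 5) (nat_lit 19) (nat_lit 4) (nat_lit 323) (nat_lit 265) (nat_lit 192))) (XT.nd (nat_lit 78) (nat_lit 76) (nat_lit 0) (XT.lf (nat_lit 0) (nat_lit 15448634323) (nat_lit 228) (nat_lit 4426074222) (nat_lit 76) (nat_lit 14011826665) (nat_lit 18) (nat_lit 5) (nat_lit 21) (nat_lit 5) (nat_lit 19) (nat_lit 4) (nat_lit 324) (nat_lit 265) (nat_lit 191)) (XT.nd (nat_lit 78) (nat_lit 0) (nat_lit 0) (XT.lf (nat_lit 0) (nat_lit 8534750310) (nat_lit 76) (nat_lit 13259538719) (nat_lit 152) (nat_lit 13415483287) (nat_lit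 17) (nat_lit 5) (nat_lit 18) (nat_lit 5) (nat_lit 19) (nat_lit 4) (nat_lit 325) (nat_lit 265) (nat_lit 190)) (XT.lf (nat_lit 0) (nat_lit 22265507813) (nat_lit 76) (nat_lit 6248903395) (nat_lit 152) (nat_lit 8081910616) (nat_lit 17) (nat_lit 5) (nat_lit 18) (nat_lit 5) (nat_lit 19) (nat_lit 4) (nat_lit 326) (nat_lit 265) (nat_lit 189))))))) (XT.nd (nat_lit 780) (nat_lit 304) (nat_lit 0) (XT.nd (nat_lit 390) (nat_lit 152) (nat_lit 0) (XT.nd (nat_lit 156) (nat_lit 76) (nat_lit 0) (XT.nd (nat_lit 78) (nat_lit 152) (nat_lit 0) (XT.lf (nat_lit 0) (nat_lit 35570770263) (nat_lit 152) (nat_lit 1417667298) (nat_lit 0) (nat_lit 1063759027) (nat_lit 17) (nat_lit 5) (nat_lit 19) (nat_lit 4) (nat_lit 17) (nat_lit 4) (nat_lit 327) (nat_lit 265) (nat_lit 188)) (XT.lf (nat_lit 0) (nat_lit 3574688900) (nat_lit 152) (nat_lit 27218197524) (nat_lit 76) (nat_lit 8771113730) (nat_lit 15) (nat_lit 5) (nat_lit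 17) (nat_lit 5) (nat_lit 16) (nat_lit 4) (nat_lit 328) (nat_lit 265) (nat_lit 187))) (XT.nd (nat_lit 78) (nat_lit 76) (nat_lit 0) (XT.lf (nat_lit 0) (nat_lit 9858355885) (nat_lit 152) (nat_lit 14374107379) (nat_lit 76) (nat_lit 16916497818) (nat_lit 15) (nat_lit 5) (nat_lit 17) (nat_lit 5) (nat_lit 16) (nat_lit 4) (nat_lit 329) (nat_lit 265) (nat_lit 186)) (XT.nd (nat_lit 78) (nat_lit 76) (nat_lit 0) (XT.lf (nat_lit 0) (nat_lit 16440716434) (nat_lit 152) (nat_lit 915913183) (nat_lit 76) (nat_lit 25457322596) (nat_lit 15) (nat_lit 5) (nat_lit 17) (nat_lit 5) (nat_lit 16) (nat_lit 4) (nat_lit 330) (nat_lit 265) (nat_lit 185)) (XT.lf (nat_lit 0) (nat_lit 13624497385) (nat_lit 76) (nat_lit 9925662034) (nat_lit 152) (nat_lit 21002142562) (nat_lit 14) (nat_lit 5) (nat_lit 15) (nat_lit 5) (nat_lit 16) (nat_lit 4) (nat_lit 331) (nat_lit 265) (nat_lit 184))))) (XT.nd (nat_lit 156) (nat_lit 152)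 (nat_lit 0) (XT.nd (nat_lit 78) (nat_lit 0) (nat_lit 0) (XT.lf (nat_lit 0) (nat_lit 28897396231) (nat_lit 76) (nat_lit 2118728967) (nat_lit 152) (nat_lit 15361398462) (nat_lit 14) (nat_lit 5) (nat_lit 15) (nat_lit 5) (nat_lit 16) (nat_lit 4) (nat_lit 332) (nat_lit 265) (nat_lit 183)) (XT.lf (nat_lit 0) (nat_lit 38936343801) (nat_lit 152) (nat_lit 3480565196) (nat_lit 0) (nat_lit 5873056320) (nat_lit 14) (nat_lit 5) (nat_lit 16) (nat_lit 4) (nat_lit 14) (nat_lit 4) (nat_lit 333) (nat_lit 265) (nat_lit 182))) (XT.nd (nat_lit 78) (nat_lit 76) (nat_lit 0) (XT.lf (nat_lit 0) (nat_lit 11528860682) (nat_lit 76) (nat_lit 35925159283) (nat_lit 76) (nat_lit 2833943068) (nat_lit 13) (nat_lit 4) (nat_lit 14) (nat_lit 5) (nat_lit 14) (nat_lit 4) (nat_lit 334) (nat_lit 265) (nat_lit 181)) (XT.nd (nat_lit 78) (nat_lit 0) (nat_lit 0) (XT.lf (nat_lit 0) (nat_lit 3929984926) (nat_lit 152) (nat_lit 25061345910)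 (nat_lit 76) (nat_lit 23389070527) (nat_lit 12) (nat_lit 5) (nat_lit 14) (nat_lit 5) (nat_lit 13) (nat_lit 4) (nat_lit 335) (nat_lit 265) (nat_lit 180)) (XT.lf (nat_lit 0) (nat_lit 10924255324) (nat_lit 152) (nat_lit 10748423780) (nat_lit 76) (nat_lit 32903095796) (nat_lit 12) (nat_lit 5) (nat_lit 14) (nat_lit 5) (nat_lit 13) (nat_lit 4) (nat_lit 336) (nat_lit 265) (nat_lit 179)))))) (XT.nd (nat_lit 390) (nat_lit 152) (nat_lit 0) (XT.nd (nat_lit 156) (nat_lit 76) (nat_lit 0) (XT.nd (nat_lit 78) (nat_lit 0) (nat_lit 0) (XT.lf (nat_lit 0) (nat_lit 4398776537) (nat_lit 76) (nat_lit 13926125717) (nat_lit 152) (nat_lit 38553186897) (nat_lit 11) (nat_lit 5) (nat_lit 12) (nat_lit 5) (nat_lit 13) (nat_lit 4) (nat_lit 337) (nat_lit 265) (nat_lit 178)) (XT.lf (nat_lit 0) (nat_lit 20654698994) (nat_lit 76) (nat_lit 5611129843) (nat_lit 152) (nat_lit 33021182855) (nat_lit 11) (nat_lit 5) (nat_lit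 12) (nat_lit 5) (nat_lit 13) (nat_lit 4) (nat_lit 338) (nat_lit 265) (nat_lit 177))) (XT.nd (nat_lit 78) (nat_lit 76) (nat_lit 0) (XT.lf (nat_lit 0) (nat_lit 34641137376) (nat_lit 152) (nat_lit 24162846408) (nat_lit 0) (nat_lit 3010534501) (nat_lit 11) (nat_lit 5) (nat_lit 13) (nat_lit 4) (nat_lit 11) (nat_lit 4) (nat_lit 339) (nat_lit 265) (nat_lit 176)) (XT.nd (nat_lit 78) (nat_lit 76) (nat_lit 0) (XT.lf (nat_lit 0) (nat_lit 43516368199) (nat_lit 152) (nat_lit 9082061754) (nat_lit 0) (nat_lit 11865916895) (nat_lit 11) (nat_lit 5) (nat_lit 13) (nat_lit 4) (nat_lit 11) (nat_lit 4) (nat_lit 340) (nat_lit 265) (nat_lit 175)) (XT.lf (nat_lit 0) (nat_lit 6956195038) (nat_lit 76) (nat_lit 45977458008) (nat_lit 76) (nat_lit 14308103437) (nat_lit 10) (nat_lit 4) (nat_lit 11) (nat_lit 5) (nat_lit 11) (nat_lit 4) (nat_lit 341) (nat_lit 265) (nat_lit 174))))) (XT.nd (nat_lit 234) (nat_lit 76)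 (nat_lit 0) (XT.nd (nat_lit 78) (nat_lit 76) (nat_lit 0) (XT.lf (nat_lit 0) (nat_lit 24092774390) (nat_lit 76) (nat_lit 38872719681) (nat_lit 76) (nat_lit 7185361999) (nat_lit 10) (nat_lit 4) (nat_lit 11) (nat_lit 5) (nat_lit 11) (nat_lit 4) (nat_lit 342) (nat_lit 265) (nat_lit 173)) (XT.nd (nat_lit 78) (nat_lit 0) (nat_lit 0) (XT.lf (nat_lit 0) (nat_lit 274325038) (nat_lit 152) (nat_lit 31142137173) (nat_lit 76) (nat_lit 41789212837) (nat_lit 9) (nat_lit 5) (nat_lit 11) (nat_lit 5) (nat_lit 10) (nat_lit 4) (nat_lit 343) (nat_lit 265) (nat_lit 172)) (XT.lf (nat_lit 0) (nat_lit 7856190565) (nat_lit 152) (nat_lit 15615642195) (nat_lit 76) (nat_lit 52935982615) (nat_lit 9) (nat_lit 5) (nat_lit 11) (nat_lit 5) (nat_lit 10) (nat_lit 4) (nat_lit 344) (nat_lit 265) (nat_lit 171)))) (XT.nd (nat_lit 78) (nat_lit 0) (nat_lit 0) (XT.lf (nat_lit 0) (nat_lit 692726303) (nat_lit 76) (nat_lit 15126352195)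 (nat_lit 152) (nat_lit 63950891109) (nat_lit 8) (nat_lit 5) (nat_lit 9) (nat_lit 5) (nat_lit 10) (nat_lit 4) (nat_lit 345) (nat_lit 265) (nat_lit 170)) (XT.nd (nat_lit 78) (nat_lit 0) (nat_lit 0) (XT.lf (nat_lit 0) (nat_lit 18342298377) (nat_lit 76) (nat_lit 6093552451) (nat_lit 152) (nat_lit 58851596908) (nat_lit 8) (nat_lit 5) (nat_lit 9) (nat_lit 5) (nat_lit 10) (nat_lit 4) (nat_lit 346) (nat_lit 265) (nat_lit 169)) (XT.lf (nat_lit 0) (nat_lit 33527986193) (nat_lit 152) (nat_lit 50175272514) (nat_lit 0) (nat_lit 3275317878) (nat_lit 8) (nat_lit 5) (nat_lit 10) (nat_lit 4) (nat_lit 8) (nat_lit 4) (nat_lit 347) (nat_lit 265) (nat_lit 168))))))))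
noncomputable def xc123 : XT := (XT.nd (nat_lit 1638) (nat_lit 152) (nat_lit 0) (XT.nd (nat_lit 780) (nat_lit 76) (nat_lit 0) (XT.nd (nat_lit 390) (nat_lit 152) (nat_lit 0) (XT.nd (nat_lit 156) (nat_lit 76) (nat_lit 0) (XT.nd (nat_lit 78) (nat_lit 0) (nat_lit 0) (XT.lf (nat_lit 0) (nat_lit 43166606593) (nat_lit 152) (nat_lit 34781920457) (nat_lit 0) (nat_lit 12901143802) (nat_lit 8) (nat_lit 5) (nat_lit 10) (nat_lit 4) (nat_lit 8) (nat_lit 4) (nat_lit 348) (nat_lit 265) (nat_lit 167)) (XT.lf (nat_lit 0) (nat_lit 53279523694) (nat_lit 152) (nat_lit 18633304918) (nat_lit 0) (nat_lit 23001875689) (nat_lit 8) (nat_lit 5) (nat_lit 10) (nat_lit 4) (nat_lit 8) (nat_lit 4) (nat_lit 349) (nat_lit 265) (nat_lit 166))) (XT.nd (nat_lit 78) (nat_lit 76) (nat_lit 0) (XT.lf (nat_lit 0) (nat_lit 63890815869) (nat_lit 152) (nat_lit 1690976813) (nat_lit 0) (nat_lit 33601562899) (nat_lit 8) (nat_lit 5)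 (nat_lit 10) (nat_lit 4) (nat_lit 8) (nat_lit 4) (nat_lit 350) (nat_lit 265) (nat_lit 165)) (XT.nd (nat_lit 78) (nat_lit 0) (nat_lit 0) (XT.lf (nat_lit 0) (nat_lit 16617258792) (nat_lit 76) (nat_lit 58667931289) (nat_lit 76) (nat_lit 28367625970) (nat_lit 7) (nat_lit 4) (nat_lit 8) (nat_lit 5) (nat_lit 8) (nat_lit 4) (nat_lit 351) (nat_lit 265) (nat_lit 164)) (XT.lf (nat_lit 0) (nat_lit 35886758837) (nat_lit 76) (nat_lit 51384366174) (nat_lit 76) (nat_lit 21073534809) (nat_lit 7) (nat_lit 4) (nat_lit 8) (nat_lit 5) (nat_lit 8) (nat_lit 4) (nat_lit 352) (nat_lit 265) (nat_lit 163))))) (XT.nd (nat_lit 156) (nat_lit 152) (nat_lit 0) (XT.nd (nat_lit 78) (nat_lit 0) (nat_lit 0) (XT.lf (nat_lit 0) (nat_lit 56107491753) (nat_lit 76) (nat_lit 43742393028) (nat_lit 76) (nat_lit 13421536856) (nat_lit 7) (nat_lit 4) (nat_lit 8) (nat_lit 5) (nat_lit 8) (nat_lit 4) (nat_lit 353) (nat_lit 265) (nat_lit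 162)) (XT.lf (nat_lit 0) (nat_lit 77327602143) (nat_lit 76) (nat_lit 35723816675) (nat_lit 76) (nat_lit 5393413070) (nat_lit 7) (nat_lit 4) (nat_lit 8) (nat_lit 5) (nat_lit 8) (nat_lit 4) (nat_lit 354) (nat_lit 265) (nat_lit 161))) (XT.nd (nat_lit 78) (nat_lit 76) (nat_lit 0) (XT.lf (nat_lit 0) (nat_lit 2932973772) (nat_lit 152) (nat_lit 24326900165) (nat_lit 76) (nat_lit 96614968976) (nat_lit 6) (nat_lit 5) (nat_lit 8) (nat_lit 5) (nat_lit 7) (nat_lit 4) (nat_lit 355) (nat_lit 265) (nat_lit 160)) (XT.nd (nat_lit 78) (nat_lit 76) (nat_lit 0) (XT.lf (nat_lit 0) (nat_lit 11488741691) (nat_lit 152) (nat_lit 6796235735) (nat_lit 76) (nat_lit 111287242306) (nat_lit 6) (nat_lit 5) (nat_lit 8) (nat_lit 5) (nat_lit 7) (nat_lit 4) (nat_lit 356) (nat_lit 265) (nat_lit 159)) (XT.lf (nat_lit 0) (nat_lit 11984281360) (nat_lit 76) (nat_lit 8669711320) (nat_lit 152) (nat_lit 114891389753) (nat_lit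 5) (nat_lit 5) (nat_lit 6) (nat_lit 5) (nat_lit 7) (nat_lit 4) (nat_lit 357) (nat_lit 265) (nat_lit 158)))))) (XT.nd (nat_lit 390) (nat_lit 76) (nat_lit 0) (XT.nd (nat_lit 156) (nat_lit 0) (nat_lit 0) (XT.nd (nat_lit 78) (nat_lit 0) (nat_lit 0) (XT.lf (nat_lit 0) (nat_lit 30411371654) (nat_lit 152) (nat_lit 109906109651) (nat_lit 0) (nat_lit 1493030383) (nat_lit 5) (nat_lit 5) (nat_lit 7) (nat_lit 4) (nat_lit 5) (nat_lit 4) (nat_lit 358) (nat_lit 265) (nat_lit 157)) (XT.lf (nat_lit 0) (nat_lit 40793614777) (nat_lit 152) (nat_lit 95720285413) (nat_lit 0) (nat_lit 11868149064) (nat_lit 5) (nat_lit 5) (nat_lit 7) (nat_lit 4) (nat_lit 5) (nat_lit 4) (nat_lit 359) (nat_lit 265) (nat_lit 156))) (XT.nd (nat_lit 78) (nat_lit 0) (nat_lit 0) (XT.lf (nat_lit 0) (nat_lit 51690083185) (nat_lit 152) (nat_lit 80834494099) (nat_lit 0) (nat_lit 22757832289) (nat_lit 5) (nat_lit 5) (nat_lit 7) (nat_lit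 4) (nat_lit 5) (nat_lit 4) (nat_lit 360) (nat_lit 265) (nat_lit 155)) (XT.nd (nat_lit 78) (nat_lit 0) (nat_lit 0) (XT.lf (nat_lit 0) (nat_lit 63126720852) (nat_lit 152) (nat_lit 65213293348) (nat_lit 0) (nat_lit 34188007876) (nat_lit 5) (nat_lit 5) (nat_lit 7) (nat_lit 4) (nat_lit 5) (nat_lit 4) (nat_lit 361) (nat_lit 265) (nat_lit 154)) (XT.lf (nat_lit 0) (nat_lit 75130757866) (nat_lit 152) (nat_lit 48819489825) (nat_lit 0) (nat_lit 46185890529) (nat_lit 5) (nat_lit 5) (nat_lit 7) (nat_lit 4) (nat_lit 5) (nat_lit 4) (nat_lit 362) (nat_lit 265) (nat_lit 153))))) (XT.nd (nat_lit 234) (nat_lit 0) (nat_lit 0) (XT.nd (nat_lit 78) (nat_lit 76) (nat_lit 0) (XT.lf (nat_lit 0) (nat_lit 87730775268) (nat_lit 152) (nat_lit 31614050665) (nat_lit 0) (nat_lit 58780046635) (nat_lit 5) (nat_lit 5) (nat_lit 7) (nat_lit 4) (nat_lit 5) (nat_lit 4) (nat_lit 363) (nat_lit 265) (nat_lit 152)) (XT.nd (nat_lit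 78) (nat_lit 76) (nat_lit 0) (XT.lf (nat_lit 0) (nat_lit 100956773101) (nat_lit 152) (nat_lit 13556010537) (nat_lit 0) (nat_lit 72000462281) (nat_lit 5) (nat_lit 5) (nat_lit 7) (nat_lit 4) (nat_lit 5) (nat_lit 4) (nat_lit 364) (nat_lit 265) (nat_lit 151)) (XT.lf (nat_lit 0) (nat_lit 5576095782) (nat_lit 76) (nat_lit 109351204534) (nat_lit 76) (nat_lit 80389577345) (nat_lit 4) (nat_lit 4) (nat_lit 5) (nat_lit 5) (nat_lit 5) (nat_lit 4) (nat_lit 365) (nat_lit 265) (nat_lit 150)))) (XT.nd (nat_lit 78) (nat_lit 0) (nat_lit 0) (XT.lf (nat_lit 0) (nat_lit 26128253622) (nat_lit 76) (nat_lit 103693918986) (nat_lit 76) (nat_lit 74727228589) (nat_lit 4) (nat_lit 4) (nat_lit 5) (nat_lit 5) (nat_lit 5) (nat_lit 4) (nat_lit 366) (nat_lit 265) (nat_lit 149)) (XT.nd (nat_lit 78) (nat_lit 0) (nat_lit 0) (XT.lf (nat_lit 0) (nat_lit 47701173764) (nat_lit 76) (nat_lit 97757034865) (nat_lit 76) (nat_lit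 68785522365) (nat_lit 4) (nat_lit 4) (nat_lit 5) (nat_lit 5) (nat_lit 5) (nat_lit 4) (nat_lit 367) (nat_lit 265) (nat_lit 148)) (XT.lf (nat_lit 0) (nat_lit 70346220303) (nat_lit 76) (nat_lit 91526416733) (nat_lit 76) (nat_lit 62550311754) (nat_lit 4) (nat_lit 4) (nat_lit 5) (nat_lit 5) (nat_lit 5) (nat_lit 4) (nat_lit 368) (nat_lit 265) (nat_lit 147))))))) (XT.nd (nat_lit 780) (nat_lit 0) (nat_lit 0) (XT.nd (nat_lit 390) (nat_lit 152) (nat_lit 0) (XT.nd (nat_lit 156) (nat_lit 0) (nat_lit 0) (XT.nd (nat_lit 78) (nat_lit 0) (nat_lit 0) (XT.lf (nat_lit 0) (nat_lit 94117310017) (nat_lit 76) (nat_lit 84987229784) (nat_lit 76) (nat_lit 56006751015) (nat_lit 4) (nat_lit 4) (nat_lit 5) (nat_lit 5) (nat_lit 5) (nat_lit 4) (nat_lit 369) (nat_lit 265) (nat_lit 146)) (XT.lf (nat_lit 0) (nat_lit 119071040737) (nat_lit 76) (nat_lit 78123904525) (nat_lit 76) (nat_lit 49139260243) (nat_lit 4) (nat_lit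 4) (nat_lit 5) (nat_lit 5) (nat_lit 5) (nat_lit 4) (nat_lit 370) (nat_lit 265) (nat_lit 145))) (XT.nd (nat_lit 78) (nat_lit 0) (nat_lit 0) (XT.lf (nat_lit 0) (nat_lit 145266826110) (nat_lit 76) (nat_lit 70920099707) (nat_lit 76) (nat_lit 41931488268) (nat_lit 4) (nat_lit 4) (nat_lit 5) (nat_lit 5) (nat_lit 5) (nat_lit 4) (nat_lit 371) (nat_lit 265) (nat_lit 144)) (XT.nd (nat_lit 78) (nat_lit 0) (nat_lit 0) (XT.lf (nat_lit 0) (nat_lit 172767037051) (nat_lit 76) (nat_lit 63358663412) (nat_lit 76) (nat_lit 34366273730) (nat_lit 4) (nat_lit 4) (nat_lit 5) (nat_lit 5) (nat_lit 5) (nat_lit 4) (nat_lit 372) (nat_lit 265) (nat_lit 143)) (XT.lf (nat_lit 0) (nat_lit 201637150255) (nat_lit 76) (nat_lit 55421592222) (nat_lit 76) (nat_lit 26425604212) (nat_lit 4) (nat_lit 4) (nat_lit 5) (nat_lit 5) (nat_lit 5) (nat_lit 4) (nat_lit 373) (nat_lit 265) (nat_lit 142))))) (XT.nd (nat_lit 156) (nat_lit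 152) (nat_lit 0) (XT.nd (nat_lit 78) (nat_lit 0) (nat_lit 0) (XT.lf (nat_lit 0) (nat_lit 231945904085) (nat_lit 76) (nat_lit 47089988347) (nat_lit 76) (nat_lit 18090573358) (nat_lit 4) (nat_lit 4) (nat_lit 5) (nat_lit 5) (nat_lit 5) (nat_lit 4) (nat_lit 374) (nat_lit 265) (nat_lit 141)) (XT.lf (nat_lit 0) (nat_lit 263765462241) (nat_lit 76) (nat_lit 38344014635) (nat_lit 76) (nat_lit 9341335857) (nat_lit 4) (nat_lit 4) (nat_lit 5) (nat_lit 5) (nat_lit 5) (nat_lit 4) (nat_lit 375) (nat_lit 265) (nat_lit 140))) (XT.nd (nat_lit 78) (nat_lit 152) (nat_lit 0) (XT.lf (nat_lit 0) (nat_lit 297171585576) (nat_lit 76) (nat_lit 29162847339) (nat_lit 76) (nat_lit 157060191) (nat_lit 4) (nat_lit 4) (nat_lit 5) (nat_lit 5) (nat_lit 5) (nat_lit 4) (nat_lit 376) (nat_lit 265) (nat_lit 139)) (XT.nd (nat_lit 78) (nat_lit 76) (nat_lit 0) (XT.lf (nat_lit 0) (nat_lit 9180569862) (nat_lit 152) (nat_lit 10188579283)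 (nat_lit 76) (nat_lit 322907765225) (nat_lit 3) (nat_lit 5) (nat_lit 5) (nat_lit 5) (nat_lit 4) (nat_lit 4) (nat_lit 377) (nat_lit 265) (nat_lit 138)) (XT.lf (nat_lit 0) (nat_lit 10219763428) (nat_lit 76) (nat_lit 8917470870) (nat_lit 152) (nat_lit 339706372710) (nat_lit 2) (nat_lit 5) (nat_lit 3) (nat_lit 5) (nat_lit 4) (nat_lit 4) (nat_lit 378) (nat_lit 265) (nat_lit 137)))))) (XT.nd (nat_lit 390) (nat_lit 0) (nat_lit 0) (XT.nd (nat_lit 156) (nat_lit 0) (nat_lit 0) (XT.nd (nat_lit 78) (nat_lit 0) (nat_lit 0) (XT.lf (nat_lit 0) (nat_lit 29797102214) (nat_lit 152) (nat_lit 344266782880) (nat_lit 0) (nat_lit 2164481249) (nat_lit 2) (nat_lit 5) (nat_lit 4) (nat_lit 4) (nat_lit 2) (nat_lit 4) (nat_lit 379) (nat_lit 265) (nat_lit 136)) (XT.lf (nat_lit 0) (nat_lit 41134133280) (nat_lit 152) (nat_lit 339841945601) (nat_lit 0) (nat_lit 13499076826) (nat_lit 2) (nat_lit 5) (nat_lit 4) (nat_lit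 4) (nat_lit 2) (nat_lit 4) (nat_lit 380) (nat_lit 265) (nat_lit 135))) (XT.nd (nat_lit 78) (nat_lit 0) (nat_lit 0) (XT.lf (nat_lit 0) (nat_lit 53036093717) (nat_lit 152) (nat_lit 335199569706) (nat_lit 0) (nat_lit 25398717749) (nat_lit 2) (nat_lit 5) (nat_lit 4) (nat_lit 4) (nat_lit 2) (nat_lit 4) (nat_lit 381) (nat_lit 265) (nat_lit 134)) (XT.nd (nat_lit 78) (nat_lit 0) (nat_lit 0) (XT.lf (nat_lit 0) (nat_lit 65531321527) (nat_lit 152) (nat_lit 330328601917) (nat_lit 0) (nat_lit 37891736497) (nat_lit 2) (nat_lit 5) (nat_lit 4) (nat_lit 4) (nat_lit 2) (nat_lit 4) (nat_lit 382) (nat_lit 265) (nat_lit 133)) (XT.lf (nat_lit 0) (nat_lit 78649567251) (nat_lit 152) (nat_lit 325217444693) (nat_lit 0) (nat_lit 51007878354) (nat_lit 2) (nat_lit 5) (nat_lit 4) (nat_lit 4) (nat_lit 2) (nat_lit 4) (nat_lit 383) (nat_lit 265) (nat_lit 132))))) (XT.nd (nat_lit 234) (nat_lit 0) (nat_lit 0) (XT.nd (nat_lit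 78) (nat_lit 0) (nat_lit 0) (XT.lf (nat_lit 0) (nat_lit 92422064808) (nat_lit 152) (nat_lit 319853928611) (nat_lit 0) (nat_lit 64778372228) (nat_lit 2) (nat_lit 5) (nat_lit 4) (nat_lit 4) (nat_lit 2) (nat_lit 4) (nat_lit 384) (nat_lit 265) (nat_lit 131)) (XT.nd (nat_lit 78) (nat_lit 0) (nat_lit 0) (XT.lf (nat_lit 0) (nat_lit 106881605860) (nat_lit 152) (nat_lit 314225283396) (nat_lit 0) (nat_lit 79236005010) (nat_lit 2) (nat_lit 5) (nat_lit 4) (nat_lit 4) (nat_lit 2) (nat_lit 4) (nat_lit 385) (nat_lit 265) (nat_lit 130)) (XT.lf (nat_lit 0) (nat_lit 122062617883) (nat_lit 152) (nat_lit 308318107511) (nat_lit 0) (nat_lit 94415199633) (nat_lit 2) (nat_lit 5) (nat_lit 4) (nat_lit 4) (nat_lit 2) (nat_lit 4) (nat_lit 386) (nat_lit 265) (nat_lit 129)))) (XT.nd (nat_lit 78) (nat_lit 0) (nat_lit 0) (XT.lf (nat_lit 0) (nat_lit 138001246147) (nat_lit 152) (nat_lit 302118336252) (nat_lit 0) (nat_lit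 110352097040) (nat_lit 2) (nat_lit 5) (nat_lit 4) (nat_lit 4) (nat_lit 2) (nat_lit 4) (nat_lit 387) (nat_lit 265) (nat_lit 128)) (XT.nd (nat_lit 31122) (nat_lit 0) (nat_lit 9424) (XT.lf (nat_lit 0) (nat_lit 154735439764) (nat_lit 152) (nat_lit 295611208258) (nat_lit 0) (nat_lit 127084642222) (nat_lit 2) (nat_lit 5) (nat_lit 4) (nat_lit 4) (nat_lit 2) (nat_lit 4) (nat_lit 388) (nat_lit 265) (nat_lit 127)) (XT.lf (nat_lit 0) (nat_lit 754468596) (nat_lit 0) (nat_lit 754468596) (nat_lit 380) (nat_lit 1924118805) (nat_lit 126) (nat_lit 5) (nat_lit 126) (nat_lit 3) (nat_lit 131) (nat_lit 3) (nat_lit 266) (nat_lit 266) (nat_lit 248))))))))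
noncomputable def xc124 : XT := (XT.nd (nat_lit 1560) (nat_lit 3040) (nat_lit 0) (XT.nd (nat_lit 780) (nat_lit 2660) (nat_lit 0) (XT.nd (nat_lit 390) (nat_lit 912) (nat_lit 0) (XT.nd (nat_lit 156) (nat_lit 456) (nat_lit 0) (XT.nd (nat_lit 78) (nat_lit 0) (nat_lit 0) (XT.lf (nat_lit 0) (nat_lit 4813054958) (nat_lit 0) (nat_lit 125702027) (nat_lit 380) (nat_lit 2002306638) (nat_lit 126) (nat_lit 5) (nat_lit 126) (nat_lit 3) (nat_lit 131) (nat_lit 3) (nat_lit 267) (nat_lit 266) (nat_lit 247)) (XT.lf (nat_lit 76) (nat_lit 1214599389) (nat_lit 0) (nat_lit 5663552294) (nat_lit 456) (nat_lit 145771289) (nat_lit 127) (nat_lit 5) (nat_lit 126) (nat_lit 5) (nat_lit 132) (nat_lit 5) (nat_lit 268) (nat_lit 266) (nat_lit 246))) (XT.nd (nat_lit 78) (nat_lit 0) (nat_lit 0) (XT.lf (nat_lit 0) (nat_lit 1669803045) (nat_lit 456) (nat_lit 2410878178) (nat_lit 532) (nat_lit 3032896364) (nat_lit 120) (nat_lit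 5) (nat_lit 126) (nat_lit 5) (nat_lit 127) (nat_lit 5) (nat_lit 269) (nat_lit 266) (nat_lit 245)) (XT.nd (nat_lit 78) (nat_lit 0) (nat_lit 0) (XT.lf (nat_lit 76) (nat_lit 1125246390) (nat_lit 0) (nat_lit 2354291503) (nat_lit 532) (nat_lit 3732888451) (nat_lit 121) (nat_lit 5) (nat_lit 120) (nat_lit 5) (nat_lit 127) (nat_lit 5) (nat_lit 270) (nat_lit 266) (nat_lit 244)) (XT.lf (nat_lit 76) (nat_lit 4857071504) (nat_lit 0) (nat_lit 458422159) (nat_lit 532) (nat_lit 2004170435) (nat_lit 121) (nat_lit 5) (nat_lit 120) (nat_lit 5) (nat_lit 127) (nat_lit 5) (nat_lit 271) (nat_lit 266) (nat_lit 243))))) (XT.nd (nat_lit 156) (nat_lit 456) (nat_lit 0) (XT.nd (nat_lit 78) (nat_lit 532) (nat_lit 0) (XT.lf (nat_lit 76) (nat_lit 1293144565) (nat_lit 0) (nat_lit 5894723234) (nat_lit 532) (nat_lit 247387067) (nat_lit 122) (nat_lit 5) (nat_lit 121) (nat_lit 5) (nat_lit 128) (nat_lit 5) (nat_lit 272)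 (nat_lit 266) (nat_lit 242)) (XT.lf (nat_lit 0) (nat_lit 1498451329) (nat_lit 532) (nat_lit 2335395560) (nat_lit 608) (nat_lit 3724116054) (nat_lit 114) (nat_lit 5) (nat_lit 121) (nat_lit 5) (nat_lit 122) (nat_lit 5) (nat_lit 273) (nat_lit 266) (nat_lit 241))) (XT.nd (nat_lit 78) (nat_lit 456) (nat_lit 0) (XT.lf (nat_lit 76) (nat_lit 1643650520) (nat_lit 0) (nat_lit 1612358684) (nat_lit 608) (nat_lit 4434149282) (nat_lit 115) (nat_lit 5) (nat_lit 114) (nat_lit 5) (nat_lit 122) (nat_lit 5) (nat_lit 274) (nat_lit 266) (nat_lit 240)) (XT.nd (nat_lit 78) (nat_lit 532) (nat_lit 0) (XT.lf (nat_lit 0) (nat_lit 5063745893) (nat_lit 532) (nat_lit 2006666881) (nat_lit 76) (nat_lit 760618755) (nat_lit 115) (nat_lit 5) (nat_lit 122) (nat_lit 5) (nat_lit 116) (nat_lit 5) (nat_lit 275) (nat_lit 266) (nat_lit 239)) (XT.lf (nat_lit 0) (nat_lit 2212385820) (nat_lit 532) (nat_lit 4725559234) (nat_lit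 608) (nat_lit 1042373455) (nat_lit 108) (nat_lit 5) (nat_lit 115) (nat_lit 5) (nat_lit 116) (nat_lit 5) (nat_lit 276) (nat_lit 266) (nat_lit 238)))))) (XT.nd (nat_lit 390) (nat_lit 1292) (nat_lit 0) (XT.nd (nat_lit 156) (nat_lit 684) (nat_lit 0) (XT.nd (nat_lit 78) (nat_lit 608) (nat_lit 0) (XT.lf (nat_lit 0) (nat_lit 695329671) (nat_lit 608) (nat_lit 1504862949) (nat_lit 76) (nat_lit 5938877396) (nat_lit 107) (nat_lit 5) (nat_lit 115) (nat_lit 5) (nat_lit 108) (nat_lit 5) (nat_lit 277) (nat_lit 266) (nat_lit 237)) (XT.lf (nat_lit 0) (nat_lit 2460364641) (nat_lit 684) (nat_lit 5330926695) (nat_lit 76) (nat_lit 514989861) (nat_lit 99) (nat_lit 5) (nat_lit 108) (nat_lit 5) (nat_lit 100) (nat_lit 5) (nat_lit 278) (nat_lit 266) (nat_lit 236))) (XT.nd (nat_lit 78) (nat_lit 684) (nat_lit 0) (XT.lf (nat_lit 0) (nat_lit 4299164578) (nat_lit 684) (nat_lit 854045194) (nat_lit 76) (nat_lit 3329510707)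 (nat_lit 99) (nat_lit 5) (nat_lit 108) (nat_lit 5) (nat_lit 100) (nat_lit 5) (nat_lit 279) (nat_lit 266) (nat_lit 235)) (XT.nd (nat_lit 78) (nat_lit 0) (nat_lit 0) (XT.lf (nat_lit 0) (nat_lit 3906170537) (nat_lit 684) (nat_lit 2311902252) (nat_lit 760) (nat_lit 2450636908) (nat_lit 90) (nat_lit 5) (nat_lit 99) (nat_lit 5) (nat_lit 100) (nat_lit 5) (nat_lit 280) (nat_lit 266) (nat_lit 234)) (XT.lf (nat_lit 0) (nat_lit 8187845470) (nat_lit 760) (nat_lit 8162583) (nat_lit 76) (nat_lit 670374261) (nat_lit 90) (nat_lit 5) (nat_lit 100) (nat_lit 5) (nat_lit 91) (nat_lit 5) (nat_lit 281) (nat_lit 266) (nat_lit 233))))) (XT.nd (nat_lit 156) (nat_lit 304) (nat_lit 0) (XT.nd (nat_lit 78) (nat_lit 380) (nat_lit 0) (XT.lf (nat_lit 0) (nat_lit 1194734213) (nat_lit 608) (nat_lit 4048389916) (nat_lit 76) (nat_lit 3827489263) (nat_lit 82) (nat_lit 5) (nat_lit 90) (nat_lit 5) (nat_lit 83) (nat_lit 5)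 (nat_lit 282) (nat_lit 266) (nat_lit 232)) (XT.lf (nat_lit 0) (nat_lit 973175458) (nat_lit 380) (nat_lit 2115118774) (nat_lit 456) (nat_lit 6198846384) (nat_lit 77) (nat_lit 5) (nat_lit 82) (nat_lit 5) (nat_lit 83) (nat_lit 5) (nat_lit 283) (nat_lit 266) (nat_lit 231))) (XT.nd (nat_lit 78) (nat_lit 304) (nat_lit 0) (XT.lf (nat_lit 0) (nat_lit 5100667832) (nat_lit 456) (nat_lit 3212492402) (nat_lit 76) (nat_lit 1200234049) (nat_lit 77) (nat_lit 5) (nat_lit 83) (nat_lit 5) (nat_lit 78) (nat_lit 5) (nat_lit 284) (nat_lit 266) (nat_lit 230)) (XT.nd (nat_lit 78) (nat_lit 0) (nat_lit 0) (XT.lf (nat_lit 0) (nat_lit 2111812504) (nat_lit 304) (nat_lit 5108725697) (nat_lit 380) (nat_lit 2530180302) (nat_lit 73) (nat_lit 5) (nat_lit 77) (nat_lit 5) (nat_lit 78) (nat_lit 5) (nat_lit 285) (nat_lit 266) (nat_lit 229)) (XT.lf (nat_lit 0) (nat_lit 7749755486) (nat_lit 304) (nat_lit 1692177197) (nat_lit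 380) (nat_lit 558296647) (nat_lit 73) (nat_lit 5) (nat_lit 77) (nat_lit 5) (nat_lit 78) (nat_lit 5) (nat_lit 286) (nat_lit 266) (nat_lit 228))))))) (XT.nd (nat_lit 780) (nat_lit 1292) (nat_lit 0) (XT.nd (nat_lit 390) (nat_lit 760) (nat_lit 0) (XT.nd (nat_lit 156) (nat_lit 608) (nat_lit 0) (XT.nd (nat_lit 78) (nat_lit 0) (nat_lit 0) (XT.lf (nat_lit 0) (nat_lit 1491024287) (nat_lit 380) (nat_lit 6861521566) (nat_lit 76) (nat_lit 1907215175) (nat_lit 68) (nat_lit 5) (nat_lit 73) (nat_lit 5) (nat_lit 69) (nat_lit 5) (nat_lit 287) (nat_lit 266) (nat_lit 227)) (XT.lf (nat_lit 0) (nat_lit 3635093105) (nat_lit 380) (nat_lit 1225121049) (nat_lit 76) (nat_lit 5671129052) (nat_lit 68) (nat_lit 5) (nat_lit 73) (nat_lit 5) (nat_lit 69) (nat_lit 5) (nat_lit 288) (nat_lit 266) (nat_lit 226))) (XT.nd (nat_lit 78) (nat_lit 304) (nat_lit 0) (XT.lf (nat_lit 0) (nat_lit 4784559690) (nat_lit 304) (nat_lit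 1123711765) (nat_lit 380) (nat_lit 4907217476) (nat_lit 64) (nat_lit 5) (nat_lit 68) (nat_lit 5) (nat_lit 69) (nat_lit 5) (nat_lit 289) (nat_lit 266) (nat_lit 225)) (XT.nd (nat_lit 78) (nat_lit 304) (nat_lit 0) (XT.lf (nat_lit 0) (nat_lit 8308531450) (nat_lit 380) (nat_lit 82767181) (nat_lit 76) (nat_lit 2721948119) (nat_lit 64) (nat_lit 5) (nat_lit 69) (nat_lit 5) (nat_lit 65) (nat_lit 5) (nat_lit 290) (nat_lit 266) (nat_lit 224)) (XT.lf (nat_lit 0) (nat_lit 6285390794) (nat_lit 304) (nat_lit 4611038893) (nat_lit 380) (nat_lit 526153839) (nat_lit 60) (nat_lit 5) (nat_lit 64) (nat_lit 5) (nat_lit 65) (nat_lit 5) (nat_lit 291) (nat_lit 266) (nat_lit 223))))) (XT.nd (nat_lit 156) (nat_lit 456) (nat_lit 0) (XT.nd (nat_lit 78) (nat_lit 0) (nat_lit 0) (XT.lf (nat_lit 0) (nat_lit 1175105121) (nat_lit 228) (nat_lit 602898757) (nat_lit 304) (nat_lit 9969421801) (nat_lit 56) (nat_lit 5) (nat_lit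 59) (nat_lit 5) (nat_lit 60) (nat_lit 5) (nat_lit 292) (nat_lit 266) (nat_lit 222)) (XT.lf (nat_lit 0) (nat_lit 4277207281) (nat_lit 304) (nat_lit 4231223181) (nat_lit 76) (nat_lit 3574834683) (nat_lit 56) (nat_lit 5) (nat_lit 60) (nat_lit 5) (nat_lit 57) (nat_lit 5) (nat_lit 293) (nat_lit 266) (nat_lit 221))) (XT.nd (nat_lit 78) (nat_lit 228) (nat_lit 0) (XT.lf (nat_lit 0) (nat_lit 2435878428) (nat_lit 228) (nat_lit 4468453237) (nat_lit 304) (nat_lit 5531476383) (nat_lit 53) (nat_lit 5) (nat_lit 56) (nat_lit 5) (nat_lit 57) (nat_lit 5) (nat_lit 294) (nat_lit 266) (nat_lit 220)) (XT.nd (nat_lit 78) (nat_lit 228) (nat_lit 0) (XT.lf (nat_lit 0) (nat_lit 9525056978) (nat_lit 228) (nat_lit 165691789) (nat_lit 304) (nat_lit 3113889176) (nat_lit 53) (nat_lit 5) (nat_lit 56) (nat_lit 5) (nat_lit 57) (nat_lit 5) (nat_lit 295) (nat_lit 266) (nat_lit 219)) (XT.lf (nat_lit 0) (nat_lit 3772242957)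 (nat_lit 228) (nat_lit 8929234923) (nat_lit 304) (nat_lit 486235866) (nat_lit 50) (nat_lit 5) (nat_lit 53) (nat_lit 5) (nat_lit 54) (nat_lit 5) (nat_lit 296) (nat_lit 266) (nat_lit 218)))))) (XT.nd (nat_lit 390) (nat_lit 836) (nat_lit 0) (XT.nd (nat_lit 156) (nat_lit 152) (nat_lit 0) (XT.nd (nat_lit 78) (nat_lit 228) (nat_lit 0) (XT.lf (nat_lit 0) (nat_lit 2217764887) (nat_lit 304) (nat_lit 2393582600) (nat_lit 76) (nat_lit 8975985141) (nat_lit 49) (nat_lit 5) (nat_lit 53) (nat_lit 5) (nat_lit 50) (nat_lit 5) (nat_lit 297) (nat_lit 266) (nat_lit 217)) (XT.lf (nat_lit 0) (nat_lit 5078916935) (nat_lit 228) (nat_lit 1518931) (nat_lit 304) (nat_lit 8924154111) (nat_lit 46) (nat_lit 5) (nat_lit 49) (nat_lit 5) (nat_lit 50) (nat_lit 5) (nat_lit 298) (nat_lit 266) (nat_lit 216))) (XT.nd (nat_lit 78) (nat_lit 152) (nat_lit 0) (XT.lf (nat_lit 0) (nat_lit 8164292173) (nat_lit 304) (nat_lit 1564656108)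 (nat_lit 76) (nat_lit 4709903727) (nat_lit 46) (nat_lit 5) (nat_lit 50) (nat_lit 5) (nat_lit 47) (nat_lit 5) (nat_lit 299) (nat_lit 266) (nat_lit 215)) (XT.nd (nat_lit 78) (nat_lit 0) (nat_lit 0) (XT.lf (nat_lit 0) (nat_lit 6313208693) (nat_lit 152) (nat_lit 5150870593) (nat_lit 228) (nat_lit 3427703245) (nat_lit 44) (nat_lit 5) (nat_lit 46) (nat_lit 5) (nat_lit 47) (nat_lit 5) (nat_lit 300) (nat_lit 266) (nat_lit 214)) (XT.lf (nat_lit 0) (nat_lit 14586906592) (nat_lit 152) (nat_lit 332530701) (nat_lit 228) (nat_lit 448433483) (nat_lit 44) (nat_lit 5) (nat_lit 46) (nat_lit 5) (nat_lit 47) (nat_lit 5) (nat_lit 301) (nat_lit 266) (nat_lit 213))))) (XT.nd (nat_lit 234) (nat_lit 380) (nat_lit 0) (XT.nd (nat_lit 78) (nat_lit 152) (nat_lit 0) (XT.lf (nat_lit 0) (nat_lit 2753349788) (nat_lit 304) (nat_lit 8382279859) (nat_lit 76) (nat_lit 4722112342) (nat_lit 40) (nat_lit 5) (nat_lit 44) (nat_lit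 5) (nat_lit 41) (nat_lit 5) (nat_lit 302) (nat_lit 266) (nat_lit 212)) (XT.nd (nat_lit 78) (nat_lit 152) (nat_lit 0) (XT.lf (nat_lit 0) (nat_lit 6084859829) (nat_lit 304) (nat_lit 264369123) (nat_lit 76) (nat_lit 10023309637) (nat_lit 40) (nat_lit 5) (nat_lit 44) (nat_lit 5) (nat_lit 41) (nat_lit 5) (nat_lit 303) (nat_lit 266) (nat_lit 211)) (XT.lf (nat_lit 0) (nat_lit 8481638527) (nat_lit 152) (nat_lit 1201170669) (nat_lit 228) (nat_lit 7225305765) (nat_lit 38) (nat_lit 5) (nat_lit 40) (nat_lit 5) (nat_lit 41) (nat_lit 5) (nat_lit 304) (nat_lit 266) (nat_lit 210)))) (XT.nd (nat_lit 78) (nat_lit 228) (nat_lit 0) (XT.lf (nat_lit 0) (nat_lit 91256774) (nat_lit 152) (nat_lit 13408989929) (nat_lit 228) (nat_lit 3968275473) (nat_lit 36) (nat_lit 5) (nat_lit 38) (nat_lit 5) (nat_lit 39) (nat_lit 5) (nat_lit 305) (nat_lit 266) (nat_lit 209)) (XT.nd (nat_lit 78) (nat_lit 228) (nat_lit 0) (XT.lf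 (nat_lit 0) (nat_lit 9258057733) (nat_lit 152) (nat_lit 8381312660) (nat_lit 228) (nat_lit 411068698) (nat_lit 36) (nat_lit 5) (nat_lit 38) (nat_lit 5) (nat_lit 39) (nat_lit 5) (nat_lit 306) (nat_lit 266) (nat_lit 208)) (XT.lf (nat_lit 0) (nat_lit 126169046) (nat_lit 152) (nat_lit 3063117641) (nat_lit 228) (nat_lit 15471013727) (nat_lit 33) (nat_lit 5) (nat_lit 35) (nat_lit 5) (nat_lit 36) (nat_lit 5) (nat_lit 307) (nat_lit 266) (nat_lit 207))))))))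
noncomputable def xc125 : XT := (XT.nd (nat_lit 1638) (nat_lit 684) (nat_lit 0) (XT.nd (nat_lit 780) (nat_lit 532) (nat_lit 0) (XT.nd (nat_lit 390) (nat_lit 304) (nat_lit 0) (XT.nd (nat_lit 156) (nat_lit 380) (nat_lit 0) (XT.nd (nat_lit 78) (nat_lit 0) (nat_lit 0) (XT.lf (nat_lit 0) (nat_lit 7116694683) (nat_lit 228) (nat_lit 9594034027) (nat_lit 76) (nat_lit 2581572642) (nat_lit 33) (nat_lit 5) (nat_lit 36) (nat_lit 5) (nat_lit 34) (nat_lit 5) (nat_lit 308) (nat_lit 266) (nat_lit 206)) (XT.lf (nat_lit 0) (nat_lit 11262255265) (nat_lit 228) (nat_lit 303035854) (nat_lit 76) (nat_lit 8389546836) (nat_lit 33) (nat_lit 5) (nat_lit 36) (nat_lit 5) (nat_lit 34) (nat_lit 5) (nat_lit 309) (nat_lit 266) (nat_lit 205))) (XT.nd (nat_lit 78) (nat_lit 228) (nat_lit 0) (XT.lf (nat_lit 0) (nat_lit 9719906124) (nat_lit 152) (nat_lit 6019863813) (nat_lit 228) (nat_lit 4904521192) (nat_lit 31) (nat_lit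 5) (nat_lit 33) (nat_lit 5) (nat_lit 34) (nat_lit 5) (nat_lit 310) (nat_lit 266) (nat_lit 204)) (XT.nd (nat_lit 78) (nat_lit 228) (nat_lit 0) (XT.lf (nat_lit 0) (nat_lit 20211517021) (nat_lit 152) (nat_lit 208314610) (nat_lit 228) (nat_lit 949474197) (nat_lit 31) (nat_lit 5) (nat_lit 33) (nat_lit 5) (nat_lit 34) (nat_lit 5) (nat_lit 311) (nat_lit 266) (nat_lit 203)) (XT.lf (nat_lit 0) (nat_lit 3315378269) (nat_lit 228) (nat_lit 12914016452) (nat_lit 76) (nat_lit 5887967259) (nat_lit 28) (nat_lit 5) (nat_lit 31) (nat_lit 5) (nat_lit 29) (nat_lit 5) (nat_lit 312) (nat_lit 266) (nat_lit 202))))) (XT.nd (nat_lit 156) (nat_lit 152) (nat_lit 0) (XT.nd (nat_lit 78) (nat_lit 152) (nat_lit 0) (XT.lf (nat_lit 0) (nat_lit 7759601528) (nat_lit 228) (nat_lit 2840575506) (nat_lit 76) (nat_lit 12301983185) (nat_lit 28) (nat_lit 5) (nat_lit 31) (nat_lit 5) (nat_lit 29) (nat_lit 5) (nat_lit 313) (nat_lit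 266) (nat_lit 201)) (XT.lf (nat_lit 0) (nat_lit 7950856684) (nat_lit 152) (nat_lit 4575212117) (nat_lit 228) (nat_lit 11195146378) (nat_lit 26) (nat_lit 5) (nat_lit 28) (nat_lit 5) (nat_lit 29) (nat_lit 5) (nat_lit 314) (nat_lit 266) (nat_lit 200))) (XT.nd (nat_lit 78) (nat_lit 152) (nat_lit 0) (XT.lf (nat_lit 0) (nat_lit 17583272338) (nat_lit 228) (nat_lit 5266922831) (nat_lit 76) (nat_lit 1728424644) (nat_lit 26) (nat_lit 5) (nat_lit 29) (nat_lit 5) (nat_lit 27) (nat_lit 4) (nat_lit 315) (nat_lit 266) (nat_lit 199)) (XT.nd (nat_lit 78) (nat_lit 76) (nat_lit 0) (XT.lf (nat_lit 0) (nat_lit 5834903580) (nat_lit 76) (nat_lit 17201849158) (nat_lit 152) (nat_lit 2434987843) (nat_lit 25) (nat_lit 5) (nat_lit 26) (nat_lit 5) (nat_lit 27) (nat_lit 4) (nat_lit 316) (nat_lit 266) (nat_lit 198)) (XT.lf (nat_lit 0) (nat_lit 2346149851) (nat_lit 152) (nat_lit 8807256900) (nat_lit 76) (nat_lit 15250884500)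 (nat_lit 24) (nat_lit 5) (nat_lit 26) (nat_lit 5) (nat_lit 25) (nat_lit 5) (nat_lit 317) (nat_lit 266) (nat_lit 197)))))) (XT.nd (nat_lit 390) (nat_lit 304) (nat_lit 0) (XT.nd (nat_lit 156) (nat_lit 76) (nat_lit 0) (XT.nd (nat_lit 78) (nat_lit 0) (nat_lit 0) (XT.lf (nat_lit 0) (nat_lit 2569287994) (nat_lit 152) (nat_lit 4733836856) (nat_lit 228) (nat_lit 20077432572) (nat_lit 22) (nat_lit 5) (nat_lit 24) (nat_lit 5) (nat_lit 25) (nat_lit 5) (nat_lit 318) (nat_lit 266) (nat_lit 196)) (XT.lf (nat_lit 0) (nat_lit 12669598475) (nat_lit 228) (nat_lit 13648590867) (nat_lit 76) (nat_lit 2079378834) (nat_lit 22) (nat_lit 5) (nat_lit 25) (nat_lit 5) (nat_lit 23) (nat_lit 4) (nat_lit 319) (nat_lit 266) (nat_lit 195))) (XT.nd (nat_lit 78) (nat_lit 76) (nat_lit 0) (XT.lf (nat_lit 0) (nat_lit 18361732196) (nat_lit 228) (nat_lit 2040681663) (nat_lit 76) (nat_lit 9060161901) (nat_lit 22) (nat_lit 5)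 (nat_lit 25) (nat_lit 5) (nat_lit 23) (nat_lit 4) (nat_lit 320) (nat_lit 266) (nat_lit 194)) (XT.nd (nat_lit 78) (nat_lit 0) (nat_lit 0) (XT.lf (nat_lit 0) (nat_lit 10448419188) (nat_lit 76) (nat_lit 14033880171) (nat_lit 152) (nat_lit 6091355513) (nat_lit 21) (nat_lit 5) (nat_lit 22) (nat_lit 5) (nat_lit 23) (nat_lit 4) (nat_lit 321) (nat_lit 266) (nat_lit 193)) (XT.lf (nat_lit 0) (nat_lit 23599746697) (nat_lit 76) (nat_lit 7324808511) (nat_lit 152) (nat_lit 814961608) (nat_lit 21) (nat_lit 5) (nat_lit 22) (nat_lit 5) (nat_lit 23) (nat_lit 4) (nat_lit 322) (nat_lit 266) (nat_lit 192))))) (XT.nd (nat_lit 234) (nat_lit 76) (nat_lit 0) (XT.nd (nat_lit 78) (nat_lit 0) (nat_lit 0) (XT.lf (nat_lit 0) (nat_lit 4482546537) (nat_lit 152) (nat_lit 143147332) (nat_lit 228) (nat_lit 28331716083) (nat_lit 18) (nat_lit 5) (nat_lit 20) (nat_lit 5) (nat_lit 21) (nat_lit 5) (nat_lit 323) (nat_lit 266)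 (nat_lit 191)) (XT.nd (nat_lit 78) (nat_lit 0) (nat_lit 0) (XT.lf (nat_lit 0) (nat_lit 10548461312) (nat_lit 228) (nat_lit 16374141232) (nat_lit 76) (nat_lit 7301064111) (nat_lit 18) (nat_lit 5) (nat_lit 21) (nat_lit 5) (nat_lit 19) (nat_lit 4) (nat_lit 324) (nat_lit 266) (nat_lit 190)) (XT.lf (nat_lit 0) (nat_lit 16752436877) (nat_lit 228) (nat_lit 3701484288) (nat_lit 76) (nat_lit 15100071325) (nat_lit 18) (nat_lit 5) (nat_lit 21) (nat_lit 5) (nat_lit 19) (nat_lit 4) (nat_lit 325) (nat_lit 266) (nat_lit 189)))) (XT.nd (nat_lit 78) (nat_lit 0) (nat_lit 0) (XT.lf (nat_lit 0) (nat_lit 9892125121) (nat_lit 76) (nat_lit 13512475679) (nat_lit 152) (nat_lit 13539343657) (nat_lit 17) (nat_lit 5) (nat_lit 18) (nat_lit 5) (nat_lit 19) (nat_lit 4) (nat_lit 326) (nat_lit 266) (nat_lit 188)) (XT.nd (nat_lit 78) (nat_lit 0) (nat_lit 0) (XT.lf (nat_lit 0) (nat_lit 24265104438) (nat_lit 76) (nat_lit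 6170834303) (nat_lit 152) (nat_lit 7965135866) (nat_lit 17) (nat_lit 5) (nat_lit 18) (nat_lit 5) (nat_lit 19) (nat_lit 4) (nat_lit 327) (nat_lit 266) (nat_lit 187)) (XT.lf (nat_lit 0) (nat_lit 37827312581) (nat_lit 152) (nat_lit 626372072) (nat_lit 0) (nat_lit 1476961613) (nat_lit 17) (nat_lit 5) (nat_lit 19) (nat_lit 4) (nat_lit 17) (nat_lit 4) (nat_lit 328) (nat_lit 266) (nat_lit 186))))))) (XT.nd (nat_lit 780) (nat_lit 228) (nat_lit 0) (XT.nd (nat_lit 390) (nat_lit 228) (nat_lit 0) (XT.nd (nat_lit 156) (nat_lit 76) (nat_lit 0) (XT.nd (nat_lit 78) (nat_lit 0) (nat_lit 0) (XT.lf (nat_lit 0) (nat_lit 4229828725) (nat_lit 152) (nat_lit 27714847009) (nat_lit 76) (nat_lit 9573468366) (nat_lit 15) (nat_lit 5) (nat_lit 17) (nat_lit 5) (nat_lit 16) (nat_lit 4) (nat_lit 329) (nat_lit 266) (nat_lit 185)) (XT.lf (nat_lit 0) (nat_lit 10804993089) (nat_lit 152) (nat_lit 14269707613) (nat_lit 76)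 (nat_lit 18108797899) (nat_lit 15) (nat_lit 5) (nat_lit 17) (nat_lit 5) (nat_lit 16) (nat_lit 4) (nat_lit 330) (nat_lit 266) (nat_lit 184))) (XT.nd (nat_lit 78) (nat_lit 76) (nat_lit 0) (XT.lf (nat_lit 0) (nat_lit 17694865979) (nat_lit 152) (nat_lit 177799190) (nat_lit 76) (nat_lit 27060165098) (nat_lit 15) (nat_lit 5) (nat_lit 17) (nat_lit 5) (nat_lit 16) (nat_lit 4) (nat_lit 331) (nat_lit 266) (nat_lit 183)) (XT.nd (nat_lit 78) (nat_lit 0) (nat_lit 0) (XT.lf (nat_lit 0) (nat_lit 15076988203) (nat_lit 76) (nat_lit 10074257689) (nat_lit 152) (nat_lit 21607288576) (nat_lit 14) (nat_lit 5) (nat_lit 15) (nat_lit 5) (nat_lit 16) (nat_lit 4) (nat_lit 332) (nat_lit 266) (nat_lit 182)) (XT.lf (nat_lit 0) (nat_lit 31076805041) (nat_lit 76) (nat_lit 1893534514) (nat_lit 152) (nat_lit 15705695895) (nat_lit 14) (nat_lit 5) (nat_lit 15) (nat_lit 5) (nat_lit 16) (nat_lit 4) (nat_lit 333) (nat_lit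 266) (nat_lit 181))))) (XT.nd (nat_lit 156) (nat_lit 152) (nat_lit 0) (XT.nd (nat_lit 78) (nat_lit 76) (nat_lit 0) (XT.lf (nat_lit 0) (nat_lit 41272282875) (nat_lit 152) (nat_lit 2940561543) (nat_lit 0) (nat_lit 6471978321) (nat_lit 14) (nat_lit 5) (nat_lit 16) (nat_lit 4) (nat_lit 14) (nat_lit 4) (nat_lit 334) (nat_lit 266) (nat_lit 180)) (XT.lf (nat_lit 0) (nat_lit 12807818986) (nat_lit 76) (nat_lit 37400462480) (nat_lit 76) (nat_lit 2574825741) (nat_lit 13) (nat_lit 4) (nat_lit 14) (nat_lit 5) (nat_lit 14) (nat_lit 4) (nat_lit 335) (nat_lit 266) (nat_lit 179))) (XT.nd (nat_lit 78) (nat_lit 76) (nat_lit 0) (XT.lf (nat_lit 0) (nat_lit 4495994567) (nat_lit 152) (nat_lit 25632973767) (nat_lit 76) (nat_lit 24851817984) (nat_lit 12) (nat_lit 5) (nat_lit 14) (nat_lit 5) (nat_lit 13) (nat_lit 4) (nat_lit 336) (nat_lit 266) (nat_lit 178)) (XT.nd (nat_lit 78) (nat_lit 76) (nat_lit 0) (XT.lf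 (nat_lit 0) (nat_lit 11822382751) (nat_lit 152) (nat_lit 10636855028) (nat_lit 76) (nat_lit 34827578138) (nat_lit 12) (nat_lit 5) (nat_lit 14) (nat_lit 5) (nat_lit 13) (nat_lit 4) (nat_lit 337) (nat_lit 266) (nat_lit 177)) (XT.lf (nat_lit 0) (nat_lit 5257237726) (nat_lit 76) (nat_lit 14329035585) (nat_lit 152) (nat_lit 40118319244) (nat_lit 11) (nat_lit 5) (nat_lit 12) (nat_lit 5) (nat_lit 13) (nat_lit 4) (nat_lit 338) (nat_lit 266) (nat_lit 176)))))) (XT.nd (nat_lit 390) (nat_lit 152) (nat_lit 0) (XT.nd (nat_lit 156) (nat_lit 76) (nat_lit 0) (XT.nd (nat_lit 78) (nat_lit 0) (nat_lit 0) (XT.lf (nat_lit 0) (nat_lit 22295550479) (nat_lit 76) (nat_lit 5612261176) (nat_lit 152) (nat_lit 34326978190) (nat_lit 11) (nat_lit 5) (nat_lit 12) (nat_lit 5) (nat_lit 13) (nat_lit 4) (nat_lit 339) (nat_lit 266) (nat_lit 175)) (XT.lf (nat_lit 0) (nat_lit 36690388516) (nat_lit 152) (nat_lit 24780201722)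 (nat_lit 0) (nat_lit 3418662950) (nat_lit 11) (nat_lit 5) (nat_lit 13) (nat_lit 4) (nat_lit 11) (nat_lit 4) (nat_lit 340) (nat_lit 266) (nat_lit 174))) (XT.nd (nat_lit 78) (nat_lit 76) (nat_lit 0) (XT.lf (nat_lit 0) (nat_lit 45994276391) (nat_lit 152) (nat_lit 8973510550) (nat_lit 0) (nat_lit 12704547714) (nat_lit 11) (nat_lit 5) (nat_lit 13) (nat_lit 4) (nat_lit 11) (nat_lit 4) (nat_lit 341) (nat_lit 266) (nat_lit 173)) (XT.nd (nat_lit 78) (nat_lit 0) (nat_lit 0) (XT.lf (nat_lit 0) (nat_lit 7857584013) (nat_lit 76) (nat_lit 48019099163) (nat_lit 76) (nat_lit 14712224666) (nat_lit 10) (nat_lit 4) (nat_lit 11) (nat_lit 5) (nat_lit 11) (nat_lit 4) (nat_lit 342) (nat_lit 266) (nat_lit 172)) (XT.lf (nat_lit 0) (nat_lit 25824631417) (nat_lit 76) (nat_lit 40571373050) (nat_lit 76) (nat_lit 7248169200) (nat_lit 10) (nat_lit 4) (nat_lit 11) (nat_lit 5) (nat_lit 11) (nat_lit 4) (nat_lit 343)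 (nat_lit 266) (nat_lit 171))))) (XT.nd (nat_lit 234) (nat_lit 0) (nat_lit 0) (XT.nd (nat_lit 78) (nat_lit 76) (nat_lit 0) (XT.lf (nat_lit 0) (nat_lit 561348240) (nat_lit 152) (nat_lit 32187991720) (nat_lit 76) (nat_lit 44102850617) (nat_lit 9) (nat_lit 5) (nat_lit 11) (nat_lit 5) (nat_lit 10) (nat_lit 4) (nat_lit 344) (nat_lit 266) (nat_lit 170)) (XT.nd (nat_lit 78) (nat_lit 76) (nat_lit 0) (XT.lf (nat_lit 0) (nat_lit 8509292427) (nat_lit 152) (nat_lit 15909517342) (nat_lit 76) (nat_lit 55796283782) (nat_lit 9) (nat_lit 5) (nat_lit 11) (nat_lit 5) (nat_lit 10) (nat_lit 4) (nat_lit 345) (nat_lit 266) (nat_lit 169)) (XT.lf (nat_lit 0) (nat_lit 1206416243) (nat_lit 76) (nat_lit 15658993009) (nat_lit 152) (nat_lit 66880196682) (nat_lit 8) (nat_lit 5) (nat_lit 9) (nat_lit 5) (nat_lit 10) (nat_lit 4) (nat_lit 346) (nat_lit 266) (nat_lit 168)))) (XT.nd (nat_lit 78) (nat_lit 0) (nat_lit 0) (XT.lf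 (nat_lit 0) (nat_lit 19715654844) (nat_lit 76) (nat_lit 6185204555) (nat_lit 152) (nat_lit 61538711055) (nat_lit 8) (nat_lit 5) (nat_lit 9) (nat_lit 5) (nat_lit 10) (nat_lit 4) (nat_lit 347) (nat_lit 266) (nat_lit 167)) (XT.nd (nat_lit 78) (nat_lit 0) (nat_lit 0) (XT.lf (nat_lit 0) (nat_lit 35439187364) (nat_lit 152) (nat_lit 52241021576) (nat_lit 0) (nat_lit 3635471745) (nat_lit 8) (nat_lit 5) (nat_lit 10) (nat_lit 4) (nat_lit 8) (nat_lit 4) (nat_lit 348) (nat_lit 266) (nat_lit 166)) (XT.lf (nat_lit 0) (nat_lit 45548557743) (nat_lit 152) (nat_lit 36099097847) (nat_lit 0) (nat_lit 13733237158) (nat_lit 8) (nat_lit 5) (nat_lit 10) (nat_lit 4) (nat_lit 8) (nat_lit 4) (nat_lit 349) (nat_lit 266) (nat_lit 165))))))))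
noncomputable def xc126 : XT := (XT.nd (nat_lit 1560) (nat_lit 152) (nat_lit 0) (XT.nd (nat_lit 780) (nat_lit 76) (nat_lit 0) (XT.nd (nat_lit 390) (nat_lit 152) (nat_lit 0) (XT.nd (nat_lit 156) (nat_lit 76) (nat_lit 0) (XT.nd (nat_lit 78) (nat_lit 0) (nat_lit 0) (XT.lf (nat_lit 0) (nat_lit 56156472088) (nat_lit 152) (nat_lit 19163142895) (nat_lit 0) (nat_lit 24330099155) (nat_lit 8) (nat_lit 5) (nat_lit 10) (nat_lit 4) (nat_lit 8) (nat_lit 4) (nat_lit 350) (nat_lit 266) (nat_lit 164)) (XT.lf (nat_lit 0) (nat_lit 67288187339) (nat_lit 152) (nat_lit 1392833017) (nat_lit 0) (nat_lit 35451288359) (nat_lit 8) (nat_lit 5) (nat_lit 10) (nat_lit 4) (nat_lit 8) (nat_lit 4) (nat_lit 351) (nat_lit 266) (nat_lit 163))) (XT.nd (nat_lit 78) (nat_lit 0) (nat_lit 0) (XT.lf (nat_lit 0) (nat_lit 17824641907) (nat_lit 76) (nat_lit 61423858286) (nat_lit 76) (nat_lit 29576934500) (nat_lit 7) (nat_lit 4)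 (nat_lit 8) (nat_lit 5) (nat_lit 8) (nat_lit 4) (nat_lit 352) (nat_lit 266) (nat_lit 162)) (XT.nd (nat_lit 78) (nat_lit 0) (nat_lit 0) (XT.lf (nat_lit 0) (nat_lit 38039687422) (nat_lit 76) (nat_lit 53784565847) (nat_lit 76) (nat_lit 21928094627) (nat_lit 7) (nat_lit 4) (nat_lit 8) (nat_lit 5) (nat_lit 8) (nat_lit 4) (nat_lit 353) (nat_lit 266) (nat_lit 161)) (XT.lf (nat_lit 0) (nat_lit 59254381239) (nat_lit 76) (nat_lit 45768542550) (nat_lit 76) (nat_lit 13902978535) (nat_lit 7) (nat_lit 4) (nat_lit 8) (nat_lit 5) (nat_lit 8) (nat_lit 4) (nat_lit 354) (nat_lit 266) (nat_lit 160))))) (XT.nd (nat_lit 156) (nat_lit 76) (nat_lit 0) (XT.nd (nat_lit 78) (nat_lit 76) (nat_lit 0) (XT.lf (nat_lit 0) (nat_lit 81519234534) (nat_lit 76) (nat_lit 37356702624) (nat_lit 76) (nat_lit 5482478805) (nat_lit 7) (nat_lit 4) (nat_lit 8) (nat_lit 5) (nat_lit 8) (nat_lit 4) (nat_lit 355) (nat_lit 266) (nat_lit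 159)) (XT.lf (nat_lit 0) (nat_lit 3246121921) (nat_lit 152) (nat_lit 25227921312) (nat_lit 76) (nat_lit 101586162296) (nat_lit 6) (nat_lit 5) (nat_lit 8) (nat_lit 5) (nat_lit 7) (nat_lit 4) (nat_lit 356) (nat_lit 266) (nat_lit 158))) (XT.nd (nat_lit 78) (nat_lit 76) (nat_lit 0) (XT.lf (nat_lit 0) (nat_lit 12221749690) (nat_lit 152) (nat_lit 6835739083) (nat_lit 76) (nat_lit 116985361442) (nat_lit 6) (nat_lit 5) (nat_lit 8) (nat_lit 5) (nat_lit 7) (nat_lit 4) (nat_lit 357) (nat_lit 266) (nat_lit 157)) (XT.nd (nat_lit 78) (nat_lit 0) (nat_lit 0) (XT.lf (nat_lit 0) (nat_lit 12878960183) (nat_lit 76) (nat_lit 8963365083) (nat_lit 152) (nat_lit 120472495158) (nat_lit 5) (nat_lit 5) (nat_lit 6) (nat_lit 5) (nat_lit 7) (nat_lit 4) (nat_lit 358) (nat_lit 266) (nat_lit 156)) (XT.lf (nat_lit 0) (nat_lit 32082241301) (nat_lit 152) (nat_lit 115114641113) (nat_lit 0) (nat_lit 1696592676) (nat_lit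 5) (nat_lit 5) (nat_lit 7) (nat_lit 4) (nat_lit 5) (nat_lit 4) (nat_lit 359) (nat_lit 266) (nat_lit 155)))))) (XT.nd (nat_lit 390) (nat_lit 76) (nat_lit 0) (XT.nd (nat_lit 156) (nat_lit 0) (nat_lit 0) (XT.nd (nat_lit 78) (nat_lit 0) (nat_lit 0) (XT.lf (nat_lit 0) (nat_lit 42976439386) (nat_lit 152) (nat_lit 100233181569) (nat_lit 0) (nat_lit 12584328682) (nat_lit 5) (nat_lit 5) (nat_lit 7) (nat_lit 4) (nat_lit 5) (nat_lit 4) (nat_lit 360) (nat_lit 266) (nat_lit 154)) (XT.lf (nat_lit 0) (nat_lit 54410914840) (nat_lit 152) (nat_lit 84616106314) (nat_lit 0) (nat_lit 24012649775) (nat_lit 5) (nat_lit 5) (nat_lit 7) (nat_lit 4) (nat_lit 5) (nat_lit 4) (nat_lit 361) (nat_lit 266) (nat_lit 153))) (XT.nd (nat_lit 78) (nat_lit 0) (nat_lit 0) (XT.lf (nat_lit 0) (nat_lit 66412892604) (nat_lit 152) (nat_lit 68226231835) (nat_lit 0) (nat_lit 36008766243) (nat_lit 5) (nat_lit 5) (nat_lit 7) (nat_lit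 4) (nat_lit 5) (nat_lit 4) (nat_lit 362) (nat_lit 266) (nat_lit 152)) (XT.nd (nat_lit 78) (nat_lit 0) (nat_lit 0) (XT.lf (nat_lit 0) (nat_lit 79010948817) (nat_lit 152) (nat_lit 51024534621) (nat_lit 0) (nat_lit 48601240268) (nat_lit 5) (nat_lit 5) (nat_lit 7) (nat_lit 4) (nat_lit 5) (nat_lit 4) (nat_lit 363) (nat_lit 266) (nat_lit 151)) (XT.lf (nat_lit 0) (nat_lit 92235078848) (nat_lit 152) (nat_lit 32970058250) (nat_lit 0) (nat_lit 61820053932) (nat_lit 5) (nat_lit 5) (nat_lit 7) (nat_lit 4) (nat_lit 5) (nat_lit 4) (nat_lit 364) (nat_lit 266) (nat_lit 150))))) (XT.nd (nat_lit 156) (nat_lit 0) (nat_lit 0) (XT.nd (nat_lit 78) (nat_lit 76) (nat_lit 0) (XT.lf (nat_lit 0) (nat_lit 106116768724) (nat_lit 152) (nat_lit 14019815875) (nat_lit 0) (nat_lit 75696680599) (nat_lit 5) (nat_lit 5) (nat_lit 7) (nat_lit 4) (nat_lit 5) (nat_lit 4) (nat_lit 365) (nat_lit 266) (nat_lit 149)) (XT.lf (nat_lit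 0) (nat_lit 6065444224) (nat_lit 76) (nat_lit 114718324444) (nat_lit 76) (nat_lit 84293414216) (nat_lit 4) (nat_lit 4) (nat_lit 5) (nat_lit 5) (nat_lit 5) (nat_lit 4) (nat_lit 366) (nat_lit 266) (nat_lit 148))) (XT.nd (nat_lit 78) (nat_lit 0) (nat_lit 0) (XT.lf (nat_lit 0) (nat_lit 27635184069) (nat_lit 76) (nat_lit 108782957491) (nat_lit 76) (nat_lit 78353454784) (nat_lit 4) (nat_lit 4) (nat_lit 5) (nat_lit 5) (nat_lit 5) (nat_lit 4) (nat_lit 367) (nat_lit 266) (nat_lit 147)) (XT.nd (nat_lit 78) (nat_lit 0) (nat_lit 0) (XT.lf (nat_lit 0) (nat_lit 50277201753) (nat_lit 76) (nat_lit 102553784280) (nat_lit 76) (nat_lit 72119907784) (nat_lit 4) (nat_lit 4) (nat_lit 5) (nat_lit 5) (nat_lit 5) (nat_lit 4) (nat_lit 368) (nat_lit 266) (nat_lit 146)) (XT.lf (nat_lit 0) (nat_lit 74045406843) (nat_lit 76) (nat_lit 96015973447) (nat_lit 76) (nat_lit 65577931437) (nat_lit 4) (nat_lit 4) (nat_lit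 5) (nat_lit 5) (nat_lit 5) (nat_lit 4) (nat_lit 369) (nat_lit 266) (nat_lit 145))))))) (XT.nd (nat_lit 780) (nat_lit 0) (nat_lit 0) (XT.nd (nat_lit 390) (nat_lit 152) (nat_lit 0) (XT.nd (nat_lit 156) (nat_lit 0) (nat_lit 0) (XT.nd (nat_lit 78) (nat_lit 0) (nat_lit 0) (XT.lf (nat_lit 0) (nat_lit 98996390303) (nat_lit 76) (nat_lit 89153958776) (nat_lit 76) (nat_lit 58711949609) (nat_lit 4) (nat_lit 4) (nat_lit 5) (nat_lit 5) (nat_lit 5) (nat_lit 4) (nat_lit 370) (nat_lit 266) (nat_lit 144)) (XT.lf (nat_lit 0) (nat_lit 125189559236) (nat_lit 76) (nat_lit 81951402135) (nat_lit 76) (nat_lit 51505614725) (nat_lit 4) (nat_lit 4) (nat_lit 5) (nat_lit 5) (nat_lit 5) (nat_lit 4) (nat_lit 371) (nat_lit 266) (nat_lit 143))) (XT.nd (nat_lit 78) (nat_lit 0) (nat_lit 0) (XT.lf (nat_lit 0) (nat_lit 152687278331) (nat_lit 76) (nat_lit 74391154581) (nat_lit 76) (nat_lit 43941768843) (nat_lit 4) (nat_lit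 4) (nat_lit 5) (nat_lit 5) (nat_lit 5) (nat_lit 4) (nat_lit 372) (nat_lit 266) (nat_lit 142)) (XT.nd (nat_lit 78) (nat_lit 0) (nat_lit 0) (XT.lf (nat_lit 0) (nat_lit 181555018348) (nat_lit 76) (nat_lit 66455215525) (nat_lit 76) (nat_lit 36002402808) (nat_lit 4) (nat_lit 4) (nat_lit 5) (nat_lit 5) (nat_lit 5) (nat_lit 4) (nat_lit 373) (nat_lit 266) (nat_lit 141)) (XT.lf (nat_lit 0) (nat_lit 211861511999) (nat_lit 76) (nat_lit 58124689873) (nat_lit 76) (nat_lit 27668613367) (nat_lit 4) (nat_lit 4) (nat_lit 5) (nat_lit 5) (nat_lit 5) (nat_lit 4) (nat_lit 374) (nat_lit 266) (nat_lit 140))))) (XT.nd (nat_lit 156) (nat_lit 152) (nat_lit 0) (XT.nd (nat_lit 78) (nat_lit 0) (nat_lit 0) (XT.lf (nat_lit 0) (nat_lit 243678917605) (nat_lit 76) (nat_lit 49379743040) (nat_lit 76) (nat_lit 18920558163) (nat_lit 4) (nat_lit 4) (nat_lit 5) (nat_lit 5) (nat_lit 5) (nat_lit 4) (nat_lit 375) (nat_lit 266)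 (nat_lit 139)) (XT.lf (nat_lit 0) (nat_lit 277082990893) (nat_lit 76) (nat_lit 40199553725) (nat_lit 76) (nat_lit 9737408495) (nat_lit 4) (nat_lit 4) (nat_lit 5) (nat_lit 5) (nat_lit 5) (nat_lit 4) (nat_lit 376) (nat_lit 266) (nat_lit 138))) (XT.nd (nat_lit 78) (nat_lit 152) (nat_lit 0) (XT.lf (nat_lit 0) (nat_lit 312153265369) (nat_lit 76) (nat_lit 30562264333) (nat_lit 76) (nat_lit 97299720) (nat_lit 4) (nat_lit 4) (nat_lit 5) (nat_lit 5) (nat_lit 5) (nat_lit 4) (nat_lit 377) (nat_lit 266) (nat_lit 137)) (XT.nd (nat_lit 78) (nat_lit 76) (nat_lit 0) (XT.lf (nat_lit 0) (nat_lit 9701931142) (nat_lit 152) (nat_lit 10578690897) (nat_lit 76) (nat_lit 339107003647) (nat_lit 3) (nat_lit 5) (nat_lit 5) (nat_lit 5) (nat_lit 4) (nat_lit 4) (nat_lit 378) (nat_lit 266) (nat_lit 136)) (XT.lf (nat_lit 0) (nat_lit 10848144477) (nat_lit 76) (nat_lit 9307148928) (nat_lit 152) (nat_lit 356627417168)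 (nat_lit 2) (nat_lit 5) (nat_lit 3) (nat_lit 5) (nat_lit 4) (nat_lit 4) (nat_lit 379) (nat_lit 266) (nat_lit 135)))))) (XT.nd (nat_lit 390) (nat_lit 0) (nat_lit 0) (XT.nd (nat_lit 156) (nat_lit 0) (nat_lit 0) (XT.nd (nat_lit 78) (nat_lit 0) (nat_lit 0) (XT.lf (nat_lit 0) (nat_lit 31346076144) (nat_lit 152) (nat_lit 361366224602) (nat_lit 0) (nat_lit 2324511863) (nat_lit 2) (nat_lit 5) (nat_lit 4) (nat_lit 4) (nat_lit 2) (nat_lit 4) (nat_lit 380) (nat_lit 266) (nat_lit 134)) (XT.lf (nat_lit 0) (nat_lit 43247143581) (nat_lit 152) (nat_lit 356725569146) (nat_lit 0) (nat_lit 14223370240) (nat_lit 2) (nat_lit 5) (nat_lit 4) (nat_lit 4) (nat_lit 2) (nat_lit 4) (nat_lit 381) (nat_lit 266) (nat_lit 133))) (XT.nd (nat_lit 78) (nat_lit 0) (nat_lit 0) (XT.lf (nat_lit 0) (nat_lit 55741520915) (nat_lit 152) (nat_lit 351856239871) (nat_lit 0) (nat_lit 26715643706) (nat_lit 2) (nat_lit 5) (nat_lit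 4) (nat_lit 4) (nat_lit 2) (nat_lit 4) (nat_lit 382) (nat_lit 266) (nat_lit 132)) (XT.nd (nat_lit 78) (nat_lit 0) (nat_lit 0) (XT.lf (nat_lit 0) (nat_lit 68858956662) (nat_lit 152) (nat_lit 346746643137) (nat_lit 0) (nat_lit 39831075769) (nat_lit 2) (nat_lit 5) (nat_lit 4) (nat_lit 4) (nat_lit 2) (nat_lit 4) (nat_lit 383) (nat_lit 266) (nat_lit 131)) (XT.lf (nat_lit 0) (nat_lit 82630682812) (nat_lit 152) (nat_lit 341384613236) (nat_lit 0) (nat_lit 53600893650) (nat_lit 2) (nat_lit 5) (nat_lit 4) (nat_lit 4) (nat_lit 2) (nat_lit 4) (nat_lit 384) (nat_lit 266) (nat_lit 130))))) (XT.nd (nat_lit 234) (nat_lit 0) (nat_lit 0) (XT.nd (nat_lit 78) (nat_lit 0) (nat_lit 0) (XT.lf (nat_lit 0) (nat_lit 97089489191) (nat_lit 152) (nat_lit 335757383431) (nat_lit 0) (nat_lit 68057882628) (nat_lit 2) (nat_lit 5) (nat_lit 4) (nat_lit 4) (nat_lit 2) (nat_lit 4) (nat_lit 385) (nat_lit 266) (nat_lit 129))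 (XT.nd (nat_lit 78) (nat_lit 0) (nat_lit 0) (XT.lf (nat_lit 0) (nat_lit 112269801526) (nat_lit 152) (nat_lit 329851555556) (nat_lit 0) (nat_lit 83236464106) (nat_lit 2) (nat_lit 5) (nat_lit 4) (nat_lit 4) (nat_lit 2) (nat_lit 4) (nat_lit 386) (nat_lit 266) (nat_lit 128)) (XT.lf (nat_lit 0) (nat_lit 128207763419) (nat_lit 152) (nat_lit 323653068115) (nat_lit 0) (nat_lit 99172777564) (nat_lit 2) (nat_lit 5) (nat_lit 4) (nat_lit 4) (nat_lit 2) (nat_lit 4) (nat_lit 387) (nat_lit 266) (nat_lit 127)))) (XT.nd (nat_lit 31200) (nat_lit 0) (nat_lit 8892) (XT.lf (nat_lit 0) (nat_lit 144941322398) (nat_lit 152) (nat_lit 317147162805) (nat_lit 0) (nat_lit 115904766605) (nat_lit 2) (nat_lit 5) (nat_lit 4) (nat_lit 4) (nat_lit 2) (nat_lit 4) (nat_lit 388) (nat_lit 266) (nat_lit 126)) (XT.nd (nat_lit 78) (nat_lit 532) (nat_lit 0) (XT.lf (nat_lit 0) (nat_lit 1700503685) (nat_lit 0) (nat_lit 1700503685)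 (nat_lit 380) (nat_lit 108510033) (nat_lit 126) (nat_lit 5) (nat_lit 126) (nat_lit 3) (nat_lit 131) (nat_lit 3) (nat_lit 267) (nat_lit 267) (nat_lit 246)) (XT.lf (nat_lit 0) (nat_lit 1489868095) (nat_lit 532) (nat_lit 347004842) (nat_lit 532) (nat_lit 5268725419) (nat_lit 119) (nat_lit 3) (nat_lit 126) (nat_lit 3) (nat_lit 126) (nat_lit 5) (nat_lit 268) (nat_lit 267) (nat_lit 245))))))))
noncomputable def xc127 : XT := (XT.nd (nat_lit 1638) (nat_lit 2508) (nat_lit 0) (XT.nd (nat_lit 780) (nat_lit 2660) (nat_lit 0) (XT.nd (nat_lit 390) (nat_lit 1064) (nat_lit 0) (XT.nd (nat_lit 156) (nat_lit 456) (nat_lit 0) (XT.nd (nat_lit 78) (nat_lit 0) (nat_lit 76) (XT.lf (nat_lit 76) (nat_lit 3126655513) (nat_lit 0) (nat_lit 87813994) (nat_lit 532) (nat_lit 3985104514) (nat_lit 120) (nat_lit 5) (nat_lit 119) (nat_lit 3) (nat_lit 126) (nat_lit 5) (nat_lit 269) (nat_lit 267) (nat_lit 244)) (XT.lf (nat_lit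 0) (nat_lit 4954492690) (nat_lit 456) (nat_lit 602038675) (nat_lit 532) (nat_lit 1745490785) (nat_lit 120) (nat_lit 5) (nat_lit 126) (nat_lit 5) (nat_lit 127) (nat_lit 5) (nat_lit 270) (nat_lit 267) (nat_lit 243))) (XT.nd (nat_lit 78) (nat_lit 532) (nat_lit 0) (XT.lf (nat_lit 76) (nat_lit 3079773035) (nat_lit 0) (nat_lit 3652140402) (nat_lit 532) (nat_lit 680381587) (nat_lit 121) (nat_lit 5) (nat_lit 120) (nat_lit 5) (nat_lit 127) (nat_lit 5) (nat_lit 271) (nat_lit 267) (nat_lit 242)) (XT.nd (nat_lit 78) (nat_lit 0) (nat_lit 76) (XT.lf (nat_lit 0) (nat_lit 949144042) (nat_lit 532) (nat_lit 640062461) (nat_lit 608) (nat_lit 5942577609) (nat_lit 113) (nat_lit 5) (nat_lit 120) (nat_lit 5) (nat_lit 121) (nat_lit 5) (nat_lit 272) (nat_lit 267) (nat_lit 241)) (XT.lf (nat_lit 0) (nat_lit 2606432589) (nat_lit 532) (nat_lit 4398158886) (nat_lit 608) (nat_lit 653832803) (nat_lit 114) (nat_lit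 5) (nat_lit 121) (nat_lit 5) (nat_lit 122) (nat_lit 5) (nat_lit 273) (nat_lit 267) (nat_lit 240))))) (XT.nd (nat_lit 156) (nat_lit 1140) (nat_lit 0) (XT.nd (nat_lit 78) (nat_lit 0) (nat_lit 0) (XT.lf (nat_lit 0) (nat_lit 4295159784) (nat_lit 532) (nat_lit 502640190) (nat_lit 608) (nat_lit 2996350537) (nat_lit 114) (nat_lit 5) (nat_lit 121) (nat_lit 5) (nat_lit 122) (nat_lit 5) (nat_lit 274) (nat_lit 267) (nat_lit 239)) (XT.lf (nat_lit 76) (nat_lit 3643914240) (nat_lit 0) (nat_lit 2397019083) (nat_lit 608) (nat_lit 1897273299) (nat_lit 115) (nat_lit 5) (nat_lit 114) (nat_lit 5) (nat_lit 122) (nat_lit 5) (nat_lit 275) (nat_lit 267) (nat_lit 238))) (XT.nd (nat_lit 78) (nat_lit 1216) (nat_lit 0) (XT.lf (nat_lit 0) (nat_lit 7803725172) (nat_lit 532) (nat_lit 139825885) (nat_lit 76) (nat_lit 149593779) (nat_lit 115) (nat_lit 5) (nat_lit 122) (nat_lit 5) (nat_lit 116) (nat_lit 5) (nat_lit 276)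 (nat_lit 267) (nat_lit 237)) (XT.nd (nat_lit 78) (nat_lit 608) (nat_lit 0) (XT.lf (nat_lit 0) (nat_lit 1383151128) (nat_lit 608) (nat_lit 4018407062) (nat_lit 76) (nat_lit 2851875371) (nat_lit 107) (nat_lit 5) (nat_lit 115) (nat_lit 5) (nat_lit 108) (nat_lit 5) (nat_lit 277) (nat_lit 267) (nat_lit 236)) (XT.lf (nat_lit 0) (nat_lit 355888533) (nat_lit 608) (nat_lit 2706061824) (nat_lit 684) (nat_lit 5363076027) (nat_lit 99) (nat_lit 5) (nat_lit 107) (nat_lit 5) (nat_lit 108) (nat_lit 5) (nat_lit 278) (nat_lit 267) (nat_lit 235)))))) (XT.nd (nat_lit 390) (nat_lit 1368) (nat_lit 0) (XT.nd (nat_lit 156) (nat_lit 608) (nat_lit 0) (XT.nd (nat_lit 78) (nat_lit 684) (nat_lit 0) (XT.lf (nat_lit 0) (nat_lit 4822980114) (nat_lit 684) (nat_lit 3581973822) (nat_lit 76) (nat_lit 200466768) (nat_lit 99) (nat_lit 5) (nat_lit 108) (nat_lit 5) (nat_lit 100) (nat_lit 5) (nat_lit 279) (nat_lit 267) (nat_lit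 234)) (XT.lf (nat_lit 0) (nat_lit 1056593180) (nat_lit 684) (nat_lit 5606975761) (nat_lit 760) (nat_lit 2131820313) (nat_lit 90) (nat_lit 5) (nat_lit 99) (nat_lit 5) (nat_lit 100) (nat_lit 5) (nat_lit 280) (nat_lit 267) (nat_lit 233))) (XT.nd (nat_lit 78) (nat_lit 608) (nat_lit 0) (XT.lf (nat_lit 0) (nat_lit 5990042069) (nat_lit 684) (nat_lit 2599800839) (nat_lit 760) (nat_lit 405454244) (nat_lit 90) (nat_lit 5) (nat_lit 99) (nat_lit 5) (nat_lit 100) (nat_lit 5) (nat_lit 281) (nat_lit 267) (nat_lit 232)) (XT.nd (nat_lit 78) (nat_lit 0) (nat_lit 0) (XT.lf (nat_lit 0) (nat_lit 1337204452) (nat_lit 608) (nat_lit 7271089951) (nat_lit 76) (nat_lit 597168981) (nat_lit 82) (nat_lit 5) (nat_lit 90) (nat_lit 5) (nat_lit 83) (nat_lit 5) (nat_lit 282) (nat_lit 267) (nat_lit 231)) (XT.lf (nat_lit 0) (nat_lit 3184952215) (nat_lit 608) (nat_lit 2311431631) (nat_lit 76) (nat_lit 3927949502) (nat_lit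 82) (nat_lit 5) (nat_lit 90) (nat_lit 5) (nat_lit 83) (nat_lit 5) (nat_lit 283) (nat_lit 267) (nat_lit 230))))) (XT.nd (nat_lit 234) (nat_lit 684) (nat_lit 0) (XT.nd (nat_lit 78) (nat_lit 304) (nat_lit 0) (XT.lf (nat_lit 0) (nat_lit 2929931725) (nat_lit 380) (nat_lit 2181121579) (nat_lit 456) (nat_lit 4543896983) (nat_lit 77) (nat_lit 5) (nat_lit 82) (nat_lit 5) (nat_lit 83) (nat_lit 5) (nat_lit 284) (nat_lit 267) (nat_lit 229)) (XT.nd (nat_lit 78) (nat_lit 304) (nat_lit 0) (XT.lf (nat_lit 0) (nat_lit 7135667908) (nat_lit 456) (nat_lit 1464522550) (nat_lit 76) (nat_lit 1296894119) (nat_lit 77) (nat_lit 5) (nat_lit 83) (nat_lit 5) (nat_lit 78) (nat_lit 5) (nat_lit 285) (nat_lit 267) (nat_lit 228)) (XT.lf (nat_lit 0) (nat_lit 4095213820) (nat_lit 304) (nat_lit 5210875545) (nat_lit 380) (nat_lit 843099720) (nat_lit 73) (nat_lit 5) (nat_lit 77) (nat_lit 5) (nat_lit 78) (nat_lit 5) (nat_lit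 286) (nat_lit 267) (nat_lit 227)))) (XT.nd (nat_lit 78) (nat_lit 608) (nat_lit 0) (XT.lf (nat_lit 0) (nat_lit 1104497046) (nat_lit 380) (nat_lit 507596735) (nat_lit 76) (nat_lit 8802432155) (nat_lit 72) (nat_lit 5) (nat_lit 77) (nat_lit 5) (nat_lit 73) (nat_lit 5) (nat_lit 287) (nat_lit 267) (nat_lit 226)) (XT.nd (nat_lit 78) (nat_lit 304) (nat_lit 0) (XT.lf (nat_lit 0) (nat_lit 3189321990) (nat_lit 380) (nat_lit 5307697089) (nat_lit 76) (nat_lit 2192090129) (nat_lit 68) (nat_lit 5) (nat_lit 73) (nat_lit 5) (nat_lit 69) (nat_lit 5) (nat_lit 288) (nat_lit 267) (nat_lit 225)) (XT.lf (nat_lit 0) (nat_lit 537394846) (nat_lit 304) (nat_lit 4834268381) (nat_lit 380) (nat_lit 5606170607) (nat_lit 64) (nat_lit 5) (nat_lit 68) (nat_lit 5) (nat_lit 69) (nat_lit 5) (nat_lit 289) (nat_lit 267) (nat_lit 224))))))) (XT.nd (nat_lit 780) (nat_lit 1140) (nat_lit 0) (XT.nd (nat_lit 390) (nat_lit 760)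 (nat_lit 0) (XT.nd (nat_lit 156) (nat_lit 304) (nat_lit 0) (XT.nd (nat_lit 78) (nat_lit 304) (nat_lit 0) (XT.lf (nat_lit 0) (nat_lit 6801221375) (nat_lit 304) (nat_lit 903000305) (nat_lit 380) (nat_lit 3574790333) (nat_lit 64) (nat_lit 5) (nat_lit 68) (nat_lit 5) (nat_lit 69) (nat_lit 5) (nat_lit 290) (nat_lit 267) (nat_lit 223)) (XT.lf (nat_lit 0) (nat_lit 1730738349) (nat_lit 304) (nat_lit 8453441150) (nat_lit 380) (nat_lit 1409599911) (nat_lit 60) (nat_lit 5) (nat_lit 64) (nat_lit 5) (nat_lit 65) (nat_lit 5) (nat_lit 291) (nat_lit 267) (nat_lit 222))) (XT.nd (nat_lit 78) (nat_lit 228) (nat_lit 0) (XT.lf (nat_lit 0) (nat_lit 882015934) (nat_lit 380) (nat_lit 3602833535) (nat_lit 76) (nat_lit 7436533109) (nat_lit 59) (nat_lit 5) (nat_lit 64) (nat_lit 5) (nat_lit 60) (nat_lit 5) (nat_lit 292) (nat_lit 267) (nat_lit 221)) (XT.nd (nat_lit 78) (nat_lit 0) (nat_lit 0) (XT.lf (nat_lit 0)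 (nat_lit 2987702232) (nat_lit 228) (nat_lit 255913033) (nat_lit 304) (nat_lit 9020516009) (nat_lit 56) (nat_lit 5) (nat_lit 59) (nat_lit 5) (nat_lit 60) (nat_lit 5) (nat_lit 293) (nat_lit 267) (nat_lit 220)) (XT.lf (nat_lit 0) (nat_lit 5807828845) (nat_lit 304) (nat_lit 2710765791) (nat_lit 76) (nat_lit 4101252727) (nat_lit 56) (nat_lit 5) (nat_lit 60) (nat_lit 5) (nat_lit 57) (nat_lit 5) (nat_lit 294) (nat_lit 267) (nat_lit 219))))) (XT.nd (nat_lit 156) (nat_lit 532) (nat_lit 0) (XT.nd (nat_lit 78) (nat_lit 0) (nat_lit 0) (XT.lf (nat_lit 0) (nat_lit 4261755116) (nat_lit 228) (nat_lit 4268456925) (nat_lit 304) (nat_lit 4461693239) (nat_lit 53) (nat_lit 5) (nat_lit 56) (nat_lit 5) (nat_lit 57) (nat_lit 5) (nat_lit 295) (nat_lit 267) (nat_lit 218)) (XT.lf (nat_lit 0) (nat_lit 11398545709) (nat_lit 304) (nat_lit 1761638821) (nat_lit 76) (nat_lit 221941401) (nat_lit 53) (nat_lit 5) (nat_lit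 57) (nat_lit 5) (nat_lit 54) (nat_lit 5) (nat_lit 296) (nat_lit 267) (nat_lit 217))) (XT.nd (nat_lit 78) (nat_lit 228) (nat_lit 0) (XT.lf (nat_lit 0) (nat_lit 720204491) (nat_lit 304) (nat_lit 8184564386) (nat_lit 76) (nat_lit 4880574586) (nat_lit 49) (nat_lit 5) (nat_lit 53) (nat_lit 5) (nat_lit 50) (nat_lit 5) (nat_lit 297) (nat_lit 267) (nat_lit 216)) (XT.nd (nat_lit 78) (nat_lit 228) (nat_lit 0) (XT.lf (nat_lit 0) (nat_lit 3485235452) (nat_lit 304) (nat_lit 900205670) (nat_lit 76) (nat_lit 9822063351) (nat_lit 49) (nat_lit 5) (nat_lit 53) (nat_lit 5) (nat_lit 50) (nat_lit 5) (nat_lit 298) (nat_lit 267) (nat_lit 215)) (XT.lf (nat_lit 0) (nat_lit 6467911519) (nat_lit 304) (nat_lit 7734471533) (nat_lit 76) (nat_lit 444463092) (nat_lit 46) (nat_lit 5) (nat_lit 50) (nat_lit 5) (nat_lit 47) (nat_lit 5) (nat_lit 299) (nat_lit 267) (nat_lit 214)))))) (XT.nd (nat_lit 390) (nat_lit 532) (nat_lit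 0) (XT.nd (nat_lit 156) (nat_lit 456) (nat_lit 0) (XT.nd (nat_lit 78) (nat_lit 152) (nat_lit 0) (XT.lf (nat_lit 0) (nat_lit 9652010362) (nat_lit 304) (nat_lit 83402951) (nat_lit 76) (nat_lit 5370167413) (nat_lit 46) (nat_lit 5) (nat_lit 50) (nat_lit 5) (nat_lit 47) (nat_lit 5) (nat_lit 300) (nat_lit 267) (nat_lit 213)) (XT.lf (nat_lit 0) (nat_lit 8163202091) (nat_lit 152) (nat_lit 4926135045) (nat_lit 228) (nat_lit 2493252109) (nat_lit 44) (nat_lit 5) (nat_lit 46) (nat_lit 5) (nat_lit 47) (nat_lit 5) (nat_lit 301) (nat_lit 267) (nat_lit 212))) (XT.nd (nat_lit 78) (nat_lit 152) (nat_lit 0) (XT.lf (nat_lit 0) (nat_lit 576756271) (nat_lit 304) (nat_lit 15380104246) (nat_lit 76) (nat_lit 127074273) (nat_lit 40) (nat_lit 5) (nat_lit 44) (nat_lit 5) (nat_lit 41) (nat_lit 5) (nat_lit 302) (nat_lit 267) (nat_lit 211)) (XT.nd (nat_lit 78) (nat_lit 152) (nat_lit 0) (XT.lf (nat_lit 0) (nat_lit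 3892384203) (nat_lit 304) (nat_lit 7286224740) (nat_lit 76) (nat_lit 5420932714) (nat_lit 40) (nat_lit 5) (nat_lit 44) (nat_lit 5) (nat_lit 41) (nat_lit 5) (nat_lit 303) (nat_lit 267) (nat_lit 210)) (XT.lf (nat_lit 0) (nat_lit 1203965021) (nat_lit 152) (nat_lit 6157617854) (nat_lit 228) (nat_lit 9779988084) (nat_lit 38) (nat_lit 5) (nat_lit 40) (nat_lit 5) (nat_lit 41) (nat_lit 5) (nat_lit 304) (nat_lit 267) (nat_lit 209))))) (XT.nd (nat_lit 234) (nat_lit 304) (nat_lit 0) (XT.nd (nat_lit 78) (nat_lit 228) (nat_lit 0) (XT.lf (nat_lit 0) (nat_lit 10325464168) (nat_lit 152) (nat_lit 771920987) (nat_lit 228) (nat_lit 6608689440) (nat_lit 38) (nat_lit 5) (nat_lit 40) (nat_lit 5) (nat_lit 41) (nat_lit 5) (nat_lit 305) (nat_lit 267) (nat_lit 208)) (XT.nd (nat_lit 78) (nat_lit 76) (nat_lit 0) (XT.lf (nat_lit 0) (nat_lit 1531828835) (nat_lit 152) (nat_lit 13559255067) (nat_lit 228) (nat_lit 3204192817)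 (nat_lit 36) (nat_lit 5) (nat_lit 38) (nat_lit 5) (nat_lit 39) (nat_lit 5) (nat_lit 306) (nat_lit 267) (nat_lit 207)) (XT.lf (nat_lit 0) (nat_lit 469516788) (nat_lit 228) (nat_lit 7827496337) (nat_lit 76) (nat_lit 10611120167) (nat_lit 35) (nat_lit 5) (nat_lit 38) (nat_lit 5) (nat_lit 36) (nat_lit 5) (nat_lit 307) (nat_lit 267) (nat_lit 206)))) (XT.nd (nat_lit 78) (nat_lit 152) (nat_lit 0) (XT.lf (nat_lit 0) (nat_lit 1507698156) (nat_lit 152) (nat_lit 2707594692) (nat_lit 228) (nat_lit 15333935039) (nat_lit 33) (nat_lit 5) (nat_lit 35) (nat_lit 5) (nat_lit 36) (nat_lit 5) (nat_lit 308) (nat_lit 267) (nat_lit 205)) (XT.nd (nat_lit 78) (nat_lit 152) (nat_lit 0) (XT.lf (nat_lit 0) (nat_lit 8305371064) (nat_lit 228) (nat_lit 8729577345) (nat_lit 76) (nat_lit 3179601685) (nat_lit 33) (nat_lit 5) (nat_lit 36) (nat_lit 5) (nat_lit 34) (nat_lit 5) (nat_lit 309) (nat_lit 267) (nat_lit 204)) (XT.lf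 (nat_lit 0) (nat_lit 993770042) (nat_lit 152) (nat_lit 11640296041) (nat_lit 228) (nat_lit 8277389109) (nat_lit 31) (nat_lit 5) (nat_lit 33) (nat_lit 5) (nat_lit 34) (nat_lit 5) (nat_lit 310) (nat_lit 267) (nat_lit 203))))))))
noncomputable def xc128 : XT := (XT.nd (nat_lit 1560) (nat_lit 532) (nat_lit 0) (XT.nd (nat_lit 780) (nat_lit 532) (nat_lit 0) (XT.nd (nat_lit 390) (nat_lit 304) (nat_lit 0) (XT.nd (nat_lit 156) (nat_lit 228) (nat_lit 0) (XT.nd (nat_lit 78) (nat_lit 152) (nat_lit 0) (XT.lf (nat_lit 0) (nat_lit 11465404678) (nat_lit 152) (nat_lit 5836430056) (nat_lit 228) (nat_lit 4335260226) (nat_lit 31) (nat_lit 5) (nat_lit 33) (nat_lit 5) (nat_lit 34) (nat_lit 5) (nat_lit 311) (nat_lit 267) (nat_lit 202)) (XT.lf (nat_lit 0) (nat_lit 18176322) (nat_lit 152) (nat_lit 22164886691) (nat_lit 228) (nat_lit 216970486) (nat_lit 29) (nat_lit 5) (nat_lit 31) (nat_lit 5) (nat_lit 32) (nat_lit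 4) (nat_lit 312) (nat_lit 267) (nat_lit 201))) (XT.nd (nat_lit 78) (nat_lit 152) (nat_lit 0) (XT.lf (nat_lit 0) (nat_lit 4222439961) (nat_lit 228) (nat_lit 12324617919) (nat_lit 76) (nat_lit 6638540095) (nat_lit 28) (nat_lit 5) (nat_lit 31) (nat_lit 5) (nat_lit 29) (nat_lit 5) (nat_lit 313) (nat_lit 267) (nat_lit 200)) (XT.nd (nat_lit 78) (nat_lit 152) (nat_lit 0) (XT.lf (nat_lit 0) (nat_lit 8853574727) (nat_lit 228) (nat_lit 1806319181) (nat_lit 76) (nat_lit 13351534224) (nat_lit 28) (nat_lit 5) (nat_lit 31) (nat_lit 5) (nat_lit 29) (nat_lit 5) (nat_lit 314) (nat_lit 267) (nat_lit 199)) (XT.lf (nat_lit 0) (nat_lit 9505712278) (nat_lit 152) (nat_lit 4337103261) (nat_lit 228) (nat_lit 11029423527) (nat_lit 26) (nat_lit 5) (nat_lit 28) (nat_lit 5) (nat_lit 29) (nat_lit 5) (nat_lit 315) (nat_lit 267) (nat_lit 198))))) (XT.nd (nat_lit 156) (nat_lit 228) (nat_lit 0) (XT.nd (nat_lit 78) (nat_lit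 76) (nat_lit 0) (XT.lf (nat_lit 0) (nat_lit 19126943039) (nat_lit 228) (nat_lit 4401639934) (nat_lit 76) (nat_lit 2245252280) (nat_lit 26) (nat_lit 5) (nat_lit 29) (nat_lit 5) (nat_lit 27) (nat_lit 4) (nat_lit 316) (nat_lit 267) (nat_lit 197)) (XT.lf (nat_lit 0) (nat_lit 7237074104) (nat_lit 76) (nat_lit 17601717012) (nat_lit 152) (nat_lit 1873559602) (nat_lit 25) (nat_lit 5) (nat_lit 26) (nat_lit 5) (nat_lit 27) (nat_lit 4) (nat_lit 317) (nat_lit 267) (nat_lit 196))) (XT.nd (nat_lit 78) (nat_lit 152) (nat_lit 0) (XT.lf (nat_lit 0) (nat_lit 3093277993) (nat_lit 152) (nat_lit 8168823633) (nat_lit 76) (nat_lit 16430489706) (nat_lit 24) (nat_lit 5) (nat_lit 26) (nat_lit 5) (nat_lit 25) (nat_lit 5) (nat_lit 318) (nat_lit 267) (nat_lit 195)) (XT.nd (nat_lit 78) (nat_lit 0) (nat_lit 0) (XT.lf (nat_lit 0) (nat_lit 3759148570) (nat_lit 152) (nat_lit 4525533082) (nat_lit 228) (nat_lit 20433680328)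 (nat_lit 22) (nat_lit 5) (nat_lit 24) (nat_lit 5) (nat_lit 25) (nat_lit 5) (nat_lit 319) (nat_lit 267) (nat_lit 194)) (XT.lf (nat_lit 0) (nat_lit 13896743339) (nat_lit 228) (nat_lit 13297047209) (nat_lit 76) (nat_lit 2593588708) (nat_lit 22) (nat_lit 5) (nat_lit 25) (nat_lit 5) (nat_lit 23) (nat_lit 4) (nat_lit 320) (nat_lit 267) (nat_lit 193)))))) (XT.nd (nat_lit 390) (nat_lit 228) (nat_lit 0) (XT.nd (nat_lit 156) (nat_lit 228) (nat_lit 0) (XT.nd (nat_lit 78) (nat_lit 76) (nat_lit 0) (XT.lf (nat_lit 0) (nat_lit 19845213987) (nat_lit 228) (nat_lit 1157979364) (nat_lit 76) (nat_lit 9903875645) (nat_lit 22) (nat_lit 5) (nat_lit 25) (nat_lit 5) (nat_lit 23) (nat_lit 4) (nat_lit 321) (nat_lit 267) (nat_lit 192)) (XT.lf (nat_lit 0) (nat_lit 11939693685) (nat_lit 76) (nat_lit 14320318762) (nat_lit 152) (nat_lit 5814296889) (nat_lit 21) (nat_lit 5) (nat_lit 22) (nat_lit 5) (nat_lit 23) (nat_lit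 4) (nat_lit 322) (nat_lit 267) (nat_lit 191))) (XT.nd (nat_lit 78) (nat_lit 228) (nat_lit 0) (XT.lf (nat_lit 0) (nat_lit 25702451686) (nat_lit 76) (nat_lit 7295567588) (nat_lit 152) (nat_lit 301779784) (nat_lit 21) (nat_lit 5) (nat_lit 22) (nat_lit 5) (nat_lit 23) (nat_lit 4) (nat_lit 323) (nat_lit 267) (nat_lit 190)) (XT.nd (nat_lit 78) (nat_lit 0) (nat_lit 0) (XT.lf (nat_lit 0) (nat_lit 5386002723) (nat_lit 228) (nat_lit 28950366263) (nat_lit 76) (nat_lit 242159317) (nat_lit 18) (nat_lit 5) (nat_lit 21) (nat_lit 5) (nat_lit 19) (nat_lit 4) (nat_lit 324) (nat_lit 267) (nat_lit 189)) (XT.lf (nat_lit 0) (nat_lit 11581951842) (nat_lit 228) (nat_lit 16291997203) (nat_lit 76) (nat_lit 8035310962) (nat_lit 18) (nat_lit 5) (nat_lit 21) (nat_lit 5) (nat_lit 19) (nat_lit 4) (nat_lit 325) (nat_lit 267) (nat_lit 188))))) (XT.nd (nat_lit 156) (nat_lit 152) (nat_lit 0) (XT.nd (nat_lit 78) (nat_lit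 76) (nat_lit 0) (XT.lf (nat_lit 0) (nat_lit 18072027735) (nat_lit 228) (nat_lit 3028605083) (nat_lit 76) (nat_lit 16206687887) (nat_lit 18) (nat_lit 5) (nat_lit 21) (nat_lit 5) (nat_lit 19) (nat_lit 4) (nat_lit 326) (nat_lit 267) (nat_lit 187)) (XT.lf (nat_lit 0) (nat_lit 11230846839) (nat_lit 76) (nat_lit 13816181119) (nat_lit 152) (nat_lit 13720243906) (nat_lit 17) (nat_lit 5) (nat_lit 18) (nat_lit 5) (nat_lit 19) (nat_lit 4) (nat_lit 327) (nat_lit 267) (nat_lit 186))) (XT.nd (nat_lit 78) (nat_lit 152) (nat_lit 0) (XT.lf (nat_lit 0) (nat_lit 26282279147) (nat_lit 76) (nat_lit 6125168070) (nat_lit 152) (nat_lit 7890947960) (nat_lit 17) (nat_lit 5) (nat_lit 18) (nat_lit 5) (nat_lit 19) (nat_lit 4) (nat_lit 328) (nat_lit 267) (nat_lit 185)) (XT.nd (nat_lit 78) (nat_lit 76) (nat_lit 0) (XT.lf (nat_lit 0) (nat_lit 128441657) (nat_lit 76) (nat_lit 40025805428) (nat_lit 76) (nat_lit 1750917258)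 (nat_lit 16) (nat_lit 4) (nat_lit 17) (nat_lit 5) (nat_lit 17) (nat_lit 4) (nat_lit 329) (nat_lit 267) (nat_lit 184)) (XT.lf (nat_lit 0) (nat_lit 4873433884) (nat_lit 152) (nat_lit 28316679707) (nat_lit 76) (nat_lit 10382118156) (nat_lit 15) (nat_lit 5) (nat_lit 17) (nat_lit 5) (nat_lit 16) (nat_lit 4) (nat_lit 330) (nat_lit 267) (nat_lit 183))))))) (XT.nd (nat_lit 780) (nat_lit 228) (nat_lit 0) (XT.nd (nat_lit 390) (nat_lit 228) (nat_lit 0) (XT.nd (nat_lit 156) (nat_lit 0) (nat_lit 0) (XT.nd (nat_lit 78) (nat_lit 76) (nat_lit 0) (XT.lf (nat_lit 0) (nat_lit 11756779623) (nat_lit 152) (nat_lit 14236612372) (nat_lit 76) (nat_lit 19328501005) (nat_lit 15) (nat_lit 5) (nat_lit 17) (nat_lit 5) (nat_lit 16) (nat_lit 4) (nat_lit 331) (nat_lit 267) (nat_lit 182)) (XT.lf (nat_lit 0) (nat_lit 541677062) (nat_lit 76) (nat_lit 18438329198) (nat_lit 152) (nat_lit 28179251684) (nat_lit 14) (nat_lit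 5) (nat_lit 15) (nat_lit 5) (nat_lit 16) (nat_lit 4) (nat_lit 332) (nat_lit 267) (nat_lit 181))) (XT.nd (nat_lit 78) (nat_lit 0) (nat_lit 0) (XT.lf (nat_lit 0) (nat_lit 16530398563) (nat_lit 76) (nat_lit 10262607811) (nat_lit 152) (nat_lit 22284060158) (nat_lit 14) (nat_lit 5) (nat_lit 15) (nat_lit 5) (nat_lit 16) (nat_lit 4) (nat_lit 333) (nat_lit 267) (nat_lit 180)) (XT.nd (nat_lit 78) (nat_lit 0) (nat_lit 0) (XT.lf (nat_lit 0) (nat_lit 33296893817) (nat_lit 76) (nat_lit 1687865751) (nat_lit 152) (nat_lit 16106606550) (nat_lit 14) (nat_lit 5) (nat_lit 15) (nat_lit 5) (nat_lit 16) (nat_lit 4) (nat_lit 334) (nat_lit 267) (nat_lit 179)) (XT.lf (nat_lit 0) (nat_lit 43688842039) (nat_lit 152) (nat_lit 2439941625) (nat_lit 0) (nat_lit 7072465387) (nat_lit 14) (nat_lit 5) (nat_lit 16) (nat_lit 4) (nat_lit 14) (nat_lit 4) (nat_lit 335) (nat_lit 267) (nat_lit 178))))) (XT.nd (nat_lit 156) (nat_lit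 76) (nat_lit 0) (XT.nd (nat_lit 78) (nat_lit 76) (nat_lit 0) (XT.lf (nat_lit 0) (nat_lit 14085411995) (nat_lit 76) (nat_lit 38979370170) (nat_lit 76) (nat_lit 2340016479) (nat_lit 13) (nat_lit 4) (nat_lit 14) (nat_lit 5) (nat_lit 14) (nat_lit 4) (nat_lit 336) (nat_lit 267) (nat_lit 177)) (XT.lf (nat_lit 0) (nat_lit 5055951115) (nat_lit 152) (nat_lit 26296536797) (nat_lit 76) (nat_lit 26360435123) (nat_lit 12) (nat_lit 5) (nat_lit 14) (nat_lit 5) (nat_lit 13) (nat_lit 4) (nat_lit 337) (nat_lit 267) (nat_lit 176))) (XT.nd (nat_lit 78) (nat_lit 76) (nat_lit 0) (XT.lf (nat_lit 0) (nat_lit 12732698860) (nat_lit 152) (nat_lit 10580044771) (nat_lit 76) (nat_lit 36822315370) (nat_lit 12) (nat_lit 5) (nat_lit 14) (nat_lit 5) (nat_lit 13) (nat_lit 4) (nat_lit 338) (nat_lit 267) (nat_lit 175)) (XT.nd (nat_lit 78) (nat_lit 0) (nat_lit 0) (XT.lf (nat_lit 0) (nat_lit 6099258217) (nat_lit 76) (nat_lit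 14779368165) (nat_lit 152) (nat_lit 41795412533) (nat_lit 11) (nat_lit 5) (nat_lit 12) (nat_lit 5) (nat_lit 13) (nat_lit 4) (nat_lit 339) (nat_lit 267) (nat_lit 174)) (XT.lf (nat_lit 0) (nat_lit 23961907626) (nat_lit 76) (nat_lit 5639427378) (nat_lit 152) (nat_lit 35730162649) (nat_lit 11) (nat_lit 5) (nat_lit 12) (nat_lit 5) (nat_lit 13) (nat_lit 4) (nat_lit 340) (nat_lit 267) (nat_lit 173)))))) (XT.nd (nat_lit 390) (nat_lit 76) (nat_lit 0) (XT.nd (nat_lit 156) (nat_lit 152) (nat_lit 0) (XT.nd (nat_lit 78) (nat_lit 0) (nat_lit 0) (XT.lf (nat_lit 0) (nat_lit 38812612496) (nat_lit 152) (nat_lit 25483350577) (nat_lit 0) (nat_lit 3823248454) (nat_lit 11) (nat_lit 5) (nat_lit 13) (nat_lit 4) (nat_lit 11) (nat_lit 4) (nat_lit 341) (nat_lit 267) (nat_lit 172)) (XT.lf (nat_lit 0) (nat_lit 48567994548) (nat_lit 152) (nat_lit 8911842048) (nat_lit 0) (nat_lit 13562301154) (nat_lit 11) (nat_lit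 5) (nat_lit 13) (nat_lit 4) (nat_lit 11) (nat_lit 4) (nat_lit 342) (nat_lit 267) (nat_lit 171))) (XT.nd (nat_lit 78) (nat_lit 76) (nat_lit 0) (XT.lf (nat_lit 0) (nat_lit 8752575888) (nat_lit 76) (nat_lit 50186737345) (nat_lit 76) (nat_lit 15165492187) (nat_lit 10) (nat_lit 4) (nat_lit 11) (nat_lit 5) (nat_lit 11) (nat_lit 4) (nat_lit 343) (nat_lit 267) (nat_lit 170)) (XT.nd (nat_lit 78) (nat_lit 76) (nat_lit 0) (XT.lf (nat_lit 0) (nat_lit 27594065535) (nat_lit 76) (nat_lit 42377735249) (nat_lit 76) (nat_lit 7341678887) (nat_lit 10) (nat_lit 4) (nat_lit 11) (nat_lit 5) (nat_lit 11) (nat_lit 4) (nat_lit 344) (nat_lit 267) (nat_lit 169)) (XT.lf (nat_lit 0) (nat_lit 837313113) (nat_lit 152) (nat_lit 33333670388) (nat_lit 76) (nat_lit 46511328420) (nat_lit 9) (nat_lit 5) (nat_lit 11) (nat_lit 5) (nat_lit 10) (nat_lit 4) (nat_lit 345) (nat_lit 267) (nat_lit 168))))) (XT.nd (nat_lit 234) (nat_lit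 0) (nat_lit 0) (XT.nd (nat_lit 78) (nat_lit 76) (nat_lit 0) (XT.lf (nat_lit 0) (nat_lit 9170849868) (nat_lit 152) (nat_lit 16263354239) (nat_lit 76) (nat_lit 58779750611) (nat_lit 9) (nat_lit 5) (nat_lit 11) (nat_lit 5) (nat_lit 10) (nat_lit 4) (nat_lit 346) (nat_lit 267) (nat_lit 167)) (XT.nd (nat_lit 78) (nat_lit 0) (nat_lit 0) (XT.lf (nat_lit 0) (nat_lit 1701252816) (nat_lit 76) (nat_lit 16239061213) (nat_lit 152) (nat_lit 69980905851) (nat_lit 8) (nat_lit 5) (nat_lit 9) (nat_lit 5) (nat_lit 10) (nat_lit 4) (nat_lit 347) (nat_lit 267) (nat_lit 166)) (XT.lf (nat_lit 0) (nat_lit 21115262120) (nat_lit 76) (nat_lit 6301244357) (nat_lit 152) (nat_lit 64383931688) (nat_lit 8) (nat_lit 5) (nat_lit 9) (nat_lit 5) (nat_lit 10) (nat_lit 4) (nat_lit 348) (nat_lit 267) (nat_lit 165)))) (XT.nd (nat_lit 78) (nat_lit 0) (nat_lit 0) (XT.lf (nat_lit 0) (nat_lit 37424118942) (nat_lit 152) (nat_lit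 54451245386) (nat_lit 0) (nat_lit 3995375013) (nat_lit 8) (nat_lit 5) (nat_lit 10) (nat_lit 4) (nat_lit 8) (nat_lit 4) (nat_lit 349) (nat_lit 267) (nat_lit 164)) (XT.nd (nat_lit 78) (nat_lit 0) (nat_lit 0) (XT.lf (nat_lit 0) (nat_lit 48028816306) (nat_lit 152) (nat_lit 37521360103) (nat_lit 0) (nat_lit 14589546331) (nat_lit 8) (nat_lit 5) (nat_lit 10) (nat_lit 4) (nat_lit 8) (nat_lit 4) (nat_lit 350) (nat_lit 267) (nat_lit 163)) (XT.lf (nat_lit 0) (nat_lit 59157467765) (nat_lit 152) (nat_lit 19756830862) (nat_lit 0) (nat_lit 25708172984) (nat_lit 8) (nat_lit 5) (nat_lit 10) (nat_lit 4) (nat_lit 8) (nat_lit 4) (nat_lit 351) (nat_lit 267) (nat_lit 162))))))))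
noncomputable def xc129 : XT := (XT.nd (nat_lit 1560) (nat_lit 152) (nat_lit 0) (XT.nd (nat_lit 780) (nat_lit 76) (nat_lit 0) (XT.nd (nat_lit 390) (nat_lit 152) (nat_lit 0) (XT.nd (nat_lit 156) (nat_lit 0) (nat_lit 0) (XT.nd (nat_lit 78) (nat_lit 76) (nat_lit 0) (XT.lf (nat_lit 0) (nat_lit 70836570108) (nat_lit 152) (nat_lit 1115361164) (nat_lit 0) (nat_lit 37377727893) (nat_lit 8) (nat_lit 5) (nat_lit 10) (nat_lit 4) (nat_lit 8) (nat_lit 4) (nat_lit 352) (nat_lit 267) (nat_lit 161)) (XT.lf (nat_lit 0) (nat_lit 19057388900) (nat_lit 76) (nat_lit 64334081071) (nat_lit 76) (nat_lit 30866146061) (nat_lit 7) (nat_lit 4) (nat_lit 8) (nat_lit 5) (nat_lit 8) (nat_lit 4) (nat_lit 353) (nat_lit 267) (nat_lit 160))) (XT.nd (nat_lit 78) (nat_lit 0) (nat_lit 0) (XT.lf (nat_lit 0) (nat_lit 40266924077) (nat_lit 76) (nat_lit 56320489254) (nat_lit 76) (nat_lit 22843894441) (nat_lit 7) (nat_lit 4) (nat_lit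 8) (nat_lit 5) (nat_lit 8) (nat_lit 4) (nat_lit 354) (nat_lit 267) (nat_lit 159)) (XT.nd (nat_lit 78) (nat_lit 0) (nat_lit 0) (XT.lf (nat_lit 0) (nat_lit 62526864381) (nat_lit 76) (nat_lit 47910965025) (nat_lit 76) (nat_lit 14426122778) (nat_lit 7) (nat_lit 4) (nat_lit 8) (nat_lit 5) (nat_lit 8) (nat_lit 4) (nat_lit 355) (nat_lit 267) (nat_lit 158)) (XT.lf (nat_lit 0) (nat_lit 85890209670) (nat_lit 76) (nat_lit 39085485705) (nat_lit 76) (nat_lit 5592788761) (nat_lit 7) (nat_lit 4) (nat_lit 8) (nat_lit 5) (nat_lit 8) (nat_lit 4) (nat_lit 356) (nat_lit 267) (nat_lit 157))))) (XT.nd (nat_lit 156) (nat_lit 76) (nat_lit 0) (XT.nd (nat_lit 78) (nat_lit 0) (nat_lit 0) (XT.lf (nat_lit 0) (nat_lit 3559447935) (nat_lit 152) (nat_lit 26203309341) (nat_lit 76) (nat_lit 106792858049) (nat_lit 6) (nat_lit 5) (nat_lit 8) (nat_lit 5) (nat_lit 7) (nat_lit 4) (nat_lit 357) (nat_lit 267) (nat_lit 156))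 (XT.lf (nat_lit 0) (nat_lit 12976665668) (nat_lit 152) (nat_lit 6905137430) (nat_lit 76) (nat_lit 122955951074) (nat_lit 6) (nat_lit 5) (nat_lit 8) (nat_lit 5) (nat_lit 7) (nat_lit 4) (nat_lit 358) (nat_lit 267) (nat_lit 155))) (XT.nd (nat_lit 78) (nat_lit 0) (nat_lit 0) (XT.lf (nat_lit 0) (nat_lit 13790903434) (nat_lit 76) (nat_lit 9284701769) (nat_lit 152) (nat_lit 126347853173) (nat_lit 5) (nat_lit 5) (nat_lit 6) (nat_lit 5) (nat_lit 7) (nat_lit 4) (nat_lit 359) (nat_lit 267) (nat_lit 154)) (XT.nd (nat_lit 78) (nat_lit 0) (nat_lit 0) (XT.lf (nat_lit 0) (nat_lit 33822680862) (nat_lit 152) (nat_lit 120610260679) (nat_lit 0) (nat_lit 1898348182) (nat_lit 5) (nat_lit 5) (nat_lit 7) (nat_lit 4) (nat_lit 5) (nat_lit 4) (nat_lit 360) (nat_lit 267) (nat_lit 153)) (XT.lf (nat_lit 0) (nat_lit 45255097066) (nat_lit 152) (nat_lit 104997114467) (nat_lit 0) (nat_lit 13324903090) (nat_lit 5) (nat_lit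 5) (nat_lit 7) (nat_lit 4) (nat_lit 5) (nat_lit 4) (nat_lit 361) (nat_lit 267) (nat_lit 152)))))) (XT.nd (nat_lit 390) (nat_lit 76) (nat_lit 0) (XT.nd (nat_lit 156) (nat_lit 0) (nat_lit 0) (XT.nd (nat_lit 78) (nat_lit 0) (nat_lit 0) (XT.lf (nat_lit 0) (nat_lit 57255113640) (nat_lit 152) (nat_lit 88610981934) (nat_lit 0) (nat_lit 25319337477) (nat_lit 5) (nat_lit 5) (nat_lit 7) (nat_lit 4) (nat_lit 5) (nat_lit 4) (nat_lit 362) (nat_lit 267) (nat_lit 151)) (XT.lf (nat_lit 0) (nat_lit 69851302051) (nat_lit 152) (nat_lit 71412848478) (nat_lit 0) (nat_lit 37910209520) (nat_lit 5) (nat_lit 5) (nat_lit 7) (nat_lit 4) (nat_lit 5) (nat_lit 4) (nat_lit 363) (nat_lit 267) (nat_lit 150))) (XT.nd (nat_lit 78) (nat_lit 0) (nat_lit 0) (XT.lf (nat_lit 0) (nat_lit 83073653226) (nat_lit 152) (nat_lit 53361766163) (nat_lit 0) (nat_lit 51127497486) (nat_lit 5) (nat_lit 5) (nat_lit 7) (nat_lit 4) (nat_lit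 5) (nat_lit 4) (nat_lit 364) (nat_lit 267) (nat_lit 149)) (XT.nd (nat_lit 78) (nat_lit 0) (nat_lit 0) (XT.lf (nat_lit 0) (nat_lit 96953648951) (nat_lit 152) (nat_lit 34414756221) (nat_lit 0) (nat_lit 65002671109) (nat_lit 5) (nat_lit 5) (nat_lit 7) (nat_lit 4) (nat_lit 5) (nat_lit 4) (nat_lit 365) (nat_lit 267) (nat_lit 148)) (XT.lf (nat_lit 0) (nat_lit 111524336837) (nat_lit 152) (nat_lit 14526706724) (nat_lit 0) (nat_lit 79568766515) (nat_lit 5) (nat_lit 5) (nat_lit 7) (nat_lit 4) (nat_lit 5) (nat_lit 4) (nat_lit 366) (nat_lit 267) (nat_lit 147))))) (XT.nd (nat_lit 156) (nat_lit 0) (nat_lit 0) (XT.nd (nat_lit 78) (nat_lit 0) (nat_lit 0) (XT.lf (nat_lit 0) (nat_lit 6559685736) (nat_lit 76) (nat_lit 120363138337) (nat_lit 76) (nat_lit 88403194226) (nat_lit 4) (nat_lit 4) (nat_lit 5) (nat_lit 5) (nat_lit 5) (nat_lit 4) (nat_lit 367) (nat_lit 267) (nat_lit 146)) (XT.lf (nat_lit 0) (nat_lit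 29198818796) (nat_lit 76) (nat_lit 114135341243) (nat_lit 76) (nat_lit 82171231618) (nat_lit 4) (nat_lit 4) (nat_lit 5) (nat_lit 5) (nat_lit 5) (nat_lit 4) (nat_lit 368) (nat_lit 267) (nat_lit 145))) (XT.nd (nat_lit 78) (nat_lit 0) (nat_lit 0) (XT.lf (nat_lit 0) (nat_lit 52964276626) (nat_lit 76) (nat_lit 107598840997) (nat_lit 76) (nat_lit 75630764216) (nat_lit 4) (nat_lit 4) (nat_lit 5) (nat_lit 5) (nat_lit 5) (nat_lit 4) (nat_lit 369) (nat_lit 267) (nat_lit 144)) (XT.nd (nat_lit 78) (nat_lit 0) (nat_lit 0) (XT.lf (nat_lit 0) (nat_lit 77912643647) (nat_lit 76) (nat_lit 100738074503) (nat_lit 76) (nat_lit 68766219478) (nat_lit 4) (nat_lit 4) (nat_lit 5) (nat_lit 5) (nat_lit 5) (nat_lit 4) (nat_lit 370) (nat_lit 267) (nat_lit 143)) (XT.lf (nat_lit 0) (nat_lit 104103320734) (nat_lit 76) (nat_lit 93536706604) (nat_lit 76) (nat_lit 61561253251) (nat_lit 4) (nat_lit 4) (nat_lit 5) (nat_lit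 5) (nat_lit 5) (nat_lit 4) (nat_lit 371) (nat_lit 267) (nat_lit 142))))))) (XT.nd (nat_lit 780) (nat_lit 0) (nat_lit 0) (XT.nd (nat_lit 390) (nat_lit 152) (nat_lit 0) (XT.nd (nat_lit 156) (nat_lit 0) (nat_lit 0) (XT.nd (nat_lit 78) (nat_lit 0) (nat_lit 0) (XT.lf (nat_lit 0) (nat_lit 131598666642) (nat_lit 76) (nat_lit 85977591184) (nat_lit 76) (nat_lit 53998710853) (nat_lit 4) (nat_lit 4) (nat_lit 5) (nat_lit 5) (nat_lit 5) (nat_lit 4) (nat_lit 372) (nat_lit 267) (nat_lit 141)) (XT.lf (nat_lit 0) (nat_lit 160464146480) (nat_lit 76) (nat_lit 78042730350) (nat_lit 76) (nat_lit 46060586230) (nat_lit 4) (nat_lit 4) (nat_lit 5) (nat_lit 5) (nat_lit 5) (nat_lit 4) (nat_lit 373) (nat_lit 267) (nat_lit 140))) (XT.nd (nat_lit 78) (nat_lit 0) (nat_lit 0) (XT.lf (nat_lit 0) (nat_lit 190768487581) (nat_lit 76) (nat_lit 69713231577) (nat_lit 76) (nat_lit 37727979086) (nat_lit 4) (nat_lit 4) (nat_lit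 5) (nat_lit 5) (nat_lit 5) (nat_lit 4) (nat_lit 374) (nat_lit 267) (nat_lit 139)) (XT.nd (nat_lit 78) (nat_lit 0) (nat_lit 0) (XT.lf (nat_lit 0) (nat_lit 222583843139) (nat_lit 76) (nat_lit 60969262725) (nat_lit 76) (nat_lit 28981049881) (nat_lit 4) (nat_lit 4) (nat_lit 5) (nat_lit 5) (nat_lit 5) (nat_lit 4) (nat_lit 375) (nat_lit 267) (nat_lit 138)) (XT.lf (nat_lit 0) (nat_lit 255985963999) (nat_lit 76) (nat_lit 51790004819) (nat_lit 76) (nat_lit 19798972591) (nat_lit 4) (nat_lit 4) (nat_lit 5) (nat_lit 5) (nat_lit 5) (nat_lit 4) (nat_lit 376) (nat_lit 267) (nat_lit 137))))) (XT.nd (nat_lit 156) (nat_lit 152) (nat_lit 0) (XT.nd (nat_lit 78) (nat_lit 0) (nat_lit 0) (XT.lf (nat_lit 0) (nat_lit 291054379022) (nat_lit 76) (nat_lit 42153602484) (nat_lit 76) (nat_lit 10159885129) (nat_lit 4) (nat_lit 4) (nat_lit 5) (nat_lit 5) (nat_lit 5) (nat_lit 4) (nat_lit 377) (nat_lit 267) (nat_lit 136))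 (XT.lf (nat_lit 0) (nat_lit 327872584432) (nat_lit 76) (nat_lit 32037111905) (nat_lit 76) (nat_lit 40837286) (nat_lit 4) (nat_lit 4) (nat_lit 5) (nat_lit 5) (nat_lit 5) (nat_lit 4) (nat_lit 378) (nat_lit 267) (nat_lit 135))) (XT.nd (nat_lit 78) (nat_lit 76) (nat_lit 0) (XT.lf (nat_lit 0) (nat_lit 10243565375) (nat_lit 152) (nat_lit 10999401088) (nat_lit 76) (nat_lit 356111197513) (nat_lit 3) (nat_lit 5) (nat_lit 5) (nat_lit 5) (nat_lit 4) (nat_lit 4) (nat_lit 379) (nat_lit 267) (nat_lit 134)) (XT.nd (nat_lit 78) (nat_lit 0) (nat_lit 0) (XT.lf (nat_lit 0) (nat_lit 11497030500) (nat_lit 76) (nat_lit 9721535413) (nat_lit 152) (nat_lit 374400489453) (nat_lit 2) (nat_lit 5) (nat_lit 3) (nat_lit 5) (nat_lit 4) (nat_lit 4) (nat_lit 380) (nat_lit 267) (nat_lit 133)) (XT.lf (nat_lit 0) (nat_lit 32967002463) (nat_lit 152) (nat_lit 379331227512) (nat_lit 0) (nat_lit 2487727526) (nat_lit 2) (nat_lit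 5) (nat_lit 4) (nat_lit 4) (nat_lit 2) (nat_lit 4) (nat_lit 381) (nat_lit 267) (nat_lit 132)))))) (XT.nd (nat_lit 390) (nat_lit 0) (nat_lit 0) (XT.nd (nat_lit 156) (nat_lit 0) (nat_lit 0) (XT.nd (nat_lit 78) (nat_lit 0) (nat_lit 0) (XT.lf (nat_lit 0) (nat_lit 45460569819) (nat_lit 152) (nat_lit 374463458727) (nat_lit 0) (nat_lit 14979291199) (nat_lit 2) (nat_lit 5) (nat_lit 4) (nat_lit 4) (nat_lit 2) (nat_lit 4) (nat_lit 382) (nat_lit 267) (nat_lit 131)) (XT.lf (nat_lit 0) (nat_lit 58577234160) (nat_lit 152) (nat_lit 369355348173) (nat_lit 0) (nat_lit 28094047269) (nat_lit 2) (nat_lit 5) (nat_lit 4) (nat_lit 4) (nat_lit 2) (nat_lit 4) (nat_lit 383) (nat_lit 267) (nat_lit 130))) (XT.nd (nat_lit 78) (nat_lit 0) (nat_lit 0) (XT.lf (nat_lit 0) (nat_lit 72348225637) (nat_lit 152) (nat_lit 363994733682) (nat_lit 0) (nat_lit 41863221347) (nat_lit 2) (nat_lit 5) (nat_lit 4) (nat_lit 4) (nat_lit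 2) (nat_lit 4) (nat_lit 384) (nat_lit 267) (nat_lit 129)) (XT.nd (nat_lit 78) (nat_lit 0) (nat_lit 0) (XT.lf (nat_lit 0) (nat_lit 86806332326) (nat_lit 152) (nat_lit 358368851887) (nat_lit 0) (nat_lit 56319597179) (nat_lit 2) (nat_lit 5) (nat_lit 4) (nat_lit 4) (nat_lit 2) (nat_lit 4) (nat_lit 385) (nat_lit 267) (nat_lit 128)) (XT.lf (nat_lit 0) (nat_lit 101985978291) (nat_lit 152) (nat_lit 352464307831) (nat_lit 0) (nat_lit 71497594709) (nat_lit 2) (nat_lit 5) (nat_lit 4) (nat_lit 4) (nat_lit 2) (nat_lit 4) (nat_lit 386) (nat_lit 267) (nat_lit 127))))) (XT.nd (nat_lit 31434) (nat_lit 0) (nat_lit 8436) (XT.nd (nat_lit 78) (nat_lit 0) (nat_lit 0) (XT.lf (nat_lit 0) (nat_lit 117923305546) (nat_lit 152) (nat_lit 346267043074) (nat_lit 0) (nat_lit 87433352025) (nat_lit 2) (nat_lit 5) (nat_lit 4) (nat_lit 4) (nat_lit 2) (nat_lit 4) (nat_lit 387) (nat_lit 267) (nat_lit 126)) (XT.nd (nat_lit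 31278) (nat_lit 0) (nat_lit 8892) (XT.lf (nat_lit 0) (nat_lit 134656260108) (nat_lit 152) (nat_lit 339762302226) (nat_lit 0) (nat_lit 104164811407) (nat_lit 2) (nat_lit 5) (nat_lit 4) (nat_lit 4) (nat_lit 2) (nat_lit 4) (nat_lit 388) (nat_lit 267) (nat_lit 125)) (XT.lf (nat_lit 0) (nat_lit 1568282272) (nat_lit 532) (nat_lit 1014552427) (nat_lit 532) (nat_lit 1014552427) (nat_lit 119) (nat_lit 3) (nat_lit 126) (nat_lit 3) (nat_lit 126) (nat_lit 5) (nat_lit 268) (nat_lit 268) (nat_lit 244)))) (XT.nd (nat_lit 78) (nat_lit 456) (nat_lit 0) (XT.lf (nat_lit 76) (nat_lit 1361375772) (nat_lit 0) (nat_lit 3421519016) (nat_lit 532) (nat_lit 2509882479) (nat_lit 120) (nat_lit 5) (nat_lit 119) (nat_lit 3) (nat_lit 126) (nat_lit 5) (nat_lit 269) (nat_lit 268) (nat_lit 243)) (XT.nd (nat_lit 78) (nat_lit 456) (nat_lit 0) (XT.lf (nat_lit 76) (nat_lit 4938015032) (nat_lit 0) (nat_lit 1508044601) (nat_lit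 532) (nat_lit 953117049) (nat_lit 120) (nat_lit 5) (nat_lit 119) (nat_lit 3) (nat_lit 126) (nat_lit 5) (nat_lit 270) (nat_lit 268) (nat_lit 242)) (XT.lf (nat_lit 0) (nat_lit 589793219) (nat_lit 532) (nat_lit 6369219339) (nat_lit 608) (nat_lit 555047100) (nat_lit 113) (nat_lit 5) (nat_lit 120) (nat_lit 5) (nat_lit 121) (nat_lit 5) (nat_lit 271) (nat_lit 268) (nat_lit 241))))))))
noncomputable def xc130 : XT := (XT.nd (nat_lit 1560) (nat_lit 2508) (nat_lit 0) (XT.nd (nat_lit 780) (nat_lit 1976) (nat_lit 0) (XT.nd (nat_lit 390) (nat_lit 1216) (nat_lit 0) (XT.nd (nat_lit 156) (nat_lit 532) (nat_lit 0) (XT.nd (nat_lit 78) (nat_lit 0) (nat_lit 0) (XT.lf (nat_lit 0) (nat_lit 2152435788) (nat_lit 532) (nat_lit 2716275711) (nat_lit 608) (nat_lit 2766655058) (nat_lit 113) (nat_lit 5) (nat_lit 120) (nat_lit 5) (nat_lit 121) (nat_lit 5) (nat_lit 272) (nat_lit 268) (nat_lit 240)) (XT.lf (nat_lit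 76) (nat_lit 1098048914) (nat_lit 0) (nat_lit 2624239924) (nat_lit 608) (nat_lit 4044178816) (nat_lit 114) (nat_lit 5) (nat_lit 113) (nat_lit 5) (nat_lit 121) (nat_lit 5) (nat_lit 273) (nat_lit 268) (nat_lit 239))) (XT.nd (nat_lit 78) (nat_lit 532) (nat_lit 0) (XT.lf (nat_lit 76) (nat_lit 5141891974) (nat_lit 0) (nat_lit 190005804) (nat_lit 608) (nat_lit 2574336931) (nat_lit 114) (nat_lit 5) (nat_lit 113) (nat_lit 5) (nat_lit 121) (nat_lit 5) (nat_lit 274) (nat_lit 268) (nat_lit 238)) (XT.nd (nat_lit 78) (nat_lit 608) (nat_lit 0) (XT.lf (nat_lit 76) (nat_lit 1281521262) (nat_lit 0) (nat_lit 5717144684) (nat_lit 608) (nat_lit 1055656011) (nat_lit 115) (nat_lit 5) (nat_lit 114) (nat_lit 5) (nat_lit 122) (nat_lit 5) (nat_lit 275) (nat_lit 268) (nat_lit 237)) (XT.lf (nat_lit 0) (nat_lit 493657011) (nat_lit 608) (nat_lit 2653439976) (nat_lit 684) (nat_lit 5063848806) (nat_lit 106) (nat_lit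 5) (nat_lit 114) (nat_lit 5) (nat_lit 115) (nat_lit 5) (nat_lit 276) (nat_lit 268) (nat_lit 236))))) (XT.nd (nat_lit 156) (nat_lit 1216) (nat_lit 0) (XT.nd (nat_lit 78) (nat_lit 0) (nat_lit 76) (XT.lf (nat_lit 76) (nat_lit 1650927301) (nat_lit 0) (nat_lit 384807315) (nat_lit 684) (nat_lit 6341405323) (nat_lit 107) (nat_lit 5) (nat_lit 106) (nat_lit 5) (nat_lit 115) (nat_lit 5) (nat_lit 277) (nat_lit 268) (nat_lit 235)) (XT.lf (nat_lit 0) (nat_lit 3667830384) (nat_lit 608) (nat_lit 2386371249) (nat_lit 76) (nat_lit 2496932832) (nat_lit 107) (nat_lit 5) (nat_lit 115) (nat_lit 5) (nat_lit 108) (nat_lit 5) (nat_lit 278) (nat_lit 268) (nat_lit 234))) (XT.nd (nat_lit 78) (nat_lit 684) (nat_lit 0) (XT.lf (nat_lit 0) (nat_lit 2177075317) (nat_lit 608) (nat_lit 3176149233) (nat_lit 684) (nat_lit 3382149378) (nat_lit 99) (nat_lit 5) (nat_lit 107) (nat_lit 5) (nat_lit 108) (nat_lit 5) (nat_lit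 279) (nat_lit 268) (nat_lit 233)) (XT.nd (nat_lit 78) (nat_lit 684) (nat_lit 0) (XT.lf (nat_lit 0) (nat_lit 6995700509) (nat_lit 608) (nat_lit 101392346) (nat_lit 684) (nat_lit 1833145991) (nat_lit 99) (nat_lit 5) (nat_lit 107) (nat_lit 5) (nat_lit 108) (nat_lit 5) (nat_lit 280) (nat_lit 268) (nat_lit 232)) (XT.lf (nat_lit 0) (nat_lit 2908054272) (nat_lit 684) (nat_lit 6051423095) (nat_lit 760) (nat_lit 173921320) (nat_lit 90) (nat_lit 5) (nat_lit 99) (nat_lit 5) (nat_lit 100) (nat_lit 5) (nat_lit 281) (nat_lit 268) (nat_lit 231)))))) (XT.nd (nat_lit 390) (nat_lit 684) (nat_lit 0) (XT.nd (nat_lit 156) (nat_lit 684) (nat_lit 0) (XT.nd (nat_lit 78) (nat_lit 532) (nat_lit 0) (XT.lf (nat_lit 0) (nat_lit 1491149856) (nat_lit 760) (nat_lit 1369672010) (nat_lit 76) (nat_lit 6486123289) (nat_lit 89) (nat_lit 5) (nat_lit 99) (nat_lit 5) (nat_lit 90) (nat_lit 5) (nat_lit 282) (nat_lit 268) (nat_lit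 230)) (XT.lf (nat_lit 0) (nat_lit 3242618285) (nat_lit 608) (nat_lit 5787617991) (nat_lit 76) (nat_lit 540442455) (nat_lit 82) (nat_lit 5) (nat_lit 90) (nat_lit 5) (nat_lit 83) (nat_lit 5) (nat_lit 283) (nat_lit 268) (nat_lit 229))) (XT.nd (nat_lit 78) (nat_lit 684) (nat_lit 0) (XT.lf (nat_lit 0) (nat_lit 5095203265) (nat_lit 608) (nat_lit 667930395) (nat_lit 76) (nat_lit 4041885096) (nat_lit 82) (nat_lit 5) (nat_lit 90) (nat_lit 5) (nat_lit 83) (nat_lit 5) (nat_lit 284) (nat_lit 268) (nat_lit 228)) (XT.nd (nat_lit 78) (nat_lit 304) (nat_lit 0) (XT.lf (nat_lit 0) (nat_lit 4807128986) (nat_lit 380) (nat_lit 2254120394) (nat_lit 456) (nat_lit 2988877120) (nat_lit 77) (nat_lit 5) (nat_lit 82) (nat_lit 5) (nat_lit 83) (nat_lit 5) (nat_lit 285) (nat_lit 268) (nat_lit 227)) (XT.lf (nat_lit 0) (nat_lit 199797540) (nat_lit 304) (nat_lit 8910255416) (nat_lit 380) (nat_lit 1198301833) (nat_lit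 73) (nat_lit 5) (nat_lit 77) (nat_lit 5) (nat_lit 78) (nat_lit 5) (nat_lit 286) (nat_lit 268) (nat_lit 226))))) (XT.nd (nat_lit 156) (nat_lit 304) (nat_lit 0) (XT.nd (nat_lit 78) (nat_lit 304) (nat_lit 0) (XT.lf (nat_lit 0) (nat_lit 735408589) (nat_lit 380) (nat_lit 4584520914) (nat_lit 76) (nat_lit 5255341072) (nat_lit 72) (nat_lit 5) (nat_lit 77) (nat_lit 5) (nat_lit 73) (nat_lit 5) (nat_lit 287) (nat_lit 268) (nat_lit 225)) (XT.lf (nat_lit 0) (nat_lit 1179372431) (nat_lit 304) (nat_lit 1515267173) (nat_lit 380) (nat_lit 8161530984) (nat_lit 68) (nat_lit 5) (nat_lit 72) (nat_lit 5) (nat_lit 73) (nat_lit 5) (nat_lit 288) (nat_lit 268) (nat_lit 224))) (XT.nd (nat_lit 78) (nat_lit 304) (nat_lit 0) (XT.lf (nat_lit 0) (nat_lit 4821574020) (nat_lit 380) (nat_lit 3852537222) (nat_lit 76) (nat_lit 2473589596) (nat_lit 68) (nat_lit 5) (nat_lit 73) (nat_lit 5) (nat_lit 69) (nat_lit 5) (nat_lit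 289) (nat_lit 268) (nat_lit 223)) (XT.nd (nat_lit 78) (nat_lit 0) (nat_lit 0) (XT.lf (nat_lit 0) (nat_lit 2257058589) (nat_lit 304) (nat_lit 4812270325) (nat_lit 380) (nat_lit 4383823882) (nat_lit 64) (nat_lit 5) (nat_lit 68) (nat_lit 5) (nat_lit 69) (nat_lit 5) (nat_lit 290) (nat_lit 268) (nat_lit 222)) (XT.lf (nat_lit 0) (nat_lit 8753467206) (nat_lit 304) (nat_lit 696996534) (nat_lit 380) (nat_lit 2322429606) (nat_lit 64) (nat_lit 5) (nat_lit 68) (nat_lit 5) (nat_lit 69) (nat_lit 5) (nat_lit 291) (nat_lit 268) (nat_lit 221))))))) (XT.nd (nat_lit 780) (nat_lit 988) (nat_lit 0) (XT.nd (nat_lit 390) (nat_lit 684) (nat_lit 0) (XT.nd (nat_lit 156) (nat_lit 456) (nat_lit 0) (XT.nd (nat_lit 78) (nat_lit 76) (nat_lit 0) (XT.lf (nat_lit 0) (nat_lit 3468538197) (nat_lit 304) (nat_lit 8550585588) (nat_lit 380) (nat_lit 86136196) (nat_lit 60) (nat_lit 5) (nat_lit 64) (nat_lit 5) (nat_lit 65) (nat_lit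 5) (nat_lit 292) (nat_lit 268) (nat_lit 220)) (XT.lf (nat_lit 0) (nat_lit 2211191785) (nat_lit 380) (nat_lit 2166110486) (nat_lit 76) (nat_lit 8074152704) (nat_lit 59) (nat_lit 5) (nat_lit 64) (nat_lit 5) (nat_lit 60) (nat_lit 5) (nat_lit 293) (nat_lit 268) (nat_lit 219))) (XT.nd (nat_lit 78) (nat_lit 228) (nat_lit 0) (XT.lf (nat_lit 0) (nat_lit 4655659019) (nat_lit 304) (nat_lit 8086513724) (nat_lit 76) (nat_lit 71011965) (nat_lit 56) (nat_lit 5) (nat_lit 60) (nat_lit 5) (nat_lit 57) (nat_lit 5) (nat_lit 294) (nat_lit 268) (nat_lit 218)) (XT.nd (nat_lit 78) (nat_lit 228) (nat_lit 0) (XT.lf (nat_lit 0) (nat_lit 7292561511) (nat_lit 304) (nat_lit 1275312198) (nat_lit 76) (nat_lit 4621668025) (nat_lit 56) (nat_lit 5) (nat_lit 60) (nat_lit 5) (nat_lit 57) (nat_lit 5) (nat_lit 295) (nat_lit 268) (nat_lit 217)) (XT.lf (nat_lit 0) (nat_lit 6020496175) (nat_lit 228) (nat_lit 4097826281) (nat_lit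 304) (nat_lit 3463592446) (nat_lit 53) (nat_lit 5) (nat_lit 56) (nat_lit 5) (nat_lit 57) (nat_lit 5) (nat_lit 296) (nat_lit 268) (nat_lit 216))))) (XT.nd (nat_lit 156) (nat_lit 380) (nat_lit 0) (XT.nd (nat_lit 78) (nat_lit 304) (nat_lit 0) (XT.lf (nat_lit 0) (nat_lit 13080469150) (nat_lit 304) (nat_lit 326632387) (nat_lit 76) (nat_lit 587096929) (nat_lit 53) (nat_lit 5) (nat_lit 57) (nat_lit 5) (nat_lit 54) (nat_lit 5) (nat_lit 297) (nat_lit 268) (nat_lit 215)) (XT.lf (nat_lit 0) (nat_lit 1857721688) (nat_lit 304) (nat_lit 7057548738) (nat_lit 76) (nat_lit 5502964223) (nat_lit 49) (nat_lit 5) (nat_lit 53) (nat_lit 5) (nat_lit 50) (nat_lit 5) (nat_lit 298) (nat_lit 268) (nat_lit 214))) (XT.nd (nat_lit 78) (nat_lit 152) (nat_lit 0) (XT.lf (nat_lit 0) (nat_lit 534996678) (nat_lit 228) (nat_lit 4181907604) (nat_lit 304) (nat_lit 10146866358) (nat_lit 46) (nat_lit 5) (nat_lit 49) (nat_lit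 5) (nat_lit 50) (nat_lit 5) (nat_lit 299) (nat_lit 268) (nat_lit 213)) (XT.nd (nat_lit 78) (nat_lit 152) (nat_lit 0) (XT.lf (nat_lit 0) (nat_lit 7819405743) (nat_lit 304) (nat_lit 6635970383) (nat_lit 76) (nat_lit 871227675) (nat_lit 46) (nat_lit 5) (nat_lit 50) (nat_lit 5) (nat_lit 47) (nat_lit 5) (nat_lit 300) (nat_lit 268) (nat_lit 212)) (XT.lf (nat_lit 0) (nat_lit 1370800827) (nat_lit 152) (nat_lit 9764353665) (nat_lit 228) (nat_lit 4674554549) (nat_lit 44) (nat_lit 5) (nat_lit 46) (nat_lit 5) (nat_lit 47) (nat_lit 5) (nat_lit 301) (nat_lit 268) (nat_lit 211)))))) (XT.nd (nat_lit 390) (nat_lit 532) (nat_lit 0) (XT.nd (nat_lit 156) (nat_lit 152) (nat_lit 0) (XT.nd (nat_lit 78) (nat_lit 304) (nat_lit 0) (XT.lf (nat_lit 0) (nat_lit 9963047423) (nat_lit 152) (nat_lit 4735000457) (nat_lit 228) (nat_lit 1614888595) (nat_lit 44) (nat_lit 5) (nat_lit 46) (nat_lit 5) (nat_lit 47) (nat_lit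 5) (nat_lit 302) (nat_lit 268) (nat_lit 210)) (XT.lf (nat_lit 0) (nat_lit 1559276871) (nat_lit 304) (nat_lit 14706091256) (nat_lit 76) (nat_lit 574108705) (nat_lit 40) (nat_lit 5) (nat_lit 44) (nat_lit 5) (nat_lit 41) (nat_lit 5) (nat_lit 303) (nat_lit 268) (nat_lit 209))) (XT.nd (nat_lit 78) (nat_lit 152) (nat_lit 0) (XT.lf (nat_lit 0) (nat_lit 4995272735) (nat_lit 304) (nat_lit 6276232928) (nat_lit 76) (nat_lit 6111675272) (nat_lit 40) (nat_lit 5) (nat_lit 44) (nat_lit 5) (nat_lit 41) (nat_lit 5) (nat_lit 304) (nat_lit 268) (nat_lit 208)) (XT.nd (nat_lit 78) (nat_lit 0) (nat_lit 0) (XT.lf (nat_lit 0) (nat_lit 2616300143) (nat_lit 152) (nat_lit 5999490922) (nat_lit 228) (nat_lit 9337671666) (nat_lit 38) (nat_lit 5) (nat_lit 40) (nat_lit 5) (nat_lit 41) (nat_lit 5) (nat_lit 305) (nat_lit 268) (nat_lit 207)) (XT.lf (nat_lit 0) (nat_lit 12129486778) (nat_lit 152) (nat_lit 366700061) (nat_lit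 228) (nat_lit 6052156462) (nat_lit 38) (nat_lit 5) (nat_lit 40) (nat_lit 5) (nat_lit 41) (nat_lit 5) (nat_lit 306) (nat_lit 268) (nat_lit 206))))) (XT.nd (nat_lit 234) (nat_lit 152) (nat_lit 0) (XT.nd (nat_lit 78) (nat_lit 228) (nat_lit 0) (XT.lf (nat_lit 0) (nat_lit 2910922972) (nat_lit 152) (nat_lit 13765395273) (nat_lit 228) (nat_lit 2491389823) (nat_lit 36) (nat_lit 5) (nat_lit 38) (nat_lit 5) (nat_lit 39) (nat_lit 5) (nat_lit 307) (nat_lit 268) (nat_lit 205)) (XT.nd (nat_lit 78) (nat_lit 152) (nat_lit 0) (XT.lf (nat_lit 0) (nat_lit 1297821940) (nat_lit 228) (nat_lit 6951056860) (nat_lit 76) (nat_lit 11563695447) (nat_lit 35) (nat_lit 5) (nat_lit 38) (nat_lit 5) (nat_lit 36) (nat_lit 5) (nat_lit 308) (nat_lit 268) (nat_lit 204)) (XT.lf (nat_lit 0) (nat_lit 2830448740) (nat_lit 152) (nat_lit 2381587732) (nat_lit 228) (nat_lit 15274664104) (nat_lit 33) (nat_lit 5) (nat_lit 35) (nat_lit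 5) (nat_lit 36) (nat_lit 5) (nat_lit 309) (nat_lit 268) (nat_lit 203)))) (XT.nd (nat_lit 78) (nat_lit 152) (nat_lit 0) (XT.lf (nat_lit 0) (nat_lit 9476051542) (nat_lit 228) (nat_lit 7946864934) (nat_lit 76) (nat_lit 3763933616) (nat_lit 33) (nat_lit 5) (nat_lit 36) (nat_lit 5) (nat_lit 34) (nat_lit 5) (nat_lit 310) (nat_lit 268) (nat_lit 202)) (XT.nd (nat_lit 78) (nat_lit 0) (nat_lit 0) (XT.lf (nat_lit 0) (nat_lit 2242985447) (nat_lit 152) (nat_lit 11760951845) (nat_lit 228) (nat_lit 7915556635) (nat_lit 31) (nat_lit 5) (nat_lit 33) (nat_lit 5) (nat_lit 34) (nat_lit 5) (nat_lit 311) (nat_lit 268) (nat_lit 201)) (XT.lf (nat_lit 0) (nat_lit 13181081486) (nat_lit 152) (nat_lit 5688862037) (nat_lit 228) (nat_lit 3813259496) (nat_lit 31) (nat_lit 5) (nat_lit 33) (nat_lit 5) (nat_lit 34) (nat_lit 5) (nat_lit 312) (nat_lit 268) (nat_lit 200))))))))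
noncomputable def xc131 : XT := (XT.nd (nat_lit 1638) (nat_lit 532) (nat_lit 0) (XT.nd (nat_lit 780) (nat_lit 608) (nat_lit 0) (XT.nd (nat_lit 390) (nat_lit 304) (nat_lit 0) (XT.nd (nat_lit 156) (nat_lit 152) (nat_lit 0) (XT.nd (nat_lit 78) (nat_lit 0) (nat_lit 0) (XT.lf (nat_lit 0) (nat_lit 485465742) (nat_lit 228) (nat_lit 22321108043) (nat_lit 76) (nat_lit 677799135) (nat_lit 28) (nat_lit 5) (nat_lit 31) (nat_lit 5) (nat_lit 29) (nat_lit 5) (nat_lit 313) (nat_lit 268) (nat_lit 199)) (XT.lf (nat_lit 0) (nat_lit 5105936362) (nat_lit 228) (nat_lit 11820577291) (nat_lit 76) (nat_lit 7384230795) (nat_lit 28) (nat_lit 5) (nat_lit 31) (nat_lit 5) (nat_lit 29) (nat_lit 5) (nat_lit 314) (nat_lit 268) (nat_lit 198))) (XT.nd (nat_lit 78) (nat_lit 152) (nat_lit 0) (XT.lf (nat_lit 0) (nat_lit 9936610037) (nat_lit 228) (nat_lit 829709880) (nat_lit 76) (nat_lit 14413171597) (nat_lit 28) (nat_lit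 5) (nat_lit 31) (nat_lit 5) (nat_lit 29) (nat_lit 5) (nat_lit 315) (nat_lit 268) (nat_lit 197)) (XT.nd (nat_lit 78) (nat_lit 0) (nat_lit 0) (XT.lf (nat_lit 0) (nat_lit 11030714681) (nat_lit 152) (nat_lit 4130494059) (nat_lit 228) (nat_lit 10922862804) (nat_lit 26) (nat_lit 5) (nat_lit 28) (nat_lit 5) (nat_lit 29) (nat_lit 5) (nat_lit 316) (nat_lit 268) (nat_lit 196)) (XT.lf (nat_lit 0) (nat_lit 20686017705) (nat_lit 228) (nat_lit 3598022122) (nat_lit 76) (nat_lit 2747906190) (nat_lit 26) (nat_lit 5) (nat_lit 29) (nat_lit 5) (nat_lit 27) (nat_lit 4) (nat_lit 317) (nat_lit 268) (nat_lit 195))))) (XT.nd (nat_lit 156) (nat_lit 152) (nat_lit 0) (XT.nd (nat_lit 78) (nat_lit 76) (nat_lit 0) (XT.lf (nat_lit 0) (nat_lit 8606116330) (nat_lit 76) (nat_lit 18064365581) (nat_lit 152) (nat_lit 1347575330) (nat_lit 25) (nat_lit 5) (nat_lit 26) (nat_lit 5) (nat_lit 27) (nat_lit 4) (nat_lit 318) (nat_lit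 268) (nat_lit 194)) (XT.lf (nat_lit 0) (nat_lit 3819207788) (nat_lit 152) (nat_lit 7598764939) (nat_lit 76) (nat_lit 17630300794) (nat_lit 24) (nat_lit 5) (nat_lit 26) (nat_lit 5) (nat_lit 25) (nat_lit 5) (nat_lit 319) (nat_lit 268) (nat_lit 193))) (XT.nd (nat_lit 78) (nat_lit 0) (nat_lit 0) (XT.lf (nat_lit 0) (nat_lit 4909823618) (nat_lit 152) (nat_lit 4348185594) (nat_lit 228) (nat_lit 20867950401) (nat_lit 22) (nat_lit 5) (nat_lit 24) (nat_lit 5) (nat_lit 25) (nat_lit 5) (nat_lit 320) (nat_lit 268) (nat_lit 192)) (XT.nd (nat_lit 78) (nat_lit 0) (nat_lit 0) (XT.lf (nat_lit 0) (nat_lit 15130052107) (nat_lit 228) (nat_lit 13024055397) (nat_lit 76) (nat_lit 3095368761) (nat_lit 22) (nat_lit 5) (nat_lit 25) (nat_lit 5) (nat_lit 23) (nat_lit 4) (nat_lit 321) (nat_lit 268) (nat_lit 191)) (XT.lf (nat_lit 0) (nat_lit 21350304783) (nat_lit 228) (nat_lit 322693405) (nat_lit 76) (nat_lit 10753450968)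 (nat_lit 22) (nat_lit 5) (nat_lit 25) (nat_lit 5) (nat_lit 23) (nat_lit 4) (nat_lit 322) (nat_lit 268) (nat_lit 190)))))) (XT.nd (nat_lit 390) (nat_lit 304) (nat_lit 0) (XT.nd (nat_lit 156) (nat_lit 152) (nat_lit 0) (XT.nd (nat_lit 78) (nat_lit 76) (nat_lit 0) (XT.lf (nat_lit 0) (nat_lit 13415457087) (nat_lit 76) (nat_lit 14659685796) (nat_lit 152) (nat_lit 5577459443) (nat_lit 21) (nat_lit 5) (nat_lit 22) (nat_lit 5) (nat_lit 23) (nat_lit 4) (nat_lit 323) (nat_lit 268) (nat_lit 189)) (XT.lf (nat_lit 0) (nat_lit 179622837) (nat_lit 152) (nat_lit 7118967888) (nat_lit 76) (nat_lit 27641841547) (nat_lit 20) (nat_lit 5) (nat_lit 22) (nat_lit 5) (nat_lit 21) (nat_lit 5) (nat_lit 324) (nat_lit 268) (nat_lit 188))) (XT.nd (nat_lit 78) (nat_lit 0) (nat_lit 0) (XT.lf (nat_lit 0) (nat_lit 6137271873) (nat_lit 228) (nat_lit 29539931157) (nat_lit 76) (nat_lit 605880278) (nat_lit 18) (nat_lit 5)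 (nat_lit 21) (nat_lit 5) (nat_lit 19) (nat_lit 4) (nat_lit 325) (nat_lit 268) (nat_lit 187)) (XT.nd (nat_lit 78) (nat_lit 0) (nat_lit 0) (XT.lf (nat_lit 0) (nat_lit 12620067543) (nat_lit 228) (nat_lit 16289498569) (nat_lit 76) (nat_lit 8771946029) (nat_lit 18) (nat_lit 5) (nat_lit 21) (nat_lit 5) (nat_lit 19) (nat_lit 4) (nat_lit 326) (nat_lit 268) (nat_lit 186)) (XT.lf (nat_lit 0) (nat_lit 19412789225) (nat_lit 228) (nat_lit 2401846294) (nat_lit 76) (nat_lit 17335945633) (nat_lit 18) (nat_lit 5) (nat_lit 21) (nat_lit 5) (nat_lit 19) (nat_lit 4) (nat_lit 327) (nat_lit 268) (nat_lit 185))))) (XT.nd (nat_lit 234) (nat_lit 152) (nat_lit 0) (XT.nd (nat_lit 78) (nat_lit 76) (nat_lit 0) (XT.lf (nat_lit 0) (nat_lit 12558026787) (nat_lit 76) (nat_lit 14169649272) (nat_lit 152) (nat_lit 13956308768) (nat_lit 17) (nat_lit 5) (nat_lit 18) (nat_lit 5) (nat_lit 19) (nat_lit 4) (nat_lit 328) (nat_lit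 268) (nat_lit 184)) (XT.nd (nat_lit 78) (nat_lit 76) (nat_lit 0) (XT.lf (nat_lit 0) (nat_lit 28325571778) (nat_lit 76) (nat_lit 6110149424) (nat_lit 152) (nat_lit 7856974089) (nat_lit 17) (nat_lit 5) (nat_lit 18) (nat_lit 5) (nat_lit 19) (nat_lit 4) (nat_lit 329) (nat_lit 268) (nat_lit 183)) (XT.lf (nat_lit 0) (nat_lit 867633406) (nat_lit 76) (nat_lit 41699021533) (nat_lit 76) (nat_lit 1413318973) (nat_lit 16) (nat_lit 4) (nat_lit 17) (nat_lit 5) (nat_lit 17) (nat_lit 4) (nat_lit 330) (nat_lit 268) (nat_lit 182)))) (XT.nd (nat_lit 78) (nat_lit 76) (nat_lit 0) (XT.lf (nat_lit 0) (nat_lit 5509045463) (nat_lit 152) (nat_lit 29021484529) (nat_lit 76) (nat_lit 11200522360) (nat_lit 15) (nat_lit 5) (nat_lit 17) (nat_lit 5) (nat_lit 16) (nat_lit 4) (nat_lit 331) (nat_lit 268) (nat_lit 181)) (XT.nd (nat_lit 78) (nat_lit 76) (nat_lit 0) (XT.lf (nat_lit 0) (nat_lit 12717894685) (nat_lit 152) (nat_lit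 14271272359) (nat_lit 76) (nat_lit 20579972052) (nat_lit 15) (nat_lit 5) (nat_lit 17) (nat_lit 5) (nat_lit 16) (nat_lit 4) (nat_lit 332) (nat_lit 268) (nat_lit 180)) (XT.lf (nat_lit 0) (nat_lit 1235009439) (nat_lit 76) (nat_lit 19059900169) (nat_lit 152) (nat_lit 29203840128) (nat_lit 14) (nat_lit 5) (nat_lit 15) (nat_lit 5) (nat_lit 16) (nat_lit 4) (nat_lit 333) (nat_lit 268) (nat_lit 179))))))) (XT.nd (nat_lit 780) (nat_lit 304) (nat_lit 0) (XT.nd (nat_lit 390) (nat_lit 76) (nat_lit 0) (XT.nd (nat_lit 156) (nat_lit 152) (nat_lit 0) (XT.nd (nat_lit 78) (nat_lit 0) (nat_lit 0) (XT.lf (nat_lit 0) (nat_lit 17991440896) (nat_lit 76) (nat_lit 10489694879) (nat_lit 152) (nat_lit 23032192556) (nat_lit 14) (nat_lit 5) (nat_lit 15) (nat_lit 5) (nat_lit 16) (nat_lit 4) (nat_lit 334) (nat_lit 268) (nat_lit 178)) (XT.lf (nat_lit 0) (nat_lit 35566045560) (nat_lit 76) (nat_lit 1499836827) (nat_lit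 152) (nat_lit 16563298201) (nat_lit 14) (nat_lit 5) (nat_lit 15) (nat_lit 5) (nat_lit 16) (nat_lit 4) (nat_lit 335) (nat_lit 268) (nat_lit 177))) (XT.nd (nat_lit 78) (nat_lit 152) (nat_lit 0) (XT.lf (nat_lit 0) (nat_lit 46193415678) (nat_lit 152) (nat_lit 1974502884) (nat_lit 0) (nat_lit 7677234370) (nat_lit 14) (nat_lit 5) (nat_lit 16) (nat_lit 4) (nat_lit 14) (nat_lit 4) (nat_lit 336) (nat_lit 268) (nat_lit 176)) (XT.nd (nat_lit 78) (nat_lit 76) (nat_lit 0) (XT.lf (nat_lit 0) (nat_lit 15367643645) (nat_lit 76) (nat_lit 40664288397) (nat_lit 76) (nat_lit 2127266237) (nat_lit 13) (nat_lit 4) (nat_lit 14) (nat_lit 5) (nat_lit 14) (nat_lit 4) (nat_lit 337) (nat_lit 268) (nat_lit 175)) (XT.lf (nat_lit 0) (nat_lit 5612745787) (nat_lit 152) (nat_lit 27050741725) (nat_lit 76) (nat_lit 27919750522) (nat_lit 12) (nat_lit 5) (nat_lit 14) (nat_lit 5) (nat_lit 13) (nat_lit 4) (nat_lit 338) (nat_lit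 268) (nat_lit 174))))) (XT.nd (nat_lit 156) (nat_lit 0) (nat_lit 0) (XT.nd (nat_lit 78) (nat_lit 76) (nat_lit 0) (XT.lf (nat_lit 0) (nat_lit 13658854866) (nat_lit 152) (nat_lit 10575121379) (nat_lit 76) (nat_lit 38893234607) (nat_lit 12) (nat_lit 5) (nat_lit 14) (nat_lit 5) (nat_lit 13) (nat_lit 4) (nat_lit 339) (nat_lit 268) (nat_lit 173)) (XT.lf (nat_lit 0) (nat_lit 6929535054) (nat_lit 76) (nat_lit 15276958614) (nat_lit 152) (nat_lit 43586931302) (nat_lit 11) (nat_lit 5) (nat_lit 12) (nat_lit 5) (nat_lit 13) (nat_lit 4) (nat_lit 340) (nat_lit 268) (nat_lit 172))) (XT.nd (nat_lit 78) (nat_lit 0) (nat_lit 0) (XT.lf (nat_lit 0) (nat_lit 25660301986) (nat_lit 76) (nat_lit 5691514976) (nat_lit 152) (nat_lit 37232621392) (nat_lit 11) (nat_lit 5) (nat_lit 12) (nat_lit 5) (nat_lit 13) (nat_lit 4) (nat_lit 341) (nat_lit 268) (nat_lit 171)) (XT.nd (nat_lit 78) (nat_lit 0) (nat_lit 0) (XT.lf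 (nat_lit 0) (nat_lit 41014199633) (nat_lit 152) (nat_lit 26271476174) (nat_lit 0) (nat_lit 4226340452) (nat_lit 11) (nat_lit 5) (nat_lit 13) (nat_lit 4) (nat_lit 11) (nat_lit 4) (nat_lit 342) (nat_lit 268) (nat_lit 170)) (XT.lf (nat_lit 0) (nat_lit 51244924287) (nat_lit 152) (nat_lit 8894537072) (nat_lit 0) (nat_lit 14442253902) (nat_lit 11) (nat_lit 5) (nat_lit 13) (nat_lit 4) (nat_lit 11) (nat_lit 4) (nat_lit 343) (nat_lit 268) (nat_lit 169)))))) (XT.nd (nat_lit 390) (nat_lit 76) (nat_lit 0) (XT.nd (nat_lit 156) (nat_lit 152) (nat_lit 0) (XT.nd (nat_lit 78) (nat_lit 0) (nat_lit 0) (XT.lf (nat_lit 0) (nat_lit 9645635679) (nat_lit 76) (nat_lit 52484449019) (nat_lit 76) (nat_lit 15667672726) (nat_lit 10) (nat_lit 4) (nat_lit 11) (nat_lit 5) (nat_lit 11) (nat_lit 4) (nat_lit 344) (nat_lit 268) (nat_lit 168)) (XT.lf (nat_lit 0) (nat_lit 29407512618) (nat_lit 76) (nat_lit 44295074209) (nat_lit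 76) (nat_lit 7464863717) (nat_lit 10) (nat_lit 4) (nat_lit 11) (nat_lit 5) (nat_lit 11) (nat_lit 4) (nat_lit 345) (nat_lit 268) (nat_lit 167))) (XT.nd (nat_lit 78) (nat_lit 76) (nat_lit 0) (XT.lf (nat_lit 0) (nat_lit 1104029073) (nat_lit 152) (nat_lit 34579745366) (nat_lit 76) (nat_lit 49021325927) (nat_lit 9) (nat_lit 5) (nat_lit 11) (nat_lit 5) (nat_lit 10) (nat_lit 4) (nat_lit 346) (nat_lit 268) (nat_lit 166)) (XT.nd (nat_lit 78) (nat_lit 76) (nat_lit 0) (XT.lf (nat_lit 0) (nat_lit 9843535508) (nat_lit 152) (nat_lit 16675942388) (nat_lit 76) (nat_lit 61894386796) (nat_lit 9) (nat_lit 5) (nat_lit 11) (nat_lit 5) (nat_lit 10) (nat_lit 4) (nat_lit 347) (nat_lit 268) (nat_lit 165)) (XT.lf (nat_lit 0) (nat_lit 2180434060) (nat_lit 76) (nat_lit 16866994821) (nat_lit 152) (nat_lit 73259270268) (nat_lit 8) (nat_lit 5) (nat_lit 9) (nat_lit 5) (nat_lit 10) (nat_lit 4) (nat_lit 348) (nat_lit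 268) (nat_lit 164))))) (XT.nd (nat_lit 234) (nat_lit 76) (nat_lit 0) (XT.nd (nat_lit 78) (nat_lit 0) (nat_lit 0) (XT.lf (nat_lit 0) (nat_lit 22546376276) (nat_lit 76) (nat_lit 6441049953) (nat_lit 152) (nat_lit 67392956011) (nat_lit 8) (nat_lit 5) (nat_lit 9) (nat_lit 5) (nat_lit 10) (nat_lit 4) (nat_lit 349) (nat_lit 268) (nat_lit 163)) (XT.nd (nat_lit 78) (nat_lit 0) (nat_lit 0) (XT.lf (nat_lit 0) (nat_lit 39488496961) (nat_lit 152) (nat_lit 56809338477) (nat_lit 0) (nat_lit 4356712636) (nat_lit 8) (nat_lit 5) (nat_lit 10) (nat_lit 4) (nat_lit 8) (nat_lit 4) (nat_lit 350) (nat_lit 268) (nat_lit 162)) (XT.lf (nat_lit 0) (nat_lit 50614230523) (nat_lit 152) (nat_lit 39050314605) (nat_lit 0) (nat_lit 15472898764) (nat_lit 8) (nat_lit 5) (nat_lit 10) (nat_lit 4) (nat_lit 8) (nat_lit 4) (nat_lit 351) (nat_lit 268) (nat_lit 161)))) (XT.nd (nat_lit 78) (nat_lit 76) (nat_lit 0) (XT.lf (nat_lit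 0) (nat_lit 62290553917) (nat_lit 152) (nat_lit 20414088116) (nat_lit 0) (nat_lit 27140129363) (nat_lit 8) (nat_lit 5) (nat_lit 10) (nat_lit 4) (nat_lit 8) (nat_lit 4) (nat_lit 352) (nat_lit 268) (nat_lit 160)) (XT.nd (nat_lit 78) (nat_lit 76) (nat_lit 0) (XT.lf (nat_lit 0) (nat_lit 74545267912) (nat_lit 152) (nat_lit 856287043) (nat_lit 0) (nat_lit 39386183554) (nat_lit 8) (nat_lit 5) (nat_lit 10) (nat_lit 4) (nat_lit 8) (nat_lit 4) (nat_lit 353) (nat_lit 268) (nat_lit 159)) (XT.lf (nat_lit 0) (nat_lit 20320022425) (nat_lit 76) (nat_lit 67404780472) (nat_lit 76) (nat_lit 32237448681) (nat_lit 7) (nat_lit 4) (nat_lit 8) (nat_lit 5) (nat_lit 8) (nat_lit 4) (nat_lit 354) (nat_lit 268) (nat_lit 158))))))))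
noncomputable def xc132 : XT := (XT.nd (nat_lit 1560) (nat_lit 152) (nat_lit 0) (XT.nd (nat_lit 780) (nat_lit 76) (nat_lit 0) (XT.nd (nat_lit 390) (nat_lit 76) (nat_lit 0) (XT.nd (nat_lit 156) (nat_lit 76) (nat_lit 0) (XT.nd (nat_lit 78) (nat_lit 0) (nat_lit 0) (XT.lf (nat_lit 0) (nat_lit 42575283690) (nat_lit 76) (nat_lit 58997461667) (nat_lit 76) (nat_lit 23822275178) (nat_lit 7) (nat_lit 4) (nat_lit 8) (nat_lit 5) (nat_lit 8) (nat_lit 4) (nat_lit 355) (nat_lit 268) (nat_lit 157)) (XT.lf (nat_lit 0) (nat_lit 65934172751) (nat_lit 76) (nat_lit 50174082752) (nat_lit 76) (nat_lit 14991415599) (nat_lit 7) (nat_lit 4) (nat_lit 8) (nat_lit 5) (nat_lit 8) (nat_lit 4) (nat_lit 356) (nat_lit 268) (nat_lit 156))) (XT.nd (nat_lit 78) (nat_lit 76) (nat_lit 0) (XT.lf (nat_lit 0) (nat_lit 90452306012) (nat_lit 76) (nat_lit 40913635682) (nat_lit 76) (nat_lit 5723844086) (nat_lit 7) (nat_lit 4) (nat_lit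 8) (nat_lit 5) (nat_lit 8) (nat_lit 4) (nat_lit 357) (nat_lit 268) (nat_lit 155)) (XT.nd (nat_lit 78) (nat_lit 0) (nat_lit 0) (XT.lf (nat_lit 0) (nat_lit 3874399849) (nat_lit 152) (nat_lit 27254057087) (nat_lit 76) (nat_lit 112248045294) (nat_lit 6) (nat_lit 5) (nat_lit 8) (nat_lit 5) (nat_lit 7) (nat_lit 4) (nat_lit 358) (nat_lit 268) (nat_lit 154)) (XT.lf (nat_lit 0) (nat_lit 13755955635) (nat_lit 152) (nat_lit 7003329806) (nat_lit 76) (nat_lit 129213790859) (nat_lit 6) (nat_lit 5) (nat_lit 8) (nat_lit 5) (nat_lit 7) (nat_lit 4) (nat_lit 359) (nat_lit 268) (nat_lit 153))))) (XT.nd (nat_lit 156) (nat_lit 0) (nat_lit 0) (XT.nd (nat_lit 78) (nat_lit 0) (nat_lit 0) (XT.lf (nat_lit 0) (nat_lit 14723528191) (nat_lit 76) (nat_lit 9633896887) (nat_lit 152) (nat_lit 132530763526) (nat_lit 5) (nat_lit 5) (nat_lit 6) (nat_lit 5) (nat_lit 7) (nat_lit 4) (nat_lit 360) (nat_lit 268) (nat_lit 152))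 (XT.lf (nat_lit 0) (nat_lit 35637467962) (nat_lit 152) (nat_lit 126404844017) (nat_lit 0) (nat_lit 2099320804) (nat_lit 5) (nat_lit 5) (nat_lit 7) (nat_lit 4) (nat_lit 5) (nat_lit 4) (nat_lit 361) (nat_lit 268) (nat_lit 151))) (XT.nd (nat_lit 78) (nat_lit 0) (nat_lit 0) (XT.lf (nat_lit 0) (nat_lit 47635616736) (nat_lit 152) (nat_lit 110022275242) (nat_lit 0) (nat_lit 14092153209) (nat_lit 5) (nat_lit 5) (nat_lit 7) (nat_lit 4) (nat_lit 5) (nat_lit 4) (nat_lit 362) (nat_lit 268) (nat_lit 150)) (XT.nd (nat_lit 78) (nat_lit 0) (nat_lit 0) (XT.lf (nat_lit 0) (nat_lit 60230026290) (nat_lit 152) (nat_lit 92827535842) (nat_lit 0) (nat_lit 26681499555) (nat_lit 5) (nat_lit 5) (nat_lit 7) (nat_lit 4) (nat_lit 5) (nat_lit 4) (nat_lit 363) (nat_lit 268) (nat_lit 149)) (XT.lf (nat_lit 0) (nat_lit 73450683314) (nat_lit 152) (nat_lit 74779685960) (nat_lit 0) (nat_lit 39897334476) (nat_lit 5) (nat_lit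 5) (nat_lit 7) (nat_lit 4) (nat_lit 5) (nat_lit 4) (nat_lit 364) (nat_lit 268) (nat_lit 148)))))) (XT.nd (nat_lit 390) (nat_lit 0) (nat_lit 0) (XT.nd (nat_lit 156) (nat_lit 76) (nat_lit 0) (XT.nd (nat_lit 78) (nat_lit 0) (nat_lit 0) (XT.lf (nat_lit 0) (nat_lit 87329065563) (nat_lit 152) (nat_lit 55835754526) (nat_lit 0) (nat_lit 53771124247) (nat_lit 5) (nat_lit 5) (nat_lit 7) (nat_lit 4) (nat_lit 5) (nat_lit 4) (nat_lit 365) (nat_lit 268) (nat_lit 147)) (XT.lf (nat_lit 0) (nat_lit 101898216805) (nat_lit 152) (nat_lit 35950636942) (nat_lit 0) (nat_lit 68335901698) (nat_lit 5) (nat_lit 5) (nat_lit 7) (nat_lit 4) (nat_lit 5) (nat_lit 4) (nat_lit 366) (nat_lit 268) (nat_lit 146))) (XT.nd (nat_lit 78) (nat_lit 76) (nat_lit 0) (XT.lf (nat_lit 0) (nat_lit 117192825494) (nat_lit 152) (nat_lit 15076987688) (nat_lit 0) (nat_lit 83626344873) (nat_lit 5) (nat_lit 5) (nat_lit 7) (nat_lit 4) (nat_lit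 5) (nat_lit 4) (nat_lit 367) (nat_lit 268) (nat_lit 145)) (XT.nd (nat_lit 78) (nat_lit 0) (nat_lit 0) (XT.lf (nat_lit 0) (nat_lit 7060884808) (nat_lit 76) (nat_lit 126298662757) (nat_lit 76) (nat_lit 92728214981) (nat_lit 4) (nat_lit 4) (nat_lit 5) (nat_lit 5) (nat_lit 5) (nat_lit 4) (nat_lit 368) (nat_lit 268) (nat_lit 144)) (XT.lf (nat_lit 0) (nat_lit 30823726198) (nat_lit 76) (nat_lit 119763410689) (nat_lit 76) (nat_lit 86189184668) (nat_lit 4) (nat_lit 4) (nat_lit 5) (nat_lit 5) (nat_lit 5) (nat_lit 4) (nat_lit 369) (nat_lit 268) (nat_lit 143))))) (XT.nd (nat_lit 156) (nat_lit 0) (nat_lit 0) (XT.nd (nat_lit 78) (nat_lit 0) (nat_lit 0) (XT.lf (nat_lit 0) (nat_lit 55769601373) (nat_lit 76) (nat_lit 112903832936) (nat_lit 76) (nat_lit 79326008588) (nat_lit 4) (nat_lit 4) (nat_lit 5) (nat_lit 5) (nat_lit 5) (nat_lit 4) (nat_lit 370) (nat_lit 268) (nat_lit 142)) (XT.lf (nat_lit 0) (nat_lit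 81957905273) (nat_lit 76) (nat_lit 105703597170) (nat_lit 76) (nat_lit 72122345844) (nat_lit 4) (nat_lit 4) (nat_lit 5) (nat_lit 5) (nat_lit 5) (nat_lit 4) (nat_lit 371) (nat_lit 268) (nat_lit 141))) (XT.nd (nat_lit 78) (nat_lit 0) (nat_lit 0) (XT.lf (nat_lit 0) (nat_lit 109450991003) (nat_lit 76) (nat_lit 98145559974) (nat_lit 76) (nat_lit 64561044858) (nat_lit 4) (nat_lit 4) (nat_lit 5) (nat_lit 5) (nat_lit 5) (nat_lit 4) (nat_lit 372) (nat_lit 268) (nat_lit 140)) (XT.nd (nat_lit 78) (nat_lit 0) (nat_lit 0) (XT.lf (nat_lit 0) (nat_lit 138314318290) (nat_lit 76) (nat_lit 90211726019) (nat_lit 76) (nat_lit 56624102533) (nat_lit 4) (nat_lit 4) (nat_lit 5) (nat_lit 5) (nat_lit 5) (nat_lit 4) (nat_lit 373) (nat_lit 268) (nat_lit 139)) (XT.lf (nat_lit 0) (nat_lit 168616609343) (nat_lit 76) (nat_lit 81883205226) (nat_lit 76) (nat_lit 48292621387) (nat_lit 4) (nat_lit 4) (nat_lit 5) (nat_lit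 5) (nat_lit 5) (nat_lit 4) (nat_lit 374) (nat_lit 268) (nat_lit 138))))))) (XT.nd (nat_lit 780) (nat_lit 0) (nat_lit 0) (XT.nd (nat_lit 390) (nat_lit 76) (nat_lit 0) (XT.nd (nat_lit 156) (nat_lit 76) (nat_lit 0) (XT.nd (nat_lit 78) (nat_lit 0) (nat_lit 0) (XT.lf (nat_lit 0) (nat_lit 200430012474) (nat_lit 76) (nat_lit 73140167783) (nat_lit 76) (nat_lit 39546764560) (nat_lit 4) (nat_lit 4) (nat_lit 5) (nat_lit 5) (nat_lit 5) (nat_lit 4) (nat_lit 375) (nat_lit 268) (nat_lit 137)) (XT.lf (nat_lit 0) (nat_lit 233830273880) (nat_lit 76) (nat_lit 63961796934) (nat_lit 76) (nat_lit 30365708584) (nat_lit 4) (nat_lit 4) (nat_lit 5) (nat_lit 5) (nat_lit 5) (nat_lit 4) (nat_lit 376) (nat_lit 268) (nat_lit 136))) (XT.nd (nat_lit 78) (nat_lit 76) (nat_lit 0) (XT.lf (nat_lit 0) (nat_lit 268896917994) (nat_lit 76) (nat_lit 54326239415) (nat_lit 76) (nat_lit 20727593801) (nat_lit 4) (nat_lit 4) (nat_lit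 5) (nat_lit 5) (nat_lit 5) (nat_lit 4) (nat_lit 377) (nat_lit 268) (nat_lit 135)) (XT.nd (nat_lit 78) (nat_lit 76) (nat_lit 0) (XT.lf (nat_lit 0) (nat_lit 305713436825) (nat_lit 76) (nat_lit 44210553423) (nat_lit 76) (nat_lit 10609472319) (nat_lit 4) (nat_lit 4) (nat_lit 5) (nat_lit 5) (nat_lit 5) (nat_lit 4) (nat_lit 378) (nat_lit 268) (nat_lit 134)) (XT.lf (nat_lit 0) (nat_lit 12338655) (nat_lit 152) (nat_lit 33578106375) (nat_lit 76) (nat_lit 344354941135) (nat_lit 3) (nat_lit 5) (nat_lit 5) (nat_lit 5) (nat_lit 4) (nat_lit 4) (nat_lit 379) (nat_lit 268) (nat_lit 133))))) (XT.nd (nat_lit 156) (nat_lit 0) (nat_lit 0) (XT.nd (nat_lit 78) (nat_lit 76) (nat_lit 0) (XT.lf (nat_lit 0) (nat_lit 10807024983) (nat_lit 152) (nat_lit 11451208463) (nat_lit 76) (nat_lit 373961060050) (nat_lit 3) (nat_lit 5) (nat_lit 5) (nat_lit 5) (nat_lit 4) (nat_lit 4) (nat_lit 380) (nat_lit 268) (nat_lit 132))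 (XT.lf (nat_lit 0) (nat_lit 12168461436) (nat_lit 76) (nat_lit 10161380018) (nat_lit 152) (nat_lit 393067635401) (nat_lit 2) (nat_lit 5) (nat_lit 3) (nat_lit 5) (nat_lit 4) (nat_lit 4) (nat_lit 381) (nat_lit 268) (nat_lit 131))) (XT.nd (nat_lit 78) (nat_lit 0) (nat_lit 0) (XT.lf (nat_lit 0) (nat_lit 34663989785) (nat_lit 152) (nat_lit 398204085196) (nat_lit 0) (nat_lit 2654735280) (nat_lit 2) (nat_lit 5) (nat_lit 4) (nat_lit 4) (nat_lit 2) (nat_lit 4) (nat_lit 382) (nat_lit 268) (nat_lit 130)) (XT.nd (nat_lit 78) (nat_lit 0) (nat_lit 0) (XT.lf (nat_lit 0) (nat_lit 47779919452) (nat_lit 152) (nat_lit 393097390052) (nat_lit 0) (nat_lit 15768847547) (nat_lit 2) (nat_lit 5) (nat_lit 4) (nat_lit 4) (nat_lit 2) (nat_lit 4) (nat_lit 383) (nat_lit 268) (nat_lit 129)) (XT.lf (nat_lit 0) (nat_lit 61550211241) (nat_lit 152) (nat_lit 387738123571) (nat_lit 0) (nat_lit 29537408479) (nat_lit 2) (nat_lit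 5) (nat_lit 4) (nat_lit 4) (nat_lit 2) (nat_lit 4) (nat_lit 384) (nat_lit 268) (nat_lit 128)))))) (XT.nd (nat_lit 31668) (nat_lit 0) (nat_lit 8360) (XT.nd (nat_lit 156) (nat_lit 0) (nat_lit 0) (XT.nd (nat_lit 78) (nat_lit 0) (nat_lit 0) (XT.lf (nat_lit 0) (nat_lit 76007651560) (nat_lit 152) (nat_lit 382113525595) (nat_lit 0) (nat_lit 43993200363) (nat_lit 2) (nat_lit 5) (nat_lit 4) (nat_lit 4) (nat_lit 2) (nat_lit 4) (nat_lit 385) (nat_lit 268) (nat_lit 127)) (XT.lf (nat_lit 0) (nat_lit 91186662887) (nat_lit 152) (nat_lit 376210204223) (nat_lit 0) (nat_lit 59170641751) (nat_lit 2) (nat_lit 5) (nat_lit 4) (nat_lit 4) (nat_lit 2) (nat_lit 4) (nat_lit 386) (nat_lit 268) (nat_lit 126))) (XT.nd (nat_lit 78) (nat_lit 0) (nat_lit 0) (XT.lf (nat_lit 0) (nat_lit 107123385724) (nat_lit 152) (nat_lit 370014103928) (nat_lit 0) (nat_lit 75105869409) (nat_lit 2) (nat_lit 5) (nat_lit 4) (nat_lit 4)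 (nat_lit 2) (nat_lit 4) (nat_lit 387) (nat_lit 268) (nat_lit 125)) (XT.nd (nat_lit 31356) (nat_lit 0) (nat_lit 8892) (XT.lf (nat_lit 0) (nat_lit 123855764650) (nat_lit 152) (nat_lit 363510472091) (nat_lit 0) (nat_lit 91836824355) (nat_lit 2) (nat_lit 5) (nat_lit 4) (nat_lit 4) (nat_lit 2) (nat_lit 4) (nat_lit 388) (nat_lit 268) (nat_lit 124)) (XT.lf (nat_lit 0) (nat_lit 3169209908) (nat_lit 532) (nat_lit 264252273) (nat_lit 532) (nat_lit 264252273) (nat_lit 119) (nat_lit 3) (nat_lit 126) (nat_lit 3) (nat_lit 126) (nat_lit 5) (nat_lit 269) (nat_lit 269) (nat_lit 242))))) (XT.nd (nat_lit 234) (nat_lit 0) (nat_lit 76) (XT.nd (nat_lit 78) (nat_lit 0) (nat_lit 0) (XT.lf (nat_lit 0) (nat_lit 427850710) (nat_lit 532) (nat_lit 4505917357) (nat_lit 608) (nat_lit 2570563938) (nat_lit 112) (nat_lit 5) (nat_lit 119) (nat_lit 3) (nat_lit 120) (nat_lit 5) (nat_lit 270) (nat_lit 269) (nat_lit 241))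 (XT.nd (nat_lit 78) (nat_lit 0) (nat_lit 0) (XT.lf (nat_lit 0) (nat_lit 1868285513) (nat_lit 532) (nat_lit 967729531) (nat_lit 608) (nat_lit 4786147996) (nat_lit 112) (nat_lit 5) (nat_lit 119) (nat_lit 3) (nat_lit 120) (nat_lit 5) (nat_lit 271) (nat_lit 269) (nat_lit 240)) (XT.lf (nat_lit 76) (nat_lit 2786997250) (nat_lit 0) (nat_lit 549407392) (nat_lit 608) (nat_lit 4411880626) (nat_lit 113) (nat_lit 5) (nat_lit 112) (nat_lit 5) (nat_lit 120) (nat_lit 5) (nat_lit 272) (nat_lit 269) (nat_lit 239)))) (XT.nd (nat_lit 78) (nat_lit 0) (nat_lit 0) (XT.lf (nat_lit 0) (nat_lit 4839623266) (nat_lit 532) (nat_lit 1199737043) (nat_lit 608) (nat_lit 1843442687) (nat_lit 113) (nat_lit 5) (nat_lit 120) (nat_lit 5) (nat_lit 121) (nat_lit 5) (nat_lit 273) (nat_lit 269) (nat_lit 238)) (XT.nd (nat_lit 78) (nat_lit 0) (nat_lit 0) (XT.lf (nat_lit 76) (nat_lit 2778652968) (nat_lit 0) (nat_lit 3611861298)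 (nat_lit 608) (nat_lit 1635072551) (nat_lit 114) (nat_lit 5) (nat_lit 113) (nat_lit 5) (nat_lit 121) (nat_lit 5) (nat_lit 274) (nat_lit 269) (nat_lit 237)) (XT.lf (nat_lit 76) (nat_lit 6947273818) (nat_lit 0) (nat_lit 1015134073) (nat_lit 608) (nat_lit 216086915) (nat_lit 114) (nat_lit 5) (nat_lit 113) (nat_lit 5) (nat_lit 121) (nat_lit 5) (nat_lit 275) (nat_lit 269) (nat_lit 236))))))))
noncomputable def xc133 : XT := (XT.nd (nat_lit 1638) (nat_lit 2052) (nat_lit 0) (XT.nd (nat_lit 780) (nat_lit 1824) (nat_lit 0) (XT.nd (nat_lit 390) (nat_lit 1672) (nat_lit 0) (XT.nd (nat_lit 156) (nat_lit 532) (nat_lit 0) (XT.nd (nat_lit 78) (nat_lit 0) (nat_lit 0) (XT.lf (nat_lit 0) (nat_lit 1233736391) (nat_lit 608) (nat_lit 5356549956) (nat_lit 684) (nat_lit 1747877663) (nat_lit 106) (nat_lit 5) (nat_lit 114) (nat_lit 5) (nat_lit 115) (nat_lit 5) (nat_lit 276) (nat_lit 269) (nat_lit 235)) (XT.lf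 (nat_lit 0) (nat_lit 2715195327) (nat_lit 608) (nat_lit 1131269178) (nat_lit 684) (nat_lit 4660991116) (nat_lit 106) (nat_lit 5) (nat_lit 114) (nat_lit 5) (nat_lit 115) (nat_lit 5) (nat_lit 277) (nat_lit 269) (nat_lit 234))) (XT.nd (nat_lit 78) (nat_lit 532) (nat_lit 0) (XT.lf (nat_lit 76) (nat_lit 3361625451) (nat_lit 0) (nat_lit 893559210) (nat_lit 684) (nat_lit 4430934169) (nat_lit 107) (nat_lit 5) (nat_lit 106) (nat_lit 5) (nat_lit 115) (nat_lit 5) (nat_lit 278) (nat_lit 269) (nat_lit 233)) (XT.nd (nat_lit 78) (nat_lit 608) (nat_lit 0) (XT.lf (nat_lit 0) (nat_lit 5860765395) (nat_lit 608) (nat_lit 843144536) (nat_lit 76) (nat_lit 2170499376) (nat_lit 107) (nat_lit 5) (nat_lit 115) (nat_lit 5) (nat_lit 108) (nat_lit 5) (nat_lit 279) (nat_lit 269) (nat_lit 232)) (XT.lf (nat_lit 0) (nat_lit 3921659111) (nat_lit 608) (nat_lit 3638615940) (nat_lit 684) (nat_lit 1511274578) (nat_lit 99)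 (nat_lit 5) (nat_lit 107) (nat_lit 5) (nat_lit 108) (nat_lit 5) (nat_lit 280) (nat_lit 269) (nat_lit 231))))) (XT.nd (nat_lit 156) (nat_lit 912) (nat_lit 0) (XT.nd (nat_lit 78) (nat_lit 684) (nat_lit 0) (XT.lf (nat_lit 0) (nat_lit 17459669) (nat_lit 684) (nat_lit 377905888) (nat_lit 76) (nat_lit 8885568301) (nat_lit 98) (nat_lit 5) (nat_lit 107) (nat_lit 5) (nat_lit 99) (nat_lit 5) (nat_lit 281) (nat_lit 269) (nat_lit 230)) (XT.lf (nat_lit 0) (nat_lit 1635847406) (nat_lit 760) (nat_lit 4839285195) (nat_lit 76) (nat_lit 3021317443) (nat_lit 89) (nat_lit 5) (nat_lit 99) (nat_lit 5) (nat_lit 90) (nat_lit 5) (nat_lit 282) (nat_lit 269) (nat_lit 229))) (XT.nd (nat_lit 78) (nat_lit 380) (nat_lit 0) (XT.lf (nat_lit 0) (nat_lit 181437495) (nat_lit 532) (nat_lit 3113407264) (nat_lit 608) (nat_lit 6430009696) (nat_lit 82) (nat_lit 5) (nat_lit 89) (nat_lit 5) (nat_lit 90) (nat_lit 5) (nat_lit 283)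 (nat_lit 269) (nat_lit 228)) (XT.nd (nat_lit 78) (nat_lit 380) (nat_lit 0) (XT.lf (nat_lit 0) (nat_lit 5072371522) (nat_lit 608) (nat_lit 4401691446) (nat_lit 76) (nat_lit 488929453) (nat_lit 82) (nat_lit 5) (nat_lit 90) (nat_lit 5) (nat_lit 83) (nat_lit 5) (nat_lit 284) (nat_lit 269) (nat_lit 227)) (XT.lf (nat_lit 0) (nat_lit 923770406) (nat_lit 380) (nat_lit 6028827403) (nat_lit 456) (nat_lit 3259836233) (nat_lit 77) (nat_lit 5) (nat_lit 82) (nat_lit 5) (nat_lit 83) (nat_lit 5) (nat_lit 285) (nat_lit 269) (nat_lit 226)))))) (XT.nd (nat_lit 390) (nat_lit 1140) (nat_lit 0) (XT.nd (nat_lit 156) (nat_lit 304) (nat_lit 0) (XT.nd (nat_lit 78) (nat_lit 380) (nat_lit 0) (XT.lf (nat_lit 0) (nat_lit 6617281966) (nat_lit 380) (nat_lit 2334121412) (nat_lit 456) (nat_lit 1521799696) (nat_lit 77) (nat_lit 5) (nat_lit 82) (nat_lit 5) (nat_lit 83) (nat_lit 5) (nat_lit 286) (nat_lit 269) (nat_lit 225))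 (XT.lf (nat_lit 0) (nat_lit 298558271) (nat_lit 380) (nat_lit 8919739098) (nat_lit 76) (nat_lit 1528296394) (nat_lit 72) (nat_lit 5) (nat_lit 77) (nat_lit 5) (nat_lit 73) (nat_lit 5) (nat_lit 287) (nat_lit 269) (nat_lit 224))) (XT.nd (nat_lit 78) (nat_lit 304) (nat_lit 0) (XT.lf (nat_lit 0) (nat_lit 2216468921) (nat_lit 380) (nat_lit 3218888178) (nat_lit 76) (nat_lit 5594237977) (nat_lit 72) (nat_lit 5) (nat_lit 77) (nat_lit 5) (nat_lit 73) (nat_lit 5) (nat_lit 288) (nat_lit 269) (nat_lit 223)) (XT.nd (nat_lit 78) (nat_lit 0) (nat_lit 0) (XT.lf (nat_lit 0) (nat_lit 2807476306) (nat_lit 304) (nat_lit 1421908070) (nat_lit 380) (nat_lit 7097475499) (nat_lit 68) (nat_lit 5) (nat_lit 72) (nat_lit 5) (nat_lit 73) (nat_lit 5) (nat_lit 289) (nat_lit 269) (nat_lit 222)) (XT.lf (nat_lit 0) (nat_lit 6398512976) (nat_lit 380) (nat_lit 2484579301) (nat_lit 76) (nat_lit 2753182873) (nat_lit 68) (nat_lit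 5) (nat_lit 73) (nat_lit 5) (nat_lit 69) (nat_lit 5) (nat_lit 290) (nat_lit 269) (nat_lit 221))))) (XT.nd (nat_lit 234) (nat_lit 456) (nat_lit 0) (XT.nd (nat_lit 78) (nat_lit 380) (nat_lit 0) (XT.lf (nat_lit 0) (nat_lit 3905325578) (nat_lit 304) (nat_lit 4813689760) (nat_lit 380) (nat_lit 3240062464) (nat_lit 64) (nat_lit 5) (nat_lit 68) (nat_lit 5) (nat_lit 69) (nat_lit 5) (nat_lit 291) (nat_lit 269) (nat_lit 220)) (XT.nd (nat_lit 78) (nat_lit 380) (nat_lit 0) (XT.lf (nat_lit 0) (nat_lit 10653439670) (nat_lit 304) (nat_lit 504042474) (nat_lit 380) (nat_lit 1140500980) (nat_lit 64) (nat_lit 5) (nat_lit 68) (nat_lit 5) (nat_lit 69) (nat_lit 5) (nat_lit 292) (nat_lit 269) (nat_lit 219)) (XT.lf (nat_lit 0) (nat_lit 1136332738) (nat_lit 380) (nat_lit 7527274637) (nat_lit 76) (nat_lit 3984132177) (nat_lit 59) (nat_lit 5) (nat_lit 64) (nat_lit 5) (nat_lit 60) (nat_lit 5) (nat_lit 293) (nat_lit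 269) (nat_lit 218)))) (XT.nd (nat_lit 78) (nat_lit 456) (nat_lit 0) (XT.lf (nat_lit 0) (nat_lit 3487352330) (nat_lit 380) (nat_lit 807872040) (nat_lit 76) (nat_lit 8718942371) (nat_lit 59) (nat_lit 5) (nat_lit 64) (nat_lit 5) (nat_lit 60) (nat_lit 5) (nat_lit 294) (nat_lit 269) (nat_lit 217)) (XT.nd (nat_lit 78) (nat_lit 228) (nat_lit 0) (XT.lf (nat_lit 0) (nat_lit 6025909802) (nat_lit 304) (nat_lit 6994656665) (nat_lit 76) (nat_lit 374898432) (nat_lit 56) (nat_lit 5) (nat_lit 60) (nat_lit 5) (nat_lit 57) (nat_lit 5) (nat_lit 295) (nat_lit 269) (nat_lit 216)) (XT.lf (nat_lit 0) (nat_lit 88696996) (nat_lit 228) (nat_lit 8653180097) (nat_lit 304) (nat_lit 5051473400) (nat_lit 53) (nat_lit 5) (nat_lit 56) (nat_lit 5) (nat_lit 57) (nat_lit 5) (nat_lit 296) (nat_lit 269) (nat_lit 215))))))) (XT.nd (nat_lit 780) (nat_lit 912) (nat_lit 0) (XT.nd (nat_lit 390) (nat_lit 608) (nat_lit 0) (XT.nd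 (nat_lit 156) (nat_lit 228) (nat_lit 0) (XT.nd (nat_lit 78) (nat_lit 304) (nat_lit 0) (XT.lf (nat_lit 0) (nat_lit 7723474094) (nat_lit 228) (nat_lit 3954369757) (nat_lit 304) (nat_lit 2529120862) (nat_lit 53) (nat_lit 5) (nat_lit 56) (nat_lit 5) (nat_lit 57) (nat_lit 5) (nat_lit 297) (nat_lit 269) (nat_lit 214)) (XT.lf (nat_lit 0) (nat_lit 114723413) (nat_lit 304) (nat_lit 13570329670) (nat_lit 76) (nat_lit 956193966) (nat_lit 49) (nat_lit 5) (nat_lit 53) (nat_lit 5) (nat_lit 50) (nat_lit 5) (nat_lit 298) (nat_lit 269) (nat_lit 213))) (XT.nd (nat_lit 78) (nat_lit 228) (nat_lit 0) (XT.lf (nat_lit 0) (nat_lit 2949707067) (nat_lit 304) (nat_lit 6017007701) (nat_lit 76) (nat_lit 6121296930) (nat_lit 49) (nat_lit 5) (nat_lit 53) (nat_lit 5) (nat_lit 50) (nat_lit 5) (nat_lit 299) (nat_lit 269) (nat_lit 212)) (XT.nd (nat_lit 78) (nat_lit 0) (nat_lit 0) (XT.lf (nat_lit 0) (nat_lit 1932690494)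 (nat_lit 228) (nat_lit 3992986417) (nat_lit 304) (nat_lit 9631512349) (nat_lit 46) (nat_lit 5) (nat_lit 49) (nat_lit 5) (nat_lit 50) (nat_lit 5) (nat_lit 300) (nat_lit 269) (nat_lit 211)) (XT.lf (nat_lit 0) (nat_lit 9142891811) (nat_lit 304) (nat_lit 5620626293) (nat_lit 76) (nat_lit 1281720060) (nat_lit 46) (nat_lit 5) (nat_lit 50) (nat_lit 5) (nat_lit 47) (nat_lit 5) (nat_lit 301) (nat_lit 269) (nat_lit 210))))) (XT.nd (nat_lit 156) (nat_lit 456) (nat_lit 0) (XT.nd (nat_lit 78) (nat_lit 0) (nat_lit 0) (XT.lf (nat_lit 0) (nat_lit 2764755371) (nat_lit 152) (nat_lit 9835960548) (nat_lit 228) (nat_lit 3953019305) (nat_lit 44) (nat_lit 5) (nat_lit 46) (nat_lit 5) (nat_lit 47) (nat_lit 5) (nat_lit 302) (nat_lit 269) (nat_lit 209)) (XT.lf (nat_lit 0) (nat_lit 11723499320) (nat_lit 152) (nat_lit 4574978289) (nat_lit 228) (nat_lit 785858766) (nat_lit 44) (nat_lit 5) (nat_lit 46) (nat_lit 5)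 (nat_lit 47) (nat_lit 5) (nat_lit 303) (nat_lit 269) (nat_lit 208))) (XT.nd (nat_lit 78) (nat_lit 152) (nat_lit 0) (XT.lf (nat_lit 0) (nat_lit 2502259116) (nat_lit 304) (nat_lit 14132535772) (nat_lit 76) (nat_lit 1002524543) (nat_lit 40) (nat_lit 5) (nat_lit 44) (nat_lit 5) (nat_lit 41) (nat_lit 5) (nat_lit 304) (nat_lit 269) (nat_lit 207)) (XT.nd (nat_lit 78) (nat_lit 152) (nat_lit 0) (XT.lf (nat_lit 0) (nat_lit 6068863420) (nat_lit 304) (nat_lit 5343511197) (nat_lit 76) (nat_lit 6797935609) (nat_lit 40) (nat_lit 5) (nat_lit 44) (nat_lit 5) (nat_lit 41) (nat_lit 5) (nat_lit 305) (nat_lit 269) (nat_lit 206)) (XT.lf (nat_lit 0) (nat_lit 3973543151) (nat_lit 152) (nat_lit 5876782635) (nat_lit 228) (nat_lit 8959824344) (nat_lit 38) (nat_lit 5) (nat_lit 40) (nat_lit 5) (nat_lit 41) (nat_lit 5) (nat_lit 306) (nat_lit 269) (nat_lit 205)))))) (XT.nd (nat_lit 390) (nat_lit 532) (nat_lit 0) (XT.nd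 (nat_lit 156) (nat_lit 228) (nat_lit 0) (XT.nd (nat_lit 78) (nat_lit 152) (nat_lit 0) (XT.lf (nat_lit 0) (nat_lit 13886741306) (nat_lit 228) (nat_lit 5533012183) (nat_lit 76) (nat_lit 16959264) (nat_lit 38) (nat_lit 5) (nat_lit 41) (nat_lit 5) (nat_lit 39) (nat_lit 5) (nat_lit 307) (nat_lit 269) (nat_lit 204)) (XT.lf (nat_lit 0) (nat_lit 4237877461) (nat_lit 152) (nat_lit 14025708078) (nat_lit 228) (nat_lit 1824111120) (nat_lit 36) (nat_lit 5) (nat_lit 38) (nat_lit 5) (nat_lit 39) (nat_lit 5) (nat_lit 308) (nat_lit 269) (nat_lit 203))) (XT.nd (nat_lit 78) (nat_lit 152) (nat_lit 0) (XT.lf (nat_lit 0) (nat_lit 2092716948) (nat_lit 228) (nat_lit 6148664766) (nat_lit 76) (nat_lit 12524664138) (nat_lit 35) (nat_lit 5) (nat_lit 38) (nat_lit 5) (nat_lit 36) (nat_lit 5) (nat_lit 309) (nat_lit 269) (nat_lit 202)) (XT.nd (nat_lit 78) (nat_lit 0) (nat_lit 0) (XT.lf (nat_lit 0) (nat_lit 4103368615)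 (nat_lit 152) (nat_lit 2082175786) (nat_lit 228) (nat_lit 15289220269) (nat_lit 33) (nat_lit 5) (nat_lit 35) (nat_lit 5) (nat_lit 36) (nat_lit 5) (nat_lit 310) (nat_lit 269) (nat_lit 201)) (XT.lf (nat_lit 0) (nat_lit 10635035003) (nat_lit 228) (nat_lit 7238365751) (nat_lit 76) (nat_lit 4337936960) (nat_lit 33) (nat_lit 5) (nat_lit 36) (nat_lit 5) (nat_lit 34) (nat_lit 5) (nat_lit 311) (nat_lit 269) (nat_lit 200))))) (XT.nd (nat_lit 234) (nat_lit 152) (nat_lit 0) (XT.nd (nat_lit 78) (nat_lit 228) (nat_lit 0) (XT.lf (nat_lit 0) (nat_lit 3443140980) (nat_lit 152) (nat_lit 11930533226) (nat_lit 228) (nat_lit 7607749951) (nat_lit 31) (nat_lit 5) (nat_lit 33) (nat_lit 5) (nat_lit 34) (nat_lit 5) (nat_lit 312) (nat_lit 269) (nat_lit 199)) (XT.nd (nat_lit 78) (nat_lit 228) (nat_lit 0) (XT.lf (nat_lit 0) (nat_lit 14876331999) (nat_lit 152) (nat_lit 5574765890) (nat_lit 228) (nat_lit 3333841979)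 (nat_lit 31) (nat_lit 5) (nat_lit 33) (nat_lit 5) (nat_lit 34) (nat_lit 5) (nat_lit 313) (nat_lit 269) (nat_lit 198)) (XT.lf (nat_lit 0) (nat_lit 1150095603) (nat_lit 228) (nat_lit 22370238185) (nat_lit 76) (nat_lit 1105749753) (nat_lit 28) (nat_lit 5) (nat_lit 31) (nat_lit 5) (nat_lit 29) (nat_lit 5) (nat_lit 314) (nat_lit 269) (nat_lit 197)))) (XT.nd (nat_lit 78) (nat_lit 152) (nat_lit 0) (XT.lf (nat_lit 0) (nat_lit 5971096583) (nat_lit 228) (nat_lit 11395486860) (nat_lit 76) (nat_lit 8128738203) (nat_lit 28) (nat_lit 5) (nat_lit 31) (nat_lit 5) (nat_lit 29) (nat_lit 5) (nat_lit 315) (nat_lit 269) (nat_lit 196)) (XT.nd (nat_lit 78) (nat_lit 0) (nat_lit 0) (XT.lf (nat_lit 0) (nat_lit 99729247) (nat_lit 152) (nat_lit 10916090633) (nat_lit 228) (nat_lit 15393082619) (nat_lit 26) (nat_lit 5) (nat_lit 28) (nat_lit 5) (nat_lit 29) (nat_lit 5) (nat_lit 316) (nat_lit 269) (nat_lit 195)) (XT.lf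 (nat_lit 0) (nat_lit 12534374487) (nat_lit 152) (nat_lit 3952924100) (nat_lit 228) (nat_lit 10872151613) (nat_lit 26) (nat_lit 5) (nat_lit 28) (nat_lit 5) (nat_lit 29) (nat_lit 5) (nat_lit 317) (nat_lit 269) (nat_lit 194))))))))
noncomputable def xc134 : XT := (XT.nd (nat_lit 1560) (nat_lit 532) (nat_lit 0) (XT.nd (nat_lit 780) (nat_lit 304) (nat_lit 0) (XT.nd (nat_lit 390) (nat_lit 304) (nat_lit 0) (XT.nd (nat_lit 156) (nat_lit 228) (nat_lit 0) (XT.nd (nat_lit 78) (nat_lit 76) (nat_lit 0) (XT.lf (nat_lit 0) (nat_lit 22267010213) (nat_lit 228) (nat_lit 2849397325) (nat_lit 76) (nat_lit 3239397912) (nat_lit 26) (nat_lit 5) (nat_lit 29) (nat_lit 5) (nat_lit 27) (nat_lit 4) (nat_lit 318) (nat_lit 269) (nat_lit 193)) (XT.lf (nat_lit 0) (nat_lit 9949971826) (nat_lit 76) (nat_lit 18588955940) (nat_lit 152) (nat_lit 852902168) (nat_lit 25) (nat_lit 5) (nat_lit 26) (nat_lit 5) (nat_lit 27) (nat_lit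 4) (nat_lit 319) (nat_lit 269) (nat_lit 192))) (XT.nd (nat_lit 78) (nat_lit 152) (nat_lit 0) (XT.lf (nat_lit 0) (nat_lit 4528323185) (nat_lit 152) (nat_lit 7091174954) (nat_lit 76) (nat_lit 18854932935) (nat_lit 24) (nat_lit 5) (nat_lit 26) (nat_lit 5) (nat_lit 25) (nat_lit 5) (nat_lit 320) (nat_lit 269) (nat_lit 191)) (XT.nd (nat_lit 78) (nat_lit 0) (nat_lit 0) (XT.lf (nat_lit 0) (nat_lit 6028528059) (nat_lit 152) (nat_lit 4199495878) (nat_lit 228) (nat_lit 21378546158) (nat_lit 22) (nat_lit 5) (nat_lit 24) (nat_lit 5) (nat_lit 25) (nat_lit 5) (nat_lit 321) (nat_lit 269) (nat_lit 190)) (XT.lf (nat_lit 0) (nat_lit 16374964328) (nat_lit 228) (nat_lit 12824605855) (nat_lit 76) (nat_lit 3587643429) (nat_lit 22) (nat_lit 5) (nat_lit 25) (nat_lit 5) (nat_lit 23) (nat_lit 4) (nat_lit 322) (nat_lit 269) (nat_lit 189))))) (XT.nd (nat_lit 156) (nat_lit 228) (nat_lit 0) (XT.nd (nat_lit 78) (nat_lit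 0) (nat_lit 0) (XT.lf (nat_lit 0) (nat_lit 486900850) (nat_lit 76) (nat_lit 22403673074) (nat_lit 152) (nat_lit 11133259057) (nat_lit 21) (nat_lit 5) (nat_lit 22) (nat_lit 5) (nat_lit 23) (nat_lit 4) (nat_lit 323) (nat_lit 269) (nat_lit 188)) (XT.lf (nat_lit 0) (nat_lit 14883308145) (nat_lit 76) (nat_lit 15051038427) (nat_lit 152) (nat_lit 5377826936) (nat_lit 21) (nat_lit 5) (nat_lit 22) (nat_lit 5) (nat_lit 23) (nat_lit 4) (nat_lit 324) (nat_lit 269) (nat_lit 187))) (XT.nd (nat_lit 78) (nat_lit 152) (nat_lit 0) (XT.lf (nat_lit 0) (nat_lit 629737612) (nat_lit 152) (nat_lit 6700948353) (nat_lit 76) (nat_lit 29334451277) (nat_lit 20) (nat_lit 5) (nat_lit 22) (nat_lit 5) (nat_lit 21) (nat_lit 5) (nat_lit 325) (nat_lit 269) (nat_lit 186)) (XT.nd (nat_lit 78) (nat_lit 0) (nat_lit 0) (XT.lf (nat_lit 0) (nat_lit 6881295570) (nat_lit 228) (nat_lit 30238738672) (nat_lit 76) (nat_lit 955097643)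 (nat_lit 18) (nat_lit 5) (nat_lit 21) (nat_lit 5) (nat_lit 19) (nat_lit 4) (nat_lit 326) (nat_lit 269) (nat_lit 185)) (XT.lf (nat_lit 0) (nat_lit 13667413875) (nat_lit 228) (nat_lit 16362841075) (nat_lit 76) (nat_lit 9514279856) (nat_lit 18) (nat_lit 5) (nat_lit 21) (nat_lit 5) (nat_lit 19) (nat_lit 4) (nat_lit 327) (nat_lit 269) (nat_lit 184)))))) (XT.nd (nat_lit 390) (nat_lit 76) (nat_lit 0) (XT.nd (nat_lit 156) (nat_lit 152) (nat_lit 0) (XT.nd (nat_lit 78) (nat_lit 76) (nat_lit 0) (XT.lf (nat_lit 0) (nat_lit 20779945787) (nat_lit 228) (nat_lit 1816098207) (nat_lit 76) (nat_lit 18492015796) (nat_lit 18) (nat_lit 5) (nat_lit 21) (nat_lit 5) (nat_lit 19) (nat_lit 4) (nat_lit 328) (nat_lit 269) (nat_lit 183)) (XT.lf (nat_lit 0) (nat_lit 13880384006) (nat_lit 76) (nat_lit 14572153593) (nat_lit 152) (nat_lit 14246008712) (nat_lit 17) (nat_lit 5) (nat_lit 18) (nat_lit 5) (nat_lit 19) (nat_lit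 4) (nat_lit 329) (nat_lit 269) (nat_lit 182))) (XT.nd (nat_lit 78) (nat_lit 152) (nat_lit 0) (XT.lf (nat_lit 0) (nat_lit 30403236918) (nat_lit 76) (nat_lit 6124249140) (nat_lit 152) (nat_lit 7861141370) (nat_lit 17) (nat_lit 5) (nat_lit 18) (nat_lit 5) (nat_lit 19) (nat_lit 4) (nat_lit 330) (nat_lit 269) (nat_lit 181)) (XT.nd (nat_lit 78) (nat_lit 76) (nat_lit 0) (XT.lf (nat_lit 0) (nat_lit 1575658765) (nat_lit 76) (nat_lit 43486399670) (nat_lit 76) (nat_lit 1098366648) (nat_lit 16) (nat_lit 4) (nat_lit 17) (nat_lit 5) (nat_lit 17) (nat_lit 4) (nat_lit 331) (nat_lit 269) (nat_lit 180)) (XT.lf (nat_lit 0) (nat_lit 6139998766) (nat_lit 152) (nat_lit 29827634345) (nat_lit 76) (nat_lit 12032020856) (nat_lit 15) (nat_lit 5) (nat_lit 17) (nat_lit 5) (nat_lit 16) (nat_lit 4) (nat_lit 332) (nat_lit 269) (nat_lit 179))))) (XT.nd (nat_lit 156) (nat_lit 0) (nat_lit 0) (XT.nd (nat_lit 78) (nat_lit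 76) (nat_lit 0) (XT.lf (nat_lit 0) (nat_lit 13692361828) (nat_lit 152) (nat_lit 14370622253) (nat_lit 76) (nat_lit 21867515776) (nat_lit 15) (nat_lit 5) (nat_lit 17) (nat_lit 5) (nat_lit 16) (nat_lit 4) (nat_lit 333) (nat_lit 269) (nat_lit 178)) (XT.lf (nat_lit 0) (nat_lit 1901066963) (nat_lit 76) (nat_lit 19740472966) (nat_lit 152) (nat_lit 30315393458) (nat_lit 14) (nat_lit 5) (nat_lit 15) (nat_lit 5) (nat_lit 16) (nat_lit 4) (nat_lit 334) (nat_lit 269) (nat_lit 177))) (XT.nd (nat_lit 78) (nat_lit 0) (nat_lit 0) (XT.lf (nat_lit 0) (nat_lit 19466543466) (nat_lit 76) (nat_lit 10754729898) (nat_lit 152) (nat_lit 23851765349) (nat_lit 14) (nat_lit 5) (nat_lit 15) (nat_lit 5) (nat_lit 16) (nat_lit 4) (nat_lit 335) (nat_lit 269) (nat_lit 176)) (XT.nd (nat_lit 78) (nat_lit 0) (nat_lit 0) (XT.lf (nat_lit 0) (nat_lit 37892472148) (nat_lit 76) (nat_lit 1327733692) (nat_lit 152) (nat_lit 17075237555)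 (nat_lit 14) (nat_lit 5) (nat_lit 15) (nat_lit 5) (nat_lit 16) (nat_lit 4) (nat_lit 336) (nat_lit 269) (nat_lit 175)) (XT.lf (nat_lit 0) (nat_lit 48793455204) (nat_lit 152) (nat_lit 1540406421) (nat_lit 0) (nat_lit 8288892654) (nat_lit 14) (nat_lit 5) (nat_lit 16) (nat_lit 4) (nat_lit 14) (nat_lit 4) (nat_lit 337) (nat_lit 269) (nat_lit 174))))))) (XT.nd (nat_lit 780) (nat_lit 152) (nat_lit 0) (XT.nd (nat_lit 390) (nat_lit 152) (nat_lit 0) (XT.nd (nat_lit 156) (nat_lit 76) (nat_lit 0) (XT.nd (nat_lit 78) (nat_lit 76) (nat_lit 0) (XT.lf (nat_lit 0) (nat_lit 16660253539) (nat_lit 76) (nat_lit 42458001428) (nat_lit 76) (nat_lit 1934535613) (nat_lit 13) (nat_lit 4) (nat_lit 14) (nat_lit 5) (nat_lit 14) (nat_lit 4) (nat_lit 338) (nat_lit 269) (nat_lit 173)) (XT.lf (nat_lit 0) (nat_lit 6169117422) (nat_lit 152) (nat_lit 27894778210) (nat_lit 76) (nat_lit 29534598494) (nat_lit 12) (nat_lit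 5) (nat_lit 14) (nat_lit 5) (nat_lit 13) (nat_lit 4) (nat_lit 339) (nat_lit 269) (nat_lit 172))) (XT.nd (nat_lit 78) (nat_lit 76) (nat_lit 0) (XT.lf (nat_lit 0) (nat_lit 14604401748) (nat_lit 152) (nat_lit 10619591162) (nat_lit 76) (nat_lit 41046334857) (nat_lit 12) (nat_lit 5) (nat_lit 14) (nat_lit 5) (nat_lit 13) (nat_lit 4) (nat_lit 340) (nat_lit 269) (nat_lit 171)) (XT.nd (nat_lit 78) (nat_lit 0) (nat_lit 0) (XT.lf (nat_lit 0) (nat_lit 7752487024) (nat_lit 76) (nat_lit 15821869621) (nat_lit 152) (nat_lit 45495754639) (nat_lit 11) (nat_lit 5) (nat_lit 12) (nat_lit 5) (nat_lit 13) (nat_lit 4) (nat_lit 341) (nat_lit 269) (nat_lit 170)) (XT.lf (nat_lit 0) (nat_lit 27397103006) (nat_lit 76) (nat_lit 5767579369) (nat_lit 152) (nat_lit 38836611293) (nat_lit 11) (nat_lit 5) (nat_lit 12) (nat_lit 5) (nat_lit 13) (nat_lit 4) (nat_lit 342) (nat_lit 269) (nat_lit 169))))) (XT.nd (nat_lit 156)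 (nat_lit 152) (nat_lit 0) (XT.nd (nat_lit 78) (nat_lit 0) (nat_lit 0) (XT.lf (nat_lit 0) (nat_lit 43301604864) (nat_lit 152) (nat_lit 27144195622) (nat_lit 0) (nat_lit 4629883847) (nat_lit 11) (nat_lit 5) (nat_lit 13) (nat_lit 4) (nat_lit 11) (nat_lit 4) (nat_lit 343) (nat_lit 269) (nat_lit 168)) (XT.lf (nat_lit 0) (nat_lit 54032594548) (nat_lit 152) (nat_lit 8919402630) (nat_lit 0) (nat_lit 15347439333) (nat_lit 11) (nat_lit 5) (nat_lit 13) (nat_lit 4) (nat_lit 11) (nat_lit 4) (nat_lit 344) (nat_lit 269) (nat_lit 167))) (XT.nd (nat_lit 78) (nat_lit 76) (nat_lit 0) (XT.lf (nat_lit 0) (nat_lit 10541006802) (nat_lit 76) (nat_lit 54916721181) (nat_lit 76) (nat_lit 16218771491) (nat_lit 10) (nat_lit 4) (nat_lit 11) (nat_lit 5) (nat_lit 11) (nat_lit 4) (nat_lit 345) (nat_lit 269) (nat_lit 166)) (XT.nd (nat_lit 78) (nat_lit 76) (nat_lit 0) (XT.lf (nat_lit 0) (nat_lit 31271306667) (nat_lit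 76) (nat_lit 46327018120) (nat_lit 76) (nat_lit 7616883216) (nat_lit 10) (nat_lit 4) (nat_lit 11) (nat_lit 5) (nat_lit 11) (nat_lit 4) (nat_lit 346) (nat_lit 269) (nat_lit 165)) (XT.lf (nat_lit 0) (nat_lit 1363176381) (nat_lit 152) (nat_lit 35927228287) (nat_lit 76) (nat_lit 51639676656) (nat_lit 9) (nat_lit 5) (nat_lit 11) (nat_lit 5) (nat_lit 10) (nat_lit 4) (nat_lit 347) (nat_lit 269) (nat_lit 164)))))) (XT.nd (nat_lit 390) (nat_lit 76) (nat_lit 0) (XT.nd (nat_lit 156) (nat_lit 0) (nat_lit 0) (XT.nd (nat_lit 78) (nat_lit 76) (nat_lit 0) (XT.lf (nat_lit 0) (nat_lit 10529946431) (nat_lit 152) (nat_lit 17146402034) (nat_lit 76) (nat_lit 65148424642) (nat_lit 9) (nat_lit 5) (nat_lit 11) (nat_lit 5) (nat_lit 10) (nat_lit 4) (nat_lit 348) (nat_lit 269) (nat_lit 163)) (XT.lf (nat_lit 0) (nat_lit 2646932954) (nat_lit 76) (nat_lit 17543433494) (nat_lit 152) (nat_lit 76722069722) (nat_lit 8)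 (nat_lit 5) (nat_lit 9) (nat_lit 5) (nat_lit 10) (nat_lit 4) (nat_lit 349) (nat_lit 269) (nat_lit 162))) (XT.nd (nat_lit 78) (nat_lit 0) (nat_lit 0) (XT.lf (nat_lit 0) (nat_lit 24014149558) (nat_lit 76) (nat_lit 6604139529) (nat_lit 152) (nat_lit 70571971374) (nat_lit 8) (nat_lit 5) (nat_lit 9) (nat_lit 5) (nat_lit 10) (nat_lit 4) (nat_lit 350) (nat_lit 269) (nat_lit 161)) (XT.nd (nat_lit 78) (nat_lit 0) (nat_lit 0) (XT.lf (nat_lit 0) (nat_lit 41638134573) (nat_lit 152) (nat_lit 59319221113) (nat_lit 0) (nat_lit 4721095997) (nat_lit 8) (nat_lit 5) (nat_lit 10) (nat_lit 4) (nat_lit 8) (nat_lit 4) (nat_lit 351) (nat_lit 269) (nat_lit 160)) (XT.lf (nat_lit 0) (nat_lit 53311811349) (nat_lit 152) (nat_lit 40687988156) (nat_lit 0) (nat_lit 16386112968) (nat_lit 8) (nat_lit 5) (nat_lit 10) (nat_lit 4) (nat_lit 8) (nat_lit 4) (nat_lit 352) (nat_lit 269) (nat_lit 159))))) (XT.nd (nat_lit 234)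 (nat_lit 0) (nat_lit 0) (XT.nd (nat_lit 78) (nat_lit 76) (nat_lit 0) (XT.lf (nat_lit 0) (nat_lit 65564004755) (nat_lit 152) (nat_lit 21134942827) (nat_lit 0) (nat_lit 28630058942) (nat_lit 8) (nat_lit 5) (nat_lit 10) (nat_lit 4) (nat_lit 8) (nat_lit 4) (nat_lit 353) (nat_lit 269) (nat_lit 158)) (XT.nd (nat_lit 78) (nat_lit 76) (nat_lit 0) (XT.lf (nat_lit 0) (nat_lit 78423886681) (nat_lit 152) (nat_lit 613530258) (nat_lit 0) (nat_lit 41482086170) (nat_lit 8) (nat_lit 5) (nat_lit 10) (nat_lit 4) (nat_lit 8) (nat_lit 4) (nat_lit 354) (nat_lit 269) (nat_lit 157)) (XT.lf (nat_lit 0) (nat_lit 21616988698) (nat_lit 76) (nat_lit 70642588971) (nat_lit 76) (nat_lit 33693307796) (nat_lit 7) (nat_lit 4) (nat_lit 8) (nat_lit 5) (nat_lit 8) (nat_lit 4) (nat_lit 355) (nat_lit 269) (nat_lit 156)))) (XT.nd (nat_lit 78) (nat_lit 0) (nat_lit 0) (XT.lf (nat_lit 0) (nat_lit 44971633733) (nat_lit 76) (nat_lit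 61821210442) (nat_lit 76) (nat_lit 24864804824) (nat_lit 7) (nat_lit 4) (nat_lit 8) (nat_lit 5) (nat_lit 8) (nat_lit 4) (nat_lit 356) (nat_lit 269) (nat_lit 155)) (XT.nd (nat_lit 78) (nat_lit 0) (nat_lit 0) (XT.lf (nat_lit 0) (nat_lit 69485725064) (nat_lit 76) (nat_lit 52562668501) (nat_lit 76) (nat_lit 15599477700) (nat_lit 7) (nat_lit 4) (nat_lit 8) (nat_lit 5) (nat_lit 8) (nat_lit 4) (nat_lit 357) (nat_lit 269) (nat_lit 154)) (XT.lf (nat_lit 0) (nat_lit 95217629575) (nat_lit 76) (nat_lit 42844919000) (nat_lit 76) (nat_lit 5875266120) (nat_lit 7) (nat_lit 4) (nat_lit 8) (nat_lit 5) (nat_lit 8) (nat_lit 4) (nat_lit 358) (nat_lit 269) (nat_lit 153))))))))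
noncomputable def xc135 : XT := (XT.nd (nat_lit 1638) (nat_lit 152) (nat_lit 0) (XT.nd (nat_lit 780) (nat_lit 76) (nat_lit 0) (XT.nd (nat_lit 390) (nat_lit 0) (nat_lit 0) (XT.nd (nat_lit 156) (nat_lit 76) (nat_lit 0) (XT.nd (nat_lit 78) (nat_lit 0) (nat_lit 0) (XT.lf (nat_lit 0) (nat_lit 4192364302) (nat_lit 152) (nat_lit 28381460421) (nat_lit 76) (nat_lit 117965249684) (nat_lit 6) (nat_lit 5) (nat_lit 8) (nat_lit 5) (nat_lit 7) (nat_lit 4) (nat_lit 359) (nat_lit 269) (nat_lit 152)) (XT.lf (nat_lit 0) (nat_lit 14562081474) (nat_lit 152) (nat_lit 7129401515) (nat_lit 76) (nat_lit 135774291950) (nat_lit 6) (nat_lit 5) (nat_lit 8) (nat_lit 5) (nat_lit 7) (nat_lit 4) (nat_lit 360) (nat_lit 269) (nat_lit 151))) (XT.nd (nat_lit 78) (nat_lit 0) (nat_lit 0) (XT.lf (nat_lit 0) (nat_lit 15680184949) (nat_lit 76) (nat_lit 10011247086) (nat_lit 152) (nat_lit 139035322286) (nat_lit 5) (nat_lit 5)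 (nat_lit 6) (nat_lit 5) (nat_lit 7) (nat_lit 4) (nat_lit 361) (nat_lit 269) (nat_lit 150)) (XT.nd (nat_lit 78) (nat_lit 0) (nat_lit 0) (XT.lf (nat_lit 0) (nat_lit 37531498328) (nat_lit 152) (nat_lit 132511091029) (nat_lit 0) (nat_lit 2300482049) (nat_lit 5) (nat_lit 5) (nat_lit 7) (nat_lit 4) (nat_lit 5) (nat_lit 4) (nat_lit 362) (nat_lit 269) (nat_lit 149)) (XT.lf (nat_lit 0) (nat_lit 50124213733) (nat_lit 152) (nat_lit 115319584063) (nat_lit 0) (nat_lit 14888375350) (nat_lit 5) (nat_lit 5) (nat_lit 7) (nat_lit 4) (nat_lit 5) (nat_lit 4) (nat_lit 363) (nat_lit 269) (nat_lit 148))))) (XT.nd (nat_lit 156) (nat_lit 0) (nat_lit 0) (XT.nd (nat_lit 78) (nat_lit 0) (nat_lit 0) (XT.lf (nat_lit 0) (nat_lit 63343257281) (nat_lit 152) (nat_lit 97274812689) (nat_lit 0) (nat_lit 28102826419) (nat_lit 5) (nat_lit 5) (nat_lit 7) (nat_lit 4) (nat_lit 5) (nat_lit 4) (nat_lit 364) (nat_lit 269) (nat_lit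 147)) (XT.lf (nat_lit 0) (nat_lit 77220102886) (nat_lit 152) (nat_lit 78333813168) (nat_lit 0) (nat_lit 41975298235) (nat_lit 5) (nat_lit 5) (nat_lit 7) (nat_lit 4) (nat_lit 5) (nat_lit 4) (nat_lit 365) (nat_lit 269) (nat_lit 146))) (XT.nd (nat_lit 78) (nat_lit 0) (nat_lit 0) (XT.lf (nat_lit 0) (nat_lit 91787790657) (nat_lit 152) (nat_lit 58451487881) (nat_lit 0) (nat_lit 56538820492) (nat_lit 5) (nat_lit 5) (nat_lit 7) (nat_lit 4) (nat_lit 5) (nat_lit 4) (nat_lit 366) (nat_lit 269) (nat_lit 145)) (XT.nd (nat_lit 78) (nat_lit 0) (nat_lit 0) (XT.lf (nat_lit 0) (nat_lit 107081005564) (nat_lit 152) (nat_lit 37580497959) (nat_lit 0) (nat_lit 71828068243) (nat_lit 5) (nat_lit 5) (nat_lit 7) (nat_lit 4) (nat_lit 5) (nat_lit 4) (nat_lit 367) (nat_lit 269) (nat_lit 144)) (XT.lf (nat_lit 0) (nat_lit 123136160025) (nat_lit 152) (nat_lit 15671150568) (nat_lit 0) (nat_lit 87879444460) (nat_lit 5)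 (nat_lit 5) (nat_lit 7) (nat_lit 4) (nat_lit 5) (nat_lit 4) (nat_lit 368) (nat_lit 269) (nat_lit 143)))))) (XT.nd (nat_lit 390) (nat_lit 0) (nat_lit 0) (XT.nd (nat_lit 156) (nat_lit 0) (nat_lit 0) (XT.nd (nat_lit 78) (nat_lit 0) (nat_lit 0) (XT.lf (nat_lit 0) (nat_lit 7571039964) (nat_lit 76) (nat_lit 132538645784) (nat_lit 76) (nat_lit 97278331891) (nat_lit 4) (nat_lit 4) (nat_lit 5) (nat_lit 5) (nat_lit 5) (nat_lit 4) (nat_lit 369) (nat_lit 269) (nat_lit 142)) (XT.lf (nat_lit 0) (nat_lit 32514541952) (nat_lit 76) (nat_lit 125680200165) (nat_lit 76) (nat_lit 90416459294) (nat_lit 4) (nat_lit 4) (nat_lit 5) (nat_lit 5) (nat_lit 5) (nat_lit 4) (nat_lit 370) (nat_lit 269) (nat_lit 141))) (XT.nd (nat_lit 78) (nat_lit 0) (nat_lit 0) (XT.lf (nat_lit 0) (nat_lit 58700585674) (nat_lit 76) (nat_lit 118481042622) (nat_lit 76) (nat_lit 83214037962) (nat_lit 4) (nat_lit 4) (nat_lit 5) (nat_lit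 5) (nat_lit 5) (nat_lit 4) (nat_lit 371) (nat_lit 269) (nat_lit 140)) (XT.nd (nat_lit 78) (nat_lit 0) (nat_lit 0) (XT.lf (nat_lit 0) (nat_lit 86191518853) (nat_lit 76) (nat_lit 110924032305) (nat_lit 76) (nat_lit 75653919274) (nat_lit 4) (nat_lit 4) (nat_lit 5) (nat_lit 5) (nat_lit 5) (nat_lit 4) (nat_lit 372) (nat_lit 269) (nat_lit 139)) (XT.lf (nat_lit 0) (nat_lit 115052796092) (nat_lit 76) (nat_lit 102991176330) (nat_lit 76) (nat_lit 67718102946) (nat_lit 4) (nat_lit 4) (nat_lit 5) (nat_lit 5) (nat_lit 5) (nat_lit 4) (nat_lit 373) (nat_lit 269) (nat_lit 138))))) (XT.nd (nat_lit 234) (nat_lit 0) (nat_lit 0) (XT.nd (nat_lit 78) (nat_lit 0) (nat_lit 0) (XT.lf (nat_lit 0) (nat_lit 145353134719) (nat_lit 76) (nat_lit 94663586947) (nat_lit 76) (nat_lit 59387694179) (nat_lit 4) (nat_lit 4) (nat_lit 5) (nat_lit 5) (nat_lit 5) (nat_lit 4) (nat_lit 374) (nat_lit 269) (nat_lit 137)) (XT.nd (nat_lit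 78) (nat_lit 0) (nat_lit 0) (XT.lf (nat_lit 0) (nat_lit 177164678395) (nat_lit 76) (nat_lit 85921436561) (nat_lit 76) (nat_lit 50642858665) (nat_lit 4) (nat_lit 4) (nat_lit 5) (nat_lit 5) (nat_lit 5) (nat_lit 4) (nat_lit 375) (nat_lit 269) (nat_lit 136)) (XT.lf (nat_lit 0) (nat_lit 210563168893) (nat_lit 76) (nat_lit 76743910528) (nat_lit 76) (nat_lit 41462775368) (nat_lit 4) (nat_lit 4) (nat_lit 5) (nat_lit 5) (nat_lit 5) (nat_lit 4) (nat_lit 376) (nat_lit 269) (nat_lit 135)))) (XT.nd (nat_lit 78) (nat_lit 0) (nat_lit 0) (XT.lf (nat_lit 0) (nat_lit 245628126427) (nat_lit 76) (nat_lit 67109157595) (nat_lit 76) (nat_lit 31825586946) (nat_lit 4) (nat_lit 4) (nat_lit 5) (nat_lit 5) (nat_lit 5) (nat_lit 4) (nat_lit 377) (nat_lit 269) (nat_lit 134)) (XT.nd (nat_lit 78) (nat_lit 0) (nat_lit 0) (XT.lf (nat_lit 0) (nat_lit 282443038991) (nat_lit 76) (nat_lit 56994237876) (nat_lit 76) (nat_lit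 21708347713) (nat_lit 4) (nat_lit 4) (nat_lit 5) (nat_lit 5) (nat_lit 5) (nat_lit 4) (nat_lit 378) (nat_lit 269) (nat_lit 133)) (XT.lf (nat_lit 0) (nat_lit 321095561140) (nat_lit 76) (nat_lit 46375068228) (nat_lit 76) (nat_lit 11086969004) (nat_lit 4) (nat_lit 4) (nat_lit 5) (nat_lit 5) (nat_lit 5) (nat_lit 4) (nat_lit 379) (nat_lit 269) (nat_lit 132))))))) (XT.nd (nat_lit 32136) (nat_lit 0) (nat_lit 7296) (XT.nd (nat_lit 390) (nat_lit 0) (nat_lit 0) (XT.nd (nat_lit 156) (nat_lit 76) (nat_lit 0) (XT.nd (nat_lit 78) (nat_lit 0) (nat_lit 0) (XT.lf (nat_lit 0) (nat_lit 61794957) (nat_lit 152) (nat_lit 35163523427) (nat_lit 76) (nat_lit 361614881202) (nat_lit 3) (nat_lit 5) (nat_lit 5) (nat_lit 5) (nat_lit 4) (nat_lit 4) (nat_lit 380) (nat_lit 269) (nat_lit 131)) (XT.lf (nat_lit 0) (nat_lit 11393889917) (nat_lit 152) (nat_lit 11934732443) (nat_lit 76) (nat_lit 392699296871) (nat_lit 3) (nat_lit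 5) (nat_lit 5) (nat_lit 5) (nat_lit 4) (nat_lit 4) (nat_lit 381) (nat_lit 269) (nat_lit 130))) (XT.nd (nat_lit 78) (nat_lit 0) (nat_lit 0) (XT.lf (nat_lit 0) (nat_lit 12864484880) (nat_lit 76) (nat_lit 10627515083) (nat_lit 152) (nat_lit 412673054790) (nat_lit 2) (nat_lit 5) (nat_lit 3) (nat_lit 5) (nat_lit 4) (nat_lit 4) (nat_lit 382) (nat_lit 269) (nat_lit 129)) (XT.nd (nat_lit 78) (nat_lit 0) (nat_lit 0) (XT.lf (nat_lit 0) (nat_lit 36441304647) (nat_lit 152) (nat_lit 418029297445) (nat_lit 0) (nat_lit 2826130890) (nat_lit 2) (nat_lit 5) (nat_lit 4) (nat_lit 4) (nat_lit 2) (nat_lit 4) (nat_lit 383) (nat_lit 269) (nat_lit 128)) (XT.lf (nat_lit 0) (nat_lit 50210930066) (nat_lit 152) (nat_lit 412671314783) (nat_lit 0) (nat_lit 16594107874) (nat_lit 2) (nat_lit 5) (nat_lit 4) (nat_lit 4) (nat_lit 2) (nat_lit 4) (nat_lit 384) (nat_lit 269) (nat_lit 127))))) (XT.nd (nat_lit 156) (nat_lit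 0) (nat_lit 0) (XT.nd (nat_lit 78) (nat_lit 0) (nat_lit 0) (XT.lf (nat_lit 0) (nat_lit 64667735747) (nat_lit 152) (nat_lit 407047939491) (nat_lit 0) (nat_lit 31049343616) (nat_lit 2) (nat_lit 5) (nat_lit 4) (nat_lit 4) (nat_lit 2) (nat_lit 4) (nat_lit 385) (nat_lit 269) (nat_lit 126)) (XT.lf (nat_lit 0) (nat_lit 79846142656) (nat_lit 152) (nat_lit 401145782580) (nat_lit 0) (nat_lit 46226255346) (nat_lit 2) (nat_lit 5) (nat_lit 4) (nat_lit 4) (nat_lit 2) (nat_lit 4) (nat_lit 386) (nat_lit 269) (nat_lit 125))) (XT.nd (nat_lit 78) (nat_lit 0) (nat_lit 0) (XT.lf (nat_lit 0) (nat_lit 95782289858) (nat_lit 152) (nat_lit 394950791296) (nat_lit 0) (nat_lit 62160978567) (nat_lit 2) (nat_lit 5) (nat_lit 4) (nat_lit 4) (nat_lit 2) (nat_lit 4) (nat_lit 387) (nat_lit 269) (nat_lit 124)) (XT.nd (nat_lit 31434) (nat_lit 0) (nat_lit 8360) (XT.lf (nat_lit 0) (nat_lit 112514120560) (nat_lit 152) (nat_lit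 388448215660) (nat_lit 0) (nat_lit 78891453097) (nat_lit 2) (nat_lit 5) (nat_lit 4) (nat_lit 4) (nat_lit 2) (nat_lit 4) (nat_lit 388) (nat_lit 269) (nat_lit 123)) (XT.lf (nat_lit 0) (nat_lit 441847517) (nat_lit 0) (nat_lit 441847517) (nat_lit 532) (nat_lit 2925343990) (nat_lit 112) (nat_lit 5) (nat_lit 112) (nat_lit 3) (nat_lit 119) (nat_lit 3) (nat_lit 270) (nat_lit 270) (nat_lit 240)))))) (XT.nd (nat_lit 390) (nat_lit 532) (nat_lit 0) (XT.nd (nat_lit 156) (nat_lit 532) (nat_lit 0) (XT.nd (nat_lit 78) (nat_lit 0) (nat_lit 0) (XT.lf (nat_lit 0) (nat_lit 3151174134) (nat_lit 532) (nat_lit 3206579575) (nat_lit 608) (nat_lit 1381077067) (nat_lit 112) (nat_lit 5) (nat_lit 119) (nat_lit 3) (nat_lit 120) (nat_lit 5) (nat_lit 271) (nat_lit 270) (nat_lit 239)) (XT.lf (nat_lit 76) (nat_lit 450329392) (nat_lit 0) (nat_lit 4091668813) (nat_lit 608) (nat_lit 3326904462) (nat_lit 113) (nat_lit 5)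 (nat_lit 112) (nat_lit 5) (nat_lit 120) (nat_lit 5) (nat_lit 272) (nat_lit 270) (nat_lit 238))) (XT.nd (nat_lit 78) (nat_lit 532) (nat_lit 0) (XT.lf (nat_lit 76) (nat_lit 4354959288) (nat_lit 0) (nat_lit 1621301190) (nat_lit 608) (nat_lit 2030688602) (nat_lit 113) (nat_lit 5) (nat_lit 112) (nat_lit 5) (nat_lit 120) (nat_lit 5) (nat_lit 273) (nat_lit 270) (nat_lit 237)) (XT.nd (nat_lit 78) (nat_lit 608) (nat_lit 0) (XT.lf (nat_lit 76) (nat_lit 246911188) (nat_lit 0) (nat_lit 7178290338) (nat_lit 608) (nat_lit 729705888) (nat_lit 114) (nat_lit 5) (nat_lit 113) (nat_lit 5) (nat_lit 121) (nat_lit 5) (nat_lit 274) (nat_lit 270) (nat_lit 236)) (XT.lf (nat_lit 0) (nat_lit 630854782) (nat_lit 608) (nat_lit 3927704300) (nat_lit 684) (nat_lit 3750606284) (nat_lit 105) (nat_lit 5) (nat_lit 113) (nat_lit 5) (nat_lit 114) (nat_lit 5) (nat_lit 275) (nat_lit 270) (nat_lit 235))))) (XT.nd (nat_lit 234)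 (nat_lit 532) (nat_lit 0) (XT.nd (nat_lit 78) (nat_lit 0) (nat_lit 76) (XT.lf (nat_lit 76) (nat_lit 197827093) (nat_lit 0) (nat_lit 1769186314) (nat_lit 684) (nat_lit 6507056435) (nat_lit 106) (nat_lit 5) (nat_lit 105) (nat_lit 5) (nat_lit 114) (nat_lit 5) (nat_lit 276) (nat_lit 270) (nat_lit 234)) (XT.nd (nat_lit 78) (nat_lit 0) (nat_lit 0) (XT.lf (nat_lit 0) (nat_lit 3387666512) (nat_lit 608) (nat_lit 4048336695) (nat_lit 684) (nat_lit 1210461898) (nat_lit 106) (nat_lit 5) (nat_lit 114) (nat_lit 5) (nat_lit 115) (nat_lit 5) (nat_lit 277) (nat_lit 270) (nat_lit 233)) (XT.lf (nat_lit 76) (nat_lit 323512998) (nat_lit 0) (nat_lit 4525105707) (nat_lit 684) (nat_lit 3980521809) (nat_lit 107) (nat_lit 5) (nat_lit 106) (nat_lit 5) (nat_lit 115) (nat_lit 5) (nat_lit 278) (nat_lit 270) (nat_lit 232)))) (XT.nd (nat_lit 78) (nat_lit 608) (nat_lit 0) (XT.lf (nat_lit 76) (nat_lit 5006488387) (nat_lit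 0) (nat_lit 1382238556) (nat_lit 684) (nat_lit 2632035144) (nat_lit 107) (nat_lit 5) (nat_lit 106) (nat_lit 5) (nat_lit 115) (nat_lit 5) (nat_lit 279) (nat_lit 270) (nat_lit 231)) (XT.nd (nat_lit 78) (nat_lit 76) (nat_lit 0) (XT.lf (nat_lit 0) (nat_lit 643264285) (nat_lit 608) (nat_lit 7343297723) (nat_lit 684) (nat_lit 1236478866) (nat_lit 99) (nat_lit 5) (nat_lit 107) (nat_lit 5) (nat_lit 108) (nat_lit 5) (nat_lit 280) (nat_lit 270) (nat_lit 230)) (XT.lf (nat_lit 0) (nat_lit 255052555) (nat_lit 684) (nat_lit 3836602629) (nat_lit 76) (nat_lit 5342025428) (nat_lit 98) (nat_lit 5) (nat_lit 107) (nat_lit 5) (nat_lit 99) (nat_lit 5) (nat_lit 281) (nat_lit 270) (nat_lit 229))))))))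
noncomputable def xc136 : XT := (XT.nd (nat_lit 1560) (nat_lit 1824) (nat_lit 0) (XT.nd (nat_lit 780) (nat_lit 1672) (nat_lit 0) (XT.nd (nat_lit 390) (nat_lit 684) (nat_lit 0) (XT.nd (nat_lit 156) (nat_lit 912) (nat_lit 0) (XT.nd (nat_lit 78) (nat_lit 0) (nat_lit 0) (XT.lf (nat_lit 0) (nat_lit 1111150596) (nat_lit 684) (nat_lit 630341781) (nat_lit 760) (nat_lit 7914349100) (nat_lit 89) (nat_lit 5) (nat_lit 98) (nat_lit 5) (nat_lit 99) (nat_lit 5) (nat_lit 282) (nat_lit 270) (nat_lit 228)) (XT.lf (nat_lit 0) (nat_lit 3361739456) (nat_lit 760) (nat_lit 3544310432) (nat_lit 76) (nat_lit 2980178543) (nat_lit 89) (nat_lit 5) (nat_lit 99) (nat_lit 5) (nat_lit 90) (nat_lit 5) (nat_lit 283) (nat_lit 270) (nat_lit 227))) (XT.nd (nat_lit 78) (nat_lit 380) (nat_lit 0) (XT.lf (nat_lit 0) (nat_lit 1702659053) (nat_lit 532) (nat_lit 3346346057) (nat_lit 608) (nat_lit 5079917228) (nat_lit 82) (nat_lit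 5) (nat_lit 89) (nat_lit 5) (nat_lit 90) (nat_lit 5) (nat_lit 284) (nat_lit 270) (nat_lit 226)) (XT.nd (nat_lit 78) (nat_lit 380) (nat_lit 0) (XT.lf (nat_lit 0) (nat_lit 6838572704) (nat_lit 608) (nat_lit 3102222780) (nat_lit 76) (nat_lit 442142252) (nat_lit 82) (nat_lit 5) (nat_lit 90) (nat_lit 5) (nat_lit 83) (nat_lit 5) (nat_lit 285) (nat_lit 270) (nat_lit 225)) (XT.lf (nat_lit 0) (nat_lit 2465003241) (nat_lit 380) (nat_lit 6299121152) (nat_lit 456) (nat_lit 1883283968) (nat_lit 77) (nat_lit 5) (nat_lit 82) (nat_lit 5) (nat_lit 83) (nat_lit 5) (nat_lit 286) (nat_lit 270) (nat_lit 224))))) (XT.nd (nat_lit 156) (nat_lit 304) (nat_lit 0) (XT.nd (nat_lit 78) (nat_lit 380) (nat_lit 0) (XT.lf (nat_lit 0) (nat_lit 8371997793) (nat_lit 380) (nat_lit 2421163082) (nat_lit 456) (nat_lit 131657226) (nat_lit 77) (nat_lit 5) (nat_lit 82) (nat_lit 5) (nat_lit 83) (nat_lit 5) (nat_lit 287) (nat_lit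 270) (nat_lit 223)) (XT.lf (nat_lit 0) (nat_lit 1689000378) (nat_lit 380) (nat_lit 7846812927) (nat_lit 76) (nat_lit 1677215834) (nat_lit 72) (nat_lit 5) (nat_lit 77) (nat_lit 5) (nat_lit 73) (nat_lit 5) (nat_lit 288) (nat_lit 270) (nat_lit 222))) (XT.nd (nat_lit 78) (nat_lit 304) (nat_lit 0) (XT.lf (nat_lit 0) (nat_lit 3637305885) (nat_lit 380) (nat_lit 1933248657) (nat_lit 76) (nat_lit 5943001895) (nat_lit 72) (nat_lit 5) (nat_lit 77) (nat_lit 5) (nat_lit 73) (nat_lit 5) (nat_lit 289) (nat_lit 270) (nat_lit 221)) (XT.nd (nat_lit 78) (nat_lit 0) (nat_lit 0) (XT.lf (nat_lit 0) (nat_lit 4371102052) (nat_lit 304) (nat_lit 1339604415) (nat_lit 380) (nat_lit 6117082123) (nat_lit 68) (nat_lit 5) (nat_lit 72) (nat_lit 5) (nat_lit 73) (nat_lit 5) (nat_lit 290) (nat_lit 270) (nat_lit 220)) (XT.lf (nat_lit 0) (nat_lit 7930103254) (nat_lit 380) (nat_lit 1193311866) (nat_lit 76) (nat_lit 3032260427)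 (nat_lit 68) (nat_lit 5) (nat_lit 73) (nat_lit 5) (nat_lit 69) (nat_lit 5) (nat_lit 291) (nat_lit 270) (nat_lit 219)))))) (XT.nd (nat_lit 390) (nat_lit 760) (nat_lit 0) (XT.nd (nat_lit 156) (nat_lit 608) (nat_lit 0) (XT.nd (nat_lit 78) (nat_lit 0) (nat_lit 0) (XT.lf (nat_lit 0) (nat_lit 5493257670) (nat_lit 304) (nat_lit 4837418165) (nat_lit 380) (nat_lit 2165827390) (nat_lit 64) (nat_lit 5) (nat_lit 68) (nat_lit 5) (nat_lit 69) (nat_lit 5) (nat_lit 292) (nat_lit 270) (nat_lit 218)) (XT.lf (nat_lit 0) (nat_lit 12512460047) (nat_lit 304) (nat_lit 322619757) (nat_lit 380) (nat_lit 20156317) (nat_lit 64) (nat_lit 5) (nat_lit 68) (nat_lit 5) (nat_lit 69) (nat_lit 5) (nat_lit 293) (nat_lit 270) (nat_lit 217))) (XT.nd (nat_lit 78) (nat_lit 228) (nat_lit 0) (XT.lf (nat_lit 0) (nat_lit 2303245523) (nat_lit 380) (nat_lit 6506929826) (nat_lit 76) (nat_lit 4412940721) (nat_lit 59) (nat_lit 5) (nat_lit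 64) (nat_lit 5) (nat_lit 60) (nat_lit 5) (nat_lit 294) (nat_lit 270) (nat_lit 216)) (XT.nd (nat_lit 78) (nat_lit 0) (nat_lit 0) (XT.lf (nat_lit 0) (nat_lit 497867849) (nat_lit 228) (nat_lit 4228859637) (nat_lit 304) (nat_lit 8883463262) (nat_lit 56) (nat_lit 5) (nat_lit 59) (nat_lit 5) (nat_lit 60) (nat_lit 5) (nat_lit 295) (nat_lit 270) (nat_lit 215)) (XT.lf (nat_lit 0) (nat_lit 7358922147) (nat_lit 304) (nat_lit 5987307644) (nat_lit 76) (nat_lit 666056840) (nat_lit 56) (nat_lit 5) (nat_lit 60) (nat_lit 5) (nat_lit 57) (nat_lit 5) (nat_lit 296) (nat_lit 270) (nat_lit 214))))) (XT.nd (nat_lit 156) (nat_lit 532) (nat_lit 0) (XT.nd (nat_lit 78) (nat_lit 0) (nat_lit 0) (XT.lf (nat_lit 0) (nat_lit 1428325283) (nat_lit 228) (nat_lit 8754079257) (nat_lit 304) (nat_lit 4249141159) (nat_lit 53) (nat_lit 5) (nat_lit 56) (nat_lit 5) (nat_lit 57) (nat_lit 5) (nat_lit 297) (nat_lit 270) (nat_lit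 213)) (XT.lf (nat_lit 0) (nat_lit 9381260596) (nat_lit 228) (nat_lit 3836126488) (nat_lit 304) (nat_lit 1650904610) (nat_lit 53) (nat_lit 5) (nat_lit 56) (nat_lit 5) (nat_lit 57) (nat_lit 5) (nat_lit 298) (nat_lit 270) (nat_lit 212))) (XT.nd (nat_lit 78) (nat_lit 228) (nat_lit 0) (XT.lf (nat_lit 0) (nat_lit 1071982722) (nat_lit 304) (nat_lit 12921780940) (nat_lit 76) (nat_lit 1330846042) (nat_lit 49) (nat_lit 5) (nat_lit 53) (nat_lit 5) (nat_lit 50) (nat_lit 5) (nat_lit 299) (nat_lit 270) (nat_lit 211)) (XT.nd (nat_lit 78) (nat_lit 228) (nat_lit 0) (XT.lf (nat_lit 0) (nat_lit 4003404933) (nat_lit 304) (nat_lit 5053986455) (nat_lit 76) (nat_lit 6738640232) (nat_lit 49) (nat_lit 5) (nat_lit 53) (nat_lit 5) (nat_lit 50) (nat_lit 5) (nat_lit 300) (nat_lit 270) (nat_lit 210)) (XT.lf (nat_lit 0) (nat_lit 3272811624) (nat_lit 228) (nat_lit 3831622980) (nat_lit 304) (nat_lit 9185471344) (nat_lit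 46) (nat_lit 5) (nat_lit 49) (nat_lit 5) (nat_lit 50) (nat_lit 5) (nat_lit 301) (nat_lit 270) (nat_lit 209))))))) (XT.nd (nat_lit 780) (nat_lit 836) (nat_lit 0) (XT.nd (nat_lit 390) (nat_lit 532) (nat_lit 0) (XT.nd (nat_lit 156) (nat_lit 304) (nat_lit 0) (XT.nd (nat_lit 78) (nat_lit 152) (nat_lit 0) (XT.lf (nat_lit 0) (nat_lit 10445855704) (nat_lit 304) (nat_lit 4679759550) (nat_lit 76) (nat_lit 1678623297) (nat_lit 46) (nat_lit 5) (nat_lit 50) (nat_lit 5) (nat_lit 47) (nat_lit 5) (nat_lit 302) (nat_lit 270) (nat_lit 208)) (XT.lf (nat_lit 0) (nat_lit 4105183164) (nat_lit 152) (nat_lit 9949880299) (nat_lit 228) (nat_lit 3284218595) (nat_lit 44) (nat_lit 5) (nat_lit 46) (nat_lit 5) (nat_lit 47) (nat_lit 5) (nat_lit 303) (nat_lit 270) (nat_lit 207))) (XT.nd (nat_lit 78) (nat_lit 228) (nat_lit 0) (XT.lf (nat_lit 0) (nat_lit 39074) (nat_lit 228) (nat_lit 4443803394) (nat_lit 76) (nat_lit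 13454577430) (nat_lit 43) (nat_lit 5) (nat_lit 46) (nat_lit 5) (nat_lit 44) (nat_lit 5) (nat_lit 304) (nat_lit 270) (nat_lit 206)) (XT.nd (nat_lit 78) (nat_lit 0) (nat_lit 0) (XT.lf (nat_lit 0) (nat_lit 3411969260) (nat_lit 304) (nat_lit 13651987915) (nat_lit 76) (nat_lit 1415199888) (nat_lit 40) (nat_lit 5) (nat_lit 44) (nat_lit 5) (nat_lit 41) (nat_lit 5) (nat_lit 305) (nat_lit 270) (nat_lit 205)) (XT.lf (nat_lit 0) (nat_lit 7119542009) (nat_lit 304) (nat_lit 4480044237) (nat_lit 76) (nat_lit 7483117264) (nat_lit 40) (nat_lit 5) (nat_lit 44) (nat_lit 5) (nat_lit 41) (nat_lit 5) (nat_lit 306) (nat_lit 270) (nat_lit 204))))) (XT.nd (nat_lit 156) (nat_lit 380) (nat_lit 0) (XT.nd (nat_lit 78) (nat_lit 0) (nat_lit 0) (XT.lf (nat_lit 0) (nat_lit 5284626659) (nat_lit 152) (nat_lit 5787235976) (nat_lit 228) (nat_lit 8641619729) (nat_lit 38) (nat_lit 5) (nat_lit 40) (nat_lit 5) (nat_lit 41)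 (nat_lit 5) (nat_lit 307) (nat_lit 270) (nat_lit 203)) (XT.lf (nat_lit 0) (nat_lit 15281084358) (nat_lit 228) (nat_lit 4720523844) (nat_lit 76) (nat_lit 371250133) (nat_lit 38) (nat_lit 5) (nat_lit 41) (nat_lit 5) (nat_lit 39) (nat_lit 5) (nat_lit 308) (nat_lit 270) (nat_lit 202))) (XT.nd (nat_lit 78) (nat_lit 228) (nat_lit 0) (XT.lf (nat_lit 0) (nat_lit 5521343525) (nat_lit 152) (nat_lit 14338823905) (nat_lit 228) (nat_lit 1197087020) (nat_lit 36) (nat_lit 5) (nat_lit 38) (nat_lit 5) (nat_lit 39) (nat_lit 5) (nat_lit 309) (nat_lit 270) (nat_lit 201)) (XT.nd (nat_lit 78) (nat_lit 152) (nat_lit 0) (XT.lf (nat_lit 0) (nat_lit 2859487863) (nat_lit 228) (nat_lit 5413064047) (nat_lit 76) (nat_lit 13498093644) (nat_lit 35) (nat_lit 5) (nat_lit 38) (nat_lit 5) (nat_lit 36) (nat_lit 5) (nat_lit 310) (nat_lit 270) (nat_lit 200)) (XT.lf (nat_lit 0) (nat_lit 5334747875) (nat_lit 152) (nat_lit 1806700600)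 (nat_lit 228) (nat_lit 15374155623) (nat_lit 33) (nat_lit 5) (nat_lit 35) (nat_lit 5) (nat_lit 36) (nat_lit 5) (nat_lit 311) (nat_lit 270) (nat_lit 199)))))) (XT.nd (nat_lit 390) (nat_lit 456) (nat_lit 0) (XT.nd (nat_lit 156) (nat_lit 228) (nat_lit 0) (XT.nd (nat_lit 78) (nat_lit 152) (nat_lit 0) (XT.lf (nat_lit 0) (nat_lit 11788266012) (nat_lit 228) (nat_lit 6597252357) (nat_lit 76) (nat_lit 4904771825) (nat_lit 33) (nat_lit 5) (nat_lit 36) (nat_lit 5) (nat_lit 34) (nat_lit 5) (nat_lit 312) (nat_lit 270) (nat_lit 198)) (XT.lf (nat_lit 0) (nat_lit 4602151781) (nat_lit 152) (nat_lit 12147498698) (nat_lit 228) (nat_lit 7349965552) (nat_lit 31) (nat_lit 5) (nat_lit 33) (nat_lit 5) (nat_lit 34) (nat_lit 5) (nat_lit 313) (nat_lit 270) (nat_lit 197))) (XT.nd (nat_lit 78) (nat_lit 228) (nat_lit 0) (XT.lf (nat_lit 0) (nat_lit 16560009315) (nat_lit 152) (nat_lit 5492017338) (nat_lit 228) (nat_lit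 2892751319) (nat_lit 31) (nat_lit 5) (nat_lit 33) (nat_lit 5) (nat_lit 34) (nat_lit 5) (nat_lit 314) (nat_lit 270) (nat_lit 196)) (XT.nd (nat_lit 78) (nat_lit 0) (nat_lit 0) (XT.lf (nat_lit 0) (nat_lit 1788422672) (nat_lit 228) (nat_lit 22521017431) (nat_lit 76) (nat_lit 1518461877) (nat_lit 28) (nat_lit 5) (nat_lit 31) (nat_lit 5) (nat_lit 29) (nat_lit 5) (nat_lit 315) (nat_lit 270) (nat_lit 195)) (XT.lf (nat_lit 0) (nat_lit 6822815497) (nat_lit 228) (nat_lit 11043611048) (nat_lit 76) (nat_lit 8875579528) (nat_lit 28) (nat_lit 5) (nat_lit 31) (nat_lit 5) (nat_lit 29) (nat_lit 5) (nat_lit 316) (nat_lit 270) (nat_lit 194))))) (XT.nd (nat_lit 234) (nat_lit 304) (nat_lit 0) (XT.nd (nat_lit 78) (nat_lit 0) (nat_lit 0) (XT.lf (nat_lit 0) (nat_lit 1011500540) (nat_lit 152) (nat_lit 11096090725) (nat_lit 228) (nat_lit 15594304054) (nat_lit 26) (nat_lit 5) (nat_lit 28) (nat_lit 5) (nat_lit 29)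 (nat_lit 5) (nat_lit 317) (nat_lit 270) (nat_lit 193)) (XT.nd (nat_lit 78) (nat_lit 0) (nat_lit 0) (XT.lf (nat_lit 0) (nat_lit 14024697811) (nat_lit 152) (nat_lit 3802185125) (nat_lit 228) (nat_lit 10874394722) (nat_lit 26) (nat_lit 5) (nat_lit 28) (nat_lit 5) (nat_lit 29) (nat_lit 5) (nat_lit 318) (nat_lit 270) (nat_lit 192)) (XT.lf (nat_lit 0) (nat_lit 23876226141) (nat_lit 228) (nat_lit 2149666825) (nat_lit 76) (nat_lit 3722543693) (nat_lit 26) (nat_lit 5) (nat_lit 29) (nat_lit 5) (nat_lit 27) (nat_lit 4) (nat_lit 319) (nat_lit 270) (nat_lit 191)))) (XT.nd (nat_lit 78) (nat_lit 228) (nat_lit 0) (XT.lf (nat_lit 0) (nat_lit 11276086906) (nat_lit 76) (nat_lit 19174977052) (nat_lit 152) (nat_lit 385749608) (nat_lit 25) (nat_lit 5) (nat_lit 26) (nat_lit 5) (nat_lit 27) (nat_lit 4) (nat_lit 320) (nat_lit 270) (nat_lit 190)) (XT.nd (nat_lit 78) (nat_lit 152) (nat_lit 0) (XT.lf (nat_lit 0)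 (nat_lit 5224721210) (nat_lit 152) (nat_lit 6640719432) (nat_lit 76) (nat_lit 20108896907) (nat_lit 24) (nat_lit 5) (nat_lit 26) (nat_lit 5) (nat_lit 25) (nat_lit 5) (nat_lit 321) (nat_lit 270) (nat_lit 189)) (XT.lf (nat_lit 0) (nat_lit 7121984630) (nat_lit 152) (nat_lit 4077408092) (nat_lit 228) (nat_lit 21964206560) (nat_lit 22) (nat_lit 5) (nat_lit 24) (nat_lit 5) (nat_lit 25) (nat_lit 5) (nat_lit 322) (nat_lit 270) (nat_lit 188))))))))
noncomputable def xc137 : XT := (XT.nd (nat_lit 1638) (nat_lit 456) (nat_lit 0) (XT.nd (nat_lit 780) (nat_lit 380) (nat_lit 0) (XT.nd (nat_lit 390) (nat_lit 152) (nat_lit 0) (XT.nd (nat_lit 156) (nat_lit 228) (nat_lit 0) (XT.nd (nat_lit 78) (nat_lit 76) (nat_lit 0) (XT.lf (nat_lit 0) (nat_lit 17636714464) (nat_lit 228) (nat_lit 12694269426) (nat_lit 76) (nat_lit 4073153699) (nat_lit 22) (nat_lit 5) (nat_lit 25) (nat_lit 5) (nat_lit 23) (nat_lit 4)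 (nat_lit 323) (nat_lit 270) (nat_lit 187)) (XT.lf (nat_lit 0) (nat_lit 1270367990) (nat_lit 76) (nat_lit 23198493243) (nat_lit 152) (nat_lit 11234202506) (nat_lit 21) (nat_lit 5) (nat_lit 22) (nat_lit 5) (nat_lit 23) (nat_lit 4) (nat_lit 324) (nat_lit 270) (nat_lit 186))) (XT.nd (nat_lit 78) (nat_lit 228) (nat_lit 0) (XT.lf (nat_lit 0) (nat_lit 16350446978) (nat_lit 76) (nat_lit 15493720363) (nat_lit 152) (nat_lit 5212699708) (nat_lit 21) (nat_lit 5) (nat_lit 22) (nat_lit 5) (nat_lit 23) (nat_lit 4) (nat_lit 325) (nat_lit 270) (nat_lit 185)) (XT.nd (nat_lit 78) (nat_lit 152) (nat_lit 0) (XT.lf (nat_lit 0) (nat_lit 1061345702) (nat_lit 152) (nat_lit 6333984043) (nat_lit 76) (nat_lit 31082822506) (nat_lit 20) (nat_lit 5) (nat_lit 22) (nat_lit 5) (nat_lit 21) (nat_lit 5) (nat_lit 326) (nat_lit 270) (nat_lit 184)) (XT.lf (nat_lit 0) (nat_lit 7621877449) (nat_lit 228) (nat_lit 31044835204)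 (nat_lit 76) (nat_lit 1292125407) (nat_lit 18) (nat_lit 5) (nat_lit 21) (nat_lit 5) (nat_lit 19) (nat_lit 4) (nat_lit 327) (nat_lit 270) (nat_lit 183))))) (XT.nd (nat_lit 156) (nat_lit 152) (nat_lit 0) (XT.nd (nat_lit 78) (nat_lit 0) (nat_lit 0) (XT.lf (nat_lit 0) (nat_lit 14728419903) (nat_lit 228) (nat_lit 16508754175) (nat_lit 76) (nat_lit 10265491831) (nat_lit 18) (nat_lit 5) (nat_lit 21) (nat_lit 5) (nat_lit 19) (nat_lit 4) (nat_lit 328) (nat_lit 270) (nat_lit 182)) (XT.lf (nat_lit 0) (nat_lit 22178595775) (nat_lit 228) (nat_lit 1266685066) (nat_lit 76) (nat_lit 19678995616) (nat_lit 18) (nat_lit 5) (nat_lit 21) (nat_lit 5) (nat_lit 19) (nat_lit 4) (nat_lit 329) (nat_lit 270) (nat_lit 181))) (XT.nd (nat_lit 78) (nat_lit 76) (nat_lit 0) (XT.lf (nat_lit 0) (nat_lit 15204295160) (nat_lit 76) (nat_lit 15023230077) (nat_lit 152) (nat_lit 14588136364) (nat_lit 17) (nat_lit 5) (nat_lit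 18) (nat_lit 5) (nat_lit 19) (nat_lit 4) (nat_lit 330) (nat_lit 270) (nat_lit 180)) (XT.nd (nat_lit 78) (nat_lit 76) (nat_lit 0) (XT.lf (nat_lit 0) (nat_lit 32523295863) (nat_lit 76) (nat_lit 6166146173) (nat_lit 152) (nat_lit 7901652930) (nat_lit 17) (nat_lit 5) (nat_lit 18) (nat_lit 5) (nat_lit 19) (nat_lit 4) (nat_lit 331) (nat_lit 270) (nat_lit 179)) (XT.lf (nat_lit 0) (nat_lit 2257293121) (nat_lit 76) (nat_lit 45390812226) (nat_lit 76) (nat_lit 803517839) (nat_lit 16) (nat_lit 4) (nat_lit 17) (nat_lit 5) (nat_lit 17) (nat_lit 4) (nat_lit 332) (nat_lit 270) (nat_lit 178)))))) (XT.nd (nat_lit 390) (nat_lit 228) (nat_lit 0) (XT.nd (nat_lit 156) (nat_lit 76) (nat_lit 0) (XT.nd (nat_lit 78) (nat_lit 0) (nat_lit 0) (XT.lf (nat_lit 0) (nat_lit 6769448618) (nat_lit 152) (nat_lit 30734050610) (nat_lit 76) (nat_lit 12879855348) (nat_lit 15) (nat_lit 5) (nat_lit 17) (nat_lit 5) (nat_lit 16)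 (nat_lit 4) (nat_lit 333) (nat_lit 270) (nat_lit 177)) (XT.lf (nat_lit 0) (nat_lit 14684075075) (nat_lit 152) (nat_lit 14532043411) (nat_lit 76) (nat_lit 23195399612) (nat_lit 15) (nat_lit 5) (nat_lit 17) (nat_lit 5) (nat_lit 16) (nat_lit 4) (nat_lit 334) (nat_lit 270) (nat_lit 176))) (XT.nd (nat_lit 78) (nat_lit 0) (nat_lit 0) (XT.lf (nat_lit 0) (nat_lit 2544244621) (nat_lit 76) (nat_lit 20480401637) (nat_lit 152) (nat_lit 31514937574) (nat_lit 14) (nat_lit 5) (nat_lit 15) (nat_lit 5) (nat_lit 16) (nat_lit 4) (nat_lit 335) (nat_lit 270) (nat_lit 175)) (XT.nd (nat_lit 78) (nat_lit 0) (nat_lit 0) (XT.lf (nat_lit 0) (nat_lit 20961893792) (nat_lit 76) (nat_lit 11057137843) (nat_lit 152) (nat_lit 24743186420) (nat_lit 14) (nat_lit 5) (nat_lit 15) (nat_lit 5) (nat_lit 16) (nat_lit 4) (nat_lit 336) (nat_lit 270) (nat_lit 174)) (XT.lf (nat_lit 0) (nat_lit 40284260662) (nat_lit 76) (nat_lit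 1169997949) (nat_lit 152) (nat_lit 17642173531) (nat_lit 14) (nat_lit 5) (nat_lit 15) (nat_lit 5) (nat_lit 16) (nat_lit 4) (nat_lit 337) (nat_lit 270) (nat_lit 173))))) (XT.nd (nat_lit 234) (nat_lit 76) (nat_lit 0) (XT.nd (nat_lit 78) (nat_lit 152) (nat_lit 0) (XT.lf (nat_lit 0) (nat_lit 51496500972) (nat_lit 152) (nat_lit 1134141837) (nat_lit 0) (nat_lit 8909955487) (nat_lit 14) (nat_lit 5) (nat_lit 16) (nat_lit 4) (nat_lit 14) (nat_lit 4) (nat_lit 338) (nat_lit 270) (nat_lit 172)) (XT.nd (nat_lit 78) (nat_lit 76) (nat_lit 0) (XT.lf (nat_lit 0) (nat_lit 17968756203) (nat_lit 76) (nat_lit 44363666680) (nat_lit 76) (nat_lit 1759975376) (nat_lit 13) (nat_lit 4) (nat_lit 14) (nat_lit 5) (nat_lit 14) (nat_lit 4) (nat_lit 339) (nat_lit 270) (nat_lit 171)) (XT.lf (nat_lit 0) (nat_lit 6727672473) (nat_lit 152) (nat_lit 28828292086) (nat_lit 76) (nat_lit 31209841295) (nat_lit 12) (nat_lit 5)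 (nat_lit 14) (nat_lit 5) (nat_lit 13) (nat_lit 4) (nat_lit 340) (nat_lit 270) (nat_lit 170)))) (XT.nd (nat_lit 78) (nat_lit 76) (nat_lit 0) (XT.lf (nat_lit 0) (nat_lit 15572811531) (nat_lit 152) (nat_lit 10711308782) (nat_lit 76) (nat_lit 43287711483) (nat_lit 12) (nat_lit 5) (nat_lit 14) (nat_lit 5) (nat_lit 13) (nat_lit 4) (nat_lit 341) (nat_lit 270) (nat_lit 169)) (XT.nd (nat_lit 78) (nat_lit 0) (nat_lit 0) (XT.lf (nat_lit 0) (nat_lit 8572288444) (nat_lit 76) (nat_lit 16414380857) (nat_lit 152) (nat_lit 47525169830) (nat_lit 11) (nat_lit 5) (nat_lit 12) (nat_lit 5) (nat_lit 13) (nat_lit 4) (nat_lit 342) (nat_lit 270) (nat_lit 168)) (XT.lf (nat_lit 0) (nat_lit 29178555364) (nat_lit 76) (nat_lit 5866832390) (nat_lit 152) (nat_lit 40544753723) (nat_lit 11) (nat_lit 5) (nat_lit 12) (nat_lit 5) (nat_lit 13) (nat_lit 4) (nat_lit 343) (nat_lit 270) (nat_lit 167))))))) (XT.nd (nat_lit 780)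 (nat_lit 228) (nat_lit 0) (XT.nd (nat_lit 390) (nat_lit 76) (nat_lit 0) (XT.nd (nat_lit 156) (nat_lit 152) (nat_lit 0) (XT.nd (nat_lit 78) (nat_lit 0) (nat_lit 0) (XT.lf (nat_lit 0) (nat_lit 45681374675) (nat_lit 152) (nat_lit 28101537502) (nat_lit 0) (nat_lit 5035733025) (nat_lit 11) (nat_lit 5) (nat_lit 13) (nat_lit 4) (nat_lit 11) (nat_lit 4) (nat_lit 344) (nat_lit 270) (nat_lit 166)) (XT.lf (nat_lit 0) (nat_lit 56938690531) (nat_lit 152) (nat_lit 8984546189) (nat_lit 0) (nat_lit 16280863667) (nat_lit 11) (nat_lit 5) (nat_lit 13) (nat_lit 4) (nat_lit 11) (nat_lit 4) (nat_lit 345) (nat_lit 270) (nat_lit 165))) (XT.nd (nat_lit 78) (nat_lit 76) (nat_lit 0) (XT.lf (nat_lit 0) (nat_lit 11442741350) (nat_lit 76) (nat_lit 57488452670) (nat_lit 76) (nat_lit 16819020840) (nat_lit 10) (nat_lit 4) (nat_lit 11) (nat_lit 5) (nat_lit 11) (nat_lit 4) (nat_lit 346) (nat_lit 270) (nat_lit 164)) (XT.nd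 (nat_lit 78) (nat_lit 76) (nat_lit 0) (XT.lf (nat_lit 0) (nat_lit 33191714104) (nat_lit 76) (nat_lit 48477555150) (nat_lit 76) (nat_lit 7797070971) (nat_lit 10) (nat_lit 4) (nat_lit 11) (nat_lit 5) (nat_lit 11) (nat_lit 4) (nat_lit 347) (nat_lit 270) (nat_lit 163)) (XT.lf (nat_lit 0) (nat_lit 1616320102) (nat_lit 152) (nat_lit 37377554013) (nat_lit 76) (nat_lit 54373392399) (nat_lit 9) (nat_lit 5) (nat_lit 11) (nat_lit 5) (nat_lit 10) (nat_lit 4) (nat_lit 348) (nat_lit 270) (nat_lit 162))))) (XT.nd (nat_lit 156) (nat_lit 0) (nat_lit 0) (XT.nd (nat_lit 78) (nat_lit 76) (nat_lit 0) (XT.lf (nat_lit 0) (nat_lit 11232619850) (nat_lit 152) (nat_lit 17674164337) (nat_lit 76) (nat_lit 68550352456) (nat_lit 9) (nat_lit 5) (nat_lit 11) (nat_lit 5) (nat_lit 10) (nat_lit 4) (nat_lit 349) (nat_lit 270) (nat_lit 161)) (XT.lf (nat_lit 0) (nat_lit 3103521951) (nat_lit 76) (nat_lit 18269211909) (nat_lit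 152) (nat_lit 80376618506) (nat_lit 8) (nat_lit 5) (nat_lit 9) (nat_lit 5) (nat_lit 10) (nat_lit 4) (nat_lit 350) (nat_lit 270) (nat_lit 160))) (XT.nd (nat_lit 78) (nat_lit 0) (nat_lit 0) (XT.lf (nat_lit 0) (nat_lit 25523659274) (nat_lit 76) (nat_lit 6790162449) (nat_lit 152) (nat_lit 73927660702) (nat_lit 8) (nat_lit 5) (nat_lit 9) (nat_lit 5) (nat_lit 10) (nat_lit 4) (nat_lit 351) (nat_lit 270) (nat_lit 159)) (XT.nd (nat_lit 78) (nat_lit 0) (nat_lit 0) (XT.lf (nat_lit 0) (nat_lit 43878964444) (nat_lit 152) (nat_lit 61985332474) (nat_lit 0) (nat_lit 5090073907) (nat_lit 8) (nat_lit 5) (nat_lit 10) (nat_lit 4) (nat_lit 8) (nat_lit 4) (nat_lit 352) (nat_lit 270) (nat_lit 158)) (XT.lf (nat_lit 0) (nat_lit 56128757289) (nat_lit 152) (nat_lit 42436816426) (nat_lit 0) (nat_lit 17332012055) (nat_lit 8) (nat_lit 5) (nat_lit 10) (nat_lit 4) (nat_lit 8) (nat_lit 4) (nat_lit 353) (nat_lit 270)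 (nat_lit 157)))))) (XT.nd (nat_lit 390) (nat_lit 152) (nat_lit 0) (XT.nd (nat_lit 156) (nat_lit 76) (nat_lit 0) (XT.nd (nat_lit 78) (nat_lit 0) (nat_lit 0) (XT.lf (nat_lit 0) (nat_lit 68986352967) (nat_lit 152) (nat_lit 21919717457) (nat_lit 0) (nat_lit 30182127068) (nat_lit 8) (nat_lit 5) (nat_lit 10) (nat_lit 4) (nat_lit 8) (nat_lit 4) (nat_lit 354) (nat_lit 270) (nat_lit 156)) (XT.lf (nat_lit 0) (nat_lit 82482364801) (nat_lit 152) (nat_lit 385185330) (nat_lit 0) (nat_lit 43671014460) (nat_lit 8) (nat_lit 5) (nat_lit 10) (nat_lit 4) (nat_lit 8) (nat_lit 4) (nat_lit 355) (nat_lit 270) (nat_lit 155))) (XT.nd (nat_lit 78) (nat_lit 0) (nat_lit 0) (XT.lf (nat_lit 0) (nat_lit 22952681808) (nat_lit 76) (nat_lit 74054600031) (nat_lit 76) (nat_lit 35236464507) (nat_lit 7) (nat_lit 4) (nat_lit 8) (nat_lit 5) (nat_lit 8) (nat_lit 4) (nat_lit 356) (nat_lit 270) (nat_lit 154)) (XT.nd (nat_lit 78)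 (nat_lit 0) (nat_lit 0) (XT.lf (nat_lit 0) (nat_lit 47462923682) (nat_lit 76) (nat_lit 64797872499) (nat_lit 76) (nat_lit 25973274895) (nat_lit 7) (nat_lit 4) (nat_lit 8) (nat_lit 5) (nat_lit 8) (nat_lit 4) (nat_lit 357) (nat_lit 270) (nat_lit 153)) (XT.lf (nat_lit 0) (nat_lit 73191162043) (nat_lit 76) (nat_lit 55081851006) (nat_lit 76) (nat_lit 16251099041) (nat_lit 7) (nat_lit 4) (nat_lit 8) (nat_lit 5) (nat_lit 8) (nat_lit 4) (nat_lit 358) (nat_lit 270) (nat_lit 152))))) (XT.nd (nat_lit 234) (nat_lit 76) (nat_lit 0) (XT.nd (nat_lit 78) (nat_lit 76) (nat_lit 0) (XT.lf (nat_lit 0) (nat_lit 100198654602) (nat_lit 76) (nat_lit 44883402170) (nat_lit 76) (nat_lit 6046788909) (nat_lit 7) (nat_lit 4) (nat_lit 8) (nat_lit 5) (nat_lit 8) (nat_lit 4) (nat_lit 359) (nat_lit 270) (nat_lit 151)) (XT.nd (nat_lit 78) (nat_lit 0) (nat_lit 0) (XT.lf (nat_lit 0) (nat_lit 4514675905) (nat_lit 152) (nat_lit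 29587109841) (nat_lit 76) (nat_lit 123958570786) (nat_lit 6) (nat_lit 5) (nat_lit 8) (nat_lit 5) (nat_lit 7) (nat_lit 4) (nat_lit 360) (nat_lit 270) (nat_lit 150)) (XT.lf (nat_lit 0) (nat_lit 15397512584) (nat_lit 152) (nat_lit 7282611019) (nat_lit 76) (nat_lit 142653538564) (nat_lit 6) (nat_lit 5) (nat_lit 8) (nat_lit 5) (nat_lit 7) (nat_lit 4) (nat_lit 361) (nat_lit 270) (nat_lit 149)))) (XT.nd (nat_lit 78) (nat_lit 0) (nat_lit 0) (XT.lf (nat_lit 0) (nat_lit 16664176373) (nat_lit 76) (nat_lit 10417165772) (nat_lit 152) (nat_lit 145876449475) (nat_lit 5) (nat_lit 5) (nat_lit 6) (nat_lit 5) (nat_lit 7) (nat_lit 4) (nat_lit 362) (nat_lit 270) (nat_lit 148)) (XT.nd (nat_lit 78) (nat_lit 0) (nat_lit 0) (XT.lf (nat_lit 0) (nat_lit 39509802921) (nat_lit 152) (nat_lit 138942545636) (nat_lit 0) (nat_lit 2502758037) (nat_lit 5) (nat_lit 5) (nat_lit 7) (nat_lit 4) (nat_lit 5) (nat_lit 4) (nat_lit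 363) (nat_lit 270) (nat_lit 147)) (XT.lf (nat_lit 0) (nat_lit 52727309825) (nat_lit 152) (nat_lit 120900706176) (nat_lit 0) (nat_lit 15715891152) (nat_lit 5) (nat_lit 5) (nat_lit 7) (nat_lit 4) (nat_lit 5) (nat_lit 4) (nat_lit 364) (nat_lit 270) (nat_lit 146))))))))
noncomputable def xc138 : XT := (XT.nd (nat_lit 1560) (nat_lit 0) (nat_lit 0) (XT.nd (nat_lit 780) (nat_lit 152) (nat_lit 0) (XT.nd (nat_lit 390) (nat_lit 76) (nat_lit 0) (XT.nd (nat_lit 156) (nat_lit 0) (nat_lit 0) (XT.nd (nat_lit 78) (nat_lit 0) (nat_lit 0) (XT.lf (nat_lit 0) (nat_lit 66602691960) (nat_lit 152) (nat_lit 101962498952) (nat_lit 0) (nat_lit 29587107773) (nat_lit 5) (nat_lit 5) (nat_lit 7) (nat_lit 4) (nat_lit 5) (nat_lit 4) (nat_lit 365) (nat_lit 270) (nat_lit 145)) (XT.lf (nat_lit 0) (nat_lit 81168985949) (nat_lit 152) (nat_lit 82082832996) (nat_lit 0) (nat_lit 44149434606) (nat_lit 5) (nat_lit 5) (nat_lit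 7) (nat_lit 4) (nat_lit 5) (nat_lit 4) (nat_lit 366) (nat_lit 270) (nat_lit 144))) (XT.nd (nat_lit 78) (nat_lit 0) (nat_lit 0) (XT.lf (nat_lit 0) (nat_lit 96460873446) (nat_lit 152) (nat_lit 61214375771) (nat_lit 0) (nat_lit 59437543859) (nat_lit 5) (nat_lit 5) (nat_lit 7) (nat_lit 4) (nat_lit 5) (nat_lit 4) (nat_lit 367) (nat_lit 270) (nat_lit 143)) (XT.nd (nat_lit 78) (nat_lit 0) (nat_lit 0) (XT.lf (nat_lit 0) (nat_lit 112514763706) (nat_lit 152) (nat_lit 39307440471) (nat_lit 0) (nat_lit 75487835791) (nat_lit 5) (nat_lit 5) (nat_lit 7) (nat_lit 4) (nat_lit 5) (nat_lit 4) (nat_lit 368) (nat_lit 270) (nat_lit 142)) (XT.lf (nat_lit 0) (nat_lit 129368880277) (nat_lit 152) (nat_lit 16309867729) (nat_lit 0) (nat_lit 92338525383) (nat_lit 5) (nat_lit 5) (nat_lit 7) (nat_lit 4) (nat_lit 5) (nat_lit 4) (nat_lit 369) (nat_lit 270) (nat_lit 141))))) (XT.nd (nat_lit 156) (nat_lit 0) (nat_lit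 0) (XT.nd (nat_lit 78) (nat_lit 0) (nat_lit 0) (XT.lf (nat_lit 0) (nat_lit 8092096195) (nat_lit 76) (nat_lit 139097596113) (nat_lit 76) (nat_lit 102063977430) (nat_lit 4) (nat_lit 4) (nat_lit 5) (nat_lit 5) (nat_lit 5) (nat_lit 4) (nat_lit 370) (nat_lit 270) (nat_lit 140)) (XT.lf (nat_lit 0) (nat_lit 34275987366) (nat_lit 76) (nat_lit 131899465449) (nat_lit 76) (nat_lit 94862738396) (nat_lit 4) (nat_lit 4) (nat_lit 5) (nat_lit 5) (nat_lit 5) (nat_lit 4) (nat_lit 371) (nat_lit 270) (nat_lit 139))) (XT.nd (nat_lit 78) (nat_lit 0) (nat_lit 0) (XT.lf (nat_lit 0) (nat_lit 61764870497) (nat_lit 76) (nat_lit 124343433112) (nat_lit 76) (nat_lit 87303745706) (nat_lit 4) (nat_lit 4) (nat_lit 5) (nat_lit 5) (nat_lit 5) (nat_lit 4) (nat_lit 372) (nat_lit 270) (nat_lit 138)) (XT.nd (nat_lit 78) (nat_lit 0) (nat_lit 0) (XT.lf (nat_lit 0) (nat_lit 90624195309) (nat_lit 76) (nat_lit 116411508547) (nat_lit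 76) (nat_lit 79369001757) (nat_lit 4) (nat_lit 4) (nat_lit 5) (nat_lit 5) (nat_lit 5) (nat_lit 4) (nat_lit 373) (nat_lit 270) (nat_lit 137)) (XT.lf (nat_lit 0) (nat_lit 120922674482) (nat_lit 76) (nat_lit 108084806220) (nat_lit 76) (nat_lit 71039614303) (nat_lit 4) (nat_lit 4) (nat_lit 5) (nat_lit 5) (nat_lit 5) (nat_lit 4) (nat_lit 374) (nat_lit 270) (nat_lit 136)))))) (XT.nd (nat_lit 390) (nat_lit 152) (nat_lit 0) (XT.nd (nat_lit 156) (nat_lit 0) (nat_lit 0) (XT.nd (nat_lit 78) (nat_lit 0) (nat_lit 0) (XT.lf (nat_lit 0) (nat_lit 152732447249) (nat_lit 76) (nat_lit 99343500650) (nat_lit 76) (nat_lit 62295751468) (nat_lit 4) (nat_lit 4) (nat_lit 5) (nat_lit 5) (nat_lit 5) (nat_lit 4) (nat_lit 375) (nat_lit 270) (nat_lit 135)) (XT.lf (nat_lit 0) (nat_lit 186129251167) (nat_lit 76) (nat_lit 90166779203) (nat_lit 76) (nat_lit 53116594532) (nat_lit 4) (nat_lit 4) (nat_lit 5) (nat_lit 5)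 (nat_lit 5) (nat_lit 4) (nat_lit 376) (nat_lit 270) (nat_lit 134))) (XT.nd (nat_lit 78) (nat_lit 0) (nat_lit 0) (XT.lf (nat_lit 0) (nat_lit 221192602435) (nat_lit 76) (nat_lit 80532792544) (nat_lit 76) (nat_lit 43480288359) (nat_lit 4) (nat_lit 4) (nat_lit 5) (nat_lit 5) (nat_lit 5) (nat_lit 4) (nat_lit 377) (nat_lit 270) (nat_lit 133)) (XT.nd (nat_lit 78) (nat_lit 0) (nat_lit 0) (XT.lf (nat_lit 0) (nat_lit 258005985222) (nat_lit 76) (nat_lit 70418602609) (nat_lit 76) (nat_lit 33363889362) (nat_lit 4) (nat_lit 4) (nat_lit 5) (nat_lit 5) (nat_lit 5) (nat_lit 4) (nat_lit 378) (nat_lit 270) (nat_lit 132)) (XT.lf (nat_lit 0) (nat_lit 296657050439) (nat_lit 76) (nat_lit 59800127992) (nat_lit 76) (nat_lit 22743310879) (nat_lit 4) (nat_lit 4) (nat_lit 5) (nat_lit 5) (nat_lit 5) (nat_lit 4) (nat_lit 379) (nat_lit 270) (nat_lit 131))))) (XT.nd (nat_lit 156) (nat_lit 76) (nat_lit 0) (XT.nd (nat_lit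 78) (nat_lit 76) (nat_lit 0) (XT.lf (nat_lit 0) (nat_lit 337237824434) (nat_lit 76) (nat_lit 48652086613) (nat_lit 76) (nat_lit 11593265816) (nat_lit 4) (nat_lit 4) (nat_lit 5) (nat_lit 5) (nat_lit 5) (nat_lit 4) (nat_lit 380) (nat_lit 270) (nat_lit 130)) (XT.lf (nat_lit 0) (nat_lit 109183454) (nat_lit 152) (nat_lit 36836902986) (nat_lit 76) (nat_lit 379733895566) (nat_lit 3) (nat_lit 5) (nat_lit 5) (nat_lit 5) (nat_lit 4) (nat_lit 4) (nat_lit 381) (nat_lit 270) (nat_lit 129))) (XT.nd (nat_lit 78) (nat_lit 76) (nat_lit 0) (XT.lf (nat_lit 0) (nat_lit 12005773697) (nat_lit 152) (nat_lit 12450710386) (nat_lit 76) (nat_lit 412370709624) (nat_lit 3) (nat_lit 5) (nat_lit 5) (nat_lit 5) (nat_lit 4) (nat_lit 4) (nat_lit 382) (nat_lit 270) (nat_lit 128)) (XT.nd (nat_lit 78) (nat_lit 0) (nat_lit 0) (XT.lf (nat_lit 0) (nat_lit 13587165244) (nat_lit 76) (nat_lit 11120855520) (nat_lit 152) (nat_lit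 433263204236) (nat_lit 2) (nat_lit 5) (nat_lit 3) (nat_lit 5) (nat_lit 4) (nat_lit 4) (nat_lit 383) (nat_lit 270) (nat_lit 127)) (XT.lf (nat_lit 0) (nat_lit 38303383824) (nat_lit 152) (nat_lit 438853672059) (nat_lit 0) (nat_lit 3002502148) (nat_lit 2) (nat_lit 5) (nat_lit 4) (nat_lit 4) (nat_lit 2) (nat_lit 4) (nat_lit 384) (nat_lit 270) (nat_lit 126))))))) (XT.nd (nat_lit 32214) (nat_lit 0) (nat_lit 5700) (XT.nd (nat_lit 31824) (nat_lit 0) (nat_lit 7752) (XT.nd (nat_lit 156) (nat_lit 0) (nat_lit 0) (XT.nd (nat_lit 78) (nat_lit 0) (nat_lit 0) (XT.lf (nat_lit 0) (nat_lit 52759585087) (nat_lit 152) (nat_lit 433231461228) (nat_lit 0) (nat_lit 17457208232) (nat_lit 2) (nat_lit 5) (nat_lit 4) (nat_lit 4) (nat_lit 2) (nat_lit 4) (nat_lit 385) (nat_lit 270) (nat_lit 125)) (XT.lf (nat_lit 0) (nat_lit 67937416361) (nat_lit 152) (nat_lit 427330413328) (nat_lit 0) (nat_lit 32633615526) (nat_lit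 2) (nat_lit 5) (nat_lit 4) (nat_lit 4) (nat_lit 2) (nat_lit 4) (nat_lit 386) (nat_lit 270) (nat_lit 124))) (XT.nd (nat_lit 78) (nat_lit 0) (nat_lit 0) (XT.lf (nat_lit 0) (nat_lit 83873015338) (nat_lit 152) (nat_lit 421136478245) (nat_lit 0) (nat_lit 48567858331) (nat_lit 2) (nat_lit 5) (nat_lit 4) (nat_lit 4) (nat_lit 2) (nat_lit 4) (nat_lit 387) (nat_lit 270) (nat_lit 123)) (XT.nd (nat_lit 31512) (nat_lit 0) (nat_lit 8360) (XT.lf (nat_lit 0) (nat_lit 100604323921) (nat_lit 152) (nat_lit 414634908515) (nat_lit 0) (nat_lit 65297875322) (nat_lit 2) (nat_lit 5) (nat_lit 4) (nat_lit 4) (nat_lit 2) (nat_lit 4) (nat_lit 388) (nat_lit 270) (nat_lit 122)) (XT.lf (nat_lit 0) (nat_lit 1112318272) (nat_lit 0) (nat_lit 1112318272) (nat_lit 532) (nat_lit 1707339789) (nat_lit 112) (nat_lit 5) (nat_lit 112) (nat_lit 3) (nat_lit 119) (nat_lit 3) (nat_lit 271) (nat_lit 271) (nat_lit 238))))) (XT.nd (nat_lit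 156) (nat_lit 608) (nat_lit 0) (XT.nd (nat_lit 78) (nat_lit 0) (nat_lit 0) (XT.lf (nat_lit 0) (nat_lit 5759463805) (nat_lit 532) (nat_lit 1984020890) (nat_lit 608) (nat_lit 254652401) (nat_lit 112) (nat_lit 5) (nat_lit 119) (nat_lit 3) (nat_lit 120) (nat_lit 5) (nat_lit 272) (nat_lit 271) (nat_lit 237)) (XT.lf (nat_lit 76) (nat_lit 1833428886) (nat_lit 0) (nat_lit 5290941233) (nat_lit 608) (nat_lit 1015358204) (nat_lit 113) (nat_lit 5) (nat_lit 112) (nat_lit 5) (nat_lit 120) (nat_lit 5) (nat_lit 273) (nat_lit 271) (nat_lit 236))) (XT.nd (nat_lit 78) (nat_lit 0) (nat_lit 76) (XT.lf (nat_lit 0) (nat_lit 220386638) (nat_lit 608) (nat_lit 2425570094) (nat_lit 684) (nat_lit 5644381616) (nat_lit 104) (nat_lit 5) (nat_lit 112) (nat_lit 5) (nat_lit 113) (nat_lit 5) (nat_lit 274) (nat_lit 271) (nat_lit 235)) (XT.nd (nat_lit 78) (nat_lit 0) (nat_lit 0) (XT.lf (nat_lit 0) (nat_lit 1441885817) (nat_lit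 608) (nat_lit 6810698624) (nat_lit 684) (nat_lit 197294070) (nat_lit 105) (nat_lit 5) (nat_lit 113) (nat_lit 5) (nat_lit 114) (nat_lit 5) (nat_lit 275) (nat_lit 271) (nat_lit 234)) (XT.lf (nat_lit 0) (nat_lit 2741972851) (nat_lit 608) (nat_lit 2713865685) (nat_lit 684) (nat_lit 3160811390) (nat_lit 105) (nat_lit 5) (nat_lit 113) (nat_lit 5) (nat_lit 114) (nat_lit 5) (nat_lit 276) (nat_lit 271) (nat_lit 233)))))) (XT.nd (nat_lit 390) (nat_lit 1596) (nat_lit 0) (XT.nd (nat_lit 156) (nat_lit 532) (nat_lit 0) (XT.nd (nat_lit 78) (nat_lit 0) (nat_lit 76) (XT.lf (nat_lit 76) (nat_lit 1595196733) (nat_lit 0) (nat_lit 2472377703) (nat_lit 684) (nat_lit 4726283674) (nat_lit 106) (nat_lit 5) (nat_lit 105) (nat_lit 5) (nat_lit 114) (nat_lit 5) (nat_lit 277) (nat_lit 271) (nat_lit 232)) (XT.lf (nat_lit 0) (nat_lit 5454776188) (nat_lit 608) (nat_lit 2821238101) (nat_lit 684) (nat_lit 704264223) (nat_lit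 106) (nat_lit 5) (nat_lit 114) (nat_lit 5) (nat_lit 115) (nat_lit 5) (nat_lit 278) (nat_lit 271) (nat_lit 231))) (XT.nd (nat_lit 78) (nat_lit 608) (nat_lit 0) (XT.lf (nat_lit 76) (nat_lit 1746147376) (nat_lit 0) (nat_lit 5174219455) (nat_lit 684) (nat_lit 2255313868) (nat_lit 107) (nat_lit 5) (nat_lit 106) (nat_lit 5) (nat_lit 115) (nat_lit 5) (nat_lit 279) (nat_lit 271) (nat_lit 230)) (XT.nd (nat_lit 78) (nat_lit 608) (nat_lit 0) (XT.lf (nat_lit 76) (nat_lit 6596297309) (nat_lit 0) (nat_lit 1854072830) (nat_lit 684) (nat_lit 931033061) (nat_lit 107) (nat_lit 5) (nat_lit 106) (nat_lit 5) (nat_lit 115) (nat_lit 5) (nat_lit 280) (nat_lit 271) (nat_lit 229)) (XT.lf (nat_lit 0) (nat_lit 449062538) (nat_lit 684) (nat_lit 7516107252) (nat_lit 76) (nat_lit 1631764970) (nat_lit 98) (nat_lit 5) (nat_lit 107) (nat_lit 5) (nat_lit 99) (nat_lit 5) (nat_lit 281) (nat_lit 271) (nat_lit 228))))) (XT.nd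 (nat_lit 234) (nat_lit 912) (nat_lit 0) (XT.nd (nat_lit 78) (nat_lit 684) (nat_lit 0) (XT.lf (nat_lit 0) (nat_lit 1892387612) (nat_lit 684) (nat_lit 2626158455) (nat_lit 76) (nat_lit 5302750324) (nat_lit 98) (nat_lit 5) (nat_lit 107) (nat_lit 5) (nat_lit 99) (nat_lit 5) (nat_lit 282) (nat_lit 271) (nat_lit 227)) (XT.nd (nat_lit 78) (nat_lit 0) (nat_lit 0) (XT.lf (nat_lit 0) (nat_lit 2546365104) (nat_lit 684) (nat_lit 850963564) (nat_lit 760) (nat_lit 6660162865) (nat_lit 89) (nat_lit 5) (nat_lit 98) (nat_lit 5) (nat_lit 99) (nat_lit 5) (nat_lit 283) (nat_lit 271) (nat_lit 226)) (XT.lf (nat_lit 0) (nat_lit 5021073304) (nat_lit 760) (nat_lit 2327476954) (nat_lit 76) (nat_lit 2954852077) (nat_lit 89) (nat_lit 5) (nat_lit 99) (nat_lit 5) (nat_lit 90) (nat_lit 5) (nat_lit 284) (nat_lit 271) (nat_lit 225)))) (XT.nd (nat_lit 78) (nat_lit 380) (nat_lit 0) (XT.lf (nat_lit 0) (nat_lit 3159356345)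 (nat_lit 532) (nat_lit 3583748103) (nat_lit 608) (nat_lit 3817729006) (nat_lit 82) (nat_lit 5) (nat_lit 89) (nat_lit 5) (nat_lit 90) (nat_lit 5) (nat_lit 285) (nat_lit 271) (nat_lit 224)) (XT.nd (nat_lit 78) (nat_lit 380) (nat_lit 0) (XT.lf (nat_lit 0) (nat_lit 8552458352) (nat_lit 608) (nat_lit 1879054338) (nat_lit 76) (nat_lit 399638324) (nat_lit 82) (nat_lit 5) (nat_lit 90) (nat_lit 5) (nat_lit 83) (nat_lit 5) (nat_lit 286) (nat_lit 271) (nat_lit 223)) (XT.lf (nat_lit 0) (nat_lit 3944302668) (nat_lit 380) (nat_lit 6585825400) (nat_lit 456) (nat_lit 581036305) (nat_lit 77) (nat_lit 5) (nat_lit 82) (nat_lit 5) (nat_lit 83) (nat_lit 5) (nat_lit 287) (nat_lit 271) (nat_lit 222))))))))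
noncomputable def xc139 : XT := (XT.nd (nat_lit 1638) (nat_lit 1520) (nat_lit 0) (XT.nd (nat_lit 780) (nat_lit 1368) (nat_lit 0) (XT.nd (nat_lit 390) (nat_lit 608) (nat_lit 0) (XT.nd (nat_lit 156) (nat_lit 608) (nat_lit 0) (XT.nd (nat_lit 78) (nat_lit 304) (nat_lit 0) (XT.lf (nat_lit 0) (nat_lit 1153534896) (nat_lit 456) (nat_lit 1342244182) (nat_lit 76) (nat_lit 8909002604) (nat_lit 76) (nat_lit 5) (nat_lit 82) (nat_lit 5) (nat_lit 77) (nat_lit 5) (nat_lit 288) (nat_lit 271) (nat_lit 221)) (XT.lf (nat_lit 0) (nat_lit 3021082318) (nat_lit 380) (nat_lit 6861454592) (nat_lit 76) (nat_lit 1826840453) (nat_lit 72) (nat_lit 5) (nat_lit 77) (nat_lit 5) (nat_lit 73) (nat_lit 5) (nat_lit 289) (nat_lit 271) (nat_lit 220))) (XT.nd (nat_lit 78) (nat_lit 608) (nat_lit 0) (XT.lf (nat_lit 0) (nat_lit 5007392056) (nat_lit 380) (nat_lit 717816823) (nat_lit 76) (nat_lit 6302784207) (nat_lit 72) (nat_lit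 5) (nat_lit 77) (nat_lit 5) (nat_lit 73) (nat_lit 5) (nat_lit 290) (nat_lit 271) (nat_lit 219)) (XT.nd (nat_lit 78) (nat_lit 304) (nat_lit 0) (XT.lf (nat_lit 0) (nat_lit 5880588612) (nat_lit 304) (nat_lit 1267447168) (nat_lit 380) (nat_lit 5211809561) (nat_lit 68) (nat_lit 5) (nat_lit 72) (nat_lit 5) (nat_lit 73) (nat_lit 5) (nat_lit 291) (nat_lit 271) (nat_lit 218)) (XT.lf (nat_lit 0) (nat_lit 31941840) (nat_lit 304) (nat_lit 9394180815) (nat_lit 380) (nat_lit 3280700976) (nat_lit 64) (nat_lit 5) (nat_lit 68) (nat_lit 5) (nat_lit 69) (nat_lit 5) (nat_lit 292) (nat_lit 271) (nat_lit 217))))) (XT.nd (nat_lit 156) (nat_lit 228) (nat_lit 0) (XT.nd (nat_lit 78) (nat_lit 380) (nat_lit 0) (XT.lf (nat_lit 0) (nat_lit 7031109500) (nat_lit 304) (nat_lit 4882503511) (nat_lit 380) (nat_lit 1152814273) (nat_lit 64) (nat_lit 5) (nat_lit 68) (nat_lit 5) (nat_lit 69) (nat_lit 5) (nat_lit 293) (nat_lit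 271) (nat_lit 216)) (XT.lf (nat_lit 0) (nat_lit 908132260) (nat_lit 304) (nat_lit 119288757) (nat_lit 380) (nat_lit 12416764091) (nat_lit 59) (nat_lit 5) (nat_lit 63) (nat_lit 5) (nat_lit 64) (nat_lit 5) (nat_lit 294) (nat_lit 271) (nat_lit 215))) (XT.nd (nat_lit 78) (nat_lit 228) (nat_lit 0) (XT.lf (nat_lit 0) (nat_lit 3425297730) (nat_lit 380) (nat_lit 5565420496) (nat_lit 76) (nat_lit 4841843480) (nat_lit 59) (nat_lit 5) (nat_lit 64) (nat_lit 5) (nat_lit 60) (nat_lit 5) (nat_lit 295) (nat_lit 271) (nat_lit 214)) (XT.nd (nat_lit 78) (nat_lit 0) (nat_lit 0) (XT.lf (nat_lit 0) (nat_lit 1769183904) (nat_lit 228) (nat_lit 4172282898) (nat_lit 304) (nat_lit 8299012697) (nat_lit 56) (nat_lit 5) (nat_lit 59) (nat_lit 5) (nat_lit 60) (nat_lit 5) (nat_lit 296) (nat_lit 271) (nat_lit 213)) (XT.lf (nat_lit 0) (nat_lit 8662665856) (nat_lit 304) (nat_lit 5055759779) (nat_lit 76) (nat_lit 946446745)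 (nat_lit 56) (nat_lit 5) (nat_lit 60) (nat_lit 5) (nat_lit 57) (nat_lit 5) (nat_lit 297) (nat_lit 271) (nat_lit 212)))))) (XT.nd (nat_lit 390) (nat_lit 608) (nat_lit 0) (XT.nd (nat_lit 156) (nat_lit 532) (nat_lit 0) (XT.nd (nat_lit 78) (nat_lit 0) (nat_lit 0) (XT.lf (nat_lit 0) (nat_lit 2710801355) (nat_lit 228) (nat_lit 8890867261) (nat_lit 304) (nat_lit 3504767459) (nat_lit 53) (nat_lit 5) (nat_lit 56) (nat_lit 5) (nat_lit 57) (nat_lit 5) (nat_lit 298) (nat_lit 271) (nat_lit 211)) (XT.lf (nat_lit 0) (nat_lit 11003713918) (nat_lit 228) (nat_lit 3741346184) (nat_lit 304) (nat_lit 822182452) (nat_lit 53) (nat_lit 5) (nat_lit 56) (nat_lit 5) (nat_lit 57) (nat_lit 5) (nat_lit 299) (nat_lit 271) (nat_lit 210))) (XT.nd (nat_lit 78) (nat_lit 228) (nat_lit 0) (XT.lf (nat_lit 0) (nat_lit 1988641394) (nat_lit 304) (nat_lit 12364182719) (nat_lit 76) (nat_lit 1693844016) (nat_lit 49) (nat_lit 5)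 (nat_lit 53) (nat_lit 5) (nat_lit 50) (nat_lit 5) (nat_lit 300) (nat_lit 271) (nat_lit 209)) (XT.nd (nat_lit 78) (nat_lit 228) (nat_lit 0) (XT.lf (nat_lit 0) (nat_lit 5025536643) (nat_lit 304) (nat_lit 4160316950) (nat_lit 76) (nat_lit 7357910978) (nat_lit 49) (nat_lit 5) (nat_lit 53) (nat_lit 5) (nat_lit 50) (nat_lit 5) (nat_lit 301) (nat_lit 271) (nat_lit 208)) (XT.lf (nat_lit 0) (nat_lit 4564331213) (nat_lit 228) (nat_lit 3695754914) (nat_lit 304) (nat_lit 8803369289) (nat_lit 46) (nat_lit 5) (nat_lit 49) (nat_lit 5) (nat_lit 50) (nat_lit 5) (nat_lit 302) (nat_lit 271) (nat_lit 207))))) (XT.nd (nat_lit 234) (nat_lit 380) (nat_lit 0) (XT.nd (nat_lit 78) (nat_lit 228) (nat_lit 0) (XT.lf (nat_lit 0) (nat_lit 11735331530) (nat_lit 304) (nat_lit 3805449969) (nat_lit 76) (nat_lit 2064429504) (nat_lit 46) (nat_lit 5) (nat_lit 50) (nat_lit 5) (nat_lit 47) (nat_lit 5) (nat_lit 303) (nat_lit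 271) (nat_lit 206)) (XT.nd (nat_lit 78) (nat_lit 76) (nat_lit 0) (XT.lf (nat_lit 0) (nat_lit 5400864114) (nat_lit 152) (nat_lit 10104627578) (nat_lit 228) (nat_lit 2662532314) (nat_lit 44) (nat_lit 5) (nat_lit 46) (nat_lit 5) (nat_lit 47) (nat_lit 5) (nat_lit 304) (nat_lit 271) (nat_lit 205)) (XT.lf (nat_lit 0) (nat_lit 724558735) (nat_lit 228) (nat_lit 3602780336) (nat_lit 76) (nat_lit 14429015481) (nat_lit 43) (nat_lit 5) (nat_lit 46) (nat_lit 5) (nat_lit 44) (nat_lit 5) (nat_lit 305) (nat_lit 271) (nat_lit 204)))) (XT.nd (nat_lit 78) (nat_lit 152) (nat_lit 0) (XT.lf (nat_lit 0) (nat_lit 4294220503) (nat_lit 304) (nat_lit 13257784911) (nat_lit 76) (nat_lit 1814802620) (nat_lit 40) (nat_lit 5) (nat_lit 44) (nat_lit 5) (nat_lit 41) (nat_lit 5) (nat_lit 306) (nat_lit 271) (nat_lit 203)) (XT.nd (nat_lit 78) (nat_lit 152) (nat_lit 0) (XT.lf (nat_lit 0) (nat_lit 8153283661) (nat_lit 304)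 (nat_lit 3678520354) (nat_lit 76) (nat_lit 8170456687) (nat_lit 40) (nat_lit 5) (nat_lit 44) (nat_lit 5) (nat_lit 41) (nat_lit 5) (nat_lit 307) (nat_lit 271) (nat_lit 202)) (XT.lf (nat_lit 0) (nat_lit 6557843343) (nat_lit 152) (nat_lit 5728855562) (nat_lit 228) (nat_lit 8378738510) (nat_lit 38) (nat_lit 5) (nat_lit 40) (nat_lit 5) (nat_lit 41) (nat_lit 5) (nat_lit 308) (nat_lit 271) (nat_lit 201))))))) (XT.nd (nat_lit 780) (nat_lit 608) (nat_lit 0) (XT.nd (nat_lit 390) (nat_lit 532) (nat_lit 0) (XT.nd (nat_lit 156) (nat_lit 228) (nat_lit 0) (XT.nd (nat_lit 78) (nat_lit 152) (nat_lit 0) (XT.lf (nat_lit 0) (nat_lit 16680064642) (nat_lit 228) (nat_lit 3968668904) (nat_lit 76) (nat_lit 710395774) (nat_lit 38) (nat_lit 5) (nat_lit 41) (nat_lit 5) (nat_lit 39) (nat_lit 5) (nat_lit 309) (nat_lit 271) (nat_lit 200)) (XT.lf (nat_lit 0) (nat_lit 6769358267) (nat_lit 152) (nat_lit 14703683850)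 (nat_lit 228) (nat_lit 605485902) (nat_lit 36) (nat_lit 5) (nat_lit 38) (nat_lit 5) (nat_lit 39) (nat_lit 5) (nat_lit 310) (nat_lit 271) (nat_lit 199))) (XT.nd (nat_lit 78) (nat_lit 152) (nat_lit 0) (XT.lf (nat_lit 0) (nat_lit 3603038281) (nat_lit 228) (nat_lit 4737654704) (nat_lit 76) (nat_lit 14487915604) (nat_lit 35) (nat_lit 5) (nat_lit 38) (nat_lit 5) (nat_lit 36) (nat_lit 5) (nat_lit 311) (nat_lit 271) (nat_lit 198)) (XT.nd (nat_lit 78) (nat_lit 0) (nat_lit 0) (XT.lf (nat_lit 0) (nat_lit 6532288741) (nat_lit 152) (nat_lit 1552741775) (nat_lit 228) (nat_lit 15526513599) (nat_lit 33) (nat_lit 5) (nat_lit 35) (nat_lit 5) (nat_lit 36) (nat_lit 5) (nat_lit 312) (nat_lit 271) (nat_lit 197)) (XT.lf (nat_lit 0) (nat_lit 12941379322) (nat_lit 228) (nat_lit 6017335672) (nat_lit 76) (nat_lit 5467414514) (nat_lit 33) (nat_lit 5) (nat_lit 36) (nat_lit 5) (nat_lit 34) (nat_lit 5) (nat_lit 313)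 (nat_lit 271) (nat_lit 196))))) (XT.nd (nat_lit 156) (nat_lit 380) (nat_lit 0) (XT.nd (nat_lit 78) (nat_lit 0) (nat_lit 0) (XT.lf (nat_lit 0) (nat_lit 5727364813) (nat_lit 152) (nat_lit 12410600445) (nat_lit 228) (nat_lit 7138623106) (nat_lit 31) (nat_lit 5) (nat_lit 33) (nat_lit 5) (nat_lit 34) (nat_lit 5) (nat_lit 314) (nat_lit 271) (nat_lit 195)) (XT.lf (nat_lit 0) (nat_lit 18240491155) (nat_lit 152) (nat_lit 5438738978) (nat_lit 228) (nat_lit 2486112006) (nat_lit 31) (nat_lit 5) (nat_lit 33) (nat_lit 5) (nat_lit 34) (nat_lit 5) (nat_lit 315) (nat_lit 271) (nat_lit 194))) (XT.nd (nat_lit 78) (nat_lit 152) (nat_lit 0) (XT.lf (nat_lit 0) (nat_lit 2404666744) (nat_lit 228) (nat_lit 22769306250) (nat_lit 76) (nat_lit 1918579653) (nat_lit 28) (nat_lit 5) (nat_lit 31) (nat_lit 5) (nat_lit 29) (nat_lit 5) (nat_lit 316) (nat_lit 271) (nat_lit 193)) (XT.nd (nat_lit 78) (nat_lit 152) (nat_lit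 0) (XT.lf (nat_lit 0) (nat_lit 7665692403) (nat_lit 228) (nat_lit 10759827741) (nat_lit 76) (nat_lit 9628115344) (nat_lit 28) (nat_lit 5) (nat_lit 31) (nat_lit 5) (nat_lit 29) (nat_lit 5) (nat_lit 317) (nat_lit 271) (nat_lit 192)) (XT.lf (nat_lit 0) (nat_lit 1884556138) (nat_lit 152) (nat_lit 11319099851) (nat_lit 228) (nat_lit 15858434045) (nat_lit 26) (nat_lit 5) (nat_lit 28) (nat_lit 5) (nat_lit 29) (nat_lit 5) (nat_lit 318) (nat_lit 271) (nat_lit 191)))))) (XT.nd (nat_lit 390) (nat_lit 304) (nat_lit 0) (XT.nd (nat_lit 156) (nat_lit 304) (nat_lit 0) (XT.nd (nat_lit 78) (nat_lit 0) (nat_lit 0) (XT.lf (nat_lit 0) (nat_lit 15509247532) (nat_lit 152) (nat_lit 3676298752) (nat_lit 228) (nat_lit 10927080923) (nat_lit 26) (nat_lit 5) (nat_lit 28) (nat_lit 5) (nat_lit 29) (nat_lit 5) (nat_lit 319) (nat_lit 271) (nat_lit 190)) (XT.lf (nat_lit 0) (nat_lit 25519801999) (nat_lit 228) (nat_lit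 1493249608) (nat_lit 76) (nat_lit 4199986873) (nat_lit 26) (nat_lit 5) (nat_lit 29) (nat_lit 5) (nat_lit 27) (nat_lit 4) (nat_lit 320) (nat_lit 271) (nat_lit 189))) (XT.nd (nat_lit 78) (nat_lit 152) (nat_lit 0) (XT.lf (nat_lit 0) (nat_lit 55528404) (nat_lit 152) (nat_lit 19765758973) (nat_lit 76) (nat_lit 12535002029) (nat_lit 24) (nat_lit 5) (nat_lit 26) (nat_lit 5) (nat_lit 25) (nat_lit 5) (nat_lit 321) (nat_lit 271) (nat_lit 188)) (XT.nd (nat_lit 78) (nat_lit 152) (nat_lit 0) (XT.lf (nat_lit 0) (nat_lit 5912244677) (nat_lit 152) (nat_lit 6242583731) (nat_lit 76) (nat_lit 21396625040) (nat_lit 24) (nat_lit 5) (nat_lit 26) (nat_lit 5) (nat_lit 25) (nat_lit 5) (nat_lit 322) (nat_lit 271) (nat_lit 187)) (XT.lf (nat_lit 0) (nat_lit 8196478572) (nat_lit 152) (nat_lit 3980087947) (nat_lit 228) (nat_lit 22624079559) (nat_lit 22) (nat_lit 5) (nat_lit 24) (nat_lit 5) (nat_lit 25) (nat_lit 5)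 (nat_lit 323) (nat_lit 271) (nat_lit 186))))) (XT.nd (nat_lit 234) (nat_lit 228) (nat_lit 0) (XT.nd (nat_lit 78) (nat_lit 76) (nat_lit 0) (XT.lf (nat_lit 0) (nat_lit 18920365987) (nat_lit 228) (nat_lit 12629149135) (nat_lit 76) (nat_lit 4554478595) (nat_lit 22) (nat_lit 5) (nat_lit 25) (nat_lit 5) (nat_lit 23) (nat_lit 4) (nat_lit 324) (nat_lit 271) (nat_lit 185)) (XT.nd (nat_lit 78) (nat_lit 0) (nat_lit 0) (XT.lf (nat_lit 0) (nat_lit 2022432510) (nat_lit 76) (nat_lit 24063303633) (nat_lit 152) (nat_lit 11382561608) (nat_lit 21) (nat_lit 5) (nat_lit 22) (nat_lit 5) (nat_lit 23) (nat_lit 4) (nat_lit 325) (nat_lit 271) (nat_lit 184)) (XT.lf (nat_lit 0) (nat_lit 17823727537) (nat_lit 76) (nat_lit 15987345169) (nat_lit 152) (nat_lit 5079667052) (nat_lit 21) (nat_lit 5) (nat_lit 22) (nat_lit 5) (nat_lit 23) (nat_lit 4) (nat_lit 326) (nat_lit 271) (nat_lit 183)))) (XT.nd (nat_lit 78) (nat_lit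 152) (nat_lit 0) (XT.lf (nat_lit 0) (nat_lit 1477334719) (nat_lit 152) (nat_lit 6013937913) (nat_lit 76) (nat_lit 32892427272) (nat_lit 20) (nat_lit 5) (nat_lit 22) (nat_lit 5) (nat_lit 21) (nat_lit 5) (nat_lit 327) (nat_lit 271) (nat_lit 182)) (XT.nd (nat_lit 78) (nat_lit 0) (nat_lit 0) (XT.lf (nat_lit 0) (nat_lit 8362624021) (nat_lit 228) (nat_lit 31956858913) (nat_lit 76) (nat_lit 1619110708) (nat_lit 18) (nat_lit 5) (nat_lit 21) (nat_lit 5) (nat_lit 19) (nat_lit 4) (nat_lit 328) (nat_lit 271) (nat_lit 181)) (XT.lf (nat_lit 0) (nat_lit 15807367278) (nat_lit 228) (nat_lit 16724460406) (nat_lit 76) (nat_lit 11028651213) (nat_lit 18) (nat_lit 5) (nat_lit 21) (nat_lit 5) (nat_lit 19) (nat_lit 4) (nat_lit 329) (nat_lit 271) (nat_lit 180))))))))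
noncomputable def xc140 : XT := (XT.nd (nat_lit 1560) (nat_lit 304) (nat_lit 0) (XT.nd (nat_lit 780) (nat_lit 380) (nat_lit 0) (XT.nd (nat_lit 390) (nat_lit 76) (nat_lit 0) (XT.nd (nat_lit 156) (nat_lit 152) (nat_lit 0) (XT.nd (nat_lit 78) (nat_lit 76) (nat_lit 0) (XT.lf (nat_lit 0) (nat_lit 23613741164) (nat_lit 228) (nat_lit 749322674) (nat_lit 76) (nat_lit 20900930912) (nat_lit 18) (nat_lit 5) (nat_lit 21) (nat_lit 5) (nat_lit 19) (nat_lit 4) (nat_lit 330) (nat_lit 271) (nat_lit 179)) (XT.lf (nat_lit 0) (nat_lit 16535840488) (nat_lit 76) (nat_lit 15522662606) (nat_lit 152) (nat_lit 14981785555) (nat_lit 17) (nat_lit 5) (nat_lit 18) (nat_lit 5) (nat_lit 19) (nat_lit 4) (nat_lit 331) (nat_lit 271) (nat_lit 178))) (XT.nd (nat_lit 78) (nat_lit 152) (nat_lit 0) (XT.lf (nat_lit 0) (nat_lit 34693585009) (nat_lit 76) (nat_lit 6234711600) (nat_lit 152) (nat_lit 7976966408) (nat_lit 17) (nat_lit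 5) (nat_lit 18) (nat_lit 5) (nat_lit 19) (nat_lit 4) (nat_lit 332) (nat_lit 271) (nat_lit 177)) (XT.nd (nat_lit 78) (nat_lit 76) (nat_lit 0) (XT.lf (nat_lit 0) (nat_lit 2916961785) (nat_lit 76) (nat_lit 47415538843) (nat_lit 76) (nat_lit 526444622) (nat_lit 16) (nat_lit 4) (nat_lit 17) (nat_lit 5) (nat_lit 17) (nat_lit 4) (nat_lit 333) (nat_lit 271) (nat_lit 176)) (XT.lf (nat_lit 0) (nat_lit 7400392625) (nat_lit 152) (nat_lit 31740172232) (nat_lit 76) (nat_lit 13747189112) (nat_lit 15) (nat_lit 5) (nat_lit 17) (nat_lit 5) (nat_lit 16) (nat_lit 4) (nat_lit 334) (nat_lit 271) (nat_lit 175))))) (XT.nd (nat_lit 156) (nat_lit 0) (nat_lit 0) (XT.nd (nat_lit 78) (nat_lit 76) (nat_lit 0) (XT.lf (nat_lit 0) (nat_lit 15696823188) (nat_lit 152) (nat_lit 14753330430) (nat_lit 76) (nat_lit 24567875304) (nat_lit 15) (nat_lit 5) (nat_lit 17) (nat_lit 5) (nat_lit 16) (nat_lit 4) (nat_lit 335) (nat_lit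 271) (nat_lit 174)) (XT.lf (nat_lit 0) (nat_lit 3168621759) (nat_lit 76) (nat_lit 21280299292) (nat_lit 152) (nat_lit 32803858552) (nat_lit 14) (nat_lit 5) (nat_lit 15) (nat_lit 5) (nat_lit 16) (nat_lit 4) (nat_lit 336) (nat_lit 271) (nat_lit 173))) (XT.nd (nat_lit 78) (nat_lit 0) (nat_lit 0) (XT.lf (nat_lit 0) (nat_lit 22483478869) (nat_lit 76) (nat_lit 11396544804) (nat_lit 152) (nat_lit 25707178216) (nat_lit 14) (nat_lit 5) (nat_lit 15) (nat_lit 5) (nat_lit 16) (nat_lit 4) (nat_lit 337) (nat_lit 271) (nat_lit 172)) (XT.nd (nat_lit 78) (nat_lit 0) (nat_lit 0) (XT.lf (nat_lit 0) (nat_lit 42749416921) (nat_lit 76) (nat_lit 1025212198) (nat_lit 152) (nat_lit 18264122659) (nat_lit 14) (nat_lit 5) (nat_lit 15) (nat_lit 5) (nat_lit 16) (nat_lit 4) (nat_lit 338) (nat_lit 271) (nat_lit 171)) (XT.lf (nat_lit 0) (nat_lit 54310213102) (nat_lit 152) (nat_lit 752495274) (nat_lit 0) (nat_lit 9542862060)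 (nat_lit 14) (nat_lit 5) (nat_lit 16) (nat_lit 4) (nat_lit 14) (nat_lit 4) (nat_lit 339) (nat_lit 271) (nat_lit 170)))))) (XT.nd (nat_lit 390) (nat_lit 152) (nat_lit 0) (XT.nd (nat_lit 156) (nat_lit 76) (nat_lit 0) (XT.nd (nat_lit 78) (nat_lit 76) (nat_lit 0) (XT.lf (nat_lit 0) (nat_lit 19298477448) (nat_lit 76) (nat_lit 46384811629) (nat_lit 76) (nat_lit 1601908823) (nat_lit 13) (nat_lit 4) (nat_lit 14) (nat_lit 5) (nat_lit 14) (nat_lit 4) (nat_lit 340) (nat_lit 271) (nat_lit 169)) (XT.lf (nat_lit 0) (nat_lit 7290903425) (nat_lit 152) (nat_lit 29851361988) (nat_lit 76) (nat_lit 32950390391) (nat_lit 12) (nat_lit 5) (nat_lit 14) (nat_lit 5) (nat_lit 13) (nat_lit 4) (nat_lit 341) (nat_lit 271) (nat_lit 168))) (XT.nd (nat_lit 78) (nat_lit 76) (nat_lit 0) (XT.lf (nat_lit 0) (nat_lit 16567497182) (nat_lit 152) (nat_lit 10848450695) (nat_lit 76) (nat_lit 45623579943) (nat_lit 12) (nat_lit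 5) (nat_lit 14) (nat_lit 5) (nat_lit 13) (nat_lit 4) (nat_lit 342) (nat_lit 271) (nat_lit 167)) (XT.nd (nat_lit 78) (nat_lit 0) (nat_lit 0) (XT.lf (nat_lit 0) (nat_lit 9392900206) (nat_lit 76) (nat_lit 17054979951) (nat_lit 152) (nat_lit 49678868193) (nat_lit 11) (nat_lit 5) (nat_lit 12) (nat_lit 5) (nat_lit 13) (nat_lit 4) (nat_lit 343) (nat_lit 271) (nat_lit 166)) (XT.lf (nat_lit 0) (nat_lit 31010813933) (nat_lit 76) (nat_lit 5988631201) (nat_lit 152) (nat_lit 42360029382) (nat_lit 11) (nat_lit 5) (nat_lit 12) (nat_lit 5) (nat_lit 13) (nat_lit 4) (nat_lit 344) (nat_lit 271) (nat_lit 165))))) (XT.nd (nat_lit 156) (nat_lit 152) (nat_lit 0) (XT.nd (nat_lit 78) (nat_lit 0) (nat_lit 0) (XT.lf (nat_lit 0) (nat_lit 48160173176) (nat_lit 152) (nat_lit 29143922404) (nat_lit 0) (nat_lit 5445664789) (nat_lit 11) (nat_lit 5) (nat_lit 13) (nat_lit 4) (nat_lit 11) (nat_lit 4) (nat_lit 345) (nat_lit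 271) (nat_lit 164)) (XT.lf (nat_lit 0) (nat_lit 59971081979) (nat_lit 152) (nat_lit 9088352572) (nat_lit 0) (nat_lit 17245521243) (nat_lit 11) (nat_lit 5) (nat_lit 13) (nat_lit 4) (nat_lit 11) (nat_lit 4) (nat_lit 346) (nat_lit 271) (nat_lit 163))) (XT.nd (nat_lit 78) (nat_lit 76) (nat_lit 0) (XT.lf (nat_lit 0) (nat_lit 12354728040) (nat_lit 76) (nat_lit 60204957326) (nat_lit 76) (nat_lit 17468870544) (nat_lit 10) (nat_lit 4) (nat_lit 11) (nat_lit 5) (nat_lit 11) (nat_lit 4) (nat_lit 347) (nat_lit 271) (nat_lit 162)) (XT.nd (nat_lit 78) (nat_lit 76) (nat_lit 0) (XT.lf (nat_lit 0) (nat_lit 35174966115) (nat_lit 76) (nat_lit 50751034833) (nat_lit 76) (nat_lit 8004923245) (nat_lit 10) (nat_lit 4) (nat_lit 11) (nat_lit 5) (nat_lit 11) (nat_lit 4) (nat_lit 348) (nat_lit 271) (nat_lit 161)) (XT.lf (nat_lit 0) (nat_lit 1864922867) (nat_lit 152) (nat_lit 38932567144) (nat_lit 76) (nat_lit 57229687336)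 (nat_lit 9) (nat_lit 5) (nat_lit 11) (nat_lit 5) (nat_lit 10) (nat_lit 4) (nat_lit 349) (nat_lit 271) (nat_lit 160))))))) (XT.nd (nat_lit 780) (nat_lit 152) (nat_lit 0) (XT.nd (nat_lit 390) (nat_lit 76) (nat_lit 0) (XT.nd (nat_lit 156) (nat_lit 0) (nat_lit 0) (XT.nd (nat_lit 78) (nat_lit 76) (nat_lit 0) (XT.lf (nat_lit 0) (nat_lit 11954047756) (nat_lit 152) (nat_lit 18258953916) (nat_lit 76) (nat_lit 72108941808) (nat_lit 9) (nat_lit 5) (nat_lit 11) (nat_lit 5) (nat_lit 10) (nat_lit 4) (nat_lit 350) (nat_lit 271) (nat_lit 159)) (XT.lf (nat_lit 0) (nat_lit 3552795419) (nat_lit 76) (nat_lit 19045354356) (nat_lit 152) (nat_lit 84230773964) (nat_lit 8) (nat_lit 5) (nat_lit 9) (nat_lit 5) (nat_lit 10) (nat_lit 4) (nat_lit 351) (nat_lit 271) (nat_lit 158))) (XT.nd (nat_lit 78) (nat_lit 0) (nat_lit 0) (XT.lf (nat_lit 0) (nat_lit 27079934971) (nat_lit 76) (nat_lit 6998891382) (nat_lit 152) (nat_lit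 77467209959) (nat_lit 8) (nat_lit 5) (nat_lit 9) (nat_lit 5) (nat_lit 10) (nat_lit 4) (nat_lit 352) (nat_lit 271) (nat_lit 157)) (XT.nd (nat_lit 78) (nat_lit 0) (nat_lit 0) (XT.lf (nat_lit 0) (nat_lit 46217060641) (nat_lit 152) (nat_lit 64812626585) (nat_lit 0) (nat_lit 5465142783) (nat_lit 8) (nat_lit 5) (nat_lit 10) (nat_lit 4) (nat_lit 8) (nat_lit 4) (nat_lit 353) (nat_lit 271) (nat_lit 156)) (XT.lf (nat_lit 0) (nat_lit 59072478939) (nat_lit 152) (nat_lit 44299635807) (nat_lit 0) (nat_lit 18313436639) (nat_lit 8) (nat_lit 5) (nat_lit 10) (nat_lit 4) (nat_lit 8) (nat_lit 4) (nat_lit 354) (nat_lit 271) (nat_lit 155))))) (XT.nd (nat_lit 156) (nat_lit 76) (nat_lit 0) (XT.nd (nat_lit 78) (nat_lit 0) (nat_lit 0) (XT.lf (nat_lit 0) (nat_lit 72566417078) (nat_lit 152) (nat_lit 22769016244) (nat_lit 0) (nat_lit 31800589594) (nat_lit 8) (nat_lit 5) (nat_lit 10) (nat_lit 4) (nat_lit 8) (nat_lit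 4) (nat_lit 355) (nat_lit 271) (nat_lit 154)) (XT.lf (nat_lit 0) (nat_lit 86731003481) (nat_lit 152) (nat_lit 169504515) (nat_lit 0) (nat_lit 45958713918) (nat_lit 8) (nat_lit 5) (nat_lit 10) (nat_lit 4) (nat_lit 8) (nat_lit 4) (nat_lit 356) (nat_lit 271) (nat_lit 153))) (XT.nd (nat_lit 78) (nat_lit 0) (nat_lit 0) (XT.lf (nat_lit 0) (nat_lit 24331466624) (nat_lit 76) (nat_lit 77648379113) (nat_lit 76) (nat_lit 36869935189) (nat_lit 7) (nat_lit 4) (nat_lit 8) (nat_lit 5) (nat_lit 8) (nat_lit 4) (nat_lit 357) (nat_lit 271) (nat_lit 152)) (XT.nd (nat_lit 78) (nat_lit 0) (nat_lit 0) (XT.lf (nat_lit 0) (nat_lit 50056213414) (nat_lit 76) (nat_lit 67934003343) (nat_lit 76) (nat_lit 27149698122) (nat_lit 7) (nat_lit 4) (nat_lit 8) (nat_lit 5) (nat_lit 8) (nat_lit 4) (nat_lit 358) (nat_lit 271) (nat_lit 151)) (XT.lf (nat_lit 0) (nat_lit 77060380667) (nat_lit 76) (nat_lit 57737121861) (nat_lit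 76) (nat_lit 16947234453) (nat_lit 7) (nat_lit 4) (nat_lit 8) (nat_lit 5) (nat_lit 8) (nat_lit 4) (nat_lit 359) (nat_lit 271) (nat_lit 150)))))) (XT.nd (nat_lit 390) (nat_lit 0) (nat_lit 0) (XT.nd (nat_lit 156) (nat_lit 76) (nat_lit 0) (XT.nd (nat_lit 78) (nat_lit 76) (nat_lit 0) (XT.lf (nat_lit 0) (nat_lit 105408264020) (nat_lit 76) (nat_lit 47033456377) (nat_lit 76) (nat_lit 6238252601) (nat_lit 7) (nat_lit 4) (nat_lit 8) (nat_lit 5) (nat_lit 8) (nat_lit 4) (nat_lit 360) (nat_lit 271) (nat_lit 149)) (XT.lf (nat_lit 0) (nat_lit 4842625925) (nat_lit 152) (nat_lit 30872883836) (nat_lit 76) (nat_lit 130242720293) (nat_lit 6) (nat_lit 5) (nat_lit 8) (nat_lit 5) (nat_lit 7) (nat_lit 4) (nat_lit 361) (nat_lit 271) (nat_lit 148))) (XT.nd (nat_lit 78) (nat_lit 76) (nat_lit 0) (XT.lf (nat_lit 0) (nat_lit 16264736999) (nat_lit 152) (nat_lit 7462378239) (nat_lit 76) (nat_lit 149868330700) (nat_lit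 6) (nat_lit 5) (nat_lit 8) (nat_lit 5) (nat_lit 7) (nat_lit 4) (nat_lit 362) (nat_lit 271) (nat_lit 147)) (XT.nd (nat_lit 78) (nat_lit 0) (nat_lit 0) (XT.lf (nat_lit 0) (nat_lit 17678774920) (nat_lit 76) (nat_lit 10852179463) (nat_lit 152) (nat_lit 153069919181) (nat_lit 5) (nat_lit 5) (nat_lit 6) (nat_lit 5) (nat_lit 7) (nat_lit 4) (nat_lit 363) (nat_lit 271) (nat_lit 146)) (XT.lf (nat_lit 0) (nat_lit 41577564883) (nat_lit 152) (nat_lit 145713618546) (nat_lit 0) (nat_lit 2707035972) (nat_lit 5) (nat_lit 5) (nat_lit 7) (nat_lit 4) (nat_lit 5) (nat_lit 4) (nat_lit 364) (nat_lit 271) (nat_lit 145))))) (XT.nd (nat_lit 234) (nat_lit 0) (nat_lit 0) (XT.nd (nat_lit 78) (nat_lit 0) (nat_lit 0) (XT.lf (nat_lit 0) (nat_lit 55451553236) (nat_lit 152) (nat_lit 126778070654) (nat_lit 0) (nat_lit 16577057169) (nat_lit 5) (nat_lit 5) (nat_lit 7) (nat_lit 4) (nat_lit 5) (nat_lit 4) (nat_lit 365) (nat_lit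 271) (nat_lit 144)) (XT.nd (nat_lit 78) (nat_lit 0) (nat_lit 0) (XT.lf (nat_lit 0) (nat_lit 70016519814) (nat_lit 152) (nat_lit 106900937395) (nat_lit 0) (nat_lit 31138245504) (nat_lit 5) (nat_lit 5) (nat_lit 7) (nat_lit 4) (nat_lit 5) (nat_lit 4) (nat_lit 366) (nat_lit 271) (nat_lit 143)) (XT.lf (nat_lit 0) (nat_lit 85307143110) (nat_lit 152) (nat_lit 86034892261) (nat_lit 0) (nat_lit 46425270472) (nat_lit 5) (nat_lit 5) (nat_lit 7) (nat_lit 4) (nat_lit 5) (nat_lit 4) (nat_lit 367) (nat_lit 271) (nat_lit 142)))) (XT.nd (nat_lit 78) (nat_lit 0) (nat_lit 0) (XT.lf (nat_lit 0) (nat_lit 101359829369) (nat_lit 152) (nat_lit 64130254192) (nat_lit 0) (nat_lit 62474529752) (nat_lit 5) (nat_lit 5) (nat_lit 7) (nat_lit 4) (nat_lit 5) (nat_lit 4) (nat_lit 368) (nat_lit 271) (nat_lit 141)) (XT.nd (nat_lit 78) (nat_lit 0) (nat_lit 0) (XT.lf (nat_lit 0) (nat_lit 118212799273) (nat_lit 152) (nat_lit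 41134869288) (nat_lit 0) (nat_lit 79324235867) (nat_lit 5) (nat_lit 5) (nat_lit 7) (nat_lit 4) (nat_lit 5) (nat_lit 4) (nat_lit 369) (nat_lit 271) (nat_lit 140)) (XT.lf (nat_lit 0) (nat_lit 135906178940) (nat_lit 152) (nat_lit 16993986633) (nat_lit 0) (nat_lit 97014507163) (nat_lit 5) (nat_lit 5) (nat_lit 7) (nat_lit 4) (nat_lit 5) (nat_lit 4) (nat_lit 370) (nat_lit 271) (nat_lit 139))))))))
noncomputable def xc141 : XT := (XT.nd (nat_lit 33228) (nat_lit 0) (nat_lit 4332) (XT.nd (nat_lit 780) (nat_lit 152) (nat_lit 0) (XT.nd (nat_lit 390) (nat_lit 0) (nat_lit 0) (XT.nd (nat_lit 156) (nat_lit 0) (nat_lit 0) (XT.nd (nat_lit 78) (nat_lit 0) (nat_lit 0) (XT.lf (nat_lit 0) (nat_lit 8625956544) (nat_lit 76) (nat_lit 145990814277) (nat_lit 76) (nat_lit 107096182147) (nat_lit 4) (nat_lit 4) (nat_lit 5) (nat_lit 5) (nat_lit 5) (nat_lit 4) (nat_lit 371) (nat_lit 271) (nat_lit 138)) (XT.lf (nat_lit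 0) (nat_lit 36112887248) (nat_lit 76) (nat_lit 138435713349) (nat_lit 76) (nat_lit 99538261836) (nat_lit 4) (nat_lit 4) (nat_lit 5) (nat_lit 5) (nat_lit 5) (nat_lit 4) (nat_lit 372) (nat_lit 271) (nat_lit 137))) (XT.nd (nat_lit 78) (nat_lit 0) (nat_lit 0) (XT.lf (nat_lit 0) (nat_lit 64970352606) (nat_lit 76) (nat_lit 130504675841) (nat_lit 76) (nat_lit 91604539200) (nat_lit 4) (nat_lit 4) (nat_lit 5) (nat_lit 5) (nat_lit 5) (nat_lit 4) (nat_lit 373) (nat_lit 271) (nat_lit 136)) (XT.nd (nat_lit 78) (nat_lit 0) (nat_lit 0) (XT.lf (nat_lit 0) (nat_lit 95267060870) (nat_lit 76) (nat_lit 122178818330) (nat_lit 76) (nat_lit 83276124425) (nat_lit 4) (nat_lit 4) (nat_lit 5) (nat_lit 5) (nat_lit 5) (nat_lit 4) (nat_lit 374) (nat_lit 271) (nat_lit 135)) (XT.lf (nat_lit 0) (nat_lit 127075147058) (nat_lit 76) (nat_lit 113438317346) (nat_lit 76) (nat_lit 74533187951) (nat_lit 4) (nat_lit 4) (nat_lit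 5) (nat_lit 5) (nat_lit 5) (nat_lit 4) (nat_lit 375) (nat_lit 271) (nat_lit 134))))) (XT.nd (nat_lit 156) (nat_lit 0) (nat_lit 0) (XT.nd (nat_lit 78) (nat_lit 0) (nat_lit 0) (XT.lf (nat_lit 0) (nat_lit 160470344709) (nat_lit 76) (nat_lit 104262362172) (nat_lit 76) (nat_lit 65354913264) (nat_lit 4) (nat_lit 4) (nat_lit 5) (nat_lit 5) (nat_lit 5) (nat_lit 4) (nat_lit 376) (nat_lit 271) (nat_lit 133)) (XT.lf (nat_lit 0) (nat_lit 195532166199) (nat_lit 76) (nat_lit 94629105297) (nat_lit 76) (nat_lit 55719447328) (nat_lit 4) (nat_lit 4) (nat_lit 5) (nat_lit 5) (nat_lit 5) (nat_lit 4) (nat_lit 377) (nat_lit 271) (nat_lit 132))) (XT.nd (nat_lit 78) (nat_lit 0) (nat_lit 0) (XT.lf (nat_lit 0) (nat_lit 232344092055) (nat_lit 76) (nat_lit 84515610394) (nat_lit 76) (nat_lit 45603848557) (nat_lit 4) (nat_lit 4) (nat_lit 5) (nat_lit 5) (nat_lit 5) (nat_lit 4) (nat_lit 378) (nat_lit 271) (nat_lit 131))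 (XT.nd (nat_lit 78) (nat_lit 0) (nat_lit 0) (XT.lf (nat_lit 0) (nat_lit 270993769720) (nat_lit 76) (nat_lit 73897797713) (nat_lit 76) (nat_lit 34984032192) (nat_lit 4) (nat_lit 4) (nat_lit 5) (nat_lit 5) (nat_lit 5) (nat_lit 4) (nat_lit 379) (nat_lit 271) (nat_lit 130)) (XT.lf (nat_lit 0) (nat_lit 311573222235) (nat_lit 76) (nat_lit 62750386748) (nat_lit 76) (nat_lit 23834712958) (nat_lit 4) (nat_lit 4) (nat_lit 5) (nat_lit 5) (nat_lit 5) (nat_lit 4) (nat_lit 380) (nat_lit 271) (nat_lit 129)))))) (XT.nd (nat_lit 390) (nat_lit 0) (nat_lit 0) (XT.nd (nat_lit 156) (nat_lit 76) (nat_lit 0) (XT.nd (nat_lit 78) (nat_lit 76) (nat_lit 0) (XT.lf (nat_lit 0) (nat_lit 354179067344) (nat_lit 76) (nat_lit 51046836044) (nat_lit 76) (nat_lit 12129344854) (nat_lit 4) (nat_lit 4) (nat_lit 5) (nat_lit 5) (nat_lit 5) (nat_lit 4) (nat_lit 381) (nat_lit 271) (nat_lit 128)) (XT.lf (nat_lit 0) (nat_lit 154822897)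 (nat_lit 152) (nat_lit 38601835107) (nat_lit 76) (nat_lit 398755302639) (nat_lit 3) (nat_lit 5) (nat_lit 5) (nat_lit 5) (nat_lit 4) (nat_lit 4) (nat_lit 382) (nat_lit 271) (nat_lit 127))) (XT.nd (nat_lit 78) (nat_lit 76) (nat_lit 0) (XT.lf (nat_lit 0) (nat_lit 12644329307) (nat_lit 152) (nat_lit 12999995402) (nat_lit 76) (nat_lit 433022304433) (nat_lit 3) (nat_lit 5) (nat_lit 5) (nat_lit 5) (nat_lit 4) (nat_lit 4) (nat_lit 383) (nat_lit 271) (nat_lit 126)) (XT.nd (nat_lit 78) (nat_lit 0) (nat_lit 0) (XT.lf (nat_lit 0) (nat_lit 14338592549) (nat_lit 76) (nat_lit 11642399143) (nat_lit 152) (nat_lit 454886905679) (nat_lit 2) (nat_lit 5) (nat_lit 3) (nat_lit 5) (nat_lit 4) (nat_lit 4) (nat_lit 384) (nat_lit 271) (nat_lit 125)) (XT.lf (nat_lit 0) (nat_lit 40254846842) (nat_lit 152) (nat_lit 460726432524) (nat_lit 0) (nat_lit 3184431984) (nat_lit 2) (nat_lit 5) (nat_lit 4) (nat_lit 4) (nat_lit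 2) (nat_lit 4) (nat_lit 385) (nat_lit 271) (nat_lit 124))))) (XT.nd (nat_lit 31824) (nat_lit 0) (nat_lit 7676) (XT.nd (nat_lit 78) (nat_lit 0) (nat_lit 0) (XT.lf (nat_lit 0) (nat_lit 55432129891) (nat_lit 152) (nat_lit 454826440825) (nat_lit 0) (nat_lit 18360358862) (nat_lit 2) (nat_lit 5) (nat_lit 4) (nat_lit 4) (nat_lit 2) (nat_lit 4) (nat_lit 386) (nat_lit 271) (nat_lit 123)) (XT.nd (nat_lit 31668) (nat_lit 0) (nat_lit 8360) (XT.lf (nat_lit 0) (nat_lit 71367206750) (nat_lit 152) (nat_lit 448633511648) (nat_lit 0) (nat_lit 34294144128) (nat_lit 2) (nat_lit 5) (nat_lit 4) (nat_lit 4) (nat_lit 2) (nat_lit 4) (nat_lit 387) (nat_lit 271) (nat_lit 122)) (XT.lf (nat_lit 0) (nat_lit 1756032490) (nat_lit 0) (nat_lit 1756032490) (nat_lit 532) (nat_lit 555272402) (nat_lit 112) (nat_lit 5) (nat_lit 112) (nat_lit 3) (nat_lit 119) (nat_lit 3) (nat_lit 272) (nat_lit 272) (nat_lit 236)))) (XT.nd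 (nat_lit 78) (nat_lit 0) (nat_lit 76) (XT.lf (nat_lit 0) (nat_lit 1822353) (nat_lit 684) (nat_lit 842108051) (nat_lit 684) (nat_lit 7437684341) (nat_lit 103) (nat_lit 3) (nat_lit 112) (nat_lit 3) (nat_lit 112) (nat_lit 5) (nat_lit 273) (nat_lit 272) (nat_lit 235)) (XT.nd (nat_lit 78) (nat_lit 0) (nat_lit 0) (XT.lf (nat_lit 0) (nat_lit 1143582500) (nat_lit 608) (nat_lit 5294750897) (nat_lit 684) (nat_lit 1996239617) (nat_lit 104) (nat_lit 5) (nat_lit 112) (nat_lit 5) (nat_lit 113) (nat_lit 5) (nat_lit 274) (nat_lit 272) (nat_lit 234)) (XT.lf (nat_lit 0) (nat_lit 2303392563) (nat_lit 608) (nat_lit 1299021650) (nat_lit 684) (nat_lit 4994846781) (nat_lit 104) (nat_lit 5) (nat_lit 112) (nat_lit 5) (nat_lit 113) (nat_lit 5) (nat_lit 275) (nat_lit 272) (nat_lit 233))))))) (XT.nd (nat_lit 780) (nat_lit 2280) (nat_lit 0) (XT.nd (nat_lit 390) (nat_lit 1140) (nat_lit 0) (XT.nd (nat_lit 156) (nat_lit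 0) (nat_lit 76) (XT.nd (nat_lit 78) (nat_lit 0) (nat_lit 76) (XT.lf (nat_lit 76) (nat_lit 2952347923) (nat_lit 0) (nat_lit 550779327) (nat_lit 684) (nat_lit 5265983123) (nat_lit 105) (nat_lit 5) (nat_lit 104) (nat_lit 5) (nat_lit 113) (nat_lit 5) (nat_lit 276) (nat_lit 272) (nat_lit 232)) (XT.lf (nat_lit 0) (nat_lit 4765307621) (nat_lit 608) (nat_lit 1570444384) (nat_lit 684) (nat_lit 2613795080) (nat_lit 105) (nat_lit 5) (nat_lit 113) (nat_lit 5) (nat_lit 114) (nat_lit 5) (nat_lit 277) (nat_lit 272) (nat_lit 231))) (XT.nd (nat_lit 78) (nat_lit 0) (nat_lit 76) (XT.lf (nat_lit 76) (nat_lit 2933440274) (nat_lit 0) (nat_lit 3153576700) (nat_lit 684) (nat_lit 3052279869) (nat_lit 106) (nat_lit 5) (nat_lit 105) (nat_lit 5) (nat_lit 114) (nat_lit 5) (nat_lit 278) (nat_lit 272) (nat_lit 230)) (XT.nd (nat_lit 78) (nat_lit 0) (nat_lit 0) (XT.lf (nat_lit 0) (nat_lit 7448808739) (nat_lit 608) (nat_lit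 1665687373) (nat_lit 684) (nat_lit 225444990) (nat_lit 106) (nat_lit 5) (nat_lit 114) (nat_lit 5) (nat_lit 115) (nat_lit 5) (nat_lit 279) (nat_lit 272) (nat_lit 229)) (XT.lf (nat_lit 76) (nat_lit 3109154271) (nat_lit 0) (nat_lit 5816475519) (nat_lit 684) (nat_lit 622742571) (nat_lit 107) (nat_lit 5) (nat_lit 106) (nat_lit 5) (nat_lit 115) (nat_lit 5) (nat_lit 280) (nat_lit 272) (nat_lit 228))))) (XT.nd (nat_lit 156) (nat_lit 608) (nat_lit 0) (XT.nd (nat_lit 78) (nat_lit 0) (nat_lit 76) (XT.lf (nat_lit 0) (nat_lit 662728202) (nat_lit 684) (nat_lit 1638105686) (nat_lit 760) (nat_lit 7467112279) (nat_lit 97) (nat_lit 5) (nat_lit 106) (nat_lit 5) (nat_lit 107) (nat_lit 5) (nat_lit 281) (nat_lit 272) (nat_lit 227)) (XT.lf (nat_lit 0) (nat_lit 2018737026) (nat_lit 684) (nat_lit 6556413276) (nat_lit 76) (nat_lit 1421566194) (nat_lit 98) (nat_lit 5) (nat_lit 107) (nat_lit 5) (nat_lit 99) (nat_lit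 5) (nat_lit 282) (nat_lit 272) (nat_lit 226))) (XT.nd (nat_lit 78) (nat_lit 684) (nat_lit 0) (XT.lf (nat_lit 0) (nat_lit 3460551146) (nat_lit 684) (nat_lit 1485562246) (nat_lit 76) (nat_lit 5289995436) (nat_lit 98) (nat_lit 5) (nat_lit 107) (nat_lit 5) (nat_lit 99) (nat_lit 5) (nat_lit 283) (nat_lit 272) (nat_lit 225)) (XT.nd (nat_lit 78) (nat_lit 0) (nat_lit 0) (XT.lf (nat_lit 0) (nat_lit 3925072909) (nat_lit 684) (nat_lit 1065035275) (nat_lit 760) (nat_lit 5496659724) (nat_lit 89) (nat_lit 5) (nat_lit 98) (nat_lit 5) (nat_lit 99) (nat_lit 5) (nat_lit 284) (nat_lit 272) (nat_lit 224)) (XT.lf (nat_lit 0) (nat_lit 6624731844) (nat_lit 760) (nat_lit 1179407264) (nat_lit 76) (nat_lit 2944467339) (nat_lit 89) (nat_lit 5) (nat_lit 99) (nat_lit 5) (nat_lit 90) (nat_lit 5) (nat_lit 285) (nat_lit 272) (nat_lit 223)))))) (XT.nd (nat_lit 390) (nat_lit 988) (nat_lit 0) (XT.nd (nat_lit 156) (nat_lit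 760) (nat_lit 0) (XT.nd (nat_lit 78) (nat_lit 0) (nat_lit 0) (XT.lf (nat_lit 0) (nat_lit 4561373449) (nat_lit 532) (nat_lit 3826504436) (nat_lit 608) (nat_lit 2633391797) (nat_lit 82) (nat_lit 5) (nat_lit 89) (nat_lit 5) (nat_lit 90) (nat_lit 5) (nat_lit 286) (nat_lit 272) (nat_lit 222)) (XT.lf (nat_lit 0) (nat_lit 10224486722) (nat_lit 608) (nat_lit 722866845) (nat_lit 76) (nat_lit 361016120) (nat_lit 82) (nat_lit 5) (nat_lit 90) (nat_lit 5) (nat_lit 83) (nat_lit 5) (nat_lit 287) (nat_lit 272) (nat_lit 221))) (XT.nd (nat_lit 78) (nat_lit 304) (nat_lit 0) (XT.lf (nat_lit 0) (nat_lit 635486546) (nat_lit 456) (nat_lit 6243242627) (nat_lit 76) (nat_lit 4725245641) (nat_lit 76) (nat_lit 5) (nat_lit 82) (nat_lit 5) (nat_lit 77) (nat_lit 5) (nat_lit 288) (nat_lit 272) (nat_lit 220)) (XT.nd (nat_lit 78) (nat_lit 304) (nat_lit 0) (XT.lf (nat_lit 0) (nat_lit 2378876438) (nat_lit 456) (nat_lit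 197511650) (nat_lit 76) (nat_lit 9338419310) (nat_lit 76) (nat_lit 5) (nat_lit 82) (nat_lit 5) (nat_lit 77) (nat_lit 5) (nat_lit 289) (nat_lit 272) (nat_lit 219)) (XT.lf (nat_lit 0) (nat_lit 4303775364) (nat_lit 380) (nat_lit 5954913734) (nat_lit 76) (nat_lit 1977832207) (nat_lit 72) (nat_lit 5) (nat_lit 77) (nat_lit 5) (nat_lit 73) (nat_lit 5) (nat_lit 290) (nat_lit 272) (nat_lit 218))))) (XT.nd (nat_lit 234) (nat_lit 380) (nat_lit 0) (XT.nd (nat_lit 78) (nat_lit 304) (nat_lit 0) (XT.lf (nat_lit 0) (nat_lit 450829886) (nat_lit 304) (nat_lit 5891721853) (nat_lit 380) (nat_lit 6230941517) (nat_lit 68) (nat_lit 5) (nat_lit 72) (nat_lit 5) (nat_lit 73) (nat_lit 5) (nat_lit 291) (nat_lit 272) (nat_lit 217)) (XT.nd (nat_lit 78) (nat_lit 304) (nat_lit 0) (XT.lf (nat_lit 0) (nat_lit 7345530928) (nat_lit 304) (nat_lit 1204617741) (nat_lit 380) (nat_lit 4373872449) (nat_lit 68) (nat_lit 5) (nat_lit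 72) (nat_lit 5) (nat_lit 73) (nat_lit 5) (nat_lit 292) (nat_lit 272) (nat_lit 216)) (XT.lf (nat_lit 0) (nat_lit 1236576024) (nat_lit 304) (nat_lit 9676475035) (nat_lit 380) (nat_lit 2376826990) (nat_lit 64) (nat_lit 5) (nat_lit 68) (nat_lit 5) (nat_lit 69) (nat_lit 5) (nat_lit 293) (nat_lit 272) (nat_lit 215)))) (XT.nd (nat_lit 78) (nat_lit 380) (nat_lit 0) (XT.lf (nat_lit 0) (nat_lit 8528414586) (nat_lit 304) (nat_lit 4948138380) (nat_lit 380) (nat_lit 193398762) (nat_lit 64) (nat_lit 5) (nat_lit 68) (nat_lit 5) (nat_lit 69) (nat_lit 5) (nat_lit 294) (nat_lit 272) (nat_lit 214)) (XT.nd (nat_lit 78) (nat_lit 0) (nat_lit 0) (XT.lf (nat_lit 0) (nat_lit 2035779306) (nat_lit 380) (nat_lit 11954370584) (nat_lit 76) (nat_lit 77094473) (nat_lit 59) (nat_lit 5) (nat_lit 64) (nat_lit 5) (nat_lit 60) (nat_lit 5) (nat_lit 295) (nat_lit 272) (nat_lit 213)) (XT.lf (nat_lit 0) (nat_lit 4509841465)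 (nat_lit 380) (nat_lit 4694615947) (nat_lit 76) (nat_lit 5272829734) (nat_lit 59) (nat_lit 5) (nat_lit 64) (nat_lit 5) (nat_lit 60) (nat_lit 5) (nat_lit 296) (nat_lit 272) (nat_lit 212))))))))
noncomputable def xc142 : XT := (XT.nd (nat_lit 1560) (nat_lit 1292) (nat_lit 0) (XT.nd (nat_lit 780) (nat_lit 912) (nat_lit 0) (XT.nd (nat_lit 390) (nat_lit 456) (nat_lit 0) (XT.nd (nat_lit 156) (nat_lit 532) (nat_lit 0) (XT.nd (nat_lit 78) (nat_lit 0) (nat_lit 0) (XT.lf (nat_lit 0) (nat_lit 2988185197) (nat_lit 228) (nat_lit 4137795256) (nat_lit 304) (nat_lit 7780971289) (nat_lit 56) (nat_lit 5) (nat_lit 59) (nat_lit 5) (nat_lit 60) (nat_lit 5) (nat_lit 297) (nat_lit 272) (nat_lit 211)) (XT.lf (nat_lit 0) (nat_lit 9944595158) (nat_lit 304) (nat_lit 4192073168) (nat_lit 76) (nat_lit 1217884332) (nat_lit 56) (nat_lit 5) (nat_lit 60) (nat_lit 5) (nat_lit 57) (nat_lit 5) (nat_lit 298) (nat_lit 272)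 (nat_lit 210))) (XT.nd (nat_lit 78) (nat_lit 304) (nat_lit 0) (XT.lf (nat_lit 0) (nat_lit 3944808368) (nat_lit 228) (nat_lit 9062470978) (nat_lit 304) (nat_lit 2812132129) (nat_lit 53) (nat_lit 5) (nat_lit 56) (nat_lit 5) (nat_lit 57) (nat_lit 5) (nat_lit 299) (nat_lit 272) (nat_lit 209)) (XT.nd (nat_lit 78) (nat_lit 304) (nat_lit 0) (XT.lf (nat_lit 0) (nat_lit 12600058610) (nat_lit 228) (nat_lit 3668470974) (nat_lit 304) (nat_lit 36745191) (nat_lit 53) (nat_lit 5) (nat_lit 56) (nat_lit 5) (nat_lit 57) (nat_lit 5) (nat_lit 300) (nat_lit 272) (nat_lit 208)) (XT.lf (nat_lit 0) (nat_lit 2870893904) (nat_lit 304) (nat_lit 11890612020) (nat_lit 76) (nat_lit 2047430250) (nat_lit 49) (nat_lit 5) (nat_lit 53) (nat_lit 5) (nat_lit 50) (nat_lit 5) (nat_lit 301) (nat_lit 272) (nat_lit 207))))) (XT.nd (nat_lit 156) (nat_lit 228) (nat_lit 0) (XT.nd (nat_lit 78) (nat_lit 228) (nat_lit 0) (XT.lf (nat_lit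 0) (nat_lit 6022356752) (nat_lit 304) (nat_lit 3328542479) (nat_lit 76) (nat_lit 7981896082) (nat_lit 49) (nat_lit 5) (nat_lit 53) (nat_lit 5) (nat_lit 50) (nat_lit 5) (nat_lit 302) (nat_lit 272) (nat_lit 206)) (XT.lf (nat_lit 0) (nat_lit 5815567281) (nat_lit 228) (nat_lit 3583536570) (nat_lit 304) (nat_lit 8480385262) (nat_lit 46) (nat_lit 5) (nat_lit 49) (nat_lit 5) (nat_lit 50) (nat_lit 5) (nat_lit 303) (nat_lit 272) (nat_lit 205))) (XT.nd (nat_lit 78) (nat_lit 228) (nat_lit 0) (XT.lf (nat_lit 0) (nat_lit 13017955740) (nat_lit 304) (nat_lit 2990463911) (nat_lit 76) (nat_lit 2441460542) (nat_lit 46) (nat_lit 5) (nat_lit 50) (nat_lit 5) (nat_lit 47) (nat_lit 5) (nat_lit 304) (nat_lit 272) (nat_lit 204)) (XT.nd (nat_lit 78) (nat_lit 76) (nat_lit 0) (XT.lf (nat_lit 0) (nat_lit 6659952028) (nat_lit 152) (nat_lit 10298977563) (nat_lit 228) (nat_lit 2082826993) (nat_lit 44) (nat_lit 5) (nat_lit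 46) (nat_lit 5) (nat_lit 47) (nat_lit 5) (nat_lit 305) (nat_lit 272) (nat_lit 203)) (XT.lf (nat_lit 0) (nat_lit 1417945589) (nat_lit 228) (nat_lit 2818553613) (nat_lit 76) (nat_lit 15424125375) (nat_lit 43) (nat_lit 5) (nat_lit 46) (nat_lit 5) (nat_lit 44) (nat_lit 5) (nat_lit 306) (nat_lit 272) (nat_lit 202)))))) (XT.nd (nat_lit 390) (nat_lit 380) (nat_lit 0) (XT.nd (nat_lit 156) (nat_lit 304) (nat_lit 0) (XT.nd (nat_lit 78) (nat_lit 0) (nat_lit 0) (XT.lf (nat_lit 0) (nat_lit 5154421577) (nat_lit 304) (nat_lit 12943982638) (nat_lit 76) (nat_lit 2203812808) (nat_lit 40) (nat_lit 5) (nat_lit 44) (nat_lit 5) (nat_lit 41) (nat_lit 5) (nat_lit 307) (nat_lit 272) (nat_lit 201)) (XT.lf (nat_lit 0) (nat_lit 9175700272) (nat_lit 304) (nat_lit 2932263972) (nat_lit 76) (nat_lit 8863046242) (nat_lit 40) (nat_lit 5) (nat_lit 44) (nat_lit 5) (nat_lit 41) (nat_lit 5) (nat_lit 308) (nat_lit 272) (nat_lit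 200))) (XT.nd (nat_lit 78) (nat_lit 152) (nat_lit 0) (XT.lf (nat_lit 0) (nat_lit 7800914968) (nat_lit 152) (nat_lit 5699885901) (nat_lit 228) (nat_lit 8167324229) (nat_lit 38) (nat_lit 5) (nat_lit 40) (nat_lit 5) (nat_lit 41) (nat_lit 5) (nat_lit 309) (nat_lit 272) (nat_lit 199)) (XT.nd (nat_lit 78) (nat_lit 152) (nat_lit 0) (XT.lf (nat_lit 0) (nat_lit 18089964532) (nat_lit 228) (nat_lit 3271065041) (nat_lit 76) (nat_lit 1036693916) (nat_lit 38) (nat_lit 5) (nat_lit 41) (nat_lit 5) (nat_lit 39) (nat_lit 5) (nat_lit 310) (nat_lit 272) (nat_lit 198)) (XT.lf (nat_lit 0) (nat_lit 7989411274) (nat_lit 152) (nat_lit 15119519971) (nat_lit 228) (nat_lit 44870882) (nat_lit 36) (nat_lit 5) (nat_lit 38) (nat_lit 5) (nat_lit 39) (nat_lit 5) (nat_lit 311) (nat_lit 272) (nat_lit 197))))) (XT.nd (nat_lit 156) (nat_lit 152) (nat_lit 0) (XT.nd (nat_lit 78) (nat_lit 152) (nat_lit 0) (XT.lf (nat_lit 0)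 (nat_lit 4327930354) (nat_lit 228) (nat_lit 4116430821) (nat_lit 76) (nat_lit 15497950638) (nat_lit 35) (nat_lit 5) (nat_lit 38) (nat_lit 5) (nat_lit 36) (nat_lit 5) (nat_lit 312) (nat_lit 272) (nat_lit 196)) (XT.lf (nat_lit 0) (nat_lit 7703169366) (nat_lit 152) (nat_lit 1318094187) (nat_lit 228) (nat_lit 15743791837) (nat_lit 33) (nat_lit 5) (nat_lit 35) (nat_lit 5) (nat_lit 36) (nat_lit 5) (nat_lit 313) (nat_lit 272) (nat_lit 195))) (XT.nd (nat_lit 78) (nat_lit 152) (nat_lit 0) (XT.lf (nat_lit 0) (nat_lit 14099740813) (nat_lit 228) (nat_lit 5493005809) (nat_lit 76) (nat_lit 6028680112) (nat_lit 33) (nat_lit 5) (nat_lit 36) (nat_lit 5) (nat_lit 34) (nat_lit 5) (nat_lit 314) (nat_lit 272) (nat_lit 194)) (XT.nd (nat_lit 78) (nat_lit 0) (nat_lit 0) (XT.lf (nat_lit 0) (nat_lit 6825620077) (nat_lit 152) (nat_lit 12718864538) (nat_lit 228) (nat_lit 6970528663) (nat_lit 31) (nat_lit 5) (nat_lit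 33) (nat_lit 5) (nat_lit 34) (nat_lit 5) (nat_lit 315) (nat_lit 272) (nat_lit 193)) (XT.lf (nat_lit 0) (nat_lit 19925741449) (nat_lit 152) (nat_lit 5413279803) (nat_lit 228) (nat_lit 2110393226) (nat_lit 31) (nat_lit 5) (nat_lit 33) (nat_lit 5) (nat_lit 34) (nat_lit 5) (nat_lit 316) (nat_lit 272) (nat_lit 192))))))) (XT.nd (nat_lit 780) (nat_lit 532) (nat_lit 0) (XT.nd (nat_lit 390) (nat_lit 380) (nat_lit 0) (XT.nd (nat_lit 156) (nat_lit 152) (nat_lit 0) (XT.nd (nat_lit 78) (nat_lit 0) (nat_lit 0) (XT.lf (nat_lit 0) (nat_lit 3002744015) (nat_lit 228) (nat_lit 23111615506) (nat_lit 76) (nat_lit 2308562768) (nat_lit 28) (nat_lit 5) (nat_lit 31) (nat_lit 5) (nat_lit 29) (nat_lit 5) (nat_lit 317) (nat_lit 272) (nat_lit 191)) (XT.lf (nat_lit 0) (nat_lit 8504066485) (nat_lit 228) (nat_lit 10539575264) (nat_lit 76) (nat_lit 10389572667) (nat_lit 28) (nat_lit 5) (nat_lit 31) (nat_lit 5) (nat_lit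 29) (nat_lit 5) (nat_lit 318) (nat_lit 272) (nat_lit 190))) (XT.nd (nat_lit 78) (nat_lit 0) (nat_lit 0) (XT.lf (nat_lit 0) (nat_lit 2724798069) (nat_lit 152) (nat_lit 11584106625) (nat_lit 228) (nat_lit 16183704761) (nat_lit 26) (nat_lit 5) (nat_lit 28) (nat_lit 5) (nat_lit 29) (nat_lit 5) (nat_lit 319) (nat_lit 272) (nat_lit 189)) (XT.nd (nat_lit 78) (nat_lit 0) (nat_lit 0) (XT.lf (nat_lit 0) (nat_lit 16995199550) (nat_lit 152) (nat_lit 3573496339) (nat_lit 228) (nat_lit 11028053078) (nat_lit 26) (nat_lit 5) (nat_lit 28) (nat_lit 5) (nat_lit 29) (nat_lit 5) (nat_lit 320) (nat_lit 272) (nat_lit 188)) (XT.lf (nat_lit 0) (nat_lit 27203741805) (nat_lit 228) (nat_lit 875031763) (nat_lit 76) (nat_lit 4674218412) (nat_lit 26) (nat_lit 5) (nat_lit 29) (nat_lit 5) (nat_lit 27) (nat_lit 4) (nat_lit 321) (nat_lit 272) (nat_lit 187))))) (XT.nd (nat_lit 156) (nat_lit 228) (nat_lit 0) (XT.nd (nat_lit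 78) (nat_lit 0) (nat_lit 0) (XT.lf (nat_lit 0) (nat_lit 464292830) (nat_lit 152) (nat_lit 20058645328) (nat_lit 76) (nat_lit 13430593357) (nat_lit 24) (nat_lit 5) (nat_lit 26) (nat_lit 5) (nat_lit 25) (nat_lit 5) (nat_lit 322) (nat_lit 272) (nat_lit 186)) (XT.lf (nat_lit 0) (nat_lit 6594512155) (nat_lit 152) (nat_lit 5892425686) (nat_lit 76) (nat_lit 22722495555) (nat_lit 24) (nat_lit 5) (nat_lit 26) (nat_lit 5) (nat_lit 25) (nat_lit 5) (nat_lit 323) (nat_lit 272) (nat_lit 185))) (XT.nd (nat_lit 78) (nat_lit 76) (nat_lit 0) (XT.lf (nat_lit 0) (nat_lit 9257907680) (nat_lit 152) (nat_lit 3905903637) (nat_lit 228) (nat_lit 23357698658) (nat_lit 22) (nat_lit 5) (nat_lit 24) (nat_lit 5) (nat_lit 25) (nat_lit 5) (nat_lit 324) (nat_lit 272) (nat_lit 184)) (XT.nd (nat_lit 78) (nat_lit 76) (nat_lit 0) (XT.lf (nat_lit 0) (nat_lit 20230843061) (nat_lit 228) (nat_lit 12625836740) (nat_lit 76) (nat_lit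 5034054870) (nat_lit 22) (nat_lit 5) (nat_lit 25) (nat_lit 5) (nat_lit 23) (nat_lit 4) (nat_lit 325) (nat_lit 272) (nat_lit 183)) (XT.lf (nat_lit 0) (nat_lit 2748085764) (nat_lit 76) (nat_lit 24998791470) (nat_lit 152) (nat_lit 11576768125) (nat_lit 21) (nat_lit 5) (nat_lit 22) (nat_lit 5) (nat_lit 23) (nat_lit 4) (nat_lit 326) (nat_lit 272) (nat_lit 182)))))) (XT.nd (nat_lit 390) (nat_lit 304) (nat_lit 0) (XT.nd (nat_lit 156) (nat_lit 152) (nat_lit 0) (XT.nd (nat_lit 78) (nat_lit 76) (nat_lit 0) (XT.lf (nat_lit 0) (nat_lit 19309705941) (nat_lit 76) (nat_lit 16531781624) (nat_lit 152) (nat_lit 4976582249) (nat_lit 21) (nat_lit 5) (nat_lit 22) (nat_lit 5) (nat_lit 23) (nat_lit 4) (nat_lit 327) (nat_lit 272) (nat_lit 181)) (XT.lf (nat_lit 0) (nat_lit 1880382164) (nat_lit 152) (nat_lit 5737088023) (nat_lit 76) (nat_lit 34768761689) (nat_lit 20) (nat_lit 5) (nat_lit 22) (nat_lit 5) (nat_lit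 21) (nat_lit 5) (nat_lit 328) (nat_lit 272) (nat_lit 180))) (XT.nd (nat_lit 78) (nat_lit 0) (nat_lit 0) (XT.lf (nat_lit 0) (nat_lit 9106970822) (nat_lit 228) (nat_lit 32974005213) (nat_lit 76) (nat_lit 1938051759) (nat_lit 18) (nat_lit 5) (nat_lit 21) (nat_lit 5) (nat_lit 19) (nat_lit 4) (nat_lit 329) (nat_lit 272) (nat_lit 179)) (XT.nd (nat_lit 78) (nat_lit 0) (nat_lit 0) (XT.lf (nat_lit 0) (nat_lit 16908417166) (nat_lit 228) (nat_lit 17007639003) (nat_lit 76) (nat_lit 11806736646) (nat_lit 18) (nat_lit 5) (nat_lit 21) (nat_lit 5) (nat_lit 19) (nat_lit 4) (nat_lit 330) (nat_lit 272) (nat_lit 178)) (XT.lf (nat_lit 0) (nat_lit 25090315387) (nat_lit 228) (nat_lit 260079833) (nat_lit 76) (nat_lit 22161837336) (nat_lit 18) (nat_lit 5) (nat_lit 21) (nat_lit 5) (nat_lit 19) (nat_lit 4) (nat_lit 331) (nat_lit 272) (nat_lit 177))))) (XT.nd (nat_lit 234) (nat_lit 152) (nat_lit 0) (XT.nd (nat_lit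 78) (nat_lit 76) (nat_lit 0) (XT.lf (nat_lit 0) (nat_lit 17880846182) (nat_lit 76) (nat_lit 16070470135) (nat_lit 152) (nat_lit 15426332767) (nat_lit 17) (nat_lit 5) (nat_lit 18) (nat_lit 5) (nat_lit 19) (nat_lit 4) (nat_lit 332) (nat_lit 272) (nat_lit 176)) (XT.nd (nat_lit 78) (nat_lit 76) (nat_lit 0) (XT.lf (nat_lit 0) (nat_lit 36921801087) (nat_lit 76) (nat_lit 6328994227) (nat_lit 152) (nat_lit 8085774666) (nat_lit 17) (nat_lit 5) (nat_lit 18) (nat_lit 5) (nat_lit 19) (nat_lit 4) (nat_lit 333) (nat_lit 272) (nat_lit 175)) (XT.lf (nat_lit 0) (nat_lit 3558777227) (nat_lit 76) (nat_lit 49564262277) (nat_lit 76) (nat_lit 265012560) (nat_lit 16) (nat_lit 4) (nat_lit 17) (nat_lit 5) (nat_lit 17) (nat_lit 4) (nat_lit 334) (nat_lit 272) (nat_lit 174)))) (XT.nd (nat_lit 78) (nat_lit 76) (nat_lit 0) (XT.lf (nat_lit 0) (nat_lit 8035692598) (nat_lit 152) (nat_lit 32845928318) (nat_lit 76) (nat_lit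 14637125435) (nat_lit 15) (nat_lit 5) (nat_lit 17) (nat_lit 5) (nat_lit 16) (nat_lit 4) (nat_lit 335) (nat_lit 272) (nat_lit 173)) (XT.nd (nat_lit 78) (nat_lit 76) (nat_lit 0) (XT.lf (nat_lit 0) (nat_lit 16734312292) (nat_lit 152) (nat_lit 15032661214) (nat_lit 76) (nat_lit 25989199419) (nat_lit 15) (nat_lit 5) (nat_lit 17) (nat_lit 5) (nat_lit 16) (nat_lit 4) (nat_lit 336) (nat_lit 272) (nat_lit 172)) (XT.lf (nat_lit 0) (nat_lit 3777996073) (nat_lit 76) (nat_lit 22141028607) (nat_lit 152) (nat_lit 34183891931) (nat_lit 14) (nat_lit 5) (nat_lit 15) (nat_lit 5) (nat_lit 16) (nat_lit 4) (nat_lit 337) (nat_lit 272) (nat_lit 171))))))))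
noncomputable def xc143 : XT := (XT.nd (nat_lit 1638) (nat_lit 228) (nat_lit 0) (XT.nd (nat_lit 780) (nat_lit 304) (nat_lit 0) (XT.nd (nat_lit 390) (nat_lit 76) (nat_lit 0) (XT.nd (nat_lit 156) (nat_lit 152) (nat_lit 0) (XT.nd (nat_lit 78) (nat_lit 0) (nat_lit 0) (XT.lf (nat_lit 0) (nat_lit 24037122552) (nat_lit 76) (nat_lit 11772766665) (nat_lit 152) (nat_lit 26744766129) (nat_lit 14) (nat_lit 5) (nat_lit 15) (nat_lit 5) (nat_lit 16) (nat_lit 4) (nat_lit 338) (nat_lit 272) (nat_lit 170)) (XT.lf (nat_lit 0) (nat_lit 45295906567) (nat_lit 76) (nat_lit 892086732) (nat_lit 152) (nat_lit 18941356413) (nat_lit 14) (nat_lit 5) (nat_lit 15) (nat_lit 5) (nat_lit 16) (nat_lit 4) (nat_lit 339) (nat_lit 272) (nat_lit 169))) (XT.nd (nat_lit 78) (nat_lit 152) (nat_lit 0) (XT.lf (nat_lit 0) (nat_lit 57242401383) (nat_lit 152) (nat_lit 392520350) (nat_lit 0) (nat_lit 10189990468) (nat_lit 14) (nat_lit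 5) (nat_lit 16) (nat_lit 4) (nat_lit 14) (nat_lit 4) (nat_lit 340) (nat_lit 272) (nat_lit 168)) (XT.nd (nat_lit 78) (nat_lit 76) (nat_lit 0) (XT.lf (nat_lit 0) (nat_lit 20654588109) (nat_lit 76) (nat_lit 48525332587) (nat_lit 76) (nat_lit 1458815763) (nat_lit 13) (nat_lit 4) (nat_lit 14) (nat_lit 5) (nat_lit 14) (nat_lit 4) (nat_lit 341) (nat_lit 272) (nat_lit 167)) (XT.lf (nat_lit 0) (nat_lit 7861205810) (nat_lit 152) (nat_lit 30964479110) (nat_lit 76) (nat_lit 34761226945) (nat_lit 12) (nat_lit 5) (nat_lit 14) (nat_lit 5) (nat_lit 13) (nat_lit 4) (nat_lit 342) (nat_lit 272) (nat_lit 166))))) (XT.nd (nat_lit 156) (nat_lit 0) (nat_lit 0) (XT.nd (nat_lit 78) (nat_lit 76) (nat_lit 0) (XT.lf (nat_lit 0) (nat_lit 17591831292) (nat_lit 152) (nat_lit 11029491346) (nat_lit 76) (nat_lit 48060298974) (nat_lit 12) (nat_lit 5) (nat_lit 14) (nat_lit 5) (nat_lit 13) (nat_lit 4) (nat_lit 343) (nat_lit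 272) (nat_lit 165)) (XT.lf (nat_lit 0) (nat_lit 10218098360) (nat_lit 76) (nat_lit 17744354845) (nat_lit 152) (nat_lit 51960943005) (nat_lit 11) (nat_lit 5) (nat_lit 12) (nat_lit 5) (nat_lit 13) (nat_lit 4) (nat_lit 344) (nat_lit 272) (nat_lit 164))) (XT.nd (nat_lit 78) (nat_lit 0) (nat_lit 0) (XT.lf (nat_lit 0) (nat_lit 32899976670) (nat_lit 76) (nat_lit 6132468376) (nat_lit 152) (nat_lit 44285775044) (nat_lit 11) (nat_lit 5) (nat_lit 12) (nat_lit 5) (nat_lit 13) (nat_lit 4) (nat_lit 345) (nat_lit 272) (nat_lit 163)) (XT.nd (nat_lit 78) (nat_lit 0) (nat_lit 0) (XT.lf (nat_lit 0) (nat_lit 50744807474) (nat_lit 152) (nat_lit 30272146213) (nat_lit 0) (nat_lit 5861390307) (nat_lit 11) (nat_lit 5) (nat_lit 13) (nat_lit 4) (nat_lit 11) (nat_lit 4) (nat_lit 346) (nat_lit 272) (nat_lit 162)) (XT.lf (nat_lit 0) (nat_lit 63137850972) (nat_lit 152) (nat_lit 9229463237) (nat_lit 0) (nat_lit 18244408999)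 (nat_lit 11) (nat_lit 5) (nat_lit 13) (nat_lit 4) (nat_lit 11) (nat_lit 4) (nat_lit 347) (nat_lit 272) (nat_lit 161)))))) (XT.nd (nat_lit 390) (nat_lit 76) (nat_lit 0) (XT.nd (nat_lit 156) (nat_lit 152) (nat_lit 0) (XT.nd (nat_lit 78) (nat_lit 0) (nat_lit 0) (XT.lf (nat_lit 0) (nat_lit 13280718067) (nat_lit 76) (nat_lit 63071968931) (nat_lit 76) (nat_lit 18168979524) (nat_lit 10) (nat_lit 4) (nat_lit 11) (nat_lit 5) (nat_lit 11) (nat_lit 4) (nat_lit 348) (nat_lit 272) (nat_lit 160)) (XT.lf (nat_lit 0) (nat_lit 37227289302) (nat_lit 76) (nat_lit 53152171088) (nat_lit 76) (nat_lit 8240088887) (nat_lit 10) (nat_lit 4) (nat_lit 11) (nat_lit 5) (nat_lit 11) (nat_lit 4) (nat_lit 349) (nat_lit 272) (nat_lit 159))) (XT.nd (nat_lit 78) (nat_lit 76) (nat_lit 0) (XT.lf (nat_lit 0) (nat_lit 2110356547) (nat_lit 152) (nat_lit 40594511084) (nat_lit 76) (nat_lit 60216001921) (nat_lit 9) (nat_lit 5)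 (nat_lit 11) (nat_lit 5) (nat_lit 10) (nat_lit 4) (nat_lit 350) (nat_lit 272) (nat_lit 158)) (XT.nd (nat_lit 78) (nat_lit 76) (nat_lit 0) (XT.lf (nat_lit 0) (nat_lit 12696690654) (nat_lit 152) (nat_lit 18900773596) (nat_lit 76) (nat_lit 75833274822) (nat_lit 9) (nat_lit 5) (nat_lit 11) (nat_lit 5) (nat_lit 10) (nat_lit 4) (nat_lit 351) (nat_lit 272) (nat_lit 157)) (XT.lf (nat_lit 0) (nat_lit 3997190174) (nat_lit 76) (nat_lit 19873070465) (nat_lit 152) (nat_lit 88292947160) (nat_lit 8) (nat_lit 5) (nat_lit 9) (nat_lit 5) (nat_lit 10) (nat_lit 4) (nat_lit 352) (nat_lit 272) (nat_lit 156))))) (XT.nd (nat_lit 234) (nat_lit 76) (nat_lit 0) (XT.nd (nat_lit 78) (nat_lit 0) (nat_lit 0) (XT.lf (nat_lit 0) (nat_lit 28687984085) (nat_lit 76) (nat_lit 7230215371) (nat_lit 152) (nat_lit 81198317598) (nat_lit 8) (nat_lit 5) (nat_lit 9) (nat_lit 5) (nat_lit 10) (nat_lit 4) (nat_lit 353) (nat_lit 272)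 (nat_lit 155)) (XT.nd (nat_lit 78) (nat_lit 0) (nat_lit 0) (XT.lf (nat_lit 0) (nat_lit 48658660135) (nat_lit 152) (nat_lit 67806570829) (nat_lit 0) (nat_lit 5847756094) (nat_lit 8) (nat_lit 5) (nat_lit 10) (nat_lit 4) (nat_lit 8) (nat_lit 4) (nat_lit 354) (nat_lit 272) (nat_lit 154)) (XT.lf (nat_lit 0) (nat_lit 62150623326) (nat_lit 152) (nat_lit 46279677516) (nat_lit 0) (nat_lit 19333257206) (nat_lit 8) (nat_lit 5) (nat_lit 10) (nat_lit 4) (nat_lit 8) (nat_lit 4) (nat_lit 355) (nat_lit 272) (nat_lit 153)))) (XT.nd (nat_lit 78) (nat_lit 76) (nat_lit 0) (XT.lf (nat_lit 0) (nat_lit 76313328827) (nat_lit 152) (nat_lit 23683714597) (nat_lit 0) (nat_lit 33489808345) (nat_lit 8) (nat_lit 5) (nat_lit 10) (nat_lit 4) (nat_lit 8) (nat_lit 4) (nat_lit 356) (nat_lit 272) (nat_lit 152)) (XT.nd (nat_lit 78) (nat_lit 0) (nat_lit 0) (XT.lf (nat_lit 0) (nat_lit 36278992) (nat_lit 76) (nat_lit 91144784789)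 (nat_lit 76) (nat_lit 48315403011) (nat_lit 7) (nat_lit 4) (nat_lit 8) (nat_lit 5) (nat_lit 8) (nat_lit 4) (nat_lit 357) (nat_lit 272) (nat_lit 151)) (XT.lf (nat_lit 0) (nat_lit 25757700477) (nat_lit 76) (nat_lit 81431976373) (nat_lit 76) (nat_lit 38597012408) (nat_lit 7) (nat_lit 4) (nat_lit 8) (nat_lit 5) (nat_lit 8) (nat_lit 4) (nat_lit 358) (nat_lit 272) (nat_lit 150))))))) (XT.nd (nat_lit 780) (nat_lit 76) (nat_lit 0) (XT.nd (nat_lit 390) (nat_lit 76) (nat_lit 0) (XT.nd (nat_lit 156) (nat_lit 76) (nat_lit 0) (XT.nd (nat_lit 78) (nat_lit 0) (nat_lit 0) (XT.lf (nat_lit 0) (nat_lit 52758700773) (nat_lit 76) (nat_lit 71236587609) (nat_lit 76) (nat_lit 28396307276) (nat_lit 7) (nat_lit 4) (nat_lit 8) (nat_lit 5) (nat_lit 8) (nat_lit 4) (nat_lit 359) (nat_lit 272) (nat_lit 149)) (XT.lf (nat_lit 0) (nat_lit 81103567975) (nat_lit 76) (nat_lit 60534343763) (nat_lit 76) (nat_lit 17689000221)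 (nat_lit 7) (nat_lit 4) (nat_lit 8) (nat_lit 5) (nat_lit 8) (nat_lit 4) (nat_lit 360) (nat_lit 272) (nat_lit 148))) (XT.nd (nat_lit 78) (nat_lit 76) (nat_lit 0) (XT.lf (nat_lit 0) (nat_lit 110859789863) (nat_lit 76) (nat_lit 49299763300) (nat_lit 76) (nat_lit 6449597655) (nat_lit 7) (nat_lit 4) (nat_lit 8) (nat_lit 5) (nat_lit 8) (nat_lit 4) (nat_lit 361) (nat_lit 272) (nat_lit 147)) (XT.nd (nat_lit 78) (nat_lit 0) (nat_lit 0) (XT.lf (nat_lit 0) (nat_lit 5177470351) (nat_lit 152) (nat_lit 32240943903) (nat_lit 76) (nat_lit 136833061267) (nat_lit 6) (nat_lit 5) (nat_lit 8) (nat_lit 5) (nat_lit 7) (nat_lit 4) (nat_lit 362) (nat_lit 272) (nat_lit 146)) (XT.lf (nat_lit 0) (nat_lit 17166272067) (nat_lit 152) (nat_lit 7668274175) (nat_lit 76) (nat_lit 157436228149) (nat_lit 6) (nat_lit 5) (nat_lit 8) (nat_lit 5) (nat_lit 7) (nat_lit 4) (nat_lit 363) (nat_lit 272) (nat_lit 145))))) (XT.nd (nat_lit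 156) (nat_lit 0) (nat_lit 0) (XT.nd (nat_lit 78) (nat_lit 0) (nat_lit 0) (XT.lf (nat_lit 0) (nat_lit 18727239498) (nat_lit 76) (nat_lit 11316924855) (nat_lit 152) (nat_lit 160632392222) (nat_lit 5) (nat_lit 5) (nat_lit 6) (nat_lit 5) (nat_lit 7) (nat_lit 4) (nat_lit 364) (nat_lit 272) (nat_lit 144)) (XT.lf (nat_lit 0) (nat_lit 43740136383) (nat_lit 152) (nat_lit 152839612969) (nat_lit 0) (nat_lit 2914170113) (nat_lit 5) (nat_lit 5) (nat_lit 7) (nat_lit 4) (nat_lit 5) (nat_lit 4) (nat_lit 365) (nat_lit 272) (nat_lit 143))) (XT.nd (nat_lit 78) (nat_lit 0) (nat_lit 0) (XT.lf (nat_lit 0) (nat_lit 58303838761) (nat_lit 152) (nat_lit 132964891801) (nat_lit 0) (nat_lit 17474274163) (nat_lit 5) (nat_lit 5) (nat_lit 7) (nat_lit 4) (nat_lit 5) (nat_lit 4) (nat_lit 366) (nat_lit 272) (nat_lit 142)) (XT.nd (nat_lit 78) (nat_lit 0) (nat_lit 0) (XT.lf (nat_lit 0) (nat_lit 73593258056) (nat_lit 152)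 (nat_lit 112101143898) (nat_lit 0) (nat_lit 32760266480) (nat_lit 5) (nat_lit 5) (nat_lit 7) (nat_lit 4) (nat_lit 5) (nat_lit 4) (nat_lit 367) (nat_lit 272) (nat_lit 141)) (XT.lf (nat_lit 0) (nat_lit 89644797647) (nat_lit 152) (nat_lit 90198693667) (nat_lit 0) (nat_lit 48808542282) (nat_lit 5) (nat_lit 5) (nat_lit 7) (nat_lit 4) (nat_lit 5) (nat_lit 4) (nat_lit 368) (nat_lit 272) (nat_lit 140)))))) (XT.nd (nat_lit 390) (nat_lit 0) (nat_lit 0) (XT.nd (nat_lit 156) (nat_lit 76) (nat_lit 0) (XT.nd (nat_lit 78) (nat_lit 0) (nat_lit 0) (XT.lf (nat_lit 0) (nat_lit 106496675487) (nat_lit 152) (nat_lit 67205392419) (nat_lit 0) (nat_lit 65657311751) (nat_lit 5) (nat_lit 5) (nat_lit 7) (nat_lit 4) (nat_lit 5) (nat_lit 4) (nat_lit 369) (nat_lit 272) (nat_lit 139)) (XT.lf (nat_lit 0) (nat_lit 124189015093) (nat_lit 152) (nat_lit 43066494198) (nat_lit 0) (nat_lit 83346691004) (nat_lit 5) (nat_lit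 5) (nat_lit 7) (nat_lit 4) (nat_lit 5) (nat_lit 4) (nat_lit 370) (nat_lit 272) (nat_lit 138))) (XT.nd (nat_lit 78) (nat_lit 76) (nat_lit 0) (XT.lf (nat_lit 0) (nat_lit 142763941084) (nat_lit 152) (nat_lit 17724525436) (nat_lit 0) (nat_lit 101918797611) (nat_lit 5) (nat_lit 5) (nat_lit 7) (nat_lit 4) (nat_lit 5) (nat_lit 4) (nat_lit 371) (nat_lit 272) (nat_lit 137)) (XT.nd (nat_lit 78) (nat_lit 0) (nat_lit 0) (XT.lf (nat_lit 0) (nat_lit 9174492956) (nat_lit 76) (nat_lit 153234426064) (nat_lit 76) (nat_lit 112386597464) (nat_lit 4) (nat_lit 4) (nat_lit 5) (nat_lit 5) (nat_lit 5) (nat_lit 4) (nat_lit 372) (nat_lit 272) (nat_lit 136)) (XT.lf (nat_lit 0) (nat_lit 38030187405) (nat_lit 76) (nat_lit 145304233372) (nat_lit 76) (nat_lit 104453847507) (nat_lit 4) (nat_lit 4) (nat_lit 5) (nat_lit 5) (nat_lit 5) (nat_lit 4) (nat_lit 373) (nat_lit 272) (nat_lit 135))))) (XT.nd (nat_lit 234) (nat_lit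 0) (nat_lit 0) (XT.nd (nat_lit 78) (nat_lit 0) (nat_lit 0) (XT.lf (nat_lit 0) (nat_lit 68325209089) (nat_lit 76) (nat_lit 136979180447) (nat_lit 76) (nat_lit 96126359093) (nat_lit 4) (nat_lit 4) (nat_lit 5) (nat_lit 5) (nat_lit 5) (nat_lit 4) (nat_lit 374) (nat_lit 272) (nat_lit 134)) (XT.nd (nat_lit 78) (nat_lit 0) (nat_lit 0) (XT.lf (nat_lit 0) (nat_lit 100131689010) (nat_lit 76) (nat_lit 128239445736) (nat_lit 76) (nat_lit 87384304868) (nat_lit 4) (nat_lit 4) (nat_lit 5) (nat_lit 5) (nat_lit 5) (nat_lit 4) (nat_lit 375) (nat_lit 272) (nat_lit 133)) (XT.lf (nat_lit 0) (nat_lit 133525356884) (nat_lit 76) (nat_lit 119064220347) (nat_lit 76) (nat_lit 78206870418) (nat_lit 4) (nat_lit 4) (nat_lit 5) (nat_lit 5) (nat_lit 5) (nat_lit 4) (nat_lit 376) (nat_lit 272) (nat_lit 132)))) (XT.nd (nat_lit 78) (nat_lit 0) (nat_lit 0) (XT.lf (nat_lit 0) (nat_lit 168585721443) (nat_lit 76) (nat_lit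 109431658503) (nat_lit 76) (nat_lit 68572204707) (nat_lit 4) (nat_lit 4) (nat_lit 5) (nat_lit 5) (nat_lit 5) (nat_lit 4) (nat_lit 377) (nat_lit 272) (nat_lit 131)) (XT.nd (nat_lit 78) (nat_lit 0) (nat_lit 0) (XT.lf (nat_lit 0) (nat_lit 205396259746) (nat_lit 76) (nat_lit 99318825536) (nat_lit 76) (nat_lit 58457368056) (nat_lit 4) (nat_lit 4) (nat_lit 5) (nat_lit 5) (nat_lit 5) (nat_lit 4) (nat_lit 378) (nat_lit 272) (nat_lit 130)) (XT.lf (nat_lit 0) (nat_lit 244044615931) (nat_lit 76) (nat_lit 88701643269) (nat_lit 76) (nat_lit 47838277520) (nat_lit 4) (nat_lit 4) (nat_lit 5) (nat_lit 5) (nat_lit 5) (nat_lit 4) (nat_lit 379) (nat_lit 272) (nat_lit 129))))))))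
noncomputable def xc144 : XT := (XT.nd (nat_lit 33228) (nat_lit 0) (nat_lit 3344) (XT.nd (nat_lit 32448) (nat_lit 0) (nat_lit 7220) (XT.nd (nat_lit 390) (nat_lit 76) (nat_lit 0) (XT.nd (nat_lit 156) (nat_lit 76) (nat_lit 0) (XT.nd (nat_lit 78) (nat_lit 0) (nat_lit 0) (XT.lf (nat_lit 0) (nat_lit 284622809894) (nat_lit 76) (nat_lit 77554832699) (nat_lit 76) (nat_lit 36689649550) (nat_lit 4) (nat_lit 4) (nat_lit 5) (nat_lit 5) (nat_lit 5) (nat_lit 4) (nat_lit 380) (nat_lit 272) (nat_lit 128)) (XT.lf (nat_lit 0) (nat_lit 327227456383) (nat_lit 76) (nat_lit 65851853800) (nat_lit 76) (nat_lit 24984939794) (nat_lit 4) (nat_lit 4) (nat_lit 5) (nat_lit 5) (nat_lit 5) (nat_lit 4) (nat_lit 381) (nat_lit 272) (nat_lit 127))) (XT.nd (nat_lit 78) (nat_lit 76) (nat_lit 0) (XT.lf (nat_lit 0) (nat_lit 371959995032) (nat_lit 76) (nat_lit 53564842337) (nat_lit 76) (nat_lit 12696279895) (nat_lit 4) (nat_lit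 4) (nat_lit 5) (nat_lit 5) (nat_lit 5) (nat_lit 4) (nat_lit 382) (nat_lit 272) (nat_lit 126)) (XT.nd (nat_lit 78) (nat_lit 0) (nat_lit 0) (XT.lf (nat_lit 0) (nat_lit 199008732) (nat_lit 152) (nat_lit 40462164479) (nat_lit 76) (nat_lit 418724552845) (nat_lit 3) (nat_lit 5) (nat_lit 5) (nat_lit 5) (nat_lit 4) (nat_lit 4) (nat_lit 383) (nat_lit 272) (nat_lit 125)) (XT.lf (nat_lit 0) (nat_lit 13311255001) (nat_lit 152) (nat_lit 13583554807) (nat_lit 76) (nat_lit 454703405439) (nat_lit 3) (nat_lit 5) (nat_lit 5) (nat_lit 5) (nat_lit 4) (nat_lit 4) (nat_lit 384) (nat_lit 272) (nat_lit 124))))) (XT.nd (nat_lit 156) (nat_lit 0) (nat_lit 0) (XT.nd (nat_lit 78) (nat_lit 0) (nat_lit 0) (XT.lf (nat_lit 0) (nat_lit 15120890923) (nat_lit 76) (nat_lit 12193227351) (nat_lit 152) (nat_lit 477595460696) (nat_lit 2) (nat_lit 5) (nat_lit 3) (nat_lit 5) (nat_lit 4) (nat_lit 4) (nat_lit 385) (nat_lit 272)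 (nat_lit 123)) (XT.lf (nat_lit 0) (nat_lit 42300508755) (nat_lit 152) (nat_lit 483699331804) (nat_lit 0) (nat_lit 3372501410) (nat_lit 2) (nat_lit 5) (nat_lit 4) (nat_lit 4) (nat_lit 2) (nat_lit 4) (nat_lit 386) (nat_lit 272) (nat_lit 122))) (XT.nd (nat_lit 31746) (nat_lit 0) (nat_lit 7676) (XT.lf (nat_lit 0) (nat_lit 58235088358) (nat_lit 152) (nat_lit 477507360632) (nat_lit 0) (nat_lit 19305850925) (nat_lit 2) (nat_lit 5) (nat_lit 4) (nat_lit 4) (nat_lit 2) (nat_lit 4) (nat_lit 387) (nat_lit 272) (nat_lit 121)) (XT.nd (nat_lit 78) (nat_lit 0) (nat_lit 0) (XT.lf (nat_lit 0) (nat_lit 522090756) (nat_lit 684) (nat_lit 1846323997) (nat_lit 684) (nat_lit 1846323997) (nat_lit 103) (nat_lit 3) (nat_lit 112) (nat_lit 3) (nat_lit 112) (nat_lit 5) (nat_lit 273) (nat_lit 273) (nat_lit 234)) (XT.lf (nat_lit 76) (nat_lit 211003429) (nat_lit 0) (nat_lit 1863663415) (nat_lit 684) (nat_lit 6513396027)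 (nat_lit 104) (nat_lit 5) (nat_lit 103) (nat_lit 3) (nat_lit 112) (nat_lit 5) (nat_lit 274) (nat_lit 273) (nat_lit 233)))))) (XT.nd (nat_lit 390) (nat_lit 532) (nat_lit 0) (XT.nd (nat_lit 156) (nat_lit 0) (nat_lit 0) (XT.nd (nat_lit 78) (nat_lit 0) (nat_lit 0) (XT.lf (nat_lit 0) (nat_lit 3174082190) (nat_lit 608) (nat_lit 4371081824) (nat_lit 684) (nat_lit 1208666917) (nat_lit 104) (nat_lit 5) (nat_lit 112) (nat_lit 5) (nat_lit 113) (nat_lit 5) (nat_lit 275) (nat_lit 273) (nat_lit 232)) (XT.lf (nat_lit 0) (nat_lit 4297915109) (nat_lit 608) (nat_lit 232156906) (nat_lit 684) (nat_lit 4399460852) (nat_lit 104) (nat_lit 5) (nat_lit 112) (nat_lit 5) (nat_lit 113) (nat_lit 5) (nat_lit 276) (nat_lit 273) (nat_lit 231))) (XT.nd (nat_lit 78) (nat_lit 0) (nat_lit 76) (XT.lf (nat_lit 76) (nat_lit 4213526051) (nat_lit 0) (nat_lit 1272003286) (nat_lit 684) (nat_lit 3628223285) (nat_lit 105) (nat_lit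 5) (nat_lit 104) (nat_lit 5) (nat_lit 113) (nat_lit 5) (nat_lit 277) (nat_lit 273) (nat_lit 230)) (XT.nd (nat_lit 78) (nat_lit 0) (nat_lit 0) (XT.lf (nat_lit 0) (nat_lit 6714444773) (nat_lit 608) (nat_lit 488771969) (nat_lit 684) (nat_lit 2104977462) (nat_lit 105) (nat_lit 5) (nat_lit 113) (nat_lit 5) (nat_lit 114) (nat_lit 5) (nat_lit 278) (nat_lit 273) (nat_lit 229)) (XT.lf (nat_lit 76) (nat_lit 4221594106) (nat_lit 0) (nat_lit 3816997133) (nat_lit 684) (nat_lit 1472179133) (nat_lit 106) (nat_lit 5) (nat_lit 105) (nat_lit 5) (nat_lit 114) (nat_lit 5) (nat_lit 279) (nat_lit 273) (nat_lit 228))))) (XT.nd (nat_lit 156) (nat_lit 0) (nat_lit 0) (XT.nd (nat_lit 78) (nat_lit 608) (nat_lit 0) (XT.lf (nat_lit 76) (nat_lit 9149100878) (nat_lit 0) (nat_lit 237114483) (nat_lit 684) (nat_lit 339493399) (nat_lit 106) (nat_lit 5) (nat_lit 105) (nat_lit 5) (nat_lit 114) (nat_lit 5) (nat_lit 280) (nat_lit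 273) (nat_lit 227)) (XT.lf (nat_lit 0) (nat_lit 899452440) (nat_lit 684) (nat_lit 5540500897) (nat_lit 760) (nat_lit 3507023958) (nat_lit 97) (nat_lit 5) (nat_lit 106) (nat_lit 5) (nat_lit 107) (nat_lit 5) (nat_lit 281) (nat_lit 273) (nat_lit 226))) (XT.nd (nat_lit 78) (nat_lit 0) (nat_lit 76) (XT.lf (nat_lit 0) (nat_lit 2155296904) (nat_lit 684) (nat_lit 567183157) (nat_lit 760) (nat_lit 7458316625) (nat_lit 97) (nat_lit 5) (nat_lit 106) (nat_lit 5) (nat_lit 107) (nat_lit 5) (nat_lit 282) (nat_lit 273) (nat_lit 225)) (XT.nd (nat_lit 78) (nat_lit 0) (nat_lit 0) (XT.lf (nat_lit 0) (nat_lit 3523049261) (nat_lit 684) (nat_lit 5672896671) (nat_lit 76) (nat_lit 1227985071) (nat_lit 98) (nat_lit 5) (nat_lit 107) (nat_lit 5) (nat_lit 99) (nat_lit 5) (nat_lit 283) (nat_lit 273) (nat_lit 224)) (XT.lf (nat_lit 0) (nat_lit 4970126688) (nat_lit 684) (nat_lit 406185817) (nat_lit 76) (nat_lit 5302438606)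 (nat_lit 98) (nat_lit 5) (nat_lit 107) (nat_lit 5) (nat_lit 99) (nat_lit 5) (nat_lit 284) (nat_lit 273) (nat_lit 223))))))) (XT.nd (nat_lit 780) (nat_lit 1368) (nat_lit 0) (XT.nd (nat_lit 390) (nat_lit 912) (nat_lit 0) (XT.nd (nat_lit 156) (nat_lit 988) (nat_lit 0) (XT.nd (nat_lit 78) (nat_lit 0) (nat_lit 0) (XT.lf (nat_lit 0) (nat_lit 5256373764) (nat_lit 684) (nat_lit 1273863939) (nat_lit 760) (nat_lit 4414112861) (nat_lit 89) (nat_lit 5) (nat_lit 98) (nat_lit 5) (nat_lit 99) (nat_lit 5) (nat_lit 285) (nat_lit 273) (nat_lit 222)) (XT.lf (nat_lit 0) (nat_lit 8182820930) (nat_lit 760) (nat_lit 91490065) (nat_lit 76) (nat_lit 2948264547) (nat_lit 89) (nat_lit 5) (nat_lit 99) (nat_lit 5) (nat_lit 90) (nat_lit 5) (nat_lit 286) (nat_lit 273) (nat_lit 221))) (XT.nd (nat_lit 78) (nat_lit 456) (nat_lit 0) (XT.lf (nat_lit 0) (nat_lit 5917831498) (nat_lit 532) (nat_lit 4075488549) (nat_lit 608)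 (nat_lit 1517692989) (nat_lit 82) (nat_lit 5) (nat_lit 89) (nat_lit 5) (nat_lit 90) (nat_lit 5) (nat_lit 287) (nat_lit 273) (nat_lit 220)) (XT.nd (nat_lit 78) (nat_lit 0) (nat_lit 0) (XT.lf (nat_lit 0) (nat_lit 53570467) (nat_lit 456) (nat_lit 11428692767) (nat_lit 76) (nat_lit 332822138) (nat_lit 76) (nat_lit 5) (nat_lit 82) (nat_lit 5) (nat_lit 77) (nat_lit 5) (nat_lit 288) (nat_lit 273) (nat_lit 219)) (XT.lf (nat_lit 0) (nat_lit 1779322584) (nat_lit 456) (nat_lit 5401266910) (nat_lit 76) (nat_lit 4946237995) (nat_lit 76) (nat_lit 5) (nat_lit 82) (nat_lit 5) (nat_lit 77) (nat_lit 5) (nat_lit 289) (nat_lit 273) (nat_lit 218))))) (XT.nd (nat_lit 156) (nat_lit 608) (nat_lit 0) (XT.nd (nat_lit 78) (nat_lit 0) (nat_lit 0) (XT.lf (nat_lit 0) (nat_lit 921278330) (nat_lit 304) (nat_lit 2650032058) (nat_lit 380) (nat_lit 8883902892) (nat_lit 72) (nat_lit 5) (nat_lit 76) (nat_lit 5) (nat_lit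 77) (nat_lit 5) (nat_lit 290) (nat_lit 273) (nat_lit 217)) (XT.lf (nat_lit 0) (nat_lit 5545394001) (nat_lit 380) (nat_lit 5119223060) (nat_lit 76) (nat_lit 2130827881) (nat_lit 72) (nat_lit 5) (nat_lit 77) (nat_lit 5) (nat_lit 73) (nat_lit 5) (nat_lit 291) (nat_lit 273) (nat_lit 216))) (XT.nd (nat_lit 78) (nat_lit 304) (nat_lit 0) (XT.lf (nat_lit 0) (nat_lit 1588526509) (nat_lit 304) (nat_lit 6066115769) (nat_lit 380) (nat_lit 5496271840) (nat_lit 68) (nat_lit 5) (nat_lit 72) (nat_lit 5) (nat_lit 73) (nat_lit 5) (nat_lit 292) (nat_lit 273) (nat_lit 215)) (XT.nd (nat_lit 78) (nat_lit 304) (nat_lit 0) (XT.lf (nat_lit 0) (nat_lit 8774859978) (nat_lit 304) (nat_lit 1150379889) (nat_lit 380) (nat_lit 3596169165) (nat_lit 68) (nat_lit 5) (nat_lit 72) (nat_lit 5) (nat_lit 73) (nat_lit 5) (nat_lit 293) (nat_lit 273) (nat_lit 214)) (XT.lf (nat_lit 0) (nat_lit 2389594931) (nat_lit 304) (nat_lit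 9990308019) (nat_lit 380) (nat_lit 1527043364) (nat_lit 64) (nat_lit 5) (nat_lit 68) (nat_lit 5) (nat_lit 69) (nat_lit 5) (nat_lit 294) (nat_lit 273) (nat_lit 213)))))) (XT.nd (nat_lit 390) (nat_lit 760) (nat_lit 0) (XT.nd (nat_lit 156) (nat_lit 228) (nat_lit 0) (XT.nd (nat_lit 78) (nat_lit 304) (nat_lit 0) (XT.lf (nat_lit 0) (nat_lit 696404982) (nat_lit 380) (nat_lit 4325450392) (nat_lit 76) (nat_lit 9285865050) (nat_lit 63) (nat_lit 5) (nat_lit 68) (nat_lit 5) (nat_lit 64) (nat_lit 5) (nat_lit 295) (nat_lit 273) (nat_lit 212)) (XT.lf (nat_lit 0) (nat_lit 3007357651) (nat_lit 380) (nat_lit 11457731423) (nat_lit 76) (nat_lit 260848320) (nat_lit 59) (nat_lit 5) (nat_lit 64) (nat_lit 5) (nat_lit 60) (nat_lit 5) (nat_lit 296) (nat_lit 273) (nat_lit 211))) (XT.nd (nat_lit 78) (nat_lit 228) (nat_lit 0) (XT.lf (nat_lit 0) (nat_lit 5563704377) (nat_lit 380) (nat_lit 3887101325) (nat_lit 76)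 (nat_lit 5707803720) (nat_lit 59) (nat_lit 5) (nat_lit 64) (nat_lit 5) (nat_lit 60) (nat_lit 5) (nat_lit 297) (nat_lit 273) (nat_lit 210)) (XT.nd (nat_lit 78) (nat_lit 0) (nat_lit 0) (XT.lf (nat_lit 0) (nat_lit 4163029465) (nat_lit 228) (nat_lit 4124184531) (nat_lit 304) (nat_lit 7323768567) (nat_lit 56) (nat_lit 5) (nat_lit 59) (nat_lit 5) (nat_lit 60) (nat_lit 5) (nat_lit 298) (nat_lit 273) (nat_lit 209)) (XT.lf (nat_lit 0) (nat_lit 11211707919) (nat_lit 304) (nat_lit 3389001452) (nat_lit 76) (nat_lit 1482057686) (nat_lit 56) (nat_lit 5) (nat_lit 60) (nat_lit 5) (nat_lit 57) (nat_lit 5) (nat_lit 299) (nat_lit 273) (nat_lit 208))))) (XT.nd (nat_lit 234) (nat_lit 228) (nat_lit 0) (XT.nd (nat_lit 78) (nat_lit 304) (nat_lit 0) (XT.lf (nat_lit 0) (nat_lit 5138390687) (nat_lit 228) (nat_lit 9268030223) (nat_lit 304) (nat_lit 2165551703) (nat_lit 53) (nat_lit 5) (nat_lit 56) (nat_lit 5) (nat_lit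 57) (nat_lit 5) (nat_lit 300) (nat_lit 273) (nat_lit 207)) (XT.nd (nat_lit 78) (nat_lit 228) (nat_lit 0) (XT.lf (nat_lit 0) (nat_lit 688359220) (nat_lit 304) (nat_lit 2916102078) (nat_lit 76) (nat_lit 13478941672) (nat_lit 52) (nat_lit 5) (nat_lit 56) (nat_lit 5) (nat_lit 53) (nat_lit 5) (nat_lit 301) (nat_lit 273) (nat_lit 206)) (XT.lf (nat_lit 0) (nat_lit 3724479815) (nat_lit 304) (nat_lit 11494866126) (nat_lit 76) (nat_lit 2393696577) (nat_lit 49) (nat_lit 5) (nat_lit 53) (nat_lit 5) (nat_lit 50) (nat_lit 5) (nat_lit 302) (nat_lit 273) (nat_lit 205)))) (XT.nd (nat_lit 78) (nat_lit 228) (nat_lit 0) (XT.lf (nat_lit 0) (nat_lit 6999704319) (nat_lit 304) (nat_lit 2551849132) (nat_lit 76) (nat_lit 8613271662) (nat_lit 49) (nat_lit 5) (nat_lit 53) (nat_lit 5) (nat_lit 50) (nat_lit 5) (nat_lit 303) (nat_lit 273) (nat_lit 204)) (XT.nd (nat_lit 78) (nat_lit 0) (nat_lit 0) (XT.lf (nat_lit 0)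 (nat_lit 7034254495) (nat_lit 228) (nat_lit 3493320120) (nat_lit 304) (nat_lit 8212202719) (nat_lit 46) (nat_lit 5) (nat_lit 49) (nat_lit 5) (nat_lit 50) (nat_lit 5) (nat_lit 304) (nat_lit 273) (nat_lit 203)) (XT.lf (nat_lit 0) (nat_lit 14300016913) (nat_lit 304) (nat_lit 2228187963) (nat_lit 76) (nat_lit 2811886913) (nat_lit 46) (nat_lit 5) (nat_lit 50) (nat_lit 5) (nat_lit 47) (nat_lit 5) (nat_lit 305) (nat_lit 273) (nat_lit 202))))))))
noncomputable def xc145 : XT := (XT.nd (nat_lit 1560) (nat_lit 836) (nat_lit 0) (XT.nd (nat_lit 780) (nat_lit 836) (nat_lit 0) (XT.nd (nat_lit 390) (nat_lit 380) (nat_lit 0) (XT.nd (nat_lit 156) (nat_lit 380) (nat_lit 0) (XT.nd (nat_lit 78) (nat_lit 76) (nat_lit 0) (XT.lf (nat_lit 0) (nat_lit 7890042336) (nat_lit 152) (nat_lit 10531947853) (nat_lit 228) (nat_lit 1540408762) (nat_lit 44) (nat_lit 5) (nat_lit 46) (nat_lit 5) (nat_lit 47) (nat_lit 5) (nat_lit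 306) (nat_lit 273) (nat_lit 201)) (XT.lf (nat_lit 0) (nat_lit 2084905379) (nat_lit 228) (nat_lit 2084773140) (nat_lit 76) (nat_lit 16443548532) (nat_lit 43) (nat_lit 5) (nat_lit 46) (nat_lit 5) (nat_lit 44) (nat_lit 5) (nat_lit 307) (nat_lit 273) (nat_lit 200))) (XT.nd (nat_lit 78) (nat_lit 152) (nat_lit 0) (XT.lf (nat_lit 0) (nat_lit 5997621158) (nat_lit 304) (nat_lit 12705293771) (nat_lit 76) (nat_lit 2584543182) (nat_lit 40) (nat_lit 5) (nat_lit 44) (nat_lit 5) (nat_lit 41) (nat_lit 5) (nat_lit 308) (nat_lit 273) (nat_lit 199)) (XT.nd (nat_lit 78) (nat_lit 152) (nat_lit 0) (XT.lf (nat_lit 0) (nat_lit 10192083859) (nat_lit 304) (nat_lit 2235174315) (nat_lit 76) (nat_lit 9563855443) (nat_lit 40) (nat_lit 5) (nat_lit 44) (nat_lit 5) (nat_lit 41) (nat_lit 5) (nat_lit 309) (nat_lit 273) (nat_lit 198)) (XT.lf (nat_lit 0) (nat_lit 9021055462) (nat_lit 152) (nat_lit 5698791817) (nat_lit 228)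 (nat_lit 8003943313) (nat_lit 38) (nat_lit 5) (nat_lit 40) (nat_lit 5) (nat_lit 41) (nat_lit 5) (nat_lit 310) (nat_lit 273) (nat_lit 197))))) (XT.nd (nat_lit 156) (nat_lit 152) (nat_lit 0) (XT.nd (nat_lit 78) (nat_lit 228) (nat_lit 0) (XT.lf (nat_lit 0) (nat_lit 19516818003) (nat_lit 228) (nat_lit 2621886041) (nat_lit 76) (nat_lit 1352273149) (nat_lit 38) (nat_lit 5) (nat_lit 41) (nat_lit 5) (nat_lit 39) (nat_lit 5) (nat_lit 311) (nat_lit 273) (nat_lit 196)) (XT.lf (nat_lit 0) (nat_lit 473193679) (nat_lit 228) (nat_lit 15104630411) (nat_lit 76) (nat_lit 8707298061) (nat_lit 35) (nat_lit 5) (nat_lit 38) (nat_lit 5) (nat_lit 36) (nat_lit 5) (nat_lit 312) (nat_lit 273) (nat_lit 195))) (XT.nd (nat_lit 78) (nat_lit 152) (nat_lit 0) (XT.lf (nat_lit 0) (nat_lit 5038422254) (nat_lit 228) (nat_lit 3543924364) (nat_lit 76) (nat_lit 16531931394) (nat_lit 35) (nat_lit 5) (nat_lit 38) (nat_lit 5)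 (nat_lit 36) (nat_lit 5) (nat_lit 313) (nat_lit 273) (nat_lit 194)) (XT.nd (nat_lit 78) (nat_lit 0) (nat_lit 0) (XT.lf (nat_lit 0) (nat_lit 8854102155) (nat_lit 152) (nat_lit 1100747490) (nat_lit 228) (nat_lit 16023908919) (nat_lit 33) (nat_lit 5) (nat_lit 35) (nat_lit 5) (nat_lit 36) (nat_lit 5) (nat_lit 314) (nat_lit 273) (nat_lit 193)) (XT.lf (nat_lit 0) (nat_lit 15268485246) (nat_lit 228) (nat_lit 5019178415) (nat_lit 76) (nat_lit 6591243254) (nat_lit 33) (nat_lit 5) (nat_lit 36) (nat_lit 5) (nat_lit 34) (nat_lit 5) (nat_lit 315) (nat_lit 273) (nat_lit 192)))))) (XT.nd (nat_lit 390) (nat_lit 304) (nat_lit 0) (XT.nd (nat_lit 156) (nat_lit 380) (nat_lit 0) (XT.nd (nat_lit 78) (nat_lit 0) (nat_lit 0) (XT.lf (nat_lit 0) (nat_lit 7903306545) (nat_lit 152) (nat_lit 13071573361) (nat_lit 228) (nat_lit 6842841401) (nat_lit 31) (nat_lit 5) (nat_lit 33) (nat_lit 5) (nat_lit 34) (nat_lit 5)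 (nat_lit 316) (nat_lit 273) (nat_lit 191)) (XT.lf (nat_lit 0) (nat_lit 21623367059) (nat_lit 152) (nat_lit 5414196743) (nat_lit 228) (nat_lit 1762376035) (nat_lit 31) (nat_lit 5) (nat_lit 33) (nat_lit 5) (nat_lit 34) (nat_lit 5) (nat_lit 317) (nat_lit 273) (nat_lit 190))) (XT.nd (nat_lit 78) (nat_lit 152) (nat_lit 0) (XT.lf (nat_lit 0) (nat_lit 3586299751) (nat_lit 228) (nat_lit 23545059268) (nat_lit 76) (nat_lit 2690706674) (nat_lit 28) (nat_lit 5) (nat_lit 31) (nat_lit 5) (nat_lit 29) (nat_lit 5) (nat_lit 318) (nat_lit 273) (nat_lit 189)) (XT.nd (nat_lit 78) (nat_lit 152) (nat_lit 0) (XT.lf (nat_lit 0) (nat_lit 9342049366) (nat_lit 228) (nat_lit 10378804491) (nat_lit 76) (nat_lit 11163066316) (nat_lit 28) (nat_lit 5) (nat_lit 31) (nat_lit 5) (nat_lit 29) (nat_lit 5) (nat_lit 319) (nat_lit 273) (nat_lit 188)) (XT.lf (nat_lit 0) (nat_lit 3537694774) (nat_lit 152) (nat_lit 11890343051)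 (nat_lit 228) (nat_lit 16568716770) (nat_lit 26) (nat_lit 5) (nat_lit 28) (nat_lit 5) (nat_lit 29) (nat_lit 5) (nat_lit 320) (nat_lit 273) (nat_lit 187))))) (XT.nd (nat_lit 156) (nat_lit 304) (nat_lit 0) (XT.nd (nat_lit 78) (nat_lit 0) (nat_lit 0) (XT.lf (nat_lit 0) (nat_lit 18489394577) (nat_lit 152) (nat_lit 3492200770) (nat_lit 228) (nat_lit 11175481227) (nat_lit 26) (nat_lit 5) (nat_lit 28) (nat_lit 5) (nat_lit 29) (nat_lit 5) (nat_lit 321) (nat_lit 273) (nat_lit 186)) (XT.lf (nat_lit 0) (nat_lit 28933951305) (nat_lit 228) (nat_lit 290320471) (nat_lit 76) (nat_lit 5147595724) (nat_lit 26) (nat_lit 5) (nat_lit 29) (nat_lit 5) (nat_lit 27) (nat_lit 4) (nat_lit 322) (nat_lit 273) (nat_lit 185))) (XT.nd (nat_lit 78) (nat_lit 152) (nat_lit 0) (XT.lf (nat_lit 0) (nat_lit 855750562) (nat_lit 152) (nat_lit 20430827851) (nat_lit 76) (nat_lit 14345969942) (nat_lit 24) (nat_lit 5) (nat_lit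 26) (nat_lit 5) (nat_lit 25) (nat_lit 5) (nat_lit 323) (nat_lit 273) (nat_lit 184)) (XT.nd (nat_lit 78) (nat_lit 152) (nat_lit 0) (XT.lf (nat_lit 0) (nat_lit 7274945467) (nat_lit 152) (nat_lit 5586332928) (nat_lit 76) (nat_lit 24090855493) (nat_lit 24) (nat_lit 5) (nat_lit 26) (nat_lit 5) (nat_lit 25) (nat_lit 5) (nat_lit 324) (nat_lit 273) (nat_lit 183)) (XT.lf (nat_lit 0) (nat_lit 10311828171) (nat_lit 152) (nat_lit 3853408609) (nat_lit 228) (nat_lit 24164962386) (nat_lit 22) (nat_lit 5) (nat_lit 24) (nat_lit 5) (nat_lit 25) (nat_lit 5) (nat_lit 325) (nat_lit 273) (nat_lit 182))))))) (XT.nd (nat_lit 780) (nat_lit 380) (nat_lit 0) (XT.nd (nat_lit 390) (nat_lit 152) (nat_lit 0) (XT.nd (nat_lit 156) (nat_lit 228) (nat_lit 0) (XT.nd (nat_lit 78) (nat_lit 76) (nat_lit 0) (XT.lf (nat_lit 0) (nat_lit 21572960067) (nat_lit 228) (nat_lit 12681373609) (nat_lit 76) (nat_lit 5514195114) (nat_lit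 22) (nat_lit 5) (nat_lit 25) (nat_lit 5) (nat_lit 23) (nat_lit 4) (nat_lit 326) (nat_lit 273) (nat_lit 181)) (XT.lf (nat_lit 0) (nat_lit 3451958650) (nat_lit 76) (nat_lit 26005939802) (nat_lit 152) (nat_lit 11815541621) (nat_lit 21) (nat_lit 5) (nat_lit 22) (nat_lit 5) (nat_lit 23) (nat_lit 4) (nat_lit 327) (nat_lit 273) (nat_lit 180))) (XT.nd (nat_lit 78) (nat_lit 228) (nat_lit 0) (XT.lf (nat_lit 0) (nat_lit 20814685141) (nat_lit 76) (nat_lit 17127140951) (nat_lit 152) (nat_lit 4901540018) (nat_lit 21) (nat_lit 5) (nat_lit 22) (nat_lit 5) (nat_lit 23) (nat_lit 4) (nat_lit 328) (nat_lit 273) (nat_lit 179)) (XT.nd (nat_lit 78) (nat_lit 152) (nat_lit 0) (XT.lf (nat_lit 0) (nat_lit 2272977880) (nat_lit 152) (nat_lit 5500090465) (nat_lit 76) (nat_lit 36717370344) (nat_lit 20) (nat_lit 5) (nat_lit 22) (nat_lit 5) (nat_lit 21) (nat_lit 5) (nat_lit 329) (nat_lit 273) (nat_lit 178)) (XT.lf (nat_lit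 0) (nat_lit 9858206528) (nat_lit 228) (nat_lit 34095996499) (nat_lit 76) (nat_lit 2250814225) (nat_lit 18) (nat_lit 5) (nat_lit 21) (nat_lit 5) (nat_lit 19) (nat_lit 4) (nat_lit 330) (nat_lit 273) (nat_lit 177))))) (XT.nd (nat_lit 156) (nat_lit 76) (nat_lit 0) (XT.nd (nat_lit 78) (nat_lit 76) (nat_lit 0) (XT.lf (nat_lit 0) (nat_lit 18035635324) (nat_lit 228) (nat_lit 17356393357) (nat_lit 76) (nat_lit 12602654314) (nat_lit 18) (nat_lit 5) (nat_lit 21) (nat_lit 5) (nat_lit 19) (nat_lit 4) (nat_lit 331) (nat_lit 273) (nat_lit 176)) (XT.lf (nat_lit 0) (nat_lit 211423618) (nat_lit 76) (nat_lit 26405086835) (nat_lit 152) (nat_lit 23257597772) (nat_lit 17) (nat_lit 5) (nat_lit 18) (nat_lit 5) (nat_lit 19) (nat_lit 4) (nat_lit 332) (nat_lit 273) (nat_lit 175))) (XT.nd (nat_lit 78) (nat_lit 76) (nat_lit 0) (XT.lf (nat_lit 0) (nat_lit 19244923565) (nat_lit 76) (nat_lit 16666895591) (nat_lit 152)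 (nat_lit 15921420775) (nat_lit 17) (nat_lit 5) (nat_lit 18) (nat_lit 5) (nat_lit 19) (nat_lit 4) (nat_lit 333) (nat_lit 273) (nat_lit 174)) (XT.nd (nat_lit 78) (nat_lit 76) (nat_lit 0) (XT.lf (nat_lit 0) (nat_lit 39215543593) (nat_lit 76) (nat_lit 6448207699) (nat_lit 152) (nat_lit 8226988513) (nat_lit 17) (nat_lit 5) (nat_lit 18) (nat_lit 5) (nat_lit 19) (nat_lit 4) (nat_lit 334) (nat_lit 273) (nat_lit 173)) (XT.lf (nat_lit 0) (nat_lit 4186573099) (nat_lit 76) (nat_lit 51841066312) (nat_lit 76) (nat_lit 17261562) (nat_lit 16) (nat_lit 4) (nat_lit 17) (nat_lit 5) (nat_lit 17) (nat_lit 4) (nat_lit 335) (nat_lit 273) (nat_lit 172)))))) (XT.nd (nat_lit 390) (nat_lit 228) (nat_lit 0) (XT.nd (nat_lit 156) (nat_lit 76) (nat_lit 0) (XT.nd (nat_lit 78) (nat_lit 0) (nat_lit 0) (XT.lf (nat_lit 0) (nat_lit 8678094318) (nat_lit 152) (nat_lit 34051714507) (nat_lit 76) (nat_lit 15552724898) (nat_lit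 15) (nat_lit 5) (nat_lit 17) (nat_lit 5) (nat_lit 16) (nat_lit 4) (nat_lit 336) (nat_lit 273) (nat_lit 171)) (XT.lf (nat_lit 0) (nat_lit 17800187039) (nat_lit 152) (nat_lit 15368570249) (nat_lit 76) (nat_lit 27463652905) (nat_lit 15) (nat_lit 5) (nat_lit 17) (nat_lit 5) (nat_lit 16) (nat_lit 4) (nat_lit 337) (nat_lit 273) (nat_lit 170))) (XT.nd (nat_lit 78) (nat_lit 0) (nat_lit 0) (XT.lf (nat_lit 0) (nat_lit 4375914676) (nat_lit 76) (nat_lit 23063693962) (nat_lit 152) (nat_lit 35657114149) (nat_lit 14) (nat_lit 5) (nat_lit 15) (nat_lit 5) (nat_lit 16) (nat_lit 4) (nat_lit 338) (nat_lit 273) (nat_lit 169)) (XT.nd (nat_lit 78) (nat_lit 0) (nat_lit 0) (XT.lf (nat_lit 0) (nat_lit 25628520393) (nat_lit 76) (nat_lit 12185799212) (nat_lit 152) (nat_lit 27857268836) (nat_lit 14) (nat_lit 5) (nat_lit 15) (nat_lit 5) (nat_lit 16) (nat_lit 4) (nat_lit 339) (nat_lit 273) (nat_lit 168)) (XT.lf (nat_lit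 0) (nat_lit 47931694003) (nat_lit 76) (nat_lit 769447462) (nat_lit 152) (nat_lit 19674390330) (nat_lit 14) (nat_lit 5) (nat_lit 15) (nat_lit 5) (nat_lit 16) (nat_lit 4) (nat_lit 340) (nat_lit 273) (nat_lit 167))))) (XT.nd (nat_lit 234) (nat_lit 76) (nat_lit 0) (XT.nd (nat_lit 78) (nat_lit 152) (nat_lit 0) (XT.lf (nat_lit 0) (nat_lit 60301054446) (nat_lit 152) (nat_lit 51511731) (nat_lit 0) (nat_lit 10853671674) (nat_lit 14) (nat_lit 5) (nat_lit 16) (nat_lit 4) (nat_lit 14) (nat_lit 4) (nat_lit 341) (nat_lit 273) (nat_lit 166)) (XT.nd (nat_lit 78) (nat_lit 76) (nat_lit 0) (XT.lf (nat_lit 0) (nat_lit 22042135464) (nat_lit 76) (nat_lit 50789495249) (nat_lit 76) (nat_lit 1329318002) (nat_lit 13) (nat_lit 4) (nat_lit 14) (nat_lit 5) (nat_lit 14) (nat_lit 4) (nat_lit 342) (nat_lit 273) (nat_lit 165)) (XT.lf (nat_lit 0) (nat_lit 8440893959) (nat_lit 152) (nat_lit 32168529843) (nat_lit 76) (nat_lit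 36647421657) (nat_lit 12) (nat_lit 5) (nat_lit 14) (nat_lit 5) (nat_lit 13) (nat_lit 4) (nat_lit 343) (nat_lit 273) (nat_lit 164)))) (XT.nd (nat_lit 78) (nat_lit 76) (nat_lit 0) (XT.lf (nat_lit 0) (nat_lit 18649163675) (nat_lit 152) (nat_lit 11253181892) (nat_lit 76) (nat_lit 50604393318) (nat_lit 12) (nat_lit 5) (nat_lit 14) (nat_lit 5) (nat_lit 13) (nat_lit 4) (nat_lit 344) (nat_lit 273) (nat_lit 163)) (XT.nd (nat_lit 78) (nat_lit 0) (nat_lit 0) (XT.lf (nat_lit 0) (nat_lit 11051500460) (nat_lit 76) (nat_lit 18483387459) (nat_lit 152) (nat_lit 54375889387) (nat_lit 11) (nat_lit 5) (nat_lit 12) (nat_lit 5) (nat_lit 13) (nat_lit 4) (nat_lit 345) (nat_lit 273) (nat_lit 162)) (XT.lf (nat_lit 0) (nat_lit 34852115677) (nat_lit 76) (nat_lit 6297963102) (nat_lit 152) (nat_lit 46325682112) (nat_lit 11) (nat_lit 5) (nat_lit 12) (nat_lit 5) (nat_lit 13) (nat_lit 4) (nat_lit 346) (nat_lit 273)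 (nat_lit 161))))))))
noncomputable def xc146 : XT := (XT.nd (nat_lit 1560) (nat_lit 228) (nat_lit 0) (XT.nd (nat_lit 780) (nat_lit 228) (nat_lit 0) (XT.nd (nat_lit 390) (nat_lit 76) (nat_lit 0) (XT.nd (nat_lit 156) (nat_lit 152) (nat_lit 0) (XT.nd (nat_lit 78) (nat_lit 0) (nat_lit 0) (XT.lf (nat_lit 0) (nat_lit 53442252509) (nat_lit 152) (nat_lit 31487365939) (nat_lit 0) (nat_lit 6284566197) (nat_lit 11) (nat_lit 5) (nat_lit 13) (nat_lit 4) (nat_lit 11) (nat_lit 4) (nat_lit 347) (nat_lit 273) (nat_lit 160)) (XT.lf (nat_lit 0) (nat_lit 66447319389) (nat_lit 152) (nat_lit 9406757747) (nat_lit 0) (nat_lit 19280540283) (nat_lit 11) (nat_lit 5) (nat_lit 13) (nat_lit 4) (nat_lit 11) (nat_lit 4) (nat_lit 348) (nat_lit 273) (nat_lit 159))) (XT.nd (nat_lit 78) (nat_lit 76) (nat_lit 0) (XT.lf (nat_lit 0) (nat_lit 14224349095) (nat_lit 76) (nat_lit 66095647867) (nat_lit 76) (nat_lit 18920208956)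 (nat_lit 10) (nat_lit 4) (nat_lit 11) (nat_lit 5) (nat_lit 11) (nat_lit 4) (nat_lit 349) (nat_lit 273) (nat_lit 158)) (XT.nd (nat_lit 78) (nat_lit 76) (nat_lit 0) (XT.lf (nat_lit 0) (nat_lit 39354934839) (nat_lit 76) (nat_lit 55686046775) (nat_lit 76) (nat_lit 8502360432) (nat_lit 10) (nat_lit 4) (nat_lit 11) (nat_lit 5) (nat_lit 11) (nat_lit 4) (nat_lit 350) (nat_lit 273) (nat_lit 157)) (XT.lf (nat_lit 0) (nat_lit 2353912956) (nat_lit 152) (nat_lit 42366019480) (nat_lit 76) (nat_lit 63340026705) (nat_lit 9) (nat_lit 5) (nat_lit 11) (nat_lit 5) (nat_lit 10) (nat_lit 4) (nat_lit 351) (nat_lit 273) (nat_lit 156))))) (XT.nd (nat_lit 156) (nat_lit 0) (nat_lit 0) (XT.nd (nat_lit 78) (nat_lit 76) (nat_lit 0) (XT.lf (nat_lit 0) (nat_lit 13462990503) (nat_lit 152) (nat_lit 19599891172) (nat_lit 76) (nat_lit 79732771599) (nat_lit 9) (nat_lit 5) (nat_lit 11) (nat_lit 5) (nat_lit 10) (nat_lit 4)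 (nat_lit 352) (nat_lit 273) (nat_lit 155)) (XT.lf (nat_lit 0) (nat_lit 4439004316) (nat_lit 76) (nat_lit 20753752007) (nat_lit 152) (nat_lit 92572115604) (nat_lit 8) (nat_lit 5) (nat_lit 9) (nat_lit 5) (nat_lit 10) (nat_lit 4) (nat_lit 353) (nat_lit 273) (nat_lit 154))) (XT.nd (nat_lit 78) (nat_lit 0) (nat_lit 0) (XT.lf (nat_lit 0) (nat_lit 30352816274) (nat_lit 76) (nat_lit 7484133776) (nat_lit 152) (nat_lit 85129205940) (nat_lit 8) (nat_lit 5) (nat_lit 9) (nat_lit 5) (nat_lit 10) (nat_lit 4) (nat_lit 354) (nat_lit 273) (nat_lit 153)) (XT.nd (nat_lit 78) (nat_lit 0) (nat_lit 0) (XT.lf (nat_lit 0) (nat_lit 51210184037) (nat_lit 152) (nat_lit 70973146911) (nat_lit 0) (nat_lit 6239333170) (nat_lit 8) (nat_lit 5) (nat_lit 10) (nat_lit 4) (nat_lit 8) (nat_lit 4) (nat_lit 355) (nat_lit 273) (nat_lit 152)) (XT.lf (nat_lit 0) (nat_lit 65371098202) (nat_lit 152) (nat_lit 48380563811) (nat_lit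 0) (nat_lit 20394386039) (nat_lit 8) (nat_lit 5) (nat_lit 10) (nat_lit 4) (nat_lit 8) (nat_lit 4) (nat_lit 356) (nat_lit 273) (nat_lit 151)))))) (XT.nd (nat_lit 390) (nat_lit 152) (nat_lit 0) (XT.nd (nat_lit 156) (nat_lit 0) (nat_lit 0) (XT.nd (nat_lit 78) (nat_lit 76) (nat_lit 0) (XT.lf (nat_lit 0) (nat_lit 80236560706) (nat_lit 152) (nat_lit 24664950251) (nat_lit 0) (nat_lit 35254266356) (nat_lit 8) (nat_lit 5) (nat_lit 10) (nat_lit 4) (nat_lit 8) (nat_lit 4) (nat_lit 357) (nat_lit 273) (nat_lit 150)) (XT.lf (nat_lit 0) (nat_lit 237769630) (nat_lit 76) (nat_lit 95607908127) (nat_lit 76) (nat_lit 50620297408) (nat_lit 7) (nat_lit 4) (nat_lit 8) (nat_lit 5) (nat_lit 8) (nat_lit 4) (nat_lit 358) (nat_lit 273) (nat_lit 149))) (XT.nd (nat_lit 78) (nat_lit 0) (nat_lit 0) (XT.lf (nat_lit 0) (nat_lit 27235753775) (nat_lit 76) (nat_lit 85413941000) (nat_lit 76) (nat_lit 40421267073) (nat_lit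 7) (nat_lit 4) (nat_lit 8) (nat_lit 5) (nat_lit 8) (nat_lit 4) (nat_lit 359) (nat_lit 273) (nat_lit 148)) (XT.nd (nat_lit 78) (nat_lit 0) (nat_lit 0) (XT.lf (nat_lit 0) (nat_lit 55577748453) (nat_lit 76) (nat_lit 74713051093) (nat_lit 76) (nat_lit 29715555063) (nat_lit 7) (nat_lit 4) (nat_lit 8) (nat_lit 5) (nat_lit 8) (nat_lit 4) (nat_lit 360) (nat_lit 273) (nat_lit 147)) (XT.lf (nat_lit 0) (nat_lit 85331234604) (nat_lit 76) (nat_lit 63479760097) (nat_lit 76) (nat_lit 18477671588) (nat_lit 7) (nat_lit 4) (nat_lit 8) (nat_lit 5) (nat_lit 8) (nat_lit 4) (nat_lit 361) (nat_lit 273) (nat_lit 146))))) (XT.nd (nat_lit 156) (nat_lit 76) (nat_lit 0) (XT.nd (nat_lit 78) (nat_lit 76) (nat_lit 0) (XT.lf (nat_lit 0) (nat_lit 116567053861) (nat_lit 76) (nat_lit 51687322080) (nat_lit 76) (nat_lit 6680859782) (nat_lit 7) (nat_lit 4) (nat_lit 8) (nat_lit 5) (nat_lit 8) (nat_lit 4) (nat_lit 362) (nat_lit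 273) (nat_lit 145)) (XT.lf (nat_lit 0) (nat_lit 5520437410) (nat_lit 152) (nat_lit 33693731121) (nat_lit 76) (nat_lit 143745648534) (nat_lit 6) (nat_lit 5) (nat_lit 8) (nat_lit 5) (nat_lit 7) (nat_lit 4) (nat_lit 363) (nat_lit 273) (nat_lit 144))) (XT.nd (nat_lit 78) (nat_lit 76) (nat_lit 0) (XT.lf (nat_lit 0) (nat_lit 18104674757) (nat_lit 152) (nat_lit 7900011715) (nat_lit 76) (nat_lit 165375595940) (nat_lit 6) (nat_lit 5) (nat_lit 8) (nat_lit 5) (nat_lit 7) (nat_lit 4) (nat_lit 364) (nat_lit 273) (nat_lit 143)) (XT.nd (nat_lit 78) (nat_lit 0) (nat_lit 0) (XT.lf (nat_lit 0) (nat_lit 19812831251) (nat_lit 76) (nat_lit 11812146535) (nat_lit 152) (nat_lit 168581451363) (nat_lit 5) (nat_lit 5) (nat_lit 6) (nat_lit 5) (nat_lit 7) (nat_lit 4) (nat_lit 365) (nat_lit 273) (nat_lit 142)) (XT.lf (nat_lit 0) (nat_lit 46003055453) (nat_lit 152) (nat_lit 160336753250) (nat_lit 0) (nat_lit 3124987320)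 (nat_lit 5) (nat_lit 5) (nat_lit 7) (nat_lit 4) (nat_lit 5) (nat_lit 4) (nat_lit 366) (nat_lit 273) (nat_lit 141))))))) (XT.nd (nat_lit 780) (nat_lit 152) (nat_lit 0) (XT.nd (nat_lit 390) (nat_lit 76) (nat_lit 0) (XT.nd (nat_lit 156) (nat_lit 0) (nat_lit 0) (XT.nd (nat_lit 78) (nat_lit 0) (nat_lit 0) (XT.lf (nat_lit 0) (nat_lit 61291328081) (nat_lit 152) (nat_lit 139475193185) (nat_lit 0) (nat_lit 18409996158) (nat_lit 5) (nat_lit 5) (nat_lit 7) (nat_lit 4) (nat_lit 5) (nat_lit 4) (nat_lit 367) (nat_lit 273) (nat_lit 140)) (XT.lf (nat_lit 0) (nat_lit 77341775608) (nat_lit 152) (nat_lit 117574826610) (nat_lit 0) (nat_lit 34457335315) (nat_lit 5) (nat_lit 5) (nat_lit 7) (nat_lit 4) (nat_lit 5) (nat_lit 4) (nat_lit 368) (nat_lit 273) (nat_lit 139))) (XT.nd (nat_lit 78) (nat_lit 0) (nat_lit 0) (XT.lf (nat_lit 0) (nat_lit 94192613386) (nat_lit 152) (nat_lit 94583509795) (nat_lit 0) (nat_lit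 51305212740) (nat_lit 5) (nat_lit 5) (nat_lit 7) (nat_lit 4) (nat_lit 5) (nat_lit 4) (nat_lit 369) (nat_lit 273) (nat_lit 138)) (XT.nd (nat_lit 78) (nat_lit 0) (nat_lit 0) (XT.lf (nat_lit 0) (nat_lit 111883962458) (nat_lit 152) (nat_lit 70446501511) (nat_lit 0) (nat_lit 68993742428) (nat_lit 5) (nat_lit 5) (nat_lit 7) (nat_lit 4) (nat_lit 5) (nat_lit 4) (nat_lit 370) (nat_lit 273) (nat_lit 137)) (XT.lf (nat_lit 0) (nat_lit 130457945082) (nat_lit 152) (nat_lit 45106332690) (nat_lit 0) (nat_lit 87565039925) (nat_lit 5) (nat_lit 5) (nat_lit 7) (nat_lit 4) (nat_lit 5) (nat_lit 4) (nat_lit 371) (nat_lit 273) (nat_lit 136))))) (XT.nd (nat_lit 156) (nat_lit 0) (nat_lit 0) (XT.nd (nat_lit 78) (nat_lit 76) (nat_lit 0) (XT.lf (nat_lit 0) (nat_lit 149958785028) (nat_lit 152) (nat_lit 18502669596) (nat_lit 0) (nat_lit 107063322606) (nat_lit 5) (nat_lit 5) (nat_lit 7) (nat_lit 4) (nat_lit 5) (nat_lit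 4) (nat_lit 372) (nat_lit 273) (nat_lit 135)) (XT.lf (nat_lit 0) (nat_lit 9739556455) (nat_lit 76) (nat_lit 160845418182) (nat_lit 76) (nat_lit 117947520270) (nat_lit 4) (nat_lit 4) (nat_lit 5) (nat_lit 5) (nat_lit 5) (nat_lit 4) (nat_lit 373) (nat_lit 273) (nat_lit 134))) (XT.nd (nat_lit 78) (nat_lit 0) (nat_lit 0) (XT.lf (nat_lit 0) (nat_lit 40032971873) (nat_lit 76) (nat_lit 152521131530) (nat_lit 76) (nat_lit 109620914105) (nat_lit 4) (nat_lit 4) (nat_lit 5) (nat_lit 5) (nat_lit 5) (nat_lit 4) (nat_lit 374) (nat_lit 273) (nat_lit 133)) (XT.nd (nat_lit 78) (nat_lit 0) (nat_lit 0) (XT.lf (nat_lit 0) (nat_lit 71837922017) (nat_lit 76) (nat_lit 143782126603) (nat_lit 76) (nat_lit 100879700117) (nat_lit 4) (nat_lit 4) (nat_lit 5) (nat_lit 5) (nat_lit 5) (nat_lit 4) (nat_lit 375) (nat_lit 273) (nat_lit 132)) (XT.lf (nat_lit 0) (nat_lit 105230132960) (nat_lit 76) (nat_lit 134607596246)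 (nat_lit 76) (nat_lit 91703065892) (nat_lit 4) (nat_lit 4) (nat_lit 5) (nat_lit 5) (nat_lit 5) (nat_lit 4) (nat_lit 376) (nat_lit 273) (nat_lit 131)))))) (XT.nd (nat_lit 390) (nat_lit 152) (nat_lit 0) (XT.nd (nat_lit 156) (nat_lit 0) (nat_lit 0) (XT.nd (nat_lit 78) (nat_lit 0) (nat_lit 0) (XT.lf (nat_lit 0) (nat_lit 140289109965) (nat_lit 76) (nat_lit 124975696338) (nat_lit 76) (nat_lit 82069162300) (nat_lit 4) (nat_lit 4) (nat_lit 5) (nat_lit 5) (nat_lit 5) (nat_lit 4) (nat_lit 377) (nat_lit 273) (nat_lit 130)) (XT.lf (nat_lit 0) (nat_lit 177098326789) (nat_lit 76) (nat_lit 114863493785) (nat_lit 76) (nat_lit 71955051477) (nat_lit 4) (nat_lit 4) (nat_lit 5) (nat_lit 5) (nat_lit 5) (nat_lit 4) (nat_lit 378) (nat_lit 273) (nat_lit 129))) (XT.nd (nat_lit 78) (nat_lit 0) (nat_lit 0) (XT.lf (nat_lit 0) (nat_lit 215745424422) (nat_lit 76) (nat_lit 104246911913) (nat_lit 76) (nat_lit 61336652206)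 (nat_lit 4) (nat_lit 4) (nat_lit 5) (nat_lit 5) (nat_lit 5) (nat_lit 4) (nat_lit 379) (nat_lit 273) (nat_lit 128)) (XT.nd (nat_lit 78) (nat_lit 0) (nat_lit 0) (XT.lf (nat_lit 0) (nat_lit 256322419765) (nat_lit 76) (nat_lit 93100673148) (nat_lit 76) (nat_lit 50188682584) (nat_lit 4) (nat_lit 4) (nat_lit 5) (nat_lit 5) (nat_lit 5) (nat_lit 4) (nat_lit 380) (nat_lit 273) (nat_lit 127)) (XT.lf (nat_lit 0) (nat_lit 298925924710) (nat_lit 76) (nat_lit 81398238825) (nat_lit 76) (nat_lit 38484599825) (nat_lit 4) (nat_lit 4) (nat_lit 5) (nat_lit 5) (nat_lit 5) (nat_lit 4) (nat_lit 381) (nat_lit 273) (nat_lit 126))))) (XT.nd (nat_lit 234) (nat_lit 76) (nat_lit 0) (XT.nd (nat_lit 78) (nat_lit 76) (nat_lit 0) (XT.lf (nat_lit 0) (nat_lit 343657376175) (nat_lit 76) (nat_lit 69111746005) (nat_lit 76) (nat_lit 26196537067) (nat_lit 4) (nat_lit 4) (nat_lit 5) (nat_lit 5) (nat_lit 5) (nat_lit 4) (nat_lit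 382) (nat_lit 273) (nat_lit 125)) (XT.nd (nat_lit 78) (nat_lit 76) (nat_lit 0) (XT.lf (nat_lit 0) (nat_lit 390623277615) (nat_lit 76) (nat_lit 56211941135) (nat_lit 76) (nat_lit 13295237018) (nat_lit 4) (nat_lit 4) (nat_lit 5) (nat_lit 5) (nat_lit 5) (nat_lit 4) (nat_lit 383) (nat_lit 273) (nat_lit 124)) (XT.lf (nat_lit 0) (nat_lit 242015576) (nat_lit 152) (nat_lit 42421996165) (nat_lit 76) (nat_lit 439689338377) (nat_lit 3) (nat_lit 5) (nat_lit 5) (nat_lit 5) (nat_lit 4) (nat_lit 4) (nat_lit 384) (nat_lit 273) (nat_lit 123)))) (XT.nd (nat_lit 78) (nat_lit 76) (nat_lit 0) (XT.lf (nat_lit 0) (nat_lit 14008300044) (nat_lit 152) (nat_lit 14202469178) (nat_lit 76) (nat_lit 477465773701) (nat_lit 3) (nat_lit 5) (nat_lit 5) (nat_lit 5) (nat_lit 4) (nat_lit 4) (nat_lit 385) (nat_lit 273) (nat_lit 122)) (XT.nd (nat_lit 78) (nat_lit 0) (nat_lit 0) (XT.lf (nat_lit 0) (nat_lit 15936226849) (nat_lit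 76) (nat_lit 12774506180) (nat_lit 152) (nat_lit 501442770903) (nat_lit 2) (nat_lit 5) (nat_lit 3) (nat_lit 5) (nat_lit 4) (nat_lit 4) (nat_lit 386) (nat_lit 273) (nat_lit 121)) (XT.lf (nat_lit 0) (nat_lit 44445393213) (nat_lit 152) (nat_lit 507826772456) (nat_lit 0) (nat_lit 3567292309) (nat_lit 2) (nat_lit 5) (nat_lit 4) (nat_lit 4) (nat_lit 2) (nat_lit 4) (nat_lit 387) (nat_lit 273) (nat_lit 120))))))))
noncomputable def xc147 : XT := (XT.nd (nat_lit 1638) (nat_lit 2660) (nat_lit 0) (XT.nd (nat_lit 780) (nat_lit 2128) (nat_lit 0) (XT.nd (nat_lit 390) (nat_lit 532) (nat_lit 0) (XT.nd (nat_lit 156) (nat_lit 0) (nat_lit 76) (XT.nd (nat_lit 78) (nat_lit 0) (nat_lit 0) (XT.lf (nat_lit 0) (nat_lit 1533651969) (nat_lit 684) (nat_lit 1420324265) (nat_lit 684) (nat_lit 1420324265) (nat_lit 103) (nat_lit 3) (nat_lit 112) (nat_lit 3) (nat_lit 112) (nat_lit 5) (nat_lit 274) (nat_lit 274) (nat_lit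 232)) (XT.lf (nat_lit 76) (nat_lit 1241465595) (nat_lit 0) (nat_lit 2829918611) (nat_lit 684) (nat_lit 4847809077) (nat_lit 104) (nat_lit 5) (nat_lit 103) (nat_lit 3) (nat_lit 112) (nat_lit 5) (nat_lit 275) (nat_lit 274) (nat_lit 231))) (XT.nd (nat_lit 78) (nat_lit 0) (nat_lit 0) (XT.lf (nat_lit 0) (nat_lit 5122646221) (nat_lit 608) (nat_lit 3511716080) (nat_lit 684) (nat_lit 464216198) (nat_lit 104) (nat_lit 5) (nat_lit 112) (nat_lit 5) (nat_lit 113) (nat_lit 5) (nat_lit 276) (nat_lit 274) (nat_lit 230)) (XT.nd (nat_lit 78) (nat_lit 0) (nat_lit 0) (XT.lf (nat_lit 76) (nat_lit 808709316) (nat_lit 0) (nat_lit 5421356265) (nat_lit 684) (nat_lit 3056794546) (nat_lit 105) (nat_lit 5) (nat_lit 104) (nat_lit 5) (nat_lit 113) (nat_lit 5) (nat_lit 277) (nat_lit 274) (nat_lit 229)) (XT.lf (nat_lit 76) (nat_lit 5434234764) (nat_lit 0) (nat_lit 1964796189) (nat_lit 684) (nat_lit 2085317902) (nat_lit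 105) (nat_lit 5) (nat_lit 104) (nat_lit 5) (nat_lit 113) (nat_lit 5) (nat_lit 278) (nat_lit 274) (nat_lit 228))))) (XT.nd (nat_lit 156) (nat_lit 0) (nat_lit 0) (XT.nd (nat_lit 78) (nat_lit 684) (nat_lit 0) (XT.lf (nat_lit 76) (nat_lit 556945914) (nat_lit 0) (nat_lit 8053727714) (nat_lit 684) (nat_lit 1081923868) (nat_lit 106) (nat_lit 5) (nat_lit 105) (nat_lit 5) (nat_lit 114) (nat_lit 5) (nat_lit 279) (nat_lit 274) (nat_lit 227)) (XT.lf (nat_lit 0) (nat_lit 25008357) (nat_lit 684) (nat_lit 4441137642) (nat_lit 760) (nat_lit 5442599584) (nat_lit 96) (nat_lit 5) (nat_lit 105) (nat_lit 5) (nat_lit 106) (nat_lit 5) (nat_lit 280) (nat_lit 274) (nat_lit 226))) (XT.nd (nat_lit 78) (nat_lit 0) (nat_lit 76) (XT.lf (nat_lit 76) (nat_lit 451101790) (nat_lit 0) (nat_lit 659759998) (nat_lit 760) (nat_lit 9026039476) (nat_lit 97) (nat_lit 5) (nat_lit 96) (nat_lit 5) (nat_lit 106) (nat_lit 5) (nat_lit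 281) (nat_lit 274) (nat_lit 225)) (XT.nd (nat_lit 78) (nat_lit 0) (nat_lit 0) (XT.lf (nat_lit 0) (nat_lit 2334360578) (nat_lit 684) (nat_lit 4719594691) (nat_lit 760) (nat_lit 3318421567) (nat_lit 97) (nat_lit 5) (nat_lit 106) (nat_lit 5) (nat_lit 107) (nat_lit 5) (nat_lit 282) (nat_lit 274) (nat_lit 224)) (XT.lf (nat_lit 76) (nat_lit 464989048) (nat_lit 0) (nat_lit 3129080594) (nat_lit 760) (nat_lit 7026880724) (nat_lit 98) (nat_lit 5) (nat_lit 97) (nat_lit 5) (nat_lit 107) (nat_lit 5) (nat_lit 283) (nat_lit 274) (nat_lit 223)))))) (XT.nd (nat_lit 390) (nat_lit 1064) (nat_lit 0) (XT.nd (nat_lit 156) (nat_lit 532) (nat_lit 0) (XT.nd (nat_lit 78) (nat_lit 684) (nat_lit 0) (XT.lf (nat_lit 0) (nat_lit 4972104567) (nat_lit 684) (nat_lit 4857822894) (nat_lit 76) (nat_lit 1049330418) (nat_lit 98) (nat_lit 5) (nat_lit 107) (nat_lit 5) (nat_lit 99) (nat_lit 5) (nat_lit 284) (nat_lit 274) (nat_lit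 222)) (XT.lf (nat_lit 0) (nat_lit 640400380) (nat_lit 684) (nat_lit 5800519508) (nat_lit 760) (nat_lit 4708535832) (nat_lit 89) (nat_lit 5) (nat_lit 98) (nat_lit 5) (nat_lit 99) (nat_lit 5) (nat_lit 285) (nat_lit 274) (nat_lit 221))) (XT.nd (nat_lit 78) (nat_lit 532) (nat_lit 0) (XT.lf (nat_lit 0) (nat_lit 6548713732) (nat_lit 684) (nat_lit 1478669970) (nat_lit 760) (nat_lit 3403634967) (nat_lit 89) (nat_lit 5) (nat_lit 98) (nat_lit 5) (nat_lit 99) (nat_lit 5) (nat_lit 286) (nat_lit 274) (nat_lit 220)) (XT.nd (nat_lit 78) (nat_lit 0) (nat_lit 0) (XT.lf (nat_lit 0) (nat_lit 975415651) (nat_lit 532) (nat_lit 8744566675) (nat_lit 608) (nat_lit 2005399340) (nat_lit 82) (nat_lit 5) (nat_lit 89) (nat_lit 5) (nat_lit 90) (nat_lit 5) (nat_lit 287) (nat_lit 274) (nat_lit 219)) (XT.lf (nat_lit 0) (nat_lit 7237205500) (nat_lit 532) (nat_lit 4331561291) (nat_lit 608) (nat_lit 462177731) (nat_lit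 82) (nat_lit 5) (nat_lit 89) (nat_lit 5) (nat_lit 90) (nat_lit 5) (nat_lit 288) (nat_lit 274) (nat_lit 218))))) (XT.nd (nat_lit 234) (nat_lit 304) (nat_lit 0) (XT.nd (nat_lit 78) (nat_lit 304) (nat_lit 0) (XT.lf (nat_lit 0) (nat_lit 1115355382) (nat_lit 456) (nat_lit 10900948502) (nat_lit 76) (nat_lit 334920457) (nat_lit 76) (nat_lit 5) (nat_lit 82) (nat_lit 5) (nat_lit 77) (nat_lit 5) (nat_lit 289) (nat_lit 274) (nat_lit 217)) (XT.nd (nat_lit 78) (nat_lit 304) (nat_lit 0) (XT.lf (nat_lit 0) (nat_lit 2876961468) (nat_lit 456) (nat_lit 4624493204) (nat_lit 76) (nat_lit 5179699620) (nat_lit 76) (nat_lit 5) (nat_lit 82) (nat_lit 5) (nat_lit 77) (nat_lit 5) (nat_lit 290) (nat_lit 274) (nat_lit 216)) (XT.lf (nat_lit 0) (nat_lit 1997294829) (nat_lit 304) (nat_lit 2729302243) (nat_lit 380) (nat_lit 8301035162) (nat_lit 72) (nat_lit 5) (nat_lit 76) (nat_lit 5) (nat_lit 77) (nat_lit 5) (nat_lit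 291) (nat_lit 274) (nat_lit 215)))) (XT.nd (nat_lit 78) (nat_lit 304) (nat_lit 0) (XT.lf (nat_lit 0) (nat_lit 6753665850) (nat_lit 380) (nat_lit 4347124022) (nat_lit 76) (nat_lit 2286443256) (nat_lit 72) (nat_lit 5) (nat_lit 77) (nat_lit 5) (nat_lit 73) (nat_lit 5) (nat_lit 292) (nat_lit 274) (nat_lit 214)) (XT.nd (nat_lit 78) (nat_lit 0) (nat_lit 0) (XT.lf (nat_lit 0) (nat_lit 2679431410) (nat_lit 304) (nat_lit 6260403711) (nat_lit 380) (nat_lit 4822135997) (nat_lit 68) (nat_lit 5) (nat_lit 72) (nat_lit 5) (nat_lit 73) (nat_lit 5) (nat_lit 293) (nat_lit 274) (nat_lit 213)) (XT.lf (nat_lit 0) (nat_lit 10176915906) (nat_lit 304) (nat_lit 1104072362) (nat_lit 380) (nat_lit 2872216256) (nat_lit 68) (nat_lit 5) (nat_lit 72) (nat_lit 5) (nat_lit 73) (nat_lit 5) (nat_lit 294) (nat_lit 274) (nat_lit 212))))))) (XT.nd (nat_lit 780) (nat_lit 1216) (nat_lit 0) (XT.nd (nat_lit 390) (nat_lit 532)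 (nat_lit 0) (XT.nd (nat_lit 156) (nat_lit 532) (nat_lit 0) (XT.nd (nat_lit 78) (nat_lit 76) (nat_lit 0) (XT.lf (nat_lit 0) (nat_lit 3498816270) (nat_lit 304) (nat_lit 10335636782) (nat_lit 380) (nat_lit 724824126) (nat_lit 64) (nat_lit 5) (nat_lit 68) (nat_lit 5) (nat_lit 69) (nat_lit 5) (nat_lit 295) (nat_lit 274) (nat_lit 211)) (XT.lf (nat_lit 0) (nat_lit 1541179168) (nat_lit 380) (nat_lit 3571207596) (nat_lit 76) (nat_lit 9869098444) (nat_lit 63) (nat_lit 5) (nat_lit 68) (nat_lit 5) (nat_lit 64) (nat_lit 5) (nat_lit 296) (nat_lit 274) (nat_lit 210))) (XT.nd (nat_lit 78) (nat_lit 228) (nat_lit 0) (XT.lf (nat_lit 0) (nat_lit 3946650141) (nat_lit 380) (nat_lit 11038003309) (nat_lit 76) (nat_lit 437064545) (nat_lit 59) (nat_lit 5) (nat_lit 64) (nat_lit 5) (nat_lit 60) (nat_lit 5) (nat_lit 297) (nat_lit 274) (nat_lit 209)) (XT.nd (nat_lit 78) (nat_lit 228) (nat_lit 0) (XT.lf (nat_lit 0)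 (nat_lit 6593246364) (nat_lit 380) (nat_lit 3136109073) (nat_lit 76) (nat_lit 6148597533) (nat_lit 59) (nat_lit 5) (nat_lit 64) (nat_lit 5) (nat_lit 60) (nat_lit 5) (nat_lit 298) (nat_lit 274) (nat_lit 208)) (XT.lf (nat_lit 0) (nat_lit 5301280720) (nat_lit 228) (nat_lit 4130393316) (nat_lit 304) (nat_lit 6922382133) (nat_lit 56) (nat_lit 5) (nat_lit 59) (nat_lit 5) (nat_lit 60) (nat_lit 5) (nat_lit 299) (nat_lit 274) (nat_lit 207))))) (XT.nd (nat_lit 156) (nat_lit 304) (nat_lit 0) (XT.nd (nat_lit 78) (nat_lit 228) (nat_lit 0) (XT.lf (nat_lit 0) (nat_lit 12470599892) (nat_lit 304) (nat_lit 2639925108) (nat_lit 76) (nat_lit 1740540741) (nat_lit 56) (nat_lit 5) (nat_lit 60) (nat_lit 5) (nat_lit 57) (nat_lit 5) (nat_lit 300) (nat_lit 274) (nat_lit 206)) (XT.lf (nat_lit 0) (nat_lit 6299021695) (nat_lit 228) (nat_lit 9506883612) (nat_lit 304) (nat_lit 1559827445) (nat_lit 53) (nat_lit 5) (nat_lit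 56) (nat_lit 5) (nat_lit 57) (nat_lit 5) (nat_lit 301) (nat_lit 274) (nat_lit 205))) (XT.nd (nat_lit 78) (nat_lit 228) (nat_lit 0) (XT.lf (nat_lit 0) (nat_lit 1381014634) (nat_lit 304) (nat_lit 2178666805) (nat_lit 76) (nat_lit 14344181327) (nat_lit 52) (nat_lit 5) (nat_lit 56) (nat_lit 5) (nat_lit 53) (nat_lit 5) (nat_lit 302) (nat_lit 274) (nat_lit 204)) (XT.nd (nat_lit 78) (nat_lit 0) (nat_lit 0) (XT.lf (nat_lit 0) (nat_lit 4554732120) (nat_lit 304) (nat_lit 11171399460) (nat_lit 76) (nat_lit 2734601192) (nat_lit 49) (nat_lit 5) (nat_lit 53) (nat_lit 5) (nat_lit 50) (nat_lit 5) (nat_lit 303) (nat_lit 274) (nat_lit 203)) (XT.lf (nat_lit 0) (nat_lit 7963049833) (nat_lit 304) (nat_lit 1824003520) (nat_lit 76) (nat_lit 9254620756) (nat_lit 49) (nat_lit 5) (nat_lit 53) (nat_lit 5) (nat_lit 50) (nat_lit 5) (nat_lit 304) (nat_lit 274) (nat_lit 202)))))) (XT.nd (nat_lit 390) (nat_lit 532)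 (nat_lit 0) (XT.nd (nat_lit 156) (nat_lit 456) (nat_lit 0) (XT.nd (nat_lit 78) (nat_lit 0) (nat_lit 0) (XT.lf (nat_lit 0) (nat_lit 8227607901) (nat_lit 228) (nat_lit 3423638480) (nat_lit 304) (nat_lit 7994965411) (nat_lit 46) (nat_lit 5) (nat_lit 49) (nat_lit 5) (nat_lit 50) (nat_lit 5) (nat_lit 305) (nat_lit 274) (nat_lit 201)) (XT.lf (nat_lit 0) (nat_lit 15587501556) (nat_lit 304) (nat_lit 1512568659) (nat_lit 76) (nat_lit 3177745063) (nat_lit 46) (nat_lit 5) (nat_lit 50) (nat_lit 5) (nat_lit 47) (nat_lit 5) (nat_lit 306) (nat_lit 274) (nat_lit 200))) (XT.nd (nat_lit 78) (nat_lit 304) (nat_lit 0) (XT.lf (nat_lit 0) (nat_lit 9098233982) (nat_lit 152) (nat_lit 10802782354) (nat_lit 228) (nat_lit 1030980601) (nat_lit 44) (nat_lit 5) (nat_lit 46) (nat_lit 5) (nat_lit 47) (nat_lit 5) (nat_lit 307) (nat_lit 274) (nat_lit 199)) (XT.nd (nat_lit 78) (nat_lit 228) (nat_lit 0) (XT.lf (nat_lit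 0) (nat_lit 2729796916) (nat_lit 228) (nat_lit 1395625716) (nat_lit 76) (nat_lit 17490865994) (nat_lit 43) (nat_lit 5) (nat_lit 46) (nat_lit 5) (nat_lit 44) (nat_lit 5) (nat_lit 308) (nat_lit 274) (nat_lit 198)) (XT.lf (nat_lit 0) (nat_lit 6828548477) (nat_lit 304) (nat_lit 12537031929) (nat_lit 76) (nat_lit 2959157855) (nat_lit 40) (nat_lit 5) (nat_lit 44) (nat_lit 5) (nat_lit 41) (nat_lit 5) (nat_lit 309) (nat_lit 274) (nat_lit 197))))) (XT.nd (nat_lit 234) (nat_lit 380) (nat_lit 0) (XT.nd (nat_lit 78) (nat_lit 152) (nat_lit 0) (XT.lf (nat_lit 0) (nat_lit 11207446396) (nat_lit 304) (nat_lit 1581669669) (nat_lit 76) (nat_lit 10275750610) (nat_lit 40) (nat_lit 5) (nat_lit 44) (nat_lit 5) (nat_lit 41) (nat_lit 5) (nat_lit 310) (nat_lit 274) (nat_lit 196)) (XT.nd (nat_lit 78) (nat_lit 0) (nat_lit 0) (XT.lf (nat_lit 0) (nat_lit 10225028639) (nat_lit 152) (nat_lit 5724240814) (nat_lit 228)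 (nat_lit 7885548981) (nat_lit 38) (nat_lit 5) (nat_lit 40) (nat_lit 5) (nat_lit 41) (nat_lit 5) (nat_lit 311) (nat_lit 274) (nat_lit 195)) (XT.lf (nat_lit 0) (nat_lit 20966450509) (nat_lit 228) (nat_lit 2015808232) (nat_lit 76) (nat_lit 1659110877) (nat_lit 38) (nat_lit 5) (nat_lit 41) (nat_lit 5) (nat_lit 39) (nat_lit 5) (nat_lit 312) (nat_lit 274) (nat_lit 194)))) (XT.nd (nat_lit 78) (nat_lit 152) (nat_lit 0) (XT.lf (nat_lit 0) (nat_lit 967420394) (nat_lit 228) (nat_lit 15118597172) (nat_lit 76) (nat_lit 9389408891) (nat_lit 35) (nat_lit 5) (nat_lit 38) (nat_lit 5) (nat_lit 36) (nat_lit 5) (nat_lit 313) (nat_lit 274) (nat_lit 193)) (XT.nd (nat_lit 78) (nat_lit 152) (nat_lit 0) (XT.lf (nat_lit 0) (nat_lit 5738502443) (nat_lit 228) (nat_lit 3015154145) (nat_lit 76) (nat_lit 17593524085) (nat_lit 35) (nat_lit 5) (nat_lit 38) (nat_lit 5) (nat_lit 36) (nat_lit 5) (nat_lit 314) (nat_lit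 274) (nat_lit 192)) (XT.lf (nat_lit 0) (nat_lit 9991387145) (nat_lit 152) (nat_lit 898867489) (nat_lit 228) (nat_lit 16365174651) (nat_lit 33) (nat_lit 5) (nat_lit 35) (nat_lit 5) (nat_lit 36) (nat_lit 5) (nat_lit 315) (nat_lit 274) (nat_lit 191))))))))
noncomputable def xc148 : XT := (XT.nd (nat_lit 1560) (nat_lit 684) (nat_lit 0) (XT.nd (nat_lit 780) (nat_lit 532) (nat_lit 0) (XT.nd (nat_lit 390) (nat_lit 304) (nat_lit 0) (XT.nd (nat_lit 156) (nat_lit 228) (nat_lit 0) (XT.nd (nat_lit 78) (nat_lit 152) (nat_lit 0) (XT.lf (nat_lit 0) (nat_lit 16452551134) (nat_lit 228) (nat_lit 4591246012) (nat_lit 76) (nat_lit 7157657240) (nat_lit 33) (nat_lit 5) (nat_lit 36) (nat_lit 5) (nat_lit 34) (nat_lit 5) (nat_lit 316) (nat_lit 274) (nat_lit 190)) (XT.lf (nat_lit 0) (nat_lit 8966413335) (nat_lit 152) (nat_lit 13468250076) (nat_lit 228) (nat_lit 6753043611) (nat_lit 31) (nat_lit 5) (nat_lit 33)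 (nat_lit 5) (nat_lit 34) (nat_lit 5) (nat_lit 317) (nat_lit 274) (nat_lit 189))) (XT.nd (nat_lit 78) (nat_lit 228) (nat_lit 0) (XT.lf (nat_lit 0) (nat_lit 23340670139) (nat_lit 152) (nat_lit 5440238053) (nat_lit 228) (nat_lit 1439123542) (nat_lit 31) (nat_lit 5) (nat_lit 33) (nat_lit 5) (nat_lit 34) (nat_lit 5) (nat_lit 318) (nat_lit 274) (nat_lit 188)) (XT.nd (nat_lit 78) (nat_lit 0) (nat_lit 0) (XT.lf (nat_lit 0) (nat_lit 4158738126) (nat_lit 228) (nat_lit 24067312673) (nat_lit 76) (nat_lit 3067161070) (nat_lit 28) (nat_lit 5) (nat_lit 31) (nat_lit 5) (nat_lit 29) (nat_lit 5) (nat_lit 319) (nat_lit 274) (nat_lit 187)) (XT.lf (nat_lit 0) (nat_lit 10183555060) (nat_lit 228) (nat_lit 10273935613) (nat_lit 76) (nat_lit 11951618740) (nat_lit 28) (nat_lit 5) (nat_lit 31) (nat_lit 5) (nat_lit 29) (nat_lit 5) (nat_lit 320) (nat_lit 274) (nat_lit 186))))) (XT.nd (nat_lit 156) (nat_lit 152)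 (nat_lit 0) (XT.nd (nat_lit 78) (nat_lit 0) (nat_lit 0) (XT.lf (nat_lit 0) (nat_lit 4328327178) (nat_lit 152) (nat_lit 12237269360) (nat_lit 228) (nat_lit 17012414985) (nat_lit 26) (nat_lit 5) (nat_lit 28) (nat_lit 5) (nat_lit 29) (nat_lit 5) (nat_lit 321) (nat_lit 274) (nat_lit 185)) (XT.lf (nat_lit 0) (nat_lit 19998385892) (nat_lit 152) (nat_lit 3431010005) (nat_lit 228) (nat_lit 11367838504) (nat_lit 26) (nat_lit 5) (nat_lit 28) (nat_lit 5) (nat_lit 29) (nat_lit 5) (nat_lit 322) (nat_lit 274) (nat_lit 184))) (XT.nd (nat_lit 78) (nat_lit 76) (nat_lit 0) (XT.lf (nat_lit 0) (nat_lit 273966502) (nat_lit 76) (nat_lit 30446580986) (nat_lit 152) (nat_lit 5352670874) (nat_lit 25) (nat_lit 5) (nat_lit 26) (nat_lit 5) (nat_lit 27) (nat_lit 4) (nat_lit 323) (nat_lit 274) (nat_lit 183)) (XT.nd (nat_lit 78) (nat_lit 0) (nat_lit 0) (XT.lf (nat_lit 0) (nat_lit 1232545427) (nat_lit 152) (nat_lit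 20880260631) (nat_lit 76) (nat_lit 15284444782) (nat_lit 24) (nat_lit 5) (nat_lit 26) (nat_lit 5) (nat_lit 25) (nat_lit 5) (nat_lit 324) (nat_lit 274) (nat_lit 182)) (XT.lf (nat_lit 0) (nat_lit 7956794966) (nat_lit 152) (nat_lit 5320784230) (nat_lit 76) (nat_lit 25506042403) (nat_lit 24) (nat_lit 5) (nat_lit 26) (nat_lit 5) (nat_lit 25) (nat_lit 5) (nat_lit 325) (nat_lit 274) (nat_lit 181)))))) (XT.nd (nat_lit 390) (nat_lit 228) (nat_lit 0) (XT.nd (nat_lit 156) (nat_lit 152) (nat_lit 0) (XT.nd (nat_lit 78) (nat_lit 0) (nat_lit 0) (XT.lf (nat_lit 0) (nat_lit 11363496773) (nat_lit 152) (nat_lit 3821326014) (nat_lit 228) (nat_lit 25046116441) (nat_lit 22) (nat_lit 5) (nat_lit 24) (nat_lit 5) (nat_lit 25) (nat_lit 5) (nat_lit 326) (nat_lit 274) (nat_lit 180)) (XT.lf (nat_lit 0) (nat_lit 22951449207) (nat_lit 228) (nat_lit 12793215561) (nat_lit 76) (nat_lit 5997104417) (nat_lit 22) (nat_lit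 5) (nat_lit 25) (nat_lit 5) (nat_lit 23) (nat_lit 4) (nat_lit 327) (nat_lit 274) (nat_lit 179))) (XT.nd (nat_lit 78) (nat_lit 76) (nat_lit 0) (XT.lf (nat_lit 0) (nat_lit 4138360299) (nat_lit 76) (nat_lit 27086017978) (nat_lit 152) (nat_lit 12097869804) (nat_lit 21) (nat_lit 5) (nat_lit 22) (nat_lit 5) (nat_lit 23) (nat_lit 4) (nat_lit 328) (nat_lit 274) (nat_lit 178)) (XT.nd (nat_lit 78) (nat_lit 76) (nat_lit 0) (XT.lf (nat_lit 0) (nat_lit 22344756270) (nat_lit 76) (nat_lit 17773765795) (nat_lit 152) (nat_lit 4852856164) (nat_lit 21) (nat_lit 5) (nat_lit 22) (nat_lit 5) (nat_lit 23) (nat_lit 4) (nat_lit 329) (nat_lit 274) (nat_lit 177)) (XT.lf (nat_lit 0) (nat_lit 2657444558) (nat_lit 152) (nat_lit 5299945818) (nat_lit 76) (nat_lit 38743869764) (nat_lit 20) (nat_lit 5) (nat_lit 22) (nat_lit 5) (nat_lit 21) (nat_lit 5) (nat_lit 330) (nat_lit 274) (nat_lit 176))))) (XT.nd (nat_lit 156)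 (nat_lit 76) (nat_lit 0) (XT.nd (nat_lit 78) (nat_lit 0) (nat_lit 0) (XT.lf (nat_lit 0) (nat_lit 10619495236) (nat_lit 228) (nat_lit 35323055756) (nat_lit 76) (nat_lit 2559146208) (nat_lit 18) (nat_lit 5) (nat_lit 21) (nat_lit 5) (nat_lit 19) (nat_lit 4) (nat_lit 331) (nat_lit 274) (nat_lit 175)) (XT.lf (nat_lit 0) (nat_lit 19193015549) (nat_lit 228) (nat_lit 17769222009) (nat_lit 76) (nat_lit 13419254908) (nat_lit 18) (nat_lit 5) (nat_lit 21) (nat_lit 5) (nat_lit 19) (nat_lit 4) (nat_lit 332) (nat_lit 274) (nat_lit 174))) (XT.nd (nat_lit 78) (nat_lit 0) (nat_lit 0) (XT.lf (nat_lit 0) (nat_lit 669647250) (nat_lit 76) (nat_lit 27528104938) (nat_lit 152) (nat_lit 24157402774) (nat_lit 17) (nat_lit 5) (nat_lit 18) (nat_lit 5) (nat_lit 19) (nat_lit 4) (nat_lit 333) (nat_lit 274) (nat_lit 173)) (XT.nd (nat_lit 78) (nat_lit 0) (nat_lit 0) (XT.lf (nat_lit 0) (nat_lit 20633505412) (nat_lit 76)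 (nat_lit 17312396333) (nat_lit 152) (nat_lit 16466944303) (nat_lit 17) (nat_lit 5) (nat_lit 18) (nat_lit 5) (nat_lit 19) (nat_lit 4) (nat_lit 334) (nat_lit 274) (nat_lit 172)) (XT.lf (nat_lit 0) (nat_lit 41582354742) (nat_lit 76) (nat_lit 6591719001) (nat_lit 152) (nat_lit 8399721261) (nat_lit 17) (nat_lit 5) (nat_lit 18) (nat_lit 5) (nat_lit 19) (nat_lit 4) (nat_lit 335) (nat_lit 274) (nat_lit 171))))))) (XT.nd (nat_lit 780) (nat_lit 304) (nat_lit 0) (XT.nd (nat_lit 390) (nat_lit 152) (nat_lit 0) (XT.nd (nat_lit 156) (nat_lit 76) (nat_lit 0) (XT.nd (nat_lit 78) (nat_lit 0) (nat_lit 0) (XT.lf (nat_lit 0) (nat_lit 211614594) (nat_lit 152) (nat_lit 54035237266) (nat_lit 76) (nat_lit 4588736933) (nat_lit 15) (nat_lit 5) (nat_lit 17) (nat_lit 5) (nat_lit 16) (nat_lit 4) (nat_lit 336) (nat_lit 274) (nat_lit 170)) (XT.lf (nat_lit 0) (nat_lit 9330245828) (nat_lit 152) (nat_lit 35358372589)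 (nat_lit 76) (nat_lit 16497021633) (nat_lit 15) (nat_lit 5) (nat_lit 17) (nat_lit 5) (nat_lit 16) (nat_lit 4) (nat_lit 337) (nat_lit 274) (nat_lit 169))) (XT.nd (nat_lit 78) (nat_lit 76) (nat_lit 0) (XT.lf (nat_lit 0) (nat_lit 18898050481) (nat_lit 152) (nat_lit 15759924815) (nat_lit 76) (nat_lit 28995559827) (nat_lit 15) (nat_lit 5) (nat_lit 17) (nat_lit 5) (nat_lit 16) (nat_lit 4) (nat_lit 338) (nat_lit 274) (nat_lit 168)) (XT.nd (nat_lit 78) (nat_lit 0) (nat_lit 0) (XT.lf (nat_lit 0) (nat_lit 4965702518) (nat_lit 76) (nat_lit 24049635054) (nat_lit 152) (nat_lit 37225935952) (nat_lit 14) (nat_lit 5) (nat_lit 15) (nat_lit 5) (nat_lit 16) (nat_lit 4) (nat_lit 339) (nat_lit 274) (nat_lit 167)) (XT.lf (nat_lit 0) (nat_lit 27263272230) (nat_lit 76) (nat_lit 12635809547) (nat_lit 152) (nat_lit 29046290465) (nat_lit 14) (nat_lit 5) (nat_lit 15) (nat_lit 5) (nat_lit 16) (nat_lit 4) (nat_lit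 340) (nat_lit 274) (nat_lit 166))))) (XT.nd (nat_lit 156) (nat_lit 76) (nat_lit 0) (XT.nd (nat_lit 78) (nat_lit 76) (nat_lit 0) (XT.lf (nat_lit 0) (nat_lit 50664779482) (nat_lit 76) (nat_lit 656224954) (nat_lit 152) (nat_lit 20463974786) (nat_lit 14) (nat_lit 5) (nat_lit 15) (nat_lit 5) (nat_lit 16) (nat_lit 4) (nat_lit 341) (nat_lit 274) (nat_lit 165)) (XT.lf (nat_lit 0) (nat_lit 282046167) (nat_lit 76) (nat_lit 63216725750) (nat_lit 76) (nat_lit 11258559952) (nat_lit 13) (nat_lit 4) (nat_lit 14) (nat_lit 5) (nat_lit 14) (nat_lit 4) (nat_lit 342) (nat_lit 274) (nat_lit 164))) (XT.nd (nat_lit 78) (nat_lit 76) (nat_lit 0) (XT.lf (nat_lit 0) (nat_lit 23466072577) (nat_lit 76) (nat_lit 53181936935) (nat_lit 76) (nat_lit 1212166171) (nat_lit 13) (nat_lit 4) (nat_lit 14) (nat_lit 5) (nat_lit 14) (nat_lit 4) (nat_lit 343) (nat_lit 274) (nat_lit 163)) (XT.nd (nat_lit 78) (nat_lit 0) (nat_lit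 0) (XT.lf (nat_lit 0) (nat_lit 9032215626) (nat_lit 152) (nat_lit 33464781077) (nat_lit 76) (nat_lit 38614154069) (nat_lit 12) (nat_lit 5) (nat_lit 14) (nat_lit 5) (nat_lit 13) (nat_lit 4) (nat_lit 344) (nat_lit 274) (nat_lit 162)) (XT.lf (nat_lit 0) (nat_lit 19742838020) (nat_lit 152) (nat_lit 11518531217) (nat_lit 76) (nat_lit 53262576154) (nat_lit 12) (nat_lit 5) (nat_lit 14) (nat_lit 5) (nat_lit 13) (nat_lit 4) (nat_lit 345) (nat_lit 274) (nat_lit 161)))))) (XT.nd (nat_lit 390) (nat_lit 152) (nat_lit 0) (XT.nd (nat_lit 156) (nat_lit 76) (nat_lit 0) (XT.nd (nat_lit 78) (nat_lit 0) (nat_lit 0) (XT.lf (nat_lit 0) (nat_lit 11896589934) (nat_lit 76) (nat_lit 19273148553) (nat_lit 152) (nat_lit 56928606061) (nat_lit 11) (nat_lit 5) (nat_lit 12) (nat_lit 5) (nat_lit 13) (nat_lit 4) (nat_lit 346) (nat_lit 274) (nat_lit 160)) (XT.lf (nat_lit 0) (nat_lit 36873306653) (nat_lit 76) (nat_lit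 6484853372) (nat_lit 152) (nat_lit 48483796889) (nat_lit 11) (nat_lit 5) (nat_lit 12) (nat_lit 5) (nat_lit 13) (nat_lit 4) (nat_lit 347) (nat_lit 274) (nat_lit 159))) (XT.nd (nat_lit 78) (nat_lit 76) (nat_lit 0) (XT.lf (nat_lit 0) (nat_lit 56259675485) (nat_lit 152) (nat_lit 32791087902) (nat_lit 0) (nat_lit 6716804825) (nat_lit 11) (nat_lit 5) (nat_lit 13) (nat_lit 4) (nat_lit 11) (nat_lit 4) (nat_lit 348) (nat_lit 274) (nat_lit 158)) (XT.nd (nat_lit 78) (nat_lit 76) (nat_lit 0) (XT.lf (nat_lit 0) (nat_lit 69908076168) (nat_lit 152) (nat_lit 9619337221) (nat_lit 0) (nat_lit 20356958075) (nat_lit 11) (nat_lit 5) (nat_lit 13) (nat_lit 4) (nat_lit 11) (nat_lit 4) (nat_lit 349) (nat_lit 274) (nat_lit 157)) (XT.lf (nat_lit 0) (nat_lit 15189167570) (nat_lit 76) (nat_lit 69282589434) (nat_lit 76) (nat_lit 19723616643) (nat_lit 10) (nat_lit 4) (nat_lit 11) (nat_lit 5) (nat_lit 11) (nat_lit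 4) (nat_lit 350) (nat_lit 274) (nat_lit 156))))) (XT.nd (nat_lit 234) (nat_lit 76) (nat_lit 0) (XT.nd (nat_lit 78) (nat_lit 76) (nat_lit 0) (XT.lf (nat_lit 0) (nat_lit 41564206362) (nat_lit 76) (nat_lit 58358119756) (nat_lit 76) (nat_lit 8791666300) (nat_lit 10) (nat_lit 4) (nat_lit 11) (nat_lit 5) (nat_lit 11) (nat_lit 4) (nat_lit 351) (nat_lit 274) (nat_lit 155)) (XT.nd (nat_lit 78) (nat_lit 0) (nat_lit 0) (XT.lf (nat_lit 0) (nat_lit 2596813667) (nat_lit 152) (nat_lit 44250109879) (nat_lit 76) (nat_lit 66609726171) (nat_lit 9) (nat_lit 5) (nat_lit 11) (nat_lit 5) (nat_lit 10) (nat_lit 4) (nat_lit 352) (nat_lit 274) (nat_lit 154)) (XT.lf (nat_lit 0) (nat_lit 14255382946) (nat_lit 152) (nat_lit 20356828041) (nat_lit 76) (nat_lit 83817217922) (nat_lit 9) (nat_lit 5) (nat_lit 11) (nat_lit 5) (nat_lit 10) (nat_lit 4) (nat_lit 353) (nat_lit 274) (nat_lit 153)))) (XT.nd (nat_lit 78) (nat_lit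 0) (nat_lit 0) (XT.lf (nat_lit 0) (nat_lit 4880414518) (nat_lit 76) (nat_lit 21688970690) (nat_lit 152) (nat_lit 97077838015) (nat_lit 8) (nat_lit 5) (nat_lit 9) (nat_lit 5) (nat_lit 10) (nat_lit 4) (nat_lit 354) (nat_lit 274) (nat_lit 152)) (XT.nd (nat_lit 78) (nat_lit 0) (nat_lit 0) (XT.lf (nat_lit 0) (nat_lit 32079466598) (nat_lit 76) (nat_lit 7760751021) (nat_lit 152) (nat_lit 89268634457) (nat_lit 8) (nat_lit 5) (nat_lit 9) (nat_lit 5) (nat_lit 10) (nat_lit 4) (nat_lit 355) (nat_lit 274) (nat_lit 151)) (XT.lf (nat_lit 0) (nat_lit 53878258677) (nat_lit 152) (nat_lit 74318854181) (nat_lit 0) (nat_lit 6641267422) (nat_lit 8) (nat_lit 5) (nat_lit 10) (nat_lit 4) (nat_lit 8) (nat_lit 4) (nat_lit 356) (nat_lit 274) (nat_lit 150))))))))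
noncomputable def xc149 : XT := (XT.nd (nat_lit 1638) (nat_lit 152) (nat_lit 0) (XT.nd (nat_lit 780) (nat_lit 76) (nat_lit 0) (XT.nd (nat_lit 390) (nat_lit 152) (nat_lit 0) (XT.nd (nat_lit 156) (nat_lit 76) (nat_lit 0) (XT.nd (nat_lit 78) (nat_lit 0) (nat_lit 0) (XT.lf (nat_lit 0) (nat_lit 68742096387) (nat_lit 152) (nat_lit 50606306215) (nat_lit 0) (nat_lit 21499788763) (nat_lit 8) (nat_lit 5) (nat_lit 10) (nat_lit 4) (nat_lit 8) (nat_lit 4) (nat_lit 357) (nat_lit 274) (nat_lit 149)) (XT.lf (nat_lit 0) (nat_lit 84345953765) (nat_lit 152) (nat_lit 25714116062) (nat_lit 0) (nat_lit 37098582933) (nat_lit 8) (nat_lit 5) (nat_lit 10) (nat_lit 4) (nat_lit 8) (nat_lit 4) (nat_lit 358) (nat_lit 274) (nat_lit 148))) (XT.nd (nat_lit 78) (nat_lit 0) (nat_lit 0) (XT.lf (nat_lit 0) (nat_lit 430770753) (nat_lit 76) (nat_lit 100302937637) (nat_lit 76) (nat_lit 53050744703) (nat_lit 7) (nat_lit 4)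 (nat_lit 8) (nat_lit 5) (nat_lit 8) (nat_lit 4) (nat_lit 359) (nat_lit 274) (nat_lit 147)) (XT.nd (nat_lit 78) (nat_lit 0) (nat_lit 0) (XT.lf (nat_lit 0) (nat_lit 28770029694) (nat_lit 76) (nat_lit 89603337197) (nat_lit 76) (nat_lit 42346551783) (nat_lit 7) (nat_lit 4) (nat_lit 8) (nat_lit 5) (nat_lit 8) (nat_lit 4) (nat_lit 360) (nat_lit 274) (nat_lit 146)) (XT.lf (nat_lit 0) (nat_lit 58520910381) (nat_lit 76) (nat_lit 78371274264) (nat_lit 76) (nat_lit 31110115060) (nat_lit 7) (nat_lit 4) (nat_lit 8) (nat_lit 5) (nat_lit 8) (nat_lit 4) (nat_lit 361) (nat_lit 274) (nat_lit 145))))) (XT.nd (nat_lit 156) (nat_lit 152) (nat_lit 0) (XT.nd (nat_lit 78) (nat_lit 0) (nat_lit 0) (XT.lf (nat_lit 0) (nat_lit 89754248244) (nat_lit 76) (nat_lit 66580005831) (nat_lit 76) (nat_lit 19314681114) (nat_lit 7) (nat_lit 4) (nat_lit 8) (nat_lit 5) (nat_lit 8) (nat_lit 4) (nat_lit 362) (nat_lit 274) (nat_lit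 144)) (XT.lf (nat_lit 0) (nat_lit 122544408373) (nat_lit 76) (nat_lit 54201457450) (nat_lit 76) (nat_lit 6932165577) (nat_lit 7) (nat_lit 4) (nat_lit 8) (nat_lit 5) (nat_lit 8) (nat_lit 4) (nat_lit 363) (nat_lit 274) (nat_lit 143))) (XT.nd (nat_lit 78) (nat_lit 76) (nat_lit 0) (XT.lf (nat_lit 0) (nat_lit 5872734601) (nat_lit 152) (nat_lit 35233964183) (nat_lit 76) (nat_lit 150997270374) (nat_lit 6) (nat_lit 5) (nat_lit 8) (nat_lit 5) (nat_lit 7) (nat_lit 4) (nat_lit 364) (nat_lit 274) (nat_lit 142)) (XT.nd (nat_lit 78) (nat_lit 76) (nat_lit 0) (XT.lf (nat_lit 0) (nat_lit 19082551658) (nat_lit 152) (nat_lit 8157437544) (nat_lit 76) (nat_lit 173705651369) (nat_lit 6) (nat_lit 5) (nat_lit 8) (nat_lit 5) (nat_lit 7) (nat_lit 4) (nat_lit 365) (nat_lit 274) (nat_lit 141)) (XT.lf (nat_lit 0) (nat_lit 20938828622) (nat_lit 76) (nat_lit 12338695302) (nat_lit 152) (nat_lit 176935639151) (nat_lit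 5) (nat_lit 5) (nat_lit 6) (nat_lit 5) (nat_lit 7) (nat_lit 4) (nat_lit 366) (nat_lit 274) (nat_lit 140)))))) (XT.nd (nat_lit 390) (nat_lit 76) (nat_lit 0) (XT.nd (nat_lit 156) (nat_lit 0) (nat_lit 0) (XT.nd (nat_lit 78) (nat_lit 0) (nat_lit 0) (XT.lf (nat_lit 0) (nat_lit 48372062875) (nat_lit 152) (nat_lit 168222216430) (nat_lit 0) (nat_lit 3340292196) (nat_lit 5) (nat_lit 5) (nat_lit 7) (nat_lit 4) (nat_lit 5) (nat_lit 4) (nat_lit 367) (nat_lit 274) (nat_lit 139)) (XT.lf (nat_lit 0) (nat_lit 64421470341) (nat_lit 152) (nat_lit 146323834289) (nat_lit 0) (nat_lit 19386739310) (nat_lit 5) (nat_lit 5) (nat_lit 7) (nat_lit 4) (nat_lit 5) (nat_lit 4) (nat_lit 368) (nat_lit 274) (nat_lit 138))) (XT.nd (nat_lit 78) (nat_lit 0) (nat_lit 0) (XT.lf (nat_lit 0) (nat_lit 81271317585) (nat_lit 152) (nat_lit 123334407412) (nat_lit 0) (nat_lit 36233767170) (nat_lit 5) (nat_lit 5) (nat_lit 7) (nat_lit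 4) (nat_lit 5) (nat_lit 4) (nat_lit 369) (nat_lit 274) (nat_lit 137)) (XT.nd (nat_lit 78) (nat_lit 0) (nat_lit 0) (XT.lf (nat_lit 0) (nat_lit 98961723290) (nat_lit 152) (nat_lit 99199199068) (nat_lit 0) (nat_lit 53921487748) (nat_lit 5) (nat_lit 5) (nat_lit 7) (nat_lit 4) (nat_lit 5) (nat_lit 4) (nat_lit 370) (nat_lit 274) (nat_lit 136)) (XT.lf (nat_lit 0) (nat_lit 117534807471) (nat_lit 152) (nat_lit 73860744475) (nat_lit 0) (nat_lit 72492014664) (nat_lit 5) (nat_lit 5) (nat_lit 7) (nat_lit 4) (nat_lit 5) (nat_lit 4) (nat_lit 371) (nat_lit 274) (nat_lit 135))))) (XT.nd (nat_lit 234) (nat_lit 0) (nat_lit 0) (XT.nd (nat_lit 78) (nat_lit 76) (nat_lit 0) (XT.lf (nat_lit 0) (nat_lit 137034791756) (nat_lit 152) (nat_lit 47258713980) (nat_lit 0) (nat_lit 91989563459) (nat_lit 5) (nat_lit 5) (nat_lit 7) (nat_lit 4) (nat_lit 5) (nat_lit 4) (nat_lit 372) (nat_lit 274) (nat_lit 134)) (XT.nd (nat_lit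 78) (nat_lit 76) (nat_lit 0) (XT.lf (nat_lit 0) (nat_lit 157508104679) (nat_lit 152) (nat_lit 19329769414) (nat_lit 0) (nat_lit 112460556868) (nat_lit 5) (nat_lit 5) (nat_lit 7) (nat_lit 4) (nat_lit 5) (nat_lit 4) (nat_lit 373) (nat_lit 274) (nat_lit 133)) (XT.lf (nat_lit 0) (nat_lit 10322986752) (nat_lit 76) (nat_lit 168841676224) (nat_lit 76) (nat_lit 123791919353) (nat_lit 4) (nat_lit 4) (nat_lit 5) (nat_lit 5) (nat_lit 5) (nat_lit 4) (nat_lit 374) (nat_lit 274) (nat_lit 132)))) (XT.nd (nat_lit 78) (nat_lit 0) (nat_lit 0) (XT.lf (nat_lit 0) (nat_lit 42126479965) (nat_lit 76) (nat_lit 160103366329) (nat_lit 76) (nat_lit 115051505590) (nat_lit 4) (nat_lit 4) (nat_lit 5) (nat_lit 5) (nat_lit 5) (nat_lit 4) (nat_lit 375) (nat_lit 274) (nat_lit 131)) (XT.nd (nat_lit 78) (nat_lit 0) (nat_lit 0) (XT.lf (nat_lit 0) (nat_lit 75517303355) (nat_lit 76) (nat_lit 150929497907) (nat_lit 76) (nat_lit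 105875633485) (nat_lit 4) (nat_lit 4) (nat_lit 5) (nat_lit 5) (nat_lit 5) (nat_lit 4) (nat_lit 376) (nat_lit 274) (nat_lit 130)) (XT.lf (nat_lit 0) (nat_lit 110574958881) (nat_lit 76) (nat_lit 141298228414) (nat_lit 76) (nat_lit 96242455721) (nat_lit 4) (nat_lit 4) (nat_lit 5) (nat_lit 5) (nat_lit 5) (nat_lit 4) (nat_lit 377) (nat_lit 274) (nat_lit 129))))))) (XT.nd (nat_lit 32604) (nat_lit 0) (nat_lit 7144) (XT.nd (nat_lit 390) (nat_lit 152) (nat_lit 0) (XT.nd (nat_lit 156) (nat_lit 0) (nat_lit 0) (XT.nd (nat_lit 78) (nat_lit 0) (nat_lit 0) (XT.lf (nat_lit 0) (nat_lit 147382917152) (nat_lit 76) (nat_lit 131186626256) (nat_lit 76) (nat_lit 86129036163) (nat_lit 4) (nat_lit 4) (nat_lit 5) (nat_lit 5) (nat_lit 5) (nat_lit 4) (nat_lit 378) (nat_lit 274) (nat_lit 128)) (XT.lf (nat_lit 0) (nat_lit 186028816165) (nat_lit 76) (nat_lit 120570616189) (nat_lit 76) (nat_lit 75511295239) (nat_lit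 4) (nat_lit 4) (nat_lit 5) (nat_lit 5) (nat_lit 5) (nat_lit 4) (nat_lit 379) (nat_lit 274) (nat_lit 127))) (XT.nd (nat_lit 78) (nat_lit 0) (nat_lit 0) (XT.lf (nat_lit 0) (nat_lit 226604669964) (nat_lit 76) (nat_lit 109424921999) (nat_lit 76) (nat_lit 64363952615) (nat_lit 4) (nat_lit 4) (nat_lit 5) (nat_lit 5) (nat_lit 5) (nat_lit 4) (nat_lit 380) (nat_lit 274) (nat_lit 126)) (XT.nd (nat_lit 78) (nat_lit 0) (nat_lit 0) (XT.lf (nat_lit 0) (nat_lit 269207087725) (nat_lit 76) (nat_lit 97723006320) (nat_lit 76) (nat_lit 52660466997) (nat_lit 4) (nat_lit 4) (nat_lit 5) (nat_lit 5) (nat_lit 5) (nat_lit 4) (nat_lit 381) (nat_lit 274) (nat_lit 125)) (XT.lf (nat_lit 0) (nat_lit 313937503776) (nat_lit 76) (nat_lit 85437007447) (nat_lit 76) (nat_lit 40372972944) (nat_lit 4) (nat_lit 4) (nat_lit 5) (nat_lit 5) (nat_lit 5) (nat_lit 4) (nat_lit 382) (nat_lit 274) (nat_lit 124))))) (XT.nd (nat_lit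 156) (nat_lit 152) (nat_lit 0) (XT.nd (nat_lit 78) (nat_lit 0) (nat_lit 0) (XT.lf (nat_lit 0) (nat_lit 360902419108) (nat_lit 76) (nat_lit 72537673002) (nat_lit 76) (nat_lit 27472214519) (nat_lit 4) (nat_lit 4) (nat_lit 5) (nat_lit 5) (nat_lit 5) (nat_lit 4) (nat_lit 383) (nat_lit 274) (nat_lit 123)) (XT.lf (nat_lit 0) (nat_lit 410213654947) (nat_lit 76) (nat_lit 58994290283) (nat_lit 76) (nat_lit 13927475628) (nat_lit 4) (nat_lit 4) (nat_lit 5) (nat_lit 5) (nat_lit 5) (nat_lit 4) (nat_lit 384) (nat_lit 274) (nat_lit 122))) (XT.nd (nat_lit 78) (nat_lit 76) (nat_lit 0) (XT.lf (nat_lit 0) (nat_lit 284099492) (nat_lit 152) (nat_lit 44485702287) (nat_lit 76) (nat_lit 461699708144) (nat_lit 3) (nat_lit 5) (nat_lit 5) (nat_lit 5) (nat_lit 4) (nat_lit 4) (nat_lit 385) (nat_lit 274) (nat_lit 121)) (XT.nd (nat_lit 78) (nat_lit 76) (nat_lit 0) (XT.lf (nat_lit 0) (nat_lit 14737270414) (nat_lit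 152) (nat_lit 14857931984) (nat_lit 76) (nat_lit 501363731766) (nat_lit 3) (nat_lit 5) (nat_lit 5) (nat_lit 5) (nat_lit 4) (nat_lit 4) (nat_lit 386) (nat_lit 274) (nat_lit 120)) (XT.lf (nat_lit 0) (nat_lit 16786817221) (nat_lit 76) (nat_lit 13387487690) (nat_lit 152) (nat_lit 526485464707) (nat_lit 2) (nat_lit 5) (nat_lit 3) (nat_lit 5) (nat_lit 4) (nat_lit 4) (nat_lit 387) (nat_lit 274) (nat_lit 119)))))) (XT.nd (nat_lit 390) (nat_lit 532) (nat_lit 0) (XT.nd (nat_lit 156) (nat_lit 0) (nat_lit 0) (XT.nd (nat_lit 78) (nat_lit 0) (nat_lit 0) (XT.lf (nat_lit 0) (nat_lit 2504172822) (nat_lit 684) (nat_lit 1021212649) (nat_lit 684) (nat_lit 1021212649) (nat_lit 103) (nat_lit 3) (nat_lit 112) (nat_lit 3) (nat_lit 112) (nat_lit 5) (nat_lit 275) (nat_lit 275) (nat_lit 230)) (XT.lf (nat_lit 76) (nat_lit 2228629119) (nat_lit 0) (nat_lit 3763316605) (nat_lit 684) (nat_lit 3284070959) (nat_lit 104)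 (nat_lit 5) (nat_lit 103) (nat_lit 3) (nat_lit 112) (nat_lit 5) (nat_lit 276) (nat_lit 275) (nat_lit 229))) (XT.nd (nat_lit 78) (nat_lit 0) (nat_lit 76) (XT.lf (nat_lit 76) (nat_lit 6755498681) (nat_lit 0) (nat_lit 250648894) (nat_lit 684) (nat_lit 2462861256) (nat_lit 104) (nat_lit 5) (nat_lit 103) (nat_lit 3) (nat_lit 112) (nat_lit 5) (nat_lit 277) (nat_lit 275) (nat_lit 228)) (XT.nd (nat_lit 78) (nat_lit 0) (nat_lit 0) (XT.lf (nat_lit 76) (nat_lit 1811080410) (nat_lit 0) (nat_lit 6291655257) (nat_lit 684) (nat_lit 1567428038) (nat_lit 105) (nat_lit 5) (nat_lit 104) (nat_lit 5) (nat_lit 113) (nat_lit 5) (nat_lit 278) (nat_lit 275) (nat_lit 227)) (XT.lf (nat_lit 76) (nat_lit 6622075673) (nat_lit 0) (nat_lit 2633732359) (nat_lit 684) (nat_lit 625577858) (nat_lit 105) (nat_lit 5) (nat_lit 104) (nat_lit 5) (nat_lit 113) (nat_lit 5) (nat_lit 279) (nat_lit 275) (nat_lit 226))))) (XT.nd (nat_lit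 234) (nat_lit 0) (nat_lit 76) (XT.nd (nat_lit 78) (nat_lit 0) (nat_lit 0) (XT.lf (nat_lit 0) (nat_lit 349217365) (nat_lit 684) (nat_lit 8538161176) (nat_lit 760) (nat_lit 1215716592) (nat_lit 96) (nat_lit 5) (nat_lit 105) (nat_lit 5) (nat_lit 106) (nat_lit 5) (nat_lit 280) (nat_lit 275) (nat_lit 225)) (XT.nd (nat_lit 78) (nat_lit 0) (nat_lit 0) (XT.lf (nat_lit 0) (nat_lit 1406142290) (nat_lit 684) (nat_lit 3676016878) (nat_lit 760) (nat_lit 5250576970) (nat_lit 96) (nat_lit 5) (nat_lit 105) (nat_lit 5) (nat_lit 106) (nat_lit 5) (nat_lit 281) (nat_lit 275) (nat_lit 224)) (XT.lf (nat_lit 76) (nat_lit 1444912305) (nat_lit 0) (nat_lit 1050831368) (nat_lit 760) (nat_lit 8079199955) (nat_lit 97) (nat_lit 5) (nat_lit 96) (nat_lit 5) (nat_lit 106) (nat_lit 5) (nat_lit 282) (nat_lit 275) (nat_lit 223)))) (XT.nd (nat_lit 78) (nat_lit 0) (nat_lit 0) (XT.lf (nat_lit 0) (nat_lit 3711791092) (nat_lit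 684) (nat_lit 3959718417) (nat_lit 760) (nat_lit 3154226012) (nat_lit 97) (nat_lit 5) (nat_lit 106) (nat_lit 5) (nat_lit 107) (nat_lit 5) (nat_lit 283) (nat_lit 275) (nat_lit 222)) (XT.nd (nat_lit 78) (nat_lit 0) (nat_lit 76) (XT.lf (nat_lit 76) (nat_lit 1468032316) (nat_lit 0) (nat_lit 3521716693) (nat_lit 760) (nat_lit 6099331478) (nat_lit 98) (nat_lit 5) (nat_lit 97) (nat_lit 5) (nat_lit 107) (nat_lit 5) (nat_lit 284) (nat_lit 275) (nat_lit 221)) (XT.lf (nat_lit 0) (nat_lit 6375270197) (nat_lit 684) (nat_lit 4104143870) (nat_lit 76) (nat_lit 884060969) (nat_lit 98) (nat_lit 5) (nat_lit 107) (nat_lit 5) (nat_lit 99) (nat_lit 5) (nat_lit 285) (nat_lit 275) (nat_lit 220))))))))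
noncomputable def xc150 : XT := (XT.nd (nat_lit 1560) (nat_lit 1900) (nat_lit 0) (XT.nd (nat_lit 780) (nat_lit 1444) (nat_lit 0) (XT.nd (nat_lit 390) (nat_lit 608) (nat_lit 0) (XT.nd (nat_lit 156) (nat_lit 988) (nat_lit 0) (XT.nd (nat_lit 78) (nat_lit 0) (nat_lit 0) (XT.lf (nat_lit 0) (nat_lit 1652916856) (nat_lit 684) (nat_lit 6224938659) (nat_lit 760) (nat_lit 3771406874) (nat_lit 89) (nat_lit 5) (nat_lit 98) (nat_lit 5) (nat_lit 99) (nat_lit 5) (nat_lit 286) (nat_lit 275) (nat_lit 219)) (XT.lf (nat_lit 0) (nat_lit 7809955567) (nat_lit 684) (nat_lit 1680596970) (nat_lit 760) (nat_lit 2457096955) (nat_lit 89) (nat_lit 5) (nat_lit 98) (nat_lit 5) (nat_lit 99) (nat_lit 5) (nat_lit 287) (nat_lit 275) (nat_lit 218))) (XT.nd (nat_lit 78) (nat_lit 456) (nat_lit 0) (XT.lf (nat_lit 0) (nat_lit 1998931602) (nat_lit 532) (nat_lit 9231602928) (nat_lit 608) (nat_lit 1028145585) (nat_lit 82) (nat_lit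 5) (nat_lit 89) (nat_lit 5) (nat_lit 90) (nat_lit 5) (nat_lit 288) (nat_lit 275) (nat_lit 217)) (XT.nd (nat_lit 78) (nat_lit 380) (nat_lit 0) (XT.lf (nat_lit 0) (nat_lit 523613425) (nat_lit 608) (nat_lit 4063094396) (nat_lit 76) (nat_lit 7994913435) (nat_lit 81) (nat_lit 5) (nat_lit 89) (nat_lit 5) (nat_lit 82) (nat_lit 5) (nat_lit 289) (nat_lit 275) (nat_lit 216)) (XT.lf (nat_lit 0) (nat_lit 2131763869) (nat_lit 456) (nat_lit 10449008259) (nat_lit 76) (nat_lit 338475741) (nat_lit 76) (nat_lit 5) (nat_lit 82) (nat_lit 5) (nat_lit 77) (nat_lit 5) (nat_lit 290) (nat_lit 275) (nat_lit 215))))) (XT.nd (nat_lit 156) (nat_lit 304) (nat_lit 0) (XT.nd (nat_lit 78) (nat_lit 304) (nat_lit 0) (XT.lf (nat_lit 0) (nat_lit 3935705463) (nat_lit 456) (nat_lit 3906205800) (nat_lit 76) (nat_lit 5426121993) (nat_lit 76) (nat_lit 5) (nat_lit 82) (nat_lit 5) (nat_lit 77) (nat_lit 5) (nat_lit 291) (nat_lit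 275) (nat_lit 214)) (XT.lf (nat_lit 0) (nat_lit 3031356925) (nat_lit 304) (nat_lit 2817484890) (nat_lit 380) (nat_lit 7784510617) (nat_lit 72) (nat_lit 5) (nat_lit 76) (nat_lit 5) (nat_lit 77) (nat_lit 5) (nat_lit 292) (nat_lit 275) (nat_lit 213))) (XT.nd (nat_lit 78) (nat_lit 304) (nat_lit 0) (XT.lf (nat_lit 0) (nat_lit 7935795536) (nat_lit 380) (nat_lit 3631999324) (nat_lit 76) (nat_lit 2445276967) (nat_lit 72) (nat_lit 5) (nat_lit 77) (nat_lit 5) (nat_lit 73) (nat_lit 5) (nat_lit 293) (nat_lit 275) (nat_lit 212)) (XT.nd (nat_lit 78) (nat_lit 0) (nat_lit 0) (XT.lf (nat_lit 0) (nat_lit 3730843865) (nat_lit 304) (nat_lit 6474541496) (nat_lit 380) (nat_lit 4202517686) (nat_lit 68) (nat_lit 5) (nat_lit 72) (nat_lit 5) (nat_lit 73) (nat_lit 5) (nat_lit 294) (nat_lit 275) (nat_lit 211)) (XT.lf (nat_lit 0) (nat_lit 11559514924) (nat_lit 304) (nat_lit 1065102266) (nat_lit 380) (nat_lit 2196088868)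 (nat_lit 68) (nat_lit 5) (nat_lit 72) (nat_lit 5) (nat_lit 73) (nat_lit 5) (nat_lit 295) (nat_lit 275) (nat_lit 210)))))) (XT.nd (nat_lit 390) (nat_lit 532) (nat_lit 0) (XT.nd (nat_lit 156) (nat_lit 532) (nat_lit 0) (XT.nd (nat_lit 78) (nat_lit 0) (nat_lit 0) (XT.lf (nat_lit 0) (nat_lit 34678213) (nat_lit 380) (nat_lit 10677301290) (nat_lit 76) (nat_lit 4536216379) (nat_lit 63) (nat_lit 5) (nat_lit 68) (nat_lit 5) (nat_lit 64) (nat_lit 5) (nat_lit 296) (nat_lit 275) (nat_lit 209)) (XT.lf (nat_lit 0) (nat_lit 2352890224) (nat_lit 380) (nat_lit 2869481974) (nat_lit 76) (nat_lit 10470435581) (nat_lit 63) (nat_lit 5) (nat_lit 68) (nat_lit 5) (nat_lit 64) (nat_lit 5) (nat_lit 297) (nat_lit 275) (nat_lit 208))) (XT.nd (nat_lit 78) (nat_lit 228) (nat_lit 0) (XT.lf (nat_lit 0) (nat_lit 4859560523) (nat_lit 380) (nat_lit 10689572695) (nat_lit 76) (nat_lit 606921226) (nat_lit 59) (nat_lit 5) (nat_lit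 64) (nat_lit 5) (nat_lit 60) (nat_lit 5) (nat_lit 298) (nat_lit 275) (nat_lit 207)) (XT.nd (nat_lit 78) (nat_lit 228) (nat_lit 0) (XT.lf (nat_lit 0) (nat_lit 7604411421) (nat_lit 380) (nat_lit 2435456641) (nat_lit 76) (nat_lit 6596983081) (nat_lit 59) (nat_lit 5) (nat_lit 64) (nat_lit 5) (nat_lit 60) (nat_lit 5) (nat_lit 299) (nat_lit 275) (nat_lit 206)) (XT.lf (nat_lit 0) (nat_lit 6409972676) (nat_lit 228) (nat_lit 4155506685) (nat_lit 304) (nat_lit 6572288212) (nat_lit 56) (nat_lit 5) (nat_lit 59) (nat_lit 5) (nat_lit 60) (nat_lit 5) (nat_lit 300) (nat_lit 275) (nat_lit 205))))) (XT.nd (nat_lit 156) (nat_lit 304) (nat_lit 0) (XT.nd (nat_lit 78) (nat_lit 228) (nat_lit 0) (XT.lf (nat_lit 0) (nat_lit 13727514538) (nat_lit 304) (nat_lit 1938790827) (nat_lit 76) (nat_lit 1994806028) (nat_lit 56) (nat_lit 5) (nat_lit 60) (nat_lit 5) (nat_lit 57) (nat_lit 5) (nat_lit 301) (nat_lit 275) (nat_lit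 204)) (XT.lf (nat_lit 0) (nat_lit 7433665728) (nat_lit 228) (nat_lit 9778556026) (nat_lit 304) (nat_lit 990198097) (nat_lit 53) (nat_lit 5) (nat_lit 56) (nat_lit 5) (nat_lit 57) (nat_lit 5) (nat_lit 302) (nat_lit 275) (nat_lit 203))) (XT.nd (nat_lit 78) (nat_lit 228) (nat_lit 0) (XT.lf (nat_lit 0) (nat_lit 2047106139) (nat_lit 304) (nat_lit 1486475087) (nat_lit 76) (nat_lit 15234898396) (nat_lit 52) (nat_lit 5) (nat_lit 56) (nat_lit 5) (nat_lit 53) (nat_lit 5) (nat_lit 303) (nat_lit 275) (nat_lit 202)) (XT.nd (nat_lit 78) (nat_lit 0) (nat_lit 0) (XT.lf (nat_lit 0) (nat_lit 5366621391) (nat_lit 304) (nat_lit 10915266511) (nat_lit 76) (nat_lit 3071984119) (nat_lit 49) (nat_lit 5) (nat_lit 53) (nat_lit 5) (nat_lit 50) (nat_lit 5) (nat_lit 304) (nat_lit 275) (nat_lit 201)) (XT.lf (nat_lit 0) (nat_lit 8917538197) (nat_lit 304) (nat_lit 1139296150) (nat_lit 76) (nat_lit 9908449763) (nat_lit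 49) (nat_lit 5) (nat_lit 53) (nat_lit 5) (nat_lit 50) (nat_lit 5) (nat_lit 305) (nat_lit 275) (nat_lit 200))))))) (XT.nd (nat_lit 780) (nat_lit 836) (nat_lit 0) (XT.nd (nat_lit 390) (nat_lit 380) (nat_lit 0) (XT.nd (nat_lit 156) (nat_lit 456) (nat_lit 0) (XT.nd (nat_lit 78) (nat_lit 0) (nat_lit 0) (XT.lf (nat_lit 0) (nat_lit 9402381203) (nat_lit 228) (nat_lit 3373189887) (nat_lit 304) (nat_lit 7825237543) (nat_lit 46) (nat_lit 5) (nat_lit 49) (nat_lit 5) (nat_lit 50) (nat_lit 5) (nat_lit 306) (nat_lit 275) (nat_lit 199)) (XT.lf (nat_lit 0) (nat_lit 16886136313) (nat_lit 304) (nat_lit 838057680) (nat_lit 76) (nat_lit 3540953228) (nat_lit 46) (nat_lit 5) (nat_lit 50) (nat_lit 5) (nat_lit 47) (nat_lit 5) (nat_lit 307) (nat_lit 275) (nat_lit 198))) (XT.nd (nat_lit 78) (nat_lit 304) (nat_lit 0) (XT.lf (nat_lit 0) (nat_lit 10291186071) (nat_lit 152) (nat_lit 11110936989) (nat_lit 228) (nat_lit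 550603464) (nat_lit 44) (nat_lit 5) (nat_lit 46) (nat_lit 5) (nat_lit 47) (nat_lit 5) (nat_lit 308) (nat_lit 275) (nat_lit 197)) (XT.nd (nat_lit 78) (nat_lit 228) (nat_lit 0) (XT.lf (nat_lit 0) (nat_lit 3356668864) (nat_lit 228) (nat_lit 745782439) (nat_lit 76) (nat_lit 18569617942) (nat_lit 43) (nat_lit 5) (nat_lit 46) (nat_lit 5) (nat_lit 44) (nat_lit 5) (nat_lit 309) (nat_lit 275) (nat_lit 196)) (XT.lf (nat_lit 0) (nat_lit 7651650514) (nat_lit 304) (nat_lit 12435061277) (nat_lit 76) (nat_lit 3329689456) (nat_lit 40) (nat_lit 5) (nat_lit 44) (nat_lit 5) (nat_lit 41) (nat_lit 5) (nat_lit 310) (nat_lit 275) (nat_lit 195))))) (XT.nd (nat_lit 156) (nat_lit 228) (nat_lit 0) (XT.nd (nat_lit 78) (nat_lit 152) (nat_lit 0) (XT.lf (nat_lit 0) (nat_lit 12226556442) (nat_lit 304) (nat_lit 966636724) (nat_lit 76) (nat_lit 11001513101) (nat_lit 40) (nat_lit 5) (nat_lit 44) (nat_lit 5) (nat_lit 41)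 (nat_lit 5) (nat_lit 311) (nat_lit 275) (nat_lit 194)) (XT.lf (nat_lit 0) (nat_lit 11419201073) (nat_lit 152) (nat_lit 5775087237) (nat_lit 228) (nat_lit 7809448654) (nat_lit 38) (nat_lit 5) (nat_lit 40) (nat_lit 5) (nat_lit 41) (nat_lit 5) (nat_lit 312) (nat_lit 275) (nat_lit 193))) (XT.nd (nat_lit 78) (nat_lit 228) (nat_lit 0) (XT.lf (nat_lit 0) (nat_lit 22444515988) (nat_lit 228) (nat_lit 1447961809) (nat_lit 76) (nat_lit 1959049705) (nat_lit 38) (nat_lit 5) (nat_lit 41) (nat_lit 5) (nat_lit 39) (nat_lit 5) (nat_lit 313) (nat_lit 275) (nat_lit 192)) (XT.nd (nat_lit 78) (nat_lit 0) (nat_lit 0) (XT.lf (nat_lit 0) (nat_lit 1442609582) (nat_lit 228) (nat_lit 15202178042) (nat_lit 76) (nat_lit 10082685166) (nat_lit 35) (nat_lit 5) (nat_lit 38) (nat_lit 5) (nat_lit 36) (nat_lit 5) (nat_lit 314) (nat_lit 275) (nat_lit 191)) (XT.lf (nat_lit 0) (nat_lit 6431921058) (nat_lit 228) (nat_lit 2525579482)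 (nat_lit 76) (nat_lit 18686348698) (nat_lit 35) (nat_lit 5) (nat_lit 38) (nat_lit 5) (nat_lit 36) (nat_lit 5) (nat_lit 315) (nat_lit 275) (nat_lit 190)))))) (XT.nd (nat_lit 390) (nat_lit 304) (nat_lit 0) (XT.nd (nat_lit 156) (nat_lit 380) (nat_lit 0) (XT.nd (nat_lit 78) (nat_lit 0) (nat_lit 0) (XT.lf (nat_lit 0) (nat_lit 11120960931) (nat_lit 152) (nat_lit 710779230) (nat_lit 228) (nat_lit 16766263575) (nat_lit 33) (nat_lit 5) (nat_lit 35) (nat_lit 5) (nat_lit 36) (nat_lit 5) (nat_lit 316) (nat_lit 275) (nat_lit 189)) (XT.lf (nat_lit 0) (nat_lit 17656713045) (nat_lit 228) (nat_lit 4205033870) (nat_lit 76) (nat_lit 7730371689) (nat_lit 33) (nat_lit 5) (nat_lit 36) (nat_lit 5) (nat_lit 34) (nat_lit 5) (nat_lit 317) (nat_lit 275) (nat_lit 188))) (XT.nd (nat_lit 78) (nat_lit 228) (nat_lit 0) (XT.lf (nat_lit 0) (nat_lit 10020576599) (nat_lit 152) (nat_lit 13908644935) (nat_lit 228) (nat_lit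 6698913606) (nat_lit 31) (nat_lit 5) (nat_lit 33) (nat_lit 5) (nat_lit 34) (nat_lit 5) (nat_lit 318) (nat_lit 275) (nat_lit 187)) (XT.nd (nat_lit 78) (nat_lit 228) (nat_lit 0) (XT.lf (nat_lit 0) (nat_lit 25084696595) (nat_lit 152) (nat_lit 5490328389) (nat_lit 228) (nat_lit 1137953828) (nat_lit 31) (nat_lit 5) (nat_lit 33) (nat_lit 5) (nat_lit 34) (nat_lit 5) (nat_lit 319) (nat_lit 275) (nat_lit 186)) (XT.lf (nat_lit 0) (nat_lit 4723249533) (nat_lit 228) (nat_lit 24676574399) (nat_lit 76) (nat_lit 3439946845) (nat_lit 28) (nat_lit 5) (nat_lit 31) (nat_lit 5) (nat_lit 29) (nat_lit 5) (nat_lit 320) (nat_lit 275) (nat_lit 185))))) (XT.nd (nat_lit 234) (nat_lit 152) (nat_lit 0) (XT.nd (nat_lit 78) (nat_lit 152) (nat_lit 0) (XT.lf (nat_lit 0) (nat_lit 11032327576) (nat_lit 228) (nat_lit 10221819148) (nat_lit 76) (nat_lit 12758178459) (nat_lit 28) (nat_lit 5) (nat_lit 31) (nat_lit 5) (nat_lit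 29) (nat_lit 5) (nat_lit 321) (nat_lit 275) (nat_lit 184)) (XT.nd (nat_lit 78) (nat_lit 0) (nat_lit 0) (XT.lf (nat_lit 0) (nat_lit 5101430763) (nat_lit 152) (nat_lit 12624560635) (nat_lit 228) (nat_lit 17514067368) (nat_lit 26) (nat_lit 5) (nat_lit 28) (nat_lit 5) (nat_lit 29) (nat_lit 5) (nat_lit 322) (nat_lit 275) (nat_lit 183)) (XT.lf (nat_lit 0) (nat_lit 21528483497) (nat_lit 152) (nat_lit 3388682226) (nat_lit 228) (nat_lit 11603879605) (nat_lit 26) (nat_lit 5) (nat_lit 28) (nat_lit 5) (nat_lit 29) (nat_lit 5) (nat_lit 323) (nat_lit 275) (nat_lit 182)))) (XT.nd (nat_lit 78) (nat_lit 76) (nat_lit 0) (XT.lf (nat_lit 0) (nat_lit 821798404) (nat_lit 76) (nat_lit 31747534132) (nat_lit 152) (nat_lit 5291684295) (nat_lit 25) (nat_lit 5) (nat_lit 26) (nat_lit 5) (nat_lit 27) (nat_lit 4) (nat_lit 324) (nat_lit 275) (nat_lit 181)) (XT.nd (nat_lit 78) (nat_lit 0) (nat_lit 0) (XT.lf (nat_lit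 0) (nat_lit 1597127200) (nat_lit 152) (nat_lit 21405354287) (nat_lit 76) (nat_lit 16249280483) (nat_lit 24) (nat_lit 5) (nat_lit 26) (nat_lit 5) (nat_lit 25) (nat_lit 5) (nat_lit 325) (nat_lit 275) (nat_lit 180)) (XT.lf (nat_lit 0) (nat_lit 8643162811) (nat_lit 152) (nat_lit 5092614512) (nat_lit 76) (nat_lit 26972404964) (nat_lit 24) (nat_lit 5) (nat_lit 26) (nat_lit 5) (nat_lit 25) (nat_lit 5) (nat_lit 326) (nat_lit 275) (nat_lit 179))))))))
noncomputable def xc151 : XT := (XT.nd (nat_lit 1638) (nat_lit 456) (nat_lit 0) (XT.nd (nat_lit 780) (nat_lit 456) (nat_lit 0) (XT.nd (nat_lit 390) (nat_lit 228) (nat_lit 0) (XT.nd (nat_lit 156) (nat_lit 152) (nat_lit 0) (XT.nd (nat_lit 78) (nat_lit 0) (nat_lit 0) (XT.lf (nat_lit 0) (nat_lit 12417909429) (nat_lit 152) (nat_lit 3808534695) (nat_lit 228) (nat_lit 26001738305) (nat_lit 22) (nat_lit 5) (nat_lit 24) (nat_lit 5) (nat_lit 25) (nat_lit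 5) (nat_lit 327) (nat_lit 275) (nat_lit 178)) (XT.lf (nat_lit 0) (nat_lit 24370986416) (nat_lit 228) (nat_lit 12959201303) (nat_lit 76) (nat_lit 6484895736) (nat_lit 22) (nat_lit 5) (nat_lit 25) (nat_lit 5) (nat_lit 23) (nat_lit 4) (nat_lit 328) (nat_lit 275) (nat_lit 177))) (XT.nd (nat_lit 78) (nat_lit 76) (nat_lit 0) (XT.lf (nat_lit 0) (nat_lit 4811313431) (nat_lit 76) (nat_lit 28240573922) (nat_lit 152) (nat_lit 12422991051) (nat_lit 21) (nat_lit 5) (nat_lit 22) (nat_lit 5) (nat_lit 23) (nat_lit 4) (nat_lit 329) (nat_lit 275) (nat_lit 176)) (XT.nd (nat_lit 78) (nat_lit 76) (nat_lit 0) (XT.lf (nat_lit 0) (nat_lit 23905837052) (nat_lit 76) (nat_lit 18472220794) (nat_lit 152) (nat_lit 4829049217) (nat_lit 21) (nat_lit 5) (nat_lit 22) (nat_lit 5) (nat_lit 23) (nat_lit 4) (nat_lit 330) (nat_lit 275) (nat_lit 175)) (XT.lf (nat_lit 0) (nat_lit 3035956499) (nat_lit 152) (nat_lit 5133968805)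 (nat_lit 76) (nat_lit 40853971100) (nat_lit 20) (nat_lit 5) (nat_lit 22) (nat_lit 5) (nat_lit 21) (nat_lit 5) (nat_lit 331) (nat_lit 275) (nat_lit 174))))) (XT.nd (nat_lit 156) (nat_lit 76) (nat_lit 0) (XT.nd (nat_lit 78) (nat_lit 0) (nat_lit 0) (XT.lf (nat_lit 0) (nat_lit 11393897101) (nat_lit 228) (nat_lit 36655883767) (nat_lit 76) (nat_lit 2864691974) (nat_lit 18) (nat_lit 5) (nat_lit 21) (nat_lit 5) (nat_lit 19) (nat_lit 4) (nat_lit 332) (nat_lit 275) (nat_lit 173)) (XT.lf (nat_lit 0) (nat_lit 20384501663) (nat_lit 228) (nat_lit 18244992845) (nat_lit 76) (nat_lit 14259349516) (nat_lit 18) (nat_lit 5) (nat_lit 21) (nat_lit 5) (nat_lit 19) (nat_lit 4) (nat_lit 333) (nat_lit 275) (nat_lit 172))) (XT.nd (nat_lit 78) (nat_lit 0) (nat_lit 0) (XT.lf (nat_lit 0) (nat_lit 1109163582) (nat_lit 76) (nat_lit 28725611102) (nat_lit 152) (nat_lit 25126656235) (nat_lit 17) (nat_lit 5) (nat_lit 18)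 (nat_lit 5) (nat_lit 19) (nat_lit 4) (nat_lit 334) (nat_lit 275) (nat_lit 171)) (XT.nd (nat_lit 78) (nat_lit 0) (nat_lit 0) (XT.lf (nat_lit 0) (nat_lit 22051879701) (nat_lit 76) (nat_lit 18007636071) (nat_lit 152) (nat_lit 17063037539) (nat_lit 17) (nat_lit 5) (nat_lit 18) (nat_lit 5) (nat_lit 19) (nat_lit 4) (nat_lit 335) (nat_lit 275) (nat_lit 170)) (XT.lf (nat_lit 0) (nat_lit 44029757259) (nat_lit 76) (nat_lit 6759038210) (nat_lit 152) (nat_lit 8603274964) (nat_lit 17) (nat_lit 5) (nat_lit 18) (nat_lit 5) (nat_lit 19) (nat_lit 4) (nat_lit 336) (nat_lit 275) (nat_lit 169)))))) (XT.nd (nat_lit 390) (nat_lit 228) (nat_lit 0) (XT.nd (nat_lit 156) (nat_lit 76) (nat_lit 0) (XT.nd (nat_lit 78) (nat_lit 0) (nat_lit 0) (XT.lf (nat_lit 0) (nat_lit 430049413) (nat_lit 152) (nat_lit 56359925183) (nat_lit 76) (nat_lit 4976898056) (nat_lit 15) (nat_lit 5) (nat_lit 17) (nat_lit 5) (nat_lit 16) (nat_lit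 4) (nat_lit 337) (nat_lit 275) (nat_lit 168)) (XT.lf (nat_lit 0) (nat_lit 9994714395) (nat_lit 152) (nat_lit 36767173175) (nat_lit 76) (nat_lit 17473038693) (nat_lit 15) (nat_lit 5) (nat_lit 17) (nat_lit 5) (nat_lit 16) (nat_lit 4) (nat_lit 338) (nat_lit 275) (nat_lit 167))) (XT.nd (nat_lit 78) (nat_lit 76) (nat_lit 0) (XT.lf (nat_lit 0) (nat_lit 20031482791) (nat_lit 152) (nat_lit 16205903871) (nat_lit 76) (nat_lit 30589305416) (nat_lit 15) (nat_lit 5) (nat_lit 17) (nat_lit 5) (nat_lit 16) (nat_lit 4) (nat_lit 339) (nat_lit 275) (nat_lit 166)) (XT.nd (nat_lit 78) (nat_lit 0) (nat_lit 0) (XT.lf (nat_lit 0) (nat_lit 5550488423) (nat_lit 76) (nat_lit 25100421925) (nat_lit 152) (nat_lit 38893097690) (nat_lit 14) (nat_lit 5) (nat_lit 15) (nat_lit 5) (nat_lit 16) (nat_lit 4) (nat_lit 340) (nat_lit 275) (nat_lit 165)) (XT.lf (nat_lit 0) (nat_lit 28946912774) (nat_lit 76) (nat_lit 13123128709)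 (nat_lit 152) (nat_lit 30313714454) (nat_lit 14) (nat_lit 5) (nat_lit 15) (nat_lit 5) (nat_lit 16) (nat_lit 4) (nat_lit 341) (nat_lit 275) (nat_lit 164))))) (XT.nd (nat_lit 234) (nat_lit 152) (nat_lit 0) (XT.nd (nat_lit 78) (nat_lit 76) (nat_lit 0) (XT.lf (nat_lit 0) (nat_lit 53503234582) (nat_lit 76) (nat_lit 551444473) (nat_lit 152) (nat_lit 21311087303) (nat_lit 14) (nat_lit 5) (nat_lit 15) (nat_lit 5) (nat_lit 16) (nat_lit 4) (nat_lit 342) (nat_lit 275) (nat_lit 163)) (XT.nd (nat_lit 78) (nat_lit 0) (nat_lit 0) (XT.lf (nat_lit 0) (nat_lit 602653561) (nat_lit 76) (nat_lit 66237530536) (nat_lit 76) (nat_lit 11646613919) (nat_lit 13) (nat_lit 4) (nat_lit 14) (nat_lit 5) (nat_lit 14) (nat_lit 4) (nat_lit 343) (nat_lit 275) (nat_lit 162)) (XT.lf (nat_lit 0) (nat_lit 24931285811) (nat_lit 76) (nat_lit 55707670447) (nat_lit 76) (nat_lit 1106227784) (nat_lit 13) (nat_lit 4) (nat_lit 14)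 (nat_lit 5) (nat_lit 14) (nat_lit 4) (nat_lit 344) (nat_lit 275) (nat_lit 161)))) (XT.nd (nat_lit 78) (nat_lit 76) (nat_lit 0) (XT.lf (nat_lit 0) (nat_lit 9637365609) (nat_lit 152) (nat_lit 34854867970) (nat_lit 76) (nat_lit 40666731458) (nat_lit 12) (nat_lit 5) (nat_lit 14) (nat_lit 5) (nat_lit 13) (nat_lit 4) (nat_lit 345) (nat_lit 275) (nat_lit 160)) (XT.nd (nat_lit 78) (nat_lit 76) (nat_lit 0) (XT.lf (nat_lit 0) (nat_lit 20876207731) (nat_lit 152) (nat_lit 11824789053) (nat_lit 76) (nat_lit 56041771329) (nat_lit 12) (nat_lit 5) (nat_lit 14) (nat_lit 5) (nat_lit 13) (nat_lit 4) (nat_lit 346) (nat_lit 275) (nat_lit 159)) (XT.lf (nat_lit 0) (nat_lit 12756738660) (nat_lit 76) (nat_lit 20114893709) (nat_lit 152) (nat_lit 59624398909) (nat_lit 11) (nat_lit 5) (nat_lit 12) (nat_lit 5) (nat_lit 13) (nat_lit 4) (nat_lit 347) (nat_lit 275) (nat_lit 158))))))) (XT.nd (nat_lit 780) (nat_lit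 228) (nat_lit 0) (XT.nd (nat_lit 390) (nat_lit 152) (nat_lit 0) (XT.nd (nat_lit 156) (nat_lit 76) (nat_lit 0) (XT.nd (nat_lit 78) (nat_lit 0) (nat_lit 0) (XT.lf (nat_lit 0) (nat_lit 38969656966) (nat_lit 76) (nat_lit 6692989115) (nat_lit 152) (nat_lit 50764522491) (nat_lit 11) (nat_lit 5) (nat_lit 12) (nat_lit 5) (nat_lit 13) (nat_lit 4) (nat_lit 348) (nat_lit 275) (nat_lit 157)) (XT.lf (nat_lit 0) (nat_lit 59204460031) (nat_lit 152) (nat_lit 34185158093) (nat_lit 0) (nat_lit 7159683903) (nat_lit 11) (nat_lit 5) (nat_lit 13) (nat_lit 4) (nat_lit 11) (nat_lit 4) (nat_lit 349) (nat_lit 275) (nat_lit 156))) (XT.nd (nat_lit 78) (nat_lit 76) (nat_lit 0) (XT.lf (nat_lit 0) (nat_lit 73529004521) (nat_lit 152) (nat_lit 9866509602) (nat_lit 0) (nat_lit 21476747728) (nat_lit 11) (nat_lit 5) (nat_lit 13) (nat_lit 4) (nat_lit 11) (nat_lit 4) (nat_lit 350) (nat_lit 275) (nat_lit 155)) (XT.nd (nat_lit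 78) (nat_lit 0) (nat_lit 0) (XT.lf (nat_lit 0) (nat_lit 16178649550) (nat_lit 76) (nat_lit 72639833802) (nat_lit 76) (nat_lit 20580452568) (nat_lit 10) (nat_lit 4) (nat_lit 11) (nat_lit 5) (nat_lit 11) (nat_lit 4) (nat_lit 351) (nat_lit 275) (nat_lit 154)) (XT.lf (nat_lit 0) (nat_lit 43861486776) (nat_lit 76) (nat_lit 61174230407) (nat_lit 76) (nat_lit 9108063989) (nat_lit 10) (nat_lit 4) (nat_lit 11) (nat_lit 5) (nat_lit 11) (nat_lit 4) (nat_lit 352) (nat_lit 275) (nat_lit 153))))) (XT.nd (nat_lit 156) (nat_lit 76) (nat_lit 0) (XT.nd (nat_lit 78) (nat_lit 0) (nat_lit 0) (XT.lf (nat_lit 0) (nat_lit 2840219033) (nat_lit 152) (nat_lit 46250179478) (nat_lit 76) (nat_lit 70033362710) (nat_lit 9) (nat_lit 5) (nat_lit 11) (nat_lit 5) (nat_lit 10) (nat_lit 4) (nat_lit 353) (nat_lit 275) (nat_lit 152)) (XT.lf (nat_lit 0) (nat_lit 15076308934) (nat_lit 152) (nat_lit 21172349542) (nat_lit 76)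 (nat_lit 88096793324) (nat_lit 9) (nat_lit 5) (nat_lit 11) (nat_lit 5) (nat_lit 10) (nat_lit 4) (nat_lit 354) (nat_lit 275) (nat_lit 151))) (XT.nd (nat_lit 78) (nat_lit 0) (nat_lit 0) (XT.lf (nat_lit 0) (nat_lit 5323491920) (nat_lit 76) (nat_lit 22680476896) (nat_lit 152) (nat_lit 101820271078) (nat_lit 8) (nat_lit 5) (nat_lit 9) (nat_lit 5) (nat_lit 10) (nat_lit 4) (nat_lit 355) (nat_lit 275) (nat_lit 150)) (XT.nd (nat_lit 78) (nat_lit 0) (nat_lit 0) (XT.lf (nat_lit 0) (nat_lit 33873017714) (nat_lit 76) (nat_lit 8060272068) (nat_lit 152) (nat_lit 93625914906) (nat_lit 8) (nat_lit 5) (nat_lit 9) (nat_lit 5) (nat_lit 10) (nat_lit 4) (nat_lit 356) (nat_lit 275) (nat_lit 149)) (XT.lf (nat_lit 0) (nat_lit 56669736634) (nat_lit 152) (nat_lit 77850715188) (nat_lit 0) (nat_lit 7054934053) (nat_lit 8) (nat_lit 5) (nat_lit 10) (nat_lit 4) (nat_lit 8) (nat_lit 4) (nat_lit 357) (nat_lit 275) (nat_lit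 148)))))) (XT.nd (nat_lit 390) (nat_lit 152) (nat_lit 0) (XT.nd (nat_lit 156) (nat_lit 76) (nat_lit 0) (XT.nd (nat_lit 78) (nat_lit 0) (nat_lit 0) (XT.lf (nat_lit 0) (nat_lit 72272120276) (nat_lit 152) (nat_lit 52961305620) (nat_lit 0) (nat_lit 22652495591) (nat_lit 8) (nat_lit 5) (nat_lit 10) (nat_lit 4) (nat_lit 8) (nat_lit 4) (nat_lit 358) (nat_lit 275) (nat_lit 147)) (XT.lf (nat_lit 0) (nat_lit 88651745805) (nat_lit 152) (nat_lit 26832854335) (nat_lit 0) (nat_lit 39027528642) (nat_lit 8) (nat_lit 5) (nat_lit 10) (nat_lit 4) (nat_lit 8) (nat_lit 4) (nat_lit 359) (nat_lit 275) (nat_lit 146))) (XT.nd (nat_lit 78) (nat_lit 0) (nat_lit 0) (XT.lf (nat_lit 0) (nat_lit 616583796) (nat_lit 76) (nat_lit 105240655135) (nat_lit 76) (nat_lit 55612064182) (nat_lit 7) (nat_lit 4) (nat_lit 8) (nat_lit 5) (nat_lit 8) (nat_lit 4) (nat_lit 360) (nat_lit 275) (nat_lit 145)) (XT.nd (nat_lit 78) (nat_lit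 0) (nat_lit 0) (XT.lf (nat_lit 0) (nat_lit 30364983089) (nat_lit 76) (nat_lit 94009761786) (nat_lit 76) (nat_lit 44377005319) (nat_lit 7) (nat_lit 4) (nat_lit 8) (nat_lit 5) (nat_lit 8) (nat_lit 4) (nat_lit 361) (nat_lit 275) (nat_lit 144)) (XT.lf (nat_lit 0) (nat_lit 61595957719) (nat_lit 76) (nat_lit 82219607243) (nat_lit 76) (nat_lit 32582883619) (nat_lit 7) (nat_lit 4) (nat_lit 8) (nat_lit 5) (nat_lit 8) (nat_lit 4) (nat_lit 362) (nat_lit 275) (nat_lit 143))))) (XT.nd (nat_lit 234) (nat_lit 76) (nat_lit 0) (XT.nd (nat_lit 78) (nat_lit 76) (nat_lit 0) (XT.lf (nat_lit 0) (nat_lit 94383867150) (nat_lit 76) (nat_lit 69842119709) (nat_lit 76) (nat_lit 20201617842) (nat_lit 7) (nat_lit 4) (nat_lit 8) (nat_lit 5) (nat_lit 8) (nat_lit 4) (nat_lit 363) (nat_lit 275) (nat_lit 142)) (XT.nd (nat_lit 78) (nat_lit 76) (nat_lit 0) (XT.lf (nat_lit 0) (nat_lit 128806777834) (nat_lit 76) (nat_lit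 56847828977) (nat_lit 76) (nat_lit 7203728782) (nat_lit 7) (nat_lit 4) (nat_lit 8) (nat_lit 5) (nat_lit 8) (nat_lit 4) (nat_lit 364) (nat_lit 275) (nat_lit 141)) (XT.lf (nat_lit 0) (nat_lit 6235555296) (nat_lit 152) (nat_lit 36864638815) (nat_lit 76) (nat_lit 158605491638) (nat_lit 6) (nat_lit 5) (nat_lit 8) (nat_lit 5) (nat_lit 7) (nat_lit 4) (nat_lit 365) (nat_lit 275) (nat_lit 140)))) (XT.nd (nat_lit 78) (nat_lit 76) (nat_lit 0) (XT.lf (nat_lit 0) (nat_lit 20102568731) (nat_lit 152) (nat_lit 8440525062) (nat_lit 76) (nat_lit 182446512743) (nat_lit 6) (nat_lit 5) (nat_lit 8) (nat_lit 5) (nat_lit 7) (nat_lit 4) (nat_lit 366) (nat_lit 275) (nat_lit 139)) (XT.nd (nat_lit 78) (nat_lit 0) (nat_lit 0) (XT.lf (nat_lit 0) (nat_lit 22108541762) (nat_lit 76) (nat_lit 12897527064) (nat_lit 152) (nat_lit 185714498405) (nat_lit 5) (nat_lit 5) (nat_lit 6) (nat_lit 5) (nat_lit 7) (nat_lit 4) (nat_lit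 367) (nat_lit 275) (nat_lit 138)) (XT.lf (nat_lit 0) (nat_lit 50853119215) (nat_lit 152) (nat_lit 176514166723) (nat_lit 0) (nat_lit 3560871896) (nat_lit 5) (nat_lit 5) (nat_lit 7) (nat_lit 4) (nat_lit 5) (nat_lit 4) (nat_lit 368) (nat_lit 275) (nat_lit 137))))))))
noncomputable def xc152 : XT := (XT.nd (nat_lit 33462) (nat_lit 0) (nat_lit 4560) (XT.nd (nat_lit 780) (nat_lit 76) (nat_lit 0) (XT.nd (nat_lit 390) (nat_lit 76) (nat_lit 0) (XT.nd (nat_lit 156) (nat_lit 0) (nat_lit 0) (XT.nd (nat_lit 78) (nat_lit 0) (nat_lit 0) (XT.lf (nat_lit 0) (nat_lit 67702023093) (nat_lit 152) (nat_lit 153526539786) (nat_lit 0) (nat_lit 20407090646) (nat_lit 5) (nat_lit 5) (nat_lit 7) (nat_lit 4) (nat_lit 5) (nat_lit 4) (nat_lit 369) (nat_lit 275) (nat_lit 136)) (XT.lf (nat_lit 0) (nat_lit 85391530355) (nat_lit 152) (nat_lit 129393045670) (nat_lit 0) (nat_lit 38094040643) (nat_lit 5) (nat_lit 5) (nat_lit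 7) (nat_lit 4) (nat_lit 5) (nat_lit 4) (nat_lit 370) (nat_lit 275) (nat_lit 135))) (XT.nd (nat_lit 78) (nat_lit 0) (nat_lit 0) (XT.lf (nat_lit 0) (nat_lit 103963758874) (nat_lit 152) (nat_lit 104056223676) (nat_lit 0) (nat_lit 56663833673) (nat_lit 5) (nat_lit 5) (nat_lit 7) (nat_lit 4) (nat_lit 5) (nat_lit 4) (nat_lit 371) (nat_lit 275) (nat_lit 134)) (XT.nd (nat_lit 78) (nat_lit 0) (nat_lit 0) (XT.lf (nat_lit 0) (nat_lit 123462928244) (nat_lit 152) (nat_lit 77455748037) (nat_lit 0) (nat_lit 76160683529) (nat_lit 5) (nat_lit 5) (nat_lit 7) (nat_lit 4) (nat_lit 5) (nat_lit 4) (nat_lit 372) (nat_lit 275) (nat_lit 133)) (XT.lf (nat_lit 0) (nat_lit 143935465057) (nat_lit 152) (nat_lit 49528284287) (nat_lit 0) (nat_lit 96631011281) (nat_lit 5) (nat_lit 5) (nat_lit 7) (nat_lit 4) (nat_lit 5) (nat_lit 4) (nat_lit 373) (nat_lit 275) (nat_lit 132))))) (XT.nd (nat_lit 156) (nat_lit 0) (nat_lit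 0) (XT.nd (nat_lit 78) (nat_lit 76) (nat_lit 0) (XT.lf (nat_lit 0) (nat_lit 165430113450) (nat_lit 152) (nat_lit 20207338464) (nat_lit 0) (nat_lit 118123555806) (nat_lit 5) (nat_lit 5) (nat_lit 7) (nat_lit 4) (nat_lit 5) (nat_lit 4) (nat_lit 374) (nat_lit 275) (nat_lit 131)) (XT.lf (nat_lit 0) (nat_lit 10926621326) (nat_lit 76) (nat_lit 177242025009) (nat_lit 76) (nat_lit 129933463682) (nat_lit 4) (nat_lit 4) (nat_lit 5) (nat_lit 5) (nat_lit 5) (nat_lit 4) (nat_lit 375) (nat_lit 275) (nat_lit 130))) (XT.nd (nat_lit 78) (nat_lit 0) (nat_lit 0) (XT.lf (nat_lit 0) (nat_lit 44316123237) (nat_lit 76) (nat_lit 168068787002) (nat_lit 76) (nat_lit 120758317405) (nat_lit 4) (nat_lit 4) (nat_lit 5) (nat_lit 5) (nat_lit 5) (nat_lit 4) (nat_lit 376) (nat_lit 275) (nat_lit 129)) (XT.nd (nat_lit 78) (nat_lit 0) (nat_lit 0) (XT.lf (nat_lit 0) (nat_lit 79372520211) (nat_lit 76) (nat_lit 158438117903)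 (nat_lit 76) (nat_lit 111125830906) (nat_lit 4) (nat_lit 4) (nat_lit 5) (nat_lit 5) (nat_lit 5) (nat_lit 4) (nat_lit 377) (nat_lit 275) (nat_lit 128)) (XT.lf (nat_lit 0) (nat_lit 116179279862) (nat_lit 76) (nat_lit 148327087550) (nat_lit 76) (nat_lit 101013069696) (nat_lit 4) (nat_lit 4) (nat_lit 5) (nat_lit 5) (nat_lit 5) (nat_lit 4) (nat_lit 378) (nat_lit 275) (nat_lit 127)))))) (XT.nd (nat_lit 390) (nat_lit 76) (nat_lit 0) (XT.nd (nat_lit 156) (nat_lit 0) (nat_lit 0) (XT.nd (nat_lit 78) (nat_lit 0) (nat_lit 0) (XT.lf (nat_lit 0) (nat_lit 154824037331) (nat_lit 76) (nat_lit 137711622059) (nat_lit 76) (nat_lit 90395955770) (nat_lit 4) (nat_lit 4) (nat_lit 5) (nat_lit 5) (nat_lit 5) (nat_lit 4) (nat_lit 379) (nat_lit 275) (nat_lit 126)) (XT.lf (nat_lit 0) (nat_lit 195398803946) (nat_lit 76) (nat_lit 126566446513) (nat_lit 76) (nat_lit 79249210285) (nat_lit 4) (nat_lit 4) (nat_lit 5)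 (nat_lit 5) (nat_lit 5) (nat_lit 4) (nat_lit 380) (nat_lit 275) (nat_lit 125))) (XT.nd (nat_lit 78) (nat_lit 0) (nat_lit 0) (XT.lf (nat_lit 0) (nat_lit 238000186293) (nat_lit 76) (nat_lit 114865024780) (nat_lit 76) (nat_lit 67546293373) (nat_lit 4) (nat_lit 4) (nat_lit 5) (nat_lit 5) (nat_lit 5) (nat_lit 4) (nat_lit 381) (nat_lit 275) (nat_lit 124)) (XT.nd (nat_lit 78) (nat_lit 0) (nat_lit 0) (XT.lf (nat_lit 0) (nat_lit 282729616236) (nat_lit 76) (nat_lit 102579496332) (nat_lit 76) (nat_lit 55259340945) (nat_lit 4) (nat_lit 4) (nat_lit 5) (nat_lit 5) (nat_lit 5) (nat_lit 4) (nat_lit 382) (nat_lit 275) (nat_lit 123)) (XT.lf (nat_lit 0) (nat_lit 329693592417) (nat_lit 76) (nat_lit 89680609911) (nat_lit 76) (nat_lit 42359098351) (nat_lit 4) (nat_lit 4) (nat_lit 5) (nat_lit 5) (nat_lit 5) (nat_lit 4) (nat_lit 383) (nat_lit 275) (nat_lit 122))))) (XT.nd (nat_lit 156) (nat_lit 76) (nat_lit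 0) (XT.nd (nat_lit 78) (nat_lit 0) (nat_lit 0) (XT.lf (nat_lit 0) (nat_lit 379003933827) (nat_lit 76) (nat_lit 76137653882) (nat_lit 76) (nat_lit 28814850730) (nat_lit 4) (nat_lit 4) (nat_lit 5) (nat_lit 5) (nat_lit 5) (nat_lit 4) (nat_lit 384) (nat_lit 275) (nat_lit 121)) (XT.lf (nat_lit 0) (nat_lit 430778046041) (nat_lit 76) (nat_lit 61918383111) (nat_lit 76) (nat_lit 14594349872) (nat_lit 4) (nat_lit 4) (nat_lit 5) (nat_lit 5) (nat_lit 5) (nat_lit 4) (nat_lit 385) (nat_lit 275) (nat_lit 120))) (XT.nd (nat_lit 78) (nat_lit 0) (nat_lit 0) (XT.lf (nat_lit 0) (nat_lit 325500055) (nat_lit 152) (nat_lit 46657929637) (nat_lit 76) (nat_lit 484808188198) (nat_lit 3) (nat_lit 5) (nat_lit 5) (nat_lit 5) (nat_lit 4) (nat_lit 4) (nat_lit 386) (nat_lit 275) (nat_lit 119)) (XT.nd (nat_lit 31980) (nat_lit 0) (nat_lit 7600) (XT.lf (nat_lit 0) (nat_lit 15500034496) (nat_lit 152) (nat_lit 15551249760)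 (nat_lit 76) (nat_lit 526454294208) (nat_lit 3) (nat_lit 5) (nat_lit 5) (nat_lit 5) (nat_lit 4) (nat_lit 4) (nat_lit 387) (nat_lit 275) (nat_lit 118)) (XT.lf (nat_lit 0) (nat_lit 3440119110) (nat_lit 684) (nat_lit 645853482) (nat_lit 684) (nat_lit 645853482) (nat_lit 103) (nat_lit 3) (nat_lit 112) (nat_lit 3) (nat_lit 112) (nat_lit 5) (nat_lit 276) (nat_lit 276) (nat_lit 228))))))) (XT.nd (nat_lit 780) (nat_lit 2432) (nat_lit 0) (XT.nd (nat_lit 390) (nat_lit 0) (nat_lit 76) (XT.nd (nat_lit 156) (nat_lit 608) (nat_lit 0) (XT.nd (nat_lit 78) (nat_lit 0) (nat_lit 0) (XT.lf (nat_lit 76) (nat_lit 3179144697) (nat_lit 0) (nat_lit 4669760952) (nat_lit 684) (nat_lit 1810062650) (nat_lit 104) (nat_lit 5) (nat_lit 103) (nat_lit 3) (nat_lit 112) (nat_lit 5) (nat_lit 277) (nat_lit 276) (nat_lit 227)) (XT.lf (nat_lit 76) (nat_lit 7892401350) (nat_lit 0) (nat_lit 947256116) (nat_lit 684) (nat_lit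 1025802550) (nat_lit 104) (nat_lit 5) (nat_lit 103) (nat_lit 3) (nat_lit 112) (nat_lit 5) (nat_lit 278) (nat_lit 276) (nat_lit 226))) (XT.nd (nat_lit 78) (nat_lit 684) (nat_lit 0) (XT.lf (nat_lit 76) (nat_lit 2774138403) (nat_lit 0) (nat_lit 7149758364) (nat_lit 684) (nat_lit 156269974) (nat_lit 105) (nat_lit 5) (nat_lit 104) (nat_lit 5) (nat_lit 113) (nat_lit 5) (nat_lit 279) (nat_lit 276) (nat_lit 225)) (XT.nd (nat_lit 78) (nat_lit 0) (nat_lit 76) (XT.lf (nat_lit 0) (nat_lit 737362214) (nat_lit 684) (nat_lit 2533207599) (nat_lit 760) (nat_lit 7034285821) (nat_lit 95) (nat_lit 5) (nat_lit 104) (nat_lit 5) (nat_lit 105) (nat_lit 5) (nat_lit 280) (nat_lit 276) (nat_lit 224)) (XT.lf (nat_lit 0) (nat_lit 1680853010) (nat_lit 684) (nat_lit 8024900049) (nat_lit 760) (nat_lit 834452333) (nat_lit 96) (nat_lit 5) (nat_lit 105) (nat_lit 5) (nat_lit 106) (nat_lit 5) (nat_lit 281) (nat_lit 276)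 (nat_lit 223))))) (XT.nd (nat_lit 156) (nat_lit 0) (nat_lit 76) (XT.nd (nat_lit 78) (nat_lit 0) (nat_lit 0) (XT.lf (nat_lit 0) (nat_lit 2728044429) (nat_lit 684) (nat_lit 2964418497) (nat_lit 760) (nat_lit 5092105734) (nat_lit 96) (nat_lit 5) (nat_lit 105) (nat_lit 5) (nat_lit 106) (nat_lit 5) (nat_lit 282) (nat_lit 276) (nat_lit 222)) (XT.lf (nat_lit 76) (nat_lit 2398115222) (nat_lit 0) (nat_lit 1428165108) (nat_lit 760) (nat_lit 7215004401) (nat_lit 97) (nat_lit 5) (nat_lit 96) (nat_lit 5) (nat_lit 106) (nat_lit 5) (nat_lit 283) (nat_lit 276) (nat_lit 221))) (XT.nd (nat_lit 78) (nat_lit 0) (nat_lit 0) (XT.lf (nat_lit 0) (nat_lit 5040884036) (nat_lit 684) (nat_lit 3254433580) (nat_lit 760) (nat_lit 3012511794) (nat_lit 97) (nat_lit 5) (nat_lit 106) (nat_lit 5) (nat_lit 107) (nat_lit 5) (nat_lit 284) (nat_lit 276) (nat_lit 220)) (XT.nd (nat_lit 78) (nat_lit 0) (nat_lit 76) (XT.lf (nat_lit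 76) (nat_lit 2430135805) (nat_lit 0) (nat_lit 3912026627) (nat_lit 760) (nat_lit 5244304144) (nat_lit 98) (nat_lit 5) (nat_lit 97) (nat_lit 5) (nat_lit 107) (nat_lit 5) (nat_lit 285) (nat_lit 276) (nat_lit 219)) (XT.lf (nat_lit 0) (nat_lit 7741254025) (nat_lit 684) (nat_lit 3405432543) (nat_lit 76) (nat_lit 730771074) (nat_lit 98) (nat_lit 5) (nat_lit 107) (nat_lit 5) (nat_lit 99) (nat_lit 5) (nat_lit 286) (nat_lit 276) (nat_lit 218)))))) (XT.nd (nat_lit 390) (nat_lit 988) (nat_lit 0) (XT.nd (nat_lit 156) (nat_lit 988) (nat_lit 0) (XT.nd (nat_lit 78) (nat_lit 0) (nat_lit 0) (XT.lf (nat_lit 0) (nat_lit 2624901888) (nat_lit 684) (nat_lit 6658084164) (nat_lit 760) (nat_lit 2896434588) (nat_lit 89) (nat_lit 5) (nat_lit 98) (nat_lit 5) (nat_lit 99) (nat_lit 5) (nat_lit 287) (nat_lit 276) (nat_lit 217)) (XT.lf (nat_lit 0) (nat_lit 9047443050) (nat_lit 684) (nat_lit 1880720697) (nat_lit 760)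 (nat_lit 1567054060) (nat_lit 89) (nat_lit 5) (nat_lit 98) (nat_lit 5) (nat_lit 99) (nat_lit 5) (nat_lit 288) (nat_lit 276) (nat_lit 216))) (XT.nd (nat_lit 78) (nat_lit 456) (nat_lit 0) (XT.lf (nat_lit 0) (nat_lit 2983000784) (nat_lit 532) (nat_lit 9738360324) (nat_lit 608) (nat_lit 102207085) (nat_lit 82) (nat_lit 5) (nat_lit 89) (nat_lit 5) (nat_lit 90) (nat_lit 5) (nat_lit 289) (nat_lit 276) (nat_lit 215)) (XT.nd (nat_lit 78) (nat_lit 380) (nat_lit 0) (XT.lf (nat_lit 0) (nat_lit 1450808011) (nat_lit 608) (nat_lit 3393002047) (nat_lit 76) (nat_lit 8320407611) (nat_lit 81) (nat_lit 5) (nat_lit 89) (nat_lit 5) (nat_lit 82) (nat_lit 5) (nat_lit 290) (nat_lit 276) (nat_lit 214)) (XT.lf (nat_lit 0) (nat_lit 3109681513) (nat_lit 456) (nat_lit 10067161468) (nat_lit 76) (nat_lit 343435140) (nat_lit 76) (nat_lit 5) (nat_lit 82) (nat_lit 5) (nat_lit 77) (nat_lit 5) (nat_lit 291) (nat_lit 276)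 (nat_lit 213))))) (XT.nd (nat_lit 234) (nat_lit 684) (nat_lit 0) (XT.nd (nat_lit 78) (nat_lit 304) (nat_lit 0) (XT.lf (nat_lit 0) (nat_lit 4962328308) (nat_lit 456) (nat_lit 3240280658) (nat_lit 76) (nat_lit 5686033437) (nat_lit 76) (nat_lit 5) (nat_lit 82) (nat_lit 5) (nat_lit 77) (nat_lit 5) (nat_lit 292) (nat_lit 276) (nat_lit 212)) (XT.nd (nat_lit 78) (nat_lit 0) (nat_lit 0) (XT.lf (nat_lit 0) (nat_lit 4030269309) (nat_lit 304) (nat_lit 2914565515) (nat_lit 380) (nat_lit 7328768980) (nat_lit 72) (nat_lit 5) (nat_lit 76) (nat_lit 5) (nat_lit 77) (nat_lit 5) (nat_lit 293) (nat_lit 276) (nat_lit 211)) (XT.lf (nat_lit 0) (nat_lit 9098523085) (nat_lit 380) (nat_lit 2967811627) (nat_lit 76) (nat_lit 2607914101) (nat_lit 72) (nat_lit 5) (nat_lit 77) (nat_lit 5) (nat_lit 73) (nat_lit 5) (nat_lit 294) (nat_lit 276) (nat_lit 210)))) (XT.nd (nat_lit 78) (nat_lit 380) (nat_lit 0) (XT.lf (nat_lit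 0) (nat_lit 4749531985) (nat_lit 304) (nat_lit 6708579318) (nat_lit 380) (nat_lit 3631940521) (nat_lit 68) (nat_lit 5) (nat_lit 72) (nat_lit 5) (nat_lit 73) (nat_lit 5) (nat_lit 295) (nat_lit 276) (nat_lit 209)) (XT.nd (nat_lit 78) (nat_lit 380) (nat_lit 0) (XT.lf (nat_lit 0) (nat_lit 12930010601) (nat_lit 304) (nat_lit 1032939043) (nat_lit 380) (nat_lit 1562366598) (nat_lit 68) (nat_lit 5) (nat_lit 72) (nat_lit 5) (nat_lit 73) (nat_lit 5) (nat_lit 296) (nat_lit 276) (nat_lit 208)) (XT.lf (nat_lit 0) (nat_lit 736080788) (nat_lit 380) (nat_lit 10372798734) (nat_lit 76) (nat_lit 4865772164) (nat_lit 63) (nat_lit 5) (nat_lit 68) (nat_lit 5) (nat_lit 64) (nat_lit 5) (nat_lit 297) (nat_lit 276) (nat_lit 207))))))))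
noncomputable def xc153 : XT := (XT.nd (nat_lit 1638) (nat_lit 1368) (nat_lit 0) (XT.nd (nat_lit 780) (nat_lit 988) (nat_lit 0) (XT.nd (nat_lit 390) (nat_lit 760) (nat_lit 0) (XT.nd (nat_lit 156) (nat_lit 228) (nat_lit 0) (XT.nd (nat_lit 78) (nat_lit 304) (nat_lit 0) (XT.lf (nat_lit 0) (nat_lit 3136885844) (nat_lit 380) (nat_lit 2214510721) (nat_lit 76) (nat_lit 11091809708) (nat_lit 63) (nat_lit 5) (nat_lit 68) (nat_lit 5) (nat_lit 64) (nat_lit 5) (nat_lit 298) (nat_lit 276) (nat_lit 206)) (XT.lf (nat_lit 0) (nat_lit 5751588776) (nat_lit 380) (nat_lit 10407424772) (nat_lit 76) (nat_lit 771510784) (nat_lit 59) (nat_lit 5) (nat_lit 64) (nat_lit 5) (nat_lit 60) (nat_lit 5) (nat_lit 299) (nat_lit 276) (nat_lit 205))) (XT.nd (nat_lit 78) (nat_lit 228) (nat_lit 0) (XT.lf (nat_lit 0) (nat_lit 8602775065) (nat_lit 380) (nat_lit 1779489894) (nat_lit 76) (nat_lit 7054683183) (nat_lit 59) (nat_lit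 5) (nat_lit 64) (nat_lit 5) (nat_lit 60) (nat_lit 5) (nat_lit 300) (nat_lit 276) (nat_lit 204)) (XT.nd (nat_lit 78) (nat_lit 0) (nat_lit 0) (XT.lf (nat_lit 0) (nat_lit 7495666702) (nat_lit 228) (nat_lit 4198741161) (nat_lit 304) (nat_lit 6269416883) (nat_lit 56) (nat_lit 5) (nat_lit 59) (nat_lit 5) (nat_lit 60) (nat_lit 5) (nat_lit 301) (nat_lit 276) (nat_lit 203)) (XT.lf (nat_lit 0) (nat_lit 14988388815) (nat_lit 304) (nat_lit 1280056412) (nat_lit 76) (nat_lit 2246236351) (nat_lit 56) (nat_lit 5) (nat_lit 60) (nat_lit 5) (nat_lit 57) (nat_lit 5) (nat_lit 302) (nat_lit 276) (nat_lit 202))))) (XT.nd (nat_lit 156) (nat_lit 456) (nat_lit 0) (XT.nd (nat_lit 78) (nat_lit 76) (nat_lit 0) (XT.lf (nat_lit 0) (nat_lit 8548834681) (nat_lit 228) (nat_lit 10082747532) (nat_lit 304) (nat_lit 452296919) (nat_lit 53) (nat_lit 5) (nat_lit 56) (nat_lit 5) (nat_lit 57) (nat_lit 5) (nat_lit 303) (nat_lit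 276) (nat_lit 201)) (XT.lf (nat_lit 0) (nat_lit 2690995028) (nat_lit 304) (nat_lit 834154797) (nat_lit 76) (nat_lit 16154020188) (nat_lit 52) (nat_lit 5) (nat_lit 56) (nat_lit 5) (nat_lit 53) (nat_lit 5) (nat_lit 304) (nat_lit 276) (nat_lit 200))) (XT.nd (nat_lit 78) (nat_lit 228) (nat_lit 0) (XT.lf (nat_lit 0) (nat_lit 6164796149) (nat_lit 304) (nat_lit 10722070269) (nat_lit 76) (nat_lit 3407581391) (nat_lit 49) (nat_lit 5) (nat_lit 53) (nat_lit 5) (nat_lit 50) (nat_lit 5) (nat_lit 305) (nat_lit 276) (nat_lit 199)) (XT.nd (nat_lit 78) (nat_lit 228) (nat_lit 0) (XT.lf (nat_lit 0) (nat_lit 9868028143) (nat_lit 304) (nat_lit 492489942) (nat_lit 76) (nat_lit 10577203742) (nat_lit 49) (nat_lit 5) (nat_lit 53) (nat_lit 5) (nat_lit 50) (nat_lit 5) (nat_lit 306) (nat_lit 276) (nat_lit 198)) (XT.lf (nat_lit 0) (nat_lit 10564920134) (nat_lit 228) (nat_lit 3340823969) (nat_lit 304) (nat_lit 7699967774)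 (nat_lit 46) (nat_lit 5) (nat_lit 49) (nat_lit 5) (nat_lit 50) (nat_lit 5) (nat_lit 307) (nat_lit 276) (nat_lit 197)))))) (XT.nd (nat_lit 390) (nat_lit 532) (nat_lit 0) (XT.nd (nat_lit 156) (nat_lit 304) (nat_lit 0) (XT.nd (nat_lit 78) (nat_lit 152) (nat_lit 0) (XT.lf (nat_lit 0) (nat_lit 18201426965) (nat_lit 304) (nat_lit 199562004) (nat_lit 76) (nat_lit 3903325978) (nat_lit 46) (nat_lit 5) (nat_lit 50) (nat_lit 5) (nat_lit 47) (nat_lit 5) (nat_lit 308) (nat_lit 276) (nat_lit 196)) (XT.lf (nat_lit 0) (nat_lit 11475169764) (nat_lit 152) (nat_lit 11456067075) (nat_lit 228) (nat_lit 95660924) (nat_lit 44) (nat_lit 5) (nat_lit 46) (nat_lit 5) (nat_lit 47) (nat_lit 5) (nat_lit 309) (nat_lit 276) (nat_lit 195))) (XT.nd (nat_lit 78) (nat_lit 228) (nat_lit 0) (XT.lf (nat_lit 0) (nat_lit 3969293330) (nat_lit 228) (nat_lit 130350869) (nat_lit 76) (nat_lit 19683322103) (nat_lit 43) (nat_lit 5)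 (nat_lit 46) (nat_lit 5) (nat_lit 44) (nat_lit 5) (nat_lit 310) (nat_lit 276) (nat_lit 194)) (XT.nd (nat_lit 78) (nat_lit 0) (nat_lit 0) (XT.lf (nat_lit 0) (nat_lit 8471126113) (nat_lit 304) (nat_lit 12395751076) (nat_lit 76) (nat_lit 3698054844) (nat_lit 40) (nat_lit 5) (nat_lit 44) (nat_lit 5) (nat_lit 41) (nat_lit 5) (nat_lit 311) (nat_lit 276) (nat_lit 193)) (XT.lf (nat_lit 0) (nat_lit 13253972905) (nat_lit 304) (nat_lit 385384499) (nat_lit 76) (nat_lit 11743856294) (nat_lit 40) (nat_lit 5) (nat_lit 44) (nat_lit 5) (nat_lit 41) (nat_lit 5) (nat_lit 312) (nat_lit 276) (nat_lit 192))))) (XT.nd (nat_lit 234) (nat_lit 152) (nat_lit 0) (XT.nd (nat_lit 78) (nat_lit 228) (nat_lit 0) (XT.lf (nat_lit 0) (nat_lit 12609590606) (nat_lit 152) (nat_lit 5850358045) (nat_lit 228) (nat_lit 7773274578) (nat_lit 38) (nat_lit 5) (nat_lit 40) (nat_lit 5) (nat_lit 41) (nat_lit 5) (nat_lit 313) (nat_lit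 276) (nat_lit 191)) (XT.nd (nat_lit 78) (nat_lit 228) (nat_lit 0) (XT.lf (nat_lit 0) (nat_lit 23956531314) (nat_lit 228) (nat_lit 913886579) (nat_lit 76) (nat_lit 2253812425) (nat_lit 38) (nat_lit 5) (nat_lit 41) (nat_lit 5) (nat_lit 39) (nat_lit 5) (nat_lit 314) (nat_lit 276) (nat_lit 190)) (XT.lf (nat_lit 0) (nat_lit 1901876721) (nat_lit 228) (nat_lit 15352446591) (nat_lit 76) (nat_lit 10789817909) (nat_lit 35) (nat_lit 5) (nat_lit 38) (nat_lit 5) (nat_lit 36) (nat_lit 5) (nat_lit 315) (nat_lit 276) (nat_lit 189)))) (XT.nd (nat_lit 78) (nat_lit 152) (nat_lit 0) (XT.lf (nat_lit 0) (nat_lit 7122218693) (nat_lit 228) (nat_lit 2071058121) (nat_lit 76) (nat_lit 19813998024) (nat_lit 35) (nat_lit 5) (nat_lit 38) (nat_lit 5) (nat_lit 36) (nat_lit 5) (nat_lit 316) (nat_lit 276) (nat_lit 188)) (XT.nd (nat_lit 78) (nat_lit 0) (nat_lit 0) (XT.lf (nat_lit 0) (nat_lit 12248441566) (nat_lit 152)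 (nat_lit 534951630) (nat_lit 228) (nat_lit 17226191439) (nat_lit 33) (nat_lit 5) (nat_lit 35) (nat_lit 5) (nat_lit 36) (nat_lit 5) (nat_lit 317) (nat_lit 276) (nat_lit 187)) (XT.lf (nat_lit 0) (nat_lit 18885611604) (nat_lit 228) (nat_lit 3856759991) (nat_lit 76) (nat_lit 8311748855) (nat_lit 33) (nat_lit 5) (nat_lit 36) (nat_lit 5) (nat_lit 34) (nat_lit 5) (nat_lit 318) (nat_lit 276) (nat_lit 186))))))) (XT.nd (nat_lit 780) (nat_lit 532) (nat_lit 0) (XT.nd (nat_lit 390) (nat_lit 304) (nat_lit 0) (XT.nd (nat_lit 156) (nat_lit 380) (nat_lit 0) (XT.nd (nat_lit 78) (nat_lit 0) (nat_lit 0) (XT.lf (nat_lit 0) (nat_lit 11071122524) (nat_lit 152) (nat_lit 14392723309) (nat_lit 228) (nat_lit 6678501295) (nat_lit 31) (nat_lit 5) (nat_lit 33) (nat_lit 5) (nat_lit 34) (nat_lit 5) (nat_lit 319) (nat_lit 276) (nat_lit 185)) (XT.lf (nat_lit 0) (nat_lit 26862281040) (nat_lit 152) (nat_lit 5563555406)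 (nat_lit 228) (nat_lit 856415337) (nat_lit 31) (nat_lit 5) (nat_lit 33) (nat_lit 5) (nat_lit 34) (nat_lit 5) (nat_lit 320) (nat_lit 276) (nat_lit 184))) (XT.nd (nat_lit 78) (nat_lit 152) (nat_lit 0) (XT.lf (nat_lit 0) (nat_lit 5282835594) (nat_lit 228) (nat_lit 25371533362) (nat_lit 76) (nat_lit 3810971599) (nat_lit 28) (nat_lit 5) (nat_lit 31) (nat_lit 5) (nat_lit 29) (nat_lit 5) (nat_lit 321) (nat_lit 276) (nat_lit 183)) (XT.nd (nat_lit 78) (nat_lit 152) (nat_lit 0) (XT.lf (nat_lit 0) (nat_lit 11891966416) (nat_lit 228) (nat_lit 10219700813) (nat_lit 76) (nat_lit 13585637298) (nat_lit 28) (nat_lit 5) (nat_lit 31) (nat_lit 5) (nat_lit 29) (nat_lit 5) (nat_lit 322) (nat_lit 276) (nat_lit 182)) (XT.lf (nat_lit 0) (nat_lit 5861434025) (nat_lit 152) (nat_lit 13052095066) (nat_lit 228) (nat_lit 18073246142) (nat_lit 26) (nat_lit 5) (nat_lit 28) (nat_lit 5) (nat_lit 29) (nat_lit 5) (nat_lit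 323) (nat_lit 276) (nat_lit 181))))) (XT.nd (nat_lit 156) (nat_lit 228) (nat_lit 0) (XT.nd (nat_lit 78) (nat_lit 76) (nat_lit 0) (XT.lf (nat_lit 0) (nat_lit 23085795027) (nat_lit 152) (nat_lit 3364122432) (nat_lit 228) (nat_lit 11882621590) (nat_lit 26) (nat_lit 5) (nat_lit 28) (nat_lit 5) (nat_lit 29) (nat_lit 5) (nat_lit 324) (nat_lit 276) (nat_lit 180)) (XT.lf (nat_lit 0) (nat_lit 1347363224) (nat_lit 76) (nat_lit 33134116368) (nat_lit 152) (nat_lit 5258200372) (nat_lit 25) (nat_lit 5) (nat_lit 26) (nat_lit 5) (nat_lit 27) (nat_lit 4) (nat_lit 325) (nat_lit 276) (nat_lit 179))) (XT.nd (nat_lit 78) (nat_lit 152) (nat_lit 0) (XT.lf (nat_lit 0) (nat_lit 1951772223) (nat_lit 152) (nat_lit 22004946831) (nat_lit 76) (nat_lit 17243706832) (nat_lit 24) (nat_lit 5) (nat_lit 26) (nat_lit 5) (nat_lit 25) (nat_lit 5) (nat_lit 326) (nat_lit 276) (nat_lit 178)) (XT.nd (nat_lit 78) (nat_lit 152)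 (nat_lit 0) (XT.lf (nat_lit 0) (nat_lit 9337024440) (nat_lit 152) (nat_lit 4898983170) (nat_lit 76) (nat_lit 28494322664) (nat_lit 24) (nat_lit 5) (nat_lit 26) (nat_lit 5) (nat_lit 25) (nat_lit 5) (nat_lit 327) (nat_lit 276) (nat_lit 177)) (XT.lf (nat_lit 0) (nat_lit 13479836934) (nat_lit 152) (nat_lit 3814056560) (nat_lit 228) (nat_lit 27032724125) (nat_lit 22) (nat_lit 5) (nat_lit 24) (nat_lit 5) (nat_lit 25) (nat_lit 5) (nat_lit 328) (nat_lit 276) (nat_lit 176)))))) (XT.nd (nat_lit 390) (nat_lit 228) (nat_lit 0) (XT.nd (nat_lit 156) (nat_lit 228) (nat_lit 0) (XT.nd (nat_lit 78) (nat_lit 76) (nat_lit 0) (XT.lf (nat_lit 0) (nat_lit 25836215782) (nat_lit 228) (nat_lit 13177524146) (nat_lit 76) (nat_lit 6979604103) (nat_lit 22) (nat_lit 5) (nat_lit 25) (nat_lit 5) (nat_lit 23) (nat_lit 4) (nat_lit 329) (nat_lit 276) (nat_lit 175)) (XT.lf (nat_lit 0) (nat_lit 5474586691) (nat_lit 76) (nat_lit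 29471428055) (nat_lit 152) (nat_lit 12790378932) (nat_lit 21) (nat_lit 5) (nat_lit 22) (nat_lit 5) (nat_lit 23) (nat_lit 4) (nat_lit 330) (nat_lit 276) (nat_lit 174))) (XT.nd (nat_lit 78) (nat_lit 228) (nat_lit 0) (XT.lf (nat_lit 0) (nat_lit 25503707561) (nat_lit 76) (nat_lit 19223284631) (nat_lit 152) (nat_lit 4828823895) (nat_lit 21) (nat_lit 5) (nat_lit 22) (nat_lit 5) (nat_lit 23) (nat_lit 4) (nat_lit 331) (nat_lit 276) (nat_lit 173)) (XT.nd (nat_lit 78) (nat_lit 152) (nat_lit 0) (XT.lf (nat_lit 0) (nat_lit 3410556786) (nat_lit 152) (nat_lit 4999760847) (nat_lit 76) (nat_lit 43053502170) (nat_lit 20) (nat_lit 5) (nat_lit 22) (nat_lit 5) (nat_lit 21) (nat_lit 5) (nat_lit 332) (nat_lit 276) (nat_lit 172)) (XT.lf (nat_lit 0) (nat_lit 12184387514) (nat_lit 228) (nat_lit 38095639608) (nat_lit 76) (nat_lit 3169004537) (nat_lit 18) (nat_lit 5) (nat_lit 21) (nat_lit 5) (nat_lit 19) (nat_lit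 4) (nat_lit 333) (nat_lit 276) (nat_lit 171))))) (XT.nd (nat_lit 234) (nat_lit 152) (nat_lit 0) (XT.nd (nat_lit 78) (nat_lit 76) (nat_lit 0) (XT.lf (nat_lit 0) (nat_lit 21614008230) (nat_lit 228) (nat_lit 18782920252) (nat_lit 76) (nat_lit 15125724577) (nat_lit 18) (nat_lit 5) (nat_lit 21) (nat_lit 5) (nat_lit 19) (nat_lit 4) (nat_lit 334) (nat_lit 276) (nat_lit 170)) (XT.nd (nat_lit 78) (nat_lit 0) (nat_lit 0) (XT.lf (nat_lit 0) (nat_lit 1532906541) (nat_lit 76) (nat_lit 29999624915) (nat_lit 152) (nat_lit 26166556687) (nat_lit 17) (nat_lit 5) (nat_lit 18) (nat_lit 5) (nat_lit 19) (nat_lit 4) (nat_lit 335) (nat_lit 276) (nat_lit 169)) (XT.lf (nat_lit 0) (nat_lit 23505221095) (nat_lit 76) (nat_lit 18753478120) (nat_lit 152) (nat_lit 17710063359) (nat_lit 17) (nat_lit 5) (nat_lit 18) (nat_lit 5) (nat_lit 19) (nat_lit 4) (nat_lit 336) (nat_lit 276) (nat_lit 168)))) (XT.nd (nat_lit 78)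 (nat_lit 152) (nat_lit 0) (XT.lf (nat_lit 0) (nat_lit 46565290274) (nat_lit 76) (nat_lit 6949809402) (nat_lit 152) (nat_lit 8837128181) (nat_lit 17) (nat_lit 5) (nat_lit 18) (nat_lit 5) (nat_lit 19) (nat_lit 4) (nat_lit 337) (nat_lit 276) (nat_lit 167)) (XT.nd (nat_lit 78) (nat_lit 0) (nat_lit 0) (XT.lf (nat_lit 0) (nat_lit 640081670) (nat_lit 152) (nat_lit 58835904258) (nat_lit 76) (nat_lit 5369710557) (nat_lit 15) (nat_lit 5) (nat_lit 17) (nat_lit 5) (nat_lit 16) (nat_lit 4) (nat_lit 338) (nat_lit 276) (nat_lit 166)) (XT.lf (nat_lit 0) (nat_lit 10674002292) (nat_lit 152) (nat_lit 38279801182) (nat_lit 76) (nat_lit 18483802626) (nat_lit 15) (nat_lit 5) (nat_lit 17) (nat_lit 5) (nat_lit 16) (nat_lit 4) (nat_lit 339) (nat_lit 276) (nat_lit 165))))))))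
noncomputable def xc154 : XT := (XT.nd (nat_lit 1560) (nat_lit 304) (nat_lit 0) (XT.nd (nat_lit 780) (nat_lit 228) (nat_lit 0) (XT.nd (nat_lit 390) (nat_lit 152) (nat_lit 0) (XT.nd (nat_lit 156) (nat_lit 76) (nat_lit 0) (XT.nd (nat_lit 78) (nat_lit 76) (nat_lit 0) (XT.lf (nat_lit 0) (nat_lit 21204059004) (nat_lit 152) (nat_lit 16705979396) (nat_lit 76) (nat_lit 32249353543) (nat_lit 15) (nat_lit 5) (nat_lit 17) (nat_lit 5) (nat_lit 16) (nat_lit 4) (nat_lit 340) (nat_lit 276) (nat_lit 164)) (XT.lf (nat_lit 0) (nat_lit 6133228970) (nat_lit 76) (nat_lit 26217851293) (nat_lit 152) (nat_lit 40661666352) (nat_lit 14) (nat_lit 5) (nat_lit 15) (nat_lit 5) (nat_lit 16) (nat_lit 4) (nat_lit 341) (nat_lit 276) (nat_lit 163))) (XT.nd (nat_lit 78) (nat_lit 76) (nat_lit 0) (XT.lf (nat_lit 0) (nat_lit 30684940437) (nat_lit 76) (nat_lit 13648245403) (nat_lit 152) (nat_lit 31661699013) (nat_lit 14) (nat_lit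 5) (nat_lit 15) (nat_lit 5) (nat_lit 16) (nat_lit 4) (nat_lit 342) (nat_lit 276) (nat_lit 162)) (XT.nd (nat_lit 78) (nat_lit 76) (nat_lit 0) (XT.lf (nat_lit 0) (nat_lit 56455236334) (nat_lit 76) (nat_lit 454216942) (nat_lit 152) (nat_lit 22216926274) (nat_lit 14) (nat_lit 5) (nat_lit 15) (nat_lit 5) (nat_lit 16) (nat_lit 4) (nat_lit 343) (nat_lit 276) (nat_lit 161)) (XT.lf (nat_lit 0) (nat_lit 910795387) (nat_lit 76) (nat_lit 69422394363) (nat_lit 76) (nat_lit 12070328715) (nat_lit 13) (nat_lit 4) (nat_lit 14) (nat_lit 5) (nat_lit 14) (nat_lit 4) (nat_lit 344) (nat_lit 276) (nat_lit 160))))) (XT.nd (nat_lit 156) (nat_lit 76) (nat_lit 0) (XT.nd (nat_lit 78) (nat_lit 76) (nat_lit 0) (XT.lf (nat_lit 0) (nat_lit 26442620718) (nat_lit 76) (nat_lit 58372089493) (nat_lit 76) (nat_lit 1010476411) (nat_lit 13) (nat_lit 4) (nat_lit 14) (nat_lit 5) (nat_lit 14) (nat_lit 4) (nat_lit 345) (nat_lit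 276) (nat_lit 159)) (XT.lf (nat_lit 0) (nat_lit 10258498471) (nat_lit 152) (nat_lit 36340784011) (nat_lit 76) (nat_lit 42810607429) (nat_lit 12) (nat_lit 5) (nat_lit 14) (nat_lit 5) (nat_lit 13) (nat_lit 4) (nat_lit 346) (nat_lit 276) (nat_lit 158))) (XT.nd (nat_lit 78) (nat_lit 76) (nat_lit 0) (XT.lf (nat_lit 0) (nat_lit 22052651052) (nat_lit 152) (nat_lit 12171431022) (nat_lit 76) (nat_lit 58949135512) (nat_lit 12) (nat_lit 5) (nat_lit 14) (nat_lit 5) (nat_lit 13) (nat_lit 4) (nat_lit 347) (nat_lit 276) (nat_lit 157)) (XT.nd (nat_lit 78) (nat_lit 0) (nat_lit 0) (XT.lf (nat_lit 0) (nat_lit 13635227956) (nat_lit 76) (nat_lit 21010060370) (nat_lit 152) (nat_lit 62468986242) (nat_lit 11) (nat_lit 5) (nat_lit 12) (nat_lit 5) (nat_lit 13) (nat_lit 4) (nat_lit 348) (nat_lit 276) (nat_lit 156)) (XT.lf (nat_lit 0) (nat_lit 41147332541) (nat_lit 76) (nat_lit 6922326167) (nat_lit 152) (nat_lit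 53172622317) (nat_lit 11) (nat_lit 5) (nat_lit 12) (nat_lit 5) (nat_lit 13) (nat_lit 4) (nat_lit 349) (nat_lit 276) (nat_lit 155)))))) (XT.nd (nat_lit 390) (nat_lit 76) (nat_lit 0) (XT.nd (nat_lit 156) (nat_lit 152) (nat_lit 0) (XT.nd (nat_lit 78) (nat_lit 0) (nat_lit 0) (XT.lf (nat_lit 0) (nat_lit 62284230217) (nat_lit 152) (nat_lit 35671754588) (nat_lit 0) (nat_lit 7614755478) (nat_lit 11) (nat_lit 5) (nat_lit 13) (nat_lit 4) (nat_lit 11) (nat_lit 4) (nat_lit 350) (nat_lit 276) (nat_lit 154)) (XT.lf (nat_lit 0) (nat_lit 77319309209) (nat_lit 152) (nat_lit 10147776597) (nat_lit 0) (nat_lit 22643049287) (nat_lit 11) (nat_lit 5) (nat_lit 13) (nat_lit 4) (nat_lit 11) (nat_lit 4) (nat_lit 351) (nat_lit 276) (nat_lit 153))) (XT.nd (nat_lit 78) (nat_lit 76) (nat_lit 0) (XT.lf (nat_lit 0) (nat_lit 17196220215) (nat_lit 76) (nat_lit 76174877553) (nat_lit 76) (nat_lit 21492155552) (nat_lit 10)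 (nat_lit 4) (nat_lit 11) (nat_lit 5) (nat_lit 11) (nat_lit 4) (nat_lit 352) (nat_lit 276) (nat_lit 152)) (XT.nd (nat_lit 78) (nat_lit 76) (nat_lit 0) (XT.lf (nat_lit 0) (nat_lit 46253264151) (nat_lit 76) (nat_lit 64140610556) (nat_lit 76) (nat_lit 9451734194) (nat_lit 10) (nat_lit 4) (nat_lit 11) (nat_lit 5) (nat_lit 11) (nat_lit 4) (nat_lit 353) (nat_lit 276) (nat_lit 151)) (XT.lf (nat_lit 0) (nat_lit 3085236500) (nat_lit 152) (nat_lit 48370002832) (nat_lit 76) (nat_lit 73619520851) (nat_lit 9) (nat_lit 5) (nat_lit 11) (nat_lit 5) (nat_lit 10) (nat_lit 4) (nat_lit 354) (nat_lit 276) (nat_lit 150))))) (XT.nd (nat_lit 156) (nat_lit 0) (nat_lit 0) (XT.nd (nat_lit 78) (nat_lit 76) (nat_lit 0) (XT.lf (nat_lit 0) (nat_lit 15928225824) (nat_lit 152) (nat_lit 22047456906) (nat_lit 76) (nat_lit 92582099662) (nat_lit 9) (nat_lit 5) (nat_lit 11) (nat_lit 5) (nat_lit 10) (nat_lit 4) (nat_lit 355)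 (nat_lit 276) (nat_lit 149)) (XT.lf (nat_lit 0) (nat_lit 5770216789) (nat_lit 76) (nat_lit 23730199310) (nat_lit 152) (nat_lit 106810188180) (nat_lit 8) (nat_lit 5) (nat_lit 9) (nat_lit 5) (nat_lit 10) (nat_lit 4) (nat_lit 356) (nat_lit 276) (nat_lit 148))) (XT.nd (nat_lit 78) (nat_lit 0) (nat_lit 0) (XT.lf (nat_lit 0) (nat_lit 35738621241) (nat_lit 76) (nat_lit 8382998594) (nat_lit 152) (nat_lit 98210928316) (nat_lit 8) (nat_lit 5) (nat_lit 9) (nat_lit 5) (nat_lit 10) (nat_lit 4) (nat_lit 357) (nat_lit 276) (nat_lit 147)) (XT.nd (nat_lit 78) (nat_lit 0) (nat_lit 0) (XT.lf (nat_lit 0) (nat_lit 59591717818) (nat_lit 152) (nat_lit 81576283418) (nat_lit 0) (nat_lit 7481697317) (nat_lit 8) (nat_lit 5) (nat_lit 10) (nat_lit 4) (nat_lit 8) (nat_lit 4) (nat_lit 358) (nat_lit 276) (nat_lit 146)) (XT.lf (nat_lit 0) (nat_lit 75970006625) (nat_lit 152) (nat_lit 55450354206) (nat_lit 0) (nat_lit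 23855612335) (nat_lit 8) (nat_lit 5) (nat_lit 10) (nat_lit 4) (nat_lit 8) (nat_lit 4) (nat_lit 359) (nat_lit 276) (nat_lit 145))))))) (XT.nd (nat_lit 780) (nat_lit 76) (nat_lit 0) (XT.nd (nat_lit 390) (nat_lit 152) (nat_lit 0) (XT.nd (nat_lit 156) (nat_lit 0) (nat_lit 0) (XT.nd (nat_lit 78) (nat_lit 76) (nat_lit 0) (XT.lf (nat_lit 0) (nat_lit 93164600081) (nat_lit 152) (nat_lit 28023052580) (nat_lit 0) (nat_lit 41046040277) (nat_lit 8) (nat_lit 5) (nat_lit 10) (nat_lit 4) (nat_lit 8) (nat_lit 4) (nat_lit 360) (nat_lit 276) (nat_lit 144)) (XT.lf (nat_lit 0) (nat_lit 796414805) (nat_lit 76) (nat_lit 110432457157) (nat_lit 76) (nat_lit 58309930197) (nat_lit 7) (nat_lit 4) (nat_lit 8) (nat_lit 5) (nat_lit 8) (nat_lit 4) (nat_lit 361) (nat_lit 276) (nat_lit 143))) (XT.nd (nat_lit 78) (nat_lit 0) (nat_lit 0) (XT.lf (nat_lit 0) (nat_lit 32025138737) (nat_lit 76) (nat_lit 98643363461) (nat_lit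 76) (nat_lit 46517058257) (nat_lit 7) (nat_lit 4) (nat_lit 8) (nat_lit 5) (nat_lit 8) (nat_lit 4) (nat_lit 362) (nat_lit 276) (nat_lit 142)) (XT.nd (nat_lit 78) (nat_lit 0) (nat_lit 0) (XT.lf (nat_lit 0) (nat_lit 64810904647) (nat_lit 76) (nat_lit 86266886258) (nat_lit 76) (nat_lit 34136982727) (nat_lit 7) (nat_lit 4) (nat_lit 8) (nat_lit 5) (nat_lit 8) (nat_lit 4) (nat_lit 363) (nat_lit 276) (nat_lit 141)) (XT.lf (nat_lit 0) (nat_lit 99231773881) (nat_lit 76) (nat_lit 73273557746) (nat_lit 76) (nat_lit 21140227235) (nat_lit 7) (nat_lit 4) (nat_lit 8) (nat_lit 5) (nat_lit 8) (nat_lit 4) (nat_lit 364) (nat_lit 276) (nat_lit 140))))) (XT.nd (nat_lit 156) (nat_lit 76) (nat_lit 0) (XT.nd (nat_lit 78) (nat_lit 76) (nat_lit 0) (XT.lf (nat_lit 0) (nat_lit 135369700890) (nat_lit 76) (nat_lit 59632441426) (nat_lit 76) (nat_lit 7495847127) (nat_lit 7) (nat_lit 4) (nat_lit 8) (nat_lit 5) (nat_lit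 8) (nat_lit 4) (nat_lit 365) (nat_lit 276) (nat_lit 139)) (XT.lf (nat_lit 0) (nat_lit 6610084956) (nat_lit 152) (nat_lit 38589028509) (nat_lit 76) (nat_lit 166588698415) (nat_lit 6) (nat_lit 5) (nat_lit 8) (nat_lit 5) (nat_lit 7) (nat_lit 4) (nat_lit 366) (nat_lit 276) (nat_lit 138))) (XT.nd (nat_lit 78) (nat_lit 76) (nat_lit 0) (XT.lf (nat_lit 0) (nat_lit 21167460877) (nat_lit 152) (nat_lit 8749368223) (nat_lit 76) (nat_lit 191619249994) (nat_lit 6) (nat_lit 5) (nat_lit 8) (nat_lit 5) (nat_lit 7) (nat_lit 4) (nat_lit 367) (nat_lit 276) (nat_lit 137)) (XT.nd (nat_lit 78) (nat_lit 0) (nat_lit 0) (XT.lf (nat_lit 0) (nat_lit 23325326409) (nat_lit 76) (nat_lit 13489702281) (nat_lit 152) (nat_lit 194938615432) (nat_lit 5) (nat_lit 5) (nat_lit 6) (nat_lit 5) (nat_lit 7) (nat_lit 4) (nat_lit 368) (nat_lit 276) (nat_lit 136)) (XT.lf (nat_lit 0) (nat_lit 53452422066) (nat_lit 152) (nat_lit 185231792947)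 (nat_lit 0) (nat_lit 3787500605) (nat_lit 5) (nat_lit 5) (nat_lit 7) (nat_lit 4) (nat_lit 5) (nat_lit 4) (nat_lit 369) (nat_lit 276) (nat_lit 135)))))) (XT.nd (nat_lit 390) (nat_lit 76) (nat_lit 0) (XT.nd (nat_lit 156) (nat_lit 0) (nat_lit 0) (XT.nd (nat_lit 78) (nat_lit 0) (nat_lit 0) (XT.lf (nat_lit 0) (nat_lit 71141073667) (nat_lit 152) (nat_lit 161099931430) (nat_lit 0) (nat_lit 21473716716) (nat_lit 5) (nat_lit 5) (nat_lit 7) (nat_lit 4) (nat_lit 5) (nat_lit 4) (nat_lit 370) (nat_lit 276) (nat_lit 134)) (XT.lf (nat_lit 0) (nat_lit 89712487272) (nat_lit 152) (nat_lit 135764664292) (nat_lit 0) (nat_lit 40042810807) (nat_lit 5) (nat_lit 5) (nat_lit 7) (nat_lit 4) (nat_lit 5) (nat_lit 4) (nat_lit 371) (nat_lit 276) (nat_lit 133))) (XT.nd (nat_lit 78) (nat_lit 0) (nat_lit 0) (XT.lf (nat_lit 0) (nat_lit 109210880532) (nat_lit 152) (nat_lit 109165669468) (nat_lit 0) (nat_lit 59538995006)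 (nat_lit 5) (nat_lit 5) (nat_lit 7) (nat_lit 4) (nat_lit 5) (nat_lit 4) (nat_lit 372) (nat_lit 276) (nat_lit 132)) (XT.nd (nat_lit 78) (nat_lit 0) (nat_lit 0) (XT.lf (nat_lit 0) (nat_lit 129682678193) (nat_lit 152) (nat_lit 81239616018) (nat_lit 0) (nat_lit 80008688800) (nat_lit 5) (nat_lit 5) (nat_lit 7) (nat_lit 4) (nat_lit 5) (nat_lit 4) (nat_lit 373) (nat_lit 276) (nat_lit 131)) (XT.lf (nat_lit 0) (nat_lit 151176622631) (nat_lit 152) (nat_lit 51920013338) (nat_lit 0) (nat_lit 101500629554) (nat_lit 5) (nat_lit 5) (nat_lit 7) (nat_lit 4) (nat_lit 5) (nat_lit 4) (nat_lit 374) (nat_lit 276) (nat_lit 130))))) (XT.nd (nat_lit 234) (nat_lit 0) (nat_lit 0) (XT.nd (nat_lit 78) (nat_lit 76) (nat_lit 0) (XT.lf (nat_lit 0) (nat_lit 173743889904) (nat_lit 152) (nat_lit 21137052851) (nat_lit 0) (nat_lit 124065988557) (nat_lit 5) (nat_lit 5) (nat_lit 7) (nat_lit 4) (nat_lit 5) (nat_lit 4) (nat_lit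 375) (nat_lit 276) (nat_lit 129)) (XT.nd (nat_lit 78) (nat_lit 0) (nat_lit 0) (XT.lf (nat_lit 0) (nat_lit 11552304081) (nat_lit 76) (nat_lit 186066271361) (nat_lit 76) (nat_lit 136386552614) (nat_lit 4) (nat_lit 4) (nat_lit 5) (nat_lit 5) (nat_lit 5) (nat_lit 4) (nat_lit 376) (nat_lit 276) (nat_lit 128)) (XT.lf (nat_lit 0) (nat_lit 46607502435) (nat_lit 76) (nat_lit 176436174067) (nat_lit 76) (nat_lit 126754724463) (nat_lit 4) (nat_lit 4) (nat_lit 5) (nat_lit 5) (nat_lit 5) (nat_lit 4) (nat_lit 377) (nat_lit 276) (nat_lit 127)))) (XT.nd (nat_lit 78) (nat_lit 0) (nat_lit 0) (XT.lf (nat_lit 0) (nat_lit 83413120543) (nat_lit 76) (nat_lit 166325688289) (nat_lit 76) (nat_lit 116642590250) (nat_lit 4) (nat_lit 4) (nat_lit 5) (nat_lit 5) (nat_lit 5) (nat_lit 4) (nat_lit 378) (nat_lit 276) (nat_lit 126)) (XT.nd (nat_lit 78) (nat_lit 0) (nat_lit 0) (XT.lf (nat_lit 0) (nat_lit 122056790827) (nat_lit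 76) (nat_lit 155710741442) (nat_lit 76) (nat_lit 106026073465) (nat_lit 4) (nat_lit 4) (nat_lit 5) (nat_lit 5) (nat_lit 5) (nat_lit 4) (nat_lit 379) (nat_lit 276) (nat_lit 125)) (XT.lf (nat_lit 0) (nat_lit 162630522028) (nat_lit 76) (nat_lit 144566059843) (nat_lit 76) (nat_lit 94879896686) (nat_lit 4) (nat_lit 4) (nat_lit 5) (nat_lit 5) (nat_lit 5) (nat_lit 4) (nat_lit 380) (nat_lit 276) (nat_lit 124))))))))
noncomputable def xc155 : XT := (XT.nd (nat_lit 33618) (nat_lit 0) (nat_lit 2812) (XT.nd (nat_lit 32760) (nat_lit 0) (nat_lit 5928) (XT.nd (nat_lit 390) (nat_lit 76) (nat_lit 0) (XT.nd (nat_lit 156) (nat_lit 0) (nat_lit 0) (XT.nd (nat_lit 78) (nat_lit 0) (nat_lit 0) (XT.lf (nat_lit 0) (nat_lit 205230918267) (nat_lit 76) (nat_lit 132865108535) (nat_lit 76) (nat_lit 83177521398) (nat_lit 4) (nat_lit 4) (nat_lit 5) (nat_lit 5) (nat_lit 5) (nat_lit 4) (nat_lit 381) (nat_lit 276) (nat_lit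 123)) (XT.lf (nat_lit 0) (nat_lit 249959409060) (nat_lit 76) (nat_lit 120580028111) (nat_lit 76) (nat_lit 70891084802) (nat_lit 4) (nat_lit 4) (nat_lit 5) (nat_lit 5) (nat_lit 5) (nat_lit 4) (nat_lit 382) (nat_lit 276) (nat_lit 122))) (XT.nd (nat_lit 78) (nat_lit 0) (nat_lit 0) (XT.lf (nat_lit 0) (nat_lit 296922490811) (nat_lit 76) (nat_lit 107681568379) (nat_lit 76) (nat_lit 57991333477) (nat_lit 4) (nat_lit 4) (nat_lit 5) (nat_lit 5) (nat_lit 5) (nat_lit 4) (nat_lit 383) (nat_lit 276) (nat_lit 121)) (XT.nd (nat_lit 78) (nat_lit 0) (nat_lit 0) (XT.lf (nat_lit 0) (nat_lit 346231980384) (nat_lit 76) (nat_lit 94139018721) (nat_lit 76) (nat_lit 44447553731) (nat_lit 4) (nat_lit 4) (nat_lit 5) (nat_lit 5) (nat_lit 5) (nat_lit 4) (nat_lit 384) (nat_lit 276) (nat_lit 120)) (XT.lf (nat_lit 0) (nat_lit 398005281324) (nat_lit 76) (nat_lit 79920134970) (nat_lit 76) (nat_lit 30227498469) (nat_lit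 4) (nat_lit 4) (nat_lit 5) (nat_lit 5) (nat_lit 5) (nat_lit 4) (nat_lit 385) (nat_lit 276) (nat_lit 119))))) (XT.nd (nat_lit 32136) (nat_lit 0) (nat_lit 6916) (XT.nd (nat_lit 78) (nat_lit 76) (nat_lit 0) (XT.lf (nat_lit 0) (nat_lit 452365663397) (nat_lit 76) (nat_lit 64991062643) (nat_lit 76) (nat_lit 15297310416) (nat_lit 4) (nat_lit 4) (nat_lit 5) (nat_lit 5) (nat_lit 5) (nat_lit 4) (nat_lit 386) (nat_lit 276) (nat_lit 118)) (XT.lf (nat_lit 0) (nat_lit 366442259) (nat_lit 152) (nat_lit 48943608192) (nat_lit 76) (nat_lit 509069907945) (nat_lit 3) (nat_lit 5) (nat_lit 5) (nat_lit 5) (nat_lit 4) (nat_lit 4) (nat_lit 387) (nat_lit 276) (nat_lit 117))) (XT.nd (nat_lit 78) (nat_lit 684) (nat_lit 0) (XT.lf (nat_lit 0) (nat_lit 4347488009) (nat_lit 684) (nat_lit 291370828) (nat_lit 684) (nat_lit 291370828) (nat_lit 103) (nat_lit 3) (nat_lit 112) (nat_lit 3) (nat_lit 112) (nat_lit 5) (nat_lit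 277) (nat_lit 277) (nat_lit 226)) (XT.nd (nat_lit 78) (nat_lit 684) (nat_lit 0) (XT.lf (nat_lit 76) (nat_lit 4099175965) (nat_lit 0) (nat_lit 5554748787) (nat_lit 684) (nat_lit 414659337) (nat_lit 104) (nat_lit 5) (nat_lit 103) (nat_lit 3) (nat_lit 112) (nat_lit 5) (nat_lit 278) (nat_lit 277) (nat_lit 225)) (XT.lf (nat_lit 0) (nat_lit 327236404) (nat_lit 684) (nat_lit 1282316599) (nat_lit 760) (nat_lit 8679075519) (nat_lit 94) (nat_lit 5) (nat_lit 103) (nat_lit 3) (nat_lit 104) (nat_lit 5) (nat_lit 279) (nat_lit 277) (nat_lit 224)))))) (XT.nd (nat_lit 390) (nat_lit 1064) (nat_lit 0) (XT.nd (nat_lit 156) (nat_lit 0) (nat_lit 76) (XT.nd (nat_lit 78) (nat_lit 0) (nat_lit 0) (XT.lf (nat_lit 0) (nat_lit 1148973411) (nat_lit 684) (nat_lit 6831803424) (nat_lit 760) (nat_lit 2535800314) (nat_lit 95) (nat_lit 5) (nat_lit 104) (nat_lit 5) (nat_lit 105) (nat_lit 5) (nat_lit 280) (nat_lit 277) (nat_lit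 223)) (XT.lf (nat_lit 0) (nat_lit 2019759075) (nat_lit 684) (nat_lit 1862758905) (nat_lit 760) (nat_lit 6873079465) (nat_lit 95) (nat_lit 5) (nat_lit 104) (nat_lit 5) (nat_lit 105) (nat_lit 5) (nat_lit 281) (nat_lit 277) (nat_lit 222))) (XT.nd (nat_lit 78) (nat_lit 0) (nat_lit 0) (XT.lf (nat_lit 0) (nat_lit 2956890922) (nat_lit 684) (nat_lit 7573383885) (nat_lit 760) (nat_lit 475222488) (nat_lit 96) (nat_lit 5) (nat_lit 105) (nat_lit 5) (nat_lit 106) (nat_lit 5) (nat_lit 282) (nat_lit 277) (nat_lit 221)) (XT.nd (nat_lit 78) (nat_lit 0) (nat_lit 0) (XT.lf (nat_lit 0) (nat_lit 3999680234) (nat_lit 684) (nat_lit 2300485930) (nat_lit 760) (nat_lit 4964851534) (nat_lit 96) (nat_lit 5) (nat_lit 105) (nat_lit 5) (nat_lit 106) (nat_lit 5) (nat_lit 283) (nat_lit 277) (nat_lit 220)) (XT.lf (nat_lit 76) (nat_lit 3317075225) (nat_lit 0) (nat_lit 1794169438) (nat_lit 760) (nat_lit 6425500153) (nat_lit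 97) (nat_lit 5) (nat_lit 96) (nat_lit 5) (nat_lit 106) (nat_lit 5) (nat_lit 284) (nat_lit 277) (nat_lit 219))))) (XT.nd (nat_lit 234) (nat_lit 1216) (nat_lit 0) (XT.nd (nat_lit 78) (nat_lit 0) (nat_lit 0) (XT.lf (nat_lit 0) (nat_lit 6330119520) (nat_lit 684) (nat_lit 2597862056) (nat_lit 760) (nat_lit 2891549612) (nat_lit 97) (nat_lit 5) (nat_lit 106) (nat_lit 5) (nat_lit 107) (nat_lit 5) (nat_lit 285) (nat_lit 277) (nat_lit 218)) (XT.nd (nat_lit 78) (nat_lit 0) (nat_lit 76) (XT.lf (nat_lit 76) (nat_lit 3357721393) (nat_lit 0) (nat_lit 4301935532) (nat_lit 760) (nat_lit 4454370683) (nat_lit 98) (nat_lit 5) (nat_lit 97) (nat_lit 5) (nat_lit 107) (nat_lit 5) (nat_lit 286) (nat_lit 277) (nat_lit 217)) (XT.lf (nat_lit 0) (nat_lit 9078176426) (nat_lit 684) (nat_lit 2755823426) (nat_lit 76) (nat_lit 588177707) (nat_lit 98) (nat_lit 5) (nat_lit 107) (nat_lit 5) (nat_lit 99) (nat_lit 5) (nat_lit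 287) (nat_lit 277) (nat_lit 216)))) (XT.nd (nat_lit 78) (nat_lit 608) (nat_lit 0) (XT.lf (nat_lit 0) (nat_lit 3562803844) (nat_lit 684) (nat_lit 7101553971) (nat_lit 760) (nat_lit 2076591801) (nat_lit 89) (nat_lit 5) (nat_lit 98) (nat_lit 5) (nat_lit 99) (nat_lit 5) (nat_lit 288) (nat_lit 277) (nat_lit 215)) (XT.nd (nat_lit 78) (nat_lit 608) (nat_lit 0) (XT.lf (nat_lit 0) (nat_lit 10268059832) (nat_lit 684) (nat_lit 2080057301) (nat_lit 760) (nat_lit 726678652) (nat_lit 89) (nat_lit 5) (nat_lit 98) (nat_lit 5) (nat_lit 99) (nat_lit 5) (nat_lit 289) (nat_lit 277) (nat_lit 214)) (XT.lf (nat_lit 0) (nat_lit 754225878) (nat_lit 608) (nat_lit 9499256380) (nat_lit 76) (nat_lit 3167077027) (nat_lit 81) (nat_lit 5) (nat_lit 89) (nat_lit 5) (nat_lit 82) (nat_lit 5) (nat_lit 290) (nat_lit 277) (nat_lit 213))))))) (XT.nd (nat_lit 780) (nat_lit 1444) (nat_lit 0) (XT.nd (nat_lit 390) (nat_lit 988)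 (nat_lit 0) (XT.nd (nat_lit 156) (nat_lit 304) (nat_lit 0) (XT.nd (nat_lit 78) (nat_lit 380) (nat_lit 0) (XT.lf (nat_lit 0) (nat_lit 2340594593) (nat_lit 608) (nat_lit 2770591316) (nat_lit 76) (nat_lit 8669079696) (nat_lit 81) (nat_lit 5) (nat_lit 89) (nat_lit 5) (nat_lit 82) (nat_lit 5) (nat_lit 291) (nat_lit 277) (nat_lit 212)) (XT.lf (nat_lit 0) (nat_lit 4055487085) (nat_lit 456) (nat_lit 9750295320) (nat_lit 76) (nat_lit 349754844) (nat_lit 76) (nat_lit 5) (nat_lit 82) (nat_lit 5) (nat_lit 77) (nat_lit 5) (nat_lit 292) (nat_lit 277) (nat_lit 211))) (XT.nd (nat_lit 78) (nat_lit 304) (nat_lit 0) (XT.lf (nat_lit 0) (nat_lit 5963131863) (nat_lit 456) (nat_lit 2621128765) (nat_lit 76) (nat_lit 5959999820) (nat_lit 76) (nat_lit 5) (nat_lit 82) (nat_lit 5) (nat_lit 77) (nat_lit 5) (nat_lit 293) (nat_lit 277) (nat_lit 210)) (XT.nd (nat_lit 78) (nat_lit 0) (nat_lit 0) (XT.lf (nat_lit 0) (nat_lit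 5000349250) (nat_lit 304) (nat_lit 3020571687) (nat_lit 380) (nat_lit 6928797298) (nat_lit 72) (nat_lit 5) (nat_lit 76) (nat_lit 5) (nat_lit 77) (nat_lit 5) (nat_lit 294) (nat_lit 277) (nat_lit 209)) (XT.lf (nat_lit 0) (nat_lit 10248177377) (nat_lit 380) (nat_lit 2349047865) (nat_lit 76) (nat_lit 2774929566) (nat_lit 72) (nat_lit 5) (nat_lit 77) (nat_lit 5) (nat_lit 73) (nat_lit 5) (nat_lit 295) (nat_lit 277) (nat_lit 208))))) (XT.nd (nat_lit 156) (nat_lit 684) (nat_lit 0) (XT.nd (nat_lit 78) (nat_lit 0) (nat_lit 0) (XT.lf (nat_lit 0) (nat_lit 5741789471) (nat_lit 304) (nat_lit 6962657488) (nat_lit 380) (nat_lit 3105416868) (nat_lit 68) (nat_lit 5) (nat_lit 72) (nat_lit 5) (nat_lit 73) (nat_lit 5) (nat_lit 296) (nat_lit 277) (nat_lit 207)) (XT.lf (nat_lit 0) (nat_lit 14295350071) (nat_lit 304) (nat_lit 1007109047) (nat_lit 380) (nat_lit 966084282) (nat_lit 68) (nat_lit 5) (nat_lit 72)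 (nat_lit 5) (nat_lit 73) (nat_lit 5) (nat_lit 297) (nat_lit 277) (nat_lit 206))) (XT.nd (nat_lit 78) (nat_lit 304) (nat_lit 0) (XT.lf (nat_lit 0) (nat_lit 1407504931) (nat_lit 380) (nat_lit 10131014526) (nat_lit 76) (nat_lit 5202253485) (nat_lit 63) (nat_lit 5) (nat_lit 68) (nat_lit 5) (nat_lit 64) (nat_lit 5) (nat_lit 298) (nat_lit 277) (nat_lit 205)) (XT.nd (nat_lit 78) (nat_lit 304) (nat_lit 0) (XT.lf (nat_lit 0) (nat_lit 3898130235) (nat_lit 380) (nat_lit 1601022785) (nat_lit 76) (nat_lit 11735155158) (nat_lit 63) (nat_lit 5) (nat_lit 68) (nat_lit 5) (nat_lit 64) (nat_lit 5) (nat_lit 299) (nat_lit 277) (nat_lit 204)) (XT.lf (nat_lit 0) (nat_lit 6627875904) (nat_lit 380) (nat_lit 10187091650) (nat_lit 76) (nat_lit 931849131) (nat_lit 59) (nat_lit 5) (nat_lit 64) (nat_lit 5) (nat_lit 60) (nat_lit 5) (nat_lit 300) (nat_lit 277) (nat_lit 203)))))) (XT.nd (nat_lit 390) (nat_lit 912) (nat_lit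 0) (XT.nd (nat_lit 156) (nat_lit 304) (nat_lit 0) (XT.nd (nat_lit 78) (nat_lit 228) (nat_lit 0) (XT.lf (nat_lit 0) (nat_lit 9593587808) (nat_lit 380) (nat_lit 1163031664) (nat_lit 76) (nat_lit 7523381922) (nat_lit 59) (nat_lit 5) (nat_lit 64) (nat_lit 5) (nat_lit 60) (nat_lit 5) (nat_lit 301) (nat_lit 277) (nat_lit 202)) (XT.lf (nat_lit 0) (nat_lit 8564504814) (nat_lit 228) (nat_lit 4259434810) (nat_lit 304) (nat_lit 6010111546) (nat_lit 56) (nat_lit 5) (nat_lit 59) (nat_lit 5) (nat_lit 60) (nat_lit 5) (nat_lit 302) (nat_lit 277) (nat_lit 201))) (XT.nd (nat_lit 78) (nat_lit 304) (nat_lit 0) (XT.lf (nat_lit 0) (nat_lit 16258895376) (nat_lit 304) (nat_lit 658640679) (nat_lit 76) (nat_lit 2496135491) (nat_lit 56) (nat_lit 5) (nat_lit 60) (nat_lit 5) (nat_lit 57) (nat_lit 5) (nat_lit 303) (nat_lit 277) (nat_lit 200)) (XT.nd (nat_lit 78) (nat_lit 0) (nat_lit 0) (XT.lf (nat_lit 0) (nat_lit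 56034645) (nat_lit 304) (nat_lit 10362340024) (nat_lit 76) (nat_lit 9593656212) (nat_lit 52) (nat_lit 5) (nat_lit 56) (nat_lit 5) (nat_lit 53) (nat_lit 5) (nat_lit 304) (nat_lit 277) (nat_lit 199)) (XT.lf (nat_lit 0) (nat_lit 3316731701) (nat_lit 304) (nat_lit 216774969) (nat_lit 76) (nat_lit 17104466660) (nat_lit 52) (nat_lit 5) (nat_lit 56) (nat_lit 5) (nat_lit 53) (nat_lit 5) (nat_lit 305) (nat_lit 277) (nat_lit 198))))) (XT.nd (nat_lit 234) (nat_lit 456) (nat_lit 0) (XT.nd (nat_lit 78) (nat_lit 228) (nat_lit 0) (XT.lf (nat_lit 0) (nat_lit 6953619800) (nat_lit 304) (nat_lit 10587915672) (nat_lit 76) (nat_lit 3743038071) (nat_lit 49) (nat_lit 5) (nat_lit 53) (nat_lit 5) (nat_lit 50) (nat_lit 5) (nat_lit 306) (nat_lit 277) (nat_lit 197)) (XT.nd (nat_lit 78) (nat_lit 0) (nat_lit 0) (XT.lf (nat_lit 0) (nat_lit 125234917) (nat_lit 228) (nat_lit 10695848799) (nat_lit 304) (nat_lit 11140001051)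 (nat_lit 46) (nat_lit 5) (nat_lit 49) (nat_lit 5) (nat_lit 50) (nat_lit 5) (nat_lit 307) (nat_lit 277) (nat_lit 196)) (XT.lf (nat_lit 0) (nat_lit 11721211375) (nat_lit 228) (nat_lit 3325529192) (nat_lit 304) (nat_lit 7616456734) (nat_lit 46) (nat_lit 5) (nat_lit 49) (nat_lit 5) (nat_lit 50) (nat_lit 5) (nat_lit 308) (nat_lit 277) (nat_lit 195)))) (XT.nd (nat_lit 78) (nat_lit 304) (nat_lit 0) (XT.lf (nat_lit 0) (nat_lit 421078591) (nat_lit 152) (nat_lit 19124190163) (nat_lit 228) (nat_lit 3852083222) (nat_lit 44) (nat_lit 5) (nat_lit 46) (nat_lit 5) (nat_lit 47) (nat_lit 5) (nat_lit 309) (nat_lit 277) (nat_lit 194)) (XT.nd (nat_lit 78) (nat_lit 228) (nat_lit 0) (XT.lf (nat_lit 0) (nat_lit 326381361) (nat_lit 228) (nat_lit 11506107433) (nat_lit 76) (nat_lit 12324207120) (nat_lit 43) (nat_lit 5) (nat_lit 46) (nat_lit 5) (nat_lit 44) (nat_lit 5) (nat_lit 310) (nat_lit 277) (nat_lit 193))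 (XT.lf (nat_lit 0) (nat_lit 470218421) (nat_lit 228) (nat_lit 4108319572) (nat_lit 304) (nat_lit 20372614174) (nat_lit 40) (nat_lit 5) (nat_lit 43) (nat_lit 5) (nat_lit 44) (nat_lit 5) (nat_lit 311) (nat_lit 277) (nat_lit 192))))))))
noncomputable def xc156 : XT := (XT.nd (nat_lit 1560) (nat_lit 760) (nat_lit 0) (XT.nd (nat_lit 780) (nat_lit 760) (nat_lit 0) (XT.nd (nat_lit 390) (nat_lit 304) (nat_lit 0) (XT.nd (nat_lit 156) (nat_lit 228) (nat_lit 0) (XT.nd (nat_lit 78) (nat_lit 152) (nat_lit 0) (XT.lf (nat_lit 0) (nat_lit 9290957315) (nat_lit 304) (nat_lit 12415934762) (nat_lit 76) (nat_lit 4066069527) (nat_lit 40) (nat_lit 5) (nat_lit 44) (nat_lit 5) (nat_lit 41) (nat_lit 5) (nat_lit 312) (nat_lit 277) (nat_lit 191)) (XT.lf (nat_lit 0) (nat_lit 171899433) (nat_lit 152) (nat_lit 14124860612) (nat_lit 228) (nat_lit 12336225831) (nat_lit 38) (nat_lit 5) (nat_lit 40) (nat_lit 5) (nat_lit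 41) (nat_lit 5) (nat_lit 313) (nat_lit 277) (nat_lit 190))) (XT.nd (nat_lit 78) (nat_lit 228) (nat_lit 0) (XT.lf (nat_lit 0) (nat_lit 13801910935) (nat_lit 152) (nat_lit 5949240071) (nat_lit 228) (nat_lit 7774957346) (nat_lit 38) (nat_lit 5) (nat_lit 40) (nat_lit 5) (nat_lit 41) (nat_lit 5) (nat_lit 314) (nat_lit 277) (nat_lit 189)) (XT.nd (nat_lit 78) (nat_lit 228) (nat_lit 0) (XT.lf (nat_lit 0) (nat_lit 25507908470) (nat_lit 228) (nat_lit 409491729) (nat_lit 76) (nat_lit 2545015731) (nat_lit 38) (nat_lit 5) (nat_lit 41) (nat_lit 5) (nat_lit 39) (nat_lit 5) (nat_lit 315) (nat_lit 277) (nat_lit 188)) (XT.lf (nat_lit 0) (nat_lit 2348114920) (nat_lit 228) (nat_lit 15566925744) (nat_lit 76) (nat_lit 11513434415) (nat_lit 35) (nat_lit 5) (nat_lit 38) (nat_lit 5) (nat_lit 36) (nat_lit 5) (nat_lit 316) (nat_lit 277) (nat_lit 187))))) (XT.nd (nat_lit 156) (nat_lit 152) (nat_lit 0) (XT.nd (nat_lit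 78) (nat_lit 152) (nat_lit 0) (XT.lf (nat_lit 0) (nat_lit 7812752831) (nat_lit 228) (nat_lit 1647808001) (nat_lit 76) (nat_lit 20980055649) (nat_lit 35) (nat_lit 5) (nat_lit 38) (nat_lit 5) (nat_lit 36) (nat_lit 5) (nat_lit 317) (nat_lit 277) (nat_lit 186)) (XT.lf (nat_lit 0) (nat_lit 13379169847) (nat_lit 152) (nat_lit 369983510) (nat_lit 228) (nat_lit 17744294377) (nat_lit 33) (nat_lit 5) (nat_lit 35) (nat_lit 5) (nat_lit 36) (nat_lit 5) (nat_lit 318) (nat_lit 277) (nat_lit 185))) (XT.nd (nat_lit 78) (nat_lit 152) (nat_lit 0) (XT.lf (nat_lit 0) (nat_lit 20143781441) (nat_lit 228) (nat_lit 3542998833) (nat_lit 76) (nat_lit 8904078776) (nat_lit 33) (nat_lit 5) (nat_lit 36) (nat_lit 5) (nat_lit 34) (nat_lit 5) (nat_lit 319) (nat_lit 277) (nat_lit 184)) (XT.nd (nat_lit 78) (nat_lit 0) (nat_lit 0) (XT.lf (nat_lit 0) (nat_lit 12123106855) (nat_lit 152) (nat_lit 14920655282) (nat_lit 228)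 (nat_lit 6690106187) (nat_lit 31) (nat_lit 5) (nat_lit 33) (nat_lit 5) (nat_lit 34) (nat_lit 5) (nat_lit 320) (nat_lit 277) (nat_lit 183)) (XT.lf (nat_lit 0) (nat_lit 28680088619) (nat_lit 152) (nat_lit 5659157754) (nat_lit 228) (nat_lit 592264510) (nat_lit 31) (nat_lit 5) (nat_lit 33) (nat_lit 5) (nat_lit 34) (nat_lit 5) (nat_lit 321) (nat_lit 277) (nat_lit 182)))))) (XT.nd (nat_lit 390) (nat_lit 304) (nat_lit 0) (XT.nd (nat_lit 156) (nat_lit 228) (nat_lit 0) (XT.nd (nat_lit 78) (nat_lit 0) (nat_lit 0) (XT.lf (nat_lit 0) (nat_lit 5840332098) (nat_lit 228) (nat_lit 26151339275) (nat_lit 76) (nat_lit 4182043909) (nat_lit 28) (nat_lit 5) (nat_lit 31) (nat_lit 5) (nat_lit 29) (nat_lit 5) (nat_lit 322) (nat_lit 277) (nat_lit 181)) (XT.lf (nat_lit 0) (nat_lit 12765950189) (nat_lit 228) (nat_lit 10265189896) (nat_lit 76) (nat_lit 14436846524) (nat_lit 28) (nat_lit 5) (nat_lit 31) (nat_lit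 5) (nat_lit 29) (nat_lit 5) (nat_lit 323) (nat_lit 277) (nat_lit 180))) (XT.nd (nat_lit 78) (nat_lit 76) (nat_lit 0) (XT.lf (nat_lit 0) (nat_lit 6612493684) (nat_lit 152) (nat_lit 13519943720) (nat_lit 228) (nat_lit 18689811311) (nat_lit 26) (nat_lit 5) (nat_lit 28) (nat_lit 5) (nat_lit 29) (nat_lit 5) (nat_lit 324) (nat_lit 277) (nat_lit 179)) (XT.nd (nat_lit 78) (nat_lit 76) (nat_lit 0) (XT.lf (nat_lit 0) (nat_lit 24676263786) (nat_lit 152) (nat_lit 3356370364) (nat_lit 228) (nat_lit 12203326824) (nat_lit 26) (nat_lit 5) (nat_lit 28) (nat_lit 5) (nat_lit 29) (nat_lit 5) (nat_lit 325) (nat_lit 277) (nat_lit 178)) (XT.lf (nat_lit 0) (nat_lit 1854164400) (nat_lit 76) (nat_lit 34608695683) (nat_lit 152) (nat_lit 5250753802) (nat_lit 25) (nat_lit 5) (nat_lit 26) (nat_lit 5) (nat_lit 27) (nat_lit 4) (nat_lit 326) (nat_lit 277) (nat_lit 177))))) (XT.nd (nat_lit 156) (nat_lit 228) (nat_lit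 0) (XT.nd (nat_lit 78) (nat_lit 0) (nat_lit 0) (XT.lf (nat_lit 0) (nat_lit 2298602252) (nat_lit 152) (nat_lit 22678277918) (nat_lit 76) (nat_lit 18270937365) (nat_lit 24) (nat_lit 5) (nat_lit 26) (nat_lit 5) (nat_lit 25) (nat_lit 5) (nat_lit 327) (nat_lit 277) (nat_lit 176)) (XT.lf (nat_lit 0) (nat_lit 10041248441) (nat_lit 152) (nat_lit 4737345420) (nat_lit 76) (nat_lit 30076224694) (nat_lit 24) (nat_lit 5) (nat_lit 26) (nat_lit 5) (nat_lit 25) (nat_lit 5) (nat_lit 328) (nat_lit 277) (nat_lit 175))) (XT.nd (nat_lit 78) (nat_lit 76) (nat_lit 0) (XT.lf (nat_lit 0) (nat_lit 14553857837) (nat_lit 152) (nat_lit 3837045220) (nat_lit 228) (nat_lit 28140277704) (nat_lit 22) (nat_lit 5) (nat_lit 24) (nat_lit 5) (nat_lit 25) (nat_lit 5) (nat_lit 329) (nat_lit 277) (nat_lit 174)) (XT.nd (nat_lit 78) (nat_lit 76) (nat_lit 0) (XT.lf (nat_lit 0) (nat_lit 27351772644) (nat_lit 228) (nat_lit 13446706729)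 (nat_lit 76) (nat_lit 7483199801) (nat_lit 22) (nat_lit 5) (nat_lit 25) (nat_lit 5) (nat_lit 23) (nat_lit 4) (nat_lit 330) (nat_lit 277) (nat_lit 173)) (XT.lf (nat_lit 0) (nat_lit 6131724270) (nat_lit 76) (nat_lit 30780668788) (nat_lit 152) (nat_lit 13199728562) (nat_lit 21) (nat_lit 5) (nat_lit 22) (nat_lit 5) (nat_lit 23) (nat_lit 4) (nat_lit 331) (nat_lit 277) (nat_lit 172))))))) (XT.nd (nat_lit 780) (nat_lit 304) (nat_lit 0) (XT.nd (nat_lit 390) (nat_lit 152) (nat_lit 0) (XT.nd (nat_lit 156) (nat_lit 228) (nat_lit 0) (XT.nd (nat_lit 78) (nat_lit 76) (nat_lit 0) (XT.lf (nat_lit 0) (nat_lit 27144043648) (nat_lit 76) (nat_lit 20027943463) (nat_lit 152) (nat_lit 4851056217) (nat_lit 21) (nat_lit 5) (nat_lit 22) (nat_lit 5) (nat_lit 23) (nat_lit 4) (nat_lit 332) (nat_lit 277) (nat_lit 171)) (XT.lf (nat_lit 0) (nat_lit 3783173025) (nat_lit 152) (nat_lit 4895185263) (nat_lit 76) (nat_lit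 45348428993) (nat_lit 20) (nat_lit 5) (nat_lit 22) (nat_lit 5) (nat_lit 21) (nat_lit 5) (nat_lit 333) (nat_lit 277) (nat_lit 170))) (XT.nd (nat_lit 78) (nat_lit 76) (nat_lit 0) (XT.lf (nat_lit 0) (nat_lit 12993874971) (nat_lit 228) (nat_lit 39643924222) (nat_lit 76) (nat_lit 3473557226) (nat_lit 18) (nat_lit 5) (nat_lit 21) (nat_lit 5) (nat_lit 19) (nat_lit 4) (nat_lit 334) (nat_lit 277) (nat_lit 169)) (XT.nd (nat_lit 78) (nat_lit 76) (nat_lit 0) (XT.lf (nat_lit 0) (nat_lit 22885440147) (nat_lit 228) (nat_lit 19382544963) (nat_lit 76) (nat_lit 16021156008) (nat_lit 18) (nat_lit 5) (nat_lit 21) (nat_lit 5) (nat_lit 19) (nat_lit 4) (nat_lit 335) (nat_lit 277) (nat_lit 168)) (XT.lf (nat_lit 0) (nat_lit 1943597020) (nat_lit 76) (nat_lit 31352425442) (nat_lit 152) (nat_lit 27278573991) (nat_lit 17) (nat_lit 5) (nat_lit 18) (nat_lit 5) (nat_lit 19) (nat_lit 4) (nat_lit 336) (nat_lit 277) (nat_lit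 167))))) (XT.nd (nat_lit 156) (nat_lit 152) (nat_lit 0) (XT.nd (nat_lit 78) (nat_lit 0) (nat_lit 0) (XT.lf (nat_lit 0) (nat_lit 24998620390) (nat_lit 76) (nat_lit 19550979914) (nat_lit 152) (nat_lit 18408604117) (nat_lit 17) (nat_lit 5) (nat_lit 18) (nat_lit 5) (nat_lit 19) (nat_lit 4) (nat_lit 337) (nat_lit 277) (nat_lit 166)) (XT.lf (nat_lit 0) (nat_lit 49196543587) (nat_lit 76) (nat_lit 7163802622) (nat_lit 152) (nat_lit 9100925152) (nat_lit 17) (nat_lit 5) (nat_lit 18) (nat_lit 5) (nat_lit 19) (nat_lit 4) (nat_lit 338) (nat_lit 277) (nat_lit 165))) (XT.nd (nat_lit 78) (nat_lit 0) (nat_lit 0) (XT.lf (nat_lit 0) (nat_lit 843087827) (nat_lit 152) (nat_lit 61467479802) (nat_lit 76) (nat_lit 5768778940) (nat_lit 15) (nat_lit 5) (nat_lit 17) (nat_lit 5) (nat_lit 16) (nat_lit 4) (nat_lit 339) (nat_lit 277) (nat_lit 164)) (XT.nd (nat_lit 78) (nat_lit 0) (nat_lit 0) (XT.lf (nat_lit 0) (nat_lit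 11370561524) (nat_lit 152) (nat_lit 39898343937) (nat_lit 76) (nat_lit 19532357381) (nat_lit 15) (nat_lit 5) (nat_lit 17) (nat_lit 5) (nat_lit 16) (nat_lit 4) (nat_lit 340) (nat_lit 277) (nat_lit 163)) (XT.lf (nat_lit 0) (nat_lit 22419365876) (nat_lit 152) (nat_lit 17259899982) (nat_lit 76) (nat_lit 33980263719) (nat_lit 15) (nat_lit 5) (nat_lit 17) (nat_lit 5) (nat_lit 16) (nat_lit 4) (nat_lit 341) (nat_lit 277) (nat_lit 162)))))) (XT.nd (nat_lit 390) (nat_lit 152) (nat_lit 0) (XT.nd (nat_lit 156) (nat_lit 76) (nat_lit 0) (XT.nd (nat_lit 78) (nat_lit 0) (nat_lit 0) (XT.lf (nat_lit 0) (nat_lit 6716730441) (nat_lit 76) (nat_lit 27403944103) (nat_lit 152) (nat_lit 42535034275) (nat_lit 14) (nat_lit 5) (nat_lit 15) (nat_lit 5) (nat_lit 16) (nat_lit 4) (nat_lit 342) (nat_lit 277) (nat_lit 161)) (XT.lf (nat_lit 0) (nat_lit 32482844623) (nat_lit 76) (nat_lit 14211800764) (nat_lit 152) (nat_lit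 33092674064) (nat_lit 14) (nat_lit 5) (nat_lit 15) (nat_lit 5) (nat_lit 16) (nat_lit 4) (nat_lit 343) (nat_lit 277) (nat_lit 160))) (XT.nd (nat_lit 78) (nat_lit 76) (nat_lit 0) (XT.lf (nat_lit 0) (nat_lit 59529100213) (nat_lit 76) (nat_lit 363730734) (nat_lit 152) (nat_lit 23182906017) (nat_lit 14) (nat_lit 5) (nat_lit 15) (nat_lit 5) (nat_lit 16) (nat_lit 4) (nat_lit 344) (nat_lit 277) (nat_lit 159)) (XT.nd (nat_lit 78) (nat_lit 0) (nat_lit 0) (XT.lf (nat_lit 0) (nat_lit 1208497648) (nat_lit 76) (nat_lit 72778309818) (nat_lit 76) (nat_lit 12529975853) (nat_lit 13) (nat_lit 4) (nat_lit 14) (nat_lit 5) (nat_lit 14) (nat_lit 4) (nat_lit 345) (nat_lit 277) (nat_lit 158)) (XT.lf (nat_lit 0) (nat_lit 28004906508) (nat_lit 76) (nat_lit 61180975622) (nat_lit 76) (nat_lit 923981853) (nat_lit 13) (nat_lit 4) (nat_lit 14) (nat_lit 5) (nat_lit 14) (nat_lit 4) (nat_lit 346) (nat_lit 277) (nat_lit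 157))))) (XT.nd (nat_lit 234) (nat_lit 0) (nat_lit 0) (XT.nd (nat_lit 78) (nat_lit 76) (nat_lit 0) (XT.lf (nat_lit 0) (nat_lit 10897740475) (nat_lit 152) (nat_lit 37924873227) (nat_lit 76) (nat_lit 45051400293) (nat_lit 12) (nat_lit 5) (nat_lit 14) (nat_lit 5) (nat_lit 13) (nat_lit 4) (nat_lit 347) (nat_lit 277) (nat_lit 156)) (XT.nd (nat_lit 78) (nat_lit 76) (nat_lit 0) (XT.lf (nat_lit 0) (nat_lit 23275585587) (nat_lit 152) (nat_lit 12558145445) (nat_lit 76) (nat_lit 61992080376) (nat_lit 12) (nat_lit 5) (nat_lit 14) (nat_lit 5) (nat_lit 13) (nat_lit 4) (nat_lit 348) (nat_lit 277) (nat_lit 155)) (XT.lf (nat_lit 0) (nat_lit 14535268141) (nat_lit 76) (nat_lit 21960265861) (nat_lit 152) (nat_lit 65468505747) (nat_lit 11) (nat_lit 5) (nat_lit 12) (nat_lit 5) (nat_lit 13) (nat_lit 4) (nat_lit 349) (nat_lit 277) (nat_lit 154)))) (XT.nd (nat_lit 78) (nat_lit 0) (nat_lit 0) (XT.lf (nat_lit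 0) (nat_lit 43412583727) (nat_lit 76) (nat_lit 7172921020) (nat_lit 152) (nat_lit 55713225045) (nat_lit 11) (nat_lit 5) (nat_lit 12) (nat_lit 5) (nat_lit 13) (nat_lit 4) (nat_lit 350) (nat_lit 277) (nat_lit 153)) (XT.nd (nat_lit 78) (nat_lit 0) (nat_lit 0) (XT.lf (nat_lit 0) (nat_lit 65506874549) (nat_lit 152) (nat_lit 37253381855) (nat_lit 0) (nat_lit 8083554368) (nat_lit 11) (nat_lit 5) (nat_lit 13) (nat_lit 4) (nat_lit 11) (nat_lit 4) (nat_lit 351) (nat_lit 277) (nat_lit 152)) (XT.lf (nat_lit 0) (nat_lit 81288544022) (nat_lit 152) (nat_lit 10462822129) (nat_lit 0) (nat_lit 23859069480) (nat_lit 11) (nat_lit 5) (nat_lit 13) (nat_lit 4) (nat_lit 11) (nat_lit 4) (nat_lit 352) (nat_lit 277) (nat_lit 151))))))))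
noncomputable def xc157 : XT := (XT.nd (nat_lit 1638) (nat_lit 76) (nat_lit 0) (XT.nd (nat_lit 780) (nat_lit 152) (nat_lit 0) (XT.nd (nat_lit 390) (nat_lit 76) (nat_lit 0) (XT.nd (nat_lit 156) (nat_lit 152) (nat_lit 0) (XT.nd (nat_lit 78) (nat_lit 0) (nat_lit 0) (XT.lf (nat_lit 0) (nat_lit 18245272211) (nat_lit 76) (nat_lit 79895686792) (nat_lit 76) (nat_lit 22460350954) (nat_lit 10) (nat_lit 4) (nat_lit 11) (nat_lit 5) (nat_lit 11) (nat_lit 4) (nat_lit 353) (nat_lit 277) (nat_lit 150)) (XT.lf (nat_lit 0) (nat_lit 48746156869) (nat_lit 76) (nat_lit 67263893809) (nat_lit 76) (nat_lit 9822975784) (nat_lit 10) (nat_lit 4) (nat_lit 11) (nat_lit 5) (nat_lit 11) (nat_lit 4) (nat_lit 354) (nat_lit 277) (nat_lit 149))) (XT.nd (nat_lit 78) (nat_lit 76) (nat_lit 0) (XT.lf (nat_lit 0) (nat_lit 3332928271) (nat_lit 152) (nat_lit 50613731437) (nat_lit 76) (nat_lit 77377131820) (nat_lit 9) (nat_lit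 5) (nat_lit 11) (nat_lit 5) (nat_lit 10) (nat_lit 4) (nat_lit 355) (nat_lit 277) (nat_lit 148)) (XT.nd (nat_lit 78) (nat_lit 76) (nat_lit 0) (XT.lf (nat_lit 0) (nat_lit 16813618016) (nat_lit 152) (nat_lit 22983380668) (nat_lit 76) (nat_lit 97284190288) (nat_lit 9) (nat_lit 5) (nat_lit 11) (nat_lit 5) (nat_lit 10) (nat_lit 4) (nat_lit 356) (nat_lit 277) (nat_lit 147)) (XT.lf (nat_lit 0) (nat_lit 6222492048) (nat_lit 76) (nat_lit 24840245392) (nat_lit 152) (nat_lit 112059000127) (nat_lit 8) (nat_lit 5) (nat_lit 9) (nat_lit 5) (nat_lit 10) (nat_lit 4) (nat_lit 357) (nat_lit 277) (nat_lit 146))))) (XT.nd (nat_lit 156) (nat_lit 76) (nat_lit 0) (XT.nd (nat_lit 78) (nat_lit 0) (nat_lit 0) (XT.lf (nat_lit 0) (nat_lit 37681518418) (nat_lit 76) (nat_lit 8729325778) (nat_lit 152) (nat_lit 103034143816) (nat_lit 8) (nat_lit 5) (nat_lit 9) (nat_lit 5) (nat_lit 10) (nat_lit 4) (nat_lit 358) (nat_lit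 277) (nat_lit 145)) (XT.lf (nat_lit 0) (nat_lit 62651570695) (nat_lit 152) (nat_lit 85503653117) (nat_lit 0) (nat_lit 7922917386) (nat_lit 8) (nat_lit 5) (nat_lit 10) (nat_lit 4) (nat_lit 8) (nat_lit 4) (nat_lit 359) (nat_lit 277) (nat_lit 144))) (XT.nd (nat_lit 78) (nat_lit 76) (nat_lit 0) (XT.lf (nat_lit 0) (nat_lit 79844951705) (nat_lit 152) (nat_lit 58078639086) (nat_lit 0) (nat_lit 25112331240) (nat_lit 8) (nat_lit 5) (nat_lit 10) (nat_lit 4) (nat_lit 8) (nat_lit 4) (nat_lit 360) (nat_lit 277) (nat_lit 143)) (XT.nd (nat_lit 78) (nat_lit 76) (nat_lit 0) (XT.lf (nat_lit 0) (nat_lit 97895634608) (nat_lit 152) (nat_lit 29286840609) (nat_lit 0) (nat_lit 43159235900) (nat_lit 8) (nat_lit 5) (nat_lit 10) (nat_lit 4) (nat_lit 8) (nat_lit 4) (nat_lit 361) (nat_lit 277) (nat_lit 142)) (XT.lf (nat_lit 0) (nat_lit 971384587) (nat_lit 76) (nat_lit 115890378669) (nat_lit 76) (nat_lit 61150381633)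 (nat_lit 7) (nat_lit 4) (nat_lit 8) (nat_lit 5) (nat_lit 8) (nat_lit 4) (nat_lit 362) (nat_lit 277) (nat_lit 141)))))) (XT.nd (nat_lit 390) (nat_lit 76) (nat_lit 0) (XT.nd (nat_lit 156) (nat_lit 76) (nat_lit 0) (XT.nd (nat_lit 78) (nat_lit 0) (nat_lit 0) (XT.lf (nat_lit 0) (nat_lit 33755109047) (nat_lit 76) (nat_lit 103514863686) (nat_lit 76) (nat_lit 48771439671) (nat_lit 7) (nat_lit 4) (nat_lit 8) (nat_lit 5) (nat_lit 8) (nat_lit 4) (nat_lit 363) (nat_lit 277) (nat_lit 140)) (XT.lf (nat_lit 0) (nat_lit 68174034044) (nat_lit 76) (nat_lit 90522451573) (nat_lit 76) (nat_lit 35775763769) (nat_lit 7) (nat_lit 4) (nat_lit 8) (nat_lit 5) (nat_lit 8) (nat_lit 4) (nat_lit 364) (nat_lit 277) (nat_lit 139))) (XT.nd (nat_lit 78) (nat_lit 76) (nat_lit 0) (XT.lf (nat_lit 0) (nat_lit 104310109399) (nat_lit 76) (nat_lit 76882208015) (nat_lit 76) (nat_lit 22132411841) (nat_lit 7) (nat_lit 4) (nat_lit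 8) (nat_lit 5) (nat_lit 8) (nat_lit 4) (nat_lit 365) (nat_lit 277) (nat_lit 138)) (XT.nd (nat_lit 78) (nat_lit 76) (nat_lit 0) (XT.lf (nat_lit 0) (nat_lit 142249373386) (nat_lit 76) (nat_lit 62561656243) (nat_lit 76) (nat_lit 7808899715) (nat_lit 7) (nat_lit 4) (nat_lit 8) (nat_lit 5) (nat_lit 8) (nat_lit 4) (nat_lit 366) (nat_lit 277) (nat_lit 137)) (XT.lf (nat_lit 0) (nat_lit 6997507022) (nat_lit 152) (nat_lit 40410686513) (nat_lit 76) (nat_lit 174966144396) (nat_lit 6) (nat_lit 5) (nat_lit 8) (nat_lit 5) (nat_lit 7) (nat_lit 4) (nat_lit 367) (nat_lit 277) (nat_lit 136))))) (XT.nd (nat_lit 234) (nat_lit 0) (nat_lit 0) (XT.nd (nat_lit 78) (nat_lit 76) (nat_lit 0) (XT.lf (nat_lit 0) (nat_lit 22280041368) (nat_lit 152) (nat_lit 9084176233) (nat_lit 76) (nat_lit 201245937314) (nat_lit 6) (nat_lit 5) (nat_lit 8) (nat_lit 5) (nat_lit 7) (nat_lit 4) (nat_lit 368) (nat_lit 277) (nat_lit 135))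 (XT.nd (nat_lit 78) (nat_lit 0) (nat_lit 0) (XT.lf (nat_lit 0) (nat_lit 24592597317) (nat_lit 76) (nat_lit 14116385911) (nat_lit 152) (nat_lit 204629666028) (nat_lit 5) (nat_lit 5) (nat_lit 6) (nat_lit 5) (nat_lit 7) (nat_lit 4) (nat_lit 369) (nat_lit 277) (nat_lit 134)) (XT.lf (nat_lit 0) (nat_lit 56176423569) (nat_lit 152) (nat_lit 194395348933) (nat_lit 0) (nat_lit 4020943767) (nat_lit 5) (nat_lit 5) (nat_lit 7) (nat_lit 4) (nat_lit 5) (nat_lit 4) (nat_lit 370) (nat_lit 277) (nat_lit 133)))) (XT.nd (nat_lit 78) (nat_lit 0) (nat_lit 0) (XT.lf (nat_lit 0) (nat_lit 74747061064) (nat_lit 152) (nat_lit 169061562610) (nat_lit 0) (nat_lit 22589372201) (nat_lit 5) (nat_lit 5) (nat_lit 7) (nat_lit 4) (nat_lit 5) (nat_lit 4) (nat_lit 371) (nat_lit 277) (nat_lit 132)) (XT.nd (nat_lit 78) (nat_lit 0) (nat_lit 0) (XT.lf (nat_lit 0) (nat_lit 94244715172) (nat_lit 152) (nat_lit 142463978086) (nat_lit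 0) (nat_lit 42084922441) (nat_lit 5) (nat_lit 5) (nat_lit 7) (nat_lit 4) (nat_lit 5) (nat_lit 4) (nat_lit 372) (nat_lit 277) (nat_lit 131)) (XT.lf (nat_lit 0) (nat_lit 114715808879) (nat_lit 152) (nat_lit 114539267778) (nat_lit 0) (nat_lit 62554012465) (nat_lit 5) (nat_lit 5) (nat_lit 7) (nat_lit 4) (nat_lit 5) (nat_lit 4) (nat_lit 373) (nat_lit 277) (nat_lit 130))))))) (XT.nd (nat_lit 780) (nat_lit 0) (nat_lit 0) (XT.nd (nat_lit 390) (nat_lit 0) (nat_lit 0) (XT.nd (nat_lit 156) (nat_lit 76) (nat_lit 0) (XT.nd (nat_lit 78) (nat_lit 0) (nat_lit 0) (XT.lf (nat_lit 0) (nat_lit 136209082884) (nat_lit 152) (nat_lit 85220944282) (nat_lit 0) (nat_lit 84045378200) (nat_lit 5) (nat_lit 5) (nat_lit 7) (nat_lit 4) (nat_lit 5) (nat_lit 4) (nat_lit 374) (nat_lit 277) (nat_lit 129)) (XT.lf (nat_lit 0) (nat_lit 158775711650) (nat_lit 152) (nat_lit 54439202066) (nat_lit 0) (nat_lit 106610189566) (nat_lit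 5) (nat_lit 5) (nat_lit 7) (nat_lit 4) (nat_lit 5) (nat_lit 4) (nat_lit 375) (nat_lit 277) (nat_lit 128))) (XT.nd (nat_lit 78) (nat_lit 76) (nat_lit 0) (XT.lf (nat_lit 0) (nat_lit 182469425244) (nat_lit 152) (nat_lit 22120751266) (nat_lit 0) (nat_lit 130302172303) (nat_lit 5) (nat_lit 5) (nat_lit 7) (nat_lit 4) (nat_lit 5) (nat_lit 4) (nat_lit 376) (nat_lit 277) (nat_lit 127)) (XT.nd (nat_lit 78) (nat_lit 0) (nat_lit 0) (XT.lf (nat_lit 0) (nat_lit 12201893606) (nat_lit 76) (nat_lit 195335249419) (nat_lit 76) (nat_lit 143166348043) (nat_lit 4) (nat_lit 4) (nat_lit 5) (nat_lit 5) (nat_lit 5) (nat_lit 4) (nat_lit 377) (nat_lit 277) (nat_lit 126)) (XT.lf (nat_lit 0) (nat_lit 49006424529) (nat_lit 76) (nat_lit 185225282285) (nat_lit 76) (nat_lit 133054810970) (nat_lit 4) (nat_lit 4) (nat_lit 5) (nat_lit 5) (nat_lit 5) (nat_lit 4) (nat_lit 378) (nat_lit 277) (nat_lit 125))))) (XT.nd (nat_lit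 156) (nat_lit 0) (nat_lit 0) (XT.nd (nat_lit 78) (nat_lit 0) (nat_lit 0) (XT.lf (nat_lit 0) (nat_lit 87649059400) (nat_lit 76) (nat_lit 174610829384) (nat_lit 76) (nat_lit 122438862890) (nat_lit 4) (nat_lit 4) (nat_lit 5) (nat_lit 5) (nat_lit 5) (nat_lit 4) (nat_lit 379) (nat_lit 277) (nat_lit 124)) (XT.lf (nat_lit 0) (nat_lit 128221804493) (nat_lit 76) (nat_lit 163466618210) (nat_lit 76) (nat_lit 111293227736) (nat_lit 4) (nat_lit 4) (nat_lit 5) (nat_lit 5) (nat_lit 5) (nat_lit 4) (nat_lit 380) (nat_lit 277) (nat_lit 123))) (XT.nd (nat_lit 78) (nat_lit 0) (nat_lit 0) (XT.lf (nat_lit 0) (nat_lit 170821261582) (nat_lit 76) (nat_lit 151766114926) (nat_lit 76) (nat_lit 99591368280) (nat_lit 4) (nat_lit 4) (nat_lit 5) (nat_lit 5) (nat_lit 5) (nat_lit 4) (nat_lit 381) (nat_lit 277) (nat_lit 122)) (XT.nd (nat_lit 78) (nat_lit 0) (nat_lit 0) (XT.lf (nat_lit 0) (nat_lit 215548857944) (nat_lit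 76) (nat_lit 139481461192) (nat_lit 76) (nat_lit 87305422953) (nat_lit 4) (nat_lit 4) (nat_lit 5) (nat_lit 5) (nat_lit 5) (nat_lit 4) (nat_lit 382) (nat_lit 277) (nat_lit 121)) (XT.lf (nat_lit 0) (nat_lit 262511087859) (nat_lit 76) (nat_lit 126583407831) (nat_lit 76) (nat_lit 74406139504) (nat_lit 4) (nat_lit 4) (nat_lit 5) (nat_lit 5) (nat_lit 5) (nat_lit 4) (nat_lit 383) (nat_lit 277) (nat_lit 120)))))) (XT.nd (nat_lit 32526) (nat_lit 0) (nat_lit 6840) (XT.nd (nat_lit 156) (nat_lit 0) (nat_lit 0) (XT.nd (nat_lit 78) (nat_lit 0) (nat_lit 0) (XT.lf (nat_lit 0) (nat_lit 311819766158) (nat_lit 76) (nat_lit 113041245192) (nat_lit 76) (nat_lit 60862805354) (nat_lit 4) (nat_lit 4) (nat_lit 5) (nat_lit 5) (nat_lit 5) (nat_lit 4) (nat_lit 384) (nat_lit 277) (nat_lit 119)) (XT.lf (nat_lit 0) (nat_lit 363592294457) (nat_lit 76) (nat_lit 98822730032) (nat_lit 76) (nat_lit 46643174468) (nat_lit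 4) (nat_lit 4) (nat_lit 5) (nat_lit 5) (nat_lit 5) (nat_lit 4) (nat_lit 385) (nat_lit 277) (nat_lit 118))) (XT.nd (nat_lit 32214) (nat_lit 0) (nat_lit 6840) (XT.lf (nat_lit 0) (nat_lit 417951940680) (nat_lit 76) (nat_lit 83894008743) (nat_lit 76) (nat_lit 31713390583) (nat_lit 4) (nat_lit 4) (nat_lit 5) (nat_lit 5) (nat_lit 5) (nat_lit 4) (nat_lit 386) (nat_lit 277) (nat_lit 117)) (XT.nd (nat_lit 78) (nat_lit 0) (nat_lit 0) (XT.lf (nat_lit 0) (nat_lit 44153428) (nat_lit 0) (nat_lit 44153428) (nat_lit 684) (nat_lit 5053655594) (nat_lit 94) (nat_lit 5) (nat_lit 94) (nat_lit 3) (nat_lit 103) (nat_lit 3) (nat_lit 278) (nat_lit 278) (nat_lit 224)) (XT.lf (nat_lit 0) (nat_lit 883167150) (nat_lit 684) (nat_lit 5525291726) (nat_lit 760) (nat_lit 4096327334) (nat_lit 94) (nat_lit 5) (nat_lit 103) (nat_lit 3) (nat_lit 104) (nat_lit 5) (nat_lit 279) (nat_lit 278) (nat_lit 223))))) (XT.nd (nat_lit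 234) (nat_lit 0) (nat_lit 152) (XT.nd (nat_lit 78) (nat_lit 0) (nat_lit 76) (XT.lf (nat_lit 0) (nat_lit 1586097445) (nat_lit 684) (nat_lit 645680895) (nat_lit 760) (nat_lit 8506932114) (nat_lit 94) (nat_lit 5) (nat_lit 103) (nat_lit 3) (nat_lit 104) (nat_lit 5) (nat_lit 280) (nat_lit 278) (nat_lit 222)) (XT.nd (nat_lit 78) (nat_lit 0) (nat_lit 0) (XT.lf (nat_lit 0) (nat_lit 2392639939) (nat_lit 684) (nat_lit 6414242096) (nat_lit 760) (nat_lit 2174094475) (nat_lit 95) (nat_lit 5) (nat_lit 104) (nat_lit 5) (nat_lit 105) (nat_lit 5) (nat_lit 281) (nat_lit 278) (nat_lit 221)) (XT.lf (nat_lit 0) (nat_lit 3250478322) (nat_lit 684) (nat_lit 1232895422) (nat_lit 760) (nat_lit 6751499291) (nat_lit 95) (nat_lit 5) (nat_lit 104) (nat_lit 5) (nat_lit 105) (nat_lit 5) (nat_lit 282) (nat_lit 278) (nat_lit 220)))) (XT.nd (nat_lit 78) (nat_lit 0) (nat_lit 0) (XT.lf (nat_lit 0) (nat_lit 4185910309) (nat_lit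 684) (nat_lit 7178573563) (nat_lit 760) (nat_lit 135307911) (nat_lit 96) (nat_lit 5) (nat_lit 105) (nat_lit 5) (nat_lit 106) (nat_lit 5) (nat_lit 283) (nat_lit 278) (nat_lit 219)) (XT.nd (nat_lit 78) (nat_lit 0) (nat_lit 0) (XT.lf (nat_lit 0) (nat_lit 5229354570) (nat_lit 684) (nat_lit 1678863068) (nat_lit 760) (nat_lit 4866736299) (nat_lit 96) (nat_lit 5) (nat_lit 105) (nat_lit 5) (nat_lit 106) (nat_lit 5) (nat_lit 284) (nat_lit 278) (nat_lit 218)) (XT.lf (nat_lit 76) (nat_lit 4207694739) (nat_lit 0) (nat_lit 2151085234) (nat_lit 760) (nat_lit 5703460451) (nat_lit 97) (nat_lit 5) (nat_lit 96) (nat_lit 5) (nat_lit 106) (nat_lit 5) (nat_lit 285) (nat_lit 278) (nat_lit 217))))))))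
noncomputable def xc158 : XT := (XT.nd (nat_lit 1560) (nat_lit 1976) (nat_lit 0) (XT.nd (nat_lit 780) (nat_lit 1520) (nat_lit 0) (XT.nd (nat_lit 390) (nat_lit 1216) (nat_lit 0) (XT.nd (nat_lit 156) (nat_lit 684) (nat_lit 0) (XT.nd (nat_lit 78) (nat_lit 0) (nat_lit 0) (XT.lf (nat_lit 0) (nat_lit 7587388564) (nat_lit 684) (nat_lit 1984632072) (nat_lit 760) (nat_lit 2789788977) (nat_lit 97) (nat_lit 5) (nat_lit 106) (nat_lit 5) (nat_lit 107) (nat_lit 5) (nat_lit 286) (nat_lit 278) (nat_lit 216)) (XT.lf (nat_lit 76) (nat_lit 4256744693) (nat_lit 0) (nat_lit 4693275005) (nat_lit 760) (nat_lit 3722759359) (nat_lit 98) (nat_lit 5) (nat_lit 97) (nat_lit 5) (nat_lit 107) (nat_lit 5) (nat_lit 287) (nat_lit 278) (nat_lit 215))) (XT.nd (nat_lit 78) (nat_lit 760) (nat_lit 0) (XT.lf (nat_lit 0) (nat_lit 10393635995) (nat_lit 684) (nat_lit 2149958594) (nat_lit 76) (nat_lit 455108659) (nat_lit 98) (nat_lit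 5) (nat_lit 107) (nat_lit 5) (nat_lit 99) (nat_lit 5) (nat_lit 288) (nat_lit 278) (nat_lit 214)) (XT.nd (nat_lit 78) (nat_lit 76) (nat_lit 0) (XT.lf (nat_lit 0) (nat_lit 4472605588) (nat_lit 684) (nat_lit 7556917926) (nat_lit 760) (nat_lit 1305442237) (nat_lit 89) (nat_lit 5) (nat_lit 98) (nat_lit 5) (nat_lit 99) (nat_lit 5) (nat_lit 289) (nat_lit 278) (nat_lit 213)) (XT.lf (nat_lit 0) (nat_lit 68050827) (nat_lit 760) (nat_lit 2210367586) (nat_lit 76) (nat_lit 11409080049) (nat_lit 88) (nat_lit 5) (nat_lit 98) (nat_lit 5) (nat_lit 89) (nat_lit 5) (nat_lit 290) (nat_lit 278) (nat_lit 212))))) (XT.nd (nat_lit 156) (nat_lit 684) (nat_lit 0) (XT.nd (nat_lit 78) (nat_lit 0) (nat_lit 0) (XT.lf (nat_lit 0) (nat_lit 1570266868) (nat_lit 608) (nat_lit 9219875548) (nat_lit 76) (nat_lit 3261289645) (nat_lit 81) (nat_lit 5) (nat_lit 89) (nat_lit 5) (nat_lit 82) (nat_lit 5) (nat_lit 291) (nat_lit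 278) (nat_lit 211)) (XT.lf (nat_lit 0) (nat_lit 3198890700) (nat_lit 608) (nat_lit 2190698358) (nat_lit 76) (nat_lit 9041446791) (nat_lit 81) (nat_lit 5) (nat_lit 89) (nat_lit 5) (nat_lit 82) (nat_lit 5) (nat_lit 292) (nat_lit 278) (nat_lit 210))) (XT.nd (nat_lit 78) (nat_lit 304) (nat_lit 0) (XT.lf (nat_lit 0) (nat_lit 4975106333) (nat_lit 456) (nat_lit 9493842538) (nat_lit 76) (nat_lit 357399454) (nat_lit 76) (nat_lit 5) (nat_lit 82) (nat_lit 5) (nat_lit 77) (nat_lit 5) (nat_lit 293) (nat_lit 278) (nat_lit 209)) (XT.nd (nat_lit 78) (nat_lit 304) (nat_lit 0) (XT.lf (nat_lit 0) (nat_lit 6943997879) (nat_lit 456) (nat_lit 2043644682) (nat_lit 76) (nat_lit 6248625400) (nat_lit 76) (nat_lit 5) (nat_lit 82) (nat_lit 5) (nat_lit 77) (nat_lit 5) (nat_lit 294) (nat_lit 278) (nat_lit 208)) (XT.lf (nat_lit 0) (nat_lit 5947479161) (nat_lit 304) (nat_lit 3135571153) (nat_lit 380) (nat_lit 6580080583)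 (nat_lit 72) (nat_lit 5) (nat_lit 76) (nat_lit 5) (nat_lit 77) (nat_lit 5) (nat_lit 295) (nat_lit 278) (nat_lit 207)))))) (XT.nd (nat_lit 390) (nat_lit 836) (nat_lit 0) (XT.nd (nat_lit 156) (nat_lit 380) (nat_lit 0) (XT.nd (nat_lit 78) (nat_lit 304) (nat_lit 0) (XT.lf (nat_lit 0) (nat_lit 11390725146) (nat_lit 380) (nat_lit 1770668654) (nat_lit 76) (nat_lit 2946891246) (nat_lit 72) (nat_lit 5) (nat_lit 77) (nat_lit 5) (nat_lit 73) (nat_lit 5) (nat_lit 296) (nat_lit 278) (nat_lit 206)) (XT.lf (nat_lit 0) (nat_lit 6713487458) (nat_lit 304) (nat_lit 7237002793) (nat_lit 380) (nat_lit 2618401381) (nat_lit 68) (nat_lit 5) (nat_lit 72) (nat_lit 5) (nat_lit 73) (nat_lit 5) (nat_lit 297) (nat_lit 278) (nat_lit 205))) (XT.nd (nat_lit 78) (nat_lit 380) (nat_lit 0) (XT.lf (nat_lit 0) (nat_lit 15662125682) (nat_lit 304) (nat_lit 987190623) (nat_lit 380) (nat_lit 402687229) (nat_lit 68) (nat_lit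 5) (nat_lit 72) (nat_lit 5) (nat_lit 73) (nat_lit 5) (nat_lit 298) (nat_lit 278) (nat_lit 204)) (XT.nd (nat_lit 78) (nat_lit 0) (nat_lit 0) (XT.lf (nat_lit 0) (nat_lit 2053499320) (nat_lit 380) (nat_lit 9947838136) (nat_lit 76) (nat_lit 5546894697) (nat_lit 63) (nat_lit 5) (nat_lit 68) (nat_lit 5) (nat_lit 64) (nat_lit 5) (nat_lit 299) (nat_lit 278) (nat_lit 203)) (XT.lf (nat_lit 0) (nat_lit 4641245454) (nat_lit 380) (nat_lit 1024190957) (nat_lit 76) (nat_lit 12402416286) (nat_lit 63) (nat_lit 5) (nat_lit 68) (nat_lit 5) (nat_lit 64) (nat_lit 5) (nat_lit 300) (nat_lit 278) (nat_lit 202))))) (XT.nd (nat_lit 156) (nat_lit 532) (nat_lit 0) (XT.nd (nat_lit 78) (nat_lit 0) (nat_lit 0) (XT.lf (nat_lit 0) (nat_lit 7493244927) (nat_lit 380) (nat_lit 10024605543) (nat_lit 76) (nat_lit 1088884044) (nat_lit 59) (nat_lit 5) (nat_lit 64) (nat_lit 5) (nat_lit 60) (nat_lit 5) (nat_lit 301) (nat_lit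 278) (nat_lit 201)) (XT.lf (nat_lit 0) (nat_lit 10581815035) (nat_lit 380) (nat_lit 581334971) (nat_lit 76) (nat_lit 8004734310) (nat_lit 59) (nat_lit 5) (nat_lit 64) (nat_lit 5) (nat_lit 60) (nat_lit 5) (nat_lit 302) (nat_lit 278) (nat_lit 200))) (XT.nd (nat_lit 78) (nat_lit 304) (nat_lit 0) (XT.lf (nat_lit 0) (nat_lit 9622258198) (nat_lit 228) (nat_lit 4337038379) (nat_lit 304) (nat_lit 5791092243) (nat_lit 56) (nat_lit 5) (nat_lit 59) (nat_lit 5) (nat_lit 60) (nat_lit 5) (nat_lit 303) (nat_lit 278) (nat_lit 199)) (XT.nd (nat_lit 78) (nat_lit 304) (nat_lit 0) (XT.lf (nat_lit 0) (nat_lit 17544481523) (nat_lit 304) (nat_lit 69877879) (nat_lit 76) (nat_lit 2745738022) (nat_lit 56) (nat_lit 5) (nat_lit 60) (nat_lit 5) (nat_lit 57) (nat_lit 5) (nat_lit 304) (nat_lit 278) (nat_lit 198)) (XT.lf (nat_lit 0) (nat_lit 526633446) (nat_lit 304) (nat_lit 10252754579) (nat_lit 76) (nat_lit 10209287082)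 (nat_lit 52) (nat_lit 5) (nat_lit 56) (nat_lit 5) (nat_lit 53) (nat_lit 5) (nat_lit 305) (nat_lit 278) (nat_lit 197))))))) (XT.nd (nat_lit 780) (nat_lit 912) (nat_lit 0) (XT.nd (nat_lit 390) (nat_lit 456) (nat_lit 0) (XT.nd (nat_lit 156) (nat_lit 380) (nat_lit 0) (XT.nd (nat_lit 78) (nat_lit 0) (nat_lit 0) (XT.lf (nat_lit 0) (nat_lit 382438557) (nat_lit 228) (nat_lit 3551621684) (nat_lit 304) (nat_lit 17712696716) (nat_lit 49) (nat_lit 5) (nat_lit 52) (nat_lit 5) (nat_lit 53) (nat_lit 5) (nat_lit 306) (nat_lit 278) (nat_lit 196)) (XT.lf (nat_lit 0) (nat_lit 7737204503) (nat_lit 304) (nat_lit 10509367591) (nat_lit 76) (nat_lit 4079920234) (nat_lit 49) (nat_lit 5) (nat_lit 53) (nat_lit 5) (nat_lit 50) (nat_lit 5) (nat_lit 307) (nat_lit 278) (nat_lit 195))) (XT.nd (nat_lit 78) (nat_lit 152) (nat_lit 0) (XT.lf (nat_lit 0) (nat_lit 729634982) (nat_lit 228) (nat_lit 11056987929) (nat_lit 304)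 (nat_lit 11250801648) (nat_lit 46) (nat_lit 5) (nat_lit 49) (nat_lit 5) (nat_lit 50) (nat_lit 5) (nat_lit 308) (nat_lit 278) (nat_lit 194)) (XT.nd (nat_lit 78) (nat_lit 152) (nat_lit 0) (XT.lf (nat_lit 0) (nat_lit 12876927485) (nat_lit 228) (nat_lit 3326421548) (nat_lit 304) (nat_lit 7572327708) (nat_lit 46) (nat_lit 5) (nat_lit 49) (nat_lit 5) (nat_lit 50) (nat_lit 5) (nat_lit 309) (nat_lit 278) (nat_lit 193)) (XT.lf (nat_lit 0) (nat_lit 1020406477) (nat_lit 152) (nat_lit 19898633759) (nat_lit 228) (nat_lit 3627909313) (nat_lit 44) (nat_lit 5) (nat_lit 46) (nat_lit 5) (nat_lit 47) (nat_lit 5) (nat_lit 310) (nat_lit 278) (nat_lit 192))))) (XT.nd (nat_lit 156) (nat_lit 152) (nat_lit 0) (XT.nd (nat_lit 78) (nat_lit 228) (nat_lit 0) (XT.lf (nat_lit 0) (nat_lit 726927638) (nat_lit 228) (nat_lit 11517568130) (nat_lit 76) (nat_lit 13100420295) (nat_lit 43) (nat_lit 5) (nat_lit 46) (nat_lit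 5) (nat_lit 44) (nat_lit 5) (nat_lit 311) (nat_lit 278) (nat_lit 191)) (XT.lf (nat_lit 0) (nat_lit 1048479748) (nat_lit 228) (nat_lit 4133577028) (nat_lit 304) (nat_lit 20997539323) (nat_lit 40) (nat_lit 5) (nat_lit 43) (nat_lit 5) (nat_lit 44) (nat_lit 5) (nat_lit 312) (nat_lit 278) (nat_lit 190))) (XT.nd (nat_lit 78) (nat_lit 152) (nat_lit 0) (XT.lf (nat_lit 0) (nat_lit 10114938193) (nat_lit 304) (nat_lit 12492873116) (nat_lit 76) (nat_lit 4435460931) (nat_lit 40) (nat_lit 5) (nat_lit 44) (nat_lit 5) (nat_lit 41) (nat_lit 5) (nat_lit 313) (nat_lit 278) (nat_lit 189)) (XT.nd (nat_lit 78) (nat_lit 0) (nat_lit 0) (XT.lf (nat_lit 0) (nat_lit 715580879) (nat_lit 152) (nat_lit 14646688522) (nat_lit 228) (nat_lit 12584483827) (nat_lit 38) (nat_lit 5) (nat_lit 40) (nat_lit 5) (nat_lit 41) (nat_lit 5) (nat_lit 314) (nat_lit 278) (nat_lit 188)) (XT.lf (nat_lit 0) (nat_lit 15001612648) (nat_lit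 152) (nat_lit 6071068627) (nat_lit 228) (nat_lit 7812702075) (nat_lit 38) (nat_lit 5) (nat_lit 40) (nat_lit 5) (nat_lit 41) (nat_lit 5) (nat_lit 315) (nat_lit 278) (nat_lit 187)))))) (XT.nd (nat_lit 390) (nat_lit 532) (nat_lit 0) (XT.nd (nat_lit 156) (nat_lit 152) (nat_lit 0) (XT.nd (nat_lit 78) (nat_lit 76) (nat_lit 0) (XT.lf (nat_lit 0) (nat_lit 71261601) (nat_lit 152) (nat_lit 27033835694) (nat_lit 228) (nat_lit 2764033777) (nat_lit 36) (nat_lit 5) (nat_lit 38) (nat_lit 5) (nat_lit 39) (nat_lit 5) (nat_lit 316) (nat_lit 278) (nat_lit 186)) (XT.lf (nat_lit 0) (nat_lit 2784018955) (nat_lit 228) (nat_lit 15843554864) (nat_lit 76) (nat_lit 12256113491) (nat_lit 35) (nat_lit 5) (nat_lit 38) (nat_lit 5) (nat_lit 36) (nat_lit 5) (nat_lit 317) (nat_lit 278) (nat_lit 185))) (XT.nd (nat_lit 78) (nat_lit 152) (nat_lit 0) (XT.lf (nat_lit 0) (nat_lit 8506722176) (nat_lit 228) (nat_lit 1252372528)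 (nat_lit 76) (nat_lit 22188113056) (nat_lit 35) (nat_lit 5) (nat_lit 38) (nat_lit 5) (nat_lit 36) (nat_lit 5) (nat_lit 318) (nat_lit 278) (nat_lit 184)) (XT.nd (nat_lit 78) (nat_lit 0) (nat_lit 0) (XT.lf (nat_lit 0) (nat_lit 14518247344) (nat_lit 152) (nat_lit 214590893) (nat_lit 228) (nat_lit 18320210562) (nat_lit 33) (nat_lit 5) (nat_lit 35) (nat_lit 5) (nat_lit 36) (nat_lit 5) (nat_lit 319) (nat_lit 278) (nat_lit 183)) (XT.lf (nat_lit 0) (nat_lit 21435677323) (nat_lit 228) (nat_lit 3260648404) (nat_lit 76) (nat_lit 9509593352) (nat_lit 33) (nat_lit 5) (nat_lit 36) (nat_lit 5) (nat_lit 34) (nat_lit 5) (nat_lit 320) (nat_lit 278) (nat_lit 182))))) (XT.nd (nat_lit 234) (nat_lit 152) (nat_lit 0) (XT.nd (nat_lit 78) (nat_lit 228) (nat_lit 0) (XT.lf (nat_lit 0) (nat_lit 13181351271) (nat_lit 152) (nat_lit 15492806692) (nat_lit 228) (nat_lit 6732257597) (nat_lit 31) (nat_lit 5) (nat_lit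 33) (nat_lit 5) (nat_lit 34) (nat_lit 5) (nat_lit 321) (nat_lit 278) (nat_lit 181)) (XT.nd (nat_lit 78) (nat_lit 228) (nat_lit 0) (XT.lf (nat_lit 0) (nat_lit 30544654073) (nat_lit 152) (nat_lit 5776514352) (nat_lit 228) (nat_lit 343445451) (nat_lit 31) (nat_lit 5) (nat_lit 33) (nat_lit 5) (nat_lit 34) (nat_lit 5) (nat_lit 322) (nat_lit 278) (nat_lit 180)) (XT.lf (nat_lit 0) (nat_lit 6398430086) (nat_lit 228) (nat_lit 27015576756) (nat_lit 76) (nat_lit 4554886449) (nat_lit 28) (nat_lit 5) (nat_lit 31) (nat_lit 5) (nat_lit 29) (nat_lit 5) (nat_lit 323) (nat_lit 278) (nat_lit 179)))) (XT.nd (nat_lit 78) (nat_lit 152) (nat_lit 0) (XT.lf (nat_lit 0) (nat_lit 13657658539) (nat_lit 228) (nat_lit 10356230836) (nat_lit 76) (nat_lit 15314632036) (nat_lit 28) (nat_lit 5) (nat_lit 31) (nat_lit 5) (nat_lit 29) (nat_lit 5) (nat_lit 324) (nat_lit 278) (nat_lit 178)) (XT.nd (nat_lit 78) (nat_lit 0)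 (nat_lit 0) (XT.lf (nat_lit 0) (nat_lit 7358526947) (nat_lit 152) (nat_lit 14028361677) (nat_lit 228) (nat_lit 19363896309) (nat_lit 26) (nat_lit 5) (nat_lit 28) (nat_lit 5) (nat_lit 29) (nat_lit 5) (nat_lit 325) (nat_lit 278) (nat_lit 177)) (XT.lf (nat_lit 0) (nat_lit 26305704193) (nat_lit 152) (nat_lit 3364589617) (nat_lit 228) (nat_lit 12565487863) (nat_lit 26) (nat_lit 5) (nat_lit 28) (nat_lit 5) (nat_lit 29) (nat_lit 5) (nat_lit 326) (nat_lit 278) (nat_lit 176))))))))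
noncomputable def xc159 : XT := (XT.nd (nat_lit 1638) (nat_lit 532) (nat_lit 0) (XT.nd (nat_lit 780) (nat_lit 380) (nat_lit 0) (XT.nd (nat_lit 390) (nat_lit 304) (nat_lit 0) (XT.nd (nat_lit 156) (nat_lit 152) (nat_lit 0) (XT.nd (nat_lit 78) (nat_lit 76) (nat_lit 0) (XT.lf (nat_lit 0) (nat_lit 2345451320) (nat_lit 76) (nat_lit 36173936360) (nat_lit 152) (nat_lit 5268070097) (nat_lit 25) (nat_lit 5) (nat_lit 26) (nat_lit 5) (nat_lit 27) (nat_lit 4) (nat_lit 327) (nat_lit 278) (nat_lit 175)) (XT.lf (nat_lit 0) (nat_lit 2639601678) (nat_lit 152) (nat_lit 23424966186) (nat_lit 76) (nat_lit 19334185088) (nat_lit 24) (nat_lit 5) (nat_lit 26) (nat_lit 5) (nat_lit 25) (nat_lit 5) (nat_lit 328) (nat_lit 278) (nat_lit 174))) (XT.nd (nat_lit 78) (nat_lit 152) (nat_lit 0) (XT.lf (nat_lit 0) (nat_lit 10758614971) (nat_lit 152) (nat_lit 4605426379) (nat_lit 76) (nat_lit 31722608171) (nat_lit 24) (nat_lit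 5) (nat_lit 26) (nat_lit 5) (nat_lit 25) (nat_lit 5) (nat_lit 329) (nat_lit 278) (nat_lit 173)) (XT.nd (nat_lit 78) (nat_lit 0) (nat_lit 0) (XT.lf (nat_lit 0) (nat_lit 15644388875) (nat_lit 152) (nat_lit 3876775787) (nat_lit 228) (nat_lit 29325901452) (nat_lit 22) (nat_lit 5) (nat_lit 24) (nat_lit 5) (nat_lit 25) (nat_lit 5) (nat_lit 330) (nat_lit 278) (nat_lit 172)) (XT.lf (nat_lit 0) (nat_lit 28922305559) (nat_lit 228) (nat_lit 13765578459) (nat_lit 76) (nat_lit 7997600600) (nat_lit 22) (nat_lit 5) (nat_lit 25) (nat_lit 5) (nat_lit 23) (nat_lit 4) (nat_lit 331) (nat_lit 278) (nat_lit 171))))) (XT.nd (nat_lit 156) (nat_lit 228) (nat_lit 0) (XT.nd (nat_lit 78) (nat_lit 0) (nat_lit 0) (XT.lf (nat_lit 0) (nat_lit 6786073063) (nat_lit 76) (nat_lit 32170649467) (nat_lit 152) (nat_lit 13650944635) (nat_lit 21) (nat_lit 5) (nat_lit 22) (nat_lit 5) (nat_lit 23) (nat_lit 4) (nat_lit 332) (nat_lit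 278) (nat_lit 170)) (XT.lf (nat_lit 0) (nat_lit 28832448287) (nat_lit 76) (nat_lit 20887385625) (nat_lit 152) (nat_lit 4894780118) (nat_lit 21) (nat_lit 5) (nat_lit 22) (nat_lit 5) (nat_lit 23) (nat_lit 4) (nat_lit 333) (nat_lit 278) (nat_lit 169))) (XT.nd (nat_lit 78) (nat_lit 152) (nat_lit 0) (XT.lf (nat_lit 0) (nat_lit 4155631813) (nat_lit 152) (nat_lit 4818344865) (nat_lit 76) (nat_lit 47744876941) (nat_lit 20) (nat_lit 5) (nat_lit 22) (nat_lit 5) (nat_lit 21) (nat_lit 5) (nat_lit 334) (nat_lit 278) (nat_lit 168)) (XT.nd (nat_lit 78) (nat_lit 0) (nat_lit 0) (XT.lf (nat_lit 0) (nat_lit 13825217771) (nat_lit 228) (nat_lit 41302766812) (nat_lit 76) (nat_lit 3779754328) (nat_lit 18) (nat_lit 5) (nat_lit 21) (nat_lit 5) (nat_lit 19) (nat_lit 4) (nat_lit 335) (nat_lit 278) (nat_lit 167)) (XT.lf (nat_lit 0) (nat_lit 24202711252) (nat_lit 228) (nat_lit 20043716382) (nat_lit 76) (nat_lit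 16948422609) (nat_lit 18) (nat_lit 5) (nat_lit 21) (nat_lit 5) (nat_lit 19) (nat_lit 4) (nat_lit 336) (nat_lit 278) (nat_lit 166)))))) (XT.nd (nat_lit 390) (nat_lit 152) (nat_lit 0) (XT.nd (nat_lit 156) (nat_lit 152) (nat_lit 0) (XT.nd (nat_lit 78) (nat_lit 0) (nat_lit 0) (XT.lf (nat_lit 0) (nat_lit 2343765671) (nat_lit 76) (nat_lit 32786549464) (nat_lit 152) (nat_lit 28464443252) (nat_lit 17) (nat_lit 5) (nat_lit 18) (nat_lit 5) (nat_lit 19) (nat_lit 4) (nat_lit 337) (nat_lit 278) (nat_lit 165)) (XT.lf (nat_lit 0) (nat_lit 26537112171) (nat_lit 76) (nat_lit 20401388671) (nat_lit 152) (nat_lit 19159453905) (nat_lit 17) (nat_lit 5) (nat_lit 18) (nat_lit 5) (nat_lit 19) (nat_lit 4) (nat_lit 338) (nat_lit 278) (nat_lit 164))) (XT.nd (nat_lit 78) (nat_lit 152) (nat_lit 0) (XT.lf (nat_lit 0) (nat_lit 51931190539) (nat_lit 76) (nat_lit 7400906812) (nat_lit 152) (nat_lit 9394466250) (nat_lit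 17) (nat_lit 5) (nat_lit 18) (nat_lit 5) (nat_lit 19) (nat_lit 4) (nat_lit 339) (nat_lit 278) (nat_lit 163)) (XT.nd (nat_lit 78) (nat_lit 0) (nat_lit 0) (XT.lf (nat_lit 0) (nat_lit 1040346140) (nat_lit 152) (nat_lit 64259475408) (nat_lit 76) (nat_lit 6175660386) (nat_lit 15) (nat_lit 5) (nat_lit 17) (nat_lit 5) (nat_lit 16) (nat_lit 4) (nat_lit 340) (nat_lit 278) (nat_lit 162)) (XT.lf (nat_lit 0) (nat_lit 12086807621) (nat_lit 152) (nat_lit 41625281721) (nat_lit 76) (nat_lit 20621777630) (nat_lit 15) (nat_lit 5) (nat_lit 17) (nat_lit 5) (nat_lit 16) (nat_lit 4) (nat_lit 341) (nat_lit 278) (nat_lit 161))))) (XT.nd (nat_lit 234) (nat_lit 76) (nat_lit 0) (XT.nd (nat_lit 78) (nat_lit 76) (nat_lit 0) (XT.lf (nat_lit 0) (nat_lit 23681017999) (nat_lit 152) (nat_lit 17867676492) (nat_lit 76) (nat_lit 35786707743) (nat_lit 15) (nat_lit 5) (nat_lit 17) (nat_lit 5) (nat_lit 16) (nat_lit 4) (nat_lit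 342) (nat_lit 278) (nat_lit 160)) (XT.nd (nat_lit 78) (nat_lit 0) (nat_lit 0) (XT.lf (nat_lit 0) (nat_lit 7303669025) (nat_lit 76) (nat_lit 28660944253) (nat_lit 152) (nat_lit 44516919418) (nat_lit 14) (nat_lit 5) (nat_lit 15) (nat_lit 5) (nat_lit 16) (nat_lit 4) (nat_lit 343) (nat_lit 278) (nat_lit 159)) (XT.lf (nat_lit 0) (nat_lit 34346131675) (nat_lit 76) (nat_lit 14814584083) (nat_lit 152) (nat_lit 34609339604) (nat_lit 14) (nat_lit 5) (nat_lit 15) (nat_lit 5) (nat_lit 16) (nat_lit 4) (nat_lit 344) (nat_lit 278) (nat_lit 158)))) (XT.nd (nat_lit 78) (nat_lit 76) (nat_lit 0) (XT.lf (nat_lit 0) (nat_lit 62733312196) (nat_lit 76) (nat_lit 279244204) (nat_lit 152) (nat_lit 24210653067) (nat_lit 14) (nat_lit 5) (nat_lit 15) (nat_lit 5) (nat_lit 16) (nat_lit 4) (nat_lit 345) (nat_lit 278) (nat_lit 157)) (XT.nd (nat_lit 78) (nat_lit 0) (nat_lit 0) (XT.lf (nat_lit 0) (nat_lit 1497641345)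 (nat_lit 76) (nat_lit 76312731646) (nat_lit 76) (nat_lit 13025980952) (nat_lit 13) (nat_lit 4) (nat_lit 14) (nat_lit 5) (nat_lit 14) (nat_lit 4) (nat_lit 346) (nat_lit 278) (nat_lit 156)) (XT.lf (nat_lit 0) (nat_lit 29622979276) (nat_lit 76) (nat_lit 64140506629) (nat_lit 76) (nat_lit 845901237) (nat_lit 13) (nat_lit 4) (nat_lit 14) (nat_lit 5) (nat_lit 14) (nat_lit 4) (nat_lit 347) (nat_lit 278) (nat_lit 155))))))) (XT.nd (nat_lit 780) (nat_lit 228) (nat_lit 0) (XT.nd (nat_lit 390) (nat_lit 152) (nat_lit 0) (XT.nd (nat_lit 156) (nat_lit 76) (nat_lit 0) (XT.nd (nat_lit 78) (nat_lit 0) (nat_lit 0) (XT.lf (nat_lit 0) (nat_lit 11557200814) (nat_lit 152) (nat_lit 39609824386) (nat_lit 76) (nat_lit 47394911343) (nat_lit 12) (nat_lit 5) (nat_lit 14) (nat_lit 5) (nat_lit 13) (nat_lit 4) (nat_lit 348) (nat_lit 278) (nat_lit 154)) (XT.lf (nat_lit 0) (nat_lit 24548482310) (nat_lit 152) (nat_lit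 12984821763) (nat_lit 76) (nat_lit 65178294905) (nat_lit 12) (nat_lit 5) (nat_lit 14) (nat_lit 5) (nat_lit 13) (nat_lit 4) (nat_lit 349) (nat_lit 278) (nat_lit 153))) (XT.nd (nat_lit 78) (nat_lit 0) (nat_lit 0) (XT.lf (nat_lit 0) (nat_lit 15460016842) (nat_lit 76) (nat_lit 22967306340) (nat_lit 152) (nat_lit 68629523045) (nat_lit 11) (nat_lit 5) (nat_lit 12) (nat_lit 5) (nat_lit 13) (nat_lit 4) (nat_lit 350) (nat_lit 278) (nat_lit 152)) (XT.nd (nat_lit 78) (nat_lit 0) (nat_lit 0) (XT.lf (nat_lit 0) (nat_lit 45771770336) (nat_lit 76) (nat_lit 7444926296) (nat_lit 152) (nat_lit 58391831070) (nat_lit 11) (nat_lit 5) (nat_lit 12) (nat_lit 5) (nat_lit 13) (nat_lit 4) (nat_lit 351) (nat_lit 278) (nat_lit 151)) (XT.lf (nat_lit 0) (nat_lit 68880570041) (nat_lit 152) (nat_lit 38932866855) (nat_lit 0) (nat_lit 8567606115) (nat_lit 11) (nat_lit 5) (nat_lit 13) (nat_lit 4) (nat_lit 11) (nat_lit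 4) (nat_lit 352) (nat_lit 278) (nat_lit 150))))) (XT.nd (nat_lit 156) (nat_lit 76) (nat_lit 0) (XT.nd (nat_lit 78) (nat_lit 76) (nat_lit 0) (XT.lf (nat_lit 0) (nat_lit 85446639571) (nat_lit 152) (nat_lit 10811502195) (nat_lit 0) (nat_lit 25128093457) (nat_lit 11) (nat_lit 5) (nat_lit 13) (nat_lit 4) (nat_lit 11) (nat_lit 4) (nat_lit 353) (nat_lit 278) (nat_lit 149)) (XT.lf (nat_lit 0) (nat_lit 19329182975) (nat_lit 76) (nat_lit 83810711822) (nat_lit 76) (nat_lit 23486849340) (nat_lit 10) (nat_lit 4) (nat_lit 11) (nat_lit 5) (nat_lit 11) (nat_lit 4) (nat_lit 354) (nat_lit 278) (nat_lit 148))) (XT.nd (nat_lit 78) (nat_lit 76) (nat_lit 0) (XT.lf (nat_lit 0) (nat_lit 51346938191) (nat_lit 76) (nat_lit 70551127252) (nat_lit 76) (nat_lit 10222201562) (nat_lit 10) (nat_lit 4) (nat_lit 11) (nat_lit 5) (nat_lit 11) (nat_lit 4) (nat_lit 355) (nat_lit 278) (nat_lit 147)) (XT.nd (nat_lit 78) (nat_lit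 0) (nat_lit 0) (XT.lf (nat_lit 0) (nat_lit 3584318399) (nat_lit 152) (nat_lit 52985895073) (nat_lit 76) (nat_lit 81315498547) (nat_lit 9) (nat_lit 5) (nat_lit 11) (nat_lit 5) (nat_lit 10) (nat_lit 4) (nat_lit 356) (nat_lit 278) (nat_lit 146)) (XT.lf (nat_lit 0) (nat_lit 17735007217) (nat_lit 152) (nat_lit 23981575477) (nat_lit 76) (nat_lit 102214599933) (nat_lit 9) (nat_lit 5) (nat_lit 11) (nat_lit 5) (nat_lit 10) (nat_lit 4) (nat_lit 357) (nat_lit 278) (nat_lit 145)))))) (XT.nd (nat_lit 390) (nat_lit 152) (nat_lit 0) (XT.nd (nat_lit 156) (nat_lit 0) (nat_lit 0) (XT.nd (nat_lit 78) (nat_lit 0) (nat_lit 0) (XT.lf (nat_lit 0) (nat_lit 6682155807) (nat_lit 76) (nat_lit 26012902665) (nat_lit 152) (nat_lit 117578777833) (nat_lit 8) (nat_lit 5) (nat_lit 9) (nat_lit 5) (nat_lit 10) (nat_lit 4) (nat_lit 358) (nat_lit 278) (nat_lit 144)) (XT.lf (nat_lit 0) (nat_lit 39707060202) (nat_lit 76) (nat_lit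 9099739689) (nat_lit 152) (nat_lit 108106639292) (nat_lit 8) (nat_lit 5) (nat_lit 9) (nat_lit 5) (nat_lit 10) (nat_lit 4) (nat_lit 359) (nat_lit 278) (nat_lit 143))) (XT.nd (nat_lit 78) (nat_lit 0) (nat_lit 0) (XT.lf (nat_lit 0) (nat_lit 65856953752) (nat_lit 152) (nat_lit 89641471173) (nat_lit 0) (nat_lit 8379956864) (nat_lit 8) (nat_lit 5) (nat_lit 10) (nat_lit 4) (nat_lit 8) (nat_lit 4) (nat_lit 360) (nat_lit 278) (nat_lit 142)) (XT.nd (nat_lit 78) (nat_lit 0) (nat_lit 0) (XT.lf (nat_lit 0) (nat_lit 83906536930) (nat_lit 152) (nat_lit 60851747612) (nat_lit 0) (nat_lit 26425941715) (nat_lit 8) (nat_lit 5) (nat_lit 10) (nat_lit 4) (nat_lit 8) (nat_lit 4) (nat_lit 361) (nat_lit 278) (nat_lit 141)) (XT.lf (nat_lit 0) (nat_lit 102856452186) (nat_lit 152) (nat_lit 30626588898) (nat_lit 0) (nat_lit 45372429993) (nat_lit 8) (nat_lit 5) (nat_lit 10) (nat_lit 4) (nat_lit 8) (nat_lit 4) (nat_lit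 362) (nat_lit 278) (nat_lit 140))))) (XT.nd (nat_lit 234) (nat_lit 76) (nat_lit 0) (XT.nd (nat_lit 78) (nat_lit 0) (nat_lit 0) (XT.lf (nat_lit 0) (nat_lit 1142537981) (nat_lit 76) (nat_lit 121627118604) (nat_lit 76) (nat_lit 64139832621) (nat_lit 7) (nat_lit 4) (nat_lit 8) (nat_lit 5) (nat_lit 8) (nat_lit 4) (nat_lit 363) (nat_lit 278) (nat_lit 139)) (XT.nd (nat_lit 78) (nat_lit 0) (nat_lit 0) (XT.lf (nat_lit 0) (nat_lit 35559611324) (nat_lit 76) (nat_lit 108635579252) (nat_lit 76) (nat_lit 51145184898) (nat_lit 7) (nat_lit 4) (nat_lit 8) (nat_lit 5) (nat_lit 8) (nat_lit 4) (nat_lit 364) (nat_lit 278) (nat_lit 138)) (XT.lf (nat_lit 0) (nat_lit 71693923198) (nat_lit 76) (nat_lit 94996166896) (nat_lit 76) (nat_lit 37502812189) (nat_lit 7) (nat_lit 4) (nat_lit 8) (nat_lit 5) (nat_lit 8) (nat_lit 4) (nat_lit 365) (nat_lit 278) (nat_lit 137)))) (XT.nd (nat_lit 78) (nat_lit 76) (nat_lit 0)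 (XT.lf (nat_lit 0) (nat_lit 109631507680) (nat_lit 76) (nat_lit 80676406744) (nat_lit 76) (nat_lit 23180232654) (nat_lit 7) (nat_lit 4) (nat_lit 8) (nat_lit 5) (nat_lit 8) (nat_lit 4) (nat_lit 366) (nat_lit 278) (nat_lit 136)) (XT.nd (nat_lit 78) (nat_lit 76) (nat_lit 0) (XT.lf (nat_lit 0) (nat_lit 149462692351) (nat_lit 76) (nat_lit 65642204129) (nat_lit 76) (nat_lit 8143344912) (nat_lit 7) (nat_lit 4) (nat_lit 8) (nat_lit 5) (nat_lit 8) (nat_lit 4) (nat_lit 367) (nat_lit 278) (nat_lit 135)) (XT.lf (nat_lit 0) (nat_lit 7399008513) (nat_lit 152) (nat_lit 42333449028) (nat_lit 76) (nat_lit 183757999064) (nat_lit 6) (nat_lit 5) (nat_lit 8) (nat_lit 5) (nat_lit 7) (nat_lit 4) (nat_lit 368) (nat_lit 278) (nat_lit 134))))))))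
noncomputable def xc160 : XT := (XT.nd (nat_lit 33774) (nat_lit 0) (nat_lit 4484) (XT.nd (nat_lit 780) (nat_lit 0) (nat_lit 0) (XT.nd (nat_lit 390) (nat_lit 76) (nat_lit 0) (XT.nd (nat_lit 156) (nat_lit 0) (nat_lit 0) (XT.nd (nat_lit 78) (nat_lit 76) (nat_lit 0) (XT.lf (nat_lit 0) (nat_lit 23443211188) (nat_lit 152) (nat_lit 9445269035) (nat_lit 76) (nat_lit 211349707939) (nat_lit 6) (nat_lit 5) (nat_lit 8) (nat_lit 5) (nat_lit 7) (nat_lit 4) (nat_lit 369) (nat_lit 278) (nat_lit 133)) (XT.lf (nat_lit 0) (nat_lit 25913841322) (nat_lit 76) (nat_lit 14778847852) (nat_lit 152) (nat_lit 214810464362) (nat_lit 5) (nat_lit 5) (nat_lit 6) (nat_lit 5) (nat_lit 7) (nat_lit 4) (nat_lit 370) (nat_lit 278) (nat_lit 132))) (XT.nd (nat_lit 78) (nat_lit 0) (nat_lit 0) (XT.lf (nat_lit 0) (nat_lit 59031848285) (nat_lit 152) (nat_lit 204026196959) (nat_lit 0) (nat_lit 4261962050) (nat_lit 5) (nat_lit 5)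 (nat_lit 7) (nat_lit 4) (nat_lit 5) (nat_lit 4) (nat_lit 371) (nat_lit 278) (nat_lit 131)) (XT.nd (nat_lit 78) (nat_lit 0) (nat_lit 0) (XT.lf (nat_lit 0) (nat_lit 78528798438) (nat_lit 152) (nat_lit 177429955577) (nat_lit 0) (nat_lit 23756908520) (nat_lit 5) (nat_lit 5) (nat_lit 7) (nat_lit 4) (nat_lit 5) (nat_lit 4) (nat_lit 372) (nat_lit 278) (nat_lit 130)) (XT.lf (nat_lit 0) (nat_lit 98999221713) (nat_lit 152) (nat_lit 149506524454) (nat_lit 0) (nat_lit 44225423524) (nat_lit 5) (nat_lit 5) (nat_lit 7) (nat_lit 4) (nat_lit 5) (nat_lit 4) (nat_lit 373) (nat_lit 278) (nat_lit 129))))) (XT.nd (nat_lit 156) (nat_lit 76) (nat_lit 0) (XT.nd (nat_lit 78) (nat_lit 0) (nat_lit 0) (XT.lf (nat_lit 0) (nat_lit 120491857211) (nat_lit 152) (nat_lit 120189419228) (nat_lit 0) (nat_lit 65716241622) (nat_lit 5) (nat_lit 5) (nat_lit 7) (nat_lit 4) (nat_lit 5) (nat_lit 4) (nat_lit 374) (nat_lit 278) (nat_lit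 128)) (XT.lf (nat_lit 0) (nat_lit 143057877874) (nat_lit 152) (nat_lit 89408837269) (nat_lit 0) (nat_lit 88280531429) (nat_lit 5) (nat_lit 5) (nat_lit 7) (nat_lit 4) (nat_lit 5) (nat_lit 4) (nat_lit 375) (nat_lit 278) (nat_lit 127))) (XT.nd (nat_lit 78) (nat_lit 76) (nat_lit 0) (XT.lf (nat_lit 0) (nat_lit 166751012323) (nat_lit 152) (nat_lit 57091491476) (nat_lit 0) (nat_lit 111972017443) (nat_lit 5) (nat_lit 5) (nat_lit 7) (nat_lit 4) (nat_lit 5) (nat_lit 4) (nat_lit 376) (nat_lit 278) (nat_lit 126)) (XT.nd (nat_lit 78) (nat_lit 76) (nat_lit 0) (XT.lf (nat_lit 0) (nat_lit 191627672783) (nat_lit 152) (nat_lit 23160435788) (nat_lit 0) (nat_lit 136847107964) (nat_lit 5) (nat_lit 5) (nat_lit 7) (nat_lit 4) (nat_lit 5) (nat_lit 4) (nat_lit 377) (nat_lit 278) (nat_lit 125)) (XT.lf (nat_lit 0) (nat_lit 12877271118) (nat_lit 76) (nat_lit 205070868571) (nat_lit 76) (nat_lit 150288808573) (nat_lit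 4) (nat_lit 4) (nat_lit 5) (nat_lit 5) (nat_lit 5) (nat_lit 4) (nat_lit 378) (nat_lit 278) (nat_lit 124)))))) (XT.nd (nat_lit 390) (nat_lit 0) (nat_lit 0) (XT.nd (nat_lit 156) (nat_lit 0) (nat_lit 0) (XT.nd (nat_lit 78) (nat_lit 0) (nat_lit 0) (XT.lf (nat_lit 0) (nat_lit 51518919880) (nat_lit 76) (nat_lit 194456886095) (nat_lit 76) (nat_lit 139673402117) (nat_lit 4) (nat_lit 4) (nat_lit 5) (nat_lit 5) (nat_lit 5) (nat_lit 4) (nat_lit 379) (nat_lit 278) (nat_lit 123)) (XT.lf (nat_lit 0) (nat_lit 92090725822) (nat_lit 76) (nat_lit 183313122945) (nat_lit 76) (nat_lit 128528282795) (nat_lit 4) (nat_lit 4) (nat_lit 5) (nat_lit 5) (nat_lit 5) (nat_lit 4) (nat_lit 380) (nat_lit 278) (nat_lit 122))) (XT.nd (nat_lit 78) (nat_lit 0) (nat_lit 0) (XT.lf (nat_lit 0) (nat_lit 134689288482) (nat_lit 76) (nat_lit 171613046351) (nat_lit 76) (nat_lit 116826914608) (nat_lit 4) (nat_lit 4) (nat_lit 5) (nat_lit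 5) (nat_lit 5) (nat_lit 4) (nat_lit 381) (nat_lit 278) (nat_lit 121)) (XT.nd (nat_lit 78) (nat_lit 0) (nat_lit 0) (XT.lf (nat_lit 0) (nat_lit 179416033007) (nat_lit 76) (nat_lit 159328798987) (nat_lit 76) (nat_lit 104541437156) (nat_lit 4) (nat_lit 4) (nat_lit 5) (nat_lit 5) (nat_lit 5) (nat_lit 4) (nat_lit 382) (nat_lit 278) (nat_lit 120)) (XT.lf (nat_lit 0) (nat_lit 226377451648) (nat_lit 76) (nat_lit 146431132646) (nat_lit 76) (nat_lit 91642599303) (nat_lit 4) (nat_lit 4) (nat_lit 5) (nat_lit 5) (nat_lit 5) (nat_lit 4) (nat_lit 383) (nat_lit 278) (nat_lit 119))))) (XT.nd (nat_lit 156) (nat_lit 0) (nat_lit 0) (XT.nd (nat_lit 78) (nat_lit 0) (nat_lit 0) (XT.lf (nat_lit 0) (nat_lit 275685357305) (nat_lit 76) (nat_lit 132889338598) (nat_lit 76) (nat_lit 78099689529) (nat_lit 4) (nat_lit 4) (nat_lit 5) (nat_lit 5) (nat_lit 5) (nat_lit 4) (nat_lit 384) (nat_lit 278) (nat_lit 118)) (XT.lf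 (nat_lit 0) (nat_lit 327457149755) (nat_lit 76) (nat_lit 118671174476) (nat_lit 76) (nat_lit 63880462812) (nat_lit 4) (nat_lit 4) (nat_lit 5) (nat_lit 5) (nat_lit 5) (nat_lit 4) (nat_lit 385) (nat_lit 278) (nat_lit 117))) (XT.nd (nat_lit 32292) (nat_lit 0) (nat_lit 6840) (XT.lf (nat_lit 0) (nat_lit 381816095169) (nat_lit 76) (nat_lit 103742787510) (nat_lit 76) (nat_lit 48951063849) (nat_lit 4) (nat_lit 4) (nat_lit 5) (nat_lit 5) (nat_lit 5) (nat_lit 4) (nat_lit 386) (nat_lit 278) (nat_lit 116)) (XT.nd (nat_lit 78) (nat_lit 0) (nat_lit 0) (XT.lf (nat_lit 0) (nat_lit 359429844) (nat_lit 0) (nat_lit 359429844) (nat_lit 684) (nat_lit 4647781742) (nat_lit 94) (nat_lit 5) (nat_lit 94) (nat_lit 3) (nat_lit 103) (nat_lit 3) (nat_lit 279) (nat_lit 279) (nat_lit 222)) (XT.lf (nat_lit 0) (nat_lit 2110658098) (nat_lit 684) (nat_lit 5134173899) (nat_lit 760) (nat_lit 3723908290) (nat_lit 94) (nat_lit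 5) (nat_lit 103) (nat_lit 3) (nat_lit 104) (nat_lit 5) (nat_lit 280) (nat_lit 279) (nat_lit 221))))))) (XT.nd (nat_lit 780) (nat_lit 1976) (nat_lit 0) (XT.nd (nat_lit 390) (nat_lit 380) (nat_lit 0) (XT.nd (nat_lit 156) (nat_lit 0) (nat_lit 76) (XT.nd (nat_lit 78) (nat_lit 0) (nat_lit 76) (XT.lf (nat_lit 0) (nat_lit 2792385737) (nat_lit 684) (nat_lit 42362641) (nat_lit 760) (nat_lit 8382530710) (nat_lit 94) (nat_lit 5) (nat_lit 103) (nat_lit 3) (nat_lit 104) (nat_lit 5) (nat_lit 281) (nat_lit 279) (nat_lit 220)) (XT.lf (nat_lit 0) (nat_lit 3588206501) (nat_lit 684) (nat_lit 6046381412) (nat_lit 760) (nat_lit 1839719059) (nat_lit 95) (nat_lit 5) (nat_lit 104) (nat_lit 5) (nat_lit 105) (nat_lit 5) (nat_lit 282) (nat_lit 279) (nat_lit 219))) (XT.nd (nat_lit 78) (nat_lit 0) (nat_lit 0) (XT.lf (nat_lit 0) (nat_lit 4437701824) (nat_lit 684) (nat_lit 638756585) (nat_lit 760) (nat_lit 6667093170)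 (nat_lit 95) (nat_lit 5) (nat_lit 104) (nat_lit 5) (nat_lit 105) (nat_lit 5) (nat_lit 283) (nat_lit 279) (nat_lit 218)) (XT.nd (nat_lit 78) (nat_lit 0) (nat_lit 76) (XT.lf (nat_lit 76) (nat_lit 5184891664) (nat_lit 0) (nat_lit 194000503) (nat_lit 760) (nat_lit 6644961907) (nat_lit 96) (nat_lit 5) (nat_lit 95) (nat_lit 5) (nat_lit 105) (nat_lit 5) (nat_lit 284) (nat_lit 279) (nat_lit 217)) (XT.lf (nat_lit 0) (nat_lit 6424781776) (nat_lit 684) (nat_lit 1094645534) (nat_lit 760) (nat_lit 4795916369) (nat_lit 96) (nat_lit 5) (nat_lit 105) (nat_lit 5) (nat_lit 106) (nat_lit 5) (nat_lit 285) (nat_lit 279) (nat_lit 216))))) (XT.nd (nat_lit 156) (nat_lit 532) (nat_lit 0) (XT.nd (nat_lit 78) (nat_lit 0) (nat_lit 76) (XT.lf (nat_lit 76) (nat_lit 5075463379) (nat_lit 0) (nat_lit 2501004416) (nat_lit 760) (nat_lit 5042316276) (nat_lit 97) (nat_lit 5) (nat_lit 96) (nat_lit 5) (nat_lit 106) (nat_lit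 5) (nat_lit 286) (nat_lit 279) (nat_lit 215)) (XT.lf (nat_lit 0) (nat_lit 8820057827) (nat_lit 684) (nat_lit 1409829129) (nat_lit 760) (nat_lit 2705842494) (nat_lit 97) (nat_lit 5) (nat_lit 106) (nat_lit 5) (nat_lit 107) (nat_lit 5) (nat_lit 287) (nat_lit 279) (nat_lit 214))) (XT.nd (nat_lit 78) (nat_lit 608) (nat_lit 0) (XT.lf (nat_lit 76) (nat_lit 5132744949) (nat_lit 0) (nat_lit 5087796077) (nat_lit 760) (nat_lit 3043292013) (nat_lit 98) (nat_lit 5) (nat_lit 97) (nat_lit 5) (nat_lit 107) (nat_lit 5) (nat_lit 288) (nat_lit 279) (nat_lit 213)) (XT.nd (nat_lit 78) (nat_lit 684) (nat_lit 0) (XT.lf (nat_lit 0) (nat_lit 11694769720) (nat_lit 684) (nat_lit 1582938606) (nat_lit 76) (nat_lit 330491817) (nat_lit 98) (nat_lit 5) (nat_lit 107) (nat_lit 5) (nat_lit 99) (nat_lit 5) (nat_lit 289) (nat_lit 279) (nat_lit 212)) (XT.lf (nat_lit 0) (nat_lit 5359874463) (nat_lit 684) (nat_lit 8025726414)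 (nat_lit 760) (nat_lit 577082464) (nat_lit 89) (nat_lit 5) (nat_lit 98) (nat_lit 5) (nat_lit 99) (nat_lit 5) (nat_lit 290) (nat_lit 279) (nat_lit 211)))))) (XT.nd (nat_lit 390) (nat_lit 988) (nat_lit 0) (XT.nd (nat_lit 156) (nat_lit 380) (nat_lit 0) (XT.nd (nat_lit 78) (nat_lit 532) (nat_lit 0) (XT.lf (nat_lit 0) (nat_lit 803101662) (nat_lit 760) (nat_lit 1663477893) (nat_lit 76) (nat_lit 11867531698) (nat_lit 88) (nat_lit 5) (nat_lit 98) (nat_lit 5) (nat_lit 89) (nat_lit 5) (nat_lit 291) (nat_lit 279) (nat_lit 210)) (XT.lf (nat_lit 0) (nat_lit 2354748190) (nat_lit 608) (nat_lit 8996657397) (nat_lit 76) (nat_lit 3366176138) (nat_lit 81) (nat_lit 5) (nat_lit 89) (nat_lit 5) (nat_lit 82) (nat_lit 5) (nat_lit 292) (nat_lit 279) (nat_lit 209))) (XT.nd (nat_lit 78) (nat_lit 380) (nat_lit 0) (XT.lf (nat_lit 0) (nat_lit 4031185691) (nat_lit 608) (nat_lit 1648602868) (nat_lit 76) (nat_lit 9438111521)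 (nat_lit 81) (nat_lit 5) (nat_lit 89) (nat_lit 5) (nat_lit 82) (nat_lit 5) (nat_lit 293) (nat_lit 279) (nat_lit 208)) (XT.nd (nat_lit 78) (nat_lit 0) (nat_lit 0) (XT.lf (nat_lit 0) (nat_lit 5874061101) (nat_lit 456) (nat_lit 9293734168) (nat_lit 76) (nat_lit 366341416) (nat_lit 76) (nat_lit 5) (nat_lit 82) (nat_lit 5) (nat_lit 77) (nat_lit 5) (nat_lit 294) (nat_lit 279) (nat_lit 207)) (XT.lf (nat_lit 0) (nat_lit 7910435346) (nat_lit 456) (nat_lit 1503159776) (nat_lit 76) (nat_lit 6552553802) (nat_lit 76) (nat_lit 5) (nat_lit 82) (nat_lit 5) (nat_lit 77) (nat_lit 5) (nat_lit 295) (nat_lit 279) (nat_lit 206))))) (XT.nd (nat_lit 234) (nat_lit 380) (nat_lit 0) (XT.nd (nat_lit 78) (nat_lit 304) (nat_lit 0) (XT.lf (nat_lit 0) (nat_lit 6877154660) (nat_lit 304) (nat_lit 3259670237) (nat_lit 380) (nat_lit 6278557101) (nat_lit 72) (nat_lit 5) (nat_lit 76) (nat_lit 5) (nat_lit 77) (nat_lit 5)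 (nat_lit 296) (nat_lit 279) (nat_lit 205)) (XT.nd (nat_lit 78) (nat_lit 304) (nat_lit 0) (XT.lf (nat_lit 0) (nat_lit 12531815962) (nat_lit 380) (nat_lit 1228062310) (nat_lit 76) (nat_lit 3124362976) (nat_lit 72) (nat_lit 5) (nat_lit 77) (nat_lit 5) (nat_lit 73) (nat_lit 5) (nat_lit 297) (nat_lit 279) (nat_lit 204)) (XT.lf (nat_lit 0) (nat_lit 7670121934) (nat_lit 304) (nat_lit 7531925431) (nat_lit 380) (nat_lit 2166748815) (nat_lit 68) (nat_lit 5) (nat_lit 72) (nat_lit 5) (nat_lit 73) (nat_lit 5) (nat_lit 298) (nat_lit 279) (nat_lit 203)))) (XT.nd (nat_lit 78) (nat_lit 304) (nat_lit 0) (XT.lf (nat_lit 0) (nat_lit 127784362) (nat_lit 380) (nat_lit 842861225) (nat_lit 76) (nat_lit 16906674088) (nat_lit 67) (nat_lit 5) (nat_lit 72) (nat_lit 5) (nat_lit 68) (nat_lit 5) (nat_lit 299) (nat_lit 279) (nat_lit 202)) (XT.nd (nat_lit 78) (nat_lit 0) (nat_lit 0) (XT.lf (nat_lit 0) (nat_lit 2678277815)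 (nat_lit 380) (nat_lit 9819627217) (nat_lit 76) (nat_lit 5900909307) (nat_lit 63) (nat_lit 5) (nat_lit 68) (nat_lit 5) (nat_lit 64) (nat_lit 5) (nat_lit 300) (nat_lit 279) (nat_lit 201)) (XT.lf (nat_lit 0) (nat_lit 5370549183) (nat_lit 380) (nat_lit 479588290) (nat_lit 76) (nat_lit 13095556029) (nat_lit 63) (nat_lit 5) (nat_lit 68) (nat_lit 5) (nat_lit 64) (nat_lit 5) (nat_lit 301) (nat_lit 279) (nat_lit 200))))))))
noncomputable def xc161 : XT := (XT.nd (nat_lit 1560) (nat_lit 1368) (nat_lit 0) (XT.nd (nat_lit 780) (nat_lit 836) (nat_lit 0) (XT.nd (nat_lit 390) (nat_lit 608) (nat_lit 0) (XT.nd (nat_lit 156) (nat_lit 532) (nat_lit 0) (XT.nd (nat_lit 78) (nat_lit 0) (nat_lit 0) (XT.lf (nat_lit 0) (nat_lit 8352238446) (nat_lit 380) (nat_lit 9916456509) (nat_lit 76) (nat_lit 1243502810) (nat_lit 59) (nat_lit 5) (nat_lit 64) (nat_lit 5) (nat_lit 60) (nat_lit 5) (nat_lit 302) (nat_lit 279)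 (nat_lit 199)) (XT.lf (nat_lit 0) (nat_lit 11572173665) (nat_lit 380) (nat_lit 30040472) (nat_lit 76) (nat_lit 8500375371) (nat_lit 59) (nat_lit 5) (nat_lit 64) (nat_lit 5) (nat_lit 60) (nat_lit 5) (nat_lit 303) (nat_lit 279) (nat_lit 198))) (XT.nd (nat_lit 78) (nat_lit 304) (nat_lit 0) (XT.lf (nat_lit 0) (nat_lit 10674371690) (nat_lit 228) (nat_lit 4431107376) (nat_lit 304) (nat_lit 5609422474) (nat_lit 56) (nat_lit 5) (nat_lit 59) (nat_lit 5) (nat_lit 60) (nat_lit 5) (nat_lit 304) (nat_lit 279) (nat_lit 197)) (XT.nd (nat_lit 78) (nat_lit 76) (nat_lit 0) (XT.lf (nat_lit 0) (nat_lit 506742698) (nat_lit 228) (nat_lit 18351574238) (nat_lit 304) (nat_lit 2497387329) (nat_lit 53) (nat_lit 5) (nat_lit 56) (nat_lit 5) (nat_lit 57) (nat_lit 5) (nat_lit 305) (nat_lit 279) (nat_lit 196)) (XT.lf (nat_lit 0) (nat_lit 977270849) (nat_lit 304) (nat_lit 10196047686) (nat_lit 76) (nat_lit 10843060334)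 (nat_lit 52) (nat_lit 5) (nat_lit 56) (nat_lit 5) (nat_lit 53) (nat_lit 5) (nat_lit 306) (nat_lit 279) (nat_lit 195))))) (XT.nd (nat_lit 156) (nat_lit 380) (nat_lit 0) (XT.nd (nat_lit 78) (nat_lit 0) (nat_lit 0) (XT.lf (nat_lit 0) (nat_lit 961722129) (nat_lit 228) (nat_lit 3581887513) (nat_lit 304) (nat_lit 18164352646) (nat_lit 49) (nat_lit 5) (nat_lit 52) (nat_lit 5) (nat_lit 53) (nat_lit 5) (nat_lit 307) (nat_lit 279) (nat_lit 194)) (XT.lf (nat_lit 0) (nat_lit 8519442245) (nat_lit 304) (nat_lit 10483412964) (nat_lit 76) (nat_lit 4419726004) (nat_lit 49) (nat_lit 5) (nat_lit 53) (nat_lit 5) (nat_lit 50) (nat_lit 5) (nat_lit 308) (nat_lit 279) (nat_lit 193))) (XT.nd (nat_lit 78) (nat_lit 152) (nat_lit 0) (XT.lf (nat_lit 0) (nat_lit 1308645818) (nat_lit 228) (nat_lit 11452328655) (nat_lit 304) (nat_lit 11408625670) (nat_lit 46) (nat_lit 5) (nat_lit 49) (nat_lit 5) (nat_lit 50) (nat_lit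 5) (nat_lit 309) (nat_lit 279) (nat_lit 192)) (XT.nd (nat_lit 78) (nat_lit 152) (nat_lit 0) (XT.lf (nat_lit 0) (nat_lit 14037468228) (nat_lit 228) (nat_lit 3342734367) (nat_lit 304) (nat_lit 7565500226) (nat_lit 46) (nat_lit 5) (nat_lit 49) (nat_lit 5) (nat_lit 50) (nat_lit 5) (nat_lit 310) (nat_lit 279) (nat_lit 191)) (XT.lf (nat_lit 0) (nat_lit 1595938327) (nat_lit 152) (nat_lit 20728698407) (nat_lit 228) (nat_lit 3431274783) (nat_lit 44) (nat_lit 5) (nat_lit 46) (nat_lit 5) (nat_lit 47) (nat_lit 5) (nat_lit 311) (nat_lit 279) (nat_lit 190)))))) (XT.nd (nat_lit 390) (nat_lit 380) (nat_lit 0) (XT.nd (nat_lit 156) (nat_lit 152) (nat_lit 0) (XT.nd (nat_lit 78) (nat_lit 228) (nat_lit 0) (XT.lf (nat_lit 0) (nat_lit 1111779425) (nat_lit 228) (nat_lit 11582022795) (nat_lit 76) (nat_lit 13900568584) (nat_lit 43) (nat_lit 5) (nat_lit 46) (nat_lit 5) (nat_lit 44) (nat_lit 5) (nat_lit 312) (nat_lit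 279) (nat_lit 189)) (XT.lf (nat_lit 0) (nat_lit 1604078707) (nat_lit 228) (nat_lit 4176846789) (nat_lit 304) (nat_lit 21690313741) (nat_lit 40) (nat_lit 5) (nat_lit 43) (nat_lit 5) (nat_lit 44) (nat_lit 5) (nat_lit 313) (nat_lit 279) (nat_lit 188))) (XT.nd (nat_lit 78) (nat_lit 152) (nat_lit 0) (XT.lf (nat_lit 0) (nat_lit 10946701440) (nat_lit 304) (nat_lit 12624221186) (nat_lit 76) (nat_lit 4807880625) (nat_lit 40) (nat_lit 5) (nat_lit 44) (nat_lit 5) (nat_lit 41) (nat_lit 5) (nat_lit 314) (nat_lit 279) (nat_lit 187)) (XT.nd (nat_lit 78) (nat_lit 0) (nat_lit 0) (XT.lf (nat_lit 0) (nat_lit 1236699129) (nat_lit 152) (nat_lit 15211752998) (nat_lit 228) (nat_lit 12879419315) (nat_lit 38) (nat_lit 5) (nat_lit 40) (nat_lit 5) (nat_lit 41) (nat_lit 5) (nat_lit 315) (nat_lit 279) (nat_lit 186)) (XT.lf (nat_lit 0) (nat_lit 16213921095) (nat_lit 152) (nat_lit 6215317344) (nat_lit 228) (nat_lit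 7884966985) (nat_lit 38) (nat_lit 5) (nat_lit 40) (nat_lit 5) (nat_lit 41) (nat_lit 5) (nat_lit 316) (nat_lit 279) (nat_lit 185))))) (XT.nd (nat_lit 156) (nat_lit 152) (nat_lit 0) (XT.nd (nat_lit 78) (nat_lit 76) (nat_lit 0) (XT.lf (nat_lit 0) (nat_lit 542348078) (nat_lit 152) (nat_lit 28216170378) (nat_lit 228) (nat_lit 2588874247) (nat_lit 36) (nat_lit 5) (nat_lit 38) (nat_lit 5) (nat_lit 39) (nat_lit 5) (nat_lit 317) (nat_lit 279) (nat_lit 184)) (XT.lf (nat_lit 0) (nat_lit 3212107240) (nat_lit 228) (nat_lit 16180660347) (nat_lit 76) (nat_lit 13020399761) (nat_lit 35) (nat_lit 5) (nat_lit 38) (nat_lit 5) (nat_lit 36) (nat_lit 5) (nat_lit 318) (nat_lit 279) (nat_lit 183))) (XT.nd (nat_lit 78) (nat_lit 152) (nat_lit 0) (XT.lf (nat_lit 0) (nat_lit 9207189081) (nat_lit 228) (nat_lit 881589001) (nat_lit 76) (nat_lit 23441785942) (nat_lit 35) (nat_lit 5) (nat_lit 38) (nat_lit 5) (nat_lit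 36) (nat_lit 5) (nat_lit 319) (nat_lit 279) (nat_lit 182)) (XT.nd (nat_lit 78) (nat_lit 0) (nat_lit 0) (XT.lf (nat_lit 0) (nat_lit 15670571507) (nat_lit 152) (nat_lit 67595456) (nat_lit 228) (nat_lit 18953864143) (nat_lit 33) (nat_lit 5) (nat_lit 35) (nat_lit 5) (nat_lit 36) (nat_lit 5) (nat_lit 320) (nat_lit 279) (nat_lit 181)) (XT.lf (nat_lit 0) (nat_lit 22765698658) (nat_lit 228) (nat_lit 3006900443) (nat_lit 76) (nat_lit 10130479494) (nat_lit 33) (nat_lit 5) (nat_lit 36) (nat_lit 5) (nat_lit 34) (nat_lit 5) (nat_lit 321) (nat_lit 279) (nat_lit 180))))))) (XT.nd (nat_lit 780) (nat_lit 532) (nat_lit 0) (XT.nd (nat_lit 390) (nat_lit 304) (nat_lit 0) (XT.nd (nat_lit 156) (nat_lit 380) (nat_lit 0) (XT.nd (nat_lit 78) (nat_lit 0) (nat_lit 0) (XT.lf (nat_lit 0) (nat_lit 14250476952) (nat_lit 152) (nat_lit 16109731512) (nat_lit 228) (nat_lit 6803696872) (nat_lit 31) (nat_lit 5) (nat_lit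 33) (nat_lit 5) (nat_lit 34) (nat_lit 5) (nat_lit 322) (nat_lit 279) (nat_lit 179)) (XT.lf (nat_lit 0) (nat_lit 32462418317) (nat_lit 152) (nat_lit 5915134819) (nat_lit 228) (nat_lit 108071434) (nat_lit 31) (nat_lit 5) (nat_lit 33) (nat_lit 5) (nat_lit 34) (nat_lit 5) (nat_lit 323) (nat_lit 279) (nat_lit 178))) (XT.nd (nat_lit 78) (nat_lit 152) (nat_lit 0) (XT.lf (nat_lit 0) (nat_lit 6959695248) (nat_lit 228) (nat_lit 27964242684) (nat_lit 76) (nat_lit 4931148090) (nat_lit 28) (nat_lit 5) (nat_lit 31) (nat_lit 5) (nat_lit 29) (nat_lit 5) (nat_lit 324) (nat_lit 279) (nat_lit 177)) (XT.nd (nat_lit 78) (nat_lit 152) (nat_lit 0) (XT.lf (nat_lit 0) (nat_lit 14570392569) (nat_lit 228) (nat_lit 10491077701) (nat_lit 76) (nat_lit 16221808703) (nat_lit 28) (nat_lit 5) (nat_lit 31) (nat_lit 5) (nat_lit 29) (nat_lit 5) (nat_lit 325) (nat_lit 279) (nat_lit 176)) (XT.lf (nat_lit 0) (nat_lit 8103241120)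 (nat_lit 152) (nat_lit 14577780461) (nat_lit 228) (nat_lit 20095895598) (nat_lit 26) (nat_lit 5) (nat_lit 28) (nat_lit 5) (nat_lit 29) (nat_lit 5) (nat_lit 326) (nat_lit 279) (nat_lit 175))))) (XT.nd (nat_lit 156) (nat_lit 228) (nat_lit 0) (XT.nd (nat_lit 78) (nat_lit 76) (nat_lit 0) (XT.lf (nat_lit 0) (nat_lit 27979834952) (nat_lit 152) (nat_lit 3388057859) (nat_lit 228) (nat_lit 12968814136) (nat_lit 26) (nat_lit 5) (nat_lit 28) (nat_lit 5) (nat_lit 29) (nat_lit 5) (nat_lit 327) (nat_lit 279) (nat_lit 174)) (XT.lf (nat_lit 0) (nat_lit 2824246515) (nat_lit 76) (nat_lit 37832797253) (nat_lit 152) (nat_lit 5309050568) (nat_lit 25) (nat_lit 5) (nat_lit 26) (nat_lit 5) (nat_lit 27) (nat_lit 4) (nat_lit 328) (nat_lit 279) (nat_lit 173))) (XT.nd (nat_lit 78) (nat_lit 152) (nat_lit 0) (XT.lf (nat_lit 0) (nat_lit 2976633293) (nat_lit 152) (nat_lit 24244989436) (nat_lit 76) (nat_lit 20436677431)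 (nat_lit 24) (nat_lit 5) (nat_lit 26) (nat_lit 5) (nat_lit 25) (nat_lit 5) (nat_lit 329) (nat_lit 279) (nat_lit 172)) (XT.nd (nat_lit 78) (nat_lit 152) (nat_lit 0) (XT.lf (nat_lit 0) (nat_lit 11491832892) (nat_lit 152) (nat_lit 4501197641) (nat_lit 76) (nat_lit 33438055806) (nat_lit 24) (nat_lit 5) (nat_lit 26) (nat_lit 5) (nat_lit 25) (nat_lit 5) (nat_lit 330) (nat_lit 279) (nat_lit 171)) (XT.lf (nat_lit 0) (nat_lit 16755713213) (nat_lit 152) (nat_lit 3932635715) (nat_lit 228) (nat_lit 30591389144) (nat_lit 22) (nat_lit 5) (nat_lit 24) (nat_lit 5) (nat_lit 25) (nat_lit 5) (nat_lit 331) (nat_lit 279) (nat_lit 170)))))) (XT.nd (nat_lit 390) (nat_lit 228) (nat_lit 0) (XT.nd (nat_lit 156) (nat_lit 228) (nat_lit 0) (XT.nd (nat_lit 78) (nat_lit 76) (nat_lit 0) (XT.lf (nat_lit 0) (nat_lit 30552497285) (nat_lit 228) (nat_lit 14133255473) (nat_lit 76) (nat_lit 8524683179) (nat_lit 22) (nat_lit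 5) (nat_lit 25) (nat_lit 5) (nat_lit 23) (nat_lit 4) (nat_lit 332) (nat_lit 279) (nat_lit 169)) (XT.lf (nat_lit 0) (nat_lit 7440807627) (nat_lit 76) (nat_lit 33643986692) (nat_lit 152) (nat_lit 14144131000) (nat_lit 21) (nat_lit 5) (nat_lit 22) (nat_lit 5) (nat_lit 23) (nat_lit 4) (nat_lit 333) (nat_lit 279) (nat_lit 168))) (XT.nd (nat_lit 78) (nat_lit 228) (nat_lit 0) (XT.lf (nat_lit 0) (nat_lit 30574481093) (nat_lit 76) (nat_lit 21802997527) (nat_lit 152) (nat_lit 4959175441) (nat_lit 21) (nat_lit 5) (nat_lit 22) (nat_lit 5) (nat_lit 23) (nat_lit 4) (nat_lit 334) (nat_lit 279) (nat_lit 167)) (XT.nd (nat_lit 78) (nat_lit 152) (nat_lit 0) (XT.lf (nat_lit 0) (nat_lit 4529672030) (nat_lit 152) (nat_lit 4767561736) (nat_lit 76) (nat_lit 50249151626) (nat_lit 20) (nat_lit 5) (nat_lit 22) (nat_lit 5) (nat_lit 21) (nat_lit 5) (nat_lit 335) (nat_lit 279) (nat_lit 166)) (XT.lf (nat_lit 0) (nat_lit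 14681239705) (nat_lit 228) (nat_lit 43074613887) (nat_lit 76) (nat_lit 4088940901) (nat_lit 18) (nat_lit 5) (nat_lit 21) (nat_lit 5) (nat_lit 19) (nat_lit 4) (nat_lit 336) (nat_lit 279) (nat_lit 165))))) (XT.nd (nat_lit 234) (nat_lit 152) (nat_lit 0) (XT.nd (nat_lit 78) (nat_lit 76) (nat_lit 0) (XT.lf (nat_lit 0) (nat_lit 25569762095) (nat_lit 228) (nat_lit 20766577186) (nat_lit 76) (nat_lit 17910318841) (nat_lit 18) (nat_lit 5) (nat_lit 21) (nat_lit 5) (nat_lit 19) (nat_lit 4) (nat_lit 337) (nat_lit 279) (nat_lit 164)) (XT.nd (nat_lit 78) (nat_lit 0) (nat_lit 0) (XT.lf (nat_lit 0) (nat_lit 2735773727) (nat_lit 76) (nat_lit 34304790996) (nat_lit 152) (nat_lit 29726160255) (nat_lit 17) (nat_lit 5) (nat_lit 18) (nat_lit 5) (nat_lit 19) (nat_lit 4) (nat_lit 338) (nat_lit 279) (nat_lit 163)) (XT.lf (nat_lit 0) (nat_lit 28125700897) (nat_lit 76) (nat_lit 21306138161) (nat_lit 152) (nat_lit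 19963612163) (nat_lit 17) (nat_lit 5) (nat_lit 18) (nat_lit 5) (nat_lit 19) (nat_lit 4) (nat_lit 339) (nat_lit 279) (nat_lit 162)))) (XT.nd (nat_lit 78) (nat_lit 152) (nat_lit 0) (XT.lf (nat_lit 0) (nat_lit 54777019702) (nat_lit 76) (nat_lit 7661123634) (nat_lit 152) (nat_lit 9717699622) (nat_lit 17) (nat_lit 5) (nat_lit 18) (nat_lit 5) (nat_lit 19) (nat_lit 4) (nat_lit 340) (nat_lit 279) (nat_lit 161)) (XT.nd (nat_lit 78) (nat_lit 0) (nat_lit 0) (XT.lf (nat_lit 0) (nat_lit 1233047276) (nat_lit 152) (nat_lit 67217230689) (nat_lit 76) (nat_lit 6591874244) (nat_lit 15) (nat_lit 5) (nat_lit 17) (nat_lit 5) (nat_lit 16) (nat_lit 4) (nat_lit 341) (nat_lit 279) (nat_lit 160)) (XT.lf (nat_lit 0) (nat_lit 12825132601) (nat_lit 152) (nat_lit 43463480579) (nat_lit 76) (nat_lit 21755181596) (nat_lit 15) (nat_lit 5) (nat_lit 17) (nat_lit 5) (nat_lit 16) (nat_lit 4) (nat_lit 342) (nat_lit 279) (nat_lit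 159))))))))
noncomputable def xc162 : XT := (XT.nd (nat_lit 1560) (nat_lit 304) (nat_lit 0) (XT.nd (nat_lit 780) (nat_lit 228) (nat_lit 0) (XT.nd (nat_lit 390) (nat_lit 152) (nat_lit 0) (XT.nd (nat_lit 156) (nat_lit 76) (nat_lit 0) (XT.nd (nat_lit 78) (nat_lit 76) (nat_lit 0) (XT.lf (nat_lit 0) (nat_lit 24992673279) (nat_lit 152) (nat_lit 18529569624) (nat_lit 76) (nat_lit 37673486067) (nat_lit 15) (nat_lit 5) (nat_lit 17) (nat_lit 5) (nat_lit 16) (nat_lit 4) (nat_lit 343) (nat_lit 279) (nat_lit 158)) (XT.lf (nat_lit 0) (nat_lit 7896609449) (nat_lit 76) (nat_lit 29991318399) (nat_lit 152) (nat_lit 46611367138) (nat_lit 14) (nat_lit 5) (nat_lit 15) (nat_lit 5) (nat_lit 16) (nat_lit 4) (nat_lit 344) (nat_lit 279) (nat_lit 157))) (XT.nd (nat_lit 78) (nat_lit 76) (nat_lit 0) (XT.lf (nat_lit 0) (nat_lit 36280349661) (nat_lit 76) (nat_lit 15457529414) (nat_lit 152) (nat_lit 36214665394) (nat_lit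 14) (nat_lit 5) (nat_lit 15) (nat_lit 5) (nat_lit 16) (nat_lit 4) (nat_lit 345) (nat_lit 279) (nat_lit 156)) (XT.nd (nat_lit 78) (nat_lit 76) (nat_lit 0) (XT.lf (nat_lit 0) (nat_lit 66076560093) (nat_lit 76) (nat_lit 200078916) (nat_lit 152) (nat_lit 25302003634) (nat_lit 14) (nat_lit 5) (nat_lit 15) (nat_lit 5) (nat_lit 16) (nat_lit 4) (nat_lit 346) (nat_lit 279) (nat_lit 155)) (XT.lf (nat_lit 0) (nat_lit 1779978118) (nat_lit 76) (nat_lit 80033589397) (nat_lit 76) (nat_lit 13558918372) (nat_lit 13) (nat_lit 4) (nat_lit 14) (nat_lit 5) (nat_lit 14) (nat_lit 4) (nat_lit 347) (nat_lit 279) (nat_lit 154))))) (XT.nd (nat_lit 156) (nat_lit 76) (nat_lit 0) (XT.nd (nat_lit 78) (nat_lit 76) (nat_lit 0) (XT.lf (nat_lit 0) (nat_lit 31301704150) (nat_lit 76) (nat_lit 67257266406) (nat_lit 76) (nat_lit 775470940) (nat_lit 13) (nat_lit 4) (nat_lit 14) (nat_lit 5) (nat_lit 14) (nat_lit 4) (nat_lit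 348) (nat_lit 279) (nat_lit 153)) (XT.lf (nat_lit 0) (nat_lit 12238982230) (nat_lit 152) (nat_lit 41398667077) (nat_lit 76) (nat_lit 49847143111) (nat_lit 12) (nat_lit 5) (nat_lit 14) (nat_lit 5) (nat_lit 13) (nat_lit 4) (nat_lit 349) (nat_lit 279) (nat_lit 152))) (XT.nd (nat_lit 78) (nat_lit 76) (nat_lit 0) (XT.lf (nat_lit 0) (nat_lit 25874879163) (nat_lit 152) (nat_lit 13451540443) (nat_lit 76) (nat_lit 68515767936) (nat_lit 12) (nat_lit 5) (nat_lit 14) (nat_lit 5) (nat_lit 13) (nat_lit 4) (nat_lit 350) (nat_lit 279) (nat_lit 151)) (XT.nd (nat_lit 78) (nat_lit 0) (nat_lit 0) (XT.lf (nat_lit 0) (nat_lit 16412596182) (nat_lit 76) (nat_lit 24033156633) (nat_lit 152) (nat_lit 71959041838) (nat_lit 11) (nat_lit 5) (nat_lit 12) (nat_lit 5) (nat_lit 13) (nat_lit 4) (nat_lit 351) (nat_lit 279) (nat_lit 150)) (XT.lf (nat_lit 0) (nat_lit 48231385994) (nat_lit 76) (nat_lit 7738586874) (nat_lit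 152) (nat_lit 61214320377) (nat_lit 11) (nat_lit 5) (nat_lit 12) (nat_lit 5) (nat_lit 13) (nat_lit 4) (nat_lit 352) (nat_lit 279) (nat_lit 149)))))) (XT.nd (nat_lit 390) (nat_lit 76) (nat_lit 0) (XT.nd (nat_lit 156) (nat_lit 152) (nat_lit 0) (XT.nd (nat_lit 78) (nat_lit 0) (nat_lit 0) (XT.lf (nat_lit 0) (nat_lit 72413806493) (nat_lit 152) (nat_lit 40713356826) (nat_lit 0) (nat_lit 9068434518) (nat_lit 11) (nat_lit 5) (nat_lit 13) (nat_lit 4) (nat_lit 11) (nat_lit 4) (nat_lit 353) (nat_lit 279) (nat_lit 148)) (XT.lf (nat_lit 0) (nat_lit 89803931502) (nat_lit 152) (nat_lit 11193835998) (nat_lit 0) (nat_lit 26453496319) (nat_lit 11) (nat_lit 5) (nat_lit 13) (nat_lit 4) (nat_lit 11) (nat_lit 4) (nat_lit 354) (nat_lit 279) (nat_lit 147))) (XT.nd (nat_lit 78) (nat_lit 76) (nat_lit 0) (XT.lf (nat_lit 0) (nat_lit 20451331151) (nat_lit 76) (nat_lit 87928903368) (nat_lit 76) (nat_lit 24573646082)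 (nat_lit 10) (nat_lit 4) (nat_lit 11) (nat_lit 5) (nat_lit 11) (nat_lit 4) (nat_lit 355) (nat_lit 279) (nat_lit 146)) (XT.nd (nat_lit 78) (nat_lit 76) (nat_lit 0) (XT.lf (nat_lit 0) (nat_lit 54062560365) (nat_lit 76) (nat_lit 74009784524) (nat_lit 76) (nat_lit 10649934759) (nat_lit 10) (nat_lit 4) (nat_lit 11) (nat_lit 5) (nat_lit 11) (nat_lit 4) (nat_lit 356) (nat_lit 279) (nat_lit 145)) (XT.lf (nat_lit 0) (nat_lit 3840399367) (nat_lit 152) (nat_lit 55491404851) (nat_lit 76) (nat_lit 85444321218) (nat_lit 9) (nat_lit 5) (nat_lit 11) (nat_lit 5) (nat_lit 10) (nat_lit 4) (nat_lit 357) (nat_lit 279) (nat_lit 144))))) (XT.nd (nat_lit 156) (nat_lit 0) (nat_lit 0) (XT.nd (nat_lit 78) (nat_lit 76) (nat_lit 0) (XT.lf (nat_lit 0) (nat_lit 18694962385) (nat_lit 152) (nat_lit 25043716179) (nat_lit 76) (nat_lit 107385375399) (nat_lit 9) (nat_lit 5) (nat_lit 11) (nat_lit 5) (nat_lit 10) (nat_lit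 4) (nat_lit 358) (nat_lit 279) (nat_lit 143)) (XT.lf (nat_lit 0) (nat_lit 7150992991) (nat_lit 76) (nat_lit 27250640772) (nat_lit 152) (nat_lit 123382276996) (nat_lit 8) (nat_lit 5) (nat_lit 9) (nat_lit 5) (nat_lit 10) (nat_lit 4) (nat_lit 359) (nat_lit 279) (nat_lit 142))) (XT.nd (nat_lit 78) (nat_lit 0) (nat_lit 0) (XT.lf (nat_lit 0) (nat_lit 41820726920) (nat_lit 76) (nat_lit 9494815220) (nat_lit 152) (nat_lit 113440123896) (nat_lit 8) (nat_lit 5) (nat_lit 9) (nat_lit 5) (nat_lit 10) (nat_lit 4) (nat_lit 360) (nat_lit 279) (nat_lit 141)) (XT.nd (nat_lit 78) (nat_lit 0) (nat_lit 0) (XT.lf (nat_lit 0) (nat_lit 69215837288) (nat_lit 152) (nat_lit 93998950990) (nat_lit 0) (nat_lit 8854187005) (nat_lit 8) (nat_lit 5) (nat_lit 10) (nat_lit 4) (nat_lit 8) (nat_lit 4) (nat_lit 361) (nat_lit 279) (nat_lit 140)) (XT.lf (nat_lit 0) (nat_lit 88164755061) (nat_lit 152) (nat_lit 63775674286) (nat_lit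 0) (nat_lit 27799840990) (nat_lit 8) (nat_lit 5) (nat_lit 10) (nat_lit 4) (nat_lit 8) (nat_lit 4) (nat_lit 362) (nat_lit 279) (nat_lit 139))))))) (XT.nd (nat_lit 780) (nat_lit 76) (nat_lit 0) (XT.nd (nat_lit 390) (nat_lit 152) (nat_lit 0) (XT.nd (nat_lit 156) (nat_lit 0) (nat_lit 0) (XT.nd (nat_lit 78) (nat_lit 76) (nat_lit 0) (XT.lf (nat_lit 0) (nat_lit 108059171257) (nat_lit 152) (nat_lit 32044908146) (nat_lit 0) (nat_lit 47691148815) (nat_lit 8) (nat_lit 5) (nat_lit 10) (nat_lit 4) (nat_lit 8) (nat_lit 4) (nat_lit 363) (nat_lit 279) (nat_lit 138)) (XT.lf (nat_lit 0) (nat_lit 1310852332) (nat_lit 76) (nat_lit 127656067279) (nat_lit 76) (nat_lit 67285084484) (nat_lit 7) (nat_lit 4) (nat_lit 8) (nat_lit 5) (nat_lit 8) (nat_lit 4) (nat_lit 364) (nat_lit 279) (nat_lit 137))) (XT.nd (nat_lit 78) (nat_lit 0) (nat_lit 0) (XT.lf (nat_lit 0) (nat_lit 37443484701) (nat_lit 76) (nat_lit 114017446543)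 (nat_lit 76) (nat_lit 53643644364) (nat_lit 7) (nat_lit 4) (nat_lit 8) (nat_lit 5) (nat_lit 8) (nat_lit 4) (nat_lit 365) (nat_lit 279) (nat_lit 136)) (XT.nd (nat_lit 78) (nat_lit 0) (nat_lit 0) (XT.lf (nat_lit 0) (nat_lit 75379469654) (nat_lit 76) (nat_lit 99698440315) (nat_lit 76) (nat_lit 39321953009) (nat_lit 7) (nat_lit 4) (nat_lit 8) (nat_lit 5) (nat_lit 8) (nat_lit 4) (nat_lit 366) (nat_lit 279) (nat_lit 135)) (XT.lf (nat_lit 0) (nat_lit 115209130965) (nat_lit 76) (nat_lit 84664955724) (nat_lit 76) (nat_lit 24285911154) (nat_lit 7) (nat_lit 4) (nat_lit 8) (nat_lit 5) (nat_lit 8) (nat_lit 4) (nat_lit 367) (nat_lit 279) (nat_lit 134))))) (XT.nd (nat_lit 156) (nat_lit 76) (nat_lit 0) (XT.nd (nat_lit 78) (nat_lit 76) (nat_lit 0) (XT.lf (nat_lit 0) (nat_lit 157027301160) (nat_lit 76) (nat_lit 68881198757) (nat_lit 76) (nat_lit 8499718697) (nat_lit 7) (nat_lit 4) (nat_lit 8) (nat_lit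 5) (nat_lit 8) (nat_lit 4) (nat_lit 368) (nat_lit 279) (nat_lit 133)) (XT.lf (nat_lit 0) (nat_lit 7815785369) (nat_lit 152) (nat_lit 44361439565) (nat_lit 76) (nat_lit 192985397836) (nat_lit 6) (nat_lit 5) (nat_lit 8) (nat_lit 5) (nat_lit 7) (nat_lit 4) (nat_lit 369) (nat_lit 279) (nat_lit 132))) (XT.nd (nat_lit 78) (nat_lit 76) (nat_lit 0) (XT.lf (nat_lit 0) (nat_lit 24659968348) (nat_lit 152) (nat_lit 9833073520) (nat_lit 76) (nat_lit 221954811259) (nat_lit 6) (nat_lit 5) (nat_lit 8) (nat_lit 5) (nat_lit 7) (nat_lit 4) (nat_lit 370) (nat_lit 279) (nat_lit 131)) (XT.nd (nat_lit 78) (nat_lit 0) (nat_lit 0) (XT.lf (nat_lit 0) (nat_lit 27292630113) (nat_lit 76) (nat_lit 15478463845) (nat_lit 152) (nat_lit 225505014821) (nat_lit 5) (nat_lit 5) (nat_lit 6) (nat_lit 5) (nat_lit 7) (nat_lit 4) (nat_lit 371) (nat_lit 279) (nat_lit 130)) (XT.lf (nat_lit 0) (nat_lit 62025711481) (nat_lit 152)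 (nat_lit 214146854270) (nat_lit 0) (nat_lit 4511315113) (nat_lit 5) (nat_lit 5) (nat_lit 7) (nat_lit 4) (nat_lit 5) (nat_lit 4) (nat_lit 372) (nat_lit 279) (nat_lit 129)))))) (XT.nd (nat_lit 390) (nat_lit 76) (nat_lit 0) (XT.nd (nat_lit 156) (nat_lit 0) (nat_lit 0) (XT.nd (nat_lit 78) (nat_lit 0) (nat_lit 0) (XT.lf (nat_lit 0) (nat_lit 82495496248) (nat_lit 152) (nat_lit 186224641417) (nat_lit 0) (nat_lit 24979282480) (nat_lit 5) (nat_lit 5) (nat_lit 7) (nat_lit 4) (nat_lit 5) (nat_lit 4) (nat_lit 373) (nat_lit 279) (nat_lit 128)) (XT.lf (nat_lit 0) (nat_lit 103987523643) (nat_lit 152) (nat_lit 156908696449) (nat_lit 0) (nat_lit 46469579019) (nat_lit 5) (nat_lit 5) (nat_lit 7) (nat_lit 4) (nat_lit 5) (nat_lit 4) (nat_lit 374) (nat_lit 279) (nat_lit 127))) (XT.nd (nat_lit 78) (nat_lit 0) (nat_lit 0) (XT.lf (nat_lit 0) (nat_lit 126552965162) (nat_lit 152) (nat_lit 126129219497) (nat_lit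 0) (nat_lit 69033372102) (nat_lit 5) (nat_lit 5) (nat_lit 7) (nat_lit 4) (nat_lit 5) (nat_lit 4) (nat_lit 375) (nat_lit 279) (nat_lit 126)) (XT.nd (nat_lit 78) (nat_lit 0) (nat_lit 0) (XT.lf (nat_lit 0) (nat_lit 150245548044) (nat_lit 152) (nat_lit 93812926091) (nat_lit 0) (nat_lit 92724385046) (nat_lit 5) (nat_lit 5) (nat_lit 7) (nat_lit 4) (nat_lit 5) (nat_lit 4) (nat_lit 376) (nat_lit 279) (nat_lit 125)) (XT.lf (nat_lit 0) (nat_lit 175121683203) (nat_lit 152) (nat_lit 59882872677) (nat_lit 0) (nat_lit 117599025025) (nat_lit 5) (nat_lit 5) (nat_lit 7) (nat_lit 4) (nat_lit 5) (nat_lit 4) (nat_lit 377) (nat_lit 279) (nat_lit 124))))) (XT.nd (nat_lit 234) (nat_lit 0) (nat_lit 0) (XT.nd (nat_lit 78) (nat_lit 76) (nat_lit 0) (XT.lf (nat_lit 0) (nat_lit 201240599531) (nat_lit 152) (nat_lit 24258273413) (nat_lit 0) (nat_lit 143716517373) (nat_lit 5) (nat_lit 5) (nat_lit 7) (nat_lit 4) (nat_lit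 5) (nat_lit 4) (nat_lit 378) (nat_lit 279) (nat_lit 123)) (XT.nd (nat_lit 78) (nat_lit 0) (nat_lit 0) (XT.lf (nat_lit 0) (nat_lit 13580348125) (nat_lit 76) (nat_lit 215296164091) (nat_lit 76) (nat_lit 157770725761) (nat_lit 4) (nat_lit 4) (nat_lit 5) (nat_lit 5) (nat_lit 5) (nat_lit 4) (nat_lit 379) (nat_lit 279) (nat_lit 122)) (XT.lf (nat_lit 0) (nat_lit 54151259638) (nat_lit 76) (nat_lit 204152827630) (nat_lit 76) (nat_lit 146626097708) (nat_lit 4) (nat_lit 4) (nat_lit 5) (nat_lit 5) (nat_lit 5) (nat_lit 4) (nat_lit 380) (nat_lit 279) (nat_lit 121)))) (XT.nd (nat_lit 78) (nat_lit 0) (nat_lit 0) (XT.lf (nat_lit 0) (nat_lit 96748970460) (nat_lit 76) (nat_lit 192453157407) (nat_lit 76) (nat_lit 134925197397) (nat_lit 4) (nat_lit 4) (nat_lit 5) (nat_lit 5) (nat_lit 5) (nat_lit 4) (nat_lit 381) (nat_lit 279) (nat_lit 120)) (XT.nd (nat_lit 78) (nat_lit 0) (nat_lit 0) (XT.lf (nat_lit 0) (nat_lit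 141474903712) (nat_lit 76) (nat_lit 180169297063) (nat_lit 76) (nat_lit 122640165541) (nat_lit 4) (nat_lit 4) (nat_lit 5) (nat_lit 5) (nat_lit 5) (nat_lit 4) (nat_lit 382) (nat_lit 279) (nat_lit 119)) (XT.lf (nat_lit 0) (nat_lit 188435549711) (nat_lit 76) (nat_lit 167271999312) (nat_lit 76) (nat_lit 109741752064) (nat_lit 4) (nat_lit 4) (nat_lit 5) (nat_lit 5) (nat_lit 5) (nat_lit 4) (nat_lit 383) (nat_lit 279) (nat_lit 118))))))))
noncomputable def xc163 : XT := (XT.nd (nat_lit 33930) (nat_lit 0) (nat_lit 2432) (XT.nd (nat_lit 33072) (nat_lit 0) (nat_lit 5168) (XT.nd (nat_lit 32682) (nat_lit 0) (nat_lit 6840) (XT.nd (nat_lit 156) (nat_lit 0) (nat_lit 0) (XT.nd (nat_lit 78) (nat_lit 0) (nat_lit 0) (XT.lf (nat_lit 0) (nat_lit 237742719519) (nat_lit 76) (nat_lit 153730556302) (nat_lit 76) (nat_lit 96199246458) (nat_lit 4) (nat_lit 4) (nat_lit 5) (nat_lit 5) (nat_lit 5) (nat_lit 4) (nat_lit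 384) (nat_lit 279) (nat_lit 117)) (XT.lf (nat_lit 0) (nat_lit 289513811160) (nat_lit 76) (nat_lit 139512726503) (nat_lit 76) (nat_lit 81980404663) (nat_lit 4) (nat_lit 4) (nat_lit 5) (nat_lit 5) (nat_lit 5) (nat_lit 4) (nat_lit 385) (nat_lit 279) (nat_lit 116))) (XT.nd (nat_lit 32370) (nat_lit 0) (nat_lit 6840) (XT.lf (nat_lit 0) (nat_lit 343872089137) (nat_lit 76) (nat_lit 124584657939) (nat_lit 76) (nat_lit 67051372293) (nat_lit 4) (nat_lit 4) (nat_lit 5) (nat_lit 5) (nat_lit 5) (nat_lit 4) (nat_lit 386) (nat_lit 279) (nat_lit 115)) (XT.nd (nat_lit 78) (nat_lit 0) (nat_lit 0) (XT.lf (nat_lit 0) (nat_lit 661363917) (nat_lit 0) (nat_lit 661363917) (nat_lit 684) (nat_lit 4282840550) (nat_lit 94) (nat_lit 5) (nat_lit 94) (nat_lit 3) (nat_lit 103) (nat_lit 3) (nat_lit 280) (nat_lit 280) (nat_lit 220)) (XT.lf (nat_lit 0) (nat_lit 3289508546) (nat_lit 684) (nat_lit 4785547071) (nat_lit 760)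 (nat_lit 3386534172) (nat_lit 94) (nat_lit 5) (nat_lit 103) (nat_lit 3) (nat_lit 104) (nat_lit 5) (nat_lit 281) (nat_lit 280) (nat_lit 219))))) (XT.nd (nat_lit 156) (nat_lit 0) (nat_lit 76) (XT.nd (nat_lit 78) (nat_lit 0) (nat_lit 76) (XT.lf (nat_lit 76) (nat_lit 549620537) (nat_lit 0) (nat_lit 3413172787) (nat_lit 760) (nat_lit 7761980175) (nat_lit 95) (nat_lit 5) (nat_lit 94) (nat_lit 5) (nat_lit 104) (nat_lit 5) (nat_lit 282) (nat_lit 280) (nat_lit 218)) (XT.lf (nat_lit 0) (nat_lit 4743521194) (nat_lit 684) (nat_lit 5724144665) (nat_lit 760) (nat_lit 1529818263) (nat_lit 95) (nat_lit 5) (nat_lit 104) (nat_lit 5) (nat_lit 105) (nat_lit 5) (nat_lit 283) (nat_lit 280) (nat_lit 217))) (XT.nd (nat_lit 78) (nat_lit 0) (nat_lit 0) (XT.lf (nat_lit 0) (nat_lit 5589019646) (nat_lit 684) (nat_lit 75879350) (nat_lit 760) (nat_lit 6617698544) (nat_lit 95) (nat_lit 5) (nat_lit 104) (nat_lit 5)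 (nat_lit 105) (nat_lit 5) (nat_lit 284) (nat_lit 280) (nat_lit 216)) (XT.nd (nat_lit 78) (nat_lit 0) (nat_lit 76) (XT.lf (nat_lit 76) (nat_lit 6029357521) (nat_lit 0) (nat_lit 512790228) (nat_lit 760) (nat_lit 6036602546) (nat_lit 96) (nat_lit 5) (nat_lit 95) (nat_lit 5) (nat_lit 105) (nat_lit 5) (nat_lit 285) (nat_lit 280) (nat_lit 215)) (XT.lf (nat_lit 0) (nat_lit 7593149643) (nat_lit 684) (nat_lit 543336370) (nat_lit 760) (nat_lit 4750762759) (nat_lit 96) (nat_lit 5) (nat_lit 105) (nat_lit 5) (nat_lit 106) (nat_lit 5) (nat_lit 286) (nat_lit 280) (nat_lit 214)))))) (XT.nd (nat_lit 390) (nat_lit 1216) (nat_lit 0) (XT.nd (nat_lit 156) (nat_lit 608) (nat_lit 0) (XT.nd (nat_lit 78) (nat_lit 0) (nat_lit 76) (XT.lf (nat_lit 76) (nat_lit 5925503126) (nat_lit 0) (nat_lit 2845886763) (nat_lit 760) (nat_lit 4436094496) (nat_lit 97) (nat_lit 5) (nat_lit 96) (nat_lit 5) (nat_lit 106) (nat_lit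 5) (nat_lit 287) (nat_lit 280) (nat_lit 213)) (XT.lf (nat_lit 0) (nat_lit 10035028822) (nat_lit 684) (nat_lit 868951383) (nat_lit 760) (nat_lit 2638471642) (nat_lit 97) (nat_lit 5) (nat_lit 106) (nat_lit 5) (nat_lit 107) (nat_lit 5) (nat_lit 288) (nat_lit 280) (nat_lit 212))) (XT.nd (nat_lit 78) (nat_lit 684) (nat_lit 0) (XT.lf (nat_lit 76) (nat_lit 5990890606) (nat_lit 0) (nat_lit 5487181183) (nat_lit 760) (nat_lit 2410327078) (nat_lit 98) (nat_lit 5) (nat_lit 97) (nat_lit 5) (nat_lit 107) (nat_lit 5) (nat_lit 289) (nat_lit 280) (nat_lit 211)) (XT.nd (nat_lit 78) (nat_lit 760) (nat_lit 0) (XT.lf (nat_lit 0) (nat_lit 12988308139) (nat_lit 684) (nat_lit 1050277902) (nat_lit 76) (nat_lit 213345410) (nat_lit 98) (nat_lit 5) (nat_lit 107) (nat_lit 5) (nat_lit 99) (nat_lit 5) (nat_lit 290) (nat_lit 280) (nat_lit 210)) (XT.lf (nat_lit 0) (nat_lit 110265066) (nat_lit 760) (nat_lit 8397386028)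 (nat_lit 76) (nat_lit 6117675498) (nat_lit 88) (nat_lit 5) (nat_lit 98) (nat_lit 5) (nat_lit 89) (nat_lit 5) (nat_lit 291) (nat_lit 280) (nat_lit 209))))) (XT.nd (nat_lit 234) (nat_lit 684) (nat_lit 0) (XT.nd (nat_lit 78) (nat_lit 532) (nat_lit 0) (XT.lf (nat_lit 0) (nat_lit 1506883315) (nat_lit 760) (nat_lit 1150363287) (nat_lit 76) (nat_lit 12359318846) (nat_lit 88) (nat_lit 5) (nat_lit 98) (nat_lit 5) (nat_lit 89) (nat_lit 5) (nat_lit 292) (nat_lit 280) (nat_lit 208)) (XT.nd (nat_lit 78) (nat_lit 0) (nat_lit 0) (XT.lf (nat_lit 0) (nat_lit 3112819367) (nat_lit 608) (nat_lit 8825889879) (nat_lit 76) (nat_lit 3481715793) (nat_lit 81) (nat_lit 5) (nat_lit 89) (nat_lit 5) (nat_lit 82) (nat_lit 5) (nat_lit 293) (nat_lit 280) (nat_lit 207)) (XT.lf (nat_lit 0) (nat_lit 4842586658) (nat_lit 608) (nat_lit 1139985022) (nat_lit 76) (nat_lit 9859760763) (nat_lit 81) (nat_lit 5) (nat_lit 89) (nat_lit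 5) (nat_lit 82) (nat_lit 5) (nat_lit 294) (nat_lit 280) (nat_lit 206)))) (XT.nd (nat_lit 78) (nat_lit 304) (nat_lit 0) (XT.lf (nat_lit 0) (nat_lit 6757514225) (nat_lit 456) (nat_lit 9146356933) (nat_lit 76) (nat_lit 376560518) (nat_lit 76) (nat_lit 5) (nat_lit 82) (nat_lit 5) (nat_lit 77) (nat_lit 5) (nat_lit 295) (nat_lit 280) (nat_lit 205)) (XT.nd (nat_lit 78) (nat_lit 304) (nat_lit 0) (XT.lf (nat_lit 0) (nat_lit 8867623845) (nat_lit 456) (nat_lit 995399724) (nat_lit 76) (nat_lit 6872469141) (nat_lit 76) (nat_lit 5) (nat_lit 82) (nat_lit 5) (nat_lit 77) (nat_lit 5) (nat_lit 296) (nat_lit 280) (nat_lit 204)) (XT.lf (nat_lit 0) (nat_lit 7794528530) (nat_lit 304) (nat_lit 3393012504) (nat_lit 380) (nat_lit 6020577917) (nat_lit 72) (nat_lit 5) (nat_lit 76) (nat_lit 5) (nat_lit 77) (nat_lit 5) (nat_lit 297) (nat_lit 280) (nat_lit 203))))))) (XT.nd (nat_lit 780) (nat_lit 1216) (nat_lit 0)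 (XT.nd (nat_lit 390) (nat_lit 532) (nat_lit 0) (XT.nd (nat_lit 156) (nat_lit 684) (nat_lit 0) (XT.nd (nat_lit 78) (nat_lit 304) (nat_lit 0) (XT.lf (nat_lit 0) (nat_lit 13676823593) (nat_lit 380) (nat_lit 717003043) (nat_lit 76) (nat_lit 3307907354) (nat_lit 72) (nat_lit 5) (nat_lit 77) (nat_lit 5) (nat_lit 73) (nat_lit 5) (nat_lit 298) (nat_lit 280) (nat_lit 202)) (XT.lf (nat_lit 0) (nat_lit 8616857149) (nat_lit 304) (nat_lit 7847816486) (nat_lit 380) (nat_lit 1746675702) (nat_lit 68) (nat_lit 5) (nat_lit 72) (nat_lit 5) (nat_lit 73) (nat_lit 5) (nat_lit 299) (nat_lit 280) (nat_lit 201))) (XT.nd (nat_lit 78) (nat_lit 608) (nat_lit 0) (XT.lf (nat_lit 0) (nat_lit 621314643) (nat_lit 380) (nat_lit 331798762) (nat_lit 76) (nat_lit 17793025445) (nat_lit 67) (nat_lit 5) (nat_lit 72) (nat_lit 5) (nat_lit 68) (nat_lit 5) (nat_lit 300) (nat_lit 280) (nat_lit 200)) (XT.nd (nat_lit 78) (nat_lit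 304) (nat_lit 0) (XT.lf (nat_lit 0) (nat_lit 3285754999) (nat_lit 380) (nat_lit 9743168373) (nat_lit 76) (nat_lit 6265496610) (nat_lit 63) (nat_lit 5) (nat_lit 68) (nat_lit 5) (nat_lit 64) (nat_lit 5) (nat_lit 301) (nat_lit 280) (nat_lit 199)) (XT.lf (nat_lit 0) (nat_lit 38070016) (nat_lit 304) (nat_lit 6052613665) (nat_lit 380) (nat_lit 13779088515) (nat_lit 59) (nat_lit 5) (nat_lit 63) (nat_lit 5) (nat_lit 64) (nat_lit 5) (nat_lit 302) (nat_lit 280) (nat_lit 198))))) (XT.nd (nat_lit 156) (nat_lit 304) (nat_lit 0) (XT.nd (nat_lit 78) (nat_lit 228) (nat_lit 0) (XT.lf (nat_lit 0) (nat_lit 9209153110) (nat_lit 380) (nat_lit 9859554336) (nat_lit 76) (nat_lit 1396539233) (nat_lit 59) (nat_lit 5) (nat_lit 64) (nat_lit 5) (nat_lit 60) (nat_lit 5) (nat_lit 303) (nat_lit 280) (nat_lit 197)) (XT.lf (nat_lit 0) (nat_lit 511224645) (nat_lit 228) (nat_lit 12065922915) (nat_lit 304) (nat_lit 8508685698)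 (nat_lit 56) (nat_lit 5) (nat_lit 59) (nat_lit 5) (nat_lit 60) (nat_lit 5) (nat_lit 304) (nat_lit 280) (nat_lit 196))) (XT.nd (nat_lit 78) (nat_lit 304) (nat_lit 0) (XT.lf (nat_lit 0) (nat_lit 11726004636) (nat_lit 228) (nat_lit 4541295015) (nat_lit 304) (nat_lit 5462479193) (nat_lit 56) (nat_lit 5) (nat_lit 59) (nat_lit 5) (nat_lit 60) (nat_lit 5) (nat_lit 305) (nat_lit 280) (nat_lit 195)) (XT.nd (nat_lit 78) (nat_lit 76) (nat_lit 0) (XT.lf (nat_lit 0) (nat_lit 1060461216) (nat_lit 228) (nat_lit 19137864313) (nat_lit 304) (nat_lit 2204794605) (nat_lit 53) (nat_lit 5) (nat_lit 56) (nat_lit 5) (nat_lit 57) (nat_lit 5) (nat_lit 306) (nat_lit 280) (nat_lit 194)) (XT.lf (nat_lit 0) (nat_lit 1410992197) (nat_lit 304) (nat_lit 10189437715) (nat_lit 76) (nat_lit 11497058156) (nat_lit 52) (nat_lit 5) (nat_lit 56) (nat_lit 5) (nat_lit 53) (nat_lit 5) (nat_lit 307) (nat_lit 280) (nat_lit 193))))))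 (XT.nd (nat_lit 390) (nat_lit 608) (nat_lit 0) (XT.nd (nat_lit 156) (nat_lit 380) (nat_lit 0) (XT.nd (nat_lit 78) (nat_lit 0) (nat_lit 0) (XT.lf (nat_lit 0) (nat_lit 1517891360) (nat_lit 228) (nat_lit 3627362610) (nat_lit 304) (nat_lit 18678938617) (nat_lit 49) (nat_lit 5) (nat_lit 52) (nat_lit 5) (nat_lit 53) (nat_lit 5) (nat_lit 308) (nat_lit 280) (nat_lit 192)) (XT.lf (nat_lit 0) (nat_lit 9304033421) (nat_lit 304) (nat_lit 10507426691) (nat_lit 76) (nat_lit 4763895759) (nat_lit 49) (nat_lit 5) (nat_lit 53) (nat_lit 5) (nat_lit 50) (nat_lit 5) (nat_lit 309) (nat_lit 280) (nat_lit 191))) (XT.nd (nat_lit 78) (nat_lit 152) (nat_lit 0) (XT.lf (nat_lit 0) (nat_lit 1866167983) (nat_lit 228) (nat_lit 11882080080) (nat_lit 304) (nat_lit 11611967557) (nat_lit 46) (nat_lit 5) (nat_lit 49) (nat_lit 5) (nat_lit 50) (nat_lit 5) (nat_lit 310) (nat_lit 280) (nat_lit 190)) (XT.nd (nat_lit 78) (nat_lit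 152) (nat_lit 0) (XT.lf (nat_lit 0) (nat_lit 15207998663) (nat_lit 228) (nat_lit 3373809173) (nat_lit 304) (nat_lit 7594166288) (nat_lit 46) (nat_lit 5) (nat_lit 49) (nat_lit 5) (nat_lit 50) (nat_lit 5) (nat_lit 311) (nat_lit 280) (nat_lit 189)) (XT.lf (nat_lit 0) (nat_lit 2151482659) (nat_lit 152) (nat_lit 21615594061) (nat_lit 228) (nat_lit 3259954172) (nat_lit 44) (nat_lit 5) (nat_lit 46) (nat_lit 5) (nat_lit 47) (nat_lit 5) (nat_lit 312) (nat_lit 280) (nat_lit 188))))) (XT.nd (nat_lit 234) (nat_lit 304) (nat_lit 0) (XT.nd (nat_lit 78) (nat_lit 228) (nat_lit 0) (XT.lf (nat_lit 0) (nat_lit 1483473071) (nat_lit 228) (nat_lit 11697247525) (nat_lit 76) (nat_lit 14727231729) (nat_lit 43) (nat_lit 5) (nat_lit 46) (nat_lit 5) (nat_lit 44) (nat_lit 5) (nat_lit 313) (nat_lit 280) (nat_lit 187)) (XT.nd (nat_lit 78) (nat_lit 0) (nat_lit 0) (XT.lf (nat_lit 0) (nat_lit 2140677175) (nat_lit 228)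 (nat_lit 4237472266) (nat_lit 304) (nat_lit 22450926889) (nat_lit 40) (nat_lit 5) (nat_lit 43) (nat_lit 5) (nat_lit 44) (nat_lit 5) (nat_lit 314) (nat_lit 280) (nat_lit 186)) (XT.lf (nat_lit 0) (nat_lit 11789742941) (nat_lit 304) (nat_lit 12807998607) (nat_lit 76) (nat_lit 5184915606) (nat_lit 40) (nat_lit 5) (nat_lit 44) (nat_lit 5) (nat_lit 41) (nat_lit 5) (nat_lit 315) (nat_lit 280) (nat_lit 185)))) (XT.nd (nat_lit 78) (nat_lit 152) (nat_lit 0) (XT.lf (nat_lit 0) (nat_lit 1738751052) (nat_lit 152) (nat_lit 15820621872) (nat_lit 228) (nat_lit 13220180572) (nat_lit 38) (nat_lit 5) (nat_lit 40) (nat_lit 5) (nat_lit 41) (nat_lit 5) (nat_lit 316) (nat_lit 280) (nat_lit 184)) (XT.nd (nat_lit 78) (nat_lit 152) (nat_lit 0) (XT.lf (nat_lit 0) (nat_lit 17443871404) (nat_lit 152) (nat_lit 6381589139) (nat_lit 228) (nat_lit 7990444183) (nat_lit 38) (nat_lit 5) (nat_lit 40) (nat_lit 5) (nat_lit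 41) (nat_lit 5) (nat_lit 317) (nat_lit 280) (nat_lit 183)) (XT.lf (nat_lit 0) (nat_lit 993522986) (nat_lit 152) (nat_lit 29473367014) (nat_lit 228) (nat_lit 2434090096) (nat_lit 36) (nat_lit 5) (nat_lit 38) (nat_lit 5) (nat_lit 39) (nat_lit 5) (nat_lit 318) (nat_lit 280) (nat_lit 182))))))))
noncomputable def xc164 : XT := (XT.nd (nat_lit 1560) (nat_lit 684) (nat_lit 0) (XT.nd (nat_lit 780) (nat_lit 608) (nat_lit 0) (XT.nd (nat_lit 390) (nat_lit 380) (nat_lit 0) (XT.nd (nat_lit 156) (nat_lit 304) (nat_lit 0) (XT.nd (nat_lit 78) (nat_lit 0) (nat_lit 0) (XT.lf (nat_lit 0) (nat_lit 3634741932) (nat_lit 228) (nat_lit 16576929409) (nat_lit 76) (nat_lit 13808817114) (nat_lit 35) (nat_lit 5) (nat_lit 38) (nat_lit 5) (nat_lit 36) (nat_lit 5) (nat_lit 319) (nat_lit 280) (nat_lit 181)) (XT.lf (nat_lit 0) (nat_lit 9917100278) (nat_lit 228) (nat_lit 532559923) (nat_lit 76) (nat_lit 24744729873)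 (nat_lit 35) (nat_lit 5) (nat_lit 38) (nat_lit 5) (nat_lit 36) (nat_lit 5) (nat_lit 320) (nat_lit 280) (nat_lit 180))) (XT.nd (nat_lit 78) (nat_lit 152) (nat_lit 0) (XT.lf (nat_lit 0) (nat_lit 16769907636) (nat_lit 228) (nat_lit 19574490760) (nat_lit 76) (nat_lit 69778777) (nat_lit 33) (nat_lit 5) (nat_lit 36) (nat_lit 5) (nat_lit 34) (nat_lit 5) (nat_lit 321) (nat_lit 280) (nat_lit 179)) (XT.nd (nat_lit 78) (nat_lit 152) (nat_lit 0) (XT.lf (nat_lit 0) (nat_lit 24138212588) (nat_lit 228) (nat_lit 2779213373) (nat_lit 76) (nat_lit 10768891427) (nat_lit 33) (nat_lit 5) (nat_lit 36) (nat_lit 5) (nat_lit 34) (nat_lit 5) (nat_lit 322) (nat_lit 280) (nat_lit 178)) (XT.lf (nat_lit 0) (nat_lit 15334935600) (nat_lit 152) (nat_lit 16772165467) (nat_lit 228) (nat_lit 6903361440) (nat_lit 31) (nat_lit 5) (nat_lit 33) (nat_lit 5) (nat_lit 34) (nat_lit 5) (nat_lit 323) (nat_lit 280) (nat_lit 177)))))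 (XT.nd (nat_lit 156) (nat_lit 152) (nat_lit 0) (XT.nd (nat_lit 78) (nat_lit 152) (nat_lit 0) (XT.lf (nat_lit 0) (nat_lit 111892260) (nat_lit 228) (nat_lit 5960863759) (nat_lit 76) (nat_lit 34325975642) (nat_lit 30) (nat_lit 5) (nat_lit 33) (nat_lit 5) (nat_lit 31) (nat_lit 5) (nat_lit 324) (nat_lit 280) (nat_lit 176)) (XT.lf (nat_lit 0) (nat_lit 7526585822) (nat_lit 228) (nat_lit 28997726555) (nat_lit 76) (nat_lit 5312415081) (nat_lit 28) (nat_lit 5) (nat_lit 31) (nat_lit 5) (nat_lit 29) (nat_lit 5) (nat_lit 325) (nat_lit 280) (nat_lit 175))) (XT.nd (nat_lit 78) (nat_lit 152) (nat_lit 0) (XT.lf (nat_lit 0) (nat_lit 15507393923) (nat_lit 228) (nat_lit 10668271336) (nat_lit 76) (nat_lit 17161193982) (nat_lit 28) (nat_lit 5) (nat_lit 31) (nat_lit 5) (nat_lit 29) (nat_lit 5) (nat_lit 326) (nat_lit 280) (nat_lit 174)) (XT.nd (nat_lit 78) (nat_lit 0) (nat_lit 0) (XT.lf (nat_lit 0) (nat_lit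 8850160842) (nat_lit 152) (nat_lit 15168801638) (nat_lit 228) (nat_lit 20886454073) (nat_lit 26) (nat_lit 5) (nat_lit 28) (nat_lit 5) (nat_lit 29) (nat_lit 5) (nat_lit 327) (nat_lit 280) (nat_lit 173)) (XT.lf (nat_lit 0) (nat_lit 29704310191) (nat_lit 152) (nat_lit 3426158042) (nat_lit 228) (nat_lit 13413220266) (nat_lit 26) (nat_lit 5) (nat_lit 28) (nat_lit 5) (nat_lit 29) (nat_lit 5) (nat_lit 328) (nat_lit 280) (nat_lit 172)))))) (XT.nd (nat_lit 390) (nat_lit 304) (nat_lit 0) (XT.nd (nat_lit 156) (nat_lit 152) (nat_lit 0) (XT.nd (nat_lit 78) (nat_lit 76) (nat_lit 0) (XT.lf (nat_lit 0) (nat_lit 3293370523) (nat_lit 76) (nat_lit 39588531515) (nat_lit 152) (nat_lit 5372758848) (nat_lit 25) (nat_lit 5) (nat_lit 26) (nat_lit 5) (nat_lit 27) (nat_lit 4) (nat_lit 329) (nat_lit 280) (nat_lit 171)) (XT.lf (nat_lit 0) (nat_lit 3311452741) (nat_lit 152) (nat_lit 25138667426) (nat_lit 76) (nat_lit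 21581670566) (nat_lit 24) (nat_lit 5) (nat_lit 26) (nat_lit 5) (nat_lit 25) (nat_lit 5) (nat_lit 330) (nat_lit 280) (nat_lit 170))) (XT.nd (nat_lit 78) (nat_lit 152) (nat_lit 0) (XT.lf (nat_lit 0) (nat_lit 12243555759) (nat_lit 152) (nat_lit 4422856112) (nat_lit 76) (nat_lit 35227253133) (nat_lit 24) (nat_lit 5) (nat_lit 26) (nat_lit 5) (nat_lit 25) (nat_lit 5) (nat_lit 331) (nat_lit 280) (nat_lit 169)) (XT.nd (nat_lit 78) (nat_lit 0) (nat_lit 0) (XT.lf (nat_lit 0) (nat_lit 17892006714) (nat_lit 152) (nat_lit 4004116607) (nat_lit 228) (nat_lit 31938820387) (nat_lit 22) (nat_lit 5) (nat_lit 24) (nat_lit 5) (nat_lit 25) (nat_lit 5) (nat_lit 332) (nat_lit 280) (nat_lit 168)) (XT.lf (nat_lit 0) (nat_lit 32247084913) (nat_lit 228) (nat_lit 14549122863) (nat_lit 76) (nat_lit 9066293799) (nat_lit 22) (nat_lit 5) (nat_lit 25) (nat_lit 5) (nat_lit 23) (nat_lit 4) (nat_lit 333) (nat_lit 280) (nat_lit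 167))))) (XT.nd (nat_lit 156) (nat_lit 228) (nat_lit 0) (XT.nd (nat_lit 78) (nat_lit 0) (nat_lit 0) (XT.lf (nat_lit 0) (nat_lit 8098953144) (nat_lit 76) (nat_lit 35203559951) (nat_lit 152) (nat_lit 14679581662) (nat_lit 21) (nat_lit 5) (nat_lit 22) (nat_lit 5) (nat_lit 23) (nat_lit 4) (nat_lit 334) (nat_lit 280) (nat_lit 166)) (XT.lf (nat_lit 0) (nat_lit 32375686229) (nat_lit 76) (nat_lit 22776360665) (nat_lit 152) (nat_lit 5043557177) (nat_lit 21) (nat_lit 5) (nat_lit 22) (nat_lit 5) (nat_lit 23) (nat_lit 4) (nat_lit 335) (nat_lit 280) (nat_lit 165))) (XT.nd (nat_lit 78) (nat_lit 152) (nat_lit 0) (XT.lf (nat_lit 0) (nat_lit 4906957108) (nat_lit 152) (nat_lit 4741358986) (nat_lit 76) (nat_lit 52867759627) (nat_lit 20) (nat_lit 5) (nat_lit 22) (nat_lit 5) (nat_lit 21) (nat_lit 5) (nat_lit 336) (nat_lit 280) (nat_lit 164)) (XT.nd (nat_lit 78) (nat_lit 0) (nat_lit 0) (XT.lf (nat_lit 0)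 (nat_lit 15564744816) (nat_lit 228) (nat_lit 44962320757) (nat_lit 76) (nat_lit 4402411853) (nat_lit 18) (nat_lit 5) (nat_lit 21) (nat_lit 5) (nat_lit 19) (nat_lit 4) (nat_lit 337) (nat_lit 280) (nat_lit 163)) (XT.lf (nat_lit 0) (nat_lit 26990576986) (nat_lit 228) (nat_lit 21551550023) (nat_lit 76) (nat_lit 18909667075) (nat_lit 18) (nat_lit 5) (nat_lit 21) (nat_lit 5) (nat_lit 19) (nat_lit 4) (nat_lit 338) (nat_lit 280) (nat_lit 162))))))) (XT.nd (nat_lit 780) (nat_lit 304) (nat_lit 0) (XT.nd (nat_lit 390) (nat_lit 152) (nat_lit 0) (XT.nd (nat_lit 156) (nat_lit 152) (nat_lit 0) (XT.nd (nat_lit 78) (nat_lit 0) (nat_lit 0) (XT.lf (nat_lit 0) (nat_lit 3121832049) (nat_lit 76) (nat_lit 35910202028) (nat_lit 152) (nat_lit 31065978327) (nat_lit 17) (nat_lit 5) (nat_lit 18) (nat_lit 5) (nat_lit 19) (nat_lit 4) (nat_lit 339) (nat_lit 280) (nat_lit 161)) (XT.lf (nat_lit 0) (nat_lit 29769385594)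 (nat_lit 76) (nat_lit 22266846480) (nat_lit 152) (nat_lit 20822278542) (nat_lit 17) (nat_lit 5) (nat_lit 18) (nat_lit 5) (nat_lit 19) (nat_lit 4) (nat_lit 340) (nat_lit 280) (nat_lit 160))) (XT.nd (nat_lit 78) (nat_lit 152) (nat_lit 0) (XT.lf (nat_lit 0) (nat_lit 57741965594) (nat_lit 76) (nat_lit 7944562112) (nat_lit 152) (nat_lit 10070713909) (nat_lit 17) (nat_lit 5) (nat_lit 18) (nat_lit 5) (nat_lit 19) (nat_lit 4) (nat_lit 341) (nat_lit 280) (nat_lit 159)) (XT.nd (nat_lit 78) (nat_lit 0) (nat_lit 0) (XT.lf (nat_lit 0) (nat_lit 1422304020) (nat_lit 152) (nat_lit 70346601531) (nat_lit 76) (nat_lit 7018910893) (nat_lit 15) (nat_lit 5) (nat_lit 17) (nat_lit 5) (nat_lit 16) (nat_lit 4) (nat_lit 342) (nat_lit 280) (nat_lit 158)) (XT.lf (nat_lit 0) (nat_lit 13587917212) (nat_lit 152) (nat_lit 45416187281) (nat_lit 76) (nat_lit 22935743473) (nat_lit 15) (nat_lit 5) (nat_lit 17) (nat_lit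 5) (nat_lit 16) (nat_lit 4) (nat_lit 343) (nat_lit 280) (nat_lit 157))))) (XT.nd (nat_lit 156) (nat_lit 76) (nat_lit 0) (XT.nd (nat_lit 78) (nat_lit 76) (nat_lit 0) (XT.lf (nat_lit 0) (nat_lit 26358047877) (nat_lit 152) (nat_lit 19246079222) (nat_lit 76) (nat_lit 39645543987) (nat_lit 15) (nat_lit 5) (nat_lit 17) (nat_lit 5) (nat_lit 16) (nat_lit 4) (nat_lit 344) (nat_lit 280) (nat_lit 156)) (XT.lf (nat_lit 0) (nat_lit 8498022209) (nat_lit 76) (nat_lit 31397756821) (nat_lit 152) (nat_lit 48822753409) (nat_lit 14) (nat_lit 5) (nat_lit 15) (nat_lit 5) (nat_lit 16) (nat_lit 4) (nat_lit 345) (nat_lit 280) (nat_lit 155))) (XT.nd (nat_lit 78) (nat_lit 76) (nat_lit 0) (XT.lf (nat_lit 0) (nat_lit 38291112180) (nat_lit 76) (nat_lit 16141713030) (nat_lit 152) (nat_lit 37911891915) (nat_lit 14) (nat_lit 5) (nat_lit 15) (nat_lit 5) (nat_lit 16) (nat_lit 4) (nat_lit 346) (nat_lit 280) (nat_lit 154))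 (XT.nd (nat_lit 78) (nat_lit 76) (nat_lit 0) (XT.lf (nat_lit 0) (nat_lit 69567764323) (nat_lit 76) (nat_lit 125613476) (nat_lit 152) (nat_lit 26459002150) (nat_lit 14) (nat_lit 5) (nat_lit 15) (nat_lit 5) (nat_lit 16) (nat_lit 4) (nat_lit 347) (nat_lit 280) (nat_lit 153)) (XT.lf (nat_lit 0) (nat_lit 2057144558) (nat_lit 76) (nat_lit 83949301672) (nat_lit 76) (nat_lit 14129506806) (nat_lit 13) (nat_lit 4) (nat_lit 14) (nat_lit 5) (nat_lit 14) (nat_lit 4) (nat_lit 348) (nat_lit 280) (nat_lit 152)))))) (XT.nd (nat_lit 390) (nat_lit 152) (nat_lit 0) (XT.nd (nat_lit 156) (nat_lit 76) (nat_lit 0) (XT.nd (nat_lit 78) (nat_lit 76) (nat_lit 0) (XT.lf (nat_lit 0) (nat_lit 33045996533) (nat_lit 76) (nat_lit 70538256208) (nat_lit 76) (nat_lit 711999263) (nat_lit 13) (nat_lit 4) (nat_lit 14) (nat_lit 5) (nat_lit 14) (nat_lit 4) (nat_lit 349) (nat_lit 280) (nat_lit 151)) (XT.lf (nat_lit 0) (nat_lit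 12945191092) (nat_lit 152) (nat_lit 43294769566) (nat_lit 76) (nat_lit 52414317682) (nat_lit 12) (nat_lit 5) (nat_lit 14) (nat_lit 5) (nat_lit 13) (nat_lit 4) (nat_lit 350) (nat_lit 280) (nat_lit 150))) (XT.nd (nat_lit 78) (nat_lit 76) (nat_lit 0) (XT.lf (nat_lit 0) (nat_lit 27258394312) (nat_lit 152) (nat_lit 13958564261) (nat_lit 76) (nat_lit 72012811014) (nat_lit 12) (nat_lit 5) (nat_lit 14) (nat_lit 5) (nat_lit 13) (nat_lit 4) (nat_lit 351) (nat_lit 280) (nat_lit 149)) (XT.nd (nat_lit 78) (nat_lit 0) (nat_lit 0) (XT.lf (nat_lit 0) (nat_lit 17396108983) (nat_lit 76) (nat_lit 25159970905) (nat_lit 152) (nat_lit 75464515600) (nat_lit 11) (nat_lit 5) (nat_lit 12) (nat_lit 5) (nat_lit 13) (nat_lit 4) (nat_lit 352) (nat_lit 280) (nat_lit 148)) (XT.lf (nat_lit 0) (nat_lit 50798081953) (nat_lit 76) (nat_lit 8054236637) (nat_lit 152) (nat_lit 64186961796) (nat_lit 11) (nat_lit 5) (nat_lit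 12) (nat_lit 5) (nat_lit 13) (nat_lit 4) (nat_lit 353) (nat_lit 280) (nat_lit 147))))) (XT.nd (nat_lit 234) (nat_lit 76) (nat_lit 0) (XT.nd (nat_lit 78) (nat_lit 76) (nat_lit 0) (XT.lf (nat_lit 0) (nat_lit 76115411058) (nat_lit 152) (nat_lit 42598318661) (nat_lit 0) (nat_lit 9587568805) (nat_lit 11) (nat_lit 5) (nat_lit 13) (nat_lit 4) (nat_lit 11) (nat_lit 4) (nat_lit 354) (nat_lit 280) (nat_lit 146)) (XT.nd (nat_lit 78) (nat_lit 76) (nat_lit 0) (XT.lf (nat_lit 0) (nat_lit 94371189258) (nat_lit 152) (nat_lit 11609998268) (nat_lit 0) (nat_lit 27838754526) (nat_lit 11) (nat_lit 5) (nat_lit 13) (nat_lit 4) (nat_lit 11) (nat_lit 4) (nat_lit 355) (nat_lit 280) (nat_lit 145)) (XT.lf (nat_lit 0) (nat_lit 21615112246) (nat_lit 76) (nat_lit 92259730355) (nat_lit 76) (nat_lit 25722921833) (nat_lit 10) (nat_lit 4) (nat_lit 11) (nat_lit 5) (nat_lit 11) (nat_lit 4) (nat_lit 356) (nat_lit 280) (nat_lit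 144)))) (XT.nd (nat_lit 78) (nat_lit 76) (nat_lit 0) (XT.lf (nat_lit 0) (nat_lit 56900178419) (nat_lit 76) (nat_lit 77647780244) (nat_lit 76) (nat_lit 11106806208) (nat_lit 10) (nat_lit 4) (nat_lit 11) (nat_lit 5) (nat_lit 11) (nat_lit 4) (nat_lit 357) (nat_lit 280) (nat_lit 143)) (XT.nd (nat_lit 78) (nat_lit 0) (nat_lit 0) (XT.lf (nat_lit 0) (nat_lit 4102138199) (nat_lit 152) (nat_lit 58135557882) (nat_lit 76) (nat_lit 89773723440) (nat_lit 9) (nat_lit 5) (nat_lit 11) (nat_lit 5) (nat_lit 10) (nat_lit 4) (nat_lit 358) (nat_lit 280) (nat_lit 142)) (XT.lf (nat_lit 0) (nat_lit 19696109422) (nat_lit 152) (nat_lit 26171695119) (nat_lit 76) (nat_lit 112809107180) (nat_lit 9) (nat_lit 5) (nat_lit 11) (nat_lit 5) (nat_lit 10) (nat_lit 4) (nat_lit 359) (nat_lit 280) (nat_lit 141))))))))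
noncomputable def xc165 : XT := (XT.nd (nat_lit 1638) (nat_lit 0) (nat_lit 0) (XT.nd (nat_lit 780) (nat_lit 228) (nat_lit 0) (XT.nd (nat_lit 390) (nat_lit 76) (nat_lit 0) (XT.nd (nat_lit 156) (nat_lit 0) (nat_lit 0) (XT.nd (nat_lit 78) (nat_lit 0) (nat_lit 0) (XT.lf (nat_lit 0) (nat_lit 7630746173) (nat_lit 76) (nat_lit 28556114283) (nat_lit 152) (nat_lit 129482964788) (nat_lit 8) (nat_lit 5) (nat_lit 9) (nat_lit 5) (nat_lit 10) (nat_lit 4) (nat_lit 360) (nat_lit 280) (nat_lit 140)) (XT.lf (nat_lit 0) (nat_lit 44028147582) (nat_lit 76) (nat_lit 9915214527) (nat_lit 152) (nat_lit 119046962416) (nat_lit 8) (nat_lit 5) (nat_lit 9) (nat_lit 5) (nat_lit 10) (nat_lit 4) (nat_lit 361) (nat_lit 280) (nat_lit 139))) (XT.nd (nat_lit 78) (nat_lit 0) (nat_lit 0) (XT.lf (nat_lit 0) (nat_lit 72736525613) (nat_lit 152) (nat_lit 98585888343) (nat_lit 0) (nat_lit 9346993678) (nat_lit 8) (nat_lit 5) (nat_lit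 10) (nat_lit 4) (nat_lit 8) (nat_lit 4) (nat_lit 362) (nat_lit 280) (nat_lit 138)) (XT.nd (nat_lit 78) (nat_lit 0) (nat_lit 0) (XT.lf (nat_lit 0) (nat_lit 92630037062) (nat_lit 152) (nat_lit 66856829242) (nat_lit 0) (nat_lit 29237544775) (nat_lit 8) (nat_lit 5) (nat_lit 10) (nat_lit 4) (nat_lit 8) (nat_lit 4) (nat_lit 363) (nat_lit 280) (nat_lit 137)) (XT.lf (nat_lit 0) (nat_lit 113516457675) (nat_lit 152) (nat_lit 33544649974) (nat_lit 0) (nat_lit 50121146004) (nat_lit 8) (nat_lit 5) (nat_lit 10) (nat_lit 4) (nat_lit 8) (nat_lit 4) (nat_lit 364) (nat_lit 280) (nat_lit 136))))) (XT.nd (nat_lit 156) (nat_lit 0) (nat_lit 0) (XT.nd (nat_lit 78) (nat_lit 0) (nat_lit 0) (XT.lf (nat_lit 0) (nat_lit 1477245244) (nat_lit 76) (nat_lit 133991335717) (nat_lit 76) (nat_lit 70593338918) (nat_lit 7) (nat_lit 4) (nat_lit 8) (nat_lit 5) (nat_lit 8) (nat_lit 4) (nat_lit 365) (nat_lit 280) (nat_lit 135))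 (XT.lf (nat_lit 0) (nat_lit 39411706837) (nat_lit 76) (nat_lit 119673047513) (nat_lit 76) (nat_lit 56272493450) (nat_lit 7) (nat_lit 4) (nat_lit 8) (nat_lit 5) (nat_lit 8) (nat_lit 4) (nat_lit 366) (nat_lit 280) (nat_lit 134))) (XT.nd (nat_lit 78) (nat_lit 0) (nat_lit 0) (XT.lf (nat_lit 0) (nat_lit 79239917328) (nat_lit 76) (nat_lit 104640246753) (nat_lit 76) (nat_lit 41237257200) (nat_lit 7) (nat_lit 4) (nat_lit 8) (nat_lit 5) (nat_lit 8) (nat_lit 4) (nat_lit 367) (nat_lit 280) (nat_lit 133)) (XT.nd (nat_lit 78) (nat_lit 0) (nat_lit 0) (XT.lf (nat_lit 0) (nat_lit 121056705790) (nat_lit 76) (nat_lit 88857141054) (nat_lit 76) (nat_lit 25451831988) (nat_lit 7) (nat_lit 4) (nat_lit 8) (nat_lit 5) (nat_lit 8) (nat_lit 4) (nat_lit 368) (nat_lit 280) (nat_lit 132)) (XT.lf (nat_lit 0) (nat_lit 164961636006) (nat_lit 76) (nat_lit 72286151595) (nat_lit 76) (nat_lit 8878633467) (nat_lit 7) (nat_lit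 4) (nat_lit 8) (nat_lit 5) (nat_lit 8) (nat_lit 4) (nat_lit 369) (nat_lit 280) (nat_lit 131)))))) (XT.nd (nat_lit 390) (nat_lit 76) (nat_lit 0) (XT.nd (nat_lit 156) (nat_lit 76) (nat_lit 0) (XT.nd (nat_lit 78) (nat_lit 0) (nat_lit 0) (XT.lf (nat_lit 0) (nat_lit 8249047591) (nat_lit 152) (nat_lit 46499074433) (nat_lit 76) (nat_lit 202670494321) (nat_lit 6) (nat_lit 5) (nat_lit 8) (nat_lit 5) (nat_lit 7) (nat_lit 4) (nat_lit 370) (nat_lit 280) (nat_lit 130)) (XT.lf (nat_lit 0) (nat_lit 25933417196) (nat_lit 152) (nat_lit 10248120424) (nat_lit 76) (nat_lit 233086672387) (nat_lit 6) (nat_lit 5) (nat_lit 8) (nat_lit 5) (nat_lit 7) (nat_lit 4) (nat_lit 371) (nat_lit 280) (nat_lit 129))) (XT.nd (nat_lit 78) (nat_lit 0) (nat_lit 0) (XT.lf (nat_lit 0) (nat_lit 28732632798) (nat_lit 76) (nat_lit 16216716834) (nat_lit 152) (nat_lit 236738566915) (nat_lit 5) (nat_lit 5) (nat_lit 6) (nat_lit 5) (nat_lit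 7) (nat_lit 4) (nat_lit 372) (nat_lit 280) (nat_lit 128)) (XT.nd (nat_lit 78) (nat_lit 0) (nat_lit 0) (XT.lf (nat_lit 0) (nat_lit 65165337900) (nat_lit 152) (nat_lit 224781042756) (nat_lit 0) (nat_lit 4769765187) (nat_lit 5) (nat_lit 5) (nat_lit 7) (nat_lit 4) (nat_lit 5) (nat_lit 4) (nat_lit 373) (nat_lit 280) (nat_lit 127)) (XT.lf (nat_lit 0) (nat_lit 86656786150) (nat_lit 152) (nat_lit 195466202795) (nat_lit 0) (nat_lit 26259565002) (nat_lit 5) (nat_lit 5) (nat_lit 7) (nat_lit 4) (nat_lit 5) (nat_lit 4) (nat_lit 374) (nat_lit 280) (nat_lit 126))))) (XT.nd (nat_lit 234) (nat_lit 76) (nat_lit 0) (XT.nd (nat_lit 78) (nat_lit 0) (nat_lit 0) (XT.lf (nat_lit 0) (nat_lit 109221676102) (nat_lit 152) (nat_lit 164687778230) (nat_lit 0) (nat_lit 48822885016) (nat_lit 5) (nat_lit 5) (nat_lit 7) (nat_lit 4) (nat_lit 5) (nat_lit 4) (nat_lit 375) (nat_lit 280) (nat_lit 125)) (XT.nd (nat_lit 78)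 (nat_lit 0) (nat_lit 0) (XT.lf (nat_lit 0) (nat_lit 132913733683) (nat_lit 152) (nat_lit 132372487099) (nat_lit 0) (nat_lit 72513447417) (nat_lit 5) (nat_lit 5) (nat_lit 7) (nat_lit 4) (nat_lit 5) (nat_lit 4) (nat_lit 376) (nat_lit 280) (nat_lit 124)) (XT.lf (nat_lit 0) (nat_lit 157789368555) (nat_lit 152) (nat_lit 98443388232) (nat_lit 0) (nat_lit 97387658308) (nat_lit 5) (nat_lit 5) (nat_lit 7) (nat_lit 4) (nat_lit 5) (nat_lit 4) (nat_lit 377) (nat_lit 280) (nat_lit 123)))) (XT.nd (nat_lit 78) (nat_lit 76) (nat_lit 0) (XT.lf (nat_lit 0) (nat_lit 183907808418) (nat_lit 152) (nat_lit 62819698060) (nat_lit 0) (nat_lit 123504742000) (nat_lit 5) (nat_lit 5) (nat_lit 7) (nat_lit 4) (nat_lit 5) (nat_lit 4) (nat_lit 378) (nat_lit 280) (nat_lit 122)) (XT.nd (nat_lit 78) (nat_lit 76) (nat_lit 0) (XT.lf (nat_lit 0) (nat_lit 211331240036) (nat_lit 152) (nat_lit 25416598273) (nat_lit 0) (nat_lit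 150926882026) (nat_lit 5) (nat_lit 5) (nat_lit 7) (nat_lit 4) (nat_lit 5) (nat_lit 4) (nat_lit 379) (nat_lit 280) (nat_lit 121)) (XT.lf (nat_lit 0) (nat_lit 14313073878) (nat_lit 76) (nat_lit 226035350610) (nat_lit 76) (nat_lit 165629762512) (nat_lit 4) (nat_lit 4) (nat_lit 5) (nat_lit 5) (nat_lit 5) (nat_lit 4) (nat_lit 380) (nat_lit 280) (nat_lit 120))))))) (XT.nd (nat_lit 33150) (nat_lit 0) (nat_lit 5852) (XT.nd (nat_lit 390) (nat_lit 0) (nat_lit 0) (XT.nd (nat_lit 156) (nat_lit 0) (nat_lit 0) (XT.nd (nat_lit 78) (nat_lit 0) (nat_lit 0) (XT.lf (nat_lit 0) (nat_lit 56909973426) (nat_lit 76) (nat_lit 214336067406) (nat_lit 76) (nat_lit 153929307796) (nat_lit 4) (nat_lit 4) (nat_lit 5) (nat_lit 5) (nat_lit 5) (nat_lit 4) (nat_lit 381) (nat_lit 280) (nat_lit 119)) (XT.lf (nat_lit 0) (nat_lit 101635134036) (nat_lit 76) (nat_lit 202052575653) (nat_lit 76) (nat_lit 141644700316) (nat_lit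 4) (nat_lit 4) (nat_lit 5) (nat_lit 5) (nat_lit 5) (nat_lit 4) (nat_lit 382) (nat_lit 280) (nat_lit 118))) (XT.nd (nat_lit 78) (nat_lit 0) (nat_lit 0) (XT.lf (nat_lit 0) (nat_lit 148595044186) (nat_lit 76) (nat_lit 189155628940) (nat_lit 76) (nat_lit 128746691008) (nat_lit 4) (nat_lit 4) (nat_lit 5) (nat_lit 5) (nat_lit 5) (nat_lit 4) (nat_lit 383) (nat_lit 280) (nat_lit 117)) (XT.nd (nat_lit 78) (nat_lit 0) (nat_lit 0) (XT.lf (nat_lit 0) (nat_lit 197901513186) (nat_lit 76) (nat_lit 175614520253) (nat_lit 76) (nat_lit 115204570325) (nat_lit 4) (nat_lit 4) (nat_lit 5) (nat_lit 5) (nat_lit 5) (nat_lit 4) (nat_lit 384) (nat_lit 280) (nat_lit 116)) (XT.lf (nat_lit 0) (nat_lit 249671937390) (nat_lit 76) (nat_lit 161397008856) (nat_lit 76) (nat_lit 100986095122) (nat_lit 4) (nat_lit 4) (nat_lit 5) (nat_lit 5) (nat_lit 5) (nat_lit 4) (nat_lit 385) (nat_lit 280) (nat_lit 115))))) (XT.nd (nat_lit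 32526) (nat_lit 0) (nat_lit 6840) (XT.nd (nat_lit 32448) (nat_lit 0) (nat_lit 6840) (XT.lf (nat_lit 0) (nat_lit 304029579713) (nat_lit 76) (nat_lit 146469243532) (nat_lit 76) (nat_lit 86057411887) (nat_lit 4) (nat_lit 4) (nat_lit 5) (nat_lit 5) (nat_lit 5) (nat_lit 4) (nat_lit 386) (nat_lit 280) (nat_lit 114)) (XT.lf (nat_lit 0) (nat_lit 951994545) (nat_lit 0) (nat_lit 951994545) (nat_lit 684) (nat_lit 3955186407) (nat_lit 94) (nat_lit 5) (nat_lit 94) (nat_lit 3) (nat_lit 103) (nat_lit 3) (nat_lit 281) (nat_lit 281) (nat_lit 218))) (XT.nd (nat_lit 78) (nat_lit 0) (nat_lit 0) (XT.lf (nat_lit 0) (nat_lit 4427514624) (nat_lit 684) (nat_lit 4475767262) (nat_lit 760) (nat_lit 3080967880) (nat_lit 94) (nat_lit 5) (nat_lit 103) (nat_lit 3) (nat_lit 104) (nat_lit 5) (nat_lit 282) (nat_lit 281) (nat_lit 217)) (XT.nd (nat_lit 78) (nat_lit 0) (nat_lit 76) (XT.lf (nat_lit 76) (nat_lit 1117302966)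 (nat_lit 0) (nat_lit 3979236130) (nat_lit 760) (nat_lit 7166032791) (nat_lit 95) (nat_lit 5) (nat_lit 94) (nat_lit 5) (nat_lit 104) (nat_lit 5) (nat_lit 283) (nat_lit 281) (nat_lit 216)) (XT.lf (nat_lit 0) (nat_lit 5865871283) (nat_lit 684) (nat_lit 5443861361) (nat_lit 760) (nat_lit 1241786049) (nat_lit 95) (nat_lit 5) (nat_lit 104) (nat_lit 5) (nat_lit 105) (nat_lit 5) (nat_lit 284) (nat_lit 281) (nat_lit 215)))))) (XT.nd (nat_lit 390) (nat_lit 1064) (nat_lit 0) (XT.nd (nat_lit 156) (nat_lit 0) (nat_lit 76) (XT.nd (nat_lit 78) (nat_lit 0) (nat_lit 0) (XT.lf (nat_lit 76) (nat_lit 475045915) (nat_lit 0) (nat_lit 6243864396) (nat_lit 760) (nat_lit 6133789470) (nat_lit 96) (nat_lit 5) (nat_lit 95) (nat_lit 5) (nat_lit 105) (nat_lit 5) (nat_lit 285) (nat_lit 281) (nat_lit 214)) (XT.lf (nat_lit 76) (nat_lit 6861638342) (nat_lit 0) (nat_lit 818783210) (nat_lit 760) (nat_lit 5485273983) (nat_lit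 96) (nat_lit 5) (nat_lit 95) (nat_lit 5) (nat_lit 105) (nat_lit 5) (nat_lit 286) (nat_lit 281) (nat_lit 213))) (XT.nd (nat_lit 78) (nat_lit 0) (nat_lit 0) (XT.lf (nat_lit 0) (nat_lit 8741177899) (nat_lit 684) (nat_lit 20805738) (nat_lit 760) (nat_lit 4729843365) (nat_lit 96) (nat_lit 5) (nat_lit 105) (nat_lit 5) (nat_lit 106) (nat_lit 5) (nat_lit 287) (nat_lit 281) (nat_lit 212)) (XT.nd (nat_lit 78) (nat_lit 0) (nat_lit 76) (XT.lf (nat_lit 76) (nat_lit 6762609646) (nat_lit 0) (nat_lit 3187575320) (nat_lit 760) (nat_lit 3879361720) (nat_lit 97) (nat_lit 5) (nat_lit 96) (nat_lit 5) (nat_lit 106) (nat_lit 5) (nat_lit 288) (nat_lit 281) (nat_lit 211)) (XT.lf (nat_lit 0) (nat_lit 11238792149) (nat_lit 684) (nat_lit 357869062) (nat_lit 760) (nat_lit 2586573930) (nat_lit 97) (nat_lit 5) (nat_lit 106) (nat_lit 5) (nat_lit 107) (nat_lit 5) (nat_lit 289) (nat_lit 281) (nat_lit 210))))) (XT.nd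 (nat_lit 234) (nat_lit 532) (nat_lit 0) (XT.nd (nat_lit 78) (nat_lit 684) (nat_lit 0) (XT.lf (nat_lit 76) (nat_lit 6836020995) (nat_lit 0) (nat_lit 5893055256) (nat_lit 760) (nat_lit 1818707798) (nat_lit 98) (nat_lit 5) (nat_lit 97) (nat_lit 5) (nat_lit 107) (nat_lit 5) (nat_lit 290) (nat_lit 281) (nat_lit 209)) (XT.nd (nat_lit 78) (nat_lit 760) (nat_lit 0) (XT.lf (nat_lit 0) (nat_lit 14280625979) (nat_lit 684) (nat_lit 547864237) (nat_lit 76) (nat_lit 102769145) (nat_lit 98) (nat_lit 5) (nat_lit 107) (nat_lit 5) (nat_lit 99) (nat_lit 5) (nat_lit 291) (nat_lit 281) (nat_lit 208)) (XT.lf (nat_lit 0) (nat_lit 747803624) (nat_lit 760) (nat_lit 8249361519) (nat_lit 76) (nat_lit 6326807428) (nat_lit 88) (nat_lit 5) (nat_lit 98) (nat_lit 5) (nat_lit 89) (nat_lit 5) (nat_lit 292) (nat_lit 281) (nat_lit 207)))) (XT.nd (nat_lit 78) (nat_lit 532) (nat_lit 0) (XT.lf (nat_lit 0) (nat_lit 2184156343)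 (nat_lit 760) (nat_lit 667030203) (nat_lit 76) (nat_lit 12885140175) (nat_lit 88) (nat_lit 5) (nat_lit 98) (nat_lit 5) (nat_lit 89) (nat_lit 5) (nat_lit 293) (nat_lit 281) (nat_lit 206)) (XT.nd (nat_lit 78) (nat_lit 0) (nat_lit 0) (XT.lf (nat_lit 0) (nat_lit 3849261939) (nat_lit 608) (nat_lit 8704281526) (nat_lit 76) (nat_lit 3607938406) (nat_lit 81) (nat_lit 5) (nat_lit 89) (nat_lit 5) (nat_lit 82) (nat_lit 5) (nat_lit 294) (nat_lit 281) (nat_lit 205)) (XT.lf (nat_lit 0) (nat_lit 5637860375) (nat_lit 608) (nat_lit 660886324) (nat_lit 76) (nat_lit 10307164823) (nat_lit 81) (nat_lit 5) (nat_lit 89) (nat_lit 5) (nat_lit 82) (nat_lit 5) (nat_lit 295) (nat_lit 281) (nat_lit 204))))))))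
noncomputable def xc166 : XT := (XT.nd (nat_lit 1560) (nat_lit 1444) (nat_lit 0) (XT.nd (nat_lit 780) (nat_lit 1216) (nat_lit 0) (XT.nd (nat_lit 390) (nat_lit 912) (nat_lit 0) (XT.nd (nat_lit 156) (nat_lit 608) (nat_lit 0) (XT.nd (nat_lit 78) (nat_lit 0) (nat_lit 0) (XT.lf (nat_lit 0) (nat_lit 7630310634) (nat_lit 456) (nat_lit 9048514741) (nat_lit 76) (nat_lit 388043447) (nat_lit 76) (nat_lit 5) (nat_lit 82) (nat_lit 5) (nat_lit 77) (nat_lit 5) (nat_lit 296) (nat_lit 281) (nat_lit 203)) (XT.lf (nat_lit 0) (nat_lit 9820453321) (nat_lit 456) (nat_lit 516445864) (nat_lit 76) (nat_lit 7209097268) (nat_lit 76) (nat_lit 5) (nat_lit 82) (nat_lit 5) (nat_lit 77) (nat_lit 5) (nat_lit 297) (nat_lit 281) (nat_lit 202))) (XT.nd (nat_lit 78) (nat_lit 304) (nat_lit 0) (XT.lf (nat_lit 0) (nat_lit 8704450999) (nat_lit 304) (nat_lit 3535777646) (nat_lit 380) (nat_lit 5802870269) (nat_lit 72) (nat_lit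 5) (nat_lit 76) (nat_lit 5) (nat_lit 77) (nat_lit 5) (nat_lit 298) (nat_lit 281) (nat_lit 201)) (XT.nd (nat_lit 78) (nat_lit 304) (nat_lit 0) (XT.lf (nat_lit 0) (nat_lit 14830884122) (nat_lit 380) (nat_lit 233612939) (nat_lit 76) (nat_lit 3498088417) (nat_lit 72) (nat_lit 5) (nat_lit 77) (nat_lit 5) (nat_lit 73) (nat_lit 5) (nat_lit 299) (nat_lit 281) (nat_lit 200)) (XT.lf (nat_lit 0) (nat_lit 9558565420) (nat_lit 304) (nat_lit 8185145890) (nat_lit 380) (nat_lit 1354725539) (nat_lit 68) (nat_lit 5) (nat_lit 72) (nat_lit 5) (nat_lit 73) (nat_lit 5) (nat_lit 300) (nat_lit 281) (nat_lit 199))))) (XT.nd (nat_lit 156) (nat_lit 532) (nat_lit 0) (XT.nd (nat_lit 78) (nat_lit 0) (nat_lit 0) (XT.lf (nat_lit 0) (nat_lit 158456618) (nat_lit 304) (nat_lit 938249012) (nat_lit 380) (nat_lit 18563898270) (nat_lit 63) (nat_lit 5) (nat_lit 67) (nat_lit 5) (nat_lit 68) (nat_lit 5) (nat_lit 301) (nat_lit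 281) (nat_lit 198)) (XT.lf (nat_lit 0) (nat_lit 3879578615) (nat_lit 380) (nat_lit 9715641798) (nat_lit 76) (nat_lit 6641847937) (nat_lit 63) (nat_lit 5) (nat_lit 68) (nat_lit 5) (nat_lit 64) (nat_lit 5) (nat_lit 302) (nat_lit 281) (nat_lit 197))) (XT.nd (nat_lit 78) (nat_lit 228) (nat_lit 0) (XT.lf (nat_lit 0) (nat_lit 546357139) (nat_lit 304) (nat_lit 6265848571) (nat_lit 380) (nat_lit 14029638239) (nat_lit 59) (nat_lit 5) (nat_lit 63) (nat_lit 5) (nat_lit 64) (nat_lit 5) (nat_lit 303) (nat_lit 281) (nat_lit 196)) (XT.nd (nat_lit 78) (nat_lit 228) (nat_lit 0) (XT.lf (nat_lit 0) (nat_lit 10068071302) (nat_lit 380) (nat_lit 9851194186) (nat_lit 76) (nat_lit 1548780056) (nat_lit 59) (nat_lit 5) (nat_lit 64) (nat_lit 5) (nat_lit 60) (nat_lit 5) (nat_lit 304) (nat_lit 281) (nat_lit 195)) (XT.lf (nat_lit 0) (nat_lit 1030037650) (nat_lit 228) (nat_lit 12563154557) (nat_lit 304) (nat_lit 8527058645)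 (nat_lit 56) (nat_lit 5) (nat_lit 59) (nat_lit 5) (nat_lit 60) (nat_lit 5) (nat_lit 305) (nat_lit 281) (nat_lit 194)))))) (XT.nd (nat_lit 390) (nat_lit 684) (nat_lit 0) (XT.nd (nat_lit 156) (nat_lit 304) (nat_lit 0) (XT.nd (nat_lit 78) (nat_lit 228) (nat_lit 0) (XT.lf (nat_lit 0) (nat_lit 12782068460) (nat_lit 228) (nat_lit 4667345952) (nat_lit 304) (nat_lit 5347925688) (nat_lit 56) (nat_lit 5) (nat_lit 59) (nat_lit 5) (nat_lit 60) (nat_lit 5) (nat_lit 306) (nat_lit 281) (nat_lit 193)) (XT.lf (nat_lit 0) (nat_lit 1592741766) (nat_lit 228) (nat_lit 19975674866) (nat_lit 304) (nat_lit 1936383913) (nat_lit 53) (nat_lit 5) (nat_lit 56) (nat_lit 5) (nat_lit 57) (nat_lit 5) (nat_lit 307) (nat_lit 281) (nat_lit 192))) (XT.nd (nat_lit 78) (nat_lit 228) (nat_lit 0) (XT.lf (nat_lit 0) (nat_lit 1830619182) (nat_lit 304) (nat_lit 10230508371) (nat_lit 76) (nat_lit 12173357599) (nat_lit 52) (nat_lit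 5) (nat_lit 56) (nat_lit 5) (nat_lit 53) (nat_lit 5) (nat_lit 308) (nat_lit 281) (nat_lit 191)) (XT.nd (nat_lit 78) (nat_lit 0) (nat_lit 0) (XT.lf (nat_lit 0) (nat_lit 2054632299) (nat_lit 228) (nat_lit 3687534116) (nat_lit 304) (nat_lit 19255850028) (nat_lit 49) (nat_lit 5) (nat_lit 52) (nat_lit 5) (nat_lit 53) (nat_lit 5) (nat_lit 309) (nat_lit 281) (nat_lit 190)) (XT.lf (nat_lit 0) (nat_lit 10094513154) (nat_lit 304) (nat_lit 10579140953) (nat_lit 76) (nat_lit 5113821572) (nat_lit 49) (nat_lit 5) (nat_lit 53) (nat_lit 5) (nat_lit 50) (nat_lit 5) (nat_lit 310) (nat_lit 281) (nat_lit 189))))) (XT.nd (nat_lit 156) (nat_lit 456) (nat_lit 0) (XT.nd (nat_lit 78) (nat_lit 0) (nat_lit 0) (XT.lf (nat_lit 0) (nat_lit 2405816405) (nat_lit 228) (nat_lit 12346601311) (nat_lit 304) (nat_lit 11859605030) (nat_lit 46) (nat_lit 5) (nat_lit 49) (nat_lit 5) (nat_lit 50) (nat_lit 5) (nat_lit 311) (nat_lit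 281) (nat_lit 188)) (XT.lf (nat_lit 0) (nat_lit 16393484332) (nat_lit 228) (nat_lit 3419087467) (nat_lit 304) (nat_lit 7656768980) (nat_lit 46) (nat_lit 5) (nat_lit 49) (nat_lit 5) (nat_lit 50) (nat_lit 5) (nat_lit 312) (nat_lit 281) (nat_lit 187))) (XT.nd (nat_lit 78) (nat_lit 304) (nat_lit 0) (XT.lf (nat_lit 0) (nat_lit 2690573722) (nat_lit 152) (nat_lit 22560737242) (nat_lit 228) (nat_lit 3111945668) (nat_lit 44) (nat_lit 5) (nat_lit 46) (nat_lit 5) (nat_lit 47) (nat_lit 5) (nat_lit 313) (nat_lit 281) (nat_lit 186)) (XT.nd (nat_lit 78) (nat_lit 228) (nat_lit 0) (XT.lf (nat_lit 0) (nat_lit 1844362984) (nat_lit 228) (nat_lit 11861360323) (nat_lit 76) (nat_lit 15582989882) (nat_lit 43) (nat_lit 5) (nat_lit 46) (nat_lit 5) (nat_lit 44) (nat_lit 5) (nat_lit 314) (nat_lit 281) (nat_lit 185)) (XT.lf (nat_lit 0) (nat_lit 2661674328) (nat_lit 228) (nat_lit 4314908816) (nat_lit 304) (nat_lit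 23279684083) (nat_lit 40) (nat_lit 5) (nat_lit 43) (nat_lit 5) (nat_lit 44) (nat_lit 5) (nat_lit 315) (nat_lit 281) (nat_lit 184))))))) (XT.nd (nat_lit 780) (nat_lit 684) (nat_lit 0) (XT.nd (nat_lit 390) (nat_lit 380) (nat_lit 0) (XT.nd (nat_lit 156) (nat_lit 228) (nat_lit 0) (XT.nd (nat_lit 78) (nat_lit 152) (nat_lit 0) (XT.lf (nat_lit 0) (nat_lit 12647444536) (nat_lit 304) (nat_lit 13042563037) (nat_lit 76) (nat_lit 5568098755) (nat_lit 40) (nat_lit 5) (nat_lit 44) (nat_lit 5) (nat_lit 41) (nat_lit 5) (nat_lit 316) (nat_lit 281) (nat_lit 183)) (XT.lf (nat_lit 0) (nat_lit 2224978371) (nat_lit 152) (nat_lit 16474039564) (nat_lit 228) (nat_lit 13606169457) (nat_lit 38) (nat_lit 5) (nat_lit 40) (nat_lit 5) (nat_lit 41) (nat_lit 5) (nat_lit 317) (nat_lit 281) (nat_lit 182))) (XT.nd (nat_lit 78) (nat_lit 228) (nat_lit 0) (XT.lf (nat_lit 0) (nat_lit 18696340941) (nat_lit 152) (nat_lit 6569608212)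 (nat_lit 228) (nat_lit 8128042446) (nat_lit 38) (nat_lit 5) (nat_lit 40) (nat_lit 5) (nat_lit 41) (nat_lit 5) (nat_lit 318) (nat_lit 281) (nat_lit 181)) (XT.nd (nat_lit 78) (nat_lit 76) (nat_lit 0) (XT.lf (nat_lit 0) (nat_lit 1427831791) (nat_lit 152) (nat_lit 30807704859) (nat_lit 228) (nat_lit 2297991550) (nat_lit 36) (nat_lit 5) (nat_lit 38) (nat_lit 5) (nat_lit 39) (nat_lit 5) (nat_lit 319) (nat_lit 281) (nat_lit 180)) (XT.lf (nat_lit 0) (nat_lit 4054147355) (nat_lit 228) (nat_lit 17031386805) (nat_lit 76) (nat_lit 14623881430) (nat_lit 35) (nat_lit 5) (nat_lit 38) (nat_lit 5) (nat_lit 36) (nat_lit 5) (nat_lit 320) (nat_lit 281) (nat_lit 179))))) (XT.nd (nat_lit 156) (nat_lit 228) (nat_lit 0) (XT.nd (nat_lit 78) (nat_lit 152) (nat_lit 0) (XT.lf (nat_lit 0) (nat_lit 10639306080) (nat_lit 228) (nat_lit 202626895) (nat_lit 76) (nat_lit 26100655377) (nat_lit 35) (nat_lit 5) (nat_lit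 38) (nat_lit 5) (nat_lit 36) (nat_lit 5) (nat_lit 321) (nat_lit 281) (nat_lit 178)) (XT.lf (nat_lit 0) (nat_lit 17831478253) (nat_lit 228) (nat_lit 20193184735) (nat_lit 76) (nat_lit 198875295) (nat_lit 33) (nat_lit 5) (nat_lit 36) (nat_lit 5) (nat_lit 34) (nat_lit 5) (nat_lit 322) (nat_lit 281) (nat_lit 177))) (XT.nd (nat_lit 78) (nat_lit 228) (nat_lit 0) (XT.lf (nat_lit 0) (nat_lit 25557575822) (nat_lit 228) (nat_lit 2575287791) (nat_lit 76) (nat_lit 11426962264) (nat_lit 33) (nat_lit 5) (nat_lit 36) (nat_lit 5) (nat_lit 34) (nat_lit 5) (nat_lit 323) (nat_lit 281) (nat_lit 176)) (XT.nd (nat_lit 78) (nat_lit 76) (nat_lit 0) (XT.lf (nat_lit 0) (nat_lit 16439038207) (nat_lit 152) (nat_lit 17481020797) (nat_lit 228) (nat_lit 7030370531) (nat_lit 31) (nat_lit 5) (nat_lit 33) (nat_lit 5) (nat_lit 34) (nat_lit 5) (nat_lit 324) (nat_lit 281) (nat_lit 175)) (XT.lf (nat_lit 0) (nat_lit 318607378)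 (nat_lit 228) (nat_lit 5930806136) (nat_lit 76) (nat_lit 36159039110) (nat_lit 30) (nat_lit 5) (nat_lit 33) (nat_lit 5) (nat_lit 31) (nat_lit 5) (nat_lit 325) (nat_lit 281) (nat_lit 174)))))) (XT.nd (nat_lit 390) (nat_lit 304) (nat_lit 0) (XT.nd (nat_lit 156) (nat_lit 228) (nat_lit 0) (XT.nd (nat_lit 78) (nat_lit 0) (nat_lit 0) (XT.lf (nat_lit 0) (nat_lit 8101469138) (nat_lit 228) (nat_lit 30116793597) (nat_lit 76) (nat_lit 5700221401) (nat_lit 28) (nat_lit 5) (nat_lit 31) (nat_lit 5) (nat_lit 29) (nat_lit 5) (nat_lit 326) (nat_lit 281) (nat_lit 173)) (XT.lf (nat_lit 0) (nat_lit 16471862690) (nat_lit 228) (nat_lit 10886618916) (nat_lit 76) (nat_lit 18135620887) (nat_lit 28) (nat_lit 5) (nat_lit 31) (nat_lit 5) (nat_lit 29) (nat_lit 5) (nat_lit 327) (nat_lit 281) (nat_lit 172))) (XT.nd (nat_lit 78) (nat_lit 76) (nat_lit 0) (XT.lf (nat_lit 0) (nat_lit 9602653161) (nat_lit 152) (nat_lit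 15802191519) (nat_lit 228) (nat_lit 21736458133) (nat_lit 26) (nat_lit 5) (nat_lit 28) (nat_lit 5) (nat_lit 29) (nat_lit 5) (nat_lit 328) (nat_lit 281) (nat_lit 171)) (XT.nd (nat_lit 78) (nat_lit 76) (nat_lit 0) (XT.lf (nat_lit 0) (nat_lit 31484748822) (nat_lit 152) (nat_lit 3478370515) (nat_lit 228) (nat_lit 13898815905) (nat_lit 26) (nat_lit 5) (nat_lit 28) (nat_lit 5) (nat_lit 29) (nat_lit 5) (nat_lit 329) (nat_lit 281) (nat_lit 170)) (XT.lf (nat_lit 0) (nat_lit 3755464611) (nat_lit 76) (nat_lit 41444687704) (nat_lit 152) (nat_lit 5458408810) (nat_lit 25) (nat_lit 5) (nat_lit 26) (nat_lit 5) (nat_lit 27) (nat_lit 4) (nat_lit 330) (nat_lit 281) (nat_lit 169))))) (XT.nd (nat_lit 234) (nat_lit 76) (nat_lit 0) (XT.nd (nat_lit 78) (nat_lit 152) (nat_lit 0) (XT.lf (nat_lit 0) (nat_lit 3645721780) (nat_lit 152) (nat_lit 26106647072) (nat_lit 76) (nat_lit 22772463177) (nat_lit 24) (nat_lit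 5) (nat_lit 26) (nat_lit 5) (nat_lit 25) (nat_lit 5) (nat_lit 331) (nat_lit 281) (nat_lit 168)) (XT.nd (nat_lit 78) (nat_lit 152) (nat_lit 0) (XT.lf (nat_lit 0) (nat_lit 13016396787) (nat_lit 152) (nat_lit 4368804893) (nat_lit 76) (nat_lit 37095005392) (nat_lit 24) (nat_lit 5) (nat_lit 26) (nat_lit 5) (nat_lit 25) (nat_lit 5) (nat_lit 332) (nat_lit 281) (nat_lit 167)) (XT.lf (nat_lit 0) (nat_lit 19057362460) (nat_lit 152) (nat_lit 4090806887) (nat_lit 228) (nat_lit 33370556677) (nat_lit 22) (nat_lit 5) (nat_lit 24) (nat_lit 5) (nat_lit 25) (nat_lit 5) (nat_lit 333) (nat_lit 281) (nat_lit 166)))) (XT.nd (nat_lit 78) (nat_lit 76) (nat_lit 0) (XT.lf (nat_lit 0) (nat_lit 34010879308) (nat_lit 228) (nat_lit 15012819022) (nat_lit 76) (nat_lit 9624258340) (nat_lit 22) (nat_lit 5) (nat_lit 25) (nat_lit 5) (nat_lit 23) (nat_lit 4) (nat_lit 334) (nat_lit 281) (nat_lit 165)) (XT.nd (nat_lit 78)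 (nat_lit 0) (nat_lit 0) (XT.lf (nat_lit 0) (nat_lit 8763406592) (nat_lit 76) (nat_lit 36852512483) (nat_lit 152) (nat_lit 15257773091) (nat_lit 21) (nat_lit 5) (nat_lit 22) (nat_lit 5) (nat_lit 23) (nat_lit 4) (nat_lit 335) (nat_lit 281) (nat_lit 164)) (XT.lf (nat_lit 0) (nat_lit 34241618913) (nat_lit 76) (nat_lit 23809249684) (nat_lit 152) (nat_lit 5147365842) (nat_lit 21) (nat_lit 5) (nat_lit 22) (nat_lit 5) (nat_lit 23) (nat_lit 4) (nat_lit 336) (nat_lit 281) (nat_lit 163))))))))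
noncomputable def xc167 : XT := (XT.nd (nat_lit 1638) (nat_lit 380) (nat_lit 0) (XT.nd (nat_lit 780) (nat_lit 304) (nat_lit 0) (XT.nd (nat_lit 390) (nat_lit 228) (nat_lit 0) (XT.nd (nat_lit 156) (nat_lit 76) (nat_lit 0) (XT.nd (nat_lit 78) (nat_lit 152) (nat_lit 0) (XT.lf (nat_lit 0) (nat_lit 5289086347) (nat_lit 152) (nat_lit 4738444316) (nat_lit 76) (nat_lit 55607429168) (nat_lit 20) (nat_lit 5) (nat_lit 22) (nat_lit 5) (nat_lit 21) (nat_lit 5) (nat_lit 337) (nat_lit 281) (nat_lit 162)) (XT.lf (nat_lit 0) (nat_lit 16478531376) (nat_lit 228) (nat_lit 46969145345) (nat_lit 76) (nat_lit 4721420343) (nat_lit 18) (nat_lit 5) (nat_lit 21) (nat_lit 5) (nat_lit 19) (nat_lit 4) (nat_lit 338) (nat_lit 281) (nat_lit 161))) (XT.nd (nat_lit 78) (nat_lit 76) (nat_lit 0) (XT.lf (nat_lit 0) (nat_lit 28469200425) (nat_lit 228) (nat_lit 22399326142) (nat_lit 76) (nat_lit 19949329379) (nat_lit 18) (nat_lit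 5) (nat_lit 21) (nat_lit 5) (nat_lit 19) (nat_lit 4) (nat_lit 339) (nat_lit 281) (nat_lit 160)) (XT.nd (nat_lit 78) (nat_lit 0) (nat_lit 0) (XT.lf (nat_lit 0) (nat_lit 3504018559) (nat_lit 76) (nat_lit 37606094426) (nat_lit 152) (nat_lit 32486406549) (nat_lit 17) (nat_lit 5) (nat_lit 18) (nat_lit 5) (nat_lit 19) (nat_lit 4) (nat_lit 340) (nat_lit 281) (nat_lit 159)) (XT.lf (nat_lit 0) (nat_lit 31473183357) (nat_lit 76) (nat_lit 23285314801) (nat_lit 152) (nat_lit 21736848950) (nat_lit 17) (nat_lit 5) (nat_lit 18) (nat_lit 5) (nat_lit 19) (nat_lit 4) (nat_lit 341) (nat_lit 281) (nat_lit 158))))) (XT.nd (nat_lit 156) (nat_lit 76) (nat_lit 0) (XT.nd (nat_lit 78) (nat_lit 152) (nat_lit 0) (XT.lf (nat_lit 0) (nat_lit 60834138620) (nat_lit 76) (nat_lit 8251434024) (nat_lit 152) (nat_lit 10453731968) (nat_lit 17) (nat_lit 5) (nat_lit 18) (nat_lit 5) (nat_lit 19) (nat_lit 4) (nat_lit 342) (nat_lit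 281) (nat_lit 157)) (XT.lf (nat_lit 0) (nat_lit 1609160155) (nat_lit 152) (nat_lit 73653962725) (nat_lit 76) (nat_lit 7458240054) (nat_lit 15) (nat_lit 5) (nat_lit 17) (nat_lit 5) (nat_lit 16) (nat_lit 4) (nat_lit 343) (nat_lit 281) (nat_lit 156))) (XT.nd (nat_lit 78) (nat_lit 76) (nat_lit 0) (XT.lf (nat_lit 0) (nat_lit 14377542534) (nat_lit 152) (nat_lit 47487026281) (nat_lit 76) (nat_lit 24166705519) (nat_lit 15) (nat_lit 5) (nat_lit 17) (nat_lit 5) (nat_lit 16) (nat_lit 4) (nat_lit 344) (nat_lit 281) (nat_lit 155)) (XT.nd (nat_lit 78) (nat_lit 76) (nat_lit 0) (XT.lf (nat_lit 0) (nat_lit 27780930710) (nat_lit 152) (nat_lit 20017935217) (nat_lit 76) (nat_lit 41707987732) (nat_lit 15) (nat_lit 5) (nat_lit 17) (nat_lit 5) (nat_lit 16) (nat_lit 4) (nat_lit 345) (nat_lit 281) (nat_lit 154)) (XT.lf (nat_lit 0) (nat_lit 9110299544) (nat_lit 76) (nat_lit 32883175276) (nat_lit 152) (nat_lit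 51155789413) (nat_lit 14) (nat_lit 5) (nat_lit 15) (nat_lit 5) (nat_lit 16) (nat_lit 4) (nat_lit 346) (nat_lit 281) (nat_lit 153)))))) (XT.nd (nat_lit 390) (nat_lit 152) (nat_lit 0) (XT.nd (nat_lit 156) (nat_lit 152) (nat_lit 0) (XT.nd (nat_lit 78) (nat_lit 0) (nat_lit 0) (XT.lf (nat_lit 0) (nat_lit 40384121337) (nat_lit 76) (nat_lit 16868351647) (nat_lit 152) (nat_lit 39704532543) (nat_lit 14) (nat_lit 5) (nat_lit 15) (nat_lit 5) (nat_lit 16) (nat_lit 4) (nat_lit 347) (nat_lit 281) (nat_lit 152)) (XT.lf (nat_lit 0) (nat_lit 73216108298) (nat_lit 76) (nat_lit 55277927) (nat_lit 152) (nat_lit 27683900860) (nat_lit 14) (nat_lit 5) (nat_lit 15) (nat_lit 5) (nat_lit 16) (nat_lit 4) (nat_lit 348) (nat_lit 281) (nat_lit 151))) (XT.nd (nat_lit 78) (nat_lit 76) (nat_lit 0) (XT.lf (nat_lit 0) (nat_lit 2330675286) (nat_lit 76) (nat_lit 88068791975) (nat_lit 76) (nat_lit 14738605743) (nat_lit 13)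 (nat_lit 4) (nat_lit 14) (nat_lit 5) (nat_lit 14) (nat_lit 4) (nat_lit 349) (nat_lit 281) (nat_lit 150)) (XT.nd (nat_lit 78) (nat_lit 76) (nat_lit 0) (XT.lf (nat_lit 0) (nat_lit 34860842551) (nat_lit 76) (nat_lit 73990907323) (nat_lit 76) (nat_lit 654859794) (nat_lit 13) (nat_lit 4) (nat_lit 14) (nat_lit 5) (nat_lit 14) (nat_lit 4) (nat_lit 350) (nat_lit 281) (nat_lit 149)) (XT.lf (nat_lit 0) (nat_lit 13677947019) (nat_lit 152) (nat_lit 45301838325) (nat_lit 76) (nat_lit 55102895167) (nat_lit 12) (nat_lit 5) (nat_lit 14) (nat_lit 5) (nat_lit 13) (nat_lit 4) (nat_lit 351) (nat_lit 281) (nat_lit 148))))) (XT.nd (nat_lit 234) (nat_lit 76) (nat_lit 0) (XT.nd (nat_lit 78) (nat_lit 76) (nat_lit 0) (XT.lf (nat_lit 0) (nat_lit 28702739144) (nat_lit 152) (nat_lit 14506330837) (nat_lit 76) (nat_lit 75678081662) (nat_lit 12) (nat_lit 5) (nat_lit 14) (nat_lit 5) (nat_lit 13) (nat_lit 4) (nat_lit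 352) (nat_lit 281) (nat_lit 147)) (XT.nd (nat_lit 78) (nat_lit 0) (nat_lit 0) (XT.lf (nat_lit 0) (nat_lit 18413654107) (nat_lit 76) (nat_lit 26350084136) (nat_lit 152) (nat_lit 79153860808) (nat_lit 11) (nat_lit 5) (nat_lit 12) (nat_lit 5) (nat_lit 13) (nat_lit 4) (nat_lit 353) (nat_lit 281) (nat_lit 146)) (XT.lf (nat_lit 0) (nat_lit 53478690503) (nat_lit 76) (nat_lit 8392295789) (nat_lit 152) (nat_lit 67316423627) (nat_lit 11) (nat_lit 5) (nat_lit 12) (nat_lit 5) (nat_lit 13) (nat_lit 4) (nat_lit 354) (nat_lit 281) (nat_lit 145)))) (XT.nd (nat_lit 78) (nat_lit 76) (nat_lit 0) (XT.lf (nat_lit 0) (nat_lit 79994573213) (nat_lit 152) (nat_lit 44591539804) (nat_lit 0) (nat_lit 10126550475) (nat_lit 11) (nat_lit 5) (nat_lit 13) (nat_lit 4) (nat_lit 11) (nat_lit 4) (nat_lit 355) (nat_lit 281) (nat_lit 144)) (XT.nd (nat_lit 78) (nat_lit 76) (nat_lit 0) (XT.lf (nat_lit 0) (nat_lit 99159645484)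 (nat_lit 152) (nat_lit 12060312667) (nat_lit 0) (nat_lit 29287457233) (nat_lit 11) (nat_lit 5) (nat_lit 13) (nat_lit 4) (nat_lit 11) (nat_lit 4) (nat_lit 356) (nat_lit 281) (nat_lit 143)) (XT.lf (nat_lit 0) (nat_lit 22823953607) (nat_lit 76) (nat_lit 96813199248) (nat_lit 76) (nat_lit 26937043840) (nat_lit 10) (nat_lit 4) (nat_lit 11) (nat_lit 5) (nat_lit 11) (nat_lit 4) (nat_lit 357) (nat_lit 281) (nat_lit 142))))))) (XT.nd (nat_lit 780) (nat_lit 152) (nat_lit 0) (XT.nd (nat_lit 390) (nat_lit 76) (nat_lit 0) (XT.nd (nat_lit 156) (nat_lit 76) (nat_lit 0) (XT.nd (nat_lit 78) (nat_lit 76) (nat_lit 0) (XT.lf (nat_lit 0) (nat_lit 59867173766) (nat_lit 76) (nat_lit 81473485804) (nat_lit 76) (nat_lit 11593552152) (nat_lit 10) (nat_lit 4) (nat_lit 11) (nat_lit 5) (nat_lit 11) (nat_lit 4) (nat_lit 358) (nat_lit 281) (nat_lit 141)) (XT.lf (nat_lit 0) (nat_lit 4370482174) (nat_lit 152) (nat_lit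 60924043520) (nat_lit 76) (nat_lit 94314279146) (nat_lit 9) (nat_lit 5) (nat_lit 11) (nat_lit 5) (nat_lit 10) (nat_lit 4) (nat_lit 359) (nat_lit 281) (nat_lit 140))) (XT.nd (nat_lit 78) (nat_lit 76) (nat_lit 0) (XT.lf (nat_lit 0) (nat_lit 20741140669) (nat_lit 152) (nat_lit 27367620584) (nat_lit 76) (nat_lit 118498962096) (nat_lit 9) (nat_lit 5) (nat_lit 11) (nat_lit 5) (nat_lit 10) (nat_lit 4) (nat_lit 360) (nat_lit 281) (nat_lit 139)) (XT.nd (nat_lit 78) (nat_lit 0) (nat_lit 0) (XT.lf (nat_lit 0) (nat_lit 8123125687) (nat_lit 76) (nat_lit 29932166231) (nat_lit 152) (nat_lit 135895048575) (nat_lit 8) (nat_lit 5) (nat_lit 9) (nat_lit 5) (nat_lit 10) (nat_lit 4) (nat_lit 361) (nat_lit 281) (nat_lit 138)) (XT.lf (nat_lit 0) (nat_lit 46335118967) (nat_lit 76) (nat_lit 10361685952) (nat_lit 152) (nat_lit 124940201536) (nat_lit 8) (nat_lit 5) (nat_lit 9) (nat_lit 5) (nat_lit 10) (nat_lit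 4) (nat_lit 362) (nat_lit 281) (nat_lit 137))))) (XT.nd (nat_lit 156) (nat_lit 76) (nat_lit 0) (XT.nd (nat_lit 78) (nat_lit 0) (nat_lit 0) (XT.lf (nat_lit 0) (nat_lit 76427679749) (nat_lit 152) (nat_lit 103412679181) (nat_lit 0) (nat_lit 9859783110) (nat_lit 8) (nat_lit 5) (nat_lit 10) (nat_lit 4) (nat_lit 8) (nat_lit 4) (nat_lit 363) (nat_lit 281) (nat_lit 136)) (XT.lf (nat_lit 0) (nat_lit 97313279730) (nat_lit 152) (nat_lit 70102048247) (nat_lit 0) (nat_lit 30742697964) (nat_lit 8) (nat_lit 5) (nat_lit 10) (nat_lit 4) (nat_lit 8) (nat_lit 4) (nat_lit 364) (nat_lit 281) (nat_lit 135))) (XT.nd (nat_lit 78) (nat_lit 76) (nat_lit 0) (XT.lf (nat_lit 0) (nat_lit 119241557525) (nat_lit 152) (nat_lit 35128908705) (nat_lit 0) (nat_lit 52668418495) (nat_lit 8) (nat_lit 5) (nat_lit 10) (nat_lit 4) (nat_lit 8) (nat_lit 4) (nat_lit 365) (nat_lit 281) (nat_lit 134)) (XT.nd (nat_lit 78) (nat_lit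 0) (nat_lit 0) (XT.lf (nat_lit 0) (nat_lit 1642581698) (nat_lit 76) (nat_lit 140647786924) (nat_lit 76) (nat_lit 74072212404) (nat_lit 7) (nat_lit 4) (nat_lit 8) (nat_lit 5) (nat_lit 8) (nat_lit 4) (nat_lit 366) (nat_lit 281) (nat_lit 133)) (XT.lf (nat_lit 0) (nat_lit 41469410456) (nat_lit 76) (nat_lit 125615637433) (nat_lit 76) (nat_lit 59037743399) (nat_lit 7) (nat_lit 4) (nat_lit 8) (nat_lit 5) (nat_lit 8) (nat_lit 4) (nat_lit 367) (nat_lit 281) (nat_lit 132)))))) (XT.nd (nat_lit 390) (nat_lit 76) (nat_lit 0) (XT.nd (nat_lit 156) (nat_lit 76) (nat_lit 0) (XT.nd (nat_lit 78) (nat_lit 0) (nat_lit 0) (XT.lf (nat_lit 0) (nat_lit 83284882982) (nat_lit 76) (nat_lit 109833151990) (nat_lit 76) (nat_lit 43253048895) (nat_lit 7) (nat_lit 4) (nat_lit 8) (nat_lit 5) (nat_lit 8) (nat_lit 4) (nat_lit 368) (nat_lit 281) (nat_lit 131)) (XT.lf (nat_lit 0) (nat_lit 127188559926) (nat_lit 76) (nat_lit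 93262753249) (nat_lit 76) (nat_lit 26680546287) (nat_lit 7) (nat_lit 4) (nat_lit 8) (nat_lit 5) (nat_lit 8) (nat_lit 4) (nat_lit 369) (nat_lit 281) (nat_lit 130))) (XT.nd (nat_lit 78) (nat_lit 76) (nat_lit 0) (XT.lf (nat_lit 0) (nat_lit 173284973850) (nat_lit 76) (nat_lit 75864987881) (nat_lit 76) (nat_lit 9280777235) (nat_lit 7) (nat_lit 4) (nat_lit 8) (nat_lit 5) (nat_lit 8) (nat_lit 4) (nat_lit 370) (nat_lit 281) (nat_lit 129)) (XT.nd (nat_lit 78) (nat_lit 0) (nat_lit 0) (XT.lf (nat_lit 0) (nat_lit 8700024190) (nat_lit 152) (nat_lit 48751069324) (nat_lit 76) (nat_lit 212836514813) (nat_lit 6) (nat_lit 5) (nat_lit 8) (nat_lit 5) (nat_lit 7) (nat_lit 4) (nat_lit 371) (nat_lit 281) (nat_lit 128)) (XT.lf (nat_lit 0) (nat_lit 27266777790) (nat_lit 152) (nat_lit 10691041845) (nat_lit 76) (nat_lit 244771954364) (nat_lit 6) (nat_lit 5) (nat_lit 8) (nat_lit 5) (nat_lit 7) (nat_lit 4) (nat_lit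 372) (nat_lit 281) (nat_lit 127))))) (XT.nd (nat_lit 234) (nat_lit 0) (nat_lit 0) (XT.nd (nat_lit 78) (nat_lit 0) (nat_lit 0) (XT.lf (nat_lit 0) (nat_lit 30237628319) (nat_lit 76) (nat_lit 16995198750) (nat_lit 152) (nat_lit 248537673358) (nat_lit 5) (nat_lit 5) (nat_lit 6) (nat_lit 5) (nat_lit 7) (nat_lit 4) (nat_lit 373) (nat_lit 281) (nat_lit 126)) (XT.nd (nat_lit 78) (nat_lit 0) (nat_lit 0) (XT.lf (nat_lit 0) (nat_lit 68458381071) (nat_lit 152) (nat_lit 235953741853) (nat_lit 0) (nat_lit 5038080492) (nat_lit 5) (nat_lit 5) (nat_lit 7) (nat_lit 4) (nat_lit 5) (nat_lit 4) (nat_lit 374) (nat_lit 281) (nat_lit 125)) (XT.lf (nat_lit 0) (nat_lit 91022745722) (nat_lit 152) (nat_lit 205176319562) (nat_lit 0) (nat_lit 27600949963) (nat_lit 5) (nat_lit 5) (nat_lit 7) (nat_lit 4) (nat_lit 5) (nat_lit 4) (nat_lit 375) (nat_lit 281) (nat_lit 124)))) (XT.nd (nat_lit 78) (nat_lit 0) (nat_lit 0)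 (XT.lf (nat_lit 0) (nat_lit 114714303015) (nat_lit 152) (nat_lit 172861982978) (nat_lit 0) (nat_lit 51291083276) (nat_lit 5) (nat_lit 5) (nat_lit 7) (nat_lit 4) (nat_lit 5) (nat_lit 4) (nat_lit 376) (nat_lit 281) (nat_lit 123)) (XT.nd (nat_lit 78) (nat_lit 0) (nat_lit 0) (XT.lf (nat_lit 0) (nat_lit 139589461423) (nat_lit 152) (nat_lit 138933793202) (nat_lit 0) (nat_lit 76164885512) (nat_lit 5) (nat_lit 5) (nat_lit 7) (nat_lit 4) (nat_lit 5) (nat_lit 4) (nat_lit 377) (nat_lit 281) (nat_lit 122)) (XT.lf (nat_lit 0) (nat_lit 165707447511) (nat_lit 152) (nat_lit 103310968832) (nat_lit 0) (nat_lit 102281580008) (nat_lit 5) (nat_lit 5) (nat_lit 7) (nat_lit 4) (nat_lit 5) (nat_lit 4) (nat_lit 378) (nat_lit 281) (nat_lit 121))))))))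
noncomputable def xc168 : XT := (XT.nd (nat_lit 34086) (nat_lit 0) (nat_lit 2964) (XT.nd (nat_lit 33306) (nat_lit 0) (nat_lit 6384) (XT.nd (nat_lit 390) (nat_lit 0) (nat_lit 0) (XT.nd (nat_lit 156) (nat_lit 76) (nat_lit 0) (XT.nd (nat_lit 78) (nat_lit 0) (nat_lit 0) (XT.lf (nat_lit 0) (nat_lit 193130446962) (nat_lit 152) (nat_lit 65908693619) (nat_lit 0) (nat_lit 129703349371) (nat_lit 5) (nat_lit 5) (nat_lit 7) (nat_lit 4) (nat_lit 5) (nat_lit 4) (nat_lit 379) (nat_lit 281) (nat_lit 120)) (XT.lf (nat_lit 0) (nat_lit 221923752631) (nat_lit 152) (nat_lit 26637914526) (nat_lit 0) (nat_lit 158495483528) (nat_lit 5) (nat_lit 5) (nat_lit 7) (nat_lit 4) (nat_lit 5) (nat_lit 4) (nat_lit 380) (nat_lit 281) (nat_lit 119))) (XT.nd (nat_lit 78) (nat_lit 0) (nat_lit 0) (XT.lf (nat_lit 0) (nat_lit 15077442625) (nat_lit 76) (nat_lit 237313878516) (nat_lit 76) (nat_lit 173884493687) (nat_lit 4) (nat_lit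 4) (nat_lit 5) (nat_lit 5) (nat_lit 5) (nat_lit 4) (nat_lit 381) (nat_lit 281) (nat_lit 118)) (XT.nd (nat_lit 78) (nat_lit 0) (nat_lit 0) (XT.lf (nat_lit 0) (nat_lit 59801867386) (nat_lit 76) (nat_lit 225030737801) (nat_lit 76) (nat_lit 161600290376) (nat_lit 4) (nat_lit 4) (nat_lit 5) (nat_lit 5) (nat_lit 5) (nat_lit 4) (nat_lit 382) (nat_lit 281) (nat_lit 117)) (XT.lf (nat_lit 0) (nat_lit 106761076728) (nat_lit 76) (nat_lit 212134125411) (nat_lit 76) (nat_lit 148702665990) (nat_lit 4) (nat_lit 4) (nat_lit 5) (nat_lit 5) (nat_lit 5) (nat_lit 4) (nat_lit 383) (nat_lit 281) (nat_lit 116))))) (XT.nd (nat_lit 32682) (nat_lit 0) (nat_lit 6840) (XT.nd (nat_lit 78) (nat_lit 0) (nat_lit 0) (XT.lf (nat_lit 0) (nat_lit 156066878290) (nat_lit 76) (nat_lit 198593335126) (nat_lit 76) (nat_lit 135160911899) (nat_lit 4) (nat_lit 4) (nat_lit 5) (nat_lit 5) (nat_lit 5) (nat_lit 4) (nat_lit 384) (nat_lit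 281) (nat_lit 115)) (XT.lf (nat_lit 0) (nat_lit 207836666840) (nat_lit 76) (nat_lit 184376126969) (nat_lit 76) (nat_lit 120942785832) (nat_lit 4) (nat_lit 4) (nat_lit 5) (nat_lit 5) (nat_lit 5) (nat_lit 4) (nat_lit 385) (nat_lit 281) (nat_lit 114))) (XT.nd (nat_lit 78) (nat_lit 0) (nat_lit 0) (XT.lf (nat_lit 0) (nat_lit 1233210990) (nat_lit 0) (nat_lit 1233210990) (nat_lit 684) (nat_lit 3661520629) (nat_lit 94) (nat_lit 5) (nat_lit 94) (nat_lit 3) (nat_lit 103) (nat_lit 3) (nat_lit 282) (nat_lit 282) (nat_lit 216)) (XT.nd (nat_lit 78) (nat_lit 0) (nat_lit 0) (XT.lf (nat_lit 0) (nat_lit 5531911354) (nat_lit 684) (nat_lit 4201544593) (nat_lit 760) (nat_lit 2804274324) (nat_lit 94) (nat_lit 5) (nat_lit 103) (nat_lit 3) (nat_lit 104) (nat_lit 5) (nat_lit 283) (nat_lit 282) (nat_lit 215)) (XT.lf (nat_lit 76) (nat_lit 1663146711) (nat_lit 0) (nat_lit 4536841659) (nat_lit 760) (nat_lit 6631775344)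 (nat_lit 95) (nat_lit 5) (nat_lit 94) (nat_lit 5) (nat_lit 104) (nat_lit 5) (nat_lit 284) (nat_lit 282) (nat_lit 214)))))) (XT.nd (nat_lit 390) (nat_lit 532) (nat_lit 0) (XT.nd (nat_lit 156) (nat_lit 0) (nat_lit 0) (XT.nd (nat_lit 78) (nat_lit 0) (nat_lit 0) (XT.lf (nat_lit 0) (nat_lit 6962043785) (nat_lit 684) (nat_lit 5202230813) (nat_lit 760) (nat_lit 973242129) (nat_lit 95) (nat_lit 5) (nat_lit 104) (nat_lit 5) (nat_lit 105) (nat_lit 5) (nat_lit 285) (nat_lit 282) (nat_lit 213)) (XT.lf (nat_lit 76) (nat_lit 1004334350) (nat_lit 0) (nat_lit 6823060921) (nat_lit 760) (nat_lit 5627946857) (nat_lit 96) (nat_lit 5) (nat_lit 95) (nat_lit 5) (nat_lit 105) (nat_lit 5) (nat_lit 286) (nat_lit 282) (nat_lit 212))) (XT.nd (nat_lit 78) (nat_lit 0) (nat_lit 76) (XT.lf (nat_lit 76) (nat_lit 7686183249) (nat_lit 0) (nat_lit 1114011232) (nat_lit 760) (nat_lit 4985697600) (nat_lit 96) (nat_lit 5)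 (nat_lit 95) (nat_lit 5) (nat_lit 105) (nat_lit 5) (nat_lit 287) (nat_lit 282) (nat_lit 211)) (XT.nd (nat_lit 78) (nat_lit 0) (nat_lit 0) (XT.lf (nat_lit 76) (nat_lit 492509135) (nat_lit 0) (nat_lit 9390352049) (nat_lit 760) (nat_lit 4247087246) (nat_lit 97) (nat_lit 5) (nat_lit 96) (nat_lit 5) (nat_lit 106) (nat_lit 5) (nat_lit 288) (nat_lit 282) (nat_lit 210)) (XT.lf (nat_lit 76) (nat_lit 7591290118) (nat_lit 0) (nat_lit 3527810521) (nat_lit 760) (nat_lit 3367173344) (nat_lit 97) (nat_lit 5) (nat_lit 96) (nat_lit 5) (nat_lit 106) (nat_lit 5) (nat_lit 289) (nat_lit 282) (nat_lit 209))))) (XT.nd (nat_lit 156) (nat_lit 684) (nat_lit 0) (XT.nd (nat_lit 78) (nat_lit 0) (nat_lit 0) (XT.lf (nat_lit 76) (nat_lit 131418657) (nat_lit 0) (nat_lit 12308110387) (nat_lit 760) (nat_lit 2419804450) (nat_lit 98) (nat_lit 5) (nat_lit 97) (nat_lit 5) (nat_lit 107) (nat_lit 5) (nat_lit 290) (nat_lit 282)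 (nat_lit 208)) (XT.lf (nat_lit 76) (nat_lit 7672684502) (nat_lit 0) (nat_lit 6306996014) (nat_lit 760) (nat_lit 1263715175) (nat_lit 98) (nat_lit 5) (nat_lit 97) (nat_lit 5) (nat_lit 107) (nat_lit 5) (nat_lit 291) (nat_lit 282) (nat_lit 207))) (XT.nd (nat_lit 78) (nat_lit 684) (nat_lit 0) (XT.lf (nat_lit 76) (nat_lit 15575689927) (nat_lit 0) (nat_lit 2132097) (nat_lit 760) (nat_lit 69822984) (nat_lit 98) (nat_lit 5) (nat_lit 97) (nat_lit 5) (nat_lit 107) (nat_lit 5) (nat_lit 292) (nat_lit 282) (nat_lit 206)) (XT.nd (nat_lit 78) (nat_lit 0) (nat_lit 0) (XT.lf (nat_lit 0) (nat_lit 1358459388) (nat_lit 760) (nat_lit 8146733168) (nat_lit 76) (nat_lit 6555391025) (nat_lit 88) (nat_lit 5) (nat_lit 98) (nat_lit 5) (nat_lit 89) (nat_lit 5) (nat_lit 293) (nat_lit 282) (nat_lit 205)) (XT.lf (nat_lit 0) (nat_lit 2839331382) (nat_lit 760) (nat_lit 209813688) (nat_lit 76) (nat_lit 13445819303) (nat_lit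 88) (nat_lit 5) (nat_lit 98) (nat_lit 5) (nat_lit 89) (nat_lit 5) (nat_lit 294) (nat_lit 282) (nat_lit 204))))))) (XT.nd (nat_lit 780) (nat_lit 1216) (nat_lit 0) (XT.nd (nat_lit 390) (nat_lit 988) (nat_lit 0) (XT.nd (nat_lit 156) (nat_lit 684) (nat_lit 0) (XT.nd (nat_lit 78) (nat_lit 0) (nat_lit 0) (XT.lf (nat_lit 0) (nat_lit 4568529211) (nat_lit 608) (nat_lit 8628926127) (nat_lit 76) (nat_lit 3744922015) (nat_lit 81) (nat_lit 5) (nat_lit 89) (nat_lit 5) (nat_lit 82) (nat_lit 5) (nat_lit 295) (nat_lit 282) (nat_lit 203)) (XT.lf (nat_lit 0) (nat_lit 6421471656) (nat_lit 608) (nat_lit 207673997) (nat_lit 76) (nat_lit 10781177053) (nat_lit 81) (nat_lit 5) (nat_lit 89) (nat_lit 5) (nat_lit 82) (nat_lit 5) (nat_lit 296) (nat_lit 282) (nat_lit 202))) (XT.nd (nat_lit 78) (nat_lit 304) (nat_lit 0) (XT.lf (nat_lit 0) (nat_lit 8497015007) (nat_lit 456) (nat_lit 8997393958) (nat_lit 76) (nat_lit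 400783400) (nat_lit 76) (nat_lit 5) (nat_lit 82) (nat_lit 5) (nat_lit 77) (nat_lit 5) (nat_lit 297) (nat_lit 282) (nat_lit 201)) (XT.nd (nat_lit 78) (nat_lit 304) (nat_lit 0) (XT.lf (nat_lit 0) (nat_lit 10773560597) (nat_lit 456) (nat_lit 62700042) (nat_lit 76) (nat_lit 7563207161) (nat_lit 76) (nat_lit 5) (nat_lit 82) (nat_lit 5) (nat_lit 77) (nat_lit 5) (nat_lit 298) (nat_lit 282) (nat_lit 200)) (XT.lf (nat_lit 0) (nat_lit 9611506694) (nat_lit 304) (nat_lit 3688180602) (nat_lit 380) (nat_lit 5622504446) (nat_lit 72) (nat_lit 5) (nat_lit 76) (nat_lit 5) (nat_lit 77) (nat_lit 5) (nat_lit 299) (nat_lit 282) (nat_lit 199))))) (XT.nd (nat_lit 156) (nat_lit 684) (nat_lit 0) (XT.nd (nat_lit 78) (nat_lit 0) (nat_lit 0) (XT.lf (nat_lit 0) (nat_lit 233134388) (nat_lit 304) (nat_lit 15769436631) (nat_lit 380) (nat_lit 3465979686) (nat_lit 68) (nat_lit 5) (nat_lit 72) (nat_lit 5) (nat_lit 73)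 (nat_lit 5) (nat_lit 300) (nat_lit 282) (nat_lit 198)) (XT.lf (nat_lit 0) (nat_lit 10499863680) (nat_lit 304) (nat_lit 8544460853) (nat_lit 380) (nat_lit 987737146) (nat_lit 68) (nat_lit 5) (nat_lit 72) (nat_lit 5) (nat_lit 73) (nat_lit 5) (nat_lit 301) (nat_lit 282) (nat_lit 197))) (XT.nd (nat_lit 78) (nat_lit 304) (nat_lit 0) (XT.lf (nat_lit 0) (nat_lit 636551443) (nat_lit 304) (nat_lit 923102329) (nat_lit 380) (nat_lit 19063007215) (nat_lit 63) (nat_lit 5) (nat_lit 67) (nat_lit 5) (nat_lit 68) (nat_lit 5) (nat_lit 302) (nat_lit 282) (nat_lit 196)) (XT.nd (nat_lit 78) (nat_lit 304) (nat_lit 0) (XT.lf (nat_lit 0) (nat_lit 4463159238) (nat_lit 380) (nat_lit 9734589427) (nat_lit 76) (nat_lit 7031152575) (nat_lit 63) (nat_lit 5) (nat_lit 68) (nat_lit 5) (nat_lit 64) (nat_lit 5) (nat_lit 303) (nat_lit 282) (nat_lit 195)) (XT.lf (nat_lit 0) (nat_lit 1032979869) (nat_lit 304) (nat_lit 6498056394)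 (nat_lit 380) (nat_lit 14333474164) (nat_lit 59) (nat_lit 5) (nat_lit 63) (nat_lit 5) (nat_lit 64) (nat_lit 5) (nat_lit 304) (nat_lit 282) (nat_lit 194)))))) (XT.nd (nat_lit 390) (nat_lit 684) (nat_lit 0) (XT.nd (nat_lit 156) (nat_lit 304) (nat_lit 0) (XT.nd (nat_lit 78) (nat_lit 228) (nat_lit 0) (XT.lf (nat_lit 0) (nat_lit 10932890319) (nat_lit 380) (nat_lit 9889025672) (nat_lit 76) (nat_lit 1700970861) (nat_lit 59) (nat_lit 5) (nat_lit 64) (nat_lit 5) (nat_lit 60) (nat_lit 5) (nat_lit 305) (nat_lit 282) (nat_lit 193)) (XT.lf (nat_lit 0) (nat_lit 1528933430) (nat_lit 228) (nat_lit 13095108652) (nat_lit 304) (nat_lit 8584194944) (nat_lit 56) (nat_lit 5) (nat_lit 59) (nat_lit 5) (nat_lit 60) (nat_lit 5) (nat_lit 306) (nat_lit 282) (nat_lit 192))) (XT.nd (nat_lit 78) (nat_lit 304) (nat_lit 0) (XT.lf (nat_lit 0) (nat_lit 13847261310) (nat_lit 228) (nat_lit 4809090742) (nat_lit 304) (nat_lit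 5263687084) (nat_lit 56) (nat_lit 5) (nat_lit 59) (nat_lit 5) (nat_lit 60) (nat_lit 5) (nat_lit 307) (nat_lit 282) (nat_lit 191)) (XT.nd (nat_lit 78) (nat_lit 76) (nat_lit 0) (XT.lf (nat_lit 0) (nat_lit 2107079525) (nat_lit 228) (nat_lit 20866447123) (nat_lit 304) (nat_lit 1689756014) (nat_lit 53) (nat_lit 5) (nat_lit 56) (nat_lit 5) (nat_lit 57) (nat_lit 5) (nat_lit 308) (nat_lit 282) (nat_lit 190)) (XT.lf (nat_lit 0) (nat_lit 2238773611) (nat_lit 304) (nat_lit 10317180067) (nat_lit 76) (nat_lit 12874040477) (nat_lit 52) (nat_lit 5) (nat_lit 56) (nat_lit 5) (nat_lit 53) (nat_lit 5) (nat_lit 309) (nat_lit 282) (nat_lit 189))))) (XT.nd (nat_lit 234) (nat_lit 228) (nat_lit 0) (XT.nd (nat_lit 78) (nat_lit 228) (nat_lit 0) (XT.lf (nat_lit 0) (nat_lit 2575365157) (nat_lit 228) (nat_lit 3761981910) (nat_lit 304) (nat_lit 19894800789) (nat_lit 49) (nat_lit 5) (nat_lit 52) (nat_lit 5) (nat_lit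 53) (nat_lit 5) (nat_lit 310) (nat_lit 282) (nat_lit 188)) (XT.nd (nat_lit 78) (nat_lit 228) (nat_lit 0) (XT.lf (nat_lit 0) (nat_lit 10894275603) (nat_lit 304) (nat_lit 10696617663) (nat_lit 76) (nat_lit 5470855983) (nat_lit 49) (nat_lit 5) (nat_lit 53) (nat_lit 5) (nat_lit 50) (nat_lit 5) (nat_lit 311) (nat_lit 282) (nat_lit 187)) (XT.lf (nat_lit 0) (nat_lit 2930950783) (nat_lit 228) (nat_lit 12846395981) (nat_lit 304) (nat_lit 12150579927) (nat_lit 46) (nat_lit 5) (nat_lit 49) (nat_lit 5) (nat_lit 50) (nat_lit 5) (nat_lit 312) (nat_lit 282) (nat_lit 186)))) (XT.nd (nat_lit 78) (nat_lit 228) (nat_lit 0) (XT.lf (nat_lit 0) (nat_lit 17598723842) (nat_lit 228) (nat_lit 3478103369) (nat_lit 304) (nat_lit 7751983281) (nat_lit 46) (nat_lit 5) (nat_lit 49) (nat_lit 5) (nat_lit 50) (nat_lit 5) (nat_lit 313) (nat_lit 282) (nat_lit 185)) (XT.nd (nat_lit 78) (nat_lit 76) (nat_lit 0) (XT.lf (nat_lit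 0) (nat_lit 3216500985) (nat_lit 152) (nat_lit 23565747780) (nat_lit 228) (nat_lit 2985451148) (nat_lit 44) (nat_lit 5) (nat_lit 46) (nat_lit 5) (nat_lit 47) (nat_lit 5) (nat_lit 314) (nat_lit 282) (nat_lit 184)) (XT.lf (nat_lit 0) (nat_lit 2196641232) (nat_lit 228) (nat_lit 12072796069) (nat_lit 76) (nat_lit 16470435583) (nat_lit 43) (nat_lit 5) (nat_lit 46) (nat_lit 5) (nat_lit 44) (nat_lit 5) (nat_lit 315) (nat_lit 282) (nat_lit 183))))))))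
noncomputable def xc169 : XT := (XT.nd (nat_lit 1638) (nat_lit 760) (nat_lit 0) (XT.nd (nat_lit 780) (nat_lit 760) (nat_lit 0) (XT.nd (nat_lit 390) (nat_lit 380) (nat_lit 0) (XT.nd (nat_lit 156) (nat_lit 304) (nat_lit 0) (XT.nd (nat_lit 78) (nat_lit 0) (nat_lit 0) (XT.lf (nat_lit 0) (nat_lit 3170234955) (nat_lit 228) (nat_lit 4408715877) (nat_lit 304) (nat_lit 24177192867) (nat_lit 40) (nat_lit 5) (nat_lit 43) (nat_lit 5) (nat_lit 44) (nat_lit 5) (nat_lit 316) (nat_lit 282) (nat_lit 182)) (XT.lf (nat_lit 0) (nat_lit 13523095174) (nat_lit 304) (nat_lit 13326586428) (nat_lit 76) (nat_lit 5958918541) (nat_lit 40) (nat_lit 5) (nat_lit 44) (nat_lit 5) (nat_lit 41) (nat_lit 5) (nat_lit 317) (nat_lit 282) (nat_lit 181))) (XT.nd (nat_lit 78) (nat_lit 152) (nat_lit 0) (XT.lf (nat_lit 0) (nat_lit 2698394877) (nat_lit 152) (nat_lit 17172922130) (nat_lit 228) (nat_lit 14037026553) (nat_lit 38) (nat_lit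 5) (nat_lit 40) (nat_lit 5) (nat_lit 41) (nat_lit 5) (nat_lit 318) (nat_lit 282) (nat_lit 180)) (XT.nd (nat_lit 78) (nat_lit 152) (nat_lit 0) (XT.lf (nat_lit 0) (nat_lit 19976079501) (nat_lit 152) (nat_lit 6779212992) (nat_lit 228) (nat_lit 8296871828) (nat_lit 38) (nat_lit 5) (nat_lit 40) (nat_lit 5) (nat_lit 41) (nat_lit 5) (nat_lit 319) (nat_lit 282) (nat_lit 179)) (XT.lf (nat_lit 0) (nat_lit 1848096538) (nat_lit 152) (nat_lit 32221713226) (nat_lit 228) (nat_lit 2179056160) (nat_lit 36) (nat_lit 5) (nat_lit 38) (nat_lit 5) (nat_lit 39) (nat_lit 5) (nat_lit 320) (nat_lit 282) (nat_lit 178))))) (XT.nd (nat_lit 156) (nat_lit 152) (nat_lit 0) (XT.nd (nat_lit 78) (nat_lit 152) (nat_lit 0) (XT.lf (nat_lit 0) (nat_lit 4472426902) (nat_lit 228) (nat_lit 17543374218) (nat_lit 76) (nat_lit 15468112654) (nat_lit 35) (nat_lit 5) (nat_lit 38) (nat_lit 5) (nat_lit 36) (nat_lit 5) (nat_lit 321)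 (nat_lit 282) (nat_lit 177)) (XT.lf (nat_lit 0) (nat_lit 114311810) (nat_lit 152) (nat_lit 11264051138) (nat_lit 228) (nat_lit 27400815493) (nat_lit 33) (nat_lit 5) (nat_lit 35) (nat_lit 5) (nat_lit 36) (nat_lit 5) (nat_lit 322) (nat_lit 282) (nat_lit 176))) (XT.nd (nat_lit 78) (nat_lit 152) (nat_lit 0) (XT.lf (nat_lit 0) (nat_lit 18925387979) (nat_lit 228) (nat_lit 20876285637) (nat_lit 76) (nat_lit 322748837) (nat_lit 33) (nat_lit 5) (nat_lit 36) (nat_lit 5) (nat_lit 34) (nat_lit 5) (nat_lit 323) (nat_lit 282) (nat_lit 175)) (XT.nd (nat_lit 78) (nat_lit 152) (nat_lit 0) (XT.lf (nat_lit 0) (nat_lit 27028155389) (nat_lit 228) (nat_lit 2393044243) (nat_lit 76) (nat_lit 12106814927) (nat_lit 33) (nat_lit 5) (nat_lit 36) (nat_lit 5) (nat_lit 34) (nat_lit 5) (nat_lit 324) (nat_lit 282) (nat_lit 174)) (XT.lf (nat_lit 0) (nat_lit 17566981798) (nat_lit 152) (nat_lit 18237382092) (nat_lit 228)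 (nat_lit 7184012431) (nat_lit 31) (nat_lit 5) (nat_lit 33) (nat_lit 5) (nat_lit 34) (nat_lit 5) (nat_lit 325) (nat_lit 282) (nat_lit 173)))))) (XT.nd (nat_lit 390) (nat_lit 380) (nat_lit 0) (XT.nd (nat_lit 156) (nat_lit 152) (nat_lit 0) (XT.nd (nat_lit 78) (nat_lit 152) (nat_lit 0) (XT.lf (nat_lit 0) (nat_lit 516959975) (nat_lit 228) (nat_lit 5929749336) (nat_lit 76) (nat_lit 38072900077) (nat_lit 30) (nat_lit 5) (nat_lit 33) (nat_lit 5) (nat_lit 31) (nat_lit 5) (nat_lit 326) (nat_lit 282) (nat_lit 172)) (XT.lf (nat_lit 0) (nat_lit 8686636948) (nat_lit 228) (nat_lit 31322570432) (nat_lit 76) (nat_lit 6096058381) (nat_lit 28) (nat_lit 5) (nat_lit 31) (nat_lit 5) (nat_lit 29) (nat_lit 5) (nat_lit 327) (nat_lit 282) (nat_lit 171))) (XT.nd (nat_lit 78) (nat_lit 152) (nat_lit 0) (XT.lf (nat_lit 0) (nat_lit 17466974256) (nat_lit 228) (nat_lit 11145175724) (nat_lit 76) (nat_lit 19147950417)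 (nat_lit 28) (nat_lit 5) (nat_lit 31) (nat_lit 5) (nat_lit 29) (nat_lit 5) (nat_lit 328) (nat_lit 282) (nat_lit 170)) (XT.nd (nat_lit 78) (nat_lit 0) (nat_lit 0) (XT.lf (nat_lit 0) (nat_lit 10363950697) (nat_lit 152) (nat_lit 16478876877) (nat_lit 228) (nat_lit 22647028301) (nat_lit 26) (nat_lit 5) (nat_lit 28) (nat_lit 5) (nat_lit 29) (nat_lit 5) (nat_lit 329) (nat_lit 282) (nat_lit 169)) (XT.lf (nat_lit 0) (nat_lit 33326762336) (nat_lit 152) (nat_lit 3544265975) (nat_lit 228) (nat_lit 14425896949) (nat_lit 26) (nat_lit 5) (nat_lit 28) (nat_lit 5) (nat_lit 29) (nat_lit 5) (nat_lit 330) (nat_lit 282) (nat_lit 168))))) (XT.nd (nat_lit 234) (nat_lit 228) (nat_lit 0) (XT.nd (nat_lit 78) (nat_lit 76) (nat_lit 0) (XT.lf (nat_lit 0) (nat_lit 4213011594) (nat_lit 76) (nat_lit 43405112215) (nat_lit 152) (nat_lit 5565353758) (nat_lit 25) (nat_lit 5) (nat_lit 26) (nat_lit 5) (nat_lit 27) (nat_lit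 4) (nat_lit 331) (nat_lit 282) (nat_lit 167)) (XT.nd (nat_lit 78) (nat_lit 0) (nat_lit 0) (XT.lf (nat_lit 0) (nat_lit 3981020479) (nat_lit 152) (nat_lit 27149889879) (nat_lit 76) (nat_lit 24012409766) (nat_lit 24) (nat_lit 5) (nat_lit 26) (nat_lit 5) (nat_lit 25) (nat_lit 5) (nat_lit 332) (nat_lit 282) (nat_lit 166)) (XT.lf (nat_lit 0) (nat_lit 13812942922) (nat_lit 152) (nat_lit 4337636046) (nat_lit 76) (nat_lit 39046254168) (nat_lit 24) (nat_lit 5) (nat_lit 26) (nat_lit 5) (nat_lit 25) (nat_lit 5) (nat_lit 333) (nat_lit 282) (nat_lit 165)))) (XT.nd (nat_lit 78) (nat_lit 76) (nat_lit 0) (XT.lf (nat_lit 0) (nat_lit 20255813722) (nat_lit 152) (nat_lit 4192385281) (nat_lit 228) (nat_lit 34889238951) (nat_lit 22) (nat_lit 5) (nat_lit 24) (nat_lit 5) (nat_lit 25) (nat_lit 5) (nat_lit 334) (nat_lit 282) (nat_lit 164)) (XT.nd (nat_lit 78) (nat_lit 76) (nat_lit 0) (XT.lf (nat_lit 0) (nat_lit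 35848783952) (nat_lit 228) (nat_lit 15524221892) (nat_lit 76) (nat_lit 10200391757) (nat_lit 22) (nat_lit 5) (nat_lit 25) (nat_lit 5) (nat_lit 23) (nat_lit 4) (nat_lit 335) (nat_lit 282) (nat_lit 163)) (XT.lf (nat_lit 0) (nat_lit 9436956324) (nat_lit 76) (nat_lit 38594253331) (nat_lit 152) (nat_lit 15879357752) (nat_lit 21) (nat_lit 5) (nat_lit 22) (nat_lit 5) (nat_lit 23) (nat_lit 4) (nat_lit 336) (nat_lit 282) (nat_lit 162))))))) (XT.nd (nat_lit 780) (nat_lit 304) (nat_lit 0) (XT.nd (nat_lit 390) (nat_lit 152) (nat_lit 0) (XT.nd (nat_lit 156) (nat_lit 228) (nat_lit 0) (XT.nd (nat_lit 78) (nat_lit 76) (nat_lit 0) (XT.lf (nat_lit 0) (nat_lit 36177870718) (nat_lit 76) (nat_lit 24903631429) (nat_lit 152) (nat_lit 5270158902) (nat_lit 21) (nat_lit 5) (nat_lit 22) (nat_lit 5) (nat_lit 23) (nat_lit 4) (nat_lit 337) (nat_lit 282) (nat_lit 161)) (XT.lf (nat_lit 0) (nat_lit 5677605411) (nat_lit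 152) (nat_lit 4757695223) (nat_lit 76) (nat_lit 58475130839) (nat_lit 20) (nat_lit 5) (nat_lit 22) (nat_lit 5) (nat_lit 21) (nat_lit 5) (nat_lit 338) (nat_lit 282) (nat_lit 160))) (XT.nd (nat_lit 78) (nat_lit 76) (nat_lit 0) (XT.lf (nat_lit 0) (nat_lit 17425405174) (nat_lit 228) (nat_lit 49098744154) (nat_lit 76) (nat_lit 5047185598) (nat_lit 18) (nat_lit 5) (nat_lit 21) (nat_lit 5) (nat_lit 19) (nat_lit 4) (nat_lit 339) (nat_lit 282) (nat_lit 159)) (XT.nd (nat_lit 78) (nat_lit 76) (nat_lit 0) (XT.lf (nat_lit 0) (nat_lit 30009753045) (nat_lit 228) (nat_lit 23310855823) (nat_lit 76) (nat_lit 21032218931) (nat_lit 18) (nat_lit 5) (nat_lit 21) (nat_lit 5) (nat_lit 19) (nat_lit 4) (nat_lit 340) (nat_lit 282) (nat_lit 158)) (XT.lf (nat_lit 0) (nat_lit 3884294233) (nat_lit 76) (nat_lit 39396042954) (nat_lit 152) (nat_lit 33990209240) (nat_lit 17) (nat_lit 5) (nat_lit 18) (nat_lit 5) (nat_lit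 19) (nat_lit 4) (nat_lit 341) (nat_lit 282) (nat_lit 157))))) (XT.nd (nat_lit 156) (nat_lit 152) (nat_lit 0) (XT.nd (nat_lit 78) (nat_lit 0) (nat_lit 0) (XT.lf (nat_lit 0) (nat_lit 33242151807) (nat_lit 76) (nat_lit 24363527023) (nat_lit 152) (nat_lit 22708912696) (nat_lit 17) (nat_lit 5) (nat_lit 18) (nat_lit 5) (nat_lit 19) (nat_lit 4) (nat_lit 342) (nat_lit 282) (nat_lit 156)) (XT.lf (nat_lit 0) (nat_lit 64061854391) (nat_lit 76) (nat_lit 8582049994) (nat_lit 152) (nat_lit 10867105517) (nat_lit 17) (nat_lit 5) (nat_lit 18) (nat_lit 5) (nat_lit 19) (nat_lit 4) (nat_lit 343) (nat_lit 282) (nat_lit 155))) (XT.nd (nat_lit 78) (nat_lit 0) (nat_lit 0) (XT.lf (nat_lit 0) (nat_lit 1794598602) (nat_lit 152) (nat_lit 77146212895) (nat_lit 76) (nat_lit 7911318602) (nat_lit 15) (nat_lit 5) (nat_lit 17) (nat_lit 5) (nat_lit 16) (nat_lit 4) (nat_lit 344) (nat_lit 282) (nat_lit 154)) (XT.nd (nat_lit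 78) (nat_lit 0) (nat_lit 0) (XT.lf (nat_lit 0) (nat_lit 15196401031) (nat_lit 152) (nat_lit 49679998580) (nat_lit 76) (nat_lit 25451389886) (nat_lit 15) (nat_lit 5) (nat_lit 17) (nat_lit 5) (nat_lit 16) (nat_lit 4) (nat_lit 345) (nat_lit 282) (nat_lit 153)) (XT.lf (nat_lit 0) (nat_lit 29265197599) (nat_lit 152) (nat_lit 20846090059) (nat_lit 76) (nat_lit 43866100539) (nat_lit 15) (nat_lit 5) (nat_lit 17) (nat_lit 5) (nat_lit 16) (nat_lit 4) (nat_lit 346) (nat_lit 282) (nat_lit 152)))))) (XT.nd (nat_lit 390) (nat_lit 152) (nat_lit 0) (XT.nd (nat_lit 156) (nat_lit 76) (nat_lit 0) (XT.nd (nat_lit 78) (nat_lit 0) (nat_lit 0) (XT.lf (nat_lit 0) (nat_lit 9735770281) (nat_lit 76) (nat_lit 34450717817) (nat_lit 152) (nat_lit 53615527486) (nat_lit 14) (nat_lit 5) (nat_lit 15) (nat_lit 5) (nat_lit 16) (nat_lit 4) (nat_lit 347) (nat_lit 282) (nat_lit 151)) (XT.lf (nat_lit 0) (nat_lit 42565190031)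 (nat_lit 76) (nat_lit 17638801398) (nat_lit 152) (nat_lit 41596376887) (nat_lit 14) (nat_lit 5) (nat_lit 15) (nat_lit 5) (nat_lit 16) (nat_lit 4) (nat_lit 348) (nat_lit 282) (nat_lit 150))) (XT.nd (nat_lit 78) (nat_lit 76) (nat_lit 0) (XT.lf (nat_lit 0) (nat_lit 77019796035) (nat_lit 152) (nat_lit 28967887834) (nat_lit 0) (nat_lit 11084834) (nat_lit 14) (nat_lit 5) (nat_lit 16) (nat_lit 4) (nat_lit 14) (nat_lit 4) (nat_lit 349) (nat_lit 282) (nat_lit 149)) (XT.nd (nat_lit 78) (nat_lit 0) (nat_lit 0) (XT.lf (nat_lit 0) (nat_lit 2602014947) (nat_lit 76) (nat_lit 92401506150) (nat_lit 76) (nat_lit 15387212762) (nat_lit 13) (nat_lit 4) (nat_lit 14) (nat_lit 5) (nat_lit 14) (nat_lit 4) (nat_lit 350) (nat_lit 282) (nat_lit 148)) (XT.lf (nat_lit 0) (nat_lit 36751318865) (nat_lit 76) (nat_lit 77623095143) (nat_lit 76) (nat_lit 603485385) (nat_lit 13) (nat_lit 4) (nat_lit 14) (nat_lit 5) (nat_lit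 14) (nat_lit 4) (nat_lit 351) (nat_lit 282) (nat_lit 147))))) (XT.nd (nat_lit 234) (nat_lit 0) (nat_lit 0) (XT.nd (nat_lit 78) (nat_lit 76) (nat_lit 0) (XT.lf (nat_lit 0) (nat_lit 14439392100) (nat_lit 152) (nat_lit 47423919159) (nat_lit 76) (nat_lit 57919592398) (nat_lit 12) (nat_lit 5) (nat_lit 14) (nat_lit 5) (nat_lit 13) (nat_lit 4) (nat_lit 352) (nat_lit 282) (nat_lit 146)) (XT.nd (nat_lit 78) (nat_lit 76) (nat_lit 0) (XT.lf (nat_lit 0) (nat_lit 30211731083) (nat_lit 152) (nat_lit 15095446348) (nat_lit 76) (nat_lit 79520607147) (nat_lit 12) (nat_lit 5) (nat_lit 14) (nat_lit 5) (nat_lit 13) (nat_lit 4) (nat_lit 353) (nat_lit 282) (nat_lit 145)) (XT.lf (nat_lit 0) (nat_lit 19468341053) (nat_lit 76) (nat_lit 27606014361) (nat_lit 152) (nat_lit 83035471697) (nat_lit 11) (nat_lit 5) (nat_lit 12) (nat_lit 5) (nat_lit 13) (nat_lit 4) (nat_lit 354) (nat_lit 282) (nat_lit 144)))) (XT.nd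 (nat_lit 78) (nat_lit 0) (nat_lit 0) (XT.lf (nat_lit 0) (nat_lit 56280248114) (nat_lit 76) (nat_lit 8753268691) (nat_lit 152) (nat_lit 70609785616) (nat_lit 11) (nat_lit 5) (nat_lit 12) (nat_lit 5) (nat_lit 13) (nat_lit 4) (nat_lit 355) (nat_lit 282) (nat_lit 143)) (XT.nd (nat_lit 78) (nat_lit 0) (nat_lit 0) (XT.lf (nat_lit 0) (nat_lit 84060870219) (nat_lit 152) (nat_lit 46697130590) (nat_lit 0) (nat_lit 10686939885) (nat_lit 11) (nat_lit 5) (nat_lit 13) (nat_lit 4) (nat_lit 11) (nat_lit 4) (nat_lit 356) (nat_lit 282) (nat_lit 142)) (XT.lf (nat_lit 0) (nat_lit 104181026183) (nat_lit 152) (nat_lit 12545246201) (nat_lit 0) (nat_lit 30803317605) (nat_lit 11) (nat_lit 5) (nat_lit 13) (nat_lit 4) (nat_lit 11) (nat_lit 4) (nat_lit 357) (nat_lit 282) (nat_lit 141))))))))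
noncomputable def xc170 : XT := (XT.nd (nat_lit 1560) (nat_lit 76) (nat_lit 0) (XT.nd (nat_lit 780) (nat_lit 152) (nat_lit 0) (XT.nd (nat_lit 390) (nat_lit 76) (nat_lit 0) (XT.nd (nat_lit 156) (nat_lit 152) (nat_lit 0) (XT.nd (nat_lit 78) (nat_lit 0) (nat_lit 0) (XT.lf (nat_lit 0) (nat_lit 24081328836) (nat_lit 76) (nat_lit 101599874970) (nat_lit 76) (nat_lit 28218568064) (nat_lit 10) (nat_lit 4) (nat_lit 11) (nat_lit 5) (nat_lit 11) (nat_lit 4) (nat_lit 358) (nat_lit 282) (nat_lit 140)) (XT.lf (nat_lit 0) (nat_lit 62971177740) (nat_lit 76) (nat_lit 85495746532) (nat_lit 76) (nat_lit 12111012648) (nat_lit 10) (nat_lit 4) (nat_lit 11) (nat_lit 5) (nat_lit 11) (nat_lit 4) (nat_lit 359) (nat_lit 282) (nat_lit 139))) (XT.nd (nat_lit 78) (nat_lit 76) (nat_lit 0) (XT.lf (nat_lit 0) (nat_lit 4646364165) (nat_lit 152) (nat_lit 63862951134) (nat_lit 76) (nat_lit 99077040300) (nat_lit 9) (nat_lit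 5) (nat_lit 11) (nat_lit 5) (nat_lit 10) (nat_lit 4) (nat_lit 360) (nat_lit 282) (nat_lit 138)) (XT.nd (nat_lit 78) (nat_lit 76) (nat_lit 0) (XT.lf (nat_lit 0) (nat_lit 21832824257) (nat_lit 152) (nat_lit 28633816316) (nat_lit 76) (nat_lit 124468717054) (nat_lit 9) (nat_lit 5) (nat_lit 11) (nat_lit 5) (nat_lit 10) (nat_lit 4) (nat_lit 361) (nat_lit 282) (nat_lit 137)) (XT.lf (nat_lit 0) (nat_lit 8629819119) (nat_lit 76) (nat_lit 31381832351) (nat_lit 152) (nat_lit 142633506717) (nat_lit 8) (nat_lit 5) (nat_lit 9) (nat_lit 5) (nat_lit 10) (nat_lit 4) (nat_lit 362) (nat_lit 282) (nat_lit 136))))) (XT.nd (nat_lit 156) (nat_lit 76) (nat_lit 0) (XT.nd (nat_lit 78) (nat_lit 0) (nat_lit 0) (XT.lf (nat_lit 0) (nat_lit 48747624580) (nat_lit 76) (nat_lit 10835063400) (nat_lit 152) (nat_lit 131133598006) (nat_lit 8) (nat_lit 5) (nat_lit 9) (nat_lit 5) (nat_lit 10) (nat_lit 4) (nat_lit 363) (nat_lit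 282) (nat_lit 135)) (XT.lf (nat_lit 0) (nat_lit 80298340703) (nat_lit 152) (nat_lit 108490339372) (nat_lit 0) (nat_lit 10393987457) (nat_lit 8) (nat_lit 5) (nat_lit 10) (nat_lit 4) (nat_lit 8) (nat_lit 4) (nat_lit 364) (nat_lit 282) (nat_lit 134))) (XT.nd (nat_lit 78) (nat_lit 76) (nat_lit 0) (XT.lf (nat_lit 0) (nat_lit 102225874161) (nat_lit 152) (nat_lit 73518604214) (nat_lit 0) (nat_lit 32319085425) (nat_lit 8) (nat_lit 5) (nat_lit 10) (nat_lit 4) (nat_lit 8) (nat_lit 4) (nat_lit 365) (nat_lit 282) (nat_lit 133)) (XT.nd (nat_lit 78) (nat_lit 76) (nat_lit 0) (XT.lf (nat_lit 0) (nat_lit 125248331063) (nat_lit 152) (nat_lit 36801024192) (nat_lit 0) (nat_lit 55339222813) (nat_lit 8) (nat_lit 5) (nat_lit 10) (nat_lit 4) (nat_lit 8) (nat_lit 4) (nat_lit 366) (nat_lit 282) (nat_lit 132)) (XT.lf (nat_lit 0) (nat_lit 1807680571) (nat_lit 76) (nat_lit 147641069170) (nat_lit 76) (nat_lit 77729751859)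 (nat_lit 7) (nat_lit 4) (nat_lit 8) (nat_lit 5) (nat_lit 8) (nat_lit 4) (nat_lit 367) (nat_lit 282) (nat_lit 131)))))) (XT.nd (nat_lit 390) (nat_lit 76) (nat_lit 0) (XT.nd (nat_lit 156) (nat_lit 76) (nat_lit 0) (XT.nd (nat_lit 78) (nat_lit 0) (nat_lit 0) (XT.lf (nat_lit 0) (nat_lit 43621899824) (nat_lit 76) (nat_lit 131859174446) (nat_lit 76) (nat_lit 61945753268) (nat_lit 7) (nat_lit 4) (nat_lit 8) (nat_lit 5) (nat_lit 8) (nat_lit 4) (nat_lit 368) (nat_lit 282) (nat_lit 130)) (XT.lf (nat_lit 0) (nat_lit 87524383175) (nat_lit 76) (nat_lit 115289338296) (nat_lit 76) (nat_lit 45373913434) (nat_lit 7) (nat_lit 4) (nat_lit 8) (nat_lit 5) (nat_lit 8) (nat_lit 4) (nat_lit 369) (nat_lit 282) (nat_lit 129))) (XT.nd (nat_lit 78) (nat_lit 76) (nat_lit 0) (XT.lf (nat_lit 0) (nat_lit 133619660344) (nat_lit 76) (nat_lit 97892108728) (nat_lit 76) (nat_lit 27974775596) (nat_lit 7) (nat_lit 4) (nat_lit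 8) (nat_lit 5) (nat_lit 8) (nat_lit 4) (nat_lit 370) (nat_lit 282) (nat_lit 128)) (XT.nd (nat_lit 78) (nat_lit 76) (nat_lit 0) (XT.lf (nat_lit 0) (nat_lit 182017481993) (nat_lit 76) (nat_lit 79626063767) (nat_lit 76) (nat_lit 9706913235) (nat_lit 7) (nat_lit 4) (nat_lit 8) (nat_lit 5) (nat_lit 8) (nat_lit 4) (nat_lit 371) (nat_lit 282) (nat_lit 127)) (XT.lf (nat_lit 0) (nat_lit 9169968003) (nat_lit 152) (nat_lit 51122446981) (nat_lit 76) (nat_lit 223507815180) (nat_lit 6) (nat_lit 5) (nat_lit 8) (nat_lit 5) (nat_lit 7) (nat_lit 4) (nat_lit 372) (nat_lit 282) (nat_lit 126))))) (XT.nd (nat_lit 156) (nat_lit 0) (nat_lit 0) (XT.nd (nat_lit 78) (nat_lit 76) (nat_lit 0) (XT.lf (nat_lit 0) (nat_lit 28663395349) (nat_lit 152) (nat_lit 11162569356) (nat_lit 76) (nat_lit 257038623155) (nat_lit 6) (nat_lit 5) (nat_lit 8) (nat_lit 5) (nat_lit 7) (nat_lit 4) (nat_lit 373) (nat_lit 282) (nat_lit 125))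 (XT.lf (nat_lit 0) (nat_lit 31811517790) (nat_lit 76) (nat_lit 17815612722) (nat_lit 152) (nat_lit 260930251445) (nat_lit 5) (nat_lit 5) (nat_lit 6) (nat_lit 5) (nat_lit 7) (nat_lit 4) (nat_lit 374) (nat_lit 282) (nat_lit 124))) (XT.nd (nat_lit 78) (nat_lit 0) (nat_lit 0) (XT.lf (nat_lit 0) (nat_lit 71912843233) (nat_lit 152) (nat_lit 247691244781) (nat_lit 0) (nat_lit 5317038527) (nat_lit 5) (nat_lit 5) (nat_lit 7) (nat_lit 4) (nat_lit 5) (nat_lit 4) (nat_lit 375) (nat_lit 282) (nat_lit 123)) (XT.nd (nat_lit 78) (nat_lit 0) (nat_lit 0) (XT.lf (nat_lit 0) (nat_lit 95603924063) (nat_lit 152) (nat_lit 215377817289) (nat_lit 0) (nat_lit 29006763185) (nat_lit 5) (nat_lit 5) (nat_lit 7) (nat_lit 4) (nat_lit 5) (nat_lit 4) (nat_lit 376) (nat_lit 282) (nat_lit 122)) (XT.lf (nat_lit 0) (nat_lit 120478628695) (nat_lit 152) (nat_lit 181450493315) (nat_lit 0) (nat_lit 53880176225) (nat_lit 5) (nat_lit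 5) (nat_lit 7) (nat_lit 4) (nat_lit 5) (nat_lit 4) (nat_lit 377) (nat_lit 282) (nat_lit 121))))))) (XT.nd (nat_lit 33384) (nat_lit 0) (nat_lit 5852) (XT.nd (nat_lit 390) (nat_lit 0) (nat_lit 0) (XT.nd (nat_lit 156) (nat_lit 76) (nat_lit 0) (XT.nd (nat_lit 78) (nat_lit 0) (nat_lit 0) (XT.lf (nat_lit 0) (nat_lit 146596182617) (nat_lit 152) (nat_lit 145828493519) (nat_lit 0) (nat_lit 79996500059) (nat_lit 5) (nat_lit 5) (nat_lit 7) (nat_lit 4) (nat_lit 5) (nat_lit 4) (nat_lit 378) (nat_lit 282) (nat_lit 120)) (XT.lf (nat_lit 0) (nat_lit 174018770480) (nat_lit 152) (nat_lit 108427003613) (nat_lit 0) (nat_lit 107417916410) (nat_lit 5) (nat_lit 5) (nat_lit 7) (nat_lit 4) (nat_lit 5) (nat_lit 4) (nat_lit 379) (nat_lit 282) (nat_lit 119))) (XT.nd (nat_lit 78) (nat_lit 76) (nat_lit 0) (XT.lf (nat_lit 0) (nat_lit 202811684161) (nat_lit 152) (nat_lit 69156972432) (nat_lit 0) (nat_lit 136209714365)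 (nat_lit 5) (nat_lit 5) (nat_lit 7) (nat_lit 4) (nat_lit 5) (nat_lit 4) (nat_lit 380) (nat_lit 282) (nat_lit 118)) (XT.nd (nat_lit 78) (nat_lit 76) (nat_lit 0) (XT.lf (nat_lit 0) (nat_lit 233043478216) (nat_lit 152) (nat_lit 27924899902) (nat_lit 0) (nat_lit 166440445823) (nat_lit 5) (nat_lit 5) (nat_lit 7) (nat_lit 4) (nat_lit 5) (nat_lit 4) (nat_lit 381) (nat_lit 282) (nat_lit 117)) (XT.lf (nat_lit 0) (nat_lit 15875500746) (nat_lit 76) (nat_lit 249158493417) (nat_lit 76) (nat_lit 182554449029) (nat_lit 4) (nat_lit 4) (nat_lit 5) (nat_lit 5) (nat_lit 5) (nat_lit 4) (nat_lit 382) (nat_lit 282) (nat_lit 116))))) (XT.nd (nat_lit 156) (nat_lit 0) (nat_lit 0) (XT.nd (nat_lit 78) (nat_lit 0) (nat_lit 0) (XT.lf (nat_lit 0) (nat_lit 62834042651) (nat_lit 76) (nat_lit 236262199430) (nat_lit 76) (nat_lit 169657191235) (nat_lit 4) (nat_lit 4) (nat_lit 5) (nat_lit 5) (nat_lit 5) (nat_lit 4) (nat_lit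 383) (nat_lit 282) (nat_lit 115)) (XT.lf (nat_lit 0) (nat_lit 112139208559) (nat_lit 76) (nat_lit 222721712385) (nat_lit 76) (nat_lit 156115786280) (nat_lit 4) (nat_lit 4) (nat_lit 5) (nat_lit 5) (nat_lit 5) (nat_lit 4) (nat_lit 384) (nat_lit 282) (nat_lit 114))) (XT.nd (nat_lit 32682) (nat_lit 0) (nat_lit 6840) (XT.lf (nat_lit 0) (nat_lit 163908391724) (nat_lit 76) (nat_lit 208504793029) (nat_lit 76) (nat_lit 141897992723) (nat_lit 4) (nat_lit 4) (nat_lit 5) (nat_lit 5) (nat_lit 5) (nat_lit 4) (nat_lit 385) (nat_lit 282) (nat_lit 113)) (XT.nd (nat_lit 78) (nat_lit 0) (nat_lit 0) (XT.lf (nat_lit 0) (nat_lit 1506768789) (nat_lit 0) (nat_lit 1506768789) (nat_lit 684) (nat_lit 3398859610) (nat_lit 94) (nat_lit 5) (nat_lit 94) (nat_lit 3) (nat_lit 103) (nat_lit 3) (nat_lit 283) (nat_lit 283) (nat_lit 214)) (XT.lf (nat_lit 0) (nat_lit 6609432997) (nat_lit 684) (nat_lit 3959911135) (nat_lit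 760) (nat_lit 2553792393) (nat_lit 94) (nat_lit 5) (nat_lit 103) (nat_lit 3) (nat_lit 104) (nat_lit 5) (nat_lit 284) (nat_lit 283) (nat_lit 213)))))) (XT.nd (nat_lit 390) (nat_lit 988) (nat_lit 0) (XT.nd (nat_lit 156) (nat_lit 0) (nat_lit 76) (XT.nd (nat_lit 78) (nat_lit 0) (nat_lit 76) (XT.lf (nat_lit 76) (nat_lit 2190729077) (nat_lit 0) (nat_lit 5088984171) (nat_lit 760) (nat_lit 6153786709) (nat_lit 95) (nat_lit 5) (nat_lit 94) (nat_lit 5) (nat_lit 104) (nat_lit 5) (nat_lit 285) (nat_lit 283) (nat_lit 212)) (XT.lf (nat_lit 0) (nat_lit 8038380839) (nat_lit 684) (nat_lit 4996289186) (nat_lit 760) (nat_lit 722010156) (nat_lit 95) (nat_lit 5) (nat_lit 104) (nat_lit 5) (nat_lit 105) (nat_lit 5) (nat_lit 286) (nat_lit 283) (nat_lit 211))) (XT.nd (nat_lit 78) (nat_lit 0) (nat_lit 0) (XT.lf (nat_lit 76) (nat_lit 1513087248) (nat_lit 0) (nat_lit 7406393835) (nat_lit 760) (nat_lit 5172353646)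 (nat_lit 96) (nat_lit 5) (nat_lit 95) (nat_lit 5) (nat_lit 105) (nat_lit 5) (nat_lit 287) (nat_lit 283) (nat_lit 210)) (XT.nd (nat_lit 78) (nat_lit 0) (nat_lit 76) (XT.lf (nat_lit 76) (nat_lit 8507193536) (nat_lit 0) (nat_lit 1400359287) (nat_lit 760) (nat_lit 4533086713) (nat_lit 96) (nat_lit 5) (nat_lit 95) (nat_lit 5) (nat_lit 105) (nat_lit 5) (nat_lit 288) (nat_lit 283) (nat_lit 209)) (XT.lf (nat_lit 76) (nat_lit 984325058) (nat_lit 0) (nat_lit 10032113874) (nat_lit 760) (nat_lit 3786911643) (nat_lit 97) (nat_lit 5) (nat_lit 96) (nat_lit 5) (nat_lit 106) (nat_lit 5) (nat_lit 289) (nat_lit 283) (nat_lit 208))))) (XT.nd (nat_lit 234) (nat_lit 1140) (nat_lit 0) (XT.nd (nat_lit 78) (nat_lit 0) (nat_lit 76) (XT.lf (nat_lit 76) (nat_lit 8415797925) (nat_lit 0) (nat_lit 3868243165) (nat_lit 760) (nat_lit 2895027283) (nat_lit 97) (nat_lit 5) (nat_lit 96) (nat_lit 5) (nat_lit 106) (nat_lit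 5) (nat_lit 290) (nat_lit 283) (nat_lit 207)) (XT.nd (nat_lit 78) (nat_lit 0) (nat_lit 0) (XT.lf (nat_lit 76) (nat_lit 609287168) (nat_lit 0) (nat_lit 13037123520) (nat_lit 760) (nat_lit 1925625137) (nat_lit 98) (nat_lit 5) (nat_lit 97) (nat_lit 5) (nat_lit 107) (nat_lit 5) (nat_lit 291) (nat_lit 283) (nat_lit 206)) (XT.lf (nat_lit 76) (nat_lit 8505173563) (nat_lit 0) (nat_lit 6730543542) (nat_lit 760) (nat_lit 741025186) (nat_lit 98) (nat_lit 5) (nat_lit 97) (nat_lit 5) (nat_lit 107) (nat_lit 5) (nat_lit 292) (nat_lit 283) (nat_lit 205)))) (XT.nd (nat_lit 78) (nat_lit 456) (nat_lit 0) (XT.lf (nat_lit 76) (nat_lit 384105440) (nat_lit 0) (nat_lit 91042055) (nat_lit 836) (nat_lit 15926750916) (nat_lit 88) (nat_lit 5) (nat_lit 87) (nat_lit 5) (nat_lit 98) (nat_lit 5) (nat_lit 293) (nat_lit 283) (nat_lit 204)) (XT.nd (nat_lit 78) (nat_lit 532) (nat_lit 0) (XT.lf (nat_lit 0) (nat_lit 1946351141)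 (nat_lit 760) (nat_lit 8086862183) (nat_lit 76) (nat_lit 6803562594) (nat_lit 88) (nat_lit 5) (nat_lit 98) (nat_lit 5) (nat_lit 89) (nat_lit 5) (nat_lit 294) (nat_lit 283) (nat_lit 203)) (XT.lf (nat_lit 0) (nat_lit 232083405) (nat_lit 532) (nat_lit 3248046383) (nat_lit 608) (nat_lit 13813842733) (nat_lit 81) (nat_lit 5) (nat_lit 88) (nat_lit 5) (nat_lit 89) (nat_lit 5) (nat_lit 295) (nat_lit 283) (nat_lit 202))))))))
noncomputable def xc171 : XT := (XT.nd (nat_lit 1638) (nat_lit 1672) (nat_lit 0) (XT.nd (nat_lit 780) (nat_lit 1216) (nat_lit 0) (XT.nd (nat_lit 390) (nat_lit 988) (nat_lit 0) (XT.nd (nat_lit 156) (nat_lit 304) (nat_lit 0) (XT.nd (nat_lit 78) (nat_lit 380) (nat_lit 0) (XT.lf (nat_lit 0) (nat_lit 5274782588) (nat_lit 608) (nat_lit 8597270869) (nat_lit 76) (nat_lit 3892790962) (nat_lit 81) (nat_lit 5) (nat_lit 89) (nat_lit 5) (nat_lit 82) (nat_lit 5) (nat_lit 296) (nat_lit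 283) (nat_lit 201)) (XT.lf (nat_lit 0) (nat_lit 230364514) (nat_lit 380) (nat_lit 6970850613) (nat_lit 456) (nat_lit 11055965976) (nat_lit 76) (nat_lit 5) (nat_lit 81) (nat_lit 5) (nat_lit 82) (nat_lit 5) (nat_lit 297) (nat_lit 283) (nat_lit 200))) (XT.nd (nat_lit 78) (nat_lit 304) (nat_lit 0) (XT.lf (nat_lit 0) (nat_lit 9361946339) (nat_lit 456) (nat_lit 8990532118) (nat_lit 76) (nat_lit 414779741) (nat_lit 76) (nat_lit 5) (nat_lit 82) (nat_lit 5) (nat_lit 77) (nat_lit 5) (nat_lit 298) (nat_lit 283) (nat_lit 199)) (XT.nd (nat_lit 78) (nat_lit 0) (nat_lit 0) (XT.lf (nat_lit 0) (nat_lit 381353051) (nat_lit 304) (nat_lit 11355963929) (nat_lit 380) (nat_lit 7560213382) (nat_lit 72) (nat_lit 5) (nat_lit 76) (nat_lit 5) (nat_lit 77) (nat_lit 5) (nat_lit 299) (nat_lit 283) (nat_lit 198)) (XT.lf (nat_lit 0) (nat_lit 10520048601) (nat_lit 304) (nat_lit 3850470879) (nat_lit 380) (nat_lit 5476863830)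 (nat_lit 72) (nat_lit 5) (nat_lit 76) (nat_lit 5) (nat_lit 77) (nat_lit 5) (nat_lit 300) (nat_lit 283) (nat_lit 197))))) (XT.nd (nat_lit 156) (nat_lit 684) (nat_lit 0) (XT.nd (nat_lit 78) (nat_lit 0) (nat_lit 0) (XT.lf (nat_lit 0) (nat_lit 686095860) (nat_lit 304) (nat_lit 16510344338) (nat_lit 380) (nat_lit 3225255175) (nat_lit 68) (nat_lit 5) (nat_lit 72) (nat_lit 5) (nat_lit 73) (nat_lit 5) (nat_lit 301) (nat_lit 283) (nat_lit 196)) (XT.lf (nat_lit 0) (nat_lit 11445147104) (nat_lit 304) (nat_lit 8926384728) (nat_lit 380) (nat_lit 642815912) (nat_lit 68) (nat_lit 5) (nat_lit 72) (nat_lit 5) (nat_lit 73) (nat_lit 5) (nat_lit 302) (nat_lit 283) (nat_lit 195))) (XT.nd (nat_lit 78) (nat_lit 304) (nat_lit 0) (XT.lf (nat_lit 0) (nat_lit 1094838873) (nat_lit 304) (nat_lit 912967982) (nat_lit 380) (nat_lit 19626963955) (nat_lit 63) (nat_lit 5) (nat_lit 67) (nat_lit 5) (nat_lit 68) (nat_lit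 5) (nat_lit 303) (nat_lit 283) (nat_lit 194)) (XT.nd (nat_lit 78) (nat_lit 304) (nat_lit 0) (XT.lf (nat_lit 0) (nat_lit 5039697420) (nat_lit 380) (nat_lit 9797886281) (nat_lit 76) (nat_lit 7434603393) (nat_lit 63) (nat_lit 5) (nat_lit 68) (nat_lit 5) (nat_lit 64) (nat_lit 5) (nat_lit 304) (nat_lit 283) (nat_lit 193)) (XT.lf (nat_lit 0) (nat_lit 1501231922) (nat_lit 304) (nat_lit 6749413086) (nat_lit 380) (nat_lit 14689471239) (nat_lit 59) (nat_lit 5) (nat_lit 63) (nat_lit 5) (nat_lit 64) (nat_lit 5) (nat_lit 305) (nat_lit 283) (nat_lit 192)))))) (XT.nd (nat_lit 390) (nat_lit 684) (nat_lit 0) (XT.nd (nat_lit 156) (nat_lit 304) (nat_lit 0) (XT.nd (nat_lit 78) (nat_lit 228) (nat_lit 0) (XT.lf (nat_lit 0) (nat_lit 11807349305) (nat_lit 380) (nat_lit 9971025051) (nat_lit 76) (nat_lit 1853821491) (nat_lit 59) (nat_lit 5) (nat_lit 64) (nat_lit 5) (nat_lit 60) (nat_lit 5) (nat_lit 306) (nat_lit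 283) (nat_lit 191)) (XT.lf (nat_lit 0) (nat_lit 2011179556) (nat_lit 228) (nat_lit 13662604554) (nat_lit 304) (nat_lit 8678514321) (nat_lit 56) (nat_lit 5) (nat_lit 59) (nat_lit 5) (nat_lit 60) (nat_lit 5) (nat_lit 307) (nat_lit 283) (nat_lit 190))) (XT.nd (nat_lit 78) (nat_lit 304) (nat_lit 0) (XT.lf (nat_lit 0) (nat_lit 14926100046) (nat_lit 228) (nat_lit 4966440965) (nat_lit 304) (nat_lit 5207928228) (nat_lit 56) (nat_lit 5) (nat_lit 59) (nat_lit 5) (nat_lit 60) (nat_lit 5) (nat_lit 308) (nat_lit 283) (nat_lit 189)) (XT.nd (nat_lit 78) (nat_lit 76) (nat_lit 0) (XT.lf (nat_lit 0) (nat_lit 2606719825) (nat_lit 228) (nat_lit 21811799877) (nat_lit 304) (nat_lit 1462727175) (nat_lit 53) (nat_lit 5) (nat_lit 56) (nat_lit 5) (nat_lit 57) (nat_lit 5) (nat_lit 309) (nat_lit 283) (nat_lit 188)) (XT.lf (nat_lit 0) (nat_lit 2637899112) (nat_lit 304) (nat_lit 10447684219) (nat_lit 76) (nat_lit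 13601202816) (nat_lit 52) (nat_lit 5) (nat_lit 56) (nat_lit 5) (nat_lit 53) (nat_lit 5) (nat_lit 310) (nat_lit 283) (nat_lit 187))))) (XT.nd (nat_lit 234) (nat_lit 228) (nat_lit 0) (XT.nd (nat_lit 78) (nat_lit 228) (nat_lit 0) (XT.lf (nat_lit 0) (nat_lit 3083272865) (nat_lit 228) (nat_lit 3850372242) (nat_lit 304) (nat_lit 20595806822) (nat_lit 49) (nat_lit 5) (nat_lit 52) (nat_lit 5) (nat_lit 53) (nat_lit 5) (nat_lit 311) (nat_lit 283) (nat_lit 186)) (XT.nd (nat_lit 78) (nat_lit 228) (nat_lit 0) (XT.lf (nat_lit 0) (nat_lit 11706596450) (nat_lit 304) (nat_lit 10858223751) (nat_lit 76) (nat_lit 5836320173) (nat_lit 49) (nat_lit 5) (nat_lit 53) (nat_lit 5) (nat_lit 50) (nat_lit 5) (nat_lit 312) (nat_lit 283) (nat_lit 185)) (XT.lf (nat_lit 0) (nat_lit 3444703364) (nat_lit 228) (nat_lit 13382107712) (nat_lit 304) (nat_lit 12484181163) (nat_lit 46) (nat_lit 5) (nat_lit 49) (nat_lit 5) (nat_lit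 50) (nat_lit 5) (nat_lit 313) (nat_lit 283) (nat_lit 184)))) (XT.nd (nat_lit 78) (nat_lit 228) (nat_lit 0) (XT.lf (nat_lit 0) (nat_lit 18828379121) (nat_lit 228) (nat_lit 3550477044) (nat_lit 304) (nat_lit 7878698864) (nat_lit 46) (nat_lit 5) (nat_lit 49) (nat_lit 5) (nat_lit 50) (nat_lit 5) (nat_lit 314) (nat_lit 283) (nat_lit 183)) (XT.nd (nat_lit 78) (nat_lit 76) (nat_lit 0) (XT.lf (nat_lit 0) (nat_lit 3732336080) (nat_lit 152) (nat_lit 24632446667) (nat_lit 228) (nat_lit 2878858124) (nat_lit 44) (nat_lit 5) (nat_lit 46) (nat_lit 5) (nat_lit 47) (nat_lit 5) (nat_lit 315) (nat_lit 283) (nat_lit 182)) (XT.lf (nat_lit 0) (nat_lit 2542355470) (nat_lit 228) (nat_lit 12330284154) (nat_lit 76) (nat_lit 17392185214) (nat_lit 43) (nat_lit 5) (nat_lit 46) (nat_lit 5) (nat_lit 44) (nat_lit 5) (nat_lit 316) (nat_lit 283) (nat_lit 181))))))) (XT.nd (nat_lit 780) (nat_lit 760) (nat_lit 0) (XT.nd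 (nat_lit 390) (nat_lit 380) (nat_lit 0) (XT.nd (nat_lit 156) (nat_lit 304) (nat_lit 0) (XT.nd (nat_lit 78) (nat_lit 0) (nat_lit 0) (XT.lf (nat_lit 0) (nat_lit 3669315330) (nat_lit 228) (nat_lit 4518549966) (nat_lit 304) (nat_lit 25144351449) (nat_lit 40) (nat_lit 5) (nat_lit 43) (nat_lit 5) (nat_lit 44) (nat_lit 5) (nat_lit 317) (nat_lit 283) (nat_lit 180)) (XT.lf (nat_lit 0) (nat_lit 14419910622) (nat_lit 304) (nat_lit 13659033879) (nat_lit 76) (nat_lit 6358828048) (nat_lit 40) (nat_lit 5) (nat_lit 44) (nat_lit 5) (nat_lit 41) (nat_lit 5) (nat_lit 318) (nat_lit 283) (nat_lit 179))) (XT.nd (nat_lit 78) (nat_lit 152) (nat_lit 0) (XT.lf (nat_lit 0) (nat_lit 3161811299) (nat_lit 152) (nat_lit 17918353350) (nat_lit 228) (nat_lit 14512618127) (nat_lit 38) (nat_lit 5) (nat_lit 40) (nat_lit 5) (nat_lit 41) (nat_lit 5) (nat_lit 319) (nat_lit 283) (nat_lit 178)) (XT.nd (nat_lit 78) (nat_lit 152)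 (nat_lit 0) (XT.lf (nat_lit 0) (nat_lit 21287737455) (nat_lit 152) (nat_lit 7010349941) (nat_lit 228) (nat_lit 8496229940) (nat_lit 38) (nat_lit 5) (nat_lit 40) (nat_lit 5) (nat_lit 41) (nat_lit 5) (nat_lit 320) (nat_lit 283) (nat_lit 177)) (XT.lf (nat_lit 0) (nat_lit 2256939603) (nat_lit 152) (nat_lit 33718171335) (nat_lit 228) (nat_lit 2075913761) (nat_lit 36) (nat_lit 5) (nat_lit 38) (nat_lit 5) (nat_lit 39) (nat_lit 5) (nat_lit 321) (nat_lit 283) (nat_lit 176))))) (XT.nd (nat_lit 156) (nat_lit 152) (nat_lit 0) (XT.nd (nat_lit 78) (nat_lit 152) (nat_lit 0) (XT.lf (nat_lit 0) (nat_lit 4891578567) (nat_lit 228) (nat_lit 18112532111) (nat_lit 76) (nat_lit 16344046316) (nat_lit 35) (nat_lit 5) (nat_lit 38) (nat_lit 5) (nat_lit 36) (nat_lit 5) (nat_lit 322) (nat_lit 283) (nat_lit 175)) (XT.lf (nat_lit 0) (nat_lit 423070303) (nat_lit 152) (nat_lit 11715161494) (nat_lit 228) (nat_lit 28570190457)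 (nat_lit 33) (nat_lit 5) (nat_lit 35) (nat_lit 5) (nat_lit 36) (nat_lit 5) (nat_lit 323) (nat_lit 283) (nat_lit 174))) (XT.nd (nat_lit 78) (nat_lit 152) (nat_lit 0) (XT.lf (nat_lit 0) (nat_lit 20055181926) (nat_lit 228) (nat_lit 21623901883) (nat_lit 76) (nat_lit 442223945) (nat_lit 33) (nat_lit 5) (nat_lit 36) (nat_lit 5) (nat_lit 34) (nat_lit 5) (nat_lit 324) (nat_lit 283) (nat_lit 173)) (XT.nd (nat_lit 78) (nat_lit 152) (nat_lit 0) (XT.lf (nat_lit 0) (nat_lit 28554348442) (nat_lit 228) (nat_lit 2230603088) (nat_lit 76) (nat_lit 12810572498) (nat_lit 33) (nat_lit 5) (nat_lit 36) (nat_lit 5) (nat_lit 34) (nat_lit 5) (nat_lit 325) (nat_lit 283) (nat_lit 172)) (XT.lf (nat_lit 0) (nat_lit 18722874362) (nat_lit 152) (nat_lit 19042503129) (nat_lit 228) (nat_lit 7363733120) (nat_lit 31) (nat_lit 5) (nat_lit 33) (nat_lit 5) (nat_lit 34) (nat_lit 5) (nat_lit 326) (nat_lit 283) (nat_lit 171))))))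 (XT.nd (nat_lit 390) (nat_lit 380) (nat_lit 0) (XT.nd (nat_lit 156) (nat_lit 152) (nat_lit 0) (XT.nd (nat_lit 78) (nat_lit 152) (nat_lit 0) (XT.lf (nat_lit 0) (nat_lit 708270311) (nat_lit 228) (nat_lit 5956307454) (nat_lit 76) (nat_lit 40072607677) (nat_lit 30) (nat_lit 5) (nat_lit 33) (nat_lit 5) (nat_lit 31) (nat_lit 5) (nat_lit 327) (nat_lit 283) (nat_lit 170)) (XT.lf (nat_lit 0) (nat_lit 9284319683) (nat_lit 228) (nat_lit 32616533108) (nat_lit 76) (nat_lit 6501383668) (nat_lit 28) (nat_lit 5) (nat_lit 31) (nat_lit 5) (nat_lit 29) (nat_lit 5) (nat_lit 328) (nat_lit 283) (nat_lit 169))) (XT.nd (nat_lit 78) (nat_lit 152) (nat_lit 0) (XT.lf (nat_lit 0) (nat_lit 18495895243) (nat_lit 228) (nat_lit 11443228944) (nat_lit 76) (nat_lit 20201083526) (nat_lit 28) (nat_lit 5) (nat_lit 31) (nat_lit 5) (nat_lit 29) (nat_lit 5) (nat_lit 329) (nat_lit 283) (nat_lit 168)) (XT.nd (nat_lit 78) (nat_lit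 0) (nat_lit 0) (XT.lf (nat_lit 0) (nat_lit 11137173064) (nat_lit 152) (nat_lit 17199941611) (nat_lit 228) (nat_lit 23619513287) (nat_lit 26) (nat_lit 5) (nat_lit 28) (nat_lit 5) (nat_lit 29) (nat_lit 5) (nat_lit 330) (nat_lit 283) (nat_lit 167)) (XT.lf (nat_lit 0) (nat_lit 35235981246) (nat_lit 152) (nat_lit 3623499170) (nat_lit 228) (nat_lit 14994938055) (nat_lit 26) (nat_lit 5) (nat_lit 28) (nat_lit 5) (nat_lit 29) (nat_lit 5) (nat_lit 331) (nat_lit 283) (nat_lit 166))))) (XT.nd (nat_lit 234) (nat_lit 228) (nat_lit 0) (XT.nd (nat_lit 78) (nat_lit 76) (nat_lit 0) (XT.lf (nat_lit 0) (nat_lit 4668354919) (nat_lit 76) (nat_lit 45473952974) (nat_lit 152) (nat_lit 5693076782) (nat_lit 25) (nat_lit 5) (nat_lit 26) (nat_lit 5) (nat_lit 27) (nat_lit 4) (nat_lit 332) (nat_lit 283) (nat_lit 165)) (XT.nd (nat_lit 78) (nat_lit 0) (nat_lit 0) (XT.lf (nat_lit 0) (nat_lit 4318858450) (nat_lit 152)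 (nat_lit 28269661428) (nat_lit 76) (nat_lit 25304933593) (nat_lit 24) (nat_lit 5) (nat_lit 26) (nat_lit 5) (nat_lit 25) (nat_lit 5) (nat_lit 333) (nat_lit 283) (nat_lit 164)) (XT.lf (nat_lit 0) (nat_lit 14635768113) (nat_lit 152) (nat_lit 4328115043) (nat_lit 76) (nat_lit 41086093865) (nat_lit 24) (nat_lit 5) (nat_lit 26) (nat_lit 5) (nat_lit 25) (nat_lit 5) (nat_lit 334) (nat_lit 283) (nat_lit 163)))) (XT.nd (nat_lit 78) (nat_lit 76) (nat_lit 0) (XT.lf (nat_lit 0) (nat_lit 21491355555) (nat_lit 152) (nat_lit 4308615021) (nat_lit 228) (nat_lit 36497786559) (nat_lit 22) (nat_lit 5) (nat_lit 24) (nat_lit 5) (nat_lit 25) (nat_lit 5) (nat_lit 335) (nat_lit 283) (nat_lit 162)) (XT.nd (nat_lit 78) (nat_lit 76) (nat_lit 0) (XT.lf (nat_lit 0) (nat_lit 37765813335) (nat_lit 228) (nat_lit 16083436994) (nat_lit 76) (nat_lit 10796507037) (nat_lit 22) (nat_lit 5) (nat_lit 25) (nat_lit 5) (nat_lit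 23) (nat_lit 4) (nat_lit 336) (nat_lit 283) (nat_lit 161)) (XT.lf (nat_lit 0) (nat_lit 10122300197) (nat_lit 76) (nat_lit 40432460532) (nat_lit 152) (nat_lit 16545158751) (nat_lit 21) (nat_lit 5) (nat_lit 22) (nat_lit 5) (nat_lit 23) (nat_lit 4) (nat_lit 337) (nat_lit 283) (nat_lit 160))))))))
noncomputable def xc172 : XT := (XT.nd (nat_lit 1560) (nat_lit 456) (nat_lit 0) (XT.nd (nat_lit 780) (nat_lit 304) (nat_lit 0) (XT.nd (nat_lit 390) (nat_lit 152) (nat_lit 0) (XT.nd (nat_lit 156) (nat_lit 228) (nat_lit 0) (XT.nd (nat_lit 78) (nat_lit 76) (nat_lit 0) (XT.lf (nat_lit 0) (nat_lit 38190093832) (nat_lit 76) (nat_lit 26061664938) (nat_lit 152) (nat_lit 5411603144) (nat_lit 21) (nat_lit 5) (nat_lit 22) (nat_lit 5) (nat_lit 23) (nat_lit 4) (nat_lit 338) (nat_lit 283) (nat_lit 159)) (XT.lf (nat_lit 0) (nat_lit 6074016065) (nat_lit 152) (nat_lit 4798145690) (nat_lit 76) (nat_lit 61478098459)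 (nat_lit 20) (nat_lit 5) (nat_lit 22) (nat_lit 5) (nat_lit 21) (nat_lit 5) (nat_lit 339) (nat_lit 283) (nat_lit 158))) (XT.nd (nat_lit 78) (nat_lit 76) (nat_lit 0) (XT.lf (nat_lit 0) (nat_lit 18408192193) (nat_lit 228) (nat_lit 51355170288) (nat_lit 76) (nat_lit 5380900195) (nat_lit 18) (nat_lit 5) (nat_lit 21) (nat_lit 5) (nat_lit 19) (nat_lit 4) (nat_lit 340) (nat_lit 283) (nat_lit 157)) (XT.nd (nat_lit 78) (nat_lit 76) (nat_lit 0) (XT.lf (nat_lit 0) (nat_lit 31616447137) (nat_lit 228) (nat_lit 24287340449) (nat_lit 76) (nat_lit 22161311133) (nat_lit 18) (nat_lit 5) (nat_lit 21) (nat_lit 5) (nat_lit 19) (nat_lit 4) (nat_lit 341) (nat_lit 283) (nat_lit 156)) (XT.lf (nat_lit 0) (nat_lit 4264517784) (nat_lit 76) (nat_lit 41283889370) (nat_lit 152) (nat_lit 35580406653) (nat_lit 17) (nat_lit 5) (nat_lit 18) (nat_lit 5) (nat_lit 19) (nat_lit 4) (nat_lit 342) (nat_lit 283) (nat_lit 155)))))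 (XT.nd (nat_lit 156) (nat_lit 152) (nat_lit 0) (XT.nd (nat_lit 78) (nat_lit 0) (nat_lit 0) (XT.lf (nat_lit 0) (nat_lit 35081410673) (nat_lit 76) (nat_lit 25503650297) (nat_lit 152) (nat_lit 23740250665) (nat_lit 17) (nat_lit 5) (nat_lit 18) (nat_lit 5) (nat_lit 19) (nat_lit 4) (nat_lit 343) (nat_lit 283) (nat_lit 154)) (XT.lf (nat_lit 0) (nat_lit 67433662611) (nat_lit 76) (nat_lit 8936816230) (nat_lit 152) (nat_lit 11311310635) (nat_lit 17) (nat_lit 5) (nat_lit 18) (nat_lit 5) (nat_lit 19) (nat_lit 4) (nat_lit 344) (nat_lit 283) (nat_lit 153))) (XT.nd (nat_lit 78) (nat_lit 0) (nat_lit 0) (XT.lf (nat_lit 0) (nat_lit 1979548886) (nat_lit 152) (nat_lit 80830781620) (nat_lit 76) (nat_lit 8379597953) (nat_lit 15) (nat_lit 5) (nat_lit 17) (nat_lit 5) (nat_lit 16) (nat_lit 4) (nat_lit 345) (nat_lit 283) (nat_lit 152)) (XT.nd (nat_lit 78) (nat_lit 0) (nat_lit 0) (XT.lf (nat_lit 0) (nat_lit 16046907134)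 (nat_lit 152) (nat_lit 51999482395) (nat_lit 76) (nat_lit 26793210257) (nat_lit 15) (nat_lit 5) (nat_lit 17) (nat_lit 5) (nat_lit 16) (nat_lit 4) (nat_lit 346) (nat_lit 283) (nat_lit 151)) (XT.lf (nat_lit 0) (nat_lit 30814825146) (nat_lit 152) (nat_lit 21731712549) (nat_lit 76) (nat_lit 46125358781) (nat_lit 15) (nat_lit 5) (nat_lit 17) (nat_lit 5) (nat_lit 16) (nat_lit 4) (nat_lit 347) (nat_lit 283) (nat_lit 150)))))) (XT.nd (nat_lit 390) (nat_lit 152) (nat_lit 0) (XT.nd (nat_lit 156) (nat_lit 76) (nat_lit 0) (XT.nd (nat_lit 78) (nat_lit 0) (nat_lit 0) (XT.lf (nat_lit 0) (nat_lit 10376713679) (nat_lit 76) (nat_lit 36103760535) (nat_lit 152) (nat_lit 56207368353) (nat_lit 14) (nat_lit 5) (nat_lit 15) (nat_lit 5) (nat_lit 16) (nat_lit 4) (nat_lit 348) (nat_lit 283) (nat_lit 149)) (XT.lf (nat_lit 0) (nat_lit 44840263708) (nat_lit 76) (nat_lit 18454557494) (nat_lit 152) (nat_lit 43591495247)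 (nat_lit 14) (nat_lit 5) (nat_lit 15) (nat_lit 5) (nat_lit 16) (nat_lit 4) (nat_lit 349) (nat_lit 283) (nat_lit 148))) (XT.nd (nat_lit 78) (nat_lit 76) (nat_lit 0) (XT.lf (nat_lit 0) (nat_lit 80948560616) (nat_lit 152) (nat_lit 30273566854) (nat_lit 0) (nat_lit 72654003) (nat_lit 14) (nat_lit 5) (nat_lit 16) (nat_lit 4) (nat_lit 14) (nat_lit 4) (nat_lit 350) (nat_lit 283) (nat_lit 147)) (XT.nd (nat_lit 78) (nat_lit 0) (nat_lit 0) (XT.lf (nat_lit 0) (nat_lit 2872529205) (nat_lit 76) (nat_lit 96957431413) (nat_lit 76) (nat_lit 16076461592) (nat_lit 13) (nat_lit 4) (nat_lit 14) (nat_lit 5) (nat_lit 14) (nat_lit 4) (nat_lit 351) (nat_lit 283) (nat_lit 146)) (XT.lf (nat_lit 0) (nat_lit 38722611961) (nat_lit 76) (nat_lit 81443154620) (nat_lit 76) (nat_lit 557362695) (nat_lit 13) (nat_lit 4) (nat_lit 14) (nat_lit 5) (nat_lit 14) (nat_lit 4) (nat_lit 352) (nat_lit 283) (nat_lit 145))))) (XT.nd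 (nat_lit 156) (nat_lit 76) (nat_lit 0) (XT.nd (nat_lit 78) (nat_lit 0) (nat_lit 0) (XT.lf (nat_lit 0) (nat_lit 15231699782) (nat_lit 152) (nat_lit 49665399849) (nat_lit 76) (nat_lit 60871401926) (nat_lit 12) (nat_lit 5) (nat_lit 14) (nat_lit 5) (nat_lit 13) (nat_lit 4) (nat_lit 353) (nat_lit 283) (nat_lit 144)) (XT.lf (nat_lit 0) (nat_lit 31789306282) (nat_lit 152) (nat_lit 15726680315) (nat_lit 76) (nat_lit 83549808845) (nat_lit 12) (nat_lit 5) (nat_lit 14) (nat_lit 5) (nat_lit 13) (nat_lit 4) (nat_lit 354) (nat_lit 283) (nat_lit 143))) (XT.nd (nat_lit 78) (nat_lit 0) (nat_lit 0) (XT.lf (nat_lit 0) (nat_lit 20563303902) (nat_lit 76) (nat_lit 28930465663) (nat_lit 152) (nat_lit 87118236528) (nat_lit 11) (nat_lit 5) (nat_lit 12) (nat_lit 5) (nat_lit 13) (nat_lit 4) (nat_lit 355) (nat_lit 283) (nat_lit 142)) (XT.nd (nat_lit 78) (nat_lit 0) (nat_lit 0) (XT.lf (nat_lit 0) (nat_lit 59210018420)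 (nat_lit 76) (nat_lit 9137742205) (nat_lit 152) (nat_lit 74074552274) (nat_lit 11) (nat_lit 5) (nat_lit 12) (nat_lit 5) (nat_lit 13) (nat_lit 4) (nat_lit 356) (nat_lit 283) (nat_lit 141)) (XT.lf (nat_lit 0) (nat_lit 88324293182) (nat_lit 152) (nat_lit 48919527977) (nat_lit 0) (nat_lit 11270322603) (nat_lit 11) (nat_lit 5) (nat_lit 13) (nat_lit 4) (nat_lit 11) (nat_lit 4) (nat_lit 357) (nat_lit 283) (nat_lit 140))))))) (XT.nd (nat_lit 780) (nat_lit 228) (nat_lit 0) (XT.nd (nat_lit 390) (nat_lit 76) (nat_lit 0) (XT.nd (nat_lit 156) (nat_lit 76) (nat_lit 0) (XT.nd (nat_lit 78) (nat_lit 76) (nat_lit 0) (XT.lf (nat_lit 0) (nat_lit 109447581732) (nat_lit 152) (nat_lit 13065404566) (nat_lit 0) (nat_lit 32390184175) (nat_lit 11) (nat_lit 5) (nat_lit 13) (nat_lit 4) (nat_lit 11) (nat_lit 4) (nat_lit 358) (nat_lit 283) (nat_lit 139)) (XT.lf (nat_lit 0) (nat_lit 25390771740) (nat_lit 76) (nat_lit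 106630903421) (nat_lit 76) (nat_lit 29570242074) (nat_lit 10) (nat_lit 4) (nat_lit 11) (nat_lit 5) (nat_lit 11) (nat_lit 4) (nat_lit 359) (nat_lit 283) (nat_lit 138))) (XT.nd (nat_lit 78) (nat_lit 76) (nat_lit 0) (XT.lf (nat_lit 0) (nat_lit 66220095162) (nat_lit 76) (nat_lit 89723900242) (nat_lit 76) (nat_lit 12660130525) (nat_lit 10) (nat_lit 4) (nat_lit 11) (nat_lit 5) (nat_lit 11) (nat_lit 4) (nat_lit 360) (nat_lit 283) (nat_lit 137)) (XT.nd (nat_lit 78) (nat_lit 0) (nat_lit 0) (XT.lf (nat_lit 0) (nat_lit 4930707663) (nat_lit 152) (nat_lit 66958779359) (nat_lit 76) (nat_lit 104073565510) (nat_lit 9) (nat_lit 5) (nat_lit 11) (nat_lit 5) (nat_lit 10) (nat_lit 4) (nat_lit 361) (nat_lit 283) (nat_lit 136)) (XT.lf (nat_lit 0) (nat_lit 22974013365) (nat_lit 152) (nat_lit 29972822054) (nat_lit 76) (nat_lit 130732794044) (nat_lit 9) (nat_lit 5) (nat_lit 11) (nat_lit 5) (nat_lit 10) (nat_lit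 4) (nat_lit 362) (nat_lit 283) (nat_lit 135))))) (XT.nd (nat_lit 156) (nat_lit 0) (nat_lit 0) (XT.nd (nat_lit 78) (nat_lit 0) (nat_lit 0) (XT.lf (nat_lit 0) (nat_lit 9152500232) (nat_lit 76) (nat_lit 32908346018) (nat_lit 152) (nat_lit 149714121475) (nat_lit 8) (nat_lit 5) (nat_lit 9) (nat_lit 5) (nat_lit 10) (nat_lit 4) (nat_lit 363) (nat_lit 283) (nat_lit 134)) (XT.lf (nat_lit 0) (nat_lit 51271853577) (nat_lit 76) (nat_lit 11336266140) (nat_lit 152) (nat_lit 137641648784) (nat_lit 8) (nat_lit 5) (nat_lit 9) (nat_lit 5) (nat_lit 10) (nat_lit 4) (nat_lit 364) (nat_lit 283) (nat_lit 133))) (XT.nd (nat_lit 78) (nat_lit 0) (nat_lit 0) (XT.lf (nat_lit 0) (nat_lit 84357953399) (nat_lit 152) (nat_lit 113830526392) (nat_lit 0) (nat_lit 10951070223) (nat_lit 8) (nat_lit 5) (nat_lit 10) (nat_lit 4) (nat_lit 8) (nat_lit 4) (nat_lit 365) (nat_lit 283) (nat_lit 132)) (XT.nd (nat_lit 78) (nat_lit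 0) (nat_lit 0) (XT.lf (nat_lit 0) (nat_lit 107379735166) (nat_lit 152) (nat_lit 77114220188) (nat_lit 0) (nat_lit 33970642928) (nat_lit 8) (nat_lit 5) (nat_lit 10) (nat_lit 4) (nat_lit 8) (nat_lit 4) (nat_lit 366) (nat_lit 283) (nat_lit 131)) (XT.lf (nat_lit 0) (nat_lit 131551287898) (nat_lit 152) (nat_lit 38564585652) (nat_lit 0) (nat_lit 58140091794) (nat_lit 8) (nat_lit 5) (nat_lit 10) (nat_lit 4) (nat_lit 8) (nat_lit 4) (nat_lit 367) (nat_lit 283) (nat_lit 130)))))) (XT.nd (nat_lit 390) (nat_lit 152) (nat_lit 0) (XT.nd (nat_lit 156) (nat_lit 0) (nat_lit 0) (XT.nd (nat_lit 78) (nat_lit 0) (nat_lit 0) (XT.lf (nat_lit 0) (nat_lit 1973320643) (nat_lit 76) (nat_lit 154987651335) (nat_lit 76) (nat_lit 81574451547) (nat_lit 7) (nat_lit 4) (nat_lit 8) (nat_lit 5) (nat_lit 8) (nat_lit 4) (nat_lit 368) (nat_lit 283) (nat_lit 129)) (XT.lf (nat_lit 0) (nat_lit 45874667238) (nat_lit 76) (nat_lit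 138418350985) (nat_lit 76) (nat_lit 65003242927) (nat_lit 7) (nat_lit 4) (nat_lit 8) (nat_lit 5) (nat_lit 8) (nat_lit 4) (nat_lit 369) (nat_lit 283) (nat_lit 128))) (XT.nd (nat_lit 78) (nat_lit 0) (nat_lit 0) (XT.lf (nat_lit 0) (nat_lit 91968861784) (nat_lit 76) (nat_lit 121021631702) (nat_lit 76) (nat_lit 47604706244) (nat_lit 7) (nat_lit 4) (nat_lit 8) (nat_lit 5) (nat_lit 8) (nat_lit 4) (nat_lit 370) (nat_lit 283) (nat_lit 127)) (XT.nd (nat_lit 78) (nat_lit 0) (nat_lit 0) (XT.lf (nat_lit 0) (nat_lit 140365652362) (nat_lit 76) (nat_lit 102756072727) (nat_lit 76) (nat_lit 29337416412) (nat_lit 7) (nat_lit 4) (nat_lit 8) (nat_lit 5) (nat_lit 8) (nat_lit 4) (nat_lit 371) (nat_lit 283) (nat_lit 126)) (XT.lf (nat_lit 0) (nat_lit 191180269426) (nat_lit 76) (nat_lit 83578184634) (nat_lit 76) (nat_lit 10157879884) (nat_lit 7) (nat_lit 4) (nat_lit 8) (nat_lit 5) (nat_lit 8) (nat_lit 4) (nat_lit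 372) (nat_lit 283) (nat_lit 125))))) (XT.nd (nat_lit 234) (nat_lit 0) (nat_lit 0) (XT.nd (nat_lit 78) (nat_lit 76) (nat_lit 0) (XT.lf (nat_lit 0) (nat_lit 9660160375) (nat_lit 152) (nat_lit 53618545919) (nat_lit 76) (nat_lit 234709940295) (nat_lit 6) (nat_lit 5) (nat_lit 8) (nat_lit 5) (nat_lit 7) (nat_lit 4) (nat_lit 373) (nat_lit 283) (nat_lit 124)) (XT.nd (nat_lit 78) (nat_lit 76) (nat_lit 0) (XT.lf (nat_lit 0) (nat_lit 30126749851) (nat_lit 152) (nat_lit 11663532672) (nat_lit 76) (nat_lit 269916015604) (nat_lit 6) (nat_lit 5) (nat_lit 8) (nat_lit 5) (nat_lit 7) (nat_lit 4) (nat_lit 374) (nat_lit 283) (nat_lit 123)) (XT.lf (nat_lit 0) (nat_lit 33458336814) (nat_lit 76) (nat_lit 18679775704) (nat_lit 152) (nat_lit 273945647845) (nat_lit 5) (nat_lit 5) (nat_lit 6) (nat_lit 5) (nat_lit 7) (nat_lit 4) (nat_lit 375) (nat_lit 283) (nat_lit 122)))) (XT.nd (nat_lit 78) (nat_lit 0) (nat_lit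 0) (XT.lf (nat_lit 0) (nat_lit 75537095924) (nat_lit 152) (nat_lit 260021218209) (nat_lit 0) (nat_lit 5607429238) (nat_lit 5) (nat_lit 5) (nat_lit 7) (nat_lit 4) (nat_lit 5) (nat_lit 4) (nat_lit 376) (nat_lit 283) (nat_lit 121)) (XT.nd (nat_lit 78) (nat_lit 0) (nat_lit 0) (XT.lf (nat_lit 0) (nat_lit 100411368389) (nat_lit 152) (nat_lit 226094718809) (nat_lit 0) (nat_lit 30480471615) (nat_lit 5) (nat_lit 5) (nat_lit 7) (nat_lit 4) (nat_lit 5) (nat_lit 4) (nat_lit 377) (nat_lit 283) (nat_lit 120)) (XT.lf (nat_lit 0) (nat_lit 126528510723) (nat_lit 152) (nat_lit 190473504320) (nat_lit 0) (nat_lit 56596442437) (nat_lit 5) (nat_lit 5) (nat_lit 7) (nat_lit 4) (nat_lit 5) (nat_lit 4) (nat_lit 378) (nat_lit 283) (nat_lit 119))))))))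
noncomputable def xc173 : XT := (XT.nd (nat_lit 34320) (nat_lit 0) (nat_lit 2736) (XT.nd (nat_lit 33462) (nat_lit 0) (nat_lit 5852) (XT.nd (nat_lit 390) (nat_lit 0) (nat_lit 0) (XT.nd (nat_lit 156) (nat_lit 76) (nat_lit 0) (XT.nd (nat_lit 78) (nat_lit 0) (nat_lit 0) (XT.lf (nat_lit 0) (nat_lit 153950706598) (nat_lit 152) (nat_lit 153072762327) (nat_lit 0) (nat_lit 84017522586) (nat_lit 5) (nat_lit 5) (nat_lit 7) (nat_lit 4) (nat_lit 5) (nat_lit 4) (nat_lit 379) (nat_lit 283) (nat_lit 118)) (XT.lf (nat_lit 0) (nat_lit 182743246957) (nat_lit 152) (nat_lit 113803443444) (nat_lit 0) (nat_lit 112809000349) (nat_lit 5) (nat_lit 5) (nat_lit 7) (nat_lit 4) (nat_lit 5) (nat_lit 4) (nat_lit 380) (nat_lit 283) (nat_lit 117))) (XT.nd (nat_lit 78) (nat_lit 76) (nat_lit 0) (XT.lf (nat_lit 0) (nat_lit 212974685467) (nat_lit 152) (nat_lit 72572049292) (nat_lit 0) (nat_lit 143039426863) (nat_lit 5) (nat_lit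 5) (nat_lit 7) (nat_lit 4) (nat_lit 5) (nat_lit 4) (nat_lit 381) (nat_lit 283) (nat_lit 116)) (XT.nd (nat_lit 78) (nat_lit 76) (nat_lit 0) (XT.lf (nat_lit 0) (nat_lit 244717001744) (nat_lit 152) (nat_lit 29280409886) (nat_lit 0) (nat_lit 174780779333) (nat_lit 5) (nat_lit 5) (nat_lit 7) (nat_lit 4) (nat_lit 5) (nat_lit 4) (nat_lit 382) (nat_lit 283) (nat_lit 115)) (XT.lf (nat_lit 0) (nat_lit 16709353778) (nat_lit 76) (nat_lit 261597298792) (nat_lit 76) (nat_lit 191660158471) (nat_lit 4) (nat_lit 4) (nat_lit 5) (nat_lit 5) (nat_lit 5) (nat_lit 4) (nat_lit 383) (nat_lit 283) (nat_lit 114))))) (XT.nd (nat_lit 32838) (nat_lit 0) (nat_lit 6840) (XT.nd (nat_lit 78) (nat_lit 0) (nat_lit 0) (XT.lf (nat_lit 0) (nat_lit 66013914302) (nat_lit 76) (nat_lit 248057100547) (nat_lit 76) (nat_lit 178119086026) (nat_lit 4) (nat_lit 4) (nat_lit 5) (nat_lit 5) (nat_lit 5) (nat_lit 4) (nat_lit 384) (nat_lit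 283) (nat_lit 113)) (XT.lf (nat_lit 0) (nat_lit 117782520910) (nat_lit 76) (nat_lit 233840456239) (nat_lit 76) (nat_lit 163901609146) (nat_lit 4) (nat_lit 4) (nat_lit 5) (nat_lit 5) (nat_lit 5) (nat_lit 4) (nat_lit 385) (nat_lit 283) (nat_lit 112))) (XT.nd (nat_lit 78) (nat_lit 0) (nat_lit 0) (XT.lf (nat_lit 0) (nat_lit 1774304281) (nat_lit 0) (nat_lit 1774304281) (nat_lit 684) (nat_lit 3164505946) (nat_lit 94) (nat_lit 5) (nat_lit 94) (nat_lit 3) (nat_lit 103) (nat_lit 3) (nat_lit 284) (nat_lit 284) (nat_lit 212)) (XT.nd (nat_lit 78) (nat_lit 0) (nat_lit 0) (XT.lf (nat_lit 0) (nat_lit 7666368208) (nat_lit 684) (nat_lit 3748191784) (nat_lit 760) (nat_lit 2327109544) (nat_lit 94) (nat_lit 5) (nat_lit 103) (nat_lit 3) (nat_lit 104) (nat_lit 5) (nat_lit 285) (nat_lit 284) (nat_lit 211)) (XT.lf (nat_lit 76) (nat_lit 2703372134) (nat_lit 0) (nat_lit 5638490458) (nat_lit 760) (nat_lit 5727165475)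 (nat_lit 95) (nat_lit 5) (nat_lit 94) (nat_lit 5) (nat_lit 104) (nat_lit 5) (nat_lit 286) (nat_lit 284) (nat_lit 210)))))) (XT.nd (nat_lit 390) (nat_lit 1064) (nat_lit 0) (XT.nd (nat_lit 156) (nat_lit 0) (nat_lit 0) (XT.nd (nat_lit 78) (nat_lit 0) (nat_lit 0) (XT.lf (nat_lit 0) (nat_lit 9100830370) (nat_lit 684) (nat_lit 4823379685) (nat_lit 760) (nat_lit 486097894) (nat_lit 95) (nat_lit 5) (nat_lit 104) (nat_lit 5) (nat_lit 105) (nat_lit 5) (nat_lit 287) (nat_lit 284) (nat_lit 209)) (XT.lf (nat_lit 76) (nat_lit 2004647443) (nat_lit 0) (nat_lit 7996377807) (nat_lit 760) (nat_lit 4762499170) (nat_lit 96) (nat_lit 5) (nat_lit 95) (nat_lit 5) (nat_lit 105) (nat_lit 5) (nat_lit 288) (nat_lit 284) (nat_lit 208))) (XT.nd (nat_lit 78) (nat_lit 0) (nat_lit 76) (XT.lf (nat_lit 76) (nat_lit 9328654006) (nat_lit 0) (nat_lit 1679581328) (nat_lit 760) (nat_lit 4123100898) (nat_lit 96) (nat_lit 5)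 (nat_lit 95) (nat_lit 5) (nat_lit 105) (nat_lit 5) (nat_lit 289) (nat_lit 284) (nat_lit 207)) (XT.nd (nat_lit 78) (nat_lit 0) (nat_lit 0) (XT.lf (nat_lit 76) (nat_lit 1457296836) (nat_lit 0) (nat_lit 10689950156) (nat_lit 760) (nat_lit 3366252723) (nat_lit 97) (nat_lit 5) (nat_lit 96) (nat_lit 5) (nat_lit 106) (nat_lit 5) (nat_lit 290) (nat_lit 284) (nat_lit 206)) (XT.lf (nat_lit 76) (nat_lit 9240164511) (nat_lit 0) (nat_lit 4210446359) (nat_lit 760) (nat_lit 2458821977) (nat_lit 97) (nat_lit 5) (nat_lit 96) (nat_lit 5) (nat_lit 106) (nat_lit 5) (nat_lit 291) (nat_lit 284) (nat_lit 205))))) (XT.nd (nat_lit 234) (nat_lit 456) (nat_lit 0) (XT.nd (nat_lit 78) (nat_lit 760) (nat_lit 0) (XT.lf (nat_lit 76) (nat_lit 1067232323) (nat_lit 0) (nat_lit 13792025151) (nat_lit 760) (nat_lit 1463929490) (nat_lit 98) (nat_lit 5) (nat_lit 97) (nat_lit 5) (nat_lit 107) (nat_lit 5) (nat_lit 292) (nat_lit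 284) (nat_lit 204)) (XT.nd (nat_lit 78) (nat_lit 760) (nat_lit 0) (XT.lf (nat_lit 76) (nat_lit 9337556809) (nat_lit 0) (nat_lit 7165209247) (nat_lit 760) (nat_lit 246669871) (nat_lit 98) (nat_lit 5) (nat_lit 97) (nat_lit 5) (nat_lit 107) (nat_lit 5) (nat_lit 293) (nat_lit 284) (nat_lit 203)) (XT.lf (nat_lit 76) (nat_lit 821427637) (nat_lit 0) (nat_lit 173908301) (nat_lit 836) (nat_lit 16201037361) (nat_lit 88) (nat_lit 5) (nat_lit 87) (nat_lit 5) (nat_lit 98) (nat_lit 5) (nat_lit 294) (nat_lit 284) (nat_lit 202)))) (XT.nd (nat_lit 78) (nat_lit 532) (nat_lit 0) (XT.lf (nat_lit 0) (nat_lit 2515295711) (nat_lit 760) (nat_lit 8067434187) (nat_lit 76) (nat_lit 7071543008) (nat_lit 88) (nat_lit 5) (nat_lit 98) (nat_lit 5) (nat_lit 89) (nat_lit 5) (nat_lit 295) (nat_lit 284) (nat_lit 201)) (XT.nd (nat_lit 78) (nat_lit 0) (nat_lit 0) (XT.lf (nat_lit 0) (nat_lit 660623663) (nat_lit 532) (nat_lit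 3449190740) (nat_lit 608) (nat_lit 14025348594) (nat_lit 81) (nat_lit 5) (nat_lit 88) (nat_lit 5) (nat_lit 89) (nat_lit 5) (nat_lit 296) (nat_lit 284) (nat_lit 200)) (XT.lf (nat_lit 0) (nat_lit 5971924816) (nat_lit 608) (nat_lit 8607087641) (nat_lit 76) (nat_lit 4051714271) (nat_lit 81) (nat_lit 5) (nat_lit 89) (nat_lit 5) (nat_lit 82) (nat_lit 5) (nat_lit 297) (nat_lit 284) (nat_lit 199))))))) (XT.nd (nat_lit 780) (nat_lit 1444) (nat_lit 0) (XT.nd (nat_lit 390) (nat_lit 684) (nat_lit 0) (XT.nd (nat_lit 156) (nat_lit 608) (nat_lit 0) (XT.nd (nat_lit 78) (nat_lit 0) (nat_lit 0) (XT.lf (nat_lit 0) (nat_lit 655154563) (nat_lit 380) (nat_lit 7325338508) (nat_lit 456) (nat_lit 11167929317) (nat_lit 76) (nat_lit 5) (nat_lit 81) (nat_lit 5) (nat_lit 82) (nat_lit 5) (nat_lit 298) (nat_lit 284) (nat_lit 198)) (XT.lf (nat_lit 0) (nat_lit 10229209716) (nat_lit 456) (nat_lit 9025789755) (nat_lit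 76) (nat_lit 430037704) (nat_lit 76) (nat_lit 5) (nat_lit 82) (nat_lit 5) (nat_lit 77) (nat_lit 5) (nat_lit 299) (nat_lit 284) (nat_lit 197))) (XT.nd (nat_lit 78) (nat_lit 304) (nat_lit 0) (XT.lf (nat_lit 0) (nat_lit 808007915) (nat_lit 304) (nat_lit 11902696646) (nat_lit 380) (nat_lit 7531780395) (nat_lit 72) (nat_lit 5) (nat_lit 76) (nat_lit 5) (nat_lit 77) (nat_lit 5) (nat_lit 300) (nat_lit 284) (nat_lit 196)) (XT.nd (nat_lit 78) (nat_lit 304) (nat_lit 0) (XT.lf (nat_lit 0) (nat_lit 11434229327) (nat_lit 304) (nat_lit 4022932061) (nat_lit 380) (nat_lit 5363617826) (nat_lit 72) (nat_lit 5) (nat_lit 76) (nat_lit 5) (nat_lit 77) (nat_lit 5) (nat_lit 301) (nat_lit 284) (nat_lit 195)) (XT.lf (nat_lit 0) (nat_lit 1120677072) (nat_lit 304) (nat_lit 17292719491) (nat_lit 380) (nat_lit 3010986419) (nat_lit 68) (nat_lit 5) (nat_lit 72) (nat_lit 5) (nat_lit 73) (nat_lit 5) (nat_lit 302) (nat_lit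 284) (nat_lit 194))))) (XT.nd (nat_lit 156) (nat_lit 304) (nat_lit 0) (XT.nd (nat_lit 78) (nat_lit 380) (nat_lit 0) (XT.lf (nat_lit 0) (nat_lit 12398620097) (nat_lit 304) (nat_lit 9331616285) (nat_lit 380) (nat_lit 317307646) (nat_lit 68) (nat_lit 5) (nat_lit 72) (nat_lit 5) (nat_lit 73) (nat_lit 5) (nat_lit 303) (nat_lit 284) (nat_lit 193)) (XT.lf (nat_lit 0) (nat_lit 1536392480) (nat_lit 304) (nat_lit 907560179) (nat_lit 380) (nat_lit 20255302065) (nat_lit 63) (nat_lit 5) (nat_lit 67) (nat_lit 5) (nat_lit 68) (nat_lit 5) (nat_lit 304) (nat_lit 284) (nat_lit 192))) (XT.nd (nat_lit 78) (nat_lit 304) (nat_lit 0) (XT.lf (nat_lit 0) (nat_lit 5612208568) (nat_lit 380) (nat_lit 9903714729) (nat_lit 76) (nat_lit 7853402216) (nat_lit 63) (nat_lit 5) (nat_lit 68) (nat_lit 5) (nat_lit 64) (nat_lit 5) (nat_lit 305) (nat_lit 284) (nat_lit 191)) (XT.nd (nat_lit 78) (nat_lit 0) (nat_lit 0) (XT.lf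 (nat_lit 0) (nat_lit 1954164774) (nat_lit 304) (nat_lit 7020175235) (nat_lit 380) (nat_lit 15096800463) (nat_lit 59) (nat_lit 5) (nat_lit 63) (nat_lit 5) (nat_lit 64) (nat_lit 5) (nat_lit 306) (nat_lit 284) (nat_lit 190)) (XT.lf (nat_lit 0) (nat_lit 12695054158) (nat_lit 380) (nat_lit 10095470269) (nat_lit 76) (nat_lit 2008011058) (nat_lit 59) (nat_lit 5) (nat_lit 64) (nat_lit 5) (nat_lit 60) (nat_lit 5) (nat_lit 307) (nat_lit 284) (nat_lit 189)))))) (XT.nd (nat_lit 390) (nat_lit 684) (nat_lit 0) (XT.nd (nat_lit 156) (nat_lit 532) (nat_lit 0) (XT.nd (nat_lit 78) (nat_lit 0) (nat_lit 0) (XT.lf (nat_lit 0) (nat_lit 2479810600) (nat_lit 228) (nat_lit 14266587816) (nat_lit 304) (nat_lit 8808684599) (nat_lit 56) (nat_lit 5) (nat_lit 59) (nat_lit 5) (nat_lit 60) (nat_lit 5) (nat_lit 308) (nat_lit 284) (nat_lit 188)) (XT.lf (nat_lit 0) (nat_lit 16022949874) (nat_lit 228) (nat_lit 5139384950)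 (nat_lit 304) (nat_lit 5179033746) (nat_lit 56) (nat_lit 5) (nat_lit 59) (nat_lit 5) (nat_lit 60) (nat_lit 5) (nat_lit 309) (nat_lit 284) (nat_lit 187))) (XT.nd (nat_lit 78) (nat_lit 304) (nat_lit 0) (XT.lf (nat_lit 0) (nat_lit 3094685134) (nat_lit 228) (nat_lit 22813528554) (nat_lit 304) (nat_lit 1253308759) (nat_lit 53) (nat_lit 5) (nat_lit 56) (nat_lit 5) (nat_lit 57) (nat_lit 5) (nat_lit 310) (nat_lit 284) (nat_lit 186)) (XT.nd (nat_lit 78) (nat_lit 228) (nat_lit 0) (XT.lf (nat_lit 0) (nat_lit 3030280979) (nat_lit 304) (nat_lit 10620540221) (nat_lit 76) (nat_lit 14356963923) (nat_lit 52) (nat_lit 5) (nat_lit 56) (nat_lit 5) (nat_lit 53) (nat_lit 5) (nat_lit 311) (nat_lit 284) (nat_lit 185)) (XT.lf (nat_lit 0) (nat_lit 3581327166) (nat_lit 228) (nat_lit 3952452067) (nat_lit 304) (nat_lit 21359171761) (nat_lit 49) (nat_lit 5) (nat_lit 52) (nat_lit 5) (nat_lit 53) (nat_lit 5) (nat_lit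 312) (nat_lit 284) (nat_lit 184))))) (XT.nd (nat_lit 234) (nat_lit 456) (nat_lit 0) (XT.nd (nat_lit 78) (nat_lit 228) (nat_lit 0) (XT.lf (nat_lit 0) (nat_lit 12534653771) (nat_lit 304) (nat_lit 11062609046) (nat_lit 76) (nat_lit 6211511593) (nat_lit 49) (nat_lit 5) (nat_lit 53) (nat_lit 5) (nat_lit 50) (nat_lit 5) (nat_lit 313) (nat_lit 284) (nat_lit 183)) (XT.nd (nat_lit 78) (nat_lit 0) (nat_lit 0) (XT.lf (nat_lit 0) (nat_lit 3950004329) (nat_lit 228) (nat_lit 13954516437) (nat_lit 304) (nat_lit 12859929668) (nat_lit 46) (nat_lit 5) (nat_lit 49) (nat_lit 5) (nat_lit 50) (nat_lit 5) (nat_lit 314) (nat_lit 284) (nat_lit 182)) (XT.lf (nat_lit 0) (nat_lit 20087003598) (nat_lit 228) (nat_lit 3635908838) (nat_lit 304) (nat_lit 8036004709) (nat_lit 46) (nat_lit 5) (nat_lit 49) (nat_lit 5) (nat_lit 50) (nat_lit 5) (nat_lit 315) (nat_lit 284) (nat_lit 181)))) (XT.nd (nat_lit 78) (nat_lit 304)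 (nat_lit 0) (XT.lf (nat_lit 0) (nat_lit 4240957462) (nat_lit 152) (nat_lit 25762854939) (nat_lit 228) (nat_lit 2790723406) (nat_lit 44) (nat_lit 5) (nat_lit 46) (nat_lit 5) (nat_lit 47) (nat_lit 5) (nat_lit 316) (nat_lit 284) (nat_lit 180)) (XT.nd (nat_lit 78) (nat_lit 228) (nat_lit 0) (XT.lf (nat_lit 0) (nat_lit 2883425330) (nat_lit 228) (nat_lit 12632828549) (nat_lit 76) (nat_lit 18350890031) (nat_lit 43) (nat_lit 5) (nat_lit 46) (nat_lit 5) (nat_lit 44) (nat_lit 5) (nat_lit 317) (nat_lit 284) (nat_lit 179)) (XT.lf (nat_lit 0) (nat_lit 4161686880) (nat_lit 228) (nat_lit 4644158458) (nat_lit 304) (nat_lit 26182339034) (nat_lit 40) (nat_lit 5) (nat_lit 43) (nat_lit 5) (nat_lit 44) (nat_lit 5) (nat_lit 318) (nat_lit 284) (nat_lit 178))))))))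
noncomputable def xc174 : XT := (XT.nd (nat_lit 1560) (nat_lit 760) (nat_lit 0) (XT.nd (nat_lit 780) (nat_lit 684) (nat_lit 0) (XT.nd (nat_lit 390) (nat_lit 380) (nat_lit 0) (XT.nd (nat_lit 156) (nat_lit 228) (nat_lit 0) (XT.nd (nat_lit 78) (nat_lit 152) (nat_lit 0) (XT.lf (nat_lit 0) (nat_lit 15341051904) (nat_lit 304) (nat_lit 14039144875) (nat_lit 76) (nat_lit 6769253424) (nat_lit 40) (nat_lit 5) (nat_lit 44) (nat_lit 5) (nat_lit 41) (nat_lit 5) (nat_lit 319) (nat_lit 284) (nat_lit 177)) (XT.lf (nat_lit 0) (nat_lit 3617858035) (nat_lit 152) (nat_lit 18711581778) (nat_lit 228) (nat_lit 15033024768) (nat_lit 38) (nat_lit 5) (nat_lit 40) (nat_lit 5) (nat_lit 41) (nat_lit 5) (nat_lit 320) (nat_lit 284) (nat_lit 176))) (XT.nd (nat_lit 78) (nat_lit 228) (nat_lit 0) (XT.lf (nat_lit 0) (nat_lit 22635892110) (nat_lit 152) (nat_lit 7263068162) (nat_lit 228) (nat_lit 8725589756) (nat_lit 38)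 (nat_lit 5) (nat_lit 40) (nat_lit 5) (nat_lit 41) (nat_lit 5) (nat_lit 321) (nat_lit 284) (nat_lit 175)) (XT.nd (nat_lit 78) (nat_lit 76) (nat_lit 0) (XT.lf (nat_lit 0) (nat_lit 2656805393) (nat_lit 152) (nat_lit 35300109333) (nat_lit 228) (nat_lit 1987332843) (nat_lit 36) (nat_lit 5) (nat_lit 38) (nat_lit 5) (nat_lit 39) (nat_lit 5) (nat_lit 322) (nat_lit 284) (nat_lit 174)) (XT.lf (nat_lit 0) (nat_lit 5313509260) (nat_lit 228) (nat_lit 18738783824) (nat_lit 76) (nat_lit 17254244577) (nat_lit 35) (nat_lit 5) (nat_lit 38) (nat_lit 5) (nat_lit 36) (nat_lit 5) (nat_lit 323) (nat_lit 284) (nat_lit 173))))) (XT.nd (nat_lit 156) (nat_lit 228) (nat_lit 0) (XT.nd (nat_lit 78) (nat_lit 0) (nat_lit 0) (XT.lf (nat_lit 0) (nat_lit 719092663) (nat_lit 152) (nat_lit 12199248639) (nat_lit 228) (nat_lit 29816690174) (nat_lit 33) (nat_lit 5) (nat_lit 35) (nat_lit 5) (nat_lit 36) (nat_lit 5) (nat_lit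 324) (nat_lit 284) (nat_lit 172)) (XT.lf (nat_lit 0) (nat_lit 21224403198) (nat_lit 228) (nat_lit 22436436628) (nat_lit 76) (nat_lit 558065452) (nat_lit 33) (nat_lit 5) (nat_lit 36) (nat_lit 5) (nat_lit 34) (nat_lit 5) (nat_lit 325) (nat_lit 284) (nat_lit 171))) (XT.nd (nat_lit 78) (nat_lit 228) (nat_lit 0) (XT.lf (nat_lit 0) (nat_lit 30140601269) (nat_lit 228) (nat_lit 2086266243) (nat_lit 76) (nat_lit 13540368085) (nat_lit 33) (nat_lit 5) (nat_lit 36) (nat_lit 5) (nat_lit 34) (nat_lit 5) (nat_lit 326) (nat_lit 284) (nat_lit 170)) (XT.nd (nat_lit 78) (nat_lit 76) (nat_lit 0) (XT.lf (nat_lit 0) (nat_lit 19910758193) (nat_lit 152) (nat_lit 19897804641) (nat_lit 228) (nat_lit 7569126185) (nat_lit 31) (nat_lit 5) (nat_lit 33) (nat_lit 5) (nat_lit 34) (nat_lit 5) (nat_lit 327) (nat_lit 284) (nat_lit 169)) (XT.lf (nat_lit 0) (nat_lit 893763044) (nat_lit 228) (nat_lit 6009288950) (nat_lit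 76) (nat_lit 42163369668) (nat_lit 30) (nat_lit 5) (nat_lit 33) (nat_lit 5) (nat_lit 31) (nat_lit 5) (nat_lit 328) (nat_lit 284) (nat_lit 168)))))) (XT.nd (nat_lit 390) (nat_lit 304) (nat_lit 0) (XT.nd (nat_lit 156) (nat_lit 228) (nat_lit 0) (XT.nd (nat_lit 78) (nat_lit 0) (nat_lit 0) (XT.lf (nat_lit 0) (nat_lit 9896699738) (nat_lit 228) (nat_lit 34000497319) (nat_lit 76) (nat_lit 6917629601) (nat_lit 28) (nat_lit 5) (nat_lit 31) (nat_lit 5) (nat_lit 29) (nat_lit 5) (nat_lit 329) (nat_lit 284) (nat_lit 167)) (XT.lf (nat_lit 0) (nat_lit 19561798643) (nat_lit 228) (nat_lit 11780283301) (nat_lit 76) (nat_lit 21297972703) (nat_lit 28) (nat_lit 5) (nat_lit 31) (nat_lit 5) (nat_lit 29) (nat_lit 5) (nat_lit 330) (nat_lit 284) (nat_lit 166))) (XT.nd (nat_lit 78) (nat_lit 76) (nat_lit 0) (XT.lf (nat_lit 0) (nat_lit 11925346757) (nat_lit 152) (nat_lit 17966624307) (nat_lit 228) (nat_lit 24655485388)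 (nat_lit 26) (nat_lit 5) (nat_lit 28) (nat_lit 5) (nat_lit 29) (nat_lit 5) (nat_lit 331) (nat_lit 284) (nat_lit 165)) (XT.nd (nat_lit 78) (nat_lit 76) (nat_lit 0) (XT.lf (nat_lit 0) (nat_lit 37218080346) (nat_lit 152) (nat_lit 3715803285) (nat_lit 228) (nat_lit 15606586325) (nat_lit 26) (nat_lit 5) (nat_lit 28) (nat_lit 5) (nat_lit 29) (nat_lit 5) (nat_lit 332) (nat_lit 284) (nat_lit 164)) (XT.lf (nat_lit 0) (nat_lit 5123716199) (nat_lit 76) (nat_lit 47655664363) (nat_lit 152) (nat_lit 5841182172) (nat_lit 25) (nat_lit 5) (nat_lit 26) (nat_lit 5) (nat_lit 27) (nat_lit 4) (nat_lit 333) (nat_lit 284) (nat_lit 163))))) (XT.nd (nat_lit 156) (nat_lit 228) (nat_lit 0) (XT.nd (nat_lit 78) (nat_lit 0) (nat_lit 0) (XT.lf (nat_lit 0) (nat_lit 4660685226) (nat_lit 152) (nat_lit 29467522780) (nat_lit 76) (nat_lit 26653539310) (nat_lit 24) (nat_lit 5) (nat_lit 26) (nat_lit 5) (nat_lit 25) (nat_lit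 5) (nat_lit 334) (nat_lit 284) (nat_lit 162)) (XT.lf (nat_lit 0) (nat_lit 15487445902) (nat_lit 152) (nat_lit 4339166777) (nat_lit 76) (nat_lit 43219788118) (nat_lit 24) (nat_lit 5) (nat_lit 26) (nat_lit 5) (nat_lit 25) (nat_lit 5) (nat_lit 335) (nat_lit 284) (nat_lit 161))) (XT.nd (nat_lit 78) (nat_lit 76) (nat_lit 0) (XT.lf (nat_lit 0) (nat_lit 22767965189) (nat_lit 152) (nat_lit 4439338720) (nat_lit 228) (nat_lit 38199397575) (nat_lit 22) (nat_lit 5) (nat_lit 24) (nat_lit 5) (nat_lit 25) (nat_lit 5) (nat_lit 336) (nat_lit 284) (nat_lit 160)) (XT.nd (nat_lit 78) (nat_lit 76) (nat_lit 0) (XT.lf (nat_lit 0) (nat_lit 39767110973) (nat_lit 228) (nat_lit 16690787083) (nat_lit 76) (nat_lit 11414423719) (nat_lit 22) (nat_lit 5) (nat_lit 25) (nat_lit 5) (nat_lit 23) (nat_lit 4) (nat_lit 337) (nat_lit 284) (nat_lit 159)) (XT.lf (nat_lit 0) (nat_lit 10822062424) (nat_lit 76) (nat_lit 42371085404)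 (nat_lit 152) (nat_lit 17256165543) (nat_lit 21) (nat_lit 5) (nat_lit 22) (nat_lit 5) (nat_lit 23) (nat_lit 4) (nat_lit 338) (nat_lit 284) (nat_lit 158))))))) (XT.nd (nat_lit 780) (nat_lit 304) (nat_lit 0) (XT.nd (nat_lit 390) (nat_lit 152) (nat_lit 0) (XT.nd (nat_lit 156) (nat_lit 228) (nat_lit 0) (XT.nd (nat_lit 78) (nat_lit 76) (nat_lit 0) (XT.lf (nat_lit 0) (nat_lit 40284024444) (nat_lit 76) (nat_lit 27285702323) (nat_lit 152) (nat_lit 5571467924) (nat_lit 21) (nat_lit 5) (nat_lit 22) (nat_lit 5) (nat_lit 23) (nat_lit 4) (nat_lit 339) (nat_lit 284) (nat_lit 157)) (XT.lf (nat_lit 0) (nat_lit 6479785243) (nat_lit 152) (nat_lit 4858974249) (nat_lit 76) (nat_lit 64623850164) (nat_lit 20) (nat_lit 5) (nat_lit 22) (nat_lit 5) (nat_lit 21) (nat_lit 5) (nat_lit 340) (nat_lit 284) (nat_lit 156))) (XT.nd (nat_lit 78) (nat_lit 76) (nat_lit 0) (XT.lf (nat_lit 0) (nat_lit 19429750792) (nat_lit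 228) (nat_lit 53742873408) (nat_lit 76) (nat_lit 5723736876) (nat_lit 18) (nat_lit 5) (nat_lit 21) (nat_lit 5) (nat_lit 19) (nat_lit 4) (nat_lit 341) (nat_lit 284) (nat_lit 155)) (XT.nd (nat_lit 78) (nat_lit 76) (nat_lit 0) (XT.lf (nat_lit 0) (nat_lit 33293601864) (nat_lit 228) (nat_lit 25330226142) (nat_lit 76) (nat_lit 23339654472) (nat_lit 18) (nat_lit 5) (nat_lit 21) (nat_lit 5) (nat_lit 19) (nat_lit 4) (nat_lit 342) (nat_lit 284) (nat_lit 154)) (XT.lf (nat_lit 0) (nat_lit 4646459175) (nat_lit 76) (nat_lit 43273747575) (nat_lit 152) (nat_lit 37260276827) (nat_lit 17) (nat_lit 5) (nat_lit 18) (nat_lit 5) (nat_lit 19) (nat_lit 4) (nat_lit 343) (nat_lit 284) (nat_lit 153))))) (XT.nd (nat_lit 156) (nat_lit 152) (nat_lit 0) (XT.nd (nat_lit 78) (nat_lit 0) (nat_lit 0) (XT.lf (nat_lit 0) (nat_lit 36996162636) (nat_lit 76) (nat_lit 26708036370) (nat_lit 152) (nat_lit 24832834477) (nat_lit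 17) (nat_lit 5) (nat_lit 18) (nat_lit 5) (nat_lit 19) (nat_lit 4) (nat_lit 344) (nat_lit 284) (nat_lit 152)) (XT.lf (nat_lit 0) (nat_lit 70958375675) (nat_lit 76) (nat_lit 9316231859) (nat_lit 152) (nat_lit 11786944051) (nat_lit 17) (nat_lit 5) (nat_lit 18) (nat_lit 5) (nat_lit 19) (nat_lit 4) (nat_lit 345) (nat_lit 284) (nat_lit 151))) (XT.nd (nat_lit 78) (nat_lit 0) (nat_lit 0) (XT.lf (nat_lit 0) (nat_lit 2164893997) (nat_lit 152) (nat_lit 84715638688) (nat_lit 76) (nat_lit 8864531066) (nat_lit 15) (nat_lit 5) (nat_lit 17) (nat_lit 5) (nat_lit 16) (nat_lit 4) (nat_lit 346) (nat_lit 284) (nat_lit 150)) (XT.nd (nat_lit 78) (nat_lit 0) (nat_lit 0) (XT.lf (nat_lit 0) (nat_lit 16931507411) (nat_lit 152) (nat_lit 54450235550) (nat_lit 76) (nat_lit 28195683355) (nat_lit 15) (nat_lit 5) (nat_lit 17) (nat_lit 5) (nat_lit 16) (nat_lit 4) (nat_lit 347) (nat_lit 284) (nat_lit 149)) (XT.lf (nat_lit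 0) (nat_lit 32433904424) (nat_lit 152) (nat_lit 22676182972) (nat_lit 76) (nat_lit 48491448231) (nat_lit 15) (nat_lit 5) (nat_lit 17) (nat_lit 5) (nat_lit 16) (nat_lit 4) (nat_lit 348) (nat_lit 284) (nat_lit 148)))))) (XT.nd (nat_lit 390) (nat_lit 152) (nat_lit 0) (XT.nd (nat_lit 156) (nat_lit 76) (nat_lit 0) (XT.nd (nat_lit 78) (nat_lit 0) (nat_lit 0) (XT.lf (nat_lit 0) (nat_lit 11035372386) (nat_lit 76) (nat_lit 37845916206) (nat_lit 152) (nat_lit 58937069643) (nat_lit 14) (nat_lit 5) (nat_lit 15) (nat_lit 5) (nat_lit 16) (nat_lit 4) (nat_lit 349) (nat_lit 284) (nat_lit 147)) (XT.lf (nat_lit 0) (nat_lit 47215441678) (nat_lit 76) (nat_lit 19317254553) (nat_lit 152) (nat_lit 45694244174) (nat_lit 14) (nat_lit 5) (nat_lit 15) (nat_lit 5) (nat_lit 16) (nat_lit 4) (nat_lit 350) (nat_lit 284) (nat_lit 146))) (XT.nd (nat_lit 78) (nat_lit 76) (nat_lit 0) (XT.lf (nat_lit 0) (nat_lit 85066532665)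 (nat_lit 152) (nat_lit 31657798147) (nat_lit 0) (nat_lit 131629041) (nat_lit 14) (nat_lit 5) (nat_lit 16) (nat_lit 4) (nat_lit 14) (nat_lit 4) (nat_lit 351) (nat_lit 284) (nat_lit 145)) (XT.nd (nat_lit 78) (nat_lit 0) (nat_lit 0) (XT.lf (nat_lit 0) (nat_lit 3143514859) (nat_lit 76) (nat_lit 101747117003) (nat_lit 76) (nat_lit 16807620900) (nat_lit 13) (nat_lit 4) (nat_lit 14) (nat_lit 5) (nat_lit 14) (nat_lit 4) (nat_lit 352) (nat_lit 284) (nat_lit 144)) (XT.lf (nat_lit 0) (nat_lit 40780037030) (nat_lit 76) (nat_lit 85459897130) (nat_lit 76) (nat_lit 516027237) (nat_lit 13) (nat_lit 4) (nat_lit 14) (nat_lit 5) (nat_lit 14) (nat_lit 4) (nat_lit 353) (nat_lit 284) (nat_lit 143))))) (XT.nd (nat_lit 234) (nat_lit 0) (nat_lit 0) (XT.nd (nat_lit 78) (nat_lit 76) (nat_lit 0) (XT.lf (nat_lit 0) (nat_lit 16057083481) (nat_lit 152) (nat_lit 52031014270) (nat_lit 76) (nat_lit 63965611394) (nat_lit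 12) (nat_lit 5) (nat_lit 14) (nat_lit 5) (nat_lit 13) (nat_lit 4) (nat_lit 354) (nat_lit 284) (nat_lit 142)) (XT.nd (nat_lit 78) (nat_lit 76) (nat_lit 0) (XT.lf (nat_lit 0) (nat_lit 33439532271) (nat_lit 152) (nat_lit 16400961405) (nat_lit 76) (nat_lit 87775527260) (nat_lit 12) (nat_lit 5) (nat_lit 14) (nat_lit 5) (nat_lit 13) (nat_lit 4) (nat_lit 355) (nat_lit 284) (nat_lit 141)) (XT.lf (nat_lit 0) (nat_lit 21701714717) (nat_lit 76) (nat_lit 30326331879) (nat_lit 152) (nat_lit 91411555381) (nat_lit 11) (nat_lit 5) (nat_lit 12) (nat_lit 5) (nat_lit 13) (nat_lit 4) (nat_lit 356) (nat_lit 284) (nat_lit 140)))) (XT.nd (nat_lit 78) (nat_lit 0) (nat_lit 0) (XT.lf (nat_lit 0) (nat_lit 62275515170) (nat_lit 76) (nat_lit 9546384490) (nat_lit 152) (nat_lit 77718667532) (nat_lit 11) (nat_lit 5) (nat_lit 12) (nat_lit 5) (nat_lit 13) (nat_lit 4) (nat_lit 357) (nat_lit 284) (nat_lit 139)) (XT.nd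 (nat_lit 78) (nat_lit 0) (nat_lit 0) (XT.lf (nat_lit 0) (nat_lit 92795273784) (nat_lit 152) (nat_lit 51263500619) (nat_lit 0) (nat_lit 11878315581) (nat_lit 11) (nat_lit 5) (nat_lit 13) (nat_lit 4) (nat_lit 11) (nat_lit 4) (nat_lit 358) (nat_lit 284) (nat_lit 138)) (XT.lf (nat_lit 0) (nat_lit 114972118860) (nat_lit 152) (nat_lit 13621528359) (nat_lit 0) (nat_lit 34052052286) (nat_lit 11) (nat_lit 5) (nat_lit 13) (nat_lit 4) (nat_lit 11) (nat_lit 4) (nat_lit 359) (nat_lit 284) (nat_lit 137))))))))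
noncomputable def xc175 : XT := (XT.nd (nat_lit 1638) (nat_lit 76) (nat_lit 0) (XT.nd (nat_lit 780) (nat_lit 152) (nat_lit 0) (XT.nd (nat_lit 390) (nat_lit 76) (nat_lit 0) (XT.nd (nat_lit 156) (nat_lit 152) (nat_lit 0) (XT.nd (nat_lit 78) (nat_lit 0) (nat_lit 0) (XT.lf (nat_lit 0) (nat_lit 26755889885) (nat_lit 76) (nat_lit 111918035624) (nat_lit 76) (nat_lit 30995008697) (nat_lit 10) (nat_lit 4) (nat_lit 11) (nat_lit 5) (nat_lit 11) (nat_lit 4) (nat_lit 360) (nat_lit 284) (nat_lit 136)) (XT.lf (nat_lit 0) (nat_lit 69622128070) (nat_lit 76) (nat_lit 94167797190) (nat_lit 76) (nat_lit 13241950879) (nat_lit 10) (nat_lit 4) (nat_lit 11) (nat_lit 5) (nat_lit 11) (nat_lit 4) (nat_lit 361) (nat_lit 284) (nat_lit 135))) (XT.nd (nat_lit 78) (nat_lit 76) (nat_lit 0) (XT.lf (nat_lit 0) (nat_lit 5224431518) (nat_lit 152) (nat_lit 70218446825) (nat_lit 76) (nat_lit 109315949630) (nat_lit 9) (nat_lit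 5) (nat_lit 11) (nat_lit 5) (nat_lit 10) (nat_lit 4) (nat_lit 362) (nat_lit 284) (nat_lit 134)) (XT.nd (nat_lit 78) (nat_lit 76) (nat_lit 0) (XT.lf (nat_lit 0) (nat_lit 24167655435) (nat_lit 152) (nat_lit 31387395059) (nat_lit 76) (nat_lit 137306296456) (nat_lit 9) (nat_lit 5) (nat_lit 11) (nat_lit 5) (nat_lit 10) (nat_lit 4) (nat_lit 363) (nat_lit 284) (nat_lit 133)) (XT.lf (nat_lit 0) (nat_lit 9692837404) (nat_lit 76) (nat_lit 34515143861) (nat_lit 152) (nat_lit 157153514099) (nat_lit 8) (nat_lit 5) (nat_lit 9) (nat_lit 5) (nat_lit 10) (nat_lit 4) (nat_lit 364) (nat_lit 284) (nat_lit 132))))) (XT.nd (nat_lit 156) (nat_lit 76) (nat_lit 0) (XT.nd (nat_lit 78) (nat_lit 0) (nat_lit 0) (XT.lf (nat_lit 0) (nat_lit 53914219742) (nat_lit 76) (nat_lit 11866299012) (nat_lit 152) (nat_lit 144479623176) (nat_lit 8) (nat_lit 5) (nat_lit 9) (nat_lit 5) (nat_lit 10) (nat_lit 4) (nat_lit 365) (nat_lit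 284) (nat_lit 131)) (XT.lf (nat_lit 0) (nat_lit 88616391352) (nat_lit 152) (nat_lit 119445562962) (nat_lit 0) (nat_lit 11532531574) (nat_lit 8) (nat_lit 5) (nat_lit 10) (nat_lit 4) (nat_lit 8) (nat_lit 4) (nat_lit 366) (nat_lit 284) (nat_lit 130))) (XT.nd (nat_lit 78) (nat_lit 76) (nat_lit 0) (XT.lf (nat_lit 0) (nat_lit 112787331717) (nat_lit 152) (nat_lit 80897083817) (nat_lit 0) (nat_lit 35701468256) (nat_lit 8) (nat_lit 5) (nat_lit 10) (nat_lit 4) (nat_lit 8) (nat_lit 4) (nat_lit 367) (nat_lit 284) (nat_lit 129)) (XT.nd (nat_lit 78) (nat_lit 76) (nat_lit 0) (XT.lf (nat_lit 0) (nat_lit 138165623524) (nat_lit 152) (nat_lit 40423436477) (nat_lit 0) (nat_lit 61077851793) (nat_lit 8) (nat_lit 5) (nat_lit 10) (nat_lit 4) (nat_lit 8) (nat_lit 4) (nat_lit 368) (nat_lit 284) (nat_lit 128)) (XT.lf (nat_lit 0) (nat_lit 2140246125) (nat_lit 76) (nat_lit 162704860394) (nat_lit 76) (nat_lit 85615271263)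 (nat_lit 7) (nat_lit 4) (nat_lit 8) (nat_lit 5) (nat_lit 8) (nat_lit 4) (nat_lit 369) (nat_lit 284) (nat_lit 127)))))) (XT.nd (nat_lit 390) (nat_lit 76) (nat_lit 0) (XT.nd (nat_lit 156) (nat_lit 76) (nat_lit 0) (XT.nd (nat_lit 78) (nat_lit 0) (nat_lit 0) (XT.lf (nat_lit 0) (nat_lit 48233409600) (nat_lit 76) (nat_lit 145308627097) (nat_lit 76) (nat_lit 68217307109) (nat_lit 7) (nat_lit 4) (nat_lit 8) (nat_lit 5) (nat_lit 8) (nat_lit 4) (nat_lit 370) (nat_lit 284) (nat_lit 126)) (XT.lf (nat_lit 0) (nat_lit 96629218206) (nat_lit 76) (nat_lit 127043530967) (nat_lit 76) (nat_lit 49950562543) (nat_lit 7) (nat_lit 4) (nat_lit 8) (nat_lit 5) (nat_lit 8) (nat_lit 4) (nat_lit 371) (nat_lit 284) (nat_lit 125))) (XT.nd (nat_lit 78) (nat_lit 76) (nat_lit 0) (XT.lf (nat_lit 0) (nat_lit 147442900059) (nat_lit 76) (nat_lit 107866083677) (nat_lit 76) (nat_lit 30771545316) (nat_lit 7) (nat_lit 4) (nat_lit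 8) (nat_lit 5) (nat_lit 8) (nat_lit 4) (nat_lit 372) (nat_lit 284) (nat_lit 124)) (XT.nd (nat_lit 78) (nat_lit 76) (nat_lit 0) (XT.lf (nat_lit 0) (nat_lit 200795440116) (nat_lit 76) (nat_lit 87730624641) (nat_lit 76) (nat_lit 10634591100) (nat_lit 7) (nat_lit 4) (nat_lit 8) (nat_lit 5) (nat_lit 8) (nat_lit 4) (nat_lit 373) (nat_lit 284) (nat_lit 123)) (XT.lf (nat_lit 0) (nat_lit 10171915760) (nat_lit 152) (nat_lit 56245030213) (nat_lit 76) (nat_lit 246469686158) (nat_lit 6) (nat_lit 5) (nat_lit 8) (nat_lit 5) (nat_lit 7) (nat_lit 4) (nat_lit 374) (nat_lit 284) (nat_lit 122))))) (XT.nd (nat_lit 234) (nat_lit 0) (nat_lit 0) (XT.nd (nat_lit 78) (nat_lit 76) (nat_lit 0) (XT.lf (nat_lit 0) (nat_lit 31660465788) (nat_lit 152) (nat_lit 12194858826) (nat_lit 76) (nat_lit 283434910525) (nat_lit 6) (nat_lit 5) (nat_lit 8) (nat_lit 5) (nat_lit 7) (nat_lit 4) (nat_lit 375) (nat_lit 284) (nat_lit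 121)) (XT.nd (nat_lit 78) (nat_lit 0) (nat_lit 0) (XT.lf (nat_lit 0) (nat_lit 35182267835) (nat_lit 76) (nat_lit 19589621491) (nat_lit 152) (nat_lit 287614706951) (nat_lit 5) (nat_lit 5) (nat_lit 6) (nat_lit 5) (nat_lit 7) (nat_lit 4) (nat_lit 376) (nat_lit 284) (nat_lit 120)) (XT.lf (nat_lit 0) (nat_lit 79339901313) (nat_lit 152) (nat_lit 272972765459) (nat_lit 0) (nat_lit 5910058101) (nat_lit 5) (nat_lit 5) (nat_lit 7) (nat_lit 4) (nat_lit 5) (nat_lit 4) (nat_lit 377) (nat_lit 284) (nat_lit 119)))) (XT.nd (nat_lit 78) (nat_lit 0) (nat_lit 0) (XT.lf (nat_lit 0) (nat_lit 105456651659) (nat_lit 152) (nat_lit 237352298882) (nat_lit 0) (nat_lit 32025692721) (nat_lit 5) (nat_lit 5) (nat_lit 7) (nat_lit 4) (nat_lit 5) (nat_lit 4) (nat_lit 378) (nat_lit 284) (nat_lit 118)) (XT.nd (nat_lit 78) (nat_lit 0) (nat_lit 0) (XT.lf (nat_lit 0) (nat_lit 132878474212) (nat_lit 152) (nat_lit 199952269186)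 (nat_lit 0) (nat_lit 59446452678) (nat_lit 5) (nat_lit 5) (nat_lit 7) (nat_lit 4) (nat_lit 5) (nat_lit 4) (nat_lit 379) (nat_lit 284) (nat_lit 117)) (XT.lf (nat_lit 0) (nat_lit 161670659026) (nat_lit 152) (nat_lit 160683628682) (nat_lit 0) (nat_lit 88237625496) (nat_lit 5) (nat_lit 5) (nat_lit 7) (nat_lit 4) (nat_lit 5) (nat_lit 4) (nat_lit 380) (nat_lit 284) (nat_lit 116))))))) (XT.nd (nat_lit 33540) (nat_lit 0) (nat_lit 5472) (XT.nd (nat_lit 33150) (nat_lit 0) (nat_lit 6840) (XT.nd (nat_lit 156) (nat_lit 76) (nat_lit 0) (XT.nd (nat_lit 78) (nat_lit 0) (nat_lit 0) (XT.lf (nat_lit 0) (nat_lit 191901758922) (nat_lit 152) (nat_lit 119452880605) (nat_lit 0) (nat_lit 118467761585) (nat_lit 5) (nat_lit 5) (nat_lit 7) (nat_lit 4) (nat_lit 5) (nat_lit 4) (nat_lit 381) (nat_lit 284) (nat_lit 115)) (XT.lf (nat_lit 0) (nat_lit 223643752709) (nat_lit 152) (nat_lit 76161856508) (nat_lit 0) (nat_lit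 150208837462) (nat_lit 5) (nat_lit 5) (nat_lit 7) (nat_lit 4) (nat_lit 5) (nat_lit 4) (nat_lit 382) (nat_lit 284) (nat_lit 114))) (XT.nd (nat_lit 78) (nat_lit 76) (nat_lit 0) (XT.lf (nat_lit 0) (nat_lit 256972216563) (nat_lit 152) (nat_lit 30707482524) (nat_lit 0) (nat_lit 183536427115) (nat_lit 5) (nat_lit 5) (nat_lit 7) (nat_lit 4) (nat_lit 5) (nat_lit 4) (nat_lit 383) (nat_lit 284) (nat_lit 113)) (XT.nd (nat_lit 78) (nat_lit 0) (nat_lit 0) (XT.lf (nat_lit 0) (nat_lit 17581173390) (nat_lit 76) (nat_lit 274659821966) (nat_lit 76) (nat_lit 201223199947) (nat_lit 4) (nat_lit 4) (nat_lit 5) (nat_lit 5) (nat_lit 5) (nat_lit 4) (nat_lit 384) (nat_lit 284) (nat_lit 112)) (XT.lf (nat_lit 0) (nat_lit 69349230896) (nat_lit 76) (nat_lit 260443439608) (nat_lit 76) (nat_lit 187006024663) (nat_lit 4) (nat_lit 4) (nat_lit 5) (nat_lit 5) (nat_lit 5) (nat_lit 4) (nat_lit 385) (nat_lit 284) (nat_lit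 111))))) (XT.nd (nat_lit 156) (nat_lit 0) (nat_lit 0) (XT.nd (nat_lit 78) (nat_lit 0) (nat_lit 0) (XT.lf (nat_lit 0) (nat_lit 2037347887) (nat_lit 0) (nat_lit 2037347887) (nat_lit 684) (nat_lit 2956022269) (nat_lit 94) (nat_lit 5) (nat_lit 94) (nat_lit 3) (nat_lit 103) (nat_lit 3) (nat_lit 285) (nat_lit 285) (nat_lit 210)) (XT.lf (nat_lit 0) (nat_lit 8708610483) (nat_lit 684) (nat_lit 3563977873) (nat_lit 760) (nat_lit 2122038746) (nat_lit 94) (nat_lit 5) (nat_lit 103) (nat_lit 3) (nat_lit 104) (nat_lit 5) (nat_lit 286) (nat_lit 285) (nat_lit 209))) (XT.nd (nat_lit 78) (nat_lit 0) (nat_lit 76) (XT.lf (nat_lit 76) (nat_lit 3204170314) (nat_lit 0) (nat_lit 6188040448) (nat_lit 760) (nat_lit 5347482416) (nat_lit 95) (nat_lit 5) (nat_lit 94) (nat_lit 5) (nat_lit 104) (nat_lit 5) (nat_lit 287) (nat_lit 285) (nat_lit 208)) (XT.nd (nat_lit 78) (nat_lit 0) (nat_lit 0) (XT.lf (nat_lit 0) (nat_lit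 10154992514) (nat_lit 684) (nat_lit 4681125575) (nat_lit 760) (nat_lit 263679187) (nat_lit 95) (nat_lit 5) (nat_lit 104) (nat_lit 5) (nat_lit 105) (nat_lit 5) (nat_lit 288) (nat_lit 285) (nat_lit 207)) (XT.lf (nat_lit 76) (nat_lit 2482118665) (nat_lit 0) (nat_lit 8595438674) (nat_lit 760) (nat_lit 4394300175) (nat_lit 96) (nat_lit 5) (nat_lit 95) (nat_lit 5) (nat_lit 105) (nat_lit 5) (nat_lit 289) (nat_lit 285) (nat_lit 206)))))) (XT.nd (nat_lit 390) (nat_lit 836) (nat_lit 0) (XT.nd (nat_lit 156) (nat_lit 608) (nat_lit 0) (XT.nd (nat_lit 78) (nat_lit 0) (nat_lit 76) (XT.lf (nat_lit 76) (nat_lit 10154361802) (nat_lit 0) (nat_lit 1953314658) (nat_lit 760) (nat_lit 3751804559) (nat_lit 96) (nat_lit 5) (nat_lit 95) (nat_lit 5) (nat_lit 105) (nat_lit 5) (nat_lit 290) (nat_lit 285) (nat_lit 205)) (XT.lf (nat_lit 76) (nat_lit 1914520431) (nat_lit 0) (nat_lit 11366153413) (nat_lit 760) (nat_lit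 2981273293) (nat_lit 97) (nat_lit 5) (nat_lit 96) (nat_lit 5) (nat_lit 106) (nat_lit 5) (nat_lit 291) (nat_lit 285) (nat_lit 204))) (XT.nd (nat_lit 78) (nat_lit 684) (nat_lit 0) (XT.lf (nat_lit 76) (nat_lit 10068228692) (nat_lit 0) (nat_lit 4555926533) (nat_lit 760) (nat_lit 2054818251) (nat_lit 97) (nat_lit 5) (nat_lit 96) (nat_lit 5) (nat_lit 106) (nat_lit 5) (nat_lit 292) (nat_lit 285) (nat_lit 203)) (XT.nd (nat_lit 78) (nat_lit 760) (nat_lit 0) (XT.lf (nat_lit 76) (nat_lit 1508331623) (nat_lit 0) (nat_lit 14575091673) (nat_lit 760) (nat_lit 1031024465) (nat_lit 98) (nat_lit 5) (nat_lit 97) (nat_lit 5) (nat_lit 107) (nat_lit 5) (nat_lit 293) (nat_lit 285) (nat_lit 202)) (XT.lf (nat_lit 0) (nat_lit 215860732) (nat_lit 760) (nat_lit 7392967809) (nat_lit 836) (nat_lit 9954192196) (nat_lit 87) (nat_lit 5) (nat_lit 97) (nat_lit 5) (nat_lit 98) (nat_lit 5) (nat_lit 294) (nat_lit 285) (nat_lit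 201))))) (XT.nd (nat_lit 234) (nat_lit 380) (nat_lit 0) (XT.nd (nat_lit 78) (nat_lit 456) (nat_lit 0) (XT.lf (nat_lit 76) (nat_lit 1241743395) (nat_lit 0) (nat_lit 253636953) (nat_lit 836) (nat_lit 16537573492) (nat_lit 88) (nat_lit 5) (nat_lit 87) (nat_lit 5) (nat_lit 98) (nat_lit 5) (nat_lit 295) (nat_lit 285) (nat_lit 200)) (XT.nd (nat_lit 78) (nat_lit 532) (nat_lit 0) (XT.lf (nat_lit 0) (nat_lit 3068840101) (nat_lit 760) (nat_lit 8086433012) (nat_lit 76) (nat_lit 7359634702) (nat_lit 88) (nat_lit 5) (nat_lit 98) (nat_lit 5) (nat_lit 89) (nat_lit 5) (nat_lit 296) (nat_lit 285) (nat_lit 199)) (XT.lf (nat_lit 0) (nat_lit 1071828168) (nat_lit 532) (nat_lit 3656790448) (nat_lit 608) (nat_lit 14291979946) (nat_lit 81) (nat_lit 5) (nat_lit 88) (nat_lit 5) (nat_lit 89) (nat_lit 5) (nat_lit 297) (nat_lit 285) (nat_lit 198)))) (XT.nd (nat_lit 78) (nat_lit 380) (nat_lit 0) (XT.lf (nat_lit 0)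 (nat_lit 6663630443) (nat_lit 608) (nat_lit 8656447220) (nat_lit 76) (nat_lit 4221904303) (nat_lit 81) (nat_lit 5) (nat_lit 89) (nat_lit 5) (nat_lit 82) (nat_lit 5) (nat_lit 298) (nat_lit 285) (nat_lit 197)) (XT.nd (nat_lit 78) (nat_lit 0) (nat_lit 0) (XT.lf (nat_lit 0) (nat_lit 1062762017) (nat_lit 380) (nat_lit 7696998054) (nat_lit 456) (nat_lit 11326475482) (nat_lit 76) (nat_lit 5) (nat_lit 81) (nat_lit 5) (nat_lit 82) (nat_lit 5) (nat_lit 299) (nat_lit 285) (nat_lit 196)) (XT.lf (nat_lit 0) (nat_lit 11102725585) (nat_lit 456) (nat_lit 9101325077) (nat_lit 76) (nat_lit 446568139) (nat_lit 76) (nat_lit 5) (nat_lit 82) (nat_lit 5) (nat_lit 77) (nat_lit 5) (nat_lit 300) (nat_lit 285) (nat_lit 195))))))))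
noncomputable def xc176 : XT := (XT.nd (nat_lit 1560) (nat_lit 1520) (nat_lit 0) (XT.nd (nat_lit 780) (nat_lit 1216) (nat_lit 0) (XT.nd (nat_lit 390) (nat_lit 532) (nat_lit 0) (XT.nd (nat_lit 156) (nat_lit 684) (nat_lit 0) (XT.nd (nat_lit 78) (nat_lit 0) (nat_lit 0) (XT.lf (nat_lit 0) (nat_lit 1218101926) (nat_lit 304) (nat_lit 12478724467) (nat_lit 380) (nat_lit 7539713038) (nat_lit 72) (nat_lit 5) (nat_lit 76) (nat_lit 5) (nat_lit 77) (nat_lit 5) (nat_lit 301) (nat_lit 285) (nat_lit 194)) (XT.lf (nat_lit 0) (nat_lit 12358029951) (nat_lit 304) (nat_lit 4205881511) (nat_lit 380) (nat_lit 5280697406) (nat_lit 72) (nat_lit 5) (nat_lit 76) (nat_lit 5) (nat_lit 77) (nat_lit 5) (nat_lit 302) (nat_lit 285) (nat_lit 193))) (XT.nd (nat_lit 78) (nat_lit 380) (nat_lit 0) (XT.lf (nat_lit 0) (nat_lit 1539773437) (nat_lit 304) (nat_lit 18118224341) (nat_lit 380) (nat_lit 2820917586) (nat_lit 68)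 (nat_lit 5) (nat_lit 72) (nat_lit 5) (nat_lit 73) (nat_lit 5) (nat_lit 303) (nat_lit 285) (nat_lit 192)) (XT.nd (nat_lit 78) (nat_lit 380) (nat_lit 0) (XT.lf (nat_lit 0) (nat_lit 13364324922) (nat_lit 304) (nat_lit 9760929362) (nat_lit 380) (nat_lit 8774786) (nat_lit 68) (nat_lit 5) (nat_lit 72) (nat_lit 5) (nat_lit 73) (nat_lit 5) (nat_lit 304) (nat_lit 285) (nat_lit 191)) (XT.lf (nat_lit 0) (nat_lit 1964061685) (nat_lit 304) (nat_lit 906628707) (nat_lit 380) (nat_lit 20947876613) (nat_lit 63) (nat_lit 5) (nat_lit 67) (nat_lit 5) (nat_lit 68) (nat_lit 5) (nat_lit 305) (nat_lit 285) (nat_lit 190))))) (XT.nd (nat_lit 156) (nat_lit 228) (nat_lit 0) (XT.nd (nat_lit 78) (nat_lit 304) (nat_lit 0) (XT.lf (nat_lit 0) (nat_lit 6183545778) (nat_lit 380) (nat_lit 10050541402) (nat_lit 76) (nat_lit 8288764982) (nat_lit 63) (nat_lit 5) (nat_lit 68) (nat_lit 5) (nat_lit 64) (nat_lit 5) (nat_lit 306)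 (nat_lit 285) (nat_lit 189)) (XT.lf (nat_lit 0) (nat_lit 2394613380) (nat_lit 304) (nat_lit 7310677415) (nat_lit 380) (nat_lit 15554910928) (nat_lit 59) (nat_lit 5) (nat_lit 63) (nat_lit 5) (nat_lit 64) (nat_lit 5) (nat_lit 307) (nat_lit 285) (nat_lit 188))) (XT.nd (nat_lit 78) (nat_lit 228) (nat_lit 0) (XT.lf (nat_lit 0) (nat_lit 13599500641) (nat_lit 380) (nat_lit 10260918580) (nat_lit 76) (nat_lit 2164192556) (nat_lit 59) (nat_lit 5) (nat_lit 64) (nat_lit 5) (nat_lit 60) (nat_lit 5) (nat_lit 308) (nat_lit 285) (nat_lit 187)) (XT.nd (nat_lit 78) (nat_lit 0) (nat_lit 0) (XT.lf (nat_lit 0) (nat_lit 2937653345) (nat_lit 228) (nat_lit 14908128575) (nat_lit 304) (nat_lit 8973603693) (nat_lit 56) (nat_lit 5) (nat_lit 59) (nat_lit 5) (nat_lit 60) (nat_lit 5) (nat_lit 309) (nat_lit 285) (nat_lit 186)) (XT.lf (nat_lit 0) (nat_lit 17142051858) (nat_lit 228) (nat_lit 5327984072) (nat_lit 304)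 (nat_lit 5175590066) (nat_lit 56) (nat_lit 5) (nat_lit 59) (nat_lit 5) (nat_lit 60) (nat_lit 5) (nat_lit 310) (nat_lit 285) (nat_lit 185)))))) (XT.nd (nat_lit 390) (nat_lit 456) (nat_lit 0) (XT.nd (nat_lit 156) (nat_lit 456) (nat_lit 0) (XT.nd (nat_lit 78) (nat_lit 76) (nat_lit 0) (XT.lf (nat_lit 0) (nat_lit 3573799724) (nat_lit 228) (nat_lit 23873605148) (nat_lit 304) (nat_lit 1059688687) (nat_lit 53) (nat_lit 5) (nat_lit 56) (nat_lit 5) (nat_lit 57) (nat_lit 5) (nat_lit 311) (nat_lit 285) (nat_lit 184)) (XT.lf (nat_lit 0) (nat_lit 3418064336) (nat_lit 304) (nat_lit 10834534843) (nat_lit 76) (nat_lit 15143475128) (nat_lit 52) (nat_lit 5) (nat_lit 56) (nat_lit 5) (nat_lit 53) (nat_lit 5) (nat_lit 312) (nat_lit 285) (nat_lit 183))) (XT.nd (nat_lit 78) (nat_lit 228) (nat_lit 0) (XT.lf (nat_lit 0) (nat_lit 4072312488) (nat_lit 228) (nat_lit 4068044024) (nat_lit 304) (nat_lit 22185474656)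 (nat_lit 49) (nat_lit 5) (nat_lit 52) (nat_lit 5) (nat_lit 53) (nat_lit 5) (nat_lit 313) (nat_lit 285) (nat_lit 182)) (XT.nd (nat_lit 78) (nat_lit 228) (nat_lit 0) (XT.lf (nat_lit 0) (nat_lit 13381547455) (nat_lit 304) (nat_lit 11308686535) (nat_lit 76) (nat_lit 6597711128) (nat_lit 49) (nat_lit 5) (nat_lit 53) (nat_lit 5) (nat_lit 50) (nat_lit 5) (nat_lit 314) (nat_lit 285) (nat_lit 181)) (XT.lf (nat_lit 0) (nat_lit 4449605041) (nat_lit 228) (nat_lit 14564535537) (nat_lit 304) (nat_lit 13277565106) (nat_lit 46) (nat_lit 5) (nat_lit 49) (nat_lit 5) (nat_lit 50) (nat_lit 5) (nat_lit 315) (nat_lit 285) (nat_lit 180))))) (XT.nd (nat_lit 156) (nat_lit 304) (nat_lit 0) (XT.nd (nat_lit 78) (nat_lit 152) (nat_lit 0) (XT.lf (nat_lit 0) (nat_lit 21379068536) (nat_lit 228) (nat_lit 3734174069) (nat_lit 304) (nat_lit 8223175377) (nat_lit 46) (nat_lit 5) (nat_lit 49) (nat_lit 5) (nat_lit 50) (nat_lit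 5) (nat_lit 316) (nat_lit 285) (nat_lit 179)) (XT.lf (nat_lit 0) (nat_lit 4745072978) (nat_lit 152) (nat_lit 26959193549) (nat_lit 228) (nat_lit 2719758329) (nat_lit 44) (nat_lit 5) (nat_lit 46) (nat_lit 5) (nat_lit 47) (nat_lit 5) (nat_lit 317) (nat_lit 285) (nat_lit 178))) (XT.nd (nat_lit 78) (nat_lit 228) (nat_lit 0) (XT.lf (nat_lit 0) (nat_lit 3221657447) (nat_lit 228) (nat_lit 12979690100) (nat_lit 76) (nat_lit 19349246829) (nat_lit 43) (nat_lit 5) (nat_lit 46) (nat_lit 5) (nat_lit 44) (nat_lit 5) (nat_lit 318) (nat_lit 285) (nat_lit 177)) (XT.nd (nat_lit 78) (nat_lit 0) (nat_lit 0) (XT.lf (nat_lit 0) (nat_lit 4649957876) (nat_lit 228) (nat_lit 4785374085) (nat_lit 304) (nat_lit 27292607925) (nat_lit 40) (nat_lit 5) (nat_lit 43) (nat_lit 5) (nat_lit 44) (nat_lit 5) (nat_lit 319) (nat_lit 285) (nat_lit 176)) (XT.lf (nat_lit 0) (nat_lit 16289642595) (nat_lit 304) (nat_lit 14466416678)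 (nat_lit 76) (nat_lit 7191601785) (nat_lit 40) (nat_lit 5) (nat_lit 44) (nat_lit 5) (nat_lit 41) (nat_lit 5) (nat_lit 320) (nat_lit 285) (nat_lit 175))))))) (XT.nd (nat_lit 780) (nat_lit 608) (nat_lit 0) (XT.nd (nat_lit 390) (nat_lit 380) (nat_lit 0) (XT.nd (nat_lit 156) (nat_lit 380) (nat_lit 0) (XT.nd (nat_lit 78) (nat_lit 0) (nat_lit 0) (XT.lf (nat_lit 0) (nat_lit 4069005967) (nat_lit 152) (nat_lit 19554018699) (nat_lit 228) (nat_lit 15598531548) (nat_lit 38) (nat_lit 5) (nat_lit 40) (nat_lit 5) (nat_lit 41) (nat_lit 5) (nat_lit 321) (nat_lit 285) (nat_lit 174)) (XT.lf (nat_lit 0) (nat_lit 24025072459) (nat_lit 152) (nat_lit 7537514744) (nat_lit 228) (nat_lit 8984588807) (nat_lit 38) (nat_lit 5) (nat_lit 40) (nat_lit 5) (nat_lit 41) (nat_lit 5) (nat_lit 322) (nat_lit 285) (nat_lit 173))) (XT.nd (nat_lit 78) (nat_lit 228) (nat_lit 0) (XT.lf (nat_lit 0) (nat_lit 3049980185) (nat_lit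 152) (nat_lit 36970810429) (nat_lit 228) (nat_lit 1912208233) (nat_lit 36) (nat_lit 5) (nat_lit 38) (nat_lit 5) (nat_lit 39) (nat_lit 5) (nat_lit 323) (nat_lit 285) (nat_lit 172)) (XT.nd (nat_lit 78) (nat_lit 152) (nat_lit 0) (XT.lf (nat_lit 0) (nat_lit 5740048002) (nat_lit 228) (nat_lit 19422321753) (nat_lit 76) (nat_lit 18201306869) (nat_lit 35) (nat_lit 5) (nat_lit 38) (nat_lit 5) (nat_lit 36) (nat_lit 5) (nat_lit 324) (nat_lit 285) (nat_lit 171)) (XT.lf (nat_lit 0) (nat_lit 1004361442) (nat_lit 152) (nat_lit 12716992541) (nat_lit 228) (nat_lit 31142436424) (nat_lit 33) (nat_lit 5) (nat_lit 35) (nat_lit 5) (nat_lit 36) (nat_lit 5) (nat_lit 325) (nat_lit 285) (nat_lit 170))))) (XT.nd (nat_lit 156) (nat_lit 380) (nat_lit 0) (XT.nd (nat_lit 78) (nat_lit 0) (nat_lit 0) (XT.lf (nat_lit 0) (nat_lit 22436609457) (nat_lit 228) (nat_lit 23314575602) (nat_lit 76) (nat_lit 670984878) (nat_lit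 33) (nat_lit 5) (nat_lit 36) (nat_lit 5) (nat_lit 34) (nat_lit 5) (nat_lit 326) (nat_lit 285) (nat_lit 169)) (XT.lf (nat_lit 0) (nat_lit 31791427618) (nat_lit 228) (nat_lit 1958500643) (nat_lit 76) (nat_lit 14298354254) (nat_lit 33) (nat_lit 5) (nat_lit 36) (nat_lit 5) (nat_lit 34) (nat_lit 5) (nat_lit 327) (nat_lit 285) (nat_lit 168))) (XT.nd (nat_lit 78) (nat_lit 228) (nat_lit 0) (XT.lf (nat_lit 0) (nat_lit 21134631806) (nat_lit 152) (nat_lit 20804872974) (nat_lit 228) (nat_lit 7799923909) (nat_lit 31) (nat_lit 5) (nat_lit 33) (nat_lit 5) (nat_lit 34) (nat_lit 5) (nat_lit 328) (nat_lit 285) (nat_lit 167)) (XT.nd (nat_lit 78) (nat_lit 152) (nat_lit 0) (XT.lf (nat_lit 0) (nat_lit 1074577471) (nat_lit 228) (nat_lit 6087681854) (nat_lit 76) (nat_lit 44350569086) (nat_lit 30) (nat_lit 5) (nat_lit 33) (nat_lit 5) (nat_lit 31) (nat_lit 5) (nat_lit 329) (nat_lit 285) (nat_lit 166)) (XT.lf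 (nat_lit 0) (nat_lit 10525923904) (nat_lit 228) (nat_lit 35476610670) (nat_lit 76) (nat_lit 7346211082) (nat_lit 28) (nat_lit 5) (nat_lit 31) (nat_lit 5) (nat_lit 29) (nat_lit 5) (nat_lit 330) (nat_lit 285) (nat_lit 165)))))) (XT.nd (nat_lit 390) (nat_lit 304) (nat_lit 0) (XT.nd (nat_lit 156) (nat_lit 152) (nat_lit 0) (XT.nd (nat_lit 78) (nat_lit 152) (nat_lit 0) (XT.lf (nat_lit 0) (nat_lit 20667878270) (nat_lit 228) (nat_lit 12156048404) (nat_lit 76) (nat_lit 22441633244) (nat_lit 28) (nat_lit 5) (nat_lit 31) (nat_lit 5) (nat_lit 29) (nat_lit 5) (nat_lit 331) (nat_lit 285) (nat_lit 164)) (XT.lf (nat_lit 0) (nat_lit 12731423656) (nat_lit 152) (nat_lit 18780316624) (nat_lit 228) (nat_lit 25756737150) (nat_lit 26) (nat_lit 5) (nat_lit 28) (nat_lit 5) (nat_lit 29) (nat_lit 5) (nat_lit 332) (nat_lit 285) (nat_lit 163))) (XT.nd (nat_lit 78) (nat_lit 152) (nat_lit 0) (XT.lf (nat_lit 0) (nat_lit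 39278802993) (nat_lit 152) (nat_lit 3820984975) (nat_lit 228) (nat_lit 16261656111) (nat_lit 26) (nat_lit 5) (nat_lit 28) (nat_lit 5) (nat_lit 29) (nat_lit 5) (nat_lit 333) (nat_lit 285) (nat_lit 162)) (XT.nd (nat_lit 78) (nat_lit 76) (nat_lit 0) (XT.lf (nat_lit 0) (nat_lit 5581211337) (nat_lit 76) (nat_lit 49955013331) (nat_lit 152) (nat_lit 6009387813) (nat_lit 25) (nat_lit 5) (nat_lit 26) (nat_lit 5) (nat_lit 27) (nat_lit 4) (nat_lit 334) (nat_lit 285) (nat_lit 161)) (XT.lf (nat_lit 0) (nat_lit 5007899852) (nat_lit 152) (nat_lit 30745323664) (nat_lit 76) (nat_lit 28061825380) (nat_lit 24) (nat_lit 5) (nat_lit 26) (nat_lit 5) (nat_lit 25) (nat_lit 5) (nat_lit 335) (nat_lit 285) (nat_lit 160))))) (XT.nd (nat_lit 234) (nat_lit 152) (nat_lit 0) (XT.nd (nat_lit 78) (nat_lit 152) (nat_lit 0) (XT.lf (nat_lit 0) (nat_lit 16370561402) (nat_lit 152) (nat_lit 4369862969) (nat_lit 76) (nat_lit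 45452786194) (nat_lit 24) (nat_lit 5) (nat_lit 26) (nat_lit 5) (nat_lit 25) (nat_lit 5) (nat_lit 336) (nat_lit 285) (nat_lit 159)) (XT.nd (nat_lit 78) (nat_lit 0) (nat_lit 0) (XT.lf (nat_lit 0) (nat_lit 24089621368) (nat_lit 152) (nat_lit 4584473863) (nat_lit 228) (nat_lit 39997550390) (nat_lit 22) (nat_lit 5) (nat_lit 24) (nat_lit 5) (nat_lit 25) (nat_lit 5) (nat_lit 337) (nat_lit 285) (nat_lit 158)) (XT.lf (nat_lit 0) (nat_lit 41857967175) (nat_lit 228) (nat_lit 17346803297) (nat_lit 76) (nat_lit 12055976043) (nat_lit 22) (nat_lit 5) (nat_lit 25) (nat_lit 5) (nat_lit 23) (nat_lit 4) (nat_lit 338) (nat_lit 285) (nat_lit 157)))) (XT.nd (nat_lit 78) (nat_lit 76) (nat_lit 0) (XT.lf (nat_lit 0) (nat_lit 11538809280) (nat_lit 76) (nat_lit 44414357901) (nat_lit 152) (nat_lit 18013530604) (nat_lit 21) (nat_lit 5) (nat_lit 22) (nat_lit 5) (nat_lit 23) (nat_lit 4) (nat_lit 339) (nat_lit 285)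 (nat_lit 156)) (XT.nd (nat_lit 78) (nat_lit 76) (nat_lit 0) (XT.lf (nat_lit 0) (nat_lit 42465505413) (nat_lit 76) (nat_lit 28578290513) (nat_lit 152) (nat_lit 5749619210) (nat_lit 21) (nat_lit 5) (nat_lit 22) (nat_lit 5) (nat_lit 23) (nat_lit 4) (nat_lit 340) (nat_lit 285) (nat_lit 155)) (XT.lf (nat_lit 0) (nat_lit 6896353530) (nat_lit 152) (nat_lit 4939493279) (nat_lit 76) (nat_lit 67920209822) (nat_lit 20) (nat_lit 5) (nat_lit 22) (nat_lit 5) (nat_lit 21) (nat_lit 5) (nat_lit 341) (nat_lit 285) (nat_lit 154))))))))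
noncomputable def xc177 : XT := (XT.nd (nat_lit 1560) (nat_lit 380) (nat_lit 0) (XT.nd (nat_lit 780) (nat_lit 304) (nat_lit 0) (XT.nd (nat_lit 390) (nat_lit 228) (nat_lit 0) (XT.nd (nat_lit 156) (nat_lit 76) (nat_lit 0) (XT.nd (nat_lit 78) (nat_lit 0) (nat_lit 0) (XT.lf (nat_lit 0) (nat_lit 20492983447) (nat_lit 228) (nat_lit 56266701527) (nat_lit 76) (nat_lit 6076854941) (nat_lit 18) (nat_lit 5) (nat_lit 21) (nat_lit 5) (nat_lit 19) (nat_lit 4) (nat_lit 342) (nat_lit 285) (nat_lit 153)) (XT.lf (nat_lit 0) (nat_lit 35045658257) (nat_lit 228) (nat_lit 26441198829) (nat_lit 76) (nat_lit 24570381215) (nat_lit 18) (nat_lit 5) (nat_lit 21) (nat_lit 5) (nat_lit 19) (nat_lit 4) (nat_lit 343) (nat_lit 285) (nat_lit 152))) (XT.nd (nat_lit 78) (nat_lit 0) (nat_lit 0) (XT.lf (nat_lit 0) (nat_lit 5031812066) (nat_lit 76) (nat_lit 45370009771) (nat_lit 152) (nat_lit 39033358553) (nat_lit 17) (nat_lit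 5) (nat_lit 18) (nat_lit 5) (nat_lit 19) (nat_lit 4) (nat_lit 344) (nat_lit 285) (nat_lit 151)) (XT.nd (nat_lit 78) (nat_lit 0) (nat_lit 0) (XT.lf (nat_lit 0) (nat_lit 38991713561) (nat_lit 76) (nat_lit 27979223728) (nat_lit 152) (nat_lit 25988826566) (nat_lit 17) (nat_lit 5) (nat_lit 18) (nat_lit 5) (nat_lit 19) (nat_lit 4) (nat_lit 345) (nat_lit 285) (nat_lit 150)) (XT.lf (nat_lit 0) (nat_lit 74645097119) (nat_lit 76) (nat_lit 9720886823) (nat_lit 152) (nat_lit 12294720173) (nat_lit 17) (nat_lit 5) (nat_lit 18) (nat_lit 5) (nat_lit 19) (nat_lit 4) (nat_lit 346) (nat_lit 285) (nat_lit 149))))) (XT.nd (nat_lit 156) (nat_lit 76) (nat_lit 0) (XT.nd (nat_lit 78) (nat_lit 0) (nat_lit 0) (XT.lf (nat_lit 0) (nat_lit 2351476717) (nat_lit 152) (nat_lit 88809305418) (nat_lit 76) (nat_lit 9367579130) (nat_lit 15) (nat_lit 5) (nat_lit 17) (nat_lit 5) (nat_lit 16) (nat_lit 4) (nat_lit 347) (nat_lit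 285) (nat_lit 148)) (XT.lf (nat_lit 0) (nat_lit 17852690420) (nat_lit 152) (nat_lit 57037399514) (nat_lit 76) (nat_lit 29662440390) (nat_lit 15) (nat_lit 5) (nat_lit 17) (nat_lit 5) (nat_lit 16) (nat_lit 4) (nat_lit 348) (nat_lit 285) (nat_lit 147))) (XT.nd (nat_lit 78) (nat_lit 76) (nat_lit 0) (XT.lf (nat_lit 0) (nat_lit 34126654538) (nat_lit 152) (nat_lit 23681089440) (nat_lit 76) (nat_lit 50970280516) (nat_lit 15) (nat_lit 5) (nat_lit 17) (nat_lit 5) (nat_lit 16) (nat_lit 4) (nat_lit 349) (nat_lit 285) (nat_lit 146)) (XT.nd (nat_lit 78) (nat_lit 0) (nat_lit 0) (XT.lf (nat_lit 0) (nat_lit 11713964610) (nat_lit 76) (nat_lit 39681039811) (nat_lit 152) (nat_lit 61810755663) (nat_lit 14) (nat_lit 5) (nat_lit 15) (nat_lit 5) (nat_lit 16) (nat_lit 4) (nat_lit 350) (nat_lit 285) (nat_lit 145)) (XT.lf (nat_lit 0) (nat_lit 49696998147) (nat_lit 76) (nat_lit 20228667561) (nat_lit 152) (nat_lit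 47909273085) (nat_lit 14) (nat_lit 5) (nat_lit 15) (nat_lit 5) (nat_lit 16) (nat_lit 4) (nat_lit 351) (nat_lit 285) (nat_lit 144)))))) (XT.nd (nat_lit 390) (nat_lit 152) (nat_lit 0) (XT.nd (nat_lit 156) (nat_lit 76) (nat_lit 0) (XT.nd (nat_lit 78) (nat_lit 76) (nat_lit 0) (XT.lf (nat_lit 0) (nat_lit 89383844801) (nat_lit 152) (nat_lit 33123275765) (nat_lit 0) (nat_lit 188407624) (nat_lit 14) (nat_lit 5) (nat_lit 16) (nat_lit 4) (nat_lit 14) (nat_lit 4) (nat_lit 352) (nat_lit 285) (nat_lit 143)) (XT.lf (nat_lit 0) (nat_lit 3416209145) (nat_lit 76) (nat_lit 106781696453) (nat_lit 76) (nat_lit 17582093762) (nat_lit 13) (nat_lit 4) (nat_lit 14) (nat_lit 5) (nat_lit 14) (nat_lit 4) (nat_lit 353) (nat_lit 285) (nat_lit 142))) (XT.nd (nat_lit 78) (nat_lit 76) (nat_lit 0) (XT.lf (nat_lit 0) (nat_lit 42929056541) (nat_lit 76) (nat_lit 89682628749) (nat_lit 76) (nat_lit 479058901) (nat_lit 13)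 (nat_lit 4) (nat_lit 14) (nat_lit 5) (nat_lit 14) (nat_lit 4) (nat_lit 354) (nat_lit 285) (nat_lit 141)) (XT.nd (nat_lit 78) (nat_lit 0) (nat_lit 0) (XT.lf (nat_lit 0) (nat_lit 16917804965) (nat_lit 152) (nat_lit 54525847912) (nat_lit 76) (nat_lit 67209823366) (nat_lit 12) (nat_lit 5) (nat_lit 14) (nat_lit 5) (nat_lit 13) (nat_lit 4) (nat_lit 355) (nat_lit 285) (nat_lit 140)) (XT.lf (nat_lit 0) (nat_lit 35166620609) (nat_lit 152) (nat_lit 17119374169) (nat_lit 76) (nat_lit 92208047817) (nat_lit 12) (nat_lit 5) (nat_lit 14) (nat_lit 5) (nat_lit 13) (nat_lit 4) (nat_lit 356) (nat_lit 285) (nat_lit 139))))) (XT.nd (nat_lit 156) (nat_lit 76) (nat_lit 0) (XT.nd (nat_lit 78) (nat_lit 0) (nat_lit 0) (XT.lf (nat_lit 0) (nat_lit 22886796480) (nat_lit 76) (nat_lit 31796701020) (nat_lit 152) (nat_lit 95925359477) (nat_lit 11) (nat_lit 5) (nat_lit 12) (nat_lit 5) (nat_lit 13) (nat_lit 4) (nat_lit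 357) (nat_lit 285) (nat_lit 138)) (XT.lf (nat_lit 0) (nat_lit 65484525240) (nat_lit 76) (nat_lit 9979944235) (nat_lit 152) (nat_lit 81550530744) (nat_lit 11) (nat_lit 5) (nat_lit 12) (nat_lit 5) (nat_lit 13) (nat_lit 4) (nat_lit 358) (nat_lit 285) (nat_lit 137))) (XT.nd (nat_lit 78) (nat_lit 76) (nat_lit 0) (XT.lf (nat_lit 0) (nat_lit 97484711798) (nat_lit 152) (nat_lit 53734155235) (nat_lit 0) (nat_lit 12512573172) (nat_lit 11) (nat_lit 5) (nat_lit 13) (nat_lit 4) (nat_lit 11) (nat_lit 4) (nat_lit 359) (nat_lit 285) (nat_lit 136)) (XT.nd (nat_lit 78) (nat_lit 76) (nat_lit 0) (XT.lf (nat_lit 0) (nat_lit 120768033683) (nat_lit 152) (nat_lit 14214490097) (nat_lit 0) (nat_lit 35793075674) (nat_lit 11) (nat_lit 5) (nat_lit 13) (nat_lit 4) (nat_lit 11) (nat_lit 4) (nat_lit 360) (nat_lit 285) (nat_lit 135)) (XT.lf (nat_lit 0) (nat_lit 28180377855) (nat_lit 76) (nat_lit 117473653534) (nat_lit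 76) (nat_lit 32496010397) (nat_lit 10) (nat_lit 4) (nat_lit 11) (nat_lit 5) (nat_lit 11) (nat_lit 4) (nat_lit 361) (nat_lit 285) (nat_lit 134))))))) (XT.nd (nat_lit 780) (nat_lit 152) (nat_lit 0) (XT.nd (nat_lit 390) (nat_lit 76) (nat_lit 0) (XT.nd (nat_lit 156) (nat_lit 76) (nat_lit 0) (XT.nd (nat_lit 78) (nat_lit 76) (nat_lit 0) (XT.lf (nat_lit 0) (nat_lit 73185799689) (nat_lit 76) (nat_lit 98837821457) (nat_lit 76) (nat_lit 13857621056) (nat_lit 10) (nat_lit 4) (nat_lit 11) (nat_lit 5) (nat_lit 11) (nat_lit 4) (nat_lit 362) (nat_lit 285) (nat_lit 133)) (XT.lf (nat_lit 0) (nat_lit 5528454428) (nat_lit 152) (nat_lit 73649304311) (nat_lit 76) (nat_lit 114816854454) (nat_lit 9) (nat_lit 5) (nat_lit 11) (nat_lit 5) (nat_lit 10) (nat_lit 4) (nat_lit 363) (nat_lit 285) (nat_lit 132))) (XT.nd (nat_lit 78) (nat_lit 76) (nat_lit 0) (XT.lf (nat_lit 0) (nat_lit 25416801382) (nat_lit 152) (nat_lit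 32880512570) (nat_lit 76) (nat_lit 144205046843) (nat_lit 9) (nat_lit 5) (nat_lit 11) (nat_lit 5) (nat_lit 10) (nat_lit 4) (nat_lit 364) (nat_lit 285) (nat_lit 131)) (XT.nd (nat_lit 78) (nat_lit 0) (nat_lit 0) (XT.lf (nat_lit 0) (nat_lit 10252501642) (nat_lit 76) (nat_lit 36205872068) (nat_lit 152) (nat_lit 164969182141) (nat_lit 8) (nat_lit 5) (nat_lit 9) (nat_lit 5) (nat_lit 10) (nat_lit 4) (nat_lit 365) (nat_lit 285) (nat_lit 130)) (XT.lf (nat_lit 0) (nat_lit 56681380603) (nat_lit 76) (nat_lit 12426253024) (nat_lit 152) (nat_lit 151663597036) (nat_lit 8) (nat_lit 5) (nat_lit 9) (nat_lit 5) (nat_lit 10) (nat_lit 4) (nat_lit 366) (nat_lit 285) (nat_lit 129))))) (XT.nd (nat_lit 156) (nat_lit 76) (nat_lit 0) (XT.nd (nat_lit 78) (nat_lit 0) (nat_lit 0) (XT.lf (nat_lit 0) (nat_lit 93083982150) (nat_lit 152) (nat_lit 125348462653) (nat_lit 0) (nat_lit 12139913563) (nat_lit 8) (nat_lit 5)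 (nat_lit 10) (nat_lit 4) (nat_lit 8) (nat_lit 4) (nat_lit 367) (nat_lit 285) (nat_lit 128)) (XT.lf (nat_lit 0) (nat_lit 118461718523) (nat_lit 152) (nat_lit 84875863287) (nat_lit 0) (nat_lit 37515832535) (nat_lit 8) (nat_lit 5) (nat_lit 10) (nat_lit 4) (nat_lit 8) (nat_lit 4) (nat_lit 368) (nat_lit 285) (nat_lit 127))) (XT.nd (nat_lit 78) (nat_lit 76) (nat_lit 0) (XT.lf (nat_lit 0) (nat_lit 145107257291) (nat_lit 152) (nat_lit 42381679995) (nat_lit 0) (nat_lit 64159640447) (nat_lit 8) (nat_lit 5) (nat_lit 10) (nat_lit 4) (nat_lit 8) (nat_lit 4) (nat_lit 369) (nat_lit 285) (nat_lit 126)) (XT.nd (nat_lit 78) (nat_lit 0) (nat_lit 0) (XT.lf (nat_lit 0) (nat_lit 2309171765) (nat_lit 76) (nat_lit 170810921093) (nat_lit 76) (nat_lit 89861655813) (nat_lit 7) (nat_lit 4) (nat_lit 8) (nat_lit 5) (nat_lit 8) (nat_lit 4) (nat_lit 370) (nat_lit 285) (nat_lit 125)) (XT.lf (nat_lit 0) (nat_lit 50704045159)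 (nat_lit 76) (nat_lit 152546265766) (nat_lit 76) (nat_lit 71595430548) (nat_lit 7) (nat_lit 4) (nat_lit 8) (nat_lit 5) (nat_lit 8) (nat_lit 4) (nat_lit 371) (nat_lit 285) (nat_lit 124)))))) (XT.nd (nat_lit 390) (nat_lit 76) (nat_lit 0) (XT.nd (nat_lit 156) (nat_lit 76) (nat_lit 0) (XT.nd (nat_lit 78) (nat_lit 0) (nat_lit 0) (XT.lf (nat_lit 0) (nat_lit 101516836335) (nat_lit 76) (nat_lit 133369238290) (nat_lit 76) (nat_lit 52416907892) (nat_lit 7) (nat_lit 4) (nat_lit 8) (nat_lit 5) (nat_lit 8) (nat_lit 4) (nat_lit 372) (nat_lit 285) (nat_lit 123)) (XT.lf (nat_lit 0) (nat_lit 154868528127) (nat_lit 76) (nat_lit 113234179076) (nat_lit 76) (nat_lit 32280424698) (nat_lit 7) (nat_lit 4) (nat_lit 8) (nat_lit 5) (nat_lit 8) (nat_lit 4) (nat_lit 373) (nat_lit 285) (nat_lit 122))) (XT.nd (nat_lit 78) (nat_lit 76) (nat_lit 0) (XT.lf (nat_lit 0) (nat_lit 210886148374) (nat_lit 76) (nat_lit 92093147506)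 (nat_lit 76) (nat_lit 11138036956) (nat_lit 7) (nat_lit 4) (nat_lit 8) (nat_lit 5) (nat_lit 8) (nat_lit 4) (nat_lit 374) (nat_lit 285) (nat_lit 121)) (XT.nd (nat_lit 78) (nat_lit 0) (nat_lit 0) (XT.lf (nat_lit 0) (nat_lit 10706586256) (nat_lit 152) (nat_lit 59007900315) (nat_lit 76) (nat_lit 258815164886) (nat_lit 6) (nat_lit 5) (nat_lit 8) (nat_lit 5) (nat_lit 7) (nat_lit 4) (nat_lit 375) (nat_lit 285) (nat_lit 120)) (XT.lf (nat_lit 0) (nat_lit 33268322133) (nat_lit 152) (nat_lit 12757571855) (nat_lit 76) (nat_lit 297627603119) (nat_lit 6) (nat_lit 5) (nat_lit 8) (nat_lit 5) (nat_lit 7) (nat_lit 4) (nat_lit 376) (nat_lit 285) (nat_lit 119))))) (XT.nd (nat_lit 234) (nat_lit 0) (nat_lit 0) (XT.nd (nat_lit 78) (nat_lit 0) (nat_lit 0) (XT.lf (nat_lit 0) (nat_lit 36987652593) (nat_lit 76) (nat_lit 20547204155) (nat_lit 152) (nat_lit 301969842946) (nat_lit 5) (nat_lit 5) (nat_lit 6) (nat_lit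 5) (nat_lit 7) (nat_lit 4) (nat_lit 377) (nat_lit 285) (nat_lit 118)) (XT.nd (nat_lit 78) (nat_lit 0) (nat_lit 0) (XT.lf (nat_lit 0) (nat_lit 83330434332) (nat_lit 152) (nat_lit 286576493382) (nat_lit 0) (nat_lit 6225749124) (nat_lit 5) (nat_lit 5) (nat_lit 7) (nat_lit 4) (nat_lit 5) (nat_lit 4) (nat_lit 378) (nat_lit 285) (nat_lit 117)) (XT.lf (nat_lit 0) (nat_lit 110751901340) (nat_lit 152) (nat_lit 249177142065) (nat_lit 0) (nat_lit 33646204137) (nat_lit 5) (nat_lit 5) (nat_lit 7) (nat_lit 4) (nat_lit 5) (nat_lit 4) (nat_lit 379) (nat_lit 285) (nat_lit 116)))) (XT.nd (nat_lit 78) (nat_lit 0) (nat_lit 0) (XT.lf (nat_lit 0) (nat_lit 139543747540) (nat_lit 152) (nat_lit 209909147634) (nat_lit 0) (nat_lit 62437086531) (nat_lit 5) (nat_lit 5) (nat_lit 7) (nat_lit 4) (nat_lit 5) (nat_lit 4) (nat_lit 380) (nat_lit 285) (nat_lit 115)) (XT.nd (nat_lit 78) (nat_lit 0) (nat_lit 0) (XT.lf (nat_lit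 0) (nat_lit 169774524946) (nat_lit 152) (nat_lit 168679014867) (nat_lit 0) (nat_lit 92666946026) (nat_lit 5) (nat_lit 5) (nat_lit 7) (nat_lit 4) (nat_lit 5) (nat_lit 4) (nat_lit 381) (nat_lit 285) (nat_lit 114)) (XT.lf (nat_lit 0) (nat_lit 201516211600) (nat_lit 152) (nat_lit 125388576779) (nat_lit 0) (nat_lit 124407758480) (nat_lit 5) (nat_lit 5) (nat_lit 7) (nat_lit 4) (nat_lit 5) (nat_lit 4) (nat_lit 382) (nat_lit 285) (nat_lit 113))))))))
noncomputable def xc178 : XT := (XT.nd (nat_lit 34476) (nat_lit 0) (nat_lit 2356) (XT.nd (nat_lit 33696) (nat_lit 0) (nat_lit 5092) (XT.nd (nat_lit 33306) (nat_lit 0) (nat_lit 6840) (XT.nd (nat_lit 33072) (nat_lit 0) (nat_lit 6764) (XT.nd (nat_lit 78) (nat_lit 0) (nat_lit 0) (XT.lf (nat_lit 0) (nat_lit 234844382947) (nat_lit 152) (nat_lit 79934760899) (nat_lit 0) (nat_lit 157735097254) (nat_lit 5) (nat_lit 5) (nat_lit 7) (nat_lit 4) (nat_lit 5)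 (nat_lit 4) (nat_lit 383) (nat_lit 285) (nat_lit 112)) (XT.lf (nat_lit 0) (nat_lit 269838391774) (nat_lit 152) (nat_lit 32209343856) (nat_lit 0) (nat_lit 192728313156) (nat_lit 5) (nat_lit 5) (nat_lit 7) (nat_lit 4) (nat_lit 5) (nat_lit 4) (nat_lit 384) (nat_lit 285) (nat_lit 111))) (XT.nd (nat_lit 78) (nat_lit 0) (nat_lit 0) (XT.lf (nat_lit 0) (nat_lit 2297336272) (nat_lit 0) (nat_lit 2297336272) (nat_lit 684) (nat_lit 2771207532) (nat_lit 94) (nat_lit 5) (nat_lit 94) (nat_lit 3) (nat_lit 103) (nat_lit 3) (nat_lit 286) (nat_lit 286) (nat_lit 208)) (XT.nd (nat_lit 78) (nat_lit 0) (nat_lit 0) (XT.lf (nat_lit 0) (nat_lit 9741704377) (nat_lit 684) (nat_lit 3405103297) (nat_lit 760) (nat_lit 1936597576) (nat_lit 94) (nat_lit 5) (nat_lit 103) (nat_lit 3) (nat_lit 104) (nat_lit 5) (nat_lit 287) (nat_lit 286) (nat_lit 207)) (XT.lf (nat_lit 76) (nat_lit 3696015630) (nat_lit 0) (nat_lit 6740186659)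 (nat_lit 760) (nat_lit 5010737414) (nat_lit 95) (nat_lit 5) (nat_lit 94) (nat_lit 5) (nat_lit 104) (nat_lit 5) (nat_lit 288) (nat_lit 286) (nat_lit 206))))) (XT.nd (nat_lit 156) (nat_lit 0) (nat_lit 0) (XT.nd (nat_lit 78) (nat_lit 0) (nat_lit 0) (XT.lf (nat_lit 0) (nat_lit 11206162208) (nat_lit 684) (nat_lit 4567405805) (nat_lit 760) (nat_lit 53077567) (nat_lit 95) (nat_lit 5) (nat_lit 104) (nat_lit 5) (nat_lit 105) (nat_lit 5) (nat_lit 289) (nat_lit 286) (nat_lit 205)) (XT.lf (nat_lit 76) (nat_lit 2948391356) (nat_lit 0) (nat_lit 9205928954) (nat_lit 760) (nat_lit 4064061485) (nat_lit 96) (nat_lit 5) (nat_lit 95) (nat_lit 5) (nat_lit 105) (nat_lit 5) (nat_lit 290) (nat_lit 286) (nat_lit 204))) (XT.nd (nat_lit 78) (nat_lit 0) (nat_lit 76) (XT.lf (nat_lit 76) (nat_lit 10987952994) (nat_lit 0) (nat_lit 2223093102) (nat_lit 760) (nat_lit 3415629360) (nat_lit 96) (nat_lit 5) (nat_lit 95)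 (nat_lit 5) (nat_lit 105) (nat_lit 5) (nat_lit 291) (nat_lit 286) (nat_lit 203)) (XT.nd (nat_lit 78) (nat_lit 0) (nat_lit 0) (XT.lf (nat_lit 76) (nat_lit 2358871171) (nat_lit 0) (nat_lit 12062992375) (nat_lit 760) (nat_lit 2628484743) (nat_lit 97) (nat_lit 5) (nat_lit 96) (nat_lit 5) (nat_lit 106) (nat_lit 5) (nat_lit 292) (nat_lit 286) (nat_lit 202)) (XT.lf (nat_lit 76) (nat_lit 10903663669) (nat_lit 0) (nat_lit 4906133614) (nat_lit 760) (nat_lit 1679604674) (nat_lit 97) (nat_lit 5) (nat_lit 96) (nat_lit 5) (nat_lit 106) (nat_lit 5) (nat_lit 293) (nat_lit 286) (nat_lit 201)))))) (XT.nd (nat_lit 390) (nat_lit 684) (nat_lit 0) (XT.nd (nat_lit 156) (nat_lit 456) (nat_lit 0) (XT.nd (nat_lit 78) (nat_lit 760) (nat_lit 0) (XT.lf (nat_lit 76) (nat_lit 1935437713) (nat_lit 0) (nat_lit 15388622008) (nat_lit 760) (nat_lit 623526710) (nat_lit 98) (nat_lit 5) (nat_lit 97) (nat_lit 5) (nat_lit 107)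 (nat_lit 5) (nat_lit 294) (nat_lit 286) (nat_lit 200)) (XT.lf (nat_lit 0) (nat_lit 649850478) (nat_lit 760) (nat_lit 7412991259) (nat_lit 836) (nat_lit 10356480445) (nat_lit 87) (nat_lit 5) (nat_lit 97) (nat_lit 5) (nat_lit 98) (nat_lit 5) (nat_lit 295) (nat_lit 286) (nat_lit 199))) (XT.nd (nat_lit 78) (nat_lit 456) (nat_lit 0) (XT.lf (nat_lit 76) (nat_lit 1647816393) (nat_lit 0) (nat_lit 330748040) (nat_lit 836) (nat_lit 16934959434) (nat_lit 88) (nat_lit 5) (nat_lit 87) (nat_lit 5) (nat_lit 98) (nat_lit 5) (nat_lit 296) (nat_lit 286) (nat_lit 198)) (XT.nd (nat_lit 78) (nat_lit 532) (nat_lit 0) (XT.lf (nat_lit 0) (nat_lit 3610290818) (nat_lit 760) (nat_lit 8142117126) (nat_lit 76) (nat_lit 7668219198) (nat_lit 88) (nat_lit 5) (nat_lit 98) (nat_lit 5) (nat_lit 89) (nat_lit 5) (nat_lit 297) (nat_lit 286) (nat_lit 197)) (XT.lf (nat_lit 0) (nat_lit 1468433927) (nat_lit 532) (nat_lit 3871503141)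 (nat_lit 608) (nat_lit 14612351208) (nat_lit 81) (nat_lit 5) (nat_lit 88) (nat_lit 5) (nat_lit 89) (nat_lit 5) (nat_lit 298) (nat_lit 286) (nat_lit 196))))) (XT.nd (nat_lit 156) (nat_lit 304) (nat_lit 0) (XT.nd (nat_lit 78) (nat_lit 380) (nat_lit 0) (XT.lf (nat_lit 0) (nat_lit 7353373767) (nat_lit 608) (nat_lit 8743696063) (nat_lit 76) (nat_lit 4403615680) (nat_lit 81) (nat_lit 5) (nat_lit 89) (nat_lit 5) (nat_lit 82) (nat_lit 5) (nat_lit 299) (nat_lit 286) (nat_lit 195)) (XT.lf (nat_lit 0) (nat_lit 1455899870) (nat_lit 380) (nat_lit 8086739223) (nat_lit 456) (nat_lit 11530123246) (nat_lit 76) (nat_lit 5) (nat_lit 81) (nat_lit 5) (nat_lit 82) (nat_lit 5) (nat_lit 300) (nat_lit 286) (nat_lit 194))) (XT.nd (nat_lit 78) (nat_lit 304) (nat_lit 0) (XT.lf (nat_lit 0) (nat_lit 11986256770) (nat_lit 456) (nat_lit 9215571225) (nat_lit 76) (nat_lit 464387294) (nat_lit 76) (nat_lit 5) (nat_lit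 82) (nat_lit 5) (nat_lit 77) (nat_lit 5) (nat_lit 301) (nat_lit 286) (nat_lit 193)) (XT.nd (nat_lit 78) (nat_lit 0) (nat_lit 0) (XT.lf (nat_lit 0) (nat_lit 1614330029) (nat_lit 304) (nat_lit 13085330068) (nat_lit 380) (nat_lit 7582316489) (nat_lit 72) (nat_lit 5) (nat_lit 76) (nat_lit 5) (nat_lit 77) (nat_lit 5) (nat_lit 302) (nat_lit 286) (nat_lit 192)) (XT.lf (nat_lit 0) (nat_lit 13295286693) (nat_lit 304) (nat_lit 4399670232) (nat_lit 380) (nat_lit 5226273037) (nat_lit 72) (nat_lit 5) (nat_lit 76) (nat_lit 5) (nat_lit 77) (nat_lit 5) (nat_lit 303) (nat_lit 286) (nat_lit 191))))))) (XT.nd (nat_lit 780) (nat_lit 1216) (nat_lit 0) (XT.nd (nat_lit 390) (nat_lit 532) (nat_lit 0) (XT.nd (nat_lit 156) (nat_lit 608) (nat_lit 0) (XT.nd (nat_lit 78) (nat_lit 76) (nat_lit 0) (XT.lf (nat_lit 0) (nat_lit 1946070509) (nat_lit 304) (nat_lit 18988642476) (nat_lit 380) (nat_lit 2653012758) (nat_lit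 68) (nat_lit 5) (nat_lit 72) (nat_lit 5) (nat_lit 73) (nat_lit 5) (nat_lit 304) (nat_lit 286) (nat_lit 190)) (XT.lf (nat_lit 0) (nat_lit 275902654) (nat_lit 380) (nat_lit 9934597695) (nat_lit 76) (nat_lit 14065593017) (nat_lit 67) (nat_lit 5) (nat_lit 72) (nat_lit 5) (nat_lit 68) (nat_lit 5) (nat_lit 305) (nat_lit 286) (nat_lit 189))) (XT.nd (nat_lit 78) (nat_lit 304) (nat_lit 0) (XT.lf (nat_lit 0) (nat_lit 2380495681) (nat_lit 304) (nat_lit 909956078) (nat_lit 380) (nat_lit 21704848171) (nat_lit 63) (nat_lit 5) (nat_lit 67) (nat_lit 5) (nat_lit 68) (nat_lit 5) (nat_lit 306) (nat_lit 286) (nat_lit 188)) (XT.nd (nat_lit 78) (nat_lit 304) (nat_lit 0) (XT.lf (nat_lit 0) (nat_lit 6756420828) (nat_lit 380) (nat_lit 10237096534) (nat_lit 76) (nat_lit 8741926728) (nat_lit 63) (nat_lit 5) (nat_lit 68) (nat_lit 5) (nat_lit 64) (nat_lit 5) (nat_lit 307) (nat_lit 286) (nat_lit 187)) (XT.lf (nat_lit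 0) (nat_lit 2825219667) (nat_lit 304) (nat_lit 7621330033) (nat_lit 380) (nat_lit 16063514018) (nat_lit 59) (nat_lit 5) (nat_lit 63) (nat_lit 5) (nat_lit 64) (nat_lit 5) (nat_lit 308) (nat_lit 286) (nat_lit 186))))) (XT.nd (nat_lit 156) (nat_lit 304) (nat_lit 0) (XT.nd (nat_lit 78) (nat_lit 228) (nat_lit 0) (XT.lf (nat_lit 0) (nat_lit 14524095877) (nat_lit 380) (nat_lit 10466186548) (nat_lit 76) (nat_lit 2322997146) (nat_lit 59) (nat_lit 5) (nat_lit 64) (nat_lit 5) (nat_lit 60) (nat_lit 5) (nat_lit 309) (nat_lit 286) (nat_lit 185)) (XT.lf (nat_lit 0) (nat_lit 3387349813) (nat_lit 228) (nat_lit 15588420599) (nat_lit 304) (nat_lit 9172383527) (nat_lit 56) (nat_lit 5) (nat_lit 59) (nat_lit 5) (nat_lit 60) (nat_lit 5) (nat_lit 310) (nat_lit 286) (nat_lit 184))) (XT.nd (nat_lit 78) (nat_lit 304) (nat_lit 0) (XT.lf (nat_lit 0) (nat_lit 18287548546) (nat_lit 228) (nat_lit 5532369557) (nat_lit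 304) (nat_lit 5196369235) (nat_lit 56) (nat_lit 5) (nat_lit 59) (nat_lit 5) (nat_lit 60) (nat_lit 5) (nat_lit 311) (nat_lit 286) (nat_lit 183)) (XT.nd (nat_lit 78) (nat_lit 76) (nat_lit 0) (XT.lf (nat_lit 0) (nat_lit 4046712235) (nat_lit 228) (nat_lit 24994178980) (nat_lit 304) (nat_lit 880214609) (nat_lit 53) (nat_lit 5) (nat_lit 56) (nat_lit 5) (nat_lit 57) (nat_lit 5) (nat_lit 312) (nat_lit 286) (nat_lit 182)) (XT.lf (nat_lit 0) (nat_lit 3803270780) (nat_lit 304) (nat_lit 11088703862) (nat_lit 76) (nat_lit 15962928257) (nat_lit 52) (nat_lit 5) (nat_lit 56) (nat_lit 5) (nat_lit 53) (nat_lit 5) (nat_lit 313) (nat_lit 286) (nat_lit 181)))))) (XT.nd (nat_lit 390) (nat_lit 608) (nat_lit 0) (XT.nd (nat_lit 156) (nat_lit 380) (nat_lit 0) (XT.nd (nat_lit 78) (nat_lit 0) (nat_lit 0) (XT.lf (nat_lit 0) (nat_lit 4558847808) (nat_lit 228) (nat_lit 4197042011) (nat_lit 304) (nat_lit 23075559551)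 (nat_lit 49) (nat_lit 5) (nat_lit 52) (nat_lit 5) (nat_lit 53) (nat_lit 5) (nat_lit 314) (nat_lit 286) (nat_lit 180)) (XT.lf (nat_lit 0) (nat_lit 14250317341) (nat_lit 304) (nat_lit 11595614773) (nat_lit 76) (nat_lit 6996189841) (nat_lit 49) (nat_lit 5) (nat_lit 53) (nat_lit 5) (nat_lit 50) (nat_lit 5) (nat_lit 315) (nat_lit 286) (nat_lit 179))) (XT.nd (nat_lit 78) (nat_lit 152) (nat_lit 0) (XT.lf (nat_lit 0) (nat_lit 4946099349) (nat_lit 228) (nat_lit 15213209732) (nat_lit 304) (nat_lit 13737034249) (nat_lit 46) (nat_lit 5) (nat_lit 49) (nat_lit 5) (nat_lit 50) (nat_lit 5) (nat_lit 316) (nat_lit 286) (nat_lit 178)) (XT.nd (nat_lit 78) (nat_lit 152) (nat_lit 0) (XT.lf (nat_lit 0) (nat_lit 22708987730) (nat_lit 228) (nat_lit 3845118409) (nat_lit 304) (nat_lit 8439658801) (nat_lit 46) (nat_lit 5) (nat_lit 49) (nat_lit 5) (nat_lit 50) (nat_lit 5) (nat_lit 317) (nat_lit 286) (nat_lit 177))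 (XT.lf (nat_lit 0) (nat_lit 5247240590) (nat_lit 152) (nat_lit 28223884168) (nat_lit 228) (nat_lit 2664815410) (nat_lit 44) (nat_lit 5) (nat_lit 46) (nat_lit 5) (nat_lit 47) (nat_lit 5) (nat_lit 318) (nat_lit 286) (nat_lit 176))))) (XT.nd (nat_lit 234) (nat_lit 304) (nat_lit 0) (XT.nd (nat_lit 78) (nat_lit 228) (nat_lit 0) (XT.lf (nat_lit 0) (nat_lit 3558759230) (nat_lit 228) (nat_lit 13370370863) (nat_lit 76) (nat_lit 20390008306) (nat_lit 43) (nat_lit 5) (nat_lit 46) (nat_lit 5) (nat_lit 44) (nat_lit 5) (nat_lit 319) (nat_lit 286) (nat_lit 175)) (XT.nd (nat_lit 78) (nat_lit 0) (nat_lit 0) (XT.lf (nat_lit 0) (nat_lit 5136593323) (nat_lit 228) (nat_lit 4942110094) (nat_lit 304) (nat_lit 28476877268) (nat_lit 40) (nat_lit 5) (nat_lit 43) (nat_lit 5) (nat_lit 44) (nat_lit 5) (nat_lit 320) (nat_lit 286) (nat_lit 174)) (XT.lf (nat_lit 0) (nat_lit 17268785129) (nat_lit 304) (nat_lit 14940589720)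 (nat_lit 76) (nat_lit 7627268668) (nat_lit 40) (nat_lit 5) (nat_lit 44) (nat_lit 5) (nat_lit 41) (nat_lit 5) (nat_lit 321) (nat_lit 286) (nat_lit 173)))) (XT.nd (nat_lit 78) (nat_lit 152) (nat_lit 0) (XT.lf (nat_lit 0) (nat_lit 4517585545) (nat_lit 152) (nat_lit 20447236943) (nat_lit 228) (nat_lit 16209619614) (nat_lit 38) (nat_lit 5) (nat_lit 40) (nat_lit 5) (nat_lit 41) (nat_lit 5) (nat_lit 322) (nat_lit 286) (nat_lit 172)) (XT.nd (nat_lit 78) (nat_lit 152) (nat_lit 0) (XT.lf (nat_lit 0) (nat_lit 25459782538) (nat_lit 152) (nat_lit 7833930775) (nat_lit 228) (nat_lit 9273019665) (nat_lit 38) (nat_lit 5) (nat_lit 40) (nat_lit 5) (nat_lit 41) (nat_lit 5) (nat_lit 323) (nat_lit 286) (nat_lit 171)) (XT.lf (nat_lit 0) (nat_lit 3438610279) (nat_lit 152) (nat_lit 38733814106) (nat_lit 228) (nat_lit 1849549935) (nat_lit 36) (nat_lit 5) (nat_lit 38) (nat_lit 5) (nat_lit 39) (nat_lit 5) (nat_lit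 324) (nat_lit 286) (nat_lit 170))))))))
noncomputable def xc179 : XT := (XT.nd (nat_lit 1638) (nat_lit 684) (nat_lit 0) (XT.nd (nat_lit 780) (nat_lit 684) (nat_lit 0) (XT.nd (nat_lit 390) (nat_lit 380) (nat_lit 0) (XT.nd (nat_lit 156) (nat_lit 152) (nat_lit 0) (XT.nd (nat_lit 78) (nat_lit 152) (nat_lit 0) (XT.lf (nat_lit 0) (nat_lit 6172958138) (nat_lit 228) (nat_lit 20163595425) (nat_lit 76) (nat_lit 19187880207) (nat_lit 35) (nat_lit 5) (nat_lit 38) (nat_lit 5) (nat_lit 36) (nat_lit 5) (nat_lit 325) (nat_lit 286) (nat_lit 169)) (XT.lf (nat_lit 0) (nat_lit 1280714793) (nat_lit 152) (nat_lit 13269197243) (nat_lit 228) (nat_lit 32549818328) (nat_lit 33) (nat_lit 5) (nat_lit 35) (nat_lit 5) (nat_lit 36) (nat_lit 5) (nat_lit 326) (nat_lit 286) (nat_lit 168))) (XT.nd (nat_lit 78) (nat_lit 152) (nat_lit 0) (XT.lf (nat_lit 0) (nat_lit 23695388773) (nat_lit 228) (nat_lit 24259276847) (nat_lit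 76) (nat_lit 781646280) (nat_lit 33) (nat_lit 5) (nat_lit 36) (nat_lit 5) (nat_lit 34) (nat_lit 5) (nat_lit 327) (nat_lit 286) (nat_lit 167)) (XT.nd (nat_lit 78) (nat_lit 152) (nat_lit 0) (XT.lf (nat_lit 0) (nat_lit 33511426468) (nat_lit 228) (nat_lit 1845923261) (nat_lit 76) (nat_lit 15086712117) (nat_lit 33) (nat_lit 5) (nat_lit 36) (nat_lit 5) (nat_lit 34) (nat_lit 5) (nat_lit 328) (nat_lit 286) (nat_lit 166)) (XT.lf (nat_lit 0) (nat_lit 22398470610) (nat_lit 152) (nat_lit 21765459570) (nat_lit 228) (nat_lit 8055989415) (nat_lit 31) (nat_lit 5) (nat_lit 33) (nat_lit 5) (nat_lit 34) (nat_lit 5) (nat_lit 329) (nat_lit 286) (nat_lit 165))))) (XT.nd (nat_lit 156) (nat_lit 152) (nat_lit 0) (XT.nd (nat_lit 78) (nat_lit 152) (nat_lit 0) (XT.lf (nat_lit 0) (nat_lit 1251776889) (nat_lit 228) (nat_lit 6190640510) (nat_lit 76) (nat_lit 46639780929) (nat_lit 30) (nat_lit 5) (nat_lit 33) (nat_lit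 5) (nat_lit 31) (nat_lit 5) (nat_lit 330) (nat_lit 286) (nat_lit 164)) (XT.lf (nat_lit 0) (nat_lit 11174115046) (nat_lit 228) (nat_lit 37047346860) (nat_lit 76) (nat_lit 7788532974) (nat_lit 28) (nat_lit 5) (nat_lit 31) (nat_lit 5) (nat_lit 29) (nat_lit 5) (nat_lit 331) (nat_lit 286) (nat_lit 163))) (XT.nd (nat_lit 78) (nat_lit 152) (nat_lit 0) (XT.lf (nat_lit 0) (nat_lit 21817362610) (nat_lit 228) (nat_lit 12570427639) (nat_lit 76) (nat_lit 23635154276) (nat_lit 28) (nat_lit 5) (nat_lit 31) (nat_lit 5) (nat_lit 29) (nat_lit 5) (nat_lit 332) (nat_lit 286) (nat_lit 162)) (XT.nd (nat_lit 78) (nat_lit 0) (nat_lit 0) (XT.lf (nat_lit 0) (nat_lit 13558298295) (nat_lit 152) (nat_lit 19642562480) (nat_lit 228) (nat_lit 26925279217) (nat_lit 26) (nat_lit 5) (nat_lit 28) (nat_lit 5) (nat_lit 29) (nat_lit 5) (nat_lit 333) (nat_lit 286) (nat_lit 161)) (XT.lf (nat_lit 0) (nat_lit 41423984529) (nat_lit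 152) (nat_lit 3938919962) (nat_lit 228) (nat_lit 16961124830) (nat_lit 26) (nat_lit 5) (nat_lit 28) (nat_lit 5) (nat_lit 29) (nat_lit 5) (nat_lit 334) (nat_lit 286) (nat_lit 160)))))) (XT.nd (nat_lit 390) (nat_lit 380) (nat_lit 0) (XT.nd (nat_lit 156) (nat_lit 152) (nat_lit 0) (XT.nd (nat_lit 78) (nat_lit 76) (nat_lit 0) (XT.lf (nat_lit 0) (nat_lit 6042865398) (nat_lit 76) (nat_lit 52377086674) (nat_lit 152) (nat_lit 6197518457) (nat_lit 25) (nat_lit 5) (nat_lit 26) (nat_lit 5) (nat_lit 27) (nat_lit 4) (nat_lit 335) (nat_lit 286) (nat_lit 159)) (XT.lf (nat_lit 0) (nat_lit 5361859802) (nat_lit 152) (nat_lit 32105197326) (nat_lit 76) (nat_lit 29533496335) (nat_lit 24) (nat_lit 5) (nat_lit 26) (nat_lit 5) (nat_lit 25) (nat_lit 5) (nat_lit 336) (nat_lit 286) (nat_lit 158))) (XT.nd (nat_lit 78) (nat_lit 152) (nat_lit 0) (XT.lf (nat_lit 0) (nat_lit 17287722765) (nat_lit 152) (nat_lit 4419410858)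 (nat_lit 76) (nat_lit 47790739491) (nat_lit 24) (nat_lit 5) (nat_lit 26) (nat_lit 5) (nat_lit 25) (nat_lit 5) (nat_lit 337) (nat_lit 286) (nat_lit 157)) (XT.nd (nat_lit 78) (nat_lit 0) (nat_lit 0) (XT.lf (nat_lit 0) (nat_lit 25460322772) (nat_lit 152) (nat_lit 4744008856) (nat_lit 228) (nat_lit 41896006537) (nat_lit 22) (nat_lit 5) (nat_lit 24) (nat_lit 5) (nat_lit 25) (nat_lit 5) (nat_lit 338) (nat_lit 286) (nat_lit 156)) (XT.lf (nat_lit 0) (nat_lit 44043836649) (nat_lit 228) (nat_lit 18052217712) (nat_lit 76) (nat_lit 12723020776) (nat_lit 22) (nat_lit 5) (nat_lit 25) (nat_lit 5) (nat_lit 23) (nat_lit 4) (nat_lit 339) (nat_lit 286) (nat_lit 155))))) (XT.nd (nat_lit 234) (nat_lit 228) (nat_lit 0) (XT.nd (nat_lit 78) (nat_lit 76) (nat_lit 0) (XT.lf (nat_lit 0) (nat_lit 12275063788) (nat_lit 76) (nat_lit 46566793009) (nat_lit 152) (nat_lit 18818567029) (nat_lit 21) (nat_lit 5) (nat_lit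 22) (nat_lit 5) (nat_lit 23) (nat_lit 4) (nat_lit 340) (nat_lit 286) (nat_lit 154)) (XT.nd (nat_lit 78) (nat_lit 76) (nat_lit 0) (XT.lf (nat_lit 0) (nat_lit 44740508345) (nat_lit 76) (nat_lit 29942173813) (nat_lit 152) (nat_lit 5946014356) (nat_lit 21) (nat_lit 5) (nat_lit 22) (nat_lit 5) (nat_lit 23) (nat_lit 4) (nat_lit 341) (nat_lit 286) (nat_lit 153)) (XT.lf (nat_lit 0) (nat_lit 7325143111) (nat_lit 152) (nat_lit 5039139433) (nat_lit 76) (nat_lit 71375328839) (nat_lit 20) (nat_lit 5) (nat_lit 22) (nat_lit 5) (nat_lit 21) (nat_lit 5) (nat_lit 342) (nat_lit 286) (nat_lit 152)))) (XT.nd (nat_lit 78) (nat_lit 76) (nat_lit 0) (XT.lf (nat_lit 0) (nat_lit 21600848143) (nat_lit 228) (nat_lit 58931904584) (nat_lit 76) (nat_lit 6441406279) (nat_lit 18) (nat_lit 5) (nat_lit 21) (nat_lit 5) (nat_lit 19) (nat_lit 4) (nat_lit 343) (nat_lit 286) (nat_lit 151)) (XT.nd (nat_lit 78) (nat_lit 76) (nat_lit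 0) (XT.lf (nat_lit 0) (nat_lit 36877194050) (nat_lit 228) (nat_lit 27622180657) (nat_lit 76) (nat_lit 25856717982) (nat_lit 18) (nat_lit 5) (nat_lit 21) (nat_lit 5) (nat_lit 19) (nat_lit 4) (nat_lit 344) (nat_lit 286) (nat_lit 150)) (XT.lf (nat_lit 0) (nat_lit 5422205330) (nat_lit 76) (nat_lit 47577353631) (nat_lit 152) (nat_lit 40903455400) (nat_lit 17) (nat_lit 5) (nat_lit 18) (nat_lit 5) (nat_lit 19) (nat_lit 4) (nat_lit 345) (nat_lit 286) (nat_lit 149))))))) (XT.nd (nat_lit 780) (nat_lit 380) (nat_lit 0) (XT.nd (nat_lit 390) (nat_lit 152) (nat_lit 0) (XT.nd (nat_lit 156) (nat_lit 152) (nat_lit 0) (XT.nd (nat_lit 78) (nat_lit 0) (nat_lit 0) (XT.lf (nat_lit 0) (nat_lit 41073492249) (nat_lit 76) (nat_lit 29319940507) (nat_lit 152) (nat_lit 27210581152) (nat_lit 17) (nat_lit 5) (nat_lit 18) (nat_lit 5) (nat_lit 19) (nat_lit 4) (nat_lit 346) (nat_lit 286) (nat_lit 148)) (XT.lf (nat_lit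 0) (nat_lit 78503250079) (nat_lit 76) (nat_lit 10151460299) (nat_lit 152) (nat_lit 12835468807) (nat_lit 17) (nat_lit 5) (nat_lit 18) (nat_lit 5) (nat_lit 19) (nat_lit 4) (nat_lit 347) (nat_lit 286) (nat_lit 147))) (XT.nd (nat_lit 78) (nat_lit 0) (nat_lit 0) (XT.lf (nat_lit 0) (nat_lit 2540105447) (nat_lit 152) (nat_lit 93120868009) (nat_lit 76) (nat_lit 9890217960) (nat_lit 15) (nat_lit 5) (nat_lit 17) (nat_lit 5) (nat_lit 16) (nat_lit 4) (nat_lit 348) (nat_lit 286) (nat_lit 146)) (XT.nd (nat_lit 78) (nat_lit 0) (nat_lit 0) (XT.lf (nat_lit 0) (nat_lit 18812996269) (nat_lit 152) (nat_lit 59766505033) (nat_lit 76) (nat_lit 31197238480) (nat_lit 15) (nat_lit 5) (nat_lit 17) (nat_lit 5) (nat_lit 16) (nat_lit 4) (nat_lit 349) (nat_lit 286) (nat_lit 145)) (XT.lf (nat_lit 0) (nat_lit 35897436148) (nat_lit 152) (nat_lit 24748225382) (nat_lit 76) (nat_lit 53568009846) (nat_lit 15) (nat_lit 5)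 (nat_lit 17) (nat_lit 5) (nat_lit 16) (nat_lit 4) (nat_lit 350) (nat_lit 286) (nat_lit 144))))) (XT.nd (nat_lit 156) (nat_lit 76) (nat_lit 0) (XT.nd (nat_lit 78) (nat_lit 0) (nat_lit 0) (XT.lf (nat_lit 0) (nat_lit 12414695588) (nat_lit 76) (nat_lit 41613234926) (nat_lit 152) (nat_lit 64834928401) (nat_lit 14) (nat_lit 5) (nat_lit 15) (nat_lit 5) (nat_lit 16) (nat_lit 4) (nat_lit 351) (nat_lit 286) (nat_lit 143)) (XT.lf (nat_lit 0) (nat_lit 52291403052) (nat_lit 76) (nat_lit 21190713439) (nat_lit 152) (nat_lit 50241531935) (nat_lit 14) (nat_lit 5) (nat_lit 15) (nat_lit 5) (nat_lit 16) (nat_lit 4) (nat_lit 352) (nat_lit 286) (nat_lit 142))) (XT.nd (nat_lit 78) (nat_lit 76) (nat_lit 0) (XT.lf (nat_lit 0) (nat_lit 93911073779) (nat_lit 152) (nat_lit 34672943145) (nat_lit 0) (nat_lit 243358284) (nat_lit 14) (nat_lit 5) (nat_lit 16) (nat_lit 4) (nat_lit 14) (nat_lit 4) (nat_lit 353) (nat_lit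 286) (nat_lit 141)) (XT.nd (nat_lit 78) (nat_lit 0) (nat_lit 0) (XT.lf (nat_lit 0) (nat_lit 3691798327) (nat_lit 76) (nat_lit 112072911525) (nat_lit 76) (nat_lit 18401417785) (nat_lit 13) (nat_lit 4) (nat_lit 14) (nat_lit 5) (nat_lit 14) (nat_lit 4) (nat_lit 354) (nat_lit 286) (nat_lit 140)) (XT.lf (nat_lit 0) (nat_lit 45175298629) (nat_lit 76) (nat_lit 94121169947) (nat_lit 76) (nat_lit 446077880) (nat_lit 13) (nat_lit 4) (nat_lit 14) (nat_lit 5) (nat_lit 14) (nat_lit 4) (nat_lit 355) (nat_lit 286) (nat_lit 139)))))) (XT.nd (nat_lit 390) (nat_lit 228) (nat_lit 0) (XT.nd (nat_lit 156) (nat_lit 76) (nat_lit 0) (XT.nd (nat_lit 78) (nat_lit 0) (nat_lit 0) (XT.lf (nat_lit 0) (nat_lit 17816182569) (nat_lit 152) (nat_lit 57155344778) (nat_lit 76) (nat_lit 70611975671) (nat_lit 12) (nat_lit 5) (nat_lit 14) (nat_lit 5) (nat_lit 13) (nat_lit 4) (nat_lit 356) (nat_lit 286) (nat_lit 138)) (XT.lf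 (nat_lit 0) (nat_lit 36974939597) (nat_lit 152) (nat_lit 17883156659) (nat_lit 76) (nat_lit 96858127480) (nat_lit 12) (nat_lit 5) (nat_lit 14) (nat_lit 5) (nat_lit 13) (nat_lit 4) (nat_lit 357) (nat_lit 286) (nat_lit 137))) (XT.nd (nat_lit 78) (nat_lit 0) (nat_lit 0) (XT.lf (nat_lit 0) (nat_lit 24121835649) (nat_lit 76) (nat_lit 33344860377) (nat_lit 152) (nat_lit 100670132056) (nat_lit 11) (nat_lit 5) (nat_lit 12) (nat_lit 5) (nat_lit 13) (nat_lit 4) (nat_lit 358) (nat_lit 286) (nat_lit 136)) (XT.nd (nat_lit 78) (nat_lit 0) (nat_lit 0) (XT.lf (nat_lit 0) (nat_lit 68845131831) (nat_lit 76) (nat_lit 10439250310) (nat_lit 152) (nat_lit 85579014048) (nat_lit 11) (nat_lit 5) (nat_lit 12) (nat_lit 5) (nat_lit 13) (nat_lit 4) (nat_lit 359) (nat_lit 286) (nat_lit 135)) (XT.lf (nat_lit 0) (nat_lit 102404003464) (nat_lit 152) (nat_lit 56336944253) (nat_lit 0) (nat_lit 13174793043) (nat_lit 11)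 (nat_lit 5) (nat_lit 13) (nat_lit 4) (nat_lit 11) (nat_lit 4) (nat_lit 360) (nat_lit 286) (nat_lit 134))))) (XT.nd (nat_lit 234) (nat_lit 152) (nat_lit 0) (XT.nd (nat_lit 78) (nat_lit 76) (nat_lit 0) (XT.lf (nat_lit 0) (nat_lit 126849345917) (nat_lit 152) (nat_lit 14845291989) (nat_lit 0) (nat_lit 37617578232) (nat_lit 11) (nat_lit 5) (nat_lit 13) (nat_lit 4) (nat_lit 11) (nat_lit 4) (nat_lit 361) (nat_lit 286) (nat_lit 133)) (XT.nd (nat_lit 78) (nat_lit 0) (nat_lit 0) (XT.lf (nat_lit 0) (nat_lit 29668030286) (nat_lit 76) (nat_lit 123310797552) (nat_lit 76) (nat_lit 34076594377) (nat_lit 10) (nat_lit 4) (nat_lit 11) (nat_lit 5) (nat_lit 11) (nat_lit 4) (nat_lit 362) (nat_lit 286) (nat_lit 132)) (XT.lf (nat_lit 0) (nat_lit 76919978758) (nat_lit 76) (nat_lit 103744913808) (nat_lit 76) (nat_lit 14508391119) (nat_lit 10) (nat_lit 4) (nat_lit 11) (nat_lit 5) (nat_lit 11) (nat_lit 4) (nat_lit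 363) (nat_lit 286) (nat_lit 131)))) (XT.nd (nat_lit 78) (nat_lit 76) (nat_lit 0) (XT.lf (nat_lit 0) (nat_lit 5843699222) (nat_lit 152) (nat_lit 77259148343) (nat_lit 76) (nat_lit 120589540571) (nat_lit 9) (nat_lit 5) (nat_lit 11) (nat_lit 5) (nat_lit 10) (nat_lit 4) (nat_lit 364) (nat_lit 286) (nat_lit 130)) (XT.nd (nat_lit 78) (nat_lit 76) (nat_lit 0) (XT.lf (nat_lit 0) (nat_lit 26724614853) (nat_lit 152) (nat_lit 34455375167) (nat_lit 76) (nat_lit 151445626228) (nat_lit 9) (nat_lit 5) (nat_lit 11) (nat_lit 5) (nat_lit 10) (nat_lit 4) (nat_lit 365) (nat_lit 286) (nat_lit 129)) (XT.lf (nat_lit 0) (nat_lit 10833174223) (nat_lit 76) (nat_lit 37984393349) (nat_lit 152) (nat_lit 173179539058) (nat_lit 8) (nat_lit 5) (nat_lit 9) (nat_lit 5) (nat_lit 10) (nat_lit 4) (nat_lit 366) (nat_lit 286) (nat_lit 128))))))))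
noncomputable def xc180 : XT := (XT.nd (nat_lit 34554) (nat_lit 0) (nat_lit 4104) (XT.nd (nat_lit 780) (nat_lit 76) (nat_lit 0) (XT.nd (nat_lit 390) (nat_lit 76) (nat_lit 0) (XT.nd (nat_lit 156) (nat_lit 76) (nat_lit 0) (XT.nd (nat_lit 78) (nat_lit 0) (nat_lit 0) (XT.lf (nat_lit 0) (nat_lit 59580256775) (nat_lit 76) (nat_lit 13017306320) (nat_lit 152) (nat_lit 159210489089) (nat_lit 8) (nat_lit 5) (nat_lit 9) (nat_lit 5) (nat_lit 10) (nat_lit 4) (nat_lit 367) (nat_lit 286) (nat_lit 127)) (XT.lf (nat_lit 0) (nat_lit 97771533849) (nat_lit 152) (nat_lit 131552957480) (nat_lit 0) (nat_lit 12774805305) (nat_lit 8) (nat_lit 5) (nat_lit 10) (nat_lit 4) (nat_lit 8) (nat_lit 4) (nat_lit 368) (nat_lit 286) (nat_lit 126))) (XT.nd (nat_lit 78) (nat_lit 76) (nat_lit 0) (XT.lf (nat_lit 0) (nat_lit 124416568821) (nat_lit 152) (nat_lit 89059724731) (nat_lit 0) (nat_lit 39418191842) (nat_lit 8) (nat_lit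 5) (nat_lit 10) (nat_lit 4) (nat_lit 8) (nat_lit 4) (nat_lit 369) (nat_lit 286) (nat_lit 125)) (XT.nd (nat_lit 78) (nat_lit 76) (nat_lit 0) (XT.lf (nat_lit 0) (nat_lit 152392871939) (nat_lit 152) (nat_lit 44443686166) (nat_lit 0) (nat_lit 67392925021) (nat_lit 8) (nat_lit 5) (nat_lit 10) (nat_lit 4) (nat_lit 8) (nat_lit 4) (nat_lit 370) (nat_lit 286) (nat_lit 124)) (XT.lf (nat_lit 0) (nat_lit 2480787572) (nat_lit 76) (nat_lit 179324997922) (nat_lit 76) (nat_lit 94323555825) (nat_lit 7) (nat_lit 4) (nat_lit 8) (nat_lit 5) (nat_lit 8) (nat_lit 4) (nat_lit 371) (nat_lit 286) (nat_lit 123))))) (XT.nd (nat_lit 156) (nat_lit 76) (nat_lit 0) (XT.nd (nat_lit 78) (nat_lit 0) (nat_lit 0) (XT.lf (nat_lit 0) (nat_lit 53292730483) (nat_lit 76) (nat_lit 160148370268) (nat_lit 76) (nat_lit 75145504191) (nat_lit 7) (nat_lit 4) (nat_lit 8) (nat_lit 5) (nat_lit 8) (nat_lit 4) (nat_lit 372) (nat_lit 286)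 (nat_lit 122)) (XT.lf (nat_lit 0) (nat_lit 106643614404) (nat_lit 76) (nat_lit 140013691837) (nat_lit 76) (nat_lit 55009469588) (nat_lit 7) (nat_lit 4) (nat_lit 8) (nat_lit 5) (nat_lit 8) (nat_lit 4) (nat_lit 373) (nat_lit 286) (nat_lit 121))) (XT.nd (nat_lit 78) (nat_lit 76) (nat_lit 0) (XT.lf (nat_lit 0) (nat_lit 162660465250) (nat_lit 76) (nat_lit 118873022917) (nat_lit 76) (nat_lit 33867509076) (nat_lit 7) (nat_lit 4) (nat_lit 8) (nat_lit 5) (nat_lit 8) (nat_lit 4) (nat_lit 374) (nat_lit 286) (nat_lit 120)) (XT.nd (nat_lit 78) (nat_lit 76) (nat_lit 0) (XT.lf (nat_lit 0) (nat_lit 221476656475) (nat_lit 76) (nat_lit 96676028584) (nat_lit 76) (nat_lit 11669284655) (nat_lit 7) (nat_lit 4) (nat_lit 8) (nat_lit 5) (nat_lit 8) (nat_lit 4) (nat_lit 375) (nat_lit 286) (nat_lit 119)) (XT.lf (nat_lit 0) (nat_lit 11265566098) (nat_lit 152) (nat_lit 61913504938) (nat_lit 76) (nat_lit 271775872718)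 (nat_lit 6) (nat_lit 5) (nat_lit 8) (nat_lit 5) (nat_lit 7) (nat_lit 4) (nat_lit 376) (nat_lit 286) (nat_lit 118)))))) (XT.nd (nat_lit 390) (nat_lit 0) (nat_lit 0) (XT.nd (nat_lit 156) (nat_lit 0) (nat_lit 0) (XT.nd (nat_lit 78) (nat_lit 76) (nat_lit 0) (XT.lf (nat_lit 0) (nat_lit 34954262553) (nat_lit 152) (nat_lit 13352792931) (nat_lit 76) (nat_lit 312527982882) (nat_lit 6) (nat_lit 5) (nat_lit 8) (nat_lit 5) (nat_lit 7) (nat_lit 4) (nat_lit 377) (nat_lit 286) (nat_lit 117)) (XT.lf (nat_lit 0) (nat_lit 38879004715) (nat_lit 76) (nat_lit 21554701859) (nat_lit 152) (nat_lit 317045115726) (nat_lit 5) (nat_lit 5) (nat_lit 6) (nat_lit 5) (nat_lit 7) (nat_lit 4) (nat_lit 378) (nat_lit 286) (nat_lit 116))) (XT.nd (nat_lit 78) (nat_lit 0) (nat_lit 0) (XT.lf (nat_lit 0) (nat_lit 87518305666) (nat_lit 152) (nat_lit 300864583040) (nat_lit 0) (nat_lit 6555347800) (nat_lit 5) (nat_lit 5) (nat_lit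 7) (nat_lit 4) (nat_lit 5) (nat_lit 4) (nat_lit 379) (nat_lit 286) (nat_lit 115)) (XT.nd (nat_lit 78) (nat_lit 0) (nat_lit 0) (XT.lf (nat_lit 0) (nat_lit 116309829376) (nat_lit 152) (nat_lit 261597203919) (nat_lit 0) (nat_lit 35345953599) (nat_lit 5) (nat_lit 5) (nat_lit 7) (nat_lit 4) (nat_lit 5) (nat_lit 4) (nat_lit 380) (nat_lit 286) (nat_lit 114)) (XT.lf (nat_lit 0) (nat_lit 146540299649) (nat_lit 152) (nat_lit 220367657160) (nat_lit 0) (nat_lit 65575549672) (nat_lit 5) (nat_lit 5) (nat_lit 7) (nat_lit 4) (nat_lit 5) (nat_lit 4) (nat_lit 381) (nat_lit 286) (nat_lit 113))))) (XT.nd (nat_lit 156) (nat_lit 0) (nat_lit 0) (XT.nd (nat_lit 78) (nat_lit 0) (nat_lit 0) (XT.lf (nat_lit 0) (nat_lit 178281693796) (nat_lit 152) (nat_lit 177077777176) (nat_lit 0) (nat_lit 97316111247) (nat_lit 5) (nat_lit 5) (nat_lit 7) (nat_lit 4) (nat_lit 5) (nat_lit 4) (nat_lit 382) (nat_lit 286) (nat_lit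 112)) (XT.lf (nat_lit 0) (nat_lit 211609586563) (nat_lit 152) (nat_lit 131624492823) (nat_lit 0) (nat_lit 130643211089) (nat_lit 5) (nat_lit 5) (nat_lit 7) (nat_lit 4) (nat_lit 5) (nat_lit 4) (nat_lit 383) (nat_lit 286) (nat_lit 111))) (XT.nd (nat_lit 33072) (nat_lit 0) (nat_lit 6764) (XT.lf (nat_lit 0) (nat_lit 246603330078) (nat_lit 152) (nat_lit 83899581996) (nat_lit 0) (nat_lit 165636199436) (nat_lit 5) (nat_lit 5) (nat_lit 7) (nat_lit 4) (nat_lit 5) (nat_lit 4) (nat_lit 384) (nat_lit 286) (nat_lit 110)) (XT.nd (nat_lit 78) (nat_lit 0) (nat_lit 0) (XT.lf (nat_lit 0) (nat_lit 2555623485) (nat_lit 0) (nat_lit 2555623485) (nat_lit 684) (nat_lit 2608075528) (nat_lit 94) (nat_lit 5) (nat_lit 94) (nat_lit 3) (nat_lit 103) (nat_lit 3) (nat_lit 287) (nat_lit 287) (nat_lit 206)) (XT.lf (nat_lit 0) (nat_lit 10770887890) (nat_lit 684) (nat_lit 3269622889) (nat_lit 760) (nat_lit 1768989262)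 (nat_lit 94) (nat_lit 5) (nat_lit 103) (nat_lit 3) (nat_lit 104) (nat_lit 5) (nat_lit 288) (nat_lit 287) (nat_lit 205))))))) (XT.nd (nat_lit 780) (nat_lit 2128) (nat_lit 0) (XT.nd (nat_lit 390) (nat_lit 532) (nat_lit 0) (XT.nd (nat_lit 156) (nat_lit 0) (nat_lit 76) (XT.nd (nat_lit 78) (nat_lit 0) (nat_lit 0) (XT.lf (nat_lit 76) (nat_lit 4181620766) (nat_lit 0) (nat_lit 7297372126) (nat_lit 760) (nat_lit 4713320433) (nat_lit 95) (nat_lit 5) (nat_lit 94) (nat_lit 5) (nat_lit 104) (nat_lit 5) (nat_lit 289) (nat_lit 287) (nat_lit 204)) (XT.lf (nat_lit 76) (nat_lit 12109625941) (nat_lit 0) (nat_lit 152117377) (nat_lit 760) (nat_lit 4330590568) (nat_lit 95) (nat_lit 5) (nat_lit 94) (nat_lit 5) (nat_lit 104) (nat_lit 5) (nat_lit 290) (nat_lit 287) (nat_lit 203))) (XT.nd (nat_lit 78) (nat_lit 0) (nat_lit 0) (XT.lf (nat_lit 76) (nat_lit 3406166260) (nat_lit 0) (nat_lit 9830142270) (nat_lit 760)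 (nat_lit 3768440343) (nat_lit 96) (nat_lit 5) (nat_lit 95) (nat_lit 5) (nat_lit 105) (nat_lit 5) (nat_lit 291) (nat_lit 287) (nat_lit 202)) (XT.nd (nat_lit 78) (nat_lit 0) (nat_lit 76) (XT.lf (nat_lit 76) (nat_lit 11832927154) (nat_lit 0) (nat_lit 2490359059) (nat_lit 760) (nat_lit 3111340145) (nat_lit 96) (nat_lit 5) (nat_lit 95) (nat_lit 5) (nat_lit 105) (nat_lit 5) (nat_lit 292) (nat_lit 287) (nat_lit 201)) (XT.lf (nat_lit 76) (nat_lit 2793027627) (nat_lit 0) (nat_lit 12782723664) (nat_lit 760) (nat_lit 2304714228) (nat_lit 97) (nat_lit 5) (nat_lit 96) (nat_lit 5) (nat_lit 106) (nat_lit 5) (nat_lit 293) (nat_lit 287) (nat_lit 200))))) (XT.nd (nat_lit 156) (nat_lit 684) (nat_lit 0) (XT.nd (nat_lit 78) (nat_lit 0) (nat_lit 76) (XT.lf (nat_lit 76) (nat_lit 11750001992) (nat_lit 0) (nat_lit 5262470457) (nat_lit 760) (nat_lit 1330066096) (nat_lit 97) (nat_lit 5) (nat_lit 96) (nat_lit 5)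 (nat_lit 106) (nat_lit 5) (nat_lit 294) (nat_lit 287) (nat_lit 199)) (XT.lf (nat_lit 76) (nat_lit 2351202351) (nat_lit 0) (nat_lit 16234947213) (nat_lit 760) (nat_lit 238332089) (nat_lit 98) (nat_lit 5) (nat_lit 97) (nat_lit 5) (nat_lit 107) (nat_lit 5) (nat_lit 295) (nat_lit 287) (nat_lit 198))) (XT.nd (nat_lit 78) (nat_lit 0) (nat_lit 0) (XT.lf (nat_lit 0) (nat_lit 1066194893) (nat_lit 760) (nat_lit 7466520694) (nat_lit 836) (nat_lit 10787754480) (nat_lit 87) (nat_lit 5) (nat_lit 97) (nat_lit 5) (nat_lit 98) (nat_lit 5) (nat_lit 296) (nat_lit 287) (nat_lit 197)) (XT.nd (nat_lit 78) (nat_lit 0) (nat_lit 76) (XT.lf (nat_lit 76) (nat_lit 2042212499) (nat_lit 0) (nat_lit 405724661) (nat_lit 836) (nat_lit 17392144837) (nat_lit 88) (nat_lit 5) (nat_lit 87) (nat_lit 5) (nat_lit 98) (nat_lit 5) (nat_lit 297) (nat_lit 287) (nat_lit 196)) (XT.lf (nat_lit 0) (nat_lit 4142740698) (nat_lit 760)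 (nat_lit 8232998459) (nat_lit 76) (nat_lit 7997755111) (nat_lit 88) (nat_lit 5) (nat_lit 98) (nat_lit 5) (nat_lit 89) (nat_lit 5) (nat_lit 298) (nat_lit 287) (nat_lit 195)))))) (XT.nd (nat_lit 390) (nat_lit 988) (nat_lit 0) (XT.nd (nat_lit 156) (nat_lit 684) (nat_lit 0) (XT.nd (nat_lit 78) (nat_lit 0) (nat_lit 0) (XT.lf (nat_lit 0) (nat_lit 1852979751) (nat_lit 532) (nat_lit 4093988203) (nat_lit 608) (nat_lit 14985392592) (nat_lit 81) (nat_lit 5) (nat_lit 88) (nat_lit 5) (nat_lit 89) (nat_lit 5) (nat_lit 299) (nat_lit 287) (nat_lit 194)) (XT.lf (nat_lit 0) (nat_lit 8044454520) (nat_lit 608) (nat_lit 8867435498) (nat_lit 76) (nat_lit 4597144457) (nat_lit 81) (nat_lit 5) (nat_lit 89) (nat_lit 5) (nat_lit 82) (nat_lit 5) (nat_lit 300) (nat_lit 287) (nat_lit 193))) (XT.nd (nat_lit 78) (nat_lit 304) (nat_lit 0) (XT.lf (nat_lit 0) (nat_lit 1837084661) (nat_lit 380) (nat_lit 8495512706) (nat_lit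 456) (nat_lit 11777671575) (nat_lit 76) (nat_lit 5) (nat_lit 81) (nat_lit 5) (nat_lit 82) (nat_lit 5) (nat_lit 301) (nat_lit 287) (nat_lit 192)) (XT.nd (nat_lit 78) (nat_lit 304) (nat_lit 0) (XT.lf (nat_lit 0) (nat_lit 12883433469) (nat_lit 456) (nat_lit 9367215903) (nat_lit 76) (nat_lit 483516634) (nat_lit 76) (nat_lit 5) (nat_lit 82) (nat_lit 5) (nat_lit 77) (nat_lit 5) (nat_lit 302) (nat_lit 287) (nat_lit 191)) (XT.lf (nat_lit 0) (nat_lit 1999194383) (nat_lit 304) (nat_lit 13723877187) (nat_lit 380) (nat_lit 7658137800) (nat_lit 72) (nat_lit 5) (nat_lit 76) (nat_lit 5) (nat_lit 77) (nat_lit 5) (nat_lit 303) (nat_lit 287) (nat_lit 190))))) (XT.nd (nat_lit 234) (nat_lit 608) (nat_lit 0) (XT.nd (nat_lit 78) (nat_lit 380) (nat_lit 0) (XT.lf (nat_lit 0) (nat_lit 14249715649) (nat_lit 304) (nat_lit 4604682901) (nat_lit 380) (nat_lit 5198734771) (nat_lit 72) (nat_lit 5) (nat_lit 76) (nat_lit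 5) (nat_lit 77) (nat_lit 5) (nat_lit 304) (nat_lit 287) (nat_lit 189)) (XT.nd (nat_lit 78) (nat_lit 76) (nat_lit 0) (XT.lf (nat_lit 0) (nat_lit 2342066462) (nat_lit 304) (nat_lit 19905881327) (nat_lit 380) (nat_lit 2505435998) (nat_lit 68) (nat_lit 5) (nat_lit 72) (nat_lit 5) (nat_lit 73) (nat_lit 5) (nat_lit 305) (nat_lit 287) (nat_lit 188)) (XT.lf (nat_lit 0) (nat_lit 548039093) (nat_lit 380) (nat_lit 10137950879) (nat_lit 76) (nat_lit 14790625205) (nat_lit 67) (nat_lit 5) (nat_lit 72) (nat_lit 5) (nat_lit 68) (nat_lit 5) (nat_lit 306) (nat_lit 287) (nat_lit 187)))) (XT.nd (nat_lit 78) (nat_lit 304) (nat_lit 0) (XT.lf (nat_lit 0) (nat_lit 2788165284) (nat_lit 304) (nat_lit 917354957) (nat_lit 380) (nat_lit 22526669017) (nat_lit 63) (nat_lit 5) (nat_lit 67) (nat_lit 5) (nat_lit 68) (nat_lit 5) (nat_lit 307) (nat_lit 287) (nat_lit 186)) (XT.nd (nat_lit 78) (nat_lit 304) (nat_lit 0) (XT.lf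 (nat_lit 0) (nat_lit 7333423512) (nat_lit 380) (nat_lit 10462355498) (nat_lit 76) (nat_lit 9214146418) (nat_lit 63) (nat_lit 5) (nat_lit 68) (nat_lit 5) (nat_lit 64) (nat_lit 5) (nat_lit 308) (nat_lit 287) (nat_lit 185)) (XT.lf (nat_lit 0) (nat_lit 3248453999) (nat_lit 304) (nat_lit 7952617621) (nat_lit 380) (nat_lit 16622569577) (nat_lit 59) (nat_lit 5) (nat_lit 63) (nat_lit 5) (nat_lit 64) (nat_lit 5) (nat_lit 309) (nat_lit 287) (nat_lit 184))))))))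
noncomputable def xc181 : XT := (XT.nd (nat_lit 1638) (nat_lit 1216) (nat_lit 0) (XT.nd (nat_lit 780) (nat_lit 988) (nat_lit 0) (XT.nd (nat_lit 390) (nat_lit 608) (nat_lit 0) (XT.nd (nat_lit 156) (nat_lit 304) (nat_lit 0) (XT.nd (nat_lit 78) (nat_lit 228) (nat_lit 0) (XT.lf (nat_lit 0) (nat_lit 15472178408) (nat_lit 380) (nat_lit 10710332192) (nat_lit 76) (nat_lit 2485038125) (nat_lit 59) (nat_lit 5) (nat_lit 64) (nat_lit 5) (nat_lit 60) (nat_lit 5) (nat_lit 310) (nat_lit 287) (nat_lit 183)) (XT.lf (nat_lit 0) (nat_lit 3831378347) (nat_lit 228) (nat_lit 16308780944) (nat_lit 304) (nat_lit 9404335719) (nat_lit 56) (nat_lit 5) (nat_lit 59) (nat_lit 5) (nat_lit 60) (nat_lit 5) (nat_lit 311) (nat_lit 287) (nat_lit 182))) (XT.nd (nat_lit 78) (nat_lit 304) (nat_lit 0) (XT.lf (nat_lit 0) (nat_lit 19463507920) (nat_lit 228) (nat_lit 5752739763) (nat_lit 304) (nat_lit 5240314379) (nat_lit 56)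 (nat_lit 5) (nat_lit 59) (nat_lit 5) (nat_lit 60) (nat_lit 5) (nat_lit 312) (nat_lit 287) (nat_lit 181)) (XT.nd (nat_lit 78) (nat_lit 76) (nat_lit 0) (XT.lf (nat_lit 0) (nat_lit 4515916350) (nat_lit 228) (nat_lit 26177578247) (nat_lit 304) (nat_lit 713378616) (nat_lit 53) (nat_lit 5) (nat_lit 56) (nat_lit 5) (nat_lit 57) (nat_lit 5) (nat_lit 313) (nat_lit 287) (nat_lit 180)) (XT.lf (nat_lit 0) (nat_lit 4187813663) (nat_lit 304) (nat_lit 11382315724) (nat_lit 76) (nat_lit 16817563896) (nat_lit 52) (nat_lit 5) (nat_lit 56) (nat_lit 5) (nat_lit 53) (nat_lit 5) (nat_lit 314) (nat_lit 287) (nat_lit 179))))) (XT.nd (nat_lit 156) (nat_lit 380) (nat_lit 0) (XT.nd (nat_lit 78) (nat_lit 0) (nat_lit 0) (XT.lf (nat_lit 0) (nat_lit 5043406701) (nat_lit 228) (nat_lit 4339407296) (nat_lit 304) (nat_lit 24030526792) (nat_lit 49) (nat_lit 5) (nat_lit 52) (nat_lit 5) (nat_lit 53) (nat_lit 5) (nat_lit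 315) (nat_lit 287) (nat_lit 178)) (XT.lf (nat_lit 0) (nat_lit 15143960205) (nat_lit 304) (nat_lit 11922782279) (nat_lit 76) (nat_lit 7408215348) (nat_lit 49) (nat_lit 5) (nat_lit 53) (nat_lit 5) (nat_lit 50) (nat_lit 5) (nat_lit 316) (nat_lit 287) (nat_lit 177))) (XT.nd (nat_lit 78) (nat_lit 152) (nat_lit 0) (XT.lf (nat_lit 0) (nat_lit 5441943142) (nat_lit 228) (nat_lit 15901713682) (nat_lit 304) (nat_lit 14238480871) (nat_lit 46) (nat_lit 5) (nat_lit 49) (nat_lit 5) (nat_lit 50) (nat_lit 5) (nat_lit 317) (nat_lit 287) (nat_lit 176)) (XT.nd (nat_lit 78) (nat_lit 152) (nat_lit 0) (XT.lf (nat_lit 0) (nat_lit 24081140760) (nat_lit 228) (nat_lit 3968653818) (nat_lit 304) (nat_lit 8685065465) (nat_lit 46) (nat_lit 5) (nat_lit 49) (nat_lit 5) (nat_lit 50) (nat_lit 5) (nat_lit 318) (nat_lit 287) (nat_lit 175)) (XT.lf (nat_lit 0) (nat_lit 5749887393) (nat_lit 152) (nat_lit 29559550885) (nat_lit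 228) (nat_lit 2624876283) (nat_lit 44) (nat_lit 5) (nat_lit 46) (nat_lit 5) (nat_lit 47) (nat_lit 5) (nat_lit 319) (nat_lit 287) (nat_lit 174)))))) (XT.nd (nat_lit 390) (nat_lit 532) (nat_lit 0) (XT.nd (nat_lit 156) (nat_lit 152) (nat_lit 0) (XT.nd (nat_lit 78) (nat_lit 228) (nat_lit 0) (XT.lf (nat_lit 0) (nat_lit 3896351533) (nat_lit 228) (nat_lit 13804600298) (nat_lit 76) (nat_lit 21475993198) (nat_lit 43) (nat_lit 5) (nat_lit 46) (nat_lit 5) (nat_lit 44) (nat_lit 5) (nat_lit 320) (nat_lit 287) (nat_lit 173)) (XT.lf (nat_lit 0) (nat_lit 5623933241) (nat_lit 228) (nat_lit 5114356012) (nat_lit 304) (nat_lit 29737128339) (nat_lit 40) (nat_lit 5) (nat_lit 43) (nat_lit 5) (nat_lit 44) (nat_lit 5) (nat_lit 321) (nat_lit 287) (nat_lit 172))) (XT.nd (nat_lit 78) (nat_lit 152) (nat_lit 0) (XT.lf (nat_lit 0) (nat_lit 18281576227) (nat_lit 304) (nat_lit 15461634814) (nat_lit 76) (nat_lit 8077645066)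 (nat_lit 40) (nat_lit 5) (nat_lit 44) (nat_lit 5) (nat_lit 41) (nat_lit 5) (nat_lit 322) (nat_lit 287) (nat_lit 171)) (XT.nd (nat_lit 78) (nat_lit 0) (nat_lit 0) (XT.lf (nat_lit 0) (nat_lit 4965804305) (nat_lit 152) (nat_lit 21392970498) (nat_lit 228) (nat_lit 16866959088) (nat_lit 38) (nat_lit 5) (nat_lit 40) (nat_lit 5) (nat_lit 41) (nat_lit 5) (nat_lit 323) (nat_lit 287) (nat_lit 170)) (XT.lf (nat_lit 0) (nat_lit 26944523553) (nat_lit 152) (nat_lit 8152647989) (nat_lit 228) (nat_lit 9590821594) (nat_lit 38) (nat_lit 5) (nat_lit 40) (nat_lit 5) (nat_lit 41) (nat_lit 5) (nat_lit 324) (nat_lit 287) (nat_lit 169))))) (XT.nd (nat_lit 234) (nat_lit 152) (nat_lit 0) (XT.nd (nat_lit 78) (nat_lit 228) (nat_lit 0) (XT.lf (nat_lit 0) (nat_lit 3824718648) (nat_lit 152) (nat_lit 40592920372) (nat_lit 228) (nat_lit 1798473046) (nat_lit 36) (nat_lit 5) (nat_lit 38) (nat_lit 5) (nat_lit 39) (nat_lit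 5) (nat_lit 325) (nat_lit 287) (nat_lit 168)) (XT.nd (nat_lit 78) (nat_lit 152) (nat_lit 0) (XT.lf (nat_lit 0) (nat_lit 6613948662) (nat_lit 228) (nat_lit 20963301351) (nat_lit 76) (nat_lit 20216669223) (nat_lit 35) (nat_lit 5) (nat_lit 38) (nat_lit 5) (nat_lit 36) (nat_lit 5) (nat_lit 326) (nat_lit 287) (nat_lit 167)) (XT.lf (nat_lit 0) (nat_lit 1549861897) (nat_lit 152) (nat_lit 13856788692) (nat_lit 228) (nat_lit 34041490725) (nat_lit 33) (nat_lit 5) (nat_lit 35) (nat_lit 5) (nat_lit 36) (nat_lit 5) (nat_lit 327) (nat_lit 287) (nat_lit 166)))) (XT.nd (nat_lit 78) (nat_lit 152) (nat_lit 0) (XT.lf (nat_lit 0) (nat_lit 25004374850) (nat_lit 228) (nat_lit 25271762200) (nat_lit 76) (nat_lit 890671594) (nat_lit 33) (nat_lit 5) (nat_lit 36) (nat_lit 5) (nat_lit 34) (nat_lit 5) (nat_lit 328) (nat_lit 287) (nat_lit 165)) (XT.nd (nat_lit 78) (nat_lit 152) (nat_lit 0) (XT.lf (nat_lit 0) (nat_lit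 35305299352) (nat_lit 228) (nat_lit 1747287530) (nat_lit 76) (nat_lit 15907660104) (nat_lit 33) (nat_lit 5) (nat_lit 36) (nat_lit 5) (nat_lit 34) (nat_lit 5) (nat_lit 329) (nat_lit 287) (nat_lit 164)) (XT.lf (nat_lit 0) (nat_lit 23706246489) (nat_lit 152) (nat_lit 22781481255) (nat_lit 228) (nat_lit 8337309802) (nat_lit 31) (nat_lit 5) (nat_lit 33) (nat_lit 5) (nat_lit 34) (nat_lit 5) (nat_lit 330) (nat_lit 287) (nat_lit 163))))))) (XT.nd (nat_lit 780) (nat_lit 532) (nat_lit 0) (XT.nd (nat_lit 390) (nat_lit 304) (nat_lit 0) (XT.nd (nat_lit 156) (nat_lit 152) (nat_lit 0) (XT.nd (nat_lit 78) (nat_lit 152) (nat_lit 0) (XT.lf (nat_lit 0) (nat_lit 1426357156) (nat_lit 228) (nat_lit 6317473727) (nat_lit 76) (nat_lit 49036788922) (nat_lit 30) (nat_lit 5) (nat_lit 33) (nat_lit 5) (nat_lit 31) (nat_lit 5) (nat_lit 331) (nat_lit 287) (nat_lit 162)) (XT.lf (nat_lit 0) (nat_lit 11843383109) (nat_lit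 228) (nat_lit 38715501645) (nat_lit 76) (nat_lit 8245997118) (nat_lit 28) (nat_lit 5) (nat_lit 31) (nat_lit 5) (nat_lit 29) (nat_lit 5) (nat_lit 332) (nat_lit 287) (nat_lit 161))) (XT.nd (nat_lit 78) (nat_lit 152) (nat_lit 0) (XT.lf (nat_lit 0) (nat_lit 23013528179) (nat_lit 228) (nat_lit 13023508491) (nat_lit 76) (nat_lit 24881709604) (nat_lit 28) (nat_lit 5) (nat_lit 31) (nat_lit 5) (nat_lit 29) (nat_lit 5) (nat_lit 333) (nat_lit 287) (nat_lit 160)) (XT.nd (nat_lit 78) (nat_lit 0) (nat_lit 0) (XT.lf (nat_lit 0) (nat_lit 14408824054) (nat_lit 152) (nat_lit 20555057973) (nat_lit 228) (nat_lit 28163339286) (nat_lit 26) (nat_lit 5) (nat_lit 28) (nat_lit 5) (nat_lit 29) (nat_lit 5) (nat_lit 334) (nat_lit 287) (nat_lit 159)) (XT.lf (nat_lit 0) (nat_lit 43659575036) (nat_lit 152) (nat_lit 4069549169) (nat_lit 228) (nat_lit 17706129746) (nat_lit 26) (nat_lit 5) (nat_lit 28) (nat_lit 5) (nat_lit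 29) (nat_lit 5) (nat_lit 335) (nat_lit 287) (nat_lit 158))))) (XT.nd (nat_lit 156) (nat_lit 152) (nat_lit 0) (XT.nd (nat_lit 78) (nat_lit 76) (nat_lit 0) (XT.lf (nat_lit 0) (nat_lit 6510626350) (nat_lit 76) (nat_lit 54927299444) (nat_lit 152) (nat_lit 6405499826) (nat_lit 25) (nat_lit 5) (nat_lit 26) (nat_lit 5) (nat_lit 27) (nat_lit 4) (nat_lit 336) (nat_lit 287) (nat_lit 157)) (XT.lf (nat_lit 0) (nat_lit 5723889261) (nat_lit 152) (nat_lit 33549556946) (nat_lit 76) (nat_lit 31072374949) (nat_lit 24) (nat_lit 5) (nat_lit 26) (nat_lit 5) (nat_lit 25) (nat_lit 5) (nat_lit 337) (nat_lit 287) (nat_lit 156))) (XT.nd (nat_lit 78) (nat_lit 152) (nat_lit 0) (XT.lf (nat_lit 0) (nat_lit 18241572207) (nat_lit 152) (nat_lit 4487143071) (nat_lit 76) (nat_lit 50239518177) (nat_lit 24) (nat_lit 5) (nat_lit 26) (nat_lit 5) (nat_lit 25) (nat_lit 5) (nat_lit 338) (nat_lit 287) (nat_lit 155)) (XT.nd (nat_lit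 78) (nat_lit 0) (nat_lit 0) (XT.lf (nat_lit 0) (nat_lit 26884105655) (nat_lit 152) (nat_lit 4917999593) (nat_lit 228) (nat_lit 43898814689) (nat_lit 22) (nat_lit 5) (nat_lit 24) (nat_lit 5) (nat_lit 25) (nat_lit 5) (nat_lit 339) (nat_lit 287) (nat_lit 154)) (XT.lf (nat_lit 0) (nat_lit 46330356023) (nat_lit 228) (nat_lit 18807957169) (nat_lit 76) (nat_lit 13417444768) (nat_lit 22) (nat_lit 5) (nat_lit 25) (nat_lit 5) (nat_lit 23) (nat_lit 4) (nat_lit 340) (nat_lit 287) (nat_lit 153)))))) (XT.nd (nat_lit 390) (nat_lit 228) (nat_lit 0) (XT.nd (nat_lit 156) (nat_lit 228) (nat_lit 0) (XT.nd (nat_lit 78) (nat_lit 0) (nat_lit 0) (XT.lf (nat_lit 0) (nat_lit 13033319512) (nat_lit 76) (nat_lit 48833198158) (nat_lit 152) (nat_lit 19672746986) (nat_lit 21) (nat_lit 5) (nat_lit 22) (nat_lit 5) (nat_lit 23) (nat_lit 4) (nat_lit 341) (nat_lit 287) (nat_lit 152)) (XT.lf (nat_lit 0) (nat_lit 47115155224)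 (nat_lit 76) (nat_lit 31380297264) (nat_lit 152) (nat_lit 6160697555) (nat_lit 21) (nat_lit 5) (nat_lit 22) (nat_lit 5) (nat_lit 23) (nat_lit 4) (nat_lit 342) (nat_lit 287) (nat_lit 151))) (XT.nd (nat_lit 78) (nat_lit 152) (nat_lit 0) (XT.lf (nat_lit 0) (nat_lit 7767565259) (nat_lit 152) (nat_lit 5157465103) (nat_lit 76) (nat_lit 74997708456) (nat_lit 20) (nat_lit 5) (nat_lit 22) (nat_lit 5) (nat_lit 21) (nat_lit 5) (nat_lit 343) (nat_lit 287) (nat_lit 150)) (XT.nd (nat_lit 78) (nat_lit 0) (nat_lit 0) (XT.lf (nat_lit 0) (nat_lit 22756369483) (nat_lit 228) (nat_lit 61744139705) (nat_lit 76) (nat_lit 6818541075) (nat_lit 18) (nat_lit 5) (nat_lit 21) (nat_lit 5) (nat_lit 19) (nat_lit 4) (nat_lit 344) (nat_lit 287) (nat_lit 149)) (XT.lf (nat_lit 0) (nat_lit 38792938451) (nat_lit 228) (nat_lit 28875327682) (nat_lit 76) (nat_lit 27201996244) (nat_lit 18) (nat_lit 5) (nat_lit 21) (nat_lit 5)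 (nat_lit 19) (nat_lit 4) (nat_lit 345) (nat_lit 287) (nat_lit 148))))) (XT.nd (nat_lit 234) (nat_lit 152) (nat_lit 0) (XT.nd (nat_lit 78) (nat_lit 0) (nat_lit 0) (XT.lf (nat_lit 0) (nat_lit 5819213701) (nat_lit 76) (nat_lit 49900750448) (nat_lit 152) (nat_lit 42874640796) (nat_lit 17) (nat_lit 5) (nat_lit 18) (nat_lit 5) (nat_lit 19) (nat_lit 4) (nat_lit 346) (nat_lit 287) (nat_lit 147)) (XT.nd (nat_lit 78) (nat_lit 0) (nat_lit 0) (XT.lf (nat_lit 0) (nat_lit 43247069818) (nat_lit 76) (nat_lit 30733108137) (nat_lit 152) (nat_lit 28500646043) (nat_lit 17) (nat_lit 5) (nat_lit 18) (nat_lit 5) (nat_lit 19) (nat_lit 4) (nat_lit 347) (nat_lit 287) (nat_lit 146)) (XT.lf (nat_lit 0) (nat_lit 82542605875) (nat_lit 76) (nat_lit 10608719605) (nat_lit 152) (nat_lit 13410133518) (nat_lit 17) (nat_lit 5) (nat_lit 18) (nat_lit 5) (nat_lit 19) (nat_lit 4) (nat_lit 348) (nat_lit 287) (nat_lit 145))))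 (XT.nd (nat_lit 78) (nat_lit 0) (nat_lit 0) (XT.lf (nat_lit 0) (nat_lit 2731559602) (nat_lit 152) (nat_lit 97659992879) (nat_lit 76) (nat_lit 10433944162) (nat_lit 15) (nat_lit 5) (nat_lit 17) (nat_lit 5) (nat_lit 16) (nat_lit 4) (nat_lit 349) (nat_lit 287) (nat_lit 144)) (XT.nd (nat_lit 78) (nat_lit 0) (nat_lit 0) (XT.lf (nat_lit 0) (nat_lit 19815025971) (nat_lit 152) (nat_lit 62643479303) (nat_lit 76) (nat_lit 32803972123) (nat_lit 15) (nat_lit 5) (nat_lit 17) (nat_lit 5) (nat_lit 16) (nat_lit 4) (nat_lit 350) (nat_lit 287) (nat_lit 143)) (XT.lf (nat_lit 0) (nat_lit 37750764993) (nat_lit 152) (nat_lit 25879588097) (nat_lit 76) (nat_lit 56291050071) (nat_lit 15) (nat_lit 5) (nat_lit 17) (nat_lit 5) (nat_lit 16) (nat_lit 4) (nat_lit 351) (nat_lit 287) (nat_lit 142))))))))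
noncomputable def xc182 : XT := (XT.nd (nat_lit 1560) (nat_lit 228) (nat_lit 0) (XT.nd (nat_lit 780) (nat_lit 228) (nat_lit 0) (XT.nd (nat_lit 390) (nat_lit 152) (nat_lit 0) (XT.nd (nat_lit 156) (nat_lit 76) (nat_lit 0) (XT.nd (nat_lit 78) (nat_lit 0) (nat_lit 0) (XT.lf (nat_lit 0) (nat_lit 13139768461) (nat_lit 76) (nat_lit 43646860957) (nat_lit 152) (nat_lit 68016479768) (nat_lit 14) (nat_lit 5) (nat_lit 15) (nat_lit 5) (nat_lit 16) (nat_lit 4) (nat_lit 352) (nat_lit 287) (nat_lit 141)) (XT.lf (nat_lit 0) (nat_lit 55005342818) (nat_lit 76) (nat_lit 22205453192) (nat_lit 152) (nat_lit 52696279910) (nat_lit 14) (nat_lit 5) (nat_lit 15) (nat_lit 5) (nat_lit 16) (nat_lit 4) (nat_lit 353) (nat_lit 287) (nat_lit 140))) (XT.nd (nat_lit 78) (nat_lit 76) (nat_lit 0) (XT.lf (nat_lit 0) (nat_lit 98659268500) (nat_lit 152) (nat_lit 36309994921) (nat_lit 0) (nat_lit 296823502) (nat_lit 14) (nat_lit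 5) (nat_lit 16) (nat_lit 4) (nat_lit 14) (nat_lit 4) (nat_lit 354) (nat_lit 287) (nat_lit 139)) (XT.nd (nat_lit 78) (nat_lit 0) (nat_lit 0) (XT.lf (nat_lit 0) (nat_lit 3971425634) (nat_lit 76) (nat_lit 117633137826) (nat_lit 76) (nat_lit 19267265849) (nat_lit 13) (nat_lit 4) (nat_lit 14) (nat_lit 5) (nat_lit 14) (nat_lit 4) (nat_lit 355) (nat_lit 287) (nat_lit 138)) (XT.lf (nat_lit 0) (nat_lit 47524575362) (nat_lit 76) (nat_lit 98785876754) (nat_lit 76) (nat_lit 416740988) (nat_lit 13) (nat_lit 4) (nat_lit 14) (nat_lit 5) (nat_lit 14) (nat_lit 4) (nat_lit 356) (nat_lit 287) (nat_lit 137))))) (XT.nd (nat_lit 156) (nat_lit 76) (nat_lit 0) (XT.nd (nat_lit 78) (nat_lit 0) (nat_lit 0) (XT.lf (nat_lit 0) (nat_lit 18754599277) (nat_lit 152) (nat_lit 59925315617) (nat_lit 76) (nat_lit 74180362333) (nat_lit 12) (nat_lit 5) (nat_lit 14) (nat_lit 5) (nat_lit 13) (nat_lit 4) (nat_lit 357) (nat_lit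 287) (nat_lit 136)) (XT.lf (nat_lit 0) (nat_lit 38869027129) (nat_lit 152) (nat_lit 18693698873) (nat_lit 76) (nat_lit 101737022310) (nat_lit 12) (nat_lit 5) (nat_lit 14) (nat_lit 5) (nat_lit 13) (nat_lit 4) (nat_lit 358) (nat_lit 287) (nat_lit 135))) (XT.nd (nat_lit 78) (nat_lit 0) (nat_lit 0) (XT.lf (nat_lit 0) (nat_lit 25410194410) (nat_lit 76) (nat_lit 34974302313) (nat_lit 152) (nat_lit 105656930818) (nat_lit 11) (nat_lit 5) (nat_lit 12) (nat_lit 5) (nat_lit 13) (nat_lit 4) (nat_lit 359) (nat_lit 287) (nat_lit 134)) (XT.nd (nat_lit 78) (nat_lit 0) (nat_lit 0) (XT.lf (nat_lit 0) (nat_lit 72365737926) (nat_lit 76) (nat_lit 10925211793) (nat_lit 152) (nat_lit 89813481092) (nat_lit 11) (nat_lit 5) (nat_lit 12) (nat_lit 5) (nat_lit 13) (nat_lit 4) (nat_lit 360) (nat_lit 287) (nat_lit 133)) (XT.lf (nat_lit 0) (nat_lit 107565070827) (nat_lit 152) (nat_lit 59077674692) (nat_lit 0) (nat_lit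 13866722004) (nat_lit 11) (nat_lit 5) (nat_lit 13) (nat_lit 4) (nat_lit 11) (nat_lit 4) (nat_lit 361) (nat_lit 287) (nat_lit 132)))))) (XT.nd (nat_lit 390) (nat_lit 76) (nat_lit 0) (XT.nd (nat_lit 156) (nat_lit 76) (nat_lit 0) (XT.nd (nat_lit 78) (nat_lit 76) (nat_lit 0) (XT.lf (nat_lit 0) (nat_lit 133230734346) (nat_lit 152) (nat_lit 15515064422) (nat_lit 0) (nat_lit 39530066008) (nat_lit 11) (nat_lit 5) (nat_lit 13) (nat_lit 4) (nat_lit 11) (nat_lit 4) (nat_lit 362) (nat_lit 287) (nat_lit 131)) (XT.lf (nat_lit 0) (nat_lit 31222754738) (nat_lit 76) (nat_lit 129443195789) (nat_lit 76) (nat_lit 35740318390) (nat_lit 10) (nat_lit 4) (nat_lit 11) (nat_lit 5) (nat_lit 11) (nat_lit 4) (nat_lit 363) (nat_lit 287) (nat_lit 130))) (XT.nd (nat_lit 78) (nat_lit 76) (nat_lit 0) (XT.lf (nat_lit 0) (nat_lit 80833904303) (nat_lit 76) (nat_lit 108900596031) (nat_lit 76) (nat_lit 15195614765) (nat_lit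 10) (nat_lit 4) (nat_lit 11) (nat_lit 5) (nat_lit 11) (nat_lit 4) (nat_lit 364) (nat_lit 287) (nat_lit 129)) (XT.nd (nat_lit 78) (nat_lit 0) (nat_lit 0) (XT.lf (nat_lit 0) (nat_lit 6171096947) (nat_lit 152) (nat_lit 81056236206) (nat_lit 76) (nat_lit 126647900497) (nat_lit 9) (nat_lit 5) (nat_lit 11) (nat_lit 5) (nat_lit 10) (nat_lit 4) (nat_lit 365) (nat_lit 287) (nat_lit 128)) (XT.lf (nat_lit 0) (nat_lit 28094381562) (nat_lit 152) (nat_lit 36115411016) (nat_lit 76) (nat_lit 159045415061) (nat_lit 9) (nat_lit 5) (nat_lit 11) (nat_lit 5) (nat_lit 10) (nat_lit 4) (nat_lit 366) (nat_lit 287) (nat_lit 127))))) (XT.nd (nat_lit 156) (nat_lit 0) (nat_lit 0) (XT.nd (nat_lit 78) (nat_lit 0) (nat_lit 0) (XT.lf (nat_lit 0) (nat_lit 11436554022) (nat_lit 76) (nat_lit 39854794583) (nat_lit 152) (nat_lit 181803956202) (nat_lit 8) (nat_lit 5) (nat_lit 9) (nat_lit 5) (nat_lit 10) (nat_lit 4) (nat_lit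 367) (nat_lit 287) (nat_lit 126)) (XT.lf (nat_lit 0) (nat_lit 62618051602) (nat_lit 76) (nat_lit 13640725508) (nat_lit 152) (nat_lit 167138099440) (nat_lit 8) (nat_lit 5) (nat_lit 9) (nat_lit 5) (nat_lit 10) (nat_lit 4) (nat_lit 368) (nat_lit 287) (nat_lit 125))) (XT.nd (nat_lit 78) (nat_lit 0) (nat_lit 0) (XT.lf (nat_lit 0) (nat_lit 102690362324) (nat_lit 152) (nat_lit 138073527525) (nat_lit 0) (nat_lit 13438848122) (nat_lit 8) (nat_lit 5) (nat_lit 10) (nat_lit 4) (nat_lit 8) (nat_lit 4) (nat_lit 369) (nat_lit 287) (nat_lit 124)) (XT.nd (nat_lit 78) (nat_lit 0) (nat_lit 0) (XT.lf (nat_lit 0) (nat_lit 130666208483) (nat_lit 152) (nat_lit 93458351131) (nat_lit 0) (nat_lit 41413199102) (nat_lit 8) (nat_lit 5) (nat_lit 10) (nat_lit 4) (nat_lit 8) (nat_lit 4) (nat_lit 370) (nat_lit 287) (nat_lit 123)) (XT.lf (nat_lit 0) (nat_lit 160039954794) (nat_lit 152) (nat_lit 46614099202) (nat_lit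 0) (nat_lit 70785521433) (nat_lit 8) (nat_lit 5) (nat_lit 10) (nat_lit 4) (nat_lit 8) (nat_lit 4) (nat_lit 371) (nat_lit 287) (nat_lit 122))))))) (XT.nd (nat_lit 780) (nat_lit 0) (nat_lit 0) (XT.nd (nat_lit 390) (nat_lit 152) (nat_lit 0) (XT.nd (nat_lit 156) (nat_lit 0) (nat_lit 0) (XT.nd (nat_lit 78) (nat_lit 0) (nat_lit 0) (XT.lf (nat_lit 0) (nat_lit 2655763203) (nat_lit 76) (nat_lit 188267239451) (nat_lit 76) (nat_lit 99011449918) (nat_lit 7) (nat_lit 4) (nat_lit 8) (nat_lit 5) (nat_lit 8) (nat_lit 4) (nat_lit 372) (nat_lit 287) (nat_lit 121)) (XT.lf (nat_lit 0) (nat_lit 56005877723) (nat_lit 76) (nat_lit 168132923670) (nat_lit 76) (nat_lit 78875842545) (nat_lit 7) (nat_lit 4) (nat_lit 8) (nat_lit 5) (nat_lit 8) (nat_lit 4) (nat_lit 373) (nat_lit 287) (nat_lit 120))) (XT.nd (nat_lit 78) (nat_lit 0) (nat_lit 0) (XT.lf (nat_lit 0) (nat_lit 112021995807) (nat_lit 76) (nat_lit 146992600132)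 (nat_lit 76) (nat_lit 57734288919) (nat_lit 7) (nat_lit 4) (nat_lit 8) (nat_lit 5) (nat_lit 8) (nat_lit 4) (nat_lit 374) (nat_lit 287) (nat_lit 119)) (XT.nd (nat_lit 78) (nat_lit 0) (nat_lit 0) (XT.lf (nat_lit 0) (nat_lit 170837489163) (nat_lit 76) (nat_lit 124795934733) (nat_lit 76) (nat_lit 35536452008) (nat_lit 7) (nat_lit 4) (nat_lit 8) (nat_lit 5) (nat_lit 8) (nat_lit 4) (nat_lit 375) (nat_lit 287) (nat_lit 118)) (XT.lf (nat_lit 0) (nat_lit 232592394680) (nat_lit 76) (nat_lit 101490078270) (nat_lit 76) (nat_lit 12229479819) (nat_lit 7) (nat_lit 4) (nat_lit 8) (nat_lit 5) (nat_lit 8) (nat_lit 4) (nat_lit 376) (nat_lit 287) (nat_lit 117))))) (XT.nd (nat_lit 156) (nat_lit 76) (nat_lit 0) (XT.nd (nat_lit 78) (nat_lit 0) (nat_lit 0) (XT.lf (nat_lit 0) (nat_lit 11850296131) (nat_lit 152) (nat_lit 64968553978) (nat_lit 76) (nat_lit 285382761218) (nat_lit 6) (nat_lit 5) (nat_lit 8) (nat_lit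 5) (nat_lit 7) (nat_lit 4) (nat_lit 377) (nat_lit 287) (nat_lit 116)) (XT.lf (nat_lit 0) (nat_lit 36722405898) (nat_lit 152) (nat_lit 13981740952) (nat_lit 76) (nat_lit 328171615230) (nat_lit 6) (nat_lit 5) (nat_lit 8) (nat_lit 5) (nat_lit 7) (nat_lit 4) (nat_lit 378) (nat_lit 287) (nat_lit 115))) (XT.nd (nat_lit 78) (nat_lit 0) (nat_lit 0) (XT.lf (nat_lit 0) (nat_lit 40861022518) (nat_lit 76) (nat_lit 22614421075) (nat_lit 152) (nat_lit 332876310862) (nat_lit 5) (nat_lit 5) (nat_lit 6) (nat_lit 5) (nat_lit 7) (nat_lit 4) (nat_lit 379) (nat_lit 287) (nat_lit 114)) (XT.nd (nat_lit 78) (nat_lit 0) (nat_lit 0) (XT.lf (nat_lit 0) (nat_lit 91913585681) (nat_lit 152) (nat_lit 315870864336) (nat_lit 0) (nat_lit 6899724005) (nat_lit 5) (nat_lit 5) (nat_lit 7) (nat_lit 4) (nat_lit 5) (nat_lit 4) (nat_lit 380) (nat_lit 287) (nat_lit 113)) (XT.lf (nat_lit 0) (nat_lit 122143763447) (nat_lit 152)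 (nat_lit 274641875681) (nat_lit 0) (nat_lit 37129069199) (nat_lit 5) (nat_lit 5) (nat_lit 7) (nat_lit 4) (nat_lit 5) (nat_lit 4) (nat_lit 381) (nat_lit 287) (nat_lit 112)))))) (XT.nd (nat_lit 33462) (nat_lit 0) (nat_lit 6764) (XT.nd (nat_lit 156) (nat_lit 0) (nat_lit 0) (XT.nd (nat_lit 78) (nat_lit 0) (nat_lit 0) (XT.lf (nat_lit 0) (nat_lit 153884879015) (nat_lit 152) (nat_lit 231352527224) (nat_lit 0) (nat_lit 68869391841) (nat_lit 5) (nat_lit 5) (nat_lit 7) (nat_lit 4) (nat_lit 5) (nat_lit 4) (nat_lit 382) (nat_lit 287) (nat_lit 111)) (XT.lf (nat_lit 0) (nat_lit 187212506469) (nat_lit 152) (nat_lit 185899749087) (nat_lit 0) (nat_lit 102196264129) (nat_lit 5) (nat_lit 5) (nat_lit 7) (nat_lit 4) (nat_lit 5) (nat_lit 4) (nat_lit 383) (nat_lit 287) (nat_lit 110))) (XT.nd (nat_lit 33150) (nat_lit 0) (nat_lit 6764) (XT.lf (nat_lit 0) (nat_lit 222205997305) (nat_lit 152) (nat_lit 138175320372)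 (nat_lit 0) (nat_lit 137189035757) (nat_lit 5) (nat_lit 5) (nat_lit 7) (nat_lit 4) (nat_lit 5) (nat_lit 4) (nat_lit 384) (nat_lit 287) (nat_lit 109)) (XT.nd (nat_lit 78) (nat_lit 0) (nat_lit 0) (XT.lf (nat_lit 0) (nat_lit 2813491189) (nat_lit 0) (nat_lit 2813491189) (nat_lit 684) (nat_lit 2464835421) (nat_lit 94) (nat_lit 5) (nat_lit 94) (nat_lit 3) (nat_lit 103) (nat_lit 3) (nat_lit 288) (nat_lit 288) (nat_lit 204)) (XT.lf (nat_lit 0) (nat_lit 11801131418) (nat_lit 684) (nat_lit 3155792856) (nat_lit 760) (nat_lit 1617585490) (nat_lit 94) (nat_lit 5) (nat_lit 103) (nat_lit 3) (nat_lit 104) (nat_lit 5) (nat_lit 289) (nat_lit 288) (nat_lit 203))))) (XT.nd (nat_lit 234) (nat_lit 0) (nat_lit 76) (XT.nd (nat_lit 78) (nat_lit 0) (nat_lit 0) (XT.lf (nat_lit 76) (nat_lit 4663540221) (nat_lit 0) (nat_lit 7861946977) (nat_lit 760) (nat_lit 4451976157) (nat_lit 95) (nat_lit 5) (nat_lit 94) (nat_lit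 5) (nat_lit 104) (nat_lit 5) (nat_lit 290) (nat_lit 288) (nat_lit 202)) (XT.nd (nat_lit 78) (nat_lit 0) (nat_lit 76) (XT.lf (nat_lit 76) (nat_lit 12974953349) (nat_lit 0) (nat_lit 349919669) (nat_lit 760) (nat_lit 4073776956) (nat_lit 95) (nat_lit 5) (nat_lit 94) (nat_lit 5) (nat_lit 104) (nat_lit 5) (nat_lit 291) (nat_lit 288) (nat_lit 201)) (XT.lf (nat_lit 76) (nat_lit 3857976011) (nat_lit 0) (nat_lit 10470326814) (nat_lit 760) (nat_lit 3504414091) (nat_lit 96) (nat_lit 5) (nat_lit 95) (nat_lit 5) (nat_lit 105) (nat_lit 5) (nat_lit 292) (nat_lit 288) (nat_lit 200)))) (XT.nd (nat_lit 78) (nat_lit 0) (nat_lit 76) (XT.lf (nat_lit 76) (nat_lit 12692670120) (nat_lit 0) (nat_lit 2756474565) (nat_lit 760) (nat_lit 2836004039) (nat_lit 96) (nat_lit 5) (nat_lit 95) (nat_lit 5) (nat_lit 105) (nat_lit 5) (nat_lit 293) (nat_lit 288) (nat_lit 199)) (XT.nd (nat_lit 78) (nat_lit 0) (nat_lit 0) (XT.lf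 (nat_lit 76) (nat_lit 3219493428) (nat_lit 0) (nat_lit 13527602859) (nat_lit 760) (nat_lit 2007074881) (nat_lit 97) (nat_lit 5) (nat_lit 96) (nat_lit 5) (nat_lit 106) (nat_lit 5) (nat_lit 294) (nat_lit 288) (nat_lit 198)) (XT.lf (nat_lit 76) (nat_lit 12610658681) (nat_lit 0) (nat_lit 5626301610) (nat_lit 760) (nat_lit 1003355059) (nat_lit 97) (nat_lit 5) (nat_lit 96) (nat_lit 5) (nat_lit 106) (nat_lit 5) (nat_lit 295) (nat_lit 288) (nat_lit 197))))))))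
noncomputable def xc183 : XT := (XT.nd (nat_lit 1638) (nat_lit 1824) (nat_lit 0) (XT.nd (nat_lit 780) (nat_lit 1748) (nat_lit 0) (XT.nd (nat_lit 390) (nat_lit 684) (nat_lit 0) (XT.nd (nat_lit 156) (nat_lit 456) (nat_lit 0) (XT.nd (nat_lit 78) (nat_lit 0) (nat_lit 0) (XT.lf (nat_lit 0) (nat_lit 123334056) (nat_lit 760) (nat_lit 16991017015) (nat_lit 836) (nat_lit 2632675520) (nat_lit 87) (nat_lit 5) (nat_lit 97) (nat_lit 5) (nat_lit 98) (nat_lit 5) (nat_lit 296) (nat_lit 288) (nat_lit 196)) (XT.lf (nat_lit 0) (nat_lit 1467669618) (nat_lit 760) (nat_lit 7552209425) (nat_lit 836) (nat_lit 11248638814) (nat_lit 87) (nat_lit 5) (nat_lit 97) (nat_lit 5) (nat_lit 98) (nat_lit 5) (nat_lit 297) (nat_lit 288) (nat_lit 195))) (XT.nd (nat_lit 78) (nat_lit 456) (nat_lit 0) (XT.lf (nat_lit 76) (nat_lit 2427321117) (nat_lit 0) (nat_lit 479016989) (nat_lit 836) (nat_lit 17908407345) (nat_lit 88) (nat_lit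 5) (nat_lit 87) (nat_lit 5) (nat_lit 98) (nat_lit 5) (nat_lit 298) (nat_lit 288) (nat_lit 194)) (XT.nd (nat_lit 78) (nat_lit 532) (nat_lit 0) (XT.lf (nat_lit 0) (nat_lit 4669093460) (nat_lit 760) (nat_lit 8357823418) (nat_lit 76) (nat_lit 8348776610) (nat_lit 88) (nat_lit 5) (nat_lit 98) (nat_lit 5) (nat_lit 89) (nat_lit 5) (nat_lit 299) (nat_lit 288) (nat_lit 193)) (XT.lf (nat_lit 0) (nat_lit 2227827494) (nat_lit 532) (nat_lit 4324909750) (nat_lit 608) (nat_lit 15410330088) (nat_lit 81) (nat_lit 5) (nat_lit 88) (nat_lit 5) (nat_lit 89) (nat_lit 5) (nat_lit 300) (nat_lit 288) (nat_lit 192))))) (XT.nd (nat_lit 156) (nat_lit 304) (nat_lit 0) (XT.nd (nat_lit 78) (nat_lit 380) (nat_lit 0) (XT.lf (nat_lit 0) (nat_lit 8740021523) (nat_lit 608) (nat_lit 9026503085) (nat_lit 76) (nat_lit 4802827523) (nat_lit 81) (nat_lit 5) (nat_lit 89) (nat_lit 5) (nat_lit 82) (nat_lit 5) (nat_lit 301) (nat_lit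 288) (nat_lit 191)) (XT.lf (nat_lit 0) (nat_lit 2208657531) (nat_lit 380) (nat_lit 8924312398) (nat_lit 456) (nat_lit 12068180703) (nat_lit 76) (nat_lit 5) (nat_lit 81) (nat_lit 5) (nat_lit 82) (nat_lit 5) (nat_lit 302) (nat_lit 288) (nat_lit 190))) (XT.nd (nat_lit 78) (nat_lit 304) (nat_lit 0) (XT.lf (nat_lit 0) (nat_lit 13797776444) (nat_lit 456) (nat_lit 9555183154) (nat_lit 76) (nat_lit 503982692) (nat_lit 76) (nat_lit 5) (nat_lit 82) (nat_lit 5) (nat_lit 77) (nat_lit 5) (nat_lit 303) (nat_lit 288) (nat_lit 189)) (XT.nd (nat_lit 78) (nat_lit 0) (nat_lit 0) (XT.lf (nat_lit 0) (nat_lit 2375025170) (nat_lit 304) (nat_lit 14395813100) (nat_lit 380) (nat_lit 7765947626) (nat_lit 72) (nat_lit 5) (nat_lit 76) (nat_lit 5) (nat_lit 77) (nat_lit 5) (nat_lit 304) (nat_lit 288) (nat_lit 188)) (XT.lf (nat_lit 0) (nat_lit 15224935782) (nat_lit 304) (nat_lit 4821338050) (nat_lit 380) (nat_lit 5196674305)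 (nat_lit 72) (nat_lit 5) (nat_lit 76) (nat_lit 5) (nat_lit 77) (nat_lit 5) (nat_lit 305) (nat_lit 288) (nat_lit 187)))))) (XT.nd (nat_lit 390) (nat_lit 760) (nat_lit 0) (XT.nd (nat_lit 156) (nat_lit 608) (nat_lit 0) (XT.nd (nat_lit 78) (nat_lit 76) (nat_lit 0) (XT.lf (nat_lit 0) (nat_lit 2730092621) (nat_lit 304) (nat_lit 20871975147) (nat_lit 380) (nat_lit 2376533287) (nat_lit 68) (nat_lit 5) (nat_lit 72) (nat_lit 5) (nat_lit 73) (nat_lit 5) (nat_lit 306) (nat_lit 288) (nat_lit 186)) (XT.lf (nat_lit 0) (nat_lit 809764228) (nat_lit 380) (nat_lit 10378747107) (nat_lit 76) (nat_lit 15549886657) (nat_lit 67) (nat_lit 5) (nat_lit 72) (nat_lit 5) (nat_lit 68) (nat_lit 5) (nat_lit 307) (nat_lit 288) (nat_lit 185))) (XT.nd (nat_lit 78) (nat_lit 304) (nat_lit 0) (XT.lf (nat_lit 0) (nat_lit 3189382907) (nat_lit 304) (nat_lit 928665857) (nat_lit 380) (nat_lit 23414071346) (nat_lit 63) (nat_lit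 5) (nat_lit 67) (nat_lit 5) (nat_lit 68) (nat_lit 5) (nat_lit 308) (nat_lit 288) (nat_lit 184)) (XT.nd (nat_lit 78) (nat_lit 304) (nat_lit 0) (XT.lf (nat_lit 0) (nat_lit 7917039488) (nat_lit 380) (nat_lit 10725522377) (nat_lit 76) (nat_lit 9706711656) (nat_lit 63) (nat_lit 5) (nat_lit 68) (nat_lit 5) (nat_lit 64) (nat_lit 5) (nat_lit 309) (nat_lit 288) (nat_lit 183)) (XT.lf (nat_lit 0) (nat_lit 3666634839) (nat_lit 304) (nat_lit 8305097560) (nat_lit 380) (nat_lit 17232273891) (nat_lit 59) (nat_lit 5) (nat_lit 63) (nat_lit 5) (nat_lit 64) (nat_lit 5) (nat_lit 310) (nat_lit 288) (nat_lit 182))))) (XT.nd (nat_lit 234) (nat_lit 532) (nat_lit 0) (XT.nd (nat_lit 78) (nat_lit 228) (nat_lit 0) (XT.lf (nat_lit 0) (nat_lit 16447036976) (nat_lit 380) (nat_lit 10992639111) (nat_lit 76) (nat_lit 2650914632) (nat_lit 59) (nat_lit 5) (nat_lit 64) (nat_lit 5) (nat_lit 60) (nat_lit 5) (nat_lit 311) (nat_lit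 288) (nat_lit 181)) (XT.nd (nat_lit 78) (nat_lit 0) (nat_lit 0) (XT.lf (nat_lit 0) (nat_lit 4272072927) (nat_lit 228) (nat_lit 17070650209) (nat_lit 304) (nat_lit 9668958869) (nat_lit 56) (nat_lit 5) (nat_lit 59) (nat_lit 5) (nat_lit 60) (nat_lit 5) (nat_lit 312) (nat_lit 288) (nat_lit 180)) (XT.lf (nat_lit 0) (nat_lit 20673945852) (nat_lit 228) (nat_lit 5989357911) (nat_lit 304) (nat_lit 5306526634) (nat_lit 56) (nat_lit 5) (nat_lit 59) (nat_lit 5) (nat_lit 60) (nat_lit 5) (nat_lit 313) (nat_lit 288) (nat_lit 179)))) (XT.nd (nat_lit 78) (nat_lit 304) (nat_lit 0) (XT.lf (nat_lit 0) (nat_lit 4983769767) (nat_lit 228) (nat_lit 27426312322) (nat_lit 304) (nat_lit 557803354) (nat_lit 53) (nat_lit 5) (nat_lit 56) (nat_lit 5) (nat_lit 57) (nat_lit 5) (nat_lit 314) (nat_lit 288) (nat_lit 178)) (XT.nd (nat_lit 78) (nat_lit 228) (nat_lit 0) (XT.lf (nat_lit 0) (nat_lit 4573512141) (nat_lit 304)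 (nat_lit 11714857060) (nat_lit 76) (nat_lit 17709679485) (nat_lit 52) (nat_lit 5) (nat_lit 56) (nat_lit 5) (nat_lit 53) (nat_lit 5) (nat_lit 315) (nat_lit 288) (nat_lit 177)) (XT.lf (nat_lit 0) (nat_lit 5528335770) (nat_lit 228) (nat_lit 4495165130) (nat_lit 304) (nat_lit 25051725932) (nat_lit 49) (nat_lit 5) (nat_lit 52) (nat_lit 5) (nat_lit 53) (nat_lit 5) (nat_lit 316) (nat_lit 288) (nat_lit 176))))))) (XT.nd (nat_lit 780) (nat_lit 836) (nat_lit 0) (XT.nd (nat_lit 390) (nat_lit 532) (nat_lit 0) (XT.nd (nat_lit 156) (nat_lit 228) (nat_lit 0) (XT.nd (nat_lit 78) (nat_lit 228) (nat_lit 0) (XT.lf (nat_lit 0) (nat_lit 16065445740) (nat_lit 304) (nat_lit 12289793744) (nat_lit 76) (nat_lit 7835057876) (nat_lit 49) (nat_lit 5) (nat_lit 53) (nat_lit 5) (nat_lit 50) (nat_lit 5) (nat_lit 317) (nat_lit 288) (nat_lit 175)) (XT.lf (nat_lit 0) (nat_lit 5939472341) (nat_lit 228) (nat_lit 16631351260)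 (nat_lit 304) (nat_lit 14782237032) (nat_lit 46) (nat_lit 5) (nat_lit 49) (nat_lit 5) (nat_lit 50) (nat_lit 5) (nat_lit 318) (nat_lit 288) (nat_lit 174))) (XT.nd (nat_lit 78) (nat_lit 228) (nat_lit 0) (XT.lf (nat_lit 0) (nat_lit 25499894980) (nat_lit 228) (nat_lit 4104754979) (nat_lit 304) (nat_lit 8959158850) (nat_lit 46) (nat_lit 5) (nat_lit 49) (nat_lit 5) (nat_lit 50) (nat_lit 5) (nat_lit 319) (nat_lit 288) (nat_lit 173)) (XT.nd (nat_lit 78) (nat_lit 76) (nat_lit 0) (XT.lf (nat_lit 0) (nat_lit 6255327135) (nat_lit 152) (nat_lit 30969022769) (nat_lit 228) (nat_lit 2599040826) (nat_lit 44) (nat_lit 5) (nat_lit 46) (nat_lit 5) (nat_lit 47) (nat_lit 5) (nat_lit 320) (nat_lit 288) (nat_lit 172)) (XT.lf (nat_lit 0) (nat_lit 4235980304) (nat_lit 228) (nat_lit 14282323185) (nat_lit 76) (nat_lit 22610096237) (nat_lit 43) (nat_lit 5) (nat_lit 46) (nat_lit 5) (nat_lit 44) (nat_lit 5) (nat_lit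 321) (nat_lit 288) (nat_lit 171))))) (XT.nd (nat_lit 156) (nat_lit 304) (nat_lit 0) (XT.nd (nat_lit 78) (nat_lit 0) (nat_lit 0) (XT.lf (nat_lit 0) (nat_lit 6114209497) (nat_lit 228) (nat_lit 5302173960) (nat_lit 304) (nat_lit 31075601271) (nat_lit 40) (nat_lit 5) (nat_lit 43) (nat_lit 5) (nat_lit 44) (nat_lit 5) (nat_lit 322) (nat_lit 288) (nat_lit 170)) (XT.lf (nat_lit 0) (nat_lit 19331121560) (nat_lit 304) (nat_lit 16029742050) (nat_lit 76) (nat_lit 8544124112) (nat_lit 40) (nat_lit 5) (nat_lit 44) (nat_lit 5) (nat_lit 41) (nat_lit 5) (nat_lit 323) (nat_lit 288) (nat_lit 169))) (XT.nd (nat_lit 78) (nat_lit 152) (nat_lit 0) (XT.lf (nat_lit 0) (nat_lit 5415762984) (nat_lit 152) (nat_lit 22393114904) (nat_lit 228) (nat_lit 17571403182) (nat_lit 38) (nat_lit 5) (nat_lit 40) (nat_lit 5) (nat_lit 41) (nat_lit 5) (nat_lit 324) (nat_lit 288) (nat_lit 168)) (XT.nd (nat_lit 78) (nat_lit 152)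 (nat_lit 0) (XT.lf (nat_lit 0) (nat_lit 28483814935) (nat_lit 152) (nat_lit 8494085989) (nat_lit 228) (nat_lit 9938073283) (nat_lit 38) (nat_lit 5) (nat_lit 40) (nat_lit 5) (nat_lit 41) (nat_lit 5) (nat_lit 325) (nat_lit 288) (nat_lit 167)) (XT.lf (nat_lit 0) (nat_lit 4210220209) (nat_lit 152) (nat_lit 42552195017) (nat_lit 228) (nat_lit 1758188639) (nat_lit 36) (nat_lit 5) (nat_lit 38) (nat_lit 5) (nat_lit 39) (nat_lit 5) (nat_lit 326) (nat_lit 288) (nat_lit 166)))))) (XT.nd (nat_lit 390) (nat_lit 456) (nat_lit 0) (XT.nd (nat_lit 156) (nat_lit 152) (nat_lit 0) (XT.nd (nat_lit 78) (nat_lit 152) (nat_lit 0) (XT.lf (nat_lit 0) (nat_lit 7064684751) (nat_lit 228) (nat_lit 21822374495) (nat_lit 76) (nat_lit 21290446000) (nat_lit 35) (nat_lit 5) (nat_lit 38) (nat_lit 5) (nat_lit 36) (nat_lit 5) (nat_lit 327) (nat_lit 288) (nat_lit 165)) (XT.lf (nat_lit 0) (nat_lit 1813397046) (nat_lit 152)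 (nat_lit 14480813239) (nat_lit 228) (nat_lit 35620373860) (nat_lit 33) (nat_lit 5) (nat_lit 35) (nat_lit 5) (nat_lit 36) (nat_lit 5) (nat_lit 328) (nat_lit 288) (nat_lit 164))) (XT.nd (nat_lit 78) (nat_lit 152) (nat_lit 0) (XT.lf (nat_lit 0) (nat_lit 26367261745) (nat_lit 228) (nat_lit 26353510411) (nat_lit 76) (nat_lit 998645537) (nat_lit 33) (nat_lit 5) (nat_lit 36) (nat_lit 5) (nat_lit 34) (nat_lit 5) (nat_lit 329) (nat_lit 288) (nat_lit 163)) (XT.nd (nat_lit 78) (nat_lit 152) (nat_lit 0) (XT.lf (nat_lit 0) (nat_lit 37177867322) (nat_lit 228) (nat_lit 1661471049) (nat_lit 76) (nat_lit 16763462503) (nat_lit 33) (nat_lit 5) (nat_lit 36) (nat_lit 5) (nat_lit 34) (nat_lit 5) (nat_lit 330) (nat_lit 288) (nat_lit 162)) (XT.lf (nat_lit 0) (nat_lit 25061946431) (nat_lit 152) (nat_lit 23855021264) (nat_lit 228) (nat_lit 8643990183) (nat_lit 31) (nat_lit 5) (nat_lit 33) (nat_lit 5) (nat_lit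 34) (nat_lit 5) (nat_lit 331) (nat_lit 288) (nat_lit 161))))) (XT.nd (nat_lit 234) (nat_lit 228) (nat_lit 0) (XT.nd (nat_lit 78) (nat_lit 152) (nat_lit 0) (XT.lf (nat_lit 0) (nat_lit 1599254536) (nat_lit 228) (nat_lit 6467634209) (nat_lit 76) (nat_lit 51547602468) (nat_lit 30) (nat_lit 5) (nat_lit 33) (nat_lit 5) (nat_lit 31) (nat_lit 5) (nat_lit 332) (nat_lit 288) (nat_lit 160)) (XT.nd (nat_lit 78) (nat_lit 0) (nat_lit 0) (XT.lf (nat_lit 0) (nat_lit 12535835539) (nat_lit 228) (nat_lit 40484190508) (nat_lit 76) (nat_lit 8720008988) (nat_lit 28) (nat_lit 5) (nat_lit 31) (nat_lit 5) (nat_lit 29) (nat_lit 5) (nat_lit 333) (nat_lit 288) (nat_lit 159)) (XT.lf (nat_lit 0) (nat_lit 24259712468) (nat_lit 228) (nat_lit 13515554182) (nat_lit 76) (nat_lit 26184568430) (nat_lit 28) (nat_lit 5) (nat_lit 31) (nat_lit 5) (nat_lit 29) (nat_lit 5) (nat_lit 334) (nat_lit 288) (nat_lit 158)))) (XT.nd (nat_lit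 78) (nat_lit 76) (nat_lit 0) (XT.lf (nat_lit 0) (nat_lit 15285828381) (nat_lit 152) (nat_lit 21519652023) (nat_lit 228) (nat_lit 29473362131) (nat_lit 26) (nat_lit 5) (nat_lit 28) (nat_lit 5) (nat_lit 29) (nat_lit 5) (nat_lit 335) (nat_lit 288) (nat_lit 157)) (XT.nd (nat_lit 78) (nat_lit 76) (nat_lit 0) (XT.lf (nat_lit 0) (nat_lit 45991661526) (nat_lit 152) (nat_lit 4212875343) (nat_lit 228) (nat_lit 18497965643) (nat_lit 26) (nat_lit 5) (nat_lit 28) (nat_lit 5) (nat_lit 29) (nat_lit 5) (nat_lit 336) (nat_lit 288) (nat_lit 156)) (XT.lf (nat_lit 0) (nat_lit 6986377787) (nat_lit 76) (nat_lit 57611404494) (nat_lit 152) (nat_lit 6633353452) (nat_lit 25) (nat_lit 5) (nat_lit 26) (nat_lit 5) (nat_lit 27) (nat_lit 4) (nat_lit 337) (nat_lit 288) (nat_lit 155))))))))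
noncomputable def xc184 : XT := (XT.nd (nat_lit 1560) (nat_lit 532) (nat_lit 0) (XT.nd (nat_lit 780) (nat_lit 304) (nat_lit 0) (XT.nd (nat_lit 390) (nat_lit 304) (nat_lit 0) (XT.nd (nat_lit 156) (nat_lit 228) (nat_lit 0) (XT.nd (nat_lit 78) (nat_lit 0) (nat_lit 0) (XT.lf (nat_lit 0) (nat_lit 6095286871) (nat_lit 152) (nat_lit 35081093526) (nat_lit 76) (nat_lit 32682414374) (nat_lit 24) (nat_lit 5) (nat_lit 26) (nat_lit 5) (nat_lit 25) (nat_lit 5) (nat_lit 338) (nat_lit 288) (nat_lit 154)) (XT.lf (nat_lit 0) (nat_lit 19234796671) (nat_lit 152) (nat_lit 4572508542) (nat_lit 76) (nat_lit 52805228065) (nat_lit 24) (nat_lit 5) (nat_lit 26) (nat_lit 5) (nat_lit 25) (nat_lit 5) (nat_lit 339) (nat_lit 288) (nat_lit 153))) (XT.nd (nat_lit 78) (nat_lit 76) (nat_lit 0) (XT.lf (nat_lit 0) (nat_lit 28365060818) (nat_lit 152) (nat_lit 5106566506) (nat_lit 228) (nat_lit 46010315809) (nat_lit 22) (nat_lit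 5) (nat_lit 24) (nat_lit 5) (nat_lit 25) (nat_lit 5) (nat_lit 340) (nat_lit 288) (nat_lit 152)) (XT.nd (nat_lit 78) (nat_lit 76) (nat_lit 0) (XT.lf (nat_lit 0) (nat_lit 48723361390) (nat_lit 228) (nat_lit 19615138312) (nat_lit 76) (nat_lit 14141172293) (nat_lit 22) (nat_lit 5) (nat_lit 25) (nat_lit 5) (nat_lit 23) (nat_lit 4) (nat_lit 341) (nat_lit 288) (nat_lit 151)) (XT.lf (nat_lit 0) (nat_lit 13816053547) (nat_lit 76) (nat_lit 51218681648) (nat_lit 152) (nat_lit 20577700984) (nat_lit 21) (nat_lit 5) (nat_lit 22) (nat_lit 5) (nat_lit 23) (nat_lit 4) (nat_lit 342) (nat_lit 288) (nat_lit 150))))) (XT.nd (nat_lit 156) (nat_lit 228) (nat_lit 0) (XT.nd (nat_lit 78) (nat_lit 76) (nat_lit 0) (XT.lf (nat_lit 0) (nat_lit 49595739708) (nat_lit 76) (nat_lit 32895810777) (nat_lit 152) (nat_lit 6393795908) (nat_lit 21) (nat_lit 5) (nat_lit 22) (nat_lit 5) (nat_lit 23) (nat_lit 4) (nat_lit 343)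 (nat_lit 288) (nat_lit 149)) (XT.lf (nat_lit 0) (nat_lit 8225027415) (nat_lit 152) (nat_lit 5294130828) (nat_lit 76) (nat_lit 78796222609) (nat_lit 20) (nat_lit 5) (nat_lit 22) (nat_lit 5) (nat_lit 21) (nat_lit 5) (nat_lit 344) (nat_lit 288) (nat_lit 148))) (XT.nd (nat_lit 78) (nat_lit 76) (nat_lit 0) (XT.lf (nat_lit 0) (nat_lit 23962649575) (nat_lit 228) (nat_lit 64709478111) (nat_lit 76) (nat_lit 7209413236) (nat_lit 18) (nat_lit 5) (nat_lit 21) (nat_lit 5) (nat_lit 19) (nat_lit 4) (nat_lit 345) (nat_lit 288) (nat_lit 147)) (XT.nd (nat_lit 78) (nat_lit 76) (nat_lit 0) (XT.lf (nat_lit 0) (nat_lit 40797786914) (nat_lit 228) (nat_lit 30203028753) (nat_lit 76) (nat_lit 28609662826) (nat_lit 18) (nat_lit 5) (nat_lit 21) (nat_lit 5) (nat_lit 19) (nat_lit 4) (nat_lit 346) (nat_lit 288) (nat_lit 146)) (XT.lf (nat_lit 0) (nat_lit 6224367678) (nat_lit 76) (nat_lit 52345474260) (nat_lit 152)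 (nat_lit 44951264106) (nat_lit 17) (nat_lit 5) (nat_lit 18) (nat_lit 5) (nat_lit 19) (nat_lit 4) (nat_lit 347) (nat_lit 288) (nat_lit 145)))))) (XT.nd (nat_lit 390) (nat_lit 152) (nat_lit 0) (XT.nd (nat_lit 156) (nat_lit 152) (nat_lit 0) (XT.nd (nat_lit 78) (nat_lit 0) (nat_lit 0) (XT.lf (nat_lit 0) (nat_lit 45518178825) (nat_lit 76) (nat_lit 32221845725) (nat_lit 152) (nat_lit 29861765269) (nat_lit 17) (nat_lit 5) (nat_lit 18) (nat_lit 5) (nat_lit 19) (nat_lit 4) (nat_lit 348) (nat_lit 288) (nat_lit 144)) (XT.lf (nat_lit 0) (nat_lit 86773312851) (nat_lit 76) (nat_lit 11093519567) (nat_lit 152) (nat_lit 14019770598) (nat_lit 17) (nat_lit 5) (nat_lit 18) (nat_lit 5) (nat_lit 19) (nat_lit 4) (nat_lit 349) (nat_lit 288) (nat_lit 143))) (XT.nd (nat_lit 78) (nat_lit 0) (nat_lit 0) (XT.lf (nat_lit 0) (nat_lit 2926594619) (nat_lit 152) (nat_lit 102436943970) (nat_lit 76) (nat_lit 11000281103)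 (nat_lit 15) (nat_lit 5) (nat_lit 17) (nat_lit 5) (nat_lit 16) (nat_lit 4) (nat_lit 350) (nat_lit 288) (nat_lit 142)) (XT.nd (nat_lit 78) (nat_lit 0) (nat_lit 0) (XT.lf (nat_lit 0) (nat_lit 20861450638) (nat_lit 152) (nat_lit 65674654645) (nat_lit 76) (nat_lit 34486684760) (nat_lit 15) (nat_lit 5) (nat_lit 17) (nat_lit 5) (nat_lit 16) (nat_lit 4) (nat_lit 351) (nat_lit 288) (nat_lit 141)) (XT.lf (nat_lit 0) (nat_lit 39691325498) (nat_lit 152) (nat_lit 27077378338) (nat_lit 76) (nat_lit 59146092127) (nat_lit 15) (nat_lit 5) (nat_lit 17) (nat_lit 5) (nat_lit 16) (nat_lit 4) (nat_lit 352) (nat_lit 288) (nat_lit 140))))) (XT.nd (nat_lit 156) (nat_lit 76) (nat_lit 0) (XT.nd (nat_lit 78) (nat_lit 0) (nat_lit 0) (XT.lf (nat_lit 0) (nat_lit 13891394610) (nat_lit 76) (nat_lit 45786541225) (nat_lit 152) (nat_lit 71362705070) (nat_lit 14) (nat_lit 5) (nat_lit 15) (nat_lit 5) (nat_lit 16) (nat_lit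 4) (nat_lit 353) (nat_lit 288) (nat_lit 139)) (XT.lf (nat_lit 0) (nat_lit 57845741126) (nat_lit 76) (nat_lit 23275094633) (nat_lit 152) (nat_lit 55279095156) (nat_lit 14) (nat_lit 5) (nat_lit 15) (nat_lit 5) (nat_lit 16) (nat_lit 4) (nat_lit 354) (nat_lit 288) (nat_lit 138))) (XT.nd (nat_lit 78) (nat_lit 76) (nat_lit 0) (XT.lf (nat_lit 0) (nat_lit 103639978893) (nat_lit 152) (nat_lit 38037879809) (nat_lit 0) (nat_lit 349122550) (nat_lit 14) (nat_lit 5) (nat_lit 16) (nat_lit 4) (nat_lit 14) (nat_lit 4) (nat_lit 355) (nat_lit 288) (nat_lit 137)) (XT.nd (nat_lit 78) (nat_lit 0) (nat_lit 0) (XT.lf (nat_lit 0) (nat_lit 4256198631) (nat_lit 76) (nat_lit 123475412155) (nat_lit 76) (nat_lit 20181447441) (nat_lit 13) (nat_lit 4) (nat_lit 14) (nat_lit 5) (nat_lit 14) (nat_lit 4) (nat_lit 356) (nat_lit 288) (nat_lit 136)) (XT.lf (nat_lit 0) (nat_lit 49982901002) (nat_lit 76) (nat_lit 103687663389)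 (nat_lit 76) (nat_lit 390738323) (nat_lit 13) (nat_lit 4) (nat_lit 14) (nat_lit 5) (nat_lit 14) (nat_lit 4) (nat_lit 357) (nat_lit 288) (nat_lit 135))))))) (XT.nd (nat_lit 780) (nat_lit 228) (nat_lit 0) (XT.nd (nat_lit 390) (nat_lit 152) (nat_lit 0) (XT.nd (nat_lit 156) (nat_lit 76) (nat_lit 0) (XT.nd (nat_lit 78) (nat_lit 0) (nat_lit 0) (XT.lf (nat_lit 0) (nat_lit 19735510718) (nat_lit 152) (nat_lit 62841947476) (nat_lit 76) (nat_lit 77923655170) (nat_lit 12) (nat_lit 5) (nat_lit 14) (nat_lit 5) (nat_lit 13) (nat_lit 4) (nat_lit 358) (nat_lit 288) (nat_lit 134)) (XT.lf (nat_lit 0) (nat_lit 40853603702) (nat_lit 152) (nat_lit 19552541987) (nat_lit 76) (nat_lit 106856516016) (nat_lit 12) (nat_lit 5) (nat_lit 14) (nat_lit 5) (nat_lit 13) (nat_lit 4) (nat_lit 359) (nat_lit 288) (nat_lit 133))) (XT.nd (nat_lit 78) (nat_lit 0) (nat_lit 0) (XT.lf (nat_lit 0) (nat_lit 26755322706) (nat_lit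 76) (nat_lit 36688730731) (nat_lit 152) (nat_lit 110897411970) (nat_lit 11) (nat_lit 5) (nat_lit 12) (nat_lit 5) (nat_lit 13) (nat_lit 4) (nat_lit 360) (nat_lit 288) (nat_lit 132)) (XT.nd (nat_lit 78) (nat_lit 0) (nat_lit 0) (XT.lf (nat_lit 0) (nat_lit 76055090132) (nat_lit 76) (nat_lit 11438818386) (nat_lit 152) (nat_lit 94263807158) (nat_lit 11) (nat_lit 5) (nat_lit 12) (nat_lit 5) (nat_lit 13) (nat_lit 4) (nat_lit 361) (nat_lit 288) (nat_lit 131)) (XT.lf (nat_lit 0) (nat_lit 112980392115) (nat_lit 152) (nat_lit 61962518269) (nat_lit 0) (nat_lit 14590161785) (nat_lit 11) (nat_lit 5) (nat_lit 13) (nat_lit 4) (nat_lit 11) (nat_lit 4) (nat_lit 362) (nat_lit 288) (nat_lit 130))))) (XT.nd (nat_lit 156) (nat_lit 76) (nat_lit 0) (XT.nd (nat_lit 78) (nat_lit 76) (nat_lit 0) (XT.lf (nat_lit 0) (nat_lit 139927573678) (nat_lit 152) (nat_lit 16225065112) (nat_lit 0) (nat_lit 41535239481) (nat_lit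 11) (nat_lit 5) (nat_lit 13) (nat_lit 4) (nat_lit 11) (nat_lit 4) (nat_lit 363) (nat_lit 288) (nat_lit 129)) (XT.lf (nat_lit 0) (nat_lit 32848584482) (nat_lit 76) (nat_lit 135885295133) (nat_lit 76) (nat_lit 37490957253) (nat_lit 10) (nat_lit 4) (nat_lit 11) (nat_lit 5) (nat_lit 11) (nat_lit 4) (nat_lit 364) (nat_lit 288) (nat_lit 128))) (XT.nd (nat_lit 78) (nat_lit 76) (nat_lit 0) (XT.lf (nat_lit 0) (nat_lit 84937210953) (nat_lit 76) (nat_lit 114316996837) (nat_lit 76) (nat_lit 15920750687) (nat_lit 10) (nat_lit 4) (nat_lit 11) (nat_lit 5) (nat_lit 11) (nat_lit 4) (nat_lit 365) (nat_lit 288) (nat_lit 127)) (XT.nd (nat_lit 78) (nat_lit 0) (nat_lit 0) (XT.lf (nat_lit 0) (nat_lit 6511590809) (nat_lit 152) (nat_lit 85049302389) (nat_lit 76) (nat_lit 133006493162) (nat_lit 9) (nat_lit 5) (nat_lit 11) (nat_lit 5) (nat_lit 10) (nat_lit 4) (nat_lit 366) (nat_lit 288) (nat_lit 126)) (XT.lf (nat_lit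 0) (nat_lit 29529518749) (nat_lit 152) (nat_lit 37864280970) (nat_lit 76) (nat_lit 167022635947) (nat_lit 9) (nat_lit 5) (nat_lit 11) (nat_lit 5) (nat_lit 10) (nat_lit 4) (nat_lit 367) (nat_lit 288) (nat_lit 125)))))) (XT.nd (nat_lit 390) (nat_lit 152) (nat_lit 0) (XT.nd (nat_lit 156) (nat_lit 0) (nat_lit 0) (XT.nd (nat_lit 78) (nat_lit 0) (nat_lit 0) (XT.lf (nat_lit 0) (nat_lit 12064364569) (nat_lit 76) (nat_lit 41821395143) (nat_lit 152) (nat_lit 190862807247) (nat_lit 8) (nat_lit 5) (nat_lit 9) (nat_lit 5) (nat_lit 10) (nat_lit 4) (nat_lit 368) (nat_lit 288) (nat_lit 124)) (XT.lf (nat_lit 0) (nat_lit 65802271179) (nat_lit 76) (nat_lit 14297867337) (nat_lit 152) (nat_lit 175465150349) (nat_lit 8) (nat_lit 5) (nat_lit 9) (nat_lit 5) (nat_lit 10) (nat_lit 4) (nat_lit 369) (nat_lit 288) (nat_lit 123))) (XT.nd (nat_lit 78) (nat_lit 0) (nat_lit 0) (XT.lf (nat_lit 0) (nat_lit 107852319699)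 (nat_lit 152) (nat_lit 144925432628) (nat_lit 0) (nat_lit 14133740689) (nat_lit 8) (nat_lit 5) (nat_lit 10) (nat_lit 4) (nat_lit 8) (nat_lit 4) (nat_lit 370) (nat_lit 288) (nat_lit 122)) (XT.nd (nat_lit 78) (nat_lit 0) (nat_lit 0) (XT.lf (nat_lit 0) (nat_lit 137225651535) (nat_lit 152) (nat_lit 98081962713) (nat_lit 0) (nat_lit 43505716353) (nat_lit 8) (nat_lit 5) (nat_lit 10) (nat_lit 4) (nat_lit 8) (nat_lit 4) (nat_lit 371) (nat_lit 288) (nat_lit 121)) (XT.lf (nat_lit 0) (nat_lit 168066840751) (nat_lit 152) (nat_lit 48897846091) (nat_lit 0) (nat_lit 74345613977) (nat_lit 8) (nat_lit 5) (nat_lit 10) (nat_lit 4) (nat_lit 8) (nat_lit 4) (nat_lit 372) (nat_lit 288) (nat_lit 120))))) (XT.nd (nat_lit 234) (nat_lit 76) (nat_lit 0) (XT.nd (nat_lit 78) (nat_lit 0) (nat_lit 0) (XT.lf (nat_lit 0) (nat_lit 2834752045) (nat_lit 76) (nat_lit 197658825126) (nat_lit 76) (nat_lit 103936368265) (nat_lit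 7) (nat_lit 4) (nat_lit 8) (nat_lit 5) (nat_lit 8) (nat_lit 4) (nat_lit 373) (nat_lit 288) (nat_lit 119)) (XT.nd (nat_lit 78) (nat_lit 0) (nat_lit 0) (XT.lf (nat_lit 0) (nat_lit 58850172260) (nat_lit 76) (nat_lit 176518830523) (nat_lit 76) (nat_lit 82795202149) (nat_lit 7) (nat_lit 4) (nat_lit 8) (nat_lit 5) (nat_lit 8) (nat_lit 4) (nat_lit 374) (nat_lit 288) (nat_lit 118)) (XT.lf (nat_lit 0) (nat_lit 117665000978) (nat_lit 76) (nat_lit 154322478395) (nat_lit 76) (nat_lit 60597734295) (nat_lit 7) (nat_lit 4) (nat_lit 8) (nat_lit 5) (nat_lit 8) (nat_lit 4) (nat_lit 375) (nat_lit 288) (nat_lit 117)))) (XT.nd (nat_lit 78) (nat_lit 76) (nat_lit 0) (XT.lf (nat_lit 0) (nat_lit 179419273508) (nat_lit 76) (nat_lit 131016920285) (nat_lit 76) (nat_lit 37291113590) (nat_lit 7) (nat_lit 4) (nat_lit 8) (nat_lit 5) (nat_lit 8) (nat_lit 4) (nat_lit 376) (nat_lit 288) (nat_lit 116)) (XT.nd (nat_lit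 78) (nat_lit 76) (nat_lit 0) (XT.lf (nat_lit 0) (nat_lit 244260023830) (nat_lit 76) (nat_lit 106546666770) (nat_lit 76) (nat_lit 12819848078) (nat_lit 7) (nat_lit 4) (nat_lit 8) (nat_lit 5) (nat_lit 8) (nat_lit 4) (nat_lit 377) (nat_lit 288) (nat_lit 115)) (XT.lf (nat_lit 0) (nat_lit 12462268286) (nat_lit 152) (nat_lit 68180132510) (nat_lit 76) (nat_lit 299668311854) (nat_lit 6) (nat_lit 5) (nat_lit 8) (nat_lit 5) (nat_lit 7) (nat_lit 4) (nat_lit 378) (nat_lit 288) (nat_lit 114))))))))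
noncomputable def xc185 : XT := (XT.nd (nat_lit 34788) (nat_lit 0) (nat_lit 2660) (XT.nd (nat_lit 33930) (nat_lit 0) (nat_lit 5396) (XT.nd (nat_lit 390) (nat_lit 0) (nat_lit 0) (XT.nd (nat_lit 156) (nat_lit 0) (nat_lit 0) (XT.nd (nat_lit 78) (nat_lit 76) (nat_lit 0) (XT.lf (nat_lit 0) (nat_lit 38577057001) (nat_lit 152) (nat_lit 14645733555) (nat_lit 76) (nat_lit 344595827015) (nat_lit 6) (nat_lit 5) (nat_lit 8) (nat_lit 5) (nat_lit 7) (nat_lit 4) (nat_lit 379) (nat_lit 288) (nat_lit 113)) (XT.lf (nat_lit 0) (nat_lit 42938602049) (nat_lit 76) (nat_lit 23728801198) (nat_lit 152) (nat_lit 349501023774) (nat_lit 5) (nat_lit 5) (nat_lit 6) (nat_lit 5) (nat_lit 7) (nat_lit 4) (nat_lit 380) (nat_lit 288) (nat_lit 112))) (XT.nd (nat_lit 78) (nat_lit 0) (nat_lit 0) (XT.lf (nat_lit 0) (nat_lit 96526829348) (nat_lit 152) (nat_lit 331630894758) (nat_lit 0) (nat_lit 7259774890) (nat_lit 5) (nat_lit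 5) (nat_lit 7) (nat_lit 4) (nat_lit 5) (nat_lit 4) (nat_lit 381) (nat_lit 288) (nat_lit 111)) (XT.nd (nat_lit 78) (nat_lit 0) (nat_lit 0) (XT.lf (nat_lit 0) (nat_lit 128267679603) (nat_lit 152) (nat_lit 288342052517) (nat_lit 0) (nat_lit 38999869978) (nat_lit 5) (nat_lit 5) (nat_lit 7) (nat_lit 4) (nat_lit 5) (nat_lit 4) (nat_lit 382) (nat_lit 288) (nat_lit 110)) (XT.lf (nat_lit 0) (nat_lit 161595054379) (nat_lit 152) (nat_lit 242889756492) (nat_lit 0) (nat_lit 72326525547) (nat_lit 5) (nat_lit 5) (nat_lit 7) (nat_lit 4) (nat_lit 5) (nat_lit 4) (nat_lit 383) (nat_lit 288) (nat_lit 109))))) (XT.nd (nat_lit 33306) (nat_lit 0) (nat_lit 6764) (XT.nd (nat_lit 33228) (nat_lit 0) (nat_lit 6764) (XT.lf (nat_lit 0) (nat_lit 196588304567) (nat_lit 152) (nat_lit 195165786930) (nat_lit 0) (nat_lit 107319090776) (nat_lit 5) (nat_lit 5) (nat_lit 7) (nat_lit 4) (nat_lit 5) (nat_lit 4) (nat_lit 384)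 (nat_lit 288) (nat_lit 108)) (XT.lf (nat_lit 0) (nat_lit 3072158066) (nat_lit 0) (nat_lit 3072158066) (nat_lit 684) (nat_lit 2339874124) (nat_lit 94) (nat_lit 5) (nat_lit 94) (nat_lit 3) (nat_lit 103) (nat_lit 3) (nat_lit 289) (nat_lit 289) (nat_lit 202))) (XT.nd (nat_lit 78) (nat_lit 0) (nat_lit 0) (XT.lf (nat_lit 0) (nat_lit 12837173597) (nat_lit 684) (nat_lit 3062053086) (nat_lit 760) (nat_lit 1480910809) (nat_lit 94) (nat_lit 5) (nat_lit 103) (nat_lit 3) (nat_lit 104) (nat_lit 5) (nat_lit 290) (nat_lit 289) (nat_lit 201)) (XT.nd (nat_lit 78) (nat_lit 0) (nat_lit 0) (XT.lf (nat_lit 76) (nat_lit 5144189718) (nat_lit 0) (nat_lit 8436183777) (nat_lit 760) (nat_lit 4223771974) (nat_lit 95) (nat_lit 5) (nat_lit 94) (nat_lit 5) (nat_lit 104) (nat_lit 5) (nat_lit 291) (nat_lit 289) (nat_lit 200)) (XT.lf (nat_lit 76) (nat_lit 13859389099) (nat_lit 0) (nat_lit 539929415) (nat_lit 760) (nat_lit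 3848129623) (nat_lit 95) (nat_lit 5) (nat_lit 94) (nat_lit 5) (nat_lit 104) (nat_lit 5) (nat_lit 292) (nat_lit 289) (nat_lit 199)))))) (XT.nd (nat_lit 390) (nat_lit 836) (nat_lit 0) (XT.nd (nat_lit 156) (nat_lit 608) (nat_lit 0) (XT.nd (nat_lit 78) (nat_lit 0) (nat_lit 0) (XT.lf (nat_lit 76) (nat_lit 4306204915) (nat_lit 0) (nat_lit 11128697967) (nat_lit 760) (nat_lit 3269250878) (nat_lit 96) (nat_lit 5) (nat_lit 95) (nat_lit 5) (nat_lit 105) (nat_lit 5) (nat_lit 293) (nat_lit 289) (nat_lit 198)) (XT.lf (nat_lit 76) (nat_lit 13570475153) (nat_lit 0) (nat_lit 3022731449) (nat_lit 760) (nat_lit 2586962415) (nat_lit 96) (nat_lit 5) (nat_lit 95) (nat_lit 5) (nat_lit 105) (nat_lit 5) (nat_lit 294) (nat_lit 289) (nat_lit 197))) (XT.nd (nat_lit 78) (nat_lit 684) (nat_lit 0) (XT.lf (nat_lit 76) (nat_lit 3640617232) (nat_lit 0) (nat_lit 14299895031) (nat_lit 760) (nat_lit 1732938776) (nat_lit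 97) (nat_lit 5) (nat_lit 96) (nat_lit 5) (nat_lit 106) (nat_lit 5) (nat_lit 295) (nat_lit 289) (nat_lit 196)) (XT.nd (nat_lit 78) (nat_lit 684) (nat_lit 0) (XT.lf (nat_lit 76) (nat_lit 13488952695) (nat_lit 0) (nat_lit 5998961479) (nat_lit 760) (nat_lit 696865813) (nat_lit 97) (nat_lit 5) (nat_lit 96) (nat_lit 5) (nat_lit 106) (nat_lit 5) (nat_lit 296) (nat_lit 289) (nat_lit 195)) (XT.lf (nat_lit 0) (nat_lit 461086454) (nat_lit 760) (nat_lit 17566627577) (nat_lit 836) (nat_lit 2689544163) (nat_lit 87) (nat_lit 5) (nat_lit 97) (nat_lit 5) (nat_lit 98) (nat_lit 5) (nat_lit 297) (nat_lit 289) (nat_lit 194))))) (XT.nd (nat_lit 234) (nat_lit 836) (nat_lit 0) (XT.nd (nat_lit 78) (nat_lit 0) (nat_lit 0) (XT.lf (nat_lit 0) (nat_lit 1856848999) (nat_lit 760) (nat_lit 7668924383) (nat_lit 836) (nat_lit 11739865866) (nat_lit 87) (nat_lit 5) (nat_lit 97) (nat_lit 5) (nat_lit 98) (nat_lit 5) (nat_lit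 298) (nat_lit 289) (nat_lit 193)) (XT.nd (nat_lit 78) (nat_lit 0) (nat_lit 76) (XT.lf (nat_lit 76) (nat_lit 2805374694) (nat_lit 0) (nat_lit 551045929) (nat_lit 836) (nat_lit 18483333623) (nat_lit 88) (nat_lit 5) (nat_lit 87) (nat_lit 5) (nat_lit 98) (nat_lit 5) (nat_lit 299) (nat_lit 289) (nat_lit 192)) (XT.lf (nat_lit 0) (nat_lit 5192086208) (nat_lit 760) (nat_lit 8515555891) (nat_lit 76) (nat_lit 8721892306) (nat_lit 88) (nat_lit 5) (nat_lit 98) (nat_lit 5) (nat_lit 89) (nat_lit 5) (nat_lit 300) (nat_lit 289) (nat_lit 191)))) (XT.nd (nat_lit 78) (nat_lit 380) (nat_lit 0) (XT.lf (nat_lit 0) (nat_lit 2595181458) (nat_lit 532) (nat_lit 4564939488) (nat_lit 608) (nat_lit 15886667787) (nat_lit 81) (nat_lit 5) (nat_lit 88) (nat_lit 5) (nat_lit 89) (nat_lit 5) (nat_lit 301) (nat_lit 289) (nat_lit 190)) (XT.nd (nat_lit 78) (nat_lit 380) (nat_lit 0) (XT.lf (nat_lit 0) (nat_lit 9443094506)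 (nat_lit 608) (nat_lit 9219955959) (nat_lit 76) (nat_lit 5021042227) (nat_lit 81) (nat_lit 5) (nat_lit 89) (nat_lit 5) (nat_lit 82) (nat_lit 5) (nat_lit 302) (nat_lit 289) (nat_lit 189)) (XT.lf (nat_lit 0) (nat_lit 2572803457) (nat_lit 380) (nat_lit 9374177956) (nat_lit 456) (nat_lit 12400955315) (nat_lit 76) (nat_lit 5) (nat_lit 81) (nat_lit 5) (nat_lit 82) (nat_lit 5) (nat_lit 303) (nat_lit 289) (nat_lit 188))))))) (XT.nd (nat_lit 780) (nat_lit 1216) (nat_lit 0) (XT.nd (nat_lit 390) (nat_lit 836) (nat_lit 0) (XT.nd (nat_lit 156) (nat_lit 380) (nat_lit 0) (XT.nd (nat_lit 78) (nat_lit 304) (nat_lit 0) (XT.lf (nat_lit 0) (nat_lit 14732718601) (nat_lit 456) (nat_lit 9778617102) (nat_lit 76) (nat_lit 525816954) (nat_lit 76) (nat_lit 5) (nat_lit 82) (nat_lit 5) (nat_lit 77) (nat_lit 5) (nat_lit 304) (nat_lit 289) (nat_lit 187)) (XT.lf (nat_lit 0) (nat_lit 2743999619) (nat_lit 304) (nat_lit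 15102671378) (nat_lit 380) (nat_lit 7904723860) (nat_lit 72) (nat_lit 5) (nat_lit 76) (nat_lit 5) (nat_lit 77) (nat_lit 5) (nat_lit 305) (nat_lit 289) (nat_lit 186))) (XT.nd (nat_lit 78) (nat_lit 380) (nat_lit 0) (XT.lf (nat_lit 0) (nat_lit 16224490372) (nat_lit 304) (nat_lit 5050088402) (nat_lit 380) (nat_lit 5218868833) (nat_lit 72) (nat_lit 5) (nat_lit 76) (nat_lit 5) (nat_lit 77) (nat_lit 5) (nat_lit 306) (nat_lit 289) (nat_lit 185)) (XT.nd (nat_lit 78) (nat_lit 76) (nat_lit 0) (XT.lf (nat_lit 0) (nat_lit 3112332250) (nat_lit 304) (nat_lit 21889088419) (nat_lit 380) (nat_lit 2264816177) (nat_lit 68) (nat_lit 5) (nat_lit 72) (nat_lit 5) (nat_lit 73) (nat_lit 5) (nat_lit 307) (nat_lit 289) (nat_lit 184)) (XT.lf (nat_lit 0) (nat_lit 1062790471) (nat_lit 380) (nat_lit 10656322725) (nat_lit 76) (nat_lit 16345276855) (nat_lit 67) (nat_lit 5) (nat_lit 72) (nat_lit 5) (nat_lit 68) (nat_lit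 5) (nat_lit 308) (nat_lit 289) (nat_lit 183))))) (XT.nd (nat_lit 156) (nat_lit 532) (nat_lit 0) (XT.nd (nat_lit 78) (nat_lit 0) (nat_lit 0) (XT.lf (nat_lit 0) (nat_lit 3586320859) (nat_lit 304) (nat_lit 943755071) (nat_lit 380) (nat_lit 24368057342) (nat_lit 63) (nat_lit 5) (nat_lit 67) (nat_lit 5) (nat_lit 68) (nat_lit 5) (nat_lit 309) (nat_lit 289) (nat_lit 182)) (XT.lf (nat_lit 0) (nat_lit 8509666792) (nat_lit 380) (nat_lit 11026015370) (nat_lit 76) (nat_lit 10220943309) (nat_lit 63) (nat_lit 5) (nat_lit 68) (nat_lit 5) (nat_lit 64) (nat_lit 5) (nat_lit 310) (nat_lit 289) (nat_lit 181))) (XT.nd (nat_lit 78) (nat_lit 228) (nat_lit 0) (XT.lf (nat_lit 0) (nat_lit 4081946752) (nat_lit 304) (nat_lit 8679399202) (nat_lit 380) (nat_lit 17893049340) (nat_lit 59) (nat_lit 5) (nat_lit 63) (nat_lit 5) (nat_lit 64) (nat_lit 5) (nat_lit 311) (nat_lit 289) (nat_lit 180)) (XT.nd (nat_lit 78) (nat_lit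 228) (nat_lit 0) (XT.lf (nat_lit 0) (nat_lit 17451928187) (nat_lit 380) (nat_lit 11312602414) (nat_lit 76) (nat_lit 2821215103) (nat_lit 59) (nat_lit 5) (nat_lit 64) (nat_lit 5) (nat_lit 60) (nat_lit 5) (nat_lit 312) (nat_lit 289) (nat_lit 179)) (XT.lf (nat_lit 0) (nat_lit 4711640894) (nat_lit 228) (nat_lit 17875593348) (nat_lit 304) (nat_lit 9965927323) (nat_lit 56) (nat_lit 5) (nat_lit 59) (nat_lit 5) (nat_lit 60) (nat_lit 5) (nat_lit 313) (nat_lit 289) (nat_lit 178)))))) (XT.nd (nat_lit 390) (nat_lit 684) (nat_lit 0) (XT.nd (nat_lit 156) (nat_lit 304) (nat_lit 0) (XT.nd (nat_lit 78) (nat_lit 228) (nat_lit 0) (XT.lf (nat_lit 0) (nat_lit 21922847259) (nat_lit 228) (nat_lit 6242550215) (nat_lit 304) (nat_lit 5394253452) (nat_lit 56) (nat_lit 5) (nat_lit 59) (nat_lit 5) (nat_lit 60) (nat_lit 5) (nat_lit 314) (nat_lit 289) (nat_lit 177)) (XT.lf (nat_lit 0) (nat_lit 5452511633) (nat_lit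 228) (nat_lit 28743074798) (nat_lit 304) (nat_lit 412229400) (nat_lit 53) (nat_lit 5) (nat_lit 56) (nat_lit 5) (nat_lit 57) (nat_lit 5) (nat_lit 315) (nat_lit 289) (nat_lit 176))) (XT.nd (nat_lit 78) (nat_lit 228) (nat_lit 0) (XT.lf (nat_lit 0) (nat_lit 4962104116) (nat_lit 304) (nat_lit 12086019912) (nat_lit 76) (nat_lit 18641637286) (nat_lit 52) (nat_lit 5) (nat_lit 56) (nat_lit 5) (nat_lit 53) (nat_lit 5) (nat_lit 316) (nat_lit 289) (nat_lit 175)) (XT.nd (nat_lit 78) (nat_lit 0) (nat_lit 0) (XT.lf (nat_lit 0) (nat_lit 6015871591) (nat_lit 228) (nat_lit 4664401816) (nat_lit 304) (nat_lit 26140750144) (nat_lit 49) (nat_lit 5) (nat_lit 52) (nat_lit 5) (nat_lit 53) (nat_lit 5) (nat_lit 317) (nat_lit 289) (nat_lit 174)) (XT.lf (nat_lit 0) (nat_lit 17017731655) (nat_lit 304) (nat_lit 12696457900) (nat_lit 76) (nat_lit 8277996039) (nat_lit 49) (nat_lit 5) (nat_lit 53) (nat_lit 5) (nat_lit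 50) (nat_lit 5) (nat_lit 318) (nat_lit 289) (nat_lit 173))))) (XT.nd (nat_lit 234) (nat_lit 304) (nat_lit 0) (XT.nd (nat_lit 78) (nat_lit 152) (nat_lit 0) (XT.lf (nat_lit 0) (nat_lit 6440919465) (nat_lit 228) (nat_lit 17403555461) (nat_lit 304) (nat_lit 15368815657) (nat_lit 46) (nat_lit 5) (nat_lit 49) (nat_lit 5) (nat_lit 50) (nat_lit 5) (nat_lit 319) (nat_lit 289) (nat_lit 172)) (XT.nd (nat_lit 78) (nat_lit 152) (nat_lit 0) (XT.lf (nat_lit 0) (nat_lit 26969626403) (nat_lit 228) (nat_lit 4253456194) (nat_lit 304) (nat_lit 9261847053) (nat_lit 46) (nat_lit 5) (nat_lit 49) (nat_lit 5) (nat_lit 50) (nat_lit 5) (nat_lit 320) (nat_lit 289) (nat_lit 171)) (XT.lf (nat_lit 0) (nat_lit 6765776370) (nat_lit 152) (nat_lit 32455337254) (nat_lit 228) (nat_lit 2586517338) (nat_lit 44) (nat_lit 5) (nat_lit 46) (nat_lit 5) (nat_lit 47) (nat_lit 5) (nat_lit 321) (nat_lit 289) (nat_lit 170)))) (XT.nd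 (nat_lit 78) (nat_lit 228) (nat_lit 0) (XT.lf (nat_lit 0) (nat_lit 4579127341) (nat_lit 228) (nat_lit 14803689114) (nat_lit 76) (nat_lit 23795297993) (nat_lit 43) (nat_lit 5) (nat_lit 46) (nat_lit 5) (nat_lit 44) (nat_lit 5) (nat_lit 322) (nat_lit 289) (nat_lit 169)) (XT.nd (nat_lit 78) (nat_lit 0) (nat_lit 0) (XT.lf (nat_lit 0) (nat_lit 6609561326) (nat_lit 228) (nat_lit 5505695490) (nat_lit 304) (nat_lit 32494793140) (nat_lit 40) (nat_lit 5) (nat_lit 43) (nat_lit 5) (nat_lit 44) (nat_lit 5) (nat_lit 323) (nat_lit 289) (nat_lit 168)) (XT.lf (nat_lit 0) (nat_lit 20420549767) (nat_lit 304) (nat_lit 16645311234) (nat_lit 76) (nat_lit 9028107455) (nat_lit 40) (nat_lit 5) (nat_lit 44) (nat_lit 5) (nat_lit 41) (nat_lit 5) (nat_lit 324) (nat_lit 289) (nat_lit 167))))))))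
noncomputable def xc186 : XT := (XT.nd (nat_lit 1560) (nat_lit 836) (nat_lit 0) (XT.nd (nat_lit 780) (nat_lit 532) (nat_lit 0) (XT.nd (nat_lit 390) (nat_lit 380) (nat_lit 0) (XT.nd (nat_lit 156) (nat_lit 380) (nat_lit 0) (XT.nd (nat_lit 78) (nat_lit 0) (nat_lit 0) (XT.lf (nat_lit 0) (nat_lit 5869470376) (nat_lit 152) (nat_lit 23449728364) (nat_lit 228) (nat_lit 18323983444) (nat_lit 38) (nat_lit 5) (nat_lit 40) (nat_lit 5) (nat_lit 41) (nat_lit 5) (nat_lit 325) (nat_lit 289) (nat_lit 166)) (XT.lf (nat_lit 0) (nat_lit 30082214484) (nat_lit 152) (nat_lit 8858750017) (nat_lit 228) (nat_lit 10314986569) (nat_lit 38) (nat_lit 5) (nat_lit 40) (nat_lit 5) (nat_lit 41) (nat_lit 5) (nat_lit 326) (nat_lit 289) (nat_lit 165))) (XT.nd (nat_lit 78) (nat_lit 228) (nat_lit 0) (XT.lf (nat_lit 0) (nat_lit 4596935871) (nat_lit 152) (nat_lit 44615975858) (nat_lit 228) (nat_lit 1727995523) (nat_lit 36)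 (nat_lit 5) (nat_lit 38) (nat_lit 5) (nat_lit 39) (nat_lit 5) (nat_lit 327) (nat_lit 289) (nat_lit 164)) (XT.nd (nat_lit 78) (nat_lit 152) (nat_lit 0) (XT.lf (nat_lit 0) (nat_lit 7526797587) (nat_lit 228) (nat_lit 22741981271) (nat_lit 76) (nat_lit 22412059744) (nat_lit 35) (nat_lit 5) (nat_lit 38) (nat_lit 5) (nat_lit 36) (nat_lit 5) (nat_lit 328) (nat_lit 289) (nat_lit 163)) (XT.lf (nat_lit 0) (nat_lit 2072812526) (nat_lit 152) (nat_lit 15142436770) (nat_lit 228) (nat_lit 37289654321) (nat_lit 33) (nat_lit 5) (nat_lit 35) (nat_lit 5) (nat_lit 36) (nat_lit 5) (nat_lit 329) (nat_lit 289) (nat_lit 162))))) (XT.nd (nat_lit 156) (nat_lit 380) (nat_lit 0) (XT.nd (nat_lit 78) (nat_lit 0) (nat_lit 0) (XT.lf (nat_lit 0) (nat_lit 27787818168) (nat_lit 228) (nat_lit 27506251782) (nat_lit 76) (nat_lit 1106120093) (nat_lit 33) (nat_lit 5) (nat_lit 36) (nat_lit 5) (nat_lit 34) (nat_lit 5) (nat_lit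 330) (nat_lit 289) (nat_lit 161)) (XT.lf (nat_lit 0) (nat_lit 39134087674) (nat_lit 228) (nat_lit 1587464460) (nat_lit 76) (nat_lit 17656437799) (nat_lit 33) (nat_lit 5) (nat_lit 36) (nat_lit 5) (nat_lit 34) (nat_lit 5) (nat_lit 331) (nat_lit 289) (nat_lit 160))) (XT.nd (nat_lit 78) (nat_lit 228) (nat_lit 0) (XT.lf (nat_lit 0) (nat_lit 26469590344) (nat_lit 152) (nat_lit 24988331009) (nat_lit 228) (nat_lit 8976248549) (nat_lit 31) (nat_lit 5) (nat_lit 33) (nat_lit 5) (nat_lit 34) (nat_lit 5) (nat_lit 332) (nat_lit 289) (nat_lit 159)) (XT.nd (nat_lit 78) (nat_lit 152) (nat_lit 0) (XT.lf (nat_lit 0) (nat_lit 1771352884) (nat_lit 228) (nat_lit 6640709158) (nat_lit 76) (nat_lit 54178473840) (nat_lit 30) (nat_lit 5) (nat_lit 33) (nat_lit 5) (nat_lit 31) (nat_lit 5) (nat_lit 333) (nat_lit 289) (nat_lit 158)) (XT.lf (nat_lit 0) (nat_lit 13253587203) (nat_lit 228) (nat_lit 42356847907) (nat_lit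 76) (nat_lit 9211984053) (nat_lit 28) (nat_lit 5) (nat_lit 31) (nat_lit 5) (nat_lit 29) (nat_lit 5) (nat_lit 334) (nat_lit 289) (nat_lit 157)))))) (XT.nd (nat_lit 390) (nat_lit 228) (nat_lit 0) (XT.nd (nat_lit 156) (nat_lit 152) (nat_lit 0) (XT.nd (nat_lit 78) (nat_lit 152) (nat_lit 0) (XT.lf (nat_lit 0) (nat_lit 25559326555) (nat_lit 228) (nat_lit 14046996533) (nat_lit 76) (nat_lit 27547106009) (nat_lit 28) (nat_lit 5) (nat_lit 31) (nat_lit 5) (nat_lit 29) (nat_lit 5) (nat_lit 335) (nat_lit 289) (nat_lit 156)) (XT.lf (nat_lit 0) (nat_lit 16192127170) (nat_lit 152) (nat_lit 22538347687) (nat_lit 228) (nat_lit 30858010627) (nat_lit 26) (nat_lit 5) (nat_lit 28) (nat_lit 5) (nat_lit 29) (nat_lit 5) (nat_lit 336) (nat_lit 289) (nat_lit 155))) (XT.nd (nat_lit 78) (nat_lit 152) (nat_lit 0) (XT.lf (nat_lit 0) (nat_lit 48426489716) (nat_lit 152) (nat_lit 4368960121) (nat_lit 228) (nat_lit 19338083344)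 (nat_lit 26) (nat_lit 5) (nat_lit 28) (nat_lit 5) (nat_lit 29) (nat_lit 5) (nat_lit 337) (nat_lit 289) (nat_lit 154)) (XT.nd (nat_lit 78) (nat_lit 76) (nat_lit 0) (XT.lf (nat_lit 0) (nat_lit 7471950753) (nat_lit 76) (nat_lit 60435503135) (nat_lit 152) (nat_lit 6881192223) (nat_lit 25) (nat_lit 5) (nat_lit 26) (nat_lit 5) (nat_lit 27) (nat_lit 4) (nat_lit 338) (nat_lit 289) (nat_lit 153)) (XT.lf (nat_lit 0) (nat_lit 6477332980) (nat_lit 152) (nat_lit 36702775172) (nat_lit 76) (nat_lit 34367710311) (nat_lit 24) (nat_lit 5) (nat_lit 26) (nat_lit 5) (nat_lit 25) (nat_lit 5) (nat_lit 339) (nat_lit 289) (nat_lit 152))))) (XT.nd (nat_lit 156) (nat_lit 76) (nat_lit 0) (XT.nd (nat_lit 78) (nat_lit 152) (nat_lit 0) (XT.lf (nat_lit 0) (nat_lit 20270138187) (nat_lit 152) (nat_lit 4675064416) (nat_lit 76) (nat_lit 55494227771) (nat_lit 24) (nat_lit 5) (nat_lit 26) (nat_lit 5) (nat_lit 25) (nat_lit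 5) (nat_lit 340) (nat_lit 289) (nat_lit 151)) (XT.lf (nat_lit 0) (nat_lit 29907350033) (nat_lit 152) (nat_lit 5309892049) (nat_lit 228) (nat_lit 48235149409) (nat_lit 22) (nat_lit 5) (nat_lit 24) (nat_lit 5) (nat_lit 25) (nat_lit 5) (nat_lit 341) (nat_lit 289) (nat_lit 150))) (XT.nd (nat_lit 78) (nat_lit 76) (nat_lit 0) (XT.lf (nat_lit 0) (nat_lit 51228905937) (nat_lit 228) (nat_lit 20475063739) (nat_lit 76) (nat_lit 14896172210) (nat_lit 22) (nat_lit 5) (nat_lit 25) (nat_lit 5) (nat_lit 23) (nat_lit 4) (nat_lit 342) (nat_lit 289) (nat_lit 149)) (XT.nd (nat_lit 78) (nat_lit 0) (nat_lit 0) (XT.lf (nat_lit 0) (nat_lit 14625738817) (nat_lit 76) (nat_lit 53728662063) (nat_lit 152) (nat_lit 21535217914) (nat_lit 21) (nat_lit 5) (nat_lit 22) (nat_lit 5) (nat_lit 23) (nat_lit 4) (nat_lit 343) (nat_lit 289) (nat_lit 148)) (XT.lf (nat_lit 0) (nat_lit 52188748211) (nat_lit 76) (nat_lit 34492074014)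 (nat_lit 152) (nat_lit 6645516066) (nat_lit 21) (nat_lit 5) (nat_lit 22) (nat_lit 5) (nat_lit 23) (nat_lit 4) (nat_lit 344) (nat_lit 289) (nat_lit 147))))))) (XT.nd (nat_lit 780) (nat_lit 304) (nat_lit 0) (XT.nd (nat_lit 390) (nat_lit 228) (nat_lit 0) (XT.nd (nat_lit 156) (nat_lit 76) (nat_lit 0) (XT.nd (nat_lit 78) (nat_lit 152) (nat_lit 0) (XT.lf (nat_lit 0) (nat_lit 8698939914) (nat_lit 152) (nat_lit 5448898567) (nat_lit 76) (nat_lit 82780141431) (nat_lit 20) (nat_lit 5) (nat_lit 22) (nat_lit 5) (nat_lit 21) (nat_lit 5) (nat_lit 345) (nat_lit 289) (nat_lit 146)) (XT.lf (nat_lit 0) (nat_lit 25222878759) (nat_lit 228) (nat_lit 67834413623) (nat_lit 76) (nat_lit 7615185583) (nat_lit 18) (nat_lit 5) (nat_lit 21) (nat_lit 5) (nat_lit 19) (nat_lit 4) (nat_lit 346) (nat_lit 289) (nat_lit 145))) (XT.nd (nat_lit 78) (nat_lit 76) (nat_lit 0) (XT.lf (nat_lit 0) (nat_lit 42896815979) (nat_lit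 228) (nat_lit 31607905530) (nat_lit 76) (nat_lit 30083290429) (nat_lit 18) (nat_lit 5) (nat_lit 21) (nat_lit 5) (nat_lit 19) (nat_lit 4) (nat_lit 347) (nat_lit 289) (nat_lit 144)) (XT.nd (nat_lit 78) (nat_lit 0) (nat_lit 0) (XT.lf (nat_lit 0) (nat_lit 6639162744) (nat_lit 76) (nat_lit 54917111956) (nat_lit 152) (nat_lit 47137957715) (nat_lit 17) (nat_lit 5) (nat_lit 18) (nat_lit 5) (nat_lit 19) (nat_lit 4) (nat_lit 348) (nat_lit 289) (nat_lit 143)) (XT.lf (nat_lit 0) (nat_lit 47892732226) (nat_lit 76) (nat_lit 33789475138) (nat_lit 152) (nat_lit 31296882489) (nat_lit 17) (nat_lit 5) (nat_lit 18) (nat_lit 5) (nat_lit 19) (nat_lit 4) (nat_lit 349) (nat_lit 289) (nat_lit 142))))) (XT.nd (nat_lit 156) (nat_lit 76) (nat_lit 0) (XT.nd (nat_lit 78) (nat_lit 152) (nat_lit 0) (XT.lf (nat_lit 0) (nat_lit 91205925598) (nat_lit 76) (nat_lit 11606802332) (nat_lit 152) (nat_lit 14665548610) (nat_lit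 17) (nat_lit 5) (nat_lit 18) (nat_lit 5) (nat_lit 19) (nat_lit 4) (nat_lit 350) (nat_lit 289) (nat_lit 141)) (XT.lf (nat_lit 0) (nat_lit 3125946606) (nat_lit 152) (nat_lit 107462602004) (nat_lit 76) (nat_lit 11590784711) (nat_lit 15) (nat_lit 5) (nat_lit 17) (nat_lit 5) (nat_lit 16) (nat_lit 4) (nat_lit 351) (nat_lit 289) (nat_lit 140))) (XT.nd (nat_lit 78) (nat_lit 76) (nat_lit 0) (XT.lf (nat_lit 0) (nat_lit 21955020556) (nat_lit 152) (nat_lit 68866778650) (nat_lit 76) (nat_lit 36249580477) (nat_lit 15) (nat_lit 5) (nat_lit 17) (nat_lit 5) (nat_lit 16) (nat_lit 4) (nat_lit 352) (nat_lit 289) (nat_lit 139)) (XT.nd (nat_lit 78) (nat_lit 76) (nat_lit 0) (XT.lf (nat_lit 0) (nat_lit 41723984522) (nat_lit 152) (nat_lit 28344000847) (nat_lit 76) (nat_lit 62140121952) (nat_lit 15) (nat_lit 5) (nat_lit 17) (nat_lit 5) (nat_lit 16) (nat_lit 4) (nat_lit 353) (nat_lit 289) (nat_lit 138)) (XT.lf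 (nat_lit 0) (nat_lit 14671803548) (nat_lit 76) (nat_lit 48037171888) (nat_lit 152) (nat_lit 74881317705) (nat_lit 14) (nat_lit 5) (nat_lit 15) (nat_lit 5) (nat_lit 16) (nat_lit 4) (nat_lit 354) (nat_lit 289) (nat_lit 137)))))) (XT.nd (nat_lit 390) (nat_lit 152) (nat_lit 0) (XT.nd (nat_lit 156) (nat_lit 152) (nat_lit 0) (XT.nd (nat_lit 78) (nat_lit 0) (nat_lit 0) (XT.lf (nat_lit 0) (nat_lit 60819779809) (nat_lit 76) (nat_lit 24401995651) (nat_lit 152) (nat_lit 57995885515) (nat_lit 14) (nat_lit 5) (nat_lit 15) (nat_lit 5) (nat_lit 16) (nat_lit 4) (nat_lit 355) (nat_lit 289) (nat_lit 136)) (XT.lf (nat_lit 0) (nat_lit 108865285745) (nat_lit 152) (nat_lit 39860304540) (nat_lit 0) (nat_lit 400554072) (nat_lit 14) (nat_lit 5) (nat_lit 16) (nat_lit 4) (nat_lit 14) (nat_lit 4) (nat_lit 356) (nat_lit 289) (nat_lit 135))) (XT.nd (nat_lit 78) (nat_lit 76) (nat_lit 0) (XT.lf (nat_lit 0) (nat_lit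 4547196060) (nat_lit 76) (nat_lit 129613461617) (nat_lit 76) (nat_lit 21145910561) (nat_lit 13) (nat_lit 4) (nat_lit 14) (nat_lit 5) (nat_lit 14) (nat_lit 4) (nat_lit 357) (nat_lit 289) (nat_lit 134)) (XT.nd (nat_lit 78) (nat_lit 76) (nat_lit 0) (XT.lf (nat_lit 0) (nat_lit 52556510335) (nat_lit 76) (nat_lit 108838026421) (nat_lit 76) (nat_lit 367790237) (nat_lit 13) (nat_lit 4) (nat_lit 14) (nat_lit 5) (nat_lit 14) (nat_lit 4) (nat_lit 358) (nat_lit 289) (nat_lit 133)) (XT.lf (nat_lit 0) (nat_lit 20761453128) (nat_lit 152) (nat_lit 65911814535) (nat_lit 76) (nat_lit 81850926110) (nat_lit 12) (nat_lit 5) (nat_lit 14) (nat_lit 5) (nat_lit 13) (nat_lit 4) (nat_lit 359) (nat_lit 289) (nat_lit 132))))) (XT.nd (nat_lit 234) (nat_lit 76) (nat_lit 0) (XT.nd (nat_lit 78) (nat_lit 76) (nat_lit 0) (XT.lf (nat_lit 0) (nat_lit 42933585672) (nat_lit 152) (nat_lit 20461378310) (nat_lit 76) (nat_lit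 112228949609) (nat_lit 12) (nat_lit 5) (nat_lit 14) (nat_lit 5) (nat_lit 13) (nat_lit 4) (nat_lit 360) (nat_lit 289) (nat_lit 131)) (XT.nd (nat_lit 78) (nat_lit 0) (nat_lit 0) (XT.lf (nat_lit 0) (nat_lit 28160770089) (nat_lit 76) (nat_lit 38492068223) (nat_lit 152) (nat_lit 116403855912) (nat_lit 11) (nat_lit 5) (nat_lit 12) (nat_lit 5) (nat_lit 13) (nat_lit 4) (nat_lit 361) (nat_lit 289) (nat_lit 130)) (XT.lf (nat_lit 0) (nat_lit 79922302970) (nat_lit 76) (nat_lit 11981141168) (nat_lit 152) (nat_lit 98940400700) (nat_lit 11) (nat_lit 5) (nat_lit 12) (nat_lit 5) (nat_lit 13) (nat_lit 4) (nat_lit 362) (nat_lit 289) (nat_lit 129)))) (XT.nd (nat_lit 78) (nat_lit 76) (nat_lit 0) (XT.lf (nat_lit 0) (nat_lit 118663033258) (nat_lit 152) (nat_lit 64998022724) (nat_lit 0) (nat_lit 15346974801) (nat_lit 11) (nat_lit 5) (nat_lit 13) (nat_lit 4) (nat_lit 11) (nat_lit 4) (nat_lit 363) (nat_lit 289)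 (nat_lit 128)) (XT.nd (nat_lit 78) (nat_lit 76) (nat_lit 0) (XT.lf (nat_lit 0) (nat_lit 146955972875) (nat_lit 152) (nat_lit 16976678884) (nat_lit 0) (nat_lit 43638006147) (nat_lit 11) (nat_lit 5) (nat_lit 13) (nat_lit 4) (nat_lit 11) (nat_lit 4) (nat_lit 364) (nat_lit 289) (nat_lit 127)) (XT.lf (nat_lit 0) (nat_lit 34549691263) (nat_lit 76) (nat_lit 142652294180) (nat_lit 76) (nat_lit 39332510052) (nat_lit 10) (nat_lit 4) (nat_lit 11) (nat_lit 5) (nat_lit 11) (nat_lit 4) (nat_lit 365) (nat_lit 289) (nat_lit 126))))))))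
noncomputable def xc187 : XT := (XT.nd (nat_lit 34944) (nat_lit 0) (nat_lit 4104) (XT.nd (nat_lit 780) (nat_lit 152) (nat_lit 0) (XT.nd (nat_lit 390) (nat_lit 76) (nat_lit 0) (XT.nd (nat_lit 156) (nat_lit 76) (nat_lit 0) (XT.nd (nat_lit 78) (nat_lit 76) (nat_lit 0) (XT.lf (nat_lit 0) (nat_lit 89239954888) (nat_lit 76) (nat_lit 120006879336) (nat_lit 76) (nat_lit 16685364352) (nat_lit 10) (nat_lit 4) (nat_lit 11) (nat_lit 5) (nat_lit 11) (nat_lit 4) (nat_lit 366) (nat_lit 289) (nat_lit 125)) (XT.lf (nat_lit 0) (nat_lit 6866139978) (nat_lit 152) (nat_lit 89247576464) (nat_lit 76) (nat_lit 139680579851) (nat_lit 9) (nat_lit 5) (nat_lit 11) (nat_lit 5) (nat_lit 10) (nat_lit 4) (nat_lit 367) (nat_lit 289) (nat_lit 124))) (XT.nd (nat_lit 78) (nat_lit 76) (nat_lit 0) (XT.lf (nat_lit 0) (nat_lit 31033584809) (nat_lit 152) (nat_lit 39705884499) (nat_lit 76) (nat_lit 175396398250) (nat_lit 9)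 (nat_lit 5) (nat_lit 11) (nat_lit 5) (nat_lit 10) (nat_lit 4) (nat_lit 368) (nat_lit 289) (nat_lit 123)) (XT.nd (nat_lit 78) (nat_lit 0) (nat_lit 0) (XT.lf (nat_lit 0) (nat_lit 12718360889) (nat_lit 76) (nat_lit 43888755904) (nat_lit 152) (nat_lit 200377515169) (nat_lit 8) (nat_lit 5) (nat_lit 9) (nat_lit 5) (nat_lit 10) (nat_lit 4) (nat_lit 369) (nat_lit 289) (nat_lit 122)) (XT.lf (nat_lit 0) (nat_lit 69140744825) (nat_lit 76) (nat_lit 14990180708) (nat_lit 152) (nat_lit 184211329352) (nat_lit 8) (nat_lit 5) (nat_lit 9) (nat_lit 5) (nat_lit 10) (nat_lit 4) (nat_lit 370) (nat_lit 289) (nat_lit 121))))) (XT.nd (nat_lit 156) (nat_lit 76) (nat_lit 0) (XT.nd (nat_lit 78) (nat_lit 0) (nat_lit 0) (XT.lf (nat_lit 0) (nat_lit 113269823900) (nat_lit 152) (nat_lit 152124746189) (nat_lit 0) (nat_lit 14861244196) (nat_lit 8) (nat_lit 5) (nat_lit 10) (nat_lit 4) (nat_lit 8) (nat_lit 4) (nat_lit 371)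 (nat_lit 289) (nat_lit 120)) (XT.lf (nat_lit 0) (nat_lit 144110637175) (nat_lit 152) (nat_lit 102941338877) (nat_lit 0) (nat_lit 45700827383) (nat_lit 8) (nat_lit 5) (nat_lit 10) (nat_lit 4) (nat_lit 8) (nat_lit 4) (nat_lit 372) (nat_lit 289) (nat_lit 119))) (XT.nd (nat_lit 78) (nat_lit 76) (nat_lit 0) (XT.lf (nat_lit 0) (nat_lit 176492757134) (nat_lit 152) (nat_lit 51300146041) (nat_lit 0) (nat_lit 78081775830) (nat_lit 8) (nat_lit 5) (nat_lit 10) (nat_lit 4) (nat_lit 8) (nat_lit 4) (nat_lit 373) (nat_lit 289) (nat_lit 118)) (XT.nd (nat_lit 78) (nat_lit 0) (nat_lit 0) (XT.lf (nat_lit 0) (nat_lit 3018395029) (nat_lit 76) (nat_lit 207522014639) (nat_lit 76) (nat_lit 109109917609) (nat_lit 7) (nat_lit 4) (nat_lit 8) (nat_lit 5) (nat_lit 8) (nat_lit 4) (nat_lit 374) (nat_lit 289) (nat_lit 117)) (XT.lf (nat_lit 0) (nat_lit 61832590759) (nat_lit 76) (nat_lit 185325960865) (nat_lit 76) (nat_lit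 86912801238) (nat_lit 7) (nat_lit 4) (nat_lit 8) (nat_lit 5) (nat_lit 8) (nat_lit 4) (nat_lit 375) (nat_lit 289) (nat_lit 116)))))) (XT.nd (nat_lit 390) (nat_lit 76) (nat_lit 0) (XT.nd (nat_lit 156) (nat_lit 76) (nat_lit 0) (XT.nd (nat_lit 78) (nat_lit 0) (nat_lit 0) (XT.lf (nat_lit 0) (nat_lit 123586260443) (nat_lit 76) (nat_lit 162020686901) (nat_lit 76) (nat_lit 63606515279) (nat_lit 7) (nat_lit 4) (nat_lit 8) (nat_lit 5) (nat_lit 8) (nat_lit 4) (nat_lit 376) (nat_lit 289) (nat_lit 115)) (XT.lf (nat_lit 0) (nat_lit 188426436627) (nat_lit 76) (nat_lit 137550704001) (nat_lit 76) (nat_lit 39135568572) (nat_lit 7) (nat_lit 4) (nat_lit 8) (nat_lit 5) (nat_lit 8) (nat_lit 4) (nat_lit 377) (nat_lit 289) (nat_lit 114))) (XT.nd (nat_lit 78) (nat_lit 76) (nat_lit 0) (XT.lf (nat_lit 0) (nat_lit 256507500682) (nat_lit 76) (nat_lit 111857750300) (nat_lit 76) (nat_lit 13441696961) (nat_lit 7) (nat_lit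 4) (nat_lit 8) (nat_lit 5) (nat_lit 8) (nat_lit 4) (nat_lit 378) (nat_lit 289) (nat_lit 113)) (XT.nd (nat_lit 78) (nat_lit 0) (nat_lit 0) (XT.lf (nat_lit 0) (nat_lit 13103030090) (nat_lit 152) (nat_lit 71555715854) (nat_lit 76) (nat_lit 314666614136) (nat_lit 6) (nat_lit 5) (nat_lit 8) (nat_lit 5) (nat_lit 7) (nat_lit 4) (nat_lit 379) (nat_lit 289) (nat_lit 112)) (XT.lf (nat_lit 0) (nat_lit 40522717841) (nat_lit 152) (nat_lit 15346188536) (nat_lit 76) (nat_lit 361839796165) (nat_lit 6) (nat_lit 5) (nat_lit 8) (nat_lit 5) (nat_lit 7) (nat_lit 4) (nat_lit 380) (nat_lit 289) (nat_lit 111))))) (XT.nd (nat_lit 33540) (nat_lit 0) (nat_lit 6764) (XT.nd (nat_lit 78) (nat_lit 0) (nat_lit 0) (XT.lf (nat_lit 0) (nat_lit 45116850433) (nat_lit 76) (nat_lit 24900419552) (nat_lit 152) (nat_lit 366958748314) (nat_lit 5) (nat_lit 5) (nat_lit 6) (nat_lit 5) (nat_lit 7) (nat_lit 4) (nat_lit 381) (nat_lit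 289) (nat_lit 110)) (XT.nd (nat_lit 78) (nat_lit 0) (nat_lit 0) (XT.lf (nat_lit 0) (nat_lit 101369102229) (nat_lit 152) (nat_lit 348182042403) (nat_lit 0) (nat_lit 7636427748) (nat_lit 5) (nat_lit 5) (nat_lit 7) (nat_lit 4) (nat_lit 5) (nat_lit 4) (nat_lit 382) (nat_lit 289) (nat_lit 109)) (XT.lf (nat_lit 0) (nat_lit 134696236357) (nat_lit 152) (nat_lit 302730205531) (nat_lit 0) (nat_lit 40962876918) (nat_lit 5) (nat_lit 5) (nat_lit 7) (nat_lit 4) (nat_lit 5) (nat_lit 4) (nat_lit 383) (nat_lit 289) (nat_lit 108)))) (XT.nd (nat_lit 78) (nat_lit 0) (nat_lit 0) (XT.lf (nat_lit 0) (nat_lit 3332788480) (nat_lit 0) (nat_lit 3332788480) (nat_lit 684) (nat_lit 2231740331) (nat_lit 94) (nat_lit 5) (nat_lit 94) (nat_lit 3) (nat_lit 103) (nat_lit 3) (nat_lit 290) (nat_lit 290) (nat_lit 200)) (XT.nd (nat_lit 78) (nat_lit 0) (nat_lit 0) (XT.lf (nat_lit 0) (nat_lit 13883554370) (nat_lit 684) (nat_lit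 2987011148) (nat_lit 760) (nat_lit 1357628499) (nat_lit 94) (nat_lit 5) (nat_lit 103) (nat_lit 3) (nat_lit 104) (nat_lit 5) (nat_lit 291) (nat_lit 290) (nat_lit 199)) (XT.lf (nat_lit 76) (nat_lit 5625864045) (nat_lit 0) (nat_lit 9022291787) (nat_lit 760) (nat_lit 4026068971) (nat_lit 95) (nat_lit 5) (nat_lit 94) (nat_lit 5) (nat_lit 104) (nat_lit 5) (nat_lit 292) (nat_lit 290) (nat_lit 198))))))) (XT.nd (nat_lit 780) (nat_lit 1672) (nat_lit 0) (XT.nd (nat_lit 390) (nat_lit 988) (nat_lit 0) (XT.nd (nat_lit 156) (nat_lit 0) (nat_lit 76) (XT.nd (nat_lit 78) (nat_lit 0) (nat_lit 76) (XT.lf (nat_lit 76) (nat_lit 14766134593) (nat_lit 0) (nat_lit 723400954) (nat_lit 760) (nat_lit 3651115531) (nat_lit 95) (nat_lit 5) (nat_lit 94) (nat_lit 5) (nat_lit 104) (nat_lit 5) (nat_lit 293) (nat_lit 290) (nat_lit 197)) (XT.lf (nat_lit 76) (nat_lit 4753107090) (nat_lit 0) (nat_lit 11807450156) (nat_lit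 760) (nat_lit 3060483111) (nat_lit 96) (nat_lit 5) (nat_lit 95) (nat_lit 5) (nat_lit 105) (nat_lit 5) (nat_lit 294) (nat_lit 290) (nat_lit 196))) (XT.nd (nat_lit 78) (nat_lit 0) (nat_lit 76) (XT.lf (nat_lit 76) (nat_lit 14469562653) (nat_lit 0) (nat_lit 3290360678) (nat_lit 760) (nat_lit 2361805478) (nat_lit 96) (nat_lit 5) (nat_lit 95) (nat_lit 5) (nat_lit 105) (nat_lit 5) (nat_lit 295) (nat_lit 290) (nat_lit 195)) (XT.nd (nat_lit 78) (nat_lit 0) (nat_lit 0) (XT.lf (nat_lit 76) (nat_lit 4058611026) (nat_lit 0) (nat_lit 15101884820) (nat_lit 760) (nat_lit 1479912382) (nat_lit 97) (nat_lit 5) (nat_lit 96) (nat_lit 5) (nat_lit 106) (nat_lit 5) (nat_lit 296) (nat_lit 290) (nat_lit 194)) (XT.lf (nat_lit 76) (nat_lit 14388126932) (nat_lit 0) (nat_lit 6381761970) (nat_lit 760) (nat_lit 408210692) (nat_lit 97) (nat_lit 5) (nat_lit 96) (nat_lit 5) (nat_lit 106) (nat_lit 5) (nat_lit 297) (nat_lit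 290) (nat_lit 193))))) (XT.nd (nat_lit 156) (nat_lit 456) (nat_lit 0) (XT.nd (nat_lit 78) (nat_lit 0) (nat_lit 0) (XT.lf (nat_lit 0) (nat_lit 784898777) (nat_lit 760) (nat_lit 18196487038) (nat_lit 836) (nat_lit 2756207192) (nat_lit 87) (nat_lit 5) (nat_lit 97) (nat_lit 5) (nat_lit 98) (nat_lit 5) (nat_lit 298) (nat_lit 290) (nat_lit 192)) (XT.lf (nat_lit 0) (nat_lit 2236127640) (nat_lit 760) (nat_lit 7815730681) (nat_lit 836) (nat_lit 12262274227) (nat_lit 87) (nat_lit 5) (nat_lit 97) (nat_lit 5) (nat_lit 98) (nat_lit 5) (nat_lit 299) (nat_lit 290) (nat_lit 191))) (XT.nd (nat_lit 78) (nat_lit 456) (nat_lit 0) (XT.lf (nat_lit 76) (nat_lit 3178466577) (nat_lit 0) (nat_lit 622206471) (nat_lit 836) (nat_lit 19116802717) (nat_lit 88) (nat_lit 5) (nat_lit 87) (nat_lit 5) (nat_lit 98) (nat_lit 5) (nat_lit 300) (nat_lit 290) (nat_lit 190)) (XT.nd (nat_lit 78) (nat_lit 532) (nat_lit 0) (XT.lf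 (nat_lit 0) (nat_lit 5714310087) (nat_lit 760) (nat_lit 8705362077) (nat_lit 76) (nat_lit 9117784532) (nat_lit 88) (nat_lit 5) (nat_lit 98) (nat_lit 5) (nat_lit 89) (nat_lit 5) (nat_lit 301) (nat_lit 290) (nat_lit 189)) (XT.lf (nat_lit 0) (nat_lit 2957106146) (nat_lit 532) (nat_lit 4814759479) (nat_lit 608) (nat_lit 16414172328) (nat_lit 81) (nat_lit 5) (nat_lit 88) (nat_lit 5) (nat_lit 89) (nat_lit 5) (nat_lit 302) (nat_lit 290) (nat_lit 188)))))) (XT.nd (nat_lit 390) (nat_lit 988) (nat_lit 0) (XT.nd (nat_lit 156) (nat_lit 304) (nat_lit 0) (XT.nd (nat_lit 78) (nat_lit 380) (nat_lit 0) (XT.lf (nat_lit 0) (nat_lit 10156584294) (nat_lit 608) (nat_lit 9447055998) (nat_lit 76) (nat_lit 5252206200) (nat_lit 81) (nat_lit 5) (nat_lit 89) (nat_lit 5) (nat_lit 82) (nat_lit 5) (nat_lit 303) (nat_lit 290) (nat_lit 187)) (XT.lf (nat_lit 0) (nat_lit 2931568844) (nat_lit 380) (nat_lit 9846197455)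 (nat_lit 456) (nat_lit 12775529681) (nat_lit 76) (nat_lit 5) (nat_lit 81) (nat_lit 5) (nat_lit 82) (nat_lit 5) (nat_lit 304) (nat_lit 290) (nat_lit 186))) (XT.nd (nat_lit 78) (nat_lit 304) (nat_lit 0) (XT.lf (nat_lit 0) (nat_lit 15691625130) (nat_lit 456) (nat_lit 10036867494) (nat_lit 76) (nat_lit 549055762) (nat_lit 76) (nat_lit 5) (nat_lit 82) (nat_lit 5) (nat_lit 77) (nat_lit 5) (nat_lit 305) (nat_lit 290) (nat_lit 185)) (XT.nd (nat_lit 78) (nat_lit 0) (nat_lit 0) (XT.lf (nat_lit 0) (nat_lit 3108159411) (nat_lit 304) (nat_lit 15846074900) (nat_lit 380) (nat_lit 8073637017) (nat_lit 72) (nat_lit 5) (nat_lit 76) (nat_lit 5) (nat_lit 77) (nat_lit 5) (nat_lit 306) (nat_lit 290) (nat_lit 184)) (XT.lf (nat_lit 0) (nat_lit 17251867091) (nat_lit 304) (nat_lit 5291421349) (nat_lit 380) (nat_lit 5264266527) (nat_lit 72) (nat_lit 5) (nat_lit 76) (nat_lit 5) (nat_lit 77) (nat_lit 5) (nat_lit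 307) (nat_lit 290) (nat_lit 183))))) (XT.nd (nat_lit 234) (nat_lit 304) (nat_lit 0) (XT.nd (nat_lit 78) (nat_lit 380) (nat_lit 0) (XT.lf (nat_lit 0) (nat_lit 3490837751) (nat_lit 304) (nat_lit 22959519725) (nat_lit 380) (nat_lit 2168946986) (nat_lit 68) (nat_lit 5) (nat_lit 72) (nat_lit 5) (nat_lit 73) (nat_lit 5) (nat_lit 308) (nat_lit 290) (nat_lit 182)) (XT.nd (nat_lit 78) (nat_lit 304) (nat_lit 0) (XT.lf (nat_lit 0) (nat_lit 1308708255) (nat_lit 380) (nat_lit 10970216650) (nat_lit 76) (nat_lit 17178772776) (nat_lit 67) (nat_lit 5) (nat_lit 72) (nat_lit 5) (nat_lit 68) (nat_lit 5) (nat_lit 309) (nat_lit 290) (nat_lit 181)) (XT.lf (nat_lit 0) (nat_lit 3981028110) (nat_lit 304) (nat_lit 962512820) (nat_lit 380) (nat_lit 25389890983) (nat_lit 63) (nat_lit 5) (nat_lit 67) (nat_lit 5) (nat_lit 68) (nat_lit 5) (nat_lit 310) (nat_lit 290) (nat_lit 180)))) (XT.nd (nat_lit 78) (nat_lit 304)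 (nat_lit 0) (XT.lf (nat_lit 0) (nat_lit 9113631156) (nat_lit 380) (nat_lit 11363453893) (nat_lit 76) (nat_lit 10758200061) (nat_lit 63) (nat_lit 5) (nat_lit 68) (nat_lit 5) (nat_lit 64) (nat_lit 5) (nat_lit 311) (nat_lit 290) (nat_lit 179)) (XT.nd (nat_lit 78) (nat_lit 0) (nat_lit 0) (XT.lf (nat_lit 0) (nat_lit 4496456945) (nat_lit 304) (nat_lit 9076223370) (nat_lit 380) (nat_lit 18605535599) (nat_lit 59) (nat_lit 5) (nat_lit 63) (nat_lit 5) (nat_lit 64) (nat_lit 5) (nat_lit 312) (nat_lit 290) (nat_lit 178)) (XT.lf (nat_lit 0) (nat_lit 18490093180) (nat_lit 380) (nat_lit 11669916296) (nat_lit 76) (nat_lit 2996520520) (nat_lit 59) (nat_lit 5) (nat_lit 64) (nat_lit 5) (nat_lit 60) (nat_lit 5) (nat_lit 313) (nat_lit 290) (nat_lit 177))))))))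
noncomputable def xc188 : XT := (XT.nd (nat_lit 1560) (nat_lit 1216) (nat_lit 0) (XT.nd (nat_lit 780) (nat_lit 912) (nat_lit 0) (XT.nd (nat_lit 390) (nat_lit 456) (nat_lit 0) (XT.nd (nat_lit 156) (nat_lit 532) (nat_lit 0) (XT.nd (nat_lit 78) (nat_lit 0) (nat_lit 0) (XT.lf (nat_lit 0) (nat_lit 5152179238) (nat_lit 228) (nat_lit 18725301023) (nat_lit 304) (nat_lit 10295081295) (nat_lit 56) (nat_lit 5) (nat_lit 59) (nat_lit 5) (nat_lit 60) (nat_lit 5) (nat_lit 314) (nat_lit 290) (nat_lit 176)) (XT.lf (nat_lit 0) (nat_lit 23214186098) (nat_lit 228) (nat_lit 6512704399) (nat_lit 304) (nat_lit 5502878131) (nat_lit 56) (nat_lit 5) (nat_lit 59) (nat_lit 5) (nat_lit 60) (nat_lit 5) (nat_lit 315) (nat_lit 290) (nat_lit 175))) (XT.nd (nat_lit 78) (nat_lit 304) (nat_lit 0) (XT.lf (nat_lit 0) (nat_lit 5924278601) (nat_lit 228) (nat_lit 30130747232) (nat_lit 304) (nat_lit 275503799) (nat_lit 53) (nat_lit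 5) (nat_lit 56) (nat_lit 5) (nat_lit 57) (nat_lit 5) (nat_lit 316) (nat_lit 290) (nat_lit 174)) (XT.nd (nat_lit 78) (nat_lit 228) (nat_lit 0) (XT.lf (nat_lit 0) (nat_lit 5355258181) (nat_lit 304) (nat_lit 12495690522) (nat_lit 76) (nat_lit 19615872281) (nat_lit 52) (nat_lit 5) (nat_lit 56) (nat_lit 5) (nat_lit 53) (nat_lit 5) (nat_lit 317) (nat_lit 290) (nat_lit 173)) (XT.lf (nat_lit 0) (nat_lit 6508156356) (nat_lit 228) (nat_lit 4847262206) (nat_lit 304) (nat_lit 27299432018) (nat_lit 49) (nat_lit 5) (nat_lit 52) (nat_lit 5) (nat_lit 53) (nat_lit 5) (nat_lit 318) (nat_lit 290) (nat_lit 172))))) (XT.nd (nat_lit 156) (nat_lit 228) (nat_lit 0) (XT.nd (nat_lit 78) (nat_lit 228) (nat_lit 0) (XT.lf (nat_lit 0) (nat_lit 18003777991) (nat_lit 304) (nat_lit 13142776911) (nat_lit 76) (nat_lit 8738322390) (nat_lit 49) (nat_lit 5) (nat_lit 53) (nat_lit 5) (nat_lit 50) (nat_lit 5) (nat_lit 319)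 (nat_lit 290) (nat_lit 171)) (XT.lf (nat_lit 0) (nat_lit 6948428936) (nat_lit 228) (nat_lit 18219888915) (nat_lit 304) (nat_lit 15998904307) (nat_lit 46) (nat_lit 5) (nat_lit 49) (nat_lit 5) (nat_lit 50) (nat_lit 5) (nat_lit 320) (nat_lit 290) (nat_lit 170))) (XT.nd (nat_lit 78) (nat_lit 228) (nat_lit 0) (XT.lf (nat_lit 0) (nat_lit 28494739626) (nat_lit 228) (nat_lit 4414848700) (nat_lit 304) (nat_lit 9593175469) (nat_lit 46) (nat_lit 5) (nat_lit 49) (nat_lit 5) (nat_lit 50) (nat_lit 5) (nat_lit 321) (nat_lit 290) (nat_lit 169)) (XT.nd (nat_lit 78) (nat_lit 76) (nat_lit 0) (XT.lf (nat_lit 0) (nat_lit 7283369386) (nat_lit 152) (nat_lit 34021744340) (nat_lit 228) (nat_lit 2586613699) (nat_lit 44) (nat_lit 5) (nat_lit 46) (nat_lit 5) (nat_lit 47) (nat_lit 5) (nat_lit 322) (nat_lit 290) (nat_lit 168)) (XT.lf (nat_lit 0) (nat_lit 4927220236) (nat_lit 228) (nat_lit 15369043430) (nat_lit 76)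 (nat_lit 25034674632) (nat_lit 43) (nat_lit 5) (nat_lit 46) (nat_lit 5) (nat_lit 44) (nat_lit 5) (nat_lit 323) (nat_lit 290) (nat_lit 167)))))) (XT.nd (nat_lit 390) (nat_lit 380) (nat_lit 0) (XT.nd (nat_lit 156) (nat_lit 304) (nat_lit 0) (XT.nd (nat_lit 78) (nat_lit 0) (nat_lit 0) (XT.lf (nat_lit 0) (nat_lit 7112049692) (nat_lit 228) (nat_lit 5725118888) (nat_lit 304) (nat_lit 33997457337) (nat_lit 40) (nat_lit 5) (nat_lit 43) (nat_lit 5) (nat_lit 44) (nat_lit 5) (nat_lit 324) (nat_lit 290) (nat_lit 166)) (XT.lf (nat_lit 0) (nat_lit 21553025899) (nat_lit 304) (nat_lit 17308943763) (nat_lit 76) (nat_lit 9531011365) (nat_lit 40) (nat_lit 5) (nat_lit 44) (nat_lit 5) (nat_lit 41) (nat_lit 5) (nat_lit 325) (nat_lit 290) (nat_lit 165))) (XT.nd (nat_lit 78) (nat_lit 152) (nat_lit 0) (XT.lf (nat_lit 0) (nat_lit 6328857040) (nat_lit 152) (nat_lit 24565033571) (nat_lit 228) (nat_lit 19125906066)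 (nat_lit 38) (nat_lit 5) (nat_lit 40) (nat_lit 5) (nat_lit 41) (nat_lit 5) (nat_lit 326) (nat_lit 290) (nat_lit 164)) (XT.nd (nat_lit 78) (nat_lit 152) (nat_lit 0) (XT.lf (nat_lit 0) (nat_lit 31744337727) (nat_lit 152) (nat_lit 9247229221) (nat_lit 228) (nat_lit 10721901088) (nat_lit 38) (nat_lit 5) (nat_lit 40) (nat_lit 5) (nat_lit 41) (nat_lit 5) (nat_lit 327) (nat_lit 290) (nat_lit 163)) (XT.lf (nat_lit 0) (nat_lit 4986605478) (nat_lit 152) (nat_lit 46788879948) (nat_lit 228) (nat_lit 1707272807) (nat_lit 36) (nat_lit 5) (nat_lit 38) (nat_lit 5) (nat_lit 39) (nat_lit 5) (nat_lit 328) (nat_lit 290) (nat_lit 162))))) (XT.nd (nat_lit 156) (nat_lit 152) (nat_lit 0) (XT.nd (nat_lit 78) (nat_lit 152) (nat_lit 0) (XT.lf (nat_lit 0) (nat_lit 8001893566) (nat_lit 228) (nat_lit 23723513941) (nat_lit 76) (nat_lit 23584446353) (nat_lit 35) (nat_lit 5) (nat_lit 38) (nat_lit 5) (nat_lit 36) (nat_lit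 5) (nat_lit 329) (nat_lit 290) (nat_lit 161)) (XT.lf (nat_lit 0) (nat_lit 2329510410) (nat_lit 152) (nat_lit 15842944430) (nat_lit 228) (nat_lit 39052787167) (nat_lit 33) (nat_lit 5) (nat_lit 35) (nat_lit 5) (nat_lit 36) (nat_lit 5) (nat_lit 330) (nat_lit 290) (nat_lit 160))) (XT.nd (nat_lit 78) (nat_lit 152) (nat_lit 0) (XT.lf (nat_lit 0) (nat_lit 29269901444) (nat_lit 228) (nat_lit 28731964235) (nat_lit 76) (nat_lit 1213618641) (nat_lit 33) (nat_lit 5) (nat_lit 36) (nat_lit 5) (nat_lit 34) (nat_lit 5) (nat_lit 331) (nat_lit 290) (nat_lit 159)) (XT.nd (nat_lit 78) (nat_lit 152) (nat_lit 0) (XT.lf (nat_lit 0) (nat_lit 41179070503) (nat_lit 228) (nat_lit 1524361363) (nat_lit 76) (nat_lit 18588966873) (nat_lit 33) (nat_lit 5) (nat_lit 36) (nat_lit 5) (nat_lit 34) (nat_lit 5) (nat_lit 332) (nat_lit 290) (nat_lit 158)) (XT.lf (nat_lit 0) (nat_lit 27933248176) (nat_lit 152) (nat_lit 26183832531)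 (nat_lit 228) (nat_lit 9334411414) (nat_lit 31) (nat_lit 5) (nat_lit 33) (nat_lit 5) (nat_lit 34) (nat_lit 5) (nat_lit 333) (nat_lit 290) (nat_lit 157))))))) (XT.nd (nat_lit 780) (nat_lit 532) (nat_lit 0) (XT.nd (nat_lit 390) (nat_lit 304) (nat_lit 0) (XT.nd (nat_lit 156) (nat_lit 152) (nat_lit 0) (XT.nd (nat_lit 78) (nat_lit 152) (nat_lit 0) (XT.lf (nat_lit 0) (nat_lit 1943490253) (nat_lit 228) (nat_lit 6836411952) (nat_lit 76) (nat_lit 56935915671) (nat_lit 30) (nat_lit 5) (nat_lit 33) (nat_lit 5) (nat_lit 31) (nat_lit 5) (nat_lit 334) (nat_lit 290) (nat_lit 156)) (XT.lf (nat_lit 0) (nat_lit 13998769861) (nat_lit 228) (nat_lit 44337228056) (nat_lit 76) (nat_lit 9723353882) (nat_lit 28) (nat_lit 5) (nat_lit 31) (nat_lit 5) (nat_lit 29) (nat_lit 5) (nat_lit 335) (nat_lit 290) (nat_lit 155))) (XT.nd (nat_lit 78) (nat_lit 152) (nat_lit 0) (XT.lf (nat_lit 0) (nat_lit 26915867453) (nat_lit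 228) (nat_lit 14618429934) (nat_lit 76) (nat_lit 28972814287) (nat_lit 28) (nat_lit 5) (nat_lit 31) (nat_lit 5) (nat_lit 29) (nat_lit 5) (nat_lit 336) (nat_lit 290) (nat_lit 154)) (XT.nd (nat_lit 78) (nat_lit 0) (nat_lit 0) (XT.lf (nat_lit 0) (nat_lit 17130538398) (nat_lit 152) (nat_lit 23613304130) (nat_lit 228) (nat_lit 32320167749) (nat_lit 26) (nat_lit 5) (nat_lit 28) (nat_lit 5) (nat_lit 29) (nat_lit 5) (nat_lit 337) (nat_lit 290) (nat_lit 153)) (XT.lf (nat_lit 0) (nat_lit 50970485506) (nat_lit 152) (nat_lit 4537921517) (nat_lit 228) (nat_lit 20228089026) (nat_lit 26) (nat_lit 5) (nat_lit 28) (nat_lit 5) (nat_lit 29) (nat_lit 5) (nat_lit 338) (nat_lit 290) (nat_lit 152))))) (XT.nd (nat_lit 156) (nat_lit 152) (nat_lit 0) (XT.nd (nat_lit 78) (nat_lit 76) (nat_lit 0) (XT.lf (nat_lit 0) (nat_lit 7969134755) (nat_lit 76) (nat_lit 63406056900) (nat_lit 152) (nat_lit 7149216548) (nat_lit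 25) (nat_lit 5) (nat_lit 26) (nat_lit 5) (nat_lit 27) (nat_lit 4) (nat_lit 339) (nat_lit 290) (nat_lit 151)) (XT.lf (nat_lit 0) (nat_lit 6871296469) (nat_lit 152) (nat_lit 38417847689) (nat_lit 76) (nat_lit 36132513258) (nat_lit 24) (nat_lit 5) (nat_lit 26) (nat_lit 5) (nat_lit 25) (nat_lit 5) (nat_lit 340) (nat_lit 290) (nat_lit 150))) (XT.nd (nat_lit 78) (nat_lit 152) (nat_lit 0) (XT.lf (nat_lit 0) (nat_lit 21350403991) (nat_lit 152) (nat_lit 4794468836) (nat_lit 76) (nat_lit 58313146237) (nat_lit 24) (nat_lit 5) (nat_lit 26) (nat_lit 5) (nat_lit 25) (nat_lit 5) (nat_lit 341) (nat_lit 290) (nat_lit 149)) (XT.nd (nat_lit 78) (nat_lit 0) (nat_lit 0) (XT.lf (nat_lit 0) (nat_lit 31515222000) (nat_lit 152) (nat_lit 5528218596) (nat_lit 228) (nat_lit 50578260902) (nat_lit 22) (nat_lit 5) (nat_lit 24) (nat_lit 5) (nat_lit 25) (nat_lit 5) (nat_lit 342) (nat_lit 290) (nat_lit 148)) (XT.lf (nat_lit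 0) (nat_lit 53853277743) (nat_lit 228) (nat_lit 21389219205) (nat_lit 76) (nat_lit 15684464995) (nat_lit 22) (nat_lit 5) (nat_lit 25) (nat_lit 5) (nat_lit 23) (nat_lit 4) (nat_lit 343) (nat_lit 290) (nat_lit 147)))))) (XT.nd (nat_lit 390) (nat_lit 228) (nat_lit 0) (XT.nd (nat_lit 156) (nat_lit 228) (nat_lit 0) (XT.nd (nat_lit 78) (nat_lit 0) (nat_lit 0) (XT.lf (nat_lit 0) (nat_lit 15464855774) (nat_lit 76) (nat_lit 56368878688) (nat_lit 152) (nat_lit 22547245822) (nat_lit 21) (nat_lit 5) (nat_lit 22) (nat_lit 5) (nat_lit 23) (nat_lit 4) (nat_lit 344) (nat_lit 290) (nat_lit 146)) (XT.lf (nat_lit 0) (nat_lit 54900880875) (nat_lit 76) (nat_lit 36172662021) (nat_lit 152) (nat_lit 6916141405) (nat_lit 21) (nat_lit 5) (nat_lit 22) (nat_lit 5) (nat_lit 23) (nat_lit 4) (nat_lit 345) (nat_lit 290) (nat_lit 145))) (XT.nd (nat_lit 78) (nat_lit 152) (nat_lit 0) (XT.lf (nat_lit 0) (nat_lit 9190722400)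 (nat_lit 152) (nat_lit 5621625760) (nat_lit 76) (nat_lit 86959155479) (nat_lit 20) (nat_lit 5) (nat_lit 22) (nat_lit 5) (nat_lit 21) (nat_lit 5) (nat_lit 346) (nat_lit 290) (nat_lit 144)) (XT.nd (nat_lit 78) (nat_lit 0) (nat_lit 0) (XT.lf (nat_lit 0) (nat_lit 26540346239) (nat_lit 228) (nat_lit 71125872723) (nat_lit 76) (nat_lit 8037034826) (nat_lit 18) (nat_lit 5) (nat_lit 21) (nat_lit 5) (nat_lit 19) (nat_lit 4) (nat_lit 347) (nat_lit 290) (nat_lit 143)) (XT.lf (nat_lit 0) (nat_lit 45095298247) (nat_lit 228) (nat_lit 33092813586) (nat_lit 76) (nat_lit 31626588249) (nat_lit 18) (nat_lit 5) (nat_lit 21) (nat_lit 5) (nat_lit 19) (nat_lit 4) (nat_lit 348) (nat_lit 290) (nat_lit 142))))) (XT.nd (nat_lit 234) (nat_lit 152) (nat_lit 0) (XT.nd (nat_lit 78) (nat_lit 0) (nat_lit 0) (XT.lf (nat_lit 0) (nat_lit 7065067985) (nat_lit 76) (nat_lit 57621574340) (nat_lit 152) (nat_lit 49439645083)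 (nat_lit 17) (nat_lit 5) (nat_lit 18) (nat_lit 5) (nat_lit 19) (nat_lit 4) (nat_lit 349) (nat_lit 290) (nat_lit 141)) (XT.nd (nat_lit 78) (nat_lit 0) (nat_lit 0) (XT.lf (nat_lit 0) (nat_lit 50376842270) (nat_lit 76) (nat_lit 35439526786) (nat_lit 152) (nat_lit 32809145168) (nat_lit 17) (nat_lit 5) (nat_lit 18) (nat_lit 5) (nat_lit 19) (nat_lit 4) (nat_lit 350) (nat_lit 290) (nat_lit 140)) (XT.lf (nat_lit 0) (nat_lit 95851434670) (nat_lit 76) (nat_lit 12149597584) (nat_lit 152) (nat_lit 15348748473) (nat_lit 17) (nat_lit 5) (nat_lit 18) (nat_lit 5) (nat_lit 19) (nat_lit 4) (nat_lit 351) (nat_lit 290) (nat_lit 139)))) (XT.nd (nat_lit 78) (nat_lit 0) (nat_lit 0) (XT.lf (nat_lit 0) (nat_lit 3330336685) (nat_lit 152) (nat_lit 112748485696) (nat_lit 76) (nat_lit 12207049165) (nat_lit 15) (nat_lit 5) (nat_lit 17) (nat_lit 5) (nat_lit 16) (nat_lit 4) (nat_lit 352) (nat_lit 290) (nat_lit 138))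 (XT.nd (nat_lit 78) (nat_lit 0) (nat_lit 0) (XT.lf (nat_lit 0) (nat_lit 23098574202) (nat_lit 152) (nat_lit 72227025765) (nat_lit 76) (nat_lit 38097035899) (nat_lit 15) (nat_lit 5) (nat_lit 17) (nat_lit 5) (nat_lit 16) (nat_lit 4) (nat_lit 353) (nat_lit 290) (nat_lit 137)) (XT.lf (nat_lit 0) (nat_lit 43853805289) (nat_lit 152) (nat_lit 29682065826) (nat_lit 76) (nat_lit 65280438905) (nat_lit 15) (nat_lit 5) (nat_lit 17) (nat_lit 5) (nat_lit 16) (nat_lit 4) (nat_lit 354) (nat_lit 290) (nat_lit 136))))))))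
noncomputable def xc189 : XT := (XT.nd (nat_lit 1638) (nat_lit 152) (nat_lit 0) (XT.nd (nat_lit 780) (nat_lit 304) (nat_lit 0) (XT.nd (nat_lit 390) (nat_lit 152) (nat_lit 0) (XT.nd (nat_lit 156) (nat_lit 76) (nat_lit 0) (XT.nd (nat_lit 78) (nat_lit 0) (nat_lit 0) (XT.lf (nat_lit 0) (nat_lit 15483252417) (nat_lit 76) (nat_lit 50403931707) (nat_lit 152) (nat_lit 78580465115) (nat_lit 14) (nat_lit 5) (nat_lit 15) (nat_lit 5) (nat_lit 16) (nat_lit 4) (nat_lit 355) (nat_lit 290) (nat_lit 135)) (XT.lf (nat_lit 0) (nat_lit 63934919934) (nat_lit 76) (nat_lit 25588668030) (nat_lit 152) (nat_lit 60852900291) (nat_lit 14) (nat_lit 5) (nat_lit 15) (nat_lit 5) (nat_lit 16) (nat_lit 4) (nat_lit 356) (nat_lit 290) (nat_lit 134))) (XT.nd (nat_lit 78) (nat_lit 76) (nat_lit 0) (XT.lf (nat_lit 0) (nat_lit 114347831581) (nat_lit 152) (nat_lit 41781238806) (nat_lit 0) (nat_lit 451398460) (nat_lit 14) (nat_lit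 5) (nat_lit 16) (nat_lit 4) (nat_lit 14) (nat_lit 4) (nat_lit 357) (nat_lit 290) (nat_lit 133)) (XT.nd (nat_lit 78) (nat_lit 0) (nat_lit 0) (XT.lf (nat_lit 0) (nat_lit 4845474228) (nat_lit 76) (nat_lit 136061734567) (nat_lit 76) (nat_lit 22162744182) (nat_lit 13) (nat_lit 4) (nat_lit 14) (nat_lit 5) (nat_lit 14) (nat_lit 4) (nat_lit 358) (nat_lit 290) (nat_lit 132)) (XT.lf (nat_lit 0) (nat_lit 55251877151) (nat_lit 76) (nat_lit 114249070474) (nat_lit 76) (nat_lit 347644599) (nat_lit 13) (nat_lit 4) (nat_lit 14) (nat_lit 5) (nat_lit 14) (nat_lit 4) (nat_lit 359) (nat_lit 290) (nat_lit 131))))) (XT.nd (nat_lit 156) (nat_lit 76) (nat_lit 0) (XT.nd (nat_lit 78) (nat_lit 0) (nat_lit 0) (XT.lf (nat_lit 0) (nat_lit 21835051293) (nat_lit 152) (nat_lit 69141890237) (nat_lit 76) (nat_lit 85971670313) (nat_lit 12) (nat_lit 5) (nat_lit 14) (nat_lit 5) (nat_lit 13) (nat_lit 4) (nat_lit 360) (nat_lit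 290) (nat_lit 130)) (XT.lf (nat_lit 0) (nat_lit 45114098773) (nat_lit 152) (nat_lit 21422051964) (nat_lit 76) (nat_lit 117867252229) (nat_lit 12) (nat_lit 5) (nat_lit 14) (nat_lit 5) (nat_lit 13) (nat_lit 4) (nat_lit 361) (nat_lit 290) (nat_lit 129))) (XT.nd (nat_lit 78) (nat_lit 0) (nat_lit 0) (XT.lf (nat_lit 0) (nat_lit 29630197480) (nat_lit 76) (nat_lit 40388463884) (nat_lit 152) (nat_lit 122189194598) (nat_lit 11) (nat_lit 5) (nat_lit 12) (nat_lit 5) (nat_lit 13) (nat_lit 4) (nat_lit 362) (nat_lit 290) (nat_lit 128)) (XT.nd (nat_lit 78) (nat_lit 0) (nat_lit 0) (XT.lf (nat_lit 0) (nat_lit 83976883724) (nat_lit 76) (nat_lit 12553333702) (nat_lit 152) (nat_lit 103854226344) (nat_lit 11) (nat_lit 5) (nat_lit 12) (nat_lit 5) (nat_lit 13) (nat_lit 4) (nat_lit 363) (nat_lit 290) (nat_lit 127)) (XT.lf (nat_lit 0) (nat_lit 124626680648) (nat_lit 152) (nat_lit 68191124351) (nat_lit 0) (nat_lit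 16139089914) (nat_lit 11) (nat_lit 5) (nat_lit 13) (nat_lit 4) (nat_lit 11) (nat_lit 4) (nat_lit 364) (nat_lit 290) (nat_lit 126)))))) (XT.nd (nat_lit 390) (nat_lit 152) (nat_lit 0) (XT.nd (nat_lit 156) (nat_lit 76) (nat_lit 0) (XT.nd (nat_lit 78) (nat_lit 76) (nat_lit 0) (XT.lf (nat_lit 0) (nat_lit 154332815067) (nat_lit 152) (nat_lit 17771418058) (nat_lit 0) (nat_lit 45843493476) (nat_lit 11) (nat_lit 5) (nat_lit 13) (nat_lit 4) (nat_lit 11) (nat_lit 4) (nat_lit 365) (nat_lit 290) (nat_lit 125)) (XT.lf (nat_lit 0) (nat_lit 36330398100) (nat_lit 76) (nat_lit 149760178087) (nat_lit 76) (nat_lit 41269208060) (nat_lit 10) (nat_lit 4) (nat_lit 11) (nat_lit 5) (nat_lit 11) (nat_lit 4) (nat_lit 366) (nat_lit 290) (nat_lit 124))) (XT.nd (nat_lit 78) (nat_lit 76) (nat_lit 0) (XT.lf (nat_lit 0) (nat_lit 93752640513) (nat_lit 76) (nat_lit 125983670158) (nat_lit 76) (nat_lit 17491130193) (nat_lit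 10) (nat_lit 4) (nat_lit 11) (nat_lit 5) (nat_lit 11) (nat_lit 4) (nat_lit 367) (nat_lit 290) (nat_lit 123)) (XT.nd (nat_lit 78) (nat_lit 0) (nat_lit 0) (XT.lf (nat_lit 0) (nat_lit 7235723283) (nat_lit 152) (nat_lit 93660802412) (nat_lit 76) (nat_lit 146686161707) (nat_lit 9) (nat_lit 5) (nat_lit 11) (nat_lit 5) (nat_lit 10) (nat_lit 4) (nat_lit 368) (nat_lit 290) (nat_lit 122)) (XT.lf (nat_lit 0) (nat_lit 32610289103) (nat_lit 152) (nat_lit 41644366461) (nat_lit 76) (nat_lit 184186744699) (nat_lit 9) (nat_lit 5) (nat_lit 11) (nat_lit 5) (nat_lit 10) (nat_lit 4) (nat_lit 369) (nat_lit 290) (nat_lit 121))))) (XT.nd (nat_lit 234) (nat_lit 76) (nat_lit 0) (XT.nd (nat_lit 78) (nat_lit 0) (nat_lit 0) (XT.lf (nat_lit 0) (nat_lit 13400336159) (nat_lit 76) (nat_lit 46061688940) (nat_lit 152) (nat_lit 210370601866) (nat_lit 8) (nat_lit 5) (nat_lit 9) (nat_lit 5) (nat_lit 10) (nat_lit 4) (nat_lit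 370) (nat_lit 290) (nat_lit 120)) (XT.nd (nat_lit 78) (nat_lit 0) (nat_lit 0) (XT.lf (nat_lit 0) (nat_lit 72641646091) (nat_lit 76) (nat_lit 15719209020) (nat_lit 152) (nat_lit 193397334809) (nat_lit 8) (nat_lit 5) (nat_lit 9) (nat_lit 5) (nat_lit 10) (nat_lit 4) (nat_lit 371) (nat_lit 290) (nat_lit 119)) (XT.lf (nat_lit 0) (nat_lit 118955889442) (nat_lit 152) (nat_lit 159688391144) (nat_lit 0) (nat_lit 15623187560) (nat_lit 8) (nat_lit 5) (nat_lit 10) (nat_lit 4) (nat_lit 8) (nat_lit 4) (nat_lit 372) (nat_lit 290) (nat_lit 118)))) (XT.nd (nat_lit 78) (nat_lit 76) (nat_lit 0) (XT.lf (nat_lit 0) (nat_lit 151337668411) (nat_lit 152) (nat_lit 108047841673) (nat_lit 0) (nat_lit 48003850803) (nat_lit 8) (nat_lit 5) (nat_lit 10) (nat_lit 4) (nat_lit 8) (nat_lit 4) (nat_lit 373) (nat_lit 290) (nat_lit 117)) (XT.nd (nat_lit 78) (nat_lit 76) (nat_lit 0) (XT.lf (nat_lit 0) (nat_lit 185337870588)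 (nat_lit 152) (nat_lit 53826520822) (nat_lit 0) (nat_lit 82002990384) (nat_lit 8) (nat_lit 5) (nat_lit 10) (nat_lit 4) (nat_lit 8) (nat_lit 4) (nat_lit 374) (nat_lit 290) (nat_lit 116)) (XT.lf (nat_lit 0) (nat_lit 3207324196) (nat_lit 76) (nat_lit 217880199958) (nat_lit 76) (nat_lit 114544307758) (nat_lit 7) (nat_lit 4) (nat_lit 8) (nat_lit 5) (nat_lit 8) (nat_lit 4) (nat_lit 375) (nat_lit 290) (nat_lit 115))))))) (XT.nd (nat_lit 34164) (nat_lit 0) (nat_lit 5776) (XT.nd (nat_lit 390) (nat_lit 76) (nat_lit 0) (XT.nd (nat_lit 156) (nat_lit 76) (nat_lit 0) (XT.nd (nat_lit 78) (nat_lit 0) (nat_lit 0) (XT.lf (nat_lit 0) (nat_lit 64960419741) (nat_lit 76) (nat_lit 194575196610) (nat_lit 76) (nat_lit 91238340603) (nat_lit 7) (nat_lit 4) (nat_lit 8) (nat_lit 5) (nat_lit 8) (nat_lit 4) (nat_lit 376) (nat_lit 290) (nat_lit 114)) (XT.lf (nat_lit 0) (nat_lit 129800049126) (nat_lit 76) (nat_lit 170105471438)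 (nat_lit 76) (nat_lit 66767697522) (nat_lit 7) (nat_lit 4) (nat_lit 8) (nat_lit 5) (nat_lit 8) (nat_lit 4) (nat_lit 377) (nat_lit 290) (nat_lit 113))) (XT.nd (nat_lit 78) (nat_lit 76) (nat_lit 0) (XT.lf (nat_lit 0) (nat_lit 197880592421) (nat_lit 76) (nat_lit 144412763194) (nat_lit 76) (nat_lit 41074115076) (nat_lit 7) (nat_lit 4) (nat_lit 8) (nat_lit 5) (nat_lit 8) (nat_lit 4) (nat_lit 378) (nat_lit 290) (nat_lit 112)) (XT.nd (nat_lit 78) (nat_lit 76) (nat_lit 0) (XT.lf (nat_lit 0) (nat_lit 269364146157) (nat_lit 76) (nat_lit 117435898760) (nat_lit 76) (nat_lit 14096418071) (nat_lit 7) (nat_lit 4) (nat_lit 8) (nat_lit 5) (nat_lit 8) (nat_lit 4) (nat_lit 379) (nat_lit 290) (nat_lit 111)) (XT.lf (nat_lit 0) (nat_lit 13774189203) (nat_lit 152) (nat_lit 75103185746) (nat_lit 76) (nat_lit 330413447509) (nat_lit 6) (nat_lit 5) (nat_lit 8) (nat_lit 5) (nat_lit 7) (nat_lit 4) (nat_lit 380)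 (nat_lit 290) (nat_lit 110))))) (XT.nd (nat_lit 156) (nat_lit 0) (nat_lit 0) (XT.nd (nat_lit 78) (nat_lit 76) (nat_lit 0) (XT.lf (nat_lit 0) (nat_lit 42564099075) (nat_lit 152) (nat_lit 16084625676) (nat_lit 76) (nat_lit 379944645656) (nat_lit 6) (nat_lit 5) (nat_lit 8) (nat_lit 5) (nat_lit 7) (nat_lit 4) (nat_lit 381) (nat_lit 290) (nat_lit 109)) (XT.lf (nat_lit 0) (nat_lit 47401099560) (nat_lit 76) (nat_lit 26131996805) (nat_lit 152) (nat_lit 385290969948) (nat_lit 5) (nat_lit 5) (nat_lit 6) (nat_lit 5) (nat_lit 7) (nat_lit 4) (nat_lit 382) (nat_lit 290) (nat_lit 108))) (XT.nd (nat_lit 33462) (nat_lit 0) (nat_lit 6764) (XT.lf (nat_lit 0) (nat_lit 106452007601) (nat_lit 152) (nat_lit 365563573465) (nat_lit 0) (nat_lit 8030642889) (nat_lit 5) (nat_lit 5) (nat_lit 7) (nat_lit 4) (nat_lit 5) (nat_lit 4) (nat_lit 383) (nat_lit 290) (nat_lit 107)) (XT.nd (nat_lit 78) (nat_lit 0) (nat_lit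 0) (XT.lf (nat_lit 0) (nat_lit 3596500475) (nat_lit 0) (nat_lit 3596500475) (nat_lit 684) (nat_lit 2139130069) (nat_lit 94) (nat_lit 5) (nat_lit 94) (nat_lit 3) (nat_lit 103) (nat_lit 3) (nat_lit 291) (nat_lit 291) (nat_lit 198)) (XT.lf (nat_lit 0) (nat_lit 14944645553) (nat_lit 684) (nat_lit 2929427836) (nat_lit 760) (nat_lit 1246527747) (nat_lit 94) (nat_lit 5) (nat_lit 103) (nat_lit 3) (nat_lit 104) (nat_lit 5) (nat_lit 292) (nat_lit 291) (nat_lit 197)))))) (XT.nd (nat_lit 390) (nat_lit 988) (nat_lit 0) (XT.nd (nat_lit 156) (nat_lit 0) (nat_lit 76) (XT.nd (nat_lit 78) (nat_lit 0) (nat_lit 0) (XT.lf (nat_lit 76) (nat_lit 6110753474) (nat_lit 0) (nat_lit 9622430251) (nat_lit 760) (nat_lit 3856495684) (nat_lit 95) (nat_lit 5) (nat_lit 94) (nat_lit 5) (nat_lit 104) (nat_lit 5) (nat_lit 293) (nat_lit 291) (nat_lit 196)) (XT.lf (nat_lit 76) (nat_lit 15698342491) (nat_lit 0) (nat_lit 901498501)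 (nat_lit 760) (nat_lit 3480455368) (nat_lit 95) (nat_lit 5) (nat_lit 94) (nat_lit 5) (nat_lit 104) (nat_lit 5) (nat_lit 294) (nat_lit 291) (nat_lit 195))) (XT.nd (nat_lit 78) (nat_lit 0) (nat_lit 0) (XT.lf (nat_lit 76) (nat_lit 5200823153) (nat_lit 0) (nat_lit 12508768052) (nat_lit 760) (nat_lit 2875883402) (nat_lit 96) (nat_lit 5) (nat_lit 95) (nat_lit 5) (nat_lit 105) (nat_lit 5) (nat_lit 295) (nat_lit 291) (nat_lit 194)) (XT.nd (nat_lit 78) (nat_lit 0) (nat_lit 76) (XT.lf (nat_lit 76) (nat_lit 15393098603) (nat_lit 0) (nat_lit 3560540987) (nat_lit 760) (nat_lit 2158349214) (nat_lit 96) (nat_lit 5) (nat_lit 95) (nat_lit 5) (nat_lit 105) (nat_lit 5) (nat_lit 296) (nat_lit 291) (nat_lit 193)) (XT.lf (nat_lit 76) (nat_lit 4475566913) (nat_lit 0) (nat_lit 15935886124) (nat_lit 760) (nat_lit 1245814275) (nat_lit 97) (nat_lit 5) (nat_lit 96) (nat_lit 5) (nat_lit 106) (nat_lit 5) (nat_lit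 297) (nat_lit 291) (nat_lit 192))))) (XT.nd (nat_lit 234) (nat_lit 456) (nat_lit 0) (XT.nd (nat_lit 78) (nat_lit 684) (nat_lit 0) (XT.lf (nat_lit 76) (nat_lit 15311366931) (nat_lit 0) (nat_lit 6775999653) (nat_lit 760) (nat_lit 135198630) (nat_lit 97) (nat_lit 5) (nat_lit 96) (nat_lit 5) (nat_lit 106) (nat_lit 5) (nat_lit 298) (nat_lit 291) (nat_lit 191)) (XT.nd (nat_lit 78) (nat_lit 0) (nat_lit 0) (XT.lf (nat_lit 0) (nat_lit 1096940088) (nat_lit 760) (nat_lit 18880940036) (nat_lit 836) (nat_lit 2832508091) (nat_lit 87) (nat_lit 5) (nat_lit 97) (nat_lit 5) (nat_lit 98) (nat_lit 5) (nat_lit 299) (nat_lit 291) (nat_lit 190)) (XT.lf (nat_lit 0) (nat_lit 2607740091) (nat_lit 760) (nat_lit 7991877830) (nat_lit 836) (nat_lit 12816807500) (nat_lit 87) (nat_lit 5) (nat_lit 97) (nat_lit 5) (nat_lit 98) (nat_lit 5) (nat_lit 300) (nat_lit 291) (nat_lit 189)))) (XT.nd (nat_lit 78) (nat_lit 456)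 (nat_lit 0) (XT.lf (nat_lit 76) (nat_lit 3548567365) (nat_lit 0) (nat_lit 692870759) (nat_lit 836) (nat_lit 19808971573) (nat_lit 88) (nat_lit 5) (nat_lit 87) (nat_lit 5) (nat_lit 98) (nat_lit 5) (nat_lit 301) (nat_lit 291) (nat_lit 188)) (XT.nd (nat_lit 78) (nat_lit 532) (nat_lit 0) (XT.lf (nat_lit 0) (nat_lit 6238229282) (nat_lit 760) (nat_lit 8926596976) (nat_lit 76) (nat_lit 9537209006) (nat_lit 88) (nat_lit 5) (nat_lit 98) (nat_lit 5) (nat_lit 89) (nat_lit 5) (nat_lit 302) (nat_lit 291) (nat_lit 187)) (XT.lf (nat_lit 0) (nat_lit 3315542509) (nat_lit 532) (nat_lit 5075064815) (nat_lit 608) (nat_lit 16992859313) (nat_lit 81) (nat_lit 5) (nat_lit 88) (nat_lit 5) (nat_lit 89) (nat_lit 5) (nat_lit 303) (nat_lit 291) (nat_lit 186))))))))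
noncomputable def xc190 : XT := (XT.nd (nat_lit 1560) (nat_lit 1672) (nat_lit 0) (XT.nd (nat_lit 780) (nat_lit 1140) (nat_lit 0) (XT.nd (nat_lit 390) (nat_lit 988) (nat_lit 0) (XT.nd (nat_lit 156) (nat_lit 304) (nat_lit 0) (XT.nd (nat_lit 78) (nat_lit 380) (nat_lit 0) (XT.lf (nat_lit 0) (nat_lit 10883311524) (nat_lit 608) (nat_lit 9707256635) (nat_lit 76) (nat_lit 5496777382) (nat_lit 81) (nat_lit 5) (nat_lit 89) (nat_lit 5) (nat_lit 82) (nat_lit 5) (nat_lit 304) (nat_lit 291) (nat_lit 185)) (XT.lf (nat_lit 0) (nat_lit 3286877640) (nat_lit 380) (nat_lit 10341510141) (nat_lit 456) (nat_lit 13191654556) (nat_lit 76) (nat_lit 5) (nat_lit 81) (nat_lit 5) (nat_lit 82) (nat_lit 5) (nat_lit 305) (nat_lit 291) (nat_lit 184))) (XT.nd (nat_lit 78) (nat_lit 304) (nat_lit 0) (XT.lf (nat_lit 0) (nat_lit 16677812371) (nat_lit 456) (nat_lit 10329476889) (nat_lit 76) (nat_lit 573740261) (nat_lit 76)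 (nat_lit 5) (nat_lit 82) (nat_lit 5) (nat_lit 77) (nat_lit 5) (nat_lit 306) (nat_lit 291) (nat_lit 183)) (XT.nd (nat_lit 78) (nat_lit 0) (nat_lit 0) (XT.lf (nat_lit 0) (nat_lit 3469426620) (nat_lit 304) (nat_lit 16627739146) (nat_lit 380) (nat_lit 8272037203) (nat_lit 72) (nat_lit 5) (nat_lit 76) (nat_lit 5) (nat_lit 77) (nat_lit 5) (nat_lit 307) (nat_lit 291) (nat_lit 182)) (XT.lf (nat_lit 0) (nat_lit 18310516863) (nat_lit 304) (nat_lit 5545859561) (nat_lit 380) (nat_lit 5331973505) (nat_lit 72) (nat_lit 5) (nat_lit 76) (nat_lit 5) (nat_lit 77) (nat_lit 5) (nat_lit 308) (nat_lit 291) (nat_lit 181))))) (XT.nd (nat_lit 156) (nat_lit 608) (nat_lit 0) (XT.nd (nat_lit 78) (nat_lit 76) (nat_lit 0) (XT.lf (nat_lit 0) (nat_lit 3867546430) (nat_lit 304) (nat_lit 24085706037) (nat_lit 380) (nat_lit 2087725402) (nat_lit 68) (nat_lit 5) (nat_lit 72) (nat_lit 5) (nat_lit 73) (nat_lit 5) (nat_lit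 309) (nat_lit 291) (nat_lit 180)) (XT.lf (nat_lit 0) (nat_lit 1548999233) (nat_lit 380) (nat_lit 11320158584) (nat_lit 76) (nat_lit 18052434388) (nat_lit 67) (nat_lit 5) (nat_lit 72) (nat_lit 5) (nat_lit 68) (nat_lit 5) (nat_lit 310) (nat_lit 291) (nat_lit 179))) (XT.nd (nat_lit 78) (nat_lit 304) (nat_lit 0) (XT.lf (nat_lit 0) (nat_lit 4375445690) (nat_lit 304) (nat_lit 984851609) (nat_lit 380) (nat_lit 26481091450) (nat_lit 63) (nat_lit 5) (nat_lit 67) (nat_lit 5) (nat_lit 68) (nat_lit 5) (nat_lit 311) (nat_lit 291) (nat_lit 178)) (XT.nd (nat_lit 78) (nat_lit 304) (nat_lit 0) (XT.lf (nat_lit 0) (nat_lit 9731200265) (nat_lit 380) (nat_lit 11737647227) (nat_lit 76) (nat_lit 11319882932) (nat_lit 63) (nat_lit 5) (nat_lit 68) (nat_lit 5) (nat_lit 64) (nat_lit 5) (nat_lit 312) (nat_lit 291) (nat_lit 177)) (XT.lf (nat_lit 0) (nat_lit 4912130453) (nat_lit 304) (nat_lit 9496342210) (nat_lit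 380) (nat_lit 19370582257) (nat_lit 59) (nat_lit 5) (nat_lit 63) (nat_lit 5) (nat_lit 64) (nat_lit 5) (nat_lit 313) (nat_lit 291) (nat_lit 176)))))) (XT.nd (nat_lit 390) (nat_lit 608) (nat_lit 0) (XT.nd (nat_lit 156) (nat_lit 304) (nat_lit 0) (XT.nd (nat_lit 78) (nat_lit 228) (nat_lit 0) (XT.lf (nat_lit 0) (nat_lit 19564773424) (nat_lit 380) (nat_lit 12064463141) (nat_lit 76) (nat_lit 3177407463) (nat_lit 59) (nat_lit 5) (nat_lit 64) (nat_lit 5) (nat_lit 60) (nat_lit 5) (nat_lit 314) (nat_lit 291) (nat_lit 175)) (XT.lf (nat_lit 0) (nat_lit 5595689606) (nat_lit 228) (nat_lit 19621591478) (nat_lit 304) (nat_lit 10656418223) (nat_lit 56) (nat_lit 5) (nat_lit 59) (nat_lit 5) (nat_lit 60) (nat_lit 5) (nat_lit 315) (nat_lit 291) (nat_lit 174))) (XT.nd (nat_lit 78) (nat_lit 304) (nat_lit 0) (XT.lf (nat_lit 0) (nat_lit 24551944360) (nat_lit 228) (nat_lit 6800268575) (nat_lit 304) (nat_lit 5631910478)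 (nat_lit 56) (nat_lit 5) (nat_lit 59) (nat_lit 5) (nat_lit 60) (nat_lit 5) (nat_lit 316) (nat_lit 291) (nat_lit 173)) (XT.nd (nat_lit 78) (nat_lit 76) (nat_lit 0) (XT.lf (nat_lit 0) (nat_lit 6401119638) (nat_lit 228) (nat_lit 31592403590) (nat_lit 304) (nat_lit 146569627) (nat_lit 53) (nat_lit 5) (nat_lit 56) (nat_lit 5) (nat_lit 57) (nat_lit 5) (nat_lit 317) (nat_lit 291) (nat_lit 172)) (XT.lf (nat_lit 0) (nat_lit 5754584682) (nat_lit 304) (nat_lit 12943939551) (nat_lit 76) (nat_lit 20634900027) (nat_lit 52) (nat_lit 5) (nat_lit 56) (nat_lit 5) (nat_lit 53) (nat_lit 5) (nat_lit 318) (nat_lit 291) (nat_lit 171))))) (XT.nd (nat_lit 156) (nat_lit 380) (nat_lit 0) (XT.nd (nat_lit 78) (nat_lit 0) (nat_lit 0) (XT.lf (nat_lit 0) (nat_lit 7007252325) (nat_lit 228) (nat_lit 5043947583) (nat_lit 304) (nat_lit 28529840686) (nat_lit 49) (nat_lit 5) (nat_lit 52) (nat_lit 5) (nat_lit 53) (nat_lit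 5) (nat_lit 319) (nat_lit 291) (nat_lit 170)) (XT.lf (nat_lit 0) (nat_lit 19026560772) (nat_lit 304) (nat_lit 13628937177) (nat_lit 76) (nat_lit 9217348758) (nat_lit 49) (nat_lit 5) (nat_lit 53) (nat_lit 5) (nat_lit 50) (nat_lit 5) (nat_lit 320) (nat_lit 291) (nat_lit 169))) (XT.nd (nat_lit 78) (nat_lit 152) (nat_lit 0) (XT.lf (nat_lit 0) (nat_lit 7464071243) (nat_lit 228) (nat_lit 19082044977) (nat_lit 304) (nat_lit 16673360060) (nat_lit 46) (nat_lit 5) (nat_lit 49) (nat_lit 5) (nat_lit 50) (nat_lit 5) (nat_lit 321) (nat_lit 291) (nat_lit 168)) (XT.nd (nat_lit 78) (nat_lit 152) (nat_lit 0) (XT.lf (nat_lit 0) (nat_lit 30079686950) (nat_lit 228) (nat_lit 4589078388) (nat_lit 304) (nat_lit 9953320469) (nat_lit 46) (nat_lit 5) (nat_lit 49) (nat_lit 5) (nat_lit 50) (nat_lit 5) (nat_lit 322) (nat_lit 291) (nat_lit 167)) (XT.lf (nat_lit 0) (nat_lit 7810172048) (nat_lit 152) (nat_lit 35671711578)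 (nat_lit 228) (nat_lit 2598729414) (nat_lit 44) (nat_lit 5) (nat_lit 46) (nat_lit 5) (nat_lit 47) (nat_lit 5) (nat_lit 323) (nat_lit 291) (nat_lit 166))))))) (XT.nd (nat_lit 780) (nat_lit 836) (nat_lit 0) (XT.nd (nat_lit 390) (nat_lit 380) (nat_lit 0) (XT.nd (nat_lit 156) (nat_lit 152) (nat_lit 0) (XT.nd (nat_lit 78) (nat_lit 228) (nat_lit 0) (XT.lf (nat_lit 0) (nat_lit 5281641590) (nat_lit 228) (nat_lit 15978919511) (nat_lit 76) (nat_lit 26331407674) (nat_lit 43) (nat_lit 5) (nat_lit 46) (nat_lit 5) (nat_lit 44) (nat_lit 5) (nat_lit 324) (nat_lit 291) (nat_lit 165)) (XT.lf (nat_lit 0) (nat_lit 7623670588) (nat_lit 228) (nat_lit 5960706917) (nat_lit 304) (nat_lit 35586604163) (nat_lit 40) (nat_lit 5) (nat_lit 43) (nat_lit 5) (nat_lit 44) (nat_lit 5) (nat_lit 325) (nat_lit 291) (nat_lit 164))) (XT.nd (nat_lit 78) (nat_lit 152) (nat_lit 0) (XT.lf (nat_lit 0) (nat_lit 22731764398) (nat_lit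 304) (nat_lit 18021435820) (nat_lit 76) (nat_lit 10054272624) (nat_lit 40) (nat_lit 5) (nat_lit 44) (nat_lit 5) (nat_lit 41) (nat_lit 5) (nat_lit 326) (nat_lit 291) (nat_lit 163)) (XT.nd (nat_lit 78) (nat_lit 0) (nat_lit 0) (XT.lf (nat_lit 0) (nat_lit 6795788005) (nat_lit 152) (nat_lit 25741420206) (nat_lit 228) (nat_lit 19978549170) (nat_lit 38) (nat_lit 5) (nat_lit 40) (nat_lit 5) (nat_lit 41) (nat_lit 5) (nat_lit 327) (nat_lit 291) (nat_lit 162)) (XT.lf (nat_lit 0) (nat_lit 33474876626) (nat_lit 152) (nat_lit 9660195403) (nat_lit 228) (nat_lit 11159279762) (nat_lit 38) (nat_lit 5) (nat_lit 40) (nat_lit 5) (nat_lit 41) (nat_lit 5) (nat_lit 328) (nat_lit 291) (nat_lit 161))))) (XT.nd (nat_lit 156) (nat_lit 152) (nat_lit 0) (XT.nd (nat_lit 78) (nat_lit 76) (nat_lit 0) (XT.lf (nat_lit 0) (nat_lit 5380899755) (nat_lit 152) (nat_lit 49075811743) (nat_lit 228) (nat_lit 1695473189) (nat_lit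 36) (nat_lit 5) (nat_lit 38) (nat_lit 5) (nat_lit 39) (nat_lit 5) (nat_lit 329) (nat_lit 291) (nat_lit 160)) (XT.lf (nat_lit 0) (nat_lit 8491562937) (nat_lit 228) (nat_lit 24768586333) (nat_lit 76) (nat_lit 24810637942) (nat_lit 35) (nat_lit 5) (nat_lit 38) (nat_lit 5) (nat_lit 36) (nat_lit 5) (nat_lit 330) (nat_lit 291) (nat_lit 159))) (XT.nd (nat_lit 78) (nat_lit 0) (nat_lit 0) (XT.lf (nat_lit 0) (nat_lit 2584813376) (nat_lit 152) (nat_lit 16583740923) (nat_lit 228) (nat_lit 40913499205) (nat_lit 33) (nat_lit 5) (nat_lit 35) (nat_lit 5) (nat_lit 36) (nat_lit 5) (nat_lit 331) (nat_lit 291) (nat_lit 158)) (XT.nd (nat_lit 78) (nat_lit 0) (nat_lit 0) (XT.lf (nat_lit 0) (nat_lit 30817471226) (nat_lit 228) (nat_lit 30032870714) (nat_lit 76) (nat_lit 1321639749) (nat_lit 33) (nat_lit 5) (nat_lit 36) (nat_lit 5) (nat_lit 34) (nat_lit 5) (nat_lit 332) (nat_lit 291) (nat_lit 157)) (XT.lf (nat_lit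 0) (nat_lit 43318095181) (nat_lit 228) (nat_lit 1471349209) (nat_lit 76) (nat_lit 19563501098) (nat_lit 33) (nat_lit 5) (nat_lit 36) (nat_lit 5) (nat_lit 34) (nat_lit 5) (nat_lit 333) (nat_lit 291) (nat_lit 156)))))) (XT.nd (nat_lit 390) (nat_lit 304) (nat_lit 0) (XT.nd (nat_lit 156) (nat_lit 304) (nat_lit 0) (XT.nd (nat_lit 78) (nat_lit 76) (nat_lit 0) (XT.lf (nat_lit 0) (nat_lit 29457056448) (nat_lit 152) (nat_lit 27444121638) (nat_lit 228) (nat_lit 9718910159) (nat_lit 31) (nat_lit 5) (nat_lit 33) (nat_lit 5) (nat_lit 34) (nat_lit 5) (nat_lit 334) (nat_lit 291) (nat_lit 155)) (XT.lf (nat_lit 0) (nat_lit 2116464969) (nat_lit 228) (nat_lit 7054574805) (nat_lit 76) (nat_lit 59826718836) (nat_lit 30) (nat_lit 5) (nat_lit 33) (nat_lit 5) (nat_lit 31) (nat_lit 5) (nat_lit 335) (nat_lit 291) (nat_lit 154))) (XT.nd (nat_lit 78) (nat_lit 152) (nat_lit 0) (XT.lf (nat_lit 0) (nat_lit 14773541278)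 (nat_lit 228) (nat_lit 46429407149) (nat_lit 76) (nat_lit 10255572031) (nat_lit 28) (nat_lit 5) (nat_lit 31) (nat_lit 5) (nat_lit 29) (nat_lit 5) (nat_lit 336) (nat_lit 291) (nat_lit 153)) (XT.nd (nat_lit 78) (nat_lit 152) (nat_lit 0) (XT.lf (nat_lit 0) (nat_lit 28332930276) (nat_lit 228) (nat_lit 15230606374) (nat_lit 76) (nat_lit 30465312578) (nat_lit 28) (nat_lit 5) (nat_lit 31) (nat_lit 5) (nat_lit 29) (nat_lit 5) (nat_lit 337) (nat_lit 291) (nat_lit 152)) (XT.lf (nat_lit 0) (nat_lit 18103895132) (nat_lit 152) (nat_lit 24746839231) (nat_lit 228) (nat_lit 33862939483) (nat_lit 26) (nat_lit 5) (nat_lit 28) (nat_lit 5) (nat_lit 29) (nat_lit 5) (nat_lit 338) (nat_lit 291) (nat_lit 151))))) (XT.nd (nat_lit 234) (nat_lit 152) (nat_lit 0) (XT.nd (nat_lit 78) (nat_lit 152) (nat_lit 0) (XT.lf (nat_lit 0) (nat_lit 53630276271) (nat_lit 152) (nat_lit 4719931778) (nat_lit 228) (nat_lit 21169744284)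 (nat_lit 26) (nat_lit 5) (nat_lit 28) (nat_lit 5) (nat_lit 29) (nat_lit 5) (nat_lit 339) (nat_lit 291) (nat_lit 150)) (XT.nd (nat_lit 78) (nat_lit 76) (nat_lit 0) (XT.lf (nat_lit 0) (nat_lit 8479688059) (nat_lit 76) (nat_lit 66529900433) (nat_lit 152) (nat_lit 7437711130) (nat_lit 25) (nat_lit 5) (nat_lit 26) (nat_lit 5) (nat_lit 27) (nat_lit 4) (nat_lit 340) (nat_lit 291) (nat_lit 149)) (XT.lf (nat_lit 0) (nat_lit 7278441192) (nat_lit 152) (nat_lit 40229836454) (nat_lit 76) (nat_lit 37981240899) (nat_lit 24) (nat_lit 5) (nat_lit 26) (nat_lit 5) (nat_lit 25) (nat_lit 5) (nat_lit 341) (nat_lit 291) (nat_lit 148)))) (XT.nd (nat_lit 78) (nat_lit 152) (nat_lit 0) (XT.lf (nat_lit 0) (nat_lit 22478476476) (nat_lit 152) (nat_lit 4930474544) (nat_lit 76) (nat_lit 61268900671) (nat_lit 24) (nat_lit 5) (nat_lit 26) (nat_lit 5) (nat_lit 25) (nat_lit 5) (nat_lit 342) (nat_lit 291) (nat_lit 147))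 (XT.nd (nat_lit 78) (nat_lit 0) (nat_lit 0) (XT.lf (nat_lit 0) (nat_lit 33193027967) (nat_lit 152) (nat_lit 5761846709) (nat_lit 228) (nat_lit 53044910022) (nat_lit 22) (nat_lit 5) (nat_lit 24) (nat_lit 5) (nat_lit 25) (nat_lit 5) (nat_lit 343) (nat_lit 291) (nat_lit 146)) (XT.lf (nat_lit 0) (nat_lit 56603017830) (nat_lit 228) (nat_lit 22359271801) (nat_lit 76) (nat_lit 16508129673) (nat_lit 22) (nat_lit 5) (nat_lit 25) (nat_lit 5) (nat_lit 23) (nat_lit 4) (nat_lit 344) (nat_lit 291) (nat_lit 145))))))))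
noncomputable def xc191 : XT := (XT.nd (nat_lit 1638) (nat_lit 456) (nat_lit 0) (XT.nd (nat_lit 780) (nat_lit 304) (nat_lit 0) (XT.nd (nat_lit 390) (nat_lit 228) (nat_lit 0) (XT.nd (nat_lit 156) (nat_lit 228) (nat_lit 0) (XT.nd (nat_lit 78) (nat_lit 0) (nat_lit 0) (XT.lf (nat_lit 0) (nat_lit 16335903567) (nat_lit 76) (nat_lit 59145402915) (nat_lit 152) (nat_lit 23615893385) (nat_lit 21) (nat_lit 5) (nat_lit 22) (nat_lit 5) (nat_lit 23) (nat_lit 4) (nat_lit 345) (nat_lit 291) (nat_lit 144)) (XT.lf (nat_lit 0) (nat_lit 57739072541) (nat_lit 76) (nat_lit 37941371590) (nat_lit 152) (nat_lit 7206029686) (nat_lit 21) (nat_lit 5) (nat_lit 22) (nat_lit 5) (nat_lit 23) (nat_lit 4) (nat_lit 346) (nat_lit 291) (nat_lit 143))) (XT.nd (nat_lit 78) (nat_lit 152) (nat_lit 0) (XT.lf (nat_lit 0) (nat_lit 9701809985) (nat_lit 152) (nat_lit 5812260123) (nat_lit 76) (nat_lit 91343400761) (nat_lit 20) (nat_lit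 5) (nat_lit 22) (nat_lit 5) (nat_lit 21) (nat_lit 5) (nat_lit 347) (nat_lit 291) (nat_lit 142)) (XT.nd (nat_lit 78) (nat_lit 0) (nat_lit 0) (XT.lf (nat_lit 0) (nat_lit 27918450664) (nat_lit 228) (nat_lit 74591226149) (nat_lit 76) (nat_lit 8476156376) (nat_lit 18) (nat_lit 5) (nat_lit 21) (nat_lit 5) (nat_lit 19) (nat_lit 4) (nat_lit 348) (nat_lit 291) (nat_lit 141)) (XT.lf (nat_lit 0) (nat_lit 47398717552) (nat_lit 228) (nat_lit 34660844542) (nat_lit 76) (nat_lit 33243412717) (nat_lit 18) (nat_lit 5) (nat_lit 21) (nat_lit 5) (nat_lit 19) (nat_lit 4) (nat_lit 349) (nat_lit 291) (nat_lit 140))))) (XT.nd (nat_lit 156) (nat_lit 152) (nat_lit 0) (XT.nd (nat_lit 78) (nat_lit 0) (nat_lit 0) (XT.lf (nat_lit 0) (nat_lit 7503534177) (nat_lit 76) (nat_lit 60465108192) (nat_lit 152) (nat_lit 51861549770) (nat_lit 17) (nat_lit 5) (nat_lit 18) (nat_lit 5) (nat_lit 19) (nat_lit 4) (nat_lit 350) (nat_lit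 291) (nat_lit 139)) (XT.lf (nat_lit 0) (nat_lit 52976839424) (nat_lit 76) (nat_lit 37175746112) (nat_lit 152) (nat_lit 34401909505) (nat_lit 17) (nat_lit 5) (nat_lit 18) (nat_lit 5) (nat_lit 19) (nat_lit 4) (nat_lit 351) (nat_lit 291) (nat_lit 138))) (XT.nd (nat_lit 78) (nat_lit 152) (nat_lit 0) (XT.lf (nat_lit 0) (nat_lit 100721296919) (nat_lit 76) (nat_lit 12723023164) (nat_lit 152) (nat_lit 16070764067) (nat_lit 17) (nat_lit 5) (nat_lit 18) (nat_lit 5) (nat_lit 19) (nat_lit 4) (nat_lit 352) (nat_lit 291) (nat_lit 137)) (XT.nd (nat_lit 78) (nat_lit 0) (nat_lit 0) (XT.lf (nat_lit 0) (nat_lit 3540475060) (nat_lit 152) (nat_lit 118306774918) (nat_lit 76) (nat_lit 12850712478) (nat_lit 15) (nat_lit 5) (nat_lit 17) (nat_lit 5) (nat_lit 16) (nat_lit 4) (nat_lit 353) (nat_lit 291) (nat_lit 136)) (XT.lf (nat_lit 0) (nat_lit 24295047236) (nat_lit 152) (nat_lit 75763010327) (nat_lit 76) (nat_lit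 40033612318) (nat_lit 15) (nat_lit 5) (nat_lit 17) (nat_lit 5) (nat_lit 16) (nat_lit 4) (nat_lit 354) (nat_lit 291) (nat_lit 135)))))) (XT.nd (nat_lit 390) (nat_lit 152) (nat_lit 0) (XT.nd (nat_lit 156) (nat_lit 76) (nat_lit 0) (XT.nd (nat_lit 78) (nat_lit 76) (nat_lit 0) (XT.lf (nat_lit 0) (nat_lit 46086061577) (nat_lit 152) (nat_lit 31094391282) (nat_lit 76) (nat_lit 68574674778) (nat_lit 15) (nat_lit 5) (nat_lit 17) (nat_lit 5) (nat_lit 16) (nat_lit 4) (nat_lit 355) (nat_lit 291) (nat_lit 134)) (XT.lf (nat_lit 0) (nat_lit 16328035167) (nat_lit 76) (nat_lit 52892292670) (nat_lit 152) (nat_lit 82468745990) (nat_lit 14) (nat_lit 5) (nat_lit 15) (nat_lit 5) (nat_lit 16) (nat_lit 4) (nat_lit 356) (nat_lit 291) (nat_lit 133))) (XT.nd (nat_lit 78) (nat_lit 76) (nat_lit 0) (XT.lf (nat_lit 0) (nat_lit 67198923196) (nat_lit 76) (nat_lit 26837781790) (nat_lit 152) (nat_lit 63856743038) (nat_lit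 14) (nat_lit 5) (nat_lit 15) (nat_lit 5) (nat_lit 16) (nat_lit 4) (nat_lit 357) (nat_lit 291) (nat_lit 132)) (XT.nd (nat_lit 78) (nat_lit 76) (nat_lit 0) (XT.lf (nat_lit 0) (nat_lit 120100852682) (nat_lit 152) (nat_lit 43804921190) (nat_lit 0) (nat_lit 501920024) (nat_lit 14) (nat_lit 5) (nat_lit 16) (nat_lit 4) (nat_lit 14) (nat_lit 4) (nat_lit 358) (nat_lit 291) (nat_lit 131)) (XT.lf (nat_lit 0) (nat_lit 5152072986) (nat_lit 76) (nat_lit 142835433421) (nat_lit 76) (nat_lit 23234181249) (nat_lit 13) (nat_lit 4) (nat_lit 14) (nat_lit 5) (nat_lit 14) (nat_lit 4) (nat_lit 359) (nat_lit 291) (nat_lit 130))))) (XT.nd (nat_lit 234) (nat_lit 76) (nat_lit 0) (XT.nd (nat_lit 78) (nat_lit 76) (nat_lit 0) (XT.lf (nat_lit 0) (nat_lit 58075732959) (nat_lit 76) (nat_lit 119933535545) (nat_lit 76) (nat_lit 330074312) (nat_lit 13) (nat_lit 4) (nat_lit 14) (nat_lit 5) (nat_lit 14) (nat_lit 4) (nat_lit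 360) (nat_lit 291) (nat_lit 129)) (XT.nd (nat_lit 78) (nat_lit 0) (nat_lit 0) (XT.lf (nat_lit 0) (nat_lit 22959026541) (nat_lit 152) (nat_lit 72539560691) (nat_lit 76) (nat_lit 90295830152) (nat_lit 12) (nat_lit 5) (nat_lit 14) (nat_lit 5) (nat_lit 13) (nat_lit 4) (nat_lit 361) (nat_lit 291) (nat_lit 128)) (XT.lf (nat_lit 0) (nat_lit 47400491982) (nat_lit 152) (nat_lit 22436560220) (nat_lit 76) (nat_lit 123784973245) (nat_lit 12) (nat_lit 5) (nat_lit 14) (nat_lit 5) (nat_lit 13) (nat_lit 4) (nat_lit 362) (nat_lit 291) (nat_lit 127)))) (XT.nd (nat_lit 78) (nat_lit 0) (nat_lit 0) (XT.lf (nat_lit 0) (nat_lit 31167388883) (nat_lit 76) (nat_lit 42382301817) (nat_lit 152) (nat_lit 128267040622) (nat_lit 11) (nat_lit 5) (nat_lit 12) (nat_lit 5) (nat_lit 13) (nat_lit 4) (nat_lit 363) (nat_lit 291) (nat_lit 126)) (XT.nd (nat_lit 78) (nat_lit 0) (nat_lit 0) (XT.lf (nat_lit 0) (nat_lit 88228757939)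 (nat_lit 76) (nat_lit 13156633472) (nat_lit 152) (nat_lit 109016829371) (nat_lit 11) (nat_lit 5) (nat_lit 12) (nat_lit 5) (nat_lit 13) (nat_lit 4) (nat_lit 364) (nat_lit 291) (nat_lit 125)) (XT.lf (nat_lit 0) (nat_lit 130885675203) (nat_lit 152) (nat_lit 71549161740) (nat_lit 0) (nat_lit 16968508240) (nat_lit 11) (nat_lit 5) (nat_lit 13) (nat_lit 4) (nat_lit 11) (nat_lit 4) (nat_lit 365) (nat_lit 291) (nat_lit 124))))))) (XT.nd (nat_lit 780) (nat_lit 228) (nat_lit 0) (XT.nd (nat_lit 390) (nat_lit 76) (nat_lit 0) (XT.nd (nat_lit 156) (nat_lit 76) (nat_lit 0) (XT.nd (nat_lit 78) (nat_lit 76) (nat_lit 0) (XT.lf (nat_lit 0) (nat_lit 162075799175) (nat_lit 152) (nat_lit 18610923409) (nat_lit 0) (nat_lit 48157062274) (nat_lit 11) (nat_lit 5) (nat_lit 13) (nat_lit 4) (nat_lit 11) (nat_lit 4) (nat_lit 366) (nat_lit 291) (nat_lit 123)) (XT.lf (nat_lit 0) (nat_lit 38195192176) (nat_lit 76) (nat_lit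 157225755424) (nat_lit 76) (nat_lit 43305523343) (nat_lit 10) (nat_lit 4) (nat_lit 11) (nat_lit 5) (nat_lit 11) (nat_lit 4) (nat_lit 367) (nat_lit 291) (nat_lit 122))) (XT.nd (nat_lit 78) (nat_lit 76) (nat_lit 0) (XT.lf (nat_lit 0) (nat_lit 98486247940) (nat_lit 76) (nat_lit 132261490269) (nat_lit 76) (nat_lit 18339834208) (nat_lit 10) (nat_lit 4) (nat_lit 11) (nat_lit 5) (nat_lit 11) (nat_lit 4) (nat_lit 368) (nat_lit 291) (nat_lit 121)) (XT.nd (nat_lit 78) (nat_lit 0) (nat_lit 0) (XT.lf (nat_lit 0) (nat_lit 7621342832) (nat_lit 152) (nat_lit 98299259425) (nat_lit 76) (nat_lit 154040018874) (nat_lit 9) (nat_lit 5) (nat_lit 11) (nat_lit 5) (nat_lit 10) (nat_lit 4) (nat_lit 369) (nat_lit 291) (nat_lit 120)) (XT.lf (nat_lit 0) (nat_lit 34263502020) (nat_lit 152) (nat_lit 43684124683) (nat_lit 76) (nat_lit 193414700107) (nat_lit 9) (nat_lit 5) (nat_lit 11) (nat_lit 5) (nat_lit 10) (nat_lit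 4) (nat_lit 370) (nat_lit 291) (nat_lit 119))))) (XT.nd (nat_lit 156) (nat_lit 0) (nat_lit 0) (XT.nd (nat_lit 78) (nat_lit 0) (nat_lit 0) (XT.lf (nat_lit 0) (nat_lit 14112128229) (nat_lit 76) (nat_lit 48345267937) (nat_lit 152) (nat_lit 220865740520) (nat_lit 8) (nat_lit 5) (nat_lit 9) (nat_lit 5) (nat_lit 10) (nat_lit 4) (nat_lit 371) (nat_lit 291) (nat_lit 118)) (XT.lf (nat_lit 0) (nat_lit 76313514358) (nat_lit 76) (nat_lit 16486592852) (nat_lit 152) (nat_lit 203044923988) (nat_lit 8) (nat_lit 5) (nat_lit 9) (nat_lit 5) (nat_lit 10) (nat_lit 4) (nat_lit 372) (nat_lit 291) (nat_lit 117))) (XT.nd (nat_lit 78) (nat_lit 0) (nat_lit 0) (XT.lf (nat_lit 0) (nat_lit 124924159511) (nat_lit 152) (nat_lit 167634178180) (nat_lit 0) (nat_lit 16421472701) (nat_lit 8) (nat_lit 5) (nat_lit 10) (nat_lit 4) (nat_lit 8) (nat_lit 4) (nat_lit 373) (nat_lit 291) (nat_lit 116)) (XT.nd (nat_lit 78) (nat_lit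 0) (nat_lit 0) (XT.lf (nat_lit 0) (nat_lit 158924052401) (nat_lit 152) (nat_lit 113413440880) (nat_lit 0) (nat_lit 50420353594) (nat_lit 8) (nat_lit 5) (nat_lit 10) (nat_lit 4) (nat_lit 8) (nat_lit 4) (nat_lit 374) (nat_lit 291) (nat_lit 115)) (XT.lf (nat_lit 0) (nat_lit 194623336088) (nat_lit 152) (nat_lit 56482806028) (nat_lit 0) (nat_lit 86118673476) (nat_lit 8) (nat_lit 5) (nat_lit 10) (nat_lit 4) (nat_lit 8) (nat_lit 4) (nat_lit 375) (nat_lit 291) (nat_lit 114)))))) (XT.nd (nat_lit 390) (nat_lit 152) (nat_lit 0) (XT.nd (nat_lit 156) (nat_lit 0) (nat_lit 0) (XT.nd (nat_lit 78) (nat_lit 0) (nat_lit 0) (XT.lf (nat_lit 0) (nat_lit 3402166067) (nat_lit 76) (nat_lit 228757960148) (nat_lit 76) (nat_lit 120252379625) (nat_lit 7) (nat_lit 4) (nat_lit 8) (nat_lit 5) (nat_lit 8) (nat_lit 4) (nat_lit 376) (nat_lit 291) (nat_lit 113)) (XT.lf (nat_lit 0) (nat_lit 68241274691) (nat_lit 76) (nat_lit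 204288480433) (nat_lit 76) (nat_lit 95782025709) (nat_lit 7) (nat_lit 4) (nat_lit 8) (nat_lit 5) (nat_lit 8) (nat_lit 4) (nat_lit 377) (nat_lit 291) (nat_lit 112))) (XT.nd (nat_lit 78) (nat_lit 0) (nat_lit 0) (XT.lf (nat_lit 0) (nat_lit 136321322023) (nat_lit 76) (nat_lit 178596005955) (nat_lit 76) (nat_lit 70088718660) (nat_lit 7) (nat_lit 4) (nat_lit 8) (nat_lit 5) (nat_lit 8) (nat_lit 4) (nat_lit 378) (nat_lit 291) (nat_lit 111)) (XT.nd (nat_lit 78) (nat_lit 0) (nat_lit 0) (XT.lf (nat_lit 0) (nat_lit 207804403414) (nat_lit 76) (nat_lit 151619364158) (nat_lit 76) (nat_lit 43111283937) (nat_lit 7) (nat_lit 4) (nat_lit 8) (nat_lit 5) (nat_lit 8) (nat_lit 4) (nat_lit 379) (nat_lit 291) (nat_lit 110)) (XT.lf (nat_lit 0) (nat_lit 282860716676) (nat_lit 76) (nat_lit 123294324941) (nat_lit 76) (nat_lit 14785489553) (nat_lit 7) (nat_lit 4) (nat_lit 8) (nat_lit 5) (nat_lit 8) (nat_lit 4) (nat_lit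 380) (nat_lit 291) (nat_lit 109))))) (XT.nd (nat_lit 33696) (nat_lit 0) (nat_lit 6764) (XT.nd (nat_lit 78) (nat_lit 76) (nat_lit 0) (XT.lf (nat_lit 0) (nat_lit 14477418037) (nat_lit 152) (nat_lit 78830847617) (nat_lit 76) (nat_lit 346946367200) (nat_lit 6) (nat_lit 5) (nat_lit 8) (nat_lit 5) (nat_lit 7) (nat_lit 4) (nat_lit 381) (nat_lit 291) (nat_lit 108)) (XT.nd (nat_lit 78) (nat_lit 76) (nat_lit 0) (XT.lf (nat_lit 0) (nat_lit 44706132004) (nat_lit 152) (nat_lit 16862668945) (nat_lit 76) (nat_lit 398953542049) (nat_lit 6) (nat_lit 5) (nat_lit 8) (nat_lit 5) (nat_lit 7) (nat_lit 4) (nat_lit 382) (nat_lit 291) (nat_lit 107)) (XT.lf (nat_lit 0) (nat_lit 49796920165) (nat_lit 76) (nat_lit 27426402791) (nat_lit 152) (nat_lit 404541263768) (nat_lit 5) (nat_lit 5) (nat_lit 6) (nat_lit 5) (nat_lit 7) (nat_lit 4) (nat_lit 383) (nat_lit 291) (nat_lit 106)))) (XT.nd (nat_lit 78) (nat_lit 0) (nat_lit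 0) (XT.lf (nat_lit 0) (nat_lit 3864373183) (nat_lit 0) (nat_lit 3864373183) (nat_lit 684) (nat_lit 2060873621) (nat_lit 94) (nat_lit 5) (nat_lit 94) (nat_lit 3) (nat_lit 103) (nat_lit 3) (nat_lit 292) (nat_lit 292) (nat_lit 196)) (XT.nd (nat_lit 78) (nat_lit 0) (nat_lit 0) (XT.lf (nat_lit 0) (nat_lit 16024679158) (nat_lit 684) (nat_lit 2888204107) (nat_lit 760) (nat_lit 1146512023) (nat_lit 94) (nat_lit 5) (nat_lit 103) (nat_lit 3) (nat_lit 104) (nat_lit 5) (nat_lit 293) (nat_lit 292) (nat_lit 195)) (XT.lf (nat_lit 76) (nat_lit 6600958928) (nat_lit 0) (nat_lit 10238720811) (nat_lit 760) (nat_lit 3712924336) (nat_lit 95) (nat_lit 5) (nat_lit 94) (nat_lit 5) (nat_lit 104) (nat_lit 5) (nat_lit 294) (nat_lit 292) (nat_lit 194))))))))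
noncomputable def xc192 : XT := (XT.nd (nat_lit 1560) (nat_lit 2128) (nat_lit 0) (XT.nd (nat_lit 780) (nat_lit 1672) (nat_lit 0) (XT.nd (nat_lit 390) (nat_lit 380) (nat_lit 0) (XT.nd (nat_lit 156) (nat_lit 608) (nat_lit 0) (XT.nd (nat_lit 78) (nat_lit 0) (nat_lit 76) (XT.lf (nat_lit 76) (nat_lit 16659133691) (nat_lit 0) (nat_lit 1075305852) (nat_lit 760) (nat_lit 3334100868) (nat_lit 95) (nat_lit 5) (nat_lit 94) (nat_lit 5) (nat_lit 104) (nat_lit 5) (nat_lit 295) (nat_lit 292) (nat_lit 193)) (XT.lf (nat_lit 76) (nat_lit 5651395564) (nat_lit 0) (nat_lit 13234837192) (nat_lit 760) (nat_lit 2713442774) (nat_lit 96) (nat_lit 5) (nat_lit 95) (nat_lit 5) (nat_lit 105) (nat_lit 5) (nat_lit 296) (nat_lit 292) (nat_lit 192))) (XT.nd (nat_lit 78) (nat_lit 684) (nat_lit 0) (XT.lf (nat_lit 76) (nat_lit 16344211870) (nat_lit 0) (nat_lit 3834406834) (nat_lit 760) (nat_lit 1974614486) (nat_lit 96)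 (nat_lit 5) (nat_lit 95) (nat_lit 5) (nat_lit 105) (nat_lit 5) (nat_lit 297) (nat_lit 292) (nat_lit 191)) (XT.nd (nat_lit 78) (nat_lit 760) (nat_lit 0) (XT.lf (nat_lit 76) (nat_lit 4893472547) (nat_lit 0) (nat_lit 16804251463) (nat_lit 760) (nat_lit 1028654898) (nat_lit 97) (nat_lit 5) (nat_lit 96) (nat_lit 5) (nat_lit 106) (nat_lit 5) (nat_lit 298) (nat_lit 292) (nat_lit 190)) (XT.lf (nat_lit 0) (nat_lit 120209706) (nat_lit 760) (nat_lit 7060717008) (nat_lit 836) (nat_lit 16139572894) (nat_lit 86) (nat_lit 5) (nat_lit 96) (nat_lit 5) (nat_lit 97) (nat_lit 5) (nat_lit 299) (nat_lit 292) (nat_lit 189))))) (XT.nd (nat_lit 156) (nat_lit 456) (nat_lit 0) (XT.nd (nat_lit 78) (nat_lit 0) (nat_lit 0) (XT.lf (nat_lit 0) (nat_lit 1399221444) (nat_lit 760) (nat_lit 19620568576) (nat_lit 836) (nat_lit 2918342603) (nat_lit 87) (nat_lit 5) (nat_lit 97) (nat_lit 5) (nat_lit 98) (nat_lit 5) (nat_lit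 300) (nat_lit 292) (nat_lit 188)) (XT.lf (nat_lit 0) (nat_lit 2973778858) (nat_lit 760) (nat_lit 8196787472) (nat_lit 836) (nat_lit 13404513691) (nat_lit 87) (nat_lit 5) (nat_lit 97) (nat_lit 5) (nat_lit 98) (nat_lit 5) (nat_lit 301) (nat_lit 292) (nat_lit 187))) (XT.nd (nat_lit 78) (nat_lit 456) (nat_lit 0) (XT.lf (nat_lit 76) (nat_lit 3917539914) (nat_lit 0) (nat_lit 763390908) (nat_lit 836) (nat_lit 20560262527) (nat_lit 88) (nat_lit 5) (nat_lit 87) (nat_lit 5) (nat_lit 98) (nat_lit 5) (nat_lit 302) (nat_lit 292) (nat_lit 186)) (XT.nd (nat_lit 78) (nat_lit 532) (nat_lit 0) (XT.lf (nat_lit 0) (nat_lit 6766198515) (nat_lit 760) (nat_lit 9178792399) (nat_lit 76) (nat_lit 9980994851) (nat_lit 88) (nat_lit 5) (nat_lit 98) (nat_lit 5) (nat_lit 89) (nat_lit 5) (nat_lit 303) (nat_lit 292) (nat_lit 185)) (XT.lf (nat_lit 0) (nat_lit 3672322860) (nat_lit 532) (nat_lit 5346566229) (nat_lit 608)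 (nat_lit 17622981524) (nat_lit 81) (nat_lit 5) (nat_lit 88) (nat_lit 5) (nat_lit 89) (nat_lit 5) (nat_lit 304) (nat_lit 292) (nat_lit 184)))))) (XT.nd (nat_lit 390) (nat_lit 988) (nat_lit 0) (XT.nd (nat_lit 156) (nat_lit 304) (nat_lit 0) (XT.nd (nat_lit 78) (nat_lit 380) (nat_lit 0) (XT.lf (nat_lit 0) (nat_lit 11626024053) (nat_lit 608) (nat_lit 10000191201) (nat_lit 76) (nat_lit 5755254231) (nat_lit 81) (nat_lit 5) (nat_lit 89) (nat_lit 5) (nat_lit 82) (nat_lit 5) (nat_lit 305) (nat_lit 292) (nat_lit 183)) (XT.lf (nat_lit 0) (nat_lit 3640546106) (nat_lit 380) (nat_lit 10861309288) (nat_lit 456) (nat_lit 13649285710) (nat_lit 76) (nat_lit 5) (nat_lit 81) (nat_lit 5) (nat_lit 82) (nat_lit 5) (nat_lit 306) (nat_lit 292) (nat_lit 182))) (XT.nd (nat_lit 78) (nat_lit 304) (nat_lit 0) (XT.lf (nat_lit 0) (nat_lit 17694565561) (nat_lit 456) (nat_lit 10656169345) (nat_lit 76) (nat_lit 599916353)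 (nat_lit 76) (nat_lit 5) (nat_lit 82) (nat_lit 5) (nat_lit 77) (nat_lit 5) (nat_lit 307) (nat_lit 292) (nat_lit 181)) (XT.nd (nat_lit 78) (nat_lit 0) (nat_lit 0) (XT.lf (nat_lit 0) (nat_lit 3829618348) (nat_lit 304) (nat_lit 17449475764) (nat_lit 380) (nat_lit 8499442542) (nat_lit 72) (nat_lit 5) (nat_lit 76) (nat_lit 5) (nat_lit 77) (nat_lit 5) (nat_lit 308) (nat_lit 292) (nat_lit 180)) (XT.lf (nat_lit 0) (nat_lit 19403871656) (nat_lit 304) (nat_lit 5813961740) (nat_lit 380) (nat_lit 5421242160) (nat_lit 72) (nat_lit 5) (nat_lit 76) (nat_lit 5) (nat_lit 77) (nat_lit 5) (nat_lit 309) (nat_lit 292) (nat_lit 179))))) (XT.nd (nat_lit 156) (nat_lit 608) (nat_lit 0) (XT.nd (nat_lit 78) (nat_lit 76) (nat_lit 0) (XT.lf (nat_lit 0) (nat_lit 4244294991) (nat_lit 304) (nat_lit 25270227462) (nat_lit 380) (nat_lit 2020076358) (nat_lit 68) (nat_lit 5) (nat_lit 72) (nat_lit 5) (nat_lit 73) (nat_lit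 5) (nat_lit 310) (nat_lit 292) (nat_lit 178)) (XT.lf (nat_lit 0) (nat_lit 1785048346) (nat_lit 380) (nat_lit 11706058668) (nat_lit 76) (nat_lit 18968410277) (nat_lit 67) (nat_lit 5) (nat_lit 72) (nat_lit 5) (nat_lit 68) (nat_lit 5) (nat_lit 311) (nat_lit 292) (nat_lit 177))) (XT.nd (nat_lit 78) (nat_lit 304) (nat_lit 0) (XT.lf (nat_lit 0) (nat_lit 4771420854) (nat_lit 304) (nat_lit 1010704755) (nat_lit 380) (nat_lit 27643428034) (nat_lit 63) (nat_lit 5) (nat_lit 67) (nat_lit 5) (nat_lit 68) (nat_lit 5) (nat_lit 312) (nat_lit 292) (nat_lit 176)) (XT.nd (nat_lit 78) (nat_lit 304) (nat_lit 0) (XT.lf (nat_lit 0) (nat_lit 10364597058) (nat_lit 380) (nat_lit 12148584589) (nat_lit 76) (nat_lit 11907439771) (nat_lit 63) (nat_lit 5) (nat_lit 68) (nat_lit 5) (nat_lit 64) (nat_lit 5) (nat_lit 313) (nat_lit 292) (nat_lit 175)) (XT.lf (nat_lit 0) (nat_lit 5330844152) (nat_lit 304) (nat_lit 9940599385)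 (nat_lit 380) (nat_lit 20189242780) (nat_lit 59) (nat_lit 5) (nat_lit 63) (nat_lit 5) (nat_lit 64) (nat_lit 5) (nat_lit 314) (nat_lit 292) (nat_lit 174))))))) (XT.nd (nat_lit 780) (nat_lit 988) (nat_lit 0) (XT.nd (nat_lit 390) (nat_lit 608) (nat_lit 0) (XT.nd (nat_lit 156) (nat_lit 304) (nat_lit 0) (XT.nd (nat_lit 78) (nat_lit 228) (nat_lit 0) (XT.lf (nat_lit 0) (nat_lit 20679225779) (nat_lit 380) (nat_lit 12496304013) (nat_lit 76) (nat_lit 3364451005) (nat_lit 59) (nat_lit 5) (nat_lit 64) (nat_lit 5) (nat_lit 60) (nat_lit 5) (nat_lit 315) (nat_lit 292) (nat_lit 173)) (XT.lf (nat_lit 0) (nat_lit 6044092141) (nat_lit 228) (nat_lit 20566412914) (nat_lit 304) (nat_lit 11050085268) (nat_lit 56) (nat_lit 5) (nat_lit 59) (nat_lit 5) (nat_lit 60) (nat_lit 5) (nat_lit 316) (nat_lit 292) (nat_lit 172))) (XT.nd (nat_lit 78) (nat_lit 304) (nat_lit 0) (XT.lf (nat_lit 0) (nat_lit 25940130202) (nat_lit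 228) (nat_lit 7105750445) (nat_lit 304) (nat_lit 5780978511) (nat_lit 56) (nat_lit 5) (nat_lit 59) (nat_lit 5) (nat_lit 60) (nat_lit 5) (nat_lit 317) (nat_lit 292) (nat_lit 171)) (XT.nd (nat_lit 78) (nat_lit 76) (nat_lit 0) (XT.lf (nat_lit 0) (nat_lit 6885009731) (nat_lit 228) (nat_lit 33131315376) (nat_lit 304) (nat_lit 24456511) (nat_lit 53) (nat_lit 5) (nat_lit 56) (nat_lit 5) (nat_lit 57) (nat_lit 5) (nat_lit 318) (nat_lit 292) (nat_lit 170)) (XT.lf (nat_lit 0) (nat_lit 6161645972) (nat_lit 304) (nat_lit 13431013629) (nat_lit 76) (nat_lit 21701324514) (nat_lit 52) (nat_lit 5) (nat_lit 56) (nat_lit 5) (nat_lit 53) (nat_lit 5) (nat_lit 319) (nat_lit 292) (nat_lit 169))))) (XT.nd (nat_lit 156) (nat_lit 380) (nat_lit 0) (XT.nd (nat_lit 78) (nat_lit 0) (nat_lit 0) (XT.lf (nat_lit 0) (nat_lit 7515155213) (nat_lit 228) (nat_lit 5254713912) (nat_lit 304) (nat_lit 29834280174) (nat_lit 49)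 (nat_lit 5) (nat_lit 52) (nat_lit 5) (nat_lit 53) (nat_lit 5) (nat_lit 320) (nat_lit 292) (nat_lit 168)) (XT.lf (nat_lit 0) (nat_lit 20089085074) (nat_lit 304) (nat_lit 14155301425) (nat_lit 76) (nat_lit 9716411432) (nat_lit 49) (nat_lit 5) (nat_lit 53) (nat_lit 5) (nat_lit 50) (nat_lit 5) (nat_lit 321) (nat_lit 292) (nat_lit 167))) (XT.nd (nat_lit 78) (nat_lit 152) (nat_lit 0) (XT.lf (nat_lit 0) (nat_lit 7989856085) (nat_lit 228) (nat_lit 19991849371) (nat_lit 304) (nat_lit 17393205421) (nat_lit 46) (nat_lit 5) (nat_lit 49) (nat_lit 5) (nat_lit 50) (nat_lit 5) (nat_lit 322) (nat_lit 292) (nat_lit 166)) (XT.nd (nat_lit 78) (nat_lit 152) (nat_lit 0) (XT.lf (nat_lit 0) (nat_lit 31728986802) (nat_lit 228) (nat_lit 4776343874) (nat_lit 304) (nat_lit 10342583976) (nat_lit 46) (nat_lit 5) (nat_lit 49) (nat_lit 5) (nat_lit 50) (nat_lit 5) (nat_lit 323) (nat_lit 292) (nat_lit 165)) (XT.lf (nat_lit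 0) (nat_lit 8348194657) (nat_lit 152) (nat_lit 37408929829) (nat_lit 228) (nat_lit 2622348451) (nat_lit 44) (nat_lit 5) (nat_lit 46) (nat_lit 5) (nat_lit 47) (nat_lit 5) (nat_lit 324) (nat_lit 292) (nat_lit 164)))))) (XT.nd (nat_lit 390) (nat_lit 532) (nat_lit 0) (XT.nd (nat_lit 156) (nat_lit 152) (nat_lit 0) (XT.nd (nat_lit 78) (nat_lit 228) (nat_lit 0) (XT.lf (nat_lit 0) (nat_lit 5643737586) (nat_lit 228) (nat_lit 16634032297) (nat_lit 76) (nat_lit 27688793759) (nat_lit 43) (nat_lit 5) (nat_lit 46) (nat_lit 5) (nat_lit 44) (nat_lit 5) (nat_lit 325) (nat_lit 292) (nat_lit 163)) (XT.lf (nat_lit 0) (nat_lit 8146367417) (nat_lit 228) (nat_lit 6212784970) (nat_lit 304) (nat_lit 37265502587) (nat_lit 40) (nat_lit 5) (nat_lit 43) (nat_lit 5) (nat_lit 44) (nat_lit 5) (nat_lit 326) (nat_lit 292) (nat_lit 162))) (XT.nd (nat_lit 78) (nat_lit 152) (nat_lit 0) (XT.lf (nat_lit 0) (nat_lit 23960041692)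 (nat_lit 304) (nat_lit 18783772798) (nat_lit 76) (nat_lit 10599354229) (nat_lit 40) (nat_lit 5) (nat_lit 44) (nat_lit 5) (nat_lit 41) (nat_lit 5) (nat_lit 327) (nat_lit 292) (nat_lit 161)) (XT.nd (nat_lit 78) (nat_lit 0) (nat_lit 0) (XT.lf (nat_lit 0) (nat_lit 7272074560) (nat_lit 152) (nat_lit 26981448093) (nat_lit 228) (nat_lit 20883461028) (nat_lit 38) (nat_lit 5) (nat_lit 40) (nat_lit 5) (nat_lit 41) (nat_lit 5) (nat_lit 328) (nat_lit 292) (nat_lit 160)) (XT.lf (nat_lit 0) (nat_lit 35278617748) (nat_lit 152) (nat_lit 10098402198) (nat_lit 228) (nat_lit 11627705082) (nat_lit 38) (nat_lit 5) (nat_lit 40) (nat_lit 5) (nat_lit 41) (nat_lit 5) (nat_lit 329) (nat_lit 292) (nat_lit 159))))) (XT.nd (nat_lit 234) (nat_lit 152) (nat_lit 0) (XT.nd (nat_lit 78) (nat_lit 228) (nat_lit 0) (XT.lf (nat_lit 0) (nat_lit 5781431366) (nat_lit 152) (nat_lit 51481972214) (nat_lit 228) (nat_lit 1692116909)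 (nat_lit 36) (nat_lit 5) (nat_lit 38) (nat_lit 5) (nat_lit 39) (nat_lit 5) (nat_lit 330) (nat_lit 292) (nat_lit 158)) (XT.nd (nat_lit 78) (nat_lit 152) (nat_lit 0) (XT.lf (nat_lit 0) (nat_lit 8997387970) (nat_lit 228) (nat_lit 25879030792) (nat_lit 76) (nat_lit 26093772353) (nat_lit 35) (nat_lit 5) (nat_lit 38) (nat_lit 5) (nat_lit 36) (nat_lit 5) (nat_lit 331) (nat_lit 292) (nat_lit 157)) (XT.lf (nat_lit 0) (nat_lit 2839974630) (nat_lit 152) (nat_lit 17366351345) (nat_lit 228) (nat_lit 42875793376) (nat_lit 33) (nat_lit 5) (nat_lit 35) (nat_lit 5) (nat_lit 36) (nat_lit 5) (nat_lit 332) (nat_lit 292) (nat_lit 156)))) (XT.nd (nat_lit 78) (nat_lit 152) (nat_lit 0) (XT.lf (nat_lit 0) (nat_lit 32434603028) (nat_lit 228) (nat_lit 31411437848) (nat_lit 76) (nat_lit 1430660671) (nat_lit 33) (nat_lit 5) (nat_lit 36) (nat_lit 5) (nat_lit 34) (nat_lit 5) (nat_lit 333) (nat_lit 292) (nat_lit 155))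 (XT.nd (nat_lit 78) (nat_lit 152) (nat_lit 0) (XT.lf (nat_lit 0) (nat_lit 45556626835) (nat_lit 228) (nat_lit 1427701049) (nat_lit 76) (nat_lit 20582570377) (nat_lit 33) (nat_lit 5) (nat_lit 36) (nat_lit 5) (nat_lit 34) (nat_lit 5) (nat_lit 334) (nat_lit 292) (nat_lit 154)) (XT.lf (nat_lit 0) (nat_lit 31045234317) (nat_lit 152) (nat_lit 28771971693) (nat_lit 228) (nat_lit 10130278048) (nat_lit 31) (nat_lit 5) (nat_lit 33) (nat_lit 5) (nat_lit 34) (nat_lit 5) (nat_lit 335) (nat_lit 292) (nat_lit 153))))))))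
noncomputable def xc193 : XT := (XT.nd (nat_lit 1560) (nat_lit 532) (nat_lit 0) (XT.nd (nat_lit 780) (nat_lit 532) (nat_lit 0) (XT.nd (nat_lit 390) (nat_lit 304) (nat_lit 0) (XT.nd (nat_lit 156) (nat_lit 152) (nat_lit 0) (XT.nd (nat_lit 78) (nat_lit 152) (nat_lit 0) (XT.lf (nat_lit 0) (nat_lit 2291041236) (nat_lit 228) (nat_lit 7295142325) (nat_lit 76) (nat_lit 62857970771) (nat_lit 30) (nat_lit 5) (nat_lit 33) (nat_lit 5) (nat_lit 31) (nat_lit 5) (nat_lit 336) (nat_lit 292) (nat_lit 152)) (XT.lf (nat_lit 0) (nat_lit 15580094010) (nat_lit 228) (nat_lit 48637786976) (nat_lit 76) (nat_lit 10810119752) (nat_lit 28) (nat_lit 5) (nat_lit 31) (nat_lit 5) (nat_lit 29) (nat_lit 5) (nat_lit 337) (nat_lit 292) (nat_lit 151))) (XT.nd (nat_lit 78) (nat_lit 152) (nat_lit 0) (XT.lf (nat_lit 0) (nat_lit 29814220283) (nat_lit 228) (nat_lit 15884431426) (nat_lit 76) (nat_lit 32028358321) (nat_lit 28)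 (nat_lit 5) (nat_lit 31) (nat_lit 5) (nat_lit 29) (nat_lit 5) (nat_lit 338) (nat_lit 292) (nat_lit 150)) (XT.nd (nat_lit 78) (nat_lit 0) (nat_lit 0) (XT.lf (nat_lit 0) (nat_lit 19115057974) (nat_lit 152) (nat_lit 25941432797) (nat_lit 228) (nat_lit 35489658654) (nat_lit 26) (nat_lit 5) (nat_lit 28) (nat_lit 5) (nat_lit 29) (nat_lit 5) (nat_lit 339) (nat_lit 292) (nat_lit 149)) (XT.lf (nat_lit 0) (nat_lit 56412712070) (nat_lit 152) (nat_lit 4915215610) (nat_lit 228) (nat_lit 22164966923) (nat_lit 26) (nat_lit 5) (nat_lit 28) (nat_lit 5) (nat_lit 29) (nat_lit 5) (nat_lit 340) (nat_lit 292) (nat_lit 148))))) (XT.nd (nat_lit 156) (nat_lit 152) (nat_lit 0) (XT.nd (nat_lit 78) (nat_lit 76) (nat_lit 0) (XT.lf (nat_lit 0) (nat_lit 9005347352) (nat_lit 76) (nat_lit 69814255489) (nat_lit 152) (nat_lit 7747042269) (nat_lit 25) (nat_lit 5) (nat_lit 26) (nat_lit 5) (nat_lit 27) (nat_lit 4) (nat_lit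 341) (nat_lit 292) (nat_lit 147)) (XT.lf (nat_lit 0) (nat_lit 7700032095) (nat_lit 152) (nat_lit 42142549482) (nat_lit 76) (nat_lit 39918490679) (nat_lit 24) (nat_lit 5) (nat_lit 26) (nat_lit 5) (nat_lit 25) (nat_lit 5) (nat_lit 342) (nat_lit 292) (nat_lit 146))) (XT.nd (nat_lit 78) (nat_lit 152) (nat_lit 0) (XT.lf (nat_lit 0) (nat_lit 23657323008) (nat_lit 152) (nat_lit 5082923230) (nat_lit 76) (nat_lit 64368714976) (nat_lit 24) (nat_lit 5) (nat_lit 26) (nat_lit 5) (nat_lit 25) (nat_lit 5) (nat_lit 343) (nat_lit 292) (nat_lit 145)) (XT.nd (nat_lit 78) (nat_lit 0) (nat_lit 0) (XT.lf (nat_lit 0) (nat_lit 34945237068) (nat_lit 152) (nat_lit 6011133768) (nat_lit 228) (nat_lit 55640680308) (nat_lit 22) (nat_lit 5) (nat_lit 24) (nat_lit 5) (nat_lit 25) (nat_lit 5) (nat_lit 344) (nat_lit 292) (nat_lit 144)) (XT.lf (nat_lit 0) (nat_lit 59484938517) (nat_lit 228) (nat_lit 23387069074) (nat_lit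 76) (nat_lit 17369310695) (nat_lit 22) (nat_lit 5) (nat_lit 25) (nat_lit 5) (nat_lit 23) (nat_lit 4) (nat_lit 345) (nat_lit 292) (nat_lit 143)))))) (XT.nd (nat_lit 390) (nat_lit 228) (nat_lit 0) (XT.nd (nat_lit 156) (nat_lit 228) (nat_lit 0) (XT.nd (nat_lit 78) (nat_lit 0) (nat_lit 0) (XT.lf (nat_lit 0) (nat_lit 17241410766) (nat_lit 76) (nat_lit 62064650650) (nat_lit 152) (nat_lit 24743432065) (nat_lit 21) (nat_lit 5) (nat_lit 22) (nat_lit 5) (nat_lit 23) (nat_lit 4) (nat_lit 346) (nat_lit 292) (nat_lit 142)) (XT.lf (nat_lit 0) (nat_lit 60710513808) (nat_lit 76) (nat_lit 39802228350) (nat_lit 152) (nat_lit 7515611181) (nat_lit 21) (nat_lit 5) (nat_lit 22) (nat_lit 5) (nat_lit 23) (nat_lit 4) (nat_lit 347) (nat_lit 292) (nat_lit 141))) (XT.nd (nat_lit 78) (nat_lit 152) (nat_lit 0) (XT.lf (nat_lit 0) (nat_lit 10233659183) (nat_lit 152) (nat_lit 6020835102) (nat_lit 76) (nat_lit 95943484637)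 (nat_lit 20) (nat_lit 5) (nat_lit 22) (nat_lit 5) (nat_lit 21) (nat_lit 5) (nat_lit 348) (nat_lit 292) (nat_lit 140)) (XT.nd (nat_lit 78) (nat_lit 0) (nat_lit 0) (XT.lf (nat_lit 0) (nat_lit 29360710715) (nat_lit 228) (nat_lit 78238302005) (nat_lit 76) (nat_lit 8933769009) (nat_lit 18) (nat_lit 5) (nat_lit 21) (nat_lit 5) (nat_lit 19) (nat_lit 4) (nat_lit 349) (nat_lit 292) (nat_lit 139)) (XT.lf (nat_lit 0) (nat_lit 49812784399) (nat_lit 228) (nat_lit 36315329196) (nat_lit 76) (nat_lit 34937778415) (nat_lit 18) (nat_lit 5) (nat_lit 21) (nat_lit 5) (nat_lit 19) (nat_lit 4) (nat_lit 350) (nat_lit 292) (nat_lit 138))))) (XT.nd (nat_lit 156) (nat_lit 152) (nat_lit 0) (XT.nd (nat_lit 78) (nat_lit 0) (nat_lit 0) (XT.lf (nat_lit 0) (nat_lit 7956001401) (nat_lit 76) (nat_lit 63454309303) (nat_lit 152) (nat_lit 54409205429) (nat_lit 17) (nat_lit 5) (nat_lit 18) (nat_lit 5) (nat_lit 19) (nat_lit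 4) (nat_lit 351) (nat_lit 292) (nat_lit 137)) (XT.lf (nat_lit 0) (nat_lit 55699291409) (nat_lit 76) (nat_lit 39002100752) (nat_lit 152) (nat_lit 36078746095) (nat_lit 17) (nat_lit 5) (nat_lit 18) (nat_lit 5) (nat_lit 19) (nat_lit 4) (nat_lit 352) (nat_lit 292) (nat_lit 136))) (XT.nd (nat_lit 78) (nat_lit 152) (nat_lit 0) (XT.lf (nat_lit 0) (nat_lit 105827466540) (nat_lit 76) (nat_lit 13328286069) (nat_lit 152) (nat_lit 16833103332) (nat_lit 17) (nat_lit 5) (nat_lit 18) (nat_lit 5) (nat_lit 19) (nat_lit 4) (nat_lit 353) (nat_lit 292) (nat_lit 135)) (XT.nd (nat_lit 78) (nat_lit 0) (nat_lit 0) (XT.lf (nat_lit 0) (nat_lit 3757064836) (nat_lit 152) (nat_lit 124150335828) (nat_lit 76) (nat_lit 13523462030) (nat_lit 15) (nat_lit 5) (nat_lit 17) (nat_lit 5) (nat_lit 16) (nat_lit 4) (nat_lit 354) (nat_lit 292) (nat_lit 134)) (XT.lf (nat_lit 0) (nat_lit 25547481525) (nat_lit 152) (nat_lit 79482801000)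 (nat_lit 76) (nat_lit 42064068104) (nat_lit 15) (nat_lit 5) (nat_lit 17) (nat_lit 5) (nat_lit 16) (nat_lit 4) (nat_lit 355) (nat_lit 292) (nat_lit 133))))))) (XT.nd (nat_lit 780) (nat_lit 228) (nat_lit 0) (XT.nd (nat_lit 390) (nat_lit 152) (nat_lit 0) (XT.nd (nat_lit 156) (nat_lit 76) (nat_lit 0) (XT.nd (nat_lit 78) (nat_lit 76) (nat_lit 0) (XT.lf (nat_lit 0) (nat_lit 48426252205) (nat_lit 152) (nat_lit 32584006233) (nat_lit 76) (nat_lit 72030813440) (nat_lit 15) (nat_lit 5) (nat_lit 17) (nat_lit 5) (nat_lit 16) (nat_lit 4) (nat_lit 356) (nat_lit 292) (nat_lit 132)) (XT.lf (nat_lit 0) (nat_lit 17208491463) (nat_lit 76) (nat_lit 55508031455) (nat_lit 152) (nat_lit 86555228749) (nat_lit 14) (nat_lit 5) (nat_lit 15) (nat_lit 5) (nat_lit 16) (nat_lit 4) (nat_lit 357) (nat_lit 292) (nat_lit 131))) (XT.nd (nat_lit 78) (nat_lit 76) (nat_lit 0) (XT.lf (nat_lit 0) (nat_lit 70619873678) (nat_lit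 76) (nat_lit 28152170071) (nat_lit 152) (nat_lit 67014385389) (nat_lit 14) (nat_lit 5) (nat_lit 15) (nat_lit 5) (nat_lit 16) (nat_lit 4) (nat_lit 358) (nat_lit 292) (nat_lit 130)) (XT.nd (nat_lit 78) (nat_lit 76) (nat_lit 0) (XT.lf (nat_lit 0) (nat_lit 126138212344) (nat_lit 152) (nat_lit 45935866065) (nat_lit 0) (nat_lit 552368988) (nat_lit 14) (nat_lit 5) (nat_lit 16) (nat_lit 4) (nat_lit 14) (nat_lit 4) (nat_lit 359) (nat_lit 292) (nat_lit 129)) (XT.lf (nat_lit 0) (nat_lit 5468021350) (nat_lit 76) (nat_lit 149950549423) (nat_lit 76) (nat_lit 24362602200) (nat_lit 13) (nat_lit 4) (nat_lit 14) (nat_lit 5) (nat_lit 14) (nat_lit 4) (nat_lit 360) (nat_lit 292) (nat_lit 128))))) (XT.nd (nat_lit 156) (nat_lit 76) (nat_lit 0) (XT.nd (nat_lit 78) (nat_lit 76) (nat_lit 0) (XT.lf (nat_lit 0) (nat_lit 61035086001) (nat_lit 76) (nat_lit 125904825972) (nat_lit 76) (nat_lit 314875065) (nat_lit 13)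 (nat_lit 4) (nat_lit 14) (nat_lit 5) (nat_lit 14) (nat_lit 4) (nat_lit 361) (nat_lit 292) (nat_lit 127)) (XT.lf (nat_lit 0) (nat_lit 24136204792) (nat_lit 152) (nat_lit 76112639352) (nat_lit 76) (nat_lit 94833820139) (nat_lit 12) (nat_lit 5) (nat_lit 14) (nat_lit 5) (nat_lit 13) (nat_lit 4) (nat_lit 362) (nat_lit 292) (nat_lit 126))) (XT.nd (nat_lit 78) (nat_lit 76) (nat_lit 0) (XT.lf (nat_lit 0) (nat_lit 49798351746) (nat_lit 152) (nat_lit 23507055495) (nat_lit 76) (nat_lit 129996315697) (nat_lit 12) (nat_lit 5) (nat_lit 14) (nat_lit 5) (nat_lit 13) (nat_lit 4) (nat_lit 363) (nat_lit 292) (nat_lit 125)) (XT.nd (nat_lit 78) (nat_lit 0) (nat_lit 0) (XT.lf (nat_lit 0) (nat_lit 32776263116) (nat_lit 76) (nat_lit 44478210322) (nat_lit 152) (nat_lit 134651718091) (nat_lit 11) (nat_lit 5) (nat_lit 12) (nat_lit 5) (nat_lit 13) (nat_lit 4) (nat_lit 364) (nat_lit 292) (nat_lit 124)) (XT.lf (nat_lit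 0) (nat_lit 92688295635) (nat_lit 76) (nat_lit 13792363635) (nat_lit 152) (nat_lit 114440361732) (nat_lit 11) (nat_lit 5) (nat_lit 12) (nat_lit 5) (nat_lit 13) (nat_lit 4) (nat_lit 365) (nat_lit 292) (nat_lit 123)))))) (XT.nd (nat_lit 390) (nat_lit 76) (nat_lit 0) (XT.nd (nat_lit 156) (nat_lit 152) (nat_lit 0) (XT.nd (nat_lit 78) (nat_lit 0) (nat_lit 0) (XT.lf (nat_lit 0) (nat_lit 137455047872) (nat_lit 152) (nat_lit 75079890731) (nat_lit 0) (nat_lit 17837309008) (nat_lit 11) (nat_lit 5) (nat_lit 13) (nat_lit 4) (nat_lit 11) (nat_lit 4) (nat_lit 366) (nat_lit 292) (nat_lit 122)) (XT.lf (nat_lit 0) (nat_lit 170203483334) (nat_lit 152) (nat_lit 19496965678) (nat_lit 0) (nat_lit 50584320489) (nat_lit 11) (nat_lit 5) (nat_lit 13) (nat_lit 4) (nat_lit 11) (nat_lit 4) (nat_lit 367) (nat_lit 292) (nat_lit 121))) (XT.nd (nat_lit 78) (nat_lit 76) (nat_lit 0) (XT.lf (nat_lit 0) (nat_lit 40148737882)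 (nat_lit 76) (nat_lit 165066697103) (nat_lit 76) (nat_lit 45446178087) (nat_lit 10) (nat_lit 4) (nat_lit 11) (nat_lit 5) (nat_lit 11) (nat_lit 4) (nat_lit 368) (nat_lit 292) (nat_lit 120)) (XT.nd (nat_lit 78) (nat_lit 76) (nat_lit 0) (XT.lf (nat_lit 0) (nat_lit 103452261381) (nat_lit 76) (nat_lit 138855187552) (nat_lit 76) (nat_lit 19233376943) (nat_lit 10) (nat_lit 4) (nat_lit 11) (nat_lit 5) (nat_lit 11) (nat_lit 4) (nat_lit 369) (nat_lit 292) (nat_lit 119)) (XT.lf (nat_lit 0) (nat_lit 8024027556) (nat_lit 152) (nat_lit 103173784204) (nat_lit 76) (nat_lit 161759751411) (nat_lit 9) (nat_lit 5) (nat_lit 11) (nat_lit 5) (nat_lit 10) (nat_lit 4) (nat_lit 370) (nat_lit 292) (nat_lit 118))))) (XT.nd (nat_lit 234) (nat_lit 0) (nat_lit 0) (XT.nd (nat_lit 78) (nat_lit 76) (nat_lit 0) (XT.lf (nat_lit 0) (nat_lit 35997265295) (nat_lit 152) (nat_lit 45829818353) (nat_lit 76) (nat_lit 203102322344)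 (nat_lit 9) (nat_lit 5) (nat_lit 11) (nat_lit 5) (nat_lit 10) (nat_lit 4) (nat_lit 371) (nat_lit 292) (nat_lit 117)) (XT.nd (nat_lit 78) (nat_lit 0) (nat_lit 0) (XT.lf (nat_lit 0) (nat_lit 14855626034) (nat_lit 76) (nat_lit 50744839316) (nat_lit 152) (nat_lit 231887810821) (nat_lit 8) (nat_lit 5) (nat_lit 9) (nat_lit 5) (nat_lit 10) (nat_lit 4) (nat_lit 372) (nat_lit 292) (nat_lit 116)) (XT.lf (nat_lit 0) (nat_lit 80165277118) (nat_lit 76) (nat_lit 17294072954) (nat_lit 152) (nat_lit 213176963783) (nat_lit 8) (nat_lit 5) (nat_lit 9) (nat_lit 5) (nat_lit 10) (nat_lit 4) (nat_lit 373) (nat_lit 292) (nat_lit 115)))) (XT.nd (nat_lit 78) (nat_lit 0) (nat_lit 0) (XT.lf (nat_lit 0) (nat_lit 131188939457) (nat_lit 152) (nat_lit 175980846254) (nat_lit 0) (nat_lit 17258079908) (nat_lit 8) (nat_lit 5) (nat_lit 10) (nat_lit 4) (nat_lit 8) (nat_lit 4) (nat_lit 374) (nat_lit 292) (nat_lit 114)) (XT.nd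 (nat_lit 78) (nat_lit 0) (nat_lit 0) (XT.lf (nat_lit 0) (nat_lit 166887942612) (nat_lit 152) (nat_lit 119050740700) (nat_lit 0) (nat_lit 52956165152) (nat_lit 8) (nat_lit 5) (nat_lit 10) (nat_lit 4) (nat_lit 8) (nat_lit 4) (nat_lit 375) (nat_lit 292) (nat_lit 113)) (XT.lf (nat_lit 0) (nat_lit 204371348217) (nat_lit 152) (nat_lit 59275163258) (nat_lit 0) (nat_lit 90438696557) (nat_lit 8) (nat_lit 5) (nat_lit 10) (nat_lit 4) (nat_lit 8) (nat_lit 4) (nat_lit 376) (nat_lit 292) (nat_lit 112))))))))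
noncomputable def xc194 : XT := (XT.nd (nat_lit 35178) (nat_lit 0) (nat_lit 2584) (XT.nd (nat_lit 34398) (nat_lit 0) (nat_lit 5700) (XT.nd (nat_lit 390) (nat_lit 76) (nat_lit 0) (XT.nd (nat_lit 156) (nat_lit 0) (nat_lit 0) (XT.nd (nat_lit 78) (nat_lit 0) (nat_lit 0) (XT.lf (nat_lit 0) (nat_lit 3603544811) (nat_lit 76) (nat_lit 240181119100) (nat_lit 76) (nat_lit 126247634868) (nat_lit 7) (nat_lit 4) (nat_lit 8) (nat_lit 5) (nat_lit 8) (nat_lit 4) (nat_lit 377) (nat_lit 292) (nat_lit 111)) (XT.lf (nat_lit 0) (nat_lit 71683119797) (nat_lit 76) (nat_lit 214488867259) (nat_lit 76) (nat_lit 100554590101) (nat_lit 7) (nat_lit 4) (nat_lit 8) (nat_lit 5) (nat_lit 8) (nat_lit 4) (nat_lit 378) (nat_lit 292) (nat_lit 110))) (XT.nd (nat_lit 78) (nat_lit 0) (nat_lit 0) (XT.lf (nat_lit 0) (nat_lit 143165751335) (nat_lit 76) (nat_lit 187512437496) (nat_lit 76) (nat_lit 73577405171) (nat_lit 7) (nat_lit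 4) (nat_lit 8) (nat_lit 5) (nat_lit 8) (nat_lit 4) (nat_lit 379) (nat_lit 292) (nat_lit 109)) (XT.nd (nat_lit 78) (nat_lit 0) (nat_lit 0) (XT.lf (nat_lit 0) (nat_lit 218221636167) (nat_lit 76) (nat_lit 159187600216) (nat_lit 76) (nat_lit 45251848685) (nat_lit 7) (nat_lit 4) (nat_lit 8) (nat_lit 5) (nat_lit 8) (nat_lit 4) (nat_lit 380) (nat_lit 292) (nat_lit 108)) (XT.lf (nat_lit 0) (nat_lit 297029478779) (nat_lit 76) (nat_lit 129446915331) (nat_lit 76) (nat_lit 15510478841) (nat_lit 7) (nat_lit 4) (nat_lit 8) (nat_lit 5) (nat_lit 8) (nat_lit 4) (nat_lit 381) (nat_lit 292) (nat_lit 107))))) (XT.nd (nat_lit 33774) (nat_lit 0) (nat_lit 6688) (XT.nd (nat_lit 33696) (nat_lit 0) (nat_lit 6688) (XT.lf (nat_lit 0) (nat_lit 15214458439) (nat_lit 152) (nat_lit 82747449032) (nat_lit 76) (nat_lit 364304794237) (nat_lit 6) (nat_lit 5) (nat_lit 8) (nat_lit 5) (nat_lit 7) (nat_lit 4) (nat_lit 382)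 (nat_lit 292) (nat_lit 106)) (XT.lf (nat_lit 0) (nat_lit 4137453687) (nat_lit 0) (nat_lit 4137453687) (nat_lit 684) (nat_lit 1995923696) (nat_lit 94) (nat_lit 5) (nat_lit 94) (nat_lit 3) (nat_lit 103) (nat_lit 3) (nat_lit 293) (nat_lit 293) (nat_lit 194))) (XT.nd (nat_lit 78) (nat_lit 0) (nat_lit 0) (XT.lf (nat_lit 0) (nat_lit 17127773730) (nat_lit 684) (nat_lit 2862369305) (nat_lit 760) (nat_lit 1056588544) (nat_lit 94) (nat_lit 5) (nat_lit 103) (nat_lit 3) (nat_lit 104) (nat_lit 5) (nat_lit 294) (nat_lit 293) (nat_lit 193)) (XT.nd (nat_lit 78) (nat_lit 0) (nat_lit 0) (XT.lf (nat_lit 76) (nat_lit 7098505994) (nat_lit 0) (nat_lit 10873259162) (nat_lit 760) (nat_lit 3593449344) (nat_lit 95) (nat_lit 5) (nat_lit 94) (nat_lit 5) (nat_lit 104) (nat_lit 5) (nat_lit 295) (nat_lit 293) (nat_lit 192)) (XT.lf (nat_lit 76) (nat_lit 17651613347) (nat_lit 0) (nat_lit 1245835250) (nat_lit 760) (nat_lit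 3210214284) (nat_lit 95) (nat_lit 5) (nat_lit 94) (nat_lit 5) (nat_lit 104) (nat_lit 5) (nat_lit 296) (nat_lit 293) (nat_lit 191)))))) (XT.nd (nat_lit 390) (nat_lit 380) (nat_lit 0) (XT.nd (nat_lit 156) (nat_lit 684) (nat_lit 0) (XT.nd (nat_lit 78) (nat_lit 0) (nat_lit 0) (XT.lf (nat_lit 76) (nat_lit 6106782806) (nat_lit 0) (nat_lit 13987854097) (nat_lit 760) (nat_lit 2571350924) (nat_lit 96) (nat_lit 5) (nat_lit 95) (nat_lit 5) (nat_lit 105) (nat_lit 5) (nat_lit 297) (nat_lit 293) (nat_lit 190)) (XT.lf (nat_lit 76) (nat_lit 17326010524) (nat_lit 0) (nat_lit 4113055790) (nat_lit 760) (nat_lit 1808808078) (nat_lit 96) (nat_lit 5) (nat_lit 95) (nat_lit 5) (nat_lit 105) (nat_lit 5) (nat_lit 298) (nat_lit 293) (nat_lit 189))) (XT.nd (nat_lit 78) (nat_lit 760) (nat_lit 0) (XT.lf (nat_lit 76) (nat_lit 5314225348) (nat_lit 0) (nat_lit 17709381072) (nat_lit 760) (nat_lit 826618172) (nat_lit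 97) (nat_lit 5) (nat_lit 96) (nat_lit 5) (nat_lit 106) (nat_lit 5) (nat_lit 299) (nat_lit 293) (nat_lit 188)) (XT.nd (nat_lit 78) (nat_lit 0) (nat_lit 76) (XT.lf (nat_lit 0) (nat_lit 359893395) (nat_lit 760) (nat_lit 7237948034) (nat_lit 836) (nat_lit 16876615416) (nat_lit 86) (nat_lit 5) (nat_lit 96) (nat_lit 5) (nat_lit 97) (nat_lit 5) (nat_lit 300) (nat_lit 293) (nat_lit 187)) (XT.lf (nat_lit 0) (nat_lit 1693612766) (nat_lit 760) (nat_lit 20416183434) (nat_lit 836) (nat_lit 3013655748) (nat_lit 87) (nat_lit 5) (nat_lit 97) (nat_lit 5) (nat_lit 98) (nat_lit 5) (nat_lit 301) (nat_lit 293) (nat_lit 186))))) (XT.nd (nat_lit 156) (nat_lit 456) (nat_lit 0) (XT.nd (nat_lit 78) (nat_lit 0) (nat_lit 0) (XT.lf (nat_lit 0) (nat_lit 3336210897) (nat_lit 760) (nat_lit 8430042493) (nat_lit 836) (nat_lit 14026545104) (nat_lit 87) (nat_lit 5) (nat_lit 97) (nat_lit 5) (nat_lit 98) (nat_lit 5) (nat_lit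 302) (nat_lit 293) (nat_lit 185)) (XT.lf (nat_lit 76) (nat_lit 4287153128) (nat_lit 0) (nat_lit 834101598) (nat_lit 836) (nat_lit 21371352638) (nat_lit 88) (nat_lit 5) (nat_lit 87) (nat_lit 5) (nat_lit 98) (nat_lit 5) (nat_lit 303) (nat_lit 293) (nat_lit 184))) (XT.nd (nat_lit 78) (nat_lit 532) (nat_lit 0) (XT.lf (nat_lit 0) (nat_lit 7300479206) (nat_lit 760) (nat_lit 9461646372) (nat_lit 76) (nat_lit 10450044951) (nat_lit 88) (nat_lit 5) (nat_lit 98) (nat_lit 5) (nat_lit 89) (nat_lit 5) (nat_lit 304) (nat_lit 293) (nat_lit 183)) (XT.nd (nat_lit 78) (nat_lit 0) (nat_lit 0) (XT.lf (nat_lit 0) (nat_lit 4029184559) (nat_lit 532) (nat_lit 5629992658) (nat_lit 608) (nat_lit 18305018805) (nat_lit 81) (nat_lit 5) (nat_lit 88) (nat_lit 5) (nat_lit 89) (nat_lit 5) (nat_lit 305) (nat_lit 293) (nat_lit 182)) (XT.lf (nat_lit 0) (nat_lit 12387413196) (nat_lit 608) (nat_lit 10325662652) (nat_lit 76)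 (nat_lit 6028176107) (nat_lit 81) (nat_lit 5) (nat_lit 89) (nat_lit 5) (nat_lit 82) (nat_lit 5) (nat_lit 306) (nat_lit 293) (nat_lit 181))))))) (XT.nd (nat_lit 780) (nat_lit 1444) (nat_lit 0) (XT.nd (nat_lit 390) (nat_lit 684) (nat_lit 0) (XT.nd (nat_lit 156) (nat_lit 608) (nat_lit 0) (XT.nd (nat_lit 78) (nat_lit 0) (nat_lit 0) (XT.lf (nat_lit 0) (nat_lit 3994296390) (nat_lit 380) (nat_lit 11406845174) (nat_lit 456) (nat_lit 14148573966) (nat_lit 76) (nat_lit 5) (nat_lit 81) (nat_lit 5) (nat_lit 82) (nat_lit 5) (nat_lit 307) (nat_lit 293) (nat_lit 180)) (XT.lf (nat_lit 0) (nat_lit 18745155582) (nat_lit 456) (nat_lit 11016840500) (nat_lit 76) (nat_lit 627634692) (nat_lit 76) (nat_lit 5) (nat_lit 82) (nat_lit 5) (nat_lit 77) (nat_lit 5) (nat_lit 308) (nat_lit 293) (nat_lit 179))) (XT.nd (nat_lit 78) (nat_lit 304) (nat_lit 0) (XT.lf (nat_lit 0) (nat_lit 4190460170) (nat_lit 304) (nat_lit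 18313196411) (nat_lit 380) (nat_lit 8755528935) (nat_lit 72) (nat_lit 5) (nat_lit 76) (nat_lit 5) (nat_lit 77) (nat_lit 5) (nat_lit 309) (nat_lit 293) (nat_lit 178)) (XT.nd (nat_lit 78) (nat_lit 304) (nat_lit 0) (XT.lf (nat_lit 0) (nat_lit 20535361339) (nat_lit 304) (nat_lit 6096323501) (nat_lit 380) (nat_lit 5531460712) (nat_lit 72) (nat_lit 5) (nat_lit 76) (nat_lit 5) (nat_lit 77) (nat_lit 5) (nat_lit 310) (nat_lit 293) (nat_lit 177)) (XT.lf (nat_lit 0) (nat_lit 4622832860) (nat_lit 304) (nat_lit 26515812417) (nat_lit 380) (nat_lit 1965039075) (nat_lit 68) (nat_lit 5) (nat_lit 72) (nat_lit 5) (nat_lit 73) (nat_lit 5) (nat_lit 311) (nat_lit 293) (nat_lit 176))))) (XT.nd (nat_lit 156) (nat_lit 304) (nat_lit 0) (XT.nd (nat_lit 78) (nat_lit 304) (nat_lit 0) (XT.lf (nat_lit 0) (nat_lit 2018154870) (nat_lit 380) (nat_lit 12127998477) (nat_lit 76) (nat_lit 19928943418) (nat_lit 67) (nat_lit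 5) (nat_lit 72) (nat_lit 5) (nat_lit 68) (nat_lit 5) (nat_lit 312) (nat_lit 293) (nat_lit 175)) (XT.lf (nat_lit 0) (nat_lit 5170720132) (nat_lit 304) (nat_lit 1040025086) (nat_lit 380) (nat_lit 28878916453) (nat_lit 63) (nat_lit 5) (nat_lit 67) (nat_lit 5) (nat_lit 68) (nat_lit 5) (nat_lit 313) (nat_lit 293) (nat_lit 174))) (XT.nd (nat_lit 78) (nat_lit 304) (nat_lit 0) (XT.lf (nat_lit 0) (nat_lit 11016012200) (nat_lit 380) (nat_lit 12596426519) (nat_lit 76) (nat_lit 12522369757) (nat_lit 63) (nat_lit 5) (nat_lit 68) (nat_lit 5) (nat_lit 64) (nat_lit 5) (nat_lit 314) (nat_lit 293) (nat_lit 173)) (XT.nd (nat_lit 78) (nat_lit 0) (nat_lit 0) (XT.lf (nat_lit 0) (nat_lit 5754399671) (nat_lit 304) (nat_lit 10409910593) (nat_lit 380) (nat_lit 21062769689) (nat_lit 59) (nat_lit 5) (nat_lit 63) (nat_lit 5) (nat_lit 64) (nat_lit 5) (nat_lit 315) (nat_lit 293) (nat_lit 172)) (XT.lf (nat_lit 0) (nat_lit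 21836736893) (nat_lit 380) (nat_lit 12965670429) (nat_lit 76) (nat_lit 3558227449) (nat_lit 59) (nat_lit 5) (nat_lit 64) (nat_lit 5) (nat_lit 60) (nat_lit 5) (nat_lit 316) (nat_lit 293) (nat_lit 171)))))) (XT.nd (nat_lit 390) (nat_lit 684) (nat_lit 0) (XT.nd (nat_lit 156) (nat_lit 532) (nat_lit 0) (XT.nd (nat_lit 78) (nat_lit 0) (nat_lit 0) (XT.lf (nat_lit 0) (nat_lit 6499238294) (nat_lit 228) (nat_lit 21561846361) (nat_lit 304) (nat_lit 11476372873) (nat_lit 56) (nat_lit 5) (nat_lit 59) (nat_lit 5) (nat_lit 60) (nat_lit 5) (nat_lit 317) (nat_lit 293) (nat_lit 170)) (XT.lf (nat_lit 0) (nat_lit 27382795327) (nat_lit 228) (nat_lit 7429716825) (nat_lit 304) (nat_lit 5949821095) (nat_lit 56) (nat_lit 5) (nat_lit 59) (nat_lit 5) (nat_lit 60) (nat_lit 5) (nat_lit 318) (nat_lit 293) (nat_lit 169))) (XT.nd (nat_lit 78) (nat_lit 228) (nat_lit 0) (XT.lf (nat_lit 0) (nat_lit 88792139) (nat_lit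 304) (nat_lit 34660661555) (nat_lit 76) (nat_lit 7287566709) (nat_lit 52) (nat_lit 5) (nat_lit 56) (nat_lit 5) (nat_lit 53) (nat_lit 5) (nat_lit 319) (nat_lit 293) (nat_lit 168)) (XT.nd (nat_lit 78) (nat_lit 228) (nat_lit 0) (XT.lf (nat_lit 0) (nat_lit 6577965962) (nat_lit 304) (nat_lit 13957328120) (nat_lit 76) (nat_lit 22817846055) (nat_lit 52) (nat_lit 5) (nat_lit 56) (nat_lit 5) (nat_lit 53) (nat_lit 5) (nat_lit 320) (nat_lit 293) (nat_lit 167)) (XT.lf (nat_lit 0) (nat_lit 8033806645) (nat_lit 228) (nat_lit 5479870423) (nat_lit 304) (nat_lit 31215288925) (nat_lit 49) (nat_lit 5) (nat_lit 52) (nat_lit 5) (nat_lit 53) (nat_lit 5) (nat_lit 321) (nat_lit 293) (nat_lit 166))))) (XT.nd (nat_lit 234) (nat_lit 456) (nat_lit 0) (XT.nd (nat_lit 78) (nat_lit 228) (nat_lit 0) (XT.lf (nat_lit 0) (nat_lit 21194397616) (nat_lit 304) (nat_lit 14722401996) (nat_lit 76) (nat_lit 10236876209) (nat_lit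 49) (nat_lit 5) (nat_lit 53) (nat_lit 5) (nat_lit 50) (nat_lit 5) (nat_lit 322) (nat_lit 293) (nat_lit 165)) (XT.nd (nat_lit 78) (nat_lit 0) (nat_lit 0) (XT.lf (nat_lit 0) (nat_lit 8527744607) (nat_lit 228) (nat_lit 20951262380) (nat_lit 304) (nat_lit 18159625200) (nat_lit 46) (nat_lit 5) (nat_lit 49) (nat_lit 5) (nat_lit 50) (nat_lit 5) (nat_lit 323) (nat_lit 293) (nat_lit 164)) (XT.lf (nat_lit 0) (nat_lit 33447241588) (nat_lit 228) (nat_lit 4976894916) (nat_lit 304) (nat_lit 10761388897) (nat_lit 46) (nat_lit 5) (nat_lit 49) (nat_lit 5) (nat_lit 50) (nat_lit 5) (nat_lit 324) (nat_lit 293) (nat_lit 163)))) (XT.nd (nat_lit 78) (nat_lit 304) (nat_lit 0) (XT.lf (nat_lit 0) (nat_lit 8899403943) (nat_lit 152) (nat_lit 39237319788) (nat_lit 228) (nat_lit 2657032827) (nat_lit 44) (nat_lit 5) (nat_lit 46) (nat_lit 5) (nat_lit 47) (nat_lit 5) (nat_lit 325) (nat_lit 293) (nat_lit 162)) (XT.nd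 (nat_lit 78) (nat_lit 228) (nat_lit 0) (XT.lf (nat_lit 0) (nat_lit 6014825977) (nat_lit 228) (nat_lit 17335272970) (nat_lit 76) (nat_lit 29110254491) (nat_lit 43) (nat_lit 5) (nat_lit 46) (nat_lit 5) (nat_lit 44) (nat_lit 5) (nat_lit 326) (nat_lit 293) (nat_lit 161)) (XT.lf (nat_lit 0) (nat_lit 8682042521) (nat_lit 228) (nat_lit 6481739600) (nat_lit 304) (nat_lit 39037683129) (nat_lit 40) (nat_lit 5) (nat_lit 43) (nat_lit 5) (nat_lit 44) (nat_lit 5) (nat_lit 327) (nat_lit 293) (nat_lit 160))))))))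
noncomputable def xc195 : XT := (XT.nd (nat_lit 1638) (nat_lit 836) (nat_lit 0) (XT.nd (nat_lit 780) (nat_lit 684) (nat_lit 0) (XT.nd (nat_lit 390) (nat_lit 380) (nat_lit 0) (XT.nd (nat_lit 156) (nat_lit 228) (nat_lit 0) (XT.nd (nat_lit 78) (nat_lit 152) (nat_lit 0) (XT.lf (nat_lit 0) (nat_lit 25241208470) (nat_lit 304) (nat_lit 19597124872) (nat_lit 76) (nat_lit 11167750941) (nat_lit 40) (nat_lit 5) (nat_lit 44) (nat_lit 5) (nat_lit 41) (nat_lit 5) (nat_lit 328) (nat_lit 293) (nat_lit 159)) (XT.lf (nat_lit 0) (nat_lit 7759485232) (nat_lit 152) (nat_lit 28287850997) (nat_lit 228) (nat_lit 21842359158) (nat_lit 38) (nat_lit 5) (nat_lit 40) (nat_lit 5) (nat_lit 41) (nat_lit 5) (nat_lit 329) (nat_lit 293) (nat_lit 158))) (XT.nd (nat_lit 78) (nat_lit 228) (nat_lit 0) (XT.lf (nat_lit 0) (nat_lit 37160460010) (nat_lit 152) (nat_lit 10562684689) (nat_lit 228) (nat_lit 12127876126) (nat_lit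 38) (nat_lit 5) (nat_lit 40) (nat_lit 5) (nat_lit 41) (nat_lit 5) (nat_lit 330) (nat_lit 293) (nat_lit 157)) (XT.nd (nat_lit 78) (nat_lit 76) (nat_lit 0) (XT.lf (nat_lit 0) (nat_lit 6189765178) (nat_lit 152) (nat_lit 54012868906) (nat_lit 228) (nat_lit 1696786301) (nat_lit 36) (nat_lit 5) (nat_lit 38) (nat_lit 5) (nat_lit 39) (nat_lit 5) (nat_lit 331) (nat_lit 293) (nat_lit 156)) (XT.lf (nat_lit 0) (nat_lit 9520950690) (nat_lit 228) (nat_lit 27056896294) (nat_lit 76) (nat_lit 27437102707) (nat_lit 35) (nat_lit 5) (nat_lit 38) (nat_lit 5) (nat_lit 36) (nat_lit 5) (nat_lit 332) (nat_lit 293) (nat_lit 155))))) (XT.nd (nat_lit 156) (nat_lit 228) (nat_lit 0) (XT.nd (nat_lit 78) (nat_lit 0) (nat_lit 0) (XT.lf (nat_lit 0) (nat_lit 3096187044) (nat_lit 152) (nat_lit 18192422541) (nat_lit 228) (nat_lit 44943954212) (nat_lit 33) (nat_lit 5) (nat_lit 35) (nat_lit 5) (nat_lit 36) (nat_lit 5) (nat_lit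 333) (nat_lit 293) (nat_lit 154)) (XT.lf (nat_lit 0) (nat_lit 34125501651) (nat_lit 228) (nat_lit 32870375816) (nat_lit 76) (nat_lit 1541140584) (nat_lit 33) (nat_lit 5) (nat_lit 36) (nat_lit 5) (nat_lit 34) (nat_lit 5) (nat_lit 334) (nat_lit 293) (nat_lit 153))) (XT.nd (nat_lit 78) (nat_lit 228) (nat_lit 0) (XT.lf (nat_lit 0) (nat_lit 47900332912) (nat_lit 228) (nat_lit 1392768078) (nat_lit 76) (nat_lit 21648791162) (nat_lit 33) (nat_lit 5) (nat_lit 36) (nat_lit 5) (nat_lit 34) (nat_lit 5) (nat_lit 335) (nat_lit 293) (nat_lit 152)) (XT.nd (nat_lit 78) (nat_lit 76) (nat_lit 0) (XT.lf (nat_lit 0) (nat_lit 32702099249) (nat_lit 152) (nat_lit 30170338053) (nat_lit 228) (nat_lit 10569147851) (nat_lit 31) (nat_lit 5) (nat_lit 33) (nat_lit 5) (nat_lit 34) (nat_lit 5) (nat_lit 336) (nat_lit 293) (nat_lit 151)) (XT.lf (nat_lit 0) (nat_lit 2467954313) (nat_lit 228) (nat_lit 7558165909) (nat_lit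 76) (nat_lit 66037074291) (nat_lit 30) (nat_lit 5) (nat_lit 33) (nat_lit 5) (nat_lit 31) (nat_lit 5) (nat_lit 337) (nat_lit 293) (nat_lit 150)))))) (XT.nd (nat_lit 390) (nat_lit 304) (nat_lit 0) (XT.nd (nat_lit 156) (nat_lit 228) (nat_lit 0) (XT.nd (nat_lit 78) (nat_lit 0) (nat_lit 0) (XT.lf (nat_lit 0) (nat_lit 16420663941) (nat_lit 228) (nat_lit 50967099880) (nat_lit 76) (nat_lit 11388511563) (nat_lit 28) (nat_lit 5) (nat_lit 31) (nat_lit 5) (nat_lit 29) (nat_lit 5) (nat_lit 338) (nat_lit 293) (nat_lit 149)) (XT.lf (nat_lit 0) (nat_lit 31363564851) (nat_lit 228) (nat_lit 16580961145) (nat_lit 76) (nat_lit 33665857973) (nat_lit 28) (nat_lit 5) (nat_lit 31) (nat_lit 5) (nat_lit 29) (nat_lit 5) (nat_lit 339) (nat_lit 293) (nat_lit 148))) (XT.nd (nat_lit 78) (nat_lit 76) (nat_lit 0) (XT.lf (nat_lit 0) (nat_lit 20166927049) (nat_lit 152) (nat_lit 27199730383) (nat_lit 228) (nat_lit 37203889611)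 (nat_lit 26) (nat_lit 5) (nat_lit 28) (nat_lit 5) (nat_lit 29) (nat_lit 5) (nat_lit 340) (nat_lit 293) (nat_lit 147)) (XT.nd (nat_lit 78) (nat_lit 76) (nat_lit 0) (XT.lf (nat_lit 0) (nat_lit 59324886890) (nat_lit 152) (nat_lit 5124048720) (nat_lit 228) (nat_lit 23215832435) (nat_lit 26) (nat_lit 5) (nat_lit 28) (nat_lit 5) (nat_lit 29) (nat_lit 5) (nat_lit 341) (nat_lit 293) (nat_lit 146)) (XT.lf (nat_lit 0) (nat_lit 9547836843) (nat_lit 76) (nat_lit 73266746072) (nat_lit 152) (nat_lit 8077655682) (nat_lit 25) (nat_lit 5) (nat_lit 26) (nat_lit 5) (nat_lit 27) (nat_lit 4) (nat_lit 342) (nat_lit 293) (nat_lit 145))))) (XT.nd (nat_lit 234) (nat_lit 76) (nat_lit 0) (XT.nd (nat_lit 78) (nat_lit 152) (nat_lit 0) (XT.lf (nat_lit 0) (nat_lit 8137341041) (nat_lit 152) (nat_lit 44160081679) (nat_lit 76) (nat_lit 41949052615) (nat_lit 24) (nat_lit 5) (nat_lit 26) (nat_lit 5) (nat_lit 25) (nat_lit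 5) (nat_lit 343) (nat_lit 293) (nat_lit 144)) (XT.nd (nat_lit 78) (nat_lit 152) (nat_lit 0) (XT.lf (nat_lit 0) (nat_lit 24890005673) (nat_lit 152) (nat_lit 5251740556) (nat_lit 76) (nat_lit 67620138727) (nat_lit 24) (nat_lit 5) (nat_lit 26) (nat_lit 5) (nat_lit 25) (nat_lit 5) (nat_lit 344) (nat_lit 293) (nat_lit 143)) (XT.lf (nat_lit 0) (nat_lit 36776451485) (nat_lit 152) (nat_lit 6276492927) (nat_lit 228) (nat_lit 58371489638) (nat_lit 22) (nat_lit 5) (nat_lit 24) (nat_lit 5) (nat_lit 25) (nat_lit 5) (nat_lit 345) (nat_lit 293) (nat_lit 142)))) (XT.nd (nat_lit 78) (nat_lit 76) (nat_lit 0) (XT.lf (nat_lit 0) (nat_lit 62506142173) (nat_lit 228) (nat_lit 24474639021) (nat_lit 76) (nat_lit 18270224791) (nat_lit 22) (nat_lit 5) (nat_lit 25) (nat_lit 5) (nat_lit 23) (nat_lit 4) (nat_lit 346) (nat_lit 293) (nat_lit 141)) (XT.nd (nat_lit 78) (nat_lit 0) (nat_lit 0) (XT.lf (nat_lit 0) (nat_lit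 18183945723) (nat_lit 76) (nat_lit 65133395734) (nat_lit 152) (nat_lit 25932298916) (nat_lit 21) (nat_lit 5) (nat_lit 22) (nat_lit 5) (nat_lit 23) (nat_lit 4) (nat_lit 347) (nat_lit 293) (nat_lit 140)) (XT.lf (nat_lit 0) (nat_lit 63822672278) (nat_lit 76) (nat_lit 41759494579) (nat_lit 152) (nat_lit 7845387214) (nat_lit 21) (nat_lit 5) (nat_lit 22) (nat_lit 5) (nat_lit 23) (nat_lit 4) (nat_lit 348) (nat_lit 293) (nat_lit 139))))))) (XT.nd (nat_lit 780) (nat_lit 304) (nat_lit 0) (XT.nd (nat_lit 390) (nat_lit 228) (nat_lit 0) (XT.nd (nat_lit 156) (nat_lit 76) (nat_lit 0) (XT.nd (nat_lit 78) (nat_lit 152) (nat_lit 0) (XT.lf (nat_lit 0) (nat_lit 10787753660) (nat_lit 152) (nat_lit 6247465948) (nat_lit 76) (nat_lit 100770512691) (nat_lit 20) (nat_lit 5) (nat_lit 22) (nat_lit 5) (nat_lit 21) (nat_lit 5) (nat_lit 349) (nat_lit 293) (nat_lit 138)) (XT.lf (nat_lit 0) (nat_lit 30870775745) (nat_lit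 228) (nat_lit 82075400370) (nat_lit 76) (nat_lit 9411119424) (nat_lit 18) (nat_lit 5) (nat_lit 21) (nat_lit 5) (nat_lit 19) (nat_lit 4) (nat_lit 350) (nat_lit 293) (nat_lit 137))) (XT.nd (nat_lit 78) (nat_lit 76) (nat_lit 0) (XT.lf (nat_lit 0) (nat_lit 52343451709) (nat_lit 228) (nat_lit 38059841622) (nat_lit 76) (nat_lit 36713869206) (nat_lit 18) (nat_lit 5) (nat_lit 21) (nat_lit 5) (nat_lit 19) (nat_lit 4) (nat_lit 351) (nat_lit 293) (nat_lit 136)) (XT.nd (nat_lit 78) (nat_lit 0) (nat_lit 0) (XT.lf (nat_lit 0) (nat_lit 8423906246) (nat_lit 76) (nat_lit 66596136515) (nat_lit 152) (nat_lit 57088466761) (nat_lit 17) (nat_lit 5) (nat_lit 18) (nat_lit 5) (nat_lit 19) (nat_lit 4) (nat_lit 352) (nat_lit 293) (nat_lit 135)) (XT.lf (nat_lit 0) (nat_lit 58551022433) (nat_lit 76) (nat_lit 40922788405) (nat_lit 152) (nat_lit 37843446315) (nat_lit 17) (nat_lit 5) (nat_lit 18) (nat_lit 5) (nat_lit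 19) (nat_lit 4) (nat_lit 353) (nat_lit 293) (nat_lit 134))))) (XT.nd (nat_lit 156) (nat_lit 76) (nat_lit 0) (XT.nd (nat_lit 78) (nat_lit 152) (nat_lit 0) (XT.lf (nat_lit 0) (nat_lit 111182426965) (nat_lit 76) (nat_lit 13966683817) (nat_lit 152) (nat_lit 17637389846) (nat_lit 17) (nat_lit 5) (nat_lit 18) (nat_lit 5) (nat_lit 19) (nat_lit 4) (nat_lit 354) (nat_lit 293) (nat_lit 133)) (XT.lf (nat_lit 0) (nat_lit 3980805628) (nat_lit 152) (nat_lit 130292748007) (nat_lit 76) (nat_lit 14227040055) (nat_lit 15) (nat_lit 5) (nat_lit 17) (nat_lit 5) (nat_lit 16) (nat_lit 4) (nat_lit 355) (nat_lit 293) (nat_lit 132))) (XT.nd (nat_lit 78) (nat_lit 76) (nat_lit 0) (XT.lf (nat_lit 0) (nat_lit 26859034220) (nat_lit 152) (nat_lit 83394936657) (nat_lit 76) (nat_lit 44193371436) (nat_lit 15) (nat_lit 5) (nat_lit 17) (nat_lit 5) (nat_lit 16) (nat_lit 4) (nat_lit 356) (nat_lit 293) (nat_lit 131)) (XT.nd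 (nat_lit 78) (nat_lit 76) (nat_lit 0) (XT.lf (nat_lit 0) (nat_lit 50880115881) (nat_lit 152) (nat_lit 34154154742) (nat_lit 76) (nat_lit 75657211186) (nat_lit 15) (nat_lit 5) (nat_lit 17) (nat_lit 5) (nat_lit 16) (nat_lit 4) (nat_lit 357) (nat_lit 293) (nat_lit 130)) (XT.lf (nat_lit 0) (nat_lit 18127015391) (nat_lit 76) (nat_lit 58257241781) (nat_lit 152) (nat_lit 90849471329) (nat_lit 14) (nat_lit 5) (nat_lit 15) (nat_lit 5) (nat_lit 16) (nat_lit 4) (nat_lit 358) (nat_lit 293) (nat_lit 129)))))) (XT.nd (nat_lit 390) (nat_lit 152) (nat_lit 0) (XT.nd (nat_lit 156) (nat_lit 152) (nat_lit 0) (XT.nd (nat_lit 78) (nat_lit 0) (nat_lit 0) (XT.lf (nat_lit 0) (nat_lit 74206200080) (nat_lit 76) (nat_lit 29534834531) (nat_lit 152) (nat_lit 70333181937) (nat_lit 14) (nat_lit 5) (nat_lit 15) (nat_lit 5) (nat_lit 16) (nat_lit 4) (nat_lit 359) (nat_lit 293) (nat_lit 128)) (XT.lf (nat_lit 0) (nat_lit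 132474435457) (nat_lit 152) (nat_lit 48178871446) (nat_lit 0) (nat_lit 602983322) (nat_lit 14) (nat_lit 5) (nat_lit 16) (nat_lit 4) (nat_lit 14) (nat_lit 4) (nat_lit 360) (nat_lit 293) (nat_lit 127))) (XT.nd (nat_lit 78) (nat_lit 76) (nat_lit 0) (XT.lf (nat_lit 0) (nat_lit 5794342793) (nat_lit 76) (nat_lit 157423899417) (nat_lit 76) (nat_lit 25550539012) (nat_lit 13) (nat_lit 4) (nat_lit 14) (nat_lit 5) (nat_lit 14) (nat_lit 4) (nat_lit 361) (nat_lit 293) (nat_lit 126)) (XT.nd (nat_lit 78) (nat_lit 76) (nat_lit 0) (XT.lf (nat_lit 0) (nat_lit 64137240659) (nat_lit 76) (nat_lit 132177041102) (nat_lit 76) (nat_lit 301863297) (nat_lit 13) (nat_lit 4) (nat_lit 14) (nat_lit 5) (nat_lit 14) (nat_lit 4) (nat_lit 362) (nat_lit 293) (nat_lit 125)) (XT.lf (nat_lit 0) (nat_lit 25369524713) (nat_lit 152) (nat_lit 79869383000) (nat_lit 76) (nat_lit 99596552851) (nat_lit 12) (nat_lit 5) (nat_lit 14)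 (nat_lit 5) (nat_lit 13) (nat_lit 4) (nat_lit 363) (nat_lit 293) (nat_lit 124))))) (XT.nd (nat_lit 234) (nat_lit 76) (nat_lit 0) (XT.nd (nat_lit 78) (nat_lit 76) (nat_lit 0) (XT.lf (nat_lit 0) (nat_lit 52313516649) (nat_lit 152) (nat_lit 24635847965) (nat_lit 76) (nat_lit 136516171201) (nat_lit 12) (nat_lit 5) (nat_lit 14) (nat_lit 5) (nat_lit 13) (nat_lit 4) (nat_lit 364) (nat_lit 293) (nat_lit 123)) (XT.nd (nat_lit 78) (nat_lit 0) (nat_lit 0) (XT.lf (nat_lit 0) (nat_lit 34460885604) (nat_lit 76) (nat_lit 46681071780) (nat_lit 152) (nat_lit 141358295322) (nat_lit 11) (nat_lit 5) (nat_lit 12) (nat_lit 5) (nat_lit 13) (nat_lit 4) (nat_lit 365) (nat_lit 293) (nat_lit 122)) (XT.lf (nat_lit 0) (nat_lit 97366338352) (nat_lit 76) (nat_lit 14461935095) (nat_lit 152) (nat_lit 120137609653) (nat_lit 11) (nat_lit 5) (nat_lit 12) (nat_lit 5) (nat_lit 13) (nat_lit 4) (nat_lit 366) (nat_lit 293)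 (nat_lit 121)))) (XT.nd (nat_lit 78) (nat_lit 76) (nat_lit 0) (XT.lf (nat_lit 0) (nat_lit 144350556646) (nat_lit 152) (nat_lit 78791500599) (nat_lit 0) (nat_lit 18747655507) (nat_lit 11) (nat_lit 5) (nat_lit 13) (nat_lit 4) (nat_lit 11) (nat_lit 4) (nat_lit 367) (nat_lit 293) (nat_lit 120)) (XT.nd (nat_lit 78) (nat_lit 76) (nat_lit 0) (XT.lf (nat_lit 0) (nat_lit 178735330244) (nat_lit 152) (nat_lit 20431447612) (nat_lit 0) (nat_lit 53131137513) (nat_lit 11) (nat_lit 5) (nat_lit 13) (nat_lit 4) (nat_lit 11) (nat_lit 4) (nat_lit 368) (nat_lit 293) (nat_lit 119)) (XT.lf (nat_lit 0) (nat_lit 42195890056) (nat_lit 76) (nat_lit 173301577452) (nat_lit 76) (nat_lit 47696154634) (nat_lit 10) (nat_lit 4) (nat_lit 11) (nat_lit 5) (nat_lit 11) (nat_lit 4) (nat_lit 369) (nat_lit 293) (nat_lit 118))))))))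
noncomputable def xc196 : XT := (XT.nd (nat_lit 35256) (nat_lit 0) (nat_lit 3420) (XT.nd (nat_lit 780) (nat_lit 0) (nat_lit 0) (XT.nd (nat_lit 390) (nat_lit 76) (nat_lit 0) (XT.nd (nat_lit 156) (nat_lit 76) (nat_lit 0) (XT.nd (nat_lit 78) (nat_lit 76) (nat_lit 0) (XT.lf (nat_lit 0) (nat_lit 108662698526) (nat_lit 76) (nat_lit 145780371210) (nat_lit 76) (nat_lit 20173776879) (nat_lit 10) (nat_lit 4) (nat_lit 11) (nat_lit 5) (nat_lit 11) (nat_lit 4) (nat_lit 370) (nat_lit 293) (nat_lit 117)) (XT.lf (nat_lit 0) (nat_lit 8444836719) (nat_lit 152) (nat_lit 108295794782) (nat_lit 76) (nat_lit 169863822060) (nat_lit 9) (nat_lit 5) (nat_lit 11) (nat_lit 5) (nat_lit 10) (nat_lit 4) (nat_lit 371) (nat_lit 293) (nat_lit 116))) (XT.nd (nat_lit 78) (nat_lit 76) (nat_lit 0) (XT.lf (nat_lit 0) (nat_lit 37815802640) (nat_lit 152) (nat_lit 48086377239) (nat_lit 76) (nat_lit 213272755679) (nat_lit 9)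 (nat_lit 5) (nat_lit 11) (nat_lit 5) (nat_lit 10) (nat_lit 4) (nat_lit 372) (nat_lit 293) (nat_lit 115)) (XT.nd (nat_lit 78) (nat_lit 0) (nat_lit 0) (XT.lf (nat_lit 0) (nat_lit 15632775947) (nat_lit 76) (nat_lit 53266034099) (nat_lit 152) (nat_lit 243462957168) (nat_lit 8) (nat_lit 5) (nat_lit 9) (nat_lit 5) (nat_lit 10) (nat_lit 4) (nat_lit 373) (nat_lit 293) (nat_lit 114)) (XT.lf (nat_lit 0) (nat_lit 84206272985) (nat_lit 76) (nat_lit 18143493571) (nat_lit 152) (nat_lit 223817484168) (nat_lit 8) (nat_lit 5) (nat_lit 9) (nat_lit 5) (nat_lit 10) (nat_lit 4) (nat_lit 374) (nat_lit 293) (nat_lit 113))))) (XT.nd (nat_lit 156) (nat_lit 76) (nat_lit 0) (XT.nd (nat_lit 78) (nat_lit 0) (nat_lit 0) (XT.lf (nat_lit 0) (nat_lit 137765231755) (nat_lit 152) (nat_lit 184748105496) (nat_lit 0) (nat_lit 18135073311) (nat_lit 8) (nat_lit 5) (nat_lit 10) (nat_lit 4) (nat_lit 8) (nat_lit 4) (nat_lit 375)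 (nat_lit 293) (nat_lit 112)) (XT.lf (nat_lit 0) (nat_lit 175248382909) (nat_lit 152) (nat_lit 124973008143) (nat_lit 0) (nat_lit 55617391893) (nat_lit 8) (nat_lit 5) (nat_lit 10) (nat_lit 4) (nat_lit 8) (nat_lit 4) (nat_lit 376) (nat_lit 293) (nat_lit 111))) (XT.nd (nat_lit 78) (nat_lit 76) (nat_lit 0) (XT.lf (nat_lit 0) (nat_lit 214605194834) (nat_lit 152) (nat_lit 62210093239) (nat_lit 0) (nat_lit 94973410893) (nat_lit 8) (nat_lit 5) (nat_lit 10) (nat_lit 4) (nat_lit 8) (nat_lit 4) (nat_lit 377) (nat_lit 293) (nat_lit 110)) (XT.nd (nat_lit 78) (nat_lit 0) (nat_lit 0) (XT.lf (nat_lit 0) (nat_lit 3812085262) (nat_lit 76) (nat_lit 252176806298) (nat_lit 76) (nat_lit 132544267190) (nat_lit 7) (nat_lit 4) (nat_lit 8) (nat_lit 5) (nat_lit 8) (nat_lit 4) (nat_lit 378) (nat_lit 293) (nat_lit 109)) (XT.lf (nat_lit 0) (nat_lit 75294288369) (nat_lit 76) (nat_lit 225200578472) (nat_lit 76) (nat_lit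 105567320157) (nat_lit 7) (nat_lit 4) (nat_lit 8) (nat_lit 5) (nat_lit 8) (nat_lit 4) (nat_lit 379) (nat_lit 293) (nat_lit 108)))))) (XT.nd (nat_lit 34086) (nat_lit 0) (nat_lit 6612) (XT.nd (nat_lit 156) (nat_lit 0) (nat_lit 0) (XT.nd (nat_lit 78) (nat_lit 0) (nat_lit 0) (XT.lf (nat_lit 0) (nat_lit 150349765171) (nat_lit 76) (nat_lit 196875933514) (nat_lit 76) (nat_lit 77241990240) (nat_lit 7) (nat_lit 4) (nat_lit 8) (nat_lit 5) (nat_lit 8) (nat_lit 4) (nat_lit 380) (nat_lit 293) (nat_lit 107)) (XT.lf (nat_lit 0) (nat_lit 229157219183) (nat_lit 76) (nat_lit 167135431792) (nat_lit 76) (nat_lit 47500836176) (nat_lit 7) (nat_lit 4) (nat_lit 8) (nat_lit 5) (nat_lit 8) (nat_lit 4) (nat_lit 381) (nat_lit 293) (nat_lit 106))) (XT.nd (nat_lit 33774) (nat_lit 0) (nat_lit 6612) (XT.lf (nat_lit 0) (nat_lit 311904287202) (nat_lit 76) (nat_lit 135908262588) (nat_lit 76) (nat_lit 16273045694) (nat_lit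 7) (nat_lit 4) (nat_lit 8) (nat_lit 5) (nat_lit 8) (nat_lit 4) (nat_lit 382) (nat_lit 293) (nat_lit 105)) (XT.nd (nat_lit 78) (nat_lit 0) (nat_lit 0) (XT.lf (nat_lit 0) (nat_lit 4416763419) (nat_lit 0) (nat_lit 4416763419) (nat_lit 684) (nat_lit 1943344727) (nat_lit 94) (nat_lit 5) (nat_lit 94) (nat_lit 3) (nat_lit 103) (nat_lit 3) (nat_lit 294) (nat_lit 294) (nat_lit 192)) (XT.lf (nat_lit 0) (nat_lit 18257958893) (nat_lit 684) (nat_lit 2851070530) (nat_lit 760) (nat_lit 975858715) (nat_lit 94) (nat_lit 5) (nat_lit 103) (nat_lit 3) (nat_lit 104) (nat_lit 5) (nat_lit 295) (nat_lit 294) (nat_lit 191))))) (XT.nd (nat_lit 156) (nat_lit 0) (nat_lit 76) (XT.nd (nat_lit 78) (nat_lit 0) (nat_lit 0) (XT.lf (nat_lit 76) (nat_lit 7605357933) (nat_lit 0) (nat_lit 11528126029) (nat_lit 760) (nat_lit 3496367880) (nat_lit 95) (nat_lit 5) (nat_lit 94) (nat_lit 5) (nat_lit 104) (nat_lit 5) (nat_lit 296)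 (nat_lit 294) (nat_lit 190)) (XT.lf (nat_lit 76) (nat_lit 18678886052) (nat_lit 0) (nat_lit 1414035498) (nat_lit 760) (nat_lit 3107149826) (nat_lit 95) (nat_lit 5) (nat_lit 94) (nat_lit 5) (nat_lit 104) (nat_lit 5) (nat_lit 297) (nat_lit 294) (nat_lit 189))) (XT.nd (nat_lit 78) (nat_lit 0) (nat_lit 0) (XT.lf (nat_lit 76) (nat_lit 6568872481) (nat_lit 0) (nat_lit 14770035959) (nat_lit 760) (nat_lit 2447978344) (nat_lit 96) (nat_lit 5) (nat_lit 95) (nat_lit 5) (nat_lit 105) (nat_lit 5) (nat_lit 298) (nat_lit 294) (nat_lit 188)) (XT.nd (nat_lit 78) (nat_lit 0) (nat_lit 76) (XT.lf (nat_lit 76) (nat_lit 18341597273) (nat_lit 0) (nat_lit 4397555395) (nat_lit 760) (nat_lit 1659305505) (nat_lit 96) (nat_lit 5) (nat_lit 95) (nat_lit 5) (nat_lit 105) (nat_lit 5) (nat_lit 299) (nat_lit 294) (nat_lit 187)) (XT.lf (nat_lit 76) (nat_lit 5739645616) (nat_lit 0) (nat_lit 18653731792) (nat_lit 760) (nat_lit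 638044799) (nat_lit 97) (nat_lit 5) (nat_lit 96) (nat_lit 5) (nat_lit 106) (nat_lit 5) (nat_lit 300) (nat_lit 294) (nat_lit 186))))))) (XT.nd (nat_lit 780) (nat_lit 1520) (nat_lit 0) (XT.nd (nat_lit 390) (nat_lit 1064) (nat_lit 0) (XT.nd (nat_lit 156) (nat_lit 0) (nat_lit 76) (XT.nd (nat_lit 78) (nat_lit 0) (nat_lit 76) (XT.lf (nat_lit 0) (nat_lit 589836550) (nat_lit 760) (nat_lit 7440385278) (nat_lit 836) (nat_lit 17657012063) (nat_lit 86) (nat_lit 5) (nat_lit 96) (nat_lit 5) (nat_lit 97) (nat_lit 5) (nat_lit 301) (nat_lit 294) (nat_lit 185)) (XT.lf (nat_lit 0) (nat_lit 1981858258) (nat_lit 760) (nat_lit 21268817032) (nat_lit 836) (nat_lit 3118439229) (nat_lit 87) (nat_lit 5) (nat_lit 97) (nat_lit 5) (nat_lit 98) (nat_lit 5) (nat_lit 302) (nat_lit 294) (nat_lit 184))) (XT.nd (nat_lit 78) (nat_lit 0) (nat_lit 0) (XT.lf (nat_lit 0) (nat_lit 3696892730) (nat_lit 760) (nat_lit 8691377404)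 (nat_lit 836) (nat_lit 14684158734) (nat_lit 87) (nat_lit 5) (nat_lit 97) (nat_lit 5) (nat_lit 98) (nat_lit 5) (nat_lit 303) (nat_lit 294) (nat_lit 183)) (XT.nd (nat_lit 78) (nat_lit 0) (nat_lit 76) (XT.lf (nat_lit 76) (nat_lit 4659094656) (nat_lit 0) (nat_lit 905322455) (nat_lit 836) (nat_lit 22243164701) (nat_lit 88) (nat_lit 5) (nat_lit 87) (nat_lit 5) (nat_lit 98) (nat_lit 5) (nat_lit 304) (nat_lit 294) (nat_lit 182)) (XT.lf (nat_lit 0) (nat_lit 7843254428) (nat_lit 760) (nat_lit 9775013818) (nat_lit 76) (nat_lit 10945336639) (nat_lit 88) (nat_lit 5) (nat_lit 98) (nat_lit 5) (nat_lit 89) (nat_lit 5) (nat_lit 305) (nat_lit 294) (nat_lit 181))))) (XT.nd (nat_lit 156) (nat_lit 684) (nat_lit 0) (XT.nd (nat_lit 78) (nat_lit 0) (nat_lit 0) (XT.lf (nat_lit 0) (nat_lit 4387782613) (nat_lit 532) (nat_lit 5926093758) (nat_lit 608) (nat_lit 19039669478) (nat_lit 81) (nat_lit 5) (nat_lit 88)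 (nat_lit 5) (nat_lit 89) (nat_lit 5) (nat_lit 306) (nat_lit 294) (nat_lit 180)) (XT.lf (nat_lit 0) (nat_lit 13170128925) (nat_lit 608) (nat_lit 10683634574) (nat_lit 76) (nat_lit 6316123838) (nat_lit 81) (nat_lit 5) (nat_lit 89) (nat_lit 5) (nat_lit 82) (nat_lit 5) (nat_lit 307) (nat_lit 294) (nat_lit 179))) (XT.nd (nat_lit 78) (nat_lit 304) (nat_lit 0) (XT.lf (nat_lit 0) (nat_lit 4349769013) (nat_lit 380) (nat_lit 11979428178) (nat_lit 456) (nat_lit 14689856605) (nat_lit 76) (nat_lit 5) (nat_lit 81) (nat_lit 5) (nat_lit 82) (nat_lit 5) (nat_lit 308) (nat_lit 294) (nat_lit 178)) (XT.nd (nat_lit 78) (nat_lit 304) (nat_lit 0) (XT.lf (nat_lit 0) (nat_lit 19832854851) (nat_lit 456) (nat_lit 11411548907) (nat_lit 76) (nat_lit 656950686) (nat_lit 76) (nat_lit 5) (nat_lit 82) (nat_lit 5) (nat_lit 77) (nat_lit 5) (nat_lit 309) (nat_lit 294) (nat_lit 177)) (XT.lf (nat_lit 0) (nat_lit 4553598512)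 (nat_lit 304) (nat_lit 19220916873) (nat_lit 380) (nat_lit 9040121043) (nat_lit 72) (nat_lit 5) (nat_lit 76) (nat_lit 5) (nat_lit 77) (nat_lit 5) (nat_lit 310) (nat_lit 294) (nat_lit 176)))))) (XT.nd (nat_lit 390) (nat_lit 836) (nat_lit 0) (XT.nd (nat_lit 156) (nat_lit 380) (nat_lit 0) (XT.nd (nat_lit 78) (nat_lit 304) (nat_lit 0) (XT.lf (nat_lit 0) (nat_lit 21708429723) (nat_lit 304) (nat_lit 6393578383) (nat_lit 380) (nat_lit 5662143901) (nat_lit 72) (nat_lit 5) (nat_lit 76) (nat_lit 5) (nat_lit 77) (nat_lit 5) (nat_lit 311) (nat_lit 294) (nat_lit 175)) (XT.lf (nat_lit 0) (nat_lit 5004834476) (nat_lit 304) (nat_lit 27825343247) (nat_lit 380) (nat_lit 1921757151) (nat_lit 68) (nat_lit 5) (nat_lit 72) (nat_lit 5) (nat_lit 73) (nat_lit 5) (nat_lit 312) (nat_lit 294) (nat_lit 174))) (XT.nd (nat_lit 78) (nat_lit 304) (nat_lit 0) (XT.lf (nat_lit 0) (nat_lit 2249542528) (nat_lit 380) (nat_lit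 12586223231) (nat_lit 76) (nat_lit 20936377098) (nat_lit 67) (nat_lit 5) (nat_lit 72) (nat_lit 5) (nat_lit 68) (nat_lit 5) (nat_lit 313) (nat_lit 294) (nat_lit 173)) (XT.nd (nat_lit 78) (nat_lit 0) (nat_lit 0) (XT.lf (nat_lit 0) (nat_lit 5575041386) (nat_lit 304) (nat_lit 1072783794) (nat_lit 380) (nat_lit 30189816487) (nat_lit 63) (nat_lit 5) (nat_lit 67) (nat_lit 5) (nat_lit 68) (nat_lit 5) (nat_lit 314) (nat_lit 294) (nat_lit 172)) (XT.lf (nat_lit 0) (nat_lit 11687615792) (nat_lit 380) (nat_lit 13081497459) (nat_lit 76) (nat_lit 13166227925) (nat_lit 63) (nat_lit 5) (nat_lit 68) (nat_lit 5) (nat_lit 64) (nat_lit 5) (nat_lit 315) (nat_lit 294) (nat_lit 171))))) (XT.nd (nat_lit 234) (nat_lit 304) (nat_lit 0) (XT.nd (nat_lit 78) (nat_lit 228) (nat_lit 0) (XT.lf (nat_lit 0) (nat_lit 6184535357) (nat_lit 304) (nat_lit 10905264388) (nat_lit 380) (nat_lit 21992610913) (nat_lit 59) (nat_lit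 5) (nat_lit 63) (nat_lit 5) (nat_lit 64) (nat_lit 5) (nat_lit 316) (nat_lit 294) (nat_lit 170)) (XT.nd (nat_lit 78) (nat_lit 228) (nat_lit 0) (XT.lf (nat_lit 0) (nat_lit 23040637072) (nat_lit 380) (nat_lit 13472957320) (nat_lit 76) (nat_lit 3759316956) (nat_lit 59) (nat_lit 5) (nat_lit 64) (nat_lit 5) (nat_lit 60) (nat_lit 5) (nat_lit 317) (nat_lit 294) (nat_lit 169)) (XT.lf (nat_lit 0) (nat_lit 6962922700) (nat_lit 228) (nat_lit 22610109020) (nat_lit 304) (nat_lit 11935709287) (nat_lit 56) (nat_lit 5) (nat_lit 59) (nat_lit 5) (nat_lit 60) (nat_lit 5) (nat_lit 318) (nat_lit 294) (nat_lit 168)))) (XT.nd (nat_lit 78) (nat_lit 304) (nat_lit 0) (XT.lf (nat_lit 0) (nat_lit 28884051752) (nat_lit 228) (nat_lit 7772793467) (nat_lit 304) (nat_lit 6138281455) (nat_lit 56) (nat_lit 5) (nat_lit 59) (nat_lit 5) (nat_lit 60) (nat_lit 5) (nat_lit 319) (nat_lit 294) (nat_lit 167)) (XT.nd (nat_lit 78)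 (nat_lit 0) (nat_lit 0) (XT.lf (nat_lit 0) (nat_lit 196315262) (nat_lit 304) (nat_lit 36255374452) (nat_lit 76) (nat_lit 7681902488) (nat_lit 52) (nat_lit 5) (nat_lit 56) (nat_lit 5) (nat_lit 53) (nat_lit 5) (nat_lit 320) (nat_lit 294) (nat_lit 166)) (XT.lf (nat_lit 0) (nat_lit 7005039038) (nat_lit 304) (nat_lit 14523461020) (nat_lit 76) (nat_lit 23987269255) (nat_lit 52) (nat_lit 5) (nat_lit 56) (nat_lit 5) (nat_lit 53) (nat_lit 5) (nat_lit 321) (nat_lit 294) (nat_lit 165))))))))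
noncomputable def xc197 : XT := (XT.nd (nat_lit 1638) (nat_lit 988) (nat_lit 0) (XT.nd (nat_lit 780) (nat_lit 912) (nat_lit 0) (XT.nd (nat_lit 390) (nat_lit 456) (nat_lit 0) (XT.nd (nat_lit 156) (nat_lit 380) (nat_lit 0) (XT.nd (nat_lit 78) (nat_lit 0) (nat_lit 0) (XT.lf (nat_lit 0) (nat_lit 8565105750) (nat_lit 228) (nat_lit 5719778517) (nat_lit 304) (nat_lit 32675640440) (nat_lit 49) (nat_lit 5) (nat_lit 52) (nat_lit 5) (nat_lit 53) (nat_lit 5) (nat_lit 322) (nat_lit 294) (nat_lit 164)) (XT.lf (nat_lit 0) (nat_lit 22345598939) (nat_lit 304) (nat_lit 15330935247) (nat_lit 76) (nat_lit 10780143335) (nat_lit 49) (nat_lit 5) (nat_lit 53) (nat_lit 5) (nat_lit 50) (nat_lit 5) (nat_lit 323) (nat_lit 294) (nat_lit 163))) (XT.nd (nat_lit 78) (nat_lit 152) (nat_lit 0) (XT.lf (nat_lit 0) (nat_lit 9079660833) (nat_lit 228) (nat_lit 21962381545) (nat_lit 304) (nat_lit 18973964291) (nat_lit 46)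 (nat_lit 5) (nat_lit 49) (nat_lit 5) (nat_lit 50) (nat_lit 5) (nat_lit 324) (nat_lit 294) (nat_lit 162)) (XT.nd (nat_lit 78) (nat_lit 152) (nat_lit 0) (XT.lf (nat_lit 0) (nat_lit 35239155092) (nat_lit 228) (nat_lit 5191031134) (nat_lit 304) (nat_lit 11210275323) (nat_lit 46) (nat_lit 5) (nat_lit 49) (nat_lit 5) (nat_lit 50) (nat_lit 5) (nat_lit 325) (nat_lit 294) (nat_lit 161)) (XT.lf (nat_lit 0) (nat_lit 9465734279) (nat_lit 152) (nat_lit 41161039262) (nat_lit 228) (nat_lit 2702416852) (nat_lit 44) (nat_lit 5) (nat_lit 46) (nat_lit 5) (nat_lit 47) (nat_lit 5) (nat_lit 326) (nat_lit 294) (nat_lit 160))))) (XT.nd (nat_lit 156) (nat_lit 152) (nat_lit 0) (XT.nd (nat_lit 78) (nat_lit 228) (nat_lit 0) (XT.lf (nat_lit 0) (nat_lit 6396203567) (nat_lit 228) (nat_lit 18083704698) (nat_lit 76) (nat_lit 30599346394) (nat_lit 43) (nat_lit 5) (nat_lit 46) (nat_lit 5) (nat_lit 44) (nat_lit 5) (nat_lit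 327) (nat_lit 294) (nat_lit 159)) (XT.lf (nat_lit 0) (nat_lit 9232567988) (nat_lit 228) (nat_lit 6768017401) (nat_lit 304) (nat_lit 40906941809) (nat_lit 40) (nat_lit 5) (nat_lit 43) (nat_lit 5) (nat_lit 44) (nat_lit 5) (nat_lit 328) (nat_lit 294) (nat_lit 158))) (XT.nd (nat_lit 78) (nat_lit 152) (nat_lit 0) (XT.lf (nat_lit 0) (nat_lit 26578701722) (nat_lit 304) (nat_lit 20462843642) (nat_lit 76) (nat_lit 11760994725) (nat_lit 40) (nat_lit 5) (nat_lit 44) (nat_lit 5) (nat_lit 41) (nat_lit 5) (nat_lit 329) (nat_lit 294) (nat_lit 157)) (XT.nd (nat_lit 78) (nat_lit 0) (nat_lit 0) (XT.lf (nat_lit 0) (nat_lit 8259756040) (nat_lit 152) (nat_lit 29663541053) (nat_lit 228) (nat_lit 22857130248) (nat_lit 38) (nat_lit 5) (nat_lit 40) (nat_lit 5) (nat_lit 41) (nat_lit 5) (nat_lit 330) (nat_lit 294) (nat_lit 156)) (XT.lf (nat_lit 0) (nat_lit 39125432103) (nat_lit 152) (nat_lit 11053959405) (nat_lit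 228) (nat_lit 12660606249) (nat_lit 38) (nat_lit 5) (nat_lit 40) (nat_lit 5) (nat_lit 41) (nat_lit 5) (nat_lit 331) (nat_lit 294) (nat_lit 155)))))) (XT.nd (nat_lit 390) (nat_lit 532) (nat_lit 0) (XT.nd (nat_lit 156) (nat_lit 152) (nat_lit 0) (XT.nd (nat_lit 78) (nat_lit 76) (nat_lit 0) (XT.lf (nat_lit 0) (nat_lit 6607427808) (nat_lit 152) (nat_lit 56674326938) (nat_lit 228) (nat_lit 1709120897) (nat_lit 36) (nat_lit 5) (nat_lit 38) (nat_lit 5) (nat_lit 39) (nat_lit 5) (nat_lit 332) (nat_lit 294) (nat_lit 154)) (XT.lf (nat_lit 0) (nat_lit 10063840240) (nat_lit 228) (nat_lit 28304447650) (nat_lit 76) (nat_lit 28844007036) (nat_lit 35) (nat_lit 5) (nat_lit 38) (nat_lit 5) (nat_lit 36) (nat_lit 5) (nat_lit 333) (nat_lit 294) (nat_lit 153))) (XT.nd (nat_lit 78) (nat_lit 0) (nat_lit 0) (XT.lf (nat_lit 0) (nat_lit 3354591573) (nat_lit 152) (nat_lit 19063724964) (nat_lit 228) (nat_lit 47122554341)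 (nat_lit 33) (nat_lit 5) (nat_lit 35) (nat_lit 5) (nat_lit 36) (nat_lit 5) (nat_lit 334) (nat_lit 294) (nat_lit 152)) (XT.nd (nat_lit 78) (nat_lit 0) (nat_lit 0) (XT.lf (nat_lit 0) (nat_lit 35894514577) (nat_lit 228) (nat_lit 34412639346) (nat_lit 76) (nat_lit 1653523582) (nat_lit 33) (nat_lit 5) (nat_lit 36) (nat_lit 5) (nat_lit 34) (nat_lit 5) (nat_lit 335) (nat_lit 294) (nat_lit 151)) (XT.lf (nat_lit 0) (nat_lit 50355099884) (nat_lit 228) (nat_lit 1365972901) (nat_lit 76) (nat_lit 22764874499) (nat_lit 33) (nat_lit 5) (nat_lit 36) (nat_lit 5) (nat_lit 34) (nat_lit 5) (nat_lit 336) (nat_lit 294) (nat_lit 150))))) (XT.nd (nat_lit 234) (nat_lit 152) (nat_lit 0) (XT.nd (nat_lit 78) (nat_lit 228) (nat_lit 0) (XT.lf (nat_lit 0) (nat_lit 34432082412) (nat_lit 152) (nat_lit 31642363143) (nat_lit 228) (nat_lit 11036250052) (nat_lit 31) (nat_lit 5) (nat_lit 33) (nat_lit 5) (nat_lit 34) (nat_lit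 5) (nat_lit 337) (nat_lit 294) (nat_lit 149)) (XT.nd (nat_lit 78) (nat_lit 152) (nat_lit 0) (XT.lf (nat_lit 0) (nat_lit 2647915307) (nat_lit 228) (nat_lit 7843798891) (nat_lit 76) (nat_lit 69371766992) (nat_lit 30) (nat_lit 5) (nat_lit 33) (nat_lit 5) (nat_lit 31) (nat_lit 5) (nat_lit 338) (nat_lit 294) (nat_lit 148)) (XT.lf (nat_lit 0) (nat_lit 17297538618) (nat_lit 228) (nat_lit 53422415015) (nat_lit 76) (nat_lit 11992300699) (nat_lit 28) (nat_lit 5) (nat_lit 31) (nat_lit 5) (nat_lit 29) (nat_lit 5) (nat_lit 339) (nat_lit 294) (nat_lit 147)))) (XT.nd (nat_lit 78) (nat_lit 152) (nat_lit 0) (XT.lf (nat_lit 0) (nat_lit 32984925456) (nat_lit 228) (nat_lit 17321399813) (nat_lit 76) (nat_lit 35381878070) (nat_lit 28) (nat_lit 5) (nat_lit 31) (nat_lit 5) (nat_lit 29) (nat_lit 5) (nat_lit 340) (nat_lit 294) (nat_lit 146)) (XT.nd (nat_lit 78) (nat_lit 0) (nat_lit 0) (XT.lf (nat_lit 0) (nat_lit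 21262453608) (nat_lit 152) (nat_lit 28524547692) (nat_lit 228) (nat_lit 39009433773) (nat_lit 26) (nat_lit 5) (nat_lit 28) (nat_lit 5) (nat_lit 29) (nat_lit 5) (nat_lit 341) (nat_lit 294) (nat_lit 145)) (XT.lf (nat_lit 0) (nat_lit 62374160002) (nat_lit 152) (nat_lit 5346756669) (nat_lit 228) (nat_lit 24324576135) (nat_lit 26) (nat_lit 5) (nat_lit 28) (nat_lit 5) (nat_lit 29) (nat_lit 5) (nat_lit 342) (nat_lit 294) (nat_lit 144))))))) (XT.nd (nat_lit 780) (nat_lit 380) (nat_lit 0) (XT.nd (nat_lit 390) (nat_lit 304) (nat_lit 0) (XT.nd (nat_lit 156) (nat_lit 152) (nat_lit 0) (XT.nd (nat_lit 78) (nat_lit 76) (nat_lit 0) (XT.lf (nat_lit 0) (nat_lit 10108876868) (nat_lit 76) (nat_lit 76895414722) (nat_lit 152) (nat_lit 8430074792) (nat_lit 25) (nat_lit 5) (nat_lit 26) (nat_lit 5) (nat_lit 27) (nat_lit 4) (nat_lit 343) (nat_lit 294) (nat_lit 143)) (XT.lf (nat_lit 0) (nat_lit 8591652393) (nat_lit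 152) (nat_lit 46286820205) (nat_lit 76) (nat_lit 44077922390) (nat_lit 24) (nat_lit 5) (nat_lit 26) (nat_lit 5) (nat_lit 25) (nat_lit 5) (nat_lit 344) (nat_lit 294) (nat_lit 142))) (XT.nd (nat_lit 78) (nat_lit 152) (nat_lit 0) (XT.lf (nat_lit 0) (nat_lit 26179691005) (nat_lit 152) (nat_lit 5436931814) (nat_lit 76) (nat_lit 71031066753) (nat_lit 24) (nat_lit 5) (nat_lit 26) (nat_lit 5) (nat_lit 25) (nat_lit 5) (nat_lit 345) (nat_lit 294) (nat_lit 141)) (XT.nd (nat_lit 78) (nat_lit 0) (nat_lit 0) (XT.lf (nat_lit 0) (nat_lit 38691421511) (nat_lit 152) (nat_lit 6558392376) (nat_lit 228) (nat_lit 61243601821) (nat_lit 22) (nat_lit 5) (nat_lit 24) (nat_lit 5) (nat_lit 25) (nat_lit 5) (nat_lit 346) (nat_lit 294) (nat_lit 140)) (XT.lf (nat_lit 0) (nat_lit 65674040421) (nat_lit 228) (nat_lit 25624190920) (nat_lit 76) (nat_lit 19213167831) (nat_lit 22) (nat_lit 5) (nat_lit 25) (nat_lit 5) (nat_lit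 23) (nat_lit 4) (nat_lit 347) (nat_lit 294) (nat_lit 139))))) (XT.nd (nat_lit 156) (nat_lit 228) (nat_lit 0) (XT.nd (nat_lit 78) (nat_lit 0) (nat_lit 0) (XT.lf (nat_lit 0) (nat_lit 19166126609) (nat_lit 76) (nat_lit 68358784390) (nat_lit 152) (nat_lit 27185100028) (nat_lit 21) (nat_lit 5) (nat_lit 22) (nat_lit 5) (nat_lit 23) (nat_lit 4) (nat_lit 348) (nat_lit 294) (nat_lit 138)) (XT.lf (nat_lit 0) (nat_lit 67083314081) (nat_lit 76) (nat_lit 43817677754) (nat_lit 152) (nat_lit 8195929113) (nat_lit 21) (nat_lit 5) (nat_lit 22) (nat_lit 5) (nat_lit 23) (nat_lit 4) (nat_lit 349) (nat_lit 294) (nat_lit 137))) (XT.nd (nat_lit 78) (nat_lit 152) (nat_lit 0) (XT.lf (nat_lit 0) (nat_lit 11365609840) (nat_lit 152) (nat_lit 6492346358) (nat_lit 76) (nat_lit 105836116623) (nat_lit 20) (nat_lit 5) (nat_lit 22) (nat_lit 5) (nat_lit 21) (nat_lit 5) (nat_lit 350) (nat_lit 294) (nat_lit 136)) (XT.nd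 (nat_lit 78) (nat_lit 0) (nat_lit 0) (XT.lf (nat_lit 0) (nat_lit 32452436522) (nat_lit 228) (nat_lit 86111309404) (nat_lit 76) (nat_lit 9909486700) (nat_lit 18) (nat_lit 5) (nat_lit 21) (nat_lit 5) (nat_lit 19) (nat_lit 4) (nat_lit 351) (nat_lit 294) (nat_lit 135)) (XT.lf (nat_lit 0) (nat_lit 54996930952) (nat_lit 228) (nat_lit 39898204194) (nat_lit 76) (nat_lit 38576049623) (nat_lit 18) (nat_lit 5) (nat_lit 21) (nat_lit 5) (nat_lit 19) (nat_lit 4) (nat_lit 352) (nat_lit 294) (nat_lit 134)))))) (XT.nd (nat_lit 390) (nat_lit 152) (nat_lit 0) (XT.nd (nat_lit 156) (nat_lit 152) (nat_lit 0) (XT.nd (nat_lit 78) (nat_lit 0) (nat_lit 0) (XT.lf (nat_lit 0) (nat_lit 8908688657) (nat_lit 76) (nat_lit 69897926785) (nat_lit 152) (nat_lit 59905521448) (nat_lit 17) (nat_lit 5) (nat_lit 18) (nat_lit 5) (nat_lit 19) (nat_lit 4) (nat_lit 353) (nat_lit 294) (nat_lit 133)) (XT.lf (nat_lit 0) (nat_lit 61539132695)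 (nat_lit 76) (nat_lit 42942245391) (nat_lit 152) (nat_lit 39700029439) (nat_lit 17) (nat_lit 5) (nat_lit 18) (nat_lit 5) (nat_lit 19) (nat_lit 4) (nat_lit 354) (nat_lit 294) (nat_lit 132))) (XT.nd (nat_lit 78) (nat_lit 152) (nat_lit 0) (XT.lf (nat_lit 0) (nat_lit 116799223685) (nat_lit 76) (nat_lit 14639606165) (nat_lit 152) (nat_lit 18485364870) (nat_lit 17) (nat_lit 5) (nat_lit 18) (nat_lit 5) (nat_lit 19) (nat_lit 4) (nat_lit 355) (nat_lit 294) (nat_lit 131)) (XT.nd (nat_lit 78) (nat_lit 0) (nat_lit 0) (XT.lf (nat_lit 0) (nat_lit 4212396975) (nat_lit 152) (nat_lit 136748333604) (nat_lit 76) (nat_lit 14963249131) (nat_lit 15) (nat_lit 5) (nat_lit 17) (nat_lit 5) (nat_lit 16) (nat_lit 4) (nat_lit 356) (nat_lit 294) (nat_lit 130)) (XT.lf (nat_lit 0) (nat_lit 28232986946) (nat_lit 152) (nat_lit 87508443677) (nat_lit 76) (nat_lit 46426713411) (nat_lit 15) (nat_lit 5) (nat_lit 17) (nat_lit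 5) (nat_lit 16) (nat_lit 4) (nat_lit 357) (nat_lit 294) (nat_lit 129))))) (XT.nd (nat_lit 234) (nat_lit 76) (nat_lit 0) (XT.nd (nat_lit 78) (nat_lit 76) (nat_lit 0) (XT.lf (nat_lit 0) (nat_lit 53453646451) (nat_lit 152) (nat_lit 35808300753) (nat_lit 76) (nat_lit 79462617843) (nat_lit 15) (nat_lit 5) (nat_lit 17) (nat_lit 5) (nat_lit 16) (nat_lit 4) (nat_lit 358) (nat_lit 294) (nat_lit 128)) (XT.nd (nat_lit 78) (nat_lit 0) (nat_lit 0) (XT.lf (nat_lit 0) (nat_lit 19086063988) (nat_lit 76) (nat_lit 61146347638) (nat_lit 152) (nat_lit 95361542303) (nat_lit 14) (nat_lit 5) (nat_lit 15) (nat_lit 5) (nat_lit 16) (nat_lit 4) (nat_lit 359) (nat_lit 294) (nat_lit 127)) (XT.lf (nat_lit 0) (nat_lit 77966698491) (nat_lit 76) (nat_lit 30988951275) (nat_lit 152) (nat_lit 73820886185) (nat_lit 14) (nat_lit 5) (nat_lit 15) (nat_lit 5) (nat_lit 16) (nat_lit 4) (nat_lit 360) (nat_lit 294) (nat_lit 126))))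 (XT.nd (nat_lit 78) (nat_lit 76) (nat_lit 0) (XT.lf (nat_lit 0) (nat_lit 139124744528) (nat_lit 152) (nat_lit 50539027787) (nat_lit 0) (nat_lit 653990433) (nat_lit 14) (nat_lit 5) (nat_lit 16) (nat_lit 4) (nat_lit 14) (nat_lit 4) (nat_lit 361) (nat_lit 294) (nat_lit 125)) (XT.nd (nat_lit 78) (nat_lit 0) (nat_lit 0) (XT.lf (nat_lit 0) (nat_lit 6132060273) (nat_lit 76) (nat_lit 165273164704) (nat_lit 76) (nat_lit 26800679751) (nat_lit 13) (nat_lit 4) (nat_lit 14) (nat_lit 5) (nat_lit 14) (nat_lit 4) (nat_lit 362) (nat_lit 294) (nat_lit 124)) (XT.lf (nat_lit 0) (nat_lit 67389817302) (nat_lit 76) (nat_lit 138765007743) (nat_lit 76) (nat_lit 290874355) (nat_lit 13) (nat_lit 4) (nat_lit 14) (nat_lit 5) (nat_lit 14) (nat_lit 4) (nat_lit 363) (nat_lit 294) (nat_lit 123))))))))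
noncomputable def xc198 : XT := (XT.nd (nat_lit 35334) (nat_lit 0) (nat_lit 4256) (XT.nd (nat_lit 780) (nat_lit 152) (nat_lit 0) (XT.nd (nat_lit 390) (nat_lit 152) (nat_lit 0) (XT.nd (nat_lit 156) (nat_lit 76) (nat_lit 0) (XT.nd (nat_lit 78) (nat_lit 0) (nat_lit 0) (XT.lf (nat_lit 0) (nat_lit 26662046011) (nat_lit 152) (nat_lit 83818509002) (nat_lit 76) (nat_lit 104595465940) (nat_lit 12) (nat_lit 5) (nat_lit 14) (nat_lit 5) (nat_lit 13) (nat_lit 4) (nat_lit 364) (nat_lit 294) (nat_lit 122)) (XT.lf (nat_lit 0) (nat_lit 54952092541) (nat_lit 152) (nat_lit 25825408794) (nat_lit 76) (nat_lit 143360156377) (nat_lit 12) (nat_lit 5) (nat_lit 14) (nat_lit 5) (nat_lit 13) (nat_lit 4) (nat_lit 365) (nat_lit 294) (nat_lit 121))) (XT.nd (nat_lit 78) (nat_lit 0) (nat_lit 0) (XT.lf (nat_lit 0) (nat_lit 36225480299) (nat_lit 76) (nat_lit 48996033254) (nat_lit 152) (nat_lit 148402619454) (nat_lit 11)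 (nat_lit 5) (nat_lit 12) (nat_lit 5) (nat_lit 13) (nat_lit 4) (nat_lit 366) (nat_lit 294) (nat_lit 120)) (XT.nd (nat_lit 78) (nat_lit 0) (nat_lit 0) (XT.lf (nat_lit 0) (nat_lit 102274227093) (nat_lit 76) (nat_lit 15166848882) (nat_lit 152) (nat_lit 126122022866) (nat_lit 11) (nat_lit 5) (nat_lit 12) (nat_lit 5) (nat_lit 13) (nat_lit 4) (nat_lit 367) (nat_lit 294) (nat_lit 119)) (XT.lf (nat_lit 0) (nat_lit 151588725186) (nat_lit 152) (nat_lit 82692631486) (nat_lit 0) (nat_lit 19701801139) (nat_lit 11) (nat_lit 5) (nat_lit 13) (nat_lit 4) (nat_lit 11) (nat_lit 4) (nat_lit 368) (nat_lit 294) (nat_lit 118))))) (XT.nd (nat_lit 156) (nat_lit 76) (nat_lit 0) (XT.nd (nat_lit 78) (nat_lit 76) (nat_lit 0) (XT.lf (nat_lit 0) (nat_lit 187691754573) (nat_lit 152) (nat_lit 21416406523) (nat_lit 0) (nat_lit 55803659013) (nat_lit 11) (nat_lit 5) (nat_lit 13) (nat_lit 4) (nat_lit 11) (nat_lit 4) (nat_lit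 369) (nat_lit 294) (nat_lit 117)) (XT.lf (nat_lit 0) (nat_lit 44341707489) (nat_lit 76) (nat_lit 181949917544) (nat_lit 76) (nat_lit 50060706259) (nat_lit 10) (nat_lit 4) (nat_lit 11) (nat_lit 5) (nat_lit 11) (nat_lit 4) (nat_lit 370) (nat_lit 294) (nat_lit 116))) (XT.nd (nat_lit 78) (nat_lit 76) (nat_lit 0) (XT.lf (nat_lit 0) (nat_lit 114130141005) (nat_lit 76) (nat_lit 153053448074) (nat_lit 76) (nat_lit 21163174192) (nat_lit 10) (nat_lit 4) (nat_lit 11) (nat_lit 5) (nat_lit 11) (nat_lit 4) (nat_lit 371) (nat_lit 294) (nat_lit 115)) (XT.nd (nat_lit 78) (nat_lit 0) (nat_lit 0) (XT.lf (nat_lit 0) (nat_lit 8884863393) (nat_lit 152) (nat_lit 113677315920) (nat_lit 76) (nat_lit 178371600989) (nat_lit 9) (nat_lit 5) (nat_lit 11) (nat_lit 5) (nat_lit 10) (nat_lit 4) (nat_lit 372) (nat_lit 294) (nat_lit 114)) (XT.lf (nat_lit 0) (nat_lit 39723530714) (nat_lit 152) (nat_lit 50459011720) (nat_lit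 76) (nat_lit 223950286630) (nat_lit 9) (nat_lit 5) (nat_lit 11) (nat_lit 5) (nat_lit 10) (nat_lit 4) (nat_lit 373) (nat_lit 294) (nat_lit 113)))))) (XT.nd (nat_lit 390) (nat_lit 76) (nat_lit 0) (XT.nd (nat_lit 156) (nat_lit 0) (nat_lit 0) (XT.nd (nat_lit 78) (nat_lit 0) (nat_lit 0) (XT.lf (nat_lit 0) (nat_lit 16445588088) (nat_lit 76) (nat_lit 55914780537) (nat_lit 152) (nat_lit 255618649974) (nat_lit 8) (nat_lit 5) (nat_lit 9) (nat_lit 5) (nat_lit 10) (nat_lit 4) (nat_lit 374) (nat_lit 294) (nat_lit 112)) (XT.lf (nat_lit 0) (nat_lit 88446275532) (nat_lit 76) (nat_lit 19036806090) (nat_lit 152) (nat_lit 234991734517) (nat_lit 8) (nat_lit 5) (nat_lit 9) (nat_lit 5) (nat_lit 10) (nat_lit 4) (nat_lit 375) (nat_lit 294) (nat_lit 111))) (XT.nd (nat_lit 78) (nat_lit 0) (nat_lit 0) (XT.lf (nat_lit 0) (nat_lit 144668772548) (nat_lit 152) (nat_lit 193956682589) (nat_lit 0) (nat_lit 19054606485)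 (nat_lit 8) (nat_lit 5) (nat_lit 10) (nat_lit 4) (nat_lit 8) (nat_lit 4) (nat_lit 376) (nat_lit 294) (nat_lit 110)) (XT.nd (nat_lit 78) (nat_lit 0) (nat_lit 0) (XT.lf (nat_lit 0) (nat_lit 184025353679) (nat_lit 152) (nat_lit 131194203139) (nat_lit 0) (nat_lit 58410432448) (nat_lit 8) (nat_lit 5) (nat_lit 10) (nat_lit 4) (nat_lit 8) (nat_lit 4) (nat_lit 377) (nat_lit 294) (nat_lit 109)) (XT.lf (nat_lit 0) (nat_lit 225349313266) (nat_lit 152) (nat_lit 65294449890) (nat_lit 0) (nat_lit 99733672829) (nat_lit 8) (nat_lit 5) (nat_lit 10) (nat_lit 4) (nat_lit 8) (nat_lit 4) (nat_lit 378) (nat_lit 294) (nat_lit 108))))) (XT.nd (nat_lit 156) (nat_lit 0) (nat_lit 0) (XT.nd (nat_lit 78) (nat_lit 0) (nat_lit 0) (XT.lf (nat_lit 0) (nat_lit 4028415794) (nat_lit 76) (nat_lit 264773520756) (nat_lit 76) (nat_lit 139157195359) (nat_lit 7) (nat_lit 4) (nat_lit 8) (nat_lit 5) (nat_lit 8) (nat_lit 4) (nat_lit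 379) (nat_lit 294) (nat_lit 107)) (XT.lf (nat_lit 0) (nat_lit 79083503996) (nat_lit 76) (nat_lit 236449058961) (nat_lit 76) (nat_lit 110832081222) (nat_lit 7) (nat_lit 4) (nat_lit 8) (nat_lit 5) (nat_lit 8) (nat_lit 4) (nat_lit 380) (nat_lit 294) (nat_lit 106))) (XT.nd (nat_lit 78) (nat_lit 0) (nat_lit 0) (XT.lf (nat_lit 0) (nat_lit 157890587914) (nat_lit 76) (nat_lit 206708731680) (nat_lit 76) (nat_lit 81091132663) (nat_lit 7) (nat_lit 4) (nat_lit 8) (nat_lit 5) (nat_lit 8) (nat_lit 4) (nat_lit 381) (nat_lit 294) (nat_lit 105)) (XT.nd (nat_lit 33852) (nat_lit 0) (nat_lit 6612) (XT.lf (nat_lit 0) (nat_lit 240637303461) (nat_lit 76) (nat_lit 175481728610) (nat_lit 76) (nat_lit 49863537901) (nat_lit 7) (nat_lit 4) (nat_lit 8) (nat_lit 5) (nat_lit 8) (nat_lit 4) (nat_lit 382) (nat_lit 294) (nat_lit 104)) (XT.lf (nat_lit 0) (nat_lit 4703304128) (nat_lit 0) (nat_lit 4703304128) (nat_lit 684)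 (nat_lit 1902303208) (nat_lit 94) (nat_lit 5) (nat_lit 94) (nat_lit 3) (nat_lit 103) (nat_lit 3) (nat_lit 295) (nat_lit 295) (nat_lit 190))))))) (XT.nd (nat_lit 780) (nat_lit 1748) (nat_lit 0) (XT.nd (nat_lit 390) (nat_lit 608) (nat_lit 0) (XT.nd (nat_lit 156) (nat_lit 0) (nat_lit 0) (XT.nd (nat_lit 78) (nat_lit 0) (nat_lit 0) (XT.lf (nat_lit 0) (nat_lit 19419198312) (nat_lit 684) (nat_lit 2853563068) (nat_lit 760) (nat_lit 903509468) (nat_lit 94) (nat_lit 5) (nat_lit 103) (nat_lit 3) (nat_lit 104) (nat_lit 5) (nat_lit 296) (nat_lit 295) (nat_lit 189)) (XT.lf (nat_lit 76) (nat_lit 8123427770) (nat_lit 0) (nat_lit 12205397555) (nat_lit 760) (nat_lit 3420162301) (nat_lit 95) (nat_lit 5) (nat_lit 94) (nat_lit 5) (nat_lit 104) (nat_lit 5) (nat_lit 297) (nat_lit 295) (nat_lit 188))) (XT.nd (nat_lit 78) (nat_lit 0) (nat_lit 76) (XT.lf (nat_lit 76) (nat_lit 19744070298) (nat_lit 0) (nat_lit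 1580799391) (nat_lit 760) (nat_lit 3023436867) (nat_lit 95) (nat_lit 5) (nat_lit 94) (nat_lit 5) (nat_lit 104) (nat_lit 5) (nat_lit 298) (nat_lit 295) (nat_lit 187)) (XT.nd (nat_lit 78) (nat_lit 0) (nat_lit 0) (XT.lf (nat_lit 76) (nat_lit 7039493460) (nat_lit 0) (nat_lit 15583629962) (nat_lit 760) (nat_lit 2341860140) (nat_lit 96) (nat_lit 5) (nat_lit 95) (nat_lit 5) (nat_lit 105) (nat_lit 5) (nat_lit 299) (nat_lit 295) (nat_lit 186)) (XT.lf (nat_lit 76) (nat_lit 19394084142) (nat_lit 0) (nat_lit 4688949552) (nat_lit 760) (nat_lit 1524635427) (nat_lit 96) (nat_lit 5) (nat_lit 95) (nat_lit 5) (nat_lit 105) (nat_lit 5) (nat_lit 300) (nat_lit 295) (nat_lit 185))))) (XT.nd (nat_lit 156) (nat_lit 0) (nat_lit 76) (XT.nd (nat_lit 78) (nat_lit 760) (nat_lit 0) (XT.lf (nat_lit 76) (nat_lit 6171488668) (nat_lit 0) (nat_lit 19639825788) (nat_lit 760) (nat_lit 461417078) (nat_lit 97) (nat_lit 5)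 (nat_lit 96) (nat_lit 5) (nat_lit 106) (nat_lit 5) (nat_lit 301) (nat_lit 295) (nat_lit 184)) (XT.lf (nat_lit 0) (nat_lit 811571901) (nat_lit 760) (nat_lit 7667769478) (nat_lit 836) (nat_lit 18482326045) (nat_lit 86) (nat_lit 5) (nat_lit 96) (nat_lit 5) (nat_lit 97) (nat_lit 5) (nat_lit 302) (nat_lit 295) (nat_lit 183))) (XT.nd (nat_lit 78) (nat_lit 0) (nat_lit 0) (XT.lf (nat_lit 0) (nat_lit 2265590493) (nat_lit 760) (nat_lit 22179717680) (nat_lit 836) (nat_lit 3232729167) (nat_lit 87) (nat_lit 5) (nat_lit 97) (nat_lit 5) (nat_lit 98) (nat_lit 5) (nat_lit 303) (nat_lit 295) (nat_lit 182)) (XT.nd (nat_lit 78) (nat_lit 0) (nat_lit 0) (XT.lf (nat_lit 0) (nat_lit 4057584341) (nat_lit 760) (nat_lit 8980669890) (nat_lit 836) (nat_lit 15378717125) (nat_lit 87) (nat_lit 5) (nat_lit 97) (nat_lit 5) (nat_lit 98) (nat_lit 5) (nat_lit 304) (nat_lit 295) (nat_lit 181)) (XT.lf (nat_lit 76) (nat_lit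 5034982606) (nat_lit 0) (nat_lit 977360257) (nat_lit 836) (nat_lit 23176859835) (nat_lit 88) (nat_lit 5) (nat_lit 87) (nat_lit 5) (nat_lit 98) (nat_lit 5) (nat_lit 305) (nat_lit 295) (nat_lit 180)))))) (XT.nd (nat_lit 390) (nat_lit 988) (nat_lit 0) (XT.nd (nat_lit 156) (nat_lit 380) (nat_lit 0) (XT.nd (nat_lit 78) (nat_lit 532) (nat_lit 0) (XT.lf (nat_lit 0) (nat_lit 8396642783) (nat_lit 760) (nat_lit 10118898412) (nat_lit 76) (nat_lit 11467922691) (nat_lit 88) (nat_lit 5) (nat_lit 98) (nat_lit 5) (nat_lit 89) (nat_lit 5) (nat_lit 306) (nat_lit 295) (nat_lit 179)) (XT.lf (nat_lit 0) (nat_lit 4749701292) (nat_lit 532) (nat_lit 6235642406) (nat_lit 608) (nat_lit 19827843185) (nat_lit 81) (nat_lit 5) (nat_lit 88) (nat_lit 5) (nat_lit 89) (nat_lit 5) (nat_lit 307) (nat_lit 295) (nat_lit 178))) (XT.nd (nat_lit 78) (nat_lit 380) (nat_lit 0) (XT.lf (nat_lit 0) (nat_lit 13976794165) (nat_lit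 608) (nat_lit 11074223369) (nat_lit 76) (nat_lit 6619720438) (nat_lit 81) (nat_lit 5) (nat_lit 89) (nat_lit 5) (nat_lit 82) (nat_lit 5) (nat_lit 308) (nat_lit 295) (nat_lit 177)) (XT.nd (nat_lit 78) (nat_lit 0) (nat_lit 0) (XT.lf (nat_lit 0) (nat_lit 4708534383) (nat_lit 380) (nat_lit 12580432008) (nat_lit 456) (nat_lit 15273650062) (nat_lit 76) (nat_lit 5) (nat_lit 81) (nat_lit 5) (nat_lit 82) (nat_lit 5) (nat_lit 309) (nat_lit 295) (nat_lit 176)) (XT.lf (nat_lit 0) (nat_lit 20960952460) (nat_lit 456) (nat_lit 11840508559) (nat_lit 76) (nat_lit 687924533) (nat_lit 76) (nat_lit 5) (nat_lit 82) (nat_lit 5) (nat_lit 77) (nat_lit 5) (nat_lit 310) (nat_lit 295) (nat_lit 175))))) (XT.nd (nat_lit 234) (nat_lit 380) (nat_lit 0) (XT.nd (nat_lit 78) (nat_lit 304) (nat_lit 0) (XT.lf (nat_lit 0) (nat_lit 4920612073) (nat_lit 304) (nat_lit 20174761486) (nat_lit 380) (nat_lit 9353184384) (nat_lit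 72) (nat_lit 5) (nat_lit 76) (nat_lit 5) (nat_lit 77) (nat_lit 5) (nat_lit 311) (nat_lit 295) (nat_lit 174)) (XT.nd (nat_lit 78) (nat_lit 304) (nat_lit 0) (XT.lf (nat_lit 0) (nat_lit 22926549910) (nat_lit 304) (nat_lit 6706398987) (nat_lit 380) (nat_lit 5812924704) (nat_lit 72) (nat_lit 5) (nat_lit 76) (nat_lit 5) (nat_lit 77) (nat_lit 5) (nat_lit 312) (nat_lit 295) (nat_lit 173)) (XT.lf (nat_lit 0) (nat_lit 5391910642) (nat_lit 304) (nat_lit 29201862301) (nat_lit 380) (nat_lit 1889469608) (nat_lit 68) (nat_lit 5) (nat_lit 72) (nat_lit 5) (nat_lit 73) (nat_lit 5) (nat_lit 313) (nat_lit 295) (nat_lit 172)))) (XT.nd (nat_lit 78) (nat_lit 304) (nat_lit 0) (XT.lf (nat_lit 0) (nat_lit 2480368784) (nat_lit 380) (nat_lit 13081135146) (nat_lit 76) (nat_lit 21993161040) (nat_lit 67) (nat_lit 5) (nat_lit 72) (nat_lit 5) (nat_lit 68) (nat_lit 5) (nat_lit 314) (nat_lit 295) (nat_lit 171)) (XT.nd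 (nat_lit 78) (nat_lit 0) (nat_lit 0) (XT.lf (nat_lit 0) (nat_lit 5986024973) (nat_lit 304) (nat_lit 1108969428) (nat_lit 380) (nat_lit 31578630858) (nat_lit 63) (nat_lit 5) (nat_lit 67) (nat_lit 5) (nat_lit 68) (nat_lit 5) (nat_lit 315) (nat_lit 295) (nat_lit 170)) (XT.lf (nat_lit 0) (nat_lit 12381568448) (nat_lit 380) (nat_lit 13604279465) (nat_lit 76) (nat_lit 13840629734) (nat_lit 63) (nat_lit 5) (nat_lit 68) (nat_lit 5) (nat_lit 64) (nat_lit 5) (nat_lit 316) (nat_lit 295) (nat_lit 169))))))))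
noncomputable def xc199 : XT := (XT.nd (nat_lit 1638) (nat_lit 1368) (nat_lit 0) (XT.nd (nat_lit 780) (nat_lit 988) (nat_lit 0) (XT.nd (nat_lit 390) (nat_lit 456) (nat_lit 0) (XT.nd (nat_lit 156) (nat_lit 532) (nat_lit 0) (XT.nd (nat_lit 78) (nat_lit 0) (nat_lit 0) (XT.lf (nat_lit 0) (nat_lit 6622937365) (nat_lit 304) (nat_lit 11427723314) (nat_lit 380) (nat_lit 22980407209) (nat_lit 59) (nat_lit 5) (nat_lit 63) (nat_lit 5) (nat_lit 64) (nat_lit 5) (nat_lit 317) (nat_lit 295) (nat_lit 168)) (XT.lf (nat_lit 0) (nat_lit 24294313673) (nat_lit 380) (nat_lit 14018717086) (nat_lit 76) (nat_lit 3968306055) (nat_lit 59) (nat_lit 5) (nat_lit 64) (nat_lit 5) (nat_lit 60) (nat_lit 5) (nat_lit 318) (nat_lit 295) (nat_lit 167))) (XT.nd (nat_lit 78) (nat_lit 304) (nat_lit 0) (XT.lf (nat_lit 0) (nat_lit 7436894223) (nat_lit 228) (nat_lit 23713558090) (nat_lit 304) (nat_lit 12428655994) (nat_lit 56)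 (nat_lit 5) (nat_lit 59) (nat_lit 5) (nat_lit 60) (nat_lit 5) (nat_lit 319) (nat_lit 295) (nat_lit 166)) (XT.nd (nat_lit 78) (nat_lit 304) (nat_lit 0) (XT.lf (nat_lit 0) (nat_lit 30448088043) (nat_lit 228) (nat_lit 8135665159) (nat_lit 304) (nat_lit 6346301473) (nat_lit 56) (nat_lit 5) (nat_lit 59) (nat_lit 5) (nat_lit 60) (nat_lit 5) (nat_lit 320) (nat_lit 295) (nat_lit 165)) (XT.lf (nat_lit 0) (nat_lit 299630813) (nat_lit 304) (nat_lit 37942682693) (nat_lit 76) (nat_lit 8093169896) (nat_lit 52) (nat_lit 5) (nat_lit 56) (nat_lit 5) (nat_lit 53) (nat_lit 5) (nat_lit 321) (nat_lit 295) (nat_lit 164))))) (XT.nd (nat_lit 156) (nat_lit 228) (nat_lit 0) (XT.nd (nat_lit 78) (nat_lit 228) (nat_lit 0) (XT.lf (nat_lit 0) (nat_lit 7444338407) (nat_lit 304) (nat_lit 15130147898) (nat_lit 76) (nat_lit 25212511084) (nat_lit 52) (nat_lit 5) (nat_lit 56) (nat_lit 5) (nat_lit 53) (nat_lit 5) (nat_lit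 322) (nat_lit 295) (nat_lit 163)) (XT.lf (nat_lit 0) (nat_lit 9110920014) (nat_lit 228) (nat_lit 5974850955) (nat_lit 304) (nat_lit 34218344972) (nat_lit 49) (nat_lit 5) (nat_lit 52) (nat_lit 5) (nat_lit 53) (nat_lit 5) (nat_lit 323) (nat_lit 295) (nat_lit 162))) (XT.nd (nat_lit 78) (nat_lit 228) (nat_lit 0) (XT.lf (nat_lit 0) (nat_lit 23545855249) (nat_lit 304) (nat_lit 15981756977) (nat_lit 76) (nat_lit 11347652375) (nat_lit 49) (nat_lit 5) (nat_lit 53) (nat_lit 5) (nat_lit 50) (nat_lit 5) (nat_lit 324) (nat_lit 295) (nat_lit 161)) (XT.nd (nat_lit 78) (nat_lit 0) (nat_lit 0) (XT.lf (nat_lit 0) (nat_lit 9647502375) (nat_lit 228) (nat_lit 23027444881) (nat_lit 304) (nat_lit 19837726297) (nat_lit 46) (nat_lit 5) (nat_lit 49) (nat_lit 5) (nat_lit 50) (nat_lit 5) (nat_lit 325) (nat_lit 295) (nat_lit 160)) (XT.lf (nat_lit 0) (nat_lit 37109549513) (nat_lit 228) (nat_lit 5419101032) (nat_lit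 304) (nat_lit 11689897463) (nat_lit 46) (nat_lit 5) (nat_lit 49) (nat_lit 5) (nat_lit 50) (nat_lit 5) (nat_lit 326) (nat_lit 295) (nat_lit 159)))))) (XT.nd (nat_lit 390) (nat_lit 380) (nat_lit 0) (XT.nd (nat_lit 156) (nat_lit 380) (nat_lit 0) (XT.nd (nat_lit 78) (nat_lit 76) (nat_lit 0) (XT.lf (nat_lit 0) (nat_lit 10049098216) (nat_lit 152) (nat_lit 43184491211) (nat_lit 228) (nat_lit 2758201988) (nat_lit 44) (nat_lit 5) (nat_lit 46) (nat_lit 5) (nat_lit 47) (nat_lit 5) (nat_lit 327) (nat_lit 295) (nat_lit 158)) (XT.lf (nat_lit 0) (nat_lit 6789153238) (nat_lit 228) (nat_lit 18880559393) (nat_lit 76) (nat_lit 32159771019) (nat_lit 43) (nat_lit 5) (nat_lit 46) (nat_lit 5) (nat_lit 44) (nat_lit 5) (nat_lit 328) (nat_lit 295) (nat_lit 157))) (XT.nd (nat_lit 78) (nat_lit 152) (nat_lit 0) (XT.lf (nat_lit 0) (nat_lit 9799795790) (nat_lit 228) (nat_lit 7072124232) (nat_lit 304) (nat_lit 42877345156)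 (nat_lit 40) (nat_lit 5) (nat_lit 43) (nat_lit 5) (nat_lit 44) (nat_lit 5) (nat_lit 329) (nat_lit 295) (nat_lit 156)) (XT.nd (nat_lit 78) (nat_lit 152) (nat_lit 0) (XT.lf (nat_lit 0) (nat_lit 27976056608) (nat_lit 304) (nat_lit 21382459770) (nat_lit 76) (nat_lit 12380660096) (nat_lit 40) (nat_lit 5) (nat_lit 44) (nat_lit 5) (nat_lit 41) (nat_lit 5) (nat_lit 330) (nat_lit 295) (nat_lit 155)) (XT.lf (nat_lit 0) (nat_lit 8774600121) (nat_lit 152) (nat_lit 31111613802) (nat_lit 228) (nat_lit 23929830872) (nat_lit 38) (nat_lit 5) (nat_lit 40) (nat_lit 5) (nat_lit 41) (nat_lit 5) (nat_lit 331) (nat_lit 295) (nat_lit 154))))) (XT.nd (nat_lit 234) (nat_lit 152) (nat_lit 0) (XT.nd (nat_lit 78) (nat_lit 228) (nat_lit 0) (XT.lf (nat_lit 0) (nat_lit 41178709688) (nat_lit 152) (nat_lit 11573224705) (nat_lit 228) (nat_lit 13226821429) (nat_lit 38) (nat_lit 5) (nat_lit 40) (nat_lit 5) (nat_lit 41)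 (nat_lit 5) (nat_lit 332) (nat_lit 295) (nat_lit 153)) (XT.nd (nat_lit 78) (nat_lit 76) (nat_lit 0) (XT.lf (nat_lit 0) (nat_lit 7035916542) (nat_lit 152) (nat_lit 59472500959) (nat_lit 228) (nat_lit 1728813024) (nat_lit 36) (nat_lit 5) (nat_lit 38) (nat_lit 5) (nat_lit 39) (nat_lit 5) (nat_lit 333) (nat_lit 295) (nat_lit 152)) (XT.lf (nat_lit 0) (nat_lit 10627659930) (nat_lit 228) (nat_lit 29624165762) (nat_lit 76) (nat_lit 30317998039) (nat_lit 35) (nat_lit 5) (nat_lit 38) (nat_lit 5) (nat_lit 36) (nat_lit 5) (nat_lit 334) (nat_lit 295) (nat_lit 151)))) (XT.nd (nat_lit 78) (nat_lit 0) (nat_lit 0) (XT.lf (nat_lit 0) (nat_lit 3616285031) (nat_lit 152) (nat_lit 19982155018) (nat_lit 228) (nat_lit 49416462029) (nat_lit 33) (nat_lit 5) (nat_lit 35) (nat_lit 5) (nat_lit 36) (nat_lit 5) (nat_lit 335) (nat_lit 295) (nat_lit 150)) (XT.nd (nat_lit 78) (nat_lit 0) (nat_lit 0) (XT.lf (nat_lit 0)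 (nat_lit 37746145379) (nat_lit 228) (nat_lit 36041429808) (nat_lit 76) (nat_lit 1768241455) (nat_lit 33) (nat_lit 5) (nat_lit 36) (nat_lit 5) (nat_lit 34) (nat_lit 5) (nat_lit 336) (nat_lit 295) (nat_lit 149)) (XT.lf (nat_lit 0) (nat_lit 52927050186) (nat_lit 228) (nat_lit 1346803445) (nat_lit 76) (nat_lit 23933634123) (nat_lit 33) (nat_lit 5) (nat_lit 36) (nat_lit 5) (nat_lit 34) (nat_lit 5) (nat_lit 337) (nat_lit 295) (nat_lit 148))))))) (XT.nd (nat_lit 780) (nat_lit 532) (nat_lit 0) (XT.nd (nat_lit 390) (nat_lit 304) (nat_lit 0) (XT.nd (nat_lit 156) (nat_lit 304) (nat_lit 0) (XT.nd (nat_lit 78) (nat_lit 76) (nat_lit 0) (XT.lf (nat_lit 0) (nat_lit 36239743858) (nat_lit 152) (nat_lit 33191382149) (nat_lit 228) (nat_lit 11532411587) (nat_lit 31) (nat_lit 5) (nat_lit 33) (nat_lit 5) (nat_lit 34) (nat_lit 5) (nat_lit 338) (nat_lit 295) (nat_lit 147)) (XT.lf (nat_lit 0) (nat_lit 2831615634)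 (nat_lit 228) (nat_lit 8152292406) (nat_lit 76) (nat_lit 72870141270) (nat_lit 30) (nat_lit 5) (nat_lit 33) (nat_lit 5) (nat_lit 31) (nat_lit 5) (nat_lit 339) (nat_lit 295) (nat_lit 146))) (XT.nd (nat_lit 78) (nat_lit 152) (nat_lit 0) (XT.lf (nat_lit 0) (nat_lit 18213065418) (nat_lit 228) (nat_lit 56009145871) (nat_lit 76) (nat_lit 12623084495) (nat_lit 28) (nat_lit 5) (nat_lit 31) (nat_lit 5) (nat_lit 29) (nat_lit 5) (nat_lit 340) (nat_lit 295) (nat_lit 145)) (XT.nd (nat_lit 78) (nat_lit 152) (nat_lit 0) (XT.lf (nat_lit 0) (nat_lit 34682409698) (nat_lit 228) (nat_lit 18107098475) (nat_lit 76) (nat_lit 37180656508) (nat_lit 28) (nat_lit 5) (nat_lit 31) (nat_lit 5) (nat_lit 29) (nat_lit 5) (nat_lit 341) (nat_lit 295) (nat_lit 144)) (XT.lf (nat_lit 0) (nat_lit 22404651305) (nat_lit 152) (nat_lit 29918875566) (nat_lit 228) (nat_lit 40910336012) (nat_lit 26) (nat_lit 5) (nat_lit 28) (nat_lit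 5) (nat_lit 29) (nat_lit 5) (nat_lit 342) (nat_lit 295) (nat_lit 143))))) (XT.nd (nat_lit 156) (nat_lit 228) (nat_lit 0) (XT.nd (nat_lit 78) (nat_lit 76) (nat_lit 0) (XT.lf (nat_lit 0) (nat_lit 65568177542) (nat_lit 152) (nat_lit 5583714017) (nat_lit 228) (nat_lit 25493595942) (nat_lit 26) (nat_lit 5) (nat_lit 28) (nat_lit 5) (nat_lit 29) (nat_lit 5) (nat_lit 343) (nat_lit 295) (nat_lit 142)) (XT.lf (nat_lit 0) (nat_lit 10690192080) (nat_lit 76) (nat_lit 80708739966) (nat_lit 152) (nat_lit 8804899462) (nat_lit 25) (nat_lit 5) (nat_lit 26) (nat_lit 5) (nat_lit 27) (nat_lit 4) (nat_lit 344) (nat_lit 295) (nat_lit 141))) (XT.nd (nat_lit 78) (nat_lit 152) (nat_lit 0) (XT.lf (nat_lit 0) (nat_lit 9064268391) (nat_lit 152) (nat_lit 48527450958) (nat_lit 76) (nat_lit 46310314786) (nat_lit 24) (nat_lit 5) (nat_lit 26) (nat_lit 5) (nat_lit 25) (nat_lit 5) (nat_lit 345) (nat_lit 295) (nat_lit 140))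 (XT.nd (nat_lit 78) (nat_lit 152) (nat_lit 0) (XT.lf (nat_lit 0) (nat_lit 27529659725) (nat_lit 152) (nat_lit 5638578160) (nat_lit 76) (nat_lit 74609759401) (nat_lit 24) (nat_lit 5) (nat_lit 26) (nat_lit 5) (nat_lit 25) (nat_lit 5) (nat_lit 346) (nat_lit 295) (nat_lit 139)) (XT.lf (nat_lit 0) (nat_lit 40695060569) (nat_lit 152) (nat_lit 6857354901) (nat_lit 228) (nat_lit 64263639237) (nat_lit 22) (nat_lit 5) (nat_lit 24) (nat_lit 5) (nat_lit 25) (nat_lit 5) (nat_lit 347) (nat_lit 295) (nat_lit 138)))))) (XT.nd (nat_lit 390) (nat_lit 228) (nat_lit 0) (XT.nd (nat_lit 156) (nat_lit 228) (nat_lit 0) (XT.nd (nat_lit 78) (nat_lit 76) (nat_lit 0) (XT.lf (nat_lit 0) (nat_lit 68996373860) (nat_lit 228) (nat_lit 26838116972) (nat_lit 76) (nat_lit 20200521734) (nat_lit 22) (nat_lit 5) (nat_lit 25) (nat_lit 5) (nat_lit 23) (nat_lit 4) (nat_lit 348) (nat_lit 295) (nat_lit 137)) (XT.lf (nat_lit 0)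 (nat_lit 20190631215) (nat_lit 76) (nat_lit 71748350701) (nat_lit 152) (nat_lit 28504614590) (nat_lit 21) (nat_lit 5) (nat_lit 22) (nat_lit 5) (nat_lit 23) (nat_lit 4) (nat_lit 349) (nat_lit 295) (nat_lit 136))) (XT.nd (nat_lit 78) (nat_lit 228) (nat_lit 0) (XT.lf (nat_lit 0) (nat_lit 70500525763) (nat_lit 76) (nat_lit 45981539824) (nat_lit 152) (nat_lit 8567877532) (nat_lit 21) (nat_lit 5) (nat_lit 22) (nat_lit 5) (nat_lit 23) (nat_lit 4) (nat_lit 350) (nat_lit 295) (nat_lit 135)) (XT.nd (nat_lit 78) (nat_lit 152) (nat_lit 0) (XT.lf (nat_lit 0) (nat_lit 11968782393) (nat_lit 152) (nat_lit 6755745637) (nat_lit 76) (nat_lit 111152483267) (nat_lit 20) (nat_lit 5) (nat_lit 22) (nat_lit 5) (nat_lit 21) (nat_lit 5) (nat_lit 351) (nat_lit 295) (nat_lit 134)) (XT.lf (nat_lit 0) (nat_lit 34109636117) (nat_lit 228) (nat_lit 90355322960) (nat_lit 76) (nat_lit 10430186708) (nat_lit 18) (nat_lit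 5) (nat_lit 21) (nat_lit 5) (nat_lit 19) (nat_lit 4) (nat_lit 352) (nat_lit 295) (nat_lit 133))))) (XT.nd (nat_lit 234) (nat_lit 152) (nat_lit 0) (XT.nd (nat_lit 78) (nat_lit 76) (nat_lit 0) (XT.lf (nat_lit 0) (nat_lit 57779708708) (nat_lit 228) (nat_lit 41834493534) (nat_lit 76) (nat_lit 40528876555) (nat_lit 18) (nat_lit 5) (nat_lit 21) (nat_lit 5) (nat_lit 19) (nat_lit 4) (nat_lit 353) (nat_lit 295) (nat_lit 132)) (XT.nd (nat_lit 78) (nat_lit 0) (nat_lit 0) (XT.lf (nat_lit 0) (nat_lit 9411798462) (nat_lit 76) (nat_lit 73367411281) (nat_lit 152) (nat_lit 62866903052) (nat_lit 17) (nat_lit 5) (nat_lit 18) (nat_lit 5) (nat_lit 19) (nat_lit 4) (nat_lit 354) (nat_lit 295) (nat_lit 131)) (XT.lf (nat_lit 0) (nat_lit 64671018256) (nat_lit 76) (nat_lit 45065155906) (nat_lit 152) (nat_lit 41652750464) (nat_lit 17) (nat_lit 5) (nat_lit 18) (nat_lit 5) (nat_lit 19) (nat_lit 4) (nat_lit 355) (nat_lit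 295) (nat_lit 130)))) (XT.nd (nat_lit 78) (nat_lit 152) (nat_lit 0) (XT.lf (nat_lit 0) (nat_lit 122691498133) (nat_lit 76) (nat_lit 15348537184) (nat_lit 152) (nat_lit 19378889831) (nat_lit 17) (nat_lit 5) (nat_lit 18) (nat_lit 5) (nat_lit 19) (nat_lit 4) (nat_lit 356) (nat_lit 295) (nat_lit 129)) (XT.nd (nat_lit 78) (nat_lit 0) (nat_lit 0) (XT.lf (nat_lit 0) (nat_lit 4452541600) (nat_lit 152) (nat_lit 143532188559) (nat_lit 76) (nat_lit 15733957686) (nat_lit 15) (nat_lit 5) (nat_lit 17) (nat_lit 5) (nat_lit 16) (nat_lit 4) (nat_lit 357) (nat_lit 295) (nat_lit 128)) (XT.lf (nat_lit 0) (nat_lit 29672755128) (nat_lit 152) (nat_lit 91832854694) (nat_lit 76) (nat_lit 48769521556) (nat_lit 15) (nat_lit 5) (nat_lit 17) (nat_lit 5) (nat_lit 16) (nat_lit 4) (nat_lit 358) (nat_lit 295) (nat_lit 127))))))))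
noncomputable def xc200 : XT := (XT.nd (nat_lit 1560) (nat_lit 76) (nat_lit 0) (XT.nd (nat_lit 780) (nat_lit 228) (nat_lit 0) (XT.nd (nat_lit 390) (nat_lit 152) (nat_lit 0) (XT.nd (nat_lit 156) (nat_lit 76) (nat_lit 0) (XT.nd (nat_lit 78) (nat_lit 76) (nat_lit 0) (XT.lf (nat_lit 0) (nat_lit 56153108616) (nat_lit 152) (nat_lit 37550133727) (nat_lit 76) (nat_lit 83456198711) (nat_lit 15) (nat_lit 5) (nat_lit 17) (nat_lit 5) (nat_lit 16) (nat_lit 4) (nat_lit 359) (nat_lit 295) (nat_lit 126)) (XT.lf (nat_lit 0) (nat_lit 20088165670) (nat_lit 76) (nat_lit 64182117417) (nat_lit 152) (nat_lit 100102043371) (nat_lit 14) (nat_lit 5) (nat_lit 15) (nat_lit 5) (nat_lit 16) (nat_lit 4) (nat_lit 360) (nat_lit 295) (nat_lit 125))) (XT.nd (nat_lit 78) (nat_lit 76) (nat_lit 0) (XT.lf (nat_lit 0) (nat_lit 81910555780) (nat_lit 76) (nat_lit 32517877312) (nat_lit 152) (nat_lit 77485667592) (nat_lit 14)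 (nat_lit 5) (nat_lit 15) (nat_lit 5) (nat_lit 16) (nat_lit 4) (nat_lit 361) (nat_lit 295) (nat_lit 124)) (XT.nd (nat_lit 78) (nat_lit 76) (nat_lit 0) (XT.lf (nat_lit 0) (nat_lit 146105097218) (nat_lit 152) (nat_lit 53021727719) (nat_lit 0) (nat_lit 705608726) (nat_lit 14) (nat_lit 5) (nat_lit 16) (nat_lit 4) (nat_lit 14) (nat_lit 4) (nat_lit 362) (nat_lit 295) (nat_lit 123)) (XT.lf (nat_lit 0) (nat_lit 6482201011) (nat_lit 76) (nat_lit 173516932069) (nat_lit 76) (nat_lit 28115873638) (nat_lit 13) (nat_lit 4) (nat_lit 14) (nat_lit 5) (nat_lit 14) (nat_lit 4) (nat_lit 363) (nat_lit 295) (nat_lit 122))))) (XT.nd (nat_lit 156) (nat_lit 76) (nat_lit 0) (XT.nd (nat_lit 78) (nat_lit 76) (nat_lit 0) (XT.lf (nat_lit 0) (nat_lit 70800772666) (nat_lit 76) (nat_lit 145684314445) (nat_lit 76) (nat_lit 281760834) (nat_lit 13) (nat_lit 4) (nat_lit 14) (nat_lit 5) (nat_lit 14) (nat_lit 4) (nat_lit 364)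 (nat_lit 295) (nat_lit 121)) (XT.lf (nat_lit 0) (nat_lit 28016957892) (nat_lit 152) (nat_lit 87969213910) (nat_lit 76) (nat_lit 109842550300) (nat_lit 12) (nat_lit 5) (nat_lit 14) (nat_lit 5) (nat_lit 13) (nat_lit 4) (nat_lit 365) (nat_lit 295) (nat_lit 120))) (XT.nd (nat_lit 78) (nat_lit 76) (nat_lit 0) (XT.lf (nat_lit 0) (nat_lit 57720468198) (nat_lit 152) (nat_lit 27078373956) (nat_lit 76) (nat_lit 150544650922) (nat_lit 12) (nat_lit 5) (nat_lit 14) (nat_lit 5) (nat_lit 13) (nat_lit 4) (nat_lit 366) (nat_lit 295) (nat_lit 119)) (XT.nd (nat_lit 78) (nat_lit 0) (nat_lit 0) (XT.lf (nat_lit 0) (nat_lit 38074441765) (nat_lit 76) (nat_lit 51428517805) (nat_lit 152) (nat_lit 155801353027) (nat_lit 11) (nat_lit 5) (nat_lit 12) (nat_lit 5) (nat_lit 13) (nat_lit 4) (nat_lit 367) (nat_lit 295) (nat_lit 118)) (XT.lf (nat_lit 0) (nat_lit 107423831258) (nat_lit 76) (nat_lit 15908698839) (nat_lit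 152) (nat_lit 132407745533) (nat_lit 11) (nat_lit 5) (nat_lit 12) (nat_lit 5) (nat_lit 13) (nat_lit 4) (nat_lit 368) (nat_lit 295) (nat_lit 117)))))) (XT.nd (nat_lit 390) (nat_lit 76) (nat_lit 0) (XT.nd (nat_lit 156) (nat_lit 152) (nat_lit 0) (XT.nd (nat_lit 78) (nat_lit 0) (nat_lit 0) (XT.lf (nat_lit 0) (nat_lit 159186883176) (nat_lit 152) (nat_lit 86792393089) (nat_lit 0) (nat_lit 20702095600) (nat_lit 11) (nat_lit 5) (nat_lit 13) (nat_lit 4) (nat_lit 11) (nat_lit 4) (nat_lit 369) (nat_lit 295) (nat_lit 116)) (XT.lf (nat_lit 0) (nat_lit 197094172521) (nat_lit 152) (nat_lit 22454017352) (nat_lit 0) (nat_lit 58608322349) (nat_lit 11) (nat_lit 5) (nat_lit 13) (nat_lit 4) (nat_lit 11) (nat_lit 4) (nat_lit 370) (nat_lit 295) (nat_lit 115))) (XT.nd (nat_lit 78) (nat_lit 76) (nat_lit 0) (XT.lf (nat_lit 0) (nat_lit 46591466723) (nat_lit 76) (nat_lit 191032230854) (nat_lit 76) (nat_lit 52545368686)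 (nat_lit 10) (nat_lit 4) (nat_lit 11) (nat_lit 5) (nat_lit 11) (nat_lit 4) (nat_lit 371) (nat_lit 295) (nat_lit 114)) (XT.nd (nat_lit 78) (nat_lit 76) (nat_lit 0) (XT.lf (nat_lit 0) (nat_lit 119867766017) (nat_lit 76) (nat_lit 160691660890) (nat_lit 76) (nat_lit 22203834916) (nat_lit 10) (nat_lit 4) (nat_lit 11) (nat_lit 5) (nat_lit 11) (nat_lit 4) (nat_lit 372) (nat_lit 295) (nat_lit 113)) (XT.lf (nat_lit 0) (nat_lit 9345237936) (nat_lit 152) (nat_lit 119331006114) (nat_lit 76) (nat_lit 187303412626) (nat_lit 9) (nat_lit 5) (nat_lit 11) (nat_lit 5) (nat_lit 10) (nat_lit 4) (nat_lit 373) (nat_lit 295) (nat_lit 112))))) (XT.nd (nat_lit 156) (nat_lit 0) (nat_lit 0) (XT.nd (nat_lit 78) (nat_lit 76) (nat_lit 0) (XT.lf (nat_lit 0) (nat_lit 41725070462) (nat_lit 152) (nat_lit 52953223637) (nat_lit 76) (nat_lit 235160402474) (nat_lit 9) (nat_lit 5) (nat_lit 11) (nat_lit 5) (nat_lit 10) (nat_lit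 4) (nat_lit 374) (nat_lit 295) (nat_lit 111)) (XT.lf (nat_lit 0) (nat_lit 17296142633) (nat_lit 76) (nat_lit 58697317507) (nat_lit 152) (nat_lit 268383750226) (nat_lit 8) (nat_lit 5) (nat_lit 9) (nat_lit 5) (nat_lit 10) (nat_lit 4) (nat_lit 375) (nat_lit 295) (nat_lit 110))) (XT.nd (nat_lit 78) (nat_lit 0) (nat_lit 0) (XT.lf (nat_lit 0) (nat_lit 92895518015) (nat_lit 76) (nat_lit 19976073007) (nat_lit 152) (nat_lit 246726242913) (nat_lit 8) (nat_lit 5) (nat_lit 9) (nat_lit 5) (nat_lit 10) (nat_lit 4) (nat_lit 376) (nat_lit 295) (nat_lit 109)) (XT.nd (nat_lit 78) (nat_lit 0) (nat_lit 0) (XT.lf (nat_lit 0) (nat_lit 151916069866) (nat_lit 152) (nat_lit 203628368707) (nat_lit 0) (nat_lit 20018928200) (nat_lit 8) (nat_lit 5) (nat_lit 10) (nat_lit 4) (nat_lit 8) (nat_lit 4) (nat_lit 377) (nat_lit 295) (nat_lit 108)) (XT.lf (nat_lit 0) (nat_lit 193239820116) (nat_lit 152) (nat_lit 137729010429)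 (nat_lit 0) (nat_lit 61341993490) (nat_lit 8) (nat_lit 5) (nat_lit 10) (nat_lit 4) (nat_lit 8) (nat_lit 4) (nat_lit 378) (nat_lit 295) (nat_lit 107))))))) (XT.nd (nat_lit 34710) (nat_lit 0) (nat_lit 4940) (XT.nd (nat_lit 34320) (nat_lit 0) (nat_lit 6612) (XT.nd (nat_lit 156) (nat_lit 0) (nat_lit 0) (XT.nd (nat_lit 78) (nat_lit 76) (nat_lit 0) (XT.lf (nat_lit 0) (nat_lit 236629349170) (nat_lit 152) (nat_lit 68535455368) (nat_lit 0) (nat_lit 104730870203) (nat_lit 8) (nat_lit 5) (nat_lit 10) (nat_lit 4) (nat_lit 8) (nat_lit 4) (nat_lit 379) (nat_lit 295) (nat_lit 106)) (XT.lf (nat_lit 0) (nat_lit 4253171068) (nat_lit 76) (nat_lit 278001198284) (nat_lit 76) (nat_lit 146102098039) (nat_lit 7) (nat_lit 4) (nat_lit 8) (nat_lit 5) (nat_lit 8) (nat_lit 4) (nat_lit 380) (nat_lit 295) (nat_lit 105))) (XT.nd (nat_lit 34008) (nat_lit 0) (nat_lit 6612) (XT.lf (nat_lit 0) (nat_lit 83059902514) (nat_lit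 76) (nat_lit 248261037137) (nat_lit 76) (nat_lit 116361345199) (nat_lit 7) (nat_lit 4) (nat_lit 8) (nat_lit 5) (nat_lit 8) (nat_lit 4) (nat_lit 381) (nat_lit 295) (nat_lit 104)) (XT.nd (nat_lit 78) (nat_lit 0) (nat_lit 0) (XT.lf (nat_lit 0) (nat_lit 4998063472) (nat_lit 0) (nat_lit 4998063472) (nat_lit 684) (nat_lit 1872058952) (nat_lit 94) (nat_lit 5) (nat_lit 94) (nat_lit 3) (nat_lit 103) (nat_lit 3) (nat_lit 296) (nat_lit 296) (nat_lit 188)) (XT.lf (nat_lit 0) (nat_lit 20615411266) (nat_lit 684) (nat_lit 2869201776) (nat_lit 760) (nat_lit 838805410) (nat_lit 94) (nat_lit 5) (nat_lit 103) (nat_lit 3) (nat_lit 104) (nat_lit 5) (nat_lit 297) (nat_lit 296) (nat_lit 187))))) (XT.nd (nat_lit 156) (nat_lit 0) (nat_lit 76) (XT.nd (nat_lit 78) (nat_lit 0) (nat_lit 0) (XT.lf (nat_lit 76) (nat_lit 8654589581) (nat_lit 0) (nat_lit 12907155164) (nat_lit 760) (nat_lit 3363484272) (nat_lit 95) (nat_lit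 5) (nat_lit 94) (nat_lit 5) (nat_lit 104) (nat_lit 5) (nat_lit 298) (nat_lit 296) (nat_lit 186)) (XT.lf (nat_lit 76) (nat_lit 20850312311) (nat_lit 0) (nat_lit 1746970534) (nat_lit 760) (nat_lit 2957764763) (nat_lit 95) (nat_lit 5) (nat_lit 94) (nat_lit 5) (nat_lit 104) (nat_lit 5) (nat_lit 299) (nat_lit 296) (nat_lit 185))) (XT.nd (nat_lit 78) (nat_lit 0) (nat_lit 0) (XT.lf (nat_lit 76) (nat_lit 7520427186) (nat_lit 0) (nat_lit 16430922305) (nat_lit 760) (nat_lit 2251681382) (nat_lit 96) (nat_lit 5) (nat_lit 95) (nat_lit 5) (nat_lit 105) (nat_lit 5) (nat_lit 300) (nat_lit 296) (nat_lit 184)) (XT.nd (nat_lit 78) (nat_lit 0) (nat_lit 76) (XT.lf (nat_lit 76) (nat_lit 20486606494) (nat_lit 0) (nat_lit 4988264500) (nat_lit 760) (nat_lit 1403465517) (nat_lit 96) (nat_lit 5) (nat_lit 95) (nat_lit 5) (nat_lit 105) (nat_lit 5) (nat_lit 301) (nat_lit 296) (nat_lit 183)) (XT.lf (nat_lit 76) (nat_lit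 6611456092) (nat_lit 0) (nat_lit 20670259169) (nat_lit 760) (nat_lit 295345111) (nat_lit 97) (nat_lit 5) (nat_lit 96) (nat_lit 5) (nat_lit 106) (nat_lit 5) (nat_lit 302) (nat_lit 296) (nat_lit 182)))))) (XT.nd (nat_lit 390) (nat_lit 1064) (nat_lit 0) (XT.nd (nat_lit 156) (nat_lit 0) (nat_lit 76) (XT.nd (nat_lit 78) (nat_lit 0) (nat_lit 76) (XT.lf (nat_lit 0) (nat_lit 1026521039) (nat_lit 760) (nat_lit 7919969685) (nat_lit 836) (nat_lit 19354254936) (nat_lit 86) (nat_lit 5) (nat_lit 96) (nat_lit 5) (nat_lit 97) (nat_lit 5) (nat_lit 303) (nat_lit 296) (nat_lit 181)) (XT.lf (nat_lit 0) (nat_lit 2546343326) (nat_lit 760) (nat_lit 23150345103) (nat_lit 836) (nat_lit 3356604152) (nat_lit 87) (nat_lit 5) (nat_lit 97) (nat_lit 5) (nat_lit 98) (nat_lit 5) (nat_lit 304) (nat_lit 296) (nat_lit 180))) (XT.nd (nat_lit 78) (nat_lit 0) (nat_lit 0) (XT.lf (nat_lit 0) (nat_lit 4419961947) (nat_lit 760)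 (nat_lit 9297933422) (nat_lit 836) (nat_lit 16111689673) (nat_lit 87) (nat_lit 5) (nat_lit 97) (nat_lit 5) (nat_lit 98) (nat_lit 5) (nat_lit 305) (nat_lit 296) (nat_lit 179)) (XT.nd (nat_lit 78) (nat_lit 0) (nat_lit 76) (XT.lf (nat_lit 76) (nat_lit 5416376377) (nat_lit 0) (nat_lit 1050510973) (nat_lit 836) (nat_lit 24173831533) (nat_lit 88) (nat_lit 5) (nat_lit 87) (nat_lit 5) (nat_lit 98) (nat_lit 5) (nat_lit 306) (nat_lit 296) (nat_lit 178)) (XT.lf (nat_lit 0) (nat_lit 8962711325) (nat_lit 760) (nat_lit 10493445511) (nat_lit 76) (nat_lit 12018932631) (nat_lit 88) (nat_lit 5) (nat_lit 98) (nat_lit 5) (nat_lit 89) (nat_lit 5) (nat_lit 307) (nat_lit 296) (nat_lit 177))))) (XT.nd (nat_lit 234) (nat_lit 304) (nat_lit 0) (XT.nd (nat_lit 78) (nat_lit 380) (nat_lit 0) (XT.lf (nat_lit 0) (nat_lit 5116464857) (nat_lit 532) (nat_lit 6559437189) (nat_lit 608) (nat_lit 20670655057) (nat_lit 81)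 (nat_lit 5) (nat_lit 88) (nat_lit 5) (nat_lit 89) (nat_lit 5) (nat_lit 308) (nat_lit 296) (nat_lit 176)) (XT.nd (nat_lit 78) (nat_lit 380) (nat_lit 0) (XT.lf (nat_lit 0) (nat_lit 14810018266) (nat_lit 608) (nat_lit 11497691513) (nat_lit 76) (nat_lit 6939632000) (nat_lit 81) (nat_lit 5) (nat_lit 89) (nat_lit 5) (nat_lit 82) (nat_lit 5) (nat_lit 309) (nat_lit 296) (nat_lit 175)) (XT.lf (nat_lit 0) (nat_lit 5072103433) (nat_lit 380) (nat_lit 13211297075) (nat_lit 456) (nat_lit 15900643791) (nat_lit 76) (nat_lit 5) (nat_lit 81) (nat_lit 5) (nat_lit 82) (nat_lit 5) (nat_lit 310) (nat_lit 296) (nat_lit 174)))) (XT.nd (nat_lit 78) (nat_lit 304) (nat_lit 0) (XT.lf (nat_lit 0) (nat_lit 22132768669) (nat_lit 456) (nat_lit 12304082474) (nat_lit 76) (nat_lit 720621270) (nat_lit 76) (nat_lit 5) (nat_lit 82) (nat_lit 5) (nat_lit 77) (nat_lit 5) (nat_lit 311) (nat_lit 296) (nat_lit 173)) (XT.nd (nat_lit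 78) (nat_lit 0) (nat_lit 0) (XT.lf (nat_lit 0) (nat_lit 5293022392) (nat_lit 304) (nat_lit 21176967831) (nat_lit 380) (nat_lit 9694818468) (nat_lit 72) (nat_lit 5) (nat_lit 76) (nat_lit 5) (nat_lit 77) (nat_lit 5) (nat_lit 312) (nat_lit 296) (nat_lit 172)) (XT.lf (nat_lit 0) (nat_lit 24193239038) (nat_lit 304) (nat_lit 7035498241) (nat_lit 380) (nat_lit 5983547002) (nat_lit 72) (nat_lit 5) (nat_lit 76) (nat_lit 5) (nat_lit 77) (nat_lit 5) (nat_lit 313) (nat_lit 296) (nat_lit 171))))))))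
noncomputable def xc201 : XT := (XT.nd (nat_lit 1638) (nat_lit 1444) (nat_lit 0) (XT.nd (nat_lit 780) (nat_lit 1216) (nat_lit 0) (XT.nd (nat_lit 390) (nat_lit 532) (nat_lit 0) (XT.nd (nat_lit 156) (nat_lit 608) (nat_lit 0) (XT.nd (nat_lit 78) (nat_lit 76) (nat_lit 0) (XT.lf (nat_lit 0) (nat_lit 5785619047) (nat_lit 304) (nat_lit 30648578446) (nat_lit 380) (nat_lit 1867502817) (nat_lit 68) (nat_lit 5) (nat_lit 72) (nat_lit 5) (nat_lit 73) (nat_lit 5) (nat_lit 314) (nat_lit 296) (nat_lit 170)) (XT.lf (nat_lit 0) (nat_lit 2711733371) (nat_lit 380) (nat_lit 13613287824) (nat_lit 76) (nat_lit 23101857721) (nat_lit 67) (nat_lit 5) (nat_lit 72) (nat_lit 5) (nat_lit 68) (nat_lit 5) (nat_lit 315) (nat_lit 296) (nat_lit 169))) (XT.nd (nat_lit 78) (nat_lit 304) (nat_lit 0) (XT.lf (nat_lit 0) (nat_lit 6405264105) (nat_lit 304) (nat_lit 1148587009) (nat_lit 380) (nat_lit 33048105301) (nat_lit 63)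 (nat_lit 5) (nat_lit 67) (nat_lit 5) (nat_lit 68) (nat_lit 5) (nat_lit 316) (nat_lit 296) (nat_lit 168)) (XT.nd (nat_lit 78) (nat_lit 304) (nat_lit 0) (XT.lf (nat_lit 0) (nat_lit 13100031784) (nat_lit 380) (nat_lit 14165406938) (nat_lit 76) (nat_lit 14547255700) (nat_lit 63) (nat_lit 5) (nat_lit 68) (nat_lit 5) (nat_lit 64) (nat_lit 5) (nat_lit 317) (nat_lit 296) (nat_lit 167)) (XT.lf (nat_lit 0) (nat_lit 7071249984) (nat_lit 304) (nat_lit 11978425312) (nat_lit 380) (nat_lit 24027990608) (nat_lit 59) (nat_lit 5) (nat_lit 63) (nat_lit 5) (nat_lit 64) (nat_lit 5) (nat_lit 318) (nat_lit 296) (nat_lit 166))))) (XT.nd (nat_lit 156) (nat_lit 304) (nat_lit 0) (XT.nd (nat_lit 78) (nat_lit 228) (nat_lit 0) (XT.lf (nat_lit 0) (nat_lit 25601224139) (nat_lit 380) (nat_lit 14603654664) (nat_lit 76) (nat_lit 4185790067) (nat_lit 59) (nat_lit 5) (nat_lit 64) (nat_lit 5) (nat_lit 60) (nat_lit 5) (nat_lit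 319) (nat_lit 296) (nat_lit 165)) (XT.lf (nat_lit 0) (nat_lit 7922866271) (nat_lit 228) (nat_lit 24874695061) (nat_lit 304) (nat_lit 12955903980) (nat_lit 56) (nat_lit 5) (nat_lit 59) (nat_lit 5) (nat_lit 60) (nat_lit 5) (nat_lit 320) (nat_lit 296) (nat_lit 164))) (XT.nd (nat_lit 78) (nat_lit 304) (nat_lit 0) (XT.lf (nat_lit 0) (nat_lit 32079185147) (nat_lit 228) (nat_lit 8519076099) (nat_lit 304) (nat_lit 6573916724) (nat_lit 56) (nat_lit 5) (nat_lit 59) (nat_lit 5) (nat_lit 60) (nat_lit 5) (nat_lit 321) (nat_lit 296) (nat_lit 163)) (XT.nd (nat_lit 78) (nat_lit 0) (nat_lit 0) (XT.lf (nat_lit 0) (nat_lit 399419418) (nat_lit 304) (nat_lit 39726020472) (nat_lit 76) (nat_lit 8522474453) (nat_lit 52) (nat_lit 5) (nat_lit 56) (nat_lit 5) (nat_lit 53) (nat_lit 5) (nat_lit 322) (nat_lit 296) (nat_lit 162)) (XT.lf (nat_lit 0) (nat_lit 7897323960) (nat_lit 304) (nat_lit 15778277811) (nat_lit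 76) (nat_lit 26496609079) (nat_lit 52) (nat_lit 5) (nat_lit 56) (nat_lit 5) (nat_lit 53) (nat_lit 5) (nat_lit 323) (nat_lit 296) (nat_lit 161)))))) (XT.nd (nat_lit 390) (nat_lit 608) (nat_lit 0) (XT.nd (nat_lit 156) (nat_lit 380) (nat_lit 0) (XT.nd (nat_lit 78) (nat_lit 0) (nat_lit 0) (XT.lf (nat_lit 0) (nat_lit 9673095472) (nat_lit 228) (nat_lit 6245551336) (nat_lit 304) (nat_lit 35846652253) (nat_lit 49) (nat_lit 5) (nat_lit 52) (nat_lit 5) (nat_lit 53) (nat_lit 5) (nat_lit 324) (nat_lit 296) (nat_lit 160)) (XT.lf (nat_lit 0) (nat_lit 24798410020) (nat_lit 304) (nat_lit 16675878810) (nat_lit 76) (nat_lit 11940887033) (nat_lit 49) (nat_lit 5) (nat_lit 53) (nat_lit 5) (nat_lit 50) (nat_lit 5) (nat_lit 325) (nat_lit 296) (nat_lit 159))) (XT.nd (nat_lit 78) (nat_lit 152) (nat_lit 0) (XT.lf (nat_lit 0) (nat_lit 10233150509) (nat_lit 228) (nat_lit 24148834594) (nat_lit 304) (nat_lit 20752572967)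 (nat_lit 46) (nat_lit 5) (nat_lit 49) (nat_lit 5) (nat_lit 50) (nat_lit 5) (nat_lit 326) (nat_lit 296) (nat_lit 158)) (XT.nd (nat_lit 78) (nat_lit 152) (nat_lit 0) (XT.lf (nat_lit 0) (nat_lit 39063382242) (nat_lit 228) (nat_lit 5661501292) (nat_lit 304) (nat_lit 12201021246) (nat_lit 46) (nat_lit 5) (nat_lit 49) (nat_lit 5) (nat_lit 50) (nat_lit 5) (nat_lit 327) (nat_lit 296) (nat_lit 157)) (XT.lf (nat_lit 0) (nat_lit 10651396413) (nat_lit 152) (nat_lit 45312332540) (nat_lit 228) (nat_lit 2824152264) (nat_lit 44) (nat_lit 5) (nat_lit 46) (nat_lit 5) (nat_lit 47) (nat_lit 5) (nat_lit 328) (nat_lit 296) (nat_lit 156))))) (XT.nd (nat_lit 234) (nat_lit 304) (nat_lit 0) (XT.nd (nat_lit 78) (nat_lit 228) (nat_lit 0) (XT.lf (nat_lit 0) (nat_lit 7194950577) (nat_lit 228) (nat_lit 19727235399) (nat_lit 76) (nat_lit 33795385243) (nat_lit 43) (nat_lit 5) (nat_lit 46) (nat_lit 5) (nat_lit 44) (nat_lit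 5) (nat_lit 329) (nat_lit 296) (nat_lit 155)) (XT.nd (nat_lit 78) (nat_lit 0) (nat_lit 0) (XT.lf (nat_lit 0) (nat_lit 10385567351) (nat_lit 228) (nat_lit 7394624739) (nat_lit 304) (nat_lit 44953236230) (nat_lit 40) (nat_lit 5) (nat_lit 43) (nat_lit 5) (nat_lit 44) (nat_lit 5) (nat_lit 330) (nat_lit 296) (nat_lit 154)) (XT.lf (nat_lit 0) (nat_lit 29436918213) (nat_lit 304) (nat_lit 22357681576) (nat_lit 76) (nat_lit 13028369413) (nat_lit 40) (nat_lit 5) (nat_lit 44) (nat_lit 5) (nat_lit 41) (nat_lit 5) (nat_lit 331) (nat_lit 296) (nat_lit 153)))) (XT.nd (nat_lit 78) (nat_lit 152) (nat_lit 0) (XT.lf (nat_lit 0) (nat_lit 9305716774) (nat_lit 152) (nat_lit 32635353854) (nat_lit 228) (nat_lit 25062688957) (nat_lit 38) (nat_lit 5) (nat_lit 40) (nat_lit 5) (nat_lit 41) (nat_lit 5) (nat_lit 332) (nat_lit 296) (nat_lit 152)) (XT.nd (nat_lit 78) (nat_lit 152) (nat_lit 0) (XT.lf (nat_lit 0) (nat_lit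 43325632455) (nat_lit 152) (nat_lit 12121561523) (nat_lit 228) (nat_lit 13827559206) (nat_lit 38) (nat_lit 5) (nat_lit 40) (nat_lit 5) (nat_lit 41) (nat_lit 5) (nat_lit 333) (nat_lit 296) (nat_lit 151)) (XT.lf (nat_lit 0) (nat_lit 7476707692) (nat_lit 152) (nat_lit 62413888070) (nat_lit 228) (nat_lit 1755603863) (nat_lit 36) (nat_lit 5) (nat_lit 38) (nat_lit 5) (nat_lit 39) (nat_lit 5) (nat_lit 334) (nat_lit 296) (nat_lit 150))))))) (XT.nd (nat_lit 780) (nat_lit 684) (nat_lit 0) (XT.nd (nat_lit 390) (nat_lit 380) (nat_lit 0) (XT.nd (nat_lit 156) (nat_lit 152) (nat_lit 0) (XT.nd (nat_lit 78) (nat_lit 152) (nat_lit 0) (XT.lf (nat_lit 0) (nat_lit 11214034017) (nat_lit 228) (nat_lit 31018748861) (nat_lit 76) (nat_lit 31862732999) (nat_lit 35) (nat_lit 5) (nat_lit 38) (nat_lit 5) (nat_lit 36) (nat_lit 5) (nat_lit 335) (nat_lit 296) (nat_lit 149)) (XT.lf (nat_lit 0) (nat_lit 3882327291) (nat_lit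 152) (nat_lit 20949737876) (nat_lit 228) (nat_lit 51830849730) (nat_lit 33) (nat_lit 5) (nat_lit 35) (nat_lit 5) (nat_lit 36) (nat_lit 5) (nat_lit 336) (nat_lit 296) (nat_lit 148))) (XT.nd (nat_lit 78) (nat_lit 152) (nat_lit 0) (XT.lf (nat_lit 0) (nat_lit 39685067226) (nat_lit 228) (nat_lit 37760198345) (nat_lit 76) (nat_lit 1885716289) (nat_lit 33) (nat_lit 5) (nat_lit 36) (nat_lit 5) (nat_lit 34) (nat_lit 5) (nat_lit 337) (nat_lit 296) (nat_lit 147)) (XT.nd (nat_lit 78) (nat_lit 152) (nat_lit 0) (XT.lf (nat_lit 0) (nat_lit 55622559437) (nat_lit 228) (nat_lit 1334807471) (nat_lit 76) (nat_lit 25157994649) (nat_lit 33) (nat_lit 5) (nat_lit 36) (nat_lit 5) (nat_lit 34) (nat_lit 5) (nat_lit 338) (nat_lit 296) (nat_lit 146)) (XT.lf (nat_lit 0) (nat_lit 38129787582) (nat_lit 152) (nat_lit 34820929352) (nat_lit 228) (nat_lit 12058555098) (nat_lit 31) (nat_lit 5) (nat_lit 33) (nat_lit 5) (nat_lit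 34) (nat_lit 5) (nat_lit 339) (nat_lit 296) (nat_lit 145))))) (XT.nd (nat_lit 156) (nat_lit 152) (nat_lit 0) (XT.nd (nat_lit 78) (nat_lit 152) (nat_lit 0) (XT.lf (nat_lit 0) (nat_lit 3019731165) (nat_lit 228) (nat_lit 8483991898) (nat_lit 76) (nat_lit 76540665049) (nat_lit 30) (nat_lit 5) (nat_lit 33) (nat_lit 5) (nat_lit 31) (nat_lit 5) (nat_lit 340) (nat_lit 296) (nat_lit 144)) (XT.lf (nat_lit 0) (nat_lit 19169659612) (nat_lit 228) (nat_lit 58733059042) (nat_lit 76) (nat_lit 13282509704) (nat_lit 28) (nat_lit 5) (nat_lit 31) (nat_lit 5) (nat_lit 29) (nat_lit 5) (nat_lit 341) (nat_lit 296) (nat_lit 143))) (XT.nd (nat_lit 78) (nat_lit 152) (nat_lit 0) (XT.lf (nat_lit 0) (nat_lit 36460283444) (nat_lit 228) (nat_lit 18939554235) (nat_lit 76) (nat_lit 39066614080) (nat_lit 28) (nat_lit 5) (nat_lit 31) (nat_lit 5) (nat_lit 29) (nat_lit 5) (nat_lit 342) (nat_lit 296) (nat_lit 142)) (XT.nd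 (nat_lit 78) (nat_lit 0) (nat_lit 0) (XT.lf (nat_lit 0) (nat_lit 23596607241) (nat_lit 152) (nat_lit 31385885548) (nat_lit 228) (nat_lit 42910891861) (nat_lit 26) (nat_lit 5) (nat_lit 28) (nat_lit 5) (nat_lit 29) (nat_lit 5) (nat_lit 343) (nat_lit 296) (nat_lit 141)) (XT.lf (nat_lit 0) (nat_lit 68914894392) (nat_lit 152) (nat_lit 5835343721) (nat_lit 228) (nat_lit 26725455785) (nat_lit 26) (nat_lit 5) (nat_lit 28) (nat_lit 5) (nat_lit 29) (nat_lit 5) (nat_lit 344) (nat_lit 296) (nat_lit 140)))))) (XT.nd (nat_lit 390) (nat_lit 380) (nat_lit 0) (XT.nd (nat_lit 156) (nat_lit 152) (nat_lit 0) (XT.nd (nat_lit 78) (nat_lit 76) (nat_lit 0) (XT.lf (nat_lit 0) (nat_lit 11293519252) (nat_lit 76) (nat_lit 84715654977) (nat_lit 152) (nat_lit 9202805143) (nat_lit 25) (nat_lit 5) (nat_lit 26) (nat_lit 5) (nat_lit 27) (nat_lit 4) (nat_lit 345) (nat_lit 296) (nat_lit 139)) (XT.lf (nat_lit 0) (nat_lit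 9556514354) (nat_lit 152) (nat_lit 50886966130) (nat_lit 76) (nat_lit 48651677488) (nat_lit 24) (nat_lit 5) (nat_lit 26) (nat_lit 5) (nat_lit 25) (nat_lit 5) (nat_lit 346) (nat_lit 296) (nat_lit 138))) (XT.nd (nat_lit 78) (nat_lit 152) (nat_lit 0) (XT.lf (nat_lit 0) (nat_lit 28943316562) (nat_lit 152) (nat_lit 5856833377) (nat_lit 76) (nat_lit 78364863526) (nat_lit 24) (nat_lit 5) (nat_lit 26) (nat_lit 5) (nat_lit 25) (nat_lit 5) (nat_lit 347) (nat_lit 296) (nat_lit 137)) (XT.nd (nat_lit 78) (nat_lit 0) (nat_lit 0) (XT.lf (nat_lit 0) (nat_lit 42792460293) (nat_lit 152) (nat_lit 7173957707) (nat_lit 228) (nat_lit 67438596550) (nat_lit 22) (nat_lit 5) (nat_lit 24) (nat_lit 5) (nat_lit 25) (nat_lit 5) (nat_lit 348) (nat_lit 296) (nat_lit 136)) (XT.lf (nat_lit 0) (nat_lit 72481232388) (nat_lit 228) (nat_lit 28118994708) (nat_lit 76) (nat_lit 21234761436) (nat_lit 22) (nat_lit 5) (nat_lit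 25) (nat_lit 5) (nat_lit 23) (nat_lit 4) (nat_lit 349) (nat_lit 296) (nat_lit 135))))) (XT.nd (nat_lit 234) (nat_lit 228) (nat_lit 0) (XT.nd (nat_lit 78) (nat_lit 76) (nat_lit 0) (XT.lf (nat_lit 0) (nat_lit 21260206564) (nat_lit 76) (nat_lit 75310033171) (nat_lit 152) (nat_lit 29893799569) (nat_lit 21) (nat_lit 5) (nat_lit 22) (nat_lit 5) (nat_lit 23) (nat_lit 4) (nat_lit 350) (nat_lit 296) (nat_lit 134)) (XT.nd (nat_lit 78) (nat_lit 76) (nat_lit 0) (XT.lf (nat_lit 0) (nat_lit 74082736611) (nat_lit 76) (nat_lit 48256107230) (nat_lit 152) (nat_lit 8961942123) (nat_lit 21) (nat_lit 5) (nat_lit 22) (nat_lit 5) (nat_lit 23) (nat_lit 4) (nat_lit 351) (nat_lit 296) (nat_lit 133)) (XT.lf (nat_lit 0) (nat_lit 12598869640) (nat_lit 152) (nat_lit 7038006353) (nat_lit 76) (nat_lit 116732384812) (nat_lit 20) (nat_lit 5) (nat_lit 22) (nat_lit 5) (nat_lit 21) (nat_lit 5) (nat_lit 352) (nat_lit 296)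 (nat_lit 132)))) (XT.nd (nat_lit 78) (nat_lit 76) (nat_lit 0) (XT.lf (nat_lit 0) (nat_lit 35846480979) (nat_lit 228) (nat_lit 94817259708) (nat_lit 76) (nat_lit 10974576473) (nat_lit 18) (nat_lit 5) (nat_lit 21) (nat_lit 5) (nat_lit 19) (nat_lit 4) (nat_lit 353) (nat_lit 296) (nat_lit 131)) (XT.nd (nat_lit 78) (nat_lit 76) (nat_lit 0) (XT.lf (nat_lit 0) (nat_lit 60698563720) (nat_lit 228) (nat_lit 43873047353) (nat_lit 76) (nat_lit 42577111268) (nat_lit 18) (nat_lit 5) (nat_lit 21) (nat_lit 5) (nat_lit 19) (nat_lit 4) (nat_lit 354) (nat_lit 296) (nat_lit 130)) (XT.lf (nat_lit 0) (nat_lit 9934701648) (nat_lit 76) (nat_lit 77012732555) (nat_lit 152) (nat_lit 65979504922) (nat_lit 17) (nat_lit 5) (nat_lit 18) (nat_lit 5) (nat_lit 19) (nat_lit 4) (nat_lit 355) (nat_lit 296) (nat_lit 129))))))))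
noncomputable def xc202 : XT := (XT.nd (nat_lit 1560) (nat_lit 152) (nat_lit 0) (XT.nd (nat_lit 780) (nat_lit 304) (nat_lit 0) (XT.nd (nat_lit 390) (nat_lit 152) (nat_lit 0) (XT.nd (nat_lit 156) (nat_lit 152) (nat_lit 0) (XT.nd (nat_lit 78) (nat_lit 0) (nat_lit 0) (XT.lf (nat_lit 0) (nat_lit 67954391324) (nat_lit 76) (nat_lit 47296461997) (nat_lit 152) (nat_lit 43706108671) (nat_lit 17) (nat_lit 5) (nat_lit 18) (nat_lit 5) (nat_lit 19) (nat_lit 4) (nat_lit 356) (nat_lit 296) (nat_lit 128)) (XT.lf (nat_lit 0) (nat_lit 128873522711) (nat_lit 76) (nat_lit 16095057657) (nat_lit 152) (nat_lit 20319949260) (nat_lit 17) (nat_lit 5) (nat_lit 18) (nat_lit 5) (nat_lit 19) (nat_lit 4) (nat_lit 357) (nat_lit 296) (nat_lit 127))) (XT.nd (nat_lit 78) (nat_lit 0) (nat_lit 0) (XT.lf (nat_lit 0) (nat_lit 4701948522) (nat_lit 152) (nat_lit 150660215922) (nat_lit 76) (nat_lit 16541105546) (nat_lit 15)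 (nat_lit 5) (nat_lit 17) (nat_lit 5) (nat_lit 16) (nat_lit 4) (nat_lit 358) (nat_lit 296) (nat_lit 126)) (XT.nd (nat_lit 78) (nat_lit 0) (nat_lit 0) (XT.lf (nat_lit 0) (nat_lit 31181897496) (nat_lit 152) (nat_lit 96378228796) (nat_lit 76) (nat_lit 51227473801) (nat_lit 15) (nat_lit 5) (nat_lit 17) (nat_lit 5) (nat_lit 16) (nat_lit 4) (nat_lit 359) (nat_lit 296) (nat_lit 125)) (XT.lf (nat_lit 0) (nat_lit 58985054153) (nat_lit 152) (nat_lit 39383575048) (nat_lit 76) (nat_lit 87647557377) (nat_lit 15) (nat_lit 5) (nat_lit 17) (nat_lit 5) (nat_lit 16) (nat_lit 4) (nat_lit 360) (nat_lit 296) (nat_lit 124))))) (XT.nd (nat_lit 156) (nat_lit 76) (nat_lit 0) (XT.nd (nat_lit 78) (nat_lit 0) (nat_lit 0) (XT.lf (nat_lit 0) (nat_lit 21135928586) (nat_lit 76) (nat_lit 67371678977) (nat_lit 152) (nat_lit 105082133252) (nat_lit 14) (nat_lit 5) (nat_lit 15) (nat_lit 5) (nat_lit 16) (nat_lit 4) (nat_lit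 361) (nat_lit 296) (nat_lit 123)) (XT.lf (nat_lit 0) (nat_lit 86047373696) (nat_lit 76) (nat_lit 34125157548) (nat_lit 152) (nat_lit 81336129745) (nat_lit 14) (nat_lit 5) (nat_lit 15) (nat_lit 5) (nat_lit 16) (nat_lit 4) (nat_lit 362) (nat_lit 296) (nat_lit 122))) (XT.nd (nat_lit 78) (nat_lit 76) (nat_lit 0) (XT.lf (nat_lit 0) (nat_lit 153432225515) (nat_lit 152) (nat_lit 55632676729) (nat_lit 0) (nat_lit 758049045) (nat_lit 14) (nat_lit 5) (nat_lit 16) (nat_lit 4) (nat_lit 14) (nat_lit 4) (nat_lit 363) (nat_lit 296) (nat_lit 121)) (XT.nd (nat_lit 78) (nat_lit 0) (nat_lit 0) (XT.lf (nat_lit 0) (nat_lit 6845801060) (nat_lit 76) (nat_lit 182174737067) (nat_lit 76) (nat_lit 29499136616) (nat_lit 13) (nat_lit 4) (nat_lit 14) (nat_lit 5) (nat_lit 14) (nat_lit 4) (nat_lit 364) (nat_lit 296) (nat_lit 120)) (XT.lf (nat_lit 0) (nat_lit 74378420822) (nat_lit 76) (nat_lit 152951347685) (nat_lit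 76) (nat_lit 274391063) (nat_lit 13) (nat_lit 4) (nat_lit 14) (nat_lit 5) (nat_lit 14) (nat_lit 4) (nat_lit 365) (nat_lit 296) (nat_lit 119)))))) (XT.nd (nat_lit 390) (nat_lit 152) (nat_lit 0) (XT.nd (nat_lit 156) (nat_lit 76) (nat_lit 0) (XT.nd (nat_lit 78) (nat_lit 0) (nat_lit 0) (XT.lf (nat_lit 0) (nat_lit 29437587719) (nat_lit 152) (nat_lit 92331193388) (nat_lit 76) (nat_lit 115350379459) (nat_lit 12) (nat_lit 5) (nat_lit 14) (nat_lit 5) (nat_lit 13) (nat_lit 4) (nat_lit 366) (nat_lit 296) (nat_lit 118)) (XT.lf (nat_lit 0) (nat_lit 60625331543) (nat_lit 152) (nat_lit 28397548637) (nat_lit 76) (nat_lit 158086837415) (nat_lit 12) (nat_lit 5) (nat_lit 14) (nat_lit 5) (nat_lit 13) (nat_lit 4) (nat_lit 367) (nat_lit 296) (nat_lit 117))) (XT.nd (nat_lit 78) (nat_lit 0) (nat_lit 0) (XT.lf (nat_lit 0) (nat_lit 40012347483) (nat_lit 76) (nat_lit 53984236564) (nat_lit 152) (nat_lit 163572012606)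 (nat_lit 11) (nat_lit 5) (nat_lit 12) (nat_lit 5) (nat_lit 13) (nat_lit 4) (nat_lit 368) (nat_lit 296) (nat_lit 116)) (XT.nd (nat_lit 78) (nat_lit 0) (nat_lit 0) (XT.lf (nat_lit 0) (nat_lit 112827578658) (nat_lit 76) (nat_lit 16689174609) (nat_lit 152) (nat_lit 139009648931) (nat_lit 11) (nat_lit 5) (nat_lit 12) (nat_lit 5) (nat_lit 13) (nat_lit 4) (nat_lit 369) (nat_lit 296) (nat_lit 115)) (XT.lf (nat_lit 0) (nat_lit 167163208497) (nat_lit 152) (nat_lit 91100384652) (nat_lit 0) (nat_lit 21750991224) (nat_lit 11) (nat_lit 5) (nat_lit 13) (nat_lit 4) (nat_lit 11) (nat_lit 4) (nat_lit 370) (nat_lit 296) (nat_lit 114))))) (XT.nd (nat_lit 156) (nat_lit 76) (nat_lit 0) (XT.nd (nat_lit 78) (nat_lit 76) (nat_lit 0) (XT.lf (nat_lit 0) (nat_lit 206965053682) (nat_lit 152) (nat_lit 23546596228) (nat_lit 0) (nat_lit 61551872603) (nat_lit 11) (nat_lit 5) (nat_lit 13) (nat_lit 4) (nat_lit 11) (nat_lit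 4) (nat_lit 371) (nat_lit 296) (nat_lit 113)) (XT.lf (nat_lit 0) (nat_lit 48950676213) (nat_lit 76) (nat_lit 200570071361) (nat_lit 76) (nat_lit 55155972371) (nat_lit 10) (nat_lit 4) (nat_lit 11) (nat_lit 5) (nat_lit 11) (nat_lit 4) (nat_lit 372) (nat_lit 296) (nat_lit 112))) (XT.nd (nat_lit 78) (nat_lit 76) (nat_lit 0) (XT.lf (nat_lit 0) (nat_lit 125889379226) (nat_lit 76) (nat_lit 168713128662) (nat_lit 76) (nat_lit 23298155472) (nat_lit 10) (nat_lit 4) (nat_lit 11) (nat_lit 5) (nat_lit 11) (nat_lit 4) (nat_lit 373) (nat_lit 296) (nat_lit 111)) (XT.nd (nat_lit 78) (nat_lit 0) (nat_lit 0) (XT.lf (nat_lit 0) (nat_lit 9827131464) (nat_lit 152) (nat_lit 125270186260) (nat_lit 76) (nat_lit 196680584698) (nat_lit 9) (nat_lit 5) (nat_lit 11) (nat_lit 5) (nat_lit 10) (nat_lit 4) (nat_lit 374) (nat_lit 296) (nat_lit 110)) (XT.lf (nat_lit 0) (nat_lit 43825258871) (nat_lit 152) (nat_lit 55574818000)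 (nat_lit 76) (nat_lit 246929852541) (nat_lit 9) (nat_lit 5) (nat_lit 11) (nat_lit 5) (nat_lit 10) (nat_lit 4) (nat_lit 375) (nat_lit 296) (nat_lit 109))))))) (XT.nd (nat_lit 34788) (nat_lit 0) (nat_lit 5244) (XT.nd (nat_lit 390) (nat_lit 76) (nat_lit 0) (XT.nd (nat_lit 156) (nat_lit 0) (nat_lit 0) (XT.nd (nat_lit 78) (nat_lit 0) (nat_lit 0) (XT.lf (nat_lit 0) (nat_lit 18186596152) (nat_lit 76) (nat_lit 61620208729) (nat_lit 152) (nat_lit 281788577423) (nat_lit 8) (nat_lit 5) (nat_lit 9) (nat_lit 5) (nat_lit 10) (nat_lit 4) (nat_lit 376) (nat_lit 296) (nat_lit 108)) (XT.lf (nat_lit 0) (nat_lit 97564719046) (nat_lit 76) (nat_lit 20963472225) (nat_lit 152) (nat_lit 259048878568) (nat_lit 8) (nat_lit 5) (nat_lit 9) (nat_lit 5) (nat_lit 10) (nat_lit 4) (nat_lit 377) (nat_lit 296) (nat_lit 107))) (XT.nd (nat_lit 78) (nat_lit 0) (nat_lit 0) (XT.lf (nat_lit 0) (nat_lit 159524443600) (nat_lit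 152) (nat_lit 213786070126) (nat_lit 0) (nat_lit 21030388343) (nat_lit 8) (nat_lit 5) (nat_lit 10) (nat_lit 4) (nat_lit 8) (nat_lit 4) (nat_lit 378) (nat_lit 296) (nat_lit 106)) (XT.nd (nat_lit 78) (nat_lit 0) (nat_lit 0) (XT.lf (nat_lit 0) (nat_lit 202913782779) (nat_lit 152) (nat_lit 144592873315) (nat_lit 0) (nat_lit 64419106244) (nat_lit 8) (nat_lit 5) (nat_lit 10) (nat_lit 4) (nat_lit 8) (nat_lit 4) (nat_lit 379) (nat_lit 296) (nat_lit 105)) (XT.lf (nat_lit 0) (nat_lit 248472218208) (nat_lit 152) (nat_lit 71940716103) (nat_lit 0) (nat_lit 109976949979) (nat_lit 8) (nat_lit 5) (nat_lit 10) (nat_lit 4) (nat_lit 8) (nat_lit 4) (nat_lit 380) (nat_lit 296) (nat_lit 104))))) (XT.nd (nat_lit 34164) (nat_lit 0) (nat_lit 6612) (XT.nd (nat_lit 34086) (nat_lit 0) (nat_lit 6612) (XT.lf (nat_lit 0) (nat_lit 4486994687) (nat_lit 76) (nat_lit 291891282226) (nat_lit 76) (nat_lit 153395450480) (nat_lit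 7) (nat_lit 4) (nat_lit 8) (nat_lit 5) (nat_lit 8) (nat_lit 4) (nat_lit 381) (nat_lit 296) (nat_lit 103)) (XT.lf (nat_lit 0) (nat_lit 5302020286) (nat_lit 0) (nat_lit 5302020286) (nat_lit 684) (nat_lit 1851957215) (nat_lit 94) (nat_lit 5) (nat_lit 94) (nat_lit 3) (nat_lit 103) (nat_lit 3) (nat_lit 297) (nat_lit 297) (nat_lit 186))) (XT.nd (nat_lit 78) (nat_lit 0) (nat_lit 0) (XT.lf (nat_lit 0) (nat_lit 21850492975) (nat_lit 684) (nat_lit 2897433343) (nat_lit 760) (nat_lit 781081707) (nat_lit 94) (nat_lit 5) (nat_lit 103) (nat_lit 3) (nat_lit 104) (nat_lit 5) (nat_lit 298) (nat_lit 297) (nat_lit 185)) (XT.nd (nat_lit 78) (nat_lit 0) (nat_lit 0) (XT.lf (nat_lit 76) (nat_lit 9200689058) (nat_lit 0) (nat_lit 13635494992) (nat_lit 760) (nat_lit 3325140442) (nat_lit 95) (nat_lit 5) (nat_lit 94) (nat_lit 5) (nat_lit 104) (nat_lit 5) (nat_lit 299) (nat_lit 297) (nat_lit 184)) (XT.lf (nat_lit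 76) (nat_lit 22000799352) (nat_lit 0) (nat_lit 1913349603) (nat_lit 760) (nat_lit 2908969150) (nat_lit 95) (nat_lit 5) (nat_lit 94) (nat_lit 5) (nat_lit 104) (nat_lit 5) (nat_lit 300) (nat_lit 297) (nat_lit 183)))))) (XT.nd (nat_lit 390) (nat_lit 760) (nat_lit 0) (XT.nd (nat_lit 156) (nat_lit 684) (nat_lit 0) (XT.nd (nat_lit 78) (nat_lit 0) (nat_lit 0) (XT.lf (nat_lit 76) (nat_lit 8013418207) (nat_lit 0) (nat_lit 17314246963) (nat_lit 760) (nat_lit 2176263850) (nat_lit 96) (nat_lit 5) (nat_lit 95) (nat_lit 5) (nat_lit 105) (nat_lit 5) (nat_lit 301) (nat_lit 297) (nat_lit 182)) (XT.lf (nat_lit 76) (nat_lit 21622336497) (nat_lit 0) (nat_lit 5296514433) (nat_lit 760) (nat_lit 1294589649) (nat_lit 96) (nat_lit 5) (nat_lit 95) (nat_lit 5) (nat_lit 105) (nat_lit 5) (nat_lit 302) (nat_lit 297) (nat_lit 181))) (XT.nd (nat_lit 78) (nat_lit 760) (nat_lit 0) (XT.lf (nat_lit 76) (nat_lit 7061206212)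 (nat_lit 0) (nat_lit 21747710533) (nat_lit 760) (nat_lit 138554251) (nat_lit 97) (nat_lit 5) (nat_lit 96) (nat_lit 5) (nat_lit 106) (nat_lit 5) (nat_lit 303) (nat_lit 297) (nat_lit 180)) (XT.nd (nat_lit 78) (nat_lit 0) (nat_lit 76) (XT.lf (nat_lit 0) (nat_lit 1236006313) (nat_lit 760) (nat_lit 8196976544) (nat_lit 836) (nat_lit 20274632162) (nat_lit 86) (nat_lit 5) (nat_lit 96) (nat_lit 5) (nat_lit 97) (nat_lit 5) (nat_lit 304) (nat_lit 297) (nat_lit 179)) (XT.lf (nat_lit 0) (nat_lit 2825563720) (nat_lit 760) (nat_lit 24182367155) (nat_lit 836) (nat_lit 3490183591) (nat_lit 87) (nat_lit 5) (nat_lit 97) (nat_lit 5) (nat_lit 98) (nat_lit 5) (nat_lit 305) (nat_lit 297) (nat_lit 178))))) (XT.nd (nat_lit 234) (nat_lit 836) (nat_lit 0) (XT.nd (nat_lit 78) (nat_lit 0) (nat_lit 0) (XT.lf (nat_lit 0) (nat_lit 4785629785) (nat_lit 760) (nat_lit 9643310852) (nat_lit 836) (nat_lit 16884654377) (nat_lit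 87) (nat_lit 5) (nat_lit 97) (nat_lit 5) (nat_lit 98) (nat_lit 5) (nat_lit 306) (nat_lit 297) (nat_lit 177)) (XT.nd (nat_lit 78) (nat_lit 0) (nat_lit 76) (XT.lf (nat_lit 76) (nat_lit 5804786707) (nat_lit 0) (nat_lit 1125061649) (nat_lit 836) (nat_lit 25235701074) (nat_lit 88) (nat_lit 5) (nat_lit 87) (nat_lit 5) (nat_lit 98) (nat_lit 5) (nat_lit 307) (nat_lit 297) (nat_lit 176)) (XT.lf (nat_lit 0) (nat_lit 9543487619) (nat_lit 760) (nat_lit 10898936090) (nat_lit 76) (nat_lit 12599574324) (nat_lit 88) (nat_lit 5) (nat_lit 98) (nat_lit 5) (nat_lit 89) (nat_lit 5) (nat_lit 308) (nat_lit 297) (nat_lit 175)))) (XT.nd (nat_lit 78) (nat_lit 380) (nat_lit 0) (XT.lf (nat_lit 0) (nat_lit 5489547512) (nat_lit 532) (nat_lit 6898304888) (nat_lit 608) (nat_lit 21569421110) (nat_lit 81) (nat_lit 5) (nat_lit 88) (nat_lit 5) (nat_lit 89) (nat_lit 5) (nat_lit 309) (nat_lit 297) (nat_lit 174)) (XT.nd (nat_lit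 78) (nat_lit 380) (nat_lit 0) (XT.lf (nat_lit 0) (nat_lit 15672409785) (nat_lit 608) (nat_lit 11954441826) (nat_lit 76) (nat_lit 7276568739) (nat_lit 81) (nat_lit 5) (nat_lit 89) (nat_lit 5) (nat_lit 82) (nat_lit 5) (nat_lit 310) (nat_lit 297) (nat_lit 173)) (XT.lf (nat_lit 0) (nat_lit 5441937476) (nat_lit 380) (nat_lit 13873534008) (nat_lit 456) (nat_lit 16571695233) (nat_lit 76) (nat_lit 5) (nat_lit 81) (nat_lit 5) (nat_lit 82) (nat_lit 5) (nat_lit 311) (nat_lit 297) (nat_lit 172))))))))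
noncomputable def xc203 : XT := (XT.nd (nat_lit 1638) (nat_lit 1520) (nat_lit 0) (XT.nd (nat_lit 780) (nat_lit 1216) (nat_lit 0) (XT.nd (nat_lit 390) (nat_lit 836) (nat_lit 0) (XT.nd (nat_lit 156) (nat_lit 380) (nat_lit 0) (XT.nd (nat_lit 78) (nat_lit 304) (nat_lit 0) (XT.lf (nat_lit 0) (nat_lit 23351668859) (nat_lit 456) (nat_lit 12802777288) (nat_lit 76) (nat_lit 755110847) (nat_lit 76) (nat_lit 5) (nat_lit 82) (nat_lit 5) (nat_lit 77) (nat_lit 5) (nat_lit 312) (nat_lit 297) (nat_lit 171)) (XT.lf (nat_lit 0) (nat_lit 5672303638) (nat_lit 304) (nat_lit 22229891751) (nat_lit 380) (nat_lit 10065250879) (nat_lit 72) (nat_lit 5) (nat_lit 76) (nat_lit 5) (nat_lit 77) (nat_lit 5) (nat_lit 313) (nat_lit 297) (nat_lit 170))) (XT.nd (nat_lit 78) (nat_lit 380) (nat_lit 0) (XT.lf (nat_lit 0) (nat_lit 25512072539) (nat_lit 304) (nat_lit 7381630800) (nat_lit 380) (nat_lit 6173859102) (nat_lit 72)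 (nat_lit 5) (nat_lit 76) (nat_lit 5) (nat_lit 77) (nat_lit 5) (nat_lit 314) (nat_lit 297) (nat_lit 169)) (XT.nd (nat_lit 78) (nat_lit 76) (nat_lit 0) (XT.lf (nat_lit 0) (nat_lit 6187474033) (nat_lit 304) (nat_lit 32168874063) (nat_lit 380) (nat_lit 1855263198) (nat_lit 68) (nat_lit 5) (nat_lit 72) (nat_lit 5) (nat_lit 73) (nat_lit 5) (nat_lit 315) (nat_lit 297) (nat_lit 168)) (XT.lf (nat_lit 0) (nat_lit 2944686161) (nat_lit 380) (nat_lit 14183381623) (nat_lit 76) (nat_lit 24265148909) (nat_lit 67) (nat_lit 5) (nat_lit 72) (nat_lit 5) (nat_lit 68) (nat_lit 5) (nat_lit 316) (nat_lit 297) (nat_lit 167))))) (XT.nd (nat_lit 156) (nat_lit 532) (nat_lit 0) (XT.nd (nat_lit 78) (nat_lit 0) (nat_lit 0) (XT.lf (nat_lit 0) (nat_lit 6834314507) (nat_lit 304) (nat_lit 1191657276) (nat_lit 380) (nat_lit 34601229750) (nat_lit 63) (nat_lit 5) (nat_lit 67) (nat_lit 5) (nat_lit 68) (nat_lit 5) (nat_lit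 317) (nat_lit 297) (nat_lit 166)) (XT.lf (nat_lit 0) (nat_lit 13845178418) (nat_lit 380) (nat_lit 14765662318) (nat_lit 76) (nat_lit 15287856107) (nat_lit 63) (nat_lit 5) (nat_lit 68) (nat_lit 5) (nat_lit 64) (nat_lit 5) (nat_lit 318) (nat_lit 297) (nat_lit 165))) (XT.nd (nat_lit 78) (nat_lit 228) (nat_lit 0) (XT.lf (nat_lit 0) (nat_lit 7531085273) (nat_lit 304) (nat_lit 12558585429) (nat_lit 380) (nat_lit 25137383825) (nat_lit 59) (nat_lit 5) (nat_lit 63) (nat_lit 5) (nat_lit 64) (nat_lit 5) (nat_lit 319) (nat_lit 297) (nat_lit 164)) (XT.nd (nat_lit 78) (nat_lit 228) (nat_lit 0) (XT.lf (nat_lit 0) (nat_lit 26964908732) (nat_lit 380) (nat_lit 15228623541) (nat_lit 76) (nat_lit 4412375452) (nat_lit 59) (nat_lit 5) (nat_lit 64) (nat_lit 5) (nat_lit 60) (nat_lit 5) (nat_lit 320) (nat_lit 297) (nat_lit 163)) (XT.lf (nat_lit 0) (nat_lit 8422526443) (nat_lit 228) (nat_lit 26096170463) (nat_lit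 304) (nat_lit 13518270777) (nat_lit 56) (nat_lit 5) (nat_lit 59) (nat_lit 5) (nat_lit 60) (nat_lit 5) (nat_lit 321) (nat_lit 297) (nat_lit 162)))))) (XT.nd (nat_lit 390) (nat_lit 684) (nat_lit 0) (XT.nd (nat_lit 156) (nat_lit 228) (nat_lit 0) (XT.nd (nat_lit 78) (nat_lit 304) (nat_lit 0) (XT.lf (nat_lit 0) (nat_lit 33781731888) (nat_lit 228) (nat_lit 8923830522) (nat_lit 304) (nat_lit 6821252177) (nat_lit 56) (nat_lit 5) (nat_lit 59) (nat_lit 5) (nat_lit 60) (nat_lit 5) (nat_lit 322) (nat_lit 297) (nat_lit 161)) (XT.lf (nat_lit 0) (nat_lit 496312896) (nat_lit 304) (nat_lit 41609104846) (nat_lit 76) (nat_lit 8970952881) (nat_lit 52) (nat_lit 5) (nat_lit 56) (nat_lit 5) (nat_lit 53) (nat_lit 5) (nat_lit 323) (nat_lit 297) (nat_lit 160))) (XT.nd (nat_lit 78) (nat_lit 228) (nat_lit 0) (XT.lf (nat_lit 0) (nat_lit 8365449689) (nat_lit 304) (nat_lit 16468890131) (nat_lit 76) (nat_lit 27842729728)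 (nat_lit 52) (nat_lit 5) (nat_lit 56) (nat_lit 5) (nat_lit 53) (nat_lit 5) (nat_lit 324) (nat_lit 297) (nat_lit 159)) (XT.nd (nat_lit 78) (nat_lit 0) (nat_lit 0) (XT.lf (nat_lit 0) (nat_lit 10253466307) (nat_lit 228) (nat_lit 6532393832) (nat_lit 304) (nat_lit 37564055190) (nat_lit 49) (nat_lit 5) (nat_lit 52) (nat_lit 5) (nat_lit 53) (nat_lit 5) (nat_lit 325) (nat_lit 297) (nat_lit 158)) (XT.lf (nat_lit 0) (nat_lit 26106595381) (nat_lit 304) (nat_lit 17414465480) (nat_lit 76) (nat_lit 12561379947) (nat_lit 49) (nat_lit 5) (nat_lit 53) (nat_lit 5) (nat_lit 50) (nat_lit 5) (nat_lit 326) (nat_lit 297) (nat_lit 157))))) (XT.nd (nat_lit 234) (nat_lit 304) (nat_lit 0) (XT.nd (nat_lit 78) (nat_lit 152) (nat_lit 0) (XT.lf (nat_lit 0) (nat_lit 10838479704) (nat_lit 228) (nat_lit 25329081284) (nat_lit 304) (nat_lit 21720324387) (nat_lit 46) (nat_lit 5) (nat_lit 49) (nat_lit 5) (nat_lit 50) (nat_lit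 5) (nat_lit 327) (nat_lit 297) (nat_lit 156)) (XT.nd (nat_lit 78) (nat_lit 152) (nat_lit 0) (XT.lf (nat_lit 0) (nat_lit 41105762468) (nat_lit 228) (nat_lit 5918676319) (nat_lit 304) (nat_lit 12744522566) (nat_lit 46) (nat_lit 5) (nat_lit 49) (nat_lit 5) (nat_lit 50) (nat_lit 5) (nat_lit 328) (nat_lit 297) (nat_lit 155)) (XT.lf (nat_lit 0) (nat_lit 11274527038) (nat_lit 152) (nat_lit 47549483650) (nat_lit 228) (nat_lit 2900090195) (nat_lit 44) (nat_lit 5) (nat_lit 46) (nat_lit 5) (nat_lit 47) (nat_lit 5) (nat_lit 329) (nat_lit 297) (nat_lit 154)))) (XT.nd (nat_lit 78) (nat_lit 228) (nat_lit 0) (XT.lf (nat_lit 0) (nat_lit 7614870148) (nat_lit 228) (nat_lit 20625296067) (nat_lit 76) (nat_lit 35510211805) (nat_lit 43) (nat_lit 5) (nat_lit 46) (nat_lit 5) (nat_lit 44) (nat_lit 5) (nat_lit 330) (nat_lit 297) (nat_lit 153)) (XT.nd (nat_lit 78) (nat_lit 0) (nat_lit 0) (XT.lf (nat_lit 0) (nat_lit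 10991722608) (nat_lit 228) (nat_lit 7736142185) (nat_lit 304) (nat_lit 47139241639) (nat_lit 40) (nat_lit 5) (nat_lit 43) (nat_lit 5) (nat_lit 44) (nat_lit 5) (nat_lit 331) (nat_lit 297) (nat_lit 152)) (XT.lf (nat_lit 0) (nat_lit 30965053261) (nat_lit 304) (nat_lit 23390394515) (nat_lit 76) (nat_lit 13705798144) (nat_lit 40) (nat_lit 5) (nat_lit 44) (nat_lit 5) (nat_lit 41) (nat_lit 5) (nat_lit 332) (nat_lit 297) (nat_lit 151))))))) (XT.nd (nat_lit 780) (nat_lit 608) (nat_lit 0) (XT.nd (nat_lit 390) (nat_lit 380) (nat_lit 0) (XT.nd (nat_lit 156) (nat_lit 380) (nat_lit 0) (XT.nd (nat_lit 78) (nat_lit 0) (nat_lit 0) (XT.lf (nat_lit 0) (nat_lit 9854800025) (nat_lit 152) (nat_lit 34238241150) (nat_lit 228) (nat_lit 26258105981) (nat_lit 38) (nat_lit 5) (nat_lit 40) (nat_lit 5) (nat_lit 41) (nat_lit 5) (nat_lit 333) (nat_lit 297) (nat_lit 150)) (XT.lf (nat_lit 0) (nat_lit 45571721137) (nat_lit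 152) (nat_lit 12700134459) (nat_lit 228) (nat_lit 14463968192) (nat_lit 38) (nat_lit 5) (nat_lit 40) (nat_lit 5) (nat_lit 41) (nat_lit 5) (nat_lit 334) (nat_lit 297) (nat_lit 149))) (XT.nd (nat_lit 78) (nat_lit 228) (nat_lit 0) (XT.lf (nat_lit 0) (nat_lit 7931264457) (nat_lit 152) (nat_lit 65505341715) (nat_lit 228) (nat_lit 1789279918) (nat_lit 36) (nat_lit 5) (nat_lit 38) (nat_lit 5) (nat_lit 39) (nat_lit 5) (nat_lit 335) (nat_lit 297) (nat_lit 148)) (XT.nd (nat_lit 78) (nat_lit 152) (nat_lit 0) (XT.lf (nat_lit 0) (nat_lit 11824614259) (nat_lit 228) (nat_lit 32491114704) (nat_lit 76) (nat_lit 33482023897) (nat_lit 35) (nat_lit 5) (nat_lit 38) (nat_lit 5) (nat_lit 36) (nat_lit 5) (nat_lit 336) (nat_lit 297) (nat_lit 147)) (XT.lf (nat_lit 0) (nat_lit 4153747972) (nat_lit 152) (nat_lit 21968630763) (nat_lit 228) (nat_lit 54371203645) (nat_lit 33) (nat_lit 5) (nat_lit 35) (nat_lit 5) (nat_lit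 36) (nat_lit 5) (nat_lit 337) (nat_lit 297) (nat_lit 146))))) (XT.nd (nat_lit 156) (nat_lit 380) (nat_lit 0) (XT.nd (nat_lit 78) (nat_lit 0) (nat_lit 0) (XT.lf (nat_lit 0) (nat_lit 41716136532) (nat_lit 228) (nat_lit 39572650028) (nat_lit 76) (nat_lit 2006362885) (nat_lit 33) (nat_lit 5) (nat_lit 36) (nat_lit 5) (nat_lit 34) (nat_lit 5) (nat_lit 338) (nat_lit 297) (nat_lit 145)) (XT.lf (nat_lit 0) (nat_lit 58448274023) (nat_lit 228) (nat_lit 1329587622) (nat_lit 76) (nat_lit 26440999888) (nat_lit 33) (nat_lit 5) (nat_lit 36) (nat_lit 5) (nat_lit 34) (nat_lit 5) (nat_lit 339) (nat_lit 297) (nat_lit 144))) (XT.nd (nat_lit 78) (nat_lit 228) (nat_lit 0) (XT.lf (nat_lit 0) (nat_lit 40107076535) (nat_lit 152) (nat_lit 36534745067) (nat_lit 228) (nat_lit 12615698663) (nat_lit 31) (nat_lit 5) (nat_lit 33) (nat_lit 5) (nat_lit 34) (nat_lit 5) (nat_lit 340) (nat_lit 297) (nat_lit 143)) (XT.nd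 (nat_lit 78) (nat_lit 152) (nat_lit 0) (XT.lf (nat_lit 0) (nat_lit 3212926113) (nat_lit 228) (nat_lit 8839334234) (nat_lit 76) (nat_lit 80392203258) (nat_lit 30) (nat_lit 5) (nat_lit 33) (nat_lit 5) (nat_lit 31) (nat_lit 5) (nat_lit 341) (nat_lit 297) (nat_lit 142)) (XT.lf (nat_lit 0) (nat_lit 20169812365) (nat_lit 228) (nat_lit 61600284219) (nat_lit 76) (nat_lit 13972277806) (nat_lit 28) (nat_lit 5) (nat_lit 31) (nat_lit 5) (nat_lit 29) (nat_lit 5) (nat_lit 342) (nat_lit 297) (nat_lit 141)))))) (XT.nd (nat_lit 390) (nat_lit 304) (nat_lit 0) (XT.nd (nat_lit 156) (nat_lit 152) (nat_lit 0) (XT.nd (nat_lit 78) (nat_lit 152) (nat_lit 0) (XT.lf (nat_lit 0) (nat_lit 38322983113) (nat_lit 228) (nat_lit 19820410256) (nat_lit 76) (nat_lit 41044366324) (nat_lit 28) (nat_lit 5) (nat_lit 31) (nat_lit 5) (nat_lit 29) (nat_lit 5) (nat_lit 343) (nat_lit 297) (nat_lit 140)) (XT.lf (nat_lit 0) (nat_lit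 24841492816) (nat_lit 152) (nat_lit 32928936019) (nat_lit 228) (nat_lit 45015655545) (nat_lit 26) (nat_lit 5) (nat_lit 28) (nat_lit 5) (nat_lit 29) (nat_lit 5) (nat_lit 344) (nat_lit 297) (nat_lit 139))) (XT.nd (nat_lit 78) (nat_lit 152) (nat_lit 0) (XT.lf (nat_lit 0) (nat_lit 72422596456) (nat_lit 152) (nat_lit 6102116806) (nat_lit 228) (nat_lit 28022889613) (nat_lit 26) (nat_lit 5) (nat_lit 28) (nat_lit 5) (nat_lit 29) (nat_lit 5) (nat_lit 345) (nat_lit 297) (nat_lit 138)) (XT.nd (nat_lit 78) (nat_lit 76) (nat_lit 0) (XT.lf (nat_lit 0) (nat_lit 11920614777) (nat_lit 76) (nat_lit 88925567443) (nat_lit 152) (nat_lit 9624542414) (nat_lit 25) (nat_lit 5) (nat_lit 26) (nat_lit 5) (nat_lit 27) (nat_lit 4) (nat_lit 346) (nat_lit 297) (nat_lit 137)) (XT.lf (nat_lit 0) (nat_lit 10069743739) (nat_lit 152) (nat_lit 53370672826) (nat_lit 76) (nat_lit 51107705319) (nat_lit 24) (nat_lit 5) (nat_lit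 26) (nat_lit 5) (nat_lit 25) (nat_lit 5) (nat_lit 347) (nat_lit 297) (nat_lit 136))))) (XT.nd (nat_lit 234) (nat_lit 152) (nat_lit 0) (XT.nd (nat_lit 78) (nat_lit 152) (nat_lit 0) (XT.lf (nat_lit 0) (nat_lit 30424200168) (nat_lit 152) (nat_lit 6091921131) (nat_lit 76) (nat_lit 82305434281) (nat_lit 24) (nat_lit 5) (nat_lit 26) (nat_lit 5) (nat_lit 25) (nat_lit 5) (nat_lit 348) (nat_lit 297) (nat_lit 135)) (XT.nd (nat_lit 78) (nat_lit 0) (nat_lit 0) (XT.lf (nat_lit 0) (nat_lit 44988905708) (nat_lit 152) (nat_lit 7508832519) (nat_lit 228) (nat_lit 70775855494) (nat_lit 22) (nat_lit 5) (nat_lit 24) (nat_lit 5) (nat_lit 25) (nat_lit 5) (nat_lit 349) (nat_lit 297) (nat_lit 134)) (XT.lf (nat_lit 0) (nat_lit 76137076171) (nat_lit 228) (nat_lit 29469590147) (nat_lit 76) (nat_lit 22318461971) (nat_lit 22) (nat_lit 5) (nat_lit 25) (nat_lit 5) (nat_lit 23) (nat_lit 4) (nat_lit 350) (nat_lit 297)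 (nat_lit 133)))) (XT.nd (nat_lit 78) (nat_lit 76) (nat_lit 0) (XT.lf (nat_lit 0) (nat_lit 22377678378) (nat_lit 76) (nat_lit 79052192368) (nat_lit 152) (nat_lit 31355794990) (nat_lit 21) (nat_lit 5) (nat_lit 22) (nat_lit 5) (nat_lit 23) (nat_lit 4) (nat_lit 351) (nat_lit 297) (nat_lit 132)) (XT.nd (nat_lit 78) (nat_lit 76) (nat_lit 0) (XT.lf (nat_lit 0) (nat_lit 77838741523) (nat_lit 76) (nat_lit 50646681676) (nat_lit 152) (nat_lit 9378901555) (nat_lit 21) (nat_lit 5) (nat_lit 22) (nat_lit 5) (nat_lit 23) (nat_lit 4) (nat_lit 352) (nat_lit 297) (nat_lit 131)) (XT.lf (nat_lit 0) (nat_lit 13257518907) (nat_lit 152) (nat_lit 7339542438) (nat_lit 76) (nat_lit 122589210295) (nat_lit 20) (nat_lit 5) (nat_lit 22) (nat_lit 5) (nat_lit 21) (nat_lit 5) (nat_lit 353) (nat_lit 297) (nat_lit 130))))))))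
noncomputable def xc204 : XT := (XT.nd (nat_lit 1560) (nat_lit 152) (nat_lit 0) (XT.nd (nat_lit 780) (nat_lit 304) (nat_lit 0) (XT.nd (nat_lit 390) (nat_lit 228) (nat_lit 0) (XT.nd (nat_lit 156) (nat_lit 76) (nat_lit 0) (XT.nd (nat_lit 78) (nat_lit 0) (nat_lit 0) (XT.lf (nat_lit 0) (nat_lit 37667252244) (nat_lit 228) (nat_lit 99507483782) (nat_lit 76) (nat_lit 11544058520) (nat_lit 18) (nat_lit 5) (nat_lit 21) (nat_lit 5) (nat_lit 19) (nat_lit 4) (nat_lit 354) (nat_lit 297) (nat_lit 129)) (XT.lf (nat_lit 0) (nat_lit 63760584493) (nat_lit 228) (nat_lit 46018472186) (nat_lit 76) (nat_lit 44725731807) (nat_lit 18) (nat_lit 5) (nat_lit 21) (nat_lit 5) (nat_lit 19) (nat_lit 4) (nat_lit 355) (nat_lit 297) (nat_lit 128))) (XT.nd (nat_lit 78) (nat_lit 0) (nat_lit 0) (XT.lf (nat_lit 0) (nat_lit 10478886401) (nat_lit 76) (nat_lit 80842462798) (nat_lit 152) (nat_lit 69250595105) (nat_lit 17) (nat_lit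 5) (nat_lit 18) (nat_lit 5) (nat_lit 19) (nat_lit 4) (nat_lit 356) (nat_lit 297) (nat_lit 127)) (XT.nd (nat_lit 78) (nat_lit 0) (nat_lit 0) (XT.lf (nat_lit 0) (nat_lit 71397301053) (nat_lit 76) (nat_lit 49641374253) (nat_lit 152) (nat_lit 45864856902) (nat_lit 17) (nat_lit 5) (nat_lit 18) (nat_lit 5) (nat_lit 19) (nat_lit 4) (nat_lit 357) (nat_lit 297) (nat_lit 126)) (XT.lf (nat_lit 0) (nat_lit 135360237097) (nat_lit 76) (nat_lit 16880847832) (nat_lit 152) (nat_lit 21310654148) (nat_lit 17) (nat_lit 5) (nat_lit 18) (nat_lit 5) (nat_lit 19) (nat_lit 4) (nat_lit 358) (nat_lit 297) (nat_lit 125))))) (XT.nd (nat_lit 156) (nat_lit 76) (nat_lit 0) (XT.nd (nat_lit 78) (nat_lit 0) (nat_lit 0) (XT.lf (nat_lit 0) (nat_lit 4961336054) (nat_lit 152) (nat_lit 158149161354) (nat_lit 76) (nat_lit 17386709554) (nat_lit 15) (nat_lit 5) (nat_lit 17) (nat_lit 5) (nat_lit 16) (nat_lit 4) (nat_lit 359) (nat_lit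 297) (nat_lit 124)) (XT.lf (nat_lit 0) (nat_lit 32764125805) (nat_lit 152) (nat_lit 101155173222) (nat_lit 76) (nat_lit 53806512949) (nat_lit 15) (nat_lit 5) (nat_lit 17) (nat_lit 5) (nat_lit 16) (nat_lit 4) (nat_lit 360) (nat_lit 297) (nat_lit 123))) (XT.nd (nat_lit 78) (nat_lit 76) (nat_lit 0) (XT.lf (nat_lit 0) (nat_lit 61956338703) (nat_lit 152) (nat_lit 41312785216) (nat_lit 76) (nat_lit 92046759492) (nat_lit 15) (nat_lit 5) (nat_lit 17) (nat_lit 5) (nat_lit 16) (nat_lit 4) (nat_lit 361) (nat_lit 297) (nat_lit 122)) (XT.nd (nat_lit 78) (nat_lit 0) (nat_lit 0) (XT.lf (nat_lit 0) (nat_lit 22232048945) (nat_lit 76) (nat_lit 70722535660) (nat_lit 152) (nat_lit 110313553033) (nat_lit 14) (nat_lit 5) (nat_lit 15) (nat_lit 5) (nat_lit 16) (nat_lit 4) (nat_lit 362) (nat_lit 297) (nat_lit 121)) (XT.lf (nat_lit 0) (nat_lit 90387193743) (nat_lit 76) (nat_lit 35814532315) (nat_lit 152) (nat_lit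 85381329678) (nat_lit 14) (nat_lit 5) (nat_lit 15) (nat_lit 5) (nat_lit 16) (nat_lit 4) (nat_lit 363) (nat_lit 297) (nat_lit 120)))))) (XT.nd (nat_lit 390) (nat_lit 152) (nat_lit 0) (XT.nd (nat_lit 156) (nat_lit 76) (nat_lit 0) (XT.nd (nat_lit 78) (nat_lit 76) (nat_lit 0) (XT.lf (nat_lit 0) (nat_lit 161123676642) (nat_lit 152) (nat_lit 58377904782) (nat_lit 0) (nat_lit 811516017) (nat_lit 14) (nat_lit 5) (nat_lit 16) (nat_lit 4) (nat_lit 14) (nat_lit 4) (nat_lit 364) (nat_lit 297) (nat_lit 119)) (XT.lf (nat_lit 0) (nat_lit 7223909707) (nat_lit 76) (nat_lit 191267109652) (nat_lit 76) (nat_lit 30953657435) (nat_lit 13) (nat_lit 4) (nat_lit 14) (nat_lit 5) (nat_lit 14) (nat_lit 4) (nat_lit 365) (nat_lit 297) (nat_lit 118))) (XT.nd (nat_lit 78) (nat_lit 76) (nat_lit 0) (XT.lf (nat_lit 0) (nat_lit 78131454809) (nat_lit 76) (nat_lit 160583330052) (nat_lit 76) (nat_lit 268647747) (nat_lit 13)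 (nat_lit 4) (nat_lit 14) (nat_lit 5) (nat_lit 14) (nat_lit 4) (nat_lit 366) (nat_lit 297) (nat_lit 117)) (XT.nd (nat_lit 78) (nat_lit 0) (nat_lit 0) (XT.lf (nat_lit 0) (nat_lit 30927409901) (nat_lit 152) (nat_lit 96914663518) (nat_lit 76) (nat_lit 121132140286) (nat_lit 12) (nat_lit 5) (nat_lit 14) (nat_lit 5) (nat_lit 13) (nat_lit 4) (nat_lit 367) (nat_lit 297) (nat_lit 116)) (XT.lf (nat_lit 0) (nat_lit 63673686497) (nat_lit 152) (nat_lit 29785912222) (nat_lit 76) (nat_lit 166004742956) (nat_lit 12) (nat_lit 5) (nat_lit 14) (nat_lit 5) (nat_lit 13) (nat_lit 4) (nat_lit 368) (nat_lit 297) (nat_lit 115))))) (XT.nd (nat_lit 156) (nat_lit 76) (nat_lit 0) (XT.nd (nat_lit 78) (nat_lit 0) (nat_lit 0) (XT.lf (nat_lit 0) (nat_lit 42043970416) (nat_lit 76) (nat_lit 56669201562) (nat_lit 152) (nat_lit 171733009542) (nat_lit 11) (nat_lit 5) (nat_lit 12) (nat_lit 5) (nat_lit 13) (nat_lit 4) (nat_lit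 369) (nat_lit 297) (nat_lit 114)) (XT.lf (nat_lit 0) (nat_lit 118498486695) (nat_lit 76) (nat_lit 17510064929) (nat_lit 152) (nat_lit 145943365955) (nat_lit 11) (nat_lit 5) (nat_lit 12) (nat_lit 5) (nat_lit 13) (nat_lit 4) (nat_lit 370) (nat_lit 297) (nat_lit 113))) (XT.nd (nat_lit 78) (nat_lit 76) (nat_lit 0) (XT.lf (nat_lit 0) (nat_lit 175536771335) (nat_lit 152) (nat_lit 95626716272) (nat_lit 0) (nat_lit 22851049486) (nat_lit 11) (nat_lit 5) (nat_lit 13) (nat_lit 4) (nat_lit 11) (nat_lit 4) (nat_lit 371) (nat_lit 297) (nat_lit 112)) (XT.nd (nat_lit 78) (nat_lit 76) (nat_lit 0) (XT.lf (nat_lit 0) (nat_lit 217327975332) (nat_lit 152) (nat_lit 24696604504) (nat_lit 0) (nat_lit 64641379282) (nat_lit 11) (nat_lit 5) (nat_lit 13) (nat_lit 4) (nat_lit 11) (nat_lit 4) (nat_lit 372) (nat_lit 297) (nat_lit 111)) (XT.lf (nat_lit 0) (nat_lit 51425090888) (nat_lit 76) (nat_lit 210586084193) (nat_lit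 76) (nat_lit 57898655572) (nat_lit 10) (nat_lit 4) (nat_lit 11) (nat_lit 5) (nat_lit 11) (nat_lit 4) (nat_lit 373) (nat_lit 297) (nat_lit 110))))))) (XT.nd (nat_lit 34866) (nat_lit 0) (nat_lit 5548) (XT.nd (nat_lit 390) (nat_lit 0) (nat_lit 0) (XT.nd (nat_lit 156) (nat_lit 76) (nat_lit 0) (XT.nd (nat_lit 78) (nat_lit 76) (nat_lit 0) (XT.lf (nat_lit 0) (nat_lit 132209449011) (nat_lit 76) (nat_lit 177136889156) (nat_lit 76) (nat_lit 24448667609) (nat_lit 10) (nat_lit 4) (nat_lit 11) (nat_lit 5) (nat_lit 11) (nat_lit 4) (nat_lit 374) (nat_lit 297) (nat_lit 109)) (XT.lf (nat_lit 0) (nat_lit 10331759357) (nat_lit 152) (nat_lit 131508870031) (nat_lit 76) (nat_lit 206525499594) (nat_lit 9) (nat_lit 5) (nat_lit 11) (nat_lit 5) (nat_lit 10) (nat_lit 4) (nat_lit 375) (nat_lit 297) (nat_lit 108))) (XT.nd (nat_lit 78) (nat_lit 76) (nat_lit 0) (XT.lf (nat_lit 0) (nat_lit 46029161167) (nat_lit 152)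 (nat_lit 58329915526) (nat_lit 76) (nat_lit 259286712464) (nat_lit 9) (nat_lit 5) (nat_lit 11) (nat_lit 5) (nat_lit 10) (nat_lit 4) (nat_lit 376) (nat_lit 297) (nat_lit 107)) (XT.nd (nat_lit 78) (nat_lit 0) (nat_lit 0) (XT.lf (nat_lit 0) (nat_lit 19119187988) (nat_lit 76) (nat_lit 64690357800) (nat_lit 152) (nat_lit 295864981066) (nat_lit 8) (nat_lit 5) (nat_lit 9) (nat_lit 5) (nat_lit 10) (nat_lit 4) (nat_lit 377) (nat_lit 297) (nat_lit 106)) (XT.lf (nat_lit 0) (nat_lit 102465109311) (nat_lit 76) (nat_lit 22001301680) (nat_lit 152) (nat_lit 271988917517) (nat_lit 8) (nat_lit 5) (nat_lit 9) (nat_lit 5) (nat_lit 10) (nat_lit 4) (nat_lit 378) (nat_lit 297) (nat_lit 105))))) (XT.nd (nat_lit 156) (nat_lit 0) (nat_lit 0) (XT.nd (nat_lit 78) (nat_lit 0) (nat_lit 0) (XT.lf (nat_lit 0) (nat_lit 167512067359) (nat_lit 152) (nat_lit 224453861599) (nat_lit 0) (nat_lit 22091444026) (nat_lit 8) (nat_lit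 5) (nat_lit 10) (nat_lit 4) (nat_lit 8) (nat_lit 4) (nat_lit 379) (nat_lit 297) (nat_lit 104)) (XT.lf (nat_lit 0) (nat_lit 213070330565) (nat_lit 152) (nat_lit 151802029330) (nat_lit 0) (nat_lit 67649143714) (nat_lit 8) (nat_lit 5) (nat_lit 10) (nat_lit 4) (nat_lit 8) (nat_lit 4) (nat_lit 380) (nat_lit 297) (nat_lit 103))) (XT.nd (nat_lit 34164) (nat_lit 0) (nat_lit 6536) (XT.lf (nat_lit 0) (nat_lit 260906170686) (nat_lit 152) (nat_lit 75518239860) (nat_lit 0) (nat_lit 115484447152) (nat_lit 8) (nat_lit 5) (nat_lit 10) (nat_lit 4) (nat_lit 8) (nat_lit 4) (nat_lit 381) (nat_lit 297) (nat_lit 102)) (XT.nd (nat_lit 78) (nat_lit 0) (nat_lit 0) (XT.lf (nat_lit 0) (nat_lit 5616149546) (nat_lit 0) (nat_lit 5616149546) (nat_lit 684) (nat_lit 1841421574) (nat_lit 94) (nat_lit 5) (nat_lit 94) (nat_lit 3) (nat_lit 103) (nat_lit 3) (nat_lit 298) (nat_lit 298) (nat_lit 184)) (XT.lf (nat_lit 0) (nat_lit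 23128333856) (nat_lit 684) (nat_lit 2937789344) (nat_lit 760) (nat_lit 729737631) (nat_lit 94) (nat_lit 5) (nat_lit 103) (nat_lit 3) (nat_lit 104) (nat_lit 5) (nat_lit 299) (nat_lit 298) (nat_lit 183)))))) (XT.nd (nat_lit 390) (nat_lit 380) (nat_lit 0) (XT.nd (nat_lit 156) (nat_lit 608) (nat_lit 0) (XT.nd (nat_lit 78) (nat_lit 0) (nat_lit 0) (XT.lf (nat_lit 76) (nat_lit 9763553440) (nat_lit 0) (nat_lit 14392536925) (nat_lit 760) (nat_lit 3304079510) (nat_lit 95) (nat_lit 5) (nat_lit 94) (nat_lit 5) (nat_lit 104) (nat_lit 5) (nat_lit 300) (nat_lit 298) (nat_lit 182)) (XT.lf (nat_lit 76) (nat_lit 23198772587) (nat_lit 0) (nat_lit 2080700114) (nat_lit 760) (nat_lit 2876019556) (nat_lit 95) (nat_lit 5) (nat_lit 94) (nat_lit 5) (nat_lit 104) (nat_lit 5) (nat_lit 301) (nat_lit 298) (nat_lit 181))) (XT.nd (nat_lit 78) (nat_lit 684) (nat_lit 0) (XT.lf (nat_lit 76) (nat_lit 8520184049) (nat_lit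 0) (nat_lit 18235994272) (nat_lit 760) (nat_lit 2114554048) (nat_lit 96) (nat_lit 5) (nat_lit 95) (nat_lit 5) (nat_lit 105) (nat_lit 5) (nat_lit 302) (nat_lit 298) (nat_lit 180)) (XT.nd (nat_lit 78) (nat_lit 684) (nat_lit 0) (XT.lf (nat_lit 76) (nat_lit 22804496114) (nat_lit 0) (nat_lit 5614706783) (nat_lit 760) (nat_lit 1196916280) (nat_lit 96) (nat_lit 5) (nat_lit 95) (nat_lit 5) (nat_lit 105) (nat_lit 5) (nat_lit 303) (nat_lit 298) (nat_lit 179)) (XT.lf (nat_lit 0) (nat_lit 9802198) (nat_lit 760) (nat_lit 22864981285) (nat_lit 836) (nat_lit 7512395658) (nat_lit 86) (nat_lit 5) (nat_lit 96) (nat_lit 5) (nat_lit 97) (nat_lit 5) (nat_lit 304) (nat_lit 298) (nat_lit 178))))) (XT.nd (nat_lit 234) (nat_lit 380) (nat_lit 0) (XT.nd (nat_lit 78) (nat_lit 0) (nat_lit 76) (XT.lf (nat_lit 0) (nat_lit 1441261706) (nat_lit 760) (nat_lit 8498896459) (nat_lit 836) (nat_lit 21245429058) (nat_lit 86)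 (nat_lit 5) (nat_lit 96) (nat_lit 5) (nat_lit 97) (nat_lit 5) (nat_lit 305) (nat_lit 298) (nat_lit 177)) (XT.nd (nat_lit 78) (nat_lit 0) (nat_lit 0) (XT.lf (nat_lit 0) (nat_lit 3104622612) (nat_lit 760) (nat_lit 25277657664) (nat_lit 836) (nat_lit 3633626314) (nat_lit 87) (nat_lit 5) (nat_lit 97) (nat_lit 5) (nat_lit 98) (nat_lit 5) (nat_lit 306) (nat_lit 298) (nat_lit 176)) (XT.lf (nat_lit 0) (nat_lit 5156130993) (nat_lit 760) (nat_lit 10017068920) (nat_lit 836) (nat_lit 17699299994) (nat_lit 87) (nat_lit 5) (nat_lit 97) (nat_lit 5) (nat_lit 98) (nat_lit 5) (nat_lit 307) (nat_lit 298) (nat_lit 175)))) (XT.nd (nat_lit 78) (nat_lit 456) (nat_lit 0) (XT.lf (nat_lit 76) (nat_lit 6201685009) (nat_lit 0) (nat_lit 1201292171) (nat_lit 836) (nat_lit 26364314214) (nat_lit 88) (nat_lit 5) (nat_lit 87) (nat_lit 5) (nat_lit 98) (nat_lit 5) (nat_lit 308) (nat_lit 298) (nat_lit 174)) (XT.nd (nat_lit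 78) (nat_lit 532) (nat_lit 0) (XT.lf (nat_lit 0) (nat_lit 10140971050) (nat_lit 760) (nat_lit 11335781582) (nat_lit 76) (nat_lit 13211135862) (nat_lit 88) (nat_lit 5) (nat_lit 98) (nat_lit 5) (nat_lit 89) (nat_lit 5) (nat_lit 309) (nat_lit 298) (nat_lit 173)) (XT.lf (nat_lit 0) (nat_lit 5870382630) (nat_lit 532) (nat_lit 7253102980) (nat_lit 608) (nat_lit 22525654795) (nat_lit 81) (nat_lit 5) (nat_lit 88) (nat_lit 5) (nat_lit 89) (nat_lit 5) (nat_lit 310) (nat_lit 298) (nat_lit 172))))))))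
noncomputable def xc205 : XT := (XT.nd (nat_lit 1638) (nat_lit 1672) (nat_lit 0) (XT.nd (nat_lit 780) (nat_lit 1216) (nat_lit 0) (XT.nd (nat_lit 390) (nat_lit 988) (nat_lit 0) (XT.nd (nat_lit 156) (nat_lit 304) (nat_lit 0) (XT.nd (nat_lit 78) (nat_lit 380) (nat_lit 0) (XT.lf (nat_lit 0) (nat_lit 16566588647) (nat_lit 608) (nat_lit 12445012658) (nat_lit 76) (nat_lit 7631286191) (nat_lit 81) (nat_lit 5) (nat_lit 89) (nat_lit 5) (nat_lit 82) (nat_lit 5) (nat_lit 311) (nat_lit 298) (nat_lit 171)) (XT.lf (nat_lit 0) (nat_lit 5819457362) (nat_lit 380) (nat_lit 14568727333) (nat_lit 456) (nat_lit 17287825802) (nat_lit 76) (nat_lit 5) (nat_lit 81) (nat_lit 5) (nat_lit 82) (nat_lit 5) (nat_lit 312) (nat_lit 298) (nat_lit 170))) (XT.nd (nat_lit 78) (nat_lit 304) (nat_lit 0) (XT.lf (nat_lit 0) (nat_lit 24621077024) (nat_lit 456) (nat_lit 13337238775) (nat_lit 76) (nat_lit 791468215) (nat_lit 76)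 (nat_lit 5) (nat_lit 82) (nat_lit 5) (nat_lit 77) (nat_lit 5) (nat_lit 313) (nat_lit 298) (nat_lit 169)) (XT.nd (nat_lit 78) (nat_lit 0) (nat_lit 0) (XT.lf (nat_lit 0) (nat_lit 6059891724) (nat_lit 304) (nat_lit 23336012669) (nat_lit 380) (nat_lit 10464832233) (nat_lit 72) (nat_lit 5) (nat_lit 76) (nat_lit 5) (nat_lit 77) (nat_lit 5) (nat_lit 314) (nat_lit 298) (nat_lit 168)) (XT.lf (nat_lit 0) (nat_lit 26886697980) (nat_lit 304) (nat_lit 7745594559) (nat_lit 380) (nat_lit 6383808066) (nat_lit 72) (nat_lit 5) (nat_lit 76) (nat_lit 5) (nat_lit 77) (nat_lit 5) (nat_lit 315) (nat_lit 298) (nat_lit 167))))) (XT.nd (nat_lit 156) (nat_lit 608) (nat_lit 0) (XT.nd (nat_lit 78) (nat_lit 76) (nat_lit 0) (XT.lf (nat_lit 0) (nat_lit 6598955703) (nat_lit 304) (nat_lit 33766312500) (nat_lit 380) (nat_lit 1852230658) (nat_lit 68) (nat_lit 5) (nat_lit 72) (nat_lit 5) (nat_lit 73) (nat_lit 5) (nat_lit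 316) (nat_lit 298) (nat_lit 166)) (XT.lf (nat_lit 0) (nat_lit 3180234412) (nat_lit 380) (nat_lit 14792259916) (nat_lit 76) (nat_lit 25485842456) (nat_lit 67) (nat_lit 5) (nat_lit 72) (nat_lit 5) (nat_lit 68) (nat_lit 5) (nat_lit 317) (nat_lit 298) (nat_lit 165))) (XT.nd (nat_lit 78) (nat_lit 304) (nat_lit 0) (XT.lf (nat_lit 0) (nat_lit 7274703426) (nat_lit 304) (nat_lit 1238216027) (nat_lit 380) (nat_lit 36241240610) (nat_lit 63) (nat_lit 5) (nat_lit 67) (nat_lit 5) (nat_lit 68) (nat_lit 5) (nat_lit 318) (nat_lit 298) (nat_lit 164)) (XT.nd (nat_lit 78) (nat_lit 304) (nat_lit 0) (XT.lf (nat_lit 0) (nat_lit 14619201553) (nat_lit 380) (nat_lit 15405972675) (nat_lit 76) (nat_lit 16064255827) (nat_lit 63) (nat_lit 5) (nat_lit 68) (nat_lit 5) (nat_lit 64) (nat_lit 5) (nat_lit 319) (nat_lit 298) (nat_lit 163)) (XT.lf (nat_lit 0) (nat_lit 8004032089) (nat_lit 304) (nat_lit 13169497785) (nat_lit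 380) (nat_lit 26310800577) (nat_lit 59) (nat_lit 5) (nat_lit 63) (nat_lit 5) (nat_lit 64) (nat_lit 5) (nat_lit 320) (nat_lit 298) (nat_lit 162)))))) (XT.nd (nat_lit 390) (nat_lit 684) (nat_lit 0) (XT.nd (nat_lit 156) (nat_lit 304) (nat_lit 0) (XT.nd (nat_lit 78) (nat_lit 228) (nat_lit 0) (XT.lf (nat_lit 0) (nat_lit 28389003044) (nat_lit 380) (nat_lit 15894622649) (nat_lit 76) (nat_lit 4648682098) (nat_lit 59) (nat_lit 5) (nat_lit 64) (nat_lit 5) (nat_lit 60) (nat_lit 5) (nat_lit 321) (nat_lit 298) (nat_lit 161)) (XT.lf (nat_lit 0) (nat_lit 8937545608) (nat_lit 228) (nat_lit 27380789098) (nat_lit 304) (nat_lit 14116698236) (nat_lit 56) (nat_lit 5) (nat_lit 59) (nat_lit 5) (nat_lit 60) (nat_lit 5) (nat_lit 322) (nat_lit 298) (nat_lit 160))) (XT.nd (nat_lit 78) (nat_lit 304) (nat_lit 0) (XT.lf (nat_lit 0) (nat_lit 35560240237) (nat_lit 228) (nat_lit 9350793584) (nat_lit 304) (nat_lit 7088518520)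 (nat_lit 56) (nat_lit 5) (nat_lit 59) (nat_lit 5) (nat_lit 60) (nat_lit 5) (nat_lit 323) (nat_lit 298) (nat_lit 159)) (XT.nd (nat_lit 78) (nat_lit 0) (nat_lit 0) (XT.lf (nat_lit 0) (nat_lit 590899522) (nat_lit 304) (nat_lit 43595939545) (nat_lit 76) (nat_lit 9439776902) (nat_lit 52) (nat_lit 5) (nat_lit 56) (nat_lit 5) (nat_lit 53) (nat_lit 5) (nat_lit 324) (nat_lit 298) (nat_lit 158)) (XT.lf (nat_lit 0) (nat_lit 8850170727) (nat_lit 304) (nat_lit 17203172216) (nat_lit 76) (nat_lit 29254177049) (nat_lit 52) (nat_lit 5) (nat_lit 56) (nat_lit 5) (nat_lit 53) (nat_lit 5) (nat_lit 325) (nat_lit 298) (nat_lit 157))))) (XT.nd (nat_lit 234) (nat_lit 228) (nat_lit 0) (XT.nd (nat_lit 78) (nat_lit 228) (nat_lit 0) (XT.lf (nat_lit 0) (nat_lit 10853863941) (nat_lit 228) (nat_lit 6835943165) (nat_lit 304) (nat_lit 39374294525) (nat_lit 49) (nat_lit 5) (nat_lit 52) (nat_lit 5) (nat_lit 53) (nat_lit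 5) (nat_lit 326) (nat_lit 298) (nat_lit 156)) (XT.nd (nat_lit 78) (nat_lit 228) (nat_lit 0) (XT.lf (nat_lit 0) (nat_lit 27473843390) (nat_lit 304) (nat_lit 18198832953) (nat_lit 76) (nat_lit 13210717481) (nat_lit 49) (nat_lit 5) (nat_lit 53) (nat_lit 5) (nat_lit 50) (nat_lit 5) (nat_lit 327) (nat_lit 298) (nat_lit 155)) (XT.lf (nat_lit 0) (nat_lit 11465366655) (nat_lit 228) (nat_lit 26570868645) (nat_lit 304) (nat_lit 22742959900) (nat_lit 46) (nat_lit 5) (nat_lit 49) (nat_lit 5) (nat_lit 50) (nat_lit 5) (nat_lit 328) (nat_lit 298) (nat_lit 154)))) (XT.nd (nat_lit 78) (nat_lit 228) (nat_lit 0) (XT.lf (nat_lit 0) (nat_lit 43241967701) (nat_lit 228) (nat_lit 6191118037) (nat_lit 304) (nat_lit 13321386117) (nat_lit 46) (nat_lit 5) (nat_lit 49) (nat_lit 5) (nat_lit 50) (nat_lit 5) (nat_lit 329) (nat_lit 298) (nat_lit 153)) (XT.nd (nat_lit 78) (nat_lit 76) (nat_lit 0) (XT.lf (nat_lit 0) (nat_lit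 11920394708) (nat_lit 152) (nat_lit 49901138769) (nat_lit 228) (nat_lit 2985893180) (nat_lit 44) (nat_lit 5) (nat_lit 46) (nat_lit 5) (nat_lit 47) (nat_lit 5) (nat_lit 330) (nat_lit 298) (nat_lit 152)) (XT.lf (nat_lit 0) (nat_lit 8050191471) (nat_lit 228) (nat_lit 21576469169) (nat_lit 76) (nat_lit 37308450105) (nat_lit 43) (nat_lit 5) (nat_lit 46) (nat_lit 5) (nat_lit 44) (nat_lit 5) (nat_lit 331) (nat_lit 298) (nat_lit 151))))))) (XT.nd (nat_lit 780) (nat_lit 760) (nat_lit 0) (XT.nd (nat_lit 390) (nat_lit 380) (nat_lit 0) (XT.nd (nat_lit 156) (nat_lit 304) (nat_lit 0) (XT.nd (nat_lit 78) (nat_lit 0) (nat_lit 0) (XT.lf (nat_lit 0) (nat_lit 11620108638) (nat_lit 228) (nat_lit 8097358554) (nat_lit 304) (nat_lit 49440279546) (nat_lit 40) (nat_lit 5) (nat_lit 43) (nat_lit 5) (nat_lit 44) (nat_lit 5) (nat_lit 332) (nat_lit 298) (nat_lit 150)) (XT.lf (nat_lit 0) (nat_lit 32564361832) (nat_lit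 304) (nat_lit 24482661505) (nat_lit 76) (nat_lit 14414680124) (nat_lit 40) (nat_lit 5) (nat_lit 44) (nat_lit 5) (nat_lit 41) (nat_lit 5) (nat_lit 333) (nat_lit 298) (nat_lit 149))) (XT.nd (nat_lit 78) (nat_lit 152) (nat_lit 0) (XT.lf (nat_lit 0) (nat_lit 10423546750) (nat_lit 152) (nat_lit 35923957836) (nat_lit 228) (nat_lit 27518659876) (nat_lit 38) (nat_lit 5) (nat_lit 40) (nat_lit 5) (nat_lit 41) (nat_lit 5) (nat_lit 334) (nat_lit 298) (nat_lit 148)) (XT.nd (nat_lit 78) (nat_lit 152) (nat_lit 0) (XT.lf (nat_lit 0) (nat_lit 47922694550) (nat_lit 152) (nat_lit 13310193209) (nat_lit 228) (nat_lit 15137308121) (nat_lit 38) (nat_lit 5) (nat_lit 40) (nat_lit 5) (nat_lit 41) (nat_lit 5) (nat_lit 335) (nat_lit 298) (nat_lit 147)) (XT.lf (nat_lit 0) (nat_lit 8401044352) (nat_lit 152) (nat_lit 68754086570) (nat_lit 228) (nat_lit 1829669866) (nat_lit 36) (nat_lit 5) (nat_lit 38) (nat_lit 5)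 (nat_lit 39) (nat_lit 5) (nat_lit 336) (nat_lit 298) (nat_lit 146))))) (XT.nd (nat_lit 156) (nat_lit 152) (nat_lit 0) (XT.nd (nat_lit 78) (nat_lit 152) (nat_lit 0) (XT.lf (nat_lit 0) (nat_lit 12461086279) (nat_lit 228) (nat_lit 34044403682) (nat_lit 76) (nat_lit 35179847766) (nat_lit 35) (nat_lit 5) (nat_lit 38) (nat_lit 5) (nat_lit 36) (nat_lit 5) (nat_lit 337) (nat_lit 298) (nat_lit 145)) (XT.lf (nat_lit 0) (nat_lit 4431552664) (nat_lit 152) (nat_lit 23041126694) (nat_lit 228) (nat_lit 57043334284) (nat_lit 33) (nat_lit 5) (nat_lit 35) (nat_lit 5) (nat_lit 36) (nat_lit 5) (nat_lit 338) (nat_lit 298) (nat_lit 144))) (XT.nd (nat_lit 78) (nat_lit 152) (nat_lit 0) (XT.lf (nat_lit 0) (nat_lit 43844406800) (nat_lit 228) (nat_lit 41482748984) (nat_lit 76) (nat_lit 2130591034) (nat_lit 33) (nat_lit 5) (nat_lit 36) (nat_lit 5) (nat_lit 34) (nat_lit 5) (nat_lit 339) (nat_lit 298) (nat_lit 143))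 (XT.nd (nat_lit 78) (nat_lit 152) (nat_lit 0) (XT.lf (nat_lit 0) (nat_lit 61411129097) (nat_lit 228) (nat_lit 1330796959) (nat_lit 76) (nat_lit 27785821316) (nat_lit 33) (nat_lit 5) (nat_lit 36) (nat_lit 5) (nat_lit 34) (nat_lit 5) (nat_lit 340) (nat_lit 298) (nat_lit 142)) (XT.lf (nat_lit 0) (nat_lit 42176647663) (nat_lit 152) (nat_lit 38336783224) (nat_lit 228) (nat_lit 13204955988) (nat_lit 31) (nat_lit 5) (nat_lit 33) (nat_lit 5) (nat_lit 34) (nat_lit 5) (nat_lit 341) (nat_lit 298) (nat_lit 141)))))) (XT.nd (nat_lit 390) (nat_lit 380) (nat_lit 0) (XT.nd (nat_lit 156) (nat_lit 152) (nat_lit 0) (XT.nd (nat_lit 78) (nat_lit 152) (nat_lit 0) (XT.lf (nat_lit 0) (nat_lit 3411856672) (nat_lit 228) (nat_lit 9218845381) (nat_lit 76) (nat_lit 84434040139) (nat_lit 30) (nat_lit 5) (nat_lit 33) (nat_lit 5) (nat_lit 31) (nat_lit 5) (nat_lit 342) (nat_lit 298) (nat_lit 140)) (XT.lf (nat_lit 0)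 (nat_lit 21216098695) (nat_lit 228) (nat_lit 64617325391) (nat_lit 76) (nat_lit 14694150305) (nat_lit 28) (nat_lit 5) (nat_lit 31) (nat_lit 5) (nat_lit 29) (nat_lit 5) (nat_lit 343) (nat_lit 298) (nat_lit 139))) (XT.nd (nat_lit 78) (nat_lit 152) (nat_lit 0) (XT.lf (nat_lit 0) (nat_lit 40275128185) (nat_lit 228) (nat_lit 20751456446) (nat_lit 76) (nat_lit 43118735696) (nat_lit 28) (nat_lit 5) (nat_lit 31) (nat_lit 5) (nat_lit 29) (nat_lit 5) (nat_lit 344) (nat_lit 298) (nat_lit 138)) (XT.nd (nat_lit 78) (nat_lit 0) (nat_lit 0) (XT.lf (nat_lit 0) (nat_lit 26142574451) (nat_lit 152) (nat_lit 34551578914) (nat_lit 228) (nat_lit 47229448836) (nat_lit 26) (nat_lit 5) (nat_lit 28) (nat_lit 5) (nat_lit 29) (nat_lit 5) (nat_lit 345) (nat_lit 298) (nat_lit 137)) (XT.lf (nat_lit 0) (nat_lit 76099923417) (nat_lit 152) (nat_lit 6384552260) (nat_lit 228) (nat_lit 29388806012) (nat_lit 26) (nat_lit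 5) (nat_lit 28) (nat_lit 5) (nat_lit 29) (nat_lit 5) (nat_lit 346) (nat_lit 298) (nat_lit 136))))) (XT.nd (nat_lit 234) (nat_lit 228) (nat_lit 0) (XT.nd (nat_lit 78) (nat_lit 76) (nat_lit 0) (XT.lf (nat_lit 0) (nat_lit 12573261899) (nat_lit 76) (nat_lit 93348380705) (nat_lit 152) (nat_lit 10070936895) (nat_lit 25) (nat_lit 5) (nat_lit 26) (nat_lit 5) (nat_lit 27) (nat_lit 4) (nat_lit 347) (nat_lit 298) (nat_lit 135)) (XT.nd (nat_lit 78) (nat_lit 0) (nat_lit 0) (XT.lf (nat_lit 0) (nat_lit 10605343096) (nat_lit 152) (nat_lit 55984202739) (nat_lit 76) (nat_lit 53684354945) (nat_lit 24) (nat_lit 5) (nat_lit 26) (nat_lit 5) (nat_lit 25) (nat_lit 5) (nat_lit 348) (nat_lit 298) (nat_lit 134)) (XT.lf (nat_lit 0) (nat_lit 31975993196) (nat_lit 152) (nat_lit 6344132684) (nat_lit 76) (nat_lit 86440957766) (nat_lit 24) (nat_lit 5) (nat_lit 26) (nat_lit 5) (nat_lit 25) (nat_lit 5) (nat_lit 349) (nat_lit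 298) (nat_lit 133)))) (XT.nd (nat_lit 78) (nat_lit 76) (nat_lit 0) (XT.lf (nat_lit 0) (nat_lit 47289890585) (nat_lit 152) (nat_lit 7862665915) (nat_lit 228) (nat_lit 74283200756) (nat_lit 22) (nat_lit 5) (nat_lit 24) (nat_lit 5) (nat_lit 25) (nat_lit 5) (nat_lit 350) (nat_lit 298) (nat_lit 132)) (XT.nd (nat_lit 78) (nat_lit 76) (nat_lit 0) (XT.lf (nat_lit 0) (nat_lit 79972757339) (nat_lit 228) (nat_lit 30892861675) (nat_lit 76) (nat_lit 23454305671) (nat_lit 22) (nat_lit 5) (nat_lit 25) (nat_lit 5) (nat_lit 23) (nat_lit 4) (nat_lit 351) (nat_lit 298) (nat_lit 131)) (XT.lf (nat_lit 0) (nat_lit 23545960470) (nat_lit 76) (nat_lit 82983629685) (nat_lit 152) (nat_lit 32893929812) (nat_lit 21) (nat_lit 5) (nat_lit 22) (nat_lit 5) (nat_lit 23) (nat_lit 4) (nat_lit 352) (nat_lit 298) (nat_lit 130))))))))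
noncomputable def xc206 : XT := (XT.nd (nat_lit 1560) (nat_lit 228) (nat_lit 0) (XT.nd (nat_lit 780) (nat_lit 304) (nat_lit 0) (XT.nd (nat_lit 390) (nat_lit 152) (nat_lit 0) (XT.nd (nat_lit 156) (nat_lit 228) (nat_lit 0) (XT.nd (nat_lit 78) (nat_lit 76) (nat_lit 0) (XT.lf (nat_lit 0) (nat_lit 81777724478) (nat_lit 76) (nat_lit 53158851663) (nat_lit 152) (nat_lit 9819603845) (nat_lit 21) (nat_lit 5) (nat_lit 22) (nat_lit 5) (nat_lit 23) (nat_lit 4) (nat_lit 353) (nat_lit 298) (nat_lit 129)) (XT.lf (nat_lit 0) (nat_lit 13946431845) (nat_lit 152) (nat_lit 7660837717) (nat_lit 76) (nat_lit 128736998466) (nat_lit 20) (nat_lit 5) (nat_lit 22) (nat_lit 5) (nat_lit 21) (nat_lit 5) (nat_lit 354) (nat_lit 298) (nat_lit 128))) (XT.nd (nat_lit 78) (nat_lit 76) (nat_lit 0) (XT.lf (nat_lit 0) (nat_lit 39576417320) (nat_lit 228) (nat_lit 104436926985) (nat_lit 76) (nat_lit 12140085232) (nat_lit 18)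 (nat_lit 5) (nat_lit 21) (nat_lit 5) (nat_lit 19) (nat_lit 4) (nat_lit 355) (nat_lit 298) (nat_lit 127)) (XT.nd (nat_lit 78) (nat_lit 76) (nat_lit 0) (XT.lf (nat_lit 0) (nat_lit 66973187492) (nat_lit 228) (nat_lit 48275651999) (nat_lit 76) (nat_lit 46979945812) (nat_lit 18) (nat_lit 5) (nat_lit 21) (nat_lit 5) (nat_lit 19) (nat_lit 4) (nat_lit 356) (nat_lit 298) (nat_lit 126)) (XT.lf (nat_lit 0) (nat_lit 11045868972) (nat_lit 76) (nat_lit 84865623230) (nat_lit 152) (nat_lit 72687832286) (nat_lit 17) (nat_lit 5) (nat_lit 18) (nat_lit 5) (nat_lit 19) (nat_lit 4) (nat_lit 357) (nat_lit 298) (nat_lit 125))))) (XT.nd (nat_lit 156) (nat_lit 152) (nat_lit 0) (XT.nd (nat_lit 78) (nat_lit 0) (nat_lit 0) (XT.lf (nat_lit 0) (nat_lit 75008154916) (nat_lit 76) (nat_lit 52105383244) (nat_lit 152) (nat_lit 48134011581) (nat_lit 17) (nat_lit 5) (nat_lit 18) (nat_lit 5) (nat_lit 19) (nat_lit 4) (nat_lit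 358) (nat_lit 298) (nat_lit 124)) (XT.lf (nat_lit 0) (nat_lit 142167285914) (nat_lit 76) (nat_lit 17707690489) (nat_lit 152) (nat_lit 22353245745) (nat_lit 17) (nat_lit 5) (nat_lit 18) (nat_lit 5) (nat_lit 19) (nat_lit 4) (nat_lit 359) (nat_lit 298) (nat_lit 123))) (XT.nd (nat_lit 78) (nat_lit 0) (nat_lit 0) (XT.lf (nat_lit 0) (nat_lit 5231434699) (nat_lit 152) (nat_lit 166016650837) (nat_lit 76) (nat_lit 18272869277) (nat_lit 15) (nat_lit 5) (nat_lit 17) (nat_lit 5) (nat_lit 16) (nat_lit 4) (nat_lit 360) (nat_lit 298) (nat_lit 122)) (XT.nd (nat_lit 78) (nat_lit 0) (nat_lit 0) (XT.lf (nat_lit 0) (nat_lit 34423314802) (nat_lit 152) (nat_lit 106174866564) (nat_lit 76) (nat_lit 56512861687) (nat_lit 15) (nat_lit 5) (nat_lit 17) (nat_lit 5) (nat_lit 16) (nat_lit 4) (nat_lit 361) (nat_lit 298) (nat_lit 121)) (XT.lf (nat_lit 0) (nat_lit 65074139168) (nat_lit 152) (nat_lit 43342171793) (nat_lit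 76) (nat_lit 96664357553) (nat_lit 15) (nat_lit 5) (nat_lit 17) (nat_lit 5) (nat_lit 16) (nat_lit 4) (nat_lit 362) (nat_lit 298) (nat_lit 120)))))) (XT.nd (nat_lit 390) (nat_lit 152) (nat_lit 0) (XT.nd (nat_lit 156) (nat_lit 76) (nat_lit 0) (XT.nd (nat_lit 78) (nat_lit 0) (nat_lit 0) (XT.lf (nat_lit 0) (nat_lit 23379319356) (nat_lit 76) (nat_lit 74242583290) (nat_lit 152) (nat_lit 115808653014) (nat_lit 14) (nat_lit 5) (nat_lit 15) (nat_lit 5) (nat_lit 16) (nat_lit 4) (nat_lit 363) (nat_lit 298) (nat_lit 119)) (XT.lf (nat_lit 0) (nat_lit 94940522919) (nat_lit 76) (nat_lit 37589945451) (nat_lit 152) (nat_lit 89630798380) (nat_lit 14) (nat_lit 5) (nat_lit 15) (nat_lit 5) (nat_lit 16) (nat_lit 4) (nat_lit 364) (nat_lit 298) (nat_lit 118))) (XT.nd (nat_lit 78) (nat_lit 76) (nat_lit 0) (XT.lf (nat_lit 0) (nat_lit 169197855804) (nat_lit 152) (nat_lit 61263778902) (nat_lit 0) (nat_lit 866209296)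 (nat_lit 14) (nat_lit 5) (nat_lit 16) (nat_lit 4) (nat_lit 14) (nat_lit 4) (nat_lit 365) (nat_lit 298) (nat_lit 117)) (XT.nd (nat_lit 78) (nat_lit 0) (nat_lit 0) (XT.lf (nat_lit 0) (nat_lit 7617593712) (nat_lit 76) (nat_lit 200815622261) (nat_lit 76) (nat_lit 32482804241) (nat_lit 13) (nat_lit 4) (nat_lit 14) (nat_lit 5) (nat_lit 14) (nat_lit 4) (nat_lit 366) (nat_lit 298) (nat_lit 116)) (XT.lf (nat_lit 0) (nat_lit 82068968998) (nat_lit 76) (nat_lit 168598360485) (nat_lit 76) (nat_lit 264426738) (nat_lit 13) (nat_lit 4) (nat_lit 14) (nat_lit 5) (nat_lit 14) (nat_lit 4) (nat_lit 367) (nat_lit 298) (nat_lit 115))))) (XT.nd (nat_lit 156) (nat_lit 76) (nat_lit 0) (XT.nd (nat_lit 78) (nat_lit 0) (nat_lit 0) (XT.lf (nat_lit 0) (nat_lit 32490055041) (nat_lit 152) (nat_lit 101730383507) (nat_lit 76) (nat_lit 127201665082) (nat_lit 12) (nat_lit 5) (nat_lit 14) (nat_lit 5) (nat_lit 13) (nat_lit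 4) (nat_lit 368) (nat_lit 298) (nat_lit 114)) (XT.lf (nat_lit 0) (nat_lit 66872870484) (nat_lit 152) (nat_lit 31246623845) (nat_lit 76) (nat_lit 174317282753) (nat_lit 12) (nat_lit 5) (nat_lit 14) (nat_lit 5) (nat_lit 13) (nat_lit 4) (nat_lit 369) (nat_lit 298) (nat_lit 113))) (XT.nd (nat_lit 78) (nat_lit 0) (nat_lit 0) (XT.lf (nat_lit 0) (nat_lit 44174291893) (nat_lit 76) (nat_lit 59489739344) (nat_lit 152) (nat_lit 180303692950) (nat_lit 11) (nat_lit 5) (nat_lit 12) (nat_lit 5) (nat_lit 13) (nat_lit 4) (nat_lit 370) (nat_lit 298) (nat_lit 112)) (XT.nd (nat_lit 78) (nat_lit 0) (nat_lit 0) (XT.lf (nat_lit 0) (nat_lit 124450194798) (nat_lit 76) (nat_lit 18373261227) (nat_lit 152) (nat_lit 153225327520) (nat_lit 11) (nat_lit 5) (nat_lit 12) (nat_lit 5) (nat_lit 13) (nat_lit 4) (nat_lit 371) (nat_lit 298) (nat_lit 111)) (XT.lf (nat_lit 0) (nat_lit 184327580346) (nat_lit 152) (nat_lit 100382031577)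 (nat_lit 0) (nat_lit 24004947721) (nat_lit 11) (nat_lit 5) (nat_lit 13) (nat_lit 4) (nat_lit 11) (nat_lit 4) (nat_lit 372) (nat_lit 298) (nat_lit 110))))))) (XT.nd (nat_lit 35022) (nat_lit 0) (nat_lit 5548) (XT.nd (nat_lit 390) (nat_lit 76) (nat_lit 0) (XT.nd (nat_lit 156) (nat_lit 76) (nat_lit 0) (XT.nd (nat_lit 78) (nat_lit 76) (nat_lit 0) (XT.lf (nat_lit 0) (nat_lit 228207679283) (nat_lit 152) (nat_lit 25906653292) (nat_lit 0) (nat_lit 67884253732) (nat_lit 11) (nat_lit 5) (nat_lit 13) (nat_lit 4) (nat_lit 11) (nat_lit 4) (nat_lit 373) (nat_lit 298) (nat_lit 109)) (XT.lf (nat_lit 0) (nat_lit 54020727170) (nat_lit 76) (nat_lit 221104058937) (nat_lit 76) (nat_lit 60779878220) (nat_lit 10) (nat_lit 4) (nat_lit 11) (nat_lit 5) (nat_lit 11) (nat_lit 4) (nat_lit 374) (nat_lit 298) (nat_lit 108))) (XT.nd (nat_lit 78) (nat_lit 76) (nat_lit 0) (XT.lf (nat_lit 0) (nat_lit 138843142163) (nat_lit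 76) (nat_lit 185982943647) (nat_lit 76) (nat_lit 25658043723) (nat_lit 10) (nat_lit 4) (nat_lit 11) (nat_lit 5) (nat_lit 11) (nat_lit 4) (nat_lit 375) (nat_lit 298) (nat_lit 107)) (XT.nd (nat_lit 78) (nat_lit 0) (nat_lit 0) (XT.lf (nat_lit 0) (nat_lit 10860384804) (nat_lit 152) (nat_lit 138061796034) (nat_lit 76) (nat_lit 216861648188) (nat_lit 9) (nat_lit 5) (nat_lit 11) (nat_lit 5) (nat_lit 10) (nat_lit 4) (nat_lit 376) (nat_lit 298) (nat_lit 106)) (XT.lf (nat_lit 0) (nat_lit 48342083491) (nat_lit 152) (nat_lit 61224966066) (nat_lit 76) (nat_lit 272260451530) (nat_lit 9) (nat_lit 5) (nat_lit 11) (nat_lit 5) (nat_lit 10) (nat_lit 4) (nat_lit 377) (nat_lit 298) (nat_lit 105))))) (XT.nd (nat_lit 156) (nat_lit 0) (nat_lit 0) (XT.nd (nat_lit 78) (nat_lit 0) (nat_lit 0) (XT.lf (nat_lit 0) (nat_lit 20096246733) (nat_lit 76) (nat_lit 67915024113) (nat_lit 152) (nat_lit 310646415853) (nat_lit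 8) (nat_lit 5) (nat_lit 9) (nat_lit 5) (nat_lit 10) (nat_lit 4) (nat_lit 378) (nat_lit 298) (nat_lit 104)) (XT.lf (nat_lit 0) (nat_lit 107608459392) (nat_lit 76) (nat_lit 23091984309) (nat_lit 152) (nat_lit 285577111711) (nat_lit 8) (nat_lit 5) (nat_lit 9) (nat_lit 5) (nat_lit 10) (nat_lit 4) (nat_lit 379) (nat_lit 298) (nat_lit 103))) (XT.nd (nat_lit 34320) (nat_lit 0) (nat_lit 6536) (XT.lf (nat_lit 0) (nat_lit 175898012295) (nat_lit 152) (nat_lit 235657042631) (nat_lit 0) (nat_lit 23204665901) (nat_lit 8) (nat_lit 5) (nat_lit 10) (nat_lit 4) (nat_lit 8) (nat_lit 4) (nat_lit 380) (nat_lit 298) (nat_lit 102)) (XT.nd (nat_lit 78) (nat_lit 0) (nat_lit 0) (XT.lf (nat_lit 0) (nat_lit 5941427086) (nat_lit 0) (nat_lit 5941427086) (nat_lit 684) (nat_lit 1839947526) (nat_lit 94) (nat_lit 5) (nat_lit 94) (nat_lit 3) (nat_lit 103) (nat_lit 3) (nat_lit 299) (nat_lit 299) (nat_lit 182)) (XT.lf (nat_lit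 0) (nat_lit 24452837834) (nat_lit 684) (nat_lit 2989880021) (nat_lit 760) (nat_lit 684230715) (nat_lit 94) (nat_lit 5) (nat_lit 103) (nat_lit 3) (nat_lit 104) (nat_lit 5) (nat_lit 300) (nat_lit 299) (nat_lit 181)))))) (XT.nd (nat_lit 390) (nat_lit 380) (nat_lit 0) (XT.nd (nat_lit 156) (nat_lit 608) (nat_lit 0) (XT.nd (nat_lit 78) (nat_lit 0) (nat_lit 0) (XT.lf (nat_lit 76) (nat_lit 10345000890) (nat_lit 0) (nat_lit 15180433325) (nat_lit 760) (nat_lit 3299380580) (nat_lit 95) (nat_lit 5) (nat_lit 94) (nat_lit 5) (nat_lit 104) (nat_lit 5) (nat_lit 301) (nat_lit 299) (nat_lit 180)) (XT.lf (nat_lit 76) (nat_lit 24447539575) (nat_lit 0) (nat_lit 2249753743) (nat_lit 760) (nat_lit 2858008243) (nat_lit 95) (nat_lit 5) (nat_lit 94) (nat_lit 5) (nat_lit 104) (nat_lit 5) (nat_lit 302) (nat_lit 299) (nat_lit 179))) (XT.nd (nat_lit 78) (nat_lit 684) (nat_lit 0) (XT.lf (nat_lit 76) (nat_lit 9042424482)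 (nat_lit 0) (nat_lit 19198619346) (nat_lit 760) (nat_lit 2065612368) (nat_lit 96) (nat_lit 5) (nat_lit 95) (nat_lit 5) (nat_lit 105) (nat_lit 5) (nat_lit 303) (nat_lit 299) (nat_lit 178)) (XT.nd (nat_lit 78) (nat_lit 684) (nat_lit 0) (XT.lf (nat_lit 76) (nat_lit 24036369711) (nat_lit 0) (nat_lit 5943847228) (nat_lit 760) (nat_lit 1109457920) (nat_lit 96) (nat_lit 5) (nat_lit 95) (nat_lit 5) (nat_lit 105) (nat_lit 5) (nat_lit 304) (nat_lit 299) (nat_lit 177)) (XT.lf (nat_lit 0) (nat_lit 146916190) (nat_lit 760) (nat_lit 23905440910) (nat_lit 836) (nat_lit 7847125238) (nat_lit 86) (nat_lit 5) (nat_lit 96) (nat_lit 5) (nat_lit 97) (nat_lit 5) (nat_lit 305) (nat_lit 299) (nat_lit 176))))) (XT.nd (nat_lit 234) (nat_lit 380) (nat_lit 0) (XT.nd (nat_lit 78) (nat_lit 0) (nat_lit 76) (XT.lf (nat_lit 0) (nat_lit 1643442775) (nat_lit 760) (nat_lit 8825946578) (nat_lit 836) (nat_lit 22268757461)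 (nat_lit 86) (nat_lit 5) (nat_lit 96) (nat_lit 5) (nat_lit 97) (nat_lit 5) (nat_lit 306) (nat_lit 299) (nat_lit 175)) (XT.nd (nat_lit 78) (nat_lit 0) (nat_lit 0) (XT.lf (nat_lit 0) (nat_lit 3384824904) (nat_lit 760) (nat_lit 26438295334) (nat_lit 836) (nat_lit 3787129437) (nat_lit 87) (nat_lit 5) (nat_lit 97) (nat_lit 5) (nat_lit 98) (nat_lit 5) (nat_lit 307) (nat_lit 299) (nat_lit 174)) (XT.lf (nat_lit 0) (nat_lit 5532957697) (nat_lit 760) (nat_lit 10419593591) (nat_lit 836) (nat_lit 18557428620) (nat_lit 87) (nat_lit 5) (nat_lit 97) (nat_lit 5) (nat_lit 98) (nat_lit 5) (nat_lit 308) (nat_lit 299) (nat_lit 173)))) (XT.nd (nat_lit 78) (nat_lit 456) (nat_lit 0) (XT.lf (nat_lit 76) (nat_lit 6608512087) (nat_lit 0) (nat_lit 1279476906) (nat_lit 836) (nat_lit 27561739073) (nat_lit 88) (nat_lit 5) (nat_lit 87) (nat_lit 5) (nat_lit 98) (nat_lit 5) (nat_lit 309) (nat_lit 299) (nat_lit 172))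 (XT.nd (nat_lit 78) (nat_lit 532) (nat_lit 0) (XT.lf (nat_lit 0) (nat_lit 10757143458) (nat_lit 760) (nat_lit 11804519584) (nat_lit 76) (nat_lit 13854987732) (nat_lit 88) (nat_lit 5) (nat_lit 98) (nat_lit 5) (nat_lit 89) (nat_lit 5) (nat_lit 310) (nat_lit 299) (nat_lit 171)) (XT.lf (nat_lit 0) (nat_lit 6260371370) (nat_lit 532) (nat_lit 7624722163) (nat_lit 608) (nat_lit 23541064637) (nat_lit 81) (nat_lit 5) (nat_lit 88) (nat_lit 5) (nat_lit 89) (nat_lit 5) (nat_lit 311) (nat_lit 299) (nat_lit 170))))))))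
noncomputable def xc207 : XT := (XT.nd (nat_lit 1638) (nat_lit 1672) (nat_lit 0) (XT.nd (nat_lit 780) (nat_lit 1216) (nat_lit 0) (XT.nd (nat_lit 390) (nat_lit 988) (nat_lit 0) (XT.nd (nat_lit 156) (nat_lit 304) (nat_lit 0) (XT.nd (nat_lit 78) (nat_lit 380) (nat_lit 0) (XT.lf (nat_lit 0) (nat_lit 17495197783) (nat_lit 608) (nat_lit 12970073941) (nat_lit 76) (nat_lit 8004586568) (nat_lit 81) (nat_lit 5) (nat_lit 89) (nat_lit 5) (nat_lit 82) (nat_lit 5) (nat_lit 312) (nat_lit 299) (nat_lit 169)) (XT.lf (nat_lit 0) (nat_lit 6206052010) (nat_lit 380) (nat_lit 15298539323) (nat_lit 456) (nat_lit 18050217825) (nat_lit 76) (nat_lit 5) (nat_lit 81) (nat_lit 5) (nat_lit 82) (nat_lit 5) (nat_lit 313) (nat_lit 299) (nat_lit 168))) (XT.nd (nat_lit 78) (nat_lit 304) (nat_lit 0) (XT.lf (nat_lit 0) (nat_lit 25944488900) (nat_lit 456) (nat_lit 13908248217) (nat_lit 76) (nat_lit 829773440) (nat_lit 76)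 (nat_lit 5) (nat_lit 82) (nat_lit 5) (nat_lit 77) (nat_lit 5) (nat_lit 314) (nat_lit 299) (nat_lit 167)) (XT.nd (nat_lit 78) (nat_lit 0) (nat_lit 0) (XT.lf (nat_lit 0) (nat_lit 6457192799) (nat_lit 304) (nat_lit 24497939226) (nat_lit 380) (nat_lit 10894031948) (nat_lit 72) (nat_lit 5) (nat_lit 76) (nat_lit 5) (nat_lit 77) (nat_lit 5) (nat_lit 315) (nat_lit 299) (nat_lit 166)) (XT.lf (nat_lit 0) (nat_lit 28320848583) (nat_lit 304) (nat_lit 8128232309) (nat_lit 380) (nat_lit 6613434759) (nat_lit 72) (nat_lit 5) (nat_lit 76) (nat_lit 5) (nat_lit 77) (nat_lit 5) (nat_lit 316) (nat_lit 299) (nat_lit 165))))) (XT.nd (nat_lit 156) (nat_lit 608) (nat_lit 0) (XT.nd (nat_lit 78) (nat_lit 76) (nat_lit 0) (XT.lf (nat_lit 0) (nat_lit 7021518424) (nat_lit 304) (nat_lit 35444646024) (nat_lit 380) (nat_lit 1857952667) (nat_lit 68) (nat_lit 5) (nat_lit 72) (nat_lit 5) (nat_lit 73) (nat_lit 5) (nat_lit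 317) (nat_lit 299) (nat_lit 164)) (XT.lf (nat_lit 0) (nat_lit 3419349481) (nat_lit 380) (nat_lit 15440906212) (nat_lit 76) (nat_lit 26766879342) (nat_lit 67) (nat_lit 5) (nat_lit 72) (nat_lit 5) (nat_lit 68) (nat_lit 5) (nat_lit 318) (nat_lit 299) (nat_lit 163))) (XT.nd (nat_lit 78) (nat_lit 304) (nat_lit 0) (XT.lf (nat_lit 0) (nat_lit 7727938093) (nat_lit 304) (nat_lit 1288313575) (nat_lit 380) (nat_lit 37971624067) (nat_lit 63) (nat_lit 5) (nat_lit 67) (nat_lit 5) (nat_lit 68) (nat_lit 5) (nat_lit 319) (nat_lit 299) (nat_lit 162)) (XT.nd (nat_lit 78) (nat_lit 304) (nat_lit 0) (XT.lf (nat_lit 0) (nat_lit 15424324183) (nat_lit 380) (nat_lit 16087407129) (nat_lit 76) (nat_lit 16878359243) (nat_lit 63) (nat_lit 5) (nat_lit 68) (nat_lit 5) (nat_lit 64) (nat_lit 5) (nat_lit 320) (nat_lit 299) (nat_lit 161)) (XT.lf (nat_lit 0) (nat_lit 8491664581) (nat_lit 304) (nat_lit 13812537830) (nat_lit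 380) (nat_lit 27550646784) (nat_lit 59) (nat_lit 5) (nat_lit 63) (nat_lit 5) (nat_lit 64) (nat_lit 5) (nat_lit 321) (nat_lit 299) (nat_lit 160)))))) (XT.nd (nat_lit 390) (nat_lit 684) (nat_lit 0) (XT.nd (nat_lit 156) (nat_lit 304) (nat_lit 0) (XT.nd (nat_lit 78) (nat_lit 228) (nat_lit 0) (XT.lf (nat_lit 0) (nat_lit 29877250362) (nat_lit 380) (nat_lit 16602794081) (nat_lit 76) (nat_lit 4895345568) (nat_lit 59) (nat_lit 5) (nat_lit 64) (nat_lit 5) (nat_lit 60) (nat_lit 5) (nat_lit 322) (nat_lit 299) (nat_lit 159)) (XT.lf (nat_lit 0) (nat_lit 9469586464) (nat_lit 228) (nat_lit 28731515730) (nat_lit 304) (nat_lit 14752250990) (nat_lit 56) (nat_lit 5) (nat_lit 59) (nat_lit 5) (nat_lit 60) (nat_lit 5) (nat_lit 323) (nat_lit 299) (nat_lit 158))) (XT.nd (nat_lit 78) (nat_lit 304) (nat_lit 0) (XT.lf (nat_lit 0) (nat_lit 37419360417) (nat_lit 228) (nat_lit 9800892479) (nat_lit 304) (nat_lit 7376009057)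 (nat_lit 56) (nat_lit 5) (nat_lit 59) (nat_lit 5) (nat_lit 60) (nat_lit 5) (nat_lit 324) (nat_lit 299) (nat_lit 157)) (XT.nd (nat_lit 78) (nat_lit 0) (nat_lit 0) (XT.lf (nat_lit 0) (nat_lit 683728836) (nat_lit 304) (nat_lit 45690819930) (nat_lit 76) (nat_lit 9930157019) (nat_lit 52) (nat_lit 5) (nat_lit 56) (nat_lit 5) (nat_lit 53) (nat_lit 5) (nat_lit 325) (nat_lit 299) (nat_lit 156)) (XT.lf (nat_lit 0) (nat_lit 9352950060) (nat_lit 304) (nat_lit 17982457881) (nat_lit 76) (nat_lit 30734401398) (nat_lit 52) (nat_lit 5) (nat_lit 56) (nat_lit 5) (nat_lit 53) (nat_lit 5) (nat_lit 326) (nat_lit 299) (nat_lit 155))))) (XT.nd (nat_lit 234) (nat_lit 228) (nat_lit 0) (XT.nd (nat_lit 78) (nat_lit 228) (nat_lit 0) (XT.lf (nat_lit 0) (nat_lit 11476125681) (nat_lit 228) (nat_lit 7156814827) (nat_lit 304) (nat_lit 41281364421) (nat_lit 49) (nat_lit 5) (nat_lit 52) (nat_lit 5) (nat_lit 53) (nat_lit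 5) (nat_lit 327) (nat_lit 299) (nat_lit 154)) (XT.nd (nat_lit 78) (nat_lit 228) (nat_lit 0) (XT.lf (nat_lit 0) (nat_lit 28903697229) (nat_lit 304) (nat_lit 19030447343) (nat_lit 76) (nat_lit 13890544545) (nat_lit 49) (nat_lit 5) (nat_lit 53) (nat_lit 5) (nat_lit 50) (nat_lit 5) (nat_lit 328) (nat_lit 299) (nat_lit 153)) (XT.lf (nat_lit 0) (nat_lit 12115698902) (nat_lit 228) (nat_lit 27877038651) (nat_lit 304) (nat_lit 23822619727) (nat_lit 46) (nat_lit 5) (nat_lit 49) (nat_lit 5) (nat_lit 50) (nat_lit 5) (nat_lit 329) (nat_lit 299) (nat_lit 152)))) (XT.nd (nat_lit 78) (nat_lit 228) (nat_lit 0) (XT.lf (nat_lit 0) (nat_lit 45477460290) (nat_lit 228) (nat_lit 6479365913) (nat_lit 304) (nat_lit 13932704786) (nat_lit 46) (nat_lit 5) (nat_lit 49) (nat_lit 5) (nat_lit 50) (nat_lit 5) (nat_lit 330) (nat_lit 299) (nat_lit 151)) (XT.nd (nat_lit 78) (nat_lit 76) (nat_lit 0) (XT.lf (nat_lit 0) (nat_lit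 12590919041) (nat_lit 152) (nat_lit 52372777056) (nat_lit 228) (nat_lit 3081490310) (nat_lit 44) (nat_lit 5) (nat_lit 46) (nat_lit 5) (nat_lit 47) (nat_lit 5) (nat_lit 331) (nat_lit 299) (nat_lit 150)) (XT.lf (nat_lit 0) (nat_lit 8502204733) (nat_lit 228) (nat_lit 22582647093) (nat_lit 76) (nat_lit 39194487313) (nat_lit 43) (nat_lit 5) (nat_lit 46) (nat_lit 5) (nat_lit 44) (nat_lit 5) (nat_lit 332) (nat_lit 299) (nat_lit 149))))))) (XT.nd (nat_lit 780) (nat_lit 760) (nat_lit 0) (XT.nd (nat_lit 390) (nat_lit 380) (nat_lit 0) (XT.nd (nat_lit 156) (nat_lit 304) (nat_lit 0) (XT.nd (nat_lit 78) (nat_lit 0) (nat_lit 0) (XT.lf (nat_lit 0) (nat_lit 12272587902) (nat_lit 228) (nat_lit 8479014925) (nat_lit 304) (nat_lit 51861568648) (nat_lit 40) (nat_lit 5) (nat_lit 43) (nat_lit 5) (nat_lit 44) (nat_lit 5) (nat_lit 333) (nat_lit 299) (nat_lit 148)) (XT.lf (nat_lit 0) (nat_lit 34238889137) (nat_lit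 304) (nat_lit 25636724073) (nat_lit 76) (nat_lit 15156812836) (nat_lit 40) (nat_lit 5) (nat_lit 44) (nat_lit 5) (nat_lit 41) (nat_lit 5) (nat_lit 334) (nat_lit 299) (nat_lit 147))) (XT.nd (nat_lit 78) (nat_lit 152) (nat_lit 0) (XT.lf (nat_lit 0) (nat_lit 11013664426) (nat_lit 152) (nat_lit 37696395754) (nat_lit 228) (nat_lit 28847108603) (nat_lit 38) (nat_lit 5) (nat_lit 40) (nat_lit 5) (nat_lit 41) (nat_lit 5) (nat_lit 335) (nat_lit 299) (nat_lit 146)) (XT.nd (nat_lit 78) (nat_lit 152) (nat_lit 0) (XT.lf (nat_lit 0) (nat_lit 50384486743) (nat_lit 152) (nat_lit 13953074323) (nat_lit 228) (nat_lit 15848950416) (nat_lit 38) (nat_lit 5) (nat_lit 40) (nat_lit 5) (nat_lit 41) (nat_lit 5) (nat_lit 336) (nat_lit 299) (nat_lit 145)) (XT.lf (nat_lit 0) (nat_lit 8887506250) (nat_lit 152) (nat_lit 72167734453) (nat_lit 228) (nat_lit 1876641751) (nat_lit 36) (nat_lit 5) (nat_lit 38) (nat_lit 5)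 (nat_lit 39) (nat_lit 5) (nat_lit 337) (nat_lit 299) (nat_lit 144))))) (XT.nd (nat_lit 156) (nat_lit 152) (nat_lit 0) (XT.nd (nat_lit 78) (nat_lit 152) (nat_lit 0) (XT.lf (nat_lit 0) (nat_lit 13125175791) (nat_lit 228) (nat_lit 35681982817) (nat_lit 76) (nat_lit 36960357319) (nat_lit 35) (nat_lit 5) (nat_lit 38) (nat_lit 5) (nat_lit 36) (nat_lit 5) (nat_lit 338) (nat_lit 299) (nat_lit 143)) (XT.lf (nat_lit 0) (nat_lit 4716728749) (nat_lit 152) (nat_lit 24169658668) (nat_lit 228) (nat_lit 59853388034) (nat_lit 33) (nat_lit 5) (nat_lit 35) (nat_lit 5) (nat_lit 36) (nat_lit 5) (nat_lit 339) (nat_lit 299) (nat_lit 142))) (XT.nd (nat_lit 78) (nat_lit 152) (nat_lit 0) (XT.lf (nat_lit 0) (nat_lit 46075142734) (nat_lit 228) (nat_lit 43494724486) (nat_lit 76) (nat_lit 2258807666) (nat_lit 33) (nat_lit 5) (nat_lit 36) (nat_lit 5) (nat_lit 34) (nat_lit 5) (nat_lit 340) (nat_lit 299) (nat_lit 141))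 (XT.nd (nat_lit 78) (nat_lit 152) (nat_lit 0) (XT.lf (nat_lit 0) (nat_lit 64518367070) (nat_lit 228) (nat_lit 1338134954) (nat_lit 76) (nat_lit 29195766744) (nat_lit 33) (nat_lit 5) (nat_lit 36) (nat_lit 5) (nat_lit 34) (nat_lit 5) (nat_lit 341) (nat_lit 299) (nat_lit 140)) (XT.lf (nat_lit 0) (nat_lit 44343727031) (nat_lit 152) (nat_lit 40231219578) (nat_lit 228) (nat_lit 13827537021) (nat_lit 31) (nat_lit 5) (nat_lit 33) (nat_lit 5) (nat_lit 34) (nat_lit 5) (nat_lit 342) (nat_lit 299) (nat_lit 139)))))) (XT.nd (nat_lit 390) (nat_lit 380) (nat_lit 0) (XT.nd (nat_lit 156) (nat_lit 152) (nat_lit 0) (XT.nd (nat_lit 78) (nat_lit 152) (nat_lit 0) (XT.lf (nat_lit 0) (nat_lit 3617174452) (nat_lit 228) (nat_lit 9623138613) (nat_lit 76) (nat_lit 88675902435) (nat_lit 30) (nat_lit 5) (nat_lit 33) (nat_lit 5) (nat_lit 31) (nat_lit 5) (nat_lit 343) (nat_lit 299) (nat_lit 138)) (XT.lf (nat_lit 0)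 (nat_lit 22311185454) (nat_lit 228) (nat_lit 67791073258) (nat_lit 76) (nat_lit 15449954064) (nat_lit 28) (nat_lit 5) (nat_lit 31) (nat_lit 5) (nat_lit 29) (nat_lit 5) (nat_lit 344) (nat_lit 299) (nat_lit 137))) (XT.nd (nat_lit 78) (nat_lit 152) (nat_lit 0) (XT.lf (nat_lit 0) (nat_lit 42321533951) (nat_lit 228) (nat_lit 21734630789) (nat_lit 76) (nat_lit 45294764142) (nat_lit 28) (nat_lit 5) (nat_lit 31) (nat_lit 5) (nat_lit 29) (nat_lit 5) (nat_lit 345) (nat_lit 299) (nat_lit 136)) (XT.nd (nat_lit 78) (nat_lit 0) (nat_lit 0) (XT.lf (nat_lit 0) (nat_lit 27503224258) (nat_lit 152) (nat_lit 36257567015) (nat_lit 228) (nat_lit 49557370723) (nat_lit 26) (nat_lit 5) (nat_lit 28) (nat_lit 5) (nat_lit 29) (nat_lit 5) (nat_lit 346) (nat_lit 299) (nat_lit 135)) (XT.lf (nat_lit 0) (nat_lit 79955892049) (nat_lit 152) (nat_lit 6683217164) (nat_lit 228) (nat_lit 30826293403) (nat_lit 26) (nat_lit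 5) (nat_lit 28) (nat_lit 5) (nat_lit 29) (nat_lit 5) (nat_lit 347) (nat_lit 299) (nat_lit 134))))) (XT.nd (nat_lit 234) (nat_lit 228) (nat_lit 0) (XT.nd (nat_lit 78) (nat_lit 76) (nat_lit 0) (XT.lf (nat_lit 0) (nat_lit 13253277723) (nat_lit 76) (nat_lit 97994516194) (nat_lit 152) (nat_lit 10542889508) (nat_lit 25) (nat_lit 5) (nat_lit 26) (nat_lit 5) (nat_lit 27) (nat_lit 4) (nat_lit 348) (nat_lit 299) (nat_lit 133)) (XT.nd (nat_lit 78) (nat_lit 0) (nat_lit 0) (XT.lf (nat_lit 0) (nat_lit 11164736935) (nat_lit 152) (nat_lit 58733522873) (nat_lit 76) (nat_lit 56387860094) (nat_lit 24) (nat_lit 5) (nat_lit 26) (nat_lit 5) (nat_lit 25) (nat_lit 5) (nat_lit 349) (nat_lit 299) (nat_lit 132)) (XT.lf (nat_lit 0) (nat_lit 33602532555) (nat_lit 152) (nat_lit 6613825029) (nat_lit 76) (nat_lit 90781374608) (nat_lit 24) (nat_lit 5) (nat_lit 26) (nat_lit 5) (nat_lit 25) (nat_lit 5) (nat_lit 350) (nat_lit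 299) (nat_lit 131)))) (XT.nd (nat_lit 78) (nat_lit 76) (nat_lit 0) (XT.lf (nat_lit 0) (nat_lit 49701133044) (nat_lit 152) (nat_lit 8236199910) (nat_lit 228) (nat_lit 77968836972) (nat_lit 22) (nat_lit 5) (nat_lit 24) (nat_lit 5) (nat_lit 25) (nat_lit 5) (nat_lit 351) (nat_lit 299) (nat_lit 130)) (XT.nd (nat_lit 78) (nat_lit 76) (nat_lit 0) (XT.lf (nat_lit 0) (nat_lit 83997542471) (nat_lit 228) (nat_lit 32391964642) (nat_lit 76) (nat_lit 24645089528) (nat_lit 22) (nat_lit 5) (nat_lit 25) (nat_lit 5) (nat_lit 23) (nat_lit 4) (nat_lit 352) (nat_lit 299) (nat_lit 129)) (XT.lf (nat_lit 0) (nat_lit 24768064092) (nat_lit 76) (nat_lit 87113607268) (nat_lit 152) (nat_lit 34511728409) (nat_lit 21) (nat_lit 5) (nat_lit 22) (nat_lit 5) (nat_lit 23) (nat_lit 4) (nat_lit 353) (nat_lit 299) (nat_lit 128))))))))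
noncomputable def xc208 : XT := (XT.nd (nat_lit 1560) (nat_lit 228) (nat_lit 0) (XT.nd (nat_lit 780) (nat_lit 304) (nat_lit 0) (XT.nd (nat_lit 390) (nat_lit 152) (nat_lit 0) (XT.nd (nat_lit 156) (nat_lit 228) (nat_lit 0) (XT.nd (nat_lit 78) (nat_lit 76) (nat_lit 0) (XT.lf (nat_lit 0) (nat_lit 85909282701) (nat_lit 76) (nat_lit 55798504817) (nat_lit 152) (nat_lit 10284966995) (nat_lit 21) (nat_lit 5) (nat_lit 22) (nat_lit 5) (nat_lit 23) (nat_lit 4) (nat_lit 354) (nat_lit 299) (nat_lit 127)) (XT.lf (nat_lit 0) (nat_lit 14667369757) (nat_lit 152) (nat_lit 8002444824) (nat_lit 76) (nat_lit 135190472115) (nat_lit 20) (nat_lit 5) (nat_lit 22) (nat_lit 5) (nat_lit 21) (nat_lit 5) (nat_lit 355) (nat_lit 299) (nat_lit 126))) (XT.nd (nat_lit 78) (nat_lit 76) (nat_lit 0) (XT.lf (nat_lit 0) (nat_lit 41578641781) (nat_lit 228) (nat_lit 109617112576) (nat_lit 76) (nat_lit 12764163223) (nat_lit 18)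 (nat_lit 5) (nat_lit 21) (nat_lit 5) (nat_lit 19) (nat_lit 4) (nat_lit 356) (nat_lit 299) (nat_lit 125)) (XT.nd (nat_lit 78) (nat_lit 76) (nat_lit 0) (XT.lf (nat_lit 0) (nat_lit 70344136005) (nat_lit 228) (nat_lit 50649757687) (nat_lit 76) (nat_lit 49345203797) (nat_lit 18) (nat_lit 5) (nat_lit 21) (nat_lit 5) (nat_lit 19) (nat_lit 4) (nat_lit 357) (nat_lit 299) (nat_lit 124)) (XT.lf (nat_lit 0) (nat_lit 11637199383) (nat_lit 76) (nat_lit 89091704656) (nat_lit 152) (nat_lit 76299282789) (nat_lit 17) (nat_lit 5) (nat_lit 18) (nat_lit 5) (nat_lit 19) (nat_lit 4) (nat_lit 358) (nat_lit 299) (nat_lit 123))))) (XT.nd (nat_lit 156) (nat_lit 152) (nat_lit 0) (XT.nd (nat_lit 78) (nat_lit 0) (nat_lit 0) (XT.lf (nat_lit 0) (nat_lit 78795740721) (nat_lit 76) (nat_lit 54694271706) (nat_lit 152) (nat_lit 50518863483) (nat_lit 17) (nat_lit 5) (nat_lit 18) (nat_lit 5) (nat_lit 19) (nat_lit 4) (nat_lit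 359) (nat_lit 299) (nat_lit 122)) (XT.lf (nat_lit 0) (nat_lit 149311057885) (nat_lit 76) (nat_lit 18577474346) (nat_lit 152) (nat_lit 23450099769) (nat_lit 17) (nat_lit 5) (nat_lit 18) (nat_lit 5) (nat_lit 19) (nat_lit 4) (nat_lit 360) (nat_lit 299) (nat_lit 121))) (XT.nd (nat_lit 78) (nat_lit 0) (nat_lit 0) (XT.lf (nat_lit 0) (nat_lit 5512989965) (nat_lit 152) (nat_lit 174281230694) (nat_lit 76) (nat_lit 19201772828) (nat_lit 15) (nat_lit 5) (nat_lit 17) (nat_lit 5) (nat_lit 16) (nat_lit 4) (nat_lit 361) (nat_lit 299) (nat_lit 120)) (XT.nd (nat_lit 78) (nat_lit 0) (nat_lit 0) (XT.lf (nat_lit 0) (nat_lit 36163512476) (nat_lit 152) (nat_lit 111449083526) (nat_lit 76) (nat_lit 59353038188) (nat_lit 15) (nat_lit 5) (nat_lit 17) (nat_lit 5) (nat_lit 16) (nat_lit 4) (nat_lit 362) (nat_lit 299) (nat_lit 119)) (XT.lf (nat_lit 0) (nat_lit 68345971778) (nat_lit 152) (nat_lit 45476398129) (nat_lit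 76) (nat_lit 101511416779) (nat_lit 15) (nat_lit 5) (nat_lit 17) (nat_lit 5) (nat_lit 16) (nat_lit 4) (nat_lit 363) (nat_lit 299) (nat_lit 118)))))) (XT.nd (nat_lit 390) (nat_lit 152) (nat_lit 0) (XT.nd (nat_lit 156) (nat_lit 76) (nat_lit 0) (XT.nd (nat_lit 78) (nat_lit 0) (nat_lit 0) (XT.lf (nat_lit 0) (nat_lit 24580637219) (nat_lit 76) (nat_lit 77940128189) (nat_lit 152) (nat_lit 121580421110) (nat_lit 14) (nat_lit 5) (nat_lit 15) (nat_lit 5) (nat_lit 16) (nat_lit 4) (nat_lit 364) (nat_lit 299) (nat_lit 117)) (XT.lf (nat_lit 0) (nat_lit 99718360393) (nat_lit 76) (nat_lit 39455552947) (nat_lit 152) (nat_lit 94094562534) (nat_lit 14) (nat_lit 5) (nat_lit 15) (nat_lit 5) (nat_lit 16) (nat_lit 4) (nat_lit 365) (nat_lit 299) (nat_lit 116))) (XT.nd (nat_lit 78) (nat_lit 76) (nat_lit 0) (XT.lf (nat_lit 0) (nat_lit 177674070889) (nat_lit 152) (nat_lit 64297016719) (nat_lit 0) (nat_lit 922324730)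 (nat_lit 14) (nat_lit 5) (nat_lit 16) (nat_lit 4) (nat_lit 14) (nat_lit 4) (nat_lit 366) (nat_lit 299) (nat_lit 115)) (XT.nd (nat_lit 78) (nat_lit 0) (nat_lit 0) (XT.lf (nat_lit 0) (nat_lit 8027941443) (nat_lit 76) (nat_lit 210842940450) (nat_lit 76) (nat_lit 34090131695) (nat_lit 13) (nat_lit 4) (nat_lit 14) (nat_lit 5) (nat_lit 14) (nat_lit 4) (nat_lit 367) (nat_lit 299) (nat_lit 114)) (XT.lf (nat_lit 0) (nat_lit 86200482252) (nat_lit 76) (nat_lit 177015456677) (nat_lit 76) (nat_lit 261635925) (nat_lit 13) (nat_lit 4) (nat_lit 14) (nat_lit 5) (nat_lit 14) (nat_lit 4) (nat_lit 368) (nat_lit 299) (nat_lit 113))))) (XT.nd (nat_lit 156) (nat_lit 76) (nat_lit 0) (XT.nd (nat_lit 78) (nat_lit 0) (nat_lit 0) (XT.lf (nat_lit 0) (nat_lit 34129319376) (nat_lit 152) (nat_lit 106789679836) (nat_lit 76) (nat_lit 133573465145) (nat_lit 12) (nat_lit 5) (nat_lit 14) (nat_lit 5) (nat_lit 13) (nat_lit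 4) (nat_lit 369) (nat_lit 299) (nat_lit 112)) (XT.lf (nat_lit 0) (nat_lit 70230572658) (nat_lit 152) (nat_lit 32783028517) (nat_lit 76) (nat_lit 183044305756) (nat_lit 12) (nat_lit 5) (nat_lit 14) (nat_lit 5) (nat_lit 13) (nat_lit 4) (nat_lit 370) (nat_lit 299) (nat_lit 111))) (XT.nd (nat_lit 78) (nat_lit 0) (nat_lit 0) (XT.lf (nat_lit 0) (nat_lit 46408514838) (nat_lit 76) (nat_lit 62452505408) (nat_lit 152) (nat_lit 189304394995) (nat_lit 11) (nat_lit 5) (nat_lit 12) (nat_lit 5) (nat_lit 13) (nat_lit 4) (nat_lit 371) (nat_lit 299) (nat_lit 110)) (XT.nd (nat_lit 78) (nat_lit 0) (nat_lit 0) (XT.lf (nat_lit 0) (nat_lit 130696998205) (nat_lit 76) (nat_lit 19280761524) (nat_lit 152) (nat_lit 160872800941) (nat_lit 11) (nat_lit 5) (nat_lit 12) (nat_lit 5) (nat_lit 13) (nat_lit 4) (nat_lit 372) (nat_lit 299) (nat_lit 109)) (XT.lf (nat_lit 0) (nat_lit 193556630967) (nat_lit 152) (nat_lit 105377531786)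 (nat_lit 0) (nat_lit 25215486047) (nat_lit 11) (nat_lit 5) (nat_lit 13) (nat_lit 4) (nat_lit 11) (nat_lit 4) (nat_lit 373) (nat_lit 299) (nat_lit 108))))))) (XT.nd (nat_lit 35100) (nat_lit 0) (nat_lit 5548) (XT.nd (nat_lit 390) (nat_lit 76) (nat_lit 0) (XT.nd (nat_lit 156) (nat_lit 76) (nat_lit 0) (XT.nd (nat_lit 78) (nat_lit 76) (nat_lit 0) (XT.lf (nat_lit 0) (nat_lit 239630131441) (nat_lit 152) (nat_lit 27179508462) (nat_lit 0) (nat_lit 71288267314) (nat_lit 11) (nat_lit 5) (nat_lit 13) (nat_lit 4) (nat_lit 11) (nat_lit 4) (nat_lit 374) (nat_lit 299) (nat_lit 107)) (XT.lf (nat_lit 0) (nat_lit 56743878482) (nat_lit 76) (nat_lit 232148985725) (nat_lit 76) (nat_lit 63806436639) (nat_lit 10) (nat_lit 4) (nat_lit 11) (nat_lit 5) (nat_lit 11) (nat_lit 4) (nat_lit 375) (nat_lit 299) (nat_lit 106))) (XT.nd (nat_lit 78) (nat_lit 76) (nat_lit 0) (XT.lf (nat_lit 0) (nat_lit 145806361133) (nat_lit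 76) (nat_lit 195272304011) (nat_lit 76) (nat_lit 26929102583) (nat_lit 10) (nat_lit 4) (nat_lit 11) (nat_lit 5) (nat_lit 11) (nat_lit 4) (nat_lit 376) (nat_lit 299) (nat_lit 105)) (XT.nd (nat_lit 78) (nat_lit 0) (nat_lit 0) (XT.lf (nat_lit 0) (nat_lit 11414322392) (nat_lit 152) (nat_lit 144944461800) (nat_lit 76) (nat_lit 227713686257) (nat_lit 9) (nat_lit 5) (nat_lit 11) (nat_lit 5) (nat_lit 10) (nat_lit 4) (nat_lit 377) (nat_lit 299) (nat_lit 104)) (XT.lf (nat_lit 0) (nat_lit 50769586093) (nat_lit 152) (nat_lit 64266762907) (nat_lit 76) (nat_lit 285882003306) (nat_lit 9) (nat_lit 5) (nat_lit 11) (nat_lit 5) (nat_lit 10) (nat_lit 4) (nat_lit 378) (nat_lit 299) (nat_lit 103))))) (XT.nd (nat_lit 34476) (nat_lit 0) (nat_lit 6536) (XT.nd (nat_lit 78) (nat_lit 0) (nat_lit 0) (XT.lf (nat_lit 0) (nat_lit 21120196799) (nat_lit 76) (nat_lit 71301839647) (nat_lit 152) (nat_lit 326168020758) (nat_lit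 8) (nat_lit 5) (nat_lit 9) (nat_lit 5) (nat_lit 10) (nat_lit 4) (nat_lit 379) (nat_lit 299) (nat_lit 102)) (XT.lf (nat_lit 0) (nat_lit 113007108770) (nat_lit 76) (nat_lit 24238073361) (nat_lit 152) (nat_lit 299845761689) (nat_lit 8) (nat_lit 5) (nat_lit 9) (nat_lit 5) (nat_lit 10) (nat_lit 4) (nat_lit 380) (nat_lit 299) (nat_lit 101))) (XT.nd (nat_lit 78) (nat_lit 0) (nat_lit 0) (XT.lf (nat_lit 0) (nat_lit 6278834099) (nat_lit 0) (nat_lit 6278834099) (nat_lit 684) (nat_lit 1847096716) (nat_lit 94) (nat_lit 5) (nat_lit 94) (nat_lit 3) (nat_lit 103) (nat_lit 3) (nat_lit 300) (nat_lit 300) (nat_lit 180)) (XT.nd (nat_lit 78) (nat_lit 0) (nat_lit 0) (XT.lf (nat_lit 0) (nat_lit 25827939848) (nat_lit 684) (nat_lit 3053388724) (nat_lit 760) (nat_lit 644071459) (nat_lit 94) (nat_lit 5) (nat_lit 103) (nat_lit 3) (nat_lit 104) (nat_lit 5) (nat_lit 301) (nat_lit 300) (nat_lit 179)) (XT.lf (nat_lit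 76) (nat_lit 10946849372) (nat_lit 0) (nat_lit 16001377489) (nat_lit 760) (nat_lit 3310242664) (nat_lit 95) (nat_lit 5) (nat_lit 94) (nat_lit 5) (nat_lit 104) (nat_lit 5) (nat_lit 302) (nat_lit 300) (nat_lit 178)))))) (XT.nd (nat_lit 390) (nat_lit 380) (nat_lit 0) (XT.nd (nat_lit 156) (nat_lit 608) (nat_lit 0) (XT.nd (nat_lit 78) (nat_lit 0) (nat_lit 76) (XT.lf (nat_lit 76) (nat_lit 25750486495) (nat_lit 0) (nat_lit 2421215238) (nat_lit 760) (nat_lit 2854140136) (nat_lit 95) (nat_lit 5) (nat_lit 94) (nat_lit 5) (nat_lit 104) (nat_lit 5) (nat_lit 303) (nat_lit 300) (nat_lit 177)) (XT.lf (nat_lit 76) (nat_lit 9581830269) (nat_lit 0) (nat_lit 20204650413) (nat_lit 760) (nat_lit 2028603297) (nat_lit 96) (nat_lit 5) (nat_lit 95) (nat_lit 5) (nat_lit 105) (nat_lit 5) (nat_lit 304) (nat_lit 300) (nat_lit 176))) (XT.nd (nat_lit 78) (nat_lit 684) (nat_lit 0) (XT.lf (nat_lit 76) (nat_lit 25321316351)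 (nat_lit 0) (nat_lit 6284944447) (nat_lit 760) (nat_lit 1031321588) (nat_lit 96) (nat_lit 5) (nat_lit 95) (nat_lit 5) (nat_lit 105) (nat_lit 5) (nat_lit 305) (nat_lit 300) (nat_lit 175)) (XT.nd (nat_lit 78) (nat_lit 0) (nat_lit 0) (XT.lf (nat_lit 0) (nat_lit 278183889) (nat_lit 760) (nat_lit 25007479904) (nat_lit 836) (nat_lit 8202392881) (nat_lit 86) (nat_lit 5) (nat_lit 96) (nat_lit 5) (nat_lit 97) (nat_lit 5) (nat_lit 306) (nat_lit 300) (nat_lit 174)) (XT.lf (nat_lit 0) (nat_lit 1843635761) (nat_lit 760) (nat_lit 9178450524) (nat_lit 836) (nat_lit 23346872840) (nat_lit 86) (nat_lit 5) (nat_lit 96) (nat_lit 5) (nat_lit 97) (nat_lit 5) (nat_lit 307) (nat_lit 300) (nat_lit 173))))) (XT.nd (nat_lit 234) (nat_lit 456) (nat_lit 0) (XT.nd (nat_lit 78) (nat_lit 0) (nat_lit 0) (XT.lf (nat_lit 0) (nat_lit 3667418676) (nat_lit 760) (nat_lit 27666563648) (nat_lit 836) (nat_lit 3950927458) (nat_lit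 87) (nat_lit 5) (nat_lit 97) (nat_lit 5) (nat_lit 98) (nat_lit 5) (nat_lit 308) (nat_lit 300) (nat_lit 172)) (XT.nd (nat_lit 78) (nat_lit 0) (nat_lit 0) (XT.lf (nat_lit 0) (nat_lit 5917560369) (nat_lit 760) (nat_lit 10851386173) (nat_lit 836) (nat_lit 19460958669) (nat_lit 87) (nat_lit 5) (nat_lit 97) (nat_lit 5) (nat_lit 98) (nat_lit 5) (nat_lit 309) (nat_lit 300) (nat_lit 171)) (XT.lf (nat_lit 76) (nat_lit 7026686287) (nat_lit 0) (nat_lit 1359886240) (nat_lit 836) (nat_lit 28830265164) (nat_lit 88) (nat_lit 5) (nat_lit 87) (nat_lit 5) (nat_lit 98) (nat_lit 5) (nat_lit 310) (nat_lit 300) (nat_lit 170)))) (XT.nd (nat_lit 78) (nat_lit 532) (nat_lit 0) (XT.lf (nat_lit 0) (nat_lit 11393979184) (nat_lit 760) (nat_lit 12305810346) (nat_lit 76) (nat_lit 14532585260) (nat_lit 88) (nat_lit 5) (nat_lit 98) (nat_lit 5) (nat_lit 89) (nat_lit 5) (nat_lit 311) (nat_lit 300) (nat_lit 169)) (XT.nd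 (nat_lit 78) (nat_lit 0) (nat_lit 0) (XT.lf (nat_lit 0) (nat_lit 6660890717) (nat_lit 532) (nat_lit 8014088914) (nat_lit 608) (nat_lit 24617552882) (nat_lit 81) (nat_lit 5) (nat_lit 88) (nat_lit 5) (nat_lit 89) (nat_lit 5) (nat_lit 312) (nat_lit 300) (nat_lit 168)) (XT.lf (nat_lit 0) (nat_lit 18460914319) (nat_lit 608) (nat_lit 13530424033) (nat_lit 76) (nat_lit 8397320266) (nat_lit 81) (nat_lit 5) (nat_lit 89) (nat_lit 5) (nat_lit 82) (nat_lit 5) (nat_lit 313) (nat_lit 300) (nat_lit 167))))))))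
noncomputable def xc209 : XT := (XT.nd (nat_lit 1560) (nat_lit 1672) (nat_lit 0) (XT.nd (nat_lit 780) (nat_lit 1216) (nat_lit 0) (XT.nd (nat_lit 390) (nat_lit 684) (nat_lit 0) (XT.nd (nat_lit 156) (nat_lit 608) (nat_lit 0) (XT.nd (nat_lit 78) (nat_lit 0) (nat_lit 0) (XT.lf (nat_lit 0) (nat_lit 6603086384) (nat_lit 380) (nat_lit 16064714020) (nat_lit 456) (nat_lit 18860212373) (nat_lit 76) (nat_lit 5) (nat_lit 81) (nat_lit 5) (nat_lit 82) (nat_lit 5) (nat_lit 314) (nat_lit 300) (nat_lit 166)) (XT.lf (nat_lit 0) (nat_lit 27325484796) (nat_lit 456) (nat_lit 14516719587) (nat_lit 76) (nat_lit 870111830) (nat_lit 76) (nat_lit 5) (nat_lit 82) (nat_lit 5) (nat_lit 77) (nat_lit 5) (nat_lit 315) (nat_lit 300) (nat_lit 165))) (XT.nd (nat_lit 78) (nat_lit 304) (nat_lit 0) (XT.lf (nat_lit 0) (nat_lit 6865591205) (nat_lit 304) (nat_lit 25718415255) (nat_lit 380) (nat_lit 11353434774) (nat_lit 72)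 (nat_lit 5) (nat_lit 76) (nat_lit 5) (nat_lit 77) (nat_lit 5) (nat_lit 316) (nat_lit 300) (nat_lit 164)) (XT.nd (nat_lit 78) (nat_lit 304) (nat_lit 0) (XT.lf (nat_lit 0) (nat_lit 29818356503) (nat_lit 304) (nat_lit 8530433514) (nat_lit 380) (nat_lit 6862869571) (nat_lit 72) (nat_lit 5) (nat_lit 76) (nat_lit 5) (nat_lit 77) (nat_lit 5) (nat_lit 317) (nat_lit 300) (nat_lit 163)) (XT.lf (nat_lit 0) (nat_lit 7456598823) (nat_lit 304) (nat_lit 37207824266) (nat_lit 380) (nat_lit 1872038941) (nat_lit 68) (nat_lit 5) (nat_lit 72) (nat_lit 5) (nat_lit 73) (nat_lit 5) (nat_lit 318) (nat_lit 300) (nat_lit 162))))) (XT.nd (nat_lit 156) (nat_lit 304) (nat_lit 0) (XT.nd (nat_lit 78) (nat_lit 304) (nat_lit 0) (XT.lf (nat_lit 0) (nat_lit 3662973054) (nat_lit 380) (nat_lit 16130442044) (nat_lit 76) (nat_lit 28111341009) (nat_lit 67) (nat_lit 5) (nat_lit 72) (nat_lit 5) (nat_lit 68) (nat_lit 5) (nat_lit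 319) (nat_lit 300) (nat_lit 161)) (XT.lf (nat_lit 0) (nat_lit 8195513679) (nat_lit 304) (nat_lit 1342014284) (nat_lit 380) (nat_lit 39796120397) (nat_lit 63) (nat_lit 5) (nat_lit 67) (nat_lit 5) (nat_lit 68) (nat_lit 5) (nat_lit 320) (nat_lit 300) (nat_lit 160))) (XT.nd (nat_lit 78) (nat_lit 304) (nat_lit 0) (XT.lf (nat_lit 0) (nat_lit 16262808013) (nat_lit 380) (nat_lit 16811175054) (nat_lit 76) (nat_lit 17732155323) (nat_lit 63) (nat_lit 5) (nat_lit 68) (nat_lit 5) (nat_lit 64) (nat_lit 5) (nat_lit 321) (nat_lit 300) (nat_lit 159)) (XT.nd (nat_lit 78) (nat_lit 0) (nat_lit 0) (XT.lf (nat_lit 0) (nat_lit 8995550202) (nat_lit 304) (nat_lit 14489164864) (nat_lit 380) (nat_lit 28859522595) (nat_lit 59) (nat_lit 5) (nat_lit 63) (nat_lit 5) (nat_lit 64) (nat_lit 5) (nat_lit 322) (nat_lit 300) (nat_lit 158)) (XT.lf (nat_lit 0) (nat_lit 31433513938) (nat_lit 380) (nat_lit 17354421586) (nat_lit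 76) (nat_lit 5153019299) (nat_lit 59) (nat_lit 5) (nat_lit 64) (nat_lit 5) (nat_lit 60) (nat_lit 5) (nat_lit 323) (nat_lit 300) (nat_lit 157)))))) (XT.nd (nat_lit 390) (nat_lit 456) (nat_lit 0) (XT.nd (nat_lit 156) (nat_lit 532) (nat_lit 0) (XT.nd (nat_lit 78) (nat_lit 0) (nat_lit 0) (XT.lf (nat_lit 0) (nat_lit 10020311661) (nat_lit 228) (nat_lit 30151481246) (nat_lit 304) (nat_lit 15426115550) (nat_lit 56) (nat_lit 5) (nat_lit 59) (nat_lit 5) (nat_lit 60) (nat_lit 5) (nat_lit 324) (nat_lit 300) (nat_lit 156)) (XT.lf (nat_lit 0) (nat_lit 39363895936) (nat_lit 228) (nat_lit 10275117798) (nat_lit 304) (nat_lit 7684097139) (nat_lit 56) (nat_lit 5) (nat_lit 59) (nat_lit 5) (nat_lit 60) (nat_lit 5) (nat_lit 325) (nat_lit 300) (nat_lit 155))) (XT.nd (nat_lit 78) (nat_lit 228) (nat_lit 0) (XT.lf (nat_lit 0) (nat_lit 775316036) (nat_lit 304) (nat_lit 47898339074) (nat_lit 76) (nat_lit 10443346295)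 (nat_lit 52) (nat_lit 5) (nat_lit 56) (nat_lit 5) (nat_lit 53) (nat_lit 5) (nat_lit 326) (nat_lit 300) (nat_lit 154)) (XT.nd (nat_lit 78) (nat_lit 228) (nat_lit 0) (XT.lf (nat_lit 0) (nat_lit 9875264953) (nat_lit 304) (nat_lit 18808226630) (nat_lit 76) (nat_lit 32287008540) (nat_lit 52) (nat_lit 5) (nat_lit 56) (nat_lit 5) (nat_lit 53) (nat_lit 5) (nat_lit 327) (nat_lit 300) (nat_lit 153)) (XT.lf (nat_lit 0) (nat_lit 12122102979) (nat_lit 228) (nat_lit 7495675527) (nat_lit 304) (nat_lit 43289518964) (nat_lit 49) (nat_lit 5) (nat_lit 52) (nat_lit 5) (nat_lit 53) (nat_lit 5) (nat_lit 328) (nat_lit 300) (nat_lit 152))))) (XT.nd (nat_lit 156) (nat_lit 228) (nat_lit 0) (XT.nd (nat_lit 78) (nat_lit 228) (nat_lit 0) (XT.lf (nat_lit 0) (nat_lit 30399822380) (nat_lit 304) (nat_lit 19910924579) (nat_lit 76) (nat_lit 14602569450) (nat_lit 49) (nat_lit 5) (nat_lit 53) (nat_lit 5) (nat_lit 50) (nat_lit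 5) (nat_lit 329) (nat_lit 300) (nat_lit 151)) (XT.lf (nat_lit 0) (nat_lit 12791383089) (nat_lit 228) (nat_lit 29250597226) (nat_lit 304) (nat_lit 24961607249) (nat_lit 46) (nat_lit 5) (nat_lit 49) (nat_lit 5) (nat_lit 50) (nat_lit 5) (nat_lit 330) (nat_lit 300) (nat_lit 150))) (XT.nd (nat_lit 78) (nat_lit 228) (nat_lit 0) (XT.lf (nat_lit 0) (nat_lit 47817904011) (nat_lit 228) (nat_lit 6784007202) (nat_lit 304) (nat_lit 14579679584) (nat_lit 46) (nat_lit 5) (nat_lit 49) (nat_lit 5) (nat_lit 50) (nat_lit 5) (nat_lit 331) (nat_lit 300) (nat_lit 149)) (XT.nd (nat_lit 78) (nat_lit 76) (nat_lit 0) (XT.lf (nat_lit 0) (nat_lit 13288042860) (nat_lit 152) (nat_lit 54970174502) (nat_lit 228) (nat_lit 3186859584) (nat_lit 44) (nat_lit 5) (nat_lit 46) (nat_lit 5) (nat_lit 47) (nat_lit 5) (nat_lit 332) (nat_lit 300) (nat_lit 148)) (XT.lf (nat_lit 0) (nat_lit 8972216274) (nat_lit 228) (nat_lit 23645887807)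 (nat_lit 76) (nat_lit 41172909821) (nat_lit 43) (nat_lit 5) (nat_lit 46) (nat_lit 5) (nat_lit 44) (nat_lit 5) (nat_lit 333) (nat_lit 300) (nat_lit 147))))))) (XT.nd (nat_lit 780) (nat_lit 760) (nat_lit 0) (XT.nd (nat_lit 390) (nat_lit 380) (nat_lit 0) (XT.nd (nat_lit 156) (nat_lit 304) (nat_lit 0) (XT.nd (nat_lit 78) (nat_lit 0) (nat_lit 0) (XT.lf (nat_lit 0) (nat_lit 12951046170) (nat_lit 228) (nat_lit 8881912106) (nat_lit 304) (nat_lit 54408638123) (nat_lit 40) (nat_lit 5) (nat_lit 43) (nat_lit 5) (nat_lit 44) (nat_lit 5) (nat_lit 334) (nat_lit 300) (nat_lit 146)) (XT.lf (nat_lit 0) (nat_lit 35992837415) (nat_lit 304) (nat_lit 26855004260) (nat_lit 76) (nat_lit 15934062735) (nat_lit 40) (nat_lit 5) (nat_lit 44) (nat_lit 5) (nat_lit 41) (nat_lit 5) (nat_lit 335) (nat_lit 300) (nat_lit 145))) (XT.nd (nat_lit 78) (nat_lit 152) (nat_lit 0) (XT.lf (nat_lit 0) (nat_lit 11626878567) (nat_lit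 152) (nat_lit 39559664544) (nat_lit 228) (nat_lit 30246394403) (nat_lit 38) (nat_lit 5) (nat_lit 40) (nat_lit 5) (nat_lit 41) (nat_lit 5) (nat_lit 336) (nat_lit 300) (nat_lit 144)) (XT.nd (nat_lit 78) (nat_lit 152) (nat_lit 0) (XT.lf (nat_lit 0) (nat_lit 52963264336) (nat_lit 152) (nat_lit 14630203280) (nat_lit 228) (nat_lit 16600379242) (nat_lit 38) (nat_lit 5) (nat_lit 40) (nat_lit 5) (nat_lit 41) (nat_lit 5) (nat_lit 337) (nat_lit 300) (nat_lit 143)) (XT.lf (nat_lit 0) (nat_lit 9392117100) (nat_lit 152) (nat_lit 75754301271) (nat_lit 228) (nat_lit 1930100498) (nat_lit 36) (nat_lit 5) (nat_lit 38) (nat_lit 5) (nat_lit 39) (nat_lit 5) (nat_lit 338) (nat_lit 300) (nat_lit 142))))) (XT.nd (nat_lit 156) (nat_lit 152) (nat_lit 0) (XT.nd (nat_lit 78) (nat_lit 152) (nat_lit 0) (XT.lf (nat_lit 0) (nat_lit 13818654716) (nat_lit 228) (nat_lit 37407450620) (nat_lit 76) (nat_lit 38827891887) (nat_lit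 35) (nat_lit 5) (nat_lit 38) (nat_lit 5) (nat_lit 36) (nat_lit 5) (nat_lit 339) (nat_lit 300) (nat_lit 141)) (XT.lf (nat_lit 0) (nat_lit 5010250857) (nat_lit 152) (nat_lit 25356804313) (nat_lit 228) (nat_lit 62807859736) (nat_lit 33) (nat_lit 5) (nat_lit 35) (nat_lit 5) (nat_lit 36) (nat_lit 5) (nat_lit 340) (nat_lit 300) (nat_lit 140))) (XT.nd (nat_lit 78) (nat_lit 152) (nat_lit 0) (XT.lf (nat_lit 0) (nat_lit 48413834649) (nat_lit 228) (nat_lit 45613077993) (nat_lit 76) (nat_lit 2391418870) (nat_lit 33) (nat_lit 5) (nat_lit 36) (nat_lit 5) (nat_lit 34) (nat_lit 5) (nat_lit 341) (nat_lit 300) (nat_lit 139)) (XT.nd (nat_lit 78) (nat_lit 152) (nat_lit 0) (XT.lf (nat_lit 0) (nat_lit 67777556641) (nat_lit 228) (nat_lit 1351343875) (nat_lit 76) (nat_lit 30674289196) (nat_lit 33) (nat_lit 5) (nat_lit 36) (nat_lit 5) (nat_lit 34) (nat_lit 5) (nat_lit 342) (nat_lit 300) (nat_lit 138)) (XT.lf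 (nat_lit 0) (nat_lit 46613745115) (nat_lit 152) (nat_lit 42222460550) (nat_lit 228) (nat_lit 14484749006) (nat_lit 31) (nat_lit 5) (nat_lit 33) (nat_lit 5) (nat_lit 34) (nat_lit 5) (nat_lit 343) (nat_lit 300) (nat_lit 137)))))) (XT.nd (nat_lit 390) (nat_lit 380) (nat_lit 0) (XT.nd (nat_lit 156) (nat_lit 152) (nat_lit 0) (XT.nd (nat_lit 78) (nat_lit 152) (nat_lit 0) (XT.lf (nat_lit 0) (nat_lit 3829529725) (nat_lit 228) (nat_lit 10052913196) (nat_lit 76) (nat_lit 93127983533) (nat_lit 30) (nat_lit 5) (nat_lit 33) (nat_lit 5) (nat_lit 31) (nat_lit 5) (nat_lit 344) (nat_lit 300) (nat_lit 136)) (XT.lf (nat_lit 0) (nat_lit 23457839352) (nat_lit 228) (nat_lit 71128818846) (nat_lit 76) (nat_lit 16241586682) (nat_lit 28) (nat_lit 5) (nat_lit 31) (nat_lit 5) (nat_lit 29) (nat_lit 5) (nat_lit 345) (nat_lit 300) (nat_lit 135))) (XT.nd (nat_lit 78) (nat_lit 152) (nat_lit 0) (XT.lf (nat_lit 0) (nat_lit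 44467224577) (nat_lit 228) (nat_lit 22772021305) (nat_lit 76) (nat_lit 47577726077) (nat_lit 28) (nat_lit 5) (nat_lit 31) (nat_lit 5) (nat_lit 29) (nat_lit 5) (nat_lit 346) (nat_lit 300) (nat_lit 134)) (XT.nd (nat_lit 78) (nat_lit 0) (nat_lit 0) (XT.lf (nat_lit 0) (nat_lit 28926930672) (nat_lit 152) (nat_lit 38050861834) (nat_lit 228) (nat_lit 52004807917) (nat_lit 26) (nat_lit 5) (nat_lit 28) (nat_lit 5) (nat_lit 29) (nat_lit 5) (nat_lit 347) (nat_lit 300) (nat_lit 133)) (XT.lf (nat_lit 0) (nat_lit 83999920176) (nat_lit 152) (nat_lit 6998727039) (nat_lit 228) (nat_lit 32338625843) (nat_lit 26) (nat_lit 5) (nat_lit 28) (nat_lit 5) (nat_lit 29) (nat_lit 5) (nat_lit 348) (nat_lit 300) (nat_lit 132))))) (XT.nd (nat_lit 234) (nat_lit 228) (nat_lit 0) (XT.nd (nat_lit 78) (nat_lit 76) (nat_lit 0) (XT.lf (nat_lit 0) (nat_lit 13962520047) (nat_lit 76) (nat_lit 102874937200) (nat_lit 152) (nat_lit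 11041377084) (nat_lit 25) (nat_lit 5) (nat_lit 26) (nat_lit 5) (nat_lit 27) (nat_lit 4) (nat_lit 349) (nat_lit 300) (nat_lit 131)) (XT.nd (nat_lit 78) (nat_lit 0) (nat_lit 0) (XT.lf (nat_lit 0) (nat_lit 11749392544) (nat_lit 152) (nat_lit 61624947313) (nat_lit 76) (nat_lit 59224747340) (nat_lit 24) (nat_lit 5) (nat_lit 26) (nat_lit 5) (nat_lit 25) (nat_lit 5) (nat_lit 350) (nat_lit 300) (nat_lit 130)) (XT.lf (nat_lit 0) (nat_lit 35307819908) (nat_lit 152) (nat_lit 6901419420) (nat_lit 76) (nat_lit 95337104521) (nat_lit 24) (nat_lit 5) (nat_lit 26) (nat_lit 5) (nat_lit 25) (nat_lit 5) (nat_lit 351) (nat_lit 300) (nat_lit 129)))) (XT.nd (nat_lit 78) (nat_lit 76) (nat_lit 0) (XT.lf (nat_lit 0) (nat_lit 52228591446) (nat_lit 152) (nat_lit 8630232761) (nat_lit 228) (nat_lit 81841406874) (nat_lit 22) (nat_lit 5) (nat_lit 24) (nat_lit 5) (nat_lit 25) (nat_lit 5) (nat_lit 352) (nat_lit 300)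 (nat_lit 128)) (XT.nd (nat_lit 78) (nat_lit 76) (nat_lit 0) (XT.lf (nat_lit 0) (nat_lit 88221135934) (nat_lit 228) (nat_lit 33970256645) (nat_lit 76) (nat_lit 25893732732) (nat_lit 22) (nat_lit 5) (nat_lit 25) (nat_lit 5) (nat_lit 23) (nat_lit 4) (nat_lit 353) (nat_lit 300) (nat_lit 127)) (XT.lf (nat_lit 0) (nat_lit 26047107296) (nat_lit 76) (nat_lit 91451869127) (nat_lit 152) (nat_lit 36212917648) (nat_lit 21) (nat_lit 5) (nat_lit 22) (nat_lit 5) (nat_lit 23) (nat_lit 4) (nat_lit 354) (nat_lit 300) (nat_lit 126))))))))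
noncomputable def xc210 : XT := (XT.nd (nat_lit 1560) (nat_lit 152) (nat_lit 0) (XT.nd (nat_lit 780) (nat_lit 304) (nat_lit 0) (XT.nd (nat_lit 390) (nat_lit 152) (nat_lit 0) (XT.nd (nat_lit 156) (nat_lit 228) (nat_lit 0) (XT.nd (nat_lit 78) (nat_lit 76) (nat_lit 0) (XT.lf (nat_lit 0) (nat_lit 90243451597) (nat_lit 76) (nat_lit 58571841005) (nat_lit 152) (nat_lit 10775979934) (nat_lit 21) (nat_lit 5) (nat_lit 22) (nat_lit 5) (nat_lit 23) (nat_lit 4) (nat_lit 355) (nat_lit 300) (nat_lit 125)) (XT.lf (nat_lit 0) (nat_lit 15422158944) (nat_lit 152) (nat_lit 8364984500) (nat_lit 76) (nat_lit 141965073929) (nat_lit 20) (nat_lit 5) (nat_lit 22) (nat_lit 5) (nat_lit 21) (nat_lit 5) (nat_lit 356) (nat_lit 300) (nat_lit 124))) (XT.nd (nat_lit 78) (nat_lit 76) (nat_lit 0) (XT.lf (nat_lit 0) (nat_lit 43678801621) (nat_lit 228) (nat_lit 115060180670) (nat_lit 76) (nat_lit 13417857759) (nat_lit 18)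 (nat_lit 5) (nat_lit 21) (nat_lit 5) (nat_lit 19) (nat_lit 4) (nat_lit 357) (nat_lit 300) (nat_lit 123)) (XT.nd (nat_lit 78) (nat_lit 76) (nat_lit 0) (XT.lf (nat_lit 0) (nat_lit 73881559711) (nat_lit 228) (nat_lit 53146257442) (nat_lit 76) (nat_lit 51827212915) (nat_lit 18) (nat_lit 5) (nat_lit 21) (nat_lit 5) (nat_lit 19) (nat_lit 4) (nat_lit 358) (nat_lit 300) (nat_lit 122)) (XT.lf (nat_lit 0) (nat_lit 12254467028) (nat_lit 76) (nat_lit 93530689222) (nat_lit 152) (nat_lit 80093438665) (nat_lit 17) (nat_lit 5) (nat_lit 18) (nat_lit 5) (nat_lit 19) (nat_lit 4) (nat_lit 359) (nat_lit 300) (nat_lit 121))))) (XT.nd (nat_lit 156) (nat_lit 152) (nat_lit 0) (XT.nd (nat_lit 78) (nat_lit 0) (nat_lit 0) (XT.lf (nat_lit 0) (nat_lit 82769249353) (nat_lit 76) (nat_lit 57414127513) (nat_lit 152) (nat_lit 53024989263) (nat_lit 17) (nat_lit 5) (nat_lit 18) (nat_lit 5) (nat_lit 19) (nat_lit 4) (nat_lit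 360) (nat_lit 300) (nat_lit 120)) (XT.lf (nat_lit 0) (nat_lit 156808726585) (nat_lit 76) (nat_lit 19492197799) (nat_lit 152) (nat_lit 24603731049) (nat_lit 17) (nat_lit 5) (nat_lit 18) (nat_lit 5) (nat_lit 19) (nat_lit 4) (nat_lit 361) (nat_lit 300) (nat_lit 119))) (XT.nd (nat_lit 78) (nat_lit 0) (nat_lit 0) (XT.lf (nat_lit 0) (nat_lit 5806765114) (nat_lit 152) (nat_lit 182962409976) (nat_lit 76) (nat_lit 20175702818) (nat_lit 15) (nat_lit 5) (nat_lit 17) (nat_lit 5) (nat_lit 16) (nat_lit 4) (nat_lit 362) (nat_lit 300) (nat_lit 118)) (XT.nd (nat_lit 78) (nat_lit 0) (nat_lit 0) (XT.lf (nat_lit 0) (nat_lit 37988950625) (nat_lit 152) (nat_lit 116990221271) (nat_lit 76) (nat_lit 62333872334) (nat_lit 15) (nat_lit 5) (nat_lit 17) (nat_lit 5) (nat_lit 16) (nat_lit 4) (nat_lit 363) (nat_lit 300) (nat_lit 117)) (XT.lf (nat_lit 0) (nat_lit 71779710867) (nat_lit 152) (nat_lit 47720392862) (nat_lit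 76) (nat_lit 106599542129) (nat_lit 15) (nat_lit 5) (nat_lit 17) (nat_lit 5) (nat_lit 16) (nat_lit 4) (nat_lit 364) (nat_lit 300) (nat_lit 116)))))) (XT.nd (nat_lit 390) (nat_lit 152) (nat_lit 0) (XT.nd (nat_lit 156) (nat_lit 76) (nat_lit 0) (XT.nd (nat_lit 78) (nat_lit 0) (nat_lit 0) (XT.lf (nat_lit 0) (nat_lit 25839013202) (nat_lit 76) (nat_lit 81823906239) (nat_lit 152) (nat_lit 127642512865) (nat_lit 14) (nat_lit 5) (nat_lit 15) (nat_lit 5) (nat_lit 16) (nat_lit 4) (nat_lit 365) (nat_lit 300) (nat_lit 115)) (XT.lf (nat_lit 0) (nat_lit 104732225196) (nat_lit 76) (nat_lit 41415732157) (nat_lit 152) (nat_lit 98783167517) (nat_lit 14) (nat_lit 5) (nat_lit 15) (nat_lit 5) (nat_lit 16) (nat_lit 4) (nat_lit 366) (nat_lit 300) (nat_lit 114))) (XT.nd (nat_lit 78) (nat_lit 76) (nat_lit 0) (XT.lf (nat_lit 0) (nat_lit 186572579236) (nat_lit 152) (nat_lit 67484700999) (nat_lit 0) (nat_lit 980055450)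 (nat_lit 14) (nat_lit 5) (nat_lit 16) (nat_lit 4) (nat_lit 14) (nat_lit 4) (nat_lit 367) (nat_lit 300) (nat_lit 113)) (XT.nd (nat_lit 78) (nat_lit 0) (nat_lit 0) (XT.lf (nat_lit 0) (nat_lit 8456066901) (nat_lit 76) (nat_lit 221372876204) (nat_lit 76) (nat_lit 35779388612) (nat_lit 13) (nat_lit 4) (nat_lit 14) (nat_lit 5) (nat_lit 14) (nat_lit 4) (nat_lit 368) (nat_lit 300) (nat_lit 112)) (XT.lf (nat_lit 0) (nat_lit 90535961971) (nat_lit 76) (nat_lit 185854599731) (nat_lit 76) (nat_lit 260194228) (nat_lit 13) (nat_lit 4) (nat_lit 14) (nat_lit 5) (nat_lit 14) (nat_lit 4) (nat_lit 369) (nat_lit 300) (nat_lit 111))))) (XT.nd (nat_lit 156) (nat_lit 76) (nat_lit 0) (XT.nd (nat_lit 78) (nat_lit 0) (nat_lit 0) (XT.lf (nat_lit 0) (nat_lit 35849174535) (nat_lit 152) (nat_lit 112104471904) (nat_lit 76) (nat_lit 140262765893) (nat_lit 12) (nat_lit 5) (nat_lit 14) (nat_lit 5) (nat_lit 13) (nat_lit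 4) (nat_lit 370) (nat_lit 300) (nat_lit 110)) (XT.lf (nat_lit 0) (nat_lit 73754852901) (nat_lit 152) (nat_lit 34398663825) (nat_lit 76) (nat_lit 192206642464) (nat_lit 12) (nat_lit 5) (nat_lit 14) (nat_lit 5) (nat_lit 13) (nat_lit 4) (nat_lit 371) (nat_lit 300) (nat_lit 109))) (XT.nd (nat_lit 78) (nat_lit 0) (nat_lit 0) (XT.lf (nat_lit 0) (nat_lit 48752077406) (nat_lit 76) (nat_lit 65564499474) (nat_lit 152) (nat_lit 198756478597) (nat_lit 11) (nat_lit 5) (nat_lit 12) (nat_lit 5) (nat_lit 13) (nat_lit 4) (nat_lit 372) (nat_lit 300) (nat_lit 108)) (XT.nd (nat_lit 78) (nat_lit 0) (nat_lit 0) (XT.lf (nat_lit 0) (nat_lit 137253883187) (nat_lit 76) (nat_lit 20234674644) (nat_lit 152) (nat_lit 168903930371) (nat_lit 11) (nat_lit 5) (nat_lit 12) (nat_lit 5) (nat_lit 13) (nat_lit 4) (nat_lit 373) (nat_lit 300) (nat_lit 107)) (XT.lf (nat_lit 0) (nat_lit 203245956034) (nat_lit 152) (nat_lit 110625001238)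 (nat_lit 0) (nat_lit 26485594535) (nat_lit 11) (nat_lit 5) (nat_lit 13) (nat_lit 4) (nat_lit 11) (nat_lit 4) (nat_lit 374) (nat_lit 300) (nat_lit 106))))))) (XT.nd (nat_lit 35256) (nat_lit 0) (nat_lit 5092) (XT.nd (nat_lit 34866) (nat_lit 0) (nat_lit 6460) (XT.nd (nat_lit 156) (nat_lit 76) (nat_lit 0) (XT.nd (nat_lit 78) (nat_lit 76) (nat_lit 0) (XT.lf (nat_lit 0) (nat_lit 251622584221) (nat_lit 152) (nat_lit 28518096135) (nat_lit 0) (nat_lit 74861570380) (nat_lit 11) (nat_lit 5) (nat_lit 13) (nat_lit 4) (nat_lit 11) (nat_lit 4) (nat_lit 375) (nat_lit 300) (nat_lit 105)) (XT.lf (nat_lit 0) (nat_lit 59601131322) (nat_lit 76) (nat_lit 243747114232) (nat_lit 76) (nat_lit 66985479113) (nat_lit 10) (nat_lit 4) (nat_lit 11) (nat_lit 5) (nat_lit 11) (nat_lit 4) (nat_lit 376) (nat_lit 300) (nat_lit 104))) (XT.nd (nat_lit 78) (nat_lit 76) (nat_lit 0) (XT.lf (nat_lit 0) (nat_lit 153115782918)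 (nat_lit 76) (nat_lit 205027042279) (nat_lit 76) (nat_lit 28264815466) (nat_lit 10) (nat_lit 4) (nat_lit 11) (nat_lit 5) (nat_lit 11) (nat_lit 4) (nat_lit 377) (nat_lit 300) (nat_lit 103)) (XT.nd (nat_lit 78) (nat_lit 0) (nat_lit 0) (XT.lf (nat_lit 0) (nat_lit 11994941775) (nat_lit 152) (nat_lit 152173159689) (nat_lit 76) (nat_lit 239107493617) (nat_lit 9) (nat_lit 5) (nat_lit 11) (nat_lit 5) (nat_lit 10) (nat_lit 4) (nat_lit 378) (nat_lit 300) (nat_lit 102)) (XT.lf (nat_lit 0) (nat_lit 53317497077) (nat_lit 152) (nat_lit 67462458003) (nat_lit 76) (nat_lit 300183839707) (nat_lit 9) (nat_lit 5) (nat_lit 11) (nat_lit 5) (nat_lit 10) (nat_lit 4) (nat_lit 379) (nat_lit 300) (nat_lit 101))))) (XT.nd (nat_lit 156) (nat_lit 0) (nat_lit 0) (XT.nd (nat_lit 78) (nat_lit 0) (nat_lit 0) (XT.lf (nat_lit 0) (nat_lit 6629361436) (nat_lit 0) (nat_lit 6629361436) (nat_lit 684) (nat_lit 1862491745) (nat_lit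 94) (nat_lit 5) (nat_lit 94) (nat_lit 3) (nat_lit 103) (nat_lit 3) (nat_lit 301) (nat_lit 301) (nat_lit 178)) (XT.lf (nat_lit 0) (nat_lit 27257622666) (nat_lit 684) (nat_lit 3128066961) (nat_lit 760) (nat_lit 608818531) (nat_lit 94) (nat_lit 5) (nat_lit 103) (nat_lit 3) (nat_lit 104) (nat_lit 5) (nat_lit 302) (nat_lit 301) (nat_lit 177))) (XT.nd (nat_lit 78) (nat_lit 0) (nat_lit 0) (XT.lf (nat_lit 76) (nat_lit 11570925117) (nat_lit 0) (nat_lit 16857611895) (nat_lit 760) (nat_lit 3335975256) (nat_lit 95) (nat_lit 5) (nat_lit 94) (nat_lit 5) (nat_lit 104) (nat_lit 5) (nat_lit 303) (nat_lit 301) (nat_lit 176)) (XT.nd (nat_lit 78) (nat_lit 0) (nat_lit 76) (XT.lf (nat_lit 76) (nat_lit 27111090131) (nat_lit 0) (nat_lit 2595766981) (nat_lit 760) (nat_lit 2863723771) (nat_lit 95) (nat_lit 5) (nat_lit 94) (nat_lit 5) (nat_lit 104) (nat_lit 5) (nat_lit 304) (nat_lit 301) (nat_lit 175)) (XT.lf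 (nat_lit 76) (nat_lit 10140091454) (nat_lit 0) (nat_lit 21256697084) (nat_lit 760) (nat_lit 2002786578) (nat_lit 96) (nat_lit 5) (nat_lit 95) (nat_lit 5) (nat_lit 105) (nat_lit 5) (nat_lit 305) (nat_lit 301) (nat_lit 174)))))) (XT.nd (nat_lit 390) (nat_lit 760) (nat_lit 0) (XT.nd (nat_lit 156) (nat_lit 0) (nat_lit 0) (XT.nd (nat_lit 78) (nat_lit 684) (nat_lit 0) (XT.lf (nat_lit 76) (nat_lit 26662781856) (nat_lit 0) (nat_lit 6639014669) (nat_lit 760) (nat_lit 961700159) (nat_lit 96) (nat_lit 5) (nat_lit 95) (nat_lit 5) (nat_lit 105) (nat_lit 5) (nat_lit 306) (nat_lit 301) (nat_lit 173)) (XT.lf (nat_lit 0) (nat_lit 404493890) (nat_lit 760) (nat_lit 26173288773) (nat_lit 836) (nat_lit 8578872055) (nat_lit 86) (nat_lit 5) (nat_lit 96) (nat_lit 5) (nat_lit 97) (nat_lit 5) (nat_lit 307) (nat_lit 301) (nat_lit 172))) (XT.nd (nat_lit 78) (nat_lit 0) (nat_lit 76) (XT.lf (nat_lit 0) (nat_lit 2042865936)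 (nat_lit 760) (nat_lit 9556834835) (nat_lit 836) (nat_lit 24482177938) (nat_lit 86) (nat_lit 5) (nat_lit 96) (nat_lit 5) (nat_lit 97) (nat_lit 5) (nat_lit 308) (nat_lit 301) (nat_lit 171)) (XT.nd (nat_lit 78) (nat_lit 0) (nat_lit 0) (XT.lf (nat_lit 0) (nat_lit 3953603694) (nat_lit 760) (nat_lit 28964951737) (nat_lit 836) (nat_lit 4125291562) (nat_lit 87) (nat_lit 5) (nat_lit 97) (nat_lit 5) (nat_lit 98) (nat_lit 5) (nat_lit 309) (nat_lit 301) (nat_lit 170)) (XT.lf (nat_lit 0) (nat_lit 6311356563) (nat_lit 760) (nat_lit 11313060154) (nat_lit 836) (nat_lit 20411928252) (nat_lit 87) (nat_lit 5) (nat_lit 97) (nat_lit 5) (nat_lit 98) (nat_lit 5) (nat_lit 310) (nat_lit 301) (nat_lit 169))))) (XT.nd (nat_lit 234) (nat_lit 380) (nat_lit 0) (XT.nd (nat_lit 78) (nat_lit 456) (nat_lit 0) (XT.lf (nat_lit 76) (nat_lit 7457611165) (nat_lit 0) (nat_lit 1442788025) (nat_lit 836) (nat_lit 30172403489)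 (nat_lit 88) (nat_lit 5) (nat_lit 87) (nat_lit 5) (nat_lit 98) (nat_lit 5) (nat_lit 311) (nat_lit 301) (nat_lit 168)) (XT.nd (nat_lit 78) (nat_lit 532) (nat_lit 0) (XT.lf (nat_lit 0) (nat_lit 12053454609) (nat_lit 760) (nat_lit 12840433999) (nat_lit 76) (nat_lit 15245471342) (nat_lit 88) (nat_lit 5) (nat_lit 98) (nat_lit 5) (nat_lit 89) (nat_lit 5) (nat_lit 312) (nat_lit 301) (nat_lit 167)) (XT.lf (nat_lit 0) (nat_lit 7073301038) (nat_lit 532) (nat_lit 8422168093) (nat_lit 608) (nat_lit 25757215119) (nat_lit 81) (nat_lit 5) (nat_lit 88) (nat_lit 5) (nat_lit 89) (nat_lit 5) (nat_lit 313) (nat_lit 301) (nat_lit 166)))) (XT.nd (nat_lit 78) (nat_lit 380) (nat_lit 0) (XT.lf (nat_lit 0) (nat_lit 19466460395) (nat_lit 608) (nat_lit 14126987315) (nat_lit 76) (nat_lit 8810387522) (nat_lit 81) (nat_lit 5) (nat_lit 89) (nat_lit 5) (nat_lit 82) (nat_lit 5) (nat_lit 314) (nat_lit 301) (nat_lit 165))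 (XT.nd (nat_lit 78) (nat_lit 0) (nat_lit 0) (XT.lf (nat_lit 0) (nat_lit 7011908979) (nat_lit 380) (nat_lit 16869081449) (nat_lit 456) (nat_lit 19719307942) (nat_lit 76) (nat_lit 5) (nat_lit 81) (nat_lit 5) (nat_lit 82) (nat_lit 5) (nat_lit 315) (nat_lit 301) (nat_lit 164)) (XT.lf (nat_lit 0) (nat_lit 28767742211) (nat_lit 456) (nat_lit 15163697480) (nat_lit 76) (nat_lit 912574083) (nat_lit 76) (nat_lit 5) (nat_lit 82) (nat_lit 5) (nat_lit 77) (nat_lit 5) (nat_lit 316) (nat_lit 301) (nat_lit 163))))))))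
noncomputable def xc211 : XT := (XT.nd (nat_lit 1638) (nat_lit 1520) (nat_lit 0) (XT.nd (nat_lit 780) (nat_lit 1368) (nat_lit 0) (XT.nd (nat_lit 390) (nat_lit 532) (nat_lit 0) (XT.nd (nat_lit 156) (nat_lit 684) (nat_lit 0) (XT.nd (nat_lit 78) (nat_lit 0) (nat_lit 0) (XT.lf (nat_lit 0) (nat_lit 7286456947) (nat_lit 304) (nat_lit 27000326103) (nat_lit 380) (nat_lit 11843738012) (nat_lit 72) (nat_lit 5) (nat_lit 76) (nat_lit 5) (nat_lit 77) (nat_lit 5) (nat_lit 317) (nat_lit 301) (nat_lit 162)) (XT.lf (nat_lit 0) (nat_lit 31383165930) (nat_lit 304) (nat_lit 8953136223) (nat_lit 380) (nat_lit 7132328764) (nat_lit 72) (nat_lit 5) (nat_lit 76) (nat_lit 5) (nat_lit 77) (nat_lit 5) (nat_lit 318) (nat_lit 301) (nat_lit 161))) (XT.nd (nat_lit 78) (nat_lit 380) (nat_lit 0) (XT.lf (nat_lit 0) (nat_lit 7905623302) (nat_lit 304) (nat_lit 39060003180) (nat_lit 380) (nat_lit 1894156662) (nat_lit 68)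 (nat_lit 5) (nat_lit 72) (nat_lit 5) (nat_lit 73) (nat_lit 5) (nat_lit 319) (nat_lit 301) (nat_lit 160)) (XT.nd (nat_lit 78) (nat_lit 304) (nat_lit 0) (XT.lf (nat_lit 0) (nat_lit 3912022930) (nat_lit 380) (nat_lit 16862125616) (nat_lit 76) (nat_lit 29522456993) (nat_lit 67) (nat_lit 5) (nat_lit 72) (nat_lit 5) (nat_lit 68) (nat_lit 5) (nat_lit 320) (nat_lit 301) (nat_lit 159)) (XT.lf (nat_lit 0) (nat_lit 8678920820) (nat_lit 304) (nat_lit 1399396205) (nat_lit 380) (nat_lit 41718729252) (nat_lit 63) (nat_lit 5) (nat_lit 67) (nat_lit 5) (nat_lit 68) (nat_lit 5) (nat_lit 321) (nat_lit 301) (nat_lit 158))))) (XT.nd (nat_lit 156) (nat_lit 228) (nat_lit 0) (XT.nd (nat_lit 78) (nat_lit 304) (nat_lit 0) (XT.lf (nat_lit 0) (nat_lit 17136962129) (nat_lit 380) (nat_lit 17578625026) (nat_lit 76) (nat_lit 18627722833) (nat_lit 63) (nat_lit 5) (nat_lit 68) (nat_lit 5) (nat_lit 64) (nat_lit 5) (nat_lit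 322) (nat_lit 301) (nat_lit 157)) (XT.lf (nat_lit 0) (nat_lit 9517257319) (nat_lit 304) (nat_lit 15200924823) (nat_lit 380) (nat_lit 30240225229) (nat_lit 59) (nat_lit 5) (nat_lit 63) (nat_lit 5) (nat_lit 64) (nat_lit 5) (nat_lit 323) (nat_lit 301) (nat_lit 156))) (XT.nd (nat_lit 78) (nat_lit 228) (nat_lit 0) (XT.lf (nat_lit 0) (nat_lit 33061789234) (nat_lit 380) (nat_lit 18150929786) (nat_lit 76) (nat_lit 5422376797) (nat_lit 59) (nat_lit 5) (nat_lit 64) (nat_lit 5) (nat_lit 60) (nat_lit 5) (nat_lit 324) (nat_lit 301) (nat_lit 155)) (XT.nd (nat_lit 78) (nat_lit 0) (nat_lit 0) (XT.lf (nat_lit 0) (nat_lit 10591391528) (nat_lit 228) (nat_lit 31643989304) (nat_lit 304) (nat_lit 16139600022) (nat_lit 56) (nat_lit 5) (nat_lit 59) (nat_lit 5) (nat_lit 60) (nat_lit 5) (nat_lit 325) (nat_lit 301) (nat_lit 154)) (XT.lf (nat_lit 0) (nat_lit 41398818623) (nat_lit 228) (nat_lit 10774525112) (nat_lit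 304) (nat_lit 8013234086) (nat_lit 56) (nat_lit 5) (nat_lit 59) (nat_lit 5) (nat_lit 60) (nat_lit 5) (nat_lit 326) (nat_lit 301) (nat_lit 153)))))) (XT.nd (nat_lit 390) (nat_lit 608) (nat_lit 0) (XT.nd (nat_lit 156) (nat_lit 456) (nat_lit 0) (XT.nd (nat_lit 78) (nat_lit 0) (nat_lit 0) (XT.lf (nat_lit 0) (nat_lit 866146019) (nat_lit 304) (nat_lit 50223394937) (nat_lit 76) (nat_lit 10980644154) (nat_lit 52) (nat_lit 5) (nat_lit 56) (nat_lit 5) (nat_lit 53) (nat_lit 5) (nat_lit 327) (nat_lit 301) (nat_lit 152)) (XT.lf (nat_lit 0) (nat_lit 10418613135) (nat_lit 304) (nat_lit 19682103589) (nat_lit 76) (nat_lit 33915769009) (nat_lit 52) (nat_lit 5) (nat_lit 56) (nat_lit 5) (nat_lit 53) (nat_lit 5) (nat_lit 328) (nat_lit 301) (nat_lit 151))) (XT.nd (nat_lit 78) (nat_lit 228) (nat_lit 0) (XT.lf (nat_lit 0) (nat_lit 12793669366) (nat_lit 228) (nat_lit 7853243846) (nat_lit 304) (nat_lit 45403279559)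 (nat_lit 49) (nat_lit 5) (nat_lit 52) (nat_lit 5) (nat_lit 53) (nat_lit 5) (nat_lit 329) (nat_lit 301) (nat_lit 150)) (XT.nd (nat_lit 78) (nat_lit 228) (nat_lit 0) (XT.lf (nat_lit 0) (nat_lit 31966017844) (nat_lit 304) (nat_lit 20842030780) (nat_lit 76) (nat_lit 15348568832) (nat_lit 49) (nat_lit 5) (nat_lit 53) (nat_lit 5) (nat_lit 50) (nat_lit 5) (nat_lit 330) (nat_lit 301) (nat_lit 149)) (XT.lf (nat_lit 0) (nat_lit 13494352917) (nat_lit 228) (nat_lit 30694720414) (nat_lit 304) (nat_lit 26162391953) (nat_lit 46) (nat_lit 5) (nat_lit 49) (nat_lit 5) (nat_lit 50) (nat_lit 5) (nat_lit 331) (nat_lit 301) (nat_lit 148))))) (XT.nd (nat_lit 234) (nat_lit 380) (nat_lit 0) (XT.nd (nat_lit 78) (nat_lit 228) (nat_lit 0) (XT.lf (nat_lit 0) (nat_lit 50269180805) (nat_lit 228) (nat_lit 7105677397) (nat_lit 304) (nat_lit 15263620079) (nat_lit 46) (nat_lit 5) (nat_lit 49) (nat_lit 5) (nat_lit 50)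 (nat_lit 5) (nat_lit 332) (nat_lit 301) (nat_lit 147)) (XT.nd (nat_lit 78) (nat_lit 76) (nat_lit 0) (XT.lf (nat_lit 0) (nat_lit 14013740119) (nat_lit 152) (nat_lit 57699416645) (nat_lit 228) (nat_lit 3302025474) (nat_lit 44) (nat_lit 5) (nat_lit 46) (nat_lit 5) (nat_lit 47) (nat_lit 5) (nat_lit 333) (nat_lit 301) (nat_lit 146)) (XT.lf (nat_lit 0) (nat_lit 9461553894) (nat_lit 228) (nat_lit 24768416537) (nat_lit 76) (nat_lit 43248515079) (nat_lit 43) (nat_lit 5) (nat_lit 46) (nat_lit 5) (nat_lit 44) (nat_lit 5) (nat_lit 334) (nat_lit 301) (nat_lit 145)))) (XT.nd (nat_lit 78) (nat_lit 152) (nat_lit 0) (XT.lf (nat_lit 0) (nat_lit 13657400177) (nat_lit 228) (nat_lit 9306911507) (nat_lit 304) (nat_lit 57087338549) (nat_lit 40) (nat_lit 5) (nat_lit 43) (nat_lit 5) (nat_lit 44) (nat_lit 5) (nat_lit 335) (nat_lit 301) (nat_lit 144)) (XT.nd (nat_lit 78) (nat_lit 152) (nat_lit 0) (XT.lf (nat_lit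 0) (nat_lit 37830577990) (nat_lit 304) (nat_lit 28140107292) (nat_lit 76) (nat_lit 16748370640) (nat_lit 40) (nat_lit 5) (nat_lit 44) (nat_lit 5) (nat_lit 41) (nat_lit 5) (nat_lit 336) (nat_lit 301) (nat_lit 143)) (XT.lf (nat_lit 0) (nat_lit 12264939883) (nat_lit 152) (nat_lit 41518100382) (nat_lit 228) (nat_lit 31719648699) (nat_lit 38) (nat_lit 5) (nat_lit 40) (nat_lit 5) (nat_lit 41) (nat_lit 5) (nat_lit 337) (nat_lit 301) (nat_lit 142))))))) (XT.nd (nat_lit 780) (nat_lit 760) (nat_lit 0) (XT.nd (nat_lit 390) (nat_lit 380) (nat_lit 0) (XT.nd (nat_lit 156) (nat_lit 228) (nat_lit 0) (XT.nd (nat_lit 78) (nat_lit 152) (nat_lit 0) (XT.lf (nat_lit 0) (nat_lit 55665444113) (nat_lit 152) (nat_lit 15343096883) (nat_lit 228) (nat_lit 17393193038) (nat_lit 38) (nat_lit 5) (nat_lit 40) (nat_lit 5) (nat_lit 41) (nat_lit 5) (nat_lit 338) (nat_lit 301) (nat_lit 141)) (XT.lf (nat_lit 0) (nat_lit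 9916358363) (nat_lit 152) (nat_lit 79522225038) (nat_lit 228) (nat_lit 1989985712) (nat_lit 36) (nat_lit 5) (nat_lit 38) (nat_lit 5) (nat_lit 39) (nat_lit 5) (nat_lit 339) (nat_lit 301) (nat_lit 140))) (XT.nd (nat_lit 78) (nat_lit 152) (nat_lit 0) (XT.lf (nat_lit 0) (nat_lit 14543347211) (nat_lit 228) (nat_lit 39224642799) (nat_lit 76) (nat_lit 40786988706) (nat_lit 35) (nat_lit 5) (nat_lit 38) (nat_lit 5) (nat_lit 36) (nat_lit 5) (nat_lit 340) (nat_lit 301) (nat_lit 139)) (XT.nd (nat_lit 78) (nat_lit 0) (nat_lit 0) (XT.lf (nat_lit 0) (nat_lit 5313086004) (nat_lit 152) (nat_lit 26605290980) (nat_lit 228) (nat_lit 65913606282) (nat_lit 33) (nat_lit 5) (nat_lit 35) (nat_lit 5) (nat_lit 36) (nat_lit 5) (nat_lit 341) (nat_lit 301) (nat_lit 138)) (XT.lf (nat_lit 0) (nat_lit 50866213255) (nat_lit 228) (nat_lit 47842591106) (nat_lit 76) (nat_lit 2528831828) (nat_lit 33) (nat_lit 5) (nat_lit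 36) (nat_lit 5) (nat_lit 34) (nat_lit 5) (nat_lit 342) (nat_lit 301) (nat_lit 137))))) (XT.nd (nat_lit 156) (nat_lit 228) (nat_lit 0) (XT.nd (nat_lit 78) (nat_lit 152) (nat_lit 0) (XT.lf (nat_lit 0) (nat_lit 71196612448) (nat_lit 228) (nat_lit 1370205557) (nat_lit 76) (nat_lit 32224996050) (nat_lit 33) (nat_lit 5) (nat_lit 36) (nat_lit 5) (nat_lit 34) (nat_lit 5) (nat_lit 343) (nat_lit 301) (nat_lit 136)) (XT.lf (nat_lit 0) (nat_lit 48992352310) (nat_lit 152) (nat_lit 44315152732) (nat_lit 228) (nat_lit 15177997915) (nat_lit 31) (nat_lit 5) (nat_lit 33) (nat_lit 5) (nat_lit 34) (nat_lit 5) (nat_lit 344) (nat_lit 301) (nat_lit 135))) (XT.nd (nat_lit 78) (nat_lit 152) (nat_lit 0) (XT.lf (nat_lit 0) (nat_lit 4049574510) (nat_lit 228) (nat_lit 10508953553) (nat_lit 76) (nat_lit 97800968629) (nat_lit 30) (nat_lit 5) (nat_lit 33) (nat_lit 5) (nat_lit 31) (nat_lit 5) (nat_lit 345) (nat_lit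 301) (nat_lit 134)) (XT.nd (nat_lit 78) (nat_lit 0) (nat_lit 0) (XT.lf (nat_lit 0) (nat_lit 24658935062) (nat_lit 228) (nat_lit 74638268337) (nat_lit 76) (nat_lit 17071021949) (nat_lit 28) (nat_lit 5) (nat_lit 31) (nat_lit 5) (nat_lit 29) (nat_lit 5) (nat_lit 346) (nat_lit 301) (nat_lit 133)) (XT.lf (nat_lit 0) (nat_lit 46717446513) (nat_lit 228) (nat_lit 23865868607) (nat_lit 76) (nat_lit 49973141840) (nat_lit 28) (nat_lit 5) (nat_lit 31) (nat_lit 5) (nat_lit 29) (nat_lit 5) (nat_lit 347) (nat_lit 301) (nat_lit 132)))))) (XT.nd (nat_lit 390) (nat_lit 456) (nat_lit 0) (XT.nd (nat_lit 156) (nat_lit 152) (nat_lit 0) (XT.nd (nat_lit 78) (nat_lit 0) (nat_lit 0) (XT.lf (nat_lit 0) (nat_lit 30417309133) (nat_lit 152) (nat_lit 39935642085) (nat_lit 228) (nat_lit 54577446188) (nat_lit 26) (nat_lit 5) (nat_lit 28) (nat_lit 5) (nat_lit 29) (nat_lit 5) (nat_lit 348) (nat_lit 301) (nat_lit 131))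 (XT.lf (nat_lit 0) (nat_lit 88241851354) (nat_lit 152) (nat_lit 7331746400) (nat_lit 228) (nat_lit 33929269397) (nat_lit 26) (nat_lit 5) (nat_lit 28) (nat_lit 5) (nat_lit 29) (nat_lit 5) (nat_lit 349) (nat_lit 301) (nat_lit 130))) (XT.nd (nat_lit 78) (nat_lit 76) (nat_lit 0) (XT.lf (nat_lit 0) (nat_lit 14702894067) (nat_lit 76) (nat_lit 108001174034) (nat_lit 152) (nat_lit 11567453286) (nat_lit 25) (nat_lit 5) (nat_lit 26) (nat_lit 5) (nat_lit 27) (nat_lit 4) (nat_lit 350) (nat_lit 301) (nat_lit 129)) (XT.nd (nat_lit 78) (nat_lit 0) (nat_lit 0) (XT.lf (nat_lit 0) (nat_lit 12360824766) (nat_lit 152) (nat_lit 64665150050) (nat_lit 76) (nat_lit 62201852500) (nat_lit 24) (nat_lit 5) (nat_lit 26) (nat_lit 5) (nat_lit 25) (nat_lit 5) (nat_lit 351) (nat_lit 301) (nat_lit 128)) (XT.lf (nat_lit 0) (nat_lit 37096032423) (nat_lit 152) (nat_lit 7207400268) (nat_lit 76) (nat_lit 100119071931) (nat_lit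 24) (nat_lit 5) (nat_lit 26) (nat_lit 5) (nat_lit 25) (nat_lit 5) (nat_lit 352) (nat_lit 301) (nat_lit 127))))) (XT.nd (nat_lit 234) (nat_lit 228) (nat_lit 0) (XT.nd (nat_lit 78) (nat_lit 76) (nat_lit 0) (XT.lf (nat_lit 0) (nat_lit 54878480656) (nat_lit 152) (nat_lit 9045620005) (nat_lit 228) (nat_lit 85910010599) (nat_lit 22) (nat_lit 5) (nat_lit 24) (nat_lit 5) (nat_lit 25) (nat_lit 5) (nat_lit 353) (nat_lit 301) (nat_lit 126)) (XT.nd (nat_lit 78) (nat_lit 76) (nat_lit 0) (XT.lf (nat_lit 0) (nat_lit 92653704150) (nat_lit 228) (nat_lit 35631303511) (nat_lit 76) (nat_lit 27203284429) (nat_lit 22) (nat_lit 5) (nat_lit 25) (nat_lit 5) (nat_lit 23) (nat_lit 4) (nat_lit 354) (nat_lit 301) (nat_lit 125)) (XT.lf (nat_lit 0) (nat_lit 27386324338) (nat_lit 76) (nat_lit 96008663486) (nat_lit 152) (nat_lit 38001434566) (nat_lit 21) (nat_lit 5) (nat_lit 22) (nat_lit 5) (nat_lit 23) (nat_lit 4)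 (nat_lit 355) (nat_lit 301) (nat_lit 124)))) (XT.nd (nat_lit 78) (nat_lit 228) (nat_lit 0) (XT.lf (nat_lit 0) (nat_lit 94790730536) (nat_lit 76) (nat_lit 61485386297) (nat_lit 152) (nat_lit 11293703727) (nat_lit 21) (nat_lit 5) (nat_lit 22) (nat_lit 5) (nat_lit 23) (nat_lit 4) (nat_lit 356) (nat_lit 301) (nat_lit 123)) (XT.nd (nat_lit 78) (nat_lit 152) (nat_lit 0) (XT.lf (nat_lit 0) (nat_lit 16212696096) (nat_lit 152) (nat_lit 8749145230) (nat_lit 76) (nat_lit 149077004006) (nat_lit 20) (nat_lit 5) (nat_lit 22) (nat_lit 5) (nat_lit 21) (nat_lit 5) (nat_lit 357) (nat_lit 301) (nat_lit 122)) (XT.lf (nat_lit 0) (nat_lit 45881995897) (nat_lit 228) (nat_lit 120778915295) (nat_lit 76) (nat_lit 14102797246) (nat_lit 18) (nat_lit 5) (nat_lit 21) (nat_lit 5) (nat_lit 19) (nat_lit 4) (nat_lit 358) (nat_lit 301) (nat_lit 121))))))))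
noncomputable def xc212 : XT := (XT.nd (nat_lit 1560) (nat_lit 76) (nat_lit 0) (XT.nd (nat_lit 780) (nat_lit 304) (nat_lit 0) (XT.nd (nat_lit 390) (nat_lit 76) (nat_lit 0) (XT.nd (nat_lit 156) (nat_lit 152) (nat_lit 0) (XT.nd (nat_lit 78) (nat_lit 76) (nat_lit 0) (XT.lf (nat_lit 0) (nat_lit 77593975026) (nat_lit 228) (nat_lit 55770928020) (nat_lit 76) (nat_lit 54431951274) (nat_lit 18) (nat_lit 5) (nat_lit 21) (nat_lit 5) (nat_lit 19) (nat_lit 4) (nat_lit 359) (nat_lit 301) (nat_lit 120)) (XT.lf (nat_lit 0) (nat_lit 12899306185) (nat_lit 76) (nat_lit 98193073419) (nat_lit 152) (nat_lit 84079236890) (nat_lit 17) (nat_lit 5) (nat_lit 18) (nat_lit 5) (nat_lit 19) (nat_lit 4) (nat_lit 360) (nat_lit 301) (nat_lit 119))) (XT.nd (nat_lit 78) (nat_lit 152) (nat_lit 0) (XT.lf (nat_lit 0) (nat_lit 86938298302) (nat_lit 76) (nat_lit 60271357446) (nat_lit 152) (nat_lit 55658263766) (nat_lit 17)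 (nat_lit 5) (nat_lit 18) (nat_lit 5) (nat_lit 19) (nat_lit 4) (nat_lit 361) (nat_lit 301) (nat_lit 118)) (XT.nd (nat_lit 78) (nat_lit 152) (nat_lit 0) (XT.lf (nat_lit 0) (nat_lit 164678292896) (nat_lit 76) (nat_lit 20453972982) (nat_lit 152) (nat_lit 25816798591) (nat_lit 17) (nat_lit 5) (nat_lit 18) (nat_lit 5) (nat_lit 19) (nat_lit 4) (nat_lit 362) (nat_lit 301) (nat_lit 117)) (XT.lf (nat_lit 0) (nat_lit 6113543870) (nat_lit 152) (nat_lit 192080705301) (nat_lit 76) (nat_lit 21197042470) (nat_lit 15) (nat_lit 5) (nat_lit 17) (nat_lit 5) (nat_lit 16) (nat_lit 4) (nat_lit 363) (nat_lit 301) (nat_lit 116))))) (XT.nd (nat_lit 156) (nat_lit 76) (nat_lit 0) (XT.nd (nat_lit 78) (nat_lit 0) (nat_lit 0) (XT.lf (nat_lit 0) (nat_lit 39904055775) (nat_lit 152) (nat_lit 122811327407) (nat_lit 76) (nat_lit 65462522628) (nat_lit 15) (nat_lit 5) (nat_lit 17) (nat_lit 5) (nat_lit 16) (nat_lit 4) (nat_lit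 364) (nat_lit 301) (nat_lit 115)) (XT.lf (nat_lit 0) (nat_lit 75383608429) (nat_lit 152) (nat_lit 50079360194) (nat_lit 76) (nat_lit 111940906548) (nat_lit 15) (nat_lit 5) (nat_lit 17) (nat_lit 5) (nat_lit 16) (nat_lit 4) (nat_lit 365) (nat_lit 301) (nat_lit 114))) (XT.nd (nat_lit 78) (nat_lit 0) (nat_lit 0) (XT.lf (nat_lit 0) (nat_lit 27157579845) (nat_lit 76) (nat_lit 85903103040) (nat_lit 152) (nat_lit 134009283133) (nat_lit 14) (nat_lit 5) (nat_lit 15) (nat_lit 5) (nat_lit 16) (nat_lit 4) (nat_lit 366) (nat_lit 301) (nat_lit 113)) (XT.nd (nat_lit 78) (nat_lit 0) (nat_lit 0) (XT.lf (nat_lit 0) (nat_lit 109994185011) (nat_lit 76) (nat_lit 43475091611) (nat_lit 152) (nat_lit 103707701726) (nat_lit 14) (nat_lit 5) (nat_lit 15) (nat_lit 5) (nat_lit 16) (nat_lit 4) (nat_lit 367) (nat_lit 301) (nat_lit 112)) (XT.lf (nat_lit 0) (nat_lit 195914636591) (nat_lit 152) (nat_lit 70834295182) (nat_lit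 0) (nat_lit 1039592903) (nat_lit 14) (nat_lit 5) (nat_lit 16) (nat_lit 4) (nat_lit 14) (nat_lit 4) (nat_lit 368) (nat_lit 301) (nat_lit 111)))))) (XT.nd (nat_lit 390) (nat_lit 76) (nat_lit 0) (XT.nd (nat_lit 156) (nat_lit 152) (nat_lit 0) (XT.nd (nat_lit 78) (nat_lit 0) (nat_lit 0) (XT.lf (nat_lit 0) (nat_lit 8903113680) (nat_lit 76) (nat_lit 232430444033) (nat_lit 76) (nat_lit 37554526145) (nat_lit 13) (nat_lit 4) (nat_lit 14) (nat_lit 5) (nat_lit 14) (nat_lit 4) (nat_lit 369) (nat_lit 301) (nat_lit 110)) (XT.lf (nat_lit 0) (nat_lit 95085849054) (nat_lit 76) (nat_lit 195136781164) (nat_lit 76) (nat_lit 260030704) (nat_lit 13) (nat_lit 4) (nat_lit 14) (nat_lit 5) (nat_lit 14) (nat_lit 4) (nat_lit 370) (nat_lit 301) (nat_lit 109))) (XT.nd (nat_lit 78) (nat_lit 76) (nat_lit 0) (XT.lf (nat_lit 0) (nat_lit 37653777653) (nat_lit 152) (nat_lit 117687299197) (nat_lit 76) (nat_lit 147285543635)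 (nat_lit 12) (nat_lit 5) (nat_lit 14) (nat_lit 5) (nat_lit 13) (nat_lit 4) (nat_lit 371) (nat_lit 301) (nat_lit 108)) (XT.nd (nat_lit 78) (nat_lit 76) (nat_lit 0) (XT.lf (nat_lit 0) (nat_lit 77454161633) (nat_lit 152) (nat_lit 36097267204) (nat_lit 76) (nat_lit 201826155013) (nat_lit 12) (nat_lit 5) (nat_lit 14) (nat_lit 5) (nat_lit 13) (nat_lit 4) (nat_lit 372) (nat_lit 301) (nat_lit 107)) (XT.lf (nat_lit 0) (nat_lit 51210667059) (nat_lit 76) (nat_lit 68833081632) (nat_lit 152) (nat_lit 208682387654) (nat_lit 11) (nat_lit 5) (nat_lit 12) (nat_lit 5) (nat_lit 13) (nat_lit 4) (nat_lit 373) (nat_lit 301) (nat_lit 106))))) (XT.nd (nat_lit 156) (nat_lit 76) (nat_lit 0) (XT.nd (nat_lit 78) (nat_lit 0) (nat_lit 0) (XT.lf (nat_lit 0) (nat_lit 144136563806) (nat_lit 76) (nat_lit 21237224742) (nat_lit 152) (nat_lit 177337779391) (nat_lit 11) (nat_lit 5) (nat_lit 12) (nat_lit 5) (nat_lit 13) (nat_lit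 4) (nat_lit 374) (nat_lit 301) (nat_lit 105)) (XT.lf (nat_lit 0) (nat_lit 213418678796) (nat_lit 152) (nat_lit 116136834396) (nat_lit 0) (nat_lit 27818340643) (nat_lit 11) (nat_lit 5) (nat_lit 13) (nat_lit 4) (nat_lit 11) (nat_lit 4) (nat_lit 375) (nat_lit 301) (nat_lit 104))) (XT.nd (nat_lit 78) (nat_lit 76) (nat_lit 0) (XT.lf (nat_lit 0) (nat_lit 264213641966) (nat_lit 152) (nat_lit 29925508652) (nat_lit 0) (nat_lit 78612712120) (nat_lit 11) (nat_lit 5) (nat_lit 13) (nat_lit 4) (nat_lit 11) (nat_lit 4) (nat_lit 376) (nat_lit 301) (nat_lit 103)) (XT.nd (nat_lit 78) (nat_lit 0) (nat_lit 0) (XT.lf (nat_lit 0) (nat_lit 62599381915) (nat_lit 76) (nat_lit 255926015722) (nat_lit 76) (nat_lit 70324522358) (nat_lit 10) (nat_lit 4) (nat_lit 11) (nat_lit 5) (nat_lit 11) (nat_lit 4) (nat_lit 377) (nat_lit 301) (nat_lit 102)) (XT.lf (nat_lit 0) (nat_lit 160788899709) (nat_lit 76) (nat_lit 215270342753)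 (nat_lit 76) (nat_lit 29668312706) (nat_lit 10) (nat_lit 4) (nat_lit 11) (nat_lit 5) (nat_lit 11) (nat_lit 4) (nat_lit 378) (nat_lit 301) (nat_lit 101))))))) (XT.nd (nat_lit 35334) (nat_lit 0) (nat_lit 4408) (XT.nd (nat_lit 34944) (nat_lit 0) (nat_lit 5852) (XT.nd (nat_lit 34710) (nat_lit 0) (nat_lit 6460) (XT.nd (nat_lit 34632) (nat_lit 0) (nat_lit 6460) (XT.lf (nat_lit 0) (nat_lit 12603671416) (nat_lit 152) (nat_lit 159765014769) (nat_lit 76) (nat_lit 251070236142) (nat_lit 9) (nat_lit 5) (nat_lit 11) (nat_lit 5) (nat_lit 10) (nat_lit 4) (nat_lit 379) (nat_lit 301) (nat_lit 100)) (XT.lf (nat_lit 0) (nat_lit 6994013754) (nat_lit 0) (nat_lit 6994013754) (nat_lit 684) (nat_lit 1885811519) (nat_lit 94) (nat_lit 5) (nat_lit 94) (nat_lit 3) (nat_lit 103) (nat_lit 3) (nat_lit 302) (nat_lit 302) (nat_lit 176))) (XT.nd (nat_lit 78) (nat_lit 0) (nat_lit 0) (XT.lf (nat_lit 0) (nat_lit 28745933120)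 (nat_lit 684) (nat_lit 3213729993) (nat_lit 760) (nat_lit 578074424) (nat_lit 94) (nat_lit 5) (nat_lit 103) (nat_lit 3) (nat_lit 104) (nat_lit 5) (nat_lit 303) (nat_lit 302) (nat_lit 175)) (XT.nd (nat_lit 78) (nat_lit 0) (nat_lit 0) (XT.lf (nat_lit 76) (nat_lit 12219070717) (nat_lit 0) (nat_lit 17751436282) (nat_lit 760) (nat_lit 3375989855) (nat_lit 95) (nat_lit 5) (nat_lit 94) (nat_lit 5) (nat_lit 104) (nat_lit 5) (nat_lit 304) (nat_lit 302) (nat_lit 174)) (XT.lf (nat_lit 76) (nat_lit 28532929727) (nat_lit 0) (nat_lit 2774073228) (nat_lit 760) (nat_lit 2886163136) (nat_lit 95) (nat_lit 5) (nat_lit 94) (nat_lit 5) (nat_lit 104) (nat_lit 5) (nat_lit 305) (nat_lit 302) (nat_lit 173))))) (XT.nd (nat_lit 156) (nat_lit 684) (nat_lit 0) (XT.nd (nat_lit 78) (nat_lit 0) (nat_lit 0) (XT.lf (nat_lit 76) (nat_lit 10718905252) (nat_lit 0) (nat_lit 22357458605) (nat_lit 760) (nat_lit 1987509233)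 (nat_lit 96) (nat_lit 5) (nat_lit 95) (nat_lit 5) (nat_lit 105) (nat_lit 5) (nat_lit 306) (nat_lit 302) (nat_lit 172)) (XT.lf (nat_lit 76) (nat_lit 28064310688) (nat_lit 0) (nat_lit 7007086037) (nat_lit 760) (nat_lit 899864524) (nat_lit 96) (nat_lit 5) (nat_lit 95) (nat_lit 5) (nat_lit 105) (nat_lit 5) (nat_lit 307) (nat_lit 302) (nat_lit 171))) (XT.nd (nat_lit 78) (nat_lit 0) (nat_lit 0) (XT.lf (nat_lit 0) (nat_lit 526669430) (nat_lit 760) (nat_lit 27405250149) (nat_lit 836) (nat_lit 8977302759) (nat_lit 86) (nat_lit 5) (nat_lit 96) (nat_lit 5) (nat_lit 97) (nat_lit 5) (nat_lit 308) (nat_lit 302) (nat_lit 170)) (XT.nd (nat_lit 78) (nat_lit 0) (nat_lit 76) (XT.lf (nat_lit 0) (nat_lit 2242105276) (nat_lit 760) (nat_lit 9961626041) (nat_lit 836) (nat_lit 25677226932) (nat_lit 86) (nat_lit 5) (nat_lit 96) (nat_lit 5) (nat_lit 97) (nat_lit 5) (nat_lit 309) (nat_lit 302) (nat_lit 169)) (XT.lf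 (nat_lit 0) (nat_lit 4244539283) (nat_lit 760) (nat_lit 30336156156) (nat_lit 836) (nat_lit 4310529139) (nat_lit 87) (nat_lit 5) (nat_lit 97) (nat_lit 5) (nat_lit 98) (nat_lit 5) (nat_lit 310) (nat_lit 302) (nat_lit 168)))))) (XT.nd (nat_lit 390) (nat_lit 1064) (nat_lit 0) (XT.nd (nat_lit 156) (nat_lit 456) (nat_lit 0) (XT.nd (nat_lit 78) (nat_lit 0) (nat_lit 0) (XT.lf (nat_lit 0) (nat_lit 6715739062) (nat_lit 760) (nat_lit 11805338716) (nat_lit 836) (nat_lit 21412498949) (nat_lit 87) (nat_lit 5) (nat_lit 97) (nat_lit 5) (nat_lit 98) (nat_lit 5) (nat_lit 311) (nat_lit 302) (nat_lit 167)) (XT.lf (nat_lit 76) (nat_lit 7902682711) (nat_lit 0) (nat_lit 1528448944) (nat_lit 836) (nat_lit 31590887671) (nat_lit 88) (nat_lit 5) (nat_lit 87) (nat_lit 5) (nat_lit 98) (nat_lit 5) (nat_lit 312) (nat_lit 302) (nat_lit 166))) (XT.nd (nat_lit 78) (nat_lit 532) (nat_lit 0) (XT.lf (nat_lit 0) (nat_lit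 12737557241) (nat_lit 760) (nat_lit 13409288476) (nat_lit 76) (nat_lit 15995279438) (nat_lit 88) (nat_lit 5) (nat_lit 98) (nat_lit 5) (nat_lit 89) (nat_lit 5) (nat_lit 313) (nat_lit 302) (nat_lit 165)) (XT.nd (nat_lit 78) (nat_lit 0) (nat_lit 0) (XT.lf (nat_lit 0) (nat_lit 7498953197) (nat_lit 532) (nat_lit 8849965598) (nat_lit 608) (nat_lit 26962340811) (nat_lit 81) (nat_lit 5) (nat_lit 88) (nat_lit 5) (nat_lit 89) (nat_lit 5) (nat_lit 314) (nat_lit 302) (nat_lit 164)) (XT.lf (nat_lit 0) (nat_lit 20514613673) (nat_lit 608) (nat_lit 14760812492) (nat_lit 76) (nat_lit 9244740225) (nat_lit 81) (nat_lit 5) (nat_lit 89) (nat_lit 5) (nat_lit 82) (nat_lit 5) (nat_lit 315) (nat_lit 302) (nat_lit 163))))) (XT.nd (nat_lit 234) (nat_lit 380) (nat_lit 0) (XT.nd (nat_lit 78) (nat_lit 304) (nat_lit 0) (XT.lf (nat_lit 0) (nat_lit 7433858872) (nat_lit 380) (nat_lit 17713562033) (nat_lit 456) (nat_lit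 20629159915) (nat_lit 76) (nat_lit 5) (nat_lit 81) (nat_lit 5) (nat_lit 82) (nat_lit 5) (nat_lit 316) (nat_lit 302) (nat_lit 162)) (XT.nd (nat_lit 78) (nat_lit 304) (nat_lit 0) (XT.lf (nat_lit 0) (nat_lit 30275048302) (nat_lit 456) (nat_lit 15850355745) (nat_lit 76) (nat_lit 957256447) (nat_lit 76) (nat_lit 5) (nat_lit 82) (nat_lit 5) (nat_lit 77) (nat_lit 5) (nat_lit 317) (nat_lit 302) (nat_lit 161)) (XT.lf (nat_lit 0) (nat_lit 7721152748) (nat_lit 304) (nat_lit 28346705297) (nat_lit 380) (nat_lit 12365749402) (nat_lit 72) (nat_lit 5) (nat_lit 76) (nat_lit 5) (nat_lit 77) (nat_lit 5) (nat_lit 318) (nat_lit 302) (nat_lit 160)))) (XT.nd (nat_lit 78) (nat_lit 380) (nat_lit 0) (XT.lf (nat_lit 0) (nat_lit 33019346087) (nat_lit 304) (nat_lit 9397329119) (nat_lit 380) (nat_lit 7422111382) (nat_lit 72) (nat_lit 5) (nat_lit 76) (nat_lit 5) (nat_lit 77) (nat_lit 5) (nat_lit 319) (nat_lit 302)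 (nat_lit 159)) (XT.nd (nat_lit 78) (nat_lit 76) (nat_lit 0) (XT.lf (nat_lit 0) (nat_lit 8370015159) (nat_lit 304) (nat_lit 41005554542) (nat_lit 380) (nat_lit 1924026194) (nat_lit 68) (nat_lit 5) (nat_lit 72) (nat_lit 5) (nat_lit 73) (nat_lit 5) (nat_lit 320) (nat_lit 302) (nat_lit 158)) (XT.lf (nat_lit 0) (nat_lit 4167398429) (nat_lit 380) (nat_lit 17637351144) (nat_lit 76) (nat_lit 31003612889) (nat_lit 67) (nat_lit 5) (nat_lit 72) (nat_lit 5) (nat_lit 68) (nat_lit 5) (nat_lit 321) (nat_lit 302) (nat_lit 157))))))))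
noncomputable def xc213 : XT := (XT.nd (nat_lit 1638) (nat_lit 1216) (nat_lit 0) (XT.nd (nat_lit 780) (nat_lit 1216) (nat_lit 0) (XT.nd (nat_lit 390) (nat_lit 532) (nat_lit 0) (XT.nd (nat_lit 156) (nat_lit 532) (nat_lit 0) (XT.nd (nat_lit 78) (nat_lit 0) (nat_lit 0) (XT.lf (nat_lit 0) (nat_lit 9179652762) (nat_lit 304) (nat_lit 1460550783) (nat_lit 380) (nat_lit 43743715906) (nat_lit 63) (nat_lit 5) (nat_lit 67) (nat_lit 5) (nat_lit 68) (nat_lit 5) (nat_lit 322) (nat_lit 302) (nat_lit 156)) (XT.lf (nat_lit 0) (nat_lit 18049151474) (nat_lit 380) (nat_lit 18391244457) (nat_lit 76) (nat_lit 19567235726) (nat_lit 63) (nat_lit 5) (nat_lit 68) (nat_lit 5) (nat_lit 64) (nat_lit 5) (nat_lit 323) (nat_lit 302) (nat_lit 155))) (XT.nd (nat_lit 78) (nat_lit 228) (nat_lit 0) (XT.lf (nat_lit 0) (nat_lit 10058362459) (nat_lit 304) (nat_lit 15949453346) (nat_lit 380) (nat_lit 31695752595) (nat_lit 59)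 (nat_lit 5) (nat_lit 63) (nat_lit 5) (nat_lit 64) (nat_lit 5) (nat_lit 324) (nat_lit 302) (nat_lit 154)) (XT.nd (nat_lit 78) (nat_lit 228) (nat_lit 0) (XT.lf (nat_lit 0) (nat_lit 34766216200) (nat_lit 380) (nat_lit 18993884094) (nat_lit 76) (nat_lit 5704113808) (nat_lit 59) (nat_lit 5) (nat_lit 64) (nat_lit 5) (nat_lit 60) (nat_lit 5) (nat_lit 325) (nat_lit 302) (nat_lit 153)) (XT.lf (nat_lit 0) (nat_lit 11184511476) (nat_lit 228) (nat_lit 33212523458) (nat_lit 304) (nat_lit 16894134394) (nat_lit 56) (nat_lit 5) (nat_lit 59) (nat_lit 5) (nat_lit 60) (nat_lit 5) (nat_lit 326) (nat_lit 302) (nat_lit 152))))) (XT.nd (nat_lit 156) (nat_lit 228) (nat_lit 0) (XT.nd (nat_lit 78) (nat_lit 304) (nat_lit 0) (XT.lf (nat_lit 0) (nat_lit 43529283718) (nat_lit 228) (nat_lit 11300236786) (nat_lit 304) (nat_lit 8363947573) (nat_lit 56) (nat_lit 5) (nat_lit 59) (nat_lit 5) (nat_lit 60) (nat_lit 5) (nat_lit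 327) (nat_lit 302) (nat_lit 151)) (XT.lf (nat_lit 0) (nat_lit 956677066) (nat_lit 304) (nat_lit 52671198615) (nat_lit 76) (nat_lit 11543400211) (nat_lit 52) (nat_lit 5) (nat_lit 56) (nat_lit 5) (nat_lit 53) (nat_lit 5) (nat_lit 328) (nat_lit 302) (nat_lit 150))) (XT.nd (nat_lit 78) (nat_lit 228) (nat_lit 0) (XT.lf (nat_lit 0) (nat_lit 10984518788) (nat_lit 304) (nat_lit 20605860132) (nat_lit 76) (nat_lit 35624627793) (nat_lit 52) (nat_lit 5) (nat_lit 56) (nat_lit 5) (nat_lit 53) (nat_lit 5) (nat_lit 329) (nat_lit 302) (nat_lit 149)) (XT.nd (nat_lit 78) (nat_lit 0) (nat_lit 0) (XT.lf (nat_lit 0) (nat_lit 13492728106) (nat_lit 228) (nat_lit 8230291111) (nat_lit 304) (nat_lit 47627443216) (nat_lit 49) (nat_lit 5) (nat_lit 52) (nat_lit 5) (nat_lit 53) (nat_lit 5) (nat_lit 330) (nat_lit 302) (nat_lit 148)) (XT.lf (nat_lit 0) (nat_lit 33606227438) (nat_lit 304) (nat_lit 21825683313) (nat_lit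 76) (nat_lit 16130392657) (nat_lit 49) (nat_lit 5) (nat_lit 53) (nat_lit 5) (nat_lit 50) (nat_lit 5) (nat_lit 331) (nat_lit 302) (nat_lit 147)))))) (XT.nd (nat_lit 390) (nat_lit 532) (nat_lit 0) (XT.nd (nat_lit 156) (nat_lit 456) (nat_lit 0) (XT.nd (nat_lit 78) (nat_lit 0) (nat_lit 0) (XT.lf (nat_lit 0) (nat_lit 14226576842) (nat_lit 228) (nat_lit 32212761039) (nat_lit 304) (nat_lit 27427612994) (nat_lit 46) (nat_lit 5) (nat_lit 49) (nat_lit 5) (nat_lit 50) (nat_lit 5) (nat_lit 332) (nat_lit 302) (nat_lit 146)) (XT.lf (nat_lit 0) (nat_lit 52837407731) (nat_lit 228) (nat_lit 7445060890) (nat_lit 304) (nat_lit 15985945314) (nat_lit 46) (nat_lit 5) (nat_lit 49) (nat_lit 5) (nat_lit 50) (nat_lit 5) (nat_lit 333) (nat_lit 302) (nat_lit 145))) (XT.nd (nat_lit 78) (nat_lit 304) (nat_lit 0) (XT.lf (nat_lit 0) (nat_lit 14770023603) (nat_lit 152) (nat_lit 60566912119) (nat_lit 228) (nat_lit 3427056825)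 (nat_lit 44) (nat_lit 5) (nat_lit 46) (nat_lit 5) (nat_lit 47) (nat_lit 5) (nat_lit 334) (nat_lit 302) (nat_lit 144)) (XT.nd (nat_lit 78) (nat_lit 228) (nat_lit 0) (XT.lf (nat_lit 0) (nat_lit 9971572003) (nat_lit 228) (nat_lit 25952628147) (nat_lit 76) (nat_lit 45426323842) (nat_lit 43) (nat_lit 5) (nat_lit 46) (nat_lit 5) (nat_lit 44) (nat_lit 5) (nat_lit 335) (nat_lit 302) (nat_lit 143)) (XT.lf (nat_lit 0) (nat_lit 14393605060) (nat_lit 228) (nat_lit 9754936262) (nat_lit 304) (nat_lit 59903853794) (nat_lit 40) (nat_lit 5) (nat_lit 43) (nat_lit 5) (nat_lit 44) (nat_lit 5) (nat_lit 336) (nat_lit 302) (nat_lit 142))))) (XT.nd (nat_lit 234) (nat_lit 380) (nat_lit 0) (XT.nd (nat_lit 78) (nat_lit 152) (nat_lit 0) (XT.lf (nat_lit 0) (nat_lit 39756663538) (nat_lit 304) (nat_lit 29494824965) (nat_lit 76) (nat_lit 17601757216) (nat_lit 40) (nat_lit 5) (nat_lit 44) (nat_lit 5) (nat_lit 41) (nat_lit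 5) (nat_lit 337) (nat_lit 302) (nat_lit 141)) (XT.nd (nat_lit 78) (nat_lit 0) (nat_lit 0) (XT.lf (nat_lit 0) (nat_lit 12929631219) (nat_lit 152) (nat_lit 43576275342) (nat_lit 228) (nat_lit 33270197643) (nat_lit 38) (nat_lit 5) (nat_lit 40) (nat_lit 5) (nat_lit 41) (nat_lit 5) (nat_lit 338) (nat_lit 302) (nat_lit 140)) (XT.lf (nat_lit 0) (nat_lit 58497710930) (nat_lit 152) (nat_lit 16093365957) (nat_lit 228) (nat_lit 18229106508) (nat_lit 38) (nat_lit 5) (nat_lit 40) (nat_lit 5) (nat_lit 41) (nat_lit 5) (nat_lit 339) (nat_lit 302) (nat_lit 139)))) (XT.nd (nat_lit 78) (nat_lit 228) (nat_lit 0) (XT.lf (nat_lit 0) (nat_lit 10461732207) (nat_lit 152) (nat_lit 83480385001) (nat_lit 228) (nat_lit 2056269751) (nat_lit 36) (nat_lit 5) (nat_lit 38) (nat_lit 5) (nat_lit 39) (nat_lit 5) (nat_lit 340) (nat_lit 302) (nat_lit 138)) (XT.nd (nat_lit 78) (nat_lit 152) (nat_lit 0) (XT.lf (nat_lit 0) (nat_lit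 15301135669) (nat_lit 228) (nat_lit 41137638793) (nat_lit 76) (nat_lit 42842394581) (nat_lit 35) (nat_lit 5) (nat_lit 38) (nat_lit 5) (nat_lit 36) (nat_lit 5) (nat_lit 341) (nat_lit 302) (nat_lit 137)) (XT.lf (nat_lit 0) (nat_lit 5626198449) (nat_lit 152) (nat_lit 27918001289) (nat_lit 228) (nat_lit 69177861254) (nat_lit 33) (nat_lit 5) (nat_lit 35) (nat_lit 5) (nat_lit 36) (nat_lit 5) (nat_lit 342) (nat_lit 302) (nat_lit 136))))))) (XT.nd (nat_lit 780) (nat_lit 532) (nat_lit 0) (XT.nd (nat_lit 390) (nat_lit 304) (nat_lit 0) (XT.nd (nat_lit 156) (nat_lit 380) (nat_lit 0) (XT.nd (nat_lit 78) (nat_lit 0) (nat_lit 0) (XT.lf (nat_lit 0) (nat_lit 53438264847) (nat_lit 228) (nat_lit 50188334460) (nat_lit 76) (nat_lit 2671456652) (nat_lit 33) (nat_lit 5) (nat_lit 36) (nat_lit 5) (nat_lit 34) (nat_lit 5) (nat_lit 343) (nat_lit 302) (nat_lit 135)) (XT.lf (nat_lit 0) (nat_lit 74783815384) (nat_lit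 228) (nat_lit 1394538500) (nat_lit 76) (nat_lit 33851658456) (nat_lit 33) (nat_lit 5) (nat_lit 36) (nat_lit 5) (nat_lit 34) (nat_lit 5) (nat_lit 344) (nat_lit 302) (nat_lit 134))) (XT.nd (nat_lit 78) (nat_lit 228) (nat_lit 0) (XT.lf (nat_lit 0) (nat_lit 51485434722) (nat_lit 152) (nat_lit 46514193048) (nat_lit 228) (nat_lit 15908790290) (nat_lit 31) (nat_lit 5) (nat_lit 33) (nat_lit 5) (nat_lit 34) (nat_lit 5) (nat_lit 345) (nat_lit 302) (nat_lit 133)) (XT.nd (nat_lit 78) (nat_lit 152) (nat_lit 0) (XT.lf (nat_lit 0) (nat_lit 4277965526) (nat_lit 228) (nat_lit 10992128846) (nat_lit 76) (nat_lit 102706060979) (nat_lit 30) (nat_lit 5) (nat_lit 33) (nat_lit 5) (nat_lit 31) (nat_lit 5) (nat_lit 346) (nat_lit 302) (nat_lit 132)) (XT.lf (nat_lit 0) (nat_lit 25917463440) (nat_lit 228) (nat_lit 78327559123) (nat_lit 76) (nat_lit 17940315388) (nat_lit 28) (nat_lit 5) (nat_lit 31) (nat_lit 5) (nat_lit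 29) (nat_lit 5) (nat_lit 347) (nat_lit 302) (nat_lit 131))))) (XT.nd (nat_lit 156) (nat_lit 152) (nat_lit 0) (XT.nd (nat_lit 78) (nat_lit 152) (nat_lit 0) (XT.lf (nat_lit 0) (nat_lit 49077682291) (nat_lit 228) (nat_lit 25018569055) (nat_lit 76) (nat_lit 52486791639) (nat_lit 28) (nat_lit 5) (nat_lit 31) (nat_lit 5) (nat_lit 29) (nat_lit 5) (nat_lit 348) (nat_lit 302) (nat_lit 130)) (XT.lf (nat_lit 0) (nat_lit 31978112847) (nat_lit 152) (nat_lit 41916312768) (nat_lit 228) (nat_lit 57281282557) (nat_lit 26) (nat_lit 5) (nat_lit 28) (nat_lit 5) (nat_lit 29) (nat_lit 5) (nat_lit 349) (nat_lit 302) (nat_lit 129))) (XT.nd (nat_lit 78) (nat_lit 152) (nat_lit 0) (XT.lf (nat_lit 0) (nat_lit 92691980357) (nat_lit 152) (nat_lit 7682989510) (nat_lit 228) (nat_lit 35601889114) (nat_lit 26) (nat_lit 5) (nat_lit 28) (nat_lit 5) (nat_lit 29) (nat_lit 5) (nat_lit 350) (nat_lit 302) (nat_lit 128)) (XT.nd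 (nat_lit 78) (nat_lit 76) (nat_lit 0) (XT.lf (nat_lit 0) (nat_lit 15476358967) (nat_lit 76) (nat_lit 113385350626) (nat_lit 152) (nat_lit 12122249848) (nat_lit 25) (nat_lit 5) (nat_lit 26) (nat_lit 5) (nat_lit 27) (nat_lit 4) (nat_lit 351) (nat_lit 302) (nat_lit 127)) (XT.lf (nat_lit 0) (nat_lit 13000600785) (nat_lit 152) (nat_lit 67861178864) (nat_lit 76) (nat_lit 65326337681) (nat_lit 24) (nat_lit 5) (nat_lit 26) (nat_lit 5) (nat_lit 25) (nat_lit 5) (nat_lit 352) (nat_lit 302) (nat_lit 126)))))) (XT.nd (nat_lit 390) (nat_lit 304) (nat_lit 0) (XT.nd (nat_lit 156) (nat_lit 76) (nat_lit 0) (XT.nd (nat_lit 78) (nat_lit 152) (nat_lit 0) (XT.lf (nat_lit 0) (nat_lit 38971533836) (nat_lit 152) (nat_lit 7532314388) (nat_lit 76) (nat_lit 105138732723) (nat_lit 24) (nat_lit 5) (nat_lit 26) (nat_lit 5) (nat_lit 25) (nat_lit 5) (nat_lit 353) (nat_lit 302) (nat_lit 125)) (XT.lf (nat_lit 0) (nat_lit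 57657288713) (nat_lit 152) (nat_lit 9483275705) (nat_lit 228) (nat_lit 90184226214) (nat_lit 22) (nat_lit 5) (nat_lit 24) (nat_lit 5) (nat_lit 25) (nat_lit 5) (nat_lit 354) (nat_lit 302) (nat_lit 124))) (XT.nd (nat_lit 78) (nat_lit 76) (nat_lit 0) (XT.lf (nat_lit 0) (nat_lit 97305900849) (nat_lit 228) (nat_lit 37378885950) (nat_lit 76) (nat_lit 28576931697) (nat_lit 22) (nat_lit 5) (nat_lit 25) (nat_lit 5) (nat_lit 23) (nat_lit 4) (nat_lit 355) (nat_lit 302) (nat_lit 123)) (XT.nd (nat_lit 78) (nat_lit 0) (nat_lit 0) (XT.lf (nat_lit 0) (nat_lit 28789075183) (nat_lit 76) (nat_lit 100794766414) (nat_lit 152) (nat_lit 39881434673) (nat_lit 21) (nat_lit 5) (nat_lit 22) (nat_lit 5) (nat_lit 23) (nat_lit 4) (nat_lit 356) (nat_lit 302) (nat_lit 122)) (XT.lf (nat_lit 0) (nat_lit 99562109566) (nat_lit 76) (nat_lit 64546007757) (nat_lit 152) (nat_lit 11839273082) (nat_lit 21) (nat_lit 5) (nat_lit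 22) (nat_lit 5) (nat_lit 23) (nat_lit 4) (nat_lit 357) (nat_lit 302) (nat_lit 121))))) (XT.nd (nat_lit 234) (nat_lit 76) (nat_lit 0) (XT.nd (nat_lit 78) (nat_lit 152) (nat_lit 0) (XT.lf (nat_lit 0) (nat_lit 17040953762) (nat_lit 152) (nat_lit 9155683222) (nat_lit 76) (nat_lit 156543259086) (nat_lit 20) (nat_lit 5) (nat_lit 22) (nat_lit 5) (nat_lit 21) (nat_lit 5) (nat_lit 358) (nat_lit 302) (nat_lit 120)) (XT.nd (nat_lit 78) (nat_lit 0) (nat_lit 0) (XT.lf (nat_lit 0) (nat_lit 48193559815) (nat_lit 228) (nat_lit 126786773160) (nat_lit 76) (nat_lit 14820677787) (nat_lit 18) (nat_lit 5) (nat_lit 21) (nat_lit 5) (nat_lit 19) (nat_lit 4) (nat_lit 359) (nat_lit 302) (nat_lit 119)) (XT.lf (nat_lit 0) (nat_lit 81490306275) (nat_lit 228) (nat_lit 58529866898) (nat_lit 76) (nat_lit 57165682818) (nat_lit 18) (nat_lit 5) (nat_lit 21) (nat_lit 5) (nat_lit 19) (nat_lit 4) (nat_lit 360) (nat_lit 302)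 (nat_lit 118)))) (XT.nd (nat_lit 78) (nat_lit 0) (nat_lit 0) (XT.lf (nat_lit 0) (nat_lit 13573401476) (nat_lit 76) (nat_lit 103089892382) (nat_lit 152) (nat_lit 88266079725) (nat_lit 17) (nat_lit 5) (nat_lit 18) (nat_lit 5) (nat_lit 19) (nat_lit 4) (nat_lit 361) (nat_lit 302) (nat_lit 117)) (XT.nd (nat_lit 78) (nat_lit 0) (nat_lit 0) (XT.lf (nat_lit 0) (nat_lit 91312956057) (nat_lit 76) (nat_lit 63272701788) (nat_lit 152) (nat_lit 58424873135) (nat_lit 17) (nat_lit 5) (nat_lit 18) (nat_lit 5) (nat_lit 19) (nat_lit 4) (nat_lit 362) (nat_lit 302) (nat_lit 116)) (XT.lf (nat_lit 0) (nat_lit 172938629294) (nat_lit 76) (nat_lit 21465030173) (nat_lit 152) (nat_lit 27092111074) (nat_lit 17) (nat_lit 5) (nat_lit 18) (nat_lit 5) (nat_lit 19) (nat_lit 4) (nat_lit 363) (nat_lit 302) (nat_lit 115))))))))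
noncomputable def xc214 : XT := (XT.nd (nat_lit 36192) (nat_lit 0) (nat_lit 3496) (XT.nd (nat_lit 780) (nat_lit 152) (nat_lit 0) (XT.nd (nat_lit 390) (nat_lit 152) (nat_lit 0) (XT.nd (nat_lit 156) (nat_lit 76) (nat_lit 0) (XT.nd (nat_lit 78) (nat_lit 0) (nat_lit 0) (XT.lf (nat_lit 0) (nat_lit 6434133081) (nat_lit 152) (nat_lit 201657688255) (nat_lit 76) (nat_lit 22268281905) (nat_lit 15) (nat_lit 5) (nat_lit 17) (nat_lit 5) (nat_lit 16) (nat_lit 4) (nat_lit 364) (nat_lit 302) (nat_lit 114)) (XT.lf (nat_lit 0) (nat_lit 41913460486) (nat_lit 152) (nat_lit 128926129672) (nat_lit 76) (nat_lit 68746493818) (nat_lit 15) (nat_lit 5) (nat_lit 17) (nat_lit 5) (nat_lit 16) (nat_lit 4) (nat_lit 365) (nat_lit 302) (nat_lit 113))) (XT.nd (nat_lit 78) (nat_lit 76) (nat_lit 0) (XT.lf (nat_lit 0) (nat_lit 79166314490) (nat_lit 152) (nat_lit 52558790960) (nat_lit 76) (nat_lit 117548280502) (nat_lit 15)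 (nat_lit 5) (nat_lit 17) (nat_lit 5) (nat_lit 16) (nat_lit 4) (nat_lit 366) (nat_lit 302) (nat_lit 112)) (XT.nd (nat_lit 78) (nat_lit 0) (nat_lit 0) (XT.lf (nat_lit 0) (nat_lit 28539600319) (nat_lit 76) (nat_lit 90187375188) (nat_lit 152) (nat_lit 140695819512) (nat_lit 14) (nat_lit 5) (nat_lit 15) (nat_lit 5) (nat_lit 16) (nat_lit 4) (nat_lit 367) (nat_lit 302) (nat_lit 111)) (XT.lf (nat_lit 0) (nat_lit 115516886149) (nat_lit 76) (nat_lit 45638481426) (nat_lit 152) (nat_lit 108879822262) (nat_lit 14) (nat_lit 5) (nat_lit 15) (nat_lit 5) (nat_lit 16) (nat_lit 4) (nat_lit 368) (nat_lit 302) (nat_lit 110))))) (XT.nd (nat_lit 156) (nat_lit 76) (nat_lit 0) (XT.nd (nat_lit 78) (nat_lit 76) (nat_lit 0) (XT.lf (nat_lit 0) (nat_lit 205722548368) (nat_lit 152) (nat_lit 74353659948) (nat_lit 0) (nat_lit 1101127813) (nat_lit 14) (nat_lit 5) (nat_lit 16) (nat_lit 4) (nat_lit 14) (nat_lit 4) (nat_lit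 369) (nat_lit 302) (nat_lit 109)) (XT.lf (nat_lit 0) (nat_lit 9370258873) (nat_lit 76) (nat_lit 244041919994) (nat_lit 76) (nat_lit 39419706513) (nat_lit 13) (nat_lit 4) (nat_lit 14) (nat_lit 5) (nat_lit 14) (nat_lit 4) (nat_lit 370) (nat_lit 302) (nat_lit 108))) (XT.nd (nat_lit 78) (nat_lit 76) (nat_lit 0) (XT.lf (nat_lit 0) (nat_lit 99861083896) (nat_lit 76) (nat_lit 204884052374) (nat_lit 76) (nat_lit 261083726) (nat_lit 13) (nat_lit 4) (nat_lit 14) (nat_lit 5) (nat_lit 14) (nat_lit 4) (nat_lit 371) (nat_lit 302) (nat_lit 107)) (XT.nd (nat_lit 78) (nat_lit 0) (nat_lit 0) (XT.lf (nat_lit 0) (nat_lit 39547481855) (nat_lit 152) (nat_lit 123551350050) (nat_lit 76) (nat_lit 154658564080) (nat_lit 12) (nat_lit 5) (nat_lit 14) (nat_lit 5) (nat_lit 13) (nat_lit 4) (nat_lit 372) (nat_lit 302) (nat_lit 106)) (XT.lf (nat_lit 0) (nat_lit 81337360496) (nat_lit 152) (nat_lit 37882783796) (nat_lit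 76) (nat_lit 211925789681) (nat_lit 12) (nat_lit 5) (nat_lit 14) (nat_lit 5) (nat_lit 13) (nat_lit 4) (nat_lit 373) (nat_lit 302) (nat_lit 105)))))) (XT.nd (nat_lit 390) (nat_lit 0) (nat_lit 0) (XT.nd (nat_lit 156) (nat_lit 76) (nat_lit 0) (XT.nd (nat_lit 78) (nat_lit 0) (nat_lit 0) (XT.lf (nat_lit 0) (nat_lit 53790235136) (nat_lit 76) (nat_lit 72265989396) (nat_lit 152) (nat_lit 219105699895) (nat_lit 11) (nat_lit 5) (nat_lit 12) (nat_lit 5) (nat_lit 13) (nat_lit 4) (nat_lit 374) (nat_lit 302) (nat_lit 104)) (XT.lf (nat_lit 0) (nat_lit 151361520305) (nat_lit 76) (nat_lit 22290756152) (nat_lit 152) (nat_lit 186194375846) (nat_lit 11) (nat_lit 5) (nat_lit 12) (nat_lit 5) (nat_lit 13) (nat_lit 4) (nat_lit 375) (nat_lit 302) (nat_lit 103))) (XT.nd (nat_lit 78) (nat_lit 76) (nat_lit 0) (XT.lf (nat_lit 0) (nat_lit 224099068482) (nat_lit 152) (nat_lit 121926064410) (nat_lit 0) (nat_lit 29216936933)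 (nat_lit 11) (nat_lit 5) (nat_lit 13) (nat_lit 4) (nat_lit 11) (nat_lit 4) (nat_lit 376) (nat_lit 302) (nat_lit 102)) (XT.nd (nat_lit 78) (nat_lit 76) (nat_lit 0) (XT.lf (nat_lit 0) (nat_lit 277433329537) (nat_lit 152) (nat_lit 31405011032) (nat_lit 0) (nat_lit 82550661304) (nat_lit 11) (nat_lit 5) (nat_lit 13) (nat_lit 4) (nat_lit 11) (nat_lit 4) (nat_lit 377) (nat_lit 302) (nat_lit 101)) (XT.lf (nat_lit 0) (nat_lit 65745853530) (nat_lit 76) (nat_lit 268714648280) (nat_lit 76) (nat_lit 73831468920) (nat_lit 10) (nat_lit 4) (nat_lit 11) (nat_lit 5) (nat_lit 11) (nat_lit 4) (nat_lit 378) (nat_lit 302) (nat_lit 100))))) (XT.nd (nat_lit 34788) (nat_lit 0) (nat_lit 6384) (XT.nd (nat_lit 34710) (nat_lit 0) (nat_lit 6384) (XT.lf (nat_lit 0) (nat_lit 168844061380) (nat_lit 76) (nat_lit 226026556816) (nat_lit 76) (nat_lit 31142890669) (nat_lit 10) (nat_lit 4) (nat_lit 11) (nat_lit 5) (nat_lit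 11) (nat_lit 4) (nat_lit 379) (nat_lit 302) (nat_lit 99)) (XT.lf (nat_lit 0) (nat_lit 7373813531) (nat_lit 0) (nat_lit 7373813531) (nat_lit 684) (nat_lit 1916787071) (nat_lit 94) (nat_lit 5) (nat_lit 94) (nat_lit 3) (nat_lit 103) (nat_lit 3) (nat_lit 303) (nat_lit 303) (nat_lit 174))) (XT.nd (nat_lit 78) (nat_lit 0) (nat_lit 0) (XT.lf (nat_lit 0) (nat_lit 30296997867) (nat_lit 684) (nat_lit 3310252940) (nat_lit 760) (nat_lit 551481515) (nat_lit 94) (nat_lit 5) (nat_lit 103) (nat_lit 3) (nat_lit 104) (nat_lit 5) (nat_lit 304) (nat_lit 303) (nat_lit 173)) (XT.nd (nat_lit 78) (nat_lit 0) (nat_lit 0) (XT.lf (nat_lit 76) (nat_lit 12893152910) (nat_lit 0) (nat_lit 18685215617) (nat_lit 760) (nat_lit 3429792373) (nat_lit 95) (nat_lit 5) (nat_lit 94) (nat_lit 5) (nat_lit 104) (nat_lit 5) (nat_lit 305) (nat_lit 303) (nat_lit 172)) (XT.lf (nat_lit 76) (nat_lit 30019698743) (nat_lit 0) (nat_lit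 2956784052) (nat_lit 760) (nat_lit 2920950365) (nat_lit 95) (nat_lit 5) (nat_lit 94) (nat_lit 5) (nat_lit 104) (nat_lit 5) (nat_lit 306) (nat_lit 303) (nat_lit 171))))))) (XT.nd (nat_lit 780) (nat_lit 1900) (nat_lit 0) (XT.nd (nat_lit 390) (nat_lit 380) (nat_lit 0) (XT.nd (nat_lit 156) (nat_lit 684) (nat_lit 0) (XT.nd (nat_lit 78) (nat_lit 0) (nat_lit 0) (XT.lf (nat_lit 76) (nat_lit 11319983599) (nat_lit 0) (nat_lit 23509732140) (nat_lit 760) (nat_lit 1982198368) (nat_lit 96) (nat_lit 5) (nat_lit 95) (nat_lit 5) (nat_lit 105) (nat_lit 5) (nat_lit 307) (nat_lit 303) (nat_lit 170)) (XT.lf (nat_lit 76) (nat_lit 29529557731) (nat_lit 0) (nat_lit 7390202820) (nat_lit 760) (nat_lit 845156488) (nat_lit 96) (nat_lit 5) (nat_lit 95) (nat_lit 5) (nat_lit 105) (nat_lit 5) (nat_lit 308) (nat_lit 303) (nat_lit 169))) (XT.nd (nat_lit 78) (nat_lit 0) (nat_lit 0) (XT.lf (nat_lit 0) (nat_lit 645475323)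 (nat_lit 760) (nat_lit 28705940717) (nat_lit 836) (nat_lit 9398491798) (nat_lit 86) (nat_lit 5) (nat_lit 96) (nat_lit 5) (nat_lit 97) (nat_lit 5) (nat_lit 309) (nat_lit 303) (nat_lit 168)) (XT.nd (nat_lit 78) (nat_lit 0) (nat_lit 76) (XT.lf (nat_lit 0) (nat_lit 2442279513) (nat_lit 760) (nat_lit 10393448354) (nat_lit 836) (nat_lit 26934730089) (nat_lit 86) (nat_lit 5) (nat_lit 96) (nat_lit 5) (nat_lit 97) (nat_lit 5) (nat_lit 310) (nat_lit 303) (nat_lit 167)) (XT.lf (nat_lit 0) (nat_lit 4541351648) (nat_lit 760) (nat_lit 31783083539) (nat_lit 836) (nat_lit 4506983487) (nat_lit 87) (nat_lit 5) (nat_lit 97) (nat_lit 5) (nat_lit 98) (nat_lit 5) (nat_lit 311) (nat_lit 303) (nat_lit 166))))) (XT.nd (nat_lit 156) (nat_lit 456) (nat_lit 0) (XT.nd (nat_lit 78) (nat_lit 0) (nat_lit 0) (XT.lf (nat_lit 0) (nat_lit 7132083540) (nat_lit 760) (nat_lit 12329052867) (nat_lit 836) (nat_lit 22464959983)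 (nat_lit 87) (nat_lit 5) (nat_lit 97) (nat_lit 5) (nat_lit 98) (nat_lit 5) (nat_lit 312) (nat_lit 303) (nat_lit 165)) (XT.lf (nat_lit 76) (nat_lit 8363296200) (nat_lit 0) (nat_lit 1617135806) (nat_lit 836) (nat_lit 33088676051) (nat_lit 88) (nat_lit 5) (nat_lit 87) (nat_lit 5) (nat_lit 98) (nat_lit 5) (nat_lit 313) (nat_lit 303) (nat_lit 164))) (XT.nd (nat_lit 78) (nat_lit 532) (nat_lit 0) (XT.lf (nat_lit 0) (nat_lit 13448294423) (nat_lit 760) (nat_lit 14013388071) (nat_lit 76) (nat_lit 16783736860) (nat_lit 88) (nat_lit 5) (nat_lit 98) (nat_lit 5) (nat_lit 89) (nat_lit 5) (nat_lit 314) (nat_lit 303) (nat_lit 163)) (XT.nd (nat_lit 78) (nat_lit 0) (nat_lit 0) (XT.lf (nat_lit 0) (nat_lit 7939195285) (nat_lit 532) (nat_lit 9298531088) (nat_lit 608) (nat_lit 28235414710) (nat_lit 81) (nat_lit 5) (nat_lit 88) (nat_lit 5) (nat_lit 89) (nat_lit 5) (nat_lit 315) (nat_lit 303) (nat_lit 162))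 (XT.lf (nat_lit 0) (nat_lit 21608217607) (nat_lit 608) (nat_lit 15433071539) (nat_lit 76) (nat_lit 9701383881) (nat_lit 81) (nat_lit 5) (nat_lit 89) (nat_lit 5) (nat_lit 82) (nat_lit 5) (nat_lit 316) (nat_lit 303) (nat_lit 161)))))) (XT.nd (nat_lit 390) (nat_lit 912) (nat_lit 0) (XT.nd (nat_lit 156) (nat_lit 608) (nat_lit 0) (XT.nd (nat_lit 78) (nat_lit 0) (nat_lit 0) (XT.lf (nat_lit 0) (nat_lit 7870272400) (nat_lit 380) (nat_lit 18600171211) (nat_lit 456) (nat_lit 21591580792) (nat_lit 76) (nat_lit 5) (nat_lit 81) (nat_lit 5) (nat_lit 82) (nat_lit 5) (nat_lit 317) (nat_lit 303) (nat_lit 160)) (XT.lf (nat_lit 0) (nat_lit 31851312263) (nat_lit 456) (nat_lit 16577996789) (nat_lit 76) (nat_lit 1004260912) (nat_lit 76) (nat_lit 5) (nat_lit 82) (nat_lit 5) (nat_lit 77) (nat_lit 5) (nat_lit 318) (nat_lit 303) (nat_lit 159))) (XT.nd (nat_lit 78) (nat_lit 304) (nat_lit 0) (XT.lf (nat_lit 0)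 (nat_lit 8171040730) (nat_lit 304) (nat_lit 29760741595) (nat_lit 380) (nat_lit 12920385615) (nat_lit 72) (nat_lit 5) (nat_lit 76) (nat_lit 5) (nat_lit 77) (nat_lit 5) (nat_lit 319) (nat_lit 303) (nat_lit 158)) (XT.nd (nat_lit 78) (nat_lit 304) (nat_lit 0) (XT.lf (nat_lit 0) (nat_lit 34731104195) (nat_lit 304) (nat_lit 9864053701) (nat_lit 380) (nat_lit 7732596707) (nat_lit 72) (nat_lit 5) (nat_lit 76) (nat_lit 5) (nat_lit 77) (nat_lit 5) (nat_lit 320) (nat_lit 303) (nat_lit 157)) (XT.lf (nat_lit 0) (nat_lit 8851201351) (nat_lit 304) (nat_lit 43049075991) (nat_lit 380) (nat_lit 1961417254) (nat_lit 68) (nat_lit 5) (nat_lit 72) (nat_lit 5) (nat_lit 73) (nat_lit 5) (nat_lit 321) (nat_lit 303) (nat_lit 156))))) (XT.nd (nat_lit 234) (nat_lit 532) (nat_lit 0) (XT.nd (nat_lit 78) (nat_lit 304) (nat_lit 0) (XT.lf (nat_lit 0) (nat_lit 4429985450) (nat_lit 380) (nat_lit 18457648858) (nat_lit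 76) (nat_lit 32558358655) (nat_lit 67) (nat_lit 5) (nat_lit 72) (nat_lit 5) (nat_lit 68) (nat_lit 5) (nat_lit 322) (nat_lit 303) (nat_lit 155)) (XT.nd (nat_lit 78) (nat_lit 0) (nat_lit 0) (XT.lf (nat_lit 0) (nat_lit 9699212182) (nat_lit 304) (nat_lit 1525582647) (nat_lit 380) (nat_lit 45875618428) (nat_lit 63) (nat_lit 5) (nat_lit 67) (nat_lit 5) (nat_lit 68) (nat_lit 5) (nat_lit 323) (nat_lit 303) (nat_lit 154)) (XT.lf (nat_lit 0) (nat_lit 19001805182) (nat_lit 380) (nat_lit 19250659905) (nat_lit 76) (nat_lit 20552968716) (nat_lit 63) (nat_lit 5) (nat_lit 68) (nat_lit 5) (nat_lit 64) (nat_lit 5) (nat_lit 324) (nat_lit 303) (nat_lit 153)))) (XT.nd (nat_lit 78) (nat_lit 228) (nat_lit 0) (XT.lf (nat_lit 0) (nat_lit 10620457248) (nat_lit 304) (nat_lit 16736479103) (nat_lit 380) (nat_lit 33229307667) (nat_lit 59) (nat_lit 5) (nat_lit 63) (nat_lit 5) (nat_lit 64) (nat_lit 5) (nat_lit 325)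 (nat_lit 303) (nat_lit 152)) (XT.nd (nat_lit 78) (nat_lit 228) (nat_lit 0) (XT.lf (nat_lit 0) (nat_lit 36551091640) (nat_lit 380) (nat_lit 19884991287) (nat_lit 76) (nat_lit 5998950492) (nat_lit 59) (nat_lit 5) (nat_lit 64) (nat_lit 5) (nat_lit 60) (nat_lit 5) (nat_lit 326) (nat_lit 303) (nat_lit 151)) (XT.lf (nat_lit 0) (nat_lit 11801379111) (nat_lit 228) (nat_lit 34860754792) (nat_lit 304) (nat_lit 17691271383) (nat_lit 56) (nat_lit 5) (nat_lit 59) (nat_lit 5) (nat_lit 60) (nat_lit 5) (nat_lit 327) (nat_lit 303) (nat_lit 150))))))))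
noncomputable def xc215 : XT := (XT.nd (nat_lit 1638) (nat_lit 1064) (nat_lit 0) (XT.nd (nat_lit 780) (nat_lit 912) (nat_lit 0) (XT.nd (nat_lit 390) (nat_lit 684) (nat_lit 0) (XT.nd (nat_lit 156) (nat_lit 228) (nat_lit 0) (XT.nd (nat_lit 78) (nat_lit 304) (nat_lit 0) (XT.lf (nat_lit 0) (nat_lit 45760645104) (nat_lit 228) (nat_lit 11853444016) (nat_lit 304) (nat_lit 8736840445) (nat_lit 56) (nat_lit 5) (nat_lit 59) (nat_lit 5) (nat_lit 60) (nat_lit 5) (nat_lit 328) (nat_lit 303) (nat_lit 149)) (XT.lf (nat_lit 0) (nat_lit 1047344250) (nat_lit 304) (nat_lit 55247283653) (nat_lit 76) (nat_lit 12133018158) (nat_lit 52) (nat_lit 5) (nat_lit 56) (nat_lit 5) (nat_lit 53) (nat_lit 5) (nat_lit 329) (nat_lit 303) (nat_lit 148))) (XT.nd (nat_lit 78) (nat_lit 228) (nat_lit 0) (XT.lf (nat_lit 0) (nat_lit 11574538375) (nat_lit 304) (nat_lit 21581415146) (nat_lit 76) (nat_lit 37417714360) (nat_lit 52)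 (nat_lit 5) (nat_lit 56) (nat_lit 5) (nat_lit 53) (nat_lit 5) (nat_lit 330) (nat_lit 303) (nat_lit 147)) (XT.nd (nat_lit 78) (nat_lit 0) (nat_lit 0) (XT.lf (nat_lit 0) (nat_lit 14221219633) (nat_lit 228) (nat_lit 8627642467) (nat_lit 304) (nat_lit 49967091729) (nat_lit 49) (nat_lit 5) (nat_lit 52) (nat_lit 5) (nat_lit 53) (nat_lit 5) (nat_lit 331) (nat_lit 303) (nat_lit 146)) (XT.lf (nat_lit 0) (nat_lit 35324551238) (nat_lit 304) (nat_lit 22863952508) (nat_lit 76) (nat_lit 16949969326) (nat_lit 49) (nat_lit 5) (nat_lit 53) (nat_lit 5) (nat_lit 50) (nat_lit 5) (nat_lit 332) (nat_lit 303) (nat_lit 145))))) (XT.nd (nat_lit 156) (nat_lit 456) (nat_lit 0) (XT.nd (nat_lit 78) (nat_lit 0) (nat_lit 0) (XT.lf (nat_lit 0) (nat_lit 14990065575) (nat_lit 228) (nat_lit 33808255875) (nat_lit 304) (nat_lit 28760083388) (nat_lit 46) (nat_lit 5) (nat_lit 49) (nat_lit 5) (nat_lit 50) (nat_lit 5) (nat_lit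 333) (nat_lit 303) (nat_lit 144)) (XT.lf (nat_lit 0) (nat_lit 55528954204) (nat_lit 228) (nat_lit 7802891824) (nat_lit 304) (nat_lit 16748185194) (nat_lit 46) (nat_lit 5) (nat_lit 49) (nat_lit 5) (nat_lit 50) (nat_lit 5) (nat_lit 334) (nat_lit 303) (nat_lit 143))) (XT.nd (nat_lit 78) (nat_lit 304) (nat_lit 0) (XT.lf (nat_lit 0) (nat_lit 15558952428) (nat_lit 152) (nat_lit 63579407060) (nat_lit 228) (nat_lit 3562065065) (nat_lit 44) (nat_lit 5) (nat_lit 46) (nat_lit 5) (nat_lit 47) (nat_lit 5) (nat_lit 335) (nat_lit 303) (nat_lit 142)) (XT.nd (nat_lit 78) (nat_lit 228) (nat_lit 0) (XT.lf (nat_lit 0) (nat_lit 10503656648) (nat_lit 228) (nat_lit 27201090198) (nat_lit 76) (nat_lit 47711592876) (nat_lit 43) (nat_lit 5) (nat_lit 46) (nat_lit 5) (nat_lit 44) (nat_lit 5) (nat_lit 336) (nat_lit 303) (nat_lit 141)) (XT.lf (nat_lit 0) (nat_lit 15161661616) (nat_lit 228) (nat_lit 10226972581) (nat_lit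 304) (nat_lit 62864713891) (nat_lit 40) (nat_lit 5) (nat_lit 43) (nat_lit 5) (nat_lit 44) (nat_lit 5) (nat_lit 337) (nat_lit 303) (nat_lit 140)))))) (XT.nd (nat_lit 390) (nat_lit 532) (nat_lit 0) (XT.nd (nat_lit 156) (nat_lit 228) (nat_lit 0) (XT.nd (nat_lit 78) (nat_lit 152) (nat_lit 0) (XT.lf (nat_lit 0) (nat_lit 41775840613) (nat_lit 304) (nat_lit 30922139735) (nat_lit 76) (nat_lit 18496328563) (nat_lit 40) (nat_lit 5) (nat_lit 44) (nat_lit 5) (nat_lit 41) (nat_lit 5) (nat_lit 338) (nat_lit 303) (nat_lit 139)) (XT.lf (nat_lit 0) (nat_lit 13622774315) (nat_lit 152) (nat_lit 45739007424) (nat_lit 228) (nat_lit 34901568304) (nat_lit 38) (nat_lit 5) (nat_lit 40) (nat_lit 5) (nat_lit 41) (nat_lit 5) (nat_lit 339) (nat_lit 303) (nat_lit 138))) (XT.nd (nat_lit 78) (nat_lit 228) (nat_lit 0) (XT.lf (nat_lit 0) (nat_lit 61467036033) (nat_lit 152) (nat_lit 16882718363) (nat_lit 228) (nat_lit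 19109953052) (nat_lit 38) (nat_lit 5) (nat_lit 40) (nat_lit 5) (nat_lit 41) (nat_lit 5) (nat_lit 340) (nat_lit 303) (nat_lit 137)) (XT.nd (nat_lit 78) (nat_lit 76) (nat_lit 0) (XT.lf (nat_lit 0) (nat_lit 11029767503) (nat_lit 152) (nat_lit 87638121902) (nat_lit 228) (nat_lit 2128956030) (nat_lit 36) (nat_lit 5) (nat_lit 38) (nat_lit 5) (nat_lit 39) (nat_lit 5) (nat_lit 341) (nat_lit 303) (nat_lit 136)) (XT.lf (nat_lit 0) (nat_lit 16093966690) (nat_lit 228) (nat_lit 43150769125) (nat_lit 76) (nat_lit 44999077974) (nat_lit 35) (nat_lit 5) (nat_lit 38) (nat_lit 5) (nat_lit 36) (nat_lit 5) (nat_lit 342) (nat_lit 303) (nat_lit 135))))) (XT.nd (nat_lit 234) (nat_lit 380) (nat_lit 0) (XT.nd (nat_lit 78) (nat_lit 0) (nat_lit 0) (XT.lf (nat_lit 0) (nat_lit 5950554307) (nat_lit 152) (nat_lit 29297979140) (nat_lit 228) (nat_lit 72608250605) (nat_lit 33) (nat_lit 5) (nat_lit 35) (nat_lit 5) (nat_lit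 36) (nat_lit 5) (nat_lit 343) (nat_lit 303) (nat_lit 134)) (XT.nd (nat_lit 78) (nat_lit 0) (nat_lit 0) (XT.lf (nat_lit 0) (nat_lit 56136246959) (nat_lit 228) (nat_lit 52655677531) (nat_lit 76) (nat_lit 2819708154) (nat_lit 33) (nat_lit 5) (nat_lit 36) (nat_lit 5) (nat_lit 34) (nat_lit 5) (nat_lit 344) (nat_lit 303) (nat_lit 133)) (XT.lf (nat_lit 0) (nat_lit 78547833648) (nat_lit 228) (nat_lit 1424195281) (nat_lit 76) (nat_lit 35558221064) (nat_lit 33) (nat_lit 5) (nat_lit 36) (nat_lit 5) (nat_lit 34) (nat_lit 5) (nat_lit 345) (nat_lit 303) (nat_lit 132)))) (XT.nd (nat_lit 78) (nat_lit 228) (nat_lit 0) (XT.lf (nat_lit 0) (nat_lit 54099130310) (nat_lit 152) (nat_lit 48824739599) (nat_lit 228) (nat_lit 16678735455) (nat_lit 31) (nat_lit 5) (nat_lit 33) (nat_lit 5) (nat_lit 34) (nat_lit 5) (nat_lit 346) (nat_lit 303) (nat_lit 131)) (XT.nd (nat_lit 78) (nat_lit 152) (nat_lit 0) (XT.lf (nat_lit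 0) (nat_lit 4515367013) (nat_lit 228) (nat_lit 11503392990) (nat_lit 76) (nat_lit 107855009305) (nat_lit 30) (nat_lit 5) (nat_lit 33) (nat_lit 5) (nat_lit 31) (nat_lit 5) (nat_lit 347) (nat_lit 303) (nat_lit 130)) (XT.lf (nat_lit 0) (nat_lit 27236539900) (nat_lit 228) (nat_lit 82205277095) (nat_lit 76) (nat_lit 18851609926) (nat_lit 28) (nat_lit 5) (nat_lit 31) (nat_lit 5) (nat_lit 29) (nat_lit 5) (nat_lit 348) (nat_lit 303) (nat_lit 129))))))) (XT.nd (nat_lit 780) (nat_lit 532) (nat_lit 0) (XT.nd (nat_lit 390) (nat_lit 228) (nat_lit 0) (XT.nd (nat_lit 156) (nat_lit 152) (nat_lit 0) (XT.nd (nat_lit 78) (nat_lit 152) (nat_lit 0) (XT.lf (nat_lit 0) (nat_lit 51553664775) (nat_lit 228) (nat_lit 26232678476) (nat_lit 76) (nat_lit 55124730048) (nat_lit 28) (nat_lit 5) (nat_lit 31) (nat_lit 5) (nat_lit 29) (nat_lit 5) (nat_lit 349) (nat_lit 303) (nat_lit 128)) (XT.lf (nat_lit 0) (nat_lit 33613243665)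 (nat_lit 152) (nat_lit 43997514874) (nat_lit 228) (nat_lit 60122638349) (nat_lit 26) (nat_lit 5) (nat_lit 28) (nat_lit 5) (nat_lit 29) (nat_lit 5) (nat_lit 350) (nat_lit 303) (nat_lit 127))) (XT.nd (nat_lit 78) (nat_lit 152) (nat_lit 0) (XT.lf (nat_lit 0) (nat_lit 97361079543) (nat_lit 152) (nat_lit 8053221334) (nat_lit 228) (nat_lit 37360356583) (nat_lit 26) (nat_lit 5) (nat_lit 28) (nat_lit 5) (nat_lit 29) (nat_lit 5) (nat_lit 351) (nat_lit 303) (nat_lit 126)) (XT.nd (nat_lit 78) (nat_lit 76) (nat_lit 0) (XT.lf (nat_lit 0) (nat_lit 16284934463) (nat_lit 76) (nat_lit 119040212616) (nat_lit 152) (nat_lit 12706978121) (nat_lit 25) (nat_lit 5) (nat_lit 26) (nat_lit 5) (nat_lit 27) (nat_lit 4) (nat_lit 352) (nat_lit 303) (nat_lit 125)) (XT.lf (nat_lit 0) (nat_lit 13670344911) (nat_lit 152) (nat_lit 71220470289) (nat_lit 76) (nat_lit 68605709038) (nat_lit 24) (nat_lit 5) (nat_lit 26) (nat_lit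 5) (nat_lit 25) (nat_lit 5) (nat_lit 353) (nat_lit 303) (nat_lit 124))))) (XT.nd (nat_lit 156) (nat_lit 76) (nat_lit 0) (XT.nd (nat_lit 78) (nat_lit 152) (nat_lit 0) (XT.lf (nat_lit 0) (nat_lit 40938885848) (nat_lit 152) (nat_lit 7876770567) (nat_lit 76) (nat_lit 110408102190) (nat_lit 24) (nat_lit 5) (nat_lit 26) (nat_lit 5) (nat_lit 25) (nat_lit 5) (nat_lit 354) (nat_lit 303) (nat_lit 123)) (XT.lf (nat_lit 0) (nat_lit 60571793987) (nat_lit 152) (nat_lit 9944173912) (nat_lit 228) (nat_lit 94674131480) (nat_lit 22) (nat_lit 5) (nat_lit 24) (nat_lit 5) (nat_lit 25) (nat_lit 5) (nat_lit 355) (nat_lit 303) (nat_lit 122))) (XT.nd (nat_lit 78) (nat_lit 76) (nat_lit 0) (XT.lf (nat_lit 0) (nat_lit 102188893389) (nat_lit 228) (nat_lit 39217006904) (nat_lit 76) (nat_lit 30018007803) (nat_lit 22) (nat_lit 5) (nat_lit 25) (nat_lit 5) (nat_lit 23) (nat_lit 4) (nat_lit 356) (nat_lit 303) (nat_lit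 121)) (XT.nd (nat_lit 78) (nat_lit 0) (nat_lit 0) (XT.lf (nat_lit 0) (nat_lit 30258855135) (nat_lit 76) (nat_lit 105821506778) (nat_lit 152) (nat_lit 41857300853) (nat_lit 21) (nat_lit 5) (nat_lit 22) (nat_lit 5) (nat_lit 23) (nat_lit 4) (nat_lit 357) (nat_lit 303) (nat_lit 120)) (XT.lf (nat_lit 0) (nat_lit 104569097133) (nat_lit 76) (nat_lit 67760929139) (nat_lit 152) (nat_lit 12413898115) (nat_lit 21) (nat_lit 5) (nat_lit 22) (nat_lit 5) (nat_lit 23) (nat_lit 4) (nat_lit 358) (nat_lit 303) (nat_lit 119)))))) (XT.nd (nat_lit 390) (nat_lit 228) (nat_lit 0) (XT.nd (nat_lit 156) (nat_lit 76) (nat_lit 0) (XT.nd (nat_lit 78) (nat_lit 152) (nat_lit 0) (XT.lf (nat_lit 0) (nat_lit 17908985906) (nat_lit 152) (nat_lit 9585422694) (nat_lit 76) (nat_lit 164381673631) (nat_lit 20) (nat_lit 5) (nat_lit 22) (nat_lit 5) (nat_lit 21) (nat_lit 5) (nat_lit 359) (nat_lit 303) (nat_lit 118)) (XT.lf (nat_lit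 0) (nat_lit 50619078280) (nat_lit 228) (nat_lit 133097914177) (nat_lit 76) (nat_lit 15573267848) (nat_lit 18) (nat_lit 5) (nat_lit 21) (nat_lit 5) (nat_lit 19) (nat_lit 4) (nat_lit 360) (nat_lit 303) (nat_lit 117))) (XT.nd (nat_lit 78) (nat_lit 76) (nat_lit 0) (XT.lf (nat_lit 0) (nat_lit 85579907755) (nat_lit 228) (nat_lit 61429505347) (nat_lit 76) (nat_lit 60034972837) (nat_lit 18) (nat_lit 5) (nat_lit 21) (nat_lit 5) (nat_lit 19) (nat_lit 4) (nat_lit 361) (nat_lit 303) (nat_lit 116)) (XT.nd (nat_lit 78) (nat_lit 0) (nat_lit 0) (XT.lf (nat_lit 0) (nat_lit 14278493302) (nat_lit 76) (nat_lit 108232745544) (nat_lit 152) (nat_lit 92663856264) (nat_lit 17) (nat_lit 5) (nat_lit 18) (nat_lit 5) (nat_lit 19) (nat_lit 4) (nat_lit 362) (nat_lit 303) (nat_lit 115)) (XT.lf (nat_lit 0) (nat_lit 95903767434) (nat_lit 76) (nat_lit 66425249775) (nat_lit 152) (nat_lit 61331328748) (nat_lit 17) (nat_lit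 5) (nat_lit 18) (nat_lit 5) (nat_lit 19) (nat_lit 4) (nat_lit 363) (nat_lit 303) (nat_lit 114))))) (XT.nd (nat_lit 234) (nat_lit 76) (nat_lit 0) (XT.nd (nat_lit 78) (nat_lit 152) (nat_lit 0) (XT.lf (nat_lit 0) (nat_lit 181609526067) (nat_lit 76) (nat_lit 22527722536) (nat_lit 152) (nat_lit 28432632776) (nat_lit 17) (nat_lit 5) (nat_lit 18) (nat_lit 5) (nat_lit 19) (nat_lit 4) (nat_lit 364) (nat_lit 303) (nat_lit 113)) (XT.nd (nat_lit 78) (nat_lit 0) (nat_lit 0) (XT.lf (nat_lit 0) (nat_lit 6769365376) (nat_lit 152) (nat_lit 211716035424) (nat_lit 76) (nat_lit 23392024627) (nat_lit 15) (nat_lit 5) (nat_lit 17) (nat_lit 5) (nat_lit 16) (nat_lit 4) (nat_lit 365) (nat_lit 303) (nat_lit 112)) (XT.lf (nat_lit 0) (nat_lit 44022015072) (nat_lit 152) (nat_lit 135349067352) (nat_lit 76) (nat_lit 72193655297) (nat_lit 15) (nat_lit 5) (nat_lit 17) (nat_lit 5) (nat_lit 16) (nat_lit 4) (nat_lit 366)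 (nat_lit 303) (nat_lit 111)))) (XT.nd (nat_lit 78) (nat_lit 76) (nat_lit 0) (XT.lf (nat_lit 0) (nat_lit 83136898369) (nat_lit 152) (nat_lit 55164474505) (nat_lit 76) (nat_lit 123435062897) (nat_lit 15) (nat_lit 5) (nat_lit 17) (nat_lit 5) (nat_lit 16) (nat_lit 4) (nat_lit 367) (nat_lit 303) (nat_lit 110)) (XT.nd (nat_lit 78) (nat_lit 0) (nat_lit 0) (XT.lf (nat_lit 0) (nat_lit 29988477371) (nat_lit 76) (nat_lit 94686872742) (nat_lit 152) (nat_lit 147717977583) (nat_lit 14) (nat_lit 5) (nat_lit 15) (nat_lit 5) (nat_lit 16) (nat_lit 4) (nat_lit 368) (nat_lit 303) (nat_lit 109)) (XT.lf (nat_lit 0) (nat_lit 121313584777) (nat_lit 76) (nat_lit 47911004350) (nat_lit 152) (nat_lit 114311782037) (nat_lit 14) (nat_lit 5) (nat_lit 15) (nat_lit 5) (nat_lit 16) (nat_lit 4) (nat_lit 369) (nat_lit 303) (nat_lit 108))))))))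
noncomputable def xc216 : XT := (XT.nd (nat_lit 36348) (nat_lit 0) (nat_lit 2660) (XT.nd (nat_lit 35568) (nat_lit 0) (nat_lit 5700) (XT.nd (nat_lit 390) (nat_lit 76) (nat_lit 0) (XT.nd (nat_lit 156) (nat_lit 76) (nat_lit 0) (XT.nd (nat_lit 78) (nat_lit 76) (nat_lit 0) (XT.lf (nat_lit 0) (nat_lit 216019723358) (nat_lit 152) (nat_lit 78051070844) (nat_lit 0) (nat_lit 1164851110) (nat_lit 14) (nat_lit 5) (nat_lit 16) (nat_lit 4) (nat_lit 14) (nat_lit 4) (nat_lit 370) (nat_lit 303) (nat_lit 107)) (XT.lf (nat_lit 0) (nat_lit 9858716950) (nat_lit 76) (nat_lit 256234903757) (nat_lit 76) (nat_lit 41379312303) (nat_lit 13) (nat_lit 4) (nat_lit 14) (nat_lit 5) (nat_lit 14) (nat_lit 4) (nat_lit 371) (nat_lit 303) (nat_lit 106))) (XT.nd (nat_lit 78) (nat_lit 76) (nat_lit 0) (XT.lf (nat_lit 0) (nat_lit 104873133456) (nat_lit 76) (nat_lit 215119576672) (nat_lit 76) (nat_lit 263300258) (nat_lit 13)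 (nat_lit 4) (nat_lit 14) (nat_lit 5) (nat_lit 14) (nat_lit 4) (nat_lit 372) (nat_lit 303) (nat_lit 105)) (XT.nd (nat_lit 78) (nat_lit 0) (nat_lit 0) (XT.lf (nat_lit 0) (nat_lit 41534847168) (nat_lit 152) (nat_lit 129710492058) (nat_lit 76) (nat_lit 162399422681) (nat_lit 12) (nat_lit 5) (nat_lit 14) (nat_lit 5) (nat_lit 13) (nat_lit 4) (nat_lit 373) (nat_lit 303) (nat_lit 104)) (XT.lf (nat_lit 0) (nat_lit 85413743968) (nat_lit 152) (nat_lit 39759374897) (nat_lit 76) (nat_lit 222529631924) (nat_lit 12) (nat_lit 5) (nat_lit 14) (nat_lit 5) (nat_lit 13) (nat_lit 4) (nat_lit 374) (nat_lit 303) (nat_lit 103))))) (XT.nd (nat_lit 156) (nat_lit 0) (nat_lit 0) (XT.nd (nat_lit 78) (nat_lit 0) (nat_lit 0) (XT.lf (nat_lit 0) (nat_lit 56497011948) (nat_lit 76) (nat_lit 75871355697) (nat_lit 152) (nat_lit 230051182494) (nat_lit 11) (nat_lit 5) (nat_lit 12) (nat_lit 5) (nat_lit 13) (nat_lit 4) (nat_lit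 375) (nat_lit 303) (nat_lit 102)) (XT.lf (nat_lit 0) (nat_lit 158946039230) (nat_lit 76) (nat_lit 23397738561) (nat_lit 152) (nat_lit 195494759023) (nat_lit 11) (nat_lit 5) (nat_lit 12) (nat_lit 5) (nat_lit 13) (nat_lit 4) (nat_lit 376) (nat_lit 303) (nat_lit 101))) (XT.nd (nat_lit 78) (nat_lit 0) (nat_lit 0) (XT.lf (nat_lit 0) (nat_lit 235312598546) (nat_lit 152) (nat_lit 128006393295) (nat_lit 0) (nat_lit 30684749092) (nat_lit 11) (nat_lit 5) (nat_lit 13) (nat_lit 4) (nat_lit 11) (nat_lit 4) (nat_lit 377) (nat_lit 303) (nat_lit 100)) (XT.nd (nat_lit 34866) (nat_lit 0) (nat_lit 6308) (XT.lf (nat_lit 0) (nat_lit 291313164242) (nat_lit 152) (nat_lit 32960047931) (nat_lit 0) (nat_lit 86684828001) (nat_lit 11) (nat_lit 5) (nat_lit 13) (nat_lit 4) (nat_lit 11) (nat_lit 4) (nat_lit 378) (nat_lit 303) (nat_lit 99)) (XT.lf (nat_lit 0) (nat_lit 7769804969) (nat_lit 0) (nat_lit 7769804969) (nat_lit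 684) (nat_lit 1955197832) (nat_lit 94) (nat_lit 5) (nat_lit 94) (nat_lit 3) (nat_lit 103) (nat_lit 3) (nat_lit 304) (nat_lit 304) (nat_lit 172)))))) (XT.nd (nat_lit 390) (nat_lit 608) (nat_lit 0) (XT.nd (nat_lit 156) (nat_lit 0) (nat_lit 0) (XT.nd (nat_lit 78) (nat_lit 0) (nat_lit 0) (XT.lf (nat_lit 0) (nat_lit 31915038772) (nat_lit 684) (nat_lit 3417567353) (nat_lit 760) (nat_lit 528718512) (nat_lit 94) (nat_lit 5) (nat_lit 103) (nat_lit 3) (nat_lit 104) (nat_lit 5) (nat_lit 305) (nat_lit 304) (nat_lit 171)) (XT.lf (nat_lit 76) (nat_lit 13595070108) (nat_lit 0) (nat_lit 19661387982) (nat_lit 760) (nat_lit 3496976346) (nat_lit 95) (nat_lit 5) (nat_lit 94) (nat_lit 5) (nat_lit 104) (nat_lit 5) (nat_lit 306) (nat_lit 304) (nat_lit 170))) (XT.nd (nat_lit 78) (nat_lit 0) (nat_lit 76) (XT.lf (nat_lit 76) (nat_lit 31575216588) (nat_lit 0) (nat_lit 3144539049) (nat_lit 760) (nat_lit 2967659173)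 (nat_lit 95) (nat_lit 5) (nat_lit 94) (nat_lit 5) (nat_lit 104) (nat_lit 5) (nat_lit 307) (nat_lit 304) (nat_lit 169)) (XT.nd (nat_lit 78) (nat_lit 0) (nat_lit 0) (XT.lf (nat_lit 76) (nat_lit 11945060407) (nat_lit 0) (nat_lit 24716421109) (nat_lit 760) (nat_lit 1986354703) (nat_lit 96) (nat_lit 5) (nat_lit 95) (nat_lit 5) (nat_lit 105) (nat_lit 5) (nat_lit 308) (nat_lit 304) (nat_lit 168)) (XT.lf (nat_lit 76) (nat_lit 31062300025) (nat_lit 0) (nat_lit 7789429496) (nat_lit 760) (nat_lit 796982328) (nat_lit 96) (nat_lit 5) (nat_lit 95) (nat_lit 5) (nat_lit 105) (nat_lit 5) (nat_lit 309) (nat_lit 304) (nat_lit 167))))) (XT.nd (nat_lit 156) (nat_lit 0) (nat_lit 76) (XT.nd (nat_lit 78) (nat_lit 0) (nat_lit 0) (XT.lf (nat_lit 0) (nat_lit 761624302) (nat_lit 760) (nat_lit 30078133954) (nat_lit 836) (nat_lit 9843313351) (nat_lit 86) (nat_lit 5) (nat_lit 96) (nat_lit 5) (nat_lit 97) (nat_lit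 5) (nat_lit 310) (nat_lit 304) (nat_lit 166)) (XT.lf (nat_lit 0) (nat_lit 2644274643) (nat_lit 760) (nat_lit 10853021915) (nat_lit 836) (nat_lit 28257558939) (nat_lit 86) (nat_lit 5) (nat_lit 96) (nat_lit 5) (nat_lit 97) (nat_lit 5) (nat_lit 311) (nat_lit 304) (nat_lit 165))) (XT.nd (nat_lit 78) (nat_lit 0) (nat_lit 0) (XT.lf (nat_lit 0) (nat_lit 4845140683) (nat_lit 760) (nat_lit 33308854111) (nat_lit 836) (nat_lit 4715033695) (nat_lit 87) (nat_lit 5) (nat_lit 97) (nat_lit 5) (nat_lit 98) (nat_lit 5) (nat_lit 312) (nat_lit 304) (nat_lit 164)) (XT.nd (nat_lit 78) (nat_lit 0) (nat_lit 0) (XT.lf (nat_lit 0) (nat_lit 7561755767) (nat_lit 760) (nat_lit 12885140172) (nat_lit 836) (nat_lit 23571732776) (nat_lit 87) (nat_lit 5) (nat_lit 97) (nat_lit 5) (nat_lit 98) (nat_lit 5) (nat_lit 313) (nat_lit 304) (nat_lit 163)) (XT.lf (nat_lit 76) (nat_lit 8840852714) (nat_lit 0) (nat_lit 1709116783)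 (nat_lit 836) (nat_lit 34668954749) (nat_lit 88) (nat_lit 5) (nat_lit 87) (nat_lit 5) (nat_lit 98) (nat_lit 5) (nat_lit 314) (nat_lit 304) (nat_lit 162))))))) (XT.nd (nat_lit 780) (nat_lit 1292) (nat_lit 0) (XT.nd (nat_lit 390) (nat_lit 988) (nat_lit 0) (XT.nd (nat_lit 156) (nat_lit 380) (nat_lit 0) (XT.nd (nat_lit 78) (nat_lit 532) (nat_lit 0) (XT.lf (nat_lit 0) (nat_lit 14187701725) (nat_lit 760) (nat_lit 14653862619) (nat_lit 76) (nat_lit 17612668329) (nat_lit 88) (nat_lit 5) (nat_lit 98) (nat_lit 5) (nat_lit 89) (nat_lit 5) (nat_lit 315) (nat_lit 304) (nat_lit 161)) (XT.lf (nat_lit 0) (nat_lit 8395379020) (nat_lit 532) (nat_lit 9768960782) (nat_lit 608) (nat_lit 29579119104) (nat_lit 81) (nat_lit 5) (nat_lit 88) (nat_lit 5) (nat_lit 89) (nat_lit 5) (nat_lit 316) (nat_lit 304) (nat_lit 160))) (XT.nd (nat_lit 78) (nat_lit 380) (nat_lit 0) (XT.lf (nat_lit 0) (nat_lit 22750191527) (nat_lit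 608) (nat_lit 16145059285) (nat_lit 76) (nat_lit 10181379738) (nat_lit 81) (nat_lit 5) (nat_lit 89) (nat_lit 5) (nat_lit 82) (nat_lit 5) (nat_lit 317) (nat_lit 304) (nat_lit 159)) (XT.nd (nat_lit 78) (nat_lit 0) (nat_lit 0) (XT.lf (nat_lit 0) (nat_lit 8322489498) (nat_lit 380) (nat_lit 19531024284) (nat_lit 456) (nat_lit 22608541129) (nat_lit 76) (nat_lit 5) (nat_lit 81) (nat_lit 5) (nat_lit 82) (nat_lit 5) (nat_lit 318) (nat_lit 304) (nat_lit 158)) (XT.lf (nat_lit 0) (nat_lit 33500577692) (nat_lit 456) (nat_lit 17348051510) (nat_lit 76) (nat_lit 1053695402) (nat_lit 76) (nat_lit 5) (nat_lit 82) (nat_lit 5) (nat_lit 77) (nat_lit 5) (nat_lit 319) (nat_lit 304) (nat_lit 157))))) (XT.nd (nat_lit 156) (nat_lit 684) (nat_lit 0) (XT.nd (nat_lit 78) (nat_lit 0) (nat_lit 0) (XT.lf (nat_lit 0) (nat_lit 8637488770) (nat_lit 304) (nat_lit 31245786414) (nat_lit 380) (nat_lit 13508671330) (nat_lit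 72) (nat_lit 5) (nat_lit 76) (nat_lit 5) (nat_lit 77) (nat_lit 5) (nat_lit 320) (nat_lit 304) (nat_lit 156)) (XT.lf (nat_lit 0) (nat_lit 36522798456) (nat_lit 304) (nat_lit 10354406614) (nat_lit 380) (nat_lit 8064242193) (nat_lit 72) (nat_lit 5) (nat_lit 76) (nat_lit 5) (nat_lit 77) (nat_lit 5) (nat_lit 321) (nat_lit 304) (nat_lit 155))) (XT.nd (nat_lit 78) (nat_lit 380) (nat_lit 0) (XT.lf (nat_lit 0) (nat_lit 9350618956) (nat_lit 304) (nat_lit 45195401646) (nat_lit 380) (nat_lit 2006145487) (nat_lit 68) (nat_lit 5) (nat_lit 72) (nat_lit 5) (nat_lit 73) (nat_lit 5) (nat_lit 322) (nat_lit 304) (nat_lit 154)) (XT.nd (nat_lit 78) (nat_lit 304) (nat_lit 0) (XT.lf (nat_lit 0) (nat_lit 4700661231) (nat_lit 380) (nat_lit 19324685638) (nat_lit 76) (nat_lit 34190417288) (nat_lit 67) (nat_lit 5) (nat_lit 72) (nat_lit 5) (nat_lit 68) (nat_lit 5) (nat_lit 323) (nat_lit 304) (nat_lit 153)) (XT.lf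 (nat_lit 0) (nat_lit 10239117718) (nat_lit 304) (nat_lit 1594609466) (nat_lit 380) (nat_lit 48119255791) (nat_lit 63) (nat_lit 5) (nat_lit 67) (nat_lit 5) (nat_lit 68) (nat_lit 5) (nat_lit 324) (nat_lit 304) (nat_lit 152)))))) (XT.nd (nat_lit 390) (nat_lit 760) (nat_lit 0) (XT.nd (nat_lit 156) (nat_lit 228) (nat_lit 0) (XT.nd (nat_lit 78) (nat_lit 304) (nat_lit 0) (XT.lf (nat_lit 0) (nat_lit 19997424815) (nat_lit 380) (nat_lit 20158638002) (nat_lit 76) (nat_lit 21587303051) (nat_lit 63) (nat_lit 5) (nat_lit 68) (nat_lit 5) (nat_lit 64) (nat_lit 5) (nat_lit 325) (nat_lit 304) (nat_lit 151)) (XT.lf (nat_lit 0) (nat_lit 11205155091) (nat_lit 304) (nat_lit 17563827403) (nat_lit 380) (nat_lit 34844303609) (nat_lit 59) (nat_lit 5) (nat_lit 63) (nat_lit 5) (nat_lit 64) (nat_lit 5) (nat_lit 326) (nat_lit 304) (nat_lit 150))) (XT.nd (nat_lit 78) (nat_lit 228) (nat_lit 0) (XT.lf (nat_lit 0) (nat_lit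 38420881714) (nat_lit 380) (nat_lit 20826100704) (nat_lit 76) (nat_lit 6307633612) (nat_lit 59) (nat_lit 5) (nat_lit 64) (nat_lit 5) (nat_lit 60) (nat_lit 5) (nat_lit 327) (nat_lit 304) (nat_lit 149)) (XT.nd (nat_lit 78) (nat_lit 0) (nat_lit 0) (XT.lf (nat_lit 0) (nat_lit 12443731114) (nat_lit 228) (nat_lit 36592550046) (nat_lit 304) (nat_lit 18532687804) (nat_lit 56) (nat_lit 5) (nat_lit 59) (nat_lit 5) (nat_lit 60) (nat_lit 5) (nat_lit 328) (nat_lit 304) (nat_lit 148)) (XT.lf (nat_lit 0) (nat_lit 48098470738) (nat_lit 228) (nat_lit 12435409088) (nat_lit 304) (nat_lit 9132589945) (nat_lit 56) (nat_lit 5) (nat_lit 59) (nat_lit 5) (nat_lit 60) (nat_lit 5) (nat_lit 329) (nat_lit 304) (nat_lit 147))))) (XT.nd (nat_lit 234) (nat_lit 228) (nat_lit 0) (XT.nd (nat_lit 78) (nat_lit 228) (nat_lit 0) (XT.lf (nat_lit 0) (nat_lit 1138562556) (nat_lit 304) (nat_lit 57957516414) (nat_lit 76) (nat_lit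 12750959712) (nat_lit 52) (nat_lit 5) (nat_lit 56) (nat_lit 5) (nat_lit 53) (nat_lit 5) (nat_lit 330) (nat_lit 304) (nat_lit 146)) (XT.nd (nat_lit 78) (nat_lit 228) (nat_lit 0) (XT.lf (nat_lit 0) (nat_lit 12190266335) (nat_lit 304) (nat_lit 22610836930) (nat_lit 76) (nat_lit 39299353073) (nat_lit 52) (nat_lit 5) (nat_lit 56) (nat_lit 5) (nat_lit 53) (nat_lit 5) (nat_lit 331) (nat_lit 304) (nat_lit 145)) (XT.lf (nat_lit 0) (nat_lit 14981128798) (nat_lit 228) (nat_lit 9046178151) (nat_lit 304) (nat_lit 52427601738) (nat_lit 49) (nat_lit 5) (nat_lit 52) (nat_lit 5) (nat_lit 53) (nat_lit 5) (nat_lit 332) (nat_lit 304) (nat_lit 144)))) (XT.nd (nat_lit 78) (nat_lit 228) (nat_lit 0) (XT.lf (nat_lit 0) (nat_lit 37125257193) (nat_lit 304) (nat_lit 23959063993) (nat_lit 76) (nat_lit 17809310910) (nat_lit 49) (nat_lit 5) (nat_lit 53) (nat_lit 5) (nat_lit 50) (nat_lit 5) (nat_lit 333) (nat_lit 304)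 (nat_lit 143)) (XT.nd (nat_lit 78) (nat_lit 0) (nat_lit 0) (XT.lf (nat_lit 0) (nat_lit 15786879412) (nat_lit 228) (nat_lit 35484933326) (nat_lit 304) (nat_lit 30162794808) (nat_lit 46) (nat_lit 5) (nat_lit 49) (nat_lit 5) (nat_lit 50) (nat_lit 5) (nat_lit 334) (nat_lit 304) (nat_lit 142)) (XT.lf (nat_lit 0) (nat_lit 58350459589) (nat_lit 228) (nat_lit 8179955136) (nat_lit 304) (nat_lit 17551982312) (nat_lit 46) (nat_lit 5) (nat_lit 49) (nat_lit 5) (nat_lit 50) (nat_lit 5) (nat_lit 335) (nat_lit 304) (nat_lit 141))))))))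
noncomputable def xc217 : XT := (XT.nd (nat_lit 1638) (nat_lit 836) (nat_lit 0) (XT.nd (nat_lit 780) (nat_lit 836) (nat_lit 0) (XT.nd (nat_lit 390) (nat_lit 380) (nat_lit 0) (XT.nd (nat_lit 156) (nat_lit 380) (nat_lit 0) (XT.nd (nat_lit 78) (nat_lit 76) (nat_lit 0) (XT.lf (nat_lit 0) (nat_lit 16382639409) (nat_lit 152) (nat_lit 66744000393) (nat_lit 228) (nat_lit 3707202694) (nat_lit 44) (nat_lit 5) (nat_lit 46) (nat_lit 5) (nat_lit 47) (nat_lit 5) (nat_lit 336) (nat_lit 304) (nat_lit 140)) (XT.lf (nat_lit 0) (nat_lit 11059230451) (nat_lit 228) (nat_lit 28516546651) (nat_lit 76) (nat_lit 50109828159) (nat_lit 43) (nat_lit 5) (nat_lit 46) (nat_lit 5) (nat_lit 44) (nat_lit 5) (nat_lit 337) (nat_lit 304) (nat_lit 139))) (XT.nd (nat_lit 78) (nat_lit 152) (nat_lit 0) (XT.lf (nat_lit 0) (nat_lit 15963623430) (nat_lit 228) (nat_lit 10724071328) (nat_lit 304) (nat_lit 65976808913) (nat_lit 40)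 (nat_lit 5) (nat_lit 43) (nat_lit 5) (nat_lit 44) (nat_lit 5) (nat_lit 338) (nat_lit 304) (nat_lit 138)) (XT.nd (nat_lit 78) (nat_lit 152) (nat_lit 0) (XT.lf (nat_lit 0) (nat_lit 43893062483) (nat_lit 304) (nat_lit 32425229508) (nat_lit 76) (nat_lit 19434281940) (nat_lit 40) (nat_lit 5) (nat_lit 44) (nat_lit 5) (nat_lit 41) (nat_lit 5) (nat_lit 339) (nat_lit 304) (nat_lit 137)) (XT.lf (nat_lit 0) (nat_lit 14346236418) (nat_lit 152) (nat_lit 48011371232) (nat_lit 228) (nat_lit 36617495499) (nat_lit 38) (nat_lit 5) (nat_lit 40) (nat_lit 5) (nat_lit 41) (nat_lit 5) (nat_lit 340) (nat_lit 304) (nat_lit 136))))) (XT.nd (nat_lit 156) (nat_lit 228) (nat_lit 0) (XT.nd (nat_lit 78) (nat_lit 152) (nat_lit 0) (XT.lf (nat_lit 0) (nat_lit 64580695823) (nat_lit 152) (nat_lit 17712962317) (nat_lit 228) (nat_lit 20037687637) (nat_lit 38) (nat_lit 5) (nat_lit 40) (nat_lit 5) (nat_lit 41) (nat_lit 5)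 (nat_lit 341) (nat_lit 304) (nat_lit 135)) (XT.lf (nat_lit 0) (nat_lit 11622025661) (nat_lit 152) (nat_lit 92005259426) (nat_lit 228) (nat_lit 2208077565) (nat_lit 36) (nat_lit 5) (nat_lit 38) (nat_lit 5) (nat_lit 39) (nat_lit 5) (nat_lit 342) (nat_lit 304) (nat_lit 134))) (XT.nd (nat_lit 78) (nat_lit 152) (nat_lit 0) (XT.lf (nat_lit 0) (nat_lit 16923857077) (nat_lit 228) (nat_lit 45268623585) (nat_lit 76) (nat_lit 47262241545) (nat_lit 35) (nat_lit 5) (nat_lit 38) (nat_lit 5) (nat_lit 36) (nat_lit 5) (nat_lit 343) (nat_lit 304) (nat_lit 133)) (XT.nd (nat_lit 78) (nat_lit 0) (nat_lit 0) (XT.lf (nat_lit 0) (nat_lit 6287125955) (nat_lit 152) (nat_lit 30748436181) (nat_lit 228) (nat_lit 76212809428) (nat_lit 33) (nat_lit 5) (nat_lit 35) (nat_lit 5) (nat_lit 36) (nat_lit 5) (nat_lit 344) (nat_lit 304) (nat_lit 132)) (XT.lf (nat_lit 0) (nat_lit 58966704540) (nat_lit 228) (nat_lit 55250299364)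 (nat_lit 76) (nat_lit 2974007548) (nat_lit 33) (nat_lit 5) (nat_lit 36) (nat_lit 5) (nat_lit 34) (nat_lit 5) (nat_lit 345) (nat_lit 304) (nat_lit 131)))))) (XT.nd (nat_lit 390) (nat_lit 456) (nat_lit 0) (XT.nd (nat_lit 156) (nat_lit 228) (nat_lit 0) (XT.nd (nat_lit 78) (nat_lit 152) (nat_lit 0) (XT.lf (nat_lit 0) (nat_lit 82497744600) (nat_lit 228) (nat_lit 1459060242) (nat_lit 76) (nat_lit 37348812103) (nat_lit 33) (nat_lit 5) (nat_lit 36) (nat_lit 5) (nat_lit 34) (nat_lit 5) (nat_lit 346) (nat_lit 304) (nat_lit 130)) (XT.lf (nat_lit 0) (nat_lit 56839845422) (nat_lit 152) (nat_lit 51252223198) (nat_lit 228) (nat_lit 17489548101) (nat_lit 31) (nat_lit 5) (nat_lit 33) (nat_lit 5) (nat_lit 34) (nat_lit 5) (nat_lit 347) (nat_lit 304) (nat_lit 129))) (XT.nd (nat_lit 78) (nat_lit 152) (nat_lit 0) (XT.lf (nat_lit 0) (nat_lit 4762453468) (nat_lit 228) (nat_lit 12043785044) (nat_lit 76) (nat_lit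 113260136438) (nat_lit 30) (nat_lit 5) (nat_lit 33) (nat_lit 5) (nat_lit 31) (nat_lit 5) (nat_lit 348) (nat_lit 304) (nat_lit 128)) (XT.nd (nat_lit 78) (nat_lit 0) (nat_lit 0) (XT.lf (nat_lit 0) (nat_lit 28619412962) (nat_lit 228) (nat_lit 86280475206) (nat_lit 76) (nat_lit 19807141686) (nat_lit 28) (nat_lit 5) (nat_lit 31) (nat_lit 5) (nat_lit 29) (nat_lit 5) (nat_lit 349) (nat_lit 304) (nat_lit 127)) (XT.lf (nat_lit 0) (nat_lit 54151391887) (nat_lit 228) (nat_lit 27510916453) (nat_lit 76) (nat_lit 57893301087) (nat_lit 28) (nat_lit 5) (nat_lit 31) (nat_lit 5) (nat_lit 29) (nat_lit 5) (nat_lit 350) (nat_lit 304) (nat_lit 126))))) (XT.nd (nat_lit 234) (nat_lit 228) (nat_lit 0) (XT.nd (nat_lit 78) (nat_lit 76) (nat_lit 0) (XT.lf (nat_lit 0) (nat_lit 35326763152) (nat_lit 152) (nat_lit 46184135712) (nat_lit 228) (nat_lit 63108173136) (nat_lit 26) (nat_lit 5) (nat_lit 28) (nat_lit 5) (nat_lit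 29) (nat_lit 5) (nat_lit 351) (nat_lit 304) (nat_lit 125)) (XT.nd (nat_lit 78) (nat_lit 76) (nat_lit 0) (XT.lf (nat_lit 0) (nat_lit 102260426189) (nat_lit 152) (nat_lit 8443258682) (nat_lit 228) (nat_lit 39208758098) (nat_lit 26) (nat_lit 5) (nat_lit 28) (nat_lit 5) (nat_lit 29) (nat_lit 5) (nat_lit 352) (nat_lit 304) (nat_lit 124)) (XT.lf (nat_lit 0) (nat_lit 17130707307) (nat_lit 76) (nat_lit 124979156995) (nat_lit 152) (nat_lit 13322930909) (nat_lit 25) (nat_lit 5) (nat_lit 26) (nat_lit 5) (nat_lit 27) (nat_lit 4) (nat_lit 353) (nat_lit 304) (nat_lit 123)))) (XT.nd (nat_lit 78) (nat_lit 152) (nat_lit 0) (XT.lf (nat_lit 0) (nat_lit 14371743415) (nat_lit 152) (nat_lit 74750865669) (nat_lit 76) (nat_lit 72047835281) (nat_lit 24) (nat_lit 5) (nat_lit 26) (nat_lit 5) (nat_lit 25) (nat_lit 5) (nat_lit 354) (nat_lit 304) (nat_lit 122)) (XT.nd (nat_lit 78) (nat_lit 152) (nat_lit 0) (XT.lf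 (nat_lit 0) (nat_lit 43002859910) (nat_lit 152) (nat_lit 8241439443) (nat_lit 76) (nat_lit 115939784244) (nat_lit 24) (nat_lit 5) (nat_lit 26) (nat_lit 5) (nat_lit 25) (nat_lit 5) (nat_lit 355) (nat_lit 304) (nat_lit 121)) (XT.lf (nat_lit 0) (nat_lit 63629082860) (nat_lit 152) (nat_lit 10429350336) (nat_lit 228) (nat_lit 99390326902) (nat_lit 22) (nat_lit 5) (nat_lit 24) (nat_lit 5) (nat_lit 25) (nat_lit 5) (nat_lit 356) (nat_lit 304) (nat_lit 120))))))) (XT.nd (nat_lit 780) (nat_lit 304) (nat_lit 0) (XT.nd (nat_lit 390) (nat_lit 228) (nat_lit 0) (XT.nd (nat_lit 156) (nat_lit 228) (nat_lit 0) (XT.nd (nat_lit 78) (nat_lit 76) (nat_lit 0) (XT.lf (nat_lit 0) (nat_lit 107314390211) (nat_lit 228) (nat_lit 41149899567) (nat_lit 76) (nat_lit 31530000730) (nat_lit 22) (nat_lit 5) (nat_lit 25) (nat_lit 5) (nat_lit 23) (nat_lit 4) (nat_lit 357) (nat_lit 304) (nat_lit 119)) (XT.lf (nat_lit 0) (nat_lit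 31799304643) (nat_lit 76) (nat_lit 111100792587) (nat_lit 152) (nat_lit 43933652923) (nat_lit 21) (nat_lit 5) (nat_lit 22) (nat_lit 5) (nat_lit 23) (nat_lit 4) (nat_lit 358) (nat_lit 304) (nat_lit 118))) (XT.nd (nat_lit 78) (nat_lit 228) (nat_lit 0) (XT.lf (nat_lit 0) (nat_lit 109823748895) (nat_lit 76) (nat_lit 71137747473) (nat_lit 152) (nat_lit 13018866379) (nat_lit 21) (nat_lit 5) (nat_lit 22) (nat_lit 5) (nat_lit 23) (nat_lit 4) (nat_lit 359) (nat_lit 304) (nat_lit 117)) (XT.nd (nat_lit 78) (nat_lit 152) (nat_lit 0) (XT.lf (nat_lit 0) (nat_lit 18818933573) (nat_lit 152) (nat_lit 10039256469) (nat_lit 76) (nat_lit 172610962838) (nat_lit 20) (nat_lit 5) (nat_lit 22) (nat_lit 5) (nat_lit 21) (nat_lit 5) (nat_lit 360) (nat_lit 304) (nat_lit 116)) (XT.lf (nat_lit 0) (nat_lit 53164399972) (nat_lit 228) (nat_lit 139727233795) (nat_lit 76) (nat_lit 16362413029) (nat_lit 18) (nat_lit 5)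 (nat_lit 21) (nat_lit 5) (nat_lit 19) (nat_lit 4) (nat_lit 361) (nat_lit 304) (nat_lit 115))))) (XT.nd (nat_lit 156) (nat_lit 152) (nat_lit 0) (XT.nd (nat_lit 78) (nat_lit 76) (nat_lit 0) (XT.lf (nat_lit 0) (nat_lit 89872586740) (nat_lit 228) (nat_lit 64476622432) (nat_lit 76) (nat_lit 63046704134) (nat_lit 18) (nat_lit 5) (nat_lit 21) (nat_lit 5) (nat_lit 19) (nat_lit 4) (nat_lit 362) (nat_lit 304) (nat_lit 114)) (XT.lf (nat_lit 0) (nat_lit 15016383276) (nat_lit 76) (nat_lit 113633823676) (nat_lit 152) (nat_lit 97282965226) (nat_lit 17) (nat_lit 5) (nat_lit 18) (nat_lit 5) (nat_lit 19) (nat_lit 4) (nat_lit 363) (nat_lit 304) (nat_lit 113))) (XT.nd (nat_lit 78) (nat_lit 152) (nat_lit 0) (XT.lf (nat_lit 0) (nat_lit 100721779909) (nat_lit 76) (nat_lit 69736455935) (nat_lit 152) (nat_lit 64384481993) (nat_lit 17) (nat_lit 5) (nat_lit 18) (nat_lit 5) (nat_lit 19) (nat_lit 4) (nat_lit 364)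 (nat_lit 304) (nat_lit 112)) (XT.nd (nat_lit 78) (nat_lit 152) (nat_lit 0) (XT.lf (nat_lit 0) (nat_lit 190711739612) (nat_lit 76) (nat_lit 23644531207) (nat_lit 152) (nat_lit 29841489946) (nat_lit 17) (nat_lit 5) (nat_lit 18) (nat_lit 5) (nat_lit 19) (nat_lit 4) (nat_lit 365) (nat_lit 304) (nat_lit 111)) (XT.lf (nat_lit 0) (nat_lit 7120101799) (nat_lit 152) (nat_lit 222279581192) (nat_lit 76) (nat_lit 24570994228) (nat_lit 15) (nat_lit 5) (nat_lit 17) (nat_lit 5) (nat_lit 16) (nat_lit 4) (nat_lit 366) (nat_lit 304) (nat_lit 110)))))) (XT.nd (nat_lit 390) (nat_lit 228) (nat_lit 0) (XT.nd (nat_lit 156) (nat_lit 76) (nat_lit 0) (XT.nd (nat_lit 78) (nat_lit 0) (nat_lit 0) (XT.lf (nat_lit 0) (nat_lit 46234799782) (nat_lit 152) (nat_lit 142095324526) (nat_lit 76) (nat_lit 75812260318) (nat_lit 15) (nat_lit 5) (nat_lit 17) (nat_lit 5) (nat_lit 16) (nat_lit 4) (nat_lit 367) (nat_lit 304) (nat_lit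 109)) (XT.lf (nat_lit 0) (nat_lit 87304870865) (nat_lit 152) (nat_lit 57902511379) (nat_lit 76) (nat_lit 129615313429) (nat_lit 15) (nat_lit 5) (nat_lit 17) (nat_lit 5) (nat_lit 16) (nat_lit 4) (nat_lit 368) (nat_lit 304) (nat_lit 108))) (XT.nd (nat_lit 78) (nat_lit 0) (nat_lit 0) (XT.lf (nat_lit 0) (nat_lit 31507762496) (nat_lit 76) (nat_lit 99412262905) (nat_lit 152) (nat_lit 155092418045) (nat_lit 14) (nat_lit 5) (nat_lit 15) (nat_lit 5) (nat_lit 16) (nat_lit 4) (nat_lit 369) (nat_lit 304) (nat_lit 107)) (XT.nd (nat_lit 78) (nat_lit 0) (nat_lit 0) (XT.lf (nat_lit 0) (nat_lit 127398179498) (nat_lit 76) (nat_lit 50298027449) (nat_lit 152) (nat_lit 120016458361) (nat_lit 14) (nat_lit 5) (nat_lit 15) (nat_lit 5) (nat_lit 16) (nat_lit 4) (nat_lit 370) (nat_lit 304) (nat_lit 106)) (XT.lf (nat_lit 0) (nat_lit 226830729999) (nat_lit 152) (nat_lit 81935236991) (nat_lit 0) (nat_lit 1230954806)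 (nat_lit 14) (nat_lit 5) (nat_lit 16) (nat_lit 4) (nat_lit 14) (nat_lit 4) (nat_lit 371) (nat_lit 304) (nat_lit 105))))) (XT.nd (nat_lit 234) (nat_lit 76) (nat_lit 0) (XT.nd (nat_lit 78) (nat_lit 76) (nat_lit 0) (XT.lf (nat_lit 0) (nat_lit 10369743621) (nat_lit 76) (nat_lit 269038383877) (nat_lit 76) (nat_lit 43437956343) (nat_lit 13) (nat_lit 4) (nat_lit 14) (nat_lit 5) (nat_lit 14) (nat_lit 4) (nat_lit 372) (nat_lit 304) (nat_lit 104)) (XT.nd (nat_lit 78) (nat_lit 76) (nat_lit 0) (XT.lf (nat_lit 0) (nat_lit 110134019484) (nat_lit 76) (nat_lit 225867684013) (nat_lit 76) (nat_lit 266635200) (nat_lit 13) (nat_lit 4) (nat_lit 14) (nat_lit 5) (nat_lit 14) (nat_lit 4) (nat_lit 373) (nat_lit 304) (nat_lit 103)) (XT.lf (nat_lit 0) (nat_lit 43620651858) (nat_lit 152) (nat_lit 136179304195) (nat_lit 76) (nat_lit 170526586919) (nat_lit 12) (nat_lit 5) (nat_lit 14) (nat_lit 5) (nat_lit 13) (nat_lit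 4) (nat_lit 374) (nat_lit 304) (nat_lit 102)))) (XT.nd (nat_lit 78) (nat_lit 76) (nat_lit 0) (XT.lf (nat_lit 0) (nat_lit 89693061958) (nat_lit 152) (nat_lit 41731427007) (nat_lit 76) (nat_lit 233662964096) (nat_lit 12) (nat_lit 5) (nat_lit 14) (nat_lit 5) (nat_lit 13) (nat_lit 4) (nat_lit 375) (nat_lit 304) (nat_lit 101)) (XT.nd (nat_lit 78) (nat_lit 0) (nat_lit 0) (XT.lf (nat_lit 0) (nat_lit 59337522460) (nat_lit 76) (nat_lit 79657727864) (nat_lit 152) (nat_lit 241544850557) (nat_lit 11) (nat_lit 5) (nat_lit 12) (nat_lit 5) (nat_lit 13) (nat_lit 4) (nat_lit 376) (nat_lit 304) (nat_lit 100)) (XT.lf (nat_lit 0) (nat_lit 166908255396) (nat_lit 76) (nat_lit 24560772520) (nat_lit 152) (nat_lit 205261029297) (nat_lit 11) (nat_lit 5) (nat_lit 12) (nat_lit 5) (nat_lit 13) (nat_lit 4) (nat_lit 377) (nat_lit 304) (nat_lit 99))))))))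
noncomputable def xc218 : XT := (XT.nd (nat_lit 36426) (nat_lit 0) (nat_lit 1824) (XT.nd (nat_lit 35646) (nat_lit 0) (nat_lit 4332) (XT.nd (nat_lit 35256) (nat_lit 0) (nat_lit 5700) (XT.nd (nat_lit 35022) (nat_lit 0) (nat_lit 6308) (XT.nd (nat_lit 34944) (nat_lit 0) (nat_lit 6308) (XT.lf (nat_lit 0) (nat_lit 247086007740) (nat_lit 152) (nat_lit 134392223767) (nat_lit 0) (nat_lit 32225304291) (nat_lit 11) (nat_lit 5) (nat_lit 13) (nat_lit 4) (nat_lit 11) (nat_lit 4) (nat_lit 378) (nat_lit 304) (nat_lit 98)) (XT.lf (nat_lit 0) (nat_lit 8183057812) (nat_lit 0) (nat_lit 8183057812) (nat_lit 684) (nat_lit 2000868297) (nat_lit 94) (nat_lit 5) (nat_lit 94) (nat_lit 3) (nat_lit 103) (nat_lit 3) (nat_lit 305) (nat_lit 305) (nat_lit 170))) (XT.nd (nat_lit 78) (nat_lit 0) (nat_lit 0) (XT.lf (nat_lit 0) (nat_lit 33604388001) (nat_lit 684) (nat_lit 3535658207) (nat_lit 760) (nat_lit 509497223) (nat_lit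 94) (nat_lit 5) (nat_lit 103) (nat_lit 3) (nat_lit 104) (nat_lit 5) (nat_lit 306) (nat_lit 305) (nat_lit 169)) (XT.nd (nat_lit 78) (nat_lit 0) (nat_lit 0) (XT.lf (nat_lit 76) (nat_lit 14326759715) (nat_lit 0) (nat_lit 20682472423) (nat_lit 760) (nat_lit 3577216868) (nat_lit 95) (nat_lit 5) (nat_lit 94) (nat_lit 5) (nat_lit 104) (nat_lit 5) (nat_lit 307) (nat_lit 305) (nat_lit 168)) (XT.lf (nat_lit 76) (nat_lit 33203440372) (nat_lit 0) (nat_lit 3337970804) (nat_lit 760) (nat_lit 3025938993) (nat_lit 95) (nat_lit 5) (nat_lit 94) (nat_lit 5) (nat_lit 104) (nat_lit 5) (nat_lit 308) (nat_lit 305) (nat_lit 167))))) (XT.nd (nat_lit 156) (nat_lit 684) (nat_lit 0) (XT.nd (nat_lit 78) (nat_lit 0) (nat_lit 0) (XT.lf (nat_lit 76) (nat_lit 12595898577) (nat_lit 0) (nat_lit 25980543627) (nat_lit 760) (nat_lit 1999546738) (nat_lit 96) (nat_lit 5) (nat_lit 95) (nat_lit 5) (nat_lit 105) (nat_lit 5) (nat_lit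 309) (nat_lit 305) (nat_lit 166)) (XT.lf (nat_lit 76) (nat_lit 32666448503) (nat_lit 0) (nat_lit 8205854745) (nat_lit 760) (nat_lit 754806968) (nat_lit 96) (nat_lit 5) (nat_lit 95) (nat_lit 5) (nat_lit 105) (nat_lit 5) (nat_lit 310) (nat_lit 305) (nat_lit 165))) (XT.nd (nat_lit 78) (nat_lit 0) (nat_lit 0) (XT.lf (nat_lit 0) (nat_lit 875782808) (nat_lit 760) (nat_lit 31524803645) (nat_lit 836) (nat_lit 10312709824) (nat_lit 86) (nat_lit 5) (nat_lit 96) (nat_lit 5) (nat_lit 97) (nat_lit 5) (nat_lit 311) (nat_lit 305) (nat_lit 164)) (XT.nd (nat_lit 78) (nat_lit 0) (nat_lit 76) (XT.lf (nat_lit 0) (nat_lit 2848942938) (nat_lit 760) (nat_lit 11341161576) (nat_lit 836) (nat_lit 29648751939) (nat_lit 86) (nat_lit 5) (nat_lit 96) (nat_lit 5) (nat_lit 97) (nat_lit 5) (nat_lit 312) (nat_lit 305) (nat_lit 163)) (XT.lf (nat_lit 0) (nat_lit 5156986336) (nat_lit 760) (nat_lit 34916806018) (nat_lit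 836) (nat_lit 4935094708) (nat_lit 87) (nat_lit 5) (nat_lit 97) (nat_lit 5) (nat_lit 98) (nat_lit 5) (nat_lit 313) (nat_lit 305) (nat_lit 162)))))) (XT.nd (nat_lit 390) (nat_lit 988) (nat_lit 0) (XT.nd (nat_lit 156) (nat_lit 456) (nat_lit 0) (XT.nd (nat_lit 78) (nat_lit 0) (nat_lit 0) (XT.lf (nat_lit 0) (nat_lit 8006118430) (nat_lit 760) (nat_lit 13474644039) (nat_lit 836) (nat_lit 24735375918) (nat_lit 87) (nat_lit 5) (nat_lit 97) (nat_lit 5) (nat_lit 98) (nat_lit 5) (nat_lit 314) (nat_lit 305) (nat_lit 161)) (XT.lf (nat_lit 76) (nat_lit 9336765375) (nat_lit 0) (nat_lit 1804662586) (nat_lit 836) (nat_lit 36335141621) (nat_lit 88) (nat_lit 5) (nat_lit 87) (nat_lit 5) (nat_lit 98) (nat_lit 5) (nat_lit 315) (nat_lit 305) (nat_lit 160))) (XT.nd (nat_lit 78) (nat_lit 532) (nat_lit 0) (XT.lf (nat_lit 0) (nat_lit 14957851058) (nat_lit 760) (nat_lit 15331957241) (nat_lit 76) (nat_lit 18483999820)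 (nat_lit 88) (nat_lit 5) (nat_lit 98) (nat_lit 5) (nat_lit 89) (nat_lit 5) (nat_lit 316) (nat_lit 305) (nat_lit 159)) (XT.nd (nat_lit 78) (nat_lit 0) (nat_lit 0) (XT.lf (nat_lit 0) (nat_lit 8868865859) (nat_lit 532) (nat_lit 10262400331) (nat_lit 608) (nat_lit 30996336881) (nat_lit 81) (nat_lit 5) (nat_lit 88) (nat_lit 5) (nat_lit 89) (nat_lit 5) (nat_lit 317) (nat_lit 305) (nat_lit 158)) (XT.lf (nat_lit 0) (nat_lit 23943540594) (nat_lit 608) (nat_lit 16898193583) (nat_lit 76) (nat_lit 10685847058) (nat_lit 81) (nat_lit 5) (nat_lit 89) (nat_lit 5) (nat_lit 82) (nat_lit 5) (nat_lit 318) (nat_lit 305) (nat_lit 157))))) (XT.nd (nat_lit 156) (nat_lit 608) (nat_lit 0) (XT.nd (nat_lit 78) (nat_lit 0) (nat_lit 0) (XT.lf (nat_lit 0) (nat_lit 8791859758) (nat_lit 380) (nat_lit 20508341497) (nat_lit 456) (nat_lit 23682171176) (nat_lit 76) (nat_lit 5) (nat_lit 81) (nat_lit 5) (nat_lit 82) (nat_lit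 5) (nat_lit 319) (nat_lit 305) (nat_lit 156)) (XT.lf (nat_lit 0) (nat_lit 35227034980) (nat_lit 456) (nat_lit 18162079829) (nat_lit 76) (nat_lit 1105673999) (nat_lit 76) (nat_lit 5) (nat_lit 82) (nat_lit 5) (nat_lit 77) (nat_lit 5) (nat_lit 320) (nat_lit 305) (nat_lit 155))) (XT.nd (nat_lit 78) (nat_lit 304) (nat_lit 0) (XT.lf (nat_lit 0) (nat_lit 9121876590) (nat_lit 304) (nat_lit 32805361666) (nat_lit 380) (nat_lit 14131738850) (nat_lit 72) (nat_lit 5) (nat_lit 76) (nat_lit 5) (nat_lit 77) (nat_lit 5) (nat_lit 321) (nat_lit 305) (nat_lit 154)) (XT.nd (nat_lit 78) (nat_lit 304) (nat_lit 0) (XT.lf (nat_lit 0) (nat_lit 38398951124) (nat_lit 304) (nat_lit 10869542118) (nat_lit 380) (nat_lit 8417581877) (nat_lit 72) (nat_lit 5) (nat_lit 76) (nat_lit 5) (nat_lit 77) (nat_lit 5) (nat_lit 322) (nat_lit 305) (nat_lit 153)) (XT.lf (nat_lit 0) (nat_lit 9869721366) (nat_lit 304) (nat_lit 47449613321)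 (nat_lit 380) (nat_lit 2058069423) (nat_lit 68) (nat_lit 5) (nat_lit 72) (nat_lit 5) (nat_lit 73) (nat_lit 5) (nat_lit 323) (nat_lit 305) (nat_lit 152))))))) (XT.nd (nat_lit 780) (nat_lit 1064) (nat_lit 0) (XT.nd (nat_lit 390) (nat_lit 760) (nat_lit 0) (XT.nd (nat_lit 156) (nat_lit 304) (nat_lit 0) (XT.nd (nat_lit 78) (nat_lit 304) (nat_lit 0) (XT.lf (nat_lit 0) (nat_lit 4980298834) (nat_lit 380) (nat_lit 20240266257) (nat_lit 76) (nat_lit 35903693889) (nat_lit 67) (nat_lit 5) (nat_lit 72) (nat_lit 5) (nat_lit 68) (nat_lit 5) (nat_lit 324) (nat_lit 305) (nat_lit 151)) (XT.lf (nat_lit 0) (nat_lit 10800910272) (nat_lit 304) (nat_lit 1667761878) (nat_lit 380) (nat_lit 50479736894) (nat_lit 63) (nat_lit 5) (nat_lit 67) (nat_lit 5) (nat_lit 68) (nat_lit 5) (nat_lit 325) (nat_lit 305) (nat_lit 150))) (XT.nd (nat_lit 78) (nat_lit 304) (nat_lit 0) (XT.lf (nat_lit 0) (nat_lit 21038592539) (nat_lit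 380) (nat_lit 21117087002) (nat_lit 76) (nat_lit 22672732511) (nat_lit 63) (nat_lit 5) (nat_lit 68) (nat_lit 5) (nat_lit 64) (nat_lit 5) (nat_lit 326) (nat_lit 305) (nat_lit 149)) (XT.nd (nat_lit 78) (nat_lit 0) (nat_lit 0) (XT.lf (nat_lit 0) (nat_lit 11814097635) (nat_lit 304) (nat_lit 18433424075) (nat_lit 380) (nat_lit 36544369637) (nat_lit 59) (nat_lit 5) (nat_lit 63) (nat_lit 5) (nat_lit 64) (nat_lit 5) (nat_lit 327) (nat_lit 305) (nat_lit 148)) (XT.lf (nat_lit 0) (nat_lit 40380234636) (nat_lit 380) (nat_lit 21819206060) (nat_lit 76) (nat_lit 6630938735) (nat_lit 59) (nat_lit 5) (nat_lit 64) (nat_lit 5) (nat_lit 60) (nat_lit 5) (nat_lit 328) (nat_lit 305) (nat_lit 147))))) (XT.nd (nat_lit 156) (nat_lit 532) (nat_lit 0) (XT.nd (nat_lit 78) (nat_lit 0) (nat_lit 0) (XT.lf (nat_lit 0) (nat_lit 13113339935) (nat_lit 228) (nat_lit 38411980284) (nat_lit 304) (nat_lit 19420186458) (nat_lit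 56) (nat_lit 5) (nat_lit 59) (nat_lit 5) (nat_lit 60) (nat_lit 5) (nat_lit 329) (nat_lit 305) (nat_lit 146)) (XT.lf (nat_lit 0) (nat_lit 50548558338) (nat_lit 228) (nat_lit 13047467862) (nat_lit 304) (nat_lit 9551947314) (nat_lit 56) (nat_lit 5) (nat_lit 59) (nat_lit 5) (nat_lit 60) (nat_lit 5) (nat_lit 330) (nat_lit 305) (nat_lit 145))) (XT.nd (nat_lit 78) (nat_lit 228) (nat_lit 0) (XT.lf (nat_lit 0) (nat_lit 1230729770) (nat_lit 304) (nat_lit 60808107499) (nat_lit 76) (nat_lit 13398748645) (nat_lit 52) (nat_lit 5) (nat_lit 56) (nat_lit 5) (nat_lit 53) (nat_lit 5) (nat_lit 331) (nat_lit 305) (nat_lit 144)) (XT.nd (nat_lit 78) (nat_lit 228) (nat_lit 0) (XT.lf (nat_lit 0) (nat_lit 12833340687) (nat_lit 304) (nat_lit 23696345695) (nat_lit 76) (nat_lit 41274074011) (nat_lit 52) (nat_lit 5) (nat_lit 56) (nat_lit 5) (nat_lit 53) (nat_lit 5) (nat_lit 332) (nat_lit 305) (nat_lit 143)) (XT.lf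 (nat_lit 0) (nat_lit 15774491980) (nat_lit 228) (nat_lit 9486834960) (nat_lit 304) (nat_lit 55014655677) (nat_lit 49) (nat_lit 5) (nat_lit 52) (nat_lit 5) (nat_lit 53) (nat_lit 5) (nat_lit 333) (nat_lit 305) (nat_lit 142)))))) (XT.nd (nat_lit 390) (nat_lit 608) (nat_lit 0) (XT.nd (nat_lit 156) (nat_lit 228) (nat_lit 0) (XT.nd (nat_lit 78) (nat_lit 228) (nat_lit 0) (XT.lf (nat_lit 0) (nat_lit 39012792972) (nat_lit 304) (nat_lit 25113401644) (nat_lit 76) (nat_lit 18710518511) (nat_lit 49) (nat_lit 5) (nat_lit 53) (nat_lit 5) (nat_lit 50) (nat_lit 5) (nat_lit 334) (nat_lit 305) (nat_lit 141)) (XT.lf (nat_lit 0) (nat_lit 16619135454) (nat_lit 228) (nat_lit 37246721631) (nat_lit 304) (nat_lit 31638922985) (nat_lit 46) (nat_lit 5) (nat_lit 49) (nat_lit 5) (nat_lit 50) (nat_lit 5) (nat_lit 335) (nat_lit 305) (nat_lit 140))) (XT.nd (nat_lit 78) (nat_lit 228) (nat_lit 0) (XT.lf (nat_lit 0) (nat_lit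 61308851207) (nat_lit 228) (nat_lit 8577087787) (nat_lit 304) (nat_lit 18399094224) (nat_lit 46) (nat_lit 5) (nat_lit 49) (nat_lit 5) (nat_lit 50) (nat_lit 5) (nat_lit 336) (nat_lit 305) (nat_lit 139)) (XT.nd (nat_lit 78) (nat_lit 76) (nat_lit 0) (XT.lf (nat_lit 0) (nat_lit 17243258327) (nat_lit 152) (nat_lit 70068160031) (nat_lit 228) (nat_lit 3862662035) (nat_lit 44) (nat_lit 5) (nat_lit 46) (nat_lit 5) (nat_lit 47) (nat_lit 5) (nat_lit 337) (nat_lit 305) (nat_lit 138)) (XT.lf (nat_lit 0) (nat_lit 11639757479) (nat_lit 228) (nat_lit 29901922232) (nat_lit 76) (nat_lit 52626798605) (nat_lit 43) (nat_lit 5) (nat_lit 46) (nat_lit 5) (nat_lit 44) (nat_lit 5) (nat_lit 338) (nat_lit 305) (nat_lit 137))))) (XT.nd (nat_lit 234) (nat_lit 228) (nat_lit 0) (XT.nd (nat_lit 78) (nat_lit 152) (nat_lit 0) (XT.lf (nat_lit 0) (nat_lit 16801603905) (nat_lit 228) (nat_lit 11247349832) (nat_lit 304) (nat_lit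 69247403850) (nat_lit 40) (nat_lit 5) (nat_lit 43) (nat_lit 5) (nat_lit 44) (nat_lit 5) (nat_lit 339) (nat_lit 305) (nat_lit 136)) (XT.nd (nat_lit 78) (nat_lit 152) (nat_lit 0) (XT.lf (nat_lit 0) (nat_lit 46113502310) (nat_lit 304) (nat_lit 34007473103) (nat_lit 76) (nat_lit 20417911637) (nat_lit 40) (nat_lit 5) (nat_lit 44) (nat_lit 5) (nat_lit 41) (nat_lit 5) (nat_lit 340) (nat_lit 305) (nat_lit 135)) (XT.lf (nat_lit 0) (nat_lit 15101936799) (nat_lit 152) (nat_lit 50398709351) (nat_lit 228) (nat_lit 38421929257) (nat_lit 38) (nat_lit 5) (nat_lit 40) (nat_lit 5) (nat_lit 41) (nat_lit 5) (nat_lit 341) (nat_lit 305) (nat_lit 134)))) (XT.nd (nat_lit 78) (nat_lit 228) (nat_lit 0) (XT.lf (nat_lit 0) (nat_lit 67846291148) (nat_lit 152) (nat_lit 18586010011) (nat_lit 228) (nat_lit 21014390098) (nat_lit 38) (nat_lit 5) (nat_lit 40) (nat_lit 5) (nat_lit 41) (nat_lit 5) (nat_lit 342) (nat_lit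 305) (nat_lit 133)) (XT.nd (nat_lit 78) (nat_lit 76) (nat_lit 0) (XT.lf (nat_lit 0) (nat_lit 12240106338) (nat_lit 152) (nat_lit 96592126869) (nat_lit 228) (nat_lit 2293695714) (nat_lit 36) (nat_lit 5) (nat_lit 38) (nat_lit 5) (nat_lit 39) (nat_lit 5) (nat_lit 343) (nat_lit 305) (nat_lit 132)) (XT.lf (nat_lit 0) (nat_lit 17792899865) (nat_lit 228) (nat_lit 47496060209) (nat_lit 76) (nat_lit 49637335185) (nat_lit 35) (nat_lit 5) (nat_lit 38) (nat_lit 5) (nat_lit 36) (nat_lit 5) (nat_lit 344) (nat_lit 305) (nat_lit 131))))))))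
noncomputable def xc219 : XT := (XT.nd (nat_lit 1638) (nat_lit 456) (nat_lit 0) (XT.nd (nat_lit 780) (nat_lit 608) (nat_lit 0) (XT.nd (nat_lit 390) (nat_lit 380) (nat_lit 0) (XT.nd (nat_lit 156) (nat_lit 228) (nat_lit 0) (XT.nd (nat_lit 78) (nat_lit 0) (nat_lit 0) (XT.lf (nat_lit 0) (nat_lit 6636896251) (nat_lit 152) (nat_lit 32272758746) (nat_lit 228) (nat_lit 79999999825) (nat_lit 33) (nat_lit 5) (nat_lit 35) (nat_lit 5) (nat_lit 36) (nat_lit 5) (nat_lit 345) (nat_lit 305) (nat_lit 130)) (XT.lf (nat_lit 0) (nat_lit 61936486691) (nat_lit 228) (nat_lit 57978200235) (nat_lit 76) (nat_lit 3134784103) (nat_lit 33) (nat_lit 5) (nat_lit 36) (nat_lit 5) (nat_lit 34) (nat_lit 5) (nat_lit 346) (nat_lit 305) (nat_lit 129))) (XT.nd (nat_lit 78) (nat_lit 228) (nat_lit 0) (XT.lf (nat_lit 0) (nat_lit 86643057471) (nat_lit 228) (nat_lit 1499047447) (nat_lit 76) (nat_lit 39227753830) (nat_lit 33) (nat_lit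 5) (nat_lit 36) (nat_lit 5) (nat_lit 34) (nat_lit 5) (nat_lit 347) (nat_lit 305) (nat_lit 128)) (XT.nd (nat_lit 78) (nat_lit 76) (nat_lit 0) (XT.lf (nat_lit 0) (nat_lit 59714271794) (nat_lit 152) (nat_lit 53802359636) (nat_lit 228) (nat_lit 18343051242) (nat_lit 31) (nat_lit 5) (nat_lit 33) (nat_lit 5) (nat_lit 34) (nat_lit 5) (nat_lit 348) (nat_lit 305) (nat_lit 127)) (XT.lf (nat_lit 0) (nat_lit 5019912291) (nat_lit 228) (nat_lit 12614429993) (nat_lit 76) (nat_lit 118934369264) (nat_lit 30) (nat_lit 5) (nat_lit 33) (nat_lit 5) (nat_lit 31) (nat_lit 5) (nat_lit 349) (nat_lit 305) (nat_lit 126))))) (XT.nd (nat_lit 156) (nat_lit 228) (nat_lit 0) (XT.nd (nat_lit 78) (nat_lit 0) (nat_lit 0) (XT.lf (nat_lit 0) (nat_lit 30069473013) (nat_lit 228) (nat_lit 90562693302) (nat_lit 76) (nat_lit 20809245948) (nat_lit 28) (nat_lit 5) (nat_lit 31) (nat_lit 5) (nat_lit 29) (nat_lit 5) (nat_lit 350)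 (nat_lit 305) (nat_lit 125)) (XT.lf (nat_lit 0) (nat_lit 56877141865) (nat_lit 228) (nat_lit 28856171167) (nat_lit 76) (nat_lit 60799153930) (nat_lit 28) (nat_lit 5) (nat_lit 31) (nat_lit 5) (nat_lit 29) (nat_lit 5) (nat_lit 351) (nat_lit 305) (nat_lit 124))) (XT.nd (nat_lit 78) (nat_lit 76) (nat_lit 0) (XT.lf (nat_lit 0) (nat_lit 37122903851) (nat_lit 152) (nat_lit 48481319907) (nat_lit 228) (nat_lit 66244899589) (nat_lit 26) (nat_lit 5) (nat_lit 28) (nat_lit 5) (nat_lit 29) (nat_lit 5) (nat_lit 352) (nat_lit 305) (nat_lit 123)) (XT.nd (nat_lit 78) (nat_lit 76) (nat_lit 0) (XT.lf (nat_lit 0) (nat_lit 107401830872) (nat_lit 152) (nat_lit 8853971530) (nat_lit 228) (nat_lit 41151403428) (nat_lit 26) (nat_lit 5) (nat_lit 28) (nat_lit 5) (nat_lit 29) (nat_lit 5) (nat_lit 353) (nat_lit 305) (nat_lit 122)) (XT.lf (nat_lit 0) (nat_lit 18015837793) (nat_lit 76) (nat_lit 131216263370) (nat_lit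 152) (nat_lit 13971484604) (nat_lit 25) (nat_lit 5) (nat_lit 26) (nat_lit 5) (nat_lit 27) (nat_lit 4) (nat_lit 354) (nat_lit 305) (nat_lit 121)))))) (XT.nd (nat_lit 390) (nat_lit 304) (nat_lit 0) (XT.nd (nat_lit 156) (nat_lit 228) (nat_lit 0) (XT.nd (nat_lit 78) (nat_lit 0) (nat_lit 0) (XT.lf (nat_lit 0) (nat_lit 15106549413) (nat_lit 152) (nat_lit 78460628332) (nat_lit 76) (nat_lit 75660966992) (nat_lit 24) (nat_lit 5) (nat_lit 26) (nat_lit 5) (nat_lit 25) (nat_lit 5) (nat_lit 355) (nat_lit 305) (nat_lit 120)) (XT.lf (nat_lit 0) (nat_lit 45168449408) (nat_lit 152) (nat_lit 8627053682) (nat_lit 76) (nat_lit 121747001977) (nat_lit 24) (nat_lit 5) (nat_lit 26) (nat_lit 5) (nat_lit 25) (nat_lit 5) (nat_lit 356) (nat_lit 305) (nat_lit 119))) (XT.nd (nat_lit 78) (nat_lit 76) (nat_lit 0) (XT.lf (nat_lit 0) (nat_lit 66836567999) (nat_lit 152) (nat_lit 10939904229) (nat_lit 228) (nat_lit 104343960116)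 (nat_lit 22) (nat_lit 5) (nat_lit 24) (nat_lit 5) (nat_lit 25) (nat_lit 5) (nat_lit 357) (nat_lit 305) (nat_lit 118)) (XT.nd (nat_lit 78) (nat_lit 76) (nat_lit 0) (XT.lf (nat_lit 0) (nat_lit 112694669497) (nat_lit 228) (nat_lit 43182036105) (nat_lit 76) (nat_lit 33116562024) (nat_lit 22) (nat_lit 5) (nat_lit 25) (nat_lit 5) (nat_lit 23) (nat_lit 4) (nat_lit 358) (nat_lit 305) (nat_lit 117)) (XT.lf (nat_lit 0) (nat_lit 33414219309) (nat_lit 76) (nat_lit 116645138766) (nat_lit 152) (nat_lit 46115357815) (nat_lit 21) (nat_lit 5) (nat_lit 22) (nat_lit 5) (nat_lit 23) (nat_lit 4) (nat_lit 359) (nat_lit 305) (nat_lit 116))))) (XT.nd (nat_lit 234) (nat_lit 76) (nat_lit 0) (XT.nd (nat_lit 78) (nat_lit 228) (nat_lit 0) (XT.lf (nat_lit 0) (nat_lit 115338697706) (nat_lit 76) (nat_lit 74684450608) (nat_lit 152) (nat_lit 13655545171) (nat_lit 21) (nat_lit 5) (nat_lit 22) (nat_lit 5) (nat_lit 23)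 (nat_lit 4) (nat_lit 360) (nat_lit 305) (nat_lit 115)) (XT.nd (nat_lit 78) (nat_lit 152) (nat_lit 0) (XT.lf (nat_lit 0) (nat_lit 19773030702) (nat_lit 152) (nat_lit 10518146857) (nat_lit 76) (nat_lit 181250767692) (nat_lit 20) (nat_lit 5) (nat_lit 22) (nat_lit 5) (nat_lit 21) (nat_lit 5) (nat_lit 361) (nat_lit 305) (nat_lit 114)) (XT.lf (nat_lit 0) (nat_lit 55835651968) (nat_lit 228) (nat_lit 146690397216) (nat_lit 76) (nat_lit 17190040972) (nat_lit 18) (nat_lit 5) (nat_lit 21) (nat_lit 5) (nat_lit 19) (nat_lit 4) (nat_lit 362) (nat_lit 305) (nat_lit 113)))) (XT.nd (nat_lit 78) (nat_lit 76) (nat_lit 0) (XT.lf (nat_lit 0) (nat_lit 94378627503) (nat_lit 228) (nat_lit 67678359964) (nat_lit 76) (nat_lit 66208093904) (nat_lit 18) (nat_lit 5) (nat_lit 21) (nat_lit 5) (nat_lit 19) (nat_lit 4) (nat_lit 363) (nat_lit 305) (nat_lit 112)) (XT.nd (nat_lit 78) (nat_lit 0) (nat_lit 0) (XT.lf (nat_lit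 0) (nat_lit 15788939681) (nat_lit 76) (nat_lit 119305937403) (nat_lit 152) (nat_lit 102134339018) (nat_lit 17) (nat_lit 5) (nat_lit 18) (nat_lit 5) (nat_lit 19) (nat_lit 4) (nat_lit 364) (nat_lit 305) (nat_lit 111)) (XT.lf (nat_lit 0) (nat_lit 105778571039) (nat_lit 76) (nat_lit 73214157345) (nat_lit 152) (nat_lit 67591539932) (nat_lit 17) (nat_lit 5) (nat_lit 18) (nat_lit 5) (nat_lit 19) (nat_lit 4) (nat_lit 365) (nat_lit 305) (nat_lit 110))))))) (XT.nd (nat_lit 780) (nat_lit 76) (nat_lit 0) (XT.nd (nat_lit 390) (nat_lit 152) (nat_lit 0) (XT.nd (nat_lit 156) (nat_lit 76) (nat_lit 0) (XT.nd (nat_lit 78) (nat_lit 152) (nat_lit 0) (XT.lf (nat_lit 0) (nat_lit 200267042911) (nat_lit 76) (nat_lit 24818070733) (nat_lit 152) (nat_lit 31321977624) (nat_lit 17) (nat_lit 5) (nat_lit 18) (nat_lit 5) (nat_lit 19) (nat_lit 4) (nat_lit 366) (nat_lit 305) (nat_lit 109)) (XT.lf (nat_lit 0) (nat_lit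 7487234466) (nat_lit 152) (nat_lit 233373373400) (nat_lit 76) (nat_lit 25808041327) (nat_lit 15) (nat_lit 5) (nat_lit 17) (nat_lit 5) (nat_lit 16) (nat_lit 4) (nat_lit 367) (nat_lit 305) (nat_lit 108))) (XT.nd (nat_lit 78) (nat_lit 76) (nat_lit 0) (XT.lf (nat_lit 0) (nat_lit 48557137464) (nat_lit 152) (nat_lit 149180865179) (nat_lit 76) (nat_lit 79610966084) (nat_lit 15) (nat_lit 5) (nat_lit 17) (nat_lit 5) (nat_lit 16) (nat_lit 4) (nat_lit 368) (nat_lit 305) (nat_lit 107)) (XT.nd (nat_lit 78) (nat_lit 76) (nat_lit 0) (XT.lf (nat_lit 0) (nat_lit 91680207449) (nat_lit 152) (nat_lit 60779326878) (nat_lit 76) (nat_lit 136103786481) (nat_lit 15) (nat_lit 5) (nat_lit 17) (nat_lit 5) (nat_lit 16) (nat_lit 4) (nat_lit 369) (nat_lit 305) (nat_lit 106)) (XT.lf (nat_lit 0) (nat_lit 33101165367) (nat_lit 76) (nat_lit 104374754986) (nat_lit 152) (nat_lit 162836645825) (nat_lit 14) (nat_lit 5) (nat_lit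 15) (nat_lit 5) (nat_lit 16) (nat_lit 4) (nat_lit 370) (nat_lit 305) (nat_lit 105))))) (XT.nd (nat_lit 156) (nat_lit 152) (nat_lit 0) (XT.nd (nat_lit 78) (nat_lit 0) (nat_lit 0) (XT.lf (nat_lit 0) (nat_lit 133785245373) (nat_lit 76) (nat_lit 52805194474) (nat_lit 152) (nat_lit 126007383067) (nat_lit 14) (nat_lit 5) (nat_lit 15) (nat_lit 5) (nat_lit 16) (nat_lit 4) (nat_lit 371) (nat_lit 305) (nat_lit 104)) (XT.lf (nat_lit 0) (nat_lit 238181355363) (nat_lit 152) (nat_lit 86015320932) (nat_lit 0) (nat_lit 1299632832) (nat_lit 14) (nat_lit 5) (nat_lit 16) (nat_lit 4) (nat_lit 14) (nat_lit 4) (nat_lit 372) (nat_lit 305) (nat_lit 103))) (XT.nd (nat_lit 78) (nat_lit 76) (nat_lit 0) (XT.lf (nat_lit 0) (nat_lit 10904639712) (nat_lit 76) (nat_lit 282482806412) (nat_lit 76) (nat_lit 45600492187) (nat_lit 13) (nat_lit 4) (nat_lit 14) (nat_lit 5) (nat_lit 14) (nat_lit 4) (nat_lit 373) (nat_lit 305)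 (nat_lit 102)) (XT.nd (nat_lit 78) (nat_lit 76) (nat_lit 0) (XT.lf (nat_lit 0) (nat_lit 115656347992) (nat_lit 76) (nat_lit 237153928537) (nat_lit 76) (nat_lit 271050795) (nat_lit 13) (nat_lit 4) (nat_lit 14) (nat_lit 5) (nat_lit 14) (nat_lit 4) (nat_lit 374) (nat_lit 305) (nat_lit 101)) (XT.lf (nat_lit 0) (nat_lit 45809904252) (nat_lit 152) (nat_lit 142973110706) (nat_lit 76) (nat_lit 179059440623) (nat_lit 12) (nat_lit 5) (nat_lit 14) (nat_lit 5) (nat_lit 13) (nat_lit 4) (nat_lit 375) (nat_lit 305) (nat_lit 100)))))) (XT.nd (nat_lit 35412) (nat_lit 0) (nat_lit 5700) (XT.nd (nat_lit 35178) (nat_lit 0) (nat_lit 6308) (XT.nd (nat_lit 78) (nat_lit 76) (nat_lit 0) (XT.lf (nat_lit 0) (nat_lit 94185543439) (nat_lit 152) (nat_lit 43803561501) (nat_lit 76) (nat_lit 245352325974) (nat_lit 12) (nat_lit 5) (nat_lit 14) (nat_lit 5) (nat_lit 13) (nat_lit 4) (nat_lit 376) (nat_lit 305) (nat_lit 99))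 (XT.lf (nat_lit 0) (nat_lit 62318602587) (nat_lit 76) (nat_lit 83634087620) (nat_lit 152) (nat_lit 253614028630) (nat_lit 11) (nat_lit 5) (nat_lit 12) (nat_lit 5) (nat_lit 13) (nat_lit 4) (nat_lit 377) (nat_lit 305) (nat_lit 98))) (XT.nd (nat_lit 78) (nat_lit 0) (nat_lit 0) (XT.lf (nat_lit 0) (nat_lit 8614671107) (nat_lit 0) (nat_lit 8614671107) (nat_lit 684) (nat_lit 2053665067) (nat_lit 94) (nat_lit 5) (nat_lit 94) (nat_lit 3) (nat_lit 103) (nat_lit 3) (nat_lit 306) (nat_lit 306) (nat_lit 168)) (XT.nd (nat_lit 78) (nat_lit 0) (nat_lit 0) (XT.lf (nat_lit 0) (nat_lit 35369502902) (nat_lit 684) (nat_lit 3664561286) (nat_lit 760) (nat_lit 493559645) (nat_lit 94) (nat_lit 5) (nat_lit 103) (nat_lit 3) (nat_lit 104) (nat_lit 5) (nat_lit 307) (nat_lit 306) (nat_lit 167)) (XT.lf (nat_lit 76) (nat_lit 15090205277) (nat_lit 0) (nat_lit 21751076808) (nat_lit 760) (nat_lit 3670265198) (nat_lit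 95) (nat_lit 5) (nat_lit 94) (nat_lit 5) (nat_lit 104) (nat_lit 5) (nat_lit 308) (nat_lit 306) (nat_lit 166))))) (XT.nd (nat_lit 234) (nat_lit 608) (nat_lit 0) (XT.nd (nat_lit 78) (nat_lit 0) (nat_lit 76) (XT.lf (nat_lit 76) (nat_lit 34908476748) (nat_lit 0) (nat_lit 3537708167) (nat_lit 760) (nat_lit 3095509740) (nat_lit 95) (nat_lit 5) (nat_lit 94) (nat_lit 5) (nat_lit 104) (nat_lit 5) (nat_lit 309) (nat_lit 306) (nat_lit 165)) (XT.nd (nat_lit 78) (nat_lit 0) (nat_lit 0) (XT.lf (nat_lit 76) (nat_lit 13274296817) (nat_lit 0) (nat_lit 27305241070) (nat_lit 760) (nat_lit 2021405527) (nat_lit 96) (nat_lit 5) (nat_lit 95) (nat_lit 5) (nat_lit 105) (nat_lit 5) (nat_lit 310) (nat_lit 306) (nat_lit 164)) (XT.lf (nat_lit 76) (nat_lit 34346059795) (nat_lit 0) (nat_lit 8640595350) (nat_lit 760) (nat_lit 718148699) (nat_lit 96) (nat_lit 5) (nat_lit 95) (nat_lit 5) (nat_lit 105) (nat_lit 5) (nat_lit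 311) (nat_lit 306) (nat_lit 163)))) (XT.nd (nat_lit 78) (nat_lit 0) (nat_lit 0) (XT.lf (nat_lit 0) (nat_lit 988576293) (nat_lit 760) (nat_lit 33049128176) (nat_lit 836) (nat_lit 10807692984) (nat_lit 86) (nat_lit 5) (nat_lit 96) (nat_lit 5) (nat_lit 97) (nat_lit 5) (nat_lit 312) (nat_lit 306) (nat_lit 162)) (XT.nd (nat_lit 78) (nat_lit 0) (nat_lit 76) (XT.lf (nat_lit 0) (nat_lit 3057108508) (nat_lit 760) (nat_lit 11858776177) (nat_lit 836) (nat_lit 31111520649) (nat_lit 86) (nat_lit 5) (nat_lit 96) (nat_lit 5) (nat_lit 97) (nat_lit 5) (nat_lit 313) (nat_lit 306) (nat_lit 161)) (XT.lf (nat_lit 0) (nat_lit 5477954581) (nat_lit 760) (nat_lit 36610500470) (nat_lit 836) (nat_lit 5167617542) (nat_lit 87) (nat_lit 5) (nat_lit 97) (nat_lit 5) (nat_lit 98) (nat_lit 5) (nat_lit 314) (nat_lit 306) (nat_lit 160))))))))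
noncomputable def xc220 : XT := (XT.nd (nat_lit 1560) (nat_lit 1824) (nat_lit 0) (XT.nd (nat_lit 780) (nat_lit 1444) (nat_lit 0) (XT.nd (nat_lit 390) (nat_lit 988) (nat_lit 0) (XT.nd (nat_lit 156) (nat_lit 456) (nat_lit 0) (XT.nd (nat_lit 78) (nat_lit 0) (nat_lit 0) (XT.lf (nat_lit 0) (nat_lit 8466537617) (nat_lit 760) (nat_lit 14098713528) (nat_lit 836) (nat_lit 25958590522) (nat_lit 87) (nat_lit 5) (nat_lit 97) (nat_lit 5) (nat_lit 98) (nat_lit 5) (nat_lit 315) (nat_lit 306) (nat_lit 159)) (XT.lf (nat_lit 76) (nat_lit 9852465346) (nat_lit 0) (nat_lit 1904047611) (nat_lit 836) (nat_lit 38090891113) (nat_lit 88) (nat_lit 5) (nat_lit 87) (nat_lit 5) (nat_lit 98) (nat_lit 5) (nat_lit 316) (nat_lit 306) (nat_lit 158))) (XT.nd (nat_lit 78) (nat_lit 532) (nat_lit 0) (XT.lf (nat_lit 0) (nat_lit 15760858573) (nat_lit 760) (nat_lit 16049032647) (nat_lit 76) (nat_lit 19399762689) (nat_lit 88)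 (nat_lit 5) (nat_lit 98) (nat_lit 5) (nat_lit 89) (nat_lit 5) (nat_lit 317) (nat_lit 306) (nat_lit 157)) (XT.nd (nat_lit 78) (nat_lit 0) (nat_lit 0) (XT.lf (nat_lit 0) (nat_lit 9361032859) (nat_lit 532) (nat_lit 10780047794) (nat_lit 608) (nat_lit 32490155378) (nat_lit 81) (nat_lit 5) (nat_lit 88) (nat_lit 5) (nat_lit 89) (nat_lit 5) (nat_lit 318) (nat_lit 306) (nat_lit 156)) (XT.lf (nat_lit 0) (nat_lit 25191365688) (nat_lit 608) (nat_lit 17694016036) (nat_lit 76) (nat_lit 11215965564) (nat_lit 81) (nat_lit 5) (nat_lit 89) (nat_lit 5) (nat_lit 82) (nat_lit 5) (nat_lit 319) (nat_lit 306) (nat_lit 155))))) (XT.nd (nat_lit 156) (nat_lit 608) (nat_lit 0) (XT.nd (nat_lit 78) (nat_lit 0) (nat_lit 0) (XT.lf (nat_lit 0) (nat_lit 9279748243) (nat_lit 380) (nat_lit 21534453355) (nat_lit 456) (nat_lit 24814763174) (nat_lit 76) (nat_lit 5) (nat_lit 81) (nat_lit 5) (nat_lit 82) (nat_lit 5) (nat_lit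 320) (nat_lit 306) (nat_lit 154)) (XT.lf (nat_lit 0) (nat_lit 37035033808) (nat_lit 456) (nat_lit 19021771796) (nat_lit 76) (nat_lit 1160317179) (nat_lit 76) (nat_lit 5) (nat_lit 82) (nat_lit 5) (nat_lit 77) (nat_lit 5) (nat_lit 321) (nat_lit 306) (nat_lit 153))) (XT.nd (nat_lit 78) (nat_lit 304) (nat_lit 0) (XT.lf (nat_lit 0) (nat_lit 9625601605) (nat_lit 304) (nat_lit 34443168010) (nat_lit 380) (nat_lit 14790828244) (nat_lit 72) (nat_lit 5) (nat_lit 76) (nat_lit 5) (nat_lit 77) (nat_lit 5) (nat_lit 322) (nat_lit 306) (nat_lit 152)) (XT.nd (nat_lit 78) (nat_lit 304) (nat_lit 0) (XT.lf (nat_lit 0) (nat_lit 40364261713) (nat_lit 304) (nat_lit 11410674710) (nat_lit 380) (nat_lit 8793225211) (nat_lit 72) (nat_lit 5) (nat_lit 76) (nat_lit 5) (nat_lit 77) (nat_lit 5) (nat_lit 323) (nat_lit 306) (nat_lit 151)) (XT.lf (nat_lit 0) (nat_lit 10409984271) (nat_lit 304) (nat_lit 49817052348) (nat_lit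 380) (nat_lit 2117087780) (nat_lit 68) (nat_lit 5) (nat_lit 72) (nat_lit 5) (nat_lit 73) (nat_lit 5) (nat_lit 324) (nat_lit 306) (nat_lit 150)))))) (XT.nd (nat_lit 390) (nat_lit 760) (nat_lit 0) (XT.nd (nat_lit 156) (nat_lit 304) (nat_lit 0) (XT.nd (nat_lit 78) (nat_lit 304) (nat_lit 0) (XT.lf (nat_lit 0) (nat_lit 5269771410) (nat_lit 380) (nat_lit 21206335205) (nat_lit 76) (nat_lit 37702285147) (nat_lit 67) (nat_lit 5) (nat_lit 72) (nat_lit 5) (nat_lit 68) (nat_lit 5) (nat_lit 325) (nat_lit 306) (nat_lit 149)) (XT.lf (nat_lit 0) (nat_lit 11386159112) (nat_lit 304) (nat_lit 1745183476) (nat_lit 380) (nat_lit 52962470509) (nat_lit 63) (nat_lit 5) (nat_lit 67) (nat_lit 5) (nat_lit 68) (nat_lit 5) (nat_lit 326) (nat_lit 306) (nat_lit 148))) (XT.nd (nat_lit 78) (nat_lit 304) (nat_lit 0) (XT.lf (nat_lit 0) (nat_lit 22127979295) (nat_lit 380) (nat_lit 22128058902) (nat_lit 76) (nat_lit 23811869642)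 (nat_lit 63) (nat_lit 5) (nat_lit 68) (nat_lit 5) (nat_lit 64) (nat_lit 5) (nat_lit 327) (nat_lit 306) (nat_lit 147)) (XT.nd (nat_lit 78) (nat_lit 0) (nat_lit 0) (XT.lf (nat_lit 0) (nat_lit 12448961056) (nat_lit 304) (nat_lit 19347299633) (nat_lit 380) (nat_lit 38333357595) (nat_lit 59) (nat_lit 5) (nat_lit 63) (nat_lit 5) (nat_lit 64) (nat_lit 5) (nat_lit 328) (nat_lit 306) (nat_lit 146)) (XT.lf (nat_lit 0) (nat_lit 42433993612) (nat_lit 380) (nat_lit 22866447832) (nat_lit 76) (nat_lit 6969672467) (nat_lit 59) (nat_lit 5) (nat_lit 64) (nat_lit 5) (nat_lit 60) (nat_lit 5) (nat_lit 329) (nat_lit 306) (nat_lit 145))))) (XT.nd (nat_lit 156) (nat_lit 532) (nat_lit 0) (XT.nd (nat_lit 78) (nat_lit 0) (nat_lit 0) (XT.lf (nat_lit 0) (nat_lit 13812020325) (nat_lit 228) (nat_lit 40323330078) (nat_lit 304) (nat_lit 20355698516) (nat_lit 56) (nat_lit 5) (nat_lit 59) (nat_lit 5) (nat_lit 60) (nat_lit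 5) (nat_lit 330) (nat_lit 306) (nat_lit 144)) (XT.lf (nat_lit 0) (nat_lit 53116951391) (nat_lit 228) (nat_lit 13691032474) (nat_lit 304) (nat_lit 9995737759) (nat_lit 56) (nat_lit 5) (nat_lit 59) (nat_lit 5) (nat_lit 60) (nat_lit 5) (nat_lit 331) (nat_lit 306) (nat_lit 143))) (XT.nd (nat_lit 78) (nat_lit 228) (nat_lit 0) (XT.lf (nat_lit 0) (nat_lit 1324229149) (nat_lit 304) (nat_lit 63805624224) (nat_lit 76) (nat_lit 14077974919) (nat_lit 52) (nat_lit 5) (nat_lit 56) (nat_lit 5) (nat_lit 53) (nat_lit 5) (nat_lit 332) (nat_lit 306) (nat_lit 142)) (XT.nd (nat_lit 78) (nat_lit 228) (nat_lit 0) (XT.lf (nat_lit 0) (nat_lit 13505448570) (nat_lit 304) (nat_lit 24840316646) (nat_lit 76) (nat_lit 43346624228) (nat_lit 52) (nat_lit 5) (nat_lit 56) (nat_lit 5) (nat_lit 53) (nat_lit 5) (nat_lit 333) (nat_lit 306) (nat_lit 141)) (XT.lf (nat_lit 0) (nat_lit 16603404100) (nat_lit 228) (nat_lit 9950607911)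 (nat_lit 304) (nat_lit 57734253632) (nat_lit 49) (nat_lit 5) (nat_lit 52) (nat_lit 5) (nat_lit 53) (nat_lit 5) (nat_lit 334) (nat_lit 306) (nat_lit 140))))))) (XT.nd (nat_lit 780) (nat_lit 836) (nat_lit 0) (XT.nd (nat_lit 390) (nat_lit 532) (nat_lit 0) (XT.nd (nat_lit 156) (nat_lit 228) (nat_lit 0) (XT.nd (nat_lit 78) (nat_lit 228) (nat_lit 0) (XT.lf (nat_lit 0) (nat_lit 40991798080) (nat_lit 304) (nat_lit 26329511139) (nat_lit 76) (nat_lit 19655787799) (nat_lit 49) (nat_lit 5) (nat_lit 53) (nat_lit 5) (nat_lit 50) (nat_lit 5) (nat_lit 335) (nat_lit 306) (nat_lit 139)) (XT.lf (nat_lit 0) (nat_lit 17489014740) (nat_lit 228) (nat_lit 39097757612) (nat_lit 304) (nat_lit 33191833703) (nat_lit 46) (nat_lit 5) (nat_lit 49) (nat_lit 5) (nat_lit 50) (nat_lit 5) (nat_lit 336) (nat_lit 306) (nat_lit 138))) (XT.nd (nat_lit 78) (nat_lit 228) (nat_lit 0) (XT.lf (nat_lit 0) (nat_lit 64411362828) (nat_lit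 228) (nat_lit 8995180176) (nat_lit 304) (nat_lit 19291396143) (nat_lit 46) (nat_lit 5) (nat_lit 49) (nat_lit 5) (nat_lit 50) (nat_lit 5) (nat_lit 337) (nat_lit 306) (nat_lit 137)) (XT.nd (nat_lit 78) (nat_lit 76) (nat_lit 0) (XT.lf (nat_lit 0) (nat_lit 18143051128) (nat_lit 152) (nat_lit 73559740022) (nat_lit 228) (nat_lit 4028674236) (nat_lit 44) (nat_lit 5) (nat_lit 46) (nat_lit 5) (nat_lit 47) (nat_lit 5) (nat_lit 338) (nat_lit 306) (nat_lit 136)) (XT.lf (nat_lit 0) (nat_lit 12246748080) (nat_lit 228) (nat_lit 31360327412) (nat_lit 76) (nat_lit 55268550361) (nat_lit 43) (nat_lit 5) (nat_lit 46) (nat_lit 5) (nat_lit 44) (nat_lit 5) (nat_lit 339) (nat_lit 306) (nat_lit 135))))) (XT.nd (nat_lit 156) (nat_lit 304) (nat_lit 0) (XT.nd (nat_lit 78) (nat_lit 0) (nat_lit 0) (XT.lf (nat_lit 0) (nat_lit 17677783243) (nat_lit 228) (nat_lit 11797993911) (nat_lit 304) (nat_lit 72684154533) (nat_lit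 40) (nat_lit 5) (nat_lit 43) (nat_lit 5) (nat_lit 44) (nat_lit 5) (nat_lit 340) (nat_lit 306) (nat_lit 134)) (XT.lf (nat_lit 0) (nat_lit 48442566725) (nat_lit 304) (nat_lit 35672456390) (nat_lit 76) (nat_lit 21449615020) (nat_lit 40) (nat_lit 5) (nat_lit 44) (nat_lit 5) (nat_lit 41) (nat_lit 5) (nat_lit 341) (nat_lit 306) (nat_lit 133))) (XT.nd (nat_lit 78) (nat_lit 152) (nat_lit 0) (XT.lf (nat_lit 0) (nat_lit 15891853195) (nat_lit 152) (nat_lit 52906644417) (nat_lit 228) (nat_lit 40319042938) (nat_lit 38) (nat_lit 5) (nat_lit 40) (nat_lit 5) (nat_lit 41) (nat_lit 5) (nat_lit 342) (nat_lit 306) (nat_lit 132)) (XT.nd (nat_lit 78) (nat_lit 152) (nat_lit 0) (XT.lf (nat_lit 0) (nat_lit 71271767187) (nat_lit 152) (nat_lit 19503881558) (nat_lit 228) (nat_lit 22042268859) (nat_lit 38) (nat_lit 5) (nat_lit 40) (nat_lit 5) (nat_lit 41) (nat_lit 5) (nat_lit 343) (nat_lit 306) (nat_lit 131)) (XT.lf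 (nat_lit 0) (nat_lit 12885653056) (nat_lit 152) (nat_lit 101409583073) (nat_lit 228) (nat_lit 2385899113) (nat_lit 36) (nat_lit 5) (nat_lit 38) (nat_lit 5) (nat_lit 39) (nat_lit 5) (nat_lit 344) (nat_lit 306) (nat_lit 130)))))) (XT.nd (nat_lit 390) (nat_lit 456) (nat_lit 0) (XT.nd (nat_lit 156) (nat_lit 152) (nat_lit 0) (XT.nd (nat_lit 78) (nat_lit 152) (nat_lit 0) (XT.lf (nat_lit 0) (nat_lit 18703270423) (nat_lit 228) (nat_lit 49838215096) (nat_lit 76) (nat_lit 52130069574) (nat_lit 35) (nat_lit 5) (nat_lit 38) (nat_lit 5) (nat_lit 36) (nat_lit 5) (nat_lit 345) (nat_lit 306) (nat_lit 129)) (XT.lf (nat_lit 0) (nat_lit 7000862603) (nat_lit 152) (nat_lit 33874515283) (nat_lit 228) (nat_lit 83978729908) (nat_lit 33) (nat_lit 5) (nat_lit 35) (nat_lit 5) (nat_lit 36) (nat_lit 5) (nat_lit 346) (nat_lit 306) (nat_lit 128))) (XT.nd (nat_lit 78) (nat_lit 152) (nat_lit 0) (XT.lf (nat_lit 0) (nat_lit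 65052764017) (nat_lit 228) (nat_lit 60845714240) (nat_lit 76) (nat_lit 3302476757) (nat_lit 33) (nat_lit 5) (nat_lit 36) (nat_lit 5) (nat_lit 34) (nat_lit 5) (nat_lit 347) (nat_lit 306) (nat_lit 127)) (XT.nd (nat_lit 78) (nat_lit 152) (nat_lit 0) (XT.lf (nat_lit 0) (nat_lit 90993737004) (nat_lit 228) (nat_lit 1544098860) (nat_lit 76) (nat_lit 41199573378) (nat_lit 33) (nat_lit 5) (nat_lit 36) (nat_lit 5) (nat_lit 34) (nat_lit 5) (nat_lit 348) (nat_lit 306) (nat_lit 126)) (XT.lf (nat_lit 0) (nat_lit 62729404069) (nat_lit 152) (nat_lit 56481162678) (nat_lit 228) (nat_lit 19241179528) (nat_lit 31) (nat_lit 5) (nat_lit 33) (nat_lit 5) (nat_lit 34) (nat_lit 5) (nat_lit 349) (nat_lit 306) (nat_lit 125))))) (XT.nd (nat_lit 234) (nat_lit 228) (nat_lit 0) (XT.nd (nat_lit 78) (nat_lit 152) (nat_lit 0) (XT.lf (nat_lit 0) (nat_lit 5288446363) (nat_lit 228) (nat_lit 13216539879) (nat_lit 76) (nat_lit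 124891270043) (nat_lit 30) (nat_lit 5) (nat_lit 33) (nat_lit 5) (nat_lit 31) (nat_lit 5) (nat_lit 350) (nat_lit 306) (nat_lit 124)) (XT.nd (nat_lit 78) (nat_lit 0) (nat_lit 0) (XT.lf (nat_lit 0) (nat_lit 31590261314) (nat_lit 228) (nat_lit 95061979293) (nat_lit 76) (nat_lit 21860363282) (nat_lit 28) (nat_lit 5) (nat_lit 31) (nat_lit 5) (nat_lit 29) (nat_lit 5) (nat_lit 351) (nat_lit 306) (nat_lit 123)) (XT.lf (nat_lit 0) (nat_lit 59737489102) (nat_lit 228) (nat_lit 30271504798) (nat_lit 76) (nat_lit 63849259281) (nat_lit 28) (nat_lit 5) (nat_lit 31) (nat_lit 5) (nat_lit 29) (nat_lit 5) (nat_lit 352) (nat_lit 306) (nat_lit 122)))) (XT.nd (nat_lit 78) (nat_lit 76) (nat_lit 0) (XT.lf (nat_lit 0) (nat_lit 39006080828) (nat_lit 152) (nat_lit 50894481059) (nat_lit 228) (nat_lit 69540199259) (nat_lit 26) (nat_lit 5) (nat_lit 28) (nat_lit 5) (nat_lit 29) (nat_lit 5) (nat_lit 353) (nat_lit 306)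 (nat_lit 121)) (XT.nd (nat_lit 78) (nat_lit 76) (nat_lit 0) (XT.lf (nat_lit 0) (nat_lit 112797666972) (nat_lit 152) (nat_lit 9286284541) (nat_lit 228) (nat_lit 43192835209) (nat_lit 26) (nat_lit 5) (nat_lit 28) (nat_lit 5) (nat_lit 29) (nat_lit 5) (nat_lit 354) (nat_lit 306) (nat_lit 120)) (XT.lf (nat_lit 0) (nat_lit 18942566300) (nat_lit 76) (nat_lit 137766326901) (nat_lit 152) (nat_lit 14654101601) (nat_lit 25) (nat_lit 5) (nat_lit 26) (nat_lit 5) (nat_lit 27) (nat_lit 4) (nat_lit 355) (nat_lit 306) (nat_lit 119))))))))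
noncomputable def xc221 : XT := (XT.nd (nat_lit 36816) (nat_lit 0) (nat_lit 3876) (XT.nd (nat_lit 780) (nat_lit 380) (nat_lit 0) (XT.nd (nat_lit 390) (nat_lit 304) (nat_lit 0) (XT.nd (nat_lit 156) (nat_lit 228) (nat_lit 0) (XT.nd (nat_lit 78) (nat_lit 0) (nat_lit 0) (XT.lf (nat_lit 0) (nat_lit 15876587839) (nat_lit 152) (nat_lit 82358461907) (nat_lit 76) (nat_lit 79453756790) (nat_lit 24) (nat_lit 5) (nat_lit 26) (nat_lit 5) (nat_lit 25) (nat_lit 5) (nat_lit 356) (nat_lit 306) (nat_lit 118)) (XT.lf (nat_lit 0) (nat_lit 47440882312) (nat_lit 152) (nat_lit 9034408421) (nat_lit 76) (nat_lit 127843629646) (nat_lit 24) (nat_lit 5) (nat_lit 26) (nat_lit 5) (nat_lit 25) (nat_lit 5) (nat_lit 357) (nat_lit 306) (nat_lit 117))) (XT.nd (nat_lit 78) (nat_lit 76) (nat_lit 0) (XT.lf (nat_lit 0) (nat_lit 70202007280) (nat_lit 152) (nat_lit 11477000461) (nat_lit 228) (nat_lit 109546751654) (nat_lit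 22) (nat_lit 5) (nat_lit 24) (nat_lit 5) (nat_lit 25) (nat_lit 5) (nat_lit 358) (nat_lit 306) (nat_lit 116)) (XT.nd (nat_lit 78) (nat_lit 76) (nat_lit 0) (XT.lf (nat_lit 0) (nat_lit 118342609117) (nat_lit 228) (nat_lit 45318137056) (nat_lit 76) (nat_lit 34781515982) (nat_lit 22) (nat_lit 5) (nat_lit 25) (nat_lit 5) (nat_lit 23) (nat_lit 4) (nat_lit 359) (nat_lit 306) (nat_lit 115)) (XT.lf (nat_lit 0) (nat_lit 35107560147) (nat_lit 76) (nat_lit 122467696429) (nat_lit 152) (nat_lit 48407540442) (nat_lit 21) (nat_lit 5) (nat_lit 22) (nat_lit 5) (nat_lit 23) (nat_lit 4) (nat_lit 360) (nat_lit 306) (nat_lit 114))))) (XT.nd (nat_lit 156) (nat_lit 228) (nat_lit 0) (XT.nd (nat_lit 78) (nat_lit 76) (nat_lit 0) (XT.lf (nat_lit 0) (nat_lit 121127184850) (nat_lit 76) (nat_lit 78409435733) (nat_lit 152) (nat_lit 14325384083) (nat_lit 21) (nat_lit 5) (nat_lit 22) (nat_lit 5) (nat_lit 23) (nat_lit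 4) (nat_lit 361) (nat_lit 306) (nat_lit 113)) (XT.lf (nat_lit 0) (nat_lit 20773610084) (nat_lit 152) (nat_lit 11023126821) (nat_lit 76) (nat_lit 190321702188) (nat_lit 20) (nat_lit 5) (nat_lit 22) (nat_lit 5) (nat_lit 21) (nat_lit 5) (nat_lit 362) (nat_lit 306) (nat_lit 112))) (XT.nd (nat_lit 78) (nat_lit 76) (nat_lit 0) (XT.lf (nat_lit 0) (nat_lit 58639254972) (nat_lit 228) (nat_lit 154003875563) (nat_lit 76) (nat_lit 18058166413) (nat_lit 18) (nat_lit 5) (nat_lit 21) (nat_lit 5) (nat_lit 19) (nat_lit 4) (nat_lit 363) (nat_lit 306) (nat_lit 111)) (XT.nd (nat_lit 78) (nat_lit 76) (nat_lit 0) (XT.lf (nat_lit 0) (nat_lit 99108816408) (nat_lit 228) (nat_lit 71042238426) (nat_lit 76) (nat_lit 69526711354) (nat_lit 18) (nat_lit 5) (nat_lit 21) (nat_lit 5) (nat_lit 19) (nat_lit 4) (nat_lit 364) (nat_lit 306) (nat_lit 110)) (XT.lf (nat_lit 0) (nat_lit 16598102984) (nat_lit 76) (nat_lit 125262547238)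 (nat_lit 152) (nat_lit 107229469149) (nat_lit 17) (nat_lit 5) (nat_lit 18) (nat_lit 5) (nat_lit 19) (nat_lit 4) (nat_lit 365) (nat_lit 306) (nat_lit 109)))))) (XT.nd (nat_lit 390) (nat_lit 228) (nat_lit 0) (XT.nd (nat_lit 156) (nat_lit 152) (nat_lit 0) (XT.nd (nat_lit 78) (nat_lit 0) (nat_lit 0) (XT.lf (nat_lit 0) (nat_lit 111086277037) (nat_lit 76) (nat_lit 76866591845) (nat_lit 152) (nat_lit 70960081862) (nat_lit 17) (nat_lit 5) (nat_lit 18) (nat_lit 5) (nat_lit 19) (nat_lit 4) (nat_lit 366) (nat_lit 306) (nat_lit 108)) (XT.lf (nat_lit 0) (nat_lit 210298278339) (nat_lit 76) (nat_lit 26051094872) (nat_lit 152) (nat_lit 32877566918) (nat_lit 17) (nat_lit 5) (nat_lit 18) (nat_lit 5) (nat_lit 19) (nat_lit 4) (nat_lit 367) (nat_lit 306) (nat_lit 107))) (XT.nd (nat_lit 78) (nat_lit 0) (nat_lit 0) (XT.lf (nat_lit 0) (nat_lit 7871689230) (nat_lit 152) (nat_lit 245023732001) (nat_lit 76) (nat_lit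 27106150774) (nat_lit 15) (nat_lit 5) (nat_lit 17) (nat_lit 5) (nat_lit 16) (nat_lit 4) (nat_lit 368) (nat_lit 306) (nat_lit 106)) (XT.nd (nat_lit 78) (nat_lit 0) (nat_lit 0) (XT.lf (nat_lit 0) (nat_lit 50994606758) (nat_lit 152) (nat_lit 156622470277) (nat_lit 76) (nat_lit 83598854751) (nat_lit 15) (nat_lit 5) (nat_lit 17) (nat_lit 5) (nat_lit 16) (nat_lit 4) (nat_lit 369) (nat_lit 306) (nat_lit 105)) (XT.lf (nat_lit 0) (nat_lit 96273372507) (nat_lit 152) (nat_lit 63801685450) (nat_lit 76) (nat_lit 142915966627) (nat_lit 15) (nat_lit 5) (nat_lit 17) (nat_lit 5) (nat_lit 16) (nat_lit 4) (nat_lit 370) (nat_lit 306) (nat_lit 104))))) (XT.nd (nat_lit 234) (nat_lit 152) (nat_lit 0) (XT.nd (nat_lit 78) (nat_lit 0) (nat_lit 0) (XT.lf (nat_lit 0) (nat_lit 34772563540) (nat_lit 76) (nat_lit 109586126690) (nat_lit 152) (nat_lit 170969051249) (nat_lit 14) (nat_lit 5) (nat_lit 15) (nat_lit 5) (nat_lit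 16) (nat_lit 4) (nat_lit 371) (nat_lit 306) (nat_lit 103)) (XT.nd (nat_lit 78) (nat_lit 0) (nat_lit 0) (XT.lf (nat_lit 0) (nat_lit 140490069457) (nat_lit 76) (nat_lit 55438438917) (nat_lit 152) (nat_lit 132298774251) (nat_lit 14) (nat_lit 5) (nat_lit 15) (nat_lit 5) (nat_lit 16) (nat_lit 4) (nat_lit 372) (nat_lit 306) (nat_lit 102)) (XT.lf (nat_lit 0) (nat_lit 250098666999) (nat_lit 152) (nat_lit 90300959624) (nat_lit 0) (nat_lit 1371081853) (nat_lit 14) (nat_lit 5) (nat_lit 16) (nat_lit 4) (nat_lit 14) (nat_lit 4) (nat_lit 373) (nat_lit 306) (nat_lit 101)))) (XT.nd (nat_lit 156) (nat_lit 76) (nat_lit 0) (XT.lf (nat_lit 0) (nat_lit 11464755063) (nat_lit 76) (nat_lit 296600147041) (nat_lit 76) (nat_lit 47872025211) (nat_lit 13) (nat_lit 4) (nat_lit 14) (nat_lit 5) (nat_lit 14) (nat_lit 4) (nat_lit 374) (nat_lit 306) (nat_lit 100)) (XT.nd (nat_lit 78) (nat_lit 0) (nat_lit 0) (XT.lf (nat_lit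 0) (nat_lit 48107855067) (nat_lit 152) (nat_lit 150108016854) (nat_lit 76) (nat_lit 188018330439) (nat_lit 12) (nat_lit 5) (nat_lit 14) (nat_lit 5) (nat_lit 13) (nat_lit 4) (nat_lit 376) (nat_lit 306) (nat_lit 98)) (XT.lf (nat_lit 0) (nat_lit 98901921184) (nat_lit 152) (nat_lit 45980644922) (nat_lit 76) (nat_lit 257625578258) (nat_lit 12) (nat_lit 5) (nat_lit 14) (nat_lit 5) (nat_lit 13) (nat_lit 4) (nat_lit 377) (nat_lit 306) (nat_lit 97))))))) (XT.nd (nat_lit 780) (nat_lit 1748) (nat_lit 0) (XT.nd (nat_lit 390) (nat_lit 608) (nat_lit 0) (XT.nd (nat_lit 156) (nat_lit 0) (nat_lit 0) (XT.nd (nat_lit 78) (nat_lit 0) (nat_lit 0) (XT.lf (nat_lit 0) (nat_lit 9065776911) (nat_lit 0) (nat_lit 9065776911) (nat_lit 684) (nat_lit 2113494220) (nat_lit 94) (nat_lit 5) (nat_lit 94) (nat_lit 3) (nat_lit 103) (nat_lit 3) (nat_lit 307) (nat_lit 307) (nat_lit 166)) (XT.lf (nat_lit 0) (nat_lit 37214980769)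 (nat_lit 684) (nat_lit 3804360933) (nat_lit 760) (nat_lit 480675323) (nat_lit 94) (nat_lit 5) (nat_lit 103) (nat_lit 3) (nat_lit 104) (nat_lit 5) (nat_lit 308) (nat_lit 307) (nat_lit 165))) (XT.nd (nat_lit 78) (nat_lit 0) (nat_lit 0) (XT.lf (nat_lit 76) (nat_lit 15887443500) (nat_lit 0) (nat_lit 22869905718) (nat_lit 760) (nat_lit 3775943979) (nat_lit 95) (nat_lit 5) (nat_lit 94) (nat_lit 5) (nat_lit 104) (nat_lit 5) (nat_lit 309) (nat_lit 307) (nat_lit 164)) (XT.nd (nat_lit 78) (nat_lit 0) (nat_lit 76) (XT.lf (nat_lit 76) (nat_lit 36694593880) (nat_lit 0) (nat_lit 3744379355) (nat_lit 760) (nat_lit 3176157151) (nat_lit 95) (nat_lit 5) (nat_lit 94) (nat_lit 5) (nat_lit 104) (nat_lit 5) (nat_lit 310) (nat_lit 307) (nat_lit 163)) (XT.lf (nat_lit 76) (nat_lit 13982096293) (nat_lit 0) (nat_lit 28693786806) (nat_lit 760) (nat_lit 2051619977) (nat_lit 96) (nat_lit 5) (nat_lit 95) (nat_lit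 5) (nat_lit 105) (nat_lit 5) (nat_lit 311) (nat_lit 307) (nat_lit 162))))) (XT.nd (nat_lit 156) (nat_lit 0) (nat_lit 0) (XT.nd (nat_lit 78) (nat_lit 684) (nat_lit 0) (XT.lf (nat_lit 76) (nat_lit 36105348152) (nat_lit 0) (nat_lit 9094800054) (nat_lit 760) (nat_lit 686574395) (nat_lit 96) (nat_lit 5) (nat_lit 95) (nat_lit 5) (nat_lit 105) (nat_lit 5) (nat_lit 312) (nat_lit 307) (nat_lit 161)) (XT.lf (nat_lit 0) (nat_lit 1100594082) (nat_lit 760) (nat_lit 34654495558) (nat_lit 836) (nat_lit 11329345361) (nat_lit 86) (nat_lit 5) (nat_lit 96) (nat_lit 5) (nat_lit 97) (nat_lit 5) (nat_lit 313) (nat_lit 307) (nat_lit 160))) (XT.nd (nat_lit 78) (nat_lit 0) (nat_lit 76) (XT.lf (nat_lit 0) (nat_lit 3269572481) (nat_lit 760) (nat_lit 12406868294) (nat_lit 836) (nat_lit 32649256422) (nat_lit 86) (nat_lit 5) (nat_lit 96) (nat_lit 5) (nat_lit 97) (nat_lit 5) (nat_lit 314) (nat_lit 307) (nat_lit 159))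 (XT.nd (nat_lit 78) (nat_lit 0) (nat_lit 0) (XT.lf (nat_lit 0) (nat_lit 5809103039) (nat_lit 760) (nat_lit 38393727671) (nat_lit 836) (nat_lit 5413089664) (nat_lit 87) (nat_lit 5) (nat_lit 97) (nat_lit 5) (nat_lit 98) (nat_lit 5) (nat_lit 315) (nat_lit 307) (nat_lit 158)) (XT.lf (nat_lit 0) (nat_lit 8944389002) (nat_lit 760) (nat_lit 14758603659) (nat_lit 836) (nat_lit 27244225996) (nat_lit 87) (nat_lit 5) (nat_lit 97) (nat_lit 5) (nat_lit 98) (nat_lit 5) (nat_lit 316) (nat_lit 307) (nat_lit 157)))))) (XT.nd (nat_lit 390) (nat_lit 988) (nat_lit 0) (XT.nd (nat_lit 156) (nat_lit 836) (nat_lit 0) (XT.nd (nat_lit 78) (nat_lit 0) (nat_lit 76) (XT.lf (nat_lit 76) (nat_lit 10389407617) (nat_lit 0) (nat_lit 2007551030) (nat_lit 836) (nat_lit 39940099988) (nat_lit 88) (nat_lit 5) (nat_lit 87) (nat_lit 5) (nat_lit 98) (nat_lit 5) (nat_lit 317) (nat_lit 307) (nat_lit 156)) (XT.lf (nat_lit 0) (nat_lit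 16598892397) (nat_lit 760) (nat_lit 16806565951) (nat_lit 76) (nat_lit 20362098106) (nat_lit 88) (nat_lit 5) (nat_lit 98) (nat_lit 5) (nat_lit 89) (nat_lit 5) (nat_lit 318) (nat_lit 307) (nat_lit 155))) (XT.nd (nat_lit 78) (nat_lit 380) (nat_lit 0) (XT.lf (nat_lit 0) (nat_lit 9873278341) (nat_lit 532) (nat_lit 11323156711) (nat_lit 608) (nat_lit 34063870995) (nat_lit 81) (nat_lit 5) (nat_lit 88) (nat_lit 5) (nat_lit 89) (nat_lit 5) (nat_lit 319) (nat_lit 307) (nat_lit 154)) (XT.nd (nat_lit 78) (nat_lit 380) (nat_lit 0) (XT.lf (nat_lit 0) (nat_lit 26496873260) (nat_lit 608) (nat_lit 18534193276) (nat_lit 76) (nat_lit 11772978039) (nat_lit 81) (nat_lit 5) (nat_lit 89) (nat_lit 5) (nat_lit 82) (nat_lit 5) (nat_lit 320) (nat_lit 307) (nat_lit 153)) (XT.lf (nat_lit 0) (nat_lit 9787541094) (nat_lit 380) (nat_lit 22611806212) (nat_lit 456) (nat_lit 26008774293) (nat_lit 76) (nat_lit 5) (nat_lit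 81) (nat_lit 5) (nat_lit 82) (nat_lit 5) (nat_lit 321) (nat_lit 307) (nat_lit 152))))) (XT.nd (nat_lit 234) (nat_lit 684) (nat_lit 0) (XT.nd (nat_lit 78) (nat_lit 304) (nat_lit 0) (XT.lf (nat_lit 0) (nat_lit 38929095774) (nat_lit 456) (nat_lit 19928949253) (nat_lit 76) (nat_lit 1217752068) (nat_lit 76) (nat_lit 5) (nat_lit 82) (nat_lit 5) (nat_lit 77) (nat_lit 5) (nat_lit 322) (nat_lit 307) (nat_lit 151)) (XT.nd (nat_lit 78) (nat_lit 0) (nat_lit 0) (XT.lf (nat_lit 0) (nat_lit 10150084575) (nat_lit 304) (nat_lit 36163093539) (nat_lit 380) (nat_lit 15487287980) (nat_lit 72) (nat_lit 5) (nat_lit 76) (nat_lit 5) (nat_lit 77) (nat_lit 5) (nat_lit 323) (nat_lit 307) (nat_lit 150)) (XT.lf (nat_lit 0) (nat_lit 42423620408) (nat_lit 304) (nat_lit 11979081901) (nat_lit 380) (nat_lit 9191856304) (nat_lit 72) (nat_lit 5) (nat_lit 76) (nat_lit 5) (nat_lit 77) (nat_lit 5) (nat_lit 324) (nat_lit 307)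 (nat_lit 149)))) (XT.nd (nat_lit 78) (nat_lit 380) (nat_lit 0) (XT.lf (nat_lit 0) (nat_lit 10972911454) (nat_lit 304) (nat_lit 52303332050) (nat_lit 380) (nat_lit 2183137077) (nat_lit 68) (nat_lit 5) (nat_lit 72) (nat_lit 5) (nat_lit 73) (nat_lit 5) (nat_lit 325) (nat_lit 307) (nat_lit 148)) (XT.nd (nat_lit 78) (nat_lit 304) (nat_lit 0) (XT.lf (nat_lit 0) (nat_lit 5569956248) (nat_lit 380) (nat_lit 22224979072) (nat_lit 76) (nat_lit 39590489259) (nat_lit 67) (nat_lit 5) (nat_lit 72) (nat_lit 5) (nat_lit 68) (nat_lit 5) (nat_lit 326) (nat_lit 307) (nat_lit 147)) (XT.lf (nat_lit 0) (nat_lit 11996467818) (nat_lit 304) (nat_lit 1827030862) (nat_lit 380) (nat_lit 55573176139) (nat_lit 63) (nat_lit 5) (nat_lit 67) (nat_lit 5) (nat_lit 68) (nat_lit 5) (nat_lit 327) (nat_lit 307) (nat_lit 146))))))))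
noncomputable def xc222 : XT := (XT.nd (nat_lit 1560) (nat_lit 1216) (nat_lit 0) (XT.nd (nat_lit 780) (nat_lit 988) (nat_lit 0) (XT.nd (nat_lit 390) (nat_lit 760) (nat_lit 0) (XT.nd (nat_lit 156) (nat_lit 228) (nat_lit 0) (XT.nd (nat_lit 78) (nat_lit 304) (nat_lit 0) (XT.lf (nat_lit 0) (nat_lit 23268352979) (nat_lit 380) (nat_lit 23193752143) (nat_lit 76) (nat_lit 25007452245) (nat_lit 63) (nat_lit 5) (nat_lit 68) (nat_lit 5) (nat_lit 64) (nat_lit 5) (nat_lit 328) (nat_lit 307) (nat_lit 145)) (XT.lf (nat_lit 0) (nat_lit 13111462205) (nat_lit 304) (nat_lit 20307593735) (nat_lit 380) (nat_lit 40215349263) (nat_lit 59) (nat_lit 5) (nat_lit 63) (nat_lit 5) (nat_lit 64) (nat_lit 5) (nat_lit 329) (nat_lit 307) (nat_lit 144))) (XT.nd (nat_lit 78) (nat_lit 228) (nat_lit 0) (XT.lf (nat_lit 0) (nat_lit 44587210067) (nat_lit 380) (nat_lit 23970116228) (nat_lit 76) (nat_lit 7324674727) (nat_lit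 59) (nat_lit 5) (nat_lit 64) (nat_lit 5) (nat_lit 60) (nat_lit 5) (nat_lit 330) (nat_lit 307) (nat_lit 143)) (XT.nd (nat_lit 78) (nat_lit 0) (nat_lit 0) (XT.lf (nat_lit 0) (nat_lit 14541635757) (nat_lit 228) (nat_lit 42331107266) (nat_lit 304) (nat_lit 21341286375) (nat_lit 56) (nat_lit 5) (nat_lit 59) (nat_lit 5) (nat_lit 60) (nat_lit 5) (nat_lit 331) (nat_lit 307) (nat_lit 142)) (XT.lf (nat_lit 0) (nat_lit 55809955546) (nat_lit 228) (nat_lit 14367594273) (nat_lit 304) (nat_lit 10464860775) (nat_lit 56) (nat_lit 5) (nat_lit 59) (nat_lit 5) (nat_lit 60) (nat_lit 5) (nat_lit 332) (nat_lit 307) (nat_lit 141))))) (XT.nd (nat_lit 156) (nat_lit 456) (nat_lit 0) (XT.nd (nat_lit 78) (nat_lit 0) (nat_lit 0) (XT.lf (nat_lit 0) (nat_lit 1419431891) (nat_lit 304) (nat_lit 66957004166) (nat_lit 76) (nat_lit 14790298919) (nat_lit 52) (nat_lit 5) (nat_lit 56) (nat_lit 5) (nat_lit 53) (nat_lit 5) (nat_lit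 333) (nat_lit 307) (nat_lit 140)) (XT.lf (nat_lit 0) (nat_lit 14208331745) (nat_lit 304) (nat_lit 26045283651) (nat_lit 76) (nat_lit 45521979490) (nat_lit 52) (nat_lit 5) (nat_lit 56) (nat_lit 5) (nat_lit 53) (nat_lit 5) (nat_lit 334) (nat_lit 307) (nat_lit 139))) (XT.nd (nat_lit 78) (nat_lit 228) (nat_lit 0) (XT.lf (nat_lit 0) (nat_lit 17470025571) (nat_lit 228) (nat_lit 10438552095) (nat_lit 304) (nat_lit 60592726107) (nat_lit 49) (nat_lit 5) (nat_lit 52) (nat_lit 5) (nat_lit 53) (nat_lit 5) (nat_lit 335) (nat_lit 307) (nat_lit 138)) (XT.nd (nat_lit 78) (nat_lit 228) (nat_lit 0) (XT.lf (nat_lit 0) (nat_lit 43067116292) (nat_lit 304) (nat_lit 27610104077) (nat_lit 76) (nat_lit 20647414705) (nat_lit 49) (nat_lit 5) (nat_lit 53) (nat_lit 5) (nat_lit 50) (nat_lit 5) (nat_lit 336) (nat_lit 307) (nat_lit 137)) (XT.lf (nat_lit 0) (nat_lit 18398769344) (nat_lit 228) (nat_lit 41042395968) (nat_lit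 304) (nat_lit 34825089395) (nat_lit 46) (nat_lit 5) (nat_lit 49) (nat_lit 5) (nat_lit 50) (nat_lit 5) (nat_lit 337) (nat_lit 307) (nat_lit 136)))))) (XT.nd (nat_lit 390) (nat_lit 532) (nat_lit 0) (XT.nd (nat_lit 156) (nat_lit 304) (nat_lit 0) (XT.nd (nat_lit 78) (nat_lit 152) (nat_lit 0) (XT.lf (nat_lit 0) (nat_lit 67665553700) (nat_lit 228) (nat_lit 9435177733) (nat_lit 304) (nat_lit 20230884052) (nat_lit 46) (nat_lit 5) (nat_lit 49) (nat_lit 5) (nat_lit 50) (nat_lit 5) (nat_lit 338) (nat_lit 307) (nat_lit 135)) (XT.lf (nat_lit 0) (nat_lit 19084335099) (nat_lit 152) (nat_lit 77226998670) (nat_lit 228) (nat_lit 4205508491) (nat_lit 44) (nat_lit 5) (nat_lit 46) (nat_lit 5) (nat_lit 47) (nat_lit 5) (nat_lit 339) (nat_lit 307) (nat_lit 134))) (XT.nd (nat_lit 78) (nat_lit 228) (nat_lit 0) (XT.lf (nat_lit 0) (nat_lit 12881763693) (nat_lit 228) (nat_lit 32895064027) (nat_lit 76) (nat_lit 58041421712)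 (nat_lit 43) (nat_lit 5) (nat_lit 46) (nat_lit 5) (nat_lit 44) (nat_lit 5) (nat_lit 340) (nat_lit 307) (nat_lit 133)) (XT.nd (nat_lit 78) (nat_lit 0) (nat_lit 0) (XT.lf (nat_lit 0) (nat_lit 18594415391) (nat_lit 228) (nat_lit 12377260125) (nat_lit 304) (nat_lit 76295124610) (nat_lit 40) (nat_lit 5) (nat_lit 43) (nat_lit 5) (nat_lit 44) (nat_lit 5) (nat_lit 341) (nat_lit 307) (nat_lit 132)) (XT.lf (nat_lit 0) (nat_lit 50885909845) (nat_lit 304) (nat_lit 37423979102) (nat_lit 76) (nat_lit 22531898764) (nat_lit 40) (nat_lit 5) (nat_lit 44) (nat_lit 5) (nat_lit 41) (nat_lit 5) (nat_lit 342) (nat_lit 307) (nat_lit 131))))) (XT.nd (nat_lit 156) (nat_lit 380) (nat_lit 0) (XT.nd (nat_lit 78) (nat_lit 0) (nat_lit 0) (XT.lf (nat_lit 0) (nat_lit 16718028218) (nat_lit 152) (nat_lit 55541091920) (nat_lit 228) (nat_lit 42313241996) (nat_lit 38) (nat_lit 5) (nat_lit 40) (nat_lit 5) (nat_lit 41) (nat_lit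 5) (nat_lit 343) (nat_lit 307) (nat_lit 130)) (XT.lf (nat_lit 0) (nat_lit 74865433988) (nat_lit 152) (nat_lit 20468709238) (nat_lit 228) (nat_lit 23123665073) (nat_lit 38) (nat_lit 5) (nat_lit 40) (nat_lit 5) (nat_lit 41) (nat_lit 5) (nat_lit 344) (nat_lit 307) (nat_lit 129))) (XT.nd (nat_lit 78) (nat_lit 228) (nat_lit 0) (XT.lf (nat_lit 0) (nat_lit 13560358749) (nat_lit 152) (nat_lit 106469041692) (nat_lit 228) (nat_lit 2484802788) (nat_lit 36) (nat_lit 5) (nat_lit 38) (nat_lit 5) (nat_lit 39) (nat_lit 5) (nat_lit 345) (nat_lit 307) (nat_lit 128)) (XT.nd (nat_lit 78) (nat_lit 152) (nat_lit 0) (XT.lf (nat_lit 0) (nat_lit 19657232641) (nat_lit 228) (nat_lit 52300513042) (nat_lit 76) (nat_lit 54746430314) (nat_lit 35) (nat_lit 5) (nat_lit 38) (nat_lit 5) (nat_lit 36) (nat_lit 5) (nat_lit 346) (nat_lit 307) (nat_lit 127)) (XT.lf (nat_lit 0) (nat_lit 7380040917) (nat_lit 152) (nat_lit 35557464266)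 (nat_lit 228) (nat_lit 88158373969) (nat_lit 33) (nat_lit 5) (nat_lit 35) (nat_lit 5) (nat_lit 36) (nat_lit 5) (nat_lit 347) (nat_lit 307) (nat_lit 126))))))) (XT.nd (nat_lit 780) (nat_lit 532) (nat_lit 0) (XT.nd (nat_lit 390) (nat_lit 304) (nat_lit 0) (XT.nd (nat_lit 156) (nat_lit 380) (nat_lit 0) (XT.nd (nat_lit 78) (nat_lit 0) (nat_lit 0) (XT.lf (nat_lit 0) (nat_lit 68323046655) (nat_lit 228) (nat_lit 63859522848) (nat_lit 76) (nat_lit 3477535696) (nat_lit 33) (nat_lit 5) (nat_lit 36) (nat_lit 5) (nat_lit 34) (nat_lit 5) (nat_lit 348) (nat_lit 307) (nat_lit 125)) (XT.lf (nat_lit 0) (nat_lit 95560228080) (nat_lit 228) (nat_lit 1594182752) (nat_lit 76) (nat_lit 43269014048) (nat_lit 33) (nat_lit 5) (nat_lit 36) (nat_lit 5) (nat_lit 34) (nat_lit 5) (nat_lit 349) (nat_lit 307) (nat_lit 124))) (XT.nd (nat_lit 78) (nat_lit 228) (nat_lit 0) (XT.lf (nat_lit 0) (nat_lit 65892557888) (nat_lit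 152) (nat_lit 59294957827) (nat_lit 228) (nat_lit 20185982925) (nat_lit 31) (nat_lit 5) (nat_lit 33) (nat_lit 5) (nat_lit 34) (nat_lit 5) (nat_lit 350) (nat_lit 307) (nat_lit 123)) (XT.nd (nat_lit 78) (nat_lit 152) (nat_lit 0) (XT.lf (nat_lit 0) (nat_lit 5568776580) (nat_lit 228) (nat_lit 13851415296) (nat_lit 76) (nat_lit 131145069205) (nat_lit 30) (nat_lit 5) (nat_lit 33) (nat_lit 5) (nat_lit 31) (nat_lit 5) (nat_lit 351) (nat_lit 307) (nat_lit 122)) (XT.lf (nat_lit 0) (nat_lit 33185479279) (nat_lit 228) (nat_lit 99788911659) (nat_lit 76) (nat_lit 22963045879) (nat_lit 28) (nat_lit 5) (nat_lit 31) (nat_lit 5) (nat_lit 29) (nat_lit 5) (nat_lit 352) (nat_lit 307) (nat_lit 121))))) (XT.nd (nat_lit 156) (nat_lit 152) (nat_lit 0) (XT.nd (nat_lit 78) (nat_lit 152) (nat_lit 0) (XT.lf (nat_lit 0) (nat_lit 62739320603) (nat_lit 228) (nat_lit 31760159468) (nat_lit 76) (nat_lit 67050926466) (nat_lit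 28) (nat_lit 5) (nat_lit 31) (nat_lit 5) (nat_lit 29) (nat_lit 5) (nat_lit 353) (nat_lit 307) (nat_lit 120)) (XT.lf (nat_lit 0) (nat_lit 40980903495) (nat_lit 152) (nat_lit 53429314098) (nat_lit 228) (nat_lit 73001839326) (nat_lit 26) (nat_lit 5) (nat_lit 28) (nat_lit 5) (nat_lit 29) (nat_lit 5) (nat_lit 354) (nat_lit 307) (nat_lit 119))) (XT.nd (nat_lit 78) (nat_lit 152) (nat_lit 0) (XT.lf (nat_lit 0) (nat_lit 118460901393) (nat_lit 152) (nat_lit 9741178754) (nat_lit 228) (nat_lit 45337838973) (nat_lit 26) (nat_lit 5) (nat_lit 28) (nat_lit 5) (nat_lit 29) (nat_lit 5) (nat_lit 355) (nat_lit 307) (nat_lit 118)) (XT.nd (nat_lit 78) (nat_lit 76) (nat_lit 0) (XT.lf (nat_lit 0) (nat_lit 19913219892) (nat_lit 76) (nat_lit 144644893009) (nat_lit 152) (nat_lit 15372332999) (nat_lit 25) (nat_lit 5) (nat_lit 26) (nat_lit 5) (nat_lit 27) (nat_lit 4) (nat_lit 356) (nat_lit 307) (nat_lit 117)) (XT.lf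 (nat_lit 0) (nat_lit 16683760501) (nat_lit 152) (nat_lit 86453529817) (nat_lit 76) (nat_lit 83435280410) (nat_lit 24) (nat_lit 5) (nat_lit 26) (nat_lit 5) (nat_lit 25) (nat_lit 5) (nat_lit 357) (nat_lit 307) (nat_lit 116)))))) (XT.nd (nat_lit 390) (nat_lit 304) (nat_lit 0) (XT.nd (nat_lit 156) (nat_lit 76) (nat_lit 0) (XT.nd (nat_lit 78) (nat_lit 152) (nat_lit 0) (XT.lf (nat_lit 0) (nat_lit 49825634303) (nat_lit 152) (nat_lit 9464361999) (nat_lit 76) (nat_lit 134244226158) (nat_lit 24) (nat_lit 5) (nat_lit 26) (nat_lit 5) (nat_lit 25) (nat_lit 5) (nat_lit 358) (nat_lit 307) (nat_lit 115)) (XT.lf (nat_lit 0) (nat_lit 73733523409) (nat_lit 152) (nat_lit 12041871818) (nat_lit 228) (nat_lit 115011022145) (nat_lit 22) (nat_lit 5) (nat_lit 24) (nat_lit 5) (nat_lit 25) (nat_lit 5) (nat_lit 359) (nat_lit 307) (nat_lit 114))) (XT.nd (nat_lit 78) (nat_lit 76) (nat_lit 0) (XT.lf (nat_lit 0) (nat_lit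 124271717936) (nat_lit 228) (nat_lit 47563181457) (nat_lit 76) (nat_lit 36528869203) (nat_lit 22) (nat_lit 5) (nat_lit 25) (nat_lit 5) (nat_lit 23) (nat_lit 4) (nat_lit 360) (nat_lit 307) (nat_lit 113)) (XT.nd (nat_lit 78) (nat_lit 0) (nat_lit 0) (XT.lf (nat_lit 0) (nat_lit 36883464115) (nat_lit 76) (nat_lit 128582283722) (nat_lit 152) (nat_lit 50815595229) (nat_lit 21) (nat_lit 5) (nat_lit 22) (nat_lit 5) (nat_lit 23) (nat_lit 4) (nat_lit 361) (nat_lit 307) (nat_lit 112)) (XT.lf (nat_lit 0) (nat_lit 127203092627) (nat_lit 76) (nat_lit 82321528921) (nat_lit 152) (nat_lit 15029917825) (nat_lit 21) (nat_lit 5) (nat_lit 22) (nat_lit 5) (nat_lit 23) (nat_lit 4) (nat_lit 362) (nat_lit 307) (nat_lit 111))))) (XT.nd (nat_lit 234) (nat_lit 76) (nat_lit 0) (XT.nd (nat_lit 78) (nat_lit 152) (nat_lit 0) (XT.lf (nat_lit 0) (nat_lit 21823109496) (nat_lit 152) (nat_lit 11555301413) (nat_lit 76) (nat_lit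 199845402817) (nat_lit 20) (nat_lit 5) (nat_lit 22) (nat_lit 5) (nat_lit 21) (nat_lit 5) (nat_lit 363) (nat_lit 307) (nat_lit 110)) (XT.nd (nat_lit 78) (nat_lit 0) (nat_lit 0) (XT.lf (nat_lit 0) (nat_lit 61581939177) (nat_lit 228) (nat_lit 161684984068) (nat_lit 76) (nat_lit 18968896406) (nat_lit 18) (nat_lit 5) (nat_lit 21) (nat_lit 5) (nat_lit 19) (nat_lit 4) (nat_lit 364) (nat_lit 307) (nat_lit 109)) (XT.lf (nat_lit 0) (nat_lit 104074468139) (nat_lit 228) (nat_lit 74576173896) (nat_lit 76) (nat_lit 73010496134) (nat_lit 18) (nat_lit 5) (nat_lit 21) (nat_lit 5) (nat_lit 19) (nat_lit 4) (nat_lit 365) (nat_lit 307) (nat_lit 108)))) (XT.nd (nat_lit 78) (nat_lit 0) (nat_lit 0) (XT.lf (nat_lit 0) (nat_lit 17445891415) (nat_lit 76) (nat_lit 131517795204) (nat_lit 152) (nat_lit 112580433020) (nat_lit 17) (nat_lit 5) (nat_lit 18) (nat_lit 5) (nat_lit 19) (nat_lit 4) (nat_lit 366) (nat_lit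 307) (nat_lit 107)) (XT.nd (nat_lit 78) (nat_lit 0) (nat_lit 0) (XT.lf (nat_lit 0) (nat_lit 116657622586) (nat_lit 76) (nat_lit 80702417250) (nat_lit 152) (nat_lit 74498076825) (nat_lit 17) (nat_lit 5) (nat_lit 18) (nat_lit 5) (nat_lit 19) (nat_lit 4) (nat_lit 367) (nat_lit 307) (nat_lit 106)) (XT.lf (nat_lit 0) (nat_lit 220829412920) (nat_lit 76) (nat_lit 27346502771) (nat_lit 152) (nat_lit 34511912759) (nat_lit 17) (nat_lit 5) (nat_lit 18) (nat_lit 5) (nat_lit 19) (nat_lit 4) (nat_lit 368) (nat_lit 307) (nat_lit 105))))))))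
noncomputable def xc223 : XT := (XT.nd (nat_lit 36972) (nat_lit 0) (nat_lit 2052) (XT.nd (nat_lit 36114) (nat_lit 0) (nat_lit 5168) (XT.nd (nat_lit 390) (nat_lit 76) (nat_lit 0) (XT.nd (nat_lit 156) (nat_lit 76) (nat_lit 0) (XT.nd (nat_lit 78) (nat_lit 0) (nat_lit 0) (XT.lf (nat_lit 0) (nat_lit 8274428377) (nat_lit 152) (nat_lit 257258310829) (nat_lit 76) (nat_lit 28468449134) (nat_lit 15) (nat_lit 5) (nat_lit 17) (nat_lit 5) (nat_lit 16) (nat_lit 4) (nat_lit 369) (nat_lit 307) (nat_lit 104)) (XT.lf (nat_lit 0) (nat_lit 53553055844) (nat_lit 152) (nat_lit 164437776865) (nat_lit 76) (nat_lit 87785455413) (nat_lit 15) (nat_lit 5) (nat_lit 17) (nat_lit 5) (nat_lit 16) (nat_lit 4) (nat_lit 370) (nat_lit 307) (nat_lit 103))) (XT.nd (nat_lit 78) (nat_lit 76) (nat_lit 0) (XT.lf (nat_lit 0) (nat_lit 101095344702) (nat_lit 152) (nat_lit 66976705983) (nat_lit 76) (nat_lit 150068105840) (nat_lit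 15) (nat_lit 5) (nat_lit 17) (nat_lit 5) (nat_lit 16) (nat_lit 4) (nat_lit 371) (nat_lit 307) (nat_lit 102)) (XT.nd (nat_lit 78) (nat_lit 0) (nat_lit 0) (XT.lf (nat_lit 0) (nat_lit 36526012493) (nat_lit 76) (nat_lit 115058751804) (nat_lit 152) (nat_lit 179508953364) (nat_lit 14) (nat_lit 5) (nat_lit 15) (nat_lit 5) (nat_lit 16) (nat_lit 4) (nat_lit 372) (nat_lit 307) (nat_lit 101)) (XT.lf (nat_lit 0) (nat_lit 147528687954) (nat_lit 76) (nat_lit 58203997796) (nat_lit 152) (nat_lit 138905569681) (nat_lit 14) (nat_lit 5) (nat_lit 15) (nat_lit 5) (nat_lit 16) (nat_lit 4) (nat_lit 373) (nat_lit 307) (nat_lit 100))))) (XT.nd (nat_lit 35490) (nat_lit 0) (nat_lit 6156) (XT.nd (nat_lit 156) (nat_lit 76) (nat_lit 0) (XT.lf (nat_lit 0) (nat_lit 262611077781) (nat_lit 152) (nat_lit 94802286648) (nat_lit 0) (nat_lit 1445502050) (nat_lit 14) (nat_lit 5) (nat_lit 16) (nat_lit 4) (nat_lit 14) (nat_lit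 4) (nat_lit 374) (nat_lit 307) (nat_lit 99)) (XT.lf (nat_lit 0) (nat_lit 127538863837) (nat_lit 76) (nat_lit 261449532692) (nat_lit 76) (nat_lit 283006566) (nat_lit 13) (nat_lit 4) (nat_lit 14) (nat_lit 5) (nat_lit 14) (nat_lit 4) (nat_lit 376) (nat_lit 307) (nat_lit 97))) (XT.nd (nat_lit 78) (nat_lit 0) (nat_lit 0) (XT.lf (nat_lit 0) (nat_lit 9537543986) (nat_lit 0) (nat_lit 9537543986) (nat_lit 684) (nat_lit 2180298999) (nat_lit 94) (nat_lit 5) (nat_lit 94) (nat_lit 3) (nat_lit 103) (nat_lit 3) (nat_lit 308) (nat_lit 308) (nat_lit 164)) (XT.nd (nat_lit 78) (nat_lit 0) (nat_lit 0) (XT.lf (nat_lit 0) (nat_lit 39145573546) (nat_lit 684) (nat_lit 3955188124) (nat_lit 760) (nat_lit 470638973) (nat_lit 94) (nat_lit 5) (nat_lit 103) (nat_lit 3) (nat_lit 104) (nat_lit 5) (nat_lit 309) (nat_lit 308) (nat_lit 163)) (XT.lf (nat_lit 76) (nat_lit 16720571195) (nat_lit 0) (nat_lit 24041768414) (nat_lit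 760) (nat_lit 3894143011) (nat_lit 95) (nat_lit 5) (nat_lit 94) (nat_lit 5) (nat_lit 104) (nat_lit 5) (nat_lit 310) (nat_lit 308) (nat_lit 162)))))) (XT.nd (nat_lit 390) (nat_lit 380) (nat_lit 0) (XT.nd (nat_lit 156) (nat_lit 608) (nat_lit 0) (XT.nd (nat_lit 78) (nat_lit 0) (nat_lit 76) (XT.lf (nat_lit 76) (nat_lit 38566233593) (nat_lit 0) (nat_lit 3958614904) (nat_lit 760) (nat_lit 3267728660) (nat_lit 95) (nat_lit 5) (nat_lit 94) (nat_lit 5) (nat_lit 104) (nat_lit 5) (nat_lit 311) (nat_lit 308) (nat_lit 161)) (XT.lf (nat_lit 76) (nat_lit 14721187172) (nat_lit 0) (nat_lit 30149595134) (nat_lit 760) (nat_lit 2089932653) (nat_lit 96) (nat_lit 5) (nat_lit 95) (nat_lit 5) (nat_lit 105) (nat_lit 5) (nat_lit 312) (nat_lit 308) (nat_lit 160))) (XT.nd (nat_lit 78) (nat_lit 684) (nat_lit 0) (XT.lf (nat_lit 76) (nat_lit 37948697525) (nat_lit 0) (nat_lit 9569653378) (nat_lit 760) (nat_lit 659695188)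 (nat_lit 96) (nat_lit 5) (nat_lit 95) (nat_lit 5) (nat_lit 105) (nat_lit 5) (nat_lit 313) (nat_lit 308) (nat_lit 159)) (XT.nd (nat_lit 78) (nat_lit 0) (nat_lit 0) (XT.lf (nat_lit 0) (nat_lit 1212393832) (nat_lit 760) (nat_lit 36344509201) (nat_lit 836) (nat_lit 11878821905) (nat_lit 86) (nat_lit 5) (nat_lit 96) (nat_lit 5) (nat_lit 97) (nat_lit 5) (nat_lit 314) (nat_lit 308) (nat_lit 158)) (XT.lf (nat_lit 0) (nat_lit 3487117815) (nat_lit 760) (nat_lit 12986534437) (nat_lit 836) (nat_lit 34265537602) (nat_lit 86) (nat_lit 5) (nat_lit 96) (nat_lit 5) (nat_lit 97) (nat_lit 5) (nat_lit 315) (nat_lit 308) (nat_lit 157))))) (XT.nd (nat_lit 234) (nat_lit 456) (nat_lit 0) (XT.nd (nat_lit 78) (nat_lit 0) (nat_lit 0) (XT.lf (nat_lit 0) (nat_lit 6151486290) (nat_lit 760) (nat_lit 40270513536) (nat_lit 836) (nat_lit 5672035527) (nat_lit 87) (nat_lit 5) (nat_lit 97) (nat_lit 5) (nat_lit 98) (nat_lit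 5) (nat_lit 316) (nat_lit 308) (nat_lit 156)) (XT.nd (nat_lit 78) (nat_lit 0) (nat_lit 0) (XT.lf (nat_lit 0) (nat_lit 9441063784) (nat_lit 760) (nat_lit 15455676205) (nat_lit 836) (nat_lit 28595286228) (nat_lit 87) (nat_lit 5) (nat_lit 97) (nat_lit 5) (nat_lit 98) (nat_lit 5) (nat_lit 317) (nat_lit 308) (nat_lit 155)) (XT.lf (nat_lit 76) (nat_lit 10949076641) (nat_lit 0) (nat_lit 2115457869) (nat_lit 836) (nat_lit 41886913894) (nat_lit 88) (nat_lit 5) (nat_lit 87) (nat_lit 5) (nat_lit 98) (nat_lit 5) (nat_lit 318) (nat_lit 308) (nat_lit 154)))) (XT.nd (nat_lit 78) (nat_lit 532) (nat_lit 0) (XT.lf (nat_lit 0) (nat_lit 17474180232) (nat_lit 760) (nat_lit 17606152001) (nat_lit 76) (nat_lit 21373261770) (nat_lit 88) (nat_lit 5) (nat_lit 98) (nat_lit 5) (nat_lit 89) (nat_lit 5) (nat_lit 319) (nat_lit 308) (nat_lit 153)) (XT.nd (nat_lit 78) (nat_lit 0) (nat_lit 0) (XT.lf (nat_lit 0) (nat_lit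 10407027373) (nat_lit 532) (nat_lit 11893039287) (nat_lit 608) (nat_lit 35720994565) (nat_lit 81) (nat_lit 5) (nat_lit 88) (nat_lit 5) (nat_lit 89) (nat_lit 5) (nat_lit 320) (nat_lit 308) (nat_lit 152)) (XT.lf (nat_lit 0) (nat_lit 27863385211) (nat_lit 608) (nat_lit 19420518758) (nat_lit 76) (nat_lit 12358193107) (nat_lit 81) (nat_lit 5) (nat_lit 89) (nat_lit 5) (nat_lit 82) (nat_lit 5) (nat_lit 321) (nat_lit 308) (nat_lit 151))))))) (XT.nd (nat_lit 780) (nat_lit 1444) (nat_lit 0) (XT.nd (nat_lit 390) (nat_lit 684) (nat_lit 0) (XT.nd (nat_lit 156) (nat_lit 608) (nat_lit 0) (XT.nd (nat_lit 78) (nat_lit 0) (nat_lit 0) (XT.lf (nat_lit 0) (nat_lit 10316650974) (nat_lit 380) (nat_lit 23742968122) (nat_lit 456) (nat_lit 27266830205) (nat_lit 76) (nat_lit 5) (nat_lit 81) (nat_lit 5) (nat_lit 82) (nat_lit 5) (nat_lit 322) (nat_lit 308) (nat_lit 150)) (XT.lf (nat_lit 0) (nat_lit 40913927229)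 (nat_lit 456) (nat_lit 20885568023) (nat_lit 76) (nat_lit 1278112714) (nat_lit 76) (nat_lit 5) (nat_lit 82) (nat_lit 5) (nat_lit 77) (nat_lit 5) (nat_lit 323) (nat_lit 308) (nat_lit 149))) (XT.nd (nat_lit 78) (nat_lit 304) (nat_lit 0) (XT.lf (nat_lit 0) (nat_lit 10696775097) (nat_lit 304) (nat_lit 37969222937) (nat_lit 380) (nat_lit 16222576029) (nat_lit 72) (nat_lit 5) (nat_lit 76) (nat_lit 5) (nat_lit 77) (nat_lit 5) (nat_lit 324) (nat_lit 308) (nat_lit 148)) (XT.nd (nat_lit 78) (nat_lit 304) (nat_lit 0) (XT.lf (nat_lit 0) (nat_lit 44582121708) (nat_lit 304) (nat_lit 12576107159) (nat_lit 380) (nat_lit 9614233548) (nat_lit 72) (nat_lit 5) (nat_lit 76) (nat_lit 5) (nat_lit 77) (nat_lit 5) (nat_lit 325) (nat_lit 308) (nat_lit 147)) (XT.lf (nat_lit 0) (nat_lit 11560040446) (nat_lit 304) (nat_lit 54914350884) (nat_lit 380) (nat_lit 2256189539) (nat_lit 68) (nat_lit 5) (nat_lit 72) (nat_lit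 5) (nat_lit 73) (nat_lit 5) (nat_lit 326) (nat_lit 308) (nat_lit 146))))) (XT.nd (nat_lit 156) (nat_lit 304) (nat_lit 0) (XT.nd (nat_lit 78) (nat_lit 304) (nat_lit 0) (XT.lf (nat_lit 0) (nat_lit 5881738657) (nat_lit 380) (nat_lit 23298429482) (nat_lit 76) (nat_lit 41572816310) (nat_lit 67) (nat_lit 5) (nat_lit 72) (nat_lit 5) (nat_lit 68) (nat_lit 5) (nat_lit 327) (nat_lit 308) (nat_lit 145)) (XT.lf (nat_lit 0) (nat_lit 12633480098) (nat_lit 304) (nat_lit 1913473754) (nat_lit 380) (nat_lit 58317895812) (nat_lit 63) (nat_lit 5) (nat_lit 67) (nat_lit 5) (nat_lit 68) (nat_lit 5) (nat_lit 328) (nat_lit 308) (nat_lit 144))) (XT.nd (nat_lit 78) (nat_lit 304) (nat_lit 0) (XT.lf (nat_lit 0) (nat_lit 24462586700) (nat_lit 380) (nat_lit 24316514847) (nat_lit 76) (nat_lit 26262350137) (nat_lit 63) (nat_lit 5) (nat_lit 68) (nat_lit 5) (nat_lit 64) (nat_lit 5) (nat_lit 329) (nat_lit 308) (nat_lit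 143)) (XT.nd (nat_lit 78) (nat_lit 0) (nat_lit 0) (XT.lf (nat_lit 0) (nat_lit 13803364655) (nat_lit 304) (nat_lit 21316559926) (nat_lit 380) (nat_lit 42194664380) (nat_lit 59) (nat_lit 5) (nat_lit 63) (nat_lit 5) (nat_lit 64) (nat_lit 5) (nat_lit 330) (nat_lit 308) (nat_lit 142)) (XT.lf (nat_lit 0) (nat_lit 46845157214) (nat_lit 380) (nat_lit 25132654696) (nat_lit 76) (nat_lit 7696821058) (nat_lit 59) (nat_lit 5) (nat_lit 64) (nat_lit 5) (nat_lit 60) (nat_lit 5) (nat_lit 331) (nat_lit 308) (nat_lit 141)))))) (XT.nd (nat_lit 390) (nat_lit 684) (nat_lit 0) (XT.nd (nat_lit 156) (nat_lit 532) (nat_lit 0) (XT.nd (nat_lit 78) (nat_lit 0) (nat_lit 0) (XT.lf (nat_lit 0) (nat_lit 15304104769) (nat_lit 228) (nat_lit 44440053273) (nat_lit 304) (nat_lit 22379147005) (nat_lit 56) (nat_lit 5) (nat_lit 59) (nat_lit 5) (nat_lit 60) (nat_lit 5) (nat_lit 332) (nat_lit 308) (nat_lit 140)) (XT.lf (nat_lit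 0) (nat_lit 58634155442) (nat_lit 228) (nat_lit 15078726981) (nat_lit 304) (nat_lit 10960290777) (nat_lit 56) (nat_lit 5) (nat_lit 59) (nat_lit 5) (nat_lit 60) (nat_lit 5) (nat_lit 333) (nat_lit 308) (nat_lit 139))) (XT.nd (nat_lit 78) (nat_lit 228) (nat_lit 0) (XT.lf (nat_lit 0) (nat_lit 1516699434) (nat_lit 304) (nat_lit 70269569776) (nat_lit 76) (nat_lit 15537455818) (nat_lit 52) (nat_lit 5) (nat_lit 56) (nat_lit 5) (nat_lit 53) (nat_lit 5) (nat_lit 334) (nat_lit 308) (nat_lit 138)) (XT.nd (nat_lit 78) (nat_lit 228) (nat_lit 0) (XT.lf (nat_lit 0) (nat_lit 14943792093) (nat_lit 304) (nat_lit 27313943454) (nat_lit 76) (nat_lit 47805356515) (nat_lit 52) (nat_lit 5) (nat_lit 56) (nat_lit 5) (nat_lit 53) (nat_lit 5) (nat_lit 335) (nat_lit 308) (nat_lit 137)) (XT.lf (nat_lit 0) (nat_lit 18376589223) (nat_lit 228) (nat_lit 10951784724) (nat_lit 304) (nat_lit 63596747713) (nat_lit 49) (nat_lit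 5) (nat_lit 52) (nat_lit 5) (nat_lit 53) (nat_lit 5) (nat_lit 336) (nat_lit 308) (nat_lit 136))))) (XT.nd (nat_lit 234) (nat_lit 456) (nat_lit 0) (XT.nd (nat_lit 78) (nat_lit 228) (nat_lit 0) (XT.lf (nat_lit 0) (nat_lit 45243808440) (nat_lit 304) (nat_lit 28958062688) (nat_lit 76) (nat_lit 21687801328) (nat_lit 49) (nat_lit 5) (nat_lit 53) (nat_lit 5) (nat_lit 50) (nat_lit 5) (nat_lit 337) (nat_lit 308) (nat_lit 135)) (XT.nd (nat_lit 78) (nat_lit 0) (nat_lit 0) (XT.lf (nat_lit 0) (nat_lit 19350729459) (nat_lit 228) (nat_lit 43085219145) (nat_lit 304) (nat_lit 36542456344) (nat_lit 46) (nat_lit 5) (nat_lit 49) (nat_lit 5) (nat_lit 50) (nat_lit 5) (nat_lit 338) (nat_lit 308) (nat_lit 134)) (XT.lf (nat_lit 0) (nat_lit 71079328193) (nat_lit 228) (nat_lit 9898082695) (nat_lit 304) (nat_lit 21219678235) (nat_lit 46) (nat_lit 5) (nat_lit 49) (nat_lit 5) (nat_lit 50) (nat_lit 5) (nat_lit 339)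 (nat_lit 308) (nat_lit 133)))) (XT.nd (nat_lit 78) (nat_lit 304) (nat_lit 0) (XT.lf (nat_lit 0) (nat_lit 20069510053) (nat_lit 152) (nat_lit 81078617670) (nat_lit 228) (nat_lit 4393471484) (nat_lit 44) (nat_lit 5) (nat_lit 46) (nat_lit 5) (nat_lit 47) (nat_lit 5) (nat_lit 340) (nat_lit 308) (nat_lit 132)) (XT.nd (nat_lit 78) (nat_lit 228) (nat_lit 0) (XT.lf (nat_lit 0) (nat_lit 13546421683) (nat_lit 228) (nat_lit 34509631508) (nat_lit 76) (nat_lit 60952058632) (nat_lit 43) (nat_lit 5) (nat_lit 46) (nat_lit 5) (nat_lit 44) (nat_lit 5) (nat_lit 341) (nat_lit 308) (nat_lit 131)) (XT.lf (nat_lit 0) (nat_lit 19553835014) (nat_lit 228) (nat_lit 12986478250) (nat_lit 304) (nat_lit 80088803608) (nat_lit 40) (nat_lit 5) (nat_lit 43) (nat_lit 5) (nat_lit 44) (nat_lit 5) (nat_lit 342) (nat_lit 308) (nat_lit 130))))))))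
noncomputable def xc224 : XT := (XT.nd (nat_lit 1560) (nat_lit 608) (nat_lit 0) (XT.nd (nat_lit 780) (nat_lit 684) (nat_lit 0) (XT.nd (nat_lit 390) (nat_lit 380) (nat_lit 0) (XT.nd (nat_lit 156) (nat_lit 228) (nat_lit 0) (XT.nd (nat_lit 78) (nat_lit 152) (nat_lit 0) (XT.lf (nat_lit 0) (nat_lit 53449447772) (nat_lit 304) (nat_lit 39266062314) (nat_lit 76) (nat_lit 23667385307) (nat_lit 40) (nat_lit 5) (nat_lit 44) (nat_lit 5) (nat_lit 41) (nat_lit 5) (nat_lit 343) (nat_lit 308) (nat_lit 129)) (XT.lf (nat_lit 0) (nat_lit 17582575764) (nat_lit 152) (nat_lit 58308273756) (nat_lit 228) (nat_lit 44409173402) (nat_lit 38) (nat_lit 5) (nat_lit 40) (nat_lit 5) (nat_lit 41) (nat_lit 5) (nat_lit 344) (nat_lit 308) (nat_lit 128))) (XT.nd (nat_lit 78) (nat_lit 228) (nat_lit 0) (XT.lf (nat_lit 0) (nat_lit 78635987720) (nat_lit 152) (nat_lit 21482742071) (nat_lit 228) (nat_lit 24261057190) (nat_lit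 38) (nat_lit 5) (nat_lit 40) (nat_lit 5) (nat_lit 41) (nat_lit 5) (nat_lit 345) (nat_lit 308) (nat_lit 127)) (XT.nd (nat_lit 78) (nat_lit 76) (nat_lit 0) (XT.lf (nat_lit 0) (nat_lit 14265971280) (nat_lit 152) (nat_lit 111782497827) (nat_lit 228) (nat_lit 2590547435) (nat_lit 36) (nat_lit 5) (nat_lit 38) (nat_lit 5) (nat_lit 39) (nat_lit 5) (nat_lit 346) (nat_lit 308) (nat_lit 126)) (XT.lf (nat_lit 0) (nat_lit 20657145246) (nat_lit 228) (nat_lit 54888679002) (nat_lit 76) (nat_lit 57492692656) (nat_lit 35) (nat_lit 5) (nat_lit 38) (nat_lit 5) (nat_lit 36) (nat_lit 5) (nat_lit 347) (nat_lit 308) (nat_lit 125))))) (XT.nd (nat_lit 156) (nat_lit 228) (nat_lit 0) (XT.nd (nat_lit 78) (nat_lit 0) (nat_lit 0) (XT.lf (nat_lit 0) (nat_lit 7775469434) (nat_lit 152) (nat_lit 37325562622) (nat_lit 228) (nat_lit 92548793861) (nat_lit 33) (nat_lit 5) (nat_lit 35) (nat_lit 5) (nat_lit 36) (nat_lit 5)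 (nat_lit 348) (nat_lit 308) (nat_lit 124)) (XT.lf (nat_lit 0) (nat_lit 71755203013) (nat_lit 228) (nat_lit 67026669418) (nat_lit 76) (nat_lit 3660423910) (nat_lit 33) (nat_lit 5) (nat_lit 36) (nat_lit 5) (nat_lit 34) (nat_lit 5) (nat_lit 349) (nat_lit 308) (nat_lit 123))) (XT.nd (nat_lit 78) (nat_lit 228) (nat_lit 0) (XT.lf (nat_lit 0) (nat_lit 100353481412) (nat_lit 228) (nat_lit 1649292297) (nat_lit 76) (nat_lit 45441047064) (nat_lit 33) (nat_lit 5) (nat_lit 36) (nat_lit 5) (nat_lit 34) (nat_lit 5) (nat_lit 350) (nat_lit 308) (nat_lit 122)) (XT.nd (nat_lit 78) (nat_lit 76) (nat_lit 0) (XT.lf (nat_lit 0) (nat_lit 69211388607) (nat_lit 152) (nat_lit 62250396889) (nat_lit 228) (nat_lit 21179630752) (nat_lit 31) (nat_lit 5) (nat_lit 33) (nat_lit 5) (nat_lit 34) (nat_lit 5) (nat_lit 351) (nat_lit 308) (nat_lit 121)) (XT.lf (nat_lit 0) (nat_lit 5861644341) (nat_lit 228) (nat_lit 14520447215)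 (nat_lit 76) (nat_lit 137710699682) (nat_lit 30) (nat_lit 5) (nat_lit 33) (nat_lit 5) (nat_lit 31) (nat_lit 5) (nat_lit 352) (nat_lit 308) (nat_lit 120)))))) (XT.nd (nat_lit 390) (nat_lit 304) (nat_lit 0) (XT.nd (nat_lit 156) (nat_lit 228) (nat_lit 0) (XT.nd (nat_lit 78) (nat_lit 0) (nat_lit 0) (XT.lf (nat_lit 0) (nat_lit 34858998049) (nat_lit 228) (nat_lit 104754623366) (nat_lit 76) (nat_lit 24119964098) (nat_lit 28) (nat_lit 5) (nat_lit 31) (nat_lit 5) (nat_lit 29) (nat_lit 5) (nat_lit 353) (nat_lit 308) (nat_lit 119)) (XT.lf (nat_lit 0) (nat_lit 65889853116) (nat_lit 228) (nat_lit 33325563749) (nat_lit 76) (nat_lit 70411821290) (nat_lit 28) (nat_lit 5) (nat_lit 31) (nat_lit 5) (nat_lit 29) (nat_lit 5) (nat_lit 354) (nat_lit 308) (nat_lit 118))) (XT.nd (nat_lit 78) (nat_lit 76) (nat_lit 0) (XT.lf (nat_lit 0) (nat_lit 43052187785) (nat_lit 152) (nat_lit 56091808361) (nat_lit 228) (nat_lit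 76637990344) (nat_lit 26) (nat_lit 5) (nat_lit 28) (nat_lit 5) (nat_lit 29) (nat_lit 5) (nat_lit 355) (nat_lit 308) (nat_lit 117)) (XT.nd (nat_lit 78) (nat_lit 76) (nat_lit 0) (XT.lf (nat_lit 0) (nat_lit 124405126573) (nat_lit 152) (nat_lit 10219693462) (nat_lit 228) (nat_lit 47591453828) (nat_lit 26) (nat_lit 5) (nat_lit 28) (nat_lit 5) (nat_lit 29) (nat_lit 5) (nat_lit 356) (nat_lit 308) (nat_lit 116)) (XT.lf (nat_lit 0) (nat_lit 20930219006) (nat_lit 76) (nat_lit 151868293906) (nat_lit 152) (nat_lit 16127821594) (nat_lit 25) (nat_lit 5) (nat_lit 26) (nat_lit 5) (nat_lit 27) (nat_lit 4) (nat_lit 357) (nat_lit 308) (nat_lit 115))))) (XT.nd (nat_lit 156) (nat_lit 228) (nat_lit 0) (XT.nd (nat_lit 78) (nat_lit 0) (nat_lit 0) (XT.lf (nat_lit 0) (nat_lit 17530051265) (nat_lit 152) (nat_lit 90755475981) (nat_lit 76) (nat_lit 87615058744) (nat_lit 24) (nat_lit 5) (nat_lit 26) (nat_lit 5) (nat_lit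 25) (nat_lit 5) (nat_lit 358) (nat_lit 308) (nat_lit 114)) (XT.lf (nat_lit 0) (nat_lit 52328442437) (nat_lit 152) (nat_lit 9917836931) (nat_lit 76) (nat_lit 140964070145) (nat_lit 24) (nat_lit 5) (nat_lit 26) (nat_lit 5) (nat_lit 25) (nat_lit 5) (nat_lit 359) (nat_lit 308) (nat_lit 113))) (XT.nd (nat_lit 78) (nat_lit 76) (nat_lit 0) (XT.lf (nat_lit 0) (nat_lit 77439624310) (nat_lit 152) (nat_lit 12635821495) (nat_lit 228) (nat_lit 120749721015) (nat_lit 22) (nat_lit 5) (nat_lit 24) (nat_lit 5) (nat_lit 25) (nat_lit 5) (nat_lit 360) (nat_lit 308) (nat_lit 112)) (XT.nd (nat_lit 78) (nat_lit 76) (nat_lit 0) (XT.lf (nat_lit 0) (nat_lit 130496168561) (nat_lit 228) (nat_lit 49922417670) (nat_lit 76) (nat_lit 38362820528) (nat_lit 22) (nat_lit 5) (nat_lit 25) (nat_lit 5) (nat_lit 23) (nat_lit 4) (nat_lit 361) (nat_lit 308) (nat_lit 111)) (XT.lf (nat_lit 0) (nat_lit 38746254973) (nat_lit 76)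 (nat_lit 135003418291) (nat_lit 152) (nat_lit 53345198360) (nat_lit 21) (nat_lit 5) (nat_lit 22) (nat_lit 5) (nat_lit 23) (nat_lit 4) (nat_lit 362) (nat_lit 308) (nat_lit 110))))))) (XT.nd (nat_lit 780) (nat_lit 152) (nat_lit 0) (XT.nd (nat_lit 390) (nat_lit 152) (nat_lit 0) (XT.nd (nat_lit 156) (nat_lit 228) (nat_lit 0) (XT.nd (nat_lit 78) (nat_lit 76) (nat_lit 0) (XT.lf (nat_lit 0) (nat_lit 133580978356) (nat_lit 76) (nat_lit 86430005732) (nat_lit 152) (nat_lit 15770769307) (nat_lit 21) (nat_lit 5) (nat_lit 22) (nat_lit 5) (nat_lit 23) (nat_lit 4) (nat_lit 363) (nat_lit 308) (nat_lit 109)) (XT.lf (nat_lit 0) (nat_lit 22924078040) (nat_lit 152) (nat_lit 12115849477) (nat_lit 76) (nat_lit 209844580459) (nat_lit 20) (nat_lit 5) (nat_lit 22) (nat_lit 5) (nat_lit 21) (nat_lit 5) (nat_lit 364) (nat_lit 308) (nat_lit 108))) (XT.nd (nat_lit 78) (nat_lit 76) (nat_lit 0) (XT.lf (nat_lit 0) (nat_lit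 64670760813) (nat_lit 228) (nat_lit 169751922366) (nat_lit 76) (nat_lit 19924435713) (nat_lit 18) (nat_lit 5) (nat_lit 21) (nat_lit 5) (nat_lit 19) (nat_lit 4) (nat_lit 365) (nat_lit 308) (nat_lit 107)) (XT.nd (nat_lit 78) (nat_lit 76) (nat_lit 0) (XT.lf (nat_lit 0) (nat_lit 109287453143) (nat_lit 228) (nat_lit 78288496014) (nat_lit 76) (nat_lit 76667777594) (nat_lit 18) (nat_lit 5) (nat_lit 21) (nat_lit 5) (nat_lit 19) (nat_lit 4) (nat_lit 366) (nat_lit 308) (nat_lit 106)) (XT.lf (nat_lit 0) (nat_lit 18334406650) (nat_lit 76) (nat_lit 138086538118) (nat_lit 152) (nat_lit 118199922165) (nat_lit 17) (nat_lit 5) (nat_lit 18) (nat_lit 5) (nat_lit 19) (nat_lit 4) (nat_lit 367) (nat_lit 308) (nat_lit 105))))) (XT.nd (nat_lit 156) (nat_lit 152) (nat_lit 0) (XT.nd (nat_lit 78) (nat_lit 0) (nat_lit 0) (XT.lf (nat_lit 0) (nat_lit 122505951967) (nat_lit 76) (nat_lit 84730731593) (nat_lit 152)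 (nat_lit 78213902089) (nat_lit 17) (nat_lit 5) (nat_lit 18) (nat_lit 5) (nat_lit 19) (nat_lit 4) (nat_lit 368) (nat_lit 308) (nat_lit 104)) (XT.lf (nat_lit 0) (nat_lit 231885596186) (nat_lit 76) (nat_lit 28707345510) (nat_lit 152) (nat_lit 36228862133) (nat_lit 17) (nat_lit 5) (nat_lit 18) (nat_lit 5) (nat_lit 19) (nat_lit 4) (nat_lit 369) (nat_lit 308) (nat_lit 103))) (XT.nd (nat_lit 78) (nat_lit 0) (nat_lit 0) (XT.lf (nat_lit 0) (nat_lit 8696453366) (nat_lit 152) (nat_lit 270106162631) (nat_lit 76) (nat_lit 29898212472) (nat_lit 15) (nat_lit 5) (nat_lit 17) (nat_lit 5) (nat_lit 16) (nat_lit 4) (nat_lit 370) (nat_lit 308) (nat_lit 102)) (XT.nd (nat_lit 78) (nat_lit 0) (nat_lit 0) (XT.lf (nat_lit 0) (nat_lit 56238616797) (nat_lit 152) (nat_lit 172645319290) (nat_lit 76) (nat_lit 92180767119) (nat_lit 15) (nat_lit 5) (nat_lit 17) (nat_lit 5) (nat_lit 16) (nat_lit 4) (nat_lit 371) (nat_lit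 308) (nat_lit 101)) (XT.lf (nat_lit 0) (nat_lit 106157643520) (nat_lit 152) (nat_lit 70311878027) (nat_lit 76) (nat_lit 157577262498) (nat_lit 15) (nat_lit 5) (nat_lit 17) (nat_lit 5) (nat_lit 16) (nat_lit 4) (nat_lit 372) (nat_lit 308) (nat_lit 100)))))) (XT.nd (nat_lit 35880) (nat_lit 0) (nat_lit 5548) (XT.nd (nat_lit 35646) (nat_lit 0) (nat_lit 6156) (XT.nd (nat_lit 234) (nat_lit 76) (nat_lit 0) (XT.lf (nat_lit 0) (nat_lit 38365755998) (nat_lit 76) (nat_lit 120805629330) (nat_lit 152) (nat_lit 188476645524) (nat_lit 14) (nat_lit 5) (nat_lit 15) (nat_lit 5) (nat_lit 16) (nat_lit 4) (nat_lit 373) (nat_lit 308) (nat_lit 99)) (XT.lf (nat_lit 0) (nat_lit 12666311672) (nat_lit 76) (nat_lit 326989592093) (nat_lit 76) (nat_lit 52763834523) (nat_lit 13) (nat_lit 4) (nat_lit 14) (nat_lit 5) (nat_lit 14) (nat_lit 4) (nat_lit 376) (nat_lit 308) (nat_lit 96))) (XT.nd (nat_lit 78) (nat_lit 0) (nat_lit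 0) (XT.lf (nat_lit 0) (nat_lit 10031181485) (nat_lit 0) (nat_lit 10031181485) (nat_lit 684) (nat_lit 2254057775) (nat_lit 94) (nat_lit 5) (nat_lit 94) (nat_lit 3) (nat_lit 103) (nat_lit 3) (nat_lit 309) (nat_lit 309) (nat_lit 162)) (XT.nd (nat_lit 78) (nat_lit 0) (nat_lit 0) (XT.lf (nat_lit 0) (nat_lit 41166202554) (nat_lit 684) (nat_lit 4117218863) (nat_lit 760) (nat_lit 463268322) (nat_lit 94) (nat_lit 5) (nat_lit 103) (nat_lit 3) (nat_lit 104) (nat_lit 5) (nat_lit 310) (nat_lit 309) (nat_lit 161)) (XT.lf (nat_lit 76) (nat_lit 17591752153) (nat_lit 0) (nat_lit 25269586911) (nat_lit 760) (nat_lit 4024815544) (nat_lit 95) (nat_lit 5) (nat_lit 94) (nat_lit 5) (nat_lit 104) (nat_lit 5) (nat_lit 311) (nat_lit 309) (nat_lit 160))))) (XT.nd (nat_lit 234) (nat_lit 608) (nat_lit 0) (XT.nd (nat_lit 78) (nat_lit 0) (nat_lit 76) (XT.lf (nat_lit 76) (nat_lit 40528023747) (nat_lit 0) (nat_lit 4181050484)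 (nat_lit 760) (nat_lit 3370129742) (nat_lit 95) (nat_lit 5) (nat_lit 94) (nat_lit 5) (nat_lit 104) (nat_lit 5) (nat_lit 312) (nat_lit 309) (nat_lit 159)) (XT.nd (nat_lit 78) (nat_lit 0) (nat_lit 0) (XT.lf (nat_lit 76) (nat_lit 15493515069) (nat_lit 0) (nat_lit 31676230434) (nat_lit 760) (nat_lit 2136136022) (nat_lit 96) (nat_lit 5) (nat_lit 95) (nat_lit 5) (nat_lit 105) (nat_lit 5) (nat_lit 313) (nat_lit 309) (nat_lit 158)) (XT.lf (nat_lit 76) (nat_lit 39880673867) (nat_lit 0) (nat_lit 10066379422) (nat_lit 760) (nat_lit 637162553) (nat_lit 96) (nat_lit 5) (nat_lit 95) (nat_lit 5) (nat_lit 105) (nat_lit 5) (nat_lit 314) (nat_lit 309) (nat_lit 157)))) (XT.nd (nat_lit 78) (nat_lit 0) (nat_lit 0) (XT.lf (nat_lit 0) (nat_lit 1324505628) (nat_lit 760) (nat_lit 38122994402) (nat_lit 836) (nat_lit 12457351913) (nat_lit 86) (nat_lit 5) (nat_lit 96) (nat_lit 5) (nat_lit 97) (nat_lit 5) (nat_lit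 315) (nat_lit 309) (nat_lit 156)) (XT.nd (nat_lit 78) (nat_lit 0) (nat_lit 76) (XT.lf (nat_lit 0) (nat_lit 3710513806) (nat_lit 760) (nat_lit 13598965674) (nat_lit 836) (nat_lit 35964137256) (nat_lit 86) (nat_lit 5) (nat_lit 96) (nat_lit 5) (nat_lit 97) (nat_lit 5) (nat_lit 316) (nat_lit 309) (nat_lit 155)) (XT.lf (nat_lit 0) (nat_lit 6506160921) (nat_lit 760) (nat_lit 42245127178) (nat_lit 836) (nat_lit 5945017239) (nat_lit 87) (nat_lit 5) (nat_lit 97) (nat_lit 5) (nat_lit 98) (nat_lit 5) (nat_lit 317) (nat_lit 309) (nat_lit 154))))))))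
noncomputable def xc225 : XT := (XT.nd (nat_lit 1560) (nat_lit 1824) (nat_lit 0) (XT.nd (nat_lit 780) (nat_lit 1444) (nat_lit 0) (XT.nd (nat_lit 390) (nat_lit 988) (nat_lit 0) (XT.nd (nat_lit 156) (nat_lit 456) (nat_lit 0) (XT.nd (nat_lit 78) (nat_lit 0) (nat_lit 0) (XT.lf (nat_lit 0) (nat_lit 9957974417) (nat_lit 760) (nat_lit 16191400934) (nat_lit 836) (nat_lit 30014936193) (nat_lit 87) (nat_lit 5) (nat_lit 97) (nat_lit 5) (nat_lit 98) (nat_lit 5) (nat_lit 318) (nat_lit 309) (nat_lit 153)) (XT.lf (nat_lit 76) (nat_lit 11532991827) (nat_lit 0) (nat_lit 2228060047) (nat_lit 836) (nat_lit 43935734787) (nat_lit 88) (nat_lit 5) (nat_lit 87) (nat_lit 5) (nat_lit 98) (nat_lit 5) (nat_lit 319) (nat_lit 309) (nat_lit 152))) (XT.nd (nat_lit 78) (nat_lit 532) (nat_lit 0) (XT.lf (nat_lit 0) (nat_lit 18389016877) (nat_lit 760) (nat_lit 18449505181) (nat_lit 76) (nat_lit 22435628949) (nat_lit 88)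 (nat_lit 5) (nat_lit 98) (nat_lit 5) (nat_lit 89) (nat_lit 5) (nat_lit 320) (nat_lit 309) (nat_lit 151)) (XT.nd (nat_lit 78) (nat_lit 0) (nat_lit 0) (XT.lf (nat_lit 0) (nat_lit 10963737122) (nat_lit 532) (nat_lit 12491069702) (nat_lit 608) (nat_lit 37465257465) (nat_lit 81) (nat_lit 5) (nat_lit 88) (nat_lit 5) (nat_lit 89) (nat_lit 5) (nat_lit 321) (nat_lit 309) (nat_lit 150)) (XT.lf (nat_lit 0) (nat_lit 29294348837) (nat_lit 608) (nat_lit 20354915052) (nat_lit 76) (nat_lit 12972988173) (nat_lit 81) (nat_lit 5) (nat_lit 89) (nat_lit 5) (nat_lit 82) (nat_lit 5) (nat_lit 322) (nat_lit 309) (nat_lit 149))))) (XT.nd (nat_lit 156) (nat_lit 608) (nat_lit 0) (XT.nd (nat_lit 78) (nat_lit 0) (nat_lit 0) (XT.lf (nat_lit 0) (nat_lit 10868522366) (nat_lit 380) (nat_lit 24930634986) (nat_lit 456) (nat_lit 28591729264) (nat_lit 76) (nat_lit 5) (nat_lit 81) (nat_lit 5) (nat_lit 82) (nat_lit 5) (nat_lit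 323) (nat_lit 309) (nat_lit 148)) (XT.lf (nat_lit 0) (nat_lit 42994432359) (nat_lit 456) (nat_lit 21893720626) (nat_lit 76) (nat_lit 1341540384) (nat_lit 76) (nat_lit 5) (nat_lit 82) (nat_lit 5) (nat_lit 77) (nat_lit 5) (nat_lit 324) (nat_lit 309) (nat_lit 147))) (XT.nd (nat_lit 78) (nat_lit 304) (nat_lit 0) (XT.lf (nat_lit 0) (nat_lit 11267156976) (nat_lit 304) (nat_lit 39865847095) (nat_lit 380) (nat_lit 16998261429) (nat_lit 72) (nat_lit 5) (nat_lit 76) (nat_lit 5) (nat_lit 77) (nat_lit 5) (nat_lit 325) (nat_lit 309) (nat_lit 146)) (XT.nd (nat_lit 78) (nat_lit 304) (nat_lit 0) (XT.lf (nat_lit 0) (nat_lit 46845078388) (nat_lit 304) (nat_lit 13203163004) (nat_lit 380) (nat_lit 10061189605) (nat_lit 72) (nat_lit 5) (nat_lit 76) (nat_lit 5) (nat_lit 77) (nat_lit 5) (nat_lit 326) (nat_lit 309) (nat_lit 145)) (XT.lf (nat_lit 0) (nat_lit 12172948064) (nat_lit 304) (nat_lit 57656306279) (nat_lit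 380) (nat_lit 2336251269) (nat_lit 68) (nat_lit 5) (nat_lit 72) (nat_lit 5) (nat_lit 73) (nat_lit 5) (nat_lit 327) (nat_lit 309) (nat_lit 144)))))) (XT.nd (nat_lit 390) (nat_lit 760) (nat_lit 0) (XT.nd (nat_lit 156) (nat_lit 304) (nat_lit 0) (XT.nd (nat_lit 78) (nat_lit 304) (nat_lit 0) (XT.lf (nat_lit 0) (nat_lit 6206015699) (nat_lit 380) (nat_lit 24429066564) (nat_lit 76) (nat_lit 43653999156) (nat_lit 67) (nat_lit 5) (nat_lit 72) (nat_lit 5) (nat_lit 68) (nat_lit 5) (nat_lit 328) (nat_lit 309) (nat_lit 143)) (XT.lf (nat_lit 0) (nat_lit 13298885522) (nat_lit 304) (nat_lit 2004695150) (nat_lit 380) (nat_lit 61203006807) (nat_lit 63) (nat_lit 5) (nat_lit 67) (nat_lit 5) (nat_lit 68) (nat_lit 5) (nat_lit 329) (nat_lit 309) (nat_lit 142))) (XT.nd (nat_lit 78) (nat_lit 304) (nat_lit 0) (XT.lf (nat_lit 0) (nat_lit 25713667121) (nat_lit 380) (nat_lit 25498848615) (nat_lit 76) (nat_lit 27579572205)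 (nat_lit 63) (nat_lit 5) (nat_lit 68) (nat_lit 5) (nat_lit 64) (nat_lit 5) (nat_lit 330) (nat_lit 309) (nat_lit 141)) (XT.nd (nat_lit 78) (nat_lit 0) (nat_lit 0) (XT.lf (nat_lit 0) (nat_lit 14526484670) (nat_lit 304) (nat_lit 22376570692) (nat_lit 380) (nat_lit 44275869393) (nat_lit 59) (nat_lit 5) (nat_lit 63) (nat_lit 5) (nat_lit 64) (nat_lit 5) (nat_lit 331) (nat_lit 309) (nat_lit 140)) (XT.lf (nat_lit 0) (nat_lit 49213344003) (nat_lit 380) (nat_lit 26356663990) (nat_lit 76) (nat_lit 8087025008) (nat_lit 59) (nat_lit 5) (nat_lit 64) (nat_lit 5) (nat_lit 60) (nat_lit 5) (nat_lit 332) (nat_lit 309) (nat_lit 139))))) (XT.nd (nat_lit 156) (nat_lit 532) (nat_lit 0) (XT.nd (nat_lit 78) (nat_lit 0) (nat_lit 0) (XT.lf (nat_lit 0) (nat_lit 16101407264) (nat_lit 228) (nat_lit 46655154027) (nat_lit 304) (nat_lit 23471615749) (nat_lit 56) (nat_lit 5) (nat_lit 59) (nat_lit 5) (nat_lit 60) (nat_lit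 5) (nat_lit 333) (nat_lit 309) (nat_lit 138)) (XT.lf (nat_lit 0) (nat_lit 61596432030) (nat_lit 228) (nat_lit 15826090082) (nat_lit 304) (nat_lit 11483078072) (nat_lit 56) (nat_lit 5) (nat_lit 59) (nat_lit 5) (nat_lit 60) (nat_lit 5) (nat_lit 334) (nat_lit 309) (nat_lit 137))) (XT.nd (nat_lit 78) (nat_lit 228) (nat_lit 0) (XT.lf (nat_lit 0) (nat_lit 1616385607) (nat_lit 304) (nat_lit 73751044094) (nat_lit 76) (nat_lit 16321260085) (nat_lit 52) (nat_lit 5) (nat_lit 56) (nat_lit 5) (nat_lit 53) (nat_lit 5) (nat_lit 335) (nat_lit 309) (nat_lit 136)) (XT.nd (nat_lit 78) (nat_lit 228) (nat_lit 0) (XT.lf (nat_lit 0) (nat_lit 15713697127) (nat_lit 304) (nat_lit 28649160464) (nat_lit 76) (nat_lit 50202225747) (nat_lit 52) (nat_lit 5) (nat_lit 56) (nat_lit 5) (nat_lit 53) (nat_lit 5) (nat_lit 336) (nat_lit 309) (nat_lit 135)) (XT.lf (nat_lit 0) (nat_lit 19325407231) (nat_lit 228) (nat_lit 11491487361)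 (nat_lit 304) (nat_lit 66753351810) (nat_lit 49) (nat_lit 5) (nat_lit 52) (nat_lit 5) (nat_lit 53) (nat_lit 5) (nat_lit 337) (nat_lit 309) (nat_lit 134))))))) (XT.nd (nat_lit 780) (nat_lit 836) (nat_lit 0) (XT.nd (nat_lit 390) (nat_lit 532) (nat_lit 0) (XT.nd (nat_lit 156) (nat_lit 228) (nat_lit 0) (XT.nd (nat_lit 78) (nat_lit 228) (nat_lit 0) (XT.lf (nat_lit 0) (nat_lit 47527165604) (nat_lit 304) (nat_lit 30376445103) (nat_lit 76) (nat_lit 22779462041) (nat_lit 49) (nat_lit 5) (nat_lit 53) (nat_lit 5) (nat_lit 50) (nat_lit 5) (nat_lit 338) (nat_lit 309) (nat_lit 133)) (XT.lf (nat_lit 0) (nat_lit 20347310511) (nat_lit 228) (nat_lit 45231047794) (nat_lit 304) (nat_lit 38347912475) (nat_lit 46) (nat_lit 5) (nat_lit 49) (nat_lit 5) (nat_lit 50) (nat_lit 5) (nat_lit 339) (nat_lit 309) (nat_lit 132))) (XT.nd (nat_lit 78) (nat_lit 228) (nat_lit 0) (XT.lf (nat_lit 0) (nat_lit 74660956106) (nat_lit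 228) (nat_lit 10384956059) (nat_lit 304) (nat_lit 22260027207) (nat_lit 46) (nat_lit 5) (nat_lit 49) (nat_lit 5) (nat_lit 50) (nat_lit 5) (nat_lit 340) (nat_lit 309) (nat_lit 131)) (XT.nd (nat_lit 78) (nat_lit 76) (nat_lit 0) (XT.lf (nat_lit 0) (nat_lit 21101065555) (nat_lit 152) (nat_lit 85123722310) (nat_lit 228) (nat_lit 4592907024) (nat_lit 44) (nat_lit 5) (nat_lit 46) (nat_lit 5) (nat_lit 47) (nat_lit 5) (nat_lit 341) (nat_lit 309) (nat_lit 130)) (XT.lf (nat_lit 0) (nat_lit 14242400186) (nat_lit 228) (nat_lit 36207733746) (nat_lit 76) (nat_lit 64007431028) (nat_lit 43) (nat_lit 5) (nat_lit 46) (nat_lit 5) (nat_lit 44) (nat_lit 5) (nat_lit 342) (nat_lit 309) (nat_lit 129))))) (XT.nd (nat_lit 156) (nat_lit 304) (nat_lit 0) (XT.nd (nat_lit 78) (nat_lit 0) (nat_lit 0) (XT.lf (nat_lit 0) (nat_lit 20558464501) (nat_lit 228) (nat_lit 13627053972) (nat_lit 304) (nat_lit 84074126116) (nat_lit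 40) (nat_lit 5) (nat_lit 43) (nat_lit 5) (nat_lit 44) (nat_lit 5) (nat_lit 343) (nat_lit 309) (nat_lit 128)) (XT.lf (nat_lit 0) (nat_lit 56139373616) (nat_lit 304) (nat_lit 41202956592) (nat_lit 76) (nat_lit 24858819519) (nat_lit 40) (nat_lit 5) (nat_lit 44) (nat_lit 5) (nat_lit 41) (nat_lit 5) (nat_lit 344) (nat_lit 309) (nat_lit 127))) (XT.nd (nat_lit 78) (nat_lit 152) (nat_lit 0) (XT.lf (nat_lit 0) (nat_lit 18487687440) (nat_lit 152) (nat_lit 61214732559) (nat_lit 228) (nat_lit 46611735751) (nat_lit 38) (nat_lit 5) (nat_lit 40) (nat_lit 5) (nat_lit 41) (nat_lit 5) (nat_lit 345) (nat_lit 309) (nat_lit 126)) (XT.nd (nat_lit 78) (nat_lit 152) (nat_lit 0) (XT.lf (nat_lit 0) (nat_lit 82592532714) (nat_lit 152) (nat_lit 22548350713) (nat_lit 228) (nat_lit 25457065935) (nat_lit 38) (nat_lit 5) (nat_lit 40) (nat_lit 5) (nat_lit 41) (nat_lit 5) (nat_lit 346) (nat_lit 309) (nat_lit 125)) (XT.lf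 (nat_lit 0) (nat_lit 15004298954) (nat_lit 152) (nat_lit 117362556097) (nat_lit 228) (nat_lit 2703298850) (nat_lit 36) (nat_lit 5) (nat_lit 38) (nat_lit 5) (nat_lit 39) (nat_lit 5) (nat_lit 347) (nat_lit 309) (nat_lit 124)))))) (XT.nd (nat_lit 390) (nat_lit 456) (nat_lit 0) (XT.nd (nat_lit 156) (nat_lit 152) (nat_lit 0) (XT.nd (nat_lit 78) (nat_lit 152) (nat_lit 0) (XT.lf (nat_lit 0) (nat_lit 21705468243) (nat_lit 228) (nat_lit 57608750421) (nat_lit 76) (nat_lit 60375436882) (nat_lit 35) (nat_lit 5) (nat_lit 38) (nat_lit 5) (nat_lit 36) (nat_lit 5) (nat_lit 348) (nat_lit 309) (nat_lit 123)) (XT.lf (nat_lit 0) (nat_lit 8188212493) (nat_lit 152) (nat_lit 39182974669) (nat_lit 228) (nat_lit 97160361620) (nat_lit 33) (nat_lit 5) (nat_lit 35) (nat_lit 5) (nat_lit 36) (nat_lit 5) (nat_lit 349) (nat_lit 309) (nat_lit 122))) (XT.nd (nat_lit 78) (nat_lit 152) (nat_lit 0) (XT.lf (nat_lit 0) (nat_lit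 75357479285) (nat_lit 228) (nat_lit 70354574705) (nat_lit 76) (nat_lit 3851618738) (nat_lit 33) (nat_lit 5) (nat_lit 36) (nat_lit 5) (nat_lit 34) (nat_lit 5) (nat_lit 350) (nat_lit 309) (nat_lit 121)) (XT.nd (nat_lit 78) (nat_lit 152) (nat_lit 0) (XT.lf (nat_lit 0) (nat_lit 105384980361) (nat_lit 228) (nat_lit 1709444355) (nat_lit 76) (nat_lit 47720883829) (nat_lit 33) (nat_lit 5) (nat_lit 36) (nat_lit 5) (nat_lit 34) (nat_lit 5) (nat_lit 351) (nat_lit 309) (nat_lit 120)) (XT.lf (nat_lit 0) (nat_lit 72693910714) (nat_lit 152) (nat_lit 65354473351) (nat_lit 228) (nat_lit 22224416082) (nat_lit 31) (nat_lit 5) (nat_lit 33) (nat_lit 5) (nat_lit 34) (nat_lit 5) (nat_lit 352) (nat_lit 309) (nat_lit 119))))) (XT.nd (nat_lit 234) (nat_lit 228) (nat_lit 0) (XT.nd (nat_lit 78) (nat_lit 152) (nat_lit 0) (XT.lf (nat_lit 0) (nat_lit 6167814026) (nat_lit 228) (nat_lit 15225119150) (nat_lit 76) (nat_lit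 144603832867) (nat_lit 30) (nat_lit 5) (nat_lit 33) (nat_lit 5) (nat_lit 31) (nat_lit 5) (nat_lit 353) (nat_lit 309) (nat_lit 118)) (XT.nd (nat_lit 78) (nat_lit 0) (nat_lit 0) (XT.lf (nat_lit 0) (nat_lit 36614868411) (nat_lit 228) (nat_lit 109970827209) (nat_lit 76) (nat_lit 25333913255) (nat_lit 28) (nat_lit 5) (nat_lit 31) (nat_lit 5) (nat_lit 29) (nat_lit 5) (nat_lit 354) (nat_lit 309) (nat_lit 117)) (XT.lf (nat_lit 0) (nat_lit 69196650971) (nat_lit 228) (nat_lit 34971339722) (nat_lit 76) (nat_lit 73939984690) (nat_lit 28) (nat_lit 5) (nat_lit 31) (nat_lit 5) (nat_lit 29) (nat_lit 5) (nat_lit 355) (nat_lit 309) (nat_lit 116)))) (XT.nd (nat_lit 78) (nat_lit 76) (nat_lit 0) (XT.lf (nat_lit 0) (nat_lit 45224968708) (nat_lit 152) (nat_lit 58888261417) (nat_lit 228) (nat_lit 80457245010) (nat_lit 26) (nat_lit 5) (nat_lit 28) (nat_lit 5) (nat_lit 29) (nat_lit 5) (nat_lit 356) (nat_lit 309)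 (nat_lit 115)) (XT.nd (nat_lit 78) (nat_lit 76) (nat_lit 0) (XT.lf (nat_lit 0) (nat_lit 130644593886) (nat_lit 152) (nat_lit 10722928266) (nat_lit 228) (nat_lit 49958983804) (nat_lit 26) (nat_lit 5) (nat_lit 28) (nat_lit 5) (nat_lit 29) (nat_lit 5) (nat_lit 357) (nat_lit 309) (nat_lit 114)) (XT.lf (nat_lit 0) (nat_lit 21996084260) (nat_lit 76) (nat_lit 159453687057) (nat_lit 152) (nat_lit 16922305140) (nat_lit 25) (nat_lit 5) (nat_lit 26) (nat_lit 5) (nat_lit 27) (nat_lit 4) (nat_lit 358) (nat_lit 309) (nat_lit 113))))))))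
noncomputable def xc226 : XT := (XT.nd (nat_lit 37206) (nat_lit 0) (nat_lit 3116) (XT.nd (nat_lit 780) (nat_lit 152) (nat_lit 0) (XT.nd (nat_lit 390) (nat_lit 304) (nat_lit 0) (XT.nd (nat_lit 156) (nat_lit 228) (nat_lit 0) (XT.nd (nat_lit 78) (nat_lit 0) (nat_lit 0) (XT.lf (nat_lit 0) (nat_lit 18417531369) (nat_lit 152) (nat_lit 95274446763) (nat_lit 76) (nat_lit 92003080900) (nat_lit 24) (nat_lit 5) (nat_lit 26) (nat_lit 5) (nat_lit 25) (nat_lit 5) (nat_lit 359) (nat_lit 309) (nat_lit 112)) (XT.lf (nat_lit 0) (nat_lit 54955319360) (nat_lit 152) (nat_lit 10395821142) (nat_lit 76) (nat_lit 148019196718) (nat_lit 24) (nat_lit 5) (nat_lit 26) (nat_lit 5) (nat_lit 25) (nat_lit 5) (nat_lit 360) (nat_lit 309) (nat_lit 111))) (XT.nd (nat_lit 78) (nat_lit 76) (nat_lit 0) (XT.lf (nat_lit 0) (nat_lit 81329224328) (nat_lit 152) (nat_lit 13260225799) (nat_lit 228) (nat_lit 126776456738) (nat_lit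 22) (nat_lit 5) (nat_lit 24) (nat_lit 5) (nat_lit 25) (nat_lit 5) (nat_lit 361) (nat_lit 309) (nat_lit 110)) (XT.nd (nat_lit 78) (nat_lit 76) (nat_lit 0) (XT.lf (nat_lit 0) (nat_lit 137030831619) (nat_lit 228) (nat_lit 52401374963) (nat_lit 76) (nat_lit 40287771409) (nat_lit 22) (nat_lit 5) (nat_lit 25) (nat_lit 5) (nat_lit 23) (nat_lit 4) (nat_lit 362) (nat_lit 309) (nat_lit 109)) (XT.lf (nat_lit 0) (nat_lit 40700454480) (nat_lit 76) (nat_lit 141746351457) (nat_lit 152) (nat_lit 56002320745) (nat_lit 21) (nat_lit 5) (nat_lit 22) (nat_lit 5) (nat_lit 23) (nat_lit 4) (nat_lit 363) (nat_lit 309) (nat_lit 108))))) (XT.nd (nat_lit 156) (nat_lit 228) (nat_lit 0) (XT.nd (nat_lit 78) (nat_lit 76) (nat_lit 0) (XT.lf (nat_lit 0) (nat_lit 140276109901) (nat_lit 76) (nat_lit 90744612925) (nat_lit 152) (nat_lit 16549652978) (nat_lit 21) (nat_lit 5) (nat_lit 22) (nat_lit 5) (nat_lit 23) (nat_lit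 4) (nat_lit 364) (nat_lit 309) (nat_lit 107)) (XT.lf (nat_lit 0) (nat_lit 24079182685) (nat_lit 152) (nat_lit 12706025619) (nat_lit 76) (nat_lit 220343074790) (nat_lit 20) (nat_lit 5) (nat_lit 22) (nat_lit 5) (nat_lit 21) (nat_lit 5) (nat_lit 365) (nat_lit 309) (nat_lit 106))) (XT.nd (nat_lit 78) (nat_lit 76) (nat_lit 0) (XT.lf (nat_lit 0) (nat_lit 67913119423) (nat_lit 228) (nat_lit 178223816982) (nat_lit 76) (nat_lit 20927092408) (nat_lit 18) (nat_lit 5) (nat_lit 21) (nat_lit 5) (nat_lit 19) (nat_lit 4) (nat_lit 366) (nat_lit 309) (nat_lit 105)) (XT.nd (nat_lit 78) (nat_lit 76) (nat_lit 0) (XT.lf (nat_lit 0) (nat_lit 114760226342) (nat_lit 228) (nat_lit 82187967004) (nat_lit 76) (nat_lit 80507294959) (nat_lit 18) (nat_lit 5) (nat_lit 21) (nat_lit 5) (nat_lit 19) (nat_lit 4) (nat_lit 367) (nat_lit 309) (nat_lit 104)) (XT.lf (nat_lit 0) (nat_lit 19265839603) (nat_lit 76) (nat_lit 144984382625)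 (nat_lit 152) (nat_lit 124101272010) (nat_lit 17) (nat_lit 5) (nat_lit 18) (nat_lit 5) (nat_lit 19) (nat_lit 4) (nat_lit 368) (nat_lit 309) (nat_lit 103)))))) (XT.nd (nat_lit 36036) (nat_lit 0) (nat_lit 6004) (XT.nd (nat_lit 156) (nat_lit 152) (nat_lit 0) (XT.nd (nat_lit 78) (nat_lit 0) (nat_lit 0) (XT.lf (nat_lit 0) (nat_lit 128645261585) (nat_lit 76) (nat_lit 88961094460) (nat_lit 152) (nat_lit 82116362658) (nat_lit 17) (nat_lit 5) (nat_lit 18) (nat_lit 5) (nat_lit 19) (nat_lit 4) (nat_lit 369) (nat_lit 309) (nat_lit 102)) (XT.lf (nat_lit 0) (nat_lit 243493220776) (nat_lit 76) (nat_lit 30136833058) (nat_lit 152) (nat_lit 38032462824) (nat_lit 17) (nat_lit 5) (nat_lit 18) (nat_lit 5) (nat_lit 19) (nat_lit 4) (nat_lit 370) (nat_lit 309) (nat_lit 101))) (XT.nd (nat_lit 78) (nat_lit 0) (nat_lit 0) (XT.lf (nat_lit 0) (nat_lit 9138807617) (nat_lit 152) (nat_lit 283597807507) (nat_lit 76)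 (nat_lit 31398874462) (nat_lit 15) (nat_lit 5) (nat_lit 17) (nat_lit 5) (nat_lit 16) (nat_lit 4) (nat_lit 371) (nat_lit 309) (nat_lit 100)) (XT.nd (nat_lit 78) (nat_lit 0) (nat_lit 0) (XT.lf (nat_lit 0) (nat_lit 59057720573) (nat_lit 152) (nat_lit 181264572630) (nat_lit 76) (nat_lit 96795282966) (nat_lit 15) (nat_lit 5) (nat_lit 17) (nat_lit 5) (nat_lit 16) (nat_lit 4) (nat_lit 372) (nat_lit 309) (nat_lit 99)) (XT.lf (nat_lit 0) (nat_lit 111472357063) (nat_lit 152) (nat_lit 73815078953) (nat_lit 76) (nat_lit 165461342281) (nat_lit 15) (nat_lit 5) (nat_lit 17) (nat_lit 5) (nat_lit 16) (nat_lit 4) (nat_lit 373) (nat_lit 309) (nat_lit 98))))) (XT.nd (nat_lit 156) (nat_lit 0) (nat_lit 0) (XT.nd (nat_lit 78) (nat_lit 0) (nat_lit 0) (XT.lf (nat_lit 0) (nat_lit 10547942645) (nat_lit 0) (nat_lit 10547942645) (nat_lit 684) (nat_lit 2334782274) (nat_lit 94) (nat_lit 5) (nat_lit 94) (nat_lit 3)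 (nat_lit 103) (nat_lit 3) (nat_lit 310) (nat_lit 310) (nat_lit 160)) (XT.lf (nat_lit 0) (nat_lit 43281973298) (nat_lit 684) (nat_lit 4290672852) (nat_lit 760) (nat_lit 458402169) (nat_lit 94) (nat_lit 5) (nat_lit 103) (nat_lit 3) (nat_lit 104) (nat_lit 5) (nat_lit 311) (nat_lit 310) (nat_lit 159))) (XT.nd (nat_lit 78) (nat_lit 0) (nat_lit 0) (XT.lf (nat_lit 76) (nat_lit 18503224022) (nat_lit 0) (nat_lit 26556404195) (nat_lit 760) (nat_lit 4167975034) (nat_lit 95) (nat_lit 5) (nat_lit 94) (nat_lit 5) (nat_lit 104) (nat_lit 5) (nat_lit 312) (nat_lit 310) (nat_lit 158)) (XT.nd (nat_lit 78) (nat_lit 0) (nat_lit 76) (XT.lf (nat_lit 76) (nat_lit 42584790897) (nat_lit 0) (nat_lit 4412329616) (nat_lit 760) (nat_lit 3483320718) (nat_lit 95) (nat_lit 5) (nat_lit 94) (nat_lit 5) (nat_lit 104) (nat_lit 5) (nat_lit 313) (nat_lit 310) (nat_lit 157)) (XT.lf (nat_lit 76) (nat_lit 16301087456) (nat_lit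 0) (nat_lit 33277416599) (nat_lit 760) (nat_lit 2190069115) (nat_lit 96) (nat_lit 5) (nat_lit 95) (nat_lit 5) (nat_lit 105) (nat_lit 5) (nat_lit 314) (nat_lit 310) (nat_lit 156))))))) (XT.nd (nat_lit 780) (nat_lit 1520) (nat_lit 0) (XT.nd (nat_lit 390) (nat_lit 760) (nat_lit 0) (XT.nd (nat_lit 156) (nat_lit 0) (nat_lit 0) (XT.nd (nat_lit 78) (nat_lit 684) (nat_lit 0) (XT.lf (nat_lit 76) (nat_lit 41906037687) (nat_lit 0) (nat_lit 10586245672) (nat_lit 760) (nat_lit 618664768) (nat_lit 96) (nat_lit 5) (nat_lit 95) (nat_lit 5) (nat_lit 105) (nat_lit 5) (nat_lit 315) (nat_lit 310) (nat_lit 155)) (XT.lf (nat_lit 0) (nat_lit 1437435766) (nat_lit 760) (nat_lit 39994005565) (nat_lit 836) (nat_lit 13066241199) (nat_lit 86) (nat_lit 5) (nat_lit 96) (nat_lit 5) (nat_lit 97) (nat_lit 5) (nat_lit 316) (nat_lit 310) (nat_lit 154))) (XT.nd (nat_lit 78) (nat_lit 0) (nat_lit 76) (XT.lf (nat_lit 0) (nat_lit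 3940520312) (nat_lit 760) (nat_lit 14245448666) (nat_lit 836) (nat_lit 37749031442) (nat_lit 86) (nat_lit 5) (nat_lit 96) (nat_lit 5) (nat_lit 97) (nat_lit 5) (nat_lit 317) (nat_lit 310) (nat_lit 153)) (XT.nd (nat_lit 78) (nat_lit 0) (nat_lit 0) (XT.lf (nat_lit 0) (nat_lit 6874190342) (nat_lit 760) (nat_lit 44322089173) (nat_lit 836) (nat_lit 6232635389) (nat_lit 87) (nat_lit 5) (nat_lit 97) (nat_lit 5) (nat_lit 98) (nat_lit 5) (nat_lit 318) (nat_lit 310) (nat_lit 152)) (XT.lf (nat_lit 0) (nat_lit 10496560162) (nat_lit 760) (nat_lit 16967357302) (nat_lit 836) (nat_lit 31506508991) (nat_lit 87) (nat_lit 5) (nat_lit 97) (nat_lit 5) (nat_lit 98) (nat_lit 5) (nat_lit 319) (nat_lit 310) (nat_lit 151))))) (XT.nd (nat_lit 156) (nat_lit 836) (nat_lit 0) (XT.nd (nat_lit 78) (nat_lit 0) (nat_lit 76) (XT.lf (nat_lit 76) (nat_lit 12142712941) (nat_lit 0) (nat_lit 2345657413) (nat_lit 836) (nat_lit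 46091229189) (nat_lit 88) (nat_lit 5) (nat_lit 87) (nat_lit 5) (nat_lit 98) (nat_lit 5) (nat_lit 320) (nat_lit 310) (nat_lit 150)) (XT.lf (nat_lit 0) (nat_lit 19345771697) (nat_lit 760) (nat_lit 19338461692) (nat_lit 76) (nat_lit 23551699821) (nat_lit 88) (nat_lit 5) (nat_lit 98) (nat_lit 5) (nat_lit 89) (nat_lit 5) (nat_lit 321) (nat_lit 310) (nat_lit 149))) (XT.nd (nat_lit 78) (nat_lit 380) (nat_lit 0) (XT.lf (nat_lit 0) (nat_lit 11544902102) (nat_lit 532) (nat_lit 13118687541) (nat_lit 608) (nat_lit 39300618452) (nat_lit 81) (nat_lit 5) (nat_lit 88) (nat_lit 5) (nat_lit 89) (nat_lit 5) (nat_lit 322) (nat_lit 310) (nat_lit 148)) (XT.nd (nat_lit 78) (nat_lit 380) (nat_lit 0) (XT.lf (nat_lit 0) (nat_lit 30793346883) (nat_lit 608) (nat_lit 21339436638) (nat_lit 76) (nat_lit 13618812557) (nat_lit 81) (nat_lit 5) (nat_lit 89) (nat_lit 5) (nat_lit 82) (nat_lit 5) (nat_lit 323) (nat_lit 310)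 (nat_lit 147)) (XT.lf (nat_lit 0) (nat_lit 11444636777) (nat_lit 380) (nat_lit 26177636992) (nat_lit 456) (nat_lit 29986447291) (nat_lit 76) (nat_lit 5) (nat_lit 81) (nat_lit 5) (nat_lit 82) (nat_lit 5) (nat_lit 324) (nat_lit 310) (nat_lit 146)))))) (XT.nd (nat_lit 390) (nat_lit 836) (nat_lit 0) (XT.nd (nat_lit 156) (nat_lit 380) (nat_lit 0) (XT.nd (nat_lit 78) (nat_lit 304) (nat_lit 0) (XT.lf (nat_lit 0) (nat_lit 45175726556) (nat_lit 456) (nat_lit 22955639494) (nat_lit 76) (nat_lit 1408183874) (nat_lit 76) (nat_lit 5) (nat_lit 82) (nat_lit 5) (nat_lit 77) (nat_lit 5) (nat_lit 325) (nat_lit 310) (nat_lit 145)) (XT.lf (nat_lit 0) (nat_lit 11862753486) (nat_lit 304) (nat_lit 41857473248) (nat_lit 380) (nat_lit 17816026291) (nat_lit 72) (nat_lit 5) (nat_lit 76) (nat_lit 5) (nat_lit 77) (nat_lit 5) (nat_lit 326) (nat_lit 310) (nat_lit 144))) (XT.nd (nat_lit 78) (nat_lit 380) (nat_lit 0)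 (XT.lf (nat_lit 0) (nat_lit 49218035794) (nat_lit 304) (nat_lit 13861734295) (nat_lit 380) (nat_lit 10533631742) (nat_lit 72) (nat_lit 5) (nat_lit 76) (nat_lit 5) (nat_lit 77) (nat_lit 5) (nat_lit 327) (nat_lit 310) (nat_lit 143)) (XT.nd (nat_lit 78) (nat_lit 76) (nat_lit 0) (XT.lf (nat_lit 0) (nat_lit 12813255871) (nat_lit 304) (nat_lit 60535709214) (nat_lit 380) (nat_lit 2423360660) (nat_lit 68) (nat_lit 5) (nat_lit 72) (nat_lit 5) (nat_lit 73) (nat_lit 5) (nat_lit 328) (nat_lit 310) (nat_lit 142)) (XT.lf (nat_lit 0) (nat_lit 6543699804) (nat_lit 380) (nat_lit 25619422937) (nat_lit 76) (nat_lit 45839004810) (nat_lit 67) (nat_lit 5) (nat_lit 72) (nat_lit 5) (nat_lit 68) (nat_lit 5) (nat_lit 329) (nat_lit 310) (nat_lit 141))))) (XT.nd (nat_lit 234) (nat_lit 228) (nat_lit 0) (XT.nd (nat_lit 78) (nat_lit 304) (nat_lit 0) (XT.lf (nat_lit 0) (nat_lit 13994425189) (nat_lit 304) (nat_lit 2100891549)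 (nat_lit 380) (nat_lit 64235235338) (nat_lit 63) (nat_lit 5) (nat_lit 67) (nat_lit 5) (nat_lit 68) (nat_lit 5) (nat_lit 330) (nat_lit 310) (nat_lit 140)) (XT.nd (nat_lit 78) (nat_lit 304) (nat_lit 0) (XT.lf (nat_lit 0) (nat_lit 27024702936) (nat_lit 380) (nat_lit 26743412837) (nat_lit 76) (nat_lit 28962273774) (nat_lit 63) (nat_lit 5) (nat_lit 68) (nat_lit 5) (nat_lit 64) (nat_lit 5) (nat_lit 331) (nat_lit 310) (nat_lit 139)) (XT.lf (nat_lit 0) (nat_lit 15282697140) (nat_lit 304) (nat_lit 23490122827) (nat_lit 380) (nat_lit 46463786939) (nat_lit 59) (nat_lit 5) (nat_lit 63) (nat_lit 5) (nat_lit 64) (nat_lit 5) (nat_lit 332) (nat_lit 310) (nat_lit 138)))) (XT.nd (nat_lit 78) (nat_lit 228) (nat_lit 0) (XT.lf (nat_lit 0) (nat_lit 51697529506) (nat_lit 380) (nat_lit 27644906768) (nat_lit 76) (nat_lit 8496240565) (nat_lit 59) (nat_lit 5) (nat_lit 64) (nat_lit 5) (nat_lit 60) (nat_lit 5) (nat_lit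 333) (nat_lit 310) (nat_lit 137)) (XT.nd (nat_lit 78) (nat_lit 0) (nat_lit 0) (XT.lf (nat_lit 0) (nat_lit 16935590784) (nat_lit 228) (nat_lit 48981651492) (nat_lit 304) (nat_lit 24621170590) (nat_lit 56) (nat_lit 5) (nat_lit 59) (nat_lit 5) (nat_lit 60) (nat_lit 5) (nat_lit 334) (nat_lit 310) (nat_lit 136)) (XT.lf (nat_lit 0) (nat_lit 64703980448) (nat_lit 228) (nat_lit 16611432457) (nat_lit 304) (nat_lit 12034350121) (nat_lit 56) (nat_lit 5) (nat_lit 59) (nat_lit 5) (nat_lit 60) (nat_lit 5) (nat_lit 335) (nat_lit 310) (nat_lit 135))))))))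
noncomputable def xc227 : XT := (XT.nd (nat_lit 1638) (nat_lit 988) (nat_lit 0) (XT.nd (nat_lit 780) (nat_lit 912) (nat_lit 0) (XT.nd (nat_lit 390) (nat_lit 456) (nat_lit 0) (XT.nd (nat_lit 156) (nat_lit 456) (nat_lit 0) (XT.nd (nat_lit 78) (nat_lit 0) (nat_lit 0) (XT.lf (nat_lit 0) (nat_lit 1718838630) (nat_lit 304) (nat_lit 77409567573) (nat_lit 76) (nat_lit 17143610143) (nat_lit 52) (nat_lit 5) (nat_lit 56) (nat_lit 5) (nat_lit 53) (nat_lit 5) (nat_lit 336) (nat_lit 310) (nat_lit 134)) (XT.lf (nat_lit 0) (nat_lit 16519985548) (nat_lit 304) (nat_lit 30053972082) (nat_lit 76) (nat_lit 52718324705) (nat_lit 52) (nat_lit 5) (nat_lit 56) (nat_lit 5) (nat_lit 53) (nat_lit 5) (nat_lit 337) (nat_lit 310) (nat_lit 133))) (XT.nd (nat_lit 78) (nat_lit 228) (nat_lit 0) (XT.lf (nat_lit 0) (nat_lit 20318878089) (nat_lit 228) (nat_lit 12058908351) (nat_lit 304) (nat_lit 70069946124) (nat_lit 49)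 (nat_lit 5) (nat_lit 52) (nat_lit 5) (nat_lit 53) (nat_lit 5) (nat_lit 338) (nat_lit 310) (nat_lit 132)) (XT.nd (nat_lit 78) (nat_lit 228) (nat_lit 0) (XT.lf (nat_lit 0) (nat_lit 49922722744) (nat_lit 304) (nat_lit 31868491195) (nat_lit 76) (nat_lit 23925029834) (nat_lit 49) (nat_lit 5) (nat_lit 53) (nat_lit 5) (nat_lit 50) (nat_lit 5) (nat_lit 339) (nat_lit 310) (nat_lit 131)) (XT.lf (nat_lit 0) (nat_lit 21391020326) (nat_lit 228) (nat_lit 47484951830) (nat_lit 304) (nat_lit 40245655775) (nat_lit 46) (nat_lit 5) (nat_lit 49) (nat_lit 5) (nat_lit 50) (nat_lit 5) (nat_lit 340) (nat_lit 310) (nat_lit 130))))) (XT.nd (nat_lit 156) (nat_lit 304) (nat_lit 0) (XT.nd (nat_lit 78) (nat_lit 152) (nat_lit 0) (XT.lf (nat_lit 0) (nat_lit 78419093711) (nat_lit 228) (nat_lit 10896919716) (nat_lit 304) (nat_lit 23354312069) (nat_lit 46) (nat_lit 5) (nat_lit 49) (nat_lit 5) (nat_lit 50) (nat_lit 5)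 (nat_lit 341) (nat_lit 310) (nat_lit 129)) (XT.lf (nat_lit 0) (nat_lit 22181588220) (nat_lit 152) (nat_lit 89371902763) (nat_lit 228) (nat_lit 4804195882) (nat_lit 44) (nat_lit 5) (nat_lit 46) (nat_lit 5) (nat_lit 47) (nat_lit 5) (nat_lit 342) (nat_lit 310) (nat_lit 128))) (XT.nd (nat_lit 78) (nat_lit 228) (nat_lit 0) (XT.lf (nat_lit 0) (nat_lit 14971443025) (nat_lit 228) (nat_lit 37993286566) (nat_lit 76) (nat_lit 67214849713) (nat_lit 43) (nat_lit 5) (nat_lit 46) (nat_lit 5) (nat_lit 44) (nat_lit 5) (nat_lit 343) (nat_lit 310) (nat_lit 127)) (XT.nd (nat_lit 78) (nat_lit 0) (nat_lit 0) (XT.lf (nat_lit 0) (nat_lit 21610821046) (nat_lit 228) (nat_lit 14300471803) (nat_lit 304) (nat_lit 88260492130) (nat_lit 40) (nat_lit 5) (nat_lit 43) (nat_lit 5) (nat_lit 44) (nat_lit 5) (nat_lit 344) (nat_lit 310) (nat_lit 126)) (XT.lf (nat_lit 0) (nat_lit 58962173096) (nat_lit 304) (nat_lit 43239150828)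 (nat_lit 76) (nat_lit 26109075640) (nat_lit 40) (nat_lit 5) (nat_lit 44) (nat_lit 5) (nat_lit 41) (nat_lit 5) (nat_lit 345) (nat_lit 310) (nat_lit 125)))))) (XT.nd (nat_lit 390) (nat_lit 380) (nat_lit 0) (XT.nd (nat_lit 156) (nat_lit 380) (nat_lit 0) (XT.nd (nat_lit 78) (nat_lit 0) (nat_lit 0) (XT.lf (nat_lit 0) (nat_lit 19435639058) (nat_lit 152) (nat_lit 64267346843) (nat_lit 228) (nat_lit 48926090048) (nat_lit 38) (nat_lit 5) (nat_lit 40) (nat_lit 5) (nat_lit 41) (nat_lit 5) (nat_lit 346) (nat_lit 310) (nat_lit 124)) (XT.lf (nat_lit 0) (nat_lit 86744604346) (nat_lit 152) (nat_lit 23668032683) (nat_lit 228) (nat_lit 26714459716) (nat_lit 38) (nat_lit 5) (nat_lit 40) (nat_lit 5) (nat_lit 41) (nat_lit 5) (nat_lit 347) (nat_lit 310) (nat_lit 123))) (XT.nd (nat_lit 78) (nat_lit 228) (nat_lit 0) (XT.lf (nat_lit 0) (nat_lit 15777216042) (nat_lit 152) (nat_lit 123222460210) (nat_lit 228)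 (nat_lit 2823247505) (nat_lit 36) (nat_lit 5) (nat_lit 38) (nat_lit 5) (nat_lit 39) (nat_lit 5) (nat_lit 348) (nat_lit 310) (nat_lit 122)) (XT.nd (nat_lit 78) (nat_lit 152) (nat_lit 0) (XT.lf (nat_lit 0) (nat_lit 22804769533) (nat_lit 228) (nat_lit 60467090407) (nat_lit 76) (nat_lit 63401564366) (nat_lit 35) (nat_lit 5) (nat_lit 38) (nat_lit 5) (nat_lit 36) (nat_lit 5) (nat_lit 349) (nat_lit 310) (nat_lit 121)) (XT.lf (nat_lit 0) (nat_lit 8619364240) (nat_lit 152) (nat_lit 41134081603) (nat_lit 228) (nat_lit 102003983390) (nat_lit 33) (nat_lit 5) (nat_lit 35) (nat_lit 5) (nat_lit 36) (nat_lit 5) (nat_lit 350) (nat_lit 310) (nat_lit 120))))) (XT.nd (nat_lit 234) (nat_lit 228) (nat_lit 0) (XT.nd (nat_lit 78) (nat_lit 152) (nat_lit 0) (XT.lf (nat_lit 0) (nat_lit 79138519800) (nat_lit 228) (nat_lit 73851053387) (nat_lit 76) (nat_lit 4051613401) (nat_lit 33) (nat_lit 5) (nat_lit 36) (nat_lit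 5) (nat_lit 34) (nat_lit 5) (nat_lit 351) (nat_lit 310) (nat_lit 119)) (XT.nd (nat_lit 78) (nat_lit 152) (nat_lit 0) (XT.lf (nat_lit 0) (nat_lit 110666768951) (nat_lit 228) (nat_lit 1774678427) (nat_lit 76) (nat_lit 50113988711) (nat_lit 33) (nat_lit 5) (nat_lit 36) (nat_lit 5) (nat_lit 34) (nat_lit 5) (nat_lit 352) (nat_lit 310) (nat_lit 118)) (XT.lf (nat_lit 0) (nat_lit 76348517974) (nat_lit 152) (nat_lit 68614538622) (nat_lit 228) (nat_lit 23322760507) (nat_lit 31) (nat_lit 5) (nat_lit 33) (nat_lit 5) (nat_lit 34) (nat_lit 5) (nat_lit 353) (nat_lit 310) (nat_lit 117)))) (XT.nd (nat_lit 78) (nat_lit 152) (nat_lit 0) (XT.lf (nat_lit 0) (nat_lit 6488075445) (nat_lit 228) (nat_lit 15967009641) (nat_lit 76) (nat_lit 151840916302) (nat_lit 30) (nat_lit 5) (nat_lit 33) (nat_lit 5) (nat_lit 31) (nat_lit 5) (nat_lit 354) (nat_lit 310) (nat_lit 116)) (XT.nd (nat_lit 78) (nat_lit 0) (nat_lit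 0) (XT.lf (nat_lit 0) (nat_lit 38457331068) (nat_lit 228) (nat_lit 115449842651) (nat_lit 76) (nat_lit 26607820666) (nat_lit 28) (nat_lit 5) (nat_lit 31) (nat_lit 5) (nat_lit 29) (nat_lit 5) (nat_lit 355) (nat_lit 310) (nat_lit 115)) (XT.lf (nat_lit 0) (nat_lit 72667644698) (nat_lit 228) (nat_lit 36701310596) (nat_lit 76) (nat_lit 77643852256) (nat_lit 28) (nat_lit 5) (nat_lit 31) (nat_lit 5) (nat_lit 29) (nat_lit 5) (nat_lit 356) (nat_lit 310) (nat_lit 114))))))) (XT.nd (nat_lit 780) (nat_lit 380) (nat_lit 0) (XT.nd (nat_lit 390) (nat_lit 304) (nat_lit 0) (XT.nd (nat_lit 156) (nat_lit 152) (nat_lit 0) (XT.nd (nat_lit 78) (nat_lit 0) (nat_lit 0) (XT.lf (nat_lit 0) (nat_lit 47504513319) (nat_lit 152) (nat_lit 61825293660) (nat_lit 228) (nat_lit 84468638007) (nat_lit 26) (nat_lit 5) (nat_lit 28) (nat_lit 5) (nat_lit 29) (nat_lit 5) (nat_lit 357) (nat_lit 310) (nat_lit 113)) (XT.lf (nat_lit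 0) (nat_lit 137194248509) (nat_lit 152) (nat_lit 11252045320) (nat_lit 228) (nat_lit 52446009897) (nat_lit 26) (nat_lit 5) (nat_lit 28) (nat_lit 5) (nat_lit 29) (nat_lit 5) (nat_lit 358) (nat_lit 310) (nat_lit 112))) (XT.nd (nat_lit 78) (nat_lit 76) (nat_lit 0) (XT.lf (nat_lit 0) (nat_lit 23113443396) (nat_lit 76) (nat_lit 167419095632) (nat_lit 152) (nat_lit 17757619913) (nat_lit 25) (nat_lit 5) (nat_lit 26) (nat_lit 5) (nat_lit 27) (nat_lit 4) (nat_lit 359) (nat_lit 310) (nat_lit 111)) (XT.nd (nat_lit 78) (nat_lit 0) (nat_lit 0) (XT.lf (nat_lit 0) (nat_lit 19348364891) (nat_lit 152) (nat_lit 100021114210) (nat_lit 76) (nat_lit 96609828341) (nat_lit 24) (nat_lit 5) (nat_lit 26) (nat_lit 5) (nat_lit 25) (nat_lit 5) (nat_lit 360) (nat_lit 310) (nat_lit 110)) (XT.lf (nat_lit 0) (nat_lit 57712568141) (nat_lit 152) (nat_lit 10899369445) (nat_lit 76) (nat_lit 155426435978) (nat_lit 24) (nat_lit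 5) (nat_lit 26) (nat_lit 5) (nat_lit 25) (nat_lit 5) (nat_lit 361) (nat_lit 310) (nat_lit 109))))) (XT.nd (nat_lit 156) (nat_lit 152) (nat_lit 0) (XT.nd (nat_lit 78) (nat_lit 0) (nat_lit 0) (XT.lf (nat_lit 0) (nat_lit 85411666318) (nat_lit 152) (nat_lit 13916537070) (nat_lit 228) (nat_lit 133105528710) (nat_lit 22) (nat_lit 5) (nat_lit 24) (nat_lit 5) (nat_lit 25) (nat_lit 5) (nat_lit 362) (nat_lit 310) (nat_lit 108)) (XT.lf (nat_lit 0) (nat_lit 143891311639) (nat_lit 228) (nat_lit 55005875828) (nat_lit 76) (nat_lit 42308336719) (nat_lit 22) (nat_lit 5) (nat_lit 25) (nat_lit 5) (nat_lit 23) (nat_lit 4) (nat_lit 363) (nat_lit 310) (nat_lit 107))) (XT.nd (nat_lit 78) (nat_lit 76) (nat_lit 0) (XT.lf (nat_lit 0) (nat_lit 42750793993) (nat_lit 76) (nat_lit 148827104179) (nat_lit 152) (nat_lit 58793241741) (nat_lit 21) (nat_lit 5) (nat_lit 22) (nat_lit 5) (nat_lit 23) (nat_lit 4) (nat_lit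 364) (nat_lit 310) (nat_lit 106)) (XT.nd (nat_lit 78) (nat_lit 76) (nat_lit 0) (XT.lf (nat_lit 0) (nat_lit 147304502814) (nat_lit 76) (nat_lit 95275591332) (nat_lit 152) (nat_lit 17368378445) (nat_lit 21) (nat_lit 5) (nat_lit 22) (nat_lit 5) (nat_lit 23) (nat_lit 4) (nat_lit 365) (nat_lit 310) (nat_lit 105)) (XT.lf (nat_lit 0) (nat_lit 25291215055) (nat_lit 152) (nat_lit 13327162426) (nat_lit 76) (nat_lit 231365911347) (nat_lit 20) (nat_lit 5) (nat_lit 22) (nat_lit 5) (nat_lit 21) (nat_lit 5) (nat_lit 366) (nat_lit 310) (nat_lit 104)))))) (XT.nd (nat_lit 390) (nat_lit 152) (nat_lit 0) (XT.nd (nat_lit 156) (nat_lit 76) (nat_lit 0) (XT.nd (nat_lit 78) (nat_lit 0) (nat_lit 0) (XT.lf (nat_lit 0) (nat_lit 71316775910) (nat_lit 228) (nat_lit 187120766107) (nat_lit 76) (nat_lit 21979283680) (nat_lit 18) (nat_lit 5) (nat_lit 21) (nat_lit 5) (nat_lit 19) (nat_lit 4) (nat_lit 367) (nat_lit 310)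 (nat_lit 103)) (XT.lf (nat_lit 0) (nat_lit 120505857198) (nat_lit 228) (nat_lit 86283801807) (nat_lit 76) (nat_lit 84538218423) (nat_lit 18) (nat_lit 5) (nat_lit 21) (nat_lit 5) (nat_lit 19) (nat_lit 4) (nat_lit 368) (nat_lit 310) (nat_lit 102))) (XT.nd (nat_lit 78) (nat_lit 0) (nat_lit 0) (XT.lf (nat_lit 0) (nat_lit 20242476364) (nat_lit 76) (nat_lit 152227722029) (nat_lit 152) (nat_lit 130298493195) (nat_lit 17) (nat_lit 5) (nat_lit 18) (nat_lit 5) (nat_lit 19) (nat_lit 4) (nat_lit 369) (nat_lit 310) (nat_lit 101)) (XT.nd (nat_lit 78) (nat_lit 0) (nat_lit 0) (XT.lf (nat_lit 0) (nat_lit 135090233979) (nat_lit 76) (nat_lit 93403549442) (nat_lit 152) (nat_lit 86214711823) (nat_lit 17) (nat_lit 5) (nat_lit 18) (nat_lit 5) (nat_lit 19) (nat_lit 4) (nat_lit 370) (nat_lit 310) (nat_lit 100)) (XT.lf (nat_lit 0) (nat_lit 255679985924) (nat_lit 76) (nat_lit 31638341625) (nat_lit 152) (nat_lit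 39926972663) (nat_lit 17) (nat_lit 5) (nat_lit 18) (nat_lit 5) (nat_lit 19) (nat_lit 4) (nat_lit 371) (nat_lit 310) (nat_lit 99))))) (XT.nd (nat_lit 36036) (nat_lit 0) (nat_lit 6004) (XT.nd (nat_lit 35880) (nat_lit 0) (nat_lit 6004) (XT.lf (nat_lit 0) (nat_lit 9602579365) (nat_lit 152) (nat_lit 297765304907) (nat_lit 76) (nat_lit 32974034844) (nat_lit 15) (nat_lit 5) (nat_lit 17) (nat_lit 5) (nat_lit 16) (nat_lit 4) (nat_lit 372) (nat_lit 310) (nat_lit 98)) (XT.nd (nat_lit 78) (nat_lit 0) (nat_lit 0) (XT.lf (nat_lit 0) (nat_lit 11089128517) (nat_lit 0) (nat_lit 11089128517) (nat_lit 684) (nat_lit 2422516046) (nat_lit 94) (nat_lit 5) (nat_lit 94) (nat_lit 3) (nat_lit 103) (nat_lit 3) (nat_lit 311) (nat_lit 311) (nat_lit 158)) (XT.lf (nat_lit 0) (nat_lit 45498190437) (nat_lit 684) (nat_lit 4475812432) (nat_lit 760) (nat_lit 455898632) (nat_lit 94) (nat_lit 5) (nat_lit 103) (nat_lit 3)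 (nat_lit 104) (nat_lit 5) (nat_lit 312) (nat_lit 311) (nat_lit 157)))) (XT.nd (nat_lit 78) (nat_lit 0) (nat_lit 0) (XT.lf (nat_lit 76) (nat_lit 19457305188) (nat_lit 0) (nat_lit 27905392603) (nat_lit 760) (nat_lit 4323692347) (nat_lit 95) (nat_lit 5) (nat_lit 94) (nat_lit 5) (nat_lit 104) (nat_lit 5) (nat_lit 313) (nat_lit 311) (nat_lit 156)) (XT.nd (nat_lit 78) (nat_lit 0) (nat_lit 76) (XT.lf (nat_lit 76) (nat_lit 44741573266) (nat_lit 0) (nat_lit 4653106286) (nat_lit 760) (nat_lit 3607313955) (nat_lit 95) (nat_lit 5) (nat_lit 94) (nat_lit 5) (nat_lit 104) (nat_lit 5) (nat_lit 314) (nat_lit 311) (nat_lit 155)) (XT.lf (nat_lit 76) (nat_lit 17145980045) (nat_lit 0) (nat_lit 34957046742) (nat_lit 760) (nat_lit 2251614558) (nat_lit 96) (nat_lit 5) (nat_lit 95) (nat_lit 5) (nat_lit 105) (nat_lit 5) (nat_lit 315) (nat_lit 311) (nat_lit 154))))))))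
noncomputable def xc228 : XT := (XT.nd (nat_lit 1560) (nat_lit 2128) (nat_lit 0) (XT.nd (nat_lit 780) (nat_lit 1520) (nat_lit 0) (XT.nd (nat_lit 390) (nat_lit 760) (nat_lit 0) (XT.nd (nat_lit 156) (nat_lit 0) (nat_lit 0) (XT.nd (nat_lit 78) (nat_lit 684) (nat_lit 0) (XT.lf (nat_lit 76) (nat_lit 44029756921) (nat_lit 0) (nat_lit 11130566825) (nat_lit 760) (nat_lit 603923709) (nat_lit 96) (nat_lit 5) (nat_lit 95) (nat_lit 5) (nat_lit 105) (nat_lit 5) (nat_lit 316) (nat_lit 311) (nat_lit 153)) (XT.lf (nat_lit 0) (nat_lit 1551670237) (nat_lit 760) (nat_lit 41961834137) (nat_lit 836) (nat_lit 13706874519) (nat_lit 86) (nat_lit 5) (nat_lit 96) (nat_lit 5) (nat_lit 97) (nat_lit 5) (nat_lit 317) (nat_lit 311) (nat_lit 152))) (XT.nd (nat_lit 78) (nat_lit 0) (nat_lit 76) (XT.lf (nat_lit 0) (nat_lit 4177891739) (nat_lit 760) (nat_lit 14927367092) (nat_lit 836) (nat_lit 39624408024) (nat_lit 86)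 (nat_lit 5) (nat_lit 96) (nat_lit 5) (nat_lit 97) (nat_lit 5) (nat_lit 318) (nat_lit 311) (nat_lit 151)) (XT.nd (nat_lit 78) (nat_lit 0) (nat_lit 0) (XT.lf (nat_lit 0) (nat_lit 7256649406) (nat_lit 760) (nat_lit 46506180604) (nat_lit 836) (nat_lit 6535530005) (nat_lit 87) (nat_lit 5) (nat_lit 97) (nat_lit 5) (nat_lit 98) (nat_lit 5) (nat_lit 319) (nat_lit 311) (nat_lit 150)) (XT.lf (nat_lit 0) (nat_lit 11058292501) (nat_lit 760) (nat_lit 17785236569) (nat_lit 836) (nat_lit 33073513343) (nat_lit 87) (nat_lit 5) (nat_lit 97) (nat_lit 5) (nat_lit 98) (nat_lit 5) (nat_lit 320) (nat_lit 311) (nat_lit 149))))) (XT.nd (nat_lit 156) (nat_lit 836) (nat_lit 0) (XT.nd (nat_lit 78) (nat_lit 0) (nat_lit 76) (XT.lf (nat_lit 76) (nat_lit 12779845435) (nat_lit 0) (nat_lit 2468558753) (nat_lit 836) (nat_lit 48358337282) (nat_lit 88) (nat_lit 5) (nat_lit 87) (nat_lit 5) (nat_lit 98) (nat_lit 5) (nat_lit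 321) (nat_lit 311) (nat_lit 148)) (XT.lf (nat_lit 0) (nat_lit 20346896088) (nat_lit 760) (nat_lit 20274982284) (nat_lit 76) (nat_lit 24724105151) (nat_lit 88) (nat_lit 5) (nat_lit 98) (nat_lit 5) (nat_lit 89) (nat_lit 5) (nat_lit 322) (nat_lit 311) (nat_lit 147))) (XT.nd (nat_lit 78) (nat_lit 380) (nat_lit 0) (XT.lf (nat_lit 0) (nat_lit 12152059337) (nat_lit 532) (nat_lit 13777401377) (nat_lit 608) (nat_lit 41231271247) (nat_lit 81) (nat_lit 5) (nat_lit 88) (nat_lit 5) (nat_lit 89) (nat_lit 5) (nat_lit 323) (nat_lit 311) (nat_lit 146)) (XT.nd (nat_lit 78) (nat_lit 380) (nat_lit 0) (XT.lf (nat_lit 0) (nat_lit 32364107745) (nat_lit 608) (nat_lit 22376273171) (nat_lit 76) (nat_lit 14297190805) (nat_lit 81) (nat_lit 5) (nat_lit 89) (nat_lit 5) (nat_lit 82) (nat_lit 5) (nat_lit 324) (nat_lit 311) (nat_lit 145)) (XT.lf (nat_lit 0) (nat_lit 12046517862) (nat_lit 380) (nat_lit 27486945379) (nat_lit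 456) (nat_lit 31454142956) (nat_lit 76) (nat_lit 5) (nat_lit 81) (nat_lit 5) (nat_lit 82) (nat_lit 5) (nat_lit 325) (nat_lit 311) (nat_lit 144)))))) (XT.nd (nat_lit 390) (nat_lit 836) (nat_lit 0) (XT.nd (nat_lit 156) (nat_lit 380) (nat_lit 0) (XT.nd (nat_lit 78) (nat_lit 304) (nat_lit 0) (XT.lf (nat_lit 0) (nat_lit 47463150143) (nat_lit 456) (nat_lit 24073700685) (nat_lit 76) (nat_lit 1478199844) (nat_lit 76) (nat_lit 5) (nat_lit 82) (nat_lit 5) (nat_lit 77) (nat_lit 5) (nat_lit 326) (nat_lit 311) (nat_lit 143)) (XT.lf (nat_lit 0) (nat_lit 12485132576) (nat_lit 304) (nat_lit 43948835615) (nat_lit 380) (nat_lit 18677668231) (nat_lit 72) (nat_lit 5) (nat_lit 76) (nat_lit 5) (nat_lit 77) (nat_lit 5) (nat_lit 327) (nat_lit 311) (nat_lit 142))) (XT.nd (nat_lit 78) (nat_lit 380) (nat_lit 0) (XT.lf (nat_lit 0) (nat_lit 51706786551) (nat_lit 304) (nat_lit 14553381681) (nat_lit 380) (nat_lit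 11032542497) (nat_lit 72) (nat_lit 5) (nat_lit 76) (nat_lit 5) (nat_lit 77) (nat_lit 5) (nat_lit 328) (nat_lit 311) (nat_lit 141)) (XT.nd (nat_lit 78) (nat_lit 76) (nat_lit 0) (XT.lf (nat_lit 0) (nat_lit 13482635584) (nat_lit 304) (nat_lit 63559399545) (nat_lit 380) (nat_lit 2517587040) (nat_lit 68) (nat_lit 5) (nat_lit 72) (nat_lit 5) (nat_lit 73) (nat_lit 5) (nat_lit 329) (nat_lit 311) (nat_lit 140)) (XT.lf (nat_lit 0) (nat_lit 6895722272) (nat_lit 380) (nat_lit 26872188229) (nat_lit 76) (nat_lit 48133046386) (nat_lit 67) (nat_lit 5) (nat_lit 72) (nat_lit 5) (nat_lit 68) (nat_lit 5) (nat_lit 330) (nat_lit 311) (nat_lit 139))))) (XT.nd (nat_lit 156) (nat_lit 532) (nat_lit 0) (XT.nd (nat_lit 78) (nat_lit 0) (nat_lit 0) (XT.lf (nat_lit 0) (nat_lit 14721897370) (nat_lit 304) (nat_lit 2202273215) (nat_lit 380) (nat_lit 67421671200) (nat_lit 63) (nat_lit 5) (nat_lit 67) (nat_lit 5) (nat_lit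 68) (nat_lit 5) (nat_lit 331) (nat_lit 311) (nat_lit 138)) (XT.lf (nat_lit 0) (nat_lit 28398933511) (nat_lit 380) (nat_lit 28053029548) (nat_lit 76) (nat_lit 30413764296) (nat_lit 63) (nat_lit 5) (nat_lit 68) (nat_lit 5) (nat_lit 64) (nat_lit 5) (nat_lit 332) (nat_lit 311) (nat_lit 137))) (XT.nd (nat_lit 78) (nat_lit 228) (nat_lit 0) (XT.lf (nat_lit 0) (nat_lit 16073941510) (nat_lit 304) (nat_lit 24659843118) (nat_lit 380) (nat_lit 48763506061) (nat_lit 59) (nat_lit 5) (nat_lit 63) (nat_lit 5) (nat_lit 64) (nat_lit 5) (nat_lit 333) (nat_lit 311) (nat_lit 136)) (XT.nd (nat_lit 78) (nat_lit 228) (nat_lit 0) (XT.lf (nat_lit 0) (nat_lit 54303737774) (nat_lit 380) (nat_lit 29000312721) (nat_lit 76) (nat_lit 8925464663) (nat_lit 59) (nat_lit 5) (nat_lit 64) (nat_lit 5) (nat_lit 60) (nat_lit 5) (nat_lit 334) (nat_lit 311) (nat_lit 135)) (XT.lf (nat_lit 0) (nat_lit 17808776816) (nat_lit 228)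 (nat_lit 51425055848) (nat_lit 304) (nat_lit 25830436878) (nat_lit 56) (nat_lit 5) (nat_lit 59) (nat_lit 5) (nat_lit 60) (nat_lit 5) (nat_lit 335) (nat_lit 311) (nat_lit 134))))))) (XT.nd (nat_lit 780) (nat_lit 912) (nat_lit 0) (XT.nd (nat_lit 390) (nat_lit 684) (nat_lit 0) (XT.nd (nat_lit 156) (nat_lit 228) (nat_lit 0) (XT.nd (nat_lit 78) (nat_lit 304) (nat_lit 0) (XT.lf (nat_lit 0) (nat_lit 67964328510) (nat_lit 228) (nat_lit 17436596252) (nat_lit 304) (nat_lit 12615313111) (nat_lit 56) (nat_lit 5) (nat_lit 59) (nat_lit 5) (nat_lit 60) (nat_lit 5) (nat_lit 336) (nat_lit 311) (nat_lit 133)) (XT.lf (nat_lit 0) (nat_lit 1824403004) (nat_lit 304) (nat_lit 81253716041) (nat_lit 76) (nat_lit 18006493193) (nat_lit 52) (nat_lit 5) (nat_lit 56) (nat_lit 5) (nat_lit 53) (nat_lit 5) (nat_lit 337) (nat_lit 311) (nat_lit 132))) (XT.nd (nat_lit 78) (nat_lit 228) (nat_lit 0) (XT.lf (nat_lit 0) (nat_lit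 17364672865) (nat_lit 304) (nat_lit 31531594581) (nat_lit 76) (nat_lit 55359671933) (nat_lit 52) (nat_lit 5) (nat_lit 56) (nat_lit 5) (nat_lit 53) (nat_lit 5) (nat_lit 338) (nat_lit 311) (nat_lit 131)) (XT.nd (nat_lit 78) (nat_lit 0) (nat_lit 0) (XT.lf (nat_lit 0) (nat_lit 21359493645) (nat_lit 228) (nat_lit 12655365444) (nat_lit 304) (nat_lit 73554329346) (nat_lit 49) (nat_lit 5) (nat_lit 52) (nat_lit 5) (nat_lit 53) (nat_lit 5) (nat_lit 339) (nat_lit 311) (nat_lit 130)) (XT.lf (nat_lit 0) (nat_lit 52436272813) (nat_lit 304) (nat_lit 33437628986) (nat_lit 76) (nat_lit 25127262905) (nat_lit 49) (nat_lit 5) (nat_lit 53) (nat_lit 5) (nat_lit 50) (nat_lit 5) (nat_lit 340) (nat_lit 311) (nat_lit 129))))) (XT.nd (nat_lit 156) (nat_lit 456) (nat_lit 0) (XT.nd (nat_lit 78) (nat_lit 0) (nat_lit 0) (XT.lf (nat_lit 0) (nat_lit 22484466389) (nat_lit 228) (nat_lit 49852262140) (nat_lit 304) (nat_lit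 42240113328) (nat_lit 46) (nat_lit 5) (nat_lit 49) (nat_lit 5) (nat_lit 50) (nat_lit 5) (nat_lit 341) (nat_lit 311) (nat_lit 128)) (XT.lf (nat_lit 0) (nat_lit 82362805584) (nat_lit 228) (nat_lit 11435158767) (nat_lit 304) (nat_lit 24505051257) (nat_lit 46) (nat_lit 5) (nat_lit 49) (nat_lit 5) (nat_lit 50) (nat_lit 5) (nat_lit 342) (nat_lit 311) (nat_lit 127))) (XT.nd (nat_lit 78) (nat_lit 304) (nat_lit 0) (XT.lf (nat_lit 0) (nat_lit 23313769116) (nat_lit 152) (nat_lit 93833236528) (nat_lit 228) (nat_lit 5027755796) (nat_lit 44) (nat_lit 5) (nat_lit 46) (nat_lit 5) (nat_lit 47) (nat_lit 5) (nat_lit 343) (nat_lit 311) (nat_lit 126)) (XT.nd (nat_lit 78) (nat_lit 228) (nat_lit 0) (XT.lf (nat_lit 0) (nat_lit 15735364682) (nat_lit 228) (nat_lit 39870425846) (nat_lit 76) (nat_lit 70581984157) (nat_lit 43) (nat_lit 5) (nat_lit 46) (nat_lit 5) (nat_lit 44) (nat_lit 5) (nat_lit 344) (nat_lit 311)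 (nat_lit 125)) (XT.lf (nat_lit 0) (nat_lit 22713523840) (nat_lit 228) (nat_lit 15008298235) (nat_lit 304) (nat_lit 92657788580) (nat_lit 40) (nat_lit 5) (nat_lit 43) (nat_lit 5) (nat_lit 44) (nat_lit 5) (nat_lit 345) (nat_lit 311) (nat_lit 124)))))) (XT.nd (nat_lit 390) (nat_lit 532) (nat_lit 0) (XT.nd (nat_lit 156) (nat_lit 228) (nat_lit 0) (XT.nd (nat_lit 78) (nat_lit 152) (nat_lit 0) (XT.lf (nat_lit 0) (nat_lit 61924640751) (nat_lit 304) (nat_lit 45379381753) (nat_lit 76) (nat_lit 27421164474) (nat_lit 40) (nat_lit 5) (nat_lit 44) (nat_lit 5) (nat_lit 41) (nat_lit 5) (nat_lit 346) (nat_lit 311) (nat_lit 123)) (XT.lf (nat_lit 0) (nat_lit 20428797198) (nat_lit 152) (nat_lit 67473346980) (nat_lit 228) (nat_lit 51357671203) (nat_lit 38) (nat_lit 5) (nat_lit 40) (nat_lit 5) (nat_lit 41) (nat_lit 5) (nat_lit 347) (nat_lit 311) (nat_lit 122))) (XT.nd (nat_lit 78) (nat_lit 228) (nat_lit 0)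 (XT.lf (nat_lit 0) (nat_lit 91102192836) (nat_lit 152) (nat_lit 24844417931) (nat_lit 228) (nat_lit 28036160467) (nat_lit 38) (nat_lit 5) (nat_lit 40) (nat_lit 5) (nat_lit 41) (nat_lit 5) (nat_lit 348) (nat_lit 311) (nat_lit 121)) (XT.nd (nat_lit 78) (nat_lit 76) (nat_lit 0) (XT.lf (nat_lit 0) (nat_lit 16586668355) (nat_lit 152) (nat_lit 129376124089) (nat_lit 228) (nat_lit 2950608259) (nat_lit 36) (nat_lit 5) (nat_lit 38) (nat_lit 5) (nat_lit 39) (nat_lit 5) (nat_lit 349) (nat_lit 311) (nat_lit 120)) (XT.lf (nat_lit 0) (nat_lit 23957731708) (nat_lit 228) (nat_lit 63470401812) (nat_lit 76) (nat_lit 66578314366) (nat_lit 35) (nat_lit 5) (nat_lit 38) (nat_lit 5) (nat_lit 36) (nat_lit 5) (nat_lit 350) (nat_lit 311) (nat_lit 119))))) (XT.nd (nat_lit 234) (nat_lit 380) (nat_lit 0) (XT.nd (nat_lit 78) (nat_lit 0) (nat_lit 0) (XT.lf (nat_lit 0) (nat_lit 9070052292) (nat_lit 152) (nat_lit 43183491534)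 (nat_lit 228) (nat_lit 107091124680) (nat_lit 33) (nat_lit 5) (nat_lit 35) (nat_lit 5) (nat_lit 36) (nat_lit 5) (nat_lit 351) (nat_lit 311) (nat_lit 118)) (XT.nd (nat_lit 78) (nat_lit 0) (nat_lit 0) (XT.lf (nat_lit 0) (nat_lit 83107388240) (nat_lit 228) (nat_lit 77524331631) (nat_lit 76) (nat_lit 4260918538) (nat_lit 33) (nat_lit 5) (nat_lit 36) (nat_lit 5) (nat_lit 34) (nat_lit 5) (nat_lit 352) (nat_lit 311) (nat_lit 117)) (XT.lf (nat_lit 0) (nat_lit 116211481160) (nat_lit 228) (nat_lit 1845055754) (nat_lit 76) (nat_lit 52626092402) (nat_lit 33) (nat_lit 5) (nat_lit 36) (nat_lit 5) (nat_lit 34) (nat_lit 5) (nat_lit 353) (nat_lit 311) (nat_lit 116)))) (XT.nd (nat_lit 78) (nat_lit 228) (nat_lit 0) (XT.lf (nat_lit 0) (nat_lit 80184004393) (nat_lit 152) (nat_lit 72038319161) (nat_lit 228) (nat_lit 24477219277) (nat_lit 31) (nat_lit 5) (nat_lit 33) (nat_lit 5) (nat_lit 34) (nat_lit 5) (nat_lit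 354) (nat_lit 311) (nat_lit 115)) (XT.nd (nat_lit 78) (nat_lit 152) (nat_lit 0) (XT.lf (nat_lit 0) (nat_lit 6823246309) (nat_lit 228) (nat_lit 16747795074) (nat_lit 76) (nat_lit 159439213176) (nat_lit 30) (nat_lit 5) (nat_lit 33) (nat_lit 5) (nat_lit 31) (nat_lit 5) (nat_lit 355) (nat_lit 311) (nat_lit 114)) (XT.lf (nat_lit 0) (nat_lit 40390827316) (nat_lit 228) (nat_lit 121204624200) (nat_lit 76) (nat_lit 27944752968) (nat_lit 28) (nat_lit 5) (nat_lit 31) (nat_lit 5) (nat_lit 29) (nat_lit 5) (nat_lit 356) (nat_lit 311) (nat_lit 113))))))))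
noncomputable def xc229 : XT := (XT.nd (nat_lit 37518) (nat_lit 0) (nat_lit 2964) (XT.nd (nat_lit 780) (nat_lit 304) (nat_lit 0) (XT.nd (nat_lit 390) (nat_lit 228) (nat_lit 0) (XT.nd (nat_lit 156) (nat_lit 152) (nat_lit 0) (XT.nd (nat_lit 78) (nat_lit 152) (nat_lit 0) (XT.lf (nat_lit 0) (nat_lit 76311150450) (nat_lit 228) (nat_lit 38519508903) (nat_lit 76) (nat_lit 81532274648) (nat_lit 28) (nat_lit 5) (nat_lit 31) (nat_lit 5) (nat_lit 29) (nat_lit 5) (nat_lit 357) (nat_lit 311) (nat_lit 112)) (XT.lf (nat_lit 0) (nat_lit 49896334156) (nat_lit 152) (nat_lit 64909863715) (nat_lit 228) (nat_lit 88681666958) (nat_lit 26) (nat_lit 5) (nat_lit 28) (nat_lit 5) (nat_lit 29) (nat_lit 5) (nat_lit 358) (nat_lit 311) (nat_lit 111))) (XT.nd (nat_lit 78) (nat_lit 152) (nat_lit 0) (XT.lf (nat_lit 0) (nat_lit 144069765859) (nat_lit 152) (nat_lit 11808271750) (nat_lit 228) (nat_lit 55058402820) (nat_lit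 26) (nat_lit 5) (nat_lit 28) (nat_lit 5) (nat_lit 29) (nat_lit 5) (nat_lit 359) (nat_lit 311) (nat_lit 110)) (XT.nd (nat_lit 78) (nat_lit 76) (nat_lit 0) (XT.lf (nat_lit 0) (nat_lit 24285038400) (nat_lit 76) (nat_lit 175783451069) (nat_lit 152) (nat_lit 18635704551) (nat_lit 25) (nat_lit 5) (nat_lit 26) (nat_lit 5) (nat_lit 27) (nat_lit 4) (nat_lit 360) (nat_lit 311) (nat_lit 109)) (XT.lf (nat_lit 0) (nat_lit 20324814386) (nat_lit 152) (nat_lit 105006700631) (nat_lit 76) (nat_lit 101446300162) (nat_lit 24) (nat_lit 5) (nat_lit 26) (nat_lit 5) (nat_lit 25) (nat_lit 5) (nat_lit 361) (nat_lit 311) (nat_lit 108))))) (XT.nd (nat_lit 156) (nat_lit 76) (nat_lit 0) (XT.nd (nat_lit 78) (nat_lit 152) (nat_lit 0) (XT.lf (nat_lit 0) (nat_lit 60606797738) (nat_lit 152) (nat_lit 11429605261) (nat_lit 76) (nat_lit 163203453400) (nat_lit 24) (nat_lit 5) (nat_lit 26) (nat_lit 5) (nat_lit 25) (nat_lit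 5) (nat_lit 362) (nat_lit 311) (nat_lit 107)) (XT.lf (nat_lit 0) (nat_lit 89696744667) (nat_lit 152) (nat_lit 14606286809) (nat_lit 228) (nat_lit 139751960824) (nat_lit 22) (nat_lit 5) (nat_lit 24) (nat_lit 5) (nat_lit 25) (nat_lit 5) (nat_lit 363) (nat_lit 311) (nat_lit 106))) (XT.nd (nat_lit 78) (nat_lit 76) (nat_lit 0) (XT.lf (nat_lit 0) (nat_lit 151093984648) (nat_lit 228) (nat_lit 57742049090) (nat_lit 76) (nat_lit 44429356040) (nat_lit 22) (nat_lit 5) (nat_lit 25) (nat_lit 5) (nat_lit 23) (nat_lit 4) (nat_lit 364) (nat_lit 311) (nat_lit 105)) (XT.nd (nat_lit 78) (nat_lit 0) (nat_lit 0) (XT.lf (nat_lit 0) (nat_lit 44902226471) (nat_lit 76) (nat_lit 156262504874) (nat_lit 152) (nat_lit 61724563654) (nat_lit 21) (nat_lit 5) (nat_lit 22) (nat_lit 5) (nat_lit 23) (nat_lit 4) (nat_lit 365) (nat_lit 311) (nat_lit 104)) (XT.lf (nat_lit 0) (nat_lit 154682959172) (nat_lit 76) (nat_lit 100033699933)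 (nat_lit 152) (nat_lit 18228854345) (nat_lit 21) (nat_lit 5) (nat_lit 22) (nat_lit 5) (nat_lit 23) (nat_lit 4) (nat_lit 366) (nat_lit 311) (nat_lit 103)))))) (XT.nd (nat_lit 390) (nat_lit 0) (nat_lit 0) (XT.nd (nat_lit 156) (nat_lit 76) (nat_lit 0) (XT.nd (nat_lit 78) (nat_lit 152) (nat_lit 0) (XT.lf (nat_lit 0) (nat_lit 26563098471) (nat_lit 152) (nat_lit 13980672953) (nat_lit 76) (nat_lit 242939361399) (nat_lit 20) (nat_lit 5) (nat_lit 22) (nat_lit 5) (nat_lit 21) (nat_lit 5) (nat_lit 367) (nat_lit 311) (nat_lit 102)) (XT.lf (nat_lit 0) (nat_lit 74889871409) (nat_lit 228) (nat_lit 196463886748) (nat_lit 76) (nat_lit 23083541879) (nat_lit 18) (nat_lit 5) (nat_lit 21) (nat_lit 5) (nat_lit 19) (nat_lit 4) (nat_lit 368) (nat_lit 311) (nat_lit 101))) (XT.nd (nat_lit 78) (nat_lit 76) (nat_lit 0) (XT.lf (nat_lit 0) (nat_lit 126538061205) (nat_lit 228) (nat_lit 90585689360) (nat_lit 76) (nat_lit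 88770171263) (nat_lit 18) (nat_lit 5) (nat_lit 21) (nat_lit 5) (nat_lit 19) (nat_lit 4) (nat_lit 369) (nat_lit 311) (nat_lit 100)) (XT.nd (nat_lit 78) (nat_lit 0) (nat_lit 0) (XT.lf (nat_lit 0) (nat_lit 21266704291) (nat_lit 76) (nat_lit 159833775045) (nat_lit 152) (nat_lit 136806304553) (nat_lit 17) (nat_lit 5) (nat_lit 18) (nat_lit 5) (nat_lit 19) (nat_lit 4) (nat_lit 370) (nat_lit 311) (nat_lit 99)) (XT.lf (nat_lit 0) (nat_lit 141856273401) (nat_lit 76) (nat_lit 98068647785) (nat_lit 152) (nat_lit 90518672841) (nat_lit 17) (nat_lit 5) (nat_lit 18) (nat_lit 5) (nat_lit 19) (nat_lit 4) (nat_lit 371) (nat_lit 311) (nat_lit 98))))) (XT.nd (nat_lit 36114) (nat_lit 0) (nat_lit 5852) (XT.nd (nat_lit 35958) (nat_lit 0) (nat_lit 5852) (XT.lf (nat_lit 0) (nat_lit 268474964004) (nat_lit 76) (nat_lit 33215421441) (nat_lit 152) (nat_lit 41916869322) (nat_lit 17) (nat_lit 5) (nat_lit 18) (nat_lit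 5) (nat_lit 19) (nat_lit 4) (nat_lit 372) (nat_lit 311) (nat_lit 97)) (XT.nd (nat_lit 78) (nat_lit 0) (nat_lit 0) (XT.lf (nat_lit 0) (nat_lit 11656091736) (nat_lit 0) (nat_lit 11656091736) (nat_lit 684) (nat_lit 2517333148) (nat_lit 94) (nat_lit 5) (nat_lit 94) (nat_lit 3) (nat_lit 103) (nat_lit 3) (nat_lit 312) (nat_lit 312) (nat_lit 156)) (XT.lf (nat_lit 0) (nat_lit 47820372950) (nat_lit 684) (nat_lit 4672941772) (nat_lit 760) (nat_lit 455633567) (nat_lit 94) (nat_lit 5) (nat_lit 103) (nat_lit 3) (nat_lit 104) (nat_lit 5) (nat_lit 313) (nat_lit 312) (nat_lit 155)))) (XT.nd (nat_lit 78) (nat_lit 0) (nat_lit 0) (XT.lf (nat_lit 76) (nat_lit 20456401708) (nat_lit 0) (nat_lit 29319862412) (nat_lit 760) (nat_lit 4492093346) (nat_lit 95) (nat_lit 5) (nat_lit 94) (nat_lit 5) (nat_lit 104) (nat_lit 5) (nat_lit 314) (nat_lit 312) (nat_lit 154)) (XT.nd (nat_lit 78) (nat_lit 0) (nat_lit 76) (XT.lf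 (nat_lit 76) (nat_lit 47003634083) (nat_lit 0) (nat_lit 4904047485) (nat_lit 760) (nat_lit 3742171445) (nat_lit 95) (nat_lit 5) (nat_lit 94) (nat_lit 5) (nat_lit 104) (nat_lit 5) (nat_lit 315) (nat_lit 312) (nat_lit 153)) (XT.lf (nat_lit 76) (nat_lit 18030343190) (nat_lit 0) (nat_lit 36719193241) (nat_lit 760) (nat_lit 2320695955) (nat_lit 96) (nat_lit 5) (nat_lit 95) (nat_lit 5) (nat_lit 105) (nat_lit 5) (nat_lit 316) (nat_lit 312) (nat_lit 152))))))) (XT.nd (nat_lit 780) (nat_lit 1520) (nat_lit 0) (XT.nd (nat_lit 390) (nat_lit 760) (nat_lit 0) (XT.nd (nat_lit 156) (nat_lit 0) (nat_lit 0) (XT.nd (nat_lit 78) (nat_lit 684) (nat_lit 0) (XT.lf (nat_lit 76) (nat_lit 46257020140) (nat_lit 0) (nat_lit 11700708654) (nat_lit 760) (nat_lit 592691961) (nat_lit 96) (nat_lit 5) (nat_lit 95) (nat_lit 5) (nat_lit 105) (nat_lit 5) (nat_lit 317) (nat_lit 312) (nat_lit 151)) (XT.lf (nat_lit 0) (nat_lit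 1667677950) (nat_lit 760) (nat_lit 44031017266) (nat_lit 836) (nat_lit 14380718254) (nat_lit 86) (nat_lit 5) (nat_lit 96) (nat_lit 5) (nat_lit 97) (nat_lit 5) (nat_lit 318) (nat_lit 312) (nat_lit 150))) (XT.nd (nat_lit 78) (nat_lit 0) (nat_lit 76) (XT.lf (nat_lit 0) (nat_lit 4423380803) (nat_lit 760) (nat_lit 15646203469) (nat_lit 836) (nat_lit 41594676053) (nat_lit 86) (nat_lit 5) (nat_lit 96) (nat_lit 5) (nat_lit 97) (nat_lit 5) (nat_lit 319) (nat_lit 312) (nat_lit 149)) (XT.nd (nat_lit 78) (nat_lit 0) (nat_lit 0) (XT.lf (nat_lit 0) (nat_lit 7654628858) (nat_lit 760) (nat_lit 48802452875) (nat_lit 836) (nat_lit 6854381650) (nat_lit 87) (nat_lit 5) (nat_lit 97) (nat_lit 5) (nat_lit 98) (nat_lit 5) (nat_lit 320) (nat_lit 312) (nat_lit 148)) (XT.lf (nat_lit 0) (nat_lit 11644680441) (nat_lit 760) (nat_lit 18646844341) (nat_lit 836) (nat_lit 34719641528) (nat_lit 87) (nat_lit 5) (nat_lit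 97) (nat_lit 5) (nat_lit 98) (nat_lit 5) (nat_lit 321) (nat_lit 312) (nat_lit 147))))) (XT.nd (nat_lit 156) (nat_lit 836) (nat_lit 0) (XT.nd (nat_lit 78) (nat_lit 0) (nat_lit 76) (XT.lf (nat_lit 76) (nat_lit 13446045730) (nat_lit 0) (nat_lit 2597082809) (nat_lit 836) (nat_lit 50742282838) (nat_lit 88) (nat_lit 5) (nat_lit 87) (nat_lit 5) (nat_lit 98) (nat_lit 5) (nat_lit 322) (nat_lit 312) (nat_lit 146)) (XT.lf (nat_lit 0) (nat_lit 21394930965) (nat_lit 760) (nat_lit 21261155441) (nat_lit 76) (nat_lit 25955612304) (nat_lit 88) (nat_lit 5) (nat_lit 98) (nat_lit 5) (nat_lit 89) (nat_lit 5) (nat_lit 323) (nat_lit 312) (nat_lit 145))) (XT.nd (nat_lit 78) (nat_lit 380) (nat_lit 0) (XT.lf (nat_lit 0) (nat_lit 12786793487) (nat_lit 532) (nat_lit 14468792498) (nat_lit 608) (nat_lit 43261652834) (nat_lit 81) (nat_lit 5) (nat_lit 88) (nat_lit 5) (nat_lit 89) (nat_lit 5) (nat_lit 324) (nat_lit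 312) (nat_lit 144)) (XT.nd (nat_lit 78) (nat_lit 380) (nat_lit 0) (XT.lf (nat_lit 0) (nat_lit 34010515870) (nat_lit 608) (nat_lit 23467753225) (nat_lit 76) (nat_lit 15009726191) (nat_lit 81) (nat_lit 5) (nat_lit 89) (nat_lit 5) (nat_lit 82) (nat_lit 5) (nat_lit 325) (nat_lit 312) (nat_lit 143)) (XT.lf (nat_lit 0) (nat_lit 12675736494) (nat_lit 380) (nat_lit 28861679529) (nat_lit 456) (nat_lit 32998163754) (nat_lit 76) (nat_lit 5) (nat_lit 81) (nat_lit 5) (nat_lit 82) (nat_lit 5) (nat_lit 326) (nat_lit 312) (nat_lit 142)))))) (XT.nd (nat_lit 390) (nat_lit 836) (nat_lit 0) (XT.nd (nat_lit 156) (nat_lit 380) (nat_lit 0) (XT.nd (nat_lit 78) (nat_lit 304) (nat_lit 0) (XT.lf (nat_lit 0) (nat_lit 49862282489) (nat_lit 456) (nat_lit 25250428092) (nat_lit 76) (nat_lit 1551753171) (nat_lit 76) (nat_lit 5) (nat_lit 82) (nat_lit 5) (nat_lit 77) (nat_lit 5) (nat_lit 327) (nat_lit 312) (nat_lit 141))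 (XT.lf (nat_lit 0) (nat_lit 13135912031) (nat_lit 304) (nat_lit 46144906607) (nat_lit 380) (nat_lit 19585103231) (nat_lit 72) (nat_lit 5) (nat_lit 76) (nat_lit 5) (nat_lit 77) (nat_lit 5) (nat_lit 328) (nat_lit 312) (nat_lit 140))) (XT.nd (nat_lit 78) (nat_lit 380) (nat_lit 0) (XT.lf (nat_lit 0) (nat_lit 54317385714) (nat_lit 304) (nat_lit 15279745252) (nat_lit 380) (nat_lit 11558980658) (nat_lit 72) (nat_lit 5) (nat_lit 76) (nat_lit 5) (nat_lit 77) (nat_lit 5) (nat_lit 329) (nat_lit 312) (nat_lit 139)) (XT.nd (nat_lit 78) (nat_lit 76) (nat_lit 0) (XT.lf (nat_lit 0) (nat_lit 14182814456) (nat_lit 304) (nat_lit 66734562149) (nat_lit 380) (nat_lit 2619029518) (nat_lit 68) (nat_lit 5) (nat_lit 72) (nat_lit 5) (nat_lit 73) (nat_lit 5) (nat_lit 330) (nat_lit 312) (nat_lit 138)) (XT.lf (nat_lit 0) (nat_lit 7263036710) (nat_lit 380) (nat_lit 28190214099) (nat_lit 76) (nat_lit 50541595607) (nat_lit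 67) (nat_lit 5) (nat_lit 72) (nat_lit 5) (nat_lit 68) (nat_lit 5) (nat_lit 331) (nat_lit 312) (nat_lit 137))))) (XT.nd (nat_lit 234) (nat_lit 228) (nat_lit 0) (XT.nd (nat_lit 78) (nat_lit 304) (nat_lit 0) (XT.lf (nat_lit 0) (nat_lit 15483163142) (nat_lit 304) (nat_lit 2309064508) (nat_lit 380) (nat_lit 70769783418) (nat_lit 63) (nat_lit 5) (nat_lit 67) (nat_lit 5) (nat_lit 68) (nat_lit 5) (nat_lit 332) (nat_lit 312) (nat_lit 136)) (XT.nd (nat_lit 78) (nat_lit 304) (nat_lit 0) (XT.lf (nat_lit 0) (nat_lit 29839737717) (nat_lit 380) (nat_lit 29430688798) (nat_lit 76) (nat_lit 31937515398) (nat_lit 63) (nat_lit 5) (nat_lit 68) (nat_lit 5) (nat_lit 64) (nat_lit 5) (nat_lit 333) (nat_lit 312) (nat_lit 135)) (XT.lf (nat_lit 0) (nat_lit 16902227712) (nat_lit 304) (nat_lit 25888494368) (nat_lit 380) (nat_lit 51180393178) (nat_lit 59) (nat_lit 5) (nat_lit 63) (nat_lit 5) (nat_lit 64) (nat_lit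 5) (nat_lit 334) (nat_lit 312) (nat_lit 134)))) (XT.nd (nat_lit 78) (nat_lit 228) (nat_lit 0) (XT.lf (nat_lit 0) (nat_lit 57038273229) (nat_lit 380) (nat_lit 30425984243) (nat_lit 76) (nat_lit 9375739773) (nat_lit 59) (nat_lit 5) (nat_lit 64) (nat_lit 5) (nat_lit 60) (nat_lit 5) (nat_lit 335) (nat_lit 312) (nat_lit 133)) (XT.nd (nat_lit 78) (nat_lit 0) (nat_lit 0) (XT.lf (nat_lit 0) (nat_lit 18723167123) (nat_lit 228) (nat_lit 53991158328) (nat_lit 304) (nat_lit 27102192516) (nat_lit 56) (nat_lit 5) (nat_lit 59) (nat_lit 5) (nat_lit 60) (nat_lit 5) (nat_lit 336) (nat_lit 312) (nat_lit 132)) (XT.lf (nat_lit 0) (nat_lit 71385355856) (nat_lit 228) (nat_lit 18303521006) (nat_lit 304) (nat_lit 13227253809) (nat_lit 56) (nat_lit 5) (nat_lit 59) (nat_lit 5) (nat_lit 60) (nat_lit 5) (nat_lit 337) (nat_lit 312) (nat_lit 131))))))))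
noncomputable def xc230 : XT := (XT.nd (nat_lit 1560) (nat_lit 836) (nat_lit 0) (XT.nd (nat_lit 780) (nat_lit 912) (nat_lit 0) (XT.nd (nat_lit 390) (nat_lit 456) (nat_lit 0) (XT.nd (nat_lit 156) (nat_lit 456) (nat_lit 0) (XT.nd (nat_lit 78) (nat_lit 0) (nat_lit 0) (XT.lf (nat_lit 0) (nat_lit 1933421287) (nat_lit 304) (nat_lit 85292519838) (nat_lit 76) (nat_lit 18911990228) (nat_lit 52) (nat_lit 5) (nat_lit 56) (nat_lit 5) (nat_lit 53) (nat_lit 5) (nat_lit 338) (nat_lit 312) (nat_lit 130)) (XT.lf (nat_lit 0) (nat_lit 18249857112) (nat_lit 304) (nat_lit 33085429543) (nat_lit 76) (nat_lit 58132581601) (nat_lit 52) (nat_lit 5) (nat_lit 56) (nat_lit 5) (nat_lit 53) (nat_lit 5) (nat_lit 339) (nat_lit 312) (nat_lit 129))) (XT.nd (nat_lit 78) (nat_lit 228) (nat_lit 0) (XT.lf (nat_lit 0) (nat_lit 22449846243) (nat_lit 228) (nat_lit 13282248615) (nat_lit 304) (nat_lit 77214708777) (nat_lit 49)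 (nat_lit 5) (nat_lit 52) (nat_lit 5) (nat_lit 53) (nat_lit 5) (nat_lit 340) (nat_lit 312) (nat_lit 128)) (XT.nd (nat_lit 78) (nat_lit 228) (nat_lit 0) (XT.lf (nat_lit 0) (nat_lit 55073881403) (nat_lit 304) (nat_lit 35087481620) (nat_lit 76) (nat_lit 26389051518) (nat_lit 49) (nat_lit 5) (nat_lit 53) (nat_lit 5) (nat_lit 50) (nat_lit 5) (nat_lit 341) (nat_lit 312) (nat_lit 127)) (XT.lf (nat_lit 0) (nat_lit 23630363220) (nat_lit 228) (nat_lit 52338582928) (nat_lit 304) (nat_lit 44335950979) (nat_lit 46) (nat_lit 5) (nat_lit 49) (nat_lit 5) (nat_lit 50) (nat_lit 5) (nat_lit 342) (nat_lit 312) (nat_lit 126))))) (XT.nd (nat_lit 156) (nat_lit 304) (nat_lit 0) (XT.nd (nat_lit 78) (nat_lit 152) (nat_lit 0) (XT.lf (nat_lit 0) (nat_lit 86501587303) (nat_lit 228) (nat_lit 12000924021) (nat_lit 304) (nat_lit 25714905711) (nat_lit 46) (nat_lit 5) (nat_lit 49) (nat_lit 5) (nat_lit 50) (nat_lit 5)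 (nat_lit 343) (nat_lit 312) (nat_lit 125)) (XT.lf (nat_lit 0) (nat_lit 24500411300) (nat_lit 152) (nat_lit 98518312076) (nat_lit 228) (nat_lit 5264041653) (nat_lit 44) (nat_lit 5) (nat_lit 46) (nat_lit 5) (nat_lit 47) (nat_lit 5) (nat_lit 344) (nat_lit 312) (nat_lit 124))) (XT.nd (nat_lit 78) (nat_lit 228) (nat_lit 0) (XT.lf (nat_lit 0) (nat_lit 16536055369) (nat_lit 228) (nat_lit 41843516254) (nat_lit 76) (nat_lit 74116881059) (nat_lit 43) (nat_lit 5) (nat_lit 46) (nat_lit 5) (nat_lit 44) (nat_lit 5) (nat_lit 345) (nat_lit 312) (nat_lit 123)) (XT.nd (nat_lit 78) (nat_lit 0) (nat_lit 0) (XT.lf (nat_lit 0) (nat_lit 23869301385) (nat_lit 228) (nat_lit 15752185111) (nat_lit 304) (nat_lit 97276412108) (nat_lit 40) (nat_lit 5) (nat_lit 43) (nat_lit 5) (nat_lit 44) (nat_lit 5) (nat_lit 346) (nat_lit 312) (nat_lit 122)) (XT.lf (nat_lit 0) (nat_lit 65033896826) (nat_lit 304) (nat_lit 47628644160)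 (nat_lit 76) (nat_lit 28798240886) (nat_lit 40) (nat_lit 5) (nat_lit 44) (nat_lit 5) (nat_lit 41) (nat_lit 5) (nat_lit 347) (nat_lit 312) (nat_lit 121)))))) (XT.nd (nat_lit 390) (nat_lit 380) (nat_lit 0) (XT.nd (nat_lit 156) (nat_lit 380) (nat_lit 0) (XT.nd (nat_lit 78) (nat_lit 0) (nat_lit 0) (XT.lf (nat_lit 0) (nat_lit 21469625889) (nat_lit 152) (nat_lit 70840332056) (nat_lit 228) (nat_lit 53912200253) (nat_lit 38) (nat_lit 5) (nat_lit 40) (nat_lit 5) (nat_lit 41) (nat_lit 5) (nat_lit 348) (nat_lit 312) (nat_lit 120)) (XT.lf (nat_lit 0) (nat_lit 95675768032) (nat_lit 152) (nat_lit 26080274758) (nat_lit 228) (nat_lit 29425249909) (nat_lit 38) (nat_lit 5) (nat_lit 40) (nat_lit 5) (nat_lit 41) (nat_lit 5) (nat_lit 349) (nat_lit 312) (nat_lit 119))) (XT.nd (nat_lit 78) (nat_lit 228) (nat_lit 0) (XT.lf (nat_lit 0) (nat_lit 17434678880) (nat_lit 152) (nat_lit 135838164641) (nat_lit 228)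 (nat_lit 3085620194) (nat_lit 36) (nat_lit 5) (nat_lit 38) (nat_lit 5) (nat_lit 39) (nat_lit 5) (nat_lit 350) (nat_lit 312) (nat_lit 118)) (XT.nd (nat_lit 78) (nat_lit 152) (nat_lit 0) (XT.lf (nat_lit 0) (nat_lit 25167159063) (nat_lit 228) (nat_lit 66625742207) (nat_lit 76) (nat_lit 69913281588) (nat_lit 35) (nat_lit 5) (nat_lit 38) (nat_lit 5) (nat_lit 36) (nat_lit 5) (nat_lit 351) (nat_lit 312) (nat_lit 117)) (XT.lf (nat_lit 0) (nat_lit 9541441382) (nat_lit 152) (nat_lit 45336050102) (nat_lit 228) (nat_lit 112433837033) (nat_lit 33) (nat_lit 5) (nat_lit 35) (nat_lit 5) (nat_lit 36) (nat_lit 5) (nat_lit 352) (nat_lit 312) (nat_lit 116))))) (XT.nd (nat_lit 156) (nat_lit 380) (nat_lit 0) (XT.nd (nat_lit 78) (nat_lit 0) (nat_lit 0) (XT.lf (nat_lit 0) (nat_lit 87273589806) (nat_lit 228) (nat_lit 81383065741) (nat_lit 76) (nat_lit 4480063755) (nat_lit 33) (nat_lit 5) (nat_lit 36) (nat_lit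 5) (nat_lit 34) (nat_lit 5) (nat_lit 353) (nat_lit 312) (nat_lit 115)) (XT.lf (nat_lit 0) (nat_lit 122032371555) (nat_lit 228) (nat_lit 1920658569) (nat_lit 76) (nat_lit 55263205870) (nat_lit 33) (nat_lit 5) (nat_lit 36) (nat_lit 5) (nat_lit 34) (nat_lit 5) (nat_lit 354) (nat_lit 312) (nat_lit 114))) (XT.nd (nat_lit 78) (nat_lit 228) (nat_lit 0) (XT.lf (nat_lit 0) (nat_lit 84209586038) (nat_lit 152) (nat_lit 75633934537) (nat_lit 228) (nat_lit 25690486812) (nat_lit 31) (nat_lit 5) (nat_lit 33) (nat_lit 5) (nat_lit 34) (nat_lit 5) (nat_lit 355) (nat_lit 312) (nat_lit 113)) (XT.nd (nat_lit 78) (nat_lit 152) (nat_lit 0) (XT.lf (nat_lit 0) (nat_lit 7174174694) (nat_lit 228) (nat_lit 17569252811) (nat_lit 76) (nat_lit 167416843729) (nat_lit 30) (nat_lit 5) (nat_lit 33) (nat_lit 5) (nat_lit 31) (nat_lit 5) (nat_lit 356) (nat_lit 312) (nat_lit 112)) (XT.lf (nat_lit 0) (nat_lit 42420010127)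 (nat_lit 228) (nat_lit 127248791388) (nat_lit 76) (nat_lit 29347923740) (nat_lit 28) (nat_lit 5) (nat_lit 31) (nat_lit 5) (nat_lit 29) (nat_lit 5) (nat_lit 357) (nat_lit 312) (nat_lit 111))))))) (XT.nd (nat_lit 780) (nat_lit 304) (nat_lit 0) (XT.nd (nat_lit 390) (nat_lit 228) (nat_lit 0) (XT.nd (nat_lit 156) (nat_lit 152) (nat_lit 0) (XT.nd (nat_lit 78) (nat_lit 152) (nat_lit 0) (XT.lf (nat_lit 0) (nat_lit 80135890302) (nat_lit 228) (nat_lit 40430185280) (nat_lit 76) (nat_lit 85614538974) (nat_lit 28) (nat_lit 5) (nat_lit 31) (nat_lit 5) (nat_lit 29) (nat_lit 5) (nat_lit 358) (nat_lit 312) (nat_lit 110)) (XT.lf (nat_lit 0) (nat_lit 52406203173) (nat_lit 152) (nat_lit 68149284676) (nat_lit 228) (nat_lit 93106314523) (nat_lit 26) (nat_lit 5) (nat_lit 28) (nat_lit 5) (nat_lit 29) (nat_lit 5) (nat_lit 359) (nat_lit 312) (nat_lit 109))) (XT.nd (nat_lit 78) (nat_lit 152) (nat_lit 0) (XT.lf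 (nat_lit 0) (nat_lit 151287589684) (nat_lit 152) (nat_lit 12392902266) (nat_lit 228) (nat_lit 57802336501) (nat_lit 26) (nat_lit 5) (nat_lit 28) (nat_lit 5) (nat_lit 29) (nat_lit 5) (nat_lit 360) (nat_lit 312) (nat_lit 108)) (XT.nd (nat_lit 78) (nat_lit 76) (nat_lit 0) (XT.lf (nat_lit 0) (nat_lit 25513732799) (nat_lit 76) (nat_lit 184566637822) (nat_lit 152) (nat_lit 19558604194) (nat_lit 25) (nat_lit 5) (nat_lit 26) (nat_lit 5) (nat_lit 27) (nat_lit 4) (nat_lit 361) (nat_lit 312) (nat_lit 107)) (XT.lf (nat_lit 0) (nat_lit 21349246715) (nat_lit 152) (nat_lit 110243004562) (nat_lit 76) (nat_lit 106524039573) (nat_lit 24) (nat_lit 5) (nat_lit 26) (nat_lit 5) (nat_lit 25) (nat_lit 5) (nat_lit 362) (nat_lit 312) (nat_lit 106))))) (XT.nd (nat_lit 156) (nat_lit 76) (nat_lit 0) (XT.nd (nat_lit 78) (nat_lit 152) (nat_lit 0) (XT.lf (nat_lit 0) (nat_lit 63644939159) (nat_lit 152) (nat_lit 11987722571)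 (nat_lit 76) (nat_lit 171368792168) (nat_lit 24) (nat_lit 5) (nat_lit 26) (nat_lit 5) (nat_lit 25) (nat_lit 5) (nat_lit 363) (nat_lit 312) (nat_lit 105)) (XT.lf (nat_lit 0) (nat_lit 94194729322) (nat_lit 152) (nat_lit 15331089028) (nat_lit 228) (nat_lit 146731536805) (nat_lit 22) (nat_lit 5) (nat_lit 24) (nat_lit 5) (nat_lit 25) (nat_lit 5) (nat_lit 364) (nat_lit 312) (nat_lit 104))) (XT.nd (nat_lit 78) (nat_lit 76) (nat_lit 0) (XT.lf (nat_lit 0) (nat_lit 158656037556) (nat_lit 228) (nat_lit 60616343809) (nat_lit 76) (nat_lit 46655905460) (nat_lit 22) (nat_lit 5) (nat_lit 25) (nat_lit 5) (nat_lit 23) (nat_lit 4) (nat_lit 365) (nat_lit 312) (nat_lit 103)) (XT.nd (nat_lit 78) (nat_lit 0) (nat_lit 0) (XT.lf (nat_lit 0) (nat_lit 47159938954) (nat_lit 76) (nat_lit 164070229198) (nat_lit 152) (nat_lit 64803227054) (nat_lit 21) (nat_lit 5) (nat_lit 22) (nat_lit 5) (nat_lit 23) (nat_lit 4) (nat_lit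 366) (nat_lit 312) (nat_lit 102)) (XT.lf (nat_lit 0) (nat_lit 162429108235) (nat_lit 76) (nat_lit 105030241197) (nat_lit 152) (nat_lit 19133092507) (nat_lit 21) (nat_lit 5) (nat_lit 22) (nat_lit 5) (nat_lit 23) (nat_lit 4) (nat_lit 367) (nat_lit 312) (nat_lit 101)))))) (XT.nd (nat_lit 36426) (nat_lit 0) (nat_lit 5244) (XT.nd (nat_lit 156) (nat_lit 76) (nat_lit 0) (XT.nd (nat_lit 78) (nat_lit 152) (nat_lit 0) (XT.lf (nat_lit 0) (nat_lit 27897895266) (nat_lit 152) (nat_lit 14668053453) (nat_lit 76) (nat_lit 255091004737) (nat_lit 20) (nat_lit 5) (nat_lit 22) (nat_lit 5) (nat_lit 21) (nat_lit 5) (nat_lit 368) (nat_lit 312) (nat_lit 100)) (XT.lf (nat_lit 0) (nat_lit 78640947024) (nat_lit 228) (nat_lit 206275364383) (nat_lit 76) (nat_lit 24242520801) (nat_lit 18) (nat_lit 5) (nat_lit 21) (nat_lit 5) (nat_lit 19) (nat_lit 4) (nat_lit 369) (nat_lit 312) (nat_lit 99))) (XT.nd (nat_lit 78) (nat_lit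 76) (nat_lit 0) (XT.lf (nat_lit 0) (nat_lit 132871232879) (nat_lit 228) (nat_lit 95103815064) (nat_lit 76) (nat_lit 93213252996) (nat_lit 18) (nat_lit 5) (nat_lit 21) (nat_lit 5) (nat_lit 19) (nat_lit 4) (nat_lit 370) (nat_lit 312) (nat_lit 98)) (XT.nd (nat_lit 36114) (nat_lit 0) (nat_lit 5852) (XT.lf (nat_lit 0) (nat_lit 22341018290) (nat_lit 76) (nat_lit 167820626531) (nat_lit 152) (nat_lit 143640167806) (nat_lit 17) (nat_lit 5) (nat_lit 18) (nat_lit 5) (nat_lit 19) (nat_lit 4) (nat_lit 371) (nat_lit 312) (nat_lit 97)) (XT.lf (nat_lit 0) (nat_lit 12250240353) (nat_lit 0) (nat_lit 12250240353) (nat_lit 684) (nat_lit 2619337039) (nat_lit 94) (nat_lit 5) (nat_lit 94) (nat_lit 3) (nat_lit 103) (nat_lit 3) (nat_lit 313) (nat_lit 313) (nat_lit 154))))) (XT.nd (nat_lit 234) (nat_lit 608) (nat_lit 0) (XT.nd (nat_lit 78) (nat_lit 0) (nat_lit 0) (XT.lf (nat_lit 0) (nat_lit 50254269595) (nat_lit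 684) (nat_lit 4882406292) (nat_lit 760) (nat_lit 457499150) (nat_lit 94) (nat_lit 5) (nat_lit 103) (nat_lit 3) (nat_lit 104) (nat_lit 5) (nat_lit 314) (nat_lit 313) (nat_lit 153)) (XT.nd (nat_lit 78) (nat_lit 0) (nat_lit 0) (XT.lf (nat_lit 76) (nat_lit 21503014320) (nat_lit 0) (nat_lit 30803270662) (nat_lit 760) (nat_lit 4673356863) (nat_lit 95) (nat_lit 5) (nat_lit 94) (nat_lit 5) (nat_lit 104) (nat_lit 5) (nat_lit 315) (nat_lit 313) (nat_lit 152)) (XT.lf (nat_lit 76) (nat_lit 49376475336) (nat_lit 0) (nat_lit 5165835697) (nat_lit 760) (nat_lit 3888002731) (nat_lit 95) (nat_lit 5) (nat_lit 94) (nat_lit 5) (nat_lit 104) (nat_lit 5) (nat_lit 316) (nat_lit 313) (nat_lit 151)))) (XT.nd (nat_lit 78) (nat_lit 684) (nat_lit 0) (XT.lf (nat_lit 76) (nat_lit 18956408324) (nat_lit 0) (nat_lit 38568118130) (nat_lit 760) (nat_lit 2397275578) (nat_lit 96) (nat_lit 5) (nat_lit 95) (nat_lit 5) (nat_lit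 105) (nat_lit 5) (nat_lit 317) (nat_lit 313) (nat_lit 150)) (XT.nd (nat_lit 78) (nat_lit 684) (nat_lit 0) (XT.lf (nat_lit 76) (nat_lit 48593250171) (nat_lit 0) (nat_lit 12298091921) (nat_lit 760) (nat_lit 584750201) (nat_lit 96) (nat_lit 5) (nat_lit 95) (nat_lit 5) (nat_lit 105) (nat_lit 5) (nat_lit 318) (nat_lit 313) (nat_lit 149)) (XT.lf (nat_lit 0) (nat_lit 1785913731) (nat_lit 760) (nat_lit 46206347198) (nat_lit 836) (nat_lit 15089323337) (nat_lit 86) (nat_lit 5) (nat_lit 96) (nat_lit 5) (nat_lit 97) (nat_lit 5) (nat_lit 319) (nat_lit 313) (nat_lit 148))))))))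
noncomputable def xc231 : XT := (XT.nd (nat_lit 1638) (nat_lit 1976) (nat_lit 0) (XT.nd (nat_lit 780) (nat_lit 1520) (nat_lit 0) (XT.nd (nat_lit 390) (nat_lit 1064) (nat_lit 0) (XT.nd (nat_lit 156) (nat_lit 0) (nat_lit 76) (XT.nd (nat_lit 78) (nat_lit 0) (nat_lit 76) (XT.lf (nat_lit 0) (nat_lit 4677742113) (nat_lit 760) (nat_lit 16403541326) (nat_lit 836) (nat_lit 43664475732) (nat_lit 86) (nat_lit 5) (nat_lit 96) (nat_lit 5) (nat_lit 97) (nat_lit 5) (nat_lit 320) (nat_lit 313) (nat_lit 147)) (XT.lf (nat_lit 0) (nat_lit 8069239649) (nat_lit 760) (nat_lit 51216238321) (nat_lit 836) (nat_lit 7189912655) (nat_lit 87) (nat_lit 5) (nat_lit 97) (nat_lit 5) (nat_lit 98) (nat_lit 5) (nat_lit 321) (nat_lit 313) (nat_lit 146))) (XT.nd (nat_lit 78) (nat_lit 0) (nat_lit 0) (XT.lf (nat_lit 0) (nat_lit 12257275747) (nat_lit 760) (nat_lit 19554103513) (nat_lit 836) (nat_lit 36448777817) (nat_lit 87)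 (nat_lit 5) (nat_lit 97) (nat_lit 5) (nat_lit 98) (nat_lit 5) (nat_lit 322) (nat_lit 313) (nat_lit 145)) (XT.nd (nat_lit 78) (nat_lit 0) (nat_lit 76) (XT.lf (nat_lit 76) (nat_lit 14143026497) (nat_lit 0) (nat_lit 2731559278) (nat_lit 836) (nat_lit 53248584002) (nat_lit 88) (nat_lit 5) (nat_lit 87) (nat_lit 5) (nat_lit 98) (nat_lit 5) (nat_lit 323) (nat_lit 313) (nat_lit 144)) (XT.lf (nat_lit 0) (nat_lit 22492514315) (nat_lit 760) (nat_lit 22299201007) (nat_lit 76) (nat_lit 27249131599) (nat_lit 88) (nat_lit 5) (nat_lit 98) (nat_lit 5) (nat_lit 89) (nat_lit 5) (nat_lit 324) (nat_lit 313) (nat_lit 143))))) (XT.nd (nat_lit 156) (nat_lit 684) (nat_lit 0) (XT.nd (nat_lit 78) (nat_lit 0) (nat_lit 0) (XT.lf (nat_lit 0) (nat_lit 13450741944) (nat_lit 532) (nat_lit 15194518791) (nat_lit 608) (nat_lit 45396452505) (nat_lit 81) (nat_lit 5) (nat_lit 88) (nat_lit 5) (nat_lit 89) (nat_lit 5) (nat_lit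 325) (nat_lit 313) (nat_lit 142)) (XT.lf (nat_lit 0) (nat_lit 35736622377) (nat_lit 608) (nat_lit 24616348502) (nat_lit 76) (nat_lit 15758104424) (nat_lit 81) (nat_lit 5) (nat_lit 89) (nat_lit 5) (nat_lit 82) (nat_lit 5) (nat_lit 326) (nat_lit 313) (nat_lit 141))) (XT.nd (nat_lit 78) (nat_lit 304) (nat_lit 0) (XT.lf (nat_lit 0) (nat_lit 13333915827) (nat_lit 380) (nat_lit 30305114418) (nat_lit 456) (nat_lit 34622052578) (nat_lit 76) (nat_lit 5) (nat_lit 81) (nat_lit 5) (nat_lit 82) (nat_lit 5) (nat_lit 327) (nat_lit 313) (nat_lit 140)) (XT.nd (nat_lit 78) (nat_lit 304) (nat_lit 0) (XT.lf (nat_lit 0) (nat_lit 52378956558) (nat_lit 456) (nat_lit 26488498135) (nat_lit 76) (nat_lit 1629017324) (nat_lit 76) (nat_lit 5) (nat_lit 82) (nat_lit 5) (nat_lit 77) (nat_lit 5) (nat_lit 328) (nat_lit 313) (nat_lit 139)) (XT.lf (nat_lit 0) (nat_lit 13816764618) (nat_lit 304) (nat_lit 48450908591) (nat_lit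 380) (nat_lit 20540368903) (nat_lit 72) (nat_lit 5) (nat_lit 76) (nat_lit 5) (nat_lit 77) (nat_lit 5) (nat_lit 329) (nat_lit 313) (nat_lit 138)))))) (XT.nd (nat_lit 390) (nat_lit 836) (nat_lit 0) (XT.nd (nat_lit 156) (nat_lit 380) (nat_lit 0) (XT.nd (nat_lit 78) (nat_lit 304) (nat_lit 0) (XT.lf (nat_lit 0) (nat_lit 57056166414) (nat_lit 304) (nat_lit 16042548375) (nat_lit 380) (nat_lit 12114082558) (nat_lit 72) (nat_lit 5) (nat_lit 76) (nat_lit 5) (nat_lit 77) (nat_lit 5) (nat_lit 330) (nat_lit 313) (nat_lit 137)) (XT.lf (nat_lit 0) (nat_lit 14915580660) (nat_lit 304) (nat_lit 70068743886) (nat_lit 380) (nat_lit 2727816029) (nat_lit 68) (nat_lit 5) (nat_lit 72) (nat_lit 5) (nat_lit 73) (nat_lit 5) (nat_lit 331) (nat_lit 313) (nat_lit 136))) (XT.nd (nat_lit 78) (nat_lit 304) (nat_lit 0) (XT.lf (nat_lit 0) (nat_lit 7646622400) (nat_lit 380) (nat_lit 29576519777) (nat_lit 76) (nat_lit 53070395934)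 (nat_lit 67) (nat_lit 5) (nat_lit 72) (nat_lit 5) (nat_lit 68) (nat_lit 5) (nat_lit 332) (nat_lit 313) (nat_lit 135)) (XT.nd (nat_lit 78) (nat_lit 0) (nat_lit 0) (XT.lf (nat_lit 0) (nat_lit 16280152051) (nat_lit 304) (nat_lit 2421504247) (nat_lit 380) (nat_lit 74287436904) (nat_lit 63) (nat_lit 5) (nat_lit 67) (nat_lit 5) (nat_lit 68) (nat_lit 5) (nat_lit 333) (nat_lit 313) (nat_lit 134)) (XT.lf (nat_lit 0) (nat_lit 31350642998) (nat_lit 380) (nat_lit 30879554551) (nat_lit 76) (nat_lit 33537169297) (nat_lit 63) (nat_lit 5) (nat_lit 68) (nat_lit 5) (nat_lit 64) (nat_lit 5) (nat_lit 334) (nat_lit 313) (nat_lit 133))))) (XT.nd (nat_lit 234) (nat_lit 304) (nat_lit 0) (XT.nd (nat_lit 78) (nat_lit 228) (nat_lit 0) (XT.lf (nat_lit 0) (nat_lit 17769642161) (nat_lit 304) (nat_lit 27178981756) (nat_lit 380) (nat_lit 53720103824) (nat_lit 59) (nat_lit 5) (nat_lit 63) (nat_lit 5) (nat_lit 64) (nat_lit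 5) (nat_lit 335) (nat_lit 313) (nat_lit 132)) (XT.nd (nat_lit 78) (nat_lit 228) (nat_lit 0) (XT.lf (nat_lit 0) (nat_lit 59907736609) (nat_lit 380) (nat_lit 31925202627) (nat_lit 76) (nat_lit 9848156581) (nat_lit 59) (nat_lit 5) (nat_lit 64) (nat_lit 5) (nat_lit 60) (nat_lit 5) (nat_lit 336) (nat_lit 313) (nat_lit 131)) (XT.lf (nat_lit 0) (nat_lit 19681050165) (nat_lit 228) (nat_lit 56686044760) (nat_lit 304) (nat_lit 28439373610) (nat_lit 56) (nat_lit 5) (nat_lit 59) (nat_lit 5) (nat_lit 60) (nat_lit 5) (nat_lit 337) (nat_lit 313) (nat_lit 130)))) (XT.nd (nat_lit 78) (nat_lit 304) (nat_lit 0) (XT.lf (nat_lit 0) (nat_lit 74975313826) (nat_lit 228) (nat_lit 19214248023) (nat_lit 304) (nat_lit 13871541707) (nat_lit 56) (nat_lit 5) (nat_lit 59) (nat_lit 5) (nat_lit 60) (nat_lit 5) (nat_lit 338) (nat_lit 313) (nat_lit 129)) (XT.nd (nat_lit 78) (nat_lit 0) (nat_lit 0) (XT.lf (nat_lit 0) (nat_lit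 2046235783) (nat_lit 304) (nat_lit 89535484148) (nat_lit 76) (nat_lit 19862281236) (nat_lit 52) (nat_lit 5) (nat_lit 56) (nat_lit 5) (nat_lit 53) (nat_lit 5) (nat_lit 339) (nat_lit 313) (nat_lit 128)) (XT.lf (nat_lit 0) (nat_lit 19177724664) (nat_lit 304) (nat_lit 34719070846) (nat_lit 76) (nat_lit 61043678773) (nat_lit 52) (nat_lit 5) (nat_lit 56) (nat_lit 5) (nat_lit 53) (nat_lit 5) (nat_lit 340) (nat_lit 313) (nat_lit 127))))))) (XT.nd (nat_lit 780) (nat_lit 912) (nat_lit 0) (XT.nd (nat_lit 390) (nat_lit 456) (nat_lit 0) (XT.nd (nat_lit 156) (nat_lit 380) (nat_lit 0) (XT.nd (nat_lit 78) (nat_lit 0) (nat_lit 0) (XT.lf (nat_lit 0) (nat_lit 23592635984) (nat_lit 228) (nat_lit 13941023084) (nat_lit 304) (nat_lit 81059719012) (nat_lit 49) (nat_lit 5) (nat_lit 52) (nat_lit 5) (nat_lit 53) (nat_lit 5) (nat_lit 341) (nat_lit 313) (nat_lit 126)) (XT.lf (nat_lit 0) (nat_lit 57841901957) (nat_lit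 304) (nat_lit 36821874916) (nat_lit 76) (nat_lit 27713425154) (nat_lit 49) (nat_lit 5) (nat_lit 53) (nat_lit 5) (nat_lit 50) (nat_lit 5) (nat_lit 342) (nat_lit 313) (nat_lit 125))) (XT.nd (nat_lit 78) (nat_lit 152) (nat_lit 0) (XT.lf (nat_lit 0) (nat_lit 24831539896) (nat_lit 228) (nat_lit 54949804756) (nat_lit 304) (nat_lit 46538083662) (nat_lit 46) (nat_lit 5) (nat_lit 49) (nat_lit 5) (nat_lit 50) (nat_lit 5) (nat_lit 343) (nat_lit 313) (nat_lit 124)) (XT.nd (nat_lit 78) (nat_lit 152) (nat_lit 0) (XT.lf (nat_lit 0) (nat_lit 90845389062) (nat_lit 228) (nat_lit 12595534680) (nat_lit 304) (nat_lit 26986684457) (nat_lit 46) (nat_lit 5) (nat_lit 49) (nat_lit 5) (nat_lit 50) (nat_lit 5) (nat_lit 344) (nat_lit 313) (nat_lit 123)) (XT.lf (nat_lit 0) (nat_lit 25744437513) (nat_lit 152) (nat_lit 103438253731) (nat_lit 228) (nat_lit 5513545838) (nat_lit 44) (nat_lit 5) (nat_lit 46) (nat_lit 5)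 (nat_lit 47) (nat_lit 5) (nat_lit 345) (nat_lit 313) (nat_lit 122))))) (XT.nd (nat_lit 156) (nat_lit 152) (nat_lit 0) (XT.nd (nat_lit 78) (nat_lit 228) (nat_lit 0) (XT.lf (nat_lit 0) (nat_lit 17375486214) (nat_lit 228) (nat_lit 43917160654) (nat_lit 76) (nat_lit 77827983791) (nat_lit 43) (nat_lit 5) (nat_lit 46) (nat_lit 5) (nat_lit 44) (nat_lit 5) (nat_lit 346) (nat_lit 313) (nat_lit 121)) (XT.lf (nat_lit 0) (nat_lit 25080998974) (nat_lit 228) (nat_lit 16533873247) (nat_lit 304) (nat_lit 102127293121) (nat_lit 40) (nat_lit 5) (nat_lit 43) (nat_lit 5) (nat_lit 44) (nat_lit 5) (nat_lit 347) (nat_lit 313) (nat_lit 120))) (XT.nd (nat_lit 78) (nat_lit 152) (nat_lit 0) (XT.lf (nat_lit 0) (nat_lit 68297404853) (nat_lit 304) (nat_lit 49992201827) (nat_lit 76) (nat_lit 30243611604) (nat_lit 40) (nat_lit 5) (nat_lit 44) (nat_lit 5) (nat_lit 41) (nat_lit 5) (nat_lit 348) (nat_lit 313) (nat_lit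 119)) (XT.nd (nat_lit 78) (nat_lit 0) (nat_lit 0) (XT.lf (nat_lit 0) (nat_lit 22560693426) (nat_lit 152) (nat_lit 74376287641) (nat_lit 228) (nat_lit 56595697331) (nat_lit 38) (nat_lit 5) (nat_lit 40) (nat_lit 5) (nat_lit 41) (nat_lit 5) (nat_lit 349) (nat_lit 313) (nat_lit 118)) (XT.lf (nat_lit 0) (nat_lit 100476305235) (nat_lit 152) (nat_lit 27378516098) (nat_lit 228) (nat_lit 30884976276) (nat_lit 38) (nat_lit 5) (nat_lit 40) (nat_lit 5) (nat_lit 41) (nat_lit 5) (nat_lit 350) (nat_lit 313) (nat_lit 117)))))) (XT.nd (nat_lit 390) (nat_lit 532) (nat_lit 0) (XT.nd (nat_lit 156) (nat_lit 152) (nat_lit 0) (XT.nd (nat_lit 78) (nat_lit 76) (nat_lit 0) (XT.lf (nat_lit 0) (nat_lit 18323353511) (nat_lit 152) (nat_lit 142623936227) (nat_lit 228) (nat_lit 3228546576) (nat_lit 36) (nat_lit 5) (nat_lit 38) (nat_lit 5) (nat_lit 39) (nat_lit 5) (nat_lit 351) (nat_lit 313) (nat_lit 116)) (XT.lf (nat_lit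 0) (nat_lit 26435984834) (nat_lit 228) (nat_lit 69940539797) (nat_lit 76) (nat_lit 73414434559) (nat_lit 35) (nat_lit 5) (nat_lit 38) (nat_lit 5) (nat_lit 36) (nat_lit 5) (nat_lit 352) (nat_lit 313) (nat_lit 115))) (XT.nd (nat_lit 78) (nat_lit 0) (nat_lit 0) (XT.lf (nat_lit 0) (nat_lit 10034737011) (nat_lit 152) (nat_lit 47596851693) (nat_lit 228) (nat_lit 118044786136) (nat_lit 33) (nat_lit 5) (nat_lit 35) (nat_lit 5) (nat_lit 36) (nat_lit 5) (nat_lit 353) (nat_lit 313) (nat_lit 114)) (XT.nd (nat_lit 78) (nat_lit 0) (nat_lit 0) (XT.lf (nat_lit 0) (nat_lit 91647094379) (nat_lit 228) (nat_lit 85436361912) (nat_lit 76) (nat_lit 4709599179) (nat_lit 33) (nat_lit 5) (nat_lit 36) (nat_lit 5) (nat_lit 34) (nat_lit 5) (nat_lit 354) (nat_lit 313) (nat_lit 113)) (XT.lf (nat_lit 0) (nat_lit 128143347354) (nat_lit 228) (nat_lit 2001589481) (nat_lit 76) (nat_lit 58031634960) (nat_lit 33) (nat_lit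 5) (nat_lit 36) (nat_lit 5) (nat_lit 34) (nat_lit 5) (nat_lit 355) (nat_lit 313) (nat_lit 112))))) (XT.nd (nat_lit 234) (nat_lit 152) (nat_lit 0) (XT.nd (nat_lit 78) (nat_lit 228) (nat_lit 0) (XT.lf (nat_lit 0) (nat_lit 88434923775) (nat_lit 152) (nat_lit 79409916450) (nat_lit 228) (nat_lit 26965402601) (nat_lit 31) (nat_lit 5) (nat_lit 33) (nat_lit 5) (nat_lit 34) (nat_lit 5) (nat_lit 356) (nat_lit 313) (nat_lit 111)) (XT.nd (nat_lit 78) (nat_lit 152) (nat_lit 0) (XT.lf (nat_lit 0) (nat_lit 7541741542) (nat_lit 228) (nat_lit 18433264643) (nat_lit 76) (nat_lit 175792828677) (nat_lit 30) (nat_lit 5) (nat_lit 33) (nat_lit 5) (nat_lit 31) (nat_lit 5) (nat_lit 357) (nat_lit 313) (nat_lit 110)) (XT.lf (nat_lit 0) (nat_lit 44549755709) (nat_lit 228) (nat_lit 133596660417) (nat_lit 76) (nat_lit 30820701444) (nat_lit 28) (nat_lit 5) (nat_lit 31) (nat_lit 5) (nat_lit 29) (nat_lit 5) (nat_lit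 358) (nat_lit 313) (nat_lit 109)))) (XT.nd (nat_lit 78) (nat_lit 152) (nat_lit 0) (XT.lf (nat_lit 0) (nat_lit 84151013460) (nat_lit 228) (nat_lit 42437817838) (nat_lit 76) (nat_lit 89900391178) (nat_lit 28) (nat_lit 5) (nat_lit 31) (nat_lit 5) (nat_lit 29) (nat_lit 5) (nat_lit 359) (nat_lit 313) (nat_lit 108)) (XT.nd (nat_lit 78) (nat_lit 0) (nat_lit 0) (XT.lf (nat_lit 0) (nat_lit 55040166219) (nat_lit 152) (nat_lit 71551241223) (nat_lit 228) (nat_lit 97753071716) (nat_lit 26) (nat_lit 5) (nat_lit 28) (nat_lit 5) (nat_lit 29) (nat_lit 5) (nat_lit 360) (nat_lit 313) (nat_lit 107)) (XT.lf (nat_lit 0) (nat_lit 158864971919) (nat_lit 152) (nat_lit 13007301963) (nat_lit 228) (nat_lit 60684302342) (nat_lit 26) (nat_lit 5) (nat_lit 28) (nat_lit 5) (nat_lit 29) (nat_lit 5) (nat_lit 361) (nat_lit 313) (nat_lit 106))))))))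
noncomputable def xc232 : XT := (XT.nd (nat_lit 37674) (nat_lit 0) (nat_lit 2128) (XT.nd (nat_lit 36894) (nat_lit 0) (nat_lit 5168) (XT.nd (nat_lit 390) (nat_lit 304) (nat_lit 0) (XT.nd (nat_lit 156) (nat_lit 152) (nat_lit 0) (XT.nd (nat_lit 78) (nat_lit 76) (nat_lit 0) (XT.lf (nat_lit 0) (nat_lit 26802519193) (nat_lit 76) (nat_lit 193789540416) (nat_lit 152) (nat_lit 20528474916) (nat_lit 25) (nat_lit 5) (nat_lit 26) (nat_lit 5) (nat_lit 27) (nat_lit 4) (nat_lit 362) (nat_lit 313) (nat_lit 105)) (XT.lf (nat_lit 0) (nat_lit 22424139083) (nat_lit 152) (nat_lit 115742428167) (nat_lit 76) (nat_lit 111855161645) (nat_lit 24) (nat_lit 5) (nat_lit 26) (nat_lit 5) (nat_lit 25) (nat_lit 5) (nat_lit 363) (nat_lit 313) (nat_lit 104))) (XT.nd (nat_lit 78) (nat_lit 152) (nat_lit 0) (XT.lf (nat_lit 0) (nat_lit 66834262338) (nat_lit 152) (nat_lit 12574988107) (nat_lit 76) (nat_lit 179941917580) (nat_lit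 24) (nat_lit 5) (nat_lit 26) (nat_lit 5) (nat_lit 25) (nat_lit 5) (nat_lit 364) (nat_lit 313) (nat_lit 103)) (XT.nd (nat_lit 78) (nat_lit 0) (nat_lit 0) (XT.lf (nat_lit 0) (nat_lit 98916390888) (nat_lit 152) (nat_lit 16092643822) (nat_lit 228) (nat_lit 154060837399) (nat_lit 22) (nat_lit 5) (nat_lit 24) (nat_lit 5) (nat_lit 25) (nat_lit 5) (nat_lit 365) (nat_lit 313) (nat_lit 102)) (XT.lf (nat_lit 0) (nat_lit 166595509435) (nat_lit 228) (nat_lit 63635544005) (nat_lit 76) (nat_lit 48993309911) (nat_lit 22) (nat_lit 5) (nat_lit 25) (nat_lit 5) (nat_lit 23) (nat_lit 4) (nat_lit 366) (nat_lit 313) (nat_lit 101))))) (XT.nd (nat_lit 156) (nat_lit 228) (nat_lit 0) (XT.nd (nat_lit 78) (nat_lit 0) (nat_lit 0) (XT.lf (nat_lit 0) (nat_lit 49529365525) (nat_lit 76) (nat_lit 172268841865) (nat_lit 152) (nat_lit 68036526925) (nat_lit 21) (nat_lit 5) (nat_lit 22) (nat_lit 5) (nat_lit 23) (nat_lit 4)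 (nat_lit 367) (nat_lit 313) (nat_lit 100)) (XT.lf (nat_lit 0) (nat_lit 170561449002) (nat_lit 76) (nat_lit 110277087740) (nat_lit 152) (nat_lit 20083212388) (nat_lit 21) (nat_lit 5) (nat_lit 22) (nat_lit 5) (nat_lit 23) (nat_lit 4) (nat_lit 368) (nat_lit 313) (nat_lit 99))) (XT.nd (nat_lit 78) (nat_lit 152) (nat_lit 0) (XT.lf (nat_lit 0) (nat_lit 29298814402) (nat_lit 152) (nat_lit 15390886377) (nat_lit 76) (nat_lit 267849795581) (nat_lit 20) (nat_lit 5) (nat_lit 22) (nat_lit 5) (nat_lit 21) (nat_lit 5) (nat_lit 369) (nat_lit 313) (nat_lit 98)) (XT.nd (nat_lit 78) (nat_lit 0) (nat_lit 0) (XT.lf (nat_lit 0) (nat_lit 82578964483) (nat_lit 228) (nat_lit 216578505208) (nat_lit 76) (nat_lit 25459002241) (nat_lit 18) (nat_lit 5) (nat_lit 21) (nat_lit 5) (nat_lit 19) (nat_lit 4) (nat_lit 370) (nat_lit 313) (nat_lit 97)) (XT.lf (nat_lit 0) (nat_lit 139520480340) (nat_lit 228) (nat_lit 99848884490)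 (nat_lit 76) (nat_lit 97878063645) (nat_lit 18) (nat_lit 5) (nat_lit 21) (nat_lit 5) (nat_lit 19) (nat_lit 4) (nat_lit 371) (nat_lit 313) (nat_lit 96)))))) (XT.nd (nat_lit 390) (nat_lit 608) (nat_lit 0) (XT.nd (nat_lit 156) (nat_lit 0) (nat_lit 0) (XT.nd (nat_lit 78) (nat_lit 0) (nat_lit 0) (XT.lf (nat_lit 0) (nat_lit 12873041740) (nat_lit 0) (nat_lit 12873041740) (nat_lit 684) (nat_lit 2728659659) (nat_lit 94) (nat_lit 5) (nat_lit 94) (nat_lit 3) (nat_lit 103) (nat_lit 3) (nat_lit 314) (nat_lit 314) (nat_lit 152)) (XT.lf (nat_lit 0) (nat_lit 52805874682) (nat_lit 684) (nat_lit 5104592305) (nat_lit 760) (nat_lit 461402591) (nat_lit 94) (nat_lit 5) (nat_lit 103) (nat_lit 3) (nat_lit 104) (nat_lit 5) (nat_lit 315) (nat_lit 314) (nat_lit 151))) (XT.nd (nat_lit 78) (nat_lit 0) (nat_lit 0) (XT.lf (nat_lit 76) (nat_lit 22599745559) (nat_lit 0) (nat_lit 32359230230) (nat_lit 760) (nat_lit 4867713006)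 (nat_lit 95) (nat_lit 5) (nat_lit 94) (nat_lit 5) (nat_lit 104) (nat_lit 5) (nat_lit 316) (nat_lit 314) (nat_lit 150)) (XT.nd (nat_lit 78) (nat_lit 0) (nat_lit 76) (XT.lf (nat_lit 76) (nat_lit 51865851982) (nat_lit 0) (nat_lit 5439171324) (nat_lit 760) (nat_lit 4044963153) (nat_lit 95) (nat_lit 5) (nat_lit 94) (nat_lit 5) (nat_lit 104) (nat_lit 5) (nat_lit 317) (nat_lit 314) (nat_lit 149)) (XT.lf (nat_lit 76) (nat_lit 19926494477) (nat_lit 0) (nat_lit 40508283878) (nat_lit 760) (nat_lit 2481352350) (nat_lit 96) (nat_lit 5) (nat_lit 95) (nat_lit 5) (nat_lit 105) (nat_lit 5) (nat_lit 318) (nat_lit 314) (nat_lit 148))))) (XT.nd (nat_lit 156) (nat_lit 0) (nat_lit 0) (XT.nd (nat_lit 78) (nat_lit 684) (nat_lit 0) (XT.lf (nat_lit 76) (nat_lit 51044118143) (nat_lit 0) (nat_lit 12924196367) (nat_lit 760) (nat_lit 579904847) (nat_lit 96) (nat_lit 5) (nat_lit 95) (nat_lit 5) (nat_lit 105) (nat_lit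 5) (nat_lit 319) (nat_lit 314) (nat_lit 147)) (XT.lf (nat_lit 0) (nat_lit 1906821103) (nat_lit 760) (nat_lit 48492881399) (nat_lit 836) (nat_lit 15834328433) (nat_lit 86) (nat_lit 5) (nat_lit 96) (nat_lit 5) (nat_lit 97) (nat_lit 5) (nat_lit 320) (nat_lit 314) (nat_lit 146))) (XT.nd (nat_lit 78) (nat_lit 0) (nat_lit 76) (XT.lf (nat_lit 0) (nat_lit 4941735586) (nat_lit 760) (nat_lit 17201067765) (nat_lit 836) (nat_lit 45838688975) (nat_lit 86) (nat_lit 5) (nat_lit 96) (nat_lit 5) (nat_lit 97) (nat_lit 5) (nat_lit 321) (nat_lit 314) (nat_lit 145)) (XT.nd (nat_lit 78) (nat_lit 0) (nat_lit 0) (XT.lf (nat_lit 0) (nat_lit 8501617140) (nat_lit 760) (nat_lit 53753161623) (nat_lit 836) (nat_lit 7542888490) (nat_lit 87) (nat_lit 5) (nat_lit 97) (nat_lit 5) (nat_lit 98) (nat_lit 5) (nat_lit 322) (nat_lit 314) (nat_lit 144)) (XT.lf (nat_lit 0) (nat_lit 12897678114) (nat_lit 760) (nat_lit 20509057627)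 (nat_lit 836) (nat_lit 38265007376) (nat_lit 87) (nat_lit 5) (nat_lit 97) (nat_lit 5) (nat_lit 98) (nat_lit 5) (nat_lit 323) (nat_lit 314) (nat_lit 143))))))) (XT.nd (nat_lit 780) (nat_lit 1596) (nat_lit 0) (XT.nd (nat_lit 390) (nat_lit 684) (nat_lit 0) (XT.nd (nat_lit 156) (nat_lit 836) (nat_lit 0) (XT.nd (nat_lit 78) (nat_lit 0) (nat_lit 76) (XT.lf (nat_lit 76) (nat_lit 14872561930) (nat_lit 0) (nat_lit 2872329831) (nat_lit 836) (nat_lit 55883064923) (nat_lit 88) (nat_lit 5) (nat_lit 87) (nat_lit 5) (nat_lit 98) (nat_lit 5) (nat_lit 324) (nat_lit 314) (nat_lit 142)) (XT.lf (nat_lit 0) (nat_lit 23642388830) (nat_lit 760) (nat_lit 23391474250) (nat_lit 76) (nat_lit 28607723037) (nat_lit 88) (nat_lit 5) (nat_lit 98) (nat_lit 5) (nat_lit 89) (nat_lit 5) (nat_lit 325) (nat_lit 314) (nat_lit 141))) (XT.nd (nat_lit 78) (nat_lit 380) (nat_lit 0) (XT.lf (nat_lit 0) (nat_lit 14145599933) (nat_lit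 532) (nat_lit 15956318805) (nat_lit 608) (nat_lit 47640621642) (nat_lit 81) (nat_lit 5) (nat_lit 88) (nat_lit 5) (nat_lit 89) (nat_lit 5) (nat_lit 326) (nat_lit 314) (nat_lit 140)) (XT.nd (nat_lit 78) (nat_lit 380) (nat_lit 0) (XT.lf (nat_lit 0) (nat_lit 37546655958) (nat_lit 608) (nat_lit 25824678503) (nat_lit 76) (nat_lit 16544097558) (nat_lit 81) (nat_lit 5) (nat_lit 89) (nat_lit 5) (nat_lit 82) (nat_lit 5) (nat_lit 327) (nat_lit 314) (nat_lit 139)) (XT.lf (nat_lit 0) (nat_lit 14022736342) (nat_lit 380) (nat_lit 31820688427) (nat_lit 456) (nat_lit 36329554877) (nat_lit 76) (nat_lit 5) (nat_lit 81) (nat_lit 5) (nat_lit 82) (nat_lit 5) (nat_lit 328) (nat_lit 314) (nat_lit 138))))) (XT.nd (nat_lit 156) (nat_lit 380) (nat_lit 0) (XT.nd (nat_lit 78) (nat_lit 304) (nat_lit 0) (XT.lf (nat_lit 0) (nat_lit 55019273950) (nat_lit 456) (nat_lit 27790744936) (nat_lit 76) (nat_lit 1710174760) (nat_lit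 76) (nat_lit 5) (nat_lit 82) (nat_lit 5) (nat_lit 77) (nat_lit 5) (nat_lit 329) (nat_lit 314) (nat_lit 137)) (XT.lf (nat_lit 0) (nat_lit 14529423244) (nat_lit 304) (nat_lit 50872326269) (nat_lit 380) (nat_lit 21545628174) (nat_lit 72) (nat_lit 5) (nat_lit 76) (nat_lit 5) (nat_lit 77) (nat_lit 5) (nat_lit 330) (nat_lit 314) (nat_lit 136))) (XT.nd (nat_lit 78) (nat_lit 380) (nat_lit 0) (XT.lf (nat_lit 0) (nat_lit 59929756063) (nat_lit 304) (nat_lit 16843601745) (nat_lit 380) (nat_lit 12699063663) (nat_lit 72) (nat_lit 5) (nat_lit 76) (nat_lit 5) (nat_lit 77) (nat_lit 5) (nat_lit 331) (nat_lit 314) (nat_lit 135)) (XT.nd (nat_lit 78) (nat_lit 76) (nat_lit 0) (XT.lf (nat_lit 0) (nat_lit 15682788701) (nat_lit 304) (nat_lit 73569871448) (nat_lit 380) (nat_lit 2844102554) (nat_lit 68) (nat_lit 5) (nat_lit 72) (nat_lit 5) (nat_lit 73) (nat_lit 5) (nat_lit 332) (nat_lit 314) (nat_lit 134)) (XT.lf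 (nat_lit 0) (nat_lit 8047487629) (nat_lit 380) (nat_lit 31034298123) (nat_lit 76) (nat_lit 55725476317) (nat_lit 67) (nat_lit 5) (nat_lit 72) (nat_lit 5) (nat_lit 68) (nat_lit 5) (nat_lit 333) (nat_lit 314) (nat_lit 133)))))) (XT.nd (nat_lit 390) (nat_lit 760) (nat_lit 0) (XT.nd (nat_lit 156) (nat_lit 532) (nat_lit 0) (XT.nd (nat_lit 78) (nat_lit 0) (nat_lit 0) (XT.lf (nat_lit 0) (nat_lit 17114867819) (nat_lit 304) (nat_lit 2539846139) (nat_lit 380) (nat_lit 77982910170) (nat_lit 63) (nat_lit 5) (nat_lit 67) (nat_lit 5) (nat_lit 68) (nat_lit 5) (nat_lit 334) (nat_lit 314) (nat_lit 132)) (XT.lf (nat_lit 0) (nat_lit 32935334690) (nat_lit 380) (nat_lit 32402971111) (nat_lit 76) (nat_lit 35216547607) (nat_lit 63) (nat_lit 5) (nat_lit 68) (nat_lit 5) (nat_lit 64) (nat_lit 5) (nat_lit 335) (nat_lit 314) (nat_lit 131))) (XT.nd (nat_lit 78) (nat_lit 228) (nat_lit 0) (XT.lf (nat_lit 0) (nat_lit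 18678353805) (nat_lit 304) (nat_lit 28534359569) (nat_lit 380) (nat_lit 56388595172) (nat_lit 59) (nat_lit 5) (nat_lit 63) (nat_lit 5) (nat_lit 64) (nat_lit 5) (nat_lit 336) (nat_lit 314) (nat_lit 130)) (XT.nd (nat_lit 78) (nat_lit 228) (nat_lit 0) (XT.lf (nat_lit 0) (nat_lit 62919041553) (nat_lit 380) (nat_lit 33501434796) (nat_lit 76) (nat_lit 10343856765) (nat_lit 59) (nat_lit 5) (nat_lit 64) (nat_lit 5) (nat_lit 60) (nat_lit 5) (nat_lit 337) (nat_lit 314) (nat_lit 129)) (XT.lf (nat_lit 0) (nat_lit 20684807605) (nat_lit 228) (nat_lit 59516109824) (nat_lit 304) (nat_lit 29845080584) (nat_lit 56) (nat_lit 5) (nat_lit 59) (nat_lit 5) (nat_lit 60) (nat_lit 5) (nat_lit 338) (nat_lit 314) (nat_lit 128))))) (XT.nd (nat_lit 234) (nat_lit 456) (nat_lit 0) (XT.nd (nat_lit 78) (nat_lit 304) (nat_lit 0) (XT.lf (nat_lit 0) (nat_lit 78742846119) (nat_lit 228) (nat_lit 20170925020) (nat_lit 304)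 (nat_lit 14549631453) (nat_lit 56) (nat_lit 5) (nat_lit 59) (nat_lit 5) (nat_lit 60) (nat_lit 5) (nat_lit 339) (nat_lit 314) (nat_lit 127)) (XT.nd (nat_lit 78) (nat_lit 0) (nat_lit 0) (XT.lf (nat_lit 0) (nat_lit 2163190141) (nat_lit 304) (nat_lit 93992610571) (nat_lit 76) (nat_lit 20859650623) (nat_lit 52) (nat_lit 5) (nat_lit 56) (nat_lit 5) (nat_lit 53) (nat_lit 5) (nat_lit 340) (nat_lit 314) (nat_lit 126)) (XT.lf (nat_lit 0) (nat_lit 20150556201) (nat_lit 304) (nat_lit 36436312213) (nat_lit 76) (nat_lit 64099915402) (nat_lit 52) (nat_lit 5) (nat_lit 56) (nat_lit 5) (nat_lit 53) (nat_lit 5) (nat_lit 341) (nat_lit 314) (nat_lit 125)))) (XT.nd (nat_lit 78) (nat_lit 228) (nat_lit 0) (XT.lf (nat_lit 0) (nat_lit 24790678150) (nat_lit 228) (nat_lit 14633232551) (nat_lit 304) (nat_lit 85098441739) (nat_lit 49) (nat_lit 5) (nat_lit 52) (nat_lit 5) (nat_lit 53) (nat_lit 5) (nat_lit 342) (nat_lit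 314) (nat_lit 124)) (XT.nd (nat_lit 78) (nat_lit 228) (nat_lit 0) (XT.lf (nat_lit 0) (nat_lit 60746991599) (nat_lit 304) (nat_lit 38644845501) (nat_lit 76) (nat_lit 29103559958) (nat_lit 49) (nat_lit 5) (nat_lit 53) (nat_lit 5) (nat_lit 50) (nat_lit 5) (nat_lit 343) (nat_lit 314) (nat_lit 123)) (XT.lf (nat_lit 0) (nat_lit 26090947742) (nat_lit 228) (nat_lit 57692118287) (nat_lit 304) (nat_lit 48851686379) (nat_lit 46) (nat_lit 5) (nat_lit 49) (nat_lit 5) (nat_lit 50) (nat_lit 5) (nat_lit 344) (nat_lit 314) (nat_lit 122))))))))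
noncomputable def xc233 : XT := (XT.nd (nat_lit 1638) (nat_lit 304) (nat_lit 0) (XT.nd (nat_lit 780) (nat_lit 684) (nat_lit 0) (XT.nd (nat_lit 390) (nat_lit 532) (nat_lit 0) (XT.nd (nat_lit 156) (nat_lit 304) (nat_lit 0) (XT.nd (nat_lit 78) (nat_lit 152) (nat_lit 0) (XT.lf (nat_lit 0) (nat_lit 95404640279) (nat_lit 228) (nat_lit 13220381218) (nat_lit 304) (nat_lit 28323350617) (nat_lit 46) (nat_lit 5) (nat_lit 49) (nat_lit 5) (nat_lit 50) (nat_lit 5) (nat_lit 345) (nat_lit 314) (nat_lit 121)) (XT.lf (nat_lit 0) (nat_lit 27048898073) (nat_lit 152) (nat_lit 108604747870) (nat_lit 228) (nat_lit 5776798732) (nat_lit 44) (nat_lit 5) (nat_lit 46) (nat_lit 5) (nat_lit 47) (nat_lit 5) (nat_lit 346) (nat_lit 314) (nat_lit 120))) (XT.nd (nat_lit 78) (nat_lit 228) (nat_lit 0) (XT.lf (nat_lit 0) (nat_lit 18255714561) (nat_lit 228) (nat_lit 46096210148) (nat_lit 76) (nat_lit 81724152758) (nat_lit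 43) (nat_lit 5) (nat_lit 46) (nat_lit 5) (nat_lit 44) (nat_lit 5) (nat_lit 347) (nat_lit 314) (nat_lit 119)) (XT.nd (nat_lit 78) (nat_lit 0) (nat_lit 0) (XT.lf (nat_lit 0) (nat_lit 26351586356) (nat_lit 228) (nat_lit 17355196279) (nat_lit 304) (nat_lit 107221921184) (nat_lit 40) (nat_lit 5) (nat_lit 43) (nat_lit 5) (nat_lit 44) (nat_lit 5) (nat_lit 348) (nat_lit 314) (nat_lit 118)) (XT.lf (nat_lit 0) (nat_lit 71722990003) (nat_lit 304) (nat_lit 52475599183) (nat_lit 76) (nat_lit 31760743362) (nat_lit 40) (nat_lit 5) (nat_lit 44) (nat_lit 5) (nat_lit 41) (nat_lit 5) (nat_lit 349) (nat_lit 314) (nat_lit 117))))) (XT.nd (nat_lit 156) (nat_lit 380) (nat_lit 0) (XT.nd (nat_lit 78) (nat_lit 0) (nat_lit 0) (XT.lf (nat_lit 0) (nat_lit 23704679337) (nat_lit 152) (nat_lit 78089604500) (nat_lit 228) (nat_lit 59414495409) (nat_lit 38) (nat_lit 5) (nat_lit 40) (nat_lit 5) (nat_lit 41) (nat_lit 5)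 (nat_lit 350) (nat_lit 314) (nat_lit 116)) (XT.lf (nat_lit 0) (nat_lit 105515312154) (nat_lit 152) (nat_lit 28742206167) (nat_lit 228) (nat_lit 32418761482) (nat_lit 38) (nat_lit 5) (nat_lit 40) (nat_lit 5) (nat_lit 41) (nat_lit 5) (nat_lit 351) (nat_lit 314) (nat_lit 115))) (XT.nd (nat_lit 78) (nat_lit 228) (nat_lit 0) (XT.lf (nat_lit 0) (nat_lit 19254886889) (nat_lit 152) (nat_lit 149749566919) (nat_lit 228) (nat_lit 3379674922) (nat_lit 36) (nat_lit 5) (nat_lit 38) (nat_lit 5) (nat_lit 39) (nat_lit 5) (nat_lit 352) (nat_lit 314) (nat_lit 114)) (XT.nd (nat_lit 78) (nat_lit 152) (nat_lit 0) (XT.lf (nat_lit 0) (nat_lit 27767278695) (nat_lit 228) (nat_lit 73422610305) (nat_lit 76) (nat_lit 77090134873) (nat_lit 35) (nat_lit 5) (nat_lit 38) (nat_lit 5) (nat_lit 36) (nat_lit 5) (nat_lit 353) (nat_lit 314) (nat_lit 113)) (XT.lf (nat_lit 0) (nat_lit 10551189109) (nat_lit 152) (nat_lit 49971251271)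 (nat_lit 228) (nat_lit 123937281452) (nat_lit 33) (nat_lit 5) (nat_lit 35) (nat_lit 5) (nat_lit 36) (nat_lit 5) (nat_lit 354) (nat_lit 314) (nat_lit 112)))))) (XT.nd (nat_lit 390) (nat_lit 304) (nat_lit 0) (XT.nd (nat_lit 156) (nat_lit 380) (nat_lit 0) (XT.nd (nat_lit 78) (nat_lit 0) (nat_lit 0) (XT.lf (nat_lit 0) (nat_lit 96238360737) (nat_lit 228) (nat_lit 89693797135) (nat_lit 76) (nat_lit 4950097040) (nat_lit 33) (nat_lit 5) (nat_lit 36) (nat_lit 5) (nat_lit 34) (nat_lit 5) (nat_lit 355) (nat_lit 314) (nat_lit 111)) (XT.lf (nat_lit 0) (nat_lit 134559001998) (nat_lit 228) (nat_lit 2087970981) (nat_lit 76) (nat_lit 60937995661) (nat_lit 33) (nat_lit 5) (nat_lit 36) (nat_lit 5) (nat_lit 34) (nat_lit 5) (nat_lit 356) (nat_lit 314) (nat_lit 110))) (XT.nd (nat_lit 78) (nat_lit 228) (nat_lit 0) (XT.lf (nat_lit 0) (nat_lit 92870147003) (nat_lit 152) (nat_lit 83375228768) (nat_lit 228) (nat_lit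 28304957491) (nat_lit 31) (nat_lit 5) (nat_lit 33) (nat_lit 5) (nat_lit 34) (nat_lit 5) (nat_lit 357) (nat_lit 314) (nat_lit 109)) (XT.nd (nat_lit 78) (nat_lit 152) (nat_lit 0) (XT.lf (nat_lit 0) (nat_lit 7926863188) (nat_lit 228) (nat_lit 19341820565) (nat_lit 76) (nat_lit 184587134747) (nat_lit 30) (nat_lit 5) (nat_lit 33) (nat_lit 5) (nat_lit 31) (nat_lit 5) (nat_lit 358) (nat_lit 314) (nat_lit 108)) (XT.lf (nat_lit 0) (nat_lit 46785175535) (nat_lit 228) (nat_lit 140263277527) (nat_lit 76) (nat_lit 32366617711) (nat_lit 28) (nat_lit 5) (nat_lit 31) (nat_lit 5) (nat_lit 29) (nat_lit 5) (nat_lit 359) (nat_lit 314) (nat_lit 107))))) (XT.nd (nat_lit 234) (nat_lit 152) (nat_lit 0) (XT.nd (nat_lit 78) (nat_lit 152) (nat_lit 0) (XT.lf (nat_lit 0) (nat_lit 88366118458) (nat_lit 228) (nat_lit 44547122149) (nat_lit 76) (nat_lit 94400059494) (nat_lit 28) (nat_lit 5) (nat_lit 31) (nat_lit 5)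 (nat_lit 29) (nat_lit 5) (nat_lit 360) (nat_lit 314) (nat_lit 106)) (XT.nd (nat_lit 78) (nat_lit 0) (nat_lit 0) (XT.lf (nat_lit 0) (nat_lit 57804558102) (nat_lit 152) (nat_lit 75123807650) (nat_lit 228) (nat_lit 102632962460) (nat_lit 26) (nat_lit 5) (nat_lit 28) (nat_lit 5) (nat_lit 29) (nat_lit 5) (nat_lit 361) (nat_lit 314) (nat_lit 105)) (XT.lf (nat_lit 0) (nat_lit 166820014393) (nat_lit 152) (nat_lit 13652909314) (nat_lit 228) (nat_lit 63711124277) (nat_lit 26) (nat_lit 5) (nat_lit 28) (nat_lit 5) (nat_lit 29) (nat_lit 5) (nat_lit 362) (nat_lit 314) (nat_lit 104)))) (XT.nd (nat_lit 78) (nat_lit 76) (nat_lit 0) (XT.lf (nat_lit 0) (nat_lit 28154527016) (nat_lit 76) (nat_lit 203474092905) (nat_lit 152) (nat_lit 21547588469) (nat_lit 25) (nat_lit 5) (nat_lit 26) (nat_lit 5) (nat_lit 27) (nat_lit 4) (nat_lit 363) (nat_lit 314) (nat_lit 103)) (XT.nd (nat_lit 78) (nat_lit 0) (nat_lit 0)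 (XT.lf (nat_lit 0) (nat_lit 23552085295) (nat_lit 152) (nat_lit 121518006154) (nat_lit 76) (nat_lit 117452382397) (nat_lit 24) (nat_lit 5) (nat_lit 26) (nat_lit 5) (nat_lit 25) (nat_lit 5) (nat_lit 364) (nat_lit 314) (nat_lit 102)) (XT.lf (nat_lit 0) (nat_lit 70182393796) (nat_lit 152) (nat_lit 13192743777) (nat_lit 76) (nat_lit 188943263621) (nat_lit 24) (nat_lit 5) (nat_lit 26) (nat_lit 5) (nat_lit 25) (nat_lit 5) (nat_lit 365) (nat_lit 314) (nat_lit 101))))))) (XT.nd (nat_lit 37050) (nat_lit 0) (nat_lit 4256) (XT.nd (nat_lit 36660) (nat_lit 0) (nat_lit 5624) (XT.nd (nat_lit 156) (nat_lit 152) (nat_lit 0) (XT.nd (nat_lit 78) (nat_lit 0) (nat_lit 0) (XT.lf (nat_lit 0) (nat_lit 103873026849) (nat_lit 152) (nat_lit 16892741177) (nat_lit 228) (nat_lit 161757279500) (nat_lit 22) (nat_lit 5) (nat_lit 24) (nat_lit 5) (nat_lit 25) (nat_lit 5) (nat_lit 366) (nat_lit 314) (nat_lit 100)) (XT.lf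 (nat_lit 0) (nat_lit 174931334794) (nat_lit 228) (nat_lit 66806784249) (nat_lit 76) (nat_lit 51447156067) (nat_lit 22) (nat_lit 5) (nat_lit 25) (nat_lit 5) (nat_lit 23) (nat_lit 4) (nat_lit 367) (nat_lit 314) (nat_lit 99))) (XT.nd (nat_lit 78) (nat_lit 76) (nat_lit 0) (XT.lf (nat_lit 0) (nat_lit 52016200806) (nat_lit 76) (nat_lit 180877840609) (nat_lit 152) (nat_lit 71432129705) (nat_lit 21) (nat_lit 5) (nat_lit 22) (nat_lit 5) (nat_lit 23) (nat_lit 4) (nat_lit 368) (nat_lit 314) (nat_lit 98)) (XT.nd (nat_lit 78) (nat_lit 76) (nat_lit 0) (XT.lf (nat_lit 0) (nat_lit 179099394791) (nat_lit 76) (nat_lit 115786710365) (nat_lit 152) (nat_lit 21081445801) (nat_lit 21) (nat_lit 5) (nat_lit 22) (nat_lit 5) (nat_lit 23) (nat_lit 4) (nat_lit 369) (nat_lit 314) (nat_lit 97)) (XT.lf (nat_lit 0) (nat_lit 30769219406) (nat_lit 152) (nat_lit 16150843623) (nat_lit 76) (nat_lit 281246131715) (nat_lit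 20) (nat_lit 5) (nat_lit 22) (nat_lit 5) (nat_lit 21) (nat_lit 5) (nat_lit 370) (nat_lit 314) (nat_lit 96))))) (XT.nd (nat_lit 156) (nat_lit 0) (nat_lit 0) (XT.nd (nat_lit 78) (nat_lit 0) (nat_lit 0) (XT.lf (nat_lit 0) (nat_lit 13526026589) (nat_lit 0) (nat_lit 13526026589) (nat_lit 684) (nat_lit 2845460685) (nat_lit 94) (nat_lit 5) (nat_lit 94) (nat_lit 3) (nat_lit 103) (nat_lit 3) (nat_lit 315) (nat_lit 315) (nat_lit 150)) (XT.lf (nat_lit 0) (nat_lit 55481444250) (nat_lit 684) (nat_lit 5339926861) (nat_lit 760) (nat_lit 467264997) (nat_lit 94) (nat_lit 5) (nat_lit 103) (nat_lit 3) (nat_lit 104) (nat_lit 5) (nat_lit 316) (nat_lit 315) (nat_lit 149))) (XT.nd (nat_lit 78) (nat_lit 0) (nat_lit 0) (XT.lf (nat_lit 76) (nat_lit 23749307008) (nat_lit 0) (nat_lit 33991519211) (nat_lit 760) (nat_lit 5075441784) (nat_lit 95) (nat_lit 5) (nat_lit 94) (nat_lit 5) (nat_lit 104) (nat_lit 5) (nat_lit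 317) (nat_lit 315) (nat_lit 148)) (XT.nd (nat_lit 78) (nat_lit 0) (nat_lit 76) (XT.lf (nat_lit 76) (nat_lit 54477786648) (nat_lit 0) (nat_lit 5724775100) (nat_lit 760) (nat_lit 4213252385) (nat_lit 95) (nat_lit 5) (nat_lit 94) (nat_lit 5) (nat_lit 104) (nat_lit 5) (nat_lit 318) (nat_lit 315) (nat_lit 147)) (XT.lf (nat_lit 76) (nat_lit 20943014880) (nat_lit 0) (nat_lit 42544364596) (nat_lit 760) (nat_lit 2572960097) (nat_lit 96) (nat_lit 5) (nat_lit 95) (nat_lit 5) (nat_lit 105) (nat_lit 5) (nat_lit 319) (nat_lit 315) (nat_lit 146)))))) (XT.nd (nat_lit 390) (nat_lit 760) (nat_lit 0) (XT.nd (nat_lit 156) (nat_lit 0) (nat_lit 0) (XT.nd (nat_lit 78) (nat_lit 684) (nat_lit 0) (XT.lf (nat_lit 76) (nat_lit 53615558030) (nat_lit 0) (nat_lit 13580564779) (nat_lit 760) (nat_lit 577985927) (nat_lit 96) (nat_lit 5) (nat_lit 95) (nat_lit 5) (nat_lit 105) (nat_lit 5) (nat_lit 320) (nat_lit 315) (nat_lit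 145)) (XT.lf (nat_lit 0) (nat_lit 2030834888) (nat_lit 760) (nat_lit 50895953443) (nat_lit 836) (nat_lit 16617463384) (nat_lit 86) (nat_lit 5) (nat_lit 96) (nat_lit 5) (nat_lit 97) (nat_lit 5) (nat_lit 321) (nat_lit 315) (nat_lit 144))) (XT.nd (nat_lit 78) (nat_lit 0) (nat_lit 76) (XT.lf (nat_lit 0) (nat_lit 5216129728) (nat_lit 760) (nat_lit 18040576367) (nat_lit 836) (nat_lit 48122450595) (nat_lit 86) (nat_lit 5) (nat_lit 96) (nat_lit 5) (nat_lit 97) (nat_lit 5) (nat_lit 322) (nat_lit 315) (nat_lit 143)) (XT.nd (nat_lit 78) (nat_lit 0) (nat_lit 0) (XT.lf (nat_lit 0) (nat_lit 8952925215) (nat_lit 760) (nat_lit 56419152027) (nat_lit 836) (nat_lit 7914119265) (nat_lit 87) (nat_lit 5) (nat_lit 97) (nat_lit 5) (nat_lit 98) (nat_lit 5) (nat_lit 323) (nat_lit 315) (nat_lit 142)) (XT.lf (nat_lit 0) (nat_lit 13567540323) (nat_lit 760) (nat_lit 21513874626) (nat_lit 836) (nat_lit 40172625698)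 (nat_lit 87) (nat_lit 5) (nat_lit 97) (nat_lit 5) (nat_lit 98) (nat_lit 5) (nat_lit 324) (nat_lit 315) (nat_lit 141))))) (XT.nd (nat_lit 234) (nat_lit 380) (nat_lit 0) (XT.nd (nat_lit 78) (nat_lit 456) (nat_lit 0) (XT.lf (nat_lit 76) (nat_lit 15636493073) (nat_lit 0) (nat_lit 3019749124) (nat_lit 836) (nat_lit 58651868257) (nat_lit 88) (nat_lit 5) (nat_lit 87) (nat_lit 5) (nat_lit 98) (nat_lit 5) (nat_lit 325) (nat_lit 315) (nat_lit 140)) (XT.nd (nat_lit 78) (nat_lit 532) (nat_lit 0) (XT.lf (nat_lit 0) (nat_lit 24847409676) (nat_lit 760) (nat_lit 24540470359) (nat_lit 76) (nat_lit 30034603390) (nat_lit 88) (nat_lit 5) (nat_lit 98) (nat_lit 5) (nat_lit 89) (nat_lit 5) (nat_lit 326) (nat_lit 315) (nat_lit 139)) (XT.lf (nat_lit 0) (nat_lit 14873125637) (nat_lit 532) (nat_lit 16756015993) (nat_lit 608) (nat_lit 49999384254) (nat_lit 81) (nat_lit 5) (nat_lit 88) (nat_lit 5) (nat_lit 89) (nat_lit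 5) (nat_lit 327) (nat_lit 315) (nat_lit 138)))) (XT.nd (nat_lit 78) (nat_lit 380) (nat_lit 0) (XT.lf (nat_lit 0) (nat_lit 39445034073) (nat_lit 608) (nat_lit 27095515672) (nat_lit 76) (nat_lit 17369568116) (nat_lit 81) (nat_lit 5) (nat_lit 89) (nat_lit 5) (nat_lit 82) (nat_lit 5) (nat_lit 328) (nat_lit 315) (nat_lit 137)) (XT.nd (nat_lit 78) (nat_lit 0) (nat_lit 0) (XT.lf (nat_lit 0) (nat_lit 14743940935) (nat_lit 380) (nat_lit 33412011545) (nat_lit 456) (nat_lit 38124626425) (nat_lit 76) (nat_lit 5) (nat_lit 81) (nat_lit 5) (nat_lit 82) (nat_lit 5) (nat_lit 329) (nat_lit 315) (nat_lit 136)) (XT.lf (nat_lit 0) (nat_lit 57789620472) (nat_lit 456) (nat_lit 29160165986) (nat_lit 76) (nat_lit 1795417349) (nat_lit 76) (nat_lit 5) (nat_lit 82) (nat_lit 5) (nat_lit 77) (nat_lit 5) (nat_lit 330) (nat_lit 315) (nat_lit 135))))))))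
noncomputable def xc234 : XT := (XT.nd (nat_lit 1560) (nat_lit 1444) (nat_lit 0) (XT.nd (nat_lit 780) (nat_lit 1216) (nat_lit 0) (XT.nd (nat_lit 390) (nat_lit 532) (nat_lit 0) (XT.nd (nat_lit 156) (nat_lit 684) (nat_lit 0) (XT.nd (nat_lit 78) (nat_lit 0) (nat_lit 0) (XT.lf (nat_lit 0) (nat_lit 15275686148) (nat_lit 304) (nat_lit 53414919679) (nat_lit 380) (nat_lit 22603173370) (nat_lit 72) (nat_lit 5) (nat_lit 76) (nat_lit 5) (nat_lit 77) (nat_lit 5) (nat_lit 331) (nat_lit 315) (nat_lit 134)) (XT.lf (nat_lit 0) (nat_lit 62945093144) (nat_lit 304) (nat_lit 17684807638) (nat_lit 380) (nat_lit 13315220454) (nat_lit 72) (nat_lit 5) (nat_lit 76) (nat_lit 5) (nat_lit 77) (nat_lit 5) (nat_lit 332) (nat_lit 315) (nat_lit 133))) (XT.nd (nat_lit 78) (nat_lit 380) (nat_lit 0) (XT.lf (nat_lit 0) (nat_lit 16486364878) (nat_lit 304) (nat_lit 77246270115) (nat_lit 380) (nat_lit 2968072511) (nat_lit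 68) (nat_lit 5) (nat_lit 72) (nat_lit 5) (nat_lit 73) (nat_lit 5) (nat_lit 333) (nat_lit 315) (nat_lit 132)) (XT.nd (nat_lit 78) (nat_lit 304) (nat_lit 0) (XT.lf (nat_lit 0) (nat_lit 8466672993) (nat_lit 380) (nat_lit 32566922197) (nat_lit 76) (nat_lit 58513165630) (nat_lit 67) (nat_lit 5) (nat_lit 72) (nat_lit 5) (nat_lit 68) (nat_lit 5) (nat_lit 334) (nat_lit 315) (nat_lit 131)) (XT.lf (nat_lit 0) (nat_lit 17989394126) (nat_lit 304) (nat_lit 2664359244) (nat_lit 380) (nat_lit 81864914109) (nat_lit 63) (nat_lit 5) (nat_lit 67) (nat_lit 5) (nat_lit 68) (nat_lit 5) (nat_lit 335) (nat_lit 315) (nat_lit 130))))) (XT.nd (nat_lit 156) (nat_lit 228) (nat_lit 0) (XT.nd (nat_lit 78) (nat_lit 304) (nat_lit 0) (XT.lf (nat_lit 0) (nat_lit 34597665635) (nat_lit 380) (nat_lit 34004470082) (nat_lit 76) (nat_lit 36979660561) (nat_lit 63) (nat_lit 5) (nat_lit 68) (nat_lit 5) (nat_lit 64) (nat_lit 5)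 (nat_lit 336) (nat_lit 315) (nat_lit 129)) (XT.lf (nat_lit 0) (nat_lit 19630620280) (nat_lit 304) (nat_lit 29957838295) (nat_lit 380) (nat_lit 59192139359) (nat_lit 59) (nat_lit 5) (nat_lit 63) (nat_lit 5) (nat_lit 64) (nat_lit 5) (nat_lit 337) (nat_lit 315) (nat_lit 128))) (XT.nd (nat_lit 78) (nat_lit 228) (nat_lit 0) (XT.lf (nat_lit 0) (nat_lit 66079431828) (nat_lit 380) (nat_lit 35158340583) (nat_lit 76) (nat_lit 10864035865) (nat_lit 59) (nat_lit 5) (nat_lit 64) (nat_lit 5) (nat_lit 60) (nat_lit 5) (nat_lit 338) (nat_lit 315) (nat_lit 127)) (XT.nd (nat_lit 78) (nat_lit 0) (nat_lit 0) (XT.lf (nat_lit 0) (nat_lit 21736920938) (nat_lit 228) (nat_lit 62488072073) (nat_lit 304) (nat_lit 31322584766) (nat_lit 56) (nat_lit 5) (nat_lit 59) (nat_lit 5) (nat_lit 60) (nat_lit 5) (nat_lit 339) (nat_lit 315) (nat_lit 126)) (XT.lf (nat_lit 0) (nat_lit 82697010285) (nat_lit 228) (nat_lit 21175811041)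 (nat_lit 304) (nat_lit 15263065553) (nat_lit 56) (nat_lit 5) (nat_lit 59) (nat_lit 5) (nat_lit 60) (nat_lit 5) (nat_lit 340) (nat_lit 315) (nat_lit 125)))))) (XT.nd (nat_lit 390) (nat_lit 456) (nat_lit 0) (XT.nd (nat_lit 156) (nat_lit 456) (nat_lit 0) (XT.nd (nat_lit 78) (nat_lit 0) (nat_lit 0) (XT.lf (nat_lit 0) (nat_lit 2284630889) (nat_lit 304) (nat_lit 98674419980) (nat_lit 76) (nat_lit 21906492860) (nat_lit 52) (nat_lit 5) (nat_lit 56) (nat_lit 5) (nat_lit 53) (nat_lit 5) (nat_lit 341) (nat_lit 315) (nat_lit 124)) (XT.lf (nat_lit 0) (nat_lit 21170732812) (nat_lit 304) (nat_lit 38241155329) (nat_lit 76) (nat_lit 67308587083) (nat_lit 52) (nat_lit 5) (nat_lit 56) (nat_lit 5) (nat_lit 53) (nat_lit 5) (nat_lit 342) (nat_lit 315) (nat_lit 123))) (XT.nd (nat_lit 78) (nat_lit 228) (nat_lit 0) (XT.lf (nat_lit 0) (nat_lit 26046910802) (nat_lit 228) (nat_lit 15360502625) (nat_lit 304) (nat_lit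 89340426662) (nat_lit 49) (nat_lit 5) (nat_lit 52) (nat_lit 5) (nat_lit 53) (nat_lit 5) (nat_lit 343) (nat_lit 315) (nat_lit 122)) (XT.nd (nat_lit 78) (nat_lit 228) (nat_lit 0) (XT.lf (nat_lit 0) (nat_lit 63796127613) (nat_lit 304) (nat_lit 40560649535) (nat_lit 76) (nat_lit 30562786524) (nat_lit 49) (nat_lit 5) (nat_lit 53) (nat_lit 5) (nat_lit 50) (nat_lit 5) (nat_lit 344) (nat_lit 315) (nat_lit 121)) (XT.lf (nat_lit 0) (nat_lit 27411668238) (nat_lit 228) (nat_lit 60572028776) (nat_lit 304) (nat_lit 51282205877) (nat_lit 46) (nat_lit 5) (nat_lit 49) (nat_lit 5) (nat_lit 50) (nat_lit 5) (nat_lit 345) (nat_lit 315) (nat_lit 120))))) (XT.nd (nat_lit 156) (nat_lit 304) (nat_lit 0) (XT.nd (nat_lit 78) (nat_lit 152) (nat_lit 0) (XT.lf (nat_lit 0) (nat_lit 100190275253) (nat_lit 228) (nat_lit 13876928445) (nat_lit 304) (nat_lit 29728027842) (nat_lit 46) (nat_lit 5) (nat_lit 49) (nat_lit 5)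 (nat_lit 50) (nat_lit 5) (nat_lit 346) (nat_lit 315) (nat_lit 119)) (XT.lf (nat_lit 0) (nat_lit 28416978971) (nat_lit 152) (nat_lit 114030070481) (nat_lit 228) (nat_lit 6054369375) (nat_lit 44) (nat_lit 5) (nat_lit 46) (nat_lit 5) (nat_lit 47) (nat_lit 5) (nat_lit 347) (nat_lit 315) (nat_lit 118))) (XT.nd (nat_lit 78) (nat_lit 228) (nat_lit 0) (XT.lf (nat_lit 0) (nat_lit 19178889439) (nat_lit 228) (nat_lit 48385774816) (nat_lit 76) (nat_lit 85814686725) (nat_lit 43) (nat_lit 5) (nat_lit 46) (nat_lit 5) (nat_lit 44) (nat_lit 5) (nat_lit 348) (nat_lit 315) (nat_lit 117)) (XT.nd (nat_lit 78) (nat_lit 0) (nat_lit 0) (XT.lf (nat_lit 0) (nat_lit 27684165613) (nat_lit 228) (nat_lit 18218084772) (nat_lit 304) (nat_lit 112572371809) (nat_lit 40) (nat_lit 5) (nat_lit 43) (nat_lit 5) (nat_lit 44) (nat_lit 5) (nat_lit 349) (nat_lit 315) (nat_lit 116)) (XT.lf (nat_lit 0) (nat_lit 75318858240) (nat_lit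 304) (nat_lit 55084673713) (nat_lit 76) (nat_lit 33353271394) (nat_lit 40) (nat_lit 5) (nat_lit 44) (nat_lit 5) (nat_lit 41) (nat_lit 5) (nat_lit 350) (nat_lit 315) (nat_lit 115))))))) (XT.nd (nat_lit 780) (nat_lit 532) (nat_lit 0) (XT.nd (nat_lit 390) (nat_lit 380) (nat_lit 0) (XT.nd (nat_lit 156) (nat_lit 380) (nat_lit 0) (XT.nd (nat_lit 78) (nat_lit 0) (nat_lit 0) (XT.lf (nat_lit 0) (nat_lit 24904381548) (nat_lit 152) (nat_lit 81989098311) (nat_lit 228) (nat_lit 62375254839) (nat_lit 38) (nat_lit 5) (nat_lit 40) (nat_lit 5) (nat_lit 41) (nat_lit 5) (nat_lit 351) (nat_lit 315) (nat_lit 114)) (XT.lf (nat_lit 0) (nat_lit 110804857042) (nat_lit 152) (nat_lit 30174567509) (nat_lit 228) (nat_lit 34030208755) (nat_lit 38) (nat_lit 5) (nat_lit 40) (nat_lit 5) (nat_lit 41) (nat_lit 5) (nat_lit 352) (nat_lit 315) (nat_lit 113))) (XT.nd (nat_lit 78) (nat_lit 228) (nat_lit 0) (XT.lf (nat_lit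 0) (nat_lit 20231568378) (nat_lit 152) (nat_lit 157231996632) (nat_lit 228) (nat_lit 3539317188) (nat_lit 36) (nat_lit 5) (nat_lit 38) (nat_lit 5) (nat_lit 39) (nat_lit 5) (nat_lit 353) (nat_lit 315) (nat_lit 112)) (XT.nd (nat_lit 78) (nat_lit 152) (nat_lit 0) (XT.lf (nat_lit 0) (nat_lit 29164254530) (nat_lit 228) (nat_lit 77080174851) (nat_lit 76) (nat_lit 80949157342) (nat_lit 35) (nat_lit 5) (nat_lit 38) (nat_lit 5) (nat_lit 36) (nat_lit 5) (nat_lit 354) (nat_lit 315) (nat_lit 111)) (XT.lf (nat_lit 0) (nat_lit 11092095728) (nat_lit 152) (nat_lit 52464876867) (nat_lit 228) (nat_lit 130125307438) (nat_lit 33) (nat_lit 5) (nat_lit 35) (nat_lit 5) (nat_lit 36) (nat_lit 5) (nat_lit 355) (nat_lit 315) (nat_lit 110))))) (XT.nd (nat_lit 156) (nat_lit 380) (nat_lit 0) (XT.nd (nat_lit 78) (nat_lit 0) (nat_lit 0) (XT.lf (nat_lit 0) (nat_lit 101058361894) (nat_lit 228) (nat_lit 94165441302) (nat_lit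 76) (nat_lit 5202153276) (nat_lit 33) (nat_lit 5) (nat_lit 36) (nat_lit 5) (nat_lit 34) (nat_lit 5) (nat_lit 356) (nat_lit 315) (nat_lit 109)) (XT.lf (nat_lit 0) (nat_lit 141294650307) (nat_lit 228) (nat_lit 2179945064) (nat_lit 76) (nat_lit 63989230096) (nat_lit 33) (nat_lit 5) (nat_lit 36) (nat_lit 5) (nat_lit 34) (nat_lit 5) (nat_lit 357) (nat_lit 315) (nat_lit 108))) (XT.nd (nat_lit 78) (nat_lit 228) (nat_lit 0) (XT.lf (nat_lit 0) (nat_lit 97525878424) (nat_lit 152) (nat_lit 87539288615) (nat_lit 228) (nat_lit 29712300385) (nat_lit 31) (nat_lit 5) (nat_lit 33) (nat_lit 5) (nat_lit 34) (nat_lit 5) (nat_lit 358) (nat_lit 315) (nat_lit 107)) (XT.nd (nat_lit 78) (nat_lit 152) (nat_lit 0) (XT.lf (nat_lit 0) (nat_lit 8330493939) (nat_lit 228) (nat_lit 20297022877) (nat_lit 76) (nat_lit 193820722447) (nat_lit 30) (nat_lit 5) (nat_lit 33) (nat_lit 5) (nat_lit 31) (nat_lit 5) (nat_lit 359)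 (nat_lit 315) (nat_lit 106)) (XT.lf (nat_lit 0) (nat_lit 49131628907) (nat_lit 228) (nat_lit 147264454183) (nat_lit 76) (nat_lit 33989375985) (nat_lit 28) (nat_lit 5) (nat_lit 31) (nat_lit 5) (nat_lit 29) (nat_lit 5) (nat_lit 360) (nat_lit 315) (nat_lit 105)))))) (XT.nd (nat_lit 390) (nat_lit 228) (nat_lit 0) (XT.nd (nat_lit 156) (nat_lit 152) (nat_lit 0) (XT.nd (nat_lit 78) (nat_lit 152) (nat_lit 0) (XT.lf (nat_lit 0) (nat_lit 92791276376) (nat_lit 228) (nat_lit 46763061856) (nat_lit 76) (nat_lit 99124279028) (nat_lit 28) (nat_lit 5) (nat_lit 31) (nat_lit 5) (nat_lit 29) (nat_lit 5) (nat_lit 361) (nat_lit 315) (nat_lit 104)) (XT.lf (nat_lit 0) (nat_lit 60706018272) (nat_lit 152) (nat_lit 78875466844) (nat_lit 228) (nat_lit 107757569457) (nat_lit 26) (nat_lit 5) (nat_lit 28) (nat_lit 5) (nat_lit 29) (nat_lit 5) (nat_lit 362) (nat_lit 315) (nat_lit 103))) (XT.nd (nat_lit 78) (nat_lit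 152) (nat_lit 0) (XT.lf (nat_lit 0) (nat_lit 175171712508) (nat_lit 152) (nat_lit 14331239363) (nat_lit 228) (nat_lit 66889974656) (nat_lit 26) (nat_lit 5) (nat_lit 28) (nat_lit 5) (nat_lit 29) (nat_lit 5) (nat_lit 363) (nat_lit 315) (nat_lit 102)) (XT.nd (nat_lit 78) (nat_lit 76) (nat_lit 0) (XT.lf (nat_lit 0) (nat_lit 29573030567) (nat_lit 76) (nat_lit 213643330854) (nat_lit 152) (nat_lit 22618337332) (nat_lit 25) (nat_lit 5) (nat_lit 26) (nat_lit 5) (nat_lit 27) (nat_lit 4) (nat_lit 364) (nat_lit 315) (nat_lit 101)) (XT.lf (nat_lit 0) (nat_lit 24735802266) (nat_lit 152) (nat_lit 127583436238) (nat_lit 76) (nat_lit 123329049290) (nat_lit 24) (nat_lit 5) (nat_lit 26) (nat_lit 5) (nat_lit 25) (nat_lit 5) (nat_lit 365) (nat_lit 315) (nat_lit 100))))) (XT.nd (nat_lit 234) (nat_lit 76) (nat_lit 0) (XT.nd (nat_lit 78) (nat_lit 152) (nat_lit 0) (XT.lf (nat_lit 0) (nat_lit 73697335110) (nat_lit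 152) (nat_lit 13842409325) (nat_lit 76) (nat_lit 198394281824) (nat_lit 24) (nat_lit 5) (nat_lit 26) (nat_lit 5) (nat_lit 25) (nat_lit 5) (nat_lit 366) (nat_lit 315) (nat_lit 99)) (XT.nd (nat_lit 78) (nat_lit 0) (nat_lit 0) (XT.lf (nat_lit 0) (nat_lit 109076489000) (nat_lit 152) (nat_lit 17733265005) (nat_lit 228) (nat_lit 169839157290) (nat_lit 22) (nat_lit 5) (nat_lit 24) (nat_lit 5) (nat_lit 25) (nat_lit 5) (nat_lit 367) (nat_lit 315) (nat_lit 98)) (XT.lf (nat_lit 0) (nat_lit 183683388960) (nat_lit 228) (nat_lit 70137566132) (nat_lit 76) (nat_lit 54023305853) (nat_lit 22) (nat_lit 5) (nat_lit 25) (nat_lit 5) (nat_lit 23) (nat_lit 4) (nat_lit 368) (nat_lit 315) (nat_lit 97)))) (XT.nd (nat_lit 78) (nat_lit 0) (nat_lit 0) (XT.lf (nat_lit 0) (nat_lit 54626414026) (nat_lit 76) (nat_lit 189917702390) (nat_lit 152) (nat_lit 74998091233) (nat_lit 21) (nat_lit 5) (nat_lit 22) (nat_lit 5) (nat_lit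 23) (nat_lit 4) (nat_lit 369) (nat_lit 315) (nat_lit 96)) (XT.nd (nat_lit 36426) (nat_lit 0) (nat_lit 5548) (XT.lf (nat_lit 0) (nat_lit 188063319939) (nat_lit 76) (nat_lit 121572207551) (nat_lit 152) (nat_lit 22130141941) (nat_lit 21) (nat_lit 5) (nat_lit 22) (nat_lit 5) (nat_lit 23) (nat_lit 4) (nat_lit 370) (nat_lit 315) (nat_lit 95)) (XT.lf (nat_lit 0) (nat_lit 14210793009) (nat_lit 0) (nat_lit 14210793009) (nat_lit 684) (nat_lit 2969926955) (nat_lit 94) (nat_lit 5) (nat_lit 94) (nat_lit 3) (nat_lit 103) (nat_lit 3) (nat_lit 316) (nat_lit 316) (nat_lit 148))))))))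
noncomputable def xc235 : XT := (XT.nd (nat_lit 1638) (nat_lit 2280) (nat_lit 0) (XT.nd (nat_lit 780) (nat_lit 1748) (nat_lit 0) (XT.nd (nat_lit 390) (nat_lit 608) (nat_lit 0) (XT.nd (nat_lit 156) (nat_lit 0) (nat_lit 0) (XT.nd (nat_lit 78) (nat_lit 0) (nat_lit 0) (XT.lf (nat_lit 0) (nat_lit 58287512684) (nat_lit 684) (nat_lit 5588877800) (nat_lit 760) (nat_lit 475020334) (nat_lit 94) (nat_lit 5) (nat_lit 103) (nat_lit 3) (nat_lit 104) (nat_lit 5) (nat_lit 317) (nat_lit 316) (nat_lit 147)) (XT.lf (nat_lit 76) (nat_lit 24954526708) (nat_lit 0) (nat_lit 35704090609) (nat_lit 760) (nat_lit 5296872040) (nat_lit 95) (nat_lit 5) (nat_lit 94) (nat_lit 5) (nat_lit 104) (nat_lit 5) (nat_lit 318) (nat_lit 316) (nat_lit 146))) (XT.nd (nat_lit 78) (nat_lit 0) (nat_lit 76) (XT.lf (nat_lit 76) (nat_lit 57218584885) (nat_lit 0) (nat_lit 6023390462) (nat_lit 760) (nat_lit 4393113258) (nat_lit 95) (nat_lit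 5) (nat_lit 94) (nat_lit 5) (nat_lit 104) (nat_lit 5) (nat_lit 319) (nat_lit 316) (nat_lit 145)) (XT.nd (nat_lit 78) (nat_lit 0) (nat_lit 0) (XT.lf (nat_lit 76) (nat_lit 22008483700) (nat_lit 0) (nat_lit 44681257677) (nat_lit 760) (nat_lit 2672166042) (nat_lit 96) (nat_lit 5) (nat_lit 95) (nat_lit 5) (nat_lit 105) (nat_lit 5) (nat_lit 320) (nat_lit 316) (nat_lit 144)) (XT.lf (nat_lit 76) (nat_lit 56313781719) (nat_lit 0) (nat_lit 14268807162) (nat_lit 760) (nat_lit 578845167) (nat_lit 96) (nat_lit 5) (nat_lit 95) (nat_lit 5) (nat_lit 105) (nat_lit 5) (nat_lit 321) (nat_lit 316) (nat_lit 143))))) (XT.nd (nat_lit 156) (nat_lit 0) (nat_lit 76) (XT.nd (nat_lit 78) (nat_lit 0) (nat_lit 0) (XT.lf (nat_lit 0) (nat_lit 2158383645) (nat_lit 760) (nat_lit 53421184653) (nat_lit 836) (nat_lit 17440552907) (nat_lit 86) (nat_lit 5) (nat_lit 96) (nat_lit 5) (nat_lit 97) (nat_lit 5) (nat_lit 322) (nat_lit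 316) (nat_lit 142)) (XT.lf (nat_lit 0) (nat_lit 5501704797) (nat_lit 760) (nat_lit 18923970459) (nat_lit 836) (nat_lit 50521160128) (nat_lit 86) (nat_lit 5) (nat_lit 96) (nat_lit 5) (nat_lit 97) (nat_lit 5) (nat_lit 323) (nat_lit 316) (nat_lit 141))) (XT.nd (nat_lit 78) (nat_lit 0) (nat_lit 0) (XT.lf (nat_lit 0) (nat_lit 9424360336) (nat_lit 760) (nat_lit 59220456406) (nat_lit 836) (nat_lit 8304461374) (nat_lit 87) (nat_lit 5) (nat_lit 97) (nat_lit 5) (nat_lit 98) (nat_lit 5) (nat_lit 324) (nat_lit 316) (nat_lit 140)) (XT.nd (nat_lit 78) (nat_lit 0) (nat_lit 0) (XT.lf (nat_lit 0) (nat_lit 14268573397) (nat_lit 760) (nat_lit 22570851003) (nat_lit 836) (nat_lit 42176148550) (nat_lit 87) (nat_lit 5) (nat_lit 97) (nat_lit 5) (nat_lit 98) (nat_lit 5) (nat_lit 325) (nat_lit 316) (nat_lit 139)) (XT.lf (nat_lit 76) (nat_lit 16436733188) (nat_lit 0) (nat_lit 3174185833) (nat_lit 836) (nat_lit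 61561468551) (nat_lit 88) (nat_lit 5) (nat_lit 87) (nat_lit 5) (nat_lit 98) (nat_lit 5) (nat_lit 326) (nat_lit 316) (nat_lit 138)))))) (XT.nd (nat_lit 390) (nat_lit 988) (nat_lit 0) (XT.nd (nat_lit 156) (nat_lit 380) (nat_lit 0) (XT.nd (nat_lit 78) (nat_lit 532) (nat_lit 0) (XT.lf (nat_lit 0) (nat_lit 26110552410) (nat_lit 760) (nat_lit 25748829383) (nat_lit 76) (nat_lit 31533153698) (nat_lit 88) (nat_lit 5) (nat_lit 98) (nat_lit 5) (nat_lit 89) (nat_lit 5) (nat_lit 327) (nat_lit 316) (nat_lit 137)) (XT.lf (nat_lit 0) (nat_lit 15635145372) (nat_lit 532) (nat_lit 17595523140) (nat_lit 608) (nat_lit 52478248278) (nat_lit 81) (nat_lit 5) (nat_lit 88) (nat_lit 5) (nat_lit 89) (nat_lit 5) (nat_lit 328) (nat_lit 316) (nat_lit 136))) (XT.nd (nat_lit 78) (nat_lit 380) (nat_lit 0) (XT.lf (nat_lit 0) (nat_lit 41436374499) (nat_lit 608) (nat_lit 28431790996) (nat_lit 76) (nat_lit 18236473443) (nat_lit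 81) (nat_lit 5) (nat_lit 89) (nat_lit 5) (nat_lit 82) (nat_lit 5) (nat_lit 329) (nat_lit 316) (nat_lit 135)) (XT.nd (nat_lit 78) (nat_lit 0) (nat_lit 0) (XT.lf (nat_lit 0) (nat_lit 15499340047) (nat_lit 380) (nat_lit 35082873979) (nat_lit 456) (nat_lit 40011441696) (nat_lit 76) (nat_lit 5) (nat_lit 81) (nat_lit 5) (nat_lit 82) (nat_lit 5) (nat_lit 330) (nat_lit 316) (nat_lit 134)) (XT.lf (nat_lit 0) (nat_lit 60696682289) (nat_lit 456) (nat_lit 30599928303) (nat_lit 76) (nat_lit 1884946811) (nat_lit 76) (nat_lit 5) (nat_lit 82) (nat_lit 5) (nat_lit 77) (nat_lit 5) (nat_lit 331) (nat_lit 316) (nat_lit 133))))) (XT.nd (nat_lit 234) (nat_lit 380) (nat_lit 0) (XT.nd (nat_lit 78) (nat_lit 304) (nat_lit 0) (XT.lf (nat_lit 0) (nat_lit 16057422148) (nat_lit 304) (nat_lit 56084737859) (nat_lit 380) (nat_lit 23715430713) (nat_lit 72) (nat_lit 5) (nat_lit 76) (nat_lit 5) (nat_lit 77) (nat_lit 5)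 (nat_lit 332) (nat_lit 316) (nat_lit 132)) (XT.nd (nat_lit 78) (nat_lit 304) (nat_lit 0) (XT.lf (nat_lit 0) (nat_lit 66109444651) (nat_lit 304) (nat_lit 18568164397) (nat_lit 380) (nat_lit 13963932594) (nat_lit 72) (nat_lit 5) (nat_lit 76) (nat_lit 5) (nat_lit 77) (nat_lit 5) (nat_lit 333) (nat_lit 316) (nat_lit 131)) (XT.lf (nat_lit 0) (nat_lit 17328312819) (nat_lit 304) (nat_lit 81106683480) (nat_lit 380) (nat_lit 3099936299) (nat_lit 68) (nat_lit 5) (nat_lit 72) (nat_lit 5) (nat_lit 73) (nat_lit 5) (nat_lit 334) (nat_lit 316) (nat_lit 130)))) (XT.nd (nat_lit 78) (nat_lit 304) (nat_lit 0) (XT.lf (nat_lit 0) (nat_lit 8905254700) (nat_lit 380) (nat_lit 34177952358) (nat_lit 76) (nat_lit 61440107810) (nat_lit 67) (nat_lit 5) (nat_lit 72) (nat_lit 5) (nat_lit 68) (nat_lit 5) (nat_lit 335) (nat_lit 316) (nat_lit 129)) (XT.nd (nat_lit 78) (nat_lit 0) (nat_lit 0) (XT.lf (nat_lit 0) (nat_lit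 18905900491) (nat_lit 304) (nat_lit 2795328496) (nat_lit 380) (nat_lit 85942611906) (nat_lit 63) (nat_lit 5) (nat_lit 67) (nat_lit 5) (nat_lit 68) (nat_lit 5) (nat_lit 336) (nat_lit 316) (nat_lit 128)) (XT.lf (nat_lit 0) (nat_lit 36341666115) (nat_lit 380) (nat_lit 35687777863) (nat_lit 76) (nat_lit 38830716672) (nat_lit 63) (nat_lit 5) (nat_lit 68) (nat_lit 5) (nat_lit 64) (nat_lit 5) (nat_lit 337) (nat_lit 316) (nat_lit 127))))))) (XT.nd (nat_lit 780) (nat_lit 988) (nat_lit 0) (XT.nd (nat_lit 390) (nat_lit 456) (nat_lit 0) (XT.nd (nat_lit 156) (nat_lit 532) (nat_lit 0) (XT.nd (nat_lit 78) (nat_lit 0) (nat_lit 0) (XT.lf (nat_lit 0) (nat_lit 20628794183) (nat_lit 304) (nat_lit 31452792114) (nat_lit 380) (nat_lit 62137337644) (nat_lit 59) (nat_lit 5) (nat_lit 63) (nat_lit 5) (nat_lit 64) (nat_lit 5) (nat_lit 338) (nat_lit 316) (nat_lit 126)) (XT.lf (nat_lit 0) (nat_lit 69396499290) (nat_lit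 380) (nat_lit 36899780558) (nat_lit 76) (nat_lit 11409946286) (nat_lit 59) (nat_lit 5) (nat_lit 64) (nat_lit 5) (nat_lit 60) (nat_lit 5) (nat_lit 339) (nat_lit 316) (nat_lit 125))) (XT.nd (nat_lit 78) (nat_lit 304) (nat_lit 0) (XT.lf (nat_lit 0) (nat_lit 22839978280) (nat_lit 228) (nat_lit 65608989743) (nat_lit 304) (nat_lit 32875335459) (nat_lit 56) (nat_lit 5) (nat_lit 59) (nat_lit 5) (nat_lit 60) (nat_lit 5) (nat_lit 340) (nat_lit 316) (nat_lit 124)) (XT.nd (nat_lit 78) (nat_lit 304) (nat_lit 0) (XT.lf (nat_lit 0) (nat_lit 86847300128) (nat_lit 228) (nat_lit 22231281656) (nat_lit 304) (nat_lit 16013477358) (nat_lit 56) (nat_lit 5) (nat_lit 59) (nat_lit 5) (nat_lit 60) (nat_lit 5) (nat_lit 341) (nat_lit 316) (nat_lit 123)) (XT.lf (nat_lit 0) (nat_lit 2410908911) (nat_lit 304) (nat_lit 103591976698) (nat_lit 76) (nat_lit 23005318369) (nat_lit 52) (nat_lit 5) (nat_lit 56) (nat_lit 5)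 (nat_lit 53) (nat_lit 5) (nat_lit 342) (nat_lit 316) (nat_lit 122))))) (XT.nd (nat_lit 156) (nat_lit 228) (nat_lit 0) (XT.nd (nat_lit 78) (nat_lit 228) (nat_lit 0) (XT.lf (nat_lit 0) (nat_lit 22240742288) (nat_lit 304) (nat_lit 40137818542) (nat_lit 76) (nat_lit 70677350596) (nat_lit 52) (nat_lit 5) (nat_lit 56) (nat_lit 5) (nat_lit 53) (nat_lit 5) (nat_lit 343) (nat_lit 316) (nat_lit 121)) (XT.lf (nat_lit 0) (nat_lit 27364402596) (nat_lit 228) (nat_lit 16124544487) (nat_lit 304) (nat_lit 93795713605) (nat_lit 49) (nat_lit 5) (nat_lit 52) (nat_lit 5) (nat_lit 53) (nat_lit 5) (nat_lit 344) (nat_lit 316) (nat_lit 120))) (XT.nd (nat_lit 78) (nat_lit 228) (nat_lit 0) (XT.lf (nat_lit 0) (nat_lit 66996624637) (nat_lit 304) (nat_lit 42573772042) (nat_lit 76) (nat_lit 32094598021) (nat_lit 49) (nat_lit 5) (nat_lit 53) (nat_lit 5) (nat_lit 50) (nat_lit 5) (nat_lit 345) (nat_lit 316) (nat_lit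 119)) (XT.nd (nat_lit 78) (nat_lit 0) (nat_lit 0) (XT.lf (nat_lit 0) (nat_lit 28796921136) (nat_lit 228) (nat_lit 63596371326) (nat_lit 304) (nat_lit 53835373022) (nat_lit 46) (nat_lit 5) (nat_lit 49) (nat_lit 5) (nat_lit 50) (nat_lit 5) (nat_lit 346) (nat_lit 316) (nat_lit 118)) (XT.lf (nat_lit 0) (nat_lit 105213759955) (nat_lit 228) (nat_lit 14566718783) (nat_lit 304) (nat_lit 31204007187) (nat_lit 46) (nat_lit 5) (nat_lit 49) (nat_lit 5) (nat_lit 50) (nat_lit 5) (nat_lit 347) (nat_lit 316) (nat_lit 117)))))) (XT.nd (nat_lit 390) (nat_lit 380) (nat_lit 0) (XT.nd (nat_lit 156) (nat_lit 380) (nat_lit 0) (XT.nd (nat_lit 78) (nat_lit 76) (nat_lit 0) (XT.lf (nat_lit 0) (nat_lit 29852010227) (nat_lit 152) (nat_lit 119727116152) (nat_lit 228) (nat_lit 6346866261) (nat_lit 44) (nat_lit 5) (nat_lit 46) (nat_lit 5) (nat_lit 47) (nat_lit 5) (nat_lit 348) (nat_lit 316) (nat_lit 116)) (XT.lf (nat_lit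 0) (nat_lit 20147257175) (nat_lit 228) (nat_lit 50791235130) (nat_lit 76) (nat_lit 90109345168) (nat_lit 43) (nat_lit 5) (nat_lit 46) (nat_lit 5) (nat_lit 44) (nat_lit 5) (nat_lit 349) (nat_lit 316) (nat_lit 115))) (XT.nd (nat_lit 78) (nat_lit 152) (nat_lit 0) (XT.lf (nat_lit 0) (nat_lit 29081979281) (nat_lit 228) (nat_lit 19124570580) (nat_lit 304) (nat_lit 118191334676) (nat_lit 40) (nat_lit 5) (nat_lit 43) (nat_lit 5) (nat_lit 44) (nat_lit 5) (nat_lit 350) (nat_lit 316) (nat_lit 114)) (XT.nd (nat_lit 78) (nat_lit 152) (nat_lit 0) (XT.lf (nat_lit 0) (nat_lit 79093616334) (nat_lit 304) (nat_lit 57825569141) (nat_lit 76) (nat_lit 35025008310) (nat_lit 40) (nat_lit 5) (nat_lit 44) (nat_lit 5) (nat_lit 41) (nat_lit 5) (nat_lit 351) (nat_lit 316) (nat_lit 113)) (XT.lf (nat_lit 0) (nat_lit 26162723750) (nat_lit 152) (nat_lit 86084030401) (nat_lit 228) (nat_lit 65484978722) (nat_lit 38) (nat_lit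 5) (nat_lit 40) (nat_lit 5) (nat_lit 41) (nat_lit 5) (nat_lit 352) (nat_lit 316) (nat_lit 112))))) (XT.nd (nat_lit 234) (nat_lit 152) (nat_lit 0) (XT.nd (nat_lit 78) (nat_lit 228) (nat_lit 0) (XT.lf (nat_lit 0) (nat_lit 116357598108) (nat_lit 152) (nat_lit 31678988432) (nat_lit 228) (nat_lit 35723110757) (nat_lit 38) (nat_lit 5) (nat_lit 40) (nat_lit 5) (nat_lit 41) (nat_lit 5) (nat_lit 353) (nat_lit 316) (nat_lit 111)) (XT.nd (nat_lit 78) (nat_lit 76) (nat_lit 0) (XT.lf (nat_lit 0) (nat_lit 21255788198) (nat_lit 152) (nat_lit 165089017203) (nat_lit 228) (nat_lit 3707810049) (nat_lit 36) (nat_lit 5) (nat_lit 38) (nat_lit 5) (nat_lit 39) (nat_lit 5) (nat_lit 354) (nat_lit 316) (nat_lit 110)) (XT.lf (nat_lit 0) (nat_lit 30630278504) (nat_lit 228) (nat_lit 80921878860) (nat_lit 76) (nat_lit 85000711105) (nat_lit 35) (nat_lit 5) (nat_lit 38) (nat_lit 5) (nat_lit 36) (nat_lit 5) (nat_lit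 355) (nat_lit 316) (nat_lit 109)))) (XT.nd (nat_lit 78) (nat_lit 0) (nat_lit 0) (XT.lf (nat_lit 0) (nat_lit 11658806785) (nat_lit 152) (nat_lit 55083642736) (nat_lit 228) (nat_lit 136623556406) (nat_lit 33) (nat_lit 5) (nat_lit 35) (nat_lit 5) (nat_lit 36) (nat_lit 5) (nat_lit 356) (nat_lit 316) (nat_lit 108)) (XT.nd (nat_lit 78) (nat_lit 0) (nat_lit 0) (XT.lf (nat_lit 0) (nat_lit 106118611617) (nat_lit 228) (nat_lit 98861880542) (nat_lit 76) (nat_lit 5466389179) (nat_lit 33) (nat_lit 5) (nat_lit 36) (nat_lit 5) (nat_lit 34) (nat_lit 5) (nat_lit 357) (nat_lit 316) (nat_lit 107)) (XT.lf (nat_lit 0) (nat_lit 148366365326) (nat_lit 228) (nat_lit 2277672960) (nat_lit 76) (nat_lit 67192623258) (nat_lit 33) (nat_lit 5) (nat_lit 36) (nat_lit 5) (nat_lit 34) (nat_lit 5) (nat_lit 358) (nat_lit 316) (nat_lit 106))))))))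
noncomputable def xc236 : XT := (XT.nd (nat_lit 38064) (nat_lit 0) (nat_lit 2052) (XT.nd (nat_lit 780) (nat_lit 0) (nat_lit 0) (XT.nd (nat_lit 390) (nat_lit 304) (nat_lit 0) (XT.nd (nat_lit 156) (nat_lit 304) (nat_lit 0) (XT.nd (nat_lit 78) (nat_lit 76) (nat_lit 0) (XT.lf (nat_lit 0) (nat_lit 102413259939) (nat_lit 152) (nat_lit 91911988564) (nat_lit 228) (nat_lit 31190745355) (nat_lit 31) (nat_lit 5) (nat_lit 33) (nat_lit 5) (nat_lit 34) (nat_lit 5) (nat_lit 359) (nat_lit 316) (nat_lit 105)) (XT.lf (nat_lit 0) (nat_lit 8753628697) (nat_lit 228) (nat_lit 21301090604) (nat_lit 76) (nat_lit 203515596177) (nat_lit 30) (nat_lit 5) (nat_lit 33) (nat_lit 5) (nat_lit 31) (nat_lit 5) (nat_lit 360) (nat_lit 316) (nat_lit 104))) (XT.nd (nat_lit 78) (nat_lit 152) (nat_lit 0) (XT.lf (nat_lit 0) (nat_lit 51594736062) (nat_lit 228) (nat_lit 154616804131) (nat_lit 76) (nat_lit 35692860555) (nat_lit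 28) (nat_lit 5) (nat_lit 31) (nat_lit 5) (nat_lit 29) (nat_lit 5) (nat_lit 361) (nat_lit 316) (nat_lit 103)) (XT.nd (nat_lit 78) (nat_lit 152) (nat_lit 0) (XT.lf (nat_lit 0) (nat_lit 97437055157) (nat_lit 228) (nat_lit 49090859937) (nat_lit 76) (nat_lit 104084317524) (nat_lit 28) (nat_lit 5) (nat_lit 31) (nat_lit 5) (nat_lit 29) (nat_lit 5) (nat_lit 362) (nat_lit 316) (nat_lit 102)) (XT.lf (nat_lit 0) (nat_lit 63751507181) (nat_lit 152) (nat_lit 82815130266) (nat_lit 228) (nat_lit 113139061420) (nat_lit 26) (nat_lit 5) (nat_lit 28) (nat_lit 5) (nat_lit 29) (nat_lit 5) (nat_lit 363) (nat_lit 316) (nat_lit 101))))) (XT.nd (nat_lit 156) (nat_lit 228) (nat_lit 0) (XT.nd (nat_lit 78) (nat_lit 76) (nat_lit 0) (XT.lf (nat_lit 0) (nat_lit 183940000986) (nat_lit 152) (nat_lit 15043887121) (nat_lit 228) (nat_lit 70228390999) (nat_lit 26) (nat_lit 5) (nat_lit 28) (nat_lit 5) (nat_lit 29) (nat_lit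 5) (nat_lit 364) (nat_lit 316) (nat_lit 100)) (XT.lf (nat_lit 0) (nat_lit 31061457334) (nat_lit 76) (nat_lit 224321445971) (nat_lit 152) (nat_lit 23743240085) (nat_lit 25) (nat_lit 5) (nat_lit 26) (nat_lit 5) (nat_lit 27) (nat_lit 4) (nat_lit 365) (nat_lit 316) (nat_lit 99))) (XT.nd (nat_lit 78) (nat_lit 152) (nat_lit 0) (XT.lf (nat_lit 0) (nat_lit 25978136783) (nat_lit 152) (nat_lit 133953111248) (nat_lit 76) (nat_lit 129499173204) (nat_lit 24) (nat_lit 5) (nat_lit 26) (nat_lit 5) (nat_lit 25) (nat_lit 5) (nat_lit 366) (nat_lit 316) (nat_lit 98)) (XT.nd (nat_lit 78) (nat_lit 152) (nat_lit 0) (XT.lf (nat_lit 0) (nat_lit 77387482250) (nat_lit 152) (nat_lit 14525485218) (nat_lit 76) (nat_lit 208317492533) (nat_lit 24) (nat_lit 5) (nat_lit 26) (nat_lit 5) (nat_lit 25) (nat_lit 5) (nat_lit 367) (nat_lit 316) (nat_lit 97)) (XT.lf (nat_lit 0) (nat_lit 114539212142) (nat_lit 152) (nat_lit 18616197435)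 (nat_lit 228) (nat_lit 178325685509) (nat_lit 22) (nat_lit 5) (nat_lit 24) (nat_lit 5) (nat_lit 25) (nat_lit 5) (nat_lit 368) (nat_lit 316) (nat_lit 96)))))) (XT.nd (nat_lit 36894) (nat_lit 0) (nat_lit 4864) (XT.nd (nat_lit 36660) (nat_lit 0) (nat_lit 5472) (XT.nd (nat_lit 36582) (nat_lit 0) (nat_lit 5472) (XT.lf (nat_lit 0) (nat_lit 192872535666) (nat_lit 228) (nat_lit 73635775659) (nat_lit 76) (nat_lit 56727910585) (nat_lit 22) (nat_lit 5) (nat_lit 25) (nat_lit 5) (nat_lit 23) (nat_lit 4) (nat_lit 369) (nat_lit 316) (nat_lit 95)) (XT.lf (nat_lit 0) (nat_lit 14929010745) (nat_lit 0) (nat_lit 14929010745) (nat_lit 684) (nat_lit 3102272043) (nat_lit 94) (nat_lit 5) (nat_lit 94) (nat_lit 3) (nat_lit 103) (nat_lit 3) (nat_lit 317) (nat_lit 317) (nat_lit 146))) (XT.nd (nat_lit 78) (nat_lit 0) (nat_lit 0) (XT.lf (nat_lit 0) (nat_lit 61230909834) (nat_lit 684) (nat_lit 5851953976) (nat_lit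 760) (nat_lit 484614513) (nat_lit 94) (nat_lit 5) (nat_lit 103) (nat_lit 3) (nat_lit 104) (nat_lit 5) (nat_lit 318) (nat_lit 317) (nat_lit 145)) (XT.nd (nat_lit 78) (nat_lit 0) (nat_lit 0) (XT.lf (nat_lit 76) (nat_lit 26218356762) (nat_lit 0) (nat_lit 37501082384) (nat_lit 760) (nat_lit 5532380645) (nat_lit 95) (nat_lit 5) (nat_lit 94) (nat_lit 5) (nat_lit 104) (nat_lit 5) (nat_lit 319) (nat_lit 317) (nat_lit 144)) (XT.lf (nat_lit 76) (nat_lit 60094851005) (nat_lit 0) (nat_lit 6335785932) (nat_lit 760) (nat_lit 4584830829) (nat_lit 95) (nat_lit 5) (nat_lit 94) (nat_lit 5) (nat_lit 104) (nat_lit 5) (nat_lit 320) (nat_lit 317) (nat_lit 143))))) (XT.nd (nat_lit 156) (nat_lit 684) (nat_lit 0) (XT.nd (nat_lit 78) (nat_lit 0) (nat_lit 0) (XT.lf (nat_lit 76) (nat_lit 23125522921) (nat_lit 0) (nat_lit 46924095936) (nat_lit 760) (nat_lit 2779069529) (nat_lit 96) (nat_lit 5) (nat_lit 95) (nat_lit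 5) (nat_lit 105) (nat_lit 5) (nat_lit 321) (nat_lit 317) (nat_lit 142)) (XT.lf (nat_lit 76) (nat_lit 59145294648) (nat_lit 0) (nat_lit 14990605021) (nat_lit 760) (nat_lit 582354268) (nat_lit 96) (nat_lit 5) (nat_lit 95) (nat_lit 5) (nat_lit 105) (nat_lit 5) (nat_lit 322) (nat_lit 317) (nat_lit 141))) (XT.nd (nat_lit 78) (nat_lit 0) (nat_lit 0) (XT.lf (nat_lit 0) (nat_lit 2289891953) (nat_lit 760) (nat_lit 56074496526) (nat_lit 836) (nat_lit 18305520556) (nat_lit 86) (nat_lit 5) (nat_lit 96) (nat_lit 5) (nat_lit 97) (nat_lit 5) (nat_lit 323) (nat_lit 317) (nat_lit 140)) (XT.nd (nat_lit 78) (nat_lit 0) (nat_lit 76) (XT.lf (nat_lit 0) (nat_lit 5799255872) (nat_lit 760) (nat_lit 19853266735) (nat_lit 836) (nat_lit 53040494329) (nat_lit 86) (nat_lit 5) (nat_lit 96) (nat_lit 5) (nat_lit 97) (nat_lit 5) (nat_lit 324) (nat_lit 317) (nat_lit 139)) (XT.lf (nat_lit 0) (nat_lit 9917155551) (nat_lit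 760) (nat_lit 62163653175) (nat_lit 836) (nat_lit 8714819269) (nat_lit 87) (nat_lit 5) (nat_lit 97) (nat_lit 5) (nat_lit 98) (nat_lit 5) (nat_lit 325) (nat_lit 317) (nat_lit 138))))))) (XT.nd (nat_lit 780) (nat_lit 1444) (nat_lit 0) (XT.nd (nat_lit 390) (nat_lit 988) (nat_lit 0) (XT.nd (nat_lit 156) (nat_lit 456) (nat_lit 0) (XT.nd (nat_lit 78) (nat_lit 0) (nat_lit 0) (XT.lf (nat_lit 0) (nat_lit 15002551779) (nat_lit 760) (nat_lit 23682416361) (nat_lit 836) (nat_lit 44280322479) (nat_lit 87) (nat_lit 5) (nat_lit 97) (nat_lit 5) (nat_lit 98) (nat_lit 5) (nat_lit 326) (nat_lit 317) (nat_lit 137)) (XT.lf (nat_lit 76) (nat_lit 17275273214) (nat_lit 0) (nat_lit 3336023699) (nat_lit 836) (nat_lit 64618686543) (nat_lit 88) (nat_lit 5) (nat_lit 87) (nat_lit 5) (nat_lit 98) (nat_lit 5) (nat_lit 327) (nat_lit 317) (nat_lit 136))) (XT.nd (nat_lit 78) (nat_lit 532) (nat_lit 0) (XT.lf (nat_lit 0)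 (nat_lit 27434921073) (nat_lit 760) (nat_lit 27019341607) (nat_lit 76) (nat_lit 33106927154) (nat_lit 88) (nat_lit 5) (nat_lit 98) (nat_lit 5) (nat_lit 89) (nat_lit 5) (nat_lit 328) (nat_lit 317) (nat_lit 135)) (XT.nd (nat_lit 78) (nat_lit 0) (nat_lit 0) (XT.lf (nat_lit 0) (nat_lit 16433558834) (nat_lit 532) (nat_lit 18476847004) (nat_lit 608) (nat_lit 55083017664) (nat_lit 81) (nat_lit 5) (nat_lit 88) (nat_lit 5) (nat_lit 89) (nat_lit 5) (nat_lit 329) (nat_lit 317) (nat_lit 134)) (XT.lf (nat_lit 0) (nat_lit 43525507259) (nat_lit 608) (nat_lit 29836600084) (nat_lit 76) (nat_lit 19146870286) (nat_lit 81) (nat_lit 5) (nat_lit 89) (nat_lit 5) (nat_lit 82) (nat_lit 5) (nat_lit 330) (nat_lit 317) (nat_lit 133))))) (XT.nd (nat_lit 156) (nat_lit 608) (nat_lit 0) (XT.nd (nat_lit 78) (nat_lit 0) (nat_lit 0) (XT.lf (nat_lit 0) (nat_lit 16290816858) (nat_lit 380) (nat_lit 36837255190) (nat_lit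 456) (nat_lit 41994402851) (nat_lit 76) (nat_lit 5) (nat_lit 81) (nat_lit 5) (nat_lit 82) (nat_lit 5) (nat_lit 331) (nat_lit 317) (nat_lit 132)) (XT.lf (nat_lit 0) (nat_lit 63747462701) (nat_lit 456) (nat_lit 32113375074) (nat_lit 76) (nat_lit 1978975190) (nat_lit 76) (nat_lit 5) (nat_lit 82) (nat_lit 5) (nat_lit 77) (nat_lit 5) (nat_lit 332) (nat_lit 317) (nat_lit 131))) (XT.nd (nat_lit 78) (nat_lit 304) (nat_lit 0) (XT.lf (nat_lit 0) (nat_lit 16876575970) (nat_lit 304) (nat_lit 58888133207) (nat_lit 380) (nat_lit 24884965218) (nat_lit 72) (nat_lit 5) (nat_lit 76) (nat_lit 5) (nat_lit 77) (nat_lit 5) (nat_lit 333) (nat_lit 317) (nat_lit 130)) (XT.nd (nat_lit 78) (nat_lit 304) (nat_lit 0) (XT.lf (nat_lit 0) (nat_lit 69430424231) (nat_lit 304) (nat_lit 19495771145) (nat_lit 380) (nat_lit 14646665385) (nat_lit 72) (nat_lit 5) (nat_lit 76) (nat_lit 5) (nat_lit 77) (nat_lit 5) (nat_lit 334)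 (nat_lit 317) (nat_lit 129)) (XT.lf (nat_lit 0) (nat_lit 18210719116) (nat_lit 304) (nat_lit 85160294170) (nat_lit 380) (nat_lit 3239930993) (nat_lit 68) (nat_lit 5) (nat_lit 72) (nat_lit 5) (nat_lit 73) (nat_lit 5) (nat_lit 335) (nat_lit 317) (nat_lit 128)))))) (XT.nd (nat_lit 390) (nat_lit 760) (nat_lit 0) (XT.nd (nat_lit 156) (nat_lit 304) (nat_lit 0) (XT.nd (nat_lit 78) (nat_lit 304) (nat_lit 0) (XT.lf (nat_lit 0) (nat_lit 9364347872) (nat_lit 380) (nat_lit 35871143901) (nat_lit 76) (nat_lit 64513277734) (nat_lit 67) (nat_lit 5) (nat_lit 72) (nat_lit 5) (nat_lit 68) (nat_lit 5) (nat_lit 336) (nat_lit 317) (nat_lit 127)) (XT.lf (nat_lit 0) (nat_lit 19866648267) (nat_lit 304) (nat_lit 2933055275) (nat_lit 380) (nat_lit 90225640090) (nat_lit 63) (nat_lit 5) (nat_lit 67) (nat_lit 5) (nat_lit 68) (nat_lit 5) (nat_lit 337) (nat_lit 317) (nat_lit 126))) (XT.nd (nat_lit 78) (nat_lit 304)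 (nat_lit 0) (XT.lf (nat_lit 0) (nat_lit 38171554135) (nat_lit 380) (nat_lit 37456823697) (nat_lit 76) (nat_lit 40774132853) (nat_lit 63) (nat_lit 5) (nat_lit 68) (nat_lit 5) (nat_lit 64) (nat_lit 5) (nat_lit 338) (nat_lit 317) (nat_lit 125)) (XT.nd (nat_lit 78) (nat_lit 0) (nat_lit 0) (XT.lf (nat_lit 0) (nat_lit 21675329483) (nat_lit 304) (nat_lit 33022766779) (nat_lit 380) (nat_lit 65231135427) (nat_lit 59) (nat_lit 5) (nat_lit 63) (nat_lit 5) (nat_lit 64) (nat_lit 5) (nat_lit 339) (nat_lit 317) (nat_lit 124)) (XT.lf (nat_lit 0) (nat_lit 72878202595) (nat_lit 380) (nat_lit 38729824412) (nat_lit 76) (nat_lit 11982900406) (nat_lit 59) (nat_lit 5) (nat_lit 64) (nat_lit 5) (nat_lit 60) (nat_lit 5) (nat_lit 340) (nat_lit 317) (nat_lit 123))))) (XT.nd (nat_lit 234) (nat_lit 228) (nat_lit 0) (XT.nd (nat_lit 78) (nat_lit 304) (nat_lit 0) (XT.lf (nat_lit 0) (nat_lit 23996681317) (nat_lit 228)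 (nat_lit 68886277385) (nat_lit 304) (nat_lit 34506967496) (nat_lit 56) (nat_lit 5) (nat_lit 59) (nat_lit 5) (nat_lit 60) (nat_lit 5) (nat_lit 341) (nat_lit 317) (nat_lit 122)) (XT.nd (nat_lit 78) (nat_lit 304) (nat_lit 0) (XT.lf (nat_lit 0) (nat_lit 91203669061) (nat_lit 228) (nat_lit 23339834458) (nat_lit 304) (nat_lit 16802594335) (nat_lit 56) (nat_lit 5) (nat_lit 59) (nat_lit 5) (nat_lit 60) (nat_lit 5) (nat_lit 342) (nat_lit 317) (nat_lit 121)) (XT.lf (nat_lit 0) (nat_lit 2542380867) (nat_lit 304) (nat_lit 108756914053) (nat_lit 76) (nat_lit 24158759677) (nat_lit 52) (nat_lit 5) (nat_lit 56) (nat_lit 5) (nat_lit 53) (nat_lit 5) (nat_lit 343) (nat_lit 317) (nat_lit 120)))) (XT.nd (nat_lit 78) (nat_lit 228) (nat_lit 0) (XT.lf (nat_lit 0) (nat_lit 23363185603) (nat_lit 304) (nat_lit 42130746155) (nat_lit 76) (nat_lit 74214242306) (nat_lit 52) (nat_lit 5) (nat_lit 56) (nat_lit 5) (nat_lit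 53) (nat_lit 5) (nat_lit 344) (nat_lit 317) (nat_lit 119)) (XT.nd (nat_lit 78) (nat_lit 0) (nat_lit 0) (XT.lf (nat_lit 0) (nat_lit 28746360825) (nat_lit 228) (nat_lit 16927158770) (nat_lit 304) (nat_lit 98474855849) (nat_lit 49) (nat_lit 5) (nat_lit 52) (nat_lit 5) (nat_lit 53) (nat_lit 5) (nat_lit 345) (nat_lit 317) (nat_lit 118)) (XT.lf (nat_lit 0) (nat_lit 70356152597) (nat_lit 304) (nat_lit 44688936863) (nat_lit 76) (nat_lit 33702658689) (nat_lit 49) (nat_lit 5) (nat_lit 53) (nat_lit 5) (nat_lit 50) (nat_lit 5) (nat_lit 346) (nat_lit 317) (nat_lit 117))))))))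
noncomputable def xc237 : XT := (XT.nd (nat_lit 1638) (nat_lit 152) (nat_lit 0) (XT.nd (nat_lit 780) (nat_lit 836) (nat_lit 0) (XT.nd (nat_lit 390) (nat_lit 380) (nat_lit 0) (XT.nd (nat_lit 156) (nat_lit 456) (nat_lit 0) (XT.nd (nat_lit 78) (nat_lit 0) (nat_lit 0) (XT.lf (nat_lit 0) (nat_lit 30250072849) (nat_lit 228) (nat_lit 66772326954) (nat_lit 304) (nat_lit 56517215914) (nat_lit 46) (nat_lit 5) (nat_lit 49) (nat_lit 5) (nat_lit 50) (nat_lit 5) (nat_lit 347) (nat_lit 317) (nat_lit 116)) (XT.lf (nat_lit 0) (nat_lit 110487120006) (nat_lit 228) (nat_lit 15291375733) (nat_lit 304) (nat_lit 32754754443) (nat_lit 46) (nat_lit 5) (nat_lit 49) (nat_lit 5) (nat_lit 50) (nat_lit 5) (nat_lit 348) (nat_lit 317) (nat_lit 115))) (XT.nd (nat_lit 78) (nat_lit 304) (nat_lit 0) (XT.lf (nat_lit 0) (nat_lit 31357474510) (nat_lit 152) (nat_lit 125709428556) (nat_lit 228) (nat_lit 6654938298) (nat_lit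 44) (nat_lit 5) (nat_lit 46) (nat_lit 5) (nat_lit 47) (nat_lit 5) (nat_lit 349) (nat_lit 317) (nat_lit 114)) (XT.nd (nat_lit 78) (nat_lit 228) (nat_lit 0) (XT.lf (nat_lit 0) (nat_lit 21163167213) (nat_lit 228) (nat_lit 53318254097) (nat_lit 76) (nat_lit 94618371708) (nat_lit 43) (nat_lit 5) (nat_lit 46) (nat_lit 5) (nat_lit 44) (nat_lit 5) (nat_lit 350) (nat_lit 317) (nat_lit 113)) (XT.lf (nat_lit 0) (nat_lit 30548418732) (nat_lit 228) (nat_lit 20076791462) (nat_lit 304) (nat_lit 124092143384) (nat_lit 40) (nat_lit 5) (nat_lit 43) (nat_lit 5) (nat_lit 44) (nat_lit 5) (nat_lit 351) (nat_lit 317) (nat_lit 112))))) (XT.nd (nat_lit 156) (nat_lit 228) (nat_lit 0) (XT.nd (nat_lit 78) (nat_lit 152) (nat_lit 0) (XT.lf (nat_lit 0) (nat_lit 83056292779) (nat_lit 304) (nat_lit 60704749406) (nat_lit 76) (nat_lit 36779953371) (nat_lit 40) (nat_lit 5) (nat_lit 44) (nat_lit 5) (nat_lit 41) (nat_lit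 5) (nat_lit 352) (nat_lit 317) (nat_lit 111)) (XT.lf (nat_lit 0) (nat_lit 27482762998) (nat_lit 152) (nat_lit 90384129586) (nat_lit 228) (nat_lit 68751029148) (nat_lit 38) (nat_lit 5) (nat_lit 40) (nat_lit 5) (nat_lit 41) (nat_lit 5) (nat_lit 353) (nat_lit 317) (nat_lit 110))) (XT.nd (nat_lit 78) (nat_lit 228) (nat_lit 0) (XT.lf (nat_lit 0) (nat_lit 122186814262) (nat_lit 152) (nat_lit 33259030867) (nat_lit 228) (nat_lit 37501458189) (nat_lit 38) (nat_lit 5) (nat_lit 40) (nat_lit 5) (nat_lit 41) (nat_lit 5) (nat_lit 354) (nat_lit 317) (nat_lit 109)) (XT.nd (nat_lit 78) (nat_lit 76) (nat_lit 0) (XT.lf (nat_lit 0) (nat_lit 22330043732) (nat_lit 152) (nat_lit 173339314540) (nat_lit 228) (nat_lit 3885515292) (nat_lit 36) (nat_lit 5) (nat_lit 38) (nat_lit 5) (nat_lit 39) (nat_lit 5) (nat_lit 355) (nat_lit 317) (nat_lit 108)) (XT.lf (nat_lit 0) (nat_lit 32168877460) (nat_lit 228) (nat_lit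 84956812046) (nat_lit 76) (nat_lit 89254461758) (nat_lit 35) (nat_lit 5) (nat_lit 38) (nat_lit 5) (nat_lit 36) (nat_lit 5) (nat_lit 356) (nat_lit 317) (nat_lit 107)))))) (XT.nd (nat_lit 390) (nat_lit 456) (nat_lit 0) (XT.nd (nat_lit 156) (nat_lit 228) (nat_lit 0) (XT.nd (nat_lit 78) (nat_lit 0) (nat_lit 0) (XT.lf (nat_lit 0) (nat_lit 12252727869) (nat_lit 152) (nat_lit 57833763217) (nat_lit 228) (nat_lit 143447463110) (nat_lit 33) (nat_lit 5) (nat_lit 35) (nat_lit 5) (nat_lit 36) (nat_lit 5) (nat_lit 357) (nat_lit 317) (nat_lit 106)) (XT.lf (nat_lit 0) (nat_lit 111431192201) (nat_lit 228) (nat_lit 103794241849) (nat_lit 76) (nat_lit 5743453074) (nat_lit 33) (nat_lit 5) (nat_lit 36) (nat_lit 5) (nat_lit 34) (nat_lit 5) (nat_lit 358) (nat_lit 317) (nat_lit 105))) (XT.nd (nat_lit 78) (nat_lit 228) (nat_lit 0) (XT.lf (nat_lit 0) (nat_lit 155791016928) (nat_lit 228) (nat_lit 2381334969) (nat_lit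 76) (nat_lit 70555820549) (nat_lit 33) (nat_lit 5) (nat_lit 36) (nat_lit 5) (nat_lit 34) (nat_lit 5) (nat_lit 359) (nat_lit 317) (nat_lit 104)) (XT.nd (nat_lit 78) (nat_lit 76) (nat_lit 0) (XT.lf (nat_lit 0) (nat_lit 107543979710) (nat_lit 152) (nat_lit 96503719981) (nat_lit 228) (nat_lit 32743779177) (nat_lit 31) (nat_lit 5) (nat_lit 33) (nat_lit 5) (nat_lit 34) (nat_lit 5) (nat_lit 360) (nat_lit 317) (nat_lit 103)) (XT.lf (nat_lit 0) (nat_lit 9197305651) (nat_lit 228) (nat_lit 22356364258) (nat_lit 76) (nat_lit 213694856810) (nat_lit 30) (nat_lit 5) (nat_lit 33) (nat_lit 5) (nat_lit 31) (nat_lit 5) (nat_lit 361) (nat_lit 317) (nat_lit 102))))) (XT.nd (nat_lit 234) (nat_lit 152) (nat_lit 0) (XT.nd (nat_lit 78) (nat_lit 152) (nat_lit 0) (XT.lf (nat_lit 0) (nat_lit 54180391877) (nat_lit 228) (nat_lit 162337782421) (nat_lit 76) (nat_lit 37481146006) (nat_lit 28) (nat_lit 5) (nat_lit 31)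 (nat_lit 5) (nat_lit 29) (nat_lit 5) (nat_lit 362) (nat_lit 317) (nat_lit 101)) (XT.nd (nat_lit 78) (nat_lit 152) (nat_lit 0) (XT.lf (nat_lit 0) (nat_lit 102314545068) (nat_lit 228) (nat_lit 51536010634) (nat_lit 76) (nat_lit 109292002374) (nat_lit 28) (nat_lit 5) (nat_lit 31) (nat_lit 5) (nat_lit 29) (nat_lit 5) (nat_lit 363) (nat_lit 317) (nat_lit 100)) (XT.lf (nat_lit 0) (nat_lit 66948323352) (nat_lit 152) (nat_lit 86952158960) (nat_lit 228) (nat_lit 118790221739) (nat_lit 26) (nat_lit 5) (nat_lit 28) (nat_lit 5) (nat_lit 29) (nat_lit 5) (nat_lit 364) (nat_lit 317) (nat_lit 99)))) (XT.nd (nat_lit 78) (nat_lit 152) (nat_lit 0) (XT.lf (nat_lit 0) (nat_lit 193145801808) (nat_lit 152) (nat_lit 15792531173) (nat_lit 228) (nat_lit 73734293642) (nat_lit 26) (nat_lit 5) (nat_lit 28) (nat_lit 5) (nat_lit 29) (nat_lit 5) (nat_lit 365) (nat_lit 317) (nat_lit 98)) (XT.nd (nat_lit 78) (nat_lit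 76) (nat_lit 0) (XT.lf (nat_lit 0) (nat_lit 32623396630) (nat_lit 76) (nat_lit 235533843508) (nat_lit 152) (nat_lit 24924947111) (nat_lit 25) (nat_lit 5) (nat_lit 26) (nat_lit 5) (nat_lit 27) (nat_lit 4) (nat_lit 366) (nat_lit 317) (nat_lit 97)) (XT.lf (nat_lit 0) (nat_lit 27282072561) (nat_lit 152) (nat_lit 140642152932) (nat_lit 76) (nat_lit 135977461977) (nat_lit 24) (nat_lit 5) (nat_lit 26) (nat_lit 5) (nat_lit 25) (nat_lit 5) (nat_lit 367) (nat_lit 317) (nat_lit 96))))))) (XT.nd (nat_lit 37362) (nat_lit 0) (nat_lit 3496) (XT.nd (nat_lit 36972) (nat_lit 0) (nat_lit 4864) (XT.nd (nat_lit 36738) (nat_lit 0) (nat_lit 5472) (XT.nd (nat_lit 78) (nat_lit 152) (nat_lit 0) (XT.lf (nat_lit 0) (nat_lit 81261645828) (nat_lit 152) (nat_lit 15243555785) (nat_lit 76) (nat_lit 218736538696) (nat_lit 24) (nat_lit 5) (nat_lit 26) (nat_lit 5) (nat_lit 25) (nat_lit 5) (nat_lit 368) (nat_lit 317) (nat_lit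 95)) (XT.lf (nat_lit 0) (nat_lit 120274244126) (nat_lit 152) (nat_lit 19543623342) (nat_lit 228) (nat_lit 187237044935) (nat_lit 22) (nat_lit 5) (nat_lit 24) (nat_lit 5) (nat_lit 25) (nat_lit 5) (nat_lit 369) (nat_lit 317) (nat_lit 94))) (XT.nd (nat_lit 78) (nat_lit 0) (nat_lit 0) (XT.lf (nat_lit 0) (nat_lit 15682425533) (nat_lit 0) (nat_lit 15682425533) (nat_lit 684) (nat_lit 3242735977) (nat_lit 94) (nat_lit 5) (nat_lit 94) (nat_lit 3) (nat_lit 103) (nat_lit 3) (nat_lit 318) (nat_lit 318) (nat_lit 144)) (XT.nd (nat_lit 78) (nat_lit 0) (nat_lit 0) (XT.lf (nat_lit 0) (nat_lit 64318778697) (nat_lit 684) (nat_lit 6129705675) (nat_lit 760) (nat_lit 496004571) (nat_lit 94) (nat_lit 5) (nat_lit 103) (nat_lit 3) (nat_lit 104) (nat_lit 5) (nat_lit 319) (nat_lit 318) (nat_lit 143)) (XT.lf (nat_lit 76) (nat_lit 27543881148) (nat_lit 0) (nat_lit 39386827882) (nat_lit 760) (nat_lit 5782391971)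 (nat_lit 95) (nat_lit 5) (nat_lit 94) (nat_lit 5) (nat_lit 104) (nat_lit 5) (nat_lit 320) (nat_lit 318) (nat_lit 142))))) (XT.nd (nat_lit 156) (nat_lit 608) (nat_lit 0) (XT.nd (nat_lit 78) (nat_lit 0) (nat_lit 76) (XT.lf (nat_lit 76) (nat_lit 63113504553) (nat_lit 0) (nat_lit 6662757494) (nat_lit 760) (nat_lit 4788731698) (nat_lit 95) (nat_lit 5) (nat_lit 94) (nat_lit 5) (nat_lit 104) (nat_lit 5) (nat_lit 321) (nat_lit 318) (nat_lit 141)) (XT.lf (nat_lit 76) (nat_lit 24296869394) (nat_lit 0) (nat_lit 49278260257) (nat_lit 760) (nat_lit 2893800950) (nat_lit 96) (nat_lit 5) (nat_lit 95) (nat_lit 5) (nat_lit 105) (nat_lit 5) (nat_lit 322) (nat_lit 318) (nat_lit 140))) (XT.nd (nat_lit 78) (nat_lit 684) (nat_lit 0) (XT.lf (nat_lit 76) (nat_lit 62116912073) (nat_lit 0) (nat_lit 15747715771) (nat_lit 760) (nat_lit 588403358) (nat_lit 96) (nat_lit 5) (nat_lit 95) (nat_lit 5) (nat_lit 105) (nat_lit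 5) (nat_lit 323) (nat_lit 318) (nat_lit 139)) (XT.nd (nat_lit 78) (nat_lit 0) (nat_lit 0) (XT.lf (nat_lit 0) (nat_lit 2425782584) (nat_lit 760) (nat_lit 58862123975) (nat_lit 836) (nat_lit 19214392959) (nat_lit 86) (nat_lit 5) (nat_lit 96) (nat_lit 5) (nat_lit 97) (nat_lit 5) (nat_lit 324) (nat_lit 318) (nat_lit 138)) (XT.lf (nat_lit 0) (nat_lit 6109595840) (nat_lit 760) (nat_lit 20830599236) (nat_lit 836) (nat_lit 55686420354) (nat_lit 86) (nat_lit 5) (nat_lit 96) (nat_lit 5) (nat_lit 97) (nat_lit 5) (nat_lit 325) (nat_lit 318) (nat_lit 137)))))) (XT.nd (nat_lit 390) (nat_lit 988) (nat_lit 0) (XT.nd (nat_lit 156) (nat_lit 456) (nat_lit 0) (XT.nd (nat_lit 78) (nat_lit 0) (nat_lit 0) (XT.lf (nat_lit 0) (nat_lit 10432584483) (nat_lit 760) (nat_lit 65255667079) (nat_lit 836) (nat_lit 9146147376) (nat_lit 87) (nat_lit 5) (nat_lit 97) (nat_lit 5) (nat_lit 98) (nat_lit 5) (nat_lit 326) (nat_lit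 318) (nat_lit 136)) (XT.lf (nat_lit 0) (nat_lit 15771318563) (nat_lit 760) (nat_lit 24851138365) (nat_lit 836) (nat_lit 46490135883) (nat_lit 87) (nat_lit 5) (nat_lit 97) (nat_lit 5) (nat_lit 98) (nat_lit 5) (nat_lit 327) (nat_lit 318) (nat_lit 135))) (XT.nd (nat_lit 78) (nat_lit 456) (nat_lit 0) (XT.lf (nat_lit 76) (nat_lit 18154187320) (nat_lit 0) (nat_lit 3505662593) (nat_lit 836) (nat_lit 67830704374) (nat_lit 88) (nat_lit 5) (nat_lit 87) (nat_lit 5) (nat_lit 98) (nat_lit 5) (nat_lit 328) (nat_lit 318) (nat_lit 134)) (XT.nd (nat_lit 78) (nat_lit 532) (nat_lit 0) (XT.lf (nat_lit 0) (nat_lit 28823756508) (nat_lit 760) (nat_lit 28354953363) (nat_lit 76) (nat_lit 34759657431) (nat_lit 88) (nat_lit 5) (nat_lit 98) (nat_lit 5) (nat_lit 89) (nat_lit 5) (nat_lit 329) (nat_lit 318) (nat_lit 133)) (XT.lf (nat_lit 0) (nat_lit 17270344433) (nat_lit 532) (nat_lit 19402093170) (nat_lit 608) (nat_lit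 57819805257) (nat_lit 81) (nat_lit 5) (nat_lit 88) (nat_lit 5) (nat_lit 89) (nat_lit 5) (nat_lit 330) (nat_lit 318) (nat_lit 132))))) (XT.nd (nat_lit 234) (nat_lit 608) (nat_lit 0) (XT.nd (nat_lit 78) (nat_lit 380) (nat_lit 0) (XT.lf (nat_lit 0) (nat_lit 45717486961) (nat_lit 608) (nat_lit 31313209714) (nat_lit 76) (nat_lit 20102919624) (nat_lit 81) (nat_lit 5) (nat_lit 89) (nat_lit 5) (nat_lit 82) (nat_lit 5) (nat_lit 331) (nat_lit 318) (nat_lit 131)) (XT.nd (nat_lit 78) (nat_lit 0) (nat_lit 0) (XT.lf (nat_lit 0) (nat_lit 17120332585) (nat_lit 380) (nat_lit 38679333379) (nat_lit 456) (nat_lit 44078149361) (nat_lit 76) (nat_lit 5) (nat_lit 81) (nat_lit 5) (nat_lit 82) (nat_lit 5) (nat_lit 332) (nat_lit 318) (nat_lit 130)) (XT.lf (nat_lit 0) (nat_lit 66949299598) (nat_lit 456) (nat_lit 33704032812) (nat_lit 76) (nat_lit 2077725345) (nat_lit 76) (nat_lit 5) (nat_lit 82) (nat_lit 5) (nat_lit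 77) (nat_lit 5) (nat_lit 333) (nat_lit 318) (nat_lit 129)))) (XT.nd (nat_lit 78) (nat_lit 304) (nat_lit 0) (XT.lf (nat_lit 0) (nat_lit 17735173670) (nat_lit 304) (nat_lit 61831776560) (nat_lit 380) (nat_lit 26114486013) (nat_lit 72) (nat_lit 5) (nat_lit 76) (nat_lit 5) (nat_lit 77) (nat_lit 5) (nat_lit 334) (nat_lit 318) (nat_lit 128)) (XT.nd (nat_lit 78) (nat_lit 304) (nat_lit 0) (XT.lf (nat_lit 0) (nat_lit 72916011064) (nat_lit 304) (nat_lit 20469832744) (nat_lit 380) (nat_lit 15364972497) (nat_lit 72) (nat_lit 5) (nat_lit 76) (nat_lit 5) (nat_lit 77) (nat_lit 5) (nat_lit 335) (nat_lit 318) (nat_lit 127)) (XT.lf (nat_lit 0) (nat_lit 19135759068) (nat_lit 304) (nat_lit 89416745628) (nat_lit 380) (nat_lit 3388320177) (nat_lit 68) (nat_lit 5) (nat_lit 72) (nat_lit 5) (nat_lit 73) (nat_lit 5) (nat_lit 336) (nat_lit 318) (nat_lit 126))))))))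
noncomputable def xc238 : XT := (XT.nd (nat_lit 1560) (nat_lit 912) (nat_lit 0) (XT.nd (nat_lit 780) (nat_lit 988) (nat_lit 0) (XT.nd (nat_lit 390) (nat_lit 760) (nat_lit 0) (XT.nd (nat_lit 156) (nat_lit 304) (nat_lit 0) (XT.nd (nat_lit 78) (nat_lit 304) (nat_lit 0) (XT.lf (nat_lit 0) (nat_lit 9845109880) (nat_lit 380) (nat_lit 37650455223) (nat_lit 76) (nat_lit 67739997887) (nat_lit 67) (nat_lit 5) (nat_lit 72) (nat_lit 5) (nat_lit 68) (nat_lit 5) (nat_lit 337) (nat_lit 318) (nat_lit 125)) (XT.lf (nat_lit 0) (nat_lit 20873996781) (nat_lit 304) (nat_lit 3077858020) (nat_lit 380) (nat_lit 94724130792) (nat_lit 63) (nat_lit 5) (nat_lit 67) (nat_lit 5) (nat_lit 68) (nat_lit 5) (nat_lit 338) (nat_lit 318) (nat_lit 124))) (XT.nd (nat_lit 78) (nat_lit 304) (nat_lit 0) (XT.lf (nat_lit 0) (nat_lit 40091746095) (nat_lit 380) (nat_lit 39315748274) (nat_lit 76) (nat_lit 42814545026) (nat_lit 63)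 (nat_lit 5) (nat_lit 68) (nat_lit 5) (nat_lit 64) (nat_lit 5) (nat_lit 339) (nat_lit 318) (nat_lit 123)) (XT.nd (nat_lit 78) (nat_lit 0) (nat_lit 0) (XT.lf (nat_lit 0) (nat_lit 22772788103) (nat_lit 304) (nat_lit 34671487939) (nat_lit 380) (nat_lit 68480838139) (nat_lit 59) (nat_lit 5) (nat_lit 63) (nat_lit 5) (nat_lit 64) (nat_lit 5) (nat_lit 340) (nat_lit 318) (nat_lit 122)) (XT.lf (nat_lit 0) (nat_lit 76532886730) (nat_lit 380) (nat_lit 40652759919) (nat_lit 76) (nat_lit 12584273821) (nat_lit 59) (nat_lit 5) (nat_lit 64) (nat_lit 5) (nat_lit 60) (nat_lit 5) (nat_lit 341) (nat_lit 318) (nat_lit 121))))) (XT.nd (nat_lit 156) (nat_lit 532) (nat_lit 0) (XT.nd (nat_lit 78) (nat_lit 0) (nat_lit 0) (XT.lf (nat_lit 0) (nat_lit 25209852456) (nat_lit 228) (nat_lit 72327723368) (nat_lit 304) (nat_lit 36221309308) (nat_lit 56) (nat_lit 5) (nat_lit 59) (nat_lit 5) (nat_lit 60) (nat_lit 5) (nat_lit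 342) (nat_lit 318) (nat_lit 120)) (XT.lf (nat_lit 0) (nat_lit 95776554488) (nat_lit 228) (nat_lit 24504094860) (nat_lit 304) (nat_lit 17632241610) (nat_lit 56) (nat_lit 5) (nat_lit 59) (nat_lit 5) (nat_lit 60) (nat_lit 5) (nat_lit 343) (nat_lit 318) (nat_lit 119))) (XT.nd (nat_lit 78) (nat_lit 228) (nat_lit 0) (XT.lf (nat_lit 0) (nat_lit 2679410577) (nat_lit 304) (nat_lit 114181461362) (nat_lit 76) (nat_lit 25369577833) (nat_lit 52) (nat_lit 5) (nat_lit 56) (nat_lit 5) (nat_lit 53) (nat_lit 5) (nat_lit 344) (nat_lit 318) (nat_lit 118)) (XT.nd (nat_lit 78) (nat_lit 228) (nat_lit 0) (XT.lf (nat_lit 0) (nat_lit 24540783613) (nat_lit 304) (nat_lit 44224618326) (nat_lit 76) (nat_lit 77927697442) (nat_lit 52) (nat_lit 5) (nat_lit 56) (nat_lit 5) (nat_lit 53) (nat_lit 5) (nat_lit 345) (nat_lit 318) (nat_lit 117)) (XT.lf (nat_lit 0) (nat_lit 30196139727) (nat_lit 228) (nat_lit 17770239663) (nat_lit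 304) (nat_lit 103388944730) (nat_lit 49) (nat_lit 5) (nat_lit 52) (nat_lit 5) (nat_lit 53) (nat_lit 5) (nat_lit 346) (nat_lit 318) (nat_lit 116)))))) (XT.nd (nat_lit 390) (nat_lit 532) (nat_lit 0) (XT.nd (nat_lit 156) (nat_lit 228) (nat_lit 0) (XT.nd (nat_lit 78) (nat_lit 228) (nat_lit 0) (XT.lf (nat_lit 0) (nat_lit 73882755446) (nat_lit 304) (nat_lit 46911117237) (nat_lit 76) (nat_lit 35390812727) (nat_lit 49) (nat_lit 5) (nat_lit 53) (nat_lit 5) (nat_lit 50) (nat_lit 5) (nat_lit 347) (nat_lit 318) (nat_lit 115)) (XT.lf (nat_lit 0) (nat_lit 31774645113) (nat_lit 228) (nat_lit 70107439504) (nat_lit 304) (nat_lit 59334073754) (nat_lit 46) (nat_lit 5) (nat_lit 49) (nat_lit 5) (nat_lit 50) (nat_lit 5) (nat_lit 348) (nat_lit 318) (nat_lit 114))) (XT.nd (nat_lit 78) (nat_lit 228) (nat_lit 0) (XT.lf (nat_lit 0) (nat_lit 116022969933) (nat_lit 228) (nat_lit 16052607569) (nat_lit 304) (nat_lit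 34383917922) (nat_lit 46) (nat_lit 5) (nat_lit 49) (nat_lit 5) (nat_lit 50) (nat_lit 5) (nat_lit 349) (nat_lit 318) (nat_lit 113)) (XT.nd (nat_lit 78) (nat_lit 76) (nat_lit 0) (XT.lf (nat_lit 0) (nat_lit 32937016055) (nat_lit 152) (nat_lit 131991232497) (nat_lit 228) (nat_lit 6979275891) (nat_lit 44) (nat_lit 5) (nat_lit 46) (nat_lit 5) (nat_lit 47) (nat_lit 5) (nat_lit 350) (nat_lit 318) (nat_lit 112)) (XT.lf (nat_lit 0) (nat_lit 22229078117) (nat_lit 228) (nat_lit 55972790121) (nat_lit 76) (nat_lit 99352518667) (nat_lit 43) (nat_lit 5) (nat_lit 46) (nat_lit 5) (nat_lit 44) (nat_lit 5) (nat_lit 351) (nat_lit 318) (nat_lit 111))))) (XT.nd (nat_lit 156) (nat_lit 304) (nat_lit 0) (XT.nd (nat_lit 78) (nat_lit 0) (nat_lit 0) (XT.lf (nat_lit 0) (nat_lit 32087032854) (nat_lit 228) (nat_lit 21076995981) (nat_lit 304) (nat_lit 130288806765) (nat_lit 40) (nat_lit 5) (nat_lit 43) (nat_lit 5) (nat_lit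 44) (nat_lit 5) (nat_lit 352) (nat_lit 318) (nat_lit 110)) (XT.lf (nat_lit 0) (nat_lit 87216359689) (nat_lit 304) (nat_lit 63729013458) (nat_lit 76) (nat_lit 38622302192) (nat_lit 40) (nat_lit 5) (nat_lit 44) (nat_lit 5) (nat_lit 41) (nat_lit 5) (nat_lit 353) (nat_lit 318) (nat_lit 109))) (XT.nd (nat_lit 78) (nat_lit 152) (nat_lit 0) (XT.lf (nat_lit 0) (nat_lit 28867697575) (nat_lit 152) (nat_lit 94899615125) (nat_lit 228) (nat_lit 72181144314) (nat_lit 38) (nat_lit 5) (nat_lit 40) (nat_lit 5) (nat_lit 41) (nat_lit 5) (nat_lit 354) (nat_lit 318) (nat_lit 108)) (XT.nd (nat_lit 78) (nat_lit 152) (nat_lit 0) (XT.lf (nat_lit 0) (nat_lit 128306437286) (nat_lit 152) (nat_lit 34918438659) (nat_lit 228) (nat_lit 39369448917) (nat_lit 38) (nat_lit 5) (nat_lit 40) (nat_lit 5) (nat_lit 41) (nat_lit 5) (nat_lit 355) (nat_lit 318) (nat_lit 107)) (XT.lf (nat_lit 0) (nat_lit 23456946031) (nat_lit 152)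 (nat_lit 182002512899) (nat_lit 228) (nat_lit 4072820300) (nat_lit 36) (nat_lit 5) (nat_lit 38) (nat_lit 5) (nat_lit 39) (nat_lit 5) (nat_lit 356) (nat_lit 318) (nat_lit 106))))))) (XT.nd (nat_lit 780) (nat_lit 152) (nat_lit 0) (XT.nd (nat_lit 390) (nat_lit 380) (nat_lit 0) (XT.nd (nat_lit 156) (nat_lit 152) (nat_lit 0) (XT.nd (nat_lit 78) (nat_lit 152) (nat_lit 0) (XT.lf (nat_lit 0) (nat_lit 33783747665) (nat_lit 228) (nat_lit 89194529513) (nat_lit 76) (nat_lit 93720554549) (nat_lit 35) (nat_lit 5) (nat_lit 38) (nat_lit 5) (nat_lit 36) (nat_lit 5) (nat_lit 357) (nat_lit 318) (nat_lit 105)) (XT.lf (nat_lit 0) (nat_lit 12875324121) (nat_lit 152) (nat_lit 60721767337) (nat_lit 228) (nat_lit 150613241150) (nat_lit 33) (nat_lit 5) (nat_lit 35) (nat_lit 5) (nat_lit 36) (nat_lit 5) (nat_lit 358) (nat_lit 318) (nat_lit 104))) (XT.nd (nat_lit 78) (nat_lit 152) (nat_lit 0) (XT.lf (nat_lit 0)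 (nat_lit 117008783559) (nat_lit 228) (nat_lit 108974219047) (nat_lit 76) (nat_lit 6034022040) (nat_lit 33) (nat_lit 5) (nat_lit 36) (nat_lit 5) (nat_lit 34) (nat_lit 5) (nat_lit 359) (nat_lit 318) (nat_lit 103)) (XT.nd (nat_lit 78) (nat_lit 152) (nat_lit 0) (XT.lf (nat_lit 0) (nat_lit 163586312297) (nat_lit 228) (nat_lit 2491130390) (nat_lit 76) (nat_lit 74086846161) (nat_lit 33) (nat_lit 5) (nat_lit 36) (nat_lit 5) (nat_lit 34) (nat_lit 5) (nat_lit 360) (nat_lit 318) (nat_lit 102)) (XT.lf (nat_lit 0) (nat_lit 112930300485) (nat_lit 152) (nat_lit 101325397581) (nat_lit 228) (nat_lit 34375069318) (nat_lit 31) (nat_lit 5) (nat_lit 33) (nat_lit 5) (nat_lit 34) (nat_lit 5) (nat_lit 361) (nat_lit 318) (nat_lit 101))))) (XT.nd (nat_lit 156) (nat_lit 152) (nat_lit 0) (XT.nd (nat_lit 78) (nat_lit 152) (nat_lit 0) (XT.lf (nat_lit 0) (nat_lit 9662609046) (nat_lit 228) (nat_lit 23465310928) (nat_lit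 76) (nat_lit 224382756859) (nat_lit 30) (nat_lit 5) (nat_lit 33) (nat_lit 5) (nat_lit 31) (nat_lit 5) (nat_lit 362) (nat_lit 318) (nat_lit 100)) (XT.lf (nat_lit 0) (nat_lit 56894780188) (nat_lit 228) (nat_lit 170445726494) (nat_lit 76) (nat_lit 39358507091) (nat_lit 28) (nat_lit 5) (nat_lit 31) (nat_lit 5) (nat_lit 29) (nat_lit 5) (nat_lit 363) (nat_lit 318) (nat_lit 99))) (XT.nd (nat_lit 78) (nat_lit 152) (nat_lit 0) (XT.lf (nat_lit 0) (nat_lit 107435385386) (nat_lit 228) (nat_lit 54104292072) (nat_lit 76) (nat_lit 114759748955) (nat_lit 28) (nat_lit 5) (nat_lit 31) (nat_lit 5) (nat_lit 29) (nat_lit 5) (nat_lit 364) (nat_lit 318) (nat_lit 98)) (XT.nd (nat_lit 78) (nat_lit 0) (nat_lit 0) (XT.lf (nat_lit 0) (nat_lit 70304121208) (nat_lit 152) (nat_lit 91296385666) (nat_lit 228) (nat_lit 124724478630) (nat_lit 26) (nat_lit 5) (nat_lit 28) (nat_lit 5) (nat_lit 29) (nat_lit 5) (nat_lit 365)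 (nat_lit 318) (nat_lit 97)) (XT.lf (nat_lit 0) (nat_lit 202811074459) (nat_lit 152) (nat_lit 16578937501) (nat_lit 228) (nat_lit 77416004328) (nat_lit 26) (nat_lit 5) (nat_lit 28) (nat_lit 5) (nat_lit 29) (nat_lit 5) (nat_lit 366) (nat_lit 318) (nat_lit 96)))))) (XT.nd (nat_lit 37128) (nat_lit 0) (nat_lit 4712) (XT.nd (nat_lit 36894) (nat_lit 0) (nat_lit 5320) (XT.nd (nat_lit 78) (nat_lit 76) (nat_lit 0) (XT.lf (nat_lit 0) (nat_lit 34262608574) (nat_lit 76) (nat_lit 247307202566) (nat_lit 152) (nat_lit 26166246640) (nat_lit 25) (nat_lit 5) (nat_lit 26) (nat_lit 5) (nat_lit 27) (nat_lit 4) (nat_lit 367) (nat_lit 318) (nat_lit 95)) (XT.lf (nat_lit 0) (nat_lit 28650737584) (nat_lit 152) (nat_lit 147666447536) (nat_lit 76) (nat_lit 142779355586) (nat_lit 24) (nat_lit 5) (nat_lit 26) (nat_lit 5) (nat_lit 25) (nat_lit 5) (nat_lit 368) (nat_lit 318) (nat_lit 94))) (XT.nd (nat_lit 78) (nat_lit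 0) (nat_lit 0) (XT.lf (nat_lit 0) (nat_lit 16472863591) (nat_lit 0) (nat_lit 16472863591) (nat_lit 684) (nat_lit 3391585095) (nat_lit 94) (nat_lit 5) (nat_lit 94) (nat_lit 3) (nat_lit 103) (nat_lit 3) (nat_lit 319) (nat_lit 319) (nat_lit 142)) (XT.nd (nat_lit 78) (nat_lit 0) (nat_lit 0) (XT.lf (nat_lit 0) (nat_lit 67558593705) (nat_lit 684) (nat_lit 6422725200) (nat_lit 760) (nat_lit 509157934) (nat_lit 94) (nat_lit 5) (nat_lit 103) (nat_lit 3) (nat_lit 104) (nat_lit 5) (nat_lit 320) (nat_lit 319) (nat_lit 141)) (XT.lf (nat_lit 76) (nat_lit 28934323774) (nat_lit 0) (nat_lit 41365866671) (nat_lit 760) (nat_lit 6047377596) (nat_lit 95) (nat_lit 5) (nat_lit 94) (nat_lit 5) (nat_lit 104) (nat_lit 5) (nat_lit 321) (nat_lit 319) (nat_lit 140))))) (XT.nd (nat_lit 234) (nat_lit 608) (nat_lit 0) (XT.nd (nat_lit 78) (nat_lit 0) (nat_lit 76) (XT.lf (nat_lit 76) (nat_lit 66281797465) (nat_lit 0)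 (nat_lit 7005130983) (nat_lit 760) (nat_lit 5005183545) (nat_lit 95) (nat_lit 5) (nat_lit 94) (nat_lit 5) (nat_lit 104) (nat_lit 5) (nat_lit 322) (nat_lit 319) (nat_lit 139)) (XT.nd (nat_lit 78) (nat_lit 0) (nat_lit 0) (XT.lf (nat_lit 76) (nat_lit 25525382094) (nat_lit 0) (nat_lit 51749392793) (nat_lit 760) (nat_lit 3016520880) (nat_lit 96) (nat_lit 5) (nat_lit 95) (nat_lit 5) (nat_lit 105) (nat_lit 5) (nat_lit 323) (nat_lit 319) (nat_lit 138)) (XT.lf (nat_lit 76) (nat_lit 65235775992) (nat_lit 0) (nat_lit 16541977296) (nat_lit 760) (nat_lit 596899604) (nat_lit 96) (nat_lit 5) (nat_lit 95) (nat_lit 5) (nat_lit 105) (nat_lit 5) (nat_lit 324) (nat_lit 319) (nat_lit 137)))) (XT.nd (nat_lit 78) (nat_lit 0) (nat_lit 0) (XT.lf (nat_lit 0) (nat_lit 2566478546) (nat_lit 760) (nat_lit 61790629378) (nat_lit 836) (nat_lit 20169304330) (nat_lit 86) (nat_lit 5) (nat_lit 96) (nat_lit 5) (nat_lit 97)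 (nat_lit 5) (nat_lit 325) (nat_lit 319) (nat_lit 136)) (XT.nd (nat_lit 78) (nat_lit 0) (nat_lit 76) (XT.lf (nat_lit 0) (nat_lit 6433558329) (nat_lit 760) (nat_lit 21858223678) (nat_lit 836) (nat_lit 58465209680) (nat_lit 86) (nat_lit 5) (nat_lit 96) (nat_lit 5) (nat_lit 97) (nat_lit 5) (nat_lit 326) (nat_lit 319) (nat_lit 135)) (XT.lf (nat_lit 0) (nat_lit 10971965321) (nat_lit 760) (nat_lit 68503784897) (nat_lit 836) (nat_lit 9599452155) (nat_lit 87) (nat_lit 5) (nat_lit 97) (nat_lit 5) (nat_lit 98) (nat_lit 5) (nat_lit 327) (nat_lit 319) (nat_lit 134))))))))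
noncomputable def xc239 : XT := (XT.nd (nat_lit 1638) (nat_lit 1748) (nat_lit 0) (XT.nd (nat_lit 780) (nat_lit 1444) (nat_lit 0) (XT.nd (nat_lit 390) (nat_lit 988) (nat_lit 0) (XT.nd (nat_lit 156) (nat_lit 456) (nat_lit 0) (XT.nd (nat_lit 78) (nat_lit 0) (nat_lit 0) (XT.lf (nat_lit 0) (nat_lit 16576790790) (nat_lit 760) (nat_lit 26079728105) (nat_lit 836) (nat_lit 48810830686) (nat_lit 87) (nat_lit 5) (nat_lit 97) (nat_lit 5) (nat_lit 98) (nat_lit 5) (nat_lit 328) (nat_lit 319) (nat_lit 133)) (XT.lf (nat_lit 76) (nat_lit 19075638587) (nat_lit 0) (nat_lit 3683519609) (nat_lit 836) (nat_lit 71205081774) (nat_lit 88) (nat_lit 5) (nat_lit 87) (nat_lit 5) (nat_lit 98) (nat_lit 5) (nat_lit 329) (nat_lit 319) (nat_lit 132))) (XT.nd (nat_lit 78) (nat_lit 532) (nat_lit 0) (XT.lf (nat_lit 0) (nat_lit 30280444906) (nat_lit 760) (nat_lit 29758773299) (nat_lit 76) (nat_lit 36495267440) (nat_lit 88)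 (nat_lit 5) (nat_lit 98) (nat_lit 5) (nat_lit 89) (nat_lit 5) (nat_lit 330) (nat_lit 319) (nat_lit 131)) (XT.nd (nat_lit 78) (nat_lit 0) (nat_lit 0) (XT.lf (nat_lit 0) (nat_lit 18147564746) (nat_lit 532) (nat_lit 20373471130) (nat_lit 608) (nat_lit 60695046504) (nat_lit 81) (nat_lit 5) (nat_lit 88) (nat_lit 5) (nat_lit 89) (nat_lit 5) (nat_lit 331) (nat_lit 319) (nat_lit 130)) (XT.lf (nat_lit 0) (nat_lit 48017605608) (nat_lit 608) (nat_lit 32865064873) (nat_lit 76) (nat_lit 21106891749) (nat_lit 81) (nat_lit 5) (nat_lit 89) (nat_lit 5) (nat_lit 82) (nat_lit 5) (nat_lit 332) (nat_lit 319) (nat_lit 129))))) (XT.nd (nat_lit 156) (nat_lit 608) (nat_lit 0) (XT.nd (nat_lit 78) (nat_lit 0) (nat_lit 0) (XT.lf (nat_lit 0) (nat_lit 17989931875) (nat_lit 380) (nat_lit 40613495449) (nat_lit 456) (nat_lit 46267568274) (nat_lit 76) (nat_lit 5) (nat_lit 81) (nat_lit 5) (nat_lit 82) (nat_lit 5) (nat_lit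 333) (nat_lit 319) (nat_lit 128)) (XT.lf (nat_lit 0) (nat_lit 70309883637) (nat_lit 456) (nat_lit 35375619019) (nat_lit 76) (nat_lit 2181431472) (nat_lit 76) (nat_lit 5) (nat_lit 82) (nat_lit 5) (nat_lit 77) (nat_lit 5) (nat_lit 334) (nat_lit 319) (nat_lit 127))) (XT.nd (nat_lit 78) (nat_lit 304) (nat_lit 0) (XT.lf (nat_lit 0) (nat_lit 18635328184) (nat_lit 304) (nat_lit 64922673047) (nat_lit 380) (nat_lit 27406852069) (nat_lit 72) (nat_lit 5) (nat_lit 76) (nat_lit 5) (nat_lit 77) (nat_lit 5) (nat_lit 335) (nat_lit 319) (nat_lit 126)) (XT.nd (nat_lit 78) (nat_lit 304) (nat_lit 0) (XT.lf (nat_lit 0) (nat_lit 76574569550) (nat_lit 304) (nat_lit 21492665008) (nat_lit 380) (nat_lit 16120498983) (nat_lit 72) (nat_lit 5) (nat_lit 76) (nat_lit 5) (nat_lit 77) (nat_lit 5) (nat_lit 336) (nat_lit 319) (nat_lit 125)) (XT.lf (nat_lit 0) (nat_lit 20105702573) (nat_lit 304) (nat_lit 93886164995) (nat_lit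 380) (nat_lit 3545393904) (nat_lit 68) (nat_lit 5) (nat_lit 72) (nat_lit 5) (nat_lit 73) (nat_lit 5) (nat_lit 337) (nat_lit 319) (nat_lit 124)))))) (XT.nd (nat_lit 390) (nat_lit 760) (nat_lit 0) (XT.nd (nat_lit 156) (nat_lit 304) (nat_lit 0) (XT.nd (nat_lit 78) (nat_lit 304) (nat_lit 0) (XT.lf (nat_lit 0) (nat_lit 10348743709) (nat_lit 380) (nat_lit 39520056557) (nat_lit 76) (nat_lit 71127955846) (nat_lit 67) (nat_lit 5) (nat_lit 72) (nat_lit 5) (nat_lit 68) (nat_lit 5) (nat_lit 338) (nat_lit 319) (nat_lit 123)) (XT.lf (nat_lit 0) (nat_lit 21930409638) (nat_lit 304) (nat_lit 3230072899) (nat_lit 380) (nat_lit 99448735243) (nat_lit 63) (nat_lit 5) (nat_lit 67) (nat_lit 5) (nat_lit 68) (nat_lit 5) (nat_lit 339) (nat_lit 319) (nat_lit 122))) (XT.nd (nat_lit 78) (nat_lit 304) (nat_lit 0) (XT.lf (nat_lit 0) (nat_lit 42106867870) (nat_lit 380) (nat_lit 41268912915) (nat_lit 76) (nat_lit 44956819243)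 (nat_lit 63) (nat_lit 5) (nat_lit 68) (nat_lit 5) (nat_lit 64) (nat_lit 5) (nat_lit 340) (nat_lit 319) (nat_lit 121)) (XT.nd (nat_lit 78) (nat_lit 0) (nat_lit 0) (XT.lf (nat_lit 0) (nat_lit 23923846689) (nat_lit 304) (nat_lit 36402869883) (nat_lit 380) (nat_lit 71894128066) (nat_lit 59) (nat_lit 5) (nat_lit 63) (nat_lit 5) (nat_lit 64) (nat_lit 5) (nat_lit 341) (nat_lit 319) (nat_lit 120)) (XT.lf (nat_lit 0) (nat_lit 80369303407) (nat_lit 380) (nat_lit 42673102483) (nat_lit 76) (nat_lit 13215508731) (nat_lit 59) (nat_lit 5) (nat_lit 64) (nat_lit 5) (nat_lit 60) (nat_lit 5) (nat_lit 342) (nat_lit 319) (nat_lit 119))))) (XT.nd (nat_lit 234) (nat_lit 228) (nat_lit 0) (XT.nd (nat_lit 78) (nat_lit 304) (nat_lit 0) (XT.lf (nat_lit 0) (nat_lit 26482442197) (nat_lit 228) (nat_lit 75941508279) (nat_lit 304) (nat_lit 38022391496) (nat_lit 56) (nat_lit 5) (nat_lit 59) (nat_lit 5) (nat_lit 60) (nat_lit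 5) (nat_lit 343) (nat_lit 319) (nat_lit 118)) (XT.nd (nat_lit 78) (nat_lit 304) (nat_lit 0) (XT.lf (nat_lit 0) (nat_lit 100576903278) (nat_lit 228) (nat_lit 25726822215) (nat_lit 304) (nat_lit 18504345808) (nat_lit 56) (nat_lit 5) (nat_lit 59) (nat_lit 5) (nat_lit 60) (nat_lit 5) (nat_lit 344) (nat_lit 319) (nat_lit 117)) (XT.lf (nat_lit 0) (nat_lit 2822370372) (nat_lit 304) (nat_lit 119878472395) (nat_lit 76) (nat_lit 26640669125) (nat_lit 52) (nat_lit 5) (nat_lit 56) (nat_lit 5) (nat_lit 53) (nat_lit 5) (nat_lit 345) (nat_lit 319) (nat_lit 116)))) (XT.nd (nat_lit 78) (nat_lit 228) (nat_lit 0) (XT.lf (nat_lit 0) (nat_lit 25776384000) (nat_lit 304) (nat_lit 46424361590) (nat_lit 76) (nat_lit 81826570315) (nat_lit 52) (nat_lit 5) (nat_lit 56) (nat_lit 5) (nat_lit 53) (nat_lit 5) (nat_lit 346) (nat_lit 319) (nat_lit 115)) (XT.nd (nat_lit 78) (nat_lit 0) (nat_lit 0) (XT.lf (nat_lit 0) (nat_lit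 31717249081) (nat_lit 228) (nat_lit 18655779270) (nat_lit 304) (nat_lit 108549635585) (nat_lit 49) (nat_lit 5) (nat_lit 52) (nat_lit 5) (nat_lit 53) (nat_lit 5) (nat_lit 347) (nat_lit 319) (nat_lit 114)) (XT.lf (nat_lit 0) (nat_lit 77584870741) (nat_lit 304) (nat_lit 49245547051) (nat_lit 76) (nat_lit 37163093594) (nat_lit 49) (nat_lit 5) (nat_lit 53) (nat_lit 5) (nat_lit 50) (nat_lit 5) (nat_lit 348) (nat_lit 319) (nat_lit 113))))))) (XT.nd (nat_lit 780) (nat_lit 684) (nat_lit 0) (XT.nd (nat_lit 390) (nat_lit 380) (nat_lit 0) (XT.nd (nat_lit 156) (nat_lit 456) (nat_lit 0) (XT.nd (nat_lit 78) (nat_lit 0) (nat_lit 0) (XT.lf (nat_lit 0) (nat_lit 33374323965) (nat_lit 228) (nat_lit 73609633430) (nat_lit 304) (nat_lit 62292611496) (nat_lit 46) (nat_lit 5) (nat_lit 49) (nat_lit 5) (nat_lit 50) (nat_lit 5) (nat_lit 349) (nat_lit 319) (nat_lit 112)) (XT.lf (nat_lit 0) (nat_lit 121834543759)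 (nat_lit 228) (nat_lit 16852211234) (nat_lit 304) (nat_lit 36095336726) (nat_lit 46) (nat_lit 5) (nat_lit 49) (nat_lit 5) (nat_lit 50) (nat_lit 5) (nat_lit 350) (nat_lit 319) (nat_lit 111))) (XT.nd (nat_lit 78) (nat_lit 304) (nat_lit 0) (XT.lf (nat_lit 0) (nat_lit 34594449914) (nat_lit 152) (nat_lit 138587467604) (nat_lit 228) (nat_lit 7320612184) (nat_lit 44) (nat_lit 5) (nat_lit 46) (nat_lit 5) (nat_lit 47) (nat_lit 5) (nat_lit 351) (nat_lit 319) (nat_lit 110)) (XT.nd (nat_lit 78) (nat_lit 228) (nat_lit 0) (XT.lf (nat_lit 0) (nat_lit 23347563808) (nat_lit 228) (nat_lit 58761110643) (nat_lit 76) (nat_lit 104323072829) (nat_lit 43) (nat_lit 5) (nat_lit 46) (nat_lit 5) (nat_lit 44) (nat_lit 5) (nat_lit 352) (nat_lit 319) (nat_lit 109)) (XT.lf (nat_lit 0) (nat_lit 33701537046) (nat_lit 228) (nat_lit 22127548678) (nat_lit 304) (nat_lit 136796041854) (nat_lit 40) (nat_lit 5) (nat_lit 43)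 (nat_lit 5) (nat_lit 44) (nat_lit 5) (nat_lit 353) (nat_lit 319) (nat_lit 108))))) (XT.nd (nat_lit 156) (nat_lit 228) (nat_lit 0) (XT.nd (nat_lit 78) (nat_lit 152) (nat_lit 0) (XT.lf (nat_lit 0) (nat_lit 91583755698) (nat_lit 304) (nat_lit 66905510918) (nat_lit 76) (nat_lit 40556456895) (nat_lit 40) (nat_lit 5) (nat_lit 44) (nat_lit 5) (nat_lit 41) (nat_lit 5) (nat_lit 354) (nat_lit 319) (nat_lit 107)) (XT.lf (nat_lit 0) (nat_lit 30320875131) (nat_lit 152) (nat_lit 99641220880) (nat_lit 228) (nat_lit 75783456595) (nat_lit 38) (nat_lit 5) (nat_lit 40) (nat_lit 5) (nat_lit 41) (nat_lit 5) (nat_lit 355) (nat_lit 319) (nat_lit 106))) (XT.nd (nat_lit 78) (nat_lit 228) (nat_lit 0) (XT.lf (nat_lit 0) (nat_lit 134731085510) (nat_lit 152) (nat_lit 36661146305) (nat_lit 228) (nat_lit 41331497615) (nat_lit 38) (nat_lit 5) (nat_lit 40) (nat_lit 5) (nat_lit 41) (nat_lit 5) (nat_lit 356) (nat_lit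 319) (nat_lit 105)) (XT.nd (nat_lit 78) (nat_lit 76) (nat_lit 0) (XT.lf (nat_lit 0) (nat_lit 24639226541) (nat_lit 152) (nat_lit 191099221430) (nat_lit 228) (nat_lit 4270138634) (nat_lit 36) (nat_lit 5) (nat_lit 38) (nat_lit 5) (nat_lit 39) (nat_lit 5) (nat_lit 357) (nat_lit 319) (nat_lit 104)) (XT.lf (nat_lit 0) (nat_lit 35478763921) (nat_lit 228) (nat_lit 93645074007) (nat_lit 76) (nat_lit 98409638697) (nat_lit 35) (nat_lit 5) (nat_lit 38) (nat_lit 5) (nat_lit 36) (nat_lit 5) (nat_lit 358) (nat_lit 319) (nat_lit 103)))))) (XT.nd (nat_lit 390) (nat_lit 304) (nat_lit 0) (XT.nd (nat_lit 156) (nat_lit 228) (nat_lit 0) (XT.nd (nat_lit 78) (nat_lit 0) (nat_lit 0) (XT.lf (nat_lit 0) (nat_lit 13528124213) (nat_lit 152) (nat_lit 63754514170) (nat_lit 228) (nat_lit 158137921242) (nat_lit 33) (nat_lit 5) (nat_lit 35) (nat_lit 5) (nat_lit 36) (nat_lit 5) (nat_lit 359) (nat_lit 319) (nat_lit 102))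 (XT.lf (nat_lit 0) (nat_lit 122864693711) (nat_lit 228) (nat_lit 114414100163) (nat_lit 76) (nat_lit 6338803698) (nat_lit 33) (nat_lit 5) (nat_lit 36) (nat_lit 5) (nat_lit 34) (nat_lit 5) (nat_lit 360) (nat_lit 319) (nat_lit 101))) (XT.nd (nat_lit 78) (nat_lit 228) (nat_lit 0) (XT.lf (nat_lit 0) (nat_lit 171770838363) (nat_lit 228) (nat_lit 2607277542) (nat_lit 76) (nat_lit 77794122332) (nat_lit 33) (nat_lit 5) (nat_lit 36) (nat_lit 5) (nat_lit 34) (nat_lit 5) (nat_lit 361) (nat_lit 319) (nat_lit 100)) (XT.nd (nat_lit 78) (nat_lit 76) (nat_lit 0) (XT.lf (nat_lit 0) (nat_lit 118585089243) (nat_lit 152) (nat_lit 106388485237) (nat_lit 228) (nat_lit 36088472382) (nat_lit 31) (nat_lit 5) (nat_lit 33) (nat_lit 5) (nat_lit 34) (nat_lit 5) (nat_lit 362) (nat_lit 319) (nat_lit 99)) (XT.lf (nat_lit 0) (nat_lit 10150672027) (nat_lit 228) (nat_lit 24630529723) (nat_lit 76) (nat_lit 235604758384)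 (nat_lit 30) (nat_lit 5) (nat_lit 33) (nat_lit 5) (nat_lit 31) (nat_lit 5) (nat_lit 363) (nat_lit 319) (nat_lit 98))))) (XT.nd (nat_lit 234) (nat_lit 0) (nat_lit 0) (XT.nd (nat_lit 78) (nat_lit 152) (nat_lit 0) (XT.lf (nat_lit 0) (nat_lit 59744388783) (nat_lit 228) (nat_lit 178959899396) (nat_lit 76) (nat_lit 41329429076) (nat_lit 28) (nat_lit 5) (nat_lit 31) (nat_lit 5) (nat_lit 29) (nat_lit 5) (nat_lit 364) (nat_lit 319) (nat_lit 97)) (XT.nd (nat_lit 78) (nat_lit 152) (nat_lit 0) (XT.lf (nat_lit 0) (nat_lit 112811792356) (nat_lit 228) (nat_lit 56801779606) (nat_lit 76) (nat_lit 120500590336) (nat_lit 28) (nat_lit 5) (nat_lit 31) (nat_lit 5) (nat_lit 29) (nat_lit 5) (nat_lit 365) (nat_lit 319) (nat_lit 96)) (XT.lf (nat_lit 0) (nat_lit 73826929708) (nat_lit 152) (nat_lit 95858138063) (nat_lit 228) (nat_lit 130955936850) (nat_lit 26) (nat_lit 5) (nat_lit 28) (nat_lit 5) (nat_lit 29) (nat_lit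 5) (nat_lit 366) (nat_lit 319) (nat_lit 95)))) (XT.nd (nat_lit 36972) (nat_lit 0) (nat_lit 5168) (XT.lf (nat_lit 0) (nat_lit 212958868600) (nat_lit 152) (nat_lit 17404963532) (nat_lit 228) (nat_lit 81282265771) (nat_lit 26) (nat_lit 5) (nat_lit 28) (nat_lit 5) (nat_lit 29) (nat_lit 5) (nat_lit 367) (nat_lit 319) (nat_lit 94)) (XT.nd (nat_lit 78) (nat_lit 0) (nat_lit 0) (XT.lf (nat_lit 0) (nat_lit 17302236276) (nat_lit 0) (nat_lit 17302236276) (nat_lit 684) (nat_lit 3549112031) (nat_lit 94) (nat_lit 5) (nat_lit 94) (nat_lit 3) (nat_lit 103) (nat_lit 3) (nat_lit 320) (nat_lit 320) (nat_lit 140)) (XT.lf (nat_lit 0) (nat_lit 70958179692) (nat_lit 684) (nat_lit 6731647620) (nat_lit 760) (nat_lit 524051781) (nat_lit 94) (nat_lit 5) (nat_lit 103) (nat_lit 3) (nat_lit 104) (nat_lit 5) (nat_lit 321) (nat_lit 320) (nat_lit 139))))))))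
noncomputable def xc240 : XT := (XT.nd (nat_lit 1560) (nat_lit 2280) (nat_lit 0) (XT.nd (nat_lit 780) (nat_lit 1748) (nat_lit 0) (XT.nd (nat_lit 390) (nat_lit 0) (nat_lit 0) (XT.nd (nat_lit 156) (nat_lit 608) (nat_lit 0) (XT.nd (nat_lit 78) (nat_lit 0) (nat_lit 0) (XT.lf (nat_lit 76) (nat_lit 30393056806) (nat_lit 0) (nat_lit 43442955829) (nat_lit 760) (nat_lit 6327856249) (nat_lit 95) (nat_lit 5) (nat_lit 94) (nat_lit 5) (nat_lit 104) (nat_lit 5) (nat_lit 322) (nat_lit 320) (nat_lit 138)) (XT.lf (nat_lit 76) (nat_lit 69607331951) (nat_lit 0) (nat_lit 7363764507) (nat_lit 760) (nat_lit 5234594888) (nat_lit 95) (nat_lit 5) (nat_lit 94) (nat_lit 5) (nat_lit 104) (nat_lit 5) (nat_lit 323) (nat_lit 320) (nat_lit 137))) (XT.nd (nat_lit 78) (nat_lit 684) (nat_lit 0) (XT.lf (nat_lit 76) (nat_lit 26814049594) (nat_lit 0) (nat_lit 54343410753) (nat_lit 760) (nat_lit 3147419379) (nat_lit 96) (nat_lit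 5) (nat_lit 95) (nat_lit 5) (nat_lit 105) (nat_lit 5) (nat_lit 324) (nat_lit 320) (nat_lit 136)) (XT.nd (nat_lit 78) (nat_lit 684) (nat_lit 0) (XT.lf (nat_lit 76) (nat_lit 68509372787) (nat_lit 0) (nat_lit 17375312656) (nat_lit 760) (nat_lit 607765970) (nat_lit 96) (nat_lit 5) (nat_lit 95) (nat_lit 5) (nat_lit 105) (nat_lit 5) (nat_lit 325) (nat_lit 320) (nat_lit 135)) (XT.lf (nat_lit 0) (nat_lit 2712405043) (nat_lit 760) (nat_lit 64866917494) (nat_lit 836) (nat_lit 21172501269) (nat_lit 86) (nat_lit 5) (nat_lit 96) (nat_lit 5) (nat_lit 97) (nat_lit 5) (nat_lit 326) (nat_lit 320) (nat_lit 134))))) (XT.nd (nat_lit 156) (nat_lit 0) (nat_lit 76) (XT.nd (nat_lit 78) (nat_lit 0) (nat_lit 76) (XT.lf (nat_lit 0) (nat_lit 6772000598) (nat_lit 760) (nat_lit 22938522145) (nat_lit 836) (nat_lit 61383452756) (nat_lit 86) (nat_lit 5) (nat_lit 96) (nat_lit 5) (nat_lit 97) (nat_lit 5) (nat_lit 327)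 (nat_lit 320) (nat_lit 133)) (XT.lf (nat_lit 0) (nat_lit 11536664824) (nat_lit 760) (nat_lit 71915672067) (nat_lit 836) (nat_lit 10075794295) (nat_lit 87) (nat_lit 5) (nat_lit 97) (nat_lit 5) (nat_lit 98) (nat_lit 5) (nat_lit 328) (nat_lit 320) (nat_lit 132))) (XT.nd (nat_lit 78) (nat_lit 0) (nat_lit 0) (XT.lf (nat_lit 0) (nat_lit 17420964841) (nat_lit 760) (nat_lit 27371045868) (nat_lit 836) (nat_lit 51247914632) (nat_lit 87) (nat_lit 5) (nat_lit 97) (nat_lit 5) (nat_lit 98) (nat_lit 5) (nat_lit 329) (nat_lit 320) (nat_lit 131)) (XT.nd (nat_lit 78) (nat_lit 0) (nat_lit 76) (XT.lf (nat_lit 76) (nat_lit 20041884826) (nat_lit 0) (nat_lit 3870030179) (nat_lit 836) (nat_lit 74749773215) (nat_lit 88) (nat_lit 5) (nat_lit 87) (nat_lit 5) (nat_lit 98) (nat_lit 5) (nat_lit 330) (nat_lit 320) (nat_lit 130)) (XT.lf (nat_lit 0) (nat_lit 31808526627) (nat_lit 760) (nat_lit 31234079100) (nat_lit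 76) (nat_lit 38317878556) (nat_lit 88) (nat_lit 5) (nat_lit 98) (nat_lit 5) (nat_lit 89) (nat_lit 5) (nat_lit 331) (nat_lit 320) (nat_lit 129)))))) (XT.nd (nat_lit 390) (nat_lit 684) (nat_lit 0) (XT.nd (nat_lit 156) (nat_lit 684) (nat_lit 0) (XT.nd (nat_lit 78) (nat_lit 0) (nat_lit 0) (XT.lf (nat_lit 0) (nat_lit 19067372092) (nat_lit 532) (nat_lit 21393299610) (nat_lit 608) (nat_lit 63715514007) (nat_lit 81) (nat_lit 5) (nat_lit 88) (nat_lit 5) (nat_lit 89) (nat_lit 5) (nat_lit 332) (nat_lit 320) (nat_lit 128)) (XT.lf (nat_lit 0) (nat_lit 50431405887) (nat_lit 608) (nat_lit 34495796277) (nat_lit 76) (nat_lit 22161171615) (nat_lit 81) (nat_lit 5) (nat_lit 89) (nat_lit 5) (nat_lit 82) (nat_lit 5) (nat_lit 333) (nat_lit 320) (nat_lit 127))) (XT.nd (nat_lit 78) (nat_lit 304) (nat_lit 0) (XT.lf (nat_lit 0) (nat_lit 18901748343) (nat_lit 380) (nat_lit 42644347457) (nat_lit 456) (nat_lit 48567805140)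 (nat_lit 76) (nat_lit 5) (nat_lit 81) (nat_lit 5) (nat_lit 82) (nat_lit 5) (nat_lit 334) (nat_lit 320) (nat_lit 126)) (XT.nd (nat_lit 78) (nat_lit 304) (nat_lit 0) (XT.lf (nat_lit 0) (nat_lit 73837277192) (nat_lit 456) (nat_lit 37132050371) (nat_lit 76) (nat_lit 2290339653) (nat_lit 76) (nat_lit 5) (nat_lit 82) (nat_lit 5) (nat_lit 77) (nat_lit 5) (nat_lit 335) (nat_lit 320) (nat_lit 125)) (XT.lf (nat_lit 0) (nat_lit 19579245005) (nat_lit 304) (nat_lit 68168178725) (nat_lit 380) (nat_lit 28765078350) (nat_lit 72) (nat_lit 5) (nat_lit 76) (nat_lit 5) (nat_lit 77) (nat_lit 5) (nat_lit 336) (nat_lit 320) (nat_lit 124))))) (XT.nd (nat_lit 156) (nat_lit 380) (nat_lit 0) (XT.nd (nat_lit 78) (nat_lit 304) (nat_lit 0) (XT.lf (nat_lit 0) (nat_lit 80414869848) (nat_lit 304) (nat_lit 22566700188) (nat_lit 380) (nat_lit 16914984578) (nat_lit 72) (nat_lit 5) (nat_lit 76) (nat_lit 5) (nat_lit 77)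 (nat_lit 5) (nat_lit 337) (nat_lit 320) (nat_lit 123)) (XT.lf (nat_lit 0) (nat_lit 21122920175) (nat_lit 304) (nat_lit 98579187155) (nat_lit 380) (nat_lit 3711468786) (nat_lit 68) (nat_lit 5) (nat_lit 72) (nat_lit 5) (nat_lit 73) (nat_lit 5) (nat_lit 338) (nat_lit 320) (nat_lit 122))) (XT.nd (nat_lit 78) (nat_lit 304) (nat_lit 0) (XT.lf (nat_lit 0) (nat_lit 10876501379) (nat_lit 380) (nat_lit 41484339270) (nat_lit 76) (nat_lit 74685222631) (nat_lit 67) (nat_lit 5) (nat_lit 72) (nat_lit 5) (nat_lit 68) (nat_lit 5) (nat_lit 339) (nat_lit 320) (nat_lit 121)) (XT.nd (nat_lit 78) (nat_lit 0) (nat_lit 0) (XT.lf (nat_lit 0) (nat_lit 23038461201) (nat_lit 304) (nat_lit 3390054529) (nat_lit 380) (nat_lit 104410648569) (nat_lit 63) (nat_lit 5) (nat_lit 67) (nat_lit 5) (nat_lit 68) (nat_lit 5) (nat_lit 340) (nat_lit 320) (nat_lit 120)) (XT.lf (nat_lit 0) (nat_lit 44221766339) (nat_lit 380) (nat_lit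 43320909333) (nat_lit 76) (nat_lit 47206063350) (nat_lit 63) (nat_lit 5) (nat_lit 68) (nat_lit 5) (nat_lit 64) (nat_lit 5) (nat_lit 341) (nat_lit 320) (nat_lit 119))))))) (XT.nd (nat_lit 780) (nat_lit 988) (nat_lit 0) (XT.nd (nat_lit 390) (nat_lit 456) (nat_lit 0) (XT.nd (nat_lit 156) (nat_lit 532) (nat_lit 0) (XT.nd (nat_lit 78) (nat_lit 0) (nat_lit 0) (XT.lf (nat_lit 0) (nat_lit 25131303585) (nat_lit 304) (nat_lit 38221024758) (nat_lit 380) (nat_lit 75479082106) (nat_lit 59) (nat_lit 5) (nat_lit 63) (nat_lit 5) (nat_lit 64) (nat_lit 5) (nat_lit 342) (nat_lit 320) (nat_lit 118)) (XT.lf (nat_lit 0) (nat_lit 84396632379) (nat_lit 380) (nat_lit 44795605289) (nat_lit 76) (nat_lit 13878117474) (nat_lit 59) (nat_lit 5) (nat_lit 64) (nat_lit 5) (nat_lit 60) (nat_lit 5) (nat_lit 343) (nat_lit 320) (nat_lit 117))) (XT.nd (nat_lit 78) (nat_lit 304) (nat_lit 0) (XT.lf (nat_lit 0) (nat_lit 27817536750)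 (nat_lit 228) (nat_lit 79736224276) (nat_lit 304) (nat_lit 39914455944) (nat_lit 56) (nat_lit 5) (nat_lit 59) (nat_lit 5) (nat_lit 60) (nat_lit 5) (nat_lit 344) (nat_lit 320) (nat_lit 116)) (XT.nd (nat_lit 78) (nat_lit 304) (nat_lit 0) (XT.lf (nat_lit 0) (nat_lit 105616198387) (nat_lit 228) (nat_lit 27010916262) (nat_lit 304) (nat_lit 19420939168) (nat_lit 56) (nat_lit 5) (nat_lit 59) (nat_lit 5) (nat_lit 60) (nat_lit 5) (nat_lit 345) (nat_lit 320) (nat_lit 115)) (XT.lf (nat_lit 0) (nat_lit 2971642421) (nat_lit 304) (nat_lit 125861455393) (nat_lit 76) (nat_lit 27975072106) (nat_lit 52) (nat_lit 5) (nat_lit 56) (nat_lit 5) (nat_lit 53) (nat_lit 5) (nat_lit 346) (nat_lit 320) (nat_lit 114))))) (XT.nd (nat_lit 156) (nat_lit 228) (nat_lit 0) (XT.nd (nat_lit 78) (nat_lit 228) (nat_lit 0) (XT.lf (nat_lit 0) (nat_lit 27072968467) (nat_lit 304) (nat_lit 48735160029) (nat_lit 76) (nat_lit 85920155520)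 (nat_lit 52) (nat_lit 5) (nat_lit 56) (nat_lit 5) (nat_lit 53) (nat_lit 5) (nat_lit 347) (nat_lit 320) (nat_lit 113)) (XT.lf (nat_lit 0) (nat_lit 33313363116) (nat_lit 228) (nat_lit 19585872201) (nat_lit 304) (nat_lit 113969175068) (nat_lit 49) (nat_lit 5) (nat_lit 52) (nat_lit 5) (nat_lit 53) (nat_lit 5) (nat_lit 348) (nat_lit 320) (nat_lit 112))) (XT.nd (nat_lit 78) (nat_lit 228) (nat_lit 0) (XT.lf (nat_lit 0) (nat_lit 81471350126) (nat_lit 304) (nat_lit 51697732749) (nat_lit 76) (nat_lit 39023733743) (nat_lit 49) (nat_lit 5) (nat_lit 53) (nat_lit 5) (nat_lit 50) (nat_lit 5) (nat_lit 349) (nat_lit 320) (nat_lit 111)) (XT.nd (nat_lit 78) (nat_lit 0) (nat_lit 0) (XT.lf (nat_lit 0) (nat_lit 35052969049) (nat_lit 228) (nat_lit 77287232518) (nat_lit 304) (nat_lit 65399835317) (nat_lit 46) (nat_lit 5) (nat_lit 49) (nat_lit 5) (nat_lit 50) (nat_lit 5) (nat_lit 350) (nat_lit 320) (nat_lit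 110)) (XT.lf (nat_lit 0) (nat_lit 127935727029) (nat_lit 228) (nat_lit 17692076478) (nat_lit 304) (nat_lit 37893049511) (nat_lit 46) (nat_lit 5) (nat_lit 49) (nat_lit 5) (nat_lit 50) (nat_lit 5) (nat_lit 351) (nat_lit 320) (nat_lit 109)))))) (XT.nd (nat_lit 390) (nat_lit 380) (nat_lit 0) (XT.nd (nat_lit 156) (nat_lit 380) (nat_lit 0) (XT.nd (nat_lit 78) (nat_lit 76) (nat_lit 0) (XT.lf (nat_lit 0) (nat_lit 36333771554) (nat_lit 152) (nat_lit 145513823734) (nat_lit 228) (nat_lit 7679724424) (nat_lit 44) (nat_lit 5) (nat_lit 46) (nat_lit 5) (nat_lit 47) (nat_lit 5) (nat_lit 352) (nat_lit 320) (nat_lit 108)) (XT.lf (nat_lit 0) (nat_lit 24521320034) (nat_lit 228) (nat_lit 61689806552) (nat_lit 76) (nat_lit 109541882461) (nat_lit 43) (nat_lit 5) (nat_lit 46) (nat_lit 5) (nat_lit 44) (nat_lit 5) (nat_lit 353) (nat_lit 320) (nat_lit 107))) (XT.nd (nat_lit 78) (nat_lit 152) (nat_lit 0) (XT.lf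 (nat_lit 0) (nat_lit 35395822560) (nat_lit 228) (nat_lit 23230935544) (nat_lit 304) (nat_lit 143629308573) (nat_lit 40) (nat_lit 5) (nat_lit 43) (nat_lit 5) (nat_lit 44) (nat_lit 5) (nat_lit 354) (nat_lit 320) (nat_lit 106)) (XT.nd (nat_lit 78) (nat_lit 152) (nat_lit 0) (XT.lf (nat_lit 0) (nat_lit 96168909944) (nat_lit 304) (nat_lit 70241758606) (nat_lit 76) (nat_lit 42587036741) (nat_lit 40) (nat_lit 5) (nat_lit 44) (nat_lit 5) (nat_lit 41) (nat_lit 5) (nat_lit 355) (nat_lit 320) (nat_lit 105)) (XT.lf (nat_lit 0) (nat_lit 31845801135) (nat_lit 152) (nat_lit 104620220698) (nat_lit 228) (nat_lit 79566511570) (nat_lit 38) (nat_lit 5) (nat_lit 40) (nat_lit 5) (nat_lit 41) (nat_lit 5) (nat_lit 356) (nat_lit 320) (nat_lit 104))))) (XT.nd (nat_lit 234) (nat_lit 152) (nat_lit 0) (XT.nd (nat_lit 78) (nat_lit 228) (nat_lit 0) (XT.lf (nat_lit 0) (nat_lit 141476099068) (nat_lit 152) (nat_lit 38491288166)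 (nat_lit 228) (nat_lit 43392245967) (nat_lit 38) (nat_lit 5) (nat_lit 40) (nat_lit 5) (nat_lit 41) (nat_lit 5) (nat_lit 357) (nat_lit 320) (nat_lit 103)) (XT.nd (nat_lit 78) (nat_lit 76) (nat_lit 0) (XT.lf (nat_lit 0) (nat_lit 25879744066) (nat_lit 152) (nat_lit 200651083078) (nat_lit 228) (nat_lit 4477910707) (nat_lit 36) (nat_lit 5) (nat_lit 38) (nat_lit 5) (nat_lit 39) (nat_lit 5) (nat_lit 358) (nat_lit 320) (nat_lit 102)) (XT.lf (nat_lit 0) (nat_lit 37257989077) (nat_lit 228) (nat_lit 98318999379) (nat_lit 76) (nat_lit 103332892895) (nat_lit 35) (nat_lit 5) (nat_lit 38) (nat_lit 5) (nat_lit 36) (nat_lit 5) (nat_lit 359) (nat_lit 320) (nat_lit 101)))) (XT.nd (nat_lit 78) (nat_lit 0) (nat_lit 0) (XT.lf (nat_lit 0) (nat_lit 14212724424) (nat_lit 152) (nat_lit 66939209009) (nat_lit 228) (nat_lit 166039391486) (nat_lit 33) (nat_lit 5) (nat_lit 35) (nat_lit 5) (nat_lit 36) (nat_lit 5)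 (nat_lit 360) (nat_lit 320) (nat_lit 100)) (XT.nd (nat_lit 78) (nat_lit 0) (nat_lit 0) (XT.lf (nat_lit 0) (nat_lit 129012890731) (nat_lit 228) (nat_lit 120126796250) (nat_lit 76) (nat_lit 6658538039) (nat_lit 33) (nat_lit 5) (nat_lit 36) (nat_lit 5) (nat_lit 34) (nat_lit 5) (nat_lit 361) (nat_lit 320) (nat_lit 99)) (XT.lf (nat_lit 0) (nat_lit 180364106314) (nat_lit 228) (nat_lit 2730013874) (nat_lit 76) (nat_lit 81686489549) (nat_lit 33) (nat_lit 5) (nat_lit 36) (nat_lit 5) (nat_lit 34) (nat_lit 5) (nat_lit 362) (nat_lit 320) (nat_lit 98))))))))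
noncomputable def xc241 : XT := (XT.nd (nat_lit 38610) (nat_lit 0) (nat_lit 912) (XT.nd (nat_lit 37752) (nat_lit 0) (nat_lit 3800) (XT.nd (nat_lit 37362) (nat_lit 0) (nat_lit 5168) (XT.nd (nat_lit 156) (nat_lit 304) (nat_lit 0) (XT.nd (nat_lit 78) (nat_lit 76) (nat_lit 0) (XT.lf (nat_lit 0) (nat_lit 124521848224) (nat_lit 152) (nat_lit 111705023130) (nat_lit 228) (nat_lit 37888043030) (nat_lit 31) (nat_lit 5) (nat_lit 33) (nat_lit 5) (nat_lit 34) (nat_lit 5) (nat_lit 363) (nat_lit 320) (nat_lit 97)) (XT.lf (nat_lit 0) (nat_lit 10662679578) (nat_lit 228) (nat_lit 25854757569) (nat_lit 76) (nat_lit 247387593748) (nat_lit 30) (nat_lit 5) (nat_lit 33) (nat_lit 5) (nat_lit 31) (nat_lit 5) (nat_lit 364) (nat_lit 320) (nat_lit 96))) (XT.nd (nat_lit 78) (nat_lit 152) (nat_lit 0) (XT.lf (nat_lit 0) (nat_lit 62736025079) (nat_lit 228) (nat_lit 187900535253) (nat_lit 76) (nat_lit 43398618562) (nat_lit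 28) (nat_lit 5) (nat_lit 31) (nat_lit 5) (nat_lit 29) (nat_lit 5) (nat_lit 365) (nat_lit 320) (nat_lit 95)) (XT.nd (nat_lit 78) (nat_lit 152) (nat_lit 0) (XT.lf (nat_lit 0) (nat_lit 118456588504) (nat_lit 228) (nat_lit 59634859907) (nat_lit 76) (nat_lit 126528208455) (nat_lit 28) (nat_lit 5) (nat_lit 31) (nat_lit 5) (nat_lit 29) (nat_lit 5) (nat_lit 366) (nat_lit 320) (nat_lit 94)) (XT.lf (nat_lit 0) (nat_lit 77525171829) (nat_lit 152) (nat_lit 100648263210) (nat_lit 228) (nat_lit 137499411051) (nat_lit 26) (nat_lit 5) (nat_lit 28) (nat_lit 5) (nat_lit 29) (nat_lit 5) (nat_lit 367) (nat_lit 320) (nat_lit 93))))) (XT.nd (nat_lit 156) (nat_lit 0) (nat_lit 0) (XT.nd (nat_lit 78) (nat_lit 0) (nat_lit 0) (XT.lf (nat_lit 0) (nat_lit 18172544921) (nat_lit 0) (nat_lit 18172544921) (nat_lit 684) (nat_lit 3715635824) (nat_lit 94) (nat_lit 5) (nat_lit 94) (nat_lit 3) (nat_lit 103) (nat_lit 3) (nat_lit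 321) (nat_lit 321) (nat_lit 138)) (XT.lf (nat_lit 0) (nat_lit 74525731581) (nat_lit 684) (nat_lit 7057151688) (nat_lit 760) (nat_lit 540672466) (nat_lit 94) (nat_lit 5) (nat_lit 103) (nat_lit 3) (nat_lit 104) (nat_lit 5) (nat_lit 322) (nat_lit 321) (nat_lit 137))) (XT.nd (nat_lit 78) (nat_lit 0) (nat_lit 0) (XT.lf (nat_lit 76) (nat_lit 31923609277) (nat_lit 0) (nat_lit 45623081691) (nat_lit 760) (nat_lit 6624393981) (nat_lit 95) (nat_lit 5) (nat_lit 94) (nat_lit 5) (nat_lit 104) (nat_lit 5) (nat_lit 323) (nat_lit 321) (nat_lit 136)) (XT.nd (nat_lit 78) (nat_lit 0) (nat_lit 76) (XT.lf (nat_lit 76) (nat_lit 73098079149) (nat_lit 0) (nat_lit 7739550896) (nat_lit 760) (nat_lit 5477415032) (nat_lit 95) (nat_lit 5) (nat_lit 94) (nat_lit 5) (nat_lit 104) (nat_lit 5) (nat_lit 324) (nat_lit 321) (nat_lit 135)) (XT.lf (nat_lit 76) (nat_lit 28165997784) (nat_lit 0) (nat_lit 57066520810) (nat_lit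 760) (nat_lit 3286715478) (nat_lit 96) (nat_lit 5) (nat_lit 95) (nat_lit 5) (nat_lit 105) (nat_lit 5) (nat_lit 325) (nat_lit 321) (nat_lit 134)))))) (XT.nd (nat_lit 390) (nat_lit 760) (nat_lit 0) (XT.nd (nat_lit 156) (nat_lit 0) (nat_lit 0) (XT.nd (nat_lit 78) (nat_lit 684) (nat_lit 0) (XT.lf (nat_lit 76) (nat_lit 71945551626) (nat_lit 0) (nat_lit 18249734974) (nat_lit 760) (nat_lit 620940106) (nat_lit 96) (nat_lit 5) (nat_lit 95) (nat_lit 5) (nat_lit 105) (nat_lit 5) (nat_lit 326) (nat_lit 321) (nat_lit 133)) (XT.lf (nat_lit 0) (nat_lit 2863991344) (nat_lit 760) (nat_lit 68098251258) (nat_lit 836) (nat_lit 22226347848) (nat_lit 86) (nat_lit 5) (nat_lit 96) (nat_lit 5) (nat_lit 97) (nat_lit 5) (nat_lit 327) (nat_lit 321) (nat_lit 132))) (XT.nd (nat_lit 78) (nat_lit 0) (nat_lit 76) (XT.lf (nat_lit 0) (nat_lit 7125806389) (nat_lit 760) (nat_lit 24074008146) (nat_lit 836) (nat_lit 64448074457)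 (nat_lit 86) (nat_lit 5) (nat_lit 96) (nat_lit 5) (nat_lit 97) (nat_lit 5) (nat_lit 328) (nat_lit 321) (nat_lit 131)) (XT.nd (nat_lit 78) (nat_lit 0) (nat_lit 0) (XT.lf (nat_lit 0) (nat_lit 12128102362) (nat_lit 760) (nat_lit 75499390297) (nat_lit 836) (nat_lit 10576291068) (nat_lit 87) (nat_lit 5) (nat_lit 97) (nat_lit 5) (nat_lit 98) (nat_lit 5) (nat_lit 329) (nat_lit 321) (nat_lit 130)) (XT.lf (nat_lit 0) (nat_lit 18305921937) (nat_lit 760) (nat_lit 28728107330) (nat_lit 836) (nat_lit 53807174229) (nat_lit 87) (nat_lit 5) (nat_lit 97) (nat_lit 5) (nat_lit 98) (nat_lit 5) (nat_lit 330) (nat_lit 321) (nat_lit 129))))) (XT.nd (nat_lit 234) (nat_lit 380) (nat_lit 0) (XT.nd (nat_lit 78) (nat_lit 456) (nat_lit 0) (XT.lf (nat_lit 76) (nat_lit 21055284563) (nat_lit 0) (nat_lit 4065649230) (nat_lit 836) (nat_lit 78473146096) (nat_lit 88) (nat_lit 5) (nat_lit 87) (nat_lit 5) (nat_lit 98) (nat_lit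 5) (nat_lit 331) (nat_lit 321) (nat_lit 128)) (XT.nd (nat_lit 78) (nat_lit 532) (nat_lit 0) (XT.lf (nat_lit 0) (nat_lit 33411705318) (nat_lit 760) (nat_lit 32784324675) (nat_lit 76) (nat_lit 40231820324) (nat_lit 88) (nat_lit 5) (nat_lit 98) (nat_lit 5) (nat_lit 89) (nat_lit 5) (nat_lit 332) (nat_lit 321) (nat_lit 127)) (XT.lf (nat_lit 0) (nat_lit 20032014263) (nat_lit 532) (nat_lit 22464012139) (nat_lit 608) (nat_lit 66888332952) (nat_lit 81) (nat_lit 5) (nat_lit 88) (nat_lit 5) (nat_lit 89) (nat_lit 5) (nat_lit 333) (nat_lit 321) (nat_lit 126)))) (XT.nd (nat_lit 78) (nat_lit 380) (nat_lit 0) (XT.lf (nat_lit 0) (nat_lit 52964695002) (nat_lit 608) (nat_lit 36209228414) (nat_lit 76) (nat_lit 23268264461) (nat_lit 81) (nat_lit 5) (nat_lit 89) (nat_lit 5) (nat_lit 82) (nat_lit 5) (nat_lit 334) (nat_lit 321) (nat_lit 125)) (XT.nd (nat_lit 78) (nat_lit 0) (nat_lit 0) (XT.lf (nat_lit 0) (nat_lit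 19858010249) (nat_lit 380) (nat_lit 44776725587) (nat_lit 456) (nat_lit 50984275627) (nat_lit 76) (nat_lit 5) (nat_lit 81) (nat_lit 5) (nat_lit 82) (nat_lit 5) (nat_lit 335) (nat_lit 321) (nat_lit 124)) (XT.lf (nat_lit 0) (nat_lit 77539934133) (nat_lit 456) (nat_lit 38977451439) (nat_lit 76) (nat_lit 2404708434) (nat_lit 76) (nat_lit 5) (nat_lit 82) (nat_lit 5) (nat_lit 77) (nat_lit 5) (nat_lit 336) (nat_lit 321) (nat_lit 123))))))) (XT.nd (nat_lit 780) (nat_lit 1368) (nat_lit 0) (XT.nd (nat_lit 390) (nat_lit 532) (nat_lit 0) (XT.nd (nat_lit 156) (nat_lit 684) (nat_lit 0) (XT.nd (nat_lit 78) (nat_lit 0) (nat_lit 0) (XT.lf (nat_lit 0) (nat_lit 20569228037) (nat_lit 304) (nat_lit 71576018070) (nat_lit 380) (nat_lit 30192342406) (nat_lit 72) (nat_lit 5) (nat_lit 76) (nat_lit 5) (nat_lit 77) (nat_lit 5) (nat_lit 337) (nat_lit 321) (nat_lit 122)) (XT.lf (nat_lit 0) (nat_lit 84446109324) (nat_lit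 304) (nat_lit 23694492730) (nat_lit 380) (nat_lit 17750267272) (nat_lit 72) (nat_lit 5) (nat_lit 76) (nat_lit 5) (nat_lit 77) (nat_lit 5) (nat_lit 338) (nat_lit 321) (nat_lit 121))) (XT.nd (nat_lit 78) (nat_lit 380) (nat_lit 0) (XT.lf (nat_lit 0) (nat_lit 22189889289) (nat_lit 304) (nat_lit 103506979991) (nat_lit 380) (nat_lit 3886888200) (nat_lit 68) (nat_lit 5) (nat_lit 72) (nat_lit 5) (nat_lit 73) (nat_lit 5) (nat_lit 339) (nat_lit 321) (nat_lit 120)) (XT.nd (nat_lit 78) (nat_lit 304) (nat_lit 0) (XT.lf (nat_lit 0) (nat_lit 11429687433) (nat_lit 380) (nat_lit 43547925743) (nat_lit 76) (nat_lit 78420271964) (nat_lit 67) (nat_lit 5) (nat_lit 72) (nat_lit 5) (nat_lit 68) (nat_lit 5) (nat_lit 340) (nat_lit 321) (nat_lit 119)) (XT.lf (nat_lit 0) (nat_lit 24200843291) (nat_lit 304) (nat_lit 3558176743) (nat_lit 380) (nat_lit 109621635930) (nat_lit 63) (nat_lit 5) (nat_lit 67) (nat_lit 5)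 (nat_lit 68) (nat_lit 5) (nat_lit 341) (nat_lit 321) (nat_lit 118))))) (XT.nd (nat_lit 156) (nat_lit 228) (nat_lit 0) (XT.nd (nat_lit 78) (nat_lit 304) (nat_lit 0) (XT.lf (nat_lit 0) (nat_lit 46441521391) (nat_lit 380) (nat_lit 45476570013) (nat_lit 76) (nat_lit 49567639210) (nat_lit 63) (nat_lit 5) (nat_lit 68) (nat_lit 5) (nat_lit 64) (nat_lit 5) (nat_lit 342) (nat_lit 321) (nat_lit 117)) (XT.lf (nat_lit 0) (nat_lit 26398086055) (nat_lit 304) (nat_lit 40130272259) (nat_lit 380) (nat_lit 79244190530) (nat_lit 59) (nat_lit 5) (nat_lit 63) (nat_lit 5) (nat_lit 64) (nat_lit 5) (nat_lit 343) (nat_lit 321) (nat_lit 116))) (XT.nd (nat_lit 78) (nat_lit 228) (nat_lit 0) (XT.lf (nat_lit 0) (nat_lit 88624503726) (nat_lit 380) (nat_lit 47025270071) (nat_lit 76) (nat_lit 14573686210) (nat_lit 59) (nat_lit 5) (nat_lit 64) (nat_lit 5) (nat_lit 60) (nat_lit 5) (nat_lit 344) (nat_lit 321) (nat_lit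 115)) (XT.nd (nat_lit 78) (nat_lit 0) (nat_lit 0) (XT.lf (nat_lit 0) (nat_lit 29218365916) (nat_lit 228) (nat_lit 83720895429) (nat_lit 304) (nat_lit 41901965474) (nat_lit 56) (nat_lit 5) (nat_lit 59) (nat_lit 5) (nat_lit 60) (nat_lit 5) (nat_lit 345) (nat_lit 321) (nat_lit 114)) (XT.lf (nat_lit 0) (nat_lit 110906486715) (nat_lit 228) (nat_lit 28359423922) (nat_lit 304) (nat_lit 20384163968) (nat_lit 56) (nat_lit 5) (nat_lit 59) (nat_lit 5) (nat_lit 60) (nat_lit 5) (nat_lit 346) (nat_lit 321) (nat_lit 113)))))) (XT.nd (nat_lit 390) (nat_lit 608) (nat_lit 0) (XT.nd (nat_lit 156) (nat_lit 456) (nat_lit 0) (XT.nd (nat_lit 78) (nat_lit 0) (nat_lit 0) (XT.lf (nat_lit 0) (nat_lit 3127620034) (nat_lit 304) (nat_lit 132144604696) (nat_lit 76) (nat_lit 29375974940) (nat_lit 52) (nat_lit 5) (nat_lit 56) (nat_lit 5) (nat_lit 53) (nat_lit 5) (nat_lit 347) (nat_lit 321) (nat_lit 112)) (XT.lf (nat_lit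 0) (nat_lit 28433660216) (nat_lit 304) (nat_lit 51162467111) (nat_lit 76) (nat_lit 90218210181) (nat_lit 52) (nat_lit 5) (nat_lit 56) (nat_lit 5) (nat_lit 53) (nat_lit 5) (nat_lit 348) (nat_lit 321) (nat_lit 111))) (XT.nd (nat_lit 78) (nat_lit 228) (nat_lit 0) (XT.lf (nat_lit 0) (nat_lit 34988329758) (nat_lit 228) (nat_lit 20562720430) (nat_lit 304) (nat_lit 119660429924) (nat_lit 49) (nat_lit 5) (nat_lit 52) (nat_lit 5) (nat_lit 53) (nat_lit 5) (nat_lit 349) (nat_lit 321) (nat_lit 110)) (XT.nd (nat_lit 78) (nat_lit 228) (nat_lit 0) (XT.lf (nat_lit 0) (nat_lit 85551480760) (nat_lit 304) (nat_lit 54273465959) (nat_lit 76) (nat_lit 40977174825) (nat_lit 49) (nat_lit 5) (nat_lit 53) (nat_lit 5) (nat_lit 50) (nat_lit 5) (nat_lit 350) (nat_lit 321) (nat_lit 109)) (XT.lf (nat_lit 0) (nat_lit 36814623294) (nat_lit 228) (nat_lit 81148979555) (nat_lit 304) (nat_lit 68663108939) (nat_lit 46) (nat_lit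 5) (nat_lit 49) (nat_lit 5) (nat_lit 50) (nat_lit 5) (nat_lit 351) (nat_lit 321) (nat_lit 108))))) (XT.nd (nat_lit 234) (nat_lit 380) (nat_lit 0) (XT.nd (nat_lit 78) (nat_lit 228) (nat_lit 0) (XT.lf (nat_lit 0) (nat_lit 134341090325) (nat_lit 228) (nat_lit 18574190218) (nat_lit 304) (nat_lit 39781303754) (nat_lit 46) (nat_lit 5) (nat_lit 49) (nat_lit 5) (nat_lit 50) (nat_lit 5) (nat_lit 352) (nat_lit 321) (nat_lit 107)) (XT.nd (nat_lit 78) (nat_lit 76) (nat_lit 0) (XT.lf (nat_lit 0) (nat_lit 38159166838) (nat_lit 152) (nat_lit 152786778186) (nat_lit 228) (nat_lit 8057435480) (nat_lit 44) (nat_lit 5) (nat_lit 46) (nat_lit 5) (nat_lit 47) (nat_lit 5) (nat_lit 353) (nat_lit 321) (nat_lit 106)) (XT.lf (nat_lit 0) (nat_lit 25753171103) (nat_lit 228) (nat_lit 64765807425) (nat_lit 76) (nat_lit 115021385646) (nat_lit 43) (nat_lit 5) (nat_lit 46) (nat_lit 5) (nat_lit 44) (nat_lit 5) (nat_lit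 354) (nat_lit 321) (nat_lit 105)))) (XT.nd (nat_lit 78) (nat_lit 152) (nat_lit 0) (XT.lf (nat_lit 0) (nat_lit 37173966215) (nat_lit 228) (nat_lit 24389769788) (nat_lit 304) (nat_lit 150804846225) (nat_lit 40) (nat_lit 5) (nat_lit 43) (nat_lit 5) (nat_lit 44) (nat_lit 5) (nat_lit 355) (nat_lit 321) (nat_lit 104)) (XT.nd (nat_lit 78) (nat_lit 152) (nat_lit 0) (XT.lf (nat_lit 0) (nat_lit 100982767198) (nat_lit 304) (nat_lit 73745658004) (nat_lit 76) (nat_lit 44718889260) (nat_lit 40) (nat_lit 5) (nat_lit 44) (nat_lit 5) (nat_lit 41) (nat_lit 5) (nat_lit 356) (nat_lit 321) (nat_lit 103)) (XT.lf (nat_lit 0) (nat_lit 33446147651) (nat_lit 152) (nat_lit 109848455111) (nat_lit 228) (nat_lit 83539288073) (nat_lit 38) (nat_lit 5) (nat_lit 40) (nat_lit 5) (nat_lit 41) (nat_lit 5) (nat_lit 357) (nat_lit 321) (nat_lit 102))))))))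
noncomputable def xc242 : XT := (XT.nd (nat_lit 38688) (nat_lit 0) (nat_lit 1368) (XT.nd (nat_lit 37908) (nat_lit 0) (nat_lit 4408) (XT.nd (nat_lit 390) (nat_lit 380) (nat_lit 0) (XT.nd (nat_lit 156) (nat_lit 228) (nat_lit 0) (XT.nd (nat_lit 78) (nat_lit 152) (nat_lit 0) (XT.lf (nat_lit 0) (nat_lit 148557576841) (nat_lit 152) (nat_lit 40413208173) (nat_lit 228) (nat_lit 45556573432) (nat_lit 38) (nat_lit 5) (nat_lit 40) (nat_lit 5) (nat_lit 41) (nat_lit 5) (nat_lit 358) (nat_lit 321) (nat_lit 101)) (XT.lf (nat_lit 0) (nat_lit 27181491993) (nat_lit 152) (nat_lit 210680825963) (nat_lit 228) (nat_lit 4696604556) (nat_lit 36) (nat_lit 5) (nat_lit 38) (nat_lit 5) (nat_lit 39) (nat_lit 5) (nat_lit 359) (nat_lit 321) (nat_lit 100))) (XT.nd (nat_lit 78) (nat_lit 152) (nat_lit 0) (XT.lf (nat_lit 0) (nat_lit 39125683959) (nat_lit 228) (nat_lit 103227395309) (nat_lit 76) (nat_lit 108502052064)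 (nat_lit 35) (nat_lit 5) (nat_lit 38) (nat_lit 5) (nat_lit 36) (nat_lit 5) (nat_lit 360) (nat_lit 321) (nat_lit 99)) (XT.nd (nat_lit 78) (nat_lit 0) (nat_lit 0) (XT.lf (nat_lit 0) (nat_lit 14930792845) (nat_lit 152) (nat_lit 70283420371) (nat_lit 228) (nat_lit 174336439683) (nat_lit 33) (nat_lit 5) (nat_lit 35) (nat_lit 5) (nat_lit 36) (nat_lit 5) (nat_lit 361) (nat_lit 321) (nat_lit 98)) (XT.lf (nat_lit 0) (nat_lit 135468036251) (nat_lit 228) (nat_lit 126125871734) (nat_lit 76) (nat_lit 6993999322) (nat_lit 33) (nat_lit 5) (nat_lit 36) (nat_lit 5) (nat_lit 34) (nat_lit 5) (nat_lit 362) (nat_lit 321) (nat_lit 97))))) (XT.nd (nat_lit 156) (nat_lit 228) (nat_lit 0) (XT.nd (nat_lit 78) (nat_lit 152) (nat_lit 0) (XT.lf (nat_lit 0) (nat_lit 189386598281) (nat_lit 228) (nat_lit 2859596161) (nat_lit 76) (nat_lit 85773227722) (nat_lit 33) (nat_lit 5) (nat_lit 36) (nat_lit 5) (nat_lit 34) (nat_lit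 5) (nat_lit 363) (nat_lit 321) (nat_lit 96)) (XT.lf (nat_lit 0) (nat_lit 130754747456) (nat_lit 152) (nat_lit 117287656265) (nat_lit 228) (nat_lit 39778043393) (nat_lit 31) (nat_lit 5) (nat_lit 33) (nat_lit 5) (nat_lit 34) (nat_lit 5) (nat_lit 364) (nat_lit 321) (nat_lit 95))) (XT.nd (nat_lit 78) (nat_lit 152) (nat_lit 0) (XT.lf (nat_lit 0) (nat_lit 11199871560) (nat_lit 228) (nat_lit 27140875365) (nat_lit 76) (nat_lit 259759329393) (nat_lit 30) (nat_lit 5) (nat_lit 33) (nat_lit 5) (nat_lit 31) (nat_lit 5) (nat_lit 365) (nat_lit 321) (nat_lit 94)) (XT.nd (nat_lit 37206) (nat_lit 0) (nat_lit 5016) (XT.lf (nat_lit 0) (nat_lit 65876832553) (nat_lit 228) (nat_lit 197288887083) (nat_lit 76) (nat_lit 45571014826) (nat_lit 28) (nat_lit 5) (nat_lit 31) (nat_lit 5) (nat_lit 29) (nat_lit 5) (nat_lit 366) (nat_lit 321) (nat_lit 93)) (XT.lf (nat_lit 0) (nat_lit 19085885846) (nat_lit 0) (nat_lit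 19085885846) (nat_lit 684) (nat_lit 3891502143) (nat_lit 94) (nat_lit 5) (nat_lit 94) (nat_lit 3) (nat_lit 103) (nat_lit 3) (nat_lit 322) (nat_lit 322) (nat_lit 136)))))) (XT.nd (nat_lit 390) (nat_lit 608) (nat_lit 0) (XT.nd (nat_lit 156) (nat_lit 0) (nat_lit 0) (XT.nd (nat_lit 78) (nat_lit 0) (nat_lit 0) (XT.lf (nat_lit 0) (nat_lit 78269834853) (nat_lit 684) (nat_lit 7399960916) (nat_lit 760) (nat_lit 559015019) (nat_lit 94) (nat_lit 5) (nat_lit 103) (nat_lit 3) (nat_lit 104) (nat_lit 5) (nat_lit 323) (nat_lit 322) (nat_lit 135)) (XT.lf (nat_lit 76) (nat_lit 33529676027) (nat_lit 0) (nat_lit 47911472121) (nat_lit 760) (nat_lit 6937604537) (nat_lit 95) (nat_lit 5) (nat_lit 94) (nat_lit 5) (nat_lit 104) (nat_lit 5) (nat_lit 324) (nat_lit 322) (nat_lit 134))) (XT.nd (nat_lit 78) (nat_lit 0) (nat_lit 76) (XT.lf (nat_lit 76) (nat_lit 76762398617) (nat_lit 0) (nat_lit 8133420198) (nat_lit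 760) (nat_lit 5734134219) (nat_lit 95) (nat_lit 5) (nat_lit 94) (nat_lit 5) (nat_lit 104) (nat_lit 5) (nat_lit 325) (nat_lit 322) (nat_lit 133)) (XT.nd (nat_lit 78) (nat_lit 0) (nat_lit 0) (XT.lf (nat_lit 76) (nat_lit 29584497864) (nat_lit 0) (nat_lit 59925234170) (nat_lit 760) (nat_lit 3434656811) (nat_lit 96) (nat_lit 5) (nat_lit 95) (nat_lit 5) (nat_lit 105) (nat_lit 5) (nat_lit 326) (nat_lit 322) (nat_lit 132)) (XT.lf (nat_lit 76) (nat_lit 75552543675) (nat_lit 0) (nat_lit 19167352503) (nat_lit 760) (nat_lit 636373359) (nat_lit 96) (nat_lit 5) (nat_lit 95) (nat_lit 5) (nat_lit 105) (nat_lit 5) (nat_lit 327) (nat_lit 322) (nat_lit 131))))) (XT.nd (nat_lit 156) (nat_lit 0) (nat_lit 76) (XT.nd (nat_lit 78) (nat_lit 0) (nat_lit 0) (XT.lf (nat_lit 0) (nat_lit 3021672589) (nat_lit 760) (nat_lit 71492268482) (nat_lit 836) (nat_lit 23333331015) (nat_lit 86) (nat_lit 5) (nat_lit 96) (nat_lit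 5) (nat_lit 97) (nat_lit 5) (nat_lit 328) (nat_lit 322) (nat_lit 130)) (XT.lf (nat_lit 0) (nat_lit 7495888782) (nat_lit 760) (nat_lit 25267332040) (nat_lit 836) (nat_lit 67666350346) (nat_lit 86) (nat_lit 5) (nat_lit 96) (nat_lit 5) (nat_lit 97) (nat_lit 5) (nat_lit 329) (nat_lit 322) (nat_lit 129))) (XT.nd (nat_lit 78) (nat_lit 0) (nat_lit 0) (XT.lf (nat_lit 0) (nat_lit 12747754007) (nat_lit 760) (nat_lit 79263416163) (nat_lit 836) (nat_lit 11102118827) (nat_lit 87) (nat_lit 5) (nat_lit 97) (nat_lit 5) (nat_lit 98) (nat_lit 5) (nat_lit 330) (nat_lit 322) (nat_lit 128)) (XT.nd (nat_lit 78) (nat_lit 0) (nat_lit 0) (XT.lf (nat_lit 0) (nat_lit 19233833774) (nat_lit 760) (nat_lit 30154090173) (nat_lit 836) (nat_lit 56494688374) (nat_lit 87) (nat_lit 5) (nat_lit 97) (nat_lit 5) (nat_lit 98) (nat_lit 5) (nat_lit 331) (nat_lit 322) (nat_lit 127)) (XT.lf (nat_lit 76) (nat_lit 22118303209) (nat_lit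 0) (nat_lit 4270852365) (nat_lit 836) (nat_lit 82383999972) (nat_lit 88) (nat_lit 5) (nat_lit 87) (nat_lit 5) (nat_lit 98) (nat_lit 5) (nat_lit 332) (nat_lit 322) (nat_lit 126))))))) (XT.nd (nat_lit 780) (nat_lit 1292) (nat_lit 0) (XT.nd (nat_lit 390) (nat_lit 988) (nat_lit 0) (XT.nd (nat_lit 156) (nat_lit 380) (nat_lit 0) (XT.nd (nat_lit 78) (nat_lit 532) (nat_lit 0) (XT.lf (nat_lit 0) (nat_lit 35093857349) (nat_lit 760) (nat_lit 34413147821) (nat_lit 76) (nat_lit 42241640674) (nat_lit 88) (nat_lit 5) (nat_lit 98) (nat_lit 5) (nat_lit 89) (nat_lit 5) (nat_lit 333) (nat_lit 322) (nat_lit 125)) (XT.lf (nat_lit 0) (nat_lit 21043840434) (nat_lit 532) (nat_lit 23588162904) (nat_lit 608) (nat_lit 70220997441) (nat_lit 81) (nat_lit 5) (nat_lit 88) (nat_lit 5) (nat_lit 89) (nat_lit 5) (nat_lit 334) (nat_lit 322) (nat_lit 124))) (XT.nd (nat_lit 78) (nat_lit 380) (nat_lit 0) (XT.lf (nat_lit 0)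 (nat_lit 55623559067) (nat_lit 608) (nat_lit 38009388087) (nat_lit 76) (nat_lit 24430801735) (nat_lit 81) (nat_lit 5) (nat_lit 89) (nat_lit 5) (nat_lit 82) (nat_lit 5) (nat_lit 335) (nat_lit 322) (nat_lit 123)) (XT.nd (nat_lit 78) (nat_lit 0) (nat_lit 0) (XT.lf (nat_lit 0) (nat_lit 20861046352) (nat_lit 380) (nat_lit 47015707678) (nat_lit 456) (nat_lit 53522677825) (nat_lit 76) (nat_lit 5) (nat_lit 81) (nat_lit 5) (nat_lit 82) (nat_lit 5) (nat_lit 336) (nat_lit 322) (nat_lit 122)) (XT.lf (nat_lit 0) (nat_lit 81426720484) (nat_lit 456) (nat_lit 40916163965) (nat_lit 76) (nat_lit 2524809433) (nat_lit 76) (nat_lit 5) (nat_lit 82) (nat_lit 5) (nat_lit 77) (nat_lit 5) (nat_lit 337) (nat_lit 322) (nat_lit 121))))) (XT.nd (nat_lit 156) (nat_lit 684) (nat_lit 0) (XT.nd (nat_lit 78) (nat_lit 0) (nat_lit 0) (XT.lf (nat_lit 0) (nat_lit 21607685614) (nat_lit 304) (nat_lit 75154302338) (nat_lit 380)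 (nat_lit 31691991398) (nat_lit 72) (nat_lit 5) (nat_lit 76) (nat_lit 5) (nat_lit 77) (nat_lit 5) (nat_lit 338) (nat_lit 322) (nat_lit 120)) (XT.lf (nat_lit 0) (nat_lit 88677934956) (nat_lit 304) (nat_lit 24878725332) (nat_lit 380) (nat_lit 18628287180) (nat_lit 72) (nat_lit 5) (nat_lit 76) (nat_lit 5) (nat_lit 77) (nat_lit 5) (nat_lit 339) (nat_lit 322) (nat_lit 119))) (XT.nd (nat_lit 78) (nat_lit 380) (nat_lit 0) (XT.lf (nat_lit 0) (nat_lit 23309200629) (nat_lit 304) (nat_lit 108681270921) (nat_lit 380) (nat_lit 4072022609) (nat_lit 68) (nat_lit 5) (nat_lit 72) (nat_lit 5) (nat_lit 73) (nat_lit 5) (nat_lit 340) (nat_lit 322) (nat_lit 118)) (XT.nd (nat_lit 78) (nat_lit 304) (nat_lit 0) (XT.lf (nat_lit 0) (nat_lit 12009662493) (nat_lit 380) (nat_lit 45715679862) (nat_lit 76) (nat_lit 82342000485) (nat_lit 67) (nat_lit 5) (nat_lit 72) (nat_lit 5) (nat_lit 68) (nat_lit 5) (nat_lit 341)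 (nat_lit 322) (nat_lit 117)) (XT.lf (nat_lit 0) (nat_lit 25420372105) (nat_lit 304) (nat_lit 3734833415) (nat_lit 380) (nat_lit 115094060069) (nat_lit 63) (nat_lit 5) (nat_lit 67) (nat_lit 5) (nat_lit 68) (nat_lit 5) (nat_lit 342) (nat_lit 322) (nat_lit 116)))))) (XT.nd (nat_lit 390) (nat_lit 760) (nat_lit 0) (XT.nd (nat_lit 156) (nat_lit 228) (nat_lit 0) (XT.nd (nat_lit 78) (nat_lit 304) (nat_lit 0) (XT.lf (nat_lit 0) (nat_lit 48771458444) (nat_lit 380) (nat_lit 47740979206) (nat_lit 76) (nat_lit 52047175541) (nat_lit 63) (nat_lit 5) (nat_lit 68) (nat_lit 5) (nat_lit 64) (nat_lit 5) (nat_lit 343) (nat_lit 322) (nat_lit 115)) (XT.lf (nat_lit 0) (nat_lit 27727257741) (nat_lit 304) (nat_lit 42135149830) (nat_lit 380) (nat_lit 83198376763) (nat_lit 59) (nat_lit 5) (nat_lit 63) (nat_lit 5) (nat_lit 64) (nat_lit 5) (nat_lit 344) (nat_lit 322) (nat_lit 114))) (XT.nd (nat_lit 78) (nat_lit 228)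 (nat_lit 0) (XT.lf (nat_lit 0) (nat_lit 93063021183) (nat_lit 380) (nat_lit 49367358534) (nat_lit 76) (nat_lit 15303878786) (nat_lit 59) (nat_lit 5) (nat_lit 64) (nat_lit 5) (nat_lit 60) (nat_lit 5) (nat_lit 345) (nat_lit 322) (nat_lit 113)) (XT.nd (nat_lit 78) (nat_lit 0) (nat_lit 0) (XT.lf (nat_lit 0) (nat_lit 30688311268) (nat_lit 228) (nat_lit 87904999102) (nat_lit 304) (nat_lit 43989614073) (nat_lit 56) (nat_lit 5) (nat_lit 59) (nat_lit 5) (nat_lit 60) (nat_lit 5) (nat_lit 346) (nat_lit 322) (nat_lit 112)) (XT.lf (nat_lit 0) (nat_lit 116460408247) (nat_lit 228) (nat_lit 29775546453) (nat_lit 304) (nat_lit 21396277237) (nat_lit 56) (nat_lit 5) (nat_lit 59) (nat_lit 5) (nat_lit 60) (nat_lit 5) (nat_lit 347) (nat_lit 322) (nat_lit 111))))) (XT.nd (nat_lit 234) (nat_lit 228) (nat_lit 0) (XT.nd (nat_lit 78) (nat_lit 228) (nat_lit 0) (XT.lf (nat_lit 0) (nat_lit 3290708965) (nat_lit 304)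 (nat_lit 138742834055) (nat_lit 76) (nat_lit 30846723100) (nat_lit 52) (nat_lit 5) (nat_lit 56) (nat_lit 5) (nat_lit 53) (nat_lit 5) (nat_lit 348) (nat_lit 322) (nat_lit 110)) (XT.nd (nat_lit 78) (nat_lit 228) (nat_lit 0) (XT.lf (nat_lit 0) (nat_lit 29861731731) (nat_lit 304) (nat_lit 53712018203) (nat_lit 76) (nat_lit 94730977274) (nat_lit 52) (nat_lit 5) (nat_lit 56) (nat_lit 5) (nat_lit 53) (nat_lit 5) (nat_lit 349) (nat_lit 322) (nat_lit 109)) (XT.lf (nat_lit 0) (nat_lit 36746180247) (nat_lit 228) (nat_lit 21588638418) (nat_lit 304) (nat_lit 125636917273) (nat_lit 49) (nat_lit 5) (nat_lit 52) (nat_lit 5) (nat_lit 53) (nat_lit 5) (nat_lit 350) (nat_lit 322) (nat_lit 108)))) (XT.nd (nat_lit 78) (nat_lit 228) (nat_lit 0) (XT.lf (nat_lit 0) (nat_lit 89835007748) (nat_lit 304) (nat_lit 56978836828) (nat_lit 76) (nat_lit 43028078368) (nat_lit 49) (nat_lit 5) (nat_lit 53) (nat_lit 5) (nat_lit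 50) (nat_lit 5) (nat_lit 351) (nat_lit 322) (nat_lit 107)) (XT.nd (nat_lit 78) (nat_lit 0) (nat_lit 0) (XT.lf (nat_lit 0) (nat_lit 38663522977) (nat_lit 228) (nat_lit 85204057024) (nat_lit 304) (nat_lit 72090170831) (nat_lit 46) (nat_lit 5) (nat_lit 49) (nat_lit 5) (nat_lit 50) (nat_lit 5) (nat_lit 352) (nat_lit 322) (nat_lit 106)) (XT.lf (nat_lit 0) (nat_lit 141065924383) (nat_lit 228) (nat_lit 19500641149) (nat_lit 304) (nat_lit 41764565557) (nat_lit 46) (nat_lit 5) (nat_lit 49) (nat_lit 5) (nat_lit 50) (nat_lit 5) (nat_lit 353) (nat_lit 322) (nat_lit 105))))))))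
noncomputable def xc243 : XT := (XT.nd (nat_lit 38922) (nat_lit 0) (nat_lit 1368) (XT.nd (nat_lit 780) (nat_lit 152) (nat_lit 0) (XT.nd (nat_lit 390) (nat_lit 380) (nat_lit 0) (XT.nd (nat_lit 156) (nat_lit 380) (nat_lit 0) (XT.nd (nat_lit 78) (nat_lit 76) (nat_lit 0) (XT.lf (nat_lit 0) (nat_lit 40075022420) (nat_lit 152) (nat_lit 160423634796) (nat_lit 228) (nat_lit 8454615495) (nat_lit 44) (nat_lit 5) (nat_lit 46) (nat_lit 5) (nat_lit 47) (nat_lit 5) (nat_lit 354) (nat_lit 322) (nat_lit 104)) (XT.lf (nat_lit 0) (nat_lit 27046076885) (nat_lit 228) (nat_lit 67996397611) (nat_lit 76) (nat_lit 120774640018) (nat_lit 43) (nat_lit 5) (nat_lit 46) (nat_lit 5) (nat_lit 44) (nat_lit 5) (nat_lit 355) (nat_lit 322) (nat_lit 103))) (XT.nd (nat_lit 78) (nat_lit 152) (nat_lit 0) (XT.lf (nat_lit 0) (nat_lit 39040240514) (nat_lit 228) (nat_lit 25606797930) (nat_lit 304) (nat_lit 158339711868) (nat_lit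 40) (nat_lit 5) (nat_lit 43) (nat_lit 5) (nat_lit 44) (nat_lit 5) (nat_lit 356) (nat_lit 322) (nat_lit 102)) (XT.nd (nat_lit 78) (nat_lit 152) (nat_lit 0) (XT.lf (nat_lit 0) (nat_lit 106036814180) (nat_lit 304) (nat_lit 77425513663) (nat_lit 76) (nat_lit 46957101914) (nat_lit 40) (nat_lit 5) (nat_lit 44) (nat_lit 5) (nat_lit 41) (nat_lit 5) (nat_lit 357) (nat_lit 322) (nat_lit 101)) (XT.lf (nat_lit 0) (nat_lit 35125762481) (nat_lit 152) (nat_lit 115338359388) (nat_lit 228) (nat_lit 87711219303) (nat_lit 38) (nat_lit 5) (nat_lit 40) (nat_lit 5) (nat_lit 41) (nat_lit 5) (nat_lit 358) (nat_lit 322) (nat_lit 100))))) (XT.nd (nat_lit 156) (nat_lit 228) (nat_lit 0) (XT.nd (nat_lit 78) (nat_lit 152) (nat_lit 0) (XT.lf (nat_lit 0) (nat_lit 155992415156) (nat_lit 152) (nat_lit 42431470031) (nat_lit 228) (nat_lit 47829608604) (nat_lit 38) (nat_lit 5) (nat_lit 40) (nat_lit 5) (nat_lit 41) (nat_lit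 5) (nat_lit 359) (nat_lit 322) (nat_lit 99)) (XT.lf (nat_lit 0) (nat_lit 28547605798) (nat_lit 152) (nat_lit 221212317358) (nat_lit 228) (nat_lit 4926716701) (nat_lit 36) (nat_lit 5) (nat_lit 38) (nat_lit 5) (nat_lit 39) (nat_lit 5) (nat_lit 360) (nat_lit 322) (nat_lit 98))) (XT.nd (nat_lit 78) (nat_lit 152) (nat_lit 0) (XT.lf (nat_lit 0) (nat_lit 41086317752) (nat_lit 228) (nat_lit 108381913338) (nat_lit 76) (nat_lit 113929435416) (nat_lit 35) (nat_lit 5) (nat_lit 38) (nat_lit 5) (nat_lit 36) (nat_lit 5) (nat_lit 361) (nat_lit 322) (nat_lit 97)) (XT.nd (nat_lit 78) (nat_lit 0) (nat_lit 0) (XT.lf (nat_lit 0) (nat_lit 15684073712) (nat_lit 152) (nat_lit 73795097886) (nat_lit 228) (nat_lit 183048797833) (nat_lit 33) (nat_lit 5) (nat_lit 35) (nat_lit 5) (nat_lit 36) (nat_lit 5) (nat_lit 362) (nat_lit 322) (nat_lit 96)) (XT.lf (nat_lit 0) (nat_lit 142245520589) (nat_lit 228) (nat_lit 132425576361)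 (nat_lit 76) (nat_lit 7345998046) (nat_lit 33) (nat_lit 5) (nat_lit 36) (nat_lit 5) (nat_lit 34) (nat_lit 5) (nat_lit 363) (nat_lit 322) (nat_lit 95)))))) (XT.nd (nat_lit 37674) (nat_lit 0) (nat_lit 4180) (XT.nd (nat_lit 37440) (nat_lit 0) (nat_lit 4788) (XT.nd (nat_lit 78) (nat_lit 152) (nat_lit 0) (XT.lf (nat_lit 0) (nat_lit 198859816314) (nat_lit 228) (nat_lit 2996300769) (nat_lit 76) (nat_lit 90064078402) (nat_lit 33) (nat_lit 5) (nat_lit 36) (nat_lit 5) (nat_lit 34) (nat_lit 5) (nat_lit 364) (nat_lit 322) (nat_lit 94)) (XT.lf (nat_lit 0) (nat_lit 137298658815) (nat_lit 152) (nat_lit 123149664455) (nat_lit 228) (nat_lit 41762953011) (nat_lit 31) (nat_lit 5) (nat_lit 33) (nat_lit 5) (nat_lit 34) (nat_lit 5) (nat_lit 365) (nat_lit 322) (nat_lit 93))) (XT.nd (nat_lit 78) (nat_lit 0) (nat_lit 0) (XT.lf (nat_lit 0) (nat_lit 20044455584) (nat_lit 0) (nat_lit 20044455584) (nat_lit 684)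 (nat_lit 4077083624) (nat_lit 94) (nat_lit 5) (nat_lit 94) (nat_lit 3) (nat_lit 103) (nat_lit 3) (nat_lit 323) (nat_lit 323) (nat_lit 134)) (XT.nd (nat_lit 78) (nat_lit 0) (nat_lit 0) (XT.lf (nat_lit 0) (nat_lit 82199486862) (nat_lit 684) (nat_lit 7760844806) (nat_lit 760) (nat_lit 579082713) (nat_lit 94) (nat_lit 5) (nat_lit 103) (nat_lit 3) (nat_lit 104) (nat_lit 5) (nat_lit 324) (nat_lit 323) (nat_lit 133)) (XT.lf (nat_lit 76) (nat_lit 35215126982) (nat_lit 0) (nat_lit 50313609306) (nat_lit 760) (nat_lit 7268149941) (nat_lit 95) (nat_lit 5) (nat_lit 94) (nat_lit 5) (nat_lit 104) (nat_lit 5) (nat_lit 325) (nat_lit 323) (nat_lit 132))))) (XT.nd (nat_lit 234) (nat_lit 608) (nat_lit 0) (XT.nd (nat_lit 78) (nat_lit 0) (nat_lit 76) (XT.lf (nat_lit 76) (nat_lit 80609058694) (nat_lit 0) (nat_lit 8546342236) (nat_lit 760) (nat_lit 6005283955) (nat_lit 95) (nat_lit 5) (nat_lit 94) (nat_lit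 5) (nat_lit 104) (nat_lit 5) (nat_lit 326) (nat_lit 323) (nat_lit 131)) (XT.nd (nat_lit 78) (nat_lit 0) (nat_lit 0) (XT.lf (nat_lit 76) (nat_lit 31072974631) (nat_lit 0) (nat_lit 62926382336) (nat_lit 760) (nat_lit 3591519411) (nat_lit 96) (nat_lit 5) (nat_lit 95) (nat_lit 5) (nat_lit 105) (nat_lit 5) (nat_lit 327) (nat_lit 323) (nat_lit 130)) (XT.lf (nat_lit 76) (nat_lit 79338982166) (nat_lit 0) (nat_lit 20130373897) (nat_lit 760) (nat_lit 654029893) (nat_lit 96) (nat_lit 5) (nat_lit 95) (nat_lit 5) (nat_lit 105) (nat_lit 5) (nat_lit 328) (nat_lit 323) (nat_lit 129)))) (XT.nd (nat_lit 78) (nat_lit 0) (nat_lit 0) (XT.lf (nat_lit 0) (nat_lit 3185891526) (nat_lit 760) (nat_lit 75056999512) (nat_lit 836) (nat_lit 24496066296) (nat_lit 86) (nat_lit 5) (nat_lit 96) (nat_lit 5) (nat_lit 97) (nat_lit 5) (nat_lit 329) (nat_lit 323) (nat_lit 128)) (XT.nd (nat_lit 78) (nat_lit 0) (nat_lit 76)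 (XT.lf (nat_lit 0) (nat_lit 7883193038) (nat_lit 760) (nat_lit 26521286839) (nat_lit 836) (nat_lit 71045923797) (nat_lit 86) (nat_lit 5) (nat_lit 96) (nat_lit 5) (nat_lit 97) (nat_lit 5) (nat_lit 330) (nat_lit 323) (nat_lit 127)) (XT.lf (nat_lit 0) (nat_lit 13397156699) (nat_lit 760) (nat_lit 83216660758) (nat_lit 836) (nat_lit 11654515658) (nat_lit 87) (nat_lit 5) (nat_lit 97) (nat_lit 5) (nat_lit 98) (nat_lit 5) (nat_lit 331) (nat_lit 323) (nat_lit 126))))))) (XT.nd (nat_lit 780) (nat_lit 1444) (nat_lit 0) (XT.nd (nat_lit 390) (nat_lit 988) (nat_lit 0) (XT.nd (nat_lit 156) (nat_lit 456) (nat_lit 0) (XT.nd (nat_lit 78) (nat_lit 0) (nat_lit 0) (XT.lf (nat_lit 0) (nat_lit 20206968311) (nat_lit 760) (nat_lit 31652341146) (nat_lit 836) (nat_lit 59316842687) (nat_lit 87) (nat_lit 5) (nat_lit 97) (nat_lit 5) (nat_lit 98) (nat_lit 5) (nat_lit 332) (nat_lit 323) (nat_lit 125)) (XT.lf (nat_lit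 76) (nat_lit 23233519429) (nat_lit 0) (nat_lit 4486137091) (nat_lit 836) (nat_lit 86491586884) (nat_lit 88) (nat_lit 5) (nat_lit 87) (nat_lit 5) (nat_lit 98) (nat_lit 5) (nat_lit 333) (nat_lit 323) (nat_lit 124))) (XT.nd (nat_lit 78) (nat_lit 532) (nat_lit 0) (XT.lf (nat_lit 0) (nat_lit 36859041614) (nat_lit 760) (nat_lit 36124378375) (nat_lit 76) (nat_lit 44352116661) (nat_lit 88) (nat_lit 5) (nat_lit 98) (nat_lit 5) (nat_lit 89) (nat_lit 5) (nat_lit 334) (nat_lit 323) (nat_lit 123)) (XT.nd (nat_lit 78) (nat_lit 0) (nat_lit 0) (XT.lf (nat_lit 0) (nat_lit 22105307247) (nat_lit 532) (nat_lit 24768432870) (nat_lit 608) (nat_lit 73721387759) (nat_lit 81) (nat_lit 5) (nat_lit 88) (nat_lit 5) (nat_lit 89) (nat_lit 5) (nat_lit 335) (nat_lit 323) (nat_lit 122)) (XT.lf (nat_lit 0) (nat_lit 58414378122) (nat_lit 608) (nat_lit 39900513502) (nat_lit 76) (nat_lit 25651547310) (nat_lit 81) (nat_lit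 5) (nat_lit 89) (nat_lit 5) (nat_lit 82) (nat_lit 5) (nat_lit 336) (nat_lit 323) (nat_lit 121))))) (XT.nd (nat_lit 156) (nat_lit 608) (nat_lit 0) (XT.nd (nat_lit 78) (nat_lit 0) (nat_lit 0) (XT.lf (nat_lit 0) (nat_lit 21913291949) (nat_lit 380) (nat_lit 49366625317) (nat_lit 456) (nat_lit 56189005292) (nat_lit 76) (nat_lit 5) (nat_lit 81) (nat_lit 5) (nat_lit 82) (nat_lit 5) (nat_lit 337) (nat_lit 323) (nat_lit 120)) (XT.lf (nat_lit 0) (nat_lit 85506936003) (nat_lit 456) (nat_lit 42952756702) (nat_lit 76) (nat_lit 2650927978) (nat_lit 76) (nat_lit 5) (nat_lit 82) (nat_lit 5) (nat_lit 77) (nat_lit 5) (nat_lit 338) (nat_lit 323) (nat_lit 119))) (XT.nd (nat_lit 78) (nat_lit 304) (nat_lit 0) (XT.lf (nat_lit 0) (nat_lit 22697136719) (nat_lit 304) (nat_lit 78911548850) (nat_lit 380) (nat_lit 33267549582) (nat_lit 72) (nat_lit 5) (nat_lit 76) (nat_lit 5) (nat_lit 77) (nat_lit 5) (nat_lit 339)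 (nat_lit 323) (nat_lit 118)) (XT.nd (nat_lit 78) (nat_lit 304) (nat_lit 0) (XT.lf (nat_lit 0) (nat_lit 93120466775) (nat_lit 304) (nat_lit 26122215309) (nat_lit 380) (nat_lit 19551090695) (nat_lit 72) (nat_lit 5) (nat_lit 76) (nat_lit 5) (nat_lit 77) (nat_lit 5) (nat_lit 340) (nat_lit 323) (nat_lit 117)) (XT.lf (nat_lit 0) (nat_lit 24483564855) (nat_lit 304) (nat_lit 114114374767) (nat_lit 380) (nat_lit 4267269998) (nat_lit 68) (nat_lit 5) (nat_lit 72) (nat_lit 5) (nat_lit 73) (nat_lit 5) (nat_lit 341) (nat_lit 323) (nat_lit 116)))))) (XT.nd (nat_lit 390) (nat_lit 760) (nat_lit 0) (XT.nd (nat_lit 156) (nat_lit 304) (nat_lit 0) (XT.nd (nat_lit 78) (nat_lit 304) (nat_lit 0) (XT.lf (nat_lit 0) (nat_lit 12617846923) (nat_lit 380) (nat_lit 47992718125) (nat_lit 76) (nat_lit 86459748965) (nat_lit 67) (nat_lit 5) (nat_lit 72) (nat_lit 5) (nat_lit 68) (nat_lit 5) (nat_lit 342) (nat_lit 323)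 (nat_lit 115)) (XT.lf (nat_lit 0) (nat_lit 26699995380) (nat_lit 304) (nat_lit 3920439334) (nat_lit 380) (nat_lit 120840910323) (nat_lit 63) (nat_lit 5) (nat_lit 67) (nat_lit 5) (nat_lit 68) (nat_lit 5) (nat_lit 343) (nat_lit 323) (nat_lit 114))) (XT.nd (nat_lit 78) (nat_lit 304) (nat_lit 0) (XT.lf (nat_lit 0) (nat_lit 51217161511) (nat_lit 380) (nat_lit 50119484577) (nat_lit 76) (nat_lit 54650581365) (nat_lit 63) (nat_lit 5) (nat_lit 68) (nat_lit 5) (nat_lit 64) (nat_lit 5) (nat_lit 344) (nat_lit 323) (nat_lit 113)) (XT.nd (nat_lit 78) (nat_lit 0) (nat_lit 0) (XT.lf (nat_lit 0) (nat_lit 29122026418) (nat_lit 304) (nat_lit 44240423383) (nat_lit 380) (nat_lit 87351018237) (nat_lit 59) (nat_lit 5) (nat_lit 63) (nat_lit 5) (nat_lit 64) (nat_lit 5) (nat_lit 345) (nat_lit 323) (nat_lit 112)) (XT.lf (nat_lit 0) (nat_lit 97722786547) (nat_lit 380) (nat_lit 51827404429) (nat_lit 76) (nat_lit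 16070440766) (nat_lit 59) (nat_lit 5) (nat_lit 64) (nat_lit 5) (nat_lit 60) (nat_lit 5) (nat_lit 346) (nat_lit 323) (nat_lit 111))))) (XT.nd (nat_lit 234) (nat_lit 228) (nat_lit 0) (XT.nd (nat_lit 78) (nat_lit 304) (nat_lit 0) (XT.lf (nat_lit 0) (nat_lit 32230914637) (nat_lit 228) (nat_lit 92298488424) (nat_lit 304) (nat_lit 46182337702) (nat_lit 56) (nat_lit 5) (nat_lit 59) (nat_lit 5) (nat_lit 60) (nat_lit 5) (nat_lit 347) (nat_lit 323) (nat_lit 110)) (XT.nd (nat_lit 78) (nat_lit 304) (nat_lit 0) (XT.lf (nat_lit 0) (nat_lit 122291226570) (nat_lit 228) (nat_lit 31262646982) (nat_lit 304) (nat_lit 22459655790) (nat_lit 56) (nat_lit 5) (nat_lit 59) (nat_lit 5) (nat_lit 60) (nat_lit 5) (nat_lit 348) (nat_lit 323) (nat_lit 109)) (XT.lf (nat_lit 0) (nat_lit 3461328703) (nat_lit 304) (nat_lit 145671811697) (nat_lit 76) (nat_lit 32390827431) (nat_lit 52) (nat_lit 5) (nat_lit 56) (nat_lit 5)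 (nat_lit 53) (nat_lit 5) (nat_lit 349) (nat_lit 323) (nat_lit 108)))) (XT.nd (nat_lit 78) (nat_lit 228) (nat_lit 0) (XT.lf (nat_lit 0) (nat_lit 31360612879) (nat_lit 304) (nat_lit 56389843818) (nat_lit 76) (nat_lit 99469210115) (nat_lit 52) (nat_lit 5) (nat_lit 56) (nat_lit 5) (nat_lit 53) (nat_lit 5) (nat_lit 350) (nat_lit 323) (nat_lit 107)) (XT.nd (nat_lit 78) (nat_lit 0) (nat_lit 0) (XT.lf (nat_lit 0) (nat_lit 38591139147) (nat_lit 228) (nat_lit 22666058518) (nat_lit 304) (nat_lit 131912836473) (nat_lit 49) (nat_lit 5) (nat_lit 52) (nat_lit 5) (nat_lit 53) (nat_lit 5) (nat_lit 351) (nat_lit 323) (nat_lit 106)) (XT.lf (nat_lit 0) (nat_lit 94332157637) (nat_lit 304) (nat_lit 59820248122) (nat_lit 76) (nat_lit 45181336982) (nat_lit 49) (nat_lit 5) (nat_lit 53) (nat_lit 5) (nat_lit 50) (nat_lit 5) (nat_lit 352) (nat_lit 323) (nat_lit 105))))))))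
noncomputable def xc244 : XT := (XT.nd (nat_lit 38922) (nat_lit 0) (nat_lit 1444) (XT.nd (nat_lit 780) (nat_lit 152) (nat_lit 0) (XT.nd (nat_lit 390) (nat_lit 380) (nat_lit 0) (XT.nd (nat_lit 156) (nat_lit 456) (nat_lit 0) (XT.nd (nat_lit 78) (nat_lit 0) (nat_lit 0) (XT.lf (nat_lit 0) (nat_lit 40604108213) (nat_lit 228) (nat_lit 89462108847) (nat_lit 304) (nat_lit 75689152338) (nat_lit 46) (nat_lit 5) (nat_lit 49) (nat_lit 5) (nat_lit 50) (nat_lit 5) (nat_lit 353) (nat_lit 323) (nat_lit 104)) (XT.lf (nat_lit 0) (nat_lit 148126276876) (nat_lit 228) (nat_lit 20473624608) (nat_lit 304) (nat_lit 43847529993) (nat_lit 46) (nat_lit 5) (nat_lit 49) (nat_lit 5) (nat_lit 50) (nat_lit 5) (nat_lit 354) (nat_lit 323) (nat_lit 103))) (XT.nd (nat_lit 78) (nat_lit 304) (nat_lit 0) (XT.lf (nat_lit 0) (nat_lit 42085936570) (nat_lit 152) (nat_lit 168442565018) (nat_lit 228) (nat_lit 8872183676) (nat_lit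 44) (nat_lit 5) (nat_lit 46) (nat_lit 5) (nat_lit 47) (nat_lit 5) (nat_lit 355) (nat_lit 323) (nat_lit 102)) (XT.nd (nat_lit 78) (nat_lit 228) (nat_lit 0) (XT.lf (nat_lit 0) (nat_lit 28403140118) (nat_lit 228) (nat_lit 71389233197) (nat_lit 76) (nat_lit 126815353960) (nat_lit 43) (nat_lit 5) (nat_lit 46) (nat_lit 5) (nat_lit 44) (nat_lit 5) (nat_lit 356) (nat_lit 323) (nat_lit 101)) (XT.lf (nat_lit 0) (nat_lit 40999124185) (nat_lit 228) (nat_lit 26884906219) (nat_lit 304) (nat_lit 166251820665) (nat_lit 40) (nat_lit 5) (nat_lit 43) (nat_lit 5) (nat_lit 44) (nat_lit 5) (nat_lit 357) (nat_lit 323) (nat_lit 100))))) (XT.nd (nat_lit 156) (nat_lit 228) (nat_lit 0) (XT.nd (nat_lit 78) (nat_lit 152) (nat_lit 0) (XT.lf (nat_lit 0) (nat_lit 111343107155) (nat_lit 304) (nat_lit 81290052620) (nat_lit 76) (nat_lit 49307014327) (nat_lit 40) (nat_lit 5) (nat_lit 44) (nat_lit 5) (nat_lit 41) (nat_lit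 5) (nat_lit 358) (nat_lit 323) (nat_lit 99)) (XT.lf (nat_lit 0) (nat_lit 36888678674) (nat_lit 152) (nat_lit 121102993023) (nat_lit 228) (nat_lit 92092215030) (nat_lit 38) (nat_lit 5) (nat_lit 40) (nat_lit 5) (nat_lit 41) (nat_lit 5) (nat_lit 359) (nat_lit 323) (nat_lit 98))) (XT.nd (nat_lit 78) (nat_lit 228) (nat_lit 0) (XT.lf (nat_lit 0) (nat_lit 163798348361) (nat_lit 152) (nat_lit 44550867976) (nat_lit 228) (nat_lit 50216741189) (nat_lit 38) (nat_lit 5) (nat_lit 40) (nat_lit 5) (nat_lit 41) (nat_lit 5) (nat_lit 360) (nat_lit 323) (nat_lit 97)) (XT.nd (nat_lit 78) (nat_lit 76) (nat_lit 0) (XT.lf (nat_lit 0) (nat_lit 29981370854) (nat_lit 152) (nat_lit 232270620389) (nat_lit 228) (nat_lit 5168773096) (nat_lit 36) (nat_lit 5) (nat_lit 38) (nat_lit 5) (nat_lit 39) (nat_lit 5) (nat_lit 361) (nat_lit 323) (nat_lit 96)) (XT.lf (nat_lit 0) (nat_lit 43144578850) (nat_lit 228) (nat_lit 113794794278)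 (nat_lit 76) (nat_lit 119627975892) (nat_lit 35) (nat_lit 5) (nat_lit 38) (nat_lit 5) (nat_lit 36) (nat_lit 5) (nat_lit 362) (nat_lit 323) (nat_lit 95)))))) (XT.nd (nat_lit 37752) (nat_lit 0) (nat_lit 4028) (XT.nd (nat_lit 156) (nat_lit 0) (nat_lit 0) (XT.nd (nat_lit 78) (nat_lit 0) (nat_lit 0) (XT.lf (nat_lit 0) (nat_lit 16474391887) (nat_lit 152) (nat_lit 77482591099) (nat_lit 228) (nat_lit 192197188896) (nat_lit 33) (nat_lit 5) (nat_lit 35) (nat_lit 5) (nat_lit 36) (nat_lit 5) (nat_lit 363) (nat_lit 323) (nat_lit 94)) (XT.lf (nat_lit 0) (nat_lit 149361499588) (nat_lit 228) (nat_lit 139040878799) (nat_lit 76) (nat_lit 7715382990) (nat_lit 33) (nat_lit 5) (nat_lit 36) (nat_lit 5) (nat_lit 34) (nat_lit 5) (nat_lit 364) (nat_lit 323) (nat_lit 93))) (XT.nd (nat_lit 37440) (nat_lit 0) (nat_lit 4636) (XT.lf (nat_lit 0) (nat_lit 208806333768) (nat_lit 228) (nat_lit 3140424016) (nat_lit 76)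 (nat_lit 94569268076) (nat_lit 33) (nat_lit 5) (nat_lit 36) (nat_lit 5) (nat_lit 34) (nat_lit 5) (nat_lit 365) (nat_lit 323) (nat_lit 92)) (XT.nd (nat_lit 78) (nat_lit 0) (nat_lit 0) (XT.lf (nat_lit 0) (nat_lit 21050556318) (nat_lit 0) (nat_lit 21050556318) (nat_lit 684) (nat_lit 4272780322) (nat_lit 94) (nat_lit 5) (nat_lit 94) (nat_lit 3) (nat_lit 103) (nat_lit 3) (nat_lit 324) (nat_lit 324) (nat_lit 132)) (XT.lf (nat_lit 0) (nat_lit 86324119043) (nat_lit 684) (nat_lit 8140620239) (nat_lit 760) (nat_lit 600886684) (nat_lit 94) (nat_lit 5) (nat_lit 103) (nat_lit 3) (nat_lit 104) (nat_lit 5) (nat_lit 325) (nat_lit 324) (nat_lit 131))))) (XT.nd (nat_lit 156) (nat_lit 608) (nat_lit 0) (XT.nd (nat_lit 78) (nat_lit 0) (nat_lit 0) (XT.lf (nat_lit 76) (nat_lit 36984016803) (nat_lit 0) (nat_lit 52835243131) (nat_lit 760) (nat_lit 7616741271) (nat_lit 95) (nat_lit 5) (nat_lit 94) (nat_lit 5)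 (nat_lit 104) (nat_lit 5) (nat_lit 326) (nat_lit 324) (nat_lit 130)) (XT.lf (nat_lit 76) (nat_lit 84647257792) (nat_lit 0) (nat_lit 8979329214) (nat_lit 760) (nat_lit 6291437518) (nat_lit 95) (nat_lit 5) (nat_lit 94) (nat_lit 5) (nat_lit 104) (nat_lit 5) (nat_lit 327) (nat_lit 324) (nat_lit 129))) (XT.nd (nat_lit 78) (nat_lit 684) (nat_lit 0) (XT.lf (nat_lit 76) (nat_lit 32635015084) (nat_lit 0) (nat_lit 66077133613) (nat_lit 760) (nat_lit 3757607635) (nat_lit 96) (nat_lit 5) (nat_lit 95) (nat_lit 5) (nat_lit 105) (nat_lit 5) (nat_lit 328) (nat_lit 324) (nat_lit 128)) (XT.nd (nat_lit 78) (nat_lit 684) (nat_lit 0) (XT.lf (nat_lit 76) (nat_lit 83313923391) (nat_lit 0) (nat_lit 21141113697) (nat_lit 760) (nat_lit 673885914) (nat_lit 96) (nat_lit 5) (nat_lit 95) (nat_lit 5) (nat_lit 105) (nat_lit 5) (nat_lit 329) (nat_lit 324) (nat_lit 127)) (XT.lf (nat_lit 0) (nat_lit 3357100214) (nat_lit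 760) (nat_lit 78800885866) (nat_lit 836) (nat_lit 25717303833) (nat_lit 86) (nat_lit 5) (nat_lit 96) (nat_lit 5) (nat_lit 97) (nat_lit 5) (nat_lit 330) (nat_lit 324) (nat_lit 126))))))) (XT.nd (nat_lit 780) (nat_lit 1520) (nat_lit 0) (XT.nd (nat_lit 390) (nat_lit 1064) (nat_lit 0) (XT.nd (nat_lit 156) (nat_lit 0) (nat_lit 76) (XT.nd (nat_lit 78) (nat_lit 0) (nat_lit 76) (XT.lf (nat_lit 0) (nat_lit 8288699464) (nat_lit 760) (nat_lit 27838814398) (nat_lit 836) (nat_lit 74594824008) (nat_lit 86) (nat_lit 5) (nat_lit 96) (nat_lit 5) (nat_lit 97) (nat_lit 5) (nat_lit 331) (nat_lit 324) (nat_lit 125)) (XT.lf (nat_lit 0) (nat_lit 14077912485) (nat_lit 760) (nat_lit 87368490429) (nat_lit 836) (nat_lit 12234784197) (nat_lit 87) (nat_lit 5) (nat_lit 97) (nat_lit 5) (nat_lit 98) (nat_lit 5) (nat_lit 332) (nat_lit 324) (nat_lit 124))) (XT.nd (nat_lit 78) (nat_lit 0) (nat_lit 0) (XT.lf (nat_lit 0)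 (nat_lit 21227695728) (nat_lit 760) (nat_lit 33226383568) (nat_lit 836) (nat_lit 62280344590) (nat_lit 87) (nat_lit 5) (nat_lit 97) (nat_lit 5) (nat_lit 98) (nat_lit 5) (nat_lit 333) (nat_lit 324) (nat_lit 123)) (XT.nd (nat_lit 78) (nat_lit 0) (nat_lit 76) (XT.lf (nat_lit 76) (nat_lit 24403631736) (nat_lit 0) (nat_lit 4712024088) (nat_lit 836) (nat_lit 90805632815) (nat_lit 88) (nat_lit 5) (nat_lit 87) (nat_lit 5) (nat_lit 98) (nat_lit 5) (nat_lit 334) (nat_lit 324) (nat_lit 122)) (XT.lf (nat_lit 0) (nat_lit 38711509702) (nat_lit 760) (nat_lit 37922046874) (nat_lit 76) (nat_lit 46568265763) (nat_lit 88) (nat_lit 5) (nat_lit 98) (nat_lit 5) (nat_lit 89) (nat_lit 5) (nat_lit 335) (nat_lit 324) (nat_lit 121))))) (XT.nd (nat_lit 156) (nat_lit 684) (nat_lit 0) (XT.nd (nat_lit 78) (nat_lit 0) (nat_lit 0) (XT.lf (nat_lit 0) (nat_lit 23218985119) (nat_lit 532) (nat_lit 26007636211) (nat_lit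 608) (nat_lit 77397788617) (nat_lit 81) (nat_lit 5) (nat_lit 88) (nat_lit 5) (nat_lit 89) (nat_lit 5) (nat_lit 336) (nat_lit 324) (nat_lit 120)) (XT.lf (nat_lit 0) (nat_lit 61343841792) (nat_lit 608) (nat_lit 41887063904) (nat_lit 76) (nat_lit 26933404030) (nat_lit 81) (nat_lit 5) (nat_lit 89) (nat_lit 5) (nat_lit 82) (nat_lit 5) (nat_lit 337) (nat_lit 324) (nat_lit 119))) (XT.nd (nat_lit 78) (nat_lit 304) (nat_lit 0) (XT.lf (nat_lit 0) (nat_lit 23017295122) (nat_lit 380) (nat_lit 51835076542) (nat_lit 456) (nat_lit 58989560840) (nat_lit 76) (nat_lit 5) (nat_lit 81) (nat_lit 5) (nat_lit 82) (nat_lit 5) (nat_lit 338) (nat_lit 324) (nat_lit 118)) (XT.nd (nat_lit 78) (nat_lit 304) (nat_lit 0) (XT.lf (nat_lit 0) (nat_lit 89790336767) (nat_lit 456) (nat_lit 45092035842) (nat_lit 76) (nat_lit 2783363787) (nat_lit 76) (nat_lit 5) (nat_lit 82) (nat_lit 5) (nat_lit 77) (nat_lit 5) (nat_lit 339)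 (nat_lit 324) (nat_lit 117)) (XT.lf (nat_lit 0) (nat_lit 23840217432) (nat_lit 304) (nat_lit 82856701255) (nat_lit 380) (nat_lit 34922726257) (nat_lit 72) (nat_lit 5) (nat_lit 76) (nat_lit 5) (nat_lit 77) (nat_lit 5) (nat_lit 340) (nat_lit 324) (nat_lit 116)))))) (XT.nd (nat_lit 390) (nat_lit 836) (nat_lit 0) (XT.nd (nat_lit 156) (nat_lit 380) (nat_lit 0) (XT.nd (nat_lit 78) (nat_lit 304) (nat_lit 0) (XT.lf (nat_lit 0) (nat_lit 97784322378) (nat_lit 304) (nat_lit 27427921277) (nat_lit 380) (nat_lit 20520834941) (nat_lit 72) (nat_lit 5) (nat_lit 76) (nat_lit 5) (nat_lit 77) (nat_lit 5) (nat_lit 341) (nat_lit 324) (nat_lit 115)) (XT.lf (nat_lit 0) (nat_lit 25715819466) (nat_lit 304) (nat_lit 119819223029) (nat_lit 380) (nat_lit 4473056407) (nat_lit 68) (nat_lit 5) (nat_lit 72) (nat_lit 5) (nat_lit 73) (nat_lit 5) (nat_lit 342) (nat_lit 324) (nat_lit 114))) (XT.nd (nat_lit 78) (nat_lit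 304) (nat_lit 0) (XT.lf (nat_lit 0) (nat_lit 13255724579) (nat_lit 380) (nat_lit 50384421396) (nat_lit 76) (nat_lit 90783324582) (nat_lit 67) (nat_lit 5) (nat_lit 72) (nat_lit 5) (nat_lit 68) (nat_lit 5) (nat_lit 343) (nat_lit 324) (nat_lit 113)) (XT.nd (nat_lit 78) (nat_lit 0) (nat_lit 0) (XT.lf (nat_lit 0) (nat_lit 28042799839) (nat_lit 304) (nat_lit 4115431141) (nat_lit 380) (nat_lit 126875833163) (nat_lit 63) (nat_lit 5) (nat_lit 67) (nat_lit 5) (nat_lit 68) (nat_lit 5) (nat_lit 344) (nat_lit 324) (nat_lit 112)) (XT.lf (nat_lit 0) (nat_lit 53784486837) (nat_lit 380) (nat_lit 52617709518) (nat_lit 76) (nat_lit 57384060137) (nat_lit 63) (nat_lit 5) (nat_lit 68) (nat_lit 5) (nat_lit 64) (nat_lit 5) (nat_lit 345) (nat_lit 324) (nat_lit 111))))) (XT.nd (nat_lit 234) (nat_lit 304) (nat_lit 0) (XT.nd (nat_lit 78) (nat_lit 228) (nat_lit 0) (XT.lf (nat_lit 0) (nat_lit 30585752038) (nat_lit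 304) (nat_lit 46451098576) (nat_lit 380) (nat_lit 91711968366) (nat_lit 59) (nat_lit 5) (nat_lit 63) (nat_lit 5) (nat_lit 64) (nat_lit 5) (nat_lit 346) (nat_lit 324) (nat_lit 110)) (XT.nd (nat_lit 78) (nat_lit 228) (nat_lit 0) (XT.lf (nat_lit 0) (nat_lit 102614925244) (nat_lit 380) (nat_lit 54411226322) (nat_lit 76) (nat_lit 16875203658) (nat_lit 59) (nat_lit 5) (nat_lit 64) (nat_lit 5) (nat_lit 60) (nat_lit 5) (nat_lit 347) (nat_lit 324) (nat_lit 109)) (XT.lf (nat_lit 0) (nat_lit 33849886950) (nat_lit 228) (nat_lit 96911815898) (nat_lit 304) (nat_lit 48485325721) (nat_lit 56) (nat_lit 5) (nat_lit 59) (nat_lit 5) (nat_lit 60) (nat_lit 5) (nat_lit 348) (nat_lit 324) (nat_lit 108)))) (XT.nd (nat_lit 78) (nat_lit 304) (nat_lit 0) (XT.lf (nat_lit 0) (nat_lit 128412860833) (nat_lit 228) (nat_lit 32824258430) (nat_lit 304) (nat_lit 23576801564) (nat_lit 56) (nat_lit 5) (nat_lit 59) (nat_lit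 5) (nat_lit 60) (nat_lit 5) (nat_lit 349) (nat_lit 324) (nat_lit 107)) (XT.nd (nat_lit 78) (nat_lit 0) (nat_lit 0) (XT.lf (nat_lit 0) (nat_lit 3639913768) (nat_lit 304) (nat_lit 152947997239) (nat_lit 76) (nat_lit 34011972590) (nat_lit 52) (nat_lit 5) (nat_lit 56) (nat_lit 5) (nat_lit 53) (nat_lit 5) (nat_lit 350) (nat_lit 324) (nat_lit 106)) (XT.lf (nat_lit 0) (nat_lit 32933899361) (nat_lit 304) (nat_lit 59202283586) (nat_lit 76) (nat_lit 104444198037) (nat_lit 52) (nat_lit 5) (nat_lit 56) (nat_lit 5) (nat_lit 53) (nat_lit 5) (nat_lit 351) (nat_lit 324) (nat_lit 105))))))))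
noncomputable def xc245 : XT := (XT.nd (nat_lit 39156) (nat_lit 0) (nat_lit 1216) (XT.nd (nat_lit 780) (nat_lit 380) (nat_lit 0) (XT.nd (nat_lit 390) (nat_lit 456) (nat_lit 0) (XT.nd (nat_lit 156) (nat_lit 380) (nat_lit 0) (XT.nd (nat_lit 78) (nat_lit 0) (nat_lit 0) (XT.lf (nat_lit 0) (nat_lit 40527634778) (nat_lit 228) (nat_lit 23797536662) (nat_lit 304) (nat_lit 138503102638) (nat_lit 49) (nat_lit 5) (nat_lit 52) (nat_lit 5) (nat_lit 53) (nat_lit 5) (nat_lit 352) (nat_lit 324) (nat_lit 104)) (XT.lf (nat_lit 0) (nat_lit 99053663026) (nat_lit 304) (nat_lit 62804430099) (nat_lit 76) (nat_lit 47442086095) (nat_lit 49) (nat_lit 5) (nat_lit 53) (nat_lit 5) (nat_lit 50) (nat_lit 5) (nat_lit 353) (nat_lit 324) (nat_lit 103))) (XT.nd (nat_lit 78) (nat_lit 152) (nat_lit 0) (XT.lf (nat_lit 0) (nat_lit 42641033884) (nat_lit 228) (nat_lit 93933263243) (nat_lit 304) (nat_lit 79468596773) (nat_lit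 46) (nat_lit 5) (nat_lit 49) (nat_lit 5) (nat_lit 50) (nat_lit 5) (nat_lit 354) (nat_lit 324) (nat_lit 102)) (XT.nd (nat_lit 78) (nat_lit 152) (nat_lit 0) (XT.lf (nat_lit 0) (nat_lit 155538990967) (nat_lit 228) (nat_lit 21495447699) (nat_lit 304) (nat_lit 46035132033) (nat_lit 46) (nat_lit 5) (nat_lit 49) (nat_lit 5) (nat_lit 50) (nat_lit 5) (nat_lit 355) (nat_lit 324) (nat_lit 101)) (XT.lf (nat_lit 0) (nat_lit 44196730477) (nat_lit 152) (nat_lit 176862651075) (nat_lit 228) (nat_lit 9311110235) (nat_lit 44) (nat_lit 5) (nat_lit 46) (nat_lit 5) (nat_lit 47) (nat_lit 5) (nat_lit 356) (nat_lit 324) (nat_lit 100))))) (XT.nd (nat_lit 156) (nat_lit 152) (nat_lit 0) (XT.nd (nat_lit 78) (nat_lit 228) (nat_lit 0) (XT.lf (nat_lit 0) (nat_lit 29827614030) (nat_lit 228) (nat_lit 74952359896) (nat_lit 76) (nat_lit 133157919337) (nat_lit 43) (nat_lit 5) (nat_lit 46) (nat_lit 5) (nat_lit 44) (nat_lit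 5) (nat_lit 357) (nat_lit 324) (nat_lit 99)) (XT.lf (nat_lit 0) (nat_lit 43055313179) (nat_lit 228) (nat_lit 28227127395) (nat_lit 304) (nat_lit 174559988300) (nat_lit 40) (nat_lit 5) (nat_lit 43) (nat_lit 5) (nat_lit 44) (nat_lit 5) (nat_lit 358) (nat_lit 324) (nat_lit 98))) (XT.nd (nat_lit 78) (nat_lit 152) (nat_lit 0) (XT.lf (nat_lit 0) (nat_lit 116914300849) (nat_lit 304) (nat_lit 85348444841) (nat_lit 76) (nat_lit 51774231090) (nat_lit 40) (nat_lit 5) (nat_lit 44) (nat_lit 5) (nat_lit 41) (nat_lit 5) (nat_lit 359) (nat_lit 324) (nat_lit 97)) (XT.nd (nat_lit 78) (nat_lit 0) (nat_lit 0) (XT.lf (nat_lit 0) (nat_lit 38739124463) (nat_lit 152) (nat_lit 127156070716) (nat_lit 228) (nat_lit 96692684977) (nat_lit 38) (nat_lit 5) (nat_lit 40) (nat_lit 5) (nat_lit 41) (nat_lit 5) (nat_lit 360) (nat_lit 324) (nat_lit 96)) (XT.lf (nat_lit 0) (nat_lit 171993991355) (nat_lit 152) (nat_lit 46776438081)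 (nat_lit 228) (nat_lit 52723634625) (nat_lit 38) (nat_lit 5) (nat_lit 40) (nat_lit 5) (nat_lit 41) (nat_lit 5) (nat_lit 361) (nat_lit 324) (nat_lit 95)))))) (XT.nd (nat_lit 37908) (nat_lit 0) (nat_lit 4028) (XT.nd (nat_lit 156) (nat_lit 152) (nat_lit 0) (XT.nd (nat_lit 78) (nat_lit 76) (nat_lit 0) (XT.lf (nat_lit 0) (nat_lit 31486230569) (nat_lit 152) (nat_lit 243882053597) (nat_lit 228) (nat_lit 5423330173) (nat_lit 36) (nat_lit 5) (nat_lit 38) (nat_lit 5) (nat_lit 39) (nat_lit 5) (nat_lit 362) (nat_lit 324) (nat_lit 94)) (XT.lf (nat_lit 0) (nat_lit 45305386215) (nat_lit 228) (nat_lit 119478897051) (nat_lit 76) (nat_lit 125611251064) (nat_lit 35) (nat_lit 5) (nat_lit 38) (nat_lit 5) (nat_lit 36) (nat_lit 5) (nat_lit 363) (nat_lit 324) (nat_lit 93))) (XT.nd (nat_lit 37596) (nat_lit 0) (nat_lit 4636) (XT.lf (nat_lit 0) (nat_lit 17303657503) (nat_lit 152) (nat_lit 81354669242) (nat_lit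 228) (nat_lit 201803375933) (nat_lit 33) (nat_lit 5) (nat_lit 35) (nat_lit 5) (nat_lit 36) (nat_lit 5) (nat_lit 364) (nat_lit 324) (nat_lit 92)) (XT.nd (nat_lit 78) (nat_lit 0) (nat_lit 0) (XT.lf (nat_lit 0) (nat_lit 22106601554) (nat_lit 0) (nat_lit 22106601554) (nat_lit 684) (nat_lit 4479020260) (nat_lit 94) (nat_lit 5) (nat_lit 94) (nat_lit 3) (nat_lit 103) (nat_lit 3) (nat_lit 325) (nat_lit 325) (nat_lit 130)) (XT.lf (nat_lit 0) (nat_lit 90653620086) (nat_lit 684) (nat_lit 8540153012) (nat_lit 760) (nat_lit 624445608) (nat_lit 94) (nat_lit 5) (nat_lit 103) (nat_lit 3) (nat_lit 104) (nat_lit 5) (nat_lit 326) (nat_lit 325) (nat_lit 129))))) (XT.nd (nat_lit 234) (nat_lit 608) (nat_lit 0) (XT.nd (nat_lit 78) (nat_lit 0) (nat_lit 0) (XT.lf (nat_lit 76) (nat_lit 38840594942) (nat_lit 0) (nat_lit 55482405161) (nat_lit 760) (nat_lit 7984139635) (nat_lit 95) (nat_lit 5) (nat_lit 94) (nat_lit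 5) (nat_lit 104) (nat_lit 5) (nat_lit 327) (nat_lit 325) (nat_lit 128)) (XT.nd (nat_lit 78) (nat_lit 0) (nat_lit 76) (XT.lf (nat_lit 76) (nat_lit 88886646681) (nat_lit 0) (nat_lit 9433438410) (nat_lit 760) (nat_lit 6593210632) (nat_lit 95) (nat_lit 5) (nat_lit 94) (nat_lit 5) (nat_lit 104) (nat_lit 5) (nat_lit 328) (nat_lit 325) (nat_lit 127)) (XT.lf (nat_lit 76) (nat_lit 34274377377) (nat_lit 0) (nat_lit 69385010395) (nat_lit 760) (nat_lit 3933254233) (nat_lit 96) (nat_lit 5) (nat_lit 95) (nat_lit 5) (nat_lit 105) (nat_lit 5) (nat_lit 329) (nat_lit 325) (nat_lit 126)))) (XT.nd (nat_lit 78) (nat_lit 684) (nat_lit 0) (XT.lf (nat_lit 76) (nat_lit 87486868645) (nat_lit 0) (nat_lit 22201998049) (nat_lit 760) (nat_lit 695928988) (nat_lit 96) (nat_lit 5) (nat_lit 95) (nat_lit 5) (nat_lit 105) (nat_lit 5) (nat_lit 330) (nat_lit 325) (nat_lit 125)) (XT.nd (nat_lit 78) (nat_lit 0) (nat_lit 0)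 (XT.lf (nat_lit 0) (nat_lit 3535761676) (nat_lit 760) (nat_lit 82732799889) (nat_lit 836) (nat_lit 26999934758) (nat_lit 86) (nat_lit 5) (nat_lit 96) (nat_lit 5) (nat_lit 97) (nat_lit 5) (nat_lit 331) (nat_lit 325) (nat_lit 124)) (XT.lf (nat_lit 0) (nat_lit 8713426294) (nat_lit 760) (nat_lit 29223012004) (nat_lit 836) (nat_lit 78321484955) (nat_lit 86) (nat_lit 5) (nat_lit 96) (nat_lit 5) (nat_lit 97) (nat_lit 5) (nat_lit 332) (nat_lit 325) (nat_lit 123))))))) (XT.nd (nat_lit 780) (nat_lit 1748) (nat_lit 0) (XT.nd (nat_lit 390) (nat_lit 684) (nat_lit 0) (XT.nd (nat_lit 156) (nat_lit 456) (nat_lit 0) (XT.nd (nat_lit 78) (nat_lit 0) (nat_lit 0) (XT.lf (nat_lit 0) (nat_lit 14791692872) (nat_lit 760) (nat_lit 91728748630) (nat_lit 836) (nat_lit 12844294615) (nat_lit 87) (nat_lit 5) (nat_lit 97) (nat_lit 5) (nat_lit 98) (nat_lit 5) (nat_lit 333) (nat_lit 325) (nat_lit 122)) (XT.lf (nat_lit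 0) (nat_lit 22298494574) (nat_lit 760) (nat_lit 34879925299) (nat_lit 836) (nat_lit 65392239160) (nat_lit 87) (nat_lit 5) (nat_lit 97) (nat_lit 5) (nat_lit 98) (nat_lit 5) (nat_lit 334) (nat_lit 325) (nat_lit 121))) (XT.nd (nat_lit 78) (nat_lit 456) (nat_lit 0) (XT.lf (nat_lit 76) (nat_lit 25631465327) (nat_lit 0) (nat_lit 4949058528) (nat_lit 836) (nat_lit 95336360340) (nat_lit 88) (nat_lit 5) (nat_lit 87) (nat_lit 5) (nat_lit 98) (nat_lit 5) (nat_lit 335) (nat_lit 325) (nat_lit 120)) (XT.nd (nat_lit 78) (nat_lit 532) (nat_lit 0) (XT.lf (nat_lit 0) (nat_lit 40655716486) (nat_lit 760) (nat_lit 39810393736) (nat_lit 76) (nat_lit 48895357753) (nat_lit 88) (nat_lit 5) (nat_lit 98) (nat_lit 5) (nat_lit 89) (nat_lit 5) (nat_lit 336) (nat_lit 325) (nat_lit 119)) (XT.lf (nat_lit 0) (nat_lit 24387564769) (nat_lit 532) (nat_lit 27308727044) (nat_lit 608) (nat_lit 81258908406) (nat_lit 81) (nat_lit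 5) (nat_lit 88) (nat_lit 5) (nat_lit 89) (nat_lit 5) (nat_lit 337) (nat_lit 325) (nat_lit 118))))) (XT.nd (nat_lit 156) (nat_lit 304) (nat_lit 0) (XT.nd (nat_lit 78) (nat_lit 380) (nat_lit 0) (XT.lf (nat_lit 0) (nat_lit 64418965641) (nat_lit 608) (nat_lit 43973729776) (nat_lit 76) (nat_lit 28279420584) (nat_lit 81) (nat_lit 5) (nat_lit 89) (nat_lit 5) (nat_lit 82) (nat_lit 5) (nat_lit 338) (nat_lit 325) (nat_lit 117)) (XT.lf (nat_lit 0) (nat_lit 24175723213) (nat_lit 380) (nat_lit 54426939176) (nat_lit 456) (nat_lit 61930971112) (nat_lit 76) (nat_lit 5) (nat_lit 81) (nat_lit 5) (nat_lit 82) (nat_lit 5) (nat_lit 339) (nat_lit 325) (nat_lit 116))) (XT.nd (nat_lit 78) (nat_lit 304) (nat_lit 0) (XT.lf (nat_lit 0) (nat_lit 94287158788) (nat_lit 456) (nat_lit 47339056051) (nat_lit 76) (nat_lit 2922431667) (nat_lit 76) (nat_lit 5) (nat_lit 82) (nat_lit 5) (nat_lit 77) (nat_lit 5) (nat_lit 340)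 (nat_lit 325) (nat_lit 115)) (XT.nd (nat_lit 78) (nat_lit 0) (nat_lit 0) (XT.lf (nat_lit 0) (nat_lit 25039687603) (nat_lit 304) (nat_lit 86999150796) (nat_lit 380) (nat_lit 36661424199) (nat_lit 72) (nat_lit 5) (nat_lit 76) (nat_lit 5) (nat_lit 77) (nat_lit 5) (nat_lit 341) (nat_lit 325) (nat_lit 114)) (XT.lf (nat_lit 0) (nat_lit 102680642591) (nat_lit 304) (nat_lit 28798950177) (nat_lit 380) (nat_lit 21539792525) (nat_lit 72) (nat_lit 5) (nat_lit 76) (nat_lit 5) (nat_lit 77) (nat_lit 5) (nat_lit 342) (nat_lit 325) (nat_lit 113)))))) (XT.nd (nat_lit 390) (nat_lit 760) (nat_lit 0) (XT.nd (nat_lit 156) (nat_lit 608) (nat_lit 0) (XT.nd (nat_lit 78) (nat_lit 76) (nat_lit 0) (XT.lf (nat_lit 0) (nat_lit 27008935943) (nat_lit 304) (nat_lit 125809394633) (nat_lit 380) (nat_lit 4689836583) (nat_lit 68) (nat_lit 5) (nat_lit 72) (nat_lit 5) (nat_lit 73) (nat_lit 5) (nat_lit 343) (nat_lit 325) (nat_lit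 112)) (XT.lf (nat_lit 0) (nat_lit 13924846691) (nat_lit 380) (nat_lit 52896447332) (nat_lit 76) (nat_lit 95323024297) (nat_lit 67) (nat_lit 5) (nat_lit 72) (nat_lit 5) (nat_lit 68) (nat_lit 5) (nat_lit 344) (nat_lit 325) (nat_lit 111))) (XT.nd (nat_lit 78) (nat_lit 304) (nat_lit 0) (XT.lf (nat_lit 0) (nat_lit 29452018914) (nat_lit 304) (nat_lit 4320268313) (nat_lit 380) (nat_lit 133213164344) (nat_lit 63) (nat_lit 5) (nat_lit 67) (nat_lit 5) (nat_lit 68) (nat_lit 5) (nat_lit 345) (nat_lit 325) (nat_lit 110)) (XT.nd (nat_lit 78) (nat_lit 304) (nat_lit 0) (XT.lf (nat_lit 0) (nat_lit 56479577166) (nat_lit 380) (nat_lit 55241566162) (nat_lit 76) (nat_lit 60254124552) (nat_lit 63) (nat_lit 5) (nat_lit 68) (nat_lit 5) (nat_lit 64) (nat_lit 5) (nat_lit 346) (nat_lit 325) (nat_lit 109)) (XT.lf (nat_lit 0) (nat_lit 32121955104) (nat_lit 304) (nat_lit 48772432665) (nat_lit 380) (nat_lit 96291579679)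 (nat_lit 59) (nat_lit 5) (nat_lit 63) (nat_lit 5) (nat_lit 64) (nat_lit 5) (nat_lit 347) (nat_lit 325) (nat_lit 108))))) (XT.nd (nat_lit 234) (nat_lit 532) (nat_lit 0) (XT.nd (nat_lit 78) (nat_lit 228) (nat_lit 0) (XT.lf (nat_lit 0) (nat_lit 107751113111) (nat_lit 380) (nat_lit 57124941081) (nat_lit 76) (nat_lit 17720089332) (nat_lit 59) (nat_lit 5) (nat_lit 64) (nat_lit 5) (nat_lit 60) (nat_lit 5) (nat_lit 348) (nat_lit 325) (nat_lit 107)) (XT.nd (nat_lit 78) (nat_lit 0) (nat_lit 0) (XT.lf (nat_lit 0) (nat_lit 35549117426) (nat_lit 228) (nat_lit 101755958216) (nat_lit 304) (nat_lit 50904032945) (nat_lit 56) (nat_lit 5) (nat_lit 59) (nat_lit 5) (nat_lit 60) (nat_lit 5) (nat_lit 349) (nat_lit 325) (nat_lit 106)) (XT.lf (nat_lit 0) (nat_lit 134839919234) (nat_lit 228) (nat_lit 34464091849) (nat_lit 304) (nat_lit 24750347297) (nat_lit 56) (nat_lit 5) (nat_lit 59) (nat_lit 5) (nat_lit 60)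 (nat_lit 5) (nat_lit 350) (nat_lit 325) (nat_lit 105)))) (XT.nd (nat_lit 78) (nat_lit 228) (nat_lit 0) (XT.lf (nat_lit 0) (nat_lit 3826915017) (nat_lit 304) (nat_lit 160588680508) (nat_lit 76) (nat_lit 35714025902) (nat_lit 52) (nat_lit 5) (nat_lit 56) (nat_lit 5) (nat_lit 53) (nat_lit 5) (nat_lit 351) (nat_lit 325) (nat_lit 104)) (XT.nd (nat_lit 78) (nat_lit 228) (nat_lit 0) (XT.lf (nat_lit 0) (nat_lit 34585361529) (nat_lit 304) (nat_lit 62156001011) (nat_lit 76) (nat_lit 109667793351) (nat_lit 52) (nat_lit 5) (nat_lit 56) (nat_lit 5) (nat_lit 53) (nat_lit 5) (nat_lit 352) (nat_lit 325) (nat_lit 103)) (XT.lf (nat_lit 0) (nat_lit 42560310098) (nat_lit 228) (nat_lit 24985758365) (nat_lit 304) (nat_lit 145423381888) (nat_lit 49) (nat_lit 5) (nat_lit 52) (nat_lit 5) (nat_lit 53) (nat_lit 5) (nat_lit 353) (nat_lit 325) (nat_lit 102))))))))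
noncomputable def xc246 : XT := (XT.nd (nat_lit 39234) (nat_lit 0) (nat_lit 760) (XT.nd (nat_lit 38454) (nat_lit 0) (nat_lit 3800) (XT.nd (nat_lit 390) (nat_lit 532) (nat_lit 0) (XT.nd (nat_lit 156) (nat_lit 228) (nat_lit 0) (XT.nd (nat_lit 78) (nat_lit 228) (nat_lit 0) (XT.lf (nat_lit 0) (nat_lit 104010788360) (nat_lit 304) (nat_lit 65938456204) (nat_lit 76) (nat_lit 49815716262) (nat_lit 49) (nat_lit 5) (nat_lit 53) (nat_lit 5) (nat_lit 50) (nat_lit 5) (nat_lit 354) (nat_lit 325) (nat_lit 101)) (XT.lf (nat_lit 0) (nat_lit 44779181053) (nat_lit 228) (nat_lit 98628156749) (nat_lit 304) (nat_lit 83437479507) (nat_lit 46) (nat_lit 5) (nat_lit 49) (nat_lit 5) (nat_lit 50) (nat_lit 5) (nat_lit 355) (nat_lit 325) (nat_lit 100))) (XT.nd (nat_lit 78) (nat_lit 228) (nat_lit 0) (XT.lf (nat_lit 0) (nat_lit 163321745730) (nat_lit 228) (nat_lit 22568534697) (nat_lit 304) (nat_lit 48332558059) (nat_lit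 46) (nat_lit 5) (nat_lit 49) (nat_lit 5) (nat_lit 50) (nat_lit 5) (nat_lit 356) (nat_lit 325) (nat_lit 99)) (XT.nd (nat_lit 78) (nat_lit 76) (nat_lit 0) (XT.lf (nat_lit 0) (nat_lit 46412460043) (nat_lit 152) (nat_lit 185703931299) (nat_lit 228) (nat_lit 9772418468) (nat_lit 44) (nat_lit 5) (nat_lit 46) (nat_lit 5) (nat_lit 47) (nat_lit 5) (nat_lit 357) (nat_lit 325) (nat_lit 98)) (XT.lf (nat_lit 0) (nat_lit 31322910293) (nat_lit 228) (nat_lit 78694231894) (nat_lit 76) (nat_lit 139817445852) (nat_lit 43) (nat_lit 5) (nat_lit 46) (nat_lit 5) (nat_lit 44) (nat_lit 5) (nat_lit 358) (nat_lit 325) (nat_lit 97))))) (XT.nd (nat_lit 156) (nat_lit 304) (nat_lit 0) (XT.nd (nat_lit 78) (nat_lit 0) (nat_lit 0) (XT.lf (nat_lit 0) (nat_lit 45213732157) (nat_lit 228) (nat_lit 29636647816) (nat_lit 304) (nat_lit 183283975563) (nat_lit 40) (nat_lit 5) (nat_lit 43) (nat_lit 5) (nat_lit 44) (nat_lit 5)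 (nat_lit 359) (nat_lit 325) (nat_lit 96)) (XT.lf (nat_lit 0) (nat_lit 122763678781) (nat_lit 304) (nat_lit 89610324762) (nat_lit 76) (nat_lit 54364635204) (nat_lit 40) (nat_lit 5) (nat_lit 44) (nat_lit 5) (nat_lit 41) (nat_lit 5) (nat_lit 360) (nat_lit 325) (nat_lit 95))) (XT.nd (nat_lit 78) (nat_lit 152) (nat_lit 0) (XT.lf (nat_lit 0) (nat_lit 40681533615) (nat_lit 152) (nat_lit 133511994925) (nat_lit 228) (nat_lit 101523563393) (nat_lit 38) (nat_lit 5) (nat_lit 40) (nat_lit 5) (nat_lit 41) (nat_lit 5) (nat_lit 361) (nat_lit 325) (nat_lit 94)) (XT.nd (nat_lit 78) (nat_lit 152) (nat_lit 0) (XT.lf (nat_lit 0) (nat_lit 180598884188) (nat_lit 152) (nat_lit 49113470150) (nat_lit 228) (nat_lit 55356239373) (nat_lit 38) (nat_lit 5) (nat_lit 40) (nat_lit 5) (nat_lit 41) (nat_lit 5) (nat_lit 362) (nat_lit 325) (nat_lit 93)) (XT.lf (nat_lit 0) (nat_lit 33065794861) (nat_lit 152) (nat_lit 256074253500)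 (nat_lit 228) (nat_lit 5690975976) (nat_lit 36) (nat_lit 5) (nat_lit 38) (nat_lit 5) (nat_lit 39) (nat_lit 5) (nat_lit 363) (nat_lit 325) (nat_lit 92)))))) (XT.nd (nat_lit 390) (nat_lit 608) (nat_lit 0) (XT.nd (nat_lit 156) (nat_lit 0) (nat_lit 0) (XT.nd (nat_lit 78) (nat_lit 0) (nat_lit 0) (XT.lf (nat_lit 0) (nat_lit 23215122035) (nat_lit 0) (nat_lit 23215122035) (nat_lit 684) (nat_lit 4696260091) (nat_lit 94) (nat_lit 5) (nat_lit 94) (nat_lit 3) (nat_lit 103) (nat_lit 3) (nat_lit 326) (nat_lit 326) (nat_lit 128)) (XT.lf (nat_lit 0) (nat_lit 95198360130) (nat_lit 684) (nat_lit 8960359539) (nat_lit 760) (nat_lit 649785430) (nat_lit 94) (nat_lit 5) (nat_lit 103) (nat_lit 3) (nat_lit 104) (nat_lit 5) (nat_lit 327) (nat_lit 326) (nat_lit 127))) (XT.nd (nat_lit 78) (nat_lit 0) (nat_lit 0) (XT.lf (nat_lit 76) (nat_lit 40789316117) (nat_lit 0) (nat_lit 58261423262) (nat_lit 760) (nat_lit 8371157320)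 (nat_lit 95) (nat_lit 5) (nat_lit 94) (nat_lit 5) (nat_lit 104) (nat_lit 5) (nat_lit 328) (nat_lit 326) (nat_lit 126)) (XT.nd (nat_lit 78) (nat_lit 0) (nat_lit 76) (XT.lf (nat_lit 76) (nat_lit 93337351804) (nat_lit 0) (nat_lit 9909774944) (nat_lit 760) (nat_lit 6911262309) (nat_lit 95) (nat_lit 5) (nat_lit 94) (nat_lit 5) (nat_lit 104) (nat_lit 5) (nat_lit 329) (nat_lit 326) (nat_lit 125)) (XT.lf (nat_lit 76) (nat_lit 35995000137) (nat_lit 0) (nat_lit 72857907264) (nat_lit 760) (nat_lit 4118820542) (nat_lit 96) (nat_lit 5) (nat_lit 95) (nat_lit 5) (nat_lit 105) (nat_lit 5) (nat_lit 330) (nat_lit 326) (nat_lit 124))))) (XT.nd (nat_lit 156) (nat_lit 0) (nat_lit 0) (XT.nd (nat_lit 78) (nat_lit 684) (nat_lit 0) (XT.lf (nat_lit 76) (nat_lit 91867787211) (nat_lit 0) (nat_lit 23315570666) (nat_lit 760) (nat_lit 720157435) (nat_lit 96) (nat_lit 5) (nat_lit 95) (nat_lit 5) (nat_lit 105) (nat_lit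 5) (nat_lit 331) (nat_lit 326) (nat_lit 123)) (XT.lf (nat_lit 0) (nat_lit 3722351529) (nat_lit 760) (nat_lit 86862065490) (nat_lit 836) (nat_lit 28346997922) (nat_lit 86) (nat_lit 5) (nat_lit 96) (nat_lit 5) (nat_lit 97) (nat_lit 5) (nat_lit 332) (nat_lit 326) (nat_lit 122))) (XT.nd (nat_lit 78) (nat_lit 0) (nat_lit 76) (XT.lf (nat_lit 0) (nat_lit 9158432628) (nat_lit 760) (nat_lit 30677139372) (nat_lit 836) (nat_lit 82234765322) (nat_lit 86) (nat_lit 5) (nat_lit 96) (nat_lit 5) (nat_lit 97) (nat_lit 5) (nat_lit 333) (nat_lit 326) (nat_lit 121)) (XT.nd (nat_lit 78) (nat_lit 0) (nat_lit 0) (XT.lf (nat_lit 0) (nat_lit 15540243287) (nat_lit 760) (nat_lit 96307778969) (nat_lit 836) (nat_lit 13484487766) (nat_lit 87) (nat_lit 5) (nat_lit 97) (nat_lit 5) (nat_lit 98) (nat_lit 5) (nat_lit 334) (nat_lit 326) (nat_lit 120)) (XT.lf (nat_lit 0) (nat_lit 23421958133) (nat_lit 760) (nat_lit 36616867190)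 (nat_lit 836) (nat_lit 68659925804) (nat_lit 87) (nat_lit 5) (nat_lit 97) (nat_lit 5) (nat_lit 98) (nat_lit 5) (nat_lit 335) (nat_lit 326) (nat_lit 119))))))) (XT.nd (nat_lit 780) (nat_lit 1596) (nat_lit 0) (XT.nd (nat_lit 390) (nat_lit 684) (nat_lit 0) (XT.nd (nat_lit 156) (nat_lit 836) (nat_lit 0) (XT.nd (nat_lit 78) (nat_lit 0) (nat_lit 76) (XT.lf (nat_lit 76) (nat_lit 26919979187) (nat_lit 0) (nat_lit 5197811442) (nat_lit 836) (nat_lit 100094512493) (nat_lit 88) (nat_lit 5) (nat_lit 87) (nat_lit 5) (nat_lit 98) (nat_lit 5) (nat_lit 336) (nat_lit 326) (nat_lit 118)) (XT.lf (nat_lit 0) (nat_lit 42696331153) (nat_lit 760) (nat_lit 41793878971) (nat_lit 76) (nat_lit 51338927184) (nat_lit 88) (nat_lit 5) (nat_lit 98) (nat_lit 5) (nat_lit 89) (nat_lit 5) (nat_lit 337) (nat_lit 326) (nat_lit 117))) (XT.nd (nat_lit 78) (nat_lit 380) (nat_lit 0) (XT.lf (nat_lit 0) (nat_lit 25613864000) (nat_lit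 532) (nat_lit 28674806500) (nat_lit 608) (nat_lit 85313899503) (nat_lit 81) (nat_lit 5) (nat_lit 88) (nat_lit 5) (nat_lit 89) (nat_lit 5) (nat_lit 338) (nat_lit 326) (nat_lit 116)) (XT.nd (nat_lit 78) (nat_lit 380) (nat_lit 0) (XT.lf (nat_lit 0) (nat_lit 67647108262) (nat_lit 608) (nat_lit 46165443636) (nat_lit 76) (nat_lit 29692798737) (nat_lit 81) (nat_lit 5) (nat_lit 89) (nat_lit 5) (nat_lit 82) (nat_lit 5) (nat_lit 339) (nat_lit 326) (nat_lit 115)) (XT.lf (nat_lit 0) (nat_lit 25391369540) (nat_lit 380) (nat_lit 57148384826) (nat_lit 456) (nat_lit 65020201963) (nat_lit 76) (nat_lit 5) (nat_lit 81) (nat_lit 5) (nat_lit 82) (nat_lit 5) (nat_lit 340) (nat_lit 326) (nat_lit 114))))) (XT.nd (nat_lit 156) (nat_lit 380) (nat_lit 0) (XT.nd (nat_lit 78) (nat_lit 304) (nat_lit 0) (XT.lf (nat_lit 0) (nat_lit 99008142744) (nat_lit 456) (nat_lit 49699132135) (nat_lit 76) (nat_lit 3068462268) (nat_lit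 76) (nat_lit 5) (nat_lit 82) (nat_lit 5) (nat_lit 77) (nat_lit 5) (nat_lit 341) (nat_lit 326) (nat_lit 113)) (XT.lf (nat_lit 0) (nat_lit 26298437788) (nat_lit 304) (nat_lit 91348758657) (nat_lit 380) (nat_lit 38487748587) (nat_lit 72) (nat_lit 5) (nat_lit 76) (nat_lit 5) (nat_lit 77) (nat_lit 5) (nat_lit 342) (nat_lit 326) (nat_lit 112))) (XT.nd (nat_lit 78) (nat_lit 380) (nat_lit 0) (XT.lf (nat_lit 0) (nat_lit 107821118344) (nat_lit 304) (nat_lit 30238564658) (nat_lit 380) (nat_lit 22610356607) (nat_lit 72) (nat_lit 5) (nat_lit 76) (nat_lit 5) (nat_lit 77) (nat_lit 5) (nat_lit 343) (nat_lit 326) (nat_lit 111)) (XT.nd (nat_lit 78) (nat_lit 76) (nat_lit 0) (XT.lf (nat_lit 0) (nat_lit 28366027188) (nat_lit 304) (nat_lit 132099148222) (nat_lit 380) (nat_lit 4918094722) (nat_lit 68) (nat_lit 5) (nat_lit 72) (nat_lit 5) (nat_lit 73) (nat_lit 5) (nat_lit 344) (nat_lit 326) (nat_lit 110)) (XT.lf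 (nat_lit 0) (nat_lit 14626835858) (nat_lit 380) (nat_lit 55534743500) (nat_lit 76) (nat_lit 100089659400) (nat_lit 67) (nat_lit 5) (nat_lit 72) (nat_lit 5) (nat_lit 68) (nat_lit 5) (nat_lit 345) (nat_lit 326) (nat_lit 109)))))) (XT.nd (nat_lit 390) (nat_lit 760) (nat_lit 0) (XT.nd (nat_lit 156) (nat_lit 532) (nat_lit 0) (XT.nd (nat_lit 78) (nat_lit 0) (nat_lit 0) (XT.lf (nat_lit 0) (nat_lit 30931040797) (nat_lit 304) (nat_lit 4535434214) (nat_lit 380) (nat_lit 139867962718) (nat_lit 63) (nat_lit 5) (nat_lit 67) (nat_lit 5) (nat_lit 68) (nat_lit 5) (nat_lit 346) (nat_lit 326) (nat_lit 108)) (XT.lf (nat_lit 0) (nat_lit 59308876648) (nat_lit 380) (nat_lit 57997269112) (nat_lit 76) (nat_lit 63267612103) (nat_lit 63) (nat_lit 5) (nat_lit 68) (nat_lit 5) (nat_lit 64) (nat_lit 5) (nat_lit 347) (nat_lit 326) (nat_lit 107))) (XT.nd (nat_lit 78) (nat_lit 228) (nat_lit 0) (XT.lf (nat_lit 0) (nat_lit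 33734325389) (nat_lit 304) (nat_lit 51209946961) (nat_lit 380) (nat_lit 101100728182) (nat_lit 59) (nat_lit 5) (nat_lit 63) (nat_lit 5) (nat_lit 64) (nat_lit 5) (nat_lit 348) (nat_lit 326) (nat_lit 106)) (XT.nd (nat_lit 78) (nat_lit 228) (nat_lit 0) (XT.lf (nat_lit 0) (nat_lit 113143604462) (nat_lit 380) (nat_lit 59974978107) (nat_lit 76) (nat_lit 18607114652) (nat_lit 59) (nat_lit 5) (nat_lit 64) (nat_lit 5) (nat_lit 60) (nat_lit 5) (nat_lit 349) (nat_lit 326) (nat_lit 105)) (XT.lf (nat_lit 0) (nat_lit 37332683164) (nat_lit 228) (nat_lit 106842442315) (nat_lit 304) (nat_lit 53444192359) (nat_lit 56) (nat_lit 5) (nat_lit 59) (nat_lit 5) (nat_lit 60) (nat_lit 5) (nat_lit 350) (nat_lit 326) (nat_lit 104))))) (XT.nd (nat_lit 234) (nat_lit 456) (nat_lit 0) (XT.nd (nat_lit 78) (nat_lit 304) (nat_lit 0) (XT.lf (nat_lit 0) (nat_lit 141587734117) (nat_lit 228) (nat_lit 36186045192) (nat_lit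 304) (nat_lit 25983062535) (nat_lit 56) (nat_lit 5) (nat_lit 59) (nat_lit 5) (nat_lit 60) (nat_lit 5) (nat_lit 351) (nat_lit 326) (nat_lit 103)) (XT.nd (nat_lit 78) (nat_lit 0) (nat_lit 0) (XT.lf (nat_lit 0) (nat_lit 4022800958) (nat_lit 304) (nat_lit 168612022386) (nat_lit 76) (nat_lit 37501046637) (nat_lit 52) (nat_lit 5) (nat_lit 56) (nat_lit 5) (nat_lit 53) (nat_lit 5) (nat_lit 352) (nat_lit 326) (nat_lit 102)) (XT.lf (nat_lit 0) (nat_lit 36318953597) (nat_lit 304) (nat_lit 65257999016) (nat_lit 76) (nat_lit 115152439627) (nat_lit 52) (nat_lit 5) (nat_lit 56) (nat_lit 5) (nat_lit 53) (nat_lit 5) (nat_lit 353) (nat_lit 326) (nat_lit 101)))) (XT.nd (nat_lit 78) (nat_lit 228) (nat_lit 0) (XT.lf (nat_lit 0) (nat_lit 44694034067) (nat_lit 228) (nat_lit 26233545031) (nat_lit 304) (nat_lit 152690128415) (nat_lit 49) (nat_lit 5) (nat_lit 52) (nat_lit 5) (nat_lit 53) (nat_lit 5) (nat_lit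 354) (nat_lit 326) (nat_lit 100)) (XT.nd (nat_lit 78) (nat_lit 228) (nat_lit 0) (XT.lf (nat_lit 0) (nat_lit 109215356969) (nat_lit 304) (nat_lit 69229759603) (nat_lit 76) (nat_lit 52307886078) (nat_lit 49) (nat_lit 5) (nat_lit 53) (nat_lit 5) (nat_lit 50) (nat_lit 5) (nat_lit 355) (nat_lit 326) (nat_lit 99)) (XT.lf (nat_lit 0) (nat_lit 47023668881) (nat_lit 228) (nat_lit 103557959456) (nat_lit 304) (nat_lit 87605229125) (nat_lit 46) (nat_lit 5) (nat_lit 49) (nat_lit 5) (nat_lit 50) (nat_lit 5) (nat_lit 356) (nat_lit 326) (nat_lit 98))))))))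
noncomputable def xc247 : XT := (XT.nd (nat_lit 39390) (nat_lit 0) (nat_lit 152) (XT.nd (nat_lit 38532) (nat_lit 0) (nat_lit 3268) (XT.nd (nat_lit 390) (nat_lit 152) (nat_lit 0) (XT.nd (nat_lit 156) (nat_lit 304) (nat_lit 0) (XT.nd (nat_lit 78) (nat_lit 152) (nat_lit 0) (XT.lf (nat_lit 0) (nat_lit 171493098516) (nat_lit 228) (nat_lit 23695432736) (nat_lit 304) (nat_lit 50745258002) (nat_lit 46) (nat_lit 5) (nat_lit 49) (nat_lit 5) (nat_lit 50) (nat_lit 5) (nat_lit 357) (nat_lit 326) (nat_lit 97)) (XT.lf (nat_lit 0) (nat_lit 48738428208) (nat_lit 152) (nat_lit 194987447746) (nat_lit 228) (nat_lit 10257186985) (nat_lit 44) (nat_lit 5) (nat_lit 46) (nat_lit 5) (nat_lit 47) (nat_lit 5) (nat_lit 358) (nat_lit 326) (nat_lit 96))) (XT.nd (nat_lit 78) (nat_lit 228) (nat_lit 0) (XT.lf (nat_lit 0) (nat_lit 32892607337) (nat_lit 228) (nat_lit 82623731700) (nat_lit 76) (nat_lit 146809797099) (nat_lit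 43) (nat_lit 5) (nat_lit 46) (nat_lit 5) (nat_lit 44) (nat_lit 5) (nat_lit 359) (nat_lit 326) (nat_lit 95)) (XT.nd (nat_lit 78) (nat_lit 0) (nat_lit 0) (XT.lf (nat_lit 0) (nat_lit 47479546492) (nat_lit 228) (nat_lit 31116814946) (nat_lit 304) (nat_lit 192444535200) (nat_lit 40) (nat_lit 5) (nat_lit 43) (nat_lit 5) (nat_lit 44) (nat_lit 5) (nat_lit 360) (nat_lit 326) (nat_lit 94)) (XT.lf (nat_lit 0) (nat_lit 128905185069) (nat_lit 304) (nat_lit 94085813951) (nat_lit 76) (nat_lit 57084402166) (nat_lit 40) (nat_lit 5) (nat_lit 44) (nat_lit 5) (nat_lit 41) (nat_lit 5) (nat_lit 361) (nat_lit 326) (nat_lit 93))))) (XT.nd (nat_lit 37908) (nat_lit 0) (nat_lit 4256) (XT.nd (nat_lit 78) (nat_lit 0) (nat_lit 0) (XT.lf (nat_lit 0) (nat_lit 42720556263) (nat_lit 152) (nat_lit 140185890066) (nat_lit 228) (nat_lit 106596334913) (nat_lit 38) (nat_lit 5) (nat_lit 40) (nat_lit 5) (nat_lit 41) (nat_lit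 5) (nat_lit 362) (nat_lit 326) (nat_lit 92)) (XT.lf (nat_lit 0) (nat_lit 189633538843) (nat_lit 152) (nat_lit 51567520224) (nat_lit 228) (nat_lit 58120806913) (nat_lit 38) (nat_lit 5) (nat_lit 40) (nat_lit 5) (nat_lit 41) (nat_lit 5) (nat_lit 363) (nat_lit 326) (nat_lit 91))) (XT.nd (nat_lit 78) (nat_lit 0) (nat_lit 0) (XT.lf (nat_lit 0) (nat_lit 24378771927) (nat_lit 0) (nat_lit 24378771927) (nat_lit 684) (nat_lit 4924985856) (nat_lit 94) (nat_lit 5) (nat_lit 94) (nat_lit 3) (nat_lit 103) (nat_lit 3) (nat_lit 327) (nat_lit 327) (nat_lit 126)) (XT.nd (nat_lit 78) (nat_lit 0) (nat_lit 0) (XT.lf (nat_lit 0) (nat_lit 99969216041) (nat_lit 684) (nat_lit 9402208697) (nat_lit 760) (nat_lit 676939139) (nat_lit 94) (nat_lit 5) (nat_lit 103) (nat_lit 3) (nat_lit 104) (nat_lit 5) (nat_lit 328) (nat_lit 327) (nat_lit 125)) (XT.lf (nat_lit 76) (nat_lit 42834851245) (nat_lit 0) (nat_lit 61178936914)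 (nat_lit 760) (nat_lit 8778659134) (nat_lit 95) (nat_lit 5) (nat_lit 94) (nat_lit 5) (nat_lit 104) (nat_lit 5) (nat_lit 329) (nat_lit 327) (nat_lit 124)))))) (XT.nd (nat_lit 390) (nat_lit 380) (nat_lit 0) (XT.nd (nat_lit 156) (nat_lit 608) (nat_lit 0) (XT.nd (nat_lit 78) (nat_lit 0) (nat_lit 76) (XT.lf (nat_lit 76) (nat_lit 98009999701) (nat_lit 0) (nat_lit 10409494632) (nat_lit 760) (nat_lit 7246295852) (nat_lit 95) (nat_lit 5) (nat_lit 94) (nat_lit 5) (nat_lit 104) (nat_lit 5) (nat_lit 330) (nat_lit 327) (nat_lit 123)) (XT.lf (nat_lit 76) (nat_lit 37801012176) (nat_lit 0) (nat_lit 76504109974) (nat_lit 760) (nat_lit 4314696805) (nat_lit 96) (nat_lit 5) (nat_lit 95) (nat_lit 5) (nat_lit 105) (nat_lit 5) (nat_lit 331) (nat_lit 327) (nat_lit 122))) (XT.nd (nat_lit 78) (nat_lit 684) (nat_lit 0) (XT.lf (nat_lit 76) (nat_lit 96467140412) (nat_lit 0) (nat_lit 24484499053) (nat_lit 760) (nat_lit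 746579817) (nat_lit 96) (nat_lit 5) (nat_lit 95) (nat_lit 5) (nat_lit 105) (nat_lit 5) (nat_lit 332) (nat_lit 327) (nat_lit 121)) (XT.nd (nat_lit 78) (nat_lit 0) (nat_lit 0) (XT.lf (nat_lit 0) (nat_lit 3917359599) (nat_lit 760) (nat_lit 91198479971) (nat_lit 836) (nat_lit 29761686980) (nat_lit 86) (nat_lit 5) (nat_lit 96) (nat_lit 5) (nat_lit 97) (nat_lit 5) (nat_lit 333) (nat_lit 327) (nat_lit 120)) (XT.lf (nat_lit 0) (nat_lit 9624821396) (nat_lit 760) (nat_lit 32204626061) (nat_lit 836) (nat_lit 86343969457) (nat_lit 86) (nat_lit 5) (nat_lit 96) (nat_lit 5) (nat_lit 97) (nat_lit 5) (nat_lit 334) (nat_lit 327) (nat_lit 119))))) (XT.nd (nat_lit 234) (nat_lit 456) (nat_lit 0) (XT.nd (nat_lit 78) (nat_lit 0) (nat_lit 0) (XT.lf (nat_lit 0) (nat_lit 16325387670) (nat_lit 760) (nat_lit 101116449466) (nat_lit 836) (nat_lit 14156878521) (nat_lit 87) (nat_lit 5) (nat_lit 97) (nat_lit 5) (nat_lit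 98) (nat_lit 5) (nat_lit 335) (nat_lit 327) (nat_lit 118)) (XT.nd (nat_lit 78) (nat_lit 0) (nat_lit 0) (XT.lf (nat_lit 0) (nat_lit 24600801010) (nat_lit 760) (nat_lit 38441312024) (nat_lit 836) (nat_lit 72091175777) (nat_lit 87) (nat_lit 5) (nat_lit 97) (nat_lit 5) (nat_lit 98) (nat_lit 5) (nat_lit 336) (nat_lit 327) (nat_lit 117)) (XT.lf (nat_lit 76) (nat_lit 28272273470) (nat_lit 0) (nat_lit 5458881140) (nat_lit 836) (nat_lit 105091377923) (nat_lit 88) (nat_lit 5) (nat_lit 87) (nat_lit 5) (nat_lit 98) (nat_lit 5) (nat_lit 337) (nat_lit 327) (nat_lit 116)))) (XT.nd (nat_lit 78) (nat_lit 532) (nat_lit 0) (XT.lf (nat_lit 0) (nat_lit 44838248701) (nat_lit 760) (nat_lit 43877192465) (nat_lit 76) (nat_lit 53904786507) (nat_lit 88) (nat_lit 5) (nat_lit 98) (nat_lit 5) (nat_lit 89) (nat_lit 5) (nat_lit 338) (nat_lit 327) (nat_lit 115)) (XT.nd (nat_lit 78) (nat_lit 0) (nat_lit 0) (XT.lf (nat_lit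 0) (nat_lit 26900834744) (nat_lit 532) (nat_lit 30109130140) (nat_lit 608) (nat_lit 89572379672) (nat_lit 81) (nat_lit 5) (nat_lit 88) (nat_lit 5) (nat_lit 89) (nat_lit 5) (nat_lit 339) (nat_lit 327) (nat_lit 114)) (XT.lf (nat_lit 0) (nat_lit 71035989152) (nat_lit 608) (nat_lit 48467391438) (nat_lit 76) (nat_lit 31176900917) (nat_lit 81) (nat_lit 5) (nat_lit 89) (nat_lit 5) (nat_lit 82) (nat_lit 5) (nat_lit 340) (nat_lit 327) (nat_lit 113))))))) (XT.nd (nat_lit 780) (nat_lit 1444) (nat_lit 0) (XT.nd (nat_lit 390) (nat_lit 684) (nat_lit 0) (XT.nd (nat_lit 156) (nat_lit 608) (nat_lit 0) (XT.nd (nat_lit 78) (nat_lit 0) (nat_lit 0) (XT.lf (nat_lit 0) (nat_lit 26667160390) (nat_lit 380) (nat_lit 60005893583) (nat_lit 456) (nat_lit 68264574687) (nat_lit 76) (nat_lit 5) (nat_lit 81) (nat_lit 5) (nat_lit 82) (nat_lit 5) (nat_lit 341) (nat_lit 327) (nat_lit 112)) (XT.lf (nat_lit 0) (nat_lit 103964559873)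 (nat_lit 456) (nat_lit 52177851355) (nat_lit 76) (nat_lit 3221802857) (nat_lit 76) (nat_lit 5) (nat_lit 82) (nat_lit 5) (nat_lit 77) (nat_lit 5) (nat_lit 342) (nat_lit 327) (nat_lit 111))) (XT.nd (nat_lit 78) (nat_lit 304) (nat_lit 0) (XT.lf (nat_lit 0) (nat_lit 27619496461) (nat_lit 304) (nat_lit 95915879420) (nat_lit 380) (nat_lit 40406016451) (nat_lit 72) (nat_lit 5) (nat_lit 76) (nat_lit 5) (nat_lit 77) (nat_lit 5) (nat_lit 343) (nat_lit 327) (nat_lit 110)) (XT.nd (nat_lit 78) (nat_lit 304) (nat_lit 0) (XT.lf (nat_lit 0) (nat_lit 113218018817) (nat_lit 304) (nat_lit 31750190824) (nat_lit 380) (nat_lit 23735046279) (nat_lit 72) (nat_lit 5) (nat_lit 76) (nat_lit 5) (nat_lit 77) (nat_lit 5) (nat_lit 344) (nat_lit 327) (nat_lit 109)) (XT.lf (nat_lit 0) (nat_lit 29790355257) (nat_lit 304) (nat_lit 138703456070) (nat_lit 380) (nat_lit 5158345316) (nat_lit 68) (nat_lit 5) (nat_lit 72) (nat_lit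 5) (nat_lit 73) (nat_lit 5) (nat_lit 345) (nat_lit 327) (nat_lit 108))))) (XT.nd (nat_lit 156) (nat_lit 304) (nat_lit 0) (XT.nd (nat_lit 78) (nat_lit 304) (nat_lit 0) (XT.lf (nat_lit 0) (nat_lit 15363390197) (nat_lit 380) (nat_lit 58305561220) (nat_lit 76) (nat_lit 105094581270) (nat_lit 67) (nat_lit 5) (nat_lit 72) (nat_lit 5) (nat_lit 68) (nat_lit 5) (nat_lit 346) (nat_lit 327) (nat_lit 107)) (XT.lf (nat_lit 0) (nat_lit 32483416817) (nat_lit 304) (nat_lit 4761437203) (nat_lit 380) (nat_lit 146856045803) (nat_lit 63) (nat_lit 5) (nat_lit 67) (nat_lit 5) (nat_lit 68) (nat_lit 5) (nat_lit 347) (nat_lit 327) (nat_lit 106))) (XT.nd (nat_lit 78) (nat_lit 304) (nat_lit 0) (XT.lf (nat_lit 0) (nat_lit 62279146443) (nat_lit 380) (nat_lit 60891349929) (nat_lit 76) (nat_lit 66431701391) (nat_lit 63) (nat_lit 5) (nat_lit 68) (nat_lit 5) (nat_lit 64) (nat_lit 5) (nat_lit 348) (nat_lit 327) (nat_lit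 105)) (XT.nd (nat_lit 78) (nat_lit 0) (nat_lit 0) (XT.lf (nat_lit 0) (nat_lit 35426731028) (nat_lit 304) (nat_lit 53769439921) (nat_lit 380) (nat_lit 106150838985) (nat_lit 59) (nat_lit 5) (nat_lit 63) (nat_lit 5) (nat_lit 64) (nat_lit 5) (nat_lit 349) (nat_lit 327) (nat_lit 104)) (XT.lf (nat_lit 0) (nat_lit 118805261507) (nat_lit 380) (nat_lit 62968094334) (nat_lit 76) (nat_lit 19538396329) (nat_lit 59) (nat_lit 5) (nat_lit 64) (nat_lit 5) (nat_lit 60) (nat_lit 5) (nat_lit 350) (nat_lit 327) (nat_lit 103)))))) (XT.nd (nat_lit 390) (nat_lit 684) (nat_lit 0) (XT.nd (nat_lit 156) (nat_lit 532) (nat_lit 0) (XT.nd (nat_lit 78) (nat_lit 0) (nat_lit 0) (XT.lf (nat_lit 0) (nat_lit 39204859152) (nat_lit 228) (nat_lit 112183372765) (nat_lit 304) (nat_lit 56111828522) (nat_lit 56) (nat_lit 5) (nat_lit 59) (nat_lit 5) (nat_lit 60) (nat_lit 5) (nat_lit 351) (nat_lit 327) (nat_lit 102)) (XT.lf (nat_lit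 0) (nat_lit 148672398755) (nat_lit 228) (nat_lit 37994212532) (nat_lit 304) (nat_lit 27277859991) (nat_lit 56) (nat_lit 5) (nat_lit 59) (nat_lit 5) (nat_lit 60) (nat_lit 5) (nat_lit 352) (nat_lit 327) (nat_lit 101))) (XT.nd (nat_lit 78) (nat_lit 228) (nat_lit 0) (XT.lf (nat_lit 0) (nat_lit 4228059093) (nat_lit 304) (nat_lit 177037097748) (nat_lit 76) (nat_lit 39377295740) (nat_lit 52) (nat_lit 5) (nat_lit 56) (nat_lit 5) (nat_lit 53) (nat_lit 5) (nat_lit 353) (nat_lit 327) (nat_lit 100)) (XT.nd (nat_lit 78) (nat_lit 228) (nat_lit 0) (XT.lf (nat_lit 0) (nat_lit 38138823264) (nat_lit 304) (nat_lit 68515636341) (nat_lit 76) (nat_lit 120911201391) (nat_lit 52) (nat_lit 5) (nat_lit 56) (nat_lit 5) (nat_lit 53) (nat_lit 5) (nat_lit 354) (nat_lit 327) (nat_lit 99)) (XT.lf (nat_lit 0) (nat_lit 46933913516) (nat_lit 228) (nat_lit 27543860603) (nat_lit 304) (nat_lit 160320623436) (nat_lit 49)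 (nat_lit 5) (nat_lit 52) (nat_lit 5) (nat_lit 53) (nat_lit 5) (nat_lit 355) (nat_lit 327) (nat_lit 98))))) (XT.nd (nat_lit 234) (nat_lit 456) (nat_lit 0) (XT.nd (nat_lit 78) (nat_lit 228) (nat_lit 0) (XT.lf (nat_lit 0) (nat_lit 114679779413) (nat_lit 304) (nat_lit 72686150612) (nat_lit 76) (nat_lit 54924535713) (nat_lit 49) (nat_lit 5) (nat_lit 53) (nat_lit 5) (nat_lit 50) (nat_lit 5) (nat_lit 356) (nat_lit 327) (nat_lit 97)) (XT.nd (nat_lit 78) (nat_lit 0) (nat_lit 0) (XT.lf (nat_lit 0) (nat_lit 49379867087) (nat_lit 228) (nat_lit 108734401528) (nat_lit 304) (nat_lit 91981749667) (nat_lit 46) (nat_lit 5) (nat_lit 49) (nat_lit 5) (nat_lit 50) (nat_lit 5) (nat_lit 357) (nat_lit 327) (nat_lit 96)) (XT.lf (nat_lit 0) (nat_lit 180072529406) (nat_lit 228) (nat_lit 24878817801) (nat_lit 304) (nat_lit 53278958127) (nat_lit 46) (nat_lit 5) (nat_lit 49) (nat_lit 5) (nat_lit 50) (nat_lit 5) (nat_lit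 358) (nat_lit 327) (nat_lit 95)))) (XT.nd (nat_lit 78) (nat_lit 304) (nat_lit 0) (XT.lf (nat_lit 0) (nat_lit 51180197838) (nat_lit 152) (nat_lit 204735296217) (nat_lit 228) (nat_lit 10766552088) (nat_lit 44) (nat_lit 5) (nat_lit 46) (nat_lit 5) (nat_lit 47) (nat_lit 5) (nat_lit 359) (nat_lit 327) (nat_lit 94)) (XT.nd (nat_lit 78) (nat_lit 228) (nat_lit 0) (XT.lf (nat_lit 0) (nat_lit 34540459045) (nat_lit 228) (nat_lit 86750191040) (nat_lit 76) (nat_lit 154151628410) (nat_lit 43) (nat_lit 5) (nat_lit 46) (nat_lit 5) (nat_lit 44) (nat_lit 5) (nat_lit 360) (nat_lit 327) (nat_lit 93)) (XT.lf (nat_lit 0) (nat_lit 49858174817) (nat_lit 228) (nat_lit 32671145254) (nat_lit 304) (nat_lit 202063461153) (nat_lit 40) (nat_lit 5) (nat_lit 43) (nat_lit 5) (nat_lit 44) (nat_lit 5) (nat_lit 361) (nat_lit 327) (nat_lit 92))))))))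
noncomputable def xc248 : XT := (XT.nd (nat_lit 39468) (nat_lit 0) (nat_lit 228) (XT.nd (nat_lit 38688) (nat_lit 0) (nat_lit 2128) (XT.nd (nat_lit 38298) (nat_lit 0) (nat_lit 3496) (XT.nd (nat_lit 38064) (nat_lit 0) (nat_lit 4104) (XT.nd (nat_lit 37986) (nat_lit 0) (nat_lit 4104) (XT.lf (nat_lit 0) (nat_lit 135353457791) (nat_lit 304) (nat_lit 98785544967) (nat_lit 76) (nat_lit 59940014747) (nat_lit 40) (nat_lit 5) (nat_lit 44) (nat_lit 5) (nat_lit 41) (nat_lit 5) (nat_lit 362) (nat_lit 327) (nat_lit 91)) (XT.lf (nat_lit 0) (nat_lit 25600335276) (nat_lit 0) (nat_lit 25600335276) (nat_lit 684) (nat_lit 5165713843) (nat_lit 94) (nat_lit 5) (nat_lit 94) (nat_lit 3) (nat_lit 103) (nat_lit 3) (nat_lit 328) (nat_lit 328) (nat_lit 124))) (XT.nd (nat_lit 78) (nat_lit 0) (nat_lit 0) (XT.lf (nat_lit 0) (nat_lit 104977597844) (nat_lit 684) (nat_lit 9866723831) (nat_lit 760) (nat_lit 705946583)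 (nat_lit 94) (nat_lit 5) (nat_lit 103) (nat_lit 3) (nat_lit 104) (nat_lit 5) (nat_lit 329) (nat_lit 328) (nat_lit 123)) (XT.nd (nat_lit 78) (nat_lit 0) (nat_lit 0) (XT.lf (nat_lit 76) (nat_lit 44982098862) (nat_lit 0) (nat_lit 64241913228) (nat_lit 760) (nat_lit 9207563926) (nat_lit 95) (nat_lit 5) (nat_lit 94) (nat_lit 5) (nat_lit 104) (nat_lit 5) (nat_lit 330) (nat_lit 328) (nat_lit 122)) (XT.lf (nat_lit 76) (nat_lit 102915742594) (nat_lit 0) (nat_lit 10933806953) (nat_lit 760) (nat_lit 7599060011) (nat_lit 95) (nat_lit 5) (nat_lit 94) (nat_lit 5) (nat_lit 104) (nat_lit 5) (nat_lit 331) (nat_lit 328) (nat_lit 121))))) (XT.nd (nat_lit 156) (nat_lit 684) (nat_lit 0) (XT.nd (nat_lit 78) (nat_lit 0) (nat_lit 0) (XT.lf (nat_lit 76) (nat_lit 39696742632) (nat_lit 0) (nat_lit 80332315334) (nat_lit 760) (nat_lit 4521302608) (nat_lit 96) (nat_lit 5) (nat_lit 95) (nat_lit 5) (nat_lit 105) (nat_lit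 5) (nat_lit 332) (nat_lit 328) (nat_lit 120)) (XT.lf (nat_lit 76) (nat_lit 101295906811) (nat_lit 0) (nat_lit 25711581016) (nat_lit 760) (nat_lit 775214486) (nat_lit 96) (nat_lit 5) (nat_lit 95) (nat_lit 5) (nat_lit 105) (nat_lit 5) (nat_lit 333) (nat_lit 328) (nat_lit 119))) (XT.nd (nat_lit 78) (nat_lit 0) (nat_lit 0) (XT.lf (nat_lit 0) (nat_lit 4121291519) (nat_lit 760) (nat_lit 95752337038) (nat_lit 836) (nat_lit 31247357870) (nat_lit 86) (nat_lit 5) (nat_lit 96) (nat_lit 5) (nat_lit 97) (nat_lit 5) (nat_lit 334) (nat_lit 328) (nat_lit 118)) (XT.nd (nat_lit 78) (nat_lit 0) (nat_lit 76) (XT.lf (nat_lit 0) (nat_lit 10113742408) (nat_lit 760) (nat_lit 33809079334) (nat_lit 836) (nat_lit 90658869397) (nat_lit 86) (nat_lit 5) (nat_lit 96) (nat_lit 5) (nat_lit 97) (nat_lit 5) (nat_lit 335) (nat_lit 328) (nat_lit 117)) (XT.lf (nat_lit 0) (nat_lit 17149033216) (nat_lit 760) (nat_lit 106166178106)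 (nat_lit 836) (nat_lit 14863059288) (nat_lit 87) (nat_lit 5) (nat_lit 97) (nat_lit 5) (nat_lit 98) (nat_lit 5) (nat_lit 336) (nat_lit 328) (nat_lit 116)))))) (XT.nd (nat_lit 390) (nat_lit 988) (nat_lit 0) (XT.nd (nat_lit 156) (nat_lit 456) (nat_lit 0) (XT.nd (nat_lit 78) (nat_lit 0) (nat_lit 0) (XT.lf (nat_lit 0) (nat_lit 25837865977) (nat_lit 760) (nat_lit 40357573974) (nat_lit 836) (nat_lit 75694150605) (nat_lit 87) (nat_lit 5) (nat_lit 97) (nat_lit 5) (nat_lit 98) (nat_lit 5) (nat_lit 337) (nat_lit 328) (nat_lit 115)) (XT.lf (nat_lit 76) (nat_lit 29691597187) (nat_lit 0) (nat_lit 5732894700) (nat_lit 836) (nat_lit 110338817391) (nat_lit 88) (nat_lit 5) (nat_lit 87) (nat_lit 5) (nat_lit 98) (nat_lit 5) (nat_lit 338) (nat_lit 328) (nat_lit 114))) (XT.nd (nat_lit 78) (nat_lit 532) (nat_lit 0) (XT.lf (nat_lit 0) (nat_lit 47086601944) (nat_lit 760) (nat_lit 46065264828) (nat_lit 76) (nat_lit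 56599039860) (nat_lit 88) (nat_lit 5) (nat_lit 98) (nat_lit 5) (nat_lit 89) (nat_lit 5) (nat_lit 339) (nat_lit 328) (nat_lit 113)) (XT.nd (nat_lit 78) (nat_lit 0) (nat_lit 0) (XT.lf (nat_lit 0) (nat_lit 28251570399) (nat_lit 532) (nat_lit 31615115730) (nat_lit 608) (nat_lit 94044454615) (nat_lit 81) (nat_lit 5) (nat_lit 88) (nat_lit 5) (nat_lit 89) (nat_lit 5) (nat_lit 340) (nat_lit 328) (nat_lit 112)) (XT.lf (nat_lit 0) (nat_lit 74593707410) (nat_lit 608) (nat_lit 50885024612) (nat_lit 76) (nat_lit 32735258201) (nat_lit 81) (nat_lit 5) (nat_lit 89) (nat_lit 5) (nat_lit 82) (nat_lit 5) (nat_lit 341) (nat_lit 328) (nat_lit 111))))) (XT.nd (nat_lit 156) (nat_lit 608) (nat_lit 0) (XT.nd (nat_lit 78) (nat_lit 0) (nat_lit 0) (XT.lf (nat_lit 0) (nat_lit 28006162286) (nat_lit 380) (nat_lit 63006269455) (nat_lit 456) (nat_lit 71671783127) (nat_lit 76) (nat_lit 5) (nat_lit 81) (nat_lit 5) (nat_lit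 82) (nat_lit 5) (nat_lit 342) (nat_lit 328) (nat_lit 110)) (XT.lf (nat_lit 0) (nat_lit 109168239107) (nat_lit 456) (nat_lit 54781086429) (nat_lit 76) (nat_lit 3382818148) (nat_lit 76) (nat_lit 5) (nat_lit 82) (nat_lit 5) (nat_lit 77) (nat_lit 5) (nat_lit 343) (nat_lit 328) (nat_lit 109))) (XT.nd (nat_lit 78) (nat_lit 304) (nat_lit 0) (XT.lf (nat_lit 0) (nat_lit 29006037528) (nat_lit 304) (nat_lit 100711385709) (nat_lit 380) (nat_lit 42420766646) (nat_lit 72) (nat_lit 5) (nat_lit 76) (nat_lit 5) (nat_lit 77) (nat_lit 5) (nat_lit 344) (nat_lit 328) (nat_lit 108)) (XT.nd (nat_lit 78) (nat_lit 304) (nat_lit 0) (XT.lf (nat_lit 0) (nat_lit 118884220943) (nat_lit 304) (nat_lit 33337426382) (nat_lit 380) (nat_lit 24916512282) (nat_lit 72) (nat_lit 5) (nat_lit 76) (nat_lit 5) (nat_lit 77) (nat_lit 5) (nat_lit 345) (nat_lit 328) (nat_lit 107)) (XT.lf (nat_lit 0) (nat_lit 31285339423) (nat_lit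 304) (nat_lit 145638039701) (nat_lit 380) (nat_lit 5411134109) (nat_lit 68) (nat_lit 5) (nat_lit 72) (nat_lit 5) (nat_lit 73) (nat_lit 5) (nat_lit 346) (nat_lit 328) (nat_lit 106))))))) (XT.nd (nat_lit 780) (nat_lit 456) (nat_lit 0) (XT.nd (nat_lit 390) (nat_lit 760) (nat_lit 0) (XT.nd (nat_lit 156) (nat_lit 304) (nat_lit 0) (XT.nd (nat_lit 78) (nat_lit 304) (nat_lit 0) (XT.lf (nat_lit 0) (nat_lit 16136287640) (nat_lit 380) (nat_lit 61215470161) (nat_lit 76) (nat_lit 110349708430) (nat_lit 67) (nat_lit 5) (nat_lit 72) (nat_lit 5) (nat_lit 68) (nat_lit 5) (nat_lit 347) (nat_lit 328) (nat_lit 105)) (XT.lf (nat_lit 0) (nat_lit 34112870179) (nat_lit 304) (nat_lit 4998811811) (nat_lit 380) (nat_lit 154194027186) (nat_lit 63) (nat_lit 5) (nat_lit 67) (nat_lit 5) (nat_lit 68) (nat_lit 5) (nat_lit 348) (nat_lit 328) (nat_lit 104))) (XT.nd (nat_lit 78) (nat_lit 304) (nat_lit 0) (XT.lf (nat_lit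 0) (nat_lit 65397481055) (nat_lit 380) (nat_lit 63930672403) (nat_lit 76) (nat_lit 69753929257) (nat_lit 63) (nat_lit 5) (nat_lit 68) (nat_lit 5) (nat_lit 64) (nat_lit 5) (nat_lit 349) (nat_lit 328) (nat_lit 103)) (XT.nd (nat_lit 78) (nat_lit 0) (nat_lit 0) (XT.lf (nat_lit 0) (nat_lit 37203228005) (nat_lit 304) (nat_lit 56457000907) (nat_lit 380) (nat_lit 111453913264) (nat_lit 59) (nat_lit 5) (nat_lit 63) (nat_lit 5) (nat_lit 64) (nat_lit 5) (nat_lit 350) (nat_lit 328) (nat_lit 102)) (XT.lf (nat_lit 0) (nat_lit 124749585192) (nat_lit 380) (nat_lit 66111390044) (nat_lit 76) (nat_lit 20516156004) (nat_lit 59) (nat_lit 5) (nat_lit 64) (nat_lit 5) (nat_lit 60) (nat_lit 5) (nat_lit 351) (nat_lit 328) (nat_lit 101))))) (XT.nd (nat_lit 156) (nat_lit 532) (nat_lit 0) (XT.nd (nat_lit 78) (nat_lit 0) (nat_lit 0) (XT.lf (nat_lit 0) (nat_lit 41170128712) (nat_lit 228) (nat_lit 117791460527) (nat_lit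 304) (nat_lit 58913271691) (nat_lit 56) (nat_lit 5) (nat_lit 59) (nat_lit 5) (nat_lit 60) (nat_lit 5) (nat_lit 352) (nat_lit 328) (nat_lit 100)) (XT.lf (nat_lit 0) (nat_lit 156110805933) (nat_lit 228) (nat_lit 39892893752) (nat_lit 304) (nat_lit 28637802269) (nat_lit 56) (nat_lit 5) (nat_lit 59) (nat_lit 5) (nat_lit 60) (nat_lit 5) (nat_lit 353) (nat_lit 328) (nat_lit 99))) (XT.nd (nat_lit 78) (nat_lit 228) (nat_lit 0) (XT.lf (nat_lit 0) (nat_lit 4443197274) (nat_lit 304) (nat_lit 185883940610) (nat_lit 76) (nat_lit 41347246033) (nat_lit 52) (nat_lit 5) (nat_lit 56) (nat_lit 5) (nat_lit 53) (nat_lit 5) (nat_lit 354) (nat_lit 328) (nat_lit 98)) (XT.nd (nat_lit 78) (nat_lit 228) (nat_lit 0) (XT.lf (nat_lit 0) (nat_lit 40049321785) (nat_lit 304) (nat_lit 71936644801) (nat_lit 76) (nat_lit 126957795276) (nat_lit 52) (nat_lit 5) (nat_lit 56) (nat_lit 5) (nat_lit 53) (nat_lit 5) (nat_lit 355)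 (nat_lit 328) (nat_lit 97)) (XT.lf (nat_lit 0) (nat_lit 49285305559) (nat_lit 228) (nat_lit 28919818550) (nat_lit 304) (nat_lit 168333016151) (nat_lit 49) (nat_lit 5) (nat_lit 52) (nat_lit 5) (nat_lit 53) (nat_lit 5) (nat_lit 356) (nat_lit 328) (nat_lit 96)))))) (XT.nd (nat_lit 38454) (nat_lit 0) (nat_lit 3876) (XT.nd (nat_lit 156) (nat_lit 228) (nat_lit 0) (XT.nd (nat_lit 78) (nat_lit 228) (nat_lit 0) (XT.lf (nat_lit 0) (nat_lit 120417083209) (nat_lit 304) (nat_lit 76315835040) (nat_lit 76) (nat_lit 57671901121) (nat_lit 49) (nat_lit 5) (nat_lit 53) (nat_lit 5) (nat_lit 50) (nat_lit 5) (nat_lit 357) (nat_lit 328) (nat_lit 95)) (XT.lf (nat_lit 0) (nat_lit 51853408978) (nat_lit 228) (nat_lit 114169801060) (nat_lit 304) (nat_lit 96577444031) (nat_lit 46) (nat_lit 5) (nat_lit 49) (nat_lit 5) (nat_lit 50) (nat_lit 5) (nat_lit 358) (nat_lit 328) (nat_lit 94))) (XT.nd (nat_lit 78) (nat_lit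 228) (nat_lit 0) (XT.lf (nat_lit 0) (nat_lit 189080487816) (nat_lit 228) (nat_lit 26121501029) (nat_lit 304) (nat_lit 55939674491) (nat_lit 46) (nat_lit 5) (nat_lit 49) (nat_lit 5) (nat_lit 50) (nat_lit 5) (nat_lit 359) (nat_lit 328) (nat_lit 93)) (XT.nd (nat_lit 78) (nat_lit 76) (nat_lit 0) (XT.lf (nat_lit 0) (nat_lit 53743605208) (nat_lit 152) (nat_lit 214970678791) (nat_lit 228) (nat_lit 11301710307) (nat_lit 44) (nat_lit 5) (nat_lit 46) (nat_lit 5) (nat_lit 47) (nat_lit 5) (nat_lit 360) (nat_lit 328) (nat_lit 92)) (XT.lf (nat_lit 0) (nat_lit 36270403849) (nat_lit 228) (nat_lit 91083412840) (nat_lit 76) (nat_lit 161860426571) (nat_lit 43) (nat_lit 5) (nat_lit 46) (nat_lit 5) (nat_lit 44) (nat_lit 5) (nat_lit 361) (nat_lit 328) (nat_lit 91))))) (XT.nd (nat_lit 234) (nat_lit 0) (nat_lit 0) (XT.nd (nat_lit 78) (nat_lit 0) (nat_lit 0) (XT.lf (nat_lit 0) (nat_lit 26882732768) (nat_lit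 0) (nat_lit 26882732768) (nat_lit 684) (nat_lit 5418991547) (nat_lit 94) (nat_lit 5) (nat_lit 94) (nat_lit 3) (nat_lit 103) (nat_lit 3) (nat_lit 329) (nat_lit 329) (nat_lit 122)) (XT.nd (nat_lit 78) (nat_lit 0) (nat_lit 0) (XT.lf (nat_lit 0) (nat_lit 110235476377) (nat_lit 684) (nat_lit 10354984920) (nat_lit 760) (nat_lit 736854331) (nat_lit 94) (nat_lit 5) (nat_lit 103) (nat_lit 3) (nat_lit 104) (nat_lit 5) (nat_lit 330) (nat_lit 329) (nat_lit 121)) (XT.lf (nat_lit 76) (nat_lit 47236197051) (nat_lit 0) (nat_lit 67457663735) (nat_lit 760) (nat_lit 9658846281) (nat_lit 95) (nat_lit 5) (nat_lit 94) (nat_lit 5) (nat_lit 104) (nat_lit 5) (nat_lit 331) (nat_lit 329) (nat_lit 120)))) (XT.nd (nat_lit 78) (nat_lit 0) (nat_lit 76) (XT.lf (nat_lit 76) (nat_lit 108066285197) (nat_lit 0) (nat_lit 11483978106) (nat_lit 760) (nat_lit 7970350306) (nat_lit 95) (nat_lit 5) (nat_lit 94) (nat_lit 5) (nat_lit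 104) (nat_lit 5) (nat_lit 332) (nat_lit 329) (nat_lit 119)) (XT.nd (nat_lit 78) (nat_lit 0) (nat_lit 0) (XT.lf (nat_lit 76) (nat_lit 41686731553) (nat_lit 0) (nat_lit 84351652063) (nat_lit 760) (nat_lit 4739087432) (nat_lit 96) (nat_lit 5) (nat_lit 95) (nat_lit 5) (nat_lit 105) (nat_lit 5) (nat_lit 333) (nat_lit 329) (nat_lit 118)) (XT.lf (nat_lit 76) (nat_lit 106365608618) (nat_lit 0) (nat_lit 26999751460) (nat_lit 760) (nat_lit 806089204) (nat_lit 96) (nat_lit 5) (nat_lit 95) (nat_lit 5) (nat_lit 105) (nat_lit 5) (nat_lit 334) (nat_lit 329) (nat_lit 117))))))))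
noncomputable def xc249 : XT := (XT.nd (nat_lit 1638) (nat_lit 456) (nat_lit 0) (XT.nd (nat_lit 780) (nat_lit 1824) (nat_lit 0) (XT.nd (nat_lit 390) (nat_lit 760) (nat_lit 0) (XT.nd (nat_lit 156) (nat_lit 0) (nat_lit 76) (XT.nd (nat_lit 78) (nat_lit 0) (nat_lit 0) (XT.lf (nat_lit 0) (nat_lit 4334670326) (nat_lit 760) (nat_lit 100534451003) (nat_lit 836) (nat_lit 32807536685) (nat_lit 86) (nat_lit 5) (nat_lit 96) (nat_lit 5) (nat_lit 97) (nat_lit 5) (nat_lit 335) (nat_lit 329) (nat_lit 116)) (XT.lf (nat_lit 0) (nat_lit 10626395463) (nat_lit 760) (nat_lit 35494292456) (nat_lit 836) (nat_lit 95189728030) (nat_lit 86) (nat_lit 5) (nat_lit 96) (nat_lit 5) (nat_lit 97) (nat_lit 5) (nat_lit 336) (nat_lit 329) (nat_lit 115))) (XT.nd (nat_lit 78) (nat_lit 0) (nat_lit 0) (XT.lf (nat_lit 0) (nat_lit 18013175273) (nat_lit 760) (nat_lit 111468959725) (nat_lit 836) (nat_lit 15604703718) (nat_lit 87)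 (nat_lit 5) (nat_lit 97) (nat_lit 5) (nat_lit 98) (nat_lit 5) (nat_lit 337) (nat_lit 329) (nat_lit 114)) (XT.nd (nat_lit 78) (nat_lit 0) (nat_lit 0) (XT.lf (nat_lit 0) (nat_lit 27136131082) (nat_lit 760) (nat_lit 42370188591) (nat_lit 836) (nat_lit 79477421436) (nat_lit 87) (nat_lit 5) (nat_lit 97) (nat_lit 5) (nat_lit 98) (nat_lit 5) (nat_lit 338) (nat_lit 329) (nat_lit 113)) (XT.lf (nat_lit 76) (nat_lit 31181356224) (nat_lit 0) (nat_lit 6020509506) (nat_lit 836) (nat_lit 115849291659) (nat_lit 88) (nat_lit 5) (nat_lit 87) (nat_lit 5) (nat_lit 98) (nat_lit 5) (nat_lit 339) (nat_lit 329) (nat_lit 112))))) (XT.nd (nat_lit 156) (nat_lit 380) (nat_lit 0) (XT.nd (nat_lit 78) (nat_lit 532) (nat_lit 0) (XT.lf (nat_lit 0) (nat_lit 49446774044) (nat_lit 760) (nat_lit 48363278854) (nat_lit 76) (nat_lit 59428097546) (nat_lit 88) (nat_lit 5) (nat_lit 98) (nat_lit 5) (nat_lit 89) (nat_lit 5) (nat_lit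 340) (nat_lit 329) (nat_lit 111)) (XT.lf (nat_lit 0) (nat_lit 29669313470) (nat_lit 532) (nat_lit 33196351411) (nat_lit 608) (nat_lit 98740741707) (nat_lit 81) (nat_lit 5) (nat_lit 88) (nat_lit 5) (nat_lit 89) (nat_lit 5) (nat_lit 341) (nat_lit 329) (nat_lit 110))) (XT.nd (nat_lit 78) (nat_lit 380) (nat_lit 0) (XT.lf (nat_lit 0) (nat_lit 78328761307) (nat_lit 608) (nat_lit 53424072759) (nat_lit 76) (nat_lit 34371578697) (nat_lit 81) (nat_lit 5) (nat_lit 89) (nat_lit 5) (nat_lit 82) (nat_lit 5) (nat_lit 342) (nat_lit 329) (nat_lit 109)) (XT.nd (nat_lit 78) (nat_lit 0) (nat_lit 0) (XT.lf (nat_lit 0) (nat_lit 29411589563) (nat_lit 380) (nat_lit 66156656573) (nat_lit 456) (nat_lit 75249911699) (nat_lit 76) (nat_lit 5) (nat_lit 81) (nat_lit 5) (nat_lit 82) (nat_lit 5) (nat_lit 343) (nat_lit 329) (nat_lit 108)) (XT.lf (nat_lit 0) (nat_lit 114631595497) (nat_lit 456) (nat_lit 57515009237) (nat_lit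 76) (nat_lit 3551891162) (nat_lit 76) (nat_lit 5) (nat_lit 82) (nat_lit 5) (nat_lit 77) (nat_lit 5) (nat_lit 344) (nat_lit 329) (nat_lit 107)))))) (XT.nd (nat_lit 390) (nat_lit 836) (nat_lit 0) (XT.nd (nat_lit 156) (nat_lit 684) (nat_lit 0) (XT.nd (nat_lit 78) (nat_lit 0) (nat_lit 0) (XT.lf (nat_lit 0) (nat_lit 30461388152) (nat_lit 304) (nat_lit 105746694058) (nat_lit 380) (nat_lit 44536770397) (nat_lit 72) (nat_lit 5) (nat_lit 76) (nat_lit 5) (nat_lit 77) (nat_lit 5) (nat_lit 345) (nat_lit 329) (nat_lit 106)) (XT.lf (nat_lit 0) (nat_lit 124833240321) (nat_lit 304) (nat_lit 35004049191) (nat_lit 380) (nat_lit 26157543056) (nat_lit 72) (nat_lit 5) (nat_lit 76) (nat_lit 5) (nat_lit 77) (nat_lit 5) (nat_lit 346) (nat_lit 329) (nat_lit 105))) (XT.nd (nat_lit 78) (nat_lit 380) (nat_lit 0) (XT.lf (nat_lit 0) (nat_lit 32854564584) (nat_lit 304) (nat_lit 152919407289) (nat_lit 380) (nat_lit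 5677039138) (nat_lit 68) (nat_lit 5) (nat_lit 72) (nat_lit 5) (nat_lit 73) (nat_lit 5) (nat_lit 347) (nat_lit 329) (nat_lit 104)) (XT.nd (nat_lit 78) (nat_lit 304) (nat_lit 0) (XT.lf (nat_lit 0) (nat_lit 16947390397) (nat_lit 380) (nat_lit 64271373720) (nat_lit 76) (nat_lit 115867554936) (nat_lit 67) (nat_lit 5) (nat_lit 72) (nat_lit 5) (nat_lit 68) (nat_lit 5) (nat_lit 348) (nat_lit 329) (nat_lit 103)) (XT.lf (nat_lit 0) (nat_lit 35823305090) (nat_lit 304) (nat_lit 5248119973) (nat_lit 380) (nat_lit 161899355840) (nat_lit 63) (nat_lit 5) (nat_lit 67) (nat_lit 5) (nat_lit 68) (nat_lit 5) (nat_lit 349) (nat_lit 329) (nat_lit 102))))) (XT.nd (nat_lit 234) (nat_lit 532) (nat_lit 0) (XT.nd (nat_lit 78) (nat_lit 304) (nat_lit 0) (XT.lf (nat_lit 0) (nat_lit 68671325439) (nat_lit 380) (nat_lit 67122448633) (nat_lit 76) (nat_lit 73242208755) (nat_lit 63) (nat_lit 5) (nat_lit 68) (nat_lit 5)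 (nat_lit 64) (nat_lit 5) (nat_lit 350) (nat_lit 329) (nat_lit 101)) (XT.nd (nat_lit 78) (nat_lit 0) (nat_lit 0) (XT.lf (nat_lit 0) (nat_lit 39068070064) (nat_lit 304) (nat_lit 59279024640) (nat_lit 380) (nat_lit 117022556619) (nat_lit 59) (nat_lit 5) (nat_lit 63) (nat_lit 5) (nat_lit 64) (nat_lit 5) (nat_lit 351) (nat_lit 329) (nat_lit 100)) (XT.lf (nat_lit 0) (nat_lit 130990747544) (nat_lit 380) (nat_lit 69412325528) (nat_lit 76) (nat_lit 21542725580) (nat_lit 59) (nat_lit 5) (nat_lit 64) (nat_lit 5) (nat_lit 60) (nat_lit 5) (nat_lit 352) (nat_lit 329) (nat_lit 99)))) (XT.nd (nat_lit 78) (nat_lit 304) (nat_lit 0) (XT.lf (nat_lit 0) (nat_lit 43233194424) (nat_lit 228) (nat_lit 123680053167) (nat_lit 304) (nat_lit 61855172683) (nat_lit 56) (nat_lit 5) (nat_lit 59) (nat_lit 5) (nat_lit 60) (nat_lit 5) (nat_lit 353) (nat_lit 329) (nat_lit 98)) (XT.nd (nat_lit 78) (nat_lit 304) (nat_lit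 0) (XT.lf (nat_lit 0) (nat_lit 163920688398) (nat_lit 228) (nat_lit 41886604739) (nat_lit 304) (nat_lit 30066108962) (nat_lit 56) (nat_lit 5) (nat_lit 59) (nat_lit 5) (nat_lit 60) (nat_lit 5) (nat_lit 354) (nat_lit 329) (nat_lit 97)) (XT.lf (nat_lit 0) (nat_lit 4668745097) (nat_lit 304) (nat_lit 195173591587) (nat_lit 76) (nat_lit 43415592921) (nat_lit 52) (nat_lit 5) (nat_lit 56) (nat_lit 5) (nat_lit 53) (nat_lit 5) (nat_lit 355) (nat_lit 329) (nat_lit 96))))))) (XT.nd (nat_lit 39000) (nat_lit 0) (nat_lit 2280) (XT.nd (nat_lit 38610) (nat_lit 0) (nat_lit 3648) (XT.nd (nat_lit 156) (nat_lit 228) (nat_lit 0) (XT.nd (nat_lit 78) (nat_lit 228) (nat_lit 0) (XT.lf (nat_lit 0) (nat_lit 42055014503) (nat_lit 304) (nat_lit 75529147466) (nat_lit 76) (nat_lit 133306622741) (nat_lit 52) (nat_lit 5) (nat_lit 56) (nat_lit 5) (nat_lit 53) (nat_lit 5) (nat_lit 356) (nat_lit 329) (nat_lit 95)) (XT.lf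 (nat_lit 0) (nat_lit 51753830580) (nat_lit 228) (nat_lit 30364689220) (nat_lit 304) (nat_lit 176746366770) (nat_lit 49) (nat_lit 5) (nat_lit 52) (nat_lit 5) (nat_lit 53) (nat_lit 5) (nat_lit 357) (nat_lit 329) (nat_lit 94))) (XT.nd (nat_lit 78) (nat_lit 228) (nat_lit 0) (XT.lf (nat_lit 0) (nat_lit 126440944014) (nat_lit 304) (nat_lit 80127433501) (nat_lit 76) (nat_lit 60556528941) (nat_lit 49) (nat_lit 5) (nat_lit 53) (nat_lit 5) (nat_lit 50) (nat_lit 5) (nat_lit 358) (nat_lit 329) (nat_lit 93)) (XT.nd (nat_lit 78) (nat_lit 0) (nat_lit 0) (XT.lf (nat_lit 0) (nat_lit 54450205084) (nat_lit 228) (nat_lit 119877093340) (nat_lit 304) (nat_lit 101403238573) (nat_lit 46) (nat_lit 5) (nat_lit 49) (nat_lit 5) (nat_lit 50) (nat_lit 5) (nat_lit 359) (nat_lit 329) (nat_lit 92)) (XT.lf (nat_lit 0) (nat_lit 198538441404) (nat_lit 228) (nat_lit 27426435344) (nat_lit 304) (nat_lit 58733727112) (nat_lit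 46) (nat_lit 5) (nat_lit 49) (nat_lit 5) (nat_lit 50) (nat_lit 5) (nat_lit 360) (nat_lit 329) (nat_lit 91))))) (XT.nd (nat_lit 156) (nat_lit 0) (nat_lit 0) (XT.nd (nat_lit 78) (nat_lit 0) (nat_lit 0) (XT.lf (nat_lit 0) (nat_lit 28229028797) (nat_lit 0) (nat_lit 28229028797) (nat_lit 684) (nat_lit 5685398733) (nat_lit 94) (nat_lit 5) (nat_lit 94) (nat_lit 3) (nat_lit 103) (nat_lit 3) (nat_lit 330) (nat_lit 330) (nat_lit 120)) (XT.lf (nat_lit 0) (nat_lit 115755412229) (nat_lit 684) (nat_lit 10868130898) (nat_lit 760) (nat_lit 769715569) (nat_lit 94) (nat_lit 5) (nat_lit 103) (nat_lit 3) (nat_lit 104) (nat_lit 5) (nat_lit 331) (nat_lit 330) (nat_lit 119))) (XT.nd (nat_lit 78) (nat_lit 0) (nat_lit 0) (XT.lf (nat_lit 76) (nat_lit 49602535925) (nat_lit 0) (nat_lit 70833861976) (nat_lit 760) (nat_lit 10133538399) (nat_lit 95) (nat_lit 5) (nat_lit 94) (nat_lit 5) (nat_lit 104) (nat_lit 5) (nat_lit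 332) (nat_lit 330) (nat_lit 118)) (XT.nd (nat_lit 78) (nat_lit 0) (nat_lit 76) (XT.lf (nat_lit 76) (nat_lit 113473912811) (nat_lit 0) (nat_lit 12061334205) (nat_lit 760) (nat_lit 8361010492) (nat_lit 95) (nat_lit 5) (nat_lit 94) (nat_lit 5) (nat_lit 104) (nat_lit 5) (nat_lit 333) (nat_lit 330) (nat_lit 117)) (XT.lf (nat_lit 76) (nat_lit 43775740956) (nat_lit 0) (nat_lit 88571702659) (nat_lit 760) (nat_lit 4968531321) (nat_lit 96) (nat_lit 5) (nat_lit 95) (nat_lit 5) (nat_lit 105) (nat_lit 5) (nat_lit 334) (nat_lit 330) (nat_lit 116)))))) (XT.nd (nat_lit 390) (nat_lit 760) (nat_lit 0) (XT.nd (nat_lit 156) (nat_lit 0) (nat_lit 0) (XT.nd (nat_lit 78) (nat_lit 684) (nat_lit 0) (XT.lf (nat_lit 76) (nat_lit 111688339358) (nat_lit 0) (nat_lit 28352089502) (nat_lit 760) (nat_lit 839240824) (nat_lit 96) (nat_lit 5) (nat_lit 95) (nat_lit 5) (nat_lit 105) (nat_lit 5) (nat_lit 335) (nat_lit 330)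 (nat_lit 115)) (XT.lf (nat_lit 0) (nat_lit 4558038065) (nat_lit 760) (nat_lit 105556182273) (nat_lit 836) (nat_lit 34445927960) (nat_lit 86) (nat_lit 5) (nat_lit 96) (nat_lit 5) (nat_lit 97) (nat_lit 5) (nat_lit 336) (nat_lit 330) (nat_lit 114))) (XT.nd (nat_lit 78) (nat_lit 0) (nat_lit 76) (XT.lf (nat_lit 0) (nat_lit 11164033544) (nat_lit 760) (nat_lit 37264253479) (nat_lit 836) (nat_lit 99947323424) (nat_lit 86) (nat_lit 5) (nat_lit 96) (nat_lit 5) (nat_lit 97) (nat_lit 5) (nat_lit 337) (nat_lit 330) (nat_lit 113)) (XT.nd (nat_lit 78) (nat_lit 0) (nat_lit 0) (XT.lf (nat_lit 0) (nat_lit 18919902424) (nat_lit 760) (nat_lit 117037394299) (nat_lit 836) (nat_lit 16383570619) (nat_lit 87) (nat_lit 5) (nat_lit 97) (nat_lit 5) (nat_lit 98) (nat_lit 5) (nat_lit 338) (nat_lit 330) (nat_lit 112)) (XT.lf (nat_lit 0) (nat_lit 28498717052) (nat_lit 760) (nat_lit 44483923342) (nat_lit 836) (nat_lit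 83449989379) (nat_lit 87) (nat_lit 5) (nat_lit 97) (nat_lit 5) (nat_lit 98) (nat_lit 5) (nat_lit 339) (nat_lit 330) (nat_lit 111))))) (XT.nd (nat_lit 234) (nat_lit 380) (nat_lit 0) (XT.nd (nat_lit 78) (nat_lit 456) (nat_lit 0) (XT.lf (nat_lit 76) (nat_lit 32745121703) (nat_lit 0) (nat_lit 6322414864) (nat_lit 836) (nat_lit 121635890844) (nat_lit 88) (nat_lit 5) (nat_lit 87) (nat_lit 5) (nat_lit 98) (nat_lit 5) (nat_lit 340) (nat_lit 330) (nat_lit 110)) (XT.nd (nat_lit 78) (nat_lit 532) (nat_lit 0) (XT.lf (nat_lit 0) (nat_lit 51924411615) (nat_lit 760) (nat_lit 50776681603) (nat_lit 76) (nat_lit 62398691260) (nat_lit 88) (nat_lit 5) (nat_lit 98) (nat_lit 5) (nat_lit 89) (nat_lit 5) (nat_lit 341) (nat_lit 330) (nat_lit 109)) (XT.lf (nat_lit 0) (nat_lit 31157463543) (nat_lit 532) (nat_lit 34856604260) (nat_lit 608) (nat_lit 103672394993) (nat_lit 81) (nat_lit 5) (nat_lit 88) (nat_lit 5)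 (nat_lit 89) (nat_lit 5) (nat_lit 342) (nat_lit 330) (nat_lit 108)))) (XT.nd (nat_lit 78) (nat_lit 380) (nat_lit 0) (XT.lf (nat_lit 0) (nat_lit 82250068784) (nat_lit 608) (nat_lit 56090557048) (nat_lit 76) (nat_lit 36089756350) (nat_lit 81) (nat_lit 5) (nat_lit 89) (nat_lit 5) (nat_lit 82) (nat_lit 5) (nat_lit 343) (nat_lit 330) (nat_lit 107)) (XT.nd (nat_lit 78) (nat_lit 0) (nat_lit 0) (XT.lf (nat_lit 0) (nat_lit 30886812272) (nat_lit 380) (nat_lit 69464556199) (nat_lit 456) (nat_lit 79007454373) (nat_lit 76) (nat_lit 5) (nat_lit 81) (nat_lit 5) (nat_lit 82) (nat_lit 5) (nat_lit 344) (nat_lit 330) (nat_lit 106)) (XT.lf (nat_lit 0) (nat_lit 120367660021) (nat_lit 456) (nat_lit 60386105264) (nat_lit 76) (nat_lit 3729424139) (nat_lit 76) (nat_lit 5) (nat_lit 82) (nat_lit 5) (nat_lit 77) (nat_lit 5) (nat_lit 345) (nat_lit 330) (nat_lit 105))))))))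
noncomputable def xc250 : XT := (XT.nd (nat_lit 39858) (nat_lit 0) (nat_lit 760) (XT.nd (nat_lit 780) (nat_lit 760) (nat_lit 0) (XT.nd (nat_lit 390) (nat_lit 532) (nat_lit 0) (XT.nd (nat_lit 156) (nat_lit 684) (nat_lit 0) (XT.nd (nat_lit 78) (nat_lit 0) (nat_lit 0) (XT.lf (nat_lit 0) (nat_lit 31989036922) (nat_lit 304) (nat_lit 111033792084) (nat_lit 380) (nat_lit 46759042402) (nat_lit 72) (nat_lit 5) (nat_lit 76) (nat_lit 5) (nat_lit 77) (nat_lit 5) (nat_lit 346) (nat_lit 330) (nat_lit 104)) (XT.lf (nat_lit 0) (nat_lit 131079263635) (nat_lit 304) (nat_lit 36754026244) (nat_lit 380) (nat_lit 27461071148) (nat_lit 72) (nat_lit 5) (nat_lit 76) (nat_lit 5) (nat_lit 77) (nat_lit 5) (nat_lit 347) (nat_lit 330) (nat_lit 103))) (XT.nd (nat_lit 78) (nat_lit 380) (nat_lit 0) (XT.lf (nat_lit 0) (nat_lit 34501790036) (nat_lit 304) (nat_lit 160564892939) (nat_lit 380) (nat_lit 5956671888) (nat_lit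 68) (nat_lit 5) (nat_lit 72) (nat_lit 5) (nat_lit 73) (nat_lit 5) (nat_lit 348) (nat_lit 330) (nat_lit 102)) (XT.nd (nat_lit 78) (nat_lit 304) (nat_lit 0) (XT.lf (nat_lit 0) (nat_lit 17798649599) (nat_lit 380) (nat_lit 67480525217) (nat_lit 76) (nat_lit 121661260197) (nat_lit 67) (nat_lit 5) (nat_lit 72) (nat_lit 5) (nat_lit 68) (nat_lit 5) (nat_lit 349) (nat_lit 330) (nat_lit 101)) (XT.lf (nat_lit 0) (nat_lit 37618816288) (nat_lit 304) (nat_lit 5509952340) (nat_lit 380) (nat_lit 169990357460) (nat_lit 63) (nat_lit 5) (nat_lit 67) (nat_lit 5) (nat_lit 68) (nat_lit 5) (nat_lit 350) (nat_lit 330) (nat_lit 100))))) (XT.nd (nat_lit 156) (nat_lit 228) (nat_lit 0) (XT.nd (nat_lit 78) (nat_lit 304) (nat_lit 0) (XT.lf (nat_lit 0) (nat_lit 72108492918) (nat_lit 380) (nat_lit 70474255971) (nat_lit 76) (nat_lit 76904848023) (nat_lit 63) (nat_lit 5) (nat_lit 68) (nat_lit 5) (nat_lit 64) (nat_lit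 5) (nat_lit 351) (nat_lit 330) (nat_lit 99)) (XT.lf (nat_lit 0) (nat_lit 41025719062) (nat_lit 304) (nat_lit 62242226383) (nat_lit 380) (nat_lit 122870008887) (nat_lit 59) (nat_lit 5) (nat_lit 63) (nat_lit 5) (nat_lit 64) (nat_lit 5) (nat_lit 352) (nat_lit 330) (nat_lit 98))) (XT.nd (nat_lit 78) (nat_lit 228) (nat_lit 0) (XT.lf (nat_lit 0) (nat_lit 137543625594) (nat_lit 380) (nat_lit 72878738612) (nat_lit 76) (nat_lit 22620552813) (nat_lit 59) (nat_lit 5) (nat_lit 64) (nat_lit 5) (nat_lit 60) (nat_lit 5) (nat_lit 353) (nat_lit 330) (nat_lit 97)) (XT.nd (nat_lit 78) (nat_lit 0) (nat_lit 0) (XT.lf (nat_lit 0) (nat_lit 45398989543) (nat_lit 228) (nat_lit 129863166585) (nat_lit 304) (nat_lit 64944518535) (nat_lit 56) (nat_lit 5) (nat_lit 59) (nat_lit 5) (nat_lit 60) (nat_lit 5) (nat_lit 354) (nat_lit 330) (nat_lit 96)) (XT.lf (nat_lit 0) (nat_lit 172120661293) (nat_lit 228) (nat_lit 43980088081)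 (nat_lit 304) (nat_lit 31566164141) (nat_lit 56) (nat_lit 5) (nat_lit 59) (nat_lit 5) (nat_lit 60) (nat_lit 5) (nat_lit 355) (nat_lit 330) (nat_lit 95)))))) (XT.nd (nat_lit 38688) (nat_lit 0) (nat_lit 3648) (XT.nd (nat_lit 156) (nat_lit 456) (nat_lit 0) (XT.nd (nat_lit 78) (nat_lit 0) (nat_lit 0) (XT.lf (nat_lit 0) (nat_lit 4905255332) (nat_lit 304) (nat_lit 204928147761) (nat_lit 76) (nat_lit 45587265616) (nat_lit 52) (nat_lit 5) (nat_lit 56) (nat_lit 5) (nat_lit 53) (nat_lit 5) (nat_lit 356) (nat_lit 330) (nat_lit 94)) (XT.lf (nat_lit 0) (nat_lit 44160691876) (nat_lit 304) (nat_lit 79301677786) (nat_lit 76) (nat_lit 139972804401) (nat_lit 52) (nat_lit 5) (nat_lit 56) (nat_lit 5) (nat_lit 53) (nat_lit 5) (nat_lit 357) (nat_lit 330) (nat_lit 93))) (XT.nd (nat_lit 78) (nat_lit 228) (nat_lit 0) (XT.lf (nat_lit 0) (nat_lit 54345385822) (nat_lit 228) (nat_lit 31881907574) (nat_lit 304) (nat_lit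 185580691740) (nat_lit 49) (nat_lit 5) (nat_lit 52) (nat_lit 5) (nat_lit 53) (nat_lit 5) (nat_lit 358) (nat_lit 330) (nat_lit 92)) (XT.nd (nat_lit 78) (nat_lit 228) (nat_lit 0) (XT.lf (nat_lit 0) (nat_lit 132765718330) (nat_lit 304) (nat_lit 84130001738) (nat_lit 76) (nat_lit 63585292135) (nat_lit 49) (nat_lit 5) (nat_lit 53) (nat_lit 5) (nat_lit 50) (nat_lit 5) (nat_lit 359) (nat_lit 330) (nat_lit 91)) (XT.lf (nat_lit 0) (nat_lit 57176457430) (nat_lit 228) (nat_lit 125869861591) (nat_lit 304) (nat_lit 106470608974) (nat_lit 46) (nat_lit 5) (nat_lit 49) (nat_lit 5) (nat_lit 50) (nat_lit 5) (nat_lit 360) (nat_lit 330) (nat_lit 90))))) (XT.nd (nat_lit 156) (nat_lit 0) (nat_lit 0) (XT.nd (nat_lit 78) (nat_lit 0) (nat_lit 0) (XT.lf (nat_lit 0) (nat_lit 29642438868) (nat_lit 0) (nat_lit 29642438868) (nat_lit 684) (nat_lit 5965548586) (nat_lit 94) (nat_lit 5) (nat_lit 94) (nat_lit 3) (nat_lit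 103) (nat_lit 3) (nat_lit 331) (nat_lit 331) (nat_lit 118)) (XT.lf (nat_lit 0) (nat_lit 121550586044) (nat_lit 684) (nat_lit 11407362143) (nat_lit 760) (nat_lit 804590028) (nat_lit 94) (nat_lit 5) (nat_lit 103) (nat_lit 3) (nat_lit 104) (nat_lit 5) (nat_lit 332) (nat_lit 331) (nat_lit 117))) (XT.nd (nat_lit 78) (nat_lit 0) (nat_lit 0) (XT.lf (nat_lit 76) (nat_lit 52086770678) (nat_lit 0) (nat_lit 74378561925) (nat_lit 760) (nat_lit 10632732148) (nat_lit 95) (nat_lit 5) (nat_lit 94) (nat_lit 5) (nat_lit 104) (nat_lit 5) (nat_lit 333) (nat_lit 331) (nat_lit 116)) (XT.nd (nat_lit 78) (nat_lit 0) (nat_lit 76) (XT.lf (nat_lit 76) (nat_lit 119151520791) (nat_lit 0) (nat_lit 12667264583) (nat_lit 760) (nat_lit 8771934187) (nat_lit 95) (nat_lit 5) (nat_lit 94) (nat_lit 5) (nat_lit 104) (nat_lit 5) (nat_lit 334) (nat_lit 331) (nat_lit 115)) (XT.lf (nat_lit 76) (nat_lit 45968766393) (nat_lit 0)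 (nat_lit 93002526334) (nat_lit 760) (nat_lit 5210145659) (nat_lit 96) (nat_lit 5) (nat_lit 95) (nat_lit 5) (nat_lit 105) (nat_lit 5) (nat_lit 335) (nat_lit 331) (nat_lit 114))))))) (XT.nd (nat_lit 780) (nat_lit 1520) (nat_lit 0) (XT.nd (nat_lit 390) (nat_lit 760) (nat_lit 0) (XT.nd (nat_lit 156) (nat_lit 0) (nat_lit 0) (XT.nd (nat_lit 78) (nat_lit 684) (nat_lit 0) (XT.lf (nat_lit 76) (nat_lit 117276792888) (nat_lit 0) (nat_lit 29771825923) (nat_lit 760) (nat_lit 874715029) (nat_lit 96) (nat_lit 5) (nat_lit 95) (nat_lit 5) (nat_lit 105) (nat_lit 5) (nat_lit 336) (nat_lit 331) (nat_lit 113)) (XT.lf (nat_lit 0) (nat_lit 4791957405) (nat_lit 760) (nat_lit 110829464148) (nat_lit 836) (nat_lit 36166423398) (nat_lit 86) (nat_lit 5) (nat_lit 96) (nat_lit 5) (nat_lit 97) (nat_lit 5) (nat_lit 337) (nat_lit 331) (nat_lit 112))) (XT.nd (nat_lit 78) (nat_lit 0) (nat_lit 76) (XT.lf (nat_lit 0) (nat_lit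 11727966113) (nat_lit 760) (nat_lit 39123154497) (nat_lit 836) (nat_lit 104942974395) (nat_lit 86) (nat_lit 5) (nat_lit 96) (nat_lit 5) (nat_lit 97) (nat_lit 5) (nat_lit 338) (nat_lit 331) (nat_lit 111)) (XT.nd (nat_lit 78) (nat_lit 0) (nat_lit 0) (XT.lf (nat_lit 0) (nat_lit 19871401751) (nat_lit 760) (nat_lit 122884716702) (nat_lit 836) (nat_lit 17201508075) (nat_lit 87) (nat_lit 5) (nat_lit 97) (nat_lit 5) (nat_lit 98) (nat_lit 5) (nat_lit 339) (nat_lit 331) (nat_lit 110)) (XT.lf (nat_lit 0) (nat_lit 29928895005) (nat_lit 760) (nat_lit 46703788736) (nat_lit 836) (nat_lit 87621306872) (nat_lit 87) (nat_lit 5) (nat_lit 97) (nat_lit 5) (nat_lit 98) (nat_lit 5) (nat_lit 340) (nat_lit 331) (nat_lit 109))))) (XT.nd (nat_lit 156) (nat_lit 836) (nat_lit 0) (XT.nd (nat_lit 78) (nat_lit 0) (nat_lit 76) (XT.lf (nat_lit 76) (nat_lit 34386638710) (nat_lit 0) (nat_lit 6639333686) (nat_lit 836) (nat_lit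 127712365297) (nat_lit 88) (nat_lit 5) (nat_lit 87) (nat_lit 5) (nat_lit 98) (nat_lit 5) (nat_lit 341) (nat_lit 331) (nat_lit 108)) (XT.lf (nat_lit 0) (nat_lit 54525438426) (nat_lit 760) (nat_lit 53311197140) (nat_lit 76) (nat_lit 65517890075) (nat_lit 88) (nat_lit 5) (nat_lit 98) (nat_lit 5) (nat_lit 89) (nat_lit 5) (nat_lit 342) (nat_lit 331) (nat_lit 107))) (XT.nd (nat_lit 78) (nat_lit 380) (nat_lit 0) (XT.lf (nat_lit 0) (nat_lit 32719585609) (nat_lit 532) (nat_lit 36599829283) (nat_lit 608) (nat_lit 108851131478) (nat_lit 81) (nat_lit 5) (nat_lit 88) (nat_lit 5) (nat_lit 89) (nat_lit 5) (nat_lit 343) (nat_lit 331) (nat_lit 106)) (XT.nd (nat_lit 78) (nat_lit 380) (nat_lit 0) (XT.lf (nat_lit 0) (nat_lit 86366988923) (nat_lit 608) (nat_lit 58890804311) (nat_lit 76) (nat_lit 37893880192) (nat_lit 81) (nat_lit 5) (nat_lit 89) (nat_lit 5) (nat_lit 82) (nat_lit 5) (nat_lit 344) (nat_lit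 331) (nat_lit 105)) (XT.lf (nat_lit 0) (nat_lit 32435364433) (nat_lit 380) (nat_lit 72937844597) (nat_lit 456) (nat_lit 82953334656) (nat_lit 76) (nat_lit 5) (nat_lit 81) (nat_lit 5) (nat_lit 82) (nat_lit 5) (nat_lit 345) (nat_lit 331) (nat_lit 104)))))) (XT.nd (nat_lit 390) (nat_lit 836) (nat_lit 0) (XT.nd (nat_lit 156) (nat_lit 380) (nat_lit 0) (XT.nd (nat_lit 78) (nat_lit 304) (nat_lit 0) (XT.lf (nat_lit 0) (nat_lit 126390110821) (nat_lit 456) (nat_lit 63401188819) (nat_lit 76) (nat_lit 3915839490) (nat_lit 76) (nat_lit 5) (nat_lit 82) (nat_lit 5) (nat_lit 77) (nat_lit 5) (nat_lit 346) (nat_lit 331) (nat_lit 103)) (XT.lf (nat_lit 0) (nat_lit 33592642385) (nat_lit 304) (nat_lit 116585267015) (nat_lit 380) (nat_lit 49092852559) (nat_lit 72) (nat_lit 5) (nat_lit 76) (nat_lit 5) (nat_lit 77) (nat_lit 5) (nat_lit 347) (nat_lit 331) (nat_lit 102))) (XT.nd (nat_lit 78) (nat_lit 380) (nat_lit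 0) (XT.lf (nat_lit 0) (nat_lit 137637182642) (nat_lit 304) (nat_lit 38591523106) (nat_lit 380) (nat_lit 28830179978) (nat_lit 72) (nat_lit 5) (nat_lit 76) (nat_lit 5) (nat_lit 77) (nat_lit 5) (nat_lit 348) (nat_lit 331) (nat_lit 101)) (XT.nd (nat_lit 78) (nat_lit 76) (nat_lit 0) (XT.lf (nat_lit 0) (nat_lit 36230958653) (nat_lit 304) (nat_lit 168592697937) (nat_lit 380) (nat_lit 6250678537) (nat_lit 68) (nat_lit 5) (nat_lit 72) (nat_lit 5) (nat_lit 73) (nat_lit 5) (nat_lit 349) (nat_lit 331) (nat_lit 100)) (XT.lf (nat_lit 0) (nat_lit 18692110135) (nat_lit 380) (nat_lit 70850544958) (nat_lit 76) (nat_lit 127744620272) (nat_lit 67) (nat_lit 5) (nat_lit 72) (nat_lit 5) (nat_lit 68) (nat_lit 5) (nat_lit 350) (nat_lit 331) (nat_lit 99))))) (XT.nd (nat_lit 234) (nat_lit 228) (nat_lit 0) (XT.nd (nat_lit 78) (nat_lit 304) (nat_lit 0) (XT.lf (nat_lit 0) (nat_lit 39503699001) (nat_lit 304) (nat_lit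 5784929656) (nat_lit 380) (nat_lit 178486277897) (nat_lit 63) (nat_lit 5) (nat_lit 67) (nat_lit 5) (nat_lit 68) (nat_lit 5) (nat_lit 351) (nat_lit 331) (nat_lit 98)) (XT.nd (nat_lit 78) (nat_lit 304) (nat_lit 0) (XT.lf (nat_lit 0) (nat_lit 75717183965) (nat_lit 380) (nat_lit 73994054853) (nat_lit 76) (nat_lit 80750570089) (nat_lit 63) (nat_lit 5) (nat_lit 68) (nat_lit 5) (nat_lit 64) (nat_lit 5) (nat_lit 352) (nat_lit 331) (nat_lit 97)) (XT.lf (nat_lit 0) (nat_lit 43080855804) (nat_lit 304) (nat_lit 65353657893) (nat_lit 380) (nat_lit 129010175487) (nat_lit 59) (nat_lit 5) (nat_lit 63) (nat_lit 5) (nat_lit 64) (nat_lit 5) (nat_lit 353) (nat_lit 331) (nat_lit 96)))) (XT.nd (nat_lit 78) (nat_lit 228) (nat_lit 0) (XT.lf (nat_lit 0) (nat_lit 144423836963) (nat_lit 380) (nat_lit 76518863124) (nat_lit 76) (nat_lit 23752207169) (nat_lit 59) (nat_lit 5) (nat_lit 64) (nat_lit 5) (nat_lit 60)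 (nat_lit 5) (nat_lit 354) (nat_lit 331) (nat_lit 95)) (XT.nd (nat_lit 78) (nat_lit 0) (nat_lit 0) (XT.lf (nat_lit 0) (nat_lit 47672689949) (nat_lit 228) (nat_lit 136355518348) (nat_lit 304) (nat_lit 68188648968) (nat_lit 56) (nat_lit 5) (nat_lit 59) (nat_lit 5) (nat_lit 60) (nat_lit 5) (nat_lit 355) (nat_lit 331) (nat_lit 94)) (XT.lf (nat_lit 0) (nat_lit 180730266670) (nat_lit 228) (nat_lit 46178324326) (nat_lit 304) (nat_lit 33141524259) (nat_lit 56) (nat_lit 5) (nat_lit 59) (nat_lit 5) (nat_lit 60) (nat_lit 5) (nat_lit 356) (nat_lit 331) (nat_lit 93))))))))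
noncomputable def xc251 : XT := (XT.nd (nat_lit 40092) (nat_lit 0) (nat_lit 228) (XT.nd (nat_lit 39234) (nat_lit 0) (nat_lit 1748) (XT.nd (nat_lit 38844) (nat_lit 0) (nat_lit 2812) (XT.nd (nat_lit 156) (nat_lit 228) (nat_lit 0) (XT.nd (nat_lit 78) (nat_lit 0) (nat_lit 0) (XT.lf (nat_lit 0) (nat_lit 5153305382) (nat_lit 304) (nat_lit 215170815099) (nat_lit 76) (nat_lit 47867438918) (nat_lit 52) (nat_lit 5) (nat_lit 56) (nat_lit 5) (nat_lit 53) (nat_lit 5) (nat_lit 357) (nat_lit 331) (nat_lit 92)) (XT.lf (nat_lit 0) (nat_lit 46371381025) (nat_lit 304) (nat_lit 83263199723) (nat_lit 76) (nat_lit 146972216070) (nat_lit 52) (nat_lit 5) (nat_lit 56) (nat_lit 5) (nat_lit 53) (nat_lit 5) (nat_lit 358) (nat_lit 331) (nat_lit 91))) (XT.nd (nat_lit 38532) (nat_lit 0) (nat_lit 3420) (XT.lf (nat_lit 0) (nat_lit 57066159615) (nat_lit 228) (nat_lit 33475081314) (nat_lit 304) (nat_lit 194857011254)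 (nat_lit 49) (nat_lit 5) (nat_lit 52) (nat_lit 5) (nat_lit 53) (nat_lit 5) (nat_lit 359) (nat_lit 331) (nat_lit 90)) (XT.nd (nat_lit 78) (nat_lit 0) (nat_lit 0) (XT.lf (nat_lit 0) (nat_lit 31126337347) (nat_lit 0) (nat_lit 31126337347) (nat_lit 684) (nat_lit 6260088978) (nat_lit 94) (nat_lit 5) (nat_lit 94) (nat_lit 3) (nat_lit 103) (nat_lit 3) (nat_lit 332) (nat_lit 332) (nat_lit 116)) (XT.lf (nat_lit 0) (nat_lit 127634830271) (nat_lit 684) (nat_lit 11973943130) (nat_lit 760) (nat_lit 841543957) (nat_lit 94) (nat_lit 5) (nat_lit 103) (nat_lit 3) (nat_lit 104) (nat_lit 5) (nat_lit 333) (nat_lit 332) (nat_lit 115))))) (XT.nd (nat_lit 156) (nat_lit 608) (nat_lit 0) (XT.nd (nat_lit 78) (nat_lit 0) (nat_lit 0) (XT.lf (nat_lit 76) (nat_lit 54694835249) (nat_lit 0) (nat_lit 78100217324) (nat_lit 760) (nat_lit 11157581299) (nat_lit 95) (nat_lit 5) (nat_lit 94) (nat_lit 5) (nat_lit 104) (nat_lit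 5) (nat_lit 334) (nat_lit 332) (nat_lit 114)) (XT.lf (nat_lit 76) (nat_lit 125112645437) (nat_lit 0) (nat_lit 13303225244) (nat_lit 760) (nat_lit 9204066652) (nat_lit 95) (nat_lit 5) (nat_lit 94) (nat_lit 5) (nat_lit 104) (nat_lit 5) (nat_lit 335) (nat_lit 332) (nat_lit 113))) (XT.nd (nat_lit 78) (nat_lit 684) (nat_lit 0) (XT.lf (nat_lit 76) (nat_lit 48271049058) (nat_lit 0) (nat_lit 97654683075) (nat_lit 760) (nat_lit 5464474050) (nat_lit 96) (nat_lit 5) (nat_lit 95) (nat_lit 5) (nat_lit 105) (nat_lit 5) (nat_lit 336) (nat_lit 332) (nat_lit 112)) (XT.nd (nat_lit 78) (nat_lit 684) (nat_lit 0) (XT.lf (nat_lit 76) (nat_lit 123144293813) (nat_lit 0) (nat_lit 31262350956) (nat_lit 760) (nat_lit 912566121) (nat_lit 96) (nat_lit 5) (nat_lit 95) (nat_lit 5) (nat_lit 105) (nat_lit 5) (nat_lit 337) (nat_lit 332) (nat_lit 111)) (XT.lf (nat_lit 0) (nat_lit 5037013267) (nat_lit 760) (nat_lit 116366831017)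 (nat_lit 836) (nat_lit 37973111044) (nat_lit 86) (nat_lit 5) (nat_lit 96) (nat_lit 5) (nat_lit 97) (nat_lit 5) (nat_lit 338) (nat_lit 332) (nat_lit 110)))))) (XT.nd (nat_lit 390) (nat_lit 1064) (nat_lit 0) (XT.nd (nat_lit 156) (nat_lit 0) (nat_lit 76) (XT.nd (nat_lit 78) (nat_lit 0) (nat_lit 76) (XT.lf (nat_lit 0) (nat_lit 12319562506) (nat_lit 760) (nat_lit 41075401423) (nat_lit 836) (nat_lit 110188567377) (nat_lit 86) (nat_lit 5) (nat_lit 96) (nat_lit 5) (nat_lit 97) (nat_lit 5) (nat_lit 339) (nat_lit 332) (nat_lit 109)) (XT.lf (nat_lit 0) (nat_lit 20869964315) (nat_lit 760) (nat_lit 129024827991) (nat_lit 836) (nat_lit 18060457787) (nat_lit 87) (nat_lit 5) (nat_lit 97) (nat_lit 5) (nat_lit 98) (nat_lit 5) (nat_lit 340) (nat_lit 332) (nat_lit 108))) (XT.nd (nat_lit 78) (nat_lit 0) (nat_lit 0) (XT.lf (nat_lit 0) (nat_lit 31430094496) (nat_lit 760) (nat_lit 49035050033) (nat_lit 836)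 (nat_lit 92001300128) (nat_lit 87) (nat_lit 5) (nat_lit 97) (nat_lit 5) (nat_lit 98) (nat_lit 5) (nat_lit 341) (nat_lit 332) (nat_lit 107)) (XT.nd (nat_lit 78) (nat_lit 0) (nat_lit 76) (XT.lf (nat_lit 76) (nat_lit 36109835428) (nat_lit 0) (nat_lit 6972024252) (nat_lit 836) (nat_lit 134093158085) (nat_lit 88) (nat_lit 5) (nat_lit 87) (nat_lit 5) (nat_lit 98) (nat_lit 5) (nat_lit 342) (nat_lit 332) (nat_lit 106)) (XT.lf (nat_lit 0) (nat_lit 57256069740) (nat_lit 760) (nat_lit 55972839952) (nat_lit 76) (nat_lit 68793117233) (nat_lit 88) (nat_lit 5) (nat_lit 98) (nat_lit 5) (nat_lit 89) (nat_lit 5) (nat_lit 343) (nat_lit 332) (nat_lit 105))))) (XT.nd (nat_lit 234) (nat_lit 304) (nat_lit 0) (XT.nd (nat_lit 78) (nat_lit 380) (nat_lit 0) (XT.lf (nat_lit 0) (nat_lit 34359418757) (nat_lit 532) (nat_lit 38430178852) (nat_lit 608) (nat_lit 114289258787) (nat_lit 81) (nat_lit 5) (nat_lit 88) (nat_lit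 5) (nat_lit 89) (nat_lit 5) (nat_lit 344) (nat_lit 332) (nat_lit 104)) (XT.nd (nat_lit 78) (nat_lit 380) (nat_lit 0) (XT.lf (nat_lit 0) (nat_lit 90689344447) (nat_lit 608) (nat_lit 61831461906) (nat_lit 76) (nat_lit 39788244066) (nat_lit 81) (nat_lit 5) (nat_lit 89) (nat_lit 5) (nat_lit 82) (nat_lit 5) (nat_lit 345) (nat_lit 332) (nat_lit 103)) (XT.lf (nat_lit 0) (nat_lit 34060952652) (nat_lit 380) (nat_lit 76584791782) (nat_lit 456) (nat_lit 87096926616) (nat_lit 76) (nat_lit 5) (nat_lit 81) (nat_lit 5) (nat_lit 82) (nat_lit 5) (nat_lit 346) (nat_lit 332) (nat_lit 102)))) (XT.nd (nat_lit 78) (nat_lit 304) (nat_lit 0) (XT.lf (nat_lit 0) (nat_lit 132713305975) (nat_lit 456) (nat_lit 66567419045) (nat_lit 76) (nat_lit 4111580802) (nat_lit 76) (nat_lit 5) (nat_lit 82) (nat_lit 5) (nat_lit 77) (nat_lit 5) (nat_lit 347) (nat_lit 332) (nat_lit 101)) (XT.nd (nat_lit 78) (nat_lit 0) (nat_lit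 0) (XT.lf (nat_lit 0) (nat_lit 35276041957) (nat_lit 304) (nat_lit 122414335651) (nat_lit 380) (nat_lit 51543738304) (nat_lit 72) (nat_lit 5) (nat_lit 76) (nat_lit 5) (nat_lit 77) (nat_lit 5) (nat_lit 348) (nat_lit 332) (nat_lit 100)) (XT.lf (nat_lit 0) (nat_lit 144522629824) (nat_lit 304) (nat_lit 40520913818) (nat_lit 380) (nat_lit 30268110994) (nat_lit 72) (nat_lit 5) (nat_lit 76) (nat_lit 5) (nat_lit 77) (nat_lit 5) (nat_lit 349) (nat_lit 332) (nat_lit 99))))))) (XT.nd (nat_lit 39390) (nat_lit 0) (nat_lit 2584) (XT.nd (nat_lit 390) (nat_lit 532) (nat_lit 0) (XT.nd (nat_lit 156) (nat_lit 608) (nat_lit 0) (XT.nd (nat_lit 78) (nat_lit 76) (nat_lit 0) (XT.lf (nat_lit 0) (nat_lit 38046206463) (nat_lit 304) (nat_lit 177021934058) (nat_lit 380) (nat_lit 6559741311) (nat_lit 68) (nat_lit 5) (nat_lit 72) (nat_lit 5) (nat_lit 73) (nat_lit 5) (nat_lit 350) (nat_lit 332) (nat_lit 98)) (XT.lf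 (nat_lit 0) (nat_lit 19629915693) (nat_lit 380) (nat_lit 74389438175) (nat_lit 76) (nat_lit 134132120732) (nat_lit 67) (nat_lit 5) (nat_lit 72) (nat_lit 5) (nat_lit 68) (nat_lit 5) (nat_lit 351) (nat_lit 332) (nat_lit 97))) (XT.nd (nat_lit 78) (nat_lit 304) (nat_lit 0) (XT.lf (nat_lit 0) (nat_lit 41482459369) (nat_lit 304) (nat_lit 6073704211) (nat_lit 380) (nat_lit 187407328812) (nat_lit 63) (nat_lit 5) (nat_lit 67) (nat_lit 5) (nat_lit 68) (nat_lit 5) (nat_lit 352) (nat_lit 332) (nat_lit 96)) (XT.nd (nat_lit 78) (nat_lit 304) (nat_lit 0) (XT.lf (nat_lit 0) (nat_lit 79506005885) (nat_lit 380) (nat_lit 77690207557) (nat_lit 76) (nat_lit 84788533663) (nat_lit 63) (nat_lit 5) (nat_lit 68) (nat_lit 5) (nat_lit 64) (nat_lit 5) (nat_lit 353) (nat_lit 332) (nat_lit 95)) (XT.lf (nat_lit 0) (nat_lit 45238391374) (nat_lit 304) (nat_lit 68620724180) (nat_lit 380) (nat_lit 135457660367) (nat_lit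 59) (nat_lit 5) (nat_lit 63) (nat_lit 5) (nat_lit 64) (nat_lit 5) (nat_lit 354) (nat_lit 332) (nat_lit 94))))) (XT.nd (nat_lit 156) (nat_lit 304) (nat_lit 0) (XT.nd (nat_lit 78) (nat_lit 228) (nat_lit 0) (XT.lf (nat_lit 0) (nat_lit 151647777192) (nat_lit 380) (nat_lit 80341348304) (nat_lit 76) (nat_lit 24940385977) (nat_lit 59) (nat_lit 5) (nat_lit 64) (nat_lit 5) (nat_lit 60) (nat_lit 5) (nat_lit 355) (nat_lit 332) (nat_lit 93)) (XT.lf (nat_lit 0) (nat_lit 50059726649) (nat_lit 228) (nat_lit 143172562686) (nat_lit 304) (nat_lit 71595273712) (nat_lit 56) (nat_lit 5) (nat_lit 59) (nat_lit 5) (nat_lit 60) (nat_lit 5) (nat_lit 356) (nat_lit 332) (nat_lit 92))) (XT.nd (nat_lit 78) (nat_lit 304) (nat_lit 0) (XT.lf (nat_lit 0) (nat_lit 189770020196) (nat_lit 228) (nat_lit 48486543800) (nat_lit 304) (nat_lit 34795926468) (nat_lit 56) (nat_lit 5) (nat_lit 59) (nat_lit 5) (nat_lit 60) (nat_lit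 5) (nat_lit 357) (nat_lit 332) (nat_lit 91)) (XT.nd (nat_lit 38688) (nat_lit 0) (nat_lit 3192) (XT.lf (nat_lit 0) (nat_lit 5413498799) (nat_lit 304) (nat_lit 225925963518) (nat_lit 76) (nat_lit 50261545578) (nat_lit 52) (nat_lit 5) (nat_lit 56) (nat_lit 5) (nat_lit 53) (nat_lit 5) (nat_lit 358) (nat_lit 332) (nat_lit 90)) (XT.lf (nat_lit 0) (nat_lit 32684265585) (nat_lit 0) (nat_lit 32684265585) (nat_lit 684) (nat_lit 6569703824) (nat_lit 94) (nat_lit 5) (nat_lit 94) (nat_lit 3) (nat_lit 103) (nat_lit 3) (nat_lit 333) (nat_lit 333) (nat_lit 114)))))) (XT.nd (nat_lit 390) (nat_lit 608) (nat_lit 0) (XT.nd (nat_lit 156) (nat_lit 0) (nat_lit 0) (XT.nd (nat_lit 78) (nat_lit 0) (nat_lit 0) (XT.lf (nat_lit 0) (nat_lit 134022662419) (nat_lit 684) (nat_lit 12569205258) (nat_lit 760) (nat_lit 880650113) (nat_lit 94) (nat_lit 5) (nat_lit 103) (nat_lit 3) (nat_lit 104) (nat_lit 5) (nat_lit 334)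 (nat_lit 333) (nat_lit 113)) (XT.lf (nat_lit 76) (nat_lit 57432956637) (nat_lit 0) (nat_lit 82007701934) (nat_lit 760) (nat_lit 11709303941) (nat_lit 95) (nat_lit 5) (nat_lit 94) (nat_lit 5) (nat_lit 104) (nat_lit 5) (nat_lit 335) (nat_lit 333) (nat_lit 112))) (XT.nd (nat_lit 78) (nat_lit 0) (nat_lit 76) (XT.lf (nat_lit 76) (nat_lit 131371496400) (nat_lit 0) (nat_lit 13970742452) (nat_lit 760) (nat_lit 9658406725) (nat_lit 95) (nat_lit 5) (nat_lit 94) (nat_lit 5) (nat_lit 104) (nat_lit 5) (nat_lit 336) (nat_lit 333) (nat_lit 111)) (XT.nd (nat_lit 78) (nat_lit 0) (nat_lit 0) (XT.lf (nat_lit 76) (nat_lit 50688088444) (nat_lit 0) (nat_lit 102539258883) (nat_lit 760) (nat_lit 5732093315) (nat_lit 96) (nat_lit 5) (nat_lit 95) (nat_lit 5) (nat_lit 105) (nat_lit 5) (nat_lit 337) (nat_lit 333) (nat_lit 110)) (XT.lf (nat_lit 76) (nat_lit 129304829393) (nat_lit 0) (nat_lit 32827222460) (nat_lit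 760) (nat_lit 952856868) (nat_lit 96) (nat_lit 5) (nat_lit 95) (nat_lit 5) (nat_lit 105) (nat_lit 5) (nat_lit 338) (nat_lit 333) (nat_lit 109))))) (XT.nd (nat_lit 234) (nat_lit 0) (nat_lit 76) (XT.nd (nat_lit 78) (nat_lit 0) (nat_lit 0) (XT.lf (nat_lit 0) (nat_lit 5293814490) (nat_lit 760) (nat_lit 122181447998) (nat_lit 836) (nat_lit 39870284942) (nat_lit 86) (nat_lit 5) (nat_lit 96) (nat_lit 5) (nat_lit 97) (nat_lit 5) (nat_lit 339) (nat_lit 333) (nat_lit 108)) (XT.nd (nat_lit 78) (nat_lit 0) (nat_lit 76) (XT.lf (nat_lit 0) (nat_lit 12940255450) (nat_lit 760) (nat_lit 43125624285) (nat_lit 836) (nat_lit 115696584647) (nat_lit 86) (nat_lit 5) (nat_lit 96) (nat_lit 5) (nat_lit 97) (nat_lit 5) (nat_lit 340) (nat_lit 333) (nat_lit 107)) (XT.lf (nat_lit 0) (nat_lit 21917990855) (nat_lit 760) (nat_lit 135472328305) (nat_lit 836) (nat_lit 18962459641) (nat_lit 87) (nat_lit 5) (nat_lit 97)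 (nat_lit 5) (nat_lit 98) (nat_lit 5) (nat_lit 341) (nat_lit 333) (nat_lit 106)))) (XT.nd (nat_lit 78) (nat_lit 0) (nat_lit 0) (XT.lf (nat_lit 0) (nat_lit 33005911910) (nat_lit 760) (nat_lit 51483239597) (nat_lit 836) (nat_lit 96600392720) (nat_lit 87) (nat_lit 5) (nat_lit 97) (nat_lit 5) (nat_lit 98) (nat_lit 5) (nat_lit 342) (nat_lit 333) (nat_lit 105)) (XT.nd (nat_lit 78) (nat_lit 0) (nat_lit 76) (XT.lf (nat_lit 76) (nat_lit 37918832671) (nat_lit 0) (nat_lit 7321282046) (nat_lit 836) (nat_lit 140793439138) (nat_lit 88) (nat_lit 5) (nat_lit 87) (nat_lit 5) (nat_lit 98) (nat_lit 5) (nat_lit 343) (nat_lit 333) (nat_lit 104)) (XT.lf (nat_lit 0) (nat_lit 60122827324) (nat_lit 760) (nat_lit 58767929074) (nat_lit 76) (nat_lit 72232167793) (nat_lit 88) (nat_lit 5) (nat_lit 98) (nat_lit 5) (nat_lit 89) (nat_lit 5) (nat_lit 344) (nat_lit 333) (nat_lit 103))))))))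
noncomputable def xc252 : XT := (XT.nd (nat_lit 40326) (nat_lit 0) (nat_lit 228) (XT.nd (nat_lit 780) (nat_lit 532) (nat_lit 0) (XT.nd (nat_lit 390) (nat_lit 684) (nat_lit 0) (XT.nd (nat_lit 156) (nat_lit 684) (nat_lit 0) (XT.nd (nat_lit 78) (nat_lit 0) (nat_lit 0) (XT.lf (nat_lit 0) (nat_lit 36080885267) (nat_lit 532) (nat_lit 40352012606) (nat_lit 608) (nat_lit 119999704252) (nat_lit 81) (nat_lit 5) (nat_lit 88) (nat_lit 5) (nat_lit 89) (nat_lit 5) (nat_lit 345) (nat_lit 333) (nat_lit 102)) (XT.lf (nat_lit 0) (nat_lit 95227445299) (nat_lit 608) (nat_lit 64919513351) (nat_lit 76) (nat_lit 41777356826) (nat_lit 81) (nat_lit 5) (nat_lit 89) (nat_lit 5) (nat_lit 82) (nat_lit 5) (nat_lit 346) (nat_lit 333) (nat_lit 101))) (XT.nd (nat_lit 78) (nat_lit 304) (nat_lit 0) (XT.lf (nat_lit 0) (nat_lit 35767465135) (nat_lit 380) (nat_lit 80414081216) (nat_lit 456) (nat_lit 91448077009) (nat_lit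 76) (nat_lit 5) (nat_lit 81) (nat_lit 5) (nat_lit 82) (nat_lit 5) (nat_lit 347) (nat_lit 333) (nat_lit 100)) (XT.nd (nat_lit 78) (nat_lit 304) (nat_lit 0) (XT.lf (nat_lit 0) (nat_lit 139352317863) (nat_lit 456) (nat_lit 69892316787) (nat_lit 76) (nat_lit 4317113890) (nat_lit 76) (nat_lit 5) (nat_lit 82) (nat_lit 5) (nat_lit 77) (nat_lit 5) (nat_lit 348) (nat_lit 333) (nat_lit 99)) (XT.lf (nat_lit 0) (nat_lit 37043261246) (nat_lit 304) (nat_lit 128534875822) (nat_lit 380) (nat_lit 54117517616) (nat_lit 72) (nat_lit 5) (nat_lit 76) (nat_lit 5) (nat_lit 77) (nat_lit 5) (nat_lit 349) (nat_lit 333) (nat_lit 98))))) (XT.nd (nat_lit 156) (nat_lit 380) (nat_lit 0) (XT.nd (nat_lit 78) (nat_lit 304) (nat_lit 0) (XT.lf (nat_lit 0) (nat_lit 151752015783) (nat_lit 304) (nat_lit 42546791308) (nat_lit 380) (nat_lit 31778271207) (nat_lit 72) (nat_lit 5) (nat_lit 76) (nat_lit 5) (nat_lit 77) (nat_lit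 5) (nat_lit 350) (nat_lit 333) (nat_lit 97)) (XT.lf (nat_lit 0) (nat_lit 39951872683) (nat_lit 304) (nat_lit 185872669060) (nat_lit 380) (nat_lit 6884579939) (nat_lit 68) (nat_lit 5) (nat_lit 72) (nat_lit 5) (nat_lit 73) (nat_lit 5) (nat_lit 351) (nat_lit 333) (nat_lit 96))) (XT.nd (nat_lit 78) (nat_lit 304) (nat_lit 0) (XT.lf (nat_lit 0) (nat_lit 20614314019) (nat_lit 380) (nat_lit 78105613910) (nat_lit 76) (nat_lit 140838971165) (nat_lit 67) (nat_lit 5) (nat_lit 72) (nat_lit 5) (nat_lit 68) (nat_lit 5) (nat_lit 352) (nat_lit 333) (nat_lit 95)) (XT.nd (nat_lit 78) (nat_lit 0) (nat_lit 0) (XT.lf (nat_lit 0) (nat_lit 43559825347) (nat_lit 304) (nat_lit 6376961369) (nat_lit 380) (nat_lit 196774735634) (nat_lit 63) (nat_lit 5) (nat_lit 67) (nat_lit 5) (nat_lit 68) (nat_lit 5) (nat_lit 353) (nat_lit 333) (nat_lit 94)) (XT.lf (nat_lit 0) (nat_lit 83483993456) (nat_lit 380) (nat_lit 81571497946)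 (nat_lit 76) (nat_lit 89028354968) (nat_lit 63) (nat_lit 5) (nat_lit 68) (nat_lit 5) (nat_lit 64) (nat_lit 5) (nat_lit 354) (nat_lit 333) (nat_lit 93)))))) (XT.nd (nat_lit 39156) (nat_lit 0) (nat_lit 2280) (XT.nd (nat_lit 156) (nat_lit 228) (nat_lit 0) (XT.nd (nat_lit 78) (nat_lit 0) (nat_lit 0) (XT.lf (nat_lit 0) (nat_lit 47503478996) (nat_lit 304) (nat_lit 72051201108) (nat_lit 380) (nat_lit 142227800623) (nat_lit 59) (nat_lit 5) (nat_lit 63) (nat_lit 5) (nat_lit 64) (nat_lit 5) (nat_lit 355) (nat_lit 333) (nat_lit 92)) (XT.lf (nat_lit 0) (nat_lit 159232658913) (nat_lit 380) (nat_lit 84355279233) (nat_lit 76) (nat_lit 26187920876) (nat_lit 59) (nat_lit 5) (nat_lit 64) (nat_lit 5) (nat_lit 60) (nat_lit 5) (nat_lit 356) (nat_lit 333) (nat_lit 91))) (XT.nd (nat_lit 38844) (nat_lit 0) (nat_lit 2888) (XT.lf (nat_lit 0) (nat_lit 52565798879) (nat_lit 228) (nat_lit 150330527256) (nat_lit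 304) (nat_lit 75172490727) (nat_lit 56) (nat_lit 5) (nat_lit 59) (nat_lit 5) (nat_lit 60) (nat_lit 5) (nat_lit 357) (nat_lit 333) (nat_lit 90)) (XT.nd (nat_lit 78) (nat_lit 0) (nat_lit 0) (XT.lf (nat_lit 0) (nat_lit 34319940425) (nat_lit 0) (nat_lit 34319940425) (nat_lit 684) (nat_lit 6895114545) (nat_lit 94) (nat_lit 5) (nat_lit 94) (nat_lit 3) (nat_lit 103) (nat_lit 3) (nat_lit 334) (nat_lit 334) (nat_lit 112)) (XT.lf (nat_lit 0) (nat_lit 140729319925) (nat_lit 684) (nat_lit 13194549847) (nat_lit 760) (nat_lit 921987797) (nat_lit 94) (nat_lit 5) (nat_lit 103) (nat_lit 3) (nat_lit 104) (nat_lit 5) (nat_lit 335) (nat_lit 334) (nat_lit 111))))) (XT.nd (nat_lit 156) (nat_lit 608) (nat_lit 0) (XT.nd (nat_lit 78) (nat_lit 0) (nat_lit 0) (XT.lf (nat_lit 76) (nat_lit 60307669889) (nat_lit 0) (nat_lit 86110330790) (nat_lit 760) (nat_lit 12289185080) (nat_lit 95) (nat_lit 5) (nat_lit 94) (nat_lit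 5) (nat_lit 104) (nat_lit 5) (nat_lit 336) (nat_lit 334) (nat_lit 110)) (XT.lf (nat_lit 76) (nat_lit 137942990668) (nat_lit 0) (nat_lit 14671416488) (nat_lit 760) (nat_lit 10136008911) (nat_lit 95) (nat_lit 5) (nat_lit 94) (nat_lit 5) (nat_lit 104) (nat_lit 5) (nat_lit 337) (nat_lit 334) (nat_lit 109))) (XT.nd (nat_lit 78) (nat_lit 684) (nat_lit 0) (XT.lf (nat_lit 76) (nat_lit 53225655618) (nat_lit 0) (nat_lit 107667892262) (nat_lit 760) (nat_lit 6013614591) (nat_lit 96) (nat_lit 5) (nat_lit 95) (nat_lit 5) (nat_lit 105) (nat_lit 5) (nat_lit 338) (nat_lit 334) (nat_lit 108)) (XT.nd (nat_lit 78) (nat_lit 684) (nat_lit 0) (XT.lf (nat_lit 76) (nat_lit 135773083007) (nat_lit 0) (nat_lit 34470174474) (nat_lit 760) (nat_lit 995658387) (nat_lit 96) (nat_lit 5) (nat_lit 95) (nat_lit 5) (nat_lit 105) (nat_lit 5) (nat_lit 339) (nat_lit 334) (nat_lit 107)) (XT.lf (nat_lit 0) (nat_lit 5562995518)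 (nat_lit 760) (nat_lit 128287142103) (nat_lit 836) (nat_lit 41862455285) (nat_lit 86) (nat_lit 5) (nat_lit 96) (nat_lit 5) (nat_lit 97) (nat_lit 5) (nat_lit 340) (nat_lit 334) (nat_lit 106))))))) (XT.nd (nat_lit 780) (nat_lit 988) (nat_lit 0) (XT.nd (nat_lit 390) (nat_lit 1064) (nat_lit 0) (XT.nd (nat_lit 156) (nat_lit 0) (nat_lit 76) (XT.nd (nat_lit 78) (nat_lit 0) (nat_lit 76) (XT.lf (nat_lit 0) (nat_lit 13591544702) (nat_lit 760) (nat_lit 45278688075) (nat_lit 836) (nat_lit 121480133970) (nat_lit 86) (nat_lit 5) (nat_lit 96) (nat_lit 5) (nat_lit 97) (nat_lit 5) (nat_lit 341) (nat_lit 334) (nat_lit 105)) (XT.lf (nat_lit 0) (nat_lit 23017997721) (nat_lit 760) (nat_lit 142242551446) (nat_lit 836) (nat_lit 19909656514) (nat_lit 87) (nat_lit 5) (nat_lit 97) (nat_lit 5) (nat_lit 98) (nat_lit 5) (nat_lit 342) (nat_lit 334) (nat_lit 104))) (XT.nd (nat_lit 78) (nat_lit 0) (nat_lit 0) (XT.lf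 (nat_lit 0) (nat_lit 34660119242) (nat_lit 760) (nat_lit 54054169887) (nat_lit 836) (nat_lit 101429530347) (nat_lit 87) (nat_lit 5) (nat_lit 97) (nat_lit 5) (nat_lit 98) (nat_lit 5) (nat_lit 343) (nat_lit 334) (nat_lit 103)) (XT.nd (nat_lit 78) (nat_lit 0) (nat_lit 76) (XT.lf (nat_lit 76) (nat_lit 39817953870) (nat_lit 0) (nat_lit 7687941688) (nat_lit 836) (nat_lit 147829141163) (nat_lit 88) (nat_lit 5) (nat_lit 87) (nat_lit 5) (nat_lit 98) (nat_lit 5) (nat_lit 344) (nat_lit 334) (nat_lit 102)) (XT.lf (nat_lit 0) (nat_lit 63132555173) (nat_lit 760) (nat_lit 61703102964) (nat_lit 76) (nat_lit 75843227156) (nat_lit 88) (nat_lit 5) (nat_lit 98) (nat_lit 5) (nat_lit 89) (nat_lit 5) (nat_lit 345) (nat_lit 334) (nat_lit 101))))) (XT.nd (nat_lit 156) (nat_lit 684) (nat_lit 0) (XT.nd (nat_lit 78) (nat_lit 0) (nat_lit 0) (XT.lf (nat_lit 0) (nat_lit 37888100116) (nat_lit 532) (nat_lit 42369907850)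 (nat_lit 608) (nat_lit 125996045498) (nat_lit 81) (nat_lit 5) (nat_lit 88) (nat_lit 5) (nat_lit 89) (nat_lit 5) (nat_lit 346) (nat_lit 334) (nat_lit 100)) (XT.lf (nat_lit 0) (nat_lit 99992113374) (nat_lit 608) (nat_lit 68162294777) (nat_lit 76) (nat_lit 43865953063) (nat_lit 81) (nat_lit 5) (nat_lit 89) (nat_lit 5) (nat_lit 82) (nat_lit 5) (nat_lit 347) (nat_lit 334) (nat_lit 99))) (XT.nd (nat_lit 78) (nat_lit 304) (nat_lit 0) (XT.lf (nat_lit 0) (nat_lit 37558981113) (nat_lit 380) (nat_lit 84434830489) (nat_lit 456) (nat_lit 96017128534) (nat_lit 76) (nat_lit 5) (nat_lit 81) (nat_lit 5) (nat_lit 82) (nat_lit 5) (nat_lit 348) (nat_lit 334) (nat_lit 98)) (XT.nd (nat_lit 78) (nat_lit 304) (nat_lit 0) (XT.lf (nat_lit 0) (nat_lit 146322969210) (nat_lit 456) (nat_lit 73383782322) (nat_lit 76) (nat_lit 4532927904) (nat_lit 76) (nat_lit 5) (nat_lit 82) (nat_lit 5) (nat_lit 77) (nat_lit 5) (nat_lit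 349) (nat_lit 334) (nat_lit 97)) (XT.lf (nat_lit 0) (nat_lit 38898523801) (nat_lit 304) (nat_lit 134961459421) (nat_lit 380) (nat_lit 56820302700) (nat_lit 72) (nat_lit 5) (nat_lit 76) (nat_lit 5) (nat_lit 77) (nat_lit 5) (nat_lit 350) (nat_lit 334) (nat_lit 96)))))) (XT.nd (nat_lit 390) (nat_lit 304) (nat_lit 0) (XT.nd (nat_lit 156) (nat_lit 380) (nat_lit 0) (XT.nd (nat_lit 78) (nat_lit 304) (nat_lit 0) (XT.lf (nat_lit 0) (nat_lit 159342568470) (nat_lit 304) (nat_lit 44673978309) (nat_lit 380) (nat_lit 33364241151) (nat_lit 72) (nat_lit 5) (nat_lit 76) (nat_lit 5) (nat_lit 77) (nat_lit 5) (nat_lit 351) (nat_lit 334) (nat_lit 95)) (XT.lf (nat_lit 0) (nat_lit 41952510215) (nat_lit 304) (nat_lit 195165974440) (nat_lit 380) (nat_lit 7225953211) (nat_lit 68) (nat_lit 5) (nat_lit 72) (nat_lit 5) (nat_lit 73) (nat_lit 5) (nat_lit 352) (nat_lit 334) (nat_lit 94))) (XT.nd (nat_lit 78) (nat_lit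 304) (nat_lit 0) (XT.lf (nat_lit 0) (nat_lit 21647662410) (nat_lit 380) (nat_lit 82007904878) (nat_lit 76) (nat_lit 147881141397) (nat_lit 67) (nat_lit 5) (nat_lit 72) (nat_lit 5) (nat_lit 68) (nat_lit 5) (nat_lit 353) (nat_lit 334) (nat_lit 93)) (XT.nd (nat_lit 78) (nat_lit 0) (nat_lit 0) (XT.lf (nat_lit 0) (nat_lit 45740758120) (nat_lit 304) (nat_lit 6695421181) (nat_lit 380) (nat_lit 206610787954) (nat_lit 63) (nat_lit 5) (nat_lit 67) (nat_lit 5) (nat_lit 68) (nat_lit 5) (nat_lit 354) (nat_lit 334) (nat_lit 92)) (XT.lf (nat_lit 0) (nat_lit 87660630568) (nat_lit 380) (nat_lit 85647152218) (nat_lit 76) (nat_lit 93480130649) (nat_lit 63) (nat_lit 5) (nat_lit 68) (nat_lit 5) (nat_lit 64) (nat_lit 5) (nat_lit 355) (nat_lit 334) (nat_lit 91))))) (XT.nd (nat_lit 39078) (nat_lit 0) (nat_lit 2660) (XT.nd (nat_lit 78) (nat_lit 0) (nat_lit 0) (XT.lf (nat_lit 0) (nat_lit 49881526464) (nat_lit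 304) (nat_lit 75653253880) (nat_lit 380) (nat_lit 149336702889) (nat_lit 59) (nat_lit 5) (nat_lit 63) (nat_lit 5) (nat_lit 64) (nat_lit 5) (nat_lit 356) (nat_lit 334) (nat_lit 90)) (XT.nd (nat_lit 38922) (nat_lit 0) (nat_lit 2660) (XT.lf (nat_lit 0) (nat_lit 167196552958) (nat_lit 380) (nat_lit 88570198309) (nat_lit 76) (nat_lit 27497784585) (nat_lit 59) (nat_lit 5) (nat_lit 64) (nat_lit 5) (nat_lit 60) (nat_lit 5) (nat_lit 357) (nat_lit 334) (nat_lit 89)) (XT.lf (nat_lit 0) (nat_lit 36037263125) (nat_lit 0) (nat_lit 36037263125) (nat_lit 684) (nat_lit 7237081638) (nat_lit 94) (nat_lit 5) (nat_lit 94) (nat_lit 3) (nat_lit 103) (nat_lit 3) (nat_lit 335) (nat_lit 335) (nat_lit 110)))) (XT.nd (nat_lit 78) (nat_lit 0) (nat_lit 0) (XT.lf (nat_lit 0) (nat_lit 147770796701) (nat_lit 684) (nat_lit 13851451333) (nat_lit 760) (nat_lit 965642904) (nat_lit 94) (nat_lit 5) (nat_lit 103) (nat_lit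 3) (nat_lit 104) (nat_lit 5) (nat_lit 336) (nat_lit 335) (nat_lit 109)) (XT.nd (nat_lit 78) (nat_lit 0) (nat_lit 0) (XT.lf (nat_lit 76) (nat_lit 63325833810) (nat_lit 0) (nat_lit 90417882485) (nat_lit 760) (nat_lit 12898579430) (nat_lit 95) (nat_lit 5) (nat_lit 94) (nat_lit 5) (nat_lit 104) (nat_lit 5) (nat_lit 337) (nat_lit 335) (nat_lit 108)) (XT.lf (nat_lit 76) (nat_lit 144842788226) (nat_lit 0) (nat_lit 15406925556) (nat_lit 760) (nat_lit 10637985638) (nat_lit 95) (nat_lit 5) (nat_lit 94) (nat_lit 5) (nat_lit 104) (nat_lit 5) (nat_lit 338) (nat_lit 335) (nat_lit 107))))))))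
noncomputable def xc253 : XT := (XT.nd (nat_lit 40716) (nat_lit 0) (nat_lit 380) (XT.nd (nat_lit 780) (nat_lit 1368) (nat_lit 0) (XT.nd (nat_lit 390) (nat_lit 380) (nat_lit 0) (XT.nd (nat_lit 156) (nat_lit 684) (nat_lit 0) (XT.nd (nat_lit 78) (nat_lit 0) (nat_lit 0) (XT.lf (nat_lit 76) (nat_lit 55889807108) (nat_lit 0) (nat_lit 113052802009) (nat_lit 760) (nat_lit 6309684536) (nat_lit 96) (nat_lit 5) (nat_lit 95) (nat_lit 5) (nat_lit 105) (nat_lit 5) (nat_lit 339) (nat_lit 335) (nat_lit 106)) (XT.lf (nat_lit 76) (nat_lit 142564469261) (nat_lit 0) (nat_lit 36195126182) (nat_lit 760) (nat_lit 1041050084) (nat_lit 96) (nat_lit 5) (nat_lit 95) (nat_lit 5) (nat_lit 105) (nat_lit 5) (nat_lit 340) (nat_lit 335) (nat_lit 105))) (XT.nd (nat_lit 78) (nat_lit 0) (nat_lit 0) (XT.lf (nat_lit 0) (nat_lit 5845218131) (nat_lit 760) (nat_lit 134698434995) (nat_lit 836) (nat_lit 43954359088) (nat_lit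 86) (nat_lit 5) (nat_lit 96) (nat_lit 5) (nat_lit 97) (nat_lit 5) (nat_lit 341) (nat_lit 335) (nat_lit 104)) (XT.nd (nat_lit 78) (nat_lit 0) (nat_lit 76) (XT.lf (nat_lit 0) (nat_lit 14275000830) (nat_lit 760) (nat_lit 47539704181) (nat_lit 836) (nat_lit 127552979754) (nat_lit 86) (nat_lit 5) (nat_lit 96) (nat_lit 5) (nat_lit 97) (nat_lit 5) (nat_lit 342) (nat_lit 335) (nat_lit 103)) (XT.lf (nat_lit 0) (nat_lit 24172623070) (nat_lit 760) (nat_lit 149351601218) (nat_lit 836) (nat_lit 20904299332) (nat_lit 87) (nat_lit 5) (nat_lit 97) (nat_lit 5) (nat_lit 98) (nat_lit 5) (nat_lit 343) (nat_lit 335) (nat_lit 102))))) (XT.nd (nat_lit 156) (nat_lit 456) (nat_lit 0) (XT.nd (nat_lit 78) (nat_lit 0) (nat_lit 0) (XT.lf (nat_lit 0) (nat_lit 36396673264) (nat_lit 760) (nat_lit 56753947143) (nat_lit 836) (nat_lit 106500206857) (nat_lit 87) (nat_lit 5) (nat_lit 97) (nat_lit 5) (nat_lit 98) (nat_lit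 5) (nat_lit 344) (nat_lit 335) (nat_lit 101)) (XT.lf (nat_lit 76) (nat_lit 41811735524) (nat_lit 0) (nat_lit 8072878944) (nat_lit 836) (nat_lit 155216997375) (nat_lit 88) (nat_lit 5) (nat_lit 87) (nat_lit 5) (nat_lit 98) (nat_lit 5) (nat_lit 345) (nat_lit 335) (nat_lit 100))) (XT.nd (nat_lit 78) (nat_lit 532) (nat_lit 0) (XT.lf (nat_lit 0) (nat_lit 66292435978) (nat_lit 760) (nat_lit 64785335153) (nat_lit 76) (nat_lit 79634890530) (nat_lit 88) (nat_lit 5) (nat_lit 98) (nat_lit 5) (nat_lit 89) (nat_lit 5) (nat_lit 346) (nat_lit 335) (nat_lit 99)) (XT.nd (nat_lit 78) (nat_lit 0) (nat_lit 0) (XT.lf (nat_lit 0) (nat_lit 39785380937) (nat_lit 532) (nat_lit 44488670465) (nat_lit 608) (nat_lit 132292542587) (nat_lit 81) (nat_lit 5) (nat_lit 88) (nat_lit 5) (nat_lit 89) (nat_lit 5) (nat_lit 347) (nat_lit 335) (nat_lit 98)) (XT.lf (nat_lit 0) (nat_lit 104994708439) (nat_lit 608) (nat_lit 71567512244)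 (nat_lit 76) (nat_lit 46059004364) (nat_lit 81) (nat_lit 5) (nat_lit 89) (nat_lit 5) (nat_lit 82) (nat_lit 5) (nat_lit 348) (nat_lit 335) (nat_lit 97)))))) (XT.nd (nat_lit 390) (nat_lit 380) (nat_lit 0) (XT.nd (nat_lit 156) (nat_lit 608) (nat_lit 0) (XT.nd (nat_lit 78) (nat_lit 0) (nat_lit 0) (XT.lf (nat_lit 0) (nat_lit 39439780710) (nat_lit 380) (nat_lit 88656613021) (nat_lit 456) (nat_lit 100814944303) (nat_lit 76) (nat_lit 5) (nat_lit 81) (nat_lit 5) (nat_lit 82) (nat_lit 5) (nat_lit 349) (nat_lit 335) (nat_lit 96)) (XT.lf (nat_lit 0) (nat_lit 153641870917) (nat_lit 456) (nat_lit 77050114019) (nat_lit 76) (nat_lit 4759536494) (nat_lit 76) (nat_lit 5) (nat_lit 82) (nat_lit 5) (nat_lit 77) (nat_lit 5) (nat_lit 350) (nat_lit 335) (nat_lit 95))) (XT.nd (nat_lit 78) (nat_lit 304) (nat_lit 0) (XT.lf (nat_lit 0) (nat_lit 40846261322) (nat_lit 304) (nat_lit 141709387093) (nat_lit 380) (nat_lit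 59658514392) (nat_lit 72) (nat_lit 5) (nat_lit 76) (nat_lit 5) (nat_lit 77) (nat_lit 5) (nat_lit 351) (nat_lit 335) (nat_lit 94)) (XT.nd (nat_lit 78) (nat_lit 304) (nat_lit 0) (XT.lf (nat_lit 0) (nat_lit 167312374352) (nat_lit 304) (nat_lit 46907538844) (nat_lit 380) (nat_lit 35029783262) (nat_lit 72) (nat_lit 5) (nat_lit 76) (nat_lit 5) (nat_lit 77) (nat_lit 5) (nat_lit 352) (nat_lit 335) (nat_lit 93)) (XT.lf (nat_lit 0) (nat_lit 44052896632) (nat_lit 304) (nat_lit 204923975590) (nat_lit 380) (nat_lit 7584660644) (nat_lit 68) (nat_lit 5) (nat_lit 72) (nat_lit 5) (nat_lit 73) (nat_lit 5) (nat_lit 353) (nat_lit 335) (nat_lit 92))))) (XT.nd (nat_lit 39312) (nat_lit 0) (nat_lit 2356) (XT.nd (nat_lit 78) (nat_lit 304) (nat_lit 0) (XT.lf (nat_lit 0) (nat_lit 22732433458) (nat_lit 380) (nat_lit 86105588352) (nat_lit 76) (nat_lit 155275399533) (nat_lit 67) (nat_lit 5) (nat_lit 72) (nat_lit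 5) (nat_lit 68) (nat_lit 5) (nat_lit 354) (nat_lit 335) (nat_lit 91)) (XT.nd (nat_lit 39156) (nat_lit 0) (nat_lit 2356) (XT.lf (nat_lit 0) (nat_lit 48030464058) (nat_lit 304) (nat_lit 7029840080) (nat_lit 380) (nat_lit 216938892466) (nat_lit 63) (nat_lit 5) (nat_lit 67) (nat_lit 5) (nat_lit 68) (nat_lit 5) (nat_lit 355) (nat_lit 335) (nat_lit 90)) (XT.lf (nat_lit 0) (nat_lit 37840328711) (nat_lit 0) (nat_lit 37840328711) (nat_lit 684) (nat_lit 7596406346) (nat_lit 94) (nat_lit 5) (nat_lit 94) (nat_lit 3) (nat_lit 103) (nat_lit 3) (nat_lit 336) (nat_lit 336) (nat_lit 108)))) (XT.nd (nat_lit 78) (nat_lit 0) (nat_lit 0) (XT.lf (nat_lit 0) (nat_lit 155163881461) (nat_lit 684) (nat_lit 14541460628) (nat_lit 760) (nat_lit 1011708013) (nat_lit 94) (nat_lit 5) (nat_lit 103) (nat_lit 3) (nat_lit 104) (nat_lit 5) (nat_lit 337) (nat_lit 336) (nat_lit 107)) (XT.nd (nat_lit 78) (nat_lit 0) (nat_lit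 0) (XT.lf (nat_lit 76) (nat_lit 66494647429) (nat_lit 0) (nat_lit 94940622555) (nat_lit 760) (nat_lit 13538914384) (nat_lit 95) (nat_lit 5) (nat_lit 94) (nat_lit 5) (nat_lit 104) (nat_lit 5) (nat_lit 338) (nat_lit 336) (nat_lit 106)) (XT.lf (nat_lit 76) (nat_lit 152087329475) (nat_lit 0) (nat_lit 16179029877) (nat_lit 760) (nat_lit 11165509665) (nat_lit 95) (nat_lit 5) (nat_lit 94) (nat_lit 5) (nat_lit 104) (nat_lit 5) (nat_lit 339) (nat_lit 336) (nat_lit 105))))))) (XT.nd (nat_lit 780) (nat_lit 988) (nat_lit 0) (XT.nd (nat_lit 390) (nat_lit 380) (nat_lit 0) (XT.nd (nat_lit 156) (nat_lit 684) (nat_lit 0) (XT.nd (nat_lit 78) (nat_lit 0) (nat_lit 0) (XT.lf (nat_lit 76) (nat_lit 58686899467) (nat_lit 0) (nat_lit 118706816380) (nat_lit 760) (nat_lit 6620986645) (nat_lit 96) (nat_lit 5) (nat_lit 95) (nat_lit 5) (nat_lit 105) (nat_lit 5) (nat_lit 340) (nat_lit 336) (nat_lit 104)) (XT.lf (nat_lit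 76) (nat_lit 149695170823) (nat_lit 0) (nat_lit 38006191320) (nat_lit 760) (nat_lit 1089119619) (nat_lit 96) (nat_lit 5) (nat_lit 95) (nat_lit 5) (nat_lit 105) (nat_lit 5) (nat_lit 341) (nat_lit 336) (nat_lit 103))) (XT.nd (nat_lit 78) (nat_lit 0) (nat_lit 0) (XT.lf (nat_lit 0) (nat_lit 6141173222) (nat_lit 760) (nat_lit 141430577413) (nat_lit 836) (nat_lit 46150971409) (nat_lit 86) (nat_lit 5) (nat_lit 96) (nat_lit 5) (nat_lit 97) (nat_lit 5) (nat_lit 342) (nat_lit 336) (nat_lit 102)) (XT.nd (nat_lit 78) (nat_lit 0) (nat_lit 76) (XT.lf (nat_lit 0) (nat_lit 14992269142) (nat_lit 760) (nat_lit 49914042407) (nat_lit 836) (nat_lit 133929575757) (nat_lit 86) (nat_lit 5) (nat_lit 96) (nat_lit 5) (nat_lit 97) (nat_lit 5) (nat_lit 343) (nat_lit 336) (nat_lit 101)) (XT.lf (nat_lit 0) (nat_lit 25384633328) (nat_lit 760) (nat_lit 156816389624) (nat_lit 836) (nat_lit 21948752386) (nat_lit 87) (nat_lit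 5) (nat_lit 97) (nat_lit 5) (nat_lit 98) (nat_lit 5) (nat_lit 344) (nat_lit 336) (nat_lit 100))))) (XT.nd (nat_lit 156) (nat_lit 456) (nat_lit 0) (XT.nd (nat_lit 78) (nat_lit 0) (nat_lit 0) (XT.lf (nat_lit 0) (nat_lit 38219725122) (nat_lit 760) (nat_lit 59588985781) (nat_lit 836) (nat_lit 111824491569) (nat_lit 87) (nat_lit 5) (nat_lit 97) (nat_lit 5) (nat_lit 98) (nat_lit 5) (nat_lit 345) (nat_lit 336) (nat_lit 99)) (XT.lf (nat_lit 76) (nat_lit 43904938137) (nat_lit 0) (nat_lit 8477012843) (nat_lit 836) (nat_lit 162974581171) (nat_lit 88) (nat_lit 5) (nat_lit 87) (nat_lit 5) (nat_lit 98) (nat_lit 5) (nat_lit 346) (nat_lit 336) (nat_lit 98))) (XT.nd (nat_lit 78) (nat_lit 532) (nat_lit 0) (XT.lf (nat_lit 0) (nat_lit 69610008385) (nat_lit 760) (nat_lit 68021950700) (nat_lit 76) (nat_lit 83616183371) (nat_lit 88) (nat_lit 5) (nat_lit 98) (nat_lit 5) (nat_lit 89) (nat_lit 5) (nat_lit 347)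 (nat_lit 336) (nat_lit 97)) (XT.nd (nat_lit 78) (nat_lit 0) (nat_lit 0) (XT.lf (nat_lit 0) (nat_lit 41777258433) (nat_lit 532) (nat_lit 46713346368) (nat_lit 608) (nat_lit 138904171815) (nat_lit 81) (nat_lit 5) (nat_lit 88) (nat_lit 5) (nat_lit 89) (nat_lit 5) (nat_lit 348) (nat_lit 336) (nat_lit 96)) (XT.lf (nat_lit 0) (nat_lit 110247155331) (nat_lit 608) (nat_lit 75143259946) (nat_lit 76) (nat_lit 48361731133) (nat_lit 81) (nat_lit 5) (nat_lit 89) (nat_lit 5) (nat_lit 82) (nat_lit 5) (nat_lit 349) (nat_lit 336) (nat_lit 95)))))) (XT.nd (nat_lit 39624) (nat_lit 0) (nat_lit 1976) (XT.nd (nat_lit 156) (nat_lit 608) (nat_lit 0) (XT.nd (nat_lit 78) (nat_lit 0) (nat_lit 0) (XT.lf (nat_lit 0) (nat_lit 41414355270) (nat_lit 380) (nat_lit 93089480868) (nat_lit 456) (nat_lit 105852933553) (nat_lit 76) (nat_lit 5) (nat_lit 81) (nat_lit 5) (nat_lit 82) (nat_lit 5) (nat_lit 350) (nat_lit 336) (nat_lit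 94)) (XT.lf (nat_lit 0) (nat_lit 161326461739) (nat_lit 456) (nat_lit 80900027957) (nat_lit 76) (nat_lit 4997479028) (nat_lit 76) (nat_lit 5) (nat_lit 82) (nat_lit 5) (nat_lit 77) (nat_lit 5) (nat_lit 351) (nat_lit 336) (nat_lit 93))) (XT.nd (nat_lit 78) (nat_lit 304) (nat_lit 0) (XT.lf (nat_lit 0) (nat_lit 42891124349) (nat_lit 304) (nat_lit 148794724657) (nat_lit 380) (nat_lit 62638897305) (nat_lit 72) (nat_lit 5) (nat_lit 76) (nat_lit 5) (nat_lit 77) (nat_lit 5) (nat_lit 352) (nat_lit 336) (nat_lit 92)) (XT.nd (nat_lit 78) (nat_lit 304) (nat_lit 0) (XT.lf (nat_lit 0) (nat_lit 175680421604) (nat_lit 304) (nat_lit 49252790272) (nat_lit 380) (nat_lit 36778850705) (nat_lit 72) (nat_lit 5) (nat_lit 76) (nat_lit 5) (nat_lit 77) (nat_lit 5) (nat_lit 353) (nat_lit 336) (nat_lit 91)) (XT.lf (nat_lit 0) (nat_lit 46258045686) (nat_lit 304) (nat_lit 215169904462) (nat_lit 380) (nat_lit 7961544264)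 (nat_lit 68) (nat_lit 5) (nat_lit 72) (nat_lit 5) (nat_lit 73) (nat_lit 5) (nat_lit 354) (nat_lit 336) (nat_lit 90))))) (XT.nd (nat_lit 234) (nat_lit 0) (nat_lit 0) (XT.nd (nat_lit 78) (nat_lit 0) (nat_lit 0) (XT.lf (nat_lit 0) (nat_lit 39733435785) (nat_lit 0) (nat_lit 39733435785) (nat_lit 684) (nat_lit 7973932446) (nat_lit 94) (nat_lit 5) (nat_lit 94) (nat_lit 3) (nat_lit 103) (nat_lit 3) (nat_lit 337) (nat_lit 337) (nat_lit 106)) (XT.nd (nat_lit 78) (nat_lit 0) (nat_lit 0) (XT.lf (nat_lit 0) (nat_lit 162926197915) (nat_lit 684) (nat_lit 15266208696) (nat_lit 760) (nat_lit 1060282496) (nat_lit 94) (nat_lit 5) (nat_lit 103) (nat_lit 3) (nat_lit 104) (nat_lit 5) (nat_lit 338) (nat_lit 337) (nat_lit 105)) (XT.lf (nat_lit 76) (nat_lit 69821667265) (nat_lit 0) (nat_lit 99689328010) (nat_lit 760) (nat_lit 14211693193) (nat_lit 95) (nat_lit 5) (nat_lit 94) (nat_lit 5) (nat_lit 104) (nat_lit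 5) (nat_lit 339) (nat_lit 337) (nat_lit 104)))) (XT.nd (nat_lit 78) (nat_lit 0) (nat_lit 76) (XT.lf (nat_lit 76) (nat_lit 159693874485) (nat_lit 0) (nat_lit 16989575968) (nat_lit 760) (nat_lit 11719816663) (nat_lit 95) (nat_lit 5) (nat_lit 94) (nat_lit 5) (nat_lit 104) (nat_lit 5) (nat_lit 340) (nat_lit 337) (nat_lit 103)) (XT.nd (nat_lit 78) (nat_lit 0) (nat_lit 0) (XT.lf (nat_lit 76) (nat_lit 61623604535) (nat_lit 0) (nat_lit 124643403703) (nat_lit 760) (nat_lit 6948242674) (nat_lit 96) (nat_lit 5) (nat_lit 95) (nat_lit 5) (nat_lit 105) (nat_lit 5) (nat_lit 341) (nat_lit 337) (nat_lit 102)) (XT.lf (nat_lit 76) (nat_lit 157182177073) (nat_lit 0) (nat_lit 39907688033) (nat_lit 760) (nat_lit 1139962930) (nat_lit 96) (nat_lit 5) (nat_lit 95) (nat_lit 5) (nat_lit 105) (nat_lit 5) (nat_lit 342) (nat_lit 337) (nat_lit 101))))))))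
noncomputable def xc254 : XT := (XT.nd (nat_lit 40950) (nat_lit 0) (nat_lit 304) (XT.nd (nat_lit 780) (nat_lit 304) (nat_lit 0) (XT.nd (nat_lit 390) (nat_lit 760) (nat_lit 0) (XT.nd (nat_lit 156) (nat_lit 0) (nat_lit 76) (XT.nd (nat_lit 78) (nat_lit 0) (nat_lit 0) (XT.lf (nat_lit 0) (nat_lit 6451582616) (nat_lit 760) (nat_lit 148499585348) (nat_lit 836) (nat_lit 48457517138) (nat_lit 86) (nat_lit 5) (nat_lit 96) (nat_lit 5) (nat_lit 97) (nat_lit 5) (nat_lit 343) (nat_lit 337) (nat_lit 100)) (XT.lf (nat_lit 0) (nat_lit 15745073774) (nat_lit 760) (nat_lit 52407343637) (nat_lit 836) (nat_lit 140625099458) (nat_lit 86) (nat_lit 5) (nat_lit 96) (nat_lit 5) (nat_lit 97) (nat_lit 5) (nat_lit 344) (nat_lit 337) (nat_lit 99))) (XT.nd (nat_lit 78) (nat_lit 0) (nat_lit 0) (XT.lf (nat_lit 0) (nat_lit 26656929942) (nat_lit 760) (nat_lit 164654676991) (nat_lit 836) (nat_lit 23045498928) (nat_lit 87)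 (nat_lit 5) (nat_lit 97) (nat_lit 5) (nat_lit 98) (nat_lit 5) (nat_lit 345) (nat_lit 337) (nat_lit 98)) (XT.nd (nat_lit 78) (nat_lit 0) (nat_lit 0) (XT.lf (nat_lit 0) (nat_lit 40133630376) (nat_lit 760) (nat_lit 62566023533) (nat_lit 836) (nat_lit 117415057979) (nat_lit 87) (nat_lit 5) (nat_lit 97) (nat_lit 5) (nat_lit 98) (nat_lit 5) (nat_lit 346) (nat_lit 337) (nat_lit 97)) (XT.lf (nat_lit 76) (nat_lit 46102557685) (nat_lit 0) (nat_lit 8901307885) (nat_lit 836) (nat_lit 171120347805) (nat_lit 88) (nat_lit 5) (nat_lit 87) (nat_lit 5) (nat_lit 98) (nat_lit 5) (nat_lit 347) (nat_lit 337) (nat_lit 96))))) (XT.nd (nat_lit 156) (nat_lit 380) (nat_lit 0) (XT.nd (nat_lit 78) (nat_lit 532) (nat_lit 0) (XT.lf (nat_lit 0) (nat_lit 73093185093) (nat_lit 760) (nat_lit 71420643509) (nat_lit 76) (nat_lit 87796582847) (nat_lit 88) (nat_lit 5) (nat_lit 98) (nat_lit 5) (nat_lit 89) (nat_lit 5) (nat_lit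 348) (nat_lit 337) (nat_lit 95)) (XT.lf (nat_lit 0) (nat_lit 43868487295) (nat_lit 532) (nat_lit 49049233531) (nat_lit 608) (nat_lit 145846661222) (nat_lit 81) (nat_lit 5) (nat_lit 88) (nat_lit 5) (nat_lit 89) (nat_lit 5) (nat_lit 349) (nat_lit 337) (nat_lit 94))) (XT.nd (nat_lit 78) (nat_lit 380) (nat_lit 0) (XT.lf (nat_lit 0) (nat_lit 115761972482) (nat_lit 608) (nat_lit 78898039351) (nat_lit 76) (nat_lit 50779615015) (nat_lit 81) (nat_lit 5) (nat_lit 89) (nat_lit 5) (nat_lit 82) (nat_lit 5) (nat_lit 350) (nat_lit 337) (nat_lit 93)) (XT.nd (nat_lit 78) (nat_lit 0) (nat_lit 0) (XT.lf (nat_lit 0) (nat_lit 43487418181) (nat_lit 380) (nat_lit 97743988649) (nat_lit 456) (nat_lit 111143078674) (nat_lit 76) (nat_lit 5) (nat_lit 81) (nat_lit 5) (nat_lit 82) (nat_lit 5) (nat_lit 351) (nat_lit 337) (nat_lit 92)) (XT.lf (nat_lit 0) (nat_lit 169395049929) (nat_lit 456) (nat_lit 84942678550) (nat_lit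 76) (nat_lit 5247321877) (nat_lit 76) (nat_lit 5) (nat_lit 82) (nat_lit 5) (nat_lit 77) (nat_lit 5) (nat_lit 352) (nat_lit 337) (nat_lit 91)))))) (XT.nd (nat_lit 39780) (nat_lit 0) (nat_lit 1064) (XT.nd (nat_lit 39546) (nat_lit 0) (nat_lit 1672) (XT.nd (nat_lit 39468) (nat_lit 0) (nat_lit 1672) (XT.lf (nat_lit 0) (nat_lit 45037993456) (nat_lit 304) (nat_lit 156234341352) (nat_lit 380) (nat_lit 65768535770) (nat_lit 72) (nat_lit 5) (nat_lit 76) (nat_lit 5) (nat_lit 77) (nat_lit 5) (nat_lit 353) (nat_lit 337) (nat_lit 90)) (XT.lf (nat_lit 0) (nat_lit 41721096816) (nat_lit 0) (nat_lit 41721096816) (nat_lit 684) (nat_lit 8370548147) (nat_lit 94) (nat_lit 5) (nat_lit 94) (nat_lit 3) (nat_lit 103) (nat_lit 3) (nat_lit 338) (nat_lit 338) (nat_lit 104))) (XT.nd (nat_lit 78) (nat_lit 0) (nat_lit 0) (XT.lf (nat_lit 0) (nat_lit 171076246932) (nat_lit 684) (nat_lit 16027410321) (nat_lit 760) (nat_lit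 1111472659) (nat_lit 94) (nat_lit 5) (nat_lit 103) (nat_lit 3) (nat_lit 104) (nat_lit 5) (nat_lit 339) (nat_lit 338) (nat_lit 103)) (XT.nd (nat_lit 78) (nat_lit 0) (nat_lit 0) (XT.lf (nat_lit 76) (nat_lit 73314825425) (nat_lit 0) (nat_lit 104675313074) (nat_lit 760) (nat_lit 14918498343) (nat_lit 95) (nat_lit 5) (nat_lit 94) (nat_lit 5) (nat_lit 104) (nat_lit 5) (nat_lit 340) (nat_lit 338) (nat_lit 102)) (XT.lf (nat_lit 76) (nat_lit 167680544207) (nat_lit 0) (nat_lit 17840501113) (nat_lit 760) (nat_lit 12302207962) (nat_lit 95) (nat_lit 5) (nat_lit 94) (nat_lit 5) (nat_lit 104) (nat_lit 5) (nat_lit 341) (nat_lit 338) (nat_lit 101))))) (XT.nd (nat_lit 156) (nat_lit 684) (nat_lit 0) (XT.nd (nat_lit 78) (nat_lit 0) (nat_lit 0) (XT.lf (nat_lit 76) (nat_lit 64706925436) (nat_lit 0) (nat_lit 130876704505) (nat_lit 760) (nat_lit 7292214169) (nat_lit 96) (nat_lit 5) (nat_lit 95) (nat_lit 5)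 (nat_lit 105) (nat_lit 5) (nat_lit 342) (nat_lit 338) (nat_lit 100)) (XT.lf (nat_lit 76) (nat_lit 165043324665) (nat_lit 0) (nat_lit 41904149212) (nat_lit 760) (nat_lit 1193684278) (nat_lit 96) (nat_lit 5) (nat_lit 95) (nat_lit 5) (nat_lit 105) (nat_lit 5) (nat_lit 343) (nat_lit 338) (nat_lit 99))) (XT.nd (nat_lit 78) (nat_lit 0) (nat_lit 0) (XT.lf (nat_lit 0) (nat_lit 6777200961) (nat_lit 760) (nat_lit 155922278052) (nat_lit 836) (nat_lit 50879483388) (nat_lit 86) (nat_lit 5) (nat_lit 96) (nat_lit 5) (nat_lit 97) (nat_lit 5) (nat_lit 344) (nat_lit 338) (nat_lit 98)) (XT.nd (nat_lit 78) (nat_lit 0) (nat_lit 76) (XT.lf (nat_lit 0) (nat_lit 16535221952) (nat_lit 760) (nat_lit 55025533139) (nat_lit 836) (nat_lit 147655488138) (nat_lit 86) (nat_lit 5) (nat_lit 96) (nat_lit 5) (nat_lit 97) (nat_lit 5) (nat_lit 345) (nat_lit 338) (nat_lit 97)) (XT.lf (nat_lit 0) (nat_lit 27992556438) (nat_lit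 760) (nat_lit 172885114139) (nat_lit 836) (nat_lit 24197147048) (nat_lit 87) (nat_lit 5) (nat_lit 97) (nat_lit 5) (nat_lit 98) (nat_lit 5) (nat_lit 346) (nat_lit 338) (nat_lit 96))))))) (XT.nd (nat_lit 40248) (nat_lit 0) (nat_lit 380) (XT.nd (nat_lit 390) (nat_lit 380) (nat_lit 0) (XT.nd (nat_lit 156) (nat_lit 456) (nat_lit 0) (XT.nd (nat_lit 78) (nat_lit 0) (nat_lit 0) (XT.lf (nat_lit 0) (nat_lit 42142959512) (nat_lit 760) (nat_lit 65692137374) (nat_lit 836) (nat_lit 123285213900) (nat_lit 87) (nat_lit 5) (nat_lit 97) (nat_lit 5) (nat_lit 98) (nat_lit 5) (nat_lit 347) (nat_lit 338) (nat_lit 95)) (XT.lf (nat_lit 76) (nat_lit 48409837625) (nat_lit 0) (nat_lit 9346776364) (nat_lit 836) (nat_lit 179673678189) (nat_lit 88) (nat_lit 5) (nat_lit 87) (nat_lit 5) (nat_lit 98) (nat_lit 5) (nat_lit 348) (nat_lit 338) (nat_lit 94))) (XT.nd (nat_lit 78) (nat_lit 532) (nat_lit 0) (XT.lf (nat_lit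 0) (nat_lit 76750271821) (nat_lit 760) (nat_lit 74989494526) (nat_lit 76) (nat_lit 92186040387) (nat_lit 88) (nat_lit 5) (nat_lit 98) (nat_lit 5) (nat_lit 89) (nat_lit 5) (nat_lit 349) (nat_lit 338) (nat_lit 93)) (XT.nd (nat_lit 78) (nat_lit 0) (nat_lit 0) (XT.lf (nat_lit 0) (nat_lit 46064057638) (nat_lit 532) (nat_lit 51501894614) (nat_lit 608) (nat_lit 153136527902) (nat_lit 81) (nat_lit 5) (nat_lit 88) (nat_lit 5) (nat_lit 89) (nat_lit 5) (nat_lit 350) (nat_lit 338) (nat_lit 92)) (XT.lf (nat_lit 0) (nat_lit 121552301839) (nat_lit 608) (nat_lit 82840779331) (nat_lit 76) (nat_lit 53318411933) (nat_lit 81) (nat_lit 5) (nat_lit 89) (nat_lit 5) (nat_lit 82) (nat_lit 5) (nat_lit 351) (nat_lit 338) (nat_lit 91))))) (XT.nd (nat_lit 39624) (nat_lit 0) (nat_lit 1368) (XT.nd (nat_lit 78) (nat_lit 0) (nat_lit 0) (XT.lf (nat_lit 0) (nat_lit 45663916207) (nat_lit 380) (nat_lit 102631218682) (nat_lit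 456) (nat_lit 116697963622) (nat_lit 76) (nat_lit 5) (nat_lit 81) (nat_lit 5) (nat_lit 82) (nat_lit 5) (nat_lit 352) (nat_lit 338) (nat_lit 90)) (XT.lf (nat_lit 0) (nat_lit 177866856940) (nat_lit 456) (nat_lit 89187680227) (nat_lit 76) (nat_lit 5509659760) (nat_lit 76) (nat_lit 5) (nat_lit 82) (nat_lit 5) (nat_lit 77) (nat_lit 5) (nat_lit 353) (nat_lit 338) (nat_lit 89))) (XT.nd (nat_lit 78) (nat_lit 0) (nat_lit 0) (XT.lf (nat_lit 0) (nat_lit 43808048929) (nat_lit 0) (nat_lit 43808048929) (nat_lit 684) (nat_lit 8787188096) (nat_lit 94) (nat_lit 5) (nat_lit 94) (nat_lit 3) (nat_lit 103) (nat_lit 3) (nat_lit 339) (nat_lit 339) (nat_lit 102)) (XT.nd (nat_lit 78) (nat_lit 0) (nat_lit 0) (XT.lf (nat_lit 0) (nat_lit 179633450772) (nat_lit 684) (nat_lit 16826868084) (nat_lit 760) (nat_lit 1165391905) (nat_lit 94) (nat_lit 5) (nat_lit 103) (nat_lit 3) (nat_lit 104) (nat_lit 5) (nat_lit 340)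 (nat_lit 339) (nat_lit 101)) (XT.lf (nat_lit 76) (nat_lit 76982448598) (nat_lit 0) (nat_lit 109910456201) (nat_lit 760) (nat_lit 15660995133) (nat_lit 95) (nat_lit 5) (nat_lit 94) (nat_lit 5) (nat_lit 104) (nat_lit 5) (nat_lit 341) (nat_lit 339) (nat_lit 100)))))) (XT.nd (nat_lit 390) (nat_lit 380) (nat_lit 0) (XT.nd (nat_lit 156) (nat_lit 608) (nat_lit 0) (XT.nd (nat_lit 78) (nat_lit 0) (nat_lit 76) (XT.lf (nat_lit 76) (nat_lit 176066363705) (nat_lit 0) (nat_lit 18733838048) (nat_lit 760) (nat_lit 12914053478) (nat_lit 95) (nat_lit 5) (nat_lit 94) (nat_lit 5) (nat_lit 104) (nat_lit 5) (nat_lit 342) (nat_lit 339) (nat_lit 99)) (XT.lf (nat_lit 76) (nat_lit 67944213363) (nat_lit 0) (nat_lit 137421565232) (nat_lit 760) (nat_lit 7653704118) (nat_lit 96) (nat_lit 5) (nat_lit 95) (nat_lit 5) (nat_lit 105) (nat_lit 5) (nat_lit 343) (nat_lit 339) (nat_lit 98))) (XT.nd (nat_lit 78) (nat_lit 684)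 (nat_lit 0) (XT.lf (nat_lit 76) (nat_lit 173297340093) (nat_lit 0) (nat_lit 44000333341) (nat_lit 760) (nat_lit 1250396339) (nat_lit 96) (nat_lit 5) (nat_lit 95) (nat_lit 5) (nat_lit 105) (nat_lit 5) (nat_lit 344) (nat_lit 339) (nat_lit 97)) (XT.nd (nat_lit 78) (nat_lit 0) (nat_lit 0) (XT.lf (nat_lit 0) (nat_lit 7118817666) (nat_lit 760) (nat_lit 163716317975) (nat_lit 836) (nat_lit 53422632516) (nat_lit 86) (nat_lit 5) (nat_lit 96) (nat_lit 5) (nat_lit 97) (nat_lit 5) (nat_lit 345) (nat_lit 339) (nat_lit 96)) (XT.lf (nat_lit 0) (nat_lit 17364608437) (nat_lit 760) (nat_lit 57774834577) (nat_lit 836) (nat_lit 155037476792) (nat_lit 86) (nat_lit 5) (nat_lit 96) (nat_lit 5) (nat_lit 97) (nat_lit 5) (nat_lit 346) (nat_lit 339) (nat_lit 95))))) (XT.nd (nat_lit 234) (nat_lit 456) (nat_lit 0) (XT.nd (nat_lit 78) (nat_lit 0) (nat_lit 0) (XT.lf (nat_lit 0) (nat_lit 29394705800) (nat_lit 760)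 (nat_lit 181527286670) (nat_lit 836) (nat_lit 25406435849) (nat_lit 87) (nat_lit 5) (nat_lit 97) (nat_lit 5) (nat_lit 98) (nat_lit 5) (nat_lit 347) (nat_lit 339) (nat_lit 94)) (XT.nd (nat_lit 78) (nat_lit 0) (nat_lit 0) (XT.lf (nat_lit 0) (nat_lit 44252508955) (nat_lit 760) (nat_lit 68974760266) (nat_lit 836) (nat_lit 129448933118) (nat_lit 87) (nat_lit 5) (nat_lit 97) (nat_lit 5) (nat_lit 98) (nat_lit 5) (nat_lit 348) (nat_lit 339) (nat_lit 93)) (XT.lf (nat_lit 76) (nat_lit 50832281484) (nat_lit 0) (nat_lit 9814480791) (nat_lit 836) (nat_lit 188654924904) (nat_lit 88) (nat_lit 5) (nat_lit 87) (nat_lit 5) (nat_lit 98) (nat_lit 5) (nat_lit 349) (nat_lit 339) (nat_lit 92)))) (XT.nd (nat_lit 78) (nat_lit 532) (nat_lit 0) (XT.lf (nat_lit 0) (nat_lit 80589987201) (nat_lit 760) (nat_lit 78736990879) (nat_lit 76) (nat_lit 96795005351) (nat_lit 88) (nat_lit 5) (nat_lit 98) (nat_lit 5) (nat_lit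 89) (nat_lit 5) (nat_lit 350) (nat_lit 339) (nat_lit 91)) (XT.nd (nat_lit 78) (nat_lit 0) (nat_lit 0) (XT.lf (nat_lit 0) (nat_lit 48369206985) (nat_lit 532) (nat_lit 54077170211) (nat_lit 608) (nat_lit 160791117218) (nat_lit 81) (nat_lit 5) (nat_lit 88) (nat_lit 5) (nat_lit 89) (nat_lit 5) (nat_lit 351) (nat_lit 339) (nat_lit 90)) (XT.lf (nat_lit 0) (nat_lit 127631940273) (nat_lit 608) (nat_lit 86980857310) (nat_lit 76) (nat_lit 55984165789) (nat_lit 81) (nat_lit 5) (nat_lit 89) (nat_lit 5) (nat_lit 82) (nat_lit 5) (nat_lit 352) (nat_lit 339) (nat_lit 89))))))))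
noncomputable def xc255 : XT := (XT.nd (nat_lit 41418) (nat_lit 0) (nat_lit 0) (XT.nd (nat_lit 780) (nat_lit 0) (nat_lit 0) (XT.nd (nat_lit 390) (nat_lit 608) (nat_lit 0) (XT.nd (nat_lit 156) (nat_lit 0) (nat_lit 0) (XT.nd (nat_lit 78) (nat_lit 0) (nat_lit 0) (XT.lf (nat_lit 0) (nat_lit 45999265227) (nat_lit 0) (nat_lit 45999265227) (nat_lit 684) (nat_lit 9224835521) (nat_lit 94) (nat_lit 5) (nat_lit 94) (nat_lit 3) (nat_lit 103) (nat_lit 3) (nat_lit 340) (nat_lit 340) (nat_lit 100)) (XT.lf (nat_lit 0) (nat_lit 188618199495) (nat_lit 684) (nat_lit 17666476565) (nat_lit 760) (nat_lit 1222160923) (nat_lit 94) (nat_lit 5) (nat_lit 103) (nat_lit 3) (nat_lit 104) (nat_lit 5) (nat_lit 341) (nat_lit 340) (nat_lit 99))) (XT.nd (nat_lit 78) (nat_lit 0) (nat_lit 0) (XT.lf (nat_lit 76) (nat_lit 80833277969) (nat_lit 0) (nat_lit 115407228420) (nat_lit 760) (nat_lit 16440935478) (nat_lit 95) (nat_lit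 5) (nat_lit 94) (nat_lit 5) (nat_lit 104) (nat_lit 5) (nat_lit 342) (nat_lit 340) (nat_lit 98)) (XT.nd (nat_lit 78) (nat_lit 0) (nat_lit 76) (XT.lf (nat_lit 76) (nat_lit 184871307548) (nat_lit 0) (nat_lit 19671719864) (nat_lit 760) (nat_lit 13556794807) (nat_lit 95) (nat_lit 5) (nat_lit 94) (nat_lit 5) (nat_lit 104) (nat_lit 5) (nat_lit 343) (nat_lit 340) (nat_lit 97)) (XT.lf (nat_lit 76) (nat_lit 71343185170) (nat_lit 0) (nat_lit 144293573654) (nat_lit 760) (nat_lit 8033558702) (nat_lit 96) (nat_lit 5) (nat_lit 95) (nat_lit 5) (nat_lit 105) (nat_lit 5) (nat_lit 344) (nat_lit 340) (nat_lit 96))))) (XT.nd (nat_lit 156) (nat_lit 0) (nat_lit 0) (XT.nd (nat_lit 78) (nat_lit 684) (nat_lit 0) (XT.lf (nat_lit 76) (nat_lit 181963884373) (nat_lit 0) (nat_lit 46201235876) (nat_lit 760) (nat_lit 1310220326) (nat_lit 96) (nat_lit 5) (nat_lit 95) (nat_lit 5) (nat_lit 105) (nat_lit 5) (nat_lit 345)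 (nat_lit 340) (nat_lit 95)) (XT.lf (nat_lit 0) (nat_lit 7477258918) (nat_lit 760) (nat_lit 171900252713) (nat_lit 836) (nat_lit 56093015806) (nat_lit 86) (nat_lit 5) (nat_lit 96) (nat_lit 5) (nat_lit 97) (nat_lit 5) (nat_lit 346) (nat_lit 340) (nat_lit 94))) (XT.nd (nat_lit 78) (nat_lit 0) (nat_lit 76) (XT.lf (nat_lit 0) (nat_lit 18235220163) (nat_lit 760) (nat_lit 60661784724) (nat_lit 836) (nat_lit 162788637930) (nat_lit 86) (nat_lit 5) (nat_lit 96) (nat_lit 5) (nat_lit 97) (nat_lit 5) (nat_lit 347) (nat_lit 340) (nat_lit 93)) (XT.nd (nat_lit 78) (nat_lit 0) (nat_lit 0) (XT.lf (nat_lit 0) (nat_lit 30866728201) (nat_lit 760) (nat_lit 190601761501) (nat_lit 836) (nat_lit 26676241950) (nat_lit 87) (nat_lit 5) (nat_lit 97) (nat_lit 5) (nat_lit 98) (nat_lit 5) (nat_lit 348) (nat_lit 340) (nat_lit 92)) (XT.lf (nat_lit 0) (nat_lit 46467312603) (nat_lit 760) (nat_lit 72421698753) (nat_lit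 836) (nat_lit 135920888638) (nat_lit 87) (nat_lit 5) (nat_lit 97) (nat_lit 5) (nat_lit 98) (nat_lit 5) (nat_lit 349) (nat_lit 340) (nat_lit 91)))))) (XT.nd (nat_lit 40170) (nat_lit 76) (nat_lit 0) (XT.nd (nat_lit 39936) (nat_lit 0) (nat_lit 532) (XT.nd (nat_lit 78) (nat_lit 0) (nat_lit 76) (XT.lf (nat_lit 76) (nat_lit 53375666059) (nat_lit 0) (nat_lit 10305536450) (nat_lit 836) (nat_lit 198085460542) (nat_lit 88) (nat_lit 5) (nat_lit 87) (nat_lit 5) (nat_lit 98) (nat_lit 5) (nat_lit 350) (nat_lit 340) (nat_lit 90)) (XT.lf (nat_lit 0) (nat_lit 84621483649) (nat_lit 760) (nat_lit 82672045979) (nat_lit 76) (nat_lit 101634449900) (nat_lit 88) (nat_lit 5) (nat_lit 98) (nat_lit 5) (nat_lit 89) (nat_lit 5) (nat_lit 351) (nat_lit 340) (nat_lit 89))) (XT.nd (nat_lit 78) (nat_lit 0) (nat_lit 0) (XT.lf (nat_lit 0) (nat_lit 48299966675) (nat_lit 0) (nat_lit 48299966675) (nat_lit 684) (nat_lit 9684524481)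 (nat_lit 94) (nat_lit 5) (nat_lit 94) (nat_lit 3) (nat_lit 103) (nat_lit 3) (nat_lit 341) (nat_lit 341) (nat_lit 98)) (XT.nd (nat_lit 78) (nat_lit 0) (nat_lit 0) (XT.lf (nat_lit 0) (nat_lit 198051899659) (nat_lit 684) (nat_lit 18548226766) (nat_lit 760) (nat_lit 1281907901) (nat_lit 94) (nat_lit 5) (nat_lit 103) (nat_lit 3) (nat_lit 104) (nat_lit 5) (nat_lit 342) (nat_lit 341) (nat_lit 97)) (XT.lf (nat_lit 76) (nat_lit 84876490113) (nat_lit 0) (nat_lit 121178723091) (nat_lit 760) (nat_lit 17260161923) (nat_lit 95) (nat_lit 5) (nat_lit 94) (nat_lit 5) (nat_lit 104) (nat_lit 5) (nat_lit 343) (nat_lit 341) (nat_lit 96))))) (XT.nd (nat_lit 234) (nat_lit 608) (nat_lit 0) (XT.nd (nat_lit 78) (nat_lit 0) (nat_lit 76) (XT.lf (nat_lit 76) (nat_lit 194116347445) (nat_lit 0) (nat_lit 20656385143) (nat_lit 760) (nat_lit 14231948520) (nat_lit 95) (nat_lit 5) (nat_lit 94) (nat_lit 5) (nat_lit 104)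 (nat_lit 5) (nat_lit 344) (nat_lit 341) (nat_lit 95)) (XT.nd (nat_lit 78) (nat_lit 0) (nat_lit 0) (XT.lf (nat_lit 76) (nat_lit 74911941833) (nat_lit 0) (nat_lit 151509096020) (nat_lit 760) (nat_lit 8432669180) (nat_lit 96) (nat_lit 5) (nat_lit 95) (nat_lit 5) (nat_lit 105) (nat_lit 5) (nat_lit 345) (nat_lit 341) (nat_lit 94)) (XT.lf (nat_lit 76) (nat_lit 191063599929) (nat_lit 0) (nat_lit 48512101177) (nat_lit 760) (nat_lit 1373286145) (nat_lit 96) (nat_lit 5) (nat_lit 95) (nat_lit 5) (nat_lit 105) (nat_lit 5) (nat_lit 346) (nat_lit 341) (nat_lit 93)))) (XT.nd (nat_lit 78) (nat_lit 0) (nat_lit 0) (XT.lf (nat_lit 0) (nat_lit 7853389773) (nat_lit 760) (nat_lit 180493559080) (nat_lit 836) (nat_lit 58896987833) (nat_lit 86) (nat_lit 5) (nat_lit 96) (nat_lit 5) (nat_lit 97) (nat_lit 5) (nat_lit 347) (nat_lit 341) (nat_lit 92)) (XT.nd (nat_lit 78) (nat_lit 0) (nat_lit 76) (XT.lf (nat_lit 0)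 (nat_lit 19149141084) (nat_lit 760) (nat_lit 63693248943) (nat_lit 836) (nat_lit 170927423386) (nat_lit 86) (nat_lit 5) (nat_lit 96) (nat_lit 5) (nat_lit 97) (nat_lit 5) (nat_lit 348) (nat_lit 341) (nat_lit 91)) (XT.lf (nat_lit 0) (nat_lit 32412139088) (nat_lit 760) (nat_lit 200130135742) (nat_lit 836) (nat_lit 28009586299) (nat_lit 87) (nat_lit 5) (nat_lit 97) (nat_lit 5) (nat_lit 98) (nat_lit 5) (nat_lit 349) (nat_lit 341) (nat_lit 90))))))) (XT.nd (nat_lit 80808) (nat_lit 0) (nat_lit 608) (XT.nd (nat_lit 40326) (nat_lit 76) (nat_lit 0) (XT.nd (nat_lit 40092) (nat_lit 0) (nat_lit 532) (XT.nd (nat_lit 40014) (nat_lit 0) (nat_lit 532) (XT.lf (nat_lit 0) (nat_lit 48792653926) (nat_lit 760) (nat_lit 76041151468) (nat_lit 836) (nat_lit 142716487596) (nat_lit 87) (nat_lit 5) (nat_lit 97) (nat_lit 5) (nat_lit 98) (nat_lit 5) (nat_lit 350) (nat_lit 341) (nat_lit 89)) (XT.lf (nat_lit 0) (nat_lit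 50715634567) (nat_lit 0) (nat_lit 50715634567) (nat_lit 684) (nat_lit 10167342255) (nat_lit 94) (nat_lit 5) (nat_lit 94) (nat_lit 3) (nat_lit 103) (nat_lit 3) (nat_lit 342) (nat_lit 342) (nat_lit 96))) (XT.nd (nat_lit 78) (nat_lit 0) (nat_lit 0) (XT.lf (nat_lit 0) (nat_lit 207957025427) (nat_lit 684) (nat_lit 19474210779) (nat_lit 760) (nat_lit 1344768767) (nat_lit 94) (nat_lit 5) (nat_lit 103) (nat_lit 3) (nat_lit 104) (nat_lit 5) (nat_lit 343) (nat_lit 342) (nat_lit 95)) (XT.nd (nat_lit 78) (nat_lit 0) (nat_lit 0) (XT.lf (nat_lit 76) (nat_lit 89121718923) (nat_lit 0) (nat_lit 127238687138) (nat_lit 760) (nat_lit 18120611899) (nat_lit 95) (nat_lit 5) (nat_lit 94) (nat_lit 5) (nat_lit 104) (nat_lit 5) (nat_lit 344) (nat_lit 342) (nat_lit 94)) (XT.lf (nat_lit 76) (nat_lit 203823502250) (nat_lit 0) (nat_lit 21690183345) (nat_lit 760) (nat_lit 14941109641) (nat_lit 95) (nat_lit 5) (nat_lit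 94) (nat_lit 5) (nat_lit 104) (nat_lit 5) (nat_lit 345) (nat_lit 342) (nat_lit 93))))) (XT.nd (nat_lit 156) (nat_lit 684) (nat_lit 0) (XT.nd (nat_lit 78) (nat_lit 0) (nat_lit 0) (XT.lf (nat_lit 76) (nat_lit 78658987818) (nat_lit 0) (nat_lit 159085316066) (nat_lit 760) (nat_lit 8851973879) (nat_lit 96) (nat_lit 5) (nat_lit 95) (nat_lit 5) (nat_lit 105) (nat_lit 5) (nat_lit 346) (nat_lit 342) (nat_lit 92)) (XT.lf (nat_lit 76) (nat_lit 200618159824) (nat_lit 0) (nat_lit 50938435041) (nat_lit 760) (nat_lit 1439732586) (nat_lit 96) (nat_lit 5) (nat_lit 95) (nat_lit 5) (nat_lit 105) (nat_lit 5) (nat_lit 347) (nat_lit 342) (nat_lit 91))) (XT.nd (nat_lit 78) (nat_lit 0) (nat_lit 0) (XT.lf (nat_lit 0) (nat_lit 8248116321) (nat_lit 760) (nat_lit 189516689398) (nat_lit 836) (nat_lit 61841221567) (nat_lit 86) (nat_lit 5) (nat_lit 96) (nat_lit 5) (nat_lit 97) (nat_lit 5) (nat_lit 348) (nat_lit 342)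 (nat_lit 90)) (XT.nd (nat_lit 40170) (nat_lit 0) (nat_lit 608) (XT.lf (nat_lit 0) (nat_lit 20108557242) (nat_lit 760) (nat_lit 66876437451) (nat_lit 836) (nat_lit 179473208214) (nat_lit 86) (nat_lit 5) (nat_lit 96) (nat_lit 5) (nat_lit 97) (nat_lit 5) (nat_lit 349) (nat_lit 342) (nat_lit 89)) (XT.lf (nat_lit 0) (nat_lit 53252023604) (nat_lit 0) (nat_lit 53252023604) (nat_lit 684) (nat_lit 10674431862) (nat_lit 94) (nat_lit 5) (nat_lit 94) (nat_lit 3) (nat_lit 103) (nat_lit 3) (nat_lit 343) (nat_lit 343) (nat_lit 94)))))) (XT.nd (nat_lit 40638) (nat_lit 0) (nat_lit 0) (XT.nd (nat_lit 156) (nat_lit 0) (nat_lit 0) (XT.nd (nat_lit 78) (nat_lit 0) (nat_lit 0) (XT.lf (nat_lit 0) (nat_lit 218357172194) (nat_lit 684) (nat_lit 20446626692) (nat_lit 760) (nat_lit 1410887451) (nat_lit 94) (nat_lit 5) (nat_lit 103) (nat_lit 3) (nat_lit 104) (nat_lit 5) (nat_lit 344) (nat_lit 343) (nat_lit 93)) (XT.lf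 (nat_lit 76) (nat_lit 93579078614) (nat_lit 0) (nat_lit 133601553823) (nat_lit 760) (nat_lit 19024322202) (nat_lit 95) (nat_lit 5) (nat_lit 94) (nat_lit 5) (nat_lit 104) (nat_lit 5) (nat_lit 345) (nat_lit 343) (nat_lit 92))) (XT.nd (nat_lit 78) (nat_lit 0) (nat_lit 76) (XT.lf (nat_lit 76) (nat_lit 214015890453) (nat_lit 0) (nat_lit 22775580444) (nat_lit 760) (nat_lit 15685955322) (nat_lit 95) (nat_lit 5) (nat_lit 94) (nat_lit 5) (nat_lit 104) (nat_lit 5) (nat_lit 346) (nat_lit 343) (nat_lit 91)) (XT.nd (nat_lit 78) (nat_lit 0) (nat_lit 0) (XT.lf (nat_lit 76) (nat_lit 82593251398) (nat_lit 0) (nat_lit 167040275970) (nat_lit 760) (nat_lit 9292460320) (nat_lit 96) (nat_lit 5) (nat_lit 95) (nat_lit 5) (nat_lit 105) (nat_lit 5) (nat_lit 347) (nat_lit 343) (nat_lit 90)) (XT.lf (nat_lit 76) (nat_lit 210650319423) (nat_lit 0) (nat_lit 53486017841) (nat_lit 760) (nat_lit 1509707545) (nat_lit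 96) (nat_lit 5) (nat_lit 95) (nat_lit 5) (nat_lit 105) (nat_lit 5) (nat_lit 348) (nat_lit 343) (nat_lit 89))))) (XT.nd (nat_lit 234) (nat_lit 0) (nat_lit 0) (XT.nd (nat_lit 78) (nat_lit 0) (nat_lit 0) (XT.lf (nat_lit 0) (nat_lit 55915175631) (nat_lit 0) (nat_lit 55915175631) (nat_lit 684) (nat_lit 11206994720) (nat_lit 94) (nat_lit 5) (nat_lit 94) (nat_lit 3) (nat_lit 103) (nat_lit 3) (nat_lit 344) (nat_lit 344) (nat_lit 92)) (XT.nd (nat_lit 78) (nat_lit 0) (nat_lit 0) (XT.lf (nat_lit 0) (nat_lit 229277112886) (nat_lit 684) (nat_lit 21467783762) (nat_lit 760) (nat_lit 1480416173) (nat_lit 94) (nat_lit 5) (nat_lit 103) (nat_lit 3) (nat_lit 104) (nat_lit 5) (nat_lit 345) (nat_lit 344) (nat_lit 91)) (XT.lf (nat_lit 76) (nat_lit 98259187870) (nat_lit 0) (nat_lit 140282477163) (nat_lit 760) (nat_lit 19973433740) (nat_lit 95) (nat_lit 5) (nat_lit 94) (nat_lit 5) (nat_lit 104) (nat_lit 5) (nat_lit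 346) (nat_lit 344) (nat_lit 90)))) (XT.nd (nat_lit 40482) (nat_lit 0) (nat_lit 0) (XT.lf (nat_lit 76) (nat_lit 224717785285) (nat_lit 0) (nat_lit 23915164846) (nat_lit 760) (nat_lit 16468248733) (nat_lit 95) (nat_lit 5) (nat_lit 94) (nat_lit 5) (nat_lit 104) (nat_lit 5) (nat_lit 347) (nat_lit 344) (nat_lit 89)) (XT.nd (nat_lit 78) (nat_lit 0) (nat_lit 0) (XT.lf (nat_lit 0) (nat_lit 58711434047) (nat_lit 0) (nat_lit 58711434047) (nat_lit 684) (nat_lit 11766293449) (nat_lit 94) (nat_lit 5) (nat_lit 94) (nat_lit 3) (nat_lit 103) (nat_lit 3) (nat_lit 345) (nat_lit 345) (nat_lit 90)) (XT.lf (nat_lit 0) (nat_lit 240742857041) (nat_lit 684) (nat_lit 22540107858) (nat_lit 760) (nat_lit 1553515758) (nat_lit 94) (nat_lit 5) (nat_lit 103) (nat_lit 3) (nat_lit 104) (nat_lit 5) (nat_lit 346) (nat_lit 345) (nat_lit 89))))))))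

set_option maxRecDepth 10000000 in
noncomputable def Tp : PT := (PT.nd (nat_lit 5415696) (PT.nd (nat_lit 5008770) (PT.nd (nat_lit 4602702) (PT.nd (nat_lit 4197024) pc0 pc1) (PT.nd (nat_lit 243516) pc2 pc3)) (PT.nd (nat_lit 243906) (PT.nd (nat_lit 122382) pc4 pc5) (PT.nd (nat_lit 81666) pc6 pc7))) (PT.nd (nat_lit 282048) (PT.nd (nat_lit 160992) (PT.nd (nat_lit 80730) pc8 pc9) (PT.nd (nat_lit 41730) pc10 pc11)) (PT.nd (nat_lit 161928) (PT.nd (nat_lit 42822) pc12 pc13) (PT.nd (nat_lit 125424) pc14 pc15))))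

set_option maxRecDepth 10000000 in
noncomputable def Tx : XT := (XT.nd (nat_lit 7873866) (nat_lit 0) (nat_lit 76) XT.nil (XT.nd (nat_lit 6173310) (nat_lit 0) (nat_lit 0) (XT.nd (nat_lit 3000738) (nat_lit 0) (nat_lit 76) (XT.nd (nat_lit 2105454) (nat_lit 0) (nat_lit 76) (XT.nd (nat_lit 1461486) (nat_lit 0) (nat_lit 0) (XT.nd (nat_lit 1052532) (nat_lit 0) (nat_lit 0) (XT.nd (nat_lit 729612) (nat_lit 0) (nat_lit 0) (XT.nd (nat_lit 487422) (nat_lit 0) (nat_lit 0) (XT.nd (nat_lit 364416) (nat_lit 0) (nat_lit 0) (XT.nd (nat_lit 243282) (nat_lit 0) (nat_lit 0) xc0 xc1) (XT.nd (nat_lit 81042) (nat_lit 0) (nat_lit 0) xc2 xc3)) (XT.nd (nat_lit 121758) (nat_lit 0) (nat_lit 0) (XT.nd (nat_lit 80184) (nat_lit 0) (nat_lit 0) xc4 xc5) (XT.nd (nat_lit 79326) (nat_lit 0) (nat_lit 0) xc6 xc7))) (XT.nd (nat_lit 162708) (nat_lit 0) (nat_lit 0) (XT.nd (nat_lit 81666) (nat_lit 0) (nat_lit 0) (XT.nd (nat_lit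 40872) (nat_lit 0) (nat_lit 0) xc8 xc9) (XT.nd (nat_lit 40560) (nat_lit 0) (nat_lit 0) xc10 xc11)) (XT.nd (nat_lit 80418) (nat_lit 0) (nat_lit 0) (XT.nd (nat_lit 40248) (nat_lit 0) (nat_lit 0) xc12 xc13) (XT.nd (nat_lit 39936) (nat_lit 0) (nat_lit 0) xc14 xc15)))) (XT.nd (nat_lit 206388) (nat_lit 0) (nat_lit 0) (XT.nd (nat_lit 121680) (nat_lit 0) (nat_lit 0) (XT.nd (nat_lit 42822) (nat_lit 0) (nat_lit 0) (XT.nd (nat_lit 3198) (nat_lit 0) (nat_lit 0) xc16 xc17) (XT.nd (nat_lit 39468) (nat_lit 0) (nat_lit 0) xc18 xc19)) (XT.nd (nat_lit 42432) (nat_lit 0) (nat_lit 0) (XT.nd (nat_lit 3198) (nat_lit 0) (nat_lit 0) xc20 xc21) (XT.nd (nat_lit 39000) (nat_lit 0) (nat_lit 0) xc22 xc23))) (XT.nd (nat_lit 119418) (nat_lit 0) (nat_lit 0) (XT.nd (nat_lit 77610) (nat_lit 0) (nat_lit 0) (XT.nd (nat_lit 38844) (nat_lit 0) (nat_lit 0) xc24 xc25) (XT.nd (nat_lit 3198) (nat_lit 0) (nat_lit 0) xc26 xc27))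 (XT.nd (nat_lit 41652) (nat_lit 0) (nat_lit 0) (XT.nd (nat_lit 3198) (nat_lit 0) (nat_lit 0) xc28 xc29) (XT.nd (nat_lit 38220) (nat_lit 0) (nat_lit 76) xc30 xc31))))) (XT.nd (nat_lit 360516) (nat_lit 0) (nat_lit 0) (XT.nd (nat_lit 198900) (nat_lit 0) (nat_lit 0) (XT.nd (nat_lit 82524) (nat_lit 0) (nat_lit 0) (XT.nd (nat_lit 41262) (nat_lit 0) (nat_lit 0) (XT.nd (nat_lit 38064) (nat_lit 0) (nat_lit 0) xc32 xc33) (XT.nd (nat_lit 37986) (nat_lit 0) (nat_lit 0) xc34 xc35)) (XT.nd (nat_lit 75582) (nat_lit 0) (nat_lit 0) (XT.nd (nat_lit 37830) (nat_lit 0) (nat_lit 0) xc36 xc37) (XT.nd (nat_lit 3198) (nat_lit 76) (nat_lit 0) xc38 xc39))) (XT.nd (nat_lit 81120) (nat_lit 0) (nat_lit 0) (XT.nd (nat_lit 40638) (nat_lit 0) (nat_lit 0) (XT.nd (nat_lit 3198) (nat_lit 76) (nat_lit 0) xc40 xc41) (XT.nd (nat_lit 3198) (nat_lit 76) (nat_lit 0) xc42 xc43)) (XT.nd (nat_lit 40326) (nat_lit 0) (nat_lit 0)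 (XT.nd (nat_lit 3198) (nat_lit 76) (nat_lit 0) xc44 xc45) (XT.nd (nat_lit 3198) (nat_lit 76) (nat_lit 0) xc46 xc47)))) (XT.nd (nat_lit 125970) (nat_lit 0) (nat_lit 0) (XT.nd (nat_lit 46410) (nat_lit 0) (nat_lit 0) (XT.nd (nat_lit 6396) (nat_lit 0) (nat_lit 0) (XT.nd (nat_lit 3198) (nat_lit 228) (nat_lit 0) xc48 xc49) (XT.nd (nat_lit 36738) (nat_lit 0) (nat_lit 76) xc50 xc51)) (XT.nd (nat_lit 39858) (nat_lit 0) (nat_lit 0) (XT.nd (nat_lit 36582) (nat_lit 0) (nat_lit 76) xc52 xc53) (XT.nd (nat_lit 36426) (nat_lit 0) (nat_lit 76) xc54 xc55))) (XT.nd (nat_lit 79014) (nat_lit 0) (nat_lit 0) (XT.nd (nat_lit 39546) (nat_lit 0) (nat_lit 0) (XT.nd (nat_lit 36270) (nat_lit 0) (nat_lit 228) xc56 xc57) (XT.nd (nat_lit 3198) (nat_lit 76) (nat_lit 0) xc58 xc59)) (XT.nd (nat_lit 39312) (nat_lit 0) (nat_lit 0) (XT.nd (nat_lit 3198) (nat_lit 76) (nat_lit 0) xc60 xc61) (XT.nd (nat_lit 3198) (nat_lit 228)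 (nat_lit 0) xc62 xc63)))))) (XT.nd (nat_lit 453180) (nat_lit 0) (nat_lit 0) (XT.nd (nat_lit 244686) (nat_lit 0) (nat_lit 0) (XT.nd (nat_lit 122928) (nat_lit 0) (nat_lit 0) (XT.nd (nat_lit 45396) (nat_lit 0) (nat_lit 0) (XT.nd (nat_lit 6396) (nat_lit 0) (nat_lit 0) (XT.nd (nat_lit 3198) (nat_lit 380) (nat_lit 0) xc64 xc65) (XT.nd (nat_lit 35724) (nat_lit 0) (nat_lit 152) xc66 xc67)) (XT.nd (nat_lit 38844) (nat_lit 0) (nat_lit 0) (XT.nd (nat_lit 35568) (nat_lit 0) (nat_lit 456) xc68 xc69) (XT.nd (nat_lit 3198) (nat_lit 0) (nat_lit 0) xc70 xc71))) (XT.nd (nat_lit 45006) (nat_lit 0) (nat_lit 0) (XT.nd (nat_lit 6474) (nat_lit 0) (nat_lit 0) (XT.nd (nat_lit 3198) (nat_lit 228) (nat_lit 0) xc72 xc73) (XT.nd (nat_lit 35256) (nat_lit 0) (nat_lit 0) xc74 xc75)) (XT.nd (nat_lit 38454) (nat_lit 0) (nat_lit 0) (XT.nd (nat_lit 35178) (nat_lit 0) (nat_lit 456) xc76 xc77) (XT.nd (nat_lit 3198) (nat_lit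 0) (nat_lit 0) xc78 xc79)))) (XT.nd (nat_lit 120354) (nat_lit 0) (nat_lit 0) (XT.nd (nat_lit 44538) (nat_lit 0) (nat_lit 0) (XT.nd (nat_lit 6396) (nat_lit 0) (nat_lit 0) (XT.nd (nat_lit 3198) (nat_lit 228) (nat_lit 0) xc80 xc81) (XT.nd (nat_lit 34866) (nat_lit 0) (nat_lit 152) xc82 xc83)) (XT.nd (nat_lit 37986) (nat_lit 0) (nat_lit 0) (XT.nd (nat_lit 34710) (nat_lit 0) (nat_lit 912) xc84 xc85) (XT.nd (nat_lit 3198) (nat_lit 152) (nat_lit 0) xc86 xc87))) (XT.nd (nat_lit 44148) (nat_lit 0) (nat_lit 0) (XT.nd (nat_lit 6474) (nat_lit 0) (nat_lit 0) (XT.nd (nat_lit 3198) (nat_lit 760) (nat_lit 0) xc88 xc89) (XT.nd (nat_lit 34398) (nat_lit 0) (nat_lit 684) xc90 xc91)) (XT.nd (nat_lit 37518) (nat_lit 0) (nat_lit 0) (XT.nd (nat_lit 3198) (nat_lit 0) (nat_lit 0) xc92 xc93) (XT.nd (nat_lit 3198) (nat_lit 684) (nat_lit 0) xc94 xc95))))) (XT.nd (nat_lit 235716) (nat_lit 0) (nat_lit 0) (XT.nd (nat_lit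 118092) (nat_lit 0) (nat_lit 0) (XT.nd (nat_lit 74490) (nat_lit 0) (nat_lit 0) (XT.nd (nat_lit 37284) (nat_lit 0) (nat_lit 0) (XT.nd (nat_lit 34086) (nat_lit 0) (nat_lit 684) xc96 xc97) (XT.nd (nat_lit 3198) (nat_lit 0) (nat_lit 0) xc98 xc99)) (XT.nd (nat_lit 6474) (nat_lit 152) (nat_lit 0) (XT.nd (nat_lit 3198) (nat_lit 684) (nat_lit 0) xc100 xc101) (XT.nd (nat_lit 33852) (nat_lit 0) (nat_lit 988) xc102 xc103))) (XT.nd (nat_lit 43446) (nat_lit 0) (nat_lit 0) (XT.nd (nat_lit 36972) (nat_lit 0) (nat_lit 152) (XT.nd (nat_lit 3198) (nat_lit 152) (nat_lit 0) xc104 xc105) (XT.nd (nat_lit 3198) (nat_lit 1064) (nat_lit 0) xc106 xc107)) (XT.nd (nat_lit 37050) (nat_lit 0) (nat_lit 0) (XT.nd (nat_lit 33774) (nat_lit 0) (nat_lit 1520) xc108 xc109) (XT.nd (nat_lit 3198) (nat_lit 228) (nat_lit 0) xc110 xc111)))) (XT.nd (nat_lit 87438) (nat_lit 0) (nat_lit 0) (XT.nd (nat_lit 43680) (nat_lit 0) (nat_lit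 0) (XT.nd (nat_lit 6474) (nat_lit 304) (nat_lit 0) (XT.nd (nat_lit 3198) (nat_lit 1520) (nat_lit 0) xc112 xc113) (XT.nd (nat_lit 33930) (nat_lit 0) (nat_lit 2204) xc114 xc115)) (XT.nd (nat_lit 37284) (nat_lit 0) (nat_lit 456) (XT.nd (nat_lit 3198) (nat_lit 380) (nat_lit 0) xc116 xc117) (XT.nd (nat_lit 3198) (nat_lit 1900) (nat_lit 0) xc118 xc119))) (XT.nd (nat_lit 74880) (nat_lit 0) (nat_lit 0) (XT.nd (nat_lit 37362) (nat_lit 0) (nat_lit 0) (XT.nd (nat_lit 34086) (nat_lit 0) (nat_lit 2508) xc120 xc121) (XT.nd (nat_lit 3198) (nat_lit 456) (nat_lit 0) xc122 xc123)) (XT.nd (nat_lit 6474) (nat_lit 456) (nat_lit 0) (XT.nd (nat_lit 3198) (nat_lit 1900) (nat_lit 0) xc124 xc125) (XT.nd (nat_lit 34320) (nat_lit 0) (nat_lit 2204) xc126 xc127))))))) (XT.nd (nat_lit 1014702) (nat_lit 0) (nat_lit 304) (XT.nd (nat_lit 451542) (nat_lit 0) (nat_lit 152) (XT.nd (nat_lit 208572) (nat_lit 0) (nat_lit 0)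 (XT.nd (nat_lit 119652) (nat_lit 0) (nat_lit 0) (XT.nd (nat_lit 44070) (nat_lit 0) (nat_lit 0) (XT.nd (nat_lit 37596) (nat_lit 0) (nat_lit 380) (XT.nd (nat_lit 3198) (nat_lit 456) (nat_lit 0) xc128 xc129) (XT.nd (nat_lit 3198) (nat_lit 1824) (nat_lit 0) xc130 xc131)) (XT.nd (nat_lit 37752) (nat_lit 0) (nat_lit 0) (XT.nd (nat_lit 34476) (nat_lit 0) (nat_lit 1824) xc132 xc133) (XT.nd (nat_lit 3198) (nat_lit 380) (nat_lit 0) xc134 xc135))) (XT.nd (nat_lit 44382) (nat_lit 0) (nat_lit 0) (XT.nd (nat_lit 6474) (nat_lit 228) (nat_lit 0) (XT.nd (nat_lit 3198) (nat_lit 1292) (nat_lit 0) xc136 xc137) (XT.nd (nat_lit 34632) (nat_lit 0) (nat_lit 1216) xc138 xc139)) (XT.nd (nat_lit 38064) (nat_lit 0) (nat_lit 152) (XT.nd (nat_lit 3198) (nat_lit 228) (nat_lit 0) xc140 xc141) (XT.nd (nat_lit 3198) (nat_lit 760) (nat_lit 0) xc142 xc143)))) (XT.nd (nat_lit 121056) (nat_lit 0) (nat_lit 76) (XT.nd (nat_lit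 76284) (nat_lit 0) (nat_lit 0) (XT.nd (nat_lit 38064) (nat_lit 0) (nat_lit 0) (XT.nd (nat_lit 34866) (nat_lit 0) (nat_lit 684) xc144 xc145) (XT.nd (nat_lit 34944) (nat_lit 0) (nat_lit 2356) xc146 xc147)) (XT.nd (nat_lit 38298) (nat_lit 0) (nat_lit 228) (XT.nd (nat_lit 3198) (nat_lit 456) (nat_lit 0) xc148 xc149) (XT.nd (nat_lit 3198) (nat_lit 1444) (nat_lit 0) xc150 xc151))) (XT.nd (nat_lit 76830) (nat_lit 0) (nat_lit 76) (XT.nd (nat_lit 38376) (nat_lit 0) (nat_lit 0) (XT.nd (nat_lit 35100) (nat_lit 0) (nat_lit 912) xc152 xc153) (XT.nd (nat_lit 3198) (nat_lit 76) (nat_lit 0) xc154 xc155)) (XT.nd (nat_lit 38610) (nat_lit 0) (nat_lit 152) (XT.nd (nat_lit 3198) (nat_lit 532) (nat_lit 0) xc156 xc157) (XT.nd (nat_lit 3198) (nat_lit 1520) (nat_lit 0) xc158 xc159))))) (XT.nd (nat_lit 279162) (nat_lit 0) (nat_lit 76) (XT.nd (nat_lit 122694) (nat_lit 0) (nat_lit 0) (XT.nd (nat_lit 77376) (nat_lit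 0) (nat_lit 0) (XT.nd (nat_lit 38610) (nat_lit 0) (nat_lit 0) (XT.nd (nat_lit 35412) (nat_lit 0) (nat_lit 836) xc160 xc161) (XT.nd (nat_lit 3198) (nat_lit 0) (nat_lit 0) xc162 xc163)) (XT.nd (nat_lit 38844) (nat_lit 0) (nat_lit 76) (XT.nd (nat_lit 3198) (nat_lit 380) (nat_lit 0) xc164 xc165) (XT.nd (nat_lit 3198) (nat_lit 1216) (nat_lit 0) xc166 xc167))) (XT.nd (nat_lit 78078) (nat_lit 0) (nat_lit 0) (XT.nd (nat_lit 39000) (nat_lit 0) (nat_lit 0) (XT.nd (nat_lit 35724) (nat_lit 0) (nat_lit 532) xc168 xc169) (XT.nd (nat_lit 35802) (nat_lit 0) (nat_lit 1292) xc170 xc171)) (XT.nd (nat_lit 39156) (nat_lit 0) (nat_lit 0) (XT.nd (nat_lit 3198) (nat_lit 76) (nat_lit 0) xc172 xc173) (XT.nd (nat_lit 3198) (nat_lit 532) (nat_lit 0) xc174 xc175)))) (XT.nd (nat_lit 124800) (nat_lit 0) (nat_lit 0) (XT.nd (nat_lit 45786) (nat_lit 0) (nat_lit 0) (XT.nd (nat_lit 6396) (nat_lit 0) (nat_lit 0) (XT.nd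 (nat_lit 3198) (nat_lit 1140) (nat_lit 0) xc176 xc177) (XT.nd (nat_lit 36114) (nat_lit 0) (nat_lit 228) xc178 xc179)) (XT.nd (nat_lit 39468) (nat_lit 0) (nat_lit 0) (XT.nd (nat_lit 36192) (nat_lit 0) (nat_lit 760) xc180 xc181) (XT.nd (nat_lit 36270) (nat_lit 0) (nat_lit 1520) xc182 xc183))) (XT.nd (nat_lit 79404) (nat_lit 0) (nat_lit 0) (XT.nd (nat_lit 39624) (nat_lit 0) (nat_lit 0) (XT.nd (nat_lit 3198) (nat_lit 76) (nat_lit 0) xc184 xc185) (XT.nd (nat_lit 3198) (nat_lit 380) (nat_lit 0) xc186 xc187)) (XT.nd (nat_lit 39858) (nat_lit 0) (nat_lit 0) (XT.nd (nat_lit 3198) (nat_lit 760) (nat_lit 0) xc188 xc189) (XT.nd (nat_lit 3198) (nat_lit 1292) (nat_lit 0) xc190 xc191)))))) (XT.nd (nat_lit 653952) (nat_lit 0) (nat_lit 532) (XT.nd (nat_lit 289068) (nat_lit 0) (nat_lit 152) (XT.nd (nat_lit 126906) (nat_lit 0) (nat_lit 76) (XT.nd (nat_lit 46488) (nat_lit 0) (nat_lit 76) (XT.nd (nat_lit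 6396) (nat_lit 152) (nat_lit 0) (XT.nd (nat_lit 3198) (nat_lit 1748) (nat_lit 0) xc192 xc193) (XT.nd (nat_lit 36816) (nat_lit 0) (nat_lit 304) xc194 xc195)) (XT.nd (nat_lit 40170) (nat_lit 0) (nat_lit 0) (XT.nd (nat_lit 36894) (nat_lit 0) (nat_lit 456) xc196 xc197) (XT.nd (nat_lit 36972) (nat_lit 0) (nat_lit 608) xc198 xc199))) (XT.nd (nat_lit 80886) (nat_lit 0) (nat_lit 76) (XT.nd (nat_lit 40404) (nat_lit 0) (nat_lit 0) (XT.nd (nat_lit 37128) (nat_lit 0) (nat_lit 760) xc200 xc201) (XT.nd (nat_lit 37206) (nat_lit 0) (nat_lit 988) xc202 xc203)) (XT.nd (nat_lit 40560) (nat_lit 0) (nat_lit 0) (XT.nd (nat_lit 37284) (nat_lit 0) (nat_lit 988) xc204 xc205) (XT.nd (nat_lit 37440) (nat_lit 0) (nat_lit 988) xc206 xc207)))) (XT.nd (nat_lit 163800) (nat_lit 0) (nat_lit 228) (XT.nd (nat_lit 81666) (nat_lit 0) (nat_lit 76) (XT.nd (nat_lit 40716) (nat_lit 0) (nat_lit 76) (XT.nd (nat_lit 37518) (nat_lit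 0) (nat_lit 988) xc208 xc209) (XT.nd (nat_lit 37674) (nat_lit 0) (nat_lit 684) xc210 xc211)) (XT.nd (nat_lit 41028) (nat_lit 0) (nat_lit 76) (XT.nd (nat_lit 37752) (nat_lit 0) (nat_lit 608) xc212 xc213) (XT.nd (nat_lit 37830) (nat_lit 0) (nat_lit 304) xc214 xc215))) (XT.nd (nat_lit 117624) (nat_lit 0) (nat_lit 76) (XT.nd (nat_lit 41262) (nat_lit 0) (nat_lit 0) (XT.nd (nat_lit 37986) (nat_lit 0) (nat_lit 0) xc216 xc217) (XT.nd (nat_lit 38064) (nat_lit 0) (nat_lit 0) xc218 xc219)) (XT.nd (nat_lit 41652) (nat_lit 0) (nat_lit 76) (XT.nd (nat_lit 3198) (nat_lit 988) (nat_lit 0) xc220 xc221) (XT.nd (nat_lit 3198) (nat_lit 304) (nat_lit 0) xc222 xc223))))) (XT.nd (nat_lit 486018) (nat_lit 0) (nat_lit 988) (XT.nd (nat_lit 204672) (nat_lit 0) (nat_lit 380) (XT.nd (nat_lit 119808) (nat_lit 0) (nat_lit 304) (XT.nd (nat_lit 41886) (nat_lit 0) (nat_lit 152) (XT.nd (nat_lit 38688) (nat_lit 0) (nat_lit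 912) xc224 xc225) (XT.nd (nat_lit 38844) (nat_lit 0) (nat_lit 0) xc226 xc227)) (XT.nd (nat_lit 42354) (nat_lit 0) (nat_lit 0) (XT.nd (nat_lit 3198) (nat_lit 836) (nat_lit 0) xc228 xc229) (XT.nd (nat_lit 39234) (nat_lit 0) (nat_lit 684) xc230 xc231))) (XT.nd (nat_lit 121680) (nat_lit 0) (nat_lit 304) (XT.nd (nat_lit 78858) (nat_lit 0) (nat_lit 228) (XT.nd (nat_lit 39312) (nat_lit 0) (nat_lit 152) xc232 xc233) (XT.nd (nat_lit 39546) (nat_lit 0) (nat_lit 912) xc234 xc235)) (XT.nd (nat_lit 79560) (nat_lit 0) (nat_lit 152) (XT.nd (nat_lit 39702) (nat_lit 0) (nat_lit 0) xc236 xc237) (XT.nd (nat_lit 39936) (nat_lit 0) (nat_lit 152) xc238 xc239)))) (XT.nd (nat_lit 287586) (nat_lit 0) (nat_lit 1064) (XT.nd (nat_lit 124332) (nat_lit 0) (nat_lit 532) (XT.nd (nat_lit 43446) (nat_lit 0) (nat_lit 152) (XT.nd (nat_lit 3198) (nat_lit 532) (nat_lit 0) xc240 xc241) (XT.nd (nat_lit 40326) (nat_lit 0) (nat_lit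 228) xc242 xc243)) (XT.nd (nat_lit 81354) (nat_lit 0) (nat_lit 228) (XT.nd (nat_lit 40560) (nat_lit 0) (nat_lit 0) xc244 xc245) (XT.nd (nat_lit 40872) (nat_lit 0) (nat_lit 152) xc246 xc247))) (XT.nd (nat_lit 242502) (nat_lit 0) (nat_lit 1216) (XT.nd (nat_lit 120666) (nat_lit 0) (nat_lit 456) (XT.nd (nat_lit 79170) (nat_lit 0) (nat_lit 456) xc248 xc249) (XT.nd (nat_lit 41496) (nat_lit 0) (nat_lit 228) xc250 xc251)) (XT.nd (nat_lit 162396) (nat_lit 0) (nat_lit 1216) (XT.nd (nat_lit 80808) (nat_lit 0) (nat_lit 532) xc252 xc253) (XT.nd (nat_lit 121680) (nat_lit 0) (nat_lit 1064) xc254 xc255)))))))) XT.nil))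

set_option maxRecDepth 10000000 in
noncomputable def Te : XT := XT.nil

set_option maxRecDepth 10000000 in
noncomputable def Tz : ZL := (ZL.cons (nat_lit 76) (nat_lit 3) (nat_lit 110078782825629675741) (ZL.cons (nat_lit 152) (nat_lit 6) (nat_lit 215233942873561243812) (ZL.cons (nat_lit 228) (nat_lit 6) (nat_lit 210565822170089370610) (ZL.cons (nat_lit 304) (nat_lit 3) (nat_lit 105160549325749285341) (ZL.cons (nat_lit 380) (nat_lit 6) (nat_lit 205664295431443903746) (ZL.cons (nat_lit 456) (nat_lit 6) (nat_lit 201252445586682827128) (ZL.cons (nat_lit 532) (nat_lit 3) (nat_lit 100509687784488651695) (ZL.cons (nat_lit 608) (nat_lit 6) (nat_lit 196620003249683696682) (ZL.cons (nat_lit 684) (nat_lit 6) (nat_lit 192455703777564765512) (ZL.cons (nat_lit 760) (nat_lit 3) (nat_lit 96116866166065466689) (ZL.cons (nat_lit 836) (nat_lit 6) (nat_lit 188083189331839887782) (ZL.cons (nat_lit 912) (nat_lit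 6) (nat_lit 184158492003571771692) (ZL.cons (nat_lit 988) (nat_lit 3) (nat_lit 91973545313484061020) (ZL.cons (nat_lit 1064) (nat_lit 6) (nat_lit 180037559808890249798) (ZL.cons (nat_lit 1140) (nat_lit 6) (nat_lit 176345288470896561830) (ZL.cons (nat_lit 1216) (nat_lit 3) (nat_lit 88071976913256066796) (ZL.cons (nat_lit 1292) (nat_lit 6) (nat_lit 172468403566003189466) (ZL.cons (nat_lit 1368) (nat_lit 6) (nat_lit 169002157717219348504) (ZL.cons (nat_lit 1444) (nat_lit 3) (nat_lit 84405205218426613186) (ZL.cons (nat_lit 1520) (nat_lit 6) (nat_lit 165736963313853982514) (ZL.cons (nat_lit 1596) (nat_lit 6) (nat_lit 165362599575996315494) (ZL.cons (nat_lit 1672) (nat_lit 6) (nat_lit 162116761909954226092) (ZL.cons (nat_lit 1748) (nat_lit 3) (nat_lit 80967072726231340602) (ZL.cons (nat_lit 1824) (nat_lit 6) (nat_lit 159065169253807810334) (ZL.cons (nat_lit 1900) (nat_lit 6) (nat_lit 158708632360610032220)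 (ZL.cons (nat_lit 1976) (nat_lit 6) (nat_lit 155678380507362528902) (ZL.cons (nat_lit 2052) (nat_lit 3) (nat_lit 77752230035828147838) (ZL.cons (nat_lit 2128) (nat_lit 6) (nat_lit 152836175007355296240) (ZL.cons (nat_lit 2204) (nat_lit 6) (nat_lit 152496616061452650416) (ZL.cons (nat_lit 2280) (nat_lit 6) (nat_lit 150175248704635936062) (ZL.cons (nat_lit 2356) (nat_lit 6) (nat_lit 149677938796641468720) (ZL.cons (nat_lit 2432) (nat_lit 3) (nat_lit 74756150143222528061) (ZL.cons (nat_lit 2508) (nat_lit 6) (nat_lit 147041717140877962052) (ZL.cons (nat_lit 2584) (nat_lit 6) (nat_lit 146718327668589727936) (ZL.cons (nat_lit 2660) (nat_lit 6) (nat_lit 144581674375934122070) (ZL.cons (nat_lit 2736) (nat_lit 6) (nat_lit 144108045892129867456) (ZL.cons (nat_lit 2812) (nat_lit 3) (nat_lit 71975147465019022969) (ZL.cons (nat_lit 2888) (nat_lit 6) (nat_lit 141675240000454855970) (ZL.cons (nat_lit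 2964) (nat_lit 6) (nat_lit 141367250026847013954) (ZL.cons (nat_lit 3040) (nat_lit 6) (nat_lit 139414117598584514880) (ZL.cons (nat_lit 3116) (nat_lit 6) (nat_lit 138963042852104272392) (ZL.cons (nat_lit 3192) (nat_lit 3) (nat_lit 69406401920294125947) (ZL.cons (nat_lit 3268) (nat_lit 6) (nat_lit 137319295061752486226) (ZL.cons (nat_lit 3344) (nat_lit 6) (nat_lit 136731949103012814718) (ZL.cons (nat_lit 3420) (nat_lit 6) (nat_lit 136438625318624393748) (ZL.cons (nat_lit 3496) (nat_lit 6) (nat_lit 134668656651598613652) (ZL.cons (nat_lit 3572) (nat_lit 6) (nat_lit 134239061654950763662) (ZL.cons (nat_lit 3648) (nat_lit 3) (nat_lit 67047988441039181595) (ZL.cons (nat_lit 3724) (nat_lit 6) (nat_lit 132768252896786873480) (ZL.cons (nat_lit 3800) (nat_lit 6) (nat_lit 132208875793225281564) (ZL.cons (nat_lit 3876) (nat_lit 6) (nat_lit 131929519808093452072) (ZL.cons (nat_lit 3952) (nat_lit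 6) (nat_lit 131026213067732804344) (ZL.cons (nat_lit 4028) (nat_lit 6) (nat_lit 130343233957586696308) (ZL.cons (nat_lit 4104) (nat_lit 6) (nat_lit 129934095865541124890) (ZL.cons (nat_lit 4180) (nat_lit 3) (nat_lit 64898912326640847935) (ZL.cons (nat_lit 4256) (nat_lit 6) (nat_lit 128637694143664439834) (ZL.cons (nat_lit 4332) (nat_lit 6) (nat_lit 128104954045034352296) (ZL.cons (nat_lit 4408) (nat_lit 6) (nat_lit 127838900725861181350) (ZL.cons (nat_lit 4484) (nat_lit 6) (nat_lit 127088195542377744862) (ZL.cons (nat_lit 4560) (nat_lit 6) (nat_lit 126437739247000499118) (ZL.cons (nat_lit 4636) (nat_lit 6) (nat_lit 126048083921242812052) (ZL.cons (nat_lit 4712) (nat_lit 3) (nat_lit 62959150907164535063) (ZL.cons (nat_lit 4788) (nat_lit 6) (nat_lit 125691048871342595454) (ZL.cons (nat_lit 4864) (nat_lit 6) (nat_lit 124928481912396627606) (ZL.cons (nat_lit 4940) (nat_lit 6) (nat_lit 124421110389891782334)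 (ZL.cons (nat_lit 5016) (nat_lit 6) (nat_lit 124167726276393524288) (ZL.cons (nat_lit 5092) (nat_lit 6) (nat_lit 124442927590866050780) (ZL.cons (nat_lit 5168) (nat_lit 6) (nat_lit 123573588571378442832) (ZL.cons (nat_lit 5244) (nat_lit 6) (nat_lit 122954106385304875456) (ZL.cons (nat_lit 5320) (nat_lit 6) (nat_lit 122583006075059459204) (ZL.cons (nat_lit 5396) (nat_lit 3) (nat_lit 61229702034237471542) (ZL.cons (nat_lit 5472) (nat_lit 6) (nat_lit 122369833287419711020) (ZL.cons (nat_lit 5548) (nat_lit 6) (nat_lit 121643579040804503544) (ZL.cons (nat_lit 5624) (nat_lit 6) (nat_lit 121160368066990365188) (ZL.cons (nat_lit 5700) (nat_lit 6) (nat_lit 120919049863658690862) (ZL.cons (nat_lit 5776) (nat_lit 6) (nat_lit 121314349976511006620) (ZL.cons (nat_lit 5852) (nat_lit 6) (nat_lit 120486408053189475242) (ZL.cons (nat_lit 5928) (nat_lit 6) (nat_lit 119896425018833696786) (ZL.cons (nat_lit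 6004) (nat_lit 6) (nat_lit 119542996151933300356) (ZL.cons (nat_lit 6080) (nat_lit 3) (nat_lit 59712639977593071075) (ZL.cons (nat_lit 6156) (nat_lit 6) (nat_lit 120404625583150166048) (ZL.cons (nat_lit 6232) (nat_lit 6) (nat_lit 119479838253441659524) (ZL.cons (nat_lit 6308) (nat_lit 6) (nat_lit 118788167542379557166) (ZL.cons (nat_lit 6384) (nat_lit 6) (nat_lit 118327966614937520636) (ZL.cons (nat_lit 6460) (nat_lit 6) (nat_lit 118098139754621640326) (ZL.cons (nat_lit 6536) (nat_lit 6) (nat_lit 118530050899972071678) (ZL.cons (nat_lit 6612) (nat_lit 6) (nat_lit 119014131395104562392) (ZL.cons (nat_lit 6688) (nat_lit 6) (nat_lit 119638494096876806356) (ZL.cons (nat_lit 6764) (nat_lit 6) (nat_lit 118621473046799752072) (ZL.cons (nat_lit 6840) (nat_lit 6) (nat_lit 117832956929350674568) (ZL.cons (nat_lit 6916) (nat_lit 6) (nat_lit 117271068325202314136) (ZL.cons (nat_lit 6992) (nat_lit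 6) (nat_lit 116934469404344793726) (ZL.cons (nat_lit 7068) (nat_lit 3) (nat_lit 58411179370388035811) (ZL.cons (nat_lit 7144) (nat_lit 6) (nat_lit 116493286487343670884) (ZL.cons (nat_lit 7220) (nat_lit 6) (nat_lit 116634380242911250604) (ZL.cons (nat_lit 7296) (nat_lit 6) (nat_lit 116916903691559666186) (ZL.cons (nat_lit 7372) (nat_lit 6) (nat_lit 117341529508166651950) (ZL.cons (nat_lit 7448) (nat_lit 6) (nat_lit 117909268706581272150) (ZL.cons (nat_lit 7524) (nat_lit 6) (nat_lit 117028518868763646886) (ZL.cons (nat_lit 7600) (nat_lit 6) (nat_lit 116369784858228311308) (ZL.cons (nat_lit 7676) (nat_lit 6) (nat_lit 115931498260664466996) (ZL.cons (nat_lit 7752) (nat_lit 6) (nat_lit 115712615536554104792) (ZL.cons (nat_lit 7828) (nat_lit 3) (nat_lit 57606606454472465742) (ZL.cons (nat_lit 7904) (nat_lit 6) (nat_lit 115285480442284423536) (ZL.cons (nat_lit 7980) (nat_lit 6) (nat_lit 115502455107858469910)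 (ZL.cons (nat_lit 8056) (nat_lit 6) (nat_lit 115864653512013675478) (ZL.cons (nat_lit 8132) (nat_lit 6) (nat_lit 116372938031902790728) (ZL.cons (nat_lit 8208) (nat_lit 6) (nat_lit 115621970300998907390) (ZL.cons (nat_lit 8284) (nat_lit 6) (nat_lit 115086838297048087932) (ZL.cons (nat_lit 8360) (nat_lit 6) (nat_lit 114766267896231401826) (ZL.cons (nat_lit 8436) (nat_lit 3) (nat_lit 57329747917844880863) (ZL.cons (nat_lit 8512) (nat_lit 6) (nat_lit 114135188970799426062) (ZL.cons (nat_lit 8588) (nat_lit 6) (nat_lit 114283337414145384768) (ZL.cons (nat_lit 8664) (nat_lit 6) (nat_lit 114579987035226221128) (ZL.cons (nat_lit 8740) (nat_lit 6) (nat_lit 115025844142663556182) (ZL.cons (nat_lit 8816) (nat_lit 6) (nat_lit 114398478418344188964) (ZL.cons (nat_lit 8892) (nat_lit 6) (nat_lit 113981062611140527712) (ZL.cons (nat_lit 8968) (nat_lit 6) (nat_lit 113772602873892563710) (ZL.cons (nat_lit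 9044) (nat_lit 3) (nat_lit 56590383519619218380) (ZL.cons (nat_lit 9120) (nat_lit 6) (nat_lit 113256647949244903414) (ZL.cons (nat_lit 9196) (nat_lit 6) (nat_lit 113484471348097652106) (ZL.cons (nat_lit 9272) (nat_lit 6) (nat_lit 113864779672460617952) (ZL.cons (nat_lit 9348) (nat_lit 6) (nat_lit 113355130144888408940) (ZL.cons (nat_lit 9424) (nat_lit 6) (nat_lit 113049825001253469792) (ZL.cons (nat_lit 9500) (nat_lit 3) (nat_lit 56474068662273572945) (ZL.cons (nat_lit 9576) (nat_lit 6) (nat_lit 112419942214431072318) (ZL.cons (nat_lit 9652) (nat_lit 6) (nat_lit 112575498079944328958) (ZL.cons (nat_lit 9728) (nat_lit 6) (nat_lit 112886980182079207136) (ZL.cons (nat_lit 9804) (nat_lit 6) (nat_lit 112489441318075720228) (ZL.cons (nat_lit 9880) (nat_lit 6) (nat_lit 112290908234982421180) (ZL.cons (nat_lit 9956) (nat_lit 3) (nat_lit 55885614026596214990) (ZL.cons (nat_lit 10032) (nat_lit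 6) (nat_lit 111850903008699219966) (ZL.cons (nat_lit 10108) (nat_lit 6) (nat_lit 112090117577494606092) (ZL.cons (nat_lit 10184) (nat_lit 6) (nat_lit 111799350774032759284) (ZL.cons (nat_lit 10260) (nat_lit 3) (nat_lit 55851252683822892069) (ZL.cons (nat_lit 10336) (nat_lit 6) (nat_lit 111308960908002217728) (ZL.cons (nat_lit 10412) (nat_lit 6) (nat_lit 111472294566791137200) (ZL.cons (nat_lit 10488) (nat_lit 6) (nat_lit 111283215440035614294) (ZL.cons (nat_lit 10564) (nat_lit 3) (nat_lit 55474190719759164689) (ZL.cons (nat_lit 10640) (nat_lit 6) (nat_lit 111032040142800458864) (ZL.cons (nat_lit 10716) (nat_lit 3) (nat_lit 55469903211215955552) (ZL.cons (nat_lit 10792) (nat_lit 6) (nat_lit 110768306080703545660) (ZL.cons (nat_lit 10868) (nat_lit 1) (nat_lit 18446744073709551617) ZL.nil)))))))))))))))))))))))))))))))))))))))))))))))))))))))))))))))))))))))))))))))))))))))))))))))))))))))))))))))))))))))))))))))))))))))))))))))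

noncomputable def vl : XL := ⟨(nat_lit 0), (nat_lit 76), (nat_lit 136382531), (nat_lit 152), (nat_lit 206325722), (nat_lit 152), (nat_lit 206325722), (nat_lit 1), (nat_lit 4), (nat_lit 2), (nat_lit 5), (nat_lit 2), (nat_lit 4), (nat_lit 0), (nat_lit 0), (nat_lit 0)⟩

noncomputable def cp0 : Nat := (nat_lit 1440799082087349466590916005656252858298244626830516138594829111892376642312351503840002961358572983641019046447577000027489801786493729988232141609693099251595113755806692016307631021691529663012526719725021380582219172560446244344715512679474074520183349125601175234111404775479067017860546727725073643278508455630118612365794553277643542612644360820610495760438325057281494180804311337805296688830118899966775562132039634745468002187363663481956385460744970065636776307046204639565829864024442792245515695598596087299107577064425807180313107900984564498503004234759872395379979727972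50461957758420326210808545319254629074464209924191341309961516981962333274553291794318059942524158918154452448744338439087148560212577910044343264524538539021754641098143075180122096165228206936765461508810946959412231514214983427799400693442438953568143694432340169769352657216474701755170814474234965827010481531534572260455674009354795204538350256941154034490506498197626974041086432296595121066098615367003832798113927595685667294287220837810228822420180131742183902649417768579949491195419515003237824103926640768680099024162973089621647506214443984225019464354641994683028832951993345382883419871115788636338874615281417492334547690710148688576702908439374070062546751954153641744608081536185187934319617718225368960628153604132578805523633933487952401189560624971167430612129236657065282519302615820293106761002565435999101281055394403040799270284805354149682847542337318547488456538523606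27200965706411634413771233146244790370021898343404640334834288180655776804391245696966447244890587205923023586717580155400379215683171609285670275042603849379362528460646965528895646505360782057439167875792864447697247878549221262044589565063337347976056235425297948508570879232368626571353904105793284797474321957317643822364632023013455571364634507443718450776211058207802870256606132718803759288479883299548023299431085878569085679951691333262056345565902280691230669513472953313645500966465339080927443689646699995957357953803740797642299280953423705913266904045753217368766865151223008824127389857686833918200760792902431027274781037433339694089715867625142015054979126454198592446895251245329648668468205079050615786407844620167697796228142172890359025406487466959227328092924051845852558320760604035189239328095960197962808123681202051746083130951630290972223834984201600469066214950719975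3285128194334303263033085114988879671545323503186426121791897241740384565241171783138064349486802532815376530089289297995766389265331675165684619502653986657633939527360186926855827319861910130133928626136979776642107227253124018796549171127268346819605353043548809669173930601581817794909639983581417039727687564160231432758855170830939169322994453453457846600779132401490837718680503547337707508408150865138781616284615417636125641208047492444235364383116992518123538006386661493834066967338448932472604694135550576267647679027523672237637222196826159750733468954377782905791955904835222649173744626538791529733716344058892861547572372164505319066883803029768623735110451234245444511810355150705943154347306516547653482920056157599153818915258449347603959023378457437475865787106224246987011942045864639150349772869703813649341076212739450051059116294884815566657025818331294717130271825566813964317736399011840)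

noncomputable def cp1 : Nat := (nat_lit 16151835530528160503407781469066906089076261516359413017415378551581959349550273543999528490042549179755098060981926470597127342805992734403235428761945557071694765693602455740902913491853189220143156154366413652857228770794891470905120423767833124087463431114722610260564244352037889295539152300737159683704622540684620948994045659349062415300863699952207753847698053680569338455723438110276408990154386603153082007604063119534146673764586854741693304823832277687397174716913292275905793561091029434354565338999844020135149313352534770474250298314521110206422273739014857791947192517491650969791621656936276136516646339356378087759851907198362901658779296709656786032345843210761458949879473243108722896488214221135206557303534608996308062058938222607855056232908354906587874725960197720606744202440747578991066247271151778909305099364519127084205360108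28792824160333384436722459108707251916474492836311467983324433240985351837546238322303055080286662069124490445069202656742164248902482704619827356195096193449960863102108801437084337631570263362528007114619705603578449102493958756704792232084427562111873488739235163318440080786760810851552106983990453720573081957893036815991359264102631948679752861757229491801809875180260624887410388334786873223808630473566833709414636531594199640359325269989264869329912824264702046874886114163007298930327044088349222640401476315052870032182524056418761559416070088774872867527250088366956353342395610740150279673067535798735459146744134252319578990442174126548024437696809247466688824194919739800889327436587865363106920431554799177926156661095760067480294872907191556096097367367837132709366233033487084106476605378384215374073439369231236424109371471455743891731210450523867685120600601814826312982083595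50779585965207389042427059347836574653685262257663170583214482136714313231140192404031052647314451316768840960013008735199979205607620966214103841891487205594647938378406333569356769263542492838566205256458480253611308406765357429519201012294030860826018758171199361834246931462234044061453736440538297363076548707248002689298596552840967049633197889501677181341179961836743308364233998214586677510683863634022051482551869307741606766099548770172012777741957945130393586375227480748452087396976081466871804179954315868378313722470533772045280435870603091976872569138640274855371870205643120559503285928908355713585665884659950182023881849589627914487316871881850438979161187426999815950979386236335270139651514489967653267119446002093320006192052468472570583385850326898606573022023987391268306329259863482882248459797229447683484449862166484282279347316643417328347724169761448247566814738127866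078638620889880956964380389151700878169278696001481753542776520477613014350186305019457399667532142237149324006887205157827633763679523277494192936119324466388335685564010179359328866958056223031971020837612062836786584037274222154991601752681602095324185738703268433465322523632199553681423478578160963610409253823020499190537611648112824487302189306561923764999809756597257095453211962695004341220465463012814500551838075547506083699456605289547453514718540342778993561769866952611044587908397457662850563819276215139148982347329866631488530001555439986295677742121325952137414551102416829369021018844887354239408622568781395664540015897083904)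

noncomputable def rc0 : Nat := (nat_lit 14987958007987283074466801076075322400086454199320020628541460667959786433239592964755476450848007049766375025817682033655410984597448150976723143094849755119894443012322384965839233636359433667407960129653675924395858871852136046940901449316508848565769676004671479835480431901207857155818114610827514310840278028144781158841969427930090893147728647552516397142014539763002496983838170739063752057466087113222921861006149569517650276486464117467765270849381909101911753164270104042791753012547217749990402886014773636392092471601588609953260725274181254875382025696489674110666821056282700689522805180049775495639887637139414665109507597459176230003543175440999464131675723985068972489842955444692835041047185850646421987952017719296066605713240100343624415613177994261792484282534095729495004802634916614967722178404429125746994563429605336885000030641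12535098450850718142893579418995979902994895928564287055402499981356786333528701655981827561088661930980937568098125073103505248947140048206913096457312517736298383561578239245430603332526795157996945383269263745354173516726879361659410494815209014886897315360487936352198313584828330214664791625909396736400513543937613730176364033303592840982850869275413591153982876044927702379637562195697584902965637873083274177982601562385055607293039859192696787253440198326918667593141275572228464315135654038314385550314414827779002799580827397558385444429884463040210537681088095902018356572417625059163344882422356748489435641573820724273500027679476704389699475775480135423188000360980406113535978083483657583620906012370082257168310577181009487322941234227386278071105556799991230438601743763178437094936360707684989960850410889234206357654270139196519360273467511791023480786798471259382252823011977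91681909013249687715735262932671007185072735729139576835399504804181268192761698938415393318075991695413986227404440304196913421204513569743664076040425848812605157336298740833062605793199118554158260667193370500831139772902259056636008476205501499976751855591633032556635710314535816203220394960669579795393579839175642852108780234451834542584452435390308940167066334881708676835590112165918218482352862366038940275943679409425633792762552170858523860429107868351684413510314097507313713755268536064680785500182984101185767829594452033354176672934186497580457575339973080866298476965847307514675945504480032672361013969009261260027571837595724175617077801378807226552630339806634711246687722526686276329168936810358630031394574759451008009579336388152251524552667843870315365601905278405483337314188306780162330783932773432835133797911044983866206641359314033293129989895866146422268767688913386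543791747095426068952260961118663563050873347810908609716556656260694173250728309662362411911287241675922626535174714612656279231903874015695824050128821976137089222190558158738988105223073324367857140623662296993374881839657236359836717350554127668681177478352047573551825022323614841863360483436069464705995873251893009680403276067584688527852965603694879437863891299282635614884169040573217929168026449144447867862006364728903958842783442378641770609960166804317711700365857159904275245549080721051062126983993436318301762139874636748546426631985374558881138602510260439899849161053329665630393417219766161959331589276737353561154339943219200)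

noncomputable def rc1 : Nat := (nat_lit 16151835530528160503407781469066906089076261516359413017415378551581959349550273543999528490042549179755098060981926470597127342805992734403235428761945557071694765693602455740902913491853189220143156154366413652857228770794891470905120423767833124087463431114722610260564244352037889295539152300737159683704622540684620948994045659349062415300863699952207753847698053680569338455723438110276408990154386603153082007604063119534146673764586854741693304823832277687397174716913292275905793561091029434354565338999844020135149313352534770474250298314521110206422273739014857791947192517491650969791621656936276136516646339356378087759851907198362901658779296709656786032345843210761458949879473243108722896488214221135206557303534608996308062058938222607855056232908354906587874725960197720606744202440747578991066247271151778909305099364519127084205360108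28792824160333384436722459108707251916474492836311467983324433240985351837546238322303055080286662069124490445069202656742164248902482704619827356195096193449960863102108801437084337631570263362528007114619705603578449102493958756704792232084427562111873488739235163318440080786760810851552106983990453720573081957893036815991359264102631948679752861757229491801809875180260624887410388334786873223808630473566833709414636531594199640359325269989264869329912824264702046874886114163007298930327044088349222640401476315052870032182524056418761559416070088774872867527250088366956353342395610740150279673067535798735459146744134252319578990442174126548024437696809247466688824194919739800889327436587865363106920431554799177926156661095760067480294872907191556096097367367837132709366233033487084106476605378384215374073439369231236424109371471455743891731210450523867685120600601814826312982083595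50779585965207389042427059347836574653685262257663170583214482136714313231140192404031052647314451316768840960013008735199979205607620966214103841891487205594647938378406333569356769263542492838566205256458480253611308406765357429519201012294030860826018758171199361834246931462234044061453736440538297363076548707248002689298596552840967049633197889501677181341179961836743308364233998214586677510683863634022051482551869307741606766099548770172012777741957945130393586375227480748452087396976081466871804179954315868378313722470533772045280435870603091976872569138640274855371870205643120559503285928908355713585665884659950182023881849589627914487316871881850438979161187426999815950979386236335270139651514489967653267119446002093320006192052468472570583385850326898606573022023987391268306329259863482882248459797229447683484449862166484282279347316643417328347724169761448247566814738127866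078638620889880956964380389151700878169278696001481753542776520477613014350186305019457399667532142237149324006887205157827633763679523277494192936119324466388335685564010179359328866958056223031971020837612062836786584037274222154991601752681602095324185738703268433465322523632199553681423478578160963610409253823020499190537611648112824487302189306561923764999809756597257095453211962695004341220465463012814500551838075547506083699456605289547453514718540342778993561769866952611044587908397457662850563819276215139148982347329866631488530001555439986295677742121325952137414551102416829369021018844887354239408622568781395664540015897083904)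

end Vale.Agent.Lib.P154.PChain.BM.S4
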